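import Crest.Agent.S0047_aux.Checker

set_option autoImplicit false
set_option maxRecDepth 100000
namespace Crest.Agent.SnakyAux
open Cert
def t0 : Tbl := Tbl.nil
theorem t0_valid : t0.Valid := Tbl.valid_nil
def c0 : Cert :=
(mv 1039 (cons (cons (cons (cons (mv 1038 (cons (cons (cons (mv 1037 (cons (cons (mv 972 (cons (fin 973 3 972)
(mv 971 (cons (fin 1036 3 971)
(mv 976 (cons (fin 977 2 973)
(mv 1101 (cons (fin 1100 1 1036)
(mv 1041 (cons (fin 1102 1 1037)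
(mv 1105 (cons (fin 1104 0 1037)
(fin 1106 0 1038)))))))))))))
(cons (mv 976 (cons (fin 977 2 973)
(mv 975 (cons (fin 1036 2 972)
(mv 1100 (cons (fin 1101 1 1036)
(mv 1104 (cons (fin 1105 0 1037)
(mv 911 (cons (fin 1168 7 911)
(fin 847 4 847)))))))))))
(mv 972 (cons (fin 973 3 972)
(mv 971 (cons (fin 1036 3 971)
(mv 977 (cons (fin 976 2 973)
(mv 1041 (cons (fin 978 2 974)
(mv 1105 (cons (fin 1104 0 1037)
(fin 1106 0 1038)))))))))))))
(cons (cons (mv 972 (cons (fin 973 3 972)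
(mv 971 (cons (fin 1036 3 971)
(mv 1101 (cons (fin 1100 1 1036)
(mv 1041 (cons (fin 1102 1 1037)
(mv 1105 (cons (fin 1104 0 1037)
(fin 1106 0 1038)))))))))))
(mv 972 (cons (fin 973 3 972)
(mv 971 (cons (fin 1036 3 971)
(mv 976 (cons (fin 977 2 973)
(mv 1101 (cons (fin 1100 1 1036)
(mv 1041 (cons (fin 1102 1 1037)
(mv 1106 (cons (fin 1105 0 1038)
(mv 1042 (cons (fin 1107 0 1039)
(mv 975 (cons (fin 974 3 974)
(fin 1043 3 975))))))))))))))))))
(cons (mv 972 (cons (fin 973 3 972)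
(mv 971 (cons (fin 1036 3 971)
(mv 977 (cons (fin 976 2 973)
(mv 1041 (cons (fin 978 2 974)
(mv 1101 (cons (fin 1100 1 1036)
(fin 1102 1 1037)))))))))))
(mv 972 (cons (fin 973 3 972)
(mv 976 (cons (fin 977 2 973)
(mv 1101 (cons (fin 1100 1 1036)
(mv 1041 (cons (fin 1102 1 1037)
(mv 1105 (cons (fin 1104 0 1037)
(fin 1106 0 1038)))))))))))))))
(mv 1041 (cons (cons (mv 973 (cons (fin 974 3 973)
(mv 977 (cons (fin 978 2 974)
(mv 1102 (cons (fin 1101 1 1037)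
(mv 1042 (cons (fin 1103 1 1038)
(mv 1106 (cons (fin 1105 0 1038)
(fin 1107 0 1039)))))))))))
(cons (mv 977 (cons (fin 978 2 974)
(mv 1102 (cons (fin 1101 1 1037)
(mv 1042 (cons (fin 1103 1 1038)
(mv 1106 (cons (fin 1105 0 1038)
(fin 1107 0 1039)))))))))
(mv 973 (cons (fin 974 3 973)
(mv 978 (cons (fin 977 2 974)
(mv 1042 (cons (fin 979 2 975)
(mv 1106 (cons (fin 1105 0 1038)
(fin 1107 0 1039)))))))))))
(cons (mv 973 (cons (fin 974 3 973)
(mv 1102 (cons (fin 1101 1 1037)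
(mv 1042 (cons (fin 1103 1 1038)
(mv 1106 (cons (fin 1105 0 1038)
(fin 1107 0 1039)))))))))
(cons (mv 973 (cons (fin 974 3 973)
(mv 978 (cons (fin 977 2 974)
(mv 1042 (cons (fin 979 2 975)
(mv 1102 (cons (fin 1101 1 1037)
(fin 1103 1 1038)))))))))
(mv 973 (cons (fin 974 3 973)
(mv 977 (cons (fin 978 2 974)
(mv 1101 (cons (fin 1102 1 1037)
(mv 1105 (cons (fin 1106 0 1038)
(mv 913 (cons (mv 1104 (cons (fin 849 5 848)
(fin 1168 5 912)))
(cons (mv 848 (cons (fin 912 7 848)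
(mv 849 (cons (fin 784 7 784)
(mv 850 (cons (fin 786 6 785)
(fin 914 6 849)))))))
(mv 848 (cons (fin 912 7 848)
(mv 850 (cons (fin 914 6 849)
(mv 1168 (cons (fin 1104 5 912)
(mv 1169 (cons (fin 1232 5 976)
(mv 1233 (cons (fin 976 7 976)
(mv 1234 (cons (fin 1170 4 977)
(fin 1298 4 1041)))))))))))))))))))))))))))))
(cons (mv 1037 (cons (cons (mv 972 (cons (fin 973 3 972)
(mv 976 (cons (fin 977 2 973)
(mv 1036 (cons (fin 971 3 971)
(fin 975 2 972)))))))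
(mv 972 (cons (fin 973 3 972)
(mv 1036 (cons (fin 971 3 971)
(mv 1100 (cons (fin 1099 1 1035)
(fin 1101 1 1036))))))))
(cons (mv 976 (cons (fin 977 2 973)
(mv 975 (cons (fin 1036 2 972)
(mv 1100 (cons (fin 1101 1 1036)
(mv 1104 (cons (fin 1105 0 1037)
(mv 911 (cons (fin 1168 7 911)
(fin 847 4 847)))))))))))
(mv 972 (cons (fin 973 3 972)
(mv 976 (cons (fin 977 2 973)
(mv 1100 (cons (fin 1101 1 1036)
(mv 1104 (cons (fin 1105 0 1037)
(mv 912 (cons (mv 1103 (cons (fin 848 5 847)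
(fin 1167 5 911)))
(cons (mv 847 (cons (fin 911 7 847)
(mv 848 (cons (fin 783 7 783)
(mv 849 (cons (fin 785 6 784)
(fin 913 6 848)))))))
(mv 847 (cons (fin 911 7 847)
(mv 849 (cons (fin 913 6 848)
(mv 1167 (cons (fin 1103 5 911)
(mv 1168 (cons (fin 1231 5 975)
(mv 1232 (cons (fin 975 7 975)
(mv 1233 (cons (fin 1169 4 976)
(fin 1297 4 1040)))))))))))))))))))))))))))
(mv 1041 (cons (cons (mv 977 (cons (fin 978 2 974)
(mv 976 (cons (fin 1037 2 973)
(mv 1101 (cons (fin 1102 1 1037)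
(mv 1105 (cons (fin 1106 0 1038)
(mv 912 (cons (fin 1169 7 912)
(fin 848 4 848)))))))))))
(mv 1101 (cons (fin 1102 1 1037)
(mv 1037 (cons (fin 1100 1 1036)
(mv 1105 (cons (fin 1104 0 1037)
(fin 1106 0 1038))))))))
(cons (mv 977 (cons (fin 978 2 974)
(mv 976 (cons (fin 1037 2 973)
(mv 1102 (cons (fin 1101 1 1037)
(mv 1042 (cons (fin 1103 1 1038)
(mv 975 (cons (fin 974 3 974)
(fin 1043 3 975)))))))))))
(cons (mv 977 (cons (fin 978 2 974)
(mv 976 (cons (fin 1037 2 973)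
(mv 1105 (cons (fin 1106 0 1038)
(mv 912 (cons (fin 1169 7 912)
(fin 848 4 848)))))))))
(mv 977 (cons (fin 978 2 974)
(mv 1102 (cons (fin 1101 1 1037)
(mv 1042 (cons (fin 1103 1 1038)
(mv 1106 (cons (fin 1105 0 1038)
(fin 1107 0 1039)))))))))))))))
(cons (cons (mv 1041 (cons (cons (mv 973 (cons (fin 974 3 973)
(mv 972 (cons (fin 1037 3 972)
(mv 977 (cons (fin 978 2 974)
(mv 1106 (cons (fin 1105 0 1038)
(mv 1042 (cons (fin 1107 0 1039)
(mv 849 (cons (fin 913 4 849)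
(mv 1103 (cons (fin 1102 1 1038)
(mv 1104 (cons (fin 1043 1 1039)
(mv 1168 (cons (fin 1232 6 976)
(mv 911 (cons (fin 975 4 911)
(mv 1170 (cons (fin 1234 7 977)
(mv 1169 (cons (fin 1171 3 1103)
(mv 976 (cons (fin 1233 4 976)
(mv 912 (cons (fin 847 7 847)
(fin 848 5 847)))))))))))))))))))))))))))))
(cons (mv 973 (cons (fin 974 3 973)
(mv 972 (cons (fin 1037 3 972)
(mv 1106 (cons (fin 1105 0 1038)
(mv 1042 (cons (fin 1107 0 1039)
(mv 979 (cons (fin 978 2 975)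
(mv 1043 (cons (fin 980 2 976)
(mv 1103 (cons (fin 1102 1 1038)
(fin 1104 1 1039)))))))))))))))
(mv 973 (cons (fin 974 3 973)
(mv 972 (cons (fin 1037 3 972)
(mv 978 (cons (fin 977 2 974)
(mv 1042 (cons (fin 979 2 975)
(mv 1103 (cons (fin 1102 1 1038)
(mv 1043 (cons (fin 1104 1 1039)
(mv 1107 (cons (fin 1106 0 1039)
(fin 1108 0 1040)))))))))))))))))
(cons (cons (mv 977 (cons (fin 978 2 974)
(mv 976 (cons (fin 1037 2 973)
(mv 1105 (cons (fin 1106 0 1038)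
(mv 912 (cons (fin 1169 7 912)
(fin 848 4 848)))))))))
(mv 973 (cons (fin 974 3 973)
(mv 1037 (cons (fin 972 3 972)
(mv 1105 (cons (fin 1104 0 1037)
(fin 1106 0 1038))))))))
(cons (mv 973 (cons (fin 974 3 973)
(mv 977 (cons (fin 978 2 974)
(mv 1037 (cons (fin 972 3 972)
(fin 976 2 973)))))))
(mv 973 (cons (fin 974 3 973)
(mv 977 (cons (fin 978 2 974)
(mv 1106 (cons (fin 1105 0 1038)
(mv 1042 (cons (fin 1107 0 1039)
(mv 849 (cons (fin 913 4 849)
(mv 1103 (cons (fin 1102 1 1038)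
(mv 1104 (cons (fin 1043 1 1039)
(mv 1168 (cons (fin 1232 6 976)
(mv 911 (cons (fin 975 4 911)
(mv 1170 (cons (fin 1234 7 977)
(mv 1169 (cons (fin 1171 3 1103)
(mv 976 (cons (fin 1233 4 976)
(mv 912 (cons (fin 847 7 847)
(fin 848 5 847)))))))))))))))))))))))))))))))
(mv 1037 (cons (cons (mv 972 (cons (fin 973 3 972)
(mv 971 (cons (fin 1036 3 971)
(mv 1101 (cons (fin 1100 1 1036)
(mv 1041 (cons (fin 1102 1 1037)
(mv 1105 (cons (fin 1104 0 1037)
(fin 1106 0 1038)))))))))))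
(cons (mv 1100 (cons (fin 1101 1 1036)
(mv 1036 (cons (fin 1099 1 1035)
(mv 1104 (cons (fin 1103 0 1036)
(fin 1105 0 1037)))))))
(mv 972 (cons (fin 973 3 972)
(mv 1036 (cons (fin 971 3 971)
(mv 1104 (cons (fin 1103 0 1036)
(fin 1105 0 1037)))))))))
(cons (mv 972 (cons (fin 973 3 972)
(mv 971 (cons (fin 1036 3 971)
(mv 1101 (cons (fin 1100 1 1036)
(mv 1041 (cons (fin 1102 1 1037)
(mv 1106 (cons (fin 1105 0 1038)
(mv 1042 (cons (fin 1107 0 1039)
(mv 975 (cons (fin 974 3 974)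
(mv 979 (cons (fin 978 2 975)
(mv 1043 (cons (fin 976 3 975)
(fin 980 2 976)))))))))))))))))))
(cons (mv 972 (cons (fin 973 3 972)
(mv 1036 (cons (fin 971 3 971)
(mv 1100 (cons (fin 1099 1 1035)
(fin 1101 1 1036)))))))
(mv 972 (cons (fin 973 3 972)
(mv 1101 (cons (fin 1100 1 1036)
(mv 1041 (cons (fin 1102 1 1037)
(mv 1105 (cons (fin 1104 0 1037)
(fin 1106 0 1038))))))))))))))
(cons (mv 1037 (cons (cons (mv 972 (cons (fin 973 3 972)
(mv 971 (cons (fin 1036 3 971)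
(mv 977 (cons (fin 976 2 973)
(mv 1041 (cons (fin 978 2 974)
(mv 1101 (cons (fin 1100 1 1036)
(fin 1102 1 1037)))))))))))
(mv 976 (cons (fin 977 2 973)
(mv 975 (cons (fin 1036 2 972)
(mv 1101 (cons (fin 1100 1 1036)
(mv 1041 (cons (fin 1102 1 1037)
(mv 1042 (cons (fin 974 3 974)
(fin 1043 3 975))))))))))))
(cons (mv 972 (cons (fin 973 3 972)
(mv 976 (cons (fin 977 2 973)
(mv 1036 (cons (fin 971 3 971)
(fin 975 2 972)))))))
(cons (mv 972 (cons (fin 973 3 972)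
(mv 1036 (cons (fin 971 3 971)
(mv 1100 (cons (fin 1099 1 1035)
(fin 1101 1 1036)))))))
(mv 972 (cons (fin 973 3 972)
(mv 977 (cons (fin 976 2 973)
(mv 1041 (cons (fin 978 2 974)
(mv 1101 (cons (fin 1100 1 1036)
(fin 1102 1 1037)))))))))))))
(mv 1041 (cons (cons (mv 973 (cons (fin 974 3 973)
(mv 972 (cons (fin 1037 3 972)
(mv 977 (cons (fin 978 2 974)
(mv 1102 (cons (fin 1101 1 1037)
(mv 1042 (cons (fin 1103 1 1038)
(mv 1106 (cons (fin 1105 0 1038)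
(fin 1107 0 1039)))))))))))))
(cons (mv 973 (cons (fin 974 3 973)
(mv 972 (cons (fin 1037 3 972)
(mv 978 (cons (fin 977 2 974)
(mv 1042 (cons (fin 979 2 975)
(mv 1106 (cons (fin 1105 0 1038)
(fin 1107 0 1039)))))))))))
(mv 977 (cons (fin 978 2 974)
(mv 1101 (cons (fin 1102 1 1037)
(mv 1037 (cons (fin 1100 1 1036)
(mv 1105 (cons (fin 1104 0 1037)
(fin 1106 0 1038)))))))))))
(cons (mv 973 (cons (fin 974 3 973)
(mv 972 (cons (fin 1037 3 972)
(mv 978 (cons (fin 977 2 974)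
(mv 1042 (cons (fin 979 2 975)
(mv 1102 (cons (fin 1101 1 1037)
(fin 1103 1 1038)))))))))))
(cons (mv 973 (cons (fin 974 3 973)
(mv 972 (cons (fin 1037 3 972)
(mv 1102 (cons (fin 1101 1 1037)
(mv 1042 (cons (fin 1103 1 1038)
(mv 1106 (cons (fin 1105 0 1038)
(fin 1107 0 1039)))))))))))
(mv 973 (cons (fin 974 3 973)
(mv 977 (cons (fin 978 2 974)
(mv 1102 (cons (fin 1101 1 1037)
(mv 1042 (cons (fin 1103 1 1038)
(mv 1106 (cons (fin 1105 0 1038)
(fin 1107 0 1039)))))))))))))))))))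
(mv 976 (cons (cons (cons (mv 1103 (cons (cons (mv 912 (cons (fin 848 5 847)
(mv 1167 (cons (fin 1104 5 911)
(fin 975 6 911)))))
(mv 1167 (cons (fin 1231 6 975)
(mv 975 (cons (mv 910 (cons (fin 974 7 910)
(mv 911 (cons (fin 846 7 846)
(mv 847 (cons (fin 783 4 783)
(fin 1104 4 847)))))))
(cons (mv 1166 (cons (fin 1230 5 974)
(mv 911 (cons (fin 1102 5 910)
(mv 847 (cons (fin 783 4 783)
(fin 1104 4 847)))))))
(mv 974 (cons (fin 910 7 910)
(mv 973 (cons (fin 972 0 972)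
(fin 1041 0 973)))))))))))
(cons (mv 912 (cons (fin 848 5 847)
(mv 1104 (cons (cons (mv 847 (cons (fin 911 7 847)
(mv 849 (cons (fin 913 6 848)
(mv 1105 (cons (fin 1169 4 912)
(mv 1106 (cons (fin 1107 3 1039)
(mv 1042 (cons (fin 1043 2 1039)
(mv 1041 (cons (fin 1102 1 1038)
(mv 974 (cons (fin 975 3 974)
(mv 978 (cons (fin 979 2 975)
(mv 850 (cons (fin 914 5 849)
(mv 1170 (cons (fin 1171 0 1103)
(mv 1234 (cons (fin 977 7 977)
(fin 1298 7 1041)))))))))))))))))))))))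
(cons (mv 849 (cons (fin 913 6 848)
(mv 1105 (cons (fin 1169 4 912)
(mv 1106 (cons (fin 1107 3 1039)
(mv 1042 (cons (fin 1043 2 1039)
(mv 1041 (cons (fin 1102 1 1038)
(mv 974 (cons (fin 975 3 974)
(mv 978 (cons (fin 979 2 975)
(mv 850 (cons (fin 914 5 849)
(mv 1170 (cons (fin 1171 0 1103)
(mv 1234 (cons (fin 977 7 977)
(fin 1298 7 1041)))))))))))))))))))))
(mv 847 (cons (fin 911 7 847)
(mv 913 (cons (fin 849 6 848)
(mv 1168 (cons (fin 977 6 912)
(mv 1232 (cons (fin 975 7 975)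
(fin 1296 7 1039)))))))))))
(cons (mv 847 (cons (fin 911 7 847)
(mv 1105 (cons (fin 1169 4 912)
(mv 1106 (cons (fin 1107 3 1039)
(mv 1042 (cons (fin 1043 2 1039)
(mv 1041 (cons (fin 1102 1 1038)
(mv 974 (cons (fin 975 3 974)
(mv 978 (cons (fin 979 2 975)
(mv 850 (cons (fin 914 5 849)
(mv 1170 (cons (fin 1171 0 1103)
(mv 1234 (cons (fin 977 7 977)
(fin 1298 7 1041)))))))))))))))))))))
(cons (mv 847 (cons (fin 911 7 847)
(mv 849 (cons (fin 913 6 848)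
(mv 1105 (cons (fin 1169 4 912)
(mv 1106 (cons (fin 1107 3 1039)
(mv 1042 (cons (fin 1043 2 1039)
(mv 1041 (cons (fin 1102 1 1038)
(mv 978 (cons (fin 979 2 975)
(mv 850 (cons (fin 914 5 849)
(mv 1170 (cons (fin 1171 0 1103)
(mv 1234 (cons (fin 977 7 977)
(fin 1298 7 1041)))))))))))))))))))))
(mv 847 (cons (fin 911 7 847)
(mv 849 (cons (fin 913 6 848)
(mv 1105 (cons (fin 1169 4 912)
(mv 1106 (cons (fin 1107 3 1039)
(mv 1042 (cons (fin 1043 2 1039)
(mv 1102 (cons (fin 1041 1 1038)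
(mv 1101 (cons (fin 1100 2 1036)
(mv 1165 (cons (fin 1164 1 1100)
(fin 1166 1 1101)))))))))))))))))))))))
(cons (mv 912 (cons (fin 848 5 847)
(mv 1167 (cons (fin 1104 5 911)
(fin 1231 6 975)))))
(mv 912 (cons (fin 848 5 847)
(mv 1167 (cons (fin 975 6 911)
(fin 1231 6 975)))))))))
(cons (mv 977 (cons (cons (cons (mv 978 (cons (fin 979 1 975)
(mv 975 (cons (cons (mv 910 (cons (fin 911 3 910)
(mv 914 (cons (fin 915 2 911)
(mv 974 (cons (fin 909 3 909)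
(fin 913 2 910)))))))
(mv 914 (cons (fin 915 2 911)
(mv 913 (cons (fin 974 2 910)
(mv 785 (cons (fin 849 5 784)
(mv 1042 (cons (fin 1043 0 975)
(mv 1104 (cons (fin 1168 6 912)
(mv 1106 (cons (fin 1170 7 913)
(mv 1105 (cons (fin 1107 3 1039)
(fin 1169 5 913))))))))))))))))
(cons (mv 910 (cons (fin 911 3 910)
(mv 974 (cons (fin 909 3 909)
(mv 973 (cons (fin 972 0 972)
(fin 1041 0 973)))))))
(mv 911 (cons (fin 910 3 910)
(mv 847 (cons (fin 783 4 783)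
(fin 1104 4 847))))))))))
(mv 913 (cons (cons (mv 849 (cons (fin 785 5 784)
(mv 1104 (cons (fin 1041 5 848)
(fin 912 6 848)))))
(mv 849 (cons (fin 785 5 784)
(mv 1041 (cons (cons (mv 784 (cons (fin 848 7 784)
(mv 786 (cons (fin 850 6 785)
(mv 1042 (cons (fin 1106 4 849)
(mv 975 (cons (fin 974 3 974)
(fin 1043 3 975)))))))))
(mv 784 (cons (fin 848 7 784)
(mv 850 (cons (fin 786 6 785)
(mv 914 (cons (fin 1105 6 849)
(mv 915 (cons (fin 916 1 912)
(mv 975 (cons (fin 912 1 911)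
(fin 974 2 910))))))))))))
(cons (mv 786 (cons (fin 850 6 785)
(mv 1042 (cons (fin 1106 4 849)
(mv 975 (cons (fin 974 3 974)
(fin 1043 3 975)))))))
(cons (mv 784 (cons (fin 848 7 784)
(mv 1042 (cons (fin 1106 4 849)
(mv 975 (cons (fin 974 3 974)
(fin 1043 3 975)))))))
(mv 784 (cons (fin 848 7 784)
(mv 786 (cons (fin 850 6 785)
(mv 1106 (cons (fin 1042 4 849)
(mv 1105 (cons (fin 1170 4 913)
(mv 1169 (cons (fin 912 7 912)
(fin 1233 7 976))))))))))))))))))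
(cons (mv 1104 (cons (fin 1168 6 912)
(mv 912 (cons (cons (mv 847 (cons (fin 911 7 847)
(mv 783 (cons (fin 848 7 783)
(mv 1105 (cons (fin 1169 4 912)
(mv 1106 (cons (fin 1107 3 1039)
(mv 1041 (cons (fin 1170 4 913)
(mv 914 (cons (fin 850 6 849)
(mv 915 (cons (fin 975 1 911)
(fin 916 1 912)))))))))))))))
(mv 847 (cons (fin 911 7 847)
(mv 848 (cons (fin 783 7 783)
(mv 784 (cons (fin 975 5 783)
(fin 720 4 720))))))))
(cons (mv 1105 (cons (fin 1169 4 912)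
(mv 848 (cons (fin 1041 7 848)
(mv 784 (cons (fin 975 5 783)
(fin 720 4 720)))))))
(cons (mv 847 (cons (fin 911 7 847)
(mv 1105 (cons (fin 1169 4 912)
(mv 1106 (cons (fin 1107 3 1039)
(mv 1041 (cons (fin 1170 4 913)
(mv 914 (cons (fin 850 6 849)
(mv 915 (cons (fin 975 1 911)
(fin 916 1 912)))))))))))))
(mv 847 (cons (fin 911 7 847)
(mv 848 (cons (fin 783 7 783)
(mv 784 (cons (fin 720 4 720)
(fin 1041 4 784)))))))))))))
(cons (mv 849 (cons (fin 785 5 784)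
(mv 1104 (cons (fin 912 6 848)
(fin 1168 6 912)))))
(mv 849 (cons (fin 785 5 784)
(mv 1104 (cons (fin 1041 5 848)
(fin 1168 6 912))))))))))
(cons (mv 978 (cons (fin 979 1 975)
(mv 975 (cons (cons (mv 910 (cons (fin 911 3 910)
(mv 914 (cons (fin 915 2 911)
(mv 974 (cons (fin 909 3 909)
(mv 973 (cons (fin 972 0 972)
(fin 1041 0 973)))))))))
(mv 914 (cons (fin 915 2 911)
(mv 1042 (cons (fin 1043 0 975)
(mv 974 (cons (fin 1041 3 974)
(mv 909 (cons (fin 910 3 909)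
(mv 973 (cons (fin 908 3 908)
(fin 972 0 972))))))))))))
(cons (mv 914 (cons (fin 915 2 911)
(mv 1042 (cons (fin 1043 0 975)
(mv 1041 (cons (fin 974 3 974)
(mv 850 (cons (fin 786 5 785)
(fin 1105 5 849)))))))))
(cons (mv 910 (cons (fin 911 3 910)
(mv 974 (cons (fin 909 3 909)
(mv 973 (cons (fin 972 0 972)
(fin 1041 0 973)))))))
(mv 911 (cons (fin 910 3 910)
(mv 847 (cons (fin 783 4 783)
(fin 1104 4 847)))))))))))
(mv 978 (cons (fin 979 1 975)
(mv 975 (cons (cons (mv 910 (cons (fin 911 3 910)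
(mv 914 (cons (fin 915 2 911)
(mv 974 (cons (fin 909 3 909)
(fin 913 2 910)))))))
(mv 910 (cons (fin 911 3 910)
(mv 974 (cons (fin 909 3 909)
(mv 973 (cons (fin 972 0 972)
(fin 1041 0 973))))))))
(cons (mv 914 (cons (fin 915 2 911)
(mv 913 (cons (fin 974 2 910)
(mv 785 (cons (fin 849 5 784)
(mv 1042 (cons (fin 1043 0 975)
(mv 1106 (cons (fin 1170 7 913)
(mv 1107 (cons (fin 1041 0 1039)
(fin 1171 4 914)))))))))))))
(mv 911 (cons (fin 910 3 910)
(mv 847 (cons (fin 783 4 783)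
(mv 784 (cons (fin 848 6 783)
(mv 846 (cons (fin 782 7 782)
(mv 914 (cons (fin 915 2 911)
(mv 913 (cons (fin 912 3 846)
(mv 785 (cons (fin 849 5 784)
(mv 1042 (cons (fin 1043 0 975)
(mv 1106 (cons (fin 1170 7 913)
(mv 1107 (cons (fin 1041 0 1039)
(fin 1171 4 914))))))))))))))))))))))))))))
(cons (cons (mv 978 (cons (fin 979 1 975)
(mv 1104 (cons (cons (mv 913 (cons (fin 1168 6 912)
(mv 849 (cons (fin 785 5 784)
(fin 1041 5 848)))))
(mv 1168 (cons (cons (mv 1041 (cons (fin 1232 6 976)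
(mv 1167 (cons (fin 1231 5 975)
(mv 1169 (cons (fin 1233 4 976)
(mv 1105 (cons (fin 912 7 912)
(fin 914 6 913)))))))))
(mv 1167 (cons (fin 1231 5 975)
(mv 1169 (cons (fin 1233 4 976)
(mv 912 (cons (fin 1105 4 912)
(mv 847 (cons (fin 911 7 847)
(mv 848 (cons (fin 783 7 783)
(mv 784 (cons (fin 1041 4 784)
(mv 785 (cons (fin 721 6 720)
(fin 849 6 784))))))))))))))))
(cons (mv 1231 (cons (fin 1167 5 975)
(mv 1232 (cons (fin 1295 5 1039)
(fin 1041 6 976)))))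
(cons (mv 1041 (cons (fin 1232 6 976)
(mv 1169 (cons (fin 1233 4 976)
(mv 1105 (cons (fin 912 7 912)
(fin 914 6 913)))))))
(mv 1167 (cons (fin 1231 5 975)
(mv 1169 (cons (fin 1233 4 976)
(mv 1105 (cons (fin 912 4 912)
(mv 1106 (cons (fin 1107 3 1039)
(fin 1166 2 1102))))))))))))))
(cons (mv 912 (cons (cons (mv 847 (cons (fin 911 7 847)
(mv 783 (cons (fin 848 7 783)
(mv 913 (cons (fin 849 6 848)
(mv 1105 (cons (fin 1169 4 912)
(mv 1106 (cons (fin 1107 3 1039)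
(mv 1170 (cons (fin 1042 7 913)
(fin 1041 4 913)))))))))))))
(mv 847 (cons (fin 911 7 847)
(mv 848 (cons (fin 783 7 783)
(mv 1041 (cons (fin 784 4 784)
(fin 1105 4 848))))))))
(cons (mv 847 (cons (fin 911 7 847)
(mv 848 (cons (fin 783 7 783)
(mv 849 (cons (fin 785 6 784)
(fin 913 6 848)))))))
(cons (mv 849 (cons (fin 913 6 848)
(mv 848 (cons (fin 785 6 784)
(mv 1041 (cons (fin 784 4 784)
(fin 1105 4 848)))))))
(mv 847 (cons (fin 911 7 847)
(mv 913 (cons (fin 849 6 848)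
(mv 1105 (cons (fin 1169 4 912)
(mv 1106 (cons (fin 1107 3 1039)
(mv 1170 (cons (fin 1042 7 913)
(fin 1041 4 913)))))))))))))))
(cons (mv 913 (cons (fin 1168 6 912)
(mv 912 (cons (mv 911 (cons (fin 910 0 910)
(fin 847 7 847)))
(cons (mv 1105 (cons (fin 1169 4 912)
(mv 848 (cons (fin 1041 7 848)
(mv 783 (cons (fin 847 7 783)
(mv 784 (cons (fin 719 7 719)
(fin 720 4 720)))))))))
(mv 910 (cons (fin 911 0 910)
(mv 1105 (cons (fin 1169 4 912)
(mv 1041 (cons (fin 848 7 848)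
(mv 1106 (cons (fin 1107 3 1039)
(fin 1170 4 913))))))))))))))
(mv 913 (cons (fin 1168 6 912)
(mv 849 (cons (fin 785 5 784)
(fin 912 6 848)))))))))))
(mv 978 (cons (fin 979 1 975)
(mv 975 (cons (mv 910 (cons (fin 911 3 910)
(mv 914 (cons (fin 915 2 911)
(mv 974 (cons (fin 909 3 909)
(fin 913 2 910)))))))
(cons (mv 914 (cons (fin 915 2 911)
(mv 913 (cons (fin 974 2 910)
(mv 785 (cons (fin 849 5 784)
(mv 1042 (cons (fin 1043 0 975)
(mv 1104 (cons (fin 1168 6 912)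
(mv 1106 (cons (fin 1170 7 913)
(mv 1105 (cons (fin 1107 3 1039)
(fin 1169 5 913)))))))))))))))
(mv 911 (cons (fin 910 3 910)
(mv 847 (cons (fin 783 4 783)
(fin 1104 4 847)))))))))))
(cons (mv 978 (cons (fin 979 1 975)
(mv 975 (cons (cons (mv 914 (cons (fin 915 2 911)
(mv 913 (cons (fin 974 2 910)
(mv 785 (cons (fin 849 5 784)
(mv 1042 (cons (fin 1043 0 975)
(mv 1104 (cons (fin 1168 6 912)
(mv 1106 (cons (fin 1170 7 913)
(mv 1105 (cons (fin 1107 3 1039)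
(fin 1169 5 913)))))))))))))))
(mv 914 (cons (fin 915 2 911)
(mv 913 (cons (fin 974 2 910)
(mv 849 (cons (fin 785 5 784)
(mv 1104 (cons (fin 1041 5 848)
(fin 912 6 848))))))))))
(cons (mv 1042 (cons (fin 1043 0 975)
(mv 974 (cons (fin 1041 3 974)
(mv 909 (cons (fin 910 3 909)
(mv 973 (cons (fin 908 3 908)
(fin 972 0 972)))))))))
(mv 914 (cons (fin 915 2 911)
(mv 1042 (cons (fin 1043 0 975)
(mv 913 (cons (mv 849 (cons (fin 1106 7 849)
(fin 785 5 784)))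
(cons (mv 1104 (cons (fin 1168 6 912)
(mv 1106 (cons (fin 1170 7 913)
(mv 1105 (cons (fin 1107 3 1039)
(fin 1169 5 913)))))))
(mv 849 (cons (fin 785 5 784)
(mv 1104 (cons (fin 1041 5 848)
(fin 912 6 848)))))))))))))))))
(cons (mv 978 (cons (fin 979 1 975)
(mv 975 (cons (cons (mv 910 (cons (fin 911 3 910)
(mv 914 (cons (fin 915 2 911)
(mv 974 (cons (fin 909 3 909)
(fin 913 2 910)))))))
(mv 914 (cons (fin 915 2 911)
(mv 913 (cons (fin 974 2 910)
(mv 849 (cons (fin 785 5 784)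
(mv 1104 (cons (fin 1041 5 848)
(fin 912 6 848))))))))))
(cons (mv 910 (cons (fin 911 3 910)
(mv 974 (cons (fin 909 3 909)
(mv 973 (cons (fin 972 0 972)
(fin 1041 0 973)))))))
(mv 911 (cons (fin 910 3 910)
(mv 847 (cons (fin 783 4 783)
(fin 1104 4 847))))))))))
(mv 978 (cons (fin 979 1 975)
(mv 975 (cons (cons (mv 910 (cons (fin 911 3 910)
(mv 974 (cons (fin 909 3 909)
(mv 973 (cons (fin 972 0 972)
(fin 1041 0 973)))))))
(mv 1042 (cons (fin 1043 0 975)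
(mv 974 (cons (fin 1041 3 974)
(mv 909 (cons (fin 910 3 909)
(mv 973 (cons (fin 908 3 908)
(fin 972 0 972))))))))))
(cons (mv 1042 (cons (fin 1043 0 975)
(mv 974 (cons (fin 1041 3 974)
(mv 973 (cons (fin 972 0 972)
(mv 908 (cons (fin 909 3 908)
(mv 912 (cons (fin 913 2 909)
(mv 848 (cons (fin 784 5 783)
(mv 785 (cons (fin 849 6 784)
(mv 847 (cons (fin 783 7 783)
(mv 1036 (cons (fin 1037 1 972)
(mv 1104 (cons (fin 911 7 847)
(mv 1168 (cons (fin 1232 7 975)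
(mv 1169 (cons (fin 1105 4 912)
(fin 1233 4 976)))))))))))))))))))))))))
(mv 911 (cons (fin 910 3 910)
(mv 847 (cons (fin 783 4 783)
(fin 1104 4 847)))))))))))))))
(mv 975 (cons (cons (cons (mv 911 (cons (mv 847 (cons (fin 783 4 783)
(fin 1104 4 847)))
(cons (mv 847 (cons (fin 783 4 783)
(mv 784 (cons (fin 848 6 783)
(mv 846 (cons (fin 782 7 782)
(mv 910 (cons (fin 1103 7 846)
(mv 909 (cons (fin 908 0 908)
(mv 977 (cons (fin 974 3 909)
(fin 978 3 910)))))))))))))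
(mv 1104 (cons (fin 1168 7 911)
(mv 1103 (cons (mv 846 (cons (fin 910 7 846)
(mv 1102 (cons (fin 1166 5 910)
(mv 1041 (cons (fin 1042 1 1038)
(fin 1101 2 1037)))))))
(cons (mv 910 (cons (fin 846 7 846)
(mv 1167 (cons (fin 974 7 910)
(fin 1231 6 975)))))
(mv 1102 (cons (fin 1166 5 910)
(mv 1041 (cons (fin 1042 1 1038)
(fin 1101 2 1037)))))))))))))
(mv 974 (cons (mv 973 (cons (fin 972 0 972)
(fin 1041 0 973)))
(cons (mv 973 (cons (fin 972 0 972)
(mv 909 (cons (fin 908 3 908)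
(mv 910 (cons (fin 977 3 909)
(mv 782 (cons (fin 846 4 782)
(mv 1037 (cons (fin 1036 1 972)
(mv 1101 (cons (fin 1165 6 909)
(mv 1100 (cons (fin 1164 5 908)
(mv 1102 (cons (fin 1103 2 1036)
(fin 1166 4 909)))))))))))))))))
(mv 977 (cons (cons (mv 909 (cons (fin 910 3 909)
(mv 913 (cons (fin 914 2 910)
(mv 785 (cons (fin 849 5 784)
(mv 978 (cons (fin 979 1 975)
(mv 1042 (cons (fin 1041 3 974)
(fin 1043 0 975)))))))))))
(mv 909 (cons (fin 910 3 909)
(mv 913 (cons (fin 914 2 910)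
(mv 849 (cons (fin 785 5 784)
(mv 1104 (cons (fin 1041 5 848)
(fin 1168 6 912))))))))))
(cons (mv 909 (cons (fin 910 3 909)
(mv 914 (cons (fin 913 2 910)
(mv 978 (cons (fin 979 1 975)
(fin 915 2 911)))))))
(cons (mv 909 (cons (fin 910 3 909)
(mv 978 (cons (fin 979 1 975)
(mv 1042 (cons (fin 1041 3 974)
(fin 1043 0 975)))))))
(mv 913 (cons (fin 914 2 910)
(mv 785 (cons (fin 849 5 784)
(mv 978 (cons (fin 979 1 975)
(mv 1042 (cons (fin 1041 3 974)
(fin 1043 0 975)))))))))))))))))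
(cons (mv 911 (cons (mv 847 (cons (fin 783 4 783)
(fin 1104 4 847)))
(cons (mv 847 (cons (fin 783 4 783)
(mv 784 (cons (fin 848 6 783)
(mv 846 (cons (fin 782 7 782)
(mv 1103 (cons (fin 910 7 846)
(mv 1166 (cons (fin 1102 5 910)
(mv 1167 (cons (fin 1230 5 974)
(fin 1231 6 975)))))))))))))
(mv 1103 (cons (cons (mv 846 (cons (fin 910 7 846)
(mv 1102 (cons (fin 1166 5 910)
(mv 1041 (cons (fin 1042 1 1038)
(mv 1101 (cons (fin 1100 2 1036)
(fin 1104 2 1037)))))))))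
(mv 846 (cons (fin 910 7 846)
(mv 1166 (cons (fin 1102 5 910)
(mv 1167 (cons (fin 1230 5 974)
(fin 1231 6 975))))))))
(cons (mv 846 (cons (fin 910 7 846)
(mv 1167 (cons (fin 1231 6 975)
(mv 1168 (cons (fin 1104 7 911)
(fin 1232 4 975)))))))
(mv 1102 (cons (fin 1166 5 910)
(mv 1041 (cons (fin 1042 1 1038)
(mv 1101 (cons (fin 1100 2 1036)
(fin 1104 2 1037)))))))))))))
(mv 974 (cons (mv 973 (cons (fin 972 0 972)
(fin 1041 0 973)))
(cons (mv 973 (cons (fin 972 0 972)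
(mv 909 (cons (fin 908 3 908)
(mv 910 (cons (fin 977 3 909)
(mv 782 (cons (fin 846 4 782)
(mv 1037 (cons (fin 1036 1 972)
(mv 1101 (cons (fin 1165 6 909)
(mv 1100 (cons (fin 1164 5 908)
(mv 1102 (cons (fin 1103 2 1036)
(fin 1166 4 909)))))))))))))))))
(mv 1041 (cons (fin 1042 3 974)
(mv 977 (cons (cons (mv 909 (cons (fin 910 3 909)
(mv 914 (cons (fin 913 2 910)
(mv 978 (cons (fin 979 1 975)
(fin 915 2 911)))))))
(mv 914 (cons (fin 913 2 910)
(mv 978 (cons (fin 979 1 975)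
(fin 915 2 911))))))
(cons (mv 910 (cons (fin 909 3 909)
(mv 782 (cons (fin 846 4 782)
(mv 913 (cons (fin 914 2 910)
(mv 849 (cons (fin 785 5 784)
(mv 848 (cons (fin 784 7 784)
(mv 850 (cons (fin 786 6 785)
(mv 847 (cons (fin 783 3 782)
(fin 911 1 846)))))))))))))))
(mv 910 (cons (fin 909 3 909)
(mv 978 (cons (fin 911 3 910)
(fin 979 1 975)))))))))))))))
(cons (cons (mv 911 (cons (mv 847 (cons (fin 783 4 783)
(fin 1104 4 847)))
(cons (mv 847 (cons (fin 783 4 783)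
(mv 784 (cons (fin 848 6 783)
(mv 846 (cons (fin 782 7 782)
(mv 910 (cons (fin 1103 7 846)
(mv 909 (cons (fin 908 0 908)
(mv 977 (cons (fin 974 3 909)
(fin 978 3 910)))))))))))))
(mv 1104 (cons (fin 1168 7 911)
(mv 1103 (cons (cons (mv 846 (cons (fin 910 7 846)
(mv 1166 (cons (fin 1102 5 910)
(mv 1167 (cons (fin 1230 5 974)
(fin 1231 6 975)))))))
(mv 910 (cons (fin 846 7 846)
(mv 908 (cons (fin 909 0 908)
(mv 977 (cons (fin 978 3 910)
(mv 1102 (cons (fin 1166 5 910)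
(mv 1101 (cons (fin 1100 2 1036)
(mv 1037 (cons (fin 1036 3 1036)
(mv 1165 (cons (fin 1164 1 1100)
(mv 973 (cons (fin 972 7 908)
(fin 974 6 909))))))))))))))))))
(cons (mv 1166 (cons (fin 1102 5 910)
(mv 1167 (cons (fin 1230 5 974)
(fin 1231 6 975)))))
(mv 910 (cons (fin 846 7 846)
(mv 1167 (cons (fin 974 7 910)
(fin 1231 6 975)))))))))))))
(mv 974 (cons (mv 973 (cons (fin 972 0 972)
(fin 1041 0 973)))
(cons (mv 973 (cons (fin 972 0 972)
(mv 909 (cons (fin 908 3 908)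
(mv 910 (cons (fin 977 3 909)
(mv 846 (cons (fin 782 4 782)
(mv 1037 (cons (fin 1036 1 972)
(fin 1101 6 845)))))))))))
(mv 1041 (cons (fin 1042 3 974)
(mv 977 (cons (mv 909 (cons (fin 910 3 909)
(mv 913 (cons (fin 914 2 910)
(mv 849 (cons (fin 785 5 784)
(fin 1104 5 848)))))))
(cons (mv 910 (cons (fin 909 3 909)
(mv 978 (cons (fin 911 3 910)
(fin 979 1 975)))))
(mv 913 (cons (fin 914 2 910)
(mv 849 (cons (fin 785 5 784)
(fin 1104 5 848))))))))))))))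
(cons (mv 1103 (cons (cons (mv 1167 (cons (fin 1231 6 975)
(mv 1166 (cons (fin 1230 5 974)
(mv 911 (cons (fin 1102 5 910)
(mv 847 (cons (fin 783 4 783)
(fin 1104 4 847)))))))))
(cons (mv 1104 (cons (mv 911 (cons (fin 1168 7 911)
(fin 847 4 847)))
(cons (mv 911 (cons (fin 847 4 847)
(mv 1102 (cons (fin 1166 5 910)
(mv 1041 (cons (fin 1042 1 1038)
(fin 1101 2 1037)))))))
(mv 1168 (cons (fin 1232 7 975)
(mv 913 (cons (fin 977 6 912)
(mv 1169 (cons (fin 1233 4 976)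
(mv 1102 (cons (fin 1101 0 1101)
(mv 1170 (cons (fin 1171 3 1103)
(fin 1105 0 1102))))))))))))))
(mv 1167 (cons (fin 1231 6 975)
(mv 1166 (cons (fin 1230 5 974)
(mv 1168 (cons (fin 1232 4 975)
(mv 1104 (cons (mv 1105 (cons (fin 1106 1 1102)
(fin 1165 2 1101)))
(cons (mv 913 (cons (fin 977 6 912)
(mv 1164 (cons (fin 1165 2 1100)
(mv 1169 (cons (fin 1233 4 976)
(mv 1102 (cons (fin 1101 3 1101)
(fin 1170 3 1102)))))))))
(mv 913 (cons (fin 977 6 912)
(mv 1105 (cons (fin 1106 1 1102)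
(mv 1169 (cons (fin 1233 4 976)
(mv 1102 (cons (fin 1101 3 1101)
(fin 1170 3 1102))))))))))))))))))))
(cons (mv 1167 (cons (fin 1231 6 975)
(mv 1166 (cons (fin 1230 5 974)
(mv 1102 (cons (fin 911 5 910)
(mv 1041 (cons (fin 1042 1 1038)
(mv 973 (cons (fin 974 0 973)
(mv 1100 (cons (fin 1101 2 1036)
(mv 1168 (cons (fin 1232 4 975)
(mv 1169 (cons (fin 1170 3 1102)
(mv 1105 (cons (fin 1106 2 1102)
(fin 1233 7 976)))))))))))))))))))
(cons (mv 1167 (cons (fin 1231 6 975)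
(mv 1166 (cons (fin 1230 5 974)
(mv 1168 (cons (fin 1232 4 975)
(mv 1104 (cons (fin 911 7 911)
(mv 1105 (cons (fin 1106 1 1102)
(fin 1165 2 1101)))))))))))
(mv 1167 (cons (fin 1231 6 975)
(mv 1168 (cons (fin 1232 4 975)
(mv 1104 (cons (fin 911 7 911)
(mv 913 (cons (fin 977 6 912)
(mv 1169 (cons (fin 1233 4 976)
(mv 1102 (cons (fin 1170 3 1102)
(fin 1101 0 1101)))))))))))))))))
(mv 911 (cons (mv 847 (cons (fin 783 4 783)
(fin 1104 4 847)))
(cons (mv 847 (cons (fin 783 4 783)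
(mv 784 (cons (fin 848 6 783)
(mv 846 (cons (fin 782 7 782)
(mv 910 (cons (fin 1103 7 846)
(mv 909 (cons (fin 908 0 908)
(mv 977 (cons (fin 974 3 909)
(fin 978 3 910)))))))))))))
(mv 1104 (cons (fin 1168 7 911)
(mv 1103 (cons (cons (mv 846 (cons (fin 910 7 846)
(mv 1166 (cons (fin 1102 5 910)
(mv 1167 (cons (fin 1230 5 974)
(fin 1231 6 975)))))))
(mv 910 (cons (fin 846 7 846)
(mv 908 (cons (fin 909 0 908)
(mv 977 (cons (fin 978 3 910)
(mv 1102 (cons (fin 1166 5 910)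
(mv 1041 (cons (fin 1042 1 1038)
(mv 913 (cons (fin 849 5 848)
(mv 974 (cons (fin 914 2 910)
(fin 973 0 973))))))))))))))))
(cons (mv 1166 (cons (fin 1102 5 910)
(mv 1167 (cons (fin 1230 5 974)
(fin 1231 6 975)))))
(mv 910 (cons (fin 846 7 846)
(mv 1167 (cons (fin 974 7 910)
(fin 1231 6 975)))))))))))))))))))
(cons (cons (mv 1103 (cons (cons (mv 1167 (cons (fin 1231 6 975)
(mv 912 (cons (fin 1104 5 911)
(fin 975 6 911)))))
(mv 1104 (cons (cons (mv 1168 (cons (mv 975 (cons (fin 911 7 911)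
(fin 1232 7 975)))
(mv 913 (cons (fin 977 6 912)
(mv 849 (cons (fin 912 6 848)
(mv 1169 (cons (fin 1233 4 976)
(mv 1102 (cons (fin 1101 0 1101)
(mv 1170 (cons (fin 1171 3 1103)
(fin 1105 0 1102)))))))))))))
(cons (mv 1105 (cons (cons (mv 912 (cons (fin 1169 4 912)
(mv 847 (cons (fin 911 7 847)
(mv 849 (cons (fin 913 6 848)
(mv 1106 (cons (fin 1107 3 1039)
(mv 1042 (cons (fin 1043 2 1039)
(mv 1041 (cons (fin 1102 1 1038)
(mv 974 (cons (fin 975 3 974)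
(mv 978 (cons (fin 979 2 975)
(mv 850 (cons (fin 914 5 849)
(mv 1170 (cons (fin 1171 0 1103)
(mv 1234 (cons (fin 977 7 977)
(fin 1298 7 1041)))))))))))))))))))))))
(mv 1106 (cons (fin 1107 3 1039)
(mv 1042 (cons (fin 1043 2 1039)
(mv 1041 (cons (fin 1102 1 1038)
(mv 974 (cons (fin 975 3 974)
(mv 978 (cons (fin 979 2 975)
(mv 850 (cons (fin 914 5 849)
(mv 1170 (cons (fin 1171 0 1103)
(mv 977 (cons (fin 913 7 913)
(fin 1234 7 977))))))))))))))))))
(cons (mv 1169 (cons (fin 912 4 912)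
(mv 1233 (cons (fin 1041 7 976)
(fin 1297 7 1040)))))
(mv 912 (cons (fin 1169 4 912)
(mv 847 (cons (fin 911 7 847)
(mv 913 (cons (fin 849 6 848)
(mv 1106 (cons (fin 1107 3 1039)
(mv 1042 (cons (fin 1043 2 1039)
(mv 1170 (cons (fin 1171 0 1103)
(mv 978 (cons (fin 977 7 913)
(mv 915 (cons (fin 979 6 914)
(mv 914 (cons (fin 975 1 911)
(fin 851 6 850))))))))))))))))))))))
(mv 1168 (cons (mv 913 (cons (fin 977 6 912)
(mv 849 (cons (fin 912 6 848)
(mv 1169 (cons (fin 1233 4 976)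
(mv 1102 (cons (fin 1101 0 1101)
(mv 1170 (cons (fin 1171 3 1103)
(fin 1105 0 1102)))))))))))
(cons (mv 977 (cons (fin 913 6 912)
(mv 1232 (cons (fin 1296 7 1039)
(fin 1041 6 976)))))
(mv 1169 (cons (fin 1233 4 976)
(mv 1101 (cons (fin 1102 0 1101)
(mv 1105 (cons (fin 912 4 912)
(mv 1106 (cons (fin 1107 3 1039)
(mv 1042 (cons (fin 1043 2 1039)
(mv 978 (cons (fin 914 5 913)
(mv 979 (cons (fin 1041 2 975)
(mv 1170 (cons (fin 1171 3 1103)
(fin 915 6 914))))))))))))))))))))))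
(cons (cons (mv 1168 (cons (mv 975 (cons (fin 911 7 911)
(fin 1232 7 975)))
(cons (mv 913 (cons (fin 977 6 912)
(mv 849 (cons (fin 912 6 848)
(mv 1232 (cons (fin 1296 7 1039)
(mv 1233 (cons (fin 1169 4 976)
(fin 1297 4 1040)))))))))
(mv 911 (cons (fin 975 7 911)
(mv 912 (cons (fin 847 7 847)
(mv 913 (cons (fin 849 6 848)
(fin 977 6 912))))))))))
(mv 1168 (cons (mv 975 (cons (fin 911 7 911)
(fin 1232 7 975)))
(mv 913 (cons (fin 977 6 912)
(mv 1169 (cons (fin 1233 4 976)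
(mv 1102 (cons (fin 1101 0 1101)
(mv 1170 (cons (fin 1171 3 1103)
(fin 1105 0 1102))))))))))))
(cons (mv 1168 (cons (mv 975 (cons (fin 911 7 911)
(fin 1232 7 975)))
(cons (mv 977 (cons (fin 913 6 912)
(mv 1232 (cons (fin 1296 7 1039)
(fin 1041 6 976)))))
(mv 911 (cons (fin 975 7 911)
(mv 912 (cons (fin 847 7 847)
(mv 913 (cons (fin 849 6 848)
(fin 977 6 912))))))))))
(mv 1168 (cons (mv 975 (cons (fin 911 7 911)
(fin 1232 7 975)))
(mv 1169 (cons (fin 1233 4 976)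
(mv 1101 (cons (fin 1102 0 1101)
(mv 1105 (cons (fin 912 4 912)
(mv 1106 (cons (fin 1107 3 1039)
(mv 1042 (cons (fin 1043 2 1039)
(mv 978 (cons (fin 914 5 913)
(mv 979 (cons (fin 1041 2 975)
(mv 1170 (cons (fin 1171 3 1103)
(fin 915 6 914))))))))))))))))))))))))
(cons (mv 1167 (cons (fin 1231 6 975)
(mv 975 (cons (mv 910 (cons (fin 974 7 910)
(mv 911 (cons (fin 846 7 846)
(mv 847 (cons (fin 783 4 783)
(fin 1104 4 847)))))))
(cons (mv 1166 (cons (fin 1230 5 974)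
(mv 911 (cons (fin 1102 5 910)
(mv 847 (cons (fin 783 4 783)
(fin 1104 4 847)))))))
(mv 974 (cons (fin 910 7 910)
(mv 973 (cons (fin 972 0 972)
(fin 1041 0 973))))))))))
(cons (mv 1167 (cons (fin 1231 6 975)
(mv 975 (cons (fin 912 6 911)
(mv 910 (cons (fin 974 7 910)
(mv 911 (cons (fin 846 7 846)
(mv 1166 (cons (fin 1102 5 910)
(fin 1230 5 974)))))))))))
(mv 1167 (cons (fin 1231 6 975)
(mv 1104 (cons (fin 912 5 911)
(mv 1168 (cons (mv 913 (cons (fin 977 6 912)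
(mv 1169 (cons (fin 1233 4 976)
(mv 1102 (cons (fin 1170 3 1102)
(fin 1101 0 1101)))))))
(cons (mv 977 (cons (fin 913 6 912)
(mv 1232 (cons (fin 1296 7 1039)
(fin 1041 6 976)))))
(mv 1169 (cons (fin 1233 4 976)
(mv 1102 (cons (fin 1170 3 1102)
(fin 1101 0 1101))))))))))))))))
(mv 912 (cons (cons (mv 848 (cons (fin 1103 5 847)
(mv 783 (cons (fin 847 7 783)
(mv 784 (cons (fin 719 7 719)
(fin 975 5 783)))))))
(mv 1104 (cons (cons (cons (mv 847 (cons (fin 911 7 847)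
(mv 849 (cons (fin 913 6 848)
(mv 1169 (cons (fin 1105 4 912)
(mv 1168 (cons (fin 1233 4 976)
(mv 1232 (cons (fin 975 7 975)
(mv 977 (cons (fin 1041 6 976)
(mv 978 (cons (fin 979 1 975)
(mv 1295 (cons (fin 1231 5 1039)
(mv 1296 (cons (fin 1103 7 1039)
(fin 1359 5 1103)))))))))))))))))))
(mv 849 (cons (fin 913 6 848)
(mv 1169 (cons (fin 1105 4 912)
(mv 1168 (cons (fin 1233 4 976)
(mv 1232 (cons (fin 975 7 975)
(mv 977 (cons (fin 1041 6 976)
(mv 978 (cons (fin 979 1 975)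
(mv 1295 (cons (fin 1231 5 1039)
(mv 1296 (cons (fin 1103 7 1039)
(fin 1359 5 1103))))))))))))))))))
(cons (mv 847 (cons (fin 911 7 847)
(mv 1169 (cons (fin 1105 4 912)
(mv 1168 (cons (fin 1233 4 976)
(mv 1232 (cons (fin 975 7 975)
(mv 977 (cons (fin 1041 6 976)
(mv 978 (cons (fin 979 1 975)
(mv 1295 (cons (fin 1231 5 1039)
(mv 1296 (cons (fin 1103 7 1039)
(fin 1359 5 1103)))))))))))))))))
(mv 847 (cons (fin 911 7 847)
(mv 913 (cons (fin 849 6 848)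
(mv 1168 (cons (fin 977 6 912)
(mv 1169 (cons (fin 1233 4 976)
(mv 1232 (cons (fin 975 7 975)
(mv 1295 (cons (fin 1231 5 1039)
(mv 1296 (cons (fin 1103 7 1039)
(fin 1359 5 1103)))))))))))))))))
(cons (cons (mv 847 (cons (fin 911 7 847)
(mv 913 (cons (fin 849 6 848)
(mv 1168 (cons (fin 977 6 912)
(mv 1232 (cons (fin 975 7 975)
(mv 1231 (cons (fin 1295 5 1039)
(mv 1296 (cons (fin 1103 7 1039)
(mv 1297 (cons (fin 1233 4 1040)
(fin 1361 4 1104)))))))))))))))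
(mv 911 (cons (fin 847 7 847)
(mv 913 (cons (fin 849 6 848)
(mv 1105 (cons (fin 1169 4 912)
(mv 1106 (cons (fin 1107 3 1039)
(mv 977 (cons (mv 910 (cons (fin 909 0 909)
(fin 978 0 910)))
(cons (mv 909 (cons (fin 910 0 909)
(mv 1041 (cons (fin 1170 4 913)
(mv 914 (cons (fin 850 6 849)
(mv 915 (cons (fin 975 1 911)
(fin 916 1 912)))))))))
(mv 978 (cons (fin 979 3 911)
(mv 1170 (cons (fin 1042 7 913)
(fin 1041 4 913)))))))))))))))))
(cons (mv 847 (cons (fin 911 7 847)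
(mv 913 (cons (fin 849 6 848)
(mv 977 (cons (fin 1168 6 912)
(mv 978 (cons (fin 979 1 975)
(mv 1105 (cons (fin 1169 4 912)
(mv 1106 (cons (fin 1107 3 1039)
(mv 1170 (cons (fin 1042 7 913)
(fin 1041 4 913)))))))))))))))
(mv 847 (cons (fin 911 7 847)
(mv 849 (cons (fin 913 6 848)
(mv 1169 (cons (fin 1105 4 912)
(mv 1168 (cons (fin 1233 4 976)
(mv 1232 (cons (fin 975 7 975)
(mv 1295 (cons (fin 1231 5 1039)
(mv 1296 (cons (fin 1103 7 1039)
(fin 1359 5 1103))))))))))))))))))))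
(cons (mv 848 (cons (mv 783 (cons (fin 847 7 783)
(mv 784 (cons (fin 719 7 719)
(fin 975 5 783)))))
(cons (mv 783 (cons (fin 847 7 783)
(mv 849 (cons (fin 785 6 784)
(mv 1104 (cons (fin 913 6 848)
(mv 1105 (cons (fin 1041 4 848)
(fin 1169 4 912)))))))))
(mv 784 (cons (fin 975 5 783)
(mv 785 (cons (fin 721 6 720)
(fin 849 6 784))))))))
(cons (mv 848 (cons (fin 1103 5 847)
(mv 784 (cons (fin 975 5 783)
(mv 785 (cons (fin 721 6 720)
(fin 849 6 784)))))))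
(mv 848 (cons (fin 1103 5 847)
(mv 783 (cons (fin 847 7 783)
(mv 719 (cons (fin 784 7 719)
(mv 849 (cons (fin 785 6 784)
(mv 1104 (cons (fin 913 6 848)
(mv 1105 (cons (fin 1041 4 848)
(fin 1169 4 912))))))))))))))))))
(cons (mv 1103 (cons (cons (mv 912 (cons (fin 848 5 847)
(mv 1167 (cons (fin 1104 5 911)
(fin 975 6 911)))))
(mv 1167 (cons (fin 1231 6 975)
(mv 975 (cons (mv 910 (cons (fin 974 7 910)
(mv 911 (cons (fin 846 7 846)
(mv 847 (cons (fin 783 4 783)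
(fin 1104 4 847)))))))
(cons (mv 1166 (cons (fin 1230 5 974)
(mv 911 (cons (fin 1102 5 910)
(mv 847 (cons (fin 783 4 783)
(fin 1104 4 847)))))))
(mv 974 (cons (fin 910 7 910)
(mv 973 (cons (fin 972 0 972)
(fin 1041 0 973)))))))))))
(cons (mv 912 (cons (fin 848 5 847)
(mv 1104 (cons (cons (mv 847 (cons (fin 911 7 847)
(mv 849 (cons (fin 913 6 848)
(mv 1105 (cons (fin 1169 4 912)
(mv 1106 (cons (fin 1107 3 1039)
(mv 1042 (cons (fin 1043 2 1039)
(mv 1102 (cons (fin 1041 1 1038)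
(mv 1101 (cons (fin 1100 2 1036)
(mv 1165 (cons (fin 1164 1 1100)
(fin 1166 1 1101)))))))))))))))))
(mv 849 (cons (fin 913 6 848)
(mv 1105 (cons (fin 1169 4 912)
(mv 1106 (cons (fin 1107 3 1039)
(mv 1042 (cons (fin 1043 2 1039)
(mv 1102 (cons (fin 1041 1 1038)
(mv 1101 (cons (fin 1100 2 1036)
(mv 1165 (cons (fin 1164 1 1100)
(fin 1166 1 1101))))))))))))))))
(cons (mv 849 (cons (fin 913 6 848)
(mv 911 (cons (fin 847 7 847)
(mv 975 (cons (fin 1168 7 911)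
(mv 846 (cons (fin 910 7 846)
(mv 1102 (cons (fin 1166 5 910)
(mv 1041 (cons (fin 1042 1 1038)
(fin 1101 2 1037)))))))))))))
(cons (mv 847 (cons (fin 911 7 847)
(mv 1105 (cons (fin 1169 4 912)
(mv 1106 (cons (fin 1107 3 1039)
(mv 1042 (cons (fin 1043 2 1039)
(mv 1102 (cons (fin 1041 1 1038)
(mv 1101 (cons (fin 1100 2 1036)
(mv 1165 (cons (fin 1164 1 1100)
(fin 1166 1 1101)))))))))))))))
(mv 847 (cons (fin 911 7 847)
(mv 849 (cons (fin 913 6 848)
(mv 1169 (cons (fin 1105 4 912)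
(mv 1168 (cons (fin 1233 4 976)
(mv 1232 (cons (fin 975 7 975)
(fin 1296 7 1039)))))))))))))))))
(cons (mv 912 (cons (fin 848 5 847)
(mv 1167 (cons (fin 1104 5 911)
(fin 1231 6 975)))))
(mv 912 (cons (fin 848 5 847)
(mv 1167 (cons (fin 975 6 911)
(fin 1231 6 975)))))))))
(mv 912 (cons (cons (mv 848 (cons (fin 1103 5 847)
(mv 783 (cons (fin 847 7 783)
(mv 784 (cons (fin 719 7 719)
(fin 975 5 783)))))))
(mv 1104 (cons (cons (mv 847 (cons (fin 911 7 847)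
(mv 849 (cons (fin 913 6 848)
(mv 1103 (cons (fin 1167 5 911)
(mv 1105 (cons (fin 1169 4 912)
(mv 1106 (cons (fin 1107 3 1039)
(mv 1042 (cons (fin 1043 2 1039)
(mv 1041 (cons (fin 1102 1 1038)
(mv 974 (cons (fin 975 3 974)
(mv 978 (cons (fin 979 2 975)
(mv 850 (cons (fin 914 5 849)
(mv 1170 (cons (fin 1171 0 1103)
(mv 1234 (cons (fin 977 7 977)
(fin 1298 7 1041)))))))))))))))))))))))))
(cons (mv 849 (cons (fin 913 6 848)
(mv 1103 (cons (fin 1167 5 911)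
(mv 1105 (cons (fin 1169 4 912)
(mv 1106 (cons (fin 1107 3 1039)
(mv 1042 (cons (fin 1043 2 1039)
(mv 1041 (cons (fin 1102 1 1038)
(mv 974 (cons (fin 975 3 974)
(mv 978 (cons (fin 979 2 975)
(mv 850 (cons (fin 914 5 849)
(mv 1170 (cons (fin 1171 0 1103)
(mv 1234 (cons (fin 977 7 977)
(fin 1298 7 1041)))))))))))))))))))))))
(mv 847 (cons (fin 911 7 847)
(mv 913 (cons (fin 849 6 848)
(mv 977 (cons (fin 1168 6 912)
(mv 978 (cons (fin 979 1 975)
(mv 1105 (cons (fin 1169 4 912)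
(mv 1106 (cons (fin 1107 3 1039)
(mv 1170 (cons (fin 1042 7 913)
(fin 1041 4 913)))))))))))))))))
(cons (mv 847 (cons (fin 911 7 847)
(mv 1103 (cons (fin 1167 5 911)
(mv 1105 (cons (fin 1169 4 912)
(mv 1106 (cons (fin 1107 3 1039)
(mv 1042 (cons (fin 1043 2 1039)
(mv 1041 (cons (fin 1102 1 1038)
(mv 974 (cons (fin 975 3 974)
(mv 978 (cons (fin 979 2 975)
(mv 850 (cons (fin 914 5 849)
(mv 1170 (cons (fin 1171 0 1103)
(mv 1234 (cons (fin 977 7 977)
(fin 1298 7 1041)))))))))))))))))))))))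
(cons (mv 847 (cons (fin 911 7 847)
(mv 913 (cons (fin 849 6 848)
(mv 1103 (cons (fin 1167 5 911)
(mv 1168 (cons (fin 977 6 912)
(mv 1232 (cons (fin 975 7 975)
(fin 1296 7 1039)))))))))))
(mv 847 (cons (fin 911 7 847)
(mv 849 (cons (fin 913 6 848)
(mv 1103 (cons (fin 1167 5 911)
(mv 1105 (cons (fin 1169 4 912)
(mv 1106 (cons (fin 1107 3 1039)
(mv 1042 (cons (fin 1043 2 1039)
(mv 1102 (cons (fin 1041 1 1038)
(mv 1101 (cons (fin 1100 2 1036)
(mv 1165 (cons (fin 1164 1 1100)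
(fin 1166 1 1101))))))))))))))))))))))))
(cons (mv 848 (cons (mv 783 (cons (fin 847 7 783)
(mv 784 (cons (fin 719 7 719)
(fin 975 5 783)))))
(cons (mv 783 (cons (fin 847 7 783)
(mv 849 (cons (fin 785 6 784)
(mv 1104 (cons (fin 913 6 848)
(mv 1105 (cons (fin 1041 4 848)
(fin 1169 4 912)))))))))
(mv 784 (cons (fin 975 5 783)
(mv 785 (cons (fin 721 6 720)
(fin 849 6 784))))))))
(cons (mv 848 (cons (fin 1103 5 847)
(mv 783 (cons (fin 847 7 783)
(mv 719 (cons (fin 784 7 719)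
(mv 849 (cons (fin 785 6 784)
(mv 1104 (cons (fin 913 6 848)
(mv 1105 (cons (fin 1041 4 848)
(fin 1169 4 912)))))))))))))
(mv 848 (cons (fin 1103 5 847)
(mv 784 (cons (fin 975 5 783)
(mv 785 (cons (fin 721 6 720)
(fin 849 6 784))))))))))))))
(cons (cons (cons (mv 975 (cons (cons (cons (mv 974 (cons (mv 973 (cons (fin 972 0 972)
(fin 1041 0 973)))
(cons (mv 1041 (cons (fin 1042 3 974)
(mv 977 (cons (mv 909 (cons (fin 910 3 909)
(mv 913 (cons (fin 914 2 910)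
(mv 849 (cons (fin 785 5 784)
(mv 786 (cons (fin 850 6 785)
(mv 848 (cons (fin 784 7 784)
(mv 912 (cons (fin 1105 7 848)
(fin 1103 5 847)))))))))))))
(cons (mv 913 (cons (fin 914 2 910)
(mv 849 (cons (fin 785 5 784)
(mv 786 (cons (fin 850 6 785)
(mv 848 (cons (fin 784 7 784)
(mv 912 (cons (fin 1105 7 848)
(fin 1103 5 847)))))))))))
(mv 910 (cons (fin 909 3 909)
(mv 978 (cons (fin 911 3 910)
(fin 979 1 975))))))))))
(mv 973 (cons (fin 972 0 972)
(mv 908 (cons (fin 909 3 908)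
(mv 912 (cons (fin 913 2 909)
(mv 848 (cons (fin 784 5 783)
(fin 1103 5 847))))))))))))
(mv 1103 (cons (mv 912 (cons (fin 848 5 847)
(fin 1167 6 911)))
(cons (mv 1167 (cons (fin 1231 6 975)
(mv 1166 (cons (fin 1230 5 974)
(mv 911 (cons (fin 1102 5 910)
(mv 846 (cons (fin 910 7 846)
(mv 847 (cons (fin 782 7 782)
(fin 783 4 783)))))))))))
(mv 911 (cons (cons (mv 783 (cons (fin 847 4 783)
(mv 910 (cons (fin 846 7 846)
(mv 909 (cons (fin 908 0 908)
(mv 912 (cons (fin 977 0 909)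
(fin 848 5 847)))))))))
(mv 783 (cons (fin 847 4 783)
(mv 910 (cons (fin 846 7 846)
(mv 909 (cons (fin 908 0 908)
(mv 977 (cons (fin 978 3 910)
(fin 912 0 909))))))))))
(cons (mv 846 (cons (fin 910 7 846)
(mv 847 (cons (fin 782 7 782)
(fin 783 4 783)))))
(cons (mv 910 (cons (fin 846 7 846)
(mv 909 (cons (fin 908 0 908)
(mv 912 (cons (fin 977 0 909)
(fin 848 5 847)))))))
(mv 847 (cons (fin 783 4 783)
(mv 848 (cons (fin 912 5 847)
(fin 784 6 783)))))))))))))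
(cons (mv 974 (cons (mv 973 (cons (fin 972 0 972)
(fin 1041 0 973)))
(cons (mv 1041 (cons (fin 1042 3 974)
(mv 977 (cons (cons (mv 909 (cons (fin 910 3 909)
(mv 913 (cons (fin 914 2 910)
(mv 849 (cons (fin 785 5 784)
(mv 786 (cons (fin 850 6 785)
(mv 848 (cons (fin 784 7 784)
(mv 912 (cons (fin 1105 7 848)
(mv 847 (cons (fin 783 7 783)
(mv 846 (cons (fin 845 0 845)
(mv 782 (cons (fin 781 3 781)
(fin 911 7 782)))))))))))))))))))
(mv 913 (cons (fin 914 2 910)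
(mv 849 (cons (fin 785 5 784)
(mv 786 (cons (fin 850 6 785)
(mv 848 (cons (fin 784 7 784)
(mv 912 (cons (fin 1105 7 848)
(mv 847 (cons (fin 783 7 783)
(mv 846 (cons (fin 845 0 845)
(mv 782 (cons (fin 781 3 781)
(fin 911 7 782))))))))))))))))))
(cons (mv 910 (cons (fin 909 3 909)
(mv 978 (cons (fin 911 3 910)
(fin 979 1 975)))))
(mv 909 (cons (fin 910 3 909)
(mv 913 (cons (fin 914 2 910)
(mv 849 (cons (fin 785 5 784)
(mv 786 (cons (fin 850 6 785)
(mv 848 (cons (fin 784 7 784)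
(mv 978 (cons (fin 979 1 975)
(mv 1105 (cons (fin 912 7 848)
(mv 1169 (cons (fin 1233 7 976)
(mv 1170 (cons (fin 1106 4 913)
(fin 1234 4 977))))))))))))))))))))))))
(mv 973 (cons (fin 972 0 972)
(mv 909 (cons (fin 908 3 908)
(mv 910 (cons (fin 977 3 909)
(mv 782 (cons (fin 846 4 782)
(mv 912 (cons (fin 913 2 909)
(mv 848 (cons (fin 784 5 783)
(mv 849 (cons (fin 911 2 845)
(fin 785 6 784))))))))))))))))))
(mv 974 (cons (mv 973 (cons (fin 972 0 972)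
(fin 1041 0 973)))
(cons (mv 973 (cons (fin 972 0 972)
(mv 909 (cons (fin 908 3 908)
(mv 910 (cons (fin 977 3 909)
(mv 782 (cons (fin 846 4 782)
(mv 1037 (cons (fin 1036 1 972)
(mv 1101 (cons (fin 1165 6 909)
(mv 1100 (cons (fin 1164 5 908)
(mv 1102 (cons (fin 1103 2 1036)
(fin 1166 4 909)))))))))))))))))
(mv 1041 (cons (fin 1042 3 974)
(mv 977 (cons (cons (mv 909 (cons (fin 910 3 909)
(mv 914 (cons (fin 913 2 910)
(mv 978 (cons (fin 979 1 975)
(fin 915 2 911)))))))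
(mv 914 (cons (fin 913 2 910)
(mv 978 (cons (fin 979 1 975)
(fin 915 2 911))))))
(cons (mv 910 (cons (fin 909 3 909)
(mv 782 (cons (fin 846 4 782)
(mv 913 (cons (fin 914 2 910)
(mv 849 (cons (fin 785 5 784)
(mv 848 (cons (fin 784 7 784)
(mv 850 (cons (fin 786 6 785)
(mv 847 (cons (fin 783 3 782)
(fin 911 1 846)))))))))))))))
(mv 910 (cons (fin 909 3 909)
(mv 978 (cons (fin 911 3 910)
(fin 979 1 975)))))))))))))))
(cons (cons (mv 974 (cons (mv 973 (cons (fin 972 0 972)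
(fin 1041 0 973)))
(cons (mv 1041 (cons (fin 1042 3 974)
(mv 977 (cons (mv 909 (cons (fin 910 3 909)
(mv 914 (cons (fin 913 2 910)
(mv 978 (cons (fin 979 1 975)
(fin 915 2 911)))))))
(cons (mv 914 (cons (fin 913 2 910)
(mv 978 (cons (fin 979 1 975)
(fin 915 2 911)))))
(mv 910 (cons (fin 909 3 909)
(mv 846 (cons (fin 782 4 782)
(mv 1103 (cons (fin 911 7 846)
(fin 1167 7 910))))))))))))
(mv 973 (cons (fin 972 0 972)
(mv 909 (cons (fin 908 3 908)
(mv 910 (cons (fin 977 3 909)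
(mv 782 (cons (fin 846 4 782)
(mv 912 (cons (fin 913 2 909)
(mv 1037 (cons (fin 1036 1 972)
(mv 1101 (cons (fin 1165 6 909)
(mv 1100 (cons (fin 1164 5 908)
(mv 1102 (cons (fin 1103 2 1036)
(fin 1166 4 909))))))))))))))))))))))
(mv 974 (cons (mv 973 (cons (fin 972 0 972)
(fin 1041 0 973)))
(cons (mv 977 (cons (cons (mv 909 (cons (fin 910 3 909)
(mv 913 (cons (fin 914 2 910)
(mv 785 (cons (fin 849 5 784)
(mv 978 (cons (fin 979 1 975)
(mv 1042 (cons (fin 1041 3 974)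
(fin 1043 0 975)))))))))))
(mv 909 (cons (fin 910 3 909)
(mv 914 (cons (fin 913 2 910)
(mv 978 (cons (fin 979 1 975)
(fin 915 2 911))))))))
(cons (mv 909 (cons (fin 910 3 909)
(mv 913 (cons (fin 914 2 910)
(mv 849 (cons (fin 785 5 784)
(mv 1041 (cons (fin 1042 3 974)
(mv 786 (cons (fin 850 6 785)
(mv 848 (cons (fin 784 7 784)
(mv 912 (cons (fin 1105 7 848)
(fin 1103 5 847)))))))))))))))
(cons (mv 913 (cons (fin 914 2 910)
(mv 785 (cons (fin 849 5 784)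
(mv 978 (cons (fin 979 1 975)
(mv 1042 (cons (fin 1041 3 974)
(fin 1043 0 975)))))))))
(mv 909 (cons (fin 910 3 909)
(mv 978 (cons (fin 979 1 975)
(mv 1042 (cons (fin 1041 3 974)
(fin 1043 0 975)))))))))))
(mv 973 (cons (fin 972 0 972)
(mv 908 (cons (fin 909 3 908)
(mv 912 (cons (fin 913 2 909)
(mv 848 (cons (fin 784 5 783)
(fin 1103 5 847)))))))))))))
(cons (mv 1103 (cons (mv 912 (cons (fin 848 5 847)
(fin 1167 6 911)))
(cons (mv 911 (cons (cons (mv 783 (cons (fin 847 4 783)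
(mv 910 (cons (fin 846 7 846)
(mv 909 (cons (fin 908 0 908)
(mv 912 (cons (fin 848 5 847)
(mv 844 (cons (fin 845 3 844)
(mv 973 (cons (fin 972 1 908)
(mv 974 (cons (fin 913 1 909)
(fin 1041 0 973)))))))))))))))
(mv 783 (cons (fin 847 4 783)
(mv 910 (cons (fin 846 7 846)
(mv 909 (cons (fin 908 0 908)
(mv 1102 (cons (fin 1166 5 910)
(mv 1041 (cons (fin 1042 1 1038)
(mv 973 (cons (fin 974 0 973)
(mv 972 (cons (fin 912 1 908)
(mv 970 (cons (fin 971 2 906)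
(mv 1100 (cons (fin 1101 2 1036)
(mv 1036 (cons (fin 1164 6 908)
(mv 845 (cons (fin 781 5 780)
(fin 1037 5 844))))))))))))))))))))))))
(cons (mv 846 (cons (fin 910 7 846)
(mv 847 (cons (fin 782 7 782)
(fin 783 4 783)))))
(cons (mv 910 (cons (fin 846 7 846)
(mv 909 (cons (fin 908 0 908)
(mv 912 (cons (fin 848 5 847)
(mv 844 (cons (fin 845 3 844)
(mv 973 (cons (fin 972 1 908)
(mv 974 (cons (fin 913 1 909)
(fin 1041 0 973)))))))))))))
(mv 847 (cons (fin 783 4 783)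
(mv 848 (cons (fin 912 5 847)
(fin 784 6 783)))))))))
(mv 1167 (cons (fin 1231 6 975)
(mv 910 (cons (fin 974 7 910)
(mv 911 (cons (fin 846 7 846)
(mv 1166 (cons (fin 1102 5 910)
(fin 1230 5 974))))))))))))
(cons (mv 974 (cons (mv 973 (cons (fin 972 0 972)
(fin 1041 0 973)))
(cons (mv 977 (cons (cons (mv 913 (cons (fin 914 2 910)
(mv 785 (cons (fin 849 5 784)
(mv 978 (cons (fin 979 1 975)
(mv 1042 (cons (fin 1041 3 974)
(fin 1043 0 975)))))))))
(mv 914 (cons (fin 913 2 910)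
(mv 978 (cons (fin 979 1 975)
(fin 915 2 911))))))
(cons (mv 913 (cons (fin 914 2 910)
(mv 849 (cons (fin 785 5 784)
(mv 1041 (cons (fin 1042 3 974)
(mv 786 (cons (fin 850 6 785)
(mv 848 (cons (fin 784 7 784)
(mv 912 (cons (fin 1105 7 848)
(fin 1103 5 847)))))))))))))
(mv 978 (cons (fin 979 1 975)
(mv 1042 (cons (fin 1041 3 974)
(fin 1043 0 975))))))))
(mv 973 (cons (fin 972 0 972)
(mv 908 (cons (fin 909 3 908)
(mv 912 (cons (fin 913 2 909)
(mv 848 (cons (fin 784 5 783)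
(fin 1103 5 847))))))))))))
(mv 1103 (cons (mv 912 (cons (fin 848 5 847)
(fin 1167 6 911)))
(cons (mv 848 (cons (fin 912 5 847)
(mv 911 (cons (mv 847 (cons (fin 784 6 783)
(fin 783 4 783)))
(cons (mv 910 (cons (fin 846 7 846)
(mv 977 (cons (fin 978 3 910)
(mv 1102 (cons (fin 1166 5 910)
(mv 1041 (cons (fin 1042 1 1038)
(mv 974 (cons (fin 973 0 973)
(mv 913 (cons (fin 914 2 910)
(mv 849 (cons (fin 784 7 784)
(fin 785 5 784)))))))))))))))
(mv 846 (cons (fin 910 7 846)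
(mv 847 (cons (fin 782 7 782)
(fin 783 4 783))))))))))
(mv 1167 (cons (fin 1231 6 975)
(mv 910 (cons (fin 974 7 910)
(mv 911 (cons (fin 846 7 846)
(mv 1166 (cons (fin 1102 5 910)
(fin 1230 5 974)))))))))))))))))
(mv 912 (cons (cons (mv 848 (cons (fin 1103 5 847)
(mv 783 (cons (fin 847 7 783)
(mv 719 (cons (fin 784 7 719)
(mv 849 (cons (fin 785 6 784)
(mv 1104 (cons (fin 913 6 848)
(mv 1105 (cons (fin 1041 4 848)
(fin 1169 4 912)))))))))))))
(cons (mv 1104 (cons (cons (mv 847 (cons (fin 911 7 847)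
(mv 849 (cons (fin 913 6 848)
(mv 1103 (cons (fin 1167 5 911)
(mv 1105 (cons (fin 1169 4 912)
(mv 1106 (cons (fin 1107 3 1039)
(mv 1042 (cons (fin 1043 2 1039)
(mv 1041 (cons (fin 1102 1 1038)
(mv 978 (cons (fin 979 2 975)
(mv 850 (cons (fin 914 5 849)
(mv 1170 (cons (fin 1171 0 1103)
(mv 1234 (cons (fin 977 7 977)
(fin 1298 7 1041)))))))))))))))))))))))
(cons (mv 847 (cons (fin 911 7 847)
(mv 913 (cons (fin 849 6 848)
(mv 977 (cons (fin 1168 6 912)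
(mv 978 (cons (fin 979 1 975)
(mv 1105 (cons (fin 1169 4 912)
(mv 1106 (cons (fin 1107 3 1039)
(mv 1170 (cons (fin 1042 7 913)
(fin 1041 4 913)))))))))))))))
(mv 847 (cons (fin 911 7 847)
(mv 913 (cons (fin 849 6 848)
(mv 1103 (cons (fin 1167 5 911)
(mv 1168 (cons (fin 977 6 912)
(mv 1232 (cons (fin 1296 7 1039)
(mv 1233 (cons (fin 1169 4 976)
(fin 1297 4 1040)))))))))))))))
(cons (cons (mv 847 (cons (fin 911 7 847)
(mv 1103 (cons (fin 1167 5 911)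
(mv 1105 (cons (fin 1169 4 912)
(mv 1106 (cons (fin 1107 3 1039)
(mv 1042 (cons (fin 1043 2 1039)
(mv 1041 (cons (fin 1102 1 1038)
(mv 978 (cons (fin 979 2 975)
(mv 850 (cons (fin 914 5 849)
(mv 1170 (cons (fin 1171 0 1103)
(mv 1234 (cons (fin 977 7 977)
(fin 1298 7 1041)))))))))))))))))))))
(mv 847 (cons (fin 911 7 847)
(mv 913 (cons (fin 849 6 848)
(mv 1167 (cons (fin 1103 5 911)
(mv 1168 (cons (fin 1231 5 975)
(fin 977 6 912))))))))))
(cons (mv 849 (cons (fin 913 6 848)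
(mv 1103 (cons (fin 1167 5 911)
(mv 1105 (cons (fin 1169 4 912)
(mv 1106 (cons (fin 1107 3 1039)
(mv 1042 (cons (fin 1043 2 1039)
(mv 1041 (cons (fin 1102 1 1038)
(mv 978 (cons (fin 979 2 975)
(mv 850 (cons (fin 914 5 849)
(mv 1170 (cons (fin 1171 0 1103)
(mv 1234 (cons (fin 977 7 977)
(fin 1298 7 1041)))))))))))))))))))))
(mv 847 (cons (fin 911 7 847)
(mv 849 (cons (fin 913 6 848)
(mv 1103 (cons (fin 1167 5 911)
(mv 1105 (cons (fin 1169 4 912)
(mv 1106 (cons (fin 1107 3 1039)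
(mv 1042 (cons (fin 1043 2 1039)
(mv 1102 (cons (fin 1041 1 1038)
(mv 1101 (cons (fin 1100 2 1036)
(mv 1165 (cons (fin 1164 1 1100)
(fin 1166 1 1101)))))))))))))))))))))))
(mv 1104 (cons (cons (mv 847 (cons (fin 911 7 847)
(mv 783 (cons (fin 848 7 783)
(mv 913 (cons (fin 849 6 848)
(mv 977 (cons (fin 1168 6 912)
(mv 978 (cons (fin 979 1 975)
(mv 1105 (cons (fin 1169 4 912)
(mv 1106 (cons (fin 1107 3 1039)
(mv 1170 (cons (fin 1042 7 913)
(fin 1041 4 913)))))))))))))))))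
(cons (mv 847 (cons (fin 911 7 847)
(mv 783 (cons (fin 848 7 783)
(mv 913 (cons (fin 849 6 848)
(mv 1168 (cons (fin 977 6 912)
(mv 1231 (cons (fin 1167 5 975)
(mv 1232 (cons (fin 1295 5 1039)
(mv 1233 (cons (fin 1169 4 976)
(fin 1297 4 1040)))))))))))))))
(mv 847 (cons (fin 911 7 847)
(mv 848 (cons (fin 783 7 783)
(mv 1105 (cons (fin 1041 4 848)
(fin 1169 4 912)))))))))
(cons (mv 847 (cons (fin 911 7 847)
(mv 848 (cons (fin 783 7 783)
(mv 849 (cons (fin 785 6 784)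
(fin 913 6 848)))))))
(cons (mv 849 (cons (fin 913 6 848)
(mv 848 (cons (fin 785 6 784)
(mv 1105 (cons (fin 1041 4 848)
(fin 1169 4 912)))))))
(mv 847 (cons (fin 911 7 847)
(mv 913 (cons (fin 849 6 848)
(mv 977 (cons (fin 1168 6 912)
(mv 978 (cons (fin 979 1 975)
(mv 1105 (cons (fin 1169 4 912)
(mv 1106 (cons (fin 1107 3 1039)
(mv 1170 (cons (fin 1042 7 913)
(fin 1041 4 913)))))))))))))))))))))
(cons (mv 848 (cons (fin 1103 5 847)
(mv 783 (cons (fin 847 7 783)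
(mv 784 (cons (fin 719 7 719)
(mv 785 (cons (fin 721 6 720)
(fin 849 6 784)))))))))
(cons (mv 848 (cons (fin 1103 5 847)
(mv 783 (cons (fin 847 7 783)
(mv 784 (cons (fin 719 7 719)
(mv 1041 (cons (fin 977 4 784)
(fin 1105 4 848)))))))))
(mv 848 (cons (fin 1103 5 847)
(mv 785 (cons (fin 849 6 784)
(mv 784 (cons (fin 721 6 720)
(mv 1041 (cons (fin 977 4 784)
(fin 1105 4 848))))))))))))))
(cons (mv 1103 (cons (cons (mv 912 (cons (fin 848 5 847)
(mv 1167 (cons (fin 1104 5 911)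
(fin 975 6 911)))))
(mv 1167 (cons (fin 1231 6 975)
(mv 975 (cons (mv 910 (cons (fin 974 7 910)
(mv 911 (cons (fin 846 7 846)
(mv 847 (cons (fin 783 4 783)
(fin 1104 4 847)))))))
(cons (mv 1166 (cons (fin 1230 5 974)
(mv 911 (cons (fin 1102 5 910)
(mv 847 (cons (fin 783 4 783)
(fin 1104 4 847)))))))
(mv 974 (cons (fin 910 7 910)
(mv 973 (cons (fin 972 0 972)
(mv 909 (cons (fin 908 3 908)
(mv 1037 (cons (fin 1036 1 972)
(mv 1166 (cons (fin 1230 5 974)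
(mv 1101 (cons (fin 1102 4 909)
(mv 1100 (cons (fin 1164 5 908)
(mv 1168 (cons (fin 1165 3 1100)
(fin 1232 4 975)))))))))))))))))))))))
(cons (mv 912 (cons (fin 848 5 847)
(mv 1104 (cons (cons (mv 847 (cons (fin 911 7 847)
(mv 849 (cons (fin 913 6 848)
(mv 1169 (cons (fin 1105 4 912)
(mv 1168 (cons (fin 1233 4 976)
(mv 1232 (cons (fin 975 7 975)
(fin 1296 7 1039)))))))))))
(cons (mv 849 (cons (fin 913 6 848)
(mv 1169 (cons (fin 1105 4 912)
(mv 1168 (cons (fin 1233 4 976)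
(mv 1232 (cons (fin 975 7 975)
(fin 1296 7 1039)))))))))
(mv 847 (cons (fin 911 7 847)
(mv 913 (cons (fin 849 6 848)
(mv 1168 (cons (fin 977 6 912)
(mv 1232 (cons (fin 975 7 975)
(fin 1296 7 1039)))))))))))
(cons (mv 847 (cons (fin 911 7 847)
(mv 1169 (cons (fin 1105 4 912)
(mv 1168 (cons (fin 1233 4 976)
(mv 1232 (cons (fin 975 7 975)
(fin 1296 7 1039)))))))))
(cons (mv 847 (cons (fin 911 7 847)
(mv 913 (cons (fin 849 6 848)
(mv 1105 (cons (fin 1169 4 912)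
(mv 1106 (cons (fin 1107 3 1039)
(mv 1042 (cons (fin 1043 2 1039)
(mv 1170 (cons (fin 1171 0 1103)
(mv 978 (cons (fin 977 7 913)
(mv 915 (cons (fin 979 6 914)
(mv 914 (cons (fin 975 1 911)
(fin 851 6 850)))))))))))))))))))
(mv 847 (cons (fin 911 7 847)
(mv 913 (cons (fin 849 6 848)
(mv 977 (cons (fin 1168 6 912)
(mv 978 (cons (fin 979 1 975)
(mv 1105 (cons (fin 1169 4 912)
(mv 1106 (cons (fin 1107 3 1039)
(mv 1042 (cons (fin 1043 2 1039)
(fin 1170 7 913)))))))))))))))))))))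
(cons (mv 912 (cons (fin 848 5 847)
(mv 1167 (cons (fin 1104 5 911)
(fin 1231 6 975)))))
(mv 912 (cons (fin 848 5 847)
(mv 1167 (cons (fin 975 6 911)
(fin 1231 6 975)))))))))
(mv 1103 (cons (cons (mv 912 (cons (fin 848 5 847)
(mv 1167 (cons (fin 1104 5 911)
(fin 975 6 911)))))
(mv 1167 (cons (fin 1231 6 975)
(mv 975 (cons (mv 910 (cons (fin 974 7 910)
(mv 911 (cons (fin 846 7 846)
(mv 847 (cons (fin 783 4 783)
(fin 1104 4 847)))))))
(cons (mv 1166 (cons (fin 1230 5 974)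
(mv 911 (cons (fin 1102 5 910)
(mv 847 (cons (fin 783 4 783)
(fin 1104 4 847)))))))
(mv 974 (cons (fin 910 7 910)
(mv 973 (cons (fin 972 0 972)
(fin 1041 0 973)))))))))))
(cons (mv 912 (cons (fin 848 5 847)
(mv 1104 (cons (cons (mv 847 (cons (fin 911 7 847)
(mv 849 (cons (fin 913 6 848)
(mv 1169 (cons (fin 1105 4 912)
(mv 1168 (cons (fin 1233 4 976)
(mv 1232 (cons (fin 975 7 975)
(fin 1296 7 1039)))))))))))
(mv 849 (cons (fin 913 6 848)
(mv 1169 (cons (fin 1105 4 912)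
(mv 1168 (cons (fin 1233 4 976)
(mv 1232 (cons (fin 975 7 975)
(fin 1296 7 1039))))))))))
(cons (mv 847 (cons (fin 911 7 847)
(mv 913 (cons (fin 849 6 848)
(mv 1168 (cons (fin 977 6 912)
(mv 1232 (cons (fin 975 7 975)
(fin 1296 7 1039)))))))))
(cons (mv 847 (cons (fin 911 7 847)
(mv 1169 (cons (fin 1105 4 912)
(mv 1168 (cons (fin 1233 4 976)
(mv 1232 (cons (fin 975 7 975)
(fin 1296 7 1039)))))))))
(mv 911 (cons (fin 847 7 847)
(mv 913 (cons (fin 849 6 848)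
(mv 1105 (cons (fin 1169 4 912)
(mv 1106 (cons (fin 1107 3 1039)
(mv 1170 (cons (fin 1171 0 1103)
(mv 977 (cons (fin 1041 4 913)
(mv 910 (cons (fin 909 0 909)
(fin 978 0 910)))))))))))))))))))))
(cons (mv 912 (cons (fin 848 5 847)
(mv 1167 (cons (fin 975 6 911)
(fin 1231 6 975)))))
(mv 912 (cons (fin 848 5 847)
(mv 1167 (cons (fin 1104 5 911)
(fin 1231 6 975)))))))))))
(cons (cons (mv 1103 (cons (cons (mv 912 (cons (fin 848 5 847)
(mv 1167 (cons (fin 1104 5 911)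
(fin 975 6 911)))))
(mv 912 (cons (fin 848 5 847)
(mv 1104 (cons (cons (mv 849 (cons (fin 913 6 848)
(mv 1105 (cons (fin 1169 4 912)
(mv 1106 (cons (fin 1107 3 1039)
(mv 1042 (cons (fin 1043 2 1039)
(mv 1041 (cons (fin 1102 1 1038)
(mv 974 (cons (fin 975 3 974)
(mv 978 (cons (fin 979 2 975)
(mv 850 (cons (fin 914 5 849)
(mv 1170 (cons (fin 1171 0 1103)
(mv 1234 (cons (fin 977 7 977)
(fin 1298 7 1041)))))))))))))))))))))
(mv 913 (cons (fin 849 6 848)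
(mv 1168 (cons (fin 977 6 912)
(mv 1232 (cons (fin 975 7 975)
(fin 1296 7 1039))))))))
(cons (mv 1105 (cons (fin 1169 4 912)
(mv 1106 (cons (fin 1107 3 1039)
(mv 1042 (cons (fin 1043 2 1039)
(mv 1041 (cons (fin 1102 1 1038)
(mv 974 (cons (fin 975 3 974)
(mv 978 (cons (fin 979 2 975)
(mv 850 (cons (fin 914 5 849)
(mv 1170 (cons (fin 1171 0 1103)
(mv 1234 (cons (fin 977 7 977)
(fin 1298 7 1041)))))))))))))))))))
(mv 849 (cons (fin 913 6 848)
(mv 1105 (cons (fin 1169 4 912)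
(mv 1106 (cons (fin 1107 3 1039)
(mv 1042 (cons (fin 1043 2 1039)
(mv 1102 (cons (fin 1041 1 1038)
(mv 1101 (cons (fin 1100 2 1036)
(mv 1165 (cons (fin 1164 1 1100)
(fin 1166 1 1101)))))))))))))))))))))
(cons (mv 1167 (cons (fin 1231 6 975)
(mv 975 (cons (mv 974 (cons (fin 910 7 910)
(mv 973 (cons (fin 972 0 972)
(fin 1041 0 973)))))
(mv 1166 (cons (fin 1230 5 974)
(mv 1168 (cons (fin 1232 4 975)
(mv 1104 (cons (mv 1105 (cons (fin 1106 1 1102)
(fin 1165 2 1101)))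
(cons (mv 913 (cons (fin 977 6 912)
(mv 1164 (cons (fin 1165 2 1100)
(mv 1169 (cons (fin 1233 4 976)
(mv 1102 (cons (fin 1101 3 1101)
(fin 1170 3 1102)))))))))
(mv 913 (cons (fin 977 6 912)
(mv 1105 (cons (fin 1106 1 1102)
(mv 1169 (cons (fin 1233 4 976)
(mv 1102 (cons (fin 1101 3 1101)
(fin 1170 3 1102))))))))))))))))))))
(cons (mv 912 (cons (fin 848 5 847)
(mv 1167 (cons (fin 975 6 911)
(fin 1231 6 975)))))
(mv 912 (cons (fin 848 5 847)
(mv 1167 (cons (fin 1104 5 911)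
(fin 1231 6 975)))))))))
(mv 1103 (cons (cons (mv 912 (cons (fin 848 5 847)
(mv 1167 (cons (fin 1104 5 911)
(fin 975 6 911)))))
(mv 912 (cons (fin 848 5 847)
(mv 1104 (cons (cons (mv 847 (cons (fin 911 7 847)
(mv 913 (cons (fin 849 6 848)
(mv 1168 (cons (fin 977 6 912)
(mv 1232 (cons (fin 975 7 975)
(fin 1296 7 1039)))))))))
(mv 913 (cons (fin 849 6 848)
(mv 1168 (cons (fin 977 6 912)
(mv 1232 (cons (fin 975 7 975)
(fin 1296 7 1039))))))))
(cons (mv 911 (cons (fin 847 7 847)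
(mv 975 (cons (fin 1168 7 911)
(mv 846 (cons (fin 910 7 846)
(mv 1102 (cons (fin 1166 5 910)
(mv 1041 (cons (fin 1042 1 1038)
(fin 1101 2 1037)))))))))))
(cons (mv 849 (cons (fin 913 6 848)
(mv 911 (cons (fin 847 7 847)
(mv 1102 (cons (mv 1041 (cons (fin 1042 1 1038)
(fin 1101 2 1037)))
(mv 975 (cons (fin 1166 5 910)
(mv 910 (cons (fin 846 7 846)
(mv 909 (cons (fin 908 0 908)
(fin 977 0 909)))))))))))))
(mv 847 (cons (fin 911 7 847)
(mv 913 (cons (fin 849 6 848)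
(mv 1168 (cons (fin 977 6 912)
(mv 1232 (cons (fin 1296 7 1039)
(mv 1233 (cons (fin 1169 4 976)
(fin 1297 4 1040))))))))))))))))))
(cons (mv 1167 (cons (fin 1231 6 975)
(mv 975 (cons (mv 910 (cons (fin 974 7 910)
(mv 911 (cons (fin 846 7 846)
(mv 847 (cons (fin 783 4 783)
(fin 1104 4 847)))))))
(cons (mv 1166 (cons (fin 1230 5 974)
(mv 911 (cons (fin 1102 5 910)
(mv 847 (cons (fin 783 4 783)
(fin 1104 4 847)))))))
(mv 974 (cons (fin 910 7 910)
(mv 973 (cons (fin 972 0 972)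
(fin 1041 0 973))))))))))
(cons (mv 912 (cons (fin 848 5 847)
(mv 1167 (cons (fin 1104 5 911)
(fin 1231 6 975)))))
(mv 912 (cons (fin 848 5 847)
(mv 1167 (cons (fin 975 6 911)
(fin 1231 6 975))))))))))
(cons (mv 1103 (cons (cons (mv 912 (cons (fin 848 5 847)
(mv 1167 (cons (fin 1104 5 911)
(fin 975 6 911)))))
(mv 912 (cons (fin 848 5 847)
(mv 1104 (cons (cons (mv 847 (cons (fin 911 7 847)
(mv 1105 (cons (fin 1169 4 912)
(mv 1106 (cons (fin 1107 3 1039)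
(mv 1042 (cons (fin 1043 2 1039)
(mv 1041 (cons (fin 1102 1 1038)
(mv 974 (cons (fin 975 3 974)
(mv 978 (cons (fin 979 2 975)
(mv 850 (cons (fin 914 5 849)
(mv 1170 (cons (fin 1171 0 1103)
(mv 1234 (cons (fin 977 7 977)
(fin 1298 7 1041)))))))))))))))))))))
(mv 1105 (cons (fin 1169 4 912)
(mv 1106 (cons (fin 1107 3 1039)
(mv 1042 (cons (fin 1043 2 1039)
(mv 1041 (cons (fin 1102 1 1038)
(mv 974 (cons (fin 975 3 974)
(mv 978 (cons (fin 979 2 975)
(mv 850 (cons (fin 914 5 849)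
(mv 1170 (cons (fin 1171 0 1103)
(mv 1234 (cons (fin 977 7 977)
(fin 1298 7 1041))))))))))))))))))))
(cons (mv 911 (cons (fin 847 7 847)
(mv 975 (cons (fin 1168 7 911)
(mv 846 (cons (fin 910 7 846)
(mv 1102 (cons (fin 1166 5 910)
(mv 1041 (cons (fin 1042 1 1038)
(fin 1101 2 1037)))))))))))
(cons (mv 847 (cons (fin 911 7 847)
(mv 1105 (cons (fin 1169 4 912)
(mv 1106 (cons (fin 1107 3 1039)
(mv 1042 (cons (fin 1043 2 1039)
(mv 1041 (cons (fin 1102 1 1038)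
(mv 978 (cons (fin 979 2 975)
(mv 850 (cons (fin 914 5 849)
(mv 1170 (cons (fin 1171 0 1103)
(mv 1234 (cons (fin 977 7 977)
(fin 1298 7 1041)))))))))))))))))))
(mv 847 (cons (fin 911 7 847)
(mv 1169 (cons (fin 1105 4 912)
(mv 1168 (cons (fin 1233 4 976)
(mv 1232 (cons (fin 975 7 975)
(fin 1296 7 1039))))))))))))))))
(cons (mv 1167 (cons (fin 1231 6 975)
(mv 975 (cons (mv 910 (cons (fin 974 7 910)
(mv 911 (cons (fin 846 7 846)
(mv 847 (cons (fin 783 4 783)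
(fin 1104 4 847)))))))
(cons (mv 1166 (cons (fin 1230 5 974)
(mv 911 (cons (fin 1102 5 910)
(mv 847 (cons (fin 783 4 783)
(fin 1104 4 847)))))))
(mv 974 (cons (fin 910 7 910)
(mv 973 (cons (fin 972 0 972)
(fin 1041 0 973))))))))))
(cons (mv 912 (cons (fin 848 5 847)
(mv 1167 (cons (fin 1104 5 911)
(fin 1231 6 975)))))
(mv 912 (cons (fin 848 5 847)
(mv 1167 (cons (fin 975 6 911)
(fin 1231 6 975)))))))))
(mv 1103 (cons (cons (mv 912 (cons (fin 848 5 847)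
(mv 1167 (cons (fin 1104 5 911)
(fin 975 6 911)))))
(mv 1167 (cons (fin 1231 6 975)
(mv 975 (cons (mv 910 (cons (fin 974 7 910)
(mv 911 (cons (fin 846 7 846)
(mv 847 (cons (fin 783 4 783)
(fin 1104 4 847)))))))
(cons (mv 1166 (cons (fin 1230 5 974)
(mv 911 (cons (fin 1102 5 910)
(mv 847 (cons (fin 783 4 783)
(fin 1104 4 847)))))))
(mv 974 (cons (fin 910 7 910)
(mv 973 (cons (fin 972 0 972)
(fin 1041 0 973)))))))))))
(cons (mv 912 (cons (fin 848 5 847)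
(mv 1104 (cons (cons (mv 847 (cons (fin 911 7 847)
(mv 913 (cons (fin 849 6 848)
(mv 1168 (cons (fin 977 6 912)
(mv 1232 (cons (fin 975 7 975)
(fin 1296 7 1039)))))))))
(mv 913 (cons (fin 849 6 848)
(mv 1168 (cons (fin 977 6 912)
(mv 1232 (cons (fin 975 7 975)
(fin 1296 7 1039))))))))
(cons (mv 911 (cons (fin 847 7 847)
(mv 975 (cons (fin 1168 7 911)
(mv 846 (cons (fin 910 7 846)
(mv 1102 (cons (fin 1166 5 910)
(mv 1041 (cons (fin 1042 1 1038)
(fin 1101 2 1037)))))))))))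
(cons (mv 849 (cons (fin 913 6 848)
(mv 911 (cons (fin 847 7 847)
(mv 1102 (cons (mv 1041 (cons (fin 1042 1 1038)
(fin 1101 2 1037)))
(mv 975 (cons (fin 1166 5 910)
(mv 910 (cons (fin 846 7 846)
(mv 909 (cons (fin 908 0 908)
(fin 977 0 909)))))))))))))
(mv 911 (cons (fin 847 7 847)
(mv 913 (cons (fin 849 6 848)
(mv 977 (cons (fin 1168 6 912)
(mv 910 (cons (fin 909 0 909)
(fin 978 0 910)))))))))))))))
(cons (mv 912 (cons (fin 848 5 847)
(mv 1167 (cons (fin 1104 5 911)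
(fin 1231 6 975)))))
(mv 912 (cons (fin 848 5 847)
(mv 1167 (cons (fin 975 6 911)
(fin 1231 6 975)))))))))))))))
(cons (mv 975 (cons (cons (cons (mv 1104 (cons (cons (mv 911 (cons (fin 847 4 847)
(mv 1168 (cons (fin 976 7 911)
(fin 1232 7 975)))))
(mv 1168 (cons (fin 1232 7 975)
(mv 976 (cons (mv 913 (cons (fin 977 6 912)
(mv 912 (cons (fin 849 6 848)
(mv 848 (cons (fin 784 5 783)
(fin 1103 5 847)))))))
(cons (mv 1167 (cons (fin 1231 5 975)
(mv 912 (cons (fin 1103 5 911)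
(mv 1169 (cons (fin 1105 4 912)
(fin 1233 4 976)))))))
(mv 977 (cons (fin 913 6 912)
(mv 978 (cons (fin 1038 1 974)
(fin 979 1 975)))))))))))
(cons (mv 911 (cons (fin 847 4 847)
(mv 1103 (cons (cons (mv 846 (cons (fin 910 7 846)
(mv 848 (cons (fin 912 6 847)
(mv 1102 (cons (fin 1166 5 910)
(mv 1101 (cons (fin 1100 2 1036)
(mv 1037 (cons (fin 1036 3 1036)
(mv 1038 (cons (fin 1105 3 1037)
(mv 972 (cons (fin 973 3 972)
(mv 976 (cons (fin 977 2 973)
(mv 1165 (cons (fin 1164 1 1100)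
(mv 1229 (cons (fin 974 6 973)
(fin 1293 6 1037)))))))))))))))))))))
(cons (mv 846 (cons (fin 910 7 846)
(mv 1102 (cons (fin 1166 5 910)
(mv 1101 (cons (fin 1100 2 1036)
(mv 1037 (cons (fin 1036 3 1036)
(mv 1038 (cons (fin 1105 3 1037)
(mv 972 (cons (fin 973 3 972)
(mv 976 (cons (fin 977 2 973)
(mv 1165 (cons (fin 1164 1 1100)
(mv 1229 (cons (fin 974 6 973)
(fin 1293 6 1037)))))))))))))))))))
(mv 846 (cons (fin 910 7 846)
(mv 912 (cons (fin 848 6 847)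
(mv 976 (cons (fin 1167 5 911)
(mv 849 (cons (fin 913 6 848)
(mv 1105 (cons (fin 1169 4 912)
(mv 1038 (cons (fin 1106 3 1038)
(fin 1037 0 1037)))))))))))))))
(cons (mv 848 (cons (fin 912 6 847)
(mv 1102 (cons (fin 1166 5 910)
(mv 1101 (cons (fin 1100 2 1036)
(mv 1037 (cons (fin 1036 3 1036)
(mv 1038 (cons (fin 1105 3 1037)
(mv 972 (cons (fin 973 3 972)
(mv 976 (cons (fin 977 2 973)
(mv 1165 (cons (fin 1164 1 1100)
(mv 1229 (cons (fin 974 6 973)
(fin 1293 6 1037)))))))))))))))))))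
(cons (mv 846 (cons (fin 910 7 846)
(mv 848 (cons (fin 912 6 847)
(mv 1102 (cons (fin 1166 5 910)
(mv 1101 (cons (fin 1100 2 1036)
(mv 1037 (cons (fin 1036 3 1036)
(mv 1038 (cons (fin 1105 3 1037)
(mv 972 (cons (fin 973 3 972)
(mv 1165 (cons (fin 1164 1 1100)
(mv 1229 (cons (fin 974 6 973)
(fin 1293 6 1037)))))))))))))))))))
(mv 846 (cons (fin 910 7 846)
(mv 848 (cons (fin 912 6 847)
(mv 1166 (cons (fin 1102 5 910)
(mv 1167 (cons (fin 1230 5 974)
(mv 1231 (cons (fin 976 6 975)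
(fin 1295 6 1039)))))))))))))))))
(mv 911 (cons (fin 847 4 847)
(mv 1168 (cons (fin 1232 7 975)
(fin 1103 4 911))))))))
(cons (mv 974 (cons (cons (cons (mv 973 (cons (fin 972 0 972)
(mv 976 (cons (cons (mv 908 (cons (fin 909 3 908)
(mv 912 (cons (fin 913 2 909)
(mv 848 (cons (fin 784 5 783)
(fin 1103 5 847)))))))
(mv 908 (cons (fin 909 3 908)
(mv 1037 (cons (fin 1036 1 972)
(mv 977 (cons (fin 1038 1 973)
(mv 914 (cons (fin 913 2 910)
(mv 978 (cons (fin 979 1 975)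
(fin 915 2 911))))))))))))
(cons (mv 912 (cons (fin 913 2 909)
(mv 848 (cons (fin 784 5 783)
(fin 1103 5 847)))))
(mv 908 (cons (fin 909 3 908)
(mv 1037 (cons (fin 1036 1 972)
(mv 977 (cons (fin 1038 1 973)
(mv 978 (cons (fin 979 1 975)
(mv 911 (cons (fin 910 3 910)
(mv 847 (cons (fin 783 4 783)
(mv 782 (cons (fin 846 7 782)
(mv 848 (cons (fin 784 6 783)
(mv 914 (cons (fin 915 2 911)
(mv 1042 (cons (fin 1043 0 975)
(mv 1103 (cons (fin 912 5 847)
(mv 1166 (cons (fin 1102 5 910)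
(mv 1167 (cons (fin 1230 5 974)
(fin 1231 6 975))))))))))))))))))))))))))))))))
(mv 910 (cons (cons (mv 846 (cons (fin 782 4 782)
(mv 1103 (cons (fin 911 7 846)
(fin 1167 7 910)))))
(mv 846 (cons (fin 782 4 782)
(mv 1038 (cons (cons (mv 781 (cons (fin 845 7 781)
(mv 783 (cons (fin 847 6 782)
(mv 1037 (cons (fin 1101 5 845)
(mv 976 (cons (fin 977 1 973)
(fin 1036 2 972)))))))))
(mv 781 (cons (fin 845 7 781)
(mv 847 (cons (fin 783 6 782)
(mv 911 (cons (fin 1102 5 846)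
(mv 848 (cons (fin 784 6 783)
(mv 849 (cons (fin 909 1 845)
(fin 850 1 846))))))))))))
(cons (mv 781 (cons (fin 845 7 781)
(mv 1037 (cons (fin 1101 5 845)
(mv 976 (cons (fin 977 1 973)
(fin 1036 2 972)))))))
(mv 783 (cons (fin 847 6 782)
(mv 1037 (cons (fin 1101 5 845)
(mv 976 (cons (fin 977 1 973)
(fin 1036 2 972)))))))))))))
(cons (mv 1103 (cons (fin 1167 7 910)
(mv 911 (cons (cons (mv 848 (cons (fin 912 6 847)
(mv 784 (cons (fin 847 6 783)
(mv 1102 (cons (fin 1166 5 910)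
(mv 1101 (cons (fin 1100 2 1036)
(mv 1038 (cons (fin 1165 5 909)
(mv 909 (cons (fin 845 7 845)
(mv 908 (cons (fin 907 0 907)
(fin 976 0 908)))))))))))))))
(mv 848 (cons (fin 912 6 847)
(mv 847 (cons (fin 784 6 783)
(mv 783 (cons (fin 719 5 718)
(fin 1038 5 782))))))))
(cons (mv 1102 (cons (fin 1166 5 910)
(mv 847 (cons (fin 1038 5 846)
(mv 783 (cons (fin 719 5 718)
(fin 976 4 783)))))))
(cons (mv 848 (cons (fin 912 6 847)
(mv 1102 (cons (fin 1166 5 910)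
(mv 1101 (cons (fin 1100 2 1036)
(mv 1038 (cons (fin 1165 5 909)
(mv 909 (cons (fin 845 7 845)
(mv 908 (cons (fin 907 0 907)
(fin 976 0 908)))))))))))))
(mv 848 (cons (fin 912 6 847)
(mv 847 (cons (fin 784 6 783)
(mv 783 (cons (fin 719 5 718)
(fin 976 4 783)))))))))))))
(mv 846 (cons (fin 782 4 782)
(mv 1103 (cons (fin 1167 7 910)
(fin 1038 4 846)))))))))
(cons (mv 973 (cons (fin 972 0 972)
(mv 976 (cons (cons (mv 908 (cons (fin 909 3 908)
(mv 912 (cons (fin 913 2 909)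
(mv 848 (cons (fin 784 5 783)
(fin 1103 5 847)))))))
(mv 908 (cons (fin 909 3 908)
(mv 1037 (cons (fin 1036 1 972)
(mv 977 (cons (fin 1038 1 973)
(mv 914 (cons (fin 913 2 910)
(mv 978 (cons (fin 979 1 975)
(fin 915 2 911))))))))))))
(cons (mv 908 (cons (fin 909 3 908)
(mv 1037 (cons (fin 1036 1 972)
(mv 1038 (cons (fin 977 1 973)
(mv 1101 (cons (fin 1100 1 1036)
(mv 1165 (cons (fin 1229 6 973)
(mv 1164 (cons (fin 1228 5 972)
(mv 1166 (cons (fin 1230 4 973)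
(mv 1102 (cons (fin 911 6 910)
(mv 1163 (cons (fin 1162 2 1098)
(fin 1103 2 1099)))))))))))))))))))
(mv 912 (cons (fin 913 2 909)
(mv 848 (cons (fin 784 5 783)
(fin 1103 5 847))))))))))
(cons (mv 973 (cons (fin 972 0 972)
(mv 976 (cons (cons (mv 908 (cons (fin 909 3 908)
(mv 912 (cons (fin 913 2 909)
(mv 784 (cons (fin 848 5 783)
(mv 1037 (cons (fin 1036 1 972)
(mv 1038 (cons (fin 977 1 973)
(mv 1101 (cons (fin 1100 1 1036)
(mv 910 (cons (fin 846 5 845)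
(fin 1165 6 909)))))))))))))))
(cons (mv 908 (cons (fin 909 3 908)
(mv 913 (cons (fin 912 2 909)
(mv 977 (cons (fin 914 2 910)
(mv 978 (cons (fin 1038 1 974)
(fin 979 1 975)))))))))
(mv 912 (cons (fin 913 2 909)
(mv 784 (cons (fin 848 5 783)
(mv 1037 (cons (fin 1036 1 972)
(mv 1038 (cons (fin 977 1 973)
(mv 1101 (cons (fin 1100 1 1036)
(mv 910 (cons (fin 846 5 845)
(fin 1165 6 909)))))))))))))))
(cons (cons (mv 908 (cons (fin 909 3 908)
(mv 1037 (cons (fin 1036 1 972)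
(mv 977 (cons (fin 1038 1 973)
(mv 914 (cons (fin 913 2 910)
(mv 978 (cons (fin 979 1 975)
(fin 915 2 911)))))))))))
(mv 908 (cons (fin 909 3 908)
(mv 1037 (cons (fin 1036 1 972)
(mv 1038 (cons (fin 977 1 973)
(mv 1101 (cons (fin 1100 1 1036)
(mv 910 (cons (fin 846 5 845)
(fin 1165 6 909))))))))))))
(cons (mv 909 (cons (fin 908 3 908)
(mv 912 (cons (fin 913 2 909)
(mv 848 (cons (fin 784 5 783)
(mv 783 (cons (fin 847 7 783)
(mv 849 (cons (fin 785 6 784)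
(mv 910 (cons (fin 911 2 845)
(mv 782 (cons (fin 846 4 782)
(mv 1037 (cons (fin 1036 1 972)
(mv 1101 (cons (fin 1165 6 909)
(mv 1100 (cons (fin 1038 1 1036)
(fin 1164 5 908)))))))))))))))))))))
(mv 909 (cons (fin 908 3 908)
(mv 910 (cons (fin 977 3 909)
(mv 782 (cons (fin 846 4 782)
(mv 912 (cons (fin 913 2 909)
(mv 848 (cons (fin 784 5 783)
(mv 849 (cons (fin 911 2 845)
(fin 785 6 784)))))))))))))))))))
(mv 972 (cons (fin 973 0 972)
(mv 1103 (cons (cons (mv 910 (cons (fin 1167 7 910)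
(mv 846 (cons (fin 911 7 846)
(fin 782 4 782)))))
(mv 911 (cons (cons (mv 846 (cons (fin 910 7 846)
(mv 847 (cons (fin 782 7 782)
(mv 848 (cons (fin 784 6 783)
(fin 912 6 847)))))))
(mv 848 (cons (fin 912 6 847)
(mv 847 (cons (fin 784 6 783)
(mv 1038 (cons (fin 783 5 782)
(fin 1102 5 846))))))))
(cons (mv 846 (cons (fin 910 7 846)
(mv 847 (cons (fin 782 7 782)
(mv 1038 (cons (fin 783 5 782)
(fin 1102 5 846)))))))
(mv 848 (cons (fin 912 6 847)
(mv 910 (cons (fin 846 7 846)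
(mv 1102 (cons (fin 1166 5 910)
(mv 1101 (cons (fin 1100 2 1036)
(mv 1038 (cons (fin 1165 5 909)
(mv 909 (cons (fin 845 7 845)
(mv 908 (cons (fin 971 1 907)
(fin 907 0 907)))))))))))))))))))
(cons (mv 1167 (cons (cons (mv 1038 (cons (fin 1231 7 974)
(mv 1166 (cons (fin 1230 5 974)
(mv 911 (cons (fin 1102 5 910)
(mv 847 (cons (fin 783 5 782)
(mv 848 (cons (fin 784 6 783)
(fin 912 6 847)))))))))))
(mv 1166 (cons (fin 1230 5 974)
(mv 911 (cons (fin 1102 5 910)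
(mv 848 (cons (fin 912 6 847)
(mv 847 (cons (fin 784 6 783)
(mv 782 (cons (fin 846 7 782)
(mv 783 (cons (fin 718 7 718)
(fin 1038 5 782))))))))))))))
(cons (mv 1231 (cons (fin 1038 7 974)
(mv 1232 (cons (fin 1168 4 975)
(fin 1296 4 1039)))))
(mv 1166 (cons (fin 1230 5 974)
(mv 1102 (cons (fin 911 5 910)
(mv 1101 (cons (fin 1100 2 1036)
(mv 1168 (cons (fin 1169 3 1101)
(fin 1232 4 975))))))))))))
(cons (mv 910 (cons (fin 1167 7 910)
(mv 846 (cons (fin 782 4 782)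
(fin 1038 4 846)))))
(mv 1167 (cons (fin 910 7 910)
(mv 1038 (cons (fin 1231 7 974)
(mv 1166 (cons (fin 1230 5 974)
(mv 911 (cons (fin 1102 5 910)
(mv 847 (cons (fin 783 5 782)
(mv 848 (cons (fin 784 6 783)
(fin 912 6 847))))))))))))))))))))))
(cons (cons (mv 973 (cons (fin 972 0 972)
(mv 976 (cons (cons (mv 908 (cons (fin 909 3 908)
(mv 912 (cons (fin 913 2 909)
(mv 848 (cons (fin 784 5 783)
(fin 1103 5 847)))))))
(mv 909 (cons (fin 908 3 908)
(mv 910 (cons (fin 977 3 909)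
(mv 782 (cons (fin 846 4 782)
(mv 1037 (cons (fin 1036 1 972)
(mv 1101 (cons (fin 1165 6 909)
(mv 1100 (cons (fin 1164 5 908)
(mv 1102 (cons (fin 1103 2 1036)
(fin 1166 4 909))))))))))))))))
(cons (mv 912 (cons (fin 913 2 909)
(mv 848 (cons (fin 784 5 783)
(fin 1103 5 847)))))
(mv 909 (cons (fin 908 3 908)
(mv 910 (cons (fin 977 3 909)
(mv 782 (cons (fin 846 4 782)
(mv 912 (cons (fin 913 2 909)
(mv 848 (cons (fin 784 5 783)
(mv 849 (cons (fin 911 2 845)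
(fin 785 6 784))))))))))))))))))
(mv 973 (cons (fin 972 0 972)
(mv 976 (cons (cons (mv 908 (cons (fin 909 3 908)
(mv 912 (cons (fin 913 2 909)
(mv 848 (cons (fin 784 5 783)
(fin 1103 5 847)))))))
(mv 908 (cons (fin 909 3 908)
(mv 1037 (cons (fin 1036 1 972)
(mv 977 (cons (fin 1038 1 973)
(mv 914 (cons (fin 913 2 910)
(mv 978 (cons (fin 979 1 975)
(fin 915 2 911))))))))))))
(cons (mv 912 (cons (fin 913 2 909)
(mv 848 (cons (fin 784 5 783)
(fin 1103 5 847)))))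
(mv 908 (cons (fin 909 3 908)
(mv 1037 (cons (fin 1036 1 972)
(mv 1038 (cons (fin 977 1 973)
(mv 1101 (cons (fin 1100 1 1036)
(mv 910 (cons (fin 846 5 845)
(fin 1165 6 909)))))))))))))))))
(cons (mv 972 (cons (fin 973 0 972)
(mv 1103 (cons (cons (mv 910 (cons (fin 1167 7 910)
(mv 846 (cons (fin 911 7 846)
(fin 782 4 782)))))
(mv 911 (cons (cons (mv 846 (cons (fin 910 7 846)
(mv 847 (cons (fin 782 7 782)
(mv 783 (cons (fin 1038 5 782)
(fin 976 4 783)))))))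
(mv 1102 (cons (fin 1166 5 910)
(mv 847 (cons (fin 1038 5 846)
(mv 783 (cons (fin 976 4 783)
(mv 784 (cons (fin 720 6 719)
(fin 848 6 783))))))))))
(cons (mv 910 (cons (fin 846 7 846)
(mv 1102 (cons (fin 1166 5 910)
(mv 1101 (cons (fin 1100 2 1036)
(mv 1038 (cons (fin 1165 5 909)
(mv 909 (cons (fin 845 7 845)
(mv 908 (cons (fin 971 1 907)
(fin 907 0 907)))))))))))))
(mv 846 (cons (fin 910 7 846)
(mv 847 (cons (fin 782 7 782)
(mv 783 (cons (fin 976 4 783)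
(mv 784 (cons (fin 720 6 719)
(fin 848 6 783)))))))))))))
(cons (mv 1167 (cons (mv 1231 (cons (fin 1038 7 974)
(fin 976 6 975)))
(mv 1166 (cons (fin 1230 5 974)
(mv 1102 (cons (fin 911 5 910)
(mv 1101 (cons (fin 1100 2 1036)
(mv 1168 (cons (fin 1169 3 1101)
(fin 1232 4 975)))))))))))
(mv 910 (cons (fin 1167 7 910)
(mv 846 (cons (fin 782 4 782)
(fin 1038 4 846))))))))))
(cons (mv 973 (cons (fin 972 0 972)
(mv 976 (cons (cons (mv 908 (cons (fin 909 3 908)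
(mv 912 (cons (fin 913 2 909)
(mv 1037 (cons (fin 1036 1 972)
(mv 1038 (cons (fin 977 1 973)
(mv 1101 (cons (fin 1100 1 1036)
(mv 910 (cons (fin 846 5 845)
(fin 1165 6 909)))))))))))))
(cons (mv 908 (cons (fin 909 3 908)
(mv 913 (cons (fin 912 2 909)
(mv 977 (cons (fin 914 2 910)
(mv 978 (cons (fin 1038 1 974)
(fin 979 1 975)))))))))
(mv 912 (cons (fin 913 2 909)
(mv 1037 (cons (fin 1036 1 972)
(mv 1038 (cons (fin 977 1 973)
(mv 1101 (cons (fin 1100 1 1036)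
(mv 910 (cons (fin 846 5 845)
(fin 1165 6 909)))))))))))))
(cons (mv 908 (cons (fin 909 3 908)
(mv 1037 (cons (fin 1036 1 972)
(mv 1038 (cons (fin 977 1 973)
(mv 1101 (cons (fin 1100 1 1036)
(mv 910 (cons (fin 846 5 845)
(fin 1165 6 909)))))))))))
(cons (mv 908 (cons (fin 909 3 908)
(mv 912 (cons (fin 913 2 909)
(mv 1037 (cons (fin 1036 1 972)
(mv 1103 (cons (fin 1167 6 911)
(mv 910 (cons (mv 846 (cons (fin 911 7 846)
(fin 782 5 781)))
(mv 1101 (cons (fin 1165 6 909)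
(mv 1100 (cons (fin 1038 1 1036)
(fin 1102 2 1036)))))))))))))))
(mv 909 (cons (fin 908 3 908)
(mv 910 (cons (fin 977 3 909)
(mv 782 (cons (fin 846 4 782)
(mv 912 (cons (fin 913 2 909)
(mv 1037 (cons (fin 1036 1 972)
(mv 1101 (cons (fin 1165 6 909)
(mv 1100 (cons (fin 1164 5 908)
(mv 1102 (cons (fin 1103 2 1036)
(fin 1166 4 909)))))))))))))))))))))))
(mv 972 (cons (fin 973 0 972)
(mv 910 (cons (cons (mv 846 (cons (fin 782 4 782)
(mv 1103 (cons (fin 911 7 846)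
(fin 1167 7 910)))))
(mv 846 (cons (fin 782 4 782)
(mv 1038 (cons (cons (mv 781 (cons (fin 845 7 781)
(mv 783 (cons (fin 847 6 782)
(mv 1037 (cons (fin 1101 5 845)
(mv 976 (cons (fin 977 1 973)
(fin 1036 2 972)))))))))
(mv 781 (cons (fin 845 7 781)
(mv 847 (cons (fin 783 6 782)
(mv 911 (cons (fin 1102 5 846)
(mv 848 (cons (fin 784 6 783)
(mv 849 (cons (fin 850 1 846)
(mv 785 (cons (fin 786 2 782)
(mv 913 (cons (fin 914 0 846)
(mv 976 (cons (fin 977 5 784)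
(fin 912 6 784))))))))))))))))))
(cons (mv 781 (cons (fin 845 7 781)
(mv 1037 (cons (fin 1101 5 845)
(mv 976 (cons (fin 977 1 973)
(fin 1036 2 972)))))))
(cons (mv 783 (cons (fin 847 6 782)
(mv 1037 (cons (fin 1101 5 845)
(mv 976 (cons (fin 977 1 973)
(fin 1036 2 972)))))))
(mv 781 (cons (fin 845 7 781)
(mv 783 (cons (fin 847 6 782)
(mv 1037 (cons (fin 1101 5 845)
(mv 1036 (cons (fin 971 3 971)
(fin 1035 2 971))))))))))))))))
(cons (mv 1103 (cons (fin 1167 7 910)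
(mv 911 (cons (mv 848 (cons (fin 912 6 847)
(mv 847 (cons (fin 784 6 783)
(mv 783 (cons (fin 719 5 718)
(fin 1038 5 782)))))))
(cons (mv 1102 (cons (fin 1166 5 910)
(mv 847 (cons (fin 1038 5 846)
(mv 783 (cons (fin 719 5 718)
(fin 976 4 783)))))))
(mv 912 (cons (fin 848 6 847)
(mv 913 (cons (fin 914 1 910)
(mv 849 (cons (fin 850 2 846)
(mv 977 (cons (fin 978 0 910)
(mv 785 (cons (fin 976 5 784)
(mv 720 (cons (fin 784 7 720)
(mv 721 (cons (fin 656 7 656)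
(mv 722 (cons (fin 658 6 657)
(fin 786 6 721))))))))))))))))))))))
(mv 846 (cons (fin 782 4 782)
(mv 1103 (cons (fin 1167 7 910)
(fin 1038 4 846)))))))))))))))
(mv 976 (cons (cons (mv 912 (cons (mv 848 (cons (fin 784 5 783)
(fin 1103 5 847)))
(cons (mv 848 (cons (fin 784 5 783)
(mv 783 (cons (fin 847 7 783)
(mv 849 (cons (fin 785 6 784)
(mv 913 (cons (fin 1104 6 848)
(mv 914 (cons (fin 915 1 911)
(mv 974 (cons (fin 973 2 909)
(fin 977 2 910)))))))))))))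
(mv 1103 (cons (fin 1167 6 911)
(mv 1104 (cons (mv 849 (cons (fin 913 6 848)
(mv 1105 (cons (fin 1169 4 912)
(mv 1038 (cons (fin 1106 3 1038)
(fin 1037 0 1037)))))))
(cons (mv 913 (cons (fin 849 6 848)
(mv 1168 (cons (fin 1232 7 975)
(fin 977 6 912)))))
(mv 1105 (cons (fin 1169 4 912)
(mv 1038 (cons (fin 1106 3 1038)
(fin 1037 0 1037)))))))))))))
(cons (mv 977 (cons (mv 978 (cons (fin 1038 1 974)
(fin 979 1 975)))
(cons (mv 978 (cons (fin 979 1 975)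
(mv 914 (cons (fin 915 2 911)
(mv 913 (cons (fin 974 2 910)
(mv 785 (cons (fin 849 5 784)
(mv 1042 (cons (fin 1043 0 975)
(mv 1104 (cons (fin 1168 6 912)
(mv 1106 (cons (fin 1170 7 913)
(mv 1105 (cons (fin 1107 3 1039)
(fin 1169 5 913)))))))))))))))))
(mv 974 (cons (mv 909 (cons (fin 910 3 909)
(mv 973 (cons (fin 908 3 908)
(fin 972 0 972)))))
(cons (mv 910 (cons (fin 909 3 909)
(mv 846 (cons (fin 782 4 782)
(mv 1038 (cons (fin 1037 1 973)
(fin 1103 4 846)))))))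
(mv 913 (cons (fin 914 2 910)
(mv 785 (cons (fin 849 5 784)
(mv 973 (cons (fin 972 0 972)
(mv 1037 (cons (fin 1036 1 972)
(fin 1038 1 973)))))))))))))))
(mv 912 (cons (mv 848 (cons (fin 784 5 783)
(fin 1103 5 847)))
(cons (mv 848 (cons (fin 784 5 783)
(mv 783 (cons (fin 847 7 783)
(mv 849 (cons (fin 785 6 784)
(mv 1104 (cons (fin 913 6 848)
(mv 1168 (cons (fin 1232 7 975)
(mv 1169 (cons (fin 1105 4 912)
(fin 1233 4 976)))))))))))))
(mv 1104 (cons (cons (mv 849 (cons (fin 913 6 848)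
(mv 1103 (cons (fin 1167 5 911)
(mv 1105 (cons (fin 1169 4 912)
(mv 1038 (cons (fin 1106 3 1038)
(fin 1037 0 1037)))))))))
(mv 849 (cons (fin 913 6 848)
(mv 1105 (cons (fin 1169 4 912)
(mv 1038 (cons (fin 1037 0 1037)
(mv 1106 (cons (fin 1103 3 1038)
(fin 1107 3 1039))))))))))
(cons (mv 849 (cons (fin 913 6 848)
(mv 1168 (cons (fin 1232 7 975)
(mv 1169 (cons (fin 1105 4 912)
(fin 1233 4 976)))))))
(cons (mv 849 (cons (fin 913 6 848)
(mv 1167 (cons (fin 1103 5 911)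
(mv 1168 (cons (fin 1232 7 975)
(fin 1231 5 975)))))))
(mv 1103 (cons (fin 1167 5 911)
(mv 1105 (cons (fin 1169 4 912)
(mv 1038 (cons (fin 1106 3 1038)
(fin 1037 0 1037))))))))))))))))
(cons (cons (mv 912 (cons (mv 848 (cons (fin 784 5 783)
(fin 1103 5 847)))
(cons (mv 848 (cons (fin 784 5 783)
(mv 783 (cons (fin 847 7 783)
(mv 849 (cons (fin 785 6 784)
(mv 913 (cons (fin 1104 6 848)
(mv 914 (cons (fin 915 1 911)
(mv 974 (cons (fin 973 2 909)
(fin 977 2 910)))))))))))))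
(mv 1103 (cons (fin 1167 6 911)
(mv 1104 (cons (mv 849 (cons (fin 913 6 848)
(mv 1168 (cons (fin 1232 7 975)
(mv 1169 (cons (fin 1105 4 912)
(fin 1233 4 976)))))))
(cons (mv 913 (cons (fin 849 6 848)
(mv 914 (cons (fin 915 1 911)
(mv 974 (cons (fin 973 2 909)
(fin 977 2 910)))))))
(mv 1168 (cons (fin 1232 7 975)
(mv 1169 (cons (fin 1105 4 912)
(fin 1233 4 976)))))))))))))
(mv 977 (cons (mv 978 (cons (fin 1038 1 974)
(fin 979 1 975)))
(cons (mv 978 (cons (fin 979 1 975)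
(mv 914 (cons (fin 915 2 911)
(mv 913 (cons (fin 974 2 910)
(mv 785 (cons (fin 849 5 784)
(mv 1042 (cons (fin 1043 0 975)
(mv 1104 (cons (fin 1168 6 912)
(mv 1106 (cons (fin 1170 7 913)
(mv 1105 (cons (fin 1107 3 1039)
(fin 1169 5 913)))))))))))))))))
(mv 1037 (cons (fin 1038 2 973)
(mv 974 (cons (mv 973 (cons (fin 1036 1 972)
(fin 972 0 972)))
(mv 909 (cons (fin 910 3 909)
(mv 913 (cons (fin 914 2 910)
(mv 849 (cons (fin 785 5 784)
(mv 1104 (cons (fin 912 6 848)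
(fin 1168 6 912)))))))))))))))))
(cons (mv 977 (cons (mv 978 (cons (fin 1038 1 974)
(fin 979 1 975)))
(cons (mv 978 (cons (fin 979 1 975)
(mv 914 (cons (fin 915 2 911)
(mv 913 (cons (fin 974 2 910)
(mv 849 (cons (fin 785 5 784)
(mv 1042 (cons (fin 1043 0 975)
(fin 1106 7 849)))))))))))
(mv 1038 (cons (fin 1037 2 973)
(mv 974 (cons (mv 909 (cons (fin 910 3 909)
(mv 973 (cons (fin 908 3 908)
(fin 972 0 972)))))
(cons (mv 913 (cons (fin 914 2 910)
(mv 973 (cons (fin 912 2 909)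
(fin 972 0 972)))))
(mv 910 (cons (fin 909 3 909)
(mv 846 (cons (fin 782 4 782)
(fin 1103 4 846)))))))))))))
(mv 974 (cons (cons (cons (mv 973 (cons (fin 972 0 972)
(mv 908 (cons (fin 909 3 908)
(mv 1037 (cons (fin 1036 1 972)
(mv 1038 (cons (fin 977 1 973)
(mv 1100 (cons (fin 1101 1 1036)
(mv 1104 (cons (fin 1105 0 1037)
(mv 1168 (cons (fin 1232 7 975)
(mv 1167 (cons (fin 1231 5 975)
(mv 1103 (cons (fin 910 7 910)
(fin 912 5 911)))))))))))))))))))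
(mv 1038 (cons (mv 977 (cons (fin 1037 1 973)
(fin 978 1 974)))
(cons (mv 977 (cons (fin 978 1 974)
(mv 910 (cons (fin 909 3 909)
(mv 846 (cons (fin 782 4 782)
(fin 1103 4 846)))))))
(mv 1037 (cons (fin 1036 2 972)
(mv 1100 (cons (fin 1101 1 1036)
(mv 1104 (cons (fin 1105 0 1037)
(mv 1168 (cons (fin 1232 7 975)
(mv 1167 (cons (fin 1231 5 975)
(mv 1103 (cons (fin 910 7 910)
(fin 912 5 911)))))))))))))))))
(cons (mv 973 (cons (fin 972 0 972)
(mv 908 (cons (fin 909 3 908)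
(mv 1037 (cons (fin 1036 1 972)
(mv 1038 (cons (cons (mv 1100 (cons (fin 1101 1 1036)
(mv 1104 (cons (fin 1105 0 1037)
(mv 1168 (cons (fin 1232 7 975)
(mv 1167 (cons (fin 1231 5 975)
(mv 1103 (cons (fin 910 7 910)
(fin 912 5 911)))))))))))
(mv 1104 (cons (fin 1105 0 1037)
(mv 1168 (cons (fin 1232 7 975)
(mv 1167 (cons (fin 1231 5 975)
(mv 1103 (cons (fin 910 7 910)
(fin 912 5 911))))))))))
(cons (mv 1101 (cons (fin 1100 1 1036)
(mv 910 (cons (fin 846 5 845)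
(fin 1165 6 909)))))
(mv 1100 (cons (fin 1101 1 1036)
(mv 1104 (cons (fin 1105 0 1037)
(mv 1168 (cons (fin 1232 7 975)
(mv 1167 (cons (fin 1231 5 975)
(mv 1103 (cons (fin 912 5 911)
(mv 1166 (cons (fin 1230 5 974)
(mv 1164 (cons (fin 1165 2 1100)
(mv 1169 (cons (fin 1233 4 976)
(mv 1170 (cons (fin 1102 3 1102)
(fin 1171 3 1103))))))))))))))))))))))))))))
(mv 973 (cons (fin 972 0 972)
(mv 909 (cons (fin 908 3 908)
(mv 910 (cons (fin 977 3 909)
(mv 782 (cons (fin 846 4 782)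
(mv 1037 (cons (fin 1036 1 972)
(mv 1101 (cons (fin 1165 6 909)
(mv 1100 (cons (fin 1164 5 908)
(mv 1102 (cons (fin 1103 2 1036)
(fin 1166 4 909)))))))))))))))))))
(cons (cons (mv 973 (cons (fin 972 0 972)
(mv 908 (cons (fin 909 3 908)
(mv 1037 (cons (fin 1036 1 972)
(mv 1038 (cons (fin 977 1 973)
(mv 1101 (cons (fin 1100 1 1036)
(mv 910 (cons (fin 846 5 845)
(fin 1165 6 909)))))))))))))
(mv 973 (cons (fin 972 0 972)
(mv 909 (cons (fin 908 3 908)
(mv 910 (cons (fin 977 3 909)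
(mv 846 (cons (fin 782 4 782)
(mv 1103 (cons (fin 1167 7 910)
(fin 1038 4 846))))))))))))
(cons (mv 973 (cons (fin 972 0 972)
(mv 908 (cons (fin 909 3 908)
(mv 1037 (cons (fin 1036 1 972)
(mv 1038 (cons (fin 977 1 973)
(mv 1100 (cons (fin 1101 1 1036)
(mv 1104 (cons (fin 1105 0 1037)
(mv 1168 (cons (fin 1232 7 975)
(mv 1167 (cons (fin 1231 5 975)
(mv 1103 (cons (fin 912 5 911)
(mv 1166 (cons (fin 1230 5 974)
(mv 1164 (cons (fin 1165 2 1100)
(mv 1169 (cons (fin 1233 4 976)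
(mv 1170 (cons (fin 1102 3 1102)
(fin 1171 3 1103)))))))))))))))))))))))))))
(mv 973 (cons (fin 972 0 972)
(mv 1037 (cons (fin 1036 1 972)
(mv 1038 (cons (fin 977 1 973)
(mv 1100 (cons (fin 1101 1 1036)
(mv 1104 (cons (fin 1105 0 1037)
(mv 1168 (cons (fin 1232 7 975)
(mv 1167 (cons (fin 1231 5 975)
(mv 1103 (cons (fin 910 7 910)
(fin 912 5 911)))))))))))))))))))))))))))
(cons (cons (mv 1104 (cons (cons (mv 1168 (cons (fin 1232 7 975)
(mv 911 (cons (fin 976 7 911)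
(fin 1103 4 911)))))
(mv 1103 (cons (cons (mv 1167 (cons (mv 976 (cons (fin 912 5 911)
(fin 1231 6 975)))
(mv 910 (cons (fin 974 7 910)
(mv 846 (cons (fin 911 7 846)
(mv 1166 (cons (fin 1230 5 974)
(mv 1105 (cons (fin 1106 1 1102)
(mv 1165 (cons (fin 1102 1 1101)
(fin 1164 2 1100)))))))))))))
(cons (mv 1102 (cons (cons (mv 911 (cons (fin 1166 5 910)
(mv 846 (cons (fin 910 7 846)
(mv 848 (cons (fin 912 6 847)
(mv 1101 (cons (fin 1100 2 1036)
(mv 1037 (cons (fin 1036 3 1036)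
(mv 1038 (cons (fin 1105 3 1037)
(mv 972 (cons (fin 973 3 972)
(mv 976 (cons (fin 977 2 973)
(mv 1165 (cons (fin 1164 1 1100)
(mv 1229 (cons (fin 974 6 973)
(fin 1293 6 1037)))))))))))))))))))))
(mv 1101 (cons (fin 1100 2 1036)
(mv 1037 (cons (fin 1036 3 1036)
(mv 1038 (cons (fin 1105 3 1037)
(mv 972 (cons (fin 973 3 972)
(mv 976 (cons (fin 977 2 973)
(mv 848 (cons (fin 912 5 847)
(mv 1165 (cons (fin 1164 1 1100)
(mv 974 (cons (fin 910 5 909)
(fin 1229 6 973))))))))))))))))))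
(cons (mv 1166 (cons (fin 911 5 910)
(mv 1230 (cons (fin 1038 6 974)
(fin 1294 6 1038)))))
(mv 911 (cons (fin 1166 5 910)
(mv 848 (cons (fin 912 6 847)
(mv 910 (cons (fin 846 7 846)
(mv 1101 (cons (fin 1100 2 1036)
(mv 1037 (cons (fin 1036 3 1036)
(mv 1165 (cons (fin 1164 1 1100)
(mv 973 (cons (fin 974 6 909)
(mv 908 (cons (fin 972 7 908)
(mv 909 (cons (fin 976 0 908)
(fin 844 7 844))))))))))))))))))))))
(mv 1167 (cons (mv 910 (cons (fin 974 7 910)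
(mv 846 (cons (fin 911 7 846)
(mv 1166 (cons (fin 1230 5 974)
(mv 1105 (cons (fin 1106 1 1102)
(mv 1165 (cons (fin 1102 1 1101)
(fin 1164 2 1100)))))))))))
(cons (mv 974 (cons (fin 910 7 910)
(mv 1231 (cons (fin 1038 7 974)
(fin 1295 6 1039)))))
(mv 1166 (cons (fin 1230 5 974)
(mv 1102 (cons (fin 911 5 910)
(mv 1105 (cons (fin 1165 1 1101)
(fin 1106 1 1102))))))))))))
(cons (cons (mv 1167 (cons (mv 976 (cons (fin 912 5 911)
(fin 1231 6 975)))
(cons (mv 910 (cons (fin 974 7 910)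
(mv 846 (cons (fin 911 7 846)
(mv 1230 (cons (fin 1166 5 974)
(mv 1231 (cons (fin 1294 5 1038)
(fin 1295 6 1039)))))))))
(mv 910 (cons (fin 974 7 910)
(mv 911 (cons (fin 846 7 846)
(mv 912 (cons (fin 976 5 911)
(fin 848 6 847))))))))))
(mv 1167 (cons (mv 976 (cons (fin 912 5 911)
(fin 1231 6 975)))
(mv 910 (cons (fin 974 7 910)
(mv 1166 (cons (fin 1230 5 974)
(mv 1105 (cons (fin 1106 1 1102)
(mv 1165 (cons (fin 1102 1 1101)
(fin 1164 2 1100))))))))))))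
(cons (mv 1167 (cons (mv 976 (cons (fin 912 5 911)
(fin 1231 6 975)))
(cons (mv 974 (cons (fin 910 7 910)
(mv 1231 (cons (fin 1038 7 974)
(fin 1295 6 1039)))))
(mv 910 (cons (fin 974 7 910)
(mv 911 (cons (fin 846 7 846)
(mv 912 (cons (fin 976 5 911)
(fin 848 6 847))))))))))
(mv 1167 (cons (mv 976 (cons (fin 912 5 911)
(fin 1231 6 975)))
(mv 1166 (cons (fin 1230 5 974)
(mv 1102 (cons (fin 911 5 910)
(mv 1105 (cons (fin 1165 1 1101)
(fin 1106 1 1102))))))))))))))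
(cons (mv 1168 (cons (fin 1232 7 975)
(mv 976 (cons (mv 913 (cons (fin 977 6 912)
(mv 912 (cons (fin 849 6 848)
(mv 848 (cons (fin 784 5 783)
(fin 1103 5 847)))))))
(cons (mv 1167 (cons (fin 1231 5 975)
(mv 912 (cons (fin 1103 5 911)
(mv 1169 (cons (fin 1105 4 912)
(fin 1233 4 976)))))))
(mv 977 (cons (fin 913 6 912)
(mv 978 (cons (fin 1038 1 974)
(fin 979 1 975))))))))))
(cons (mv 1168 (cons (fin 1232 7 975)
(mv 976 (cons (fin 911 7 911)
(mv 913 (cons (fin 977 6 912)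
(mv 912 (cons (fin 849 6 848)
(mv 1169 (cons (fin 1105 4 912)
(fin 1233 4 976)))))))))))
(mv 1168 (cons (fin 1232 7 975)
(mv 1103 (cons (fin 911 4 911)
(mv 1167 (cons (mv 910 (cons (fin 974 7 910)
(mv 1166 (cons (fin 1230 5 974)
(mv 1105 (cons (fin 1106 1 1102)
(fin 1165 2 1101)))))))
(cons (mv 974 (cons (fin 910 7 910)
(mv 1231 (cons (fin 1038 7 974)
(fin 1295 6 1039)))))
(mv 1166 (cons (fin 1230 5 974)
(mv 1105 (cons (fin 1106 1 1102)
(fin 1165 2 1101))))))))))))))))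
(mv 911 (cons (cons (mv 847 (cons (fin 1104 4 847)
(mv 782 (cons (fin 846 7 782)
(mv 783 (cons (fin 718 7 718)
(fin 976 4 783)))))))
(mv 1103 (cons (cons (cons (mv 846 (cons (fin 910 7 846)
(mv 848 (cons (fin 912 6 847)
(mv 1166 (cons (fin 1102 5 910)
(mv 1167 (cons (fin 1230 5 974)
(mv 1231 (cons (fin 976 6 975)
(mv 974 (cons (fin 1038 7 974)
(mv 972 (cons (fin 973 0 972)
(mv 1295 (cons (fin 1104 6 1039)
(mv 1296 (cons (fin 1232 4 1039)
(fin 1360 4 1103)))))))))))))))))))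
(mv 846 (cons (fin 910 7 846)
(mv 1166 (cons (fin 1102 5 910)
(mv 1167 (cons (fin 1230 5 974)
(mv 1231 (cons (fin 976 6 975)
(mv 974 (cons (fin 1038 7 974)
(mv 972 (cons (fin 973 0 972)
(mv 1295 (cons (fin 1104 6 1039)
(mv 1296 (cons (fin 1232 4 1039)
(fin 1360 4 1103))))))))))))))))))
(cons (mv 848 (cons (fin 912 6 847)
(mv 1166 (cons (fin 1102 5 910)
(mv 1167 (cons (fin 1230 5 974)
(mv 1231 (cons (fin 976 6 975)
(mv 974 (cons (fin 1038 7 974)
(mv 972 (cons (fin 973 0 972)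
(mv 1295 (cons (fin 1104 6 1039)
(mv 1296 (cons (fin 1232 4 1039)
(fin 1360 4 1103)))))))))))))))))
(mv 846 (cons (fin 910 7 846)
(mv 912 (cons (fin 848 6 847)
(mv 1167 (cons (fin 976 6 911)
(mv 1230 (cons (fin 1166 5 974)
(mv 1231 (cons (fin 1294 5 1038)
(mv 974 (cons (fin 1038 7 974)
(mv 913 (cons (fin 914 1 910)
(mv 972 (cons (fin 973 2 908)
(mv 1295 (cons (fin 1104 6 1039)
(mv 1296 (cons (fin 1232 4 1039)
(fin 1360 4 1103)))))))))))))))))))))))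
(cons (cons (mv 848 (cons (fin 912 6 847)
(mv 910 (cons (fin 846 7 846)
(mv 1167 (cons (fin 974 7 910)
(mv 1231 (cons (fin 976 6 975)
(mv 1230 (cons (fin 1294 5 1038)
(mv 1295 (cons (fin 1104 6 1039)
(mv 1296 (cons (fin 1232 4 1039)
(fin 1360 4 1103)))))))))))))))
(mv 910 (cons (fin 846 7 846)
(mv 912 (cons (fin 848 6 847)
(mv 1102 (cons (fin 1166 5 910)
(mv 1100 (cons (fin 1101 2 1036)
(mv 909 (cons (cons (mv 976 (cons (fin 908 0 908)
(fin 977 0 909)))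
(mv 844 (cons (fin 845 3 844)
(mv 843 (cons (fin 908 3 843)
(mv 973 (cons (fin 972 1 908)
(mv 913 (cons (fin 974 1 909)
(mv 850 (cons (fin 849 2 846)
(mv 914 (cons (fin 851 2 847)
(mv 978 (cons (fin 977 0 910)
(fin 979 0 911))))))))))))))))
(cons (mv 844 (cons (fin 845 3 844)
(mv 972 (cons (fin 973 1 908)
(mv 977 (cons (fin 976 0 909)
(mv 913 (cons (fin 978 0 910)
(mv 850 (cons (fin 849 2 846)
(mv 914 (cons (fin 974 1 910)
(fin 851 2 847)))))))))))))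
(mv 844 (cons (fin 845 3 844)
(mv 908 (cons (fin 843 3 843)
(fin 976 0 908)))))))))))))))))
(cons (mv 848 (cons (fin 912 6 847)
(mv 910 (cons (fin 846 7 846)
(mv 974 (cons (fin 1167 7 910)
(mv 972 (cons (fin 973 0 972)
(mv 1102 (cons (fin 1166 5 910)
(mv 1101 (cons (fin 1100 2 1036)
(mv 1038 (cons (fin 1165 5 909)
(mv 909 (cons (fin 845 7 845)
(mv 908 (cons (fin 971 1 907)
(fin 907 0 907)))))))))))))))))))
(mv 846 (cons (fin 910 7 846)
(mv 848 (cons (fin 912 6 847)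
(mv 1166 (cons (fin 1102 5 910)
(mv 1167 (cons (fin 1230 5 974)
(mv 1231 (cons (fin 976 6 975)
(mv 1295 (cons (fin 1104 6 1039)
(mv 1296 (cons (fin 1232 4 1039)
(fin 1360 4 1103))))))))))))))))))))
(cons (mv 847 (cons (mv 782 (cons (fin 846 7 782)
(mv 783 (cons (fin 718 7 718)
(fin 976 4 783)))))
(cons (mv 782 (cons (fin 846 7 782)
(mv 848 (cons (fin 784 6 783)
(mv 1102 (cons (fin 1038 5 846)
(mv 1103 (cons (fin 1166 5 910)
(fin 912 6 847)))))))))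
(mv 783 (cons (fin 976 4 783)
(mv 784 (cons (fin 720 6 719)
(fin 848 6 783))))))))
(cons (mv 847 (cons (fin 1104 4 847)
(mv 783 (cons (fin 976 4 783)
(mv 784 (cons (fin 720 6 719)
(fin 848 6 783)))))))
(mv 847 (cons (fin 1104 4 847)
(mv 782 (cons (fin 846 7 782)
(mv 718 (cons (fin 783 7 718)
(mv 848 (cons (fin 784 6 783)
(mv 1102 (cons (fin 1038 5 846)
(mv 1103 (cons (fin 1166 5 910)
(fin 912 6 847))))))))))))))))))
(cons (mv 1104 (cons (cons (mv 911 (cons (fin 847 4 847)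
(mv 1168 (cons (fin 976 7 911)
(fin 1232 7 975)))))
(mv 1168 (cons (fin 1232 7 975)
(mv 976 (cons (mv 913 (cons (fin 977 6 912)
(mv 912 (cons (fin 849 6 848)
(mv 848 (cons (fin 784 5 783)
(fin 1103 5 847)))))))
(cons (mv 1167 (cons (fin 1231 5 975)
(mv 912 (cons (fin 1103 5 911)
(mv 1169 (cons (fin 1105 4 912)
(fin 1233 4 976)))))))
(mv 977 (cons (fin 913 6 912)
(mv 978 (cons (fin 1038 1 974)
(fin 979 1 975)))))))))))
(cons (mv 911 (cons (fin 847 4 847)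
(mv 1103 (cons (cons (mv 846 (cons (fin 910 7 846)
(mv 848 (cons (fin 912 6 847)
(mv 1102 (cons (fin 1166 5 910)
(mv 1101 (cons (fin 1100 2 1036)
(mv 1037 (cons (fin 1036 3 1036)
(mv 1105 (cons (fin 1038 3 1037)
(mv 1106 (cons (fin 1107 3 1039)
(mv 1170 (cons (fin 1169 0 1102)
(fin 1171 0 1103)))))))))))))))))
(mv 846 (cons (fin 910 7 846)
(mv 1102 (cons (fin 1166 5 910)
(mv 1101 (cons (fin 1100 2 1036)
(mv 1037 (cons (fin 1036 3 1036)
(mv 1105 (cons (fin 1038 3 1037)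
(mv 1106 (cons (fin 1107 3 1039)
(mv 1170 (cons (fin 1169 0 1102)
(fin 1171 0 1103))))))))))))))))
(cons (mv 846 (cons (fin 910 7 846)
(mv 912 (cons (fin 848 6 847)
(mv 976 (cons (fin 1167 5 911)
(mv 849 (cons (fin 913 6 848)
(mv 1105 (cons (fin 1169 4 912)
(mv 1038 (cons (fin 1106 3 1038)
(fin 1037 0 1037)))))))))))))
(cons (mv 848 (cons (fin 912 6 847)
(mv 1102 (cons (fin 1166 5 910)
(mv 1101 (cons (fin 1100 2 1036)
(mv 1037 (cons (fin 1036 3 1036)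
(mv 1105 (cons (fin 1038 3 1037)
(mv 1106 (cons (fin 1107 3 1039)
(mv 1170 (cons (fin 1169 0 1102)
(fin 1171 0 1103)))))))))))))))
(mv 846 (cons (fin 910 7 846)
(mv 848 (cons (fin 912 6 847)
(mv 1166 (cons (fin 1102 5 910)
(mv 1167 (cons (fin 1230 5 974)
(mv 1231 (cons (fin 976 6 975)
(fin 1295 6 1039)))))))))))))))))
(mv 911 (cons (fin 847 4 847)
(mv 1168 (cons (fin 1232 7 975)
(fin 1103 4 911))))))))
(mv 911 (cons (cons (mv 847 (cons (fin 1104 4 847)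
(mv 782 (cons (fin 846 7 782)
(mv 783 (cons (fin 718 7 718)
(fin 976 4 783)))))))
(mv 1103 (cons (cons (mv 846 (cons (fin 910 7 846)
(mv 848 (cons (fin 912 6 847)
(mv 1102 (cons (fin 1166 5 910)
(mv 1101 (cons (fin 1100 2 1036)
(mv 1104 (cons (fin 1168 4 911)
(mv 1037 (cons (fin 1036 3 1036)
(mv 1038 (cons (fin 1105 3 1037)
(mv 972 (cons (fin 973 3 972)
(mv 976 (cons (fin 977 2 973)
(mv 1165 (cons (fin 1164 1 1100)
(mv 1229 (cons (fin 974 6 973)
(fin 1293 6 1037)))))))))))))))))))))))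
(cons (mv 846 (cons (fin 910 7 846)
(mv 1102 (cons (fin 1166 5 910)
(mv 1101 (cons (fin 1100 2 1036)
(mv 1104 (cons (fin 1168 4 911)
(mv 1037 (cons (fin 1036 3 1036)
(mv 1038 (cons (fin 1105 3 1037)
(mv 972 (cons (fin 973 3 972)
(mv 976 (cons (fin 977 2 973)
(mv 1165 (cons (fin 1164 1 1100)
(mv 1229 (cons (fin 974 6 973)
(fin 1293 6 1037)))))))))))))))))))))
(mv 846 (cons (fin 910 7 846)
(mv 912 (cons (fin 848 6 847)
(mv 1166 (cons (fin 1102 5 910)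
(mv 1167 (cons (fin 1230 5 974)
(fin 976 6 911)))))))))))
(cons (mv 848 (cons (fin 912 6 847)
(mv 1102 (cons (fin 1166 5 910)
(mv 1101 (cons (fin 1100 2 1036)
(mv 1104 (cons (fin 1168 4 911)
(mv 1037 (cons (fin 1036 3 1036)
(mv 1038 (cons (fin 1105 3 1037)
(mv 972 (cons (fin 973 3 972)
(mv 976 (cons (fin 977 2 973)
(mv 1165 (cons (fin 1164 1 1100)
(mv 1229 (cons (fin 974 6 973)
(fin 1293 6 1037)))))))))))))))))))))
(cons (mv 846 (cons (fin 910 7 846)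
(mv 912 (cons (fin 848 6 847)
(mv 976 (cons (fin 1167 6 911)
(mv 1104 (cons (fin 1168 7 911)
(mv 849 (cons (fin 913 6 848)
(mv 1105 (cons (fin 1169 4 912)
(mv 1038 (cons (fin 1106 3 1038)
(fin 1037 0 1037)))))))))))))))
(mv 846 (cons (fin 910 7 846)
(mv 848 (cons (fin 912 6 847)
(mv 1102 (cons (fin 1166 5 910)
(mv 1101 (cons (fin 1100 2 1036)
(mv 1104 (cons (fin 1168 4 911)
(mv 1037 (cons (fin 1036 3 1036)
(mv 1038 (cons (fin 1105 3 1037)
(mv 972 (cons (fin 973 3 972)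
(mv 1165 (cons (fin 1164 1 1100)
(mv 1229 (cons (fin 974 6 973)
(fin 1293 6 1037))))))))))))))))))))))))))
(cons (mv 847 (cons (mv 782 (cons (fin 846 7 782)
(mv 783 (cons (fin 718 7 718)
(fin 976 4 783)))))
(cons (mv 782 (cons (fin 846 7 782)
(mv 848 (cons (fin 784 6 783)
(mv 1102 (cons (fin 1038 5 846)
(mv 1103 (cons (fin 1166 5 910)
(fin 912 6 847)))))))))
(mv 783 (cons (fin 976 4 783)
(mv 784 (cons (fin 720 6 719)
(fin 848 6 783))))))))
(cons (mv 847 (cons (fin 1104 4 847)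
(mv 782 (cons (fin 846 7 782)
(mv 718 (cons (fin 783 7 718)
(mv 848 (cons (fin 784 6 783)
(mv 1102 (cons (fin 1038 5 846)
(mv 1103 (cons (fin 1166 5 910)
(fin 912 6 847)))))))))))))
(mv 847 (cons (fin 1104 4 847)
(mv 783 (cons (fin 976 4 783)
(mv 784 (cons (fin 720 6 719)
(fin 848 6 783))))))))))))))
(cons (cons (mv 976 (cons (cons (mv 977 (cons (mv 978 (cons (fin 1038 1 974)
(fin 979 1 975)))
(cons (mv 1037 (cons (fin 1038 2 973)
(mv 974 (cons (mv 973 (cons (fin 1036 1 972)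
(fin 972 0 972)))
(mv 909 (cons (fin 910 3 909)
(mv 913 (cons (fin 914 2 910)
(mv 849 (cons (fin 785 5 784)
(mv 1104 (cons (fin 912 6 848)
(fin 1168 6 912)))))))))))))
(mv 978 (cons (fin 979 1 975)
(mv 910 (cons (fin 911 3 910)
(mv 914 (cons (fin 915 2 911)
(mv 974 (cons (fin 909 3 909)
(fin 913 2 910))))))))))))
(cons (mv 1104 (cons (mv 911 (cons (fin 1168 7 911)
(fin 847 4 847)))
(cons (mv 1168 (cons (fin 1232 7 975)
(mv 1167 (cons (fin 1231 5 975)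
(mv 1169 (cons (fin 1233 4 976)
(mv 912 (cons (fin 1105 4 912)
(mv 848 (cons (fin 784 5 783)
(mv 849 (cons (fin 785 6 784)
(fin 913 6 848)))))))))))))
(mv 912 (cons (cons (mv 784 (cons (fin 848 5 783)
(mv 911 (cons (fin 847 7 847)
(mv 913 (cons (fin 849 6 848)
(mv 914 (cons (fin 974 1 910)
(fin 915 1 911)))))))))
(mv 784 (cons (fin 848 5 783)
(mv 913 (cons (fin 849 6 848)
(mv 914 (cons (fin 915 1 911)
(mv 974 (cons (fin 911 1 910)
(fin 973 2 909))))))))))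
(cons (mv 848 (cons (fin 784 5 783)
(mv 849 (cons (fin 785 6 784)
(fin 913 6 848)))))
(cons (mv 911 (cons (fin 847 7 847)
(mv 913 (cons (fin 849 6 848)
(mv 914 (cons (fin 974 1 910)
(fin 915 1 911)))))))
(mv 847 (cons (fin 911 7 847)
(mv 848 (cons (fin 783 7 783)
(fin 784 5 783))))))))))))
(mv 977 (cons (mv 978 (cons (fin 1038 1 974)
(fin 979 1 975)))
(cons (mv 1038 (cons (fin 1037 2 973)
(mv 974 (cons (mv 909 (cons (fin 910 3 909)
(mv 973 (cons (fin 908 3 908)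
(fin 972 0 972)))))
(cons (mv 910 (cons (fin 909 3 909)
(mv 846 (cons (fin 782 4 782)
(mv 781 (cons (fin 845 7 781)
(mv 847 (cons (fin 783 6 782)
(mv 911 (cons (fin 1102 5 846)
(mv 848 (cons (fin 784 6 783)
(mv 849 (cons (fin 850 1 846)
(mv 785 (cons (fin 786 2 782)
(fin 913 5 784)))))))))))))))))
(mv 913 (cons (fin 914 2 910)
(mv 973 (cons (fin 912 2 909)
(fin 972 0 972))))))))))
(mv 978 (cons (fin 979 1 975)
(mv 910 (cons (fin 911 3 910)
(mv 914 (cons (fin 915 2 911)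
(mv 974 (cons (fin 909 3 909)
(fin 913 2 910))))))))))))))
(cons (cons (mv 977 (cons (mv 978 (cons (fin 1038 1 974)
(fin 979 1 975)))
(cons (mv 978 (cons (fin 979 1 975)
(mv 914 (cons (fin 915 2 911)
(mv 913 (cons (fin 974 2 910)
(mv 785 (cons (fin 849 5 784)
(mv 1042 (cons (fin 1043 0 975)
(mv 1104 (cons (fin 1168 6 912)
(mv 1106 (cons (fin 1170 7 913)
(mv 1105 (cons (fin 1107 3 1039)
(fin 1169 5 913)))))))))))))))))
(mv 1037 (cons (fin 1038 2 973)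
(mv 974 (cons (mv 973 (cons (fin 1036 1 972)
(fin 972 0 972)))
(mv 909 (cons (fin 910 3 909)
(mv 913 (cons (fin 914 2 910)
(mv 849 (cons (fin 785 5 784)
(mv 1104 (cons (fin 912 6 848)
(fin 1168 6 912))))))))))))))))
(mv 977 (cons (mv 978 (cons (fin 1038 1 974)
(fin 979 1 975)))
(cons (mv 974 (cons (mv 909 (cons (fin 910 3 909)
(mv 973 (cons (fin 908 3 908)
(fin 972 0 972)))))
(cons (mv 910 (cons (fin 909 3 909)
(mv 846 (cons (fin 782 4 782)
(mv 913 (cons (fin 914 2 910)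
(mv 785 (cons (fin 849 5 784)
(mv 1038 (cons (fin 1037 1 973)
(mv 781 (cons (fin 845 7 781)
(mv 847 (cons (fin 783 6 782)
(mv 911 (cons (fin 1102 5 846)
(fin 1104 4 847)))))))))))))))))
(mv 913 (cons (fin 914 2 910)
(mv 785 (cons (fin 849 5 784)
(mv 973 (cons (fin 972 0 972)
(mv 1037 (cons (fin 1036 1 972)
(fin 1038 1 973))))))))))))
(mv 978 (cons (fin 979 1 975)
(mv 910 (cons (fin 911 3 910)
(mv 914 (cons (fin 915 2 911)
(mv 974 (cons (fin 909 3 909)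
(fin 913 2 910)))))))))))))
(cons (mv 1104 (cons (mv 911 (cons (fin 1168 7 911)
(fin 847 4 847)))
(cons (mv 912 (cons (cons (mv 784 (cons (fin 848 5 783)
(mv 911 (cons (fin 847 7 847)
(mv 913 (cons (fin 849 6 848)
(mv 914 (cons (fin 915 1 911)
(mv 850 (cons (fin 851 2 847)
(mv 978 (cons (fin 979 0 911)
(mv 977 (cons (fin 910 3 910)
(fin 1038 1 974)))))))))))))))
(mv 784 (cons (fin 848 5 783)
(mv 913 (cons (fin 849 6 848)
(mv 914 (cons (fin 915 1 911)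
(mv 1105 (cons (fin 1169 4 912)
(mv 1038 (cons (fin 1037 0 1037)
(mv 978 (cons (fin 977 1 974)
(mv 979 (cons (fin 911 0 911)
(mv 980 (cons (fin 981 3 913)
(mv 1107 (cons (fin 1106 3 1039)
(mv 1043 (cons (fin 1171 7 914)
(mv 850 (cons (fin 786 4 786)
(fin 1042 4 850))))))))))))))))))))))))
(cons (mv 848 (cons (fin 784 5 783)
(mv 849 (cons (fin 785 6 784)
(fin 913 6 848)))))
(cons (mv 911 (cons (fin 847 7 847)
(mv 913 (cons (fin 849 6 848)
(mv 914 (cons (fin 915 1 911)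
(mv 850 (cons (fin 851 2 847)
(mv 978 (cons (fin 979 0 911)
(mv 977 (cons (fin 910 3 910)
(fin 1038 1 974)))))))))))))
(mv 847 (cons (fin 911 7 847)
(mv 848 (cons (fin 783 7 783)
(fin 784 5 783)))))))))
(mv 1168 (cons (fin 1232 7 975)
(mv 913 (cons (fin 977 6 912)
(mv 912 (cons (fin 849 6 848)
(mv 1169 (cons (fin 1105 4 912)
(fin 1233 4 976))))))))))))
(mv 977 (cons (mv 978 (cons (fin 1038 1 974)
(fin 979 1 975)))
(cons (mv 974 (cons (mv 909 (cons (fin 910 3 909)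
(mv 973 (cons (fin 908 3 908)
(fin 972 0 972)))))
(cons (mv 910 (cons (fin 909 3 909)
(mv 846 (cons (fin 782 4 782)
(mv 1038 (cons (fin 1037 1 973)
(mv 781 (cons (fin 845 7 781)
(mv 847 (cons (fin 783 6 782)
(mv 911 (cons (fin 1102 5 846)
(fin 1104 4 847)))))))))))))
(mv 973 (cons (fin 972 0 972)
(mv 1037 (cons (fin 1036 1 972)
(fin 1038 1 973))))))))
(mv 978 (cons (fin 979 1 975)
(mv 911 (cons (fin 910 3 910)
(mv 847 (cons (fin 783 4 783)
(fin 1104 4 847))))))))))))))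
(cons (mv 911 (cons (cons (mv 847 (cons (fin 1104 4 847)
(mv 782 (cons (fin 846 7 782)
(mv 718 (cons (fin 783 7 718)
(mv 848 (cons (fin 784 6 783)
(mv 1102 (cons (fin 1038 5 846)
(mv 1103 (cons (fin 1166 5 910)
(fin 912 6 847)))))))))))))
(cons (mv 1103 (cons (cons (mv 846 (cons (fin 910 7 846)
(mv 848 (cons (fin 912 6 847)
(mv 1102 (cons (fin 1166 5 910)
(mv 1101 (cons (fin 1100 2 1036)
(mv 1104 (cons (fin 1168 4 911)
(mv 1037 (cons (fin 1036 3 1036)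
(mv 1038 (cons (fin 1105 3 1037)
(mv 972 (cons (fin 973 3 972)
(mv 1165 (cons (fin 1164 1 1100)
(mv 1229 (cons (fin 974 6 973)
(fin 1293 6 1037)))))))))))))))))))))
(cons (mv 848 (cons (fin 912 6 847)
(mv 910 (cons (fin 846 7 846)
(mv 974 (cons (fin 1167 7 910)
(mv 972 (cons (fin 973 0 972)
(mv 1102 (cons (fin 1166 5 910)
(mv 1101 (cons (fin 1100 2 1036)
(mv 1038 (cons (fin 1165 5 909)
(mv 909 (cons (fin 845 7 845)
(mv 908 (cons (fin 971 1 907)
(fin 907 0 907)))))))))))))))))))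
(mv 848 (cons (fin 912 6 847)
(mv 910 (cons (fin 846 7 846)
(mv 1104 (cons (fin 1168 4 911)
(mv 1167 (cons (fin 974 7 910)
(mv 1230 (cons (fin 1166 5 974)
(mv 1231 (cons (fin 1294 5 1038)
(fin 1295 6 1039)))))))))))))))
(cons (cons (mv 848 (cons (fin 912 6 847)
(mv 1102 (cons (fin 1166 5 910)
(mv 1101 (cons (fin 1100 2 1036)
(mv 1104 (cons (fin 1168 4 911)
(mv 1037 (cons (fin 1036 3 1036)
(mv 1038 (cons (fin 1105 3 1037)
(mv 972 (cons (fin 973 3 972)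
(mv 1165 (cons (fin 1164 1 1100)
(mv 1229 (cons (fin 974 6 973)
(fin 1293 6 1037)))))))))))))))))))
(mv 848 (cons (fin 912 6 847)
(mv 910 (cons (fin 846 7 846)
(mv 1167 (cons (fin 974 7 910)
(mv 1168 (cons (fin 1104 4 911)
(fin 1232 4 975))))))))))
(cons (mv 846 (cons (fin 910 7 846)
(mv 1102 (cons (fin 1166 5 910)
(mv 1101 (cons (fin 1100 2 1036)
(mv 1104 (cons (fin 1168 4 911)
(mv 1037 (cons (fin 1036 3 1036)
(mv 1038 (cons (fin 1105 3 1037)
(mv 972 (cons (fin 973 3 972)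
(mv 1165 (cons (fin 1164 1 1100)
(mv 1229 (cons (fin 974 6 973)
(fin 1293 6 1037)))))))))))))))))))
(mv 846 (cons (fin 910 7 846)
(mv 848 (cons (fin 912 6 847)
(mv 1102 (cons (fin 1166 5 910)
(mv 1101 (cons (fin 1100 2 1036)
(mv 1104 (cons (fin 1168 4 911)
(mv 1037 (cons (fin 1036 3 1036)
(mv 1105 (cons (fin 1038 3 1037)
(mv 1106 (cons (fin 1107 3 1039)
(mv 1170 (cons (fin 1169 0 1102)
(fin 1171 0 1103)))))))))))))))))))))))
(mv 1103 (cons (cons (mv 846 (cons (fin 910 7 846)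
(mv 847 (cons (fin 782 7 782)
(mv 848 (cons (fin 784 6 783)
(fin 912 6 847)))))))
(mv 848 (cons (fin 912 6 847)
(mv 847 (cons (fin 784 6 783)
(mv 1102 (cons (fin 1038 5 846)
(fin 1166 5 910))))))))
(cons (mv 846 (cons (fin 910 7 846)
(mv 847 (cons (fin 782 7 782)
(mv 1102 (cons (fin 1038 5 846)
(fin 1166 5 910)))))))
(mv 848 (cons (fin 912 6 847)
(mv 910 (cons (fin 846 7 846)
(mv 974 (cons (fin 1167 7 910)
(mv 972 (cons (fin 973 0 972)
(mv 1102 (cons (fin 1166 5 910)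
(mv 1101 (cons (fin 1100 2 1036)
(mv 1038 (cons (fin 1165 5 909)
(mv 909 (cons (fin 845 7 845)
(mv 908 (cons (fin 971 1 907)
(fin 907 0 907))))))))))))))))))))))))
(cons (mv 847 (cons (fin 1104 4 847)
(mv 782 (cons (fin 846 7 782)
(mv 783 (cons (fin 718 7 718)
(mv 784 (cons (fin 720 6 719)
(fin 848 6 783)))))))))
(cons (mv 847 (cons (fin 1104 4 847)
(mv 784 (cons (fin 848 6 783)
(mv 783 (cons (fin 720 6 719)
(mv 1038 (cons (fin 974 5 782)
(fin 1102 5 846)))))))))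
(mv 847 (cons (fin 1104 4 847)
(mv 782 (cons (fin 846 7 782)
(mv 783 (cons (fin 718 7 718)
(mv 1038 (cons (fin 974 5 782)
(fin 1102 5 846)))))))))))))
(mv 1104 (cons (cons (mv 911 (cons (fin 847 4 847)
(mv 1168 (cons (fin 976 7 911)
(fin 1232 7 975)))))
(mv 1168 (cons (fin 1232 7 975)
(mv 976 (cons (cons (mv 913 (cons (fin 977 6 912)
(mv 912 (cons (fin 849 6 848)
(mv 848 (cons (fin 784 5 783)
(fin 1103 5 847)))))))
(mv 1167 (cons (fin 1231 5 975)
(mv 912 (cons (fin 1103 5 911)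
(mv 1169 (cons (fin 1105 4 912)
(fin 1233 4 976))))))))
(cons (mv 977 (cons (fin 913 6 912)
(mv 978 (cons (fin 979 1 975)
(mv 914 (cons (fin 915 2 911)
(mv 1042 (cons (fin 1043 0 975)
(mv 1167 (cons (fin 1231 5 975)
(mv 1169 (cons (fin 1233 4 976)
(mv 1105 (cons (fin 1106 5 913)
(mv 1166 (cons (fin 1165 2 1101)
(mv 1230 (cons (fin 1229 1 1165)
(fin 1103 5 974)))))))))))))))))))
(mv 913 (cons (fin 977 6 912)
(mv 912 (cons (fin 849 6 848)
(mv 1169 (cons (fin 1105 4 912)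
(fin 1233 4 976)))))))))))))
(cons (mv 911 (cons (fin 847 4 847)
(mv 1103 (cons (cons (mv 846 (cons (fin 910 7 846)
(mv 848 (cons (fin 912 6 847)
(mv 1166 (cons (fin 1102 5 910)
(mv 1167 (cons (fin 1230 5 974)
(mv 1231 (cons (fin 976 6 975)
(fin 1295 6 1039)))))))))))
(cons (mv 846 (cons (fin 910 7 846)
(mv 1166 (cons (fin 1102 5 910)
(mv 1167 (cons (fin 1230 5 974)
(mv 1231 (cons (fin 976 6 975)
(fin 1295 6 1039)))))))))
(mv 846 (cons (fin 910 7 846)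
(mv 912 (cons (fin 848 6 847)
(mv 976 (cons (fin 1167 5 911)
(mv 913 (cons (fin 849 6 848)
(mv 914 (cons (fin 974 1 910)
(fin 915 1 911)))))))))))))
(cons (mv 848 (cons (fin 912 6 847)
(mv 1166 (cons (fin 1102 5 910)
(mv 1167 (cons (fin 1230 5 974)
(mv 1231 (cons (fin 976 6 975)
(fin 1295 6 1039)))))))))
(cons (mv 848 (cons (fin 912 6 847)
(mv 910 (cons (fin 846 7 846)
(mv 1102 (cons (fin 1166 5 910)
(mv 1101 (cons (fin 1100 2 1036)
(mv 1037 (cons (fin 1036 3 1036)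
(mv 1165 (cons (fin 1164 1 1100)
(mv 973 (cons (fin 974 6 909)
(mv 908 (cons (fin 972 7 908)
(mv 909 (cons (fin 976 0 908)
(fin 844 7 844)))))))))))))))))))
(mv 848 (cons (fin 912 6 847)
(mv 910 (cons (fin 846 7 846)
(mv 974 (cons (fin 1167 7 910)
(mv 973 (cons (fin 972 0 972)
(mv 1102 (cons (fin 1166 5 910)
(mv 1101 (cons (fin 1100 2 1036)
(mv 1037 (cons (fin 1036 3 1036)
(fin 1165 6 909)))))))))))))))))))))
(mv 911 (cons (fin 847 4 847)
(mv 1168 (cons (fin 1232 7 975)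
(fin 1103 4 911))))))))))
(cons (cons (mv 1104 (cons (cons (mv 911 (cons (fin 847 4 847)
(mv 1168 (cons (fin 976 7 911)
(fin 1232 7 975)))))
(mv 1168 (cons (fin 1232 7 975)
(mv 976 (cons (mv 913 (cons (fin 977 6 912)
(mv 912 (cons (fin 849 6 848)
(mv 848 (cons (fin 784 5 783)
(fin 1103 5 847)))))))
(cons (mv 1169 (cons (fin 1233 4 976)
(mv 912 (cons (fin 1105 4 912)
(mv 848 (cons (fin 784 5 783)
(fin 1103 5 847)))))))
(mv 977 (cons (fin 913 6 912)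
(mv 978 (cons (fin 1038 1 974)
(fin 979 1 975)))))))))))
(cons (mv 911 (cons (fin 847 4 847)
(mv 1103 (cons (cons (mv 846 (cons (fin 910 7 846)
(mv 848 (cons (fin 912 6 847)
(mv 1102 (cons (fin 1166 5 910)
(mv 1101 (cons (fin 1100 2 1036)
(mv 1037 (cons (fin 1036 3 1036)
(mv 1038 (cons (fin 1105 3 1037)
(mv 972 (cons (fin 973 3 972)
(mv 976 (cons (fin 977 2 973)
(mv 1165 (cons (fin 1164 1 1100)
(mv 1229 (cons (fin 974 6 973)
(fin 1293 6 1037)))))))))))))))))))))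
(cons (mv 846 (cons (fin 910 7 846)
(mv 912 (cons (fin 848 6 847)
(mv 1105 (cons (mv 1038 (cons (fin 1106 3 1038)
(fin 1037 0 1037)))
(mv 976 (cons (fin 1169 4 912)
(mv 913 (cons (fin 849 6 848)
(mv 914 (cons (fin 974 1 910)
(fin 915 1 911)))))))))))))
(mv 846 (cons (fin 910 7 846)
(mv 1102 (cons (fin 1166 5 910)
(mv 1101 (cons (fin 1100 2 1036)
(mv 1037 (cons (fin 1036 3 1036)
(mv 1038 (cons (fin 1105 3 1037)
(mv 972 (cons (fin 973 3 972)
(mv 976 (cons (fin 977 2 973)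
(mv 1165 (cons (fin 1164 1 1100)
(mv 1229 (cons (fin 974 6 973)
(fin 1293 6 1037)))))))))))))))))))))
(cons (cons (mv 848 (cons (fin 912 6 847)
(mv 1102 (cons (fin 1166 5 910)
(mv 1101 (cons (fin 1100 2 1036)
(mv 1037 (cons (fin 1036 3 1036)
(mv 1038 (cons (fin 1105 3 1037)
(mv 972 (cons (fin 973 3 972)
(mv 976 (cons (fin 977 2 973)
(mv 1165 (cons (fin 1164 1 1100)
(mv 1229 (cons (fin 974 6 973)
(fin 1293 6 1037)))))))))))))))))))
(mv 848 (cons (fin 912 6 847)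
(mv 910 (cons (fin 846 7 846)
(mv 1102 (cons (fin 1166 5 910)
(mv 1101 (cons (fin 1100 2 1036)
(mv 1037 (cons (fin 1036 3 1036)
(mv 1165 (cons (fin 1164 1 1100)
(mv 973 (cons (fin 974 6 909)
(mv 908 (cons (fin 972 7 908)
(mv 909 (cons (fin 976 0 908)
(fin 844 7 844))))))))))))))))))))
(cons (mv 910 (cons (fin 846 7 846)
(mv 912 (cons (fin 848 6 847)
(mv 1102 (cons (fin 1166 5 910)
(mv 1101 (cons (fin 1100 2 1036)
(mv 1165 (cons (fin 1164 1 1100)
(mv 974 (cons (fin 1038 5 909)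
(mv 913 (cons (fin 973 1 909)
(fin 914 1 910)))))))))))))))
(mv 846 (cons (fin 910 7 846)
(mv 848 (cons (fin 912 6 847)
(mv 1102 (cons (fin 1166 5 910)
(mv 1101 (cons (fin 1100 2 1036)
(mv 1037 (cons (fin 1036 3 1036)
(mv 1105 (cons (fin 1038 3 1037)
(mv 1106 (cons (fin 1107 3 1039)
(mv 1170 (cons (fin 1169 0 1102)
(fin 1171 0 1103)))))))))))))))))))))))
(mv 911 (cons (fin 847 4 847)
(mv 1168 (cons (fin 1232 7 975)
(fin 1103 4 911))))))))
(mv 1104 (cons (cons (mv 911 (cons (fin 847 4 847)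
(mv 1168 (cons (fin 976 7 911)
(fin 1232 7 975)))))
(mv 911 (cons (fin 847 4 847)
(mv 1103 (cons (cons (mv 846 (cons (fin 910 7 846)
(mv 1102 (cons (fin 1166 5 910)
(mv 1101 (cons (fin 1100 2 1036)
(mv 1037 (cons (fin 1036 3 1036)
(mv 1038 (cons (fin 1105 3 1037)
(mv 972 (cons (fin 973 3 972)
(mv 976 (cons (fin 977 2 973)
(mv 1165 (cons (fin 1164 1 1100)
(mv 1229 (cons (fin 974 6 973)
(fin 1293 6 1037)))))))))))))))))))
(mv 910 (cons (fin 846 7 846)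
(mv 1167 (cons (fin 974 7 910)
(mv 1231 (cons (fin 976 6 975)
(fin 1295 6 1039))))))))
(cons (mv 1102 (cons (fin 1166 5 910)
(mv 1101 (cons (fin 1100 2 1036)
(mv 1037 (cons (fin 1036 3 1036)
(mv 1038 (cons (fin 1105 3 1037)
(mv 972 (cons (fin 973 3 972)
(mv 976 (cons (fin 977 2 973)
(mv 1165 (cons (fin 1164 1 1100)
(mv 1229 (cons (fin 974 6 973)
(fin 1293 6 1037)))))))))))))))))
(mv 846 (cons (fin 910 7 846)
(mv 1102 (cons (fin 1166 5 910)
(mv 1101 (cons (fin 1100 2 1036)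
(mv 1037 (cons (fin 1036 3 1036)
(mv 1105 (cons (fin 1038 3 1037)
(mv 1106 (cons (fin 1107 3 1039)
(mv 1170 (cons (fin 1169 0 1102)
(fin 1171 0 1103)))))))))))))))))))))
(cons (mv 1168 (cons (fin 1232 7 975)
(mv 976 (cons (mv 977 (cons (fin 913 6 912)
(mv 978 (cons (fin 1038 1 974)
(fin 979 1 975)))))
(mv 1167 (cons (fin 1231 5 975)
(mv 1169 (cons (fin 1233 4 976)
(mv 1103 (cons (mv 1102 (cons (fin 1170 3 1102)
(fin 1101 0 1101)))
(mv 910 (cons (fin 974 7 910)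
(mv 1166 (cons (fin 1230 5 974)
(mv 1105 (cons (fin 1106 1 1102)
(fin 1165 2 1101)))))))))))))))))
(mv 911 (cons (fin 847 4 847)
(mv 1168 (cons (fin 1232 7 975)
(fin 1103 4 911)))))))))
(cons (mv 1104 (cons (cons (mv 911 (cons (fin 847 4 847)
(mv 1168 (cons (fin 976 7 911)
(fin 1232 7 975)))))
(mv 911 (cons (fin 847 4 847)
(mv 1103 (cons (cons (mv 846 (cons (fin 910 7 846)
(mv 912 (cons (fin 848 6 847)
(mv 976 (cons (fin 1167 5 911)
(mv 849 (cons (fin 913 6 848)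
(mv 1105 (cons (fin 1169 4 912)
(mv 1038 (cons (fin 1106 3 1038)
(fin 1037 0 1037)))))))))))))
(mv 910 (cons (fin 846 7 846)
(mv 1167 (cons (fin 974 7 910)
(mv 1231 (cons (fin 976 6 975)
(fin 1295 6 1039))))))))
(cons (mv 912 (cons (fin 848 6 847)
(mv 976 (cons (fin 1167 5 911)
(mv 849 (cons (fin 913 6 848)
(mv 1105 (cons (fin 1169 4 912)
(mv 1038 (cons (fin 1106 3 1038)
(fin 1037 0 1037)))))))))))
(cons (mv 846 (cons (fin 910 7 846)
(mv 912 (cons (fin 848 6 847)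
(mv 1105 (cons (mv 1038 (cons (fin 1106 3 1038)
(fin 1037 0 1037)))
(mv 976 (cons (fin 1169 4 912)
(mv 913 (cons (fin 849 6 848)
(mv 914 (cons (fin 974 1 910)
(fin 915 1 911)))))))))))))
(mv 848 (cons (fin 912 6 847)
(mv 910 (cons (fin 846 7 846)
(mv 1167 (cons (fin 974 7 910)
(mv 1230 (cons (fin 1166 5 974)
(mv 1231 (cons (fin 1294 5 1038)
(fin 1295 6 1039))))))))))))))))))
(cons (mv 1168 (cons (fin 1232 7 975)
(mv 976 (cons (mv 913 (cons (fin 977 6 912)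
(mv 912 (cons (fin 849 6 848)
(mv 848 (cons (fin 784 5 783)
(fin 1103 5 847)))))))
(cons (mv 1167 (cons (fin 1231 5 975)
(mv 912 (cons (fin 1103 5 911)
(mv 1169 (cons (fin 1105 4 912)
(fin 1233 4 976)))))))
(mv 977 (cons (fin 913 6 912)
(mv 978 (cons (fin 1038 1 974)
(fin 979 1 975))))))))))
(mv 911 (cons (fin 847 4 847)
(mv 1168 (cons (fin 1232 7 975)
(fin 1103 4 911))))))))
(mv 1104 (cons (cons (mv 911 (cons (fin 847 4 847)
(mv 1168 (cons (fin 976 7 911)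
(fin 1232 7 975)))))
(mv 911 (cons (fin 847 4 847)
(mv 1103 (cons (cons (mv 848 (cons (fin 912 6 847)
(mv 1102 (cons (fin 1166 5 910)
(mv 1101 (cons (fin 1100 2 1036)
(mv 1037 (cons (fin 1036 3 1036)
(mv 1038 (cons (fin 1105 3 1037)
(mv 972 (cons (fin 973 3 972)
(mv 976 (cons (fin 977 2 973)
(mv 1165 (cons (fin 1164 1 1100)
(mv 1229 (cons (fin 974 6 973)
(fin 1293 6 1037)))))))))))))))))))
(mv 1102 (cons (fin 1166 5 910)
(mv 1101 (cons (fin 1100 2 1036)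
(mv 1037 (cons (fin 1036 3 1036)
(mv 1038 (cons (fin 1105 3 1037)
(mv 972 (cons (fin 973 3 972)
(mv 976 (cons (fin 977 2 973)
(mv 1165 (cons (fin 1164 1 1100)
(mv 1229 (cons (fin 974 6 973)
(fin 1293 6 1037))))))))))))))))))
(cons (mv 912 (cons (fin 848 6 847)
(mv 976 (cons (fin 1167 5 911)
(mv 849 (cons (fin 913 6 848)
(mv 1105 (cons (fin 1169 4 912)
(mv 1038 (cons (fin 1106 3 1038)
(fin 1037 0 1037)))))))))))
(cons (mv 848 (cons (fin 912 6 847)
(mv 1102 (cons (fin 1166 5 910)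
(mv 1101 (cons (fin 1100 2 1036)
(mv 1037 (cons (fin 1036 3 1036)
(mv 1038 (cons (fin 1105 3 1037)
(mv 972 (cons (fin 973 3 972)
(mv 1165 (cons (fin 1164 1 1100)
(mv 1229 (cons (fin 974 6 973)
(fin 1293 6 1037)))))))))))))))))
(mv 848 (cons (fin 912 6 847)
(mv 1166 (cons (fin 1102 5 910)
(mv 1167 (cons (fin 1230 5 974)
(mv 1231 (cons (fin 976 6 975)
(fin 1295 6 1039))))))))))))))))
(cons (mv 1168 (cons (fin 1232 7 975)
(mv 976 (cons (mv 913 (cons (fin 977 6 912)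
(mv 912 (cons (fin 849 6 848)
(mv 848 (cons (fin 784 5 783)
(fin 1103 5 847)))))))
(cons (mv 1167 (cons (fin 1231 5 975)
(mv 912 (cons (fin 1103 5 911)
(mv 1169 (cons (fin 1105 4 912)
(fin 1233 4 976)))))))
(mv 977 (cons (fin 913 6 912)
(mv 978 (cons (fin 1038 1 974)
(fin 979 1 975))))))))))
(mv 911 (cons (fin 847 4 847)
(mv 1168 (cons (fin 1232 7 975)
(fin 1103 4 911)))))))))))))
(cons (mv 1038 (cons (cons (cons (mv 1037 (cons (cons (mv 972 (cons (fin 973 3 972)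
(mv 971 (cons (fin 1036 3 971)
(mv 976 (cons (fin 977 2 973)
(mv 1101 (cons (fin 1100 1 1036)
(mv 1041 (cons (fin 1102 1 1037)
(mv 1105 (cons (fin 1104 0 1037)
(fin 1106 0 1038)))))))))))))
(cons (mv 972 (cons (fin 973 3 972)
(mv 971 (cons (fin 1036 3 971)
(mv 977 (cons (fin 976 2 973)
(mv 1041 (cons (fin 978 2 974)
(mv 1105 (cons (fin 1104 0 1037)
(fin 1106 0 1038)))))))))))
(mv 976 (cons (fin 977 2 973)
(mv 1100 (cons (fin 1101 1 1036)
(mv 1036 (cons (fin 1099 1 1035)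
(mv 1104 (cons (fin 1103 0 1036)
(fin 1105 0 1037)))))))))))
(cons (mv 972 (cons (fin 973 3 972)
(mv 971 (cons (fin 1036 3 971)
(mv 977 (cons (fin 976 2 973)
(mv 1041 (cons (fin 978 2 974)
(mv 1101 (cons (fin 1100 1 1036)
(fin 1102 1 1037)))))))))))
(cons (mv 972 (cons (fin 973 3 972)
(mv 971 (cons (fin 1036 3 971)
(mv 1101 (cons (fin 1100 1 1036)
(mv 1041 (cons (fin 1102 1 1037)
(mv 1105 (cons (fin 1104 0 1037)
(fin 1106 0 1038)))))))))))
(mv 972 (cons (fin 973 3 972)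
(mv 976 (cons (fin 977 2 973)
(mv 1101 (cons (fin 1100 1 1036)
(mv 1041 (cons (fin 1102 1 1037)
(mv 1105 (cons (fin 1104 0 1037)
(fin 1106 0 1038)))))))))))))))
(mv 1041 (cons (cons (mv 973 (cons (fin 974 3 973)
(mv 977 (cons (fin 978 2 974)
(mv 1102 (cons (fin 1101 1 1037)
(mv 1042 (cons (fin 1103 1 1038)
(mv 1106 (cons (fin 1105 0 1038)
(fin 1107 0 1039)))))))))))
(cons (mv 973 (cons (fin 974 3 973)
(mv 978 (cons (fin 977 2 974)
(mv 1042 (cons (fin 979 2 975)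
(mv 1106 (cons (fin 1105 0 1038)
(fin 1107 0 1039)))))))))
(mv 973 (cons (fin 974 3 973)
(mv 978 (cons (fin 977 2 974)
(mv 1042 (cons (fin 979 2 975)
(mv 1102 (cons (fin 1101 1 1037)
(fin 1103 1 1038)))))))))))
(cons (mv 973 (cons (fin 974 3 973)
(mv 1102 (cons (fin 1101 1 1037)
(mv 1042 (cons (fin 1103 1 1038)
(mv 1106 (cons (fin 1105 0 1038)
(fin 1107 0 1039)))))))))
(cons (mv 977 (cons (fin 978 2 974)
(mv 1102 (cons (fin 1101 1 1037)
(mv 1042 (cons (fin 1103 1 1038)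
(mv 1106 (cons (fin 1105 0 1038)
(fin 1107 0 1039)))))))))
(mv 973 (cons (fin 974 3 973)
(mv 977 (cons (fin 978 2 974)
(mv 1101 (cons (fin 1102 1 1037)
(mv 1105 (cons (fin 1106 0 1038)
(mv 1169 (cons (mv 976 (cons (fin 912 7 912)
(fin 1233 7 976)))
(cons (mv 1168 (cons (fin 1232 5 976)
(mv 913 (cons (fin 1104 5 912)
(mv 848 (cons (fin 912 7 848)
(mv 849 (cons (fin 784 7 784)
(mv 850 (cons (fin 786 6 785)
(fin 914 6 849)))))))))))
(mv 976 (cons (fin 1233 7 976)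
(mv 1168 (cons (fin 1232 5 976)
(mv 913 (cons (fin 1104 5 912)
(mv 849 (cons (fin 785 5 784)
(mv 850 (cons (fin 786 6 785)
(fin 914 6 849)))))))))))))))))))))))))))
(cons (mv 1037 (cons (cons (mv 972 (cons (fin 973 3 972)
(mv 976 (cons (fin 977 2 973)
(mv 1036 (cons (fin 971 3 971)
(mv 1100 (cons (fin 1099 1 1035)
(fin 1101 1 1036)))))))))
(mv 972 (cons (fin 973 3 972)
(mv 976 (cons (fin 977 2 973)
(mv 1036 (cons (fin 971 3 971)
(mv 1104 (cons (fin 1103 0 1036)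
(fin 1105 0 1037))))))))))
(cons (mv 976 (cons (fin 977 2 973)
(mv 1100 (cons (fin 1101 1 1036)
(mv 1036 (cons (fin 1099 1 1035)
(mv 1104 (cons (fin 1103 0 1036)
(fin 1105 0 1037)))))))))
(cons (mv 972 (cons (fin 973 3 972)
(mv 1036 (cons (fin 971 3 971)
(mv 1100 (cons (fin 1099 1 1035)
(fin 1101 1 1036)))))))
(mv 972 (cons (fin 973 3 972)
(mv 976 (cons (fin 977 2 973)
(mv 1100 (cons (fin 1101 1 1036)
(mv 1104 (cons (fin 1105 0 1037)
(mv 912 (cons (mv 1103 (cons (fin 848 5 847)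
(fin 1167 5 911)))
(cons (mv 847 (cons (fin 911 7 847)
(mv 848 (cons (fin 783 7 783)
(mv 849 (cons (fin 785 6 784)
(fin 913 6 848)))))))
(mv 847 (cons (fin 911 7 847)
(mv 849 (cons (fin 913 6 848)
(mv 1168 (cons (cons (mv 1167 (cons (fin 1103 5 911)
(fin 1231 5 975)))
(mv 1233 (cons (fin 1169 4 976)
(mv 1232 (cons (fin 1297 4 1040)
(mv 1295 (cons (fin 1231 5 1039)
(mv 1296 (cons (fin 1103 7 1039)
(fin 1359 5 1103))))))))))
(cons (mv 1231 (cons (fin 1167 5 975)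
(mv 1232 (cons (fin 1295 5 1039)
(mv 1233 (cons (fin 1169 4 976)
(fin 1297 4 1040)))))))
(mv 1103 (cons (fin 1167 5 911)
(mv 1232 (cons (fin 1296 7 1039)
(mv 1233 (cons (fin 1169 4 976)
(fin 1297 4 1040)))))))))))))))))))))))))))))
(mv 1041 (cons (cons (mv 973 (cons (fin 974 3 973)
(mv 972 (cons (fin 1037 3 972)
(mv 977 (cons (fin 978 2 974)
(mv 1106 (cons (fin 1105 0 1038)
(mv 1042 (cons (fin 1107 0 1039)
(mv 849 (cons (fin 913 4 849)
(mv 1103 (cons (fin 1102 1 1038)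
(mv 1104 (cons (fin 1043 1 1039)
(mv 1168 (cons (fin 1232 6 976)
(mv 1170 (cons (fin 1234 7 977)
(mv 1169 (cons (fin 1171 3 1103)
(mv 976 (cons (fin 1233 4 976)
(mv 912 (cons (fin 848 5 847)
(fin 1167 5 911)))))))))))))))))))))))))))
(cons (mv 973 (cons (fin 974 3 973)
(mv 972 (cons (fin 1037 3 972)
(mv 978 (cons (fin 977 2 974)
(mv 1042 (cons (fin 979 2 975)
(mv 1103 (cons (fin 1102 1 1038)
(mv 1043 (cons (fin 1104 1 1039)
(mv 1107 (cons (fin 1106 0 1039)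
(fin 1108 0 1040)))))))))))))))
(mv 973 (cons (fin 974 3 973)
(mv 972 (cons (fin 1037 3 972)
(mv 1106 (cons (fin 1105 0 1038)
(mv 1042 (cons (fin 1107 0 1039)
(mv 979 (cons (fin 978 2 975)
(mv 1043 (cons (fin 980 2 976)
(mv 1103 (cons (fin 1102 1 1038)
(fin 1104 1 1039)))))))))))))))))
(cons (cons (mv 973 (cons (fin 974 3 973)
(mv 977 (cons (fin 978 2 974)
(mv 1037 (cons (fin 972 3 972)
(fin 976 2 973)))))))
(mv 973 (cons (fin 974 3 973)
(mv 1037 (cons (fin 972 3 972)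
(mv 1105 (cons (fin 1104 0 1037)
(fin 1106 0 1038))))))))
(cons (mv 977 (cons (fin 978 2 974)
(mv 976 (cons (fin 1037 2 973)
(mv 1105 (cons (fin 1106 0 1038)
(mv 912 (cons (fin 1169 7 912)
(fin 848 4 848)))))))))
(mv 973 (cons (fin 974 3 973)
(mv 977 (cons (fin 978 2 974)
(mv 1106 (cons (fin 1105 0 1038)
(mv 1042 (cons (fin 1107 0 1039)
(mv 849 (cons (fin 913 4 849)
(mv 1103 (cons (fin 1102 1 1038)
(mv 1104 (cons (fin 1043 1 1039)
(mv 1168 (cons (fin 1232 6 976)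
(mv 1170 (cons (fin 1234 7 977)
(mv 1169 (cons (fin 1171 3 1103)
(mv 976 (cons (fin 1233 4 976)
(mv 912 (cons (fin 848 5 847)
(fin 1167 5 911)))))))))))))))))))))))))))))))
(cons (cons (mv 1037 (cons (cons (mv 972 (cons (fin 973 3 972)
(mv 971 (cons (fin 1036 3 971)
(mv 977 (cons (fin 976 2 973)
(mv 1041 (cons (fin 978 2 974)
(mv 1101 (cons (fin 1100 1 1036)
(fin 1102 1 1037)))))))))))
(cons (mv 972 (cons (fin 973 3 972)
(mv 976 (cons (fin 977 2 973)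
(mv 1036 (cons (fin 971 3 971)
(mv 1099 (cons (fin 1100 1 1035)
(mv 1035 (cons (fin 1098 1 1034)
(mv 1103 (cons (fin 1102 0 1035)
(fin 1104 0 1036)))))))))))))
(mv 976 (cons (fin 977 2 973)
(mv 1100 (cons (fin 1101 1 1036)
(mv 1036 (cons (fin 1099 1 1035)
(mv 971 (cons (fin 972 3 971)
(mv 1035 (cons (fin 970 3 970)
(mv 1103 (cons (fin 1102 0 1035)
(fin 1104 0 1036)))))))))))))))
(cons (cons (mv 972 (cons (fin 973 3 972)
(mv 976 (cons (fin 977 2 973)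
(mv 1036 (cons (fin 971 3 971)
(mv 1103 (cons (fin 1104 0 1036)
(mv 848 (cons (fin 912 5 847)
(mv 1102 (cons (fin 1035 0 1035)
(mv 1041 (cons (fin 1101 1 1037)
(fin 1042 1 1038)))))))))))))))
(mv 976 (cons (fin 977 2 973)
(mv 1100 (cons (fin 1101 1 1036)
(mv 1036 (cons (fin 1099 1 1035)
(mv 1103 (cons (fin 1104 0 1036)
(mv 848 (cons (fin 912 5 847)
(mv 1102 (cons (fin 1035 0 1035)
(mv 1041 (cons (fin 1042 1 1038)
(mv 974 (cons (fin 973 3 973)
(mv 910 (cons (fin 846 4 846)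
(fin 1167 4 910))))))))))))))))))))
(cons (mv 972 (cons (fin 973 3 972)
(mv 1036 (cons (fin 971 3 971)
(mv 1100 (cons (fin 1099 1 1035)
(fin 1101 1 1036)))))))
(mv 972 (cons (fin 973 3 972)
(mv 977 (cons (fin 976 2 973)
(mv 1041 (cons (fin 978 2 974)
(mv 1101 (cons (fin 1100 1 1036)
(fin 1102 1 1037)))))))))))))
(mv 1041 (cons (cons (mv 977 (cons (fin 978 2 974)
(mv 976 (cons (fin 1037 2 973)
(mv 1101 (cons (fin 1102 1 1037)
(mv 1105 (cons (fin 1106 0 1038)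
(mv 912 (cons (fin 1169 7 912)
(fin 848 4 848)))))))))))
(mv 977 (cons (fin 978 2 974)
(mv 976 (cons (fin 1037 2 973)
(mv 1102 (cons (fin 1101 1 1037)
(mv 1103 (cons (fin 1042 1 1038)
(mv 912 (cons (fin 848 5 847)
(mv 1167 (cons (fin 1104 5 911)
(fin 1231 6 975))))))))))))))
(cons (mv 1101 (cons (fin 1102 1 1037)
(mv 1037 (cons (fin 1100 1 1036)
(mv 1105 (cons (fin 1104 0 1037)
(fin 1106 0 1038)))))))
(cons (mv 977 (cons (fin 978 2 974)
(mv 976 (cons (fin 1037 2 973)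
(mv 1105 (cons (fin 1106 0 1038)
(mv 912 (cons (fin 1169 7 912)
(fin 848 4 848)))))))))
(mv 977 (cons (fin 978 2 974)
(mv 1102 (cons (fin 1101 1 1037)
(mv 1042 (cons (fin 1103 1 1038)
(mv 1106 (cons (fin 1105 0 1038)
(fin 1107 0 1039))))))))))))))
(cons (mv 1037 (cons (cons (mv 972 (cons (fin 973 3 972)
(mv 971 (cons (fin 1036 3 971)
(mv 1101 (cons (fin 1100 1 1036)
(mv 1041 (cons (fin 1102 1 1037)
(mv 1105 (cons (fin 1104 0 1037)
(fin 1106 0 1038)))))))))))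
(mv 972 (cons (fin 973 3 972)
(mv 1036 (cons (fin 971 3 971)
(mv 1104 (cons (fin 1103 0 1036)
(fin 1105 0 1037))))))))
(cons (mv 1100 (cons (fin 1101 1 1036)
(mv 1036 (cons (fin 1099 1 1035)
(mv 1104 (cons (fin 1103 0 1036)
(fin 1105 0 1037)))))))
(cons (mv 972 (cons (fin 973 3 972)
(mv 1036 (cons (fin 971 3 971)
(mv 1100 (cons (fin 1099 1 1035)
(fin 1101 1 1036)))))))
(mv 972 (cons (fin 973 3 972)
(mv 1101 (cons (fin 1100 1 1036)
(mv 1041 (cons (fin 1102 1 1037)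
(mv 1105 (cons (fin 1104 0 1037)
(fin 1106 0 1038)))))))))))))
(cons (mv 1041 (cons (cons (mv 973 (cons (fin 974 3 973)
(mv 972 (cons (fin 1037 3 972)
(mv 977 (cons (fin 978 2 974)
(mv 1102 (cons (fin 1101 1 1037)
(mv 1042 (cons (fin 1103 1 1038)
(mv 1106 (cons (fin 1105 0 1038)
(fin 1107 0 1039)))))))))))))
(cons (mv 973 (cons (fin 974 3 973)
(mv 972 (cons (fin 1037 3 972)
(mv 978 (cons (fin 977 2 974)
(mv 1042 (cons (fin 979 2 975)
(mv 1106 (cons (fin 1105 0 1038)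
(fin 1107 0 1039)))))))))))
(mv 973 (cons (fin 974 3 973)
(mv 972 (cons (fin 1037 3 972)
(mv 1102 (cons (fin 1101 1 1037)
(mv 1042 (cons (fin 1103 1 1038)
(mv 1106 (cons (fin 1105 0 1038)
(fin 1107 0 1039)))))))))))))
(cons (mv 977 (cons (fin 978 2 974)
(mv 976 (cons (fin 1037 2 973)
(mv 1101 (cons (fin 1102 1 1037)
(mv 1105 (cons (fin 1106 0 1038)
(mv 912 (cons (fin 1169 7 912)
(fin 848 4 848)))))))))))
(cons (mv 973 (cons (fin 974 3 973)
(mv 972 (cons (fin 1037 3 972)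
(mv 978 (cons (fin 977 2 974)
(mv 1042 (cons (fin 979 2 975)
(mv 1102 (cons (fin 1101 1 1037)
(fin 1103 1 1038)))))))))))
(mv 973 (cons (fin 974 3 973)
(mv 977 (cons (fin 978 2 974)
(mv 1102 (cons (fin 1101 1 1037)
(mv 1042 (cons (fin 1103 1 1038)
(mv 1106 (cons (fin 1105 0 1038)
(fin 1107 0 1039)))))))))))))))
(mv 1037 (cons (cons (mv 972 (cons (fin 973 3 972)
(mv 971 (cons (fin 1036 3 971)
(mv 976 (cons (fin 977 2 973)
(mv 1101 (cons (fin 1100 1 1036)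
(mv 1041 (cons (fin 1102 1 1037)
(mv 1105 (cons (fin 1104 0 1037)
(fin 1106 0 1038)))))))))))))
(cons (mv 976 (cons (fin 977 2 973)
(mv 1101 (cons (fin 1100 1 1036)
(mv 1041 (cons (fin 1102 1 1037)
(mv 1105 (cons (fin 1104 0 1037)
(fin 1106 0 1038)))))))))
(mv 972 (cons (fin 973 3 972)
(mv 971 (cons (fin 1036 3 971)
(mv 977 (cons (fin 976 2 973)
(mv 1041 (cons (fin 978 2 974)
(mv 1105 (cons (fin 1104 0 1037)
(fin 1106 0 1038)))))))))))))
(cons (mv 972 (cons (fin 973 3 972)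
(mv 971 (cons (fin 1036 3 971)
(mv 1101 (cons (fin 1100 1 1036)
(mv 1041 (cons (fin 1102 1 1037)
(mv 1105 (cons (fin 1104 0 1037)
(fin 1106 0 1038)))))))))))
(cons (mv 972 (cons (fin 973 3 972)
(mv 971 (cons (fin 1036 3 971)
(mv 977 (cons (fin 976 2 973)
(mv 1041 (cons (fin 978 2 974)
(mv 1101 (cons (fin 1100 1 1036)
(fin 1102 1 1037)))))))))))
(mv 972 (cons (fin 973 3 972)
(mv 976 (cons (fin 977 2 973)
(mv 1036 (cons (fin 971 3 971)
(mv 1100 (cons (fin 1099 1 1035)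
(fin 1101 1 1036))))))))))))))))))
(mv 1038 (cons (cons (cons (mv 1037 (cons (cons (mv 972 (cons (fin 973 3 972)
(mv 971 (cons (fin 1036 3 971)
(mv 976 (cons (fin 977 2 973)
(mv 1101 (cons (fin 1100 1 1036)
(mv 1041 (cons (fin 1102 1 1037)
(mv 1105 (cons (fin 1104 0 1037)
(fin 1106 0 1038)))))))))))))
(cons (mv 976 (cons (fin 977 2 973)
(mv 975 (cons (fin 1036 2 972)
(mv 1100 (cons (fin 1101 1 1036)
(mv 1104 (cons (fin 1105 0 1037)
(mv 911 (cons (fin 1168 7 911)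
(fin 847 4 847)))))))))))
(mv 972 (cons (fin 973 3 972)
(mv 971 (cons (fin 1036 3 971)
(mv 977 (cons (fin 976 2 973)
(mv 1041 (cons (fin 978 2 974)
(mv 1105 (cons (fin 1104 0 1037)
(fin 1106 0 1038)))))))))))))
(cons (mv 972 (cons (fin 973 3 972)
(mv 971 (cons (fin 1036 3 971)
(mv 1101 (cons (fin 1100 1 1036)
(mv 1041 (cons (fin 1102 1 1037)
(mv 1105 (cons (fin 1104 0 1037)
(fin 1106 0 1038)))))))))))
(cons (mv 972 (cons (fin 973 3 972)
(mv 971 (cons (fin 1036 3 971)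
(mv 977 (cons (fin 976 2 973)
(mv 1041 (cons (fin 978 2 974)
(mv 1101 (cons (fin 1100 1 1036)
(fin 1102 1 1037)))))))))))
(mv 972 (cons (fin 973 3 972)
(mv 976 (cons (fin 977 2 973)
(mv 1101 (cons (fin 1100 1 1036)
(mv 1041 (cons (fin 1102 1 1037)
(mv 1105 (cons (fin 1104 0 1037)
(fin 1106 0 1038)))))))))))))))
(mv 1041 (cons (cons (mv 973 (cons (fin 974 3 973)
(mv 978 (cons (fin 977 2 974)
(mv 1042 (cons (fin 979 2 975)
(mv 1106 (cons (fin 1105 0 1038)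
(fin 1107 0 1039)))))))))
(mv 978 (cons (fin 977 2 974)
(mv 1042 (cons (fin 979 2 975)
(mv 1106 (cons (fin 1105 0 1038)
(fin 1107 0 1039))))))))
(cons (mv 974 (cons (fin 973 3 973)
(mv 975 (cons (fin 1042 3 974)
(mv 1102 (cons (fin 1101 1 1037)
(mv 911 (cons (fin 847 5 846)
(fin 1166 6 910)))))))))
(mv 973 (cons (fin 974 3 973)
(mv 977 (cons (fin 978 2 974)
(mv 1101 (cons (fin 1102 1 1037)
(mv 1105 (cons (fin 1106 0 1038)
(mv 913 (cons (mv 1104 (cons (fin 849 5 848)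
(fin 1168 5 912)))
(cons (mv 848 (cons (fin 912 7 848)
(mv 849 (cons (fin 784 7 784)
(mv 850 (cons (fin 786 6 785)
(fin 914 6 849)))))))
(mv 848 (cons (fin 912 7 848)
(mv 850 (cons (fin 914 6 849)
(mv 1168 (cons (fin 1104 5 912)
(mv 1169 (cons (fin 1232 5 976)
(mv 1233 (cons (fin 976 7 976)
(mv 1234 (cons (fin 1170 4 977)
(fin 1298 4 1041))))))))))))))))))))))))))))
(cons (mv 1037 (cons (cons (mv 972 (cons (fin 973 3 972)
(mv 976 (cons (fin 977 2 973)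
(mv 1036 (cons (fin 971 3 971)
(fin 975 2 972)))))))
(mv 972 (cons (fin 973 3 972)
(mv 1036 (cons (fin 971 3 971)
(mv 1100 (cons (fin 1099 1 1035)
(fin 1101 1 1036))))))))
(cons (mv 976 (cons (fin 977 2 973)
(mv 975 (cons (fin 1036 2 972)
(mv 1100 (cons (fin 1101 1 1036)
(mv 1104 (cons (fin 1105 0 1037)
(mv 911 (cons (fin 1168 7 911)
(fin 847 4 847)))))))))))
(mv 972 (cons (fin 973 3 972)
(mv 976 (cons (fin 977 2 973)
(mv 1100 (cons (fin 1101 1 1036)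
(mv 1104 (cons (fin 1105 0 1037)
(mv 1168 (cons (mv 975 (cons (fin 911 7 911)
(fin 1232 7 975)))
(cons (mv 1231 (cons (fin 1167 5 975)
(mv 1232 (cons (fin 1295 5 1039)
(mv 1233 (cons (fin 1169 4 976)
(fin 1297 4 1040)))))))
(mv 1167 (cons (fin 1231 5 975)
(mv 1169 (cons (fin 1233 4 976)
(mv 912 (cons (cons (mv 911 (cons (fin 847 7 847)
(fin 975 7 911)))
(mv 849 (cons (fin 913 6 848)
(mv 848 (cons (fin 785 6 784)
(mv 783 (cons (fin 847 7 783)
(mv 784 (cons (fin 719 7 719)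
(fin 975 5 783))))))))))
(cons (mv 847 (cons (fin 911 7 847)
(mv 848 (cons (fin 783 7 783)
(mv 849 (cons (fin 785 6 784)
(fin 913 6 848)))))))
(mv 849 (cons (fin 913 6 848)
(mv 848 (cons (fin 785 6 784)
(mv 975 (cons (fin 911 7 911)
(fin 784 5 783))))))))))))))))))))))))))))
(mv 1041 (cons (cons (mv 977 (cons (fin 978 2 974)
(mv 976 (cons (fin 1037 2 973)
(mv 1101 (cons (fin 1102 1 1037)
(mv 1105 (cons (fin 1106 0 1038)
(mv 912 (cons (fin 1169 7 912)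
(fin 848 4 848)))))))))))
(mv 1101 (cons (fin 1102 1 1037)
(mv 1037 (cons (fin 1100 1 1036)
(mv 1105 (cons (fin 1104 0 1037)
(fin 1106 0 1038))))))))
(cons (mv 977 (cons (fin 978 2 974)
(mv 1037 (cons (fin 976 2 973)
(mv 1101 (cons (fin 1100 1 1036)
(fin 1102 1 1037)))))))
(cons (mv 977 (cons (fin 978 2 974)
(mv 976 (cons (fin 1037 2 973)
(mv 1105 (cons (fin 1106 0 1038)
(mv 912 (cons (fin 1169 7 912)
(fin 848 4 848)))))))))
(mv 978 (cons (fin 977 2 974)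
(mv 1042 (cons (fin 979 2 975)
(mv 1106 (cons (fin 1105 0 1038)
(fin 1107 0 1039)))))))))))))
(cons (cons (mv 1037 (cons (cons (mv 972 (cons (fin 973 3 972)
(mv 971 (cons (fin 1036 3 971)
(mv 1101 (cons (fin 1100 1 1036)
(mv 1041 (cons (fin 1102 1 1037)
(mv 1105 (cons (fin 1104 0 1037)
(fin 1106 0 1038)))))))))))
(mv 1100 (cons (fin 1101 1 1036)
(mv 1036 (cons (fin 1099 1 1035)
(mv 971 (cons (fin 972 3 971)
(mv 975 (cons (fin 976 2 972)
(mv 1035 (cons (fin 970 3 970)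
(fin 974 2 971))))))))))))
(cons (mv 972 (cons (fin 973 3 972)
(mv 1036 (cons (fin 971 3 971)
(mv 975 (cons (fin 976 2 972)
(mv 974 (cons (fin 1035 2 971)
(mv 1041 (cons (fin 1042 3 974)
(mv 1105 (cons (fin 1104 0 1037)
(fin 1106 0 1038)))))))))))))
(cons (mv 1100 (cons (fin 1101 1 1036)
(mv 1036 (cons (fin 1099 1 1035)
(mv 975 (cons (fin 976 2 972)
(mv 974 (cons (fin 1035 2 971)
(mv 1041 (cons (fin 973 3 973)
(fin 1042 3 974)))))))))))
(mv 972 (cons (fin 973 3 972)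
(mv 1101 (cons (fin 1100 1 1036)
(mv 1041 (cons (fin 1102 1 1037)
(mv 1105 (cons (fin 1104 0 1037)
(fin 1106 0 1038)))))))))))))
(mv 1041 (cons (cons (mv 973 (cons (fin 974 3 973)
(mv 972 (cons (fin 1037 3 972)
(mv 978 (cons (fin 977 2 974)
(mv 1042 (cons (fin 979 2 975)
(mv 1106 (cons (fin 1105 0 1038)
(fin 1107 0 1039)))))))))))
(mv 973 (cons (fin 974 3 973)
(mv 1037 (cons (fin 972 3 972)
(mv 1105 (cons (fin 1104 0 1037)
(fin 1106 0 1038))))))))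
(cons (mv 973 (cons (fin 974 3 973)
(mv 977 (cons (fin 978 2 974)
(mv 1037 (cons (fin 972 3 972)
(fin 976 2 973)))))))
(cons (mv 977 (cons (fin 978 2 974)
(mv 976 (cons (fin 1037 2 973)
(mv 1105 (cons (fin 1106 0 1038)
(mv 912 (cons (fin 1169 7 912)
(fin 848 4 848)))))))))
(mv 973 (cons (fin 974 3 973)
(mv 978 (cons (fin 977 2 974)
(mv 1042 (cons (fin 979 2 975)
(mv 1106 (cons (fin 1105 0 1038)
(fin 1107 0 1039))))))))))))))
(cons (mv 1037 (cons (cons (mv 972 (cons (fin 973 3 972)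
(mv 971 (cons (fin 1036 3 971)
(mv 977 (cons (fin 976 2 973)
(mv 1041 (cons (fin 978 2 974)
(mv 1101 (cons (fin 1100 1 1036)
(fin 1102 1 1037)))))))))))
(mv 976 (cons (fin 977 2 973)
(mv 975 (cons (fin 1036 2 972)
(mv 1101 (cons (fin 1100 1 1036)
(mv 1041 (cons (fin 1102 1 1037)
(mv 1042 (cons (fin 974 3 974)
(fin 1043 3 975))))))))))))
(cons (mv 972 (cons (fin 973 3 972)
(mv 976 (cons (fin 977 2 973)
(mv 1036 (cons (fin 971 3 971)
(fin 975 2 972)))))))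
(cons (mv 972 (cons (fin 973 3 972)
(mv 1036 (cons (fin 971 3 971)
(mv 1100 (cons (fin 1099 1 1035)
(fin 1101 1 1036)))))))
(mv 972 (cons (fin 973 3 972)
(mv 977 (cons (fin 976 2 973)
(mv 1041 (cons (fin 978 2 974)
(mv 1101 (cons (fin 1100 1 1036)
(fin 1102 1 1037)))))))))))))
(mv 1041 (cons (cons (mv 973 (cons (fin 974 3 973)
(mv 972 (cons (fin 1037 3 972)
(mv 978 (cons (fin 977 2 974)
(mv 1042 (cons (fin 979 2 975)
(mv 1106 (cons (fin 1105 0 1038)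
(fin 1107 0 1039)))))))))))
(mv 977 (cons (fin 978 2 974)
(mv 1101 (cons (fin 1102 1 1037)
(mv 1037 (cons (fin 1100 1 1036)
(mv 1105 (cons (fin 1104 0 1037)
(fin 1106 0 1038))))))))))
(cons (mv 973 (cons (fin 974 3 973)
(mv 977 (cons (fin 978 2 974)
(mv 1037 (cons (fin 972 3 972)
(mv 1101 (cons (fin 1100 1 1036)
(fin 1102 1 1037)))))))))
(cons (mv 973 (cons (fin 974 3 973)
(mv 1037 (cons (fin 972 3 972)
(mv 1101 (cons (fin 1100 1 1036)
(fin 1102 1 1037)))))))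
(mv 973 (cons (fin 974 3 973)
(mv 978 (cons (fin 977 2 974)
(mv 1042 (cons (fin 979 2 975)
(mv 1106 (cons (fin 1105 0 1038)
(fin 1107 0 1039))))))))))))))))))))
(cons (cons (mv 1041 (cons (cons (cons (mv 1038 (cons (cons (mv 973 (cons (fin 974 3 973)
(mv 972 (cons (fin 1037 3 972)
(mv 977 (cons (fin 978 2 974)
(mv 1102 (cons (fin 1101 1 1037)
(mv 1042 (cons (fin 1103 1 1038)
(mv 1106 (cons (fin 1105 0 1038)
(fin 1107 0 1039)))))))))))))
(cons (mv 973 (cons (fin 974 3 973)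
(mv 972 (cons (fin 1037 3 972)
(mv 978 (cons (fin 977 2 974)
(mv 1042 (cons (fin 979 2 975)
(mv 1106 (cons (fin 1105 0 1038)
(fin 1107 0 1039)))))))))))
(mv 977 (cons (fin 978 2 974)
(mv 1101 (cons (fin 1102 1 1037)
(mv 1037 (cons (fin 1100 1 1036)
(mv 1105 (cons (fin 1104 0 1037)
(fin 1106 0 1038)))))))))))
(cons (mv 973 (cons (fin 974 3 973)
(mv 972 (cons (fin 1037 3 972)
(mv 978 (cons (fin 977 2 974)
(mv 1042 (cons (fin 979 2 975)
(mv 1102 (cons (fin 1101 1 1037)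
(fin 1103 1 1038)))))))))))
(cons (mv 973 (cons (fin 974 3 973)
(mv 972 (cons (fin 1037 3 972)
(mv 1102 (cons (fin 1101 1 1037)
(mv 1042 (cons (fin 1103 1 1038)
(mv 1106 (cons (fin 1105 0 1038)
(fin 1107 0 1039)))))))))))
(mv 973 (cons (fin 974 3 973)
(mv 977 (cons (fin 978 2 974)
(mv 1102 (cons (fin 1101 1 1037)
(mv 1042 (cons (fin 1103 1 1038)
(mv 1106 (cons (fin 1105 0 1038)
(fin 1107 0 1039)))))))))))))))
(mv 1042 (cons (cons (mv 974 (cons (fin 975 3 974)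
(mv 978 (cons (fin 979 2 975)
(mv 1103 (cons (fin 1102 1 1038)
(mv 1043 (cons (fin 1104 1 1039)
(mv 1107 (cons (fin 1106 0 1039)
(fin 1108 0 1040)))))))))))
(cons (mv 974 (cons (fin 975 3 974)
(mv 979 (cons (fin 978 2 975)
(mv 1043 (cons (fin 980 2 976)
(mv 1107 (cons (fin 1106 0 1039)
(fin 1108 0 1040)))))))))
(mv 974 (cons (fin 975 3 974)
(mv 979 (cons (fin 978 2 975)
(mv 1043 (cons (fin 980 2 976)
(mv 1103 (cons (fin 1102 1 1038)
(fin 1104 1 1039)))))))))))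
(cons (mv 974 (cons (fin 975 3 974)
(mv 1103 (cons (fin 1102 1 1038)
(mv 1043 (cons (fin 1104 1 1039)
(mv 1107 (cons (fin 1106 0 1039)
(fin 1108 0 1040)))))))))
(cons (mv 978 (cons (fin 979 2 975)
(mv 1103 (cons (fin 1102 1 1038)
(mv 1043 (cons (fin 1104 1 1039)
(mv 1107 (cons (fin 1106 0 1039)
(fin 1108 0 1040)))))))))
(mv 974 (cons (fin 975 3 974)
(mv 978 (cons (fin 979 2 975)
(mv 1102 (cons (fin 1103 1 1038)
(mv 1106 (cons (fin 1107 0 1039)
(mv 1170 (cons (mv 977 (cons (fin 913 7 913)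
(fin 1234 7 977)))
(cons (mv 1169 (cons (fin 1233 5 977)
(mv 914 (cons (fin 1105 5 913)
(mv 849 (cons (fin 913 7 849)
(mv 850 (cons (fin 785 7 785)
(mv 851 (cons (fin 787 6 786)
(fin 915 6 850)))))))))))
(mv 977 (cons (fin 1234 7 977)
(mv 1169 (cons (fin 1233 5 977)
(mv 914 (cons (fin 1105 5 913)
(mv 850 (cons (fin 786 5 785)
(mv 851 (cons (fin 787 6 786)
(fin 915 6 850)))))))))))))))))))))))))))
(cons (mv 1038 (cons (cons (mv 973 (cons (fin 974 3 973)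
(mv 977 (cons (fin 978 2 974)
(mv 1037 (cons (fin 972 3 972)
(mv 1101 (cons (fin 1100 1 1036)
(fin 1102 1 1037)))))))))
(mv 973 (cons (fin 974 3 973)
(mv 977 (cons (fin 978 2 974)
(mv 1037 (cons (fin 972 3 972)
(mv 1105 (cons (fin 1104 0 1037)
(fin 1106 0 1038))))))))))
(cons (mv 977 (cons (fin 978 2 974)
(mv 1101 (cons (fin 1102 1 1037)
(mv 1037 (cons (fin 1100 1 1036)
(mv 1105 (cons (fin 1104 0 1037)
(fin 1106 0 1038)))))))))
(cons (mv 973 (cons (fin 974 3 973)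
(mv 1037 (cons (fin 972 3 972)
(mv 1101 (cons (fin 1100 1 1036)
(fin 1102 1 1037)))))))
(mv 973 (cons (fin 974 3 973)
(mv 977 (cons (fin 978 2 974)
(mv 1101 (cons (fin 1102 1 1037)
(mv 1105 (cons (fin 1106 0 1038)
(mv 913 (cons (mv 1104 (cons (fin 849 5 848)
(fin 1168 5 912)))
(cons (mv 848 (cons (fin 912 7 848)
(mv 849 (cons (fin 784 7 784)
(mv 850 (cons (fin 786 6 785)
(fin 914 6 849)))))))
(mv 848 (cons (fin 912 7 848)
(mv 850 (cons (fin 914 6 849)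
(mv 1169 (cons (cons (mv 1168 (cons (fin 1104 5 912)
(fin 1232 5 976)))
(mv 1234 (cons (fin 1170 4 977)
(mv 1233 (cons (fin 1298 4 1041)
(mv 1296 (cons (fin 1232 5 1040)
(mv 1297 (cons (fin 1104 7 1040)
(fin 1360 5 1104))))))))))
(cons (mv 1232 (cons (fin 1168 5 976)
(mv 1233 (cons (fin 1296 5 1040)
(mv 1234 (cons (fin 1170 4 977)
(fin 1298 4 1041)))))))
(mv 1104 (cons (fin 1168 5 912)
(mv 1233 (cons (fin 1297 7 1040)
(mv 1234 (cons (fin 1170 4 977)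
(fin 1298 4 1041)))))))))))))))))))))))))))))
(mv 1038 (cons (cons (mv 973 (cons (fin 974 3 973)
(mv 972 (cons (fin 1037 3 972)
(mv 978 (cons (fin 977 2 974)
(mv 1042 (cons (fin 979 2 975)
(mv 1106 (cons (fin 1105 0 1038)
(fin 1107 0 1039)))))))))))
(mv 977 (cons (fin 978 2 974)
(mv 1105 (cons (fin 1106 0 1038)
(mv 1037 (cons (fin 1104 0 1037)
(mv 972 (cons (fin 973 3 972)
(mv 1036 (cons (fin 971 3 971)
(mv 1100 (cons (fin 1099 1 1035)
(fin 1101 1 1036))))))))))))))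
(cons (mv 974 (cons (fin 973 3 973)
(mv 978 (cons (fin 977 2 974)
(mv 1042 (cons (fin 975 3 974)
(fin 979 2 975)))))))
(cons (mv 977 (cons (fin 978 2 974)
(mv 1105 (cons (fin 1106 0 1038)
(mv 1104 (cons (fin 1037 0 1037)
(mv 913 (cons (fin 849 5 848)
(fin 1168 5 912)))))))))
(mv 973 (cons (fin 974 3 973)
(mv 1037 (cons (fin 972 3 972)
(mv 1105 (cons (fin 1104 0 1037)
(fin 1106 0 1038)))))))))))))
(cons (cons (mv 1038 (cons (cons (mv 973 (cons (fin 974 3 973)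
(mv 972 (cons (fin 1037 3 972)
(mv 978 (cons (fin 977 2 974)
(mv 1042 (cons (fin 979 2 975)
(mv 1102 (cons (fin 1101 1 1037)
(fin 1103 1 1038)))))))))))
(cons (mv 973 (cons (fin 974 3 973)
(mv 977 (cons (fin 978 2 974)
(mv 1037 (cons (fin 972 3 972)
(mv 1100 (cons (fin 1101 1 1036)
(mv 1036 (cons (fin 1099 1 1035)
(mv 1104 (cons (fin 1103 0 1036)
(fin 1105 0 1037)))))))))))))
(mv 977 (cons (fin 978 2 974)
(mv 1101 (cons (fin 1102 1 1037)
(mv 1037 (cons (fin 1100 1 1036)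
(mv 972 (cons (fin 973 3 972)
(mv 1036 (cons (fin 971 3 971)
(mv 1104 (cons (fin 1103 0 1036)
(fin 1105 0 1037)))))))))))))))
(cons (cons (mv 973 (cons (fin 974 3 973)
(mv 977 (cons (fin 978 2 974)
(mv 1037 (cons (fin 972 3 972)
(mv 1104 (cons (fin 1105 0 1037)
(mv 849 (cons (fin 913 5 848)
(mv 1103 (cons (fin 1036 0 1036)
(mv 1042 (cons (fin 1102 1 1038)
(fin 1043 1 1039)))))))))))))))
(mv 977 (cons (fin 978 2 974)
(mv 1101 (cons (fin 1102 1 1037)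
(mv 1037 (cons (fin 1100 1 1036)
(mv 1104 (cons (fin 1105 0 1037)
(mv 849 (cons (fin 913 5 848)
(mv 1103 (cons (fin 1036 0 1036)
(mv 1042 (cons (fin 1043 1 1039)
(mv 975 (cons (fin 974 3 974)
(mv 911 (cons (fin 847 4 847)
(fin 1168 4 911))))))))))))))))))))
(cons (mv 973 (cons (fin 974 3 973)
(mv 1037 (cons (fin 972 3 972)
(mv 1101 (cons (fin 1100 1 1036)
(fin 1102 1 1037)))))))
(mv 973 (cons (fin 974 3 973)
(mv 978 (cons (fin 977 2 974)
(mv 1042 (cons (fin 979 2 975)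
(mv 1102 (cons (fin 1101 1 1037)
(fin 1103 1 1038)))))))))))))
(mv 1042 (cons (cons (mv 978 (cons (fin 979 2 975)
(mv 977 (cons (fin 1038 2 974)
(mv 1102 (cons (fin 1103 1 1038)
(mv 1106 (cons (fin 1107 0 1039)
(mv 913 (cons (fin 1170 7 913)
(fin 849 4 849)))))))))))
(mv 978 (cons (fin 979 2 975)
(mv 977 (cons (fin 1038 2 974)
(mv 1103 (cons (fin 1102 1 1038)
(mv 1104 (cons (fin 1043 1 1039)
(mv 913 (cons (fin 849 5 848)
(mv 1168 (cons (fin 1105 5 912)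
(fin 1232 6 976))))))))))))))
(cons (mv 1102 (cons (fin 1103 1 1038)
(mv 1038 (cons (fin 1101 1 1037)
(mv 1106 (cons (fin 1105 0 1038)
(fin 1107 0 1039)))))))
(cons (mv 978 (cons (fin 979 2 975)
(mv 977 (cons (fin 1038 2 974)
(mv 1106 (cons (fin 1107 0 1039)
(mv 913 (cons (fin 1170 7 913)
(fin 849 4 849)))))))))
(mv 978 (cons (fin 979 2 975)
(mv 1103 (cons (fin 1102 1 1038)
(mv 1043 (cons (fin 1104 1 1039)
(mv 1107 (cons (fin 1106 0 1039)
(fin 1108 0 1040))))))))))))))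
(cons (mv 1038 (cons (cons (mv 973 (cons (fin 974 3 973)
(mv 972 (cons (fin 1037 3 972)
(mv 1102 (cons (fin 1101 1 1037)
(mv 1042 (cons (fin 1103 1 1038)
(mv 1106 (cons (fin 1105 0 1038)
(fin 1107 0 1039)))))))))))
(mv 973 (cons (fin 974 3 973)
(mv 1037 (cons (fin 972 3 972)
(mv 1105 (cons (fin 1104 0 1037)
(fin 1106 0 1038))))))))
(cons (mv 1101 (cons (fin 1102 1 1037)
(mv 1037 (cons (fin 1100 1 1036)
(mv 1105 (cons (fin 1104 0 1037)
(fin 1106 0 1038)))))))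
(cons (mv 973 (cons (fin 974 3 973)
(mv 1037 (cons (fin 972 3 972)
(mv 1101 (cons (fin 1100 1 1036)
(fin 1102 1 1037)))))))
(mv 973 (cons (fin 974 3 973)
(mv 1102 (cons (fin 1101 1 1037)
(mv 1042 (cons (fin 1103 1 1038)
(mv 1106 (cons (fin 1105 0 1038)
(fin 1107 0 1039)))))))))))))
(cons (mv 1042 (cons (cons (mv 974 (cons (fin 975 3 974)
(mv 973 (cons (fin 1038 3 973)
(mv 978 (cons (fin 979 2 975)
(mv 1103 (cons (fin 1102 1 1038)
(mv 1043 (cons (fin 1104 1 1039)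
(mv 1107 (cons (fin 1106 0 1039)
(fin 1108 0 1040)))))))))))))
(cons (mv 974 (cons (fin 975 3 974)
(mv 973 (cons (fin 1038 3 973)
(mv 979 (cons (fin 978 2 975)
(mv 1043 (cons (fin 980 2 976)
(mv 1107 (cons (fin 1106 0 1039)
(fin 1108 0 1040)))))))))))
(mv 974 (cons (fin 975 3 974)
(mv 973 (cons (fin 1038 3 973)
(mv 1103 (cons (fin 1102 1 1038)
(mv 1043 (cons (fin 1104 1 1039)
(mv 1107 (cons (fin 1106 0 1039)
(fin 1108 0 1040)))))))))))))
(cons (mv 978 (cons (fin 979 2 975)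
(mv 977 (cons (fin 1038 2 974)
(mv 1102 (cons (fin 1103 1 1038)
(mv 1106 (cons (fin 1107 0 1039)
(mv 913 (cons (fin 1170 7 913)
(fin 849 4 849)))))))))))
(cons (mv 974 (cons (fin 975 3 974)
(mv 973 (cons (fin 1038 3 973)
(mv 979 (cons (fin 978 2 975)
(mv 1043 (cons (fin 980 2 976)
(mv 1103 (cons (fin 1102 1 1038)
(fin 1104 1 1039)))))))))))
(mv 974 (cons (fin 975 3 974)
(mv 978 (cons (fin 979 2 975)
(mv 1103 (cons (fin 1102 1 1038)
(mv 1043 (cons (fin 1104 1 1039)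
(mv 1107 (cons (fin 1106 0 1039)
(fin 1108 0 1040)))))))))))))))
(mv 1038 (cons (cons (mv 973 (cons (fin 974 3 973)
(mv 972 (cons (fin 1037 3 972)
(mv 977 (cons (fin 978 2 974)
(mv 1102 (cons (fin 1101 1 1037)
(mv 1042 (cons (fin 1103 1 1038)
(mv 1106 (cons (fin 1105 0 1038)
(fin 1107 0 1039)))))))))))))
(cons (mv 977 (cons (fin 978 2 974)
(mv 1102 (cons (fin 1101 1 1037)
(mv 1042 (cons (fin 1103 1 1038)
(mv 1106 (cons (fin 1105 0 1038)
(fin 1107 0 1039)))))))))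
(mv 973 (cons (fin 974 3 973)
(mv 972 (cons (fin 1037 3 972)
(mv 978 (cons (fin 977 2 974)
(mv 1042 (cons (fin 979 2 975)
(mv 1106 (cons (fin 1105 0 1038)
(fin 1107 0 1039)))))))))))))
(cons (mv 973 (cons (fin 974 3 973)
(mv 972 (cons (fin 1037 3 972)
(mv 1102 (cons (fin 1101 1 1037)
(mv 1042 (cons (fin 1103 1 1038)
(mv 1106 (cons (fin 1105 0 1038)
(fin 1107 0 1039)))))))))))
(cons (mv 973 (cons (fin 974 3 973)
(mv 972 (cons (fin 1037 3 972)
(mv 978 (cons (fin 977 2 974)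
(mv 1042 (cons (fin 979 2 975)
(mv 1102 (cons (fin 1101 1 1037)
(fin 1103 1 1038)))))))))))
(mv 973 (cons (fin 974 3 973)
(mv 977 (cons (fin 978 2 974)
(mv 1037 (cons (fin 972 3 972)
(mv 1101 (cons (fin 1100 1 1036)
(fin 1102 1 1037))))))))))))))))))
(mv 1041 (cons (cons (cons (mv 1038 (cons (cons (mv 973 (cons (fin 974 3 973)
(mv 972 (cons (fin 1037 3 972)
(mv 977 (cons (fin 978 2 974)
(mv 1102 (cons (fin 1101 1 1037)
(mv 1042 (cons (fin 1103 1 1038)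
(mv 1106 (cons (fin 1105 0 1038)
(fin 1107 0 1039)))))))))))))
(cons (mv 977 (cons (fin 978 2 974)
(mv 976 (cons (fin 1037 2 973)
(mv 1101 (cons (fin 1102 1 1037)
(mv 1105 (cons (fin 1106 0 1038)
(mv 912 (cons (fin 1169 7 912)
(fin 848 4 848)))))))))))
(mv 973 (cons (fin 974 3 973)
(mv 972 (cons (fin 1037 3 972)
(mv 978 (cons (fin 977 2 974)
(mv 1042 (cons (fin 979 2 975)
(mv 1106 (cons (fin 1105 0 1038)
(fin 1107 0 1039)))))))))))))
(cons (mv 973 (cons (fin 974 3 973)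
(mv 972 (cons (fin 1037 3 972)
(mv 1102 (cons (fin 1101 1 1037)
(mv 1042 (cons (fin 1103 1 1038)
(mv 1106 (cons (fin 1105 0 1038)
(fin 1107 0 1039)))))))))))
(cons (mv 973 (cons (fin 974 3 973)
(mv 972 (cons (fin 1037 3 972)
(mv 978 (cons (fin 977 2 974)
(mv 1042 (cons (fin 979 2 975)
(mv 1102 (cons (fin 1101 1 1037)
(fin 1103 1 1038)))))))))))
(mv 973 (cons (fin 974 3 973)
(mv 977 (cons (fin 978 2 974)
(mv 1102 (cons (fin 1101 1 1037)
(mv 1042 (cons (fin 1103 1 1038)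
(mv 1106 (cons (fin 1105 0 1038)
(fin 1107 0 1039)))))))))))))))
(mv 1042 (cons (cons (mv 974 (cons (fin 975 3 974)
(mv 979 (cons (fin 978 2 975)
(mv 1043 (cons (fin 980 2 976)
(mv 1107 (cons (fin 1106 0 1039)
(fin 1108 0 1040)))))))))
(mv 979 (cons (fin 978 2 975)
(mv 1043 (cons (fin 980 2 976)
(mv 1107 (cons (fin 1106 0 1039)
(fin 1108 0 1040))))))))
(cons (mv 975 (cons (fin 974 3 974)
(mv 976 (cons (fin 1043 3 975)
(mv 1103 (cons (fin 1102 1 1038)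
(mv 912 (cons (fin 848 5 847)
(fin 1167 6 911)))))))))
(mv 974 (cons (fin 975 3 974)
(mv 978 (cons (fin 979 2 975)
(mv 1102 (cons (fin 1103 1 1038)
(mv 1106 (cons (fin 1107 0 1039)
(mv 914 (cons (mv 1105 (cons (fin 850 5 849)
(fin 1169 5 913)))
(cons (mv 849 (cons (fin 913 7 849)
(mv 850 (cons (fin 785 7 785)
(mv 851 (cons (fin 787 6 786)
(fin 915 6 850)))))))
(mv 849 (cons (fin 913 7 849)
(mv 851 (cons (fin 915 6 850)
(mv 1169 (cons (fin 1105 5 913)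
(mv 1170 (cons (fin 1233 5 977)
(mv 1234 (cons (fin 977 7 977)
(mv 1235 (cons (fin 1171 4 978)
(fin 1299 4 1042))))))))))))))))))))))))))))
(cons (mv 1038 (cons (cons (mv 973 (cons (fin 974 3 973)
(mv 977 (cons (fin 978 2 974)
(mv 1037 (cons (fin 972 3 972)
(fin 976 2 973)))))))
(mv 973 (cons (fin 974 3 973)
(mv 1037 (cons (fin 972 3 972)
(mv 1101 (cons (fin 1100 1 1036)
(fin 1102 1 1037))))))))
(cons (mv 977 (cons (fin 978 2 974)
(mv 976 (cons (fin 1037 2 973)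
(mv 1101 (cons (fin 1102 1 1037)
(mv 1105 (cons (fin 1106 0 1038)
(mv 912 (cons (fin 1169 7 912)
(fin 848 4 848)))))))))))
(mv 973 (cons (fin 974 3 973)
(mv 977 (cons (fin 978 2 974)
(mv 1101 (cons (fin 1102 1 1037)
(mv 1105 (cons (fin 1106 0 1038)
(mv 1169 (cons (mv 976 (cons (fin 912 7 912)
(fin 1233 7 976)))
(cons (mv 1232 (cons (fin 1168 5 976)
(mv 1233 (cons (fin 1296 5 1040)
(mv 1234 (cons (fin 1170 4 977)
(fin 1298 4 1041)))))))
(mv 1168 (cons (fin 1232 5 976)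
(mv 1170 (cons (fin 1234 4 977)
(mv 913 (cons (cons (mv 912 (cons (fin 848 7 848)
(fin 976 7 912)))
(mv 850 (cons (fin 914 6 849)
(mv 849 (cons (fin 786 6 785)
(mv 784 (cons (fin 848 7 784)
(mv 785 (cons (fin 720 7 720)
(fin 976 5 784))))))))))
(cons (mv 848 (cons (fin 912 7 848)
(mv 849 (cons (fin 784 7 784)
(mv 850 (cons (fin 786 6 785)
(fin 914 6 849)))))))
(mv 850 (cons (fin 914 6 849)
(mv 849 (cons (fin 786 6 785)
(mv 976 (cons (fin 912 7 912)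
(fin 785 5 784))))))))))))))))))))))))))))
(mv 1038 (cons (cons (mv 977 (cons (fin 978 2 974)
(mv 976 (cons (fin 1037 2 973)
(mv 1101 (cons (fin 1102 1 1037)
(mv 1105 (cons (fin 1106 0 1038)
(mv 912 (cons (fin 1169 7 912)
(fin 848 4 848)))))))))))
(mv 977 (cons (fin 978 2 974)
(mv 976 (cons (fin 1037 2 973)
(mv 1105 (cons (fin 1106 0 1038)
(mv 912 (cons (fin 1169 7 912)
(fin 848 4 848))))))))))
(cons (mv 1102 (cons (fin 1101 1 1037)
(mv 1042 (cons (fin 1103 1 1038)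
(mv 1106 (cons (fin 1105 0 1038)
(fin 1107 0 1039)))))))
(mv 977 (cons (fin 978 2 974)
(mv 976 (cons (fin 1037 2 973)
(mv 1102 (cons (fin 1101 1 1037)
(mv 1103 (cons (fin 1042 1 1038)
(mv 912 (cons (fin 848 5 847)
(mv 1167 (cons (fin 975 6 911)
(fin 1231 6 975))))))))))))))))))
(cons (cons (mv 1038 (cons (cons (mv 973 (cons (fin 974 3 973)
(mv 972 (cons (fin 1037 3 972)
(mv 1102 (cons (fin 1101 1 1037)
(mv 1042 (cons (fin 1103 1 1038)
(mv 1106 (cons (fin 1105 0 1038)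
(fin 1107 0 1039)))))))))))
(mv 1101 (cons (fin 1102 1 1037)
(mv 1037 (cons (fin 1100 1 1036)
(mv 972 (cons (fin 973 3 972)
(mv 976 (cons (fin 977 2 973)
(mv 1036 (cons (fin 971 3 971)
(fin 975 2 972))))))))))))
(cons (mv 973 (cons (fin 974 3 973)
(mv 1037 (cons (fin 972 3 972)
(mv 976 (cons (fin 977 2 973)
(mv 975 (cons (fin 1036 2 972)
(mv 1042 (cons (fin 1043 3 975)
(mv 1106 (cons (fin 1105 0 1038)
(fin 1107 0 1039)))))))))))))
(cons (mv 1101 (cons (fin 1102 1 1037)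
(mv 1037 (cons (fin 1100 1 1036)
(mv 976 (cons (fin 977 2 973)
(mv 975 (cons (fin 1036 2 972)
(mv 1042 (cons (fin 974 3 974)
(fin 1043 3 975)))))))))))
(mv 973 (cons (fin 974 3 973)
(mv 1102 (cons (fin 1101 1 1037)
(mv 1042 (cons (fin 1103 1 1038)
(mv 1106 (cons (fin 1105 0 1038)
(fin 1107 0 1039)))))))))))))
(mv 1042 (cons (cons (mv 974 (cons (fin 975 3 974)
(mv 973 (cons (fin 1038 3 973)
(mv 979 (cons (fin 978 2 975)
(mv 1043 (cons (fin 980 2 976)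
(mv 1107 (cons (fin 1106 0 1039)
(fin 1108 0 1040)))))))))))
(mv 974 (cons (fin 975 3 974)
(mv 1038 (cons (fin 973 3 973)
(mv 1106 (cons (fin 1105 0 1038)
(fin 1107 0 1039))))))))
(cons (mv 974 (cons (fin 975 3 974)
(mv 978 (cons (fin 979 2 975)
(mv 1038 (cons (fin 973 3 973)
(fin 977 2 974)))))))
(cons (mv 978 (cons (fin 979 2 975)
(mv 977 (cons (fin 1038 2 974)
(mv 1106 (cons (fin 1107 0 1039)
(mv 913 (cons (fin 1170 7 913)
(fin 849 4 849)))))))))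
(mv 974 (cons (fin 975 3 974)
(mv 979 (cons (fin 978 2 975)
(mv 1043 (cons (fin 980 2 976)
(mv 1107 (cons (fin 1106 0 1039)
(fin 1108 0 1040))))))))))))))
(cons (mv 1038 (cons (cons (mv 973 (cons (fin 974 3 973)
(mv 972 (cons (fin 1037 3 972)
(mv 978 (cons (fin 977 2 974)
(mv 1042 (cons (fin 979 2 975)
(mv 1102 (cons (fin 1101 1 1037)
(fin 1103 1 1038)))))))))))
(mv 977 (cons (fin 978 2 974)
(mv 976 (cons (fin 1037 2 973)
(mv 1102 (cons (fin 1101 1 1037)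
(mv 1103 (cons (fin 1042 1 1038)
(mv 912 (cons (fin 848 5 847)
(mv 1167 (cons (fin 975 6 911)
(fin 1231 6 975))))))))))))))
(cons (mv 973 (cons (fin 974 3 973)
(mv 977 (cons (fin 978 2 974)
(mv 1037 (cons (fin 972 3 972)
(fin 976 2 973)))))))
(cons (mv 973 (cons (fin 974 3 973)
(mv 1037 (cons (fin 972 3 972)
(mv 1101 (cons (fin 1100 1 1036)
(fin 1102 1 1037)))))))
(mv 973 (cons (fin 974 3 973)
(mv 978 (cons (fin 977 2 974)
(mv 1042 (cons (fin 979 2 975)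
(mv 1102 (cons (fin 1101 1 1037)
(fin 1103 1 1038)))))))))))))
(mv 1042 (cons (cons (mv 974 (cons (fin 975 3 974)
(mv 973 (cons (fin 1038 3 973)
(mv 979 (cons (fin 978 2 975)
(mv 1043 (cons (fin 980 2 976)
(mv 1107 (cons (fin 1106 0 1039)
(fin 1108 0 1040)))))))))))
(mv 978 (cons (fin 979 2 975)
(mv 1102 (cons (fin 1103 1 1038)
(mv 1038 (cons (fin 1101 1 1037)
(mv 1106 (cons (fin 1105 0 1038)
(fin 1107 0 1039))))))))))
(cons (mv 974 (cons (fin 975 3 974)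
(mv 978 (cons (fin 979 2 975)
(mv 1038 (cons (fin 973 3 973)
(mv 1102 (cons (fin 1101 1 1037)
(fin 1103 1 1038)))))))))
(cons (mv 974 (cons (fin 975 3 974)
(mv 1038 (cons (fin 973 3 973)
(mv 1102 (cons (fin 1101 1 1037)
(fin 1103 1 1038)))))))
(mv 974 (cons (fin 975 3 974)
(mv 979 (cons (fin 978 2 975)
(mv 1043 (cons (fin 980 2 976)
(mv 1107 (cons (fin 1106 0 1039)
(fin 1108 0 1040))))))))))))))))))
(cons (mv 1041 (cons (cons (mv 1042 (cons (cons (mv 974 (cons (fin 975 3 974)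
(mv 973 (cons (fin 1038 3 973)
(mv 978 (cons (fin 979 2 975)
(mv 1103 (cons (fin 1102 1 1038)
(mv 1043 (cons (fin 1104 1 1039)
(mv 1107 (cons (fin 1106 0 1039)
(fin 1108 0 1040)))))))))))))
(cons (mv 978 (cons (fin 979 2 975)
(mv 977 (cons (fin 1038 2 974)
(mv 1102 (cons (fin 1103 1 1038)
(mv 1106 (cons (fin 1107 0 1039)
(mv 913 (cons (fin 1170 7 913)
(fin 849 4 849)))))))))))
(mv 974 (cons (fin 975 3 974)
(mv 973 (cons (fin 1038 3 973)
(mv 1103 (cons (fin 1102 1 1038)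
(mv 1043 (cons (fin 1104 1 1039)
(mv 1107 (cons (fin 1106 0 1039)
(fin 1108 0 1040)))))))))))))
(cons (mv 974 (cons (fin 975 3 974)
(mv 973 (cons (fin 1038 3 973)
(mv 979 (cons (fin 978 2 975)
(mv 1043 (cons (fin 980 2 976)
(mv 1107 (cons (fin 1106 0 1039)
(fin 1108 0 1040)))))))))))
(cons (mv 974 (cons (fin 975 3 974)
(mv 973 (cons (fin 1038 3 973)
(mv 979 (cons (fin 978 2 975)
(mv 1043 (cons (fin 980 2 976)
(mv 1103 (cons (fin 1102 1 1038)
(fin 1104 1 1039)))))))))))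
(mv 974 (cons (fin 975 3 974)
(mv 978 (cons (fin 979 2 975)
(mv 1103 (cons (fin 1102 1 1038)
(mv 1043 (cons (fin 1104 1 1039)
(mv 1107 (cons (fin 1106 0 1039)
(fin 1108 0 1040)))))))))))))))
(cons (mv 1038 (cons (cons (mv 973 (cons (fin 974 3 973)
(mv 977 (cons (fin 978 2 974)
(mv 1101 (cons (fin 1102 1 1037)
(mv 1105 (cons (fin 1106 0 1038)
(mv 913 (cons (mv 1104 (cons (fin 849 5 848)
(fin 1168 5 912)))
(cons (mv 848 (cons (fin 912 7 848)
(mv 849 (cons (fin 784 7 784)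
(mv 850 (cons (fin 786 6 785)
(fin 914 6 849)))))))
(mv 848 (cons (fin 912 7 848)
(mv 850 (cons (fin 914 6 849)
(mv 1168 (cons (fin 1104 5 912)
(mv 1169 (cons (fin 1232 5 976)
(mv 1233 (cons (fin 976 7 976)
(mv 1234 (cons (fin 1170 4 977)
(fin 1298 4 1041))))))))))))))))))))))))
(cons (mv 977 (cons (fin 978 2 974)
(mv 1101 (cons (fin 1102 1 1037)
(mv 1105 (cons (fin 1106 0 1038)
(mv 913 (cons (mv 1104 (cons (fin 849 5 848)
(fin 1168 5 912)))
(cons (mv 848 (cons (fin 912 7 848)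
(mv 849 (cons (fin 784 7 784)
(mv 850 (cons (fin 786 6 785)
(fin 914 6 849)))))))
(mv 848 (cons (fin 912 7 848)
(mv 850 (cons (fin 914 6 849)
(mv 1168 (cons (fin 1104 5 912)
(mv 1169 (cons (fin 1232 5 976)
(mv 1233 (cons (fin 976 7 976)
(mv 1234 (cons (fin 1170 4 977)
(fin 1298 4 1041))))))))))))))))))))))
(mv 973 (cons (fin 974 3 973)
(mv 977 (cons (fin 978 2 974)
(mv 1105 (cons (fin 1106 0 1038)
(mv 913 (cons (mv 1104 (cons (fin 849 5 848)
(fin 1168 5 912)))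
(cons (mv 848 (cons (fin 912 7 848)
(mv 849 (cons (fin 784 7 784)
(mv 850 (cons (fin 786 6 785)
(fin 914 6 849)))))))
(mv 848 (cons (fin 912 7 848)
(mv 850 (cons (fin 914 6 849)
(mv 1168 (cons (fin 1104 5 912)
(mv 1169 (cons (fin 1232 5 976)
(mv 1233 (cons (fin 976 7 976)
(mv 1234 (cons (fin 1170 4 977)
(fin 1298 4 1041))))))))))))))))))))))))
(cons (mv 974 (cons (fin 973 3 973)
(mv 1102 (cons (fin 1101 1 1037)
(mv 1105 (cons (fin 1106 0 1038)
(mv 1166 (cons (mv 975 (cons (fin 911 6 910)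
(fin 1230 6 974)))
(mv 1165 (cons (fin 1229 5 973)
(mv 1103 (cons (fin 1104 1 1101)
(mv 910 (cons (fin 846 4 846)
(fin 1167 4 910)))))))))))))))
(cons (mv 974 (cons (fin 973 3 973)
(mv 977 (cons (fin 978 2 974)
(mv 1102 (cons (fin 1101 1 1037)
(mv 910 (cons (cons (mv 1103 (cons (fin 846 4 846)
(fin 1167 4 910)))
(mv 845 (cons (fin 909 7 845)
(mv 781 (cons (fin 846 7 781)
(mv 911 (cons (fin 847 6 846)
(mv 1166 (cons (fin 975 6 910)
(mv 1167 (cons (fin 1231 4 974)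
(mv 1229 (cons (fin 1165 5 973)
(mv 1230 (cons (fin 1293 5 1037)
(mv 1168 (cons (fin 1169 1 1165)
(mv 1104 (cons (fin 1232 6 976)
(mv 913 (cons (fin 849 5 848)
(fin 976 6 912))))))))))))))))))))))
(cons (mv 845 (cons (fin 909 7 845)
(mv 847 (cons (fin 911 6 846)
(mv 1167 (cons (fin 1103 4 910)
(mv 1166 (cons (fin 1231 4 974)
(mv 1229 (cons (fin 1165 5 973)
(mv 1230 (cons (fin 1293 5 1037)
(fin 975 6 974)))))))))))))
(mv 845 (cons (fin 909 7 845)
(mv 846 (cons (fin 781 7 781)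
(fin 1103 4 846))))))))))))))
(mv 973 (cons (fin 974 3 973)
(mv 977 (cons (fin 978 2 974)
(mv 1101 (cons (fin 1102 1 1037)
(mv 1105 (cons (fin 1106 0 1038)
(mv 1169 (cons (mv 976 (cons (fin 912 7 912)
(fin 1233 7 976)))
(cons (mv 1232 (cons (fin 1168 5 976)
(mv 1233 (cons (fin 1296 5 1040)
(mv 1234 (cons (fin 1170 4 977)
(fin 1298 4 1041)))))))
(mv 1168 (cons (fin 1232 5 976)
(mv 1170 (cons (fin 1234 4 977)
(mv 913 (cons (cons (mv 912 (cons (fin 848 7 848)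
(fin 976 7 912)))
(mv 850 (cons (fin 914 6 849)
(mv 849 (cons (fin 786 6 785)
(mv 784 (cons (fin 848 7 784)
(mv 785 (cons (fin 720 7 720)
(fin 976 5 784))))))))))
(cons (mv 848 (cons (fin 912 7 848)
(mv 849 (cons (fin 784 7 784)
(mv 850 (cons (fin 786 6 785)
(fin 914 6 849)))))))
(mv 850 (cons (fin 914 6 849)
(mv 849 (cons (fin 786 6 785)
(mv 976 (cons (fin 912 7 912)
(fin 785 5 784)))))))))))))))))))))))))))))
(mv 1042 (cons (cons (mv 974 (cons (fin 975 3 974)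
(mv 978 (cons (fin 979 2 975)
(mv 1103 (cons (fin 1102 1 1038)
(mv 1043 (cons (fin 1104 1 1039)
(mv 1107 (cons (fin 1106 0 1039)
(fin 1108 0 1040)))))))))))
(cons (mv 978 (cons (fin 979 2 975)
(mv 1103 (cons (fin 1102 1 1038)
(mv 1043 (cons (fin 1104 1 1039)
(mv 1107 (cons (fin 1106 0 1039)
(fin 1108 0 1040)))))))))
(mv 974 (cons (fin 975 3 974)
(mv 979 (cons (fin 978 2 975)
(mv 1043 (cons (fin 980 2 976)
(mv 1107 (cons (fin 1106 0 1039)
(fin 1108 0 1040)))))))))))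
(cons (mv 974 (cons (fin 975 3 974)
(mv 1103 (cons (fin 1102 1 1038)
(mv 1043 (cons (fin 1104 1 1039)
(mv 1107 (cons (fin 1106 0 1039)
(fin 1108 0 1040)))))))))
(cons (mv 974 (cons (fin 975 3 974)
(mv 979 (cons (fin 978 2 975)
(mv 1043 (cons (fin 980 2 976)
(mv 1103 (cons (fin 1102 1 1038)
(fin 1104 1 1039)))))))))
(mv 974 (cons (fin 975 3 974)
(mv 978 (cons (fin 979 2 975)
(mv 1102 (cons (fin 1103 1 1038)
(mv 1106 (cons (fin 1107 0 1039)
(mv 914 (cons (mv 1105 (cons (fin 850 5 849)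
(fin 1169 5 913)))
(cons (mv 849 (cons (fin 913 7 849)
(mv 850 (cons (fin 785 7 785)
(mv 851 (cons (fin 787 6 786)
(fin 915 6 850)))))))
(mv 849 (cons (fin 913 7 849)
(mv 851 (cons (fin 915 6 850)
(mv 1169 (cons (fin 1105 5 913)
(mv 1170 (cons (fin 1233 5 977)
(mv 1234 (cons (fin 977 7 977)
(mv 1235 (cons (fin 1171 4 978)
(fin 1299 4 1042))))))))))))))))))))))))))))))
(cons (cons (mv 1042 (cons (cons (mv 974 (cons (fin 975 3 974)
(mv 973 (cons (fin 1038 3 973)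
(mv 1103 (cons (fin 1102 1 1038)
(mv 1043 (cons (fin 1104 1 1039)
(mv 1107 (cons (fin 1106 0 1039)
(fin 1108 0 1040)))))))))))
(mv 974 (cons (fin 975 3 974)
(mv 1038 (cons (fin 973 3 973)
(mv 1106 (cons (fin 1105 0 1038)
(fin 1107 0 1039))))))))
(cons (mv 1102 (cons (fin 1103 1 1038)
(mv 1038 (cons (fin 1101 1 1037)
(mv 1106 (cons (fin 1105 0 1038)
(fin 1107 0 1039)))))))
(cons (mv 974 (cons (fin 975 3 974)
(mv 1038 (cons (fin 973 3 973)
(mv 1102 (cons (fin 1101 1 1037)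
(fin 1103 1 1038)))))))
(mv 974 (cons (fin 975 3 974)
(mv 1103 (cons (fin 1102 1 1038)
(mv 1043 (cons (fin 1104 1 1039)
(mv 1107 (cons (fin 1106 0 1039)
(fin 1108 0 1040)))))))))))))
(mv 1042 (cons (cons (mv 974 (cons (fin 975 3 974)
(mv 973 (cons (fin 1038 3 973)
(mv 979 (cons (fin 978 2 975)
(mv 1043 (cons (fin 980 2 976)
(mv 1103 (cons (fin 1102 1 1038)
(fin 1104 1 1039)))))))))))
(mv 978 (cons (fin 979 2 975)
(mv 977 (cons (fin 1038 2 974)
(mv 1103 (cons (fin 1102 1 1038)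
(mv 1104 (cons (fin 1043 1 1039)
(mv 913 (cons (fin 849 5 848)
(mv 1168 (cons (fin 1105 5 912)
(fin 976 6 912))))))))))))))
(cons (mv 974 (cons (fin 975 3 974)
(mv 978 (cons (fin 979 2 975)
(mv 1038 (cons (fin 973 3 973)
(fin 977 2 974)))))))
(cons (mv 974 (cons (fin 975 3 974)
(mv 1038 (cons (fin 973 3 973)
(mv 1102 (cons (fin 1101 1 1037)
(fin 1103 1 1038)))))))
(mv 974 (cons (fin 975 3 974)
(mv 979 (cons (fin 978 2 975)
(mv 1043 (cons (fin 980 2 976)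
(mv 1103 (cons (fin 1102 1 1038)
(fin 1104 1 1039))))))))))))))
(cons (mv 1042 (cons (cons (mv 978 (cons (fin 979 2 975)
(mv 977 (cons (fin 1038 2 974)
(mv 1102 (cons (fin 1103 1 1038)
(mv 1106 (cons (fin 1107 0 1039)
(mv 913 (cons (fin 1170 7 913)
(fin 849 4 849)))))))))))
(mv 1102 (cons (fin 1103 1 1038)
(mv 1038 (cons (fin 1101 1 1037)
(mv 1106 (cons (fin 1105 0 1038)
(fin 1107 0 1039))))))))
(cons (mv 978 (cons (fin 979 2 975)
(mv 977 (cons (fin 1038 2 974)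
(mv 1103 (cons (fin 1102 1 1038)
(mv 1104 (cons (fin 1043 1 1039)
(mv 913 (cons (fin 849 5 848)
(mv 1168 (cons (fin 1105 5 912)
(fin 976 6 912)))))))))))))
(cons (mv 978 (cons (fin 979 2 975)
(mv 977 (cons (fin 1038 2 974)
(mv 1106 (cons (fin 1107 0 1039)
(mv 913 (cons (fin 1170 7 913)
(fin 849 4 849)))))))))
(mv 978 (cons (fin 979 2 975)
(mv 1103 (cons (fin 1102 1 1038)
(mv 1043 (cons (fin 1104 1 1039)
(mv 1107 (cons (fin 1106 0 1039)
(fin 1108 0 1040)))))))))))))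
(mv 1042 (cons (cons (mv 974 (cons (fin 975 3 974)
(mv 973 (cons (fin 1038 3 973)
(mv 979 (cons (fin 978 2 975)
(mv 1043 (cons (fin 980 2 976)
(mv 1107 (cons (fin 1106 0 1039)
(fin 1108 0 1040)))))))))))
(mv 974 (cons (fin 975 3 974)
(mv 1038 (cons (fin 973 3 973)
(mv 1106 (cons (fin 1105 0 1038)
(fin 1107 0 1039))))))))
(cons (mv 974 (cons (fin 975 3 974)
(mv 978 (cons (fin 979 2 975)
(mv 1038 (cons (fin 973 3 973)
(fin 977 2 974)))))))
(cons (mv 978 (cons (fin 979 2 975)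
(mv 977 (cons (fin 1038 2 974)
(mv 1106 (cons (fin 1107 0 1039)
(mv 913 (cons (fin 1170 7 913)
(fin 849 4 849)))))))))
(mv 974 (cons (fin 975 3 974)
(mv 979 (cons (fin 978 2 975)
(mv 1043 (cons (fin 980 2 976)
(mv 1107 (cons (fin 1106 0 1039)
(fin 1108 0 1040)))))))))))))))))
(cons (mv 1038 (cons (cons (mv 1037 (cons (cons (mv 972 (cons (fin 973 3 972)
(mv 971 (cons (fin 1036 3 971)
(mv 976 (cons (fin 977 2 973)
(mv 1101 (cons (fin 1100 1 1036)
(mv 1041 (cons (fin 1102 1 1037)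
(mv 1105 (cons (fin 1104 0 1037)
(fin 1106 0 1038)))))))))))))
(cons (mv 976 (cons (fin 977 2 973)
(mv 975 (cons (fin 1036 2 972)
(mv 1100 (cons (fin 1101 1 1036)
(mv 1104 (cons (fin 1105 0 1037)
(mv 911 (cons (fin 1168 7 911)
(fin 847 4 847)))))))))))
(mv 972 (cons (fin 973 3 972)
(mv 971 (cons (fin 1036 3 971)
(mv 977 (cons (fin 976 2 973)
(mv 1041 (cons (fin 978 2 974)
(mv 1105 (cons (fin 1104 0 1037)
(fin 1106 0 1038)))))))))))))
(cons (mv 972 (cons (fin 973 3 972)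
(mv 971 (cons (fin 1036 3 971)
(mv 1101 (cons (fin 1100 1 1036)
(mv 1041 (cons (fin 1102 1 1037)
(mv 1105 (cons (fin 1104 0 1037)
(fin 1106 0 1038)))))))))))
(cons (mv 972 (cons (fin 973 3 972)
(mv 971 (cons (fin 1036 3 971)
(mv 977 (cons (fin 976 2 973)
(mv 1041 (cons (fin 978 2 974)
(mv 1101 (cons (fin 1100 1 1036)
(fin 1102 1 1037)))))))))))
(mv 972 (cons (fin 973 3 972)
(mv 976 (cons (fin 977 2 973)
(mv 1101 (cons (fin 1100 1 1036)
(mv 1041 (cons (fin 1102 1 1037)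
(mv 1105 (cons (fin 1104 0 1037)
(fin 1106 0 1038)))))))))))))))
(cons (mv 1041 (cons (cons (mv 973 (cons (fin 974 3 973)
(mv 977 (cons (fin 978 2 974)
(mv 1101 (cons (fin 1102 1 1037)
(mv 1105 (cons (fin 1106 0 1038)
(mv 913 (cons (mv 1104 (cons (fin 849 5 848)
(fin 1168 5 912)))
(cons (mv 848 (cons (fin 912 7 848)
(mv 849 (cons (fin 784 7 784)
(mv 850 (cons (fin 786 6 785)
(fin 914 6 849)))))))
(mv 848 (cons (fin 912 7 848)
(mv 850 (cons (fin 914 6 849)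
(mv 1168 (cons (fin 1104 5 912)
(mv 1169 (cons (fin 1232 5 976)
(mv 1233 (cons (fin 976 7 976)
(mv 1234 (cons (fin 1170 4 977)
(fin 1298 4 1041))))))))))))))))))))))))
(cons (mv 977 (cons (fin 978 2 974)
(mv 1101 (cons (fin 1102 1 1037)
(mv 1105 (cons (fin 1106 0 1038)
(mv 913 (cons (mv 1104 (cons (fin 849 5 848)
(fin 1168 5 912)))
(cons (mv 848 (cons (fin 912 7 848)
(mv 849 (cons (fin 784 7 784)
(mv 850 (cons (fin 786 6 785)
(fin 914 6 849)))))))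
(mv 848 (cons (fin 912 7 848)
(mv 850 (cons (fin 914 6 849)
(mv 1168 (cons (fin 1104 5 912)
(mv 1169 (cons (fin 1232 5 976)
(mv 1233 (cons (fin 976 7 976)
(mv 1234 (cons (fin 1170 4 977)
(fin 1298 4 1041))))))))))))))))))))))
(mv 973 (cons (fin 974 3 973)
(mv 977 (cons (fin 978 2 974)
(mv 1105 (cons (fin 1106 0 1038)
(mv 913 (cons (mv 1104 (cons (fin 849 5 848)
(fin 1168 5 912)))
(cons (mv 848 (cons (fin 912 7 848)
(mv 849 (cons (fin 784 7 784)
(mv 850 (cons (fin 786 6 785)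
(fin 914 6 849)))))))
(mv 848 (cons (fin 912 7 848)
(mv 850 (cons (fin 914 6 849)
(mv 1168 (cons (fin 1104 5 912)
(mv 1169 (cons (fin 1232 5 976)
(mv 1233 (cons (fin 976 7 976)
(mv 1234 (cons (fin 1170 4 977)
(fin 1298 4 1041))))))))))))))))))))))))
(cons (mv 974 (cons (fin 973 3 973)
(mv 1102 (cons (fin 1101 1 1037)
(mv 1105 (cons (fin 1106 0 1038)
(mv 1166 (cons (mv 975 (cons (fin 911 6 910)
(fin 1230 6 974)))
(mv 1165 (cons (fin 1229 5 973)
(mv 1103 (cons (fin 1104 1 1101)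
(mv 910 (cons (fin 846 4 846)
(fin 1167 4 910)))))))))))))))
(cons (mv 974 (cons (fin 973 3 973)
(mv 977 (cons (fin 978 2 974)
(mv 1102 (cons (fin 1101 1 1037)
(mv 910 (cons (cons (mv 1103 (cons (fin 846 4 846)
(fin 1167 4 910)))
(mv 845 (cons (fin 909 7 845)
(mv 781 (cons (fin 846 7 781)
(mv 911 (cons (fin 847 6 846)
(mv 1166 (cons (fin 975 6 910)
(mv 1167 (cons (fin 1231 4 974)
(mv 1229 (cons (fin 1165 5 973)
(mv 1230 (cons (fin 1293 5 1037)
(mv 1168 (cons (fin 1169 1 1165)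
(mv 1104 (cons (fin 1232 6 976)
(mv 913 (cons (fin 849 5 848)
(fin 976 6 912))))))))))))))))))))))
(cons (mv 845 (cons (fin 909 7 845)
(mv 847 (cons (fin 911 6 846)
(mv 1167 (cons (fin 1103 4 910)
(mv 1166 (cons (fin 1231 4 974)
(mv 1229 (cons (fin 1165 5 973)
(mv 1230 (cons (fin 1293 5 1037)
(fin 975 6 974)))))))))))))
(mv 845 (cons (fin 909 7 845)
(mv 846 (cons (fin 781 7 781)
(fin 1103 4 846))))))))))))))
(mv 973 (cons (fin 974 3 973)
(mv 977 (cons (fin 978 2 974)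
(mv 1101 (cons (fin 1102 1 1037)
(mv 1105 (cons (fin 1106 0 1038)
(mv 1169 (cons (mv 976 (cons (fin 912 7 912)
(fin 1233 7 976)))
(cons (mv 1232 (cons (fin 1168 5 976)
(mv 1233 (cons (fin 1296 5 1040)
(mv 1234 (cons (fin 1170 4 977)
(fin 1298 4 1041)))))))
(mv 1168 (cons (fin 1232 5 976)
(mv 1170 (cons (fin 1234 4 977)
(mv 913 (cons (cons (mv 912 (cons (fin 848 7 848)
(fin 976 7 912)))
(mv 850 (cons (fin 914 6 849)
(mv 849 (cons (fin 786 6 785)
(mv 784 (cons (fin 848 7 784)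
(mv 785 (cons (fin 720 7 720)
(fin 976 5 784))))))))))
(cons (mv 848 (cons (fin 912 7 848)
(mv 849 (cons (fin 784 7 784)
(mv 850 (cons (fin 786 6 785)
(fin 914 6 849)))))))
(mv 850 (cons (fin 914 6 849)
(mv 849 (cons (fin 786 6 785)
(mv 976 (cons (fin 912 7 912)
(fin 785 5 784)))))))))))))))))))))))))))))
(mv 1037 (cons (cons (mv 972 (cons (fin 973 3 972)
(mv 976 (cons (fin 977 2 973)
(mv 1036 (cons (fin 971 3 971)
(fin 975 2 972)))))))
(mv 972 (cons (fin 973 3 972)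
(mv 1036 (cons (fin 971 3 971)
(mv 1100 (cons (fin 1099 1 1035)
(fin 1101 1 1036))))))))
(cons (mv 976 (cons (fin 977 2 973)
(mv 975 (cons (fin 1036 2 972)
(mv 1100 (cons (fin 1101 1 1036)
(mv 1104 (cons (fin 1105 0 1037)
(mv 911 (cons (fin 1168 7 911)
(fin 847 4 847)))))))))))
(mv 972 (cons (fin 973 3 972)
(mv 976 (cons (fin 977 2 973)
(mv 1100 (cons (fin 1101 1 1036)
(mv 1104 (cons (fin 1105 0 1037)
(mv 912 (cons (mv 1103 (cons (fin 848 5 847)
(fin 1167 5 911)))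
(cons (mv 847 (cons (fin 911 7 847)
(mv 848 (cons (fin 783 7 783)
(mv 849 (cons (fin 785 6 784)
(fin 913 6 848)))))))
(mv 847 (cons (fin 911 7 847)
(mv 849 (cons (fin 913 6 848)
(mv 1167 (cons (fin 1103 5 911)
(mv 1168 (cons (fin 1231 5 975)
(mv 1232 (cons (fin 975 7 975)
(mv 1233 (cons (fin 1169 4 976)
(fin 1297 4 1040)))))))))))))))))))))))))))))
(cons (cons (mv 1037 (cons (cons (mv 976 (cons (fin 977 2 973)
(mv 975 (cons (fin 1036 2 972)
(mv 1100 (cons (fin 1101 1 1036)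
(mv 1104 (cons (fin 1105 0 1037)
(mv 911 (cons (fin 1168 7 911)
(fin 847 4 847)))))))))))
(mv 976 (cons (fin 977 2 973)
(mv 975 (cons (fin 1036 2 972)
(mv 1101 (cons (fin 1100 1 1036)
(mv 1102 (cons (fin 1041 1 1037)
(mv 911 (cons (fin 847 5 846)
(mv 1166 (cons (fin 1103 5 910)
(fin 974 6 910))))))))))))))
(cons (mv 1100 (cons (fin 1101 1 1036)
(mv 1036 (cons (fin 1099 1 1035)
(mv 1104 (cons (fin 1103 0 1036)
(fin 1105 0 1037)))))))
(cons (mv 976 (cons (fin 977 2 973)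
(mv 975 (cons (fin 1036 2 972)
(mv 1104 (cons (fin 1105 0 1037)
(mv 911 (cons (fin 1168 7 911)
(fin 847 4 847)))))))))
(mv 976 (cons (fin 977 2 973)
(mv 1101 (cons (fin 1100 1 1036)
(mv 1041 (cons (fin 1102 1 1037)
(mv 1105 (cons (fin 1104 0 1037)
(fin 1106 0 1038)))))))))))))
(mv 1037 (cons (cons (mv 972 (cons (fin 973 3 972)
(mv 971 (cons (fin 1036 3 971)
(mv 977 (cons (fin 976 2 973)
(mv 1041 (cons (fin 978 2 974)
(mv 1105 (cons (fin 1104 0 1037)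
(fin 1106 0 1038)))))))))))
(mv 972 (cons (fin 973 3 972)
(mv 1036 (cons (fin 971 3 971)
(mv 1104 (cons (fin 1103 0 1036)
(fin 1105 0 1037))))))))
(cons (mv 972 (cons (fin 973 3 972)
(mv 976 (cons (fin 977 2 973)
(mv 1036 (cons (fin 971 3 971)
(fin 975 2 972)))))))
(cons (mv 976 (cons (fin 977 2 973)
(mv 975 (cons (fin 1036 2 972)
(mv 1104 (cons (fin 1105 0 1037)
(mv 911 (cons (fin 1168 7 911)
(fin 847 4 847)))))))))
(mv 972 (cons (fin 973 3 972)
(mv 977 (cons (fin 976 2 973)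
(mv 1041 (cons (fin 978 2 974)
(mv 1105 (cons (fin 1104 0 1037)
(fin 1106 0 1038))))))))))))))
(cons (mv 1037 (cons (cons (mv 972 (cons (fin 973 3 972)
(mv 971 (cons (fin 1036 3 971)
(mv 1101 (cons (fin 1100 1 1036)
(mv 1041 (cons (fin 1102 1 1037)
(mv 1105 (cons (fin 1104 0 1037)
(fin 1106 0 1038)))))))))))
(mv 1100 (cons (fin 1101 1 1036)
(mv 1036 (cons (fin 1099 1 1035)
(mv 1104 (cons (fin 1103 0 1036)
(fin 1105 0 1037))))))))
(cons (mv 972 (cons (fin 973 3 972)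
(mv 1036 (cons (fin 971 3 971)
(mv 1104 (cons (fin 1103 0 1036)
(fin 1105 0 1037)))))))
(cons (mv 972 (cons (fin 973 3 972)
(mv 1036 (cons (fin 971 3 971)
(mv 1100 (cons (fin 1099 1 1035)
(fin 1101 1 1036)))))))
(mv 972 (cons (fin 973 3 972)
(mv 1101 (cons (fin 1100 1 1036)
(mv 1041 (cons (fin 1102 1 1037)
(mv 1105 (cons (fin 1104 0 1037)
(fin 1106 0 1038)))))))))))))
(mv 1037 (cons (cons (mv 972 (cons (fin 973 3 972)
(mv 971 (cons (fin 1036 3 971)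
(mv 977 (cons (fin 976 2 973)
(mv 1041 (cons (fin 978 2 974)
(mv 1101 (cons (fin 1100 1 1036)
(fin 1102 1 1037)))))))))))
(mv 976 (cons (fin 977 2 973)
(mv 975 (cons (fin 1036 2 972)
(mv 1101 (cons (fin 1100 1 1036)
(mv 1102 (cons (fin 1041 1 1037)
(mv 911 (cons (fin 847 5 846)
(mv 1166 (cons (fin 1103 5 910)
(fin 974 6 910))))))))))))))
(cons (mv 972 (cons (fin 973 3 972)
(mv 976 (cons (fin 977 2 973)
(mv 1036 (cons (fin 971 3 971)
(fin 975 2 972)))))))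
(cons (mv 972 (cons (fin 973 3 972)
(mv 1036 (cons (fin 971 3 971)
(mv 1100 (cons (fin 1099 1 1035)
(fin 1101 1 1036)))))))
(mv 972 (cons (fin 973 3 972)
(mv 977 (cons (fin 976 2 973)
(mv 1041 (cons (fin 978 2 974)
(mv 1101 (cons (fin 1100 1 1036)
(fin 1102 1 1037)))))))))))))))))
(mv 1038 (cons (cons (mv 1037 (cons (cons (mv 972 (cons (fin 973 3 972)
(mv 971 (cons (fin 1036 3 971)
(mv 976 (cons (fin 977 2 973)
(mv 1101 (cons (fin 1100 1 1036)
(mv 1041 (cons (fin 1102 1 1037)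
(mv 1105 (cons (fin 1104 0 1037)
(fin 1106 0 1038)))))))))))))
(cons (mv 972 (cons (fin 973 3 972)
(mv 971 (cons (fin 1036 3 971)
(mv 976 (cons (fin 977 2 973)
(mv 1101 (cons (fin 1100 1 1036)
(mv 1041 (cons (fin 1102 1 1037)
(mv 1106 (cons (fin 1105 0 1038)
(mv 1042 (cons (fin 1107 0 1039)
(mv 979 (cons (fin 978 2 975)
(mv 1043 (cons (fin 975 3 975)
(fin 980 2 976)))))))))))))))))))
(mv 972 (cons (fin 973 3 972)
(mv 971 (cons (fin 1036 3 971)
(mv 1101 (cons (fin 1100 1 1036)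
(mv 1041 (cons (fin 1102 1 1037)
(mv 1105 (cons (fin 1104 0 1037)
(fin 1106 0 1038)))))))))))))
(cons (cons (mv 972 (cons (fin 973 3 972)
(mv 971 (cons (fin 1036 3 971)
(mv 977 (cons (fin 976 2 973)
(mv 1041 (cons (fin 978 2 974)
(mv 1105 (cons (fin 1104 0 1037)
(fin 1106 0 1038)))))))))))
(mv 972 (cons (fin 973 3 972)
(mv 971 (cons (fin 1036 3 971)
(mv 977 (cons (fin 976 2 973)
(mv 1041 (cons (fin 978 2 974)
(mv 1101 (cons (fin 1100 1 1036)
(fin 1102 1 1037))))))))))))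
(cons (mv 976 (cons (fin 977 2 973)
(mv 975 (cons (fin 1036 2 972)
(mv 1100 (cons (fin 1101 1 1036)
(mv 1104 (cons (fin 1105 0 1037)
(mv 911 (cons (fin 1168 7 911)
(fin 847 4 847)))))))))))
(mv 972 (cons (fin 973 3 972)
(mv 976 (cons (fin 977 2 973)
(mv 1101 (cons (fin 1100 1 1036)
(mv 1041 (cons (fin 1102 1 1037)
(mv 1105 (cons (fin 1104 0 1037)
(fin 1106 0 1038)))))))))))))))
(cons (mv 1041 (cons (cons (mv 977 (cons (fin 978 2 974)
(mv 1102 (cons (fin 1101 1 1037)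
(mv 1042 (cons (fin 1103 1 1038)
(mv 1106 (cons (fin 1105 0 1038)
(fin 1107 0 1039)))))))))
(mv 978 (cons (fin 977 2 974)
(mv 1042 (cons (fin 979 2 975)
(mv 1106 (cons (fin 1105 0 1038)
(fin 1107 0 1039))))))))
(cons (mv 1102 (cons (fin 1101 1 1037)
(mv 1042 (cons (fin 1103 1 1038)
(mv 1106 (cons (fin 1105 0 1038)
(fin 1107 0 1039)))))))
(cons (mv 978 (cons (fin 977 2 974)
(mv 1042 (cons (fin 979 2 975)
(mv 1102 (cons (fin 1101 1 1037)
(fin 1103 1 1038)))))))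
(mv 977 (cons (fin 978 2 974)
(mv 1101 (cons (fin 1102 1 1037)
(mv 1105 (cons (fin 1106 0 1038)
(mv 913 (cons (mv 1104 (cons (fin 849 5 848)
(fin 1168 5 912)))
(cons (mv 848 (cons (fin 912 7 848)
(mv 849 (cons (fin 784 7 784)
(mv 850 (cons (fin 786 6 785)
(fin 914 6 849)))))))
(mv 848 (cons (fin 912 7 848)
(mv 850 (cons (fin 914 6 849)
(mv 1168 (cons (fin 1104 5 912)
(mv 1169 (cons (fin 1232 5 976)
(mv 1233 (cons (fin 976 7 976)
(mv 1234 (cons (fin 1170 4 977)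
(fin 1298 4 1041))))))))))))))))))))))))))
(mv 1037 (cons (cons (mv 972 (cons (fin 973 3 972)
(mv 976 (cons (fin 977 2 973)
(mv 1036 (cons (fin 971 3 971)
(fin 975 2 972)))))))
(mv 972 (cons (fin 973 3 972)
(mv 1036 (cons (fin 971 3 971)
(mv 1100 (cons (fin 1099 1 1035)
(fin 1101 1 1036))))))))
(cons (mv 976 (cons (fin 977 2 973)
(mv 975 (cons (fin 1036 2 972)
(mv 1100 (cons (fin 1101 1 1036)
(mv 1104 (cons (fin 1105 0 1037)
(mv 911 (cons (fin 1168 7 911)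
(fin 847 4 847)))))))))))
(mv 972 (cons (fin 973 3 972)
(mv 976 (cons (fin 977 2 973)
(mv 1100 (cons (fin 1101 1 1036)
(mv 1104 (cons (fin 1105 0 1037)
(mv 1168 (cons (mv 975 (cons (fin 911 7 911)
(fin 1232 7 975)))
(cons (mv 1167 (cons (fin 1231 5 975)
(mv 912 (cons (fin 1103 5 911)
(mv 847 (cons (fin 911 7 847)
(mv 848 (cons (fin 783 7 783)
(mv 849 (cons (fin 785 6 784)
(fin 913 6 848)))))))))))
(mv 975 (cons (fin 1232 7 975)
(mv 1167 (cons (fin 1231 5 975)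
(mv 912 (cons (fin 1103 5 911)
(mv 848 (cons (fin 784 5 783)
(mv 849 (cons (fin 785 6 784)
(fin 913 6 848)))))))))))))))))))))))))))
(cons (mv 1037 (cons (cons (mv 972 (cons (fin 973 3 972)
(mv 971 (cons (fin 1036 3 971)
(mv 977 (cons (fin 976 2 973)
(mv 1041 (cons (fin 978 2 974)
(mv 1101 (cons (fin 1100 1 1036)
(fin 1102 1 1037)))))))))))
(mv 972 (cons (fin 973 3 972)
(mv 1036 (cons (fin 971 3 971)
(mv 1100 (cons (fin 1099 1 1035)
(fin 1101 1 1036))))))))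
(cons (mv 972 (cons (fin 973 3 972)
(mv 976 (cons (fin 977 2 973)
(mv 1036 (cons (fin 971 3 971)
(fin 975 2 972)))))))
(cons (mv 976 (cons (fin 977 2 973)
(mv 975 (cons (fin 1036 2 972)
(mv 1101 (cons (fin 1100 1 1036)
(mv 1102 (cons (fin 1041 1 1037)
(mv 911 (cons (fin 847 5 846)
(mv 1166 (cons (fin 1103 5 910)
(fin 1230 6 974)))))))))))))
(mv 972 (cons (fin 973 3 972)
(mv 977 (cons (fin 976 2 973)
(mv 1041 (cons (fin 978 2 974)
(mv 1101 (cons (fin 1100 1 1036)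
(fin 1102 1 1037)))))))))))))
(cons (mv 1037 (cons (cons (mv 972 (cons (fin 973 3 972)
(mv 971 (cons (fin 1036 3 971)
(mv 1101 (cons (fin 1100 1 1036)
(mv 1041 (cons (fin 1102 1 1037)
(mv 1105 (cons (fin 1104 0 1037)
(fin 1106 0 1038)))))))))))
(mv 972 (cons (fin 973 3 972)
(mv 1036 (cons (fin 971 3 971)
(mv 1100 (cons (fin 1099 1 1035)
(fin 1101 1 1036))))))))
(cons (mv 972 (cons (fin 973 3 972)
(mv 1036 (cons (fin 971 3 971)
(mv 1104 (cons (fin 1103 0 1036)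
(fin 1105 0 1037)))))))
(cons (mv 1100 (cons (fin 1101 1 1036)
(mv 1036 (cons (fin 1099 1 1035)
(mv 1104 (cons (fin 1103 0 1036)
(fin 1105 0 1037)))))))
(mv 972 (cons (fin 973 3 972)
(mv 1101 (cons (fin 1100 1 1036)
(mv 1041 (cons (fin 1102 1 1037)
(mv 1105 (cons (fin 1104 0 1037)
(fin 1106 0 1038)))))))))))))
(mv 1037 (cons (cons (mv 972 (cons (fin 973 3 972)
(mv 971 (cons (fin 1036 3 971)
(mv 977 (cons (fin 976 2 973)
(mv 1041 (cons (fin 978 2 974)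
(mv 1105 (cons (fin 1104 0 1037)
(fin 1106 0 1038)))))))))))
(mv 972 (cons (fin 973 3 972)
(mv 976 (cons (fin 977 2 973)
(mv 1036 (cons (fin 971 3 971)
(fin 975 2 972))))))))
(cons (mv 972 (cons (fin 973 3 972)
(mv 1036 (cons (fin 971 3 971)
(mv 1104 (cons (fin 1103 0 1036)
(fin 1105 0 1037)))))))
(cons (mv 976 (cons (fin 977 2 973)
(mv 975 (cons (fin 1036 2 972)
(mv 1104 (cons (fin 1105 0 1037)
(mv 911 (cons (fin 1168 7 911)
(fin 847 4 847)))))))))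
(mv 972 (cons (fin 973 3 972)
(mv 977 (cons (fin 976 2 973)
(mv 1041 (cons (fin 978 2 974)
(mv 1105 (cons (fin 1104 0 1037)
(fin 1106 0 1038)))))))))))))))))))))
(cons (cons (cons (mv 1038 (cons (cons (mv 1037 (cons (cons (mv 972 (cons (fin 973 3 972)
(mv 971 (cons (fin 1036 3 971)
(mv 977 (cons (fin 976 2 973)
(mv 1041 (cons (fin 978 2 974)
(mv 1105 (cons (fin 1104 0 1037)
(fin 1106 0 1038)))))))))))
(mv 972 (cons (fin 973 3 972)
(mv 1036 (cons (fin 971 3 971)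
(mv 1100 (cons (fin 1099 1 1035)
(fin 1101 1 1036))))))))
(cons (mv 976 (cons (fin 977 2 973)
(mv 975 (cons (fin 1036 2 972)
(mv 1100 (cons (fin 1101 1 1036)
(mv 1104 (cons (fin 1105 0 1037)
(mv 911 (cons (fin 1168 7 911)
(fin 847 4 847)))))))))))
(mv 972 (cons (fin 973 3 972)
(mv 977 (cons (fin 976 2 973)
(mv 1041 (cons (fin 978 2 974)
(mv 1105 (cons (fin 1104 0 1037)
(fin 1106 0 1038))))))))))))
(cons (mv 1041 (cons (cons (mv 973 (cons (fin 974 3 973)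
(mv 978 (cons (fin 977 2 974)
(mv 1042 (cons (fin 979 2 975)
(mv 1106 (cons (fin 1105 0 1038)
(fin 1107 0 1039)))))))))
(mv 978 (cons (fin 977 2 974)
(mv 1042 (cons (fin 979 2 975)
(mv 1106 (cons (fin 1105 0 1038)
(fin 1107 0 1039))))))))
(cons (mv 974 (cons (fin 973 3 973)
(mv 1042 (cons (fin 975 3 974)
(mv 1106 (cons (fin 1105 0 1038)
(fin 1107 0 1039)))))))
(cons (mv 974 (cons (fin 973 3 973)
(mv 978 (cons (fin 977 2 974)
(mv 1042 (cons (fin 975 3 974)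
(fin 979 2 975)))))))
(mv 973 (cons (fin 974 3 973)
(mv 977 (cons (fin 978 2 974)
(mv 1105 (cons (fin 1106 0 1038)
(mv 913 (cons (mv 1104 (cons (fin 849 5 848)
(fin 1168 5 912)))
(cons (mv 848 (cons (fin 912 7 848)
(mv 849 (cons (fin 784 7 784)
(mv 850 (cons (fin 786 6 785)
(fin 914 6 849)))))))
(mv 848 (cons (fin 912 7 848)
(mv 850 (cons (fin 914 6 849)
(mv 1168 (cons (fin 1104 5 912)
(mv 1169 (cons (fin 1232 5 976)
(mv 1233 (cons (fin 976 7 976)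
(mv 1234 (cons (fin 1170 4 977)
(fin 1298 4 1041))))))))))))))))))))))))))
(mv 1037 (cons (cons (mv 972 (cons (fin 973 3 972)
(mv 976 (cons (fin 977 2 973)
(mv 1036 (cons (fin 971 3 971)
(fin 975 2 972)))))))
(mv 972 (cons (fin 973 3 972)
(mv 1036 (cons (fin 971 3 971)
(mv 1100 (cons (fin 1099 1 1035)
(fin 1101 1 1036))))))))
(cons (mv 976 (cons (fin 977 2 973)
(mv 975 (cons (fin 1036 2 972)
(mv 1100 (cons (fin 1101 1 1036)
(mv 1104 (cons (fin 1105 0 1037)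
(mv 911 (cons (fin 1168 7 911)
(fin 847 4 847)))))))))))
(mv 972 (cons (fin 973 3 972)
(mv 976 (cons (fin 977 2 973)
(mv 1100 (cons (fin 1101 1 1036)
(mv 1104 (cons (fin 1105 0 1037)
(mv 912 (cons (mv 1103 (cons (fin 848 5 847)
(fin 1167 5 911)))
(cons (mv 847 (cons (fin 911 7 847)
(mv 848 (cons (fin 783 7 783)
(mv 849 (cons (fin 785 6 784)
(fin 913 6 848)))))))
(mv 847 (cons (fin 911 7 847)
(mv 849 (cons (fin 913 6 848)
(mv 1167 (cons (fin 1103 5 911)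
(mv 1168 (cons (fin 1231 5 975)
(mv 1232 (cons (fin 975 7 975)
(mv 1233 (cons (fin 1169 4 976)
(fin 1297 4 1040)))))))))))))))))))))))))))))
(cons (mv 1037 (cons (cons (mv 972 (cons (fin 973 3 972)
(mv 1036 (cons (fin 971 3 971)
(mv 1100 (cons (fin 1099 1 1035)
(fin 1101 1 1036)))))))
(mv 1100 (cons (fin 1101 1 1036)
(mv 1036 (cons (fin 1099 1 1035)
(mv 1104 (cons (fin 1103 0 1036)
(fin 1105 0 1037))))))))
(cons (mv 972 (cons (fin 973 3 972)
(mv 1036 (cons (fin 971 3 971)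
(mv 1104 (cons (fin 1103 0 1036)
(fin 1105 0 1037)))))))
(mv 973 (cons (fin 972 3 972)
(mv 974 (cons (fin 1041 3 973)
(mv 1101 (cons (fin 1100 1 1036)
(mv 910 (cons (fin 846 5 845)
(fin 1165 6 909))))))))))))
(cons (mv 1037 (cons (cons (mv 972 (cons (fin 973 3 972)
(mv 976 (cons (fin 977 2 973)
(mv 1036 (cons (fin 971 3 971)
(fin 975 2 972)))))))
(mv 972 (cons (fin 973 3 972)
(mv 1036 (cons (fin 971 3 971)
(mv 1100 (cons (fin 1099 1 1035)
(fin 1101 1 1036))))))))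
(cons (mv 976 (cons (fin 977 2 973)
(mv 1036 (cons (fin 975 2 972)
(mv 1100 (cons (fin 1099 1 1035)
(fin 1101 1 1036)))))))
(mv 973 (cons (fin 972 3 972)
(mv 974 (cons (fin 1041 3 973)
(mv 976 (cons (fin 977 2 973)
(mv 1101 (cons (fin 1100 1 1036)
(mv 910 (cons (fin 846 5 845)
(fin 1165 6 909))))))))))))))
(mv 1037 (cons (cons (mv 976 (cons (fin 977 2 973)
(mv 975 (cons (fin 1036 2 972)
(mv 1100 (cons (fin 1101 1 1036)
(mv 1104 (cons (fin 1105 0 1037)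
(mv 911 (cons (fin 1168 7 911)
(fin 847 4 847)))))))))))
(mv 1100 (cons (fin 1101 1 1036)
(mv 1036 (cons (fin 1099 1 1035)
(mv 1104 (cons (fin 1103 0 1036)
(fin 1105 0 1037))))))))
(cons (mv 976 (cons (fin 977 2 973)
(mv 1036 (cons (fin 975 2 972)
(mv 1100 (cons (fin 1099 1 1035)
(fin 1101 1 1036)))))))
(cons (mv 976 (cons (fin 977 2 973)
(mv 975 (cons (fin 1036 2 972)
(mv 1104 (cons (fin 1105 0 1037)
(mv 911 (cons (fin 1168 7 911)
(fin 847 4 847)))))))))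
(mv 977 (cons (fin 976 2 973)
(mv 1041 (cons (fin 978 2 974)
(mv 1105 (cons (fin 1104 0 1037)
(fin 1106 0 1038)))))))))))))))
(mv 1041 (cons (cons (mv 1042 (cons (cons (mv 974 (cons (fin 975 3 974)
(mv 973 (cons (fin 1038 3 973)
(mv 978 (cons (fin 979 2 975)
(mv 1103 (cons (fin 1102 1 1038)
(mv 1043 (cons (fin 1104 1 1039)
(mv 1107 (cons (fin 1106 0 1039)
(fin 1108 0 1040)))))))))))))
(cons (mv 974 (cons (fin 975 3 974)
(mv 973 (cons (fin 1038 3 973)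
(mv 979 (cons (fin 978 2 975)
(mv 1043 (cons (fin 980 2 976)
(mv 1107 (cons (fin 1106 0 1039)
(fin 1108 0 1040)))))))))))
(mv 978 (cons (fin 979 2 975)
(mv 1102 (cons (fin 1103 1 1038)
(mv 1038 (cons (fin 1101 1 1037)
(mv 1106 (cons (fin 1105 0 1038)
(fin 1107 0 1039)))))))))))
(cons (mv 974 (cons (fin 975 3 974)
(mv 973 (cons (fin 1038 3 973)
(mv 979 (cons (fin 978 2 975)
(mv 1043 (cons (fin 980 2 976)
(mv 1103 (cons (fin 1102 1 1038)
(fin 1104 1 1039)))))))))))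
(cons (mv 974 (cons (fin 975 3 974)
(mv 973 (cons (fin 1038 3 973)
(mv 1103 (cons (fin 1102 1 1038)
(mv 1043 (cons (fin 1104 1 1039)
(mv 1107 (cons (fin 1106 0 1039)
(fin 1108 0 1040)))))))))))
(mv 974 (cons (fin 975 3 974)
(mv 978 (cons (fin 979 2 975)
(mv 1103 (cons (fin 1102 1 1038)
(mv 1043 (cons (fin 1104 1 1039)
(mv 1107 (cons (fin 1106 0 1039)
(fin 1108 0 1040)))))))))))))))
(cons (mv 1038 (cons (cons (mv 973 (cons (fin 974 3 973)
(mv 1037 (cons (fin 972 3 972)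
(mv 1101 (cons (fin 1100 1 1036)
(fin 1102 1 1037)))))))
(mv 1101 (cons (fin 1102 1 1037)
(mv 1037 (cons (fin 1100 1 1036)
(mv 1105 (cons (fin 1104 0 1037)
(fin 1106 0 1038))))))))
(cons (mv 973 (cons (fin 974 3 973)
(mv 1037 (cons (fin 972 3 972)
(mv 1105 (cons (fin 1104 0 1037)
(fin 1106 0 1038)))))))
(mv 974 (cons (fin 973 3 973)
(mv 1102 (cons (fin 1101 1 1037)
(mv 1105 (cons (fin 1106 0 1038)
(mv 1166 (cons (mv 975 (cons (fin 911 6 910)
(fin 1230 6 974)))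
(mv 1165 (cons (fin 1229 5 973)
(mv 1103 (cons (fin 1104 1 1101)
(mv 910 (cons (fin 846 4 846)
(fin 1167 4 910))))))))))))))))))
(mv 1042 (cons (cons (mv 974 (cons (fin 975 3 974)
(mv 978 (cons (fin 979 2 975)
(mv 1103 (cons (fin 1102 1 1038)
(mv 1043 (cons (fin 1104 1 1039)
(mv 1107 (cons (fin 1106 0 1039)
(fin 1108 0 1040)))))))))))
(cons (mv 974 (cons (fin 975 3 974)
(mv 979 (cons (fin 978 2 975)
(mv 1043 (cons (fin 980 2 976)
(mv 1107 (cons (fin 1106 0 1039)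
(fin 1108 0 1040)))))))))
(mv 978 (cons (fin 979 2 975)
(mv 1103 (cons (fin 1102 1 1038)
(mv 1043 (cons (fin 1104 1 1039)
(mv 1107 (cons (fin 1106 0 1039)
(fin 1108 0 1040)))))))))))
(cons (mv 974 (cons (fin 975 3 974)
(mv 979 (cons (fin 978 2 975)
(mv 1043 (cons (fin 980 2 976)
(mv 1103 (cons (fin 1102 1 1038)
(fin 1104 1 1039)))))))))
(cons (mv 974 (cons (fin 975 3 974)
(mv 1103 (cons (fin 1102 1 1038)
(mv 1043 (cons (fin 1104 1 1039)
(mv 1107 (cons (fin 1106 0 1039)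
(fin 1108 0 1040)))))))))
(mv 974 (cons (fin 975 3 974)
(mv 978 (cons (fin 979 2 975)
(mv 1102 (cons (fin 1103 1 1038)
(mv 1106 (cons (fin 1107 0 1039)
(mv 914 (cons (mv 1105 (cons (fin 850 5 849)
(fin 1169 5 913)))
(cons (mv 849 (cons (fin 913 7 849)
(mv 850 (cons (fin 785 7 785)
(mv 851 (cons (fin 787 6 786)
(fin 915 6 850)))))))
(mv 849 (cons (fin 913 7 849)
(mv 851 (cons (fin 915 6 850)
(mv 1170 (cons (cons (mv 1169 (cons (fin 1105 5 913)
(fin 1233 5 977)))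
(mv 1235 (cons (fin 1171 4 978)
(mv 1234 (cons (fin 1299 4 1042)
(mv 1297 (cons (fin 1233 5 1041)
(mv 1298 (cons (fin 1105 7 1041)
(fin 1361 5 1105))))))))))
(cons (mv 1233 (cons (fin 1169 5 977)
(mv 1234 (cons (fin 1297 5 1041)
(mv 1235 (cons (fin 1171 4 978)
(fin 1299 4 1042)))))))
(mv 1105 (cons (fin 1169 5 913)
(mv 1234 (cons (fin 1298 7 1041)
(mv 1235 (cons (fin 1171 4 978)
(fin 1299 4 1042)))))))))))))))))))))))))))))))
(cons (mv 1042 (cons (cons (mv 974 (cons (fin 975 3 974)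
(mv 973 (cons (fin 1038 3 973)
(mv 979 (cons (fin 978 2 975)
(mv 1043 (cons (fin 980 2 976)
(mv 1107 (cons (fin 1106 0 1039)
(fin 1108 0 1040)))))))))))
(mv 978 (cons (fin 979 2 975)
(mv 1106 (cons (fin 1107 0 1039)
(mv 1105 (cons (fin 1038 0 1038)
(mv 914 (cons (fin 850 5 849)
(fin 1169 5 913))))))))))
(cons (mv 975 (cons (fin 974 3 974)
(mv 979 (cons (fin 978 2 975)
(mv 1043 (cons (fin 976 3 975)
(fin 980 2 976)))))))
(mv 974 (cons (fin 975 3 974)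
(mv 1038 (cons (fin 973 3 973)
(mv 1106 (cons (fin 1105 0 1038)
(fin 1107 0 1039))))))))))
(cons (mv 1042 (cons (cons (mv 978 (cons (fin 979 2 975)
(mv 1102 (cons (fin 1103 1 1038)
(mv 1038 (cons (fin 1101 1 1037)
(mv 1106 (cons (fin 1105 0 1038)
(fin 1107 0 1039)))))))))
(mv 978 (cons (fin 979 2 975)
(mv 1106 (cons (fin 1107 0 1039)
(mv 1105 (cons (fin 1038 0 1038)
(mv 914 (cons (fin 850 5 849)
(fin 1169 5 913))))))))))
(cons (mv 979 (cons (fin 978 2 975)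
(mv 1043 (cons (fin 980 2 976)
(mv 1103 (cons (fin 1102 1 1038)
(fin 1104 1 1039)))))))
(mv 1102 (cons (fin 1103 1 1038)
(mv 1038 (cons (fin 1101 1 1037)
(mv 1106 (cons (fin 1105 0 1038)
(fin 1107 0 1039))))))))))
(mv 1042 (cons (cons (mv 974 (cons (fin 975 3 974)
(mv 973 (cons (fin 1038 3 973)
(mv 979 (cons (fin 978 2 975)
(mv 1043 (cons (fin 980 2 976)
(mv 1103 (cons (fin 1102 1 1038)
(fin 1104 1 1039)))))))))))
(mv 975 (cons (fin 974 3 974)
(mv 979 (cons (fin 978 2 975)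
(mv 1043 (cons (fin 976 3 975)
(fin 980 2 976))))))))
(cons (mv 979 (cons (fin 978 2 975)
(mv 1043 (cons (fin 980 2 976)
(mv 1103 (cons (fin 1102 1 1038)
(fin 1104 1 1039)))))))
(mv 974 (cons (fin 975 3 974)
(mv 1038 (cons (fin 973 3 973)
(mv 1102 (cons (fin 1101 1 1037)
(fin 1103 1 1038)))))))))))))))
(cons (mv 1041 (cons (cons (mv 1042 (cons (cons (mv 974 (cons (fin 975 3 974)
(mv 973 (cons (fin 1038 3 973)
(mv 978 (cons (fin 979 2 975)
(mv 1103 (cons (fin 1102 1 1038)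
(mv 1043 (cons (fin 1104 1 1039)
(mv 1107 (cons (fin 1106 0 1039)
(fin 1108 0 1040)))))))))))))
(cons (mv 978 (cons (fin 979 2 975)
(mv 977 (cons (fin 1038 2 974)
(mv 1102 (cons (fin 1103 1 1038)
(mv 1106 (cons (fin 1107 0 1039)
(mv 913 (cons (fin 1170 7 913)
(fin 849 4 849)))))))))))
(mv 974 (cons (fin 975 3 974)
(mv 973 (cons (fin 1038 3 973)
(mv 979 (cons (fin 978 2 975)
(mv 1043 (cons (fin 980 2 976)
(mv 1107 (cons (fin 1106 0 1039)
(fin 1108 0 1040)))))))))))))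
(cons (mv 974 (cons (fin 975 3 974)
(mv 973 (cons (fin 1038 3 973)
(mv 1103 (cons (fin 1102 1 1038)
(mv 1043 (cons (fin 1104 1 1039)
(mv 1107 (cons (fin 1106 0 1039)
(fin 1108 0 1040)))))))))))
(cons (mv 974 (cons (fin 975 3 974)
(mv 973 (cons (fin 1038 3 973)
(mv 979 (cons (fin 978 2 975)
(mv 1043 (cons (fin 980 2 976)
(mv 1103 (cons (fin 1102 1 1038)
(fin 1104 1 1039)))))))))))
(mv 974 (cons (fin 975 3 974)
(mv 978 (cons (fin 979 2 975)
(mv 1103 (cons (fin 1102 1 1038)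
(mv 1043 (cons (fin 1104 1 1039)
(mv 1107 (cons (fin 1106 0 1039)
(fin 1108 0 1040)))))))))))))))
(cons (mv 1038 (cons (cons (mv 973 (cons (fin 974 3 973)
(mv 977 (cons (fin 978 2 974)
(mv 1037 (cons (fin 972 3 972)
(fin 976 2 973)))))))
(mv 973 (cons (fin 974 3 973)
(mv 1037 (cons (fin 972 3 972)
(mv 1101 (cons (fin 1100 1 1036)
(fin 1102 1 1037))))))))
(cons (mv 977 (cons (fin 978 2 974)
(mv 1037 (cons (fin 976 2 973)
(mv 1101 (cons (fin 1100 1 1036)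
(fin 1102 1 1037)))))))
(mv 974 (cons (fin 973 3 973)
(mv 977 (cons (fin 978 2 974)
(mv 1102 (cons (fin 1101 1 1037)
(mv 910 (cons (cons (mv 1103 (cons (fin 846 4 846)
(fin 1167 4 910)))
(mv 845 (cons (fin 909 7 845)
(mv 781 (cons (fin 846 7 781)
(mv 911 (cons (fin 847 6 846)
(mv 1166 (cons (fin 975 6 910)
(mv 1167 (cons (fin 1231 4 974)
(mv 1229 (cons (fin 1165 5 973)
(mv 1230 (cons (fin 1293 5 1037)
(mv 1168 (cons (fin 1169 1 1165)
(mv 1104 (cons (fin 1232 6 976)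
(mv 913 (cons (fin 849 5 848)
(fin 976 6 912))))))))))))))))))))))
(cons (mv 845 (cons (fin 909 7 845)
(mv 847 (cons (fin 911 6 846)
(mv 1167 (cons (fin 1103 4 910)
(mv 1166 (cons (fin 1231 4 974)
(mv 1229 (cons (fin 1165 5 973)
(mv 1230 (cons (fin 1293 5 1037)
(fin 975 6 974)))))))))))))
(mv 845 (cons (fin 909 7 845)
(mv 846 (cons (fin 781 7 781)
(fin 1103 4 846)))))))))))))))))
(mv 1042 (cons (cons (mv 974 (cons (fin 975 3 974)
(mv 978 (cons (fin 979 2 975)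
(mv 1103 (cons (fin 1102 1 1038)
(mv 1043 (cons (fin 1104 1 1039)
(mv 1107 (cons (fin 1106 0 1039)
(fin 1108 0 1040)))))))))))
(cons (mv 978 (cons (fin 979 2 975)
(mv 1103 (cons (fin 1102 1 1038)
(mv 1043 (cons (fin 1104 1 1039)
(mv 1107 (cons (fin 1106 0 1039)
(fin 1108 0 1040)))))))))
(mv 974 (cons (fin 975 3 974)
(mv 979 (cons (fin 978 2 975)
(mv 1043 (cons (fin 980 2 976)
(mv 1107 (cons (fin 1106 0 1039)
(fin 1108 0 1040)))))))))))
(cons (mv 974 (cons (fin 975 3 974)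
(mv 1103 (cons (fin 1102 1 1038)
(mv 1043 (cons (fin 1104 1 1039)
(mv 1107 (cons (fin 1106 0 1039)
(fin 1108 0 1040)))))))))
(cons (mv 974 (cons (fin 975 3 974)
(mv 979 (cons (fin 978 2 975)
(mv 1043 (cons (fin 980 2 976)
(mv 1103 (cons (fin 1102 1 1038)
(fin 1104 1 1039)))))))))
(mv 974 (cons (fin 975 3 974)
(mv 978 (cons (fin 979 2 975)
(mv 1102 (cons (fin 1103 1 1038)
(mv 1106 (cons (fin 1107 0 1039)
(mv 1170 (cons (mv 977 (cons (fin 913 7 913)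
(fin 1234 7 977)))
(cons (mv 1233 (cons (fin 1169 5 977)
(mv 1234 (cons (fin 1297 5 1041)
(mv 1235 (cons (fin 1171 4 978)
(fin 1299 4 1042)))))))
(mv 1169 (cons (fin 1233 5 977)
(mv 1171 (cons (fin 1235 4 978)
(mv 914 (cons (cons (mv 913 (cons (fin 849 7 849)
(fin 977 7 913)))
(mv 851 (cons (fin 915 6 850)
(mv 850 (cons (fin 787 6 786)
(mv 785 (cons (fin 849 7 785)
(mv 786 (cons (fin 721 7 721)
(fin 977 5 785))))))))))
(cons (mv 849 (cons (fin 913 7 849)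
(mv 850 (cons (fin 785 7 785)
(mv 851 (cons (fin 787 6 786)
(fin 915 6 850)))))))
(mv 851 (cons (fin 915 6 850)
(mv 850 (cons (fin 787 6 786)
(mv 977 (cons (fin 913 7 913)
(fin 786 5 785)))))))))))))))))))))))))))))))
(cons (mv 1042 (cons (cons (mv 978 (cons (fin 979 2 975)
(mv 977 (cons (fin 1038 2 974)
(mv 1102 (cons (fin 1103 1 1038)
(mv 1106 (cons (fin 1107 0 1039)
(mv 913 (cons (fin 1170 7 913)
(fin 849 4 849)))))))))))
(mv 978 (cons (fin 979 2 975)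
(mv 977 (cons (fin 1038 2 974)
(mv 1106 (cons (fin 1107 0 1039)
(mv 913 (cons (fin 1170 7 913)
(fin 849 4 849))))))))))
(cons (mv 1103 (cons (fin 1102 1 1038)
(mv 1043 (cons (fin 1104 1 1039)
(mv 1107 (cons (fin 1106 0 1039)
(fin 1108 0 1040)))))))
(mv 978 (cons (fin 979 2 975)
(mv 977 (cons (fin 1038 2 974)
(mv 1103 (cons (fin 1102 1 1038)
(mv 1104 (cons (fin 1043 1 1039)
(mv 913 (cons (fin 849 5 848)
(mv 1168 (cons (fin 976 6 912)
(fin 1232 6 976))))))))))))))))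
(cons (mv 1042 (cons (cons (mv 974 (cons (fin 975 3 974)
(mv 973 (cons (fin 1038 3 973)
(mv 979 (cons (fin 978 2 975)
(mv 1043 (cons (fin 980 2 976)
(mv 1107 (cons (fin 1106 0 1039)
(fin 1108 0 1040)))))))))))
(mv 978 (cons (fin 979 2 975)
(mv 977 (cons (fin 1038 2 974)
(mv 1106 (cons (fin 1107 0 1039)
(mv 913 (cons (fin 1170 7 913)
(fin 849 4 849))))))))))
(cons (mv 975 (cons (fin 974 3 974)
(mv 1043 (cons (fin 976 3 975)
(mv 1107 (cons (fin 1106 0 1039)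
(fin 1108 0 1040)))))))
(mv 974 (cons (fin 975 3 974)
(mv 978 (cons (fin 979 2 975)
(mv 1038 (cons (fin 973 3 973)
(fin 977 2 974))))))))))
(mv 1042 (cons (cons (mv 974 (cons (fin 975 3 974)
(mv 973 (cons (fin 1038 3 973)
(mv 1103 (cons (fin 1102 1 1038)
(mv 1043 (cons (fin 1104 1 1039)
(mv 1107 (cons (fin 1106 0 1039)
(fin 1108 0 1040)))))))))))
(mv 1103 (cons (fin 1102 1 1038)
(mv 1043 (cons (fin 1104 1 1039)
(mv 1107 (cons (fin 1106 0 1039)
(fin 1108 0 1040))))))))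
(cons (mv 975 (cons (fin 974 3 974)
(mv 1043 (cons (fin 976 3 975)
(mv 1107 (cons (fin 1106 0 1039)
(fin 1108 0 1040)))))))
(mv 974 (cons (fin 975 3 974)
(mv 1038 (cons (fin 973 3 973)
(mv 1102 (cons (fin 1101 1 1037)
(fin 1103 1 1038))))))))))))))
(cons (mv 1041 (cons (cons (cons (mv 1042 (cons (cons (mv 974 (cons (fin 975 3 974)
(mv 978 (cons (fin 979 2 975)
(mv 977 (cons (fin 1038 2 974)
(mv 1102 (cons (fin 1103 1 1038)
(mv 1106 (cons (fin 1107 0 1039)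
(mv 913 (cons (fin 1170 7 913)
(fin 849 4 849)))))))))))))
(cons (mv 974 (cons (fin 975 3 974)
(mv 978 (cons (fin 979 2 975)
(mv 977 (cons (fin 1038 2 974)
(mv 1106 (cons (fin 1107 0 1039)
(mv 913 (cons (fin 1170 7 913)
(fin 849 4 849)))))))))))
(mv 974 (cons (fin 975 3 974)
(mv 1102 (cons (fin 1103 1 1038)
(mv 1038 (cons (fin 1101 1 1037)
(mv 1106 (cons (fin 1105 0 1038)
(fin 1107 0 1039)))))))))))
(cons (mv 974 (cons (fin 975 3 974)
(mv 978 (cons (fin 979 2 975)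
(mv 977 (cons (fin 1038 2 974)
(mv 1103 (cons (fin 1102 1 1038)
(mv 1104 (cons (fin 1043 1 1039)
(mv 913 (cons (fin 849 5 848)
(mv 1168 (cons (fin 1105 5 912)
(fin 976 6 912)))))))))))))))
(cons (mv 978 (cons (fin 979 2 975)
(mv 977 (cons (fin 1038 2 974)
(mv 1102 (cons (fin 1103 1 1038)
(mv 1106 (cons (fin 1107 0 1039)
(mv 913 (cons (fin 1170 7 913)
(fin 849 4 849)))))))))))
(mv 974 (cons (fin 975 3 974)
(mv 978 (cons (fin 979 2 975)
(mv 1103 (cons (fin 1102 1 1038)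
(mv 1043 (cons (fin 1104 1 1039)
(mv 1107 (cons (fin 1106 0 1039)
(fin 1108 0 1040)))))))))))))))
(mv 1038 (cons (cons (mv 977 (cons (fin 978 2 974)
(mv 976 (cons (fin 1037 2 973)
(mv 1101 (cons (fin 1102 1 1037)
(mv 1105 (cons (fin 1106 0 1038)
(mv 912 (cons (fin 1169 7 912)
(fin 848 4 848)))))))))))
(mv 1101 (cons (fin 1102 1 1037)
(mv 1037 (cons (fin 1100 1 1036)
(mv 1105 (cons (fin 1104 0 1037)
(fin 1106 0 1038))))))))
(cons (mv 977 (cons (fin 978 2 974)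
(mv 1037 (cons (fin 976 2 973)
(mv 1101 (cons (fin 1100 1 1036)
(fin 1102 1 1037)))))))
(cons (mv 977 (cons (fin 978 2 974)
(mv 976 (cons (fin 1037 2 973)
(mv 1105 (cons (fin 1106 0 1038)
(mv 912 (cons (fin 1169 7 912)
(fin 848 4 848)))))))))
(mv 977 (cons (fin 978 2 974)
(mv 1101 (cons (fin 1102 1 1037)
(mv 1105 (cons (fin 1106 0 1038)
(mv 913 (cons (mv 1104 (cons (fin 849 5 848)
(fin 1168 5 912)))
(cons (mv 848 (cons (fin 912 7 848)
(mv 849 (cons (fin 784 7 784)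
(mv 850 (cons (fin 786 6 785)
(fin 914 6 849)))))))
(mv 848 (cons (fin 912 7 848)
(mv 850 (cons (fin 914 6 849)
(mv 1168 (cons (fin 1104 5 912)
(mv 1169 (cons (fin 1232 5 976)
(mv 1233 (cons (fin 976 7 976)
(mv 1234 (cons (fin 1170 4 977)
(fin 1298 4 1041)))))))))))))))))))))))))))
(cons (mv 1042 (cons (cons (mv 974 (cons (fin 975 3 974)
(mv 978 (cons (fin 979 2 975)
(mv 1103 (cons (fin 1102 1 1038)
(mv 1043 (cons (fin 1104 1 1039)
(mv 1107 (cons (fin 1106 0 1039)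
(fin 1108 0 1040)))))))))))
(cons (mv 974 (cons (fin 975 3 974)
(mv 979 (cons (fin 978 2 975)
(mv 1043 (cons (fin 980 2 976)
(mv 1107 (cons (fin 1106 0 1039)
(fin 1108 0 1040)))))))))
(mv 978 (cons (fin 979 2 975)
(mv 1103 (cons (fin 1102 1 1038)
(mv 1043 (cons (fin 1104 1 1039)
(mv 1107 (cons (fin 1106 0 1039)
(fin 1108 0 1040)))))))))))
(cons (mv 974 (cons (fin 975 3 974)
(mv 1103 (cons (fin 1102 1 1038)
(mv 1043 (cons (fin 1104 1 1039)
(mv 1107 (cons (fin 1106 0 1039)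
(fin 1108 0 1040)))))))))
(cons (mv 974 (cons (fin 975 3 974)
(mv 979 (cons (fin 978 2 975)
(mv 1043 (cons (fin 980 2 976)
(mv 1103 (cons (fin 1102 1 1038)
(fin 1104 1 1039)))))))))
(mv 974 (cons (fin 975 3 974)
(mv 978 (cons (fin 979 2 975)
(mv 1102 (cons (fin 1103 1 1038)
(mv 1106 (cons (fin 1107 0 1039)
(mv 914 (cons (mv 1105 (cons (fin 850 5 849)
(fin 1169 5 913)))
(cons (mv 849 (cons (fin 913 7 849)
(mv 850 (cons (fin 785 7 785)
(mv 851 (cons (fin 787 6 786)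
(fin 915 6 850)))))))
(mv 849 (cons (fin 913 7 849)
(mv 851 (cons (fin 915 6 850)
(mv 1169 (cons (fin 1105 5 913)
(mv 1170 (cons (fin 1233 5 977)
(mv 1234 (cons (fin 977 7 977)
(mv 1235 (cons (fin 1171 4 978)
(fin 1299 4 1042))))))))))))))))))))))))))))
(mv 1042 (cons (cons (mv 974 (cons (fin 975 3 974)
(mv 1102 (cons (fin 1103 1 1038)
(mv 1038 (cons (fin 1101 1 1037)
(mv 1106 (cons (fin 1105 0 1038)
(fin 1107 0 1039)))))))))
(mv 975 (cons (fin 974 3 974)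
(mv 976 (cons (fin 1043 3 975)
(mv 1106 (cons (fin 1107 0 1039)
(mv 1038 (cons (fin 1105 0 1038)
(mv 1037 (cons (fin 1036 2 972)
(fin 977 2 973))))))))))))
(cons (mv 975 (cons (fin 974 3 974)
(mv 976 (cons (fin 1043 3 975)
(mv 1102 (cons (fin 1103 1 1038)
(mv 1038 (cons (fin 1101 1 1037)
(mv 1037 (cons (fin 1036 2 972)
(fin 977 2 973)))))))))))
(cons (mv 1102 (cons (fin 1103 1 1038)
(mv 1038 (cons (fin 1101 1 1037)
(mv 1106 (cons (fin 1105 0 1038)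
(fin 1107 0 1039)))))))
(mv 974 (cons (fin 975 3 974)
(mv 1103 (cons (fin 1102 1 1038)
(mv 1043 (cons (fin 1104 1 1039)
(mv 1107 (cons (fin 1106 0 1039)
(fin 1108 0 1040)))))))))))))))
(cons (cons (mv 1042 (cons (cons (mv 974 (cons (fin 975 3 974)
(mv 978 (cons (fin 979 2 975)
(mv 977 (cons (fin 1038 2 974)
(mv 1106 (cons (fin 1107 0 1039)
(mv 913 (cons (fin 1170 7 913)
(fin 849 4 849)))))))))))
(mv 975 (cons (fin 974 3 974)
(mv 976 (cons (fin 1043 3 975)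
(mv 1106 (cons (fin 1107 0 1039)
(mv 1038 (cons (fin 1105 0 1038)
(mv 1037 (cons (fin 1036 2 972)
(fin 977 2 973))))))))))))
(cons (mv 975 (cons (fin 974 3 974)
(mv 976 (cons (fin 1043 3 975)
(mv 978 (cons (fin 979 2 975)
(mv 977 (cons (fin 1038 1 974)
(mv 910 (cons (fin 911 3 910)
(mv 914 (cons (fin 915 2 911)
(mv 850 (cons (fin 786 5 785)
(fin 1105 5 849)))))))))))))))
(cons (mv 978 (cons (fin 979 2 975)
(mv 977 (cons (fin 1038 2 974)
(mv 1106 (cons (fin 1107 0 1039)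
(mv 913 (cons (fin 1170 7 913)
(fin 849 4 849)))))))))
(mv 974 (cons (fin 975 3 974)
(mv 979 (cons (fin 978 2 975)
(mv 1043 (cons (fin 980 2 976)
(mv 1107 (cons (fin 1106 0 1039)
(fin 1108 0 1040)))))))))))))
(mv 1042 (cons (cons (mv 974 (cons (fin 975 3 974)
(mv 978 (cons (fin 979 2 975)
(mv 977 (cons (fin 1038 2 974)
(mv 1103 (cons (fin 1102 1 1038)
(mv 1104 (cons (fin 1043 1 1039)
(mv 913 (cons (fin 849 5 848)
(mv 1168 (cons (fin 1105 5 912)
(fin 976 6 912)))))))))))))))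
(cons (mv 975 (cons (fin 974 3 974)
(mv 976 (cons (fin 1043 3 975)
(mv 978 (cons (fin 979 2 975)
(mv 977 (cons (fin 1038 1 974)
(mv 910 (cons (fin 911 3 910)
(mv 914 (cons (fin 915 2 911)
(mv 850 (cons (fin 786 5 785)
(fin 1105 5 849)))))))))))))))
(mv 975 (cons (fin 974 3 974)
(mv 976 (cons (fin 1043 3 975)
(mv 1102 (cons (fin 1103 1 1038)
(mv 1038 (cons (fin 1101 1 1037)
(mv 1037 (cons (fin 1036 2 972)
(fin 977 2 973)))))))))))))
(cons (mv 978 (cons (fin 979 2 975)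
(mv 977 (cons (fin 1038 2 974)
(mv 1103 (cons (fin 1102 1 1038)
(mv 1104 (cons (fin 1043 1 1039)
(mv 913 (cons (fin 849 5 848)
(mv 1168 (cons (fin 1105 5 912)
(fin 976 6 912)))))))))))))
(cons (mv 974 (cons (fin 975 3 974)
(mv 978 (cons (fin 979 2 975)
(mv 1038 (cons (fin 977 2 974)
(mv 1102 (cons (fin 1101 1 1037)
(fin 1103 1 1038)))))))))
(mv 974 (cons (fin 975 3 974)
(mv 979 (cons (fin 978 2 975)
(mv 1043 (cons (fin 980 2 976)
(mv 1103 (cons (fin 1102 1 1038)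
(fin 1104 1 1039))))))))))))))
(cons (mv 1042 (cons (cons (mv 974 (cons (fin 975 3 974)
(mv 978 (cons (fin 979 2 975)
(mv 1102 (cons (fin 1103 1 1038)
(mv 1038 (cons (fin 1101 1 1037)
(mv 1106 (cons (fin 1105 0 1038)
(fin 1107 0 1039)))))))))))
(mv 974 (cons (fin 975 3 974)
(mv 978 (cons (fin 979 2 975)
(mv 1106 (cons (fin 1107 0 1039)
(mv 1105 (cons (fin 1038 0 1038)
(mv 914 (cons (fin 850 5 849)
(fin 1169 5 913))))))))))))
(cons (mv 974 (cons (fin 975 3 974)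
(mv 979 (cons (fin 978 2 975)
(mv 1043 (cons (fin 980 2 976)
(mv 1103 (cons (fin 1102 1 1038)
(fin 1104 1 1039)))))))))
(cons (mv 978 (cons (fin 979 2 975)
(mv 1102 (cons (fin 1103 1 1038)
(mv 1038 (cons (fin 1101 1 1037)
(mv 1106 (cons (fin 1105 0 1038)
(fin 1107 0 1039)))))))))
(mv 974 (cons (fin 975 3 974)
(mv 1102 (cons (fin 1103 1 1038)
(mv 1038 (cons (fin 1101 1 1037)
(mv 1106 (cons (fin 1105 0 1038)
(fin 1107 0 1039)))))))))))))
(mv 1042 (cons (cons (mv 974 (cons (fin 975 3 974)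
(mv 978 (cons (fin 979 2 975)
(mv 977 (cons (fin 1038 2 974)
(mv 1102 (cons (fin 1103 1 1038)
(mv 1106 (cons (fin 1107 0 1039)
(mv 913 (cons (fin 1170 7 913)
(fin 849 4 849)))))))))))))
(mv 974 (cons (fin 975 3 974)
(mv 978 (cons (fin 979 2 975)
(mv 977 (cons (fin 1038 2 974)
(mv 1106 (cons (fin 1107 0 1039)
(mv 913 (cons (fin 1170 7 913)
(fin 849 4 849))))))))))))
(cons (mv 978 (cons (fin 979 2 975)
(mv 977 (cons (fin 1038 2 974)
(mv 1102 (cons (fin 1103 1 1038)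
(mv 1106 (cons (fin 1107 0 1039)
(mv 913 (cons (fin 1170 7 913)
(fin 849 4 849)))))))))))
(cons (mv 974 (cons (fin 975 3 974)
(mv 1103 (cons (fin 1102 1 1038)
(mv 1043 (cons (fin 1104 1 1039)
(mv 1107 (cons (fin 1106 0 1039)
(fin 1108 0 1040)))))))))
(mv 974 (cons (fin 975 3 974)
(mv 978 (cons (fin 979 2 975)
(mv 977 (cons (fin 1038 2 974)
(mv 1103 (cons (fin 1102 1 1038)
(mv 1104 (cons (fin 1043 1 1039)
(mv 913 (cons (fin 849 5 848)
(mv 1168 (cons (fin 976 6 912)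
(fin 1232 6 976)))))))))))))))))))))))
(mv 1041 (cons (cons (mv 1042 (cons (cons (mv 974 (cons (fin 975 3 974)
(mv 973 (cons (fin 1038 3 973)
(mv 978 (cons (fin 979 2 975)
(mv 1103 (cons (fin 1102 1 1038)
(mv 1043 (cons (fin 1104 1 1039)
(mv 1107 (cons (fin 1106 0 1039)
(fin 1108 0 1040)))))))))))))
(cons (mv 978 (cons (fin 979 2 975)
(mv 977 (cons (fin 1038 2 974)
(mv 1102 (cons (fin 1103 1 1038)
(mv 1106 (cons (fin 1107 0 1039)
(mv 913 (cons (fin 1170 7 913)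
(fin 849 4 849)))))))))))
(mv 974 (cons (fin 975 3 974)
(mv 973 (cons (fin 1038 3 973)
(mv 1103 (cons (fin 1102 1 1038)
(mv 1043 (cons (fin 1104 1 1039)
(mv 1107 (cons (fin 1106 0 1039)
(fin 1108 0 1040)))))))))))))
(cons (mv 974 (cons (fin 975 3 974)
(mv 973 (cons (fin 1038 3 973)
(mv 979 (cons (fin 978 2 975)
(mv 1043 (cons (fin 980 2 976)
(mv 1103 (cons (fin 1102 1 1038)
(fin 1104 1 1039)))))))))))
(cons (mv 974 (cons (fin 975 3 974)
(mv 973 (cons (fin 1038 3 973)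
(mv 979 (cons (fin 978 2 975)
(mv 1043 (cons (fin 980 2 976)
(mv 1107 (cons (fin 1106 0 1039)
(fin 1108 0 1040)))))))))))
(mv 974 (cons (fin 975 3 974)
(mv 978 (cons (fin 979 2 975)
(mv 1103 (cons (fin 1102 1 1038)
(mv 1043 (cons (fin 1104 1 1039)
(mv 1107 (cons (fin 1106 0 1039)
(fin 1108 0 1040)))))))))))))))
(cons (mv 1038 (cons (cons (mv 973 (cons (fin 974 3 973)
(mv 977 (cons (fin 978 2 974)
(mv 1037 (cons (fin 972 3 972)
(fin 976 2 973)))))))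
(mv 973 (cons (fin 974 3 973)
(mv 1037 (cons (fin 972 3 972)
(mv 1105 (cons (fin 1104 0 1037)
(fin 1106 0 1038))))))))
(cons (mv 977 (cons (fin 978 2 974)
(mv 976 (cons (fin 1037 2 973)
(mv 1105 (cons (fin 1106 0 1038)
(mv 912 (cons (fin 1169 7 912)
(fin 848 4 848)))))))))
(mv 973 (cons (fin 974 3 973)
(mv 977 (cons (fin 978 2 974)
(mv 1105 (cons (fin 1106 0 1038)
(mv 1169 (cons (mv 976 (cons (fin 912 7 912)
(fin 1233 7 976)))
(cons (mv 1168 (cons (fin 1232 5 976)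
(mv 913 (cons (fin 1104 5 912)
(mv 848 (cons (fin 912 7 848)
(mv 849 (cons (fin 784 7 784)
(mv 850 (cons (fin 786 6 785)
(fin 914 6 849)))))))))))
(mv 976 (cons (fin 1233 7 976)
(mv 1168 (cons (fin 1232 5 976)
(mv 913 (cons (fin 1104 5 912)
(mv 849 (cons (fin 785 5 784)
(mv 850 (cons (fin 786 6 785)
(fin 914 6 849)))))))))))))))))))))))
(mv 1042 (cons (cons (mv 974 (cons (fin 975 3 974)
(mv 978 (cons (fin 979 2 975)
(mv 1103 (cons (fin 1102 1 1038)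
(mv 1043 (cons (fin 1104 1 1039)
(mv 1107 (cons (fin 1106 0 1039)
(fin 1108 0 1040)))))))))))
(cons (mv 978 (cons (fin 979 2 975)
(mv 1103 (cons (fin 1102 1 1038)
(mv 1043 (cons (fin 1104 1 1039)
(mv 1107 (cons (fin 1106 0 1039)
(fin 1108 0 1040)))))))))
(mv 974 (cons (fin 975 3 974)
(mv 979 (cons (fin 978 2 975)
(mv 1043 (cons (fin 980 2 976)
(mv 1107 (cons (fin 1106 0 1039)
(fin 1108 0 1040)))))))))))
(cons (mv 974 (cons (fin 975 3 974)
(mv 1103 (cons (fin 1102 1 1038)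
(mv 1043 (cons (fin 1104 1 1039)
(mv 1107 (cons (fin 1106 0 1039)
(fin 1108 0 1040)))))))))
(cons (mv 974 (cons (fin 975 3 974)
(mv 979 (cons (fin 978 2 975)
(mv 1043 (cons (fin 980 2 976)
(mv 1103 (cons (fin 1102 1 1038)
(fin 1104 1 1039)))))))))
(mv 974 (cons (fin 975 3 974)
(mv 978 (cons (fin 979 2 975)
(mv 1102 (cons (fin 1103 1 1038)
(mv 1106 (cons (fin 1107 0 1039)
(mv 914 (cons (mv 1105 (cons (fin 850 5 849)
(fin 1169 5 913)))
(cons (mv 849 (cons (fin 913 7 849)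
(mv 850 (cons (fin 785 7 785)
(mv 851 (cons (fin 787 6 786)
(fin 915 6 850)))))))
(mv 849 (cons (fin 913 7 849)
(mv 851 (cons (fin 915 6 850)
(mv 1169 (cons (fin 1105 5 913)
(mv 1170 (cons (fin 1233 5 977)
(mv 1234 (cons (fin 977 7 977)
(mv 1235 (cons (fin 1171 4 978)
(fin 1299 4 1042))))))))))))))))))))))))))))))
(cons (cons (mv 1042 (cons (cons (mv 978 (cons (fin 979 2 975)
(mv 977 (cons (fin 1038 2 974)
(mv 1102 (cons (fin 1103 1 1038)
(mv 1106 (cons (fin 1107 0 1039)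
(mv 913 (cons (fin 1170 7 913)
(fin 849 4 849)))))))))))
(mv 1103 (cons (fin 1102 1 1038)
(mv 1043 (cons (fin 1104 1 1039)
(mv 1107 (cons (fin 1106 0 1039)
(fin 1108 0 1040))))))))
(cons (mv 978 (cons (fin 979 2 975)
(mv 977 (cons (fin 1038 2 974)
(mv 1103 (cons (fin 1102 1 1038)
(mv 1104 (cons (fin 1043 1 1039)
(mv 913 (cons (fin 849 5 848)
(mv 1168 (cons (fin 1105 5 912)
(fin 976 6 912)))))))))))))
(mv 978 (cons (fin 979 2 975)
(mv 977 (cons (fin 1038 2 974)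
(mv 1106 (cons (fin 1107 0 1039)
(mv 913 (cons (fin 1170 7 913)
(fin 849 4 849))))))))))))
(mv 1042 (cons (cons (mv 974 (cons (fin 975 3 974)
(mv 973 (cons (fin 1038 3 973)
(mv 1103 (cons (fin 1102 1 1038)
(mv 1043 (cons (fin 1104 1 1039)
(mv 1107 (cons (fin 1106 0 1039)
(fin 1108 0 1040)))))))))))
(mv 1103 (cons (fin 1102 1 1038)
(mv 1043 (cons (fin 1104 1 1039)
(mv 1107 (cons (fin 1106 0 1039)
(fin 1108 0 1040))))))))
(cons (mv 974 (cons (fin 975 3 974)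
(mv 1038 (cons (fin 973 3 973)
(mv 1103 (cons (fin 1102 1 1038)
(mv 846 (cons (fin 910 4 846)
(mv 1104 (cons (fin 1043 1 1039)
(mv 1037 (cons (fin 1036 0 1036)
(fin 1105 0 1037)))))))))))))
(mv 974 (cons (fin 975 3 974)
(mv 1038 (cons (fin 973 3 973)
(mv 1106 (cons (fin 1105 0 1038)
(fin 1107 0 1039)))))))))))
(cons (mv 1042 (cons (cons (mv 974 (cons (fin 975 3 974)
(mv 973 (cons (fin 1038 3 973)
(mv 979 (cons (fin 978 2 975)
(mv 1043 (cons (fin 980 2 976)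
(mv 1103 (cons (fin 1102 1 1038)
(fin 1104 1 1039)))))))))))
(mv 978 (cons (fin 979 2 975)
(mv 977 (cons (fin 1038 2 974)
(mv 1103 (cons (fin 1102 1 1038)
(mv 1104 (cons (fin 1043 1 1039)
(mv 913 (cons (fin 849 5 848)
(mv 1168 (cons (fin 1105 5 912)
(fin 976 6 912))))))))))))))
(cons (mv 974 (cons (fin 975 3 974)
(mv 1038 (cons (fin 973 3 973)
(mv 1103 (cons (fin 1102 1 1038)
(mv 846 (cons (fin 910 4 846)
(mv 1104 (cons (fin 1043 1 1039)
(mv 1037 (cons (fin 1036 0 1036)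
(fin 1105 0 1037)))))))))))))
(cons (mv 974 (cons (fin 975 3 974)
(mv 978 (cons (fin 979 2 975)
(mv 1038 (cons (fin 973 3 973)
(fin 977 2 974)))))))
(mv 974 (cons (fin 975 3 974)
(mv 979 (cons (fin 978 2 975)
(mv 1043 (cons (fin 980 2 976)
(mv 1103 (cons (fin 1102 1 1038)
(fin 1104 1 1039)))))))))))))
(mv 1042 (cons (cons (mv 974 (cons (fin 975 3 974)
(mv 973 (cons (fin 1038 3 973)
(mv 979 (cons (fin 978 2 975)
(mv 1043 (cons (fin 980 2 976)
(mv 1107 (cons (fin 1106 0 1039)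
(fin 1108 0 1040)))))))))))
(mv 974 (cons (fin 975 3 974)
(mv 1038 (cons (fin 973 3 973)
(mv 1106 (cons (fin 1105 0 1038)
(fin 1107 0 1039))))))))
(cons (mv 974 (cons (fin 975 3 974)
(mv 978 (cons (fin 979 2 975)
(mv 1038 (cons (fin 973 3 973)
(fin 977 2 974)))))))
(cons (mv 978 (cons (fin 979 2 975)
(mv 977 (cons (fin 1038 2 974)
(mv 1102 (cons (fin 1103 1 1038)
(mv 1106 (cons (fin 1107 0 1039)
(mv 913 (cons (fin 1170 7 913)
(fin 849 4 849)))))))))))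
(mv 974 (cons (fin 975 3 974)
(mv 979 (cons (fin 978 2 975)
(mv 1043 (cons (fin 980 2 976)
(mv 1107 (cons (fin 1106 0 1039)
(fin 1108 0 1040))))))))))))))))))))
(cons (cons (mv 1038 (cons (cons (mv 1037 (cons (cons (mv 972 (cons (fin 973 3 972)
(mv 971 (cons (fin 1036 3 971)
(mv 976 (cons (fin 977 2 973)
(mv 1101 (cons (fin 1100 1 1036)
(mv 1041 (cons (fin 1102 1 1037)
(mv 1105 (cons (fin 1104 0 1037)
(fin 1106 0 1038)))))))))))))
(mv 976 (cons (fin 977 2 973)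
(mv 975 (cons (fin 1036 2 972)
(mv 1100 (cons (fin 1101 1 1036)
(mv 1104 (cons (fin 1105 0 1037)
(mv 911 (cons (fin 1168 7 911)
(fin 847 4 847))))))))))))
(cons (mv 972 (cons (fin 973 3 972)
(mv 976 (cons (fin 977 2 973)
(mv 1036 (cons (fin 971 3 971)
(fin 975 2 972)))))))
(cons (mv 972 (cons (fin 973 3 972)
(mv 971 (cons (fin 1036 3 971)
(mv 1101 (cons (fin 1100 1 1036)
(mv 1041 (cons (fin 1102 1 1037)
(mv 1105 (cons (fin 1104 0 1037)
(fin 1106 0 1038)))))))))))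
(mv 972 (cons (fin 973 3 972)
(mv 976 (cons (fin 977 2 973)
(mv 1101 (cons (fin 1100 1 1036)
(mv 1041 (cons (fin 1102 1 1037)
(mv 1105 (cons (fin 1104 0 1037)
(fin 1106 0 1038)))))))))))))))
(cons (mv 1041 (cons (cons (mv 973 (cons (fin 974 3 973)
(mv 1102 (cons (fin 1101 1 1037)
(mv 1042 (cons (fin 1103 1 1038)
(mv 1106 (cons (fin 1105 0 1038)
(fin 1107 0 1039)))))))))
(mv 1102 (cons (fin 1101 1 1037)
(mv 1042 (cons (fin 1103 1 1038)
(mv 1106 (cons (fin 1105 0 1038)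
(fin 1107 0 1039))))))))
(cons (mv 974 (cons (fin 973 3 973)
(mv 1042 (cons (fin 975 3 974)
(mv 1106 (cons (fin 1105 0 1038)
(fin 1107 0 1039)))))))
(cons (mv 974 (cons (fin 973 3 973)
(mv 975 (cons (fin 1042 3 974)
(mv 1102 (cons (fin 1101 1 1037)
(mv 911 (cons (fin 847 5 846)
(fin 1166 6 910)))))))))
(mv 973 (cons (fin 974 3 973)
(mv 1102 (cons (fin 1101 1 1037)
(mv 1105 (cons (fin 1106 0 1038)
(mv 1169 (cons (cons (mv 976 (cons (fin 1233 7 976)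
(mv 912 (cons (fin 977 7 912)
(fin 848 4 848)))))
(mv 1233 (cons (cons (mv 1104 (cons (fin 1297 7 1040)
(mv 1103 (cons (fin 1170 0 1102)
(mv 1165 (cons (fin 1166 1 1101)
(mv 1232 (cons (fin 1296 5 1040)
(mv 1168 (cons (fin 975 7 975)
(fin 977 5 976)))))))))))
(mv 1232 (cons (fin 1296 5 1040)
(mv 977 (cons (fin 1168 5 976)
(mv 1234 (cons (fin 1170 4 977)
(fin 1298 4 1041))))))))
(cons (mv 1104 (cons (fin 1297 7 1040)
(mv 1103 (cons (fin 1170 0 1102)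
(mv 1166 (cons (fin 1165 1 1101)
(mv 975 (cons (fin 911 5 910)
(fin 1230 6 974)))))))))
(mv 1104 (cons (fin 1297 7 1040)
(mv 1232 (cons (fin 1296 5 1040)
(mv 1168 (cons (fin 975 7 975)
(fin 977 5 976)))))))))))
(cons (mv 977 (cons (cons (mv 912 (cons (fin 976 7 912)
(mv 848 (cons (fin 913 7 848)
(mv 1168 (cons (fin 1232 5 976)
(mv 1170 (cons (fin 1234 4 977)
(mv 1103 (cons (fin 1167 3 1102)
(fin 1104 0 1102)))))))))))
(mv 1168 (cons (fin 1232 5 976)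
(mv 913 (cons (fin 1104 5 912)
(mv 850 (cons (fin 914 6 849)
(mv 786 (cons (fin 849 6 785)
(mv 1170 (cons (fin 1234 4 977)
(mv 1167 (cons (fin 1103 3 1102)
(mv 1230 (cons (fin 1231 1 1166)
(mv 1166 (cons (fin 1229 1 1165)
(fin 975 6 974))))))))))))))))))
(cons (mv 912 (cons (fin 976 7 912)
(mv 913 (cons (fin 848 7 848)
(mv 849 (cons (fin 1104 5 848)
(mv 850 (cons (fin 786 6 785)
(fin 914 6 849)))))))))
(cons (mv 912 (cons (fin 976 7 912)
(mv 848 (cons (fin 913 7 848)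
(mv 1168 (cons (fin 1232 5 976)
(mv 1170 (cons (fin 1234 4 977)
(mv 1167 (cons (fin 1103 3 1102)
(mv 1230 (cons (fin 1231 1 1166)
(mv 1166 (cons (fin 1229 1 1165)
(fin 975 6 974)))))))))))))))
(mv 912 (cons (fin 976 7 912)
(mv 1168 (cons (fin 1232 5 976)
(mv 1170 (cons (fin 1234 4 977)
(mv 1103 (cons (fin 1167 3 1102)
(fin 1104 0 1102)))))))))))))
(mv 976 (cons (fin 1233 7 976)
(mv 912 (cons (fin 848 4 848)
(fin 1104 4 912))))))))))))))))))
(mv 1037 (cons (cons (mv 972 (cons (fin 973 3 972)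
(mv 976 (cons (fin 977 2 973)
(mv 1036 (cons (fin 971 3 971)
(fin 975 2 972)))))))
(mv 972 (cons (fin 973 3 972)
(mv 1036 (cons (fin 971 3 971)
(mv 1100 (cons (fin 1099 1 1035)
(fin 1101 1 1036))))))))
(cons (mv 976 (cons (fin 977 2 973)
(mv 975 (cons (fin 1036 2 972)
(mv 1100 (cons (fin 1101 1 1036)
(mv 1104 (cons (fin 1105 0 1037)
(mv 911 (cons (fin 1168 7 911)
(fin 847 4 847)))))))))))
(mv 972 (cons (fin 973 3 972)
(mv 976 (cons (fin 977 2 973)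
(mv 1100 (cons (fin 1101 1 1036)
(mv 1104 (cons (fin 1105 0 1037)
(mv 1168 (cons (mv 975 (cons (fin 911 7 911)
(fin 1232 7 975)))
(cons (mv 1167 (cons (fin 1231 5 975)
(mv 912 (cons (fin 1103 5 911)
(mv 847 (cons (fin 911 7 847)
(mv 848 (cons (fin 783 7 783)
(mv 849 (cons (fin 785 6 784)
(fin 913 6 848)))))))))))
(mv 975 (cons (fin 1232 7 975)
(mv 1167 (cons (fin 1231 5 975)
(mv 912 (cons (fin 1103 5 911)
(mv 848 (cons (fin 784 5 783)
(mv 849 (cons (fin 785 6 784)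
(fin 913 6 848)))))))))))))))))))))))))))
(cons (cons (mv 1037 (cons (cons (mv 976 (cons (fin 977 2 973)
(mv 975 (cons (fin 1036 2 972)
(mv 1100 (cons (fin 1101 1 1036)
(mv 1104 (cons (fin 1105 0 1037)
(mv 911 (cons (fin 1168 7 911)
(fin 847 4 847)))))))))))
(mv 976 (cons (fin 977 2 973)
(mv 975 (cons (fin 1036 2 972)
(mv 1101 (cons (fin 1100 1 1036)
(mv 1041 (cons (fin 1102 1 1037)
(mv 1042 (cons (fin 974 3 974)
(fin 1043 3 975))))))))))))
(cons (mv 976 (cons (fin 977 2 973)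
(mv 975 (cons (fin 1036 2 972)
(mv 1104 (cons (fin 1105 0 1037)
(mv 911 (cons (fin 1168 7 911)
(fin 847 4 847)))))))))
(cons (mv 1100 (cons (fin 1101 1 1036)
(mv 1036 (cons (fin 1099 1 1035)
(mv 1104 (cons (fin 1103 0 1036)
(fin 1105 0 1037)))))))
(mv 976 (cons (fin 977 2 973)
(mv 1101 (cons (fin 1100 1 1036)
(mv 1041 (cons (fin 1102 1 1037)
(mv 1105 (cons (fin 1104 0 1037)
(fin 1106 0 1038)))))))))))))
(mv 1037 (cons (cons (mv 972 (cons (fin 973 3 972)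
(mv 976 (cons (fin 977 2 973)
(mv 1036 (cons (fin 971 3 971)
(fin 975 2 972)))))))
(mv 976 (cons (fin 977 2 973)
(mv 975 (cons (fin 1036 2 972)
(mv 1104 (cons (fin 1105 0 1037)
(mv 911 (cons (fin 1168 7 911)
(fin 847 4 847))))))))))
(cons (mv 972 (cons (fin 973 3 972)
(mv 1036 (cons (fin 971 3 971)
(mv 1104 (cons (fin 1103 0 1036)
(fin 1105 0 1037)))))))
(mv 973 (cons (fin 972 3 972)
(mv 976 (cons (fin 977 2 973)
(mv 1041 (cons (fin 974 3 973)
(mv 1105 (cons (fin 1104 0 1037)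
(fin 1106 0 1038)))))))))))))
(cons (mv 1037 (cons (cons (mv 972 (cons (fin 973 3 972)
(mv 976 (cons (fin 977 2 973)
(mv 1036 (cons (fin 971 3 971)
(fin 975 2 972)))))))
(mv 976 (cons (fin 977 2 973)
(mv 975 (cons (fin 1036 2 972)
(mv 1101 (cons (fin 1100 1 1036)
(mv 1041 (cons (fin 1102 1 1037)
(mv 1042 (cons (fin 974 3 974)
(fin 1043 3 975))))))))))))
(cons (mv 972 (cons (fin 973 3 972)
(mv 1036 (cons (fin 971 3 971)
(mv 1100 (cons (fin 1099 1 1035)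
(fin 1101 1 1036)))))))
(mv 973 (cons (fin 972 3 972)
(mv 974 (cons (fin 1041 3 973)
(mv 976 (cons (fin 977 2 973)
(mv 1101 (cons (fin 1100 1 1036)
(mv 910 (cons (fin 846 5 845)
(fin 1165 6 909))))))))))))))
(mv 1037 (cons (cons (mv 972 (cons (fin 973 3 972)
(mv 971 (cons (fin 1036 3 971)
(mv 1101 (cons (fin 1100 1 1036)
(mv 1041 (cons (fin 1102 1 1037)
(mv 1105 (cons (fin 1104 0 1037)
(fin 1106 0 1038)))))))))))
(mv 972 (cons (fin 973 3 972)
(mv 1036 (cons (fin 971 3 971)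
(mv 1104 (cons (fin 1103 0 1036)
(fin 1105 0 1037))))))))
(cons (mv 1100 (cons (fin 1101 1 1036)
(mv 1036 (cons (fin 1099 1 1035)
(mv 1104 (cons (fin 1103 0 1036)
(fin 1105 0 1037)))))))
(cons (mv 972 (cons (fin 973 3 972)
(mv 1036 (cons (fin 971 3 971)
(mv 1100 (cons (fin 1099 1 1035)
(fin 1101 1 1036)))))))
(mv 972 (cons (fin 973 3 972)
(mv 1101 (cons (fin 1100 1 1036)
(mv 1041 (cons (fin 1102 1 1037)
(mv 1105 (cons (fin 1104 0 1037)
(fin 1106 0 1038)))))))))))))))))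
(mv 1038 (cons (cons (mv 1037 (cons (cons (mv 972 (cons (fin 973 3 972)
(mv 971 (cons (fin 1036 3 971)
(mv 977 (cons (fin 976 2 973)
(mv 1041 (cons (fin 978 2 974)
(mv 1101 (cons (fin 1100 1 1036)
(fin 1102 1 1037)))))))))))
(cons (mv 976 (cons (fin 977 2 973)
(mv 975 (cons (fin 1036 2 972)
(mv 1100 (cons (fin 1101 1 1036)
(mv 1104 (cons (fin 1105 0 1037)
(mv 911 (cons (fin 1168 7 911)
(fin 847 4 847)))))))))))
(mv 972 (cons (fin 973 3 972)
(mv 976 (cons (fin 977 2 973)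
(mv 1036 (cons (fin 971 3 971)
(fin 975 2 972)))))))))
(cons (mv 972 (cons (fin 973 3 972)
(mv 971 (cons (fin 1036 3 971)
(mv 1101 (cons (fin 1100 1 1036)
(mv 1041 (cons (fin 1102 1 1037)
(mv 978 (cons (fin 977 2 974)
(mv 1042 (cons (fin 979 2 975)
(mv 975 (cons (fin 974 3 974)
(mv 1104 (cons (fin 1105 0 1037)
(mv 911 (cons (fin 847 4 847)
(mv 1103 (cons (fin 1043 1 1039)
(fin 1168 4 911)))))))))))))))))))))
(cons (mv 972 (cons (fin 973 3 972)
(mv 1036 (cons (fin 971 3 971)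
(mv 1100 (cons (fin 1099 1 1035)
(fin 1101 1 1036)))))))
(mv 972 (cons (fin 973 3 972)
(mv 977 (cons (fin 976 2 973)
(mv 1041 (cons (fin 978 2 974)
(mv 1101 (cons (fin 1100 1 1036)
(fin 1102 1 1037)))))))))))))
(cons (mv 1041 (cons (cons (mv 973 (cons (fin 974 3 973)
(mv 978 (cons (fin 977 2 974)
(mv 1042 (cons (fin 979 2 975)
(mv 1102 (cons (fin 1101 1 1037)
(fin 1103 1 1038)))))))))
(mv 978 (cons (fin 977 2 974)
(mv 1042 (cons (fin 979 2 975)
(mv 1102 (cons (fin 1101 1 1037)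
(fin 1103 1 1038))))))))
(cons (mv 974 (cons (fin 973 3 973)
(mv 978 (cons (fin 977 2 974)
(mv 1042 (cons (fin 975 3 974)
(fin 979 2 975)))))))
(cons (mv 974 (cons (fin 973 3 973)
(mv 975 (cons (fin 1042 3 974)
(mv 1102 (cons (fin 1101 1 1037)
(mv 911 (cons (fin 847 5 846)
(fin 1166 6 910)))))))))
(mv 974 (cons (fin 973 3 973)
(mv 977 (cons (fin 978 2 974)
(mv 1101 (cons (fin 1102 1 1037)
(mv 913 (cons (cons (mv 849 (cons (fin 1104 5 848)
(mv 784 (cons (fin 848 7 784)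
(mv 785 (cons (fin 720 7 720)
(fin 976 5 784)))))))
(mv 849 (cons (cons (mv 784 (cons (fin 848 7 784)
(mv 785 (cons (fin 720 7 720)
(fin 976 5 784)))))
(mv 786 (cons (fin 850 6 785)
(mv 848 (cons (fin 784 7 784)
(mv 912 (cons (fin 1105 7 848)
(mv 976 (cons (fin 1103 5 847)
(mv 783 (cons (fin 847 7 783)
(mv 975 (cons (fin 914 2 910)
(mv 910 (cons (fin 909 3 909)
(mv 846 (cons (fin 782 4 782)
(mv 845 (cons (fin 911 3 845)
(fin 781 7 781))))))))))))))))))))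
(cons (mv 784 (cons (fin 848 7 784)
(mv 785 (cons (fin 720 7 720)
(mv 786 (cons (fin 722 6 721)
(fin 850 6 785)))))))
(mv 785 (cons (fin 976 5 784)
(mv 786 (cons (fin 722 6 721)
(fin 850 6 785)))))))))
(cons (mv 1105 (cons (cons (mv 848 (cons (fin 912 7 848)
(mv 850 (cons (fin 914 6 849)
(mv 1168 (cons (fin 1104 5 912)
(mv 1169 (cons (fin 1232 5 976)
(mv 1233 (cons (fin 976 7 976)
(mv 1234 (cons (fin 1170 4 977)
(fin 1298 4 1041)))))))))))))
(cons (mv 850 (cons (fin 914 6 849)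
(mv 912 (cons (fin 848 7 848)
(mv 1169 (cons (fin 976 7 912)
(mv 1234 (cons (fin 1170 4 977)
(mv 1233 (cons (fin 1298 4 1041)
(mv 1296 (cons (fin 1232 5 1040)
(mv 1297 (cons (fin 1104 7 1040)
(fin 1360 5 1104)))))))))))))))
(mv 850 (cons (fin 914 6 849)
(mv 1168 (cons (fin 1104 5 912)
(mv 1169 (cons (fin 1232 5 976)
(mv 1233 (cons (fin 976 7 976)
(mv 1234 (cons (fin 1170 4 977)
(fin 1298 4 1041)))))))))))))
(cons (cons (mv 850 (cons (fin 914 6 849)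
(mv 912 (cons (fin 848 7 848)
(mv 1169 (cons (fin 976 7 912)
(mv 1168 (cons (fin 1232 5 976)
(mv 1234 (cons (fin 1170 4 977)
(mv 1233 (cons (fin 1298 4 1041)
(mv 1167 (cons (fin 1166 0 1166)
(mv 1103 (cons (fin 1231 7 974)
(mv 910 (cons (fin 975 7 910)
(fin 846 4 846)))))))))))))))))))
(mv 848 (cons (fin 912 7 848)
(mv 1168 (cons (fin 1104 5 912)
(mv 1169 (cons (fin 1232 5 976)
(mv 1233 (cons (fin 976 7 976)
(mv 1234 (cons (fin 1170 4 977)
(fin 1298 4 1041))))))))))))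
(cons (mv 848 (cons (fin 912 7 848)
(mv 850 (cons (fin 914 6 849)
(mv 1168 (cons (fin 1104 5 912)
(mv 1169 (cons (fin 1232 5 976)
(mv 1234 (cons (fin 1170 4 977)
(mv 1233 (cons (fin 1298 4 1041)
(mv 1167 (cons (fin 1166 0 1166)
(mv 1103 (cons (fin 1231 7 974)
(mv 910 (cons (fin 975 7 910)
(fin 846 4 846)))))))))))))))))))
(mv 912 (cons (fin 848 7 848)
(mv 914 (cons (fin 850 6 849)
(mv 975 (cons (fin 911 1 910)
(fin 976 2 910)))))))))))
(cons (mv 849 (cons (fin 1104 5 848)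
(mv 784 (cons (fin 848 7 784)
(mv 785 (cons (fin 720 7 720)
(mv 786 (cons (fin 722 6 721)
(fin 850 6 785)))))))))
(mv 849 (cons (fin 1104 5 848)
(mv 785 (cons (fin 976 5 784)
(mv 786 (cons (fin 722 6 721)
(fin 850 6 785)))))))))))))))))))))
(mv 1037 (cons (cons (mv 972 (cons (fin 973 3 972)
(mv 976 (cons (fin 977 2 973)
(mv 1036 (cons (fin 971 3 971)
(fin 975 2 972)))))))
(mv 972 (cons (fin 973 3 972)
(mv 1036 (cons (fin 971 3 971)
(mv 1100 (cons (fin 1099 1 1035)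
(fin 1101 1 1036))))))))
(cons (mv 976 (cons (fin 977 2 973)
(mv 975 (cons (fin 1036 2 972)
(mv 1100 (cons (fin 1101 1 1036)
(mv 1104 (cons (fin 1105 0 1037)
(mv 911 (cons (fin 1168 7 911)
(fin 847 4 847)))))))))))
(mv 972 (cons (fin 973 3 972)
(mv 976 (cons (fin 977 2 973)
(mv 1100 (cons (fin 1101 1 1036)
(mv 1104 (cons (fin 1105 0 1037)
(mv 912 (cons (mv 1103 (cons (fin 848 5 847)
(fin 1167 5 911)))
(cons (mv 847 (cons (fin 911 7 847)
(mv 848 (cons (fin 783 7 783)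
(mv 849 (cons (fin 785 6 784)
(fin 913 6 848)))))))
(mv 847 (cons (fin 911 7 847)
(mv 849 (cons (fin 913 6 848)
(mv 1167 (cons (fin 1103 5 911)
(mv 1168 (cons (fin 1231 5 975)
(mv 1232 (cons (fin 975 7 975)
(mv 1233 (cons (fin 1169 4 976)
(fin 1297 4 1040)))))))))))))))))))))))))))))
(cons (cons (mv 1037 (cons (cons (mv 976 (cons (fin 977 2 973)
(mv 975 (cons (fin 1036 2 972)
(mv 1100 (cons (fin 1101 1 1036)
(mv 1104 (cons (fin 1105 0 1037)
(mv 911 (cons (fin 1168 7 911)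
(fin 847 4 847)))))))))))
(mv 1100 (cons (fin 1101 1 1036)
(mv 1036 (cons (fin 1099 1 1035)
(mv 1104 (cons (fin 1103 0 1036)
(fin 1105 0 1037))))))))
(cons (mv 976 (cons (fin 977 2 973)
(mv 975 (cons (fin 1036 2 972)
(mv 1104 (cons (fin 1105 0 1037)
(mv 911 (cons (fin 1168 7 911)
(fin 847 4 847)))))))))
(cons (mv 976 (cons (fin 977 2 973)
(mv 975 (cons (fin 1036 2 972)
(mv 1101 (cons (fin 1100 1 1036)
(mv 1041 (cons (fin 1102 1 1037)
(mv 1042 (cons (fin 974 3 974)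
(fin 1043 3 975)))))))))))
(mv 977 (cons (fin 976 2 973)
(mv 1041 (cons (fin 978 2 974)
(mv 1101 (cons (fin 1100 1 1036)
(fin 1102 1 1037)))))))))))
(mv 1037 (cons (cons (mv 972 (cons (fin 973 3 972)
(mv 976 (cons (fin 977 2 973)
(mv 1036 (cons (fin 971 3 971)
(fin 975 2 972)))))))
(mv 972 (cons (fin 973 3 972)
(mv 1036 (cons (fin 971 3 971)
(mv 1104 (cons (fin 1103 0 1036)
(fin 1105 0 1037))))))))
(cons (mv 976 (cons (fin 977 2 973)
(mv 975 (cons (fin 1036 2 972)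
(mv 1104 (cons (fin 1105 0 1037)
(mv 911 (cons (fin 1168 7 911)
(fin 847 4 847)))))))))
(mv 973 (cons (fin 972 3 972)
(mv 977 (cons (fin 976 2 973)
(mv 1041 (cons (fin 974 3 973)
(fin 978 2 974)))))))))))
(cons (mv 1037 (cons (cons (mv 972 (cons (fin 973 3 972)
(mv 1036 (cons (fin 971 3 971)
(mv 1100 (cons (fin 1099 1 1035)
(fin 1101 1 1036)))))))
(mv 1100 (cons (fin 1101 1 1036)
(mv 1036 (cons (fin 1099 1 1035)
(mv 1104 (cons (fin 1103 0 1036)
(fin 1105 0 1037))))))))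
(cons (mv 972 (cons (fin 973 3 972)
(mv 1036 (cons (fin 971 3 971)
(mv 1104 (cons (fin 1103 0 1036)
(fin 1105 0 1037)))))))
(mv 973 (cons (fin 972 3 972)
(mv 974 (cons (fin 1041 3 973)
(mv 1101 (cons (fin 1100 1 1036)
(mv 910 (cons (fin 846 5 845)
(fin 1165 6 909))))))))))))
(mv 1037 (cons (cons (mv 972 (cons (fin 973 3 972)
(mv 971 (cons (fin 1036 3 971)
(mv 977 (cons (fin 976 2 973)
(mv 1041 (cons (fin 978 2 974)
(mv 1101 (cons (fin 1100 1 1036)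
(fin 1102 1 1037)))))))))))
(mv 976 (cons (fin 977 2 973)
(mv 975 (cons (fin 1036 2 972)
(mv 1101 (cons (fin 1100 1 1036)
(mv 1041 (cons (fin 1102 1 1037)
(mv 1042 (cons (fin 974 3 974)
(fin 1043 3 975))))))))))))
(cons (mv 972 (cons (fin 973 3 972)
(mv 976 (cons (fin 977 2 973)
(mv 1036 (cons (fin 971 3 971)
(fin 975 2 972)))))))
(cons (mv 972 (cons (fin 973 3 972)
(mv 1036 (cons (fin 971 3 971)
(mv 1100 (cons (fin 1099 1 1035)
(fin 1101 1 1036)))))))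
(mv 972 (cons (fin 973 3 972)
(mv 977 (cons (fin 976 2 973)
(mv 1041 (cons (fin 978 2 974)
(mv 1101 (cons (fin 1100 1 1036)
(fin 1102 1 1037))))))))))))))))))
(cons (mv 1038 (cons (cons (cons (mv 1037 (cons (cons (mv 972 (cons (fin 973 3 972)
(mv 971 (cons (fin 1036 3 971)
(mv 976 (cons (fin 977 2 973)
(mv 1101 (cons (fin 1100 1 1036)
(mv 1041 (cons (fin 1102 1 1037)
(mv 1105 (cons (fin 1104 0 1037)
(fin 1106 0 1038)))))))))))))
(cons (mv 976 (cons (fin 977 2 973)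
(mv 975 (cons (fin 1036 2 972)
(mv 1100 (cons (fin 1101 1 1036)
(mv 1104 (cons (fin 1105 0 1037)
(mv 911 (cons (fin 1168 7 911)
(fin 847 4 847)))))))))))
(mv 972 (cons (fin 973 3 972)
(mv 971 (cons (fin 1036 3 971)
(mv 977 (cons (fin 976 2 973)
(mv 1041 (cons (fin 978 2 974)
(mv 1105 (cons (fin 1104 0 1037)
(fin 1106 0 1038)))))))))))))
(cons (cons (mv 972 (cons (fin 973 3 972)
(mv 971 (cons (fin 1036 3 971)
(mv 976 (cons (fin 977 2 973)
(mv 1101 (cons (fin 1100 1 1036)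
(mv 1041 (cons (fin 1102 1 1037)
(mv 1106 (cons (fin 1105 0 1038)
(mv 1042 (cons (fin 1107 0 1039)
(mv 975 (cons (fin 974 3 974)
(fin 1043 3 975)))))))))))))))))
(mv 972 (cons (fin 973 3 972)
(mv 971 (cons (fin 1036 3 971)
(mv 1101 (cons (fin 1100 1 1036)
(mv 1041 (cons (fin 1102 1 1037)
(mv 1105 (cons (fin 1104 0 1037)
(fin 1106 0 1038))))))))))))
(cons (mv 972 (cons (fin 973 3 972)
(mv 971 (cons (fin 1036 3 971)
(mv 977 (cons (fin 976 2 973)
(mv 1041 (cons (fin 978 2 974)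
(mv 1101 (cons (fin 1100 1 1036)
(fin 1102 1 1037)))))))))))
(mv 972 (cons (fin 973 3 972)
(mv 976 (cons (fin 977 2 973)
(mv 1101 (cons (fin 1100 1 1036)
(mv 1041 (cons (fin 1102 1 1037)
(mv 1105 (cons (fin 1104 0 1037)
(fin 1106 0 1038)))))))))))))))
(mv 1041 (cons (cons (mv 973 (cons (fin 974 3 973)
(mv 977 (cons (fin 978 2 974)
(mv 1102 (cons (fin 1101 1 1037)
(mv 1042 (cons (fin 1103 1 1038)
(mv 1106 (cons (fin 1105 0 1038)
(fin 1107 0 1039)))))))))))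
(cons (mv 977 (cons (fin 978 2 974)
(mv 1102 (cons (fin 1101 1 1037)
(mv 1042 (cons (fin 1103 1 1038)
(mv 1106 (cons (fin 1105 0 1038)
(fin 1107 0 1039)))))))))
(mv 973 (cons (fin 974 3 973)
(mv 978 (cons (fin 977 2 974)
(mv 1042 (cons (fin 979 2 975)
(mv 1106 (cons (fin 1105 0 1038)
(fin 1107 0 1039)))))))))))
(cons (mv 973 (cons (fin 974 3 973)
(mv 1102 (cons (fin 1101 1 1037)
(mv 1042 (cons (fin 1103 1 1038)
(mv 1106 (cons (fin 1105 0 1038)
(fin 1107 0 1039)))))))))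
(cons (mv 973 (cons (fin 974 3 973)
(mv 978 (cons (fin 977 2 974)
(mv 1042 (cons (fin 979 2 975)
(mv 1102 (cons (fin 1101 1 1037)
(fin 1103 1 1038)))))))))
(mv 973 (cons (fin 974 3 973)
(mv 977 (cons (fin 978 2 974)
(mv 1101 (cons (fin 1102 1 1037)
(mv 1105 (cons (fin 1106 0 1038)
(mv 1169 (cons (mv 976 (cons (fin 912 7 912)
(fin 1233 7 976)))
(mv 1168 (cons (fin 1232 5 976)
(mv 1104 (cons (fin 913 5 912)
(mv 1170 (cons (fin 1234 4 977)
(mv 1171 (cons (fin 1103 3 1103)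
(fin 1172 3 1104))))))))))))))))))))))))
(cons (mv 1037 (cons (cons (mv 972 (cons (fin 973 3 972)
(mv 976 (cons (fin 977 2 973)
(mv 1036 (cons (fin 971 3 971)
(fin 975 2 972)))))))
(mv 972 (cons (fin 973 3 972)
(mv 1036 (cons (fin 971 3 971)
(mv 1100 (cons (fin 1099 1 1035)
(fin 1101 1 1036))))))))
(cons (mv 976 (cons (fin 977 2 973)
(mv 975 (cons (fin 1036 2 972)
(mv 1100 (cons (fin 1101 1 1036)
(mv 1104 (cons (fin 1105 0 1037)
(mv 911 (cons (fin 1168 7 911)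
(fin 847 4 847)))))))))))
(mv 972 (cons (fin 973 3 972)
(mv 976 (cons (fin 977 2 973)
(mv 1100 (cons (fin 1101 1 1036)
(mv 1104 (cons (fin 1105 0 1037)
(mv 1168 (cons (mv 975 (cons (fin 911 7 911)
(fin 1232 7 975)))
(mv 1167 (cons (fin 1231 5 975)
(mv 1103 (cons (fin 912 5 911)
(mv 1169 (cons (fin 1233 4 976)
(mv 1170 (cons (fin 1102 3 1102)
(fin 1171 3 1103))))))))))))))))))))))
(mv 1041 (cons (cons (mv 977 (cons (fin 978 2 974)
(mv 976 (cons (fin 1037 2 973)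
(mv 1101 (cons (fin 1102 1 1037)
(mv 1105 (cons (fin 1106 0 1038)
(mv 912 (cons (fin 1169 7 912)
(fin 848 4 848)))))))))))
(mv 977 (cons (fin 978 2 974)
(mv 976 (cons (fin 1037 2 973)
(mv 1102 (cons (fin 1101 1 1037)
(mv 1042 (cons (fin 1103 1 1038)
(mv 975 (cons (fin 974 3 974)
(fin 1043 3 975))))))))))))
(cons (mv 977 (cons (fin 978 2 974)
(mv 976 (cons (fin 1037 2 973)
(mv 1105 (cons (fin 1106 0 1038)
(mv 912 (cons (fin 1169 7 912)
(fin 848 4 848)))))))))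
(cons (mv 1101 (cons (fin 1102 1 1037)
(mv 1037 (cons (fin 1100 1 1036)
(mv 1105 (cons (fin 1104 0 1037)
(fin 1106 0 1038)))))))
(mv 977 (cons (fin 978 2 974)
(mv 1102 (cons (fin 1101 1 1037)
(mv 1042 (cons (fin 1103 1 1038)
(mv 1106 (cons (fin 1105 0 1038)
(fin 1107 0 1039)))))))))))))))
(cons (cons (mv 1041 (cons (cons (mv 973 (cons (fin 974 3 973)
(mv 972 (cons (fin 1037 3 972)
(mv 977 (cons (fin 978 2 974)
(mv 1106 (cons (fin 1105 0 1038)
(mv 1042 (cons (fin 1107 0 1039)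
(mv 1103 (cons (fin 1102 1 1038)
(mv 1104 (cons (fin 1043 1 1039)
(mv 1168 (cons (fin 1232 6 976)
(mv 911 (cons (fin 975 4 911)
(mv 976 (cons (fin 913 6 912)
(mv 912 (cons (fin 847 7 847)
(fin 848 5 847)))))))))))))))))))))))
(cons (mv 973 (cons (fin 974 3 973)
(mv 972 (cons (fin 1037 3 972)
(mv 978 (cons (fin 977 2 974)
(mv 1042 (cons (fin 979 2 975)
(mv 1103 (cons (fin 1102 1 1038)
(mv 1043 (cons (fin 1104 1 1039)
(mv 1107 (cons (fin 1106 0 1039)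
(fin 1108 0 1040)))))))))))))))
(mv 977 (cons (fin 978 2 974)
(mv 976 (cons (fin 1037 2 973)
(mv 1105 (cons (fin 1106 0 1038)
(mv 912 (cons (fin 1169 7 912)
(fin 848 4 848)))))))))))
(cons (cons (mv 973 (cons (fin 974 3 973)
(mv 972 (cons (fin 1037 3 972)
(mv 1106 (cons (fin 1105 0 1038)
(mv 1042 (cons (fin 1107 0 1039)
(mv 979 (cons (fin 978 2 975)
(mv 1043 (cons (fin 980 2 976)
(mv 1103 (cons (fin 1102 1 1038)
(fin 1104 1 1039)))))))))))))))
(mv 973 (cons (fin 974 3 973)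
(mv 1037 (cons (fin 972 3 972)
(mv 1105 (cons (fin 1104 0 1037)
(fin 1106 0 1038))))))))
(cons (mv 973 (cons (fin 974 3 973)
(mv 977 (cons (fin 978 2 974)
(mv 1037 (cons (fin 972 3 972)
(fin 976 2 973)))))))
(mv 973 (cons (fin 974 3 973)
(mv 977 (cons (fin 978 2 974)
(mv 1106 (cons (fin 1105 0 1038)
(mv 1042 (cons (fin 1107 0 1039)
(mv 1103 (cons (fin 1102 1 1038)
(mv 1104 (cons (fin 1043 1 1039)
(mv 1168 (cons (fin 1232 6 976)
(mv 911 (cons (fin 975 4 911)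
(mv 976 (cons (fin 913 6 912)
(mv 912 (cons (fin 847 7 847)
(fin 848 5 847)))))))))))))))))))))))))
(mv 1037 (cons (cons (mv 972 (cons (fin 973 3 972)
(mv 971 (cons (fin 1036 3 971)
(mv 977 (cons (fin 976 2 973)
(mv 1041 (cons (fin 978 2 974)
(mv 1101 (cons (fin 1100 1 1036)
(fin 1102 1 1037)))))))))))
(mv 976 (cons (fin 977 2 973)
(mv 975 (cons (fin 1036 2 972)
(mv 1101 (cons (fin 1100 1 1036)
(mv 1041 (cons (fin 1102 1 1037)
(mv 1042 (cons (fin 974 3 974)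
(fin 1043 3 975))))))))))))
(cons (mv 972 (cons (fin 973 3 972)
(mv 976 (cons (fin 977 2 973)
(mv 1036 (cons (fin 971 3 971)
(fin 975 2 972)))))))
(cons (mv 972 (cons (fin 973 3 972)
(mv 1036 (cons (fin 971 3 971)
(mv 1100 (cons (fin 1099 1 1035)
(fin 1101 1 1036)))))))
(mv 972 (cons (fin 973 3 972)
(mv 977 (cons (fin 976 2 973)
(mv 1041 (cons (fin 978 2 974)
(mv 1101 (cons (fin 1100 1 1036)
(fin 1102 1 1037))))))))))))))
(cons (mv 1037 (cons (cons (mv 972 (cons (fin 973 3 972)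
(mv 971 (cons (fin 1036 3 971)
(mv 1101 (cons (fin 1100 1 1036)
(mv 1041 (cons (fin 1102 1 1037)
(mv 1105 (cons (fin 1104 0 1037)
(fin 1106 0 1038)))))))))))
(cons (mv 1100 (cons (fin 1101 1 1036)
(mv 1036 (cons (fin 1099 1 1035)
(mv 1104 (cons (fin 1103 0 1036)
(fin 1105 0 1037)))))))
(mv 972 (cons (fin 973 3 972)
(mv 1036 (cons (fin 971 3 971)
(mv 1104 (cons (fin 1103 0 1036)
(fin 1105 0 1037)))))))))
(cons (mv 972 (cons (fin 973 3 972)
(mv 971 (cons (fin 1036 3 971)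
(mv 1101 (cons (fin 1100 1 1036)
(mv 1041 (cons (fin 1102 1 1037)
(mv 1106 (cons (fin 1105 0 1038)
(mv 1042 (cons (fin 1107 0 1039)
(mv 975 (cons (fin 974 3 974)
(mv 979 (cons (fin 978 2 975)
(mv 1043 (cons (fin 976 3 975)
(fin 980 2 976)))))))))))))))))))
(cons (mv 972 (cons (fin 973 3 972)
(mv 1036 (cons (fin 971 3 971)
(mv 1100 (cons (fin 1099 1 1035)
(fin 1101 1 1036)))))))
(mv 972 (cons (fin 973 3 972)
(mv 1101 (cons (fin 1100 1 1036)
(mv 1041 (cons (fin 1102 1 1037)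
(mv 1105 (cons (fin 1104 0 1037)
(fin 1106 0 1038)))))))))))))
(cons (mv 1037 (cons (cons (mv 972 (cons (fin 973 3 972)
(mv 971 (cons (fin 1036 3 971)
(mv 977 (cons (fin 976 2 973)
(mv 1041 (cons (fin 978 2 974)
(mv 1105 (cons (fin 1104 0 1037)
(fin 1106 0 1038)))))))))))
(mv 972 (cons (fin 973 3 972)
(mv 1036 (cons (fin 971 3 971)
(mv 1100 (cons (fin 1099 1 1035)
(fin 1101 1 1036))))))))
(cons (mv 976 (cons (fin 977 2 973)
(mv 975 (cons (fin 1036 2 972)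
(mv 1100 (cons (fin 1101 1 1036)
(mv 1104 (cons (fin 1105 0 1037)
(mv 911 (cons (fin 1168 7 911)
(fin 847 4 847)))))))))))
(mv 972 (cons (fin 973 3 972)
(mv 977 (cons (fin 976 2 973)
(mv 1041 (cons (fin 978 2 974)
(mv 1105 (cons (fin 1104 0 1037)
(fin 1106 0 1038))))))))))))
(mv 1041 (cons (cons (mv 973 (cons (fin 974 3 973)
(mv 972 (cons (fin 1037 3 972)
(mv 977 (cons (fin 978 2 974)
(mv 1102 (cons (fin 1101 1 1037)
(mv 1042 (cons (fin 1103 1 1038)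
(mv 1106 (cons (fin 1105 0 1038)
(fin 1107 0 1039)))))))))))))
(cons (mv 973 (cons (fin 974 3 973)
(mv 972 (cons (fin 1037 3 972)
(mv 978 (cons (fin 977 2 974)
(mv 1042 (cons (fin 979 2 975)
(mv 1106 (cons (fin 1105 0 1038)
(fin 1107 0 1039)))))))))))
(mv 977 (cons (fin 978 2 974)
(mv 1101 (cons (fin 1102 1 1037)
(mv 1037 (cons (fin 1100 1 1036)
(mv 1105 (cons (fin 1104 0 1037)
(fin 1106 0 1038)))))))))))
(cons (mv 973 (cons (fin 974 3 973)
(mv 972 (cons (fin 1037 3 972)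
(mv 978 (cons (fin 977 2 974)
(mv 1042 (cons (fin 979 2 975)
(mv 1102 (cons (fin 1101 1 1037)
(fin 1103 1 1038)))))))))))
(cons (mv 973 (cons (fin 974 3 973)
(mv 972 (cons (fin 1037 3 972)
(mv 1102 (cons (fin 1101 1 1037)
(mv 1042 (cons (fin 1103 1 1038)
(mv 1106 (cons (fin 1105 0 1038)
(fin 1107 0 1039)))))))))))
(mv 973 (cons (fin 974 3 973)
(mv 977 (cons (fin 978 2 974)
(mv 1102 (cons (fin 1101 1 1037)
(mv 1042 (cons (fin 1103 1 1038)
(mv 1106 (cons (fin 1105 0 1038)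
(fin 1107 0 1039))))))))))))))))))))
(cons (mv 1038 (cons (cons (cons (mv 1037 (cons (cons (mv 972 (cons (fin 973 3 972)
(mv 971 (cons (fin 1036 3 971)
(mv 976 (cons (fin 977 2 973)
(mv 1101 (cons (fin 1100 1 1036)
(mv 1041 (cons (fin 1102 1 1037)
(mv 1105 (cons (fin 1104 0 1037)
(fin 1106 0 1038)))))))))))))
(cons (mv 972 (cons (fin 973 3 972)
(mv 971 (cons (fin 1036 3 971)
(mv 977 (cons (fin 976 2 973)
(mv 1041 (cons (fin 978 2 974)
(mv 1105 (cons (fin 1104 0 1037)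
(fin 1106 0 1038)))))))))))
(mv 976 (cons (fin 977 2 973)
(mv 975 (cons (fin 1036 2 972)
(mv 1100 (cons (fin 1101 1 1036)
(mv 1104 (cons (fin 1105 0 1037)
(mv 911 (cons (fin 1168 7 911)
(fin 847 4 847)))))))))))))
(cons (cons (mv 972 (cons (fin 973 3 972)
(mv 971 (cons (fin 1036 3 971)
(mv 976 (cons (fin 977 2 973)
(mv 1101 (cons (fin 1100 1 1036)
(mv 1041 (cons (fin 1102 1 1037)
(mv 1106 (cons (fin 1105 0 1038)
(mv 1042 (cons (fin 1107 0 1039)
(mv 975 (cons (fin 974 3 974)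
(fin 1043 3 975)))))))))))))))))
(mv 972 (cons (fin 973 3 972)
(mv 971 (cons (fin 1036 3 971)
(mv 1101 (cons (fin 1100 1 1036)
(mv 1041 (cons (fin 1102 1 1037)
(mv 1105 (cons (fin 1104 0 1037)
(fin 1106 0 1038))))))))))))
(cons (mv 972 (cons (fin 973 3 972)
(mv 971 (cons (fin 1036 3 971)
(mv 977 (cons (fin 976 2 973)
(mv 1041 (cons (fin 978 2 974)
(mv 1101 (cons (fin 1100 1 1036)
(fin 1102 1 1037)))))))))))
(mv 972 (cons (fin 973 3 972)
(mv 976 (cons (fin 977 2 973)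
(mv 1101 (cons (fin 1100 1 1036)
(mv 1041 (cons (fin 1102 1 1037)
(mv 1105 (cons (fin 1104 0 1037)
(fin 1106 0 1038)))))))))))))))
(mv 1041 (cons (cons (mv 973 (cons (fin 974 3 973)
(mv 977 (cons (fin 978 2 974)
(mv 1102 (cons (fin 1101 1 1037)
(mv 1042 (cons (fin 1103 1 1038)
(mv 1106 (cons (fin 1105 0 1038)
(fin 1107 0 1039)))))))))))
(cons (mv 973 (cons (fin 974 3 973)
(mv 978 (cons (fin 977 2 974)
(mv 1042 (cons (fin 979 2 975)
(mv 1106 (cons (fin 1105 0 1038)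
(fin 1107 0 1039)))))))))
(mv 977 (cons (fin 978 2 974)
(mv 1102 (cons (fin 1101 1 1037)
(mv 1042 (cons (fin 1103 1 1038)
(mv 1106 (cons (fin 1105 0 1038)
(fin 1107 0 1039)))))))))))
(cons (mv 973 (cons (fin 974 3 973)
(mv 1102 (cons (fin 1101 1 1037)
(mv 1042 (cons (fin 1103 1 1038)
(mv 1106 (cons (fin 1105 0 1038)
(fin 1107 0 1039)))))))))
(cons (mv 973 (cons (fin 974 3 973)
(mv 978 (cons (fin 977 2 974)
(mv 1042 (cons (fin 979 2 975)
(mv 1102 (cons (fin 1101 1 1037)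
(fin 1103 1 1038)))))))))
(mv 973 (cons (fin 974 3 973)
(mv 977 (cons (fin 978 2 974)
(mv 1102 (cons (fin 1101 1 1037)
(mv 1105 (cons (fin 1106 0 1038)
(mv 1169 (cons (mv 976 (cons (fin 912 7 912)
(fin 1233 7 976)))
(mv 1168 (cons (fin 1232 5 976)
(mv 1170 (cons (fin 1234 4 977)
(mv 1103 (cons (fin 1167 3 1102)
(fin 1104 0 1102))))))))))))))))))))))
(cons (mv 1037 (cons (cons (mv 972 (cons (fin 973 3 972)
(mv 976 (cons (fin 977 2 973)
(mv 1036 (cons (fin 971 3 971)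
(fin 975 2 972)))))))
(mv 972 (cons (fin 973 3 972)
(mv 1036 (cons (fin 971 3 971)
(mv 1100 (cons (fin 1099 1 1035)
(fin 1101 1 1036))))))))
(cons (mv 976 (cons (fin 977 2 973)
(mv 975 (cons (fin 1036 2 972)
(mv 1100 (cons (fin 1101 1 1036)
(mv 1104 (cons (fin 1105 0 1037)
(mv 911 (cons (fin 1168 7 911)
(fin 847 4 847)))))))))))
(mv 972 (cons (fin 973 3 972)
(mv 976 (cons (fin 977 2 973)
(mv 1100 (cons (fin 1101 1 1036)
(mv 1104 (cons (fin 1105 0 1037)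
(mv 1168 (cons (mv 975 (cons (fin 911 7 911)
(fin 1232 7 975)))
(mv 1167 (cons (fin 1231 5 975)
(mv 1103 (cons (fin 912 5 911)
(mv 1169 (cons (fin 1233 4 976)
(mv 1170 (cons (fin 1102 3 1102)
(fin 1171 3 1103))))))))))))))))))))))
(mv 1041 (cons (cons (mv 973 (cons (fin 974 3 973)
(mv 972 (cons (fin 1037 3 972)
(mv 977 (cons (fin 978 2 974)
(mv 1106 (cons (fin 1105 0 1038)
(mv 1042 (cons (fin 1107 0 1039)
(mv 1103 (cons (fin 1102 1 1038)
(mv 1104 (cons (fin 1043 1 1039)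
(mv 1168 (cons (fin 1232 6 976)
(mv 911 (cons (fin 975 4 911)
(mv 1170 (cons (fin 1234 7 977)
(mv 1169 (cons (fin 1171 3 1103)
(mv 976 (cons (fin 1233 4 976)
(mv 912 (cons (fin 847 7 847)
(fin 848 5 847)))))))))))))))))))))))))))
(cons (mv 977 (cons (fin 978 2 974)
(mv 976 (cons (fin 1037 2 973)
(mv 1105 (cons (fin 1106 0 1038)
(mv 912 (cons (fin 1169 7 912)
(fin 848 4 848)))))))))
(mv 973 (cons (fin 974 3 973)
(mv 972 (cons (fin 1037 3 972)
(mv 978 (cons (fin 977 2 974)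
(mv 1042 (cons (fin 979 2 975)
(mv 1103 (cons (fin 1102 1 1038)
(mv 1043 (cons (fin 1104 1 1039)
(mv 1107 (cons (fin 1106 0 1039)
(fin 1108 0 1040)))))))))))))))))
(cons (cons (mv 973 (cons (fin 974 3 973)
(mv 972 (cons (fin 1037 3 972)
(mv 1106 (cons (fin 1105 0 1038)
(mv 1042 (cons (fin 1107 0 1039)
(mv 979 (cons (fin 978 2 975)
(mv 1043 (cons (fin 980 2 976)
(mv 1103 (cons (fin 1102 1 1038)
(fin 1104 1 1039)))))))))))))))
(mv 973 (cons (fin 974 3 973)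
(mv 1037 (cons (fin 972 3 972)
(mv 1105 (cons (fin 1104 0 1037)
(fin 1106 0 1038))))))))
(cons (mv 973 (cons (fin 974 3 973)
(mv 977 (cons (fin 978 2 974)
(mv 1037 (cons (fin 972 3 972)
(fin 976 2 973)))))))
(mv 973 (cons (fin 974 3 973)
(mv 977 (cons (fin 978 2 974)
(mv 1106 (cons (fin 1105 0 1038)
(mv 1042 (cons (fin 1107 0 1039)
(mv 1103 (cons (fin 1102 1 1038)
(mv 1104 (cons (fin 1043 1 1039)
(mv 1168 (cons (fin 1232 6 976)
(mv 911 (cons (fin 975 4 911)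
(mv 1170 (cons (fin 1234 7 977)
(mv 1169 (cons (fin 1171 3 1103)
(mv 976 (cons (fin 1233 4 976)
(mv 912 (cons (fin 847 7 847)
(fin 848 5 847)))))))))))))))))))))))))))))))
(cons (cons (mv 1041 (cons (cons (mv 977 (cons (fin 978 2 974)
(mv 976 (cons (fin 1037 2 973)
(mv 1101 (cons (fin 1102 1 1037)
(mv 1105 (cons (fin 1106 0 1038)
(mv 912 (cons (fin 1169 7 912)
(fin 848 4 848)))))))))))
(mv 977 (cons (fin 978 2 974)
(mv 976 (cons (fin 1037 2 973)
(mv 1105 (cons (fin 1106 0 1038)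
(mv 912 (cons (fin 1169 7 912)
(fin 848 4 848))))))))))
(cons (mv 977 (cons (fin 978 2 974)
(mv 976 (cons (fin 1037 2 973)
(mv 1102 (cons (fin 1101 1 1037)
(mv 1042 (cons (fin 1103 1 1038)
(mv 975 (cons (fin 974 3 974)
(fin 1043 3 975)))))))))))
(cons (mv 1101 (cons (fin 1102 1 1037)
(mv 1037 (cons (fin 1100 1 1036)
(mv 1105 (cons (fin 1104 0 1037)
(fin 1106 0 1038)))))))
(mv 977 (cons (fin 978 2 974)
(mv 1102 (cons (fin 1101 1 1037)
(mv 1042 (cons (fin 1103 1 1038)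
(mv 1106 (cons (fin 1105 0 1038)
(fin 1107 0 1039)))))))))))))
(mv 1037 (cons (cons (mv 972 (cons (fin 973 3 972)
(mv 971 (cons (fin 1036 3 971)
(mv 977 (cons (fin 976 2 973)
(mv 1041 (cons (fin 978 2 974)
(mv 1101 (cons (fin 1100 1 1036)
(fin 1102 1 1037)))))))))))
(mv 972 (cons (fin 973 3 972)
(mv 976 (cons (fin 977 2 973)
(mv 1036 (cons (fin 971 3 971)
(fin 975 2 972))))))))
(cons (mv 976 (cons (fin 977 2 973)
(mv 975 (cons (fin 1036 2 972)
(mv 1101 (cons (fin 1100 1 1036)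
(mv 1041 (cons (fin 1102 1 1037)
(mv 1042 (cons (fin 974 3 974)
(fin 1043 3 975)))))))))))
(cons (mv 972 (cons (fin 973 3 972)
(mv 1036 (cons (fin 971 3 971)
(mv 1100 (cons (fin 1099 1 1035)
(fin 1101 1 1036)))))))
(mv 972 (cons (fin 973 3 972)
(mv 977 (cons (fin 976 2 973)
(mv 1041 (cons (fin 978 2 974)
(mv 1101 (cons (fin 1100 1 1036)
(fin 1102 1 1037))))))))))))))
(cons (mv 1037 (cons (cons (mv 972 (cons (fin 973 3 972)
(mv 971 (cons (fin 1036 3 971)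
(mv 1101 (cons (fin 1100 1 1036)
(mv 1041 (cons (fin 1102 1 1037)
(mv 1105 (cons (fin 1104 0 1037)
(fin 1106 0 1038)))))))))))
(cons (mv 972 (cons (fin 973 3 972)
(mv 1036 (cons (fin 971 3 971)
(mv 1104 (cons (fin 1103 0 1036)
(fin 1105 0 1037)))))))
(mv 1100 (cons (fin 1101 1 1036)
(mv 1036 (cons (fin 1099 1 1035)
(mv 1104 (cons (fin 1103 0 1036)
(fin 1105 0 1037)))))))))
(cons (mv 972 (cons (fin 973 3 972)
(mv 971 (cons (fin 1036 3 971)
(mv 1101 (cons (fin 1100 1 1036)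
(mv 1041 (cons (fin 1102 1 1037)
(mv 1106 (cons (fin 1105 0 1038)
(mv 1042 (cons (fin 1107 0 1039)
(mv 975 (cons (fin 974 3 974)
(mv 979 (cons (fin 978 2 975)
(mv 1043 (cons (fin 976 3 975)
(fin 980 2 976)))))))))))))))))))
(cons (mv 972 (cons (fin 973 3 972)
(mv 1036 (cons (fin 971 3 971)
(mv 1100 (cons (fin 1099 1 1035)
(fin 1101 1 1036)))))))
(mv 972 (cons (fin 973 3 972)
(mv 1101 (cons (fin 1100 1 1036)
(mv 1041 (cons (fin 1102 1 1037)
(mv 1105 (cons (fin 1104 0 1037)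
(fin 1106 0 1038)))))))))))))
(cons (mv 1037 (cons (cons (mv 972 (cons (fin 973 3 972)
(mv 971 (cons (fin 1036 3 971)
(mv 977 (cons (fin 976 2 973)
(mv 1041 (cons (fin 978 2 974)
(mv 1105 (cons (fin 1104 0 1037)
(fin 1106 0 1038)))))))))))
(mv 972 (cons (fin 973 3 972)
(mv 1036 (cons (fin 971 3 971)
(mv 1100 (cons (fin 1099 1 1035)
(fin 1101 1 1036))))))))
(cons (mv 976 (cons (fin 977 2 973)
(mv 975 (cons (fin 1036 2 972)
(mv 1100 (cons (fin 1101 1 1036)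
(mv 1104 (cons (fin 1105 0 1037)
(mv 911 (cons (fin 1168 7 911)
(fin 847 4 847)))))))))))
(mv 972 (cons (fin 973 3 972)
(mv 977 (cons (fin 976 2 973)
(mv 1041 (cons (fin 978 2 974)
(mv 1105 (cons (fin 1104 0 1037)
(fin 1106 0 1038))))))))))))
(mv 1041 (cons (cons (mv 973 (cons (fin 974 3 973)
(mv 972 (cons (fin 1037 3 972)
(mv 977 (cons (fin 978 2 974)
(mv 1102 (cons (fin 1101 1 1037)
(mv 1042 (cons (fin 1103 1 1038)
(mv 1106 (cons (fin 1105 0 1038)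
(fin 1107 0 1039)))))))))))))
(cons (mv 973 (cons (fin 974 3 973)
(mv 972 (cons (fin 1037 3 972)
(mv 978 (cons (fin 977 2 974)
(mv 1042 (cons (fin 979 2 975)
(mv 1106 (cons (fin 1105 0 1038)
(fin 1107 0 1039)))))))))))
(mv 977 (cons (fin 978 2 974)
(mv 1101 (cons (fin 1102 1 1037)
(mv 1037 (cons (fin 1100 1 1036)
(mv 1105 (cons (fin 1104 0 1037)
(fin 1106 0 1038)))))))))))
(cons (mv 973 (cons (fin 974 3 973)
(mv 972 (cons (fin 1037 3 972)
(mv 978 (cons (fin 977 2 974)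
(mv 1042 (cons (fin 979 2 975)
(mv 1102 (cons (fin 1101 1 1037)
(fin 1103 1 1038)))))))))))
(cons (mv 973 (cons (fin 974 3 973)
(mv 972 (cons (fin 1037 3 972)
(mv 1102 (cons (fin 1101 1 1037)
(mv 1042 (cons (fin 1103 1 1038)
(mv 1106 (cons (fin 1105 0 1038)
(fin 1107 0 1039)))))))))))
(mv 973 (cons (fin 974 3 973)
(mv 977 (cons (fin 978 2 974)
(mv 1102 (cons (fin 1101 1 1037)
(mv 1042 (cons (fin 1103 1 1038)
(mv 1106 (cons (fin 1105 0 1038)
(fin 1107 0 1039))))))))))))))))))))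
(mv 1038 (cons (cons (cons (mv 1037 (cons (cons (mv 972 (cons (fin 973 3 972)
(mv 971 (cons (fin 1036 3 971)
(mv 976 (cons (fin 977 2 973)
(mv 1101 (cons (fin 1100 1 1036)
(mv 1041 (cons (fin 1102 1 1037)
(mv 1105 (cons (fin 1104 0 1037)
(fin 1106 0 1038)))))))))))))
(cons (mv 976 (cons (fin 977 2 973)
(mv 975 (cons (fin 1036 2 972)
(mv 1100 (cons (fin 1101 1 1036)
(mv 1104 (cons (fin 1105 0 1037)
(mv 911 (cons (fin 1168 7 911)
(fin 847 4 847)))))))))))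
(mv 972 (cons (fin 973 3 972)
(mv 971 (cons (fin 1036 3 971)
(mv 977 (cons (fin 976 2 973)
(mv 1041 (cons (fin 978 2 974)
(mv 1105 (cons (fin 1104 0 1037)
(fin 1106 0 1038)))))))))))))
(cons (cons (mv 972 (cons (fin 973 3 972)
(mv 971 (cons (fin 1036 3 971)
(mv 1101 (cons (fin 1100 1 1036)
(mv 1041 (cons (fin 1102 1 1037)
(mv 1105 (cons (fin 1104 0 1037)
(fin 1106 0 1038)))))))))))
(mv 972 (cons (fin 973 3 972)
(mv 971 (cons (fin 1036 3 971)
(mv 976 (cons (fin 977 2 973)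
(mv 1101 (cons (fin 1100 1 1036)
(mv 1041 (cons (fin 1102 1 1037)
(mv 1106 (cons (fin 1105 0 1038)
(mv 1042 (cons (fin 1107 0 1039)
(mv 975 (cons (fin 974 3 974)
(fin 1043 3 975))))))))))))))))))
(cons (mv 972 (cons (fin 973 3 972)
(mv 971 (cons (fin 1036 3 971)
(mv 977 (cons (fin 976 2 973)
(mv 1041 (cons (fin 978 2 974)
(mv 1101 (cons (fin 1100 1 1036)
(fin 1102 1 1037)))))))))))
(mv 972 (cons (fin 973 3 972)
(mv 976 (cons (fin 977 2 973)
(mv 1101 (cons (fin 1100 1 1036)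
(mv 1041 (cons (fin 1102 1 1037)
(mv 1105 (cons (fin 1104 0 1037)
(fin 1106 0 1038)))))))))))))))
(mv 1041 (cons (cons (mv 973 (cons (fin 974 3 973)
(mv 977 (cons (fin 978 2 974)
(mv 1102 (cons (fin 1101 1 1037)
(mv 1042 (cons (fin 1103 1 1038)
(mv 1106 (cons (fin 1105 0 1038)
(fin 1107 0 1039)))))))))))
(cons (mv 977 (cons (fin 978 2 974)
(mv 1102 (cons (fin 1101 1 1037)
(mv 1042 (cons (fin 1103 1 1038)
(mv 1106 (cons (fin 1105 0 1038)
(fin 1107 0 1039)))))))))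
(mv 973 (cons (fin 974 3 973)
(mv 978 (cons (fin 977 2 974)
(mv 1042 (cons (fin 979 2 975)
(mv 1106 (cons (fin 1105 0 1038)
(fin 1107 0 1039)))))))))))
(cons (mv 973 (cons (fin 974 3 973)
(mv 978 (cons (fin 977 2 974)
(mv 1042 (cons (fin 979 2 975)
(mv 1102 (cons (fin 1101 1 1037)
(fin 1103 1 1038)))))))))
(cons (mv 973 (cons (fin 974 3 973)
(mv 1102 (cons (fin 1101 1 1037)
(mv 1042 (cons (fin 1103 1 1038)
(mv 1106 (cons (fin 1105 0 1038)
(fin 1107 0 1039)))))))))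
(mv 973 (cons (fin 974 3 973)
(mv 977 (cons (fin 978 2 974)
(mv 1102 (cons (fin 1101 1 1037)
(mv 1105 (cons (fin 1106 0 1038)
(mv 913 (cons (mv 1104 (cons (fin 849 5 848)
(fin 1168 5 912)))
(cons (mv 848 (cons (fin 912 7 848)
(mv 849 (cons (fin 784 7 784)
(mv 850 (cons (fin 786 6 785)
(fin 914 6 849)))))))
(mv 912 (cons (fin 848 7 848)
(mv 914 (cons (fin 850 6 849)
(mv 1104 (cons (fin 1168 5 912)
(mv 915 (cons (mv 976 (cons (fin 975 1 911)
(fin 916 1 912)))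
(cons (mv 852 (cons (fin 851 2 848)
(mv 916 (cons (fin 853 2 849)
(mv 980 (cons (fin 979 0 912)
(fin 981 0 913)))))))
(mv 851 (cons (fin 852 2 848)
(mv 975 (cons (fin 976 1 911)
(mv 911 (cons (fin 847 5 846)
(mv 1166 (cons (fin 1103 5 910)
(fin 1230 6 974))))))))))))))))))))))))))))))))))
(cons (mv 1037 (cons (cons (mv 972 (cons (fin 973 3 972)
(mv 976 (cons (fin 977 2 973)
(mv 1036 (cons (fin 971 3 971)
(fin 975 2 972)))))))
(mv 972 (cons (fin 973 3 972)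
(mv 1036 (cons (fin 971 3 971)
(mv 1100 (cons (fin 1099 1 1035)
(fin 1101 1 1036))))))))
(cons (mv 976 (cons (fin 977 2 973)
(mv 975 (cons (fin 1036 2 972)
(mv 1100 (cons (fin 1101 1 1036)
(mv 1104 (cons (fin 1105 0 1037)
(mv 911 (cons (fin 1168 7 911)
(fin 847 4 847)))))))))))
(mv 972 (cons (fin 973 3 972)
(mv 976 (cons (fin 977 2 973)
(mv 1100 (cons (fin 1101 1 1036)
(mv 1104 (cons (fin 1105 0 1037)
(mv 912 (cons (mv 1103 (cons (fin 848 5 847)
(fin 1167 5 911)))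
(cons (mv 847 (cons (fin 911 7 847)
(mv 848 (cons (fin 783 7 783)
(mv 849 (cons (fin 785 6 784)
(fin 913 6 848)))))))
(mv 849 (cons (fin 913 6 848)
(mv 911 (cons (fin 847 7 847)
(mv 975 (cons (fin 1168 7 911)
(mv 1103 (cons (fin 1167 5 911)
(mv 910 (cons (fin 846 7 846)
(mv 909 (cons (fin 908 0 908)
(mv 845 (cons (fin 844 3 844)
(mv 1102 (cons (fin 974 7 845)
(fin 1166 5 910)))))))))))))))))))))))))))))))
(cons (mv 1041 (cons (cons (mv 977 (cons (fin 978 2 974)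
(mv 976 (cons (fin 1037 2 973)
(mv 1101 (cons (fin 1102 1 1037)
(mv 1106 (cons (fin 1105 0 1038)
(mv 1042 (cons (fin 1107 0 1039)
(mv 975 (cons (fin 974 3 974)
(fin 1043 3 975)))))))))))))
(mv 977 (cons (fin 978 2 974)
(mv 976 (cons (fin 1037 2 973)
(mv 1106 (cons (fin 1105 0 1038)
(mv 1042 (cons (fin 1107 0 1039)
(mv 975 (cons (fin 974 3 974)
(fin 1043 3 975))))))))))))
(cons (mv 1101 (cons (fin 1102 1 1037)
(mv 1037 (cons (fin 1100 1 1036)
(mv 1105 (cons (fin 1104 0 1037)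
(fin 1106 0 1038)))))))
(cons (mv 977 (cons (fin 978 2 974)
(mv 976 (cons (fin 1037 2 973)
(mv 1102 (cons (fin 1101 1 1037)
(mv 1042 (cons (fin 1103 1 1038)
(mv 975 (cons (fin 974 3 974)
(fin 1043 3 975)))))))))))
(mv 977 (cons (fin 978 2 974)
(mv 1102 (cons (fin 1101 1 1037)
(mv 1042 (cons (fin 1103 1 1038)
(mv 1106 (cons (fin 1105 0 1038)
(fin 1107 0 1039)))))))))))))
(mv 1041 (cons (cons (mv 973 (cons (fin 974 3 973)
(mv 972 (cons (fin 1037 3 972)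
(mv 977 (cons (fin 978 2 974)
(mv 1106 (cons (fin 1105 0 1038)
(mv 1042 (cons (fin 1107 0 1039)
(mv 913 (cons (fin 849 4 849)
(mv 1103 (cons (fin 1102 1 1038)
(mv 1104 (cons (fin 1043 1 1039)
(mv 1168 (cons (fin 976 6 912)
(fin 1232 6 976)))))))))))))))))))
(cons (mv 977 (cons (fin 978 2 974)
(mv 976 (cons (fin 1037 2 973)
(mv 1106 (cons (fin 1105 0 1038)
(mv 1042 (cons (fin 1107 0 1039)
(mv 849 (cons (fin 913 4 849)
(mv 975 (cons (fin 1043 3 975)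
(mv 1103 (cons (fin 1102 1 1038)
(mv 912 (cons (fin 848 5 847)
(fin 1167 6 911)))))))))))))))))
(mv 973 (cons (fin 974 3 973)
(mv 972 (cons (fin 1037 3 972)
(mv 1106 (cons (fin 1105 0 1038)
(mv 1042 (cons (fin 1107 0 1039)
(mv 979 (cons (fin 978 2 975)
(mv 1043 (cons (fin 980 2 976)
(mv 1103 (cons (fin 1102 1 1038)
(fin 1104 1 1039)))))))))))))))))
(cons (cons (mv 973 (cons (fin 974 3 973)
(mv 972 (cons (fin 1037 3 972)
(mv 978 (cons (fin 977 2 974)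
(mv 1042 (cons (fin 979 2 975)
(mv 1103 (cons (fin 1102 1 1038)
(mv 1043 (cons (fin 1104 1 1039)
(mv 1107 (cons (fin 1106 0 1039)
(fin 1108 0 1040)))))))))))))))
(mv 973 (cons (fin 974 3 973)
(mv 977 (cons (fin 978 2 974)
(mv 1037 (cons (fin 972 3 972)
(fin 976 2 973))))))))
(cons (mv 973 (cons (fin 974 3 973)
(mv 1037 (cons (fin 972 3 972)
(mv 1105 (cons (fin 1104 0 1037)
(fin 1106 0 1038)))))))
(mv 973 (cons (fin 974 3 973)
(mv 977 (cons (fin 978 2 974)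
(mv 1106 (cons (fin 1105 0 1038)
(mv 1042 (cons (fin 1107 0 1039)
(mv 913 (cons (fin 849 4 849)
(mv 1103 (cons (fin 1102 1 1038)
(mv 1104 (cons (fin 1043 1 1039)
(mv 1168 (cons (fin 976 6 912)
(fin 1232 6 976))))))))))))))))))))))))
(cons (cons (mv 1037 (cons (cons (mv 972 (cons (fin 973 3 972)
(mv 971 (cons (fin 1036 3 971)
(mv 1101 (cons (fin 1100 1 1036)
(mv 1041 (cons (fin 1102 1 1037)
(mv 1105 (cons (fin 1104 0 1037)
(fin 1106 0 1038)))))))))))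
(cons (mv 1100 (cons (fin 1101 1 1036)
(mv 1036 (cons (fin 1099 1 1035)
(mv 1104 (cons (fin 1103 0 1036)
(fin 1105 0 1037)))))))
(mv 972 (cons (fin 973 3 972)
(mv 1036 (cons (fin 971 3 971)
(mv 1104 (cons (fin 1103 0 1036)
(fin 1105 0 1037)))))))))
(cons (mv 972 (cons (fin 973 3 972)
(mv 971 (cons (fin 1036 3 971)
(mv 1101 (cons (fin 1100 1 1036)
(mv 1041 (cons (fin 1102 1 1037)
(mv 1106 (cons (fin 1105 0 1038)
(mv 1042 (cons (fin 1107 0 1039)
(mv 975 (cons (fin 974 3 974)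
(mv 979 (cons (fin 978 2 975)
(mv 1043 (cons (fin 976 3 975)
(fin 980 2 976)))))))))))))))))))
(cons (mv 972 (cons (fin 973 3 972)
(mv 1036 (cons (fin 971 3 971)
(mv 1100 (cons (fin 1099 1 1035)
(fin 1101 1 1036)))))))
(mv 972 (cons (fin 973 3 972)
(mv 1101 (cons (fin 1100 1 1036)
(mv 1041 (cons (fin 1102 1 1037)
(mv 1105 (cons (fin 1104 0 1037)
(fin 1106 0 1038)))))))))))))
(mv 1037 (cons (cons (mv 972 (cons (fin 973 3 972)
(mv 971 (cons (fin 1036 3 971)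
(mv 977 (cons (fin 976 2 973)
(mv 1041 (cons (fin 978 2 974)
(mv 1101 (cons (fin 1100 1 1036)
(fin 1102 1 1037)))))))))))
(mv 976 (cons (fin 977 2 973)
(mv 975 (cons (fin 1036 2 972)
(mv 1101 (cons (fin 1100 1 1036)
(mv 1041 (cons (fin 1102 1 1037)
(mv 1042 (cons (fin 974 3 974)
(fin 1043 3 975))))))))))))
(cons (mv 972 (cons (fin 973 3 972)
(mv 976 (cons (fin 977 2 973)
(mv 1036 (cons (fin 971 3 971)
(fin 975 2 972)))))))
(cons (mv 972 (cons (fin 973 3 972)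
(mv 1036 (cons (fin 971 3 971)
(mv 1100 (cons (fin 1099 1 1035)
(fin 1101 1 1036)))))))
(mv 972 (cons (fin 973 3 972)
(mv 977 (cons (fin 976 2 973)
(mv 1041 (cons (fin 978 2 974)
(mv 1101 (cons (fin 1100 1 1036)
(fin 1102 1 1037))))))))))))))
(cons (mv 1037 (cons (cons (mv 972 (cons (fin 973 3 972)
(mv 971 (cons (fin 1036 3 971)
(mv 976 (cons (fin 977 2 973)
(mv 1101 (cons (fin 1100 1 1036)
(mv 1041 (cons (fin 1102 1 1037)
(mv 1105 (cons (fin 1104 0 1037)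
(fin 1106 0 1038)))))))))))))
(cons (mv 972 (cons (fin 973 3 972)
(mv 971 (cons (fin 1036 3 971)
(mv 976 (cons (fin 977 2 973)
(mv 1101 (cons (fin 1100 1 1036)
(mv 1041 (cons (fin 1102 1 1037)
(mv 1106 (cons (fin 1105 0 1038)
(mv 1042 (cons (fin 1107 0 1039)
(mv 979 (cons (fin 978 2 975)
(mv 1043 (cons (fin 975 3 975)
(fin 980 2 976)))))))))))))))))))
(mv 972 (cons (fin 973 3 972)
(mv 971 (cons (fin 1036 3 971)
(mv 1101 (cons (fin 1100 1 1036)
(mv 1041 (cons (fin 1102 1 1037)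
(mv 1105 (cons (fin 1104 0 1037)
(fin 1106 0 1038)))))))))))))
(cons (cons (mv 972 (cons (fin 973 3 972)
(mv 971 (cons (fin 1036 3 971)
(mv 977 (cons (fin 976 2 973)
(mv 1041 (cons (fin 978 2 974)
(mv 1105 (cons (fin 1104 0 1037)
(fin 1106 0 1038)))))))))))
(mv 972 (cons (fin 973 3 972)
(mv 971 (cons (fin 1036 3 971)
(mv 977 (cons (fin 976 2 973)
(mv 1041 (cons (fin 978 2 974)
(mv 1101 (cons (fin 1100 1 1036)
(fin 1102 1 1037))))))))))))
(cons (mv 976 (cons (fin 977 2 973)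
(mv 975 (cons (fin 1036 2 972)
(mv 1100 (cons (fin 1101 1 1036)
(mv 1104 (cons (fin 1105 0 1037)
(mv 911 (cons (fin 1168 7 911)
(fin 847 4 847)))))))))))
(mv 972 (cons (fin 973 3 972)
(mv 976 (cons (fin 977 2 973)
(mv 1101 (cons (fin 1100 1 1036)
(mv 1041 (cons (fin 1102 1 1037)
(mv 1105 (cons (fin 1104 0 1037)
(fin 1106 0 1038)))))))))))))))
(cons (mv 1037 (cons (cons (mv 972 (cons (fin 973 3 972)
(mv 971 (cons (fin 1036 3 971)
(mv 977 (cons (fin 976 2 973)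
(mv 1041 (cons (fin 978 2 974)
(mv 1105 (cons (fin 1104 0 1037)
(fin 1106 0 1038)))))))))))
(mv 972 (cons (fin 973 3 972)
(mv 1036 (cons (fin 971 3 971)
(mv 1100 (cons (fin 1099 1 1035)
(fin 1101 1 1036))))))))
(cons (mv 976 (cons (fin 977 2 973)
(mv 975 (cons (fin 1036 2 972)
(mv 1100 (cons (fin 1101 1 1036)
(mv 1104 (cons (fin 1105 0 1037)
(mv 911 (cons (fin 1168 7 911)
(fin 847 4 847)))))))))))
(mv 972 (cons (fin 973 3 972)
(mv 977 (cons (fin 976 2 973)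
(mv 1041 (cons (fin 978 2 974)
(mv 1105 (cons (fin 1104 0 1037)
(fin 1106 0 1038))))))))))))
(mv 1041 (cons (cons (mv 973 (cons (fin 974 3 973)
(mv 972 (cons (fin 1037 3 972)
(mv 977 (cons (fin 978 2 974)
(mv 1102 (cons (fin 1101 1 1037)
(mv 1042 (cons (fin 1103 1 1038)
(mv 1106 (cons (fin 1105 0 1038)
(fin 1107 0 1039)))))))))))))
(cons (mv 973 (cons (fin 974 3 973)
(mv 972 (cons (fin 1037 3 972)
(mv 978 (cons (fin 977 2 974)
(mv 1042 (cons (fin 979 2 975)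
(mv 1106 (cons (fin 1105 0 1038)
(fin 1107 0 1039)))))))))))
(mv 977 (cons (fin 978 2 974)
(mv 1101 (cons (fin 1102 1 1037)
(mv 1037 (cons (fin 1100 1 1036)
(mv 1105 (cons (fin 1104 0 1037)
(fin 1106 0 1038)))))))))))
(cons (mv 973 (cons (fin 974 3 973)
(mv 972 (cons (fin 1037 3 972)
(mv 978 (cons (fin 977 2 974)
(mv 1042 (cons (fin 979 2 975)
(mv 1102 (cons (fin 1101 1 1037)
(fin 1103 1 1038)))))))))))
(cons (mv 973 (cons (fin 974 3 973)
(mv 972 (cons (fin 1037 3 972)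
(mv 1102 (cons (fin 1101 1 1037)
(mv 1042 (cons (fin 1103 1 1038)
(mv 1106 (cons (fin 1105 0 1038)
(fin 1107 0 1039)))))))))))
(mv 973 (cons (fin 974 3 973)
(mv 977 (cons (fin 978 2 974)
(mv 1102 (cons (fin 1101 1 1037)
(mv 1042 (cons (fin 1103 1 1038)
(mv 1106 (cons (fin 1105 0 1038)
(fin 1107 0 1039))))))))))))))))))))))))))
def l0 : Lem := ⟨11781361728633673532894774498354952494238773929196300355071513798753168641589311119865182769801300280680127783231251635087526446289021607771691249214388576215221396663491984443067742263787264024212477244347842938066577043117995647400274369612403653814737339068225047641453182709824206687753689912418253153056587776, 88076925712497014079902658256546407244432037617741107297750876545096807130207693863922381793153063476162888178038650668266798320188139628791394449618905877264316760863520386686319102018533028314368089581959527334515641581444067219655120445352563437989746703419945456459539991322422449070508017881567831216415185533265666713621047644524304738686941299031150458450463626865794396078212786698560793282799841837056,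 88076925712497014079902658256546407244432037617741107297750876545096807130207693863922381793153063476162888178038650668266798320188139628791394449618905877264316760863520386686319102018533028314368089581959527334515641581444067219655120445352563437989746703419945456459539991322422449070508017881567831216415185533265666713621047644524304738686941299031150458450463626865794396078212786698560793282799841837056, 19, 33⟩
theorem l0_valid : l0.Valid :=
  Lem.valid_of_chk t0 t0_valid [1040] c0 l0 (by decide +kernel)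
end Crest.Agent.SnakyAux
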