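import Crest.Agent.S0047_aux.Checker

set_option autoImplicit false
set_option maxRecDepth 100000
namespace Crest.Agent.SnakyAux
open Cert
def t100 : Tbl := Tbl.nil
theorem t100_valid : t100.Valid := Tbl.valid_nil
def c100 : Cert :=
(mv 1101 (cons (cons (cons (cons (mv 1038 (cons (cons (cons (mv 1039 (cons (fin 1100 1 1036)
(mv 972 (cons (fin 973 3 972)
(mv 1036 (cons (fin 971 3 971)
(mv 1104 (cons (fin 1103 0 1036)
(fin 1105 0 1037)))))))))
(mv 974 (cons (cons (mv 910 (cons (fin 846 5 845)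
(mv 1165 (cons (fin 1102 5 909)
(fin 973 6 909)))))
(mv 910 (cons (fin 846 5 845)
(mv 1102 (cons (cons (mv 845 (cons (fin 909 7 845)
(mv 847 (cons (fin 911 6 846)
(mv 1103 (cons (fin 1167 4 910)
(mv 1036 (cons (fin 1104 3 1036)
(fin 1035 0 1035)))))))))
(mv 847 (cons (fin 911 6 846)
(mv 1103 (cons (fin 1167 4 910)
(mv 1036 (cons (fin 1104 3 1036)
(fin 1035 0 1035))))))))
(cons (mv 845 (cons (fin 909 7 845)
(mv 911 (cons (fin 847 6 846)
(mv 1166 (cons (fin 975 6 910)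
(mv 1230 (cons (fin 973 7 973)
(fin 1294 7 1037)))))))))
(mv 845 (cons (fin 909 7 845)
(mv 1103 (cons (fin 1167 4 910)
(mv 1036 (cons (fin 1104 3 1036)
(fin 1035 0 1035)))))))))))))
(cons (mv 1165 (cons (fin 1229 6 973)
(mv 973 (cons (cons (mv 908 (cons (fin 972 7 908)
(mv 909 (cons (fin 844 7 844)
(mv 845 (cons (fin 781 4 781)
(fin 1102 4 845)))))))
(mv 1164 (cons (fin 1228 5 972)
(mv 909 (cons (fin 1100 5 908)
(mv 845 (cons (fin 781 4 781)
(fin 1102 4 845))))))))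
(cons (mv 972 (cons (fin 908 7 908)
(mv 971 (cons (fin 970 0 970)
(mv 906 (cons (fin 907 3 906)
(mv 1035 (cons (fin 1034 1 970)
(mv 975 (cons (fin 1036 1 971)
(mv 911 (cons (fin 912 2 908)
(mv 1166 (cons (fin 1102 6 910)
(fin 1230 4 973)))))))))))))))
(mv 908 (cons (fin 972 7 908)
(mv 909 (cons (fin 844 7 844)
(mv 1164 (cons (fin 1100 5 908)
(fin 1228 5 972))))))))))))
(cons (mv 910 (cons (fin 846 5 845)
(mv 1165 (cons (fin 973 6 909)
(fin 1229 6 973)))))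
(mv 910 (cons (fin 846 5 845)
(mv 1165 (cons (fin 1102 5 909)
(fin 1229 6 973))))))))))
(cons (mv 974 (cons (cons (mv 910 (cons (fin 846 5 845)
(mv 1165 (cons (fin 1102 5 909)
(fin 973 6 909)))))
(mv 1165 (cons (fin 1229 6 973)
(mv 973 (cons (mv 972 (cons (fin 1039 3 972)
(fin 908 7 908)))
(cons (mv 1164 (cons (fin 1228 5 972)
(mv 1166 (cons (fin 1230 4 973)
(mv 909 (cons (fin 1102 7 909)
(mv 844 (cons (fin 908 7 844)
(mv 845 (cons (fin 780 7 780)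
(fin 781 4 781)))))))))))
(mv 972 (cons (fin 1039 3 972)
(mv 970 (cons (fin 971 0 970)
(mv 1164 (cons (fin 1228 5 972)
(mv 1166 (cons (fin 1230 4 973)
(mv 1102 (cons (fin 909 7 909)
(mv 1103 (cons (fin 1104 1 1100)
(fin 1163 2 1099)))))))))))))))))))
(cons (mv 910 (cons (fin 846 5 845)
(mv 1102 (cons (cons (mv 845 (cons (fin 909 7 845)
(mv 847 (cons (fin 911 6 846)
(mv 1103 (cons (fin 1167 4 910)
(mv 1036 (cons (fin 1104 3 1036)
(fin 1035 0 1035)))))))))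
(mv 845 (cons (fin 909 7 845)
(mv 911 (cons (fin 847 6 846)
(mv 1166 (cons (fin 975 6 910)
(mv 1230 (cons (fin 973 7 973)
(fin 1294 7 1037))))))))))
(cons (mv 847 (cons (fin 911 6 846)
(mv 1103 (cons (fin 1167 4 910)
(mv 1036 (cons (fin 1104 3 1036)
(fin 1035 0 1035)))))))
(mv 845 (cons (fin 909 7 845)
(mv 1103 (cons (fin 1167 4 910)
(mv 1036 (cons (fin 1104 3 1036)
(fin 1035 0 1035))))))))))))
(cons (mv 910 (cons (fin 846 5 845)
(mv 1165 (cons (fin 1102 5 909)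
(fin 1229 6 973)))))
(mv 910 (cons (fin 846 5 845)
(mv 1165 (cons (fin 973 6 909)
(fin 1229 6 973)))))))))
(mv 1039 (cons (fin 1100 1 1036)
(mv 1104 (cons (fin 1105 0 1037)
(mv 1036 (cons (fin 1103 0 1036)
(mv 971 (cons (fin 972 3 971)
(mv 1035 (cons (fin 970 3 970)
(mv 974 (cons (fin 975 2 971)
(mv 846 (cons (fin 910 5 845)
(mv 1034 (cons (fin 1102 0 1034)
(mv 1098 (cons (fin 1097 1 1033)
(fin 1099 1 1034)))))))))))))))))))))
(cons (cons (mv 1039 (cons (fin 1100 1 1036)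
(mv 1104 (cons (fin 1105 0 1037)
(mv 1036 (cons (fin 1103 0 1036)
(mv 1035 (cons (cons (mv 970 (cons (fin 971 3 970)
(mv 1034 (cons (fin 969 3 969)
(fin 1102 0 1034)))))
(mv 970 (cons (fin 971 3 970)
(mv 974 (cons (fin 975 2 971)
(mv 910 (cons (fin 846 5 845)
(mv 1165 (cons (fin 1102 5 909)
(fin 973 6 909))))))))))
(cons (mv 974 (cons (fin 975 2 971)
(mv 1034 (cons (fin 973 2 970)
(fin 1102 0 1034)))))
(mv 970 (cons (fin 971 3 970)
(mv 969 (cons (fin 1034 3 969)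
(mv 974 (cons (fin 975 2 971)
(mv 910 (cons (fin 846 5 845)
(mv 1165 (cons (fin 973 6 909)
(fin 1229 6 973))))))))))))))))))))
(mv 1039 (cons (fin 1100 1 1036)
(mv 972 (cons (fin 973 3 972)
(mv 1036 (cons (fin 971 3 971)
(mv 844 (cons (fin 908 4 844)
(mv 1165 (cons (fin 1229 7 972)
(mv 1102 (cons (mv 1035 (cons (fin 1034 0 1034)
(fin 1103 0 1035)))
(cons (mv 974 (cons (fin 910 5 909)
(mv 1166 (cons (mv 975 (cons (fin 911 6 910)
(fin 1230 6 974)))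
(cons (mv 975 (cons (fin 911 6 910)
(mv 1167 (cons (fin 1231 4 974)
(mv 1168 (cons (fin 1169 3 1101)
(mv 1232 (cons (fin 1233 0 1165)
(fin 1103 4 975)))))))))
(mv 1230 (cons (fin 1294 7 1037)
(mv 1231 (cons (fin 1167 4 974)
(fin 1295 4 1038))))))))))
(mv 974 (cons (fin 910 5 909)
(mv 1035 (cons (fin 975 2 971)
(fin 1034 0 1034)))))))))))))))))))
(cons (mv 1039 (cons (fin 1100 1 1036)
(mv 973 (cons (fin 972 3 972)
(mv 1104 (cons (fin 1105 0 1037)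
(mv 1165 (cons (mv 974 (cons (fin 910 6 909)
(fin 1229 6 973)))
(mv 1164 (cons (fin 1228 5 972)
(mv 1102 (cons (fin 1103 1 1100)
(mv 909 (cons (fin 845 4 845)
(fin 1166 4 909)))))))))))))))
(mv 1039 (cons (fin 1100 1 1036)
(mv 972 (cons (fin 973 3 972)
(mv 1036 (cons (fin 971 3 971)
(mv 844 (cons (fin 908 4 844)
(mv 1104 (cons (fin 1105 0 1037)
(mv 1165 (cons (fin 1229 7 972)
(mv 974 (cons (mv 910 (cons (fin 846 5 845)
(fin 1102 5 909)))
(cons (mv 1035 (cons (fin 975 2 971)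
(mv 1034 (cons (fin 1102 0 1034)
(mv 1098 (cons (fin 1097 1 1033)
(fin 1099 1 1034)))))))
(mv 846 (cons (fin 910 5 845)
(mv 975 (cons (fin 1035 2 971)
(mv 847 (cons (fin 911 4 847)
(mv 845 (cons (cons (mv 779 (cons (fin 780 3 779)
(mv 783 (cons (fin 784 2 780)
(mv 843 (cons (fin 778 3 778)
(fin 782 2 779)))))))
(mv 783 (cons (fin 784 2 780)
(mv 843 (cons (fin 782 2 779)
(mv 778 (cons (fin 779 3 778)
(mv 842 (cons (fin 777 3 777)
(mv 906 (cons (fin 905 1 841)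
(fin 907 1 842))))))))))))
(cons (mv 780 (cons (fin 779 3 779)
(mv 848 (cons (fin 781 3 780)
(mv 785 (cons (fin 784 2 781)
(mv 849 (cons (fin 786 2 782)
(mv 913 (cons (fin 912 0 845)
(fin 914 0 846)))))))))))
(cons (mv 784 (cons (fin 783 2 780)
(mv 848 (cons (fin 785 2 781)
(mv 781 (cons (fin 780 3 780)
(mv 849 (cons (fin 782 3 781)
(mv 913 (cons (fin 912 0 845)
(fin 914 0 846)))))))))))
(mv 779 (cons (fin 780 3 779)
(mv 843 (cons (fin 778 3 778)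
(mv 782 (cons (fin 783 2 779)
(mv 842 (cons (fin 781 2 778)
(mv 906 (cons (fin 905 1 841)
(fin 907 1 842))))))))))))))))))))))))))))))))))))))))
(mv 973 (cons (cons (mv 1165 (cons (cons (mv 908 (cons (fin 972 7 908)
(mv 844 (cons (fin 909 7 844)
(mv 910 (cons (fin 974 6 909)
(mv 1228 (cons (fin 1164 5 972)
(mv 1229 (cons (fin 1292 5 1036)
(mv 1230 (cons (fin 1166 4 973)
(fin 1294 4 1037)))))))))))))
(mv 908 (cons (fin 972 7 908)
(mv 909 (cons (fin 844 7 844)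
(mv 910 (cons (fin 846 6 845)
(fin 974 6 909))))))))
(cons (mv 910 (cons (fin 974 6 909)
(mv 846 (cons (fin 909 6 845)
(mv 1228 (cons (fin 1164 5 972)
(mv 1229 (cons (fin 1292 5 1036)
(mv 1230 (cons (fin 1166 4 973)
(fin 1294 4 1037)))))))))))
(cons (mv 908 (cons (fin 972 7 908)
(mv 844 (cons (fin 909 7 844)
(mv 1228 (cons (fin 1164 5 972)
(mv 1229 (cons (fin 1292 5 1036)
(mv 1230 (cons (fin 1166 4 973)
(fin 1294 4 1037)))))))))))
(mv 908 (cons (fin 972 7 908)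
(mv 910 (cons (fin 974 6 909)
(mv 1228 (cons (fin 1164 5 972)
(mv 1229 (cons (fin 1292 5 1036)
(mv 1230 (cons (fin 1166 4 973)
(fin 1294 4 1037)))))))))))))))
(cons (mv 909 (cons (cons (mv 844 (cons (fin 908 7 844)
(mv 780 (cons (fin 845 7 780)
(mv 846 (cons (fin 910 6 845)
(mv 1100 (cons (fin 1164 5 908)
(mv 1102 (cons (fin 1166 4 909)
(mv 1103 (cons (fin 1039 2 1036)
(mv 1036 (cons (fin 1035 3 1035)
(fin 1104 3 1036)))))))))))))))
(mv 844 (cons (fin 908 7 844)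
(mv 845 (cons (fin 780 7 780)
(mv 846 (cons (fin 782 6 781)
(fin 910 6 845))))))))
(cons (mv 846 (cons (fin 910 6 845)
(mv 782 (cons (fin 845 6 781)
(mv 1100 (cons (fin 1164 5 908)
(mv 1102 (cons (fin 1166 4 909)
(mv 1103 (cons (fin 1039 2 1036)
(mv 1036 (cons (fin 1035 3 1035)
(fin 1104 3 1036)))))))))))))
(cons (mv 844 (cons (fin 908 7 844)
(mv 780 (cons (fin 845 7 780)
(mv 1100 (cons (fin 1164 5 908)
(mv 1102 (cons (fin 1166 4 909)
(mv 1103 (cons (fin 1039 2 1036)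
(mv 1036 (cons (fin 1035 3 1035)
(fin 1104 3 1036)))))))))))))
(mv 844 (cons (fin 908 7 844)
(mv 846 (cons (fin 910 6 845)
(mv 1100 (cons (fin 1164 5 908)
(mv 1102 (cons (fin 1166 4 909)
(mv 1103 (cons (fin 1039 2 1036)
(mv 1036 (cons (fin 1035 3 1035)
(fin 1104 3 1036)))))))))))))))))
(mv 1165 (cons (cons (mv 908 (cons (fin 972 7 908)
(mv 910 (cons (fin 974 6 909)
(mv 1228 (cons (fin 1164 5 972)
(mv 1229 (cons (fin 1292 5 1036)
(mv 1230 (cons (fin 1166 4 973)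
(fin 1294 4 1037)))))))))))
(cons (mv 910 (cons (fin 974 6 909)
(mv 1228 (cons (fin 1164 5 972)
(mv 1229 (cons (fin 1292 5 1036)
(mv 1230 (cons (fin 1166 4 973)
(fin 1294 4 1037)))))))))
(mv 910 (cons (fin 974 6 909)
(mv 972 (cons (fin 908 7 908)
(mv 1229 (cons (fin 1036 7 972)
(mv 1230 (cons (fin 1166 4 973)
(fin 1294 4 1037)))))))))))
(cons (mv 910 (cons (fin 974 6 909)
(mv 972 (cons (fin 908 7 908)
(mv 1228 (cons (fin 1164 5 972)
(mv 1229 (cons (fin 1036 7 972)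
(fin 1292 5 1036)))))))))
(cons (mv 908 (cons (fin 972 7 908)
(mv 1228 (cons (fin 1164 5 972)
(mv 1229 (cons (fin 1292 5 1036)
(mv 1230 (cons (fin 1166 4 973)
(fin 1294 4 1037)))))))))
(mv 972 (cons (fin 908 7 908)
(mv 974 (cons (fin 910 6 909)
(mv 975 (cons (fin 1039 0 972)
(mv 911 (cons (fin 912 2 908)
(mv 1035 (cons (fin 1036 1 971)
(mv 971 (cons (fin 1034 1 970)
(mv 906 (cons (fin 907 3 906)
(mv 970 (cons (fin 905 3 905)
(mv 778 (cons (fin 842 4 778)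
(mv 1099 (cons (fin 1163 7 906)
(mv 1164 (cons (fin 1228 5 972)
(mv 1166 (cons (fin 1230 4 973)
(mv 1100 (cons (fin 1167 3 1099)
(fin 1098 0 1098)))))))))))))))))))))))))))))))))
(cons (cons (mv 909 (cons (cons (mv 844 (cons (fin 908 7 844)
(mv 780 (cons (fin 845 7 780)
(mv 910 (cons (fin 846 6 845)
(mv 1165 (cons (fin 974 6 909)
(mv 1166 (cons (fin 1102 4 909)
(fin 1230 4 973)))))))))))
(cons (mv 846 (cons (fin 910 6 845)
(mv 845 (cons (fin 782 6 781)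
(mv 780 (cons (fin 844 7 780)
(mv 781 (cons (fin 716 7 716)
(mv 1036 (cons (fin 972 5 780)
(fin 1100 5 844)))))))))))
(mv 844 (cons (fin 908 7 844)
(mv 845 (cons (fin 780 7 780)
(mv 782 (cons (fin 846 6 781)
(mv 781 (cons (fin 718 6 717)
(mv 1036 (cons (fin 972 5 780)
(fin 1100 5 844)))))))))))))
(cons (mv 846 (cons (fin 910 6 845)
(mv 845 (cons (fin 782 6 781)
(mv 1036 (cons (fin 1100 5 844)
(mv 972 (cons (fin 781 5 780)
(mv 1165 (cons (fin 908 7 908)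
(fin 1229 7 972)))))))))))
(cons (mv 844 (cons (fin 908 7 844)
(mv 845 (cons (fin 780 7 780)
(mv 1036 (cons (fin 1100 5 844)
(mv 972 (cons (fin 781 5 780)
(mv 1102 (cons (fin 1166 4 909)
(mv 1035 (cons (fin 1034 0 1034)
(mv 974 (cons (fin 975 1 971)
(mv 1165 (cons (fin 1229 7 972)
(fin 910 6 909)))))))))))))))))
(mv 844 (cons (fin 908 7 844)
(mv 910 (cons (fin 846 6 845)
(mv 1165 (cons (fin 974 6 909)
(mv 1166 (cons (fin 1102 4 909)
(fin 1230 4 973)))))))))))))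
(mv 1165 (cons (cons (mv 910 (cons (fin 974 6 909)
(mv 846 (cons (fin 909 6 845)
(mv 1166 (cons (fin 1230 4 973)
(mv 1228 (cons (fin 1164 5 972)
(mv 1229 (cons (fin 1292 5 1036)
(mv 1036 (cons (fin 972 7 972)
(mv 1100 (cons (fin 1293 7 1036)
(mv 1099 (cons (fin 1098 0 1098)
(mv 1167 (cons (fin 1168 3 1100)
(fin 1102 0 1099)))))))))))))))))))
(cons (mv 910 (cons (fin 974 6 909)
(mv 846 (cons (fin 909 6 845)
(mv 1230 (cons (fin 1166 4 973)
(mv 1229 (cons (fin 1294 4 1037)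
(mv 1036 (cons (fin 972 7 972)
(mv 1292 (cons (fin 1228 5 1036)
(mv 1293 (cons (fin 1100 7 1036)
(fin 1356 5 1100)))))))))))))))
(mv 910 (cons (fin 974 6 909)
(mv 846 (cons (fin 909 6 845)
(mv 1228 (cons (fin 1164 5 972)
(mv 1229 (cons (fin 1292 5 1036)
(mv 1036 (cons (fin 972 7 972)
(mv 1293 (cons (fin 1100 7 1036)
(mv 1294 (cons (fin 1230 4 1037)
(fin 1358 4 1101)))))))))))))))))
(cons (cons (mv 910 (cons (fin 974 6 909)
(mv 909 (cons (fin 846 6 845)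
(mv 1166 (cons (fin 1102 4 909)
(fin 1230 4 973)))))))
(mv 910 (cons (fin 974 6 909)
(mv 909 (cons (fin 846 6 845)
(mv 1164 (cons (fin 1100 5 908)
(fin 1228 5 972))))))))
(cons (mv 1164 (cons (fin 1228 5 972)
(mv 909 (cons (fin 1100 5 908)
(mv 1166 (cons (fin 1102 4 909)
(fin 1230 4 973)))))))
(mv 910 (cons (fin 974 6 909)
(mv 1166 (cons (fin 1230 4 973)
(mv 1228 (cons (fin 1164 5 972)
(mv 1229 (cons (fin 1292 5 1036)
(mv 1036 (cons (fin 972 7 972)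
(mv 1100 (cons (fin 1293 7 1036)
(mv 1099 (cons (fin 1098 0 1098)
(mv 1167 (cons (fin 1168 3 1100)
(fin 1102 0 1099))))))))))))))))))))))
(cons (mv 909 (cons (cons (mv 844 (cons (fin 908 7 844)
(mv 780 (cons (fin 845 7 780)
(mv 910 (cons (fin 846 6 845)
(mv 1164 (cons (fin 1100 5 908)
(mv 1165 (cons (fin 1228 5 972)
(fin 974 6 909)))))))))))
(mv 846 (cons (fin 910 6 845)
(mv 845 (cons (fin 782 6 781)
(mv 1100 (cons (fin 1036 5 844)
(fin 1164 5 908))))))))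
(cons (mv 844 (cons (fin 908 7 844)
(mv 845 (cons (fin 780 7 780)
(mv 1100 (cons (fin 1036 5 844)
(fin 1164 5 908)))))))
(cons (mv 844 (cons (fin 908 7 844)
(mv 845 (cons (fin 780 7 780)
(mv 846 (cons (fin 782 6 781)
(fin 910 6 845)))))))
(mv 844 (cons (fin 908 7 844)
(mv 910 (cons (fin 846 6 845)
(mv 1164 (cons (fin 1100 5 908)
(mv 1165 (cons (fin 1228 5 972)
(fin 974 6 909)))))))))))))
(mv 1165 (cons (cons (mv 908 (cons (fin 972 7 908)
(mv 844 (cons (fin 909 7 844)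
(mv 1228 (cons (fin 1164 5 972)
(mv 1229 (cons (fin 1292 5 1036)
(mv 1230 (cons (fin 1166 4 973)
(fin 1294 4 1037)))))))))))
(mv 908 (cons (fin 972 7 908)
(mv 909 (cons (fin 844 7 844)
(mv 1166 (cons (fin 1102 4 909)
(fin 1230 4 973))))))))
(cons (mv 908 (cons (fin 972 7 908)
(mv 909 (cons (fin 844 7 844)
(mv 1164 (cons (fin 1100 5 908)
(fin 1228 5 972)))))))
(cons (mv 1164 (cons (fin 1228 5 972)
(mv 909 (cons (fin 1100 5 908)
(mv 1166 (cons (fin 1102 4 909)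
(fin 1230 4 973)))))))
(mv 908 (cons (fin 972 7 908)
(mv 1228 (cons (fin 1164 5 972)
(mv 1229 (cons (fin 1292 5 1036)
(mv 1230 (cons (fin 1166 4 973)
(fin 1294 4 1037))))))))))))))))))
(cons (mv 973 (cons (cons (cons (mv 1165 (cons (cons (mv 908 (cons (fin 972 7 908)
(mv 844 (cons (fin 909 7 844)
(mv 910 (cons (fin 974 6 909)
(mv 1228 (cons (fin 1164 5 972)
(mv 1229 (cons (fin 1292 5 1036)
(mv 1230 (cons (fin 1166 4 973)
(fin 1294 4 1037)))))))))))))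
(cons (mv 910 (cons (fin 974 6 909)
(mv 846 (cons (fin 909 6 845)
(mv 1228 (cons (fin 1164 5 972)
(mv 1229 (cons (fin 1292 5 1036)
(mv 1230 (cons (fin 1166 4 973)
(fin 1294 4 1037)))))))))))
(mv 908 (cons (fin 972 7 908)
(mv 844 (cons (fin 909 7 844)
(mv 1228 (cons (fin 1164 5 972)
(mv 1229 (cons (fin 1292 5 1036)
(mv 1230 (cons (fin 1166 4 973)
(fin 1294 4 1037)))))))))))))
(cons (cons (mv 908 (cons (fin 972 7 908)
(mv 844 (cons (fin 909 7 844)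
(mv 974 (cons (fin 910 6 909)
(mv 1228 (cons (fin 1164 5 972)
(mv 1229 (cons (fin 1292 5 1036)
(fin 1038 6 973)))))))))))
(mv 908 (cons (fin 972 7 908)
(mv 844 (cons (fin 909 7 844)
(mv 974 (cons (fin 910 6 909)
(mv 1229 (cons (fin 1038 6 973)
(mv 1230 (cons (fin 1166 4 973)
(fin 1294 4 1037))))))))))))
(cons (mv 908 (cons (fin 972 7 908)
(mv 909 (cons (fin 844 7 844)
(mv 910 (cons (fin 846 6 845)
(fin 974 6 909)))))))
(mv 908 (cons (fin 972 7 908)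
(mv 910 (cons (fin 974 6 909)
(mv 1228 (cons (fin 1164 5 972)
(mv 1229 (cons (fin 1292 5 1036)
(mv 1230 (cons (fin 1166 4 973)
(fin 1294 4 1037)))))))))))))))
(mv 909 (cons (cons (mv 844 (cons (fin 908 7 844)
(mv 845 (cons (fin 780 7 780)
(mv 846 (cons (fin 782 6 781)
(fin 910 6 845)))))))
(mv 846 (cons (fin 910 6 845)
(mv 845 (cons (fin 782 6 781)
(mv 1102 (cons (fin 1038 4 845)
(fin 1166 4 909))))))))
(cons (mv 844 (cons (fin 908 7 844)
(mv 845 (cons (fin 780 7 780)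
(mv 1102 (cons (fin 1038 4 845)
(fin 1166 4 909)))))))
(mv 908 (cons (fin 844 7 844)
(mv 910 (cons (fin 846 6 845)
(mv 1102 (cons (fin 1166 4 909)
(mv 972 (cons (mv 911 (cons (fin 971 1 907)
(fin 912 1 908)))
(cons (mv 911 (cons (fin 912 1 908)
(mv 847 (cons (fin 848 2 844)
(mv 1038 (cons (fin 1039 3 972)
(fin 974 6 846)))))))
(mv 971 (cons (fin 970 2 906)
(mv 1039 (cons (fin 1038 3 972)
(mv 974 (cons (fin 975 0 972)
(mv 907 (cons (fin 906 3 906)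
(mv 843 (cons (fin 842 3 842)
(mv 779 (cons (fin 715 4 715)
(fin 1036 4 779))))))))))))))))))))))))))
(cons (mv 1165 (cons (cons (mv 908 (cons (fin 972 7 908)
(mv 910 (cons (fin 974 6 909)
(mv 1228 (cons (fin 1164 5 972)
(mv 1229 (cons (fin 1292 5 1036)
(mv 1230 (cons (fin 1166 4 973)
(fin 1294 4 1037)))))))))))
(cons (mv 910 (cons (fin 974 6 909)
(mv 1228 (cons (fin 1164 5 972)
(mv 1229 (cons (fin 1292 5 1036)
(mv 1230 (cons (fin 1166 4 973)
(fin 1294 4 1037)))))))))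
(mv 908 (cons (fin 972 7 908)
(mv 1228 (cons (fin 1164 5 972)
(mv 1229 (cons (fin 1292 5 1036)
(mv 1230 (cons (fin 1166 4 973)
(fin 1294 4 1037)))))))))))
(cons (mv 908 (cons (fin 972 7 908)
(mv 974 (cons (fin 910 6 909)
(mv 1228 (cons (fin 1164 5 972)
(mv 1229 (cons (fin 1292 5 1036)
(fin 1038 6 973)))))))))
(cons (mv 908 (cons (fin 972 7 908)
(mv 974 (cons (fin 910 6 909)
(mv 1229 (cons (fin 1038 6 973)
(mv 1230 (cons (fin 1166 4 973)
(fin 1294 4 1037)))))))))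
(mv 972 (cons (fin 908 7 908)
(mv 974 (cons (fin 910 6 909)
(mv 1039 (cons (fin 1038 3 972)
(fin 975 0 972)))))))))))
(mv 1165 (cons (cons (mv 910 (cons (fin 974 6 909)
(mv 846 (cons (fin 909 6 845)
(mv 1228 (cons (fin 1164 5 972)
(mv 1229 (cons (fin 1292 5 1036)
(mv 1230 (cons (fin 1166 4 973)
(fin 1294 4 1037)))))))))))
(mv 1164 (cons (fin 1228 5 972)
(mv 1166 (cons (fin 1230 4 973)
(mv 909 (cons (fin 1102 4 909)
(mv 844 (cons (fin 908 7 844)
(mv 845 (cons (fin 780 7 780)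
(mv 846 (cons (fin 782 6 781)
(fin 910 6 845))))))))))))))
(cons (mv 974 (cons (fin 910 6 909)
(mv 1228 (cons (fin 1164 5 972)
(mv 1229 (cons (fin 1292 5 1036)
(fin 1038 6 973)))))))
(cons (mv 1164 (cons (fin 1228 5 972)
(mv 1166 (cons (fin 1230 4 973)
(mv 1102 (cons (fin 909 4 909)
(mv 1103 (cons (fin 1104 1 1100)
(fin 1163 2 1099)))))))))
(mv 910 (cons (fin 974 6 909)
(mv 909 (cons (fin 846 6 845)
(mv 1166 (cons (fin 1102 4 909)
(fin 1230 4 973)))))))))))))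
(cons (cons (mv 1165 (cons (cons (mv 908 (cons (fin 972 7 908)
(mv 844 (cons (fin 909 7 844)
(mv 1228 (cons (fin 1164 5 972)
(mv 1229 (cons (fin 1292 5 1036)
(mv 1230 (cons (fin 1166 4 973)
(fin 1294 4 1037)))))))))))
(mv 1164 (cons (fin 1228 5 972)
(mv 1166 (cons (fin 1230 4 973)
(mv 1102 (cons (fin 909 4 909)
(mv 1103 (cons (fin 1104 1 1100)
(fin 1163 2 1099))))))))))
(cons (mv 908 (cons (fin 972 7 908)
(mv 844 (cons (fin 909 7 844)
(mv 1228 (cons (fin 1164 5 972)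
(mv 1229 (cons (fin 1292 5 1036)
(mv 1038 (cons (fin 974 6 973)
(mv 1293 (cons (fin 1102 6 1037)
(mv 1294 (cons (fin 1230 4 1037)
(fin 1358 4 1101)))))))))))))))
(cons (mv 908 (cons (fin 972 7 908)
(mv 909 (cons (fin 844 7 844)
(mv 1102 (cons (fin 1166 4 909)
(mv 1038 (cons (fin 845 4 845)
(mv 1229 (cons (fin 974 6 973)
(fin 1293 6 1037)))))))))))
(mv 908 (cons (fin 972 7 908)
(mv 1228 (cons (fin 1164 5 972)
(mv 1229 (cons (fin 1292 5 1036)
(mv 1230 (cons (fin 1166 4 973)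
(fin 1294 4 1037)))))))))))))
(mv 1165 (cons (cons (mv 910 (cons (fin 974 6 909)
(mv 846 (cons (fin 909 6 845)
(mv 1228 (cons (fin 1164 5 972)
(mv 1229 (cons (fin 1292 5 1036)
(mv 1230 (cons (fin 1166 4 973)
(fin 1294 4 1037)))))))))))
(mv 1164 (cons (fin 1228 5 972)
(mv 1166 (cons (fin 1230 4 973)
(mv 1102 (cons (fin 909 4 909)
(mv 1103 (cons (fin 1104 1 1100)
(fin 1163 2 1099))))))))))
(cons (mv 910 (cons (fin 974 6 909)
(mv 846 (cons (fin 909 6 845)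
(mv 1228 (cons (fin 1164 5 972)
(mv 1229 (cons (fin 1292 5 1036)
(mv 972 (cons (fin 1036 7 972)
(mv 1038 (cons (fin 1039 3 972)
(mv 970 (cons (fin 971 0 970)
(mv 1293 (cons (fin 1102 6 1037)
(mv 1294 (cons (fin 1230 4 1037)
(fin 1358 4 1101)))))))))))))))))))
(cons (mv 910 (cons (fin 974 6 909)
(mv 909 (cons (fin 846 6 845)
(mv 1102 (cons (fin 1166 4 909)
(mv 1038 (cons (fin 845 4 845)
(mv 972 (cons (fin 1039 3 972)
(mv 1229 (cons (fin 1036 7 972)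
(fin 1293 6 1037)))))))))))))
(mv 910 (cons (fin 974 6 909)
(mv 1228 (cons (fin 1164 5 972)
(mv 1229 (cons (fin 1292 5 1036)
(mv 1230 (cons (fin 1166 4 973)
(fin 1294 4 1037))))))))))))))
(cons (mv 1165 (cons (cons (mv 908 (cons (fin 972 7 908)
(mv 844 (cons (fin 909 7 844)
(mv 974 (cons (fin 910 6 909)
(mv 1228 (cons (fin 1164 5 972)
(mv 1229 (cons (fin 1292 5 1036)
(fin 1038 6 973)))))))))))
(mv 974 (cons (fin 910 6 909)
(mv 1228 (cons (fin 1164 5 972)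
(mv 1229 (cons (fin 1292 5 1036)
(fin 1038 6 973))))))))
(cons (mv 972 (cons (fin 908 7 908)
(mv 1038 (cons (fin 1039 3 972)
(mv 970 (cons (fin 971 0 970)
(mv 1164 (cons (fin 1228 5 972)
(mv 1229 (cons (fin 1036 7 972)
(mv 1293 (cons (fin 1102 6 1037)
(mv 1294 (cons (fin 1230 4 1037)
(fin 1358 4 1101)))))))))))))))
(mv 908 (cons (fin 972 7 908)
(mv 909 (cons (fin 844 7 844)
(mv 910 (cons (fin 846 6 845)
(fin 974 6 909))))))))))
(cons (mv 1165 (cons (cons (mv 908 (cons (fin 972 7 908)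
(mv 844 (cons (fin 909 7 844)
(mv 910 (cons (fin 974 6 909)
(mv 1228 (cons (fin 1164 5 972)
(mv 1229 (cons (fin 1292 5 1036)
(mv 1230 (cons (fin 1166 4 973)
(fin 1294 4 1037)))))))))))))
(mv 910 (cons (fin 974 6 909)
(mv 846 (cons (fin 909 6 845)
(mv 1228 (cons (fin 1164 5 972)
(mv 1229 (cons (fin 1292 5 1036)
(mv 1230 (cons (fin 1166 4 973)
(fin 1294 4 1037))))))))))))
(cons (mv 908 (cons (fin 972 7 908)
(mv 909 (cons (fin 844 7 844)
(mv 910 (cons (fin 846 6 845)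
(fin 974 6 909)))))))
(cons (mv 908 (cons (fin 972 7 908)
(mv 844 (cons (fin 909 7 844)
(mv 1228 (cons (fin 1164 5 972)
(mv 1229 (cons (fin 1292 5 1036)
(mv 1230 (cons (fin 1166 4 973)
(fin 1294 4 1037)))))))))))
(mv 908 (cons (fin 972 7 908)
(mv 910 (cons (fin 974 6 909)
(mv 1228 (cons (fin 1164 5 972)
(mv 1229 (cons (fin 1292 5 1036)
(mv 1230 (cons (fin 1166 4 973)
(fin 1294 4 1037)))))))))))))))
(mv 1165 (cons (cons (mv 908 (cons (fin 972 7 908)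
(mv 844 (cons (fin 909 7 844)
(mv 1228 (cons (fin 1164 5 972)
(mv 1229 (cons (fin 1292 5 1036)
(mv 1230 (cons (fin 1166 4 973)
(fin 1294 4 1037)))))))))))
(mv 1164 (cons (fin 1228 5 972)
(mv 1166 (cons (fin 1230 4 973)
(mv 909 (cons (fin 1102 4 909)
(mv 844 (cons (fin 908 7 844)
(mv 845 (cons (fin 780 7 780)
(mv 846 (cons (fin 782 6 781)
(fin 910 6 845))))))))))))))
(cons (mv 972 (cons (fin 908 7 908)
(mv 1038 (cons (fin 1039 3 972)
(mv 970 (cons (fin 971 0 970)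
(mv 1164 (cons (fin 1228 5 972)
(mv 1229 (cons (fin 1036 7 972)
(mv 1293 (cons (fin 1102 6 1037)
(mv 1294 (cons (fin 1230 4 1037)
(fin 1358 4 1101)))))))))))))))
(cons (mv 908 (cons (fin 972 7 908)
(mv 909 (cons (fin 844 7 844)
(mv 846 (cons (fin 910 6 845)
(mv 845 (cons (fin 782 6 781)
(mv 1102 (cons (fin 1038 4 845)
(fin 1166 4 909)))))))))))
(mv 1164 (cons (fin 1228 5 972)
(mv 1166 (cons (fin 1230 4 973)
(mv 1102 (cons (fin 909 4 909)
(mv 1103 (cons (fin 1104 1 1100)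
(fin 1163 2 1099))))))))))))))))))
(cons (mv 1165 (cons (cons (cons (mv 1229 (cons (cons (cons (mv 972 (cons (fin 1036 7 972)
(mv 908 (cons (fin 973 7 908)
(mv 974 (cons (fin 1038 6 973)
(mv 1292 (cons (fin 1228 5 1036)
(mv 1293 (cons (fin 1356 5 1100)
(mv 1294 (cons (fin 1230 4 1037)
(fin 1358 4 1101)))))))))))))
(mv 972 (cons (fin 1036 7 972)
(mv 908 (cons (fin 973 7 908)
(mv 1038 (cons (fin 974 6 973)
(mv 1230 (cons (fin 1294 4 1037)
(mv 1293 (cons (fin 1102 6 1037)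
(mv 1356 (cons (fin 1292 5 1100)
(mv 1357 (cons (fin 1420 5 1164)
(mv 1100 (cons (fin 1164 7 1100)
(mv 1098 (cons (fin 1099 2 1034)
(mv 1421 (cons (fin 1166 6 1165)
(mv 1422 (cons (fin 1358 4 1165)
(fin 1486 4 1229))))))))))))))))))))))))
(cons (mv 972 (cons (fin 1036 7 972)
(mv 908 (cons (fin 973 7 908)
(mv 1038 (cons (fin 974 6 973)
(mv 1228 (cons (fin 1292 5 1036)
(mv 1293 (cons (fin 1102 6 1037)
(mv 1358 (cons (fin 1294 4 1101)
(mv 1357 (cons (fin 1422 4 1165)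
(mv 1164 (cons (fin 1100 7 1100)
(fin 1421 7 1164)))))))))))))))))
(mv 974 (cons (fin 1038 6 973)
(mv 910 (cons (fin 973 6 909)
(mv 1292 (cons (fin 1228 5 1036)
(mv 1293 (cons (fin 1356 5 1100)
(mv 1294 (cons (fin 1230 4 1037)
(fin 1358 4 1101)))))))))))))
(cons (cons (mv 972 (cons (fin 1036 7 972)
(mv 908 (cons (fin 973 7 908)
(mv 1292 (cons (fin 1228 5 1036)
(mv 1293 (cons (fin 1356 5 1100)
(mv 1294 (cons (fin 1230 4 1037)
(fin 1358 4 1101)))))))))))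
(mv 972 (cons (fin 1036 7 972)
(mv 908 (cons (fin 973 7 908)
(mv 1038 (cons (fin 974 6 973)
(mv 1293 (cons (fin 1102 6 1037)
(mv 1294 (cons (fin 1230 4 1037)
(fin 1358 4 1101))))))))))))
(cons (mv 972 (cons (fin 1036 7 972)
(mv 908 (cons (fin 973 7 908)
(mv 1038 (cons (fin 974 6 973)
(mv 1292 (cons (fin 1228 5 1036)
(mv 1293 (cons (fin 1356 5 1100)
(fin 1102 6 1037)))))))))))
(cons (mv 972 (cons (fin 1036 7 972)
(mv 973 (cons (fin 908 7 908)
(mv 974 (cons (fin 910 6 909)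
(fin 1038 6 973)))))))
(mv 972 (cons (fin 1036 7 972)
(mv 974 (cons (fin 1038 6 973)
(mv 1292 (cons (fin 1228 5 1036)
(mv 1293 (cons (fin 1356 5 1100)
(mv 1294 (cons (fin 1230 4 1037)
(fin 1358 4 1101))))))))))))))))
(mv 973 (cons (cons (mv 908 (cons (fin 972 7 908)
(mv 909 (cons (fin 844 7 844)
(mv 910 (cons (fin 846 6 845)
(fin 974 6 909)))))))
(mv 908 (cons (fin 972 7 908)
(mv 909 (cons (fin 844 7 844)
(mv 1164 (cons (fin 1100 5 908)
(fin 1228 5 972))))))))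
(cons (mv 910 (cons (fin 974 6 909)
(mv 909 (cons (fin 846 6 845)
(mv 1164 (cons (fin 1100 5 908)
(fin 1228 5 972)))))))
(mv 908 (cons (fin 972 7 908)
(mv 910 (cons (fin 974 6 909)
(mv 1164 (cons (fin 1228 5 972)
(mv 1166 (cons (fin 1230 4 973)
(mv 1167 (cons (mv 1100 (cons (fin 1099 3 1099)
(fin 1168 3 1100)))
(cons (mv 1103 (cons (fin 1104 2 1100)
(mv 1102 (cons (fin 1163 2 1099)
(mv 1168 (cons (fin 1169 3 1101)
(mv 1232 (cons (fin 1231 0 1164)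
(fin 1233 0 1165)))))))))
(mv 1099 (cons (fin 1100 3 1099)
(mv 1103 (cons (fin 1104 2 1100)
(mv 1163 (cons (fin 1098 3 1098)
(fin 1102 2 1099))))))))))))))))))))))
(cons (mv 1229 (cons (cons (mv 972 (cons (fin 1036 7 972)
(mv 974 (cons (fin 1038 6 973)
(mv 1292 (cons (fin 1228 5 1036)
(mv 1293 (cons (fin 1356 5 1100)
(mv 1294 (cons (fin 1230 4 1037)
(fin 1358 4 1101)))))))))))
(cons (mv 974 (cons (fin 1038 6 973)
(mv 1292 (cons (fin 1228 5 1036)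
(mv 1293 (cons (fin 1356 5 1100)
(mv 1294 (cons (fin 1230 4 1037)
(fin 1358 4 1101)))))))))
(mv 972 (cons (fin 1036 7 972)
(mv 1292 (cons (fin 1228 5 1036)
(mv 1293 (cons (fin 1356 5 1100)
(mv 1294 (cons (fin 1230 4 1037)
(fin 1358 4 1101)))))))))))
(cons (mv 972 (cons (fin 1036 7 972)
(mv 1038 (cons (fin 974 6 973)
(mv 1293 (cons (fin 1102 6 1037)
(mv 1294 (cons (fin 1230 4 1037)
(fin 1358 4 1101)))))))))
(cons (mv 972 (cons (fin 1036 7 972)
(mv 1038 (cons (fin 974 6 973)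
(mv 1292 (cons (fin 1228 5 1036)
(mv 1293 (cons (fin 1356 5 1100)
(fin 1102 6 1037)))))))))
(mv 972 (cons (fin 1036 7 972)
(mv 974 (cons (fin 1038 6 973)
(mv 1228 (cons (fin 1292 5 1036)
(mv 1230 (cons (fin 1294 4 1037)
(mv 1231 (cons (mv 1164 (cons (fin 1163 3 1163)
(fin 1232 3 1164)))
(cons (mv 1167 (cons (fin 1168 2 1164)
(mv 1166 (cons (fin 1227 2 1163)
(mv 1232 (cons (fin 1233 3 1165)
(mv 1296 (cons (fin 1295 0 1228)
(fin 1297 0 1229)))))))))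
(mv 1163 (cons (fin 1164 3 1163)
(mv 1167 (cons (fin 1168 2 1164)
(mv 1227 (cons (fin 1162 3 1162)
(fin 1166 2 1163))))))))))))))))))))))
(mv 973 (cons (cons (mv 908 (cons (fin 972 7 908)
(mv 844 (cons (fin 909 7 844)
(mv 974 (cons (fin 910 6 909)
(mv 1229 (cons (fin 1038 6 973)
(mv 1230 (cons (fin 1166 4 973)
(fin 1294 4 1037)))))))))))
(cons (mv 908 (cons (fin 972 7 908)
(mv 844 (cons (fin 909 7 844)
(mv 974 (cons (fin 910 6 909)
(mv 1229 (cons (fin 1038 6 973)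
(mv 1294 (cons (fin 1230 4 1037)
(mv 1293 (cons (fin 1358 4 1101)
(mv 1100 (cons (fin 1036 7 1036)
(mv 1356 (cons (fin 1292 5 1100)
(mv 1357 (cons (fin 1164 7 1100)
(fin 1420 5 1164)))))))))))))))))))
(mv 910 (cons (fin 974 6 909)
(mv 909 (cons (fin 846 6 845)
(mv 1166 (cons (fin 1102 4 909)
(fin 1230 4 973)))))))))
(cons (mv 908 (cons (fin 972 7 908)
(mv 909 (cons (fin 844 7 844)
(mv 1166 (cons (fin 1102 4 909)
(fin 1230 4 973)))))))
(cons (mv 908 (cons (fin 972 7 908)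
(mv 909 (cons (fin 844 7 844)
(mv 910 (cons (fin 846 6 845)
(fin 974 6 909)))))))
(mv 908 (cons (fin 972 7 908)
(mv 974 (cons (fin 910 6 909)
(mv 1229 (cons (fin 1038 6 973)
(mv 1230 (cons (fin 1166 4 973)
(fin 1294 4 1037)))))))))))))))
(cons (cons (mv 973 (cons (cons (mv 908 (cons (fin 972 7 908)
(mv 844 (cons (fin 909 7 844)
(mv 974 (cons (fin 910 6 909)
(mv 1228 (cons (fin 1164 5 972)
(mv 1229 (cons (fin 1292 5 1036)
(fin 1038 6 973)))))))))))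
(mv 908 (cons (fin 972 7 908)
(mv 909 (cons (fin 844 7 844)
(mv 910 (cons (fin 846 6 845)
(fin 974 6 909))))))))
(cons (mv 910 (cons (fin 974 6 909)
(mv 909 (cons (fin 846 6 845)
(mv 1164 (cons (fin 1100 5 908)
(fin 1228 5 972)))))))
(cons (mv 908 (cons (fin 972 7 908)
(mv 909 (cons (fin 844 7 844)
(mv 1164 (cons (fin 1100 5 908)
(fin 1228 5 972)))))))
(mv 908 (cons (fin 972 7 908)
(mv 974 (cons (fin 910 6 909)
(mv 1228 (cons (fin 1164 5 972)
(mv 1229 (cons (fin 1292 5 1036)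
(fin 1038 6 973)))))))))))))
(mv 1229 (cons (cons (mv 974 (cons (fin 1038 6 973)
(mv 910 (cons (fin 973 6 909)
(mv 1230 (cons (fin 1294 4 1037)
(mv 1292 (cons (fin 1228 5 1036)
(mv 1293 (cons (fin 1356 5 1100)
(mv 1100 (cons (fin 1036 7 1036)
(mv 1164 (cons (fin 1357 7 1100)
(mv 1163 (cons (fin 1162 0 1162)
(mv 1231 (cons (fin 1232 3 1164)
(fin 1166 0 1163)))))))))))))))))))
(cons (mv 974 (cons (fin 1038 6 973)
(mv 910 (cons (fin 973 6 909)
(mv 1294 (cons (fin 1230 4 1037)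
(mv 1293 (cons (fin 1358 4 1101)
(mv 1100 (cons (fin 1036 7 1036)
(mv 1356 (cons (fin 1292 5 1100)
(mv 1357 (cons (fin 1164 7 1100)
(fin 1420 5 1164)))))))))))))))
(mv 974 (cons (fin 1038 6 973)
(mv 910 (cons (fin 973 6 909)
(mv 1292 (cons (fin 1228 5 1036)
(mv 1293 (cons (fin 1356 5 1100)
(mv 1100 (cons (fin 1036 7 1036)
(mv 1357 (cons (fin 1164 7 1100)
(mv 1358 (cons (fin 1294 4 1101)
(fin 1422 4 1165)))))))))))))))))
(cons (cons (mv 1228 (cons (fin 1292 5 1036)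
(mv 973 (cons (fin 1164 5 972)
(mv 1230 (cons (fin 1166 4 973)
(fin 1294 4 1037)))))))
(mv 974 (cons (fin 1038 6 973)
(mv 973 (cons (fin 910 6 909)
(mv 1230 (cons (fin 1166 4 973)
(fin 1294 4 1037))))))))
(cons (mv 974 (cons (fin 1038 6 973)
(mv 910 (cons (fin 973 6 909)
(mv 1292 (cons (fin 1228 5 1036)
(mv 1293 (cons (fin 1356 5 1100)
(mv 1100 (cons (fin 1036 7 1036)
(mv 1357 (cons (fin 1164 7 1100)
(mv 1166 (cons (fin 1102 6 1101)
(mv 1098 (cons (fin 1099 0 1098)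
(mv 1167 (cons (fin 1168 3 1100)
(mv 1421 (cons (fin 1230 6 1165)
(mv 1422 (cons (fin 1358 4 1165)
(fin 1486 4 1229)))))))))))))))))))))))
(mv 974 (cons (fin 1038 6 973)
(mv 1230 (cons (fin 1294 4 1037)
(mv 1292 (cons (fin 1228 5 1036)
(mv 1293 (cons (fin 1356 5 1100)
(mv 1100 (cons (fin 1036 7 1036)
(mv 1164 (cons (fin 1357 7 1100)
(mv 1163 (cons (fin 1162 0 1162)
(mv 1231 (cons (fin 1232 3 1164)
(fin 1166 0 1163))))))))))))))))))))))
(cons (mv 1229 (cons (cons (mv 972 (cons (fin 1036 7 972)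
(mv 908 (cons (fin 973 7 908)
(mv 1228 (cons (fin 1292 5 1036)
(mv 1294 (cons (fin 1230 4 1037)
(mv 1293 (cons (fin 1358 4 1101)
(mv 1102 (cons (fin 1038 6 1037)
(mv 1166 (cons (fin 1357 6 1101)
(mv 1167 (cons (fin 1168 1 1164)
(mv 1227 (cons (fin 1164 1 1163)
(fin 1226 2 1162)))))))))))))))))))
(cons (mv 972 (cons (fin 1036 7 972)
(mv 908 (cons (fin 973 7 908)
(mv 1294 (cons (fin 1230 4 1037)
(mv 1293 (cons (fin 1358 4 1101)
(mv 1102 (cons (fin 1038 6 1037)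
(mv 1356 (cons (fin 1292 5 1100)
(mv 1357 (cons (fin 1420 5 1164)
(fin 1166 6 1101)))))))))))))))
(mv 972 (cons (fin 1036 7 972)
(mv 908 (cons (fin 973 7 908)
(mv 1292 (cons (fin 1228 5 1036)
(mv 1293 (cons (fin 1356 5 1100)
(mv 1102 (cons (fin 1038 6 1037)
(mv 1357 (cons (fin 1166 6 1101)
(mv 1358 (cons (fin 1294 4 1101)
(fin 1422 4 1165)))))))))))))))))
(cons (cons (mv 1228 (cons (fin 1292 5 1036)
(mv 973 (cons (fin 1164 5 972)
(mv 1230 (cons (fin 1166 4 973)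
(fin 1294 4 1037)))))))
(mv 972 (cons (fin 1036 7 972)
(mv 908 (cons (fin 973 7 908)
(mv 1294 (cons (fin 1230 4 1037)
(mv 1293 (cons (fin 1358 4 1101)
(mv 1102 (cons (fin 1038 6 1037)
(mv 1357 (cons (fin 1166 6 1101)
(mv 1164 (cons (fin 1100 7 1100)
(mv 1103 (cons (fin 1104 1 1100)
(mv 1162 (cons (fin 1163 2 1098)
(mv 1420 (cons (fin 1356 5 1164)
(mv 1421 (cons (fin 1228 7 1164)
(fin 1484 5 1228))))))))))))))))))))))))
(cons (mv 972 (cons (fin 1036 7 972)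
(mv 973 (cons (fin 908 7 908)
(mv 1228 (cons (fin 1164 5 972)
(fin 1292 5 1036)))))))
(mv 972 (cons (fin 1036 7 972)
(mv 1228 (cons (fin 1292 5 1036)
(mv 1294 (cons (fin 1230 4 1037)
(mv 1293 (cons (fin 1358 4 1101)
(mv 1102 (cons (fin 1038 6 1037)
(mv 1166 (cons (fin 1357 6 1101)
(mv 1167 (cons (fin 1168 1 1164)
(mv 1227 (cons (fin 1164 1 1163)
(fin 1226 2 1162)))))))))))))))))))))
(mv 1229 (cons (cons (mv 972 (cons (fin 1036 7 972)
(mv 908 (cons (fin 973 7 908)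
(mv 974 (cons (fin 1038 6 973)
(mv 1292 (cons (fin 1228 5 1036)
(mv 1293 (cons (fin 1356 5 1100)
(mv 1294 (cons (fin 1230 4 1037)
(fin 1358 4 1101)))))))))))))
(cons (mv 974 (cons (fin 1038 6 973)
(mv 910 (cons (fin 973 6 909)
(mv 1292 (cons (fin 1228 5 1036)
(mv 1293 (cons (fin 1356 5 1100)
(mv 1294 (cons (fin 1230 4 1037)
(fin 1358 4 1101)))))))))))
(mv 972 (cons (fin 1036 7 972)
(mv 908 (cons (fin 973 7 908)
(mv 1292 (cons (fin 1228 5 1036)
(mv 1293 (cons (fin 1356 5 1100)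
(mv 1294 (cons (fin 1230 4 1037)
(fin 1358 4 1101)))))))))))))
(cons (cons (mv 972 (cons (fin 1036 7 972)
(mv 908 (cons (fin 973 7 908)
(mv 1038 (cons (fin 974 6 973)
(mv 1292 (cons (fin 1228 5 1036)
(mv 1293 (cons (fin 1356 5 1100)
(fin 1102 6 1037)))))))))))
(mv 972 (cons (fin 1036 7 972)
(mv 908 (cons (fin 973 7 908)
(mv 1038 (cons (fin 974 6 973)
(mv 1293 (cons (fin 1102 6 1037)
(mv 1294 (cons (fin 1230 4 1037)
(fin 1358 4 1101))))))))))))
(cons (mv 972 (cons (fin 1036 7 972)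
(mv 973 (cons (fin 908 7 908)
(mv 974 (cons (fin 910 6 909)
(fin 1038 6 973)))))))
(mv 972 (cons (fin 1036 7 972)
(mv 974 (cons (fin 1038 6 973)
(mv 1292 (cons (fin 1228 5 1036)
(mv 1293 (cons (fin 1356 5 1100)
(mv 1294 (cons (fin 1230 4 1037)
(fin 1358 4 1101)))))))))))))))))))
(mv 1100 (cons (cons (cons (mv 1038 (cons (fin 1039 1 1036)
(mv 1099 (cons (fin 1098 2 1034)
(mv 1102 (cons (cons (mv 1034 (cons (fin 1035 3 1034)
(mv 1162 (cons (fin 1163 1 1098)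
(mv 1166 (cons (fin 1167 0 1099)
(mv 1230 (cons (fin 1294 7 1037)
(mv 1229 (cons (fin 1293 5 1037)
(mv 974 (cons (fin 1165 5 973)
(mv 910 (cons (fin 846 5 845)
(mv 911 (cons (fin 847 6 846)
(fin 975 6 910)))))))))))))))))
(mv 1162 (cons (fin 1163 1 1098)
(mv 1166 (cons (fin 1167 0 1099)
(mv 1230 (cons (fin 1294 7 1037)
(mv 1229 (cons (fin 1293 5 1037)
(mv 974 (cons (fin 1165 5 973)
(mv 910 (cons (fin 846 5 845)
(mv 911 (cons (fin 847 6 846)
(fin 975 6 910))))))))))))))))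
(cons (mv 1034 (cons (fin 1035 3 1034)
(mv 1163 (cons (fin 1162 1 1098)
(mv 1103 (cons (fin 1164 1 1099)
(mv 1104 (cons (fin 1036 3 1036)
(fin 1105 3 1037)))))))))
(mv 1034 (cons (fin 1035 3 1034)
(mv 1166 (cons (fin 1167 0 1099)
(mv 1230 (cons (fin 1294 7 1037)
(mv 1229 (cons (fin 1293 5 1037)
(mv 974 (cons (fin 1165 5 973)
(mv 910 (cons (fin 846 5 845)
(mv 911 (cons (fin 847 6 846)
(fin 975 6 910))))))))))))))))))))))
(mv 1102 (cons (mv 1103 (cons (fin 1039 2 1036)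
(mv 1036 (cons (fin 1035 3 1035)
(fin 1104 3 1036)))))
(cons (mv 1099 (cons (cons (mv 1034 (cons (fin 1035 3 1034)
(mv 1098 (cons (fin 1033 3 1033)
(mv 1162 (cons (fin 1161 1 1097)
(fin 1163 1 1098)))))))
(mv 1162 (cons (fin 1163 1 1098)
(mv 1098 (cons (fin 1161 1 1097)
(mv 1166 (cons (fin 1165 0 1098)
(fin 1167 0 1099))))))))
(cons (mv 1034 (cons (fin 1035 3 1034)
(mv 1098 (cons (fin 1033 3 1033)
(mv 1166 (cons (fin 1165 0 1098)
(fin 1167 0 1099)))))))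
(mv 1035 (cons (fin 1034 3 1034)
(mv 1163 (cons (fin 1162 1 1098)
(mv 1166 (cons (fin 1167 0 1099)
(mv 1230 (cons (fin 1294 7 1037)
(mv 1164 (cons (mv 971 (cons (fin 907 4 907)
(fin 1228 4 971)))
(cons (mv 907 (cons (fin 971 4 907)
(mv 1165 (cons (fin 1231 0 1163)
(mv 1227 (cons (fin 1226 1 1162)
(mv 1036 (cons (fin 972 5 971)
(fin 1291 6 1035)))))))))
(mv 1165 (cons (fin 1231 0 1163)
(mv 1227 (cons (fin 1226 1 1162)
(mv 1036 (cons (fin 972 5 971)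
(fin 1291 6 1035)))))))))))))))))))))
(mv 1103 (cons (fin 1039 2 1036)
(mv 1163 (cons (fin 1164 1 1099)
(mv 1099 (cons (fin 1162 1 1098)
(mv 1167 (cons (fin 1166 0 1099)
(fin 1168 0 1100)))))))))))))
(cons (mv 1099 (cons (cons (mv 1038 (cons (fin 1098 2 1034)
(mv 1102 (cons (cons (mv 1034 (cons (fin 1035 3 1034)
(mv 1162 (cons (fin 1163 1 1098)
(mv 1166 (cons (fin 1167 0 1099)
(mv 1230 (cons (fin 1294 7 1037)
(mv 1229 (cons (fin 1293 5 1037)
(mv 974 (cons (fin 1165 5 973)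
(mv 910 (cons (fin 846 5 845)
(mv 911 (cons (fin 847 6 846)
(fin 975 6 910)))))))))))))))))
(mv 1162 (cons (fin 1163 1 1098)
(mv 1166 (cons (fin 1167 0 1099)
(mv 1230 (cons (fin 1294 7 1037)
(mv 1229 (cons (fin 1293 5 1037)
(mv 974 (cons (fin 1165 5 973)
(mv 910 (cons (fin 846 5 845)
(mv 911 (cons (fin 847 6 846)
(fin 975 6 910))))))))))))))))
(cons (mv 1034 (cons (fin 1035 3 1034)
(mv 1163 (cons (fin 1162 1 1098)
(mv 1103 (cons (fin 1164 1 1099)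
(mv 1104 (cons (fin 1036 3 1036)
(fin 1105 3 1037)))))))))
(mv 1034 (cons (fin 1035 3 1034)
(mv 1166 (cons (fin 1167 0 1099)
(mv 1230 (cons (fin 1294 7 1037)
(mv 1229 (cons (fin 1293 5 1037)
(mv 974 (cons (fin 1165 5 973)
(mv 910 (cons (fin 846 5 845)
(mv 911 (cons (fin 847 6 846)
(fin 975 6 910))))))))))))))))))))
(cons (mv 1102 (cons (cons (cons (mv 1034 (cons (fin 1035 3 1034)
(mv 1162 (cons (fin 1163 1 1098)
(mv 1167 (cons (fin 1166 0 1099)
(mv 1103 (cons (fin 1168 0 1100)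
(mv 1104 (cons (fin 1036 3 1036)
(mv 1038 (cons (fin 1105 3 1037)
(mv 974 (cons (fin 910 4 910)
(mv 1165 (cons (fin 1164 1 1100)
(fin 1229 6 973)))))))))))))))))
(mv 1162 (cons (fin 1163 1 1098)
(mv 1167 (cons (fin 1166 0 1099)
(mv 1103 (cons (fin 1168 0 1100)
(mv 1104 (cons (fin 1036 3 1036)
(mv 1038 (cons (fin 1105 3 1037)
(mv 974 (cons (fin 910 4 910)
(mv 1165 (cons (fin 1164 1 1100)
(fin 1229 6 973))))))))))))))))
(cons (mv 1034 (cons (fin 1035 3 1034)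
(mv 1167 (cons (fin 1166 0 1099)
(mv 1103 (cons (fin 1168 0 1100)
(mv 1104 (cons (fin 1036 3 1036)
(mv 1038 (cons (fin 1105 3 1037)
(mv 974 (cons (fin 910 4 910)
(mv 1165 (cons (fin 1164 1 1100)
(fin 1229 6 973)))))))))))))))
(mv 1034 (cons (fin 1035 3 1034)
(mv 1163 (cons (fin 1162 1 1098)
(mv 1103 (cons (fin 1164 1 1099)
(mv 1104 (cons (fin 1036 3 1036)
(mv 1168 (cons (fin 1167 0 1100)
(fin 1169 0 1101)))))))))))))
(cons (cons (mv 1034 (cons (fin 1035 3 1034)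
(mv 1163 (cons (fin 1162 1 1098)
(mv 1103 (cons (fin 1164 1 1099)
(mv 1104 (cons (fin 1036 3 1036)
(mv 1105 (cons (fin 1038 3 1037)
(mv 1169 (cons (fin 1168 0 1101)
(fin 1170 0 1102)))))))))))))
(mv 1035 (cons (fin 1034 3 1034)
(mv 1163 (cons (fin 1162 1 1098)
(mv 1166 (cons (fin 1167 0 1099)
(mv 1230 (cons (fin 1294 7 1037)
(mv 1164 (cons (mv 971 (cons (fin 907 4 907)
(fin 1228 4 971)))
(cons (mv 907 (cons (fin 971 4 907)
(mv 1165 (cons (fin 1231 0 1163)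
(mv 1227 (cons (fin 1226 1 1162)
(mv 1036 (cons (fin 972 5 971)
(fin 1291 6 1035)))))))))
(mv 1165 (cons (fin 1231 0 1163)
(mv 1227 (cons (fin 1226 1 1162)
(mv 1036 (cons (fin 972 5 971)
(fin 1291 6 1035)))))))))))))))))))
(cons (mv 1034 (cons (fin 1035 3 1034)
(mv 1163 (cons (fin 1162 1 1098)
(mv 1103 (cons (fin 1164 1 1099)
(mv 1167 (cons (fin 1166 0 1099)
(fin 1168 0 1100)))))))))
(mv 1035 (cons (fin 1034 3 1034)
(mv 1036 (cons (fin 1103 3 1035)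
(mv 1163 (cons (fin 1162 1 1098)
(mv 972 (cons (fin 908 5 907)
(fin 1227 6 971)))))))))))))
(mv 1098 (cons (mv 1033 (cons (fin 1034 3 1033)
(mv 1097 (cons (fin 1032 3 1032)
(fin 1036 2 1033)))))
(cons (mv 1033 (cons (fin 1034 3 1033)
(mv 1162 (cons (fin 1161 1 1097)
(mv 1102 (cons (fin 1163 1 1098)
(mv 1166 (cons (fin 1165 0 1098)
(fin 1167 0 1099)))))))))
(mv 1036 (cons (fin 1097 2 1033)
(mv 1161 (cons (fin 1162 1 1097)
(mv 1165 (cons (fin 1166 0 1098)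
(mv 972 (cons (fin 1229 7 972)
(fin 908 4 908))))))))))))))
(cons (mv 1098 (cons (fin 1038 2 1034)
(mv 1033 (cons (fin 1034 3 1033)
(mv 1097 (cons (fin 1032 3 1032)
(fin 1036 2 1033)))))))
(cons (mv 1098 (cons (fin 1038 2 1034)
(mv 1036 (cons (fin 1097 2 1033)
(mv 1161 (cons (fin 1162 1 1097)
(mv 1165 (cons (fin 1166 0 1098)
(mv 972 (cons (fin 1229 7 972)
(fin 908 4 908)))))))))))
(mv 1098 (cons (fin 1038 2 1034)
(mv 1033 (cons (fin 1034 3 1033)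
(mv 1032 (cons (fin 1097 3 1032)
(mv 1162 (cons (fin 1161 1 1097)
(mv 1102 (cons (fin 1163 1 1098)
(mv 1166 (cons (fin 1165 0 1098)
(fin 1167 0 1099)))))))))))))))))
(cons (mv 1038 (cons (fin 1039 1 1036)
(mv 1036 (cons (cons (mv 1098 (cons (fin 1099 2 1034)
(mv 1035 (cons (mv 1034 (cons (fin 1097 1 1033)
(fin 1033 0 1033)))
(cons (mv 971 (cons (fin 970 3 970)
(mv 843 (cons (fin 907 4 843)
(mv 974 (cons (fin 975 2 971)
(mv 846 (cons (fin 910 5 845)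
(mv 1164 (cons (fin 1228 7 971)
(mv 1165 (cons (fin 1229 6 973)
(mv 972 (cons (fin 908 4 908)
(mv 1163 (cons (fin 1227 5 971)
(mv 1162 (cons (fin 1097 3 1097)
(fin 1161 2 1097)))))))))))))))))))
(mv 970 (cons (fin 971 3 970)
(mv 1034 (cons (fin 969 3 969)
(fin 1033 0 1033))))))))))
(cons (mv 1165 (cons (mv 972 (cons (fin 1229 7 972)
(fin 908 4 908)))
(cons (mv 972 (cons (fin 908 4 908)
(mv 1164 (cons (mv 907 (cons (fin 971 7 907)
(mv 1227 (cons (fin 1163 5 971)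
(mv 1228 (cons (fin 1291 5 1035)
(fin 1292 6 1036)))))))
(cons (mv 971 (cons (fin 907 7 907)
(mv 970 (cons (fin 1035 3 970)
(fin 969 0 969)))))
(mv 1227 (cons (fin 1163 5 971)
(mv 1228 (cons (fin 1291 5 1035)
(fin 1292 6 1036))))))))))
(mv 1229 (cons (fin 1293 7 1036)
(fin 974 6 973))))))
(mv 1098 (cons (fin 1099 2 1034)
(mv 1035 (cons (mv 1034 (cons (fin 1097 1 1033)
(fin 1033 0 1033)))
(mv 971 (cons (fin 970 3 970)
(mv 907 (cons (fin 843 4 843)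
(mv 1164 (cons (fin 972 7 907)
(fin 1228 7 971)))))))))))))
(cons (cons (mv 1098 (cons (fin 1099 2 1034)
(mv 972 (cons (mv 908 (cons (fin 844 4 844)
(fin 1165 4 908)))
(cons (mv 908 (cons (fin 844 4 844)
(mv 845 (cons (fin 909 6 844)
(mv 907 (cons (fin 843 7 843)
(mv 1164 (cons (fin 971 7 907)
(mv 1227 (cons (fin 1163 5 971)
(mv 1228 (cons (fin 1291 5 1035)
(fin 1292 6 1036)))))))))))))
(mv 1164 (cons (cons (mv 907 (cons (fin 971 7 907)
(mv 1163 (cons (fin 1227 5 971)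
(mv 1161 (cons (fin 1162 2 1097)
(mv 1228 (cons (fin 1292 6 1036)
(mv 1229 (cons (fin 1165 7 972)
(fin 1293 4 1036)))))))))))
(mv 907 (cons (fin 971 7 907)
(mv 1227 (cons (fin 1163 5 971)
(mv 1228 (cons (fin 1291 5 1035)
(fin 1292 6 1036))))))))
(cons (mv 907 (cons (fin 971 7 907)
(mv 1163 (cons (fin 1227 5 971)
(mv 1162 (cons (fin 1161 2 1097)
(mv 1165 (cons (fin 1097 3 1097)
(fin 1229 7 972)))))))))
(cons (mv 907 (cons (fin 971 7 907)
(mv 1228 (cons (fin 1292 6 1036)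
(mv 1229 (cons (fin 1165 7 972)
(fin 1293 4 1036)))))))
(mv 1163 (cons (fin 1227 5 971)
(mv 1161 (cons (fin 1162 2 1097)
(mv 1228 (cons (fin 1292 6 1036)
(mv 1229 (cons (fin 1165 7 972)
(fin 1293 4 1036))))))))))))))))))
(mv 1035 (cons (mv 970 (cons (fin 971 3 970)
(mv 1034 (cons (fin 969 3 969)
(fin 1033 0 1033)))))
(cons (mv 971 (cons (fin 970 3 970)
(mv 907 (cons (fin 843 4 843)
(mv 1099 (cons (fin 1098 1 1034)
(fin 1164 4 907)))))))
(mv 974 (cons (fin 975 2 971)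
(mv 846 (cons (fin 910 5 845)
(mv 1034 (cons (fin 1033 0 1033)
(mv 1098 (cons (fin 1097 1 1033)
(fin 1099 1 1034)))))))))))))
(cons (mv 1165 (cons (mv 972 (cons (fin 1229 7 972)
(fin 908 4 908)))
(cons (mv 908 (cons (fin 972 4 908)
(mv 1035 (cons (mv 970 (cons (fin 971 3 970)
(mv 1034 (cons (fin 969 3 969)
(fin 1033 0 1033)))))
(cons (mv 971 (cons (fin 970 3 970)
(mv 907 (cons (fin 843 4 843)
(mv 1099 (cons (fin 1098 1 1034)
(fin 844 6 843)))))))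
(mv 974 (cons (fin 975 2 971)
(mv 846 (cons (fin 910 5 845)
(mv 1034 (cons (fin 1033 0 1033)
(mv 1098 (cons (fin 1097 1 1033)
(fin 1099 1 1034))))))))))))))
(mv 1229 (cons (fin 1293 7 1036)
(fin 974 6 973))))))
(mv 1098 (cons (fin 1099 2 1034)
(mv 1164 (cons (cons (mv 1228 (cons (fin 1292 6 1036)
(mv 1227 (cons (fin 1291 5 1035)
(mv 972 (cons (fin 1163 5 971)
(mv 908 (cons (fin 844 4 844)
(fin 1165 4 908)))))))))
(mv 1165 (cons (mv 972 (cons (fin 1229 7 972)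
(fin 908 4 908)))
(cons (mv 972 (cons (fin 908 4 908)
(mv 1163 (cons (fin 1227 5 971)
(mv 1162 (cons (fin 1097 3 1097)
(fin 1161 2 1097)))))))
(mv 1229 (cons (fin 1293 7 1036)
(fin 974 6 973)))))))
(cons (mv 1228 (cons (fin 1292 6 1036)
(mv 1227 (cons (fin 1291 5 1035)
(mv 1163 (cons (fin 972 5 971)
(mv 1162 (cons (fin 1161 2 1097)
(mv 1229 (cons (fin 1230 3 1162)
(fin 1293 4 1036)))))))))))
(cons (mv 1228 (cons (fin 1292 6 1036)
(mv 1227 (cons (fin 1291 5 1035)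
(mv 1229 (cons (fin 1293 4 1036)
(mv 974 (cons (fin 1165 6 973)
(mv 846 (cons (fin 910 5 845)
(mv 1035 (cons (fin 975 2 971)
(mv 1034 (cons (fin 1097 1 1033)
(fin 1033 0 1033)))))))))))))))
(mv 1228 (cons (fin 1292 6 1036)
(mv 1229 (cons (fin 1293 4 1036)
(mv 1165 (cons (fin 972 7 972)
(fin 974 6 973)))))))))))))))))))
(mv 1102 (cons (mv 1039 (cons (fin 1038 1 1036)
(fin 1103 2 1036)))
(cons (mv 1103 (cons (mv 1036 (cons (fin 1035 3 1035)
(fin 1104 3 1036)))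
(cons (mv 1164 (cons (fin 1163 1 1099)
(mv 1104 (cons (fin 1165 1 1100)
(mv 1168 (cons (fin 1167 0 1100)
(fin 1169 0 1101)))))))
(mv 1036 (cons (fin 1035 3 1035)
(mv 1164 (cons (fin 1163 1 1099)
(mv 1167 (cons (fin 1168 0 1100)
(mv 1228 (cons (fin 1292 6 1036)
(mv 1227 (cons (fin 1291 5 1035)
(mv 1165 (cons (fin 1166 1 1163)
(mv 972 (cons (fin 1229 7 972)
(fin 908 4 908))))))))))))))))))
(mv 1038 (cons (fin 1039 1 1036)
(mv 974 (cons (mv 910 (cons (fin 846 5 845)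
(fin 1165 5 909)))
(cons (mv 910 (cons (fin 846 5 845)
(mv 845 (cons (fin 909 7 845)
(mv 911 (cons (fin 847 6 846)
(mv 1166 (cons (fin 975 6 910)
(mv 1230 (cons (fin 1294 7 1037)
(mv 1231 (cons (fin 1167 4 974)
(fin 1295 4 1038)))))))))))))
(mv 1166 (cons (cons (mv 911 (cons (fin 975 6 910)
(mv 1165 (cons (fin 1229 5 973)
(mv 1167 (cons (fin 1168 3 1100)
(fin 1231 4 974)))))))
(mv 911 (cons (fin 975 6 910)
(mv 1230 (cons (fin 1294 7 1037)
(mv 1231 (cons (fin 1167 4 974)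
(fin 1295 4 1038))))))))
(cons (mv 911 (cons (fin 975 6 910)
(mv 1229 (cons (fin 1165 5 973)
(mv 1230 (cons (fin 1294 7 1037)
(fin 1293 5 1037)))))))
(mv 1165 (cons (fin 1229 5 973)
(mv 1167 (cons (fin 1168 3 1100)
(fin 1231 4 974)))))))))))))))))))
(cons (cons (mv 1038 (cons (fin 1039 1 1036)
(mv 1099 (cons (fin 1098 2 1034)
(mv 1102 (cons (cons (mv 1034 (cons (fin 1035 3 1034)
(mv 1162 (cons (fin 1163 1 1098)
(mv 1166 (cons (fin 1167 0 1099)
(mv 1230 (cons (fin 1294 7 1037)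
(mv 1229 (cons (fin 1293 5 1037)
(mv 974 (cons (fin 1165 5 973)
(mv 910 (cons (fin 846 5 845)
(mv 911 (cons (fin 847 6 846)
(fin 975 6 910)))))))))))))))))
(mv 1162 (cons (fin 1163 1 1098)
(mv 1166 (cons (fin 1167 0 1099)
(mv 1230 (cons (fin 1294 7 1037)
(mv 1229 (cons (fin 1293 5 1037)
(mv 974 (cons (fin 1165 5 973)
(mv 910 (cons (fin 846 5 845)
(mv 911 (cons (fin 847 6 846)
(fin 975 6 910))))))))))))))))
(cons (mv 1035 (cons (fin 1034 3 1034)
(mv 1036 (cons (fin 1103 3 1035)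
(mv 970 (cons (fin 971 3 970)
(mv 974 (cons (fin 975 2 971)
(mv 910 (cons (fin 846 5 845)
(fin 1165 5 909)))))))))))
(mv 1034 (cons (fin 1035 3 1034)
(mv 1162 (cons (fin 1163 1 1098)
(mv 1167 (cons (fin 1166 0 1099)
(mv 1103 (cons (fin 1168 0 1100)
(mv 1104 (cons (fin 1036 3 1036)
(fin 1105 3 1037))))))))))))))))))
(cons (mv 1038 (cons (fin 1039 1 1036)
(mv 1099 (cons (fin 1098 2 1034)
(mv 1102 (cons (cons (mv 1034 (cons (fin 1035 3 1034)
(mv 1162 (cons (fin 1163 1 1098)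
(mv 1166 (cons (fin 1167 0 1099)
(mv 1230 (cons (fin 1294 7 1037)
(mv 1229 (cons (fin 1293 5 1037)
(mv 974 (cons (fin 1165 5 973)
(mv 910 (cons (fin 846 5 845)
(mv 911 (cons (fin 847 6 846)
(fin 975 6 910)))))))))))))))))
(mv 1034 (cons (fin 1035 3 1034)
(mv 1163 (cons (fin 1162 1 1098)
(mv 1103 (cons (fin 1164 1 1099)
(mv 1104 (cons (fin 1105 3 1037)
(mv 1168 (cons (fin 1167 0 1100)
(fin 1169 0 1101))))))))))))
(cons (mv 1035 (cons (fin 1034 3 1034)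
(mv 1163 (cons (fin 1162 1 1098)
(mv 1164 (cons (fin 1103 1 1099)
(mv 971 (cons (fin 907 4 907)
(fin 1228 4 971)))))))))
(cons (mv 1034 (cons (fin 1035 3 1034)
(mv 1166 (cons (fin 1167 0 1099)
(mv 1230 (cons (fin 1294 7 1037)
(mv 1229 (cons (fin 1293 5 1037)
(mv 974 (cons (fin 1165 5 973)
(mv 910 (cons (fin 846 5 845)
(mv 911 (cons (fin 847 6 846)
(fin 975 6 910)))))))))))))))
(mv 1162 (cons (fin 1163 1 1098)
(mv 1166 (cons (fin 1167 0 1099)
(mv 1230 (cons (fin 1294 7 1037)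
(mv 1229 (cons (fin 1293 5 1037)
(mv 974 (cons (fin 1165 5 973)
(mv 910 (cons (fin 846 5 845)
(mv 911 (cons (fin 847 6 846)
(fin 975 6 910)))))))))))))))))))))))
(mv 1038 (cons (fin 1039 1 1036)
(mv 1099 (cons (fin 1098 2 1034)
(mv 1102 (cons (cons (mv 1034 (cons (fin 1035 3 1034)
(mv 1162 (cons (fin 1163 1 1098)
(mv 1167 (cons (fin 1166 0 1099)
(mv 1103 (cons (fin 1168 0 1100)
(mv 1104 (cons (fin 1036 3 1036)
(fin 1105 3 1037)))))))))))
(cons (mv 1162 (cons (fin 1163 1 1098)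
(mv 1167 (cons (fin 1166 0 1099)
(mv 1103 (cons (fin 1168 0 1100)
(mv 1104 (cons (fin 1036 3 1036)
(fin 1105 3 1037)))))))))
(mv 1034 (cons (fin 1035 3 1034)
(mv 1163 (cons (fin 1162 1 1098)
(mv 1103 (cons (fin 1164 1 1099)
(mv 1104 (cons (fin 1036 3 1036)
(fin 1105 3 1037)))))))))))
(cons (mv 1034 (cons (fin 1035 3 1034)
(mv 1167 (cons (fin 1166 0 1099)
(mv 1103 (cons (fin 1168 0 1100)
(mv 1104 (cons (fin 1036 3 1036)
(fin 1105 3 1037)))))))))
(cons (mv 1034 (cons (fin 1035 3 1034)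
(mv 1163 (cons (fin 1162 1 1098)
(mv 1166 (cons (fin 1167 0 1099)
(mv 1230 (cons (fin 1294 7 1037)
(mv 1229 (cons (fin 1293 5 1037)
(mv 1231 (cons (fin 1295 4 1038)
(mv 1228 (cons (fin 1164 3 1163)
(mv 1291 (cons (fin 1292 1 1227)
(mv 1227 (cons (fin 1290 1 1226)
(fin 1036 6 1035)))))))))))))))))))
(mv 1034 (cons (fin 1035 3 1034)
(mv 1163 (cons (fin 1162 1 1098)
(mv 1103 (cons (fin 1164 1 1099)
(mv 1167 (cons (fin 1166 0 1099)
(fin 1168 0 1100)))))))))))))))))))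
(cons (mv 1038 (cons (fin 1039 1 1036)
(mv 1099 (cons (fin 1098 2 1034)
(mv 1102 (cons (mv 1162 (cons (fin 1163 1 1098)
(mv 1166 (cons (fin 1167 0 1099)
(mv 1230 (cons (fin 1294 7 1037)
(mv 1229 (cons (fin 1293 5 1037)
(mv 974 (cons (fin 1165 5 973)
(mv 910 (cons (fin 846 5 845)
(mv 911 (cons (fin 847 6 846)
(fin 975 6 910)))))))))))))))
(cons (mv 1163 (cons (fin 1162 1 1098)
(mv 1103 (cons (fin 1164 1 1099)
(mv 1104 (cons (fin 1036 3 1036)
(fin 1105 3 1037)))))))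
(mv 1166 (cons (fin 1167 0 1099)
(mv 1230 (cons (fin 1294 7 1037)
(mv 1229 (cons (fin 1293 5 1037)
(mv 974 (cons (fin 1165 5 973)
(mv 910 (cons (fin 846 5 845)
(mv 911 (cons (fin 847 6 846)
(fin 975 6 910))))))))))))))))))))
(cons (mv 1038 (cons (fin 1039 1 1036)
(mv 1099 (cons (fin 1098 2 1034)
(mv 1102 (cons (cons (mv 1034 (cons (fin 1035 3 1034)
(mv 1166 (cons (fin 1167 0 1099)
(mv 1230 (cons (fin 1294 7 1037)
(mv 1229 (cons (fin 1293 5 1037)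
(mv 974 (cons (fin 1165 5 973)
(mv 910 (cons (fin 846 5 845)
(mv 911 (cons (fin 847 6 846)
(fin 975 6 910)))))))))))))))
(mv 1166 (cons (fin 1167 0 1099)
(mv 1230 (cons (fin 1294 7 1037)
(mv 1229 (cons (fin 1293 5 1037)
(mv 974 (cons (fin 1165 5 973)
(mv 910 (cons (fin 846 5 845)
(mv 911 (cons (fin 847 6 846)
(fin 975 6 910))))))))))))))
(cons (mv 1035 (cons (fin 1034 3 1034)
(mv 1036 (cons (fin 1103 3 1035)
(mv 970 (cons (fin 971 3 970)
(mv 974 (cons (fin 975 2 971)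
(mv 910 (cons (fin 846 5 845)
(fin 1165 5 909)))))))))))
(mv 1034 (cons (fin 1035 3 1034)
(mv 1167 (cons (fin 1166 0 1099)
(mv 1103 (cons (fin 1168 0 1100)
(mv 1104 (cons (fin 1036 3 1036)
(fin 1105 3 1037))))))))))))))))
(mv 1038 (cons (fin 1039 1 1036)
(mv 1098 (cons (fin 1099 2 1034)
(mv 974 (cons (cons (mv 910 (cons (fin 846 5 845)
(mv 1165 (cons (fin 1102 5 909)
(fin 1229 6 973)))))
(mv 910 (cons (fin 846 5 845)
(mv 1102 (cons (cons (mv 845 (cons (fin 909 7 845)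
(mv 847 (cons (fin 911 6 846)
(mv 1103 (cons (fin 1167 4 910)
(mv 1036 (cons (fin 1035 3 1035)
(fin 1104 3 1036)))))))))
(mv 909 (cons (fin 845 7 845)
(mv 911 (cons (fin 847 6 846)
(mv 975 (cons (fin 1166 6 910)
(mv 908 (cons (fin 907 0 907)
(mv 844 (cons (fin 843 3 843)
(mv 972 (cons (fin 971 1 907)
(fin 1036 4 844))))))))))))))
(cons (mv 845 (cons (fin 909 7 845)
(mv 1103 (cons (fin 1167 4 910)
(mv 1036 (cons (fin 1035 3 1035)
(fin 1104 3 1036)))))))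
(cons (mv 847 (cons (fin 911 6 846)
(mv 1103 (cons (fin 1167 4 910)
(mv 1036 (cons (fin 1035 3 1035)
(fin 1104 3 1036)))))))
(mv 845 (cons (fin 909 7 845)
(mv 911 (cons (fin 847 6 846)
(mv 1166 (cons (fin 975 6 910)
(mv 1167 (cons (fin 1103 4 910)
(fin 1231 4 974))))))))))))))))
(cons (mv 1036 (cons (mv 1035 (cons (fin 975 2 971)
(mv 1034 (cons (fin 1097 1 1033)
(fin 1033 0 1033)))))
(mv 1164 (cons (cons (mv 1165 (cons (fin 1229 6 973)
(mv 908 (cons (fin 972 4 908)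
(mv 1228 (cons (fin 1292 6 1036)
(mv 1227 (cons (fin 1291 5 1035)
(mv 1166 (cons (fin 1167 1 1163)
(mv 1226 (cons (fin 1163 1 1162)
(fin 1225 2 1161)))))))))))))
(mv 1228 (cons (fin 1292 6 1036)
(mv 1227 (cons (fin 1291 5 1035)
(mv 972 (cons (fin 1163 5 971)
(mv 907 (cons (fin 971 7 907)
(mv 908 (cons (fin 843 7 843)
(fin 844 4 844))))))))))))
(cons (mv 1165 (cons (fin 1229 6 973)
(mv 972 (cons (fin 908 4 908)
(mv 907 (cons (fin 971 7 907)
(mv 1163 (cons (fin 1227 5 971)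
(mv 1102 (cons (fin 1103 1 1099)
(fin 1162 2 1098)))))))))))
(cons (mv 1165 (cons (fin 1229 6 973)
(mv 1228 (cons (fin 1292 6 1036)
(mv 1227 (cons (fin 1291 5 1035)
(mv 1166 (cons (fin 1167 1 1163)
(mv 1226 (cons (fin 1163 1 1162)
(fin 1225 2 1161)))))))))))
(mv 1228 (cons (fin 1292 6 1036)
(mv 1229 (cons (fin 1165 6 973)
(fin 1293 4 1036)))))))))))
(mv 846 (cons (fin 910 5 845)
(mv 1036 (cons (mv 1035 (cons (fin 975 2 971)
(mv 1034 (cons (fin 1097 1 1033)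
(fin 1033 0 1033)))))
(cons (mv 1164 (cons (cons (mv 1165 (cons (fin 1229 6 973)
(mv 908 (cons (fin 972 4 908)
(mv 1228 (cons (fin 1292 6 1036)
(mv 1227 (cons (fin 1291 5 1035)
(mv 1166 (cons (fin 1167 1 1163)
(mv 1226 (cons (fin 1163 1 1162)
(fin 1225 2 1161)))))))))))))
(mv 1228 (cons (fin 1292 6 1036)
(mv 1227 (cons (fin 1291 5 1035)
(mv 972 (cons (fin 1163 5 971)
(mv 907 (cons (fin 971 7 907)
(mv 908 (cons (fin 843 7 843)
(fin 844 4 844))))))))))))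
(cons (mv 1165 (cons (fin 1229 6 973)
(mv 972 (cons (fin 908 4 908)
(mv 907 (cons (fin 971 7 907)
(mv 1163 (cons (fin 1227 5 971)
(mv 1162 (cons (fin 1097 3 1097)
(fin 1161 2 1097)))))))))))
(cons (mv 1165 (cons (fin 1229 6 973)
(mv 1228 (cons (fin 1292 6 1036)
(mv 1227 (cons (fin 1291 5 1035)
(mv 1166 (cons (fin 1167 1 1163)
(mv 1226 (cons (fin 1163 1 1162)
(fin 1225 2 1161)))))))))))
(mv 1228 (cons (fin 1292 6 1036)
(mv 1229 (cons (fin 1165 6 973)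
(fin 1293 4 1036)))))))))
(mv 1035 (cons (fin 975 2 971)
(mv 970 (cons (fin 971 3 970)
(mv 1034 (cons (fin 969 3 969)
(fin 1033 0 1033)))))))))))))))))))))))))))
(cons (cons (mv 1100 (cons (cons (cons (mv 1038 (cons (fin 1039 1 1036)
(mv 1099 (cons (fin 1098 2 1034)
(mv 1102 (cons (cons (mv 1034 (cons (fin 1035 3 1034)
(mv 1162 (cons (fin 1163 1 1098)
(mv 1166 (cons (fin 1167 0 1099)
(mv 973 (cons (fin 1230 7 973)
(fin 909 4 909)))))))))
(mv 1162 (cons (fin 1163 1 1098)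
(mv 1166 (cons (fin 1167 0 1099)
(mv 973 (cons (fin 1230 7 973)
(fin 909 4 909))))))))
(cons (mv 1034 (cons (fin 1035 3 1034)
(mv 1163 (cons (fin 1162 1 1098)
(mv 1103 (cons (fin 1164 1 1099)
(mv 1104 (cons (fin 1036 3 1036)
(fin 1105 3 1037)))))))))
(mv 1034 (cons (fin 1035 3 1034)
(mv 1166 (cons (fin 1167 0 1099)
(mv 973 (cons (fin 1230 7 973)
(fin 909 4 909))))))))))))))
(mv 1102 (cons (mv 1103 (cons (fin 1039 2 1036)
(mv 1036 (cons (fin 1035 3 1035)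
(fin 1104 3 1036)))))
(cons (mv 1099 (cons (cons (mv 1034 (cons (fin 1035 3 1034)
(mv 1098 (cons (fin 1033 3 1033)
(mv 1162 (cons (fin 1161 1 1097)
(fin 1163 1 1098)))))))
(cons (mv 1163 (cons (fin 1162 1 1098)
(mv 1166 (cons (fin 1167 0 1099)
(mv 973 (cons (fin 909 4 909)
(mv 1294 (cons (fin 1230 7 1037)
(mv 1036 (cons (cons (mv 908 (cons (fin 972 5 907)
(mv 1097 (cons (fin 1098 2 1033)
(mv 1227 (cons (fin 1291 6 1035)
(mv 1228 (cons (fin 1164 6 972)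
(mv 1292 (cons (fin 1035 4 1035)
(mv 1293 (cons (fin 1295 3 1227)
(mv 1226 (cons (fin 1225 0 1225)
(fin 1229 0 1226)))))))))))))))
(mv 1097 (cons (fin 1098 2 1033)
(mv 1227 (cons (fin 1291 6 1035)
(mv 1228 (cons (fin 1164 6 972)
(mv 1292 (cons (fin 1035 4 1035)
(mv 1293 (cons (fin 1295 3 1227)
(mv 1226 (cons (fin 1225 0 1225)
(fin 1229 0 1226))))))))))))))
(cons (mv 972 (cons (fin 908 5 907)
(mv 1227 (cons (fin 1035 6 971)
(fin 1291 6 1035)))))
(cons (mv 972 (cons (fin 908 5 907)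
(mv 1097 (cons (fin 1098 2 1033)
(mv 1164 (cons (fin 1228 6 972)
(mv 971 (cons (fin 907 7 907)
(mv 970 (cons (fin 969 0 969)
(mv 906 (cons (fin 905 3 905)
(fin 1035 7 906)))))))))))))
(mv 972 (cons (fin 908 5 907)
(mv 1164 (cons (fin 1227 5 971)
(fin 1228 6 972)))))))))))))))))
(mv 1162 (cons (fin 1163 1 1098)
(mv 1098 (cons (fin 1161 1 1097)
(mv 1033 (cons (fin 1034 3 1033)
(mv 1097 (cons (fin 1032 3 1032)
(fin 1036 2 1033)))))))))))
(cons (mv 1034 (cons (fin 1035 3 1034)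
(mv 1098 (cons (fin 1033 3 1033)
(mv 1036 (cons (fin 1097 2 1033)
(mv 1166 (cons (fin 1167 0 1099)
(mv 973 (cons (fin 909 4 909)
(mv 1164 (cons (fin 1228 6 972)
(mv 1230 (cons (fin 1294 7 1037)
(mv 972 (cons (mv 908 (cons (fin 1163 5 907)
(fin 844 4 844)))
(cons (mv 907 (cons (fin 971 7 907)
(mv 908 (cons (fin 843 7 843)
(fin 844 4 844)))))
(mv 971 (cons (fin 907 7 907)
(mv 970 (cons (fin 969 0 969)
(mv 906 (cons (fin 905 3 905)
(fin 1163 4 906))))))))))))))))))))))))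
(cons (mv 1034 (cons (fin 1035 3 1034)
(mv 1098 (cons (fin 1033 3 1033)
(mv 1097 (cons (fin 1036 2 1033)
(mv 1161 (cons (fin 1160 1 1096)
(fin 1162 1 1097)))))))))
(mv 1035 (cons (fin 1034 3 1034)
(mv 1163 (cons (fin 1162 1 1098)
(mv 1166 (cons (fin 1167 0 1099)
(mv 909 (cons (fin 973 4 909)
(mv 1230 (cons (fin 1294 7 1037)
(mv 1164 (cons (mv 971 (cons (fin 907 4 907)
(fin 1228 4 971)))
(cons (mv 971 (cons (fin 907 4 907)
(mv 906 (cons (fin 970 7 906)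
(mv 972 (cons (fin 908 6 907)
(mv 1227 (cons (fin 1036 5 971)
(mv 1290 (cons (fin 1226 5 1034)
(mv 1291 (cons (fin 1354 5 1098)
(fin 1355 6 1099)))))))))))))
(mv 1228 (cons (fin 1292 7 1035)
(mv 1229 (cons (fin 1231 3 1163)
(mv 1036 (cons (fin 1293 4 1036)
(mv 972 (cons (fin 908 5 907)
(fin 1227 5 971))))))))))))))))))))))))))
(mv 1103 (cons (fin 1039 2 1036)
(mv 1163 (cons (fin 1164 1 1099)
(mv 1099 (cons (fin 1162 1 1098)
(mv 1167 (cons (fin 1166 0 1099)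
(fin 1168 0 1100)))))))))))))
(cons (mv 1164 (cons (cons (mv 973 (cons (fin 909 5 908)
(mv 1228 (cons (fin 1036 6 972)
(fin 1292 6 1036)))))
(cons (mv 909 (cons (fin 973 5 908)
(mv 1102 (cons (cons (mv 1103 (cons (fin 1163 1 1099)
(mv 1036 (cons (fin 1035 3 1035)
(fin 1104 3 1036)))))
(mv 1099 (cons (mv 1034 (cons (fin 1035 3 1034)
(mv 1098 (cons (fin 1033 3 1033)
(fin 1038 2 1034)))))
(cons (mv 1035 (cons (fin 1034 3 1034)
(mv 971 (cons (fin 907 4 907)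
(mv 1163 (cons (fin 1162 1 1098)
(mv 906 (cons (fin 970 7 906)
(mv 972 (cons (fin 908 6 907)
(mv 1166 (cons (fin 1167 0 1099)
(mv 1227 (cons (fin 1036 5 971)
(mv 1226 (cons (fin 1290 5 1034)
(mv 1224 (cons (fin 1225 2 1160)
(mv 1291 (cons (fin 1355 6 1099)
(mv 1292 (cons (fin 1356 4 1099)
(mv 1294 (cons (fin 1293 3 1226)
(fin 1230 7 1037)))))))))))))))))))))))))
(mv 1098 (cons (fin 1038 2 1034)
(mv 1162 (cons (fin 1161 1 1097)
(fin 1163 1 1098)))))))))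
(cons (mv 1099 (cons (mv 1034 (cons (fin 1035 3 1034)
(mv 1098 (cons (fin 1033 3 1033)
(fin 1038 2 1034)))))
(cons (mv 1038 (cons (fin 1098 2 1034)
(mv 1167 (cons (fin 1166 0 1099)
(mv 1103 (cons (fin 1168 0 1100)
(mv 1104 (cons (fin 1036 3 1036)
(fin 1105 3 1037)))))))))
(mv 1035 (cons (fin 1034 3 1034)
(mv 907 (cons (fin 971 4 907)
(mv 1103 (cons (fin 1036 3 1035)
(mv 1167 (cons (fin 1166 0 1099)
(fin 1168 0 1100))))))))))))
(cons (mv 1103 (cons (fin 1163 1 1099)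
(mv 1167 (cons (fin 1168 0 1100)
(mv 1099 (cons (fin 1166 0 1099)
(mv 1034 (cons (fin 1035 3 1034)
(mv 1098 (cons (fin 1033 3 1033)
(fin 1038 2 1034)))))))))))
(mv 1103 (cons (fin 1163 1 1099)
(mv 1036 (cons (fin 1104 3 1036)
(mv 1167 (cons (fin 1168 0 1100)
(mv 1099 (cons (fin 1166 0 1099)
(mv 1098 (cons (fin 1097 2 1033)
(fin 1038 2 1034)))))))))))))))))
(mv 1228 (cons (fin 1292 6 1036)
(mv 1036 (cons (cons (mv 971 (cons (fin 1035 7 971)
(mv 972 (cons (fin 907 7 907)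
(mv 1227 (cons (fin 1163 5 971)
(fin 1291 5 1035)))))))
(mv 1227 (cons (fin 1291 5 1035)
(mv 972 (cons (fin 1163 5 971)
(mv 907 (cons (fin 971 7 907)
(mv 908 (cons (fin 843 7 843)
(fin 844 4 844))))))))))
(cons (mv 1227 (cons (fin 1291 5 1035)
(mv 1163 (cons (fin 972 5 971)
(mv 1102 (cons (fin 1103 1 1099)
(mv 1162 (cons (fin 1099 1 1098)
(fin 1161 2 1097)))))))))
(cons (mv 971 (cons (fin 1035 7 971)
(mv 972 (cons (fin 907 7 907)
(mv 908 (cons (fin 844 4 844)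
(mv 845 (cons (fin 909 6 844)
(mv 969 (cons (fin 970 0 969)
(mv 1099 (cons (fin 1163 5 907)
(mv 1098 (cons (fin 1097 2 1033)
(fin 1038 2 1034)))))))))))))))
(mv 1035 (cons (fin 971 7 971)
(mv 1034 (cons (fin 1033 0 1033)
(fin 1102 0 1034)))))))))))))
(cons (mv 1228 (cons (fin 1292 6 1036)
(mv 1036 (cons (fin 973 6 972)
(mv 971 (cons (fin 1035 7 971)
(mv 972 (cons (fin 907 7 907)
(mv 1227 (cons (fin 1163 5 971)
(fin 1291 5 1035)))))))))))
(cons (mv 909 (cons (fin 973 5 908)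
(mv 1102 (cons (cons (mv 1103 (cons (fin 1163 1 1099)
(mv 1036 (cons (fin 1035 3 1035)
(fin 1104 3 1036)))))
(mv 1099 (cons (mv 1034 (cons (fin 1035 3 1034)
(mv 1098 (cons (fin 1033 3 1033)
(fin 1038 2 1034)))))
(cons (mv 1035 (cons (fin 1034 3 1034)
(mv 971 (cons (fin 907 4 907)
(mv 1163 (cons (fin 1162 1 1098)
(fin 1228 4 971)))))))
(mv 1038 (cons (fin 1098 2 1034)
(mv 1163 (cons (fin 1162 1 1098)
(mv 1166 (cons (fin 1167 0 1099)
(mv 1230 (cons (fin 1294 7 1037)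
(mv 1229 (cons (fin 1293 5 1037)
(mv 1231 (cons (fin 1228 3 1163)
(fin 1295 4 1038)))))))))))))))))
(cons (mv 1036 (cons (mv 1035 (cons (fin 1103 3 1035)
(fin 1034 0 1034)))
(cons (mv 1103 (cons (fin 1104 3 1036)
(mv 1167 (cons (fin 1168 0 1100)
(mv 1099 (cons (fin 1166 0 1099)
(mv 1098 (cons (fin 1097 2 1033)
(fin 1038 2 1034)))))))))
(mv 1035 (cons (fin 1034 0 1034)
(mv 971 (cons (fin 1228 7 971)
(mv 907 (cons (fin 972 7 907)
(fin 843 4 843))))))))))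
(mv 1103 (cons (fin 1163 1 1099)
(mv 1036 (cons (fin 1104 3 1036)
(mv 1167 (cons (fin 1168 0 1100)
(mv 1099 (cons (fin 1166 0 1099)
(mv 1098 (cons (fin 1097 2 1033)
(fin 1038 2 1034))))))))))))))))
(mv 973 (cons (fin 909 5 908)
(mv 1228 (cons (fin 1292 6 1036)
(mv 1099 (cons (cons (mv 1098 (cons (fin 1038 2 1034)
(mv 1033 (cons (fin 1034 3 1033)
(mv 1097 (cons (fin 1032 3 1032)
(mv 1161 (cons (fin 1160 1 1096)
(fin 1162 1 1097)))))))))
(mv 1102 (cons (mv 1163 (cons (fin 1162 1 1098)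
(fin 1103 1 1099)))
(mv 1034 (cons (fin 1035 3 1034)
(mv 1166 (cons (fin 1167 0 1099)
(mv 1230 (cons (fin 1038 7 973)
(fin 1294 7 1037))))))))))
(cons (mv 1035 (cons (mv 971 (cons (fin 907 4 907)
(fin 1163 4 971)))
(mv 1034 (cons (fin 1102 3 1034)
(mv 1033 (cons (fin 1098 3 1033)
(fin 1032 0 1032)))))))
(mv 1098 (cons (fin 1038 2 1034)
(mv 1161 (cons (fin 1162 1 1097)
(mv 1097 (cons (fin 1160 1 1096)
(mv 1032 (cons (fin 1033 3 1032)
(mv 1096 (cons (fin 1031 3 1031)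
(fin 1163 0 1096))))))))))))))))))))))
(cons (mv 1038 (cons (fin 1039 1 1036)
(mv 1099 (cons (fin 1098 2 1034)
(mv 1102 (cons (cons (mv 1034 (cons (fin 1035 3 1034)
(mv 1162 (cons (fin 1163 1 1098)
(mv 1166 (cons (fin 1167 0 1099)
(mv 973 (cons (fin 1230 7 973)
(fin 909 4 909)))))))))
(mv 1035 (cons (fin 1034 3 1034)
(mv 1036 (cons (fin 1103 3 1035)
(mv 970 (cons (fin 971 3 970)
(mv 974 (cons (fin 975 2 971)
(mv 846 (cons (fin 910 5 845)
(mv 1163 (cons (fin 1162 1 1098)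
(mv 972 (cons (fin 908 5 907)
(fin 1227 6 971))))))))))))))))
(cons (mv 1162 (cons (fin 1163 1 1098)
(mv 1166 (cons (fin 1167 0 1099)
(mv 973 (cons (fin 1230 7 973)
(fin 909 4 909)))))))
(mv 1034 (cons (fin 1035 3 1034)
(mv 1166 (cons (fin 1167 0 1099)
(mv 973 (cons (fin 1230 7 973)
(fin 909 4 909))))))))))))))
(mv 1038 (cons (fin 1039 1 1036)
(mv 1099 (cons (fin 1098 2 1034)
(mv 973 (cons (cons (mv 909 (cons (fin 1164 5 908)
(mv 844 (cons (fin 908 7 844)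
(mv 845 (cons (fin 780 7 780)
(fin 1036 5 844)))))))
(mv 971 (cons (cons (mv 970 (cons (fin 972 0 970)
(mv 1035 (cons (fin 1036 3 970)
(mv 906 (cons (fin 1163 7 906)
(mv 842 (cons (fin 907 7 842)
(fin 778 4 778)))))))))
(cons (mv 1164 (cons (mv 1228 (cons (fin 1036 6 972)
(fin 1292 6 1036)))
(cons (mv 907 (cons (fin 1035 4 907)
(mv 972 (cons (fin 1036 7 907)
(mv 906 (cons (fin 974 3 906)
(mv 905 (cons (fin 904 0 904)
(fin 908 0 905)))))))))
(mv 1035 (cons (fin 907 4 907)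
(mv 1228 (cons (fin 1292 7 1035)
(fin 1163 4 971))))))))
(mv 1164 (cons (mv 1228 (cons (fin 1036 6 972)
(fin 1292 6 1036)))
(cons (mv 1035 (cons (fin 907 4 907)
(mv 970 (cons (fin 1036 3 970)
(mv 906 (cons (fin 1163 7 906)
(mv 842 (cons (fin 778 4 778)
(fin 1034 4 842)))))))))
(mv 1035 (cons (fin 907 4 907)
(mv 1228 (cons (fin 1292 7 1035)
(fin 1163 4 971))))))))))
(cons (cons (mv 972 (cons (fin 970 0 970)
(mv 1036 (cons (mv 908 (cons (fin 1163 5 907)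
(fin 844 4 844)))
(mv 1164 (cons (fin 907 7 907)
(fin 1228 6 972)))))))
(mv 970 (cons (fin 972 0 970)
(mv 1035 (cons (cons (mv 906 (cons (fin 1163 7 906)
(mv 842 (cons (fin 907 7 842)
(fin 778 4 778)))))
(mv 907 (cons (fin 1164 4 907)
(mv 842 (cons (fin 906 7 842)
(mv 843 (cons (fin 778 7 778)
(mv 844 (cons (fin 780 6 779)
(fin 908 6 843))))))))))
(cons (mv 907 (cons (fin 1164 4 907)
(mv 844 (cons (fin 908 6 843)
(mv 843 (cons (fin 780 6 779)
(mv 778 (cons (fin 842 7 778)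
(mv 779 (cons (fin 714 7 714)
(fin 1034 5 778)))))))))))
(cons (mv 906 (cons (fin 1163 7 906)
(mv 842 (cons (fin 778 4 778)
(fin 1034 4 842)))))
(mv 906 (cons (fin 1163 7 906)
(mv 907 (cons (fin 1164 4 907)
(mv 844 (cons (fin 908 6 843)
(mv 843 (cons (fin 780 6 779)
(mv 779 (cons (fin 715 5 714)
(fin 1034 5 778))))))))))))))))))
(cons (mv 970 (cons (fin 972 0 970)
(mv 1035 (cons (fin 1036 3 970)
(mv 906 (cons (fin 1163 7 906)
(mv 842 (cons (fin 778 4 778)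
(fin 1034 4 842)))))))))
(mv 970 (cons (fin 972 0 970)
(mv 1035 (cons (fin 1036 3 970)
(mv 907 (cons (fin 1164 4 907)
(mv 842 (cons (fin 906 7 842)
(mv 843 (cons (fin 778 7 778)
(mv 844 (cons (fin 780 6 779)
(fin 908 6 843))))))))))))))))))
(cons (mv 909 (cons (cons (mv 844 (cons (fin 908 7 844)
(mv 845 (cons (fin 780 7 780)
(fin 1036 5 844)))))
(mv 908 (cons (fin 844 7 844)
(mv 910 (cons (fin 846 6 845)
(mv 972 (cons (mv 911 (cons (fin 971 1 907)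
(fin 912 1 908)))
(cons (mv 911 (cons (fin 912 1 908)
(mv 847 (cons (fin 848 2 844)
(mv 1036 (cons (fin 1163 5 907)
(mv 907 (cons (fin 843 7 843)
(mv 906 (cons (fin 905 0 905)
(fin 974 0 906)))))))))))
(mv 970 (cons (fin 971 2 906)
(mv 1036 (cons (fin 1163 5 907)
(mv 907 (cons (fin 843 7 843)
(mv 906 (cons (fin 969 1 905)
(fin 905 0 905)))))))))))))))))
(cons (mv 845 (cons (fin 1036 5 844)
(mv 846 (cons (fin 782 6 781)
(fin 910 6 845)))))
(mv 844 (cons (fin 908 7 844)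
(mv 845 (cons (fin 780 7 780)
(mv 846 (cons (fin 782 6 781)
(fin 910 6 845))))))))))
(cons (mv 909 (cons (fin 1164 5 908)
(mv 844 (cons (fin 908 7 844)
(mv 845 (cons (fin 780 7 780)
(mv 846 (cons (fin 782 6 781)
(fin 910 6 845)))))))))
(mv 909 (cons (fin 1164 5 908)
(mv 845 (cons (fin 1036 5 844)
(mv 846 (cons (fin 782 6 781)
(fin 910 6 845))))))))))))))))))
(cons (cons (mv 1036 (cons (cons (cons (mv 1038 (cons (fin 1039 1 1036)
(mv 1035 (cons (mv 1034 (cons (fin 1033 0 1033)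
(fin 1102 0 1034)))
(cons (mv 970 (cons (fin 971 3 970)
(mv 1034 (cons (fin 969 3 969)
(fin 1033 0 1033)))))
(mv 970 (cons (fin 971 3 970)
(mv 974 (cons (fin 975 2 971)
(mv 910 (cons (fin 846 5 845)
(mv 1102 (cons (fin 1103 3 1035)
(mv 847 (cons (fin 911 6 846)
(mv 909 (cons (fin 845 7 845)
(mv 973 (cons (fin 1166 7 909)
(fin 1164 5 908))))))))))))))))))))
(mv 1035 (cons (mv 1034 (cons (fin 1033 0 1033)
(fin 1102 0 1034)))
(cons (mv 1102 (cons (fin 1103 3 1035)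
(mv 971 (cons (cons (mv 843 (cons (fin 907 4 843)
(mv 970 (cons (fin 1038 3 970)
(mv 969 (cons (fin 968 0 968)
(fin 972 0 969)))))))
(mv 907 (cons (fin 843 4 843)
(mv 1164 (cons (fin 972 7 907)
(fin 1228 7 971))))))
(cons (mv 970 (cons (fin 1038 3 970)
(mv 969 (cons (fin 968 0 968)
(fin 972 0 969)))))
(mv 843 (cons (fin 907 4 843)
(mv 1038 (cons (fin 970 3 970)
(mv 974 (cons (fin 975 2 971)
(mv 910 (cons (fin 846 5 845)
(mv 847 (cons (fin 911 6 846)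
(mv 909 (cons (fin 845 7 845)
(mv 973 (cons (fin 1166 7 909)
(fin 1164 5 908))))))))))))))))))))
(mv 1034 (cons (fin 1033 0 1033)
(mv 969 (cons (fin 970 3 969)
(mv 973 (cons (fin 974 2 970)
(mv 909 (cons (fin 845 5 844)
(fin 1164 5 908)))))))))))))
(cons (mv 1164 (cons (mv 973 (cons (fin 909 5 908)
(fin 1228 6 972)))
(cons (mv 972 (cons (cons (mv 844 (cons (fin 908 4 844)
(mv 971 (cons (fin 907 7 907)
(mv 970 (cons (fin 969 0 969)
(mv 973 (cons (fin 909 5 908)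
(mv 905 (cons (fin 906 3 905)
(mv 1034 (cons (fin 1033 1 969)
(mv 1035 (cons (fin 974 1 970)
(fin 1102 0 1034)))))))))))))))
(mv 844 (cons (fin 908 4 844)
(mv 971 (cons (fin 907 7 907)
(mv 970 (cons (fin 969 0 969)
(mv 1163 (cons (fin 1227 5 971)
(mv 1102 (cons (fin 1103 1 1099)
(mv 1034 (cons (fin 1035 0 1034)
(mv 1033 (cons (fin 973 1 969)
(mv 1031 (cons (fin 1032 2 967)
(mv 1161 (cons (fin 1162 2 1097)
(mv 1097 (cons (fin 1225 6 969)
(mv 906 (cons (fin 842 5 841)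
(fin 1098 5 905))))))))))))))))))))))))
(cons (mv 907 (cons (fin 971 7 907)
(mv 908 (cons (fin 843 7 843)
(fin 844 4 844)))))
(cons (mv 971 (cons (fin 907 7 907)
(mv 970 (cons (fin 969 0 969)
(mv 973 (cons (fin 909 5 908)
(mv 905 (cons (fin 906 3 905)
(mv 1034 (cons (fin 1033 1 969)
(mv 1035 (cons (fin 974 1 970)
(fin 1102 0 1034)))))))))))))
(mv 908 (cons (fin 844 4 844)
(mv 909 (cons (fin 973 5 908)
(fin 845 6 844)))))))))
(mv 1228 (cons (fin 1292 6 1036)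
(mv 971 (cons (fin 1035 7 971)
(mv 972 (cons (fin 907 7 907)
(mv 1227 (cons (fin 1163 5 971)
(fin 1291 5 1035))))))))))))
(mv 1038 (cons (fin 1039 1 1036)
(mv 1164 (cons (mv 973 (cons (fin 909 5 908)
(fin 1228 6 972)))
(cons (mv 909 (cons (fin 973 5 908)
(mv 972 (cons (mv 908 (cons (fin 845 6 844)
(fin 844 4 844)))
(mv 971 (cons (fin 907 7 907)
(mv 970 (cons (fin 1035 3 970)
(fin 969 0 969)))))))))
(mv 1228 (cons (fin 1292 6 1036)
(mv 971 (cons (fin 1035 7 971)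
(mv 972 (cons (fin 907 7 907)
(mv 1227 (cons (fin 1163 5 971)
(fin 1291 5 1035))))))))))))))))
(cons (cons (mv 1038 (cons (fin 1039 1 1036)
(mv 1164 (cons (mv 973 (cons (fin 909 5 908)
(fin 1228 6 972)))
(cons (mv 1228 (cons (fin 1292 6 1036)
(mv 1227 (cons (fin 1291 5 1035)
(mv 972 (cons (fin 1163 5 971)
(mv 907 (cons (fin 971 7 907)
(mv 908 (cons (fin 843 7 843)
(fin 844 4 844)))))))))))
(mv 972 (cons (cons (mv 844 (cons (fin 908 4 844)
(mv 971 (cons (fin 907 7 907)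
(mv 970 (cons (fin 969 0 969)
(fin 973 0 970)))))))
(mv 907 (cons (fin 971 7 907)
(mv 908 (cons (fin 843 7 843)
(fin 844 4 844))))))
(cons (mv 971 (cons (fin 907 7 907)
(mv 970 (cons (fin 969 0 969)
(fin 973 0 970)))))
(mv 908 (cons (fin 844 4 844)
(mv 909 (cons (fin 973 5 908)
(fin 845 6 844)))))))))))))
(mv 1038 (cons (fin 1039 1 1036)
(mv 1035 (cons (mv 1034 (cons (fin 1033 0 1033)
(fin 1102 0 1034)))
(cons (mv 970 (cons (fin 971 3 970)
(mv 1034 (cons (fin 969 3 969)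
(fin 1033 0 1033)))))
(mv 970 (cons (fin 971 3 970)
(mv 974 (cons (fin 975 2 971)
(mv 910 (cons (fin 846 5 845)
(mv 1102 (cons (fin 1103 3 1035)
(mv 847 (cons (fin 911 6 846)
(mv 909 (cons (fin 845 7 845)
(mv 973 (cons (fin 1166 7 909)
(mv 908 (cons (fin 844 7 844)
(mv 907 (cons (fin 906 0 906)
(mv 843 (cons (fin 842 3 842)
(fin 972 7 843)))))))))))))))))))))))))))
(cons (mv 1038 (cons (fin 1039 1 1036)
(mv 1035 (cons (mv 1034 (cons (fin 1033 0 1033)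
(fin 1102 0 1034)))
(cons (mv 970 (cons (fin 971 3 970)
(mv 1034 (cons (fin 969 3 969)
(fin 1033 0 1033)))))
(mv 971 (cons (fin 970 3 970)
(mv 843 (cons (fin 907 4 843)
(mv 974 (cons (fin 975 2 971)
(mv 910 (cons (fin 846 5 845)
(mv 1102 (cons (fin 1103 3 1035)
(mv 909 (cons (fin 845 7 845)
(mv 911 (cons (fin 847 6 846)
(mv 908 (cons (fin 844 3 843)
(fin 972 1 907))))))))))))))))))))))
(cons (mv 1038 (cons (fin 1039 1 1036)
(mv 1035 (cons (mv 1034 (cons (fin 1033 0 1033)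
(fin 1102 0 1034)))
(cons (mv 970 (cons (fin 971 3 970)
(mv 1034 (cons (fin 969 3 969)
(fin 1033 0 1033)))))
(mv 971 (cons (fin 970 3 970)
(mv 907 (cons (fin 843 4 843)
(mv 1164 (cons (fin 972 7 907)
(fin 1228 7 971))))))))))))
(mv 1038 (cons (fin 1039 1 1036)
(mv 1035 (cons (mv 1034 (cons (fin 1033 0 1033)
(fin 1102 0 1034)))
(cons (mv 974 (cons (fin 975 2 971)
(mv 1034 (cons (fin 973 2 970)
(fin 1033 0 1033)))))
(mv 974 (cons (fin 975 2 971)
(mv 910 (cons (fin 846 5 845)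
(mv 1102 (cons (fin 1103 3 1035)
(mv 847 (cons (fin 911 6 846)
(mv 909 (cons (fin 845 7 845)
(mv 973 (cons (fin 1166 7 909)
(fin 1164 5 908)))))))))))))))))))))))
(cons (mv 1038 (cons (fin 1039 1 1036)
(mv 1099 (cons (fin 1098 2 1034)
(mv 1102 (cons (cons (mv 1034 (cons (fin 1035 3 1034)
(mv 1162 (cons (fin 1163 1 1098)
(mv 1167 (cons (fin 1166 0 1099)
(mv 1103 (cons (fin 1168 0 1100)
(mv 1104 (cons (fin 1036 3 1036)
(fin 1105 3 1037)))))))))))
(cons (mv 1162 (cons (fin 1163 1 1098)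
(mv 1167 (cons (fin 1166 0 1099)
(mv 1103 (cons (fin 1168 0 1100)
(mv 1104 (cons (fin 1036 3 1036)
(fin 1105 3 1037)))))))))
(mv 1034 (cons (fin 1035 3 1034)
(mv 1163 (cons (fin 1162 1 1098)
(mv 1103 (cons (fin 1164 1 1099)
(mv 1104 (cons (fin 1036 3 1036)
(fin 1105 3 1037)))))))))))
(cons (mv 1034 (cons (fin 1035 3 1034)
(mv 1167 (cons (fin 1166 0 1099)
(mv 1103 (cons (fin 1168 0 1100)
(mv 1104 (cons (fin 1036 3 1036)
(fin 1105 3 1037)))))))))
(cons (mv 1034 (cons (fin 1035 3 1034)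
(mv 1163 (cons (fin 1162 1 1098)
(mv 1166 (cons (fin 1167 0 1099)
(mv 1230 (cons (fin 1294 7 1037)
(mv 1229 (cons (fin 1293 5 1037)
(mv 1231 (cons (fin 1295 4 1038)
(mv 1228 (cons (fin 1164 3 1163)
(mv 1291 (cons (fin 1292 1 1227)
(mv 1227 (cons (fin 1290 1 1226)
(fin 1036 6 1035)))))))))))))))))))
(mv 1034 (cons (fin 1035 3 1034)
(mv 1163 (cons (fin 1162 1 1098)
(mv 1103 (cons (fin 1164 1 1099)
(mv 1167 (cons (fin 1166 0 1099)
(fin 1168 0 1100)))))))))))))))))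
(mv 1038 (cons (fin 1039 1 1036)
(mv 1164 (cons (cons (mv 973 (cons (fin 909 5 908)
(mv 1228 (cons (fin 1036 6 972)
(fin 1292 6 1036)))))
(mv 1228 (cons (fin 1292 6 1036)
(mv 1036 (cons (cons (mv 971 (cons (fin 1035 7 971)
(mv 972 (cons (fin 907 7 907)
(mv 1227 (cons (fin 1163 5 971)
(fin 1291 5 1035)))))))
(mv 1227 (cons (fin 1291 5 1035)
(mv 972 (cons (fin 1163 5 971)
(mv 907 (cons (fin 971 7 907)
(mv 908 (cons (fin 843 7 843)
(fin 844 4 844))))))))))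
(cons (mv 1227 (cons (fin 1291 5 1035)
(mv 1163 (cons (fin 972 5 971)
(mv 1102 (cons (fin 1103 1 1099)
(mv 1162 (cons (fin 1099 1 1098)
(fin 1161 2 1097)))))))))
(mv 1035 (cons (fin 971 7 971)
(mv 1034 (cons (fin 1033 0 1033)
(fin 1102 0 1034)))))))))))
(cons (mv 973 (cons (fin 909 5 908)
(mv 1102 (cons (mv 1103 (cons (fin 1163 1 1099)
(mv 1036 (cons (fin 1035 3 1035)
(fin 1104 3 1036)))))
(cons (mv 1166 (cons (fin 1230 7 973)
(mv 1099 (cons (fin 1167 0 1099)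
(mv 1035 (cons (fin 1034 3 1034)
(mv 971 (cons (fin 907 4 907)
(mv 970 (cons (fin 1036 3 970)
(fin 972 0 970)))))))))))
(mv 1103 (cons (fin 1163 1 1099)
(mv 1104 (cons (fin 1105 3 1037)
(mv 1168 (cons (fin 1167 0 1100)
(fin 1169 0 1101))))))))))))
(mv 973 (cons (fin 909 5 908)
(mv 1228 (cons (fin 1292 6 1036)
(mv 1102 (cons (cons (mv 1103 (cons (fin 1163 1 1099)
(mv 1104 (cons (fin 1105 3 1037)
(mv 1168 (cons (fin 1167 0 1100)
(fin 1169 0 1101)))))))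
(mv 1166 (cons (fin 1230 7 973)
(mv 1167 (cons (fin 1099 0 1099)
(mv 1168 (cons (fin 1169 3 1101)
(fin 1103 0 1100))))))))
(cons (mv 1166 (cons (fin 1230 7 973)
(mv 1099 (cons (fin 1167 0 1099)
(mv 1035 (cons (fin 1034 3 1034)
(mv 971 (cons (fin 907 4 907)
(fin 1163 4 971)))))))))
(mv 1163 (cons (fin 1103 1 1099)
(mv 1162 (cons (fin 1099 1 1098)
(fin 1161 2 1097)))))))))))))))))))
(cons (mv 1038 (cons (fin 1039 1 1036)
(mv 1099 (cons (fin 1098 2 1034)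
(mv 1102 (cons (cons (mv 1034 (cons (fin 1035 3 1034)
(mv 1162 (cons (fin 1163 1 1098)
(mv 1166 (cons (fin 1167 0 1099)
(mv 973 (cons (fin 1230 7 973)
(fin 909 4 909)))))))))
(mv 1034 (cons (fin 1035 3 1034)
(mv 1163 (cons (fin 1162 1 1098)
(mv 1103 (cons (fin 1164 1 1099)
(mv 1104 (cons (fin 1105 3 1037)
(mv 1168 (cons (fin 1167 0 1100)
(fin 1169 0 1101))))))))))))
(cons (mv 1035 (cons (fin 1034 3 1034)
(mv 1163 (cons (fin 1162 1 1098)
(mv 1164 (cons (fin 1103 1 1099)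
(mv 971 (cons (fin 907 4 907)
(fin 1228 4 971)))))))))
(cons (mv 1034 (cons (fin 1035 3 1034)
(mv 1166 (cons (fin 1167 0 1099)
(mv 973 (cons (fin 1230 7 973)
(fin 909 4 909)))))))
(mv 1162 (cons (fin 1163 1 1098)
(mv 1166 (cons (fin 1167 0 1099)
(mv 973 (cons (fin 1230 7 973)
(fin 909 4 909)))))))))))))))
(cons (mv 1038 (cons (fin 1039 1 1036)
(mv 1099 (cons (fin 1098 2 1034)
(mv 1102 (cons (mv 1162 (cons (fin 1163 1 1098)
(mv 1166 (cons (fin 1167 0 1099)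
(mv 973 (cons (fin 1230 7 973)
(fin 909 4 909)))))))
(cons (mv 1163 (cons (fin 1162 1 1098)
(mv 1103 (cons (fin 1164 1 1099)
(mv 1104 (cons (fin 1036 3 1036)
(fin 1105 3 1037)))))))
(mv 1166 (cons (fin 1167 0 1099)
(mv 973 (cons (fin 1230 7 973)
(fin 909 4 909))))))))))))
(mv 1038 (cons (fin 1039 1 1036)
(mv 1099 (cons (fin 1098 2 1034)
(mv 1102 (cons (cons (mv 1034 (cons (fin 1035 3 1034)
(mv 1166 (cons (fin 1167 0 1099)
(mv 973 (cons (fin 1230 7 973)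
(fin 909 4 909)))))))
(mv 1166 (cons (fin 1167 0 1099)
(mv 973 (cons (fin 1230 7 973)
(fin 909 4 909))))))
(cons (mv 1035 (cons (fin 1034 3 1034)
(mv 1036 (cons (fin 1103 3 1035)
(mv 970 (cons (fin 971 3 970)
(mv 974 (cons (fin 975 2 971)
(mv 910 (cons (fin 846 5 845)
(mv 847 (cons (fin 911 6 846)
(mv 909 (cons (fin 845 7 845)
(mv 973 (cons (fin 1164 5 908)
(mv 908 (cons (fin 844 7 844)
(mv 907 (cons (fin 906 0 906)
(mv 843 (cons (fin 842 3 842)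
(fin 972 7 843)))))))))))))))))))))))
(mv 1034 (cons (fin 1035 3 1034)
(mv 1167 (cons (fin 1166 0 1099)
(mv 1103 (cons (fin 1168 0 1100)
(mv 1104 (cons (fin 1036 3 1036)
(fin 1105 3 1037)))))))))))))))))))))
(cons (mv 1038 (cons (cons (mv 1039 (cons (fin 1100 1 1036)
(mv 972 (cons (fin 973 3 972)
(mv 1036 (cons (fin 971 3 971)
(mv 1104 (cons (fin 1103 0 1036)
(fin 1105 0 1037)))))))))
(mv 1165 (cons (cons (mv 974 (cons (fin 1229 6 973)
(mv 910 (cons (fin 846 5 845)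
(fin 973 6 909)))))
(mv 973 (cons (cons (mv 908 (cons (fin 972 7 908)
(mv 909 (cons (fin 844 7 844)
(mv 910 (cons (fin 846 6 845)
(fin 974 6 909)))))))
(mv 908 (cons (fin 972 7 908)
(mv 909 (cons (fin 844 7 844)
(mv 1164 (cons (fin 1100 5 908)
(fin 1228 5 972))))))))
(cons (mv 910 (cons (fin 974 6 909)
(mv 909 (cons (fin 846 6 845)
(mv 1164 (cons (fin 1100 5 908)
(fin 1228 5 972)))))))
(mv 972 (cons (fin 908 7 908)
(mv 971 (cons (fin 970 0 970)
(mv 974 (cons (fin 910 6 909)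
(mv 906 (cons (fin 907 3 906)
(mv 1035 (cons (fin 1034 1 970)
(mv 1036 (cons (fin 975 1 971)
(mv 1099 (cons (fin 1098 1 1034)
(mv 1163 (cons (fin 1227 6 971)
(mv 1162 (cons (fin 1226 5 970)
(mv 1164 (cons (fin 1228 5 972)
(mv 1100 (cons (fin 1161 2 1097)
(mv 1166 (cons (fin 1167 3 1099)
(fin 1230 4 973)))))))))))))))))))))))))))))
(cons (mv 973 (cons (cons (mv 908 (cons (fin 972 7 908)
(mv 844 (cons (fin 909 7 844)
(mv 1228 (cons (fin 1164 5 972)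
(mv 1229 (cons (fin 1292 5 1036)
(mv 1230 (cons (fin 1166 4 973)
(fin 1294 4 1037)))))))))))
(mv 1164 (cons (fin 1228 5 972)
(mv 909 (cons (fin 1100 5 908)
(mv 844 (cons (fin 908 7 844)
(mv 845 (cons (fin 780 7 780)
(mv 846 (cons (fin 782 6 781)
(fin 910 6 845))))))))))))
(cons (mv 972 (cons (fin 908 7 908)
(mv 970 (cons (fin 971 0 970)
(mv 1229 (cons (fin 1036 7 972)
(mv 1230 (cons (fin 1166 4 973)
(fin 1294 4 1037)))))))))
(mv 1164 (cons (fin 1228 5 972)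
(mv 1100 (cons (fin 909 5 908)
(mv 1098 (cons (fin 1099 2 1034)
(mv 1230 (cons (fin 1166 4 973)
(mv 1229 (cons (fin 1294 4 1037)
(mv 1036 (cons (fin 972 7 972)
(fin 1293 7 1036))))))))))))))))
(mv 1229 (cons (fin 974 6 973)
(mv 972 (cons (fin 1036 7 972)
(mv 1292 (cons (fin 1228 5 1036)
(mv 1293 (cons (fin 1356 5 1100)
(mv 1294 (cons (fin 1230 4 1037)
(fin 1358 4 1101)))))))))))))))
(cons (mv 1039 (cons (cons (mv 972 (cons (fin 973 3 972)
(mv 1036 (cons (fin 971 3 971)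
(mv 1104 (cons (fin 1103 0 1036)
(fin 1105 0 1037)))))))
(mv 1104 (cons (fin 1105 0 1037)
(mv 1036 (cons (fin 1103 0 1036)
(mv 1035 (cons (cons (mv 970 (cons (fin 971 3 970)
(mv 969 (cons (fin 1034 3 969)
(mv 974 (cons (fin 975 2 971)
(mv 910 (cons (fin 846 5 845)
(mv 1165 (cons (fin 973 6 909)
(fin 1229 6 973)))))))))))
(mv 970 (cons (fin 971 3 970)
(mv 1034 (cons (fin 969 3 969)
(mv 1098 (cons (fin 1097 1 1033)
(fin 1099 1 1034))))))))
(cons (mv 974 (cons (fin 975 2 971)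
(mv 846 (cons (fin 910 5 845)
(mv 1034 (cons (fin 973 2 970)
(mv 1098 (cons (fin 1097 1 1033)
(fin 1099 1 1034)))))))))
(mv 970 (cons (fin 971 3 970)
(mv 974 (cons (fin 975 2 971)
(mv 910 (cons (fin 846 5 845)
(mv 1165 (cons (fin 973 6 909)
(fin 1229 6 973)))))))))))))))))
(cons (mv 973 (cons (fin 972 3 972)
(mv 1165 (cons (mv 974 (cons (fin 910 6 909)
(fin 1229 6 973)))
(cons (mv 1228 (cons (fin 1164 5 972)
(mv 1229 (cons (fin 1292 5 1036)
(mv 1230 (cons (fin 1166 4 973)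
(fin 1294 4 1037)))))))
(mv 1164 (cons (fin 1228 5 972)
(mv 1166 (cons (fin 1230 4 973)
(mv 909 (cons (cons (mv 910 (cons (fin 846 6 845)
(fin 974 6 909)))
(mv 844 (cons (fin 908 7 844)
(mv 845 (cons (fin 780 7 780)
(mv 781 (cons (fin 974 4 781)
(mv 782 (cons (fin 718 6 717)
(fin 846 6 781))))))))))
(cons (mv 844 (cons (fin 908 7 844)
(mv 845 (cons (fin 780 7 780)
(mv 846 (cons (fin 782 6 781)
(fin 910 6 845)))))))
(mv 844 (cons (fin 908 7 844)
(mv 845 (cons (fin 780 7 780)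
(mv 974 (cons (fin 910 6 909)
(fin 781 4 781)))))))))))))))))))
(mv 1104 (cons (fin 1105 0 1037)
(mv 1103 (cons (fin 1036 0 1036)
(mv 975 (cons (mv 911 (cons (fin 847 4 847)
(fin 1168 4 911)))
(cons (mv 1168 (cons (fin 1232 7 975)
(mv 1167 (cons (mv 974 (cons (fin 910 7 910)
(fin 1231 7 974)))
(cons (mv 1230 (cons (fin 1166 5 974)
(mv 1231 (cons (fin 1294 5 1038)
(fin 1295 6 1039)))))
(mv 974 (cons (fin 910 7 910)
(mv 1165 (cons (fin 1229 6 973)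
(mv 1166 (cons (fin 1164 2 1100)
(fin 1230 5 974))))))))))))
(mv 911 (cons (fin 847 4 847)
(mv 848 (cons (fin 912 6 847)
(mv 910 (cons (fin 846 7 846)
(mv 1167 (cons (fin 974 7 910)
(mv 1230 (cons (fin 1166 5 974)
(mv 1231 (cons (fin 1294 5 1038)
(fin 1295 6 1039)))))))))))))))))))))))
(cons (mv 1039 (cons (fin 1100 1 1036)
(mv 1104 (cons (fin 1105 0 1037)
(mv 1103 (cons (fin 1036 0 1036)
(mv 975 (cons (mv 911 (cons (fin 847 4 847)
(fin 1168 4 911)))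
(cons (mv 1168 (cons (fin 1232 7 975)
(mv 1167 (cons (mv 974 (cons (fin 910 7 910)
(fin 1231 7 974)))
(cons (mv 1230 (cons (fin 1166 5 974)
(mv 1231 (cons (fin 1294 5 1038)
(fin 1295 6 1039)))))
(mv 974 (cons (fin 910 7 910)
(mv 1165 (cons (fin 1229 6 973)
(mv 1166 (cons (fin 1164 2 1100)
(fin 1230 5 974))))))))))))
(mv 911 (cons (fin 847 4 847)
(mv 848 (cons (fin 912 6 847)
(mv 910 (cons (fin 846 7 846)
(mv 1167 (cons (fin 974 7 910)
(mv 1230 (cons (fin 1166 5 974)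
(mv 1231 (cons (fin 1294 5 1038)
(fin 1295 6 1039))))))))))))))))))))))
(mv 1039 (cons (fin 1100 1 1036)
(mv 973 (cons (fin 972 3 972)
(mv 1104 (cons (fin 1105 0 1037)
(mv 1165 (cons (mv 974 (cons (fin 910 6 909)
(fin 1229 6 973)))
(mv 1164 (cons (fin 1228 5 972)
(mv 1166 (cons (fin 1230 4 973)
(mv 1167 (cons (fin 1103 2 1100)
(mv 1232 (cons (fin 1231 0 1164)
(mv 1168 (cons (fin 1233 0 1165)
(fin 975 7 975)))))))))))))))))))))))
(mv 1038 (cons (cons (cons (mv 1039 (cons (fin 1100 1 1036)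
(mv 973 (cons (fin 972 3 972)
(mv 1104 (cons (fin 1105 0 1037)
(mv 1165 (cons (mv 974 (cons (fin 910 6 909)
(fin 1229 6 973)))
(mv 1164 (cons (fin 1228 5 972)
(mv 1102 (cons (fin 1103 1 1100)
(mv 909 (cons (fin 845 4 845)
(fin 1166 4 909)))))))))))))))
(mv 974 (cons (cons (mv 910 (cons (fin 846 5 845)
(mv 1165 (cons (fin 1102 5 909)
(fin 973 6 909)))))
(mv 910 (cons (fin 846 5 845)
(mv 1102 (cons (cons (mv 845 (cons (fin 909 7 845)
(mv 847 (cons (fin 911 6 846)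
(mv 1167 (cons (fin 1103 4 910)
(mv 1166 (cons (fin 1231 4 974)
(mv 1230 (cons (fin 973 7 973)
(fin 1294 7 1037)))))))))))
(cons (mv 847 (cons (fin 911 6 846)
(mv 1167 (cons (fin 1103 4 910)
(mv 1166 (cons (fin 1231 4 974)
(mv 1230 (cons (fin 973 7 973)
(fin 1294 7 1037)))))))))
(mv 845 (cons (fin 909 7 845)
(mv 1167 (cons (fin 1103 4 910)
(mv 1166 (cons (fin 1231 4 974)
(mv 1230 (cons (fin 973 7 973)
(fin 1294 7 1037)))))))))))
(cons (mv 845 (cons (fin 909 7 845)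
(mv 911 (cons (fin 847 6 846)
(mv 1166 (cons (fin 975 6 910)
(mv 1230 (cons (fin 973 7 973)
(fin 1294 7 1037)))))))))
(cons (mv 909 (cons (fin 845 7 845)
(mv 911 (cons (fin 847 6 846)
(mv 1103 (cons (fin 1167 4 910)
(mv 1104 (cons (fin 1105 3 1037)
(mv 1168 (cons (fin 1169 0 1101)
(mv 973 (cons (mv 912 (cons (fin 972 1 908)
(fin 913 1 909)))
(mv 908 (cons (fin 844 7 844)
(mv 907 (cons (fin 906 0 906)
(fin 975 0 907)))))))))))))))))
(mv 845 (cons (fin 909 7 845)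
(mv 911 (cons (fin 847 6 846)
(mv 1166 (cons (fin 975 6 910)
(mv 1167 (cons (fin 1103 4 910)
(fin 1231 4 974))))))))))))))))
(cons (mv 1165 (cons (fin 1229 6 973)
(mv 973 (cons (mv 908 (cons (fin 972 7 908)
(mv 909 (cons (fin 844 7 844)
(mv 845 (cons (fin 781 4 781)
(fin 1102 4 845)))))))
(cons (mv 1164 (cons (fin 1228 5 972)
(mv 909 (cons (fin 1100 5 908)
(mv 845 (cons (fin 781 4 781)
(fin 1102 4 845)))))))
(mv 972 (cons (fin 908 7 908)
(mv 971 (cons (fin 970 0 970)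
(mv 907 (cons (fin 906 3 906)
(mv 1035 (cons (fin 1034 1 970)
(mv 1164 (cons (fin 1228 5 972)
(mv 1099 (cons (fin 1100 4 907)
(mv 1098 (cons (fin 1162 5 906)
(mv 1166 (cons (fin 1163 3 1098)
(fin 1230 4 973))))))))))))))))))))))
(cons (mv 910 (cons (fin 846 5 845)
(mv 1165 (cons (fin 973 6 909)
(fin 1229 6 973)))))
(mv 910 (cons (fin 846 5 845)
(mv 1165 (cons (fin 1102 5 909)
(fin 1229 6 973))))))))))
(cons (mv 974 (cons (cons (mv 910 (cons (fin 846 5 845)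
(mv 1165 (cons (fin 1102 5 909)
(fin 973 6 909)))))
(mv 1165 (cons (fin 1229 6 973)
(mv 973 (cons (mv 972 (cons (fin 1039 3 972)
(fin 908 7 908)))
(cons (mv 1164 (cons (fin 1228 5 972)
(mv 1166 (cons (fin 1230 4 973)
(mv 909 (cons (fin 1102 7 909)
(mv 844 (cons (fin 908 7 844)
(mv 845 (cons (fin 780 7 780)
(fin 781 4 781)))))))))))
(mv 972 (cons (fin 1039 3 972)
(mv 970 (cons (fin 971 0 970)
(mv 1164 (cons (fin 1228 5 972)
(mv 1166 (cons (fin 1230 4 973)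
(mv 1102 (cons (fin 909 7 909)
(mv 1103 (cons (fin 1104 1 1100)
(fin 1163 2 1099)))))))))))))))))))
(cons (mv 910 (cons (fin 846 5 845)
(mv 1102 (cons (cons (mv 845 (cons (fin 909 7 845)
(mv 847 (cons (fin 911 6 846)
(mv 1167 (cons (fin 1103 4 910)
(mv 1166 (cons (fin 1231 4 974)
(mv 1230 (cons (fin 973 7 973)
(fin 1294 7 1037)))))))))))
(cons (mv 847 (cons (fin 911 6 846)
(mv 1167 (cons (fin 1103 4 910)
(mv 1166 (cons (fin 1231 4 974)
(mv 1230 (cons (fin 973 7 973)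
(fin 1294 7 1037)))))))))
(mv 845 (cons (fin 909 7 845)
(mv 1167 (cons (fin 1103 4 910)
(mv 1166 (cons (fin 1231 4 974)
(mv 1230 (cons (fin 973 7 973)
(fin 1294 7 1037)))))))))))
(cons (mv 845 (cons (fin 909 7 845)
(mv 911 (cons (fin 847 6 846)
(mv 1166 (cons (fin 975 6 910)
(mv 1230 (cons (fin 973 7 973)
(fin 1294 7 1037)))))))))
(cons (mv 909 (cons (fin 845 7 845)
(mv 911 (cons (fin 847 6 846)
(mv 1103 (cons (fin 1167 4 910)
(mv 1104 (cons (fin 1105 3 1037)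
(mv 1168 (cons (fin 1169 0 1101)
(mv 975 (cons (fin 1039 4 911)
(mv 908 (cons (fin 907 0 907)
(mv 844 (cons (fin 843 3 843)
(fin 973 7 844)))))))))))))))))
(mv 845 (cons (fin 909 7 845)
(mv 911 (cons (fin 847 6 846)
(mv 975 (cons (fin 1166 6 910)
(mv 1103 (cons (fin 1167 4 910)
(mv 1104 (cons (fin 1105 3 1037)
(mv 1168 (cons (fin 1169 0 1101)
(fin 1039 4 911)))))))))))))))))))
(cons (mv 910 (cons (fin 846 5 845)
(mv 1165 (cons (fin 1102 5 909)
(fin 1229 6 973)))))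
(mv 910 (cons (fin 846 5 845)
(mv 1165 (cons (fin 973 6 909)
(fin 1229 6 973)))))))))
(cons (mv 1100 (cons (fin 1039 1 1036)
(mv 1099 (cons (fin 1098 2 1034)
(mv 1102 (cons (cons (mv 1034 (cons (fin 1035 3 1034)
(mv 1162 (cons (fin 1163 1 1098)
(mv 1166 (cons (fin 1167 0 1099)
(mv 973 (cons (fin 1230 7 973)
(fin 909 4 909)))))))))
(mv 1034 (cons (fin 1035 3 1034)
(mv 1163 (cons (fin 1162 1 1098)
(mv 1103 (cons (fin 1164 1 1099)
(mv 1104 (cons (fin 1105 3 1037)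
(mv 1168 (cons (fin 1167 0 1100)
(fin 1169 0 1101))))))))))))
(cons (mv 1034 (cons (fin 1035 3 1034)
(mv 1163 (cons (fin 1162 1 1098)
(mv 1164 (cons (fin 1103 1 1099)
(mv 973 (cons (fin 909 5 908)
(mv 1228 (cons (fin 1165 5 972)
(fin 1292 6 1036)))))))))))
(cons (mv 1034 (cons (fin 1035 3 1034)
(mv 1166 (cons (fin 1167 0 1099)
(mv 973 (cons (fin 1230 7 973)
(fin 909 4 909)))))))
(mv 1162 (cons (fin 1163 1 1098)
(mv 1166 (cons (fin 1167 0 1099)
(mv 973 (cons (fin 1230 7 973)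
(fin 909 4 909)))))))))))))))
(mv 1100 (cons (fin 1039 1 1036)
(mv 1099 (cons (fin 1098 2 1034)
(mv 1102 (cons (cons (mv 1034 (cons (fin 1035 3 1034)
(mv 1162 (cons (fin 1163 1 1098)
(mv 1166 (cons (fin 1167 0 1099)
(mv 1230 (cons (fin 1294 7 1037)
(mv 1229 (cons (fin 1293 5 1037)
(mv 974 (cons (fin 1165 5 973)
(mv 910 (cons (fin 846 5 845)
(mv 911 (cons (fin 847 6 846)
(fin 975 6 910)))))))))))))))))
(mv 1034 (cons (fin 1035 3 1034)
(mv 1163 (cons (fin 1162 1 1098)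
(mv 1103 (cons (fin 1164 1 1099)
(mv 1104 (cons (fin 1105 3 1037)
(mv 1168 (cons (fin 1167 0 1100)
(fin 1169 0 1101))))))))))))
(cons (mv 1035 (cons (fin 1034 3 1034)
(mv 1163 (cons (fin 1162 1 1098)
(mv 1164 (cons (fin 1103 1 1099)
(mv 971 (cons (fin 907 4 907)
(fin 1228 4 971)))))))))
(cons (mv 1034 (cons (fin 1035 3 1034)
(mv 1166 (cons (fin 1167 0 1099)
(mv 1230 (cons (fin 1294 7 1037)
(mv 1229 (cons (fin 1293 5 1037)
(mv 974 (cons (fin 1165 5 973)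
(mv 910 (cons (fin 846 5 845)
(mv 911 (cons (fin 847 6 846)
(fin 975 6 910)))))))))))))))
(mv 1162 (cons (fin 1163 1 1098)
(mv 1166 (cons (fin 1167 0 1099)
(mv 1230 (cons (fin 1294 7 1037)
(mv 1229 (cons (fin 1293 5 1037)
(mv 974 (cons (fin 1165 5 973)
(mv 910 (cons (fin 846 5 845)
(mv 911 (cons (fin 847 6 846)
(fin 975 6 910))))))))))))))))))))))))))
(cons (cons (mv 1100 (cons (fin 1039 1 1036)
(mv 1099 (cons (fin 1098 2 1034)
(mv 1102 (cons (cons (mv 1034 (cons (fin 1035 3 1034)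
(mv 1162 (cons (fin 1163 1 1098)
(mv 1166 (cons (fin 1167 0 1099)
(mv 973 (cons (fin 1230 7 973)
(fin 909 4 909)))))))))
(mv 1034 (cons (fin 1035 3 1034)
(mv 1163 (cons (fin 1162 1 1098)
(mv 1103 (cons (fin 1164 1 1099)
(mv 1104 (cons (fin 1105 3 1037)
(mv 1168 (cons (fin 1167 0 1100)
(fin 1169 0 1101))))))))))))
(cons (mv 1035 (cons (fin 1034 3 1034)
(mv 1163 (cons (fin 1162 1 1098)
(mv 1164 (cons (fin 1103 1 1099)
(mv 971 (cons (fin 907 4 907)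
(fin 1228 4 971)))))))))
(cons (mv 1034 (cons (fin 1035 3 1034)
(mv 1166 (cons (fin 1167 0 1099)
(mv 973 (cons (fin 1230 7 973)
(fin 909 4 909)))))))
(mv 1162 (cons (fin 1163 1 1098)
(mv 1166 (cons (fin 1167 0 1099)
(mv 973 (cons (fin 1230 7 973)
(fin 909 4 909)))))))))))))))
(cons (mv 1039 (cons (fin 1100 1 1036)
(mv 973 (cons (fin 972 3 972)
(mv 909 (cons (cons (mv 1102 (cons (fin 845 4 845)
(fin 1166 4 909)))
(mv 844 (cons (fin 908 7 844)
(mv 780 (cons (fin 845 7 780)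
(mv 910 (cons (fin 846 6 845)
(mv 1165 (cons (fin 974 6 909)
(mv 1228 (cons (fin 1164 5 972)
(mv 1229 (cons (fin 1292 5 1036)
(mv 1230 (cons (fin 1166 4 973)
(fin 1294 4 1037))))))))))))))))
(cons (mv 844 (cons (fin 908 7 844)
(mv 846 (cons (fin 910 6 845)
(mv 1166 (cons (fin 1102 4 909)
(mv 1165 (cons (fin 1230 4 973)
(mv 1228 (cons (fin 1164 5 972)
(mv 1229 (cons (fin 1292 5 1036)
(fin 974 6 973)))))))))))))
(mv 844 (cons (fin 908 7 844)
(mv 845 (cons (fin 780 7 780)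
(fin 1102 4 845))))))))))))
(mv 1039 (cons (fin 1100 1 1036)
(mv 973 (cons (fin 972 3 972)
(mv 1104 (cons (fin 1105 0 1037)
(mv 1165 (cons (mv 974 (cons (fin 910 6 909)
(fin 1229 6 973)))
(mv 1164 (cons (fin 1228 5 972)
(mv 1166 (cons (fin 1230 4 973)
(mv 1167 (cons (fin 1103 2 1100)
(mv 1232 (cons (fin 1231 0 1164)
(mv 1168 (cons (fin 1233 0 1165)
(fin 975 7 975)))))))))))))))))))))
(cons (mv 1039 (cons (fin 1100 1 1036)
(mv 973 (cons (fin 972 3 972)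
(mv 1104 (cons (fin 1105 0 1037)
(mv 1165 (cons (mv 974 (cons (fin 910 6 909)
(fin 1229 6 973)))
(cons (mv 1228 (cons (fin 1164 5 972)
(mv 1229 (cons (fin 1292 5 1036)
(mv 1293 (cons (fin 1102 6 1037)
(mv 1294 (cons (fin 1230 4 1037)
(fin 1358 4 1101)))))))))
(mv 910 (cons (fin 974 6 909)
(mv 909 (cons (fin 846 6 845)
(mv 844 (cons (fin 908 7 844)
(mv 845 (cons (fin 780 7 780)
(fin 1102 4 845))))))))))))))))))
(cons (mv 1039 (cons (fin 1100 1 1036)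
(mv 973 (cons (fin 972 3 972)
(mv 1104 (cons (fin 1105 0 1037)
(mv 909 (cons (cons (mv 1102 (cons (fin 845 4 845)
(fin 1166 4 909)))
(mv 844 (cons (fin 908 7 844)
(mv 780 (cons (fin 845 7 780)
(mv 910 (cons (fin 846 6 845)
(mv 1165 (cons (fin 974 6 909)
(mv 1230 (cons (fin 1166 4 973)
(mv 1229 (cons (fin 1294 4 1037)
(mv 1292 (cons (fin 1228 5 1036)
(mv 1293 (cons (fin 1356 5 1100)
(mv 1232 (cons (fin 1231 1 1228)
(mv 1168 (cons (fin 975 7 975)
(mv 1296 (cons (fin 1103 7 1039)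
(mv 1297 (cons (fin 1233 4 1040)
(fin 1361 4 1104))))))))))))))))))))))))))
(cons (mv 844 (cons (fin 908 7 844)
(mv 846 (cons (fin 910 6 845)
(mv 1166 (cons (fin 1102 4 909)
(mv 1165 (cons (fin 1230 4 973)
(mv 1229 (cons (fin 974 6 973)
(mv 1228 (cons (fin 1292 5 1036)
(mv 1168 (cons (fin 1167 1 1164)
(mv 975 (cons (fin 1232 7 975)
(mv 911 (cons (fin 847 4 847)
(fin 1103 4 911)))))))))))))))))))
(mv 844 (cons (fin 908 7 844)
(mv 845 (cons (fin 780 7 780)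
(fin 1102 4 845))))))))))))))
(mv 1039 (cons (fin 1100 1 1036)
(mv 972 (cons (fin 973 3 972)
(mv 1104 (cons (fin 1105 0 1037)
(mv 1168 (cons (cons (mv 975 (cons (fin 1232 7 975)
(mv 911 (cons (fin 847 4 847)
(fin 1103 4 911)))))
(mv 1103 (cons (cons (mv 911 (cons (fin 975 4 911)
(mv 1102 (cons (fin 1169 0 1101)
(mv 1165 (cons (fin 1164 1 1100)
(mv 974 (cons (fin 910 5 909)
(fin 1229 6 973)))))))))
(mv 975 (cons (fin 911 4 911)
(mv 1167 (cons (mv 974 (cons (fin 910 7 910)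
(fin 1231 7 974)))
(cons (mv 1230 (cons (fin 1166 5 974)
(mv 1231 (cons (fin 1294 5 1038)
(fin 1295 6 1039)))))
(mv 974 (cons (fin 910 7 910)
(mv 1165 (cons (fin 1229 6 973)
(mv 1166 (cons (fin 1164 2 1100)
(fin 1230 5 974)))))))))))))
(cons (mv 1102 (cons (fin 1169 0 1101)
(mv 1165 (cons (fin 1164 1 1100)
(mv 974 (cons (fin 910 5 909)
(fin 1229 6 973)))))))
(cons (mv 975 (cons (fin 911 4 911)
(mv 1102 (cons (fin 1169 0 1101)
(mv 1165 (cons (fin 1164 1 1100)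
(mv 1229 (cons (fin 1293 6 1037)
(mv 1230 (cons (fin 1166 6 974)
(fin 1294 4 1037)))))))))))
(mv 975 (cons (fin 911 4 911)
(mv 1169 (cons (fin 1102 0 1101)
(mv 1170 (cons (fin 1171 3 1103)
(mv 1167 (cons (mv 974 (cons (fin 910 7 910)
(fin 1231 7 974)))
(cons (mv 910 (cons (fin 974 7 910)
(mv 1106 (cons (fin 1107 2 1103)
(mv 1166 (cons (fin 1230 5 974)
(mv 1234 (cons (fin 1233 0 1166)
(fin 1235 0 1167)))))))))
(mv 1230 (cons (fin 1231 1 1166)
(fin 1166 5 974)))))))))))))))))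
(cons (mv 1232 (cons (cons (mv 1103 (cons (fin 1296 7 1039)
(mv 1102 (cons (fin 1169 0 1101)
(mv 1164 (cons (fin 1165 1 1100)
(mv 1231 (cons (fin 1295 5 1039)
(mv 1167 (cons (fin 974 7 974)
(mv 1230 (cons (fin 1294 5 1038)
(mv 1233 (cons (fin 1297 4 1040)
(mv 1234 (cons (fin 1166 3 1166)
(fin 1235 3 1167)))))))))))))))))
(cons (mv 1231 (cons (fin 1295 5 1039)
(mv 1233 (cons (fin 1297 4 1040)
(mv 1169 (cons (mv 1170 (cons (fin 1171 1 1167)
(fin 1230 2 1166)))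
(cons (mv 1102 (cons (fin 1103 0 1101)
(mv 1166 (cons (fin 1167 3 1101)
(mv 1230 (cons (fin 1165 3 1165)
(fin 1229 2 1165)))))))
(mv 1103 (cons (fin 1102 0 1101)
(mv 1167 (cons (fin 974 7 974)
(mv 1166 (cons (fin 1234 3 1166)
(fin 1165 0 1165))))))))))))))
(mv 1231 (cons (fin 1295 5 1039)
(mv 1297 (cons (fin 1233 4 1040)
(mv 1296 (cons (fin 1361 4 1104)
(mv 1229 (cons (fin 1230 0 1229)
(mv 1165 (cons (fin 974 6 973)
(mv 1293 (cons (fin 1102 6 1037)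
(mv 1298 (cons (fin 1299 3 1231)
(mv 1356 (cons (fin 1292 5 1100)
(mv 1357 (cons (fin 1420 5 1164)
(mv 1358 (cons (fin 1294 4 1101)
(fin 1422 4 1165)))))))))))))))))))))))
(cons (cons (mv 1103 (cons (fin 1296 7 1039)
(mv 1102 (cons (fin 1169 0 1101)
(mv 1165 (cons (fin 1164 1 1100)
(mv 974 (cons (fin 910 5 909)
(fin 1229 6 973)))))))))
(mv 1103 (cons (fin 1296 7 1039)
(mv 1102 (cons (fin 1169 0 1101)
(mv 1165 (cons (fin 1164 1 1100)
(mv 1229 (cons (fin 1293 6 1037)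
(mv 1230 (cons (fin 1294 4 1037)
(mv 1231 (cons (fin 1295 5 1039)
(mv 1233 (cons (fin 1166 3 1165)
(fin 1297 4 1040))))))))))))))))
(cons (mv 1103 (cons (fin 1296 7 1039)
(mv 1231 (cons (fin 1295 5 1039)
(mv 974 (cons (fin 1167 7 974)
(mv 846 (cons (fin 910 5 845)
(mv 1229 (cons (fin 1165 6 973)
(mv 1230 (cons (fin 1169 2 1165)
(mv 1233 (cons (fin 1297 4 1040)
(mv 1293 (cons (fin 1292 1 1228)
(fin 1294 1 1229)))))))))))))))))
(mv 1103 (cons (fin 1296 7 1039)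
(mv 1102 (cons (fin 1169 0 1101)
(mv 1231 (cons (fin 1295 5 1039)
(mv 1167 (cons (fin 974 7 974)
(mv 1230 (cons (fin 1294 5 1038)
(mv 1233 (cons (fin 1297 4 1040)
(mv 1234 (cons (fin 1166 3 1166)
(fin 1235 3 1167)))))))))))))))))))
(mv 1232 (cons (fin 975 7 975)
(mv 1231 (cons (fin 1295 5 1039)
(mv 1297 (cons (fin 1233 4 1040)
(mv 1296 (cons (fin 1361 4 1104)
(mv 1229 (cons (fin 1230 0 1229)
(mv 1165 (cons (fin 974 6 973)
(mv 1293 (cons (fin 1102 6 1037)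
(mv 1298 (cons (fin 1299 3 1231)
(mv 1356 (cons (fin 1292 5 1100)
(mv 1357 (cons (fin 1420 5 1164)
(mv 1358 (cons (fin 1294 4 1101)
(fin 1422 4 1165)))))))))))))))))))))))))))))))))))))))
(cons (mv 1038 (cons (cons (cons (mv 1039 (cons (fin 1100 1 1036)
(mv 1104 (cons (fin 1105 0 1037)
(mv 1036 (cons (fin 1103 0 1036)
(mv 1035 (cons (cons (mv 970 (cons (fin 971 3 970)
(mv 1034 (cons (fin 969 3 969)
(fin 1102 0 1034)))))
(mv 970 (cons (fin 971 3 970)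
(mv 974 (cons (fin 975 2 971)
(mv 910 (cons (fin 846 5 845)
(mv 1165 (cons (fin 1102 5 909)
(fin 973 6 909))))))))))
(cons (mv 974 (cons (fin 975 2 971)
(mv 1034 (cons (fin 973 2 970)
(fin 1102 0 1034)))))
(mv 970 (cons (fin 971 3 970)
(mv 969 (cons (fin 1034 3 969)
(mv 974 (cons (fin 975 2 971)
(mv 910 (cons (fin 846 5 845)
(mv 1165 (cons (fin 973 6 909)
(fin 1229 6 973))))))))))))))))))))
(mv 1165 (cons (cons (mv 974 (cons (fin 1229 6 973)
(mv 910 (cons (fin 846 5 845)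
(fin 1102 5 909)))))
(mv 973 (cons (cons (mv 910 (cons (fin 974 6 909)
(mv 909 (cons (fin 846 6 845)
(mv 1102 (cons (fin 845 4 845)
(fin 1166 4 909)))))))
(cons (mv 1164 (cons (fin 1228 5 972)
(mv 1166 (cons (fin 1230 4 973)
(mv 909 (cons (fin 1102 4 909)
(mv 844 (cons (fin 908 7 844)
(mv 845 (cons (fin 780 7 780)
(mv 781 (cons (fin 974 4 781)
(mv 782 (cons (fin 718 6 717)
(fin 846 6 781)))))))))))))))
(mv 1164 (cons (fin 1228 5 972)
(mv 1166 (cons (fin 1230 4 973)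
(mv 909 (cons (fin 1102 4 909)
(mv 844 (cons (fin 908 7 844)
(mv 845 (cons (fin 780 7 780)
(mv 846 (cons (fin 782 6 781)
(fin 910 6 845)))))))))))))))
(cons (mv 910 (cons (fin 974 6 909)
(mv 909 (cons (fin 846 6 845)
(mv 844 (cons (fin 908 7 844)
(mv 845 (cons (fin 780 7 780)
(fin 1102 4 845)))))))))
(cons (mv 1164 (cons (fin 1228 5 972)
(mv 1166 (cons (fin 1230 4 973)
(mv 909 (cons (cons (mv 910 (cons (fin 846 6 845)
(fin 974 6 909)))
(mv 844 (cons (fin 908 7 844)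
(mv 845 (cons (fin 780 7 780)
(mv 781 (cons (fin 974 4 781)
(mv 782 (cons (fin 718 6 717)
(fin 846 6 781))))))))))
(cons (mv 844 (cons (fin 908 7 844)
(mv 845 (cons (fin 780 7 780)
(mv 846 (cons (fin 782 6 781)
(fin 910 6 845)))))))
(mv 844 (cons (fin 908 7 844)
(mv 845 (cons (fin 780 7 780)
(mv 974 (cons (fin 910 6 909)
(fin 781 4 781))))))))))))))
(mv 910 (cons (fin 974 6 909)
(mv 1164 (cons (fin 1228 5 972)
(mv 1166 (cons (fin 1230 4 973)
(mv 1163 (cons (mv 1102 (cons (fin 1162 2 1098)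
(fin 1103 2 1099)))
(cons (mv 1098 (cons (fin 1099 3 1098)
(mv 1162 (cons (fin 1097 3 1097)
(mv 1226 (cons (fin 1225 1 1161)
(fin 1227 1 1162)))))))
(mv 1098 (cons (fin 1099 3 1098)
(mv 1103 (cons (fin 1102 2 1099)
(mv 1104 (cons (fin 1167 2 1100)
(mv 1039 (cons (fin 1036 0 1036)
(fin 1105 0 1037)))))))))))))))))))))))
(cons (mv 1229 (cons (cons (mv 1102 (cons (fin 1293 6 1037)
(mv 1228 (cons (fin 1292 5 1036)
(mv 973 (cons (fin 1164 5 972)
(mv 909 (cons (fin 845 4 845)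
(fin 1166 4 909)))))))))
(mv 1228 (cons (fin 1292 5 1036)
(mv 973 (cons (fin 1164 5 972)
(mv 1230 (cons (fin 1166 4 973)
(fin 1294 4 1037))))))))
(cons (mv 1102 (cons (fin 1293 6 1037)
(mv 1230 (cons (fin 1294 4 1037)
(mv 1166 (cons (fin 973 7 973)
(mv 975 (cons (fin 1039 6 974)
(mv 1231 (cons (fin 1295 4 1038)
(mv 1164 (cons (fin 1232 3 1164)
(fin 1163 0 1163)))))))))))))
(mv 1228 (cons (fin 1292 5 1036)
(mv 1293 (cons (fin 1102 6 1037)
(mv 1294 (cons (fin 1230 4 1037)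
(fin 1358 4 1101))))))))))
(mv 974 (cons (fin 1229 6 973)
(mv 910 (cons (fin 846 5 845)
(fin 973 6 909)))))))))
(cons (mv 974 (cons (cons (mv 910 (cons (fin 846 5 845)
(mv 1165 (cons (fin 1102 5 909)
(fin 973 6 909)))))
(mv 1165 (cons (fin 1229 6 973)
(mv 973 (cons (cons (mv 1164 (cons (fin 1228 5 972)
(mv 909 (cons (fin 1100 5 908)
(mv 845 (cons (fin 781 4 781)
(fin 1102 4 845)))))))
(mv 1166 (cons (fin 1230 4 973)
(mv 909 (cons (fin 1102 7 909)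
(mv 844 (cons (fin 908 7 844)
(mv 845 (cons (fin 780 7 780)
(fin 781 4 781))))))))))
(cons (mv 1164 (cons (fin 1228 5 972)
(mv 1166 (cons (fin 1230 4 973)
(mv 1102 (cons (mv 1103 (cons (fin 1104 1 1100)
(fin 1163 2 1099)))
(cons (mv 911 (cons (fin 975 6 910)
(mv 1162 (cons (fin 1163 2 1098)
(mv 1167 (cons (fin 1231 4 974)
(mv 1100 (cons (fin 1099 3 1099)
(fin 1168 3 1100)))))))))
(mv 911 (cons (fin 975 6 910)
(mv 1103 (cons (fin 1104 1 1100)
(mv 1035 (cons (fin 1036 0 1035)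
(mv 1167 (cons (fin 1231 4 974)
(mv 1100 (cons (fin 1099 3 1099)
(fin 1168 3 1100))))))))))))))))))
(mv 1164 (cons (fin 1228 5 972)
(mv 909 (cons (fin 1100 5 908)
(mv 844 (cons (fin 908 7 844)
(mv 845 (cons (fin 780 7 780)
(fin 781 4 781)))))))))))))))
(cons (mv 910 (cons (fin 846 5 845)
(mv 1102 (cons (cons (mv 845 (cons (fin 909 7 845)
(mv 847 (cons (fin 911 6 846)
(mv 1103 (cons (fin 1167 4 910)
(mv 1036 (cons (fin 1104 3 1036)
(fin 1035 0 1035)))))))))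
(mv 847 (cons (fin 911 6 846)
(mv 1103 (cons (fin 1167 4 910)
(mv 1036 (cons (fin 1104 3 1036)
(fin 1035 0 1035))))))))
(cons (mv 845 (cons (fin 909 7 845)
(mv 911 (cons (fin 847 6 846)
(mv 1166 (cons (fin 975 6 910)
(mv 1230 (cons (fin 973 7 973)
(fin 1294 7 1037)))))))))
(mv 845 (cons (fin 909 7 845)
(mv 1103 (cons (fin 1167 4 910)
(mv 1036 (cons (fin 1104 3 1036)
(fin 1035 0 1035))))))))))))
(cons (mv 910 (cons (fin 846 5 845)
(mv 1165 (cons (fin 973 6 909)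
(fin 1229 6 973)))))
(mv 910 (cons (fin 846 5 845)
(mv 1165 (cons (fin 1102 5 909)
(fin 1229 6 973)))))))))
(mv 1039 (cons (fin 1100 1 1036)
(mv 1104 (cons (fin 1105 0 1037)
(mv 1103 (cons (fin 1036 0 1036)
(mv 1168 (cons (mv 975 (cons (fin 1232 7 975)
(fin 911 4 911)))
(cons (mv 911 (cons (fin 975 4 911)
(mv 1102 (cons (fin 1169 0 1101)
(mv 1165 (cons (fin 1164 1 1100)
(mv 1229 (cons (fin 1293 6 1037)
(mv 1228 (cons (fin 1292 5 1036)
(mv 1166 (cons (fin 1167 1 1164)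
(mv 973 (cons (fin 1230 7 973)
(fin 909 4 909)))))))))))))))
(mv 1102 (cons (fin 1169 0 1101)
(mv 1165 (cons (fin 1164 1 1100)
(mv 1229 (cons (fin 1293 6 1037)
(mv 1228 (cons (fin 1292 5 1036)
(mv 1166 (cons (fin 1167 1 1164)
(mv 973 (cons (fin 1230 7 973)
(fin 909 4 909))))))))))))))))))))))))
(cons (cons (mv 1039 (cons (fin 1100 1 1036)
(mv 1104 (cons (fin 1105 0 1037)
(mv 1036 (cons (fin 1103 0 1036)
(mv 1035 (cons (cons (mv 970 (cons (fin 971 3 970)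
(mv 1034 (cons (fin 969 3 969)
(fin 1102 0 1034)))))
(mv 971 (cons (fin 970 3 970)
(mv 1099 (cons (fin 1098 1 1034)
(mv 907 (cons (cons (mv 842 (cons (fin 906 7 842)
(mv 843 (cons (fin 778 7 778)
(mv 844 (cons (fin 780 6 779)
(fin 908 6 843)))))))
(cons (mv 842 (cons (fin 906 7 842)
(mv 843 (cons (fin 778 7 778)
(mv 974 (cons (fin 975 2 971)
(mv 910 (cons (fin 846 5 845)
(mv 909 (cons (fin 908 3 842)
(mv 845 (cons (fin 1102 7 845)
(mv 781 (cons (fin 717 4 717)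
(fin 973 4 781)))))))))))))))
(mv 844 (cons (fin 908 6 843)
(mv 843 (cons (fin 780 6 779)
(mv 846 (cons (cons (mv 974 (cons (fin 975 2 971)
(fin 910 5 845)))
(mv 845 (cons (fin 906 1 842)
(mv 778 (cons (fin 779 3 778)
(mv 782 (cons (fin 783 2 779)
(mv 909 (cons (fin 973 6 781)
(mv 911 (cons (fin 910 0 843)
(mv 847 (cons (fin 912 0 844)
(fin 975 7 782))))))))))))))
(cons (mv 845 (cons (fin 906 1 842)
(mv 778 (cons (fin 779 3 778)
(mv 783 (cons (fin 782 2 779)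
(mv 847 (cons (fin 784 2 780)
(mv 911 (cons (fin 912 0 844)
(fin 975 4 847)))))))))))
(mv 845 (cons (fin 906 1 842)
(mv 910 (cons (fin 911 0 843)
(fin 974 5 845))))))))))))))
(cons (mv 974 (cons (fin 975 2 971)
(mv 846 (cons (fin 910 5 845)
(mv 843 (cons (mv 842 (cons (fin 778 7 778)
(fin 906 7 842)))
(cons (mv 780 (cons (fin 844 6 779)
(mv 779 (cons (fin 716 6 715)
(mv 778 (cons (fin 714 7 714)
(mv 781 (cons (fin 845 0 778)
(mv 718 (cons (fin 717 2 714)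
(mv 782 (cons (fin 719 2 715)
(fin 847 0 779)))))))))))))
(mv 844 (cons (fin 780 6 779)
(mv 906 (cons (fin 845 1 842)
(fin 842 7 842))))))))))))
(cons (mv 844 (cons (fin 908 6 843)
(mv 843 (cons (fin 780 6 779)
(mv 778 (cons (fin 842 7 778)
(mv 779 (cons (fin 714 7 714)
(mv 776 (cons (fin 777 0 776)
(mv 846 (cons (fin 845 3 778)
(mv 974 (cons (fin 975 2 971)
(fin 910 5 845)))))))))))))))
(mv 906 (cons (fin 842 7 842)
(mv 908 (cons (fin 844 6 843)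
(mv 974 (cons (fin 975 2 971)
(mv 846 (cons (fin 910 5 845)
(mv 909 (cons (fin 845 2 842)
(fin 973 0 906))))))))))))))))))))
(cons (mv 974 (cons (fin 975 2 971)
(mv 1034 (cons (fin 973 2 970)
(fin 1102 0 1034)))))
(mv 970 (cons (fin 971 3 970)
(mv 974 (cons (fin 975 2 971)
(mv 1034 (cons (fin 969 3 969)
(fin 973 2 970))))))))))))))))
(mv 1100 (cons (fin 1039 1 1036)
(mv 1098 (cons (fin 1099 2 1034)
(mv 1164 (cons (cons (mv 973 (cons (fin 909 5 908)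
(mv 1228 (cons (fin 1165 5 972)
(fin 1036 6 972)))))
(mv 1228 (cons (fin 1292 6 1036)
(mv 1036 (cons (mv 971 (cons (fin 1035 7 971)
(mv 1227 (cons (fin 1291 5 1035)
(mv 1229 (cons (fin 1293 4 1036)
(mv 1165 (cons (fin 974 6 973)
(mv 1166 (cons (fin 1167 1 1163)
(fin 1226 2 1162)))))))))))
(cons (mv 1227 (cons (fin 1291 5 1035)
(mv 1229 (cons (fin 1293 4 1036)
(mv 1165 (cons (fin 974 6 973)
(mv 1166 (cons (fin 1167 1 1163)
(fin 1226 2 1162)))))))))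
(mv 1035 (cons (fin 971 7 971)
(mv 1034 (cons (fin 1097 1 1033)
(fin 1033 0 1033)))))))))))
(cons (mv 973 (cons (fin 909 5 908)
(mv 1165 (cons (mv 974 (cons (fin 910 6 909)
(fin 1229 6 973)))
(cons (mv 1230 (cons (fin 1166 4 973)
(mv 1229 (cons (fin 1294 4 1037)
(mv 1293 (cons (fin 1036 7 1036)
(fin 1357 7 1100)))))))
(mv 974 (cons (fin 910 6 909)
(mv 1166 (cons (fin 1230 4 973)
(mv 1167 (cons (fin 1168 3 1100)
(mv 1231 (cons (fin 1232 0 1164)
(fin 1102 4 974))))))))))))))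
(cons (mv 973 (cons (fin 909 5 908)
(mv 1228 (cons (fin 1036 6 972)
(fin 1292 6 1036)))))
(mv 973 (cons (fin 909 5 908)
(mv 1228 (cons (fin 1165 5 972)
(fin 1292 6 1036))))))))))))))
(cons (mv 1039 (cons (fin 1100 1 1036)
(mv 1104 (cons (fin 1105 0 1037)
(mv 1036 (cons (fin 1103 0 1036)
(mv 1035 (cons (cons (mv 970 (cons (fin 971 3 970)
(mv 969 (cons (fin 1034 3 969)
(mv 974 (cons (fin 975 2 971)
(mv 910 (cons (fin 846 5 845)
(mv 1165 (cons (fin 973 6 909)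
(fin 1229 6 973)))))))))))
(mv 970 (cons (fin 971 3 970)
(mv 1034 (cons (fin 969 3 969)
(mv 1098 (cons (fin 1097 1 1033)
(fin 1099 1 1034))))))))
(cons (mv 974 (cons (fin 975 2 971)
(mv 846 (cons (fin 910 5 845)
(mv 1034 (cons (fin 973 2 970)
(mv 1098 (cons (fin 1097 1 1033)
(fin 1099 1 1034)))))))))
(mv 970 (cons (fin 971 3 970)
(mv 974 (cons (fin 975 2 971)
(mv 910 (cons (fin 846 5 845)
(mv 1165 (cons (fin 973 6 909)
(fin 1229 6 973))))))))))))))))))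
(cons (mv 1039 (cons (fin 1100 1 1036)
(mv 1104 (cons (fin 1105 0 1037)
(mv 1036 (cons (fin 1103 0 1036)
(mv 1035 (cons (cons (mv 970 (cons (fin 971 3 970)
(mv 1034 (cons (fin 969 3 969)
(fin 1102 0 1034)))))
(mv 970 (cons (fin 971 3 970)
(mv 974 (cons (fin 975 2 971)
(mv 910 (cons (fin 846 5 845)
(mv 1165 (cons (fin 1102 5 909)
(fin 1229 6 973))))))))))
(cons (mv 974 (cons (fin 975 2 971)
(mv 846 (cons (fin 910 5 845)
(mv 1034 (cons (fin 1102 0 1034)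
(mv 1098 (cons (fin 1097 1 1033)
(fin 1099 1 1034)))))))))
(mv 970 (cons (fin 971 3 970)
(mv 974 (cons (fin 975 2 971)
(mv 846 (cons (fin 910 5 845)
(mv 1034 (cons (fin 969 3 969)
(mv 1098 (cons (fin 1097 1 1033)
(fin 1099 1 1034))))))))))))))))))))
(mv 1039 (cons (fin 1100 1 1036)
(mv 1104 (cons (fin 1105 0 1037)
(mv 974 (cons (cons (mv 910 (cons (fin 846 5 845)
(mv 1165 (cons (fin 1102 5 909)
(fin 973 6 909)))))
(mv 1165 (cons (fin 1229 6 973)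
(mv 1103 (cons (cons (mv 1102 (cons (fin 1164 1 1100)
(mv 1167 (cons (fin 1231 7 974)
(mv 1168 (cons (fin 1169 0 1101)
(mv 975 (cons (fin 1232 7 975)
(fin 911 4 911)))))))))
(mv 1102 (cons (fin 1164 1 1100)
(mv 1168 (cons (fin 1169 0 1101)
(mv 975 (cons (fin 1232 7 975)
(fin 911 4 911))))))))
(cons (mv 1167 (cons (fin 1231 7 974)
(mv 1168 (cons (mv 975 (cons (fin 1232 7 975)
(fin 911 4 911)))
(cons (mv 911 (cons (fin 975 4 911)
(mv 1169 (cons (fin 1102 0 1101)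
(mv 1170 (cons (fin 1171 3 1103)
(mv 1106 (cons (fin 1107 2 1103)
(mv 1234 (cons (fin 1235 0 1167)
(mv 1233 (cons (fin 1166 0 1166)
(mv 1042 (cons (fin 978 5 977)
(fin 1297 5 1041)))))))))))))))
(mv 1102 (cons (fin 1169 0 1101)
(mv 1232 (cons (fin 1296 7 1039)
(mv 1233 (cons (fin 1166 0 1165)
(fin 1297 4 1040))))))))))))
(cons (mv 1167 (cons (fin 1231 7 974)
(mv 1166 (cons (fin 1164 2 1100)
(mv 1230 (cons (fin 975 5 974)
(fin 973 4 973)))))))
(mv 1102 (cons (fin 1164 1 1100)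
(mv 1167 (cons (fin 1231 7 974)
(mv 1168 (cons (fin 1169 0 1101)
(mv 1232 (cons (fin 1296 7 1039)
(mv 1233 (cons (fin 1166 0 1165)
(fin 1297 4 1040))))))))))))))))))
(cons (mv 910 (cons (fin 846 5 845)
(mv 1102 (cons (cons (mv 845 (cons (fin 909 7 845)
(mv 847 (cons (fin 911 6 846)
(mv 1103 (cons (fin 1167 4 910)
(mv 1168 (cons (fin 1169 0 1101)
(mv 1232 (cons (fin 975 7 975)
(fin 1296 7 1039)))))))))))
(mv 845 (cons (fin 909 7 845)
(mv 911 (cons (fin 847 6 846)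
(mv 1166 (cons (fin 975 6 910)
(mv 1230 (cons (fin 973 7 973)
(fin 1294 7 1037))))))))))
(cons (mv 845 (cons (fin 909 7 845)
(mv 1103 (cons (fin 1167 4 910)
(mv 1168 (cons (fin 1169 0 1101)
(mv 1232 (cons (fin 975 7 975)
(fin 1296 7 1039)))))))))
(cons (mv 847 (cons (fin 911 6 846)
(mv 1103 (cons (fin 1167 4 910)
(mv 1168 (cons (fin 1169 0 1101)
(mv 1232 (cons (fin 975 7 975)
(fin 1296 7 1039)))))))))
(mv 845 (cons (fin 909 7 845)
(mv 847 (cons (fin 911 6 846)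
(mv 1167 (cons (fin 1103 4 910)
(mv 1166 (cons (fin 1231 4 974)
(mv 1230 (cons (fin 973 7 973)
(fin 1294 7 1037)))))))))))))))))
(cons (mv 910 (cons (fin 846 5 845)
(mv 1165 (cons (fin 973 6 909)
(fin 1229 6 973)))))
(mv 910 (cons (fin 846 5 845)
(mv 1165 (cons (fin 1102 5 909)
(fin 1229 6 973))))))))))))))))))
(cons (mv 1039 (cons (cons (mv 1038 (cons (fin 1100 1 1036)
(mv 972 (cons (fin 973 3 972)
(mv 1036 (cons (fin 971 3 971)
(mv 1104 (cons (fin 1103 0 1036)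
(fin 1105 0 1037)))))))))
(cons (mv 1102 (cons (cons (mv 1103 (cons (fin 1100 2 1036)
(mv 1104 (cons (fin 1036 3 1036)
(mv 1164 (cons (fin 1165 1 1100)
(mv 1168 (cons (fin 1169 0 1101)
(mv 975 (cons (fin 1232 7 975)
(fin 911 4 911)))))))))))
(mv 973 (cons (cons (mv 909 (cons (fin 1166 4 909)
(mv 844 (cons (fin 908 7 844)
(mv 780 (cons (fin 845 7 780)
(mv 910 (cons (fin 846 6 845)
(mv 974 (cons (fin 1165 6 909)
(mv 972 (cons (fin 975 0 972)
(mv 911 (cons (fin 912 1 908)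
(fin 971 2 907)))))))))))))))
(cons (mv 1165 (cons (cons (mv 908 (cons (fin 972 7 908)
(mv 910 (cons (fin 974 6 909)
(mv 1164 (cons (fin 1228 5 972)
(mv 1163 (cons (fin 1162 2 1098)
(mv 1166 (cons (fin 1230 4 973)
(mv 1099 (cons (fin 1098 3 1098)
(mv 1100 (cons (fin 1167 3 1099)
(mv 1034 (cons (fin 1035 3 1034)
(mv 1227 (cons (fin 1226 1 1162)
(mv 1291 (cons (fin 1036 6 1035)
(fin 1355 6 1099)))))))))))))))))))))
(mv 972 (cons (fin 908 7 908)
(mv 974 (cons (fin 975 0 972)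
(fin 910 6 909))))))
(cons (mv 910 (cons (fin 974 6 909)
(mv 1164 (cons (fin 1228 5 972)
(mv 1163 (cons (fin 1162 2 1098)
(mv 1166 (cons (fin 1230 4 973)
(mv 1099 (cons (fin 1098 3 1098)
(mv 1100 (cons (fin 1167 3 1099)
(mv 1034 (cons (fin 1035 3 1034)
(mv 1227 (cons (fin 1226 1 1162)
(mv 1291 (cons (fin 1036 6 1035)
(fin 1355 6 1099)))))))))))))))))))
(mv 908 (cons (fin 972 7 908)
(mv 1164 (cons (fin 1228 5 972)
(mv 1163 (cons (fin 1162 2 1098)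
(mv 1166 (cons (fin 1230 4 973)
(mv 1099 (cons (fin 1098 3 1098)
(mv 1100 (cons (fin 1167 3 1099)
(mv 1034 (cons (fin 1035 3 1034)
(mv 1227 (cons (fin 1226 1 1162)
(mv 1291 (cons (fin 1036 6 1035)
(fin 1355 6 1099))))))))))))))))))))))
(mv 909 (cons (cons (mv 844 (cons (fin 908 7 844)
(mv 780 (cons (fin 845 7 780)
(mv 910 (cons (fin 846 6 845)
(mv 974 (cons (fin 1165 6 909)
(mv 972 (cons (fin 975 0 972)
(mv 911 (cons (fin 912 1 908)
(fin 971 2 907)))))))))))))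
(mv 846 (cons (fin 910 6 845)
(mv 845 (cons (fin 782 6 781)
(mv 1100 (cons (fin 1036 5 844)
(fin 1164 5 908))))))))
(cons (mv 844 (cons (fin 908 7 844)
(mv 845 (cons (fin 780 7 780)
(mv 1100 (cons (fin 1036 5 844)
(fin 1164 5 908)))))))
(mv 844 (cons (fin 908 7 844)
(mv 910 (cons (fin 846 6 845)
(mv 974 (cons (fin 1165 6 909)
(mv 972 (cons (fin 975 0 972)
(mv 911 (cons (fin 912 1 908)
(fin 971 2 907))))))))))))))))
(cons (mv 909 (cons (fin 1166 4 909)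
(mv 844 (cons (fin 908 7 844)
(mv 845 (cons (fin 780 7 780)
(mv 846 (cons (fin 782 6 781)
(fin 910 6 845)))))))))
(cons (mv 909 (cons (fin 1166 4 909)
(mv 846 (cons (fin 910 6 845)
(mv 845 (cons (fin 782 6 781)
(mv 1100 (cons (fin 1036 5 844)
(fin 1164 5 908)))))))))
(mv 909 (cons (fin 1166 4 909)
(mv 844 (cons (fin 908 7 844)
(mv 845 (cons (fin 780 7 780)
(mv 1100 (cons (fin 1036 5 844)
(fin 1164 5 908))))))))))))))
(cons (mv 1166 (cons (cons (mv 973 (cons (fin 909 4 909)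
(mv 1230 (cons (fin 1294 7 1037)
(fin 1165 4 973)))))
(mv 973 (cons (fin 909 4 909)
(mv 1165 (cons (cons (mv 908 (cons (fin 972 7 908)
(mv 910 (cons (fin 974 6 909)
(mv 1164 (cons (fin 1228 5 972)
(mv 1103 (cons (fin 1104 1 1100)
(fin 1163 2 1099)))))))))
(mv 972 (cons (fin 908 7 908)
(mv 974 (cons (fin 975 0 972)
(fin 910 6 909))))))
(cons (mv 910 (cons (fin 974 6 909)
(mv 1164 (cons (fin 1228 5 972)
(mv 1103 (cons (fin 1104 1 1100)
(fin 1163 2 1099)))))))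
(mv 908 (cons (fin 972 7 908)
(mv 1164 (cons (fin 1228 5 972)
(mv 1103 (cons (fin 1104 1 1100)
(fin 1163 2 1099)))))))))))))
(cons (mv 1230 (cons (fin 1294 7 1037)
(mv 1103 (cons (mv 975 (cons (fin 911 5 910)
(fin 1167 5 974)))
(mv 1104 (cons (fin 1036 3 1036)
(mv 1165 (cons (fin 1164 1 1100)
(fin 1105 1 1101)))))))))
(mv 909 (cons (fin 973 4 909)
(mv 1230 (cons (fin 1294 7 1037)
(mv 1103 (cons (mv 975 (cons (fin 911 5 910)
(fin 1167 5 974)))
(cons (mv 1104 (cons (fin 1036 3 1036)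
(mv 1168 (cons (fin 1169 0 1101)
(mv 1232 (cons (fin 1296 7 1039)
(mv 1231 (cons (fin 1295 5 1039)
(mv 1233 (cons (fin 1297 4 1040)
(mv 1234 (cons (fin 1167 3 1166)
(mv 1171 (cons (fin 1170 2 1167)
(mv 1235 (cons (fin 1172 2 1168)
(mv 1299 (cons (fin 1298 0 1231)
(fin 1300 0 1232)))))))))))))))))))
(mv 975 (cons (fin 911 5 910)
(mv 1104 (cons (fin 1036 3 1036)
(mv 1168 (cons (fin 1169 0 1101)
(fin 1232 7 975)))))))))))))))))
(cons (mv 1100 (cons (fin 1103 2 1036)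
(mv 1166 (cons (cons (mv 909 (cons (fin 973 4 909)
(mv 1099 (cons (fin 1167 0 1099)
(mv 1034 (cons (fin 1035 3 1034)
(mv 1098 (cons (fin 1033 3 1033)
(fin 1165 0 1098)))))))))
(mv 973 (cons (fin 909 4 909)
(mv 1230 (cons (fin 1294 7 1037)
(fin 1165 4 973))))))
(cons (mv 1099 (cons (fin 1167 0 1099)
(mv 1034 (cons (fin 1035 3 1034)
(mv 1098 (cons (fin 1033 3 1033)
(fin 1165 0 1098)))))))
(mv 909 (cons (fin 973 4 909)
(mv 1099 (cons (fin 1167 0 1099)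
(mv 1034 (cons (fin 1035 3 1034)
(mv 1098 (cons (fin 1033 3 1033)
(mv 1162 (cons (fin 1161 1 1097)
(fin 1163 1 1098))))))))))))))))
(mv 1103 (cons (fin 1100 2 1036)
(mv 1104 (cons (fin 1036 3 1036)
(mv 1168 (cons (fin 1169 0 1101)
(mv 975 (cons (fin 1232 7 975)
(fin 911 4 911)))))))))))))
(mv 1038 (cons (cons (mv 972 (cons (fin 973 3 972)
(mv 1036 (cons (fin 971 3 971)
(mv 1104 (cons (fin 1103 0 1036)
(fin 1105 0 1037)))))))
(mv 973 (cons (fin 972 3 972)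
(mv 909 (cons (mv 1102 (cons (fin 845 4 845)
(fin 1166 4 909)))
(cons (mv 844 (cons (fin 908 7 844)
(mv 845 (cons (fin 780 7 780)
(mv 846 (cons (fin 782 6 781)
(fin 910 6 845)))))))
(mv 844 (cons (fin 908 7 844)
(mv 910 (cons (fin 846 6 845)
(mv 974 (cons (fin 1165 6 909)
(mv 1102 (cons (fin 1166 7 909)
(mv 911 (cons (fin 847 6 846)
(mv 912 (cons (fin 913 1 909)
(mv 848 (cons (fin 849 2 845)
(mv 1103 (cons (fin 975 6 847)
(fin 1167 4 910)))))))))))))))))))))))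
(cons (mv 1104 (cons (fin 1105 0 1037)
(mv 1036 (cons (fin 1103 0 1036)
(mv 1035 (cons (cons (mv 970 (cons (fin 971 3 970)
(mv 1034 (cons (fin 969 3 969)
(fin 1102 0 1034)))))
(mv 970 (cons (fin 971 3 970)
(mv 974 (cons (fin 975 2 971)
(mv 910 (cons (fin 846 5 845)
(mv 1165 (cons (fin 1102 5 909)
(fin 973 6 909))))))))))
(cons (mv 974 (cons (fin 975 2 971)
(mv 1034 (cons (fin 973 2 970)
(fin 1102 0 1034)))))
(mv 970 (cons (fin 971 3 970)
(mv 974 (cons (fin 975 2 971)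
(mv 1034 (cons (fin 969 3 969)
(fin 973 2 970))))))))))))))
(cons (mv 1104 (cons (fin 1105 0 1037)
(mv 1036 (cons (fin 1103 0 1036)
(mv 971 (cons (fin 972 3 971)
(mv 1035 (cons (fin 970 3 970)
(mv 974 (cons (fin 975 2 971)
(mv 846 (cons (fin 910 5 845)
(mv 1034 (cons (fin 1102 0 1034)
(mv 1098 (cons (fin 1097 1 1033)
(fin 1099 1 1034)))))))))))))))))
(mv 972 (cons (fin 973 3 972)
(mv 1104 (cons (fin 1105 0 1037)
(mv 974 (cons (cons (mv 846 (cons (fin 910 5 845)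
(mv 1036 (cons (fin 971 3 971)
(mv 844 (cons (fin 908 4 844)
(mv 1035 (cons (fin 975 2 971)
(mv 1034 (cons (fin 1102 0 1034)
(mv 1098 (cons (fin 1097 1 1033)
(fin 1099 1 1034)))))))))))))
(mv 910 (cons (fin 846 5 845)
(mv 1102 (cons (fin 1165 5 909)
(mv 845 (cons (fin 909 7 845)
(mv 911 (cons (fin 847 6 846)
(mv 1166 (cons (fin 975 6 910)
(mv 1230 (cons (fin 1294 7 1037)
(mv 1231 (cons (fin 1167 4 974)
(fin 1295 4 1038))))))))))))))))
(cons (mv 1036 (cons (fin 971 3 971)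
(mv 844 (cons (fin 908 4 844)
(mv 1035 (cons (fin 975 2 971)
(mv 1034 (cons (fin 1102 0 1034)
(mv 1098 (cons (fin 1097 1 1033)
(fin 1099 1 1034)))))))))))
(cons (mv 910 (cons (fin 846 5 845)
(mv 971 (cons (fin 1036 3 971)
(mv 1102 (cons (fin 1165 5 909)
(mv 909 (cons (fin 845 7 845)
(mv 911 (cons (fin 908 1 907)
(fin 847 6 846)))))))))))
(mv 846 (cons (fin 910 5 845)
(mv 1036 (cons (fin 971 3 971)
(mv 844 (cons (fin 908 4 844)
(mv 975 (cons (fin 1035 2 971)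
(mv 847 (cons (fin 911 4 847)
(mv 1168 (cons (fin 1232 7 975)
(mv 845 (cons (cons (mv 779 (cons (fin 780 3 779)
(mv 783 (cons (fin 784 2 780)
(mv 843 (cons (fin 778 3 778)
(fin 782 2 779)))))))
(mv 783 (cons (fin 784 2 780)
(mv 843 (cons (fin 782 2 779)
(mv 778 (cons (fin 779 3 778)
(mv 842 (cons (fin 777 3 777)
(mv 906 (cons (fin 905 1 841)
(fin 907 1 842))))))))))))
(cons (mv 780 (cons (fin 779 3 779)
(mv 848 (cons (fin 781 3 780)
(mv 785 (cons (fin 784 2 781)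
(mv 849 (cons (fin 786 2 782)
(mv 913 (cons (fin 912 0 845)
(fin 914 0 846)))))))))))
(cons (mv 784 (cons (fin 783 2 780)
(mv 848 (cons (fin 785 2 781)
(mv 781 (cons (fin 780 3 780)
(mv 849 (cons (fin 782 3 781)
(mv 913 (cons (fin 912 0 845)
(fin 914 0 846)))))))))))
(mv 779 (cons (fin 780 3 779)
(mv 843 (cons (fin 778 3 778)
(mv 782 (cons (fin 783 2 779)
(mv 842 (cons (fin 781 2 778)
(mv 906 (cons (fin 905 1 841)
(fin 907 1 842)))))))))))))))))))))))))))))))))))))))))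
(cons (cons (mv 1038 (cons (fin 1100 1 1036)
(mv 1104 (cons (fin 1105 0 1037)
(mv 1036 (cons (fin 1103 0 1036)
(mv 971 (cons (fin 972 3 971)
(mv 1035 (cons (fin 970 3 970)
(mv 974 (cons (fin 975 2 971)
(mv 846 (cons (fin 910 5 845)
(mv 1034 (cons (fin 1102 0 1034)
(mv 1098 (cons (fin 1097 1 1033)
(fin 1099 1 1034)))))))))))))))))))
(mv 1038 (cons (fin 1100 1 1036)
(mv 973 (cons (fin 972 3 972)
(mv 909 (cons (mv 1102 (cons (fin 845 4 845)
(fin 1166 4 909)))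
(cons (mv 844 (cons (fin 908 7 844)
(mv 845 (cons (fin 780 7 780)
(mv 846 (cons (fin 782 6 781)
(fin 910 6 845)))))))
(mv 844 (cons (fin 908 7 844)
(mv 910 (cons (fin 846 6 845)
(mv 974 (cons (fin 1165 6 909)
(mv 1102 (cons (fin 1166 7 909)
(mv 911 (cons (fin 847 6 846)
(mv 912 (cons (fin 913 1 909)
(mv 848 (cons (fin 849 2 845)
(mv 1103 (cons (fin 975 6 847)
(fin 1167 4 910)))))))))))))))))))))))))
(cons (mv 1038 (cons (fin 1100 1 1036)
(mv 1104 (cons (fin 1105 0 1037)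
(mv 1036 (cons (fin 1103 0 1036)
(mv 1035 (cons (cons (mv 970 (cons (fin 971 3 970)
(mv 1034 (cons (fin 969 3 969)
(fin 1102 0 1034)))))
(mv 970 (cons (fin 971 3 970)
(mv 974 (cons (fin 975 2 971)
(mv 910 (cons (fin 846 5 845)
(mv 1165 (cons (fin 1102 5 909)
(fin 973 6 909))))))))))
(cons (mv 974 (cons (fin 975 2 971)
(mv 1034 (cons (fin 973 2 970)
(fin 1102 0 1034)))))
(mv 970 (cons (fin 971 3 970)
(mv 974 (cons (fin 975 2 971)
(mv 1034 (cons (fin 969 3 969)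
(fin 973 2 970))))))))))))))))
(mv 1038 (cons (fin 1100 1 1036)
(mv 972 (cons (fin 973 3 972)
(mv 1104 (cons (fin 1105 0 1037)
(mv 974 (cons (cons (mv 846 (cons (fin 910 5 845)
(mv 1036 (cons (fin 971 3 971)
(mv 844 (cons (fin 908 4 844)
(mv 1035 (cons (fin 975 2 971)
(mv 1034 (cons (fin 1102 0 1034)
(mv 1098 (cons (fin 1097 1 1033)
(fin 1099 1 1034)))))))))))))
(mv 910 (cons (fin 846 5 845)
(mv 1102 (cons (fin 1165 5 909)
(mv 845 (cons (fin 909 7 845)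
(mv 911 (cons (fin 847 6 846)
(mv 1166 (cons (fin 975 6 910)
(mv 1230 (cons (fin 1294 7 1037)
(mv 1231 (cons (fin 1167 4 974)
(fin 1295 4 1038))))))))))))))))
(cons (mv 1036 (cons (fin 971 3 971)
(mv 844 (cons (fin 908 4 844)
(mv 1035 (cons (fin 975 2 971)
(mv 1034 (cons (fin 1102 0 1034)
(mv 1098 (cons (fin 1097 1 1033)
(fin 1099 1 1034)))))))))))
(cons (mv 910 (cons (fin 846 5 845)
(mv 971 (cons (fin 1036 3 971)
(mv 1102 (cons (fin 1165 5 909)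
(mv 909 (cons (fin 845 7 845)
(mv 911 (cons (fin 908 1 907)
(fin 847 6 846)))))))))))
(mv 846 (cons (fin 910 5 845)
(mv 1036 (cons (fin 971 3 971)
(mv 844 (cons (fin 908 4 844)
(mv 975 (cons (fin 1035 2 971)
(mv 847 (cons (fin 911 4 847)
(mv 1168 (cons (fin 1232 7 975)
(mv 845 (cons (cons (mv 779 (cons (fin 780 3 779)
(mv 783 (cons (fin 784 2 780)
(mv 843 (cons (fin 778 3 778)
(fin 782 2 779)))))))
(mv 783 (cons (fin 784 2 780)
(mv 843 (cons (fin 782 2 779)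
(mv 778 (cons (fin 779 3 778)
(mv 842 (cons (fin 777 3 777)
(mv 906 (cons (fin 905 1 841)
(fin 907 1 842))))))))))))
(cons (mv 780 (cons (fin 779 3 779)
(mv 848 (cons (fin 781 3 780)
(mv 785 (cons (fin 784 2 781)
(mv 849 (cons (fin 786 2 782)
(mv 913 (cons (fin 912 0 845)
(fin 914 0 846)))))))))))
(cons (mv 784 (cons (fin 783 2 780)
(mv 848 (cons (fin 785 2 781)
(mv 781 (cons (fin 780 3 780)
(mv 849 (cons (fin 782 3 781)
(mv 913 (cons (fin 912 0 845)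
(fin 914 0 846)))))))))))
(mv 779 (cons (fin 780 3 779)
(mv 843 (cons (fin 778 3 778)
(mv 782 (cons (fin 783 2 779)
(mv 842 (cons (fin 781 2 778)
(mv 906 (cons (fin 905 1 841)
(fin 907 1 842)))))))))))))))))))))))))))))))))))))))))
(mv 1038 (cons (cons (cons (mv 1039 (cons (fin 1100 1 1036)
(mv 972 (cons (fin 973 3 972)
(mv 1036 (cons (fin 971 3 971)
(mv 1104 (cons (fin 1103 0 1036)
(fin 1105 0 1037)))))))))
(mv 974 (cons (cons (mv 910 (cons (fin 846 5 845)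
(mv 1165 (cons (fin 1102 5 909)
(fin 973 6 909)))))
(mv 910 (cons (fin 846 5 845)
(mv 1102 (cons (mv 847 (cons (fin 911 6 846)
(mv 1103 (cons (fin 1167 4 910)
(mv 1036 (cons (fin 1104 3 1036)
(fin 1035 0 1035)))))))
(cons (mv 911 (cons (fin 847 6 846)
(mv 1166 (cons (fin 975 6 910)
(mv 1230 (cons (fin 973 7 973)
(fin 1294 7 1037)))))))
(mv 1103 (cons (fin 1167 4 910)
(mv 1036 (cons (fin 1104 3 1036)
(fin 1035 0 1035)))))))))))
(cons (mv 1165 (cons (fin 1229 6 973)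
(mv 973 (cons (cons (mv 972 (cons (fin 908 7 908)
(mv 971 (cons (fin 970 0 970)
(mv 906 (cons (fin 907 3 906)
(mv 1035 (cons (fin 1034 1 970)
(mv 975 (cons (fin 1036 1 971)
(mv 911 (cons (fin 912 2 908)
(mv 1166 (cons (fin 1102 6 910)
(fin 1230 4 973)))))))))))))))
(mv 1164 (cons (fin 1228 5 972)
(mv 1166 (cons (fin 1230 4 973)
(mv 1102 (cons (mv 1103 (cons (fin 1104 1 1100)
(fin 1163 2 1099)))
(cons (mv 911 (cons (fin 975 6 910)
(mv 1162 (cons (fin 1163 2 1098)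
(mv 1167 (cons (fin 1231 4 974)
(mv 1100 (cons (fin 1099 3 1099)
(fin 1168 3 1100)))))))))
(mv 911 (cons (fin 975 6 910)
(mv 1103 (cons (fin 1104 1 1100)
(mv 1035 (cons (fin 1036 0 1035)
(mv 1167 (cons (fin 1231 4 974)
(mv 1100 (cons (fin 1099 3 1099)
(fin 1168 3 1100)))))))))))))))))))
(cons (mv 972 (cons (fin 908 7 908)
(mv 971 (cons (fin 970 0 970)
(mv 906 (cons (fin 907 3 906)
(mv 1035 (cons (fin 1034 1 970)
(mv 1036 (cons (fin 975 1 971)
(mv 1099 (cons (fin 1098 1 1034)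
(mv 1102 (cons (fin 1103 0 1035)
(mv 1163 (cons (fin 1227 6 971)
(mv 1162 (cons (fin 1100 1 1098)
(fin 1164 2 1098)))))))))))))))))))
(cons (mv 972 (cons (fin 908 7 908)
(mv 971 (cons (fin 970 0 970)
(mv 907 (cons (fin 906 3 906)
(mv 1035 (cons (fin 1034 1 970)
(mv 1164 (cons (fin 1228 5 972)
(mv 1099 (cons (fin 1100 4 907)
(mv 1098 (cons (fin 1162 5 906)
(mv 1166 (cons (fin 1163 3 1098)
(fin 1230 4 973)))))))))))))))))
(mv 972 (cons (fin 908 7 908)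
(mv 971 (cons (fin 970 0 970)
(mv 907 (cons (fin 906 3 906)
(mv 1164 (cons (fin 1228 5 972)
(mv 1100 (cons (fin 1036 7 907)
(mv 1098 (cons (fin 1099 2 1034)
(mv 1166 (cons (fin 1230 4 973)
(mv 1167 (cons (fin 1168 3 1100)
(mv 1231 (cons (fin 1232 0 1164)
(fin 1102 4 974)))))))))))))))))))))))))
(cons (mv 910 (cons (fin 846 5 845)
(mv 1165 (cons (fin 973 6 909)
(fin 1229 6 973)))))
(mv 910 (cons (fin 846 5 845)
(mv 1165 (cons (fin 1102 5 909)
(fin 1229 6 973))))))))))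
(cons (mv 974 (cons (cons (mv 910 (cons (fin 846 5 845)
(mv 1165 (cons (fin 1102 5 909)
(fin 973 6 909)))))
(mv 846 (cons (fin 910 5 845)
(mv 1036 (cons (mv 1035 (cons (fin 975 2 971)
(mv 1034 (cons (fin 973 2 970)
(fin 1102 0 1034)))))
(cons (mv 1039 (cons (mv 972 (cons (fin 971 3 971)
(fin 973 3 972)))
(mv 1104 (cons (fin 1103 0 1036)
(fin 1105 0 1037)))))
(mv 1035 (cons (fin 975 2 971)
(mv 1102 (cons (fin 1034 0 1034)
(fin 1103 0 1035)))))))))))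
(cons (mv 1165 (cons (fin 1229 6 973)
(mv 973 (cons (mv 972 (cons (fin 1039 3 972)
(fin 908 7 908)))
(cons (mv 1164 (cons (fin 1228 5 972)
(mv 1166 (cons (fin 1230 4 973)
(mv 1102 (cons (cons (mv 1103 (cons (fin 1104 1 1100)
(fin 1163 2 1099)))
(mv 975 (cons (fin 911 6 910)
(mv 1035 (cons (fin 1036 2 971)
(mv 1162 (cons (fin 1163 2 1098)
(mv 1167 (cons (fin 1231 4 974)
(mv 1168 (cons (fin 1169 3 1101)
(mv 1104 (cons (fin 1105 2 1101)
(mv 1232 (cons (fin 1233 0 1165)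
(fin 1039 7 975))))))))))))))))
(cons (mv 911 (cons (fin 975 6 910)
(mv 1104 (cons (fin 1103 1 1100)
(mv 1105 (cons (fin 1039 0 1037)
(mv 1167 (cons (fin 1168 2 1101)
(fin 1231 4 974)))))))))
(mv 1163 (cons (fin 1162 2 1098)
(fin 1103 2 1099))))))))))
(mv 972 (cons (fin 908 7 908)
(mv 971 (cons (fin 970 0 970)
(mv 906 (cons (fin 907 3 906)
(mv 1035 (cons (fin 1034 1 970)
(mv 975 (cons (fin 1036 1 971)
(mv 911 (cons (fin 912 2 908)
(mv 1166 (cons (fin 1102 6 910)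
(fin 1230 4 973))))))))))))))))))))
(cons (mv 910 (cons (fin 846 5 845)
(mv 1165 (cons (fin 1102 5 909)
(fin 1229 6 973)))))
(mv 910 (cons (fin 846 5 845)
(mv 1165 (cons (fin 973 6 909)
(fin 1229 6 973)))))))))
(mv 1039 (cons (fin 1100 1 1036)
(mv 1104 (cons (fin 1105 0 1037)
(mv 1036 (cons (fin 1103 0 1036)
(mv 971 (cons (fin 972 3 971)
(mv 1035 (cons (fin 970 3 970)
(mv 974 (cons (fin 975 2 971)
(mv 846 (cons (fin 910 5 845)
(mv 1034 (cons (fin 1102 0 1034)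
(mv 1098 (cons (fin 1097 1 1033)
(fin 1099 1 1034)))))))))))))))))))))
(cons (cons (mv 1039 (cons (fin 1100 1 1036)
(mv 1104 (cons (fin 1105 0 1037)
(mv 1036 (cons (fin 1103 0 1036)
(mv 1035 (cons (cons (mv 970 (cons (fin 971 3 970)
(mv 1034 (cons (fin 969 3 969)
(fin 1102 0 1034)))))
(mv 970 (cons (fin 971 3 970)
(mv 974 (cons (fin 975 2 971)
(mv 910 (cons (fin 846 5 845)
(mv 1165 (cons (fin 1102 5 909)
(fin 973 6 909))))))))))
(cons (mv 974 (cons (fin 975 2 971)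
(mv 1034 (cons (fin 973 2 970)
(fin 1102 0 1034)))))
(mv 970 (cons (fin 971 3 970)
(mv 969 (cons (fin 1034 3 969)
(mv 974 (cons (fin 975 2 971)
(mv 910 (cons (fin 846 5 845)
(mv 1165 (cons (fin 973 6 909)
(fin 1229 6 973))))))))))))))))))))
(mv 1039 (cons (fin 1100 1 1036)
(mv 972 (cons (fin 973 3 972)
(mv 1036 (cons (fin 971 3 971)
(mv 844 (cons (fin 908 4 844)
(mv 1165 (cons (fin 1229 7 972)
(mv 1102 (cons (mv 1035 (cons (fin 1034 0 1034)
(fin 1103 0 1035)))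
(cons (mv 974 (cons (fin 910 5 909)
(mv 1166 (cons (mv 975 (cons (fin 911 6 910)
(fin 1230 6 974)))
(cons (mv 975 (cons (fin 911 6 910)
(mv 1167 (cons (fin 1231 4 974)
(mv 1168 (cons (fin 1169 3 1101)
(mv 1232 (cons (fin 1233 0 1165)
(fin 1103 4 975)))))))))
(mv 1230 (cons (fin 1294 7 1037)
(mv 1231 (cons (fin 1167 4 974)
(fin 1295 4 1038))))))))))
(mv 974 (cons (fin 910 5 909)
(mv 1035 (cons (fin 975 2 971)
(fin 1034 0 1034)))))))))))))))))))
(cons (mv 1039 (cons (fin 1100 1 1036)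
(mv 972 (cons (fin 973 3 972)
(mv 1104 (cons (fin 1105 0 1037)
(mv 1165 (cons (cons (mv 974 (cons (fin 1229 6 973)
(mv 910 (cons (fin 846 5 845)
(fin 1102 5 909)))))
(mv 1102 (cons (cons (mv 910 (cons (fin 974 5 909)
(mv 1103 (cons (fin 1164 1 1100)
(mv 1168 (cons (fin 1169 0 1101)
(mv 975 (cons (fin 1232 7 975)
(fin 911 4 911)))))))))
(mv 974 (cons (fin 910 5 909)
(mv 1166 (cons (mv 975 (cons (fin 911 6 910)
(fin 1230 6 974)))
(cons (mv 1230 (cons (fin 1294 7 1037)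
(mv 1231 (cons (fin 1167 4 974)
(fin 1295 4 1038)))))
(mv 975 (cons (fin 911 6 910)
(mv 1167 (cons (fin 1231 4 974)
(mv 1168 (cons (fin 1169 3 1101)
(fin 1232 7 975)))))))))))))
(cons (mv 1103 (cons (fin 1164 1 1100)
(mv 1168 (cons (fin 1169 0 1101)
(mv 975 (cons (fin 1232 7 975)
(fin 911 4 911)))))))
(cons (mv 910 (cons (fin 974 5 909)
(mv 1103 (cons (fin 1164 1 1100)
(mv 1168 (cons (fin 1169 0 1101)
(mv 1232 (cons (fin 1296 7 1039)
(mv 1231 (cons (fin 1295 5 1039)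
(mv 1233 (cons (fin 1297 4 1040)
(mv 1166 (cons (fin 1230 3 1165)
(fin 1167 0 1165)))))))))))))))
(mv 910 (cons (fin 974 5 909)
(mv 1164 (cons (fin 1103 1 1100)
(mv 1163 (cons (fin 1162 2 1098)
(mv 1166 (cons (mv 1230 (cons (fin 1231 0 1163)
(fin 1294 7 1037)))
(mv 1099 (cons (fin 1098 3 1098)
(mv 1227 (cons (fin 1226 1 1162)
(mv 1228 (cons (fin 1167 1 1163)
(mv 1035 (cons (fin 971 4 971)
(fin 1292 4 1035))))))))))))))))))))))
(cons (mv 1229 (cons (cons (mv 1102 (cons (fin 1293 6 1037)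
(mv 1103 (cons (fin 1164 1 1100)
(mv 1168 (cons (fin 1169 0 1101)
(mv 975 (cons (fin 1232 7 975)
(fin 911 4 911)))))))))
(mv 1228 (cons (fin 1292 5 1036)
(mv 1230 (cons (fin 1294 4 1037)
(mv 1231 (cons (mv 1164 (cons (fin 1163 3 1163)
(fin 1232 3 1164)))
(mv 1167 (cons (fin 1168 2 1164)
(mv 1295 (cons (fin 1296 0 1228)
(fin 1103 6 1039))))))))))))
(cons (mv 1102 (cons (fin 1293 6 1037)
(mv 1103 (cons (fin 1164 1 1100)
(mv 1228 (cons (fin 1292 5 1036)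
(mv 1230 (cons (fin 1294 4 1037)
(mv 1166 (cons (fin 975 6 974)
(mv 1227 (cons (fin 1226 2 1162)
(fin 1167 2 1163)))))))))))))
(cons (mv 1102 (cons (fin 1293 6 1037)
(mv 1228 (cons (fin 1292 5 1036)
(mv 1230 (cons (fin 1294 4 1037)
(mv 975 (cons (fin 1166 6 974)
(mv 911 (cons (fin 847 5 846)
(mv 1168 (cons (fin 1232 7 975)
(fin 1103 4 911)))))))))))))
(mv 1102 (cons (fin 1293 6 1037)
(mv 1228 (cons (fin 1292 5 1036)
(mv 1230 (cons (fin 1294 4 1037)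
(mv 975 (cons (fin 1166 6 974)
(mv 847 (cons (fin 911 5 846)
(mv 1232 (cons (fin 1168 7 975)
(mv 1231 (cons (fin 1164 3 1164)
(mv 1296 (cons (fin 1295 0 1228)
(fin 1297 0 1229)))))))))))))))))))))
(mv 1229 (cons (fin 974 6 973)
(mv 1230 (cons (fin 1294 4 1037)
(mv 1292 (cons (fin 1228 5 1036)
(mv 1293 (cons (fin 1356 5 1100)
(mv 1232 (cons (fin 1231 1 1228)
(mv 1168 (cons (fin 975 7 975)
(mv 1233 (cons (fin 1297 4 1040)
(mv 1166 (cons (fin 1167 0 1165)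
(mv 1296 (cons (fin 1103 7 1039)
(mv 1357 (cons (fin 1421 6 1165)
(mv 1358 (cons (fin 1422 4 1165)
(mv 1359 (cons (fin 1360 3 1292)
(fin 1295 5 1103))))))))))))))))))))))))))))))))))
(cons (mv 1039 (cons (fin 1100 1 1036)
(mv 972 (cons (fin 973 3 972)
(mv 1036 (cons (fin 971 3 971)
(mv 844 (cons (fin 908 4 844)
(mv 1104 (cons (fin 1105 0 1037)
(mv 1165 (cons (fin 1229 7 972)
(mv 974 (cons (mv 910 (cons (fin 846 5 845)
(fin 1102 5 909)))
(cons (mv 1035 (cons (fin 975 2 971)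
(mv 1034 (cons (fin 1102 0 1034)
(mv 1098 (cons (fin 1097 1 1033)
(fin 1099 1 1034)))))))
(mv 846 (cons (fin 910 5 845)
(mv 975 (cons (fin 1035 2 971)
(mv 847 (cons (fin 911 4 847)
(mv 1168 (cons (fin 1232 7 975)
(mv 845 (cons (cons (mv 779 (cons (fin 780 3 779)
(mv 783 (cons (fin 784 2 780)
(mv 843 (cons (fin 778 3 778)
(fin 782 2 779)))))))
(mv 783 (cons (fin 784 2 780)
(mv 843 (cons (fin 782 2 779)
(mv 842 (cons (mv 778 (cons (fin 777 3 777)
(fin 779 3 778)))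
(mv 906 (cons (fin 905 1 841)
(fin 907 1 842))))))))))
(cons (mv 780 (cons (fin 779 3 779)
(mv 848 (cons (fin 781 3 780)
(mv 849 (cons (mv 785 (cons (fin 784 2 781)
(fin 786 2 782)))
(mv 913 (cons (fin 912 0 845)
(fin 914 0 846)))))))))
(cons (mv 784 (cons (fin 783 2 780)
(mv 848 (cons (fin 785 2 781)
(mv 849 (cons (mv 781 (cons (fin 780 3 780)
(fin 782 3 781)))
(mv 913 (cons (fin 912 0 845)
(fin 914 0 846)))))))))
(mv 779 (cons (fin 780 3 779)
(mv 843 (cons (fin 778 3 778)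
(mv 842 (cons (mv 782 (cons (fin 781 2 778)
(fin 783 2 779)))
(mv 906 (cons (fin 905 1 841)
(fin 907 1 842))))))))))))))))))))))))))))))))))))
(mv 1039 (cons (fin 1100 1 1036)
(mv 972 (cons (fin 973 3 972)
(mv 1104 (cons (fin 1105 0 1037)
(mv 1036 (cons (fin 1103 0 1036)
(mv 844 (cons (fin 908 4 844)
(mv 1165 (cons (fin 1229 7 972)
(mv 974 (cons (mv 910 (cons (fin 846 5 845)
(fin 1102 5 909)))
(cons (mv 1035 (cons (fin 975 2 971)
(mv 1034 (cons (fin 1102 0 1034)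
(mv 1098 (cons (fin 1097 1 1033)
(fin 1099 1 1034)))))))
(mv 846 (cons (fin 910 5 845)
(mv 975 (cons (fin 1035 2 971)
(mv 847 (cons (fin 911 4 847)
(mv 1168 (cons (fin 1232 7 975)
(mv 845 (cons (cons (mv 779 (cons (fin 780 3 779)
(mv 783 (cons (fin 784 2 780)
(mv 843 (cons (fin 778 3 778)
(fin 782 2 779)))))))
(mv 783 (cons (fin 784 2 780)
(mv 843 (cons (fin 782 2 779)
(mv 842 (cons (mv 778 (cons (fin 777 3 777)
(fin 779 3 778)))
(mv 906 (cons (fin 905 1 841)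
(fin 907 1 842))))))))))
(cons (mv 780 (cons (fin 779 3 779)
(mv 848 (cons (fin 781 3 780)
(mv 849 (cons (mv 785 (cons (fin 784 2 781)
(fin 786 2 782)))
(mv 913 (cons (fin 912 0 845)
(fin 914 0 846)))))))))
(cons (mv 784 (cons (fin 783 2 780)
(mv 848 (cons (fin 785 2 781)
(mv 849 (cons (mv 781 (cons (fin 780 3 780)
(fin 782 3 781)))
(mv 913 (cons (fin 912 0 845)
(fin 914 0 846)))))))))
(mv 779 (cons (fin 780 3 779)
(mv 843 (cons (fin 778 3 778)
(mv 842 (cons (mv 782 (cons (fin 781 2 778)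
(fin 783 2 779)))
(mv 906 (cons (fin 905 1 841)
(fin 907 1 842)))))))))))))))))))))))))))))))))))))))))))))
(cons (cons (cons (mv 1038 (cons (cons (cons (mv 1039 (cons (fin 1100 1 1036)
(mv 972 (cons (fin 973 3 972)
(mv 1036 (cons (fin 971 3 971)
(mv 1104 (cons (fin 1103 0 1036)
(fin 1105 0 1037)))))))))
(mv 974 (cons (cons (mv 910 (cons (fin 846 5 845)
(mv 1165 (cons (fin 1102 5 909)
(fin 973 6 909)))))
(cons (mv 1165 (cons (fin 1229 6 973)
(mv 973 (cons (cons (mv 908 (cons (fin 972 7 908)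
(mv 909 (cons (fin 844 7 844)
(mv 845 (cons (fin 781 4 781)
(fin 1102 4 845)))))))
(mv 1166 (cons (fin 1230 4 973)
(mv 909 (cons (fin 1102 7 909)
(mv 844 (cons (fin 908 7 844)
(mv 845 (cons (fin 780 7 780)
(fin 781 4 781))))))))))
(cons (mv 1166 (cons (fin 1230 4 973)
(mv 909 (cons (fin 1102 7 909)
(mv 845 (cons (fin 781 4 781)
(mv 780 (cons (fin 844 7 780)
(mv 782 (cons (fin 846 6 781)
(mv 1036 (cons (fin 1100 5 844)
(mv 1035 (cons (fin 1034 2 970)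
(fin 975 2 971)))))))))))))))
(cons (mv 972 (cons (fin 908 7 908)
(mv 971 (cons (fin 970 0 970)
(mv 906 (cons (fin 907 3 906)
(mv 1035 (cons (fin 1034 1 970)
(mv 975 (cons (fin 1036 1 971)
(mv 911 (cons (fin 912 2 908)
(mv 1166 (cons (fin 1102 6 910)
(fin 1230 4 973)))))))))))))))
(mv 908 (cons (fin 972 7 908)
(mv 909 (cons (fin 844 7 844)
(mv 845 (cons (fin 781 4 781)
(mv 782 (cons (fin 846 6 781)
(mv 906 (cons (fin 907 0 906)
(mv 1036 (cons (fin 1100 5 844)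
(mv 1035 (cons (fin 1034 2 970)
(fin 975 2 971)))))))))))))))))))))
(mv 910 (cons (fin 846 5 845)
(mv 1102 (cons (cons (mv 845 (cons (fin 909 7 845)
(mv 847 (cons (fin 911 6 846)
(mv 1103 (cons (fin 1167 4 910)
(mv 1036 (cons (fin 1104 3 1036)
(fin 1035 0 1035)))))))))
(mv 847 (cons (fin 911 6 846)
(mv 1103 (cons (fin 1167 4 910)
(mv 1036 (cons (fin 1104 3 1036)
(fin 1035 0 1035))))))))
(cons (mv 845 (cons (fin 909 7 845)
(mv 911 (cons (fin 847 6 846)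
(mv 1166 (cons (fin 975 6 910)
(mv 1230 (cons (fin 973 7 973)
(fin 1294 7 1037)))))))))
(mv 845 (cons (fin 909 7 845)
(mv 1103 (cons (fin 1167 4 910)
(mv 1036 (cons (fin 1104 3 1036)
(fin 1035 0 1035))))))))))))))
(cons (mv 1165 (cons (fin 1229 6 973)
(mv 910 (cons (fin 1102 5 909)
(fin 973 6 909)))))
(cons (mv 910 (cons (fin 846 5 845)
(mv 1165 (cons (fin 973 6 909)
(fin 1229 6 973)))))
(mv 910 (cons (fin 846 5 845)
(mv 1165 (cons (fin 1102 5 909)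
(fin 1229 6 973))))))))))
(cons (mv 974 (cons (cons (mv 910 (cons (fin 846 5 845)
(mv 1165 (cons (fin 1102 5 909)
(fin 973 6 909)))))
(mv 1165 (cons (fin 1229 6 973)
(mv 973 (cons (mv 972 (cons (fin 1039 3 972)
(fin 908 7 908)))
(cons (mv 1166 (cons (fin 1230 4 973)
(mv 909 (cons (fin 1102 7 909)
(mv 844 (cons (fin 908 7 844)
(mv 845 (cons (fin 780 7 780)
(fin 781 4 781)))))))))
(mv 972 (cons (fin 1039 3 972)
(mv 970 (cons (fin 971 0 970)
(mv 1166 (cons (fin 1230 4 973)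
(mv 1102 (cons (fin 909 7 909)
(mv 975 (cons (fin 911 6 910)
(mv 1036 (cons (fin 1035 1 971)
(mv 1104 (cons (fin 1103 3 1036)
(mv 1167 (cons (fin 1231 4 974)
(mv 1168 (cons (fin 1169 3 1101)
(fin 1105 2 1101)))))))))))))))))))))))))
(cons (mv 846 (cons (fin 910 5 845)
(mv 1036 (cons (mv 1035 (cons (fin 975 2 971)
(mv 1034 (cons (fin 973 2 970)
(fin 1102 0 1034)))))
(cons (mv 1039 (cons (mv 972 (cons (fin 971 3 971)
(fin 973 3 972)))
(mv 1104 (cons (fin 1103 0 1036)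
(fin 1105 0 1037)))))
(mv 1035 (cons (fin 975 2 971)
(mv 1102 (cons (fin 1034 0 1034)
(fin 1103 0 1035))))))))))
(cons (mv 910 (cons (fin 846 5 845)
(mv 1165 (cons (fin 1102 5 909)
(fin 1229 6 973)))))
(mv 910 (cons (fin 846 5 845)
(mv 1165 (cons (fin 973 6 909)
(fin 1229 6 973)))))))))
(mv 1039 (cons (fin 1100 1 1036)
(mv 1104 (cons (fin 1105 0 1037)
(mv 1036 (cons (fin 1103 0 1036)
(mv 971 (cons (fin 972 3 971)
(mv 1035 (cons (fin 970 3 970)
(mv 974 (cons (fin 975 2 971)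
(mv 846 (cons (fin 910 5 845)
(mv 1034 (cons (fin 1102 0 1034)
(mv 1098 (cons (fin 1097 1 1033)
(fin 1099 1 1034)))))))))))))))))))))
(cons (cons (mv 1039 (cons (fin 1100 1 1036)
(mv 1104 (cons (fin 1105 0 1037)
(mv 1036 (cons (fin 1103 0 1036)
(mv 1035 (cons (cons (mv 970 (cons (fin 971 3 970)
(mv 1034 (cons (fin 969 3 969)
(fin 1102 0 1034)))))
(mv 970 (cons (fin 971 3 970)
(mv 974 (cons (fin 975 2 971)
(mv 910 (cons (fin 846 5 845)
(mv 1165 (cons (fin 1102 5 909)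
(fin 973 6 909))))))))))
(cons (mv 974 (cons (fin 975 2 971)
(mv 1034 (cons (fin 973 2 970)
(fin 1102 0 1034)))))
(mv 970 (cons (fin 971 3 970)
(mv 969 (cons (fin 1034 3 969)
(mv 974 (cons (fin 975 2 971)
(mv 910 (cons (fin 846 5 845)
(mv 1165 (cons (fin 973 6 909)
(fin 1229 6 973))))))))))))))))))))
(mv 1039 (cons (fin 1100 1 1036)
(mv 972 (cons (fin 973 3 972)
(mv 1036 (cons (fin 971 3 971)
(mv 844 (cons (fin 908 4 844)
(mv 1165 (cons (fin 1229 7 972)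
(mv 1102 (cons (mv 1035 (cons (fin 1034 0 1034)
(fin 1103 0 1035)))
(cons (mv 974 (cons (fin 910 5 909)
(mv 1166 (cons (mv 975 (cons (fin 911 6 910)
(fin 1230 6 974)))
(cons (mv 975 (cons (fin 911 6 910)
(mv 1167 (cons (fin 1231 4 974)
(mv 1168 (cons (fin 1169 3 1101)
(mv 1232 (cons (fin 1233 0 1165)
(fin 1103 4 975)))))))))
(mv 1230 (cons (fin 1294 7 1037)
(mv 1231 (cons (fin 1167 4 974)
(fin 1295 4 1038))))))))))
(mv 974 (cons (fin 910 5 909)
(mv 1035 (cons (fin 975 2 971)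
(fin 1034 0 1034)))))))))))))))))))
(cons (mv 1039 (cons (fin 1100 1 1036)
(mv 973 (cons (fin 972 3 972)
(mv 1104 (cons (fin 1105 0 1037)
(mv 909 (cons (cons (mv 1102 (cons (fin 845 4 845)
(fin 1166 4 909)))
(mv 844 (cons (fin 908 7 844)
(mv 780 (cons (fin 845 7 780)
(mv 910 (cons (fin 846 6 845)
(mv 1165 (cons (fin 974 6 909)
(mv 1230 (cons (fin 1166 4 973)
(mv 1229 (cons (fin 1294 4 1037)
(mv 1292 (cons (fin 1228 5 1036)
(mv 1293 (cons (fin 1356 5 1100)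
(mv 1232 (cons (fin 1231 1 1228)
(mv 1168 (cons (fin 975 7 975)
(mv 1296 (cons (fin 1103 7 1039)
(mv 1297 (cons (fin 1233 4 1040)
(fin 1361 4 1104))))))))))))))))))))))))))
(cons (mv 844 (cons (fin 908 7 844)
(mv 846 (cons (fin 910 6 845)
(mv 1166 (cons (fin 1102 4 909)
(mv 1165 (cons (fin 1230 4 973)
(mv 1229 (cons (fin 974 6 973)
(mv 1228 (cons (fin 1292 5 1036)
(mv 1168 (cons (fin 1167 1 1164)
(mv 975 (cons (fin 1232 7 975)
(mv 911 (cons (fin 847 4 847)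
(fin 1103 4 911)))))))))))))))))))
(mv 844 (cons (fin 908 7 844)
(mv 845 (cons (fin 780 7 780)
(fin 1102 4 845))))))))))))))
(mv 1039 (cons (fin 1100 1 1036)
(mv 972 (cons (fin 973 3 972)
(mv 1036 (cons (fin 971 3 971)
(mv 844 (cons (fin 908 4 844)
(mv 1104 (cons (fin 1105 0 1037)
(mv 1165 (cons (fin 1229 7 972)
(mv 974 (cons (mv 910 (cons (fin 846 5 845)
(fin 1102 5 909)))
(cons (mv 1035 (cons (fin 975 2 971)
(mv 1034 (cons (fin 1102 0 1034)
(mv 1098 (cons (fin 1097 1 1033)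
(fin 1099 1 1034)))))))
(mv 846 (cons (fin 910 5 845)
(mv 975 (cons (fin 1035 2 971)
(mv 847 (cons (fin 911 4 847)
(mv 1168 (cons (fin 1232 7 975)
(mv 845 (cons (cons (mv 779 (cons (fin 780 3 779)
(mv 783 (cons (fin 784 2 780)
(mv 843 (cons (fin 778 3 778)
(fin 782 2 779)))))))
(mv 783 (cons (fin 784 2 780)
(mv 843 (cons (fin 782 2 779)
(mv 842 (cons (mv 778 (cons (fin 777 3 777)
(fin 779 3 778)))
(mv 906 (cons (fin 905 1 841)
(fin 907 1 842))))))))))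
(cons (mv 780 (cons (fin 779 3 779)
(mv 848 (cons (fin 781 3 780)
(mv 849 (cons (mv 785 (cons (fin 784 2 781)
(fin 786 2 782)))
(mv 913 (cons (fin 912 0 845)
(fin 914 0 846)))))))))
(cons (mv 784 (cons (fin 783 2 780)
(mv 848 (cons (fin 785 2 781)
(mv 849 (cons (mv 781 (cons (fin 780 3 780)
(fin 782 3 781)))
(mv 913 (cons (fin 912 0 845)
(fin 914 0 846)))))))))
(mv 779 (cons (fin 780 3 779)
(mv 843 (cons (fin 778 3 778)
(mv 842 (cons (mv 782 (cons (fin 781 2 778)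
(fin 783 2 779)))
(mv 906 (cons (fin 905 1 841)
(fin 907 1 842))))))))))))))))))))))))))))))))))))))))
(mv 1038 (cons (cons (mv 1039 (cons (fin 1100 1 1036)
(mv 972 (cons (fin 973 3 972)
(mv 1036 (cons (fin 971 3 971)
(mv 1104 (cons (fin 1103 0 1036)
(fin 1105 0 1037)))))))))
(cons (mv 974 (cons (cons (mv 910 (cons (fin 846 5 845)
(mv 1165 (cons (fin 1102 5 909)
(fin 973 6 909)))))
(mv 1165 (cons (fin 1229 6 973)
(mv 973 (cons (cons (mv 908 (cons (fin 972 7 908)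
(mv 909 (cons (fin 844 7 844)
(mv 845 (cons (fin 781 4 781)
(fin 1102 4 845)))))))
(mv 1164 (cons (fin 1228 5 972)
(mv 909 (cons (fin 1100 5 908)
(mv 845 (cons (fin 781 4 781)
(fin 1102 4 845))))))))
(cons (mv 972 (cons (fin 908 7 908)
(mv 971 (cons (fin 970 0 970)
(mv 906 (cons (fin 907 3 906)
(mv 1035 (cons (fin 1034 1 970)
(mv 1036 (cons (fin 975 1 971)
(mv 1099 (cons (fin 1098 1 1034)
(mv 1102 (cons (fin 1103 0 1035)
(mv 1163 (cons (fin 1227 6 971)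
(mv 1162 (cons (fin 1100 1 1098)
(fin 1164 2 1098)))))))))))))))))))
(mv 908 (cons (fin 972 7 908)
(mv 909 (cons (fin 844 7 844)
(mv 1164 (cons (fin 1100 5 908)
(fin 1228 5 972)))))))))))))
(cons (mv 910 (cons (fin 846 5 845)
(mv 1102 (cons (cons (mv 845 (cons (fin 909 7 845)
(mv 847 (cons (fin 911 6 846)
(mv 1103 (cons (fin 1167 4 910)
(mv 1036 (cons (fin 1104 3 1036)
(fin 1035 0 1035)))))))))
(mv 847 (cons (fin 911 6 846)
(mv 909 (cons (fin 845 7 845)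
(mv 973 (cons (cons (mv 844 (cons (fin 908 7 844)
(mv 1100 (cons (fin 1164 5 908)
(mv 1099 (cons (fin 1098 2 1034)
(mv 1035 (cons (fin 1034 3 1034)
(mv 1036 (cons (fin 975 2 971)
(mv 970 (cons (fin 971 3 970)
(mv 1163 (cons (fin 1162 1 1098)
(mv 1227 (cons (fin 972 6 971)
(fin 1291 6 1035)))))))))))))))))
(mv 1100 (cons (fin 1164 5 908)
(mv 1099 (cons (fin 1098 2 1034)
(mv 1035 (cons (fin 1034 3 1034)
(mv 1036 (cons (fin 975 2 971)
(mv 970 (cons (fin 971 3 970)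
(mv 1163 (cons (fin 1162 1 1098)
(mv 1227 (cons (fin 972 6 971)
(fin 1291 6 1035))))))))))))))))
(cons (mv 908 (cons (fin 844 7 844)
(mv 907 (cons (fin 906 0 906)
(fin 975 0 907)))))
(mv 908 (cons (fin 844 7 844)
(mv 906 (cons (fin 907 0 906)
(mv 1100 (cons (fin 1164 5 908)
(mv 1099 (cons (fin 1098 2 1034)
(mv 1035 (cons (fin 1034 3 1034)
(mv 1163 (cons (fin 1162 1 1098)
(mv 971 (cons (fin 970 7 906)
(fin 972 6 907)))))))))))))))))))))))
(cons (mv 847 (cons (fin 911 6 846)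
(mv 1103 (cons (fin 1167 4 910)
(mv 1036 (cons (fin 1104 3 1036)
(fin 1035 0 1035)))))))
(cons (mv 845 (cons (fin 909 7 845)
(mv 1103 (cons (fin 1167 4 910)
(mv 1036 (cons (fin 1104 3 1036)
(fin 1035 0 1035)))))))
(mv 909 (cons (fin 845 7 845)
(mv 911 (cons (fin 847 6 846)
(mv 1103 (cons (fin 1167 4 910)
(mv 1104 (cons (fin 1105 3 1037)
(mv 1168 (cons (fin 1169 0 1101)
(mv 973 (cons (mv 912 (cons (fin 972 1 908)
(fin 913 1 909)))
(mv 908 (cons (fin 844 7 844)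
(mv 907 (cons (fin 906 0 906)
(fin 975 0 907)))))))))))))))))))))))
(cons (mv 910 (cons (fin 846 5 845)
(mv 1165 (cons (fin 1102 5 909)
(fin 1229 6 973)))))
(mv 910 (cons (fin 846 5 845)
(mv 1165 (cons (fin 973 6 909)
(fin 1229 6 973)))))))))
(mv 974 (cons (cons (mv 910 (cons (fin 846 5 845)
(mv 1165 (cons (fin 1102 5 909)
(fin 973 6 909)))))
(mv 1165 (cons (fin 1229 6 973)
(mv 972 (cons (cons (mv 973 (cons (fin 1039 3 972)
(fin 908 7 908)))
(mv 1036 (cons (cons (mv 844 (cons (fin 908 4 844)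
(mv 971 (cons (fin 1039 3 971)
(mv 970 (cons (fin 1035 3 970)
(fin 969 0 969)))))))
(mv 844 (cons (fin 908 4 844)
(mv 1039 (cons (fin 971 3 971)
(mv 1104 (cons (fin 1103 0 1036)
(fin 1105 0 1037))))))))
(cons (mv 844 (cons (fin 908 4 844)
(mv 1035 (cons (fin 975 2 971)
(mv 1102 (cons (fin 1034 0 1034)
(fin 1103 0 1035)))))))
(mv 971 (cons (fin 1039 3 971)
(mv 970 (cons (fin 1035 3 970)
(fin 969 0 969)))))))))
(cons (mv 908 (cons (fin 973 7 908)
(mv 1036 (cons (fin 844 4 844)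
(mv 1035 (cons (fin 975 2 971)
(mv 1102 (cons (fin 1034 0 1034)
(fin 1103 0 1035)))))))))
(mv 973 (cons (fin 1039 3 972)
(mv 971 (cons (fin 970 0 970)
(mv 906 (cons (fin 907 3 906)
(mv 1035 (cons (fin 1034 1 970)
(mv 1036 (cons (fin 975 1 971)
(mv 1099 (cons (fin 1098 1 1034)
(mv 1102 (cons (fin 1103 0 1035)
(mv 845 (cons (fin 909 4 845)
(mv 1163 (cons (fin 1227 6 971)
(mv 1162 (cons (fin 1164 2 1098)
(fin 1226 5 970)))))))))))))))))))))))))))
(cons (mv 846 (cons (fin 910 5 845)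
(mv 1036 (cons (mv 1035 (cons (fin 975 2 971)
(mv 1034 (cons (fin 973 2 970)
(fin 1102 0 1034)))))
(cons (mv 1039 (cons (mv 972 (cons (fin 971 3 971)
(fin 973 3 972)))
(mv 1104 (cons (fin 1103 0 1036)
(fin 1105 0 1037)))))
(mv 1035 (cons (fin 975 2 971)
(mv 1102 (cons (fin 1034 0 1034)
(fin 1103 0 1035))))))))))
(cons (mv 910 (cons (fin 846 5 845)
(mv 1165 (cons (fin 1102 5 909)
(fin 1229 6 973)))))
(mv 910 (cons (fin 846 5 845)
(mv 1165 (cons (fin 973 6 909)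
(fin 1229 6 973)))))))))))
(cons (cons (mv 1039 (cons (fin 1100 1 1036)
(mv 1104 (cons (fin 1105 0 1037)
(mv 1036 (cons (fin 1103 0 1036)
(mv 971 (cons (fin 972 3 971)
(mv 1035 (cons (fin 970 3 970)
(mv 974 (cons (fin 975 2 971)
(mv 846 (cons (fin 910 5 845)
(mv 1034 (cons (fin 1102 0 1034)
(mv 1098 (cons (fin 1097 1 1033)
(fin 1099 1 1034)))))))))))))))))))
(mv 1039 (cons (fin 1100 1 1036)
(mv 1104 (cons (fin 1105 0 1037)
(mv 1036 (cons (fin 1103 0 1036)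
(mv 1035 (cons (cons (mv 970 (cons (fin 971 3 970)
(mv 1034 (cons (fin 969 3 969)
(fin 1102 0 1034)))))
(mv 970 (cons (fin 971 3 970)
(mv 974 (cons (fin 975 2 971)
(mv 910 (cons (fin 846 5 845)
(mv 1165 (cons (fin 1102 5 909)
(fin 973 6 909))))))))))
(cons (mv 974 (cons (fin 975 2 971)
(mv 1034 (cons (fin 973 2 970)
(fin 1102 0 1034)))))
(mv 970 (cons (fin 971 3 970)
(mv 969 (cons (fin 1034 3 969)
(mv 974 (cons (fin 975 2 971)
(mv 910 (cons (fin 846 5 845)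
(mv 1165 (cons (fin 973 6 909)
(fin 1229 6 973)))))))))))))))))))))
(cons (mv 1039 (cons (fin 1100 1 1036)
(mv 972 (cons (fin 973 3 972)
(mv 1036 (cons (fin 971 3 971)
(mv 844 (cons (fin 908 4 844)
(mv 1165 (cons (fin 1229 7 972)
(mv 974 (cons (mv 910 (cons (fin 846 5 845)
(fin 1102 5 909)))
(cons (mv 1035 (cons (fin 975 2 971)
(mv 1102 (cons (fin 1034 0 1034)
(fin 1103 0 1035)))))
(mv 846 (cons (fin 910 5 845)
(mv 975 (cons (fin 1035 2 971)
(mv 847 (cons (cons (mv 911 (cons (fin 782 7 782)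
(fin 783 5 782)))
(mv 845 (cons (cons (mv 779 (cons (fin 780 3 779)
(mv 783 (cons (fin 784 2 780)
(mv 843 (cons (fin 778 3 778)
(fin 782 2 779)))))))
(mv 783 (cons (fin 784 2 780)
(mv 843 (cons (fin 782 2 779)
(mv 778 (cons (fin 779 3 778)
(mv 842 (cons (fin 777 3 777)
(mv 906 (cons (fin 905 1 841)
(fin 907 1 842))))))))))))
(cons (mv 780 (cons (fin 779 3 779)
(mv 848 (cons (fin 781 3 780)
(mv 785 (cons (fin 784 2 781)
(mv 849 (cons (fin 786 2 782)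
(mv 913 (cons (fin 912 0 845)
(fin 914 0 846)))))))))))
(cons (mv 784 (cons (fin 783 2 780)
(mv 848 (cons (fin 785 2 781)
(mv 781 (cons (fin 780 3 780)
(mv 849 (cons (fin 782 3 781)
(mv 913 (cons (fin 912 0 845)
(fin 914 0 846)))))))))))
(mv 779 (cons (fin 780 3 779)
(mv 843 (cons (fin 778 3 778)
(mv 782 (cons (fin 783 2 779)
(mv 842 (cons (fin 781 2 778)
(mv 906 (cons (fin 905 1 841)
(fin 907 1 842))))))))))))))))
(cons (mv 911 (cons (fin 782 7 782)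
(mv 845 (cons (fin 912 0 844)
(mv 780 (cons (fin 779 3 779)
(mv 848 (cons (fin 781 3 780)
(fin 784 6 783)))))))))
(mv 911 (cons (fin 783 5 782)
(mv 845 (cons (fin 912 0 844)
(mv 780 (cons (fin 779 3 779)
(mv 848 (cons (fin 781 3 780)
(fin 784 6 783)))))))))))))))))))))))))))))
(mv 1039 (cons (fin 1100 1 1036)
(mv 973 (cons (fin 972 3 972)
(mv 1104 (cons (fin 1105 0 1037)
(mv 1165 (cons (mv 974 (cons (fin 910 6 909)
(fin 1229 6 973)))
(cons (mv 1228 (cons (fin 1164 5 972)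
(mv 1229 (cons (fin 1292 5 1036)
(mv 1293 (cons (fin 1102 6 1037)
(mv 1294 (cons (fin 1230 4 1037)
(fin 1358 4 1101)))))))))
(mv 910 (cons (fin 974 6 909)
(mv 909 (cons (fin 846 6 845)
(mv 844 (cons (fin 908 7 844)
(mv 845 (cons (fin 780 7 780)
(fin 1102 4 845)))))))))))))))))))))))
(cons (mv 1100 (cons (cons (cons (mv 1038 (cons (fin 1039 1 1036)
(mv 1099 (cons (fin 1098 2 1034)
(mv 1102 (cons (cons (mv 1034 (cons (fin 1035 3 1034)
(mv 1162 (cons (fin 1163 1 1098)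
(mv 1166 (cons (fin 1167 0 1099)
(mv 973 (cons (fin 1230 7 973)
(fin 909 4 909)))))))))
(mv 1034 (cons (fin 1035 3 1034)
(mv 1163 (cons (fin 1162 1 1098)
(mv 1103 (cons (fin 1164 1 1099)
(mv 1104 (cons (fin 1036 3 1036)
(fin 1105 3 1037))))))))))
(cons (mv 1162 (cons (fin 1163 1 1098)
(mv 1166 (cons (fin 1167 0 1099)
(mv 973 (cons (fin 1230 7 973)
(fin 909 4 909)))))))
(mv 1034 (cons (fin 1035 3 1034)
(mv 1166 (cons (fin 1167 0 1099)
(mv 973 (cons (fin 1230 7 973)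
(fin 909 4 909))))))))))))))
(mv 1164 (cons (cons (mv 973 (cons (fin 909 5 908)
(mv 1228 (cons (fin 1165 5 972)
(fin 1036 6 972)))))
(mv 909 (cons (fin 973 5 908)
(mv 1102 (cons (mv 1103 (cons (fin 1163 1 1099)
(fin 1039 2 1036)))
(cons (mv 1099 (cons (cons (mv 1034 (cons (fin 1035 3 1034)
(mv 1033 (cons (fin 1098 3 1033)
(mv 1163 (cons (fin 1162 1 1098)
(mv 1166 (cons (fin 1167 0 1099)
(mv 1230 (cons (fin 1294 7 1037)
(mv 1165 (cons (fin 1231 0 1163)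
(mv 1227 (cons (fin 1226 1 1162)
(mv 1036 (cons (fin 972 5 971)
(fin 1291 6 1035)))))))))))))))))
(mv 1034 (cons (fin 1035 3 1034)
(mv 1098 (cons (fin 1033 3 1033)
(mv 1097 (cons (fin 1036 2 1033)
(fin 1165 0 1097))))))))
(cons (mv 1162 (cons (fin 1163 1 1098)
(mv 1098 (cons (fin 1161 1 1097)
(mv 1097 (cons (fin 1036 2 1033)
(fin 1165 0 1097)))))))
(cons (mv 1034 (cons (fin 1035 3 1034)
(mv 1163 (cons (fin 1162 1 1098)
(mv 1166 (cons (fin 1167 0 1099)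
(mv 1230 (cons (fin 1294 7 1037)
(mv 1165 (cons (fin 1231 0 1163)
(mv 1227 (cons (fin 1226 1 1162)
(mv 1036 (cons (fin 972 5 971)
(fin 1291 6 1035)))))))))))))))
(mv 1034 (cons (fin 1035 3 1034)
(mv 1098 (cons (fin 1033 3 1033)
(mv 1162 (cons (fin 1161 1 1097)
(fin 1163 1 1098)))))))))))
(mv 1103 (cons (fin 1039 2 1036)
(mv 1036 (cons (fin 1035 3 1035)
(fin 1104 3 1036)))))))))))
(cons (mv 1228 (cons (fin 1292 6 1036)
(mv 1036 (cons (mv 971 (cons (fin 1035 7 971)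
(mv 972 (cons (fin 907 7 907)
(mv 908 (cons (fin 844 4 844)
(fin 1165 4 908)))))))
(cons (mv 1227 (cons (fin 1291 5 1035)
(mv 972 (cons (fin 1163 5 971)
(mv 908 (cons (fin 844 4 844)
(fin 1165 4 908)))))))
(mv 1035 (cons (fin 971 7 971)
(mv 1034 (cons (fin 1033 0 1033)
(fin 1102 0 1034))))))))))
(cons (mv 973 (cons (fin 909 5 908)
(mv 1228 (cons (fin 1165 5 972)
(fin 1292 6 1036)))))
(mv 973 (cons (fin 909 5 908)
(mv 1228 (cons (fin 1036 6 972)
(fin 1292 6 1036))))))))))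
(cons (mv 1164 (cons (cons (mv 973 (cons (fin 909 5 908)
(mv 1228 (cons (fin 1165 5 972)
(fin 1036 6 972)))))
(mv 909 (cons (fin 973 5 908)
(mv 1163 (cons (cons (mv 1102 (cons (fin 1103 1 1099)
(mv 1162 (cons (fin 1099 1 1098)
(fin 1161 2 1097)))))
(mv 1162 (cons (fin 1161 2 1097)
(mv 1165 (cons (cons (mv 1097 (cons (fin 1098 3 1097)
(mv 1225 (cons (fin 1226 1 1161)
(mv 1229 (cons (fin 1230 0 1162)
(mv 1036 (cons (fin 972 7 972)
(fin 1293 7 1036)))))))))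
(mv 1097 (cons (fin 1098 3 1097)
(mv 1226 (cons (fin 1225 1 1161)
(mv 1166 (cons (fin 1227 1 1162)
(mv 1167 (cons (fin 1099 3 1099)
(fin 1168 3 1100))))))))))
(cons (mv 1225 (cons (fin 1226 1 1161)
(mv 1229 (cons (fin 1230 0 1162)
(mv 1036 (cons (fin 972 7 972)
(fin 1293 7 1036)))))))
(mv 1097 (cons (fin 1098 3 1097)
(mv 1229 (cons (fin 1230 0 1162)
(mv 1036 (cons (fin 972 7 972)
(fin 1293 7 1036)))))))))))))
(cons (mv 1102 (cons (fin 1103 1 1099)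
(mv 1099 (cons (mv 1034 (cons (fin 1035 3 1034)
(mv 1098 (cons (fin 1033 3 1033)
(fin 1038 2 1034)))))
(cons (mv 1034 (cons (fin 1035 3 1034)
(mv 1166 (cons (fin 1167 0 1099)
(mv 1230 (cons (fin 1294 7 1037)
(mv 1165 (cons (fin 1231 0 1163)
(mv 1227 (cons (fin 1226 1 1162)
(mv 1036 (cons (fin 972 5 971)
(fin 1291 6 1035)))))))))))))
(mv 1038 (cons (fin 1098 2 1034)
(mv 1166 (cons (fin 1167 0 1099)
(mv 1230 (cons (fin 1294 7 1037)
(mv 1231 (cons (fin 1165 0 1163)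
(fin 1295 4 1038))))))))))))))
(mv 1102 (cons (fin 1103 1 1099)
(mv 1162 (cons (fin 1161 2 1097)
(fin 1165 2 1098)))))))))))
(cons (mv 1228 (cons (fin 1292 6 1036)
(mv 1036 (cons (mv 971 (cons (fin 1035 7 971)
(mv 972 (cons (fin 907 7 907)
(mv 908 (cons (fin 844 4 844)
(fin 1165 4 908)))))))
(cons (mv 1227 (cons (fin 1291 5 1035)
(mv 972 (cons (fin 1163 5 971)
(mv 908 (cons (fin 844 4 844)
(fin 1165 4 908)))))))
(mv 1035 (cons (fin 971 7 971)
(mv 1034 (cons (fin 1033 0 1033)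
(fin 1102 0 1034))))))))))
(cons (mv 973 (cons (fin 909 5 908)
(mv 1228 (cons (fin 1165 5 972)
(fin 1292 6 1036)))))
(mv 973 (cons (fin 909 5 908)
(mv 1228 (cons (fin 1036 6 972)
(fin 1292 6 1036)))))))))
(cons (mv 1038 (cons (fin 1039 1 1036)
(mv 1099 (cons (fin 1098 2 1034)
(mv 1102 (cons (cons (mv 1034 (cons (fin 1035 3 1034)
(mv 1162 (cons (fin 1163 1 1098)
(mv 1166 (cons (fin 1167 0 1099)
(mv 973 (cons (fin 1230 7 973)
(fin 909 4 909)))))))))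
(mv 1035 (cons (fin 1034 3 1034)
(mv 1036 (cons (fin 1103 3 1035)
(mv 970 (cons (fin 971 3 970)
(mv 1163 (cons (fin 1162 1 1098)
(mv 972 (cons (fin 908 5 907)
(fin 1227 6 971))))))))))))
(cons (mv 1162 (cons (fin 1163 1 1098)
(mv 1166 (cons (fin 1167 0 1099)
(mv 973 (cons (fin 1230 7 973)
(fin 909 4 909)))))))
(mv 1034 (cons (fin 1035 3 1034)
(mv 1166 (cons (fin 1167 0 1099)
(mv 973 (cons (fin 1230 7 973)
(fin 909 4 909))))))))))))))
(mv 1038 (cons (fin 1039 1 1036)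
(mv 1098 (cons (fin 1099 2 1034)
(mv 973 (cons (cons (mv 909 (cons (fin 1164 5 908)
(mv 844 (cons (fin 908 7 844)
(mv 845 (cons (fin 780 7 780)
(fin 1036 5 844)))))))
(mv 1165 (cons (cons (cons (mv 908 (cons (fin 972 7 908)
(mv 1164 (cons (fin 1228 5 972)
(mv 1230 (cons (fin 1166 4 973)
(mv 1229 (cons (fin 1294 4 1037)
(mv 1293 (cons (fin 1036 7 1036)
(fin 1357 7 1100)))))))))))
(mv 1164 (cons (fin 1228 5 972)
(mv 1230 (cons (fin 1166 4 973)
(mv 1229 (cons (fin 1294 4 1037)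
(mv 1293 (cons (fin 1036 7 1036)
(fin 1357 7 1100))))))))))
(cons (mv 908 (cons (fin 972 7 908)
(mv 1230 (cons (fin 1166 4 973)
(mv 1229 (cons (fin 1294 4 1037)
(mv 1293 (cons (fin 1036 7 1036)
(mv 1356 (cons (fin 1292 5 1100)
(mv 1357 (cons (fin 1164 7 1100)
(fin 1420 5 1164)))))))))))))
(mv 908 (cons (fin 972 7 908)
(mv 1230 (cons (fin 1166 4 973)
(mv 1229 (cons (fin 1294 4 1037)
(mv 1292 (cons (fin 1228 5 1036)
(mv 1293 (cons (fin 1036 7 1036)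
(fin 1356 5 1100)))))))))))))
(cons (cons (mv 908 (cons (fin 972 7 908)
(mv 1228 (cons (fin 1164 5 972)
(mv 1229 (cons (fin 1292 5 1036)
(mv 1293 (cons (fin 1036 7 1036)
(mv 1294 (cons (fin 1230 4 1037)
(fin 1358 4 1101)))))))))))
(mv 972 (cons (fin 908 7 908)
(mv 970 (cons (fin 971 0 970)
(mv 1036 (cons (fin 1229 7 972)
(mv 1164 (cons (fin 1228 5 972)
(mv 1163 (cons (fin 1227 5 971)
(mv 1162 (cons (fin 1097 3 1097)
(fin 1161 2 1097))))))))))))))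
(cons (mv 908 (cons (fin 972 7 908)
(mv 1228 (cons (fin 1164 5 972)
(mv 1229 (cons (fin 1292 5 1036)
(mv 1230 (cons (fin 1166 4 973)
(fin 1294 4 1037)))))))))
(mv 972 (cons (fin 908 7 908)
(mv 971 (cons (fin 970 0 970)
(mv 1164 (cons (fin 1228 5 972)
(mv 1036 (cons (fin 907 7 907)
(mv 1163 (cons (fin 1227 5 971)
(mv 1162 (cons (fin 1097 3 1097)
(fin 1161 2 1097))))))))))))))))))
(cons (mv 909 (cons (cons (mv 844 (cons (fin 908 7 844)
(mv 845 (cons (fin 780 7 780)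
(fin 1036 5 844)))))
(mv 846 (cons (fin 910 6 845)
(mv 908 (cons (fin 844 7 844)
(mv 1165 (cons (fin 972 7 908)
(mv 1230 (cons (fin 1166 4 973)
(mv 1229 (cons (fin 1294 4 1037)
(mv 1292 (cons (fin 1228 5 1036)
(mv 1293 (cons (fin 1036 7 1036)
(fin 1356 5 1100))))))))))))))))
(cons (mv 845 (cons (fin 1036 5 844)
(mv 846 (cons (fin 782 6 781)
(fin 910 6 845)))))
(mv 844 (cons (fin 908 7 844)
(mv 845 (cons (fin 780 7 780)
(mv 846 (cons (fin 782 6 781)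
(fin 910 6 845))))))))))
(cons (mv 909 (cons (fin 1164 5 908)
(mv 844 (cons (fin 908 7 844)
(mv 845 (cons (fin 780 7 780)
(mv 846 (cons (fin 782 6 781)
(fin 910 6 845)))))))))
(mv 909 (cons (fin 1164 5 908)
(mv 845 (cons (fin 1036 5 844)
(mv 846 (cons (fin 782 6 781)
(fin 910 6 845))))))))))))))))))
(cons (cons (mv 1038 (cons (fin 1039 1 1036)
(mv 1164 (cons (cons (mv 973 (cons (fin 909 5 908)
(mv 1228 (cons (fin 1165 5 972)
(fin 1036 6 972)))))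
(mv 1228 (cons (fin 1292 6 1036)
(mv 1036 (cons (mv 971 (cons (fin 1035 7 971)
(mv 972 (cons (fin 907 7 907)
(mv 908 (cons (fin 844 4 844)
(fin 1165 4 908)))))))
(cons (mv 1227 (cons (fin 1291 5 1035)
(mv 972 (cons (fin 1163 5 971)
(mv 908 (cons (fin 844 4 844)
(fin 1165 4 908)))))))
(mv 1035 (cons (fin 971 7 971)
(mv 1034 (cons (fin 1033 0 1033)
(fin 1102 0 1034)))))))))))
(cons (mv 973 (cons (fin 909 5 908)
(mv 1165 (cons (cons (mv 908 (cons (fin 972 7 908)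
(mv 1166 (cons (fin 1230 4 973)
(mv 1167 (cons (fin 1168 3 1100)
(mv 1103 (cons (fin 1104 2 1100)
(mv 1102 (cons (fin 1163 1 1099)
(mv 1231 (cons (fin 1232 0 1164)
(fin 1295 7 1038)))))))))))))
(mv 1166 (cons (fin 1230 4 973)
(mv 1167 (cons (fin 1168 3 1100)
(mv 1103 (cons (fin 1104 2 1100)
(mv 1102 (cons (fin 1163 1 1099)
(mv 1231 (cons (fin 1232 0 1164)
(fin 1295 7 1038))))))))))))
(cons (mv 972 (cons (fin 908 7 908)
(mv 970 (cons (fin 971 0 970)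
(mv 1036 (cons (fin 1229 7 972)
(mv 1163 (cons (fin 1227 5 971)
(mv 1102 (cons (fin 1103 1 1099)
(fin 1162 2 1098)))))))))))
(mv 908 (cons (fin 972 7 908)
(mv 1230 (cons (fin 1166 4 973)
(mv 1229 (cons (fin 1294 4 1037)
(mv 1293 (cons (fin 1036 7 1036)
(fin 1357 7 1100))))))))))))))
(cons (mv 973 (cons (fin 909 5 908)
(mv 1228 (cons (fin 1165 5 972)
(fin 1292 6 1036)))))
(mv 973 (cons (fin 909 5 908)
(mv 1228 (cons (fin 1036 6 972)
(fin 1292 6 1036)))))))))))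
(cons (mv 1038 (cons (fin 1039 1 1036)
(mv 1099 (cons (fin 1098 2 1034)
(mv 1102 (cons (cons (mv 1034 (cons (fin 1035 3 1034)
(mv 1162 (cons (fin 1163 1 1098)
(mv 1167 (cons (fin 1166 0 1099)
(mv 1103 (cons (fin 1168 0 1100)
(mv 1104 (cons (fin 1036 3 1036)
(fin 1105 3 1037)))))))))))
(mv 1162 (cons (fin 1163 1 1098)
(mv 1167 (cons (fin 1166 0 1099)
(mv 1103 (cons (fin 1168 0 1100)
(mv 1104 (cons (fin 1036 3 1036)
(fin 1105 3 1037))))))))))
(cons (mv 1034 (cons (fin 1035 3 1034)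
(mv 1167 (cons (fin 1166 0 1099)
(mv 1103 (cons (fin 1168 0 1100)
(mv 1104 (cons (fin 1036 3 1036)
(fin 1105 3 1037)))))))))
(cons (mv 1034 (cons (fin 1035 3 1034)
(mv 1163 (cons (fin 1162 1 1098)
(mv 1103 (cons (fin 1164 1 1099)
(mv 1104 (cons (fin 1036 3 1036)
(fin 1105 3 1037)))))))))
(mv 1034 (cons (fin 1035 3 1034)
(mv 1163 (cons (fin 1162 1 1098)
(mv 1166 (cons (fin 1167 0 1099)
(mv 1230 (cons (fin 1294 7 1037)
(mv 1229 (cons (fin 1293 5 1037)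
(mv 1231 (cons (fin 1295 4 1038)
(mv 1164 (cons (fin 1228 3 1163)
(fin 1165 0 1163)))))))))))))))))))))))
(mv 1038 (cons (fin 1039 1 1036)
(mv 1099 (cons (fin 1098 2 1034)
(mv 1102 (cons (cons (mv 1034 (cons (fin 1035 3 1034)
(mv 1162 (cons (fin 1163 1 1098)
(mv 1166 (cons (fin 1167 0 1099)
(mv 973 (cons (fin 1230 7 973)
(fin 909 4 909)))))))))
(mv 1034 (cons (fin 1035 3 1034)
(mv 1163 (cons (fin 1162 1 1098)
(mv 1103 (cons (fin 1164 1 1099)
(mv 1104 (cons (fin 1105 3 1037)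
(mv 1168 (cons (fin 1167 0 1100)
(fin 1169 0 1101))))))))))))
(cons (mv 1034 (cons (fin 1035 3 1034)
(mv 1163 (cons (fin 1162 1 1098)
(mv 1164 (cons (fin 1103 1 1099)
(mv 973 (cons (fin 909 5 908)
(mv 1228 (cons (fin 1165 5 972)
(fin 1292 6 1036)))))))))))
(cons (mv 1034 (cons (fin 1035 3 1034)
(mv 1166 (cons (fin 1167 0 1099)
(mv 973 (cons (fin 1230 7 973)
(fin 909 4 909)))))))
(mv 1162 (cons (fin 1163 1 1098)
(mv 1166 (cons (fin 1167 0 1099)
(mv 973 (cons (fin 1230 7 973)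
(fin 909 4 909)))))))))))))))))
(cons (mv 1038 (cons (fin 1039 1 1036)
(mv 1098 (cons (fin 1099 2 1034)
(mv 973 (cons (cons (mv 909 (cons (fin 1164 5 908)
(mv 845 (cons (fin 1036 5 844)
(fin 1102 4 845)))))
(mv 1165 (cons (cons (mv 908 (cons (fin 972 7 908)
(mv 1228 (cons (fin 1164 5 972)
(mv 1229 (cons (fin 1292 5 1036)
(mv 1293 (cons (fin 1036 7 1036)
(fin 1102 6 1037)))))))))
(cons (mv 1228 (cons (fin 1164 5 972)
(mv 1229 (cons (fin 1292 5 1036)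
(mv 1293 (cons (fin 1036 7 1036)
(fin 1102 6 1037)))))))
(mv 972 (cons (fin 908 7 908)
(mv 970 (cons (fin 971 0 970)
(mv 1229 (cons (fin 1036 7 972)
(mv 1230 (cons (fin 1294 4 1037)
(mv 1293 (cons (fin 1102 6 1037)
(mv 1356 (cons (fin 1292 5 1100)
(mv 1357 (cons (fin 1164 7 1100)
(fin 1420 5 1164)))))))))))))))))
(cons (cons (mv 972 (cons (fin 908 7 908)
(mv 970 (cons (fin 971 0 970)
(mv 1229 (cons (fin 1036 7 972)
(mv 1228 (cons (fin 1292 5 1036)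
(mv 1293 (cons (fin 1102 6 1037)
(mv 1294 (cons (fin 1230 4 1037)
(fin 1358 4 1101)))))))))))))
(mv 972 (cons (fin 908 7 908)
(mv 971 (cons (fin 970 0 970)
(mv 1164 (cons (fin 1228 5 972)
(mv 1036 (cons (fin 907 7 907)
(mv 1163 (cons (fin 1227 5 971)
(mv 1102 (cons (fin 1103 1 1099)
(fin 1162 2 1098))))))))))))))
(cons (mv 908 (cons (fin 972 7 908)
(mv 1228 (cons (fin 1164 5 972)
(mv 1229 (cons (fin 1292 5 1036)
(mv 1293 (cons (fin 1102 6 1037)
(mv 1294 (cons (fin 1230 4 1037)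
(fin 1358 4 1101)))))))))))
(mv 908 (cons (fin 972 7 908)
(mv 1228 (cons (fin 1164 5 972)
(mv 1229 (cons (fin 1292 5 1036)
(mv 1293 (cons (fin 1036 7 1036)
(mv 1294 (cons (fin 1230 4 1037)
(fin 1358 4 1101))))))))))))))))
(cons (mv 909 (cons (mv 845 (cons (fin 1036 5 844)
(fin 1102 4 845)))
(mv 908 (cons (fin 844 7 844)
(mv 910 (cons (fin 846 6 845)
(mv 972 (cons (fin 1165 7 908)
(mv 911 (cons (fin 971 1 907)
(fin 912 1 908)))))))))))
(cons (mv 909 (cons (fin 1164 5 908)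
(mv 844 (cons (fin 908 7 844)
(mv 845 (cons (fin 780 7 780)
(fin 1102 4 845)))))))
(mv 909 (cons (fin 1164 5 908)
(mv 844 (cons (fin 908 7 844)
(mv 845 (cons (fin 780 7 780)
(fin 1036 5 844)))))))))))))))
(cons (mv 1038 (cons (fin 1039 1 1036)
(mv 1098 (cons (fin 1099 2 1034)
(mv 1164 (cons (cons (mv 973 (cons (fin 909 5 908)
(mv 1228 (cons (fin 1165 5 972)
(fin 1036 6 972)))))
(mv 1228 (cons (fin 1292 6 1036)
(mv 1036 (cons (cons (mv 971 (cons (fin 1035 7 971)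
(mv 972 (cons (fin 907 7 907)
(mv 908 (cons (fin 844 4 844)
(fin 1165 4 908)))))))
(mv 1227 (cons (fin 1291 5 1035)
(mv 1229 (cons (fin 1293 4 1036)
(mv 972 (cons (fin 1165 7 972)
(mv 907 (cons (fin 971 7 907)
(mv 908 (cons (fin 843 7 843)
(fin 844 4 844))))))))))))
(cons (mv 1227 (cons (fin 1291 5 1035)
(mv 1229 (cons (fin 1293 4 1036)
(mv 1165 (cons (fin 972 7 972)
(mv 1166 (cons (fin 1167 1 1163)
(fin 1226 2 1162)))))))))
(mv 1035 (cons (fin 971 7 971)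
(mv 1034 (cons (fin 1097 1 1033)
(fin 1033 0 1033)))))))))))
(cons (mv 973 (cons (fin 909 5 908)
(mv 1165 (cons (cons (mv 908 (cons (fin 972 7 908)
(mv 1166 (cons (fin 1230 4 973)
(mv 1167 (cons (fin 1168 3 1100)
(mv 1103 (cons (fin 1104 2 1100)
(mv 1231 (cons (fin 1232 0 1164)
(mv 1295 (cons (fin 1102 7 1038)
(mv 1294 (cons (fin 1358 5 1102)
(mv 1360 (cons (fin 1296 4 1103)
(mv 1359 (cons (fin 1424 4 1167)
(mv 1293 (cons (fin 1292 0 1292)
(mv 1229 (cons (fin 1036 7 1036)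
(fin 1357 7 1100)))))))))))))))))))))))
(mv 1166 (cons (fin 1230 4 973)
(mv 1167 (cons (fin 1168 3 1100)
(mv 1103 (cons (fin 1104 2 1100)
(mv 1231 (cons (fin 1232 0 1164)
(mv 1295 (cons (fin 1102 7 1038)
(mv 1294 (cons (fin 1358 5 1102)
(mv 1360 (cons (fin 1296 4 1103)
(mv 1359 (cons (fin 1424 4 1167)
(mv 1293 (cons (fin 1292 0 1292)
(mv 1229 (cons (fin 1036 7 1036)
(fin 1357 7 1100))))))))))))))))))))))
(cons (mv 972 (cons (fin 908 7 908)
(mv 970 (cons (fin 971 0 970)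
(mv 1229 (cons (fin 1036 7 972)
(mv 1293 (cons (fin 1357 7 1100)
(fin 1102 6 1037)))))))))
(cons (mv 908 (cons (fin 972 7 908)
(mv 1166 (cons (fin 1230 4 973)
(mv 1167 (cons (fin 1168 3 1100)
(mv 1103 (cons (fin 1104 2 1100)
(mv 1231 (cons (fin 1232 0 1164)
(mv 1295 (cons (fin 1102 7 1038)
(mv 1358 (cons (fin 1294 5 1102)
(mv 1359 (cons (fin 1422 5 1166)
(mv 1360 (cons (fin 1296 4 1103)
(fin 1424 4 1167)))))))))))))))))))
(mv 908 (cons (fin 972 7 908)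
(mv 1230 (cons (fin 1166 4 973)
(mv 1229 (cons (fin 1294 4 1037)
(mv 1293 (cons (fin 1036 7 1036)
(fin 1357 7 1100)))))))))))))))
(cons (mv 973 (cons (fin 909 5 908)
(mv 1228 (cons (fin 1165 5 972)
(fin 1292 6 1036)))))
(mv 973 (cons (fin 909 5 908)
(mv 1228 (cons (fin 1036 6 972)
(fin 1292 6 1036)))))))))))))
(mv 1038 (cons (fin 1039 1 1036)
(mv 1099 (cons (fin 1098 2 1034)
(mv 1102 (cons (cons (mv 1034 (cons (fin 1035 3 1034)
(mv 1162 (cons (fin 1163 1 1098)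
(mv 1167 (cons (fin 1166 0 1099)
(mv 1103 (cons (fin 1168 0 1100)
(mv 1104 (cons (fin 1036 3 1036)
(fin 1105 3 1037)))))))))))
(cons (mv 1162 (cons (fin 1163 1 1098)
(mv 1167 (cons (fin 1166 0 1099)
(mv 1103 (cons (fin 1168 0 1100)
(mv 1104 (cons (fin 1036 3 1036)
(fin 1105 3 1037)))))))))
(mv 1034 (cons (fin 1035 3 1034)
(mv 1167 (cons (fin 1166 0 1099)
(mv 1103 (cons (fin 1168 0 1100)
(mv 1104 (cons (fin 1036 3 1036)
(fin 1105 3 1037)))))))))))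
(cons (mv 1034 (cons (fin 1035 3 1034)
(mv 1163 (cons (fin 1162 1 1098)
(mv 1103 (cons (fin 1164 1 1099)
(mv 1104 (cons (fin 1036 3 1036)
(fin 1105 3 1037)))))))))
(cons (mv 1034 (cons (fin 1035 3 1034)
(mv 1163 (cons (fin 1162 1 1098)
(mv 1166 (cons (fin 1167 0 1099)
(mv 973 (cons (fin 909 4 909)
(mv 1165 (cons (cons (mv 908 (cons (fin 972 7 908)
(mv 1164 (cons (fin 1228 5 972)
(mv 1227 (cons (fin 1226 1 1162)
(mv 1291 (cons (fin 1036 6 1035)
(fin 1355 6 1099)))))))))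
(mv 1164 (cons (fin 1228 5 972)
(mv 1227 (cons (fin 1226 1 1162)
(mv 1291 (cons (fin 1036 6 1035)
(fin 1355 6 1099))))))))
(cons (mv 972 (cons (fin 908 7 908)
(mv 1229 (cons (fin 1036 7 972)
(fin 1293 6 1037)))))
(mv 908 (cons (fin 972 7 908)
(mv 1228 (cons (fin 1164 5 972)
(mv 1229 (cons (fin 1292 5 1036)
(fin 1293 6 1037))))))))))))))))))
(mv 1034 (cons (fin 1035 3 1034)
(mv 1163 (cons (fin 1162 1 1098)
(mv 1103 (cons (fin 1164 1 1099)
(mv 1167 (cons (fin 1166 0 1099)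
(fin 1168 0 1100))))))))))))))))))))))
(cons (mv 1038 (cons (cons (cons (mv 1039 (cons (fin 1100 1 1036)
(mv 972 (cons (fin 973 3 972)
(mv 1036 (cons (fin 971 3 971)
(mv 1104 (cons (fin 1103 0 1036)
(fin 1105 0 1037)))))))))
(mv 974 (cons (cons (mv 910 (cons (fin 846 5 845)
(mv 1165 (cons (fin 1102 5 909)
(fin 973 6 909)))))
(mv 1165 (cons (fin 1229 6 973)
(mv 973 (cons (cons (mv 908 (cons (fin 972 7 908)
(mv 909 (cons (fin 844 7 844)
(mv 845 (cons (fin 781 4 781)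
(fin 1102 4 845)))))))
(mv 1166 (cons (fin 1230 4 973)
(mv 909 (cons (fin 1102 7 909)
(mv 844 (cons (fin 908 7 844)
(mv 845 (cons (fin 780 7 780)
(fin 781 4 781))))))))))
(cons (mv 1166 (cons (fin 1230 4 973)
(mv 909 (cons (fin 1102 7 909)
(mv 845 (cons (fin 781 4 781)
(mv 1100 (cons (fin 1036 5 844)
(fin 1164 5 908)))))))))
(cons (mv 972 (cons (fin 908 7 908)
(mv 971 (cons (fin 970 0 970)
(mv 906 (cons (fin 907 3 906)
(mv 1035 (cons (fin 1034 1 970)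
(mv 975 (cons (fin 1036 1 971)
(mv 911 (cons (fin 912 2 908)
(mv 1166 (cons (fin 1102 6 910)
(fin 1230 4 973)))))))))))))))
(mv 908 (cons (fin 972 7 908)
(mv 909 (cons (fin 844 7 844)
(mv 845 (cons (fin 781 4 781)
(mv 1100 (cons (fin 1036 5 844)
(fin 1164 5 908))))))))))))))))
(cons (mv 910 (cons (fin 846 5 845)
(mv 1102 (cons (cons (mv 845 (cons (fin 909 7 845)
(mv 847 (cons (fin 911 6 846)
(mv 1103 (cons (fin 1167 4 910)
(mv 1036 (cons (fin 1104 3 1036)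
(fin 1035 0 1035)))))))))
(mv 847 (cons (fin 911 6 846)
(mv 1103 (cons (fin 1167 4 910)
(mv 1036 (cons (fin 1104 3 1036)
(fin 1035 0 1035))))))))
(cons (mv 845 (cons (fin 909 7 845)
(mv 911 (cons (fin 847 6 846)
(mv 1166 (cons (fin 975 6 910)
(mv 1230 (cons (fin 973 7 973)
(fin 1294 7 1037)))))))))
(mv 845 (cons (fin 909 7 845)
(mv 1103 (cons (fin 1167 4 910)
(mv 1036 (cons (fin 1104 3 1036)
(fin 1035 0 1035))))))))))))
(cons (mv 910 (cons (fin 846 5 845)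
(mv 1165 (cons (fin 973 6 909)
(fin 1229 6 973)))))
(mv 910 (cons (fin 846 5 845)
(mv 1165 (cons (fin 1102 5 909)
(fin 1229 6 973))))))))))
(cons (mv 974 (cons (cons (mv 910 (cons (fin 846 5 845)
(mv 1165 (cons (fin 1102 5 909)
(fin 973 6 909)))))
(mv 1165 (cons (fin 1229 6 973)
(mv 973 (cons (mv 972 (cons (fin 1039 3 972)
(fin 908 7 908)))
(cons (mv 1166 (cons (fin 1230 4 973)
(mv 909 (cons (fin 1102 7 909)
(mv 844 (cons (fin 908 7 844)
(mv 845 (cons (fin 780 7 780)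
(fin 781 4 781)))))))))
(mv 972 (cons (fin 1039 3 972)
(mv 970 (cons (fin 971 0 970)
(mv 1166 (cons (fin 1230 4 973)
(mv 1102 (cons (fin 909 7 909)
(mv 911 (cons (fin 975 6 910)
(mv 1167 (cons (fin 1231 4 974)
(mv 1168 (cons (fin 1169 3 1101)
(mv 1104 (cons (fin 1105 2 1101)
(mv 1103 (cons (fin 1036 3 1036)
(fin 1164 1 1100)))))))))))))))))))))))))
(cons (mv 846 (cons (fin 910 5 845)
(mv 1036 (cons (mv 1035 (cons (fin 975 2 971)
(mv 1034 (cons (fin 973 2 970)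
(fin 1102 0 1034)))))
(cons (mv 1039 (cons (mv 972 (cons (fin 971 3 971)
(fin 973 3 972)))
(mv 1104 (cons (fin 1103 0 1036)
(fin 1105 0 1037)))))
(mv 1035 (cons (fin 975 2 971)
(mv 1102 (cons (fin 1034 0 1034)
(fin 1103 0 1035))))))))))
(cons (mv 910 (cons (fin 846 5 845)
(mv 1165 (cons (fin 1102 5 909)
(fin 1229 6 973)))))
(mv 910 (cons (fin 846 5 845)
(mv 1165 (cons (fin 973 6 909)
(fin 1229 6 973)))))))))
(mv 1039 (cons (fin 1100 1 1036)
(mv 1104 (cons (fin 1105 0 1037)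
(mv 1036 (cons (fin 1103 0 1036)
(mv 971 (cons (fin 972 3 971)
(mv 1035 (cons (fin 970 3 970)
(mv 974 (cons (fin 975 2 971)
(mv 846 (cons (fin 910 5 845)
(mv 1034 (cons (fin 1102 0 1034)
(mv 1098 (cons (fin 1097 1 1033)
(fin 1099 1 1034)))))))))))))))))))))
(cons (cons (mv 1039 (cons (fin 1100 1 1036)
(mv 1104 (cons (fin 1105 0 1037)
(mv 1036 (cons (fin 1103 0 1036)
(mv 1035 (cons (cons (mv 970 (cons (fin 971 3 970)
(mv 1034 (cons (fin 969 3 969)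
(fin 1102 0 1034)))))
(mv 970 (cons (fin 971 3 970)
(mv 974 (cons (fin 975 2 971)
(mv 910 (cons (fin 846 5 845)
(mv 1165 (cons (fin 1102 5 909)
(fin 973 6 909))))))))))
(cons (mv 974 (cons (fin 975 2 971)
(mv 1034 (cons (fin 973 2 970)
(fin 1102 0 1034)))))
(mv 970 (cons (fin 971 3 970)
(mv 969 (cons (fin 1034 3 969)
(mv 974 (cons (fin 975 2 971)
(mv 910 (cons (fin 846 5 845)
(mv 1165 (cons (fin 973 6 909)
(fin 1229 6 973))))))))))))))))))))
(mv 1039 (cons (fin 1100 1 1036)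
(mv 972 (cons (fin 973 3 972)
(mv 1036 (cons (fin 971 3 971)
(mv 844 (cons (fin 908 4 844)
(mv 1165 (cons (fin 1229 7 972)
(mv 1102 (cons (mv 1035 (cons (fin 1034 0 1034)
(fin 1103 0 1035)))
(cons (mv 974 (cons (fin 910 5 909)
(mv 1166 (cons (mv 975 (cons (fin 911 6 910)
(fin 1230 6 974)))
(cons (mv 975 (cons (fin 911 6 910)
(mv 1167 (cons (fin 1231 4 974)
(mv 1168 (cons (fin 1169 3 1101)
(mv 1232 (cons (fin 1233 0 1165)
(fin 1103 4 975)))))))))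
(mv 1230 (cons (fin 1294 7 1037)
(mv 1231 (cons (fin 1167 4 974)
(fin 1295 4 1038))))))))))
(mv 974 (cons (fin 910 5 909)
(mv 1035 (cons (fin 975 2 971)
(fin 1034 0 1034)))))))))))))))))))
(cons (mv 1039 (cons (fin 1100 1 1036)
(mv 972 (cons (fin 973 3 972)
(mv 1104 (cons (fin 1105 0 1037)
(mv 1168 (cons (cons (mv 975 (cons (fin 1232 7 975)
(mv 911 (cons (fin 847 4 847)
(fin 1103 4 911)))))
(mv 1103 (cons (cons (mv 911 (cons (fin 975 4 911)
(mv 1102 (cons (fin 1169 0 1101)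
(mv 1165 (cons (fin 1164 1 1100)
(mv 974 (cons (fin 910 5 909)
(fin 1229 6 973)))))))))
(mv 975 (cons (fin 911 4 911)
(mv 1167 (cons (mv 974 (cons (fin 910 7 910)
(fin 1231 7 974)))
(cons (mv 1230 (cons (fin 1166 5 974)
(mv 1231 (cons (fin 1294 5 1038)
(fin 1295 6 1039)))))
(mv 974 (cons (fin 910 7 910)
(mv 1165 (cons (fin 1229 6 973)
(mv 1166 (cons (fin 1164 2 1100)
(fin 1230 5 974)))))))))))))
(cons (mv 1102 (cons (fin 1169 0 1101)
(mv 1165 (cons (fin 1164 1 1100)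
(mv 974 (cons (fin 910 5 909)
(fin 1229 6 973)))))))
(cons (mv 975 (cons (fin 911 4 911)
(mv 1102 (cons (fin 1169 0 1101)
(mv 1165 (cons (fin 1164 1 1100)
(mv 1229 (cons (fin 1293 6 1037)
(mv 1230 (cons (fin 1166 6 974)
(fin 1294 4 1037)))))))))))
(mv 975 (cons (fin 911 4 911)
(mv 1169 (cons (fin 1102 0 1101)
(mv 1170 (cons (fin 1171 3 1103)
(mv 1167 (cons (mv 974 (cons (fin 910 7 910)
(fin 1231 7 974)))
(cons (mv 910 (cons (fin 974 7 910)
(mv 1106 (cons (fin 1107 2 1103)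
(mv 1166 (cons (fin 1230 5 974)
(mv 1234 (cons (fin 1233 0 1166)
(fin 1235 0 1167)))))))))
(mv 1230 (cons (fin 1231 1 1166)
(fin 1166 5 974)))))))))))))))))
(cons (mv 1232 (cons (cons (mv 1103 (cons (fin 1296 7 1039)
(mv 1102 (cons (fin 1169 0 1101)
(mv 1164 (cons (fin 1165 1 1100)
(mv 1231 (cons (fin 1295 5 1039)
(mv 1167 (cons (fin 974 7 974)
(mv 1230 (cons (fin 1294 5 1038)
(mv 1233 (cons (fin 1297 4 1040)
(mv 1234 (cons (fin 1166 3 1166)
(fin 1235 3 1167)))))))))))))))))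
(cons (mv 1231 (cons (fin 1295 5 1039)
(mv 1233 (cons (fin 1297 4 1040)
(mv 1169 (cons (mv 1170 (cons (fin 1171 1 1167)
(fin 1230 2 1166)))
(cons (mv 1102 (cons (fin 1103 0 1101)
(mv 1166 (cons (fin 1167 3 1101)
(mv 1230 (cons (fin 1165 3 1165)
(fin 1229 2 1165)))))))
(mv 1103 (cons (fin 1102 0 1101)
(mv 1167 (cons (fin 974 7 974)
(mv 1166 (cons (fin 1234 3 1166)
(fin 1165 0 1165))))))))))))))
(mv 1231 (cons (fin 1295 5 1039)
(mv 1297 (cons (fin 1233 4 1040)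
(mv 1296 (cons (fin 1361 4 1104)
(mv 1229 (cons (fin 1230 0 1229)
(mv 1165 (cons (fin 974 6 973)
(mv 1293 (cons (fin 1102 6 1037)
(mv 1298 (cons (fin 1299 3 1231)
(mv 1356 (cons (fin 1292 5 1100)
(mv 1357 (cons (fin 1420 5 1164)
(mv 1358 (cons (fin 1294 4 1101)
(fin 1422 4 1165)))))))))))))))))))))))
(cons (cons (mv 1103 (cons (fin 1296 7 1039)
(mv 1102 (cons (fin 1169 0 1101)
(mv 1165 (cons (fin 1164 1 1100)
(mv 974 (cons (fin 910 5 909)
(fin 1229 6 973)))))))))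
(mv 1103 (cons (fin 1296 7 1039)
(mv 1102 (cons (fin 1169 0 1101)
(mv 1165 (cons (fin 1164 1 1100)
(mv 1229 (cons (fin 1293 6 1037)
(mv 1230 (cons (fin 1294 4 1037)
(mv 1231 (cons (fin 1295 5 1039)
(mv 1233 (cons (fin 1166 3 1165)
(fin 1297 4 1040))))))))))))))))
(cons (mv 1103 (cons (fin 1296 7 1039)
(mv 1231 (cons (fin 1295 5 1039)
(mv 974 (cons (fin 1167 7 974)
(mv 846 (cons (fin 910 5 845)
(mv 1229 (cons (fin 1165 6 973)
(mv 1230 (cons (fin 1169 2 1165)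
(mv 1233 (cons (fin 1297 4 1040)
(mv 1293 (cons (fin 1292 1 1228)
(fin 1294 1 1229)))))))))))))))))
(mv 1103 (cons (fin 1296 7 1039)
(mv 1102 (cons (fin 1169 0 1101)
(mv 1231 (cons (fin 1295 5 1039)
(mv 1167 (cons (fin 974 7 974)
(mv 1230 (cons (fin 1294 5 1038)
(mv 1233 (cons (fin 1297 4 1040)
(mv 1234 (cons (fin 1166 3 1166)
(fin 1235 3 1167)))))))))))))))))))
(mv 1232 (cons (fin 975 7 975)
(mv 1231 (cons (fin 1295 5 1039)
(mv 1297 (cons (fin 1233 4 1040)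
(mv 1296 (cons (fin 1361 4 1104)
(mv 1229 (cons (fin 1230 0 1229)
(mv 1165 (cons (fin 974 6 973)
(mv 1293 (cons (fin 1102 6 1037)
(mv 1298 (cons (fin 1299 3 1231)
(mv 1356 (cons (fin 1292 5 1100)
(mv 1357 (cons (fin 1420 5 1164)
(mv 1358 (cons (fin 1294 4 1101)
(fin 1422 4 1165))))))))))))))))))))))))))))))))
(mv 1039 (cons (fin 1100 1 1036)
(mv 972 (cons (fin 973 3 972)
(mv 1036 (cons (fin 971 3 971)
(mv 844 (cons (fin 908 4 844)
(mv 1104 (cons (fin 1105 0 1037)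
(mv 1165 (cons (fin 1229 7 972)
(mv 974 (cons (mv 910 (cons (fin 846 5 845)
(fin 1102 5 909)))
(cons (mv 1035 (cons (fin 975 2 971)
(mv 1034 (cons (fin 1102 0 1034)
(mv 1098 (cons (fin 1097 1 1033)
(fin 1099 1 1034)))))))
(mv 846 (cons (fin 910 5 845)
(mv 975 (cons (fin 1035 2 971)
(mv 847 (cons (fin 911 4 847)
(mv 1168 (cons (fin 1232 7 975)
(mv 845 (cons (cons (mv 779 (cons (fin 780 3 779)
(mv 783 (cons (fin 784 2 780)
(mv 843 (cons (fin 778 3 778)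
(fin 782 2 779)))))))
(mv 783 (cons (fin 784 2 780)
(mv 843 (cons (fin 782 2 779)
(mv 842 (cons (mv 778 (cons (fin 777 3 777)
(fin 779 3 778)))
(mv 906 (cons (fin 905 1 841)
(fin 907 1 842))))))))))
(cons (mv 780 (cons (fin 779 3 779)
(mv 848 (cons (fin 781 3 780)
(mv 849 (cons (mv 785 (cons (fin 784 2 781)
(fin 786 2 782)))
(mv 913 (cons (fin 912 0 845)
(fin 914 0 846)))))))))
(cons (mv 784 (cons (fin 783 2 780)
(mv 848 (cons (fin 785 2 781)
(mv 849 (cons (mv 781 (cons (fin 780 3 780)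
(fin 782 3 781)))
(mv 913 (cons (fin 912 0 845)
(fin 914 0 846)))))))))
(mv 779 (cons (fin 780 3 779)
(mv 843 (cons (fin 778 3 778)
(mv 842 (cons (mv 782 (cons (fin 781 2 778)
(fin 783 2 779)))
(mv 906 (cons (fin 905 1 841)
(fin 907 1 842))))))))))))))))))))))))))))))))))))))))
(mv 1038 (cons (cons (cons (mv 1039 (cons (fin 1100 1 1036)
(mv 972 (cons (fin 973 3 972)
(mv 1036 (cons (fin 971 3 971)
(mv 1104 (cons (fin 1103 0 1036)
(fin 1105 0 1037)))))))))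
(mv 974 (cons (cons (mv 910 (cons (fin 846 5 845)
(mv 1165 (cons (fin 1102 5 909)
(fin 973 6 909)))))
(mv 1165 (cons (fin 1229 6 973)
(mv 973 (cons (cons (mv 908 (cons (fin 972 7 908)
(mv 909 (cons (fin 844 7 844)
(mv 845 (cons (fin 781 4 781)
(fin 1102 4 845)))))))
(mv 1164 (cons (fin 1228 5 972)
(mv 909 (cons (fin 1100 5 908)
(mv 845 (cons (fin 781 4 781)
(fin 1102 4 845))))))))
(cons (mv 972 (cons (fin 908 7 908)
(mv 971 (cons (fin 970 0 970)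
(mv 906 (cons (fin 907 3 906)
(mv 1035 (cons (fin 1034 1 970)
(mv 975 (cons (fin 1036 1 971)
(mv 911 (cons (fin 912 2 908)
(mv 783 (cons (fin 847 5 782)
(mv 1102 (cons (fin 1166 6 910)
(mv 1164 (cons (fin 1228 5 972)
(mv 1103 (cons (fin 1104 1 1100)
(mv 1163 (cons (fin 1100 1 1099)
(fin 1162 2 1098)))))))))))))))))))))))
(mv 908 (cons (fin 972 7 908)
(mv 909 (cons (fin 844 7 844)
(mv 1164 (cons (fin 1100 5 908)
(fin 1228 5 972)))))))))))))
(cons (mv 910 (cons (fin 846 5 845)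
(mv 1102 (cons (cons (mv 845 (cons (fin 909 7 845)
(mv 847 (cons (fin 911 6 846)
(mv 1103 (cons (fin 1167 4 910)
(mv 1036 (cons (fin 1104 3 1036)
(fin 1035 0 1035)))))))))
(mv 847 (cons (fin 911 6 846)
(mv 1103 (cons (fin 1167 4 910)
(mv 1036 (cons (fin 1104 3 1036)
(fin 1035 0 1035))))))))
(cons (mv 847 (cons (fin 911 6 846)
(mv 909 (cons (fin 845 7 845)
(mv 973 (cons (fin 1166 7 909)
(mv 844 (cons (fin 908 7 844)
(mv 1100 (cons (fin 1164 5 908)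
(mv 1099 (cons (fin 1098 2 1034)
(mv 1035 (cons (fin 1034 3 1034)
(mv 1036 (cons (fin 975 2 971)
(mv 970 (cons (fin 971 3 970)
(mv 1163 (cons (fin 1162 1 1098)
(mv 1227 (cons (fin 972 6 971)
(fin 1291 6 1035)))))))))))))))))))))))
(cons (mv 845 (cons (fin 909 7 845)
(mv 1103 (cons (fin 1167 4 910)
(mv 1036 (cons (fin 1104 3 1036)
(fin 1035 0 1035)))))))
(mv 845 (cons (fin 909 7 845)
(mv 911 (cons (fin 847 6 846)
(mv 1166 (cons (fin 975 6 910)
(mv 1167 (cons (fin 1103 4 910)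
(fin 1231 4 974)))))))))))))))
(cons (mv 910 (cons (fin 846 5 845)
(mv 1165 (cons (fin 973 6 909)
(fin 1229 6 973)))))
(mv 910 (cons (fin 846 5 845)
(mv 1165 (cons (fin 1102 5 909)
(fin 1229 6 973))))))))))
(cons (mv 974 (cons (cons (mv 910 (cons (fin 846 5 845)
(mv 1165 (cons (fin 1102 5 909)
(fin 973 6 909)))))
(mv 1165 (cons (fin 1229 6 973)
(mv 972 (cons (cons (mv 973 (cons (fin 1039 3 972)
(fin 908 7 908)))
(mv 1036 (cons (cons (mv 844 (cons (fin 908 4 844)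
(mv 971 (cons (fin 1039 3 971)
(mv 970 (cons (fin 1035 3 970)
(fin 969 0 969)))))))
(mv 844 (cons (fin 908 4 844)
(mv 1039 (cons (fin 971 3 971)
(mv 1104 (cons (fin 1103 0 1036)
(fin 1105 0 1037))))))))
(cons (mv 844 (cons (fin 908 4 844)
(mv 1035 (cons (fin 975 2 971)
(mv 1102 (cons (fin 1034 0 1034)
(fin 1103 0 1035)))))))
(mv 971 (cons (fin 1039 3 971)
(mv 970 (cons (fin 1035 3 970)
(fin 969 0 969)))))))))
(cons (mv 908 (cons (fin 973 7 908)
(mv 1036 (cons (fin 844 4 844)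
(mv 1035 (cons (fin 975 2 971)
(mv 1102 (cons (fin 1034 0 1034)
(fin 1103 0 1035)))))))))
(mv 973 (cons (fin 1039 3 972)
(mv 971 (cons (fin 970 0 970)
(mv 906 (cons (fin 907 3 906)
(mv 1035 (cons (fin 1034 1 970)
(mv 1036 (cons (fin 975 1 971)
(mv 1098 (cons (fin 1099 1 1034)
(mv 1102 (cons (fin 1103 0 1035)
(mv 909 (cons (fin 1166 7 909)
(fin 845 4 845)))))))))))))))))))))))
(cons (mv 846 (cons (fin 910 5 845)
(mv 1036 (cons (mv 1035 (cons (fin 975 2 971)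
(mv 1034 (cons (fin 973 2 970)
(fin 1102 0 1034)))))
(cons (mv 1039 (cons (mv 972 (cons (fin 971 3 971)
(fin 973 3 972)))
(mv 1104 (cons (fin 1103 0 1036)
(fin 1105 0 1037)))))
(mv 1035 (cons (fin 975 2 971)
(mv 1102 (cons (fin 1034 0 1034)
(fin 1103 0 1035))))))))))
(cons (mv 910 (cons (fin 846 5 845)
(mv 1165 (cons (fin 1102 5 909)
(fin 1229 6 973)))))
(mv 910 (cons (fin 846 5 845)
(mv 1165 (cons (fin 973 6 909)
(fin 1229 6 973)))))))))
(mv 1039 (cons (fin 1100 1 1036)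
(mv 1104 (cons (fin 1105 0 1037)
(mv 1036 (cons (fin 1103 0 1036)
(mv 971 (cons (fin 972 3 971)
(mv 1035 (cons (fin 970 3 970)
(mv 974 (cons (fin 975 2 971)
(mv 846 (cons (fin 910 5 845)
(mv 1034 (cons (fin 1102 0 1034)
(mv 1098 (cons (fin 1097 1 1033)
(fin 1099 1 1034)))))))))))))))))))))
(cons (cons (mv 1039 (cons (fin 1100 1 1036)
(mv 1104 (cons (fin 1105 0 1037)
(mv 1036 (cons (fin 1103 0 1036)
(mv 1035 (cons (cons (mv 970 (cons (fin 971 3 970)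
(mv 1034 (cons (fin 969 3 969)
(fin 1102 0 1034)))))
(mv 970 (cons (fin 971 3 970)
(mv 974 (cons (fin 975 2 971)
(mv 910 (cons (fin 846 5 845)
(mv 1165 (cons (fin 1102 5 909)
(fin 973 6 909))))))))))
(cons (mv 974 (cons (fin 975 2 971)
(mv 1034 (cons (fin 973 2 970)
(fin 1102 0 1034)))))
(mv 970 (cons (fin 971 3 970)
(mv 969 (cons (fin 1034 3 969)
(mv 974 (cons (fin 975 2 971)
(mv 910 (cons (fin 846 5 845)
(mv 1165 (cons (fin 973 6 909)
(fin 1229 6 973))))))))))))))))))))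
(mv 1039 (cons (fin 1100 1 1036)
(mv 972 (cons (fin 973 3 972)
(mv 1036 (cons (fin 971 3 971)
(mv 844 (cons (fin 908 4 844)
(mv 1165 (cons (fin 1229 7 972)
(mv 974 (cons (mv 910 (cons (fin 846 5 845)
(fin 1102 5 909)))
(cons (mv 1035 (cons (fin 975 2 971)
(mv 1102 (cons (fin 1034 0 1034)
(fin 1103 0 1035)))))
(mv 846 (cons (fin 910 5 845)
(mv 975 (cons (fin 1035 2 971)
(mv 847 (cons (cons (mv 911 (cons (fin 782 7 782)
(fin 783 5 782)))
(mv 845 (cons (cons (mv 779 (cons (fin 780 3 779)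
(mv 783 (cons (fin 784 2 780)
(mv 843 (cons (fin 778 3 778)
(fin 782 2 779)))))))
(mv 783 (cons (fin 784 2 780)
(mv 843 (cons (fin 782 2 779)
(mv 778 (cons (fin 779 3 778)
(mv 842 (cons (fin 777 3 777)
(mv 906 (cons (fin 905 1 841)
(fin 907 1 842))))))))))))
(cons (mv 780 (cons (fin 779 3 779)
(mv 848 (cons (fin 781 3 780)
(mv 785 (cons (fin 784 2 781)
(mv 849 (cons (fin 786 2 782)
(mv 913 (cons (fin 912 0 845)
(fin 914 0 846)))))))))))
(cons (mv 784 (cons (fin 783 2 780)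
(mv 848 (cons (fin 785 2 781)
(mv 781 (cons (fin 780 3 780)
(mv 849 (cons (fin 782 3 781)
(mv 913 (cons (fin 912 0 845)
(fin 914 0 846)))))))))))
(mv 779 (cons (fin 780 3 779)
(mv 843 (cons (fin 778 3 778)
(mv 782 (cons (fin 783 2 779)
(mv 842 (cons (fin 781 2 778)
(mv 906 (cons (fin 905 1 841)
(fin 907 1 842))))))))))))))))
(cons (mv 911 (cons (fin 782 7 782)
(mv 845 (cons (fin 912 0 844)
(mv 780 (cons (fin 779 3 779)
(mv 848 (cons (fin 781 3 780)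
(fin 784 6 783)))))))))
(mv 911 (cons (fin 783 5 782)
(mv 845 (cons (fin 912 0 844)
(mv 780 (cons (fin 779 3 779)
(mv 848 (cons (fin 781 3 780)
(fin 784 6 783))))))))))))))))))))))))))))))
(cons (mv 1039 (cons (fin 1100 1 1036)
(mv 973 (cons (fin 972 3 972)
(mv 1104 (cons (fin 1105 0 1037)
(mv 909 (cons (mv 1102 (cons (fin 845 4 845)
(fin 1166 4 909)))
(cons (mv 844 (cons (fin 908 7 844)
(mv 845 (cons (fin 780 7 780)
(mv 846 (cons (fin 782 6 781)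
(fin 910 6 845)))))))
(mv 844 (cons (fin 908 7 844)
(mv 910 (cons (fin 846 6 845)
(mv 974 (cons (fin 1165 6 909)
(mv 1102 (cons (fin 1166 7 909)
(mv 847 (cons (fin 911 6 846)
(mv 1103 (cons (fin 1167 4 910)
(mv 1168 (cons (fin 1169 0 1101)
(mv 1232 (cons (fin 975 7 975)
(fin 1296 7 1039))))))))))))))))))))))))))
(mv 1039 (cons (fin 1100 1 1036)
(mv 972 (cons (fin 973 3 972)
(mv 1036 (cons (fin 971 3 971)
(mv 844 (cons (fin 908 4 844)
(mv 1104 (cons (fin 1105 0 1037)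
(mv 1165 (cons (fin 1229 7 972)
(mv 974 (cons (mv 910 (cons (fin 846 5 845)
(fin 1102 5 909)))
(cons (mv 1035 (cons (fin 975 2 971)
(mv 1034 (cons (fin 1102 0 1034)
(mv 1098 (cons (fin 1097 1 1033)
(fin 1099 1 1034)))))))
(mv 846 (cons (fin 910 5 845)
(mv 975 (cons (fin 1035 2 971)
(mv 847 (cons (fin 911 4 847)
(mv 1168 (cons (fin 1232 7 975)
(mv 845 (cons (cons (mv 779 (cons (fin 780 3 779)
(mv 783 (cons (fin 784 2 780)
(mv 843 (cons (fin 778 3 778)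
(fin 782 2 779)))))))
(mv 783 (cons (fin 784 2 780)
(mv 843 (cons (fin 782 2 779)
(mv 842 (cons (mv 778 (cons (fin 777 3 777)
(fin 779 3 778)))
(mv 906 (cons (fin 905 1 841)
(fin 907 1 842))))))))))
(cons (mv 780 (cons (fin 779 3 779)
(mv 848 (cons (fin 781 3 780)
(mv 849 (cons (mv 785 (cons (fin 784 2 781)
(fin 786 2 782)))
(mv 913 (cons (fin 912 0 845)
(fin 914 0 846)))))))))
(cons (mv 784 (cons (fin 783 2 780)
(mv 848 (cons (fin 785 2 781)
(mv 849 (cons (mv 781 (cons (fin 780 3 780)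
(fin 782 3 781)))
(mv 913 (cons (fin 912 0 845)
(fin 914 0 846)))))))))
(mv 779 (cons (fin 780 3 779)
(mv 843 (cons (fin 778 3 778)
(mv 842 (cons (mv 782 (cons (fin 781 2 778)
(fin 783 2 779)))
(mv 906 (cons (fin 905 1 841)
(fin 907 1 842)))))))))))))))))))))))))))))))))))))))))))
(cons (cons (mv 1038 (cons (cons (mv 1039 (cons (fin 1100 1 1036)
(mv 972 (cons (fin 973 3 972)
(mv 1036 (cons (fin 971 3 971)
(mv 1104 (cons (fin 1103 0 1036)
(fin 1105 0 1037)))))))))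
(cons (mv 974 (cons (cons (mv 910 (cons (fin 846 5 845)
(mv 1165 (cons (fin 1102 5 909)
(fin 973 6 909)))))
(cons (mv 910 (cons (fin 846 5 845)
(mv 1102 (cons (cons (mv 845 (cons (fin 909 7 845)
(mv 847 (cons (fin 911 6 846)
(mv 1103 (cons (fin 1167 4 910)
(mv 1036 (cons (fin 1104 3 1036)
(fin 1035 0 1035)))))))))
(mv 845 (cons (fin 909 7 845)
(mv 911 (cons (fin 847 6 846)
(mv 1166 (cons (fin 975 6 910)
(mv 1230 (cons (fin 973 7 973)
(fin 1294 7 1037))))))))))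
(cons (mv 847 (cons (fin 911 6 846)
(mv 1103 (cons (fin 1167 4 910)
(mv 1036 (cons (fin 1104 3 1036)
(fin 1035 0 1035)))))))
(mv 845 (cons (fin 909 7 845)
(mv 1103 (cons (fin 1167 4 910)
(mv 1036 (cons (fin 1104 3 1036)
(fin 1035 0 1035))))))))))))
(mv 1165 (cons (fin 1229 6 973)
(mv 973 (cons (cons (mv 1164 (cons (fin 1228 5 972)
(mv 909 (cons (fin 1100 5 908)
(mv 845 (cons (fin 781 4 781)
(fin 1102 4 845)))))))
(mv 1166 (cons (fin 1230 4 973)
(mv 909 (cons (fin 1102 7 909)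
(mv 845 (cons (fin 781 4 781)
(mv 780 (cons (fin 844 7 780)
(mv 782 (cons (fin 846 6 781)
(mv 1036 (cons (fin 1100 5 844)
(mv 1035 (cons (fin 1034 2 970)
(fin 975 2 971))))))))))))))))
(cons (mv 1164 (cons (fin 1228 5 972)
(mv 1166 (cons (fin 1230 4 973)
(mv 1102 (cons (mv 1103 (cons (fin 1104 1 1100)
(fin 1163 2 1099)))
(cons (mv 911 (cons (fin 975 6 910)
(mv 1162 (cons (fin 1163 2 1098)
(mv 1167 (cons (fin 1231 4 974)
(mv 1100 (cons (fin 1099 3 1099)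
(fin 1168 3 1100)))))))))
(mv 911 (cons (fin 975 6 910)
(mv 1103 (cons (fin 1104 1 1100)
(mv 1035 (cons (fin 1036 0 1035)
(mv 1167 (cons (fin 1231 4 974)
(mv 1100 (cons (fin 1099 3 1099)
(fin 1168 3 1100))))))))))))))))))
(cons (mv 1164 (cons (fin 1228 5 972)
(mv 1100 (cons (fin 909 5 908)
(mv 1099 (cons (fin 1098 2 1034)
(mv 1166 (cons (fin 1167 3 1099)
(fin 1230 4 973)))))))))
(mv 1164 (cons (fin 1228 5 972)
(mv 1166 (cons (fin 1230 4 973)
(mv 1102 (cons (fin 909 7 909)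
(mv 1103 (cons (fin 1104 1 1100)
(fin 1163 2 1099)))))))))))))))))
(cons (mv 1165 (cons (fin 1229 6 973)
(mv 910 (cons (fin 1102 5 909)
(fin 973 6 909)))))
(cons (mv 910 (cons (fin 846 5 845)
(mv 1165 (cons (fin 973 6 909)
(fin 1229 6 973)))))
(mv 910 (cons (fin 846 5 845)
(mv 1165 (cons (fin 1102 5 909)
(fin 1229 6 973)))))))))
(mv 974 (cons (cons (mv 910 (cons (fin 846 5 845)
(mv 1165 (cons (fin 1102 5 909)
(fin 973 6 909)))))
(mv 1165 (cons (fin 1229 6 973)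
(mv 973 (cons (cons (mv 972 (cons (fin 1039 3 972)
(mv 970 (cons (fin 971 0 970)
(mv 1164 (cons (fin 1228 5 972)
(mv 1166 (cons (fin 1230 4 973)
(mv 1102 (cons (fin 909 7 909)
(mv 1103 (cons (fin 1104 1 1100)
(fin 1163 2 1099)))))))))))))
(cons (mv 1164 (cons (fin 1228 5 972)
(mv 1166 (cons (fin 1230 4 973)
(mv 1102 (cons (fin 909 7 909)
(mv 1103 (cons (fin 1104 1 1100)
(fin 1163 2 1099)))))))))
(mv 972 (cons (fin 1039 3 972)
(mv 971 (cons (fin 970 0 970)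
(mv 906 (cons (fin 907 3 906)
(mv 1035 (cons (fin 1034 1 970)
(mv 1036 (cons (fin 975 1 971)
(mv 1099 (cons (fin 1098 1 1034)
(mv 1102 (cons (fin 1103 0 1035)
(mv 845 (cons (fin 909 4 845)
(mv 1163 (cons (fin 1227 6 971)
(mv 1162 (cons (fin 1164 2 1098)
(fin 1226 5 970)))))))))))))))))))))))
(cons (mv 972 (cons (fin 1039 3 972)
(mv 970 (cons (fin 971 0 970)
(mv 1166 (cons (fin 1230 4 973)
(mv 1102 (cons (fin 909 7 909)
(mv 975 (cons (fin 911 6 910)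
(mv 1036 (cons (fin 1035 1 971)
(mv 1104 (cons (fin 1103 3 1036)
(mv 1167 (cons (fin 1231 4 974)
(mv 1168 (cons (fin 1169 3 1101)
(fin 1105 2 1101)))))))))))))))))))
(cons (mv 1039 (cons (fin 972 3 972)
(mv 1104 (cons (fin 1105 0 1037)
(mv 1036 (cons (fin 1103 0 1036)
(mv 1035 (cons (fin 1034 2 970)
(fin 975 2 971)))))))))
(mv 972 (cons (fin 1039 3 972)
(mv 970 (cons (fin 971 0 970)
(mv 1164 (cons (fin 1228 5 972)
(mv 1166 (cons (fin 1230 4 973)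
(mv 1102 (cons (fin 909 7 909)
(mv 911 (cons (fin 975 6 910)
(mv 1163 (cons (fin 1162 2 1098)
(mv 1099 (cons (fin 1098 3 1098)
(mv 1167 (cons (fin 1231 4 974)
(mv 1168 (cons (fin 1169 3 1101)
(mv 1104 (cons (fin 1105 2 1101)
(mv 1227 (cons (fin 1226 1 1162)
(mv 1035 (cons (fin 1034 7 970)
(fin 1036 6 971))))))))))))))))))))))))))))))))))
(cons (mv 846 (cons (fin 910 5 845)
(mv 1036 (cons (mv 1035 (cons (fin 975 2 971)
(mv 1034 (cons (fin 973 2 970)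
(fin 1102 0 1034)))))
(cons (mv 1039 (cons (mv 972 (cons (fin 971 3 971)
(fin 973 3 972)))
(mv 1104 (cons (fin 1103 0 1036)
(fin 1105 0 1037)))))
(mv 1035 (cons (fin 975 2 971)
(mv 1102 (cons (fin 1034 0 1034)
(fin 1103 0 1035))))))))))
(cons (mv 910 (cons (fin 846 5 845)
(mv 1165 (cons (fin 1102 5 909)
(fin 1229 6 973)))))
(mv 910 (cons (fin 846 5 845)
(mv 1165 (cons (fin 973 6 909)
(fin 1229 6 973)))))))))))
(cons (cons (mv 1039 (cons (fin 1100 1 1036)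
(mv 1104 (cons (fin 1105 0 1037)
(mv 1036 (cons (fin 1103 0 1036)
(mv 971 (cons (fin 972 3 971)
(mv 1035 (cons (fin 970 3 970)
(mv 974 (cons (fin 975 2 971)
(mv 846 (cons (fin 910 5 845)
(mv 1034 (cons (fin 1102 0 1034)
(mv 1098 (cons (fin 1097 1 1033)
(fin 1099 1 1034)))))))))))))))))))
(mv 1039 (cons (fin 1100 1 1036)
(mv 972 (cons (fin 973 3 972)
(mv 1036 (cons (fin 971 3 971)
(mv 1165 (cons (fin 1229 7 972)
(mv 1102 (cons (mv 1035 (cons (fin 1034 0 1034)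
(fin 1103 0 1035)))
(cons (mv 974 (cons (fin 910 5 909)
(mv 1166 (cons (mv 975 (cons (fin 911 6 910)
(fin 1230 6 974)))
(cons (mv 975 (cons (fin 911 6 910)
(mv 1167 (cons (fin 1231 4 974)
(mv 1168 (cons (fin 1169 3 1101)
(mv 1232 (cons (fin 1233 0 1165)
(fin 1103 4 975)))))))))
(mv 1230 (cons (fin 1294 7 1037)
(mv 1231 (cons (fin 1167 4 974)
(fin 1295 4 1038))))))))))
(mv 974 (cons (fin 910 5 909)
(mv 1035 (cons (fin 975 2 971)
(fin 1034 0 1034)))))))))))))))))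
(cons (mv 1039 (cons (fin 1100 1 1036)
(mv 972 (cons (fin 973 3 972)
(mv 1104 (cons (fin 1105 0 1037)
(mv 1165 (cons (cons (mv 974 (cons (fin 1229 6 973)
(mv 910 (cons (fin 846 5 845)
(fin 1102 5 909)))))
(mv 1102 (cons (cons (mv 910 (cons (fin 974 5 909)
(mv 1103 (cons (fin 1164 1 1100)
(mv 1168 (cons (fin 1169 0 1101)
(mv 975 (cons (fin 1232 7 975)
(fin 911 4 911)))))))))
(mv 974 (cons (fin 910 5 909)
(mv 1166 (cons (mv 975 (cons (fin 911 6 910)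
(fin 1230 6 974)))
(cons (mv 1230 (cons (fin 1294 7 1037)
(mv 1231 (cons (fin 1167 4 974)
(fin 1295 4 1038)))))
(mv 975 (cons (fin 911 6 910)
(mv 1167 (cons (fin 1231 4 974)
(mv 1168 (cons (fin 1169 3 1101)
(fin 1232 7 975)))))))))))))
(cons (mv 1103 (cons (fin 1164 1 1100)
(mv 1168 (cons (fin 1169 0 1101)
(mv 975 (cons (fin 1232 7 975)
(fin 911 4 911)))))))
(cons (mv 910 (cons (fin 974 5 909)
(mv 1103 (cons (fin 1164 1 1100)
(mv 1168 (cons (fin 1169 0 1101)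
(mv 1232 (cons (fin 1296 7 1039)
(mv 1231 (cons (fin 1295 5 1039)
(mv 1233 (cons (fin 1297 4 1040)
(mv 1166 (cons (fin 1230 3 1165)
(fin 1167 0 1165)))))))))))))))
(mv 910 (cons (fin 974 5 909)
(mv 1164 (cons (fin 1103 1 1100)
(mv 1163 (cons (fin 1162 2 1098)
(mv 1166 (cons (mv 1230 (cons (fin 1231 0 1163)
(fin 1294 7 1037)))
(mv 1099 (cons (fin 1098 3 1098)
(mv 1227 (cons (fin 1226 1 1162)
(mv 1228 (cons (fin 1167 1 1163)
(mv 1035 (cons (fin 971 4 971)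
(fin 1292 4 1035))))))))))))))))))))))
(cons (mv 1229 (cons (cons (mv 1102 (cons (fin 1293 6 1037)
(mv 1103 (cons (fin 1164 1 1100)
(mv 1168 (cons (fin 1169 0 1101)
(mv 975 (cons (fin 1232 7 975)
(fin 911 4 911)))))))))
(mv 1228 (cons (fin 1292 5 1036)
(mv 1230 (cons (fin 1294 4 1037)
(mv 1231 (cons (mv 1164 (cons (fin 1163 3 1163)
(fin 1232 3 1164)))
(mv 1167 (cons (fin 1168 2 1164)
(mv 1295 (cons (fin 1296 0 1228)
(fin 1103 6 1039))))))))))))
(cons (mv 1102 (cons (fin 1293 6 1037)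
(mv 1103 (cons (fin 1164 1 1100)
(mv 1228 (cons (fin 1292 5 1036)
(mv 1230 (cons (fin 1294 4 1037)
(mv 1166 (cons (fin 975 6 974)
(mv 1227 (cons (fin 1226 2 1162)
(fin 1167 2 1163)))))))))))))
(cons (mv 1102 (cons (fin 1293 6 1037)
(mv 1228 (cons (fin 1292 5 1036)
(mv 1230 (cons (fin 1294 4 1037)
(mv 975 (cons (fin 1166 6 974)
(mv 911 (cons (fin 847 5 846)
(mv 1168 (cons (fin 1232 7 975)
(fin 1103 4 911)))))))))))))
(mv 1102 (cons (fin 1293 6 1037)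
(mv 1228 (cons (fin 1292 5 1036)
(mv 1230 (cons (fin 1294 4 1037)
(mv 975 (cons (fin 1166 6 974)
(mv 847 (cons (fin 911 5 846)
(mv 1232 (cons (fin 1168 7 975)
(mv 1231 (cons (fin 1164 3 1164)
(mv 1296 (cons (fin 1295 0 1228)
(fin 1297 0 1229)))))))))))))))))))))
(mv 1229 (cons (fin 974 6 973)
(mv 1230 (cons (fin 1294 4 1037)
(mv 1292 (cons (fin 1228 5 1036)
(mv 1293 (cons (fin 1356 5 1100)
(mv 1232 (cons (fin 1231 1 1228)
(mv 1168 (cons (fin 975 7 975)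
(mv 1233 (cons (fin 1297 4 1040)
(mv 1166 (cons (fin 1167 0 1165)
(mv 1296 (cons (fin 1103 7 1039)
(mv 1357 (cons (fin 1421 6 1165)
(mv 1358 (cons (fin 1422 4 1165)
(mv 1359 (cons (fin 1360 3 1292)
(fin 1295 5 1103))))))))))))))))))))))))))))))))))
(mv 1039 (cons (fin 1100 1 1036)
(mv 972 (cons (fin 973 3 972)
(mv 1036 (cons (fin 971 3 971)
(mv 1104 (cons (fin 1105 0 1037)
(mv 1102 (cons (cons (mv 1035 (cons (fin 1034 0 1034)
(mv 974 (cons (fin 975 2 971)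
(mv 910 (cons (fin 846 5 845)
(fin 1165 5 909)))))))
(mv 1034 (cons (fin 1035 0 1034)
(mv 1166 (cons (mv 1230 (cons (fin 1294 7 1037)
(fin 975 6 974)))
(cons (mv 1168 (cons (cons (mv 975 (cons (fin 1232 7 975)
(mv 911 (cons (fin 847 5 846)
(fin 974 6 910)))))
(mv 1167 (cons (fin 1169 3 1101)
(mv 1231 (cons (fin 974 4 974)
(mv 1295 (cons (fin 1359 7 1102)
(fin 1232 5 1039))))))))
(cons (mv 1167 (cons (fin 1169 3 1101)
(mv 974 (cons (fin 1231 4 974)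
(mv 910 (cons (fin 846 5 845)
(mv 911 (cons (fin 847 6 846)
(fin 975 6 910)))))))))
(mv 1167 (cons (fin 1169 3 1101)
(mv 1232 (cons (fin 975 7 975)
(mv 1231 (cons (fin 1295 5 1039)
(mv 1233 (cons (fin 1234 3 1166)
(fin 1297 4 1040))))))))))))
(mv 1230 (cons (fin 1294 7 1037)
(mv 1229 (cons (fin 1293 5 1037)
(mv 1231 (cons (fin 1295 4 1038)
(mv 1167 (cons (fin 974 4 974)
(mv 1168 (cons (fin 1169 3 1101)
(fin 1228 2 1164)))))))))))))))))
(cons (mv 1165 (cons (fin 1229 7 972)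
(mv 974 (cons (fin 910 5 909)
(mv 1166 (cons (mv 975 (cons (fin 911 6 910)
(fin 1230 6 974)))
(cons (mv 1230 (cons (fin 1294 7 1037)
(mv 1231 (cons (fin 1167 4 974)
(fin 1295 4 1038)))))
(mv 975 (cons (fin 911 6 910)
(mv 1167 (cons (fin 1231 4 974)
(mv 1168 (cons (fin 1169 3 1101)
(fin 1232 7 975))))))))))))))
(cons (mv 1035 (cons (fin 1034 0 1034)
(mv 1099 (cons (fin 1098 1 1034)
(mv 1227 (cons (fin 1163 6 971)
(mv 1229 (cons (fin 1165 7 972)
(mv 1230 (cons (cons (mv 1166 (cons (fin 1294 7 1037)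
(fin 1293 5 1037)))
(mv 1228 (cons (cons (mv 1290 (cons (fin 1291 1 1226)
(mv 1226 (cons (fin 1289 1 1225)
(mv 1294 (cons (fin 1293 0 1226)
(fin 1295 0 1227)))))))
(mv 1294 (cons (fin 1295 0 1227)
(mv 1226 (cons (fin 1293 0 1226)
(mv 1161 (cons (fin 1162 3 1161)
(mv 1225 (cons (fin 1160 3 1160)
(mv 1289 (cons (fin 1288 1 1224)
(fin 1290 1 1225))))))))))))
(cons (mv 1290 (cons (fin 1291 1 1226)
(mv 1226 (cons (fin 1289 1 1225)
(mv 1161 (cons (fin 1162 3 1161)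
(mv 1225 (cons (fin 1160 3 1160)
(mv 1293 (cons (fin 1292 0 1225)
(fin 1294 0 1226)))))))))))
(cons (mv 1291 (cons (fin 1290 1 1226)
(mv 1231 (cons (fin 1292 1 1227)
(mv 1168 (cons (fin 1167 2 1164)
(mv 1232 (cons (fin 1169 2 1165)
(fin 1295 5 1039)))))))))
(mv 1295 (cons (fin 1294 0 1227)
(mv 1231 (cons (fin 1296 0 1228)
(mv 1168 (cons (fin 1167 2 1164)
(fin 1232 5 1039))))))))))))
(cons (mv 1166 (cons (fin 1293 5 1037)
(mv 1167 (cons (fin 1228 2 1163)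
(mv 1231 (cons (fin 974 4 974)
(fin 1295 4 1038)))))))
(mv 1166 (cons (fin 1294 7 1037)
(mv 1167 (cons (fin 1228 2 1163)
(mv 1231 (cons (fin 974 4 974)
(fin 1295 4 1038))))))))))))))))))
(mv 1035 (cons (fin 1034 0 1034)
(mv 1099 (cons (fin 1098 1 1034)
(mv 1227 (cons (fin 1163 6 971)
(mv 1229 (cons (fin 1165 7 972)
(mv 1230 (cons (cons (mv 1166 (cons (fin 1294 7 1037)
(fin 1293 5 1037)))
(mv 1228 (cons (cons (mv 1290 (cons (fin 1291 1 1226)
(mv 1226 (cons (fin 1289 1 1225)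
(mv 1294 (cons (fin 1293 0 1226)
(fin 1295 0 1227)))))))
(mv 1294 (cons (fin 1295 0 1227)
(mv 1226 (cons (fin 1293 0 1226)
(mv 1161 (cons (fin 1162 3 1161)
(mv 1225 (cons (fin 1160 3 1160)
(mv 1289 (cons (fin 1288 1 1224)
(fin 1290 1 1225))))))))))))
(cons (mv 1290 (cons (fin 1291 1 1226)
(mv 1226 (cons (fin 1289 1 1225)
(mv 1161 (cons (fin 1162 3 1161)
(mv 1225 (cons (fin 1160 3 1160)
(mv 1293 (cons (fin 1292 0 1225)
(fin 1294 0 1226)))))))))))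
(cons (mv 1291 (cons (fin 1290 1 1226)
(mv 1231 (cons (fin 1292 1 1227)
(mv 1168 (cons (fin 1167 2 1164)
(mv 1232 (cons (fin 1169 2 1165)
(fin 975 7 975)))))))))
(mv 1295 (cons (fin 1294 0 1227)
(mv 1231 (cons (fin 1296 0 1228)
(mv 1168 (cons (fin 1167 2 1164)
(fin 1232 5 1039))))))))))))
(cons (mv 1166 (cons (fin 1293 5 1037)
(fin 975 6 974)))
(mv 1166 (cons (fin 1294 7 1037)
(fin 975 6 974))))))))))))))))))))))))))))))
(cons (mv 1038 (cons (cons (mv 1039 (cons (fin 1100 1 1036)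
(mv 972 (cons (fin 973 3 972)
(mv 1036 (cons (fin 971 3 971)
(mv 1104 (cons (fin 1103 0 1036)
(fin 1105 0 1037)))))))))
(cons (mv 1165 (cons (cons (mv 974 (cons (fin 1229 6 973)
(mv 973 (cons (cons (mv 908 (cons (fin 972 7 908)
(mv 909 (cons (fin 844 7 844)
(mv 845 (cons (fin 781 4 781)
(fin 1102 4 845)))))))
(mv 1164 (cons (fin 1228 5 972)
(mv 909 (cons (fin 1100 5 908)
(mv 845 (cons (fin 781 4 781)
(fin 1102 4 845))))))))
(cons (mv 972 (cons (fin 908 7 908)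
(mv 971 (cons (fin 970 0 970)
(mv 906 (cons (fin 907 3 906)
(mv 1035 (cons (fin 1034 1 970)
(mv 975 (cons (fin 1036 1 971)
(mv 911 (cons (fin 912 2 908)
(mv 1166 (cons (fin 1102 6 910)
(fin 1230 4 973)))))))))))))))
(mv 908 (cons (fin 972 7 908)
(mv 909 (cons (fin 844 7 844)
(mv 1164 (cons (fin 1100 5 908)
(fin 1228 5 972))))))))))))
(cons (mv 973 (cons (cons (mv 908 (cons (fin 972 7 908)
(mv 909 (cons (fin 844 7 844)
(mv 1102 (cons (fin 845 4 845)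
(fin 1166 4 909)))))))
(mv 908 (cons (fin 972 7 908)
(mv 909 (cons (fin 844 7 844)
(mv 1164 (cons (fin 1100 5 908)
(fin 1228 5 972))))))))
(cons (mv 1164 (cons (fin 1228 5 972)
(mv 909 (cons (fin 1100 5 908)
(mv 1102 (cons (fin 845 4 845)
(fin 1166 4 909)))))))
(mv 908 (cons (fin 972 7 908)
(mv 1164 (cons (fin 1228 5 972)
(mv 1166 (cons (fin 1230 4 973)
(mv 1167 (cons (mv 1100 (cons (fin 1099 3 1099)
(fin 1168 3 1100)))
(mv 1103 (cons (fin 1104 2 1100)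
(mv 1102 (cons (fin 1163 2 1099)
(mv 1231 (cons (fin 1232 0 1164)
(fin 1295 7 1038))))))))))))))))))
(mv 1229 (cons (fin 974 6 973)
(mv 972 (cons (fin 1036 7 972)
(mv 1228 (cons (fin 1292 5 1036)
(mv 1293 (cons (fin 1102 6 1037)
(mv 1294 (cons (fin 1230 4 1037)
(fin 1358 4 1101)))))))))))))
(cons (cons (mv 974 (cons (fin 1229 6 973)
(mv 973 (cons (cons (mv 908 (cons (fin 972 7 908)
(mv 909 (cons (fin 844 7 844)
(mv 845 (cons (fin 781 4 781)
(fin 1102 4 845)))))))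
(mv 1164 (cons (fin 1228 5 972)
(mv 909 (cons (fin 1100 5 908)
(mv 845 (cons (fin 781 4 781)
(fin 1102 4 845))))))))
(cons (mv 972 (cons (fin 908 7 908)
(mv 971 (cons (fin 970 0 970)
(mv 906 (cons (fin 907 3 906)
(mv 1035 (cons (fin 1034 1 970)
(mv 975 (cons (fin 1036 1 971)
(mv 911 (cons (fin 912 2 908)
(mv 783 (cons (fin 847 5 782)
(mv 1102 (cons (fin 1166 6 910)
(mv 1164 (cons (fin 1228 5 972)
(mv 1103 (cons (fin 1104 1 1100)
(mv 1163 (cons (fin 1100 1 1099)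
(fin 1162 2 1098)))))))))))))))))))))))
(mv 908 (cons (fin 972 7 908)
(mv 909 (cons (fin 844 7 844)
(mv 1164 (cons (fin 1100 5 908)
(fin 1228 5 972))))))))))))
(mv 974 (cons (fin 1229 6 973)
(mv 973 (cons (cons (mv 1164 (cons (fin 1228 5 972)
(mv 909 (cons (fin 1100 5 908)
(mv 845 (cons (fin 781 4 781)
(fin 1102 4 845)))))))
(mv 1166 (cons (fin 1230 4 973)
(mv 909 (cons (fin 1102 7 909)
(mv 844 (cons (fin 908 7 844)
(mv 845 (cons (fin 780 7 780)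
(fin 781 4 781))))))))))
(cons (mv 1164 (cons (fin 1228 5 972)
(mv 1166 (cons (fin 1230 4 973)
(mv 1102 (cons (mv 1103 (cons (fin 1104 1 1100)
(fin 1163 2 1099)))
(cons (mv 911 (cons (fin 975 6 910)
(mv 1162 (cons (fin 1163 2 1098)
(mv 1167 (cons (fin 1231 4 974)
(mv 1100 (cons (fin 1099 3 1099)
(fin 1168 3 1100)))))))))
(mv 911 (cons (fin 975 6 910)
(mv 1103 (cons (fin 1104 1 1100)
(mv 1035 (cons (fin 1036 0 1035)
(mv 1167 (cons (fin 1231 4 974)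
(mv 1100 (cons (fin 1099 3 1099)
(fin 1168 3 1100))))))))))))))))))
(mv 1164 (cons (fin 1228 5 972)
(mv 909 (cons (fin 1100 5 908)
(mv 844 (cons (fin 908 7 844)
(mv 845 (cons (fin 780 7 780)
(fin 781 4 781)))))))))))))))
(cons (mv 974 (cons (fin 1229 6 973)
(mv 973 (cons (cons (mv 908 (cons (fin 972 7 908)
(mv 909 (cons (fin 844 7 844)
(mv 845 (cons (fin 781 4 781)
(fin 1102 4 845)))))))
(mv 1166 (cons (fin 1230 4 973)
(mv 909 (cons (fin 1102 7 909)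
(mv 844 (cons (fin 908 7 844)
(mv 845 (cons (fin 780 7 780)
(fin 781 4 781))))))))))
(cons (mv 1166 (cons (fin 1230 4 973)
(mv 909 (cons (fin 1102 7 909)
(mv 845 (cons (fin 781 4 781)
(mv 1100 (cons (fin 1036 5 844)
(fin 1164 5 908)))))))))
(cons (mv 972 (cons (fin 908 7 908)
(mv 971 (cons (fin 970 0 970)
(mv 906 (cons (fin 907 3 906)
(mv 1035 (cons (fin 1034 1 970)
(mv 975 (cons (fin 1036 1 971)
(mv 911 (cons (fin 912 2 908)
(mv 1166 (cons (fin 1102 6 910)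
(fin 1230 4 973)))))))))))))))
(mv 908 (cons (fin 972 7 908)
(mv 909 (cons (fin 844 7 844)
(mv 845 (cons (fin 781 4 781)
(mv 1100 (cons (fin 1036 5 844)
(fin 1164 5 908)))))))))))))))
(mv 1229 (cons (fin 974 6 973)
(mv 972 (cons (fin 1036 7 972)
(mv 908 (cons (fin 973 7 908)
(mv 1292 (cons (fin 1228 5 1036)
(mv 1293 (cons (fin 1356 5 1100)
(mv 1294 (cons (fin 1230 4 1037)
(fin 1358 4 1101)))))))))))))))))
(mv 1039 (cons (cons (mv 972 (cons (fin 973 3 972)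
(mv 1036 (cons (fin 971 3 971)
(mv 1104 (cons (fin 1103 0 1036)
(fin 1105 0 1037)))))))
(mv 973 (cons (fin 972 3 972)
(mv 909 (cons (mv 1102 (cons (fin 845 4 845)
(fin 1166 4 909)))
(cons (mv 844 (cons (fin 908 7 844)
(mv 845 (cons (fin 780 7 780)
(mv 781 (cons (fin 974 4 781)
(mv 782 (cons (fin 718 6 717)
(fin 846 6 781)))))))))
(mv 844 (cons (fin 908 7 844)
(mv 1166 (cons (fin 1102 4 909)
(mv 1165 (cons (fin 1230 4 973)
(mv 1228 (cons (fin 1164 5 972)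
(mv 1229 (cons (fin 1292 5 1036)
(fin 974 6 973)))))))))))))))))
(cons (mv 1104 (cons (fin 1105 0 1037)
(mv 1036 (cons (fin 1103 0 1036)
(mv 1035 (cons (cons (mv 970 (cons (fin 971 3 970)
(mv 1034 (cons (fin 969 3 969)
(fin 1102 0 1034)))))
(mv 971 (cons (fin 970 3 970)
(mv 974 (cons (fin 975 2 971)
(mv 1099 (cons (fin 1098 1 1034)
(mv 1163 (cons (cons (mv 1162 (cons (fin 1226 5 970)
(mv 1164 (cons (fin 1228 4 971)
(mv 1165 (cons (fin 1102 2 1098)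
(fin 1229 6 973)))))))
(cons (mv 1165 (cons (fin 1229 6 973)
(mv 1226 (cons (fin 1162 5 970)
(mv 1227 (cons (fin 1290 5 1034)
(mv 1166 (cons (fin 1164 1 1162)
(mv 973 (cons (fin 1230 4 973)
(mv 909 (cons (fin 1102 7 909)
(mv 844 (cons (fin 908 7 844)
(mv 845 (cons (fin 780 7 780)
(fin 781 4 781)))))))))))))))))
(mv 1228 (cons (fin 1164 4 971)
(mv 1227 (cons (fin 1292 4 1035)
(mv 1229 (cons (fin 1165 6 973)
(mv 1230 (cons (fin 1162 3 1162)
(mv 1166 (cons (fin 1167 2 1163)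
(mv 1102 (cons (fin 973 7 973)
(fin 1294 7 1037)))))))))))))))
(cons (mv 1226 (cons (fin 1162 5 970)
(mv 1227 (cons (fin 1290 5 1034)
(mv 1228 (cons (fin 1164 4 971)
(fin 1292 4 1035)))))))
(cons (mv 1226 (cons (fin 1162 5 970)
(mv 1227 (cons (fin 1290 5 1034)
(mv 1228 (cons (fin 1292 4 1035)
(mv 1229 (cons (fin 1165 6 973)
(mv 1294 (cons (fin 1293 0 1226)
(mv 1230 (cons (fin 1295 0 1227)
(mv 1166 (cons (fin 1167 2 1163)
(fin 1102 7 1037)))))))))))))))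
(mv 1228 (cons (fin 1164 4 971)
(mv 1227 (cons (fin 1292 4 1035)
(mv 1226 (cons (fin 1290 5 1034)
(mv 1229 (cons (fin 1165 6 973)
(mv 1294 (cons (fin 1293 0 1226)
(mv 1230 (cons (fin 1295 0 1227)
(mv 1166 (cons (fin 1167 2 1163)
(fin 1102 7 1037))))))))))))))))))))))))))
(cons (mv 974 (cons (fin 975 2 971)
(mv 1034 (cons (fin 973 2 970)
(fin 1102 0 1034)))))
(mv 970 (cons (fin 971 3 970)
(mv 974 (cons (fin 975 2 971)
(mv 1034 (cons (fin 969 3 969)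
(fin 973 2 970))))))))))))))
(mv 1104 (cons (fin 1105 0 1037)
(mv 1036 (cons (fin 1103 0 1036)
(mv 971 (cons (fin 972 3 971)
(mv 1035 (cons (fin 970 3 970)
(mv 974 (cons (fin 975 2 971)
(mv 1034 (cons (fin 1102 0 1034)
(mv 1098 (cons (fin 1097 1 1033)
(fin 1099 1 1034))))))))))))))))))))
(cons (mv 1039 (cons (fin 1100 1 1036)
(mv 1104 (cons (fin 1105 0 1037)
(mv 1036 (cons (fin 1103 0 1036)
(mv 971 (cons (fin 972 3 971)
(mv 1035 (cons (fin 970 3 970)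
(mv 974 (cons (fin 975 2 971)
(mv 1034 (cons (fin 1102 0 1034)
(mv 1098 (cons (fin 1097 1 1033)
(fin 1099 1 1034)))))))))))))))))
(cons (mv 1039 (cons (fin 1100 1 1036)
(mv 1104 (cons (fin 1105 0 1037)
(mv 1036 (cons (fin 1103 0 1036)
(mv 1035 (cons (cons (mv 970 (cons (fin 971 3 970)
(mv 1034 (cons (fin 969 3 969)
(fin 1102 0 1034)))))
(mv 971 (cons (fin 970 3 970)
(mv 974 (cons (fin 975 2 971)
(mv 1099 (cons (fin 1098 1 1034)
(mv 1163 (cons (cons (mv 1162 (cons (fin 1226 5 970)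
(mv 1164 (cons (fin 1228 4 971)
(mv 1165 (cons (fin 1102 2 1098)
(fin 1229 6 973)))))))
(cons (mv 1165 (cons (fin 1229 6 973)
(mv 1226 (cons (fin 1162 5 970)
(mv 1227 (cons (fin 1290 5 1034)
(mv 1166 (cons (fin 1164 1 1162)
(mv 973 (cons (fin 1230 4 973)
(mv 909 (cons (fin 1102 7 909)
(mv 844 (cons (fin 908 7 844)
(mv 845 (cons (fin 780 7 780)
(fin 781 4 781)))))))))))))))))
(mv 1228 (cons (fin 1164 4 971)
(mv 1227 (cons (fin 1292 4 1035)
(mv 1229 (cons (fin 1165 6 973)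
(mv 1230 (cons (fin 1162 3 1162)
(mv 1166 (cons (fin 1167 2 1163)
(mv 1102 (cons (fin 973 7 973)
(fin 1294 7 1037)))))))))))))))
(cons (mv 1226 (cons (fin 1162 5 970)
(mv 1227 (cons (fin 1290 5 1034)
(mv 1228 (cons (fin 1164 4 971)
(fin 1292 4 1035)))))))
(cons (mv 1226 (cons (fin 1162 5 970)
(mv 1227 (cons (fin 1290 5 1034)
(mv 1228 (cons (fin 1292 4 1035)
(mv 1229 (cons (fin 1165 6 973)
(mv 1294 (cons (fin 1293 0 1226)
(mv 1230 (cons (fin 1295 0 1227)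
(mv 1166 (cons (fin 1167 2 1163)
(fin 1102 7 1037)))))))))))))))
(mv 1228 (cons (fin 1164 4 971)
(mv 1227 (cons (fin 1292 4 1035)
(mv 1226 (cons (fin 1290 5 1034)
(mv 1229 (cons (fin 1165 6 973)
(mv 1294 (cons (fin 1293 0 1226)
(mv 1230 (cons (fin 1295 0 1227)
(mv 1166 (cons (fin 1167 2 1163)
(fin 1102 7 1037))))))))))))))))))))))))))
(cons (mv 974 (cons (fin 975 2 971)
(mv 1034 (cons (fin 973 2 970)
(fin 1102 0 1034)))))
(mv 970 (cons (fin 971 3 970)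
(mv 974 (cons (fin 975 2 971)
(mv 1034 (cons (fin 969 3 969)
(fin 973 2 970))))))))))))))))
(mv 1039 (cons (fin 1100 1 1036)
(mv 973 (cons (fin 972 3 972)
(mv 909 (cons (mv 1102 (cons (fin 845 4 845)
(fin 1166 4 909)))
(cons (mv 844 (cons (fin 908 7 844)
(mv 845 (cons (fin 780 7 780)
(mv 781 (cons (fin 974 4 781)
(mv 782 (cons (fin 718 6 717)
(fin 846 6 781)))))))))
(mv 844 (cons (fin 908 7 844)
(mv 1166 (cons (fin 1102 4 909)
(mv 1165 (cons (fin 1230 4 973)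
(mv 1228 (cons (fin 1164 5 972)
(mv 1229 (cons (fin 1292 5 1036)
(fin 974 6 973))))))))))))))))))))))
(mv 1038 (cons (cons (cons (mv 1039 (cons (fin 1100 1 1036)
(mv 972 (cons (fin 973 3 972)
(mv 1036 (cons (fin 971 3 971)
(mv 844 (cons (fin 908 4 844)
(mv 1165 (cons (fin 1229 7 972)
(mv 1102 (cons (mv 1035 (cons (fin 1034 0 1034)
(fin 1103 0 1035)))
(cons (mv 974 (cons (fin 910 5 909)
(mv 1166 (cons (mv 975 (cons (fin 911 6 910)
(fin 1230 6 974)))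
(cons (mv 975 (cons (fin 911 6 910)
(mv 1167 (cons (fin 1231 4 974)
(mv 1168 (cons (fin 1169 3 1101)
(mv 1232 (cons (fin 1233 0 1165)
(fin 1103 4 975)))))))))
(mv 1230 (cons (fin 1294 7 1037)
(mv 1231 (cons (fin 1167 4 974)
(fin 1295 4 1038))))))))))
(mv 974 (cons (fin 910 5 909)
(mv 1035 (cons (fin 975 2 971)
(fin 1034 0 1034))))))))))))))))))
(mv 974 (cons (cons (mv 910 (cons (fin 846 5 845)
(mv 1165 (cons (fin 1102 5 909)
(fin 973 6 909)))))
(mv 1165 (cons (fin 1229 6 973)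
(mv 973 (cons (mv 972 (cons (fin 1039 3 972)
(fin 908 7 908)))
(cons (mv 1164 (cons (fin 1228 5 972)
(mv 1166 (cons (fin 1230 4 973)
(mv 909 (cons (fin 1102 7 909)
(mv 844 (cons (fin 908 7 844)
(mv 845 (cons (fin 780 7 780)
(fin 781 4 781)))))))))))
(mv 972 (cons (fin 1039 3 972)
(mv 970 (cons (fin 971 0 970)
(mv 1164 (cons (fin 1228 5 972)
(mv 1166 (cons (fin 1230 4 973)
(mv 1102 (cons (fin 909 7 909)
(mv 1163 (cons (fin 1162 2 1098)
(fin 1103 2 1099)))))))))))))))))))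
(cons (mv 910 (cons (fin 846 5 845)
(mv 1102 (cons (cons (mv 845 (cons (fin 909 7 845)
(mv 847 (cons (fin 911 6 846)
(mv 1167 (cons (fin 1103 4 910)
(mv 1166 (cons (fin 1231 4 974)
(mv 1230 (cons (fin 973 7 973)
(fin 1294 7 1037)))))))))))
(cons (mv 847 (cons (fin 911 6 846)
(mv 1167 (cons (fin 1103 4 910)
(mv 1166 (cons (fin 1231 4 974)
(mv 1230 (cons (fin 973 7 973)
(fin 1294 7 1037)))))))))
(mv 845 (cons (fin 909 7 845)
(mv 1167 (cons (fin 1103 4 910)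
(mv 1166 (cons (fin 1231 4 974)
(mv 1230 (cons (fin 973 7 973)
(fin 1294 7 1037)))))))))))
(cons (mv 845 (cons (fin 909 7 845)
(mv 911 (cons (fin 847 6 846)
(mv 1166 (cons (fin 975 6 910)
(mv 1230 (cons (fin 973 7 973)
(fin 1294 7 1037)))))))))
(cons (mv 847 (cons (fin 911 6 846)
(mv 909 (cons (fin 845 7 845)
(mv 1103 (cons (fin 1167 4 910)
(mv 1035 (cons (fin 1036 0 1035)
(mv 973 (cons (mv 844 (cons (fin 908 7 844)
(mv 972 (cons (fin 1039 3 972)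
(mv 971 (cons (fin 1034 1 970)
(fin 970 2 906)))))))
(cons (mv 908 (cons (fin 844 7 844)
(mv 907 (cons (fin 906 0 906)
(fin 975 0 907)))))
(mv 972 (cons (fin 1039 3 972)
(mv 971 (cons (fin 1034 1 970)
(fin 970 2 906))))))))))))))))
(mv 845 (cons (fin 909 7 845)
(mv 911 (cons (fin 847 6 846)
(mv 1166 (cons (fin 975 6 910)
(mv 1167 (cons (fin 1103 4 910)
(fin 1231 4 974)))))))))))))))
(cons (mv 910 (cons (fin 846 5 845)
(mv 1165 (cons (fin 1102 5 909)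
(fin 1229 6 973)))))
(mv 910 (cons (fin 846 5 845)
(mv 1165 (cons (fin 973 6 909)
(fin 1229 6 973))))))))))
(cons (mv 974 (cons (cons (mv 910 (cons (fin 846 5 845)
(mv 1165 (cons (fin 1102 5 909)
(fin 973 6 909)))))
(mv 910 (cons (fin 846 5 845)
(mv 1102 (cons (cons (mv 845 (cons (fin 909 7 845)
(mv 847 (cons (fin 911 6 846)
(mv 1167 (cons (fin 1103 4 910)
(mv 1166 (cons (fin 1231 4 974)
(mv 1230 (cons (fin 973 7 973)
(fin 1294 7 1037)))))))))))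
(cons (mv 847 (cons (fin 911 6 846)
(mv 1167 (cons (fin 1103 4 910)
(mv 1166 (cons (fin 1231 4 974)
(mv 1230 (cons (fin 973 7 973)
(fin 1294 7 1037)))))))))
(mv 845 (cons (fin 909 7 845)
(mv 1167 (cons (fin 1103 4 910)
(mv 1166 (cons (fin 1231 4 974)
(mv 1230 (cons (fin 973 7 973)
(fin 1294 7 1037)))))))))))
(cons (mv 845 (cons (fin 909 7 845)
(mv 911 (cons (fin 847 6 846)
(mv 1166 (cons (fin 975 6 910)
(mv 1230 (cons (fin 973 7 973)
(fin 1294 7 1037)))))))))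
(cons (mv 845 (cons (fin 909 7 845)
(mv 847 (cons (fin 911 6 846)
(mv 1103 (cons (fin 1167 4 910)
(mv 1100 (cons (mv 1035 (cons (fin 1036 3 1035)
(mv 1099 (cons (fin 1034 3 1034)
(fin 1098 2 1034)))))
(cons (mv 1099 (cons (fin 1098 2 1034)
(mv 1163 (cons (fin 1162 1 1098)
(fin 1164 1 1099)))))
(mv 1036 (cons (fin 1035 3 1035)
(mv 1164 (cons (fin 1163 1 1099)
(mv 1228 (cons (fin 973 6 972)
(fin 1292 6 1036))))))))))))))))
(mv 845 (cons (fin 909 7 845)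
(mv 911 (cons (fin 847 6 846)
(mv 1166 (cons (fin 975 6 910)
(mv 1167 (cons (fin 1103 4 910)
(fin 1231 4 974))))))))))))))))
(cons (mv 1165 (cons (fin 1229 6 973)
(mv 973 (cons (cons (mv 908 (cons (fin 972 7 908)
(mv 909 (cons (fin 844 7 844)
(mv 845 (cons (fin 781 4 781)
(fin 1102 4 845)))))))
(mv 1164 (cons (fin 1228 5 972)
(mv 909 (cons (fin 1100 5 908)
(mv 845 (cons (fin 781 4 781)
(fin 1102 4 845))))))))
(cons (mv 972 (cons (fin 908 7 908)
(mv 971 (cons (fin 970 0 970)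
(mv 906 (cons (fin 907 3 906)
(mv 1035 (cons (fin 1034 1 970)
(mv 975 (cons (fin 1036 1 971)
(mv 911 (cons (fin 912 2 908)
(mv 1166 (cons (fin 1102 6 910)
(fin 1230 4 973)))))))))))))))
(mv 908 (cons (fin 972 7 908)
(mv 909 (cons (fin 844 7 844)
(mv 1164 (cons (fin 1100 5 908)
(fin 1228 5 972))))))))))))
(cons (mv 910 (cons (fin 846 5 845)
(mv 1165 (cons (fin 1102 5 909)
(fin 1229 6 973)))))
(mv 910 (cons (fin 846 5 845)
(mv 1165 (cons (fin 973 6 909)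
(fin 1229 6 973)))))))))
(mv 1039 (cons (fin 1100 1 1036)
(mv 973 (cons (fin 972 3 972)
(mv 1165 (cons (cons (mv 1164 (cons (fin 1228 5 972)
(mv 1166 (cons (fin 1230 4 973)
(mv 909 (cons (fin 1102 4 909)
(mv 844 (cons (fin 908 7 844)
(mv 845 (cons (fin 780 7 780)
(mv 846 (cons (fin 782 6 781)
(fin 910 6 845)))))))))))))
(mv 1228 (cons (fin 1164 5 972)
(mv 1229 (cons (fin 1292 5 1036)
(mv 1293 (cons (fin 1102 6 1037)
(mv 1294 (cons (fin 1230 4 1037)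
(fin 1358 4 1101))))))))))
(cons (mv 1228 (cons (fin 1164 5 972)
(mv 1229 (cons (fin 1292 5 1036)
(mv 1102 (cons (fin 1293 6 1037)
(mv 909 (cons (fin 845 4 845)
(fin 1166 4 909)))))))))
(cons (mv 1166 (cons (fin 1230 4 973)
(mv 909 (cons (fin 1102 4 909)
(mv 844 (cons (fin 908 7 844)
(mv 845 (cons (fin 780 7 780)
(mv 846 (cons (fin 782 6 781)
(fin 910 6 845)))))))))))
(mv 1228 (cons (fin 1164 5 972)
(mv 1229 (cons (fin 1292 5 1036)
(mv 1230 (cons (fin 1166 4 973)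
(fin 1294 4 1037)))))))))))))))))
(cons (cons (mv 1100 (cons (fin 1039 1 1036)
(mv 1099 (cons (fin 1098 2 1034)
(mv 1102 (cons (cons (mv 1034 (cons (fin 1035 3 1034)
(mv 1162 (cons (fin 1163 1 1098)
(mv 1166 (cons (fin 1167 0 1099)
(mv 1230 (cons (fin 1294 7 1037)
(mv 1229 (cons (fin 1293 5 1037)
(mv 974 (cons (fin 1165 5 973)
(mv 910 (cons (fin 846 5 845)
(mv 911 (cons (fin 847 6 846)
(fin 975 6 910)))))))))))))))))
(mv 1162 (cons (fin 1163 1 1098)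
(mv 1166 (cons (fin 1167 0 1099)
(mv 1230 (cons (fin 1294 7 1037)
(mv 1229 (cons (fin 1293 5 1037)
(mv 974 (cons (fin 1165 5 973)
(mv 910 (cons (fin 846 5 845)
(mv 911 (cons (fin 847 6 846)
(fin 975 6 910))))))))))))))))
(cons (mv 1035 (cons (fin 1034 3 1034)
(mv 1036 (cons (fin 1103 3 1035)
(mv 970 (cons (fin 971 3 970)
(mv 974 (cons (fin 975 2 971)
(mv 910 (cons (fin 846 5 845)
(fin 1165 5 909)))))))))))
(mv 1034 (cons (fin 1035 3 1034)
(mv 1163 (cons (fin 1162 1 1098)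
(mv 1103 (cons (fin 1164 1 1099)
(mv 1167 (cons (fin 1166 0 1099)
(fin 1168 0 1100))))))))))))))))
(mv 1039 (cons (fin 1100 1 1036)
(mv 1036 (cons (cons (mv 972 (cons (fin 971 3 971)
(fin 973 3 972)))
(mv 1035 (cons (mv 1102 (cons (fin 1034 0 1034)
(fin 1103 0 1035)))
(cons (mv 970 (cons (fin 971 3 970)
(mv 974 (cons (fin 975 2 971)
(mv 1034 (cons (fin 969 3 969)
(fin 973 2 970)))))))
(mv 970 (cons (fin 971 3 970)
(mv 974 (cons (fin 975 2 971)
(mv 910 (cons (fin 846 5 845)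
(mv 1098 (cons (fin 1099 1 1034)
(mv 1102 (cons (fin 1103 0 1035)
(mv 847 (cons (fin 911 6 846)
(mv 909 (cons (fin 845 7 845)
(mv 1166 (cons (fin 973 7 909)
(mv 1230 (cons (fin 1294 7 1037)
(mv 1231 (cons (fin 1167 4 974)
(fin 1295 4 1038)))))))))))))))))))))))))
(cons (mv 973 (cons (fin 972 3 972)
(mv 1102 (cons (mv 909 (cons (fin 845 4 845)
(fin 1166 4 909)))
(mv 1035 (cons (fin 1034 0 1034)
(fin 1103 0 1035)))))))
(mv 971 (cons (fin 972 3 971)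
(mv 1035 (cons (fin 970 3 970)
(mv 1102 (cons (fin 1034 0 1034)
(fin 1103 0 1035)))))))))))))
(cons (mv 1039 (cons (fin 1100 1 1036)
(mv 973 (cons (fin 972 3 972)
(mv 909 (cons (mv 1102 (cons (fin 845 4 845)
(fin 1166 4 909)))
(cons (mv 844 (cons (fin 908 7 844)
(mv 845 (cons (fin 780 7 780)
(mv 781 (cons (fin 974 4 781)
(mv 782 (cons (fin 718 6 717)
(fin 846 6 781)))))))))
(mv 844 (cons (fin 908 7 844)
(mv 1166 (cons (fin 1102 4 909)
(mv 1165 (cons (fin 1230 4 973)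
(mv 1228 (cons (fin 1164 5 972)
(mv 1229 (cons (fin 1292 5 1036)
(fin 974 6 973))))))))))))))))))
(cons (mv 1039 (cons (fin 1100 1 1036)
(mv 973 (cons (fin 972 3 972)
(mv 1165 (cons (mv 974 (cons (fin 910 6 909)
(fin 1229 6 973)))
(cons (mv 1228 (cons (fin 1164 5 972)
(mv 1229 (cons (fin 1292 5 1036)
(mv 1230 (cons (fin 1166 4 973)
(fin 1294 4 1037)))))))
(mv 1164 (cons (fin 1228 5 972)
(mv 1166 (cons (fin 1230 4 973)
(mv 909 (cons (cons (mv 910 (cons (fin 846 6 845)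
(fin 974 6 909)))
(mv 844 (cons (fin 908 7 844)
(mv 845 (cons (fin 780 7 780)
(mv 781 (cons (fin 974 4 781)
(mv 782 (cons (fin 718 6 717)
(fin 846 6 781))))))))))
(cons (mv 844 (cons (fin 908 7 844)
(mv 845 (cons (fin 780 7 780)
(mv 846 (cons (fin 782 6 781)
(fin 910 6 845)))))))
(mv 844 (cons (fin 908 7 844)
(mv 845 (cons (fin 780 7 780)
(mv 974 (cons (fin 910 6 909)
(fin 781 4 781)))))))))))))))))))))
(mv 1039 (cons (fin 1100 1 1036)
(mv 972 (cons (fin 973 3 972)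
(mv 1036 (cons (fin 971 3 971)
(mv 844 (cons (fin 908 4 844)
(mv 1165 (cons (fin 1229 7 972)
(mv 974 (cons (mv 910 (cons (fin 846 5 845)
(fin 1102 5 909)))
(cons (mv 1035 (cons (fin 975 2 971)
(mv 1102 (cons (fin 1034 0 1034)
(fin 1103 0 1035)))))
(mv 846 (cons (fin 910 5 845)
(mv 975 (cons (fin 1035 2 971)
(mv 847 (cons (cons (mv 911 (cons (fin 782 7 782)
(fin 783 5 782)))
(mv 845 (cons (cons (mv 779 (cons (fin 780 3 779)
(mv 783 (cons (fin 784 2 780)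
(mv 843 (cons (fin 778 3 778)
(fin 782 2 779)))))))
(mv 783 (cons (fin 784 2 780)
(mv 843 (cons (fin 782 2 779)
(mv 778 (cons (fin 779 3 778)
(mv 842 (cons (fin 777 3 777)
(mv 906 (cons (fin 905 1 841)
(fin 907 1 842))))))))))))
(cons (mv 780 (cons (fin 779 3 779)
(mv 848 (cons (fin 781 3 780)
(mv 785 (cons (fin 784 2 781)
(mv 849 (cons (fin 786 2 782)
(mv 913 (cons (fin 912 0 845)
(fin 914 0 846)))))))))))
(cons (mv 784 (cons (fin 783 2 780)
(mv 848 (cons (fin 785 2 781)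
(mv 781 (cons (fin 780 3 780)
(mv 849 (cons (fin 782 3 781)
(mv 913 (cons (fin 912 0 845)
(fin 914 0 846)))))))))))
(mv 779 (cons (fin 780 3 779)
(mv 843 (cons (fin 778 3 778)
(mv 782 (cons (fin 783 2 779)
(mv 842 (cons (fin 781 2 778)
(mv 906 (cons (fin 905 1 841)
(fin 907 1 842))))))))))))))))
(cons (mv 911 (cons (fin 782 7 782)
(mv 845 (cons (fin 912 0 844)
(mv 780 (cons (fin 779 3 779)
(mv 848 (cons (fin 781 3 780)
(fin 784 6 783)))))))))
(mv 911 (cons (fin 783 5 782)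
(mv 845 (cons (fin 912 0 844)
(mv 780 (cons (fin 779 3 779)
(mv 848 (cons (fin 781 3 780)
(fin 784 6 783))))))))))))))))))))))))))))))))))))
(cons (mv 1038 (cons (cons (cons (mv 1039 (cons (fin 1100 1 1036)
(mv 972 (cons (fin 973 3 972)
(mv 1036 (cons (fin 971 3 971)
(mv 844 (cons (fin 908 4 844)
(mv 1104 (cons (fin 1105 0 1037)
(mv 1165 (cons (fin 1229 7 972)
(mv 974 (cons (mv 910 (cons (fin 846 5 845)
(fin 1102 5 909)))
(cons (mv 1035 (cons (fin 975 2 971)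
(mv 1034 (cons (fin 1102 0 1034)
(mv 1098 (cons (fin 1097 1 1033)
(fin 1099 1 1034)))))))
(mv 846 (cons (fin 910 5 845)
(mv 975 (cons (fin 1035 2 971)
(mv 847 (cons (fin 911 4 847)
(mv 845 (cons (cons (mv 779 (cons (fin 780 3 779)
(mv 783 (cons (fin 784 2 780)
(mv 843 (cons (fin 778 3 778)
(fin 782 2 779)))))))
(mv 783 (cons (fin 784 2 780)
(mv 843 (cons (fin 782 2 779)
(mv 778 (cons (fin 779 3 778)
(mv 842 (cons (fin 777 3 777)
(mv 906 (cons (fin 905 1 841)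
(fin 907 1 842))))))))))))
(cons (mv 780 (cons (fin 779 3 779)
(mv 848 (cons (fin 781 3 780)
(mv 785 (cons (fin 784 2 781)
(mv 849 (cons (fin 786 2 782)
(mv 913 (cons (fin 912 0 845)
(fin 914 0 846)))))))))))
(cons (mv 784 (cons (fin 783 2 780)
(mv 848 (cons (fin 785 2 781)
(mv 781 (cons (fin 780 3 780)
(mv 849 (cons (fin 782 3 781)
(mv 913 (cons (fin 912 0 845)
(fin 914 0 846)))))))))))
(mv 779 (cons (fin 780 3 779)
(mv 843 (cons (fin 778 3 778)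
(mv 782 (cons (fin 783 2 779)
(mv 842 (cons (fin 781 2 778)
(mv 906 (cons (fin 905 1 841)
(fin 907 1 842))))))))))))))))))))))))))))))))))))
(mv 974 (cons (cons (mv 910 (cons (fin 846 5 845)
(mv 1165 (cons (fin 1102 5 909)
(fin 973 6 909)))))
(mv 910 (cons (fin 846 5 845)
(mv 1102 (cons (cons (mv 845 (cons (fin 909 7 845)
(mv 911 (cons (fin 847 6 846)
(mv 1166 (cons (fin 975 6 910)
(mv 1230 (cons (fin 973 7 973)
(fin 1294 7 1037)))))))))
(cons (mv 911 (cons (fin 847 6 846)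
(mv 1166 (cons (fin 975 6 910)
(mv 1230 (cons (fin 973 7 973)
(fin 1294 7 1037)))))))
(mv 909 (cons (fin 845 7 845)
(mv 973 (cons (fin 1166 7 909)
(mv 844 (cons (fin 908 7 844)
(mv 1100 (cons (fin 1164 5 908)
(mv 1099 (cons (fin 1098 2 1034)
(mv 1035 (cons (fin 1034 3 1034)
(mv 1036 (cons (fin 975 2 971)
(mv 970 (cons (fin 971 3 970)
(mv 1163 (cons (fin 1162 1 1098)
(mv 1227 (cons (fin 972 6 971)
(fin 1291 6 1035)))))))))))))))))))))))
(cons (mv 847 (cons (fin 911 6 846)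
(mv 909 (cons (fin 845 7 845)
(mv 973 (cons (cons (mv 844 (cons (fin 908 7 844)
(mv 1100 (cons (fin 1164 5 908)
(mv 1099 (cons (fin 1098 2 1034)
(mv 1035 (cons (fin 1034 3 1034)
(mv 1036 (cons (fin 975 2 971)
(mv 970 (cons (fin 971 3 970)
(mv 1163 (cons (fin 1162 1 1098)
(mv 1227 (cons (fin 972 6 971)
(fin 1291 6 1035)))))))))))))))))
(mv 1100 (cons (fin 1164 5 908)
(mv 1099 (cons (fin 1098 2 1034)
(mv 1035 (cons (fin 1034 3 1034)
(mv 1036 (cons (fin 975 2 971)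
(mv 970 (cons (fin 971 3 970)
(mv 1163 (cons (fin 1162 1 1098)
(mv 1227 (cons (fin 972 6 971)
(fin 1291 6 1035))))))))))))))))
(cons (mv 908 (cons (fin 844 7 844)
(mv 907 (cons (fin 906 0 906)
(fin 975 0 907)))))
(mv 908 (cons (fin 844 7 844)
(mv 906 (cons (fin 907 0 906)
(mv 1100 (cons (fin 1164 5 908)
(mv 1099 (cons (fin 1098 2 1034)
(mv 1035 (cons (fin 1034 3 1034)
(mv 1163 (cons (fin 1162 1 1098)
(mv 971 (cons (fin 970 7 906)
(fin 972 6 907))))))))))))))))))))))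
(cons (mv 845 (cons (fin 909 7 845)
(mv 911 (cons (fin 847 6 846)
(mv 1166 (cons (fin 975 6 910)
(mv 1230 (cons (fin 1294 7 1037)
(mv 1231 (cons (fin 1167 4 974)
(fin 1295 4 1038)))))))))))
(mv 847 (cons (fin 911 6 846)
(mv 909 (cons (fin 845 7 845)
(mv 973 (cons (fin 1166 7 909)
(mv 908 (cons (fin 844 7 844)
(mv 906 (cons (fin 907 0 906)
(mv 1100 (cons (fin 1164 5 908)
(mv 1099 (cons (fin 1098 2 1034)
(mv 1035 (cons (fin 1034 3 1034)
(mv 1163 (cons (fin 1162 1 1098)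
(mv 971 (cons (fin 970 7 906)
(fin 972 6 907))))))))))))))))))))))))))))
(cons (mv 1165 (cons (fin 1229 6 973)
(mv 973 (cons (cons (mv 908 (cons (fin 972 7 908)
(mv 909 (cons (fin 844 7 844)
(mv 845 (cons (fin 781 4 781)
(fin 1102 4 845)))))))
(mv 1164 (cons (fin 1228 5 972)
(mv 909 (cons (fin 1100 5 908)
(mv 845 (cons (fin 781 4 781)
(fin 1102 4 845))))))))
(cons (mv 972 (cons (fin 908 7 908)
(mv 971 (cons (fin 970 0 970)
(mv 906 (cons (fin 907 3 906)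
(mv 1035 (cons (fin 1034 1 970)
(mv 975 (cons (fin 1036 1 971)
(mv 911 (cons (fin 912 2 908)
(mv 1166 (cons (fin 1102 6 910)
(fin 1230 4 973)))))))))))))))
(mv 908 (cons (fin 972 7 908)
(mv 909 (cons (fin 844 7 844)
(mv 1164 (cons (fin 1100 5 908)
(fin 1228 5 972))))))))))))
(cons (mv 910 (cons (fin 846 5 845)
(mv 1165 (cons (fin 1102 5 909)
(fin 1229 6 973)))))
(mv 910 (cons (fin 846 5 845)
(mv 1165 (cons (fin 973 6 909)
(fin 1229 6 973))))))))))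
(cons (mv 974 (cons (cons (mv 910 (cons (fin 846 5 845)
(mv 1165 (cons (fin 1102 5 909)
(fin 973 6 909)))))
(mv 910 (cons (fin 846 5 845)
(mv 1102 (cons (cons (mv 845 (cons (fin 909 7 845)
(mv 911 (cons (fin 847 6 846)
(mv 1166 (cons (fin 975 6 910)
(mv 1230 (cons (fin 973 7 973)
(fin 1294 7 1037)))))))))
(cons (mv 911 (cons (fin 847 6 846)
(mv 1166 (cons (fin 975 6 910)
(mv 1230 (cons (fin 973 7 973)
(fin 1294 7 1037)))))))
(mv 909 (cons (fin 845 7 845)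
(mv 973 (cons (fin 1166 7 909)
(mv 844 (cons (fin 908 7 844)
(mv 972 (cons (fin 1039 3 972)
(mv 971 (cons (fin 970 2 906)
(mv 907 (cons (fin 906 3 906)
(mv 1035 (cons (fin 1034 1 970)
(mv 843 (cons (fin 780 6 779)
(mv 1036 (cons (fin 975 1 971)
(fin 779 4 779)))))))))))))))))))))
(cons (mv 847 (cons (fin 911 6 846)
(mv 909 (cons (fin 845 7 845)
(mv 908 (cons (cons (mv 844 (cons (fin 973 7 844)
(mv 907 (cons (fin 975 0 907)
(mv 842 (cons (fin 843 3 842)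
(mv 841 (cons (fin 906 3 841)
(mv 971 (cons (fin 970 1 906)
(mv 716 (cons (fin 780 5 715)
(mv 1035 (cons (fin 1099 6 843)
(mv 1036 (cons (fin 1034 0 1034)
(fin 972 4 844)))))))))))))))))
(mv 844 (cons (fin 973 7 844)
(mv 1036 (cons (fin 972 4 844)
(mv 1035 (cons (fin 975 2 971)
(fin 1034 0 1034))))))))
(cons (mv 907 (cons (fin 975 0 907)
(mv 842 (cons (fin 843 3 842)
(mv 906 (cons (fin 841 3 841)
(mv 970 (cons (fin 969 1 905)
(fin 971 1 906)))))))))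
(mv 844 (cons (fin 973 7 844)
(mv 1036 (cons (fin 972 4 844)
(mv 1035 (cons (fin 1034 0 1034)
(mv 971 (cons (fin 970 3 970)
(mv 1099 (cons (fin 1098 1 1034)
(fin 907 6 843))))))))))))))))))
(cons (mv 845 (cons (fin 909 7 845)
(mv 911 (cons (fin 847 6 846)
(mv 1166 (cons (fin 975 6 910)
(mv 1230 (cons (fin 1294 7 1037)
(mv 1231 (cons (fin 1167 4 974)
(fin 1295 4 1038)))))))))))
(mv 847 (cons (fin 911 6 846)
(mv 909 (cons (fin 845 7 845)
(mv 973 (cons (fin 1166 7 909)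
(mv 844 (cons (fin 908 7 844)
(mv 972 (cons (fin 1039 3 972)
(mv 971 (cons (fin 970 2 906)
(mv 907 (cons (fin 906 3 906)
(mv 1035 (cons (fin 1034 1 970)
(mv 843 (cons (fin 780 6 779)
(mv 778 (cons (fin 842 7 778)
(mv 779 (cons (fin 714 7 714)
(fin 1036 4 779))))))))))))))))))))))))))))))
(cons (mv 1165 (cons (fin 1229 6 973)
(mv 973 (cons (mv 972 (cons (fin 1039 3 972)
(fin 908 7 908)))
(cons (mv 1164 (cons (fin 1228 5 972)
(mv 1166 (cons (fin 1230 4 973)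
(mv 909 (cons (fin 1102 7 909)
(mv 844 (cons (fin 908 7 844)
(mv 845 (cons (fin 780 7 780)
(fin 781 4 781)))))))))))
(mv 972 (cons (fin 1039 3 972)
(mv 970 (cons (fin 971 0 970)
(mv 1164 (cons (fin 1228 5 972)
(mv 1166 (cons (fin 1230 4 973)
(mv 1102 (cons (fin 909 7 909)
(mv 911 (cons (fin 975 6 910)
(mv 1163 (cons (fin 1162 2 1098)
(mv 1099 (cons (fin 1098 3 1098)
(mv 1167 (cons (fin 1231 4 974)
(mv 1168 (cons (fin 1169 3 1101)
(mv 1104 (cons (fin 1105 2 1101)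
(mv 1227 (cons (fin 1226 1 1162)
(mv 1035 (cons (fin 1034 7 970)
(fin 1036 6 971))))))))))))))))))))))))))))))))
(cons (mv 910 (cons (fin 846 5 845)
(mv 1165 (cons (fin 1102 5 909)
(fin 1229 6 973)))))
(mv 910 (cons (fin 846 5 845)
(mv 1165 (cons (fin 973 6 909)
(fin 1229 6 973)))))))))
(mv 1039 (cons (fin 1100 1 1036)
(mv 973 (cons (fin 972 3 972)
(mv 1104 (cons (fin 1105 0 1037)
(mv 909 (cons (mv 1102 (cons (fin 845 4 845)
(fin 1166 4 909)))
(cons (mv 844 (cons (fin 908 7 844)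
(mv 845 (cons (fin 780 7 780)
(mv 846 (cons (fin 782 6 781)
(fin 910 6 845)))))))
(mv 844 (cons (fin 908 7 844)
(mv 846 (cons (fin 910 6 845)
(mv 1166 (cons (fin 1102 4 909)
(mv 1165 (cons (fin 1230 4 973)
(mv 1228 (cons (fin 1164 5 972)
(mv 1229 (cons (fin 1292 5 1036)
(mv 1168 (cons (fin 1167 1 1164)
(mv 1226 (cons (fin 1227 2 1162)
(mv 1232 (cons (fin 975 7 975)
(mv 1295 (cons (fin 1231 5 1039)
(mv 1296 (cons (fin 1359 5 1103)
(mv 1297 (cons (fin 1233 4 1040)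
(fin 1361 4 1104))))))))))))))))))))))))))))))))))))
(cons (cons (mv 1100 (cons (fin 1039 1 1036)
(mv 1099 (cons (fin 1098 2 1034)
(mv 1102 (cons (cons (mv 1034 (cons (fin 1035 3 1034)
(mv 1162 (cons (fin 1163 1 1098)
(mv 1166 (cons (fin 1167 0 1099)
(mv 1230 (cons (fin 1294 7 1037)
(mv 1229 (cons (fin 1293 5 1037)
(mv 974 (cons (fin 1165 5 973)
(mv 910 (cons (fin 846 5 845)
(mv 911 (cons (fin 847 6 846)
(fin 975 6 910)))))))))))))))))
(mv 1035 (cons (fin 1034 3 1034)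
(mv 1162 (cons (fin 1163 1 1098)
(mv 974 (cons (mv 910 (cons (fin 846 5 845)
(fin 1165 5 909)))
(mv 1036 (cons (fin 975 2 971)
(mv 971 (cons (fin 970 3 970)
(mv 907 (cons (fin 843 4 843)
(fin 1164 4 907))))))))))))))
(cons (mv 1162 (cons (fin 1163 1 1098)
(mv 1166 (cons (fin 1167 0 1099)
(mv 1230 (cons (fin 1294 7 1037)
(mv 1229 (cons (fin 1293 5 1037)
(mv 974 (cons (fin 1165 5 973)
(mv 910 (cons (fin 846 5 845)
(mv 911 (cons (fin 847 6 846)
(fin 975 6 910)))))))))))))))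
(cons (mv 1034 (cons (fin 1035 3 1034)
(mv 1166 (cons (fin 1167 0 1099)
(mv 1230 (cons (fin 1294 7 1037)
(mv 1229 (cons (fin 1293 5 1037)
(mv 974 (cons (fin 1165 5 973)
(mv 910 (cons (fin 846 5 845)
(mv 911 (cons (fin 847 6 846)
(fin 975 6 910)))))))))))))))
(mv 1034 (cons (fin 1035 3 1034)
(mv 1163 (cons (fin 1162 1 1098)
(mv 1166 (cons (fin 1167 0 1099)
(mv 1230 (cons (fin 1294 7 1037)
(mv 1229 (cons (fin 1293 5 1037)
(mv 1231 (cons (fin 1295 4 1038)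
(mv 1228 (cons (fin 1164 3 1163)
(mv 1291 (cons (fin 1292 1 1227)
(mv 1227 (cons (fin 1290 1 1226)
(fin 1036 6 1035)))))))))))))))))))))))))))
(mv 1039 (cons (fin 1100 1 1036)
(mv 1104 (cons (fin 1105 0 1037)
(mv 1036 (cons (cons (mv 972 (cons (fin 971 3 971)
(fin 973 3 972)))
(mv 1035 (cons (cons (mv 970 (cons (fin 971 3 970)
(mv 1034 (cons (fin 969 3 969)
(fin 1102 0 1034)))))
(mv 971 (cons (fin 970 3 970)
(mv 1099 (cons (fin 1098 1 1034)
(mv 907 (cons (cons (mv 842 (cons (fin 906 7 842)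
(mv 843 (cons (fin 778 7 778)
(mv 844 (cons (fin 780 6 779)
(fin 908 6 843)))))))
(cons (mv 842 (cons (fin 906 7 842)
(mv 843 (cons (fin 778 7 778)
(mv 974 (cons (fin 975 2 971)
(mv 910 (cons (fin 846 5 845)
(mv 909 (cons (fin 908 3 842)
(mv 845 (cons (fin 1102 7 845)
(mv 781 (cons (fin 717 4 717)
(fin 973 4 781)))))))))))))))
(mv 844 (cons (fin 908 6 843)
(mv 843 (cons (fin 780 6 779)
(mv 846 (cons (cons (mv 974 (cons (fin 975 2 971)
(fin 910 5 845)))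
(mv 845 (cons (fin 906 1 842)
(mv 778 (cons (fin 779 3 778)
(mv 782 (cons (fin 783 2 779)
(mv 909 (cons (fin 973 6 781)
(mv 911 (cons (fin 910 0 843)
(mv 847 (cons (fin 912 0 844)
(fin 975 7 782))))))))))))))
(cons (mv 845 (cons (fin 906 1 842)
(mv 778 (cons (fin 779 3 778)
(mv 783 (cons (fin 782 2 779)
(mv 847 (cons (fin 784 2 780)
(mv 911 (cons (fin 912 0 844)
(fin 975 4 847)))))))))))
(mv 845 (cons (fin 906 1 842)
(mv 910 (cons (fin 911 0 843)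
(fin 974 5 845))))))))))))))
(cons (mv 974 (cons (fin 975 2 971)
(mv 846 (cons (fin 910 5 845)
(mv 843 (cons (mv 842 (cons (fin 778 7 778)
(fin 906 7 842)))
(cons (mv 780 (cons (fin 844 6 779)
(mv 779 (cons (fin 716 6 715)
(mv 778 (cons (fin 714 7 714)
(mv 781 (cons (fin 845 0 778)
(mv 718 (cons (fin 717 2 714)
(mv 782 (cons (fin 719 2 715)
(fin 847 0 779)))))))))))))
(mv 844 (cons (fin 780 6 779)
(mv 906 (cons (fin 845 1 842)
(fin 842 7 842))))))))))))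
(cons (mv 844 (cons (fin 908 6 843)
(mv 843 (cons (fin 780 6 779)
(mv 778 (cons (fin 842 7 778)
(mv 779 (cons (fin 714 7 714)
(mv 776 (cons (fin 777 0 776)
(mv 846 (cons (fin 845 3 778)
(mv 974 (cons (fin 975 2 971)
(fin 910 5 845)))))))))))))))
(mv 906 (cons (fin 842 7 842)
(mv 908 (cons (fin 844 6 843)
(mv 974 (cons (fin 975 2 971)
(mv 846 (cons (fin 910 5 845)
(mv 909 (cons (fin 845 2 842)
(fin 973 0 906))))))))))))))))))))
(cons (mv 974 (cons (fin 975 2 971)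
(mv 1034 (cons (fin 973 2 970)
(fin 1102 0 1034)))))
(mv 970 (cons (fin 971 3 970)
(mv 974 (cons (fin 975 2 971)
(mv 1034 (cons (fin 969 3 969)
(fin 973 2 970)))))))))))
(cons (mv 846 (cons (cons (mv 910 (cons (fin 974 5 845)
(mv 973 (cons (fin 972 3 972)
(fin 909 6 845)))))
(mv 974 (cons (fin 910 5 845)
(mv 1035 (cons (fin 975 2 971)
(mv 1034 (cons (fin 1102 0 1034)
(mv 1098 (cons (fin 1097 1 1033)
(fin 1099 1 1034))))))))))
(cons (mv 973 (cons (fin 972 3 972)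
(mv 909 (cons (fin 910 6 845)
(mv 845 (cons (fin 782 6 781)
(fin 1102 4 845)))))))
(mv 972 (cons (fin 973 3 972)
(mv 844 (cons (fin 908 4 844)
(mv 975 (cons (mv 847 (cons (fin 911 4 847)
(mv 1035 (cons (fin 974 2 971)
(mv 1034 (cons (fin 1102 0 1034)
(mv 1098 (cons (fin 1097 1 1033)
(fin 1099 1 1034)))))))))
(cons (mv 1035 (cons (fin 974 2 971)
(mv 1034 (cons (fin 1102 0 1034)
(mv 1098 (cons (fin 1097 1 1033)
(fin 1099 1 1034)))))))
(mv 847 (cons (fin 911 4 847)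
(mv 1168 (cons (fin 1232 7 975)
(mv 845 (cons (cons (mv 779 (cons (fin 780 3 779)
(mv 783 (cons (fin 784 2 780)
(mv 843 (cons (fin 778 3 778)
(fin 782 2 779)))))))
(mv 783 (cons (fin 784 2 780)
(mv 843 (cons (fin 782 2 779)
(mv 778 (cons (fin 779 3 778)
(mv 842 (cons (fin 777 3 777)
(mv 906 (cons (fin 905 1 841)
(fin 907 1 842))))))))))))
(cons (mv 780 (cons (fin 779 3 779)
(mv 848 (cons (fin 781 3 780)
(mv 785 (cons (fin 784 2 781)
(mv 849 (cons (fin 786 2 782)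
(mv 913 (cons (fin 912 0 845)
(fin 914 0 846)))))))))))
(cons (mv 784 (cons (fin 783 2 780)
(mv 848 (cons (fin 785 2 781)
(mv 781 (cons (fin 780 3 780)
(mv 849 (cons (fin 782 3 781)
(mv 913 (cons (fin 912 0 845)
(fin 914 0 846)))))))))))
(mv 779 (cons (fin 780 3 779)
(mv 843 (cons (fin 778 3 778)
(mv 782 (cons (fin 783 2 779)
(mv 842 (cons (fin 781 2 778)
(mv 906 (cons (fin 905 1 841)
(fin 907 1 842)))))))))))))))))))))))))))))
(mv 971 (cons (fin 972 3 971)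
(mv 1035 (cons (fin 970 3 970)
(mv 974 (cons (fin 975 2 971)
(mv 846 (cons (fin 910 5 845)
(mv 1034 (cons (fin 1102 0 1034)
(mv 1098 (cons (fin 1097 1 1033)
(fin 1099 1 1034)))))))))))))))))))))
(cons (mv 1039 (cons (fin 1100 1 1036)
(mv 973 (cons (fin 972 3 972)
(mv 1104 (cons (fin 1105 0 1037)
(mv 909 (cons (mv 1102 (cons (fin 845 4 845)
(fin 1166 4 909)))
(cons (mv 844 (cons (fin 908 7 844)
(mv 845 (cons (fin 780 7 780)
(mv 781 (cons (fin 974 4 781)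
(mv 782 (cons (fin 718 6 717)
(fin 846 6 781)))))))))
(mv 844 (cons (fin 908 7 844)
(mv 1166 (cons (fin 1102 4 909)
(mv 1165 (cons (fin 1230 4 973)
(mv 1228 (cons (fin 1164 5 972)
(mv 1229 (cons (fin 1292 5 1036)
(fin 974 6 973))))))))))))))))))))
(cons (mv 1039 (cons (fin 1100 1 1036)
(mv 972 (cons (fin 973 3 972)
(mv 1036 (cons (fin 971 3 971)
(mv 844 (cons (fin 908 4 844)
(mv 1102 (cons (cons (mv 1035 (cons (fin 1034 0 1034)
(mv 974 (cons (fin 975 2 971)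
(mv 1165 (cons (fin 1229 7 972)
(fin 910 5 909)))))))
(cons (mv 1035 (cons (fin 1034 0 1034)
(mv 1098 (cons (fin 1099 1 1034)
(mv 1104 (cons (fin 1105 0 1037)
(mv 1166 (cons (cons (mv 975 (cons (fin 974 2 971)
(fin 1230 6 974)))
(mv 1230 (cons (fin 1294 7 1037)
(mv 1229 (cons (fin 1293 5 1037)
(mv 1231 (cons (fin 1295 4 1038)
(mv 1167 (cons (fin 974 4 974)
(mv 1168 (cons (fin 1169 3 1101)
(fin 1228 2 1164))))))))))))
(cons (mv 1168 (cons (cons (mv 975 (cons (fin 974 2 971)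
(fin 1232 7 975)))
(mv 1167 (cons (fin 1169 3 1101)
(mv 1231 (cons (fin 974 4 974)
(mv 1295 (cons (fin 1359 7 1102)
(fin 1232 5 1039))))))))
(cons (mv 974 (cons (fin 975 2 971)
(mv 1167 (cons (fin 1169 3 1101)
(fin 1231 4 974)))))
(mv 1167 (cons (fin 1169 3 1101)
(mv 1232 (cons (fin 975 7 975)
(mv 1231 (cons (fin 1295 5 1039)
(mv 1233 (cons (fin 1234 3 1166)
(fin 1297 4 1040))))))))))))
(mv 1230 (cons (fin 1294 7 1037)
(fin 975 6 974))))))))))))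
(mv 1035 (cons (fin 1034 0 1034)
(mv 1099 (cons (fin 1098 1 1034)
(mv 1104 (cons (fin 1105 0 1037)
(mv 1163 (cons (fin 1227 6 971)
(mv 1166 (cons (cons (mv 975 (cons (fin 974 2 971)
(fin 1230 6 974)))
(mv 1230 (cons (fin 1294 7 1037)
(mv 1231 (cons (fin 1295 4 1038)
(mv 974 (cons (fin 1167 4 974)
(mv 1165 (cons (fin 1164 0 1163)
(fin 910 5 909))))))))))
(cons (mv 1168 (cons (cons (mv 975 (cons (fin 974 2 971)
(fin 1232 7 975)))
(mv 1167 (cons (fin 1169 3 1101)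
(mv 1231 (cons (fin 974 4 974)
(mv 1295 (cons (fin 1359 7 1102)
(fin 1232 5 1039))))))))
(cons (mv 1167 (cons (fin 1169 3 1101)
(mv 1232 (cons (fin 975 7 975)
(mv 1233 (cons (fin 1165 0 1165)
(fin 1297 4 1040)))))))
(mv 974 (cons (fin 975 2 971)
(mv 1167 (cons (fin 1169 3 1101)
(fin 1231 4 974))))))))
(mv 1230 (cons (fin 1294 7 1037)
(fin 975 6 974))))))))))))))))
(cons (mv 1104 (cons (fin 1105 0 1037)
(mv 1165 (cons (fin 1229 7 972)
(mv 974 (cons (fin 910 5 909)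
(mv 1166 (cons (mv 975 (cons (fin 911 6 910)
(fin 1230 6 974)))
(cons (mv 1230 (cons (fin 1294 7 1037)
(mv 1231 (cons (fin 1167 4 974)
(fin 1295 4 1038)))))
(mv 975 (cons (fin 911 6 910)
(mv 1167 (cons (fin 1231 4 974)
(mv 1168 (cons (fin 1169 3 1101)
(fin 1232 7 975))))))))))))))))
(cons (mv 1035 (cons (fin 1034 0 1034)
(mv 1099 (cons (fin 1098 1 1034)
(mv 1104 (cons (fin 1105 0 1037)
(mv 1227 (cons (fin 1163 6 971)
(mv 1229 (cons (fin 1165 7 972)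
(mv 1230 (cons (cons (mv 1166 (cons (fin 1294 7 1037)
(fin 1293 5 1037)))
(mv 1228 (cons (mv 1290 (cons (fin 1291 1 1226)
(mv 1226 (cons (fin 1289 1 1225)
(mv 1294 (cons (fin 1293 0 1226)
(fin 1295 0 1227)))))))
(cons (mv 1295 (cons (fin 1294 0 1227)
(mv 1231 (cons (fin 1296 0 1228)
(mv 1168 (cons (fin 1167 2 1164)
(fin 1232 5 1039)))))))
(mv 1291 (cons (fin 1290 1 1226)
(mv 1231 (cons (fin 1292 1 1227)
(mv 1168 (cons (fin 1167 2 1164)
(mv 1232 (cons (fin 1169 2 1165)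
(fin 975 7 975)))))))))))))
(cons (mv 1166 (cons (fin 1293 5 1037)
(fin 975 6 974)))
(mv 1166 (cons (fin 1294 7 1037)
(fin 975 6 974))))))))))))))))
(mv 1035 (cons (fin 1034 0 1034)
(mv 1099 (cons (fin 1098 1 1034)
(mv 1227 (cons (fin 1163 6 971)
(mv 1229 (cons (fin 1165 7 972)
(mv 1230 (cons (cons (mv 1166 (cons (fin 1294 7 1037)
(fin 1293 5 1037)))
(mv 1228 (cons (cons (mv 1104 (cons (fin 1105 0 1037)
(mv 1290 (cons (fin 1291 1 1226)
(mv 1226 (cons (fin 1289 1 1225)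
(mv 1294 (cons (fin 1293 0 1226)
(fin 1295 0 1227)))))))))
(mv 1104 (cons (fin 1105 0 1037)
(mv 1295 (cons (fin 1294 0 1227)
(mv 1231 (cons (fin 1296 0 1228)
(mv 1168 (cons (fin 1167 2 1164)
(fin 1232 5 1039))))))))))
(cons (mv 1104 (cons (fin 1105 0 1037)
(mv 1291 (cons (fin 1290 1 1226)
(mv 1231 (cons (fin 1292 1 1227)
(mv 1168 (cons (fin 1167 2 1164)
(mv 1232 (cons (fin 1169 2 1165)
(fin 1295 5 1039)))))))))))
(mv 1290 (cons (fin 1291 1 1226)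
(mv 1226 (cons (fin 1289 1 1225)
(mv 1161 (cons (fin 1162 3 1161)
(mv 1225 (cons (fin 1160 3 1160)
(mv 1293 (cons (fin 1292 0 1225)
(fin 1294 0 1226)))))))))))))))
(cons (mv 1104 (cons (fin 1105 0 1037)
(mv 1166 (cons (fin 1293 5 1037)
(mv 1167 (cons (fin 1228 2 1163)
(mv 1231 (cons (fin 974 4 974)
(fin 1295 4 1038)))))))))
(mv 1104 (cons (fin 1105 0 1037)
(mv 1166 (cons (fin 1294 7 1037)
(mv 1167 (cons (fin 1228 2 1163)
(mv 1231 (cons (fin 974 4 974)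
(fin 1295 4 1038))))))))))))))))))))))))))))))))
(mv 1039 (cons (fin 1100 1 1036)
(mv 973 (cons (fin 972 3 972)
(mv 1104 (cons (fin 1105 0 1037)
(mv 1165 (cons (mv 974 (cons (fin 910 6 909)
(fin 1229 6 973)))
(cons (mv 1166 (cons (fin 1230 4 973)
(mv 1228 (cons (fin 1164 5 972)
(mv 1229 (cons (fin 1292 5 1036)
(mv 1168 (cons (fin 1167 1 1164)
(mv 1226 (cons (fin 1227 2 1162)
(mv 1232 (cons (fin 975 7 975)
(mv 1295 (cons (fin 1231 5 1039)
(mv 1296 (cons (fin 1359 5 1103)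
(mv 1297 (cons (fin 1233 4 1040)
(fin 1361 4 1104)))))))))))))))))))
(mv 1164 (cons (fin 1228 5 972)
(mv 1166 (cons (fin 1230 4 973)
(mv 909 (cons (cons (mv 910 (cons (fin 846 6 845)
(fin 974 6 909)))
(mv 844 (cons (fin 908 7 844)
(mv 845 (cons (fin 780 7 780)
(mv 781 (cons (fin 974 4 781)
(mv 782 (cons (fin 718 6 717)
(fin 846 6 781))))))))))
(cons (mv 844 (cons (fin 908 7 844)
(mv 845 (cons (fin 780 7 780)
(mv 846 (cons (fin 782 6 781)
(fin 910 6 845)))))))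
(mv 844 (cons (fin 908 7 844)
(mv 845 (cons (fin 780 7 780)
(mv 974 (cons (fin 910 6 909)
(fin 781 4 781))))))))))))))))))))))))))))
(cons (mv 1038 (cons (cons (cons (mv 1039 (cons (fin 1100 1 1036)
(mv 972 (cons (fin 973 3 972)
(mv 1036 (cons (fin 971 3 971)
(mv 1104 (cons (fin 1103 0 1036)
(fin 1105 0 1037)))))))))
(mv 974 (cons (cons (mv 910 (cons (fin 846 5 845)
(mv 1165 (cons (fin 1102 5 909)
(fin 973 6 909)))))
(cons (mv 910 (cons (fin 846 5 845)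
(mv 1102 (cons (cons (mv 845 (cons (fin 909 7 845)
(mv 847 (cons (fin 911 6 846)
(mv 1103 (cons (fin 1167 4 910)
(mv 1036 (cons (fin 1104 3 1036)
(fin 1035 0 1035)))))))))
(mv 845 (cons (fin 909 7 845)
(mv 911 (cons (fin 847 6 846)
(mv 1166 (cons (fin 975 6 910)
(mv 1230 (cons (fin 973 7 973)
(fin 1294 7 1037))))))))))
(cons (mv 847 (cons (fin 911 6 846)
(mv 1103 (cons (fin 1167 4 910)
(mv 1036 (cons (fin 1104 3 1036)
(fin 1035 0 1035)))))))
(mv 845 (cons (fin 909 7 845)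
(mv 1103 (cons (fin 1167 4 910)
(mv 1036 (cons (fin 1104 3 1036)
(fin 1035 0 1035))))))))))))
(mv 1165 (cons (fin 1229 6 973)
(mv 973 (cons (cons (mv 908 (cons (fin 972 7 908)
(mv 1164 (cons (fin 1228 5 972)
(mv 909 (cons (fin 1100 5 908)
(mv 845 (cons (fin 781 4 781)
(fin 1102 4 845)))))))))
(mv 1164 (cons (fin 1228 5 972)
(mv 909 (cons (fin 1100 5 908)
(mv 845 (cons (fin 781 4 781)
(fin 1102 4 845))))))))
(cons (mv 908 (cons (fin 972 7 908)
(mv 1166 (cons (fin 1230 4 973)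
(mv 909 (cons (fin 1102 7 909)
(mv 845 (cons (fin 781 4 781)
(mv 782 (cons (fin 846 6 781)
(mv 906 (cons (fin 907 0 906)
(mv 1036 (cons (fin 1100 5 844)
(mv 1035 (cons (fin 1034 2 970)
(fin 975 2 971)))))))))))))))))
(cons (mv 972 (cons (fin 908 7 908)
(mv 971 (cons (fin 970 0 970)
(mv 906 (cons (fin 907 3 906)
(mv 1035 (cons (fin 1034 1 970)
(mv 975 (cons (fin 1036 1 971)
(mv 911 (cons (fin 912 2 908)
(mv 1166 (cons (fin 1102 6 910)
(fin 1230 4 973)))))))))))))))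
(mv 908 (cons (fin 972 7 908)
(mv 1164 (cons (fin 1228 5 972)
(mv 1100 (cons (fin 909 5 908)
(mv 1099 (cons (fin 1098 2 1034)
(mv 1166 (cons (fin 1167 3 1099)
(fin 1230 4 973)))))))))))))))))))
(cons (mv 1165 (cons (fin 1229 6 973)
(mv 910 (cons (fin 1102 5 909)
(fin 973 6 909)))))
(cons (mv 910 (cons (fin 846 5 845)
(mv 1165 (cons (fin 973 6 909)
(fin 1229 6 973)))))
(mv 910 (cons (fin 846 5 845)
(mv 1165 (cons (fin 1102 5 909)
(fin 1229 6 973))))))))))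
(cons (mv 974 (cons (cons (mv 910 (cons (fin 846 5 845)
(mv 1165 (cons (fin 1102 5 909)
(fin 973 6 909)))))
(mv 1165 (cons (fin 1229 6 973)
(mv 973 (cons (mv 972 (cons (fin 1039 3 972)
(fin 908 7 908)))
(mv 1164 (cons (fin 1228 5 972)
(mv 1166 (cons (fin 1230 4 973)
(mv 1102 (cons (fin 909 7 909)
(mv 1103 (cons (fin 1104 1 1100)
(fin 1163 2 1099))))))))))))))
(cons (mv 846 (cons (fin 910 5 845)
(mv 1036 (cons (mv 1035 (cons (fin 975 2 971)
(mv 1034 (cons (fin 973 2 970)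
(fin 1102 0 1034)))))
(cons (mv 1039 (cons (mv 972 (cons (fin 971 3 971)
(fin 973 3 972)))
(mv 1104 (cons (fin 1103 0 1036)
(fin 1105 0 1037)))))
(mv 1035 (cons (fin 975 2 971)
(mv 1102 (cons (fin 1034 0 1034)
(fin 1103 0 1035))))))))))
(cons (mv 910 (cons (fin 846 5 845)
(mv 1165 (cons (fin 1102 5 909)
(fin 1229 6 973)))))
(mv 910 (cons (fin 846 5 845)
(mv 1165 (cons (fin 973 6 909)
(fin 1229 6 973)))))))))
(mv 1039 (cons (fin 1100 1 1036)
(mv 1104 (cons (fin 1105 0 1037)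
(mv 1036 (cons (fin 1103 0 1036)
(mv 971 (cons (fin 972 3 971)
(mv 1035 (cons (fin 970 3 970)
(mv 974 (cons (fin 975 2 971)
(mv 846 (cons (fin 910 5 845)
(mv 1034 (cons (fin 1102 0 1034)
(mv 1098 (cons (fin 1097 1 1033)
(fin 1099 1 1034)))))))))))))))))))))
(cons (cons (mv 1039 (cons (fin 1100 1 1036)
(mv 1104 (cons (fin 1105 0 1037)
(mv 1036 (cons (fin 1103 0 1036)
(mv 1035 (cons (cons (mv 970 (cons (fin 971 3 970)
(mv 1034 (cons (fin 969 3 969)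
(fin 1102 0 1034)))))
(mv 970 (cons (fin 971 3 970)
(mv 974 (cons (fin 975 2 971)
(mv 910 (cons (fin 846 5 845)
(mv 1165 (cons (fin 1102 5 909)
(fin 973 6 909))))))))))
(cons (mv 974 (cons (fin 975 2 971)
(mv 1034 (cons (fin 973 2 970)
(fin 1102 0 1034)))))
(mv 970 (cons (fin 971 3 970)
(mv 969 (cons (fin 1034 3 969)
(mv 974 (cons (fin 975 2 971)
(mv 910 (cons (fin 846 5 845)
(mv 1165 (cons (fin 973 6 909)
(fin 1229 6 973))))))))))))))))))))
(mv 1039 (cons (fin 1100 1 1036)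
(mv 972 (cons (fin 973 3 972)
(mv 1036 (cons (fin 971 3 971)
(mv 1165 (cons (fin 1229 7 972)
(mv 1102 (cons (mv 1035 (cons (fin 1034 0 1034)
(fin 1103 0 1035)))
(cons (mv 974 (cons (fin 910 5 909)
(mv 1166 (cons (mv 975 (cons (fin 911 6 910)
(fin 1230 6 974)))
(cons (mv 975 (cons (fin 911 6 910)
(mv 1167 (cons (fin 1231 4 974)
(mv 1168 (cons (fin 1169 3 1101)
(mv 1232 (cons (fin 1233 0 1165)
(fin 1103 4 975)))))))))
(mv 1230 (cons (fin 1294 7 1037)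
(mv 1231 (cons (fin 1167 4 974)
(fin 1295 4 1038))))))))))
(mv 974 (cons (fin 910 5 909)
(mv 1035 (cons (fin 975 2 971)
(fin 1034 0 1034)))))))))))))))))
(cons (mv 1039 (cons (fin 1100 1 1036)
(mv 972 (cons (fin 973 3 972)
(mv 1104 (cons (fin 1105 0 1037)
(mv 1165 (cons (cons (mv 974 (cons (fin 1229 6 973)
(mv 910 (cons (fin 846 5 845)
(fin 1102 5 909)))))
(mv 1102 (cons (cons (mv 910 (cons (fin 974 5 909)
(mv 1103 (cons (fin 1164 1 1100)
(mv 1168 (cons (fin 1169 0 1101)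
(mv 975 (cons (fin 1232 7 975)
(fin 911 4 911)))))))))
(mv 974 (cons (fin 910 5 909)
(mv 1166 (cons (mv 975 (cons (fin 911 6 910)
(fin 1230 6 974)))
(cons (mv 1230 (cons (fin 1294 7 1037)
(mv 1231 (cons (fin 1167 4 974)
(fin 1295 4 1038)))))
(mv 975 (cons (fin 911 6 910)
(mv 1167 (cons (fin 1231 4 974)
(mv 1168 (cons (fin 1169 3 1101)
(fin 1232 7 975)))))))))))))
(cons (mv 1103 (cons (fin 1164 1 1100)
(mv 1168 (cons (fin 1169 0 1101)
(mv 975 (cons (fin 1232 7 975)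
(fin 911 4 911)))))))
(cons (mv 910 (cons (fin 974 5 909)
(mv 1103 (cons (fin 1164 1 1100)
(mv 1168 (cons (fin 1169 0 1101)
(mv 1232 (cons (fin 1296 7 1039)
(mv 1231 (cons (fin 1295 5 1039)
(mv 1233 (cons (fin 1297 4 1040)
(mv 1166 (cons (fin 1230 3 1165)
(fin 1167 0 1165)))))))))))))))
(mv 910 (cons (fin 974 5 909)
(mv 1164 (cons (fin 1103 1 1100)
(mv 1163 (cons (fin 1162 2 1098)
(mv 1166 (cons (mv 1230 (cons (fin 1231 0 1163)
(fin 1294 7 1037)))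
(mv 1099 (cons (fin 1098 3 1098)
(mv 1227 (cons (fin 1226 1 1162)
(mv 1228 (cons (fin 1167 1 1163)
(mv 1035 (cons (fin 971 4 971)
(fin 1292 4 1035))))))))))))))))))))))
(cons (mv 1229 (cons (cons (mv 1102 (cons (fin 1293 6 1037)
(mv 1103 (cons (fin 1164 1 1100)
(mv 1168 (cons (fin 1169 0 1101)
(mv 975 (cons (fin 1232 7 975)
(fin 911 4 911)))))))))
(mv 1228 (cons (fin 1292 5 1036)
(mv 1230 (cons (fin 1294 4 1037)
(mv 1231 (cons (mv 1164 (cons (fin 1163 3 1163)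
(fin 1232 3 1164)))
(mv 1167 (cons (fin 1168 2 1164)
(mv 1295 (cons (fin 1296 0 1228)
(fin 1103 6 1039))))))))))))
(cons (mv 1102 (cons (fin 1293 6 1037)
(mv 1103 (cons (fin 1164 1 1100)
(mv 1228 (cons (fin 1292 5 1036)
(mv 1230 (cons (fin 1294 4 1037)
(mv 1166 (cons (fin 975 6 974)
(mv 1227 (cons (fin 1226 2 1162)
(fin 1167 2 1163)))))))))))))
(cons (mv 1102 (cons (fin 1293 6 1037)
(mv 1228 (cons (fin 1292 5 1036)
(mv 1230 (cons (fin 1294 4 1037)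
(mv 975 (cons (fin 1166 6 974)
(mv 911 (cons (fin 847 5 846)
(mv 1168 (cons (fin 1232 7 975)
(fin 1103 4 911)))))))))))))
(mv 1102 (cons (fin 1293 6 1037)
(mv 1228 (cons (fin 1292 5 1036)
(mv 1230 (cons (fin 1294 4 1037)
(mv 975 (cons (fin 1166 6 974)
(mv 847 (cons (fin 911 5 846)
(mv 1232 (cons (fin 1168 7 975)
(mv 1231 (cons (fin 1164 3 1164)
(mv 1296 (cons (fin 1295 0 1228)
(fin 1297 0 1229)))))))))))))))))))))
(mv 1229 (cons (fin 974 6 973)
(mv 1230 (cons (fin 1294 4 1037)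
(mv 1292 (cons (fin 1228 5 1036)
(mv 1293 (cons (fin 1356 5 1100)
(mv 1232 (cons (fin 1231 1 1228)
(mv 1168 (cons (fin 975 7 975)
(mv 1233 (cons (fin 1297 4 1040)
(mv 1166 (cons (fin 1167 0 1165)
(mv 1296 (cons (fin 1103 7 1039)
(mv 1357 (cons (fin 1421 6 1165)
(mv 1358 (cons (fin 1422 4 1165)
(mv 1359 (cons (fin 1360 3 1292)
(fin 1295 5 1103))))))))))))))))))))))))))))))))))
(cons (mv 1039 (cons (fin 1100 1 1036)
(mv 972 (cons (fin 973 3 972)
(mv 1036 (cons (fin 971 3 971)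
(mv 1104 (cons (fin 1105 0 1037)
(mv 1102 (cons (cons (mv 1035 (cons (fin 1034 0 1034)
(mv 974 (cons (fin 975 2 971)
(mv 910 (cons (fin 846 5 845)
(fin 1165 5 909)))))))
(mv 1034 (cons (fin 1035 0 1034)
(mv 1166 (cons (mv 1230 (cons (fin 1294 7 1037)
(fin 975 6 974)))
(cons (mv 1168 (cons (cons (mv 975 (cons (fin 1232 7 975)
(mv 911 (cons (fin 847 5 846)
(fin 974 6 910)))))
(mv 1167 (cons (fin 1169 3 1101)
(mv 1231 (cons (fin 974 4 974)
(mv 1295 (cons (fin 1359 7 1102)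
(fin 1232 5 1039))))))))
(cons (mv 1167 (cons (fin 1169 3 1101)
(mv 974 (cons (fin 1231 4 974)
(mv 910 (cons (fin 846 5 845)
(mv 911 (cons (fin 847 6 846)
(fin 975 6 910)))))))))
(mv 1167 (cons (fin 1169 3 1101)
(mv 1232 (cons (fin 975 7 975)
(mv 1231 (cons (fin 1295 5 1039)
(mv 1233 (cons (fin 1234 3 1166)
(fin 1297 4 1040))))))))))))
(mv 1230 (cons (fin 1294 7 1037)
(mv 1229 (cons (fin 1293 5 1037)
(mv 1231 (cons (fin 1295 4 1038)
(mv 1167 (cons (fin 974 4 974)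
(mv 1168 (cons (fin 1169 3 1101)
(fin 1228 2 1164)))))))))))))))))
(cons (mv 1165 (cons (fin 1229 7 972)
(mv 974 (cons (fin 910 5 909)
(mv 1166 (cons (mv 975 (cons (fin 911 6 910)
(fin 1230 6 974)))
(cons (mv 1230 (cons (fin 1294 7 1037)
(mv 1231 (cons (fin 1167 4 974)
(fin 1295 4 1038)))))
(mv 975 (cons (fin 911 6 910)
(mv 1167 (cons (fin 1231 4 974)
(mv 1168 (cons (fin 1169 3 1101)
(fin 1232 7 975))))))))))))))
(cons (mv 1035 (cons (fin 1034 0 1034)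
(mv 1099 (cons (fin 1098 1 1034)
(mv 1227 (cons (fin 1163 6 971)
(mv 1229 (cons (fin 1165 7 972)
(mv 1230 (cons (cons (mv 1166 (cons (fin 1294 7 1037)
(fin 1293 5 1037)))
(mv 1228 (cons (cons (mv 1290 (cons (fin 1291 1 1226)
(mv 1226 (cons (fin 1289 1 1225)
(mv 1294 (cons (fin 1293 0 1226)
(fin 1295 0 1227)))))))
(mv 1294 (cons (fin 1295 0 1227)
(mv 1226 (cons (fin 1293 0 1226)
(mv 1161 (cons (fin 1162 3 1161)
(mv 1225 (cons (fin 1160 3 1160)
(mv 1289 (cons (fin 1288 1 1224)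
(fin 1290 1 1225))))))))))))
(cons (mv 1290 (cons (fin 1291 1 1226)
(mv 1226 (cons (fin 1289 1 1225)
(mv 1161 (cons (fin 1162 3 1161)
(mv 1225 (cons (fin 1160 3 1160)
(mv 1293 (cons (fin 1292 0 1225)
(fin 1294 0 1226)))))))))))
(cons (mv 1291 (cons (fin 1290 1 1226)
(mv 1231 (cons (fin 1292 1 1227)
(mv 1168 (cons (fin 1167 2 1164)
(mv 1232 (cons (fin 1169 2 1165)
(fin 1295 5 1039)))))))))
(mv 1295 (cons (fin 1294 0 1227)
(mv 1231 (cons (fin 1296 0 1228)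
(mv 1168 (cons (fin 1167 2 1164)
(fin 1232 5 1039))))))))))))
(cons (mv 1166 (cons (fin 1293 5 1037)
(mv 1167 (cons (fin 1228 2 1163)
(mv 1231 (cons (fin 974 4 974)
(fin 1295 4 1038)))))))
(mv 1166 (cons (fin 1294 7 1037)
(mv 1167 (cons (fin 1228 2 1163)
(mv 1231 (cons (fin 974 4 974)
(fin 1295 4 1038))))))))))))))))))
(mv 1035 (cons (fin 1034 0 1034)
(mv 1099 (cons (fin 1098 1 1034)
(mv 1227 (cons (fin 1163 6 971)
(mv 1229 (cons (fin 1165 7 972)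
(mv 1230 (cons (cons (mv 1166 (cons (fin 1294 7 1037)
(fin 1293 5 1037)))
(mv 1228 (cons (cons (mv 1290 (cons (fin 1291 1 1226)
(mv 1226 (cons (fin 1289 1 1225)
(mv 1294 (cons (fin 1293 0 1226)
(fin 1295 0 1227)))))))
(mv 1294 (cons (fin 1295 0 1227)
(mv 1226 (cons (fin 1293 0 1226)
(mv 1161 (cons (fin 1162 3 1161)
(mv 1225 (cons (fin 1160 3 1160)
(mv 1289 (cons (fin 1288 1 1224)
(fin 1290 1 1225))))))))))))
(cons (mv 1290 (cons (fin 1291 1 1226)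
(mv 1226 (cons (fin 1289 1 1225)
(mv 1161 (cons (fin 1162 3 1161)
(mv 1225 (cons (fin 1160 3 1160)
(mv 1293 (cons (fin 1292 0 1225)
(fin 1294 0 1226)))))))))))
(cons (mv 1291 (cons (fin 1290 1 1226)
(mv 1231 (cons (fin 1292 1 1227)
(mv 1168 (cons (fin 1167 2 1164)
(mv 1232 (cons (fin 1169 2 1165)
(fin 975 7 975)))))))))
(mv 1295 (cons (fin 1294 0 1227)
(mv 1231 (cons (fin 1296 0 1228)
(mv 1168 (cons (fin 1167 2 1164)
(fin 1232 5 1039))))))))))))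
(cons (mv 1166 (cons (fin 1293 5 1037)
(fin 975 6 974)))
(mv 1166 (cons (fin 1294 7 1037)
(fin 975 6 974))))))))))))))))))))))))))
(mv 1039 (cons (fin 1100 1 1036)
(mv 972 (cons (fin 973 3 972)
(mv 1104 (cons (fin 1105 0 1037)
(mv 1036 (cons (fin 1103 0 1036)
(mv 1102 (cons (cons (mv 1035 (cons (fin 1034 0 1034)
(mv 974 (cons (fin 975 2 971)
(mv 910 (cons (fin 846 5 845)
(fin 1165 5 909)))))))
(mv 1034 (cons (fin 1035 0 1034)
(mv 1166 (cons (mv 1230 (cons (fin 1294 7 1037)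
(fin 975 6 974)))
(cons (mv 1168 (cons (cons (mv 975 (cons (fin 1232 7 975)
(mv 911 (cons (fin 847 5 846)
(fin 974 6 910)))))
(mv 1167 (cons (fin 1169 3 1101)
(mv 1231 (cons (fin 974 4 974)
(mv 1295 (cons (fin 1359 7 1102)
(fin 1232 5 1039))))))))
(cons (mv 1167 (cons (fin 1169 3 1101)
(mv 974 (cons (fin 1231 4 974)
(mv 910 (cons (fin 846 5 845)
(mv 911 (cons (fin 847 6 846)
(fin 975 6 910)))))))))
(mv 1167 (cons (fin 1169 3 1101)
(mv 1232 (cons (fin 975 7 975)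
(mv 1231 (cons (fin 1295 5 1039)
(mv 1233 (cons (fin 1234 3 1166)
(fin 1297 4 1040))))))))))))
(mv 1230 (cons (fin 1294 7 1037)
(mv 1229 (cons (fin 1293 5 1037)
(mv 1231 (cons (fin 1295 4 1038)
(mv 1167 (cons (fin 974 4 974)
(mv 1168 (cons (fin 1169 3 1101)
(fin 1228 2 1164)))))))))))))))))
(cons (mv 1165 (cons (fin 1229 7 972)
(mv 974 (cons (fin 910 5 909)
(mv 1166 (cons (mv 975 (cons (fin 911 6 910)
(fin 1230 6 974)))
(cons (mv 1230 (cons (fin 1294 7 1037)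
(mv 1231 (cons (fin 1167 4 974)
(fin 1295 4 1038)))))
(mv 975 (cons (fin 911 6 910)
(mv 1167 (cons (fin 1231 4 974)
(mv 1168 (cons (fin 1169 3 1101)
(fin 1232 7 975))))))))))))))
(cons (mv 1035 (cons (fin 1034 0 1034)
(mv 1099 (cons (fin 1098 1 1034)
(mv 1227 (cons (fin 1163 6 971)
(mv 1229 (cons (fin 1165 7 972)
(mv 1230 (cons (cons (mv 1166 (cons (fin 1294 7 1037)
(fin 1293 5 1037)))
(mv 1228 (cons (cons (mv 1290 (cons (fin 1291 1 1226)
(mv 1226 (cons (fin 1289 1 1225)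
(mv 1294 (cons (fin 1293 0 1226)
(fin 1295 0 1227)))))))
(mv 1294 (cons (fin 1295 0 1227)
(mv 1226 (cons (fin 1293 0 1226)
(mv 1161 (cons (fin 1162 3 1161)
(mv 1225 (cons (fin 1160 3 1160)
(mv 1289 (cons (fin 1288 1 1224)
(fin 1290 1 1225))))))))))))
(cons (mv 1290 (cons (fin 1291 1 1226)
(mv 1226 (cons (fin 1289 1 1225)
(mv 1161 (cons (fin 1162 3 1161)
(mv 1225 (cons (fin 1160 3 1160)
(mv 1293 (cons (fin 1292 0 1225)
(fin 1294 0 1226)))))))))))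
(cons (mv 1291 (cons (fin 1290 1 1226)
(mv 1231 (cons (fin 1292 1 1227)
(mv 1168 (cons (fin 1167 2 1164)
(mv 1232 (cons (fin 1169 2 1165)
(fin 1295 5 1039)))))))))
(mv 1295 (cons (fin 1294 0 1227)
(mv 1231 (cons (fin 1296 0 1228)
(mv 1168 (cons (fin 1167 2 1164)
(fin 1232 5 1039))))))))))))
(cons (mv 1166 (cons (fin 1293 5 1037)
(mv 1167 (cons (fin 1228 2 1163)
(mv 1231 (cons (fin 974 4 974)
(fin 1295 4 1038)))))))
(mv 1166 (cons (fin 1294 7 1037)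
(mv 1167 (cons (fin 1228 2 1163)
(mv 1231 (cons (fin 974 4 974)
(fin 1295 4 1038))))))))))))))))))
(mv 1035 (cons (fin 1034 0 1034)
(mv 1099 (cons (fin 1098 1 1034)
(mv 1227 (cons (fin 1163 6 971)
(mv 1229 (cons (fin 1165 7 972)
(mv 1230 (cons (cons (mv 1166 (cons (fin 1294 7 1037)
(fin 1293 5 1037)))
(mv 1228 (cons (cons (mv 1290 (cons (fin 1291 1 1226)
(mv 1226 (cons (fin 1289 1 1225)
(mv 1294 (cons (fin 1293 0 1226)
(fin 1295 0 1227)))))))
(mv 1294 (cons (fin 1295 0 1227)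
(mv 1226 (cons (fin 1293 0 1226)
(mv 1161 (cons (fin 1162 3 1161)
(mv 1225 (cons (fin 1160 3 1160)
(mv 1289 (cons (fin 1288 1 1224)
(fin 1290 1 1225))))))))))))
(cons (mv 1290 (cons (fin 1291 1 1226)
(mv 1226 (cons (fin 1289 1 1225)
(mv 1161 (cons (fin 1162 3 1161)
(mv 1225 (cons (fin 1160 3 1160)
(mv 1293 (cons (fin 1292 0 1225)
(fin 1294 0 1226)))))))))))
(cons (mv 1291 (cons (fin 1290 1 1226)
(mv 1231 (cons (fin 1292 1 1227)
(mv 1168 (cons (fin 1167 2 1164)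
(mv 1232 (cons (fin 1169 2 1165)
(fin 975 7 975)))))))))
(mv 1295 (cons (fin 1294 0 1227)
(mv 1231 (cons (fin 1296 0 1228)
(mv 1168 (cons (fin 1167 2 1164)
(fin 1232 5 1039))))))))))))
(cons (mv 1166 (cons (fin 1293 5 1037)
(fin 975 6 974)))
(mv 1166 (cons (fin 1294 7 1037)
(fin 975 6 974)))))))))))))))))))))))))))))))
(mv 1038 (cons (cons (mv 1039 (cons (fin 1100 1 1036)
(mv 972 (cons (fin 973 3 972)
(mv 1036 (cons (fin 971 3 971)
(mv 1104 (cons (fin 1103 0 1036)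
(fin 1105 0 1037)))))))))
(cons (mv 1165 (cons (cons (mv 974 (cons (fin 1229 6 973)
(mv 910 (cons (fin 1102 5 909)
(fin 973 6 909)))))
(mv 973 (cons (cons (mv 908 (cons (fin 972 7 908)
(mv 909 (cons (fin 844 7 844)
(mv 1102 (cons (fin 845 4 845)
(fin 1166 4 909)))))))
(mv 908 (cons (fin 972 7 908)
(mv 909 (cons (fin 844 7 844)
(mv 1164 (cons (fin 1100 5 908)
(fin 1228 5 972))))))))
(cons (mv 910 (cons (fin 974 6 909)
(mv 1164 (cons (fin 1228 5 972)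
(mv 909 (cons (fin 1100 5 908)
(mv 1102 (cons (fin 845 4 845)
(fin 1166 4 909)))))))))
(mv 972 (cons (fin 908 7 908)
(mv 971 (cons (fin 970 0 970)
(mv 974 (cons (fin 910 6 909)
(mv 906 (cons (fin 907 3 906)
(mv 1035 (cons (fin 1034 1 970)
(mv 975 (cons (fin 1036 1 971)
(mv 911 (cons (fin 912 2 908)
(mv 1166 (cons (fin 1102 6 910)
(fin 1230 4 973)))))))))))))))))))))
(cons (mv 1229 (cons (cons (mv 972 (cons (fin 1036 7 972)
(mv 908 (cons (fin 973 7 908)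
(mv 1228 (cons (fin 1292 5 1036)
(mv 1293 (cons (fin 1102 6 1037)
(mv 1294 (cons (fin 1230 4 1037)
(fin 1358 4 1101)))))))))))
(cons (mv 972 (cons (fin 1036 7 972)
(mv 973 (cons (fin 908 7 908)
(mv 1228 (cons (fin 1164 5 972)
(fin 1292 5 1036)))))))
(mv 1102 (cons (fin 1293 6 1037)
(mv 1228 (cons (fin 1292 5 1036)
(mv 973 (cons (fin 1164 5 972)
(mv 909 (cons (fin 845 4 845)
(fin 1166 4 909)))))))))))
(cons (mv 972 (cons (fin 1036 7 972)
(mv 908 (cons (fin 973 7 908)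
(mv 1230 (cons (fin 1294 4 1037)
(mv 1293 (cons (fin 1102 6 1037)
(mv 1356 (cons (fin 1292 5 1100)
(mv 1357 (cons (fin 1420 5 1164)
(mv 1100 (cons (fin 1164 7 1100)
(mv 1098 (cons (fin 1099 2 1034)
(mv 1421 (cons (fin 1166 6 1165)
(mv 1422 (cons (fin 1358 4 1165)
(fin 1486 4 1229)))))))))))))))))))))
(cons (mv 972 (cons (fin 1036 7 972)
(mv 908 (cons (fin 973 7 908)
(mv 1293 (cons (fin 1102 6 1037)
(mv 1294 (cons (fin 1230 4 1037)
(fin 1358 4 1101)))))))))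
(mv 972 (cons (fin 1036 7 972)
(mv 1228 (cons (fin 1292 5 1036)
(mv 1293 (cons (fin 1102 6 1037)
(mv 1294 (cons (fin 1230 4 1037)
(fin 1358 4 1101)))))))))))))
(cons (mv 1229 (cons (fin 974 6 973)
(mv 972 (cons (fin 1036 7 972)
(mv 1228 (cons (fin 1292 5 1036)
(mv 1293 (cons (fin 1102 6 1037)
(mv 1294 (cons (fin 1230 4 1037)
(fin 1358 4 1101)))))))))))
(mv 974 (cons (fin 1229 6 973)
(mv 973 (cons (fin 910 6 909)
(mv 908 (cons (fin 972 7 908)
(mv 909 (cons (fin 844 7 844)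
(mv 1164 (cons (fin 1100 5 908)
(fin 1228 5 972)))))))))))))))
(mv 1039 (cons (cons (mv 972 (cons (fin 973 3 972)
(mv 1036 (cons (fin 971 3 971)
(mv 1104 (cons (fin 1103 0 1036)
(fin 1105 0 1037)))))))
(cons (mv 972 (cons (fin 973 3 972)
(mv 1036 (cons (fin 971 3 971)
(mv 844 (cons (fin 908 4 844)
(mv 1165 (cons (fin 1229 7 972)
(mv 1102 (cons (mv 1035 (cons (fin 1034 0 1034)
(fin 1103 0 1035)))
(cons (mv 974 (cons (fin 910 5 909)
(mv 1166 (cons (mv 975 (cons (fin 911 6 910)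
(fin 1230 6 974)))
(cons (mv 975 (cons (fin 911 6 910)
(mv 1167 (cons (fin 1231 4 974)
(mv 1168 (cons (fin 1169 3 1101)
(mv 1232 (cons (fin 1233 0 1165)
(fin 1103 4 975)))))))))
(mv 1230 (cons (fin 1294 7 1037)
(mv 1231 (cons (fin 1167 4 974)
(fin 1295 4 1038))))))))))
(mv 974 (cons (fin 910 5 909)
(mv 1035 (cons (fin 975 2 971)
(fin 1034 0 1034))))))))))))))))
(mv 1104 (cons (fin 1105 0 1037)
(mv 1036 (cons (fin 1103 0 1036)
(mv 1035 (cons (cons (mv 970 (cons (fin 971 3 970)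
(mv 1034 (cons (fin 969 3 969)
(fin 1102 0 1034)))))
(mv 970 (cons (fin 971 3 970)
(mv 974 (cons (fin 975 2 971)
(mv 1098 (cons (fin 1099 1 1034)
(mv 1165 (cons (fin 1229 6 973)
(mv 910 (cons (fin 1102 5 909)
(fin 973 6 909))))))))))))
(cons (mv 974 (cons (fin 975 2 971)
(mv 1034 (cons (fin 973 2 970)
(fin 1102 0 1034)))))
(mv 970 (cons (fin 971 3 970)
(mv 974 (cons (fin 975 2 971)
(mv 1034 (cons (fin 969 3 969)
(fin 973 2 970))))))))))))))))
(cons (mv 1104 (cons (fin 1105 0 1037)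
(mv 1036 (cons (fin 1103 0 1036)
(mv 971 (cons (fin 972 3 971)
(mv 1035 (cons (fin 970 3 970)
(mv 974 (cons (fin 975 2 971)
(mv 1034 (cons (fin 1102 0 1034)
(mv 1098 (cons (fin 1097 1 1033)
(fin 1099 1 1034)))))))))))))))
(cons (mv 973 (cons (fin 972 3 972)
(mv 1104 (cons (fin 1105 0 1037)
(mv 1165 (cons (mv 974 (cons (fin 910 6 909)
(fin 1229 6 973)))
(mv 1164 (cons (fin 1228 5 972)
(mv 1102 (cons (fin 1103 1 1100)
(mv 909 (cons (fin 845 4 845)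
(fin 1166 4 909)))))))))))))
(mv 972 (cons (fin 973 3 972)
(mv 1036 (cons (fin 971 3 971)
(mv 844 (cons (fin 908 4 844)
(mv 1102 (cons (cons (mv 1035 (cons (fin 1034 0 1034)
(mv 974 (cons (fin 975 2 971)
(mv 1165 (cons (fin 1229 7 972)
(fin 910 5 909)))))))
(cons (mv 1035 (cons (fin 1034 0 1034)
(mv 1098 (cons (fin 1099 1 1034)
(mv 1104 (cons (fin 1105 0 1037)
(mv 1166 (cons (cons (mv 975 (cons (fin 974 2 971)
(fin 1230 6 974)))
(mv 1230 (cons (fin 1294 7 1037)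
(mv 1229 (cons (fin 1293 5 1037)
(mv 1231 (cons (fin 1295 4 1038)
(mv 1167 (cons (fin 974 4 974)
(mv 1168 (cons (fin 1169 3 1101)
(fin 1228 2 1164))))))))))))
(cons (mv 1168 (cons (cons (mv 975 (cons (fin 974 2 971)
(fin 1232 7 975)))
(mv 1167 (cons (fin 1169 3 1101)
(mv 1231 (cons (fin 974 4 974)
(mv 1295 (cons (fin 1359 7 1102)
(fin 1232 5 1039))))))))
(cons (mv 974 (cons (fin 975 2 971)
(mv 1167 (cons (fin 1169 3 1101)
(fin 1231 4 974)))))
(mv 1167 (cons (fin 1169 3 1101)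
(mv 1232 (cons (fin 975 7 975)
(mv 1231 (cons (fin 1295 5 1039)
(mv 1233 (cons (fin 1234 3 1166)
(fin 1297 4 1040))))))))))))
(mv 1230 (cons (fin 1294 7 1037)
(fin 975 6 974))))))))))))
(mv 1035 (cons (fin 1034 0 1034)
(mv 1099 (cons (fin 1098 1 1034)
(mv 1104 (cons (fin 1105 0 1037)
(mv 1163 (cons (fin 1227 6 971)
(mv 1166 (cons (cons (mv 975 (cons (fin 974 2 971)
(fin 1230 6 974)))
(mv 1230 (cons (fin 1294 7 1037)
(mv 1231 (cons (fin 1295 4 1038)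
(mv 974 (cons (fin 1167 4 974)
(mv 1165 (cons (fin 1164 0 1163)
(fin 910 5 909))))))))))
(cons (mv 1168 (cons (cons (mv 975 (cons (fin 974 2 971)
(fin 1232 7 975)))
(mv 1167 (cons (fin 1169 3 1101)
(mv 1231 (cons (fin 974 4 974)
(mv 1295 (cons (fin 1359 7 1102)
(fin 1232 5 1039))))))))
(cons (mv 1167 (cons (fin 1169 3 1101)
(mv 1232 (cons (fin 975 7 975)
(mv 1233 (cons (fin 1165 0 1165)
(fin 1297 4 1040)))))))
(mv 974 (cons (fin 975 2 971)
(mv 1167 (cons (fin 1169 3 1101)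
(fin 1231 4 974))))))))
(mv 1230 (cons (fin 1294 7 1037)
(fin 975 6 974))))))))))))))))
(cons (mv 1104 (cons (fin 1105 0 1037)
(mv 1165 (cons (fin 1229 7 972)
(mv 974 (cons (fin 910 5 909)
(mv 1166 (cons (mv 975 (cons (fin 911 6 910)
(fin 1230 6 974)))
(cons (mv 1230 (cons (fin 1294 7 1037)
(mv 1231 (cons (fin 1167 4 974)
(fin 1295 4 1038)))))
(mv 975 (cons (fin 911 6 910)
(mv 1167 (cons (fin 1231 4 974)
(mv 1168 (cons (fin 1169 3 1101)
(fin 1232 7 975))))))))))))))))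
(cons (mv 1035 (cons (fin 1034 0 1034)
(mv 1099 (cons (fin 1098 1 1034)
(mv 1104 (cons (fin 1105 0 1037)
(mv 1227 (cons (fin 1163 6 971)
(mv 1229 (cons (fin 1165 7 972)
(mv 1230 (cons (cons (mv 1166 (cons (fin 1294 7 1037)
(fin 1293 5 1037)))
(mv 1228 (cons (mv 1290 (cons (fin 1291 1 1226)
(mv 1226 (cons (fin 1289 1 1225)
(mv 1294 (cons (fin 1293 0 1226)
(fin 1295 0 1227)))))))
(cons (mv 1295 (cons (fin 1294 0 1227)
(mv 1231 (cons (fin 1296 0 1228)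
(mv 1168 (cons (fin 1167 2 1164)
(fin 1232 5 1039)))))))
(mv 1291 (cons (fin 1290 1 1226)
(mv 1231 (cons (fin 1292 1 1227)
(mv 1168 (cons (fin 1167 2 1164)
(mv 1232 (cons (fin 1169 2 1165)
(fin 975 7 975)))))))))))))
(cons (mv 1166 (cons (fin 1293 5 1037)
(fin 975 6 974)))
(mv 1166 (cons (fin 1294 7 1037)
(fin 975 6 974))))))))))))))))
(mv 1035 (cons (fin 1034 0 1034)
(mv 1099 (cons (fin 1098 1 1034)
(mv 1227 (cons (fin 1163 6 971)
(mv 1229 (cons (fin 1165 7 972)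
(mv 1230 (cons (cons (mv 1166 (cons (fin 1294 7 1037)
(fin 1293 5 1037)))
(mv 1228 (cons (cons (mv 1104 (cons (fin 1105 0 1037)
(mv 1290 (cons (fin 1291 1 1226)
(mv 1226 (cons (fin 1289 1 1225)
(mv 1294 (cons (fin 1293 0 1226)
(fin 1295 0 1227)))))))))
(mv 1104 (cons (fin 1105 0 1037)
(mv 1295 (cons (fin 1294 0 1227)
(mv 1231 (cons (fin 1296 0 1228)
(mv 1168 (cons (fin 1167 2 1164)
(fin 1232 5 1039))))))))))
(cons (mv 1104 (cons (fin 1105 0 1037)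
(mv 1291 (cons (fin 1290 1 1226)
(mv 1231 (cons (fin 1292 1 1227)
(mv 1168 (cons (fin 1167 2 1164)
(mv 1232 (cons (fin 1169 2 1165)
(fin 1295 5 1039)))))))))))
(mv 1290 (cons (fin 1291 1 1226)
(mv 1226 (cons (fin 1289 1 1225)
(mv 1161 (cons (fin 1162 3 1161)
(mv 1225 (cons (fin 1160 3 1160)
(mv 1293 (cons (fin 1292 0 1225)
(fin 1294 0 1226)))))))))))))))
(cons (mv 1104 (cons (fin 1105 0 1037)
(mv 1166 (cons (fin 1293 5 1037)
(mv 1167 (cons (fin 1228 2 1163)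
(mv 1231 (cons (fin 974 4 974)
(fin 1295 4 1038)))))))))
(mv 1104 (cons (fin 1105 0 1037)
(mv 1166 (cons (fin 1294 7 1037)
(mv 1167 (cons (fin 1228 2 1163)
(mv 1231 (cons (fin 974 4 974)
(fin 1295 4 1038))))))))))))))))))))))))))))))))))))
(cons (mv 1039 (cons (fin 1100 1 1036)
(mv 1104 (cons (fin 1105 0 1037)
(mv 1036 (cons (fin 1103 0 1036)
(mv 971 (cons (fin 972 3 971)
(mv 1035 (cons (fin 970 3 970)
(mv 974 (cons (fin 975 2 971)
(mv 1034 (cons (fin 1102 0 1034)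
(mv 1098 (cons (fin 1097 1 1033)
(fin 1099 1 1034)))))))))))))))))
(cons (mv 1039 (cons (fin 1100 1 1036)
(mv 1104 (cons (fin 1105 0 1037)
(mv 1036 (cons (fin 1103 0 1036)
(mv 1035 (cons (cons (mv 970 (cons (fin 971 3 970)
(mv 1034 (cons (fin 969 3 969)
(fin 1102 0 1034)))))
(mv 970 (cons (fin 971 3 970)
(mv 974 (cons (fin 975 2 971)
(mv 1098 (cons (fin 1099 1 1034)
(mv 1165 (cons (fin 1229 6 973)
(mv 910 (cons (fin 1102 5 909)
(fin 973 6 909))))))))))))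
(cons (mv 974 (cons (fin 975 2 971)
(mv 1034 (cons (fin 973 2 970)
(fin 1102 0 1034)))))
(mv 970 (cons (fin 971 3 970)
(mv 974 (cons (fin 975 2 971)
(mv 1034 (cons (fin 969 3 969)
(fin 973 2 970))))))))))))))))
(mv 1039 (cons (fin 1100 1 1036)
(mv 973 (cons (fin 972 3 972)
(mv 1104 (cons (fin 1105 0 1037)
(mv 1165 (cons (mv 974 (cons (fin 910 6 909)
(fin 1229 6 973)))
(mv 1164 (cons (fin 1228 5 972)
(mv 1102 (cons (fin 1103 1 1100)
(mv 909 (cons (fin 845 4 845)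
(fin 1166 4 909)))))))))))))))))))))))))
def l100 : Lem := ⟨13254031944712882724506621310649321556018620670345837899455453023597314721787975009848330616026462815765143756135158089473467252075149308743152655366187148242124071246428482498451210046760672027239036899891323305324899173507745103325308665813954110541579506451753178596634830548552232523722901151470534797188661248, 2675984352907870388517306036218735069585508389562074378682577742409726056236873213981642478370773092484512772421675475367461318311056106170098549506612199513646196624571268792214341535236615374903631948650514110957894469008299821934520509791224271849256190963734314805608963576244582053144764716014636397796356265035953506511347304930521114930204004505610958282729057102158307227013650482049582534989654120085272106954266667503465299734439544225792, 2675984352907870388517306036218735069585508389562074378682577742409726056236873213981642478370773092484512772421675475367461318311056106170098549506612199513646196624571268792214341535236615374903631948650514110957894469008299821934520509791224271849256190963734314805608963576244582053144764716014636397796356265035953506511347304930521114930204004505610958282729057102158307227013650482049582534989654120085272106954266667503465299734439544225792,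 19, 33⟩
theorem l100_valid : l100.Valid :=
  Lem.valid_of_chk t100 t100_valid [1037, 1040] c100 l100 (by decide +kernel)
end Crest.Agent.SnakyAux
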