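import Crest.Agent.S0047_aux.Checker

set_option autoImplicit false
set_option maxRecDepth 100000
namespace Crest.Agent.SnakyAux
open Cert
def t102 : Tbl := Tbl.nil
theorem t102_valid : t102.Valid := Tbl.valid_nil
def c102 : Cert :=
(mv 1101 (cons (cons (cons (cons (mv 1038 (cons (cons (mv 1039 (cons (fin 1100 1 1036)
(mv 1104 (cons (fin 1105 0 1037)
(mv 1103 (cons (fin 1036 0 1036)
(mv 972 (cons (fin 973 3 972)
(mv 976 (cons (fin 977 2 973)
(mv 1167 (cons (fin 912 5 911)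
(fin 1231 6 975)))))))))))))
(cons (mv 1165 (cons (cons (mv 1229 (cons (fin 974 6 973)
(mv 1292 (cons (fin 1228 5 1036)
(mv 1293 (cons (fin 1356 5 1100)
(fin 1102 6 1037)))))))
(mv 973 (cons (cons (cons (mv 1228 (cons (fin 1164 5 972)
(mv 1230 (cons (fin 1166 4 973)
(mv 908 (cons (fin 972 7 908)
(mv 909 (cons (fin 844 7 844)
(mv 845 (cons (fin 1102 4 845)
(mv 1100 (cons (fin 1036 5 844)
(mv 1098 (cons (fin 1099 2 1034)
(mv 781 (cons (fin 974 4 781)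
(mv 782 (cons (fin 846 6 781)
(fin 718 6 717)))))))))))))))))))
(mv 1228 (cons (fin 1164 5 972)
(mv 908 (cons (fin 972 7 908)
(mv 909 (cons (fin 844 7 844)
(mv 845 (cons (fin 1102 4 845)
(mv 1100 (cons (fin 1036 5 844)
(mv 1098 (cons (fin 1099 2 1034)
(mv 781 (cons (fin 974 4 781)
(mv 782 (cons (fin 846 6 781)
(fin 718 6 717))))))))))))))))))
(cons (mv 1230 (cons (fin 1166 4 973)
(mv 908 (cons (fin 972 7 908)
(mv 909 (cons (fin 844 7 844)
(mv 845 (cons (fin 1102 4 845)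
(mv 1100 (cons (fin 1036 5 844)
(mv 1098 (cons (fin 1099 2 1034)
(mv 781 (cons (fin 974 4 781)
(mv 782 (cons (fin 846 6 781)
(fin 718 6 717)))))))))))))))))
(mv 1228 (cons (fin 1164 5 972)
(mv 1166 (cons (fin 1230 4 973)
(mv 909 (cons (fin 1102 4 909)
(mv 844 (cons (fin 908 7 844)
(mv 845 (cons (fin 780 7 780)
(mv 1100 (cons (fin 1036 5 844)
(mv 1167 (cons (fin 1168 3 1100)
(mv 1098 (cons (fin 1099 0 1098)
(mv 781 (cons (fin 974 4 781)
(mv 782 (cons (fin 846 6 781)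
(fin 718 6 717)))))))))))))))))))))))
(cons (cons (mv 1230 (cons (fin 1166 4 973)
(mv 1164 (cons (fin 1228 5 972)
(mv 909 (cons (fin 1100 5 908)
(mv 845 (cons (fin 1102 4 845)
(mv 844 (cons (fin 780 7 780)
(mv 781 (cons (fin 974 4 781)
(mv 782 (cons (fin 846 6 781)
(fin 718 6 717)))))))))))))))
(mv 1164 (cons (fin 1228 5 972)
(mv 1166 (cons (fin 1230 4 973)
(mv 972 (cons (fin 908 7 908)
(mv 970 (cons (fin 971 0 970)
(mv 1163 (cons (cons (mv 1102 (cons (fin 1162 2 1098)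
(fin 1103 2 1099)))
(mv 1226 (cons (fin 1227 1 1162)
(mv 1225 (cons (fin 1162 1 1161)
(mv 1099 (cons (fin 1098 3 1098)
(mv 1167 (cons (fin 1100 3 1099)
(mv 1231 (cons (fin 1232 0 1164)
(mv 1104 (cons (fin 1103 2 1100)
(mv 1168 (cons (fin 1105 2 1101)
(fin 976 5 975))))))))))))))))
(cons (mv 1226 (cons (fin 1227 1 1162)
(mv 1098 (cons (fin 1099 3 1098)
(mv 1103 (cons (fin 1102 2 1099)
(mv 1167 (cons (fin 1104 2 1100)
(mv 1232 (cons (fin 1231 0 1164)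
(mv 1168 (cons (fin 1100 3 1100)
(fin 1233 0 1165)))))))))))))
(mv 1226 (cons (fin 1227 1 1162)
(mv 1162 (cons (fin 1225 1 1161)
(fin 1102 2 1098)))))))))))))))))
(cons (mv 1230 (cons (fin 1166 4 973)
(mv 1164 (cons (fin 1228 5 972)
(mv 1100 (cons (fin 909 5 908)
(mv 1098 (cons (fin 1099 2 1034)
(mv 972 (cons (fin 908 7 908)
(mv 971 (cons (fin 970 0 970)
(mv 1036 (cons (fin 907 7 907)
(mv 1163 (cons (fin 1227 5 971)
(mv 1162 (cons (fin 1097 3 1097)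
(fin 1161 2 1097)))))))))))))))))))
(mv 1228 (cons (fin 1164 5 972)
(mv 1230 (cons (fin 1166 4 973)
(mv 908 (cons (fin 972 7 908)
(mv 909 (cons (fin 844 7 844)
(mv 845 (cons (fin 1102 4 845)
(mv 781 (cons (fin 974 4 781)
(mv 782 (cons (fin 846 6 781)
(fin 718 6 717))))))))))))))))))))
(cons (mv 1229 (cons (mv 1292 (cons (fin 1228 5 1036)
(mv 1293 (cons (fin 1356 5 1100)
(fin 1102 6 1037)))))
(cons (mv 1292 (cons (fin 1228 5 1036)
(mv 1230 (cons (fin 1294 4 1037)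
(mv 972 (cons (fin 1036 7 972)
(mv 973 (cons (fin 908 7 908)
(fin 1166 4 973)))))))))
(mv 1293 (cons (fin 1102 6 1037)
(mv 1294 (cons (fin 1358 4 1101)
(fin 1230 4 1037))))))))
(cons (mv 1229 (cons (fin 974 6 973)
(mv 1293 (cons (fin 1102 6 1037)
(mv 1294 (cons (fin 1358 4 1101)
(fin 1230 4 1037)))))))
(mv 1229 (cons (fin 974 6 973)
(mv 1292 (cons (fin 1228 5 1036)
(mv 1356 (cons (fin 1293 5 1100)
(mv 1230 (cons (fin 1294 4 1037)
(mv 972 (cons (fin 1036 7 972)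
(mv 973 (cons (fin 908 7 908)
(fin 1166 4 973)))))))))))))))))
(mv 1039 (cons (cons (mv 1104 (cons (fin 1105 0 1037)
(mv 1103 (cons (fin 1036 0 1036)
(mv 972 (cons (fin 973 3 972)
(mv 976 (cons (fin 977 2 973)
(mv 1167 (cons (fin 912 5 911)
(fin 1231 6 975)))))))))))
(mv 972 (cons (fin 973 3 972)
(mv 1036 (cons (fin 971 3 971)
(mv 976 (cons (fin 975 2 972)
(fin 977 2 973))))))))
(cons (mv 1104 (cons (fin 1105 0 1037)
(mv 1103 (cons (fin 1036 0 1036)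
(mv 976 (cons (fin 977 2 973)
(mv 1167 (cons (fin 912 5 911)
(fin 1231 6 975)))))))))
(cons (mv 1104 (cons (fin 1105 0 1037)
(mv 1036 (cons (fin 1103 0 1036)
(mv 972 (cons (fin 971 3 971)
(fin 973 3 972)))))))
(mv 1104 (cons (fin 1105 0 1037)
(mv 972 (cons (fin 973 3 972)
(mv 976 (cons (fin 977 2 973)
(mv 1168 (cons (mv 975 (cons (fin 1232 7 975)
(fin 911 7 911)))
(cons (mv 1231 (cons (fin 1167 5 975)
(mv 1232 (cons (fin 1295 5 1039)
(mv 1233 (cons (fin 1297 4 1040)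
(fin 1169 4 976)))))))
(mv 1231 (cons (fin 1167 5 975)
(mv 1233 (cons (fin 1169 4 976)
(mv 911 (cons (fin 975 7 911)
(mv 912 (cons (fin 847 7 847)
(mv 848 (cons (fin 1103 5 847)
(mv 849 (cons (fin 913 6 848)
(fin 785 6 784))))))))))))))))))))))))))))
(cons (cons (mv 1039 (cons (fin 1100 1 1036)
(mv 1104 (cons (fin 1105 0 1037)
(mv 1103 (cons (fin 1036 0 1036)
(mv 976 (cons (fin 977 2 973)
(mv 1167 (cons (fin 912 5 911)
(fin 1231 6 975)))))))))))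
(mv 1039 (cons (fin 1100 1 1036)
(mv 972 (cons (fin 973 3 972)
(mv 1036 (cons (fin 971 3 971)
(mv 976 (cons (fin 975 2 972)
(fin 977 2 973))))))))))
(cons (mv 1039 (cons (fin 1100 1 1036)
(mv 1104 (cons (fin 1105 0 1037)
(mv 1036 (cons (fin 1103 0 1036)
(mv 972 (cons (fin 971 3 971)
(fin 973 3 972)))))))))
(mv 1039 (cons (fin 1100 1 1036)
(mv 1104 (cons (fin 1105 0 1037)
(mv 972 (cons (fin 973 3 972)
(mv 976 (cons (fin 977 2 973)
(mv 1168 (cons (mv 975 (cons (fin 1232 7 975)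
(fin 911 7 911)))
(cons (mv 1231 (cons (fin 1167 5 975)
(mv 1232 (cons (fin 1295 5 1039)
(mv 1233 (cons (fin 1297 4 1040)
(fin 1169 4 976)))))))
(mv 1231 (cons (fin 1167 5 975)
(mv 1233 (cons (fin 1169 4 976)
(mv 911 (cons (fin 975 7 911)
(mv 912 (cons (fin 847 7 847)
(mv 848 (cons (fin 1103 5 847)
(mv 849 (cons (fin 913 6 848)
(fin 785 6 784))))))))))))))))))))))))))))
(cons (mv 1165 (cons (cons (cons (mv 1229 (cons (cons (mv 1292 (cons (fin 1228 5 1036)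
(mv 1356 (cons (fin 1293 5 1100)
(mv 1230 (cons (fin 1294 4 1037)
(mv 972 (cons (fin 1036 7 972)
(mv 973 (cons (fin 908 7 908)
(fin 1166 4 973)))))))))))
(mv 1294 (cons (fin 1230 4 1037)
(mv 1293 (cons (fin 1358 4 1101)
(mv 1036 (cons (fin 1100 7 1036)
(fin 972 7 972))))))))
(cons (mv 1292 (cons (fin 1228 5 1036)
(mv 1293 (cons (fin 1356 5 1100)
(mv 1036 (cons (fin 1100 7 1036)
(fin 972 7 972)))))))
(cons (mv 1292 (cons (fin 1228 5 1036)
(mv 1293 (cons (fin 1356 5 1100)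
(mv 1294 (cons (fin 1358 4 1101)
(fin 1230 4 1037)))))))
(mv 1292 (cons (fin 1228 5 1036)
(mv 1230 (cons (fin 1294 4 1037)
(mv 972 (cons (fin 1036 7 972)
(mv 973 (cons (fin 908 7 908)
(fin 1166 4 973)))))))))))))
(mv 973 (cons (cons (mv 1228 (cons (fin 1164 5 972)
(mv 1166 (cons (fin 1230 4 973)
(mv 908 (cons (fin 972 7 908)
(mv 909 (cons (fin 844 7 844)
(fin 1102 4 909)))))))))
(mv 1166 (cons (fin 1230 4 973)
(mv 908 (cons (fin 972 7 908)
(mv 909 (cons (fin 844 7 844)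
(fin 1102 4 909))))))))
(cons (mv 1164 (cons (fin 1228 5 972)
(mv 908 (cons (fin 972 7 908)
(mv 909 (cons (fin 1100 5 908)
(fin 844 7 844)))))))
(cons (mv 1164 (cons (fin 1228 5 972)
(mv 1166 (cons (fin 1230 4 973)
(mv 909 (cons (fin 1100 5 908)
(fin 1102 4 909)))))))
(mv 1164 (cons (fin 1228 5 972)
(mv 1166 (cons (fin 1230 4 973)
(mv 972 (cons (fin 908 7 908)
(mv 1163 (cons (cons (mv 1102 (cons (fin 1162 2 1098)
(fin 1103 2 1099)))
(mv 1226 (cons (fin 1227 1 1162)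
(mv 1225 (cons (fin 1162 1 1161)
(mv 1099 (cons (fin 1098 3 1098)
(mv 1167 (cons (fin 1100 3 1099)
(mv 1231 (cons (fin 1232 0 1164)
(mv 1104 (cons (fin 1103 2 1100)
(mv 1168 (cons (fin 1105 2 1101)
(fin 976 5 975))))))))))))))))
(cons (mv 1226 (cons (fin 1227 1 1162)
(mv 1098 (cons (fin 1099 3 1098)
(mv 1103 (cons (fin 1102 2 1099)
(mv 1167 (cons (fin 1104 2 1100)
(mv 1232 (cons (fin 1231 0 1164)
(mv 1168 (cons (fin 1100 3 1100)
(fin 1233 0 1165)))))))))))))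
(mv 1226 (cons (fin 1227 1 1162)
(mv 1162 (cons (fin 1225 1 1161)
(fin 1102 2 1098)))))))))))))))))))
(cons (mv 1229 (cons (cons (mv 1292 (cons (fin 1228 5 1036)
(mv 1293 (cons (fin 1356 5 1100)
(mv 1294 (cons (fin 1358 4 1101)
(fin 1230 4 1037)))))))
(mv 1294 (cons (fin 1230 4 1037)
(mv 1293 (cons (fin 1358 4 1101)
(mv 1036 (cons (fin 1100 7 1036)
(fin 972 7 972))))))))
(cons (mv 1292 (cons (fin 1228 5 1036)
(mv 1293 (cons (fin 1356 5 1100)
(mv 1036 (cons (fin 1100 7 1036)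
(fin 972 7 972)))))))
(mv 1228 (cons (fin 1292 5 1036)
(mv 1230 (cons (fin 1294 4 1037)
(mv 1036 (cons (fin 972 7 972)
(mv 1227 (cons (cons (mv 1166 (cons (fin 1226 2 1162)
(fin 1167 2 1163)))
(mv 1290 (cons (fin 1291 1 1226)
(mv 1289 (cons (fin 1226 1 1225)
(mv 1163 (cons (fin 1162 3 1162)
(mv 1231 (cons (fin 1164 3 1163)
(mv 1295 (cons (fin 1296 0 1228)
(mv 1168 (cons (fin 1167 2 1164)
(mv 1232 (cons (fin 1169 2 1165)
(fin 1104 5 1039))))))))))))))))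
(cons (mv 1290 (cons (fin 1291 1 1226)
(mv 1162 (cons (fin 1163 3 1162)
(mv 1167 (cons (fin 1166 2 1163)
(mv 1231 (cons (fin 1168 2 1164)
(mv 1296 (cons (fin 1295 0 1228)
(mv 1232 (cons (fin 1164 3 1164)
(fin 1297 0 1229)))))))))))))
(mv 1290 (cons (fin 1291 1 1226)
(mv 1226 (cons (fin 1289 1 1225)
(fin 1166 2 1162)))))))))))))))))
(mv 1229 (cons (cons (mv 1294 (cons (fin 1230 4 1037)
(mv 1293 (cons (fin 1358 4 1101)
(mv 1036 (cons (fin 1100 7 1036)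
(fin 972 7 972)))))))
(mv 1036 (cons (fin 972 7 972)
(mv 1293 (cons (fin 1100 7 1036)
(mv 1356 (cons (fin 1292 5 1100)
(mv 1357 (cons (fin 1420 5 1164)
(mv 1358 (cons (fin 1422 4 1165)
(fin 1294 4 1101))))))))))))
(cons (mv 1293 (cons (cons (mv 1294 (cons (fin 1358 4 1101)
(fin 1230 4 1037)))
(mv 1356 (cons (fin 1292 5 1100)
(mv 1357 (cons (fin 1420 5 1164)
(mv 1422 (cons (fin 1358 4 1165)
(mv 1486 (cons (fin 1421 4 1229)
(mv 1164 (cons (fin 1100 7 1100)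
(mv 1166 (cons (fin 1102 6 1101)
(mv 1230 (cons (fin 973 4 973)
(mv 1231 (cons (fin 1232 3 1164)
(fin 1163 0 1163))))))))))))))))))
(cons (mv 1356 (cons (fin 1292 5 1100)
(mv 1357 (cons (fin 1420 5 1164)
(mv 1358 (cons (fin 1422 4 1165)
(fin 1294 4 1101)))))))
(mv 1356 (cons (fin 1292 5 1100)
(mv 1357 (cons (fin 1420 5 1164)
(mv 1230 (cons (fin 1294 4 1037)
(mv 1166 (cons (fin 973 4 973)
(fin 1421 6 1165))))))))))))
(cons (mv 1036 (cons (fin 972 7 972)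
(mv 1293 (cons (fin 1100 7 1036)
(mv 1356 (cons (fin 1292 5 1100)
(mv 1357 (cons (fin 1420 5 1164)
(mv 1422 (cons (fin 1358 4 1165)
(mv 1421 (cons (fin 1486 4 1229)
(mv 1166 (cons (fin 1230 6 1165)
(fin 1102 6 1101)))))))))))))))
(mv 1230 (cons (fin 1294 4 1037)
(mv 972 (cons (fin 1036 7 972)
(mv 973 (cons (fin 908 7 908)
(fin 1166 4 973)))))))))))))
(cons (cons (mv 1229 (cons (cons (mv 1292 (cons (fin 1228 5 1036)
(mv 1293 (cons (fin 1356 5 1100)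
(mv 1036 (cons (fin 1100 7 1036)
(fin 972 7 972)))))))
(mv 1036 (cons (fin 972 7 972)
(mv 1293 (cons (fin 1100 7 1036)
(mv 1356 (cons (fin 1292 5 1100)
(mv 1357 (cons (fin 1420 5 1164)
(mv 1358 (cons (fin 1422 4 1165)
(fin 1294 4 1101))))))))))))
(cons (mv 1293 (cons (cons (mv 1292 (cons (fin 1356 5 1100)
(fin 1228 5 1036)))
(mv 1358 (cons (fin 1294 4 1101)
(mv 1357 (cons (fin 1422 4 1165)
(mv 1420 (cons (fin 1356 5 1164)
(mv 1484 (cons (fin 1421 5 1228)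
(mv 1164 (cons (fin 1100 7 1100)
(mv 1228 (cons (fin 973 5 972)
(mv 1166 (cons (fin 1102 6 1101)
(mv 1227 (cons (fin 1167 1 1163)
(fin 1226 2 1162))))))))))))))))))
(cons (mv 1356 (cons (fin 1292 5 1100)
(mv 1357 (cons (fin 1420 5 1164)
(mv 1358 (cons (fin 1422 4 1165)
(fin 1294 4 1101)))))))
(mv 1358 (cons (fin 1294 4 1101)
(mv 1357 (cons (fin 1422 4 1165)
(mv 1228 (cons (fin 1292 5 1036)
(mv 1164 (cons (fin 973 5 972)
(fin 1421 7 1164))))))))))))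
(cons (mv 972 (cons (fin 1036 7 972)
(mv 973 (cons (fin 908 7 908)
(mv 1164 (cons (fin 1228 5 972)
(mv 1102 (cons (cons (mv 909 (cons (fin 1100 5 908)
(fin 1166 4 909)))
(mv 1162 (cons (fin 1163 2 1098)
(mv 1103 (cons (fin 1104 1 1100)
(mv 1100 (cons (fin 1039 2 1036)
(mv 1357 (cons (fin 1293 7 1100)
(mv 1167 (cons (fin 1168 0 1100)
(mv 1099 (cons (fin 1166 3 1099)
(mv 1098 (cons (fin 1161 1 1097)
(fin 1097 0 1097))))))))))))))))
(cons (mv 1163 (cons (fin 1162 2 1098)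
(mv 1166 (cons (fin 1103 2 1099)
(fin 909 4 909)))))
(mv 1162 (cons (fin 1163 2 1098)
(mv 1100 (cons (fin 909 5 908)
(mv 1103 (cons (fin 1104 1 1100)
(fin 1039 2 1036))))))))))))))))
(mv 1228 (cons (fin 1292 5 1036)
(mv 972 (cons (fin 1036 7 972)
(mv 973 (cons (fin 1164 5 972)
(fin 908 7 908)))))))))))
(mv 1229 (cons (cons (mv 1292 (cons (fin 1228 5 1036)
(mv 1293 (cons (fin 1356 5 1100)
(mv 1294 (cons (fin 1358 4 1101)
(fin 1230 4 1037)))))))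
(cons (mv 1294 (cons (fin 1230 4 1037)
(mv 1293 (cons (fin 1358 4 1101)
(mv 1356 (cons (fin 1292 5 1100)
(mv 1357 (cons (fin 1420 5 1164)
(mv 1100 (cons (fin 1164 7 1100)
(fin 1036 7 1036)))))))))))
(mv 1292 (cons (fin 1228 5 1036)
(mv 1293 (cons (fin 1356 5 1100)
(mv 1358 (cons (fin 1294 4 1101)
(mv 1357 (cons (fin 1422 4 1165)
(mv 1100 (cons (fin 1164 7 1100)
(fin 1036 7 1036)))))))))))))
(cons (mv 1294 (cons (fin 1230 4 1037)
(mv 1293 (cons (fin 1358 4 1101)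
(mv 1100 (cons (fin 1036 7 1036)
(mv 1164 (cons (fin 1357 7 1100)
(mv 973 (cons (fin 1228 5 972)
(fin 909 5 908)))))))))))
(cons (mv 1292 (cons (fin 1228 5 1036)
(mv 1293 (cons (fin 1356 5 1100)
(mv 1100 (cons (fin 1036 7 1036)
(mv 1357 (cons (fin 1164 7 1100)
(mv 1422 (cons (fin 1358 4 1165)
(mv 1421 (cons (fin 1486 4 1229)
(mv 1166 (cons (fin 1230 6 1165)
(fin 1102 6 1101)))))))))))))))
(mv 1228 (cons (fin 1292 5 1036)
(mv 1230 (cons (fin 1294 4 1037)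
(mv 973 (cons (fin 1164 5 972)
(fin 1166 4 973))))))))))))
(cons (mv 1229 (cons (cons (mv 1292 (cons (fin 1228 5 1036)
(mv 1293 (cons (fin 1356 5 1100)
(mv 1294 (cons (fin 1358 4 1101)
(fin 1230 4 1037)))))))
(mv 1294 (cons (fin 1230 4 1037)
(mv 1293 (cons (fin 1358 4 1101)
(mv 1036 (cons (fin 1100 7 1036)
(fin 972 7 972))))))))
(cons (mv 1292 (cons (fin 1228 5 1036)
(mv 1293 (cons (fin 1356 5 1100)
(mv 1036 (cons (fin 1100 7 1036)
(fin 972 7 972)))))))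
(mv 1294 (cons (fin 1230 4 1037)
(mv 1228 (cons (fin 1292 5 1036)
(mv 972 (cons (fin 1036 7 972)
(mv 973 (cons (fin 1164 5 972)
(fin 908 7 908))))))))))))
(mv 1229 (cons (cons (mv 1292 (cons (fin 1228 5 1036)
(mv 1356 (cons (fin 1293 5 1100)
(mv 1230 (cons (fin 1294 4 1037)
(mv 972 (cons (fin 1036 7 972)
(mv 973 (cons (fin 908 7 908)
(fin 1166 4 973)))))))))))
(mv 1228 (cons (fin 1292 5 1036)
(mv 972 (cons (fin 1036 7 972)
(mv 973 (cons (fin 1164 5 972)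
(fin 908 7 908))))))))
(cons (mv 1230 (cons (fin 1294 4 1037)
(mv 972 (cons (fin 1036 7 972)
(mv 973 (cons (fin 908 7 908)
(fin 1166 4 973)))))))
(mv 1292 (cons (fin 1228 5 1036)
(mv 1293 (cons (fin 1356 5 1100)
(mv 1294 (cons (fin 1358 4 1101)
(fin 1230 4 1037))))))))))))))
(mv 1165 (cons (cons (mv 1229 (cons (cons (mv 1292 (cons (fin 1228 5 1036)
(mv 1356 (cons (fin 1293 5 1100)
(mv 1294 (cons (fin 1230 4 1037)
(mv 1038 (cons (fin 974 6 973)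
(mv 972 (cons (fin 1036 7 972)
(mv 973 (cons (fin 1039 3 972)
(fin 908 7 908)))))))))))))
(cons (mv 1292 (cons (fin 1228 5 1036)
(mv 1356 (cons (fin 1293 5 1100)
(mv 1038 (cons (fin 974 6 973)
(mv 972 (cons (fin 1036 7 972)
(mv 973 (cons (fin 1039 3 972)
(fin 908 7 908)))))))))))
(mv 1294 (cons (fin 1230 4 1037)
(mv 1358 (cons (fin 1293 4 1101)
(mv 1038 (cons (fin 974 6 973)
(mv 972 (cons (fin 1036 7 972)
(mv 973 (cons (fin 1039 3 972)
(fin 908 7 908)))))))))))))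
(cons (mv 1292 (cons (fin 1228 5 1036)
(mv 1356 (cons (fin 1293 5 1100)
(mv 1230 (cons (fin 1294 4 1037)
(mv 972 (cons (fin 1036 7 972)
(mv 973 (cons (fin 908 7 908)
(fin 1166 4 973)))))))))))
(cons (mv 1292 (cons (fin 1228 5 1036)
(mv 1293 (cons (fin 1356 5 1100)
(mv 1294 (cons (fin 1358 4 1101)
(fin 1230 4 1037)))))))
(mv 1292 (cons (fin 1228 5 1036)
(mv 1294 (cons (fin 1230 4 1037)
(mv 1038 (cons (fin 974 6 973)
(mv 972 (cons (fin 1036 7 972)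
(mv 973 (cons (fin 1039 3 972)
(fin 908 7 908)))))))))))))))
(cons (mv 973 (cons (cons (mv 1228 (cons (fin 1164 5 972)
(mv 1166 (cons (fin 1230 4 973)
(mv 1102 (cons (fin 909 4 909)
(mv 972 (cons (fin 908 7 908)
(mv 1039 (cons (fin 1038 3 972)
(mv 975 (cons (fin 974 0 972)
(mv 1103 (cons (fin 911 5 910)
(mv 1104 (cons (fin 1105 1 1101)
(fin 1036 3 1036)))))))))))))))))
(cons (mv 1164 (cons (fin 1228 5 972)
(mv 1166 (cons (fin 1230 4 973)
(mv 1102 (cons (fin 909 4 909)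
(mv 1163 (cons (fin 1162 2 1098)
(fin 1103 2 1099)))))))))
(mv 1228 (cons (fin 1164 5 972)
(mv 909 (cons (cons (mv 908 (cons (fin 972 7 908)
(fin 844 7 844)))
(mv 845 (cons (cons (mv 1102 (cons (fin 1038 4 845)
(mv 780 (cons (fin 844 7 780)
(mv 781 (cons (fin 716 7 716)
(mv 782 (cons (fin 846 6 781)
(fin 718 6 717)))))))))
(mv 780 (cons (fin 844 7 780)
(mv 781 (cons (fin 716 7 716)
(mv 782 (cons (fin 846 6 781)
(fin 718 6 717))))))))
(cons (mv 1038 (cons (fin 1102 4 845)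
(mv 1039 (cons (fin 972 3 972)
(mv 1104 (cons (fin 1105 0 1037)
(mv 1103 (cons (fin 1036 0 1036)
(mv 974 (cons (fin 781 4 781)
(mv 1231 (cons (fin 1167 7 974)
(mv 976 (cons (fin 977 2 973)
(mv 912 (cons (fin 848 5 847)
(mv 913 (cons (fin 975 2 909)
(fin 849 6 848)))))))))))))))))))
(mv 1038 (cons (fin 1102 4 845)
(mv 1039 (cons (fin 972 3 972)
(mv 1104 (cons (fin 1105 0 1037)
(mv 1103 (cons (fin 1036 0 1036)
(mv 976 (cons (fin 977 2 973)
(mv 1167 (cons (fin 912 5 911)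
(fin 1231 6 975)))))))))))))))))
(cons (mv 844 (cons (fin 908 7 844)
(mv 845 (cons (fin 780 7 780)
(mv 1038 (cons (fin 1102 4 845)
(mv 781 (cons (fin 974 4 781)
(mv 782 (cons (fin 846 6 781)
(fin 718 6 717)))))))))))
(mv 972 (cons (fin 908 7 908)
(mv 1038 (cons (fin 1039 3 972)
(mv 970 (cons (fin 971 0 970)
(mv 845 (cons (fin 1102 4 845)
(mv 781 (cons (fin 1036 5 780)
(fin 974 4 781))))))))))))))))))
(cons (cons (mv 1166 (cons (fin 1230 4 973)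
(mv 1102 (cons (fin 909 4 909)
(mv 972 (cons (fin 908 7 908)
(mv 1039 (cons (fin 1038 3 972)
(mv 975 (cons (fin 974 0 972)
(mv 1103 (cons (fin 911 5 910)
(mv 1104 (cons (fin 1105 1 1101)
(fin 1036 3 1036)))))))))))))))
(mv 1228 (cons (fin 1164 5 972)
(mv 1166 (cons (fin 1230 4 973)
(mv 972 (cons (fin 908 7 908)
(mv 1039 (cons (fin 1038 3 972)
(mv 975 (cons (fin 974 0 972)
(mv 1104 (cons (cons (mv 1232 (cons (fin 1168 7 975)
(mv 911 (cons (fin 847 4 847)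
(mv 1103 (cons (fin 1102 5 910)
(mv 912 (cons (fin 848 6 847)
(mv 1167 (cons (fin 976 5 911)
(mv 1231 (cons (fin 1296 4 1039)
(fin 1295 6 1039)))))))))))))
(mv 911 (cons (fin 847 4 847)
(mv 1103 (cons (fin 1102 5 910)
(mv 912 (cons (fin 848 6 847)
(mv 1105 (cons (cons (mv 1167 (cons (fin 1106 1 1102)
(fin 976 5 911)))
(mv 1106 (cons (fin 1167 1 1102)
(fin 1107 3 1039))))
(cons (mv 1169 (cons (fin 976 4 912)
(mv 1233 (cons (fin 1297 7 1040)
(mv 1106 (cons (fin 1107 3 1039)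
(mv 1170 (cons (fin 1171 0 1103)
(mv 1042 (cons (fin 1043 2 1039)
(fin 978 5 977)))))))))))
(mv 976 (cons (fin 1167 5 911)
(fin 1169 4 912)))))))))))))
(cons (mv 1168 (cons (fin 1232 7 975)
(mv 1167 (cons (fin 1105 2 1101)
(mv 1231 (cons (fin 976 5 975)
(mv 1295 (cons (fin 1359 6 1103)
(fin 1103 6 1039)))))))))
(cons (mv 1168 (cons (fin 1232 7 975)
(mv 911 (cons (fin 976 7 911)
(fin 847 4 847)))))
(mv 1168 (cons (fin 1232 7 975)
(mv 911 (cons (fin 1103 4 911)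
(fin 847 4 847))))))))))))))))))))
(cons (mv 1164 (cons (fin 1228 5 972)
(mv 1166 (cons (fin 1230 4 973)
(mv 972 (cons (fin 908 7 908)
(mv 1039 (cons (fin 1038 3 972)
(mv 975 (cons (fin 974 0 972)
(mv 1167 (cons (cons (mv 1231 (cons (fin 1232 0 1164)
(mv 1103 (cons (fin 1104 2 1100)
(fin 976 6 975)))))
(mv 1232 (cons (fin 1231 0 1164)
(mv 1168 (cons (fin 1233 0 1165)
(fin 1103 4 975))))))
(cons (mv 1232 (cons (fin 1231 0 1164)
(mv 1168 (cons (fin 1233 0 1165)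
(fin 1104 7 975)))))
(cons (mv 1103 (cons (fin 1104 2 1100)
(mv 976 (cons (fin 1231 6 975)
(fin 912 6 911)))))
(mv 1104 (cons (fin 1103 2 1100)
(mv 1168 (cons (fin 1105 2 1101)
(fin 1232 7 975)))))))))))))))))))
(mv 1228 (cons (fin 1164 5 972)
(mv 1166 (cons (fin 1230 4 973)
(mv 908 (cons (fin 972 7 908)
(mv 909 (cons (fin 844 7 844)
(fin 1102 4 909)))))))))))))
(mv 1229 (cons (cons (mv 1292 (cons (fin 1228 5 1036)
(mv 1293 (cons (fin 1356 5 1100)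
(mv 1294 (cons (fin 1358 4 1101)
(fin 1230 4 1037)))))))
(mv 1292 (cons (fin 1228 5 1036)
(mv 1293 (cons (fin 1356 5 1100)
(mv 1038 (cons (fin 1102 6 1037)
(fin 974 6 973))))))))
(cons (mv 1294 (cons (fin 1230 4 1037)
(mv 1293 (cons (fin 1358 4 1101)
(mv 1038 (cons (fin 1102 6 1037)
(fin 974 6 973)))))))
(mv 1292 (cons (fin 1228 5 1036)
(mv 1294 (cons (fin 1230 4 1037)
(mv 1036 (cons (fin 972 7 972)
(mv 1038 (cons (fin 974 6 973)
(mv 1035 (cons (mv 1102 (cons (fin 1034 0 1034)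
(fin 1103 0 1035)))
(cons (mv 1098 (cons (fin 1099 1 1034)
(mv 1034 (cons (fin 1097 1 1033)
(mv 970 (cons (fin 969 3 969)
(fin 971 3 970)))))))
(mv 1098 (cons (fin 1099 1 1034)
(mv 1103 (cons (fin 1102 0 1035)
(mv 1039 (cons (fin 1104 0 1036)
(mv 976 (cons (fin 975 2 972)
(fin 977 2 973)))))))))))))))))))))))))
(cons (cons (mv 1229 (cons (cons (mv 1292 (cons (fin 1228 5 1036)
(mv 1356 (cons (fin 1293 5 1100)
(mv 1038 (cons (fin 974 6 973)
(mv 972 (cons (fin 1036 7 972)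
(mv 973 (cons (fin 1039 3 972)
(fin 908 7 908)))))))))))
(mv 1228 (cons (fin 1292 5 1036)
(mv 972 (cons (fin 1036 7 972)
(mv 973 (cons (fin 1164 5 972)
(fin 908 7 908))))))))
(cons (mv 1036 (cons (fin 972 7 972)
(mv 1038 (cons (fin 974 6 973)
(mv 1293 (cons (fin 1102 6 1037)
(mv 1356 (cons (fin 1292 5 1100)
(mv 1357 (cons (fin 1420 5 1164)
(mv 1358 (cons (fin 1422 4 1165)
(fin 1294 4 1101)))))))))))))
(cons (mv 1292 (cons (fin 1228 5 1036)
(mv 1293 (cons (fin 1356 5 1100)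
(mv 1038 (cons (fin 1102 6 1037)
(fin 974 6 973)))))))
(mv 1036 (cons (fin 972 7 972)
(mv 1038 (cons (fin 974 6 973)
(mv 1102 (cons (fin 1293 6 1037)
(mv 1103 (cons (fin 1104 3 1036)
(fin 1035 0 1035)))))))))))))
(mv 1229 (cons (cons (mv 1292 (cons (fin 1228 5 1036)
(mv 1293 (cons (fin 1356 5 1100)
(mv 1294 (cons (fin 1358 4 1101)
(fin 1230 4 1037)))))))
(mv 1292 (cons (fin 1228 5 1036)
(mv 1293 (cons (fin 1356 5 1100)
(mv 1038 (cons (fin 1102 6 1037)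
(fin 974 6 973))))))))
(cons (mv 1294 (cons (fin 1230 4 1037)
(mv 1293 (cons (fin 1358 4 1101)
(mv 1038 (cons (fin 1102 6 1037)
(fin 974 6 973)))))))
(mv 1228 (cons (fin 1292 5 1036)
(mv 1230 (cons (fin 1294 4 1037)
(mv 973 (cons (fin 1164 5 972)
(fin 1166 4 973)))))))))))
(cons (mv 1229 (cons (cons (mv 1294 (cons (fin 1230 4 1037)
(mv 1358 (cons (fin 1293 4 1101)
(mv 1038 (cons (fin 974 6 973)
(mv 972 (cons (fin 1036 7 972)
(mv 973 (cons (fin 1039 3 972)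
(fin 908 7 908)))))))))))
(mv 1036 (cons (fin 972 7 972)
(mv 1038 (cons (fin 974 6 973)
(mv 1293 (cons (fin 1102 6 1037)
(mv 1356 (cons (fin 1292 5 1100)
(mv 1357 (cons (fin 1420 5 1164)
(mv 1358 (cons (fin 1422 4 1165)
(fin 1294 4 1101))))))))))))))
(cons (mv 1230 (cons (fin 1294 4 1037)
(mv 972 (cons (fin 1036 7 972)
(mv 973 (cons (fin 908 7 908)
(fin 1166 4 973)))))))
(cons (mv 1036 (cons (fin 972 7 972)
(mv 1038 (cons (fin 974 6 973)
(mv 1102 (cons (fin 1293 6 1037)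
(mv 1103 (cons (fin 1104 3 1036)
(fin 1035 0 1035)))))))))
(mv 1294 (cons (fin 1230 4 1037)
(mv 1293 (cons (fin 1358 4 1101)
(mv 1038 (cons (fin 1102 6 1037)
(fin 974 6 973)))))))))))
(mv 1229 (cons (cons (mv 1292 (cons (fin 1228 5 1036)
(mv 1356 (cons (fin 1293 5 1100)
(mv 1230 (cons (fin 1294 4 1037)
(mv 972 (cons (fin 1036 7 972)
(mv 973 (cons (fin 908 7 908)
(fin 1166 4 973)))))))))))
(mv 1228 (cons (fin 1292 5 1036)
(mv 972 (cons (fin 1036 7 972)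
(mv 973 (cons (fin 1164 5 972)
(fin 908 7 908))))))))
(cons (mv 1230 (cons (fin 1294 4 1037)
(mv 972 (cons (fin 1036 7 972)
(mv 973 (cons (fin 908 7 908)
(fin 1166 4 973)))))))
(mv 1292 (cons (fin 1228 5 1036)
(mv 1293 (cons (fin 1356 5 1100)
(mv 1294 (cons (fin 1358 4 1101)
(fin 1230 4 1037))))))))))))))))
(cons (mv 1165 (cons (cons (mv 1229 (cons (cons (mv 1292 (cons (fin 1228 5 1036)
(mv 1356 (cons (fin 1293 5 1100)
(mv 1230 (cons (fin 1294 4 1037)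
(mv 1038 (cons (fin 974 6 973)
(mv 972 (cons (fin 1036 7 972)
(mv 973 (cons (fin 908 7 908)
(fin 1166 4 973)))))))))))))
(mv 1294 (cons (fin 1230 4 1037)
(mv 1293 (cons (fin 1358 4 1101)
(mv 1036 (cons (fin 1100 7 1036)
(fin 972 7 972))))))))
(cons (mv 1292 (cons (fin 1228 5 1036)
(mv 1293 (cons (fin 1356 5 1100)
(mv 1036 (cons (fin 1100 7 1036)
(fin 972 7 972)))))))
(cons (mv 1292 (cons (fin 1228 5 1036)
(mv 1293 (cons (fin 1356 5 1100)
(mv 1294 (cons (fin 1358 4 1101)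
(fin 1230 4 1037)))))))
(mv 1292 (cons (fin 1228 5 1036)
(mv 1230 (cons (fin 1294 4 1037)
(mv 1038 (cons (fin 974 6 973)
(mv 972 (cons (fin 1036 7 972)
(mv 973 (cons (fin 908 7 908)
(fin 1166 4 973)))))))))))))))
(cons (mv 973 (cons (cons (mv 1228 (cons (fin 1164 5 972)
(mv 1166 (cons (fin 1230 4 973)
(mv 908 (cons (fin 972 7 908)
(mv 909 (cons (fin 844 7 844)
(fin 1102 4 909)))))))))
(mv 1166 (cons (fin 1230 4 973)
(mv 908 (cons (fin 972 7 908)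
(mv 909 (cons (fin 844 7 844)
(fin 1102 4 909))))))))
(cons (mv 1164 (cons (fin 1228 5 972)
(mv 908 (cons (fin 972 7 908)
(mv 909 (cons (fin 1100 5 908)
(fin 844 7 844)))))))
(cons (mv 1164 (cons (fin 1228 5 972)
(mv 1166 (cons (fin 1230 4 973)
(mv 909 (cons (fin 1100 5 908)
(fin 1102 4 909)))))))
(mv 1164 (cons (fin 1228 5 972)
(mv 1166 (cons (fin 1230 4 973)
(mv 972 (cons (fin 908 7 908)
(mv 1163 (cons (cons (mv 1102 (cons (fin 1162 2 1098)
(fin 1103 2 1099)))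
(mv 1226 (cons (fin 1227 1 1162)
(mv 1225 (cons (fin 1162 1 1161)
(mv 1099 (cons (fin 1098 3 1098)
(mv 1167 (cons (fin 1100 3 1099)
(mv 1231 (cons (fin 1232 0 1164)
(mv 1104 (cons (fin 1103 2 1100)
(mv 1168 (cons (fin 1105 2 1101)
(fin 976 5 975))))))))))))))))
(cons (mv 1226 (cons (fin 1227 1 1162)
(mv 1098 (cons (fin 1099 3 1098)
(mv 1103 (cons (fin 1102 2 1099)
(mv 1167 (cons (fin 1104 2 1100)
(mv 1232 (cons (fin 1231 0 1164)
(mv 1168 (cons (fin 1100 3 1100)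
(fin 1233 0 1165)))))))))))))
(mv 1226 (cons (fin 1227 1 1162)
(mv 1162 (cons (fin 1225 1 1161)
(fin 1102 2 1098))))))))))))))))))
(mv 1229 (cons (cons (mv 1292 (cons (fin 1228 5 1036)
(mv 1293 (cons (fin 1356 5 1100)
(mv 1294 (cons (fin 1358 4 1101)
(fin 1230 4 1037)))))))
(mv 1294 (cons (fin 1230 4 1037)
(mv 1293 (cons (fin 1358 4 1101)
(mv 1036 (cons (fin 1100 7 1036)
(fin 972 7 972))))))))
(cons (mv 1292 (cons (fin 1228 5 1036)
(mv 1293 (cons (fin 1356 5 1100)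
(mv 1036 (cons (fin 1100 7 1036)
(fin 972 7 972)))))))
(mv 1294 (cons (fin 1230 4 1037)
(mv 1228 (cons (fin 1292 5 1036)
(mv 1036 (cons (fin 972 7 972)
(mv 1038 (cons (fin 974 6 973)
(mv 1035 (cons (mv 1102 (cons (fin 1034 0 1034)
(fin 1103 0 1035)))
(cons (mv 1098 (cons (fin 1099 1 1034)
(mv 1034 (cons (fin 1097 1 1033)
(mv 970 (cons (fin 969 3 969)
(fin 971 3 970)))))))
(mv 1099 (cons (fin 1098 1 1034)
(mv 1102 (cons (fin 1103 0 1035)
(mv 971 (cons (fin 970 3 970)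
(mv 1164 (cons (fin 1100 7 971)
(fin 1163 4 971)))))))))))))))))))))))))
(cons (mv 1229 (cons (cons (mv 1294 (cons (fin 1230 4 1037)
(mv 1293 (cons (fin 1358 4 1101)
(mv 1036 (cons (fin 1100 7 1036)
(fin 972 7 972)))))))
(mv 1294 (cons (fin 1230 4 1037)
(mv 1293 (cons (fin 1358 4 1101)
(mv 1038 (cons (fin 1102 6 1037)
(fin 974 6 973))))))))
(cons (mv 1036 (cons (fin 972 7 972)
(mv 1293 (cons (fin 1100 7 1036)
(mv 1038 (cons (fin 1102 6 1037)
(fin 974 6 973)))))))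
(mv 1230 (cons (fin 1294 4 1037)
(mv 1038 (cons (fin 974 6 973)
(mv 972 (cons (fin 1036 7 972)
(mv 973 (cons (fin 908 7 908)
(fin 1166 4 973))))))))))))
(cons (mv 1229 (cons (cons (mv 1292 (cons (fin 1228 5 1036)
(mv 1293 (cons (fin 1356 5 1100)
(mv 1036 (cons (fin 1100 7 1036)
(fin 972 7 972)))))))
(mv 1292 (cons (fin 1228 5 1036)
(mv 1293 (cons (fin 1356 5 1100)
(mv 1038 (cons (fin 1102 6 1037)
(fin 974 6 973))))))))
(cons (mv 1036 (cons (fin 972 7 972)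
(mv 1293 (cons (fin 1100 7 1036)
(mv 1038 (cons (fin 1102 6 1037)
(fin 974 6 973)))))))
(mv 1228 (cons (fin 1292 5 1036)
(mv 1038 (cons (fin 974 6 973)
(mv 972 (cons (fin 1036 7 972)
(mv 973 (cons (fin 1164 5 972)
(fin 908 7 908))))))))))))
(mv 1229 (cons (cons (mv 1292 (cons (fin 1228 5 1036)
(mv 1293 (cons (fin 1356 5 1100)
(mv 1294 (cons (fin 1358 4 1101)
(fin 1230 4 1037)))))))
(mv 1294 (cons (fin 1230 4 1037)
(mv 1293 (cons (fin 1358 4 1101)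
(mv 1038 (cons (fin 1102 6 1037)
(fin 974 6 973))))))))
(cons (mv 1292 (cons (fin 1228 5 1036)
(mv 1293 (cons (fin 1356 5 1100)
(mv 1038 (cons (fin 1102 6 1037)
(fin 974 6 973)))))))
(mv 1228 (cons (fin 1292 5 1036)
(mv 1230 (cons (fin 1294 4 1037)
(mv 973 (cons (fin 1164 5 972)
(fin 1166 4 973))))))))))))))
(cons (mv 1100 (cons (cons (cons (mv 1038 (cons (fin 1039 1 1036)
(mv 1099 (cons (fin 1098 2 1034)
(mv 1102 (cons (cons (mv 1162 (cons (fin 1163 1 1098)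
(mv 1166 (cons (fin 1167 0 1099)
(mv 1230 (cons (fin 1294 7 1037)
(fin 973 7 973)))))))
(mv 1162 (cons (fin 1163 1 1098)
(mv 1035 (cons (fin 1034 3 1034)
(mv 1103 (cons (fin 1036 3 1035)
(mv 1168 (cons (fin 1167 0 1100)
(mv 1104 (cons (fin 1105 3 1037)
(fin 1169 0 1101))))))))))))
(cons (mv 1166 (cons (fin 1167 0 1099)
(mv 1230 (cons (fin 1294 7 1037)
(fin 973 7 973)))))
(mv 1162 (cons (fin 1163 1 1098)
(mv 1035 (cons (fin 1034 3 1034)
(mv 1036 (cons (fin 1103 3 1035)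
(mv 971 (cons (fin 970 3 970)
(mv 1164 (cons (fin 1228 7 971)
(fin 907 4 907))))))))))))))))))
(mv 1102 (cons (mv 1103 (cons (fin 1039 2 1036)
(mv 1036 (cons (fin 1035 3 1035)
(fin 1104 3 1036)))))
(cons (mv 1099 (cons (cons (mv 1162 (cons (fin 1163 1 1098)
(mv 1166 (cons (fin 1167 0 1099)
(mv 1294 (cons (fin 1230 7 1037)
(mv 1098 (cons (fin 1161 1 1097)
(mv 1034 (cons (fin 1033 3 1033)
(fin 1035 3 1034)))))))))))
(cons (mv 1163 (cons (fin 1162 1 1098)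
(mv 1166 (cons (fin 1167 0 1099)
(mv 1294 (cons (fin 1230 7 1037)
(mv 973 (cons (fin 909 4 909)
(mv 1036 (cons (cons (mv 1291 (cons (fin 1227 6 1035)
(mv 1164 (cons (fin 1228 6 972)
(mv 1097 (cons (fin 1098 2 1033)
(mv 972 (cons (fin 908 5 907)
(mv 971 (cons (fin 907 7 907)
(mv 970 (cons (fin 969 0 969)
(mv 906 (cons (fin 905 3 905)
(fin 1035 7 906)))))))))))))))
(mv 1227 (cons (fin 1291 6 1035)
(mv 1228 (cons (fin 1164 6 972)
(mv 1292 (cons (fin 1035 4 1035)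
(mv 1420 (cons (fin 1356 7 1163)
(mv 1293 (cons (fin 1295 3 1227)
(mv 1226 (cons (fin 1225 0 1225)
(fin 1229 0 1226))))))))))))))
(cons (mv 1227 (cons (fin 1291 6 1035)
(mv 972 (cons (fin 908 5 907)
(fin 1035 6 971)))))
(cons (mv 1164 (cons (fin 1228 6 972)
(mv 1097 (cons (fin 1098 2 1033)
(mv 972 (cons (fin 908 5 907)
(mv 971 (cons (fin 907 7 907)
(mv 970 (cons (fin 969 0 969)
(mv 906 (cons (fin 905 3 905)
(fin 1035 7 906)))))))))))))
(mv 1227 (cons (fin 1291 6 1035)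
(mv 1164 (cons (fin 972 5 971)
(fin 1228 6 972)))))))))))))))))
(mv 1162 (cons (fin 1163 1 1098)
(mv 1098 (cons (fin 1161 1 1097)
(mv 1034 (cons (fin 1033 3 1033)
(fin 1035 3 1034)))))))))
(cons (cons (mv 1162 (cons (fin 1163 1 1098)
(mv 1166 (cons (fin 1167 0 1099)
(mv 1294 (cons (fin 1230 7 1037)
(mv 1098 (cons (fin 1161 1 1097)
(mv 1097 (cons (fin 1036 2 1033)
(mv 1033 (cons (fin 1032 3 1032)
(fin 1034 3 1033)))))))))))))
(mv 1166 (cons (fin 1167 0 1099)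
(mv 1294 (cons (fin 1230 7 1037)
(mv 1034 (cons (fin 1035 3 1034)
(mv 1098 (cons (fin 1033 3 1033)
(mv 1036 (cons (fin 1097 2 1033)
(mv 973 (cons (fin 909 4 909)
(mv 1164 (cons (fin 1228 6 972)
(mv 972 (cons (mv 1163 (cons (fin 1227 5 971)
(fin 908 5 907)))
(cons (mv 907 (cons (fin 971 7 907)
(mv 908 (cons (fin 843 7 843)
(fin 844 4 844)))))
(mv 1163 (cons (fin 1227 5 971)
(mv 970 (cons (fin 906 4 906)
(mv 971 (cons (fin 969 0 969)
(fin 907 7 907)))))))))))))))))))))))))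
(cons (mv 1166 (cons (fin 1167 0 1099)
(mv 1294 (cons (fin 1230 7 1037)
(mv 1034 (cons (fin 1035 3 1034)
(mv 1098 (cons (fin 1033 3 1033)
(mv 1161 (cons (fin 1162 1 1097)
(mv 1097 (cons (fin 1160 1 1096)
(fin 1036 2 1033)))))))))))))
(mv 1163 (cons (fin 1162 1 1098)
(mv 1166 (cons (fin 1167 0 1099)
(mv 1294 (cons (fin 1230 7 1037)
(mv 1035 (cons (fin 1034 3 1034)
(mv 973 (cons (fin 909 4 909)
(mv 1164 (cons (mv 1228 (cons (fin 1292 7 1035)
(fin 971 4 971)))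
(cons (mv 971 (cons (fin 907 4 907)
(mv 970 (cons (fin 906 7 906)
(mv 972 (cons (fin 908 6 907)
(mv 1036 (cons (fin 969 0 969)
(fin 1227 5 971)))))))))
(mv 1228 (cons (fin 1292 7 1035)
(fin 1036 6 972))))))))))))))))))))
(mv 1103 (cons (fin 1039 2 1036)
(mv 1163 (cons (fin 1164 1 1099)
(mv 1167 (cons (fin 1168 0 1100)
(mv 1099 (cons (fin 1162 1 1098)
(fin 1166 0 1099)))))))))))))
(cons (mv 1164 (cons (cons (mv 1228 (cons (fin 1292 6 1036)
(mv 973 (cons (fin 909 5 908)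
(fin 1036 6 972)))))
(mv 973 (cons (fin 909 5 908)
(mv 1102 (cons (cons (mv 1163 (cons (fin 1103 1 1099)
(mv 1162 (cons (fin 1099 1 1098)
(fin 1161 2 1097)))))
(mv 1099 (cons (cons (mv 1162 (cons (fin 1163 1 1098)
(mv 1098 (cons (fin 1161 1 1097)
(fin 1038 2 1034)))))
(mv 1162 (cons (fin 1163 1 1098)
(mv 1166 (cons (fin 1167 0 1099)
(mv 1230 (cons (fin 1294 7 1037)
(fin 1038 7 973))))))))
(cons (mv 1166 (cons (fin 1167 0 1099)
(mv 1230 (cons (fin 1294 7 1037)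
(fin 1038 7 973)))))
(mv 1162 (cons (fin 1163 1 1098)
(mv 1166 (cons (fin 1167 0 1099)
(mv 1294 (cons (fin 1230 7 1037)
(mv 1098 (cons (fin 1161 1 1097)
(mv 1034 (cons (fin 1033 3 1033)
(fin 1035 3 1034)))))))))))))))
(cons (mv 1035 (cons (cons (mv 1034 (cons (fin 1099 3 1034)
(fin 1036 0 1034)))
(mv 1099 (cons (fin 1034 3 1034)
(mv 1166 (cons (fin 1167 0 1099)
(mv 1230 (cons (fin 1294 7 1037)
(fin 1038 7 973))))))))
(cons (mv 1103 (cons (fin 1036 3 1035)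
(mv 1167 (cons (fin 1168 0 1100)
(mv 1166 (cons (fin 1099 0 1099)
(mv 1230 (cons (fin 1294 7 1037)
(fin 1038 7 973)))))))))
(mv 1036 (cons (fin 1103 3 1035)
(fin 1034 0 1034))))))
(mv 1103 (cons (fin 1163 1 1099)
(mv 1036 (cons (fin 1035 3 1035)
(fin 1104 3 1036)))))))))))
(cons (mv 1292 (cons (fin 1228 6 1036)
(mv 1102 (cons (cons (mv 1163 (cons (fin 1103 1 1099)
(mv 1162 (cons (fin 1099 1 1098)
(fin 1161 2 1097)))))
(mv 1099 (cons (cons (mv 1162 (cons (fin 1163 1 1098)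
(mv 1098 (cons (fin 1161 1 1097)
(fin 1038 2 1034)))))
(mv 1163 (cons (fin 1162 1 1098)
(mv 1166 (cons (fin 1167 0 1099)
(mv 1294 (cons (fin 1230 7 1037)
(mv 1035 (cons (fin 1034 3 1034)
(mv 971 (cons (fin 907 4 907)
(mv 970 (cons (fin 906 7 906)
(mv 1036 (cons (fin 1038 3 970)
(mv 1227 (cons (fin 972 5 971)
(fin 1291 6 1035))))))))))))))))))
(cons (mv 1166 (cons (fin 1167 0 1099)
(mv 1294 (cons (fin 1230 7 1037)
(mv 1098 (cons (fin 1038 2 1034)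
(mv 1034 (cons (fin 1033 3 1033)
(fin 1035 3 1034)))))))))
(mv 1162 (cons (fin 1163 1 1098)
(mv 1166 (cons (fin 1167 0 1099)
(mv 1294 (cons (fin 1230 7 1037)
(mv 1098 (cons (fin 1161 1 1097)
(mv 1034 (cons (fin 1033 3 1033)
(fin 1035 3 1034)))))))))))))))
(cons (mv 1099 (cons (cons (mv 1166 (cons (fin 1167 0 1099)
(mv 1294 (cons (fin 1230 7 1037)
(mv 1098 (cons (fin 1038 2 1034)
(mv 1034 (cons (fin 1033 3 1033)
(fin 1035 3 1034)))))))))
(mv 1166 (cons (fin 1167 0 1099)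
(mv 1294 (cons (fin 1230 7 1037)
(mv 1098 (cons (fin 1038 2 1034)
(mv 1161 (cons (fin 1162 1 1097)
(mv 1097 (cons (fin 1160 1 1096)
(fin 1036 2 1033))))))))))))
(cons (mv 1166 (cons (fin 1167 0 1099)
(mv 1294 (cons (fin 1230 7 1037)
(mv 1035 (cons (fin 1034 3 1034)
(mv 1036 (cons (fin 1103 3 1035)
(mv 971 (cons (fin 907 4 907)
(mv 970 (cons (fin 1038 3 970)
(mv 969 (cons (fin 968 0 968)
(fin 972 0 969)))))))))))))))
(cons (mv 1098 (cons (fin 1038 2 1034)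
(mv 1034 (cons (fin 1033 3 1033)
(fin 1035 3 1034)))))
(mv 1166 (cons (fin 1167 0 1099)
(mv 1294 (cons (fin 1230 7 1037)
(mv 1034 (cons (fin 1035 3 1034)
(mv 1098 (cons (fin 1033 3 1033)
(mv 1161 (cons (fin 1162 1 1097)
(mv 1097 (cons (fin 1160 1 1096)
(fin 1036 2 1033)))))))))))))))))
(mv 1103 (cons (fin 1163 1 1099)
(mv 1036 (cons (fin 1035 3 1035)
(fin 1104 3 1036))))))))))
(mv 1292 (cons (fin 1228 6 1036)
(mv 973 (cons (fin 909 5 908)
(mv 1099 (cons (cons (mv 1098 (cons (fin 1038 2 1034)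
(mv 1161 (cons (fin 1162 1 1097)
(mv 1160 (cons (fin 1097 1 1096)
(mv 1034 (cons (fin 1033 3 1033)
(mv 1102 (cons (fin 1035 3 1034)
(mv 1167 (cons (fin 1166 0 1099)
(mv 1103 (cons (fin 1163 1 1099)
(fin 1168 0 1100)))))))))))))))
(mv 1102 (cons (mv 1163 (cons (fin 1162 1 1098)
(fin 1103 1 1099)))
(mv 1166 (cons (fin 1167 0 1099)
(mv 1230 (cons (fin 1294 7 1037)
(fin 1038 7 973))))))))
(cons (mv 1034 (cons (cons (mv 1098 (cons (fin 1033 3 1033)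
(mv 1161 (cons (fin 1162 1 1097)
(mv 1160 (cons (fin 1097 1 1096)
(mv 1102 (cons (fin 1035 3 1034)
(mv 1167 (cons (fin 1166 0 1099)
(mv 1103 (cons (fin 1163 1 1099)
(fin 1168 0 1100)))))))))))))
(cons (mv 1098 (cons (fin 1033 3 1033)
(mv 1161 (cons (fin 1162 1 1097)
(mv 1097 (cons (fin 1160 1 1096)
(mv 1289 (cons (fin 1225 6 1033)
(mv 1163 (cons (fin 1096 0 1096)
(mv 1227 (cons (fin 1291 7 1034)
(mv 970 (cons (fin 906 5 905)
(fin 1035 7 970)))))))))))))))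
(mv 1098 (cons (fin 1033 3 1033)
(mv 1162 (cons (fin 1161 1 1097)
(mv 1163 (cons (fin 1102 1 1098)
(mv 1227 (cons (fin 1291 7 1034)
(fin 970 4 970)))))))))))
(cons (mv 1102 (cons (fin 1035 3 1034)
(mv 1163 (cons (fin 1162 1 1098)
(fin 1103 1 1099)))))
(cons (mv 1098 (cons (fin 1033 3 1033)
(mv 1162 (cons (fin 1161 1 1097)
(mv 1035 (cons (fin 1102 3 1034)
(mv 1226 (cons (fin 1290 6 1034)
(fin 971 6 970)))))))))
(mv 1098 (cons (fin 1033 3 1033)
(mv 1102 (cons (fin 1035 3 1034)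
(mv 1167 (cons (fin 1166 0 1099)
(mv 1103 (cons (fin 1163 1 1099)
(fin 1168 0 1100)))))))))))))
(cons (mv 1098 (cons (fin 1038 2 1034)
(mv 1161 (cons (fin 1162 1 1097)
(mv 1097 (cons (fin 1160 1 1096)
(mv 1033 (cons (fin 1032 3 1032)
(fin 1034 3 1033)))))))))
(mv 1098 (cons (fin 1038 2 1034)
(mv 1033 (cons (fin 1034 3 1033)
(mv 1097 (cons (fin 1032 3 1032)
(mv 1160 (cons (fin 1161 1 1096)
(mv 1096 (cons (fin 1159 1 1095)
(fin 1163 0 1096))))))))))))))))))))))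
(mv 1038 (cons (fin 1039 1 1036)
(mv 1099 (cons (fin 1098 2 1034)
(mv 1102 (cons (cons (mv 1162 (cons (fin 1163 1 1098)
(mv 1166 (cons (fin 1167 0 1099)
(mv 1230 (cons (fin 1294 7 1037)
(fin 973 7 973)))))))
(mv 1162 (cons (fin 1163 1 1098)
(mv 1035 (cons (fin 1034 3 1034)
(mv 1103 (cons (fin 1036 3 1035)
(mv 1168 (cons (fin 1167 0 1100)
(mv 1104 (cons (fin 1105 3 1037)
(fin 1169 0 1101))))))))))))
(cons (mv 1162 (cons (fin 1163 1 1098)
(mv 1035 (cons (fin 1034 3 1034)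
(mv 1036 (cons (fin 1103 3 1035)
(mv 971 (cons (fin 970 3 970)
(mv 974 (cons (fin 975 2 971)
(mv 907 (cons (fin 843 4 843)
(mv 906 (cons (fin 842 7 842)
(mv 973 (cons (fin 972 3 906)
(mv 1166 (cons (fin 1230 7 973)
(fin 909 7 909)))))))))))))))))))
(mv 1166 (cons (fin 1167 0 1099)
(mv 1230 (cons (fin 1294 7 1037)
(fin 973 7 973))))))))))))))
(cons (cons (mv 1038 (cons (fin 1039 1 1036)
(mv 1099 (cons (fin 1098 2 1034)
(mv 973 (cons (cons (mv 1164 (cons (fin 909 5 908)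
(mv 1228 (cons (fin 1292 6 1036)
(fin 1036 6 972)))))
(mv 1036 (cons (cons (mv 909 (cons (fin 845 5 844)
(mv 908 (cons (fin 844 7 844)
(mv 972 (cons (fin 1163 5 907)
(mv 970 (cons (fin 971 0 970)
(mv 907 (cons (fin 843 7 843)
(mv 974 (cons (fin 975 3 907)
(fin 906 0 906)))))))))))))
(cons (mv 1035 (cons (mv 1034 (cons (fin 1033 0 1033)
(fin 974 2 970)))
(cons (mv 971 (cons (fin 970 3 970)
(mv 974 (cons (fin 975 2 971)
(mv 907 (cons (fin 843 4 843)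
(mv 906 (cons (fin 972 3 906)
(fin 842 7 842)))))))))
(mv 1033 (cons (fin 1034 0 1033)
(mv 971 (cons (fin 970 3 970)
(mv 907 (cons (fin 843 4 843)
(mv 906 (cons (fin 842 7 842)
(mv 908 (cons (fin 844 6 843)
(mv 972 (cons (fin 905 0 905)
(fin 1163 5 907))))))))))))))))
(mv 909 (cons (fin 845 5 844)
(mv 908 (cons (fin 844 7 844)
(mv 1035 (cons (mv 1034 (cons (fin 1033 0 1033)
(fin 974 2 970)))
(cons (mv 1034 (cons (fin 1033 0 1033)
(mv 970 (cons (fin 969 3 969)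
(fin 971 3 970)))))
(mv 971 (cons (fin 970 3 970)
(mv 974 (cons (fin 975 2 971)
(mv 907 (cons (fin 906 0 906)
(fin 843 4 843))))))))))))))))
(cons (cons (mv 909 (cons (fin 845 5 844)
(mv 1035 (cons (mv 1034 (cons (fin 1033 0 1033)
(fin 974 2 970)))
(cons (mv 971 (cons (fin 970 3 970)
(mv 974 (cons (fin 975 2 971)
(mv 907 (cons (fin 843 4 843)
(mv 906 (cons (fin 972 3 906)
(fin 842 7 842)))))))))
(mv 1034 (cons (fin 1033 0 1033)
(mv 970 (cons (fin 969 3 969)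
(fin 971 3 970))))))))))
(mv 909 (cons (fin 845 5 844)
(mv 908 (cons (fin 844 7 844)
(mv 972 (cons (fin 1163 5 907)
(mv 970 (cons (fin 971 0 970)
(mv 907 (cons (fin 843 7 843)
(mv 906 (cons (fin 969 1 905)
(fin 905 0 905))))))))))))))
(cons (mv 909 (cons (fin 845 5 844)
(mv 908 (cons (fin 844 7 844)
(mv 972 (cons (fin 1163 5 907)
(mv 907 (cons (fin 843 7 843)
(mv 974 (cons (fin 975 3 907)
(fin 906 0 906)))))))))))
(mv 909 (cons (fin 845 5 844)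
(mv 908 (cons (fin 844 7 844)
(mv 1163 (cons (fin 972 5 907)
(mv 1227 (cons (fin 1291 6 1035)
(mv 1035 (cons (mv 1034 (cons (fin 1033 0 1033)
(fin 974 2 970)))
(mv 1292 (cons (fin 1228 4 1035)
(mv 1226 (cons (fin 1290 5 1034)
(mv 971 (cons (fin 970 3 970)
(fin 1162 5 970))))))))))))))))))))))
(cons (mv 971 (cons (cons (mv 970 (cons (fin 972 0 970)
(mv 1035 (cons (fin 1036 3 970)
(mv 1163 (cons (fin 906 7 906)
(mv 1164 (cons (fin 1228 4 971)
(fin 907 4 907)))))))))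
(cons (mv 1164 (cons (mv 1228 (cons (fin 1292 6 1036)
(fin 1036 6 972)))
(cons (mv 907 (cons (fin 1035 4 907)
(mv 972 (cons (fin 1036 7 907)
(mv 974 (cons (fin 906 3 906)
(mv 975 (cons (fin 908 3 907)
(mv 976 (cons (fin 977 1 973)
(mv 912 (cons (fin 911 2 908)
(fin 913 2 909)))))))))))))
(mv 1228 (cons (fin 1292 6 1036)
(mv 1035 (cons (fin 1163 4 971)
(fin 907 4 907))))))))
(mv 1164 (cons (mv 1228 (cons (fin 1292 6 1036)
(fin 1036 6 972)))
(cons (mv 1035 (cons (fin 907 4 907)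
(mv 1036 (cons (fin 970 3 970)
(mv 1034 (cons (fin 1033 0 1033)
(fin 974 2 970)))))))
(mv 1228 (cons (fin 1292 6 1036)
(mv 1035 (cons (fin 1163 4 971)
(fin 907 4 907))))))))))
(cons (cons (mv 970 (cons (fin 972 0 970)
(mv 1035 (cons (fin 1036 3 970)
(mv 1163 (cons (fin 906 7 906)
(mv 1226 (cons (fin 1162 5 970)
(mv 1227 (cons (fin 1290 5 1034)
(fin 1034 7 970)))))))))))
(mv 972 (cons (fin 970 0 970)
(mv 1036 (cons (mv 1164 (cons (fin 907 7 907)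
(fin 1228 6 972)))
(mv 908 (cons (fin 1163 5 907)
(fin 844 4 844))))))))
(cons (mv 970 (cons (fin 972 0 970)
(mv 1035 (cons (cons (mv 1163 (cons (fin 906 7 906)
(mv 1164 (cons (fin 1228 4 971)
(fin 907 4 907)))))
(mv 907 (cons (fin 1164 4 907)
(mv 906 (cons (fin 842 7 842)
(mv 844 (cons (fin 908 6 843)
(mv 843 (cons (fin 780 6 779)
(mv 779 (cons (fin 1034 5 778)
(fin 715 5 714))))))))))))
(cons (mv 1164 (cons (fin 907 4 907)
(mv 1228 (cons (fin 1292 7 1035)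
(fin 1163 4 971)))))
(mv 1163 (cons (fin 906 7 906)
(mv 1226 (cons (fin 1162 5 970)
(mv 1227 (cons (fin 1290 5 1034)
(fin 1034 7 970))))))))))))
(mv 970 (cons (fin 972 0 970)
(mv 1035 (cons (fin 1036 3 970)
(mv 907 (cons (fin 1164 4 907)
(mv 906 (cons (fin 842 7 842)
(mv 844 (cons (fin 908 6 843)
(mv 843 (cons (fin 780 6 779)
(mv 779 (cons (fin 1034 5 778)
(fin 715 5 714)))))))))))))))))))
(mv 909 (cons (fin 1164 5 908)
(mv 844 (cons (fin 908 7 844)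
(mv 845 (cons (fin 780 7 780)
(mv 781 (cons (fin 974 4 781)
(mv 782 (cons (fin 846 6 781)
(fin 718 6 717))))))))))))))))))
(mv 1039 (cons (fin 1038 1 1036)
(mv 1103 (cons (fin 1102 2 1036)
(mv 976 (cons (cons (mv 1167 (cons (fin 1231 6 975)
(mv 912 (cons (fin 1104 5 911)
(fin 848 5 847)))))
(mv 1167 (cons (fin 1231 6 975)
(mv 975 (cons (mv 1230 (cons (fin 1166 5 974)
(mv 1168 (cons (fin 1232 4 975)
(mv 1104 (cons (fin 911 7 911)
(mv 1169 (cons (fin 1233 4 976)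
(mv 1170 (cons (fin 1171 3 1103)
(mv 1234 (cons (fin 1235 0 1167)
(mv 1106 (cons (fin 1107 2 1103)
(mv 977 (cons (fin 913 6 912)
(mv 978 (cons (fin 979 1 975)
(mv 1042 (cons (fin 1043 0 975)
(mv 914 (cons (fin 915 2 911)
(fin 1105 5 913)))))))))))))))))))))))
(cons (mv 1230 (cons (fin 1166 5 974)
(mv 973 (cons (mv 974 (cons (fin 1036 1 972)
(fin 972 0 972)))
(cons (mv 1164 (cons (fin 909 5 908)
(mv 1228 (cons (fin 1292 6 1036)
(fin 1036 6 972)))))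
(mv 974 (cons (fin 972 0 972)
(mv 909 (cons (fin 908 3 908)
(fin 1164 5 908))))))))))
(mv 1168 (cons (fin 1232 4 975)
(mv 1104 (cons (fin 911 7 911)
(mv 1169 (cons (fin 1233 4 976)
(mv 1170 (cons (fin 1171 3 1103)
(mv 1234 (cons (fin 1235 0 1167)
(mv 1106 (cons (fin 1107 2 1103)
(mv 977 (cons (fin 913 6 912)
(mv 978 (cons (fin 979 1 975)
(mv 1042 (cons (fin 1043 0 975)
(mv 914 (cons (fin 915 2 911)
(fin 1105 5 913)))))))))))))))))))))))))))
(cons (mv 912 (cons (fin 848 5 847)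
(mv 1104 (cons (mv 1169 (cons (fin 1105 4 912)
(mv 1168 (cons (fin 1233 4 976)
(mv 1232 (cons (fin 1296 7 1039)
(fin 975 7 975)))))))
(cons (mv 911 (cons (fin 847 7 847)
(mv 1168 (cons (fin 975 7 911)
(mv 913 (cons (fin 977 6 912)
(fin 849 6 848)))))))
(mv 1105 (cons (fin 1169 4 912)
(mv 1106 (cons (fin 1107 3 1039)
(mv 1170 (cons (fin 1171 0 1103)
(mv 1042 (cons (fin 1043 2 1039)
(mv 911 (cons (fin 847 7 847)
(mv 913 (cons (fin 849 6 848)
(mv 978 (cons (fin 977 7 913)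
(mv 979 (cons (fin 914 0 911)
(fin 915 6 914))))))))))))))))))))))
(mv 1167 (cons (fin 1231 6 975)
(mv 912 (cons (fin 848 5 847)
(fin 975 6 911)))))))))))))
(cons (mv 1038 (cons (fin 1039 1 1036)
(mv 1099 (cons (fin 1098 2 1034)
(mv 1102 (cons (cons (mv 1162 (cons (fin 1163 1 1098)
(mv 1166 (cons (fin 1167 0 1099)
(mv 1294 (cons (fin 1230 7 1037)
(mv 1035 (cons (fin 1034 3 1034)
(mv 1036 (cons (fin 1103 3 1035)
(mv 971 (cons (fin 970 3 970)
(mv 1164 (cons (fin 1228 7 971)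
(fin 907 4 907)))))))))))))))
(cons (mv 1162 (cons (fin 1163 1 1098)
(mv 1167 (cons (fin 1166 0 1099)
(mv 1103 (cons (fin 1168 0 1100)
(mv 1104 (cons (fin 1036 3 1036)
(fin 1105 3 1037)))))))))
(mv 1162 (cons (fin 1163 1 1098)
(mv 1035 (cons (fin 1034 3 1034)
(mv 1103 (cons (fin 1036 3 1035)
(mv 1168 (cons (fin 1167 0 1100)
(mv 1104 (cons (fin 1105 3 1037)
(fin 1169 0 1101)))))))))))))
(cons (cons (mv 1166 (cons (fin 1167 0 1099)
(mv 1294 (cons (fin 1230 7 1037)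
(mv 1035 (cons (fin 1034 3 1034)
(mv 1036 (cons (fin 1103 3 1035)
(mv 971 (cons (fin 970 3 970)
(mv 1164 (cons (fin 1228 7 971)
(fin 907 4 907)))))))))))))
(mv 1162 (cons (fin 1163 1 1098)
(mv 1035 (cons (fin 1034 3 1034)
(mv 1036 (cons (fin 1103 3 1035)
(mv 971 (cons (fin 970 3 970)
(mv 1164 (cons (fin 1228 7 971)
(fin 907 4 907))))))))))))
(cons (mv 1163 (cons (fin 1162 1 1098)
(mv 1166 (cons (fin 1167 0 1099)
(mv 1230 (cons (fin 1294 7 1037)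
(mv 1229 (cons (fin 1293 5 1037)
(mv 1231 (cons (fin 1295 4 1038)
(mv 1228 (cons (fin 1164 3 1163)
(mv 1291 (cons (fin 1292 1 1227)
(mv 1227 (cons (fin 1290 1 1226)
(fin 1036 6 1035)))))))))))))))))
(mv 1163 (cons (fin 1162 1 1098)
(mv 1164 (cons (fin 1103 1 1099)
(mv 1228 (cons (fin 1292 6 1036)
(mv 1035 (cons (fin 1034 3 1034)
(fin 971 4 971)))))))))))))))))
(mv 1038 (cons (fin 1039 1 1036)
(mv 1099 (cons (fin 1098 2 1034)
(mv 1102 (cons (cons (mv 1162 (cons (fin 1163 1 1098)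
(mv 1166 (cons (fin 1167 0 1099)
(mv 1230 (cons (fin 1294 7 1037)
(fin 973 7 973)))))))
(mv 1163 (cons (fin 1162 1 1098)
(mv 1164 (cons (fin 1103 1 1099)
(mv 1292 (cons (fin 1228 6 1036)
(mv 1035 (cons (fin 1034 3 1034)
(mv 971 (cons (fin 907 4 907)
(mv 970 (cons (fin 906 7 906)
(mv 972 (cons (fin 973 0 970)
(fin 908 6 907))))))))))))))))
(cons (mv 1166 (cons (fin 1167 0 1099)
(mv 1230 (cons (fin 1294 7 1037)
(fin 973 7 973)))))
(mv 1163 (cons (fin 1162 1 1098)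
(mv 1164 (cons (fin 1103 1 1099)
(mv 1228 (cons (fin 1292 6 1036)
(mv 1035 (cons (fin 1034 3 1034)
(fin 971 4 971))))))))))))))))))))
(mv 1100 (cons (cons (cons (mv 1038 (cons (fin 1039 1 1036)
(mv 1099 (cons (fin 1098 2 1034)
(mv 1102 (cons (cons (cons (mv 1162 (cons (fin 1163 1 1098)
(mv 1166 (cons (fin 1167 0 1099)
(mv 1294 (cons (fin 1230 7 1037)
(mv 1035 (cons (fin 1034 3 1034)
(mv 1103 (cons (fin 1036 3 1035)
(mv 1104 (cons (fin 1105 3 1037)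
(mv 1165 (cons (fin 1164 1 1100)
(mv 1229 (cons (fin 974 5 973)
(fin 1293 6 1037)))))))))))))))))
(mv 1162 (cons (fin 1163 1 1098)
(mv 1166 (cons (fin 1167 0 1099)
(mv 1230 (cons (fin 1294 7 1037)
(mv 1295 (cons (fin 1231 4 1038)
(mv 1229 (cons (fin 1293 5 1037)
(mv 1165 (cons (fin 974 5 973)
(mv 1228 (cons (fin 1292 5 1036)
(mv 1227 (cons (fin 1226 2 1162)
(mv 1291 (cons (fin 1290 1 1226)
(mv 1036 (cons (fin 1164 5 1035)
(fin 972 7 972))))))))))))))))))))))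
(cons (mv 1162 (cons (fin 1163 1 1098)
(mv 1035 (cons (fin 1034 3 1034)
(mv 1103 (cons (fin 1036 3 1035)
(mv 1167 (cons (fin 1168 0 1100)
(mv 1295 (cons (fin 1231 7 1038)
(mv 1104 (cons (fin 1105 3 1037)
(mv 1165 (cons (fin 1164 1 1100)
(mv 1229 (cons (fin 1293 6 1037)
(fin 974 6 973)))))))))))))))))
(mv 1166 (cons (fin 1167 0 1099)
(mv 1294 (cons (fin 1230 7 1037)
(mv 1035 (cons (fin 1034 3 1034)
(mv 1103 (cons (fin 1036 3 1035)
(mv 1104 (cons (fin 1105 3 1037)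
(mv 1165 (cons (fin 1164 1 1100)
(mv 1229 (cons (fin 974 5 973)
(fin 1293 6 1037)))))))))))))))))
(cons (cons (mv 1162 (cons (fin 1163 1 1098)
(mv 1035 (cons (fin 1034 3 1034)
(mv 1103 (cons (fin 1036 3 1035)
(mv 1104 (cons (fin 1105 3 1037)
(mv 1165 (cons (fin 1164 1 1100)
(mv 1229 (cons (fin 1293 6 1037)
(fin 974 6 973)))))))))))))
(mv 1162 (cons (fin 1163 1 1098)
(mv 1166 (cons (fin 1167 0 1099)
(mv 1230 (cons (fin 1294 7 1037)
(mv 1229 (cons (fin 1293 5 1037)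
(mv 1231 (cons (fin 1295 4 1038)
(mv 1165 (cons (fin 974 5 973)
(mv 1232 (cons (fin 1164 3 1164)
(fin 1233 3 1165))))))))))))))))
(cons (mv 1162 (cons (fin 1163 1 1098)
(mv 1166 (cons (fin 1167 0 1099)
(mv 1294 (cons (fin 1230 7 1037)
(mv 1035 (cons (fin 1034 3 1034)
(mv 1036 (cons (fin 1103 3 1035)
(mv 971 (cons (fin 970 3 970)
(mv 1164 (cons (fin 1228 7 971)
(fin 907 4 907)))))))))))))))
(mv 1162 (cons (fin 1163 1 1098)
(mv 1166 (cons (fin 1167 0 1099)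
(mv 1294 (cons (fin 1230 7 1037)
(mv 1035 (cons (fin 1034 3 1034)
(mv 1036 (cons (fin 1103 3 1035)
(mv 971 (cons (fin 970 3 970)
(mv 974 (cons (fin 975 2 971)
(mv 1165 (cons (fin 1229 5 973)
(mv 907 (cons (fin 843 4 843)
(mv 908 (cons (fin 972 4 908)
(fin 844 6 843)))))))))))))))))))))))))))))
(mv 1102 (cons (mv 1103 (cons (fin 1039 2 1036)
(mv 1036 (cons (fin 1035 3 1035)
(fin 1104 3 1036)))))
(cons (mv 1099 (cons (cons (mv 1162 (cons (fin 1163 1 1098)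
(mv 1166 (cons (fin 1167 0 1099)
(mv 1098 (cons (fin 1161 1 1097)
(fin 1165 0 1098)))))))
(mv 1162 (cons (fin 1163 1 1098)
(mv 1098 (cons (fin 1161 1 1097)
(mv 1034 (cons (fin 1033 3 1033)
(fin 1035 3 1034))))))))
(cons (mv 1166 (cons (fin 1167 0 1099)
(mv 1294 (cons (fin 1230 7 1037)
(mv 1098 (cons (fin 1165 0 1098)
(mv 1034 (cons (fin 1033 3 1033)
(fin 1035 3 1034)))))))))
(mv 1163 (cons (fin 1162 1 1098)
(mv 1166 (cons (fin 1167 0 1099)
(mv 1294 (cons (fin 1230 7 1037)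
(mv 1035 (cons (fin 1034 3 1034)
(mv 1227 (cons (cons (mv 1036 (cons (fin 1291 6 1035)
(fin 972 6 971)))
(mv 1290 (cons (fin 1226 5 1034)
(mv 1354 (cons (fin 1291 5 1098)
(mv 1228 (cons (fin 1292 4 1035)
(mv 971 (cons (fin 1164 4 971)
(mv 906 (cons (fin 970 7 906)
(mv 907 (cons (fin 842 7 842)
(mv 908 (cons (fin 972 6 907)
(fin 844 6 843))))))))))))))))
(cons (mv 1290 (cons (fin 1226 5 1034)
(mv 1292 (cons (fin 1228 4 1035)
(mv 972 (cons (fin 1036 6 971)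
(mv 971 (cons (fin 908 6 907)
(mv 906 (cons (fin 970 7 906)
(mv 907 (cons (fin 842 7 842)
(fin 1164 4 907)))))))))))))
(mv 1290 (cons (fin 1226 5 1034)
(mv 1291 (cons (fin 1354 5 1098)
(fin 1036 6 1035)))))))))))))))))))
(mv 1103 (cons (fin 1039 2 1036)
(mv 1163 (cons (fin 1164 1 1099)
(mv 1167 (cons (fin 1168 0 1100)
(mv 1099 (cons (fin 1162 1 1098)
(fin 1166 0 1099)))))))))))))
(cons (mv 1099 (cons (cons (mv 1098 (cons (fin 1038 2 1034)
(mv 1161 (cons (fin 1162 1 1097)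
(mv 1097 (cons (fin 1160 1 1096)
(fin 1036 2 1033)))))))
(mv 1102 (cons (cons (mv 1162 (cons (fin 1163 1 1098)
(mv 1167 (cons (fin 1166 0 1099)
(mv 1103 (cons (fin 1168 0 1100)
(mv 1035 (cons (fin 1034 3 1034)
(fin 1036 3 1035)))))))))
(cons (mv 1162 (cons (fin 1163 1 1098)
(mv 1167 (cons (fin 1166 0 1099)
(mv 1103 (cons (fin 1168 0 1100)
(mv 1104 (cons (fin 1036 3 1036)
(mv 1295 (cons (fin 1231 6 1039)
(mv 1165 (cons (fin 1164 1 1100)
(mv 1038 (cons (fin 1105 3 1037)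
(mv 1229 (cons (fin 1293 6 1037)
(fin 974 6 973)))))))))))))))))
(mv 1167 (cons (fin 1166 0 1099)
(mv 1103 (cons (fin 1168 0 1100)
(mv 1035 (cons (fin 1034 3 1034)
(fin 1036 3 1035)))))))))
(cons (cons (mv 1162 (cons (fin 1163 1 1098)
(mv 1035 (cons (fin 1034 3 1034)
(mv 1103 (cons (fin 1036 3 1035)
(mv 1168 (cons (fin 1167 0 1100)
(mv 1104 (cons (fin 1169 0 1101)
(mv 1165 (cons (fin 1164 1 1100)
(mv 1038 (cons (fin 1105 3 1037)
(mv 1229 (cons (fin 1293 6 1037)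
(fin 974 6 973)))))))))))))))))
(mv 1163 (cons (fin 1162 1 1098)
(mv 1164 (cons (fin 1103 1 1099)
(mv 1292 (cons (fin 1228 6 1036)
(mv 1035 (cons (fin 1034 3 1034)
(mv 971 (cons (fin 907 4 907)
(mv 970 (cons (fin 906 7 906)
(mv 1036 (cons (fin 1038 3 970)
(mv 1227 (cons (fin 972 5 971)
(fin 1291 6 1035))))))))))))))))))
(cons (mv 1163 (cons (fin 1162 1 1098)
(mv 1166 (cons (fin 1167 0 1099)
(mv 1294 (cons (fin 1230 7 1037)
(mv 1035 (cons (fin 1034 3 1034)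
(mv 1227 (cons (cons (mv 1036 (cons (fin 1291 6 1035)
(fin 972 6 971)))
(mv 1290 (cons (fin 1226 5 1034)
(mv 1354 (cons (fin 1291 5 1098)
(mv 1228 (cons (fin 1292 4 1035)
(mv 971 (cons (fin 1164 4 971)
(mv 906 (cons (fin 970 7 906)
(mv 907 (cons (fin 842 7 842)
(mv 908 (cons (fin 972 6 907)
(fin 844 6 843))))))))))))))))
(cons (mv 1290 (cons (fin 1226 5 1034)
(mv 1292 (cons (fin 1228 4 1035)
(mv 972 (cons (fin 1036 6 971)
(mv 971 (cons (fin 908 6 907)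
(mv 906 (cons (fin 970 7 906)
(mv 907 (cons (fin 842 7 842)
(fin 1164 4 907)))))))))))))
(mv 1290 (cons (fin 1226 5 1034)
(mv 1291 (cons (fin 1354 5 1098)
(fin 1036 6 1035))))))))))))))))
(mv 1163 (cons (fin 1162 1 1098)
(mv 1164 (cons (fin 1103 1 1099)
(mv 1292 (cons (fin 1228 6 1036)
(mv 1166 (cons (fin 1167 0 1099)
(mv 1230 (cons (fin 1294 7 1037)
(mv 1165 (cons (fin 1231 0 1163)
(mv 1227 (cons (fin 1226 1 1162)
(mv 1291 (cons (fin 1356 4 1099)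
(fin 1355 6 1099))))))))))))))))))))))
(cons (mv 1098 (cons (mv 1161 (cons (fin 1162 1 1097)
(mv 1097 (cons (fin 1160 1 1096)
(fin 1036 2 1033)))))
(cons (mv 1161 (cons (fin 1162 1 1097)
(mv 1166 (cons (fin 1165 0 1098)
(mv 1102 (cons (fin 1167 0 1099)
(mv 1034 (cons (fin 1033 3 1033)
(fin 1035 3 1034)))))))))
(mv 1165 (cons (fin 1166 0 1098)
(mv 1097 (cons (fin 1164 0 1097)
(fin 1036 2 1033))))))))
(cons (mv 1098 (cons (fin 1038 2 1034)
(mv 1165 (cons (fin 1166 0 1098)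
(mv 1097 (cons (fin 1164 0 1097)
(fin 1036 2 1033)))))))
(mv 1098 (cons (fin 1038 2 1034)
(mv 1161 (cons (fin 1162 1 1097)
(mv 1160 (cons (fin 1097 1 1096)
(mv 1166 (cons (fin 1165 0 1098)
(mv 1102 (cons (fin 1167 0 1099)
(mv 1034 (cons (fin 1033 3 1033)
(fin 1035 3 1034)))))))))))))))))
(mv 1038 (cons (fin 1039 1 1036)
(mv 1164 (cons (cons (cons (mv 1228 (cons (fin 1292 6 1036)
(mv 1098 (cons (fin 1099 2 1034)
(mv 1036 (cons (cons (mv 1291 (cons (fin 1227 5 1035)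
(mv 1293 (cons (fin 1229 4 1036)
(mv 1035 (cons (fin 971 7 971)
(mv 1034 (cons (fin 1097 1 1033)
(fin 1033 0 1033)))))))))
(mv 1291 (cons (fin 1227 5 1035)
(mv 1035 (cons (fin 971 7 971)
(mv 1034 (cons (fin 1097 1 1033)
(fin 1033 0 1033))))))))
(cons (mv 1291 (cons (fin 1227 5 1035)
(mv 1229 (cons (fin 1293 4 1036)
(mv 1165 (cons (fin 972 7 972)
(fin 974 6 973)))))))
(mv 1293 (cons (fin 1229 4 1036)
(mv 1035 (cons (fin 971 7 971)
(mv 1034 (cons (fin 1097 1 1033)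
(fin 1033 0 1033))))))))))))))
(mv 1228 (cons (fin 1292 6 1036)
(mv 1036 (cons (cons (mv 1291 (cons (fin 1227 5 1035)
(mv 1293 (cons (fin 1229 4 1036)
(mv 971 (cons (fin 1035 7 971)
(mv 972 (cons (fin 907 7 907)
(mv 908 (cons (fin 1165 4 908)
(fin 844 4 844)))))))))))
(cons (mv 1291 (cons (fin 1227 5 1035)
(mv 971 (cons (fin 1035 7 971)
(mv 972 (cons (fin 907 7 907)
(mv 908 (cons (fin 1165 4 908)
(fin 844 4 844)))))))))
(mv 1291 (cons (fin 1227 5 1035)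
(mv 1229 (cons (fin 1293 4 1036)
(mv 1165 (cons (fin 972 7 972)
(fin 974 6 973)))))))))
(cons (mv 1293 (cons (fin 1229 4 1036)
(mv 971 (cons (fin 1035 7 971)
(mv 972 (cons (fin 907 7 907)
(mv 908 (cons (fin 1165 4 908)
(fin 844 4 844)))))))))
(cons (mv 1291 (cons (fin 1227 5 1035)
(mv 1229 (cons (fin 1293 4 1036)
(mv 1165 (cons (fin 974 6 973)
(mv 1230 (cons (fin 1294 4 1037)
(mv 1231 (cons (fin 1163 3 1163)
(fin 1232 3 1164)))))))))))
(mv 1293 (cons (fin 1229 4 1036)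
(mv 1227 (cons (fin 1291 5 1035)
(mv 1163 (cons (fin 972 5 971)
(mv 1162 (cons (fin 1161 2 1097)
(mv 1035 (cons (fin 971 7 971)
(mv 1034 (cons (fin 1033 0 1033)
(mv 1098 (cons (fin 1097 1 1033)
(fin 970 4 970))))))))))))))))))))))
(cons (mv 1165 (cons (mv 1229 (cons (fin 974 6 973)
(mv 1293 (cons (fin 1357 7 1100)
(fin 1036 7 1036)))))
(cons (mv 1163 (cons (cons (mv 1161 (cons (fin 1162 2 1097)
(mv 1099 (cons (fin 1098 2 1034)
(mv 1166 (cons (fin 1167 3 1099)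
(mv 1227 (cons (fin 1226 1 1162)
(mv 1291 (cons (fin 1355 6 1099)
(fin 1036 6 1035)))))))))))
(mv 1162 (cons (fin 1161 2 1097)
(mv 1226 (cons (fin 1225 1 1161)
(mv 1227 (cons (fin 1166 1 1162)
(mv 1355 (cons (fin 1291 6 1099)
(mv 1098 (cons (fin 1097 3 1097)
(mv 1034 (cons (fin 970 4 970)
(mv 1033 (cons (fin 969 7 969)
(mv 1035 (cons (fin 1036 0 1033)
(fin 971 6 970))))))))))))))))))
(cons (mv 1162 (cons (fin 1161 2 1097)
(mv 1226 (cons (fin 1225 1 1161)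
(mv 1227 (cons (fin 1166 1 1162)
(mv 1291 (cons (fin 1355 6 1099)
(mv 1036 (cons (fin 972 5 971)
(fin 1099 6 1035)))))))))))
(cons (mv 1099 (cons (fin 1098 2 1034)
(mv 1166 (cons (fin 1167 3 1099)
(mv 1227 (cons (fin 1226 1 1162)
(mv 1291 (cons (fin 1355 6 1099)
(fin 1036 6 1035)))))))))
(mv 1162 (cons (fin 1161 2 1097)
(mv 1098 (cons (fin 1097 3 1097)
(fin 1099 2 1034)))))))))
(mv 1229 (cons (fin 974 6 973)
(mv 1357 (cons (fin 1293 7 1100)
(mv 1230 (cons (fin 1294 4 1037)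
(mv 1231 (cons (fin 1232 3 1164)
(mv 1163 (cons (fin 1162 0 1162)
(fin 1166 0 1163))))))))))))))
(cons (mv 1228 (cons (fin 1292 6 1036)
(mv 1036 (cons (cons (mv 1291 (cons (fin 1227 5 1035)
(mv 1293 (cons (fin 1229 4 1036)
(mv 971 (cons (fin 1035 7 971)
(mv 972 (cons (fin 907 7 907)
(mv 908 (cons (fin 1165 4 908)
(fin 844 4 844)))))))))))
(cons (mv 1291 (cons (fin 1227 5 1035)
(mv 971 (cons (fin 1035 7 971)
(mv 972 (cons (fin 907 7 907)
(mv 908 (cons (fin 1165 4 908)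
(fin 844 4 844)))))))))
(mv 1291 (cons (fin 1227 5 1035)
(mv 1229 (cons (fin 1293 4 1036)
(mv 1165 (cons (fin 972 7 972)
(fin 974 6 973)))))))))
(cons (mv 1293 (cons (fin 1229 4 1036)
(mv 971 (cons (fin 1035 7 971)
(mv 972 (cons (fin 907 7 907)
(mv 908 (cons (fin 1165 4 908)
(fin 844 4 844)))))))))
(cons (mv 1291 (cons (fin 1227 5 1035)
(mv 1229 (cons (fin 1293 4 1036)
(mv 1165 (cons (fin 974 6 973)
(mv 1230 (cons (fin 1294 4 1037)
(mv 1231 (cons (fin 1163 3 1163)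
(fin 1232 3 1164)))))))))))
(mv 1293 (cons (fin 1229 4 1036)
(mv 1227 (cons (fin 1291 5 1035)
(mv 1163 (cons (fin 972 5 971)
(mv 1161 (cons (fin 1162 2 1097)
(mv 1035 (cons (fin 971 7 971)
(mv 1034 (cons (fin 1033 0 1033)
(mv 970 (cons (fin 969 3 969)
(fin 1099 7 970)))))))))))))))))))))
(mv 1228 (cons (fin 1292 6 1036)
(mv 1098 (cons (fin 1099 2 1034)
(mv 1036 (cons (cons (mv 1291 (cons (fin 1227 5 1035)
(mv 1293 (cons (fin 1229 4 1036)
(mv 1035 (cons (fin 971 7 971)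
(mv 1034 (cons (fin 1097 1 1033)
(fin 1033 0 1033)))))))))
(mv 1293 (cons (fin 1229 4 1036)
(mv 1227 (cons (fin 1291 5 1035)
(mv 972 (cons (fin 1163 5 971)
(mv 907 (cons (fin 971 7 907)
(mv 908 (cons (fin 843 7 843)
(fin 844 4 844))))))))))))
(cons (mv 1293 (cons (fin 1229 4 1036)
(mv 1227 (cons (fin 1291 5 1035)
(mv 1163 (cons (fin 972 5 971)
(mv 1162 (cons (fin 1161 2 1097)
(mv 1034 (cons (fin 970 4 970)
(mv 1035 (cons (fin 1097 1 1033)
(fin 1033 0 1033)))))))))))))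
(cons (mv 1293 (cons (fin 1229 4 1036)
(mv 1035 (cons (fin 971 7 971)
(mv 1034 (cons (fin 1097 1 1033)
(fin 1033 0 1033)))))))
(mv 1291 (cons (fin 1227 5 1035)
(mv 1035 (cons (fin 971 7 971)
(mv 1034 (cons (fin 1097 1 1033)
(fin 1033 0 1033))))))))))))))))))
(cons (cons (mv 1228 (cons (fin 1292 6 1036)
(mv 1098 (cons (fin 1099 2 1034)
(mv 1036 (cons (cons (mv 1291 (cons (fin 1227 5 1035)
(mv 1035 (cons (fin 971 7 971)
(mv 1034 (cons (fin 1097 1 1033)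
(fin 1033 0 1033)))))))
(mv 1227 (cons (fin 1291 5 1035)
(mv 1163 (cons (fin 972 5 971)
(mv 1162 (cons (fin 1161 2 1097)
(mv 1165 (cons (fin 1097 3 1097)
(mv 1226 (cons (fin 1225 1 1161)
(fin 1166 1 1162))))))))))))
(cons (mv 1035 (cons (fin 971 7 971)
(mv 1034 (cons (fin 1097 1 1033)
(fin 1033 0 1033)))))
(mv 1291 (cons (fin 1227 5 1035)
(mv 971 (cons (fin 1035 7 971)
(mv 972 (cons (fin 907 7 907)
(mv 908 (cons (fin 1165 4 908)
(fin 844 4 844))))))))))))))))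
(mv 1292 (cons (fin 1228 6 1036)
(mv 1165 (cons (mv 1229 (cons (fin 974 6 973)
(mv 1293 (cons (fin 1356 5 1100)
(fin 1357 7 1100)))))
(cons (mv 1163 (cons (cons (mv 1161 (cons (fin 1162 2 1097)
(mv 1099 (cons (fin 1098 2 1034)
(mv 1166 (cons (fin 1167 3 1099)
(mv 1227 (cons (fin 1226 1 1162)
(mv 1291 (cons (fin 1356 4 1099)
(fin 1355 6 1099)))))))))))
(mv 1162 (cons (fin 1161 2 1097)
(mv 1226 (cons (fin 1225 1 1161)
(mv 1227 (cons (fin 1166 1 1162)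
(mv 1291 (cons (fin 1355 6 1099)
(mv 1098 (cons (fin 1097 3 1097)
(fin 1034 4 1034))))))))))))
(cons (mv 1162 (cons (fin 1161 2 1097)
(mv 1226 (cons (fin 1225 1 1161)
(mv 1227 (cons (fin 1166 1 1162)
(mv 1291 (cons (fin 1355 6 1099)
(mv 1293 (cons (fin 1294 3 1226)
(mv 1099 (cons (fin 1356 4 1099)
(mv 1290 (cons (fin 1354 5 1098)
(fin 1035 5 1034)))))))))))))))
(cons (mv 1099 (cons (fin 1098 2 1034)
(mv 1166 (cons (fin 1167 3 1099)
(mv 1227 (cons (fin 1226 1 1162)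
(mv 1291 (cons (fin 1356 4 1099)
(fin 1355 6 1099)))))))))
(mv 1162 (cons (fin 1161 2 1097)
(mv 1098 (cons (fin 1097 3 1097)
(fin 1099 2 1034)))))))))
(mv 1229 (cons (fin 974 6 973)
(mv 1230 (cons (fin 1294 4 1037)
(mv 1231 (cons (fin 1232 3 1164)
(mv 1163 (cons (fin 1162 0 1162)
(fin 1166 0 1163)))))))))))))))
(cons (mv 1292 (cons (fin 1228 6 1036)
(mv 1165 (cons (mv 1229 (cons (fin 974 6 973)
(mv 1293 (cons (fin 1356 5 1100)
(fin 1357 7 1100)))))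
(cons (mv 1163 (cons (cons (mv 1161 (cons (fin 1162 2 1097)
(mv 1099 (cons (fin 1098 2 1034)
(mv 1166 (cons (fin 1167 3 1099)
(mv 1227 (cons (fin 1226 1 1162)
(mv 1291 (cons (fin 1356 4 1099)
(fin 1355 6 1099)))))))))))
(mv 1162 (cons (fin 1161 2 1097)
(mv 1226 (cons (fin 1225 1 1161)
(mv 1227 (cons (fin 1166 1 1162)
(mv 1291 (cons (fin 1355 6 1099)
(mv 1098 (cons (fin 1097 3 1097)
(fin 1034 4 1034))))))))))))
(cons (mv 1162 (cons (fin 1161 2 1097)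
(mv 1226 (cons (fin 1225 1 1161)
(mv 1227 (cons (fin 1166 1 1162)
(mv 1291 (cons (fin 1355 6 1099)
(mv 1099 (cons (fin 1356 4 1099)
(fin 1036 6 1035)))))))))))
(cons (mv 1099 (cons (fin 1098 2 1034)
(mv 1166 (cons (fin 1167 3 1099)
(mv 1227 (cons (fin 1226 1 1162)
(mv 1291 (cons (fin 1356 4 1099)
(fin 1355 6 1099)))))))))
(mv 1162 (cons (fin 1161 2 1097)
(mv 1098 (cons (fin 1097 3 1097)
(fin 1099 2 1034)))))))))
(mv 1229 (cons (fin 974 6 973)
(mv 1293 (cons (fin 1357 7 1100)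
(fin 1036 7 1036))))))))))
(cons (mv 1228 (cons (fin 1292 6 1036)
(mv 1098 (cons (fin 1099 2 1034)
(mv 1036 (cons (mv 1293 (cons (fin 1229 4 1036)
(mv 1035 (cons (fin 971 7 971)
(mv 1034 (cons (fin 1097 1 1033)
(fin 1033 0 1033)))))))
(cons (mv 1035 (cons (fin 971 7 971)
(mv 1034 (cons (fin 1097 1 1033)
(fin 1033 0 1033)))))
(mv 1229 (cons (fin 1293 4 1036)
(mv 1165 (cons (fin 972 7 972)
(fin 974 6 973))))))))))))
(mv 1292 (cons (fin 1228 6 1036)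
(mv 1165 (cons (mv 1229 (cons (fin 974 6 973)
(mv 1293 (cons (fin 1356 5 1100)
(fin 1357 7 1100)))))
(cons (mv 1163 (cons (cons (mv 1161 (cons (fin 1162 2 1097)
(mv 1099 (cons (fin 1098 2 1034)
(mv 1166 (cons (fin 1167 3 1099)
(mv 1227 (cons (fin 1226 1 1162)
(mv 1291 (cons (fin 1356 4 1099)
(fin 1355 6 1099)))))))))))
(mv 1162 (cons (fin 1161 2 1097)
(mv 1226 (cons (fin 1225 1 1161)
(mv 1166 (cons (fin 1227 1 1162)
(mv 1231 (cons (fin 1230 0 1163)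
(mv 1167 (cons (fin 1168 3 1100)
(fin 1232 0 1164))))))))))))
(cons (mv 1099 (cons (fin 1098 2 1034)
(mv 1166 (cons (fin 1167 3 1099)
(mv 1227 (cons (fin 1226 1 1162)
(mv 1291 (cons (fin 1356 4 1099)
(fin 1355 6 1099)))))))))
(mv 1162 (cons (fin 1161 2 1097)
(mv 1098 (cons (fin 1097 3 1097)
(fin 1099 2 1034))))))))
(mv 1229 (cons (fin 974 6 973)
(mv 1293 (cons (fin 1357 7 1100)
(fin 1036 7 1036)))))))))))))))))))
(cons (cons (mv 1039 (cons (fin 1038 1 1036)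
(mv 1103 (cons (fin 1102 2 1036)
(mv 976 (cons (cons (mv 1167 (cons (fin 1231 6 975)
(mv 912 (cons (fin 1104 5 911)
(fin 848 5 847)))))
(mv 912 (cons (fin 848 5 847)
(mv 1104 (cons (mv 1169 (cons (fin 1105 4 912)
(mv 1168 (cons (fin 1233 4 976)
(mv 1232 (cons (fin 1296 7 1039)
(fin 975 7 975)))))))
(cons (mv 911 (cons (fin 847 7 847)
(mv 1168 (cons (fin 975 7 911)
(mv 913 (cons (fin 977 6 912)
(fin 849 6 848)))))))
(mv 1105 (cons (fin 1169 4 912)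
(mv 1106 (cons (fin 1107 3 1039)
(mv 1170 (cons (fin 1171 0 1103)
(mv 1042 (cons (fin 1043 2 1039)
(mv 911 (cons (fin 847 7 847)
(mv 913 (cons (fin 849 6 848)
(mv 978 (cons (fin 977 7 913)
(mv 979 (cons (fin 914 0 911)
(fin 915 6 914)))))))))))))))))))))))
(cons (mv 1167 (cons (fin 1231 6 975)
(mv 1168 (cons (cons (mv 1232 (cons (fin 975 4 975)
(mv 1296 (cons (fin 1360 7 1103)
(fin 1104 7 1039)))))
(mv 1166 (cons (fin 1165 3 1100)
(mv 1169 (cons (cons (mv 1233 (cons (fin 1234 0 1166)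
(fin 1104 4 976)))
(mv 1229 (cons (fin 1230 1 1165)
(mv 1106 (cons (fin 1105 2 1102)
(mv 1170 (cons (fin 1107 2 1103)
(mv 1235 (cons (fin 1234 0 1167)
(mv 1171 (cons (fin 1104 3 1103)
(fin 1236 0 1168))))))))))))
(cons (mv 1229 (cons (fin 1230 1 1165)
(mv 1234 (cons (fin 1233 0 1166)
(mv 1170 (cons (fin 1235 0 1167)
(mv 1106 (cons (fin 1105 2 1102)
(fin 1107 2 1103)))))))))
(mv 1229 (cons (fin 1230 1 1165)
(mv 1104 (cons (fin 1233 4 976)
(mv 1296 (cons (fin 1232 7 1039)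
(mv 1170 (cons (fin 1171 3 1103)
(mv 1106 (cons (fin 1105 1 1102)
(fin 1107 2 1103)))))))))))))))))
(cons (mv 1166 (cons (fin 1165 3 1100)
(mv 1230 (cons (fin 975 5 974)
(mv 1358 (cons (fin 1294 6 1102)
(mv 1169 (cons (fin 1229 1 1165)
(mv 1233 (cons (fin 1234 0 1166)
(fin 1104 4 976)))))))))))
(mv 1166 (cons (fin 1165 3 1100)
(mv 975 (cons (fin 1230 5 974)
(fin 1232 4 975))))))))))
(mv 1167 (cons (fin 1231 6 975)
(mv 912 (cons (fin 848 5 847)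
(fin 975 6 911))))))))))))
(mv 1038 (cons (fin 1039 1 1036)
(mv 1099 (cons (fin 1098 2 1034)
(mv 1102 (cons (cons (mv 1162 (cons (fin 1163 1 1098)
(mv 1166 (cons (fin 1167 0 1099)
(mv 1294 (cons (fin 1230 7 1037)
(mv 1035 (cons (fin 1034 3 1034)
(mv 1036 (cons (fin 1103 3 1035)
(mv 971 (cons (fin 970 3 970)
(mv 1164 (cons (fin 1228 7 971)
(fin 907 4 907)))))))))))))))
(cons (mv 1162 (cons (fin 1163 1 1098)
(mv 1167 (cons (fin 1166 0 1099)
(mv 1103 (cons (fin 1168 0 1100)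
(mv 1104 (cons (fin 1036 3 1036)
(fin 1105 3 1037)))))))))
(mv 1162 (cons (fin 1163 1 1098)
(mv 1035 (cons (fin 1034 3 1034)
(mv 1103 (cons (fin 1036 3 1035)
(mv 1168 (cons (fin 1167 0 1100)
(mv 1104 (cons (fin 1105 3 1037)
(fin 1169 0 1101)))))))))))))
(cons (cons (mv 1166 (cons (fin 1167 0 1099)
(mv 1294 (cons (fin 1230 7 1037)
(mv 1035 (cons (fin 1034 3 1034)
(mv 1036 (cons (fin 1103 3 1035)
(mv 971 (cons (fin 970 3 970)
(mv 1164 (cons (fin 1228 7 971)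
(fin 907 4 907)))))))))))))
(mv 1162 (cons (fin 1163 1 1098)
(mv 1035 (cons (fin 1034 3 1034)
(mv 1036 (cons (fin 1103 3 1035)
(mv 971 (cons (fin 970 3 970)
(mv 1164 (cons (fin 1228 7 971)
(fin 907 4 907))))))))))))
(cons (mv 1163 (cons (fin 1162 1 1098)
(mv 1166 (cons (fin 1167 0 1099)
(mv 1230 (cons (fin 1294 7 1037)
(mv 1229 (cons (fin 1293 5 1037)
(mv 1231 (cons (fin 1295 4 1038)
(mv 1228 (cons (fin 1164 3 1163)
(mv 1291 (cons (fin 1292 1 1227)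
(mv 1227 (cons (fin 1290 1 1226)
(fin 1036 6 1035)))))))))))))))))
(mv 1163 (cons (fin 1162 1 1098)
(mv 1164 (cons (fin 1103 1 1099)
(mv 1228 (cons (fin 1292 6 1036)
(mv 1035 (cons (fin 1034 3 1034)
(fin 971 4 971))))))))))))))))))
(cons (mv 1038 (cons (fin 1039 1 1036)
(mv 1099 (cons (fin 1098 2 1034)
(mv 1102 (cons (cons (mv 1162 (cons (fin 1163 1 1098)
(mv 1035 (cons (fin 1034 3 1034)
(mv 1103 (cons (fin 1036 3 1035)
(mv 1167 (cons (fin 1168 0 1100)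
(mv 1295 (cons (fin 1231 7 1038)
(mv 1104 (cons (fin 1105 3 1037)
(mv 1165 (cons (fin 1164 1 1100)
(mv 1229 (cons (fin 1293 6 1037)
(fin 974 6 973)))))))))))))))))
(cons (mv 1163 (cons (fin 1162 1 1098)
(mv 1103 (cons (fin 1164 1 1099)
(mv 1104 (cons (fin 1036 3 1036)
(fin 1105 3 1037)))))))
(mv 1035 (cons (fin 1034 3 1034)
(mv 1103 (cons (fin 1036 3 1035)
(mv 1167 (cons (fin 1168 0 1100)
(mv 1295 (cons (fin 1231 7 1038)
(mv 1104 (cons (fin 1105 3 1037)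
(mv 1165 (cons (fin 1164 1 1100)
(mv 1229 (cons (fin 1293 6 1037)
(fin 974 6 973)))))))))))))))))
(cons (mv 1163 (cons (fin 1162 1 1098)
(mv 1035 (cons (fin 1034 3 1034)
(mv 1036 (cons (mv 1227 (cons (fin 1291 6 1035)
(fin 972 6 971)))
(cons (mv 1291 (cons (fin 1227 6 1035)
(mv 971 (cons (fin 970 3 970)
(mv 1164 (cons (fin 1228 7 971)
(fin 907 4 907)))))))
(mv 971 (cons (fin 970 3 970)
(mv 1164 (cons (fin 1228 7 971)
(fin 907 4 907))))))))))))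
(cons (mv 1163 (cons (fin 1162 1 1098)
(mv 1164 (cons (fin 1103 1 1099)
(mv 1228 (cons (fin 1292 6 1036)
(mv 1035 (cons (fin 1034 3 1034)
(fin 971 4 971)))))))))
(mv 1162 (cons (fin 1163 1 1098)
(mv 1035 (cons (fin 1034 3 1034)
(mv 1103 (cons (fin 1036 3 1035)
(mv 1168 (cons (fin 1167 0 1100)
(mv 1104 (cons (fin 1105 3 1037)
(fin 1169 0 1101)))))))))))))))))))
(mv 1038 (cons (fin 1039 1 1036)
(mv 1099 (cons (fin 1098 2 1034)
(mv 1102 (cons (cons (mv 1162 (cons (fin 1163 1 1098)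
(mv 1035 (cons (fin 1034 3 1034)
(mv 1103 (cons (fin 1036 3 1035)
(mv 1104 (cons (fin 1105 3 1037)
(mv 1165 (cons (fin 1164 1 1100)
(mv 1229 (cons (fin 1293 6 1037)
(fin 974 6 973)))))))))))))
(cons (mv 1163 (cons (fin 1162 1 1098)
(mv 1103 (cons (fin 1164 1 1099)
(mv 1104 (cons (fin 1036 3 1036)
(fin 1105 3 1037)))))))
(mv 1035 (cons (fin 1034 3 1034)
(mv 1103 (cons (fin 1036 3 1035)
(mv 1104 (cons (fin 1105 3 1037)
(mv 1165 (cons (fin 1164 1 1100)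
(mv 1229 (cons (fin 1293 6 1037)
(fin 974 6 973)))))))))))))
(cons (mv 1163 (cons (fin 1162 1 1098)
(mv 1035 (cons (fin 1034 3 1034)
(mv 1036 (cons (mv 1227 (cons (fin 1291 6 1035)
(fin 972 6 971)))
(cons (mv 1291 (cons (fin 1227 6 1035)
(mv 971 (cons (fin 970 3 970)
(mv 1164 (cons (fin 1228 7 971)
(fin 907 4 907)))))))
(mv 971 (cons (fin 970 3 970)
(mv 1164 (cons (fin 1228 7 971)
(fin 907 4 907))))))))))))
(cons (mv 1163 (cons (fin 1162 1 1098)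
(mv 1164 (cons (fin 1103 1 1099)
(mv 1228 (cons (fin 1292 6 1036)
(mv 1035 (cons (fin 1034 3 1034)
(fin 971 4 971)))))))))
(mv 1162 (cons (fin 1163 1 1098)
(mv 1035 (cons (fin 1034 3 1034)
(mv 1036 (cons (fin 1103 3 1035)
(mv 971 (cons (fin 970 3 970)
(mv 974 (cons (fin 975 2 971)
(mv 1165 (cons (fin 1229 6 973)
(mv 907 (cons (fin 843 4 843)
(mv 908 (cons (fin 972 4 908)
(fin 844 6 843))))))))))))))))))))))))))))))))
(cons (cons (mv 1165 (cons (cons (cons (mv 1229 (cons (cons (mv 1292 (cons (fin 1228 5 1036)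
(mv 1356 (cons (fin 1293 5 1100)
(mv 1294 (cons (fin 1230 4 1037)
(mv 1036 (cons (fin 972 7 972)
(mv 1038 (cons (fin 974 6 973)
(mv 1039 (cons (fin 1100 1 1036)
(mv 1104 (cons (fin 1103 0 1036)
(fin 1105 0 1037)))))))))))))))
(cons (mv 1294 (cons (fin 1230 4 1037)
(mv 1358 (cons (fin 1293 4 1101)
(mv 1036 (cons (fin 972 7 972)
(mv 1038 (cons (fin 974 6 973)
(mv 1039 (cons (fin 1100 1 1036)
(mv 1104 (cons (fin 1103 0 1036)
(fin 1105 0 1037)))))))))))))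
(mv 1292 (cons (fin 1228 5 1036)
(mv 1356 (cons (fin 1293 5 1100)
(mv 1036 (cons (fin 972 7 972)
(mv 1038 (cons (fin 974 6 973)
(mv 1039 (cons (fin 1100 1 1036)
(mv 1104 (cons (fin 1103 0 1036)
(fin 1105 0 1037)))))))))))))))
(cons (cons (mv 1292 (cons (fin 1228 5 1036)
(mv 1356 (cons (fin 1293 5 1100)
(mv 1230 (cons (fin 1294 4 1037)
(mv 972 (cons (fin 1036 7 972)
(mv 973 (cons (fin 908 7 908)
(fin 1166 4 973)))))))))))
(mv 1292 (cons (fin 1228 5 1036)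
(mv 1356 (cons (fin 1293 5 1100)
(mv 1294 (cons (fin 1230 4 1037)
(mv 1038 (cons (fin 974 6 973)
(mv 1039 (cons (fin 1100 1 1036)
(mv 1104 (cons (fin 1105 0 1037)
(mv 1103 (cons (fin 1036 0 1036)
(mv 976 (cons (fin 977 2 973)
(mv 1167 (cons (fin 912 5 911)
(fin 1231 6 975))))))))))))))))))))
(cons (mv 1292 (cons (fin 1228 5 1036)
(mv 1356 (cons (fin 1293 5 1100)
(mv 1230 (cons (fin 1294 4 1037)
(mv 1166 (cons (fin 973 4 973)
(mv 1038 (cons (fin 974 6 973)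
(mv 1100 (cons (fin 1039 1 1036)
(mv 1167 (cons (fin 1168 3 1100)
(mv 1099 (cons (fin 1164 3 1099)
(fin 1098 0 1098)))))))))))))))))
(mv 1292 (cons (fin 1228 5 1036)
(mv 1294 (cons (fin 1230 4 1037)
(mv 1036 (cons (fin 972 7 972)
(mv 1038 (cons (fin 974 6 973)
(mv 1039 (cons (fin 1100 1 1036)
(mv 1104 (cons (fin 1103 0 1036)
(fin 1105 0 1037)))))))))))))))))
(mv 973 (cons (cons (mv 1230 (cons (fin 1166 4 973)
(mv 1164 (cons (fin 1228 5 972)
(mv 1100 (cons (fin 909 5 908)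
(mv 1038 (cons (fin 1039 1 1036)
(mv 1098 (cons (fin 1099 2 1034)
(mv 972 (cons (fin 908 7 908)
(mv 971 (cons (fin 970 0 970)
(mv 1036 (cons (fin 907 7 907)
(mv 1163 (cons (fin 1227 5 971)
(mv 1162 (cons (fin 1097 3 1097)
(fin 1161 2 1097)))))))))))))))))))))
(mv 1164 (cons (fin 1228 5 972)
(mv 1166 (cons (fin 1230 4 973)
(mv 1100 (cons (fin 909 5 908)
(mv 1167 (cons (fin 1099 3 1099)
(fin 1168 3 1100))))))))))
(cons (mv 1166 (cons (fin 1230 4 973)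
(mv 972 (cons (fin 908 7 908)
(mv 1039 (cons (fin 1038 3 972)
(mv 975 (cons (fin 974 0 972)
(mv 1168 (cons (cons (mv 1232 (cons (fin 1104 7 975)
(mv 1167 (cons (fin 1100 3 1100)
(fin 1233 0 1165)))))
(mv 1167 (cons (fin 1100 3 1100)
(mv 1232 (cons (fin 1233 0 1165)
(fin 1103 4 975))))))
(cons (mv 1104 (cons (fin 1232 7 975)
(mv 911 (cons (fin 976 7 911)
(fin 1103 4 911)))))
(mv 1167 (cons (fin 1100 3 1100)
(mv 1104 (cons (fin 1105 2 1101)
(mv 976 (cons (fin 1231 5 975)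
(fin 911 7 911))))))))))))))))))
(cons (mv 1164 (cons (fin 1228 5 972)
(mv 1100 (cons (fin 909 5 908)
(mv 1038 (cons (fin 1039 1 1036)
(mv 1098 (cons (fin 1099 2 1034)
(mv 972 (cons (fin 908 7 908)
(mv 971 (cons (fin 970 0 970)
(mv 1036 (cons (fin 907 7 907)
(mv 1163 (cons (fin 1227 5 971)
(mv 1162 (cons (fin 1097 3 1097)
(fin 1161 2 1097)))))))))))))))))))
(mv 1164 (cons (fin 1228 5 972)
(mv 1166 (cons (fin 1230 4 973)
(mv 972 (cons (fin 908 7 908)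
(mv 1039 (cons (fin 1038 3 972)
(mv 975 (cons (fin 974 0 972)
(mv 1167 (cons (cons (mv 1231 (cons (fin 1232 0 1164)
(mv 1103 (cons (fin 1104 2 1100)
(fin 976 6 975)))))
(mv 1232 (cons (fin 1231 0 1164)
(mv 1168 (cons (fin 1233 0 1165)
(fin 1103 4 975))))))
(cons (mv 1232 (cons (fin 1231 0 1164)
(mv 1168 (cons (fin 1233 0 1165)
(fin 1104 7 975)))))
(cons (mv 1103 (cons (fin 1104 2 1100)
(mv 976 (cons (fin 1231 6 975)
(fin 912 6 911)))))
(mv 1104 (cons (fin 1103 2 1100)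
(mv 1168 (cons (fin 1105 2 1101)
(fin 1232 7 975))))))))))))))))))))))))
(cons (mv 1229 (cons (cons (mv 1292 (cons (fin 1228 5 1036)
(mv 1356 (cons (fin 1293 5 1100)
(mv 1294 (cons (fin 1230 4 1037)
(mv 1036 (cons (fin 972 7 972)
(mv 1038 (cons (fin 974 6 973)
(mv 1039 (cons (fin 1100 1 1036)
(mv 1104 (cons (fin 1103 0 1036)
(fin 1105 0 1037)))))))))))))))
(mv 1292 (cons (fin 1228 5 1036)
(mv 1293 (cons (fin 1356 5 1100)
(mv 1294 (cons (fin 1358 4 1101)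
(fin 1230 4 1037))))))))
(cons (mv 1294 (cons (fin 1230 4 1037)
(mv 1358 (cons (fin 1293 4 1101)
(mv 1036 (cons (fin 972 7 972)
(mv 1038 (cons (fin 974 6 973)
(mv 1039 (cons (fin 1100 1 1036)
(mv 1104 (cons (fin 1103 0 1036)
(fin 1105 0 1037)))))))))))))
(cons (mv 1292 (cons (fin 1228 5 1036)
(mv 1356 (cons (fin 1293 5 1100)
(mv 1036 (cons (fin 972 7 972)
(mv 1038 (cons (fin 974 6 973)
(mv 1039 (cons (fin 1100 1 1036)
(mv 1104 (cons (fin 1103 0 1036)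
(fin 1105 0 1037)))))))))))))
(mv 1292 (cons (fin 1228 5 1036)
(mv 1294 (cons (fin 1230 4 1037)
(mv 1036 (cons (fin 972 7 972)
(mv 1038 (cons (fin 974 6 973)
(mv 1039 (cons (fin 1100 1 1036)
(mv 1104 (cons (fin 1103 0 1036)
(fin 1105 0 1037)))))))))))))))))
(mv 1229 (cons (cons (mv 1292 (cons (fin 1228 5 1036)
(mv 1356 (cons (fin 1293 5 1100)
(mv 1230 (cons (fin 1294 4 1037)
(mv 972 (cons (fin 1036 7 972)
(mv 973 (cons (fin 908 7 908)
(fin 1166 4 973)))))))))))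
(mv 1294 (cons (fin 1230 4 1037)
(mv 1293 (cons (fin 1358 4 1101)
(mv 1036 (cons (fin 1100 7 1036)
(fin 972 7 972))))))))
(cons (mv 1292 (cons (fin 1228 5 1036)
(mv 1293 (cons (fin 1356 5 1100)
(mv 1036 (cons (fin 1100 7 1036)
(fin 972 7 972)))))))
(cons (mv 1292 (cons (fin 1228 5 1036)
(mv 1293 (cons (fin 1356 5 1100)
(mv 1294 (cons (fin 1358 4 1101)
(fin 1230 4 1037)))))))
(mv 1292 (cons (fin 1228 5 1036)
(mv 1230 (cons (fin 1294 4 1037)
(mv 972 (cons (fin 1036 7 972)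
(mv 973 (cons (fin 908 7 908)
(fin 1166 4 973)))))))))))))))
(cons (cons (mv 1229 (cons (cons (mv 1292 (cons (fin 1228 5 1036)
(mv 1356 (cons (fin 1293 5 1100)
(mv 1294 (cons (fin 1230 4 1037)
(mv 1038 (cons (fin 974 6 973)
(mv 1039 (cons (fin 1100 1 1036)
(mv 1104 (cons (fin 1105 0 1037)
(mv 1103 (cons (fin 1036 0 1036)
(mv 976 (cons (fin 977 2 973)
(mv 1167 (cons (fin 912 5 911)
(fin 1231 6 975)))))))))))))))))))
(mv 1294 (cons (fin 1230 4 1037)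
(mv 1358 (cons (fin 1293 4 1101)
(mv 1038 (cons (fin 974 6 973)
(mv 1039 (cons (fin 1100 1 1036)
(mv 1104 (cons (fin 1105 0 1037)
(mv 1103 (cons (fin 1036 0 1036)
(mv 976 (cons (fin 977 2 973)
(mv 1167 (cons (fin 912 5 911)
(fin 1231 6 975))))))))))))))))))
(cons (mv 1292 (cons (fin 1228 5 1036)
(mv 1356 (cons (fin 1293 5 1100)
(mv 1038 (cons (fin 974 6 973)
(mv 1039 (cons (fin 1100 1 1036)
(mv 1104 (cons (fin 1105 0 1037)
(mv 1103 (cons (fin 1036 0 1036)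
(mv 976 (cons (fin 977 2 973)
(mv 1167 (cons (fin 912 5 911)
(fin 1231 6 975)))))))))))))))))
(cons (mv 1292 (cons (fin 1228 5 1036)
(mv 1293 (cons (fin 1356 5 1100)
(mv 1294 (cons (fin 1358 4 1101)
(fin 1230 4 1037)))))))
(mv 1292 (cons (fin 1228 5 1036)
(mv 1294 (cons (fin 1230 4 1037)
(mv 1038 (cons (fin 974 6 973)
(mv 1039 (cons (fin 1100 1 1036)
(mv 1104 (cons (fin 1105 0 1037)
(mv 1103 (cons (fin 1036 0 1036)
(mv 976 (cons (fin 977 2 973)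
(mv 1167 (cons (fin 912 5 911)
(fin 1231 6 975)))))))))))))))))))))
(mv 1229 (cons (cons (mv 1294 (cons (fin 1230 4 1037)
(mv 1358 (cons (fin 1293 4 1101)
(mv 1036 (cons (fin 972 7 972)
(mv 1038 (cons (fin 974 6 973)
(mv 1039 (cons (fin 1100 1 1036)
(mv 1104 (cons (fin 1103 0 1036)
(fin 1105 0 1037)))))))))))))
(cons (mv 1036 (cons (fin 972 7 972)
(mv 1293 (cons (fin 1100 7 1036)
(mv 1356 (cons (fin 1292 5 1100)
(mv 1357 (cons (fin 1420 5 1164)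
(mv 1358 (cons (fin 1422 4 1165)
(fin 1294 4 1101)))))))))))
(mv 1294 (cons (fin 1230 4 1037)
(mv 1358 (cons (fin 1293 4 1101)
(mv 1038 (cons (fin 974 6 973)
(mv 1039 (cons (fin 1100 1 1036)
(mv 1104 (cons (fin 1105 0 1037)
(mv 1103 (cons (fin 1036 0 1036)
(mv 976 (cons (fin 977 2 973)
(mv 1167 (cons (fin 912 5 911)
(fin 1231 6 975)))))))))))))))))))
(cons (cons (mv 1294 (cons (fin 1230 4 1037)
(mv 1293 (cons (fin 1358 4 1101)
(mv 1356 (cons (fin 1292 5 1100)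
(mv 1357 (cons (fin 1420 5 1164)
(mv 1354 (cons (fin 1355 2 1290)
(mv 1295 (cons (fin 1296 1 1292)
(mv 1100 (cons (fin 1164 7 1100)
(mv 1038 (cons (fin 1039 1 1036)
(fin 974 6 973)))))))))))))))))
(mv 1036 (cons (fin 972 7 972)
(mv 1100 (cons (fin 1293 7 1036)
(mv 1038 (cons (fin 1039 1 1036)
(fin 974 6 973))))))))
(cons (mv 1294 (cons (fin 1230 4 1037)
(mv 1036 (cons (fin 972 7 972)
(mv 1038 (cons (fin 974 6 973)
(mv 1039 (cons (fin 1100 1 1036)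
(mv 1104 (cons (fin 1103 0 1036)
(fin 1105 0 1037)))))))))))
(mv 1294 (cons (fin 1230 4 1037)
(mv 1358 (cons (fin 1293 4 1101)
(mv 1038 (cons (fin 974 6 973)
(mv 972 (cons (fin 1036 7 972)
(mv 973 (cons (fin 1039 3 972)
(fin 908 7 908))))))))))))))))
(cons (mv 1229 (cons (cons (mv 1292 (cons (fin 1228 5 1036)
(mv 1356 (cons (fin 1293 5 1100)
(mv 1036 (cons (fin 972 7 972)
(mv 1038 (cons (fin 974 6 973)
(mv 1039 (cons (fin 1100 1 1036)
(mv 1104 (cons (fin 1103 0 1036)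
(fin 1105 0 1037)))))))))))))
(cons (mv 1036 (cons (fin 972 7 972)
(mv 1293 (cons (fin 1100 7 1036)
(mv 1356 (cons (fin 1292 5 1100)
(mv 1357 (cons (fin 1420 5 1164)
(mv 1358 (cons (fin 1422 4 1165)
(fin 1294 4 1101)))))))))))
(mv 1292 (cons (fin 1228 5 1036)
(mv 1356 (cons (fin 1293 5 1100)
(mv 1038 (cons (fin 974 6 973)
(mv 1039 (cons (fin 1100 1 1036)
(mv 1104 (cons (fin 1105 0 1037)
(mv 1103 (cons (fin 1036 0 1036)
(mv 976 (cons (fin 977 2 973)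
(mv 1167 (cons (fin 912 5 911)
(fin 1231 6 975)))))))))))))))))))
(cons (cons (mv 1292 (cons (fin 1228 5 1036)
(mv 1293 (cons (fin 1356 5 1100)
(mv 1358 (cons (fin 1294 4 1101)
(mv 1357 (cons (fin 1422 4 1165)
(mv 1359 (cons (fin 1360 3 1292)
(mv 1290 (cons (fin 1291 0 1290)
(mv 1100 (cons (fin 1164 7 1100)
(mv 1038 (cons (fin 1039 1 1036)
(fin 974 6 973)))))))))))))))))
(mv 1036 (cons (fin 972 7 972)
(mv 1100 (cons (fin 1293 7 1036)
(mv 1038 (cons (fin 1039 1 1036)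
(fin 974 6 973))))))))
(cons (mv 1292 (cons (fin 1228 5 1036)
(mv 1036 (cons (fin 972 7 972)
(mv 1038 (cons (fin 974 6 973)
(mv 1039 (cons (fin 1100 1 1036)
(mv 1104 (cons (fin 1103 0 1036)
(fin 1105 0 1037)))))))))))
(mv 1292 (cons (fin 1228 5 1036)
(mv 1356 (cons (fin 1293 5 1100)
(mv 1038 (cons (fin 974 6 973)
(mv 972 (cons (fin 1036 7 972)
(mv 973 (cons (fin 1039 3 972)
(fin 908 7 908)))))))))))))))
(cons (mv 1229 (cons (cons (mv 1292 (cons (fin 1228 5 1036)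
(mv 1356 (cons (fin 1293 5 1100)
(mv 1294 (cons (fin 1230 4 1037)
(mv 1038 (cons (fin 974 6 973)
(mv 972 (cons (fin 1036 7 972)
(mv 973 (cons (fin 1039 3 972)
(fin 908 7 908)))))))))))))
(mv 1294 (cons (fin 1230 4 1037)
(mv 1358 (cons (fin 1293 4 1101)
(mv 1038 (cons (fin 974 6 973)
(mv 972 (cons (fin 1036 7 972)
(mv 973 (cons (fin 1039 3 972)
(fin 908 7 908))))))))))))
(cons (mv 1292 (cons (fin 1228 5 1036)
(mv 1356 (cons (fin 1293 5 1100)
(mv 1038 (cons (fin 974 6 973)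
(mv 972 (cons (fin 1036 7 972)
(mv 973 (cons (fin 1039 3 972)
(fin 908 7 908)))))))))))
(cons (mv 1292 (cons (fin 1228 5 1036)
(mv 1293 (cons (fin 1356 5 1100)
(mv 1294 (cons (fin 1358 4 1101)
(fin 1230 4 1037)))))))
(mv 1292 (cons (fin 1228 5 1036)
(mv 1294 (cons (fin 1230 4 1037)
(mv 1038 (cons (fin 974 6 973)
(mv 972 (cons (fin 1036 7 972)
(mv 973 (cons (fin 1039 3 972)
(fin 908 7 908)))))))))))))))
(mv 973 (cons (cons (mv 1228 (cons (fin 1164 5 972)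
(mv 1229 (cons (fin 1292 5 1036)
(mv 1230 (cons (fin 1294 4 1037)
(fin 1166 4 973)))))))
(mv 1230 (cons (fin 1166 4 973)
(mv 1229 (cons (fin 1294 4 1037)
(mv 1292 (cons (fin 1228 5 1036)
(mv 1356 (cons (fin 1293 5 1100)
(mv 1038 (cons (fin 974 6 973)
(mv 1039 (cons (fin 1100 1 1036)
(fin 972 3 972))))))))))))))
(cons (mv 1230 (cons (fin 1166 4 973)
(mv 1229 (cons (fin 1294 4 1037)
(mv 1038 (cons (fin 974 6 973)
(mv 1039 (cons (fin 1100 1 1036)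
(fin 972 3 972)))))))))
(cons (mv 1228 (cons (fin 1164 5 972)
(mv 1229 (cons (fin 1292 5 1036)
(mv 1038 (cons (fin 974 6 973)
(mv 1039 (cons (fin 1100 1 1036)
(fin 972 3 972)))))))))
(mv 1230 (cons (fin 1166 4 973)
(mv 1164 (cons (fin 1228 5 972)
(mv 908 (cons (fin 972 7 908)
(mv 909 (cons (fin 1100 5 908)
(fin 844 7 844))))))))))))))))))
(cons (mv 1038 (cons (cons (mv 1039 (cons (fin 1100 1 1036)
(mv 1104 (cons (fin 1105 0 1037)
(mv 972 (cons (fin 973 3 972)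
(mv 976 (cons (fin 977 2 973)
(mv 1168 (cons (mv 975 (cons (fin 1232 7 975)
(fin 911 7 911)))
(cons (mv 1231 (cons (fin 1167 5 975)
(mv 1232 (cons (fin 1295 5 1039)
(mv 1233 (cons (fin 1297 4 1040)
(fin 1169 4 976)))))))
(mv 1231 (cons (fin 1167 5 975)
(mv 1233 (cons (fin 1169 4 976)
(mv 911 (cons (fin 975 7 911)
(mv 912 (cons (fin 847 7 847)
(mv 848 (cons (fin 1103 5 847)
(mv 849 (cons (fin 913 6 848)
(fin 785 6 784))))))))))))))))))))))))
(cons (mv 1165 (cons (cons (mv 1229 (cons (fin 974 6 973)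
(mv 1292 (cons (fin 1228 5 1036)
(mv 1293 (cons (fin 1356 5 1100)
(fin 1102 6 1037)))))))
(mv 973 (cons (cons (mv 1228 (cons (fin 1164 5 972)
(mv 1230 (cons (fin 1166 4 973)
(mv 908 (cons (fin 972 7 908)
(mv 909 (cons (fin 844 7 844)
(mv 845 (cons (fin 1102 4 845)
(mv 781 (cons (fin 974 4 781)
(mv 782 (cons (fin 846 6 781)
(fin 718 6 717)))))))))))))))
(cons (mv 1228 (cons (fin 1164 5 972)
(mv 908 (cons (fin 972 7 908)
(mv 909 (cons (fin 844 7 844)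
(mv 845 (cons (fin 1102 4 845)
(mv 781 (cons (fin 974 4 781)
(mv 782 (cons (fin 846 6 781)
(fin 718 6 717)))))))))))))
(mv 1230 (cons (fin 1166 4 973)
(mv 908 (cons (fin 972 7 908)
(mv 909 (cons (fin 844 7 844)
(mv 845 (cons (fin 1102 4 845)
(mv 781 (cons (fin 974 4 781)
(mv 782 (cons (fin 846 6 781)
(fin 718 6 717)))))))))))))))
(cons (cons (mv 1228 (cons (fin 1164 5 972)
(mv 1166 (cons (fin 1230 4 973)
(mv 909 (cons (fin 1102 4 909)
(mv 844 (cons (fin 908 7 844)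
(mv 845 (cons (fin 780 7 780)
(mv 781 (cons (fin 974 4 781)
(mv 782 (cons (fin 846 6 781)
(fin 718 6 717)))))))))))))))
(mv 1230 (cons (fin 1166 4 973)
(mv 1164 (cons (fin 1228 5 972)
(mv 909 (cons (fin 1100 5 908)
(mv 845 (cons (fin 1102 4 845)
(mv 844 (cons (fin 780 7 780)
(mv 781 (cons (fin 974 4 781)
(mv 782 (cons (fin 846 6 781)
(fin 718 6 717))))))))))))))))
(cons (mv 1164 (cons (fin 1228 5 972)
(mv 1166 (cons (fin 1230 4 973)
(mv 972 (cons (fin 908 7 908)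
(mv 970 (cons (fin 971 0 970)
(mv 1167 (cons (mv 1100 (cons (fin 1099 3 1099)
(fin 1168 3 1100)))
(mv 1231 (cons (fin 1232 0 1164)
(mv 1102 (cons (fin 974 4 974)
(mv 1295 (cons (fin 1359 7 1102)
(fin 1103 7 1038)))))))))))))))))
(mv 1230 (cons (fin 1166 4 973)
(mv 1164 (cons (fin 1228 5 972)
(mv 908 (cons (fin 972 7 908)
(mv 909 (cons (fin 1100 5 908)
(fin 844 7 844))))))))))))))
(cons (mv 973 (cons (cons (mv 1228 (cons (fin 1164 5 972)
(mv 1292 (cons (fin 1229 5 1036)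
(mv 1166 (cons (fin 1230 4 973)
(mv 908 (cons (fin 972 7 908)
(mv 909 (cons (fin 844 7 844)
(fin 1102 4 909)))))))))))
(cons (mv 1228 (cons (fin 1164 5 972)
(mv 1229 (cons (fin 1292 5 1036)
(mv 1293 (cons (fin 1102 6 1037)
(mv 1294 (cons (fin 1358 4 1101)
(fin 1230 4 1037)))))))))
(mv 1228 (cons (fin 1164 5 972)
(mv 1292 (cons (fin 1229 5 1036)
(mv 908 (cons (fin 972 7 908)
(mv 909 (cons (fin 844 7 844)
(mv 1102 (cons (fin 1166 4 909)
(fin 845 4 845)))))))))))))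
(cons (cons (mv 1230 (cons (fin 1166 4 973)
(mv 1229 (cons (fin 1294 4 1037)
(mv 1292 (cons (fin 1228 5 1036)
(mv 1293 (cons (fin 1356 5 1100)
(fin 1102 6 1037)))))))))
(mv 1230 (cons (fin 1166 4 973)
(mv 1229 (cons (fin 1294 4 1037)
(mv 1102 (cons (fin 1293 6 1037)
(mv 908 (cons (fin 972 7 908)
(mv 909 (cons (fin 844 7 844)
(fin 845 4 845))))))))))))
(cons (mv 1228 (cons (fin 1164 5 972)
(mv 1229 (cons (fin 1292 5 1036)
(mv 1230 (cons (fin 1294 4 1037)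
(fin 1166 4 973)))))))
(mv 1228 (cons (fin 1164 5 972)
(mv 1166 (cons (fin 1230 4 973)
(mv 908 (cons (fin 972 7 908)
(mv 909 (cons (fin 844 7 844)
(fin 1102 4 909)))))))))))))
(cons (mv 1229 (cons (fin 974 6 973)
(mv 1293 (cons (fin 1102 6 1037)
(mv 1294 (cons (fin 1358 4 1101)
(fin 1230 4 1037)))))))
(mv 1229 (cons (fin 974 6 973)
(mv 1292 (cons (fin 1228 5 1036)
(mv 1293 (cons (fin 1356 5 1100)
(mv 1294 (cons (fin 1358 4 1101)
(fin 1230 4 1037)))))))))))))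
(mv 1039 (cons (cons (mv 1104 (cons (fin 1105 0 1037)
(mv 972 (cons (fin 973 3 972)
(mv 976 (cons (fin 977 2 973)
(mv 1168 (cons (mv 975 (cons (fin 1232 7 975)
(fin 911 7 911)))
(cons (mv 1231 (cons (fin 1167 5 975)
(mv 1232 (cons (fin 1295 5 1039)
(mv 1233 (cons (fin 1297 4 1040)
(fin 1169 4 976)))))))
(mv 1231 (cons (fin 1167 5 975)
(mv 1233 (cons (fin 1169 4 976)
(mv 911 (cons (fin 975 7 911)
(mv 912 (cons (fin 847 7 847)
(mv 848 (cons (fin 1103 5 847)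
(mv 849 (cons (fin 913 6 848)
(fin 785 6 784))))))))))))))))))))))
(mv 1104 (cons (fin 1105 0 1037)
(mv 976 (cons (fin 977 2 973)
(mv 1168 (cons (mv 975 (cons (fin 1232 7 975)
(fin 911 7 911)))
(cons (mv 1231 (cons (fin 1167 5 975)
(mv 1232 (cons (fin 1295 5 1039)
(mv 1233 (cons (fin 1297 4 1040)
(fin 1169 4 976)))))))
(mv 1231 (cons (fin 1167 5 975)
(mv 1233 (cons (fin 1169 4 976)
(mv 911 (cons (fin 975 7 911)
(mv 912 (cons (fin 847 7 847)
(mv 848 (cons (fin 1103 5 847)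
(mv 849 (cons (fin 913 6 848)
(fin 785 6 784)))))))))))))))))))))
(cons (mv 973 (cons (fin 972 3 972)
(mv 976 (cons (fin 977 2 973)
(mv 909 (cons (mv 1102 (cons (fin 1166 4 909)
(fin 845 4 845)))
(cons (mv 844 (cons (fin 908 7 844)
(mv 845 (cons (fin 780 7 780)
(mv 781 (cons (fin 974 4 781)
(mv 782 (cons (fin 846 6 781)
(fin 718 6 717)))))))))
(mv 1166 (cons (fin 1102 4 909)
(mv 1165 (cons (fin 1230 4 973)
(mv 1228 (cons (fin 1164 5 972)
(mv 1229 (cons (fin 1292 5 1036)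
(fin 974 6 973))))))))))))))))
(mv 1104 (cons (fin 1105 0 1037)
(mv 973 (cons (fin 972 3 972)
(mv 1102 (cons (mv 1166 (cons (fin 1230 7 973)
(fin 909 4 909)))
(cons (mv 909 (cons (fin 845 4 845)
(mv 908 (cons (fin 844 7 844)
(mv 1165 (cons (mv 1229 (cons (fin 1293 6 1037)
(fin 974 6 973)))
(mv 1164 (cons (fin 1103 1 1100)
(fin 1228 5 972)))))))))
(mv 1230 (cons (fin 1166 7 973)
(mv 1165 (cons (mv 1229 (cons (fin 1294 4 1037)
(fin 1293 6 1037)))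
(mv 1164 (cons (fin 1103 1 1100)
(fin 1228 5 972)))))))))))))))))))
(cons (mv 1039 (cons (fin 1100 1 1036)
(mv 1104 (cons (fin 1105 0 1037)
(mv 976 (cons (fin 977 2 973)
(mv 1168 (cons (mv 975 (cons (fin 1232 7 975)
(fin 911 7 911)))
(cons (mv 1231 (cons (fin 1167 5 975)
(mv 1232 (cons (fin 1295 5 1039)
(mv 1233 (cons (fin 1297 4 1040)
(fin 1169 4 976)))))))
(mv 1231 (cons (fin 1167 5 975)
(mv 1233 (cons (fin 1169 4 976)
(mv 911 (cons (fin 975 7 911)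
(mv 912 (cons (fin 847 7 847)
(mv 848 (cons (fin 1103 5 847)
(mv 849 (cons (fin 913 6 848)
(fin 785 6 784))))))))))))))))))))))
(cons (mv 1100 (cons (fin 1039 1 1036)
(mv 1099 (cons (fin 1098 2 1034)
(mv 1102 (cons (cons (mv 1162 (cons (fin 1163 1 1098)
(mv 1166 (cons (fin 1167 0 1099)
(mv 1230 (cons (fin 1294 7 1037)
(fin 973 7 973)))))))
(mv 1162 (cons (fin 1163 1 1098)
(mv 1035 (cons (fin 1034 3 1034)
(mv 973 (cons (mv 909 (cons (fin 1164 5 908)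
(fin 845 4 845)))
(cons (mv 1165 (cons (mv 1229 (cons (fin 1293 6 1037)
(fin 974 6 973)))
(mv 1164 (cons (fin 1228 5 972)
(mv 971 (cons (fin 907 4 907)
(mv 972 (cons (fin 970 0 970)
(fin 908 7 908)))))))))
(mv 909 (cons (fin 845 4 845)
(mv 908 (cons (fin 844 7 844)
(mv 1165 (cons (fin 972 7 908)
(mv 1229 (cons (fin 1293 6 1037)
(fin 974 6 973)))))))))))))))))
(cons (mv 1166 (cons (fin 1167 0 1099)
(mv 1230 (cons (fin 1294 7 1037)
(fin 973 7 973)))))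
(mv 1162 (cons (fin 1163 1 1098)
(mv 1166 (cons (fin 1167 0 1099)
(mv 1230 (cons (fin 1294 7 1037)
(mv 1229 (cons (fin 1293 5 1037)
(mv 1231 (cons (fin 1295 4 1038)
(mv 1165 (cons (fin 974 5 973)
(mv 1232 (cons (fin 1164 3 1164)
(fin 1233 3 1165))))))))))))))))))))))
(mv 1100 (cons (fin 1039 1 1036)
(mv 1099 (cons (fin 1098 2 1034)
(mv 1164 (cons (cons (mv 1228 (cons (fin 1292 6 1036)
(mv 973 (cons (fin 1165 5 972)
(fin 909 5 908)))))
(mv 973 (cons (fin 909 5 908)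
(mv 1102 (cons (mv 1163 (cons (fin 1162 1 1098)
(fin 1103 1 1099)))
(mv 1230 (cons (fin 1166 7 973)
(mv 1035 (cons (fin 1034 3 1034)
(mv 971 (cons (fin 907 4 907)
(mv 972 (cons (fin 970 0 970)
(mv 1165 (cons (fin 908 7 908)
(mv 1229 (cons (fin 1294 4 1037)
(fin 1293 6 1037))))))))))))))))))
(cons (mv 1292 (cons (fin 1228 6 1036)
(mv 1163 (cons (mv 1162 (cons (fin 1102 1 1098)
(fin 1161 2 1097)))
(cons (mv 1102 (cons (fin 1103 1 1099)
(mv 1035 (cons (fin 1034 3 1034)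
(mv 971 (cons (fin 907 4 907)
(mv 970 (cons (fin 906 7 906)
(mv 972 (cons (fin 908 6 907)
(mv 1227 (cons (mv 1291 (cons (fin 1356 4 1099)
(fin 1355 6 1099)))
(mv 1226 (cons (fin 1290 5 1034)
(mv 1224 (cons (fin 1225 2 1160)
(mv 1165 (cons (fin 1166 1 1162)
(mv 1229 (cons (fin 1293 6 1037)
(fin 974 6 973)))))))))))))))))))))
(mv 1162 (cons (fin 1161 2 1097)
(mv 1165 (cons (mv 1229 (cons (fin 1230 0 1162)
(fin 974 6 973)))
(mv 1226 (cons (fin 1225 1 1161)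
(mv 1354 (cons (fin 1290 6 1098)
(mv 1227 (cons (fin 1166 1 1162)
(mv 1291 (cons (fin 1356 4 1099)
(fin 1355 6 1099))))))))))))))))))
(mv 1292 (cons (fin 1228 6 1036)
(mv 973 (cons (fin 909 5 908)
(mv 1035 (cons (mv 1102 (cons (fin 1034 3 1034)
(mv 1163 (cons (fin 1162 1 1098)
(fin 1103 1 1099)))))
(cons (mv 971 (cons (fin 907 4 907)
(mv 970 (cons (fin 972 0 970)
(mv 1163 (cons (fin 906 7 906)
(mv 1162 (cons (fin 1161 2 1097)
(fin 1226 5 970)))))))))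
(mv 1034 (cons (fin 1102 3 1034)
(mv 1032 (cons (fin 1033 0 1032)
(mv 971 (cons (fin 907 4 907)
(mv 972 (cons (fin 974 1 970)
(fin 970 0 970)))))))))))))))))))))))))))
(mv 1038 (cons (cons (mv 1039 (cons (fin 1100 1 1036)
(mv 1104 (cons (fin 1105 0 1037)
(mv 1103 (cons (fin 1036 0 1036)
(mv 976 (cons (fin 977 2 973)
(mv 1167 (cons (fin 912 5 911)
(fin 1231 6 975)))))))))))
(mv 1165 (cons (cons (mv 1229 (cons (fin 974 6 973)
(mv 1292 (cons (fin 1228 5 1036)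
(mv 1293 (cons (fin 1356 5 1100)
(fin 1102 6 1037)))))))
(mv 973 (cons (cons (mv 1228 (cons (fin 1164 5 972)
(mv 1166 (cons (fin 1230 4 973)
(mv 909 (cons (fin 1102 4 909)
(mv 844 (cons (fin 908 7 844)
(mv 845 (cons (fin 780 7 780)
(mv 1100 (cons (fin 1036 5 844)
(mv 1167 (cons (fin 1168 3 1100)
(mv 1098 (cons (fin 1099 0 1098)
(mv 781 (cons (fin 974 4 781)
(mv 782 (cons (fin 846 6 781)
(fin 718 6 717)))))))))))))))))))))
(cons (mv 1164 (cons (fin 1228 5 972)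
(mv 909 (cons (fin 1100 5 908)
(mv 908 (cons (fin 844 7 844)
(mv 845 (cons (fin 1102 4 845)
(mv 781 (cons (fin 974 4 781)
(mv 782 (cons (fin 846 6 781)
(fin 718 6 717)))))))))))))
(mv 1166 (cons (fin 1230 4 973)
(mv 909 (cons (fin 1102 4 909)
(mv 844 (cons (fin 908 7 844)
(mv 845 (cons (fin 780 7 780)
(mv 1100 (cons (fin 1036 5 844)
(mv 1167 (cons (fin 1168 3 1100)
(mv 1098 (cons (fin 1099 0 1098)
(mv 781 (cons (fin 974 4 781)
(mv 782 (cons (fin 846 6 781)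
(fin 718 6 717)))))))))))))))))))))
(cons (cons (mv 1164 (cons (fin 1228 5 972)
(mv 1166 (cons (fin 1230 4 973)
(mv 1167 (cons (mv 1100 (cons (fin 1099 3 1099)
(fin 1168 3 1100)))
(mv 1231 (cons (fin 1232 0 1164)
(mv 1102 (cons (fin 974 4 974)
(mv 1295 (cons (fin 1359 7 1102)
(fin 1103 7 1038)))))))))))))
(mv 1230 (cons (fin 1166 4 973)
(mv 1164 (cons (fin 1228 5 972)
(mv 909 (cons (fin 1100 5 908)
(mv 844 (cons (fin 908 7 844)
(mv 845 (cons (fin 780 7 780)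
(mv 781 (cons (fin 974 4 781)
(mv 782 (cons (fin 846 6 781)
(fin 718 6 717))))))))))))))))
(cons (mv 1228 (cons (fin 1164 5 972)
(mv 1166 (cons (fin 1230 4 973)
(mv 909 (cons (fin 1102 4 909)
(mv 844 (cons (fin 908 7 844)
(mv 845 (cons (fin 780 7 780)
(mv 781 (cons (fin 974 4 781)
(mv 782 (cons (fin 846 6 781)
(fin 718 6 717)))))))))))))))
(mv 1230 (cons (fin 1166 4 973)
(mv 1164 (cons (fin 1228 5 972)
(mv 909 (cons (fin 1100 5 908)
(mv 844 (cons (fin 908 7 844)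
(mv 845 (cons (fin 780 7 780)
(fin 1102 4 845))))))))))))))))
(cons (mv 1229 (cons (mv 1292 (cons (fin 1228 5 1036)
(mv 1293 (cons (fin 1356 5 1100)
(fin 1102 6 1037)))))
(cons (mv 1228 (cons (fin 1292 5 1036)
(mv 1230 (cons (fin 1294 4 1037)
(mv 973 (cons (fin 1164 5 972)
(fin 1166 4 973)))))))
(mv 1293 (cons (fin 1102 6 1037)
(mv 1294 (cons (fin 1358 4 1101)
(fin 1230 4 1037))))))))
(cons (mv 1229 (cons (fin 974 6 973)
(mv 1293 (cons (fin 1102 6 1037)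
(mv 1294 (cons (fin 1358 4 1101)
(fin 1230 4 1037)))))))
(mv 1229 (cons (fin 974 6 973)
(mv 1292 (cons (fin 1228 5 1036)
(mv 1293 (cons (fin 1356 5 1100)
(mv 1294 (cons (fin 1358 4 1101)
(fin 1230 4 1037))))))))))))))
(cons (mv 1165 (cons (cons (mv 1229 (cons (fin 974 6 973)
(mv 1292 (cons (fin 1228 5 1036)
(mv 1293 (cons (fin 1356 5 1100)
(fin 1102 6 1037)))))))
(mv 973 (cons (cons (mv 1228 (cons (fin 1164 5 972)
(mv 1166 (cons (fin 1230 4 973)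
(mv 909 (cons (fin 1102 4 909)
(mv 844 (cons (fin 908 7 844)
(mv 845 (cons (fin 780 7 780)
(mv 781 (cons (fin 974 4 781)
(mv 782 (cons (fin 846 6 781)
(fin 718 6 717)))))))))))))))
(mv 1164 (cons (fin 1228 5 972)
(mv 909 (cons (mv 1102 (cons (fin 845 4 845)
(mv 1162 (cons (fin 1163 2 1098)
(mv 1104 (cons (fin 1103 1 1100)
(mv 1039 (cons (fin 1105 0 1037)
(mv 976 (cons (fin 977 2 973)
(mv 975 (cons (fin 1036 2 972)
(mv 1168 (cons (fin 1232 7 975)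
(fin 911 7 911)))))))))))))))
(cons (mv 908 (cons (fin 844 7 844)
(mv 1039 (cons (mv 1104 (cons (fin 1105 0 1037)
(mv 1103 (cons (fin 1102 1 1100)
(fin 1036 0 1036)))))
(cons (mv 976 (cons (fin 977 2 973)
(mv 975 (cons (fin 974 3 908)
(fin 1036 2 972)))))
(mv 1104 (cons (fin 1105 0 1037)
(mv 1102 (cons (fin 1103 1 1100)
(mv 1162 (cons (fin 1163 2 1098)
(mv 976 (cons (fin 977 2 973)
(mv 975 (cons (fin 974 3 908)
(mv 1168 (cons (fin 1232 7 975)
(fin 911 7 911))))))))))))))))))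
(mv 844 (cons (fin 908 7 844)
(mv 845 (cons (fin 780 7 780)
(mv 781 (cons (fin 974 4 781)
(mv 782 (cons (fin 846 6 781)
(fin 718 6 717)))))))))))))))
(cons (mv 1166 (cons (fin 1230 4 973)
(mv 909 (cons (fin 1102 4 909)
(mv 844 (cons (fin 908 7 844)
(mv 845 (cons (fin 780 7 780)
(mv 781 (cons (fin 974 4 781)
(mv 782 (cons (fin 846 6 781)
(fin 718 6 717)))))))))))))
(cons (mv 1164 (cons (fin 1228 5 972)
(mv 1166 (cons (fin 1230 4 973)
(mv 1104 (cons (cons (mv 1167 (cons (fin 1103 2 1100)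
(mv 1105 (cons (fin 1039 0 1037)
(fin 1168 2 1101)))))
(cons (mv 1039 (cons (fin 1105 0 1037)
(mv 1103 (cons (fin 1036 0 1036)
(mv 976 (cons (fin 977 2 973)
(mv 912 (cons (fin 848 5 847)
(mv 911 (cons (fin 847 7 847)
(mv 1168 (cons (fin 975 7 911)
(mv 1232 (cons (fin 1296 7 1039)
(mv 1233 (cons (fin 1297 4 1040)
(fin 1169 4 976)))))))))))))))))
(mv 1167 (cons (fin 1103 2 1100)
(mv 1231 (cons (fin 1232 0 1164)
(mv 1168 (cons (fin 1105 2 1101)
(fin 976 5 975)))))))))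
(cons (mv 1167 (cons (fin 1103 2 1100)
(mv 1232 (cons (fin 1231 0 1164)
(mv 1168 (cons (fin 1233 0 1165)
(mv 975 (cons (fin 1039 7 975)
(mv 976 (cons (fin 911 7 911)
(mv 974 (cons (fin 1036 1 972)
(fin 977 1 973)))))))))))))
(cons (mv 1039 (cons (fin 1105 0 1037)
(mv 976 (cons (fin 977 2 973)
(mv 975 (cons (fin 1036 2 972)
(mv 1168 (cons (fin 1232 7 975)
(fin 911 7 911)))))))))
(mv 1103 (cons (fin 1167 2 1100)
(mv 1039 (cons (fin 1036 0 1036)
(fin 1105 0 1037)))))))))))))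
(mv 1164 (cons (fin 1228 5 972)
(mv 1166 (cons (fin 1230 4 973)
(mv 1102 (cons (fin 909 4 909)
(mv 1163 (cons (fin 1162 2 1098)
(fin 1103 2 1099))))))))))))))
(cons (mv 1229 (cons (mv 1292 (cons (fin 1228 5 1036)
(mv 1293 (cons (fin 1356 5 1100)
(fin 1102 6 1037)))))
(cons (mv 1228 (cons (fin 1292 5 1036)
(mv 1230 (cons (fin 1294 4 1037)
(mv 973 (cons (fin 1164 5 972)
(fin 1166 4 973)))))))
(mv 1293 (cons (fin 1102 6 1037)
(mv 1294 (cons (fin 1358 4 1101)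
(fin 1230 4 1037))))))))
(cons (mv 1229 (cons (fin 974 6 973)
(mv 1293 (cons (fin 1102 6 1037)
(mv 1294 (cons (fin 1358 4 1101)
(fin 1230 4 1037)))))))
(mv 1229 (cons (fin 974 6 973)
(mv 1292 (cons (fin 1228 5 1036)
(mv 1293 (cons (fin 1356 5 1100)
(mv 1294 (cons (fin 1358 4 1101)
(fin 1230 4 1037)))))))))))))
(cons (mv 1100 (cons (fin 1039 1 1036)
(mv 1098 (cons (fin 1099 2 1034)
(mv 1165 (cons (cons (mv 1229 (cons (fin 974 6 973)
(mv 1292 (cons (fin 1228 5 1036)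
(mv 1293 (cons (fin 1356 5 1100)
(fin 1102 6 1037)))))))
(mv 973 (cons (mv 1164 (cons (fin 1228 5 972)
(fin 909 5 908)))
(cons (mv 1166 (cons (fin 1230 4 973)
(mv 1167 (cons (fin 1168 3 1100)
(mv 1102 (cons (fin 909 4 909)
(mv 1231 (cons (fin 974 4 974)
(mv 1295 (cons (fin 1359 7 1102)
(fin 1103 7 1038)))))))))))
(mv 1164 (cons (fin 1228 5 972)
(mv 1166 (cons (fin 1230 4 973)
(mv 1167 (cons (fin 1168 3 1100)
(mv 1231 (cons (fin 1232 0 1164)
(mv 1102 (cons (fin 974 4 974)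
(mv 1295 (cons (fin 1359 7 1102)
(fin 1103 7 1038)))))))))))))))))
(cons (mv 1164 (cons (mv 1228 (cons (fin 973 5 972)
(fin 1292 6 1036)))
(cons (mv 973 (cons (fin 909 5 908)
(mv 1230 (cons (fin 1166 4 973)
(mv 1229 (cons (fin 1294 4 1037)
(mv 1293 (cons (fin 1357 7 1100)
(fin 1102 6 1037)))))))))
(mv 1292 (cons (fin 1228 6 1036)
(mv 1163 (cons (mv 1162 (cons (fin 1097 3 1097)
(fin 1161 2 1097)))
(mv 1102 (cons (fin 1103 1 1099)
(mv 1229 (cons (fin 1293 6 1037)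
(mv 1230 (cons (fin 1294 4 1037)
(mv 1231 (cons (fin 1232 3 1164)
(fin 1166 0 1163))))))))))))))))
(cons (mv 1229 (cons (fin 974 6 973)
(mv 1293 (cons (fin 1102 6 1037)
(mv 1294 (cons (fin 1358 4 1101)
(fin 1230 4 1037)))))))
(mv 1229 (cons (fin 974 6 973)
(mv 1292 (cons (fin 1228 5 1036)
(mv 1293 (cons (fin 1356 5 1100)
(mv 1294 (cons (fin 1358 4 1101)
(fin 1230 4 1037)))))))))))))))))
(mv 1039 (cons (fin 1100 1 1036)
(mv 1104 (cons (fin 1105 0 1037)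
(mv 976 (cons (fin 977 2 973)
(mv 975 (cons (fin 1036 2 972)
(mv 1168 (cons (fin 1232 7 975)
(fin 911 7 911)))))))))))))))))
(cons (mv 1100 (cons (cons (cons (mv 1038 (cons (fin 1039 1 1036)
(mv 1098 (cons (fin 1099 2 1034)
(mv 1164 (cons (cons (mv 1228 (cons (fin 1292 6 1036)
(mv 973 (cons (fin 1165 5 972)
(fin 909 5 908)))))
(mv 1228 (cons (fin 1292 6 1036)
(mv 1036 (cons (cons (mv 1291 (cons (fin 1227 5 1035)
(mv 1035 (cons (fin 971 7 971)
(mv 1102 (cons (fin 1103 3 1035)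
(fin 1034 0 1034)))))))
(mv 1227 (cons (fin 1291 5 1035)
(mv 1163 (cons (fin 972 5 971)
(mv 1162 (cons (fin 1161 2 1097)
(mv 1165 (cons (fin 1097 3 1097)
(fin 1102 2 1098))))))))))
(cons (mv 1035 (cons (fin 971 7 971)
(mv 1102 (cons (fin 1103 3 1035)
(fin 1034 0 1034)))))
(mv 1291 (cons (fin 1227 5 1035)
(mv 1035 (cons (fin 971 7 971)
(mv 1034 (cons (fin 1097 1 1033)
(fin 1033 0 1033)))))))))))))
(cons (mv 973 (cons (fin 909 5 908)
(mv 972 (cons (cons (mv 1165 (cons (fin 908 7 908)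
(mv 1230 (cons (fin 1166 4 973)
(mv 971 (cons (fin 970 0 970)
(mv 1036 (cons (fin 907 7 907)
(mv 1163 (cons (fin 1227 5 971)
(mv 1162 (cons (fin 1097 3 1097)
(fin 1161 2 1097)))))))))))))
(mv 971 (cons (fin 970 0 970)
(mv 1036 (cons (fin 907 7 907)
(mv 1163 (cons (fin 1227 5 971)
(mv 1161 (cons (fin 1162 2 1097)
(mv 1102 (cons (fin 1103 1 1099)
(mv 1166 (cons (fin 1230 7 973)
(mv 1035 (cons (fin 1034 0 1034)
(mv 974 (cons (fin 975 1 971)
(mv 1167 (cons (fin 1231 4 974)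
(mv 1168 (cons (fin 1165 3 1100)
(fin 1169 3 1101))))))))))))))))))))))
(cons (mv 971 (cons (fin 970 0 970)
(mv 907 (cons (fin 1036 7 907)
(mv 974 (cons (fin 906 3 906)
(mv 1034 (cons (fin 1035 1 970)
(mv 975 (cons (fin 908 3 907)
(mv 976 (cons (fin 977 1 973)
(mv 912 (cons (fin 911 2 908)
(fin 913 2 909)))))))))))))))
(mv 1165 (cons (fin 908 7 908)
(mv 1166 (cons (fin 1230 4 973)
(mv 1167 (cons (fin 1168 3 1100)
(mv 1231 (cons (fin 1232 0 1164)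
(mv 1102 (cons (fin 974 4 974)
(mv 1295 (cons (fin 1359 7 1102)
(fin 1103 7 1038))))))))))))))))))
(mv 1228 (cons (fin 1292 6 1036)
(mv 973 (cons (fin 909 5 908)
(fin 1036 6 972))))))))))))
(cons (mv 1102 (cons (mv 1103 (cons (fin 1039 2 1036)
(mv 1036 (cons (fin 1035 3 1035)
(fin 1104 3 1036)))))
(cons (mv 1099 (cons (cons (mv 1162 (cons (fin 1163 1 1098)
(mv 1161 (cons (fin 1098 1 1097)
(mv 1166 (cons (fin 1167 0 1099)
(mv 1230 (cons (fin 1294 7 1037)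
(mv 973 (cons (fin 1165 4 973)
(fin 909 4 909)))))))))))
(mv 1162 (cons (fin 1163 1 1098)
(mv 1098 (cons (fin 1161 1 1097)
(mv 1034 (cons (fin 1033 3 1033)
(fin 1035 3 1034))))))))
(cons (mv 1166 (cons (fin 1167 0 1099)
(mv 1294 (cons (fin 1230 7 1037)
(mv 1098 (cons (fin 1165 0 1098)
(mv 1034 (cons (fin 1033 3 1033)
(fin 1035 3 1034)))))))))
(mv 1162 (cons (fin 1163 1 1098)
(mv 1166 (cons (fin 1167 0 1099)
(mv 1230 (cons (fin 1294 7 1037)
(mv 973 (cons (fin 1165 4 973)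
(fin 909 4 909))))))))))))
(mv 1103 (cons (fin 1039 2 1036)
(mv 1163 (cons (fin 1164 1 1099)
(mv 1162 (cons (fin 1099 1 1098)
(mv 1168 (cons (fin 1167 0 1100)
(mv 1104 (cons (fin 1036 3 1036)
(fin 1169 0 1101))))))))))))))
(mv 1099 (cons (cons (mv 1098 (cons (fin 1038 2 1034)
(mv 1161 (cons (fin 1162 1 1097)
(mv 1097 (cons (fin 1160 1 1096)
(fin 1036 2 1033)))))))
(mv 1102 (cons (cons (mv 1162 (cons (fin 1163 1 1098)
(mv 1166 (cons (fin 1167 0 1099)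
(mv 1294 (cons (fin 1230 7 1037)
(mv 1035 (cons (fin 1034 3 1034)
(mv 1036 (cons (fin 1103 3 1035)
(mv 973 (cons (fin 909 4 909)
(mv 1164 (cons (fin 1228 6 972)
(mv 971 (cons (fin 907 4 907)
(mv 970 (cons (fin 1038 3 970)
(mv 969 (cons (fin 968 0 968)
(fin 972 0 969)))))))))))))))))))))
(mv 1162 (cons (fin 1163 1 1098)
(mv 1166 (cons (fin 1167 0 1099)
(mv 1230 (cons (fin 1294 7 1037)
(mv 973 (cons (fin 1038 7 973)
(fin 1165 4 973))))))))))
(cons (mv 1163 (cons (fin 1162 1 1098)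
(mv 1164 (cons (fin 1103 1 1099)
(mv 1292 (cons (fin 1228 6 1036)
(mv 1035 (cons (fin 1034 3 1034)
(mv 971 (cons (fin 907 4 907)
(mv 970 (cons (fin 906 7 906)
(mv 1036 (cons (fin 1038 3 970)
(mv 1227 (cons (fin 972 5 971)
(fin 1291 6 1035)))))))))))))))))
(cons (mv 1166 (cons (fin 1167 0 1099)
(mv 1294 (cons (fin 1230 7 1037)
(mv 1035 (cons (fin 1034 3 1034)
(mv 1036 (cons (fin 1103 3 1035)
(mv 973 (cons (fin 909 4 909)
(mv 1164 (cons (fin 1228 6 972)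
(mv 971 (cons (fin 907 4 907)
(mv 970 (cons (fin 1038 3 970)
(mv 969 (cons (fin 968 0 968)
(fin 972 0 969)))))))))))))))))))
(mv 1162 (cons (fin 1163 1 1098)
(mv 1166 (cons (fin 1167 0 1099)
(mv 1230 (cons (fin 1294 7 1037)
(mv 973 (cons (fin 1165 4 973)
(fin 909 4 909))))))))))))))
(cons (mv 1098 (cons (mv 1161 (cons (fin 1162 1 1097)
(mv 1097 (cons (fin 1160 1 1096)
(fin 1036 2 1033)))))
(cons (mv 1161 (cons (fin 1162 1 1097)
(mv 1166 (cons (fin 1165 0 1098)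
(mv 1102 (cons (fin 1167 0 1099)
(mv 1034 (cons (fin 1033 3 1033)
(fin 1035 3 1034)))))))))
(mv 1165 (cons (fin 1166 0 1098)
(mv 1097 (cons (fin 1164 0 1097)
(fin 1036 2 1033))))))))
(cons (mv 1098 (cons (fin 1038 2 1034)
(mv 1165 (cons (fin 1166 0 1098)
(mv 1097 (cons (fin 1164 0 1097)
(fin 1036 2 1033)))))))
(mv 1098 (cons (fin 1038 2 1034)
(mv 1161 (cons (fin 1162 1 1097)
(mv 1160 (cons (fin 1097 1 1096)
(mv 1166 (cons (fin 1165 0 1098)
(mv 1102 (cons (fin 1167 0 1099)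
(mv 1034 (cons (fin 1033 3 1033)
(fin 1035 3 1034)))))))))))))))))))
(cons (mv 1038 (cons (fin 1039 1 1036)
(mv 1099 (cons (fin 1098 2 1034)
(mv 1102 (cons (cons (mv 1162 (cons (fin 1163 1 1098)
(mv 1166 (cons (fin 1167 0 1099)
(mv 1230 (cons (fin 1294 7 1037)
(fin 973 7 973)))))))
(mv 1162 (cons (fin 1163 1 1098)
(mv 1035 (cons (fin 1034 3 1034)
(mv 1103 (cons (fin 1036 3 1035)
(mv 1168 (cons (fin 1167 0 1100)
(mv 1104 (cons (fin 1105 3 1037)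
(fin 1169 0 1101))))))))))))
(cons (mv 1162 (cons (fin 1163 1 1098)
(mv 1035 (cons (fin 1034 3 1034)
(mv 1036 (cons (fin 1103 3 1035)
(mv 971 (cons (fin 970 3 970)
(mv 974 (cons (fin 975 2 971)
(mv 907 (cons (fin 843 4 843)
(mv 906 (cons (fin 842 7 842)
(mv 972 (cons (fin 973 3 906)
(mv 908 (cons (fin 844 5 843)
(fin 1165 4 908)))))))))))))))))))
(mv 1166 (cons (fin 1167 0 1099)
(mv 1230 (cons (fin 1294 7 1037)
(fin 973 7 973))))))))))))
(cons (mv 1038 (cons (fin 1039 1 1036)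
(mv 1099 (cons (fin 1098 2 1034)
(mv 1164 (cons (cons (mv 1228 (cons (fin 1292 6 1036)
(mv 973 (cons (fin 1165 5 972)
(fin 909 5 908)))))
(mv 973 (cons (fin 909 5 908)
(mv 1165 (cons (mv 1166 (cons (fin 1167 3 1099)
(fin 1230 4 973)))
(mv 972 (cons (fin 908 7 908)
(mv 971 (cons (fin 970 0 970)
(mv 907 (cons (fin 1036 7 907)
(fin 1035 4 907))))))))))))
(cons (mv 1228 (cons (fin 1292 6 1036)
(mv 1036 (cons (cons (mv 1291 (cons (fin 1227 5 1035)
(mv 971 (cons (fin 1035 7 971)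
(mv 972 (cons (fin 907 7 907)
(mv 908 (cons (fin 1163 5 907)
(fin 1165 4 908)))))))))
(mv 1227 (cons (fin 1291 5 1035)
(mv 972 (cons (fin 1163 5 971)
(mv 908 (cons (fin 1165 4 908)
(fin 844 4 844))))))))
(cons (mv 971 (cons (fin 1035 7 971)
(mv 972 (cons (fin 907 7 907)
(mv 908 (cons (fin 1163 5 907)
(fin 1165 4 908)))))))
(cons (mv 1227 (cons (fin 1291 5 1035)
(mv 1035 (cons (fin 971 7 971)
(mv 1034 (cons (fin 1033 0 1033)
(mv 970 (cons (fin 969 3 969)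
(fin 1163 7 970)))))))))
(mv 1291 (cons (fin 1227 5 1035)
(mv 971 (cons (fin 1035 7 971)
(mv 972 (cons (fin 907 7 907)
(mv 908 (cons (fin 1165 4 908)
(fin 844 4 844)))))))))))))))
(mv 1228 (cons (fin 1292 6 1036)
(mv 973 (cons (fin 909 5 908)
(fin 1036 6 972))))))))))))
(mv 1038 (cons (fin 1039 1 1036)
(mv 1164 (cons (cons (mv 1228 (cons (fin 1292 6 1036)
(mv 973 (cons (fin 1165 5 972)
(fin 909 5 908)))))
(mv 1228 (cons (fin 1292 6 1036)
(mv 1036 (cons (cons (mv 1291 (cons (fin 1227 5 1035)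
(mv 1035 (cons (fin 971 7 971)
(mv 1102 (cons (fin 1103 3 1035)
(fin 1034 0 1034)))))))
(mv 1227 (cons (fin 1291 5 1035)
(mv 1163 (cons (fin 972 5 971)
(mv 1162 (cons (fin 1161 2 1097)
(mv 1102 (cons (fin 1103 1 1099)
(fin 1165 2 1098))))))))))
(cons (mv 1035 (cons (fin 971 7 971)
(mv 1102 (cons (fin 1103 3 1035)
(fin 1034 0 1034)))))
(mv 1291 (cons (fin 1227 5 1035)
(mv 971 (cons (fin 1035 7 971)
(mv 972 (cons (fin 907 7 907)
(mv 908 (cons (fin 1165 4 908)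
(fin 844 4 844)))))))))))))))
(cons (mv 973 (cons (fin 909 5 908)
(mv 972 (cons (cons (mv 1165 (cons (fin 908 7 908)
(mv 1230 (cons (fin 1166 4 973)
(mv 971 (cons (fin 970 0 970)
(mv 1036 (cons (fin 907 7 907)
(mv 1163 (cons (fin 1227 5 971)
(mv 1162 (cons (fin 1161 2 1097)
(fin 1102 2 1098)))))))))))))
(mv 971 (cons (fin 970 0 970)
(mv 1036 (cons (fin 907 7 907)
(mv 1163 (cons (fin 1227 5 971)
(mv 1161 (cons (fin 1162 2 1097)
(mv 1102 (cons (fin 1103 1 1099)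
(mv 1166 (cons (fin 1230 7 973)
(mv 1035 (cons (fin 1034 0 1034)
(mv 974 (cons (fin 975 1 971)
(mv 1167 (cons (fin 1231 4 974)
(mv 1168 (cons (fin 1165 3 1100)
(fin 1169 3 1101))))))))))))))))))))))
(cons (mv 971 (cons (fin 970 0 970)
(mv 907 (cons (fin 1036 7 907)
(mv 974 (cons (fin 906 3 906)
(mv 1034 (cons (fin 1035 1 970)
(mv 975 (cons (fin 908 3 907)
(mv 976 (cons (fin 977 1 973)
(mv 912 (cons (fin 911 2 908)
(fin 913 2 909)))))))))))))))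
(mv 1165 (cons (fin 908 7 908)
(mv 1166 (cons (fin 1230 4 973)
(mv 1167 (cons (fin 1168 3 1100)
(mv 1231 (cons (fin 1232 0 1164)
(mv 1102 (cons (fin 974 4 974)
(mv 1295 (cons (fin 1359 7 1102)
(fin 1103 7 1038))))))))))))))))))
(mv 1228 (cons (fin 1292 6 1036)
(mv 973 (cons (fin 909 5 908)
(fin 1036 6 972)))))))))))))
(cons (cons (mv 1038 (cons (fin 1039 1 1036)
(mv 1099 (cons (fin 1098 2 1034)
(mv 1102 (cons (cons (mv 1162 (cons (fin 1163 1 1098)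
(mv 1166 (cons (fin 1167 0 1099)
(mv 1294 (cons (fin 1230 7 1037)
(mv 1035 (cons (fin 1034 3 1034)
(mv 1036 (cons (fin 1103 3 1035)
(mv 971 (cons (fin 970 3 970)
(mv 1164 (cons (fin 1228 7 971)
(fin 907 4 907)))))))))))))))
(cons (mv 1162 (cons (fin 1163 1 1098)
(mv 1167 (cons (fin 1166 0 1099)
(mv 1103 (cons (fin 1168 0 1100)
(mv 1104 (cons (fin 1036 3 1036)
(fin 1105 3 1037)))))))))
(mv 1162 (cons (fin 1163 1 1098)
(mv 1035 (cons (fin 1034 3 1034)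
(mv 1103 (cons (fin 1036 3 1035)
(mv 1168 (cons (fin 1167 0 1100)
(mv 1104 (cons (fin 1105 3 1037)
(fin 1169 0 1101)))))))))))))
(cons (cons (mv 1166 (cons (fin 1167 0 1099)
(mv 1294 (cons (fin 1230 7 1037)
(mv 1035 (cons (fin 1034 3 1034)
(mv 1036 (cons (fin 1103 3 1035)
(mv 971 (cons (fin 970 3 970)
(mv 1164 (cons (fin 1228 7 971)
(fin 907 4 907)))))))))))))
(mv 1162 (cons (fin 1163 1 1098)
(mv 1035 (cons (fin 1034 3 1034)
(mv 1036 (cons (fin 1103 3 1035)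
(mv 971 (cons (fin 970 3 970)
(mv 1164 (cons (fin 1228 7 971)
(fin 907 4 907))))))))))))
(cons (mv 1163 (cons (fin 1162 1 1098)
(mv 1166 (cons (fin 1167 0 1099)
(mv 1230 (cons (fin 1294 7 1037)
(mv 1231 (cons (fin 1295 4 1038)
(mv 1164 (cons (fin 1165 0 1163)
(mv 1292 (cons (fin 1228 6 1036)
(mv 1035 (cons (fin 1034 3 1034)
(mv 971 (cons (fin 907 4 907)
(mv 970 (cons (fin 1036 3 970)
(fin 906 7 906)))))))))))))))))))
(mv 1163 (cons (fin 1162 1 1098)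
(mv 1164 (cons (fin 1103 1 1099)
(mv 1292 (cons (fin 1228 6 1036)
(mv 1166 (cons (fin 1167 0 1099)
(mv 1230 (cons (fin 1294 7 1037)
(mv 1231 (cons (fin 1165 0 1163)
(fin 1295 4 1038)))))))))))))))))))))
(cons (mv 1038 (cons (fin 1039 1 1036)
(mv 1099 (cons (fin 1098 2 1034)
(mv 1102 (cons (cons (mv 1162 (cons (fin 1163 1 1098)
(mv 1166 (cons (fin 1167 0 1099)
(mv 1230 (cons (fin 1294 7 1037)
(fin 973 7 973)))))))
(mv 1163 (cons (fin 1162 1 1098)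
(mv 1164 (cons (fin 1103 1 1099)
(mv 1292 (cons (fin 1228 6 1036)
(mv 1035 (cons (fin 1034 3 1034)
(mv 971 (cons (fin 907 4 907)
(mv 970 (cons (fin 906 7 906)
(mv 972 (cons (fin 973 0 970)
(fin 908 6 907))))))))))))))))
(cons (mv 1166 (cons (fin 1167 0 1099)
(mv 1230 (cons (fin 1294 7 1037)
(fin 973 7 973)))))
(mv 1163 (cons (fin 1162 1 1098)
(mv 1164 (cons (fin 1103 1 1099)
(mv 1292 (cons (fin 1228 6 1036)
(mv 1166 (cons (fin 1167 0 1099)
(mv 1230 (cons (fin 1294 7 1037)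
(mv 1231 (cons (fin 1165 0 1163)
(fin 1295 4 1038))))))))))))))))))))
(mv 1038 (cons (fin 1039 1 1036)
(mv 1099 (cons (fin 1098 2 1034)
(mv 1102 (cons (cons (mv 1162 (cons (fin 1163 1 1098)
(mv 1166 (cons (fin 1167 0 1099)
(mv 1230 (cons (fin 1294 7 1037)
(fin 973 7 973)))))))
(mv 1162 (cons (fin 1163 1 1098)
(mv 1035 (cons (fin 1034 3 1034)
(mv 1103 (cons (fin 1036 3 1035)
(mv 1168 (cons (fin 1167 0 1100)
(mv 1104 (cons (fin 1105 3 1037)
(fin 1169 0 1101))))))))))))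
(cons (mv 1166 (cons (fin 1167 0 1099)
(mv 1230 (cons (fin 1294 7 1037)
(fin 973 7 973)))))
(mv 1162 (cons (fin 1163 1 1098)
(mv 1035 (cons (fin 1034 3 1034)
(mv 1036 (cons (fin 1103 3 1035)
(mv 971 (cons (fin 970 3 970)
(mv 1164 (cons (fin 1228 7 971)
(fin 907 4 907))))))))))))))))))))
(cons (cons (mv 1038 (cons (fin 1039 1 1036)
(mv 1099 (cons (fin 1098 2 1034)
(mv 1102 (cons (cons (mv 1162 (cons (fin 1163 1 1098)
(mv 1035 (cons (fin 1034 3 1034)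
(mv 1103 (cons (fin 1036 3 1035)
(mv 1168 (cons (fin 1167 0 1100)
(mv 1104 (cons (fin 1105 3 1037)
(fin 1169 0 1101)))))))))))
(mv 1163 (cons (fin 1162 1 1098)
(mv 1164 (cons (fin 1103 1 1099)
(mv 1228 (cons (fin 1292 6 1036)
(mv 973 (cons (fin 1165 5 972)
(fin 909 5 908))))))))))
(cons (mv 1035 (cons (fin 1034 3 1034)
(mv 1103 (cons (fin 1036 3 1035)
(mv 1168 (cons (fin 1167 0 1100)
(mv 1104 (cons (fin 1105 3 1037)
(fin 1169 0 1101)))))))))
(mv 1162 (cons (fin 1163 1 1098)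
(mv 1035 (cons (fin 1034 3 1034)
(mv 1164 (cons (cons (mv 1292 (cons (fin 1228 7 1035)
(mv 971 (cons (fin 907 4 907)
(mv 970 (cons (fin 1036 3 970)
(mv 973 (cons (fin 972 0 970)
(fin 909 5 908)))))))))
(mv 971 (cons (fin 907 4 907)
(mv 970 (cons (fin 1036 3 970)
(mv 973 (cons (fin 972 0 970)
(fin 909 5 908))))))))
(cons (mv 1228 (cons (fin 1292 7 1035)
(mv 971 (cons (fin 1036 7 971)
(fin 907 4 907)))))
(mv 1228 (cons (fin 1292 7 1035)
(mv 973 (cons (fin 1165 5 972)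
(fin 909 5 908)))))))))))))))))))
(mv 1038 (cons (fin 1039 1 1036)
(mv 1099 (cons (fin 1098 2 1034)
(mv 1102 (cons (cons (mv 1162 (cons (fin 1163 1 1098)
(mv 1166 (cons (fin 1167 0 1099)
(mv 1230 (cons (fin 1294 7 1037)
(fin 973 7 973)))))))
(mv 1163 (cons (fin 1162 1 1098)
(mv 1164 (cons (fin 1103 1 1099)
(mv 1228 (cons (fin 1292 6 1036)
(mv 973 (cons (fin 1165 5 972)
(fin 909 5 908))))))))))
(cons (mv 1166 (cons (fin 1167 0 1099)
(mv 1230 (cons (fin 1294 7 1037)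
(fin 973 7 973)))))
(mv 1162 (cons (fin 1163 1 1098)
(mv 1167 (cons (fin 1166 0 1099)
(mv 1103 (cons (fin 1168 0 1100)
(mv 1104 (cons (fin 1036 3 1036)
(fin 1105 3 1037)))))))))))))))))
(cons (mv 1038 (cons (fin 1039 1 1036)
(mv 1099 (cons (fin 1098 2 1034)
(mv 1102 (cons (mv 1166 (cons (fin 1167 0 1099)
(mv 1230 (cons (fin 1294 7 1037)
(fin 973 7 973)))))
(cons (mv 1035 (cons (fin 1034 3 1034)
(mv 1103 (cons (fin 1036 3 1035)
(mv 1168 (cons (fin 1167 0 1100)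
(mv 1104 (cons (fin 1105 3 1037)
(fin 1169 0 1101)))))))))
(mv 1035 (cons (fin 1034 3 1034)
(mv 1036 (cons (fin 1103 3 1035)
(mv 971 (cons (fin 970 3 970)
(mv 1164 (cons (fin 1228 7 971)
(fin 907 4 907))))))))))))))))
(mv 1038 (cons (fin 1039 1 1036)
(mv 1099 (cons (fin 1098 2 1034)
(mv 1102 (cons (cons (mv 1162 (cons (fin 1163 1 1098)
(mv 1035 (cons (fin 1034 3 1034)
(mv 1036 (cons (fin 1103 3 1035)
(mv 971 (cons (fin 970 3 970)
(mv 1164 (cons (fin 1228 7 971)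
(fin 907 4 907)))))))))))
(mv 1163 (cons (fin 1162 1 1098)
(mv 1164 (cons (fin 1103 1 1099)
(mv 1228 (cons (fin 1292 6 1036)
(mv 973 (cons (fin 1165 5 972)
(fin 909 5 908))))))))))
(cons (mv 1035 (cons (fin 1034 3 1034)
(mv 1036 (cons (fin 1103 3 1035)
(mv 971 (cons (fin 970 3 970)
(mv 1164 (cons (fin 1228 7 971)
(fin 907 4 907)))))))))
(cons (mv 1162 (cons (fin 1163 1 1098)
(mv 1035 (cons (fin 1034 3 1034)
(mv 1164 (cons (cons (mv 1292 (cons (fin 1228 7 1035)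
(mv 971 (cons (fin 907 4 907)
(mv 970 (cons (fin 1036 3 970)
(mv 973 (cons (fin 972 0 970)
(fin 909 5 908)))))))))
(mv 971 (cons (fin 907 4 907)
(mv 970 (cons (fin 1036 3 970)
(mv 973 (cons (fin 972 0 970)
(fin 909 5 908))))))))
(cons (mv 1228 (cons (fin 1292 7 1035)
(mv 971 (cons (fin 1036 7 971)
(fin 907 4 907)))))
(mv 1228 (cons (fin 1292 7 1035)
(mv 973 (cons (fin 1165 5 972)
(fin 909 5 908))))))))))))
(mv 1162 (cons (fin 1163 1 1098)
(mv 1035 (cons (fin 1034 3 1034)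
(mv 1036 (cons (fin 1103 3 1035)
(mv 971 (cons (fin 970 3 970)
(mv 974 (cons (fin 975 2 971)
(mv 907 (cons (fin 843 4 843)
(mv 906 (cons (fin 842 7 842)
(mv 972 (cons (fin 973 3 906)
(mv 908 (cons (fin 844 5 843)
(fin 1165 4 908))))))))))))))))))))))))))))))))
(cons (mv 1165 (cons (cons (cons (mv 1229 (cons (cons (mv 1292 (cons (fin 1228 5 1036)
(mv 1356 (cons (fin 1293 5 1100)
(mv 1294 (cons (fin 1230 4 1037)
(mv 1036 (cons (fin 972 7 972)
(mv 1038 (cons (fin 974 6 973)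
(mv 1039 (cons (fin 1100 1 1036)
(mv 1104 (cons (fin 1103 0 1036)
(fin 1105 0 1037)))))))))))))))
(cons (mv 1292 (cons (fin 1228 5 1036)
(mv 1356 (cons (fin 1293 5 1100)
(mv 1230 (cons (fin 1294 4 1037)
(mv 972 (cons (fin 1036 7 972)
(mv 973 (cons (fin 908 7 908)
(fin 1166 4 973)))))))))))
(mv 1292 (cons (fin 1228 5 1036)
(mv 1356 (cons (fin 1293 5 1100)
(mv 1230 (cons (fin 1294 4 1037)
(mv 1166 (cons (fin 973 4 973)
(mv 1038 (cons (fin 974 6 973)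
(mv 1100 (cons (fin 1039 1 1036)
(mv 1167 (cons (fin 1168 3 1100)
(mv 1099 (cons (fin 1098 0 1098)
(fin 1102 0 1099)))))))))))))))))))
(cons (mv 1292 (cons (fin 1228 5 1036)
(mv 1356 (cons (fin 1293 5 1100)
(mv 1036 (cons (fin 972 7 972)
(mv 1038 (cons (fin 974 6 973)
(mv 1039 (cons (fin 1100 1 1036)
(mv 1104 (cons (fin 1103 0 1036)
(fin 1105 0 1037)))))))))))))
(cons (mv 1294 (cons (fin 1230 4 1037)
(mv 1358 (cons (fin 1293 4 1101)
(mv 1036 (cons (fin 972 7 972)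
(mv 1038 (cons (fin 974 6 973)
(mv 1039 (cons (fin 1100 1 1036)
(mv 1104 (cons (fin 1103 0 1036)
(fin 1105 0 1037)))))))))))))
(mv 1292 (cons (fin 1228 5 1036)
(mv 1294 (cons (fin 1230 4 1037)
(mv 1036 (cons (fin 972 7 972)
(mv 1038 (cons (fin 974 6 973)
(mv 1039 (cons (fin 1100 1 1036)
(mv 1104 (cons (fin 1103 0 1036)
(fin 1105 0 1037)))))))))))))))))
(mv 973 (cons (cons (mv 1166 (cons (fin 1230 4 973)
(mv 1102 (cons (fin 909 4 909)
(mv 972 (cons (fin 908 7 908)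
(mv 1039 (cons (fin 1038 3 972)
(mv 1100 (cons (fin 1103 2 1036)
(mv 1167 (cons (fin 1168 3 1100)
(fin 1099 0 1099)))))))))))))
(cons (mv 1166 (cons (fin 1230 4 973)
(mv 909 (cons (fin 1102 4 909)
(mv 844 (cons (fin 908 7 844)
(mv 845 (cons (fin 780 7 780)
(mv 1100 (cons (fin 1036 5 844)
(mv 1167 (cons (fin 1168 3 1100)
(mv 1098 (cons (fin 1099 0 1098)
(mv 1038 (cons (fin 1039 1 1036)
(mv 781 (cons (fin 974 4 781)
(mv 782 (cons (fin 846 6 781)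
(fin 718 6 717)))))))))))))))))))))
(mv 908 (cons (fin 972 7 908)
(mv 909 (cons (fin 844 7 844)
(mv 1038 (cons (cons (mv 1100 (cons (fin 1039 1 1036)
(mv 845 (cons (fin 1036 5 844)
(fin 1102 4 845)))))
(mv 1039 (cons (fin 1100 1 1036)
(mv 1104 (cons (fin 1105 0 1037)
(mv 1103 (cons (fin 1036 0 1036)
(mv 976 (cons (fin 977 2 973)
(mv 1167 (cons (fin 912 5 911)
(fin 1231 6 975))))))))))))
(cons (mv 845 (cons (fin 1102 4 845)
(mv 1100 (cons (fin 1036 5 844)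
(mv 1098 (cons (fin 1099 2 1034)
(mv 781 (cons (fin 974 4 781)
(mv 782 (cons (fin 846 6 781)
(fin 718 6 717)))))))))))
(cons (mv 845 (cons (fin 1102 4 845)
(mv 974 (cons (fin 781 4 781)
(mv 976 (cons (fin 975 3 908)
(mv 1039 (cons (fin 977 2 973)
(mv 1104 (cons (fin 1105 0 1037)
(mv 1103 (cons (fin 1036 0 1036)
(mv 1167 (cons (fin 912 5 911)
(fin 1231 7 974)))))))))))))))
(mv 1100 (cons (fin 1039 1 1036)
(mv 1098 (cons (fin 1099 2 1034)
(mv 845 (cons (fin 1102 4 845)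
(mv 781 (cons (fin 974 4 781)
(mv 782 (cons (fin 846 6 781)
(fin 718 6 717)))))))))))))))))))))
(cons (cons (mv 1166 (cons (fin 1230 4 973)
(mv 1102 (cons (fin 909 4 909)
(mv 1100 (cons (mv 1167 (cons (fin 1168 3 1100)
(fin 1099 0 1099)))
(mv 1039 (cons (fin 1038 1 1036)
(fin 1103 2 1036)))))))))
(mv 1166 (cons (fin 1230 4 973)
(mv 908 (cons (fin 972 7 908)
(mv 909 (cons (fin 844 7 844)
(fin 1102 4 909))))))))
(cons (mv 1166 (cons (fin 1230 4 973)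
(mv 972 (cons (fin 908 7 908)
(mv 1039 (cons (fin 1038 3 972)
(mv 975 (cons (fin 974 0 972)
(mv 1100 (cons (cons (mv 1167 (cons (fin 1168 3 1100)
(mv 1099 (cons (fin 1098 0 1098)
(fin 1102 0 1099)))))
(mv 1168 (cons (fin 1167 3 1100)
(mv 1098 (cons (fin 1099 0 1098)
(mv 1104 (cons (fin 1232 7 975)
(mv 911 (cons (fin 976 7 911)
(fin 1103 4 911))))))))))
(cons (mv 1099 (cons (fin 1098 0 1098)
(mv 1102 (cons (fin 1167 0 1099)
(fin 1103 2 1036)))))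
(cons (mv 1099 (cons (fin 1098 0 1098)
(mv 1102 (cons (fin 1103 2 1036)
(mv 1163 (cons (fin 1162 1 1098)
(mv 1035 (cons (fin 1034 3 1034)
(mv 1227 (cons (fin 1036 6 971)
(mv 1290 (cons (fin 1226 5 1034)
(mv 1291 (cons (fin 1354 5 1098)
(mv 1292 (cons (fin 1356 4 1099)
(fin 1228 4 1035)))))))))))))))))
(mv 1167 (cons (fin 1168 3 1100)
(mv 1103 (cons (fin 1102 2 1036)
(mv 976 (cons (fin 1231 6 975)
(fin 912 6 911)))))))))))))))))))
(mv 1166 (cons (fin 1230 4 973)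
(mv 972 (cons (fin 908 7 908)
(mv 1039 (cons (fin 1038 3 972)
(mv 975 (cons (fin 974 0 972)
(mv 1168 (cons (cons (mv 1232 (cons (fin 1104 7 975)
(mv 1167 (cons (fin 1100 3 1100)
(fin 1233 0 1165)))))
(mv 1167 (cons (fin 1100 3 1100)
(mv 1232 (cons (fin 1233 0 1165)
(fin 1103 4 975))))))
(cons (mv 1104 (cons (fin 1232 7 975)
(mv 911 (cons (fin 976 7 911)
(fin 1103 4 911)))))
(mv 1167 (cons (fin 1100 3 1100)
(mv 1104 (cons (fin 1105 2 1101)
(mv 976 (cons (fin 1231 5 975)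
(fin 911 7 911)))))))))))))))))))))))
(cons (mv 1229 (cons (cons (mv 1292 (cons (fin 1228 5 1036)
(mv 1356 (cons (fin 1293 5 1100)
(mv 1230 (cons (fin 1294 4 1037)
(mv 972 (cons (fin 1036 7 972)
(mv 973 (cons (fin 908 7 908)
(fin 1166 4 973)))))))))))
(mv 1292 (cons (fin 1228 5 1036)
(mv 1293 (cons (fin 1356 5 1100)
(mv 1294 (cons (fin 1358 4 1101)
(fin 1230 4 1037))))))))
(cons (mv 1292 (cons (fin 1228 5 1036)
(mv 1293 (cons (fin 1356 5 1100)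
(mv 1036 (cons (fin 1100 7 1036)
(fin 972 7 972)))))))
(cons (mv 1294 (cons (fin 1230 4 1037)
(mv 1293 (cons (fin 1358 4 1101)
(mv 1036 (cons (fin 1100 7 1036)
(fin 972 7 972)))))))
(mv 1292 (cons (fin 1228 5 1036)
(mv 1230 (cons (fin 1294 4 1037)
(mv 972 (cons (fin 1036 7 972)
(mv 973 (cons (fin 908 7 908)
(fin 1166 4 973)))))))))))))
(mv 1229 (cons (cons (mv 1292 (cons (fin 1228 5 1036)
(mv 1356 (cons (fin 1293 5 1100)
(mv 1294 (cons (fin 1230 4 1037)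
(mv 1036 (cons (fin 972 7 972)
(mv 1038 (cons (fin 974 6 973)
(mv 1039 (cons (fin 1100 1 1036)
(mv 1104 (cons (fin 1103 0 1036)
(fin 1105 0 1037)))))))))))))))
(mv 1292 (cons (fin 1228 5 1036)
(mv 1293 (cons (fin 1356 5 1100)
(mv 1294 (cons (fin 1358 4 1101)
(fin 1230 4 1037))))))))
(cons (mv 1292 (cons (fin 1228 5 1036)
(mv 1356 (cons (fin 1293 5 1100)
(mv 1036 (cons (fin 972 7 972)
(mv 1038 (cons (fin 974 6 973)
(mv 1039 (cons (fin 1100 1 1036)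
(mv 1104 (cons (fin 1103 0 1036)
(fin 1105 0 1037)))))))))))))
(cons (mv 1294 (cons (fin 1230 4 1037)
(mv 1358 (cons (fin 1293 4 1101)
(mv 1036 (cons (fin 972 7 972)
(mv 1038 (cons (fin 974 6 973)
(mv 1039 (cons (fin 1100 1 1036)
(mv 1104 (cons (fin 1103 0 1036)
(fin 1105 0 1037)))))))))))))
(mv 1292 (cons (fin 1228 5 1036)
(mv 1294 (cons (fin 1230 4 1037)
(mv 1036 (cons (fin 972 7 972)
(mv 1038 (cons (fin 974 6 973)
(mv 1039 (cons (fin 1100 1 1036)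
(mv 1104 (cons (fin 1103 0 1036)
(fin 1105 0 1037)))))))))))))))))))
(cons (cons (mv 1229 (cons (cons (mv 1292 (cons (fin 1228 5 1036)
(mv 1356 (cons (fin 1293 5 1100)
(mv 1294 (cons (fin 1230 4 1037)
(mv 1038 (cons (fin 974 6 973)
(mv 1039 (cons (fin 1100 1 1036)
(mv 1104 (cons (fin 1105 0 1037)
(mv 1103 (cons (fin 1036 0 1036)
(mv 976 (cons (fin 977 2 973)
(mv 1167 (cons (fin 912 5 911)
(fin 1231 6 975)))))))))))))))))))
(mv 1292 (cons (fin 1228 5 1036)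
(mv 1293 (cons (fin 1356 5 1100)
(mv 1294 (cons (fin 1358 4 1101)
(fin 1230 4 1037))))))))
(cons (mv 1292 (cons (fin 1228 5 1036)
(mv 1356 (cons (fin 1293 5 1100)
(mv 1038 (cons (fin 974 6 973)
(mv 1039 (cons (fin 1100 1 1036)
(mv 1104 (cons (fin 1105 0 1037)
(mv 1103 (cons (fin 1036 0 1036)
(mv 976 (cons (fin 977 2 973)
(mv 1167 (cons (fin 912 5 911)
(fin 1231 6 975)))))))))))))))))
(cons (mv 1294 (cons (fin 1230 4 1037)
(mv 1358 (cons (fin 1293 4 1101)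
(mv 1038 (cons (fin 974 6 973)
(mv 1039 (cons (fin 1100 1 1036)
(mv 1104 (cons (fin 1105 0 1037)
(mv 1103 (cons (fin 1036 0 1036)
(mv 976 (cons (fin 977 2 973)
(mv 1167 (cons (fin 912 5 911)
(fin 1231 6 975)))))))))))))))))
(mv 1292 (cons (fin 1228 5 1036)
(mv 1294 (cons (fin 1230 4 1037)
(mv 1038 (cons (fin 974 6 973)
(mv 1039 (cons (fin 1100 1 1036)
(mv 1104 (cons (fin 1105 0 1037)
(mv 1103 (cons (fin 1036 0 1036)
(mv 976 (cons (fin 977 2 973)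
(mv 1167 (cons (fin 912 5 911)
(fin 1231 6 975)))))))))))))))))))))
(mv 1229 (cons (cons (mv 1292 (cons (fin 1228 5 1036)
(mv 1356 (cons (fin 1293 5 1100)
(mv 1036 (cons (fin 972 7 972)
(mv 1038 (cons (fin 974 6 973)
(mv 1039 (cons (fin 1100 1 1036)
(mv 1104 (cons (fin 1103 0 1036)
(fin 1105 0 1037)))))))))))))
(mv 1292 (cons (fin 1228 5 1036)
(mv 1293 (cons (fin 1356 5 1100)
(mv 1036 (cons (fin 1100 7 1036)
(fin 972 7 972))))))))
(cons (mv 1292 (cons (fin 1228 5 1036)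
(mv 1293 (cons (fin 1356 5 1100)
(mv 1038 (cons (fin 1102 6 1037)
(fin 974 6 973)))))))
(cons (mv 1036 (cons (fin 972 7 972)
(mv 1293 (cons (fin 1100 7 1036)
(mv 1038 (cons (fin 1102 6 1037)
(fin 974 6 973)))))))
(mv 1292 (cons (fin 1228 5 1036)
(mv 1036 (cons (fin 972 7 972)
(mv 1038 (cons (fin 974 6 973)
(mv 1039 (cons (fin 1100 1 1036)
(mv 1104 (cons (fin 1103 0 1036)
(fin 1105 0 1037))))))))))))))))
(cons (mv 1229 (cons (cons (mv 1292 (cons (fin 1228 5 1036)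
(mv 1356 (cons (fin 1293 5 1100)
(mv 1294 (cons (fin 1230 4 1037)
(mv 1038 (cons (fin 974 6 973)
(mv 972 (cons (fin 1036 7 972)
(mv 973 (cons (fin 1039 3 972)
(fin 908 7 908)))))))))))))
(cons (mv 1292 (cons (fin 1228 5 1036)
(mv 1356 (cons (fin 1293 5 1100)
(mv 1230 (cons (fin 1294 4 1037)
(mv 972 (cons (fin 1036 7 972)
(mv 973 (cons (fin 908 7 908)
(fin 1166 4 973)))))))))))
(mv 1292 (cons (fin 1228 5 1036)
(mv 1356 (cons (fin 1293 5 1100)
(mv 1038 (cons (fin 974 6 973)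
(mv 972 (cons (fin 1036 7 972)
(mv 973 (cons (fin 1039 3 972)
(fin 908 7 908)))))))))))))
(cons (mv 1292 (cons (fin 1228 5 1036)
(mv 1293 (cons (fin 1356 5 1100)
(mv 1294 (cons (fin 1358 4 1101)
(fin 1230 4 1037)))))))
(cons (mv 1294 (cons (fin 1230 4 1037)
(mv 1358 (cons (fin 1293 4 1101)
(mv 1038 (cons (fin 974 6 973)
(mv 972 (cons (fin 1036 7 972)
(mv 973 (cons (fin 1039 3 972)
(fin 908 7 908)))))))))))
(mv 1292 (cons (fin 1228 5 1036)
(mv 1294 (cons (fin 1230 4 1037)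
(mv 1038 (cons (fin 974 6 973)
(mv 972 (cons (fin 1036 7 972)
(mv 973 (cons (fin 1039 3 972)
(fin 908 7 908)))))))))))))))
(cons (mv 1229 (cons (cons (mv 1292 (cons (fin 1228 5 1036)
(mv 1356 (cons (fin 1293 5 1100)
(mv 1230 (cons (fin 1294 4 1037)
(mv 1166 (cons (fin 973 4 973)
(mv 1038 (cons (fin 974 6 973)
(mv 1100 (cons (fin 1039 1 1036)
(mv 1167 (cons (fin 1168 3 1100)
(mv 1099 (cons (fin 1098 0 1098)
(fin 1102 0 1099)))))))))))))))))
(mv 1292 (cons (fin 1228 5 1036)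
(mv 1293 (cons (fin 1356 5 1100)
(mv 1294 (cons (fin 1358 4 1101)
(fin 1230 4 1037))))))))
(cons (mv 1292 (cons (fin 1228 5 1036)
(mv 1293 (cons (fin 1356 5 1100)
(mv 1038 (cons (fin 1102 6 1037)
(fin 974 6 973)))))))
(cons (mv 1294 (cons (fin 1230 4 1037)
(mv 1293 (cons (fin 1358 4 1101)
(mv 1038 (cons (fin 1102 6 1037)
(fin 974 6 973)))))))
(mv 1292 (cons (fin 1228 5 1036)
(mv 1230 (cons (fin 1294 4 1037)
(mv 1166 (cons (fin 973 4 973)
(mv 1038 (cons (fin 974 6 973)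
(mv 1100 (cons (fin 1039 1 1036)
(mv 1167 (cons (fin 1168 3 1100)
(mv 1099 (cons (fin 1098 0 1098)
(fin 1102 0 1099)))))))))))))))))))
(mv 1229 (cons (cons (mv 1294 (cons (fin 1230 4 1037)
(mv 1358 (cons (fin 1293 4 1101)
(mv 1036 (cons (fin 972 7 972)
(mv 1038 (cons (fin 974 6 973)
(mv 1039 (cons (fin 1100 1 1036)
(mv 1104 (cons (fin 1103 0 1036)
(fin 1105 0 1037)))))))))))))
(mv 1294 (cons (fin 1230 4 1037)
(mv 1293 (cons (fin 1358 4 1101)
(mv 1036 (cons (fin 1100 7 1036)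
(fin 972 7 972))))))))
(cons (mv 1294 (cons (fin 1230 4 1037)
(mv 1293 (cons (fin 1358 4 1101)
(mv 1038 (cons (fin 1102 6 1037)
(fin 974 6 973)))))))
(cons (mv 1036 (cons (fin 972 7 972)
(mv 1293 (cons (fin 1100 7 1036)
(mv 1038 (cons (fin 1102 6 1037)
(fin 974 6 973)))))))
(mv 1294 (cons (fin 1230 4 1037)
(mv 1036 (cons (fin 972 7 972)
(mv 1038 (cons (fin 974 6 973)
(mv 1039 (cons (fin 1100 1 1036)
(mv 1104 (cons (fin 1103 0 1036)
(fin 1105 0 1037))))))))))))))))))))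
(mv 1100 (cons (cons (cons (mv 1038 (cons (fin 1039 1 1036)
(mv 1098 (cons (fin 1099 2 1034)
(mv 1164 (cons (cons (mv 1228 (cons (fin 1292 6 1036)
(mv 973 (cons (fin 1165 5 972)
(fin 909 5 908)))))
(mv 973 (cons (fin 909 5 908)
(mv 1165 (cons (mv 1229 (cons (fin 974 6 973)
(mv 1293 (cons (fin 1357 7 1100)
(fin 1036 7 1036)))))
(cons (mv 972 (cons (fin 908 7 908)
(mv 971 (cons (fin 970 0 970)
(mv 1036 (cons (fin 907 7 907)
(mv 1163 (cons (fin 1227 5 971)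
(mv 1162 (cons (fin 1097 3 1097)
(fin 1161 2 1097)))))))))))
(mv 1229 (cons (fin 974 6 973)
(mv 1293 (cons (fin 1357 7 1100)
(fin 1102 6 1037)))))))))))
(cons (mv 1228 (cons (fin 1292 6 1036)
(mv 1036 (cons (cons (mv 1291 (cons (fin 1227 5 1035)
(mv 1293 (cons (fin 1229 4 1036)
(mv 1035 (cons (fin 971 7 971)
(mv 1102 (cons (fin 1103 3 1035)
(fin 1034 0 1034)))))))))
(mv 1291 (cons (fin 1227 5 1035)
(mv 1229 (cons (fin 1293 4 1036)
(mv 1165 (cons (fin 972 7 972)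
(fin 974 6 973))))))))
(cons (mv 1291 (cons (fin 1227 5 1035)
(mv 1035 (cons (fin 971 7 971)
(mv 1102 (cons (fin 1103 3 1035)
(fin 1034 0 1034)))))))
(mv 1293 (cons (fin 1229 4 1036)
(mv 1035 (cons (fin 971 7 971)
(mv 1102 (cons (fin 1103 3 1035)
(fin 1034 0 1034))))))))))))
(mv 1228 (cons (fin 1292 6 1036)
(mv 973 (cons (fin 909 5 908)
(fin 1036 6 972))))))))))))
(cons (mv 1164 (cons (cons (mv 1228 (cons (fin 1292 6 1036)
(mv 973 (cons (fin 1165 5 972)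
(fin 909 5 908)))))
(mv 973 (cons (fin 909 5 908)
(mv 1102 (cons (mv 1103 (cons (fin 1163 1 1099)
(fin 1039 2 1036)))
(cons (mv 1099 (cons (cons (mv 1162 (cons (fin 1163 1 1098)
(mv 1098 (cons (fin 1161 1 1097)
(mv 1097 (cons (fin 1165 0 1097)
(fin 1036 2 1033)))))))
(mv 1034 (cons (fin 1035 3 1034)
(mv 1098 (cons (fin 1033 3 1033)
(mv 1097 (cons (fin 1165 0 1097)
(fin 1036 2 1033))))))))
(cons (mv 1163 (cons (fin 1162 1 1098)
(mv 1035 (cons (fin 1034 3 1034)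
(mv 971 (cons (fin 907 4 907)
(mv 970 (cons (fin 906 7 906)
(mv 972 (cons (fin 908 6 907)
(mv 1036 (cons (fin 969 0 969)
(fin 1227 5 971)))))))))))))
(mv 1162 (cons (fin 1163 1 1098)
(mv 1098 (cons (fin 1161 1 1097)
(mv 1034 (cons (fin 1033 3 1033)
(fin 1035 3 1034))))))))))
(mv 1103 (cons (fin 1039 2 1036)
(mv 1104 (cons (fin 1165 1 1100)
(fin 1036 3 1036)))))))))))
(cons (mv 1292 (cons (fin 1228 6 1036)
(mv 1102 (cons (mv 1103 (cons (fin 1163 1 1099)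
(fin 1039 2 1036)))
(cons (mv 1099 (cons (cons (mv 1162 (cons (fin 1163 1 1098)
(mv 1098 (cons (fin 1161 1 1097)
(mv 1097 (cons (fin 1165 0 1097)
(fin 1036 2 1033)))))))
(mv 1034 (cons (fin 1035 3 1034)
(mv 1098 (cons (fin 1033 3 1033)
(mv 1097 (cons (fin 1165 0 1097)
(fin 1036 2 1033))))))))
(cons (mv 1163 (cons (fin 1162 1 1098)
(mv 1035 (cons (fin 1034 3 1034)
(mv 971 (cons (fin 907 4 907)
(mv 970 (cons (fin 906 7 906)
(mv 972 (cons (fin 908 6 907)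
(mv 1036 (cons (fin 969 0 969)
(fin 1227 5 971)))))))))))))
(mv 1162 (cons (fin 1163 1 1098)
(mv 1098 (cons (fin 1161 1 1097)
(mv 1034 (cons (fin 1033 3 1033)
(fin 1035 3 1034))))))))))
(mv 1103 (cons (fin 1039 2 1036)
(mv 1104 (cons (fin 1165 1 1100)
(fin 1036 3 1036))))))))))
(mv 1228 (cons (fin 1292 6 1036)
(mv 973 (cons (fin 909 5 908)
(fin 1036 6 972))))))))
(mv 1164 (cons (cons (mv 1228 (cons (fin 1292 6 1036)
(mv 973 (cons (fin 1165 5 972)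
(fin 909 5 908)))))
(mv 973 (cons (fin 909 5 908)
(mv 1163 (cons (cons (mv 1162 (cons (fin 1161 2 1097)
(mv 1102 (cons (fin 1099 1 1098)
(fin 1103 1 1099)))))
(mv 1102 (cons (fin 1103 1 1099)
(mv 1099 (cons (mv 1098 (cons (fin 1038 2 1034)
(mv 1097 (cons (fin 1096 0 1096)
(fin 1165 0 1097)))))
(cons (mv 1035 (cons (fin 1034 3 1034)
(mv 971 (cons (fin 907 4 907)
(mv 970 (cons (fin 906 7 906)
(mv 1038 (cons (fin 1036 3 970)
(fin 972 0 970)))))))))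
(mv 1034 (cons (fin 1035 3 1034)
(mv 1098 (cons (fin 1033 3 1033)
(mv 1097 (cons (fin 1096 0 1096)
(fin 1165 0 1097)))))))))))))
(cons (mv 1162 (cons (fin 1161 2 1097)
(mv 1165 (cons (cons (mv 1225 (cons (fin 1226 1 1161)
(mv 1229 (cons (fin 1230 0 1162)
(mv 1293 (cons (fin 1357 7 1100)
(fin 1036 7 1036)))))))
(mv 1225 (cons (fin 1226 1 1161)
(mv 1097 (cons (fin 1098 3 1097)
(mv 972 (cons (fin 908 7 908)
(mv 1036 (cons (fin 1227 5 971)
(mv 971 (cons (fin 907 7 907)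
(mv 970 (cons (fin 969 0 969)
(fin 1038 0 970))))))))))))))
(cons (mv 1229 (cons (fin 1230 0 1162)
(mv 1293 (cons (fin 1357 7 1100)
(fin 1036 7 1036)))))
(mv 1225 (cons (fin 1226 1 1161)
(mv 1229 (cons (fin 1230 0 1162)
(mv 1357 (cons (fin 1293 7 1100)
(mv 1098 (cons (fin 1097 3 1097)
(mv 1038 (cons (fin 1099 2 1034)
(fin 974 6 973))))))))))))))))
(mv 1162 (cons (fin 1161 2 1097)
(mv 1102 (cons (fin 1103 1 1099)
(fin 1165 2 1098)))))))))))
(cons (mv 1292 (cons (fin 1228 6 1036)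
(mv 1163 (cons (cons (mv 1162 (cons (fin 1161 2 1097)
(mv 1102 (cons (fin 1099 1 1098)
(fin 1103 1 1099)))))
(mv 1102 (cons (fin 1103 1 1099)
(mv 1099 (cons (mv 1098 (cons (fin 1038 2 1034)
(mv 1097 (cons (fin 1096 0 1096)
(fin 1165 0 1097)))))
(cons (mv 1035 (cons (fin 1034 3 1034)
(mv 971 (cons (fin 907 4 907)
(mv 970 (cons (fin 906 7 906)
(mv 1036 (cons (fin 1038 3 970)
(mv 1227 (cons (fin 972 5 971)
(fin 1291 6 1035)))))))))))
(mv 1034 (cons (fin 1035 3 1034)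
(mv 1098 (cons (fin 1033 3 1033)
(mv 1097 (cons (fin 1096 0 1096)
(fin 1165 0 1097)))))))))))))
(cons (mv 1162 (cons (fin 1161 2 1097)
(mv 1165 (cons (mv 1225 (cons (fin 1226 1 1161)
(mv 1229 (cons (fin 1230 0 1162)
(mv 1293 (cons (fin 1356 5 1100)
(fin 1357 7 1100)))))))
(cons (mv 1225 (cons (fin 1226 1 1161)
(mv 1098 (cons (fin 1097 3 1097)
(mv 1099 (cons (fin 1038 2 1034)
(mv 1034 (cons (fin 1033 3 1033)
(mv 1227 (cons (fin 1291 7 1034)
(fin 970 4 970)))))))))))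
(mv 1229 (cons (fin 1230 0 1162)
(mv 1293 (cons (fin 1356 5 1100)
(fin 1357 7 1100))))))))))
(mv 1162 (cons (fin 1161 2 1097)
(mv 1102 (cons (fin 1103 1 1099)
(fin 1165 2 1098))))))))))
(mv 1228 (cons (fin 1292 6 1036)
(mv 973 (cons (fin 909 5 908)
(fin 1036 6 972))))))))))
(cons (cons (mv 1038 (cons (fin 1039 1 1036)
(mv 1099 (cons (fin 1098 2 1034)
(mv 1035 (cons (cons (mv 1102 (cons (fin 1034 3 1034)
(mv 1162 (cons (fin 1163 1 1098)
(mv 1103 (cons (fin 1036 3 1035)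
(mv 1168 (cons (fin 1167 0 1100)
(mv 1104 (cons (fin 1105 3 1037)
(fin 1169 0 1101)))))))))))
(mv 1036 (cons (cons (mv 1033 (cons (fin 1034 0 1033)
(mv 971 (cons (fin 970 3 970)
(mv 974 (cons (fin 975 2 971)
(mv 1229 (cons (fin 1165 6 973)
(mv 907 (cons (fin 843 4 843)
(mv 906 (cons (fin 842 7 842)
(mv 972 (cons (fin 973 3 906)
(mv 1163 (cons (fin 908 5 907)
(fin 1227 6 971)))))))))))))))))
(mv 971 (cons (fin 970 3 970)
(mv 974 (cons (fin 975 2 971)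
(mv 1229 (cons (fin 1165 6 973)
(mv 907 (cons (fin 843 4 843)
(mv 906 (cons (fin 842 7 842)
(mv 972 (cons (fin 973 3 906)
(mv 1163 (cons (fin 908 5 907)
(fin 1227 6 971))))))))))))))))
(cons (mv 1033 (cons (fin 1034 0 1033)
(mv 971 (cons (fin 970 3 970)
(mv 907 (cons (fin 843 4 843)
(mv 906 (cons (fin 842 7 842)
(mv 908 (cons (fin 844 6 843)
(mv 972 (cons (fin 1163 5 907)
(fin 1165 4 908)))))))))))))
(mv 1034 (cons (fin 1033 0 1033)
(mv 974 (cons (fin 973 2 970)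
(fin 975 2 971)))))))))
(cons (mv 1163 (cons (cons (mv 1162 (cons (fin 1102 1 1098)
(mv 1226 (cons (fin 971 5 970)
(mv 1290 (cons (fin 1227 5 1034)
(fin 1354 6 1098)))))))
(mv 1036 (cons (mv 1227 (cons (fin 1291 6 1035)
(fin 972 6 971)))
(cons (mv 1227 (cons (fin 1291 6 1035)
(mv 1290 (cons (fin 1226 5 1034)
(mv 1228 (cons (fin 1292 4 1035)
(mv 970 (cons (fin 971 3 970)
(mv 974 (cons (fin 975 2 971)
(mv 1229 (cons (fin 1165 6 973)
(mv 1230 (cons (fin 1162 3 1162)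
(mv 1295 (cons (fin 1294 0 1227)
(mv 1231 (cons (fin 1296 0 1228)
(mv 1168 (cons (fin 1167 2 1164)
(mv 1232 (cons (fin 1169 2 1165)
(fin 1104 5 1039)))))))))))))))))))))))
(mv 971 (cons (fin 970 3 970)
(mv 1226 (cons (fin 1162 5 970)
(mv 972 (cons (fin 908 5 907)
(mv 1229 (cons (fin 1165 7 972)
(mv 974 (cons (fin 975 2 971)
(mv 907 (cons (fin 843 4 843)
(mv 906 (cons (fin 973 3 906)
(fin 842 7 842)))))))))))))))))))
(cons (mv 1227 (cons (mv 1036 (cons (fin 1291 6 1035)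
(fin 972 6 971)))
(cons (mv 1290 (cons (fin 1226 5 1034)
(mv 1291 (cons (fin 1354 5 1098)
(mv 1292 (cons (fin 1356 4 1099)
(fin 1228 4 1035)))))))
(mv 1290 (cons (fin 1226 5 1034)
(mv 1292 (cons (fin 1228 4 1035)
(mv 972 (cons (fin 1036 6 971)
(mv 971 (cons (fin 908 6 907)
(mv 970 (cons (fin 973 0 970)
(fin 906 7 906))))))))))))))
(mv 1102 (cons (fin 1162 1 1098)
(mv 1103 (cons (fin 1036 3 1035)
(mv 1168 (cons (fin 1167 0 1100)
(mv 1104 (cons (fin 1105 3 1037)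
(fin 1169 0 1101))))))))))))
(cons (mv 1163 (cons (mv 1102 (cons (fin 1162 1 1098)
(fin 1034 3 1034)))
(cons (mv 1227 (cons (cons (mv 1290 (cons (fin 1226 5 1034)
(mv 1354 (cons (fin 1291 5 1098)
(mv 1292 (cons (fin 1228 4 1035)
(mv 970 (cons (fin 1034 7 970)
(mv 971 (cons (fin 906 7 906)
(mv 972 (cons (fin 973 0 970)
(fin 908 6 907)))))))))))))
(mv 1292 (cons (fin 1228 4 1035)
(mv 1356 (cons (fin 1291 4 1099)
(mv 970 (cons (fin 1034 7 970)
(mv 971 (cons (fin 906 7 906)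
(mv 972 (cons (fin 973 0 970)
(fin 908 6 907))))))))))))
(cons (mv 1290 (cons (fin 1226 5 1034)
(mv 1354 (cons (fin 1291 5 1098)
(mv 970 (cons (fin 1034 7 970)
(mv 971 (cons (fin 906 7 906)
(mv 972 (cons (fin 973 0 970)
(fin 908 6 907)))))))))))
(cons (mv 1290 (cons (fin 1226 5 1034)
(mv 1291 (cons (fin 1354 5 1098)
(mv 1292 (cons (fin 1356 4 1099)
(fin 1228 4 1035)))))))
(mv 1290 (cons (fin 1226 5 1034)
(mv 1292 (cons (fin 1228 4 1035)
(mv 970 (cons (fin 1034 7 970)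
(mv 971 (cons (fin 906 7 906)
(mv 972 (cons (fin 973 0 970)
(fin 908 6 907)))))))))))))))
(mv 1162 (cons (fin 1102 1 1098)
(mv 1226 (cons (fin 971 5 970)
(mv 1290 (cons (fin 1227 5 1034)
(fin 1354 6 1098))))))))))
(mv 1102 (cons (fin 1034 3 1034)
(mv 1103 (cons (fin 1036 3 1035)
(mv 1168 (cons (fin 1167 0 1100)
(mv 1104 (cons (fin 1105 3 1037)
(fin 1169 0 1101)))))))))))))))))
(mv 1038 (cons (fin 1039 1 1036)
(mv 1098 (cons (fin 1099 2 1034)
(mv 1164 (cons (cons (mv 1228 (cons (fin 1292 6 1036)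
(mv 973 (cons (fin 1165 5 972)
(fin 909 5 908)))))
(mv 973 (cons (fin 909 5 908)
(mv 972 (cons (cons (mv 1165 (cons (fin 908 7 908)
(mv 1229 (cons (fin 1036 7 972)
(fin 974 6 973)))))
(mv 971 (cons (fin 970 0 970)
(mv 907 (cons (fin 1036 7 907)
(mv 974 (cons (fin 906 3 906)
(mv 1034 (cons (fin 1035 1 970)
(mv 975 (cons (fin 908 3 907)
(mv 976 (cons (fin 977 1 973)
(mv 912 (cons (fin 911 2 908)
(fin 913 2 909))))))))))))))))
(cons (mv 971 (cons (fin 970 0 970)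
(mv 1036 (cons (fin 907 7 907)
(mv 1163 (cons (fin 1227 5 971)
(mv 1162 (cons (fin 1161 2 1097)
(mv 1165 (cons (fin 1097 3 1097)
(fin 1229 7 972)))))))))))
(mv 1165 (cons (fin 908 7 908)
(mv 1229 (cons (fin 974 6 973)
(mv 1293 (cons (fin 1357 7 1100)
(mv 1294 (cons (fin 1358 4 1101)
(fin 1230 4 1037)))))))))))))))
(cons (mv 1228 (cons (fin 1292 6 1036)
(mv 1036 (cons (cons (mv 1291 (cons (fin 1227 5 1035)
(mv 1293 (cons (fin 1229 4 1036)
(mv 1035 (cons (fin 971 7 971)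
(mv 1034 (cons (fin 1097 1 1033)
(fin 1033 0 1033)))))))))
(mv 1291 (cons (fin 1227 5 1035)
(mv 1035 (cons (fin 971 7 971)
(mv 1034 (cons (fin 1097 1 1033)
(fin 1033 0 1033))))))))
(cons (mv 1291 (cons (fin 1227 5 1035)
(mv 1229 (cons (fin 1293 4 1036)
(mv 1165 (cons (fin 972 7 972)
(fin 974 6 973)))))))
(mv 1293 (cons (fin 1229 4 1036)
(mv 1035 (cons (fin 971 7 971)
(mv 1034 (cons (fin 1097 1 1033)
(fin 1033 0 1033))))))))))))
(mv 1228 (cons (fin 1292 6 1036)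
(mv 973 (cons (fin 909 5 908)
(fin 1036 6 972)))))))))))))
(cons (mv 1038 (cons (fin 1039 1 1036)
(mv 1164 (cons (cons (mv 1228 (cons (fin 1292 6 1036)
(mv 973 (cons (fin 1165 5 972)
(fin 909 5 908)))))
(mv 973 (cons (fin 909 5 908)
(mv 1165 (cons (mv 1229 (cons (fin 974 6 973)
(mv 1293 (cons (fin 1357 7 1100)
(fin 1036 7 1036)))))
(cons (mv 972 (cons (fin 908 7 908)
(mv 971 (cons (fin 970 0 970)
(mv 1036 (cons (fin 907 7 907)
(mv 1163 (cons (fin 1227 5 971)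
(mv 1162 (cons (fin 1161 2 1097)
(fin 1102 2 1098)))))))))))
(mv 1229 (cons (fin 974 6 973)
(mv 1293 (cons (fin 1357 7 1100)
(fin 1102 6 1037)))))))))))
(cons (mv 1228 (cons (fin 1292 6 1036)
(mv 1036 (cons (cons (mv 1291 (cons (fin 1227 5 1035)
(mv 1293 (cons (fin 1229 4 1036)
(mv 1035 (cons (fin 971 7 971)
(mv 1102 (cons (fin 1103 3 1035)
(fin 1034 0 1034)))))))))
(mv 1291 (cons (fin 1227 5 1035)
(mv 1229 (cons (fin 1293 4 1036)
(mv 1165 (cons (fin 972 7 972)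
(fin 974 6 973))))))))
(cons (mv 1291 (cons (fin 1227 5 1035)
(mv 1035 (cons (fin 971 7 971)
(mv 1102 (cons (fin 1103 3 1035)
(fin 1034 0 1034)))))))
(mv 1293 (cons (fin 1229 4 1036)
(mv 1035 (cons (fin 971 7 971)
(mv 1102 (cons (fin 1103 3 1035)
(fin 1034 0 1034))))))))))))
(mv 1228 (cons (fin 1292 6 1036)
(mv 973 (cons (fin 909 5 908)
(fin 1036 6 972))))))))))
(mv 1038 (cons (fin 1039 1 1036)
(mv 1099 (cons (fin 1098 2 1034)
(mv 1102 (cons (cons (mv 1162 (cons (fin 1163 1 1098)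
(mv 1035 (cons (fin 1034 3 1034)
(mv 1103 (cons (fin 1036 3 1035)
(mv 1167 (cons (fin 1168 0 1100)
(mv 1295 (cons (fin 1231 7 1038)
(mv 1104 (cons (fin 1105 3 1037)
(mv 1165 (cons (fin 1164 1 1100)
(mv 1229 (cons (fin 1293 6 1037)
(fin 974 6 973)))))))))))))))))
(cons (mv 1163 (cons (fin 1162 1 1098)
(mv 1103 (cons (fin 1164 1 1099)
(mv 1104 (cons (fin 1036 3 1036)
(fin 1105 3 1037)))))))
(mv 1035 (cons (fin 1034 3 1034)
(mv 1103 (cons (fin 1036 3 1035)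
(mv 1167 (cons (fin 1168 0 1100)
(mv 1295 (cons (fin 1231 7 1038)
(mv 1104 (cons (fin 1105 3 1037)
(mv 1165 (cons (fin 1164 1 1100)
(mv 1229 (cons (fin 1293 6 1037)
(fin 974 6 973)))))))))))))))))
(cons (mv 1163 (cons (fin 1162 1 1098)
(mv 1035 (cons (fin 1034 3 1034)
(mv 1036 (cons (mv 1227 (cons (fin 1291 6 1035)
(fin 972 6 971)))
(cons (mv 1291 (cons (fin 1227 6 1035)
(mv 971 (cons (fin 970 3 970)
(mv 1164 (cons (fin 1228 7 971)
(fin 907 4 907)))))))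
(mv 971 (cons (fin 970 3 970)
(mv 1164 (cons (fin 1228 7 971)
(fin 907 4 907))))))))))))
(cons (mv 1163 (cons (fin 1162 1 1098)
(mv 1164 (cons (fin 1103 1 1099)
(mv 1228 (cons (fin 1292 6 1036)
(mv 1035 (cons (fin 1034 3 1034)
(fin 971 4 971)))))))))
(mv 1162 (cons (fin 1163 1 1098)
(mv 1035 (cons (fin 1034 3 1034)
(mv 1103 (cons (fin 1036 3 1035)
(mv 1168 (cons (fin 1167 0 1100)
(mv 1104 (cons (fin 1105 3 1037)
(fin 1169 0 1101))))))))))))))))))))))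
(cons (cons (mv 1038 (cons (fin 1039 1 1036)
(mv 1099 (cons (fin 1098 2 1034)
(mv 1102 (cons (cons (mv 1162 (cons (fin 1163 1 1098)
(mv 1035 (cons (fin 1034 3 1034)
(mv 1103 (cons (fin 1036 3 1035)
(mv 1167 (cons (fin 1168 0 1100)
(mv 1295 (cons (fin 1231 7 1038)
(mv 1104 (cons (fin 1105 3 1037)
(mv 1165 (cons (fin 1164 1 1100)
(mv 1229 (cons (fin 1293 6 1037)
(fin 974 6 973)))))))))))))))))
(cons (mv 1163 (cons (fin 1162 1 1098)
(mv 1103 (cons (fin 1164 1 1099)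
(mv 1104 (cons (fin 1036 3 1036)
(fin 1105 3 1037)))))))
(mv 1035 (cons (fin 1034 3 1034)
(mv 1103 (cons (fin 1036 3 1035)
(mv 1167 (cons (fin 1168 0 1100)
(mv 1295 (cons (fin 1231 7 1038)
(mv 1104 (cons (fin 1105 3 1037)
(mv 1165 (cons (fin 1164 1 1100)
(mv 1229 (cons (fin 1293 6 1037)
(fin 974 6 973)))))))))))))))))
(cons (mv 1162 (cons (fin 1163 1 1098)
(mv 1035 (cons (fin 1034 3 1034)
(mv 1165 (cons (mv 1229 (cons (fin 1293 6 1037)
(fin 974 6 973)))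
(cons (mv 973 (cons (mv 909 (cons (fin 1164 5 908)
(fin 845 4 845)))
(cons (mv 972 (cons (fin 908 7 908)
(mv 971 (cons (fin 970 0 970)
(mv 907 (cons (fin 1164 4 907)
(mv 906 (cons (fin 974 3 906)
(fin 842 7 842)))))))))
(mv 908 (cons (fin 972 7 908)
(mv 909 (cons (fin 844 7 844)
(fin 845 4 845))))))))
(mv 1229 (cons (fin 1293 6 1037)
(mv 1294 (cons (fin 1230 4 1037)
(mv 1036 (cons (fin 972 7 972)
(mv 971 (cons (fin 970 3 970)
(mv 907 (cons (fin 1164 4 907)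
(fin 843 4 843))))))))))))))))))
(cons (mv 1163 (cons (fin 1162 1 1098)
(mv 1164 (cons (fin 1103 1 1099)
(mv 1035 (cons (fin 1034 3 1034)
(mv 971 (cons (fin 907 4 907)
(mv 970 (cons (fin 906 7 906)
(mv 972 (cons (fin 973 0 970)
(fin 908 6 907)))))))))))))
(mv 1162 (cons (fin 1163 1 1098)
(mv 1035 (cons (fin 1034 3 1034)
(mv 1103 (cons (fin 1036 3 1035)
(mv 1168 (cons (fin 1167 0 1100)
(mv 1104 (cons (fin 1105 3 1037)
(fin 1169 0 1101)))))))))))))))))))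
(cons (mv 1038 (cons (fin 1039 1 1036)
(mv 1099 (cons (fin 1098 2 1034)
(mv 1164 (cons (cons (mv 1228 (cons (fin 1292 6 1036)
(mv 973 (cons (fin 1165 5 972)
(fin 909 5 908)))))
(mv 973 (cons (fin 909 5 908)
(mv 1102 (cons (mv 1163 (cons (fin 1162 1 1098)
(fin 1103 1 1099)))
(mv 1035 (cons (fin 1034 3 1034)
(mv 971 (cons (fin 907 4 907)
(mv 972 (cons (fin 970 0 970)
(mv 1165 (cons (fin 908 7 908)
(mv 1229 (cons (fin 1293 6 1037)
(fin 974 6 973))))))))))))))))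
(cons (mv 1228 (cons (fin 1292 6 1036)
(mv 1163 (cons (mv 1162 (cons (fin 1102 1 1098)
(fin 1161 2 1097)))
(cons (mv 1102 (cons (fin 1103 1 1099)
(mv 1035 (cons (fin 1034 3 1034)
(fin 971 4 971)))))
(mv 1162 (cons (fin 1161 2 1097)
(mv 1035 (cons (fin 971 4 971)
(mv 1229 (cons (mv 1230 (cons (fin 1227 3 1162)
(fin 1231 3 1163)))
(cons (mv 1165 (cons (fin 974 6 973)
(mv 1357 (cons (fin 1293 7 1100)
(mv 1226 (cons (fin 1225 1 1161)
(mv 1290 (cons (fin 1227 5 1034)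
(fin 1354 6 1098)))))))))
(mv 1230 (cons (fin 1231 3 1163)
(fin 1165 0 1162)))))))))))))))
(mv 1292 (cons (fin 1228 6 1036)
(mv 973 (cons (fin 909 5 908)
(mv 1035 (cons (mv 1102 (cons (fin 1034 3 1034)
(mv 1163 (cons (fin 1162 1 1098)
(fin 1103 1 1099)))))
(cons (mv 971 (cons (fin 907 4 907)
(mv 970 (cons (fin 972 0 970)
(mv 1163 (cons (fin 906 7 906)
(mv 1162 (cons (fin 1161 2 1097)
(fin 1226 5 970)))))))))
(mv 1034 (cons (fin 1102 3 1034)
(mv 1032 (cons (fin 1033 0 1032)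
(mv 971 (cons (fin 907 4 907)
(mv 972 (cons (fin 974 1 970)
(fin 970 0 970)))))))))))))))))))))))
(mv 1038 (cons (fin 1039 1 1036)
(mv 1099 (cons (fin 1098 2 1034)
(mv 1102 (cons (cons (mv 1162 (cons (fin 1163 1 1098)
(mv 1035 (cons (fin 1034 3 1034)
(mv 1103 (cons (fin 1036 3 1035)
(mv 1168 (cons (fin 1167 0 1100)
(mv 1104 (cons (fin 1105 3 1037)
(fin 1169 0 1101)))))))))))
(mv 1163 (cons (fin 1162 1 1098)
(mv 1164 (cons (fin 1103 1 1099)
(mv 1228 (cons (fin 1292 6 1036)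
(mv 973 (cons (fin 909 5 908)
(fin 1036 6 972))))))))))
(cons (mv 1035 (cons (fin 1034 3 1034)
(mv 1103 (cons (fin 1036 3 1035)
(mv 1168 (cons (fin 1167 0 1100)
(mv 1104 (cons (fin 1105 3 1037)
(fin 1169 0 1101)))))))))
(cons (mv 1162 (cons (fin 1163 1 1098)
(mv 1035 (cons (fin 1034 3 1034)
(mv 971 (cons (cons (mv 1164 (cons (fin 907 4 907)
(mv 1228 (cons (fin 1292 7 1035)
(fin 1036 7 971)))))
(mv 1036 (cons (fin 970 3 970)
(mv 974 (cons (fin 975 2 971)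
(mv 907 (cons (fin 843 4 843)
(mv 906 (cons (fin 842 7 842)
(mv 973 (cons (fin 972 3 906)
(mv 908 (cons (fin 909 0 906)
(fin 844 6 843))))))))))))))
(cons (mv 907 (cons (fin 1164 4 907)
(mv 906 (cons (fin 842 7 842)
(mv 844 (cons (fin 908 6 843)
(mv 843 (cons (fin 780 6 779)
(mv 904 (cons (fin 905 2 840)
(mv 845 (cons (fin 846 1 842)
(mv 973 (cons (fin 909 4 845)
(mv 972 (cons (fin 974 3 906)
(fin 970 0 970)))))))))))))))))
(mv 970 (cons (fin 1036 3 970)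
(mv 973 (cons (fin 972 0 970)
(mv 909 (cons (fin 1164 5 908)
(fin 845 4 845))))))))))))))
(mv 1163 (cons (fin 1162 1 1098)
(mv 1164 (cons (fin 1103 1 1099)
(mv 1292 (cons (fin 1228 6 1036)
(mv 1035 (cons (fin 1034 3 1034)
(mv 971 (cons (fin 907 4 907)
(mv 970 (cons (fin 906 7 906)
(mv 972 (cons (fin 973 0 970)
(fin 908 6 907)))))))))))))))))))))))))
(cons (cons (mv 1038 (cons (fin 1039 1 1036)
(mv 1099 (cons (fin 1098 2 1034)
(mv 1102 (cons (cons (mv 1162 (cons (fin 1163 1 1098)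
(mv 1035 (cons (fin 1034 3 1034)
(mv 1103 (cons (fin 1036 3 1035)
(mv 1167 (cons (fin 1168 0 1100)
(mv 1295 (cons (fin 1231 7 1038)
(mv 1104 (cons (fin 1105 3 1037)
(mv 1165 (cons (fin 1164 1 1100)
(mv 1229 (cons (fin 1293 6 1037)
(fin 974 6 973)))))))))))))))))
(mv 1163 (cons (fin 1162 1 1098)
(mv 1164 (cons (fin 1103 1 1099)
(mv 1228 (cons (fin 1292 6 1036)
(mv 973 (cons (fin 1165 5 972)
(fin 909 5 908))))))))))
(cons (mv 1035 (cons (fin 1034 3 1034)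
(mv 1103 (cons (fin 1036 3 1035)
(mv 1167 (cons (fin 1168 0 1100)
(mv 1295 (cons (fin 1231 7 1038)
(mv 1104 (cons (fin 1105 3 1037)
(mv 1165 (cons (fin 1164 1 1100)
(mv 1229 (cons (fin 1293 6 1037)
(fin 974 6 973)))))))))))))))
(cons (mv 1163 (cons (fin 1162 1 1098)
(mv 1035 (cons (fin 1034 3 1034)
(mv 1164 (cons (mv 1228 (cons (fin 1292 7 1035)
(fin 971 4 971)))
(cons (mv 971 (cons (fin 907 4 907)
(mv 970 (cons (fin 1036 3 970)
(fin 906 7 906)))))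
(mv 1228 (cons (fin 1292 7 1035)
(mv 973 (cons (fin 1165 5 972)
(fin 909 5 908))))))))))))
(mv 1162 (cons (fin 1163 1 1098)
(mv 1035 (cons (fin 1034 3 1034)
(mv 1103 (cons (fin 1036 3 1035)
(mv 1168 (cons (fin 1167 0 1100)
(mv 1104 (cons (fin 1105 3 1037)
(fin 1169 0 1101)))))))))))))))))))
(mv 1038 (cons (fin 1039 1 1036)
(mv 1098 (cons (fin 1099 2 1034)
(mv 1164 (cons (cons (mv 1228 (cons (fin 1292 6 1036)
(mv 973 (cons (fin 1165 5 972)
(fin 909 5 908)))))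
(mv 973 (cons (fin 909 5 908)
(mv 1165 (cons (mv 1229 (cons (fin 974 6 973)
(mv 1293 (cons (fin 1357 7 1100)
(fin 1036 7 1036)))))
(cons (mv 972 (cons (fin 908 7 908)
(mv 971 (cons (fin 970 0 970)
(mv 1036 (cons (fin 907 7 907)
(mv 1163 (cons (fin 1227 5 971)
(mv 1162 (cons (fin 1097 3 1097)
(fin 1161 2 1097)))))))))))
(mv 1229 (cons (fin 974 6 973)
(mv 1293 (cons (fin 1357 7 1100)
(fin 1102 6 1037)))))))))))
(cons (mv 1228 (cons (fin 1292 6 1036)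
(mv 1229 (cons (cons (mv 1293 (cons (fin 1036 4 1036)
(mv 1357 (cons (fin 1421 7 1164)
(fin 1165 7 1100)))))
(mv 1036 (cons (fin 1293 4 1036)
(mv 1227 (cons (fin 1291 5 1035)
(mv 1163 (cons (fin 972 5 971)
(mv 1230 (cons (fin 1162 3 1162)
(fin 1231 3 1163))))))))))
(cons (mv 1165 (cons (fin 974 6 973)
(mv 1293 (cons (fin 1357 7 1100)
(fin 1102 6 1037)))))
(mv 1165 (cons (fin 974 6 973)
(mv 1294 (cons (fin 1230 4 1037)
(mv 1036 (cons (fin 972 7 972)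
(mv 1227 (cons (fin 1291 5 1035)
(mv 1226 (cons (fin 1225 2 1161)
(mv 1289 (cons (fin 1290 1 1225)
(mv 1162 (cons (fin 1161 3 1161)
(mv 1163 (cons (fin 1097 3 1097)
(fin 1102 2 1098))))))))))))))))))))))
(mv 1228 (cons (fin 1292 6 1036)
(mv 973 (cons (fin 909 5 908)
(fin 1036 6 972)))))))))))))
(cons (mv 1038 (cons (fin 1039 1 1036)
(mv 1099 (cons (fin 1098 2 1034)
(mv 1164 (cons (cons (mv 1228 (cons (fin 1292 6 1036)
(mv 973 (cons (fin 1165 5 972)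
(fin 909 5 908)))))
(mv 973 (cons (fin 909 5 908)
(mv 1035 (cons (mv 1102 (cons (fin 1034 3 1034)
(mv 1103 (cons (fin 1036 3 1035)
(mv 1104 (cons (fin 1165 1 1100)
(fin 1105 3 1037)))))))
(cons (mv 971 (cons (fin 907 4 907)
(mv 970 (cons (fin 1036 3 970)
(fin 972 0 970)))))
(mv 1102 (cons (fin 1034 3 1034)
(mv 971 (cons (fin 907 4 907)
(mv 972 (cons (fin 970 0 970)
(mv 1165 (cons (fin 908 7 908)
(mv 1229 (cons (fin 1293 6 1037)
(fin 974 6 973)))))))))))))))))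
(cons (mv 1228 (cons (fin 1292 6 1036)
(mv 1036 (cons (cons (mv 1291 (cons (fin 1227 5 1035)
(mv 1293 (cons (fin 1229 4 1036)
(mv 1035 (cons (fin 971 7 971)
(mv 1102 (cons (fin 1034 3 1034)
(fin 1103 3 1035)))))))))
(mv 1291 (cons (fin 1227 5 1035)
(mv 1229 (cons (fin 1293 4 1036)
(mv 1165 (cons (fin 972 7 972)
(fin 974 6 973))))))))
(cons (mv 1291 (cons (fin 1227 5 1035)
(mv 1035 (cons (fin 971 7 971)
(mv 1102 (cons (fin 1034 3 1034)
(fin 1103 3 1035)))))))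
(mv 1293 (cons (fin 1229 4 1036)
(mv 1035 (cons (fin 971 7 971)
(mv 1102 (cons (fin 1034 3 1034)
(fin 1103 3 1035))))))))))))
(mv 1228 (cons (fin 1292 6 1036)
(mv 973 (cons (fin 909 5 908)
(fin 1036 6 972))))))))))))
(mv 1038 (cons (fin 1039 1 1036)
(mv 1099 (cons (fin 1098 2 1034)
(mv 1102 (cons (cons (mv 1162 (cons (fin 1163 1 1098)
(mv 1035 (cons (fin 1034 3 1034)
(mv 1103 (cons (fin 1036 3 1035)
(mv 1167 (cons (fin 1168 0 1100)
(mv 1295 (cons (fin 1231 7 1038)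
(mv 1104 (cons (fin 1105 3 1037)
(mv 1165 (cons (fin 1164 1 1100)
(mv 1229 (cons (fin 1293 6 1037)
(fin 974 6 973)))))))))))))))))
(mv 1163 (cons (fin 1162 1 1098)
(mv 1164 (cons (fin 1103 1 1099)
(mv 1228 (cons (fin 1292 6 1036)
(mv 973 (cons (fin 1165 5 972)
(fin 909 5 908))))))))))
(cons (mv 1035 (cons (fin 1034 3 1034)
(mv 1103 (cons (fin 1036 3 1035)
(mv 1167 (cons (fin 1168 0 1100)
(mv 1295 (cons (fin 1231 7 1038)
(mv 1104 (cons (fin 1105 3 1037)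
(mv 1165 (cons (fin 1164 1 1100)
(mv 1229 (cons (fin 1293 6 1037)
(fin 974 6 973)))))))))))))))
(cons (mv 1163 (cons (fin 1162 1 1098)
(mv 1034 (cons (fin 1035 3 1034)
(mv 1227 (cons (cons (mv 1291 (cons (fin 1036 6 1035)
(mv 1354 (cons (fin 1290 5 1098)
(mv 1355 (cons (fin 1418 5 1162)
(fin 1164 6 1099)))))))
(mv 1164 (cons (cons (mv 1292 (cons (fin 1228 6 1036)
(mv 972 (cons (fin 1036 5 971)
(mv 973 (cons (fin 909 5 908)
(mv 1165 (cons (fin 908 7 908)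
(mv 1229 (cons (fin 1293 6 1037)
(fin 974 6 973)))))))))))
(mv 972 (cons (fin 1036 5 971)
(mv 973 (cons (fin 909 5 908)
(mv 1165 (cons (fin 908 7 908)
(mv 1229 (cons (fin 1293 6 1037)
(fin 974 6 973))))))))))
(cons (mv 1228 (cons (fin 1292 6 1036)
(mv 1036 (cons (fin 972 5 971)
(mv 1229 (cons (fin 1293 4 1036)
(mv 1230 (cons (fin 1231 3 1163)
(mv 1294 (cons (fin 1295 0 1227)
(fin 1165 4 1037)))))))))))
(cons (mv 1228 (cons (fin 1292 6 1036)
(mv 973 (cons (fin 1165 5 972)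
(fin 909 5 908)))))
(mv 1228 (cons (fin 1292 6 1036)
(mv 1036 (cons (fin 972 5 971)
(fin 973 6 972))))))))))
(cons (mv 1291 (cons (cons (mv 1354 (cons (fin 1290 5 1098)
(mv 1355 (cons (fin 1418 5 1162)
(fin 1164 6 1099)))))
(mv 1354 (cons (fin 1290 5 1098)
(mv 1355 (cons (fin 1418 5 1162)
(mv 1356 (cons (fin 1420 4 1163)
(fin 1292 4 1099))))))))
(cons (mv 1290 (cons (fin 1354 5 1098)
(mv 1292 (cons (fin 1356 4 1099)
(mv 1228 (cons (fin 1164 6 1036)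
(mv 1289 (cons (fin 1288 2 1224)
(fin 1229 2 1225)))))))))
(mv 1355 (cons (fin 1164 6 1099)
(mv 1356 (cons (fin 1420 4 1163)
(fin 1292 4 1099))))))))
(mv 1291 (cons (fin 1036 6 1035)
(mv 1354 (cons (fin 1290 5 1098)
(mv 1355 (cons (fin 1418 5 1162)
(mv 1356 (cons (fin 1420 4 1163)
(fin 1292 4 1099))))))))))))))))
(mv 1162 (cons (fin 1163 1 1098)
(mv 1035 (cons (fin 1034 3 1034)
(mv 1103 (cons (fin 1036 3 1035)
(mv 1168 (cons (fin 1167 0 1100)
(mv 1104 (cons (fin 1105 3 1037)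
(fin 1169 0 1101))))))))))))))))))))))))))))
(cons (cons (cons (mv 1100 (cons (cons (cons (mv 1038 (cons (fin 1039 1 1036)
(mv 1099 (cons (fin 1098 2 1034)
(mv 1102 (cons (cons (mv 1162 (cons (fin 1163 1 1098)
(mv 1166 (cons (fin 1167 0 1099)
(mv 1230 (cons (fin 1294 7 1037)
(fin 973 7 973)))))))
(mv 1162 (cons (fin 1163 1 1098)
(mv 1035 (cons (fin 1034 3 1034)
(mv 1103 (cons (fin 1036 3 1035)
(mv 1167 (cons (fin 1168 0 1100)
(mv 1295 (cons (fin 1231 7 1038)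
(mv 1104 (cons (fin 1105 3 1037)
(mv 1165 (cons (fin 1164 1 1100)
(mv 1229 (cons (fin 1293 6 1037)
(fin 974 6 973))))))))))))))))))
(cons (mv 1166 (cons (fin 1167 0 1099)
(mv 1230 (cons (fin 1294 7 1037)
(fin 973 7 973)))))
(mv 1162 (cons (fin 1163 1 1098)
(mv 1035 (cons (fin 1034 3 1034)
(mv 1103 (cons (fin 1036 3 1035)
(mv 1104 (cons (fin 1105 3 1037)
(mv 1165 (cons (fin 1164 1 1100)
(mv 1229 (cons (fin 1293 6 1037)
(fin 974 6 973))))))))))))))))))))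
(cons (mv 1102 (cons (mv 1103 (cons (fin 1039 2 1036)
(mv 1036 (cons (fin 1035 3 1035)
(fin 1104 3 1036)))))
(cons (mv 1099 (cons (cons (mv 1162 (cons (fin 1163 1 1098)
(mv 1161 (cons (fin 1098 1 1097)
(mv 1166 (cons (fin 1167 0 1099)
(mv 1230 (cons (fin 1294 7 1037)
(mv 973 (cons (fin 1165 4 973)
(fin 909 4 909)))))))))))
(mv 1162 (cons (fin 1163 1 1098)
(mv 1098 (cons (fin 1161 1 1097)
(mv 1034 (cons (fin 1033 3 1033)
(fin 1035 3 1034))))))))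
(cons (mv 1166 (cons (fin 1167 0 1099)
(mv 1294 (cons (fin 1230 7 1037)
(mv 1165 (cons (fin 1098 0 1098)
(mv 1034 (cons (fin 1035 3 1034)
(mv 973 (cons (fin 909 4 909)
(mv 972 (cons (fin 908 7 908)
(mv 1229 (cons (fin 1036 7 972)
(mv 1293 (cons (fin 1358 4 1101)
(fin 1357 6 1101)))))))))))))))))
(mv 1162 (cons (fin 1163 1 1098)
(mv 1166 (cons (fin 1167 0 1099)
(mv 1230 (cons (fin 1294 7 1037)
(mv 973 (cons (fin 1165 4 973)
(fin 909 4 909))))))))))))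
(mv 1103 (cons (fin 1039 2 1036)
(mv 1163 (cons (fin 1164 1 1099)
(mv 1167 (cons (fin 1168 0 1100)
(mv 1099 (cons (fin 1162 1 1098)
(fin 1166 0 1099))))))))))))
(mv 1099 (cons (cons (mv 1098 (cons (fin 1038 2 1034)
(mv 1161 (cons (fin 1162 1 1097)
(mv 1097 (cons (fin 1160 1 1096)
(fin 1036 2 1033)))))))
(mv 1102 (cons (cons (mv 1162 (cons (fin 1163 1 1098)
(mv 1166 (cons (fin 1167 0 1099)
(mv 1230 (cons (fin 1294 7 1037)
(mv 973 (cons (fin 1038 7 973)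
(fin 1165 4 973)))))))))
(mv 1162 (cons (fin 1163 1 1098)
(mv 1035 (cons (fin 1034 3 1034)
(mv 1103 (cons (fin 1036 3 1035)
(mv 1168 (cons (fin 1167 0 1100)
(mv 1104 (cons (fin 1169 0 1101)
(mv 1165 (cons (fin 1164 1 1100)
(mv 1038 (cons (fin 1105 3 1037)
(mv 1229 (cons (fin 1293 6 1037)
(fin 974 6 973))))))))))))))))))
(cons (mv 1166 (cons (fin 1167 0 1099)
(mv 1230 (cons (fin 1294 7 1037)
(mv 973 (cons (fin 1038 7 973)
(fin 1165 4 973)))))))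
(cons (mv 1163 (cons (fin 1162 1 1098)
(mv 1164 (cons (fin 1103 1 1099)
(mv 1035 (cons (fin 1034 3 1034)
(mv 971 (cons (fin 907 4 907)
(mv 970 (cons (fin 906 7 906)
(mv 1036 (cons (fin 1038 3 970)
(mv 1227 (cons (fin 972 5 971)
(fin 1291 6 1035)))))))))))))))
(mv 1162 (cons (fin 1163 1 1098)
(mv 1166 (cons (fin 1167 0 1099)
(mv 1230 (cons (fin 1294 7 1037)
(mv 973 (cons (fin 1165 4 973)
(fin 909 4 909))))))))))))))
(cons (mv 1098 (cons (mv 1161 (cons (fin 1162 1 1097)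
(mv 1097 (cons (fin 1160 1 1096)
(fin 1036 2 1033)))))
(cons (mv 1161 (cons (fin 1162 1 1097)
(mv 1166 (cons (fin 1165 0 1098)
(mv 1102 (cons (fin 1167 0 1099)
(mv 1034 (cons (fin 1033 3 1033)
(fin 1035 3 1034)))))))))
(mv 1165 (cons (fin 1166 0 1098)
(mv 1097 (cons (fin 1164 0 1097)
(fin 1036 2 1033))))))))
(cons (mv 1098 (cons (fin 1038 2 1034)
(mv 1165 (cons (fin 1166 0 1098)
(mv 1097 (cons (fin 1164 0 1097)
(fin 1036 2 1033)))))))
(mv 1098 (cons (fin 1038 2 1034)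
(mv 1161 (cons (fin 1162 1 1097)
(mv 1160 (cons (fin 1097 1 1096)
(mv 1166 (cons (fin 1165 0 1098)
(mv 1102 (cons (fin 1167 0 1099)
(mv 1034 (cons (fin 1033 3 1033)
(fin 1035 3 1034)))))))))))))))))))
(cons (mv 1038 (cons (fin 1039 1 1036)
(mv 1099 (cons (fin 1098 2 1034)
(mv 1165 (cons (cons (mv 1229 (cons (fin 974 6 973)
(mv 1036 (cons (fin 1293 7 1036)
(fin 972 7 972)))))
(mv 973 (cons (cons (mv 1230 (cons (fin 1166 4 973)
(mv 1164 (cons (fin 909 5 908)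
(mv 972 (cons (fin 908 7 908)
(mv 971 (cons (fin 970 0 970)
(mv 907 (cons (fin 1036 7 907)
(fin 1035 4 907)))))))))))
(mv 1230 (cons (fin 1166 4 973)
(mv 909 (cons (fin 1164 5 908)
(mv 908 (cons (fin 844 7 844)
(mv 845 (cons (fin 1036 5 844)
(mv 781 (cons (fin 974 4 781)
(mv 782 (cons (fin 846 6 781)
(fin 718 6 717))))))))))))))
(cons (mv 1166 (cons (fin 1230 4 973)
(mv 1167 (cons (fin 1164 3 1099)
(fin 1168 3 1100)))))
(cons (mv 1164 (cons (fin 909 5 908)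
(mv 972 (cons (fin 908 7 908)
(mv 971 (cons (fin 970 0 970)
(mv 907 (cons (fin 1036 7 907)
(fin 1035 4 907)))))))))
(mv 1230 (cons (fin 1166 4 973)
(mv 908 (cons (fin 972 7 908)
(mv 909 (cons (fin 844 7 844)
(mv 845 (cons (fin 1036 5 844)
(mv 781 (cons (fin 974 4 781)
(mv 782 (cons (fin 846 6 781)
(fin 718 6 717))))))))))))))))))
(cons (mv 972 (cons (mv 1036 (cons (fin 1229 7 972)
(fin 908 4 908)))
(cons (mv 973 (cons (fin 908 7 908)
(mv 1164 (cons (fin 909 5 908)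
(mv 1166 (cons (fin 1167 3 1099)
(fin 1230 4 973)))))))
(mv 1229 (cons (fin 1036 7 972)
(mv 1294 (cons (fin 1230 4 1037)
(mv 1293 (cons (fin 1358 4 1101)
(mv 1356 (cons (fin 1292 5 1100)
(mv 1357 (cons (fin 1420 5 1164)
(fin 1164 7 1100))))))))))))))
(mv 1229 (cons (fin 974 6 973)
(mv 1294 (cons (fin 1230 4 1037)
(mv 1293 (cons (fin 1358 4 1101)
(mv 1356 (cons (fin 1292 5 1100)
(mv 1357 (cons (fin 1420 5 1164)
(fin 1164 7 1100))))))))))))))))))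
(cons (mv 1039 (cons (fin 1038 1 1036)
(mv 1103 (cons (fin 1102 2 1036)
(mv 976 (cons (cons (mv 1167 (cons (fin 1231 6 975)
(mv 912 (cons (fin 1104 5 911)
(fin 848 5 847)))))
(mv 1167 (cons (fin 1231 6 975)
(mv 1166 (cons (cons (mv 1230 (cons (fin 975 5 974)
(mv 1165 (cons (fin 1168 3 1100)
(fin 973 4 973)))))
(mv 975 (cons (fin 1230 5 974)
(mv 1168 (cons (fin 1232 4 975)
(mv 1104 (cons (fin 911 7 911)
(mv 1169 (cons (fin 1233 4 976)
(mv 1170 (cons (fin 1171 3 1103)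
(mv 1106 (cons (fin 1105 1 1102)
(fin 1107 2 1103))))))))))))))
(cons (mv 1165 (cons (fin 1168 3 1100)
(mv 1164 (cons (fin 1104 2 1100)
(mv 973 (cons (fin 909 5 908)
(mv 972 (cons (fin 908 7 908)
(mv 1036 (cons (fin 1229 7 972)
(mv 1227 (cons (fin 1163 5 971)
(mv 971 (cons (fin 907 7 907)
(mv 970 (cons (fin 969 0 969)
(mv 1034 (cons (fin 1033 1 969)
(mv 974 (cons (fin 1035 1 970)
(fin 975 1 972)))))))))))))))))))))
(cons (mv 1230 (cons (fin 975 5 974)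
(mv 1358 (cons (fin 1294 6 1102)
(mv 973 (cons (fin 1165 4 973)
(mv 909 (cons (fin 1164 5 908)
(mv 908 (cons (fin 844 7 844)
(mv 845 (cons (fin 1036 5 844)
(mv 782 (cons (fin 846 6 781)
(mv 781 (cons (fin 718 6 717)
(mv 716 (cons (fin 780 7 716)
(mv 717 (cons (fin 972 5 716)
(fin 652 7 652)))))))))))))))))))))
(mv 1165 (cons (fin 1168 3 1100)
(mv 1230 (cons (fin 973 4 973)
(mv 1294 (cons (fin 1358 7 1101)
(fin 1229 4 1037))))))))))))))
(cons (mv 912 (cons (fin 848 5 847)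
(mv 1104 (cons (mv 1169 (cons (fin 1105 4 912)
(mv 1168 (cons (fin 1233 4 976)
(mv 1232 (cons (fin 1296 7 1039)
(fin 975 7 975)))))))
(cons (mv 911 (cons (fin 847 7 847)
(mv 1168 (cons (fin 975 7 911)
(mv 913 (cons (fin 977 6 912)
(fin 849 6 848)))))))
(mv 1105 (cons (fin 1169 4 912)
(mv 1106 (cons (fin 1107 3 1039)
(mv 1170 (cons (fin 1171 0 1103)
(mv 1042 (cons (fin 1043 2 1039)
(mv 911 (cons (fin 847 7 847)
(mv 913 (cons (fin 849 6 848)
(mv 978 (cons (fin 977 7 913)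
(mv 979 (cons (fin 914 0 911)
(fin 915 6 914))))))))))))))))))))))
(mv 1167 (cons (fin 1231 6 975)
(mv 912 (cons (fin 848 5 847)
(fin 975 6 911))))))))))))
(mv 1038 (cons (fin 1039 1 1036)
(mv 1099 (cons (fin 1098 2 1034)
(mv 1102 (cons (cons (mv 1162 (cons (fin 1163 1 1098)
(mv 1166 (cons (fin 1167 0 1099)
(mv 1294 (cons (fin 1230 7 1037)
(mv 1035 (cons (fin 1034 3 1034)
(mv 1103 (cons (fin 1036 3 1035)
(mv 1104 (cons (fin 1105 3 1037)
(mv 1165 (cons (fin 1164 1 1100)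
(mv 1229 (cons (fin 974 5 973)
(fin 1293 6 1037)))))))))))))))))
(cons (mv 1162 (cons (fin 1163 1 1098)
(mv 1166 (cons (fin 1167 0 1099)
(mv 1230 (cons (fin 1294 7 1037)
(mv 1229 (cons (fin 1293 5 1037)
(mv 1231 (cons (fin 1295 4 1038)
(mv 1165 (cons (fin 974 5 973)
(mv 1232 (cons (fin 1164 3 1164)
(fin 1233 3 1165)))))))))))))))
(mv 1162 (cons (fin 1163 1 1098)
(mv 1035 (cons (fin 1034 3 1034)
(mv 1103 (cons (fin 1036 3 1035)
(mv 1167 (cons (fin 1168 0 1100)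
(mv 1295 (cons (fin 1231 7 1038)
(mv 1104 (cons (fin 1105 3 1037)
(mv 1165 (cons (fin 1164 1 1100)
(mv 1229 (cons (fin 1293 6 1037)
(fin 974 6 973)))))))))))))))))))
(cons (cons (mv 1166 (cons (fin 1167 0 1099)
(mv 1294 (cons (fin 1230 7 1037)
(mv 1035 (cons (fin 1034 3 1034)
(mv 1103 (cons (fin 1036 3 1035)
(mv 1104 (cons (fin 1105 3 1037)
(mv 1165 (cons (fin 1164 1 1100)
(mv 1229 (cons (fin 974 5 973)
(fin 1293 6 1037)))))))))))))))
(mv 1162 (cons (fin 1163 1 1098)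
(mv 1035 (cons (fin 1034 3 1034)
(mv 1103 (cons (fin 1036 3 1035)
(mv 1104 (cons (fin 1105 3 1037)
(mv 1165 (cons (fin 1164 1 1100)
(mv 1229 (cons (fin 1293 6 1037)
(fin 974 6 973))))))))))))))
(cons (mv 1162 (cons (fin 1163 1 1098)
(mv 1166 (cons (fin 1167 0 1099)
(mv 1294 (cons (fin 1230 7 1037)
(mv 1035 (cons (fin 1034 3 1034)
(mv 1036 (cons (fin 1103 3 1035)
(mv 971 (cons (fin 970 3 970)
(mv 907 (cons (fin 1164 4 907)
(fin 843 4 843)))))))))))))))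
(mv 1162 (cons (fin 1163 1 1098)
(mv 1166 (cons (fin 1167 0 1099)
(mv 1294 (cons (fin 1230 7 1037)
(mv 1035 (cons (fin 1034 3 1034)
(mv 1036 (cons (fin 1103 3 1035)
(mv 971 (cons (fin 970 3 970)
(mv 974 (cons (fin 975 2 971)
(mv 1165 (cons (fin 1229 5 973)
(mv 907 (cons (fin 843 4 843)
(mv 908 (cons (fin 972 4 908)
(fin 844 6 843))))))))))))))))))))))))))))))))
(cons (cons (mv 1038 (cons (fin 1039 1 1036)
(mv 1099 (cons (fin 1098 2 1034)
(mv 1102 (cons (cons (mv 1162 (cons (fin 1163 1 1098)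
(mv 1166 (cons (fin 1167 0 1099)
(mv 1230 (cons (fin 1294 7 1037)
(fin 973 7 973)))))))
(mv 1162 (cons (fin 1163 1 1098)
(mv 1035 (cons (fin 1034 3 1034)
(mv 1103 (cons (fin 1036 3 1035)
(mv 1168 (cons (fin 1167 0 1100)
(mv 1104 (cons (fin 1105 3 1037)
(fin 1169 0 1101))))))))))))
(cons (mv 1162 (cons (fin 1163 1 1098)
(mv 1035 (cons (fin 1034 3 1034)
(mv 1036 (cons (fin 1103 3 1035)
(mv 971 (cons (fin 970 3 970)
(mv 974 (cons (fin 975 2 971)
(mv 1229 (cons (fin 1165 6 973)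
(mv 907 (cons (fin 843 4 843)
(mv 906 (cons (fin 842 7 842)
(mv 973 (cons (fin 972 3 906)
(mv 1166 (cons (fin 1230 7 973)
(fin 909 7 909)))))))))))))))))))))
(mv 1166 (cons (fin 1167 0 1099)
(mv 1230 (cons (fin 1294 7 1037)
(fin 973 7 973))))))))))))
(cons (mv 1038 (cons (fin 1039 1 1036)
(mv 1099 (cons (fin 1098 2 1034)
(mv 1102 (cons (cons (mv 1162 (cons (fin 1163 1 1098)
(mv 1166 (cons (fin 1167 0 1099)
(mv 1230 (cons (fin 1294 7 1037)
(fin 973 7 973)))))))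
(mv 1163 (cons (fin 1162 1 1098)
(mv 1164 (cons (fin 1103 1 1099)
(mv 1035 (cons (fin 1034 3 1034)
(mv 971 (cons (fin 907 4 907)
(mv 970 (cons (fin 906 7 906)
(mv 972 (cons (fin 973 0 970)
(fin 908 6 907))))))))))))))
(cons (mv 1166 (cons (fin 1167 0 1099)
(mv 1230 (cons (fin 1294 7 1037)
(fin 973 7 973)))))
(mv 1162 (cons (fin 1163 1 1098)
(mv 1166 (cons (fin 1167 0 1099)
(mv 1230 (cons (fin 1294 7 1037)
(mv 1229 (cons (fin 1293 5 1037)
(mv 1231 (cons (fin 1295 4 1038)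
(mv 1165 (cons (fin 974 5 973)
(mv 1232 (cons (fin 1164 3 1164)
(fin 1233 3 1165))))))))))))))))))))))
(mv 1038 (cons (fin 1039 1 1036)
(mv 1099 (cons (fin 1098 2 1034)
(mv 1102 (cons (cons (mv 1162 (cons (fin 1163 1 1098)
(mv 1166 (cons (fin 1167 0 1099)
(mv 1230 (cons (fin 1294 7 1037)
(fin 973 7 973)))))))
(mv 1162 (cons (fin 1163 1 1098)
(mv 1035 (cons (fin 1034 3 1034)
(mv 1103 (cons (fin 1036 3 1035)
(mv 1168 (cons (fin 1167 0 1100)
(mv 1104 (cons (fin 1105 3 1037)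
(fin 1169 0 1101))))))))))))
(cons (mv 1166 (cons (fin 1167 0 1099)
(mv 1230 (cons (fin 1294 7 1037)
(fin 973 7 973)))))
(mv 1162 (cons (fin 1163 1 1098)
(mv 1035 (cons (fin 1034 3 1034)
(mv 1036 (cons (fin 1103 3 1035)
(mv 971 (cons (fin 970 3 970)
(mv 907 (cons (fin 1164 4 907)
(fin 843 4 843))))))))))))))))))))
(cons (cons (mv 1038 (cons (fin 1039 1 1036)
(mv 1099 (cons (fin 1098 2 1034)
(mv 1102 (cons (cons (mv 1162 (cons (fin 1163 1 1098)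
(mv 1035 (cons (fin 1034 3 1034)
(mv 1103 (cons (fin 1036 3 1035)
(mv 1167 (cons (fin 1168 0 1100)
(mv 1295 (cons (fin 1231 7 1038)
(mv 1104 (cons (fin 1105 3 1037)
(mv 1165 (cons (fin 1164 1 1100)
(mv 1229 (cons (fin 1293 6 1037)
(fin 974 6 973)))))))))))))))))
(cons (mv 1163 (cons (fin 1162 1 1098)
(mv 1103 (cons (fin 1164 1 1099)
(mv 1104 (cons (fin 1036 3 1036)
(fin 1105 3 1037)))))))
(mv 1035 (cons (fin 1034 3 1034)
(mv 1103 (cons (fin 1036 3 1035)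
(mv 1167 (cons (fin 1168 0 1100)
(mv 1295 (cons (fin 1231 7 1038)
(mv 1104 (cons (fin 1105 3 1037)
(mv 1165 (cons (fin 1164 1 1100)
(mv 1229 (cons (fin 1293 6 1037)
(fin 974 6 973)))))))))))))))))
(cons (mv 1162 (cons (fin 1163 1 1098)
(mv 1035 (cons (fin 1034 3 1034)
(mv 1165 (cons (mv 1229 (cons (fin 1293 6 1037)
(fin 974 6 973)))
(cons (mv 973 (cons (mv 909 (cons (fin 1164 5 908)
(fin 845 4 845)))
(cons (mv 972 (cons (fin 908 7 908)
(mv 971 (cons (fin 970 0 970)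
(mv 907 (cons (fin 1164 4 907)
(mv 906 (cons (fin 974 3 906)
(fin 842 7 842)))))))))
(mv 908 (cons (fin 972 7 908)
(mv 909 (cons (fin 844 7 844)
(fin 845 4 845))))))))
(mv 1229 (cons (fin 1293 6 1037)
(mv 1294 (cons (fin 1230 4 1037)
(mv 1036 (cons (fin 972 7 972)
(mv 971 (cons (fin 970 3 970)
(mv 907 (cons (fin 1164 4 907)
(fin 843 4 843))))))))))))))))))
(cons (mv 1163 (cons (fin 1162 1 1098)
(mv 1164 (cons (fin 1103 1 1099)
(mv 1035 (cons (fin 1034 3 1034)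
(mv 971 (cons (fin 907 4 907)
(mv 970 (cons (fin 906 7 906)
(mv 972 (cons (fin 973 0 970)
(fin 908 6 907)))))))))))))
(mv 1162 (cons (fin 1163 1 1098)
(mv 1035 (cons (fin 1034 3 1034)
(mv 1103 (cons (fin 1036 3 1035)
(mv 1168 (cons (fin 1167 0 1100)
(mv 1104 (cons (fin 1105 3 1037)
(fin 1169 0 1101)))))))))))))))))))
(mv 1038 (cons (fin 1039 1 1036)
(mv 1099 (cons (fin 1098 2 1034)
(mv 1102 (cons (mv 1162 (cons (fin 1163 1 1098)
(mv 1166 (cons (fin 1167 0 1099)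
(mv 1230 (cons (fin 1294 7 1037)
(fin 973 7 973)))))))
(cons (mv 1163 (cons (fin 1162 1 1098)
(mv 1103 (cons (fin 1164 1 1099)
(mv 1104 (cons (fin 1036 3 1036)
(fin 1105 3 1037)))))))
(mv 1166 (cons (fin 1167 0 1099)
(mv 1230 (cons (fin 1294 7 1037)
(fin 973 7 973)))))))))))))
(cons (mv 1038 (cons (fin 1039 1 1036)
(mv 1099 (cons (fin 1098 2 1034)
(mv 1102 (cons (cons (mv 1162 (cons (fin 1163 1 1098)
(mv 1035 (cons (fin 1034 3 1034)
(mv 1103 (cons (fin 1036 3 1035)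
(mv 1104 (cons (fin 1105 3 1037)
(mv 1165 (cons (fin 1164 1 1100)
(mv 1229 (cons (fin 1293 6 1037)
(fin 974 6 973)))))))))))))
(cons (mv 1163 (cons (fin 1162 1 1098)
(mv 1103 (cons (fin 1164 1 1099)
(mv 1104 (cons (fin 1036 3 1036)
(fin 1105 3 1037)))))))
(mv 1035 (cons (fin 1034 3 1034)
(mv 1103 (cons (fin 1036 3 1035)
(mv 1104 (cons (fin 1105 3 1037)
(mv 1165 (cons (fin 1164 1 1100)
(mv 1229 (cons (fin 1293 6 1037)
(fin 974 6 973)))))))))))))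
(cons (mv 1162 (cons (fin 1163 1 1098)
(mv 1035 (cons (fin 1034 3 1034)
(mv 971 (cons (cons (mv 1164 (cons (fin 907 4 907)
(mv 970 (cons (fin 1036 3 970)
(mv 973 (cons (fin 972 0 970)
(fin 909 5 908)))))))
(mv 970 (cons (fin 1036 3 970)
(mv 973 (cons (fin 972 0 970)
(mv 1166 (cons (fin 1230 7 973)
(fin 909 4 909))))))))
(cons (mv 1164 (cons (fin 907 4 907)
(mv 973 (cons (fin 909 5 908)
(mv 1230 (cons (fin 1166 7 973)
(mv 972 (cons (fin 970 0 970)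
(mv 1165 (cons (fin 908 7 908)
(mv 1229 (cons (fin 1294 4 1037)
(fin 1293 6 1037)))))))))))))
(cons (mv 907 (cons (fin 1164 4 907)
(mv 1036 (cons (fin 843 4 843)
(mv 974 (cons (fin 975 2 971)
(mv 1229 (cons (fin 1165 6 973)
(mv 906 (cons (fin 842 7 842)
(mv 973 (cons (fin 972 3 906)
(mv 1166 (cons (fin 1230 7 973)
(fin 909 7 909)))))))))))))))
(mv 1036 (cons (fin 970 3 970)
(mv 907 (cons (fin 1164 4 907)
(fin 843 4 843)))))))))))))
(cons (mv 1163 (cons (fin 1162 1 1098)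
(mv 1164 (cons (fin 1103 1 1099)
(mv 1035 (cons (fin 1034 3 1034)
(mv 971 (cons (fin 907 4 907)
(mv 970 (cons (fin 906 7 906)
(mv 972 (cons (fin 973 0 970)
(fin 908 6 907)))))))))))))
(mv 1162 (cons (fin 1163 1 1098)
(mv 1035 (cons (fin 1034 3 1034)
(mv 1036 (cons (fin 1103 3 1035)
(mv 971 (cons (fin 970 3 970)
(mv 974 (cons (fin 975 2 971)
(mv 1229 (cons (fin 1165 6 973)
(mv 907 (cons (fin 843 4 843)
(mv 906 (cons (fin 842 7 842)
(mv 973 (cons (fin 972 3 906)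
(mv 1166 (cons (fin 1230 7 973)
(fin 909 7 909)))))))))))))))))))))))))))))
(mv 1038 (cons (fin 1039 1 1036)
(mv 1099 (cons (fin 1098 2 1034)
(mv 1102 (cons (cons (mv 1162 (cons (fin 1163 1 1098)
(mv 1166 (cons (fin 1167 0 1099)
(mv 1035 (cons (fin 1034 3 1034)
(mv 1103 (cons (fin 1036 3 1035)
(mv 1104 (cons (fin 1105 3 1037)
(mv 1165 (cons (fin 1164 1 1100)
(mv 1229 (cons (fin 974 5 973)
(fin 1293 6 1037)))))))))))))))
(cons (mv 1162 (cons (fin 1163 1 1098)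
(mv 1167 (cons (fin 1166 0 1099)
(mv 1103 (cons (fin 1168 0 1100)
(mv 1104 (cons (fin 1036 3 1036)
(fin 1105 3 1037)))))))))
(mv 1162 (cons (fin 1163 1 1098)
(mv 1035 (cons (fin 1034 3 1034)
(mv 1103 (cons (fin 1036 3 1035)
(mv 1167 (cons (fin 1168 0 1100)
(mv 1295 (cons (fin 1231 7 1038)
(mv 1104 (cons (fin 1105 3 1037)
(mv 1165 (cons (fin 1164 1 1100)
(mv 1229 (cons (fin 1293 6 1037)
(fin 974 6 973)))))))))))))))))))
(cons (cons (mv 1166 (cons (fin 1167 0 1099)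
(mv 1035 (cons (fin 1034 3 1034)
(mv 1103 (cons (fin 1036 3 1035)
(mv 1104 (cons (fin 1105 3 1037)
(mv 1165 (cons (fin 1164 1 1100)
(mv 1229 (cons (fin 974 5 973)
(fin 1293 6 1037)))))))))))))
(mv 1162 (cons (fin 1163 1 1098)
(mv 1035 (cons (fin 1034 3 1034)
(mv 1103 (cons (fin 1036 3 1035)
(mv 1104 (cons (fin 1105 3 1037)
(mv 1165 (cons (fin 1164 1 1100)
(mv 1229 (cons (fin 1293 6 1037)
(fin 974 6 973))))))))))))))
(cons (mv 1162 (cons (fin 1163 1 1098)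
(mv 1166 (cons (fin 1167 0 1099)
(mv 1035 (cons (fin 1034 3 1034)
(mv 973 (cons (fin 909 4 909)
(mv 1165 (cons (mv 1229 (cons (fin 974 5 973)
(fin 1293 6 1037)))
(cons (mv 972 (cons (fin 908 7 908)
(mv 971 (cons (fin 970 0 970)
(mv 907 (cons (fin 1164 4 907)
(mv 906 (cons (fin 974 3 906)
(fin 842 7 842)))))))))
(mv 1293 (cons (fin 1229 6 1037)
(mv 972 (cons (fin 908 7 908)
(mv 971 (cons (fin 970 0 970)
(mv 907 (cons (fin 1164 4 907)
(mv 842 (cons (fin 906 7 842)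
(mv 843 (cons (fin 778 7 778)
(fin 1036 4 843))))))))))))))))))))))))
(mv 1162 (cons (fin 1163 1 1098)
(mv 1167 (cons (fin 1166 0 1099)
(mv 1103 (cons (fin 1168 0 1100)
(mv 1295 (cons (fin 1231 7 1038)
(mv 1104 (cons (fin 1105 3 1037)
(mv 1165 (cons (fin 1164 1 1100)
(mv 1229 (cons (fin 1293 6 1037)
(fin 974 6 973))))))))))))))))))))))))))))
(cons (mv 1038 (cons (cons (mv 1039 (cons (fin 1100 1 1036)
(mv 1104 (cons (fin 1105 0 1037)
(mv 1103 (cons (fin 1036 0 1036)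
(mv 972 (cons (fin 973 3 972)
(mv 976 (cons (fin 977 2 973)
(mv 1167 (cons (fin 912 5 911)
(fin 1231 6 975)))))))))))))
(cons (mv 1165 (cons (cons (mv 1229 (cons (fin 974 6 973)
(mv 1292 (cons (fin 1228 5 1036)
(mv 1293 (cons (fin 1356 5 1100)
(fin 1102 6 1037)))))))
(mv 973 (cons (cons (mv 1228 (cons (fin 1164 5 972)
(mv 908 (cons (fin 972 7 908)
(mv 909 (cons (fin 844 7 844)
(mv 1102 (cons (fin 1166 4 909)
(fin 845 4 845)))))))))
(mv 908 (cons (fin 972 7 908)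
(mv 909 (cons (fin 844 7 844)
(mv 1102 (cons (fin 1166 4 909)
(fin 845 4 845))))))))
(cons (mv 1164 (cons (fin 1228 5 972)
(mv 909 (cons (fin 1100 5 908)
(mv 1102 (cons (fin 1166 4 909)
(fin 845 4 845)))))))
(cons (mv 972 (cons (fin 908 7 908)
(mv 974 (cons (cons (mv 1228 (cons (fin 1164 5 972)
(mv 971 (cons (fin 970 0 970)
(mv 1035 (cons (fin 1034 1 970)
(mv 1036 (cons (fin 975 1 971)
(mv 1098 (cons (fin 1099 1 1034)
(mv 1102 (cons (fin 1103 0 1035)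
(mv 907 (cons (fin 906 3 906)
(mv 843 (cons (fin 1100 4 843)
(fin 779 4 779)))))))))))))))))
(cons (mv 1164 (cons (fin 1228 5 972)
(mv 975 (cons (mv 1036 (cons (fin 1035 1 971)
(fin 976 1 972)))
(cons (mv 976 (cons (fin 977 1 973)
(mv 912 (cons (fin 911 2 908)
(fin 913 2 909)))))
(mv 1035 (cons (fin 1036 1 971)
(mv 911 (cons (fin 912 2 908)
(mv 1102 (cons (fin 1166 6 910)
(mv 1163 (cons (fin 1162 2 1098)
(mv 1103 (cons (fin 1100 1 1099)
(fin 1104 1 1100))))))))))))))))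
(mv 971 (cons (fin 970 0 970)
(mv 1035 (cons (fin 1034 1 970)
(mv 1036 (cons (fin 975 1 971)
(mv 1098 (cons (fin 1099 1 1034)
(mv 1102 (cons (fin 1103 0 1035)
(mv 907 (cons (fin 906 3 906)
(mv 843 (cons (fin 1100 4 843)
(fin 779 4 779)))))))))))))))))
(cons (cons (mv 1164 (cons (fin 1228 5 972)
(mv 971 (cons (fin 970 0 970)
(mv 1035 (cons (fin 1034 1 970)
(mv 907 (cons (fin 906 3 906)
(mv 1100 (cons (fin 1036 7 907)
(fin 1099 4 907)))))))))))
(mv 1164 (cons (fin 1228 5 972)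
(mv 971 (cons (fin 970 0 970)
(mv 1035 (cons (fin 1034 1 970)
(mv 907 (cons (fin 906 3 906)
(mv 1099 (cons (fin 1100 4 907)
(mv 1162 (cons (fin 1098 5 906)
(mv 1163 (cons (fin 1102 2 1098)
(fin 1226 5 970))))))))))))))))
(cons (mv 1164 (cons (fin 1228 5 972)
(mv 970 (cons (fin 971 0 970)
(mv 975 (cons (mv 976 (cons (fin 1036 1 972)
(fin 977 1 973)))
(mv 911 (cons (fin 912 2 908)
(mv 1102 (cons (fin 1166 6 910)
(mv 1163 (cons (fin 1162 2 1098)
(mv 1103 (cons (fin 1100 1 1099)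
(fin 1104 1 1100)))))))))))))))
(mv 1228 (cons (fin 1164 5 972)
(mv 971 (cons (fin 970 0 970)
(mv 1035 (cons (fin 1034 1 970)
(mv 975 (cons (fin 1036 1 971)
(mv 976 (cons (fin 977 1 973)
(mv 912 (cons (fin 911 2 908)
(fin 913 2 909)))))))))))))))))))
(mv 1164 (cons (fin 1228 5 972)
(mv 1100 (cons (fin 909 5 908)
(mv 1098 (cons (fin 1099 2 1034)
(mv 972 (cons (fin 908 7 908)
(mv 971 (cons (fin 970 0 970)
(mv 1036 (cons (fin 907 7 907)
(mv 1163 (cons (fin 1227 5 971)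
(mv 1162 (cons (fin 1097 3 1097)
(fin 1161 2 1097))))))))))))))))))))))
(cons (mv 1229 (cons (mv 1292 (cons (fin 1228 5 1036)
(mv 1293 (cons (fin 1356 5 1100)
(fin 1102 6 1037)))))
(cons (mv 1228 (cons (fin 1292 5 1036)
(mv 972 (cons (fin 1036 7 972)
(mv 973 (cons (fin 1164 5 972)
(fin 908 7 908)))))))
(mv 1293 (cons (fin 1102 6 1037)
(mv 1036 (cons (fin 1100 7 1036)
(fin 972 7 972))))))))
(cons (mv 1229 (cons (fin 974 6 973)
(mv 1293 (cons (fin 1102 6 1037)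
(mv 1036 (cons (fin 1100 7 1036)
(fin 972 7 972)))))))
(mv 1229 (cons (fin 974 6 973)
(mv 1292 (cons (fin 1228 5 1036)
(mv 1293 (cons (fin 1356 5 1100)
(mv 1036 (cons (fin 1100 7 1036)
(fin 972 7 972)))))))))))))
(mv 1039 (cons (cons (mv 1104 (cons (fin 1105 0 1037)
(mv 1103 (cons (fin 1036 0 1036)
(mv 972 (cons (fin 973 3 972)
(mv 976 (cons (fin 977 2 973)
(mv 1167 (cons (fin 912 5 911)
(fin 1231 6 975)))))))))))
(mv 972 (cons (fin 973 3 972)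
(mv 1036 (cons (fin 971 3 971)
(mv 976 (cons (fin 975 2 972)
(fin 977 2 973))))))))
(cons (mv 1104 (cons (fin 1105 0 1037)
(mv 1103 (cons (fin 1036 0 1036)
(mv 976 (cons (fin 977 2 973)
(mv 1167 (cons (fin 912 5 911)
(fin 1231 6 975)))))))))
(cons (mv 1104 (cons (fin 1105 0 1037)
(mv 1036 (cons (fin 1103 0 1036)
(mv 972 (cons (fin 971 3 971)
(fin 973 3 972)))))))
(mv 1104 (cons (fin 1105 0 1037)
(mv 972 (cons (fin 973 3 972)
(mv 976 (cons (fin 977 2 973)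
(mv 1168 (cons (mv 975 (cons (fin 1232 7 975)
(fin 911 7 911)))
(cons (mv 1231 (cons (fin 1167 5 975)
(mv 1232 (cons (fin 1295 5 1039)
(mv 1233 (cons (fin 1297 4 1040)
(fin 1169 4 976)))))))
(mv 1231 (cons (fin 1167 5 975)
(mv 1233 (cons (fin 1169 4 976)
(mv 911 (cons (fin 975 7 911)
(mv 912 (cons (fin 847 7 847)
(mv 848 (cons (fin 1103 5 847)
(mv 849 (cons (fin 913 6 848)
(fin 785 6 784))))))))))))))))))))))))))))
(cons (cons (mv 1039 (cons (fin 1100 1 1036)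
(mv 1104 (cons (fin 1105 0 1037)
(mv 1103 (cons (fin 1036 0 1036)
(mv 976 (cons (fin 977 2 973)
(mv 1167 (cons (fin 912 5 911)
(fin 1231 6 975)))))))))))
(mv 1039 (cons (fin 1100 1 1036)
(mv 972 (cons (fin 973 3 972)
(mv 1036 (cons (fin 971 3 971)
(mv 976 (cons (fin 975 2 972)
(fin 977 2 973))))))))))
(cons (mv 1039 (cons (fin 1100 1 1036)
(mv 1104 (cons (fin 1105 0 1037)
(mv 1036 (cons (fin 1103 0 1036)
(mv 972 (cons (fin 971 3 971)
(fin 973 3 972)))))))))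
(mv 1039 (cons (fin 1100 1 1036)
(mv 1104 (cons (fin 1105 0 1037)
(mv 972 (cons (fin 973 3 972)
(mv 976 (cons (fin 977 2 973)
(mv 1168 (cons (mv 975 (cons (fin 1232 7 975)
(fin 911 7 911)))
(cons (mv 1231 (cons (fin 1167 5 975)
(mv 1232 (cons (fin 1295 5 1039)
(mv 1233 (cons (fin 1297 4 1040)
(fin 1169 4 976)))))))
(mv 1231 (cons (fin 1167 5 975)
(mv 1233 (cons (fin 1169 4 976)
(mv 911 (cons (fin 975 7 911)
(mv 912 (cons (fin 847 7 847)
(mv 848 (cons (fin 1103 5 847)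
(mv 849 (cons (fin 913 6 848)
(fin 785 6 784))))))))))))))))))))))))))))
(mv 1038 (cons (cons (mv 1039 (cons (fin 1100 1 1036)
(mv 1104 (cons (fin 1105 0 1037)
(mv 1103 (cons (fin 1036 0 1036)
(mv 972 (cons (fin 973 3 972)
(mv 976 (cons (fin 977 2 973)
(mv 1167 (cons (fin 912 5 911)
(fin 1231 6 975)))))))))))))
(mv 1165 (cons (cons (mv 1229 (cons (fin 974 6 973)
(mv 1292 (cons (fin 1228 5 1036)
(mv 1293 (cons (fin 1356 5 1100)
(fin 1102 6 1037)))))))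
(mv 973 (cons (cons (mv 1230 (cons (fin 1166 4 973)
(mv 1164 (cons (fin 1228 5 972)
(mv 909 (cons (fin 1100 5 908)
(mv 845 (cons (fin 1102 4 845)
(mv 844 (cons (fin 780 7 780)
(mv 781 (cons (fin 974 4 781)
(mv 782 (cons (fin 846 6 781)
(fin 718 6 717)))))))))))))))
(cons (mv 1164 (cons (fin 1228 5 972)
(mv 909 (cons (fin 1100 5 908)
(mv 845 (cons (fin 1102 4 845)
(mv 844 (cons (fin 780 7 780)
(mv 781 (cons (fin 974 4 781)
(mv 782 (cons (fin 846 6 781)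
(fin 718 6 717)))))))))))))
(mv 1166 (cons (fin 1230 4 973)
(mv 1102 (cons (fin 909 4 909)
(mv 1167 (cons (mv 1168 (cons (fin 1100 3 1100)
(fin 1169 3 1101)))
(mv 1231 (cons (fin 974 4 974)
(mv 1295 (cons (fin 1359 7 1102)
(fin 1103 7 1038)))))))))))))
(cons (mv 1164 (cons (fin 1228 5 972)
(mv 1166 (cons (fin 1230 4 973)
(mv 1100 (cons (fin 909 5 908)
(mv 1167 (cons (fin 1099 3 1099)
(fin 1168 3 1100)))))))))
(cons (mv 1164 (cons (fin 1228 5 972)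
(mv 1166 (cons (fin 1230 4 973)
(mv 1167 (cons (mv 1100 (cons (fin 1099 3 1099)
(fin 1168 3 1100)))
(mv 1231 (cons (fin 1232 0 1164)
(mv 1102 (cons (fin 974 4 974)
(mv 1295 (cons (fin 1359 7 1102)
(fin 1103 7 1038)))))))))))))
(mv 1164 (cons (fin 1228 5 972)
(mv 1166 (cons (fin 1230 4 973)
(mv 1102 (cons (fin 909 4 909)
(mv 1163 (cons (fin 1162 2 1098)
(fin 1103 2 1099))))))))))))))
(cons (mv 1229 (cons (mv 1292 (cons (fin 1228 5 1036)
(mv 1293 (cons (fin 1356 5 1100)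
(fin 1102 6 1037)))))
(cons (mv 1228 (cons (fin 1292 5 1036)
(mv 1230 (cons (fin 1294 4 1037)
(mv 973 (cons (fin 1164 5 972)
(fin 1166 4 973)))))))
(mv 1293 (cons (fin 1102 6 1037)
(mv 1294 (cons (fin 1358 4 1101)
(fin 1230 4 1037))))))))
(cons (mv 1229 (cons (fin 974 6 973)
(mv 1293 (cons (fin 1102 6 1037)
(mv 1294 (cons (fin 1358 4 1101)
(fin 1230 4 1037)))))))
(mv 1229 (cons (fin 974 6 973)
(mv 1292 (cons (fin 1228 5 1036)
(mv 1293 (cons (fin 1356 5 1100)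
(mv 1294 (cons (fin 1358 4 1101)
(fin 1230 4 1037))))))))))))))
(cons (mv 1039 (cons (cons (mv 1104 (cons (fin 1105 0 1037)
(mv 1103 (cons (fin 1036 0 1036)
(mv 972 (cons (fin 973 3 972)
(mv 976 (cons (fin 977 2 973)
(mv 1167 (cons (fin 912 5 911)
(fin 1231 6 975)))))))))))
(mv 972 (cons (fin 973 3 972)
(mv 1036 (cons (fin 971 3 971)
(mv 976 (cons (fin 975 2 972)
(fin 977 2 973))))))))
(cons (mv 1104 (cons (fin 1105 0 1037)
(mv 1036 (cons (fin 1103 0 1036)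
(mv 972 (cons (fin 971 3 971)
(fin 973 3 972)))))))
(cons (mv 1104 (cons (fin 1105 0 1037)
(mv 1103 (cons (fin 1036 0 1036)
(mv 976 (cons (fin 977 2 973)
(mv 1167 (cons (fin 912 5 911)
(fin 1231 6 975)))))))))
(mv 1104 (cons (fin 1105 0 1037)
(mv 972 (cons (fin 973 3 972)
(mv 976 (cons (fin 977 2 973)
(mv 1168 (cons (mv 975 (cons (fin 1232 7 975)
(fin 911 7 911)))
(cons (mv 1231 (cons (fin 1167 5 975)
(mv 1232 (cons (fin 1295 5 1039)
(mv 1233 (cons (fin 1297 4 1040)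
(fin 1169 4 976)))))))
(mv 1231 (cons (fin 1167 5 975)
(mv 1233 (cons (fin 1169 4 976)
(mv 911 (cons (fin 975 7 911)
(mv 912 (cons (fin 847 7 847)
(mv 848 (cons (fin 1103 5 847)
(mv 849 (cons (fin 913 6 848)
(fin 785 6 784))))))))))))))))))))))))))
(cons (mv 1039 (cons (fin 1100 1 1036)
(mv 1104 (cons (fin 1105 0 1037)
(mv 1103 (cons (fin 1036 0 1036)
(mv 976 (cons (fin 977 2 973)
(mv 1167 (cons (fin 912 5 911)
(fin 1231 6 975)))))))))))
(mv 1039 (cons (fin 1100 1 1036)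
(mv 1104 (cons (fin 1105 0 1037)
(mv 972 (cons (fin 973 3 972)
(mv 1036 (cons (fin 971 3 971)
(mv 976 (cons (fin 975 2 972)
(fin 977 2 973)))))))))))))))))
(cons (mv 1038 (cons (cons (mv 1039 (cons (fin 1100 1 1036)
(mv 972 (cons (fin 973 3 972)
(mv 1036 (cons (fin 971 3 971)
(mv 976 (cons (fin 975 2 972)
(fin 977 2 973)))))))))
(cons (mv 1165 (cons (cons (mv 1229 (cons (fin 974 6 973)
(mv 1292 (cons (fin 1228 5 1036)
(mv 1293 (cons (fin 1356 5 1100)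
(fin 1102 6 1037)))))))
(mv 973 (cons (cons (cons (mv 1228 (cons (fin 1164 5 972)
(mv 1230 (cons (fin 1166 4 973)
(mv 908 (cons (fin 972 7 908)
(mv 909 (cons (fin 844 7 844)
(mv 845 (cons (fin 1102 4 845)
(mv 1100 (cons (fin 1036 5 844)
(mv 1098 (cons (fin 1099 2 1034)
(mv 781 (cons (fin 974 4 781)
(mv 782 (cons (fin 846 6 781)
(fin 718 6 717)))))))))))))))))))
(mv 1228 (cons (fin 1164 5 972)
(mv 908 (cons (fin 972 7 908)
(mv 909 (cons (fin 844 7 844)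
(mv 845 (cons (fin 1102 4 845)
(mv 1100 (cons (fin 1036 5 844)
(mv 1098 (cons (fin 1099 2 1034)
(mv 781 (cons (fin 974 4 781)
(mv 782 (cons (fin 846 6 781)
(fin 718 6 717))))))))))))))))))
(cons (mv 1230 (cons (fin 1166 4 973)
(mv 908 (cons (fin 972 7 908)
(mv 909 (cons (fin 844 7 844)
(mv 845 (cons (fin 1102 4 845)
(mv 1100 (cons (fin 1036 5 844)
(mv 1098 (cons (fin 1099 2 1034)
(mv 781 (cons (fin 974 4 781)
(mv 782 (cons (fin 846 6 781)
(fin 718 6 717)))))))))))))))))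
(mv 1228 (cons (fin 1164 5 972)
(mv 1166 (cons (fin 1230 4 973)
(mv 909 (cons (fin 1102 4 909)
(mv 844 (cons (fin 908 7 844)
(mv 845 (cons (fin 780 7 780)
(mv 1100 (cons (fin 1036 5 844)
(mv 1167 (cons (fin 1168 3 1100)
(mv 1098 (cons (fin 1099 0 1098)
(mv 781 (cons (fin 974 4 781)
(mv 782 (cons (fin 846 6 781)
(fin 718 6 717)))))))))))))))))))))))
(cons (cons (mv 1230 (cons (fin 1166 4 973)
(mv 1164 (cons (fin 1228 5 972)
(mv 909 (cons (fin 1100 5 908)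
(mv 845 (cons (fin 1102 4 845)
(mv 844 (cons (fin 780 7 780)
(mv 781 (cons (fin 974 4 781)
(mv 782 (cons (fin 846 6 781)
(fin 718 6 717)))))))))))))))
(mv 1164 (cons (fin 1228 5 972)
(mv 1166 (cons (fin 1230 4 973)
(mv 972 (cons (fin 908 7 908)
(mv 970 (cons (fin 971 0 970)
(mv 1163 (cons (mv 1102 (cons (fin 1162 2 1098)
(fin 1103 2 1099)))
(cons (mv 1226 (cons (fin 1227 1 1162)
(mv 1162 (cons (fin 1225 1 1161)
(mv 1098 (cons (fin 1097 3 1097)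
(fin 1099 3 1098)))))))
(mv 1226 (cons (fin 1227 1 1162)
(mv 1099 (cons (fin 1098 3 1098)
(mv 1167 (cons (fin 1100 3 1099)
(mv 1231 (cons (fin 1232 0 1164)
(mv 1102 (cons (fin 1103 2 1099)
(fin 974 4 974)))))))))))))))))))))))
(cons (mv 1230 (cons (fin 1166 4 973)
(mv 1164 (cons (fin 1228 5 972)
(mv 1100 (cons (fin 909 5 908)
(mv 1098 (cons (fin 1099 2 1034)
(mv 972 (cons (fin 908 7 908)
(mv 971 (cons (fin 970 0 970)
(mv 1036 (cons (fin 907 7 907)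
(mv 1163 (cons (fin 1227 5 971)
(mv 1162 (cons (fin 1097 3 1097)
(fin 1161 2 1097)))))))))))))))))))
(mv 1228 (cons (fin 1164 5 972)
(mv 1230 (cons (fin 1166 4 973)
(mv 908 (cons (fin 972 7 908)
(mv 909 (cons (fin 844 7 844)
(mv 845 (cons (fin 1102 4 845)
(mv 781 (cons (fin 974 4 781)
(mv 782 (cons (fin 846 6 781)
(fin 718 6 717))))))))))))))))))))
(cons (mv 1229 (cons (mv 1292 (cons (fin 1228 5 1036)
(mv 1293 (cons (fin 1356 5 1100)
(fin 1102 6 1037)))))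
(cons (mv 1292 (cons (fin 1228 5 1036)
(mv 1230 (cons (fin 1294 4 1037)
(mv 972 (cons (fin 1036 7 972)
(mv 973 (cons (fin 908 7 908)
(fin 1166 4 973)))))))))
(mv 1293 (cons (fin 1102 6 1037)
(mv 1294 (cons (fin 1358 4 1101)
(fin 1230 4 1037))))))))
(cons (mv 1229 (cons (fin 974 6 973)
(mv 1293 (cons (fin 1102 6 1037)
(mv 1294 (cons (fin 1358 4 1101)
(fin 1230 4 1037)))))))
(mv 1229 (cons (fin 974 6 973)
(mv 1292 (cons (fin 1228 5 1036)
(mv 1356 (cons (fin 1293 5 1100)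
(mv 1230 (cons (fin 1294 4 1037)
(mv 972 (cons (fin 1036 7 972)
(mv 973 (cons (fin 908 7 908)
(fin 1166 4 973)))))))))))))))))
(mv 973 (cons (mv 972 (cons (fin 1039 3 972)
(mv 1165 (cons (fin 908 7 908)
(mv 1229 (cons (fin 1036 7 972)
(fin 974 6 973)))))))
(cons (mv 909 (cons (mv 1102 (cons (fin 1166 4 909)
(fin 845 4 845)))
(cons (mv 844 (cons (fin 908 7 844)
(mv 845 (cons (fin 780 7 780)
(mv 781 (cons (fin 974 4 781)
(mv 782 (cons (fin 846 6 781)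
(fin 718 6 717)))))))))
(mv 1166 (cons (fin 1102 4 909)
(mv 1165 (cons (fin 1230 4 973)
(mv 1228 (cons (fin 1164 5 972)
(mv 1229 (cons (fin 1292 5 1036)
(fin 974 6 973))))))))))))
(mv 1039 (cons (fin 972 3 972)
(mv 976 (cons (fin 977 2 973)
(mv 1036 (cons (fin 975 2 972)
(mv 1102 (cons (mv 1166 (cons (fin 1230 7 973)
(fin 909 4 909)))
(mv 1035 (cons (fin 1034 0 1034)
(fin 1103 0 1035))))))))))))))))
(cons (mv 1039 (cons (fin 1100 1 1036)
(mv 976 (cons (fin 977 2 973)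
(mv 1036 (cons (fin 975 2 972)
(mv 971 (cons (fin 972 3 971)
(mv 1035 (cons (fin 970 3 970)
(mv 1102 (cons (fin 1034 0 1034)
(fin 1103 0 1035)))))))))))))
(cons (mv 1100 (cons (fin 1039 1 1036)
(mv 1098 (cons (fin 1099 2 1034)
(mv 1164 (cons (cons (mv 1228 (cons (fin 1292 6 1036)
(mv 973 (cons (fin 1165 5 972)
(fin 909 5 908)))))
(mv 973 (cons (fin 909 5 908)
(mv 1165 (cons (mv 1229 (cons (fin 974 6 973)
(mv 1293 (cons (fin 1357 7 1100)
(fin 1036 7 1036)))))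
(cons (mv 1166 (cons (fin 1230 4 973)
(mv 1167 (cons (fin 1168 3 1100)
(mv 1231 (cons (fin 1232 0 1164)
(mv 1102 (cons (fin 974 4 974)
(mv 1295 (cons (fin 1359 7 1102)
(fin 1103 7 1038)))))))))))
(mv 1230 (cons (fin 1166 4 973)
(mv 1229 (cons (fin 1294 4 1037)
(mv 1293 (cons (fin 1357 7 1100)
(fin 1036 7 1036)))))))))))))
(cons (mv 1228 (cons (fin 1292 6 1036)
(mv 1036 (cons (cons (mv 1291 (cons (fin 1227 5 1035)
(mv 1293 (cons (fin 1229 4 1036)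
(mv 1035 (cons (fin 971 7 971)
(mv 1102 (cons (fin 1103 3 1035)
(fin 1034 0 1034)))))))))
(mv 1291 (cons (fin 1227 5 1035)
(mv 1229 (cons (fin 1293 4 1036)
(mv 1165 (cons (fin 974 6 973)
(mv 1230 (cons (fin 1294 4 1037)
(mv 1231 (cons (fin 1163 3 1163)
(fin 1232 3 1164))))))))))))
(cons (mv 1291 (cons (fin 1227 5 1035)
(mv 1035 (cons (fin 971 7 971)
(mv 1102 (cons (fin 1103 3 1035)
(fin 1034 0 1034)))))))
(mv 1293 (cons (fin 1229 4 1036)
(mv 1035 (cons (fin 971 7 971)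
(mv 1102 (cons (fin 1103 3 1035)
(fin 1034 0 1034))))))))))))
(mv 1228 (cons (fin 1292 6 1036)
(mv 973 (cons (fin 909 5 908)
(fin 1036 6 972))))))))))))
(mv 1039 (cons (fin 1100 1 1036)
(mv 973 (cons (fin 972 3 972)
(mv 976 (cons (fin 977 2 973)
(mv 909 (cons (mv 1102 (cons (fin 1166 4 909)
(fin 845 4 845)))
(cons (mv 844 (cons (fin 908 7 844)
(mv 845 (cons (fin 780 7 780)
(mv 781 (cons (fin 974 4 781)
(mv 782 (cons (fin 846 6 781)
(fin 718 6 717)))))))))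
(mv 1166 (cons (fin 1102 4 909)
(mv 1165 (cons (fin 1230 4 973)
(mv 1228 (cons (fin 1164 5 972)
(mv 1229 (cons (fin 1292 5 1036)
(fin 974 6 973))))))))))))))))))))))
(cons (mv 1038 (cons (cons (mv 1039 (cons (fin 1100 1 1036)
(mv 1104 (cons (fin 1105 0 1037)
(mv 972 (cons (fin 973 3 972)
(mv 1036 (cons (fin 971 3 971)
(mv 976 (cons (fin 975 2 972)
(fin 977 2 973)))))))))))
(cons (mv 1165 (cons (cons (mv 1229 (cons (fin 974 6 973)
(mv 1292 (cons (fin 1228 5 1036)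
(mv 1293 (cons (fin 1356 5 1100)
(fin 1102 6 1037)))))))
(mv 973 (cons (cons (cons (mv 1228 (cons (fin 1164 5 972)
(mv 1230 (cons (fin 1166 4 973)
(mv 908 (cons (fin 972 7 908)
(mv 909 (cons (fin 844 7 844)
(mv 845 (cons (fin 1102 4 845)
(mv 1100 (cons (fin 1036 5 844)
(mv 1098 (cons (fin 1099 2 1034)
(mv 781 (cons (fin 974 4 781)
(mv 782 (cons (fin 846 6 781)
(fin 718 6 717)))))))))))))))))))
(mv 1228 (cons (fin 1164 5 972)
(mv 908 (cons (fin 972 7 908)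
(mv 909 (cons (fin 844 7 844)
(mv 845 (cons (fin 1102 4 845)
(mv 1100 (cons (fin 1036 5 844)
(mv 1098 (cons (fin 1099 2 1034)
(mv 781 (cons (fin 974 4 781)
(mv 782 (cons (fin 846 6 781)
(fin 718 6 717))))))))))))))))))
(cons (mv 1230 (cons (fin 1166 4 973)
(mv 908 (cons (fin 972 7 908)
(mv 909 (cons (fin 844 7 844)
(mv 845 (cons (fin 1102 4 845)
(mv 1100 (cons (fin 1036 5 844)
(mv 1098 (cons (fin 1099 2 1034)
(mv 781 (cons (fin 974 4 781)
(mv 782 (cons (fin 846 6 781)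
(fin 718 6 717)))))))))))))))))
(mv 1228 (cons (fin 1164 5 972)
(mv 1166 (cons (fin 1230 4 973)
(mv 909 (cons (fin 1102 4 909)
(mv 844 (cons (fin 908 7 844)
(mv 845 (cons (fin 780 7 780)
(mv 1100 (cons (fin 1036 5 844)
(mv 1167 (cons (fin 1168 3 1100)
(mv 1098 (cons (fin 1099 0 1098)
(mv 781 (cons (fin 974 4 781)
(mv 782 (cons (fin 846 6 781)
(fin 718 6 717)))))))))))))))))))))))
(cons (cons (mv 1230 (cons (fin 1166 4 973)
(mv 1164 (cons (fin 1228 5 972)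
(mv 909 (cons (fin 1100 5 908)
(mv 845 (cons (fin 1102 4 845)
(mv 844 (cons (fin 780 7 780)
(mv 781 (cons (fin 974 4 781)
(mv 782 (cons (fin 846 6 781)
(fin 718 6 717)))))))))))))))
(mv 1164 (cons (fin 1228 5 972)
(mv 1166 (cons (fin 1230 4 973)
(mv 972 (cons (fin 908 7 908)
(mv 970 (cons (fin 971 0 970)
(mv 1099 (cons (cons (mv 1098 (cons (fin 1163 3 1098)
(fin 1100 0 1098)))
(mv 1163 (cons (fin 1098 3 1098)
(mv 1226 (cons (fin 1227 1 1162)
(mv 1162 (cons (fin 1225 1 1161)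
(fin 1102 2 1098))))))))
(cons (mv 1167 (cons (fin 1100 3 1099)
(mv 1231 (cons (fin 1232 0 1164)
(mv 1102 (cons (fin 974 4 974)
(mv 1359 (cons (fin 1295 7 1102)
(mv 1162 (cons (fin 1163 2 1098)
(mv 1168 (cons (fin 1169 3 1101)
(mv 1104 (cons (fin 1105 2 1101)
(fin 976 5 975)))))))))))))))
(mv 1100 (cons (fin 1167 3 1099)
(fin 1098 0 1098)))))))))))))))
(cons (mv 1230 (cons (fin 1166 4 973)
(mv 1164 (cons (fin 1228 5 972)
(mv 1100 (cons (fin 909 5 908)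
(mv 1098 (cons (fin 1099 2 1034)
(mv 972 (cons (fin 908 7 908)
(mv 971 (cons (fin 970 0 970)
(mv 1036 (cons (fin 907 7 907)
(mv 1163 (cons (fin 1227 5 971)
(mv 1162 (cons (fin 1097 3 1097)
(fin 1161 2 1097)))))))))))))))))))
(mv 1228 (cons (fin 1164 5 972)
(mv 1230 (cons (fin 1166 4 973)
(mv 908 (cons (fin 972 7 908)
(mv 909 (cons (fin 844 7 844)
(mv 845 (cons (fin 1102 4 845)
(mv 781 (cons (fin 974 4 781)
(mv 782 (cons (fin 846 6 781)
(fin 718 6 717))))))))))))))))))))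
(cons (mv 1229 (cons (mv 1292 (cons (fin 1228 5 1036)
(mv 1293 (cons (fin 1356 5 1100)
(fin 1102 6 1037)))))
(cons (mv 1292 (cons (fin 1228 5 1036)
(mv 1230 (cons (fin 1294 4 1037)
(mv 972 (cons (fin 1036 7 972)
(mv 973 (cons (fin 908 7 908)
(fin 1166 4 973)))))))))
(mv 1293 (cons (fin 1102 6 1037)
(mv 1294 (cons (fin 1358 4 1101)
(fin 1230 4 1037))))))))
(cons (mv 1229 (cons (fin 974 6 973)
(mv 1293 (cons (fin 1102 6 1037)
(mv 1294 (cons (fin 1358 4 1101)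
(fin 1230 4 1037)))))))
(mv 1229 (cons (fin 974 6 973)
(mv 1292 (cons (fin 1228 5 1036)
(mv 1356 (cons (fin 1293 5 1100)
(mv 1230 (cons (fin 1294 4 1037)
(mv 972 (cons (fin 1036 7 972)
(mv 973 (cons (fin 908 7 908)
(fin 1166 4 973)))))))))))))))))
(mv 1039 (cons (cons (mv 1104 (cons (fin 1105 0 1037)
(mv 972 (cons (fin 973 3 972)
(mv 1036 (cons (fin 971 3 971)
(mv 976 (cons (fin 975 2 972)
(fin 977 2 973)))))))))
(mv 1104 (cons (fin 1105 0 1037)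
(mv 976 (cons (fin 977 2 973)
(mv 975 (cons (fin 1036 2 972)
(mv 1168 (cons (fin 1232 7 975)
(fin 911 7 911))))))))))
(cons (mv 1104 (cons (fin 1105 0 1037)
(mv 973 (cons (fin 972 3 972)
(mv 909 (cons (mv 1102 (cons (fin 1166 4 909)
(fin 845 4 845)))
(cons (mv 844 (cons (fin 908 7 844)
(mv 845 (cons (fin 780 7 780)
(mv 781 (cons (fin 974 4 781)
(mv 782 (cons (fin 846 6 781)
(fin 718 6 717)))))))))
(mv 1166 (cons (fin 1102 4 909)
(mv 1165 (cons (fin 1230 4 973)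
(mv 1228 (cons (fin 1164 5 972)
(mv 1229 (cons (fin 1292 5 1036)
(fin 974 6 973))))))))))))))))
(mv 972 (cons (fin 973 3 972)
(mv 1036 (cons (fin 971 3 971)
(mv 976 (cons (fin 975 2 972)
(fin 977 2 973))))))))))))
(cons (cons (mv 1039 (cons (fin 1100 1 1036)
(mv 1104 (cons (fin 1105 0 1037)
(mv 976 (cons (fin 977 2 973)
(mv 1036 (cons (fin 975 2 972)
(mv 971 (cons (fin 972 3 971)
(mv 1035 (cons (fin 970 3 970)
(mv 1098 (cons (fin 1099 1 1034)
(mv 1034 (cons (fin 1097 1 1033)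
(fin 1102 0 1034)))))))))))))))))
(mv 1039 (cons (fin 1100 1 1036)
(mv 1104 (cons (fin 1105 0 1037)
(mv 976 (cons (fin 977 2 973)
(mv 975 (cons (fin 1036 2 972)
(mv 1168 (cons (fin 1232 7 975)
(fin 911 7 911))))))))))))
(cons (mv 1039 (cons (fin 1100 1 1036)
(mv 1104 (cons (fin 1105 0 1037)
(mv 973 (cons (fin 972 3 972)
(mv 909 (cons (mv 1102 (cons (fin 1166 4 909)
(fin 845 4 845)))
(cons (mv 844 (cons (fin 908 7 844)
(mv 845 (cons (fin 780 7 780)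
(mv 781 (cons (fin 974 4 781)
(mv 782 (cons (fin 846 6 781)
(fin 718 6 717)))))))))
(mv 1166 (cons (fin 1102 4 909)
(mv 1165 (cons (fin 1230 4 973)
(mv 1228 (cons (fin 1164 5 972)
(mv 1229 (cons (fin 1292 5 1036)
(fin 974 6 973))))))))))))))))))
(mv 1039 (cons (fin 1100 1 1036)
(mv 972 (cons (fin 973 3 972)
(mv 1036 (cons (fin 971 3 971)
(mv 976 (cons (fin 975 2 972)
(fin 977 2 973)))))))))))))
(mv 1038 (cons (cons (mv 1039 (cons (fin 1100 1 1036)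
(mv 1104 (cons (fin 1105 0 1037)
(mv 1103 (cons (fin 1036 0 1036)
(mv 972 (cons (fin 973 3 972)
(mv 976 (cons (fin 977 2 973)
(mv 1167 (cons (fin 912 5 911)
(fin 1231 6 975)))))))))))))
(cons (mv 1165 (cons (cons (mv 1229 (cons (fin 974 6 973)
(mv 1293 (cons (fin 1102 6 1037)
(mv 1294 (cons (fin 1358 4 1101)
(fin 1230 4 1037)))))))
(mv 973 (cons (cons (cons (mv 1228 (cons (fin 1164 5 972)
(mv 1230 (cons (fin 1166 4 973)
(mv 908 (cons (fin 972 7 908)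
(mv 909 (cons (fin 844 7 844)
(mv 845 (cons (fin 1102 4 845)
(mv 1100 (cons (fin 1036 5 844)
(mv 1098 (cons (fin 1099 2 1034)
(mv 781 (cons (fin 974 4 781)
(mv 782 (cons (fin 846 6 781)
(fin 718 6 717)))))))))))))))))))
(mv 1228 (cons (fin 1164 5 972)
(mv 908 (cons (fin 972 7 908)
(mv 909 (cons (fin 844 7 844)
(mv 845 (cons (fin 1102 4 845)
(mv 1100 (cons (fin 1036 5 844)
(mv 1098 (cons (fin 1099 2 1034)
(mv 781 (cons (fin 974 4 781)
(mv 782 (cons (fin 846 6 781)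
(fin 718 6 717))))))))))))))))))
(cons (mv 1230 (cons (fin 1166 4 973)
(mv 908 (cons (fin 972 7 908)
(mv 909 (cons (fin 844 7 844)
(mv 845 (cons (fin 1102 4 845)
(mv 1100 (cons (fin 1036 5 844)
(mv 1098 (cons (fin 1099 2 1034)
(mv 781 (cons (fin 974 4 781)
(mv 782 (cons (fin 846 6 781)
(fin 718 6 717)))))))))))))))))
(mv 1228 (cons (fin 1164 5 972)
(mv 1166 (cons (fin 1230 4 973)
(mv 909 (cons (fin 1102 4 909)
(mv 844 (cons (fin 908 7 844)
(mv 845 (cons (fin 780 7 780)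
(mv 1100 (cons (fin 1036 5 844)
(mv 1167 (cons (fin 1168 3 1100)
(mv 1098 (cons (fin 1099 0 1098)
(mv 781 (cons (fin 974 4 781)
(mv 782 (cons (fin 846 6 781)
(fin 718 6 717)))))))))))))))))))))))
(cons (cons (mv 1230 (cons (fin 1166 4 973)
(mv 1164 (cons (fin 1228 5 972)
(mv 909 (cons (fin 1100 5 908)
(mv 845 (cons (fin 1102 4 845)
(mv 844 (cons (fin 780 7 780)
(mv 781 (cons (fin 974 4 781)
(mv 782 (cons (fin 846 6 781)
(fin 718 6 717)))))))))))))))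
(mv 1164 (cons (fin 1228 5 972)
(mv 1166 (cons (fin 1230 4 973)
(mv 972 (cons (fin 908 7 908)
(mv 970 (cons (fin 971 0 970)
(mv 1163 (cons (cons (mv 1102 (cons (fin 1162 2 1098)
(fin 1103 2 1099)))
(mv 1226 (cons (fin 1227 1 1162)
(mv 1225 (cons (fin 1162 1 1161)
(mv 1099 (cons (fin 1098 3 1098)
(mv 1167 (cons (fin 1100 3 1099)
(mv 1231 (cons (fin 1232 0 1164)
(mv 1104 (cons (fin 1103 2 1100)
(mv 1168 (cons (fin 1105 2 1101)
(fin 976 5 975))))))))))))))))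
(cons (mv 1226 (cons (fin 1227 1 1162)
(mv 1098 (cons (fin 1099 3 1098)
(mv 1103 (cons (fin 1102 2 1099)
(mv 1167 (cons (fin 1104 2 1100)
(mv 1232 (cons (fin 1231 0 1164)
(mv 1168 (cons (fin 1100 3 1100)
(fin 1233 0 1165)))))))))))))
(mv 1226 (cons (fin 1227 1 1162)
(mv 1162 (cons (fin 1225 1 1161)
(fin 1102 2 1098)))))))))))))))))
(cons (mv 1230 (cons (fin 1166 4 973)
(mv 1164 (cons (fin 1228 5 972)
(mv 1100 (cons (fin 909 5 908)
(mv 1098 (cons (fin 1099 2 1034)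
(mv 972 (cons (fin 908 7 908)
(mv 971 (cons (fin 970 0 970)
(mv 1036 (cons (fin 907 7 907)
(mv 1163 (cons (fin 1227 5 971)
(mv 1162 (cons (fin 1097 3 1097)
(fin 1161 2 1097)))))))))))))))))))
(mv 1228 (cons (fin 1164 5 972)
(mv 1230 (cons (fin 1166 4 973)
(mv 908 (cons (fin 972 7 908)
(mv 909 (cons (fin 844 7 844)
(mv 845 (cons (fin 1102 4 845)
(mv 781 (cons (fin 974 4 781)
(mv 782 (cons (fin 846 6 781)
(fin 718 6 717))))))))))))))))))))
(cons (mv 973 (cons (cons (mv 1228 (cons (fin 1164 5 972)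
(mv 1230 (cons (fin 1166 4 973)
(mv 1229 (cons (fin 1294 4 1037)
(mv 972 (cons (fin 1036 7 972)
(fin 908 7 908)))))))))
(cons (mv 1228 (cons (fin 1164 5 972)
(mv 972 (cons (fin 908 7 908)
(mv 1229 (cons (fin 1036 7 972)
(mv 1293 (cons (fin 1102 6 1037)
(mv 1294 (cons (fin 1358 4 1101)
(fin 1230 4 1037)))))))))))
(mv 1230 (cons (fin 1166 4 973)
(mv 1294 (cons (fin 1229 4 1037)
(mv 1164 (cons (fin 1228 5 972)
(mv 909 (cons (fin 1100 5 908)
(mv 844 (cons (fin 908 7 844)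
(mv 845 (cons (fin 780 7 780)
(fin 1102 4 845)))))))))))))))
(cons (cons (mv 1228 (cons (fin 1164 5 972)
(mv 972 (cons (fin 908 7 908)
(mv 1229 (cons (fin 1036 7 972)
(mv 1102 (cons (fin 1293 6 1037)
(mv 909 (cons (fin 1166 4 909)
(fin 845 4 845)))))))))))
(mv 1230 (cons (fin 1166 4 973)
(mv 1229 (cons (fin 1294 4 1037)
(mv 972 (cons (fin 1036 7 972)
(fin 908 7 908))))))))
(cons (mv 1228 (cons (fin 1164 5 972)
(mv 1230 (cons (fin 1166 4 973)
(mv 1229 (cons (fin 1294 4 1037)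
(mv 1293 (cons (fin 1102 6 1037)
(mv 1036 (cons (fin 1100 7 1036)
(fin 972 7 972)))))))))))
(mv 1228 (cons (fin 1164 5 972)
(mv 1166 (cons (fin 1230 4 973)
(mv 908 (cons (fin 972 7 908)
(mv 909 (cons (fin 844 7 844)
(fin 1102 4 909)))))))))))))
(cons (mv 1229 (cons (fin 974 6 973)
(mv 1293 (cons (fin 1102 6 1037)
(mv 1036 (cons (fin 1100 7 1036)
(fin 972 7 972)))))))
(mv 1229 (cons (fin 974 6 973)
(mv 1294 (cons (fin 1230 4 1037)
(mv 1293 (cons (fin 1358 4 1101)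
(mv 1036 (cons (fin 1100 7 1036)
(fin 972 7 972)))))))))))))
(mv 1039 (cons (cons (mv 1104 (cons (fin 1105 0 1037)
(mv 1103 (cons (fin 1036 0 1036)
(mv 972 (cons (fin 973 3 972)
(mv 976 (cons (fin 977 2 973)
(mv 1167 (cons (fin 912 5 911)
(fin 1231 6 975)))))))))))
(mv 972 (cons (fin 973 3 972)
(mv 1036 (cons (fin 971 3 971)
(mv 976 (cons (fin 975 2 972)
(fin 977 2 973))))))))
(cons (mv 1104 (cons (fin 1105 0 1037)
(mv 1103 (cons (fin 1036 0 1036)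
(mv 976 (cons (fin 977 2 973)
(mv 1167 (cons (fin 912 5 911)
(fin 1231 6 975)))))))))
(cons (mv 1104 (cons (fin 1105 0 1037)
(mv 1036 (cons (fin 1103 0 1036)
(mv 972 (cons (fin 971 3 971)
(fin 973 3 972)))))))
(mv 1104 (cons (fin 1105 0 1037)
(mv 972 (cons (fin 973 3 972)
(mv 976 (cons (fin 977 2 973)
(mv 1168 (cons (mv 975 (cons (fin 1232 7 975)
(fin 911 7 911)))
(cons (mv 1231 (cons (fin 1167 5 975)
(mv 1232 (cons (fin 1295 5 1039)
(mv 1233 (cons (fin 1297 4 1040)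
(fin 1169 4 976)))))))
(mv 1231 (cons (fin 1167 5 975)
(mv 1233 (cons (fin 1169 4 976)
(mv 911 (cons (fin 975 7 911)
(mv 912 (cons (fin 847 7 847)
(mv 848 (cons (fin 1103 5 847)
(mv 849 (cons (fin 913 6 848)
(fin 785 6 784))))))))))))))))))))))))))))
(cons (cons (mv 1039 (cons (fin 1100 1 1036)
(mv 1104 (cons (fin 1105 0 1037)
(mv 1103 (cons (fin 1036 0 1036)
(mv 976 (cons (fin 977 2 973)
(mv 1167 (cons (fin 912 5 911)
(fin 1231 6 975)))))))))))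
(mv 1039 (cons (fin 1100 1 1036)
(mv 972 (cons (fin 973 3 972)
(mv 1036 (cons (fin 971 3 971)
(mv 976 (cons (fin 975 2 972)
(fin 977 2 973))))))))))
(cons (mv 1039 (cons (fin 1100 1 1036)
(mv 1104 (cons (fin 1105 0 1037)
(mv 1036 (cons (fin 1103 0 1036)
(mv 972 (cons (fin 971 3 971)
(fin 973 3 972)))))))))
(mv 1039 (cons (fin 1100 1 1036)
(mv 1104 (cons (fin 1105 0 1037)
(mv 972 (cons (fin 973 3 972)
(mv 976 (cons (fin 977 2 973)
(mv 1168 (cons (mv 975 (cons (fin 1232 7 975)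
(fin 911 7 911)))
(cons (mv 1231 (cons (fin 1167 5 975)
(mv 1232 (cons (fin 1295 5 1039)
(mv 1233 (cons (fin 1297 4 1040)
(fin 1169 4 976)))))))
(mv 1231 (cons (fin 1167 5 975)
(mv 1233 (cons (fin 1169 4 976)
(mv 911 (cons (fin 975 7 911)
(mv 912 (cons (fin 847 7 847)
(mv 848 (cons (fin 1103 5 847)
(mv 849 (cons (fin 913 6 848)
(fin 785 6 784)))))))))))))))))))))))))))))))
(cons (cons (mv 1038 (cons (cons (mv 1039 (cons (fin 1100 1 1036)
(mv 1104 (cons (fin 1105 0 1037)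
(mv 1103 (cons (fin 1036 0 1036)
(mv 972 (cons (fin 973 3 972)
(mv 976 (cons (fin 977 2 973)
(mv 1167 (cons (fin 912 5 911)
(fin 1231 6 975)))))))))))))
(cons (mv 1165 (cons (cons (mv 1229 (cons (fin 974 6 973)
(mv 1292 (cons (fin 1228 5 1036)
(mv 1293 (cons (fin 1356 5 1100)
(fin 1102 6 1037)))))))
(mv 973 (cons (cons (mv 1230 (cons (fin 1166 4 973)
(mv 1164 (cons (fin 1228 5 972)
(mv 1100 (cons (fin 909 5 908)
(mv 1098 (cons (fin 1099 2 1034)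
(mv 972 (cons (fin 908 7 908)
(mv 971 (cons (fin 970 0 970)
(mv 1036 (cons (fin 907 7 907)
(mv 1163 (cons (fin 1227 5 971)
(mv 1162 (cons (fin 1097 3 1097)
(fin 1161 2 1097)))))))))))))))))))
(cons (mv 1164 (cons (fin 1228 5 972)
(mv 1100 (cons (fin 909 5 908)
(mv 1098 (cons (fin 1099 2 1034)
(mv 972 (cons (fin 908 7 908)
(mv 971 (cons (fin 970 0 970)
(mv 1036 (cons (fin 907 7 907)
(mv 1163 (cons (fin 1227 5 971)
(mv 1162 (cons (fin 1097 3 1097)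
(fin 1161 2 1097)))))))))))))))))
(mv 1166 (cons (fin 1230 4 973)
(mv 1102 (cons (fin 909 4 909)
(mv 972 (cons (fin 908 7 908)
(mv 970 (cons (fin 971 0 970)
(mv 1167 (cons (mv 1168 (cons (fin 1100 3 1100)
(fin 1169 3 1101)))
(mv 1231 (cons (fin 974 4 974)
(mv 1295 (cons (fin 1359 7 1102)
(fin 1103 7 1038)))))))))))))))))
(cons (mv 1230 (cons (fin 1166 4 973)
(mv 1164 (cons (fin 1228 5 972)
(mv 909 (cons (fin 1100 5 908)
(mv 845 (cons (fin 1102 4 845)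
(mv 781 (cons (fin 974 4 781)
(mv 782 (cons (fin 846 6 781)
(fin 718 6 717)))))))))))))
(cons (mv 1164 (cons (fin 1228 5 972)
(mv 1166 (cons (fin 1230 4 973)
(mv 972 (cons (fin 908 7 908)
(mv 970 (cons (fin 971 0 970)
(mv 1163 (cons (cons (mv 1102 (cons (fin 1162 2 1098)
(fin 1103 2 1099)))
(mv 1226 (cons (fin 1227 1 1162)
(mv 1225 (cons (fin 1162 1 1161)
(mv 1099 (cons (fin 1098 3 1098)
(mv 1167 (cons (fin 1100 3 1099)
(mv 1231 (cons (fin 1232 0 1164)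
(mv 1104 (cons (fin 1103 2 1100)
(mv 1168 (cons (fin 1105 2 1101)
(fin 976 5 975))))))))))))))))
(cons (mv 1226 (cons (fin 1227 1 1162)
(mv 1098 (cons (fin 1099 3 1098)
(mv 1103 (cons (fin 1102 2 1099)
(mv 1167 (cons (fin 1104 2 1100)
(mv 1232 (cons (fin 1231 0 1164)
(mv 1168 (cons (fin 1100 3 1100)
(fin 1233 0 1165)))))))))))))
(mv 1226 (cons (fin 1227 1 1162)
(mv 1162 (cons (fin 1225 1 1161)
(fin 1102 2 1098))))))))))))))))
(mv 1164 (cons (fin 1228 5 972)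
(mv 1166 (cons (fin 1230 4 973)
(mv 1102 (cons (fin 909 4 909)
(mv 1163 (cons (fin 1162 2 1098)
(fin 1103 2 1099))))))))))))))
(cons (mv 1229 (cons (mv 1292 (cons (fin 1228 5 1036)
(mv 1293 (cons (fin 1356 5 1100)
(fin 1102 6 1037)))))
(cons (mv 1292 (cons (fin 1228 5 1036)
(mv 1230 (cons (fin 1294 4 1037)
(mv 972 (cons (fin 1036 7 972)
(mv 973 (cons (fin 908 7 908)
(fin 1166 4 973)))))))))
(mv 1293 (cons (fin 1102 6 1037)
(mv 1294 (cons (fin 1358 4 1101)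
(fin 1230 4 1037))))))))
(cons (mv 1229 (cons (fin 974 6 973)
(mv 1293 (cons (fin 1102 6 1037)
(mv 1294 (cons (fin 1358 4 1101)
(fin 1230 4 1037)))))))
(mv 1229 (cons (fin 974 6 973)
(mv 1292 (cons (fin 1228 5 1036)
(mv 1356 (cons (fin 1293 5 1100)
(mv 1230 (cons (fin 1294 4 1037)
(mv 972 (cons (fin 1036 7 972)
(mv 973 (cons (fin 908 7 908)
(fin 1166 4 973)))))))))))))))))
(mv 1039 (cons (cons (mv 1104 (cons (fin 1105 0 1037)
(mv 1103 (cons (fin 1036 0 1036)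
(mv 972 (cons (fin 973 3 972)
(mv 976 (cons (fin 977 2 973)
(mv 1167 (cons (fin 912 5 911)
(fin 1231 6 975)))))))))))
(mv 972 (cons (fin 973 3 972)
(mv 1036 (cons (fin 971 3 971)
(mv 976 (cons (fin 975 2 972)
(fin 977 2 973))))))))
(cons (mv 1104 (cons (fin 1105 0 1037)
(mv 1036 (cons (fin 1103 0 1036)
(mv 972 (cons (fin 971 3 971)
(fin 973 3 972)))))))
(cons (mv 1104 (cons (fin 1105 0 1037)
(mv 1103 (cons (fin 1036 0 1036)
(mv 976 (cons (fin 977 2 973)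
(mv 1167 (cons (fin 912 5 911)
(fin 1231 6 975)))))))))
(mv 1104 (cons (fin 1105 0 1037)
(mv 972 (cons (fin 973 3 972)
(mv 976 (cons (fin 977 2 973)
(mv 1168 (cons (mv 975 (cons (fin 1232 7 975)
(fin 911 7 911)))
(cons (mv 1231 (cons (fin 1167 5 975)
(mv 1232 (cons (fin 1295 5 1039)
(mv 1233 (cons (fin 1297 4 1040)
(fin 1169 4 976)))))))
(mv 1231 (cons (fin 1167 5 975)
(mv 1233 (cons (fin 1169 4 976)
(mv 911 (cons (fin 975 7 911)
(mv 912 (cons (fin 847 7 847)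
(mv 848 (cons (fin 1103 5 847)
(mv 849 (cons (fin 913 6 848)
(fin 785 6 784))))))))))))))))))))))))))))
(cons (cons (mv 1039 (cons (fin 1100 1 1036)
(mv 1104 (cons (fin 1105 0 1037)
(mv 1103 (cons (fin 1036 0 1036)
(mv 976 (cons (fin 977 2 973)
(mv 1167 (cons (fin 912 5 911)
(fin 1231 6 975)))))))))))
(mv 1039 (cons (fin 1100 1 1036)
(mv 972 (cons (fin 973 3 972)
(mv 1036 (cons (fin 971 3 971)
(mv 976 (cons (fin 975 2 972)
(fin 977 2 973))))))))))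
(cons (mv 1039 (cons (fin 1100 1 1036)
(mv 1104 (cons (fin 1105 0 1037)
(mv 1036 (cons (fin 1103 0 1036)
(mv 972 (cons (fin 971 3 971)
(fin 973 3 972)))))))))
(mv 1039 (cons (fin 1100 1 1036)
(mv 1104 (cons (fin 1105 0 1037)
(mv 972 (cons (fin 973 3 972)
(mv 976 (cons (fin 977 2 973)
(mv 1168 (cons (mv 975 (cons (fin 1232 7 975)
(fin 911 7 911)))
(cons (mv 1231 (cons (fin 1167 5 975)
(mv 1232 (cons (fin 1295 5 1039)
(mv 1233 (cons (fin 1297 4 1040)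
(fin 1169 4 976)))))))
(mv 1231 (cons (fin 1167 5 975)
(mv 1233 (cons (fin 1169 4 976)
(mv 911 (cons (fin 975 7 911)
(mv 912 (cons (fin 847 7 847)
(mv 848 (cons (fin 1103 5 847)
(mv 849 (cons (fin 913 6 848)
(fin 785 6 784))))))))))))))))))))))))))))
(cons (mv 1038 (cons (cons (mv 1039 (cons (fin 1100 1 1036)
(mv 1104 (cons (fin 1105 0 1037)
(mv 1036 (cons (fin 1103 0 1036)
(mv 972 (cons (fin 971 3 971)
(fin 973 3 972)))))))))
(cons (mv 1165 (cons (cons (mv 1229 (cons (fin 974 6 973)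
(mv 1292 (cons (fin 1228 5 1036)
(mv 1293 (cons (fin 1356 5 1100)
(fin 1102 6 1037)))))))
(mv 973 (cons (cons (cons (mv 1228 (cons (fin 1164 5 972)
(mv 1230 (cons (fin 1166 4 973)
(mv 908 (cons (fin 972 7 908)
(mv 909 (cons (fin 844 7 844)
(mv 845 (cons (fin 1102 4 845)
(mv 1100 (cons (fin 1036 5 844)
(mv 1098 (cons (fin 1099 2 1034)
(mv 781 (cons (fin 974 4 781)
(mv 782 (cons (fin 846 6 781)
(fin 718 6 717)))))))))))))))))))
(mv 1228 (cons (fin 1164 5 972)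
(mv 908 (cons (fin 972 7 908)
(mv 909 (cons (fin 844 7 844)
(mv 845 (cons (fin 1102 4 845)
(mv 1100 (cons (fin 1036 5 844)
(mv 1098 (cons (fin 1099 2 1034)
(mv 781 (cons (fin 974 4 781)
(mv 782 (cons (fin 846 6 781)
(fin 718 6 717))))))))))))))))))
(cons (mv 1230 (cons (fin 1166 4 973)
(mv 908 (cons (fin 972 7 908)
(mv 909 (cons (fin 844 7 844)
(mv 845 (cons (fin 1102 4 845)
(mv 1100 (cons (fin 1036 5 844)
(mv 1098 (cons (fin 1099 2 1034)
(mv 781 (cons (fin 974 4 781)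
(mv 782 (cons (fin 846 6 781)
(fin 718 6 717)))))))))))))))))
(mv 1228 (cons (fin 1164 5 972)
(mv 1166 (cons (fin 1230 4 973)
(mv 909 (cons (fin 1102 4 909)
(mv 844 (cons (fin 908 7 844)
(mv 845 (cons (fin 780 7 780)
(mv 1100 (cons (fin 1036 5 844)
(mv 1167 (cons (fin 1168 3 1100)
(mv 1098 (cons (fin 1099 0 1098)
(mv 781 (cons (fin 974 4 781)
(mv 782 (cons (fin 846 6 781)
(fin 718 6 717)))))))))))))))))))))))
(cons (cons (mv 1230 (cons (fin 1166 4 973)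
(mv 1164 (cons (fin 1228 5 972)
(mv 909 (cons (fin 1100 5 908)
(mv 845 (cons (fin 1102 4 845)
(mv 844 (cons (fin 780 7 780)
(mv 781 (cons (fin 974 4 781)
(mv 782 (cons (fin 846 6 781)
(fin 718 6 717)))))))))))))))
(mv 1164 (cons (fin 1228 5 972)
(mv 1166 (cons (fin 1230 4 973)
(mv 972 (cons (fin 908 7 908)
(mv 970 (cons (fin 971 0 970)
(mv 1163 (cons (cons (mv 1102 (cons (fin 1162 2 1098)
(fin 1103 2 1099)))
(mv 1226 (cons (fin 1227 1 1162)
(mv 1225 (cons (fin 1162 1 1161)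
(mv 1099 (cons (fin 1098 3 1098)
(mv 1167 (cons (fin 1100 3 1099)
(mv 1232 (cons (fin 1231 0 1164)
(mv 1168 (cons (fin 1233 0 1165)
(mv 1104 (cons (fin 1103 2 1100)
(fin 1105 2 1101))))))))))))))))
(cons (mv 1226 (cons (fin 1227 1 1162)
(mv 1098 (cons (fin 1099 3 1098)
(mv 1103 (cons (fin 1102 2 1099)
(mv 1167 (cons (fin 1104 2 1100)
(mv 1232 (cons (fin 1231 0 1164)
(mv 1168 (cons (fin 1100 3 1100)
(fin 1233 0 1165)))))))))))))
(mv 1226 (cons (fin 1227 1 1162)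
(mv 1162 (cons (fin 1225 1 1161)
(fin 1102 2 1098)))))))))))))))))
(cons (mv 1230 (cons (fin 1166 4 973)
(mv 1164 (cons (fin 1228 5 972)
(mv 1100 (cons (fin 909 5 908)
(mv 1098 (cons (fin 1099 2 1034)
(mv 972 (cons (fin 908 7 908)
(mv 971 (cons (fin 970 0 970)
(mv 1036 (cons (fin 907 7 907)
(mv 1163 (cons (fin 1227 5 971)
(mv 1162 (cons (fin 1097 3 1097)
(fin 1161 2 1097)))))))))))))))))))
(mv 1228 (cons (fin 1164 5 972)
(mv 1230 (cons (fin 1166 4 973)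
(mv 908 (cons (fin 972 7 908)
(mv 909 (cons (fin 844 7 844)
(mv 845 (cons (fin 1102 4 845)
(mv 781 (cons (fin 974 4 781)
(mv 782 (cons (fin 846 6 781)
(fin 718 6 717))))))))))))))))))))
(cons (mv 1229 (cons (mv 1292 (cons (fin 1228 5 1036)
(mv 1293 (cons (fin 1356 5 1100)
(fin 1102 6 1037)))))
(cons (mv 1292 (cons (fin 1228 5 1036)
(mv 1230 (cons (fin 1294 4 1037)
(mv 972 (cons (fin 1036 7 972)
(mv 973 (cons (fin 908 7 908)
(fin 1166 4 973)))))))))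
(mv 1293 (cons (fin 1102 6 1037)
(mv 1294 (cons (fin 1358 4 1101)
(fin 1230 4 1037))))))))
(cons (mv 1229 (cons (fin 974 6 973)
(mv 1293 (cons (fin 1102 6 1037)
(mv 1294 (cons (fin 1358 4 1101)
(fin 1230 4 1037)))))))
(mv 1229 (cons (fin 974 6 973)
(mv 1292 (cons (fin 1228 5 1036)
(mv 1356 (cons (fin 1293 5 1100)
(mv 1230 (cons (fin 1294 4 1037)
(mv 972 (cons (fin 1036 7 972)
(mv 973 (cons (fin 908 7 908)
(fin 1166 4 973)))))))))))))))))
(mv 1039 (cons (mv 1104 (cons (fin 1105 0 1037)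
(mv 1036 (cons (fin 1103 0 1036)
(mv 972 (cons (fin 971 3 971)
(fin 973 3 972)))))))
(cons (mv 973 (cons (fin 972 3 972)
(mv 909 (cons (mv 1102 (cons (fin 1166 4 909)
(fin 845 4 845)))
(cons (mv 844 (cons (fin 908 7 844)
(mv 845 (cons (fin 780 7 780)
(mv 781 (cons (fin 974 4 781)
(mv 782 (cons (fin 846 6 781)
(fin 718 6 717)))))))))
(mv 1166 (cons (fin 1102 4 909)
(mv 1165 (cons (fin 1230 4 973)
(mv 1228 (cons (fin 1164 5 972)
(mv 1229 (cons (fin 1292 5 1036)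
(fin 974 6 973))))))))))))))
(mv 1104 (cons (fin 1105 0 1037)
(mv 1103 (cons (fin 1036 0 1036)
(mv 1168 (cons (mv 1232 (cons (fin 1296 7 1039)
(fin 975 7 975)))
(mv 1102 (cons (fin 1169 0 1101)
(mv 1165 (cons (fin 1164 1 1100)
(mv 1229 (cons (fin 1293 6 1037)
(fin 974 6 973))))))))))))))))))
(cons (mv 1039 (cons (fin 1100 1 1036)
(mv 1104 (cons (fin 1105 0 1037)
(mv 1036 (cons (fin 1103 0 1036)
(mv 971 (cons (fin 972 3 971)
(mv 1035 (cons (fin 970 3 970)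
(mv 1098 (cons (fin 1099 1 1034)
(mv 1034 (cons (fin 1097 1 1033)
(fin 1102 0 1034)))))))))))))))
(cons (mv 1039 (cons (fin 1100 1 1036)
(mv 1104 (cons (fin 1105 0 1037)
(mv 1103 (cons (fin 1036 0 1036)
(mv 1168 (cons (mv 1232 (cons (fin 1296 7 1039)
(fin 975 7 975)))
(mv 1102 (cons (fin 1169 0 1101)
(mv 1165 (cons (fin 1164 1 1100)
(mv 1229 (cons (fin 1293 6 1037)
(fin 974 6 973)))))))))))))))
(mv 1039 (cons (fin 1100 1 1036)
(mv 973 (cons (fin 972 3 972)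
(mv 909 (cons (mv 1102 (cons (fin 1166 4 909)
(fin 845 4 845)))
(cons (mv 844 (cons (fin 908 7 844)
(mv 845 (cons (fin 780 7 780)
(mv 781 (cons (fin 974 4 781)
(mv 782 (cons (fin 846 6 781)
(fin 718 6 717)))))))))
(mv 1166 (cons (fin 1102 4 909)
(mv 1165 (cons (fin 1230 4 973)
(mv 1228 (cons (fin 1164 5 972)
(mv 1229 (cons (fin 1292 5 1036)
(fin 974 6 973))))))))))))))))))))
(mv 1038 (cons (cons (mv 1100 (cons (fin 1039 1 1036)
(mv 1164 (cons (cons (mv 1228 (cons (fin 1292 6 1036)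
(mv 973 (cons (fin 1165 5 972)
(fin 909 5 908)))))
(mv 1228 (cons (fin 1292 6 1036)
(mv 1036 (cons (cons (mv 1291 (cons (fin 1227 5 1035)
(mv 1293 (cons (fin 1229 4 1036)
(mv 1035 (cons (fin 971 7 971)
(mv 1102 (cons (fin 1103 3 1035)
(fin 1034 0 1034)))))))))
(mv 1291 (cons (fin 1227 5 1035)
(mv 1229 (cons (fin 1293 4 1036)
(mv 1165 (cons (fin 972 7 972)
(fin 974 6 973))))))))
(cons (mv 1291 (cons (fin 1227 5 1035)
(mv 1035 (cons (fin 971 7 971)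
(mv 1102 (cons (fin 1103 3 1035)
(fin 1034 0 1034)))))))
(mv 1293 (cons (fin 1229 4 1036)
(mv 1035 (cons (fin 971 7 971)
(mv 1102 (cons (fin 1103 3 1035)
(fin 1034 0 1034)))))))))))))
(cons (mv 973 (cons (fin 909 5 908)
(mv 1165 (cons (mv 1229 (cons (fin 974 6 973)
(mv 1293 (cons (fin 1357 7 1100)
(fin 1036 7 1036)))))
(cons (mv 1230 (cons (fin 1166 4 973)
(mv 972 (cons (fin 908 7 908)
(mv 971 (cons (fin 970 0 970)
(mv 1036 (cons (fin 907 7 907)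
(mv 1163 (cons (fin 1227 5 971)
(mv 1162 (cons (fin 1161 2 1097)
(fin 1102 2 1098)))))))))))))
(mv 1229 (cons (fin 974 6 973)
(mv 1293 (cons (fin 1357 7 1100)
(fin 1102 6 1037))))))))))
(mv 1228 (cons (fin 1292 6 1036)
(mv 973 (cons (fin 909 5 908)
(fin 1036 6 972))))))))))
(cons (mv 1165 (cons (cons (mv 1229 (cons (fin 974 6 973)
(mv 1292 (cons (fin 1228 5 1036)
(mv 1293 (cons (fin 1356 5 1100)
(fin 1102 6 1037)))))))
(mv 973 (cons (cons (cons (mv 1228 (cons (fin 1164 5 972)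
(mv 1230 (cons (fin 1166 4 973)
(mv 908 (cons (fin 972 7 908)
(mv 909 (cons (fin 844 7 844)
(mv 845 (cons (fin 1102 4 845)
(mv 1100 (cons (fin 1036 5 844)
(mv 781 (cons (fin 974 4 781)
(mv 782 (cons (fin 846 6 781)
(fin 718 6 717)))))))))))))))))
(mv 1228 (cons (fin 1164 5 972)
(mv 908 (cons (fin 972 7 908)
(mv 909 (cons (fin 844 7 844)
(mv 845 (cons (fin 1102 4 845)
(mv 1100 (cons (fin 1036 5 844)
(mv 781 (cons (fin 974 4 781)
(mv 782 (cons (fin 846 6 781)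
(fin 718 6 717))))))))))))))))
(cons (mv 1230 (cons (fin 1166 4 973)
(mv 908 (cons (fin 972 7 908)
(mv 909 (cons (fin 844 7 844)
(mv 845 (cons (fin 1102 4 845)
(mv 1100 (cons (fin 1036 5 844)
(mv 781 (cons (fin 974 4 781)
(mv 782 (cons (fin 846 6 781)
(fin 718 6 717)))))))))))))))
(mv 1228 (cons (fin 1164 5 972)
(mv 1166 (cons (fin 1230 4 973)
(mv 909 (cons (fin 1102 4 909)
(mv 844 (cons (fin 908 7 844)
(mv 845 (cons (fin 780 7 780)
(mv 1100 (cons (fin 1036 5 844)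
(mv 1167 (cons (fin 1168 3 1100)
(mv 781 (cons (fin 974 4 781)
(mv 782 (cons (fin 846 6 781)
(fin 718 6 717)))))))))))))))))))))
(cons (cons (mv 1230 (cons (fin 1166 4 973)
(mv 1164 (cons (fin 1228 5 972)
(mv 909 (cons (fin 1100 5 908)
(mv 845 (cons (fin 1102 4 845)
(mv 844 (cons (fin 780 7 780)
(mv 781 (cons (fin 974 4 781)
(mv 782 (cons (fin 846 6 781)
(fin 718 6 717)))))))))))))))
(mv 1164 (cons (fin 1228 5 972)
(mv 1166 (cons (fin 1230 4 973)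
(mv 972 (cons (fin 908 7 908)
(mv 970 (cons (fin 971 0 970)
(mv 1103 (cons (mv 1102 (cons (fin 1104 1 1100)
(fin 1163 2 1099)))
(cons (mv 1167 (cons (fin 1104 2 1100)
(mv 1232 (cons (fin 1231 0 1164)
(mv 1168 (cons (fin 1100 3 1100)
(fin 1233 0 1165)))))))
(mv 1163 (cons (fin 1102 2 1099)
(mv 1226 (cons (fin 1227 1 1162)
(mv 1162 (cons (fin 1225 1 1161)
(mv 1161 (cons (fin 1100 2 1097)
(mv 1097 (cons (fin 1096 3 1096)
(fin 1098 3 1097)))))))))))))))))))))))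
(cons (mv 1230 (cons (fin 1166 4 973)
(mv 1164 (cons (fin 1228 5 972)
(mv 908 (cons (fin 972 7 908)
(mv 909 (cons (fin 1100 5 908)
(fin 844 7 844)))))))))
(mv 1228 (cons (fin 1164 5 972)
(mv 1230 (cons (fin 1166 4 973)
(mv 908 (cons (fin 972 7 908)
(mv 909 (cons (fin 844 7 844)
(mv 845 (cons (fin 1102 4 845)
(mv 781 (cons (fin 974 4 781)
(mv 782 (cons (fin 846 6 781)
(fin 718 6 717))))))))))))))))))))
(cons (mv 1229 (cons (mv 1292 (cons (fin 1228 5 1036)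
(mv 1293 (cons (fin 1356 5 1100)
(fin 1102 6 1037)))))
(cons (mv 1292 (cons (fin 1228 5 1036)
(mv 1230 (cons (fin 1294 4 1037)
(mv 972 (cons (fin 1036 7 972)
(mv 973 (cons (fin 908 7 908)
(fin 1166 4 973)))))))))
(mv 1293 (cons (fin 1102 6 1037)
(mv 1294 (cons (fin 1358 4 1101)
(fin 1230 4 1037))))))))
(cons (mv 1229 (cons (fin 974 6 973)
(mv 1293 (cons (fin 1102 6 1037)
(mv 1294 (cons (fin 1358 4 1101)
(fin 1230 4 1037)))))))
(mv 1229 (cons (fin 974 6 973)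
(mv 1292 (cons (fin 1228 5 1036)
(mv 1356 (cons (fin 1293 5 1100)
(mv 1230 (cons (fin 1294 4 1037)
(mv 972 (cons (fin 1036 7 972)
(mv 973 (cons (fin 908 7 908)
(fin 1166 4 973)))))))))))))))))
(mv 1039 (cons (cons (mv 1104 (cons (fin 1105 0 1037)
(mv 1103 (cons (fin 1036 0 1036)
(mv 972 (cons (fin 973 3 972)
(mv 976 (cons (fin 977 2 973)
(mv 1167 (cons (fin 912 5 911)
(fin 1231 6 975)))))))))))
(mv 972 (cons (fin 973 3 972)
(mv 1036 (cons (fin 971 3 971)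
(mv 976 (cons (fin 975 2 972)
(fin 977 2 973))))))))
(cons (mv 1104 (cons (fin 1105 0 1037)
(mv 1103 (cons (fin 1036 0 1036)
(mv 976 (cons (fin 977 2 973)
(mv 1167 (cons (fin 912 5 911)
(fin 1231 6 975)))))))))
(cons (mv 1104 (cons (fin 1105 0 1037)
(mv 1036 (cons (fin 1103 0 1036)
(mv 972 (cons (fin 971 3 971)
(fin 973 3 972)))))))
(mv 1104 (cons (fin 1105 0 1037)
(mv 972 (cons (fin 973 3 972)
(mv 976 (cons (fin 977 2 973)
(mv 1168 (cons (mv 975 (cons (fin 1232 7 975)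
(fin 911 7 911)))
(cons (mv 1231 (cons (fin 1167 5 975)
(mv 1232 (cons (fin 1295 5 1039)
(mv 1233 (cons (fin 1297 4 1040)
(fin 1169 4 976)))))))
(mv 1231 (cons (fin 1167 5 975)
(mv 1233 (cons (fin 1169 4 976)
(mv 911 (cons (fin 975 7 911)
(mv 912 (cons (fin 847 7 847)
(mv 848 (cons (fin 1103 5 847)
(mv 849 (cons (fin 913 6 848)
(fin 785 6 784))))))))))))))))))))))))))))
(cons (mv 1039 (cons (fin 1100 1 1036)
(mv 1104 (cons (fin 1105 0 1037)
(mv 1103 (cons (fin 1036 0 1036)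
(mv 976 (cons (fin 977 2 973)
(mv 1167 (cons (fin 912 5 911)
(fin 1231 6 975)))))))))))
(cons (mv 1039 (cons (fin 1100 1 1036)
(mv 1104 (cons (fin 1105 0 1037)
(mv 972 (cons (fin 973 3 972)
(mv 976 (cons (fin 977 2 973)
(mv 1168 (cons (mv 975 (cons (fin 1232 7 975)
(fin 911 7 911)))
(cons (mv 1231 (cons (fin 1167 5 975)
(mv 1232 (cons (fin 1295 5 1039)
(mv 1233 (cons (fin 1297 4 1040)
(fin 1169 4 976)))))))
(mv 1231 (cons (fin 1167 5 975)
(mv 1233 (cons (fin 1169 4 976)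
(mv 911 (cons (fin 975 7 911)
(mv 912 (cons (fin 847 7 847)
(mv 848 (cons (fin 1103 5 847)
(mv 849 (cons (fin 913 6 848)
(fin 785 6 784))))))))))))))))))))))))
(mv 1039 (cons (fin 1100 1 1036)
(mv 1104 (cons (fin 1105 0 1037)
(mv 972 (cons (fin 973 3 972)
(mv 1036 (cons (fin 971 3 971)
(mv 976 (cons (fin 975 2 972)
(fin 977 2 973)))))))))))))))))
(cons (cons (mv 1038 (cons (cons (mv 1039 (cons (fin 1100 1 1036)
(mv 1104 (cons (fin 1105 0 1037)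
(mv 1103 (cons (fin 1036 0 1036)
(mv 972 (cons (fin 973 3 972)
(mv 976 (cons (fin 977 2 973)
(mv 1167 (cons (fin 912 5 911)
(fin 1231 6 975)))))))))))))
(cons (mv 1165 (cons (cons (mv 1229 (cons (fin 974 6 973)
(mv 1292 (cons (fin 1228 5 1036)
(mv 1293 (cons (fin 1356 5 1100)
(fin 1102 6 1037)))))))
(mv 973 (cons (cons (cons (mv 1228 (cons (fin 1164 5 972)
(mv 1230 (cons (fin 1166 4 973)
(mv 908 (cons (fin 972 7 908)
(mv 909 (cons (fin 844 7 844)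
(mv 845 (cons (fin 1102 4 845)
(mv 1100 (cons (fin 1036 5 844)
(mv 1098 (cons (fin 1099 2 1034)
(mv 781 (cons (fin 974 4 781)
(mv 782 (cons (fin 846 6 781)
(fin 718 6 717)))))))))))))))))))
(mv 1228 (cons (fin 1164 5 972)
(mv 908 (cons (fin 972 7 908)
(mv 909 (cons (fin 844 7 844)
(mv 845 (cons (fin 1102 4 845)
(mv 1100 (cons (fin 1036 5 844)
(mv 1098 (cons (fin 1099 2 1034)
(mv 781 (cons (fin 974 4 781)
(mv 782 (cons (fin 846 6 781)
(fin 718 6 717))))))))))))))))))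
(cons (mv 1230 (cons (fin 1166 4 973)
(mv 908 (cons (fin 972 7 908)
(mv 909 (cons (fin 844 7 844)
(mv 845 (cons (fin 1102 4 845)
(mv 1100 (cons (fin 1036 5 844)
(mv 1098 (cons (fin 1099 2 1034)
(mv 781 (cons (fin 974 4 781)
(mv 782 (cons (fin 846 6 781)
(fin 718 6 717)))))))))))))))))
(mv 1228 (cons (fin 1164 5 972)
(mv 1166 (cons (fin 1230 4 973)
(mv 909 (cons (fin 1102 4 909)
(mv 844 (cons (fin 908 7 844)
(mv 845 (cons (fin 780 7 780)
(mv 1100 (cons (fin 1036 5 844)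
(mv 1098 (cons (fin 1099 0 1098)
(mv 781 (cons (fin 974 4 781)
(mv 782 (cons (fin 846 6 781)
(fin 718 6 717)))))))))))))))))))))
(cons (cons (mv 1230 (cons (fin 1166 4 973)
(mv 1164 (cons (fin 1228 5 972)
(mv 909 (cons (fin 1100 5 908)
(mv 845 (cons (fin 1102 4 845)
(mv 844 (cons (fin 780 7 780)
(mv 781 (cons (fin 974 4 781)
(mv 782 (cons (fin 846 6 781)
(fin 718 6 717)))))))))))))))
(mv 1164 (cons (fin 1228 5 972)
(mv 1166 (cons (fin 1230 4 973)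
(mv 972 (cons (fin 908 7 908)
(mv 970 (cons (fin 971 0 970)
(mv 1163 (cons (mv 1102 (cons (fin 1162 2 1098)
(fin 1103 2 1099)))
(cons (mv 1226 (cons (fin 1227 1 1162)
(mv 1162 (cons (fin 1225 1 1161)
(mv 1098 (cons (fin 1097 3 1097)
(fin 1099 3 1098)))))))
(mv 1226 (cons (fin 1227 1 1162)
(mv 1099 (cons (fin 1098 3 1098)
(mv 1167 (cons (fin 1100 3 1099)
(mv 1103 (cons (fin 1102 2 1099)
(fin 1104 2 1100)))))))))))))))))))))
(cons (mv 1230 (cons (fin 1166 4 973)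
(mv 1164 (cons (fin 1228 5 972)
(mv 1100 (cons (fin 909 5 908)
(mv 1098 (cons (fin 1099 2 1034)
(mv 972 (cons (fin 908 7 908)
(mv 971 (cons (fin 970 0 970)
(mv 1036 (cons (fin 907 7 907)
(mv 1163 (cons (fin 1227 5 971)
(mv 1162 (cons (fin 1097 3 1097)
(fin 1161 2 1097)))))))))))))))))))
(mv 1228 (cons (fin 1164 5 972)
(mv 1230 (cons (fin 1166 4 973)
(mv 908 (cons (fin 972 7 908)
(mv 909 (cons (fin 844 7 844)
(mv 845 (cons (fin 1102 4 845)
(mv 781 (cons (fin 974 4 781)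
(mv 782 (cons (fin 846 6 781)
(fin 718 6 717))))))))))))))))))))
(cons (mv 1229 (cons (mv 1292 (cons (fin 1228 5 1036)
(mv 1293 (cons (fin 1356 5 1100)
(fin 1102 6 1037)))))
(cons (mv 1292 (cons (fin 1228 5 1036)
(mv 1230 (cons (fin 1294 4 1037)
(mv 972 (cons (fin 1036 7 972)
(mv 973 (cons (fin 908 7 908)
(fin 1166 4 973)))))))))
(mv 1293 (cons (fin 1102 6 1037)
(mv 1294 (cons (fin 1358 4 1101)
(fin 1230 4 1037))))))))
(cons (mv 1229 (cons (fin 974 6 973)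
(mv 1293 (cons (fin 1102 6 1037)
(mv 1294 (cons (fin 1358 4 1101)
(fin 1230 4 1037)))))))
(mv 1229 (cons (fin 974 6 973)
(mv 1292 (cons (fin 1228 5 1036)
(mv 1356 (cons (fin 1293 5 1100)
(mv 1230 (cons (fin 1294 4 1037)
(mv 972 (cons (fin 1036 7 972)
(mv 973 (cons (fin 908 7 908)
(fin 1166 4 973)))))))))))))))))
(mv 1039 (cons (cons (mv 1104 (cons (fin 1105 0 1037)
(mv 1103 (cons (fin 1036 0 1036)
(mv 972 (cons (fin 973 3 972)
(mv 976 (cons (fin 977 2 973)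
(mv 1167 (cons (fin 912 5 911)
(fin 1231 6 975)))))))))))
(mv 1104 (cons (fin 1105 0 1037)
(mv 1103 (cons (fin 1036 0 1036)
(mv 976 (cons (fin 977 2 973)
(mv 1167 (cons (fin 912 5 911)
(fin 1231 6 975))))))))))
(cons (mv 1104 (cons (fin 1105 0 1037)
(mv 1036 (cons (fin 1103 0 1036)
(mv 972 (cons (fin 971 3 971)
(fin 973 3 972)))))))
(cons (mv 972 (cons (fin 973 3 972)
(mv 1036 (cons (fin 971 3 971)
(mv 976 (cons (fin 975 2 972)
(fin 977 2 973)))))))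
(mv 1104 (cons (fin 1105 0 1037)
(mv 973 (cons (fin 972 3 972)
(mv 976 (cons (fin 977 2 973)
(mv 912 (cons (mv 1103 (cons (fin 1167 5 911)
(fin 848 5 847)))
(mv 911 (cons (fin 847 7 847)
(mv 913 (cons (fin 849 6 848)
(mv 974 (cons (fin 975 2 909)
(mv 1165 (cons (fin 1229 6 973)
(mv 1228 (cons (fin 1164 5 972)
(mv 1166 (cons (fin 1230 4 973)
(mv 909 (cons (fin 1102 7 909)
(mv 844 (cons (fin 908 7 844)
(mv 845 (cons (fin 780 7 780)
(fin 781 4 781)))))))))))))))))))))))))))))))))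
(cons (mv 1039 (cons (fin 1100 1 1036)
(mv 1104 (cons (fin 1105 0 1037)
(mv 1103 (cons (fin 1036 0 1036)
(mv 976 (cons (fin 977 2 973)
(mv 1167 (cons (fin 912 5 911)
(fin 1231 6 975)))))))))))
(cons (mv 1039 (cons (fin 1100 1 1036)
(mv 972 (cons (fin 973 3 972)
(mv 1036 (cons (fin 971 3 971)
(mv 976 (cons (fin 975 2 972)
(fin 977 2 973)))))))))
(mv 1039 (cons (fin 1100 1 1036)
(mv 1104 (cons (fin 1105 0 1037)
(mv 973 (cons (fin 972 3 972)
(mv 976 (cons (fin 977 2 973)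
(mv 912 (cons (mv 1103 (cons (fin 1167 5 911)
(fin 848 5 847)))
(mv 911 (cons (fin 847 7 847)
(mv 913 (cons (fin 849 6 848)
(mv 974 (cons (fin 975 2 909)
(mv 1165 (cons (fin 1229 6 973)
(mv 1228 (cons (fin 1164 5 972)
(mv 1166 (cons (fin 1230 4 973)
(mv 909 (cons (fin 1102 7 909)
(mv 844 (cons (fin 908 7 844)
(mv 845 (cons (fin 780 7 780)
(fin 781 4 781)))))))))))))))))))))))))))))))))
(mv 1038 (cons (cons (cons (mv 1039 (cons (fin 1100 1 1036)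
(mv 1104 (cons (fin 1105 0 1037)
(mv 1103 (cons (fin 1036 0 1036)
(mv 972 (cons (fin 973 3 972)
(mv 976 (cons (fin 977 2 973)
(mv 912 (cons (fin 848 5 847)
(mv 911 (cons (fin 847 7 847)
(mv 1168 (cons (fin 975 7 911)
(mv 1169 (cons (fin 1102 0 1101)
(fin 1233 4 976)))))))))))))))))))
(mv 1165 (cons (cons (mv 1229 (cons (fin 974 6 973)
(mv 1292 (cons (fin 1228 5 1036)
(mv 1293 (cons (fin 1356 5 1100)
(fin 1102 6 1037)))))))
(mv 973 (cons (cons (mv 1228 (cons (fin 1164 5 972)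
(mv 1230 (cons (fin 1166 4 973)
(mv 908 (cons (fin 972 7 908)
(mv 909 (cons (fin 844 7 844)
(mv 845 (cons (fin 1102 4 845)
(mv 1100 (cons (fin 1036 5 844)
(mv 1098 (cons (fin 1099 2 1034)
(mv 781 (cons (fin 974 4 781)
(mv 782 (cons (fin 846 6 781)
(fin 718 6 717)))))))))))))))))))
(cons (mv 1228 (cons (fin 1164 5 972)
(mv 908 (cons (fin 972 7 908)
(mv 909 (cons (fin 844 7 844)
(mv 845 (cons (fin 1102 4 845)
(mv 1100 (cons (fin 1036 5 844)
(mv 1098 (cons (fin 1099 2 1034)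
(mv 781 (cons (fin 974 4 781)
(mv 782 (cons (fin 846 6 781)
(fin 718 6 717)))))))))))))))))
(mv 1230 (cons (fin 1166 4 973)
(mv 908 (cons (fin 972 7 908)
(mv 909 (cons (fin 844 7 844)
(mv 845 (cons (fin 1102 4 845)
(mv 1100 (cons (fin 1036 5 844)
(mv 1098 (cons (fin 1099 2 1034)
(mv 781 (cons (fin 974 4 781)
(mv 782 (cons (fin 846 6 781)
(fin 718 6 717)))))))))))))))))))
(cons (cons (mv 1228 (cons (fin 1164 5 972)
(mv 1166 (cons (fin 1230 4 973)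
(mv 909 (cons (fin 1102 4 909)
(mv 844 (cons (fin 908 7 844)
(mv 845 (cons (fin 780 7 780)
(mv 1100 (cons (fin 1036 5 844)
(mv 1098 (cons (fin 1099 0 1098)
(mv 781 (cons (fin 974 4 781)
(mv 782 (cons (fin 846 6 781)
(fin 718 6 717)))))))))))))))))))
(mv 1230 (cons (fin 1166 4 973)
(mv 1164 (cons (fin 1228 5 972)
(mv 909 (cons (fin 1100 5 908)
(mv 845 (cons (fin 1102 4 845)
(mv 844 (cons (fin 780 7 780)
(mv 781 (cons (fin 974 4 781)
(mv 782 (cons (fin 846 6 781)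
(fin 718 6 717))))))))))))))))
(cons (mv 1164 (cons (fin 1228 5 972)
(mv 1166 (cons (fin 1230 4 973)
(mv 972 (cons (fin 908 7 908)
(mv 970 (cons (fin 971 0 970)
(mv 1163 (cons (mv 1102 (cons (fin 1162 2 1098)
(fin 1103 2 1099)))
(cons (mv 1226 (cons (fin 1227 1 1162)
(mv 1162 (cons (fin 1225 1 1161)
(mv 1098 (cons (fin 1097 3 1097)
(fin 1099 3 1098)))))))
(mv 1227 (cons (fin 1226 1 1162)
(mv 1099 (cons (fin 1098 3 1098)
(mv 1035 (cons (fin 1034 7 970)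
(fin 1036 6 971))))))))))))))))))
(mv 1230 (cons (fin 1166 4 973)
(mv 1164 (cons (fin 1228 5 972)
(mv 1100 (cons (fin 909 5 908)
(mv 1098 (cons (fin 1099 2 1034)
(mv 972 (cons (fin 908 7 908)
(mv 971 (cons (fin 970 0 970)
(mv 1036 (cons (fin 907 7 907)
(mv 1163 (cons (fin 1227 5 971)
(mv 1162 (cons (fin 1097 3 1097)
(fin 1161 2 1097))))))))))))))))))))))))
(cons (mv 1229 (cons (mv 1292 (cons (fin 1228 5 1036)
(mv 1293 (cons (fin 1356 5 1100)
(fin 1102 6 1037)))))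
(cons (mv 1292 (cons (fin 1228 5 1036)
(mv 1230 (cons (fin 1294 4 1037)
(mv 972 (cons (fin 1036 7 972)
(mv 973 (cons (fin 908 7 908)
(fin 1166 4 973)))))))))
(mv 1293 (cons (fin 1102 6 1037)
(mv 1294 (cons (fin 1358 4 1101)
(fin 1230 4 1037))))))))
(cons (mv 1229 (cons (fin 974 6 973)
(mv 1293 (cons (fin 1102 6 1037)
(mv 1294 (cons (fin 1358 4 1101)
(fin 1230 4 1037)))))))
(mv 1229 (cons (fin 974 6 973)
(mv 1292 (cons (fin 1228 5 1036)
(mv 1356 (cons (fin 1293 5 1100)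
(mv 1230 (cons (fin 1294 4 1037)
(mv 972 (cons (fin 1036 7 972)
(mv 973 (cons (fin 908 7 908)
(fin 1166 4 973))))))))))))))))))
(cons (mv 1039 (cons (cons (mv 1104 (cons (fin 1105 0 1037)
(mv 1103 (cons (fin 1036 0 1036)
(mv 972 (cons (fin 973 3 972)
(mv 976 (cons (fin 977 2 973)
(mv 912 (cons (fin 848 5 847)
(mv 911 (cons (fin 847 7 847)
(mv 1168 (cons (fin 975 7 911)
(mv 1169 (cons (fin 1102 0 1101)
(fin 1233 4 976)))))))))))))))))
(mv 972 (cons (fin 973 3 972)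
(mv 1036 (cons (fin 971 3 971)
(mv 976 (cons (fin 975 2 972)
(fin 977 2 973))))))))
(cons (mv 1104 (cons (fin 1105 0 1037)
(mv 1103 (cons (fin 1036 0 1036)
(mv 976 (cons (fin 977 2 973)
(mv 912 (cons (fin 848 5 847)
(mv 911 (cons (fin 847 7 847)
(mv 1168 (cons (fin 975 7 911)
(mv 1169 (cons (fin 1102 0 1101)
(fin 1233 4 976)))))))))))))))
(cons (mv 1104 (cons (fin 1105 0 1037)
(mv 1036 (cons (fin 1103 0 1036)
(mv 972 (cons (fin 971 3 971)
(fin 973 3 972)))))))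
(mv 1104 (cons (fin 1105 0 1037)
(mv 972 (cons (fin 973 3 972)
(mv 976 (cons (fin 977 2 973)
(mv 1168 (cons (mv 975 (cons (fin 1232 7 975)
(fin 911 7 911)))
(cons (mv 1233 (cons (fin 1169 4 976)
(mv 1232 (cons (fin 1297 4 1040)
(mv 1295 (cons (fin 1231 5 1039)
(mv 1296 (cons (fin 1359 5 1103)
(fin 1103 7 1039)))))))))
(mv 1233 (cons (fin 1169 4 976)
(mv 911 (cons (fin 975 7 911)
(mv 912 (cons (fin 847 7 847)
(mv 848 (cons (fin 1103 5 847)
(mv 849 (cons (fin 913 6 848)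
(fin 785 6 784))))))))))))))))))))))))
(mv 1100 (cons (fin 1039 1 1036)
(mv 1099 (cons (fin 1098 2 1034)
(mv 1102 (cons (cons (mv 1162 (cons (fin 1163 1 1098)
(mv 1035 (cons (fin 1034 3 1034)
(mv 1103 (cons (fin 1036 3 1035)
(mv 1104 (cons (fin 1105 3 1037)
(mv 1165 (cons (fin 1164 1 1100)
(mv 1229 (cons (fin 1293 6 1037)
(fin 974 6 973)))))))))))))
(cons (mv 1163 (cons (fin 1162 1 1098)
(mv 1103 (cons (fin 1164 1 1099)
(mv 1104 (cons (fin 1036 3 1036)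
(fin 1105 3 1037)))))))
(mv 1035 (cons (fin 1034 3 1034)
(mv 1103 (cons (fin 1036 3 1035)
(mv 1104 (cons (fin 1105 3 1037)
(mv 1165 (cons (fin 1164 1 1100)
(mv 1229 (cons (fin 1293 6 1037)
(fin 974 6 973)))))))))))))
(cons (mv 1163 (cons (fin 1162 1 1098)
(mv 1035 (cons (fin 1034 3 1034)
(mv 1036 (cons (mv 1227 (cons (fin 1291 6 1035)
(fin 972 6 971)))
(cons (mv 1291 (cons (fin 1227 6 1035)
(mv 971 (cons (fin 970 3 970)
(mv 1164 (cons (fin 1228 7 971)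
(fin 907 4 907)))))))
(mv 971 (cons (fin 970 3 970)
(mv 1164 (cons (fin 1228 7 971)
(fin 907 4 907))))))))))))
(cons (mv 1163 (cons (fin 1162 1 1098)
(mv 1164 (cons (fin 1103 1 1099)
(mv 1228 (cons (fin 1292 6 1036)
(mv 1035 (cons (fin 1034 3 1034)
(fin 971 4 971)))))))))
(mv 1162 (cons (fin 1163 1 1098)
(mv 1035 (cons (fin 1034 3 1034)
(mv 1036 (cons (fin 1103 3 1035)
(mv 971 (cons (fin 970 3 970)
(mv 974 (cons (fin 975 2 971)
(mv 1165 (cons (fin 1229 6 973)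
(mv 907 (cons (fin 843 4 843)
(mv 908 (cons (fin 972 4 908)
(fin 844 6 843)))))))))))))))))))))))))))
(cons (cons (mv 1039 (cons (fin 1100 1 1036)
(mv 1104 (cons (fin 1105 0 1037)
(mv 1103 (cons (fin 1036 0 1036)
(mv 976 (cons (fin 977 2 973)
(mv 912 (cons (fin 848 5 847)
(mv 911 (cons (fin 847 7 847)
(mv 1168 (cons (fin 975 7 911)
(mv 1169 (cons (fin 1102 0 1101)
(fin 1233 4 976)))))))))))))))))
(mv 1100 (cons (fin 1039 1 1036)
(mv 1099 (cons (fin 1098 2 1034)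
(mv 1164 (cons (cons (mv 1228 (cons (fin 1292 6 1036)
(mv 973 (cons (fin 1165 5 972)
(fin 909 5 908)))))
(mv 973 (cons (fin 909 5 908)
(mv 1102 (cons (mv 1163 (cons (fin 1162 1 1098)
(fin 1103 1 1099)))
(mv 1230 (cons (fin 1166 7 973)
(mv 1035 (cons (fin 1034 3 1034)
(mv 971 (cons (fin 907 4 907)
(mv 972 (cons (fin 970 0 970)
(mv 1165 (cons (fin 908 7 908)
(mv 1229 (cons (fin 1294 4 1037)
(fin 1293 6 1037))))))))))))))))))
(cons (mv 1292 (cons (fin 1228 6 1036)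
(mv 1163 (cons (mv 1162 (cons (fin 1102 1 1098)
(fin 1161 2 1097)))
(cons (mv 1102 (cons (fin 1103 1 1099)
(mv 1035 (cons (fin 1034 3 1034)
(mv 971 (cons (fin 907 4 907)
(mv 970 (cons (fin 906 7 906)
(mv 972 (cons (fin 908 6 907)
(mv 1227 (cons (mv 1291 (cons (fin 1356 4 1099)
(fin 1355 6 1099)))
(mv 1226 (cons (fin 1290 5 1034)
(mv 1224 (cons (fin 1225 2 1160)
(mv 1165 (cons (fin 1166 1 1162)
(mv 1229 (cons (fin 1293 6 1037)
(fin 974 6 973)))))))))))))))))))))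
(mv 1162 (cons (fin 1161 2 1097)
(mv 1165 (cons (mv 1229 (cons (fin 1230 0 1162)
(fin 974 6 973)))
(mv 1226 (cons (fin 1225 1 1161)
(mv 1354 (cons (fin 1290 6 1098)
(mv 1227 (cons (fin 1166 1 1162)
(mv 1291 (cons (fin 1356 4 1099)
(fin 1355 6 1099))))))))))))))))))
(mv 1292 (cons (fin 1228 6 1036)
(mv 973 (cons (fin 909 5 908)
(mv 1035 (cons (mv 1102 (cons (fin 1034 3 1034)
(mv 1163 (cons (fin 1162 1 1098)
(fin 1103 1 1099)))))
(cons (mv 971 (cons (fin 907 4 907)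
(mv 970 (cons (fin 972 0 970)
(mv 1163 (cons (fin 906 7 906)
(mv 1162 (cons (fin 1161 2 1097)
(fin 1226 5 970)))))))))
(mv 1034 (cons (fin 1102 3 1034)
(mv 1032 (cons (fin 1033 0 1032)
(mv 971 (cons (fin 907 4 907)
(mv 972 (cons (fin 974 1 970)
(fin 970 0 970))))))))))))))))))))))))
(cons (mv 1039 (cons (fin 1100 1 1036)
(mv 1104 (cons (fin 1105 0 1037)
(mv 1103 (cons (fin 1036 0 1036)
(mv 972 (cons (fin 973 3 972)
(mv 976 (cons (fin 977 2 973)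
(mv 912 (cons (fin 848 5 847)
(mv 911 (cons (fin 847 7 847)
(mv 1168 (cons (fin 975 7 911)
(mv 1232 (cons (fin 1296 7 1039)
(mv 1233 (cons (fin 1297 4 1040)
(fin 1169 4 976)))))))))))))))))))))
(mv 1039 (cons (fin 1100 1 1036)
(mv 1104 (cons (fin 1105 0 1037)
(mv 972 (cons (fin 973 3 972)
(mv 1036 (cons (fin 971 3 971)
(mv 976 (cons (fin 975 2 972)
(fin 977 2 973))))))))))))))))
(cons (mv 1038 (cons (cons (mv 1039 (cons (fin 1100 1 1036)
(mv 1104 (cons (fin 1105 0 1037)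
(mv 1103 (cons (fin 1036 0 1036)
(mv 972 (cons (fin 973 3 972)
(mv 976 (cons (fin 977 2 973)
(mv 912 (cons (fin 1167 5 911)
(fin 848 5 847)))))))))))))
(cons (mv 1165 (cons (cons (mv 1229 (cons (fin 974 6 973)
(mv 1292 (cons (fin 1228 5 1036)
(mv 1293 (cons (fin 1356 5 1100)
(fin 1102 6 1037)))))))
(mv 973 (cons (cons (cons (mv 1228 (cons (fin 1164 5 972)
(mv 1230 (cons (fin 1166 4 973)
(mv 908 (cons (fin 972 7 908)
(mv 909 (cons (fin 844 7 844)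
(mv 845 (cons (fin 1102 4 845)
(mv 1100 (cons (fin 1036 5 844)
(mv 1098 (cons (fin 1099 2 1034)
(mv 781 (cons (fin 974 4 781)
(mv 782 (cons (fin 846 6 781)
(fin 718 6 717)))))))))))))))))))
(mv 1228 (cons (fin 1164 5 972)
(mv 908 (cons (fin 972 7 908)
(mv 909 (cons (fin 844 7 844)
(mv 845 (cons (fin 1102 4 845)
(mv 1100 (cons (fin 1036 5 844)
(mv 1098 (cons (fin 1099 2 1034)
(mv 781 (cons (fin 974 4 781)
(mv 782 (cons (fin 846 6 781)
(fin 718 6 717))))))))))))))))))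
(cons (mv 1230 (cons (fin 1166 4 973)
(mv 908 (cons (fin 972 7 908)
(mv 909 (cons (fin 844 7 844)
(mv 845 (cons (fin 1102 4 845)
(mv 1100 (cons (fin 1036 5 844)
(mv 1098 (cons (fin 1099 2 1034)
(mv 781 (cons (fin 974 4 781)
(mv 782 (cons (fin 846 6 781)
(fin 718 6 717)))))))))))))))))
(mv 1228 (cons (fin 1164 5 972)
(mv 1166 (cons (fin 1230 4 973)
(mv 909 (cons (fin 1102 4 909)
(mv 844 (cons (fin 908 7 844)
(mv 845 (cons (fin 780 7 780)
(mv 1100 (cons (fin 1036 5 844)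
(mv 1167 (cons (fin 1168 3 1100)
(mv 1098 (cons (fin 1099 0 1098)
(mv 781 (cons (fin 974 4 781)
(mv 782 (cons (fin 846 6 781)
(fin 718 6 717)))))))))))))))))))))))
(cons (cons (mv 1230 (cons (fin 1166 4 973)
(mv 1164 (cons (fin 1228 5 972)
(mv 909 (cons (fin 1100 5 908)
(mv 845 (cons (fin 1102 4 845)
(mv 844 (cons (fin 780 7 780)
(mv 781 (cons (fin 974 4 781)
(mv 782 (cons (fin 846 6 781)
(fin 718 6 717)))))))))))))))
(mv 1164 (cons (fin 1228 5 972)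
(mv 1166 (cons (fin 1230 4 973)
(mv 972 (cons (fin 908 7 908)
(mv 970 (cons (fin 971 0 970)
(mv 1163 (cons (cons (mv 1102 (cons (fin 1162 2 1098)
(fin 1103 2 1099)))
(mv 1226 (cons (fin 1227 1 1162)
(mv 1225 (cons (fin 1162 1 1161)
(mv 1099 (cons (fin 1098 3 1098)
(mv 1167 (cons (fin 1100 3 1099)
(mv 1104 (cons (fin 1103 2 1100)
(mv 1168 (cons (fin 1105 2 1101)
(mv 1233 (cons (fin 1232 0 1165)
(mv 1169 (cons (fin 1234 0 1166)
(fin 976 4 976))))))))))))))))))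
(cons (mv 1226 (cons (fin 1227 1 1162)
(mv 1099 (cons (fin 1098 3 1098)
(mv 1167 (cons (fin 1100 3 1099)
(mv 1103 (cons (fin 1102 2 1099)
(fin 1104 2 1100)))))))))
(mv 1226 (cons (fin 1227 1 1162)
(mv 1162 (cons (fin 1225 1 1161)
(fin 1102 2 1098)))))))))))))))))
(cons (mv 1230 (cons (fin 1166 4 973)
(mv 1164 (cons (fin 1228 5 972)
(mv 1100 (cons (fin 909 5 908)
(mv 1098 (cons (fin 1099 2 1034)
(mv 972 (cons (fin 908 7 908)
(mv 971 (cons (fin 970 0 970)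
(mv 1036 (cons (fin 907 7 907)
(mv 1163 (cons (fin 1227 5 971)
(mv 1162 (cons (fin 1097 3 1097)
(fin 1161 2 1097)))))))))))))))))))
(mv 1228 (cons (fin 1164 5 972)
(mv 1230 (cons (fin 1166 4 973)
(mv 908 (cons (fin 972 7 908)
(mv 909 (cons (fin 844 7 844)
(mv 845 (cons (fin 1102 4 845)
(mv 781 (cons (fin 974 4 781)
(mv 782 (cons (fin 846 6 781)
(fin 718 6 717))))))))))))))))))))
(cons (mv 1229 (cons (mv 1292 (cons (fin 1228 5 1036)
(mv 1293 (cons (fin 1356 5 1100)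
(fin 1102 6 1037)))))
(cons (mv 1292 (cons (fin 1228 5 1036)
(mv 1230 (cons (fin 1294 4 1037)
(mv 972 (cons (fin 1036 7 972)
(mv 973 (cons (fin 908 7 908)
(fin 1166 4 973)))))))))
(mv 1293 (cons (fin 1102 6 1037)
(mv 1294 (cons (fin 1358 4 1101)
(fin 1230 4 1037))))))))
(cons (mv 1229 (cons (fin 974 6 973)
(mv 1293 (cons (fin 1102 6 1037)
(mv 1294 (cons (fin 1358 4 1101)
(fin 1230 4 1037)))))))
(mv 1229 (cons (fin 974 6 973)
(mv 1292 (cons (fin 1228 5 1036)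
(mv 1356 (cons (fin 1293 5 1100)
(mv 1230 (cons (fin 1294 4 1037)
(mv 972 (cons (fin 1036 7 972)
(mv 973 (cons (fin 908 7 908)
(fin 1166 4 973)))))))))))))))))
(mv 1039 (cons (cons (mv 1104 (cons (fin 1105 0 1037)
(mv 1103 (cons (fin 1036 0 1036)
(mv 972 (cons (fin 973 3 972)
(mv 976 (cons (fin 977 2 973)
(mv 912 (cons (fin 1167 5 911)
(fin 848 5 847)))))))))))
(mv 972 (cons (fin 973 3 972)
(mv 1036 (cons (fin 971 3 971)
(mv 976 (cons (fin 975 2 972)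
(fin 977 2 973))))))))
(cons (mv 1104 (cons (fin 1105 0 1037)
(mv 1103 (cons (fin 1036 0 1036)
(mv 976 (cons (fin 977 2 973)
(mv 912 (cons (fin 1167 5 911)
(fin 848 5 847)))))))))
(cons (mv 1104 (cons (fin 1105 0 1037)
(mv 1036 (cons (fin 1103 0 1036)
(mv 972 (cons (fin 971 3 971)
(fin 973 3 972)))))))
(mv 1104 (cons (fin 1105 0 1037)
(mv 972 (cons (fin 973 3 972)
(mv 976 (cons (fin 977 2 973)
(mv 912 (cons (mv 1103 (cons (fin 1167 5 911)
(fin 848 5 847)))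
(mv 911 (cons (fin 847 7 847)
(mv 975 (cons (fin 1168 7 911)
(mv 913 (cons (fin 849 6 848)
(mv 914 (cons (fin 974 1 910)
(fin 915 1 911)))))))))))))))))))))))
(cons (cons (mv 1039 (cons (fin 1100 1 1036)
(mv 1104 (cons (fin 1105 0 1037)
(mv 1103 (cons (fin 1036 0 1036)
(mv 976 (cons (fin 977 2 973)
(mv 912 (cons (fin 1167 5 911)
(fin 848 5 847)))))))))))
(mv 1039 (cons (fin 1100 1 1036)
(mv 972 (cons (fin 973 3 972)
(mv 1036 (cons (fin 971 3 971)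
(mv 976 (cons (fin 975 2 972)
(fin 977 2 973))))))))))
(cons (mv 1039 (cons (fin 1100 1 1036)
(mv 1104 (cons (fin 1105 0 1037)
(mv 1036 (cons (fin 1103 0 1036)
(mv 972 (cons (fin 971 3 971)
(fin 973 3 972)))))))))
(mv 1039 (cons (fin 1100 1 1036)
(mv 1104 (cons (fin 1105 0 1037)
(mv 972 (cons (fin 973 3 972)
(mv 976 (cons (fin 977 2 973)
(mv 912 (cons (mv 1103 (cons (fin 1167 5 911)
(fin 848 5 847)))
(mv 911 (cons (fin 847 7 847)
(mv 975 (cons (fin 1168 7 911)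
(mv 913 (cons (fin 849 6 848)
(mv 914 (cons (fin 974 1 910)
(fin 915 1 911)))))))))))))))))))))))
(mv 1038 (cons (cons (mv 1039 (cons (fin 1100 1 1036)
(mv 1104 (cons (fin 1105 0 1037)
(mv 1103 (cons (fin 1036 0 1036)
(mv 972 (cons (fin 973 3 972)
(mv 976 (cons (fin 977 2 973)
(mv 1167 (cons (fin 912 5 911)
(fin 1231 6 975)))))))))))))
(cons (mv 1165 (cons (cons (mv 1229 (cons (fin 974 6 973)
(mv 1292 (cons (fin 1228 5 1036)
(mv 1293 (cons (fin 1356 5 1100)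
(fin 1102 6 1037)))))))
(mv 973 (cons (cons (cons (mv 1228 (cons (fin 1164 5 972)
(mv 1230 (cons (fin 1166 4 973)
(mv 908 (cons (fin 972 7 908)
(mv 909 (cons (fin 844 7 844)
(mv 845 (cons (fin 1102 4 845)
(mv 1100 (cons (fin 1036 5 844)
(mv 1098 (cons (fin 1099 2 1034)
(mv 781 (cons (fin 974 4 781)
(mv 782 (cons (fin 846 6 781)
(fin 718 6 717)))))))))))))))))))
(mv 1228 (cons (fin 1164 5 972)
(mv 908 (cons (fin 972 7 908)
(mv 909 (cons (fin 844 7 844)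
(mv 845 (cons (fin 1102 4 845)
(mv 1100 (cons (fin 1036 5 844)
(mv 1098 (cons (fin 1099 2 1034)
(mv 781 (cons (fin 974 4 781)
(mv 782 (cons (fin 846 6 781)
(fin 718 6 717))))))))))))))))))
(cons (mv 1230 (cons (fin 1166 4 973)
(mv 908 (cons (fin 972 7 908)
(mv 909 (cons (fin 844 7 844)
(mv 845 (cons (fin 1102 4 845)
(mv 1100 (cons (fin 1036 5 844)
(mv 1098 (cons (fin 1099 2 1034)
(mv 781 (cons (fin 974 4 781)
(mv 782 (cons (fin 846 6 781)
(fin 718 6 717)))))))))))))))))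
(mv 1228 (cons (fin 1164 5 972)
(mv 1166 (cons (fin 1230 4 973)
(mv 909 (cons (fin 1102 4 909)
(mv 844 (cons (fin 908 7 844)
(mv 845 (cons (fin 780 7 780)
(mv 1100 (cons (fin 1036 5 844)
(mv 1167 (cons (fin 1168 3 1100)
(mv 1098 (cons (fin 1099 0 1098)
(mv 781 (cons (fin 974 4 781)
(mv 782 (cons (fin 846 6 781)
(fin 718 6 717)))))))))))))))))))))))
(cons (cons (mv 1230 (cons (fin 1166 4 973)
(mv 1164 (cons (fin 1228 5 972)
(mv 909 (cons (fin 1100 5 908)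
(mv 845 (cons (fin 1102 4 845)
(mv 844 (cons (fin 780 7 780)
(mv 781 (cons (fin 974 4 781)
(mv 782 (cons (fin 846 6 781)
(fin 718 6 717)))))))))))))))
(mv 1164 (cons (fin 1228 5 972)
(mv 1166 (cons (fin 1230 4 973)
(mv 972 (cons (fin 908 7 908)
(mv 970 (cons (fin 971 0 970)
(mv 1167 (cons (mv 1100 (cons (fin 1099 3 1099)
(fin 1168 3 1100)))
(mv 1231 (cons (fin 1232 0 1164)
(mv 1102 (cons (fin 974 4 974)
(mv 1295 (cons (fin 1359 7 1102)
(fin 1103 7 1038))))))))))))))))))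
(cons (mv 1230 (cons (fin 1166 4 973)
(mv 1164 (cons (fin 1228 5 972)
(mv 1100 (cons (fin 909 5 908)
(mv 1099 (cons (fin 1098 2 1034)
(mv 972 (cons (fin 908 7 908)
(mv 971 (cons (fin 970 0 970)
(mv 907 (cons (fin 1036 7 907)
(fin 1035 4 907)))))))))))))))
(mv 1228 (cons (fin 1164 5 972)
(mv 1230 (cons (fin 1166 4 973)
(mv 908 (cons (fin 972 7 908)
(mv 909 (cons (fin 844 7 844)
(mv 845 (cons (fin 1102 4 845)
(mv 781 (cons (fin 974 4 781)
(mv 782 (cons (fin 846 6 781)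
(fin 718 6 717))))))))))))))))))))
(cons (mv 1229 (cons (mv 1292 (cons (fin 1228 5 1036)
(mv 1293 (cons (fin 1356 5 1100)
(fin 1102 6 1037)))))
(cons (mv 1292 (cons (fin 1228 5 1036)
(mv 1230 (cons (fin 1294 4 1037)
(mv 972 (cons (fin 1036 7 972)
(mv 973 (cons (fin 908 7 908)
(fin 1166 4 973)))))))))
(mv 1293 (cons (fin 1102 6 1037)
(mv 1294 (cons (fin 1358 4 1101)
(fin 1230 4 1037))))))))
(cons (mv 1229 (cons (fin 974 6 973)
(mv 1293 (cons (fin 1102 6 1037)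
(mv 1294 (cons (fin 1358 4 1101)
(fin 1230 4 1037)))))))
(mv 1229 (cons (fin 974 6 973)
(mv 1292 (cons (fin 1228 5 1036)
(mv 1356 (cons (fin 1293 5 1100)
(mv 1230 (cons (fin 1294 4 1037)
(mv 972 (cons (fin 1036 7 972)
(mv 973 (cons (fin 908 7 908)
(fin 1166 4 973)))))))))))))))))
(mv 1039 (cons (cons (mv 1104 (cons (fin 1105 0 1037)
(mv 1103 (cons (fin 1036 0 1036)
(mv 972 (cons (fin 973 3 972)
(mv 976 (cons (fin 977 2 973)
(mv 1167 (cons (fin 912 5 911)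
(fin 1231 6 975)))))))))))
(mv 972 (cons (fin 973 3 972)
(mv 1036 (cons (fin 971 3 971)
(mv 976 (cons (fin 975 2 972)
(fin 977 2 973))))))))
(cons (mv 1104 (cons (fin 1105 0 1037)
(mv 1103 (cons (fin 1036 0 1036)
(mv 976 (cons (fin 977 2 973)
(mv 1167 (cons (fin 912 5 911)
(fin 1231 6 975)))))))))
(cons (mv 1104 (cons (fin 1105 0 1037)
(mv 1036 (cons (fin 1103 0 1036)
(mv 972 (cons (fin 971 3 971)
(fin 973 3 972)))))))
(mv 1104 (cons (fin 1105 0 1037)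
(mv 972 (cons (fin 973 3 972)
(mv 976 (cons (fin 977 2 973)
(mv 1168 (cons (mv 975 (cons (fin 1232 7 975)
(fin 911 7 911)))
(cons (mv 1231 (cons (fin 1167 5 975)
(mv 1232 (cons (fin 1295 5 1039)
(mv 1233 (cons (fin 1297 4 1040)
(fin 1169 4 976)))))))
(mv 1231 (cons (fin 1167 5 975)
(mv 1233 (cons (fin 1169 4 976)
(mv 911 (cons (fin 975 7 911)
(mv 912 (cons (fin 847 7 847)
(mv 848 (cons (fin 1103 5 847)
(mv 849 (cons (fin 913 6 848)
(fin 785 6 784))))))))))))))))))))))))))))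
(cons (mv 1039 (cons (fin 1100 1 1036)
(mv 1104 (cons (fin 1105 0 1037)
(mv 1103 (cons (fin 1036 0 1036)
(mv 976 (cons (fin 977 2 973)
(mv 1167 (cons (fin 912 5 911)
(fin 1231 6 975)))))))))))
(cons (mv 1039 (cons (fin 1100 1 1036)
(mv 1104 (cons (fin 1105 0 1037)
(mv 972 (cons (fin 973 3 972)
(mv 976 (cons (fin 977 2 973)
(mv 1168 (cons (mv 975 (cons (fin 1232 7 975)
(fin 911 7 911)))
(cons (mv 1231 (cons (fin 1167 5 975)
(mv 1232 (cons (fin 1295 5 1039)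
(mv 1233 (cons (fin 1297 4 1040)
(fin 1169 4 976)))))))
(mv 1231 (cons (fin 1167 5 975)
(mv 1233 (cons (fin 1169 4 976)
(mv 911 (cons (fin 975 7 911)
(mv 912 (cons (fin 847 7 847)
(mv 848 (cons (fin 1103 5 847)
(mv 849 (cons (fin 913 6 848)
(fin 785 6 784))))))))))))))))))))))))
(mv 1039 (cons (fin 1100 1 1036)
(mv 1104 (cons (fin 1105 0 1037)
(mv 972 (cons (fin 973 3 972)
(mv 1036 (cons (fin 971 3 971)
(mv 976 (cons (fin 975 2 972)
(fin 977 2 973)))))))))))))))))))))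
def l102 : Lem := ⟨13254031944712882724506621310649321556018620670345837899455453023597314721787975009848330616026462815765143756135158089473467252075149308743152655366187148242124071246428482498451210046760672027239036899891323305324899173507745103325308665813954110541579506451753178596634830548552232523722901151470534797188661248, 2675984352907870388060350018507546116731213745090285632786689454531174619036096204915366818080114872793828177003728750338208655220919242060068346903771825778304521519028423227672950045778466877895687728575141546028303359771713244729249662042102268662093864430669892491115770799965209317795954521274043767688864993998580062771083999813655902781516634437991651310183954194822116132816483536382937185574451007451546138364326460796443794567821801816064, 2675984352907870388060350018507546116731213745090285632786689454531174619036096204915366818080114872793828177003728750338208655220919242060068346903771825778304521519028423227672950045778466877895687728575141546028303359771713244729249662042102268662093864430669892491115770799965209317795954521274043767688864993998580062771083999813655902781516634437991651310183954194822116132816483536382937185574451007451546138364326460796443794567821801816064,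 19, 33⟩
theorem l102_valid : l102.Valid :=
  Lem.valid_of_chk t102 t102_valid [1037, 1040] c102 l102 (by decide +kernel)
end Crest.Agent.SnakyAux
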