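import Crest.Agent.S0047_aux.Checker

set_option autoImplicit false
set_option maxRecDepth 100000
namespace Crest.Agent.SnakyAux
open Cert
def t103 : Tbl := Tbl.nil
theorem t103_valid : t103.Valid := Tbl.valid_nil
def c103 : Cert :=
(mv 973 (cons (cons (cons (cons (mv 1038 (cons (cons (mv 1039 (cons (fin 972 3 972)
(mv 976 (cons (fin 977 2 973)
(mv 975 (cons (fin 1036 2 972)
(mv 1100 (cons (fin 1101 1 1036)
(mv 1104 (cons (fin 1105 0 1037)
(mv 911 (cons (fin 1168 7 911)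
(fin 847 4 847)))))))))))))
(cons (mv 909 (cons (cons (mv 845 (cons (fin 1102 4 845)
(mv 780 (cons (fin 844 7 780)
(mv 781 (cons (fin 716 7 716)
(fin 974 4 781)))))))
(mv 1101 (cons (cons (cons (mv 844 (cons (fin 908 7 844)
(mv 846 (cons (fin 910 6 845)
(mv 1164 (cons (fin 1100 5 908)
(mv 1165 (cons (fin 1228 5 972)
(mv 1229 (cons (fin 974 6 973)
(mv 972 (cons (fin 1036 7 972)
(mv 970 (cons (fin 971 0 970)
(mv 1293 (cons (fin 1102 6 1037)
(mv 1294 (cons (fin 1230 4 1037)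
(fin 1358 4 1101)))))))))))))))))))
(mv 844 (cons (fin 908 7 844)
(mv 1164 (cons (fin 1100 5 908)
(mv 1165 (cons (fin 1228 5 972)
(mv 1229 (cons (fin 974 6 973)
(mv 972 (cons (fin 1036 7 972)
(mv 970 (cons (fin 971 0 970)
(mv 1293 (cons (fin 1102 6 1037)
(mv 1294 (cons (fin 1230 4 1037)
(fin 1358 4 1101))))))))))))))))))
(cons (mv 846 (cons (fin 910 6 845)
(mv 1164 (cons (fin 1100 5 908)
(mv 1165 (cons (fin 1228 5 972)
(mv 1229 (cons (fin 974 6 973)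
(mv 972 (cons (fin 1036 7 972)
(mv 970 (cons (fin 971 0 970)
(mv 1293 (cons (fin 1102 6 1037)
(mv 1294 (cons (fin 1230 4 1037)
(fin 1358 4 1101)))))))))))))))))
(mv 844 (cons (fin 908 7 844)
(mv 910 (cons (fin 846 6 845)
(mv 1165 (cons (fin 974 6 909)
(mv 1228 (cons (fin 1164 5 972)
(mv 1229 (cons (fin 1292 5 1036)
(mv 972 (cons (fin 1036 7 972)
(mv 911 (cons (fin 912 1 908)
(mv 970 (cons (fin 971 2 906)
(mv 1293 (cons (fin 1102 6 1037)
(mv 1294 (cons (fin 1230 4 1037)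
(fin 1358 4 1101)))))))))))))))))))))))
(cons (cons (mv 846 (cons (fin 910 6 845)
(mv 908 (cons (fin 844 7 844)
(mv 1165 (cons (fin 972 7 908)
(mv 1229 (cons (fin 974 6 973)
(mv 1228 (cons (fin 1292 5 1036)
(mv 1293 (cons (fin 1102 6 1037)
(mv 1294 (cons (fin 1230 4 1037)
(fin 1358 4 1101)))))))))))))))
(mv 908 (cons (fin 844 7 844)
(mv 910 (cons (fin 846 6 845)
(mv 1100 (cons (fin 1164 5 908)
(mv 1098 (cons (fin 1099 2 1034)
(mv 907 (cons (cons (mv 974 (cons (fin 906 0 906)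
(fin 975 0 907)))
(mv 842 (cons (fin 843 3 842)
(mv 841 (cons (fin 906 3 841)
(mv 971 (cons (fin 970 1 906)
(mv 911 (cons (fin 972 1 907)
(mv 847 (cons (fin 848 2 844)
(mv 976 (cons (fin 975 0 908)
(mv 912 (cons (fin 977 0 909)
(fin 1104 7 847))))))))))))))))
(cons (mv 842 (cons (fin 843 3 842)
(mv 970 (cons (fin 971 1 906)
(mv 975 (cons (fin 974 0 907)
(mv 911 (cons (fin 976 0 908)
(mv 848 (cons (fin 847 2 844)
(mv 912 (cons (fin 972 1 908)
(fin 849 2 845)))))))))))))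
(mv 842 (cons (fin 843 3 842)
(mv 906 (cons (fin 841 3 841)
(fin 974 0 906)))))))))))))))))
(cons (mv 846 (cons (fin 910 6 845)
(mv 908 (cons (fin 844 7 844)
(mv 972 (cons (fin 1165 7 908)
(mv 970 (cons (fin 971 0 970)
(mv 1100 (cons (fin 1164 5 908)
(mv 1099 (cons (fin 1098 2 1034)
(mv 1036 (cons (fin 1163 5 907)
(mv 907 (cons (fin 843 7 843)
(mv 906 (cons (fin 969 1 905)
(fin 905 0 905)))))))))))))))))))
(mv 844 (cons (fin 908 7 844)
(mv 846 (cons (fin 910 6 845)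
(mv 1164 (cons (fin 1100 5 908)
(mv 1165 (cons (fin 1228 5 972)
(mv 1229 (cons (fin 974 6 973)
(mv 1293 (cons (fin 1102 6 1037)
(mv 1294 (cons (fin 1230 4 1037)
(fin 1358 4 1101))))))))))))))))))))
(cons (mv 845 (cons (mv 780 (cons (fin 844 7 780)
(mv 781 (cons (fin 716 7 716)
(fin 974 4 781)))))
(cons (mv 780 (cons (fin 844 7 780)
(mv 846 (cons (fin 782 6 781)
(mv 1100 (cons (fin 1036 5 844)
(mv 1101 (cons (fin 1164 5 908)
(fin 910 6 845)))))))))
(mv 781 (cons (fin 974 4 781)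
(mv 782 (cons (fin 718 6 717)
(fin 846 6 781))))))))
(cons (mv 845 (cons (fin 1102 4 845)
(mv 781 (cons (fin 974 4 781)
(mv 782 (cons (fin 718 6 717)
(fin 846 6 781)))))))
(mv 845 (cons (fin 1102 4 845)
(mv 780 (cons (fin 844 7 780)
(mv 716 (cons (fin 781 7 716)
(mv 846 (cons (fin 782 6 781)
(mv 1100 (cons (fin 1036 5 844)
(mv 1101 (cons (fin 1164 5 908)
(fin 910 6 845)))))))))))))))))
(mv 1039 (cons (cons (mv 976 (cons (fin 977 2 973)
(mv 975 (cons (fin 1036 2 972)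
(mv 1100 (cons (fin 1101 1 1036)
(mv 1104 (cons (fin 1105 0 1037)
(mv 911 (cons (fin 1168 7 911)
(fin 847 4 847)))))))))))
(mv 1100 (cons (fin 1101 1 1036)
(mv 1036 (cons (fin 1099 1 1035)
(mv 1104 (cons (fin 1103 0 1036)
(fin 1105 0 1037))))))))
(cons (mv 976 (cons (fin 977 2 973)
(mv 975 (cons (fin 1036 2 972)
(mv 1104 (cons (fin 1105 0 1037)
(mv 911 (cons (fin 1168 7 911)
(fin 847 4 847)))))))))
(cons (mv 976 (cons (fin 977 2 973)
(mv 1036 (cons (fin 975 2 972)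
(mv 1100 (cons (fin 1099 1 1035)
(fin 1101 1 1036)))))))
(mv 976 (cons (fin 977 2 973)
(mv 1100 (cons (fin 1101 1 1036)
(mv 1104 (cons (fin 1105 0 1037)
(mv 912 (cons (mv 1103 (cons (fin 848 5 847)
(fin 1167 5 911)))
(cons (mv 847 (cons (fin 911 7 847)
(mv 848 (cons (fin 783 7 783)
(mv 849 (cons (fin 785 6 784)
(fin 913 6 848)))))))
(mv 847 (cons (fin 911 7 847)
(mv 849 (cons (fin 913 6 848)
(mv 1167 (cons (fin 1103 5 911)
(mv 1168 (cons (fin 1231 5 975)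
(mv 1232 (cons (fin 975 7 975)
(mv 1233 (cons (fin 1169 4 976)
(fin 1297 4 1040))))))))))))))))))))))))))))
(cons (cons (mv 1039 (cons (fin 972 3 972)
(mv 976 (cons (fin 977 2 973)
(mv 975 (cons (fin 1036 2 972)
(mv 1104 (cons (fin 1105 0 1037)
(mv 911 (cons (fin 1168 7 911)
(fin 847 4 847)))))))))))
(mv 1039 (cons (fin 972 3 972)
(mv 1100 (cons (fin 1101 1 1036)
(mv 1036 (cons (fin 1099 1 1035)
(mv 1104 (cons (fin 1103 0 1036)
(fin 1105 0 1037))))))))))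
(cons (mv 1039 (cons (fin 972 3 972)
(mv 976 (cons (fin 977 2 973)
(mv 1036 (cons (fin 975 2 972)
(mv 1100 (cons (fin 1099 1 1035)
(fin 1101 1 1036)))))))))
(mv 1039 (cons (fin 972 3 972)
(mv 976 (cons (fin 977 2 973)
(mv 1100 (cons (fin 1101 1 1036)
(mv 1104 (cons (fin 1105 0 1037)
(mv 912 (cons (mv 1103 (cons (fin 848 5 847)
(fin 1167 5 911)))
(cons (mv 847 (cons (fin 911 7 847)
(mv 848 (cons (fin 783 7 783)
(mv 849 (cons (fin 785 6 784)
(fin 913 6 848)))))))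
(mv 847 (cons (fin 911 7 847)
(mv 849 (cons (fin 913 6 848)
(mv 1167 (cons (fin 1103 5 911)
(mv 1168 (cons (fin 1231 5 975)
(mv 1232 (cons (fin 975 7 975)
(mv 1233 (cons (fin 1169 4 976)
(fin 1297 4 1040))))))))))))))))))))))))))))
(cons (mv 909 (cons (cons (cons (mv 845 (cons (cons (mv 780 (cons (fin 844 7 780)
(mv 716 (cons (fin 781 7 716)
(mv 846 (cons (fin 782 6 781)
(mv 1100 (cons (fin 1036 5 844)
(mv 1101 (cons (fin 1164 5 908)
(fin 910 6 845)))))))))))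
(mv 782 (cons (fin 846 6 781)
(mv 781 (cons (fin 718 6 717)
(mv 1036 (cons (fin 972 5 780)
(fin 1100 5 844))))))))
(cons (mv 780 (cons (fin 844 7 780)
(mv 781 (cons (fin 716 7 716)
(mv 1036 (cons (fin 972 5 780)
(fin 1100 5 844)))))))
(cons (mv 780 (cons (fin 844 7 780)
(mv 781 (cons (fin 716 7 716)
(mv 782 (cons (fin 718 6 717)
(fin 846 6 781)))))))
(mv 780 (cons (fin 844 7 780)
(mv 846 (cons (fin 782 6 781)
(mv 1100 (cons (fin 1036 5 844)
(mv 1101 (cons (fin 1164 5 908)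
(fin 910 6 845)))))))))))))
(mv 1101 (cons (cons (mv 844 (cons (fin 908 7 844)
(mv 910 (cons (fin 846 6 845)
(mv 1164 (cons (fin 1100 5 908)
(mv 1165 (cons (fin 1228 5 972)
(fin 974 6 909)))))))))
(mv 910 (cons (fin 846 6 845)
(mv 1164 (cons (fin 1100 5 908)
(mv 1165 (cons (fin 1228 5 972)
(fin 974 6 909))))))))
(cons (mv 908 (cons (fin 844 7 844)
(mv 1164 (cons (fin 1100 5 908)
(mv 1165 (cons (fin 972 7 908)
(fin 1228 5 972)))))))
(cons (mv 908 (cons (fin 844 7 844)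
(mv 910 (cons (fin 846 6 845)
(mv 1165 (cons (fin 972 7 908)
(fin 974 6 909)))))))
(mv 908 (cons (fin 844 7 844)
(mv 910 (cons (fin 846 6 845)
(mv 1100 (cons (fin 1164 5 908)
(mv 907 (cons (cons (mv 974 (cons (fin 906 0 906)
(fin 975 0 907)))
(mv 842 (cons (fin 843 3 842)
(mv 841 (cons (fin 906 3 841)
(mv 971 (cons (fin 970 1 906)
(mv 911 (cons (fin 972 1 907)
(mv 847 (cons (fin 848 2 844)
(mv 976 (cons (fin 975 0 908)
(mv 912 (cons (fin 977 0 909)
(fin 1104 7 847))))))))))))))))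
(cons (mv 842 (cons (fin 843 3 842)
(mv 970 (cons (fin 971 1 906)
(mv 975 (cons (fin 974 0 907)
(mv 911 (cons (fin 976 0 908)
(mv 848 (cons (fin 847 2 844)
(mv 912 (cons (fin 972 1 908)
(fin 849 2 845)))))))))))))
(mv 842 (cons (fin 843 3 842)
(mv 906 (cons (fin 841 3 841)
(fin 974 0 906)))))))))))))))))))
(cons (mv 845 (cons (cons (mv 780 (cons (fin 844 7 780)
(mv 781 (cons (fin 716 7 716)
(mv 782 (cons (fin 718 6 717)
(fin 846 6 781)))))))
(mv 782 (cons (fin 846 6 781)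
(mv 781 (cons (fin 718 6 717)
(mv 1036 (cons (fin 972 5 780)
(fin 1100 5 844))))))))
(cons (mv 780 (cons (fin 844 7 780)
(mv 781 (cons (fin 716 7 716)
(mv 1036 (cons (fin 972 5 780)
(fin 1100 5 844)))))))
(mv 844 (cons (fin 780 7 780)
(mv 846 (cons (fin 782 6 781)
(mv 1036 (cons (fin 1100 5 844)
(mv 843 (cons (cons (mv 910 (cons (fin 842 0 842)
(fin 911 0 843)))
(mv 778 (cons (fin 779 3 778)
(mv 777 (cons (fin 842 3 777)
(mv 907 (cons (fin 906 1 842)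
(mv 847 (cons (fin 908 1 843)
(mv 783 (cons (fin 784 2 780)
(mv 912 (cons (fin 911 0 844)
(mv 848 (cons (fin 913 0 845)
(fin 976 7 783))))))))))))))))
(cons (mv 778 (cons (fin 779 3 778)
(mv 906 (cons (fin 907 1 842)
(mv 911 (cons (fin 910 0 843)
(mv 847 (cons (fin 912 0 844)
(mv 784 (cons (fin 783 2 780)
(mv 848 (cons (fin 908 1 844)
(fin 785 2 781)))))))))))))
(mv 778 (cons (fin 779 3 778)
(mv 842 (cons (fin 777 3 777)
(fin 910 0 842)))))))))))))))))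
(mv 845 (cons (cons (mv 782 (cons (fin 846 6 781)
(mv 781 (cons (fin 718 6 717)
(mv 1036 (cons (fin 972 5 780)
(fin 1100 5 844)))))))
(mv 1036 (cons (fin 1100 5 844)
(mv 781 (cons (fin 972 5 780)
(mv 716 (cons (fin 780 7 716)
(mv 717 (cons (fin 652 7 652)
(mv 718 (cons (fin 654 6 653)
(fin 782 6 717))))))))))))
(cons (mv 781 (cons (cons (mv 782 (cons (fin 718 6 717)
(fin 846 6 781)))
(mv 716 (cons (fin 780 7 716)
(mv 717 (cons (fin 652 7 652)
(mv 654 (cons (fin 718 6 653)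
(mv 590 (cons (fin 653 6 589)
(mv 908 (cons (fin 972 5 716)
(mv 910 (cons (fin 974 4 717)
(mv 846 (cons (fin 1101 6 845)
(mv 847 (cons (fin 848 1 844)
(fin 907 2 843))))))))))))))))))
(cons (mv 716 (cons (fin 780 7 716)
(mv 717 (cons (fin 652 7 652)
(mv 718 (cons (fin 654 6 653)
(fin 782 6 717)))))))
(mv 716 (cons (fin 780 7 716)
(mv 717 (cons (fin 652 7 652)
(mv 846 (cons (fin 782 6 781)
(mv 910 (cons (fin 1101 6 845)
(fin 653 4 653))))))))))))
(cons (mv 1036 (cons (fin 1100 5 844)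
(mv 781 (cons (fin 972 5 780)
(mv 716 (cons (fin 780 7 716)
(mv 717 (cons (fin 652 7 652)
(mv 654 (cons (fin 718 6 653)
(mv 653 (cons (fin 590 6 589)
(mv 910 (cons (fin 846 4 653)
(fin 974 4 717)))))))))))))))
(mv 846 (cons (fin 782 6 781)
(mv 1100 (cons (fin 1036 5 844)
(mv 1101 (cons (fin 1164 5 908)
(fin 910 6 845)))))))))))))
(cons (cons (mv 845 (cons (cons (mv 780 (cons (fin 844 7 780)
(mv 781 (cons (fin 716 7 716)
(mv 1036 (cons (fin 972 5 780)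
(fin 1100 5 844)))))))
(mv 1036 (cons (fin 1100 5 844)
(mv 781 (cons (fin 972 5 780)
(mv 716 (cons (fin 780 7 716)
(mv 717 (cons (fin 652 7 652)
(mv 718 (cons (fin 654 6 653)
(fin 782 6 717))))))))))))
(cons (mv 781 (cons (cons (mv 780 (cons (fin 716 7 716)
(fin 844 7 780)))
(mv 718 (cons (fin 782 6 717)
(mv 717 (cons (fin 654 6 653)
(mv 652 (cons (fin 716 7 652)
(mv 588 (cons (fin 653 7 588)
(mv 908 (cons (fin 972 5 716)
(mv 844 (cons (fin 1101 7 844)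
(mv 910 (cons (fin 974 4 717)
(mv 843 (cons (fin 911 3 843)
(fin 842 0 842))))))))))))))))))
(cons (mv 716 (cons (fin 780 7 716)
(mv 717 (cons (fin 652 7 652)
(mv 718 (cons (fin 654 6 653)
(fin 782 6 717)))))))
(mv 718 (cons (fin 782 6 717)
(mv 717 (cons (fin 654 6 653)
(mv 844 (cons (fin 780 7 780)
(mv 908 (cons (fin 1101 7 844)
(fin 653 5 652))))))))))))
(cons (mv 1100 (cons (fin 1036 5 844)
(mv 1101 (cons (fin 1164 5 908)
(mv 908 (cons (fin 844 7 844)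
(mv 974 (cons (cons (mv 1165 (cons (fin 972 7 908)
(fin 910 6 909)))
(mv 906 (cons (fin 907 0 906)
(mv 975 (cons (fin 976 3 908)
(mv 972 (cons (fin 1039 0 972)
(mv 717 (cons (fin 781 5 716)
(mv 911 (cons (fin 912 2 908)
(mv 971 (cons (fin 910 1 907)
(mv 970 (cons (fin 905 3 905)
(fin 969 2 905))))))))))))))))
(cons (mv 907 (cons (fin 906 0 906)
(mv 910 (cons (fin 975 0 907)
(fin 1165 6 909)))))
(mv 906 (cons (fin 907 0 906)
(mv 972 (cons (fin 1165 7 908)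
(mv 975 (cons (fin 976 3 908)
(fin 1039 0 972))))))))))))))))
(mv 844 (cons (fin 780 7 780)
(mv 1100 (cons (fin 1036 5 844)
(mv 1101 (cons (fin 908 7 844)
(fin 1164 5 908)))))))))))
(mv 845 (cons (cons (mv 780 (cons (fin 844 7 780)
(mv 781 (cons (fin 716 7 716)
(mv 782 (cons (fin 718 6 717)
(fin 846 6 781)))))))
(cons (mv 782 (cons (fin 846 6 781)
(mv 781 (cons (fin 718 6 717)
(mv 716 (cons (fin 780 7 716)
(mv 717 (cons (fin 652 7 652)
(mv 972 (cons (fin 908 5 716)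
(fin 1036 5 780)))))))))))
(mv 780 (cons (fin 844 7 780)
(mv 781 (cons (fin 716 7 716)
(mv 718 (cons (fin 782 6 717)
(mv 717 (cons (fin 654 6 653)
(mv 972 (cons (fin 908 5 716)
(fin 1036 5 780)))))))))))))
(cons (mv 782 (cons (fin 846 6 781)
(mv 781 (cons (fin 718 6 717)
(mv 972 (cons (fin 1036 5 780)
(mv 908 (cons (fin 717 5 716)
(mv 1101 (cons (fin 844 7 844)
(fin 1165 7 908)))))))))))
(cons (mv 780 (cons (fin 844 7 780)
(mv 781 (cons (fin 716 7 716)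
(mv 972 (cons (fin 1036 5 780)
(mv 717 (cons (fin 908 5 716)
(mv 654 (cons (fin 718 6 653)
(mv 653 (cons (fin 590 6 589)
(mv 910 (cons (fin 846 4 653)
(fin 974 4 717)))))))))))))))
(mv 844 (cons (fin 780 7 780)
(mv 846 (cons (fin 782 6 781)
(mv 1101 (cons (fin 908 7 844)
(fin 910 6 845))))))))))))
(cons (mv 845 (cons (cons (mv 780 (cons (fin 844 7 780)
(mv 781 (cons (fin 716 7 716)
(mv 782 (cons (fin 718 6 717)
(fin 846 6 781)))))))
(mv 782 (cons (fin 846 6 781)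
(mv 781 (cons (fin 718 6 717)
(mv 1036 (cons (fin 972 5 780)
(fin 1100 5 844))))))))
(cons (mv 780 (cons (fin 844 7 780)
(mv 781 (cons (fin 716 7 716)
(mv 1036 (cons (fin 972 5 780)
(fin 1100 5 844)))))))
(mv 782 (cons (fin 846 6 781)
(mv 844 (cons (fin 780 7 780)
(mv 1100 (cons (fin 1036 5 844)
(mv 1101 (cons (fin 908 7 844)
(fin 1164 5 908))))))))))))
(mv 845 (cons (cons (mv 780 (cons (fin 844 7 780)
(mv 716 (cons (fin 781 7 716)
(mv 846 (cons (fin 782 6 781)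
(mv 1100 (cons (fin 1036 5 844)
(mv 1101 (cons (fin 1164 5 908)
(fin 910 6 845)))))))))))
(mv 844 (cons (fin 780 7 780)
(mv 1100 (cons (fin 1036 5 844)
(mv 1101 (cons (fin 908 7 844)
(fin 1164 5 908))))))))
(cons (mv 846 (cons (fin 782 6 781)
(mv 1100 (cons (fin 1036 5 844)
(mv 1101 (cons (fin 1164 5 908)
(fin 910 6 845)))))))
(mv 780 (cons (fin 844 7 780)
(mv 781 (cons (fin 716 7 716)
(mv 782 (cons (fin 718 6 717)
(fin 846 6 781))))))))))))))
(mv 909 (cons (cons (mv 845 (cons (cons (mv 780 (cons (fin 844 7 780)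
(mv 716 (cons (fin 781 7 716)
(mv 782 (cons (fin 846 6 781)
(mv 1038 (cons (fin 1102 4 845)
(mv 1100 (cons (fin 1036 5 844)
(mv 1101 (cons (fin 1039 1 1036)
(fin 1164 5 908)))))))))))))
(cons (mv 780 (cons (fin 844 7 780)
(mv 716 (cons (fin 781 7 716)
(mv 1038 (cons (fin 1102 4 845)
(mv 1100 (cons (fin 1036 5 844)
(mv 1101 (cons (fin 1039 1 1036)
(fin 1164 5 908)))))))))))
(mv 782 (cons (fin 846 6 781)
(mv 718 (cons (fin 781 6 717)
(mv 1038 (cons (fin 1102 4 845)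
(mv 1100 (cons (fin 1036 5 844)
(mv 1101 (cons (fin 1039 1 1036)
(fin 1164 5 908)))))))))))))
(cons (mv 780 (cons (fin 844 7 780)
(mv 716 (cons (fin 781 7 716)
(mv 846 (cons (fin 782 6 781)
(mv 1100 (cons (fin 1036 5 844)
(mv 1101 (cons (fin 1164 5 908)
(fin 910 6 845)))))))))))
(cons (mv 780 (cons (fin 844 7 780)
(mv 781 (cons (fin 716 7 716)
(mv 782 (cons (fin 718 6 717)
(fin 846 6 781)))))))
(mv 780 (cons (fin 844 7 780)
(mv 782 (cons (fin 846 6 781)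
(mv 1038 (cons (fin 1102 4 845)
(mv 1100 (cons (fin 1036 5 844)
(mv 1101 (cons (fin 1039 1 1036)
(fin 1164 5 908)))))))))))))))
(cons (mv 1101 (cons (cons (mv 844 (cons (fin 908 7 844)
(mv 910 (cons (fin 846 6 845)
(mv 974 (cons (fin 1165 6 909)
(mv 1100 (cons (fin 1164 5 908)
(mv 1039 (cons (fin 1038 1 1036)
(mv 1103 (cons (fin 1102 2 1036)
(mv 975 (cons (fin 1167 7 910)
(mv 976 (cons (fin 977 3 909)
(fin 1036 1 972)))))))))))))))))
(cons (mv 908 (cons (fin 844 7 844)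
(mv 910 (cons (fin 846 6 845)
(mv 974 (cons (fin 1165 6 909)
(mv 907 (cons (fin 906 0 906)
(fin 975 0 907)))))))))
(mv 844 (cons (fin 908 7 844)
(mv 1165 (cons (cons (mv 1164 (cons (fin 1100 5 908)
(fin 1228 5 972)))
(mv 1229 (cons (cons (mv 974 (cons (fin 1038 6 973)
(mv 1292 (cons (fin 1228 5 1036)
(mv 1293 (cons (fin 1356 5 1100)
(mv 1294 (cons (fin 1230 4 1037)
(fin 1358 4 1101)))))))))
(mv 1292 (cons (fin 1228 5 1036)
(mv 1293 (cons (fin 1356 5 1100)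
(mv 1294 (cons (fin 1230 4 1037)
(fin 1358 4 1101))))))))
(cons (mv 1038 (cons (fin 974 6 973)
(mv 1039 (cons (fin 1100 1 1036)
(mv 976 (cons (fin 977 2 973)
(mv 975 (cons (fin 1036 2 972)
(mv 1102 (cons (fin 1293 6 1037)
(mv 847 (cons (fin 911 5 846)
(mv 1104 (cons (fin 1105 0 1037)
(mv 1168 (cons (fin 1232 7 975)
(mv 1169 (cons (fin 1103 0 1101)
(fin 1233 4 976)))))))))))))))))))
(mv 1038 (cons (fin 974 6 973)
(mv 1039 (cons (fin 1100 1 1036)
(mv 976 (cons (fin 977 2 973)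
(mv 975 (cons (fin 1036 2 972)
(mv 1104 (cons (fin 1105 0 1037)
(mv 911 (cons (fin 1168 7 911)
(fin 847 4 847)))))))))))))))))
(cons (mv 1228 (cons (fin 1164 5 972)
(mv 1229 (cons (fin 1292 5 1036)
(mv 1038 (cons (fin 974 6 973)
(mv 1293 (cons (fin 1102 6 1037)
(mv 1294 (cons (fin 1230 4 1037)
(fin 1358 4 1101)))))))))))
(mv 1100 (cons (fin 1164 5 908)
(mv 1038 (cons (fin 1039 1 1036)
(mv 1098 (cons (fin 1099 2 1034)
(mv 1229 (cons (fin 974 6 973)
(mv 1293 (cons (fin 1036 7 1036)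
(fin 1102 6 1037))))))))))))))))))
(cons (cons (mv 910 (cons (fin 846 6 845)
(mv 974 (cons (fin 1165 6 909)
(mv 1100 (cons (fin 1164 5 908)
(mv 1039 (cons (fin 1038 1 1036)
(mv 1103 (cons (fin 1102 2 1036)
(mv 975 (cons (fin 1167 7 910)
(mv 976 (cons (fin 977 3 909)
(fin 1036 1 972)))))))))))))))
(mv 844 (cons (fin 908 7 844)
(mv 910 (cons (fin 846 6 845)
(mv 1100 (cons (fin 1164 5 908)
(mv 1039 (cons (fin 1038 1 1036)
(mv 1103 (cons (fin 1102 2 1036)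
(mv 976 (cons (cons (mv 848 (cons (fin 912 5 847)
(mv 1167 (cons (fin 1231 6 975)
(mv 975 (cons (fin 974 7 910)
(mv 1168 (cons (fin 1232 4 975)
(mv 911 (cons (fin 1104 7 911)
(mv 847 (cons (fin 784 6 783)
(fin 783 4 783)))))))))))))
(mv 1167 (cons (fin 1231 6 975)
(mv 975 (cons (fin 974 7 910)
(mv 1168 (cons (fin 1232 4 975)
(mv 977 (cons (cons (mv 911 (cons (fin 978 3 910)
(fin 1104 7 911)))
(mv 978 (cons (fin 911 3 910)
(fin 979 1 975))))
(cons (mv 913 (cons (fin 1104 6 912)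
(mv 849 (cons (fin 785 5 784)
(mv 978 (cons (fin 979 1 975)
(mv 914 (cons (fin 915 2 911)
(mv 1042 (cons (fin 1043 0 975)
(fin 1106 7 849)))))))))))
(mv 1104 (cons (fin 911 7 911)
(fin 913 6 912)))))))))))))
(cons (mv 912 (cons (fin 848 5 847)
(mv 911 (cons (fin 977 0 909)
(mv 847 (cons (fin 1104 7 847)
(mv 783 (cons (fin 719 4 719)
(fin 975 4 783)))))))))
(cons (mv 912 (cons (fin 848 5 847)
(mv 1167 (cons (fin 1104 5 911)
(fin 1231 6 975)))))
(mv 912 (cons (fin 848 5 847)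
(mv 1167 (cons (fin 975 6 911)
(fin 1231 6 975))))))))))))))))))))
(cons (mv 908 (cons (fin 844 7 844)
(mv 910 (cons (fin 846 6 845)
(mv 1100 (cons (fin 1164 5 908)
(mv 1039 (cons (fin 1038 1 1036)
(mv 1103 (cons (fin 1102 2 1036)
(mv 911 (cons (cons (mv 847 (cons (fin 848 2 844)
(mv 975 (cons (fin 976 0 908)
(fin 1104 4 847)))))
(mv 848 (cons (fin 847 2 844)
(mv 912 (cons (fin 849 2 845)
(fin 975 6 847))))))
(cons (mv 848 (cons (fin 847 2 844)
(mv 912 (cons (fin 849 2 845)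
(fin 976 5 847)))))
(cons (mv 975 (cons (fin 976 0 908)
(mv 1104 (cons (fin 847 4 847)
(fin 1168 4 911)))))
(mv 976 (cons (fin 975 0 908)
(mv 912 (cons (fin 977 0 909)
(fin 848 5 847)))))))))))))))))))
(mv 844 (cons (fin 908 7 844)
(mv 910 (cons (fin 846 6 845)
(mv 1164 (cons (fin 1100 5 908)
(mv 1165 (cons (fin 1228 5 972)
(fin 974 6 909)))))))))))))
(mv 845 (cons (cons (mv 780 (cons (fin 844 7 780)
(mv 781 (cons (fin 716 7 716)
(mv 782 (cons (fin 718 6 717)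
(fin 846 6 781)))))))
(mv 780 (cons (fin 844 7 780)
(mv 781 (cons (fin 716 7 716)
(mv 1038 (cons (fin 974 4 781)
(fin 1102 4 845))))))))
(cons (mv 782 (cons (fin 846 6 781)
(mv 781 (cons (fin 718 6 717)
(mv 1038 (cons (fin 974 4 781)
(fin 1102 4 845)))))))
(mv 780 (cons (fin 844 7 780)
(mv 782 (cons (fin 846 6 781)
(mv 1036 (cons (fin 1100 5 844)
(mv 1038 (cons (fin 1102 4 845)
(mv 1035 (cons (mv 974 (cons (fin 1034 2 970)
(fin 975 2 971)))
(cons (mv 970 (cons (fin 971 3 970)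
(mv 1034 (cons (fin 969 3 969)
(mv 1098 (cons (fin 1097 1 1033)
(fin 1099 1 1034)))))))
(mv 970 (cons (fin 971 3 970)
(mv 975 (cons (fin 974 2 971)
(mv 1039 (cons (fin 976 2 972)
(mv 1104 (cons (fin 1103 0 1036)
(fin 1105 0 1037)))))))))))))))))))))))))
(cons (cons (mv 845 (cons (cons (mv 780 (cons (fin 844 7 780)
(mv 716 (cons (fin 781 7 716)
(mv 1038 (cons (fin 1102 4 845)
(mv 1100 (cons (fin 1036 5 844)
(mv 1101 (cons (fin 1039 1 1036)
(fin 1164 5 908)))))))))))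
(mv 844 (cons (fin 780 7 780)
(mv 1100 (cons (fin 1036 5 844)
(mv 1101 (cons (fin 908 7 844)
(fin 1164 5 908))))))))
(cons (mv 1036 (cons (fin 1100 5 844)
(mv 1038 (cons (fin 1102 4 845)
(mv 781 (cons (fin 974 4 781)
(mv 716 (cons (fin 780 7 716)
(mv 717 (cons (fin 652 7 652)
(mv 718 (cons (fin 654 6 653)
(fin 782 6 717)))))))))))))
(cons (mv 780 (cons (fin 844 7 780)
(mv 781 (cons (fin 716 7 716)
(mv 1038 (cons (fin 974 4 781)
(fin 1102 4 845)))))))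
(mv 1036 (cons (fin 1100 5 844)
(mv 1038 (cons (fin 1102 4 845)
(mv 974 (cons (fin 781 4 781)
(mv 975 (cons (fin 976 1 972)
(fin 1035 2 971)))))))))))))
(mv 845 (cons (cons (mv 780 (cons (fin 844 7 780)
(mv 781 (cons (fin 716 7 716)
(mv 782 (cons (fin 718 6 717)
(fin 846 6 781)))))))
(mv 780 (cons (fin 844 7 780)
(mv 781 (cons (fin 716 7 716)
(mv 1038 (cons (fin 974 4 781)
(fin 1102 4 845))))))))
(cons (mv 782 (cons (fin 846 6 781)
(mv 781 (cons (fin 718 6 717)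
(mv 1038 (cons (fin 974 4 781)
(fin 1102 4 845)))))))
(mv 844 (cons (fin 780 7 780)
(mv 846 (cons (fin 782 6 781)
(mv 1101 (cons (fin 908 7 844)
(fin 910 6 845)))))))))))
(cons (mv 845 (cons (cons (mv 782 (cons (fin 846 6 781)
(mv 718 (cons (fin 781 6 717)
(mv 1038 (cons (fin 1102 4 845)
(mv 1100 (cons (fin 1036 5 844)
(mv 1101 (cons (fin 1039 1 1036)
(fin 1164 5 908)))))))))))
(mv 1036 (cons (fin 1100 5 844)
(mv 1038 (cons (fin 1102 4 845)
(mv 781 (cons (fin 974 4 781)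
(mv 716 (cons (fin 780 7 716)
(mv 717 (cons (fin 652 7 652)
(mv 718 (cons (fin 654 6 653)
(fin 782 6 717))))))))))))))
(cons (mv 846 (cons (fin 782 6 781)
(mv 1100 (cons (fin 1036 5 844)
(mv 1101 (cons (fin 1164 5 908)
(fin 910 6 845)))))))
(cons (mv 1036 (cons (fin 1100 5 844)
(mv 1038 (cons (fin 1102 4 845)
(mv 974 (cons (fin 781 4 781)
(mv 975 (cons (fin 976 1 972)
(fin 1035 2 971)))))))))
(mv 782 (cons (fin 846 6 781)
(mv 781 (cons (fin 718 6 717)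
(mv 1038 (cons (fin 974 4 781)
(fin 1102 4 845)))))))))))
(mv 845 (cons (cons (mv 780 (cons (fin 844 7 780)
(mv 716 (cons (fin 781 7 716)
(mv 846 (cons (fin 782 6 781)
(mv 1100 (cons (fin 1036 5 844)
(mv 1101 (cons (fin 1164 5 908)
(fin 910 6 845)))))))))))
(mv 844 (cons (fin 780 7 780)
(mv 1100 (cons (fin 1036 5 844)
(mv 1101 (cons (fin 908 7 844)
(fin 1164 5 908))))))))
(cons (mv 846 (cons (fin 782 6 781)
(mv 1100 (cons (fin 1036 5 844)
(mv 1101 (cons (fin 1164 5 908)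
(fin 910 6 845)))))))
(mv 780 (cons (fin 844 7 780)
(mv 781 (cons (fin 716 7 716)
(mv 782 (cons (fin 718 6 717)
(fin 846 6 781))))))))))))))))
(cons (mv 909 (cons (cons (mv 845 (cons (cons (mv 780 (cons (fin 844 7 780)
(mv 716 (cons (fin 781 7 716)
(mv 846 (cons (fin 782 6 781)
(mv 1038 (cons (fin 1102 4 845)
(mv 1100 (cons (fin 1036 5 844)
(mv 1101 (cons (fin 1164 5 908)
(fin 910 6 845)))))))))))))
(mv 782 (cons (fin 846 6 781)
(mv 781 (cons (fin 718 6 717)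
(mv 1036 (cons (fin 972 5 780)
(fin 1100 5 844))))))))
(cons (mv 780 (cons (fin 844 7 780)
(mv 781 (cons (fin 716 7 716)
(mv 1036 (cons (fin 972 5 780)
(fin 1100 5 844)))))))
(cons (mv 780 (cons (fin 844 7 780)
(mv 781 (cons (fin 716 7 716)
(mv 782 (cons (fin 718 6 717)
(fin 846 6 781)))))))
(mv 780 (cons (fin 844 7 780)
(mv 846 (cons (fin 782 6 781)
(mv 1038 (cons (fin 1102 4 845)
(mv 1100 (cons (fin 1036 5 844)
(mv 1101 (cons (fin 1164 5 908)
(fin 910 6 845)))))))))))))))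
(cons (mv 1101 (cons (cons (mv 844 (cons (fin 908 7 844)
(mv 910 (cons (fin 846 6 845)
(mv 1164 (cons (fin 1100 5 908)
(mv 1165 (cons (fin 1228 5 972)
(fin 974 6 909)))))))))
(mv 910 (cons (fin 846 6 845)
(mv 1164 (cons (fin 1100 5 908)
(mv 1165 (cons (fin 1228 5 972)
(fin 974 6 909))))))))
(cons (mv 908 (cons (fin 844 7 844)
(mv 1164 (cons (fin 1100 5 908)
(mv 1165 (cons (fin 972 7 908)
(fin 1228 5 972)))))))
(cons (mv 908 (cons (fin 844 7 844)
(mv 910 (cons (fin 846 6 845)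
(mv 1165 (cons (fin 972 7 908)
(fin 974 6 909)))))))
(mv 908 (cons (fin 844 7 844)
(mv 910 (cons (fin 846 6 845)
(mv 1100 (cons (fin 1164 5 908)
(mv 907 (cons (cons (mv 974 (cons (fin 906 0 906)
(fin 975 0 907)))
(mv 842 (cons (fin 843 3 842)
(mv 841 (cons (fin 906 3 841)
(mv 971 (cons (fin 970 1 906)
(mv 911 (cons (fin 972 1 907)
(mv 847 (cons (fin 848 2 844)
(mv 976 (cons (fin 975 0 908)
(mv 912 (cons (fin 977 0 909)
(fin 1104 7 847))))))))))))))))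
(cons (mv 842 (cons (fin 843 3 842)
(mv 970 (cons (fin 971 1 906)
(mv 975 (cons (fin 974 0 907)
(mv 911 (cons (fin 976 0 908)
(mv 848 (cons (fin 847 2 844)
(mv 912 (cons (fin 972 1 908)
(fin 849 2 845)))))))))))))
(mv 842 (cons (fin 843 3 842)
(mv 906 (cons (fin 841 3 841)
(fin 974 0 906))))))))))))))))))
(mv 845 (cons (cons (mv 780 (cons (fin 844 7 780)
(mv 781 (cons (fin 716 7 716)
(mv 782 (cons (fin 718 6 717)
(fin 846 6 781)))))))
(mv 782 (cons (fin 846 6 781)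
(mv 781 (cons (fin 718 6 717)
(mv 1036 (cons (fin 972 5 780)
(fin 1100 5 844))))))))
(cons (mv 780 (cons (fin 844 7 780)
(mv 781 (cons (fin 716 7 716)
(mv 1036 (cons (fin 972 5 780)
(fin 1100 5 844)))))))
(mv 782 (cons (fin 846 6 781)
(mv 844 (cons (fin 780 7 780)
(mv 1036 (cons (fin 1100 5 844)
(mv 1038 (cons (fin 1102 4 845)
(mv 1035 (cons (mv 974 (cons (fin 1034 2 970)
(fin 975 2 971)))
(cons (mv 970 (cons (fin 971 3 970)
(mv 1034 (cons (fin 969 3 969)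
(mv 1098 (cons (fin 1097 1 1033)
(fin 1099 1 1034)))))))
(mv 971 (cons (fin 970 3 970)
(mv 974 (cons (fin 975 2 971)
(mv 1099 (cons (fin 1098 1 1034)
(mv 908 (cons (fin 972 5 843)
(fin 907 6 843)))))))))))))))))))))))))
(cons (mv 845 (cons (cons (mv 782 (cons (fin 846 6 781)
(mv 781 (cons (fin 718 6 717)
(mv 1036 (cons (fin 972 5 780)
(fin 1100 5 844)))))))
(mv 782 (cons (fin 846 6 781)
(mv 781 (cons (fin 718 6 717)
(mv 1038 (cons (fin 974 4 781)
(fin 1102 4 845))))))))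
(cons (mv 1036 (cons (fin 1100 5 844)
(mv 781 (cons (fin 972 5 780)
(mv 1038 (cons (fin 974 4 781)
(fin 1102 4 845)))))))
(mv 846 (cons (fin 782 6 781)
(mv 1038 (cons (fin 1102 4 845)
(mv 1100 (cons (fin 1036 5 844)
(mv 1101 (cons (fin 1164 5 908)
(fin 910 6 845))))))))))))
(cons (mv 845 (cons (cons (mv 780 (cons (fin 844 7 780)
(mv 781 (cons (fin 716 7 716)
(mv 1036 (cons (fin 972 5 780)
(fin 1100 5 844)))))))
(mv 780 (cons (fin 844 7 780)
(mv 781 (cons (fin 716 7 716)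
(mv 1038 (cons (fin 974 4 781)
(fin 1102 4 845))))))))
(cons (mv 1036 (cons (fin 1100 5 844)
(mv 781 (cons (fin 972 5 780)
(mv 1038 (cons (fin 974 4 781)
(fin 1102 4 845)))))))
(mv 844 (cons (fin 780 7 780)
(mv 1038 (cons (fin 1102 4 845)
(mv 1100 (cons (fin 1036 5 844)
(mv 1101 (cons (fin 908 7 844)
(fin 1164 5 908))))))))))))
(mv 845 (cons (cons (mv 780 (cons (fin 844 7 780)
(mv 781 (cons (fin 716 7 716)
(mv 782 (cons (fin 718 6 717)
(fin 846 6 781)))))))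
(mv 782 (cons (fin 846 6 781)
(mv 781 (cons (fin 718 6 717)
(mv 1038 (cons (fin 974 4 781)
(fin 1102 4 845))))))))
(cons (mv 780 (cons (fin 844 7 780)
(mv 781 (cons (fin 716 7 716)
(mv 1038 (cons (fin 974 4 781)
(fin 1102 4 845)))))))
(mv 844 (cons (fin 780 7 780)
(mv 846 (cons (fin 782 6 781)
(mv 1101 (cons (fin 908 7 844)
(fin 910 6 845))))))))))))))
(cons (mv 972 (cons (cons (cons (mv 1038 (cons (fin 1039 3 972)
(mv 971 (cons (fin 970 0 970)
(mv 974 (cons (cons (mv 906 (cons (fin 907 3 906)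
(mv 910 (cons (fin 911 2 907)
(mv 846 (cons (fin 782 5 781)
(fin 1101 5 845)))))))
(mv 906 (cons (fin 907 3 906)
(mv 1035 (cons (fin 1034 1 970)
(mv 975 (cons (fin 1036 1 971)
(mv 912 (cons (fin 911 2 908)
(mv 976 (cons (fin 977 1 973)
(fin 913 2 909))))))))))))
(cons (mv 910 (cons (fin 911 2 907)
(mv 846 (cons (fin 782 5 781)
(fin 1101 5 845)))))
(mv 906 (cons (fin 907 3 906)
(mv 1035 (cons (fin 1034 1 970)
(mv 1036 (cons (fin 975 1 971)
(mv 1099 (cons (fin 1098 1 1034)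
(mv 908 (cons (fin 844 5 843)
(fin 1163 6 907))))))))))))))))))
(mv 974 (cons (mv 975 (cons (fin 1039 0 972)
(mv 1036 (cons (fin 1035 1 971)
(fin 976 1 972)))))
(cons (mv 971 (cons (cons (mv 906 (cons (fin 907 3 906)
(mv 910 (cons (fin 911 2 907)
(mv 782 (cons (fin 846 5 781)
(mv 970 (cons (fin 905 3 905)
(mv 1034 (cons (fin 1033 1 969)
(fin 1035 1 970)))))))))))
(cons (mv 907 (cons (fin 906 3 906)
(mv 910 (cons (fin 911 2 907)
(mv 782 (cons (fin 846 5 781)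
(mv 1101 (cons (fin 1165 6 909)
(mv 1036 (cons (cons (mv 779 (cons (fin 843 4 779)
(mv 908 (cons (fin 844 4 844)
(mv 969 (cons (fin 970 0 969)
(mv 1100 (cons (fin 1164 7 907)
(mv 1099 (cons (fin 1163 5 907)
(mv 1098 (cons (fin 1097 2 1033)
(mv 1162 (cons (fin 1161 1 1097)
(fin 1035 5 906)))))))))))))))
(mv 843 (cons (fin 779 4 779)
(mv 844 (cons (fin 908 4 844)
(mv 780 (cons (fin 1035 6 779)
(mv 652 (cons (fin 716 5 651)
(mv 781 (cons (fin 783 1 779)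
(mv 842 (cons (fin 841 2 777)
(fin 845 2 778))))))))))))))
(cons (mv 843 (cons (fin 779 4 779)
(mv 1100 (cons (fin 1164 7 907)
(fin 1035 4 843)))))
(cons (mv 908 (cons (fin 844 4 844)
(mv 969 (cons (fin 970 0 969)
(mv 1100 (cons (fin 1164 7 907)
(mv 1099 (cons (fin 1163 5 907)
(mv 1098 (cons (fin 1097 2 1033)
(mv 1162 (cons (fin 1161 1 1097)
(fin 1035 5 906)))))))))))))
(mv 843 (cons (fin 779 4 779)
(mv 908 (cons (fin 1100 7 843)
(fin 844 4 844)))))))))))))))))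
(mv 906 (cons (fin 907 3 906)
(mv 970 (cons (fin 905 3 905)
(mv 1034 (cons (fin 1033 1 969)
(fin 1035 1 970)))))))))
(cons (cons (mv 906 (cons (fin 907 3 906)
(mv 910 (cons (fin 911 2 907)
(mv 782 (cons (fin 846 5 781)
(mv 970 (cons (fin 905 3 905)
(mv 969 (cons (fin 1036 0 969)
(mv 1033 (cons (fin 1032 1 968)
(fin 1034 1 969)))))))))))))
(mv 910 (cons (fin 911 2 907)
(mv 782 (cons (fin 846 5 781)
(mv 1034 (cons (fin 1035 1 970)
(mv 970 (cons (fin 1033 1 969)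
(mv 1036 (cons (fin 969 0 969)
(mv 1101 (cons (fin 1165 6 909)
(mv 908 (cons (fin 844 4 844)
(mv 1100 (cons (mv 907 (cons (fin 843 7 843)
(fin 1164 7 907)))
(cons (mv 1163 (cons (fin 1099 5 907)
(mv 1164 (cons (fin 1227 5 971)
(fin 1228 6 972)))))
(mv 907 (cons (fin 843 7 843)
(mv 1098 (cons (fin 1162 6 906)
(mv 1099 (cons (fin 1097 2 1033)
(fin 1163 5 907)))))))))))))))))))))))))
(cons (mv 910 (cons (fin 911 2 907)
(mv 782 (cons (fin 846 5 781)
(mv 1034 (cons (fin 1035 1 970)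
(mv 970 (cons (fin 1033 1 969)
(mv 905 (cons (fin 906 3 905)
(mv 969 (cons (fin 904 3 904)
(fin 1036 0 969)))))))))))))
(mv 907 (cons (fin 906 3 906)
(mv 910 (cons (fin 911 2 907)
(mv 782 (cons (fin 846 5 781)
(mv 1035 (cons (fin 1034 1 970)
(mv 1101 (cons (fin 1165 6 909)
(mv 908 (cons (mv 844 (cons (fin 780 5 779)
(fin 1099 6 843)))
(cons (mv 1099 (cons (fin 1163 6 907)
(mv 1098 (cons (fin 1162 5 906)
(mv 1100 (cons (fin 1164 4 907)
(mv 1036 (cons (fin 1097 2 1033)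
(fin 843 7 843)))))))))
(mv 844 (cons (fin 780 5 779)
(fin 1036 4 844))))))))))))))))))))
(mv 975 (cons (fin 1039 0 972)
(mv 907 (cons (fin 908 3 907)
(mv 911 (cons (fin 912 2 908)
(mv 971 (cons (fin 906 3 906)
(fin 910 2 907)))))))))))))
(cons (mv 908 (cons (cons (mv 844 (cons (fin 780 4 780)
(mv 1101 (cons (fin 1165 7 908)
(fin 1036 4 844)))))
(mv 1101 (cons (fin 1165 7 908)
(mv 974 (cons (cons (mv 907 (cons (fin 975 3 907)
(mv 906 (cons (fin 971 3 906)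
(fin 905 0 905)))))
(mv 971 (cons (cons (mv 906 (cons (fin 907 3 906)
(mv 970 (cons (fin 905 3 905)
(fin 1038 0 970)))))
(mv 906 (cons (fin 907 3 906)
(mv 910 (cons (fin 911 2 907)
(mv 846 (cons (fin 782 5 781)
(fin 1038 5 845))))))))
(cons (mv 910 (cons (fin 911 2 907)
(mv 846 (cons (fin 782 5 781)
(fin 1038 5 845)))))
(mv 906 (cons (fin 907 3 906)
(mv 910 (cons (fin 911 2 907)
(mv 782 (cons (fin 846 5 781)
(mv 970 (cons (fin 905 3 905)
(mv 1034 (cons (fin 1033 1 969)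
(fin 1035 1 970)))))))))))))))
(cons (mv 1035 (cons (cons (mv 1034 (cons (fin 971 1 970)
(fin 1036 2 970)))
(mv 971 (cons (fin 1034 1 970)
(mv 910 (cons (fin 911 2 907)
(mv 846 (cons (fin 782 5 781)
(fin 1038 5 845))))))))
(cons (mv 975 (cons (fin 1036 1 971)
(mv 911 (cons (fin 912 2 908)
(mv 910 (cons (fin 971 2 907)
(mv 846 (cons (fin 782 5 781)
(fin 1038 5 845)))))))))
(mv 1036 (cons (fin 975 1 971)
(fin 1034 2 970))))))
(mv 975 (cons (fin 907 3 907)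
(mv 1036 (cons (fin 1035 1 971)
(fin 976 1 972)))))))))))
(cons (mv 780 (cons (fin 844 4 780)
(mv 974 (cons (cons (mv 907 (cons (fin 975 3 907)
(mv 906 (cons (fin 971 3 906)
(fin 905 0 905)))))
(mv 971 (cons (cons (mv 906 (cons (fin 907 3 906)
(mv 970 (cons (fin 905 3 905)
(fin 1038 0 970)))))
(mv 907 (cons (fin 906 3 906)
(mv 910 (cons (fin 911 2 907)
(mv 782 (cons (fin 846 5 781)
(mv 1035 (cons (fin 1034 1 970)
(mv 1099 (cons (fin 1163 6 907)
(mv 1098 (cons (fin 1162 5 906)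
(mv 1036 (cons (fin 1038 1 1034)
(mv 843 (cons (fin 1100 7 843)
(fin 779 4 779))))))))))))))))))
(cons (mv 910 (cons (fin 911 2 907)
(mv 782 (cons (fin 846 5 781)
(mv 970 (cons (fin 1038 0 970)
(mv 1034 (cons (fin 1033 1 969)
(fin 1035 1 970)))))))))
(mv 906 (cons (fin 907 3 906)
(mv 910 (cons (fin 911 2 907)
(mv 782 (cons (fin 846 5 781)
(mv 970 (cons (fin 905 3 905)
(mv 1034 (cons (fin 1033 1 969)
(fin 1035 1 970)))))))))))))))
(cons (mv 971 (cons (cons (mv 910 (cons (fin 911 2 907)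
(mv 782 (cons (fin 846 5 781)
(mv 970 (cons (fin 1038 0 970)
(mv 1034 (cons (fin 1033 1 969)
(fin 1035 1 970)))))))))
(mv 910 (cons (fin 911 2 907)
(mv 782 (cons (fin 846 5 781)
(mv 970 (cons (fin 1038 0 970)
(mv 905 (cons (fin 906 3 905)
(mv 969 (cons (fin 904 3 904)
(fin 1036 0 969))))))))))))
(cons (mv 910 (cons (fin 911 2 907)
(mv 782 (cons (fin 846 5 781)
(mv 1035 (cons (fin 1034 1 970)
(mv 1036 (cons (fin 975 1 971)
(mv 1099 (cons (fin 1163 6 907)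
(mv 1098 (cons (fin 1038 1 1034)
(mv 1097 (cons (fin 1096 2 1032)
(fin 1100 2 1033)))))))))))))))
(cons (mv 970 (cons (fin 1038 0 970)
(mv 1034 (cons (fin 1033 1 969)
(fin 1035 1 970)))))
(mv 910 (cons (fin 911 2 907)
(mv 782 (cons (fin 846 5 781)
(mv 1034 (cons (fin 1035 1 970)
(mv 970 (cons (fin 1033 1 969)
(mv 905 (cons (fin 906 3 905)
(mv 969 (cons (fin 904 3 904)
(fin 1036 0 969)))))))))))))))))
(mv 975 (cons (fin 907 3 907)
(mv 1036 (cons (fin 1035 1 971)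
(fin 976 1 972))))))))))
(mv 780 (cons (fin 844 4 780)
(mv 1101 (cons (fin 1165 7 908)
(mv 971 (cons (cons (mv 970 (cons (fin 1038 0 970)
(mv 905 (cons (fin 906 3 905)
(mv 904 (cons (fin 969 3 904)
(mv 1034 (cons (fin 1033 1 969)
(mv 974 (cons (fin 1035 1 970)
(mv 911 (cons (fin 910 2 907)
(mv 975 (cons (fin 907 3 907)
(fin 912 2 908)))))))))))))))
(mv 974 (cons (mv 907 (cons (fin 906 3 906)
(fin 975 3 907)))
(mv 910 (cons (fin 911 2 907)
(mv 846 (cons (fin 782 5 781)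
(fin 1038 5 845))))))))
(cons (mv 1034 (cons (cons (mv 970 (cons (fin 1033 1 969)
(mv 905 (cons (fin 906 3 905)
(mv 904 (cons (fin 969 3 904)
(mv 974 (cons (fin 1035 1 970)
(mv 911 (cons (fin 910 2 907)
(mv 975 (cons (fin 907 3 907)
(fin 912 2 908)))))))))))))
(cons (mv 970 (cons (fin 1033 1 969)
(mv 905 (cons (fin 906 3 905)
(mv 969 (cons (fin 904 3 904)
(mv 777 (cons (fin 841 4 777)
(mv 907 (cons (fin 968 2 904)
(mv 843 (cons (fin 779 5 778)
(mv 1098 (cons (fin 1162 7 905)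
(fin 1035 5 842)))))))))))))))
(mv 970 (cons (fin 1033 1 969)
(mv 906 (cons (fin 905 3 905)
(mv 907 (cons (fin 974 3 906)
(mv 843 (cons (fin 779 5 778)
(fin 1098 6 842)))))))))))
(cons (mv 974 (cons (fin 1035 1 970)
(mv 907 (cons (fin 906 3 906)
(fin 975 3 907)))))
(cons (mv 970 (cons (fin 1033 1 969)
(mv 906 (cons (fin 905 3 905)
(mv 1035 (cons (fin 974 1 970)
(mv 842 (cons (fin 778 4 778)
(fin 1099 4 842)))))))))
(mv 970 (cons (fin 1033 1 969)
(mv 974 (cons (fin 1035 1 970)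
(mv 911 (cons (fin 910 2 907)
(mv 975 (cons (fin 907 3 907)
(fin 912 2 908)))))))))))))
(cons (mv 970 (cons (fin 1038 0 970)
(mv 905 (cons (fin 906 3 905)
(mv 969 (cons (fin 904 3 904)
(mv 1033 (cons (fin 1032 1 968)
(fin 1034 1 969)))))))))
(mv 970 (cons (fin 1038 0 970)
(mv 1033 (cons (fin 1034 1 969)
(mv 969 (cons (fin 1032 1 968)
(mv 904 (cons (fin 905 3 904)
(mv 968 (cons (fin 903 3 903)
(fin 907 2 904))))))))))))))))))))))
(mv 1038 (cons (fin 1039 3 972)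
(mv 971 (cons (fin 970 0 970)
(mv 974 (cons (cons (mv 906 (cons (fin 907 3 906)
(mv 910 (cons (fin 911 2 907)
(mv 846 (cons (fin 782 5 781)
(fin 1101 5 845)))))))
(mv 906 (cons (fin 907 3 906)
(mv 1035 (cons (fin 1034 1 970)
(mv 975 (cons (fin 1036 1 971)
(mv 912 (cons (fin 911 2 908)
(mv 976 (cons (fin 977 1 973)
(fin 913 2 909))))))))))))
(cons (mv 906 (cons (fin 907 3 906)
(mv 1035 (cons (fin 1034 1 970)
(mv 1036 (cons (fin 975 1 971)
(mv 1099 (cons (fin 1098 1 1034)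
(mv 1102 (cons (fin 1103 0 1035)
(mv 1163 (cons (fin 1227 6 971)
(mv 1162 (cons (fin 1226 5 970)
(mv 1101 (cons (fin 1100 1 1098)
(mv 910 (cons (fin 846 5 845)
(fin 1165 5 909)))))))))))))))))))
(mv 910 (cons (fin 911 2 907)
(mv 846 (cons (fin 782 5 781)
(fin 1101 5 845))))))))))))))
(cons (cons (mv 1038 (cons (fin 1039 3 972)
(mv 971 (cons (fin 970 0 970)
(mv 1101 (cons (cons (mv 908 (cons (fin 1165 7 908)
(mv 844 (cons (fin 780 4 780)
(fin 1036 4 844)))))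
(mv 1036 (cons (cons (mv 1165 (cons (fin 1229 7 972)
(mv 1164 (cons (fin 1228 5 972)
(mv 1100 (cons (fin 907 7 907)
(mv 1098 (cons (fin 1099 2 1034)
(mv 1163 (cons (fin 1227 5 971)
(mv 1102 (cons (fin 1103 1 1099)
(fin 1162 2 1098)))))))))))))
(cons (mv 1035 (cons (mv 1034 (cons (fin 1033 2 969)
(fin 1102 0 1034)))
(cons (mv 1099 (cons (fin 1098 1 1034)
(mv 1102 (cons (fin 1103 0 1035)
(mv 1163 (cons (fin 1227 6 971)
(mv 1162 (cons (fin 1100 1 1098)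
(fin 1226 5 970)))))))))
(mv 1033 (cons (fin 1034 2 969)
(mv 1099 (cons (fin 1098 1 1034)
(mv 1163 (cons (fin 1227 6 971)
(mv 1162 (cons (fin 1226 5 970)
(mv 1164 (cons (fin 1228 4 971)
(mv 1100 (cons (fin 1161 2 1097)
(fin 907 7 907))))))))))))))))
(mv 1165 (cons (fin 1229 7 972)
(mv 1164 (cons (fin 1228 5 972)
(mv 1035 (cons (mv 1034 (cons (fin 1033 2 969)
(fin 1102 0 1034)))
(cons (mv 1034 (cons (fin 1033 2 969)
(mv 1098 (cons (fin 1097 1 1033)
(fin 1099 1 1034)))))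
(mv 1099 (cons (fin 1098 1 1034)
(mv 1102 (cons (fin 1103 0 1035)
(mv 1163 (cons (fin 1162 2 1098)
(fin 1227 6 971))))))))))))))))
(cons (cons (mv 1165 (cons (fin 1229 7 972)
(mv 1035 (cons (mv 1034 (cons (fin 1033 2 969)
(fin 1102 0 1034)))
(cons (mv 1099 (cons (fin 1098 1 1034)
(mv 1102 (cons (fin 1103 0 1035)
(mv 1163 (cons (fin 1227 6 971)
(mv 1162 (cons (fin 1100 1 1098)
(fin 1226 5 970)))))))))
(mv 1034 (cons (fin 1033 2 969)
(mv 1098 (cons (fin 1097 1 1033)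
(fin 1099 1 1034))))))))))
(mv 1165 (cons (fin 1229 7 972)
(mv 1164 (cons (fin 1228 5 972)
(mv 1100 (cons (fin 907 7 907)
(mv 1098 (cons (fin 1099 2 1034)
(mv 1163 (cons (fin 1227 5 971)
(mv 1162 (cons (fin 1097 3 1097)
(fin 1161 2 1097))))))))))))))
(cons (mv 1165 (cons (fin 1229 7 972)
(mv 1164 (cons (fin 1228 5 972)
(mv 1100 (cons (fin 907 7 907)
(mv 1163 (cons (fin 1227 5 971)
(mv 1102 (cons (fin 1103 1 1099)
(fin 1162 2 1098)))))))))))
(mv 1165 (cons (fin 1229 7 972)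
(mv 1164 (cons (fin 1228 5 972)
(mv 907 (cons (fin 1100 7 907)
(mv 843 (cons (fin 779 4 779)
(mv 1035 (cons (mv 1034 (cons (fin 1033 2 969)
(fin 1102 0 1034)))
(mv 780 (cons (fin 844 6 779)
(mv 842 (cons (fin 778 7 778)
(mv 1099 (cons (fin 1098 1 1034)
(fin 906 7 842))))))))))))))))))))))
(cons (mv 1099 (cons (cons (mv 1098 (cons (fin 1100 2 1034)
(mv 1035 (cons (fin 1036 1 1034)
(mv 907 (cons (fin 1162 5 906)
(mv 908 (cons (fin 844 6 843)
(fin 1163 6 907)))))))))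
(cons (mv 908 (cons (mv 844 (cons (fin 780 4 780)
(fin 1036 4 844)))
(cons (mv 1163 (cons (fin 1035 6 907)
(mv 1100 (cons (fin 1036 5 907)
(mv 1102 (cons (fin 1162 1 1098)
(mv 1103 (cons (fin 1164 1 1099)
(mv 1104 (cons (fin 1105 3 1037)
(mv 1168 (cons (fin 1167 0 1100)
(fin 1169 0 1101)))))))))))))
(mv 844 (cons (fin 780 4 780)
(mv 1035 (cons (fin 907 6 843)
(fin 1163 6 907))))))))
(mv 908 (cons (mv 844 (cons (fin 780 4 780)
(fin 1036 4 844)))
(cons (mv 1035 (cons (fin 1163 6 907)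
(mv 1036 (cons (fin 1098 1 1034)
(mv 1034 (cons (fin 1033 2 969)
(fin 1102 0 1034)))))))
(mv 844 (cons (fin 780 4 780)
(mv 1035 (cons (fin 907 6 843)
(fin 1163 6 907))))))))))
(cons (cons (mv 1098 (cons (fin 1100 2 1034)
(mv 1035 (cons (fin 1036 1 1034)
(mv 907 (cons (fin 1162 5 906)
(mv 842 (cons (fin 906 7 842)
(mv 843 (cons (fin 778 7 778)
(fin 1034 5 842)))))))))))
(mv 1100 (cons (fin 1098 2 1034)
(mv 1036 (cons (mv 908 (cons (fin 1163 5 907)
(fin 844 4 844)))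
(mv 1164 (cons (fin 907 7 907)
(fin 1228 6 972))))))))
(cons (mv 1098 (cons (fin 1100 2 1034)
(mv 1035 (cons (cons (mv 907 (cons (fin 1162 5 906)
(mv 908 (cons (fin 844 6 843)
(fin 1163 6 907)))))
(mv 1163 (cons (fin 908 6 907)
(mv 1162 (cons (fin 1226 5 970)
(mv 1228 (cons (fin 1164 4 971)
(mv 1227 (cons (fin 1292 4 1035)
(mv 1291 (cons (fin 1034 7 1034)
(fin 1355 7 1098))))))))))))
(cons (mv 908 (cons (fin 1163 6 907)
(mv 844 (cons (fin 780 5 779)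
(fin 907 6 843)))))
(mv 907 (cons (fin 1162 5 906)
(mv 842 (cons (fin 906 7 842)
(mv 843 (cons (fin 778 7 778)
(fin 1034 5 842))))))))))))
(mv 1098 (cons (fin 1100 2 1034)
(mv 1035 (cons (fin 1036 1 1034)
(mv 1163 (cons (fin 908 6 907)
(mv 1162 (cons (fin 1226 5 970)
(mv 1228 (cons (fin 1164 4 971)
(mv 1227 (cons (fin 1292 4 1035)
(mv 1291 (cons (fin 1034 7 1034)
(fin 1355 7 1098)))))))))))))))))))
(mv 1165 (cons (fin 908 7 908)
(mv 1228 (cons (fin 1164 5 972)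
(mv 1229 (cons (fin 1292 5 1036)
(mv 1293 (cons (fin 1102 6 1037)
(mv 1294 (cons (fin 1230 4 1037)
(fin 1358 4 1101))))))))))))))))))
(mv 1039 (cons (fin 1038 3 972)
(mv 975 (cons (fin 974 0 972)
(mv 1104 (cons (cons (mv 911 (cons (fin 847 4 847)
(mv 1168 (cons (fin 976 7 911)
(fin 1232 7 975)))))
(mv 911 (cons (fin 847 4 847)
(mv 1103 (cons (mv 846 (cons (fin 910 7 846)
(mv 912 (cons (fin 848 6 847)
(mv 976 (cons (fin 1167 5 911)
(mv 913 (cons (fin 849 6 848)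
(mv 914 (cons (fin 915 1 911)
(mv 850 (cons (fin 851 2 847)
(mv 978 (cons (fin 979 0 911)
(mv 1105 (cons (fin 1169 4 912)
(mv 1106 (cons (fin 1107 3 1039)
(mv 1042 (cons (fin 1043 2 1039)
(mv 1170 (cons (fin 1171 0 1103)
(fin 977 7 913)))))))))))))))))))))))
(cons (mv 846 (cons (fin 910 7 846)
(mv 1101 (cons (mv 1102 (cons (fin 1036 3 1036)
(fin 1100 2 1036)))
(cons (mv 908 (cons (fin 1165 7 908)
(mv 844 (cons (fin 780 4 780)
(fin 1036 4 844)))))
(mv 1102 (cons (fin 1100 2 1036)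
(mv 1165 (cons (fin 1164 1 1100)
(fin 908 7 908))))))))))
(mv 912 (cons (fin 848 6 847)
(mv 976 (cons (fin 1167 5 911)
(mv 913 (cons (fin 849 6 848)
(mv 914 (cons (fin 915 1 911)
(mv 850 (cons (fin 851 2 847)
(mv 978 (cons (fin 979 0 911)
(mv 1105 (cons (fin 1169 4 912)
(mv 1106 (cons (fin 1107 3 1039)
(mv 1042 (cons (fin 1043 2 1039)
(mv 1170 (cons (fin 1171 0 1103)
(fin 977 7 913)))))))))))))))))))))))))))
(cons (mv 1168 (cons (fin 1232 7 975)
(mv 976 (cons (mv 913 (cons (fin 977 6 912)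
(mv 912 (cons (fin 849 6 848)
(mv 848 (cons (fin 784 5 783)
(fin 1103 5 847)))))))
(cons (mv 1167 (cons (fin 1231 5 975)
(mv 912 (cons (fin 1103 5 911)
(mv 1169 (cons (fin 1105 4 912)
(fin 1233 4 976)))))))
(mv 977 (cons (fin 913 6 912)
(mv 978 (cons (fin 979 1 975)
(mv 914 (cons (fin 915 2 911)
(mv 1042 (cons (fin 1043 0 975)
(mv 1167 (cons (fin 1231 5 975)
(mv 1169 (cons (fin 1233 4 976)
(mv 1106 (cons (fin 1105 5 913)
(mv 1107 (cons (fin 1170 2 1103)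
(fin 1171 4 914))))))))))))))))))))))
(mv 911 (cons (fin 847 4 847)
(mv 1168 (cons (fin 1232 7 975)
(fin 1103 4 911)))))))))))))
(cons (mv 1038 (cons (fin 1039 3 972)
(mv 971 (cons (fin 970 0 970)
(mv 974 (cons (cons (mv 906 (cons (fin 907 3 906)
(mv 910 (cons (fin 911 2 907)
(mv 782 (cons (fin 846 5 781)
(mv 1035 (cons (fin 1034 1 970)
(mv 1036 (cons (fin 975 1 971)
(mv 1099 (cons (fin 1098 1 1034)
(mv 908 (cons (fin 844 5 843)
(fin 1163 6 907)))))))))))))))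
(cons (mv 906 (cons (fin 907 3 906)
(mv 911 (cons (fin 910 2 907)
(mv 975 (cons (fin 912 2 908)
(mv 976 (cons (fin 1036 1 972)
(fin 977 1 973)))))))))
(mv 906 (cons (fin 907 3 906)
(mv 1035 (cons (fin 1034 1 970)
(mv 975 (cons (fin 1036 1 971)
(mv 912 (cons (fin 911 2 908)
(mv 976 (cons (fin 977 1 973)
(fin 913 2 909)))))))))))))
(cons (cons (mv 910 (cons (fin 911 2 907)
(mv 782 (cons (fin 846 5 781)
(mv 1035 (cons (fin 1034 1 970)
(mv 1036 (cons (fin 975 1 971)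
(mv 1099 (cons (fin 1098 1 1034)
(mv 908 (cons (fin 844 5 843)
(fin 1163 6 907)))))))))))))
(mv 906 (cons (fin 907 3 906)
(mv 1035 (cons (fin 1034 1 970)
(mv 1036 (cons (fin 975 1 971)
(mv 1099 (cons (fin 1098 1 1034)
(mv 908 (cons (fin 844 5 843)
(fin 1163 6 907))))))))))))
(cons (mv 907 (cons (fin 906 3 906)
(mv 910 (cons (fin 911 2 907)
(mv 846 (cons (fin 782 5 781)
(mv 845 (cons (fin 781 7 781)
(mv 847 (cons (fin 783 6 782)
(mv 844 (cons (fin 908 1 843)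
(mv 779 (cons (fin 780 3 779)
(mv 843 (cons (fin 778 3 778)
(fin 1036 4 779)))))))))))))))))
(mv 907 (cons (fin 906 3 906)
(mv 908 (cons (fin 975 3 907)
(mv 844 (cons (fin 780 4 780)
(mv 1035 (cons (fin 1034 1 970)
(fin 1099 6 843)))))))))))))))))
(mv 1038 (cons (fin 1039 3 972)
(mv 971 (cons (fin 970 0 970)
(mv 974 (cons (cons (mv 906 (cons (fin 907 3 906)
(mv 910 (cons (fin 911 2 907)
(mv 846 (cons (fin 782 5 781)
(fin 1101 5 845)))))))
(mv 907 (cons (fin 906 3 906)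
(mv 908 (cons (fin 975 3 907)
(mv 780 (cons (fin 844 4 780)
(mv 1035 (cons (fin 1034 1 970)
(mv 1099 (cons (fin 1163 6 907)
(mv 1098 (cons (fin 1162 5 906)
(mv 1100 (cons (fin 1101 2 1034)
(fin 1164 4 907))))))))))))))))
(cons (mv 910 (cons (fin 911 2 907)
(mv 846 (cons (fin 782 5 781)
(fin 1101 5 845)))))
(mv 907 (cons (fin 906 3 906)
(mv 908 (cons (fin 975 3 907)
(mv 844 (cons (fin 780 4 780)
(mv 1035 (cons (fin 1034 1 970)
(fin 1099 6 843))))))))))))))))))))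
(mv 972 (cons (cons (cons (mv 1038 (cons (fin 1039 3 972)
(mv 971 (cons (fin 970 0 970)
(mv 974 (cons (cons (cons (mv 906 (cons (fin 907 3 906)
(mv 910 (cons (fin 911 2 907)
(mv 782 (cons (fin 846 5 781)
(mv 1035 (cons (fin 1034 1 970)
(mv 975 (cons (fin 1036 1 971)
(mv 976 (cons (fin 977 1 973)
(mv 909 (cons (fin 908 3 908)
(mv 845 (cons (fin 1102 7 845)
(fin 781 4 781)))))))))))))))))
(mv 906 (cons (fin 907 3 906)
(mv 910 (cons (fin 911 2 907)
(mv 846 (cons (fin 782 5 781)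
(mv 783 (cons (fin 847 6 782)
(mv 845 (cons (fin 781 7 781)
(mv 909 (cons (fin 1102 7 845)
(mv 844 (cons (fin 780 7 780)
(mv 843 (cons (fin 842 0 842)
(mv 779 (cons (fin 778 3 778)
(mv 1036 (cons (fin 908 7 779)
(fin 1100 5 844))))))))))))))))))))))
(cons (mv 906 (cons (fin 907 3 906)
(mv 1035 (cons (fin 1034 1 970)
(mv 975 (cons (fin 1036 1 971)
(mv 911 (cons (fin 912 2 908)
(mv 783 (cons (fin 847 5 782)
(mv 976 (cons (fin 977 1 973)
(mv 909 (cons (fin 908 3 908)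
(mv 845 (cons (fin 781 4 781)
(fin 1102 4 845)))))))))))))))))
(mv 910 (cons (fin 911 2 907)
(mv 782 (cons (fin 846 5 781)
(mv 1035 (cons (fin 1034 1 970)
(mv 975 (cons (fin 1036 1 971)
(mv 976 (cons (fin 977 1 973)
(mv 909 (cons (fin 908 3 908)
(mv 845 (cons (fin 1102 7 845)
(fin 781 4 781)))))))))))))))))
(cons (cons (mv 906 (cons (fin 907 3 906)
(mv 1035 (cons (fin 1034 1 970)
(mv 975 (cons (fin 1036 1 971)
(mv 976 (cons (fin 977 1 973)
(mv 909 (cons (fin 908 3 908)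
(mv 845 (cons (fin 781 4 781)
(fin 1102 4 845)))))))))))))
(mv 906 (cons (fin 907 3 906)
(mv 910 (cons (fin 911 2 907)
(mv 846 (cons (fin 782 5 781)
(mv 845 (cons (fin 781 7 781)
(mv 847 (cons (fin 783 6 782)
(mv 909 (cons (fin 1102 7 845)
(mv 848 (cons (fin 908 1 844)
(fin 849 1 845))))))))))))))))
(cons (mv 906 (cons (fin 907 3 906)
(mv 910 (cons (fin 911 2 907)
(mv 782 (cons (fin 846 5 781)
(mv 1035 (cons (fin 1034 1 970)
(mv 1036 (cons (fin 975 1 971)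
(mv 1099 (cons (fin 1098 1 1034)
(mv 908 (cons (fin 844 5 843)
(fin 1163 6 907)))))))))))))))
(mv 906 (cons (fin 907 3 906)
(mv 910 (cons (fin 911 2 907)
(mv 782 (cons (fin 846 5 781)
(mv 1035 (cons (fin 1034 1 970)
(mv 1036 (cons (fin 975 1 971)
(mv 1099 (cons (fin 1098 1 1034)
(mv 1102 (cons (fin 1103 0 1035)
(mv 909 (cons (fin 845 7 845)
(mv 1163 (cons (fin 1227 6 971)
(mv 1164 (cons (fin 1100 6 908)
(fin 1228 4 971)))))))))))))))))))))))))))))
(mv 974 (cons (mv 975 (cons (fin 1039 0 972)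
(mv 1036 (cons (fin 1035 1 971)
(fin 976 1 972)))))
(cons (mv 971 (cons (cons (mv 906 (cons (fin 907 3 906)
(mv 910 (cons (fin 911 2 907)
(mv 970 (cons (fin 905 3 905)
(fin 909 2 906)))))))
(mv 906 (cons (fin 907 3 906)
(mv 970 (cons (fin 905 3 905)
(mv 1034 (cons (fin 1033 1 969)
(fin 1035 1 970))))))))
(cons (mv 910 (cons (fin 911 2 907)
(mv 782 (cons (fin 846 5 781)
(mv 970 (cons (fin 909 2 906)
(mv 1034 (cons (fin 1033 1 969)
(fin 1035 1 970)))))))))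
(mv 907 (cons (fin 906 3 906)
(mv 910 (cons (fin 911 2 907)
(mv 782 (cons (fin 846 5 781)
(mv 1035 (cons (fin 1034 1 970)
(mv 843 (cons (cons (mv 1036 (cons (fin 779 4 779)
(fin 1100 4 843)))
(mv 778 (cons (fin 842 7 778)
(mv 714 (cons (fin 779 7 714)
(mv 844 (cons (fin 780 6 779)
(mv 1099 (cons (fin 908 6 843)
(mv 1162 (cons (fin 1098 5 906)
(mv 1163 (cons (fin 1226 5 970)
(mv 1164 (cons (fin 1100 4 907)
(fin 1228 4 971))))))))))))))))
(cons (mv 778 (cons (fin 842 7 778)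
(mv 780 (cons (fin 844 6 779)
(mv 1100 (cons (fin 1036 4 843)
(mv 1099 (cons (fin 1164 4 907)
(mv 1162 (cons (fin 1098 5 906)
(mv 1163 (cons (fin 1226 5 970)
(fin 908 6 907)))))))))))))
(mv 778 (cons (fin 842 7 778)
(mv 779 (cons (fin 714 7 714)
(fin 1036 4 779)))))))))))))))))))
(mv 975 (cons (fin 1039 0 972)
(mv 907 (cons (fin 908 3 907)
(mv 911 (cons (fin 912 2 908)
(mv 971 (cons (fin 906 3 906)
(fin 910 2 907)))))))))))))
(cons (mv 971 (cons (cons (mv 970 (cons (fin 1038 0 970)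
(mv 905 (cons (fin 906 3 905)
(mv 969 (cons (fin 904 3 904)
(fin 1036 0 969)))))))
(mv 974 (cons (cons (mv 906 (cons (fin 907 3 906)
(mv 911 (cons (fin 910 2 907)
(mv 975 (cons (fin 912 2 908)
(mv 1035 (cons (fin 1034 1 970)
(fin 1036 1 971)))))))))
(cons (mv 906 (cons (fin 907 3 906)
(mv 911 (cons (fin 910 2 907)
(mv 975 (cons (fin 912 2 908)
(mv 976 (cons (fin 1036 1 972)
(mv 783 (cons (fin 847 4 783)
(mv 909 (cons (fin 908 3 908)
(mv 1038 (cons (fin 977 1 973)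
(mv 845 (cons (fin 781 4 781)
(fin 1102 4 845)))))))))))))))))
(mv 911 (cons (fin 910 2 907)
(mv 975 (cons (fin 912 2 908)
(mv 1035 (cons (fin 1034 1 970)
(fin 1036 1 971)))))))))
(cons (cons (mv 906 (cons (fin 907 3 906)
(mv 1035 (cons (fin 1034 1 970)
(mv 975 (cons (fin 1036 1 971)
(mv 912 (cons (fin 911 2 908)
(mv 976 (cons (fin 913 2 909)
(mv 909 (cons (fin 908 3 908)
(mv 1038 (cons (fin 977 1 973)
(mv 845 (cons (fin 781 4 781)
(fin 1102 4 845)))))))))))))))))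
(mv 907 (cons (fin 906 3 906)
(mv 908 (cons (fin 975 3 907)
(mv 780 (cons (fin 844 4 780)
(mv 1035 (cons (fin 1034 1 970)
(mv 1099 (cons (fin 1163 6 907)
(mv 1098 (cons (fin 1162 5 906)
(mv 1036 (cons (fin 1038 1 1034)
(mv 843 (cons (fin 1100 7 843)
(fin 779 4 779))))))))))))))))))
(cons (mv 907 (cons (fin 906 3 906)
(mv 910 (cons (fin 911 2 907)
(mv 782 (cons (fin 846 5 781)
(mv 1035 (cons (fin 1034 1 970)
(mv 843 (cons (cons (mv 1036 (cons (fin 779 4 779)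
(fin 1100 4 843)))
(mv 778 (cons (fin 842 7 778)
(mv 714 (cons (fin 779 7 714)
(mv 844 (cons (fin 780 6 779)
(mv 1099 (cons (fin 908 6 843)
(mv 1162 (cons (fin 1098 5 906)
(mv 1163 (cons (fin 1226 5 970)
(mv 1164 (cons (fin 1100 4 907)
(fin 1228 4 971))))))))))))))))
(cons (mv 778 (cons (fin 842 7 778)
(mv 780 (cons (fin 844 6 779)
(mv 1100 (cons (fin 1036 4 843)
(mv 1099 (cons (fin 1164 4 907)
(mv 1162 (cons (fin 1098 5 906)
(mv 1163 (cons (fin 1226 5 970)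
(fin 908 6 907)))))))))))))
(mv 778 (cons (fin 842 7 778)
(mv 779 (cons (fin 714 7 714)
(fin 1036 4 779))))))))))))))))
(mv 907 (cons (fin 906 3 906)
(mv 908 (cons (fin 975 3 907)
(mv 780 (cons (fin 844 4 780)
(mv 910 (cons (fin 911 2 907)
(mv 846 (cons (fin 782 5 781)
(mv 909 (cons (fin 847 2 843)
(mv 843 (cons (fin 842 3 842)
(mv 779 (cons (fin 716 6 715)
(fin 715 4 715))))))))))))))))))))))
(cons (mv 970 (cons (mv 905 (cons (fin 906 3 905)
(mv 969 (cons (fin 904 3 904)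
(fin 1036 0 969)))))
(cons (mv 905 (cons (fin 906 3 905)
(mv 910 (cons (fin 909 2 906)
(mv 974 (cons (fin 911 2 907)
(mv 1034 (cons (fin 1033 1 969)
(fin 1035 1 970)))))))))
(mv 909 (cons (fin 910 2 906)
(mv 969 (cons (fin 908 2 905)
(fin 1036 0 969))))))))
(cons (mv 970 (cons (fin 1038 0 970)
(mv 909 (cons (fin 910 2 906)
(mv 969 (cons (fin 908 2 905)
(fin 1036 0 969)))))))
(mv 970 (cons (fin 1038 0 970)
(mv 905 (cons (fin 906 3 905)
(mv 904 (cons (fin 969 3 904)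
(mv 910 (cons (fin 909 2 906)
(mv 974 (cons (fin 911 2 907)
(mv 1034 (cons (fin 1033 1 969)
(fin 1035 1 970)))))))))))))))))
(mv 1038 (cons (fin 1039 3 972)
(mv 908 (cons (cons (cons (mv 844 (cons (fin 780 4 780)
(mv 970 (cons (fin 971 0 970)
(mv 1036 (cons (cons (mv 779 (cons (fin 843 7 779)
(mv 781 (cons (fin 845 6 780)
(mv 1035 (cons (fin 1099 5 843)
(mv 1034 (cons (fin 969 3 969)
(fin 1033 2 969)))))))))
(mv 779 (cons (fin 843 7 779)
(mv 1035 (cons (fin 1099 5 843)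
(mv 1034 (cons (fin 969 3 969)
(fin 1033 2 969))))))))
(cons (mv 779 (cons (fin 843 7 779)
(mv 845 (cons (fin 781 6 780)
(mv 909 (cons (fin 1100 5 844)
(fin 1102 4 845)))))))
(mv 781 (cons (fin 845 6 780)
(mv 1035 (cons (fin 1099 5 843)
(mv 1034 (cons (fin 969 3 969)
(fin 1033 2 969))))))))))))))
(mv 844 (cons (fin 780 4 780)
(mv 1036 (cons (cons (mv 779 (cons (fin 843 7 779)
(mv 781 (cons (fin 845 6 780)
(mv 1099 (cons (fin 1035 5 843)
(mv 1100 (cons (fin 1163 5 907)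
(mv 1164 (cons (fin 909 6 908)
(fin 1228 6 972)))))))))))
(cons (mv 779 (cons (fin 843 7 779)
(mv 1099 (cons (fin 1035 5 843)
(mv 1100 (cons (fin 1163 5 907)
(mv 1164 (cons (fin 909 6 908)
(fin 1228 6 972)))))))))
(mv 779 (cons (fin 843 7 779)
(mv 845 (cons (fin 781 6 780)
(mv 909 (cons (fin 1100 5 844)
(fin 1102 4 845)))))))))
(cons (mv 781 (cons (fin 845 6 780)
(mv 1099 (cons (fin 1035 5 843)
(mv 1100 (cons (fin 1163 5 907)
(mv 1164 (cons (fin 909 6 908)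
(fin 1228 6 972)))))))))
(cons (mv 779 (cons (fin 843 7 779)
(mv 845 (cons (fin 781 6 780)
(mv 909 (cons (fin 1102 4 845)
(mv 846 (cons (fin 782 6 781)
(mv 847 (cons (fin 907 1 843)
(fin 848 1 844)))))))))))
(mv 781 (cons (fin 845 6 780)
(mv 843 (cons (fin 779 7 779)
(mv 907 (cons (fin 1100 7 843)
(mv 906 (cons (fin 905 0 905)
(mv 1035 (cons (fin 1099 5 843)
(mv 1034 (cons (fin 1033 2 969)
(mv 970 (cons (fin 969 3 969)
(fin 1098 6 842))))))))))))))))))))))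
(cons (mv 909 (cons (mv 845 (cons (fin 1102 4 845)
(mv 781 (cons (fin 717 5 716)
(fin 1036 5 780)))))
(cons (mv 907 (cons (cons (mv 905 (cons (fin 906 0 905)
(mv 971 (cons (fin 970 0 970)
(mv 910 (cons (fin 911 1 907)
(mv 843 (cons (fin 842 3 842)
(mv 779 (cons (fin 715 4 715)
(fin 1036 4 779)))))))))))
(mv 906 (cons (fin 905 0 905)
(mv 842 (cons (fin 841 3 841)
(mv 843 (cons (fin 910 3 842)
(mv 715 (cons (fin 779 4 715)
(mv 970 (cons (fin 969 1 905)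
(mv 1034 (cons (fin 1098 6 842)
(mv 1033 (cons (fin 1097 5 841)
(mv 1035 (cons (fin 1036 2 969)
(fin 1099 4 842))))))))))))))))))
(cons (mv 906 (cons (fin 905 0 905)
(mv 842 (cons (fin 841 3 841)
(mv 843 (cons (fin 910 3 842)
(mv 779 (cons (fin 715 4 715)
(mv 1036 (cons (fin 1100 7 843)
(fin 971 4 779)))))))))))
(cons (mv 971 (cons (fin 970 0 970)
(mv 910 (cons (fin 911 1 907)
(mv 843 (cons (fin 842 3 842)
(mv 779 (cons (fin 715 4 715)
(fin 1036 4 779)))))))))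
(mv 906 (cons (fin 905 0 905)
(mv 970 (cons (fin 969 1 905)
(fin 971 0 970)))))))))
(mv 845 (cons (fin 1102 4 845)
(mv 717 (cons (fin 781 5 716)
(mv 846 (cons (fin 782 6 781)
(mv 847 (cons (fin 848 1 844)
(mv 907 (cons (fin 906 2 842)
(fin 910 2 843))))))))))))))
(cons (mv 844 (cons (fin 780 4 780)
(mv 1036 (cons (cons (mv 779 (cons (fin 843 7 779)
(mv 781 (cons (fin 845 6 780)
(mv 1099 (cons (fin 1035 5 843)
(mv 1100 (cons (fin 1163 5 907)
(mv 1164 (cons (fin 909 6 908)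
(fin 1228 6 972)))))))))))
(cons (mv 779 (cons (fin 843 7 779)
(mv 1099 (cons (fin 1035 5 843)
(mv 1100 (cons (fin 1163 5 907)
(mv 1164 (cons (fin 909 6 908)
(fin 1228 6 972)))))))))
(mv 779 (cons (fin 843 7 779)
(mv 845 (cons (fin 781 6 780)
(mv 909 (cons (fin 1100 5 844)
(fin 1102 4 845)))))))))
(cons (mv 781 (cons (fin 845 6 780)
(mv 1099 (cons (fin 1035 5 843)
(mv 1100 (cons (fin 1163 5 907)
(mv 1164 (cons (fin 909 6 908)
(fin 1228 6 972)))))))))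
(cons (mv 779 (cons (fin 843 7 779)
(mv 845 (cons (fin 781 6 780)
(mv 909 (cons (fin 1102 4 845)
(mv 846 (cons (fin 782 6 781)
(mv 847 (cons (fin 907 1 843)
(fin 848 1 844)))))))))))
(mv 781 (cons (fin 845 6 780)
(mv 843 (cons (fin 779 7 779)
(mv 907 (cons (fin 1100 7 843)
(mv 905 (cons (fin 906 0 905)
(mv 1035 (cons (fin 1099 5 843)
(mv 1034 (cons (fin 1033 2 969)
(mv 1098 (cons (fin 1097 1 1033)
(fin 971 5 842)))))))))))))))))))))
(mv 844 (cons (fin 780 4 780)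
(mv 970 (cons (fin 971 0 970)
(mv 1036 (cons (cons (mv 779 (cons (fin 843 7 779)
(mv 781 (cons (fin 845 6 780)
(mv 1035 (cons (fin 1099 5 843)
(mv 1034 (cons (fin 969 3 969)
(fin 1033 2 969)))))))))
(mv 781 (cons (fin 845 6 780)
(mv 843 (cons (fin 779 7 779)
(mv 1100 (cons (fin 907 7 843)
(mv 1163 (cons (fin 1099 5 907)
(mv 1164 (cons (fin 1227 5 971)
(fin 1228 6 972))))))))))))
(cons (mv 781 (cons (fin 845 6 780)
(mv 843 (cons (fin 779 7 779)
(mv 907 (cons (fin 1100 7 843)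
(mv 906 (cons (fin 905 0 905)
(mv 1034 (cons (fin 1098 6 842)
(mv 1035 (cons (fin 969 3 969)
(fin 1033 2 969)))))))))))))
(cons (mv 781 (cons (fin 845 6 780)
(mv 1035 (cons (fin 1099 5 843)
(mv 1034 (cons (fin 969 3 969)
(fin 1033 2 969)))))))
(mv 779 (cons (fin 843 7 779)
(mv 1035 (cons (fin 1099 5 843)
(mv 1034 (cons (fin 969 3 969)
(fin 1033 2 969))))))))))))))))))
(cons (cons (mv 844 (cons (fin 780 4 780)
(mv 970 (cons (fin 971 0 970)
(mv 1036 (cons (cons (mv 779 (cons (fin 843 7 779)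
(mv 1035 (cons (fin 1099 5 843)
(mv 1034 (cons (fin 969 3 969)
(fin 1033 2 969)))))))
(mv 843 (cons (fin 779 7 779)
(mv 907 (cons (fin 1100 7 843)
(mv 906 (cons (fin 905 0 905)
(mv 909 (cons (fin 969 1 905)
(mv 842 (cons (fin 841 3 841)
(fin 910 3 842))))))))))))
(cons (mv 1035 (cons (fin 1099 5 843)
(mv 1034 (cons (fin 969 3 969)
(fin 1033 2 969)))))
(mv 779 (cons (fin 843 7 779)
(mv 1099 (cons (fin 1035 5 843)
(mv 1100 (cons (fin 1163 5 907)
(mv 1164 (cons (fin 909 6 908)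
(fin 1228 6 972))))))))))))))))
(mv 780 (cons (fin 844 4 780)
(mv 909 (cons (mv 845 (cons (fin 1102 4 845)
(mv 781 (cons (fin 716 7 716)
(fin 717 5 716)))))
(cons (mv 907 (cons (cons (mv 905 (cons (fin 906 0 905)
(mv 971 (cons (fin 970 0 970)
(mv 910 (cons (fin 911 1 907)
(mv 843 (cons (fin 842 3 842)
(mv 779 (cons (fin 716 6 715)
(fin 715 4 715)))))))))))
(mv 906 (cons (fin 905 0 905)
(mv 842 (cons (fin 841 3 841)
(mv 843 (cons (fin 910 3 842)
(mv 779 (cons (fin 715 4 715)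
(mv 970 (cons (fin 969 1 905)
(fin 1034 6 778))))))))))))
(cons (mv 906 (cons (fin 905 0 905)
(mv 842 (cons (fin 841 3 841)
(mv 843 (cons (fin 910 3 842)
(mv 779 (cons (fin 715 4 715)
(mv 781 (cons (fin 782 1 778)
(mv 971 (cons (fin 716 6 715)
(mv 778 (cons (fin 714 7 714)
(fin 1035 7 778)))))))))))))))
(cons (mv 971 (cons (fin 970 0 970)
(mv 910 (cons (fin 911 1 907)
(mv 843 (cons (fin 842 3 842)
(mv 779 (cons (fin 716 6 715)
(fin 715 4 715)))))))))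
(mv 906 (cons (fin 905 0 905)
(mv 970 (cons (fin 969 1 905)
(fin 971 0 970)))))))))
(mv 845 (cons (fin 1102 4 845)
(mv 846 (cons (fin 782 6 781)
(mv 847 (cons (fin 848 1 844)
(mv 907 (cons (fin 906 2 842)
(fin 910 2 843)))))))))))))))
(cons (mv 780 (cons (fin 844 4 780)
(mv 909 (cons (mv 845 (cons (fin 1102 4 845)
(mv 781 (cons (fin 716 7 716)
(fin 717 5 716)))))
(cons (mv 907 (cons (cons (mv 905 (cons (fin 906 0 905)
(mv 971 (cons (fin 970 0 970)
(mv 910 (cons (fin 911 1 907)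
(mv 843 (cons (fin 842 3 842)
(mv 779 (cons (fin 716 6 715)
(fin 715 4 715)))))))))))
(mv 906 (cons (fin 905 0 905)
(mv 842 (cons (fin 841 3 841)
(mv 843 (cons (fin 910 3 842)
(mv 779 (cons (fin 715 4 715)
(mv 970 (cons (fin 969 1 905)
(fin 1034 6 778))))))))))))
(cons (mv 906 (cons (fin 905 0 905)
(mv 842 (cons (fin 841 3 841)
(mv 843 (cons (fin 910 3 842)
(mv 779 (cons (fin 715 4 715)
(mv 971 (cons (fin 716 6 715)
(fin 1036 4 779)))))))))))
(cons (mv 971 (cons (fin 970 0 970)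
(mv 910 (cons (fin 911 1 907)
(mv 843 (cons (fin 842 3 842)
(mv 779 (cons (fin 716 6 715)
(fin 715 4 715)))))))))
(mv 906 (cons (fin 905 0 905)
(mv 970 (cons (fin 969 1 905)
(fin 971 0 970)))))))))
(mv 845 (cons (fin 1102 4 845)
(mv 781 (cons (fin 717 5 716)
(fin 1036 5 780))))))))))
(cons (mv 844 (cons (fin 780 4 780)
(mv 970 (cons (fin 971 0 970)
(mv 1036 (cons (mv 781 (cons (fin 845 6 780)
(mv 1035 (cons (fin 1099 5 843)
(mv 1034 (cons (fin 969 3 969)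
(fin 1033 2 969)))))))
(cons (mv 1035 (cons (fin 1099 5 843)
(mv 1034 (cons (fin 969 3 969)
(fin 1033 2 969)))))
(mv 845 (cons (fin 781 6 780)
(mv 909 (cons (fin 1100 5 844)
(fin 1102 4 845))))))))))))
(mv 780 (cons (fin 844 4 780)
(mv 909 (cons (mv 845 (cons (fin 1102 4 845)
(mv 781 (cons (fin 716 7 716)
(fin 717 5 716)))))
(cons (mv 907 (cons (cons (mv 905 (cons (fin 906 0 905)
(mv 971 (cons (fin 970 0 970)
(mv 910 (cons (fin 911 1 907)
(mv 843 (cons (fin 842 3 842)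
(mv 779 (cons (fin 716 6 715)
(fin 715 4 715)))))))))))
(mv 906 (cons (fin 905 0 905)
(mv 842 (cons (fin 841 3 841)
(mv 910 (cons (fin 843 3 842)
(mv 847 (cons (fin 846 2 843)
(mv 911 (cons (fin 912 1 908)
(fin 848 2 844))))))))))))
(cons (mv 971 (cons (fin 970 0 970)
(mv 910 (cons (fin 911 1 907)
(mv 843 (cons (fin 842 3 842)
(mv 779 (cons (fin 716 6 715)
(fin 715 4 715)))))))))
(mv 906 (cons (fin 905 0 905)
(mv 970 (cons (fin 969 1 905)
(fin 971 0 970))))))))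
(mv 845 (cons (fin 1102 4 845)
(mv 781 (cons (fin 717 5 716)
(fin 1036 5 780)))))))))))))))))))
(cons (cons (mv 1039 (cons (fin 1038 3 972)
(mv 975 (cons (fin 974 0 972)
(mv 1104 (cons (cons (mv 911 (cons (fin 847 4 847)
(mv 1168 (cons (fin 976 7 911)
(fin 1232 7 975)))))
(mv 1168 (cons (fin 1232 7 975)
(mv 976 (cons (mv 913 (cons (fin 977 6 912)
(mv 912 (cons (fin 849 6 848)
(mv 848 (cons (fin 784 5 783)
(fin 1103 5 847)))))))
(cons (mv 1167 (cons (fin 1231 5 975)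
(mv 912 (cons (fin 1103 5 911)
(mv 1169 (cons (fin 1105 4 912)
(fin 1233 4 976)))))))
(mv 977 (cons (fin 913 6 912)
(mv 978 (cons (fin 979 1 975)
(mv 914 (cons (fin 915 2 911)
(mv 1042 (cons (fin 1043 0 975)
(mv 1167 (cons (fin 1231 5 975)
(mv 1169 (cons (fin 1233 4 976)
(mv 1106 (cons (fin 1105 5 913)
(mv 1107 (cons (fin 1170 2 1103)
(fin 1171 4 914)))))))))))))))))))))))
(cons (mv 911 (cons (fin 847 4 847)
(mv 912 (cons (cons (mv 848 (cons (fin 1103 6 847)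
(mv 784 (cons (fin 720 5 719)
(fin 976 5 783)))))
(mv 910 (cons (fin 909 1 908)
(mv 913 (cons (cons (mv 849 (cons (fin 850 2 846)
(fin 976 6 848)))
(mv 845 (cons (fin 846 3 845)
(mv 978 (cons (fin 977 0 910)
(mv 914 (cons (fin 979 0 911)
(mv 851 (cons (fin 850 2 847)
(mv 915 (cons (fin 976 1 911)
(fin 852 2 848))))))))))))
(cons (mv 845 (cons (fin 846 3 845)
(mv 850 (cons (fin 849 2 846)
(mv 914 (cons (fin 851 2 847)
(mv 978 (cons (fin 977 0 910)
(fin 979 0 911)))))))))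
(mv 845 (cons (fin 846 3 845)
(mv 976 (cons (fin 849 6 848)
(mv 784 (cons (fin 848 5 783)
(mv 914 (cons (fin 915 1 911)
(mv 978 (cons (fin 977 3 910)
(fin 979 0 911)))))))))))))))))
(cons (mv 910 (cons (fin 909 1 908)
(mv 846 (cons (fin 1103 7 846)
(mv 718 (cons (fin 782 4 718)
(mv 913 (cons (fin 845 3 845)
(mv 849 (cons (fin 850 2 846)
(fin 976 6 848)))))))))))
(mv 910 (cons (fin 909 1 908)
(mv 1103 (cons (fin 846 7 846)
(fin 848 6 847))))))))))
(mv 911 (cons (fin 847 4 847)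
(mv 1168 (cons (fin 1232 7 975)
(fin 1103 4 911))))))))))))
(mv 1038 (cons (fin 1039 3 972)
(mv 971 (cons (fin 970 0 970)
(mv 974 (cons (cons (mv 906 (cons (fin 907 3 906)
(mv 910 (cons (fin 911 2 907)
(mv 782 (cons (fin 846 5 781)
(mv 1035 (cons (fin 1034 1 970)
(mv 1036 (cons (fin 975 1 971)
(mv 1099 (cons (fin 1098 1 1034)
(mv 908 (cons (fin 844 5 843)
(fin 1163 6 907)))))))))))))))
(cons (mv 906 (cons (fin 907 3 906)
(mv 911 (cons (fin 910 2 907)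
(mv 975 (cons (fin 912 2 908)
(mv 976 (cons (fin 1036 1 972)
(fin 977 1 973)))))))))
(mv 906 (cons (fin 907 3 906)
(mv 1035 (cons (fin 1034 1 970)
(mv 975 (cons (fin 1036 1 971)
(mv 912 (cons (fin 911 2 908)
(mv 976 (cons (fin 977 1 973)
(fin 913 2 909)))))))))))))
(cons (cons (mv 910 (cons (fin 911 2 907)
(mv 782 (cons (fin 846 5 781)
(mv 1035 (cons (fin 1034 1 970)
(mv 1036 (cons (fin 975 1 971)
(mv 1099 (cons (fin 1098 1 1034)
(mv 908 (cons (fin 844 5 843)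
(fin 1163 6 907)))))))))))))
(mv 906 (cons (fin 907 3 906)
(mv 1035 (cons (fin 1034 1 970)
(mv 1036 (cons (fin 975 1 971)
(mv 1099 (cons (fin 1098 1 1034)
(mv 908 (cons (fin 844 5 843)
(fin 1163 6 907))))))))))))
(cons (mv 907 (cons (fin 906 3 906)
(mv 910 (cons (fin 911 2 907)
(mv 846 (cons (fin 782 5 781)
(mv 845 (cons (fin 781 7 781)
(mv 847 (cons (fin 783 6 782)
(mv 844 (cons (fin 908 1 843)
(mv 779 (cons (fin 780 3 779)
(mv 843 (cons (fin 778 3 778)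
(fin 1036 4 779)))))))))))))))))
(mv 907 (cons (fin 906 3 906)
(mv 908 (cons (fin 975 3 907)
(mv 844 (cons (fin 780 4 780)
(mv 1035 (cons (fin 1034 1 970)
(fin 1099 6 843))))))))))))))))))
(cons (mv 1038 (cons (fin 1039 3 972)
(mv 971 (cons (fin 970 0 970)
(mv 974 (cons (cons (mv 906 (cons (fin 907 3 906)
(mv 1035 (cons (fin 1034 1 970)
(mv 975 (cons (fin 1036 1 971)
(mv 911 (cons (fin 912 2 908)
(mv 783 (cons (fin 847 5 782)
(mv 976 (cons (fin 977 1 973)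
(mv 909 (cons (fin 908 3 908)
(mv 845 (cons (fin 781 4 781)
(fin 1102 4 845)))))))))))))))))
(cons (mv 907 (cons (fin 906 3 906)
(mv 975 (cons (fin 908 3 907)
(mv 976 (cons (fin 1036 1 972)
(fin 977 1 973)))))))
(mv 1035 (cons (fin 1034 1 970)
(mv 975 (cons (fin 1036 1 971)
(mv 911 (cons (fin 912 2 908)
(mv 783 (cons (fin 847 5 782)
(mv 976 (cons (fin 977 1 973)
(mv 909 (cons (fin 908 3 908)
(mv 845 (cons (fin 781 4 781)
(fin 1102 4 845)))))))))))))))))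
(cons (mv 907 (cons (fin 906 3 906)
(mv 1035 (cons (fin 1034 1 970)
(mv 1036 (cons (mv 843 (cons (fin 779 4 779)
(fin 1100 4 843)))
(cons (mv 779 (cons (fin 843 4 779)
(mv 1099 (cons (fin 1098 1 1034)
(mv 908 (cons (fin 844 5 843)
(fin 1163 6 907)))))))
(mv 1099 (cons (fin 1098 1 1034)
(mv 908 (cons (fin 844 5 843)
(fin 1163 6 907))))))))))))
(cons (mv 907 (cons (fin 906 3 906)
(mv 908 (cons (fin 975 3 907)
(mv 844 (cons (fin 780 4 780)
(mv 1035 (cons (fin 1034 1 970)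
(fin 1099 6 843)))))))))
(mv 906 (cons (fin 907 3 906)
(mv 1035 (cons (fin 1034 1 970)
(mv 975 (cons (fin 1036 1 971)
(mv 912 (cons (fin 911 2 908)
(mv 976 (cons (fin 977 1 973)
(fin 913 2 909)))))))))))))))))))
(mv 1038 (cons (fin 1039 3 972)
(mv 971 (cons (fin 970 0 970)
(mv 974 (cons (cons (mv 906 (cons (fin 907 3 906)
(mv 1035 (cons (fin 1034 1 970)
(mv 975 (cons (fin 1036 1 971)
(mv 976 (cons (fin 977 1 973)
(mv 909 (cons (fin 908 3 908)
(mv 845 (cons (fin 781 4 781)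
(fin 1102 4 845)))))))))))))
(cons (mv 907 (cons (fin 906 3 906)
(mv 975 (cons (fin 908 3 907)
(mv 976 (cons (fin 1036 1 972)
(fin 977 1 973)))))))
(mv 1035 (cons (fin 1034 1 970)
(mv 975 (cons (fin 1036 1 971)
(mv 976 (cons (fin 977 1 973)
(mv 909 (cons (fin 908 3 908)
(mv 845 (cons (fin 781 4 781)
(fin 1102 4 845)))))))))))))
(cons (mv 907 (cons (fin 906 3 906)
(mv 1035 (cons (fin 1034 1 970)
(mv 1036 (cons (mv 843 (cons (fin 779 4 779)
(fin 1100 4 843)))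
(cons (mv 779 (cons (fin 843 4 779)
(mv 1099 (cons (fin 1098 1 1034)
(mv 908 (cons (fin 844 5 843)
(fin 1163 6 907)))))))
(mv 1099 (cons (fin 1098 1 1034)
(mv 908 (cons (fin 844 5 843)
(fin 1163 6 907))))))))))))
(cons (mv 907 (cons (fin 906 3 906)
(mv 908 (cons (fin 975 3 907)
(mv 844 (cons (fin 780 4 780)
(mv 1035 (cons (fin 1034 1 970)
(fin 1099 6 843)))))))))
(mv 906 (cons (fin 907 3 906)
(mv 1035 (cons (fin 1034 1 970)
(mv 1036 (cons (fin 975 1 971)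
(mv 1099 (cons (fin 1098 1 1034)
(mv 1102 (cons (fin 1103 0 1035)
(mv 909 (cons (fin 845 4 845)
(mv 1163 (cons (fin 1227 6 971)
(mv 1164 (cons (fin 1100 6 908)
(fin 1228 4 971))))))))))))))))))))))))))))))))
(cons (cons (mv 909 (cons (cons (cons (mv 845 (cons (cons (mv 780 (cons (fin 844 7 780)
(mv 716 (cons (fin 781 7 716)
(mv 782 (cons (fin 846 6 781)
(mv 1036 (cons (fin 1100 5 844)
(mv 1038 (cons (fin 1102 4 845)
(mv 1039 (cons (fin 972 3 972)
(mv 976 (cons (fin 975 2 972)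
(fin 977 2 973)))))))))))))))
(cons (mv 782 (cons (fin 846 6 781)
(mv 718 (cons (fin 781 6 717)
(mv 1036 (cons (fin 1100 5 844)
(mv 1038 (cons (fin 1102 4 845)
(mv 1039 (cons (fin 972 3 972)
(mv 976 (cons (fin 975 2 972)
(fin 977 2 973)))))))))))))
(mv 780 (cons (fin 844 7 780)
(mv 716 (cons (fin 781 7 716)
(mv 1036 (cons (fin 1100 5 844)
(mv 1038 (cons (fin 1102 4 845)
(mv 1039 (cons (fin 972 3 972)
(mv 976 (cons (fin 975 2 972)
(fin 977 2 973)))))))))))))))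
(cons (cons (mv 780 (cons (fin 844 7 780)
(mv 716 (cons (fin 781 7 716)
(mv 846 (cons (fin 782 6 781)
(mv 1100 (cons (fin 1036 5 844)
(mv 1101 (cons (fin 1164 5 908)
(fin 910 6 845)))))))))))
(mv 780 (cons (fin 844 7 780)
(mv 716 (cons (fin 781 7 716)
(mv 782 (cons (fin 846 6 781)
(mv 1038 (cons (fin 1102 4 845)
(mv 1039 (cons (fin 972 3 972)
(mv 976 (cons (fin 977 2 973)
(mv 975 (cons (fin 1036 2 972)
(mv 1104 (cons (fin 1105 0 1037)
(mv 911 (cons (fin 1168 7 911)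
(fin 847 4 847))))))))))))))))))))
(cons (mv 780 (cons (fin 844 7 780)
(mv 716 (cons (fin 781 7 716)
(mv 846 (cons (fin 782 6 781)
(mv 910 (cons (fin 1101 6 845)
(mv 1038 (cons (fin 1102 4 845)
(mv 972 (cons (fin 1039 3 972)
(mv 911 (cons (fin 912 1 908)
(mv 971 (cons (fin 908 1 907)
(fin 970 2 906)))))))))))))))))
(mv 780 (cons (fin 844 7 780)
(mv 782 (cons (fin 846 6 781)
(mv 1036 (cons (fin 1100 5 844)
(mv 1038 (cons (fin 1102 4 845)
(mv 1039 (cons (fin 972 3 972)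
(mv 976 (cons (fin 975 2 972)
(fin 977 2 973)))))))))))))))))
(mv 1101 (cons (cons (mv 846 (cons (fin 910 6 845)
(mv 908 (cons (fin 844 7 844)
(mv 972 (cons (fin 1165 7 908)
(mv 1038 (cons (fin 1039 3 972)
(mv 970 (cons (fin 971 0 970)
(mv 1100 (cons (fin 1164 5 908)
(mv 1099 (cons (fin 1098 2 1034)
(mv 1036 (cons (fin 1163 5 907)
(mv 907 (cons (fin 843 7 843)
(mv 906 (cons (fin 969 1 905)
(fin 905 0 905)))))))))))))))))))))
(mv 908 (cons (fin 844 7 844)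
(mv 910 (cons (fin 846 6 845)
(mv 972 (cons (fin 1165 7 908)
(mv 911 (cons (fin 971 1 907)
(fin 912 1 908))))))))))
(cons (mv 910 (cons (fin 846 6 845)
(mv 1100 (cons (fin 1164 5 908)
(mv 1039 (cons (fin 1038 1 1036)
(mv 1103 (cons (fin 1102 2 1036)
(mv 912 (cons (cons (mv 848 (cons (fin 976 5 847)
(mv 911 (cons (fin 972 1 908)
(fin 849 2 845)))))
(mv 911 (cons (fin 972 1 908)
(mv 848 (cons (fin 849 2 845)
(fin 975 6 847))))))
(cons (mv 976 (cons (fin 848 5 847)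
(mv 1167 (cons (fin 1104 5 911)
(fin 975 6 911)))))
(mv 911 (cons (fin 972 1 908)
(mv 976 (cons (fin 977 0 909)
(mv 1104 (cons (fin 847 7 847)
(fin 1167 5 911))))))))))))))))))
(cons (mv 908 (cons (fin 844 7 844)
(mv 972 (cons (fin 1165 7 908)
(mv 1038 (cons (fin 1039 3 972)
(mv 970 (cons (fin 971 0 970)
(mv 1100 (cons (fin 1164 5 908)
(mv 1099 (cons (fin 1098 2 1034)
(mv 1036 (cons (fin 1163 5 907)
(mv 907 (cons (fin 843 7 843)
(mv 906 (cons (fin 969 1 905)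
(fin 905 0 905)))))))))))))))))))
(mv 908 (cons (fin 844 7 844)
(mv 910 (cons (fin 846 6 845)
(mv 1100 (cons (fin 1164 5 908)
(mv 1039 (cons (fin 1038 1 1036)
(mv 1103 (cons (fin 1102 2 1036)
(mv 911 (cons (cons (mv 847 (cons (fin 848 2 844)
(mv 975 (cons (fin 976 0 908)
(fin 1104 4 847)))))
(mv 848 (cons (fin 847 2 844)
(mv 912 (cons (fin 849 2 845)
(fin 975 6 847))))))
(cons (mv 848 (cons (fin 847 2 844)
(mv 912 (cons (fin 849 2 845)
(fin 976 5 847)))))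
(cons (mv 975 (cons (fin 976 0 908)
(mv 1104 (cons (fin 847 4 847)
(fin 1168 4 911)))))
(mv 976 (cons (fin 975 0 908)
(mv 912 (cons (fin 977 0 909)
(fin 848 5 847))))))))))))))))))))))))
(cons (mv 845 (cons (cons (mv 780 (cons (fin 844 7 780)
(mv 716 (cons (fin 781 7 716)
(mv 782 (cons (fin 846 6 781)
(mv 1036 (cons (fin 1100 5 844)
(mv 1038 (cons (fin 1102 4 845)
(mv 1039 (cons (fin 972 3 972)
(mv 976 (cons (fin 975 2 972)
(fin 977 2 973)))))))))))))))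
(mv 780 (cons (fin 844 7 780)
(mv 781 (cons (fin 716 7 716)
(mv 782 (cons (fin 718 6 717)
(fin 846 6 781))))))))
(cons (mv 782 (cons (fin 846 6 781)
(mv 718 (cons (fin 781 6 717)
(mv 1036 (cons (fin 1100 5 844)
(mv 1038 (cons (fin 1102 4 845)
(mv 1039 (cons (fin 972 3 972)
(mv 976 (cons (fin 975 2 972)
(fin 977 2 973)))))))))))))
(cons (mv 780 (cons (fin 844 7 780)
(mv 716 (cons (fin 781 7 716)
(mv 1036 (cons (fin 1100 5 844)
(mv 1038 (cons (fin 1102 4 845)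
(mv 1039 (cons (fin 972 3 972)
(mv 976 (cons (fin 975 2 972)
(fin 977 2 973)))))))))))))
(mv 780 (cons (fin 844 7 780)
(mv 782 (cons (fin 846 6 781)
(mv 1036 (cons (fin 1100 5 844)
(mv 1038 (cons (fin 1102 4 845)
(mv 1039 (cons (fin 972 3 972)
(mv 976 (cons (fin 975 2 972)
(fin 977 2 973)))))))))))))))))
(mv 845 (cons (cons (mv 780 (cons (fin 844 7 780)
(mv 716 (cons (fin 781 7 716)
(mv 846 (cons (fin 782 6 781)
(mv 1100 (cons (fin 1036 5 844)
(mv 1101 (cons (fin 1164 5 908)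
(fin 910 6 845)))))))))))
(mv 782 (cons (fin 846 6 781)
(mv 781 (cons (fin 718 6 717)
(mv 1036 (cons (fin 972 5 780)
(fin 1100 5 844))))))))
(cons (mv 780 (cons (fin 844 7 780)
(mv 781 (cons (fin 716 7 716)
(mv 1036 (cons (fin 972 5 780)
(fin 1100 5 844)))))))
(cons (mv 780 (cons (fin 844 7 780)
(mv 781 (cons (fin 716 7 716)
(mv 782 (cons (fin 718 6 717)
(fin 846 6 781)))))))
(mv 780 (cons (fin 844 7 780)
(mv 846 (cons (fin 782 6 781)
(mv 1100 (cons (fin 1036 5 844)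
(mv 1101 (cons (fin 1164 5 908)
(fin 910 6 845)))))))))))))))
(cons (cons (mv 845 (cons (cons (mv 780 (cons (fin 844 7 780)
(mv 716 (cons (fin 781 7 716)
(mv 782 (cons (fin 846 6 781)
(mv 1038 (cons (fin 1102 4 845)
(mv 1039 (cons (fin 972 3 972)
(mv 976 (cons (fin 977 2 973)
(mv 975 (cons (fin 1036 2 972)
(mv 1104 (cons (fin 1105 0 1037)
(mv 911 (cons (fin 1168 7 911)
(fin 847 4 847)))))))))))))))))))
(mv 782 (cons (fin 846 6 781)
(mv 718 (cons (fin 781 6 717)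
(mv 1038 (cons (fin 1102 4 845)
(mv 1039 (cons (fin 972 3 972)
(mv 976 (cons (fin 977 2 973)
(mv 975 (cons (fin 1036 2 972)
(mv 1104 (cons (fin 1105 0 1037)
(mv 911 (cons (fin 1168 7 911)
(fin 847 4 847))))))))))))))))))
(cons (mv 780 (cons (fin 844 7 780)
(mv 716 (cons (fin 781 7 716)
(mv 1038 (cons (fin 1102 4 845)
(mv 1039 (cons (fin 972 3 972)
(mv 976 (cons (fin 977 2 973)
(mv 975 (cons (fin 1036 2 972)
(mv 1104 (cons (fin 1105 0 1037)
(mv 911 (cons (fin 1168 7 911)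
(fin 847 4 847)))))))))))))))))
(cons (mv 780 (cons (fin 844 7 780)
(mv 781 (cons (fin 716 7 716)
(mv 782 (cons (fin 718 6 717)
(fin 846 6 781)))))))
(mv 780 (cons (fin 844 7 780)
(mv 782 (cons (fin 846 6 781)
(mv 1038 (cons (fin 1102 4 845)
(mv 1039 (cons (fin 972 3 972)
(mv 976 (cons (fin 977 2 973)
(mv 975 (cons (fin 1036 2 972)
(mv 1104 (cons (fin 1105 0 1037)
(mv 911 (cons (fin 1168 7 911)
(fin 847 4 847)))))))))))))))))))))
(mv 845 (cons (cons (mv 782 (cons (fin 846 6 781)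
(mv 718 (cons (fin 781 6 717)
(mv 1036 (cons (fin 1100 5 844)
(mv 1038 (cons (fin 1102 4 845)
(mv 1039 (cons (fin 972 3 972)
(mv 976 (cons (fin 975 2 972)
(fin 977 2 973)))))))))))))
(cons (mv 1036 (cons (fin 1100 5 844)
(mv 781 (cons (fin 972 5 780)
(mv 716 (cons (fin 780 7 716)
(mv 717 (cons (fin 652 7 652)
(mv 718 (cons (fin 654 6 653)
(fin 782 6 717)))))))))))
(mv 782 (cons (fin 846 6 781)
(mv 718 (cons (fin 781 6 717)
(mv 1038 (cons (fin 1102 4 845)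
(mv 1039 (cons (fin 972 3 972)
(mv 976 (cons (fin 977 2 973)
(mv 975 (cons (fin 1036 2 972)
(mv 1104 (cons (fin 1105 0 1037)
(mv 911 (cons (fin 1168 7 911)
(fin 847 4 847)))))))))))))))))))
(cons (cons (mv 782 (cons (fin 846 6 781)
(mv 781 (cons (fin 718 6 717)
(mv 716 (cons (fin 780 7 716)
(mv 717 (cons (fin 652 7 652)
(mv 714 (cons (fin 715 0 714)
(mv 783 (cons (fin 784 3 716)
(mv 972 (cons (fin 908 5 716)
(mv 1038 (cons (fin 1039 3 972)
(fin 1102 4 845)))))))))))))))))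
(mv 1036 (cons (fin 1100 5 844)
(mv 972 (cons (fin 781 5 780)
(mv 1038 (cons (fin 1039 3 972)
(fin 1102 4 845))))))))
(cons (mv 782 (cons (fin 846 6 781)
(mv 1036 (cons (fin 1100 5 844)
(mv 1038 (cons (fin 1102 4 845)
(mv 1039 (cons (fin 972 3 972)
(mv 976 (cons (fin 975 2 972)
(fin 977 2 973)))))))))))
(mv 782 (cons (fin 846 6 781)
(mv 718 (cons (fin 781 6 717)
(mv 1038 (cons (fin 1102 4 845)
(mv 1100 (cons (fin 1036 5 844)
(mv 1101 (cons (fin 1039 1 1036)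
(fin 1164 5 908))))))))))))))))
(cons (mv 845 (cons (cons (mv 780 (cons (fin 844 7 780)
(mv 716 (cons (fin 781 7 716)
(mv 1036 (cons (fin 1100 5 844)
(mv 1038 (cons (fin 1102 4 845)
(mv 1039 (cons (fin 972 3 972)
(mv 976 (cons (fin 975 2 972)
(fin 977 2 973)))))))))))))
(cons (mv 1036 (cons (fin 1100 5 844)
(mv 781 (cons (fin 972 5 780)
(mv 716 (cons (fin 780 7 716)
(mv 717 (cons (fin 652 7 652)
(mv 718 (cons (fin 654 6 653)
(fin 782 6 717)))))))))))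
(mv 780 (cons (fin 844 7 780)
(mv 716 (cons (fin 781 7 716)
(mv 1038 (cons (fin 1102 4 845)
(mv 1039 (cons (fin 972 3 972)
(mv 976 (cons (fin 977 2 973)
(mv 975 (cons (fin 1036 2 972)
(mv 1104 (cons (fin 1105 0 1037)
(mv 911 (cons (fin 1168 7 911)
(fin 847 4 847)))))))))))))))))))
(cons (cons (mv 780 (cons (fin 844 7 780)
(mv 781 (cons (fin 716 7 716)
(mv 718 (cons (fin 782 6 717)
(mv 717 (cons (fin 654 6 653)
(mv 719 (cons (fin 720 1 716)
(mv 778 (cons (fin 779 2 714)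
(mv 972 (cons (fin 908 5 716)
(mv 1038 (cons (fin 1039 3 972)
(fin 1102 4 845)))))))))))))))))
(mv 1036 (cons (fin 1100 5 844)
(mv 972 (cons (fin 781 5 780)
(mv 1038 (cons (fin 1039 3 972)
(fin 1102 4 845))))))))
(cons (mv 780 (cons (fin 844 7 780)
(mv 1036 (cons (fin 1100 5 844)
(mv 1038 (cons (fin 1102 4 845)
(mv 1039 (cons (fin 972 3 972)
(mv 976 (cons (fin 975 2 972)
(fin 977 2 973)))))))))))
(mv 780 (cons (fin 844 7 780)
(mv 716 (cons (fin 781 7 716)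
(mv 1038 (cons (fin 1102 4 845)
(mv 1100 (cons (fin 1036 5 844)
(mv 1101 (cons (fin 1039 1 1036)
(fin 1164 5 908)))))))))))))))
(cons (mv 845 (cons (cons (mv 780 (cons (fin 844 7 780)
(mv 716 (cons (fin 781 7 716)
(mv 782 (cons (fin 846 6 781)
(mv 1038 (cons (fin 1102 4 845)
(mv 1100 (cons (fin 1036 5 844)
(mv 1101 (cons (fin 1039 1 1036)
(fin 1164 5 908)))))))))))))
(mv 782 (cons (fin 846 6 781)
(mv 718 (cons (fin 781 6 717)
(mv 1038 (cons (fin 1102 4 845)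
(mv 1100 (cons (fin 1036 5 844)
(mv 1101 (cons (fin 1039 1 1036)
(fin 1164 5 908))))))))))))
(cons (mv 780 (cons (fin 844 7 780)
(mv 716 (cons (fin 781 7 716)
(mv 1038 (cons (fin 1102 4 845)
(mv 1100 (cons (fin 1036 5 844)
(mv 1101 (cons (fin 1039 1 1036)
(fin 1164 5 908)))))))))))
(cons (mv 780 (cons (fin 844 7 780)
(mv 781 (cons (fin 716 7 716)
(mv 782 (cons (fin 718 6 717)
(fin 846 6 781)))))))
(mv 780 (cons (fin 844 7 780)
(mv 782 (cons (fin 846 6 781)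
(mv 1038 (cons (fin 1102 4 845)
(mv 1100 (cons (fin 1036 5 844)
(mv 1101 (cons (fin 1039 1 1036)
(fin 1164 5 908)))))))))))))))
(mv 1101 (cons (cons (mv 844 (cons (fin 908 7 844)
(mv 845 (cons (fin 780 7 780)
(mv 846 (cons (fin 782 6 781)
(fin 910 6 845)))))))
(mv 846 (cons (fin 910 6 845)
(mv 845 (cons (fin 782 6 781)
(mv 780 (cons (fin 844 7 780)
(mv 716 (cons (fin 781 7 716)
(mv 1038 (cons (fin 1102 4 845)
(mv 1039 (cons (fin 972 3 972)
(fin 1100 1 1036))))))))))))))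
(cons (mv 846 (cons (fin 910 6 845)
(mv 845 (cons (fin 782 6 781)
(mv 1038 (cons (fin 1102 4 845)
(mv 1039 (cons (fin 972 3 972)
(fin 1100 1 1036)))))))))
(cons (mv 844 (cons (fin 908 7 844)
(mv 845 (cons (fin 780 7 780)
(mv 1038 (cons (fin 1102 4 845)
(mv 1039 (cons (fin 972 3 972)
(fin 1100 1 1036)))))))))
(mv 846 (cons (fin 910 6 845)
(mv 908 (cons (fin 844 7 844)
(mv 1164 (cons (fin 1100 5 908)
(mv 1165 (cons (fin 972 7 908)
(fin 1228 5 972))))))))))))))))))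
(cons (mv 1038 (cons (cons (mv 1039 (cons (fin 972 3 972)
(mv 976 (cons (fin 977 2 973)
(mv 1100 (cons (fin 1101 1 1036)
(mv 1104 (cons (fin 1105 0 1037)
(mv 912 (cons (mv 1103 (cons (fin 848 5 847)
(fin 1167 5 911)))
(cons (mv 847 (cons (fin 911 7 847)
(mv 848 (cons (fin 783 7 783)
(mv 849 (cons (fin 785 6 784)
(fin 913 6 848)))))))
(mv 847 (cons (fin 911 7 847)
(mv 849 (cons (fin 913 6 848)
(mv 1167 (cons (fin 1103 5 911)
(mv 1168 (cons (fin 1231 5 975)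
(mv 1232 (cons (fin 975 7 975)
(mv 1233 (cons (fin 1169 4 976)
(fin 1297 4 1040))))))))))))))))))))))))
(cons (mv 909 (cons (cons (mv 845 (cons (fin 1102 4 845)
(mv 780 (cons (fin 844 7 780)
(mv 781 (cons (fin 716 7 716)
(fin 974 4 781)))))))
(mv 1101 (cons (cons (mv 844 (cons (fin 908 7 844)
(mv 846 (cons (fin 910 6 845)
(mv 1164 (cons (fin 1100 5 908)
(mv 1165 (cons (fin 1228 5 972)
(mv 1229 (cons (fin 974 6 973)
(mv 1293 (cons (fin 1102 6 1037)
(mv 1294 (cons (fin 1230 4 1037)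
(fin 1358 4 1101)))))))))))))))
(cons (mv 844 (cons (fin 908 7 844)
(mv 1164 (cons (fin 1100 5 908)
(mv 1165 (cons (fin 1228 5 972)
(mv 1229 (cons (fin 974 6 973)
(mv 1293 (cons (fin 1102 6 1037)
(mv 1294 (cons (fin 1230 4 1037)
(fin 1358 4 1101)))))))))))))
(mv 846 (cons (fin 910 6 845)
(mv 1164 (cons (fin 1100 5 908)
(mv 1165 (cons (fin 1228 5 972)
(mv 1229 (cons (fin 974 6 973)
(mv 1293 (cons (fin 1102 6 1037)
(mv 1294 (cons (fin 1230 4 1037)
(fin 1358 4 1101)))))))))))))))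
(cons (cons (mv 844 (cons (fin 908 7 844)
(mv 910 (cons (fin 846 6 845)
(mv 1165 (cons (fin 974 6 909)
(mv 1228 (cons (fin 1164 5 972)
(mv 1229 (cons (fin 1292 5 1036)
(mv 1293 (cons (fin 1102 6 1037)
(mv 1294 (cons (fin 1230 4 1037)
(fin 1358 4 1101)))))))))))))))
(mv 846 (cons (fin 910 6 845)
(mv 908 (cons (fin 844 7 844)
(mv 1165 (cons (fin 972 7 908)
(mv 1229 (cons (fin 974 6 973)
(mv 1228 (cons (fin 1292 5 1036)
(mv 1293 (cons (fin 1102 6 1037)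
(mv 1294 (cons (fin 1230 4 1037)
(fin 1358 4 1101))))))))))))))))
(cons (mv 908 (cons (fin 844 7 844)
(mv 910 (cons (fin 846 6 845)
(mv 1100 (cons (fin 1164 5 908)
(mv 1098 (cons (fin 1099 2 1034)
(mv 911 (cons (mv 972 (cons (fin 971 1 907)
(fin 912 1 908)))
(mv 847 (cons (fin 848 2 844)
(mv 974 (cons (fin 1102 6 846)
(mv 783 (cons (fin 719 5 718)
(fin 975 5 782)))))))))))))))))
(mv 846 (cons (fin 910 6 845)
(mv 908 (cons (fin 844 7 844)
(mv 1164 (cons (fin 1100 5 908)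
(mv 1165 (cons (fin 972 7 908)
(fin 1228 5 972))))))))))))))
(cons (mv 1101 (cons (cons (mv 844 (cons (fin 908 7 844)
(mv 780 (cons (fin 845 7 780)
(mv 910 (cons (fin 846 6 845)
(mv 1164 (cons (fin 1100 5 908)
(mv 1165 (cons (fin 1228 5 972)
(fin 974 6 909)))))))))))
(cons (mv 844 (cons (fin 908 7 844)
(mv 845 (cons (fin 780 7 780)
(mv 781 (cons (fin 974 4 781)
(mv 782 (cons (fin 718 6 717)
(fin 846 6 781)))))))))
(mv 844 (cons (fin 908 7 844)
(mv 780 (cons (fin 845 7 780)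
(mv 1164 (cons (fin 1100 5 908)
(mv 1165 (cons (fin 1228 5 972)
(mv 974 (cons (fin 910 6 909)
(fin 1229 6 973)))))))))))))
(cons (cons (mv 846 (cons (fin 910 6 845)
(mv 845 (cons (fin 782 6 781)
(mv 780 (cons (fin 844 7 780)
(mv 781 (cons (fin 716 7 716)
(fin 974 4 781)))))))))
(mv 846 (cons (fin 910 6 845)
(mv 845 (cons (fin 782 6 781)
(mv 974 (cons (fin 781 4 781)
(mv 1164 (cons (fin 1100 5 908)
(mv 1165 (cons (fin 1228 5 972)
(fin 1229 6 973))))))))))))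
(cons (mv 844 (cons (fin 908 7 844)
(mv 845 (cons (fin 780 7 780)
(mv 846 (cons (fin 782 6 781)
(fin 910 6 845)))))))
(mv 844 (cons (fin 908 7 844)
(mv 910 (cons (fin 846 6 845)
(mv 1164 (cons (fin 1100 5 908)
(mv 1165 (cons (fin 1228 5 972)
(fin 974 6 909)))))))))))))
(cons (mv 845 (cons (fin 1102 4 845)
(mv 781 (cons (fin 974 4 781)
(mv 782 (cons (fin 718 6 717)
(fin 846 6 781)))))))
(mv 845 (cons (fin 1102 4 845)
(mv 780 (cons (fin 844 7 780)
(mv 781 (cons (fin 716 7 716)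
(mv 782 (cons (fin 718 6 717)
(fin 846 6 781)))))))))))))
(mv 1039 (cons (cons (mv 976 (cons (fin 977 2 973)
(mv 1100 (cons (fin 1101 1 1036)
(mv 1104 (cons (fin 1105 0 1037)
(mv 912 (cons (mv 1103 (cons (fin 848 5 847)
(fin 1167 5 911)))
(cons (mv 847 (cons (fin 911 7 847)
(mv 848 (cons (fin 783 7 783)
(mv 849 (cons (fin 785 6 784)
(fin 913 6 848)))))))
(mv 847 (cons (fin 911 7 847)
(mv 849 (cons (fin 913 6 848)
(mv 1167 (cons (fin 1103 5 911)
(mv 1168 (cons (fin 1231 5 975)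
(mv 1232 (cons (fin 975 7 975)
(mv 1233 (cons (fin 1169 4 976)
(fin 1297 4 1040))))))))))))))))))))))
(mv 976 (cons (fin 977 2 973)
(mv 1104 (cons (fin 1105 0 1037)
(mv 912 (cons (mv 1103 (cons (fin 848 5 847)
(fin 1167 5 911)))
(cons (mv 847 (cons (fin 911 7 847)
(mv 848 (cons (fin 783 7 783)
(mv 849 (cons (fin 785 6 784)
(fin 913 6 848)))))))
(mv 847 (cons (fin 911 7 847)
(mv 849 (cons (fin 913 6 848)
(mv 1167 (cons (fin 1103 5 911)
(mv 1168 (cons (fin 1231 5 975)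
(mv 1232 (cons (fin 975 7 975)
(mv 1233 (cons (fin 1169 4 976)
(fin 1297 4 1040)))))))))))))))))))))
(cons (mv 1101 (cons (fin 1100 1 1036)
(mv 1104 (cons (fin 1105 0 1037)
(mv 1165 (cons (mv 974 (cons (fin 910 6 909)
(fin 1229 6 973)))
(cons (mv 1228 (cons (fin 1164 5 972)
(mv 1229 (cons (fin 1292 5 1036)
(mv 1293 (cons (fin 1102 6 1037)
(mv 1294 (cons (fin 1230 4 1037)
(fin 1358 4 1101)))))))))
(mv 910 (cons (fin 974 6 909)
(mv 909 (cons (fin 846 6 845)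
(mv 844 (cons (fin 908 7 844)
(mv 845 (cons (fin 780 7 780)
(fin 1102 4 845))))))))))))))))
(mv 976 (cons (fin 977 2 973)
(mv 1101 (cons (fin 1100 1 1036)
(mv 974 (cons (mv 910 (cons (fin 846 5 845)
(fin 1165 6 909)))
(cons (mv 1165 (cons (fin 1229 6 973)
(mv 1164 (cons (fin 1228 5 972)
(mv 909 (cons (mv 845 (cons (fin 781 4 781)
(fin 1102 4 845)))
(mv 908 (cons (fin 975 3 908)
(fin 844 7 844)))))))))
(mv 846 (cons (fin 910 5 845)
(mv 909 (cons (mv 845 (cons (fin 782 6 781)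
(fin 781 4 781)))
(mv 908 (cons (fin 975 3 908)
(fin 844 7 844)))))))))))))))))))
(cons (mv 1039 (cons (fin 972 3 972)
(mv 976 (cons (fin 977 2 973)
(mv 1104 (cons (fin 1105 0 1037)
(mv 912 (cons (mv 1103 (cons (fin 848 5 847)
(fin 1167 5 911)))
(cons (mv 847 (cons (fin 911 7 847)
(mv 848 (cons (fin 783 7 783)
(mv 849 (cons (fin 785 6 784)
(fin 913 6 848)))))))
(mv 847 (cons (fin 911 7 847)
(mv 849 (cons (fin 913 6 848)
(mv 1167 (cons (fin 1103 5 911)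
(mv 1168 (cons (fin 1231 5 975)
(mv 1232 (cons (fin 975 7 975)
(mv 1233 (cons (fin 1169 4 976)
(fin 1297 4 1040))))))))))))))))))))))
(cons (mv 972 (cons (fin 1039 3 972)
(mv 971 (cons (fin 970 0 970)
(mv 974 (cons (cons (mv 906 (cons (fin 907 3 906)
(mv 910 (cons (fin 911 2 907)
(mv 846 (cons (fin 782 5 781)
(fin 1101 5 845)))))))
(mv 906 (cons (fin 907 3 906)
(mv 1035 (cons (fin 1034 1 970)
(mv 1101 (cons (mv 1165 (cons (fin 908 7 908)
(fin 1229 6 973)))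
(cons (mv 909 (cons (mv 845 (cons (fin 781 4 781)
(fin 1102 4 845)))
(mv 908 (cons (fin 844 7 844)
(mv 1099 (cons (fin 1163 6 907)
(mv 1100 (cons (fin 1098 2 1034)
(fin 1164 5 908)))))))))
(mv 1165 (cons (fin 1229 6 973)
(mv 1164 (cons (fin 1228 5 972)
(mv 909 (cons (fin 1100 5 908)
(mv 845 (cons (fin 781 4 781)
(fin 1102 4 845)))))))))))))))))
(cons (mv 910 (cons (fin 911 2 907)
(mv 846 (cons (fin 782 5 781)
(fin 1101 5 845)))))
(mv 906 (cons (fin 907 3 906)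
(mv 910 (cons (fin 911 2 907)
(mv 846 (cons (fin 782 5 781)
(mv 845 (cons (fin 781 7 781)
(mv 847 (cons (fin 783 6 782)
(mv 909 (cons (fin 1102 7 845)
(mv 848 (cons (fin 908 1 844)
(fin 849 1 845))))))))))))))))))))))
(mv 972 (cons (fin 1039 3 972)
(mv 971 (cons (fin 970 0 970)
(mv 908 (cons (cons (mv 844 (cons (fin 780 4 780)
(mv 1101 (cons (fin 909 7 844)
(fin 1165 7 908)))))
(mv 1101 (cons (fin 1165 7 908)
(mv 974 (cons (mv 907 (cons (fin 906 3 906)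
(fin 975 3 907)))
(mv 846 (cons (fin 910 5 845)
(mv 1035 (cons (fin 1034 1 970)
(mv 1099 (cons (fin 1163 6 907)
(mv 1100 (cons (fin 1098 2 1034)
(mv 909 (cons (fin 1164 5 908)
(mv 845 (cons (fin 782 6 781)
(fin 781 4 781))))))))))))))))))
(cons (mv 780 (cons (fin 844 4 780)
(mv 907 (cons (mv 906 (cons (fin 974 3 906)
(fin 905 0 905)))
(cons (mv 974 (cons (fin 975 3 907)
(mv 1035 (cons (fin 1034 1 970)
(mv 1099 (cons (fin 1163 6 907)
(mv 1098 (cons (fin 1162 5 906)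
(mv 1100 (cons (fin 1164 4 907)
(mv 843 (cons (mv 779 (cons (fin 716 6 715)
(fin 715 4 715)))
(mv 842 (cons (fin 778 7 778)
(mv 840 (cons (fin 841 0 840)
(mv 909 (cons (fin 910 3 842)
(mv 845 (cons (fin 781 4 781)
(fin 1102 4 845)))))))))))))))))))))
(mv 906 (cons (fin 905 0 905)
(mv 909 (cons (mv 845 (cons (fin 846 2 842)
(fin 1102 4 845)))
(mv 842 (cons (fin 841 3 841)
(mv 714 (cons (fin 778 4 714)
(mv 843 (cons (fin 910 3 842)
(mv 779 (cons (fin 716 6 715)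
(fin 715 4 715))))))))))))))))))
(mv 780 (cons (fin 844 4 780)
(mv 1101 (cons (fin 1165 7 908)
(mv 1035 (cons (mv 974 (cons (fin 1034 1 970)
(mv 907 (cons (fin 906 3 906)
(fin 975 3 907)))))
(cons (mv 1099 (cons (fin 1163 6 907)
(mv 1098 (cons (fin 1100 2 1034)
(mv 907 (cons (fin 1162 5 906)
(mv 906 (cons (fin 905 0 905)
(fin 842 7 842)))))))))
(mv 1034 (cons (fin 974 1 970)
(mv 1032 (cons (fin 1033 2 968)
(mv 1099 (cons (fin 1163 6 907)
(mv 1100 (cons (fin 1102 3 1034)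
(fin 1098 2 1034)))))))))))))))))))))))))))
(mv 1038 (cons (cons (mv 1039 (cons (fin 972 3 972)
(mv 976 (cons (fin 977 2 973)
(mv 975 (cons (fin 1036 2 972)
(mv 1104 (cons (fin 1105 0 1037)
(mv 911 (cons (fin 1168 7 911)
(fin 847 4 847)))))))))))
(mv 909 (cons (cons (mv 845 (cons (fin 1102 4 845)
(mv 780 (cons (fin 844 7 780)
(mv 781 (cons (fin 716 7 716)
(fin 974 4 781)))))))
(mv 1101 (cons (cons (mv 844 (cons (fin 908 7 844)
(mv 910 (cons (fin 846 6 845)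
(mv 1165 (cons (fin 974 6 909)
(mv 1228 (cons (fin 1164 5 972)
(mv 1229 (cons (fin 1292 5 1036)
(mv 972 (cons (fin 1036 7 972)
(mv 911 (cons (fin 912 1 908)
(mv 970 (cons (fin 971 2 906)
(mv 1293 (cons (fin 1102 6 1037)
(mv 1294 (cons (fin 1230 4 1037)
(fin 1358 4 1101)))))))))))))))))))))
(cons (mv 908 (cons (fin 844 7 844)
(mv 1165 (cons (fin 972 7 908)
(mv 1164 (cons (fin 1228 5 972)
(mv 1229 (cons (fin 974 6 973)
(mv 1293 (cons (fin 1102 6 1037)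
(mv 1294 (cons (fin 1230 4 1037)
(fin 1358 4 1101)))))))))))))
(mv 910 (cons (fin 846 6 845)
(mv 1165 (cons (fin 974 6 909)
(mv 1228 (cons (fin 1164 5 972)
(mv 1229 (cons (fin 1292 5 1036)
(mv 972 (cons (fin 1036 7 972)
(mv 911 (cons (fin 912 1 908)
(mv 970 (cons (fin 971 2 906)
(mv 1293 (cons (fin 1102 6 1037)
(mv 1294 (cons (fin 1230 4 1037)
(fin 1358 4 1101)))))))))))))))))))))
(cons (cons (mv 908 (cons (fin 844 7 844)
(mv 910 (cons (fin 846 6 845)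
(mv 911 (cons (mv 972 (cons (fin 971 1 907)
(fin 912 1 908)))
(mv 847 (cons (fin 848 2 844)
(mv 974 (cons (fin 1102 6 846)
(mv 783 (cons (fin 719 5 718)
(fin 975 5 782)))))))))))))
(mv 846 (cons (fin 910 6 845)
(mv 908 (cons (fin 844 7 844)
(mv 1165 (cons (fin 972 7 908)
(mv 1228 (cons (fin 1164 5 972)
(mv 1229 (cons (fin 1292 5 1036)
(mv 1293 (cons (fin 1102 6 1037)
(mv 1294 (cons (fin 1230 4 1037)
(fin 1358 4 1101))))))))))))))))
(cons (mv 844 (cons (fin 908 7 844)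
(mv 910 (cons (fin 846 6 845)
(mv 1165 (cons (fin 974 6 909)
(mv 1228 (cons (fin 1164 5 972)
(mv 1229 (cons (fin 1292 5 1036)
(mv 1293 (cons (fin 1102 6 1037)
(mv 1294 (cons (fin 1230 4 1037)
(fin 1358 4 1101)))))))))))))))
(mv 846 (cons (fin 910 6 845)
(mv 908 (cons (fin 844 7 844)
(mv 1165 (cons (fin 972 7 908)
(mv 1228 (cons (fin 1164 5 972)
(mv 1229 (cons (fin 1292 5 1036)
(fin 974 6 973))))))))))))))))
(cons (mv 845 (cons (mv 780 (cons (fin 844 7 780)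
(mv 781 (cons (fin 716 7 716)
(fin 974 4 781)))))
(cons (mv 844 (cons (fin 780 7 780)
(mv 846 (cons (fin 782 6 781)
(mv 1101 (cons (fin 908 7 844)
(fin 910 6 845)))))))
(mv 781 (cons (fin 974 4 781)
(mv 782 (cons (fin 718 6 717)
(fin 846 6 781))))))))
(cons (mv 845 (cons (fin 1102 4 845)
(mv 781 (cons (fin 974 4 781)
(mv 782 (cons (fin 718 6 717)
(fin 846 6 781)))))))
(mv 845 (cons (fin 1102 4 845)
(mv 780 (cons (fin 844 7 780)
(mv 781 (cons (fin 716 7 716)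
(mv 782 (cons (fin 718 6 717)
(fin 846 6 781))))))))))))))
(cons (mv 909 (cons (cons (mv 845 (cons (fin 1102 4 845)
(mv 780 (cons (fin 844 7 780)
(mv 781 (cons (fin 716 7 716)
(fin 974 4 781)))))))
(mv 1101 (cons (cons (mv 844 (cons (fin 908 7 844)
(mv 910 (cons (fin 846 6 845)
(mv 1165 (cons (fin 974 6 909)
(mv 1228 (cons (fin 1164 5 972)
(mv 1229 (cons (fin 1292 5 1036)
(mv 1293 (cons (fin 1102 6 1037)
(mv 1294 (cons (fin 1230 4 1037)
(fin 1358 4 1101)))))))))))))))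
(mv 908 (cons (fin 844 7 844)
(mv 1165 (cons (mv 974 (cons (fin 1229 6 973)
(mv 906 (cons (fin 907 0 906)
(mv 976 (cons (fin 975 3 908)
(mv 1039 (cons (fin 977 2 973)
(mv 1104 (cons (fin 1105 0 1037)
(mv 1103 (cons (fin 1036 0 1036)
(mv 912 (cons (fin 848 5 847)
(fin 1167 5 911)))))))))))))))
(cons (mv 1164 (cons (fin 1228 5 972)
(mv 1039 (cons (mv 976 (cons (fin 977 2 973)
(mv 975 (cons (fin 974 3 908)
(fin 1036 2 972)))))
(cons (mv 1104 (cons (fin 1105 0 1037)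
(mv 1103 (cons (fin 1102 1 1100)
(fin 1036 0 1036)))))
(mv 976 (cons (fin 977 2 973)
(mv 974 (cons (fin 975 3 908)
(mv 906 (cons (fin 907 0 906)
(mv 1104 (cons (fin 1105 0 1037)
(mv 1103 (cons (fin 1102 1 1100)
(mv 912 (cons (fin 848 5 847)
(fin 1167 5 911))))))))))))))))))
(mv 1228 (cons (fin 1164 5 972)
(mv 1229 (cons (fin 1292 5 1036)
(mv 1293 (cons (fin 1102 6 1037)
(mv 1294 (cons (fin 1230 4 1037)
(fin 1358 4 1101)))))))))))))))
(cons (mv 910 (cons (fin 846 6 845)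
(mv 1165 (cons (fin 974 6 909)
(mv 1228 (cons (fin 1164 5 972)
(mv 1229 (cons (fin 1292 5 1036)
(mv 1293 (cons (fin 1102 6 1037)
(mv 1294 (cons (fin 1230 4 1037)
(fin 1358 4 1101)))))))))))))
(cons (mv 908 (cons (fin 844 7 844)
(mv 910 (cons (fin 846 6 845)
(mv 976 (cons (cons (mv 911 (cons (fin 975 0 908)
(mv 977 (cons (fin 1039 2 973)
(fin 912 0 909)))))
(cons (mv 1039 (cons (fin 977 2 973)
(mv 975 (cons (fin 1036 2 972)
(mv 1104 (cons (fin 1105 0 1037)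
(mv 1168 (cons (fin 1232 7 975)
(mv 1167 (cons (fin 1231 5 975)
(mv 912 (cons (fin 1103 5 911)
(mv 848 (cons (fin 784 5 783)
(mv 849 (cons (fin 785 6 784)
(fin 913 6 848)))))))))))))))))
(mv 911 (cons (fin 975 0 908)
(mv 847 (cons (fin 848 2 844)
(mv 912 (cons (fin 977 0 909)
(fin 1104 7 847)))))))))
(cons (mv 911 (cons (fin 975 0 908)
(mv 848 (cons (fin 847 2 844)
(mv 912 (cons (fin 849 2 845)
(mv 1103 (cons (fin 1039 5 847)
(mv 1104 (cons (fin 1167 5 911)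
(mv 1102 (cons (fin 1036 3 1036)
(fin 1105 3 1037)))))))))))))
(cons (mv 1039 (cons (fin 977 2 973)
(mv 1104 (cons (fin 1105 0 1037)
(mv 1103 (cons (fin 1036 0 1036)
(mv 912 (cons (fin 848 5 847)
(fin 1167 5 911)))))))))
(mv 975 (cons (fin 911 0 908)
(mv 1039 (cons (fin 1036 2 972)
(fin 977 2 973)))))))))))))
(mv 908 (cons (fin 844 7 844)
(mv 910 (cons (fin 846 6 845)
(mv 974 (cons (fin 1165 6 909)
(mv 907 (cons (fin 906 0 906)
(fin 975 0 907))))))))))))))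
(cons (mv 845 (cons (mv 780 (cons (fin 844 7 780)
(mv 781 (cons (fin 716 7 716)
(fin 974 4 781)))))
(cons (mv 844 (cons (fin 780 7 780)
(mv 846 (cons (fin 782 6 781)
(mv 1101 (cons (fin 908 7 844)
(fin 910 6 845)))))))
(mv 781 (cons (fin 974 4 781)
(mv 782 (cons (fin 718 6 717)
(fin 846 6 781))))))))
(cons (mv 845 (cons (fin 1102 4 845)
(mv 781 (cons (fin 974 4 781)
(mv 782 (cons (fin 718 6 717)
(fin 846 6 781)))))))
(mv 845 (cons (fin 1102 4 845)
(mv 780 (cons (fin 844 7 780)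
(mv 781 (cons (fin 716 7 716)
(mv 782 (cons (fin 718 6 717)
(fin 846 6 781)))))))))))))
(cons (mv 972 (cons (fin 1039 3 972)
(mv 970 (cons (fin 971 0 970)
(mv 909 (cons (cons (mv 845 (cons (fin 1102 4 845)
(mv 780 (cons (fin 844 7 780)
(mv 781 (cons (fin 716 7 716)
(fin 974 4 781)))))))
(mv 1101 (cons (mv 908 (cons (fin 844 7 844)
(fin 1165 7 908)))
(cons (mv 910 (cons (fin 846 6 845)
(mv 911 (cons (fin 912 1 908)
(mv 974 (cons (fin 1165 6 909)
(mv 847 (cons (fin 1102 6 846)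
(mv 783 (cons (fin 719 5 718)
(fin 975 5 782)))))))))))
(mv 908 (cons (fin 844 7 844)
(mv 910 (cons (fin 846 6 845)
(mv 911 (cons (fin 912 1 908)
(mv 847 (cons (fin 848 2 844)
(mv 974 (cons (fin 1102 6 846)
(mv 783 (cons (fin 719 5 718)
(fin 975 5 782)))))))))))))))))
(cons (mv 908 (cons (mv 844 (cons (fin 1101 7 844)
(fin 780 4 780)))
(cons (mv 1101 (cons (fin 1165 7 908)
(mv 846 (cons (fin 910 6 845)
(mv 845 (cons (fin 782 6 781)
(mv 781 (cons (fin 717 5 716)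
(fin 974 4 781)))))))))
(mv 780 (cons (fin 844 4 780)
(mv 907 (cons (mv 906 (cons (fin 969 1 905)
(fin 905 0 905)))
(mv 974 (cons (fin 975 3 907)
(mv 845 (cons (fin 781 4 781)
(mv 846 (cons (fin 782 6 781)
(mv 847 (cons (fin 848 1 844)
(fin 910 2 843))))))))))))))))
(cons (mv 845 (cons (fin 1102 4 845)
(mv 781 (cons (fin 974 4 781)
(mv 782 (cons (fin 718 6 717)
(fin 846 6 781)))))))
(mv 845 (cons (fin 1102 4 845)
(mv 780 (cons (fin 844 7 780)
(mv 781 (cons (fin 716 7 716)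
(mv 782 (cons (fin 718 6 717)
(fin 846 6 781)))))))))))))))))
(mv 1039 (cons (fin 972 3 972)
(mv 976 (cons (fin 977 2 973)
(mv 1104 (cons (fin 1105 0 1037)
(mv 1103 (cons (fin 1036 0 1036)
(mv 912 (cons (fin 848 5 847)
(fin 1167 5 911)))))))))))))))))
(cons (mv 972 (cons (cons (cons (mv 1038 (cons (fin 1039 3 972)
(mv 970 (cons (fin 971 0 970)
(mv 908 (cons (cons (mv 844 (cons (fin 780 4 780)
(mv 1101 (cons (fin 909 7 844)
(fin 1165 7 908)))))
(mv 844 (cons (fin 780 4 780)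
(mv 1036 (cons (cons (mv 779 (cons (fin 843 7 779)
(mv 1035 (cons (fin 1099 5 843)
(mv 974 (cons (fin 975 1 971)
(fin 1034 2 970)))))))
(mv 843 (cons (fin 779 7 779)
(mv 907 (cons (fin 1100 7 843)
(mv 906 (cons (fin 905 0 905)
(mv 909 (cons (fin 969 1 905)
(fin 974 0 906))))))))))
(cons (mv 1035 (cons (fin 1099 5 843)
(mv 974 (cons (fin 975 1 971)
(fin 1034 2 970)))))
(mv 779 (cons (fin 843 7 779)
(mv 1035 (cons (fin 1099 5 843)
(mv 1034 (cons (fin 969 3 969)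
(fin 1033 2 969)))))))))))))
(cons (mv 1101 (cons (fin 1165 7 908)
(mv 1100 (cons (cons (mv 909 (cons (fin 1164 5 908)
(mv 846 (cons (fin 910 6 845)
(mv 1099 (cons (fin 1098 2 1034)
(mv 1036 (cons (fin 1163 5 907)
(mv 907 (cons (fin 843 7 843)
(mv 906 (cons (fin 969 1 905)
(fin 905 0 905)))))))))))))
(mv 1099 (cons (fin 1098 2 1034)
(mv 1036 (cons (fin 1163 5 907)
(mv 907 (cons (fin 843 7 843)
(mv 905 (cons (fin 906 0 905)
(mv 974 (cons (fin 975 3 907)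
(mv 910 (cons (fin 846 5 845)
(mv 1035 (cons (fin 1034 2 970)
(mv 1102 (cons (fin 1103 3 1035)
(mv 911 (cons (fin 847 6 846)
(mv 912 (cons (fin 909 1 908)
(fin 913 1 909))))))))))))))))))))))
(cons (mv 1099 (cons (fin 1098 2 1034)
(mv 1163 (cons (fin 1036 5 907)
(mv 1102 (cons (fin 1162 1 1098)
(mv 1034 (cons (fin 1035 3 1034)
(mv 1103 (cons (fin 1164 1 1099)
(mv 1104 (cons (fin 1105 3 1037)
(mv 1168 (cons (fin 1167 0 1100)
(fin 1169 0 1101)))))))))))))))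
(mv 909 (cons (fin 1164 5 908)
(mv 910 (cons (fin 846 6 845)
(mv 911 (cons (fin 912 1 908)
(mv 847 (cons (fin 848 2 844)
(mv 974 (cons (fin 1102 6 846)
(mv 783 (cons (fin 719 5 718)
(fin 975 5 782))))))))))))))))))
(mv 844 (cons (fin 780 4 780)
(mv 1101 (cons (fin 1165 7 908)
(fin 1036 4 844))))))))))))
(cons (mv 974 (cons (mv 975 (cons (fin 1039 0 972)
(mv 1036 (cons (fin 1035 1 971)
(fin 976 1 972)))))
(cons (mv 971 (cons (cons (mv 906 (cons (fin 907 3 906)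
(mv 905 (cons (fin 970 3 905)
(mv 910 (cons (fin 911 2 907)
(mv 846 (cons (fin 782 5 781)
(mv 1101 (cons (fin 909 6 845)
(fin 1165 6 909)))))))))))
(mv 906 (cons (fin 907 3 906)
(mv 970 (cons (fin 905 3 905)
(mv 1034 (cons (fin 1033 1 969)
(fin 1035 1 970))))))))
(cons (mv 910 (cons (fin 911 2 907)
(mv 782 (cons (fin 846 5 781)
(mv 970 (cons (fin 909 2 906)
(mv 1034 (cons (fin 1033 1 969)
(fin 1035 1 970)))))))))
(mv 906 (cons (fin 907 3 906)
(mv 910 (cons (fin 911 2 907)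
(mv 846 (cons (fin 782 5 781)
(mv 1101 (cons (fin 909 6 845)
(fin 1165 6 909))))))))))))
(mv 975 (cons (fin 1039 0 972)
(mv 907 (cons (fin 908 3 907)
(mv 906 (cons (fin 971 3 906)
(mv 912 (cons (fin 911 2 908)
(mv 976 (cons (fin 1036 1 972)
(fin 913 2 909))))))))))))))
(mv 971 (cons (cons (mv 970 (cons (fin 1038 0 970)
(mv 905 (cons (fin 906 3 905)
(mv 969 (cons (fin 904 3 904)
(fin 1036 0 969)))))))
(mv 974 (cons (cons (mv 906 (cons (fin 907 3 906)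
(mv 910 (cons (fin 911 2 907)
(mv 782 (cons (fin 846 5 781)
(mv 1035 (cons (fin 1034 1 970)
(mv 1036 (cons (fin 975 1 971)
(mv 1101 (cons (fin 1165 6 909)
(mv 908 (cons (fin 844 4 844)
(mv 1099 (cons (fin 1163 6 907)
(mv 1098 (cons (fin 1038 1 1034)
(mv 1097 (cons (fin 1096 2 1032)
(fin 1100 2 1033)))))))))))))))))))))
(mv 906 (cons (fin 907 3 906)
(mv 910 (cons (fin 911 2 907)
(mv 846 (cons (fin 782 5 781)
(mv 1101 (cons (fin 1038 5 845)
(fin 909 6 845))))))))))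
(cons (mv 907 (cons (fin 906 3 906)
(mv 908 (cons (fin 975 3 907)
(mv 780 (cons (fin 844 4 780)
(mv 1035 (cons (fin 1034 1 970)
(mv 1099 (cons (fin 1163 6 907)
(mv 1098 (cons (fin 1162 5 906)
(mv 1036 (cons (fin 1038 1 1034)
(mv 843 (cons (fin 1100 7 843)
(fin 779 4 779)))))))))))))))))
(cons (mv 910 (cons (fin 911 2 907)
(mv 782 (cons (fin 846 5 781)
(mv 1035 (cons (fin 1034 1 970)
(mv 1036 (cons (fin 975 1 971)
(mv 1101 (cons (fin 1165 6 909)
(mv 908 (cons (fin 844 4 844)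
(mv 1099 (cons (fin 1163 6 907)
(mv 1098 (cons (fin 1038 1 1034)
(mv 1097 (cons (fin 1096 2 1032)
(fin 1100 2 1033)))))))))))))))))))
(mv 906 (cons (fin 907 3 906)
(mv 910 (cons (fin 911 2 907)
(mv 846 (cons (fin 782 5 781)
(mv 1101 (cons (fin 909 6 845)
(fin 1165 6 909))))))))))))))
(cons (mv 970 (cons (mv 905 (cons (fin 906 3 905)
(mv 969 (cons (fin 904 3 904)
(fin 1036 0 969)))))
(cons (mv 905 (cons (fin 906 3 905)
(mv 910 (cons (fin 909 2 906)
(mv 974 (cons (fin 911 2 907)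
(mv 1034 (cons (fin 1033 1 969)
(fin 1035 1 970)))))))))
(mv 909 (cons (fin 910 2 906)
(mv 969 (cons (fin 908 2 905)
(fin 1036 0 969))))))))
(cons (mv 970 (cons (fin 1038 0 970)
(mv 909 (cons (fin 910 2 906)
(mv 969 (cons (fin 908 2 905)
(fin 1036 0 969)))))))
(mv 970 (cons (fin 1038 0 970)
(mv 905 (cons (fin 906 3 905)
(mv 904 (cons (fin 969 3 904)
(mv 910 (cons (fin 909 2 906)
(mv 974 (cons (fin 911 2 907)
(mv 1034 (cons (fin 1033 1 969)
(fin 1035 1 970)))))))))))))))))))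
(cons (mv 1038 (cons (fin 1039 3 972)
(mv 971 (cons (fin 970 0 970)
(mv 974 (cons (cons (mv 906 (cons (fin 907 3 906)
(mv 910 (cons (fin 911 2 907)
(mv 846 (cons (fin 782 5 781)
(fin 1101 5 845)))))))
(mv 906 (cons (fin 907 3 906)
(mv 1035 (cons (fin 1034 1 970)
(mv 975 (cons (fin 1036 1 971)
(mv 912 (cons (fin 911 2 908)
(mv 976 (cons (fin 977 1 973)
(fin 913 2 909))))))))))))
(cons (mv 906 (cons (fin 907 3 906)
(mv 1035 (cons (fin 1034 1 970)
(mv 1036 (cons (fin 975 1 971)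
(mv 1099 (cons (fin 1098 1 1034)
(mv 1102 (cons (fin 1103 0 1035)
(mv 1163 (cons (fin 1227 6 971)
(mv 1162 (cons (fin 1226 5 970)
(mv 1100 (cons (fin 1101 1 1098)
(mv 1164 (cons (fin 1228 7 971)
(fin 909 6 908)))))))))))))))))))
(mv 910 (cons (fin 911 2 907)
(mv 846 (cons (fin 782 5 781)
(fin 1101 5 845))))))))))))
(cons (mv 1038 (cons (fin 1039 3 972)
(mv 971 (cons (fin 970 0 970)
(mv 908 (cons (cons (mv 844 (cons (fin 780 4 780)
(mv 1101 (cons (fin 909 7 844)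
(fin 1165 7 908)))))
(mv 1101 (cons (fin 1165 7 908)
(mv 909 (cons (mv 910 (cons (fin 911 1 907)
(fin 846 6 845)))
(mv 1100 (cons (fin 1164 5 908)
(mv 1099 (cons (fin 1098 2 1034)
(mv 1163 (cons (fin 1036 5 907)
(fin 1035 6 907))))))))))))
(cons (mv 844 (cons (fin 780 4 780)
(mv 1036 (cons (cons (mv 779 (cons (fin 843 7 779)
(mv 1099 (cons (fin 1035 5 843)
(mv 1100 (cons (fin 1163 5 907)
(mv 1164 (cons (fin 907 7 907)
(fin 909 6 908)))))))))
(mv 843 (cons (fin 779 7 779)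
(mv 1100 (cons (fin 907 7 843)
(mv 1164 (cons (fin 909 6 908)
(fin 1228 6 972))))))))
(cons (mv 1099 (cons (fin 1035 5 843)
(mv 1100 (cons (fin 1163 5 907)
(mv 1164 (cons (fin 907 7 907)
(fin 909 6 908)))))))
(cons (mv 843 (cons (fin 779 7 779)
(mv 1035 (cons (fin 1099 5 843)
(mv 1034 (cons (fin 1033 2 969)
(mv 1098 (cons (fin 1097 1 1033)
(fin 907 5 842)))))))))
(mv 779 (cons (fin 843 7 779)
(mv 1099 (cons (fin 1035 5 843)
(mv 1100 (cons (fin 1163 5 907)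
(mv 1164 (cons (fin 909 6 908)
(fin 1228 6 972)))))))))))))))
(mv 844 (cons (fin 780 4 780)
(mv 1101 (cons (fin 1165 7 908)
(fin 1036 4 844))))))))))))
(mv 1038 (cons (fin 1039 3 972)
(mv 908 (cons (cons (mv 844 (cons (fin 780 4 780)
(mv 1101 (cons (fin 909 7 844)
(fin 1165 7 908)))))
(mv 844 (cons (fin 780 4 780)
(mv 1036 (cons (cons (mv 779 (cons (fin 843 7 779)
(mv 1035 (cons (fin 1099 5 843)
(mv 974 (cons (fin 975 1 971)
(fin 1034 2 970)))))))
(mv 843 (cons (fin 779 7 779)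
(mv 907 (cons (fin 1100 7 843)
(mv 906 (cons (fin 905 0 905)
(mv 974 (cons (fin 975 3 907)
(fin 909 0 906))))))))))
(cons (mv 1035 (cons (fin 1099 5 843)
(mv 974 (cons (fin 975 1 971)
(fin 1034 2 970)))))
(mv 779 (cons (fin 843 7 779)
(mv 1099 (cons (fin 1035 5 843)
(mv 1100 (cons (fin 1163 5 907)
(mv 1164 (cons (fin 909 6 908)
(fin 1228 6 972)))))))))))))))
(cons (mv 1101 (cons (fin 1165 7 908)
(mv 1100 (cons (cons (mv 909 (cons (fin 1164 5 908)
(mv 846 (cons (fin 910 6 845)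
(mv 1099 (cons (fin 1098 2 1034)
(mv 1036 (cons (fin 1163 5 907)
(mv 907 (cons (fin 843 7 843)
(mv 906 (cons (fin 905 0 905)
(fin 974 0 906)))))))))))))
(mv 1099 (cons (fin 1098 2 1034)
(mv 1036 (cons (fin 1163 5 907)
(mv 907 (cons (fin 843 7 843)
(mv 905 (cons (fin 906 0 905)
(mv 974 (cons (fin 975 3 907)
(mv 910 (cons (fin 846 5 845)
(mv 1035 (cons (fin 1034 2 970)
(mv 1102 (cons (fin 1103 3 1035)
(mv 911 (cons (fin 847 6 846)
(mv 912 (cons (fin 909 1 908)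
(fin 913 1 909))))))))))))))))))))))
(cons (mv 1099 (cons (fin 1098 2 1034)
(mv 1163 (cons (fin 1036 5 907)
(mv 1102 (cons (fin 1162 1 1098)
(mv 1034 (cons (fin 1035 3 1034)
(mv 1103 (cons (fin 1164 1 1099)
(mv 1104 (cons (fin 1105 3 1037)
(mv 1168 (cons (fin 1167 0 1100)
(fin 1169 0 1101)))))))))))))))
(mv 909 (cons (fin 1164 5 908)
(mv 910 (cons (fin 846 6 845)
(mv 911 (cons (fin 912 1 908)
(mv 847 (cons (fin 848 2 844)
(mv 974 (cons (fin 1102 6 846)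
(mv 783 (cons (fin 719 5 718)
(fin 975 5 782))))))))))))))))))
(mv 844 (cons (fin 780 4 780)
(mv 1101 (cons (fin 1165 7 908)
(fin 1036 4 844)))))))))))))
(cons (cons (mv 1038 (cons (fin 1039 3 972)
(mv 971 (cons (fin 970 0 970)
(mv 974 (cons (cons (mv 906 (cons (fin 907 3 906)
(mv 910 (cons (fin 911 2 907)
(mv 782 (cons (fin 846 5 781)
(mv 1035 (cons (fin 1034 1 970)
(mv 1036 (cons (fin 975 1 971)
(mv 1099 (cons (fin 1098 1 1034)
(mv 908 (cons (fin 844 5 843)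
(fin 1163 6 907)))))))))))))))
(cons (mv 906 (cons (fin 907 3 906)
(mv 911 (cons (fin 910 2 907)
(mv 975 (cons (fin 912 2 908)
(mv 976 (cons (fin 1036 1 972)
(fin 977 1 973)))))))))
(mv 906 (cons (fin 907 3 906)
(mv 1035 (cons (fin 1034 1 970)
(mv 975 (cons (fin 1036 1 971)
(mv 912 (cons (fin 911 2 908)
(mv 976 (cons (fin 977 1 973)
(fin 913 2 909)))))))))))))
(cons (cons (mv 910 (cons (fin 911 2 907)
(mv 782 (cons (fin 846 5 781)
(mv 1035 (cons (fin 1034 1 970)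
(mv 1036 (cons (fin 975 1 971)
(mv 1099 (cons (fin 1098 1 1034)
(mv 908 (cons (fin 844 5 843)
(fin 1163 6 907)))))))))))))
(mv 906 (cons (fin 907 3 906)
(mv 1035 (cons (fin 1034 1 970)
(mv 1036 (cons (fin 975 1 971)
(mv 1099 (cons (fin 1098 1 1034)
(mv 908 (cons (fin 844 5 843)
(fin 1163 6 907))))))))))))
(cons (mv 907 (cons (fin 906 3 906)
(mv 910 (cons (fin 911 2 907)
(mv 846 (cons (fin 782 5 781)
(mv 847 (cons (fin 783 6 782)
(mv 908 (cons (fin 909 2 843)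
(mv 780 (cons (fin 844 4 780)
(mv 1035 (cons (fin 1034 1 970)
(mv 1099 (cons (fin 1163 6 907)
(mv 1098 (cons (fin 1036 1 1034)
(fin 1162 5 906)))))))))))))))))))
(mv 907 (cons (fin 906 3 906)
(mv 908 (cons (fin 975 3 907)
(mv 780 (cons (fin 844 4 780)
(mv 910 (cons (fin 911 2 907)
(mv 846 (cons (fin 782 5 781)
(mv 847 (cons (fin 909 2 843)
(fin 783 6 782)))))))))))))))))))))
(cons (mv 1038 (cons (fin 1039 3 972)
(mv 971 (cons (fin 970 0 970)
(mv 974 (cons (cons (mv 906 (cons (fin 907 3 906)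
(mv 910 (cons (fin 911 2 907)
(mv 846 (cons (fin 782 5 781)
(fin 1101 5 845)))))))
(mv 907 (cons (fin 906 3 906)
(mv 908 (cons (fin 975 3 907)
(mv 780 (cons (fin 844 4 780)
(mv 1035 (cons (fin 1034 1 970)
(mv 1099 (cons (fin 1163 6 907)
(mv 1098 (cons (fin 1162 5 906)
(mv 1100 (cons (fin 1101 2 1034)
(fin 1164 4 907))))))))))))))))
(cons (mv 910 (cons (fin 911 2 907)
(mv 846 (cons (fin 782 5 781)
(fin 1101 5 845)))))
(mv 907 (cons (fin 906 3 906)
(mv 908 (cons (fin 975 3 907)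
(mv 780 (cons (fin 844 4 780)
(mv 910 (cons (fin 911 2 907)
(mv 846 (cons (fin 782 5 781)
(mv 847 (cons (fin 909 2 843)
(fin 783 6 782))))))))))))))))))))
(mv 1038 (cons (fin 1039 3 972)
(mv 971 (cons (fin 970 0 970)
(mv 974 (cons (cons (mv 906 (cons (fin 907 3 906)
(mv 910 (cons (fin 911 2 907)
(mv 846 (cons (fin 782 5 781)
(fin 1101 5 845)))))))
(mv 906 (cons (fin 907 3 906)
(mv 1035 (cons (fin 1034 1 970)
(mv 975 (cons (fin 1036 1 971)
(mv 912 (cons (fin 911 2 908)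
(mv 976 (cons (fin 977 1 973)
(fin 913 2 909))))))))))))
(cons (mv 910 (cons (fin 911 2 907)
(mv 846 (cons (fin 782 5 781)
(fin 1101 5 845)))))
(mv 906 (cons (fin 907 3 906)
(mv 1035 (cons (fin 1034 1 970)
(mv 1036 (cons (fin 975 1 971)
(mv 1099 (cons (fin 1098 1 1034)
(mv 908 (cons (fin 844 5 843)
(fin 1163 6 907))))))))))))))))))))
(cons (cons (mv 1038 (cons (fin 1039 3 972)
(mv 971 (cons (fin 970 0 970)
(mv 974 (cons (cons (mv 906 (cons (fin 907 3 906)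
(mv 1035 (cons (fin 1034 1 970)
(mv 975 (cons (fin 1036 1 971)
(mv 912 (cons (fin 911 2 908)
(mv 976 (cons (fin 977 1 973)
(fin 913 2 909)))))))))))
(mv 907 (cons (fin 906 3 906)
(mv 908 (cons (fin 975 3 907)
(mv 844 (cons (fin 780 4 780)
(mv 1101 (cons (fin 909 7 844)
(fin 1165 7 908))))))))))
(cons (mv 1035 (cons (fin 1034 1 970)
(mv 975 (cons (fin 1036 1 971)
(mv 912 (cons (fin 911 2 908)
(mv 976 (cons (fin 977 1 973)
(fin 913 2 909)))))))))
(mv 906 (cons (fin 907 3 906)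
(mv 1035 (cons (fin 1034 1 970)
(mv 908 (cons (cons (mv 780 (cons (fin 844 5 779)
(mv 1099 (cons (fin 1163 6 907)
(mv 1098 (cons (fin 1036 1 1034)
(mv 1101 (cons (fin 1100 2 1034)
(fin 1165 7 908)))))))))
(mv 1099 (cons (fin 1163 6 907)
(mv 1098 (cons (fin 1036 1 1034)
(mv 1101 (cons (fin 1100 2 1034)
(fin 1165 7 908))))))))
(cons (mv 844 (cons (fin 780 5 779)
(mv 1099 (cons (fin 1036 5 843)
(fin 1163 6 907)))))
(mv 844 (cons (fin 780 5 779)
(mv 1101 (cons (fin 909 7 844)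
(fin 1165 7 908)))))))))))))))))))
(mv 1038 (cons (fin 1039 3 972)
(mv 971 (cons (fin 970 0 970)
(mv 974 (cons (cons (mv 906 (cons (fin 907 3 906)
(mv 910 (cons (fin 911 2 907)
(mv 846 (cons (fin 782 5 781)
(fin 1101 5 845)))))))
(mv 907 (cons (fin 906 3 906)
(mv 908 (cons (fin 975 3 907)
(mv 844 (cons (fin 780 4 780)
(mv 1101 (cons (fin 909 7 844)
(fin 1165 7 908))))))))))
(cons (mv 910 (cons (fin 911 2 907)
(mv 846 (cons (fin 782 5 781)
(fin 1101 5 845)))))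
(mv 906 (cons (fin 907 3 906)
(mv 911 (cons (fin 910 2 907)
(mv 975 (cons (fin 912 2 908)
(mv 976 (cons (fin 1036 1 972)
(fin 977 1 973)))))))))))))))))
(cons (mv 1038 (cons (fin 1039 3 972)
(mv 971 (cons (fin 970 0 970)
(mv 974 (cons (mv 910 (cons (fin 911 2 907)
(mv 846 (cons (fin 782 5 781)
(fin 1101 5 845)))))
(cons (mv 1035 (cons (fin 1034 1 970)
(mv 975 (cons (fin 1036 1 971)
(mv 912 (cons (fin 911 2 908)
(mv 976 (cons (fin 977 1 973)
(fin 913 2 909)))))))))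
(mv 1035 (cons (fin 1034 1 970)
(mv 1036 (cons (fin 975 1 971)
(mv 1099 (cons (fin 1098 1 1034)
(mv 908 (cons (fin 844 5 843)
(fin 1163 6 907))))))))))))))))
(mv 1038 (cons (fin 1039 3 972)
(mv 971 (cons (fin 970 0 970)
(mv 974 (cons (cons (mv 906 (cons (fin 907 3 906)
(mv 1035 (cons (fin 1034 1 970)
(mv 1036 (cons (fin 975 1 971)
(mv 1099 (cons (fin 1098 1 1034)
(mv 908 (cons (fin 844 5 843)
(fin 1163 6 907)))))))))))
(mv 907 (cons (fin 906 3 906)
(mv 908 (cons (fin 975 3 907)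
(mv 844 (cons (fin 780 4 780)
(mv 1101 (cons (fin 909 7 844)
(fin 1165 7 908))))))))))
(cons (mv 1035 (cons (fin 1034 1 970)
(mv 1036 (cons (fin 975 1 971)
(mv 1099 (cons (fin 1098 1 1034)
(mv 908 (cons (fin 844 5 843)
(fin 1163 6 907)))))))))
(cons (mv 906 (cons (fin 907 3 906)
(mv 1035 (cons (fin 1034 1 970)
(mv 908 (cons (cons (mv 780 (cons (fin 844 5 779)
(mv 1099 (cons (fin 1163 6 907)
(mv 1098 (cons (fin 1036 1 1034)
(mv 1101 (cons (fin 1100 2 1034)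
(fin 1165 7 908)))))))))
(mv 1099 (cons (fin 1163 6 907)
(mv 1098 (cons (fin 1036 1 1034)
(mv 1101 (cons (fin 1100 2 1034)
(fin 1165 7 908))))))))
(cons (mv 844 (cons (fin 780 5 779)
(mv 1099 (cons (fin 1036 5 843)
(fin 1163 6 907)))))
(mv 844 (cons (fin 780 5 779)
(mv 1101 (cons (fin 909 7 844)
(fin 1165 7 908))))))))))))
(mv 906 (cons (fin 907 3 906)
(mv 1035 (cons (fin 1034 1 970)
(mv 1036 (cons (fin 975 1 971)
(mv 1099 (cons (fin 1098 1 1034)
(mv 1102 (cons (fin 1103 0 1035)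
(mv 1163 (cons (fin 1227 6 971)
(mv 1162 (cons (fin 1226 5 970)
(mv 1100 (cons (fin 1101 1 1098)
(mv 1164 (cons (fin 1228 7 971)
(fin 909 6 908))))))))))))))))))))))))))))))))
(cons (mv 909 (cons (cons (cons (mv 845 (cons (cons (mv 780 (cons (fin 844 7 780)
(mv 716 (cons (fin 781 7 716)
(mv 782 (cons (fin 846 6 781)
(mv 1036 (cons (fin 1100 5 844)
(mv 1038 (cons (fin 1102 4 845)
(mv 1039 (cons (fin 972 3 972)
(mv 976 (cons (fin 975 2 972)
(fin 977 2 973)))))))))))))))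
(cons (mv 780 (cons (fin 844 7 780)
(mv 716 (cons (fin 781 7 716)
(mv 846 (cons (fin 782 6 781)
(mv 1100 (cons (fin 1036 5 844)
(mv 1101 (cons (fin 1164 5 908)
(fin 910 6 845)))))))))))
(mv 780 (cons (fin 844 7 780)
(mv 716 (cons (fin 781 7 716)
(mv 846 (cons (fin 782 6 781)
(mv 910 (cons (fin 1101 6 845)
(mv 1038 (cons (fin 1102 4 845)
(mv 972 (cons (fin 1039 3 972)
(mv 911 (cons (fin 912 1 908)
(mv 971 (cons (fin 970 2 906)
(fin 974 2 907)))))))))))))))))))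
(cons (mv 780 (cons (fin 844 7 780)
(mv 716 (cons (fin 781 7 716)
(mv 1036 (cons (fin 1100 5 844)
(mv 1038 (cons (fin 1102 4 845)
(mv 1039 (cons (fin 972 3 972)
(mv 976 (cons (fin 975 2 972)
(fin 977 2 973)))))))))))))
(cons (mv 782 (cons (fin 846 6 781)
(mv 718 (cons (fin 781 6 717)
(mv 1036 (cons (fin 1100 5 844)
(mv 1038 (cons (fin 1102 4 845)
(mv 1039 (cons (fin 972 3 972)
(mv 976 (cons (fin 975 2 972)
(fin 977 2 973)))))))))))))
(mv 780 (cons (fin 844 7 780)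
(mv 782 (cons (fin 846 6 781)
(mv 1036 (cons (fin 1100 5 844)
(mv 1038 (cons (fin 1102 4 845)
(mv 1039 (cons (fin 972 3 972)
(mv 976 (cons (fin 975 2 972)
(fin 977 2 973)))))))))))))))))
(mv 1101 (cons (cons (mv 910 (cons (fin 846 6 845)
(mv 974 (cons (fin 1165 6 909)
(mv 1100 (cons (fin 1164 5 908)
(mv 1039 (cons (fin 1038 1 1036)
(mv 972 (cons (fin 975 0 972)
(mv 911 (cons (fin 912 1 908)
(fin 971 2 907)))))))))))))
(cons (mv 910 (cons (fin 846 6 845)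
(mv 1165 (cons (fin 974 6 909)
(mv 1228 (cons (fin 1164 5 972)
(mv 1229 (cons (fin 1292 5 1036)
(mv 972 (cons (fin 1036 7 972)
(mv 911 (cons (fin 912 1 908)
(mv 970 (cons (fin 971 2 906)
(mv 1038 (cons (fin 1039 3 972)
(mv 1293 (cons (fin 1102 6 1037)
(mv 1294 (cons (fin 1230 4 1037)
(fin 1358 4 1101)))))))))))))))))))))
(mv 1164 (cons (fin 1100 5 908)
(mv 1165 (cons (fin 1228 5 972)
(mv 1038 (cons (cons (mv 972 (cons (fin 1039 3 972)
(mv 1229 (cons (fin 1036 7 972)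
(fin 974 6 973)))))
(mv 1039 (cons (fin 972 3 972)
(mv 976 (cons (fin 977 2 973)
(mv 975 (cons (fin 1036 2 972)
(mv 1104 (cons (fin 1105 0 1037)
(mv 911 (cons (fin 1168 7 911)
(fin 847 4 847))))))))))))
(cons (mv 1229 (cons (fin 974 6 973)
(mv 972 (cons (fin 1036 7 972)
(mv 970 (cons (fin 971 0 970)
(mv 1293 (cons (fin 1102 6 1037)
(mv 1294 (cons (fin 1230 4 1037)
(fin 1358 4 1101)))))))))))
(cons (mv 1229 (cons (fin 974 6 973)
(mv 1102 (cons (fin 1293 6 1037)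
(mv 1104 (cons (fin 1103 1 1100)
(mv 1039 (cons (fin 1105 0 1037)
(mv 976 (cons (fin 977 2 973)
(mv 975 (cons (fin 1036 2 972)
(mv 911 (cons (fin 1168 7 911)
(fin 847 5 846)))))))))))))))
(mv 972 (cons (fin 1039 3 972)
(mv 970 (cons (fin 971 0 970)
(mv 1229 (cons (fin 974 6 973)
(mv 1293 (cons (fin 1102 6 1037)
(mv 1294 (cons (fin 1230 4 1037)
(fin 1358 4 1101)))))))))))))))))))))
(cons (cons (mv 910 (cons (fin 846 6 845)
(mv 974 (cons (fin 1165 6 909)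
(mv 972 (cons (mv 911 (cons (fin 912 1 908)
(fin 971 2 907)))
(mv 1039 (cons (fin 1038 3 972)
(fin 975 0 972)))))))))
(mv 910 (cons (fin 846 6 845)
(mv 1164 (cons (fin 1100 5 908)
(mv 1165 (cons (fin 1228 5 972)
(fin 974 6 909))))))))
(cons (mv 910 (cons (fin 846 6 845)
(mv 1100 (cons (fin 1164 5 908)
(mv 1039 (cons (fin 1038 1 1036)
(mv 1103 (cons (fin 1102 2 1036)
(mv 972 (cons (cons (mv 911 (cons (fin 912 1 908)
(mv 971 (cons (fin 970 2 906)
(fin 974 2 907)))))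
(mv 912 (cons (fin 911 1 908)
(mv 970 (cons (fin 971 2 906)
(mv 976 (cons (fin 848 5 847)
(mv 1167 (cons (fin 1104 5 911)
(fin 975 6 911))))))))))
(cons (mv 971 (cons (fin 970 2 906)
(mv 974 (cons (fin 911 2 907)
(fin 975 0 972)))))
(cons (mv 971 (cons (fin 970 2 906)
(mv 974 (cons (fin 975 0 972)
(mv 907 (cons (fin 906 3 906)
(mv 1035 (cons (fin 1034 1 970)
(mv 843 (cons (fin 1036 4 843)
(mv 778 (cons (fin 842 7 778)
(mv 779 (cons (fin 714 7 714)
(mv 780 (cons (fin 716 6 715)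
(fin 844 6 779)))))))))))))))))
(mv 911 (cons (fin 912 1 908)
(mv 975 (cons (fin 974 0 972)
(mv 1104 (cons (fin 847 4 847)
(fin 1168 4 911)))))))))))))))))))
(mv 910 (cons (fin 846 6 845)
(mv 1100 (cons (fin 1164 5 908)
(mv 1039 (cons (fin 1038 1 1036)
(mv 1103 (cons (fin 1102 2 1036)
(mv 912 (cons (cons (mv 848 (cons (fin 976 5 847)
(mv 911 (cons (fin 972 1 908)
(fin 849 2 845)))))
(mv 911 (cons (fin 972 1 908)
(mv 848 (cons (fin 849 2 845)
(fin 975 6 847))))))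
(cons (mv 976 (cons (fin 848 5 847)
(mv 1167 (cons (fin 1104 5 911)
(fin 975 6 911)))))
(mv 911 (cons (fin 972 1 908)
(mv 976 (cons (fin 977 0 909)
(mv 1104 (cons (fin 847 7 847)
(fin 1167 5 911)))))))))))))))))))))))
(cons (mv 845 (cons (cons (mv 780 (cons (fin 844 7 780)
(mv 716 (cons (fin 781 7 716)
(mv 846 (cons (fin 782 6 781)
(mv 1100 (cons (fin 1036 5 844)
(mv 1101 (cons (fin 1164 5 908)
(fin 910 6 845)))))))))))
(mv 780 (cons (fin 844 7 780)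
(mv 781 (cons (fin 716 7 716)
(mv 782 (cons (fin 718 6 717)
(fin 846 6 781))))))))
(cons (mv 780 (cons (fin 844 7 780)
(mv 781 (cons (fin 716 7 716)
(mv 1036 (cons (fin 972 5 780)
(fin 1100 5 844)))))))
(cons (mv 782 (cons (fin 846 6 781)
(mv 781 (cons (fin 718 6 717)
(mv 1036 (cons (fin 972 5 780)
(fin 1100 5 844)))))))
(mv 780 (cons (fin 844 7 780)
(mv 846 (cons (fin 782 6 781)
(mv 1100 (cons (fin 1036 5 844)
(mv 1101 (cons (fin 1164 5 908)
(fin 910 6 845)))))))))))))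
(mv 845 (cons (cons (mv 780 (cons (fin 844 7 780)
(mv 716 (cons (fin 781 7 716)
(mv 782 (cons (fin 846 6 781)
(mv 1036 (cons (fin 1100 5 844)
(mv 1038 (cons (fin 1102 4 845)
(mv 1039 (cons (fin 972 3 972)
(mv 976 (cons (fin 975 2 972)
(fin 977 2 973)))))))))))))))
(mv 780 (cons (fin 844 7 780)
(mv 781 (cons (fin 716 7 716)
(mv 782 (cons (fin 718 6 717)
(fin 846 6 781))))))))
(cons (mv 780 (cons (fin 844 7 780)
(mv 716 (cons (fin 781 7 716)
(mv 1036 (cons (fin 1100 5 844)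
(mv 1038 (cons (fin 1102 4 845)
(mv 1039 (cons (fin 972 3 972)
(mv 976 (cons (fin 975 2 972)
(fin 977 2 973)))))))))))))
(cons (mv 782 (cons (fin 846 6 781)
(mv 718 (cons (fin 781 6 717)
(mv 1036 (cons (fin 1100 5 844)
(mv 1038 (cons (fin 1102 4 845)
(mv 1039 (cons (fin 972 3 972)
(mv 976 (cons (fin 975 2 972)
(fin 977 2 973)))))))))))))
(mv 780 (cons (fin 844 7 780)
(mv 782 (cons (fin 846 6 781)
(mv 1036 (cons (fin 1100 5 844)
(mv 1038 (cons (fin 1102 4 845)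
(mv 1039 (cons (fin 972 3 972)
(mv 976 (cons (fin 975 2 972)
(fin 977 2 973)))))))))))))))))))
(cons (cons (mv 845 (cons (cons (mv 780 (cons (fin 844 7 780)
(mv 716 (cons (fin 781 7 716)
(mv 782 (cons (fin 846 6 781)
(mv 1038 (cons (fin 1102 4 845)
(mv 1039 (cons (fin 972 3 972)
(mv 976 (cons (fin 977 2 973)
(mv 975 (cons (fin 1036 2 972)
(mv 1104 (cons (fin 1105 0 1037)
(mv 911 (cons (fin 1168 7 911)
(fin 847 4 847)))))))))))))))))))
(mv 780 (cons (fin 844 7 780)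
(mv 781 (cons (fin 716 7 716)
(mv 782 (cons (fin 718 6 717)
(fin 846 6 781))))))))
(cons (mv 780 (cons (fin 844 7 780)
(mv 716 (cons (fin 781 7 716)
(mv 1038 (cons (fin 1102 4 845)
(mv 1039 (cons (fin 972 3 972)
(mv 976 (cons (fin 977 2 973)
(mv 975 (cons (fin 1036 2 972)
(mv 1104 (cons (fin 1105 0 1037)
(mv 911 (cons (fin 1168 7 911)
(fin 847 4 847)))))))))))))))))
(cons (mv 782 (cons (fin 846 6 781)
(mv 718 (cons (fin 781 6 717)
(mv 1038 (cons (fin 1102 4 845)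
(mv 1039 (cons (fin 972 3 972)
(mv 976 (cons (fin 977 2 973)
(mv 975 (cons (fin 1036 2 972)
(mv 1104 (cons (fin 1105 0 1037)
(mv 911 (cons (fin 1168 7 911)
(fin 847 4 847)))))))))))))))))
(mv 780 (cons (fin 844 7 780)
(mv 782 (cons (fin 846 6 781)
(mv 1038 (cons (fin 1102 4 845)
(mv 1039 (cons (fin 972 3 972)
(mv 976 (cons (fin 977 2 973)
(mv 975 (cons (fin 1036 2 972)
(mv 1104 (cons (fin 1105 0 1037)
(mv 911 (cons (fin 1168 7 911)
(fin 847 4 847)))))))))))))))))))))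
(mv 845 (cons (cons (mv 780 (cons (fin 844 7 780)
(mv 716 (cons (fin 781 7 716)
(mv 1036 (cons (fin 1100 5 844)
(mv 1038 (cons (fin 1102 4 845)
(mv 1039 (cons (fin 972 3 972)
(mv 976 (cons (fin 975 2 972)
(fin 977 2 973)))))))))))))
(mv 780 (cons (fin 844 7 780)
(mv 781 (cons (fin 716 7 716)
(mv 1036 (cons (fin 972 5 780)
(fin 1100 5 844))))))))
(cons (mv 780 (cons (fin 844 7 780)
(mv 781 (cons (fin 716 7 716)
(mv 1038 (cons (fin 974 4 781)
(fin 1102 4 845)))))))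
(cons (mv 1036 (cons (fin 1100 5 844)
(mv 781 (cons (fin 972 5 780)
(mv 1038 (cons (fin 974 4 781)
(fin 1102 4 845)))))))
(mv 780 (cons (fin 844 7 780)
(mv 1036 (cons (fin 1100 5 844)
(mv 1038 (cons (fin 1102 4 845)
(mv 1039 (cons (fin 972 3 972)
(mv 976 (cons (fin 975 2 972)
(fin 977 2 973))))))))))))))))
(cons (mv 845 (cons (cons (mv 780 (cons (fin 844 7 780)
(mv 716 (cons (fin 781 7 716)
(mv 782 (cons (fin 846 6 781)
(mv 1038 (cons (fin 1102 4 845)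
(mv 1100 (cons (fin 1036 5 844)
(mv 1101 (cons (fin 1039 1 1036)
(fin 1164 5 908)))))))))))))
(cons (mv 780 (cons (fin 844 7 780)
(mv 716 (cons (fin 781 7 716)
(mv 846 (cons (fin 782 6 781)
(mv 1100 (cons (fin 1036 5 844)
(mv 1101 (cons (fin 1164 5 908)
(fin 910 6 845)))))))))))
(mv 780 (cons (fin 844 7 780)
(mv 716 (cons (fin 781 7 716)
(mv 1038 (cons (fin 1102 4 845)
(mv 1100 (cons (fin 1036 5 844)
(mv 1101 (cons (fin 1039 1 1036)
(fin 1164 5 908)))))))))))))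
(cons (mv 780 (cons (fin 844 7 780)
(mv 781 (cons (fin 716 7 716)
(mv 782 (cons (fin 718 6 717)
(fin 846 6 781)))))))
(cons (mv 782 (cons (fin 846 6 781)
(mv 718 (cons (fin 781 6 717)
(mv 1038 (cons (fin 1102 4 845)
(mv 1100 (cons (fin 1036 5 844)
(mv 1101 (cons (fin 1039 1 1036)
(fin 1164 5 908)))))))))))
(mv 780 (cons (fin 844 7 780)
(mv 782 (cons (fin 846 6 781)
(mv 1038 (cons (fin 1102 4 845)
(mv 1100 (cons (fin 1036 5 844)
(mv 1101 (cons (fin 1039 1 1036)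
(fin 1164 5 908)))))))))))))))
(cons (mv 845 (cons (cons (mv 780 (cons (fin 844 7 780)
(mv 716 (cons (fin 781 7 716)
(mv 846 (cons (fin 782 6 781)
(mv 910 (cons (fin 1101 6 845)
(mv 1038 (cons (fin 1102 4 845)
(mv 972 (cons (fin 1039 3 972)
(mv 911 (cons (fin 912 1 908)
(mv 971 (cons (fin 970 2 906)
(fin 974 2 907)))))))))))))))))
(mv 780 (cons (fin 844 7 780)
(mv 781 (cons (fin 716 7 716)
(mv 782 (cons (fin 718 6 717)
(fin 846 6 781))))))))
(cons (mv 780 (cons (fin 844 7 780)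
(mv 781 (cons (fin 716 7 716)
(mv 1038 (cons (fin 974 4 781)
(fin 1102 4 845)))))))
(cons (mv 782 (cons (fin 846 6 781)
(mv 781 (cons (fin 718 6 717)
(mv 1038 (cons (fin 974 4 781)
(fin 1102 4 845)))))))
(mv 780 (cons (fin 844 7 780)
(mv 846 (cons (fin 782 6 781)
(mv 910 (cons (fin 1101 6 845)
(mv 1038 (cons (fin 1102 4 845)
(mv 972 (cons (fin 1039 3 972)
(mv 911 (cons (fin 912 1 908)
(mv 971 (cons (fin 970 2 906)
(fin 974 2 907)))))))))))))))))))
(mv 845 (cons (cons (mv 782 (cons (fin 846 6 781)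
(mv 718 (cons (fin 781 6 717)
(mv 1036 (cons (fin 1100 5 844)
(mv 1038 (cons (fin 1102 4 845)
(mv 1039 (cons (fin 972 3 972)
(mv 976 (cons (fin 975 2 972)
(fin 977 2 973)))))))))))))
(mv 782 (cons (fin 846 6 781)
(mv 781 (cons (fin 718 6 717)
(mv 1036 (cons (fin 972 5 780)
(fin 1100 5 844))))))))
(cons (mv 782 (cons (fin 846 6 781)
(mv 781 (cons (fin 718 6 717)
(mv 1038 (cons (fin 974 4 781)
(fin 1102 4 845)))))))
(cons (mv 1036 (cons (fin 1100 5 844)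
(mv 781 (cons (fin 972 5 780)
(mv 1038 (cons (fin 974 4 781)
(fin 1102 4 845)))))))
(mv 782 (cons (fin 846 6 781)
(mv 1036 (cons (fin 1100 5 844)
(mv 1038 (cons (fin 1102 4 845)
(mv 1039 (cons (fin 972 3 972)
(mv 976 (cons (fin 975 2 972)
(fin 977 2 973))))))))))))))))))))
(mv 972 (cons (cons (cons (mv 1038 (cons (fin 1039 3 972)
(mv 970 (cons (fin 971 0 970)
(mv 908 (cons (cons (mv 844 (cons (fin 780 4 780)
(mv 1101 (cons (fin 909 7 844)
(fin 1165 7 908)))))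
(mv 1101 (cons (fin 1165 7 908)
(mv 909 (cons (mv 845 (cons (fin 1102 4 845)
(mv 781 (cons (fin 717 5 716)
(fin 1036 5 780)))))
(cons (mv 1100 (cons (fin 1164 5 908)
(mv 1099 (cons (fin 1098 2 1034)
(mv 1036 (cons (fin 1163 5 907)
(mv 907 (cons (fin 843 7 843)
(mv 906 (cons (fin 969 1 905)
(fin 905 0 905)))))))))))
(mv 845 (cons (fin 1102 4 845)
(mv 781 (cons (fin 717 5 716)
(fin 974 4 781)))))))))))
(cons (mv 844 (cons (fin 780 4 780)
(mv 1036 (cons (cons (mv 779 (cons (fin 843 7 779)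
(mv 781 (cons (fin 845 6 780)
(mv 1035 (cons (fin 1099 5 843)
(mv 974 (cons (fin 975 1 971)
(fin 1034 2 970)))))))))
(mv 779 (cons (fin 843 7 779)
(mv 845 (cons (fin 781 6 780)
(mv 909 (cons (fin 1100 5 844)
(fin 1102 4 845))))))))
(cons (mv 779 (cons (fin 843 7 779)
(mv 1035 (cons (fin 1099 5 843)
(mv 974 (cons (fin 975 1 971)
(fin 1034 2 970)))))))
(mv 781 (cons (fin 845 6 780)
(mv 1035 (cons (fin 1099 5 843)
(mv 974 (cons (fin 975 1 971)
(fin 1034 2 970))))))))))))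
(mv 844 (cons (fin 780 4 780)
(mv 1101 (cons (fin 1165 7 908)
(fin 1036 4 844))))))))))))
(cons (mv 908 (cons (cons (mv 844 (cons (fin 780 4 780)
(mv 1101 (cons (fin 909 7 844)
(fin 1165 7 908)))))
(mv 1101 (cons (fin 1165 7 908)
(mv 974 (cons (mv 975 (cons (fin 907 3 907)
(fin 1039 0 972)))
(cons (mv 971 (cons (cons (mv 906 (cons (fin 907 3 906)
(mv 970 (cons (fin 905 3 905)
(mv 969 (cons (fin 909 2 905)
(fin 1036 0 969)))))))
(mv 1034 (cons (fin 1035 1 970)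
(mv 970 (cons (fin 1033 1 969)
(mv 969 (cons (fin 909 2 905)
(fin 1036 0 969))))))))
(cons (mv 907 (cons (fin 906 3 906)
(mv 1035 (cons (fin 1034 1 970)
(mv 1099 (cons (fin 1163 6 907)
(mv 1098 (cons (fin 1162 5 906)
(mv 1100 (cons (fin 1164 4 907)
(mv 1036 (cons (fin 1097 2 1033)
(fin 843 7 843)))))))))))))
(mv 906 (cons (fin 907 3 906)
(mv 970 (cons (fin 905 3 905)
(mv 1034 (cons (fin 1033 1 969)
(fin 1035 1 970))))))))))
(mv 975 (cons (fin 1039 0 972)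
(mv 976 (cons (fin 909 3 908)
(fin 1036 1 972)))))))))))
(cons (mv 780 (cons (fin 844 4 780)
(mv 974 (cons (mv 975 (cons (fin 907 3 907)
(fin 1039 0 972)))
(cons (mv 971 (cons (cons (mv 906 (cons (fin 907 3 906)
(mv 970 (cons (fin 905 3 905)
(mv 969 (cons (fin 909 2 905)
(fin 1036 0 969)))))))
(mv 1034 (cons (fin 1035 1 970)
(mv 970 (cons (fin 1033 1 969)
(mv 969 (cons (fin 909 2 905)
(fin 1036 0 969))))))))
(cons (mv 907 (cons (fin 906 3 906)
(mv 1035 (cons (fin 1034 1 970)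
(mv 1099 (cons (fin 1163 6 907)
(mv 1098 (cons (fin 1162 5 906)
(mv 1100 (cons (fin 1164 4 907)
(mv 1036 (cons (fin 1097 2 1033)
(fin 843 7 843)))))))))))))
(mv 906 (cons (fin 907 3 906)
(mv 970 (cons (fin 905 3 905)
(mv 1034 (cons (fin 1033 1 969)
(fin 1035 1 970))))))))))
(mv 975 (cons (fin 1039 0 972)
(mv 976 (cons (fin 909 3 908)
(fin 1036 1 972))))))))))
(mv 844 (cons (fin 780 4 780)
(mv 1101 (cons (fin 1165 7 908)
(fin 1036 4 844))))))))
(mv 908 (cons (cons (mv 844 (cons (fin 780 4 780)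
(mv 1101 (cons (fin 909 7 844)
(fin 1165 7 908)))))
(mv 1101 (cons (fin 1165 7 908)
(mv 907 (cons (cons (mv 906 (cons (fin 905 0 905)
(mv 974 (cons (fin 971 3 906)
(fin 975 3 907)))))
(mv 974 (cons (fin 975 3 907)
(mv 971 (cons (mv 970 (cons (fin 1038 0 970)
(mv 969 (cons (fin 968 2 904)
(fin 909 2 905)))))
(cons (mv 1035 (cons (fin 1034 1 970)
(mv 1099 (cons (fin 1163 6 907)
(mv 1098 (cons (fin 1162 5 906)
(mv 1038 (cons (fin 1036 1 1034)
(fin 1100 2 1034)))))))))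
(mv 1034 (cons (fin 1035 1 970)
(mv 970 (cons (fin 1033 1 969)
(mv 969 (cons (fin 968 2 904)
(fin 909 2 905)))))))))))))
(cons (mv 906 (cons (fin 905 0 905)
(mv 909 (cons (cons (mv 841 (cons (fin 842 3 841)
(mv 845 (cons (fin 846 2 842)
(mv 781 (cons (fin 717 5 716)
(fin 1036 5 780)))))))
(mv 841 (cons (fin 842 3 841)
(mv 969 (cons (fin 970 1 905)
(mv 1100 (cons (fin 1164 5 908)
(mv 1036 (cons (fin 843 7 843)
(mv 1099 (cons (fin 1163 5 907)
(mv 1098 (cons (fin 1097 2 1033)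
(fin 1038 2 1034))))))))))))))
(cons (mv 845 (cons (fin 846 2 842)
(mv 781 (cons (fin 717 5 716)
(fin 1036 5 780)))))
(mv 841 (cons (fin 842 3 841)
(mv 845 (cons (fin 846 2 842)
(mv 717 (cons (fin 781 5 716)
(mv 970 (cons (fin 969 1 905)
(mv 1038 (cons (fin 971 0 970)
(fin 1102 4 845))))))))))))))))
(mv 906 (cons (fin 905 0 905)
(mv 974 (cons (fin 975 3 907)
(fin 909 0 906)))))))))))
(cons (mv 780 (cons (fin 844 4 780)
(mv 907 (cons (cons (mv 906 (cons (fin 905 0 905)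
(mv 974 (cons (fin 971 3 906)
(fin 975 3 907)))))
(mv 974 (cons (fin 975 3 907)
(mv 971 (cons (mv 970 (cons (fin 1038 0 970)
(mv 969 (cons (fin 968 2 904)
(fin 909 2 905)))))
(cons (mv 1035 (cons (fin 1034 1 970)
(mv 1099 (cons (fin 1163 6 907)
(mv 1098 (cons (fin 1162 5 906)
(mv 1036 (cons (fin 1038 1 1034)
(mv 843 (cons (fin 1100 7 843)
(fin 779 4 779)))))))))))
(mv 1034 (cons (fin 1035 1 970)
(mv 970 (cons (fin 1033 1 969)
(mv 969 (cons (fin 968 2 904)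
(fin 909 2 905)))))))))))))
(cons (mv 906 (cons (fin 905 0 905)
(mv 909 (cons (mv 841 (cons (fin 842 3 841)
(mv 845 (cons (fin 846 2 842)
(mv 781 (cons (fin 716 7 716)
(fin 717 5 716)))))))
(cons (mv 841 (cons (fin 842 3 841)
(mv 970 (cons (fin 969 1 905)
(mv 971 (cons (fin 1038 0 970)
(mv 1034 (cons (fin 1033 1 969)
(mv 843 (cons (fin 779 5 778)
(fin 1098 6 842)))))))))))
(mv 845 (cons (fin 846 2 842)
(mv 781 (cons (fin 716 7 716)
(fin 717 5 716))))))))))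
(mv 906 (cons (fin 905 0 905)
(mv 974 (cons (fin 975 3 907)
(fin 909 0 906))))))))))
(mv 844 (cons (fin 780 4 780)
(mv 1101 (cons (fin 1165 7 908)
(fin 1036 4 844))))))))))
(cons (cons (mv 1038 (cons (fin 1039 3 972)
(mv 971 (cons (fin 970 0 970)
(mv 1035 (cons (cons (mv 974 (cons (fin 1034 1 970)
(mv 906 (cons (fin 907 3 906)
(mv 975 (cons (fin 1036 1 971)
(mv 912 (cons (fin 911 2 908)
(mv 976 (cons (fin 977 1 973)
(fin 913 2 909)))))))))))
(mv 1036 (cons (cons (mv 1033 (cons (fin 1034 2 969)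
(mv 1099 (cons (fin 1098 1 1034)
(mv 1102 (cons (fin 1103 0 1035)
(mv 845 (cons (fin 909 4 845)
(mv 1163 (cons (fin 1227 6 971)
(mv 1162 (cons (fin 1226 5 970)
(mv 1100 (cons (fin 1101 1 1098)
(mv 907 (cons (fin 1164 7 907)
(fin 843 4 843)))))))))))))))))
(mv 1099 (cons (fin 1098 1 1034)
(mv 1102 (cons (fin 1103 0 1035)
(mv 845 (cons (fin 909 4 845)
(mv 1163 (cons (fin 1227 6 971)
(mv 1162 (cons (fin 1226 5 970)
(mv 1100 (cons (fin 1101 1 1098)
(mv 907 (cons (fin 1164 7 907)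
(fin 843 4 843))))))))))))))))
(cons (mv 1033 (cons (fin 1034 2 969)
(mv 1099 (cons (fin 1098 1 1034)
(mv 1163 (cons (fin 1227 6 971)
(mv 1162 (cons (fin 1226 5 970)
(mv 1164 (cons (fin 1228 4 971)
(mv 1100 (cons (fin 907 7 907)
(fin 909 6 908)))))))))))))
(mv 1034 (cons (fin 1033 2 969)
(mv 1102 (cons (fin 1101 0 1034)
(fin 1103 0 1035)))))))))
(cons (mv 907 (cons (cons (mv 906 (cons (fin 974 3 906)
(mv 842 (cons (fin 1099 7 842)
(mv 778 (cons (fin 843 7 778)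
(fin 714 4 714)))))))
(mv 1036 (cons (mv 843 (cons (fin 779 4 779)
(fin 1100 4 843)))
(cons (mv 843 (cons (fin 779 4 779)
(mv 778 (cons (fin 842 7 778)
(mv 844 (cons (fin 780 6 779)
(mv 1098 (cons (fin 1099 1 1034)
(mv 1102 (cons (fin 1103 0 1035)
(mv 845 (cons (fin 909 4 845)
(mv 846 (cons (fin 906 1 842)
(mv 783 (cons (fin 782 2 779)
(mv 847 (cons (fin 784 2 780)
(mv 912 (cons (fin 911 0 844)
(mv 848 (cons (fin 913 0 845)
(fin 976 7 783)))))))))))))))))))))))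
(mv 1099 (cons (fin 1098 1 1034)
(mv 842 (cons (fin 906 7 842)
(mv 1100 (cons (fin 1164 7 907)
(mv 845 (cons (fin 909 5 844)
(mv 1102 (cons (fin 1103 0 1035)
(mv 1163 (cons (fin 1227 6 971)
(mv 1162 (cons (fin 1101 1 1098)
(fin 1226 5 970)))))))))))))))))))
(cons (mv 843 (cons (mv 1036 (cons (fin 779 4 779)
(fin 1100 4 843)))
(cons (mv 778 (cons (fin 842 7 778)
(mv 779 (cons (fin 714 7 714)
(mv 780 (cons (fin 716 6 715)
(fin 844 6 779)))))))
(mv 778 (cons (fin 842 7 778)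
(mv 780 (cons (fin 844 6 779)
(mv 1100 (cons (fin 1036 4 843)
(mv 1099 (cons (fin 1164 4 907)
(mv 1098 (cons (fin 1101 2 1034)
(fin 1162 5 906))))))))))))))
(mv 974 (cons (fin 906 3 906)
(mv 975 (cons (fin 1036 1 971)
(mv 912 (cons (fin 911 2 908)
(mv 976 (cons (fin 977 1 973)
(fin 913 2 909))))))))))))
(cons (mv 907 (cons (mv 974 (cons (fin 906 3 906)
(fin 1034 1 970)))
(cons (mv 843 (cons (cons (mv 778 (cons (fin 842 7 778)
(mv 714 (cons (fin 779 7 714)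
(mv 780 (cons (fin 844 6 779)
(mv 1098 (cons (fin 1034 5 842)
(mv 1099 (cons (fin 1162 5 906)
(mv 1100 (cons (fin 1101 2 1034)
(fin 1164 4 907)))))))))))))
(mv 780 (cons (fin 844 6 779)
(mv 716 (cons (fin 779 6 715)
(mv 1098 (cons (fin 1034 5 842)
(mv 1099 (cons (fin 1162 5 906)
(mv 1100 (cons (fin 1101 2 1034)
(fin 1164 4 907))))))))))))
(cons (mv 778 (cons (fin 842 7 778)
(mv 714 (cons (fin 779 7 714)
(mv 1098 (cons (fin 1034 5 842)
(mv 1099 (cons (fin 1162 5 906)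
(mv 1100 (cons (fin 1101 2 1034)
(fin 1164 4 907)))))))))))
(cons (mv 778 (cons (fin 842 7 778)
(mv 779 (cons (fin 714 7 714)
(mv 780 (cons (fin 716 6 715)
(fin 844 6 779)))))))
(mv 778 (cons (fin 842 7 778)
(mv 780 (cons (fin 844 6 779)
(mv 1098 (cons (fin 1034 5 842)
(mv 1099 (cons (fin 1162 5 906)
(mv 1100 (cons (fin 1101 2 1034)
(fin 1164 4 907)))))))))))))))
(mv 906 (cons (fin 974 3 906)
(mv 842 (cons (fin 1099 7 842)
(mv 778 (cons (fin 843 7 778)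
(fin 714 4 714))))))))))
(mv 974 (cons (fin 1034 1 970)
(mv 975 (cons (fin 1036 1 971)
(mv 912 (cons (fin 911 2 908)
(mv 976 (cons (fin 977 1 973)
(fin 913 2 909)))))))))))))))))
(mv 1038 (cons (fin 1039 3 972)
(mv 970 (cons (fin 971 0 970)
(mv 908 (cons (cons (mv 844 (cons (fin 780 4 780)
(mv 1101 (cons (fin 909 7 844)
(fin 1165 7 908)))))
(mv 1101 (cons (fin 1165 7 908)
(mv 1100 (cons (cons (mv 909 (cons (fin 1164 5 908)
(mv 845 (cons (fin 1036 5 844)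
(fin 1102 4 845)))))
(mv 1099 (cons (fin 1098 2 1034)
(mv 1163 (cons (fin 1036 5 907)
(mv 1102 (cons (fin 1162 1 1098)
(mv 1034 (cons (fin 1035 3 1034)
(mv 1103 (cons (fin 1164 1 1099)
(mv 1104 (cons (fin 1105 3 1037)
(mv 1168 (cons (fin 1167 0 1100)
(fin 1169 0 1101))))))))))))))))
(cons (mv 1099 (cons (fin 1098 2 1034)
(mv 1036 (cons (fin 1163 5 907)
(mv 907 (cons (fin 843 7 843)
(mv 906 (cons (fin 905 0 905)
(mv 909 (cons (fin 969 1 905)
(fin 845 5 844)))))))))))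
(mv 909 (cons (fin 1164 5 908)
(mv 845 (cons (fin 1102 4 845)
(mv 781 (cons (fin 717 5 716)
(mv 782 (cons (fin 718 6 717)
(fin 846 6 781)))))))))))))))
(cons (mv 844 (cons (fin 780 4 780)
(mv 1036 (cons (cons (mv 779 (cons (fin 843 7 779)
(mv 781 (cons (fin 845 6 780)
(mv 1035 (cons (fin 1099 5 843)
(mv 1034 (cons (fin 969 3 969)
(fin 1033 2 969)))))))))
(mv 779 (cons (fin 843 7 779)
(mv 1035 (cons (fin 1099 5 843)
(mv 1034 (cons (fin 969 3 969)
(fin 1033 2 969))))))))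
(cons (mv 779 (cons (fin 843 7 779)
(mv 845 (cons (fin 781 6 780)
(mv 909 (cons (fin 1100 5 844)
(fin 1102 4 845)))))))
(mv 781 (cons (fin 845 6 780)
(mv 1035 (cons (fin 1099 5 843)
(mv 1034 (cons (fin 969 3 969)
(fin 1033 2 969))))))))))))
(mv 844 (cons (fin 780 4 780)
(mv 1101 (cons (fin 1165 7 908)
(fin 1036 4 844)))))))))))))
(cons (mv 1038 (cons (fin 1039 3 972)
(mv 908 (cons (cons (mv 844 (cons (fin 780 4 780)
(mv 1101 (cons (fin 909 7 844)
(fin 1165 7 908)))))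
(mv 1101 (cons (fin 1165 7 908)
(mv 909 (cons (mv 845 (cons (fin 1102 4 845)
(mv 781 (cons (fin 717 5 716)
(fin 1036 5 780)))))
(cons (mv 1100 (cons (fin 1164 5 908)
(mv 1099 (cons (fin 1098 2 1034)
(mv 1036 (cons (fin 1163 5 907)
(mv 907 (cons (fin 843 7 843)
(mv 906 (cons (fin 905 0 905)
(fin 974 0 906)))))))))))
(mv 845 (cons (fin 1102 4 845)
(mv 781 (cons (fin 717 5 716)
(fin 974 4 781)))))))))))
(cons (mv 844 (cons (fin 780 4 780)
(mv 1036 (cons (cons (mv 779 (cons (fin 843 7 779)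
(mv 781 (cons (fin 845 6 780)
(mv 1035 (cons (fin 1099 5 843)
(mv 974 (cons (fin 975 1 971)
(fin 1034 2 970)))))))))
(mv 779 (cons (fin 843 7 779)
(mv 845 (cons (fin 781 6 780)
(mv 909 (cons (fin 1100 5 844)
(fin 1102 4 845))))))))
(cons (mv 779 (cons (fin 843 7 779)
(mv 1035 (cons (fin 1099 5 843)
(mv 974 (cons (fin 975 1 971)
(fin 1034 2 970)))))))
(mv 781 (cons (fin 845 6 780)
(mv 1035 (cons (fin 1099 5 843)
(mv 974 (cons (fin 975 1 971)
(fin 1034 2 970))))))))))))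
(mv 844 (cons (fin 780 4 780)
(mv 1101 (cons (fin 1165 7 908)
(fin 1036 4 844))))))))))
(mv 1038 (cons (fin 1039 3 972)
(mv 971 (cons (fin 970 0 970)
(mv 974 (cons (cons (mv 906 (cons (fin 907 3 906)
(mv 1035 (cons (fin 1034 1 970)
(mv 975 (cons (fin 1036 1 971)
(mv 911 (cons (fin 912 2 908)
(mv 783 (cons (fin 847 5 782)
(mv 976 (cons (fin 977 1 973)
(mv 909 (cons (fin 908 3 908)
(mv 845 (cons (fin 781 4 781)
(fin 1102 4 845)))))))))))))))))
(cons (mv 907 (cons (fin 906 3 906)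
(mv 975 (cons (fin 908 3 907)
(mv 976 (cons (fin 1036 1 972)
(fin 977 1 973)))))))
(mv 1035 (cons (fin 1034 1 970)
(mv 975 (cons (fin 1036 1 971)
(mv 911 (cons (fin 912 2 908)
(mv 783 (cons (fin 847 5 782)
(mv 976 (cons (fin 977 1 973)
(mv 909 (cons (fin 908 3 908)
(mv 845 (cons (fin 781 4 781)
(fin 1102 4 845)))))))))))))))))
(cons (mv 907 (cons (fin 906 3 906)
(mv 1035 (cons (fin 1034 1 970)
(mv 1036 (cons (mv 843 (cons (fin 779 4 779)
(fin 1100 4 843)))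
(cons (mv 779 (cons (fin 843 4 779)
(mv 1099 (cons (fin 1098 1 1034)
(mv 908 (cons (fin 844 5 843)
(fin 1163 6 907)))))))
(mv 1099 (cons (fin 1098 1 1034)
(mv 908 (cons (fin 844 5 843)
(fin 1163 6 907))))))))))))
(cons (mv 907 (cons (fin 906 3 906)
(mv 908 (cons (fin 975 3 907)
(mv 844 (cons (fin 780 4 780)
(mv 1035 (cons (fin 1034 1 970)
(fin 1099 6 843)))))))))
(mv 906 (cons (fin 907 3 906)
(mv 1035 (cons (fin 1034 1 970)
(mv 975 (cons (fin 1036 1 971)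
(mv 912 (cons (fin 911 2 908)
(mv 976 (cons (fin 977 1 973)
(fin 913 2 909))))))))))))))))))))))
(cons (cons (mv 1038 (cons (fin 1039 3 972)
(mv 971 (cons (fin 970 0 970)
(mv 974 (cons (cons (mv 906 (cons (fin 907 3 906)
(mv 1035 (cons (fin 1034 1 970)
(mv 975 (cons (fin 1036 1 971)
(mv 911 (cons (fin 912 2 908)
(mv 783 (cons (fin 847 5 782)
(mv 976 (cons (fin 977 1 973)
(mv 909 (cons (fin 908 3 908)
(mv 845 (cons (fin 781 4 781)
(fin 1102 4 845)))))))))))))))))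
(cons (mv 907 (cons (fin 906 3 906)
(mv 975 (cons (fin 908 3 907)
(mv 976 (cons (fin 1036 1 972)
(fin 977 1 973)))))))
(mv 1035 (cons (fin 1034 1 970)
(mv 975 (cons (fin 1036 1 971)
(mv 911 (cons (fin 912 2 908)
(mv 783 (cons (fin 847 5 782)
(mv 976 (cons (fin 977 1 973)
(mv 909 (cons (fin 908 3 908)
(mv 845 (cons (fin 781 4 781)
(fin 1102 4 845)))))))))))))))))
(cons (mv 906 (cons (fin 907 3 906)
(mv 1035 (cons (fin 1034 1 970)
(mv 909 (cons (mv 845 (cons (fin 781 4 781)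
(fin 1102 4 845)))
(cons (mv 1101 (cons (mv 1165 (cons (fin 908 7 908)
(fin 1229 6 973)))
(cons (mv 1100 (cons (fin 1164 5 908)
(mv 1099 (cons (fin 1098 2 1034)
(mv 1163 (cons (fin 908 6 907)
(mv 1162 (cons (fin 1102 1 1098)
(fin 1226 5 970)))))))))
(mv 1164 (cons (fin 1100 5 908)
(mv 1165 (cons (fin 1228 5 972)
(fin 1229 6 973))))))))
(mv 845 (cons (fin 781 4 781)
(mv 782 (cons (fin 846 6 781)
(mv 1036 (cons (fin 1100 5 844)
(mv 1099 (cons (fin 1098 1 1034)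
(mv 1163 (cons (fin 908 6 907)
(fin 1227 6 971))))))))))))))))))
(cons (mv 907 (cons (fin 906 3 906)
(mv 908 (cons (fin 975 3 907)
(mv 1035 (cons (fin 1034 1 970)
(mv 1099 (cons (fin 1163 6 907)
(mv 1098 (cons (fin 1162 5 906)
(mv 1100 (cons (fin 1101 2 1034)
(fin 1164 4 907)))))))))))))
(mv 906 (cons (fin 907 3 906)
(mv 1035 (cons (fin 1034 1 970)
(mv 975 (cons (fin 1036 1 971)
(mv 912 (cons (fin 911 2 908)
(mv 976 (cons (fin 977 1 973)
(fin 913 2 909)))))))))))))))))))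
(cons (mv 1038 (cons (fin 1039 3 972)
(mv 971 (cons (fin 970 0 970)
(mv 908 (cons (cons (mv 844 (cons (fin 780 4 780)
(mv 1101 (cons (fin 909 7 844)
(fin 1165 7 908)))))
(mv 1101 (cons (fin 1165 7 908)
(mv 974 (cons (mv 907 (cons (fin 906 3 906)
(fin 975 3 907)))
(mv 1035 (cons (fin 1034 1 970)
(mv 1099 (cons (fin 1163 6 907)
(mv 1100 (cons (fin 1098 2 1034)
(mv 909 (cons (fin 1164 5 908)
(mv 845 (cons (fin 781 4 781)
(fin 1102 4 845))))))))))))))))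
(cons (mv 844 (cons (fin 780 4 780)
(mv 907 (cons (mv 906 (cons (fin 974 3 906)
(fin 905 0 905)))
(cons (mv 974 (cons (fin 975 3 907)
(mv 1035 (cons (fin 1034 1 970)
(fin 1099 6 843)))))
(mv 906 (cons (fin 905 0 905)
(mv 1035 (cons (fin 1099 6 843)
(mv 845 (cons (mv 846 (cons (fin 843 1 842)
(fin 847 1 843)))
(cons (mv 909 (cons (fin 1102 4 845)
(mv 717 (cons (fin 781 5 716)
(mv 842 (cons (fin 841 3 841)
(mv 778 (cons (fin 843 7 778)
(fin 714 4 714)))))))))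
(mv 846 (cons (fin 847 1 843)
(fin 909 2 842)))))))))))))))
(mv 780 (cons (fin 844 4 780)
(mv 1101 (cons (fin 1165 7 908)
(mv 1035 (cons (mv 974 (cons (fin 1034 1 970)
(mv 907 (cons (fin 906 3 906)
(fin 975 3 907)))))
(cons (mv 1099 (cons (fin 1163 6 907)
(mv 1098 (cons (fin 1100 2 1034)
(mv 907 (cons (fin 1162 5 906)
(mv 906 (cons (fin 905 0 905)
(fin 842 7 842)))))))))
(mv 1034 (cons (fin 974 1 970)
(mv 1032 (cons (fin 1033 2 968)
(mv 1099 (cons (fin 1163 6 907)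
(mv 1100 (cons (fin 1102 3 1034)
(fin 1098 2 1034)))))))))))))))))))))))
(mv 1038 (cons (fin 1039 3 972)
(mv 971 (cons (fin 970 0 970)
(mv 974 (cons (cons (mv 906 (cons (fin 907 3 906)
(mv 1035 (cons (fin 1034 1 970)
(mv 975 (cons (fin 1036 1 971)
(mv 912 (cons (fin 911 2 908)
(mv 976 (cons (fin 977 1 973)
(fin 913 2 909)))))))))))
(mv 907 (cons (fin 906 3 906)
(mv 908 (cons (fin 975 3 907)
(mv 844 (cons (fin 780 4 780)
(mv 1101 (cons (fin 1165 7 908)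
(fin 1036 4 844))))))))))
(cons (mv 1035 (cons (fin 1034 1 970)
(mv 975 (cons (fin 1036 1 971)
(mv 912 (cons (fin 911 2 908)
(mv 976 (cons (fin 977 1 973)
(fin 913 2 909)))))))))
(cons (mv 906 (cons (fin 907 3 906)
(mv 1035 (cons (fin 1034 1 970)
(mv 1099 (cons (cons (mv 908 (cons (fin 1163 6 907)
(mv 844 (cons (fin 780 5 779)
(fin 1036 5 843)))))
(mv 1036 (cons (fin 1098 1 1034)
(mv 1102 (cons (fin 1103 0 1035)
(mv 1163 (cons (fin 1227 6 971)
(mv 1162 (cons (fin 1226 5 970)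
(mv 1101 (cons (fin 1100 1 1098)
(mv 1164 (cons (fin 1165 2 1098)
(fin 1228 4 971))))))))))))))
(cons (mv 1163 (cons (fin 908 6 907)
(mv 1162 (cons (fin 1226 5 970)
(mv 1228 (cons (fin 1164 4 971)
(mv 1227 (cons (fin 1292 4 1035)
(mv 1160 (cons (fin 1161 0 1160)
(mv 1229 (cons (fin 1230 3 1162)
(mv 1101 (cons (fin 1165 6 973)
(mv 1100 (cons (fin 1102 1 1098)
(fin 1098 2 1034)))))))))))))))))
(mv 1098 (cons (fin 1036 1 1034)
(mv 1101 (cons (fin 1100 2 1034)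
(mv 1165 (cons (fin 908 7 908)
(fin 1229 6 973))))))))))))))
(mv 907 (cons (fin 906 3 906)
(mv 908 (cons (fin 975 3 907)
(mv 780 (cons (fin 844 4 780)
(mv 1035 (cons (fin 1034 1 970)
(mv 1099 (cons (fin 1163 6 907)
(mv 1098 (cons (fin 1162 5 906)
(mv 1100 (cons (fin 1101 2 1034)
(fin 1164 4 907)))))))))))))))))))))))))
(cons (cons (mv 1038 (cons (fin 1039 3 972)
(mv 971 (cons (fin 970 0 970)
(mv 974 (cons (cons (mv 906 (cons (fin 907 3 906)
(mv 1035 (cons (fin 1034 1 970)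
(mv 975 (cons (fin 1036 1 971)
(mv 911 (cons (fin 912 2 908)
(mv 783 (cons (fin 847 5 782)
(mv 976 (cons (fin 977 1 973)
(mv 909 (cons (fin 908 3 908)
(mv 845 (cons (fin 781 4 781)
(fin 1102 4 845)))))))))))))))))
(mv 907 (cons (fin 906 3 906)
(mv 908 (cons (fin 975 3 907)
(mv 844 (cons (fin 780 4 780)
(mv 1101 (cons (fin 909 7 844)
(fin 1165 7 908))))))))))
(cons (mv 1035 (cons (fin 1034 1 970)
(mv 975 (cons (fin 1036 1 971)
(mv 911 (cons (fin 912 2 908)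
(mv 783 (cons (fin 847 5 782)
(mv 976 (cons (fin 977 1 973)
(mv 909 (cons (fin 908 3 908)
(mv 845 (cons (fin 781 4 781)
(fin 1102 4 845)))))))))))))))
(cons (mv 907 (cons (fin 906 3 906)
(mv 1035 (cons (fin 1034 1 970)
(mv 908 (cons (mv 844 (cons (fin 780 5 779)
(fin 1099 6 843)))
(cons (mv 1099 (cons (fin 1163 6 907)
(mv 1098 (cons (fin 1036 1 1034)
(fin 1162 5 906)))))
(mv 844 (cons (fin 780 5 779)
(mv 1101 (cons (fin 909 7 844)
(fin 1165 7 908))))))))))))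
(mv 906 (cons (fin 907 3 906)
(mv 1035 (cons (fin 1034 1 970)
(mv 975 (cons (fin 1036 1 971)
(mv 912 (cons (fin 911 2 908)
(mv 976 (cons (fin 977 1 973)
(fin 913 2 909)))))))))))))))))))
(mv 1038 (cons (fin 1039 3 972)
(mv 970 (cons (fin 971 0 970)
(mv 908 (cons (cons (mv 844 (cons (fin 780 4 780)
(mv 1101 (cons (fin 909 7 844)
(fin 1165 7 908)))))
(mv 1101 (cons (fin 1165 7 908)
(mv 909 (cons (mv 845 (cons (fin 1102 4 845)
(mv 781 (cons (fin 717 5 716)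
(fin 1036 5 780)))))
(cons (mv 1100 (cons (fin 1164 5 908)
(mv 1099 (cons (fin 1098 2 1034)
(mv 1036 (cons (fin 1163 5 907)
(mv 907 (cons (fin 843 7 843)
(mv 906 (cons (fin 969 1 905)
(fin 905 0 905)))))))))))
(mv 845 (cons (fin 1102 4 845)
(mv 781 (cons (fin 717 5 716)
(fin 974 4 781)))))))))))
(cons (mv 844 (cons (fin 780 4 780)
(mv 845 (cons (cons (mv 781 (cons (fin 1036 6 780)
(mv 717 (cons (fin 653 5 652)
(fin 909 5 716)))))
(mv 1036 (cons (fin 781 6 780)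
(mv 843 (cons (fin 779 7 779)
(mv 907 (cons (fin 1100 7 843)
(mv 846 (cons (fin 906 1 842)
(fin 847 1 843))))))))))
(cons (mv 909 (cons (fin 1102 4 845)
(mv 781 (cons (fin 717 5 716)
(fin 974 4 781)))))
(mv 909 (cons (fin 1102 4 845)
(mv 782 (cons (fin 846 6 781)
(mv 1036 (cons (fin 1100 5 844)
(mv 843 (cons (fin 779 7 779)
(mv 842 (cons (fin 841 0 841)
(mv 777 (cons (fin 778 3 777)
(mv 906 (cons (fin 905 1 841)
(mv 907 (cons (fin 969 1 905)
(fin 974 0 906))))))))))))))))))))))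
(mv 844 (cons (fin 780 4 780)
(mv 1101 (cons (fin 1165 7 908)
(fin 1036 4 844)))))))))))))
(cons (mv 1038 (cons (fin 1039 3 972)
(mv 971 (cons (fin 970 0 970)
(mv 908 (cons (cons (mv 844 (cons (fin 780 4 780)
(mv 1101 (cons (fin 909 7 844)
(fin 1165 7 908)))))
(mv 1101 (cons (fin 1165 7 908)
(mv 1035 (cons (mv 974 (cons (fin 1034 1 970)
(mv 975 (cons (fin 1036 1 971)
(mv 976 (cons (fin 909 3 908)
(fin 977 1 973)))))))
(cons (mv 1099 (cons (fin 1163 6 907)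
(mv 1098 (cons (fin 1036 1 1034)
(fin 1100 2 1034)))))
(mv 974 (cons (fin 1034 1 970)
(mv 1099 (cons (fin 1163 6 907)
(mv 1100 (cons (fin 1098 2 1034)
(mv 909 (cons (fin 1164 5 908)
(mv 845 (cons (fin 781 4 781)
(fin 1102 4 845)))))))))))))))))
(cons (mv 844 (cons (fin 780 4 780)
(mv 1036 (cons (cons (mv 779 (cons (fin 843 7 779)
(mv 781 (cons (fin 845 6 780)
(mv 1035 (cons (fin 1099 5 843)
(mv 974 (cons (fin 1034 1 970)
(fin 975 1 971)))))))))
(mv 779 (cons (fin 843 7 779)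
(mv 845 (cons (fin 781 6 780)
(mv 909 (cons (fin 1100 5 844)
(fin 1102 4 845))))))))
(cons (mv 779 (cons (fin 843 7 779)
(mv 1035 (cons (fin 1099 5 843)
(mv 974 (cons (fin 1034 1 970)
(fin 975 1 971)))))))
(mv 781 (cons (fin 845 6 780)
(mv 1035 (cons (fin 1099 5 843)
(mv 974 (cons (fin 1034 1 970)
(fin 975 1 971))))))))))))
(mv 844 (cons (fin 780 4 780)
(mv 1101 (cons (fin 1165 7 908)
(fin 1036 4 844))))))))))))
(mv 1038 (cons (fin 1039 3 972)
(mv 971 (cons (fin 970 0 970)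
(mv 974 (cons (cons (mv 906 (cons (fin 907 3 906)
(mv 1035 (cons (fin 1034 1 970)
(mv 975 (cons (fin 1036 1 971)
(mv 911 (cons (fin 912 2 908)
(mv 783 (cons (fin 847 5 782)
(mv 976 (cons (fin 977 1 973)
(mv 909 (cons (fin 908 3 908)
(mv 845 (cons (fin 781 4 781)
(fin 1102 4 845)))))))))))))))))
(mv 907 (cons (fin 906 3 906)
(mv 908 (cons (fin 975 3 907)
(mv 844 (cons (fin 780 4 780)
(mv 1101 (cons (fin 909 7 844)
(fin 1165 7 908))))))))))
(cons (mv 1035 (cons (fin 1034 1 970)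
(mv 975 (cons (fin 1036 1 971)
(mv 911 (cons (fin 912 2 908)
(mv 783 (cons (fin 847 5 782)
(mv 976 (cons (fin 977 1 973)
(mv 909 (cons (fin 908 3 908)
(mv 845 (cons (fin 781 4 781)
(fin 1102 4 845)))))))))))))))
(cons (mv 907 (cons (fin 906 3 906)
(mv 1034 (cons (fin 1035 1 970)
(mv 843 (cons (cons (mv 779 (cons (fin 1036 4 779)
(mv 714 (cons (fin 778 7 714)
(mv 715 (cons (fin 650 7 650)
(fin 908 4 715)))))))
(mv 908 (cons (cons (mv 780 (cons (fin 844 4 780)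
(mv 1100 (cons (fin 1036 7 843)
(mv 1101 (cons (fin 1165 7 908)
(mv 909 (cons (fin 1164 5 908)
(mv 845 (cons (fin 781 4 781)
(fin 1102 4 845)))))))))))
(mv 1100 (cons (fin 1036 7 843)
(mv 1101 (cons (fin 1165 7 908)
(mv 909 (cons (fin 1164 5 908)
(mv 845 (cons (fin 781 4 781)
(fin 1102 4 845))))))))))
(cons (mv 844 (cons (fin 780 4 780)
(mv 1036 (cons (fin 1100 7 843)
(mv 845 (cons (fin 781 6 780)
(mv 846 (cons (fin 847 1 843)
(mv 782 (cons (fin 783 2 779)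
(fin 909 6 781)))))))))))
(cons (mv 844 (cons (fin 780 4 780)
(mv 1101 (cons (fin 909 7 844)
(fin 1165 7 908)))))
(mv 844 (cons (fin 780 4 780)
(mv 1036 (cons (fin 1100 7 843)
(fin 1101 4 844))))))))))
(cons (mv 779 (cons (cons (mv 714 (cons (fin 778 7 714)
(mv 715 (cons (fin 650 7 650)
(fin 908 4 715)))))
(mv 714 (cons (fin 778 7 714)
(mv 715 (cons (fin 650 7 650)
(mv 716 (cons (fin 652 6 651)
(fin 780 6 715))))))))
(cons (mv 778 (cons (fin 714 7 714)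
(mv 780 (cons (fin 716 6 715)
(mv 844 (cons (fin 908 4 780)
(mv 777 (cons (fin 776 0 776)
(fin 845 0 777)))))))))
(mv 715 (cons (fin 908 4 715)
(mv 716 (cons (fin 652 6 651)
(fin 780 6 715))))))))
(mv 779 (cons (fin 1036 4 779)
(mv 714 (cons (fin 778 7 714)
(mv 715 (cons (fin 650 7 650)
(mv 716 (cons (fin 652 6 651)
(fin 780 6 715))))))))))))))))
(mv 906 (cons (fin 907 3 906)
(mv 1035 (cons (fin 1034 1 970)
(mv 975 (cons (fin 1036 1 971)
(mv 912 (cons (fin 911 2 908)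
(mv 976 (cons (fin 977 1 973)
(fin 913 2 909))))))))))))))))))))))))))))
(cons (cons (cons (mv 972 (cons (cons (cons (mv 1038 (cons (fin 1039 3 972)
(mv 971 (cons (fin 970 0 970)
(mv 974 (cons (cons (mv 906 (cons (fin 907 3 906)
(mv 910 (cons (fin 911 2 907)
(mv 846 (cons (fin 782 5 781)
(fin 1101 5 845)))))))
(mv 906 (cons (fin 907 3 906)
(mv 1035 (cons (fin 1034 1 970)
(mv 975 (cons (fin 1036 1 971)
(mv 911 (cons (fin 912 2 908)
(mv 783 (cons (fin 847 5 782)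
(mv 976 (cons (fin 977 1 973)
(mv 909 (cons (fin 908 3 908)
(mv 845 (cons (fin 781 4 781)
(fin 1102 4 845))))))))))))))))))
(cons (mv 910 (cons (fin 911 2 907)
(mv 846 (cons (fin 782 5 781)
(fin 1101 5 845)))))
(mv 906 (cons (fin 907 3 906)
(mv 1035 (cons (fin 1034 1 970)
(mv 975 (cons (fin 1036 1 971)
(mv 976 (cons (fin 977 1 973)
(mv 909 (cons (fin 908 3 908)
(mv 845 (cons (fin 781 4 781)
(fin 1102 4 845))))))))))))))))))))
(cons (mv 974 (cons (mv 975 (cons (fin 1039 0 972)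
(mv 1036 (cons (fin 1035 1 971)
(fin 976 1 972)))))
(cons (mv 971 (cons (cons (mv 906 (cons (fin 907 3 906)
(mv 905 (cons (fin 970 3 905)
(mv 910 (cons (fin 911 2 907)
(mv 846 (cons (fin 782 5 781)
(mv 1101 (cons (fin 909 6 845)
(fin 1165 6 909)))))))))))
(mv 906 (cons (fin 907 3 906)
(mv 970 (cons (fin 905 3 905)
(mv 1034 (cons (fin 1033 1 969)
(fin 1035 1 970))))))))
(cons (mv 910 (cons (fin 911 2 907)
(mv 782 (cons (fin 846 5 781)
(mv 909 (cons (fin 970 2 906)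
(mv 1034 (cons (fin 1035 1 970)
(mv 1101 (cons (fin 1165 6 909)
(mv 1100 (cons (fin 1164 5 908)
(mv 845 (cons (fin 1036 5 844)
(mv 781 (cons (fin 718 6 717)
(fin 717 4 717)))))))))))))))))
(mv 906 (cons (fin 907 3 906)
(mv 910 (cons (fin 911 2 907)
(mv 846 (cons (fin 782 5 781)
(mv 1101 (cons (fin 909 6 845)
(fin 1165 6 909))))))))))))
(mv 975 (cons (fin 1039 0 972)
(mv 907 (cons (fin 908 3 907)
(mv 911 (cons (fin 912 2 908)
(mv 971 (cons (fin 906 3 906)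
(fin 910 2 907))))))))))))
(mv 971 (cons (cons (mv 970 (cons (fin 1038 0 970)
(mv 905 (cons (fin 906 3 905)
(mv 969 (cons (fin 904 3 904)
(fin 1036 0 969)))))))
(mv 974 (cons (cons (mv 906 (cons (fin 907 3 906)
(mv 910 (cons (fin 911 2 907)
(mv 846 (cons (fin 782 5 781)
(mv 1101 (cons (fin 1038 5 845)
(fin 909 6 845)))))))))
(mv 906 (cons (fin 907 3 906)
(mv 1035 (cons (fin 1034 1 970)
(mv 975 (cons (fin 1036 1 971)
(mv 912 (cons (fin 911 2 908)
(mv 976 (cons (fin 913 2 909)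
(mv 909 (cons (fin 908 3 908)
(mv 1038 (cons (fin 977 1 973)
(mv 845 (cons (fin 781 4 781)
(fin 1102 4 845))))))))))))))))))
(cons (mv 910 (cons (fin 911 2 907)
(mv 846 (cons (fin 782 5 781)
(mv 1101 (cons (fin 1038 5 845)
(fin 909 6 845)))))))
(cons (mv 907 (cons (fin 906 3 906)
(mv 908 (cons (fin 975 3 907)
(mv 1035 (cons (fin 1034 1 970)
(mv 1099 (cons (fin 1163 6 907)
(mv 1098 (cons (fin 1162 5 906)
(mv 1036 (cons (fin 1038 1 1034)
(mv 843 (cons (fin 1100 7 843)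
(fin 779 4 779)))))))))))))))
(mv 906 (cons (fin 907 3 906)
(mv 910 (cons (fin 911 2 907)
(mv 846 (cons (fin 782 5 781)
(mv 1101 (cons (fin 909 6 845)
(fin 1165 6 909))))))))))))))
(cons (mv 970 (cons (mv 905 (cons (fin 906 3 905)
(mv 969 (cons (fin 904 3 904)
(fin 1036 0 969)))))
(cons (mv 905 (cons (fin 906 3 905)
(mv 910 (cons (fin 909 2 906)
(mv 974 (cons (fin 911 2 907)
(mv 1034 (cons (fin 1033 1 969)
(fin 1035 1 970)))))))))
(mv 909 (cons (fin 910 2 906)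
(mv 969 (cons (fin 908 2 905)
(fin 1036 0 969))))))))
(cons (mv 970 (cons (fin 1038 0 970)
(mv 909 (cons (fin 910 2 906)
(mv 969 (cons (fin 908 2 905)
(fin 1036 0 969)))))))
(mv 970 (cons (fin 1038 0 970)
(mv 905 (cons (fin 906 3 905)
(mv 904 (cons (fin 969 3 904)
(mv 910 (cons (fin 909 2 906)
(mv 974 (cons (fin 911 2 907)
(mv 1034 (cons (fin 1033 1 969)
(fin 1035 1 970)))))))))))))))))))
(cons (mv 1038 (cons (fin 1039 3 972)
(mv 971 (cons (fin 970 0 970)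
(mv 909 (cons (cons (mv 845 (cons (fin 1102 4 845)
(mv 1036 (cons (fin 781 5 780)
(fin 1100 5 844)))))
(mv 1101 (cons (cons (mv 846 (cons (fin 910 6 845)
(mv 908 (cons (fin 1165 7 908)
(mv 1100 (cons (fin 1164 5 908)
(mv 1099 (cons (fin 1098 2 1034)
(mv 1163 (cons (fin 1036 5 907)
(fin 1035 6 907)))))))))))
(mv 846 (cons (fin 910 6 845)
(mv 1165 (cons (fin 908 7 908)
(mv 1164 (cons (fin 1228 5 972)
(mv 1229 (cons (fin 1036 7 972)
(mv 1293 (cons (fin 1102 6 1037)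
(mv 1294 (cons (fin 1230 4 1037)
(fin 1358 4 1101))))))))))))))
(cons (mv 910 (cons (fin 846 6 845)
(mv 911 (cons (fin 908 1 907)
(fin 912 1 908)))))
(cons (mv 908 (cons (fin 1165 7 908)
(mv 1100 (cons (fin 1164 5 908)
(mv 1099 (cons (fin 1098 2 1034)
(mv 1163 (cons (fin 1036 5 907)
(fin 1035 6 907)))))))))
(mv 846 (cons (fin 910 6 845)
(mv 1164 (cons (fin 1100 5 908)
(mv 1165 (cons (fin 1228 5 972)
(mv 1229 (cons (fin 1036 7 972)
(mv 1293 (cons (fin 1102 6 1037)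
(mv 1294 (cons (fin 1230 4 1037)
(fin 1358 4 1101))))))))))))))))))
(cons (mv 1100 (cons (mv 1036 (cons (fin 845 5 844)
(fin 1164 6 908)))
(cons (mv 1101 (cons (fin 1164 5 908)
(mv 908 (cons (fin 1165 7 908)
(mv 910 (cons (fin 911 1 907)
(fin 846 6 845)))))))
(mv 845 (cons (fin 1036 5 844)
(mv 782 (cons (fin 846 6 781)
(mv 781 (cons (fin 718 6 717)
(mv 716 (cons (fin 780 7 716)
(mv 717 (cons (fin 652 7 652)
(fin 908 5 716))))))))))))))
(mv 845 (cons (fin 1102 4 845)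
(mv 782 (cons (fin 846 6 781)
(mv 781 (cons (fin 718 6 717)
(mv 716 (cons (fin 780 7 716)
(mv 717 (cons (fin 652 7 652)
(fin 908 5 716))))))))))))))))))
(cons (mv 1039 (cons (fin 1038 3 972)
(mv 975 (cons (fin 974 0 972)
(mv 1104 (cons (cons (mv 911 (cons (fin 847 4 847)
(mv 1168 (cons (fin 976 7 911)
(fin 1232 7 975)))))
(mv 911 (cons (fin 847 4 847)
(mv 910 (cons (cons (mv 846 (cons (fin 1103 7 846)
(mv 909 (cons (fin 912 1 908)
(fin 1101 6 845)))))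
(mv 1103 (cons (fin 846 7 846)
(mv 912 (cons (fin 848 6 847)
(mv 976 (cons (fin 1167 5 911)
(mv 913 (cons (fin 849 6 848)
(mv 914 (cons (fin 915 1 911)
(mv 978 (cons (fin 977 3 910)
(fin 979 0 911))))))))))))))
(cons (mv 909 (cons (fin 912 1 908)
(mv 908 (cons (fin 976 0 908)
(mv 1101 (cons (fin 1165 7 908)
(mv 1100 (cons (fin 1164 5 908)
(mv 1036 (cons (fin 845 5 844)
(mv 843 (cons (fin 907 7 843)
(mv 1099 (cons (fin 1163 5 907)
(mv 1098 (cons (fin 1097 2 1033)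
(mv 1034 (cons (fin 1033 3 1033)
(mv 1102 (cons (fin 1035 3 1034)
(fin 1103 3 1036)))))))))))))))))))))
(cons (mv 846 (cons (fin 1103 7 846)
(mv 718 (cons (fin 782 4 718)
(mv 1101 (cons (fin 909 6 845)
(mv 1165 (cons (fin 908 7 908)
(mv 1164 (cons (fin 1228 5 972)
(mv 1229 (cons (fin 1036 7 972)
(mv 1294 (cons (fin 1230 4 1037)
(mv 1293 (cons (fin 1358 4 1101)
(mv 1356 (cons (fin 1292 5 1100)
(mv 1357 (cons (fin 1100 7 1100)
(fin 1420 5 1164)))))))))))))))))))))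
(mv 909 (cons (fin 912 1 908)
(mv 846 (cons (fin 1101 6 845)
(mv 782 (cons (fin 718 5 717)
(fin 845 6 781))))))))))))))
(cons (mv 1168 (cons (fin 1232 7 975)
(mv 976 (cons (mv 913 (cons (fin 977 6 912)
(mv 912 (cons (fin 849 6 848)
(mv 848 (cons (fin 784 5 783)
(fin 1103 5 847)))))))
(cons (mv 1167 (cons (fin 1231 5 975)
(mv 912 (cons (fin 1103 5 911)
(mv 1169 (cons (fin 1105 4 912)
(fin 1233 4 976)))))))
(mv 977 (cons (fin 913 6 912)
(mv 978 (cons (fin 979 1 975)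
(mv 914 (cons (fin 915 2 911)
(mv 1042 (cons (fin 1043 0 975)
(mv 1167 (cons (fin 1231 5 975)
(mv 1169 (cons (fin 1233 4 976)
(mv 1106 (cons (fin 1105 5 913)
(mv 1107 (cons (fin 1170 2 1103)
(fin 1171 4 914))))))))))))))))))))))
(mv 911 (cons (fin 847 4 847)
(mv 1168 (cons (fin 1232 7 975)
(fin 1103 4 911))))))))))))
(mv 1038 (cons (fin 1039 3 972)
(mv 971 (cons (fin 970 0 970)
(mv 974 (cons (cons (mv 906 (cons (fin 907 3 906)
(mv 910 (cons (fin 911 2 907)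
(mv 782 (cons (fin 846 5 781)
(mv 1035 (cons (fin 1034 1 970)
(mv 975 (cons (fin 1036 1 971)
(mv 976 (cons (fin 977 1 973)
(mv 909 (cons (fin 908 3 908)
(mv 845 (cons (fin 1102 7 845)
(fin 781 4 781)))))))))))))))))
(cons (mv 906 (cons (fin 907 3 906)
(mv 910 (cons (fin 911 2 907)
(mv 846 (cons (fin 782 5 781)
(mv 845 (cons (fin 781 7 781)
(mv 847 (cons (fin 783 6 782)
(mv 909 (cons (fin 1102 7 845)
(mv 848 (cons (fin 908 1 844)
(fin 849 1 845)))))))))))))))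
(mv 906 (cons (fin 907 3 906)
(mv 1035 (cons (fin 1034 1 970)
(mv 975 (cons (fin 1036 1 971)
(mv 911 (cons (fin 912 2 908)
(mv 783 (cons (fin 847 5 782)
(mv 976 (cons (fin 977 1 973)
(mv 909 (cons (fin 908 3 908)
(mv 845 (cons (fin 781 4 781)
(fin 1102 4 845)))))))))))))))))))
(cons (cons (mv 910 (cons (fin 911 2 907)
(mv 782 (cons (fin 846 5 781)
(mv 1035 (cons (fin 1034 1 970)
(mv 975 (cons (fin 1036 1 971)
(mv 976 (cons (fin 977 1 973)
(mv 909 (cons (fin 908 3 908)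
(mv 845 (cons (fin 1102 7 845)
(fin 781 4 781)))))))))))))))
(mv 906 (cons (fin 907 3 906)
(mv 1035 (cons (fin 1034 1 970)
(mv 975 (cons (fin 1036 1 971)
(mv 976 (cons (fin 977 1 973)
(mv 909 (cons (fin 908 3 908)
(mv 845 (cons (fin 781 4 781)
(fin 1102 4 845))))))))))))))
(cons (mv 906 (cons (fin 907 3 906)
(mv 910 (cons (fin 911 2 907)
(mv 782 (cons (fin 846 5 781)
(mv 1035 (cons (fin 1034 1 970)
(mv 1036 (cons (fin 975 1 971)
(mv 1099 (cons (fin 1098 1 1034)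
(mv 1163 (cons (fin 908 6 907)
(fin 1227 6 971)))))))))))))))
(mv 906 (cons (fin 907 3 906)
(mv 910 (cons (fin 911 2 907)
(mv 782 (cons (fin 846 5 781)
(mv 1035 (cons (fin 1034 1 970)
(mv 1036 (cons (fin 975 1 971)
(mv 1099 (cons (fin 1098 1 1034)
(mv 1102 (cons (fin 1103 0 1035)
(mv 909 (cons (fin 845 7 845)
(mv 1163 (cons (fin 1227 6 971)
(mv 1164 (cons (fin 1100 6 908)
(fin 1228 4 971))))))))))))))))))))))))))))))))
(cons (cons (mv 1038 (cons (fin 1039 3 972)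
(mv 971 (cons (fin 970 0 970)
(mv 974 (cons (cons (mv 906 (cons (fin 907 3 906)
(mv 910 (cons (fin 911 2 907)
(mv 846 (cons (fin 782 5 781)
(fin 1101 5 845)))))))
(mv 906 (cons (fin 907 3 906)
(mv 1035 (cons (fin 1034 1 970)
(mv 975 (cons (fin 1036 1 971)
(mv 912 (cons (fin 911 2 908)
(mv 976 (cons (fin 977 1 973)
(fin 913 2 909))))))))))))
(cons (mv 906 (cons (fin 907 3 906)
(mv 1035 (cons (fin 1034 1 970)
(mv 1036 (cons (fin 975 1 971)
(mv 1099 (cons (fin 1098 1 1034)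
(mv 1102 (cons (fin 1103 0 1035)
(mv 845 (cons (fin 909 4 845)
(mv 1163 (cons (fin 1227 6 971)
(mv 1162 (cons (fin 1226 5 970)
(mv 1101 (cons (fin 1100 1 1098)
(mv 910 (cons (fin 846 5 845)
(fin 1165 5 909)))))))))))))))))))))
(mv 910 (cons (fin 911 2 907)
(mv 846 (cons (fin 782 5 781)
(fin 1101 5 845))))))))))))
(cons (mv 1038 (cons (fin 1039 3 972)
(mv 971 (cons (fin 970 0 970)
(mv 974 (cons (cons (mv 906 (cons (fin 907 3 906)
(mv 910 (cons (fin 911 2 907)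
(mv 846 (cons (fin 782 5 781)
(fin 1101 5 845)))))))
(mv 907 (cons (fin 906 3 906)
(mv 908 (cons (fin 975 3 907)
(mv 1035 (cons (fin 1034 1 970)
(mv 1099 (cons (fin 1163 6 907)
(mv 1098 (cons (fin 1162 5 906)
(mv 1100 (cons (fin 1101 2 1034)
(fin 1164 4 907))))))))))))))
(cons (mv 910 (cons (fin 911 2 907)
(mv 846 (cons (fin 782 5 781)
(fin 1101 5 845)))))
(mv 906 (cons (fin 907 3 906)
(mv 910 (cons (fin 911 2 907)
(mv 846 (cons (fin 782 5 781)
(mv 845 (cons (fin 781 7 781)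
(mv 847 (cons (fin 783 6 782)
(mv 909 (cons (fin 1102 7 845)
(mv 848 (cons (fin 908 1 844)
(fin 849 1 845))))))))))))))))))))))
(mv 1038 (cons (fin 1039 3 972)
(mv 971 (cons (fin 970 0 970)
(mv 974 (cons (cons (mv 906 (cons (fin 907 3 906)
(mv 910 (cons (fin 911 2 907)
(mv 846 (cons (fin 782 5 781)
(fin 1101 5 845)))))))
(mv 906 (cons (fin 907 3 906)
(mv 1035 (cons (fin 1034 1 970)
(mv 975 (cons (fin 1036 1 971)
(mv 912 (cons (fin 911 2 908)
(mv 976 (cons (fin 977 1 973)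
(fin 913 2 909))))))))))))
(cons (mv 910 (cons (fin 911 2 907)
(mv 846 (cons (fin 782 5 781)
(fin 1101 5 845)))))
(mv 906 (cons (fin 907 3 906)
(mv 1035 (cons (fin 1034 1 970)
(mv 1036 (cons (fin 975 1 971)
(mv 1099 (cons (fin 1098 1 1034)
(mv 1163 (cons (fin 908 6 907)
(fin 1227 6 971))))))))))))))))))))
(cons (cons (mv 1038 (cons (fin 1039 3 972)
(mv 971 (cons (fin 970 0 970)
(mv 974 (cons (cons (mv 906 (cons (fin 907 3 906)
(mv 1035 (cons (fin 1034 1 970)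
(mv 975 (cons (fin 1036 1 971)
(mv 911 (cons (fin 912 2 908)
(mv 783 (cons (fin 847 5 782)
(mv 976 (cons (fin 977 1 973)
(mv 909 (cons (fin 908 3 908)
(mv 845 (cons (fin 781 4 781)
(fin 1102 4 845)))))))))))))))))
(cons (mv 907 (cons (fin 906 3 906)
(mv 975 (cons (fin 908 3 907)
(mv 976 (cons (fin 1036 1 972)
(fin 977 1 973)))))))
(mv 1035 (cons (fin 1034 1 970)
(mv 975 (cons (fin 1036 1 971)
(mv 911 (cons (fin 912 2 908)
(mv 783 (cons (fin 847 5 782)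
(mv 976 (cons (fin 977 1 973)
(mv 909 (cons (fin 908 3 908)
(mv 845 (cons (fin 781 4 781)
(fin 1102 4 845)))))))))))))))))
(cons (mv 906 (cons (fin 907 3 906)
(mv 1035 (cons (fin 1034 1 970)
(mv 909 (cons (mv 845 (cons (fin 781 4 781)
(fin 1102 4 845)))
(cons (mv 1101 (cons (mv 1165 (cons (fin 908 7 908)
(fin 1229 6 973)))
(cons (mv 1100 (cons (fin 1164 5 908)
(mv 1099 (cons (fin 1098 2 1034)
(mv 1163 (cons (fin 908 6 907)
(mv 1162 (cons (fin 1102 1 1098)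
(fin 1226 5 970)))))))))
(mv 1164 (cons (fin 1100 5 908)
(mv 1165 (cons (fin 1228 5 972)
(fin 1229 6 973))))))))
(mv 845 (cons (fin 781 4 781)
(mv 782 (cons (fin 846 6 781)
(mv 1036 (cons (fin 1100 5 844)
(mv 1099 (cons (fin 1098 1 1034)
(mv 1163 (cons (fin 908 6 907)
(fin 1227 6 971))))))))))))))))))
(cons (mv 907 (cons (fin 906 3 906)
(mv 908 (cons (fin 975 3 907)
(mv 1035 (cons (fin 1034 1 970)
(mv 1099 (cons (fin 1163 6 907)
(mv 1098 (cons (fin 1162 5 906)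
(mv 1100 (cons (fin 1101 2 1034)
(fin 1164 4 907)))))))))))))
(mv 906 (cons (fin 907 3 906)
(mv 1035 (cons (fin 1034 1 970)
(mv 975 (cons (fin 1036 1 971)
(mv 912 (cons (fin 911 2 908)
(mv 976 (cons (fin 977 1 973)
(fin 913 2 909)))))))))))))))))))
(mv 1038 (cons (fin 1039 3 972)
(mv 971 (cons (fin 970 0 970)
(mv 974 (cons (mv 906 (cons (fin 907 3 906)
(mv 910 (cons (fin 911 2 907)
(mv 846 (cons (fin 782 5 781)
(fin 1101 5 845)))))))
(cons (mv 907 (cons (fin 906 3 906)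
(mv 975 (cons (fin 908 3 907)
(mv 976 (cons (fin 1036 1 972)
(fin 977 1 973)))))))
(mv 910 (cons (fin 911 2 907)
(mv 846 (cons (fin 782 5 781)
(fin 1101 5 845)))))))))))))
(cons (mv 1038 (cons (fin 1039 3 972)
(mv 971 (cons (fin 970 0 970)
(mv 974 (cons (cons (mv 906 (cons (fin 907 3 906)
(mv 1035 (cons (fin 1034 1 970)
(mv 975 (cons (fin 1036 1 971)
(mv 976 (cons (fin 977 1 973)
(mv 909 (cons (fin 908 3 908)
(mv 845 (cons (fin 781 4 781)
(fin 1102 4 845)))))))))))))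
(cons (mv 907 (cons (fin 906 3 906)
(mv 975 (cons (fin 908 3 907)
(mv 976 (cons (fin 1036 1 972)
(fin 977 1 973)))))))
(mv 1035 (cons (fin 1034 1 970)
(mv 975 (cons (fin 1036 1 971)
(mv 976 (cons (fin 977 1 973)
(mv 909 (cons (fin 908 3 908)
(mv 845 (cons (fin 781 4 781)
(fin 1102 4 845)))))))))))))
(cons (mv 906 (cons (fin 907 3 906)
(mv 1035 (cons (fin 1034 1 970)
(mv 1099 (cons (cons (mv 908 (cons (fin 1163 6 907)
(mv 1098 (cons (fin 1036 1 1034)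
(mv 1101 (cons (fin 1100 2 1034)
(fin 1165 7 908)))))))
(mv 1098 (cons (fin 1036 1 1034)
(mv 1101 (cons (fin 1100 2 1034)
(mv 910 (cons (fin 846 5 845)
(fin 1165 6 909))))))))
(cons (mv 908 (cons (fin 1163 6 907)
(mv 1101 (cons (fin 1165 7 908)
(mv 846 (cons (fin 910 5 845)
(mv 1100 (cons (fin 1098 2 1034)
(mv 909 (cons (fin 1164 5 908)
(mv 845 (cons (fin 782 6 781)
(fin 781 4 781)))))))))))))
(cons (mv 1163 (cons (fin 908 6 907)
(mv 1036 (cons (fin 1227 6 971)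
(mv 1102 (cons (fin 1103 0 1035)
(mv 845 (cons (fin 909 4 845)
(mv 1162 (cons (fin 1226 5 970)
(mv 1101 (cons (fin 1100 1 1098)
(mv 910 (cons (fin 846 5 845)
(fin 1165 5 909)))))))))))))))
(mv 1036 (cons (fin 1098 1 1034)
(mv 1163 (cons (fin 908 6 907)
(fin 1227 6 971)))))))))))))
(cons (mv 907 (cons (fin 906 3 906)
(mv 908 (cons (fin 975 3 907)
(mv 1035 (cons (fin 1034 1 970)
(mv 1099 (cons (fin 1163 6 907)
(mv 1098 (cons (fin 1162 5 906)
(mv 1100 (cons (fin 1101 2 1034)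
(fin 1164 4 907)))))))))))))
(mv 906 (cons (fin 907 3 906)
(mv 1035 (cons (fin 1034 1 970)
(mv 1036 (cons (fin 975 1 971)
(mv 1099 (cons (fin 1098 1 1034)
(mv 1102 (cons (fin 1103 0 1035)
(mv 845 (cons (fin 909 4 845)
(mv 1163 (cons (fin 1227 6 971)
(mv 1162 (cons (fin 1226 5 970)
(mv 1101 (cons (fin 1100 1 1098)
(mv 910 (cons (fin 846 5 845)
(fin 1165 5 909)))))))))))))))))))))))))))))
(mv 1038 (cons (fin 1039 3 972)
(mv 971 (cons (fin 970 0 970)
(mv 974 (cons (cons (mv 906 (cons (fin 907 3 906)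
(mv 910 (cons (fin 911 2 907)
(mv 1035 (cons (fin 1034 1 970)
(mv 975 (cons (fin 1036 1 971)
(mv 976 (cons (fin 977 1 973)
(mv 909 (cons (fin 908 3 908)
(mv 845 (cons (fin 1102 7 845)
(fin 781 4 781)))))))))))))))
(cons (mv 906 (cons (fin 907 3 906)
(mv 911 (cons (fin 910 2 907)
(mv 975 (cons (fin 912 2 908)
(mv 976 (cons (fin 1036 1 972)
(fin 977 1 973)))))))))
(mv 906 (cons (fin 907 3 906)
(mv 1035 (cons (fin 1034 1 970)
(mv 975 (cons (fin 1036 1 971)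
(mv 911 (cons (fin 912 2 908)
(mv 783 (cons (fin 847 5 782)
(mv 976 (cons (fin 977 1 973)
(mv 909 (cons (fin 908 3 908)
(mv 845 (cons (fin 781 4 781)
(fin 1102 4 845)))))))))))))))))))
(cons (cons (mv 910 (cons (fin 911 2 907)
(mv 1035 (cons (fin 1034 1 970)
(mv 975 (cons (fin 1036 1 971)
(mv 976 (cons (fin 977 1 973)
(mv 909 (cons (fin 908 3 908)
(mv 845 (cons (fin 1102 7 845)
(fin 781 4 781)))))))))))))
(mv 906 (cons (fin 907 3 906)
(mv 1035 (cons (fin 1034 1 970)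
(mv 975 (cons (fin 1036 1 971)
(mv 976 (cons (fin 977 1 973)
(mv 909 (cons (fin 908 3 908)
(mv 845 (cons (fin 781 4 781)
(fin 1102 4 845))))))))))))))
(cons (mv 906 (cons (fin 907 3 906)
(mv 910 (cons (fin 911 2 907)
(mv 1035 (cons (fin 1034 1 970)
(mv 1101 (cons (fin 1165 6 909)
(mv 909 (cons (mv 845 (cons (fin 1102 7 845)
(fin 781 4 781)))
(cons (mv 1100 (cons (fin 1164 5 908)
(mv 1099 (cons (fin 1098 2 1034)
(mv 1163 (cons (fin 908 6 907)
(mv 1162 (cons (fin 1102 1 1098)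
(fin 1226 5 970)))))))))
(mv 781 (cons (fin 845 4 781)
(mv 1100 (cons (fin 1164 5 908)
(mv 1099 (cons (fin 1098 2 1034)
(mv 1163 (cons (fin 908 6 907)
(mv 1226 (cons (fin 1162 5 970)
(mv 1227 (cons (fin 1290 5 1034)
(fin 1036 6 971))))))))))))))))))))))))
(mv 906 (cons (fin 907 3 906)
(mv 911 (cons (fin 910 2 907)
(mv 975 (cons (fin 912 2 908)
(mv 783 (cons (fin 847 5 782)
(mv 976 (cons (fin 977 1 973)
(mv 909 (cons (fin 908 3 908)
(mv 845 (cons (fin 781 4 781)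
(fin 1102 4 845))))))))))))))))))))))))))))
(cons (mv 1038 (cons (cons (mv 1039 (cons (fin 972 3 972)
(mv 976 (cons (fin 977 2 973)
(mv 975 (cons (fin 1036 2 972)
(mv 1100 (cons (fin 1101 1 1036)
(mv 1104 (cons (fin 1105 0 1037)
(mv 911 (cons (fin 1168 7 911)
(fin 847 4 847)))))))))))))
(cons (mv 909 (cons (cons (mv 845 (cons (fin 1102 4 845)
(mv 780 (cons (fin 844 7 780)
(mv 781 (cons (fin 716 7 716)
(fin 974 4 781)))))))
(mv 1101 (cons (cons (mv 844 (cons (fin 908 7 844)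
(mv 1164 (cons (fin 1100 5 908)
(mv 1165 (cons (fin 1228 5 972)
(mv 974 (cons (fin 910 6 909)
(fin 1229 6 973)))))))))
(mv 1164 (cons (fin 1100 5 908)
(mv 1165 (cons (fin 1228 5 972)
(mv 974 (cons (fin 910 6 909)
(fin 1229 6 973))))))))
(cons (mv 908 (cons (fin 844 7 844)
(mv 1165 (cons (fin 972 7 908)
(mv 974 (cons (fin 910 6 909)
(fin 1229 6 973)))))))
(cons (mv 1100 (cons (fin 1164 5 908)
(mv 1102 (cons (cons (mv 844 (cons (fin 908 7 844)
(mv 1099 (cons (fin 1098 2 1034)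
(mv 1035 (cons (fin 1034 3 1034)
(mv 1036 (cons (fin 1103 3 1035)
(mv 970 (cons (fin 971 3 970)
(mv 974 (cons (fin 975 2 971)
(mv 1163 (cons (fin 1162 1 1098)
(mv 1227 (cons (fin 972 6 971)
(fin 1291 6 1035)))))))))))))))))
(cons (mv 908 (cons (fin 844 7 844)
(mv 1103 (cons (mv 1036 (cons (fin 1035 3 1035)
(fin 1104 3 1036)))
(cons (mv 1104 (cons (fin 1105 3 1037)
(mv 1168 (cons (fin 1167 0 1100)
(fin 1169 0 1101)))))
(mv 1035 (cons (fin 1036 3 1035)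
(mv 1167 (cons (fin 1168 0 1100)
(mv 974 (cons (fin 910 4 910)
(mv 907 (cons (fin 906 0 906)
(mv 975 (cons (fin 972 3 907)
(fin 976 3 908))))))))))))))))
(mv 1099 (cons (fin 1098 2 1034)
(mv 1035 (cons (fin 1034 3 1034)
(mv 1036 (cons (fin 1103 3 1035)
(mv 970 (cons (fin 971 3 970)
(mv 974 (cons (fin 975 2 971)
(mv 1163 (cons (fin 1162 1 1098)
(mv 1227 (cons (fin 972 6 971)
(fin 1291 6 1035)))))))))))))))))
(cons (cons (mv 908 (cons (fin 844 7 844)
(mv 1099 (cons (fin 1098 2 1034)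
(mv 1035 (cons (fin 1034 3 1034)
(mv 1163 (cons (fin 1162 1 1098)
(mv 972 (cons (fin 1036 5 907)
(fin 971 6 907)))))))))))
(mv 908 (cons (fin 844 7 844)
(mv 1099 (cons (fin 1098 2 1034)
(mv 1035 (cons (fin 1034 3 1034)
(mv 1163 (cons (fin 1162 1 1098)
(mv 971 (cons (fin 972 6 907)
(mv 906 (cons (fin 970 7 906)
(mv 907 (cons (fin 974 0 906)
(fin 842 7 842))))))))))))))))
(cons (mv 908 (cons (fin 844 7 844)
(mv 1098 (cons (fin 1099 2 1034)
(mv 1103 (cons (mv 1104 (cons (fin 1036 3 1036)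
(fin 1105 3 1037)))
(mv 1167 (cons (fin 1168 0 1100)
(mv 974 (cons (fin 910 4 910)
(mv 907 (cons (fin 906 0 906)
(mv 975 (cons (fin 972 3 907)
(fin 976 3 908)))))))))))))))
(mv 844 (cons (fin 908 7 844)
(mv 1099 (cons (fin 1098 2 1034)
(mv 1035 (cons (fin 1034 3 1034)
(mv 1103 (cons (fin 1036 3 1035)
(mv 1104 (cons (fin 1105 3 1037)
(mv 1168 (cons (fin 1167 0 1100)
(fin 1169 0 1101)))))))))))))))))))
(mv 908 (cons (fin 844 7 844)
(mv 972 (cons (fin 1165 7 908)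
(mv 970 (cons (fin 971 0 970)
(mv 1100 (cons (fin 1164 5 908)
(mv 1099 (cons (fin 1098 2 1034)
(mv 1036 (cons (fin 1163 5 907)
(mv 907 (cons (fin 843 7 843)
(mv 906 (cons (fin 969 1 905)
(fin 905 0 905))))))))))))))))))))))
(cons (mv 845 (cons (mv 780 (cons (fin 844 7 780)
(mv 781 (cons (fin 716 7 716)
(fin 974 4 781)))))
(cons (mv 844 (cons (fin 780 7 780)
(mv 1100 (cons (fin 1036 5 844)
(mv 1101 (cons (fin 908 7 844)
(fin 1164 5 908)))))))
(mv 781 (cons (fin 974 4 781)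
(mv 1036 (cons (fin 972 5 780)
(fin 1100 5 844))))))))
(cons (mv 845 (cons (fin 1102 4 845)
(mv 781 (cons (fin 974 4 781)
(mv 1036 (cons (fin 972 5 780)
(fin 1100 5 844)))))))
(mv 845 (cons (fin 1102 4 845)
(mv 780 (cons (fin 844 7 780)
(mv 781 (cons (fin 716 7 716)
(mv 1036 (cons (fin 972 5 780)
(fin 1100 5 844)))))))))))))
(mv 1039 (cons (cons (mv 976 (cons (fin 977 2 973)
(mv 975 (cons (fin 1036 2 972)
(mv 1100 (cons (fin 1101 1 1036)
(mv 1104 (cons (fin 1105 0 1037)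
(mv 911 (cons (fin 1168 7 911)
(fin 847 4 847)))))))))))
(mv 1100 (cons (fin 1101 1 1036)
(mv 1036 (cons (fin 1099 1 1035)
(mv 1104 (cons (fin 1103 0 1036)
(fin 1105 0 1037))))))))
(cons (mv 976 (cons (fin 977 2 973)
(mv 975 (cons (fin 1036 2 972)
(mv 1104 (cons (fin 1105 0 1037)
(mv 911 (cons (fin 1168 7 911)
(fin 847 4 847)))))))))
(cons (mv 976 (cons (fin 977 2 973)
(mv 1036 (cons (fin 975 2 972)
(mv 1100 (cons (fin 1099 1 1035)
(fin 1101 1 1036)))))))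
(mv 976 (cons (fin 977 2 973)
(mv 1100 (cons (fin 1101 1 1036)
(mv 1104 (cons (fin 1105 0 1037)
(mv 912 (cons (mv 1103 (cons (fin 848 5 847)
(fin 1167 5 911)))
(cons (mv 847 (cons (fin 911 7 847)
(mv 848 (cons (fin 783 7 783)
(mv 849 (cons (fin 785 6 784)
(fin 913 6 848)))))))
(mv 847 (cons (fin 911 7 847)
(mv 849 (cons (fin 913 6 848)
(mv 1167 (cons (fin 1103 5 911)
(mv 1168 (cons (fin 1231 5 975)
(mv 1232 (cons (fin 975 7 975)
(mv 1233 (cons (fin 1169 4 976)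
(fin 1297 4 1040))))))))))))))))))))))))))))
(cons (cons (mv 1039 (cons (fin 972 3 972)
(mv 976 (cons (fin 977 2 973)
(mv 975 (cons (fin 1036 2 972)
(mv 1104 (cons (fin 1105 0 1037)
(mv 911 (cons (fin 1168 7 911)
(fin 847 4 847)))))))))))
(mv 1039 (cons (fin 972 3 972)
(mv 1100 (cons (fin 1101 1 1036)
(mv 1036 (cons (fin 1099 1 1035)
(mv 1104 (cons (fin 1103 0 1036)
(fin 1105 0 1037))))))))))
(cons (mv 1039 (cons (fin 972 3 972)
(mv 976 (cons (fin 977 2 973)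
(mv 1036 (cons (fin 975 2 972)
(mv 1100 (cons (fin 1099 1 1035)
(fin 1101 1 1036)))))))))
(mv 1039 (cons (fin 972 3 972)
(mv 976 (cons (fin 977 2 973)
(mv 1100 (cons (fin 1101 1 1036)
(mv 1104 (cons (fin 1105 0 1037)
(mv 912 (cons (mv 1103 (cons (fin 848 5 847)
(fin 1167 5 911)))
(cons (mv 847 (cons (fin 911 7 847)
(mv 848 (cons (fin 783 7 783)
(mv 849 (cons (fin 785 6 784)
(fin 913 6 848)))))))
(mv 847 (cons (fin 911 7 847)
(mv 849 (cons (fin 913 6 848)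
(mv 1167 (cons (fin 1103 5 911)
(mv 1168 (cons (fin 1231 5 975)
(mv 1232 (cons (fin 975 7 975)
(mv 1233 (cons (fin 1169 4 976)
(fin 1297 4 1040))))))))))))))))))))))))))))
(mv 1038 (cons (cons (mv 1039 (cons (fin 972 3 972)
(mv 976 (cons (fin 977 2 973)
(mv 975 (cons (fin 1036 2 972)
(mv 1100 (cons (fin 1101 1 1036)
(mv 1104 (cons (fin 1105 0 1037)
(mv 911 (cons (fin 1168 7 911)
(fin 847 4 847)))))))))))))
(mv 909 (cons (cons (mv 845 (cons (fin 1102 4 845)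
(mv 780 (cons (fin 844 7 780)
(mv 781 (cons (fin 716 7 716)
(fin 974 4 781)))))))
(mv 1101 (cons (cons (mv 846 (cons (fin 910 6 845)
(mv 908 (cons (fin 844 7 844)
(mv 1165 (cons (fin 972 7 908)
(mv 1229 (cons (fin 974 6 973)
(mv 1228 (cons (fin 1292 5 1036)
(mv 1293 (cons (fin 1102 6 1037)
(mv 1294 (cons (fin 1230 4 1037)
(fin 1358 4 1101)))))))))))))))
(cons (mv 908 (cons (fin 844 7 844)
(mv 1165 (cons (fin 972 7 908)
(mv 1229 (cons (fin 974 6 973)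
(mv 1228 (cons (fin 1292 5 1036)
(mv 1293 (cons (fin 1102 6 1037)
(mv 1294 (cons (fin 1230 4 1037)
(fin 1358 4 1101)))))))))))))
(mv 910 (cons (fin 846 6 845)
(mv 974 (cons (fin 1165 6 909)
(mv 911 (cons (mv 912 (cons (fin 972 1 908)
(fin 913 1 909)))
(mv 847 (cons (fin 1102 6 846)
(mv 783 (cons (fin 719 5 718)
(fin 975 5 782)))))))))))))
(cons (mv 908 (cons (fin 844 7 844)
(mv 910 (cons (fin 846 6 845)
(mv 972 (cons (fin 1165 7 908)
(mv 911 (cons (fin 971 1 907)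
(fin 912 1 908)))))))))
(cons (mv 908 (cons (fin 844 7 844)
(mv 910 (cons (fin 846 6 845)
(mv 911 (cons (mv 972 (cons (fin 971 1 907)
(fin 912 1 908)))
(mv 847 (cons (fin 848 2 844)
(mv 974 (cons (fin 1102 6 846)
(mv 783 (cons (fin 719 5 718)
(fin 975 5 782)))))))))))))
(mv 908 (cons (fin 844 7 844)
(mv 910 (cons (fin 846 6 845)
(mv 974 (cons (fin 1165 6 909)
(mv 907 (cons (fin 906 0 906)
(fin 975 0 907))))))))))))))
(cons (mv 845 (cons (mv 780 (cons (fin 844 7 780)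
(mv 781 (cons (fin 716 7 716)
(fin 974 4 781)))))
(cons (mv 844 (cons (fin 780 7 780)
(mv 846 (cons (fin 782 6 781)
(mv 1101 (cons (fin 908 7 844)
(fin 910 6 845)))))))
(mv 781 (cons (fin 974 4 781)
(mv 782 (cons (fin 718 6 717)
(fin 846 6 781))))))))
(cons (mv 845 (cons (fin 1102 4 845)
(mv 781 (cons (fin 974 4 781)
(mv 782 (cons (fin 718 6 717)
(fin 846 6 781)))))))
(mv 845 (cons (fin 1102 4 845)
(mv 780 (cons (fin 844 7 780)
(mv 781 (cons (fin 716 7 716)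
(mv 782 (cons (fin 718 6 717)
(fin 846 6 781))))))))))))))
(cons (mv 1039 (cons (cons (mv 976 (cons (fin 977 2 973)
(mv 975 (cons (fin 1036 2 972)
(mv 1100 (cons (fin 1101 1 1036)
(mv 1104 (cons (fin 1105 0 1037)
(mv 911 (cons (fin 1168 7 911)
(fin 847 4 847)))))))))))
(mv 1100 (cons (fin 1101 1 1036)
(mv 1036 (cons (fin 1099 1 1035)
(mv 1104 (cons (fin 1103 0 1036)
(fin 1105 0 1037))))))))
(cons (mv 976 (cons (fin 977 2 973)
(mv 1036 (cons (fin 975 2 972)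
(mv 1100 (cons (fin 1099 1 1035)
(fin 1101 1 1036)))))))
(cons (mv 976 (cons (fin 977 2 973)
(mv 975 (cons (fin 1036 2 972)
(mv 1104 (cons (fin 1105 0 1037)
(mv 911 (cons (fin 1168 7 911)
(fin 847 4 847)))))))))
(mv 976 (cons (fin 977 2 973)
(mv 1100 (cons (fin 1101 1 1036)
(mv 1104 (cons (fin 1105 0 1037)
(mv 912 (cons (mv 1103 (cons (fin 848 5 847)
(fin 1167 5 911)))
(cons (mv 847 (cons (fin 911 7 847)
(mv 848 (cons (fin 783 7 783)
(mv 849 (cons (fin 785 6 784)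
(fin 913 6 848)))))))
(mv 847 (cons (fin 911 7 847)
(mv 849 (cons (fin 913 6 848)
(mv 1167 (cons (fin 1103 5 911)
(mv 1168 (cons (fin 1231 5 975)
(mv 1232 (cons (fin 975 7 975)
(mv 1233 (cons (fin 1169 4 976)
(fin 1297 4 1040))))))))))))))))))))))))))
(cons (mv 1039 (cons (fin 972 3 972)
(mv 976 (cons (fin 977 2 973)
(mv 975 (cons (fin 1036 2 972)
(mv 1104 (cons (fin 1105 0 1037)
(mv 911 (cons (fin 1168 7 911)
(fin 847 4 847)))))))))))
(mv 1039 (cons (fin 972 3 972)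
(mv 976 (cons (fin 977 2 973)
(mv 1100 (cons (fin 1101 1 1036)
(mv 1036 (cons (fin 1099 1 1035)
(mv 1104 (cons (fin 1103 0 1036)
(fin 1105 0 1037)))))))))))))))))
(cons (mv 1038 (cons (cons (mv 1039 (cons (fin 972 3 972)
(mv 1100 (cons (fin 1101 1 1036)
(mv 1036 (cons (fin 1099 1 1035)
(mv 1104 (cons (fin 1103 0 1036)
(fin 1105 0 1037)))))))))
(cons (mv 909 (cons (cons (mv 845 (cons (fin 1102 4 845)
(mv 780 (cons (fin 844 7 780)
(mv 781 (cons (fin 716 7 716)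
(fin 974 4 781)))))))
(mv 1101 (cons (cons (cons (mv 844 (cons (fin 908 7 844)
(mv 846 (cons (fin 910 6 845)
(mv 1164 (cons (fin 1100 5 908)
(mv 1165 (cons (fin 1228 5 972)
(mv 1229 (cons (fin 974 6 973)
(mv 972 (cons (fin 1036 7 972)
(mv 970 (cons (fin 971 0 970)
(mv 1293 (cons (fin 1102 6 1037)
(mv 1294 (cons (fin 1230 4 1037)
(fin 1358 4 1101)))))))))))))))))))
(mv 844 (cons (fin 908 7 844)
(mv 1164 (cons (fin 1100 5 908)
(mv 1165 (cons (fin 1228 5 972)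
(mv 1229 (cons (fin 974 6 973)
(mv 972 (cons (fin 1036 7 972)
(mv 970 (cons (fin 971 0 970)
(mv 1293 (cons (fin 1102 6 1037)
(mv 1294 (cons (fin 1230 4 1037)
(fin 1358 4 1101))))))))))))))))))
(cons (mv 846 (cons (fin 910 6 845)
(mv 1164 (cons (fin 1100 5 908)
(mv 1165 (cons (fin 1228 5 972)
(mv 1229 (cons (fin 974 6 973)
(mv 972 (cons (fin 1036 7 972)
(mv 970 (cons (fin 971 0 970)
(mv 1293 (cons (fin 1102 6 1037)
(mv 1294 (cons (fin 1230 4 1037)
(fin 1358 4 1101)))))))))))))))))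
(mv 844 (cons (fin 908 7 844)
(mv 910 (cons (fin 846 6 845)
(mv 1165 (cons (fin 974 6 909)
(mv 1228 (cons (fin 1164 5 972)
(mv 1229 (cons (fin 1292 5 1036)
(mv 972 (cons (fin 1036 7 972)
(mv 911 (cons (fin 912 1 908)
(mv 970 (cons (fin 971 2 906)
(mv 1293 (cons (fin 1102 6 1037)
(mv 1294 (cons (fin 1230 4 1037)
(fin 1358 4 1101)))))))))))))))))))))))
(cons (cons (mv 846 (cons (fin 910 6 845)
(mv 908 (cons (fin 844 7 844)
(mv 1165 (cons (fin 972 7 908)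
(mv 1229 (cons (fin 974 6 973)
(mv 1228 (cons (fin 1292 5 1036)
(mv 1293 (cons (fin 1102 6 1037)
(mv 1294 (cons (fin 1230 4 1037)
(fin 1358 4 1101)))))))))))))))
(mv 908 (cons (fin 844 7 844)
(mv 910 (cons (fin 846 6 845)
(mv 1100 (cons (fin 1164 5 908)
(mv 1098 (cons (fin 1099 2 1034)
(mv 907 (cons (mv 974 (cons (fin 906 0 906)
(fin 975 0 907)))
(cons (mv 842 (cons (fin 843 3 842)
(mv 906 (cons (fin 841 3 841)
(mv 970 (cons (fin 969 1 905)
(fin 971 1 906)))))))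
(mv 842 (cons (fin 843 3 842)
(mv 971 (cons (fin 970 1 906)
(mv 911 (cons (fin 972 1 907)
(mv 847 (cons (fin 848 2 844)
(mv 974 (cons (fin 975 0 907)
(fin 1102 6 846)))))))))))))))))))))))
(cons (mv 846 (cons (fin 910 6 845)
(mv 908 (cons (fin 844 7 844)
(mv 972 (cons (fin 1165 7 908)
(mv 970 (cons (fin 971 0 970)
(mv 1100 (cons (fin 1164 5 908)
(mv 1099 (cons (fin 1098 2 1034)
(mv 1036 (cons (fin 1163 5 907)
(mv 907 (cons (fin 843 7 843)
(mv 906 (cons (fin 969 1 905)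
(fin 905 0 905)))))))))))))))))))
(mv 844 (cons (fin 908 7 844)
(mv 846 (cons (fin 910 6 845)
(mv 1164 (cons (fin 1100 5 908)
(mv 1165 (cons (fin 1228 5 972)
(mv 1229 (cons (fin 974 6 973)
(mv 1293 (cons (fin 1102 6 1037)
(mv 1294 (cons (fin 1230 4 1037)
(fin 1358 4 1101))))))))))))))))))))
(cons (mv 845 (cons (mv 780 (cons (fin 844 7 780)
(mv 781 (cons (fin 716 7 716)
(fin 974 4 781)))))
(cons (mv 780 (cons (fin 844 7 780)
(mv 846 (cons (fin 782 6 781)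
(mv 1100 (cons (fin 1036 5 844)
(mv 1101 (cons (fin 1164 5 908)
(fin 910 6 845)))))))))
(mv 781 (cons (fin 974 4 781)
(mv 782 (cons (fin 718 6 717)
(fin 846 6 781))))))))
(cons (mv 845 (cons (fin 1102 4 845)
(mv 781 (cons (fin 974 4 781)
(mv 782 (cons (fin 718 6 717)
(fin 846 6 781)))))))
(mv 845 (cons (fin 1102 4 845)
(mv 780 (cons (fin 844 7 780)
(mv 716 (cons (fin 781 7 716)
(mv 846 (cons (fin 782 6 781)
(mv 1100 (cons (fin 1036 5 844)
(mv 1101 (cons (fin 1164 5 908)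
(fin 910 6 845)))))))))))))))))
(mv 1101 (cons (mv 1100 (cons (fin 1039 1 1036)
(mv 909 (cons (fin 1164 5 908)
(mv 845 (cons (fin 1036 5 844)
(fin 1102 4 845)))))))
(cons (mv 1165 (cons (mv 974 (cons (fin 910 6 909)
(fin 1229 6 973)))
(cons (mv 1228 (cons (fin 1164 5 972)
(mv 1229 (cons (fin 1292 5 1036)
(mv 1293 (cons (fin 1102 6 1037)
(mv 1294 (cons (fin 1230 4 1037)
(fin 1358 4 1101)))))))))
(mv 910 (cons (fin 974 6 909)
(mv 909 (cons (fin 846 6 845)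
(mv 844 (cons (fin 908 7 844)
(mv 845 (cons (fin 780 7 780)
(fin 1102 4 845))))))))))))
(mv 1039 (cons (fin 1100 1 1036)
(mv 1104 (cons (fin 1105 0 1037)
(mv 1036 (cons (fin 1103 0 1036)
(mv 974 (cons (mv 910 (cons (fin 846 5 845)
(fin 1165 6 909)))
(mv 1035 (cons (fin 1034 2 970)
(fin 975 2 971))))))))))))))))
(cons (mv 1039 (cons (fin 972 3 972)
(mv 1104 (cons (fin 1105 0 1037)
(mv 1036 (cons (fin 1103 0 1036)
(mv 1099 (cons (fin 1100 1 1035)
(mv 1035 (cons (fin 1098 1 1034)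
(mv 974 (cons (fin 1034 2 970)
(fin 975 2 971)))))))))))))
(cons (mv 972 (cons (fin 1039 3 972)
(mv 970 (cons (fin 971 0 970)
(mv 908 (cons (cons (mv 844 (cons (fin 780 4 780)
(mv 1101 (cons (fin 909 7 844)
(fin 1165 7 908)))))
(mv 1101 (cons (fin 1165 7 908)
(mv 909 (cons (mv 845 (cons (fin 1102 4 845)
(mv 781 (cons (fin 717 5 716)
(fin 1036 5 780)))))
(cons (mv 910 (cons (fin 846 6 845)
(mv 911 (cons (fin 912 1 908)
(mv 847 (cons (fin 848 2 844)
(mv 974 (cons (fin 1102 6 846)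
(mv 783 (cons (fin 719 5 718)
(fin 975 5 782)))))))))))
(mv 846 (cons (fin 910 6 845)
(mv 845 (cons (fin 782 6 781)
(mv 781 (cons (fin 717 5 716)
(fin 1036 5 780)))))))))))))
(cons (mv 844 (cons (fin 780 4 780)
(mv 1036 (cons (cons (mv 779 (cons (fin 843 7 779)
(mv 781 (cons (fin 845 6 780)
(mv 1035 (cons (fin 1099 5 843)
(mv 974 (cons (fin 975 1 971)
(fin 1034 2 970)))))))))
(mv 779 (cons (fin 843 7 779)
(mv 845 (cons (fin 781 6 780)
(mv 909 (cons (fin 1102 4 845)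
(mv 846 (cons (fin 782 6 781)
(mv 847 (cons (fin 907 1 843)
(fin 848 1 844))))))))))))
(cons (mv 779 (cons (fin 843 7 779)
(mv 1035 (cons (fin 1099 5 843)
(mv 974 (cons (fin 975 1 971)
(fin 1034 2 970)))))))
(mv 781 (cons (fin 845 6 780)
(mv 1035 (cons (fin 1099 5 843)
(mv 974 (cons (fin 975 1 971)
(fin 1034 2 970))))))))))))
(mv 844 (cons (fin 780 4 780)
(mv 1101 (cons (fin 1165 7 908)
(fin 1036 4 844))))))))))))
(mv 1039 (cons (fin 972 3 972)
(mv 1101 (cons (fin 1100 1 1036)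
(mv 1104 (cons (fin 1105 0 1037)
(mv 1165 (cons (mv 974 (cons (fin 910 6 909)
(fin 1229 6 973)))
(cons (mv 1228 (cons (fin 1164 5 972)
(mv 1229 (cons (fin 1292 5 1036)
(mv 1293 (cons (fin 1102 6 1037)
(mv 1294 (cons (fin 1230 4 1037)
(fin 1358 4 1101)))))))))
(mv 910 (cons (fin 974 6 909)
(mv 909 (cons (fin 846 6 845)
(mv 844 (cons (fin 908 7 844)
(mv 845 (cons (fin 780 7 780)
(fin 1102 4 845))))))))))))))))))))))
(cons (mv 1038 (cons (cons (mv 1039 (cons (fin 972 3 972)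
(mv 976 (cons (fin 977 2 973)
(mv 1100 (cons (fin 1101 1 1036)
(mv 1036 (cons (fin 1099 1 1035)
(mv 1104 (cons (fin 1103 0 1036)
(fin 1105 0 1037)))))))))))
(cons (mv 909 (cons (cons (mv 845 (cons (fin 1102 4 845)
(mv 780 (cons (fin 844 7 780)
(mv 781 (cons (fin 716 7 716)
(fin 974 4 781)))))))
(mv 1101 (cons (cons (cons (mv 844 (cons (fin 908 7 844)
(mv 846 (cons (fin 910 6 845)
(mv 1164 (cons (fin 1100 5 908)
(mv 1165 (cons (fin 1228 5 972)
(mv 1229 (cons (fin 974 6 973)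
(mv 972 (cons (fin 1036 7 972)
(mv 970 (cons (fin 971 0 970)
(mv 1293 (cons (fin 1102 6 1037)
(mv 1294 (cons (fin 1230 4 1037)
(fin 1358 4 1101)))))))))))))))))))
(mv 844 (cons (fin 908 7 844)
(mv 1164 (cons (fin 1100 5 908)
(mv 1165 (cons (fin 1228 5 972)
(mv 1229 (cons (fin 974 6 973)
(mv 972 (cons (fin 1036 7 972)
(mv 970 (cons (fin 971 0 970)
(mv 1293 (cons (fin 1102 6 1037)
(mv 1294 (cons (fin 1230 4 1037)
(fin 1358 4 1101))))))))))))))))))
(cons (mv 846 (cons (fin 910 6 845)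
(mv 1164 (cons (fin 1100 5 908)
(mv 1165 (cons (fin 1228 5 972)
(mv 1229 (cons (fin 974 6 973)
(mv 972 (cons (fin 1036 7 972)
(mv 970 (cons (fin 971 0 970)
(mv 1293 (cons (fin 1102 6 1037)
(mv 1294 (cons (fin 1230 4 1037)
(fin 1358 4 1101)))))))))))))))))
(mv 844 (cons (fin 908 7 844)
(mv 910 (cons (fin 846 6 845)
(mv 1165 (cons (fin 974 6 909)
(mv 1228 (cons (fin 1164 5 972)
(mv 1229 (cons (fin 1292 5 1036)
(mv 972 (cons (fin 1036 7 972)
(mv 911 (cons (fin 912 1 908)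
(mv 970 (cons (fin 971 2 906)
(mv 1293 (cons (fin 1102 6 1037)
(mv 1294 (cons (fin 1230 4 1037)
(fin 1358 4 1101)))))))))))))))))))))))
(cons (cons (mv 846 (cons (fin 910 6 845)
(mv 908 (cons (fin 844 7 844)
(mv 1165 (cons (fin 972 7 908)
(mv 1229 (cons (fin 974 6 973)
(mv 1228 (cons (fin 1292 5 1036)
(mv 1293 (cons (fin 1102 6 1037)
(mv 1294 (cons (fin 1230 4 1037)
(fin 1358 4 1101)))))))))))))))
(mv 908 (cons (fin 844 7 844)
(mv 910 (cons (fin 846 6 845)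
(mv 1100 (cons (fin 1164 5 908)
(mv 1098 (cons (fin 1099 2 1034)
(mv 971 (cons (cons (mv 970 (cons (fin 907 1 906)
(fin 972 2 906)))
(mv 907 (cons (fin 970 1 906)
(mv 842 (cons (fin 843 3 842)
(mv 906 (cons (fin 841 3 841)
(fin 974 0 906))))))))
(cons (mv 911 (cons (fin 972 1 907)
(mv 847 (cons (fin 848 2 844)
(mv 974 (cons (fin 1102 6 846)
(mv 719 (cons (fin 783 5 718)
(mv 906 (cons (fin 907 0 906)
(mv 912 (cons (fin 913 1 909)
(mv 976 (cons (fin 977 0 909)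
(fin 1104 7 847)))))))))))))))
(mv 972 (cons (fin 911 1 907)
(fin 970 2 906)))))))))))))))
(cons (mv 846 (cons (fin 910 6 845)
(mv 908 (cons (fin 844 7 844)
(mv 972 (cons (fin 1165 7 908)
(mv 970 (cons (fin 971 0 970)
(mv 1100 (cons (fin 1164 5 908)
(mv 1099 (cons (fin 1098 2 1034)
(mv 1036 (cons (fin 1163 5 907)
(mv 907 (cons (fin 843 7 843)
(mv 906 (cons (fin 969 1 905)
(fin 905 0 905)))))))))))))))))))
(mv 844 (cons (fin 908 7 844)
(mv 846 (cons (fin 910 6 845)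
(mv 1164 (cons (fin 1100 5 908)
(mv 1165 (cons (fin 1228 5 972)
(mv 1229 (cons (fin 974 6 973)
(mv 1293 (cons (fin 1102 6 1037)
(mv 1294 (cons (fin 1230 4 1037)
(fin 1358 4 1101))))))))))))))))))))
(cons (mv 845 (cons (mv 780 (cons (fin 844 7 780)
(mv 781 (cons (fin 716 7 716)
(fin 974 4 781)))))
(cons (mv 780 (cons (fin 844 7 780)
(mv 846 (cons (fin 782 6 781)
(mv 1100 (cons (fin 1036 5 844)
(mv 1101 (cons (fin 1164 5 908)
(fin 910 6 845)))))))))
(mv 781 (cons (fin 974 4 781)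
(mv 782 (cons (fin 718 6 717)
(fin 846 6 781))))))))
(cons (mv 845 (cons (fin 1102 4 845)
(mv 781 (cons (fin 974 4 781)
(mv 782 (cons (fin 718 6 717)
(fin 846 6 781)))))))
(mv 845 (cons (fin 1102 4 845)
(mv 780 (cons (fin 844 7 780)
(mv 716 (cons (fin 781 7 716)
(mv 846 (cons (fin 782 6 781)
(mv 1100 (cons (fin 1036 5 844)
(mv 1101 (cons (fin 1164 5 908)
(fin 910 6 845)))))))))))))))))
(mv 1039 (cons (cons (mv 976 (cons (fin 977 2 973)
(mv 1100 (cons (fin 1101 1 1036)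
(mv 1036 (cons (fin 1099 1 1035)
(mv 1104 (cons (fin 1103 0 1036)
(fin 1105 0 1037)))))))))
(mv 976 (cons (fin 977 2 973)
(mv 1104 (cons (fin 1105 0 1037)
(mv 1103 (cons (fin 1036 0 1036)
(mv 912 (cons (fin 848 5 847)
(fin 1167 5 911))))))))))
(cons (mv 976 (cons (fin 977 2 973)
(mv 1101 (cons (fin 1100 1 1036)
(mv 1165 (cons (mv 974 (cons (fin 910 6 909)
(fin 1229 6 973)))
(cons (mv 1228 (cons (fin 1164 5 972)
(mv 1229 (cons (fin 1292 5 1036)
(mv 1293 (cons (fin 1102 6 1037)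
(mv 1294 (cons (fin 1230 4 1037)
(fin 1358 4 1101)))))))))
(mv 910 (cons (fin 974 6 909)
(mv 909 (cons (fin 846 6 845)
(mv 844 (cons (fin 908 7 844)
(mv 845 (cons (fin 780 7 780)
(fin 1102 4 845))))))))))))))))
(mv 1100 (cons (fin 1101 1 1036)
(mv 1036 (cons (fin 1099 1 1035)
(mv 1104 (cons (fin 1103 0 1036)
(fin 1105 0 1037))))))))))))
(cons (cons (mv 1039 (cons (fin 972 3 972)
(mv 976 (cons (fin 977 2 973)
(mv 1104 (cons (fin 1105 0 1037)
(mv 1036 (cons (fin 1103 0 1036)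
(mv 1099 (cons (fin 1100 1 1035)
(mv 1035 (cons (fin 1098 1 1034)
(mv 970 (cons (fin 971 3 970)
(mv 1034 (cons (fin 969 3 969)
(fin 974 2 970)))))))))))))))))
(mv 1039 (cons (fin 972 3 972)
(mv 976 (cons (fin 977 2 973)
(mv 1104 (cons (fin 1105 0 1037)
(mv 1103 (cons (fin 1036 0 1036)
(mv 912 (cons (fin 848 5 847)
(fin 1167 5 911))))))))))))
(cons (mv 1039 (cons (fin 972 3 972)
(mv 976 (cons (fin 977 2 973)
(mv 1101 (cons (fin 1100 1 1036)
(mv 1165 (cons (mv 974 (cons (fin 910 6 909)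
(fin 1229 6 973)))
(cons (mv 1228 (cons (fin 1164 5 972)
(mv 1229 (cons (fin 1292 5 1036)
(mv 1293 (cons (fin 1102 6 1037)
(mv 1294 (cons (fin 1230 4 1037)
(fin 1358 4 1101)))))))))
(mv 910 (cons (fin 974 6 909)
(mv 909 (cons (fin 846 6 845)
(mv 844 (cons (fin 908 7 844)
(mv 845 (cons (fin 780 7 780)
(fin 1102 4 845))))))))))))))))))
(mv 1039 (cons (fin 972 3 972)
(mv 1100 (cons (fin 1101 1 1036)
(mv 1036 (cons (fin 1099 1 1035)
(mv 1104 (cons (fin 1103 0 1036)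
(fin 1105 0 1037)))))))))))))
(mv 1038 (cons (cons (mv 1039 (cons (fin 972 3 972)
(mv 976 (cons (fin 977 2 973)
(mv 975 (cons (fin 1036 2 972)
(mv 1100 (cons (fin 1101 1 1036)
(mv 1104 (cons (fin 1105 0 1037)
(mv 911 (cons (fin 1168 7 911)
(fin 847 4 847)))))))))))))
(cons (mv 909 (cons (cons (mv 845 (cons (fin 1102 4 845)
(mv 781 (cons (fin 974 4 781)
(mv 782 (cons (fin 718 6 717)
(fin 846 6 781)))))))
(mv 1101 (cons (cons (cons (mv 844 (cons (fin 908 7 844)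
(mv 846 (cons (fin 910 6 845)
(mv 1164 (cons (fin 1100 5 908)
(mv 1165 (cons (fin 1228 5 972)
(mv 1229 (cons (fin 974 6 973)
(mv 972 (cons (fin 1036 7 972)
(mv 970 (cons (fin 971 0 970)
(mv 1293 (cons (fin 1102 6 1037)
(mv 1294 (cons (fin 1230 4 1037)
(fin 1358 4 1101)))))))))))))))))))
(mv 844 (cons (fin 908 7 844)
(mv 1164 (cons (fin 1100 5 908)
(mv 1165 (cons (fin 1228 5 972)
(mv 1229 (cons (fin 974 6 973)
(mv 972 (cons (fin 1036 7 972)
(mv 970 (cons (fin 971 0 970)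
(mv 1293 (cons (fin 1102 6 1037)
(mv 1294 (cons (fin 1230 4 1037)
(fin 1358 4 1101))))))))))))))))))
(cons (mv 846 (cons (fin 910 6 845)
(mv 1164 (cons (fin 1100 5 908)
(mv 1165 (cons (fin 1228 5 972)
(mv 1229 (cons (fin 974 6 973)
(mv 972 (cons (fin 1036 7 972)
(mv 970 (cons (fin 971 0 970)
(mv 1293 (cons (fin 1102 6 1037)
(mv 1294 (cons (fin 1230 4 1037)
(fin 1358 4 1101)))))))))))))))))
(mv 844 (cons (fin 908 7 844)
(mv 910 (cons (fin 846 6 845)
(mv 1165 (cons (fin 974 6 909)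
(mv 1228 (cons (fin 1164 5 972)
(mv 1229 (cons (fin 1292 5 1036)
(mv 972 (cons (fin 1036 7 972)
(mv 911 (cons (fin 912 1 908)
(mv 970 (cons (fin 971 2 906)
(mv 1293 (cons (fin 1102 6 1037)
(mv 1294 (cons (fin 1230 4 1037)
(fin 1358 4 1101)))))))))))))))))))))))
(cons (cons (mv 846 (cons (fin 910 6 845)
(mv 908 (cons (fin 844 7 844)
(mv 1165 (cons (fin 972 7 908)
(mv 1229 (cons (fin 974 6 973)
(mv 1228 (cons (fin 1292 5 1036)
(mv 1293 (cons (fin 1102 6 1037)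
(mv 1294 (cons (fin 1230 4 1037)
(fin 1358 4 1101)))))))))))))))
(mv 908 (cons (fin 844 7 844)
(mv 910 (cons (fin 846 6 845)
(mv 1100 (cons (fin 1164 5 908)
(mv 1098 (cons (fin 1099 2 1034)
(mv 907 (cons (cons (mv 974 (cons (fin 906 0 906)
(fin 975 0 907)))
(mv 842 (cons (fin 843 3 842)
(mv 841 (cons (fin 906 3 841)
(mv 971 (cons (fin 970 1 906)
(mv 911 (cons (fin 972 1 907)
(mv 847 (cons (fin 848 2 844)
(mv 976 (cons (fin 975 0 908)
(mv 912 (cons (fin 977 0 909)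
(fin 1104 7 847))))))))))))))))
(cons (mv 842 (cons (fin 843 3 842)
(mv 970 (cons (fin 971 1 906)
(mv 975 (cons (fin 974 0 907)
(mv 911 (cons (fin 976 0 908)
(mv 848 (cons (fin 847 2 844)
(mv 912 (cons (fin 972 1 908)
(fin 849 2 845)))))))))))))
(mv 842 (cons (fin 843 3 842)
(mv 906 (cons (fin 841 3 841)
(fin 974 0 906)))))))))))))))))
(cons (mv 846 (cons (fin 910 6 845)
(mv 908 (cons (fin 844 7 844)
(mv 972 (cons (fin 1165 7 908)
(mv 970 (cons (fin 971 0 970)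
(mv 1100 (cons (fin 1164 5 908)
(mv 1099 (cons (fin 1098 2 1034)
(mv 1036 (cons (fin 1163 5 907)
(mv 907 (cons (fin 843 7 843)
(mv 906 (cons (fin 969 1 905)
(fin 905 0 905)))))))))))))))))))
(mv 844 (cons (fin 908 7 844)
(mv 846 (cons (fin 910 6 845)
(mv 1164 (cons (fin 1100 5 908)
(mv 1165 (cons (fin 1228 5 972)
(mv 1229 (cons (fin 974 6 973)
(mv 1293 (cons (fin 1102 6 1037)
(mv 1294 (cons (fin 1230 4 1037)
(fin 1358 4 1101))))))))))))))))))))
(cons (mv 1101 (cons (cons (mv 844 (cons (fin 908 7 844)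
(mv 846 (cons (fin 910 6 845)
(mv 845 (cons (fin 782 6 781)
(mv 1100 (cons (fin 1036 5 844)
(fin 1164 5 908)))))))))
(cons (mv 844 (cons (fin 908 7 844)
(mv 1100 (cons (fin 1164 5 908)
(mv 845 (cons (fin 1036 5 844)
(mv 781 (cons (fin 974 4 781)
(mv 782 (cons (fin 718 6 717)
(fin 846 6 781)))))))))))
(mv 846 (cons (fin 910 6 845)
(mv 782 (cons (fin 845 6 781)
(mv 908 (cons (fin 844 7 844)
(mv 1165 (cons (fin 972 7 908)
(mv 1228 (cons (fin 1164 5 972)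
(mv 1229 (cons (fin 1292 5 1036)
(fin 974 6 973)))))))))))))))
(cons (cons (mv 844 (cons (fin 908 7 844)
(mv 1100 (cons (fin 1164 5 908)
(mv 845 (cons (fin 1036 5 844)
(mv 974 (cons (fin 781 4 781)
(mv 1165 (cons (fin 910 6 909)
(fin 1229 6 973)))))))))))
(mv 846 (cons (fin 910 6 845)
(mv 845 (cons (fin 782 6 781)
(mv 1100 (cons (fin 1036 5 844)
(fin 1164 5 908))))))))
(cons (mv 844 (cons (fin 908 7 844)
(mv 846 (cons (fin 910 6 845)
(mv 845 (cons (fin 782 6 781)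
(mv 781 (cons (fin 974 4 781)
(mv 1036 (cons (fin 972 5 780)
(fin 1100 5 844)))))))))))
(mv 844 (cons (fin 908 7 844)
(mv 910 (cons (fin 846 6 845)
(mv 1164 (cons (fin 1100 5 908)
(mv 1165 (cons (fin 1228 5 972)
(fin 974 6 909)))))))))))))
(cons (mv 845 (cons (fin 1102 4 845)
(mv 781 (cons (fin 974 4 781)
(mv 1036 (cons (fin 972 5 780)
(fin 1100 5 844)))))))
(mv 845 (cons (fin 1102 4 845)
(mv 782 (cons (fin 846 6 781)
(mv 781 (cons (fin 718 6 717)
(mv 1036 (cons (fin 972 5 780)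
(fin 1100 5 844)))))))))))))
(mv 1039 (cons (cons (mv 976 (cons (fin 977 2 973)
(mv 975 (cons (fin 1036 2 972)
(mv 1100 (cons (fin 1101 1 1036)
(mv 1104 (cons (fin 1105 0 1037)
(mv 911 (cons (fin 1168 7 911)
(fin 847 4 847)))))))))))
(mv 1100 (cons (fin 1101 1 1036)
(mv 1036 (cons (fin 1099 1 1035)
(mv 1104 (cons (fin 1103 0 1036)
(fin 1105 0 1037))))))))
(cons (mv 976 (cons (fin 977 2 973)
(mv 975 (cons (fin 1036 2 972)
(mv 1104 (cons (fin 1105 0 1037)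
(mv 911 (cons (fin 1168 7 911)
(fin 847 4 847)))))))))
(cons (mv 976 (cons (fin 977 2 973)
(mv 1036 (cons (fin 975 2 972)
(mv 1100 (cons (fin 1099 1 1035)
(fin 1101 1 1036)))))))
(mv 976 (cons (fin 977 2 973)
(mv 1100 (cons (fin 1101 1 1036)
(mv 1104 (cons (fin 1105 0 1037)
(mv 912 (cons (mv 1103 (cons (fin 848 5 847)
(fin 1167 5 911)))
(cons (mv 847 (cons (fin 911 7 847)
(mv 848 (cons (fin 783 7 783)
(mv 849 (cons (fin 785 6 784)
(fin 913 6 848)))))))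
(mv 847 (cons (fin 911 7 847)
(mv 849 (cons (fin 913 6 848)
(mv 1167 (cons (fin 1103 5 911)
(mv 1168 (cons (fin 1231 5 975)
(mv 1232 (cons (fin 975 7 975)
(mv 1233 (cons (fin 1169 4 976)
(fin 1297 4 1040))))))))))))))))))))))))))))
(cons (cons (mv 1039 (cons (fin 972 3 972)
(mv 976 (cons (fin 977 2 973)
(mv 975 (cons (fin 1036 2 972)
(mv 1104 (cons (fin 1105 0 1037)
(mv 911 (cons (fin 1168 7 911)
(fin 847 4 847)))))))))))
(mv 1039 (cons (fin 972 3 972)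
(mv 1100 (cons (fin 1101 1 1036)
(mv 1036 (cons (fin 1099 1 1035)
(mv 1104 (cons (fin 1103 0 1036)
(fin 1105 0 1037))))))))))
(cons (mv 1039 (cons (fin 972 3 972)
(mv 976 (cons (fin 977 2 973)
(mv 1036 (cons (fin 975 2 972)
(mv 1100 (cons (fin 1099 1 1035)
(fin 1101 1 1036)))))))))
(mv 1039 (cons (fin 972 3 972)
(mv 976 (cons (fin 977 2 973)
(mv 1100 (cons (fin 1101 1 1036)
(mv 1104 (cons (fin 1105 0 1037)
(mv 912 (cons (mv 1103 (cons (fin 848 5 847)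
(fin 1167 5 911)))
(cons (mv 847 (cons (fin 911 7 847)
(mv 848 (cons (fin 783 7 783)
(mv 849 (cons (fin 785 6 784)
(fin 913 6 848)))))))
(mv 847 (cons (fin 911 7 847)
(mv 849 (cons (fin 913 6 848)
(mv 1167 (cons (fin 1103 5 911)
(mv 1168 (cons (fin 1231 5 975)
(mv 1232 (cons (fin 975 7 975)
(mv 1233 (cons (fin 1169 4 976)
(fin 1297 4 1040)))))))))))))))))))))))))))))))
(cons (cons (mv 1038 (cons (cons (mv 1039 (cons (fin 972 3 972)
(mv 976 (cons (fin 977 2 973)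
(mv 975 (cons (fin 1036 2 972)
(mv 1100 (cons (fin 1101 1 1036)
(mv 1104 (cons (fin 1105 0 1037)
(mv 911 (cons (fin 1168 7 911)
(fin 847 4 847)))))))))))))
(cons (mv 909 (cons (cons (mv 845 (cons (fin 1102 4 845)
(mv 780 (cons (fin 844 7 780)
(mv 781 (cons (fin 716 7 716)
(fin 974 4 781)))))))
(mv 1101 (cons (cons (mv 846 (cons (fin 910 6 845)
(mv 908 (cons (fin 844 7 844)
(mv 972 (cons (fin 1165 7 908)
(mv 970 (cons (fin 971 0 970)
(mv 1100 (cons (fin 1164 5 908)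
(mv 1099 (cons (fin 1098 2 1034)
(mv 1036 (cons (fin 1163 5 907)
(mv 907 (cons (fin 843 7 843)
(mv 906 (cons (fin 969 1 905)
(fin 905 0 905)))))))))))))))))))
(cons (mv 908 (cons (fin 844 7 844)
(mv 972 (cons (fin 1165 7 908)
(mv 970 (cons (fin 971 0 970)
(mv 1100 (cons (fin 1164 5 908)
(mv 1099 (cons (fin 1098 2 1034)
(mv 1036 (cons (fin 1163 5 907)
(mv 907 (cons (fin 843 7 843)
(mv 906 (cons (fin 969 1 905)
(fin 905 0 905)))))))))))))))))
(mv 910 (cons (fin 846 6 845)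
(mv 974 (cons (fin 1165 6 909)
(mv 1100 (cons (fin 1164 5 908)
(mv 1098 (cons (fin 1099 2 1034)
(mv 911 (cons (mv 912 (cons (fin 972 1 908)
(fin 913 1 909)))
(mv 847 (cons (fin 1102 6 846)
(mv 783 (cons (fin 719 5 718)
(fin 975 5 782)))))))))))))))))
(cons (mv 846 (cons (fin 910 6 845)
(mv 908 (cons (fin 844 7 844)
(mv 1165 (cons (fin 972 7 908)
(mv 1229 (cons (fin 974 6 973)
(mv 1293 (cons (fin 1102 6 1037)
(mv 1294 (cons (fin 1230 4 1037)
(fin 1358 4 1101)))))))))))))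
(cons (mv 908 (cons (fin 844 7 844)
(mv 910 (cons (fin 846 6 845)
(mv 1100 (cons (fin 1164 5 908)
(mv 1098 (cons (fin 1099 2 1034)
(mv 907 (cons (cons (mv 974 (cons (fin 906 0 906)
(fin 975 0 907)))
(mv 842 (cons (fin 843 3 842)
(mv 841 (cons (fin 906 3 841)
(mv 971 (cons (fin 970 1 906)
(mv 911 (cons (fin 972 1 907)
(mv 847 (cons (fin 848 2 844)
(mv 976 (cons (fin 975 0 908)
(mv 912 (cons (fin 977 0 909)
(fin 1104 7 847))))))))))))))))
(cons (mv 842 (cons (fin 843 3 842)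
(mv 970 (cons (fin 971 1 906)
(mv 975 (cons (fin 974 0 907)
(mv 911 (cons (fin 976 0 908)
(mv 848 (cons (fin 847 2 844)
(mv 912 (cons (fin 972 1 908)
(fin 849 2 845)))))))))))))
(mv 842 (cons (fin 843 3 842)
(mv 906 (cons (fin 841 3 841)
(fin 974 0 906))))))))))))))))
(mv 908 (cons (fin 844 7 844)
(mv 910 (cons (fin 846 6 845)
(mv 974 (cons (fin 1165 6 909)
(mv 907 (cons (fin 906 0 906)
(fin 975 0 907))))))))))))))
(cons (mv 845 (cons (mv 780 (cons (fin 844 7 780)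
(mv 781 (cons (fin 716 7 716)
(fin 974 4 781)))))
(cons (mv 780 (cons (fin 844 7 780)
(mv 846 (cons (fin 782 6 781)
(mv 1100 (cons (fin 1036 5 844)
(mv 1101 (cons (fin 1164 5 908)
(fin 910 6 845)))))))))
(mv 781 (cons (fin 974 4 781)
(mv 782 (cons (fin 718 6 717)
(fin 846 6 781))))))))
(cons (mv 845 (cons (fin 1102 4 845)
(mv 781 (cons (fin 974 4 781)
(mv 782 (cons (fin 718 6 717)
(fin 846 6 781)))))))
(mv 845 (cons (fin 1102 4 845)
(mv 780 (cons (fin 844 7 780)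
(mv 716 (cons (fin 781 7 716)
(mv 846 (cons (fin 782 6 781)
(mv 1100 (cons (fin 1036 5 844)
(mv 1101 (cons (fin 1164 5 908)
(fin 910 6 845)))))))))))))))))
(mv 1039 (cons (cons (mv 976 (cons (fin 977 2 973)
(mv 975 (cons (fin 1036 2 972)
(mv 1100 (cons (fin 1101 1 1036)
(mv 1104 (cons (fin 1105 0 1037)
(mv 911 (cons (fin 1168 7 911)
(fin 847 4 847)))))))))))
(mv 1100 (cons (fin 1101 1 1036)
(mv 1036 (cons (fin 1099 1 1035)
(mv 1104 (cons (fin 1103 0 1036)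
(fin 1105 0 1037))))))))
(cons (mv 976 (cons (fin 977 2 973)
(mv 1036 (cons (fin 975 2 972)
(mv 1100 (cons (fin 1099 1 1035)
(fin 1101 1 1036)))))))
(cons (mv 976 (cons (fin 977 2 973)
(mv 975 (cons (fin 1036 2 972)
(mv 1104 (cons (fin 1105 0 1037)
(mv 911 (cons (fin 1168 7 911)
(fin 847 4 847)))))))))
(mv 976 (cons (fin 977 2 973)
(mv 1100 (cons (fin 1101 1 1036)
(mv 1104 (cons (fin 1105 0 1037)
(mv 912 (cons (mv 1103 (cons (fin 848 5 847)
(fin 1167 5 911)))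
(cons (mv 847 (cons (fin 911 7 847)
(mv 848 (cons (fin 783 7 783)
(mv 849 (cons (fin 785 6 784)
(fin 913 6 848)))))))
(mv 847 (cons (fin 911 7 847)
(mv 849 (cons (fin 913 6 848)
(mv 1167 (cons (fin 1103 5 911)
(mv 1168 (cons (fin 1231 5 975)
(mv 1232 (cons (fin 975 7 975)
(mv 1233 (cons (fin 1169 4 976)
(fin 1297 4 1040))))))))))))))))))))))))))))
(cons (cons (mv 1039 (cons (fin 972 3 972)
(mv 976 (cons (fin 977 2 973)
(mv 975 (cons (fin 1036 2 972)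
(mv 1104 (cons (fin 1105 0 1037)
(mv 911 (cons (fin 1168 7 911)
(fin 847 4 847)))))))))))
(mv 1039 (cons (fin 972 3 972)
(mv 1100 (cons (fin 1101 1 1036)
(mv 1036 (cons (fin 1099 1 1035)
(mv 1104 (cons (fin 1103 0 1036)
(fin 1105 0 1037))))))))))
(cons (mv 1039 (cons (fin 972 3 972)
(mv 976 (cons (fin 977 2 973)
(mv 1036 (cons (fin 975 2 972)
(mv 1100 (cons (fin 1099 1 1035)
(fin 1101 1 1036)))))))))
(mv 1039 (cons (fin 972 3 972)
(mv 976 (cons (fin 977 2 973)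
(mv 1100 (cons (fin 1101 1 1036)
(mv 1104 (cons (fin 1105 0 1037)
(mv 912 (cons (mv 1103 (cons (fin 848 5 847)
(fin 1167 5 911)))
(cons (mv 847 (cons (fin 911 7 847)
(mv 848 (cons (fin 783 7 783)
(mv 849 (cons (fin 785 6 784)
(fin 913 6 848)))))))
(mv 847 (cons (fin 911 7 847)
(mv 849 (cons (fin 913 6 848)
(mv 1167 (cons (fin 1103 5 911)
(mv 1168 (cons (fin 1231 5 975)
(mv 1232 (cons (fin 975 7 975)
(mv 1233 (cons (fin 1169 4 976)
(fin 1297 4 1040))))))))))))))))))))))))))))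
(cons (mv 1038 (cons (cons (mv 1039 (cons (fin 972 3 972)
(mv 976 (cons (fin 977 2 973)
(mv 1036 (cons (fin 975 2 972)
(mv 1100 (cons (fin 1099 1 1035)
(fin 1101 1 1036)))))))))
(cons (mv 909 (cons (cons (mv 845 (cons (fin 1102 4 845)
(mv 780 (cons (fin 844 7 780)
(mv 781 (cons (fin 716 7 716)
(fin 974 4 781)))))))
(mv 1101 (cons (cons (cons (mv 844 (cons (fin 908 7 844)
(mv 846 (cons (fin 910 6 845)
(mv 1164 (cons (fin 1100 5 908)
(mv 1165 (cons (fin 1228 5 972)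
(mv 1229 (cons (fin 974 6 973)
(mv 972 (cons (fin 1036 7 972)
(mv 970 (cons (fin 971 0 970)
(mv 1293 (cons (fin 1102 6 1037)
(mv 1294 (cons (fin 1230 4 1037)
(fin 1358 4 1101)))))))))))))))))))
(mv 844 (cons (fin 908 7 844)
(mv 1164 (cons (fin 1100 5 908)
(mv 1165 (cons (fin 1228 5 972)
(mv 1229 (cons (fin 974 6 973)
(mv 972 (cons (fin 1036 7 972)
(mv 970 (cons (fin 971 0 970)
(mv 1293 (cons (fin 1102 6 1037)
(mv 1294 (cons (fin 1230 4 1037)
(fin 1358 4 1101))))))))))))))))))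
(cons (mv 846 (cons (fin 910 6 845)
(mv 1164 (cons (fin 1100 5 908)
(mv 1165 (cons (fin 1228 5 972)
(mv 1229 (cons (fin 974 6 973)
(mv 972 (cons (fin 1036 7 972)
(mv 970 (cons (fin 971 0 970)
(mv 1293 (cons (fin 1102 6 1037)
(mv 1294 (cons (fin 1230 4 1037)
(fin 1358 4 1101)))))))))))))))))
(mv 844 (cons (fin 908 7 844)
(mv 910 (cons (fin 846 6 845)
(mv 1165 (cons (fin 974 6 909)
(mv 1228 (cons (fin 1164 5 972)
(mv 1229 (cons (fin 1292 5 1036)
(mv 972 (cons (fin 1036 7 972)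
(mv 911 (cons (fin 912 1 908)
(mv 970 (cons (fin 971 2 906)
(mv 1293 (cons (fin 1102 6 1037)
(mv 1294 (cons (fin 1230 4 1037)
(fin 1358 4 1101)))))))))))))))))))))))
(cons (cons (mv 846 (cons (fin 910 6 845)
(mv 908 (cons (fin 844 7 844)
(mv 1165 (cons (fin 972 7 908)
(mv 1229 (cons (fin 974 6 973)
(mv 1228 (cons (fin 1292 5 1036)
(mv 1293 (cons (fin 1102 6 1037)
(mv 1294 (cons (fin 1230 4 1037)
(fin 1358 4 1101)))))))))))))))
(mv 908 (cons (fin 844 7 844)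
(mv 910 (cons (fin 846 6 845)
(mv 1100 (cons (fin 1164 5 908)
(mv 1098 (cons (fin 1099 2 1034)
(mv 907 (cons (cons (mv 974 (cons (fin 906 0 906)
(fin 975 0 907)))
(mv 842 (cons (fin 843 3 842)
(mv 841 (cons (fin 906 3 841)
(mv 971 (cons (fin 970 1 906)
(mv 911 (cons (fin 972 1 907)
(mv 848 (cons (fin 847 2 844)
(mv 912 (cons (fin 849 2 845)
(mv 976 (cons (fin 975 0 908)
(fin 977 0 909))))))))))))))))
(cons (mv 842 (cons (fin 843 3 842)
(mv 970 (cons (fin 971 1 906)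
(mv 975 (cons (fin 974 0 907)
(mv 911 (cons (fin 976 0 908)
(mv 848 (cons (fin 847 2 844)
(mv 912 (cons (fin 972 1 908)
(fin 849 2 845)))))))))))))
(mv 842 (cons (fin 843 3 842)
(mv 906 (cons (fin 841 3 841)
(fin 974 0 906)))))))))))))))))
(cons (mv 846 (cons (fin 910 6 845)
(mv 908 (cons (fin 844 7 844)
(mv 972 (cons (fin 1165 7 908)
(mv 970 (cons (fin 971 0 970)
(mv 1100 (cons (fin 1164 5 908)
(mv 1099 (cons (fin 1098 2 1034)
(mv 1036 (cons (fin 1163 5 907)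
(mv 907 (cons (fin 843 7 843)
(mv 906 (cons (fin 969 1 905)
(fin 905 0 905)))))))))))))))))))
(mv 844 (cons (fin 908 7 844)
(mv 846 (cons (fin 910 6 845)
(mv 1164 (cons (fin 1100 5 908)
(mv 1165 (cons (fin 1228 5 972)
(mv 1229 (cons (fin 974 6 973)
(mv 1293 (cons (fin 1102 6 1037)
(mv 1294 (cons (fin 1230 4 1037)
(fin 1358 4 1101))))))))))))))))))))
(cons (mv 845 (cons (mv 780 (cons (fin 844 7 780)
(mv 781 (cons (fin 716 7 716)
(fin 974 4 781)))))
(cons (mv 780 (cons (fin 844 7 780)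
(mv 846 (cons (fin 782 6 781)
(mv 1100 (cons (fin 1036 5 844)
(mv 1101 (cons (fin 1164 5 908)
(fin 910 6 845)))))))))
(mv 781 (cons (fin 974 4 781)
(mv 782 (cons (fin 718 6 717)
(fin 846 6 781))))))))
(cons (mv 845 (cons (fin 1102 4 845)
(mv 781 (cons (fin 974 4 781)
(mv 782 (cons (fin 718 6 717)
(fin 846 6 781)))))))
(mv 845 (cons (fin 1102 4 845)
(mv 780 (cons (fin 844 7 780)
(mv 716 (cons (fin 781 7 716)
(mv 846 (cons (fin 782 6 781)
(mv 1100 (cons (fin 1036 5 844)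
(mv 1101 (cons (fin 1164 5 908)
(fin 910 6 845)))))))))))))))))
(mv 1039 (cons (mv 976 (cons (fin 977 2 973)
(mv 1036 (cons (fin 975 2 972)
(mv 1100 (cons (fin 1099 1 1035)
(fin 1101 1 1036)))))))
(cons (mv 1101 (cons (fin 1100 1 1036)
(mv 1165 (cons (mv 974 (cons (fin 910 6 909)
(fin 1229 6 973)))
(cons (mv 1228 (cons (fin 1164 5 972)
(mv 1229 (cons (fin 1292 5 1036)
(mv 1293 (cons (fin 1102 6 1037)
(mv 1294 (cons (fin 1230 4 1037)
(fin 1358 4 1101)))))))))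
(mv 910 (cons (fin 974 6 909)
(mv 909 (cons (fin 846 6 845)
(mv 844 (cons (fin 908 7 844)
(mv 845 (cons (fin 780 7 780)
(fin 1102 4 845))))))))))))))
(mv 976 (cons (fin 977 2 973)
(mv 975 (cons (fin 1036 2 972)
(mv 912 (cons (mv 848 (cons (fin 784 5 783)
(fin 1103 5 847)))
(mv 974 (cons (fin 913 2 909)
(mv 909 (cons (fin 908 3 908)
(mv 845 (cons (fin 781 4 781)
(fin 1102 4 845))))))))))))))))))
(cons (mv 1039 (cons (fin 972 3 972)
(mv 976 (cons (fin 977 2 973)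
(mv 1036 (cons (fin 975 2 972)
(mv 1099 (cons (fin 1100 1 1035)
(mv 1035 (cons (fin 1098 1 1034)
(mv 970 (cons (fin 971 3 970)
(mv 1034 (cons (fin 969 3 969)
(fin 974 2 970)))))))))))))))
(cons (mv 1039 (cons (fin 972 3 972)
(mv 976 (cons (fin 977 2 973)
(mv 975 (cons (fin 1036 2 972)
(mv 912 (cons (mv 848 (cons (fin 784 5 783)
(fin 1103 5 847)))
(mv 974 (cons (fin 913 2 909)
(mv 909 (cons (fin 908 3 908)
(mv 845 (cons (fin 781 4 781)
(fin 1102 4 845)))))))))))))))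
(mv 1039 (cons (fin 972 3 972)
(mv 1101 (cons (fin 1100 1 1036)
(mv 1165 (cons (mv 974 (cons (fin 910 6 909)
(fin 1229 6 973)))
(cons (mv 1228 (cons (fin 1164 5 972)
(mv 1229 (cons (fin 1292 5 1036)
(mv 1293 (cons (fin 1102 6 1037)
(mv 1294 (cons (fin 1230 4 1037)
(fin 1358 4 1101)))))))))
(mv 910 (cons (fin 974 6 909)
(mv 909 (cons (fin 846 6 845)
(mv 844 (cons (fin 908 7 844)
(mv 845 (cons (fin 780 7 780)
(fin 1102 4 845))))))))))))))))))))
(mv 1038 (cons (cons (mv 972 (cons (fin 1039 3 972)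
(mv 908 (cons (cons (mv 844 (cons (fin 780 4 780)
(mv 1101 (cons (fin 909 7 844)
(fin 1165 7 908)))))
(mv 844 (cons (fin 780 4 780)
(mv 1036 (cons (cons (mv 779 (cons (fin 843 7 779)
(mv 781 (cons (fin 845 6 780)
(mv 1035 (cons (fin 1099 5 843)
(mv 974 (cons (fin 975 1 971)
(fin 1034 2 970)))))))))
(mv 779 (cons (fin 843 7 779)
(mv 845 (cons (fin 781 6 780)
(mv 909 (cons (fin 1100 5 844)
(fin 1102 4 845))))))))
(cons (mv 779 (cons (fin 843 7 779)
(mv 1035 (cons (fin 1099 5 843)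
(mv 974 (cons (fin 975 1 971)
(fin 1034 2 970)))))))
(mv 781 (cons (fin 845 6 780)
(mv 1035 (cons (fin 1099 5 843)
(mv 974 (cons (fin 975 1 971)
(fin 1034 2 970)))))))))))))
(cons (mv 1101 (cons (fin 1165 7 908)
(mv 909 (cons (mv 845 (cons (fin 1102 4 845)
(mv 781 (cons (fin 717 5 716)
(fin 1036 5 780)))))
(cons (mv 846 (cons (fin 910 6 845)
(mv 1100 (cons (fin 1164 5 908)
(mv 1099 (cons (fin 1098 2 1034)
(mv 1036 (cons (fin 1163 5 907)
(mv 907 (cons (fin 843 7 843)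
(mv 906 (cons (fin 905 0 905)
(fin 974 0 906)))))))))))))
(mv 845 (cons (fin 1102 4 845)
(mv 781 (cons (fin 717 5 716)
(fin 974 4 781))))))))))
(mv 844 (cons (fin 780 4 780)
(mv 1101 (cons (fin 1165 7 908)
(fin 1036 4 844))))))))))
(cons (mv 909 (cons (cons (mv 845 (cons (fin 1102 4 845)
(mv 780 (cons (fin 844 7 780)
(mv 781 (cons (fin 716 7 716)
(fin 974 4 781)))))))
(mv 1101 (cons (cons (cons (mv 844 (cons (fin 908 7 844)
(mv 846 (cons (fin 910 6 845)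
(mv 1164 (cons (fin 1100 5 908)
(mv 1165 (cons (fin 1228 5 972)
(mv 1229 (cons (fin 974 6 973)
(mv 972 (cons (fin 1036 7 972)
(mv 1293 (cons (fin 1102 6 1037)
(mv 1294 (cons (fin 1230 4 1037)
(fin 1358 4 1101)))))))))))))))))
(mv 844 (cons (fin 908 7 844)
(mv 1164 (cons (fin 1100 5 908)
(mv 1165 (cons (fin 1228 5 972)
(mv 1229 (cons (fin 974 6 973)
(mv 972 (cons (fin 1036 7 972)
(mv 1293 (cons (fin 1102 6 1037)
(mv 1294 (cons (fin 1230 4 1037)
(fin 1358 4 1101))))))))))))))))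
(cons (mv 846 (cons (fin 910 6 845)
(mv 1164 (cons (fin 1100 5 908)
(mv 1165 (cons (fin 1228 5 972)
(mv 1229 (cons (fin 974 6 973)
(mv 972 (cons (fin 1036 7 972)
(mv 1293 (cons (fin 1102 6 1037)
(mv 1294 (cons (fin 1230 4 1037)
(fin 1358 4 1101)))))))))))))))
(mv 844 (cons (fin 908 7 844)
(mv 910 (cons (fin 846 6 845)
(mv 1165 (cons (fin 974 6 909)
(mv 1228 (cons (fin 1164 5 972)
(mv 1229 (cons (fin 1292 5 1036)
(mv 972 (cons (fin 1036 7 972)
(mv 911 (cons (fin 912 1 908)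
(mv 1293 (cons (fin 1102 6 1037)
(mv 1294 (cons (fin 1230 4 1037)
(fin 1358 4 1101)))))))))))))))))))))
(cons (cons (mv 846 (cons (fin 910 6 845)
(mv 908 (cons (fin 844 7 844)
(mv 1165 (cons (fin 972 7 908)
(mv 1229 (cons (fin 974 6 973)
(mv 1228 (cons (fin 1292 5 1036)
(mv 1293 (cons (fin 1102 6 1037)
(mv 1294 (cons (fin 1230 4 1037)
(fin 1358 4 1101)))))))))))))))
(mv 908 (cons (fin 844 7 844)
(mv 910 (cons (fin 846 6 845)
(mv 1100 (cons (fin 1164 5 908)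
(mv 1098 (cons (fin 1099 2 1034)
(mv 975 (cons (mv 974 (cons (fin 976 3 908)
(fin 907 0 907)))
(cons (mv 911 (cons (fin 976 0 908)
(mv 848 (cons (fin 847 2 844)
(mv 912 (cons (fin 972 1 908)
(fin 849 2 845)))))))
(mv 907 (cons (fin 974 0 907)
(mv 842 (cons (fin 843 3 842)
(mv 906 (cons (fin 841 3 841)
(mv 905 (cons (fin 972 0 905)
(mv 969 (cons (fin 968 1 904)
(fin 970 1 905)))))))))))))))))))))))
(cons (mv 846 (cons (fin 910 6 845)
(mv 908 (cons (fin 844 7 844)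
(mv 1164 (cons (fin 1100 5 908)
(mv 1165 (cons (fin 972 7 908)
(fin 1228 5 972)))))))))
(mv 844 (cons (fin 908 7 844)
(mv 846 (cons (fin 910 6 845)
(mv 1164 (cons (fin 1100 5 908)
(mv 1165 (cons (fin 1228 5 972)
(mv 1229 (cons (fin 974 6 973)
(mv 1293 (cons (fin 1102 6 1037)
(mv 1294 (cons (fin 1230 4 1037)
(fin 1358 4 1101))))))))))))))))))))
(cons (mv 845 (cons (mv 780 (cons (fin 844 7 780)
(mv 781 (cons (fin 716 7 716)
(fin 974 4 781)))))
(cons (mv 780 (cons (fin 844 7 780)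
(mv 846 (cons (fin 782 6 781)
(mv 1100 (cons (fin 1036 5 844)
(mv 1101 (cons (fin 1164 5 908)
(fin 910 6 845)))))))))
(mv 781 (cons (fin 974 4 781)
(mv 782 (cons (fin 718 6 717)
(fin 846 6 781))))))))
(cons (mv 845 (cons (fin 1102 4 845)
(mv 781 (cons (fin 974 4 781)
(mv 782 (cons (fin 718 6 717)
(fin 846 6 781)))))))
(mv 845 (cons (fin 1102 4 845)
(mv 780 (cons (fin 844 7 780)
(mv 716 (cons (fin 781 7 716)
(mv 846 (cons (fin 782 6 781)
(mv 1100 (cons (fin 1036 5 844)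
(mv 1101 (cons (fin 1164 5 908)
(fin 910 6 845)))))))))))))))))
(mv 1039 (cons (cons (mv 976 (cons (fin 977 2 973)
(mv 975 (cons (fin 1036 2 972)
(mv 1100 (cons (fin 1101 1 1036)
(mv 1104 (cons (fin 1105 0 1037)
(mv 911 (cons (fin 1168 7 911)
(fin 847 4 847)))))))))))
(mv 1100 (cons (fin 1101 1 1036)
(mv 1036 (cons (fin 1099 1 1035)
(mv 1104 (cons (fin 1103 0 1036)
(fin 1105 0 1037))))))))
(cons (mv 976 (cons (fin 977 2 973)
(mv 975 (cons (fin 1036 2 972)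
(mv 1104 (cons (fin 1105 0 1037)
(mv 911 (cons (fin 1168 7 911)
(fin 847 4 847)))))))))
(cons (mv 976 (cons (fin 977 2 973)
(mv 1036 (cons (fin 975 2 972)
(mv 1100 (cons (fin 1099 1 1035)
(fin 1101 1 1036)))))))
(mv 976 (cons (fin 977 2 973)
(mv 1100 (cons (fin 1101 1 1036)
(mv 1104 (cons (fin 1105 0 1037)
(mv 912 (cons (mv 1103 (cons (fin 848 5 847)
(fin 1167 5 911)))
(cons (mv 847 (cons (fin 911 7 847)
(mv 848 (cons (fin 783 7 783)
(mv 849 (cons (fin 785 6 784)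
(fin 913 6 848)))))))
(mv 847 (cons (fin 911 7 847)
(mv 849 (cons (fin 913 6 848)
(mv 1167 (cons (fin 1103 5 911)
(mv 1168 (cons (fin 1231 5 975)
(mv 1232 (cons (fin 975 7 975)
(mv 1233 (cons (fin 1169 4 976)
(fin 1297 4 1040))))))))))))))))))))))))))))
(cons (mv 1039 (cons (fin 972 3 972)
(mv 976 (cons (fin 977 2 973)
(mv 975 (cons (fin 1036 2 972)
(mv 1104 (cons (fin 1105 0 1037)
(mv 911 (cons (fin 1168 7 911)
(fin 847 4 847)))))))))))
(cons (mv 1039 (cons (fin 972 3 972)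
(mv 976 (cons (fin 977 2 973)
(mv 1100 (cons (fin 1101 1 1036)
(mv 1104 (cons (fin 1105 0 1037)
(mv 912 (cons (mv 1103 (cons (fin 848 5 847)
(fin 1167 5 911)))
(cons (mv 847 (cons (fin 911 7 847)
(mv 848 (cons (fin 783 7 783)
(mv 849 (cons (fin 785 6 784)
(fin 913 6 848)))))))
(mv 847 (cons (fin 911 7 847)
(mv 849 (cons (fin 913 6 848)
(mv 1167 (cons (fin 1103 5 911)
(mv 1168 (cons (fin 1231 5 975)
(mv 1232 (cons (fin 975 7 975)
(mv 1233 (cons (fin 1169 4 976)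
(fin 1297 4 1040))))))))))))))))))))))))
(mv 1039 (cons (fin 972 3 972)
(mv 976 (cons (fin 977 2 973)
(mv 1100 (cons (fin 1101 1 1036)
(mv 1036 (cons (fin 1099 1 1035)
(mv 1104 (cons (fin 1103 0 1036)
(fin 1105 0 1037)))))))))))))))))
(cons (cons (mv 1038 (cons (cons (mv 1039 (cons (fin 972 3 972)
(mv 976 (cons (fin 977 2 973)
(mv 975 (cons (fin 1036 2 972)
(mv 1100 (cons (fin 1101 1 1036)
(mv 1104 (cons (fin 1105 0 1037)
(mv 911 (cons (fin 1168 7 911)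
(fin 847 4 847)))))))))))))
(cons (mv 909 (cons (cons (mv 845 (cons (fin 1102 4 845)
(mv 780 (cons (fin 844 7 780)
(mv 781 (cons (fin 716 7 716)
(fin 974 4 781)))))))
(mv 1101 (cons (cons (cons (mv 844 (cons (fin 908 7 844)
(mv 846 (cons (fin 910 6 845)
(mv 1164 (cons (fin 1100 5 908)
(mv 1165 (cons (fin 1228 5 972)
(mv 1229 (cons (fin 974 6 973)
(mv 972 (cons (fin 1036 7 972)
(mv 970 (cons (fin 971 0 970)
(mv 1293 (cons (fin 1102 6 1037)
(mv 1294 (cons (fin 1230 4 1037)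
(fin 1358 4 1101)))))))))))))))))))
(mv 844 (cons (fin 908 7 844)
(mv 1164 (cons (fin 1100 5 908)
(mv 1165 (cons (fin 1228 5 972)
(mv 1229 (cons (fin 974 6 973)
(mv 972 (cons (fin 1036 7 972)
(mv 970 (cons (fin 971 0 970)
(mv 1293 (cons (fin 1102 6 1037)
(mv 1294 (cons (fin 1230 4 1037)
(fin 1358 4 1101))))))))))))))))))
(cons (mv 846 (cons (fin 910 6 845)
(mv 1164 (cons (fin 1100 5 908)
(mv 1165 (cons (fin 1228 5 972)
(mv 1229 (cons (fin 974 6 973)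
(mv 972 (cons (fin 1036 7 972)
(mv 970 (cons (fin 971 0 970)
(mv 1293 (cons (fin 1102 6 1037)
(mv 1294 (cons (fin 1230 4 1037)
(fin 1358 4 1101)))))))))))))))))
(mv 844 (cons (fin 908 7 844)
(mv 910 (cons (fin 846 6 845)
(mv 1165 (cons (fin 974 6 909)
(mv 1228 (cons (fin 1164 5 972)
(mv 1229 (cons (fin 1292 5 1036)
(mv 972 (cons (fin 1036 7 972)
(mv 970 (cons (fin 971 2 906)
(mv 1293 (cons (fin 1102 6 1037)
(mv 1294 (cons (fin 1230 4 1037)
(fin 1358 4 1101)))))))))))))))))))))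
(cons (cons (mv 846 (cons (fin 910 6 845)
(mv 908 (cons (fin 844 7 844)
(mv 1165 (cons (fin 972 7 908)
(mv 1229 (cons (fin 974 6 973)
(mv 1228 (cons (fin 1292 5 1036)
(mv 1293 (cons (fin 1102 6 1037)
(mv 1294 (cons (fin 1230 4 1037)
(fin 1358 4 1101)))))))))))))))
(mv 908 (cons (fin 844 7 844)
(mv 910 (cons (fin 846 6 845)
(mv 1100 (cons (fin 1164 5 908)
(mv 1098 (cons (fin 1099 2 1034)
(mv 907 (cons (mv 974 (cons (fin 906 0 906)
(fin 975 0 907)))
(cons (mv 842 (cons (fin 843 3 842)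
(mv 906 (cons (fin 841 3 841)
(mv 970 (cons (fin 969 1 905)
(fin 971 1 906)))))))
(mv 842 (cons (fin 843 3 842)
(mv 971 (cons (fin 970 1 906)
(mv 911 (cons (fin 972 1 907)
(mv 975 (cons (fin 974 0 907)
(fin 976 0 908)))))))))))))))))))))
(cons (mv 846 (cons (fin 910 6 845)
(mv 908 (cons (fin 844 7 844)
(mv 972 (cons (fin 1165 7 908)
(mv 970 (cons (fin 971 0 970)
(mv 1100 (cons (fin 1164 5 908)
(mv 1099 (cons (fin 1098 2 1034)
(mv 1036 (cons (fin 1163 5 907)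
(mv 907 (cons (fin 843 7 843)
(mv 906 (cons (fin 969 1 905)
(fin 905 0 905)))))))))))))))))))
(mv 844 (cons (fin 908 7 844)
(mv 846 (cons (fin 910 6 845)
(mv 1164 (cons (fin 1100 5 908)
(mv 1165 (cons (fin 1228 5 972)
(mv 1229 (cons (fin 974 6 973)
(mv 1293 (cons (fin 1102 6 1037)
(mv 1294 (cons (fin 1230 4 1037)
(fin 1358 4 1101))))))))))))))))))))
(cons (mv 845 (cons (mv 780 (cons (fin 844 7 780)
(mv 781 (cons (fin 716 7 716)
(fin 974 4 781)))))
(cons (mv 780 (cons (fin 844 7 780)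
(mv 846 (cons (fin 782 6 781)
(mv 1100 (cons (fin 1036 5 844)
(mv 1101 (cons (fin 1164 5 908)
(fin 910 6 845)))))))))
(mv 781 (cons (fin 974 4 781)
(mv 782 (cons (fin 718 6 717)
(fin 846 6 781))))))))
(cons (mv 845 (cons (fin 1102 4 845)
(mv 781 (cons (fin 974 4 781)
(mv 782 (cons (fin 718 6 717)
(fin 846 6 781)))))))
(mv 845 (cons (fin 1102 4 845)
(mv 780 (cons (fin 844 7 780)
(mv 716 (cons (fin 781 7 716)
(mv 846 (cons (fin 782 6 781)
(mv 1100 (cons (fin 1036 5 844)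
(mv 1101 (cons (fin 1164 5 908)
(fin 910 6 845)))))))))))))))))
(mv 1039 (cons (cons (mv 976 (cons (fin 977 2 973)
(mv 975 (cons (fin 1036 2 972)
(mv 1100 (cons (fin 1101 1 1036)
(mv 1104 (cons (fin 1105 0 1037)
(mv 911 (cons (fin 1168 7 911)
(fin 847 4 847)))))))))))
(mv 976 (cons (fin 977 2 973)
(mv 975 (cons (fin 1036 2 972)
(mv 1104 (cons (fin 1105 0 1037)
(mv 911 (cons (fin 1168 7 911)
(fin 847 4 847))))))))))
(cons (mv 976 (cons (fin 977 2 973)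
(mv 1036 (cons (fin 975 2 972)
(mv 1100 (cons (fin 1099 1 1035)
(fin 1101 1 1036)))))))
(cons (mv 1100 (cons (fin 1101 1 1036)
(mv 1036 (cons (fin 1099 1 1035)
(mv 1104 (cons (fin 1103 0 1036)
(fin 1105 0 1037)))))))
(mv 976 (cons (fin 977 2 973)
(mv 1101 (cons (fin 1100 1 1036)
(mv 1104 (cons (fin 1105 0 1037)
(mv 1168 (cons (mv 975 (cons (fin 911 7 911)
(fin 1232 7 975)))
(mv 1167 (cons (fin 1231 5 975)
(mv 1169 (cons (fin 1233 4 976)
(mv 1102 (cons (fin 1103 0 1101)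
(mv 909 (cons (fin 845 4 845)
(mv 844 (cons (fin 908 7 844)
(mv 910 (cons (fin 846 6 845)
(mv 1165 (cons (fin 974 5 909)
(mv 1228 (cons (fin 1164 5 972)
(mv 1229 (cons (fin 1292 5 1036)
(fin 1293 6 1037)))))))))))))))))))))))))))))))))
(cons (mv 1039 (cons (fin 972 3 972)
(mv 976 (cons (fin 977 2 973)
(mv 975 (cons (fin 1036 2 972)
(mv 1104 (cons (fin 1105 0 1037)
(mv 911 (cons (fin 1168 7 911)
(fin 847 4 847)))))))))))
(cons (mv 1039 (cons (fin 972 3 972)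
(mv 1100 (cons (fin 1101 1 1036)
(mv 1036 (cons (fin 1099 1 1035)
(mv 1104 (cons (fin 1103 0 1036)
(fin 1105 0 1037)))))))))
(mv 1039 (cons (fin 972 3 972)
(mv 976 (cons (fin 977 2 973)
(mv 1101 (cons (fin 1100 1 1036)
(mv 1104 (cons (fin 1105 0 1037)
(mv 1168 (cons (mv 975 (cons (fin 911 7 911)
(fin 1232 7 975)))
(mv 1167 (cons (fin 1231 5 975)
(mv 1169 (cons (fin 1233 4 976)
(mv 1102 (cons (fin 1103 0 1101)
(mv 909 (cons (fin 845 4 845)
(mv 844 (cons (fin 908 7 844)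
(mv 910 (cons (fin 846 6 845)
(mv 1165 (cons (fin 974 5 909)
(mv 1228 (cons (fin 1164 5 972)
(mv 1229 (cons (fin 1292 5 1036)
(fin 1293 6 1037)))))))))))))))))))))))))))))))))
(mv 1038 (cons (cons (cons (mv 1039 (cons (fin 972 3 972)
(mv 976 (cons (fin 977 2 973)
(mv 975 (cons (fin 1036 2 972)
(mv 1100 (cons (fin 1101 1 1036)
(mv 1104 (cons (fin 1105 0 1037)
(mv 1168 (cons (fin 1232 7 975)
(mv 1167 (cons (fin 1231 5 975)
(mv 912 (cons (fin 1103 5 911)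
(mv 913 (cons (fin 974 2 909)
(fin 849 6 848)))))))))))))))))))
(mv 909 (cons (cons (mv 845 (cons (fin 1102 4 845)
(mv 780 (cons (fin 844 7 780)
(mv 781 (cons (fin 716 7 716)
(fin 974 4 781)))))))
(mv 1101 (cons (cons (mv 844 (cons (fin 908 7 844)
(mv 846 (cons (fin 910 6 845)
(mv 1164 (cons (fin 1100 5 908)
(mv 1165 (cons (fin 1228 5 972)
(mv 1229 (cons (fin 974 6 973)
(mv 972 (cons (fin 1036 7 972)
(mv 970 (cons (fin 971 0 970)
(mv 1293 (cons (fin 1102 6 1037)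
(mv 1294 (cons (fin 1230 4 1037)
(fin 1358 4 1101)))))))))))))))))))
(cons (mv 844 (cons (fin 908 7 844)
(mv 1164 (cons (fin 1100 5 908)
(mv 1165 (cons (fin 1228 5 972)
(mv 1229 (cons (fin 974 6 973)
(mv 972 (cons (fin 1036 7 972)
(mv 970 (cons (fin 971 0 970)
(mv 1293 (cons (fin 1102 6 1037)
(mv 1294 (cons (fin 1230 4 1037)
(fin 1358 4 1101)))))))))))))))))
(mv 846 (cons (fin 910 6 845)
(mv 1164 (cons (fin 1100 5 908)
(mv 1165 (cons (fin 1228 5 972)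
(mv 1229 (cons (fin 974 6 973)
(mv 972 (cons (fin 1036 7 972)
(mv 970 (cons (fin 971 0 970)
(mv 1293 (cons (fin 1102 6 1037)
(mv 1294 (cons (fin 1230 4 1037)
(fin 1358 4 1101)))))))))))))))))))
(cons (cons (mv 844 (cons (fin 908 7 844)
(mv 910 (cons (fin 846 6 845)
(mv 1165 (cons (fin 974 6 909)
(mv 1228 (cons (fin 1164 5 972)
(mv 1229 (cons (fin 1292 5 1036)
(mv 972 (cons (fin 1036 7 972)
(mv 970 (cons (fin 971 2 906)
(mv 1293 (cons (fin 1102 6 1037)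
(mv 1294 (cons (fin 1230 4 1037)
(fin 1358 4 1101)))))))))))))))))))
(mv 846 (cons (fin 910 6 845)
(mv 908 (cons (fin 844 7 844)
(mv 1165 (cons (fin 972 7 908)
(mv 1229 (cons (fin 974 6 973)
(mv 1228 (cons (fin 1292 5 1036)
(mv 1293 (cons (fin 1102 6 1037)
(mv 1294 (cons (fin 1230 4 1037)
(fin 1358 4 1101))))))))))))))))
(cons (mv 908 (cons (fin 844 7 844)
(mv 910 (cons (fin 846 6 845)
(mv 1100 (cons (fin 1164 5 908)
(mv 1098 (cons (fin 1099 2 1034)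
(mv 907 (cons (mv 974 (cons (fin 906 0 906)
(fin 975 0 907)))
(cons (mv 842 (cons (fin 843 3 842)
(mv 906 (cons (fin 841 3 841)
(mv 970 (cons (fin 969 1 905)
(fin 971 1 906)))))))
(mv 843 (cons (fin 842 3 842)
(mv 971 (cons (fin 970 1 906)
(mv 1035 (cons (fin 1034 5 842)
(fin 1036 4 843))))))))))))))))))
(mv 846 (cons (fin 910 6 845)
(mv 908 (cons (fin 844 7 844)
(mv 972 (cons (fin 1165 7 908)
(mv 970 (cons (fin 971 0 970)
(mv 1100 (cons (fin 1164 5 908)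
(mv 1099 (cons (fin 1098 2 1034)
(mv 1036 (cons (fin 1163 5 907)
(mv 907 (cons (fin 843 7 843)
(mv 906 (cons (fin 969 1 905)
(fin 905 0 905))))))))))))))))))))))))
(cons (mv 845 (cons (mv 780 (cons (fin 844 7 780)
(mv 781 (cons (fin 716 7 716)
(fin 974 4 781)))))
(cons (mv 780 (cons (fin 844 7 780)
(mv 846 (cons (fin 782 6 781)
(mv 1100 (cons (fin 1036 5 844)
(mv 1101 (cons (fin 1164 5 908)
(fin 910 6 845)))))))))
(mv 781 (cons (fin 974 4 781)
(mv 782 (cons (fin 718 6 717)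
(fin 846 6 781))))))))
(cons (mv 845 (cons (fin 1102 4 845)
(mv 781 (cons (fin 974 4 781)
(mv 782 (cons (fin 718 6 717)
(fin 846 6 781)))))))
(mv 845 (cons (fin 1102 4 845)
(mv 780 (cons (fin 844 7 780)
(mv 716 (cons (fin 781 7 716)
(mv 846 (cons (fin 782 6 781)
(mv 1100 (cons (fin 1036 5 844)
(mv 1101 (cons (fin 1164 5 908)
(fin 910 6 845))))))))))))))))))
(cons (mv 1039 (cons (cons (mv 976 (cons (fin 977 2 973)
(mv 975 (cons (fin 1036 2 972)
(mv 1100 (cons (fin 1101 1 1036)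
(mv 1104 (cons (fin 1105 0 1037)
(mv 1168 (cons (fin 1232 7 975)
(mv 1167 (cons (fin 1231 5 975)
(mv 912 (cons (fin 1103 5 911)
(mv 913 (cons (fin 974 2 909)
(fin 849 6 848)))))))))))))))))
(mv 1100 (cons (fin 1101 1 1036)
(mv 1036 (cons (fin 1099 1 1035)
(mv 1104 (cons (fin 1103 0 1036)
(fin 1105 0 1037))))))))
(cons (mv 976 (cons (fin 977 2 973)
(mv 975 (cons (fin 1036 2 972)
(mv 1104 (cons (fin 1105 0 1037)
(mv 1168 (cons (fin 1232 7 975)
(mv 1167 (cons (fin 1231 5 975)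
(mv 912 (cons (fin 1103 5 911)
(mv 913 (cons (fin 974 2 909)
(fin 849 6 848)))))))))))))))
(cons (mv 976 (cons (fin 977 2 973)
(mv 1036 (cons (fin 975 2 972)
(mv 1100 (cons (fin 1099 1 1035)
(fin 1101 1 1036)))))))
(mv 976 (cons (fin 977 2 973)
(mv 1100 (cons (fin 1101 1 1036)
(mv 1104 (cons (fin 1105 0 1037)
(mv 912 (cons (mv 1103 (cons (fin 848 5 847)
(fin 1167 5 911)))
(cons (mv 849 (cons (fin 913 6 848)
(mv 848 (cons (fin 785 6 784)
(mv 783 (cons (fin 847 7 783)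
(mv 784 (cons (fin 719 7 719)
(fin 975 5 783)))))))))
(mv 849 (cons (fin 913 6 848)
(mv 1167 (cons (fin 1103 5 911)
(mv 1168 (cons (fin 1231 5 975)
(mv 1232 (cons (fin 975 7 975)
(mv 1233 (cons (fin 1169 4 976)
(fin 1297 4 1040))))))))))))))))))))))))
(mv 972 (cons (fin 1039 3 972)
(mv 971 (cons (fin 970 0 970)
(mv 974 (cons (cons (mv 906 (cons (fin 907 3 906)
(mv 1035 (cons (fin 1034 1 970)
(mv 975 (cons (fin 1036 1 971)
(mv 976 (cons (fin 977 1 973)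
(mv 909 (cons (fin 908 3 908)
(mv 845 (cons (fin 781 4 781)
(fin 1102 4 845)))))))))))))
(cons (mv 907 (cons (fin 906 3 906)
(mv 975 (cons (fin 908 3 907)
(mv 976 (cons (fin 1036 1 972)
(fin 977 1 973)))))))
(mv 1035 (cons (fin 1034 1 970)
(mv 975 (cons (fin 1036 1 971)
(mv 976 (cons (fin 977 1 973)
(mv 909 (cons (fin 908 3 908)
(mv 845 (cons (fin 781 4 781)
(fin 1102 4 845)))))))))))))
(cons (mv 907 (cons (fin 906 3 906)
(mv 1035 (cons (fin 1034 1 970)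
(mv 1036 (cons (mv 843 (cons (fin 779 4 779)
(fin 1100 4 843)))
(cons (mv 779 (cons (fin 843 4 779)
(mv 1099 (cons (fin 1098 1 1034)
(mv 908 (cons (fin 844 5 843)
(fin 1163 6 907)))))))
(mv 1099 (cons (fin 1098 1 1034)
(mv 908 (cons (fin 844 5 843)
(fin 1163 6 907))))))))))))
(cons (mv 907 (cons (fin 906 3 906)
(mv 908 (cons (fin 975 3 907)
(mv 844 (cons (fin 780 4 780)
(mv 1035 (cons (fin 1034 1 970)
(fin 1099 6 843)))))))))
(mv 906 (cons (fin 907 3 906)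
(mv 1035 (cons (fin 1034 1 970)
(mv 1036 (cons (fin 975 1 971)
(mv 1099 (cons (fin 1098 1 1034)
(mv 1102 (cons (fin 1103 0 1035)
(mv 909 (cons (fin 845 4 845)
(mv 1163 (cons (fin 1227 6 971)
(mv 1164 (cons (fin 1100 6 908)
(fin 1228 4 971)))))))))))))))))))))))))))
(cons (cons (mv 1039 (cons (fin 972 3 972)
(mv 976 (cons (fin 977 2 973)
(mv 975 (cons (fin 1036 2 972)
(mv 1104 (cons (fin 1105 0 1037)
(mv 1168 (cons (fin 1232 7 975)
(mv 1167 (cons (fin 1231 5 975)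
(mv 912 (cons (fin 1103 5 911)
(mv 913 (cons (fin 974 2 909)
(fin 849 6 848)))))))))))))))))
(mv 972 (cons (fin 1039 3 972)
(mv 971 (cons (fin 970 0 970)
(mv 908 (cons (cons (mv 844 (cons (fin 780 4 780)
(mv 1101 (cons (fin 909 7 844)
(fin 1165 7 908)))))
(mv 1101 (cons (fin 1165 7 908)
(mv 974 (cons (mv 907 (cons (fin 906 3 906)
(fin 975 3 907)))
(mv 846 (cons (fin 910 5 845)
(mv 1035 (cons (fin 1034 1 970)
(mv 1099 (cons (fin 1163 6 907)
(mv 1100 (cons (fin 1098 2 1034)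
(mv 909 (cons (fin 1164 5 908)
(mv 845 (cons (fin 782 6 781)
(fin 781 4 781))))))))))))))))))
(cons (mv 780 (cons (fin 844 4 780)
(mv 907 (cons (mv 906 (cons (fin 974 3 906)
(fin 905 0 905)))
(cons (mv 974 (cons (fin 975 3 907)
(mv 1035 (cons (fin 1034 1 970)
(mv 1099 (cons (fin 1163 6 907)
(mv 1098 (cons (fin 1162 5 906)
(mv 1100 (cons (fin 1164 4 907)
(mv 843 (cons (mv 779 (cons (fin 716 6 715)
(fin 715 4 715)))
(mv 842 (cons (fin 778 7 778)
(mv 840 (cons (fin 841 0 840)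
(mv 909 (cons (fin 910 3 842)
(mv 845 (cons (fin 781 4 781)
(fin 1102 4 845)))))))))))))))))))))
(mv 906 (cons (fin 905 0 905)
(mv 909 (cons (mv 845 (cons (fin 846 2 842)
(fin 1102 4 845)))
(mv 842 (cons (fin 841 3 841)
(mv 714 (cons (fin 778 4 714)
(mv 843 (cons (fin 910 3 842)
(mv 779 (cons (fin 716 6 715)
(fin 715 4 715))))))))))))))))))
(mv 780 (cons (fin 844 4 780)
(mv 1101 (cons (fin 1165 7 908)
(mv 1035 (cons (mv 974 (cons (fin 1034 1 970)
(mv 907 (cons (fin 906 3 906)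
(fin 975 3 907)))))
(cons (mv 1099 (cons (fin 1163 6 907)
(mv 1098 (cons (fin 1100 2 1034)
(mv 907 (cons (fin 1162 5 906)
(mv 906 (cons (fin 905 0 905)
(fin 842 7 842)))))))))
(mv 1034 (cons (fin 974 1 970)
(mv 1032 (cons (fin 1033 2 968)
(mv 1099 (cons (fin 1163 6 907)
(mv 1100 (cons (fin 1102 3 1034)
(fin 1098 2 1034))))))))))))))))))))))))
(cons (mv 1039 (cons (fin 972 3 972)
(mv 976 (cons (fin 977 2 973)
(mv 975 (cons (fin 1036 2 972)
(mv 1100 (cons (fin 1101 1 1036)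
(mv 1104 (cons (fin 1105 0 1037)
(mv 1168 (cons (fin 1232 7 975)
(mv 1167 (cons (fin 1231 5 975)
(mv 912 (cons (fin 1103 5 911)
(mv 848 (cons (fin 784 5 783)
(mv 849 (cons (fin 785 6 784)
(fin 913 6 848)))))))))))))))))))))
(mv 1039 (cons (fin 972 3 972)
(mv 976 (cons (fin 977 2 973)
(mv 1100 (cons (fin 1101 1 1036)
(mv 1036 (cons (fin 1099 1 1035)
(mv 1104 (cons (fin 1103 0 1036)
(fin 1105 0 1037))))))))))))))))
(cons (mv 1038 (cons (cons (mv 1039 (cons (fin 972 3 972)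
(mv 976 (cons (fin 977 2 973)
(mv 975 (cons (fin 1036 2 972)
(mv 1100 (cons (fin 1101 1 1036)
(mv 1104 (cons (fin 1105 0 1037)
(mv 1168 (cons (fin 911 7 911)
(fin 1232 7 975)))))))))))))
(cons (mv 909 (cons (cons (mv 845 (cons (fin 1102 4 845)
(mv 780 (cons (fin 844 7 780)
(mv 781 (cons (fin 716 7 716)
(fin 974 4 781)))))))
(mv 1101 (cons (cons (cons (mv 844 (cons (fin 908 7 844)
(mv 846 (cons (fin 910 6 845)
(mv 1164 (cons (fin 1100 5 908)
(mv 1165 (cons (fin 1228 5 972)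
(mv 1229 (cons (fin 974 6 973)
(mv 972 (cons (fin 1036 7 972)
(mv 970 (cons (fin 971 0 970)
(mv 1293 (cons (fin 1102 6 1037)
(mv 1294 (cons (fin 1230 4 1037)
(fin 1358 4 1101)))))))))))))))))))
(mv 844 (cons (fin 908 7 844)
(mv 1164 (cons (fin 1100 5 908)
(mv 1165 (cons (fin 1228 5 972)
(mv 1229 (cons (fin 974 6 973)
(mv 972 (cons (fin 1036 7 972)
(mv 970 (cons (fin 971 0 970)
(mv 1293 (cons (fin 1102 6 1037)
(mv 1294 (cons (fin 1230 4 1037)
(fin 1358 4 1101))))))))))))))))))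
(cons (mv 846 (cons (fin 910 6 845)
(mv 1164 (cons (fin 1100 5 908)
(mv 1165 (cons (fin 1228 5 972)
(mv 1229 (cons (fin 974 6 973)
(mv 972 (cons (fin 1036 7 972)
(mv 970 (cons (fin 971 0 970)
(mv 1293 (cons (fin 1102 6 1037)
(mv 1294 (cons (fin 1230 4 1037)
(fin 1358 4 1101)))))))))))))))))
(mv 844 (cons (fin 908 7 844)
(mv 910 (cons (fin 846 6 845)
(mv 1165 (cons (fin 974 6 909)
(mv 1228 (cons (fin 1164 5 972)
(mv 1229 (cons (fin 1292 5 1036)
(mv 972 (cons (fin 1036 7 972)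
(mv 911 (cons (fin 912 1 908)
(mv 970 (cons (fin 971 2 906)
(mv 1293 (cons (fin 1102 6 1037)
(mv 1294 (cons (fin 1230 4 1037)
(fin 1358 4 1101)))))))))))))))))))))))
(cons (cons (mv 846 (cons (fin 910 6 845)
(mv 908 (cons (fin 844 7 844)
(mv 1165 (cons (fin 972 7 908)
(mv 1229 (cons (fin 974 6 973)
(mv 1228 (cons (fin 1292 5 1036)
(mv 1293 (cons (fin 1102 6 1037)
(mv 1294 (cons (fin 1230 4 1037)
(fin 1358 4 1101)))))))))))))))
(mv 908 (cons (fin 844 7 844)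
(mv 910 (cons (fin 846 6 845)
(mv 1100 (cons (fin 1164 5 908)
(mv 1098 (cons (fin 1099 2 1034)
(mv 907 (cons (cons (mv 974 (cons (fin 906 0 906)
(fin 975 0 907)))
(mv 842 (cons (fin 843 3 842)
(mv 841 (cons (fin 906 3 841)
(mv 971 (cons (fin 970 1 906)
(mv 911 (cons (fin 972 1 907)
(mv 976 (cons (fin 975 0 908)
(mv 912 (cons (fin 977 0 909)
(mv 849 (cons (fin 848 2 845)
(mv 913 (cons (fin 850 2 846)
(fin 1104 6 848))))))))))))))))))
(cons (mv 842 (cons (fin 843 3 842)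
(mv 971 (cons (fin 970 1 906)
(mv 911 (cons (fin 972 1 907)
(mv 975 (cons (fin 974 0 907)
(fin 976 0 908)))))))))
(mv 842 (cons (fin 843 3 842)
(mv 906 (cons (fin 841 3 841)
(fin 974 0 906)))))))))))))))))
(cons (mv 846 (cons (fin 910 6 845)
(mv 908 (cons (fin 844 7 844)
(mv 972 (cons (fin 1165 7 908)
(mv 970 (cons (fin 971 0 970)
(mv 1100 (cons (fin 1164 5 908)
(mv 1099 (cons (fin 1098 2 1034)
(mv 1036 (cons (fin 1163 5 907)
(mv 907 (cons (fin 843 7 843)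
(mv 906 (cons (fin 969 1 905)
(fin 905 0 905)))))))))))))))))))
(mv 844 (cons (fin 908 7 844)
(mv 846 (cons (fin 910 6 845)
(mv 1164 (cons (fin 1100 5 908)
(mv 1165 (cons (fin 1228 5 972)
(mv 1229 (cons (fin 974 6 973)
(mv 1293 (cons (fin 1102 6 1037)
(mv 1294 (cons (fin 1230 4 1037)
(fin 1358 4 1101))))))))))))))))))))
(cons (mv 845 (cons (mv 780 (cons (fin 844 7 780)
(mv 781 (cons (fin 716 7 716)
(fin 974 4 781)))))
(cons (mv 780 (cons (fin 844 7 780)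
(mv 846 (cons (fin 782 6 781)
(mv 1100 (cons (fin 1036 5 844)
(mv 1101 (cons (fin 1164 5 908)
(fin 910 6 845)))))))))
(mv 781 (cons (fin 974 4 781)
(mv 782 (cons (fin 718 6 717)
(fin 846 6 781))))))))
(cons (mv 845 (cons (fin 1102 4 845)
(mv 781 (cons (fin 974 4 781)
(mv 782 (cons (fin 718 6 717)
(fin 846 6 781)))))))
(mv 845 (cons (fin 1102 4 845)
(mv 780 (cons (fin 844 7 780)
(mv 716 (cons (fin 781 7 716)
(mv 846 (cons (fin 782 6 781)
(mv 1100 (cons (fin 1036 5 844)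
(mv 1101 (cons (fin 1164 5 908)
(fin 910 6 845)))))))))))))))))
(mv 1039 (cons (cons (mv 976 (cons (fin 977 2 973)
(mv 975 (cons (fin 1036 2 972)
(mv 1100 (cons (fin 1101 1 1036)
(mv 1104 (cons (fin 1105 0 1037)
(mv 1168 (cons (fin 911 7 911)
(fin 1232 7 975)))))))))))
(mv 1100 (cons (fin 1101 1 1036)
(mv 1036 (cons (fin 1099 1 1035)
(mv 1104 (cons (fin 1103 0 1036)
(fin 1105 0 1037))))))))
(cons (mv 976 (cons (fin 977 2 973)
(mv 975 (cons (fin 1036 2 972)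
(mv 1104 (cons (fin 1105 0 1037)
(mv 1168 (cons (fin 911 7 911)
(fin 1232 7 975)))))))))
(cons (mv 976 (cons (fin 977 2 973)
(mv 1036 (cons (fin 975 2 972)
(mv 1100 (cons (fin 1099 1 1035)
(fin 1101 1 1036)))))))
(mv 976 (cons (fin 977 2 973)
(mv 1100 (cons (fin 1101 1 1036)
(mv 1104 (cons (fin 1105 0 1037)
(mv 1168 (cons (mv 975 (cons (fin 911 7 911)
(fin 1232 7 975)))
(mv 1167 (cons (fin 1231 5 975)
(mv 1103 (cons (fin 912 5 911)
(mv 1169 (cons (fin 1233 4 976)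
(mv 1170 (cons (fin 1102 3 1102)
(fin 1171 3 1103)))))))))))))))))))))))
(cons (cons (mv 1039 (cons (fin 972 3 972)
(mv 976 (cons (fin 977 2 973)
(mv 975 (cons (fin 1036 2 972)
(mv 1104 (cons (fin 1105 0 1037)
(mv 1168 (cons (fin 911 7 911)
(fin 1232 7 975)))))))))))
(mv 1039 (cons (fin 972 3 972)
(mv 1100 (cons (fin 1101 1 1036)
(mv 1036 (cons (fin 1099 1 1035)
(mv 1104 (cons (fin 1103 0 1036)
(fin 1105 0 1037))))))))))
(cons (mv 1039 (cons (fin 972 3 972)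
(mv 976 (cons (fin 977 2 973)
(mv 1036 (cons (fin 975 2 972)
(mv 1100 (cons (fin 1099 1 1035)
(fin 1101 1 1036)))))))))
(mv 1039 (cons (fin 972 3 972)
(mv 976 (cons (fin 977 2 973)
(mv 1100 (cons (fin 1101 1 1036)
(mv 1104 (cons (fin 1105 0 1037)
(mv 1168 (cons (mv 975 (cons (fin 911 7 911)
(fin 1232 7 975)))
(mv 1167 (cons (fin 1231 5 975)
(mv 1103 (cons (fin 912 5 911)
(mv 1169 (cons (fin 1233 4 976)
(mv 1170 (cons (fin 1102 3 1102)
(fin 1171 3 1103)))))))))))))))))))))))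
(mv 1038 (cons (cons (mv 1039 (cons (fin 972 3 972)
(mv 976 (cons (fin 977 2 973)
(mv 975 (cons (fin 1036 2 972)
(mv 1100 (cons (fin 1101 1 1036)
(mv 1104 (cons (fin 1105 0 1037)
(mv 911 (cons (fin 1168 7 911)
(fin 847 4 847)))))))))))))
(cons (mv 909 (cons (cons (mv 845 (cons (fin 1102 4 845)
(mv 780 (cons (fin 844 7 780)
(mv 781 (cons (fin 716 7 716)
(fin 974 4 781)))))))
(mv 1101 (cons (cons (cons (mv 844 (cons (fin 908 7 844)
(mv 846 (cons (fin 910 6 845)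
(mv 1164 (cons (fin 1100 5 908)
(mv 1165 (cons (fin 1228 5 972)
(mv 1229 (cons (fin 974 6 973)
(mv 972 (cons (fin 1036 7 972)
(mv 970 (cons (fin 971 0 970)
(mv 1293 (cons (fin 1102 6 1037)
(mv 1294 (cons (fin 1230 4 1037)
(fin 1358 4 1101)))))))))))))))))))
(mv 844 (cons (fin 908 7 844)
(mv 1164 (cons (fin 1100 5 908)
(mv 1165 (cons (fin 1228 5 972)
(mv 1229 (cons (fin 974 6 973)
(mv 972 (cons (fin 1036 7 972)
(mv 970 (cons (fin 971 0 970)
(mv 1293 (cons (fin 1102 6 1037)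
(mv 1294 (cons (fin 1230 4 1037)
(fin 1358 4 1101))))))))))))))))))
(cons (mv 846 (cons (fin 910 6 845)
(mv 1164 (cons (fin 1100 5 908)
(mv 1165 (cons (fin 1228 5 972)
(mv 1229 (cons (fin 974 6 973)
(mv 972 (cons (fin 1036 7 972)
(mv 970 (cons (fin 971 0 970)
(mv 1293 (cons (fin 1102 6 1037)
(mv 1294 (cons (fin 1230 4 1037)
(fin 1358 4 1101)))))))))))))))))
(mv 844 (cons (fin 908 7 844)
(mv 910 (cons (fin 846 6 845)
(mv 1165 (cons (fin 974 6 909)
(mv 1228 (cons (fin 1164 5 972)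
(mv 1229 (cons (fin 1292 5 1036)
(mv 972 (cons (fin 1036 7 972)
(mv 911 (cons (fin 912 1 908)
(mv 970 (cons (fin 971 2 906)
(mv 1293 (cons (fin 1102 6 1037)
(mv 1294 (cons (fin 1230 4 1037)
(fin 1358 4 1101)))))))))))))))))))))))
(cons (cons (mv 846 (cons (fin 910 6 845)
(mv 908 (cons (fin 844 7 844)
(mv 1165 (cons (fin 972 7 908)
(mv 1229 (cons (fin 974 6 973)
(mv 1228 (cons (fin 1292 5 1036)
(mv 1293 (cons (fin 1102 6 1037)
(mv 1294 (cons (fin 1230 4 1037)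
(fin 1358 4 1101)))))))))))))))
(mv 908 (cons (fin 844 7 844)
(mv 910 (cons (fin 846 6 845)
(mv 1100 (cons (fin 1164 5 908)
(mv 1098 (cons (fin 1099 2 1034)
(mv 911 (cons (mv 972 (cons (fin 971 1 907)
(fin 912 1 908)))
(mv 847 (cons (fin 848 2 844)
(mv 974 (cons (fin 1102 6 846)
(mv 783 (cons (fin 719 5 718)
(fin 975 5 782))))))))))))))))))
(cons (mv 846 (cons (fin 910 6 845)
(mv 908 (cons (fin 844 7 844)
(mv 972 (cons (fin 1165 7 908)
(mv 971 (cons (fin 970 0 970)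
(mv 1100 (cons (fin 1164 5 908)
(mv 1099 (cons (fin 1098 2 1034)
(mv 1163 (cons (fin 1036 5 907)
(fin 1035 6 907)))))))))))))))
(mv 844 (cons (fin 908 7 844)
(mv 846 (cons (fin 910 6 845)
(mv 1164 (cons (fin 1100 5 908)
(mv 1165 (cons (fin 1228 5 972)
(mv 1229 (cons (fin 974 6 973)
(mv 1293 (cons (fin 1102 6 1037)
(mv 1294 (cons (fin 1230 4 1037)
(fin 1358 4 1101))))))))))))))))))))
(cons (mv 845 (cons (mv 780 (cons (fin 844 7 780)
(mv 781 (cons (fin 716 7 716)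
(fin 974 4 781)))))
(cons (mv 780 (cons (fin 844 7 780)
(mv 846 (cons (fin 782 6 781)
(mv 1100 (cons (fin 1036 5 844)
(mv 1101 (cons (fin 1164 5 908)
(fin 910 6 845)))))))))
(mv 781 (cons (fin 974 4 781)
(mv 782 (cons (fin 718 6 717)
(fin 846 6 781))))))))
(cons (mv 845 (cons (fin 1102 4 845)
(mv 781 (cons (fin 974 4 781)
(mv 782 (cons (fin 718 6 717)
(fin 846 6 781)))))))
(mv 845 (cons (fin 1102 4 845)
(mv 780 (cons (fin 844 7 780)
(mv 716 (cons (fin 781 7 716)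
(mv 846 (cons (fin 782 6 781)
(mv 1100 (cons (fin 1036 5 844)
(mv 1101 (cons (fin 1164 5 908)
(fin 910 6 845)))))))))))))))))
(mv 1039 (cons (cons (mv 976 (cons (fin 977 2 973)
(mv 975 (cons (fin 1036 2 972)
(mv 1100 (cons (fin 1101 1 1036)
(mv 1104 (cons (fin 1105 0 1037)
(mv 911 (cons (fin 1168 7 911)
(fin 847 4 847)))))))))))
(mv 1100 (cons (fin 1101 1 1036)
(mv 1036 (cons (fin 1099 1 1035)
(mv 1104 (cons (fin 1103 0 1036)
(fin 1105 0 1037))))))))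
(cons (mv 976 (cons (fin 977 2 973)
(mv 975 (cons (fin 1036 2 972)
(mv 1104 (cons (fin 1105 0 1037)
(mv 911 (cons (fin 1168 7 911)
(fin 847 4 847)))))))))
(cons (mv 976 (cons (fin 977 2 973)
(mv 1036 (cons (fin 975 2 972)
(mv 1100 (cons (fin 1099 1 1035)
(fin 1101 1 1036)))))))
(mv 976 (cons (fin 977 2 973)
(mv 1100 (cons (fin 1101 1 1036)
(mv 1104 (cons (fin 1105 0 1037)
(mv 912 (cons (mv 1103 (cons (fin 848 5 847)
(fin 1167 5 911)))
(cons (mv 847 (cons (fin 911 7 847)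
(mv 848 (cons (fin 783 7 783)
(mv 849 (cons (fin 785 6 784)
(fin 913 6 848)))))))
(mv 847 (cons (fin 911 7 847)
(mv 849 (cons (fin 913 6 848)
(mv 1167 (cons (fin 1103 5 911)
(mv 1168 (cons (fin 1231 5 975)
(mv 1232 (cons (fin 975 7 975)
(mv 1233 (cons (fin 1169 4 976)
(fin 1297 4 1040))))))))))))))))))))))))))))
(cons (mv 1039 (cons (fin 972 3 972)
(mv 976 (cons (fin 977 2 973)
(mv 975 (cons (fin 1036 2 972)
(mv 1104 (cons (fin 1105 0 1037)
(mv 911 (cons (fin 1168 7 911)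
(fin 847 4 847)))))))))))
(cons (mv 1039 (cons (fin 972 3 972)
(mv 976 (cons (fin 977 2 973)
(mv 1100 (cons (fin 1101 1 1036)
(mv 1104 (cons (fin 1105 0 1037)
(mv 912 (cons (mv 1103 (cons (fin 848 5 847)
(fin 1167 5 911)))
(cons (mv 847 (cons (fin 911 7 847)
(mv 848 (cons (fin 783 7 783)
(mv 849 (cons (fin 785 6 784)
(fin 913 6 848)))))))
(mv 847 (cons (fin 911 7 847)
(mv 849 (cons (fin 913 6 848)
(mv 1167 (cons (fin 1103 5 911)
(mv 1168 (cons (fin 1231 5 975)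
(mv 1232 (cons (fin 975 7 975)
(mv 1233 (cons (fin 1169 4 976)
(fin 1297 4 1040))))))))))))))))))))))))
(mv 1039 (cons (fin 972 3 972)
(mv 976 (cons (fin 977 2 973)
(mv 1100 (cons (fin 1101 1 1036)
(mv 1036 (cons (fin 1099 1 1035)
(mv 1104 (cons (fin 1103 0 1036)
(fin 1105 0 1037)))))))))))))))))))))
def l103 : Lem := ⟨13254031944712882724506621310649321556018620670345837899455453023597314721787975009848330616026462815765143756135158089473467252075149308743152655366187148242124071246428482498451210046760672027239036899891323305324899173507745103325308665813954110541579506451753178596634830548552232523722901151470534797188661248, 29013080489599298602523951607039654316084334481367608117975917153770725215268149646573451931044095884765340485085739442509215717952435920799401736314576604139567084150400243352811521554315841445411052583318637678399174133468991954673141216520891503446798798819178415267994570165149454014844353823047442411995515398207972764242648372278738143483289338454428348208993762827572254334503448124007689113286166128889740515921167908864,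 29013080489599298602523951607039654316084334481367608117975917153770725215268149646573451931044095884765340485085739442509215717952435920799401736314576604139567084150400243352811521554315841445411052583318637678399174133468991954673141216520891503446798798819178415267994570165149454014844353823047442411995515398207972764242648372278738143483289338454428348208993762827572254334503448124007689113286166128889740515921167908864, 19, 33⟩
theorem l103_valid : l103.Valid :=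
  Lem.valid_of_chk t103 t103_valid [1037, 1040] c103 l103 (by decide +kernel)
end Crest.Agent.SnakyAux
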