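import Crest.Agent.S0047_aux.Checker

set_option autoImplicit false
set_option maxRecDepth 100000
namespace Crest.Agent.SnakyAux
open Cert
def t104 : Tbl := Tbl.nil
theorem t104_valid : t104.Valid := Tbl.valid_nil
def c104 : Cert :=
(mv 1038 (cons (cons (cons (mv 1039 (cons (cons (mv 1100 (cons (fin 1101 1 1036)
(mv 1104 (cons (fin 1105 0 1037)
(mv 1036 (cons (fin 1099 1 1035)
(fin 1103 0 1036)))))))
(mv 1100 (cons (fin 1101 1 1036)
(mv 1036 (cons (fin 1099 1 1035)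
(mv 972 (cons (fin 971 3 971)
(fin 973 3 972))))))))
(cons (mv 1104 (cons (fin 1105 0 1037)
(mv 1103 (cons (fin 1036 0 1036)
(mv 972 (cons (fin 973 3 972)
(mv 976 (cons (fin 977 2 973)
(mv 1167 (cons (fin 912 5 911)
(fin 1231 6 975)))))))))))
(mv 1100 (cons (fin 1101 1 1036)
(mv 1104 (cons (fin 1105 0 1037)
(mv 972 (cons (fin 973 3 972)
(mv 976 (cons (fin 977 2 973)
(mv 1168 (cons (cons (mv 1231 (cons (fin 1167 5 975)
(mv 1232 (cons (fin 1295 5 1039)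
(mv 1233 (cons (fin 1297 4 1040)
(fin 1169 4 976)))))))
(mv 1233 (cons (fin 1169 4 976)
(mv 1232 (cons (fin 1297 4 1040)
(mv 1295 (cons (fin 1231 5 1039)
(mv 1296 (cons (fin 1359 5 1103)
(fin 1103 7 1039))))))))))
(cons (mv 1233 (cons (fin 1169 4 976)
(mv 1232 (cons (fin 1297 4 1040)
(mv 1103 (cons (fin 1296 7 1039)
(mv 912 (cons (fin 1167 5 911)
(fin 848 5 847)))))))))
(mv 1167 (cons (fin 1231 5 975)
(mv 912 (cons (fin 1103 5 911)
(mv 847 (cons (fin 911 7 847)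
(mv 848 (cons (fin 783 7 783)
(mv 849 (cons (fin 913 6 848)
(fin 785 6 784)))))))))))))))))))))))))
(mv 1102 (cons (cons (cons (cons (mv 973 (cons (cons (mv 1166 (cons (fin 1230 7 973)
(mv 909 (cons (fin 974 7 909)
(fin 1101 4 909)))))
(mv 1166 (cons (fin 1230 7 973)
(mv 974 (cons (cons (mv 1229 (cons (fin 1165 5 973)
(mv 1167 (cons (fin 1231 4 974)
(mv 1103 (cons (fin 910 4 910)
(mv 1104 (cons (fin 1105 3 1037)
(mv 1036 (cons (fin 1101 3 1036)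
(fin 1035 0 1035)))))))))))
(cons (mv 1167 (cons (fin 1231 4 974)
(mv 1103 (cons (fin 910 4 910)
(mv 1104 (cons (fin 1105 3 1037)
(mv 1036 (cons (fin 1101 3 1036)
(fin 1035 0 1035)))))))))
(mv 1165 (cons (fin 1229 5 973)
(mv 1101 (cons (fin 910 5 909)
(mv 1228 (cons (fin 1164 5 972)
(mv 972 (cons (fin 908 7 908)
(mv 971 (cons (fin 970 0 970)
(mv 1035 (cons (fin 1034 1 970)
(mv 1036 (cons (fin 1103 0 1035)
(mv 1098 (cons (fin 1099 1 1034)
(mv 907 (cons (fin 906 3 906)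
(mv 843 (cons (fin 1100 4 843)
(fin 779 4 779)))))))))))))))))))))))
(cons (mv 1231 (cons (fin 1167 4 974)
(mv 1165 (cons (fin 1229 5 973)
(mv 1101 (cons (cons (mv 1228 (cons (fin 1164 5 972)
(mv 972 (cons (fin 908 7 908)
(mv 971 (cons (fin 970 0 970)
(mv 1035 (cons (fin 1034 1 970)
(mv 1036 (cons (fin 1103 0 1035)
(mv 1098 (cons (fin 1099 1 1034)
(mv 907 (cons (fin 906 3 906)
(mv 843 (cons (fin 1100 4 843)
(fin 779 4 779)))))))))))))))))
(mv 972 (cons (fin 908 7 908)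
(mv 971 (cons (fin 970 0 970)
(mv 1035 (cons (fin 1034 1 970)
(mv 1036 (cons (fin 1103 0 1035)
(mv 1098 (cons (fin 1099 1 1034)
(mv 907 (cons (fin 906 3 906)
(mv 843 (cons (fin 1100 4 843)
(fin 779 4 779))))))))))))))))
(cons (mv 1164 (cons (fin 1228 5 972)
(mv 1163 (cons (fin 1162 2 1098)
(fin 1103 2 1099)))))
(mv 1164 (cons (fin 1228 5 972)
(mv 1162 (cons (fin 1163 2 1098)
(mv 972 (cons (fin 908 7 908)
(mv 971 (cons (fin 970 0 970)
(mv 1035 (cons (fin 1034 1 970)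
(mv 907 (cons (fin 906 3 906)
(mv 1099 (cons (fin 1098 5 906)
(fin 1100 4 907))))))))))))))))))))))
(cons (mv 1229 (cons (fin 1165 5 973)
(mv 1167 (cons (fin 1231 4 974)
(mv 910 (cons (fin 1103 4 910)
(mv 846 (cons (fin 782 5 781)
(mv 847 (cons (fin 911 6 846)
(fin 783 6 782)))))))))))
(mv 1231 (cons (fin 1167 4 974)
(mv 1165 (cons (fin 1229 5 973)
(mv 1101 (cons (fin 910 5 909)
(mv 1164 (cons (fin 1228 5 972)
(mv 1162 (cons (fin 1163 2 1098)
(mv 972 (cons (fin 908 7 908)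
(mv 971 (cons (fin 970 0 970)
(mv 1035 (cons (fin 1034 1 970)
(mv 907 (cons (fin 906 3 906)
(mv 1099 (cons (fin 1098 5 906)
(fin 1100 4 907))))))))))))))))))))))))))))
(cons (mv 909 (cons (fin 845 4 845)
(mv 1101 (cons (cons (mv 1164 (cons (fin 1100 5 908)
(mv 1165 (cons (fin 1228 5 972)
(mv 1229 (cons (fin 1293 6 1037)
(fin 974 6 973)))))))
(mv 908 (cons (fin 844 7 844)
(mv 1165 (cons (fin 972 7 908)
(mv 1229 (cons (fin 1293 6 1037)
(fin 974 6 973))))))))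
(cons (mv 1100 (cons (fin 1164 5 908)
(mv 1099 (cons (fin 1098 2 1034)
(mv 1162 (cons (fin 1163 1 1098)
(mv 1035 (cons (fin 1034 3 1034)
(mv 1103 (cons (fin 1036 3 1035)
(mv 1167 (cons (fin 1168 0 1100)
(mv 910 (cons (fin 974 4 910)
(fin 846 6 845)))))))))))))))
(mv 1164 (cons (fin 1100 5 908)
(mv 1165 (cons (fin 1228 5 972)
(mv 908 (cons (fin 972 7 908)
(fin 844 7 844))))))))))))
(cons (mv 1166 (cons (fin 1230 7 973)
(mv 909 (cons (fin 974 7 909)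
(fin 845 4 845)))))
(mv 1166 (cons (fin 1230 7 973)
(mv 909 (cons (fin 1101 4 909)
(fin 845 4 845)))))))))
(mv 1101 (cons (cons (cons (mv 1103 (cons (mv 1104 (cons (fin 1036 3 1036)
(fin 1105 3 1037)))
(cons (mv 1035 (cons (fin 1036 0 1035)
(mv 1100 (cons (mv 1099 (cons (fin 1034 3 1034)
(fin 1098 2 1034)))
(mv 1163 (cons (fin 1164 1 1099)
(mv 1167 (cons (fin 1168 0 1100)
(mv 1231 (cons (fin 1295 7 1038)
(mv 974 (cons (fin 1166 4 974)
(fin 910 4 910)))))))))))))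
(mv 1104 (cons (fin 1105 3 1037)
(mv 1164 (cons (fin 1165 1 1100)
(mv 1168 (cons (fin 1169 0 1101)
(mv 1100 (cons (fin 1163 1 1099)
(fin 1167 0 1100))))))))))))
(mv 1166 (cons (cons (mv 1230 (cons (fin 1294 7 1037)
(mv 1293 (cons (fin 1229 5 1037)
(mv 1231 (cons (fin 1295 4 1038)
(mv 1167 (cons (fin 974 4 974)
(mv 1168 (cons (fin 1169 3 1101)
(mv 1100 (cons (fin 1165 3 1100)
(fin 1099 0 1099)))))))))))))
(cons (mv 1165 (cons (mv 1229 (cons (fin 974 5 973)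
(fin 1293 6 1037)))
(cons (mv 974 (cons (fin 910 5 909)
(mv 1167 (cons (fin 1231 4 974)
(mv 1168 (cons (fin 1100 3 1100)
(fin 1169 3 1101)))))))
(mv 1229 (cons (fin 1293 6 1037)
(mv 1292 (cons (fin 1228 5 1036)
(mv 1036 (cons (fin 972 7 972)
(mv 1035 (cons (fin 1034 0 1034)
(mv 1099 (cons (fin 1098 1 1034)
(mv 1167 (cons (fin 1100 0 1099)
(mv 1168 (cons (fin 1169 3 1101)
(mv 1232 (cons (fin 1233 0 1165)
(mv 1231 (cons (fin 1164 0 1164)
(mv 1295 (cons (fin 1104 5 1039)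
(fin 1359 7 1102))))))))))))))))))))))))
(mv 1230 (cons (fin 1294 7 1037)
(mv 1295 (cons (fin 1231 4 1038)
(mv 1229 (cons (fin 1293 5 1037)
(mv 1165 (cons (cons (mv 1292 (cons (fin 1228 5 1036)
(mv 1036 (cons (fin 972 7 972)
(mv 1035 (cons (fin 1034 0 1034)
(mv 1099 (cons (fin 1098 1 1034)
(mv 1100 (cons (fin 1167 0 1099)
(mv 1162 (cons (fin 1163 1 1098)
(mv 971 (cons (fin 970 3 970)
(mv 907 (cons (fin 1164 4 907)
(fin 843 4 843)))))))))))))))))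
(mv 1036 (cons (fin 972 7 972)
(mv 1035 (cons (fin 1034 0 1034)
(mv 1099 (cons (fin 1098 1 1034)
(mv 1100 (cons (fin 1167 0 1099)
(mv 1162 (cons (fin 1163 1 1098)
(mv 971 (cons (fin 970 3 970)
(mv 907 (cons (fin 1164 4 907)
(fin 843 4 843))))))))))))))))
(cons (mv 1228 (cons (fin 1292 5 1036)
(mv 1227 (cons (fin 1226 2 1162)
(fin 1167 2 1163)))))
(mv 1228 (cons (fin 1292 5 1036)
(mv 1226 (cons (fin 1227 2 1162)
(mv 1036 (cons (fin 972 7 972)
(mv 1035 (cons (fin 1034 0 1034)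
(mv 1099 (cons (fin 1098 1 1034)
(mv 971 (cons (fin 970 3 970)
(mv 1163 (cons (fin 1162 5 970)
(fin 1164 4 971))))))))))))))))))))))))))
(cons (cons (mv 1230 (cons (fin 1294 7 1037)
(mv 1229 (cons (fin 1293 5 1037)
(mv 1231 (cons (fin 1295 4 1038)
(mv 1167 (cons (fin 974 4 974)
(mv 1228 (cons (fin 1227 2 1163)
(fin 1168 2 1164)))))))))))
(mv 1230 (cons (fin 1294 7 1037)
(mv 1231 (cons (fin 1295 4 1038)
(mv 1167 (cons (fin 974 4 974)
(mv 1168 (cons (fin 1169 3 1101)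
(mv 1100 (cons (fin 1165 3 1100)
(fin 1099 0 1099))))))))))))
(cons (mv 1230 (cons (fin 1294 7 1037)
(mv 1295 (cons (fin 1231 4 1038)
(mv 1229 (cons (fin 1293 5 1037)
(mv 1165 (cons (fin 974 5 973)
(mv 1228 (cons (fin 1292 5 1036)
(mv 1226 (cons (fin 1227 2 1162)
(mv 1036 (cons (fin 972 7 972)
(mv 1035 (cons (fin 1034 0 1034)
(mv 1099 (cons (fin 1098 1 1034)
(mv 971 (cons (fin 970 3 970)
(mv 1163 (cons (fin 1162 5 970)
(fin 1164 4 971)))))))))))))))))))))))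
(mv 1230 (cons (fin 1294 7 1037)
(mv 1229 (cons (fin 1293 5 1037)
(mv 1165 (cons (fin 974 5 973)
(mv 1292 (cons (fin 1228 5 1036)
(mv 1036 (cons (fin 972 7 972)
(mv 1035 (cons (fin 1034 0 1034)
(mv 1099 (cons (fin 1098 1 1034)
(mv 1100 (cons (fin 1167 0 1099)
(mv 1162 (cons (fin 1163 1 1098)
(mv 971 (cons (fin 970 3 970)
(mv 907 (cons (fin 1164 4 907)
(fin 843 4 843))))))))))))))))))))))))))))
(cons (mv 1103 (cons (mv 1104 (cons (fin 1036 3 1036)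
(fin 1105 3 1037)))
(cons (mv 1104 (cons (fin 1105 3 1037)
(mv 1168 (cons (fin 1169 0 1101)
(mv 1167 (cons (fin 1100 0 1100)
(mv 1231 (cons (fin 976 5 975)
(fin 1295 7 1038)))))))))
(mv 1035 (cons (fin 1036 0 1035)
(mv 1100 (cons (mv 1099 (cons (fin 1034 3 1034)
(fin 1098 2 1034)))
(mv 1163 (cons (fin 1164 1 1099)
(mv 1167 (cons (fin 1168 0 1100)
(mv 1231 (cons (fin 1295 7 1038)
(mv 974 (cons (fin 1166 4 974)
(fin 910 4 910))))))))))))))))
(cons (mv 1166 (cons (cons (cons (mv 1230 (cons (fin 1294 7 1037)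
(mv 1293 (cons (fin 1229 5 1037)
(mv 1231 (cons (fin 1295 4 1038)
(mv 1167 (cons (fin 974 4 974)
(mv 1168 (cons (fin 1169 3 1101)
(mv 1100 (cons (fin 1165 3 1100)
(fin 1099 0 1099)))))))))))))
(mv 974 (cons (mv 1165 (cons (fin 1229 5 973)
(fin 910 5 909)))
(cons (mv 1167 (cons (fin 1231 4 974)
(mv 910 (cons (fin 846 5 845)
(fin 1103 4 910)))))
(mv 1229 (cons (fin 1165 5 973)
(mv 1167 (cons (fin 1231 4 974)
(mv 1168 (cons (fin 1169 3 1101)
(mv 1100 (cons (fin 1099 0 1099)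
(fin 1103 0 1100)))))))))))))
(cons (mv 1230 (cons (fin 1294 7 1037)
(mv 1295 (cons (fin 1231 4 1038)
(mv 1229 (cons (fin 1293 5 1037)
(mv 1167 (cons (cons (mv 1227 (cons (fin 1228 2 1163)
(mv 1168 (cons (fin 1169 1 1165)
(mv 1100 (cons (fin 1165 3 1100)
(fin 1099 0 1099)))))))
(mv 1228 (cons (fin 1227 2 1163)
(mv 1292 (cons (fin 1165 5 1036)
(mv 1100 (cons (fin 1099 0 1099)
(fin 1164 6 1036))))))))
(cons (mv 1228 (cons (fin 1227 2 1163)
(mv 1165 (cons (fin 1168 1 1164)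
(fin 1292 5 1036)))))
(cons (mv 1168 (cons (fin 1169 1 1165)
(mv 1100 (cons (fin 1165 3 1100)
(fin 1099 0 1099)))))
(mv 1227 (cons (fin 1228 2 1163)
(mv 1168 (cons (fin 1169 1 1165)
(mv 1100 (cons (fin 1099 0 1099)
(fin 1103 0 1100)))))))))))))))))
(mv 1230 (cons (fin 1294 7 1037)
(mv 1293 (cons (fin 1229 5 1037)
(mv 1231 (cons (fin 1295 4 1038)
(mv 1167 (cons (fin 974 4 974)
(mv 1168 (cons (fin 1169 3 1101)
(mv 1100 (cons (fin 1099 0 1099)
(fin 1103 0 1100)))))))))))))))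
(cons (cons (mv 1230 (cons (fin 1294 7 1037)
(mv 1231 (cons (fin 1295 4 1038)
(mv 1167 (cons (fin 974 4 974)
(mv 1168 (cons (fin 1169 3 1101)
(mv 1100 (cons (fin 1165 3 1100)
(fin 1099 0 1099)))))))))))
(mv 1230 (cons (fin 1294 7 1037)
(mv 1295 (cons (fin 1231 4 1038)
(mv 1229 (cons (fin 1293 5 1037)
(mv 1165 (cons (fin 974 5 973)
(mv 1228 (cons (fin 1292 5 1036)
(mv 1227 (cons (fin 1226 2 1162)
(mv 1290 (cons (fin 1291 1 1226)
(mv 1163 (cons (fin 1162 3 1162)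
(mv 1164 (cons (fin 1103 2 1099)
(mv 1099 (cons (fin 1098 3 1098)
(mv 1035 (cons (fin 971 4 971)
(mv 1034 (cons (fin 1100 3 1034)
(fin 970 7 970))))))))))))))))))))))))))
(cons (mv 1230 (cons (fin 1294 7 1037)
(mv 1293 (cons (fin 1229 5 1037)
(mv 1231 (cons (fin 1295 4 1038)
(mv 1167 (cons (fin 974 4 974)
(mv 1168 (cons (fin 1169 3 1101)
(mv 1104 (cons (fin 976 5 975)
(mv 1105 (cons (fin 1103 3 1037)
(fin 1165 2 1101)))))))))))))))
(mv 1230 (cons (fin 1294 7 1037)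
(mv 1229 (cons (fin 1293 5 1037)
(mv 1165 (cons (fin 974 5 973)
(mv 1228 (cons (fin 1292 5 1036)
(mv 1227 (cons (fin 1226 2 1162)
(fin 1167 2 1163)))))))))))))))
(mv 1103 (cons (mv 1104 (cons (fin 1036 3 1036)
(fin 1105 3 1037)))
(cons (mv 1036 (cons (fin 1035 0 1035)
(mv 1100 (cons (mv 1163 (cons (fin 1164 1 1099)
(mv 1099 (cons (fin 1162 1 1098)
(fin 1098 2 1034)))))
(cons (mv 1164 (cons (fin 1163 1 1099)
(mv 1228 (cons (fin 1292 6 1036)
(mv 1291 (cons (fin 1227 5 1035)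
(mv 1229 (cons (fin 1293 4 1036)
(mv 1165 (cons (fin 972 7 972)
(mv 1230 (cons (fin 1294 4 1037)
(mv 1231 (cons (fin 1232 3 1164)
(mv 1295 (cons (fin 1296 0 1228)
(fin 1167 7 1038)))))))))))))))))
(mv 1167 (cons (fin 1168 0 1100)
(mv 1099 (cons (fin 1166 0 1099)
(fin 1098 2 1034))))))))))
(mv 1104 (cons (fin 1105 3 1037)
(mv 1164 (cons (fin 1165 1 1100)
(mv 1168 (cons (fin 1169 0 1101)
(mv 1100 (cons (fin 1163 1 1099)
(fin 1167 0 1100)))))))))))))))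
(cons (cons (mv 974 (cons (mv 1165 (cons (fin 910 5 909)
(fin 1229 6 973)))
(cons (mv 1229 (cons (fin 1165 6 973)
(mv 1166 (cons (mv 1230 (cons (fin 1293 5 1037)
(fin 1294 7 1037)))
(mv 1167 (cons (fin 1231 4 974)
(mv 1168 (cons (fin 1169 3 1101)
(mv 1100 (cons (fin 1099 0 1099)
(fin 1103 0 1100)))))))))))
(mv 910 (cons (fin 846 5 845)
(mv 1103 (cons (fin 1167 4 910)
(mv 1104 (cons (fin 1036 3 1036)
(fin 1105 3 1037))))))))))
(mv 974 (cons (mv 1165 (cons (fin 910 5 909)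
(fin 1229 6 973)))
(cons (mv 1229 (cons (fin 1165 6 973)
(mv 1166 (cons (mv 1230 (cons (fin 1293 5 1037)
(fin 1294 7 1037)))
(mv 1167 (cons (fin 1231 4 974)
(mv 1168 (cons (fin 1169 3 1101)
(mv 1100 (cons (fin 1099 0 1099)
(fin 1103 0 1100)))))))))))
(mv 910 (cons (fin 846 5 845)
(mv 1103 (cons (fin 1167 4 910)
(mv 909 (cons (fin 845 7 845)
(mv 911 (cons (fin 847 6 846)
(mv 908 (cons (cons (mv 1035 (cons (fin 1036 0 1035)
(mv 971 (cons (fin 972 1 907)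
(mv 907 (cons (fin 970 1 906)
(mv 843 (cons (fin 842 3 842)
(fin 844 3 843)))))))))
(cons (mv 971 (cons (fin 972 1 907)
(mv 907 (cons (fin 970 1 906)
(mv 843 (cons (fin 842 3 842)
(fin 844 3 843)))))))
(mv 1036 (cons (fin 1035 0 1035)
(mv 844 (cons (fin 843 3 843)
(fin 972 4 844)))))))
(cons (mv 1035 (cons (fin 1036 0 1035)
(mv 971 (cons (fin 972 1 907)
(mv 907 (cons (fin 970 1 906)
(mv 842 (cons (fin 843 3 842)
(mv 906 (cons (fin 841 3 841)
(fin 1099 7 842)))))))))))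
(cons (mv 1035 (cons (fin 1036 0 1035)
(mv 843 (cons (fin 844 3 843)
(mv 907 (cons (fin 842 3 842)
(mv 971 (cons (fin 970 1 906)
(mv 1098 (cons (fin 1034 5 842)
(mv 1099 (cons (fin 1100 2 1034)
(fin 1162 5 906)))))))))))))
(mv 1035 (cons (fin 1036 0 1035)
(mv 971 (cons (fin 972 1 907)
(mv 907 (cons (fin 970 1 906)
(mv 1099 (cons (fin 844 6 843)
(mv 1098 (cons (fin 1100 2 1034)
(fin 1162 5 906)))))))))))))))))))))))))))
(cons (mv 974 (cons (mv 1165 (cons (fin 910 5 909)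
(fin 1229 6 973)))
(cons (mv 1166 (cons (cons (mv 1294 (cons (fin 1230 7 1037)
(mv 1165 (cons (fin 1229 5 973)
(mv 1167 (cons (fin 1231 4 974)
(mv 1168 (cons (fin 1169 3 1101)
(mv 1232 (cons (fin 1233 0 1165)
(mv 1104 (cons (fin 1105 2 1101)
(mv 1103 (cons (fin 1164 1 1100)
(fin 1036 3 1036)))))))))))))))
(mv 1230 (cons (fin 1294 7 1037)
(mv 1231 (cons (fin 1295 4 1038)
(fin 1167 4 974))))))
(cons (mv 1165 (cons (fin 1229 5 973)
(mv 1167 (cons (fin 1231 4 974)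
(mv 1168 (cons (fin 1169 3 1101)
(mv 1232 (cons (fin 1233 0 1165)
(mv 1104 (cons (fin 1105 2 1101)
(mv 1103 (cons (fin 1164 1 1100)
(fin 1036 3 1036)))))))))))))
(mv 1229 (cons (fin 1165 5 973)
(mv 1230 (cons (fin 1293 5 1037)
(fin 1294 7 1037))))))))
(mv 910 (cons (fin 846 5 845)
(mv 1103 (cons (fin 1167 4 910)
(mv 1104 (cons (fin 1036 3 1036)
(fin 1105 3 1037))))))))))
(cons (mv 1103 (cons (mv 1104 (cons (fin 1036 3 1036)
(fin 1105 3 1037)))
(cons (mv 1104 (cons (fin 1105 3 1037)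
(mv 1164 (cons (fin 1165 1 1100)
(mv 1168 (cons (fin 1169 0 1101)
(mv 1100 (cons (fin 1163 1 1099)
(fin 1167 0 1100)))))))))
(mv 1100 (cons (mv 1163 (cons (fin 1164 1 1099)
(mv 1099 (cons (fin 1162 1 1098)
(fin 1098 2 1034)))))
(cons (mv 1164 (cons (fin 1163 1 1099)
(mv 1228 (cons (fin 1292 6 1036)
(mv 1167 (cons (fin 1168 0 1100)
(mv 1295 (cons (fin 1231 7 1038)
(mv 1036 (cons (fin 1035 3 1035)
(mv 1291 (cons (fin 1227 5 1035)
(mv 1229 (cons (fin 1293 4 1036)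
(mv 1165 (cons (fin 972 7 972)
(fin 974 6 973)))))))))))))))))
(mv 1167 (cons (fin 1168 0 1100)
(mv 1295 (cons (fin 1231 7 1038)
(mv 1099 (cons (fin 1098 2 1034)
(mv 1035 (cons (fin 1034 3 1034)
(fin 1036 3 1035)))))))))))))))
(mv 1103 (cons (mv 1104 (cons (fin 1036 3 1036)
(fin 1105 3 1037)))
(cons (mv 1104 (cons (fin 1105 3 1037)
(mv 1165 (cons (fin 1164 1 1100)
(mv 1229 (cons (fin 1293 6 1037)
(fin 974 6 973)))))))
(mv 1100 (cons (mv 1163 (cons (fin 1164 1 1099)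
(mv 1099 (cons (fin 1162 1 1098)
(fin 1098 2 1034)))))
(cons (mv 1164 (cons (fin 1163 1 1099)
(mv 1228 (cons (fin 1292 6 1036)
(mv 1036 (cons (fin 1035 3 1035)
(mv 1291 (cons (fin 1227 5 1035)
(mv 1229 (cons (fin 1293 4 1036)
(mv 1165 (cons (fin 972 7 972)
(fin 974 6 973)))))))))))))
(mv 1099 (cons (fin 1098 2 1034)
(mv 1035 (cons (fin 1034 3 1034)
(fin 1036 3 1035)))))))))))))))))
(cons (mv 1166 (cons (cons (mv 1230 (cons (fin 973 7 973)
(mv 1293 (cons (fin 1229 5 1037)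
(mv 1294 (cons (fin 1357 5 1101)
(fin 1101 7 1037)))))))
(mv 974 (cons (cons (mv 1229 (cons (fin 1165 5 973)
(mv 1231 (cons (fin 1167 4 974)
(mv 909 (cons (fin 973 7 909)
(mv 910 (cons (fin 845 7 845)
(mv 846 (cons (fin 1101 5 845)
(mv 847 (cons (fin 911 6 846)
(fin 783 6 782)))))))))))))
(cons (mv 1231 (cons (fin 1167 4 974)
(mv 1165 (cons (fin 1229 5 973)
(mv 910 (cons (fin 1101 5 909)
(mv 847 (cons (fin 911 6 846)
(mv 846 (cons (fin 783 6 782)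
(mv 781 (cons (fin 845 7 781)
(mv 782 (cons (fin 973 5 781)
(fin 717 7 717)))))))))))))))
(mv 1231 (cons (fin 1167 4 974)
(mv 1165 (cons (fin 1229 5 973)
(mv 910 (cons (fin 1101 5 909)
(mv 845 (cons (fin 909 7 845)
(mv 846 (cons (fin 781 7 781)
(mv 847 (cons (fin 911 6 846)
(fin 783 6 782)))))))))))))))
(cons (cons (mv 1231 (cons (fin 1167 4 974)
(mv 909 (cons (fin 973 7 909)
(mv 910 (cons (fin 845 7 845)
(mv 846 (cons (fin 1101 5 845)
(mv 847 (cons (fin 911 6 846)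
(fin 783 6 782)))))))))))
(mv 1229 (cons (fin 1165 5 973)
(mv 909 (cons (fin 973 7 909)
(mv 910 (cons (fin 845 7 845)
(mv 846 (cons (fin 1101 5 845)
(mv 847 (cons (fin 911 6 846)
(fin 783 6 782))))))))))))
(cons (mv 1229 (cons (fin 1165 5 973)
(mv 1231 (cons (fin 1167 4 974)
(mv 910 (cons (cons (mv 909 (cons (fin 973 7 909)
(fin 845 7 845)))
(mv 847 (cons (fin 911 6 846)
(mv 846 (cons (fin 783 6 782)
(mv 781 (cons (fin 845 7 781)
(mv 782 (cons (fin 973 5 781)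
(fin 717 7 717))))))))))
(cons (mv 845 (cons (fin 909 7 845)
(mv 846 (cons (fin 781 7 781)
(mv 847 (cons (fin 911 6 846)
(fin 783 6 782)))))))
(mv 973 (cons (fin 909 7 909)
(mv 846 (cons (fin 782 5 781)
(mv 847 (cons (fin 911 6 846)
(fin 783 6 782))))))))))))))
(mv 1165 (cons (fin 1229 5 973)
(mv 1167 (cons (fin 1231 4 974)
(mv 973 (cons (fin 909 7 909)
(mv 1101 (cons (mv 1168 (cons (fin 1100 3 1100)
(fin 1169 3 1101)))
(cons (mv 1164 (cons (fin 1228 5 972)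
(mv 1163 (cons (fin 1162 2 1098)
(mv 1227 (cons (fin 1226 1 1162)
(mv 1168 (cons (fin 1169 3 1101)
(mv 1232 (cons (fin 1233 0 1165)
(mv 1099 (cons (fin 1098 3 1098)
(mv 1104 (cons (fin 1105 2 1101)
(mv 972 (cons (fin 908 7 908)
(mv 1035 (cons (fin 1036 6 971)
(mv 1034 (cons (fin 971 1 970)
(fin 970 7 970)))))))))))))))))))))
(mv 1228 (cons (fin 1164 5 972)
(mv 1099 (cons (fin 1100 0 1099)
(mv 972 (cons (fin 908 7 908)
(mv 971 (cons (fin 970 0 970)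
(mv 1035 (cons (fin 1034 1 970)
(mv 1098 (cons (fin 1036 1 1034)
(mv 907 (cons (fin 906 3 906)
(fin 1162 5 906)))))))))))))))))))))))))))))
(cons (mv 1230 (cons (mv 1293 (cons (fin 1229 5 1037)
(mv 1294 (cons (fin 1357 5 1101)
(fin 1101 7 1037)))))
(cons (mv 1229 (cons (fin 1293 5 1037)
(mv 1231 (cons (fin 1295 4 1038)
(mv 974 (cons (fin 1165 5 973)
(fin 1167 4 974)))))))
(mv 1294 (cons (fin 1101 7 1037)
(mv 1295 (cons (fin 1359 4 1102)
(fin 1231 4 1038))))))))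
(cons (mv 1230 (cons (fin 973 7 973)
(mv 1293 (cons (fin 1229 5 1037)
(mv 1294 (cons (fin 1357 5 1101)
(mv 1295 (cons (fin 1359 4 1102)
(fin 1231 4 1038)))))))))
(mv 1230 (cons (fin 973 7 973)
(mv 1294 (cons (fin 1101 7 1037)
(mv 1295 (cons (fin 1359 4 1102)
(fin 1231 4 1038)))))))))))
(mv 1101 (cons (cons (cons (mv 1165 (cons (mv 1229 (cons (fin 1293 6 1037)
(fin 974 6 973)))
(cons (mv 974 (cons (fin 910 5 909)
(mv 973 (cons (cons (mv 1228 (cons (fin 1164 5 972)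
(mv 972 (cons (fin 908 7 908)
(mv 971 (cons (fin 970 0 970)
(mv 1035 (cons (fin 1034 1 970)
(mv 1103 (cons (fin 1036 0 1035)
(mv 1104 (cons (fin 1105 3 1037)
(mv 1168 (cons (fin 1169 0 1101)
(mv 1167 (cons (fin 1100 0 1100)
(mv 1231 (cons (fin 976 5 975)
(fin 1295 7 1038)))))))))))))))))))
(mv 972 (cons (fin 908 7 908)
(mv 971 (cons (fin 970 0 970)
(mv 1035 (cons (fin 1034 1 970)
(mv 1103 (cons (fin 1036 0 1035)
(mv 1104 (cons (fin 1105 3 1037)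
(mv 1168 (cons (fin 1169 0 1101)
(mv 1167 (cons (fin 1100 0 1100)
(mv 1231 (cons (fin 976 5 975)
(fin 1295 7 1038))))))))))))))))))
(cons (mv 1164 (cons (fin 1228 5 972)
(mv 909 (cons (fin 1100 5 908)
(fin 845 4 845)))))
(mv 1228 (cons (fin 1164 5 972)
(mv 908 (cons (fin 972 7 908)
(mv 909 (cons (fin 844 7 844)
(fin 845 4 845))))))))))))
(mv 1229 (cons (fin 1293 6 1037)
(mv 1292 (cons (fin 1228 5 1036)
(mv 1294 (cons (fin 1230 4 1037)
(mv 1036 (cons (fin 972 7 972)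
(mv 1103 (cons (fin 1104 3 1036)
(fin 1035 0 1035))))))))))))))
(mv 1103 (cons (mv 1104 (cons (fin 1036 3 1036)
(fin 1105 3 1037)))
(cons (mv 1104 (cons (fin 1105 3 1037)
(mv 1168 (cons (fin 1169 0 1101)
(mv 1167 (cons (fin 1100 0 1100)
(mv 1231 (cons (fin 976 5 975)
(fin 1295 7 1038)))))))))
(mv 1100 (cons (mv 1163 (cons (fin 1164 1 1099)
(mv 1099 (cons (fin 1162 1 1098)
(fin 1098 2 1034)))))
(cons (mv 1164 (cons (fin 1163 1 1099)
(mv 1228 (cons (fin 1292 6 1036)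
(mv 1036 (cons (fin 1035 3 1035)
(fin 973 6 972)))))))
(mv 1167 (cons (fin 1168 0 1100)
(mv 1295 (cons (fin 1231 7 1038)
(mv 1099 (cons (fin 1098 2 1034)
(mv 1035 (cons (fin 1034 3 1034)
(fin 1036 3 1035))))))))))))))))
(cons (mv 1165 (cons (mv 1229 (cons (fin 1293 6 1037)
(fin 974 6 973)))
(cons (mv 974 (cons (fin 910 5 909)
(mv 973 (cons (cons (mv 1228 (cons (fin 1164 5 972)
(mv 908 (cons (fin 972 7 908)
(mv 909 (cons (fin 844 7 844)
(fin 845 4 845)))))))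
(mv 1164 (cons (fin 1228 5 972)
(mv 1162 (cons (fin 1163 2 1098)
(mv 972 (cons (fin 908 7 908)
(mv 971 (cons (fin 970 0 970)
(mv 1035 (cons (fin 1034 1 970)
(mv 907 (cons (fin 906 3 906)
(mv 1099 (cons (fin 1098 5 906)
(fin 1100 4 907))))))))))))))))
(cons (mv 908 (cons (fin 972 7 908)
(mv 909 (cons (fin 844 7 844)
(fin 845 4 845)))))
(mv 1164 (cons (fin 1228 5 972)
(mv 909 (cons (fin 1100 5 908)
(fin 845 4 845))))))))))
(mv 1229 (cons (fin 1293 6 1037)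
(mv 1294 (cons (fin 1230 4 1037)
(mv 1228 (cons (fin 1292 5 1036)
(mv 1164 (cons (fin 973 5 972)
(mv 1162 (cons (fin 1163 2 1098)
(mv 1036 (cons (fin 972 7 972)
(mv 1035 (cons (fin 1034 0 1034)
(mv 971 (cons (fin 970 3 970)
(fin 1100 7 971))))))))))))))))))))
(mv 1165 (cons (mv 1229 (cons (fin 1293 6 1037)
(fin 974 6 973)))
(cons (mv 1229 (cons (fin 1293 6 1037)
(mv 1294 (cons (fin 1230 4 1037)
(mv 1228 (cons (fin 1292 5 1036)
(mv 1164 (cons (fin 973 5 972)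
(mv 1163 (cons (fin 1162 2 1098)
(mv 1103 (cons (fin 1100 1 1099)
(fin 1104 1 1100)))))))))))))
(mv 974 (cons (fin 910 5 909)
(mv 973 (cons (cons (mv 1228 (cons (fin 1164 5 972)
(mv 908 (cons (fin 972 7 908)
(mv 909 (cons (fin 844 7 844)
(fin 845 4 845)))))))
(mv 908 (cons (fin 972 7 908)
(mv 909 (cons (fin 844 7 844)
(fin 845 4 845))))))
(cons (mv 1164 (cons (fin 1228 5 972)
(mv 1162 (cons (fin 1163 2 1098)
(mv 1103 (cons (fin 1104 1 1100)
(mv 972 (cons (fin 908 7 908)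
(mv 971 (cons (fin 970 0 970)
(mv 1035 (cons (fin 1034 1 970)
(mv 907 (cons (fin 906 3 906)
(mv 1099 (cons (fin 1098 5 906)
(fin 1100 4 907)))))))))))))))))
(mv 1164 (cons (fin 1228 5 972)
(mv 909 (cons (fin 1100 5 908)
(fin 845 4 845)))))))))))))))
(cons (cons (mv 1165 (cons (mv 1229 (cons (fin 1293 6 1037)
(fin 974 6 973)))
(cons (mv 974 (cons (fin 910 5 909)
(mv 973 (cons (mv 1228 (cons (fin 1164 5 972)
(mv 908 (cons (fin 972 7 908)
(mv 909 (cons (fin 844 7 844)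
(fin 845 4 845)))))))
(cons (mv 908 (cons (fin 972 7 908)
(mv 909 (cons (fin 844 7 844)
(fin 845 4 845)))))
(mv 1164 (cons (fin 1228 5 972)
(mv 1163 (cons (fin 1162 2 1098)
(mv 1103 (cons (fin 1100 1 1099)
(fin 1104 1 1100))))))))))))
(mv 1229 (cons (fin 1293 6 1037)
(mv 1294 (cons (fin 1230 4 1037)
(mv 1228 (cons (fin 1292 5 1036)
(mv 1164 (cons (fin 973 5 972)
(mv 1163 (cons (fin 1162 2 1098)
(mv 1103 (cons (fin 1100 1 1099)
(fin 1104 1 1100))))))))))))))))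
(mv 1165 (cons (mv 1229 (cons (fin 1293 6 1037)
(fin 974 6 973)))
(cons (mv 973 (cons (cons (mv 1228 (cons (fin 1164 5 972)
(mv 972 (cons (fin 908 7 908)
(mv 970 (cons (fin 971 0 970)
(mv 909 (cons (fin 845 4 845)
(mv 910 (cons (fin 974 5 909)
(fin 846 6 845)))))))))))
(mv 1228 (cons (fin 1164 5 972)
(mv 908 (cons (fin 972 7 908)
(mv 909 (cons (fin 844 7 844)
(fin 845 4 845))))))))
(cons (mv 1164 (cons (fin 1228 5 972)
(mv 1162 (cons (fin 1163 2 1098)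
(mv 1103 (cons (fin 1104 1 1100)
(mv 1035 (cons (fin 1036 0 1035)
(mv 972 (cons (fin 908 7 908)
(mv 971 (cons (fin 970 0 970)
(mv 974 (cons (fin 1034 1 970)
(fin 910 5 909)))))))))))))))
(cons (mv 972 (cons (fin 908 7 908)
(mv 970 (cons (fin 971 0 970)
(mv 909 (cons (fin 845 4 845)
(mv 910 (cons (fin 974 5 909)
(fin 846 6 845)))))))))
(mv 1228 (cons (fin 1164 5 972)
(mv 909 (cons (fin 845 4 845)
(mv 910 (cons (fin 974 5 909)
(fin 846 6 845)))))))))))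
(mv 1229 (cons (fin 1293 6 1037)
(mv 1292 (cons (fin 1228 5 1036)
(mv 1294 (cons (fin 1230 4 1037)
(mv 1036 (cons (fin 972 7 972)
(mv 1103 (cons (fin 1104 3 1036)
(fin 1035 0 1035)))))))))))))))
(cons (mv 1103 (cons (mv 1104 (cons (fin 1036 3 1036)
(fin 1105 3 1037)))
(cons (mv 1104 (cons (fin 1105 3 1037)
(mv 1164 (cons (fin 1165 1 1100)
(mv 1168 (cons (fin 1169 0 1101)
(mv 1100 (cons (fin 1163 1 1099)
(fin 1167 0 1100)))))))))
(mv 1100 (cons (mv 1163 (cons (fin 1164 1 1099)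
(mv 1099 (cons (fin 1162 1 1098)
(fin 1098 2 1034)))))
(cons (mv 1164 (cons (fin 1163 1 1099)
(mv 1228 (cons (fin 1292 6 1036)
(mv 1167 (cons (fin 1168 0 1100)
(mv 1295 (cons (fin 1231 7 1038)
(mv 1036 (cons (fin 1035 3 1035)
(mv 1291 (cons (fin 1227 5 1035)
(mv 1229 (cons (fin 1293 4 1036)
(mv 1165 (cons (fin 972 7 972)
(fin 974 6 973)))))))))))))))))
(mv 1167 (cons (fin 1168 0 1100)
(mv 1295 (cons (fin 1231 7 1038)
(mv 1099 (cons (fin 1098 2 1034)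
(mv 1035 (cons (fin 1034 3 1034)
(fin 1036 3 1035)))))))))))))))
(cons (mv 1165 (cons (mv 1229 (cons (fin 1293 6 1037)
(fin 974 6 973)))
(cons (mv 973 (cons (cons (mv 972 (cons (fin 908 7 908)
(mv 970 (cons (fin 971 0 970)
(mv 909 (cons (fin 845 4 845)
(mv 910 (cons (fin 974 5 909)
(fin 846 6 845)))))))))
(mv 908 (cons (fin 972 7 908)
(mv 909 (cons (fin 844 7 844)
(fin 845 4 845))))))
(cons (mv 972 (cons (fin 908 7 908)
(mv 971 (cons (fin 970 0 970)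
(mv 974 (cons (fin 910 5 909)
(mv 1035 (cons (fin 1034 1 970)
(mv 1103 (cons (fin 1036 0 1035)
(mv 1104 (cons (fin 1105 3 1037)
(mv 1168 (cons (fin 1169 0 1101)
(mv 1167 (cons (fin 1100 0 1100)
(mv 1231 (cons (fin 976 5 975)
(fin 1295 7 1038)))))))))))))))))))
(mv 909 (cons (fin 845 4 845)
(mv 910 (cons (fin 974 5 909)
(fin 846 6 845))))))))
(mv 1229 (cons (fin 1293 6 1037)
(mv 1292 (cons (fin 1228 5 1036)
(mv 1294 (cons (fin 1230 4 1037)
(mv 1036 (cons (fin 972 7 972)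
(mv 1103 (cons (fin 1104 3 1036)
(fin 1035 0 1035))))))))))))))
(mv 1103 (cons (mv 1104 (cons (fin 1036 3 1036)
(fin 1105 3 1037)))
(cons (mv 1104 (cons (fin 1105 3 1037)
(mv 1164 (cons (fin 1165 1 1100)
(mv 1168 (cons (fin 1169 0 1101)
(mv 1100 (cons (fin 1163 1 1099)
(fin 1167 0 1100)))))))))
(mv 1035 (cons (fin 1036 0 1035)
(mv 1100 (cons (mv 1099 (cons (fin 1034 3 1034)
(fin 1098 2 1034)))
(cons (mv 1164 (cons (fin 1163 1 1099)
(mv 1167 (cons (fin 1168 0 1100)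
(mv 1295 (cons (fin 1231 7 1038)
(mv 973 (cons (fin 909 5 908)
(mv 974 (cons (fin 910 4 910)
(mv 1165 (cons (fin 1229 6 973)
(mv 972 (cons (fin 908 7 908)
(mv 971 (cons (fin 1034 1 970)
(fin 970 0 970)))))))))))))))))
(mv 1163 (cons (fin 1164 1 1099)
(mv 1099 (cons (fin 1162 1 1098)
(fin 1098 2 1034))))))))))))))))))))
(cons (cons (mv 973 (cons (cons (mv 1166 (cons (fin 1230 7 973)
(mv 909 (cons (fin 974 7 909)
(fin 1101 4 909)))))
(mv 1166 (cons (fin 1230 7 973)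
(mv 974 (cons (cons (mv 1229 (cons (fin 1165 5 973)
(mv 1167 (cons (fin 1231 4 974)
(mv 910 (cons (fin 1103 4 910)
(mv 846 (cons (fin 1101 5 845)
(fin 782 5 781)))))))))
(cons (mv 1167 (cons (fin 1231 4 974)
(mv 910 (cons (fin 1103 4 910)
(mv 846 (cons (fin 1101 5 845)
(fin 782 5 781)))))))
(mv 1165 (cons (fin 1229 5 973)
(mv 1101 (cons (fin 910 5 909)
(mv 1164 (cons (fin 1228 5 972)
(mv 1163 (cons (fin 1162 2 1098)
(fin 1103 2 1099)))))))))))
(cons (mv 1165 (cons (fin 1229 5 973)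
(mv 1167 (cons (fin 1231 4 974)
(mv 1101 (cons (mv 1168 (cons (fin 1100 3 1100)
(fin 1169 3 1101)))
(mv 1164 (cons (fin 1228 5 972)
(mv 1163 (cons (fin 1162 2 1098)
(fin 1103 2 1099)))))))))))
(cons (mv 1229 (cons (fin 1165 5 973)
(mv 1167 (cons (fin 1231 4 974)
(mv 910 (cons (fin 1103 4 910)
(mv 846 (cons (fin 782 5 781)
(mv 847 (cons (fin 911 6 846)
(fin 783 6 782)))))))))))
(mv 1231 (cons (fin 1167 4 974)
(mv 1165 (cons (fin 1229 5 973)
(mv 1101 (cons (fin 910 5 909)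
(mv 1164 (cons (fin 1228 5 972)
(mv 1162 (cons (fin 1163 2 1098)
(mv 972 (cons (fin 908 7 908)
(mv 971 (cons (fin 970 0 970)
(mv 1035 (cons (fin 1034 1 970)
(mv 907 (cons (fin 906 3 906)
(mv 1099 (cons (fin 1098 5 906)
(fin 1100 4 907))))))))))))))))))))))))))))
(cons (mv 909 (cons (fin 845 4 845)
(mv 1101 (cons (mv 1164 (cons (fin 1100 5 908)
(mv 1165 (cons (fin 1228 5 972)
(mv 1229 (cons (fin 1293 6 1037)
(fin 974 6 973)))))))
(cons (mv 908 (cons (fin 844 7 844)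
(mv 1165 (cons (fin 972 7 908)
(mv 1229 (cons (fin 1293 6 1037)
(fin 974 6 973)))))))
(mv 1100 (cons (fin 1164 5 908)
(mv 1099 (cons (fin 1098 2 1034)
(mv 1163 (cons (fin 1162 1 1098)
(mv 1035 (cons (fin 1034 3 1034)
(mv 908 (cons (fin 844 7 844)
(mv 971 (cons (fin 972 6 907)
(mv 970 (cons (fin 906 7 906)
(mv 910 (cons (fin 907 1 906)
(fin 846 6 845))))))))))))))))))))))
(cons (mv 1166 (cons (fin 1230 7 973)
(mv 909 (cons (fin 974 7 909)
(fin 845 4 845)))))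
(mv 1166 (cons (fin 1230 7 973)
(mv 909 (cons (fin 1101 4 909)
(fin 845 4 845)))))))))
(mv 1103 (cons (cons (mv 1104 (cons (fin 1105 3 1037)
(mv 1036 (cons (fin 1101 3 1036)
(fin 1035 0 1035)))))
(mv 1035 (cons (fin 1036 0 1035)
(mv 1166 (cons (cons (mv 1230 (cons (fin 973 7 973)
(mv 1293 (cons (fin 1229 5 1037)
(mv 1294 (cons (fin 1357 5 1101)
(fin 1101 7 1037)))))))
(mv 974 (cons (mv 1167 (cons (fin 1231 4 974)
(fin 910 4 910)))
(cons (mv 1165 (cons (fin 1229 5 973)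
(mv 1163 (cons (fin 1164 2 1099)
(mv 910 (cons (fin 1101 5 909)
(mv 847 (cons (fin 911 6 846)
(mv 846 (cons (fin 783 6 782)
(mv 781 (cons (fin 845 7 781)
(mv 782 (cons (fin 973 5 781)
(fin 717 7 717)))))))))))))))
(mv 1165 (cons (fin 1229 5 973)
(mv 1164 (cons (fin 1163 2 1099)
(mv 1167 (cons (fin 1231 4 974)
(mv 1227 (cons (fin 1228 1 1163)
(mv 1100 (cons (fin 1099 3 1099)
(mv 1168 (cons (fin 1101 3 1100)
(mv 1233 (cons (fin 1232 0 1165)
(mv 1169 (cons (fin 1170 3 1102)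
(fin 1234 0 1166)))))))))))))))))))))
(cons (mv 974 (cons (mv 1167 (cons (fin 1231 4 974)
(fin 910 4 910)))
(cons (mv 1229 (cons (fin 1165 5 973)
(mv 1230 (cons (fin 1293 5 1037)
(mv 1294 (cons (fin 1101 7 1037)
(mv 1295 (cons (fin 1359 4 1102)
(fin 1231 4 1038)))))))))
(mv 1229 (cons (fin 1165 5 973)
(mv 1293 (cons (fin 1230 5 1037)
(mv 910 (cons (fin 1167 4 910)
(mv 846 (cons (fin 1101 5 845)
(mv 847 (cons (fin 911 6 846)
(fin 783 6 782))))))))))))))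
(cons (mv 1230 (cons (fin 973 7 973)
(mv 1294 (cons (fin 1101 7 1037)
(mv 1295 (cons (fin 1359 4 1102)
(fin 1231 4 1038)))))))
(mv 1230 (cons (fin 973 7 973)
(mv 1293 (cons (fin 1229 5 1037)
(mv 1294 (cons (fin 1357 5 1101)
(mv 1295 (cons (fin 1359 4 1102)
(fin 1231 4 1038))))))))))))))))
(cons (mv 1104 (cons (fin 1105 3 1037)
(mv 1167 (cons (mv 1231 (cons (fin 1295 7 1038)
(mv 974 (cons (fin 1166 4 974)
(fin 910 4 910)))))
(cons (mv 974 (cons (fin 910 4 910)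
(mv 976 (cons (fin 912 5 911)
(mv 1168 (cons (mv 1169 (cons (fin 1170 3 1102)
(fin 1101 0 1101)))
(cons (mv 1101 (cons (fin 1100 0 1100)
(mv 1165 (cons (fin 1164 1 1100)
(fin 1229 6 973)))))
(mv 1169 (cons (fin 1170 3 1102)
(fin 1233 4 976))))))))))
(mv 1231 (cons (fin 1295 7 1038)
(mv 976 (cons (fin 1168 5 975)
(fin 912 5 911))))))))))
(mv 1104 (cons (fin 1105 3 1037)
(mv 1035 (cons (fin 1036 0 1035)
(mv 1166 (cons (cons (mv 1230 (cons (fin 973 7 973)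
(mv 1293 (cons (fin 1229 5 1037)
(mv 1357 (cons (fin 1294 5 1101)
(mv 1231 (cons (fin 1295 4 1038)
(mv 1167 (cons (fin 974 4 974)
(mv 976 (cons (fin 1168 5 975)
(fin 912 5 911)))))))))))))
(cons (mv 1167 (cons (mv 1231 (cons (fin 1295 7 1038)
(fin 974 4 974)))
(cons (mv 1165 (cons (fin 1164 2 1100)
(mv 974 (cons (fin 1229 5 973)
(fin 910 4 910)))))
(mv 1231 (cons (fin 1295 7 1038)
(mv 976 (cons (fin 1168 5 975)
(fin 912 5 911))))))))
(mv 1230 (cons (fin 973 7 973)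
(mv 1293 (cons (fin 1229 5 1037)
(mv 1294 (cons (fin 1357 5 1101)
(mv 1295 (cons (fin 1359 4 1102)
(fin 1231 4 1038)))))))))))
(cons (mv 1230 (cons (fin 973 7 973)
(mv 1293 (cons (fin 1229 5 1037)
(mv 1294 (cons (fin 1357 5 1101)
(mv 1358 (cons (fin 1167 6 1102)
(mv 1359 (cons (fin 1423 4 1166)
(fin 1295 4 1102)))))))))))
(cons (mv 1230 (cons (fin 973 7 973)
(mv 1293 (cons (fin 1229 5 1037)
(mv 1294 (cons (fin 1357 5 1101)
(mv 1167 (cons (fin 1358 6 1102)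
(mv 974 (cons (fin 1231 4 974)
(fin 910 4 910)))))))))))
(mv 1230 (cons (fin 973 7 973)
(mv 1295 (cons (fin 1231 4 1038)
(mv 1294 (cons (fin 1359 4 1102)
(mv 1357 (cons (fin 1293 5 1101)
(mv 1358 (cons (fin 1421 5 1165)
(fin 1167 6 1102)))))))))))))))))))))))
(cons (mv 973 (cons (cons (mv 1166 (cons (fin 1230 7 973)
(mv 909 (cons (fin 974 7 909)
(fin 1101 4 909)))))
(mv 1166 (cons (fin 1230 7 973)
(mv 974 (cons (cons (mv 1229 (cons (fin 1165 5 973)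
(mv 1167 (cons (fin 1231 4 974)
(mv 1103 (cons (fin 910 4 910)
(mv 1104 (cons (fin 1105 3 1037)
(mv 1101 (cons (fin 1036 3 1036)
(mv 1168 (cons (fin 1169 3 1101)
(fin 1100 0 1100)))))))))))))
(cons (mv 1167 (cons (fin 1231 4 974)
(mv 1103 (cons (fin 910 4 910)
(mv 1104 (cons (fin 1105 3 1037)
(mv 1101 (cons (fin 1036 3 1036)
(mv 1168 (cons (fin 1169 3 1101)
(fin 1100 0 1100)))))))))))
(mv 1165 (cons (fin 1229 5 973)
(mv 1101 (cons (fin 910 5 909)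
(mv 1164 (cons (fin 1228 5 972)
(mv 1163 (cons (fin 1162 2 1098)
(fin 1103 2 1099)))))))))))
(cons (mv 1165 (cons (fin 1229 5 973)
(mv 1167 (cons (fin 1231 4 974)
(mv 1101 (cons (mv 1168 (cons (fin 1100 3 1100)
(fin 1169 3 1101)))
(mv 1164 (cons (fin 1228 5 972)
(mv 1163 (cons (fin 1162 2 1098)
(fin 1103 2 1099)))))))))))
(cons (mv 1229 (cons (fin 1165 5 973)
(mv 1167 (cons (fin 1231 4 974)
(mv 910 (cons (fin 1103 4 910)
(mv 846 (cons (fin 782 5 781)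
(mv 847 (cons (fin 911 6 846)
(fin 783 6 782)))))))))))
(mv 1231 (cons (fin 1167 4 974)
(mv 1165 (cons (fin 1229 5 973)
(mv 910 (cons (fin 1101 5 909)
(mv 846 (cons (fin 782 5 781)
(mv 847 (cons (fin 911 6 846)
(fin 783 6 782))))))))))))))))))
(cons (mv 909 (cons (fin 845 4 845)
(mv 1101 (cons (cons (mv 1164 (cons (fin 1100 5 908)
(mv 1165 (cons (fin 1228 5 972)
(mv 1229 (cons (fin 1293 6 1037)
(fin 974 6 973)))))))
(mv 908 (cons (fin 844 7 844)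
(mv 1165 (cons (fin 972 7 908)
(mv 1229 (cons (fin 1293 6 1037)
(fin 974 6 973))))))))
(cons (mv 1100 (cons (fin 1164 5 908)
(mv 1099 (cons (fin 1098 2 1034)
(mv 1163 (cons (fin 1162 1 1098)
(mv 908 (cons (fin 844 7 844)
(mv 1036 (cons (fin 972 5 907)
(mv 1291 (cons (fin 1227 6 1035)
(mv 1103 (cons (fin 1104 3 1036)
(mv 1167 (cons (fin 1168 0 1100)
(mv 910 (cons (fin 974 4 910)
(fin 846 6 845)))))))))))))))))))
(mv 1164 (cons (fin 1100 5 908)
(mv 1165 (cons (fin 1228 5 972)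
(mv 908 (cons (fin 972 7 908)
(fin 844 7 844))))))))))))
(cons (mv 1166 (cons (fin 1230 7 973)
(mv 909 (cons (fin 974 7 909)
(fin 845 4 845)))))
(mv 1166 (cons (fin 1230 7 973)
(mv 909 (cons (fin 1101 4 909)
(fin 845 4 845)))))))))
(mv 1101 (cons (cons (cons (mv 1165 (cons (mv 1229 (cons (fin 1293 6 1037)
(fin 974 6 973)))
(cons (mv 1229 (cons (fin 1293 6 1037)
(mv 1292 (cons (fin 1228 5 1036)
(mv 1036 (cons (fin 972 7 972)
(mv 1103 (cons (fin 1104 3 1036)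
(fin 1035 0 1035)))))))))
(mv 974 (cons (fin 910 5 909)
(mv 973 (cons (mv 909 (cons (fin 1166 7 909)
(fin 845 4 845)))
(mv 1228 (cons (fin 1164 5 972)
(mv 972 (cons (fin 908 7 908)
(mv 971 (cons (fin 970 0 970)
(mv 1035 (cons (fin 1034 1 970)
(mv 1103 (cons (fin 1036 0 1035)
(mv 1104 (cons (fin 1105 3 1037)
(mv 1168 (cons (fin 1169 0 1101)
(mv 1167 (cons (fin 1100 0 1100)
(mv 1231 (cons (fin 976 5 975)
(fin 1295 7 1038))))))))))))))))))))))))))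
(mv 1103 (cons (mv 1104 (cons (fin 1036 3 1036)
(fin 1105 3 1037)))
(cons (mv 1104 (cons (fin 1105 3 1037)
(mv 1168 (cons (fin 1169 0 1101)
(mv 1167 (cons (fin 1100 0 1100)
(mv 1231 (cons (fin 976 5 975)
(fin 1295 7 1038)))))))))
(mv 1035 (cons (fin 1036 0 1035)
(mv 1100 (cons (mv 1099 (cons (fin 1034 3 1034)
(fin 1098 2 1034)))
(mv 1163 (cons (fin 1164 1 1099)
(mv 1167 (cons (fin 1168 0 1100)
(mv 1231 (cons (fin 1295 7 1038)
(mv 974 (cons (fin 1166 4 974)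
(fin 910 4 910)))))))))))))))))
(cons (mv 1165 (cons (mv 1229 (cons (fin 1293 6 1037)
(fin 974 6 973)))
(cons (mv 974 (cons (fin 910 5 909)
(mv 973 (cons (mv 909 (cons (fin 1166 7 909)
(fin 845 4 845)))
(mv 1164 (cons (fin 1228 5 972)
(mv 1162 (cons (fin 1163 2 1098)
(mv 972 (cons (fin 908 7 908)
(mv 971 (cons (fin 970 0 970)
(mv 1035 (cons (fin 1034 1 970)
(mv 907 (cons (fin 906 3 906)
(mv 1099 (cons (fin 1098 5 906)
(fin 1100 4 907)))))))))))))))))))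
(mv 1229 (cons (fin 1293 6 1037)
(mv 1292 (cons (fin 1228 5 1036)
(mv 972 (cons (fin 1036 7 972)
(mv 973 (cons (fin 908 7 908)
(mv 909 (cons (fin 1166 4 909)
(fin 845 4 845))))))))))))))
(mv 1103 (cons (mv 1104 (cons (fin 1036 3 1036)
(fin 1105 3 1037)))
(cons (mv 1035 (cons (fin 1036 0 1035)
(mv 1100 (cons (mv 1099 (cons (fin 1034 3 1034)
(fin 1098 2 1034)))
(mv 1164 (cons (fin 1163 1 1099)
(mv 1228 (cons (fin 1292 6 1036)
(mv 973 (cons (fin 1165 5 972)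
(fin 909 5 908)))))))))))
(mv 1104 (cons (fin 1105 3 1037)
(mv 1164 (cons (fin 1165 1 1100)
(mv 1168 (cons (fin 1169 0 1101)
(mv 1100 (cons (fin 1163 1 1099)
(fin 1167 0 1100))))))))))))))
(cons (cons (mv 1165 (cons (mv 1229 (cons (fin 1293 6 1037)
(fin 974 6 973)))
(cons (mv 1229 (cons (fin 1293 6 1037)
(mv 1228 (cons (fin 1292 5 1036)
(mv 1164 (cons (fin 973 5 972)
(mv 1163 (cons (fin 1162 2 1098)
(mv 1103 (cons (fin 1100 1 1099)
(fin 1104 1 1100)))))))))))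
(mv 974 (cons (fin 910 5 909)
(mv 973 (cons (mv 909 (cons (fin 1166 7 909)
(fin 845 4 845)))
(mv 1164 (cons (fin 1228 5 972)
(mv 1162 (cons (fin 1163 2 1098)
(mv 1103 (cons (fin 1104 1 1100)
(mv 972 (cons (fin 908 7 908)
(mv 971 (cons (fin 970 0 970)
(mv 1035 (cons (fin 1034 1 970)
(mv 907 (cons (fin 906 3 906)
(mv 1099 (cons (fin 1098 5 906)
(fin 1100 4 907))))))))))))))))))))))))
(mv 1165 (cons (mv 1229 (cons (fin 1293 6 1037)
(fin 974 6 973)))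
(cons (mv 1229 (cons (fin 1293 6 1037)
(mv 1292 (cons (fin 1228 5 1036)
(mv 972 (cons (fin 1036 7 972)
(mv 973 (cons (fin 908 7 908)
(mv 909 (cons (fin 1166 4 909)
(fin 845 4 845)))))))))))
(mv 974 (cons (fin 910 5 909)
(mv 973 (cons (mv 909 (cons (fin 1166 7 909)
(fin 845 4 845)))
(cons (mv 1164 (cons (fin 1228 5 972)
(mv 1162 (cons (fin 1163 2 1098)
(mv 1103 (cons (fin 1104 1 1100)
(mv 972 (cons (fin 908 7 908)
(mv 971 (cons (fin 970 0 970)
(mv 907 (cons (fin 906 3 906)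
(mv 1100 (cons (fin 1036 7 907)
(mv 1167 (cons (fin 1168 0 1100)
(mv 1231 (cons (fin 1295 7 1038)
(fin 1166 4 974)))))))))))))))))))
(mv 1228 (cons (fin 1164 5 972)
(mv 908 (cons (fin 972 7 908)
(mv 909 (cons (fin 844 7 844)
(fin 845 4 845))))))))))))))))
(cons (mv 1165 (cons (mv 1229 (cons (fin 1293 6 1037)
(fin 974 6 973)))
(cons (mv 1229 (cons (fin 1293 6 1037)
(mv 1292 (cons (fin 1228 5 1036)
(mv 1036 (cons (fin 972 7 972)
(mv 1103 (cons (fin 1104 3 1036)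
(fin 1035 0 1035)))))))))
(mv 974 (cons (fin 910 5 909)
(mv 973 (cons (mv 909 (cons (fin 1166 7 909)
(fin 845 4 845)))
(mv 1164 (cons (fin 1228 5 972)
(mv 1162 (cons (fin 1163 2 1098)
(mv 1103 (cons (fin 1104 1 1100)
(mv 1035 (cons (fin 1036 0 1035)
(mv 972 (cons (fin 908 7 908)
(mv 971 (cons (fin 1034 1 970)
(fin 970 0 970))))))))))))))))))))
(mv 974 (cons (mv 1165 (cons (fin 910 5 909)
(fin 1229 6 973)))
(cons (mv 1165 (cons (fin 1229 6 973)
(mv 973 (cons (mv 909 (cons (fin 1166 7 909)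
(fin 845 4 845)))
(mv 972 (cons (fin 908 7 908)
(mv 971 (cons (fin 970 0 970)
(mv 1035 (cons (fin 1034 1 970)
(mv 1103 (cons (fin 1036 0 1035)
(mv 1104 (cons (fin 1105 3 1037)
(mv 1168 (cons (fin 1169 0 1101)
(mv 1167 (cons (fin 1100 0 1100)
(mv 1231 (cons (fin 976 5 975)
(fin 1295 7 1038)))))))))))))))))))))
(mv 910 (cons (fin 846 5 845)
(mv 1167 (cons (fin 1103 4 910)
(mv 1166 (cons (fin 1231 4 974)
(mv 909 (cons (fin 973 7 909)
(fin 845 7 845)))))))))))))))))))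
(cons (cons (cons (mv 1103 (cons (cons (mv 1104 (cons (fin 1105 3 1037)
(mv 1036 (cons (fin 1101 3 1036)
(fin 1035 0 1035)))))
(mv 1035 (cons (fin 1036 0 1035)
(mv 1166 (cons (cons (mv 1230 (cons (fin 973 7 973)
(mv 1293 (cons (fin 1229 5 1037)
(mv 1294 (cons (fin 1357 5 1101)
(fin 1101 7 1037)))))))
(mv 974 (cons (mv 1167 (cons (fin 1231 4 974)
(fin 910 4 910)))
(cons (mv 1165 (cons (fin 1229 5 973)
(mv 1163 (cons (fin 1164 2 1099)
(mv 1101 (cons (fin 910 5 909)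
(mv 973 (cons (fin 909 7 909)
(mv 972 (cons (fin 908 7 908)
(mv 971 (cons (fin 1034 1 970)
(fin 970 0 970)))))))))))))
(mv 1231 (cons (fin 1167 4 974)
(mv 1165 (cons (fin 1229 5 973)
(mv 1164 (cons (fin 1163 2 1099)
(mv 973 (cons (fin 909 7 909)
(mv 1101 (cons (fin 1228 5 972)
(mv 972 (cons (fin 908 7 908)
(mv 971 (cons (fin 1034 1 970)
(fin 970 0 970)))))))))))))))))))
(cons (mv 974 (cons (mv 1167 (cons (fin 1231 4 974)
(fin 910 4 910)))
(cons (mv 1229 (cons (fin 1165 5 973)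
(mv 1230 (cons (fin 1293 5 1037)
(mv 1294 (cons (fin 1101 7 1037)
(mv 1295 (cons (fin 1359 4 1102)
(fin 1231 4 1038)))))))))
(mv 1229 (cons (fin 1165 5 973)
(mv 1293 (cons (fin 1230 5 1037)
(mv 910 (cons (fin 1167 4 910)
(mv 846 (cons (fin 1101 5 845)
(mv 847 (cons (fin 911 6 846)
(fin 783 6 782))))))))))))))
(cons (mv 1230 (cons (fin 973 7 973)
(mv 1293 (cons (fin 1229 5 1037)
(mv 1294 (cons (fin 1357 5 1101)
(mv 1295 (cons (fin 1359 4 1102)
(fin 1231 4 1038)))))))))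
(mv 1230 (cons (fin 973 7 973)
(mv 1294 (cons (fin 1101 7 1037)
(mv 1295 (cons (fin 1359 4 1102)
(fin 1231 4 1038))))))))))))))
(cons (mv 1104 (cons (fin 1105 3 1037)
(mv 1167 (cons (mv 1231 (cons (fin 1295 7 1038)
(mv 974 (cons (fin 1166 4 974)
(fin 910 4 910)))))
(cons (mv 974 (cons (fin 910 4 910)
(mv 976 (cons (fin 912 5 911)
(mv 1168 (cons (mv 1169 (cons (fin 1170 3 1102)
(fin 1101 0 1101)))
(cons (mv 1101 (cons (fin 1100 0 1100)
(mv 1165 (cons (fin 1164 1 1100)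
(fin 1229 6 973)))))
(mv 1169 (cons (fin 1170 3 1102)
(fin 1233 4 976))))))))))
(mv 1231 (cons (fin 1295 7 1038)
(mv 976 (cons (fin 1168 5 975)
(fin 912 5 911))))))))))
(mv 1104 (cons (fin 1105 3 1037)
(mv 1035 (cons (fin 1036 0 1035)
(mv 1167 (cons (mv 1231 (cons (fin 1295 7 1038)
(mv 974 (cons (fin 1166 4 974)
(fin 910 4 910)))))
(cons (mv 974 (cons (fin 910 4 910)
(mv 976 (cons (fin 912 5 911)
(mv 1166 (cons (mv 1165 (cons (fin 1164 2 1100)
(fin 1229 5 973)))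
(mv 973 (cons (fin 1230 7 973)
(fin 909 7 909)))))))))
(mv 1231 (cons (fin 1295 7 1038)
(mv 976 (cons (fin 1168 5 975)
(fin 912 5 911)))))))))))))))
(mv 1166 (cons (cons (mv 1230 (cons (fin 973 7 973)
(mv 1293 (cons (fin 1229 5 1037)
(mv 1294 (cons (fin 1357 5 1101)
(mv 1295 (cons (fin 1359 4 1102)
(fin 1231 4 1038)))))))))
(mv 974 (cons (cons (mv 1229 (cons (fin 1165 5 973)
(mv 1167 (cons (fin 1231 4 974)
(mv 973 (cons (fin 909 7 909)
(mv 910 (cons (fin 1103 4 910)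
(mv 846 (cons (fin 782 5 781)
(mv 847 (cons (fin 911 6 846)
(fin 783 6 782)))))))))))))
(cons (mv 1229 (cons (fin 1165 5 973)
(mv 1167 (cons (fin 1231 4 974)
(mv 910 (cons (fin 1103 4 910)
(mv 847 (cons (fin 911 6 846)
(mv 846 (cons (fin 783 6 782)
(mv 781 (cons (fin 845 7 781)
(mv 782 (cons (fin 973 5 781)
(fin 717 7 717)))))))))))))))
(mv 1229 (cons (fin 1165 5 973)
(mv 1167 (cons (fin 1231 4 974)
(mv 910 (cons (fin 1103 4 910)
(mv 845 (cons (fin 909 7 845)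
(mv 846 (cons (fin 781 7 781)
(mv 847 (cons (fin 911 6 846)
(fin 783 6 782)))))))))))))))
(cons (mv 1229 (cons (fin 1165 5 973)
(mv 910 (cons (cons (mv 909 (cons (fin 973 7 909)
(fin 845 7 845)))
(mv 847 (cons (fin 911 6 846)
(mv 846 (cons (fin 783 6 782)
(mv 781 (cons (fin 845 7 781)
(mv 782 (cons (fin 973 5 781)
(fin 717 7 717))))))))))
(cons (mv 845 (cons (fin 909 7 845)
(mv 846 (cons (fin 781 7 781)
(mv 847 (cons (fin 911 6 846)
(fin 783 6 782)))))))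
(mv 973 (cons (fin 909 7 909)
(mv 846 (cons (fin 782 5 781)
(mv 847 (cons (fin 911 6 846)
(fin 783 6 782))))))))))))
(cons (mv 1167 (cons (fin 1231 4 974)
(mv 973 (cons (fin 909 7 909)
(mv 910 (cons (fin 1103 4 910)
(mv 846 (cons (fin 782 5 781)
(mv 847 (cons (fin 911 6 846)
(fin 783 6 782)))))))))))
(mv 1165 (cons (fin 1229 5 973)
(mv 1167 (cons (fin 1231 4 974)
(mv 973 (cons (fin 909 7 909)
(mv 1164 (cons (mv 1103 (cons (fin 1163 2 1099)
(fin 1104 2 1100)))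
(cons (mv 1227 (cons (fin 1228 1 1163)
(mv 1163 (cons (fin 1226 1 1162)
(mv 1099 (cons (fin 1098 3 1098)
(fin 1100 3 1099)))))))
(mv 1227 (cons (fin 1228 1 1163)
(mv 1099 (cons (fin 1100 3 1099)
(mv 1104 (cons (fin 1103 2 1100)
(mv 1168 (cons (fin 1105 2 1101)
(mv 1233 (cons (fin 1232 0 1165)
(mv 1169 (cons (fin 1234 0 1166)
(fin 976 4 976)))))))))))))))))))))))))))
(cons (mv 1229 (cons (cons (mv 1293 (cons (fin 1230 5 1037)
(mv 1165 (cons (fin 974 5 973)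
(fin 1357 6 1101)))))
(mv 974 (cons (fin 1165 5 973)
(mv 1167 (cons (fin 1231 4 974)
(mv 910 (cons (fin 1103 4 910)
(mv 845 (cons (fin 909 7 845)
(mv 846 (cons (fin 781 7 781)
(mv 847 (cons (fin 911 6 846)
(fin 783 6 782))))))))))))))
(cons (mv 1230 (cons (fin 1293 5 1037)
(mv 1231 (cons (fin 1295 4 1038)
(mv 1167 (cons (fin 974 4 974)
(mv 1228 (cons (fin 1227 2 1163)
(fin 1168 2 1164)))))))))
(mv 1230 (cons (fin 1293 5 1037)
(mv 1231 (cons (fin 1295 4 1038)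
(mv 1232 (cons (mv 1165 (cons (fin 1164 3 1164)
(fin 1233 3 1165)))
(cons (mv 1296 (cons (fin 1297 0 1229)
(mv 1168 (cons (fin 1169 2 1165)
(mv 1228 (cons (fin 1167 2 1164)
(mv 1291 (cons (fin 1292 1 1227)
(mv 1227 (cons (fin 1290 1 1226)
(mv 1163 (cons (fin 1162 3 1162)
(fin 1164 3 1163)))))))))))))
(mv 1296 (cons (fin 1297 0 1229)
(mv 1233 (cons (fin 1165 3 1165)
(mv 1169 (cons (fin 1168 2 1165)
(fin 1170 2 1166)))))))))))))))))
(mv 973 (cons (fin 1230 7 973)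
(mv 909 (cons (fin 974 7 909)
(fin 845 4 845)))))))))
(cons (mv 1104 (cons (cons (mv 1103 (cons (fin 1105 3 1037)
(mv 1036 (cons (fin 1101 3 1036)
(fin 1035 0 1035)))))
(mv 1168 (cons (cons (cons (mv 976 (cons (cons (mv 1231 (cons (fin 1167 5 975)
(mv 1295 (cons (fin 1232 5 1039)
(mv 1230 (cons (fin 1166 4 1038)
(mv 1169 (cons (fin 1233 4 976)
(mv 912 (cons (fin 1105 4 912)
(mv 913 (cons (fin 977 6 912)
(fin 849 6 848)))))))))))))
(mv 1231 (cons (fin 1167 5 975)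
(mv 1232 (cons (fin 1295 5 1039)
(mv 1297 (cons (fin 1233 4 1040)
(mv 1296 (cons (fin 1361 4 1104)
(mv 1298 (cons (fin 1299 3 1231)
(mv 1230 (cons (fin 1229 0 1229)
(mv 1166 (cons (fin 973 7 973)
(mv 1294 (cons (fin 1101 7 1037)
(mv 1357 (cons (fin 1293 5 1101)
(mv 1358 (cons (fin 1421 5 1165)
(mv 1359 (cons (fin 1360 2 1293)
(fin 1423 4 1166))))))))))))))))))))))))
(cons (mv 1169 (cons (fin 1233 4 976)
(mv 977 (cons (fin 913 6 912)
(mv 912 (cons (fin 1105 4 912)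
(mv 911 (cons (fin 847 7 847)
(mv 978 (cons (fin 979 3 911)
(mv 909 (cons (fin 910 0 909)
(mv 973 (cons (fin 845 4 845)
(mv 1166 (cons (fin 1230 7 973)
(fin 1101 4 909)))))))))))))))))
(cons (mv 1231 (cons (fin 1167 5 975)
(mv 1232 (cons (fin 1295 5 1039)
(mv 913 (cons (fin 977 6 912)
(mv 912 (cons (fin 849 6 848)
(mv 1169 (cons (fin 1105 4 912)
(mv 1230 (cons (fin 1229 2 1165)
(mv 1170 (cons (fin 1171 1 1167)
(mv 973 (cons (fin 1166 7 973)
(mv 845 (cons (fin 909 4 845)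
(mv 847 (cons (fin 911 7 847)
(mv 848 (cons (fin 846 0 845)
(fin 783 7 783)))))))))))))))))))))))
(mv 1231 (cons (fin 1167 5 975)
(mv 1295 (cons (fin 1232 5 1039)
(mv 1169 (cons (fin 1233 4 976)
(mv 912 (cons (fin 1105 4 912)
(mv 913 (cons (fin 977 6 912)
(fin 849 6 848)))))))))))))))
(cons (mv 1232 (cons (cons (mv 1295 (cons (fin 1231 5 1039)
(mv 1296 (cons (fin 1359 5 1103)
(mv 1297 (cons (fin 1361 4 1104)
(fin 1233 4 1040)))))))
(mv 1233 (cons (fin 1297 4 1040)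
(mv 1166 (cons (cons (mv 1230 (cons (fin 973 7 973)
(mv 1165 (cons (fin 1231 3 1165)
(fin 1167 0 1165)))))
(mv 1230 (cons (fin 973 7 973)
(mv 1293 (cons (fin 1229 5 1037)
(mv 1294 (cons (fin 1231 1 1229)
(fin 1357 5 1101))))))))
(cons (mv 1167 (cons (fin 1165 0 1165)
(mv 1234 (cons (fin 1231 3 1166)
(fin 1235 3 1167)))))
(mv 1230 (cons (fin 973 7 973)
(mv 1293 (cons (fin 1229 5 1037)
(mv 1294 (cons (fin 1357 5 1101)
(fin 1101 7 1037)))))))))))))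
(cons (mv 1231 (cons (fin 1295 5 1039)
(mv 1230 (cons (cons (mv 1229 (cons (fin 1169 2 1165)
(mv 1293 (cons (fin 1292 1 1228)
(fin 1166 5 1037)))))
(mv 1166 (cons (fin 973 7 973)
(mv 1294 (cons (fin 1101 7 1037)
(mv 1293 (cons (fin 1233 1 1229)
(fin 1357 5 1101))))))))
(cons (mv 1229 (cons (fin 1169 2 1165)
(mv 1292 (cons (fin 1293 1 1228)
(mv 1228 (cons (fin 1291 1 1227)
(fin 1167 2 1164)))))))
(mv 1229 (cons (fin 1169 2 1165)
(mv 1228 (cons (fin 1167 2 1164)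
(mv 1164 (cons (fin 1163 3 1163)
(fin 1165 3 1164))))))))))))
(cons (mv 1233 (cons (fin 1297 4 1040)
(mv 1166 (cons (mv 1230 (cons (fin 973 7 973)
(mv 1293 (cons (fin 1229 5 1037)
(mv 1294 (cons (fin 1357 5 1101)
(fin 1101 7 1037)))))))
(mv 1167 (cons (fin 1165 0 1165)
(mv 1234 (cons (fin 1235 3 1167)
(fin 1169 0 1166)))))))))
(mv 1295 (cons (fin 1231 5 1039)
(mv 1296 (cons (fin 1359 5 1103)
(mv 1361 (cons (fin 1297 4 1104)
(mv 1360 (cons (fin 1425 4 1168)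
(mv 1362 (cons (fin 1363 3 1295)
(mv 1293 (cons (fin 1294 0 1293)
(mv 1105 (cons (fin 1169 6 1104)
(mv 1166 (cons (mv 1230 (cons (fin 1229 5 1037)
(fin 973 7 973)))
(cons (mv 1165 (cons (fin 1167 2 1101)
(mv 1229 (cons (fin 1357 6 1101)
(fin 1101 6 1037)))))
(mv 1165 (cons (fin 1167 2 1101)
(mv 973 (cons (fin 1230 7 973)
(mv 909 (cons (fin 1101 4 909)
(fin 845 4 845))))))))))))))))))))))))))))
(mv 1232 (cons (cons (mv 1295 (cons (fin 1231 5 1039)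
(mv 1296 (cons (fin 1359 5 1103)
(mv 1297 (cons (fin 1361 4 1104)
(fin 1233 4 1040)))))))
(mv 1233 (cons (fin 1297 4 1040)
(mv 1169 (cons (fin 976 4 976)
(mv 1296 (cons (mv 1360 (cons (fin 1424 6 1168)
(fin 1105 6 1104)))
(mv 1295 (cons (fin 1359 5 1103)
(mv 1293 (cons (fin 1294 2 1229)
(mv 1234 (cons (fin 1235 1 1231)
(mv 1166 (cons (fin 1167 0 1166)
(mv 1229 (cons (fin 1230 5 1037)
(mv 1165 (cons (fin 1357 6 1101)
(fin 1101 6 1037))))))))))))))))))))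
(cons (mv 1231 (cons (fin 1295 5 1039)
(mv 1167 (cons (fin 976 5 975)
(mv 1169 (cons (mv 1230 (cons (fin 1170 1 1166)
(fin 1229 2 1165)))
(mv 1166 (cons (fin 1101 3 1101)
(mv 1165 (cons (fin 1164 0 1164)
(fin 1105 2 1101)))))))))))
(mv 1233 (cons (fin 1297 4 1040)
(mv 1167 (cons (mv 976 (cons (fin 1231 5 975)
(fin 1169 4 976)))
(cons (mv 1234 (cons (fin 1235 3 1167)
(mv 1166 (cons (fin 1231 3 1166)
(fin 1165 0 1165)))))
(mv 1234 (cons (fin 1235 3 1167)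
(mv 1166 (cons (fin 1165 0 1165)
(fin 1169 0 1166)))))))))))))))
(cons (mv 976 (cons (cons (mv 1231 (cons (fin 1167 5 975)
(mv 1169 (cons (fin 1233 4 976)
(mv 977 (cons (fin 913 6 912)
(mv 912 (cons (fin 1105 4 912)
(mv 911 (cons (fin 847 7 847)
(mv 978 (cons (fin 979 3 911)
(mv 909 (cons (fin 910 0 909)
(mv 973 (cons (fin 845 4 845)
(mv 1166 (cons (fin 1230 7 973)
(fin 1101 4 909)))))))))))))))))))
(mv 1167 (cons (fin 1231 5 975)
(mv 913 (cons (fin 977 6 912)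
(mv 912 (cons (fin 849 6 848)
(mv 847 (cons (fin 911 7 847)
(mv 848 (cons (fin 783 7 783)
(mv 914 (cons (fin 915 3 847)
(mv 845 (cons (fin 846 0 845)
(mv 973 (cons (fin 909 4 845)
(mv 1166 (cons (fin 1230 7 973)
(mv 1165 (cons (fin 1105 2 1101)
(mv 1228 (cons (fin 1229 1 1164)
(mv 1164 (cons (fin 1227 1 1163)
(fin 1101 5 972))))))))))))))))))))))))))
(cons (mv 1167 (cons (fin 1231 5 975)
(mv 1169 (cons (fin 1233 4 976)
(mv 1166 (cons (fin 1101 3 1101)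
(mv 1230 (cons (fin 1229 1 1165)
(fin 973 7 973)))))))))
(cons (mv 1169 (cons (fin 1233 4 976)
(mv 977 (cons (fin 913 6 912)
(mv 912 (cons (fin 1105 4 912)
(mv 911 (cons (fin 847 7 847)
(mv 978 (cons (fin 979 3 911)
(mv 909 (cons (fin 910 0 909)
(mv 973 (cons (fin 845 4 845)
(mv 1166 (cons (fin 1230 7 973)
(fin 1101 4 909)))))))))))))))))
(mv 1231 (cons (fin 1167 5 975)
(mv 1169 (cons (fin 1233 4 976)
(mv 912 (cons (fin 1105 4 912)
(mv 913 (cons (fin 977 6 912)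
(fin 849 6 848)))))))))))))
(cons (mv 1166 (cons (cons (mv 1230 (cons (fin 973 7 973)
(mv 1293 (cons (fin 1229 5 1037)
(mv 1294 (cons (fin 1357 5 1101)
(fin 1101 7 1037)))))))
(mv 1167 (cons (cons (mv 1165 (cons (fin 1105 2 1101)
(mv 1101 (cons (fin 1100 3 1100)
(fin 1169 3 1101)))))
(mv 1165 (cons (fin 1105 2 1101)
(mv 1228 (cons (fin 1229 1 1164)
(mv 1232 (cons (fin 1233 0 1165)
(mv 1164 (cons (fin 1227 1 1163)
(mv 1100 (cons (fin 1099 3 1099)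
(fin 1101 3 1100))))))))))))
(cons (mv 1169 (cons (fin 1101 3 1101)
(mv 1233 (cons (fin 1234 0 1166)
(fin 976 4 976)))))
(mv 1165 (cons (fin 1105 2 1101)
(mv 1228 (cons (fin 1229 1 1164)
(mv 1227 (cons (fin 1164 1 1163)
(mv 1233 (cons (fin 1232 0 1165)
(mv 1169 (cons (fin 1234 0 1166)
(fin 976 4 976)))))))))))))))
(cons (mv 1230 (cons (fin 973 7 973)
(mv 1229 (cons (fin 1293 5 1037)
(mv 1167 (cons (fin 1169 1 1165)
(mv 1228 (cons (fin 1165 1 1164)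
(fin 1227 2 1163)))))))))
(mv 1230 (cons (fin 973 7 973)
(mv 1294 (cons (fin 1101 7 1037)
(mv 1357 (cons (fin 1293 5 1101)
(mv 1358 (cons (fin 1421 5 1165)
(mv 1359 (cons (fin 1423 4 1166)
(fin 1295 4 1102))))))))))))))
(mv 1231 (cons (mv 1295 (cons (fin 1232 5 1039)
(mv 1167 (cons (fin 976 5 975)
(fin 1359 6 1103)))))
(cons (mv 1167 (cons (fin 976 5 975)
(mv 1166 (cons (mv 1230 (cons (fin 973 7 973)
(mv 1229 (cons (fin 1169 1 1165)
(fin 1228 2 1164)))))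
(cons (mv 1165 (cons (fin 1105 2 1101)
(mv 1101 (cons (fin 1100 3 1100)
(fin 1169 3 1101)))))
(mv 1230 (cons (fin 973 7 973)
(mv 1229 (cons (fin 1228 2 1164)
(fin 1293 5 1037))))))))))
(mv 1230 (cons (mv 1295 (cons (fin 1232 5 1039)
(fin 1166 4 1038)))
(cons (mv 1232 (cons (fin 1295 5 1039)
(mv 1229 (cons (fin 1169 2 1165)
(mv 1292 (cons (fin 1293 1 1228)
(mv 1296 (cons (fin 1297 0 1229)
(mv 1228 (cons (fin 1291 1 1227)
(mv 1164 (cons (fin 1163 3 1163)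
(fin 1165 3 1164)))))))))))))
(mv 1166 (cons (fin 973 7 973)
(mv 1293 (cons (fin 1229 5 1037)
(mv 1294 (cons (fin 1357 5 1101)
(fin 1101 7 1037))))))))))))))))
(cons (cons (mv 1231 (cons (cons (mv 1295 (cons (fin 1232 5 1039)
(mv 1167 (cons (fin 976 5 975)
(fin 1359 6 1103)))))
(mv 1232 (cons (fin 1295 5 1039)
(mv 1233 (cons (fin 1297 4 1040)
(mv 1230 (cons (mv 1169 (cons (fin 1229 2 1165)
(fin 1170 2 1166)))
(cons (mv 1293 (cons (fin 1294 1 1229)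
(mv 1229 (cons (fin 1292 1 1228)
(mv 1165 (cons (fin 1164 3 1164)
(fin 1101 6 1037)))))))
(mv 1293 (cons (fin 1294 1 1229)
(mv 1170 (cons (fin 1169 2 1166)
(mv 1234 (cons (fin 1171 2 1167)
(mv 1299 (cons (fin 1298 0 1231)
(mv 1235 (cons (fin 1167 3 1167)
(fin 1300 0 1232)))))))))))))))))))
(cons (mv 976 (cons (fin 1167 5 975)
(mv 1169 (cons (fin 1233 4 976)
(mv 912 (cons (fin 1105 4 912)
(mv 913 (cons (fin 977 6 912)
(fin 849 6 848)))))))))
(mv 1232 (cons (fin 1295 5 1039)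
(mv 1233 (cons (fin 1297 4 1040)
(mv 1169 (cons (fin 976 4 976)
(mv 1230 (cons (fin 1229 2 1165)
(fin 1170 2 1166))))))))))))
(cons (mv 1231 (cons (cons (mv 1295 (cons (fin 1232 5 1039)
(mv 1167 (cons (fin 976 5 975)
(fin 1359 6 1103)))))
(mv 1167 (cons (fin 976 5 975)
(mv 1166 (cons (mv 1230 (cons (fin 973 7 973)
(mv 1229 (cons (fin 1228 2 1164)
(fin 1293 5 1037)))))
(mv 1165 (cons (fin 1105 2 1101)
(mv 1232 (cons (fin 1164 0 1164)
(fin 1233 0 1165))))))))))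
(cons (mv 1232 (cons (fin 1295 5 1039)
(mv 1297 (cons (fin 1233 4 1040)
(mv 1296 (cons (fin 1361 4 1104)
(mv 1298 (cons (fin 1299 3 1231)
(mv 1230 (cons (fin 1229 0 1229)
(mv 1166 (cons (fin 973 7 973)
(mv 1294 (cons (fin 1101 7 1037)
(mv 1357 (cons (fin 1293 5 1101)
(mv 1358 (cons (fin 1421 5 1165)
(mv 1359 (cons (fin 1360 2 1293)
(fin 1423 4 1166)))))))))))))))))))))
(mv 1167 (cons (fin 976 5 975)
(mv 1295 (cons (fin 1359 6 1103)
(mv 1166 (cons (fin 1230 4 1038)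
(mv 1165 (cons (fin 1105 2 1101)
(mv 1228 (cons (fin 1229 1 1164)
(mv 1164 (cons (fin 1227 1 1163)
(mv 1100 (cons (fin 1099 3 1099)
(fin 1101 3 1100))))))))))))))))))
(mv 1232 (cons (cons (mv 1295 (cons (fin 1231 5 1039)
(mv 1296 (cons (fin 1359 5 1103)
(mv 1297 (cons (fin 1361 4 1104)
(fin 1233 4 1040)))))))
(mv 1230 (cons (mv 1295 (cons (fin 1231 5 1039)
(mv 1359 (cons (fin 1296 5 1103)
(mv 1166 (cons (fin 973 7 973)
(fin 1294 4 1102)))))))
(cons (mv 1231 (cons (fin 1295 5 1039)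
(mv 1229 (cons (fin 1169 2 1165)
(mv 1292 (cons (fin 1293 1 1228)
(mv 1296 (cons (fin 1297 0 1229)
(mv 1228 (cons (fin 1291 1 1227)
(mv 1164 (cons (fin 1163 3 1163)
(fin 1165 3 1164)))))))))))))
(mv 1166 (cons (fin 973 7 973)
(mv 1293 (cons (fin 1229 5 1037)
(mv 1294 (cons (fin 1357 5 1101)
(fin 1101 7 1037)))))))))))
(cons (mv 1231 (cons (fin 1295 5 1039)
(mv 1230 (cons (cons (mv 1229 (cons (fin 1169 2 1165)
(mv 1293 (cons (fin 1292 1 1228)
(fin 1166 5 1037)))))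
(mv 1166 (cons (fin 973 7 973)
(mv 1294 (cons (fin 1101 7 1037)
(mv 1293 (cons (fin 1233 1 1229)
(fin 1357 5 1101))))))))
(cons (mv 1229 (cons (fin 1169 2 1165)
(mv 1292 (cons (fin 1293 1 1228)
(mv 1228 (cons (fin 1291 1 1227)
(mv 1164 (cons (fin 1163 3 1163)
(fin 1165 3 1164)))))))))
(mv 1229 (cons (fin 1169 2 1165)
(mv 1164 (cons (fin 1165 3 1164)
(mv 1228 (cons (fin 1163 3 1163)
(mv 1291 (cons (fin 1292 1 1227)
(mv 1290 (cons (fin 1227 1 1226)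
(mv 973 (cons (fin 1166 7 973)
(mv 1100 (cons (fin 1036 6 972)
(mv 909 (cons (fin 1101 5 908)
(fin 845 4 845))))))))))))))))))))))
(cons (mv 1233 (cons (fin 1297 4 1040)
(mv 1169 (cons (fin 976 4 976)
(mv 1230 (cons (mv 1231 (cons (fin 1229 2 1165)
(fin 1170 2 1166)))
(cons (mv 1166 (cons (fin 973 7 973)
(mv 1293 (cons (fin 1229 5 1037)
(mv 1294 (cons (fin 1357 5 1101)
(fin 1101 7 1037)))))))
(mv 1231 (cons (fin 1170 2 1166)
(mv 1166 (cons (fin 1165 3 1165)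
(fin 973 7 973))))))))))))
(mv 1296 (cons (cons (mv 1297 (cons (fin 1361 4 1104)
(fin 1233 4 1040)))
(mv 1359 (cons (fin 1295 5 1103)
(mv 1360 (cons (fin 1423 5 1167)
(mv 1425 (cons (fin 1361 4 1168)
(mv 1424 (cons (fin 1489 4 1232)
(mv 1169 (cons (fin 1233 6 1168)
(fin 1105 6 1104))))))))))))
(cons (mv 1359 (cons (fin 1295 5 1103)
(mv 1360 (cons (fin 1423 5 1167)
(mv 1361 (cons (fin 1425 4 1168)
(fin 1297 4 1104)))))))
(mv 1359 (cons (fin 1295 5 1103)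
(mv 1360 (cons (fin 1423 5 1167)
(mv 1233 (cons (fin 1297 4 1040)
(mv 1169 (cons (fin 976 4 976)
(fin 1424 6 1168))))))))))))))))))
(cons (mv 1232 (cons (cons (mv 1295 (cons (fin 1231 5 1039)
(mv 1296 (cons (fin 1359 5 1103)
(mv 1297 (cons (fin 1361 4 1104)
(fin 1233 4 1040)))))))
(mv 1231 (cons (fin 1295 5 1039)
(mv 1167 (cons (fin 976 5 975)
(mv 1166 (cons (mv 1165 (cons (fin 1164 0 1164)
(fin 1105 2 1101)))
(cons (mv 1169 (cons (fin 1101 3 1101)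
(mv 1170 (cons (fin 1171 1 1167)
(mv 1106 (cons (fin 1105 2 1102)
(fin 1107 2 1103)))))))
(mv 1164 (cons (fin 1165 0 1164)
(mv 1101 (cons (fin 1169 3 1101)
(mv 1100 (cons (fin 1099 0 1099)
(mv 1228 (cons (fin 1292 6 1036)
(mv 973 (cons (fin 909 5 908)
(fin 1036 6 972)))))))))))))))))))
(cons (mv 1296 (cons (cons (mv 1297 (cons (fin 1361 4 1104)
(fin 1233 4 1040)))
(mv 1359 (cons (fin 1295 5 1103)
(mv 1360 (cons (fin 1423 5 1167)
(mv 1425 (cons (fin 1361 4 1168)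
(mv 1424 (cons (fin 1489 4 1232)
(mv 1169 (cons (fin 1233 6 1168)
(fin 1105 6 1104))))))))))))
(cons (mv 1359 (cons (fin 1295 5 1103)
(mv 1360 (cons (fin 1423 5 1167)
(mv 1361 (cons (fin 1425 4 1168)
(fin 1297 4 1104)))))))
(mv 1359 (cons (fin 1295 5 1103)
(mv 1360 (cons (fin 1423 5 1167)
(mv 1233 (cons (fin 1297 4 1040)
(mv 1169 (cons (fin 976 4 976)
(fin 1424 6 1168))))))))))))
(mv 1233 (cons (fin 1297 4 1040)
(mv 1167 (cons (mv 976 (cons (fin 1231 5 975)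
(fin 1169 4 976)))
(cons (mv 1234 (cons (fin 1235 3 1167)
(mv 1166 (cons (fin 1231 3 1166)
(fin 1165 0 1165)))))
(mv 1234 (cons (fin 1235 3 1167)
(mv 1166 (cons (fin 1165 0 1165)
(fin 1169 0 1166)))))))))))))
(cons (mv 976 (cons (cons (mv 1231 (cons (fin 1167 5 975)
(mv 1295 (cons (fin 1232 5 1039)
(mv 1230 (cons (fin 1166 4 1038)
(mv 1169 (cons (fin 1233 4 976)
(mv 912 (cons (fin 1105 4 912)
(mv 913 (cons (fin 977 6 912)
(fin 849 6 848)))))))))))))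
(mv 1231 (cons (fin 1167 5 975)
(mv 1232 (cons (fin 1295 5 1039)
(mv 1297 (cons (fin 1233 4 1040)
(mv 1296 (cons (fin 1361 4 1104)
(mv 1298 (cons (fin 1299 3 1231)
(mv 1230 (cons (fin 1229 0 1229)
(mv 973 (cons (fin 1166 7 973)
(mv 913 (cons (fin 977 6 912)
(mv 912 (cons (fin 849 6 848)
(mv 845 (cons (fin 909 4 845)
(mv 847 (cons (fin 911 7 847)
(mv 848 (cons (fin 846 0 845)
(fin 783 7 783))))))))))))))))))))))))))
(cons (mv 1169 (cons (fin 1233 4 976)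
(mv 912 (cons (fin 1105 4 912)
(mv 913 (cons (fin 977 6 912)
(fin 849 6 848)))))))
(cons (mv 1231 (cons (fin 1167 5 975)
(mv 1232 (cons (fin 1295 5 1039)
(mv 913 (cons (fin 977 6 912)
(mv 912 (cons (fin 849 6 848)
(mv 1169 (cons (fin 1105 4 912)
(mv 1230 (cons (fin 1229 2 1165)
(mv 1170 (cons (fin 1171 1 1167)
(mv 973 (cons (fin 1166 7 973)
(mv 845 (cons (fin 909 4 845)
(mv 847 (cons (fin 911 7 847)
(mv 848 (cons (fin 846 0 845)
(fin 783 7 783)))))))))))))))))))))))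
(mv 1231 (cons (fin 1167 5 975)
(mv 1232 (cons (fin 1295 5 1039)
(mv 1233 (cons (fin 1297 4 1040)
(fin 1169 4 976)))))))))))
(mv 973 (cons (mv 1166 (cons (fin 1230 7 973)
(mv 909 (cons (fin 1101 4 909)
(fin 845 4 845)))))
(cons (mv 1166 (cons (fin 1230 7 973)
(mv 1167 (cons (mv 1231 (cons (fin 976 5 975)
(mv 1295 (cons (fin 1232 5 1039)
(fin 1359 7 1102)))))
(cons (mv 1169 (cons (fin 1101 3 1101)
(mv 1233 (cons (fin 1234 0 1166)
(fin 976 4 976)))))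
(mv 1169 (cons (fin 1101 3 1101)
(mv 1233 (cons (fin 1234 0 1166)
(mv 1297 (cons (fin 1361 7 1104)
(fin 1232 4 1040))))))))))))
(mv 845 (cons (fin 909 4 845)
(mv 976 (cons (cons (mv 1231 (cons (fin 1167 5 975)
(mv 1295 (cons (fin 1232 5 1039)
(mv 1233 (cons (fin 1169 4 976)
(mv 913 (cons (fin 977 6 912)
(mv 912 (cons (fin 849 6 848)
(mv 847 (cons (fin 911 7 847)
(mv 848 (cons (fin 846 0 845)
(fin 783 7 783)))))))))))))))
(mv 1233 (cons (fin 1169 4 976)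
(mv 1297 (cons (fin 1232 4 1040)
(mv 913 (cons (fin 977 6 912)
(mv 912 (cons (fin 849 6 848)
(mv 847 (cons (fin 911 7 847)
(mv 848 (cons (fin 846 0 845)
(fin 783 7 783))))))))))))))
(cons (mv 1231 (cons (fin 1167 5 975)
(mv 1232 (cons (fin 1295 5 1039)
(mv 1233 (cons (fin 1297 4 1040)
(fin 1169 4 976)))))))
(cons (mv 1231 (cons (fin 1167 5 975)
(mv 1295 (cons (fin 1232 5 1039)
(mv 913 (cons (fin 977 6 912)
(mv 912 (cons (fin 849 6 848)
(mv 847 (cons (fin 911 7 847)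
(mv 848 (cons (fin 846 0 845)
(fin 783 7 783)))))))))))))
(mv 1231 (cons (fin 1167 5 975)
(mv 1233 (cons (fin 1169 4 976)
(mv 913 (cons (fin 977 6 912)
(mv 912 (cons (fin 849 6 848)
(mv 847 (cons (fin 911 7 847)
(mv 848 (cons (fin 846 0 845)
(fin 783 7 783))))))))))))))))))))))))))))
(cons (mv 1036 (cons (cons (mv 1103 (cons (fin 1101 3 1036)
(fin 1035 0 1035)))
(mv 1035 (cons (cons (mv 1098 (cons (fin 1099 1 1034)
(mv 1034 (cons (fin 1097 1 1033)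
(fin 1101 0 1034)))))
(mv 1099 (cons (fin 1098 1 1034)
(mv 971 (cons (fin 970 3 970)
(mv 1163 (cons (cons (mv 972 (cons (fin 1227 6 971)
(fin 908 6 907)))
(mv 1226 (cons (fin 1162 5 970)
(mv 1290 (cons (fin 1227 5 1034)
(mv 1164 (cons (fin 1228 4 971)
(mv 907 (cons (fin 1100 4 907)
(mv 908 (cons (fin 844 6 843)
(mv 842 (cons (fin 906 7 842)
(mv 843 (cons (fin 778 7 778)
(mv 909 (cons (fin 910 3 842)
(mv 973 (cons (fin 845 4 845)
(mv 1166 (cons (fin 1230 7 973)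
(fin 1101 4 909))))))))))))))))))))))
(cons (mv 1226 (cons (fin 1162 5 970)
(mv 1228 (cons (fin 1164 4 971)
(mv 908 (cons (fin 972 6 907)
(mv 907 (cons (fin 844 6 843)
(mv 842 (cons (fin 906 7 842)
(mv 843 (cons (fin 778 7 778)
(fin 1100 4 843)))))))))))))
(mv 1226 (cons (fin 1162 5 970)
(mv 1227 (cons (fin 1290 5 1034)
(fin 972 6 971)))))))))))))
(cons (mv 1034 (cons (fin 1101 0 1034)
(mv 970 (cons (fin 969 3 969)
(fin 971 3 970)))))
(mv 1098 (cons (fin 1099 1 1034)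
(mv 1034 (cons (fin 1097 1 1033)
(mv 970 (cons (fin 969 3 969)
(fin 971 3 970)))))))))))
(cons (mv 1101 (cons (fin 1103 3 1036)
(mv 973 (cons (mv 1166 (cons (fin 1230 7 973)
(fin 909 4 909)))
(cons (mv 1230 (cons (fin 1166 7 973)
(mv 1165 (cons (mv 1229 (cons (fin 972 7 972)
(fin 1294 4 1037)))
(cons (mv 1164 (cons (fin 1228 5 972)
(mv 1163 (cons (fin 1162 2 1098)
(mv 972 (cons (fin 908 7 908)
(mv 1100 (cons (fin 1227 5 971)
(mv 971 (cons (fin 970 0 970)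
(fin 907 7 907)))))))))))
(mv 1229 (cons (fin 1294 4 1037)
(fin 1293 6 1037))))))))
(mv 909 (cons (fin 845 4 845)
(mv 1164 (cons (fin 1100 5 908)
(mv 1165 (cons (fin 1228 5 972)
(mv 1229 (cons (fin 972 7 972)
(fin 1293 6 1037))))))))))))))
(mv 1035 (cons (fin 1103 0 1035)
(mv 1098 (cons (fin 1099 1 1034)
(mv 1034 (cons (fin 1097 1 1033)
(mv 970 (cons (fin 969 3 969)
(fin 971 3 970))))))))))))
(cons (mv 1103 (cons (fin 1105 3 1037)
(mv 1101 (cons (cons (mv 1164 (cons (fin 1165 1 1100)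
(mv 1168 (cons (fin 1169 0 1101)
(mv 1100 (cons (fin 1163 1 1099)
(fin 1167 0 1100)))))))
(mv 1168 (cons (fin 1169 0 1101)
(mv 1167 (cons (fin 1100 0 1100)
(mv 1231 (cons (fin 976 5 975)
(fin 1295 7 1038))))))))
(cons (mv 1164 (cons (fin 1165 1 1100)
(mv 1100 (cons (fin 1163 1 1099)
(mv 1292 (cons (fin 1228 6 1036)
(mv 1099 (cons (fin 1098 2 1034)
(mv 1166 (cons (fin 1167 0 1099)
(mv 1230 (cons (fin 1294 7 1037)
(fin 973 7 973)))))))))))))
(mv 1165 (cons (fin 1164 1 1100)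
(mv 1229 (cons (fin 1293 6 1037)
(mv 1292 (cons (fin 1228 5 1036)
(mv 1230 (cons (fin 1294 4 1037)
(mv 1168 (cons (fin 1169 0 1101)
(mv 973 (cons (fin 1166 7 973)
(mv 908 (cons (fin 972 7 908)
(mv 909 (cons (fin 844 7 844)
(fin 845 4 845))))))))))))))))))))))
(mv 1105 (cons (fin 1103 3 1037)
(mv 1168 (cons (cons (mv 976 (cons (cons (mv 1169 (cons (fin 1233 4 976)
(fin 912 4 912)))
(mv 1231 (cons (fin 1167 5 975)
(mv 1232 (cons (fin 1295 5 1039)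
(mv 1297 (cons (fin 1233 4 1040)
(mv 1296 (cons (fin 1361 4 1104)
(mv 1298 (cons (fin 1299 3 1231)
(mv 1230 (cons (fin 1229 0 1229)
(mv 973 (cons (fin 1166 7 973)
(mv 913 (cons (fin 977 6 912)
(mv 912 (cons (fin 849 6 848)
(mv 845 (cons (fin 909 4 845)
(mv 847 (cons (fin 911 7 847)
(mv 848 (cons (fin 846 0 845)
(fin 783 7 783))))))))))))))))))))))))))
(cons (mv 1231 (cons (fin 1167 5 975)
(mv 1232 (cons (fin 1295 5 1039)
(mv 1233 (cons (fin 1297 4 1040)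
(fin 1169 4 976)))))))
(mv 1231 (cons (fin 1167 5 975)
(mv 1295 (cons (fin 1232 5 1039)
(mv 1230 (cons (fin 1166 4 1038)
(mv 912 (cons (fin 1169 4 912)
(mv 913 (cons (fin 977 6 912)
(fin 849 6 848))))))))))))))
(cons (mv 1232 (cons (cons (mv 1295 (cons (fin 1231 5 1039)
(mv 1296 (cons (fin 1359 5 1103)
(mv 1297 (cons (fin 1361 4 1104)
(fin 1233 4 1040)))))))
(cons (mv 1295 (cons (fin 1231 5 1039)
(mv 1359 (cons (fin 1296 5 1103)
(mv 1166 (cons (mv 1230 (cons (fin 973 7 973)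
(fin 1294 4 1102)))
(mv 1167 (cons (fin 1165 2 1101)
(mv 1106 (cons (fin 1107 1 1103)
(fin 1169 2 1102)))))))))))
(mv 1297 (cons (fin 1233 4 1040)
(mv 1296 (cons (fin 1361 4 1104)
(mv 1360 (cons (fin 1169 6 1104)
(mv 1423 (cons (fin 1359 5 1167)
(mv 1424 (cons (fin 1487 5 1231)
(mv 1425 (cons (fin 1489 4 1232)
(mv 1167 (cons (fin 1231 7 1167)
(mv 1166 (cons (fin 1165 2 1101)
(mv 1357 (cons (mv 1422 (cons (fin 1358 3 1357)
(mv 1485 (cons (fin 1486 1 1421)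
(mv 1421 (cons (fin 1484 1 1420)
(fin 1356 3 1356)))))))
(mv 1230 (cons (fin 973 7 973)
(mv 1293 (cons (fin 1294 5 1101)
(fin 1229 5 1037)))))))))))))))))))))))))
(cons (mv 1297 (cons (fin 1233 4 1040)
(mv 1296 (cons (fin 1361 4 1104)
(mv 1359 (cons (fin 1295 5 1103)
(mv 1360 (cons (fin 1423 5 1167)
(fin 1169 6 1104)))))))))
(cons (mv 1295 (cons (fin 1231 5 1039)
(mv 1297 (cons (fin 1233 4 1040)
(mv 1166 (cons (mv 1230 (cons (fin 973 7 973)
(mv 1359 (cons (fin 1294 4 1102)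
(mv 1293 (cons (fin 1229 5 1037)
(mv 1167 (cons (fin 1165 2 1101)
(mv 1106 (cons (fin 1107 1 1103)
(fin 1169 2 1102)))))))))))
(cons (mv 1167 (cons (fin 1165 2 1101)
(mv 1106 (cons (fin 1107 1 1103)
(fin 1169 2 1102)))))
(mv 1230 (cons (fin 973 7 973)
(mv 1293 (cons (fin 1229 5 1037)
(mv 1294 (cons (fin 1357 5 1101)
(fin 1359 4 1102))))))))))))))
(mv 1297 (cons (fin 1233 4 1040)
(mv 1296 (cons (fin 1361 4 1104)
(mv 1360 (cons (fin 1169 6 1104)
(mv 1231 (cons (fin 1295 5 1039)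
(mv 1424 (cons (fin 1167 7 1167)
(mv 1487 (cons (fin 1423 5 1231)
(mv 1488 (cons (fin 1551 5 1295)
(mv 1489 (cons (fin 1553 4 1296)
(fin 1425 4 1232)))))))))))))))))))))
(mv 1166 (cons (cons (mv 1230 (cons (fin 973 7 973)
(mv 1293 (cons (fin 1229 5 1037)
(mv 1357 (cons (fin 1294 5 1101)
(mv 1231 (cons (fin 1295 4 1038)
(mv 1167 (cons (fin 1165 2 1101)
(fin 976 5 975)))))))))))
(mv 1230 (cons (fin 973 7 973)
(mv 1293 (cons (fin 1229 5 1037)
(mv 1294 (cons (fin 1357 5 1101)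
(mv 1295 (cons (fin 1359 4 1102)
(fin 1231 4 1038))))))))))
(cons (mv 1167 (cons (fin 1165 2 1101)
(mv 1231 (cons (fin 976 5 975)
(mv 1295 (cons (fin 1232 5 1039)
(fin 1359 7 1102)))))))
(cons (mv 1230 (cons (fin 973 7 973)
(mv 1165 (cons (fin 1167 2 1101)
(mv 1294 (cons (cons (mv 1293 (cons (fin 1357 5 1101)
(fin 1229 5 1037)))
(mv 1359 (cons (fin 1295 4 1102)
(mv 1358 (cons (fin 1423 4 1166)
(mv 1421 (cons (fin 1357 5 1165)
(mv 1422 (cons (fin 1485 5 1229)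
(fin 1229 7 1165))))))))))
(cons (mv 1357 (cons (fin 1293 5 1101)
(mv 1358 (cons (fin 1421 5 1165)
(mv 1359 (cons (fin 1423 4 1166)
(fin 1295 4 1102)))))))
(mv 1359 (cons (fin 1295 4 1102)
(mv 1358 (cons (fin 1423 4 1166)
(mv 1229 (cons (fin 1293 5 1037)
(fin 1422 7 1165))))))))))))))
(mv 1230 (cons (fin 973 7 973)
(mv 1229 (cons (fin 1293 5 1037)
(mv 1167 (cons (fin 1165 2 1101)
(mv 1228 (cons (fin 1227 2 1163)
(fin 1231 2 1164)))))))))))))))
(cons (cons (mv 1232 (cons (cons (mv 1295 (cons (fin 1231 5 1039)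
(mv 1296 (cons (fin 1359 5 1103)
(mv 1297 (cons (fin 1361 4 1104)
(fin 1233 4 1040)))))))
(mv 1295 (cons (fin 1231 5 1039)
(mv 1296 (cons (fin 1359 5 1103)
(mv 1360 (cons (fin 1169 6 1104)
(mv 1361 (cons (fin 1425 4 1168)
(fin 1297 4 1104))))))))))
(cons (mv 1295 (cons (fin 1231 5 1039)
(mv 1296 (cons (fin 1359 5 1103)
(mv 1169 (cons (fin 1360 6 1104)
(mv 976 (cons (fin 1233 4 976)
(fin 912 4 912)))))))))
(cons (mv 1233 (cons (fin 1297 4 1040)
(mv 1230 (cons (mv 1166 (cons (fin 973 7 973)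
(mv 1293 (cons (fin 1229 5 1037)
(mv 1294 (cons (fin 1231 1 1229)
(fin 1357 5 1101)))))))
(cons (mv 1169 (cons (fin 976 4 976)
(mv 1231 (cons (fin 1229 2 1165)
(fin 1170 2 1166)))))
(mv 973 (cons (fin 1166 7 973)
(mv 976 (cons (fin 1169 4 976)
(mv 913 (cons (fin 977 6 912)
(mv 912 (cons (fin 849 6 848)
(mv 845 (cons (fin 909 4 845)
(mv 847 (cons (fin 911 7 847)
(mv 848 (cons (fin 846 0 845)
(fin 783 7 783))))))))))))))))))))
(mv 1297 (cons (fin 1233 4 1040)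
(mv 1296 (cons (fin 1361 4 1104)
(mv 1359 (cons (fin 1295 5 1103)
(mv 1360 (cons (fin 1423 5 1167)
(fin 1169 6 1104)))))))))))))
(mv 976 (cons (mv 1169 (cons (fin 1233 4 976)
(fin 912 4 912)))
(cons (mv 1167 (cons (fin 1231 5 975)
(mv 1166 (cons (fin 1165 2 1101)
(mv 1106 (cons (fin 1107 1 1103)
(mv 973 (cons (fin 1230 7 973)
(mv 913 (cons (fin 977 6 912)
(mv 912 (cons (fin 849 6 848)
(mv 845 (cons (fin 909 4 845)
(mv 847 (cons (fin 911 7 847)
(mv 848 (cons (fin 846 0 845)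
(fin 783 7 783)))))))))))))))))))
(mv 1167 (cons (fin 1231 5 975)
(mv 1166 (cons (fin 1165 2 1101)
(mv 1169 (cons (fin 1106 2 1102)
(fin 1233 4 976)))))))))))
(cons (mv 1232 (cons (cons (mv 1295 (cons (fin 1231 5 1039)
(mv 1296 (cons (fin 1359 5 1103)
(mv 1297 (cons (fin 1361 4 1104)
(fin 1233 4 1040)))))))
(cons (mv 1295 (cons (fin 1231 5 1039)
(mv 1296 (cons (fin 1359 5 1103)
(mv 1360 (cons (fin 1169 6 1104)
(mv 1361 (cons (fin 1425 4 1168)
(fin 1297 4 1104)))))))))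
(mv 1295 (cons (fin 1231 5 1039)
(mv 1296 (cons (fin 1359 5 1103)
(mv 1169 (cons (fin 1360 6 1104)
(mv 976 (cons (fin 1233 4 976)
(fin 912 4 912)))))))))))
(cons (mv 1297 (cons (fin 1233 4 1040)
(mv 1296 (cons (fin 1361 4 1104)
(mv 1359 (cons (fin 1295 5 1103)
(mv 1360 (cons (fin 1423 5 1167)
(fin 1169 6 1104)))))))))
(cons (mv 1296 (cons (mv 1297 (cons (fin 1361 4 1104)
(fin 1233 4 1040)))
(cons (mv 1360 (cons (fin 1169 6 1104)
(mv 1423 (cons (fin 1359 5 1167)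
(mv 1424 (cons (fin 1487 5 1231)
(mv 1425 (cons (fin 1489 4 1232)
(fin 1361 4 1168)))))))))
(mv 1233 (cons (fin 1297 4 1040)
(mv 1169 (cons (fin 976 4 976)
(fin 1360 6 1104))))))))
(mv 1297 (cons (fin 1233 4 1040)
(mv 1231 (cons (fin 1295 5 1039)
(mv 976 (cons (fin 1167 5 975)
(mv 912 (cons (fin 1169 4 912)
(mv 913 (cons (fin 977 6 912)
(fin 849 6 848)))))))))))))))
(mv 1166 (cons (cons (mv 1230 (cons (fin 973 7 973)
(mv 1293 (cons (fin 1229 5 1037)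
(mv 1357 (cons (fin 1294 5 1101)
(mv 1167 (cons (fin 1165 2 1101)
(mv 1106 (cons (fin 1107 1 1103)
(fin 1169 2 1102)))))))))))
(mv 1230 (cons (fin 973 7 973)
(mv 1293 (cons (fin 1229 5 1037)
(mv 1294 (cons (fin 1357 5 1101)
(mv 1295 (cons (fin 1359 4 1102)
(mv 1296 (cons (cons (mv 1360 (cons (fin 1361 0 1293)
(mv 1232 (cons (fin 1233 2 1229)
(fin 1169 6 1104)))))
(mv 1361 (cons (fin 1360 0 1293)
(mv 1297 (cons (fin 1362 0 1294)
(fin 1232 4 1104))))))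
(cons (mv 1361 (cons (fin 1360 0 1293)
(mv 1297 (cons (fin 1362 0 1294)
(mv 1233 (cons (fin 1234 2 1230)
(fin 1169 7 1104)))))))
(mv 1233 (cons (fin 1232 2 1229)
(mv 1297 (cons (fin 1234 2 1230)
(fin 1169 7 1040)))))))))))))))))
(cons (mv 1167 (cons (fin 1165 2 1101)
(mv 1106 (cons (fin 1107 1 1103)
(fin 1169 2 1102)))))
(mv 1230 (cons (fin 973 7 973)
(mv 1165 (cons (fin 1167 2 1101)
(mv 1294 (cons (cons (mv 1293 (cons (fin 1357 5 1101)
(fin 1229 5 1037)))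
(mv 1359 (cons (fin 1295 4 1102)
(mv 1358 (cons (fin 1423 4 1166)
(mv 1421 (cons (fin 1357 5 1165)
(mv 1422 (cons (fin 1485 5 1229)
(fin 1229 7 1165))))))))))
(cons (mv 1357 (cons (fin 1293 5 1101)
(mv 1358 (cons (fin 1421 5 1165)
(mv 1359 (cons (fin 1423 4 1166)
(fin 1295 4 1102)))))))
(mv 1359 (cons (fin 1295 4 1102)
(mv 1358 (cons (fin 1423 4 1166)
(mv 1229 (cons (fin 1293 5 1037)
(fin 1422 7 1165)))))))))))))))))))))))))))
(mv 973 (cons (cons (mv 1166 (cons (fin 1230 7 973)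
(mv 909 (cons (fin 974 7 909)
(fin 1101 4 909)))))
(mv 909 (cons (fin 845 4 845)
(mv 1101 (cons (mv 1164 (cons (fin 1100 5 908)
(mv 1165 (cons (fin 1228 5 972)
(mv 1229 (cons (fin 1293 6 1037)
(fin 974 6 973)))))))
(cons (mv 908 (cons (fin 844 7 844)
(mv 1165 (cons (fin 972 7 908)
(mv 1229 (cons (fin 1293 6 1037)
(fin 974 6 973)))))))
(mv 1100 (cons (fin 1164 5 908)
(mv 1099 (cons (fin 1098 2 1034)
(mv 1162 (cons (fin 1163 1 1098)
(mv 1035 (cons (fin 1034 3 1034)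
(mv 1103 (cons (fin 1036 3 1035)
(mv 1168 (cons (fin 1167 0 1100)
(mv 1104 (cons (fin 1105 3 1037)
(fin 1169 0 1101)))))))))))))))))))))
(cons (mv 1166 (cons (fin 1230 7 973)
(mv 1103 (cons (cons (mv 1104 (cons (fin 1105 3 1037)
(mv 1036 (cons (fin 1101 3 1036)
(fin 1035 0 1035)))))
(mv 1035 (cons (fin 1036 0 1035)
(mv 1165 (cons (mv 1229 (cons (fin 974 5 973)
(mv 1293 (cons (fin 1357 6 1101)
(fin 1101 6 1037)))))
(cons (mv 1164 (cons (fin 1163 2 1099)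
(mv 1228 (cons (fin 1101 5 972)
(mv 1167 (cons (fin 1227 1 1163)
(mv 1231 (cons (fin 1232 0 1164)
(fin 1295 7 1038)))))))))
(mv 1229 (cons (fin 974 5 973)
(mv 1357 (cons (fin 1293 6 1101)
(mv 1164 (cons (fin 1163 2 1099)
(mv 1167 (cons (mv 1228 (cons (fin 1227 1 1163)
(fin 1168 1 1164)))
(mv 1231 (cons (fin 1232 0 1164)
(fin 1295 7 1038)))))))))))))))))
(cons (mv 1104 (cons (fin 1105 3 1037)
(mv 1167 (cons (mv 1231 (cons (fin 1295 7 1038)
(fin 974 4 974)))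
(cons (mv 1165 (cons (fin 1164 2 1100)
(mv 1229 (cons (fin 974 5 973)
(mv 1293 (cons (fin 1357 6 1101)
(fin 1101 6 1037)))))))
(mv 1231 (cons (fin 1295 7 1038)
(mv 976 (cons (fin 1168 5 975)
(fin 912 5 911))))))))))
(mv 1104 (cons (fin 1105 3 1037)
(mv 1035 (cons (fin 1036 0 1035)
(mv 1167 (cons (mv 1231 (cons (fin 1295 7 1038)
(fin 974 4 974)))
(cons (mv 1165 (cons (fin 1164 2 1100)
(mv 1229 (cons (fin 974 5 973)
(mv 1357 (cons (fin 1293 6 1101)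
(mv 1168 (cons (fin 1228 1 1164)
(mv 1233 (cons (fin 1232 0 1165)
(mv 1169 (cons (fin 1170 3 1102)
(fin 1234 0 1166)))))))))))))
(mv 1231 (cons (fin 1295 7 1038)
(mv 976 (cons (fin 1168 5 975)
(fin 912 5 911)))))))))))))))))
(cons (mv 1166 (cons (fin 1230 7 973)
(mv 909 (cons (fin 974 7 909)
(fin 845 4 845)))))
(mv 1166 (cons (fin 1230 7 973)
(mv 909 (cons (fin 1101 4 909)
(fin 845 4 845)))))))))))
(cons (cons (mv 909 (cons (cons (mv 973 (cons (fin 845 4 845)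
(mv 1166 (cons (fin 1230 7 973)
(fin 974 7 909)))))
(mv 910 (cons (cons (mv 974 (cons (fin 845 7 845)
(mv 1167 (cons (fin 1103 4 910)
(mv 1231 (cons (fin 1166 4 974)
(mv 846 (cons (fin 1101 5 845)
(mv 847 (cons (fin 911 6 846)
(fin 783 6 782)))))))))))
(cons (mv 911 (cons (cons (mv 912 (cons (mv 976 (cons (fin 977 0 909)
(mv 1104 (cons (fin 847 7 847)
(mv 1103 (cons (fin 1105 3 1037)
(fin 1167 5 911)))))))
(cons (mv 844 (cons (fin 845 3 844)
(mv 908 (cons (fin 843 3 843)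
(mv 848 (cons (fin 847 2 844)
(fin 849 2 845)))))))
(mv 976 (cons (fin 977 0 909)
(mv 844 (cons (fin 845 3 844)
(mv 908 (cons (fin 843 3 843)
(mv 971 (cons (fin 972 1 907)
(mv 970 (cons (fin 907 1 906)
(mv 1035 (cons (fin 1036 3 970)
(mv 849 (cons (fin 848 2 845)
(mv 913 (cons (fin 850 2 846)
(fin 1104 6 848))))))))))))))))))))
(cons (mv 908 (cons (cons (mv 971 (cons (fin 972 1 907)
(mv 907 (cons (fin 970 1 906)
(mv 843 (cons (fin 842 3 842)
(fin 844 3 843)))))))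
(mv 971 (cons (fin 972 1 907)
(mv 907 (cons (fin 970 1 906)
(mv 847 (cons (fin 846 2 843)
(fin 848 2 844))))))))
(cons (mv 843 (cons (fin 844 3 843)
(mv 907 (cons (fin 842 3 842)
(mv 847 (cons (fin 846 2 843)
(fin 848 2 844)))))))
(mv 972 (cons (fin 971 1 907)
(mv 844 (cons (fin 843 3 843)
(mv 1036 (cons (fin 1101 4 844)
(mv 1035 (cons (fin 1103 0 1035)
(fin 1099 5 843))))))))))))
(mv 912 (cons (mv 976 (cons (fin 977 0 909)
(mv 1104 (cons (fin 847 7 847)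
(mv 1103 (cons (fin 1105 3 1037)
(fin 1167 5 911)))))))
(mv 845 (cons (fin 844 3 844)
(mv 913 (cons (fin 846 3 845)
(mv 849 (cons (fin 848 2 845)
(fin 850 2 846)))))))))))
(cons (cons (mv 912 (cons (cons (mv 976 (cons (fin 977 0 909)
(mv 1104 (cons (fin 847 7 847)
(mv 849 (cons (fin 848 2 845)
(fin 913 6 848)))))))
(mv 844 (cons (fin 845 3 844)
(mv 908 (cons (fin 843 3 843)
(mv 848 (cons (fin 847 2 844)
(fin 849 2 845))))))))
(cons (mv 976 (cons (fin 977 0 909)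
(mv 1104 (cons (fin 847 7 847)
(mv 1169 (cons (fin 1105 4 912)
(mv 1233 (cons (fin 1168 4 976)
(mv 913 (cons (fin 849 6 848)
(mv 845 (cons (fin 844 3 844)
(fin 846 3 845)))))))))))))
(cons (mv 976 (cons (fin 977 0 909)
(mv 1104 (cons (fin 847 7 847)
(mv 1169 (cons (fin 1105 4 912)
(mv 1168 (cons (fin 1233 4 976)
(mv 1167 (cons (fin 1231 5 975)
(mv 1101 (cons (fin 1166 3 1101)
(mv 844 (cons (fin 845 3 844)
(mv 908 (cons (fin 843 3 843)
(mv 972 (cons (fin 971 1 907)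
(fin 1036 4 844)))))))))))))))))))
(mv 976 (cons (fin 977 0 909)
(mv 844 (cons (fin 845 3 844)
(mv 908 (cons (fin 843 3 843)
(mv 971 (cons (fin 972 1 907)
(mv 970 (cons (fin 907 1 906)
(mv 1035 (cons (fin 1036 3 970)
(mv 849 (cons (fin 848 2 845)
(mv 913 (cons (fin 850 2 846)
(fin 1104 6 848)))))))))))))))))))))
(mv 912 (cons (mv 976 (cons (fin 977 0 909)
(mv 1104 (cons (fin 847 7 847)
(mv 1103 (cons (fin 1105 3 1037)
(fin 1167 5 911)))))))
(cons (mv 844 (cons (fin 845 3 844)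
(mv 908 (cons (fin 843 3 843)
(mv 972 (cons (fin 971 1 907)
(mv 1036 (cons (fin 1101 4 844)
(mv 1035 (cons (fin 1103 0 1035)
(fin 1099 5 843)))))))))))
(mv 976 (cons (fin 977 0 909)
(mv 1104 (cons (fin 847 7 847)
(mv 1169 (cons (fin 1105 4 912)
(mv 1233 (cons (fin 1168 4 976)
(mv 913 (cons (fin 849 6 848)
(mv 845 (cons (fin 844 3 844)
(fin 846 3 845)))))))))))))))))
(cons (mv 912 (cons (mv 976 (cons (fin 977 0 909)
(mv 1104 (cons (fin 847 7 847)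
(mv 1103 (cons (fin 1105 3 1037)
(fin 1167 5 911)))))))
(cons (mv 848 (cons (fin 849 2 845)
(mv 908 (cons (fin 847 2 844)
(mv 971 (cons (fin 972 1 907)
(mv 907 (cons (fin 970 1 906)
(mv 842 (cons (fin 843 3 842)
(mv 906 (cons (fin 841 3 841)
(mv 1035 (cons (fin 1099 7 842)
(mv 1036 (cons (fin 1103 0 1035)
(mv 1034 (cons (fin 1101 0 1034)
(mv 1097 (cons (fin 1098 1 1033)
(mv 1033 (cons (fin 1096 1 1032)
(mv 969 (cons (fin 968 3 968)
(fin 905 6 841)))))))))))))))))))))))))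
(mv 976 (cons (fin 977 0 909)
(mv 849 (cons (fin 848 2 845)
(mv 913 (cons (fin 850 2 846)
(fin 1104 6 848))))))))))
(mv 912 (cons (cons (mv 976 (cons (fin 977 0 909)
(mv 844 (cons (fin 845 3 844)
(mv 908 (cons (fin 843 3 843)
(mv 971 (cons (fin 972 1 907)
(mv 970 (cons (fin 907 1 906)
(mv 1035 (cons (fin 1036 3 970)
(mv 849 (cons (fin 848 2 845)
(mv 913 (cons (fin 850 2 846)
(fin 1104 6 848)))))))))))))))))
(mv 976 (cons (fin 977 0 909)
(mv 844 (cons (fin 845 3 844)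
(mv 908 (cons (fin 843 3 843)
(mv 971 (cons (fin 972 1 907)
(mv 907 (cons (fin 970 1 906)
(mv 1035 (cons (fin 1099 6 843)
(mv 1103 (cons (fin 1036 0 1035)
(mv 1104 (cons (fin 1105 3 1037)
(fin 1167 5 911))))))))))))))))))
(cons (mv 976 (cons (fin 977 0 909)
(mv 849 (cons (fin 848 2 845)
(mv 913 (cons (fin 850 2 846)
(fin 1104 6 848)))))))
(cons (mv 844 (cons (fin 845 3 844)
(mv 908 (cons (fin 843 3 843)
(mv 971 (cons (fin 972 1 907)
(mv 970 (cons (fin 907 1 906)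
(mv 1036 (cons (fin 1035 3 970)
(mv 849 (cons (fin 848 2 845)
(mv 913 (cons (fin 850 2 846)
(mv 1104 (cons (fin 976 6 848)
(mv 1103 (cons (fin 1101 3 1036)
(fin 1105 3 1037)))))))))))))))))))
(mv 844 (cons (fin 845 3 844)
(mv 908 (cons (fin 843 3 843)
(mv 972 (cons (fin 971 1 907)
(mv 1036 (cons (fin 1101 4 844)
(mv 1035 (cons (fin 1103 0 1035)
(fin 1099 5 843)))))))))))))))))))
(mv 1103 (cons (cons (mv 1167 (cons (fin 974 4 910)
(mv 1295 (cons (fin 1231 7 1038)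
(mv 1104 (cons (fin 1105 3 1037)
(mv 1036 (cons (fin 1101 3 1036)
(fin 1035 0 1035)))))))))
(mv 1104 (cons (fin 1105 3 1037)
(mv 1036 (cons (fin 1101 3 1036)
(fin 1035 0 1035))))))
(cons (mv 1035 (cons (fin 1036 0 1035)
(mv 974 (cons (fin 1167 4 910)
(mv 846 (cons (fin 1101 5 845)
(mv 847 (cons (fin 911 6 846)
(fin 783 6 782)))))))))
(mv 1167 (cons (fin 974 4 910)
(mv 1231 (cons (fin 1295 7 1038)
(mv 1104 (cons (fin 1105 3 1037)
(mv 976 (cons (fin 1168 5 975)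
(fin 912 5 911))))))))))))))
(cons (cons (mv 974 (cons (fin 845 7 845)
(mv 846 (cons (fin 1101 5 845)
(mv 847 (cons (fin 911 6 846)
(fin 783 6 782)))))))
(mv 974 (cons (fin 845 7 845)
(mv 1101 (cons (fin 846 5 845)
(mv 1103 (cons (fin 1167 4 910)
(mv 1104 (cons (fin 1036 3 1036)
(fin 1105 3 1037))))))))))
(cons (mv 974 (cons (fin 845 7 845)
(mv 1103 (cons (fin 1167 4 910)
(mv 1104 (cons (fin 1105 3 1037)
(mv 1036 (cons (fin 1101 3 1036)
(fin 1035 0 1035)))))))))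
(mv 845 (cons (fin 974 7 845)
(mv 844 (cons (cons (mv 911 (cons (fin 912 3 844)
(mv 843 (cons (fin 908 3 843)
(fin 842 0 842)))))
(mv 911 (cons (fin 912 3 844)
(mv 908 (cons (cons (mv 971 (cons (fin 972 1 907)
(mv 907 (cons (fin 970 1 906)
(mv 906 (cons (fin 905 2 841)
(fin 846 2 842)))))))
(mv 847 (cons (fin 848 2 844)
(mv 907 (cons (fin 846 1 843)
(mv 970 (cons (fin 971 1 906)
(mv 906 (cons (fin 969 1 905)
(fin 905 2 841))))))))))
(cons (mv 847 (cons (fin 848 2 844)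
(mv 846 (cons (fin 907 1 843)
(mv 780 (cons (fin 779 3 779)
(mv 783 (cons (fin 784 2 780)
(mv 716 (cons (fin 652 4 652)
(mv 715 (cons (fin 651 7 651)
(mv 781 (cons (fin 782 3 715)
(mv 972 (cons (fin 717 5 716)
(fin 1036 6 780)))))))))))))))))
(mv 972 (cons (fin 971 1 907)
(mv 1036 (cons (fin 1100 6 844)
(fin 781 6 780)))))))))))
(cons (mv 843 (cons (fin 842 0 842)
(mv 846 (cons (cons (mv 906 (cons (fin 907 1 842)
(mv 778 (cons (fin 779 3 778)
(mv 783 (cons (fin 782 2 779)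
(mv 847 (cons (fin 784 2 780)
(mv 848 (cons (fin 908 1 844)
(fin 849 1 845)))))))))))
(mv 778 (cons (fin 779 3 778)
(mv 783 (cons (fin 782 2 779)
(mv 847 (cons (fin 784 2 780)
(mv 848 (cons (fin 908 1 844)
(fin 849 1 845))))))))))
(cons (mv 906 (cons (fin 907 1 842)
(mv 783 (cons (fin 782 2 779)
(mv 847 (cons (fin 784 2 780)
(mv 848 (cons (fin 908 1 844)
(fin 849 1 845)))))))))
(cons (mv 906 (cons (fin 907 1 842)
(mv 779 (cons (fin 778 3 778)
(mv 847 (cons (fin 780 3 779)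
(mv 848 (cons (fin 908 1 844)
(fin 849 1 845)))))))))
(mv 906 (cons (fin 907 1 842)
(mv 779 (cons (fin 778 3 778)
(mv 782 (cons (fin 783 2 779)
(mv 718 (cons (fin 654 5 653)
(mv 717 (cons (fin 653 7 653)
(mv 719 (cons (fin 655 6 654)
(mv 780 (cons (fin 716 1 715)
(fin 781 2 715)))))))))))))))))))))
(mv 911 (cons (fin 912 3 844)
(mv 843 (cons (fin 842 0 842)
(fin 846 0 843)))))))))))))))
(cons (mv 973 (cons (mv 1166 (cons (fin 1230 7 973)
(fin 974 7 909)))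
(cons (mv 1101 (cons (mv 1100 (cons (fin 1164 5 908)
(mv 1099 (cons (fin 1098 2 1034)
(mv 1162 (cons (fin 1163 1 1098)
(mv 1035 (cons (fin 1034 3 1034)
(mv 1103 (cons (fin 1036 3 1035)
(mv 1167 (cons (fin 1168 0 1100)
(mv 910 (cons (fin 974 4 910)
(fin 846 6 845)))))))))))))))
(cons (mv 908 (cons (fin 844 7 844)
(mv 910 (cons (fin 846 6 845)
(mv 911 (cons (mv 972 (cons (fin 971 1 907)
(fin 912 1 908)))
(mv 847 (cons (fin 848 2 844)
(fin 974 6 846)))))))))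
(mv 1100 (cons (fin 1164 5 908)
(mv 1099 (cons (fin 1098 2 1034)
(mv 1162 (cons (fin 1163 1 1098)
(mv 1035 (cons (fin 1034 3 1034)
(mv 1103 (cons (fin 1036 3 1035)
(mv 1168 (cons (fin 1167 0 1100)
(mv 1104 (cons (fin 1105 3 1037)
(fin 1169 0 1101))))))))))))))))))
(mv 1166 (cons (fin 1230 7 973)
(fin 1101 4 909))))))
(cons (mv 973 (cons (fin 845 4 845)
(mv 1101 (cons (mv 1100 (cons (fin 1164 5 908)
(mv 1099 (cons (fin 1098 2 1034)
(mv 1162 (cons (fin 1163 1 1098)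
(mv 1035 (cons (fin 1034 3 1034)
(mv 1103 (cons (fin 1036 3 1035)
(mv 1167 (cons (fin 1168 0 1100)
(mv 910 (cons (fin 974 4 910)
(fin 846 6 845)))))))))))))))
(cons (mv 908 (cons (fin 844 7 844)
(mv 910 (cons (fin 846 6 845)
(mv 911 (cons (mv 972 (cons (fin 971 1 907)
(fin 912 1 908)))
(mv 847 (cons (fin 848 2 844)
(fin 974 6 846)))))))))
(mv 1100 (cons (fin 1164 5 908)
(mv 1099 (cons (fin 1098 2 1034)
(mv 1162 (cons (fin 1163 1 1098)
(mv 1035 (cons (fin 1034 3 1034)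
(mv 1103 (cons (fin 1036 3 1035)
(mv 1168 (cons (fin 1167 0 1100)
(mv 1104 (cons (fin 1105 3 1037)
(fin 1169 0 1101))))))))))))))))))))
(mv 973 (cons (fin 845 4 845)
(mv 1166 (cons (fin 1230 7 973)
(fin 1101 4 909)))))))))
(mv 973 (cons (cons (mv 1166 (cons (fin 1230 7 973)
(mv 909 (cons (fin 974 7 909)
(fin 1101 4 909)))))
(mv 1166 (cons (fin 1230 7 973)
(mv 1165 (cons (cons (mv 1229 (cons (fin 974 5 973)
(mv 1293 (cons (fin 1357 6 1101)
(fin 1101 6 1037)))))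
(mv 1103 (cons (cons (mv 1163 (cons (fin 1164 2 1099)
(mv 1104 (cons (fin 1105 1 1101)
(mv 1036 (cons (fin 1101 3 1036)
(fin 1035 0 1035)))))))
(mv 1164 (cons (fin 1163 2 1099)
(mv 1228 (cons (fin 1101 5 972)
(mv 1036 (cons (fin 1035 0 1035)
(fin 1100 6 972))))))))
(cons (mv 1104 (cons (fin 1105 1 1101)
(mv 1036 (cons (fin 1101 3 1036)
(fin 1035 0 1035)))))
(cons (mv 1164 (cons (fin 1163 2 1099)
(mv 1101 (cons (fin 1104 1 1100)
(fin 1228 5 972)))))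
(mv 1164 (cons (fin 1163 2 1099)
(mv 1104 (cons (fin 1105 1 1101)
(mv 1036 (cons (fin 1035 0 1035)
(mv 1100 (cons (fin 1228 6 972)
(mv 972 (cons (fin 1229 4 972)
(mv 971 (cons (fin 970 0 970)
(fin 907 7 907))))))))))))))))))
(cons (mv 1101 (cons (cons (mv 1228 (cons (fin 1164 5 972)
(mv 972 (cons (fin 908 7 908)
(mv 971 (cons (fin 970 0 970)
(mv 974 (cons (fin 910 5 909)
(mv 1035 (cons (fin 1034 1 970)
(mv 1036 (cons (fin 1103 0 1035)
(mv 1098 (cons (fin 1099 1 1034)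
(mv 907 (cons (fin 906 3 906)
(mv 843 (cons (fin 1100 4 843)
(fin 779 4 779)))))))))))))))))))
(mv 1164 (cons (fin 1228 5 972)
(mv 1163 (cons (fin 1162 2 1098)
(fin 1103 2 1099))))))
(cons (mv 972 (cons (fin 908 7 908)
(mv 971 (cons (fin 970 0 970)
(mv 974 (cons (fin 910 5 909)
(mv 1035 (cons (fin 1034 1 970)
(mv 1036 (cons (fin 1103 0 1035)
(mv 1098 (cons (fin 1099 1 1034)
(mv 907 (cons (fin 906 3 906)
(mv 843 (cons (fin 1100 4 843)
(fin 779 4 779)))))))))))))))))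
(mv 1164 (cons (fin 1228 5 972)
(mv 1162 (cons (fin 1163 2 1098)
(mv 972 (cons (fin 908 7 908)
(mv 971 (cons (fin 970 0 970)
(mv 974 (cons (fin 910 5 909)
(mv 1035 (cons (fin 1034 1 970)
(mv 907 (cons (fin 906 3 906)
(mv 1099 (cons (fin 1098 5 906)
(fin 1100 4 907))))))))))))))))))))
(mv 1036 (cons (cons (mv 1229 (cons (fin 974 5 973)
(mv 1357 (cons (fin 1293 6 1101)
(mv 1103 (cons (fin 1035 0 1035)
(mv 1164 (cons (fin 1163 2 1099)
(mv 1100 (cons (fin 972 4 972)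
(fin 1228 6 972)))))))))))
(mv 1229 (cons (fin 974 5 973)
(mv 1357 (cons (fin 1293 6 1101)
(mv 1164 (cons (mv 1100 (cons (fin 972 4 972)
(fin 1228 6 972)))
(mv 1163 (cons (fin 1103 2 1099)
(mv 1226 (cons (fin 1227 1 1162)
(mv 1162 (cons (fin 1225 1 1161)
(mv 1098 (cons (fin 1097 3 1097)
(fin 1099 3 1098))))))))))))))))
(cons (mv 974 (cons (fin 1229 5 973)
(mv 1035 (cons (fin 1034 2 970)
(mv 1099 (cons (fin 1098 1 1034)
(mv 971 (cons (fin 970 3 970)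
(mv 972 (cons (mv 1163 (cons (fin 1227 6 971)
(fin 908 6 907)))
(cons (mv 1227 (cons (fin 1163 6 971)
(mv 907 (cons (fin 906 3 906)
(mv 1100 (cons (fin 1164 7 907)
(fin 843 4 843)))))))
(mv 907 (cons (fin 906 3 906)
(mv 1100 (cons (fin 1164 7 907)
(fin 843 4 843))))))))))))))))
(cons (mv 1103 (cons (fin 1035 0 1035)
(mv 1164 (cons (fin 1163 2 1099)
(mv 1100 (cons (fin 1228 6 972)
(mv 1104 (cons (fin 1105 1 1101)
(mv 972 (cons (fin 1229 4 972)
(mv 971 (cons (fin 970 0 970)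
(fin 907 7 907)))))))))))))
(mv 1035 (cons (fin 1103 0 1035)
(mv 1098 (cons (fin 1099 1 1034)
(mv 1034 (cons (fin 1097 1 1033)
(fin 974 2 970)))))))))))))))))
(cons (mv 909 (cons (fin 845 4 845)
(mv 1101 (cons (cons (mv 1164 (cons (fin 1100 5 908)
(mv 1165 (cons (fin 1228 5 972)
(mv 1229 (cons (fin 1293 6 1037)
(fin 974 6 973)))))))
(mv 908 (cons (fin 844 7 844)
(mv 1165 (cons (fin 972 7 908)
(mv 1229 (cons (fin 1293 6 1037)
(fin 974 6 973))))))))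
(cons (mv 1100 (cons (fin 1164 5 908)
(mv 1099 (cons (fin 1098 2 1034)
(mv 1162 (cons (fin 1163 1 1098)
(mv 1035 (cons (fin 1034 3 1034)
(mv 1036 (cons (fin 1103 3 1035)
(mv 971 (cons (fin 970 3 970)
(mv 907 (cons (fin 843 4 843)
(mv 906 (cons (fin 842 7 842)
(mv 974 (cons (fin 972 3 906)
(fin 908 0 906)))))))))))))))))))
(mv 1164 (cons (fin 1100 5 908)
(mv 1165 (cons (fin 1228 5 972)
(mv 908 (cons (fin 972 7 908)
(fin 844 7 844))))))))))))
(cons (mv 1166 (cons (fin 1230 7 973)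
(mv 909 (cons (fin 974 7 909)
(fin 845 4 845)))))
(mv 1166 (cons (fin 1230 7 973)
(mv 909 (cons (fin 1101 4 909)
(fin 845 4 845))))))))))
(cons (mv 973 (cons (cons (mv 1166 (cons (fin 1230 7 973)
(mv 909 (cons (fin 974 7 909)
(fin 1101 4 909)))))
(mv 1166 (cons (fin 1230 7 973)
(mv 974 (cons (cons (mv 1229 (cons (fin 1165 5 973)
(mv 1167 (cons (fin 1231 4 974)
(mv 1103 (cons (fin 910 4 910)
(mv 1104 (cons (fin 1105 3 1037)
(mv 1036 (cons (fin 1101 3 1036)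
(fin 1035 0 1035)))))))))))
(cons (mv 1167 (cons (fin 1231 4 974)
(mv 1103 (cons (fin 910 4 910)
(mv 1104 (cons (fin 1105 3 1037)
(mv 1036 (cons (fin 1101 3 1036)
(fin 1035 0 1035)))))))))
(mv 1165 (cons (fin 1229 5 973)
(mv 1101 (cons (fin 910 5 909)
(mv 1164 (cons (fin 1228 5 972)
(mv 1163 (cons (fin 1162 2 1098)
(fin 1103 2 1099)))))))))))
(cons (mv 1231 (cons (fin 1167 4 974)
(mv 1165 (cons (fin 1229 5 973)
(mv 1164 (cons (cons (mv 1228 (cons (fin 1101 5 972)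
(mv 1163 (cons (fin 1103 2 1099)
(mv 1226 (cons (fin 1227 1 1162)
(mv 1162 (cons (fin 1225 1 1161)
(mv 1098 (cons (fin 1097 3 1097)
(fin 1099 3 1098)))))))))))
(mv 1101 (cons (fin 1228 5 972)
(mv 1163 (cons (fin 1162 2 1098)
(mv 1227 (cons (fin 1226 1 1162)
(mv 1099 (cons (fin 1098 3 1098)
(mv 972 (cons (fin 908 7 908)
(mv 1035 (cons (fin 1036 6 971)
(mv 1034 (cons (fin 971 1 970)
(fin 970 7 970))))))))))))))))
(cons (mv 1163 (cons (fin 1103 2 1099)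
(mv 1226 (cons (fin 1227 1 1162)
(mv 1162 (cons (fin 1225 1 1161)
(mv 1098 (cons (fin 1097 3 1097)
(fin 1099 3 1098)))))))))
(mv 1101 (cons (fin 1228 5 972)
(mv 1103 (cons (fin 1104 1 1100)
(mv 1035 (cons (fin 1036 0 1035)
(mv 972 (cons (fin 908 7 908)
(mv 971 (cons (fin 1034 1 970)
(fin 970 0 970))))))))))))))))))
(cons (mv 1229 (cons (fin 1165 5 973)
(mv 1167 (cons (fin 1231 4 974)
(mv 910 (cons (fin 1103 4 910)
(mv 846 (cons (fin 782 5 781)
(mv 847 (cons (fin 911 6 846)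
(fin 783 6 782)))))))))))
(mv 1231 (cons (fin 1167 4 974)
(mv 1165 (cons (fin 1229 5 973)
(mv 1101 (cons (fin 910 5 909)
(mv 1164 (cons (fin 1228 5 972)
(mv 1163 (cons (fin 1162 2 1098)
(mv 1227 (cons (fin 1226 1 1162)
(mv 1099 (cons (fin 1098 3 1098)
(mv 972 (cons (fin 908 7 908)
(mv 1035 (cons (fin 1036 6 971)
(mv 1034 (cons (fin 971 1 970)
(fin 970 7 970))))))))))))))))))))))))))))
(cons (mv 909 (cons (fin 845 4 845)
(mv 1101 (cons (cons (mv 908 (cons (fin 844 7 844)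
(mv 1165 (cons (fin 972 7 908)
(mv 1229 (cons (fin 1293 6 1037)
(fin 974 6 973)))))))
(mv 910 (cons (fin 846 6 845)
(mv 1165 (cons (fin 974 5 909)
(mv 1228 (cons (fin 1164 5 972)
(mv 1229 (cons (fin 1292 5 1036)
(fin 1293 6 1037))))))))))
(cons (mv 908 (cons (fin 844 7 844)
(mv 910 (cons (fin 846 6 845)
(mv 911 (cons (mv 972 (cons (fin 971 1 907)
(fin 912 1 908)))
(mv 847 (cons (fin 848 2 844)
(fin 974 6 846)))))))))
(mv 908 (cons (fin 844 7 844)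
(mv 1165 (cons (fin 972 7 908)
(mv 1228 (cons (fin 1164 5 972)
(mv 1229 (cons (fin 1292 5 1036)
(fin 1293 6 1037))))))))))))))
(cons (mv 1166 (cons (fin 1230 7 973)
(mv 909 (cons (fin 974 7 909)
(fin 845 4 845)))))
(mv 1166 (cons (fin 1230 7 973)
(mv 909 (cons (fin 1101 4 909)
(fin 845 4 845)))))))))
(mv 973 (cons (cons (mv 1166 (cons (fin 1230 7 973)
(mv 909 (cons (fin 974 7 909)
(fin 1101 4 909)))))
(cons (mv 1166 (cons (fin 1230 7 973)
(mv 974 (cons (cons (mv 1229 (cons (fin 1165 5 973)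
(mv 1167 (cons (fin 1231 4 974)
(mv 1103 (cons (fin 910 4 910)
(mv 1104 (cons (fin 1105 3 1037)
(mv 1036 (cons (fin 1101 3 1036)
(fin 1035 0 1035)))))))))))
(cons (mv 1167 (cons (fin 1231 4 974)
(mv 1103 (cons (fin 910 4 910)
(mv 1104 (cons (fin 1105 3 1037)
(mv 1036 (cons (fin 1101 3 1036)
(fin 1035 0 1035)))))))))
(mv 1165 (cons (fin 1229 5 973)
(mv 1101 (cons (fin 910 5 909)
(mv 972 (cons (fin 908 7 908)
(mv 971 (cons (fin 970 0 970)
(mv 1035 (cons (fin 1034 1 970)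
(mv 1036 (cons (fin 1103 0 1035)
(mv 1098 (cons (fin 1099 1 1034)
(mv 907 (cons (fin 906 3 906)
(mv 843 (cons (fin 1100 4 843)
(fin 779 4 779)))))))))))))))))))))
(cons (mv 1165 (cons (fin 1229 5 973)
(mv 1167 (cons (fin 1231 4 974)
(mv 1101 (cons (mv 1168 (cons (fin 1100 3 1100)
(fin 1169 3 1101)))
(cons (mv 1099 (cons (fin 1100 0 1099)
(mv 972 (cons (fin 908 7 908)
(mv 971 (cons (fin 970 0 970)
(mv 1035 (cons (fin 1034 1 970)
(mv 1036 (cons (fin 1098 1 1034)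
(fin 1103 0 1035)))))))))))
(mv 1168 (cons (fin 1169 3 1101)
(mv 1104 (cons (fin 1105 2 1101)
(mv 1036 (cons (fin 1103 3 1036)
(mv 1035 (cons (fin 1034 0 1034)
(mv 1099 (cons (fin 1098 1 1034)
(mv 971 (cons (fin 970 3 970)
(mv 907 (cons (cons (mv 972 (cons (fin 906 3 906)
(fin 908 7 908)))
(mv 842 (cons (fin 906 7 842)
(mv 843 (cons (fin 778 7 778)
(mv 844 (cons (fin 908 6 843)
(fin 780 6 779))))))))
(cons (mv 906 (cons (fin 972 3 906)
(fin 842 7 842)))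
(mv 908 (cons (fin 972 7 908)
(fin 844 6 843)))))))))))))))))))))))))
(cons (mv 1229 (cons (fin 1165 5 973)
(mv 1167 (cons (fin 1231 4 974)
(mv 910 (cons (fin 1103 4 910)
(mv 846 (cons (fin 782 5 781)
(mv 847 (cons (fin 911 6 846)
(fin 783 6 782)))))))))))
(mv 1231 (cons (fin 1167 4 974)
(mv 1165 (cons (fin 1229 5 973)
(mv 910 (cons (fin 1101 5 909)
(mv 846 (cons (fin 782 5 781)
(mv 847 (cons (fin 911 6 846)
(fin 783 6 782)))))))))))))))))
(mv 909 (cons (fin 845 4 845)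
(mv 1101 (cons (cons (mv 908 (cons (fin 844 7 844)
(mv 1165 (cons (fin 972 7 908)
(mv 1229 (cons (fin 1293 6 1037)
(fin 974 6 973)))))))
(mv 910 (cons (fin 846 6 845)
(mv 1165 (cons (fin 974 5 909)
(mv 1229 (cons (fin 1293 6 1037)
(mv 1292 (cons (fin 1228 5 1036)
(mv 1294 (cons (fin 1230 4 1037)
(mv 1036 (cons (fin 972 7 972)
(mv 1103 (cons (fin 1104 3 1036)
(fin 1035 0 1035))))))))))))))))
(cons (mv 908 (cons (fin 844 7 844)
(mv 910 (cons (fin 846 6 845)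
(mv 911 (cons (mv 972 (cons (fin 971 1 907)
(fin 912 1 908)))
(mv 847 (cons (fin 848 2 844)
(fin 974 6 846)))))))))
(cons (mv 908 (cons (fin 844 7 844)
(mv 972 (cons (fin 1165 7 908)
(mv 971 (cons (fin 970 0 970)
(mv 910 (cons (fin 911 1 907)
(fin 846 6 845)))))))))
(mv 908 (cons (fin 844 7 844)
(mv 910 (cons (fin 846 6 845)
(mv 974 (cons (fin 1165 5 909)
(mv 1103 (cons (fin 1167 4 910)
(mv 1104 (cons (fin 1036 3 1036)
(fin 1105 3 1037)))))))))))))))))))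
(cons (mv 909 (cons (fin 845 4 845)
(mv 1166 (cons (fin 974 7 909)
(fin 1101 4 909)))))
(cons (mv 1166 (cons (fin 1230 7 973)
(mv 909 (cons (fin 974 7 909)
(fin 845 4 845)))))
(mv 1166 (cons (fin 1230 7 973)
(mv 909 (cons (fin 1101 4 909)
(fin 845 4 845)))))))))))))))
(cons (mv 1036 (cons (cons (mv 1039 (cons (mv 1104 (cons (fin 1103 0 1036)
(fin 1105 0 1037)))
(mv 972 (cons (fin 971 3 971)
(fin 973 3 972)))))
(cons (mv 1035 (cons (cons (mv 1098 (cons (fin 1099 1 1034)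
(mv 1102 (cons (fin 1103 0 1035)
(mv 1034 (cons (fin 1097 1 1033)
(mv 970 (cons (fin 969 3 969)
(fin 971 3 970)))))))))
(cons (mv 1099 (cons (fin 1098 1 1034)
(mv 1102 (cons (fin 1103 0 1035)
(mv 973 (cons (cons (mv 1230 (cons (fin 1166 7 973)
(mv 1034 (cons (fin 974 2 970)
(mv 1033 (cons (fin 972 2 969)
(mv 1096 (cons (fin 1097 1 1032)
(mv 1032 (cons (fin 1095 1 1031)
(fin 1100 0 1032)))))))))))
(mv 1230 (cons (fin 1166 7 973)
(mv 909 (cons (fin 845 4 845)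
(mv 972 (cons (cons (mv 1227 (cons (fin 1163 6 971)
(mv 1100 (cons (fin 1164 6 908)
(mv 1033 (cons (fin 1034 2 969)
(mv 908 (cons (fin 844 5 843)
(mv 907 (cons (fin 843 7 843)
(mv 906 (cons (fin 905 0 905)
(mv 842 (cons (fin 841 3 841)
(fin 971 7 842)))))))))))))))
(mv 1163 (cons (fin 1227 6 971)
(mv 1164 (cons (fin 1100 6 908)
(mv 1228 (cons (fin 971 4 971)
(mv 1356 (cons (fin 1292 7 1099)
(mv 1229 (cons (fin 1231 3 1163)
(mv 1162 (cons (fin 1161 0 1161)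
(fin 1165 0 1162))))))))))))))
(cons (mv 1163 (cons (fin 1227 6 971)
(mv 908 (cons (fin 844 5 843)
(fin 971 6 907)))))
(cons (mv 1100 (cons (fin 1164 6 908)
(mv 1033 (cons (fin 1034 2 969)
(mv 908 (cons (fin 844 5 843)
(mv 907 (cons (fin 843 7 843)
(mv 906 (cons (fin 905 0 905)
(mv 842 (cons (fin 841 3 841)
(fin 971 7 842)))))))))))))
(mv 1163 (cons (fin 1227 6 971)
(mv 1100 (cons (fin 908 5 907)
(fin 1164 6 908))))))))))))))
(cons (mv 1034 (cons (fin 974 2 970)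
(mv 1033 (cons (fin 972 2 969)
(mv 1096 (cons (fin 1097 1 1032)
(mv 1032 (cons (fin 1095 1 1031)
(fin 1100 0 1032)))))))))
(mv 1166 (cons (fin 1230 7 973)
(mv 909 (cons (fin 974 7 909)
(fin 845 4 845))))))))))))
(mv 1102 (cons (fin 1103 0 1035)
(mv 970 (cons (fin 971 3 970)
(mv 1034 (cons (fin 969 3 969)
(mv 973 (cons (fin 974 2 970)
(mv 1230 (cons (fin 1166 7 973)
(mv 972 (cons (fin 1033 2 969)
(mv 909 (cons (fin 845 4 845)
(mv 1100 (cons (fin 1164 6 908)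
(mv 908 (cons (mv 1099 (cons (fin 1163 5 907)
(fin 844 5 843)))
(cons (mv 843 (cons (fin 907 7 843)
(mv 844 (cons (fin 779 7 779)
(fin 780 4 780)))))
(mv 1099 (cons (fin 1163 5 907)
(mv 906 (cons (fin 842 4 842)
(mv 907 (cons (fin 905 0 905)
(fin 843 7 843))))))))))))))))))))))))))))
(cons (cons (mv 1098 (cons (fin 1099 1 1034)
(mv 1102 (cons (fin 1103 0 1035)
(mv 1034 (cons (fin 1097 1 1033)
(mv 969 (cons (fin 970 3 969)
(mv 1033 (cons (fin 968 3 968)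
(mv 973 (cons (fin 972 2 969)
(fin 974 2 970)))))))))))))
(mv 1102 (cons (fin 1103 0 1035)
(mv 970 (cons (fin 971 3 970)
(mv 1034 (cons (fin 969 3 969)
(mv 1097 (cons (fin 1098 1 1033)
(mv 1033 (cons (fin 1096 1 1032)
(mv 973 (cons (fin 972 2 969)
(fin 974 2 970))))))))))))))
(cons (mv 1098 (cons (fin 1099 1 1034)
(mv 1034 (cons (fin 1097 1 1033)
(mv 970 (cons (fin 969 3 969)
(fin 971 3 970)))))))
(mv 1099 (cons (fin 1098 1 1034)
(mv 1102 (cons (fin 1103 0 1035)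
(mv 971 (cons (fin 970 3 970)
(mv 907 (cons (mv 1100 (cons (fin 1164 4 907)
(fin 843 4 843)))
(cons (mv 906 (cons (fin 842 7 842)
(mv 908 (cons (fin 844 6 843)
(mv 1163 (cons (fin 972 6 907)
(mv 1226 (cons (fin 1162 5 970)
(mv 1227 (cons (fin 1290 5 1034)
(mv 1228 (cons (fin 1292 4 1035)
(fin 1164 4 971)))))))))))))
(mv 1100 (cons (fin 843 4 843)
(mv 906 (cons (fin 842 7 842)
(mv 908 (cons (fin 844 6 843)
(mv 1163 (cons (fin 972 5 907)
(mv 1226 (cons (fin 1162 5 970)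
(mv 1227 (cons (fin 1290 5 1034)
(fin 1291 6 1035))))))))))))))))))))))))))
(mv 1035 (cons (cons (mv 1098 (cons (fin 1099 1 1034)
(mv 1102 (cons (fin 1103 0 1035)
(mv 1034 (cons (fin 1097 1 1033)
(mv 970 (cons (fin 969 3 969)
(fin 971 3 970)))))))))
(mv 970 (cons (fin 971 3 970)
(mv 1034 (cons (fin 969 3 969)
(mv 1097 (cons (fin 1098 1 1033)
(mv 1096 (cons (fin 1033 1 1032)
(mv 1104 (cons (cons (mv 1103 (cons (fin 1102 0 1035)
(fin 1039 0 1036)))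
(mv 973 (cons (fin 974 2 970)
(mv 976 (cons (cons (mv 1039 (cons (fin 1105 0 1037)
(fin 977 2 973)))
(mv 1168 (cons (cons (mv 1231 (cons (fin 1167 5 975)
(mv 1295 (cons (fin 1232 5 1039)
(mv 1169 (cons (fin 1233 4 976)
(mv 912 (cons (fin 1105 4 912)
(mv 913 (cons (fin 977 6 912)
(fin 849 6 848)))))))))))
(mv 1231 (cons (fin 1167 5 975)
(mv 913 (cons (fin 977 6 912)
(mv 912 (cons (fin 849 6 848)
(mv 847 (cons (fin 911 7 847)
(mv 848 (cons (fin 783 7 783)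
(mv 845 (cons (fin 846 0 845)
(mv 909 (cons (fin 1100 5 844)
(fin 1102 4 845))))))))))))))))
(cons (mv 1233 (cons (fin 1169 4 976)
(mv 913 (cons (fin 977 6 912)
(mv 912 (cons (fin 849 6 848)
(mv 847 (cons (fin 911 7 847)
(mv 848 (cons (fin 783 7 783)
(mv 845 (cons (fin 846 0 845)
(mv 909 (cons (fin 1100 5 844)
(fin 1102 4 845)))))))))))))))
(mv 1231 (cons (fin 1167 5 975)
(mv 1232 (cons (fin 1295 5 1039)
(mv 1233 (cons (fin 1297 4 1040)
(fin 1169 4 976)))))))))))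
(cons (mv 977 (cons (fin 1039 2 973)
(mv 1168 (cons (fin 913 6 912)
(mv 1231 (cons (fin 1167 5 975)
(mv 1232 (cons (fin 1295 5 1039)
(mv 1233 (cons (fin 1297 4 1040)
(fin 1169 4 976)))))))))))
(mv 1105 (cons (fin 1039 0 1037)
(mv 1169 (cons (fin 912 4 912)
(mv 1233 (cons (fin 1297 7 1040)
(fin 1168 4 976)))))))))))))
(cons (mv 1102 (cons (fin 1103 0 1035)
(mv 1166 (cons (cons (mv 973 (cons (fin 974 2 970)
(fin 1230 7 973)))
(mv 1231 (cons (cons (mv 1295 (cons (fin 1230 4 1038)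
(mv 1167 (cons (fin 1359 7 1102)
(fin 974 4 974)))))
(mv 1230 (cons (fin 1295 4 1038)
(mv 1229 (cons (fin 1293 5 1037)
(mv 1165 (cons (fin 974 5 973)
(mv 1232 (cons (fin 1164 3 1164)
(fin 1233 3 1165))))))))))
(cons (mv 1167 (cons (fin 974 4 974)
(mv 1168 (cons (fin 976 5 975)
(mv 1165 (cons (fin 1105 2 1101)
(mv 1232 (cons (fin 1164 0 1164)
(fin 1233 0 1165)))))))))
(mv 1295 (cons (fin 1230 4 1038)
(mv 1167 (cons (fin 1359 7 1102)
(mv 1168 (cons (fin 1232 5 1039)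
(fin 976 5 975)))))))))))
(cons (mv 1230 (cons (fin 973 7 973)
(mv 1293 (cons (fin 1229 5 1037)
(mv 1294 (cons (fin 1357 5 1101)
(mv 1295 (cons (fin 1359 4 1102)
(fin 1231 4 1038)))))))))
(mv 974 (cons (fin 973 2 970)
(mv 1165 (cons (fin 1229 5 973)
(mv 1167 (cons (fin 1231 4 974)
(mv 1168 (cons (fin 1105 2 1101)
(mv 1233 (cons (fin 1232 0 1165)
(mv 1169 (cons (fin 1234 0 1166)
(fin 976 4 976))))))))))))))))))
(mv 1039 (cons (fin 1103 0 1036)
(fin 1105 0 1037)))))))))))))))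
(cons (mv 970 (cons (fin 971 3 970)
(mv 1034 (cons (fin 969 3 969)
(mv 1104 (cons (cons (mv 1103 (cons (fin 1102 0 1035)
(fin 1039 0 1036)))
(mv 1102 (cons (fin 1103 0 1035)
(mv 1166 (cons (cons (mv 973 (cons (fin 974 2 970)
(fin 1230 7 973)))
(mv 1231 (cons (cons (mv 1295 (cons (fin 1230 4 1038)
(mv 1167 (cons (fin 1359 7 1102)
(fin 974 4 974)))))
(mv 1230 (cons (fin 1295 4 1038)
(mv 1229 (cons (fin 1293 5 1037)
(mv 1165 (cons (fin 974 5 973)
(mv 1232 (cons (fin 1164 3 1164)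
(fin 1233 3 1165))))))))))
(cons (mv 1167 (cons (fin 974 4 974)
(mv 1168 (cons (fin 976 5 975)
(mv 1165 (cons (fin 1105 2 1101)
(mv 1232 (cons (fin 1164 0 1164)
(fin 1233 0 1165)))))))))
(mv 1295 (cons (fin 1230 4 1038)
(mv 1167 (cons (fin 1359 7 1102)
(mv 1168 (cons (fin 1232 5 1039)
(fin 976 5 975)))))))))))
(cons (mv 1230 (cons (fin 973 7 973)
(mv 1293 (cons (fin 1229 5 1037)
(mv 1294 (cons (fin 1357 5 1101)
(mv 1295 (cons (fin 1359 4 1102)
(fin 1231 4 1038)))))))))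
(mv 974 (cons (fin 973 2 970)
(mv 1165 (cons (fin 1229 5 973)
(mv 1167 (cons (fin 1231 4 974)
(mv 1168 (cons (fin 1105 2 1101)
(mv 1233 (cons (fin 1232 0 1165)
(mv 1169 (cons (fin 1234 0 1166)
(fin 976 4 976)))))))))))))))))))
(cons (mv 973 (cons (fin 974 2 970)
(mv 976 (cons (mv 1039 (cons (fin 1105 0 1037)
(fin 977 2 973)))
(cons (mv 1168 (cons (cons (mv 1231 (cons (fin 1167 5 975)
(mv 1295 (cons (fin 1232 5 1039)
(mv 1233 (cons (fin 1169 4 976)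
(mv 913 (cons (fin 977 6 912)
(mv 912 (cons (fin 849 6 848)
(mv 847 (cons (fin 911 7 847)
(mv 848 (cons (fin 783 7 783)
(mv 845 (cons (fin 846 0 845)
(mv 909 (cons (fin 1100 5 844)
(fin 1102 4 845)))))))))))))))))))
(mv 1231 (cons (fin 1167 5 975)
(mv 1295 (cons (fin 1232 5 1039)
(mv 913 (cons (fin 977 6 912)
(mv 912 (cons (fin 849 6 848)
(mv 847 (cons (fin 911 7 847)
(mv 848 (cons (fin 783 7 783)
(mv 914 (cons (fin 915 3 847)
(mv 845 (cons (fin 846 0 845)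
(mv 909 (cons (fin 1100 5 844)
(fin 1102 4 845))))))))))))))))))))
(cons (mv 1233 (cons (fin 1169 4 976)
(mv 1297 (cons (fin 1232 4 1040)
(mv 913 (cons (fin 977 6 912)
(mv 912 (cons (fin 849 6 848)
(mv 847 (cons (fin 911 7 847)
(mv 848 (cons (fin 783 7 783)
(mv 914 (cons (fin 915 3 847)
(mv 845 (cons (fin 846 0 845)
(mv 909 (cons (fin 1100 5 844)
(fin 1102 4 845)))))))))))))))))))
(cons (mv 1231 (cons (fin 1167 5 975)
(mv 1232 (cons (fin 1295 5 1039)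
(mv 1233 (cons (fin 1297 4 1040)
(fin 1169 4 976)))))))
(mv 1231 (cons (fin 1167 5 975)
(mv 1233 (cons (fin 1169 4 976)
(mv 913 (cons (fin 977 6 912)
(mv 912 (cons (fin 849 6 848)
(mv 847 (cons (fin 911 7 847)
(mv 848 (cons (fin 783 7 783)
(mv 914 (cons (fin 915 3 847)
(mv 845 (cons (fin 846 0 845)
(mv 909 (cons (fin 1100 5 844)
(fin 1102 4 845)))))))))))))))))))))))
(mv 1105 (cons (fin 1039 0 1037)
(mv 1169 (cons (fin 912 4 912)
(mv 1233 (cons (fin 1297 7 1040)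
(fin 1168 4 976))))))))))))
(mv 1039 (cons (fin 1103 0 1036)
(fin 1105 0 1037))))))))))
(cons (mv 1098 (cons (fin 1099 1 1034)
(mv 1034 (cons (fin 1097 1 1033)
(mv 970 (cons (fin 969 3 969)
(fin 971 3 970)))))))
(mv 1099 (cons (fin 1098 1 1034)
(mv 1103 (cons (fin 1102 0 1035)
(mv 1039 (cons (fin 1100 1 1035)
(fin 1104 0 1036)))))))))))))
(cons (mv 1039 (cons (mv 1104 (cons (fin 1103 0 1036)
(fin 1105 0 1037)))
(cons (mv 1099 (cons (fin 1100 1 1035)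
(mv 1035 (cons (fin 1098 1 1034)
(mv 1102 (cons (fin 1103 0 1035)
(mv 973 (cons (fin 972 3 972)
(mv 1166 (cons (fin 1230 7 973)
(mv 974 (cons (fin 1034 2 970)
(fin 909 7 909)))))))))))))
(mv 1099 (cons (fin 1100 1 1035)
(mv 1104 (cons (fin 1105 0 1037)
(mv 1035 (cons (fin 1098 1 1034)
(mv 973 (cons (fin 972 3 972)
(mv 976 (cons (fin 977 2 973)
(mv 912 (cons (cons (mv 1034 (cons (fin 974 2 970)
(mv 969 (cons (fin 970 3 969)
(mv 1033 (cons (fin 968 3 968)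
(mv 1096 (cons (fin 1097 1 1032)
(mv 1095 (cons (fin 1032 1 1031)
(mv 847 (cons (fin 911 7 847)
(mv 848 (cons (fin 783 7 783)
(mv 849 (cons (fin 913 6 848)
(fin 785 6 784)))))))))))))))))
(cons (mv 911 (cons (fin 847 7 847)
(mv 913 (cons (fin 849 6 848)
(mv 910 (cons (fin 974 1 909)
(mv 845 (cons (fin 846 3 845)
(mv 909 (cons (fin 844 3 844)
(fin 1102 4 845)))))))))))
(mv 913 (cons (fin 849 6 848)
(mv 845 (cons (cons (mv 1102 (cons (fin 909 4 845)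
(mv 1230 (cons (fin 1166 7 973)
(mv 974 (cons (fin 1034 2 970)
(mv 910 (cons (fin 911 1 909)
(mv 846 (cons (fin 782 5 781)
(fin 781 7 781)))))))))))
(mv 974 (cons (fin 1034 2 970)
(mv 910 (cons (fin 911 1 909)
(mv 846 (cons (fin 782 5 781)
(fin 781 7 781))))))))
(cons (mv 909 (cons (fin 1102 4 845)
(mv 780 (cons (fin 844 7 780)
(mv 781 (cons (fin 716 7 716)
(mv 782 (cons (fin 846 6 781)
(fin 718 6 717)))))))))
(mv 1034 (cons (fin 974 2 970)
(mv 970 (cons (fin 969 3 969)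
(mv 1227 (cons (fin 1163 7 970)
(mv 909 (cons (fin 1102 4 845)
(mv 842 (cons (fin 906 4 842)
(mv 844 (cons (fin 780 7 780)
(mv 910 (cons (fin 911 3 844)
(fin 843 0 842))))))))))))))))))))))
(cons (cons (mv 974 (cons (fin 1034 2 970)
(mv 911 (cons (fin 847 7 847)
(mv 910 (cons (fin 913 1 909)
(mv 846 (cons (fin 782 5 781)
(mv 845 (cons (fin 781 7 781)
(mv 909 (cons (fin 844 3 844)
(fin 1102 7 845)))))))))))))
(mv 911 (cons (fin 847 7 847)
(mv 849 (cons (fin 913 6 848)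
(mv 848 (cons (fin 785 6 784)
(mv 909 (cons (fin 910 2 845)
(mv 845 (cons (fin 1102 4 845)
(mv 850 (cons (fin 851 1 847)
(mv 780 (cons (fin 844 7 780)
(mv 781 (cons (fin 716 7 716)
(mv 782 (cons (fin 846 6 781)
(fin 718 6 717))))))))))))))))))))
(cons (mv 974 (cons (fin 1034 2 970)
(mv 847 (cons (fin 911 7 847)
(mv 848 (cons (fin 783 7 783)
(mv 785 (cons (fin 849 6 784)
(mv 784 (cons (fin 721 6 720)
(mv 845 (cons (fin 846 2 781)
(mv 909 (cons (fin 1102 4 845)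
(fin 781 4 781)))))))))))))))
(mv 974 (cons (fin 1034 2 970)
(mv 849 (cons (fin 913 6 848)
(mv 848 (cons (fin 785 6 784)
(mv 847 (cons (fin 783 7 783)
(mv 846 (cons (cons (mv 910 (cons (fin 909 1 845)
(fin 782 5 781)))
(mv 781 (cons (fin 782 3 781)
(mv 845 (cons (fin 780 3 780)
(fin 909 4 781))))))
(cons (mv 909 (cons (fin 910 1 845)
(mv 1102 (cons (fin 1166 7 909)
(fin 845 4 845)))))
(mv 782 (cons (fin 781 3 781)
(fin 910 5 781)))))))))))))))))))))))))))))))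
(cons (mv 1035 (cons (cons (mv 1098 (cons (fin 1099 1 1034)
(mv 1034 (cons (fin 1097 1 1033)
(mv 970 (cons (fin 969 3 969)
(fin 971 3 970)))))))
(cons (mv 1098 (cons (fin 1099 1 1034)
(mv 1034 (cons (fin 1097 1 1033)
(mv 969 (cons (fin 970 3 969)
(mv 1033 (cons (fin 968 3 968)
(mv 973 (cons (fin 972 2 969)
(fin 974 2 970)))))))))))
(mv 970 (cons (fin 971 3 970)
(mv 1034 (cons (fin 969 3 969)
(mv 1097 (cons (fin 1098 1 1033)
(mv 1033 (cons (fin 1096 1 1032)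
(mv 973 (cons (fin 972 2 969)
(fin 974 2 970)))))))))))))
(cons (mv 1098 (cons (fin 1099 1 1034)
(mv 1034 (cons (fin 1097 1 1033)
(mv 973 (cons (fin 974 2 970)
(mv 972 (cons (fin 1039 3 972)
(fin 1033 2 969)))))))))
(cons (mv 970 (cons (fin 971 3 970)
(mv 1034 (cons (fin 969 3 969)
(mv 973 (cons (fin 974 2 970)
(mv 972 (cons (fin 1039 3 972)
(fin 1033 2 969)))))))))
(mv 1099 (cons (fin 1098 1 1034)
(mv 1100 (cons (fin 1039 1 1035)
(mv 971 (cons (fin 970 3 970)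
(mv 1164 (cons (fin 1228 7 971)
(fin 907 4 907)))))))))))))
(mv 1039 (cons (mv 1104 (cons (fin 1103 0 1036)
(fin 1105 0 1037)))
(mv 1099 (cons (fin 1100 1 1035)
(mv 1035 (cons (fin 1098 1 1034)
(mv 971 (cons (fin 970 3 970)
(fin 972 3 971)))))))))))))
(cons (mv 1101 (cons (cons (mv 1039 (cons (fin 1100 1 1036)
(mv 1104 (cons (fin 1105 0 1037)
(mv 1103 (cons (fin 1036 0 1036)
(mv 976 (cons (fin 977 2 973)
(mv 1167 (cons (fin 912 5 911)
(fin 1231 6 975)))))))))))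
(cons (mv 1100 (cons (cons (cons (mv 1099 (cons (fin 1098 2 1034)
(mv 1102 (cons (cons (cons (mv 1162 (cons (fin 1163 1 1098)
(mv 1166 (cons (fin 1167 0 1099)
(mv 1294 (cons (fin 1230 7 1037)
(mv 1035 (cons (fin 1034 3 1034)
(mv 1103 (cons (fin 1036 3 1035)
(mv 1104 (cons (fin 1105 3 1037)
(mv 1165 (cons (fin 1164 1 1100)
(mv 1229 (cons (fin 974 5 973)
(fin 1293 6 1037)))))))))))))))))
(mv 1162 (cons (fin 1163 1 1098)
(mv 1166 (cons (fin 1167 0 1099)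
(mv 1230 (cons (fin 1294 7 1037)
(mv 1295 (cons (fin 1231 4 1038)
(mv 1229 (cons (fin 1293 5 1037)
(mv 1165 (cons (fin 974 5 973)
(mv 1228 (cons (fin 1292 5 1036)
(mv 1227 (cons (fin 1226 2 1162)
(mv 1291 (cons (fin 1290 1 1226)
(mv 1036 (cons (fin 1164 5 1035)
(fin 972 7 972))))))))))))))))))))))
(cons (mv 1162 (cons (fin 1163 1 1098)
(mv 1035 (cons (fin 1034 3 1034)
(mv 1103 (cons (fin 1036 3 1035)
(mv 1167 (cons (fin 1168 0 1100)
(mv 1295 (cons (fin 1231 7 1038)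
(mv 1104 (cons (fin 1105 3 1037)
(mv 1165 (cons (fin 1164 1 1100)
(mv 1229 (cons (fin 1293 6 1037)
(fin 974 6 973)))))))))))))))))
(mv 1162 (cons (fin 1163 1 1098)
(mv 1035 (cons (fin 1034 3 1034)
(mv 1103 (cons (fin 1036 3 1035)
(mv 1104 (cons (fin 1105 3 1037)
(mv 1165 (cons (fin 1164 1 1100)
(mv 1229 (cons (fin 1293 6 1037)
(fin 974 6 973)))))))))))))))
(cons (cons (mv 1166 (cons (fin 1167 0 1099)
(mv 1294 (cons (fin 1230 7 1037)
(mv 1035 (cons (fin 1034 3 1034)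
(mv 1103 (cons (fin 1036 3 1035)
(mv 1104 (cons (fin 1105 3 1037)
(mv 1165 (cons (fin 1164 1 1100)
(mv 1229 (cons (fin 974 5 973)
(fin 1293 6 1037)))))))))))))))
(mv 1162 (cons (fin 1163 1 1098)
(mv 1166 (cons (fin 1167 0 1099)
(mv 1230 (cons (fin 1294 7 1037)
(mv 1229 (cons (fin 1293 5 1037)
(mv 1231 (cons (fin 1295 4 1038)
(mv 1165 (cons (fin 974 5 973)
(mv 1232 (cons (fin 1164 3 1164)
(fin 1233 3 1165))))))))))))))))
(cons (mv 1162 (cons (fin 1163 1 1098)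
(mv 1166 (cons (fin 1167 0 1099)
(mv 1294 (cons (fin 1230 7 1037)
(mv 1035 (cons (fin 1034 3 1034)
(mv 1036 (cons (fin 1103 3 1035)
(mv 971 (cons (fin 970 3 970)
(mv 1164 (cons (fin 1228 7 971)
(fin 907 4 907)))))))))))))))
(mv 1162 (cons (fin 1163 1 1098)
(mv 1166 (cons (fin 1167 0 1099)
(mv 1294 (cons (fin 1230 7 1037)
(mv 1035 (cons (fin 1034 3 1034)
(mv 1036 (cons (fin 1103 3 1035)
(mv 971 (cons (fin 970 3 970)
(mv 907 (cons (fin 843 4 843)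
(mv 906 (cons (fin 842 7 842)
(mv 908 (cons (fin 844 6 843)
(mv 1165 (cons (fin 972 4 908)
(mv 1229 (cons (fin 974 5 973)
(fin 1293 7 1036)))))))))))))))))))))))))))))
(cons (mv 1102 (cons (cons (mv 1103 (cons (mv 1104 (cons (fin 1036 3 1036)
(fin 1105 3 1037)))
(mv 1163 (cons (fin 1164 1 1099)
(mv 1167 (cons (fin 1168 0 1100)
(mv 1231 (cons (fin 1295 7 1038)
(mv 974 (cons (fin 1166 4 974)
(fin 910 4 910)))))))))))
(cons (mv 1166 (cons (cons (mv 1230 (cons (fin 1294 7 1037)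
(mv 1293 (cons (fin 1229 5 1037)
(mv 1231 (cons (fin 1295 4 1038)
(mv 1167 (cons (fin 974 4 974)
(mv 1168 (cons (fin 1165 3 1100)
(fin 1169 3 1101)))))))))))
(cons (mv 1165 (cons (mv 1229 (cons (fin 974 5 973)
(fin 1293 6 1037)))
(cons (mv 1167 (cons (fin 1168 3 1100)
(mv 974 (cons (fin 910 5 909)
(fin 1231 4 974)))))
(mv 1229 (cons (fin 1293 6 1037)
(mv 1228 (cons (fin 1292 5 1036)
(mv 1226 (cons (fin 1227 2 1162)
(mv 1167 (cons (fin 1168 1 1164)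
(mv 1036 (cons (fin 972 7 972)
(mv 1035 (cons (fin 1034 0 1034)
(mv 971 (cons (fin 970 3 970)
(fin 1164 7 971))))))))))))))))))
(mv 1230 (cons (fin 1294 7 1037)
(mv 1229 (cons (fin 1293 5 1037)
(mv 1231 (cons (fin 1295 4 1038)
(mv 1167 (cons (fin 974 4 974)
(mv 1228 (cons (fin 1227 2 1163)
(fin 1168 2 1164)))))))))))))
(cons (cons (mv 1230 (cons (fin 1294 7 1037)
(mv 1295 (cons (fin 1231 4 1038)
(mv 1229 (cons (fin 1293 5 1037)
(mv 1228 (cons (mv 1292 (cons (fin 1165 5 1036)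
(fin 1164 6 1036)))
(cons (mv 1227 (cons (fin 1167 2 1163)
(mv 1290 (cons (fin 1291 1 1226)
(mv 1226 (cons (fin 1289 1 1225)
(fin 1165 2 1162)))))))
(mv 1292 (cons (fin 1164 6 1036)
(mv 1227 (cons (fin 1167 2 1163)
(mv 1290 (cons (fin 1291 1 1226)
(mv 1226 (cons (fin 1289 1 1225)
(mv 1162 (cons (fin 1161 3 1161)
(fin 1163 3 1162))))))))))))))))))))
(mv 1230 (cons (fin 1294 7 1037)
(mv 1231 (cons (fin 1295 4 1038)
(mv 1167 (cons (fin 974 4 974)
(mv 1168 (cons (fin 1165 3 1100)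
(fin 1169 3 1101))))))))))
(cons (mv 1230 (cons (fin 1294 7 1037)
(mv 1295 (cons (fin 1231 4 1038)
(mv 1229 (cons (fin 1293 5 1037)
(mv 1165 (cons (fin 974 5 973)
(mv 1228 (cons (fin 1292 5 1036)
(mv 1226 (cons (fin 1227 2 1162)
(mv 1036 (cons (fin 972 7 972)
(mv 1035 (cons (fin 1034 0 1034)
(mv 971 (cons (fin 970 3 970)
(fin 1164 7 971)))))))))))))))))))
(mv 1230 (cons (fin 1294 7 1037)
(mv 1229 (cons (fin 1293 5 1037)
(mv 1165 (cons (fin 974 5 973)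
(mv 1228 (cons (fin 1292 5 1036)
(mv 1227 (cons (fin 1226 2 1162)
(fin 1167 2 1163)))))))))))))))
(mv 1165 (cons (mv 1229 (cons (fin 1293 6 1037)
(fin 974 6 973)))
(cons (mv 974 (cons (fin 910 5 909)
(mv 1103 (cons (mv 1164 (cons (fin 1163 1 1099)
(fin 1104 1 1100)))
(mv 1167 (cons (fin 1168 0 1100)
(mv 1231 (cons (fin 1295 7 1038)
(fin 1166 4 974)))))))))
(mv 1293 (cons (fin 1229 6 1037)
(mv 1103 (cons (mv 1164 (cons (fin 1163 1 1099)
(fin 1104 1 1100)))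
(cons (mv 1168 (cons (fin 1167 0 1100)
(mv 1104 (cons (fin 1105 3 1037)
(fin 1169 0 1101)))))
(mv 1164 (cons (fin 1163 1 1099)
(mv 1228 (cons (fin 1292 6 1036)
(mv 1167 (cons (fin 1168 0 1100)
(mv 1231 (cons (fin 1295 7 1038)
(mv 1166 (cons (fin 1227 1 1163)
(fin 1232 0 1164)))))))))))))))))))))
(cons (mv 1103 (cons (mv 1104 (cons (fin 1036 3 1036)
(fin 1105 3 1037)))
(cons (mv 1163 (cons (fin 1164 1 1099)
(mv 1168 (cons (fin 1167 0 1100)
(mv 1104 (cons (fin 1105 3 1037)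
(fin 1169 0 1101)))))))
(mv 1164 (cons (fin 1163 1 1099)
(mv 1228 (cons (fin 1292 6 1036)
(mv 1167 (cons (fin 1168 0 1100)
(mv 1295 (cons (fin 1231 7 1038)
(mv 1036 (cons (fin 1035 3 1035)
(mv 1291 (cons (fin 1227 5 1035)
(mv 1229 (cons (fin 1293 4 1036)
(mv 972 (cons (fin 1165 7 972)
(mv 907 (cons (fin 971 7 907)
(mv 908 (cons (fin 843 7 843)
(fin 844 4 844))))))))))))))))))))))))
(cons (mv 1103 (cons (mv 1104 (cons (fin 1036 3 1036)
(fin 1105 3 1037)))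
(mv 1167 (cons (fin 1168 0 1100)
(mv 1231 (cons (fin 1295 7 1038)
(mv 974 (cons (fin 1166 4 974)
(fin 910 4 910)))))))))
(mv 1103 (cons (mv 1104 (cons (fin 1036 3 1036)
(fin 1105 3 1037)))
(cons (mv 1164 (cons (fin 1163 1 1099)
(mv 1104 (cons (fin 1165 1 1100)
(fin 1105 3 1037)))))
(mv 1164 (cons (fin 1163 1 1099)
(mv 1228 (cons (fin 1292 6 1036)
(mv 1036 (cons (fin 1035 3 1035)
(mv 1291 (cons (fin 1227 5 1035)
(mv 1229 (cons (fin 1293 4 1036)
(mv 1165 (cons (fin 972 7 972)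
(fin 974 6 973))))))))))))))))))))
(mv 1099 (cons (fin 1098 2 1034)
(mv 1102 (cons (cons (mv 1162 (cons (fin 1163 1 1098)
(mv 1166 (cons (fin 1167 0 1099)
(mv 1294 (cons (fin 1230 7 1037)
(mv 1035 (cons (fin 1034 3 1034)
(mv 1036 (cons (fin 1103 3 1035)
(mv 971 (cons (fin 970 3 970)
(mv 1164 (cons (fin 1228 7 971)
(fin 907 4 907)))))))))))))))
(cons (mv 1162 (cons (fin 1163 1 1098)
(mv 1167 (cons (fin 1166 0 1099)
(mv 1103 (cons (fin 1168 0 1100)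
(mv 1104 (cons (fin 1036 3 1036)
(fin 1105 3 1037)))))))))
(mv 1166 (cons (fin 1167 0 1099)
(mv 1294 (cons (fin 1230 7 1037)
(mv 1035 (cons (fin 1034 3 1034)
(mv 1036 (cons (fin 1103 3 1035)
(mv 971 (cons (fin 970 3 970)
(mv 1164 (cons (fin 1228 7 971)
(fin 907 4 907)))))))))))))))
(cons (cons (mv 1162 (cons (fin 1163 1 1098)
(mv 1035 (cons (fin 1034 3 1034)
(mv 1103 (cons (fin 1036 3 1035)
(mv 1168 (cons (fin 1167 0 1100)
(mv 1104 (cons (fin 1105 3 1037)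
(fin 1169 0 1101)))))))))))
(mv 1162 (cons (fin 1163 1 1098)
(mv 1035 (cons (fin 1034 3 1034)
(mv 1036 (cons (fin 1103 3 1035)
(mv 971 (cons (fin 970 3 970)
(mv 1164 (cons (fin 1228 7 971)
(fin 907 4 907))))))))))))
(cons (mv 1163 (cons (fin 1162 1 1098)
(mv 1166 (cons (fin 1167 0 1099)
(mv 1230 (cons (fin 1294 7 1037)
(mv 1293 (cons (fin 1229 5 1037)
(mv 1231 (cons (fin 1295 4 1038)
(mv 1164 (cons (fin 1165 0 1163)
(mv 1292 (cons (fin 1228 6 1036)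
(mv 1035 (cons (fin 1034 3 1034)
(mv 971 (cons (fin 907 4 907)
(mv 970 (cons (fin 1036 3 970)
(fin 906 7 906)))))))))))))))))))))
(mv 1163 (cons (fin 1162 1 1098)
(mv 1164 (cons (fin 1103 1 1099)
(mv 1292 (cons (fin 1228 6 1036)
(mv 1166 (cons (fin 1167 0 1099)
(mv 1230 (cons (fin 1294 7 1037)
(mv 1231 (cons (fin 1165 0 1163)
(fin 1295 4 1038)))))))))))))))))))))
(cons (mv 1099 (cons (fin 1098 2 1034)
(mv 1102 (cons (cons (mv 1162 (cons (fin 1163 1 1098)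
(mv 1166 (cons (fin 1167 0 1099)
(mv 1294 (cons (fin 1230 7 1037)
(mv 1035 (cons (fin 1034 3 1034)
(mv 1036 (cons (fin 1103 3 1035)
(mv 971 (cons (fin 970 3 970)
(mv 1164 (cons (fin 1228 7 971)
(fin 907 4 907)))))))))))))))
(cons (mv 1162 (cons (fin 1163 1 1098)
(mv 1167 (cons (fin 1166 0 1099)
(mv 1103 (cons (fin 1168 0 1100)
(mv 1104 (cons (fin 1036 3 1036)
(fin 1105 3 1037)))))))))
(mv 1166 (cons (fin 1167 0 1099)
(mv 1294 (cons (fin 1230 7 1037)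
(mv 1035 (cons (fin 1034 3 1034)
(mv 1036 (cons (fin 1103 3 1035)
(mv 971 (cons (fin 970 3 970)
(mv 1164 (cons (fin 1228 7 971)
(fin 907 4 907)))))))))))))))
(cons (mv 1162 (cons (fin 1163 1 1098)
(mv 1035 (cons (fin 1034 3 1034)
(mv 1036 (cons (fin 1103 3 1035)
(mv 971 (cons (fin 970 3 970)
(mv 1164 (cons (fin 1228 7 971)
(fin 907 4 907)))))))))))
(cons (mv 1163 (cons (fin 1162 1 1098)
(mv 1166 (cons (fin 1167 0 1099)
(mv 1230 (cons (fin 1294 7 1037)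
(mv 1229 (cons (fin 1293 5 1037)
(mv 1231 (cons (fin 1295 4 1038)
(mv 1228 (cons (fin 1164 3 1163)
(mv 1291 (cons (fin 1292 1 1227)
(mv 1227 (cons (fin 1290 1 1226)
(fin 1036 6 1035)))))))))))))))))
(mv 1163 (cons (fin 1162 1 1098)
(mv 1164 (cons (fin 1103 1 1099)
(mv 1228 (cons (fin 1292 6 1036)
(mv 1035 (cons (fin 1034 3 1034)
(fin 971 4 971)))))))))))))))
(cons (mv 1099 (cons (fin 1098 2 1034)
(mv 1102 (cons (cons (mv 1162 (cons (fin 1163 1 1098)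
(mv 1166 (cons (fin 1167 0 1099)
(mv 1294 (cons (fin 1230 7 1037)
(mv 1035 (cons (fin 1034 3 1034)
(mv 1036 (cons (fin 1103 3 1035)
(mv 971 (cons (fin 970 3 970)
(mv 1164 (cons (fin 1228 7 971)
(fin 907 4 907)))))))))))))))
(cons (mv 1162 (cons (fin 1163 1 1098)
(mv 1167 (cons (fin 1166 0 1099)
(mv 1103 (cons (fin 1168 0 1100)
(mv 1104 (cons (fin 1036 3 1036)
(fin 1105 3 1037)))))))))
(mv 1162 (cons (fin 1163 1 1098)
(mv 1035 (cons (fin 1034 3 1034)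
(mv 1036 (cons (fin 1103 3 1035)
(mv 971 (cons (fin 970 3 970)
(mv 1164 (cons (fin 1228 7 971)
(fin 907 4 907)))))))))))))
(cons (mv 1166 (cons (fin 1167 0 1099)
(mv 1294 (cons (fin 1230 7 1037)
(mv 1035 (cons (fin 1034 3 1034)
(mv 1036 (cons (fin 1103 3 1035)
(mv 971 (cons (fin 970 3 970)
(mv 1164 (cons (fin 1228 7 971)
(fin 907 4 907)))))))))))))
(cons (mv 1163 (cons (fin 1162 1 1098)
(mv 1166 (cons (fin 1167 0 1099)
(mv 1230 (cons (fin 1294 7 1037)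
(mv 1231 (cons (fin 1295 4 1038)
(mv 1164 (cons (fin 1165 0 1163)
(mv 1292 (cons (fin 1228 6 1036)
(mv 1035 (cons (fin 1034 3 1034)
(mv 971 (cons (fin 907 4 907)
(mv 970 (cons (fin 1036 3 970)
(fin 906 7 906)))))))))))))))))))
(mv 1163 (cons (fin 1162 1 1098)
(mv 1164 (cons (fin 1103 1 1099)
(mv 1292 (cons (fin 1228 6 1036)
(mv 1166 (cons (fin 1167 0 1099)
(mv 1230 (cons (fin 1294 7 1037)
(mv 1231 (cons (fin 1165 0 1163)
(fin 1295 4 1038)))))))))))))))))))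
(mv 1099 (cons (fin 1098 2 1034)
(mv 1102 (cons (cons (mv 1162 (cons (fin 1163 1 1098)
(mv 1166 (cons (fin 1167 0 1099)
(mv 1294 (cons (fin 1230 7 1037)
(mv 1035 (cons (fin 1034 3 1034)
(mv 1036 (cons (fin 1103 3 1035)
(mv 971 (cons (fin 970 3 970)
(mv 907 (cons (fin 843 4 843)
(mv 906 (cons (fin 842 7 842)
(mv 908 (cons (fin 844 6 843)
(mv 1165 (cons (fin 972 4 908)
(mv 1229 (cons (fin 974 5 973)
(fin 1293 7 1036)))))))))))))))))))))))
(cons (mv 1162 (cons (fin 1163 1 1098)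
(mv 1167 (cons (fin 1166 0 1099)
(mv 1103 (cons (fin 1168 0 1100)
(mv 1104 (cons (fin 1036 3 1036)
(fin 1105 3 1037)))))))))
(mv 1162 (cons (fin 1163 1 1098)
(mv 1035 (cons (fin 1034 3 1034)
(mv 1103 (cons (fin 1036 3 1035)
(mv 1168 (cons (fin 1167 0 1100)
(mv 1104 (cons (fin 1105 3 1037)
(fin 1169 0 1101)))))))))))))
(cons (cons (mv 1162 (cons (fin 1163 1 1098)
(mv 1035 (cons (fin 1034 3 1034)
(mv 1036 (cons (fin 1103 3 1035)
(mv 971 (cons (fin 970 3 970)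
(mv 907 (cons (fin 843 4 843)
(mv 906 (cons (fin 842 7 842)
(mv 908 (cons (fin 844 6 843)
(mv 1165 (cons (fin 972 4 908)
(mv 1229 (cons (fin 1293 7 1036)
(fin 974 6 973)))))))))))))))))))
(mv 1166 (cons (fin 1167 0 1099)
(mv 1294 (cons (fin 1230 7 1037)
(mv 1035 (cons (fin 1034 3 1034)
(mv 1036 (cons (fin 1103 3 1035)
(mv 971 (cons (fin 970 3 970)
(mv 907 (cons (fin 843 4 843)
(mv 906 (cons (fin 842 7 842)
(mv 908 (cons (fin 844 6 843)
(mv 1165 (cons (fin 972 4 908)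
(mv 1229 (cons (fin 974 5 973)
(fin 1293 7 1036))))))))))))))))))))))
(cons (mv 1163 (cons (fin 1162 1 1098)
(mv 1166 (cons (fin 1167 0 1099)
(mv 1230 (cons (fin 1294 7 1037)
(mv 1295 (cons (fin 1231 4 1038)
(mv 1229 (cons (fin 1293 5 1037)
(mv 1165 (cons (fin 974 5 973)
(mv 1228 (cons (fin 1292 5 1036)
(mv 1227 (cons (fin 1226 2 1162)
(mv 1291 (cons (fin 1290 1 1226)
(fin 1036 6 1035)))))))))))))))))))
(mv 1162 (cons (fin 1163 1 1098)
(mv 1034 (cons (fin 1035 3 1034)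
(mv 974 (cons (mv 1165 (cons (fin 910 5 909)
(fin 1229 6 973)))
(cons (mv 1229 (cons (fin 1165 6 973)
(mv 1166 (cons (fin 1167 0 1099)
(mv 1230 (cons (fin 1293 5 1037)
(fin 1294 7 1037)))))))
(mv 1167 (cons (fin 1166 0 1099)
(mv 1103 (cons (fin 1168 0 1100)
(fin 910 4 910)))))))))))))))))))))
(cons (cons (mv 1099 (cons (fin 1098 2 1034)
(mv 1102 (cons (cons (mv 1162 (cons (fin 1163 1 1098)
(mv 1166 (cons (fin 1167 0 1099)
(mv 1294 (cons (fin 1230 7 1037)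
(mv 1035 (cons (fin 1034 3 1034)
(mv 1103 (cons (fin 1036 3 1035)
(mv 1104 (cons (fin 1105 3 1037)
(mv 1165 (cons (fin 1164 1 1100)
(mv 1229 (cons (fin 974 5 973)
(fin 1293 6 1037)))))))))))))))))
(cons (mv 1162 (cons (fin 1163 1 1098)
(mv 1166 (cons (fin 1167 0 1099)
(mv 1230 (cons (fin 1294 7 1037)
(mv 1229 (cons (fin 1293 5 1037)
(mv 1231 (cons (fin 1295 4 1038)
(mv 1165 (cons (fin 974 5 973)
(mv 1232 (cons (fin 1164 3 1164)
(fin 1233 3 1165)))))))))))))))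
(mv 1162 (cons (fin 1163 1 1098)
(mv 1035 (cons (fin 1034 3 1034)
(mv 1103 (cons (fin 1036 3 1035)
(mv 1167 (cons (fin 1168 0 1100)
(mv 1295 (cons (fin 1231 7 1038)
(mv 1104 (cons (fin 1105 3 1037)
(mv 1165 (cons (fin 1164 1 1100)
(mv 1229 (cons (fin 1293 6 1037)
(fin 974 6 973)))))))))))))))))))
(cons (cons (mv 1162 (cons (fin 1163 1 1098)
(mv 1035 (cons (fin 1034 3 1034)
(mv 1103 (cons (fin 1036 3 1035)
(mv 1104 (cons (fin 1105 3 1037)
(mv 1165 (cons (fin 1164 1 1100)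
(mv 1229 (cons (fin 1293 6 1037)
(fin 974 6 973)))))))))))))
(mv 1166 (cons (fin 1167 0 1099)
(mv 1294 (cons (fin 1230 7 1037)
(mv 1035 (cons (fin 1034 3 1034)
(mv 1103 (cons (fin 1036 3 1035)
(mv 1104 (cons (fin 1105 3 1037)
(mv 1165 (cons (fin 1164 1 1100)
(mv 1229 (cons (fin 974 5 973)
(fin 1293 6 1037))))))))))))))))
(cons (mv 1162 (cons (fin 1163 1 1098)
(mv 1166 (cons (fin 1167 0 1099)
(mv 1294 (cons (fin 1230 7 1037)
(mv 1035 (cons (fin 1034 3 1034)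
(mv 1036 (cons (fin 1103 3 1035)
(mv 971 (cons (fin 970 3 970)
(mv 907 (cons (fin 1164 4 907)
(fin 843 4 843)))))))))))))))
(mv 1162 (cons (fin 1163 1 1098)
(mv 1166 (cons (fin 1167 0 1099)
(mv 1294 (cons (fin 1230 7 1037)
(mv 1035 (cons (fin 1034 3 1034)
(mv 1036 (cons (fin 1103 3 1035)
(mv 971 (cons (fin 970 3 970)
(mv 907 (cons (fin 843 4 843)
(mv 906 (cons (fin 842 7 842)
(mv 908 (cons (fin 844 6 843)
(mv 1165 (cons (fin 972 4 908)
(mv 1229 (cons (fin 974 5 973)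
(fin 1293 7 1036)))))))))))))))))))))))))))))
(cons (mv 1164 (cons (cons (cons (mv 1228 (cons (fin 1292 6 1036)
(mv 1098 (cons (fin 1099 2 1034)
(mv 1036 (cons (cons (mv 1291 (cons (fin 1227 5 1035)
(mv 1293 (cons (fin 1229 4 1036)
(mv 1035 (cons (fin 971 7 971)
(mv 1034 (cons (fin 1097 1 1033)
(fin 1033 0 1033)))))))))
(mv 1291 (cons (fin 1227 5 1035)
(mv 1035 (cons (fin 971 7 971)
(mv 1034 (cons (fin 1097 1 1033)
(fin 1033 0 1033))))))))
(cons (mv 1291 (cons (fin 1227 5 1035)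
(mv 1229 (cons (fin 1293 4 1036)
(mv 1165 (cons (fin 972 7 972)
(fin 974 6 973)))))))
(mv 1293 (cons (fin 1229 4 1036)
(mv 1035 (cons (fin 971 7 971)
(mv 1034 (cons (fin 1097 1 1033)
(fin 1033 0 1033))))))))))))))
(mv 1228 (cons (fin 1292 6 1036)
(mv 1036 (cons (cons (mv 1291 (cons (fin 1227 5 1035)
(mv 1293 (cons (fin 1229 4 1036)
(mv 971 (cons (fin 1035 7 971)
(mv 972 (cons (fin 907 7 907)
(mv 908 (cons (fin 1165 4 908)
(fin 844 4 844)))))))))))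
(cons (mv 1291 (cons (fin 1227 5 1035)
(mv 971 (cons (fin 1035 7 971)
(mv 972 (cons (fin 907 7 907)
(mv 908 (cons (fin 1165 4 908)
(fin 844 4 844)))))))))
(mv 1291 (cons (fin 1227 5 1035)
(mv 1229 (cons (fin 1293 4 1036)
(mv 1165 (cons (fin 972 7 972)
(fin 974 6 973)))))))))
(cons (mv 1293 (cons (fin 1229 4 1036)
(mv 971 (cons (fin 1035 7 971)
(mv 972 (cons (fin 907 7 907)
(mv 908 (cons (fin 1165 4 908)
(fin 844 4 844)))))))))
(cons (mv 1291 (cons (fin 1227 5 1035)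
(mv 1229 (cons (fin 1293 4 1036)
(mv 1165 (cons (fin 974 6 973)
(mv 1230 (cons (fin 1294 4 1037)
(mv 1231 (cons (fin 1163 3 1163)
(fin 1232 3 1164)))))))))))
(mv 1293 (cons (fin 1229 4 1036)
(mv 1227 (cons (fin 1291 5 1035)
(mv 1163 (cons (fin 972 5 971)
(mv 1162 (cons (fin 1161 2 1097)
(mv 1035 (cons (fin 971 7 971)
(mv 1034 (cons (fin 1033 0 1033)
(mv 1098 (cons (fin 1097 1 1033)
(fin 970 4 970))))))))))))))))))))))
(cons (mv 1165 (cons (mv 1229 (cons (fin 974 6 973)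
(mv 1293 (cons (fin 1357 7 1100)
(fin 1036 7 1036)))))
(cons (mv 1163 (cons (cons (mv 1161 (cons (fin 1162 2 1097)
(mv 1099 (cons (fin 1098 2 1034)
(mv 1166 (cons (fin 1167 3 1099)
(mv 1227 (cons (fin 1226 1 1162)
(mv 1291 (cons (fin 1355 6 1099)
(fin 1036 6 1035)))))))))))
(mv 1162 (cons (fin 1161 2 1097)
(mv 1226 (cons (fin 1225 1 1161)
(mv 1227 (cons (fin 1166 1 1162)
(mv 1355 (cons (fin 1291 6 1099)
(mv 1098 (cons (fin 1097 3 1097)
(mv 1034 (cons (fin 970 4 970)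
(mv 1033 (cons (fin 969 7 969)
(mv 1035 (cons (fin 1036 0 1033)
(fin 971 6 970))))))))))))))))))
(cons (mv 1162 (cons (fin 1161 2 1097)
(mv 1226 (cons (fin 1225 1 1161)
(mv 1227 (cons (fin 1166 1 1162)
(mv 1291 (cons (fin 1355 6 1099)
(mv 1036 (cons (fin 972 5 971)
(fin 1099 6 1035)))))))))))
(cons (mv 1099 (cons (fin 1098 2 1034)
(mv 1166 (cons (fin 1167 3 1099)
(mv 1227 (cons (fin 1226 1 1162)
(mv 1291 (cons (fin 1355 6 1099)
(fin 1036 6 1035)))))))))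
(mv 1162 (cons (fin 1161 2 1097)
(mv 1098 (cons (fin 1097 3 1097)
(fin 1099 2 1034)))))))))
(mv 1229 (cons (fin 974 6 973)
(mv 1357 (cons (fin 1293 7 1100)
(mv 1230 (cons (fin 1294 4 1037)
(mv 1231 (cons (fin 1232 3 1164)
(mv 1163 (cons (fin 1162 0 1162)
(fin 1166 0 1163))))))))))))))
(cons (mv 1228 (cons (fin 1292 6 1036)
(mv 1036 (cons (cons (mv 1291 (cons (fin 1227 5 1035)
(mv 1293 (cons (fin 1229 4 1036)
(mv 971 (cons (fin 1035 7 971)
(mv 972 (cons (fin 907 7 907)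
(mv 908 (cons (fin 1165 4 908)
(fin 844 4 844)))))))))))
(cons (mv 1291 (cons (fin 1227 5 1035)
(mv 971 (cons (fin 1035 7 971)
(mv 972 (cons (fin 907 7 907)
(mv 908 (cons (fin 1165 4 908)
(fin 844 4 844)))))))))
(mv 1291 (cons (fin 1227 5 1035)
(mv 1229 (cons (fin 1293 4 1036)
(mv 1165 (cons (fin 972 7 972)
(fin 974 6 973)))))))))
(cons (mv 1293 (cons (fin 1229 4 1036)
(mv 971 (cons (fin 1035 7 971)
(mv 972 (cons (fin 907 7 907)
(mv 908 (cons (fin 1165 4 908)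
(fin 844 4 844)))))))))
(cons (mv 1291 (cons (fin 1227 5 1035)
(mv 1229 (cons (fin 1293 4 1036)
(mv 1165 (cons (fin 974 6 973)
(mv 1230 (cons (fin 1294 4 1037)
(mv 1231 (cons (fin 1163 3 1163)
(fin 1232 3 1164)))))))))))
(mv 1293 (cons (fin 1229 4 1036)
(mv 1227 (cons (fin 1291 5 1035)
(mv 1163 (cons (fin 972 5 971)
(mv 1161 (cons (fin 1162 2 1097)
(mv 1035 (cons (fin 971 7 971)
(mv 1034 (cons (fin 1033 0 1033)
(mv 970 (cons (fin 969 3 969)
(fin 1099 7 970)))))))))))))))))))))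
(mv 1228 (cons (fin 1292 6 1036)
(mv 1098 (cons (fin 1099 2 1034)
(mv 1036 (cons (cons (mv 1291 (cons (fin 1227 5 1035)
(mv 1293 (cons (fin 1229 4 1036)
(mv 1035 (cons (fin 971 7 971)
(mv 1034 (cons (fin 1097 1 1033)
(fin 1033 0 1033)))))))))
(mv 1291 (cons (fin 1227 5 1035)
(mv 1035 (cons (fin 971 7 971)
(mv 1034 (cons (fin 1097 1 1033)
(fin 1033 0 1033))))))))
(cons (mv 1291 (cons (fin 1227 5 1035)
(mv 1229 (cons (fin 1293 4 1036)
(mv 1165 (cons (fin 972 7 972)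
(mv 1230 (cons (fin 1294 4 1037)
(mv 1231 (cons (fin 1163 3 1163)
(fin 1232 3 1164)))))))))))
(mv 1293 (cons (fin 1229 4 1036)
(mv 1035 (cons (fin 971 7 971)
(mv 1034 (cons (fin 1097 1 1033)
(fin 1033 0 1033)))))))))))))))))
(cons (cons (mv 1228 (cons (fin 1292 6 1036)
(mv 1098 (cons (fin 1099 2 1034)
(mv 1036 (cons (cons (mv 1291 (cons (fin 1227 5 1035)
(mv 1293 (cons (fin 1229 4 1036)
(mv 1035 (cons (fin 971 7 971)
(mv 1034 (cons (fin 1097 1 1033)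
(fin 1033 0 1033)))))))))
(mv 1293 (cons (fin 1229 4 1036)
(mv 1227 (cons (fin 1291 5 1035)
(mv 972 (cons (fin 1163 5 971)
(mv 907 (cons (fin 971 7 907)
(mv 908 (cons (fin 843 7 843)
(fin 844 4 844))))))))))))
(cons (mv 1293 (cons (fin 1229 4 1036)
(mv 1227 (cons (fin 1291 5 1035)
(mv 1163 (cons (fin 972 5 971)
(mv 1162 (cons (fin 1161 2 1097)
(mv 1034 (cons (fin 970 4 970)
(mv 1035 (cons (fin 1097 1 1033)
(fin 1033 0 1033)))))))))))))
(cons (mv 1293 (cons (fin 1229 4 1036)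
(mv 1035 (cons (fin 971 7 971)
(mv 1034 (cons (fin 1097 1 1033)
(fin 1033 0 1033)))))))
(mv 1291 (cons (fin 1227 5 1035)
(mv 1035 (cons (fin 971 7 971)
(mv 1034 (cons (fin 1097 1 1033)
(fin 1033 0 1033)))))))))))))))
(cons (mv 1228 (cons (fin 1292 6 1036)
(mv 1098 (cons (fin 1099 2 1034)
(mv 1036 (cons (cons (mv 1291 (cons (fin 1227 5 1035)
(mv 1035 (cons (fin 971 7 971)
(mv 1034 (cons (fin 1097 1 1033)
(fin 1033 0 1033)))))))
(mv 1227 (cons (fin 1291 5 1035)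
(mv 1163 (cons (fin 972 5 971)
(mv 1162 (cons (fin 1161 2 1097)
(mv 1165 (cons (fin 1097 3 1097)
(mv 1226 (cons (fin 1225 1 1161)
(fin 1166 1 1162))))))))))))
(cons (mv 1035 (cons (fin 971 7 971)
(mv 1034 (cons (fin 1097 1 1033)
(fin 1033 0 1033)))))
(mv 1291 (cons (fin 1227 5 1035)
(mv 971 (cons (fin 1035 7 971)
(mv 972 (cons (fin 907 7 907)
(mv 908 (cons (fin 1165 4 908)
(fin 844 4 844))))))))))))))))
(mv 1292 (cons (fin 1228 6 1036)
(mv 1165 (cons (mv 1229 (cons (fin 974 6 973)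
(mv 1293 (cons (fin 1356 5 1100)
(fin 1357 7 1100)))))
(cons (mv 1163 (cons (cons (mv 1161 (cons (fin 1162 2 1097)
(mv 1099 (cons (fin 1098 2 1034)
(mv 1166 (cons (fin 1167 3 1099)
(mv 1227 (cons (fin 1226 1 1162)
(mv 1291 (cons (fin 1356 4 1099)
(fin 1355 6 1099)))))))))))
(mv 1162 (cons (fin 1161 2 1097)
(mv 1226 (cons (fin 1225 1 1161)
(mv 1227 (cons (fin 1166 1 1162)
(mv 1291 (cons (fin 1355 6 1099)
(mv 1098 (cons (fin 1097 3 1097)
(fin 1034 4 1034))))))))))))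
(cons (mv 1162 (cons (fin 1161 2 1097)
(mv 1226 (cons (fin 1225 1 1161)
(mv 1227 (cons (fin 1166 1 1162)
(mv 1291 (cons (fin 1355 6 1099)
(mv 1293 (cons (fin 1294 3 1226)
(mv 1099 (cons (fin 1356 4 1099)
(mv 1290 (cons (fin 1354 5 1098)
(fin 1035 5 1034)))))))))))))))
(cons (mv 1099 (cons (fin 1098 2 1034)
(mv 1166 (cons (fin 1167 3 1099)
(mv 1227 (cons (fin 1226 1 1162)
(mv 1291 (cons (fin 1356 4 1099)
(fin 1355 6 1099)))))))))
(mv 1162 (cons (fin 1161 2 1097)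
(mv 1098 (cons (fin 1097 3 1097)
(fin 1099 2 1034)))))))))
(mv 1229 (cons (fin 974 6 973)
(mv 1230 (cons (fin 1294 4 1037)
(mv 1231 (cons (fin 1232 3 1164)
(mv 1163 (cons (fin 1162 0 1162)
(fin 1166 0 1163))))))))))))))))
(cons (mv 1292 (cons (fin 1228 6 1036)
(mv 1165 (cons (mv 1229 (cons (fin 974 6 973)
(mv 1293 (cons (fin 1356 5 1100)
(fin 1357 7 1100)))))
(cons (mv 1163 (cons (cons (mv 1161 (cons (fin 1162 2 1097)
(mv 1099 (cons (fin 1098 2 1034)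
(mv 1166 (cons (fin 1167 3 1099)
(mv 1227 (cons (fin 1226 1 1162)
(mv 1291 (cons (fin 1356 4 1099)
(fin 1355 6 1099)))))))))))
(mv 1162 (cons (fin 1161 2 1097)
(mv 1226 (cons (fin 1225 1 1161)
(mv 1227 (cons (fin 1166 1 1162)
(mv 1291 (cons (fin 1355 6 1099)
(mv 1098 (cons (fin 1097 3 1097)
(fin 1034 4 1034))))))))))))
(cons (mv 1162 (cons (fin 1161 2 1097)
(mv 1226 (cons (fin 1225 1 1161)
(mv 1227 (cons (fin 1166 1 1162)
(mv 1291 (cons (fin 1355 6 1099)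
(mv 1099 (cons (fin 1356 4 1099)
(fin 1036 6 1035)))))))))))
(cons (mv 1099 (cons (fin 1098 2 1034)
(mv 1166 (cons (fin 1167 3 1099)
(mv 1227 (cons (fin 1226 1 1162)
(mv 1291 (cons (fin 1356 4 1099)
(fin 1355 6 1099)))))))))
(mv 1162 (cons (fin 1161 2 1097)
(mv 1098 (cons (fin 1097 3 1097)
(fin 1099 2 1034)))))))))
(mv 1229 (cons (fin 974 6 973)
(mv 1293 (cons (fin 1357 7 1100)
(fin 1036 7 1036))))))))))
(cons (mv 1228 (cons (fin 1292 6 1036)
(mv 1098 (cons (fin 1099 2 1034)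
(mv 1036 (cons (mv 1293 (cons (fin 1229 4 1036)
(mv 1035 (cons (fin 971 7 971)
(mv 1034 (cons (fin 1097 1 1033)
(fin 1033 0 1033)))))))
(cons (mv 1035 (cons (fin 971 7 971)
(mv 1034 (cons (fin 1097 1 1033)
(fin 1033 0 1033)))))
(mv 1229 (cons (fin 1293 4 1036)
(mv 1165 (cons (fin 972 7 972)
(fin 974 6 973))))))))))))
(mv 1292 (cons (fin 1228 6 1036)
(mv 1165 (cons (mv 1229 (cons (fin 974 6 973)
(mv 1293 (cons (fin 1356 5 1100)
(fin 1357 7 1100)))))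
(cons (mv 1163 (cons (cons (mv 1161 (cons (fin 1162 2 1097)
(mv 1099 (cons (fin 1098 2 1034)
(mv 1166 (cons (fin 1167 3 1099)
(mv 1227 (cons (fin 1226 1 1162)
(mv 1291 (cons (fin 1356 4 1099)
(fin 1355 6 1099)))))))))))
(mv 1162 (cons (fin 1161 2 1097)
(mv 1226 (cons (fin 1225 1 1161)
(mv 1166 (cons (fin 1227 1 1162)
(mv 1231 (cons (fin 1230 0 1163)
(mv 1167 (cons (fin 1168 3 1100)
(fin 1232 0 1164))))))))))))
(cons (mv 1099 (cons (fin 1098 2 1034)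
(mv 1166 (cons (fin 1167 3 1099)
(mv 1227 (cons (fin 1226 1 1162)
(mv 1291 (cons (fin 1356 4 1099)
(fin 1355 6 1099)))))))))
(mv 1162 (cons (fin 1161 2 1097)
(mv 1098 (cons (fin 1097 3 1097)
(fin 1099 2 1034))))))))
(mv 1229 (cons (fin 974 6 973)
(mv 1293 (cons (fin 1357 7 1100)
(fin 1036 7 1036)))))))))))))))
(mv 1099 (cons (fin 1098 2 1034)
(mv 1102 (cons (cons (mv 1162 (cons (fin 1163 1 1098)
(mv 1166 (cons (fin 1167 0 1099)
(mv 1230 (cons (fin 1294 7 1037)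
(mv 1229 (cons (fin 1293 5 1037)
(mv 1231 (cons (fin 1295 4 1038)
(mv 1165 (cons (fin 974 5 973)
(mv 1232 (cons (fin 1164 3 1164)
(fin 1233 3 1165)))))))))))))))
(mv 1163 (cons (fin 1162 1 1098)
(mv 1164 (cons (fin 1103 1 1099)
(mv 1228 (cons (fin 1292 6 1036)
(mv 1035 (cons (fin 1034 3 1034)
(fin 971 4 971))))))))))
(cons (mv 1166 (cons (fin 1167 0 1099)
(mv 1230 (cons (fin 1294 7 1037)
(mv 1229 (cons (fin 1293 5 1037)
(mv 1231 (cons (fin 1295 4 1038)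
(mv 1165 (cons (fin 974 5 973)
(mv 1232 (cons (fin 1164 3 1164)
(fin 1233 3 1165)))))))))))))
(mv 1162 (cons (fin 1163 1 1098)
(mv 1034 (cons (fin 1035 3 1034)
(mv 974 (cons (mv 1165 (cons (fin 910 5 909)
(fin 1229 6 973)))
(cons (mv 1229 (cons (fin 1165 6 973)
(mv 1166 (cons (fin 1167 0 1099)
(mv 1230 (cons (fin 1293 5 1037)
(fin 1294 7 1037)))))))
(mv 1167 (cons (fin 1166 0 1099)
(mv 1103 (cons (fin 1168 0 1100)
(fin 910 4 910)))))))))))))))))))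
(cons (cons (mv 1099 (cons (fin 1098 2 1034)
(mv 1102 (cons (cons (mv 1162 (cons (fin 1163 1 1098)
(mv 1166 (cons (fin 1167 0 1099)
(mv 1230 (cons (fin 1294 7 1037)
(mv 1295 (cons (fin 1231 4 1038)
(mv 1229 (cons (fin 1293 5 1037)
(mv 1165 (cons (fin 974 5 973)
(mv 1228 (cons (fin 1292 5 1036)
(mv 1227 (cons (fin 1226 2 1162)
(mv 1291 (cons (fin 1290 1 1226)
(mv 1036 (cons (fin 1164 5 1035)
(fin 972 7 972)))))))))))))))))))))
(mv 1163 (cons (fin 1162 1 1098)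
(mv 1103 (cons (fin 1164 1 1099)
(mv 1104 (cons (fin 1036 3 1036)
(fin 1105 3 1037))))))))
(cons (mv 1166 (cons (fin 1167 0 1099)
(mv 1230 (cons (fin 1294 7 1037)
(mv 1295 (cons (fin 1231 4 1038)
(mv 1229 (cons (fin 1293 5 1037)
(mv 1165 (cons (fin 974 5 973)
(mv 1228 (cons (fin 1292 5 1036)
(mv 1227 (cons (fin 1226 2 1162)
(mv 1291 (cons (fin 1290 1 1226)
(mv 1036 (cons (fin 1164 5 1035)
(fin 972 7 972)))))))))))))))))))
(cons (mv 1162 (cons (fin 1163 1 1098)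
(mv 1167 (cons (fin 1166 0 1099)
(mv 1103 (cons (fin 1168 0 1100)
(mv 1104 (cons (fin 1036 3 1036)
(fin 1105 3 1037)))))))))
(mv 1162 (cons (fin 1163 1 1098)
(mv 1166 (cons (fin 1167 0 1099)
(mv 1230 (cons (fin 1294 7 1037)
(mv 1229 (cons (fin 1293 5 1037)
(mv 1231 (cons (fin 1295 4 1038)
(mv 1165 (cons (fin 974 5 973)
(mv 1232 (cons (fin 1164 3 1164)
(fin 1233 3 1165)))))))))))))))))))))
(mv 1099 (cons (fin 1098 2 1034)
(mv 1102 (cons (cons (mv 1162 (cons (fin 1163 1 1098)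
(mv 1035 (cons (fin 1034 3 1034)
(mv 1103 (cons (fin 1036 3 1035)
(mv 1167 (cons (fin 1168 0 1100)
(mv 1295 (cons (fin 1231 7 1038)
(mv 1104 (cons (fin 1105 3 1037)
(mv 1165 (cons (fin 1164 1 1100)
(mv 1229 (cons (fin 1293 6 1037)
(fin 974 6 973)))))))))))))))))
(cons (mv 1163 (cons (fin 1162 1 1098)
(mv 1103 (cons (fin 1164 1 1099)
(mv 1104 (cons (fin 1036 3 1036)
(fin 1105 3 1037)))))))
(mv 1035 (cons (fin 1034 3 1034)
(mv 1103 (cons (fin 1036 3 1035)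
(mv 1167 (cons (fin 1168 0 1100)
(mv 1295 (cons (fin 1231 7 1038)
(mv 1104 (cons (fin 1105 3 1037)
(mv 1165 (cons (fin 1164 1 1100)
(mv 1229 (cons (fin 1293 6 1037)
(fin 974 6 973)))))))))))))))))
(cons (mv 1163 (cons (fin 1162 1 1098)
(mv 1035 (cons (fin 1034 3 1034)
(mv 971 (cons (mv 1164 (cons (fin 1228 4 971)
(fin 907 4 907)))
(mv 970 (cons (fin 1036 3 970)
(fin 906 7 906)))))))))
(cons (mv 1163 (cons (fin 1162 1 1098)
(mv 1164 (cons (fin 1103 1 1099)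
(mv 1228 (cons (fin 1292 6 1036)
(mv 1035 (cons (fin 1034 3 1034)
(fin 971 4 971)))))))))
(mv 1162 (cons (fin 1163 1 1098)
(mv 1035 (cons (fin 1034 3 1034)
(mv 1103 (cons (fin 1036 3 1035)
(mv 1168 (cons (fin 1167 0 1100)
(mv 1104 (cons (fin 1105 3 1037)
(fin 1169 0 1101))))))))))))))))))
(cons (mv 1099 (cons (fin 1098 2 1034)
(mv 1102 (cons (cons (mv 1162 (cons (fin 1163 1 1098)
(mv 1035 (cons (fin 1034 3 1034)
(mv 1103 (cons (fin 1036 3 1035)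
(mv 1104 (cons (fin 1105 3 1037)
(mv 1165 (cons (fin 1164 1 1100)
(mv 1229 (cons (fin 1293 6 1037)
(fin 974 6 973)))))))))))))
(cons (mv 1163 (cons (fin 1162 1 1098)
(mv 1103 (cons (fin 1164 1 1099)
(mv 1104 (cons (fin 1036 3 1036)
(fin 1105 3 1037)))))))
(mv 1035 (cons (fin 1034 3 1034)
(mv 1103 (cons (fin 1036 3 1035)
(mv 1104 (cons (fin 1105 3 1037)
(mv 1165 (cons (fin 1164 1 1100)
(mv 1229 (cons (fin 1293 6 1037)
(fin 974 6 973)))))))))))))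
(cons (mv 1163 (cons (fin 1162 1 1098)
(mv 1035 (cons (fin 1034 3 1034)
(mv 971 (cons (mv 1164 (cons (fin 1228 4 971)
(fin 907 4 907)))
(mv 970 (cons (fin 1036 3 970)
(fin 906 7 906)))))))))
(cons (mv 1163 (cons (fin 1162 1 1098)
(mv 1164 (cons (fin 1103 1 1099)
(mv 1228 (cons (fin 1292 6 1036)
(mv 1035 (cons (fin 1034 3 1034)
(fin 971 4 971)))))))))
(mv 1162 (cons (fin 1163 1 1098)
(mv 1035 (cons (fin 1034 3 1034)
(mv 1036 (cons (fin 1103 3 1035)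
(mv 971 (cons (fin 970 3 970)
(mv 907 (cons (fin 843 4 843)
(mv 906 (cons (fin 842 7 842)
(mv 908 (cons (fin 844 6 843)
(mv 1165 (cons (fin 972 4 908)
(mv 1229 (cons (fin 1293 7 1036)
(fin 974 6 973)))))))))))))))))))))))))
(mv 1099 (cons (fin 1098 2 1034)
(mv 1102 (cons (cons (mv 1166 (cons (fin 1167 0 1099)
(mv 1294 (cons (fin 1230 7 1037)
(mv 1035 (cons (fin 1034 3 1034)
(mv 1103 (cons (fin 1036 3 1035)
(mv 1104 (cons (fin 1105 3 1037)
(mv 1165 (cons (fin 1164 1 1100)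
(mv 1229 (cons (fin 974 5 973)
(fin 1293 6 1037)))))))))))))))
(cons (mv 1166 (cons (fin 1167 0 1099)
(mv 1230 (cons (fin 1294 7 1037)
(mv 1295 (cons (fin 1231 4 1038)
(mv 1229 (cons (fin 1293 5 1037)
(mv 1165 (cons (fin 974 5 973)
(mv 1228 (cons (fin 1292 5 1036)
(mv 1227 (cons (fin 1226 2 1162)
(mv 1291 (cons (fin 1290 1 1226)
(mv 1036 (cons (fin 1164 5 1035)
(fin 972 7 972)))))))))))))))))))
(mv 1035 (cons (fin 1034 3 1034)
(mv 1103 (cons (fin 1036 3 1035)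
(mv 1167 (cons (fin 1168 0 1100)
(mv 1295 (cons (fin 1231 7 1038)
(mv 1104 (cons (fin 1105 3 1037)
(mv 1165 (cons (fin 1164 1 1100)
(mv 1229 (cons (fin 1293 6 1037)
(fin 974 6 973)))))))))))))))))
(cons (cons (mv 1035 (cons (fin 1034 3 1034)
(mv 1103 (cons (fin 1036 3 1035)
(mv 1104 (cons (fin 1105 3 1037)
(mv 1165 (cons (fin 1164 1 1100)
(mv 1229 (cons (fin 1293 6 1037)
(fin 974 6 973)))))))))))
(mv 1166 (cons (fin 1167 0 1099)
(mv 1230 (cons (fin 1294 7 1037)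
(mv 1229 (cons (fin 1293 5 1037)
(mv 1231 (cons (fin 1295 4 1038)
(mv 1165 (cons (fin 974 5 973)
(mv 1232 (cons (fin 1164 3 1164)
(fin 1233 3 1165))))))))))))))
(cons (mv 1166 (cons (fin 1167 0 1099)
(mv 1294 (cons (fin 1230 7 1037)
(mv 1035 (cons (fin 1034 3 1034)
(mv 1036 (cons (fin 1103 3 1035)
(mv 971 (cons (fin 970 3 970)
(mv 1164 (cons (fin 1228 7 971)
(fin 907 4 907)))))))))))))
(mv 1166 (cons (fin 1167 0 1099)
(mv 1294 (cons (fin 1230 7 1037)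
(mv 1035 (cons (fin 1034 3 1034)
(mv 1036 (cons (fin 1103 3 1035)
(mv 971 (cons (fin 970 3 970)
(mv 907 (cons (fin 843 4 843)
(mv 906 (cons (fin 842 7 842)
(mv 908 (cons (fin 844 6 843)
(mv 1165 (cons (fin 972 4 908)
(mv 1229 (cons (fin 974 5 973)
(fin 1293 7 1036))))))))))))))))))))))))))))))))
(mv 1104 (cons (cons (mv 1039 (cons (fin 1105 0 1037)
(mv 1103 (cons (fin 1036 0 1036)
(mv 976 (cons (fin 977 2 973)
(mv 1167 (cons (fin 912 5 911)
(fin 1231 6 975)))))))))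
(mv 1102 (cons (cons (mv 1103 (cons (fin 1036 3 1036)
(fin 1105 3 1037)))
(mv 1166 (cons (cons (mv 1230 (cons (fin 1294 7 1037)
(mv 1293 (cons (fin 1229 5 1037)
(mv 1231 (cons (fin 1295 4 1038)
(mv 1167 (cons (fin 974 4 974)
(mv 1168 (cons (fin 1169 3 1101)
(fin 976 5 975)))))))))))
(cons (mv 1165 (cons (mv 1229 (cons (fin 974 5 973)
(fin 1293 6 1037)))
(cons (mv 974 (cons (fin 910 5 909)
(mv 1167 (cons (fin 1231 4 974)
(mv 1168 (cons (fin 1169 3 1101)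
(fin 1105 2 1101)))))))
(mv 1229 (cons (fin 1293 6 1037)
(mv 1228 (cons (fin 1292 5 1036)
(mv 1226 (cons (fin 1227 2 1162)
(mv 1167 (cons (fin 1168 1 1164)
(mv 1036 (cons (fin 972 7 972)
(mv 1035 (cons (fin 1034 0 1034)
(mv 1099 (cons (fin 1098 1 1034)
(mv 971 (cons (fin 970 3 970)
(mv 1163 (cons (fin 1162 5 970)
(fin 1164 4 971))))))))))))))))))))))
(mv 1230 (cons (fin 1294 7 1037)
(mv 1229 (cons (fin 1293 5 1037)
(mv 1231 (cons (fin 1295 4 1038)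
(mv 1168 (cons (mv 1167 (cons (fin 1169 1 1165)
(fin 1228 2 1164)))
(cons (mv 1232 (cons (fin 1169 2 1165)
(mv 1297 (cons (fin 1296 0 1229)
(fin 1233 4 1040)))))
(mv 1167 (cons (fin 1228 2 1164)
(fin 976 5 975))))))))))))))
(cons (mv 1230 (cons (fin 1294 7 1037)
(mv 1231 (cons (fin 1295 4 1038)
(mv 1167 (cons (fin 974 4 974)
(mv 1168 (cons (fin 1169 3 1101)
(fin 976 5 975)))))))))
(cons (mv 1230 (cons (fin 1294 7 1037)
(mv 1295 (cons (fin 1231 4 1038)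
(mv 1229 (cons (fin 1293 5 1037)
(mv 1165 (cons (fin 974 5 973)
(mv 1228 (cons (fin 1292 5 1036)
(mv 1226 (cons (fin 1227 2 1162)
(mv 1036 (cons (fin 972 7 972)
(mv 1035 (cons (fin 1034 0 1034)
(mv 1099 (cons (fin 1098 1 1034)
(mv 971 (cons (fin 970 3 970)
(mv 1163 (cons (fin 1162 5 970)
(fin 1164 4 971)))))))))))))))))))))))
(mv 1230 (cons (fin 1294 7 1037)
(mv 1229 (cons (fin 1293 5 1037)
(mv 1165 (cons (fin 974 5 973)
(mv 1228 (cons (fin 1292 5 1036)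
(mv 1227 (cons (fin 1226 2 1162)
(fin 1167 2 1163))))))))))))))))
(cons (mv 1103 (cons (fin 1105 3 1037)
(mv 1165 (cons (fin 1164 1 1100)
(mv 1229 (cons (fin 1293 6 1037)
(fin 974 6 973)))))))
(mv 1103 (cons (fin 1036 3 1036)
(mv 1165 (cons (fin 1164 1 1100)
(mv 1229 (cons (fin 1293 6 1037)
(fin 974 6 973)))))))))))
(cons (mv 1036 (cons (cons (mv 1103 (cons (fin 1102 3 1036)
(fin 1039 0 1036)))
(mv 1035 (cons (mv 1098 (cons (fin 1099 1 1034)
(mv 1034 (cons (fin 1097 1 1033)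
(fin 1102 0 1034)))))
(cons (mv 1099 (cons (fin 1098 1 1034)
(mv 971 (cons (fin 970 3 970)
(mv 972 (cons (fin 1039 3 971)
(mv 1163 (cons (fin 1227 6 971)
(fin 908 6 907)))))))))
(mv 1034 (cons (fin 1102 0 1034)
(mv 970 (cons (fin 969 3 969)
(fin 971 3 970)))))))))
(cons (mv 976 (cons (cons (mv 1039 (cons (fin 1103 0 1036)
(fin 977 2 973)))
(mv 912 (cons (cons (mv 1167 (cons (fin 1103 5 911)
(mv 1231 (cons (fin 1168 5 975)
(mv 847 (cons (fin 911 7 847)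
(mv 848 (cons (fin 783 7 783)
(mv 849 (cons (fin 913 6 848)
(fin 785 6 784)))))))))))
(mv 1167 (cons (fin 1103 5 911)
(mv 1168 (cons (fin 1231 5 975)
(mv 1233 (cons (fin 1169 4 976)
(mv 1232 (cons (fin 1297 4 1040)
(mv 1234 (cons (fin 1235 3 1167)
(mv 1165 (cons (fin 1166 0 1165)
(mv 1229 (cons (fin 972 7 972)
(fin 974 6 973))))))))))))))))
(cons (mv 911 (cons (fin 847 7 847)
(mv 913 (cons (fin 849 6 848)
(mv 977 (cons (fin 1168 6 912)
(mv 978 (cons (fin 979 3 911)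
(fin 910 0 910)))))))))
(mv 1167 (cons (fin 1103 5 911)
(mv 847 (cons (fin 911 7 847)
(mv 848 (cons (fin 783 7 783)
(mv 849 (cons (fin 913 6 848)
(fin 785 6 784)))))))))))))
(cons (mv 977 (cons (fin 1039 2 973)
(mv 1168 (cons (fin 913 6 912)
(mv 1231 (cons (fin 1167 5 975)
(mv 1232 (cons (fin 1295 5 1039)
(mv 1233 (cons (fin 1297 4 1040)
(fin 1169 4 976)))))))))))
(mv 1103 (cons (fin 1039 0 1036)
(mv 1167 (cons (fin 912 5 911)
(mv 1231 (cons (fin 1168 5 975)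
(fin 1295 6 1039))))))))))
(mv 1102 (cons (fin 1103 3 1036)
(mv 1035 (cons (fin 1034 0 1034)
(mv 1099 (cons (fin 1098 1 1034)
(mv 971 (cons (fin 970 3 970)
(mv 972 (cons (mv 1163 (cons (fin 1227 6 971)
(fin 908 6 907)))
(cons (mv 1163 (cons (fin 1227 6 971)
(mv 1162 (cons (fin 1226 5 970)
(mv 1164 (cons (fin 1165 2 1098)
(fin 1228 4 971)))))))
(mv 1165 (cons (fin 1229 7 972)
(mv 910 (cons (fin 974 5 909)
(mv 907 (cons (mv 906 (cons (fin 842 7 842)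
(mv 904 (cons (fin 905 0 904)
(mv 908 (cons (fin 844 5 843)
(mv 909 (cons (fin 911 1 907)
(mv 846 (cons (fin 845 2 842)
(fin 847 2 843)))))))))))
(cons (mv 842 (cons (fin 906 7 842)
(mv 843 (cons (fin 778 7 778)
(fin 779 4 779)))))
(mv 843 (cons (fin 779 4 779)
(mv 844 (cons (fin 908 5 843)
(fin 780 6 779))))))))))))))))))))))))))
(cons (mv 974 (cons (mv 1165 (cons (fin 1229 6 973)
(mv 910 (cons (fin 1102 5 909)
(fin 846 5 845)))))
(cons (mv 910 (cons (fin 846 5 845)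
(mv 976 (cons (cons (mv 1039 (cons (fin 1105 0 1037)
(fin 977 2 973)))
(mv 912 (cons (cons (mv 1169 (cons (fin 1105 4 912)
(mv 1233 (cons (fin 1168 4 976)
(mv 911 (cons (fin 847 7 847)
(mv 977 (cons (fin 909 0 909)
(mv 978 (cons (fin 979 3 911)
(fin 913 0 910)))))))))))
(mv 1169 (cons (fin 1105 4 912)
(mv 1168 (cons (fin 1233 4 976)
(mv 913 (cons (fin 977 6 912)
(fin 849 6 848))))))))
(cons (mv 1169 (cons (fin 1105 4 912)
(mv 1233 (cons (fin 1168 4 976)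
(mv 911 (cons (fin 847 7 847)
(mv 909 (cons (fin 977 0 909)
(mv 845 (cons (fin 844 3 844)
(fin 1102 7 845)))))))))))
(cons (mv 911 (cons (fin 847 7 847)
(mv 977 (cons (fin 909 0 909)
(mv 978 (cons (fin 979 3 911)
(fin 913 0 910)))))))
(mv 1169 (cons (fin 1105 4 912)
(mv 1233 (cons (fin 1168 4 976)
(mv 911 (cons (fin 847 7 847)
(mv 849 (cons (fin 913 6 848)
(mv 848 (cons (fin 909 2 845)
(fin 785 6 784))))))))))))))))
(cons (mv 1105 (cons (fin 1039 0 1037)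
(mv 1169 (cons (fin 912 4 912)
(mv 1233 (cons (fin 1297 7 1040)
(fin 1168 4 976)))))))
(mv 977 (cons (fin 1039 2 973)
(mv 1168 (cons (fin 913 6 912)
(mv 1231 (cons (fin 1167 5 975)
(mv 1232 (cons (fin 1295 5 1039)
(mv 1233 (cons (fin 1297 4 1040)
(fin 1169 4 976))))))))))))))))
(mv 1229 (cons (fin 1165 6 973)
(mv 976 (cons (cons (mv 1039 (cons (fin 1105 0 1037)
(fin 977 2 973)))
(mv 1168 (cons (cons (mv 1231 (cons (fin 1167 5 975)
(mv 1295 (cons (fin 1232 5 1039)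
(mv 1169 (cons (fin 1233 4 976)
(mv 912 (cons (fin 1105 4 912)
(mv 913 (cons (fin 977 6 912)
(fin 849 6 848)))))))))))
(mv 1231 (cons (fin 1167 5 975)
(mv 1232 (cons (fin 1295 5 1039)
(mv 1297 (cons (fin 1233 4 1040)
(mv 1296 (cons (fin 1230 0 1229)
(fin 1361 4 1104))))))))))
(cons (mv 1169 (cons (fin 1233 4 976)
(mv 912 (cons (fin 1105 4 912)
(mv 913 (cons (fin 977 6 912)
(fin 849 6 848)))))))
(mv 1231 (cons (fin 1167 5 975)
(mv 1232 (cons (fin 1295 5 1039)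
(mv 1169 (cons (fin 1230 2 1165)
(mv 1170 (cons (fin 1171 1 1167)
(mv 912 (cons (fin 1105 4 912)
(mv 913 (cons (fin 977 6 912)
(fin 849 6 848)))))))))))))))))
(cons (mv 977 (cons (fin 1039 2 973)
(mv 1168 (cons (fin 913 6 912)
(mv 1231 (cons (fin 1167 5 975)
(mv 1232 (cons (fin 1295 5 1039)
(mv 1233 (cons (fin 1297 4 1040)
(fin 1169 4 976)))))))))))
(mv 1105 (cons (fin 1039 0 1037)
(mv 1169 (cons (fin 912 4 912)
(mv 1233 (cons (fin 1297 7 1040)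
(fin 1168 4 976)))))))))))))))
(mv 1039 (cons (fin 1105 0 1037)
(mv 1036 (cons (fin 1103 0 1036)
(mv 971 (cons (fin 972 3 971)
(mv 1035 (cons (fin 970 3 970)
(mv 1098 (cons (fin 1099 1 1034)
(mv 1034 (cons (fin 1097 1 1033)
(fin 1102 0 1034)))))))))))))))))))
(cons (cons (mv 1100 (cons (fin 1039 1 1036)
(mv 1099 (cons (fin 1098 2 1034)
(mv 1102 (cons (cons (mv 1162 (cons (fin 1163 1 1098)
(mv 1166 (cons (fin 1167 0 1099)
(mv 1294 (cons (fin 1230 7 1037)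
(mv 1035 (cons (fin 1034 3 1034)
(mv 1036 (cons (fin 1103 3 1035)
(mv 971 (cons (fin 970 3 970)
(mv 1164 (cons (fin 1228 7 971)
(fin 907 4 907)))))))))))))))
(cons (mv 1162 (cons (fin 1163 1 1098)
(mv 1166 (cons (fin 1167 0 1099)
(mv 1230 (cons (fin 1294 7 1037)
(mv 1295 (cons (fin 1231 4 1038)
(mv 1229 (cons (fin 1293 5 1037)
(mv 1165 (cons (fin 974 5 973)
(mv 1228 (cons (fin 1292 5 1036)
(mv 1227 (cons (fin 1226 2 1162)
(mv 1291 (cons (fin 1290 1 1226)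
(mv 1036 (cons (fin 1164 5 1035)
(fin 972 7 972)))))))))))))))))))))
(mv 1162 (cons (fin 1163 1 1098)
(mv 1035 (cons (fin 1034 3 1034)
(mv 1036 (cons (fin 1103 3 1035)
(mv 971 (cons (fin 970 3 970)
(mv 1164 (cons (fin 1228 7 971)
(fin 907 4 907)))))))))))))
(cons (mv 1166 (cons (fin 1167 0 1099)
(mv 1294 (cons (fin 1230 7 1037)
(mv 1035 (cons (fin 1034 3 1034)
(mv 1036 (cons (fin 1103 3 1035)
(mv 971 (cons (fin 970 3 970)
(mv 1164 (cons (fin 1228 7 971)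
(fin 907 4 907)))))))))))))
(cons (mv 1162 (cons (fin 1163 1 1098)
(mv 1166 (cons (fin 1167 0 1099)
(mv 1230 (cons (fin 1294 7 1037)
(mv 1229 (cons (fin 1293 5 1037)
(mv 1231 (cons (fin 1295 4 1038)
(mv 1165 (cons (fin 974 5 973)
(mv 1232 (cons (fin 1164 3 1164)
(fin 1233 3 1165)))))))))))))))
(mv 1162 (cons (fin 1163 1 1098)
(mv 1166 (cons (fin 1167 0 1099)
(mv 1294 (cons (fin 1230 7 1037)
(mv 1035 (cons (fin 1034 3 1034)
(mv 1036 (cons (fin 1103 3 1035)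
(mv 971 (cons (fin 970 3 970)
(mv 907 (cons (fin 843 4 843)
(mv 906 (cons (fin 842 7 842)
(mv 908 (cons (fin 844 6 843)
(mv 1165 (cons (fin 972 4 908)
(mv 1229 (cons (fin 974 5 973)
(fin 1293 7 1036)))))))))))))))))))))))))))))))
(mv 1100 (cons (fin 1039 1 1036)
(mv 1099 (cons (fin 1098 2 1034)
(mv 1102 (cons (cons (mv 1162 (cons (fin 1163 1 1098)
(mv 1166 (cons (fin 1167 0 1099)
(mv 1230 (cons (fin 1294 7 1037)
(mv 1229 (cons (fin 1293 5 1037)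
(mv 1231 (cons (fin 1295 4 1038)
(mv 1165 (cons (fin 974 5 973)
(mv 1232 (cons (fin 1164 3 1164)
(fin 1233 3 1165)))))))))))))))
(mv 1163 (cons (fin 1162 1 1098)
(mv 1164 (cons (fin 1103 1 1099)
(mv 1228 (cons (fin 1292 6 1036)
(mv 1035 (cons (fin 1034 3 1034)
(fin 971 4 971))))))))))
(cons (mv 1166 (cons (fin 1167 0 1099)
(mv 1230 (cons (fin 1294 7 1037)
(mv 1229 (cons (fin 1293 5 1037)
(mv 1231 (cons (fin 1295 4 1038)
(mv 1165 (cons (fin 974 5 973)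
(mv 1232 (cons (fin 1164 3 1164)
(fin 1233 3 1165)))))))))))))
(mv 1162 (cons (fin 1163 1 1098)
(mv 1034 (cons (fin 1035 3 1034)
(mv 974 (cons (mv 1165 (cons (fin 910 5 909)
(fin 1229 6 973)))
(cons (mv 1229 (cons (fin 1165 6 973)
(mv 1166 (cons (fin 1167 0 1099)
(mv 1230 (cons (fin 1293 5 1037)
(fin 1294 7 1037)))))))
(mv 1167 (cons (fin 1166 0 1099)
(mv 1103 (cons (fin 1168 0 1100)
(fin 910 4 910))))))))))))))))))))
(cons (mv 1100 (cons (fin 1039 1 1036)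
(mv 1099 (cons (fin 1098 2 1034)
(mv 1102 (cons (cons (mv 1162 (cons (fin 1163 1 1098)
(mv 1166 (cons (fin 1167 0 1099)
(mv 1230 (cons (fin 1294 7 1037)
(mv 1295 (cons (fin 1231 4 1038)
(mv 1229 (cons (fin 1293 5 1037)
(mv 1165 (cons (fin 974 5 973)
(mv 1292 (cons (fin 1228 5 1036)
(mv 1035 (cons (fin 1034 3 1034)
(mv 1036 (cons (fin 972 7 972)
(mv 971 (cons (fin 970 3 970)
(mv 907 (cons (fin 1164 4 907)
(fin 843 4 843)))))))))))))))))))))))
(cons (mv 1163 (cons (fin 1162 1 1098)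
(mv 1035 (cons (fin 1034 3 1034)
(mv 971 (cons (mv 1164 (cons (fin 1228 4 971)
(fin 907 4 907)))
(mv 970 (cons (fin 1036 3 970)
(fin 906 7 906)))))))))
(mv 1162 (cons (fin 1163 1 1098)
(mv 1166 (cons (fin 1167 0 1099)
(mv 1230 (cons (fin 1294 7 1037)
(mv 1295 (cons (fin 1231 4 1038)
(mv 1229 (cons (fin 1293 5 1037)
(mv 1165 (cons (fin 974 5 973)
(mv 1228 (cons (fin 1292 5 1036)
(mv 1227 (cons (fin 1226 2 1162)
(mv 1291 (cons (fin 1290 1 1226)
(mv 1036 (cons (fin 1164 5 1035)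
(fin 972 7 972)))))))))))))))))))))))
(cons (mv 1166 (cons (fin 1167 0 1099)
(mv 1230 (cons (fin 1294 7 1037)
(mv 1295 (cons (fin 1231 4 1038)
(mv 1229 (cons (fin 1293 5 1037)
(mv 1165 (cons (fin 974 5 973)
(mv 1292 (cons (fin 1228 5 1036)
(mv 1035 (cons (fin 1034 3 1034)
(mv 1036 (cons (fin 972 7 972)
(mv 971 (cons (fin 970 3 970)
(mv 907 (cons (fin 1164 4 907)
(fin 843 4 843)))))))))))))))))))))
(cons (mv 1162 (cons (fin 1163 1 1098)
(mv 1166 (cons (fin 1167 0 1099)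
(mv 1230 (cons (fin 1294 7 1037)
(mv 1229 (cons (fin 1293 5 1037)
(mv 1231 (cons (fin 1295 4 1038)
(mv 1165 (cons (fin 974 5 973)
(mv 1232 (cons (fin 1164 3 1164)
(fin 1233 3 1165)))))))))))))))
(mv 1163 (cons (fin 1162 1 1098)
(mv 1166 (cons (fin 1167 0 1099)
(mv 1230 (cons (fin 1294 7 1037)
(mv 1295 (cons (fin 1231 4 1038)
(mv 1229 (cons (fin 1293 5 1037)
(mv 1165 (cons (fin 974 5 973)
(mv 1228 (cons (fin 1292 5 1036)
(mv 1227 (cons (fin 1226 2 1162)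
(mv 1291 (cons (fin 1290 1 1226)
(fin 1036 6 1035)))))))))))))))))))))))))))
(mv 1100 (cons (fin 1039 1 1036)
(mv 1099 (cons (fin 1098 2 1034)
(mv 1102 (cons (cons (mv 1162 (cons (fin 1163 1 1098)
(mv 1035 (cons (fin 1034 3 1034)
(mv 1103 (cons (fin 1036 3 1035)
(mv 1104 (cons (fin 1105 3 1037)
(mv 1165 (cons (fin 1164 1 1100)
(mv 1229 (cons (fin 1293 6 1037)
(fin 974 6 973)))))))))))))
(cons (mv 1163 (cons (fin 1162 1 1098)
(mv 1103 (cons (fin 1164 1 1099)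
(mv 1104 (cons (fin 1036 3 1036)
(fin 1105 3 1037)))))))
(mv 1035 (cons (fin 1034 3 1034)
(mv 1103 (cons (fin 1036 3 1035)
(mv 1104 (cons (fin 1105 3 1037)
(mv 1165 (cons (fin 1164 1 1100)
(mv 1229 (cons (fin 1293 6 1037)
(fin 974 6 973)))))))))))))
(cons (mv 1163 (cons (fin 1162 1 1098)
(mv 1035 (cons (fin 1034 3 1034)
(mv 971 (cons (mv 1164 (cons (fin 1228 4 971)
(fin 907 4 907)))
(mv 970 (cons (fin 1036 3 970)
(fin 906 7 906)))))))))
(cons (mv 1163 (cons (fin 1162 1 1098)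
(mv 1164 (cons (fin 1103 1 1099)
(mv 1228 (cons (fin 1292 6 1036)
(mv 1035 (cons (fin 1034 3 1034)
(fin 971 4 971)))))))))
(mv 1162 (cons (fin 1163 1 1098)
(mv 1035 (cons (fin 1034 3 1034)
(mv 1036 (cons (fin 1103 3 1035)
(mv 971 (cons (fin 970 3 970)
(mv 907 (cons (fin 843 4 843)
(mv 906 (cons (fin 842 7 842)
(mv 908 (cons (fin 844 6 843)
(mv 1165 (cons (fin 972 4 908)
(mv 1229 (cons (fin 1293 7 1036)
(fin 974 6 973)))))))))))))))))))))))))))))))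
(mv 973 (cons (cons (cons (mv 1039 (cons (fin 972 3 972)
(mv 1100 (cons (fin 1101 1 1036)
(mv 1036 (cons (fin 1099 1 1035)
(mv 1228 (cons (fin 1164 6 972)
(mv 976 (cons (fin 977 2 973)
(mv 909 (cons (fin 845 5 844)
(mv 1102 (cons (mv 1166 (cons (fin 1230 7 973)
(fin 974 7 909)))
(cons (mv 1035 (cons (fin 1103 0 1035)
(mv 1034 (cons (fin 974 2 970)
(mv 970 (cons (fin 969 3 969)
(fin 971 3 970)))))))
(mv 1230 (cons (fin 1166 7 973)
(mv 1103 (cons (fin 1035 0 1035)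
(mv 1231 (cons (fin 1167 6 975)
(mv 1229 (cons (cons (mv 1291 (cons (fin 1292 1 1227)
(mv 1295 (cons (fin 1296 0 1228)
(mv 1227 (cons (fin 1290 1 1226)
(fin 1294 0 1227)))))))
(mv 1295 (cons (fin 1296 0 1228)
(mv 1227 (cons (fin 1294 0 1227)
(mv 1290 (cons (fin 1291 1 1226)
(mv 1226 (cons (fin 1289 1 1225)
(mv 1162 (cons (fin 1161 3 1161)
(fin 1163 3 1162))))))))))))
(cons (mv 1292 (cons (fin 1291 1 1227)
(mv 1232 (cons (fin 1293 1 1228)
(mv 1297 (cons (fin 1296 0 1229)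
(mv 1233 (cons (fin 1298 0 1230)
(mv 1169 (cons (fin 1168 2 1165)
(fin 1170 2 1166)))))))))))
(cons (mv 1296 (cons (fin 1295 0 1228)
(mv 1232 (cons (fin 1297 0 1229)
(mv 1293 (cons (fin 1292 1 1228)
(mv 1233 (cons (fin 1294 1 1229)
(mv 1169 (cons (fin 1168 2 1165)
(fin 1170 2 1166)))))))))))
(mv 1291 (cons (fin 1292 1 1227)
(mv 1227 (cons (fin 1290 1 1226)
(mv 1294 (cons (fin 1295 0 1227)
(mv 1226 (cons (fin 1293 0 1226)
(mv 1162 (cons (fin 1161 3 1161)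
(fin 1163 3 1162))))))))))))))))))))))))))))))))))))
(mv 1102 (cons (cons (mv 1166 (cons (fin 1230 7 973)
(mv 909 (cons (fin 974 7 909)
(fin 1101 4 909)))))
(mv 1166 (cons (fin 1230 7 973)
(mv 974 (cons (cons (mv 1229 (cons (fin 1165 5 973)
(mv 1167 (cons (fin 1231 4 974)
(mv 910 (cons (fin 1103 4 910)
(mv 846 (cons (fin 1101 5 845)
(fin 782 5 781)))))))))
(cons (mv 1167 (cons (fin 1231 4 974)
(mv 910 (cons (fin 1103 4 910)
(mv 846 (cons (fin 1101 5 845)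
(fin 782 5 781)))))))
(mv 1165 (cons (fin 1229 5 973)
(mv 1101 (cons (fin 910 5 909)
(mv 1228 (cons (fin 1164 5 972)
(mv 972 (cons (fin 908 7 908)
(mv 971 (cons (fin 970 0 970)
(mv 1035 (cons (fin 1034 1 970)
(mv 1036 (cons (fin 1103 0 1035)
(mv 1098 (cons (fin 1099 1 1034)
(mv 907 (cons (fin 906 3 906)
(mv 843 (cons (fin 1100 4 843)
(fin 779 4 779)))))))))))))))))))))))
(cons (mv 1231 (cons (fin 1167 4 974)
(mv 1165 (cons (fin 1229 5 973)
(mv 1036 (cons (mv 1035 (cons (fin 1103 0 1035)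
(fin 1034 2 970)))
(cons (mv 1164 (cons (mv 1228 (cons (fin 1101 5 972)
(fin 1100 6 972)))
(cons (mv 1163 (cons (fin 1103 2 1099)
(mv 1226 (cons (fin 1227 1 1162)
(mv 1162 (cons (fin 1225 1 1161)
(fin 1101 2 1098)))))))
(mv 1228 (cons (fin 1100 6 972)
(mv 1163 (cons (fin 1103 2 1099)
(mv 1226 (cons (fin 1227 1 1162)
(mv 1162 (cons (fin 1225 1 1161)
(mv 1098 (cons (fin 1097 3 1097)
(fin 1099 3 1098))))))))))))))
(mv 1035 (cons (fin 1034 2 970)
(mv 1099 (cons (fin 1098 1 1034)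
(mv 971 (cons (fin 970 3 970)
(mv 972 (cons (mv 1163 (cons (fin 1227 6 971)
(fin 908 6 907)))
(cons (mv 1227 (cons (fin 1163 6 971)
(mv 907 (cons (fin 906 3 906)
(mv 1100 (cons (fin 1164 7 907)
(fin 843 4 843)))))))
(mv 908 (cons (fin 844 5 843)
(fin 1101 7 908)))))))))))))))))))
(cons (mv 1229 (cons (fin 1165 5 973)
(mv 1167 (cons (fin 1231 4 974)
(mv 910 (cons (fin 1103 4 910)
(mv 846 (cons (fin 782 5 781)
(mv 847 (cons (fin 911 6 846)
(fin 783 6 782)))))))))))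
(mv 1231 (cons (fin 1167 4 974)
(mv 1165 (cons (fin 1229 5 973)
(mv 1101 (cons (fin 910 5 909)
(mv 1164 (cons (fin 1228 5 972)
(mv 1162 (cons (fin 1163 2 1098)
(mv 972 (cons (fin 908 7 908)
(mv 971 (cons (fin 970 0 970)
(mv 1035 (cons (fin 1034 1 970)
(mv 907 (cons (fin 906 3 906)
(mv 1099 (cons (fin 1098 5 906)
(fin 1100 4 907))))))))))))))))))))))))))))
(cons (mv 909 (cons (fin 845 4 845)
(mv 1101 (cons (cons (mv 1164 (cons (fin 1100 5 908)
(mv 1165 (cons (fin 1228 5 972)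
(mv 1229 (cons (fin 1293 6 1037)
(fin 974 6 973)))))))
(mv 908 (cons (fin 844 7 844)
(mv 1165 (cons (fin 972 7 908)
(mv 1229 (cons (fin 1293 6 1037)
(fin 974 6 973))))))))
(cons (mv 1100 (cons (fin 1164 5 908)
(mv 1099 (cons (fin 1098 2 1034)
(mv 1162 (cons (fin 1163 1 1098)
(mv 1035 (cons (fin 1034 3 1034)
(mv 1103 (cons (fin 1036 3 1035)
(mv 1167 (cons (fin 1168 0 1100)
(mv 910 (cons (fin 974 4 910)
(fin 846 6 845)))))))))))))))
(mv 1164 (cons (fin 1100 5 908)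
(mv 1165 (cons (fin 1228 5 972)
(mv 908 (cons (fin 972 7 908)
(fin 844 7 844))))))))))))
(cons (mv 1166 (cons (fin 1230 7 973)
(mv 909 (cons (fin 974 7 909)
(fin 845 4 845)))))
(mv 1166 (cons (fin 1230 7 973)
(mv 909 (cons (fin 1101 4 909)
(fin 845 4 845))))))))))
(cons (mv 1102 (cons (cons (mv 1166 (cons (fin 1230 7 973)
(mv 909 (cons (fin 974 7 909)
(fin 1101 4 909)))))
(mv 1166 (cons (fin 1230 7 973)
(mv 974 (cons (cons (mv 1229 (cons (fin 1165 5 973)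
(mv 1167 (cons (fin 1231 4 974)
(mv 910 (cons (fin 1103 4 910)
(mv 846 (cons (fin 1101 5 845)
(fin 782 5 781)))))))))
(cons (mv 1167 (cons (fin 1231 4 974)
(mv 910 (cons (fin 1103 4 910)
(mv 846 (cons (fin 1101 5 845)
(fin 782 5 781)))))))
(mv 1165 (cons (fin 1229 5 973)
(mv 1101 (cons (fin 910 5 909)
(mv 1228 (cons (fin 1164 5 972)
(mv 1100 (cons (fin 1039 1 1036)
(mv 1099 (cons (fin 1098 0 1098)
(mv 1163 (cons (fin 1162 1 1098)
(mv 1035 (cons (fin 1034 3 1034)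
(mv 1227 (cons (fin 1292 4 1035)
(mv 1036 (cons (fin 1103 3 1035)
(fin 1291 6 1035)))))))))))))))))))))
(cons (mv 1231 (cons (fin 1167 4 974)
(mv 1165 (cons (fin 1229 5 973)
(mv 1036 (cons (mv 1035 (cons (fin 1103 0 1035)
(fin 1034 2 970)))
(cons (mv 1100 (cons (mv 1039 (cons (fin 1099 1 1035)
(fin 1101 1 1036)))
(cons (mv 1164 (cons (fin 1228 6 972)
(mv 1163 (cons (fin 1103 2 1099)
(mv 1226 (cons (fin 1227 1 1162)
(mv 1162 (cons (fin 1225 1 1161)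
(fin 1101 2 1098)))))))))
(mv 1164 (cons (fin 1228 6 972)
(mv 1163 (cons (fin 1103 2 1099)
(mv 1099 (cons (fin 1039 1 1035)
(fin 1098 3 1098))))))))))
(mv 1035 (cons (fin 1034 2 970)
(mv 1099 (cons (fin 1098 1 1034)
(mv 1100 (cons (fin 1039 1 1035)
(mv 1164 (cons (fin 1228 6 972)
(mv 971 (cons (fin 970 3 970)
(fin 907 4 907))))))))))))))))))
(cons (mv 1229 (cons (fin 1165 5 973)
(mv 1167 (cons (fin 1231 4 974)
(mv 910 (cons (fin 1103 4 910)
(mv 846 (cons (fin 782 5 781)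
(mv 847 (cons (fin 911 6 846)
(fin 783 6 782)))))))))))
(mv 1231 (cons (fin 1167 4 974)
(mv 1165 (cons (fin 1229 5 973)
(mv 1101 (cons (fin 910 5 909)
(mv 1228 (cons (fin 1164 5 972)
(mv 1100 (cons (fin 1039 1 1036)
(mv 1099 (cons (fin 1098 0 1098)
(mv 1163 (cons (fin 1162 1 1098)
(mv 1035 (cons (fin 1034 3 1034)
(mv 1227 (cons (fin 1292 4 1035)
(mv 1290 (cons (fin 1226 5 1034)
(mv 1291 (cons (fin 1354 5 1098)
(fin 1036 6 1035))))))))))))))))))))))))))))))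
(cons (mv 909 (cons (fin 845 4 845)
(mv 1101 (cons (mv 1100 (cons (fin 1039 1 1036)
(fin 1164 5 908)))
(cons (mv 908 (cons (fin 844 7 844)
(mv 910 (cons (fin 846 6 845)
(mv 1165 (cons (fin 974 5 909)
(mv 1228 (cons (fin 1164 5 972)
(mv 1229 (cons (fin 1292 5 1036)
(fin 1293 6 1037)))))))))))
(mv 1100 (cons (fin 1039 1 1036)
(mv 1098 (cons (fin 1099 2 1034)
(mv 908 (cons (fin 844 7 844)
(mv 910 (cons (fin 846 6 845)
(mv 974 (cons (fin 1165 5 909)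
(mv 1167 (cons (fin 1103 4 910)
(mv 907 (cons (fin 906 0 906)
(mv 971 (cons (fin 970 1 906)
(mv 911 (cons (fin 847 6 846)
(mv 912 (cons (fin 913 1 909)
(mv 976 (cons (fin 977 0 909)
(mv 843 (cons (fin 842 3 842)
(mv 1035 (cons (fin 1034 5 842)
(fin 1036 4 843))))))))))))))))))))))))))))))))
(cons (mv 1166 (cons (fin 1230 7 973)
(mv 909 (cons (fin 974 7 909)
(fin 845 4 845)))))
(mv 1166 (cons (fin 1230 7 973)
(mv 909 (cons (fin 1101 4 909)
(fin 845 4 845)))))))))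
(cons (mv 1039 (cons (fin 972 3 972)
(mv 1101 (cons (fin 1100 1 1036)
(mv 976 (cons (fin 977 2 973)
(mv 1165 (cons (mv 974 (cons (fin 1229 6 973)
(fin 910 6 909)))
(cons (mv 1228 (cons (fin 1164 5 972)
(mv 1229 (cons (fin 1292 5 1036)
(mv 1230 (cons (fin 1294 4 1037)
(fin 1166 4 973)))))))
(mv 1228 (cons (fin 1164 5 972)
(mv 1230 (cons (fin 1166 4 973)
(mv 910 (cons (fin 974 6 909)
(mv 909 (cons (fin 846 6 845)
(mv 844 (cons (fin 908 7 844)
(mv 845 (cons (fin 780 7 780)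
(mv 912 (cons (fin 911 3 844)
(mv 842 (cons (fin 843 0 842)
(mv 848 (cons (fin 1103 5 847)
(mv 783 (cons (fin 847 7 783)
(mv 784 (cons (fin 719 7 719)
(mv 785 (cons (fin 849 6 784)
(fin 721 6 720))))))))))))))))))))))))))))))))))
(mv 972 (cons (fin 1039 3 972)
(mv 970 (cons (fin 971 0 970)
(mv 1102 (cons (cons (mv 1166 (cons (fin 1230 7 973)
(mv 909 (cons (fin 974 7 909)
(fin 845 4 845)))))
(mv 1166 (cons (fin 1230 7 973)
(mv 1036 (cons (cons (mv 1035 (cons (fin 1103 0 1035)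
(mv 1034 (cons (fin 969 3 969)
(fin 1033 2 969)))))
(mv 1165 (cons (cons (mv 1229 (cons (fin 974 5 973)
(mv 1357 (cons (fin 1293 6 1101)
(mv 1164 (cons (fin 1100 4 972)
(mv 1163 (cons (fin 1103 2 1099)
(mv 1226 (cons (fin 1227 1 1162)
(mv 1162 (cons (fin 1225 1 1161)
(mv 1098 (cons (fin 1097 3 1097)
(fin 1099 3 1098)))))))))))))))
(mv 1164 (cons (cons (mv 1228 (cons (fin 1100 6 972)
(mv 1227 (cons (fin 1167 1 1163)
(mv 1226 (cons (fin 1163 1 1162)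
(fin 1225 2 1161)))))))
(mv 1228 (cons (fin 1100 6 972)
(mv 1167 (cons (fin 1227 1 1163)
(mv 1231 (cons (fin 1232 0 1164)
(fin 974 4 974))))))))
(cons (mv 1163 (cons (fin 1103 2 1099)
(mv 1226 (cons (fin 1227 1 1162)
(mv 1162 (cons (fin 1225 1 1161)
(mv 1098 (cons (fin 1097 3 1097)
(fin 1099 3 1098)))))))))
(mv 1228 (cons (fin 1100 6 972)
(mv 1163 (cons (fin 1103 2 1099)
(mv 1098 (cons (fin 1099 3 1098)
(mv 1162 (cons (fin 1097 3 1097)
(mv 1225 (cons (fin 1226 1 1161)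
(mv 1161 (cons (fin 1224 1 1160)
(fin 1034 5 969)))))))))))))))))
(cons (mv 1164 (cons (mv 1100 (cons (fin 1229 4 972)
(fin 1228 6 972)))
(mv 1163 (cons (fin 1103 2 1099)
(mv 1226 (cons (fin 1227 1 1162)
(mv 1162 (cons (fin 1225 1 1161)
(mv 1098 (cons (fin 1097 3 1097)
(fin 1099 3 1098)))))))))))
(cons (mv 974 (cons (fin 1229 5 973)
(mv 1167 (cons (fin 1231 4 974)
(mv 910 (cons (fin 1103 4 910)
(mv 846 (cons (fin 782 5 781)
(mv 847 (cons (fin 911 6 846)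
(fin 783 6 782)))))))))))
(mv 1164 (cons (mv 1229 (cons (fin 974 5 973)
(fin 1100 4 972)))
(cons (mv 974 (cons (fin 1229 5 973)
(mv 1167 (cons (fin 1231 4 974)
(mv 1227 (cons (fin 1228 1 1163)
(mv 1163 (cons (fin 1226 1 1162)
(mv 1098 (cons (fin 1099 3 1098)
(mv 1162 (cons (fin 1097 3 1097)
(fin 1034 4 970)))))))))))))
(mv 1228 (cons (fin 1100 6 972)
(mv 1227 (cons (fin 1167 1 1163)
(mv 1226 (cons (fin 1163 1 1162)
(fin 1225 2 1161)))))))))))))))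
(cons (mv 1035 (cons (mv 1034 (cons (fin 969 3 969)
(fin 1033 2 969)))
(mv 1099 (cons (fin 1098 1 1034)
(mv 1163 (cons (fin 1227 6 971)
(mv 908 (cons (fin 1100 5 907)
(fin 844 5 843)))))))))
(mv 1035 (cons (fin 1103 0 1035)
(mv 1099 (cons (fin 1098 1 1034)
(mv 1163 (cons (fin 1227 6 971)
(mv 908 (cons (fin 1100 5 907)
(fin 844 5 843)))))))))))))))
(cons (mv 1036 (cons (mv 1035 (cons (fin 1103 0 1035)
(mv 1034 (cons (fin 969 3 969)
(fin 1033 2 969)))))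
(cons (mv 1100 (cons (mv 1164 (cons (fin 1228 6 972)
(fin 909 6 908)))
(cons (mv 1164 (cons (fin 1228 6 972)
(mv 1229 (cons (fin 1165 4 972)
(mv 1163 (cons (fin 1227 5 971)
(mv 908 (cons (fin 1099 5 907)
(mv 843 (cons (fin 907 7 843)
(mv 844 (cons (fin 779 7 779)
(fin 780 4 780)))))))))))))
(mv 908 (cons (cons (mv 1163 (cons (fin 1099 5 907)
(mv 907 (cons (fin 843 7 843)
(mv 905 (cons (fin 906 0 905)
(mv 844 (cons (fin 780 4 780)
(mv 845 (cons (fin 909 5 844)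
(fin 781 6 780)))))))))))
(mv 1163 (cons (fin 1099 5 907)
(mv 907 (cons (fin 843 7 843)
(mv 906 (cons (fin 905 0 905)
(mv 909 (cons (fin 969 1 905)
(fin 974 0 906))))))))))
(cons (mv 1163 (cons (fin 1099 5 907)
(mv 843 (cons (fin 907 7 843)
(mv 844 (cons (fin 779 7 779)
(fin 780 4 780)))))))
(cons (mv 1163 (cons (fin 1099 5 907)
(mv 844 (cons (fin 780 4 780)
(mv 845 (cons (fin 909 5 844)
(fin 781 6 780)))))))
(mv 907 (cons (fin 843 7 843)
(mv 905 (cons (fin 906 0 905)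
(mv 844 (cons (fin 780 4 780)
(mv 845 (cons (fin 909 5 844)
(fin 781 6 780))))))))))))))))
(mv 1035 (cons (fin 1103 0 1035)
(mv 1034 (cons (fin 1033 2 969)
(fin 974 2 970))))))))
(mv 1230 (cons (fin 1166 7 973)
(mv 1036 (cons (cons (mv 1103 (cons (fin 1035 0 1035)
(mv 908 (cons (cons (mv 909 (cons (fin 845 4 845)
(mv 1164 (cons (fin 1100 6 908)
(mv 844 (cons (fin 780 4 780)
(mv 843 (cons (fin 779 7 779)
(mv 910 (cons (fin 911 3 843)
(mv 842 (cons (fin 907 3 842)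
(fin 841 0 841)))))))))))))
(mv 844 (cons (fin 780 4 780)
(mv 843 (cons (fin 779 7 779)
(mv 1100 (cons (fin 907 7 843)
(mv 1163 (cons (fin 1099 5 907)
(mv 1164 (cons (fin 1227 5 971)
(fin 1228 6 972))))))))))))
(cons (mv 909 (cons (fin 845 4 845)
(mv 1100 (cons (fin 1164 6 908)
(mv 1163 (cons (fin 1099 5 907)
(mv 907 (cons (fin 843 7 843)
(mv 906 (cons (fin 969 1 905)
(fin 905 0 905)))))))))))
(cons (mv 909 (cons (fin 845 4 845)
(mv 844 (cons (fin 780 4 780)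
(mv 843 (cons (fin 779 7 779)
(mv 910 (cons (fin 911 3 843)
(mv 842 (cons (fin 907 3 842)
(fin 841 0 841)))))))))))
(mv 844 (cons (fin 780 4 780)
(mv 845 (cons (fin 909 4 845)
(fin 781 6 780)))))))))))
(mv 1035 (cons (fin 1103 0 1035)
(mv 1034 (cons (fin 969 3 969)
(fin 1033 2 969))))))
(cons (mv 1100 (cons (mv 1164 (cons (fin 1228 6 972)
(fin 909 6 908)))
(cons (mv 1164 (cons (fin 1228 6 972)
(mv 1229 (cons (fin 1165 4 972)
(mv 1163 (cons (fin 1227 5 971)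
(mv 908 (cons (fin 1099 5 907)
(mv 843 (cons (fin 907 7 843)
(mv 844 (cons (fin 779 7 779)
(fin 780 4 780)))))))))))))
(mv 908 (cons (cons (mv 1163 (cons (fin 1099 5 907)
(mv 907 (cons (fin 843 7 843)
(mv 905 (cons (fin 906 0 905)
(mv 844 (cons (fin 780 4 780)
(mv 845 (cons (fin 909 5 844)
(fin 781 6 780)))))))))))
(mv 1163 (cons (fin 1099 5 907)
(mv 843 (cons (fin 907 7 843)
(mv 844 (cons (fin 779 7 779)
(fin 780 4 780))))))))
(cons (mv 1163 (cons (fin 1099 5 907)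
(mv 907 (cons (fin 843 7 843)
(mv 906 (cons (fin 905 0 905)
(mv 909 (cons (fin 969 1 905)
(fin 845 5 844)))))))))
(cons (mv 1163 (cons (fin 1099 5 907)
(mv 844 (cons (fin 780 4 780)
(mv 845 (cons (fin 909 5 844)
(fin 781 6 780)))))))
(mv 907 (cons (fin 843 7 843)
(mv 905 (cons (fin 906 0 905)
(mv 844 (cons (fin 780 4 780)
(mv 845 (cons (fin 909 5 844)
(fin 781 6 780))))))))))))))))
(mv 1035 (cons (fin 1103 0 1035)
(mv 1098 (cons (fin 1099 1 1034)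
(mv 1034 (cons (fin 1097 1 1033)
(fin 1033 2 969))))))))))))))))))))))
(cons (cons (mv 1039 (cons (fin 972 3 972)
(mv 976 (cons (fin 977 2 973)
(mv 1036 (cons (cons (mv 1100 (cons (fin 1099 1 1035)
(fin 1101 1 1036)))
(mv 1035 (cons (cons (mv 1098 (cons (fin 1099 1 1034)
(mv 1034 (cons (fin 1097 1 1033)
(fin 974 2 970)))))
(mv 1099 (cons (fin 1098 1 1034)
(mv 971 (cons (fin 970 3 970)
(mv 1163 (cons (cons (mv 1226 (cons (fin 1162 5 970)
(mv 1227 (cons (fin 1290 5 1034)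
(mv 1228 (cons (fin 1292 4 1035)
(fin 1164 4 971)))))))
(cons (mv 1226 (cons (fin 1162 5 970)
(mv 1227 (cons (fin 1290 5 1034)
(mv 1102 (cons (fin 1103 0 1035)
(mv 1166 (cons (fin 1230 7 973)
(mv 1165 (cons (fin 1164 1 1162)
(mv 1229 (cons (fin 974 5 973)
(mv 1293 (cons (fin 1357 6 1101)
(fin 1101 6 1037)))))))))))))))
(mv 1228 (cons (fin 1164 4 971)
(mv 1227 (cons (fin 1292 4 1035)
(mv 1230 (cons (cons (mv 1102 (cons (fin 1103 0 1035)
(fin 1166 7 973)))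
(mv 1229 (cons (fin 1162 3 1162)
(mv 1290 (cons (fin 1291 1 1226)
(mv 1294 (cons (fin 1295 0 1227)
(mv 1165 (cons (fin 1101 4 1037)
(mv 1167 (cons (fin 1166 2 1163)
(mv 1231 (cons (fin 1168 2 1164)
(fin 1103 5 1038))))))))))))))
(cons (mv 1229 (cons (fin 1162 3 1162)
(mv 1290 (cons (fin 1291 1 1226)
(mv 1295 (cons (fin 1294 0 1227)
(mv 1231 (cons (fin 1296 0 1228)
(mv 1167 (cons (fin 1168 2 1164)
(fin 1103 6 975)))))))))))
(mv 1229 (cons (fin 1162 3 1162)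
(mv 1166 (cons (fin 1167 2 1163)
(fin 1102 7 973))))))))))))))
(cons (mv 1102 (cons (fin 1103 0 1035)
(mv 1230 (cons (fin 1166 7 973)
(mv 1227 (cons (mv 1226 (cons (fin 1290 5 1034)
(fin 1162 5 970)))
(cons (mv 1292 (cons (fin 1228 4 1035)
(mv 1291 (cons (fin 1356 4 1099)
(mv 1290 (cons (fin 1354 5 1098)
(mv 1293 (cons (fin 1229 2 1226)
(mv 1358 (cons (fin 1357 0 1290)
(mv 1294 (cons (fin 1359 0 1291)
(fin 1231 2 1227)))))))))))))
(mv 1228 (cons (fin 1292 4 1035)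
(mv 1162 (cons (fin 1229 3 1162)
(fin 1226 5 970))))))))))))
(cons (mv 1228 (cons (fin 1164 4 971)
(mv 1227 (cons (fin 1292 4 1035)
(mv 1290 (cons (fin 1226 5 1034)
(mv 1291 (cons (fin 1354 5 1098)
(mv 1288 (cons (fin 1289 2 1224)
(mv 1230 (cons (fin 1229 1 1226)
(mv 1102 (cons (fin 1103 0 1035)
(fin 1166 7 973)))))))))))))))
(mv 1162 (cons (fin 1226 5 970)
(mv 1164 (cons (fin 1228 4 971)
(mv 1102 (cons (fin 1103 0 1035)
(mv 1230 (cons (fin 1166 7 973)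
(mv 1165 (cons (fin 1229 0 1162)
(fin 1101 2 1098))))))))))))))))))))
(cons (mv 1102 (cons (fin 1103 0 1035)
(mv 1034 (cons (fin 1101 0 1034)
(fin 974 2 970)))))
(mv 1098 (cons (fin 1099 1 1034)
(mv 1102 (cons (fin 1103 0 1035)
(mv 1034 (cons (fin 1097 1 1033)
(fin 1101 0 1034)))))))))))
(cons (mv 1101 (cons (fin 1100 1 1036)
(mv 974 (cons (mv 1165 (cons (fin 1229 6 973)
(fin 910 6 909)))
(cons (mv 1035 (cons (fin 1034 2 970)
(mv 970 (cons (fin 971 3 970)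
(mv 1230 (cons (mv 1165 (cons (fin 1166 4 973)
(fin 1229 6 973)))
(cons (mv 1102 (cons (fin 1103 0 1035)
(fin 1166 7 973)))
(mv 1229 (cons (fin 1165 6 973)
(mv 1103 (cons (fin 1102 0 1035)
(mv 1231 (cons (fin 1167 7 974)
(mv 912 (cons (fin 848 5 847)
(mv 1232 (cons (mv 1292 (cons (fin 1293 1 1228)
(mv 1296 (cons (fin 1297 0 1229)
(mv 1228 (cons (fin 1291 1 1227)
(fin 1295 0 1228)))))))
(cons (mv 1293 (cons (fin 1292 1 1228)
(mv 1233 (cons (fin 1294 1 1229)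
(mv 1169 (cons (fin 1168 2 1165)
(fin 1170 2 1166)))))))
(mv 1297 (cons (fin 1296 0 1229)
(mv 1233 (cons (fin 1298 0 1230)
(mv 1169 (cons (fin 1168 2 1165)
(fin 1170 2 1166)))))))))))))))))))))))))
(mv 1034 (cons (fin 1035 2 970)
(mv 910 (cons (fin 846 5 845)
(mv 912 (cons (cons (mv 1103 (cons (fin 848 5 847)
(mv 1167 (cons (fin 1231 7 974)
(fin 1102 4 910)))))
(mv 911 (cons (fin 913 1 909)
(mv 847 (cons (fin 1102 6 846)
(mv 783 (cons (fin 719 5 718)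
(fin 848 7 783))))))))
(cons (mv 911 (cons (fin 913 1 909)
(mv 1102 (cons (fin 847 6 846)
(mv 1166 (cons (fin 1230 7 973)
(mv 1167 (cons (fin 1231 4 974)
(fin 1103 4 910)))))))))
(mv 911 (cons (fin 913 1 909)
(mv 848 (cons (fin 1103 5 847)
(mv 847 (cons (fin 783 7 783)
(mv 849 (cons (fin 850 1 846)
(fin 785 6 784)))))))))))))))))))))
(mv 1099 (cons (fin 1100 1 1035)
(mv 1035 (cons (fin 1098 1 1034)
(mv 1102 (cons (fin 1103 0 1035)
(mv 1230 (cons (fin 1166 7 973)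
(mv 1034 (cons (fin 974 2 970)
(mv 970 (cons (fin 969 3 969)
(fin 971 3 970))))))))))))))))))))
(cons (mv 972 (cons (fin 1039 3 972)
(mv 970 (cons (fin 971 0 970)
(mv 1102 (cons (cons (mv 1166 (cons (fin 1230 7 973)
(mv 909 (cons (fin 974 7 909)
(fin 1101 4 909)))))
(mv 1166 (cons (fin 1230 7 973)
(mv 1165 (cons (cons (mv 1229 (cons (fin 974 5 973)
(mv 1293 (cons (fin 1357 6 1101)
(fin 1101 6 1037)))))
(mv 974 (cons (fin 1229 5 973)
(mv 1167 (cons (fin 1231 4 974)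
(mv 910 (cons (fin 1103 4 910)
(mv 846 (cons (fin 782 5 781)
(mv 847 (cons (fin 911 6 846)
(fin 783 6 782))))))))))))
(cons (mv 1101 (cons (fin 908 7 908)
(mv 1229 (cons (fin 1036 7 972)
(fin 1293 6 1037)))))
(mv 1101 (cons (fin 908 7 908)
(mv 1164 (cons (fin 1228 5 972)
(mv 1163 (cons (fin 1162 2 1098)
(fin 1103 2 1099)))))))))))))
(cons (mv 909 (cons (fin 845 4 845)
(mv 1101 (cons (mv 908 (cons (fin 1165 7 908)
(fin 844 7 844)))
(cons (mv 910 (cons (fin 846 6 845)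
(mv 1165 (cons (fin 974 5 909)
(mv 1229 (cons (fin 1036 7 972)
(fin 1293 6 1037)))))))
(mv 908 (cons (fin 844 7 844)
(mv 910 (cons (fin 846 6 845)
(mv 911 (cons (fin 912 1 908)
(mv 847 (cons (fin 848 2 844)
(fin 974 6 846))))))))))))))
(cons (mv 1166 (cons (fin 1230 7 973)
(mv 909 (cons (fin 974 7 909)
(fin 845 4 845)))))
(mv 1166 (cons (fin 1230 7 973)
(mv 909 (cons (fin 1101 4 909)
(fin 845 4 845)))))))))))))
(mv 1039 (cons (fin 972 3 972)
(mv 1101 (cons (fin 1100 1 1036)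
(mv 976 (cons (fin 977 2 973)
(mv 1165 (cons (mv 974 (cons (fin 1229 6 973)
(fin 910 6 909)))
(cons (mv 1228 (cons (fin 1164 5 972)
(mv 1229 (cons (fin 1292 5 1036)
(mv 1293 (cons (fin 1102 6 1037)
(mv 1294 (cons (fin 1358 4 1101)
(fin 1230 4 1037)))))))))
(mv 1228 (cons (fin 1164 5 972)
(mv 910 (cons (fin 974 6 909)
(mv 909 (cons (fin 846 6 845)
(mv 844 (cons (fin 908 7 844)
(mv 845 (cons (fin 780 7 780)
(fin 1102 4 845))))))))))))))))))))))
(cons (mv 1039 (cons (fin 972 3 972)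
(mv 1100 (cons (fin 1101 1 1036)
(mv 1036 (cons (fin 1099 1 1035)
(mv 1228 (cons (fin 1164 6 972)
(mv 976 (cons (fin 977 2 973)
(mv 974 (cons (cons (mv 1035 (cons (fin 1034 2 970)
(mv 1102 (cons (fin 1103 0 1035)
(mv 909 (cons (fin 845 5 844)
(fin 1166 7 909)))))))
(cons (mv 1035 (cons (fin 1034 2 970)
(mv 970 (cons (fin 971 3 970)
(mv 910 (cons (cons (mv 1103 (cons (fin 1102 0 1035)
(fin 846 4 846)))
(mv 846 (cons (fin 782 5 781)
(mv 845 (cons (fin 781 7 781)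
(mv 847 (cons (fin 783 6 782)
(mv 911 (cons (fin 1102 6 846)
(mv 912 (cons (fin 913 1 909)
(fin 844 0 844))))))))))))
(cons (mv 912 (cons (cons (mv 1103 (cons (fin 1102 0 1035)
(fin 848 5 847)))
(mv 911 (cons (fin 913 1 909)
(mv 847 (cons (fin 1102 6 846)
(mv 783 (cons (fin 719 5 718)
(fin 848 7 783))))))))
(cons (mv 1102 (cons (fin 1103 0 1035)
(mv 911 (cons (fin 913 1 909)
(fin 847 6 846)))))
(mv 911 (cons (fin 913 1 909)
(mv 848 (cons (fin 1103 5 847)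
(mv 847 (cons (fin 783 7 783)
(mv 849 (cons (fin 850 1 846)
(fin 785 6 784))))))))))))
(mv 846 (cons (fin 782 5 781)
(fin 1103 4 846))))))))))
(mv 1035 (cons (fin 1034 2 970)
(mv 971 (cons (fin 970 3 970)
(mv 907 (cons (fin 843 4 843)
(mv 910 (cons (cons (mv 1103 (cons (fin 1102 0 1035)
(fin 846 4 846)))
(mv 846 (cons (fin 782 5 781)
(mv 847 (cons (fin 783 6 782)
(mv 1102 (cons (fin 911 6 846)
(mv 909 (cons (fin 908 2 843)
(fin 1166 7 909))))))))))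
(cons (mv 912 (cons (cons (mv 1103 (cons (fin 1102 0 1035)
(fin 848 5 847)))
(mv 911 (cons (fin 913 1 909)
(mv 847 (cons (fin 1102 6 846)
(mv 783 (cons (fin 719 5 718)
(fin 848 7 783))))))))
(cons (mv 911 (cons (fin 913 1 909)
(mv 848 (cons (fin 1103 5 847)
(mv 849 (cons (fin 909 2 845)
(fin 785 6 784)))))))
(mv 1102 (cons (fin 1103 0 1035)
(mv 911 (cons (fin 913 1 909)
(fin 847 6 846))))))))
(mv 846 (cons (fin 782 5 781)
(fin 1103 4 846))))))))))))))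
(cons (mv 909 (cons (fin 845 5 844)
(mv 1102 (cons (fin 1166 7 909)
(mv 910 (cons (mv 1103 (cons (fin 1167 4 910)
(fin 846 4 846)))
(cons (mv 846 (cons (fin 782 5 781)
(mv 847 (cons (fin 911 6 846)
(fin 783 6 782)))))
(mv 1103 (cons (fin 1167 4 910)
(mv 911 (cons (fin 847 6 846)
(mv 912 (cons (fin 913 1 909)
(fin 848 5 847))))))))))))))
(cons (mv 1035 (cons (fin 1034 2 970)
(mv 971 (cons (fin 970 3 970)
(mv 843 (cons (fin 907 4 843)
(mv 845 (cons (fin 909 5 844)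
(mv 846 (cons (cons (mv 910 (cons (fin 782 5 781)
(fin 781 7 781)))
(mv 844 (cons (cons (mv 778 (cons (fin 779 3 778)
(mv 842 (cons (fin 777 3 777)
(mv 782 (cons (fin 781 2 778)
(fin 783 2 779)))))))
(mv 783 (cons (fin 782 2 779)
(mv 847 (cons (fin 784 2 780)
(mv 912 (cons (fin 911 0 844)
(fin 848 7 783))))))))
(cons (mv 778 (cons (fin 779 3 778)
(mv 842 (cons (fin 777 3 777)
(mv 841 (cons (mv 905 (cons (fin 904 1 840)
(fin 906 1 841)))
(mv 781 (cons (fin 780 2 777)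
(fin 782 2 778)))))))))
(mv 779 (cons (fin 778 3 778)
(mv 847 (cons (fin 780 3 779)
(mv 912 (cons (fin 911 0 844)
(mv 848 (cons (fin 913 0 845)
(fin 783 7 783)))))))))))))
(cons (mv 910 (cons (fin 781 7 781)
(mv 911 (cons (fin 844 0 843)
(mv 847 (cons (fin 1102 6 846)
(fin 783 6 782)))))))
(mv 910 (cons (fin 782 5 781)
(mv 911 (cons (fin 844 0 843)
(mv 847 (cons (fin 1102 6 846)
(fin 783 6 782))))))))))))))))))
(mv 1034 (cons (fin 1035 2 970)
(mv 845 (cons (fin 909 5 844)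
(mv 846 (cons (cons (mv 910 (cons (fin 782 5 781)
(fin 781 7 781)))
(mv 848 (cons (cons (mv 912 (cons (fin 1103 5 847)
(mv 847 (cons (fin 913 0 845)
(fin 783 7 783)))))
(mv 847 (cons (cons (mv 780 (cons (fin 781 3 780)
(mv 844 (cons (fin 779 3 779)
(mv 784 (cons (fin 783 2 780)
(fin 785 2 781)))))))
(mv 781 (cons (fin 780 3 780)
(mv 849 (cons (fin 782 3 781)
(mv 914 (cons (fin 913 0 846)
(mv 850 (cons (fin 915 0 847)
(mv 786 (cons (fin 785 2 782)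
(fin 787 2 783))))))))))))
(cons (mv 784 (cons (fin 785 2 781)
(mv 844 (cons (fin 783 2 780)
(mv 907 (cons (fin 908 1 843)
(mv 843 (cons (fin 906 1 842)
(mv 779 (cons (fin 778 3 778)
(fin 780 3 779)))))))))))
(cons (mv 780 (cons (fin 781 3 780)
(mv 844 (cons (fin 779 3 779)
(mv 907 (cons (fin 908 1 843)
(mv 843 (cons (fin 906 1 842)
(mv 783 (cons (fin 782 2 779)
(fin 784 2 780)))))))))))
(mv 785 (cons (fin 784 2 781)
(mv 849 (cons (fin 786 2 782)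
(mv 914 (cons (fin 913 0 846)
(mv 850 (cons (fin 915 0 847)
(mv 782 (cons (fin 781 3 781)
(fin 783 3 782))))))))))))))))
(cons (mv 912 (cons (fin 1103 5 847)
(mv 785 (cons (fin 849 6 784)
(mv 784 (cons (fin 721 6 720)
(mv 783 (cons (fin 782 1 781)
(fin 719 7 719)))))))))
(mv 912 (cons (fin 1103 5 847)
(mv 847 (cons (fin 913 0 845)
(mv 785 (cons (fin 784 2 781)
(fin 849 6 784)))))))))))
(cons (mv 910 (cons (fin 781 7 781)
(fin 1103 4 846)))
(mv 910 (cons (fin 782 5 781)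
(fin 1103 4 846))))))))))))))))))))))))
(cons (mv 1039 (cons (fin 972 3 972)
(mv 1101 (cons (fin 1100 1 1036)
(mv 976 (cons (fin 977 2 973)
(mv 909 (cons (mv 1102 (cons (fin 1166 4 909)
(fin 845 4 845)))
(cons (mv 910 (cons (fin 846 6 845)
(mv 844 (cons (fin 908 7 844)
(mv 845 (cons (fin 780 7 780)
(mv 912 (cons (fin 911 3 844)
(mv 842 (cons (fin 843 0 842)
(mv 848 (cons (fin 1103 5 847)
(mv 783 (cons (fin 847 7 783)
(mv 784 (cons (fin 719 7 719)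
(mv 785 (cons (fin 849 6 784)
(fin 721 6 720)))))))))))))))))))
(mv 908 (cons (fin 844 7 844)
(mv 910 (cons (fin 846 6 845)
(mv 1165 (cons (cons (mv 1166 (cons (fin 1230 4 973)
(fin 1102 4 909)))
(mv 1228 (cons (fin 1164 5 972)
(mv 1229 (cons (fin 1292 5 1036)
(mv 1293 (cons (fin 1102 6 1037)
(mv 1294 (cons (fin 1358 4 1101)
(fin 1230 4 1037))))))))))
(cons (mv 1228 (cons (fin 1164 5 972)
(mv 1229 (cons (fin 1292 5 1036)
(mv 1230 (cons (fin 1294 4 1037)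
(fin 1166 4 973)))))))
(mv 1228 (cons (fin 1164 5 972)
(mv 1229 (cons (fin 1292 5 1036)
(mv 1102 (cons (fin 1166 4 909)
(fin 1293 6 1037)))))))))))))))))))))))
(mv 1039 (cons (fin 972 3 972)
(mv 1100 (cons (fin 1101 1 1036)
(mv 1036 (cons (fin 1099 1 1035)
(mv 976 (cons (fin 977 2 973)
(mv 974 (cons (cons (mv 1035 (cons (fin 1034 2 970)
(mv 1102 (cons (fin 1103 0 1035)
(mv 1166 (cons (fin 1230 7 973)
(fin 909 7 909)))))))
(mv 1034 (cons (fin 1035 2 970)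
(mv 910 (cons (mv 846 (cons (fin 782 5 781)
(fin 1103 4 846)))
(cons (mv 912 (cons (cons (mv 1103 (cons (fin 848 5 847)
(mv 1167 (cons (fin 1231 7 974)
(fin 1102 4 910)))))
(mv 911 (cons (fin 913 1 909)
(mv 847 (cons (fin 1102 6 846)
(mv 783 (cons (fin 719 5 718)
(fin 848 7 783))))))))
(cons (mv 911 (cons (fin 913 1 909)
(mv 1102 (cons (fin 847 6 846)
(mv 1166 (cons (fin 1230 7 973)
(mv 1167 (cons (fin 1231 4 974)
(fin 1103 4 910)))))))))
(mv 911 (cons (fin 913 1 909)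
(mv 848 (cons (fin 1103 5 847)
(mv 847 (cons (fin 783 7 783)
(mv 849 (cons (fin 850 1 846)
(fin 785 6 784))))))))))))
(mv 846 (cons (fin 782 5 781)
(mv 845 (cons (fin 781 7 781)
(mv 847 (cons (fin 783 6 782)
(mv 911 (cons (fin 1102 6 846)
(mv 912 (cons (fin 913 1 909)
(fin 844 0 844)))))))))))))))))
(cons (mv 909 (cons (fin 845 5 844)
(mv 1102 (cons (fin 1166 7 909)
(mv 910 (cons (mv 1103 (cons (fin 1167 4 910)
(fin 846 4 846)))
(cons (mv 846 (cons (fin 782 5 781)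
(mv 847 (cons (fin 911 6 846)
(fin 783 6 782)))))
(mv 1103 (cons (fin 1167 4 910)
(mv 911 (cons (fin 847 6 846)
(mv 912 (cons (fin 913 1 909)
(fin 848 5 847))))))))))))))
(cons (mv 1035 (cons (fin 1034 2 970)
(mv 971 (cons (fin 970 3 970)
(mv 843 (cons (fin 907 4 843)
(mv 845 (cons (fin 909 5 844)
(mv 846 (cons (cons (mv 910 (cons (fin 782 5 781)
(fin 781 7 781)))
(mv 844 (cons (cons (mv 778 (cons (fin 779 3 778)
(mv 842 (cons (fin 777 3 777)
(mv 782 (cons (fin 781 2 778)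
(fin 783 2 779)))))))
(mv 782 (cons (fin 783 2 779)
(mv 842 (cons (fin 781 2 778)
(mv 905 (cons (fin 906 1 841)
(mv 841 (cons (fin 904 1 840)
(mv 777 (cons (fin 776 3 776)
(fin 778 3 777))))))))))))
(cons (mv 778 (cons (fin 779 3 778)
(mv 842 (cons (fin 777 3 777)
(mv 905 (cons (fin 906 1 841)
(mv 841 (cons (fin 904 1 840)
(mv 781 (cons (fin 780 2 777)
(fin 782 2 778)))))))))))
(cons (mv 779 (cons (fin 778 3 778)
(mv 847 (cons (fin 780 3 779)
(mv 912 (cons (fin 911 0 844)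
(mv 848 (cons (fin 913 0 845)
(fin 783 7 783)))))))))
(mv 783 (cons (fin 782 2 779)
(mv 847 (cons (fin 784 2 780)
(mv 912 (cons (fin 911 0 844)
(fin 848 7 783))))))))))))
(cons (mv 910 (cons (fin 781 7 781)
(mv 911 (cons (fin 844 0 843)
(mv 847 (cons (fin 1102 6 846)
(fin 783 6 782)))))))
(mv 910 (cons (fin 782 5 781)
(mv 911 (cons (fin 844 0 843)
(mv 847 (cons (fin 1102 6 846)
(fin 783 6 782))))))))))))))))))
(mv 1034 (cons (fin 1035 2 970)
(mv 845 (cons (fin 909 5 844)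
(mv 846 (cons (cons (mv 910 (cons (fin 782 5 781)
(fin 781 7 781)))
(mv 848 (cons (cons (mv 912 (cons (fin 1103 5 847)
(mv 847 (cons (fin 913 0 845)
(fin 783 7 783)))))
(mv 847 (cons (cons (mv 780 (cons (fin 781 3 780)
(mv 844 (cons (fin 779 3 779)
(mv 784 (cons (fin 783 2 780)
(fin 785 2 781)))))))
(mv 781 (cons (fin 780 3 780)
(mv 849 (cons (fin 782 3 781)
(mv 914 (cons (fin 913 0 846)
(mv 850 (cons (fin 915 0 847)
(mv 786 (cons (fin 785 2 782)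
(fin 787 2 783))))))))))))
(cons (mv 784 (cons (fin 785 2 781)
(mv 844 (cons (fin 783 2 780)
(mv 907 (cons (fin 908 1 843)
(mv 843 (cons (fin 906 1 842)
(mv 779 (cons (fin 778 3 778)
(fin 780 3 779)))))))))))
(cons (mv 780 (cons (fin 781 3 780)
(mv 844 (cons (fin 779 3 779)
(mv 907 (cons (fin 908 1 843)
(mv 843 (cons (fin 906 1 842)
(mv 783 (cons (fin 782 2 779)
(fin 784 2 780)))))))))))
(mv 785 (cons (fin 784 2 781)
(mv 849 (cons (fin 786 2 782)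
(mv 914 (cons (fin 913 0 846)
(mv 850 (cons (fin 915 0 847)
(mv 782 (cons (fin 781 3 781)
(fin 783 3 782))))))))))))))))
(cons (mv 912 (cons (fin 1103 5 847)
(mv 785 (cons (fin 849 6 784)
(mv 784 (cons (fin 721 6 720)
(mv 783 (cons (fin 782 1 781)
(fin 719 7 719)))))))))
(mv 912 (cons (fin 1103 5 847)
(mv 847 (cons (fin 913 0 845)
(mv 785 (cons (fin 784 2 781)
(fin 849 6 784)))))))))))
(cons (mv 910 (cons (fin 781 7 781)
(fin 1103 4 846)))
(mv 910 (cons (fin 782 5 781)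
(fin 1103 4 846))))))))))))))))))))))))))))))
(cons (cons (mv 1039 (cons (cons (mv 1104 (cons (fin 1105 0 1037)
(mv 1103 (cons (fin 1036 0 1036)
(mv 972 (cons (fin 973 3 972)
(mv 976 (cons (fin 977 2 973)
(mv 1167 (cons (fin 912 5 911)
(fin 1231 6 975)))))))))))
(cons (mv 976 (cons (fin 977 2 973)
(mv 1036 (cons (cons (mv 972 (cons (fin 971 3 971)
(fin 973 3 972)))
(mv 1035 (cons (cons (mv 1098 (cons (fin 1099 1 1034)
(mv 1102 (cons (fin 1103 0 1035)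
(mv 1034 (cons (fin 1097 1 1033)
(fin 1101 0 1034)))))))
(mv 1098 (cons (fin 1099 1 1034)
(mv 1034 (cons (fin 1097 1 1033)
(mv 970 (cons (fin 969 3 969)
(fin 971 3 970))))))))
(cons (mv 1102 (cons (fin 1103 0 1035)
(mv 1034 (cons (fin 1101 0 1034)
(mv 970 (cons (fin 969 3 969)
(fin 971 3 970)))))))
(mv 1099 (cons (fin 1098 1 1034)
(mv 971 (cons (fin 970 3 970)
(mv 1163 (cons (cons (mv 1226 (cons (fin 1162 5 970)
(mv 1227 (cons (fin 1290 5 1034)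
(mv 1228 (cons (fin 1292 4 1035)
(fin 1164 4 971)))))))
(cons (mv 1226 (cons (fin 1162 5 970)
(mv 1227 (cons (fin 1290 5 1034)
(mv 1102 (cons (fin 1103 0 1035)
(mv 1166 (cons (cons (mv 1230 (cons (fin 973 7 973)
(mv 1293 (cons (fin 1229 5 1037)
(mv 1294 (cons (fin 1357 5 1101)
(fin 1101 7 1037)))))))
(mv 1165 (cons (fin 1164 1 1162)
(mv 1229 (cons (fin 974 5 973)
(mv 1293 (cons (fin 1357 6 1101)
(fin 1101 6 1037))))))))
(cons (mv 1230 (cons (fin 973 7 973)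
(mv 1293 (cons (fin 1229 5 1037)
(mv 1294 (cons (fin 1357 5 1101)
(mv 1295 (cons (fin 1359 4 1102)
(fin 1231 4 1038)))))))))
(mv 1230 (cons (fin 973 7 973)
(mv 1294 (cons (fin 1101 7 1037)
(mv 1295 (cons (fin 1359 4 1102)
(fin 1231 4 1038))))))))))))))))
(mv 1228 (cons (fin 1164 4 971)
(mv 1227 (cons (fin 1292 4 1035)
(mv 1230 (cons (cons (mv 1229 (cons (fin 1162 3 1162)
(mv 1290 (cons (fin 1291 1 1226)
(mv 1294 (cons (fin 1295 0 1227)
(mv 1165 (cons (fin 1101 4 1037)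
(mv 1422 (cons (fin 1358 7 1165)
(mv 1166 (cons (fin 1167 2 1163)
(mv 1102 (cons (fin 1103 0 1035)
(fin 1293 5 1037)))))))))))))))
(cons (mv 1102 (cons (fin 1103 0 1035)
(mv 1166 (cons (fin 973 7 973)
(mv 1294 (cons (fin 1101 7 1037)
(mv 1295 (cons (fin 1359 4 1102)
(fin 1231 4 1038)))))))))
(mv 1229 (cons (fin 1162 3 1162)
(mv 1290 (cons (fin 1291 1 1226)
(mv 1294 (cons (fin 1295 0 1227)
(mv 1165 (cons (fin 1101 4 1037)
(mv 1422 (cons (fin 1358 7 1165)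
(mv 1166 (cons (fin 1167 2 1163)
(mv 1102 (cons (fin 1293 5 1037)
(fin 974 5 973)))))))))))))))))
(cons (mv 1229 (cons (fin 1162 3 1162)
(mv 1290 (cons (fin 1291 1 1226)
(mv 1294 (cons (fin 1295 0 1227)
(mv 1165 (cons (fin 1101 4 1037)
(mv 1422 (cons (fin 1358 7 1165)
(mv 1167 (cons (fin 1166 2 1163)
(mv 1231 (cons (fin 1168 2 1164)
(fin 1103 5 1038)))))))))))))))
(cons (mv 1229 (cons (fin 1162 3 1162)
(mv 1290 (cons (fin 1291 1 1226)
(mv 1295 (cons (fin 1294 0 1227)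
(mv 1231 (cons (fin 1296 0 1228)
(mv 1167 (cons (fin 1168 2 1164)
(fin 1103 6 975)))))))))))
(mv 1229 (cons (fin 1162 3 1162)
(mv 1290 (cons (fin 1291 1 1226)
(mv 1166 (cons (fin 1167 2 1163)
(mv 1102 (cons (fin 1103 0 1035)
(fin 1293 5 1037)))))))))))))))))))
(cons (mv 1227 (cons (cons (mv 1226 (cons (fin 1290 5 1034)
(fin 1162 5 970)))
(mv 1228 (cons (fin 1292 4 1035)
(mv 1230 (cons (cons (mv 1229 (cons (fin 1162 3 1162)
(mv 1290 (cons (fin 1291 1 1226)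
(mv 1294 (cons (fin 1295 0 1227)
(mv 1165 (cons (fin 1101 4 1037)
(mv 1422 (cons (fin 1358 7 1165)
(mv 1166 (cons (fin 1167 2 1163)
(mv 1102 (cons (fin 1103 0 1035)
(fin 1293 5 1037)))))))))))))))
(cons (mv 1102 (cons (fin 1103 0 1035)
(mv 1166 (cons (fin 973 7 973)
(mv 1294 (cons (fin 1101 7 1037)
(mv 1295 (cons (fin 1359 4 1102)
(fin 1231 4 1038)))))))))
(mv 1229 (cons (fin 1162 3 1162)
(mv 1290 (cons (fin 1291 1 1226)
(mv 1294 (cons (fin 1295 0 1227)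
(mv 1165 (cons (fin 1101 4 1037)
(mv 1422 (cons (fin 1358 7 1165)
(mv 1166 (cons (fin 1167 2 1163)
(mv 1102 (cons (fin 1293 5 1037)
(fin 974 5 973)))))))))))))))))
(cons (mv 1229 (cons (fin 1162 3 1162)
(mv 1290 (cons (fin 1291 1 1226)
(mv 1294 (cons (fin 1295 0 1227)
(mv 1165 (cons (fin 1101 4 1037)
(mv 1422 (cons (fin 1358 7 1165)
(mv 1167 (cons (fin 1166 2 1163)
(mv 1231 (cons (fin 1168 2 1164)
(fin 1103 5 1038)))))))))))))))
(cons (mv 1229 (cons (fin 1162 3 1162)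
(mv 1290 (cons (fin 1291 1 1226)
(mv 1295 (cons (fin 1294 0 1227)
(mv 1231 (cons (fin 1296 0 1228)
(mv 1167 (cons (fin 1168 2 1164)
(fin 1103 6 975)))))))))))
(mv 1229 (cons (fin 1162 3 1162)
(mv 1290 (cons (fin 1291 1 1226)
(mv 1166 (cons (fin 1167 2 1163)
(mv 1102 (cons (fin 1103 0 1035)
(fin 1293 5 1037))))))))))))))))
(cons (mv 1228 (cons (fin 1292 4 1035)
(mv 1162 (cons (fin 1226 5 970)
(mv 1230 (cons (fin 1229 3 1162)
(mv 1160 (cons (fin 1161 0 1160)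
(mv 1102 (cons (fin 1103 0 1035)
(mv 1166 (cons (fin 973 7 973)
(mv 1294 (cons (fin 1101 7 1037)
(mv 1295 (cons (fin 1359 4 1102)
(fin 1231 4 1038)))))))))))))))))
(mv 1290 (cons (fin 1226 5 1034)
(mv 1291 (cons (fin 1354 5 1098)
(mv 1292 (cons (fin 1356 4 1099)
(fin 1228 4 1035))))))))))
(cons (mv 1228 (cons (fin 1164 4 971)
(mv 1227 (cons (fin 1292 4 1035)
(mv 1290 (cons (fin 1226 5 1034)
(mv 1291 (cons (fin 1354 5 1098)
(mv 1288 (cons (fin 1289 2 1224)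
(mv 1230 (cons (fin 1229 1 1226)
(mv 1102 (cons (fin 1103 0 1035)
(mv 1166 (cons (fin 973 7 973)
(mv 1294 (cons (fin 1101 7 1037)
(mv 1295 (cons (fin 1359 4 1102)
(fin 1231 4 1038)))))))))))))))))))))
(mv 1162 (cons (fin 1226 5 970)
(mv 1164 (cons (fin 1228 4 971)
(mv 1102 (cons (fin 1103 0 1035)
(mv 1165 (cons (fin 1101 2 1098)
(mv 1230 (cons (fin 1229 0 1162)
(mv 1166 (cons (fin 1231 0 1163)
(fin 973 7 973)))))))))))))))))))))))))
(cons (mv 973 (cons (fin 972 3 972)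
(mv 1102 (cons (cons (mv 1230 (cons (fin 1166 7 973)
(mv 1103 (cons (fin 1035 0 1035)
(mv 1167 (cons (fin 1231 6 975)
(mv 909 (cons (fin 845 4 845)
(mv 910 (cons (fin 974 4 910)
(mv 846 (cons (fin 1101 6 845)
(mv 848 (cons (fin 912 5 847)
(mv 847 (cons (fin 849 1 845)
(mv 908 (cons (fin 907 2 843)
(fin 911 2 844)))))))))))))))))))
(cons (mv 1166 (cons (fin 1230 7 973)
(mv 909 (cons (fin 974 7 909)
(fin 1101 4 909)))))
(mv 1103 (cons (fin 1035 0 1035)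
(mv 1167 (cons (fin 1231 6 975)
(mv 909 (cons (fin 845 4 845)
(mv 910 (cons (fin 974 4 910)
(mv 846 (cons (fin 1101 6 845)
(mv 848 (cons (fin 912 5 847)
(mv 847 (cons (fin 849 1 845)
(mv 908 (cons (fin 907 2 843)
(fin 911 2 844)))))))))))))))))))
(cons (mv 1230 (cons (fin 1166 7 973)
(mv 1035 (cons (fin 1103 0 1035)
(mv 1034 (cons (fin 1101 0 1034)
(fin 974 2 970)))))))
(cons (mv 1230 (cons (fin 1166 7 973)
(mv 1035 (cons (fin 1103 0 1035)
(mv 1098 (cons (fin 1099 1 1034)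
(mv 1034 (cons (fin 1097 1 1033)
(fin 1101 0 1034)))))))))
(mv 1230 (cons (fin 1166 7 973)
(mv 1035 (cons (fin 1103 0 1035)
(mv 1098 (cons (fin 1099 1 1034)
(mv 1034 (cons (fin 1097 1 1033)
(fin 974 2 970)))))))))))))))
(mv 971 (cons (fin 972 3 971)
(mv 1035 (cons (fin 970 3 970)
(mv 1098 (cons (fin 1099 1 1034)
(mv 1102 (cons (fin 1103 0 1035)
(mv 1034 (cons (fin 1097 1 1033)
(fin 1101 0 1034))))))))))))))))
(mv 1104 (cons (fin 1105 0 1037)
(mv 1103 (cons (fin 1036 0 1036)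
(mv 976 (cons (fin 977 2 973)
(mv 1167 (cons (fin 912 5 911)
(fin 1231 6 975)))))))))))
(cons (mv 1104 (cons (fin 1105 0 1037)
(mv 1036 (cons (fin 1103 0 1036)
(mv 972 (cons (fin 971 3 971)
(fin 973 3 972)))))))
(cons (mv 1104 (cons (fin 1105 0 1037)
(mv 972 (cons (fin 973 3 972)
(mv 976 (cons (fin 977 2 973)
(mv 912 (cons (mv 1103 (cons (fin 1167 5 911)
(fin 848 5 847)))
(cons (mv 847 (cons (fin 911 7 847)
(mv 848 (cons (fin 783 7 783)
(mv 849 (cons (fin 913 6 848)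
(fin 785 6 784)))))))
(mv 911 (cons (fin 847 7 847)
(mv 913 (cons (fin 849 6 848)
(mv 1168 (cons (cons (mv 1167 (cons (fin 1231 5 975)
(fin 1103 5 911)))
(mv 1233 (cons (fin 1169 4 976)
(mv 1232 (cons (fin 1297 4 1040)
(mv 1295 (cons (fin 1231 5 1039)
(mv 1296 (cons (fin 1359 5 1103)
(fin 1103 7 1039))))))))))
(cons (mv 1231 (cons (fin 1167 5 975)
(mv 1232 (cons (fin 1295 5 1039)
(mv 1233 (cons (fin 1297 4 1040)
(fin 1169 4 976)))))))
(mv 1233 (cons (fin 1169 4 976)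
(mv 1232 (cons (fin 1297 4 1040)
(mv 1103 (cons (fin 1167 5 911)
(fin 1296 7 1039)))))))))))))))))))))))
(mv 1104 (cons (fin 1105 0 1037)
(mv 973 (cons (fin 972 3 972)
(mv 976 (cons (fin 977 2 973)
(mv 1102 (cons (cons (mv 1166 (cons (fin 1230 7 973)
(mv 909 (cons (fin 974 7 909)
(fin 1101 4 909)))))
(mv 1168 (cons (cons (mv 1230 (cons (fin 1166 7 973)
(mv 1231 (cons (fin 1167 5 975)
(mv 1232 (cons (fin 1295 5 1039)
(mv 1233 (cons (fin 1297 4 1040)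
(fin 1169 4 976)))))))))
(cons (mv 1233 (cons (fin 1169 4 976)
(mv 1232 (cons (fin 1297 4 1040)
(mv 1166 (cons (fin 1230 7 973)
(mv 1165 (cons (fin 1167 0 1165)
(mv 1229 (cons (fin 974 5 973)
(mv 1293 (cons (fin 1357 6 1101)
(fin 1101 6 1037)))))))))))))
(mv 1230 (cons (fin 1166 7 973)
(mv 1231 (cons (fin 1167 5 975)
(mv 1232 (cons (fin 1295 5 1039)
(mv 1229 (cons (fin 1169 2 1165)
(mv 1292 (cons (fin 1293 1 1228)
(mv 1291 (cons (fin 1228 1 1227)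
(mv 1296 (cons (fin 1297 0 1229)
(mv 1165 (cons (fin 1164 3 1164)
(mv 1101 (cons (fin 1294 4 1037)
(fin 974 6 973)))))))))))))))))))))
(cons (cons (mv 1231 (cons (fin 1167 5 975)
(mv 1232 (cons (fin 1295 5 1039)
(mv 1233 (cons (fin 1297 4 1040)
(fin 1169 4 976)))))))
(mv 1230 (cons (fin 1166 7 973)
(mv 1233 (cons (fin 1169 4 976)
(mv 1232 (cons (fin 1297 4 1040)
(mv 1231 (cons (fin 1295 5 1039)
(mv 1293 (cons (fin 1294 1 1229)
(mv 1229 (cons (fin 1292 1 1228)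
(mv 1165 (cons (fin 1164 3 1164)
(fin 1101 6 1037))))))))))))))))
(cons (mv 1230 (cons (fin 1166 7 973)
(mv 1231 (cons (fin 1167 5 975)
(mv 1232 (cons (fin 1295 5 1039)
(mv 1297 (cons (fin 1233 4 1040)
(mv 1296 (cons (fin 1229 0 1229)
(fin 1361 4 1104)))))))))))
(mv 1166 (cons (fin 1230 7 973)
(mv 1167 (cons (fin 1231 5 975)
(mv 1169 (cons (fin 1101 3 1101)
(fin 1233 4 976))))))))))))
(cons (mv 847 (cons (cons (mv 909 (cons (fin 845 4 845)
(mv 911 (cons (fin 912 7 847)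
(mv 910 (cons (fin 974 6 846)
(mv 1101 (cons (fin 846 6 845)
(mv 908 (cons (fin 848 2 844)
(fin 844 7 844)))))))))))
(mv 909 (cons (fin 845 4 845)
(mv 910 (cons (cons (mv 1101 (cons (fin 846 6 845)
(mv 974 (cons (fin 1165 5 909)
(fin 911 6 846)))))
(mv 911 (cons (fin 974 6 846)
(mv 908 (cons (fin 848 2 844)
(mv 844 (cons (fin 843 3 843)
(fin 1101 7 844))))))))
(cons (mv 846 (cons (fin 1101 6 845)
(mv 908 (cons (fin 907 2 843)
(mv 848 (cons (fin 849 1 845)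
(fin 911 2 844)))))))
(cons (mv 974 (cons (fin 911 6 846)
(mv 846 (cons (fin 782 5 781)
(fin 783 6 782)))))
(mv 1101 (cons (fin 846 6 845)
(mv 1165 (cons (fin 974 5 909)
(mv 1228 (cons (fin 1164 5 972)
(mv 1229 (cons (fin 1292 5 1036)
(fin 1293 6 1037))))))))))))))))
(cons (mv 848 (cons (cons (mv 909 (cons (fin 845 4 845)
(mv 912 (cons (fin 783 7 783)
(mv 849 (cons (fin 913 6 848)
(fin 785 6 784)))))))
(cons (mv 845 (cons (fin 909 4 845)
(mv 846 (cons (cons (mv 780 (cons (fin 781 3 780)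
(mv 844 (cons (fin 779 3 779)
(mv 784 (cons (fin 783 2 780)
(fin 785 2 781)))))))
(mv 784 (cons (fin 785 2 781)
(mv 844 (cons (fin 783 2 780)
(mv 907 (cons (fin 908 1 843)
(mv 843 (cons (fin 906 1 842)
(mv 779 (cons (fin 778 3 778)
(fin 780 3 779))))))))))))
(cons (mv 781 (cons (fin 780 3 780)
(mv 974 (cons (fin 910 7 781)
(mv 849 (cons (fin 782 3 781)
(mv 914 (cons (fin 913 0 846)
(mv 850 (cons (fin 915 0 847)
(mv 786 (cons (fin 785 2 782)
(fin 787 2 783)))))))))))))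
(cons (mv 785 (cons (fin 784 2 781)
(mv 849 (cons (fin 786 2 782)
(mv 914 (cons (fin 913 0 846)
(mv 850 (cons (fin 915 0 847)
(mv 782 (cons (fin 781 3 781)
(fin 783 3 782)))))))))))
(mv 780 (cons (fin 781 3 780)
(mv 844 (cons (fin 779 3 779)
(mv 907 (cons (fin 908 1 843)
(mv 843 (cons (fin 906 1 842)
(mv 783 (cons (fin 782 2 779)
(fin 784 2 780)))))))))))))))))
(mv 912 (cons (fin 783 7 783)
(mv 849 (cons (fin 913 6 848)
(fin 785 6 784)))))))
(cons (mv 909 (cons (fin 845 4 845)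
(mv 849 (cons (cons (mv 912 (cons (fin 913 6 848)
(fin 785 6 784)))
(mv 846 (cons (fin 910 1 845)
(mv 914 (cons (fin 913 0 846)
(mv 850 (cons (fin 915 0 847)
(mv 786 (cons (fin 785 2 782)
(fin 787 2 783))))))))))
(cons (mv 913 (cons (fin 912 6 848)
(mv 846 (cons (fin 910 1 845)
(fin 914 0 846)))))
(mv 846 (cons (fin 910 1 845)
(mv 785 (cons (fin 786 2 782)
(fin 912 6 784))))))))))
(cons (mv 845 (cons (fin 909 4 845)
(mv 783 (cons (fin 912 7 783)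
(mv 846 (cons (mv 784 (cons (fin 844 2 780)
(fin 785 2 781)))
(cons (mv 974 (cons (fin 910 6 782)
(mv 780 (cons (fin 781 3 780)
(mv 844 (cons (fin 779 3 779)
(mv 907 (cons (fin 908 1 843)
(mv 843 (cons (fin 906 1 842)
(fin 782 2 779)))))))))))
(mv 910 (cons (fin 974 6 782)
(mv 781 (cons (fin 780 3 780)
(mv 784 (cons (fin 785 2 781)
(mv 717 (cons (fin 653 4 653)
(mv 716 (cons (fin 782 3 716)
(mv 719 (cons (fin 718 0 716)
(fin 655 5 654))))))))))))))))))))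
(mv 912 (cons (fin 783 7 783)
(mv 913 (cons (fin 849 6 848)
(mv 845 (cons (fin 846 0 845)
(fin 909 4 845)))))))))))
(cons (mv 912 (cons (fin 911 7 847)
(mv 848 (cons (fin 783 7 783)
(mv 849 (cons (fin 913 6 848)
(fin 785 6 784)))))))
(mv 909 (cons (fin 845 4 845)
(mv 911 (cons (fin 912 7 847)
(mv 910 (cons (fin 974 6 846)
(mv 908 (cons (cons (mv 1101 (cons (fin 844 7 844)
(fin 846 6 845)))
(mv 844 (cons (fin 843 3 843)
(fin 1101 7 844))))
(cons (mv 846 (cons (fin 907 2 843)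
(fin 1101 6 845)))
(mv 907 (cons (fin 846 2 843)
(mv 843 (cons (fin 842 3 842)
(fin 844 3 843))))))))))))))))))
(cons (mv 1166 (cons (fin 1230 7 973)
(mv 909 (cons (fin 974 7 909)
(fin 845 4 845)))))
(mv 1166 (cons (fin 1230 7 973)
(mv 909 (cons (fin 1101 4 909)
(fin 845 4 845)))))))))))))))))))
(mv 1101 (cons (cons (mv 1039 (cons (fin 1100 1 1036)
(mv 1104 (cons (fin 1105 0 1037)
(mv 1103 (cons (fin 1036 0 1036)
(mv 976 (cons (fin 977 2 973)
(mv 1167 (cons (fin 912 5 911)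
(fin 1231 6 975)))))))))))
(cons (mv 974 (cons (cons (mv 1165 (cons (fin 1229 6 973)
(mv 910 (cons (fin 1102 5 909)
(fin 846 5 845)))))
(mv 1165 (cons (fin 1229 6 973)
(mv 973 (cons (cons (mv 1228 (cons (fin 1164 5 972)
(mv 1166 (cons (fin 1230 4 973)
(mv 1102 (cons (fin 909 7 909)
(mv 1167 (cons (fin 1231 4 974)
(mv 1168 (cons (fin 1100 3 1100)
(fin 1169 3 1101)))))))))))
(cons (mv 1164 (cons (fin 1228 5 972)
(mv 909 (cons (fin 1100 5 908)
(mv 845 (cons (fin 1102 4 845)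
(fin 781 4 781)))))))
(mv 1166 (cons (fin 1230 4 973)
(mv 1102 (cons (fin 909 7 909)
(mv 1167 (cons (fin 1231 4 974)
(mv 1168 (cons (fin 1100 3 1100)
(fin 1169 3 1101)))))))))))
(cons (mv 1164 (cons (fin 1228 5 972)
(mv 1166 (cons (fin 1230 4 973)
(mv 1167 (cons (mv 1231 (cons (fin 1232 0 1164)
(fin 1102 4 974)))
(mv 1100 (cons (fin 1099 3 1099)
(fin 1168 3 1100)))))))))
(cons (mv 1230 (cons (fin 1166 4 973)
(mv 1164 (cons (fin 1228 5 972)
(mv 909 (cons (fin 1100 5 908)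
(mv 844 (cons (fin 908 7 844)
(mv 845 (cons (fin 780 7 780)
(fin 781 4 781)))))))))))
(mv 1228 (cons (fin 1164 5 972)
(mv 1166 (cons (fin 1230 4 973)
(mv 909 (cons (fin 1102 7 909)
(mv 844 (cons (fin 908 7 844)
(mv 845 (cons (fin 780 7 780)
(fin 781 4 781))))))))))))))))))
(cons (mv 910 (cons (fin 846 5 845)
(mv 1102 (cons (cons (mv 1167 (cons (fin 1103 4 910)
(mv 1166 (cons (fin 1231 4 974)
(mv 1230 (cons (fin 1294 7 1037)
(fin 973 7 973)))))))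
(mv 909 (cons (fin 845 7 845)
(mv 1166 (cons (fin 973 7 909)
(mv 1230 (cons (fin 1294 7 1037)
(mv 1231 (cons (fin 1295 4 1038)
(fin 1167 4 974))))))))))
(cons (mv 909 (cons (fin 845 7 845)
(mv 973 (cons (fin 1166 7 909)
(mv 1100 (cons (fin 1164 5 908)
(mv 1098 (cons (fin 1099 2 1034)
(mv 908 (cons (fin 844 7 844)
(mv 907 (cons (fin 906 0 906)
(mv 971 (cons (fin 970 1 906)
(mv 911 (cons (fin 847 6 846)
(mv 912 (cons (fin 913 1 909)
(mv 976 (cons (fin 977 0 909)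
(mv 843 (cons (fin 842 3 842)
(mv 1035 (cons (fin 1034 5 842)
(fin 1036 4 843)))))))))))))))))))))))))
(mv 1103 (cons (fin 1167 4 910)
(mv 1104 (cons (fin 1036 3 1036)
(fin 1105 3 1037))))))))))
(mv 1165 (cons (fin 1229 6 973)
(mv 910 (cons (fin 846 5 845)
(fin 973 6 909))))))))
(mv 974 (cons (cons (mv 1165 (cons (fin 1229 6 973)
(mv 910 (cons (fin 1102 5 909)
(fin 846 5 845)))))
(mv 1165 (cons (fin 1229 6 973)
(mv 1166 (cons (cons (mv 1230 (cons (fin 973 4 973)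
(mv 1294 (cons (fin 1358 7 1101)
(fin 1102 7 1037)))))
(mv 1104 (cons (cons (mv 1105 (cons (fin 1039 0 1037)
(mv 1167 (cons (fin 1168 2 1101)
(mv 1102 (cons (fin 1103 1 1101)
(fin 1231 4 974)))))))
(mv 1102 (cons (mv 1103 (cons (fin 1164 1 1100)
(fin 1036 3 1036)))
(mv 1230 (cons (fin 1294 7 1037)
(mv 1231 (cons (fin 1295 4 1038)
(fin 1167 4 974))))))))
(cons (mv 1105 (cons (fin 1039 0 1037)
(mv 1167 (cons (fin 1168 2 1101)
(mv 1231 (cons (fin 1102 4 974)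
(mv 1232 (cons (fin 1164 0 1164)
(mv 1233 (cons (fin 1230 3 1165)
(fin 1234 3 1166)))))))))))
(cons (mv 1105 (cons (fin 1039 0 1037)
(mv 1167 (cons (fin 1168 2 1101)
(mv 1103 (cons (fin 1106 1 1102)
(fin 1164 2 1100)))))))
(mv 1105 (cons (fin 1039 0 1037)
(mv 1102 (cons (fin 1103 1 1101)
(mv 1230 (cons (fin 1294 7 1037)
(mv 1231 (cons (fin 1295 4 1038)
(mv 1233 (cons (fin 1232 3 1165)
(mv 1163 (cons (fin 1164 0 1163)
(mv 1169 (cons (fin 1297 7 1040)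
(mv 976 (cons (fin 1168 4 976)
(fin 912 4 912))))))))))))))))))))))
(cons (mv 1164 (cons (cons (mv 1228 (cons (fin 973 5 972)
(mv 1356 (cons (fin 1292 6 1100)
(mv 1227 (cons (fin 1167 1 1163)
(mv 1226 (cons (fin 1163 1 1162)
(fin 1225 2 1161)))))))))
(mv 1102 (cons (mv 1163 (cons (fin 1162 2 1098)
(fin 1103 2 1099)))
(cons (mv 1163 (cons (fin 1162 2 1098)
(mv 1227 (cons (fin 1226 1 1162)
(mv 1167 (cons (fin 1228 1 1163)
(fin 1231 4 974)))))))
(mv 1167 (cons (fin 1231 4 974)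
(mv 1227 (cons (fin 1228 1 1163)
(mv 1168 (cons (fin 1169 3 1101)
(mv 1104 (cons (fin 1103 1 1100)
(fin 1105 2 1101)))))))))))))
(cons (mv 1163 (cons (mv 1102 (cons (fin 1162 2 1098)
(fin 1103 2 1099)))
(cons (mv 1226 (cons (fin 1227 1 1162)
(mv 1162 (cons (fin 1225 1 1161)
(mv 1098 (cons (fin 1097 3 1097)
(fin 1099 3 1098)))))))
(mv 1226 (cons (fin 1227 1 1162)
(mv 1098 (cons (fin 1099 3 1098)
(mv 1103 (cons (fin 1102 2 1099)
(mv 1167 (cons (fin 1104 2 1100)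
(mv 1231 (cons (fin 1232 0 1164)
(fin 1039 7 974))))))))))))))
(cons (mv 973 (cons (fin 1228 5 972)
(mv 1102 (cons (fin 909 7 909)
(mv 1163 (cons (fin 1162 2 1098)
(fin 1103 2 1099)))))))
(mv 1228 (cons (fin 973 5 972)
(mv 1356 (cons (fin 1292 6 1100)
(mv 1167 (cons (fin 1227 1 1163)
(mv 1231 (cons (fin 1232 0 1164)
(fin 1102 4 974)))))))))))))
(mv 1164 (cons (cons (mv 973 (cons (fin 1228 5 972)
(fin 1230 4 973)))
(mv 1167 (cons (cons (mv 1227 (cons (fin 1228 1 1163)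
(mv 1226 (cons (fin 1163 1 1162)
(mv 1231 (cons (fin 1232 0 1164)
(mv 1103 (cons (fin 1104 2 1100)
(fin 1039 7 974)))))))))
(mv 1227 (cons (fin 1228 1 1163)
(mv 1226 (cons (fin 1163 1 1162)
(mv 1104 (cons (fin 1103 2 1100)
(mv 1105 (cons (fin 1039 0 1037)
(fin 1168 2 1101))))))))))
(cons (mv 1227 (cons (fin 1228 1 1163)
(mv 1231 (cons (fin 1232 0 1164)
(mv 1163 (cons (fin 1226 1 1162)
(fin 1230 0 1163)))))))
(mv 1231 (cons (fin 1232 0 1164)
(mv 1103 (cons (fin 1104 2 1100)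
(fin 1039 7 974)))))))))
(cons (mv 1230 (cons (fin 973 4 973)
(mv 1358 (cons (fin 1294 7 1101)
(mv 1231 (cons (fin 1163 0 1163)
(mv 1232 (cons (fin 1233 3 1165)
(fin 1167 0 1164)))))))))
(mv 1228 (cons (fin 973 5 972)
(mv 1356 (cons (fin 1292 6 1100)
(mv 1227 (cons (fin 1167 1 1163)
(mv 1226 (cons (fin 1163 1 1162)
(fin 1225 2 1161))))))))))))))))))
(cons (mv 910 (cons (fin 846 5 845)
(mv 1102 (cons (cons (mv 1167 (cons (fin 1103 4 910)
(mv 1166 (cons (fin 1231 4 974)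
(mv 1230 (cons (fin 1294 7 1037)
(fin 973 7 973)))))))
(mv 909 (cons (fin 845 7 845)
(mv 1166 (cons (fin 973 7 909)
(mv 1230 (cons (fin 1294 7 1037)
(mv 1231 (cons (fin 1295 4 1038)
(fin 1167 4 974))))))))))
(cons (mv 909 (cons (fin 845 7 845)
(mv 973 (cons (fin 1166 7 909)
(mv 908 (cons (fin 844 7 844)
(mv 906 (cons (fin 907 0 906)
(mv 911 (cons (fin 847 6 846)
(mv 912 (cons (fin 913 1 909)
(mv 976 (cons (fin 977 0 909)
(mv 848 (cons (fin 849 2 845)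
(mv 1103 (cons (fin 1039 5 847)
(mv 1104 (cons (fin 1036 3 1036)
(fin 1105 3 1037)))))))))))))))))))))
(mv 1103 (cons (fin 1167 4 910)
(mv 1104 (cons (fin 1036 3 1036)
(fin 1105 3 1037))))))))))
(mv 1165 (cons (fin 1229 6 973)
(mv 910 (cons (fin 846 5 845)
(fin 973 6 909))))))))))
(cons (cons (mv 1100 (cons (fin 1039 1 1036)
(mv 1098 (cons (fin 1099 2 1034)
(mv 1164 (cons (cons (mv 1228 (cons (fin 1292 6 1036)
(mv 973 (cons (fin 1165 5 972)
(fin 909 5 908)))))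
(mv 1228 (cons (fin 1292 6 1036)
(mv 1036 (cons (cons (mv 1291 (cons (fin 1227 5 1035)
(mv 1293 (cons (fin 1229 4 1036)
(mv 1035 (cons (fin 971 7 971)
(mv 1102 (cons (fin 1103 3 1035)
(fin 1034 0 1034)))))))))
(mv 1291 (cons (fin 1227 5 1035)
(mv 1229 (cons (fin 1293 4 1036)
(mv 1165 (cons (fin 974 6 973)
(mv 1230 (cons (fin 1294 4 1037)
(mv 1231 (cons (fin 1163 3 1163)
(fin 1232 3 1164))))))))))))
(cons (mv 1291 (cons (fin 1227 5 1035)
(mv 1035 (cons (fin 971 7 971)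
(mv 1102 (cons (fin 1103 3 1035)
(fin 1034 0 1034)))))))
(mv 1293 (cons (fin 1229 4 1036)
(mv 1035 (cons (fin 971 7 971)
(mv 1102 (cons (fin 1103 3 1035)
(fin 1034 0 1034)))))))))))))
(cons (mv 973 (cons (fin 909 5 908)
(mv 1165 (cons (mv 974 (cons (fin 1229 6 973)
(fin 910 6 909)))
(cons (mv 1230 (cons (fin 1166 4 973)
(mv 1229 (cons (fin 1294 4 1037)
(mv 1293 (cons (fin 1357 7 1100)
(fin 1036 7 1036)))))))
(mv 1166 (cons (fin 1230 4 973)
(mv 1167 (cons (fin 1168 3 1100)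
(mv 1231 (cons (fin 1232 0 1164)
(mv 974 (cons (fin 1102 4 974)
(fin 910 6 909))))))))))))))
(mv 1228 (cons (fin 1292 6 1036)
(mv 973 (cons (fin 909 5 908)
(fin 1036 6 972))))))))))))
(mv 1100 (cons (fin 1039 1 1036)
(mv 1098 (cons (fin 1099 2 1034)
(mv 1165 (cons (cons (mv 1229 (cons (fin 974 6 973)
(mv 1292 (cons (fin 1228 5 1036)
(mv 1293 (cons (fin 1356 5 1100)
(fin 1102 6 1037)))))))
(mv 973 (cons (mv 1164 (cons (fin 1228 5 972)
(fin 909 5 908)))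
(cons (mv 1230 (cons (fin 1166 4 973)
(mv 910 (cons (fin 974 6 909)
(mv 909 (cons (fin 846 6 845)
(mv 844 (cons (fin 908 7 844)
(mv 845 (cons (fin 780 7 780)
(fin 1102 4 845)))))))))))
(mv 1164 (cons (fin 1228 5 972)
(mv 1166 (cons (fin 1230 4 973)
(mv 1167 (cons (fin 1168 3 1100)
(mv 1231 (cons (fin 1232 0 1164)
(mv 974 (cons (fin 1102 4 974)
(fin 910 6 909)))))))))))))))
(cons (mv 1164 (cons (mv 1228 (cons (fin 973 5 972)
(fin 1292 6 1036)))
(cons (mv 973 (cons (fin 909 5 908)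
(mv 1230 (cons (fin 1166 4 973)
(mv 1229 (cons (fin 1294 4 1037)
(mv 1293 (cons (fin 1357 7 1100)
(fin 1102 6 1037)))))))))
(mv 1292 (cons (fin 1228 6 1036)
(mv 1163 (cons (mv 1162 (cons (fin 1097 3 1097)
(fin 1161 2 1097)))
(mv 1102 (cons (fin 1103 1 1099)
(mv 1229 (cons (fin 1293 6 1037)
(mv 1230 (cons (fin 1294 4 1037)
(mv 1231 (cons (fin 1232 3 1164)
(fin 1166 0 1163))))))))))))))))
(cons (mv 1229 (cons (fin 974 6 973)
(mv 1293 (cons (fin 1102 6 1037)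
(mv 1294 (cons (fin 1358 4 1101)
(fin 1230 4 1037)))))))
(mv 1229 (cons (fin 974 6 973)
(mv 1292 (cons (fin 1228 5 1036)
(mv 1356 (cons (fin 1293 5 1100)
(mv 1230 (cons (fin 1294 4 1037)
(mv 973 (cons (fin 1166 4 973)
(mv 909 (cons (fin 1164 5 908)
(mv 844 (cons (fin 908 7 844)
(mv 845 (cons (fin 780 7 780)
(mv 846 (cons (fin 910 6 845)
(fin 782 6 781))))))))))))))))))))))))))))
(cons (mv 1100 (cons (fin 1039 1 1036)
(mv 1098 (cons (fin 1099 2 1034)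
(mv 1164 (cons (cons (mv 1228 (cons (fin 1292 6 1036)
(mv 973 (cons (fin 1165 5 972)
(fin 909 5 908)))))
(mv 1228 (cons (fin 1292 6 1036)
(mv 1036 (cons (cons (mv 1291 (cons (fin 1227 5 1035)
(mv 1293 (cons (fin 1229 4 1036)
(mv 1035 (cons (fin 971 7 971)
(mv 1034 (cons (fin 1097 1 1033)
(fin 1033 0 1033)))))))))
(mv 1291 (cons (fin 1227 5 1035)
(mv 1229 (cons (fin 1293 4 1036)
(mv 1165 (cons (fin 974 6 973)
(mv 1230 (cons (fin 1294 4 1037)
(mv 1231 (cons (fin 1163 3 1163)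
(fin 1232 3 1164))))))))))))
(cons (mv 1291 (cons (fin 1227 5 1035)
(mv 1035 (cons (fin 971 7 971)
(mv 1034 (cons (fin 1097 1 1033)
(fin 1033 0 1033)))))))
(mv 1293 (cons (fin 1229 4 1036)
(mv 1035 (cons (fin 971 7 971)
(mv 1034 (cons (fin 1097 1 1033)
(fin 1033 0 1033)))))))))))))
(cons (mv 973 (cons (fin 909 5 908)
(mv 1165 (cons (mv 974 (cons (fin 1229 6 973)
(fin 910 6 909)))
(cons (mv 1230 (cons (fin 1166 4 973)
(mv 1229 (cons (fin 1294 4 1037)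
(mv 1293 (cons (fin 1357 7 1100)
(fin 1036 7 1036)))))))
(mv 1166 (cons (fin 1230 4 973)
(mv 1167 (cons (fin 1168 3 1100)
(mv 1231 (cons (fin 1232 0 1164)
(mv 974 (cons (fin 1102 4 974)
(fin 910 6 909))))))))))))))
(mv 1228 (cons (fin 1292 6 1036)
(mv 973 (cons (fin 909 5 908)
(fin 1036 6 972))))))))))))
(mv 1100 (cons (fin 1039 1 1036)
(mv 1099 (cons (fin 1098 2 1034)
(mv 1102 (cons (cons (mv 1162 (cons (fin 1163 1 1098)
(mv 1035 (cons (fin 1034 3 1034)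
(mv 1103 (cons (fin 1036 3 1035)
(mv 1104 (cons (fin 1105 3 1037)
(mv 1165 (cons (fin 1164 1 1100)
(mv 1229 (cons (fin 1293 6 1037)
(fin 974 6 973)))))))))))))
(cons (mv 1163 (cons (fin 1162 1 1098)
(mv 1164 (cons (fin 1103 1 1099)
(mv 1228 (cons (fin 1292 6 1036)
(mv 973 (cons (fin 1165 5 972)
(fin 909 5 908)))))))))
(mv 1035 (cons (fin 1034 3 1034)
(mv 1103 (cons (fin 1036 3 1035)
(mv 1104 (cons (fin 1105 3 1037)
(mv 1165 (cons (fin 1164 1 1100)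
(mv 1229 (cons (fin 1293 6 1037)
(fin 974 6 973)))))))))))))
(cons (mv 1163 (cons (fin 1162 1 1098)
(mv 1034 (cons (fin 1035 3 1034)
(mv 973 (cons (mv 1166 (cons (fin 1230 7 973)
(fin 909 4 909)))
(cons (mv 1166 (cons (fin 1230 7 973)
(mv 1165 (cons (mv 1229 (cons (fin 974 5 973)
(fin 1293 6 1037)))
(cons (mv 1293 (cons (fin 1229 6 1037)
(mv 1164 (cons (fin 1228 5 972)
(mv 1227 (cons (fin 1226 1 1162)
(mv 1291 (cons (fin 1355 6 1099)
(fin 1036 6 1035)))))))))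
(mv 1164 (cons (fin 1228 5 972)
(mv 1227 (cons (fin 1226 1 1162)
(mv 1291 (cons (fin 1355 6 1099)
(fin 1036 6 1035))))))))))))
(mv 909 (cons (fin 1164 5 908)
(fin 845 4 845))))))))))
(cons (mv 1162 (cons (fin 1163 1 1098)
(mv 1035 (cons (fin 1034 3 1034)
(mv 1036 (cons (fin 1103 3 1035)
(mv 971 (cons (fin 970 3 970)
(mv 1164 (cons (fin 1228 7 971)
(fin 907 4 907)))))))))))
(mv 1162 (cons (fin 1163 1 1098)
(mv 1035 (cons (fin 1034 3 1034)
(mv 1036 (cons (fin 1103 3 1035)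
(mv 971 (cons (fin 970 3 970)
(mv 907 (cons (fin 843 4 843)
(mv 906 (cons (fin 842 7 842)
(mv 908 (cons (fin 844 6 843)
(mv 909 (cons (cons (mv 973 (cons (fin 974 0 906)
(fin 845 5 844)))
(mv 846 (cons (fin 845 2 842)
(mv 910 (cons (fin 847 2 843)
(fin 974 5 845))))))
(cons (mv 973 (cons (fin 974 0 906)
(fin 1166 4 909)))
(mv 973 (cons (fin 845 5 844)
(fin 1166 4 909)))))))))))))))))))))))))))))))))
(cons (mv 1039 (cons (cons (mv 1100 (cons (fin 1101 1 1036)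
(mv 1104 (cons (fin 1105 0 1037)
(mv 1036 (cons (fin 1099 1 1035)
(fin 1103 0 1036)))))))
(mv 1100 (cons (fin 1101 1 1036)
(mv 1036 (cons (fin 1099 1 1035)
(mv 972 (cons (fin 971 3 971)
(fin 973 3 972))))))))
(cons (mv 1104 (cons (fin 1105 0 1037)
(mv 1036 (cons (fin 1103 0 1036)
(mv 972 (cons (fin 971 3 971)
(fin 973 3 972)))))))
(mv 1101 (cons (fin 1100 1 1036)
(mv 1104 (cons (fin 1105 0 1037)
(mv 973 (cons (fin 972 3 972)
(mv 1165 (cons (cons (mv 974 (cons (fin 1229 6 973)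
(fin 910 6 909)))
(mv 1228 (cons (fin 1164 5 972)
(mv 1292 (cons (fin 1229 5 1036)
(mv 1166 (cons (fin 1230 4 973)
(mv 909 (cons (fin 1102 4 909)
(mv 844 (cons (fin 908 7 844)
(mv 845 (cons (fin 780 7 780)
(mv 846 (cons (fin 910 6 845)
(fin 782 6 781))))))))))))))))
(cons (mv 1228 (cons (fin 1164 5 972)
(mv 1230 (cons (fin 1166 4 973)
(mv 910 (cons (fin 974 6 909)
(mv 909 (cons (fin 846 6 845)
(mv 844 (cons (fin 908 7 844)
(mv 845 (cons (fin 780 7 780)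
(fin 1102 4 845)))))))))))))
(mv 1228 (cons (fin 1164 5 972)
(mv 1229 (cons (fin 1292 5 1036)
(fin 974 6 973)))))))))))))))))
(cons (mv 1039 (cons (cons (mv 1100 (cons (fin 1101 1 1036)
(mv 1104 (cons (fin 1105 0 1037)
(mv 972 (cons (fin 973 3 972)
(mv 976 (cons (fin 977 2 973)
(mv 1168 (cons (cons (mv 1231 (cons (fin 1167 5 975)
(mv 1232 (cons (fin 1295 5 1039)
(mv 1233 (cons (fin 1297 4 1040)
(fin 1169 4 976)))))))
(mv 1233 (cons (fin 1169 4 976)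
(mv 1232 (cons (fin 1297 4 1040)
(mv 1295 (cons (fin 1231 5 1039)
(mv 1296 (cons (fin 1359 5 1103)
(fin 1103 7 1039))))))))))
(cons (mv 1233 (cons (fin 1169 4 976)
(mv 1232 (cons (fin 1297 4 1040)
(mv 1103 (cons (fin 1296 7 1039)
(mv 912 (cons (fin 1167 5 911)
(fin 848 5 847)))))))))
(mv 1167 (cons (fin 1231 5 975)
(mv 912 (cons (fin 1103 5 911)
(mv 847 (cons (fin 911 7 847)
(mv 848 (cons (fin 783 7 783)
(mv 849 (cons (fin 913 6 848)
(fin 785 6 784))))))))))))))))))))))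
(mv 1104 (cons (fin 1105 0 1037)
(mv 972 (cons (fin 973 3 972)
(mv 976 (cons (fin 977 2 973)
(mv 912 (cons (mv 1103 (cons (fin 1167 5 911)
(fin 848 5 847)))
(cons (mv 847 (cons (fin 911 7 847)
(mv 848 (cons (fin 783 7 783)
(mv 849 (cons (fin 913 6 848)
(fin 785 6 784)))))))
(mv 911 (cons (fin 847 7 847)
(mv 913 (cons (fin 849 6 848)
(mv 1168 (cons (cons (mv 1167 (cons (fin 1231 5 975)
(fin 1103 5 911)))
(mv 1233 (cons (fin 1169 4 976)
(mv 1232 (cons (fin 1297 4 1040)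
(mv 1295 (cons (fin 1231 5 1039)
(mv 1296 (cons (fin 1359 5 1103)
(fin 1103 7 1039))))))))))
(cons (mv 1231 (cons (fin 1167 5 975)
(mv 1232 (cons (fin 1295 5 1039)
(mv 1233 (cons (fin 1297 4 1040)
(fin 1169 4 976)))))))
(mv 1233 (cons (fin 1169 4 976)
(mv 1232 (cons (fin 1297 4 1040)
(mv 1103 (cons (fin 1167 5 911)
(fin 1296 7 1039))))))))))))))))))))))))
(cons (mv 1100 (cons (fin 1101 1 1036)
(mv 1104 (cons (fin 1105 0 1037)
(mv 976 (cons (fin 977 2 973)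
(mv 912 (cons (mv 1103 (cons (fin 1167 5 911)
(fin 848 5 847)))
(cons (mv 847 (cons (fin 911 7 847)
(mv 848 (cons (fin 783 7 783)
(mv 849 (cons (fin 913 6 848)
(fin 785 6 784)))))))
(mv 911 (cons (fin 847 7 847)
(mv 913 (cons (fin 849 6 848)
(mv 1168 (cons (cons (mv 1167 (cons (fin 1231 5 975)
(fin 1103 5 911)))
(mv 1233 (cons (fin 1169 4 976)
(mv 1232 (cons (fin 1297 4 1040)
(mv 1295 (cons (fin 1231 5 1039)
(mv 1296 (cons (fin 1359 5 1103)
(fin 1103 7 1039))))))))))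
(cons (mv 1231 (cons (fin 1167 5 975)
(mv 1232 (cons (fin 1295 5 1039)
(mv 1233 (cons (fin 1297 4 1040)
(fin 1169 4 976)))))))
(mv 1233 (cons (fin 1169 4 976)
(mv 1232 (cons (fin 1297 4 1040)
(mv 1103 (cons (fin 1167 5 911)
(fin 1296 7 1039)))))))))))))))))))))))
(cons (mv 1101 (cons (fin 1100 1 1036)
(mv 973 (cons (fin 972 3 972)
(mv 976 (cons (fin 977 2 973)
(mv 1165 (cons (cons (mv 974 (cons (fin 1229 6 973)
(fin 910 6 909)))
(mv 1228 (cons (fin 1164 5 972)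
(mv 1292 (cons (fin 1229 5 1036)
(mv 1166 (cons (fin 1230 4 973)
(mv 909 (cons (fin 1102 4 909)
(mv 910 (cons (fin 846 6 845)
(mv 844 (cons (fin 908 7 844)
(mv 845 (cons (fin 780 7 780)
(mv 912 (cons (fin 911 3 844)
(mv 848 (cons (fin 1103 5 847)
(mv 783 (cons (fin 847 7 783)
(mv 784 (cons (fin 719 7 719)
(mv 785 (cons (fin 849 6 784)
(fin 721 6 720))))))))))))))))))))))))))
(cons (mv 1228 (cons (fin 1164 5 972)
(mv 1230 (cons (fin 1166 4 973)
(mv 910 (cons (fin 974 6 909)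
(mv 909 (cons (fin 846 6 845)
(mv 844 (cons (fin 908 7 844)
(mv 845 (cons (fin 780 7 780)
(fin 1102 4 845)))))))))))))
(mv 1228 (cons (fin 1164 5 972)
(mv 1229 (cons (fin 1292 5 1036)
(fin 974 6 973))))))))))))))
(mv 1101 (cons (fin 1100 1 1036)
(mv 1104 (cons (fin 1105 0 1037)
(mv 973 (cons (fin 972 3 972)
(mv 1165 (cons (cons (mv 974 (cons (fin 1229 6 973)
(fin 910 6 909)))
(mv 1228 (cons (fin 1164 5 972)
(mv 1292 (cons (fin 1229 5 1036)
(mv 1166 (cons (fin 1230 4 973)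
(mv 909 (cons (fin 1102 4 909)
(mv 844 (cons (fin 908 7 844)
(mv 845 (cons (fin 780 7 780)
(mv 846 (cons (fin 910 6 845)
(fin 782 6 781))))))))))))))))
(cons (mv 1228 (cons (fin 1164 5 972)
(mv 1230 (cons (fin 1166 4 973)
(mv 910 (cons (fin 974 6 909)
(mv 909 (cons (fin 846 6 845)
(mv 844 (cons (fin 908 7 844)
(mv 845 (cons (fin 780 7 780)
(fin 1102 4 845)))))))))))))
(mv 1228 (cons (fin 1164 5 972)
(mv 1229 (cons (fin 1292 5 1036)
(fin 974 6 973))))))))))))))))))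
(mv 1101 (cons (cons (cons (mv 1100 (cons (fin 1039 1 1036)
(mv 1098 (cons (fin 1099 2 1034)
(mv 1164 (cons (cons (mv 1228 (cons (fin 1292 6 1036)
(mv 973 (cons (fin 1165 5 972)
(fin 909 5 908)))))
(mv 1228 (cons (fin 1292 6 1036)
(mv 1036 (cons (cons (mv 1291 (cons (fin 1227 5 1035)
(mv 1293 (cons (fin 1229 4 1036)
(mv 1035 (cons (fin 971 7 971)
(mv 1034 (cons (fin 1097 1 1033)
(fin 1033 0 1033)))))))))
(mv 1291 (cons (fin 1227 5 1035)
(mv 1035 (cons (fin 971 7 971)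
(mv 1034 (cons (fin 1097 1 1033)
(fin 1033 0 1033))))))))
(cons (mv 1291 (cons (fin 1227 5 1035)
(mv 1229 (cons (fin 1293 4 1036)
(mv 1165 (cons (fin 972 7 972)
(fin 974 6 973)))))))
(mv 1293 (cons (fin 1229 4 1036)
(mv 1035 (cons (fin 971 7 971)
(mv 1034 (cons (fin 1097 1 1033)
(fin 1033 0 1033)))))))))))))
(cons (mv 973 (cons (fin 909 5 908)
(mv 1165 (cons (mv 974 (cons (fin 1229 6 973)
(fin 910 6 909)))
(cons (mv 1230 (cons (fin 1166 4 973)
(mv 1294 (cons (fin 1229 4 1037)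
(mv 972 (cons (fin 908 7 908)
(mv 971 (cons (fin 970 0 970)
(mv 1036 (cons (fin 907 7 907)
(mv 1163 (cons (fin 1227 5 971)
(mv 1162 (cons (fin 1097 3 1097)
(fin 1161 2 1097)))))))))))))))
(mv 1230 (cons (fin 1166 4 973)
(mv 972 (cons (fin 908 7 908)
(mv 971 (cons (fin 970 0 970)
(mv 1036 (cons (fin 907 7 907)
(mv 1163 (cons (fin 1227 5 971)
(mv 1162 (cons (fin 1097 3 1097)
(fin 1161 2 1097))))))))))))))))))
(mv 1228 (cons (fin 1292 6 1036)
(mv 973 (cons (fin 909 5 908)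
(fin 1036 6 972))))))))))))
(cons (mv 974 (cons (cons (mv 1165 (cons (fin 1229 6 973)
(mv 910 (cons (fin 1102 5 909)
(fin 846 5 845)))))
(mv 910 (cons (fin 846 5 845)
(mv 909 (cons (cons (mv 1102 (cons (fin 845 7 845)
(mv 1166 (cons (fin 973 7 909)
(mv 1230 (cons (fin 1294 7 1037)
(mv 1231 (cons (fin 1295 4 1038)
(fin 1167 4 974)))))))))
(mv 973 (cons (cons (mv 1164 (cons (fin 1100 5 908)
(mv 908 (cons (fin 844 7 844)
(mv 907 (cons (fin 906 0 906)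
(mv 971 (cons (fin 970 1 906)
(mv 972 (cons (fin 911 1 907)
(mv 1034 (cons (fin 1035 1 970)
(mv 843 (cons (fin 842 3 842)
(mv 779 (cons (fin 1036 4 779)
(fin 715 4 715)))))))))))))))))
(mv 908 (cons (fin 844 7 844)
(mv 907 (cons (fin 906 0 906)
(mv 971 (cons (fin 970 1 906)
(mv 972 (cons (fin 911 1 907)
(mv 1034 (cons (fin 1035 1 970)
(mv 843 (cons (fin 842 3 842)
(mv 779 (cons (fin 1036 4 779)
(fin 715 4 715))))))))))))))))
(cons (mv 1100 (cons (fin 1164 5 908)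
(mv 845 (cons (fin 1036 5 844)
(fin 781 4 781)))))
(mv 1164 (cons (fin 1100 5 908)
(mv 908 (cons (fin 844 7 844)
(mv 907 (cons (fin 906 0 906)
(mv 971 (cons (fin 970 1 906)
(mv 911 (cons (fin 972 1 907)
(mv 912 (cons (fin 913 1 909)
(mv 848 (cons (fin 847 2 844)
(fin 849 2 845)))))))))))))))))))
(cons (mv 973 (cons (cons (mv 1164 (cons (fin 1100 5 908)
(mv 1166 (cons (fin 1102 7 909)
(mv 908 (cons (fin 844 7 844)
(mv 907 (cons (fin 906 0 906)
(mv 971 (cons (fin 970 1 906)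
(mv 972 (cons (fin 911 1 907)
(mv 1034 (cons (fin 1035 1 970)
(mv 843 (cons (fin 842 3 842)
(mv 779 (cons (fin 1036 4 779)
(fin 715 4 715)))))))))))))))))))
(cons (mv 1164 (cons (fin 1100 5 908)
(mv 908 (cons (fin 844 7 844)
(mv 907 (cons (fin 906 0 906)
(mv 971 (cons (fin 970 1 906)
(mv 972 (cons (fin 911 1 907)
(mv 1034 (cons (fin 1035 1 970)
(mv 843 (cons (fin 842 3 842)
(mv 779 (cons (fin 1036 4 779)
(fin 715 4 715)))))))))))))))))
(mv 1164 (cons (fin 1100 5 908)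
(mv 1102 (cons (fin 1166 7 909)
(mv 911 (cons (fin 847 6 846)
(mv 972 (cons (fin 912 1 908)
(fin 971 2 907)))))))))))
(cons (mv 1166 (cons (fin 1102 7 909)
(mv 908 (cons (fin 844 7 844)
(mv 907 (cons (fin 906 0 906)
(mv 971 (cons (fin 970 1 906)
(mv 972 (cons (fin 911 1 907)
(mv 1034 (cons (fin 1035 1 970)
(mv 843 (cons (fin 842 3 842)
(mv 779 (cons (fin 1036 4 779)
(fin 715 4 715)))))))))))))))))
(cons (mv 1166 (cons (fin 1102 7 909)
(mv 1100 (cons (fin 1164 5 908)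
(mv 1098 (cons (fin 1099 2 1034)
(mv 908 (cons (fin 844 7 844)
(mv 907 (cons (fin 906 0 906)
(mv 971 (cons (fin 970 1 906)
(mv 843 (cons (fin 842 3 842)
(mv 1035 (cons (fin 1034 5 842)
(fin 1036 4 843)))))))))))))))))
(mv 1164 (cons (fin 1100 5 908)
(mv 1102 (cons (fin 1166 7 909)
(mv 908 (cons (fin 844 7 844)
(mv 906 (cons (fin 907 0 906)
(mv 911 (cons (fin 847 6 846)
(mv 912 (cons (fin 972 1 908)
(fin 913 1 909)))))))))))))))))
(mv 911 (cons (cons (mv 1102 (cons (fin 845 7 845)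
(fin 847 6 846)))
(mv 912 (cons (mv 976 (cons (fin 977 0 909)
(mv 1104 (cons (fin 847 7 847)
(mv 849 (cons (fin 848 2 845)
(fin 913 6 848)))))))
(mv 844 (cons (fin 845 3 844)
(mv 908 (cons (fin 843 3 843)
(mv 972 (cons (fin 971 1 907)
(fin 1036 4 844))))))))))
(cons (mv 845 (cons (fin 1102 7 845)
(mv 912 (cons (fin 844 3 844)
(mv 976 (cons (fin 977 0 909)
(mv 849 (cons (fin 848 2 845)
(mv 913 (cons (fin 850 2 846)
(fin 1104 6 848)))))))))))
(mv 847 (cons (fin 1102 6 846)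
(mv 908 (cons (fin 848 2 844)
(mv 971 (cons (fin 972 1 907)
(mv 907 (cons (fin 970 1 906)
(mv 843 (cons (fin 842 3 842)
(fin 844 3 843))))))))))))))))))))
(cons (mv 1165 (cons (fin 1229 6 973)
(mv 973 (cons (cons (mv 1228 (cons (fin 1164 5 972)
(mv 1230 (cons (fin 1166 4 973)
(mv 908 (cons (fin 972 7 908)
(mv 909 (cons (fin 844 7 844)
(mv 845 (cons (fin 1102 4 845)
(fin 781 4 781)))))))))))
(mv 1228 (cons (fin 1164 5 972)
(mv 908 (cons (fin 972 7 908)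
(mv 909 (cons (fin 844 7 844)
(mv 845 (cons (fin 1102 4 845)
(fin 781 4 781))))))))))
(cons (mv 1228 (cons (fin 1164 5 972)
(mv 1166 (cons (fin 1230 4 973)
(mv 1102 (cons (fin 909 7 909)
(mv 1167 (cons (fin 1231 4 974)
(mv 1168 (cons (fin 1100 3 1100)
(fin 1169 3 1101)))))))))))
(cons (mv 1230 (cons (fin 1166 4 973)
(mv 908 (cons (fin 972 7 908)
(mv 909 (cons (fin 844 7 844)
(mv 845 (cons (fin 1102 4 845)
(fin 781 4 781)))))))))
(mv 1230 (cons (fin 1166 4 973)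
(mv 1164 (cons (fin 1228 5 972)
(mv 972 (cons (fin 908 7 908)
(mv 971 (cons (fin 970 0 970)
(mv 1035 (cons (fin 1034 1 970)
(mv 907 (cons (fin 906 3 906)
(mv 1100 (cons (fin 1036 7 907)
(fin 1099 4 907)))))))))))))))))))))
(mv 1165 (cons (fin 1229 6 973)
(mv 910 (cons (fin 846 5 845)
(fin 973 6 909))))))))
(mv 974 (cons (cons (mv 1165 (cons (fin 1229 6 973)
(mv 910 (cons (fin 1102 5 909)
(fin 846 5 845)))))
(mv 910 (cons (fin 846 5 845)
(mv 909 (cons (cons (mv 1102 (cons (fin 845 7 845)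
(mv 1166 (cons (fin 973 7 909)
(mv 1230 (cons (fin 1294 7 1037)
(mv 1231 (cons (fin 1295 4 1038)
(fin 1167 4 974)))))))))
(mv 973 (cons (mv 1039 (cons (fin 972 3 972)
(mv 1104 (cons (fin 1105 0 1037)
(mv 976 (cons (fin 977 2 973)
(mv 844 (cons (fin 908 7 844)
(mv 845 (cons (fin 780 7 780)
(fin 781 4 781)))))))))))
(cons (mv 844 (cons (fin 908 7 844)
(mv 845 (cons (fin 780 7 780)
(fin 781 4 781)))))
(mv 972 (cons (fin 1039 3 972)
(mv 971 (cons (fin 970 0 970)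
(fin 911 2 907)))))))))
(cons (mv 911 (cons (cons (mv 1102 (cons (fin 847 6 846)
(mv 1166 (cons (fin 973 7 909)
(mv 1230 (cons (fin 1294 7 1037)
(mv 1231 (cons (fin 1295 4 1038)
(fin 1167 4 974)))))))))
(mv 973 (cons (mv 972 (cons (fin 912 1 908)
(fin 1039 3 972)))
(cons (mv 908 (cons (fin 844 7 844)
(mv 906 (cons (fin 907 0 906)
(mv 912 (cons (fin 913 1 909)
(mv 848 (cons (fin 847 2 844)
(fin 849 2 845)))))))))
(mv 972 (cons (fin 1039 3 972)
(fin 971 2 907)))))))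
(cons (mv 972 (cons (mv 971 (cons (fin 908 1 907)
(fin 973 2 907)))
(cons (mv 971 (cons (fin 908 1 907)
(mv 1036 (cons (fin 1039 3 971)
(mv 970 (cons (fin 1035 3 970)
(fin 969 0 969)))))))
(mv 973 (cons (fin 912 1 908)
(fin 1039 3 972))))))
(mv 847 (cons (fin 1102 6 846)
(mv 908 (cons (fin 848 2 844)
(mv 971 (cons (fin 972 1 907)
(mv 907 (cons (fin 970 1 906)
(mv 843 (cons (fin 842 3 842)
(fin 844 3 843))))))))))))))
(mv 911 (cons (cons (mv 1102 (cons (fin 845 7 845)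
(fin 847 6 846)))
(mv 912 (cons (mv 976 (cons (fin 977 0 909)
(mv 1104 (cons (fin 847 7 847)
(mv 1105 (cons (fin 1039 0 1037)
(fin 1169 4 912)))))))
(mv 844 (cons (fin 845 3 844)
(mv 908 (cons (fin 843 3 843)
(mv 972 (cons (fin 971 1 907)
(fin 1036 4 844))))))))))
(cons (mv 845 (cons (fin 1102 7 845)
(mv 912 (cons (fin 844 3 844)
(mv 976 (cons (fin 977 0 909)
(mv 849 (cons (fin 848 2 845)
(mv 913 (cons (fin 850 2 846)
(fin 1104 6 848)))))))))))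
(mv 847 (cons (fin 1102 6 846)
(mv 908 (cons (fin 848 2 844)
(mv 971 (cons (fin 972 1 907)
(mv 907 (cons (fin 970 1 906)
(mv 843 (cons (fin 842 3 842)
(fin 844 3 843))))))))))))))))))))
(cons (mv 1165 (cons (fin 1229 6 973)
(mv 973 (cons (mv 972 (cons (fin 1039 3 972)
(fin 908 7 908)))
(cons (mv 1228 (cons (fin 1164 5 972)
(mv 1166 (cons (fin 1230 4 973)
(mv 909 (cons (fin 1102 7 909)
(mv 844 (cons (fin 908 7 844)
(mv 845 (cons (fin 780 7 780)
(fin 781 4 781)))))))))))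
(mv 1164 (cons (fin 1228 5 972)
(mv 1166 (cons (fin 1230 4 973)
(mv 1102 (cons (fin 909 7 909)
(mv 1231 (cons (fin 1167 4 974)
(mv 1163 (cons (fin 1162 2 1098)
(mv 1227 (cons (fin 1226 1 1162)
(mv 1099 (cons (fin 1098 3 1098)
(mv 972 (cons (fin 1039 3 972)
(mv 1035 (cons (fin 1036 6 971)
(mv 1034 (cons (fin 971 1 970)
(fin 970 7 970))))))))))))))))))))))))))
(mv 1165 (cons (fin 1229 6 973)
(mv 910 (cons (fin 846 5 845)
(fin 973 6 909))))))))))
(cons (mv 1100 (cons (fin 1039 1 1036)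
(mv 1098 (cons (fin 1099 2 1034)
(mv 1164 (cons (cons (mv 1228 (cons (fin 1292 6 1036)
(mv 973 (cons (fin 1165 5 972)
(fin 909 5 908)))))
(mv 1228 (cons (fin 1292 6 1036)
(mv 1036 (cons (cons (mv 1291 (cons (fin 1227 5 1035)
(mv 1293 (cons (fin 1229 4 1036)
(mv 1035 (cons (fin 971 7 971)
(mv 1034 (cons (fin 1097 1 1033)
(fin 1033 0 1033)))))))))
(mv 1291 (cons (fin 1227 5 1035)
(mv 1229 (cons (fin 1293 4 1036)
(mv 1165 (cons (fin 972 7 972)
(mv 1230 (cons (fin 1294 4 1037)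
(mv 1231 (cons (fin 1163 3 1163)
(fin 1232 3 1164))))))))))))
(cons (mv 1291 (cons (fin 1227 5 1035)
(mv 1035 (cons (fin 971 7 971)
(mv 1034 (cons (fin 1097 1 1033)
(fin 1033 0 1033)))))))
(mv 1293 (cons (fin 1229 4 1036)
(mv 1035 (cons (fin 971 7 971)
(mv 1034 (cons (fin 1097 1 1033)
(fin 1033 0 1033)))))))))))))
(cons (mv 973 (cons (fin 909 5 908)
(mv 1165 (cons (cons (mv 1230 (cons (fin 1166 4 973)
(mv 1294 (cons (fin 1229 4 1037)
(mv 972 (cons (fin 908 7 908)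
(mv 971 (cons (fin 970 0 970)
(mv 1036 (cons (fin 907 7 907)
(mv 1163 (cons (fin 1227 5 971)
(mv 1162 (cons (fin 1097 3 1097)
(fin 1161 2 1097)))))))))))))))
(mv 1230 (cons (fin 1166 4 973)
(mv 1229 (cons (fin 1294 4 1037)
(mv 1293 (cons (fin 1357 7 1100)
(fin 1036 7 1036))))))))
(cons (mv 972 (cons (fin 908 7 908)
(mv 1229 (cons (fin 1036 7 972)
(mv 1293 (cons (fin 1357 7 1100)
(fin 1102 6 1037)))))))
(cons (mv 1230 (cons (fin 1166 4 973)
(mv 972 (cons (fin 908 7 908)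
(mv 971 (cons (fin 970 0 970)
(mv 1036 (cons (fin 907 7 907)
(mv 1163 (cons (fin 1227 5 971)
(mv 1162 (cons (fin 1097 3 1097)
(fin 1161 2 1097)))))))))))))
(mv 1230 (cons (fin 1166 4 973)
(mv 1229 (cons (fin 1294 4 1037)
(mv 1293 (cons (fin 1357 7 1100)
(fin 1102 6 1037)))))))))))))
(mv 1228 (cons (fin 1292 6 1036)
(mv 973 (cons (fin 909 5 908)
(fin 1036 6 972))))))))))))
(cons (mv 1100 (cons (fin 1039 1 1036)
(mv 1099 (cons (fin 1098 2 1034)
(mv 1102 (cons (cons (mv 1162 (cons (fin 1163 1 1098)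
(mv 1166 (cons (fin 1167 0 1099)
(mv 1230 (cons (fin 1294 7 1037)
(mv 1295 (cons (fin 1231 4 1038)
(mv 1229 (cons (fin 1293 5 1037)
(mv 1165 (cons (fin 974 5 973)
(mv 1292 (cons (fin 1228 5 1036)
(mv 1035 (cons (fin 1034 3 1034)
(mv 1036 (cons (fin 972 7 972)
(mv 971 (cons (fin 970 3 970)
(mv 907 (cons (fin 1164 4 907)
(fin 843 4 843)))))))))))))))))))))))
(cons (mv 1163 (cons (fin 1162 1 1098)
(mv 1035 (cons (fin 1034 3 1034)
(mv 971 (cons (mv 1164 (cons (fin 1228 4 971)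
(fin 907 4 907)))
(mv 970 (cons (fin 1036 3 970)
(fin 906 7 906)))))))))
(mv 1162 (cons (fin 1163 1 1098)
(mv 1166 (cons (fin 1167 0 1099)
(mv 1230 (cons (fin 1294 7 1037)
(mv 1295 (cons (fin 1231 4 1038)
(mv 1229 (cons (fin 1293 5 1037)
(mv 1165 (cons (fin 974 5 973)
(mv 1228 (cons (fin 1292 5 1036)
(mv 1227 (cons (fin 1226 2 1162)
(mv 1291 (cons (fin 1290 1 1226)
(mv 1036 (cons (fin 1164 5 1035)
(fin 972 7 972)))))))))))))))))))))))
(cons (mv 1166 (cons (fin 1167 0 1099)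
(mv 1230 (cons (fin 1294 7 1037)
(mv 1295 (cons (fin 1231 4 1038)
(mv 1229 (cons (fin 1293 5 1037)
(mv 1165 (cons (fin 974 5 973)
(mv 1292 (cons (fin 1228 5 1036)
(mv 1035 (cons (fin 1034 3 1034)
(mv 1036 (cons (fin 972 7 972)
(mv 971 (cons (fin 970 3 970)
(mv 907 (cons (fin 1164 4 907)
(fin 843 4 843)))))))))))))))))))))
(cons (mv 1162 (cons (fin 1163 1 1098)
(mv 1166 (cons (fin 1167 0 1099)
(mv 1230 (cons (fin 1294 7 1037)
(mv 1229 (cons (fin 1293 5 1037)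
(mv 1231 (cons (fin 1295 4 1038)
(mv 1165 (cons (fin 974 5 973)
(mv 1232 (cons (fin 1164 3 1164)
(fin 1233 3 1165)))))))))))))))
(mv 1163 (cons (fin 1162 1 1098)
(mv 1166 (cons (fin 1167 0 1099)
(mv 1230 (cons (fin 1294 7 1037)
(mv 1295 (cons (fin 1231 4 1038)
(mv 1229 (cons (fin 1293 5 1037)
(mv 1165 (cons (fin 974 5 973)
(mv 1228 (cons (fin 1292 5 1036)
(mv 1227 (cons (fin 1226 2 1162)
(mv 1291 (cons (fin 1290 1 1226)
(fin 1036 6 1035)))))))))))))))))))))))))))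
(mv 1100 (cons (fin 1039 1 1036)
(mv 1099 (cons (fin 1098 2 1034)
(mv 1102 (cons (cons (mv 1162 (cons (fin 1163 1 1098)
(mv 1166 (cons (fin 1167 0 1099)
(mv 1230 (cons (fin 1294 7 1037)
(fin 973 7 973)))))))
(mv 1162 (cons (fin 1163 1 1098)
(mv 1035 (cons (fin 1034 3 1034)
(mv 971 (cons (cons (mv 1164 (cons (fin 907 4 907)
(mv 1228 (cons (fin 1292 7 1035)
(fin 1036 7 971)))))
(mv 970 (cons (fin 1036 3 970)
(mv 973 (cons (fin 972 0 970)
(mv 909 (cons (fin 845 4 845)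
(mv 908 (cons (fin 844 7 844)
(mv 910 (cons (fin 907 1 906)
(fin 846 6 845))))))))))))
(cons (mv 970 (cons (fin 1036 3 970)
(mv 973 (cons (fin 972 0 970)
(mv 909 (cons (fin 1164 5 908)
(fin 845 4 845)))))))
(mv 907 (cons (fin 1164 4 907)
(mv 906 (cons (fin 842 7 842)
(mv 844 (cons (fin 908 6 843)
(mv 843 (cons (fin 780 6 779)
(mv 904 (cons (fin 905 2 840)
(mv 845 (cons (fin 846 1 842)
(mv 973 (cons (fin 909 4 845)
(mv 972 (cons (fin 974 3 906)
(fin 970 0 970)))))))))))))))))))))))))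
(cons (mv 1166 (cons (fin 1167 0 1099)
(mv 1230 (cons (fin 1294 7 1037)
(fin 973 7 973)))))
(mv 1163 (cons (fin 1162 1 1098)
(mv 1166 (cons (fin 1167 0 1099)
(mv 1230 (cons (fin 1294 7 1037)
(mv 1229 (cons (fin 1293 5 1037)
(mv 1231 (cons (fin 1295 4 1038)
(mv 1228 (cons (fin 1164 3 1163)
(mv 1291 (cons (fin 1292 1 1227)
(mv 1227 (cons (fin 1290 1 1226)
(fin 1036 6 1035)))))))))))))))))))))))))))
(cons (cons (mv 1100 (cons (fin 1039 1 1036)
(mv 1098 (cons (fin 1099 2 1034)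
(mv 1164 (cons (cons (mv 1228 (cons (fin 1292 6 1036)
(mv 973 (cons (fin 1165 5 972)
(fin 909 5 908)))))
(mv 1228 (cons (fin 1292 6 1036)
(mv 1036 (cons (cons (mv 1291 (cons (fin 1227 5 1035)
(mv 1293 (cons (fin 1229 4 1036)
(mv 1035 (cons (fin 971 7 971)
(mv 1034 (cons (fin 1097 1 1033)
(fin 1033 0 1033)))))))))
(mv 1291 (cons (fin 1227 5 1035)
(mv 1229 (cons (fin 1293 4 1036)
(mv 1165 (cons (fin 974 6 973)
(mv 1230 (cons (fin 1294 4 1037)
(mv 1231 (cons (fin 1163 3 1163)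
(fin 1232 3 1164))))))))))))
(cons (mv 1291 (cons (fin 1227 5 1035)
(mv 1035 (cons (fin 971 7 971)
(mv 1034 (cons (fin 1097 1 1033)
(fin 1033 0 1033)))))))
(mv 1293 (cons (fin 1229 4 1036)
(mv 1035 (cons (fin 971 7 971)
(mv 1034 (cons (fin 1097 1 1033)
(fin 1033 0 1033)))))))))))))
(cons (mv 973 (cons (fin 909 5 908)
(mv 1165 (cons (mv 974 (cons (fin 1229 6 973)
(fin 910 6 909)))
(cons (mv 1230 (cons (fin 1166 4 973)
(mv 1229 (cons (fin 1294 4 1037)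
(mv 1293 (cons (fin 1357 7 1100)
(fin 1036 7 1036)))))))
(mv 1166 (cons (fin 1230 4 973)
(mv 1167 (cons (fin 1168 3 1100)
(mv 1231 (cons (fin 1232 0 1164)
(mv 974 (cons (fin 1102 4 974)
(fin 910 6 909))))))))))))))
(mv 1228 (cons (fin 1292 6 1036)
(mv 973 (cons (fin 909 5 908)
(fin 1036 6 972))))))))))))
(cons (mv 1100 (cons (fin 1039 1 1036)
(mv 1098 (cons (fin 1099 2 1034)
(mv 1164 (cons (cons (mv 1228 (cons (fin 1292 6 1036)
(mv 973 (cons (fin 1165 5 972)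
(fin 909 5 908)))))
(mv 1228 (cons (fin 1292 6 1036)
(mv 1036 (cons (cons (mv 1291 (cons (fin 1227 5 1035)
(mv 1035 (cons (fin 971 7 971)
(mv 1034 (cons (fin 1097 1 1033)
(fin 1033 0 1033)))))))
(mv 1227 (cons (fin 1291 5 1035)
(mv 1163 (cons (fin 972 5 971)
(mv 1162 (cons (fin 1161 2 1097)
(mv 1165 (cons (fin 1097 3 1097)
(fin 1102 2 1098))))))))))
(cons (mv 1035 (cons (fin 971 7 971)
(mv 1034 (cons (fin 1097 1 1033)
(fin 1033 0 1033)))))
(mv 1291 (cons (fin 1227 5 1035)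
(mv 1035 (cons (fin 971 7 971)
(mv 1034 (cons (fin 1033 0 1033)
(fin 1102 0 1034)))))))))))))
(cons (mv 973 (cons (fin 909 5 908)
(mv 1165 (cons (mv 1230 (cons (fin 1166 4 973)
(mv 972 (cons (fin 908 7 908)
(mv 971 (cons (fin 970 0 970)
(mv 1036 (cons (fin 907 7 907)
(mv 1163 (cons (fin 1227 5 971)
(mv 1162 (cons (fin 1097 3 1097)
(fin 1161 2 1097)))))))))))))
(cons (mv 972 (cons (fin 908 7 908)
(mv 971 (cons (fin 970 0 970)
(mv 1036 (cons (fin 907 7 907)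
(mv 1163 (cons (fin 1227 5 971)
(mv 1162 (cons (fin 1097 3 1097)
(fin 1161 2 1097)))))))))))
(mv 1166 (cons (fin 1230 4 973)
(mv 1167 (cons (fin 1168 3 1100)
(mv 1231 (cons (fin 1232 0 1164)
(mv 974 (cons (fin 1102 4 974)
(fin 910 6 909))))))))))))))
(mv 1228 (cons (fin 1292 6 1036)
(mv 973 (cons (fin 909 5 908)
(fin 1036 6 972))))))))))))
(mv 1100 (cons (fin 1039 1 1036)
(mv 1164 (cons (cons (mv 1228 (cons (fin 1292 6 1036)
(mv 973 (cons (fin 1165 5 972)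
(fin 909 5 908)))))
(mv 1228 (cons (fin 1292 6 1036)
(mv 1036 (cons (cons (mv 1291 (cons (fin 1227 5 1035)
(mv 1293 (cons (fin 1229 4 1036)
(mv 1035 (cons (fin 971 7 971)
(mv 1034 (cons (fin 1033 0 1033)
(fin 1102 0 1034)))))))))
(mv 1291 (cons (fin 1227 5 1035)
(mv 1035 (cons (fin 971 7 971)
(mv 1034 (cons (fin 1033 0 1033)
(fin 1102 0 1034))))))))
(cons (mv 1291 (cons (fin 1227 5 1035)
(mv 1229 (cons (fin 1293 4 1036)
(mv 1165 (cons (fin 972 7 972)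
(fin 974 6 973)))))))
(mv 1293 (cons (fin 1229 4 1036)
(mv 1035 (cons (fin 971 7 971)
(mv 1034 (cons (fin 1033 0 1033)
(fin 1102 0 1034)))))))))))))
(cons (mv 973 (cons (fin 909 5 908)
(mv 1165 (cons (mv 974 (cons (fin 1229 6 973)
(fin 910 6 909)))
(cons (mv 1230 (cons (fin 1166 4 973)
(mv 1294 (cons (fin 1229 4 1037)
(mv 972 (cons (fin 908 7 908)
(mv 971 (cons (fin 970 0 970)
(mv 1036 (cons (fin 907 7 907)
(mv 1163 (cons (fin 1227 5 971)
(mv 1162 (cons (fin 1161 2 1097)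
(fin 1102 2 1098)))))))))))))))
(mv 1230 (cons (fin 1166 4 973)
(mv 972 (cons (fin 908 7 908)
(mv 971 (cons (fin 970 0 970)
(mv 1036 (cons (fin 907 7 907)
(mv 1163 (cons (fin 1227 5 971)
(mv 1162 (cons (fin 1161 2 1097)
(fin 1102 2 1098))))))))))))))))))
(mv 1228 (cons (fin 1292 6 1036)
(mv 973 (cons (fin 909 5 908)
(fin 1036 6 972))))))))))))
(cons (mv 1100 (cons (fin 1039 1 1036)
(mv 1098 (cons (fin 1099 2 1034)
(mv 973 (cons (cons (mv 1164 (cons (fin 909 5 908)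
(mv 1228 (cons (fin 1165 5 972)
(fin 1292 6 1036)))))
(mv 1165 (cons (mv 974 (cons (fin 1229 6 973)
(fin 910 6 909)))
(cons (mv 1228 (cons (fin 1164 5 972)
(mv 1229 (cons (fin 1292 5 1036)
(mv 1230 (cons (fin 1294 4 1037)
(fin 1166 4 973)))))))
(mv 1164 (cons (fin 1228 5 972)
(mv 1166 (cons (fin 1230 4 973)
(mv 1167 (cons (fin 1168 3 1100)
(mv 1231 (cons (fin 1232 0 1164)
(mv 974 (cons (fin 1102 4 974)
(fin 910 6 909)))))))))))))))
(cons (mv 1165 (cons (cons (mv 974 (cons (fin 1229 6 973)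
(fin 910 6 909)))
(mv 1230 (cons (fin 1166 4 973)
(mv 1294 (cons (fin 1229 4 1037)
(mv 908 (cons (fin 972 7 908)
(mv 909 (cons (fin 844 7 844)
(mv 845 (cons (fin 1102 4 845)
(mv 846 (cons (fin 910 6 845)
(fin 782 6 781))))))))))))))
(cons (mv 1230 (cons (fin 1166 4 973)
(mv 974 (cons (fin 910 6 909)
(mv 908 (cons (fin 972 7 908)
(mv 909 (cons (fin 844 7 844)
(mv 845 (cons (fin 1102 4 845)
(fin 781 4 781)))))))))))
(mv 1229 (cons (fin 974 6 973)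
(mv 1230 (cons (fin 1294 4 1037)
(fin 1166 4 973))))))))
(mv 909 (cons (fin 1164 5 908)
(mv 1102 (cons (fin 1166 4 909)
(fin 845 4 845))))))))))))
(cons (mv 1100 (cons (fin 1039 1 1036)
(mv 1098 (cons (fin 1099 2 1034)
(mv 1164 (cons (cons (mv 1228 (cons (fin 1292 6 1036)
(mv 973 (cons (fin 1165 5 972)
(fin 909 5 908)))))
(mv 1228 (cons (fin 1292 6 1036)
(mv 1036 (cons (cons (mv 1291 (cons (fin 1227 5 1035)
(mv 1293 (cons (fin 1229 4 1036)
(mv 1035 (cons (fin 971 7 971)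
(mv 1034 (cons (fin 1097 1 1033)
(fin 1033 0 1033)))))))))
(mv 1291 (cons (fin 1227 5 1035)
(mv 1035 (cons (fin 971 7 971)
(mv 1034 (cons (fin 1097 1 1033)
(fin 1033 0 1033))))))))
(cons (mv 1291 (cons (fin 1227 5 1035)
(mv 1229 (cons (fin 1293 4 1036)
(mv 1165 (cons (fin 972 7 972)
(fin 974 6 973)))))))
(mv 1293 (cons (fin 1229 4 1036)
(mv 1035 (cons (fin 971 7 971)
(mv 1034 (cons (fin 1097 1 1033)
(fin 1033 0 1033)))))))))))))
(cons (mv 973 (cons (fin 909 5 908)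
(mv 1165 (cons (mv 974 (cons (fin 1229 6 973)
(fin 910 6 909)))
(cons (mv 972 (cons (fin 908 7 908)
(mv 1229 (cons (fin 1036 7 972)
(mv 1293 (cons (fin 1357 7 1100)
(fin 1102 6 1037)))))))
(mv 972 (cons (fin 908 7 908)
(mv 971 (cons (fin 970 0 970)
(mv 1036 (cons (fin 907 7 907)
(mv 1163 (cons (fin 1227 5 971)
(mv 1162 (cons (fin 1097 3 1097)
(fin 1161 2 1097))))))))))))))))
(mv 1228 (cons (fin 1292 6 1036)
(mv 973 (cons (fin 909 5 908)
(fin 1036 6 972))))))))))))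
(mv 1100 (cons (fin 1039 1 1036)
(mv 1098 (cons (fin 1099 2 1034)
(mv 974 (cons (cons (mv 1165 (cons (fin 1229 6 973)
(mv 910 (cons (fin 1102 5 909)
(fin 846 5 845)))))
(mv 910 (cons (fin 846 5 845)
(mv 909 (cons (cons (mv 1102 (cons (fin 845 7 845)
(mv 1166 (cons (fin 973 7 909)
(mv 1230 (cons (fin 1294 7 1037)
(mv 1231 (cons (fin 1295 4 1038)
(fin 1167 4 974)))))))))
(mv 973 (cons (cons (mv 1166 (cons (fin 1102 7 909)
(mv 908 (cons (fin 844 7 844)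
(mv 907 (cons (fin 906 0 906)
(mv 971 (cons (fin 970 1 906)
(mv 972 (cons (fin 911 1 907)
(mv 843 (cons (fin 842 3 842)
(fin 1036 7 843)))))))))))))
(mv 908 (cons (fin 844 7 844)
(mv 907 (cons (fin 906 0 906)
(mv 971 (cons (fin 970 1 906)
(mv 972 (cons (fin 911 1 907)
(mv 843 (cons (fin 842 3 842)
(fin 1036 7 843))))))))))))
(cons (mv 1102 (cons (fin 1166 7 909)
(mv 911 (cons (fin 847 6 846)
(mv 972 (cons (fin 912 1 908)
(fin 971 2 907)))))))
(cons (mv 1166 (cons (fin 1102 7 909)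
(mv 908 (cons (fin 844 7 844)
(mv 907 (cons (fin 906 0 906)
(mv 971 (cons (fin 970 1 906)
(mv 843 (cons (fin 842 3 842)
(mv 1035 (cons (fin 1034 5 842)
(fin 1036 4 843)))))))))))))
(mv 1102 (cons (fin 1166 7 909)
(mv 908 (cons (fin 844 7 844)
(mv 906 (cons (fin 907 0 906)
(mv 911 (cons (fin 847 6 846)
(mv 912 (cons (fin 972 1 908)
(fin 913 1 909))))))))))))))))
(cons (mv 973 (cons (mv 845 (cons (fin 1036 5 844)
(fin 781 4 781)))
(cons (mv 908 (cons (fin 844 7 844)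
(mv 907 (cons (fin 906 0 906)
(mv 971 (cons (fin 970 1 906)
(mv 972 (cons (fin 911 1 907)
(mv 843 (cons (fin 842 3 842)
(fin 1036 7 843)))))))))))
(mv 908 (cons (fin 844 7 844)
(mv 907 (cons (fin 906 0 906)
(mv 971 (cons (fin 970 1 906)
(mv 911 (cons (fin 972 1 907)
(mv 912 (cons (fin 913 1 909)
(mv 848 (cons (fin 847 2 844)
(fin 849 2 845))))))))))))))))
(mv 911 (cons (cons (mv 1102 (cons (fin 845 7 845)
(fin 847 6 846)))
(mv 908 (cons (cons (mv 971 (cons (fin 972 1 907)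
(mv 970 (cons (fin 907 1 906)
(mv 1035 (cons (fin 1036 3 970)
(mv 844 (cons (fin 843 3 843)
(mv 912 (cons (fin 845 3 844)
(mv 848 (cons (fin 847 2 844)
(fin 849 2 845)))))))))))))
(mv 843 (cons (fin 844 3 843)
(mv 907 (cons (fin 842 3 842)
(mv 970 (cons (fin 971 1 906)
(mv 906 (cons (fin 969 1 905)
(fin 1034 6 842))))))))))
(cons (mv 971 (cons (fin 972 1 907)
(mv 907 (cons (fin 970 1 906)
(mv 843 (cons (fin 842 3 842)
(mv 1035 (cons (fin 1034 5 842)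
(fin 1036 4 843)))))))))
(cons (mv 972 (cons (fin 971 1 907)
(mv 1036 (cons (fin 844 4 844)
(fin 845 6 844)))))
(mv 844 (cons (fin 843 3 843)
(mv 1036 (cons (fin 972 4 844)
(mv 912 (cons (fin 845 3 844)
(mv 848 (cons (fin 847 2 844)
(fin 849 2 845))))))))))))))
(cons (mv 845 (cons (fin 1102 7 845)
(mv 912 (cons (fin 844 3 844)
(mv 976 (cons (fin 977 0 909)
(mv 849 (cons (fin 848 2 845)
(mv 913 (cons (fin 850 2 846)
(fin 1104 6 848)))))))))))
(mv 847 (cons (fin 1102 6 846)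
(mv 908 (cons (fin 848 2 844)
(mv 971 (cons (fin 972 1 907)
(mv 907 (cons (fin 970 1 906)
(mv 843 (cons (fin 842 3 842)
(fin 844 3 843))))))))))))))))))))
(cons (mv 1165 (cons (fin 1229 6 973)
(mv 973 (cons (cons (mv 1230 (cons (fin 1166 4 973)
(mv 972 (cons (fin 908 7 908)
(mv 971 (cons (fin 970 0 970)
(mv 1035 (cons (fin 1034 1 970)
(mv 907 (cons (fin 906 3 906)
(mv 843 (cons (fin 1036 4 843)
(mv 844 (cons (fin 780 6 779)
(mv 778 (cons (fin 842 7 778)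
(mv 779 (cons (fin 714 7 714)
(mv 845 (cons (fin 846 3 778)
(mv 909 (cons (fin 1102 4 845)
(fin 781 4 781)))))))))))))))))))))))
(mv 972 (cons (fin 908 7 908)
(mv 971 (cons (fin 970 0 970)
(mv 1035 (cons (fin 1034 1 970)
(mv 907 (cons (fin 906 3 906)
(mv 843 (cons (fin 1036 4 843)
(mv 844 (cons (fin 780 6 779)
(mv 778 (cons (fin 842 7 778)
(mv 779 (cons (fin 714 7 714)
(mv 845 (cons (fin 846 3 778)
(mv 909 (cons (fin 1102 4 845)
(fin 781 4 781))))))))))))))))))))))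
(cons (mv 1166 (cons (fin 1230 4 973)
(mv 1167 (cons (fin 1168 3 1100)
(mv 1102 (cons (fin 909 7 909)
(fin 1231 4 974)))))))
(mv 1230 (cons (fin 1166 4 973)
(mv 972 (cons (fin 908 7 908)
(mv 971 (cons (fin 970 0 970)
(mv 1035 (cons (fin 1034 1 970)
(mv 907 (cons (fin 906 3 906)
(mv 843 (cons (fin 1036 4 843)
(mv 778 (cons (fin 842 7 778)
(mv 779 (cons (fin 714 7 714)
(mv 780 (cons (fin 844 6 779)
(fin 716 6 715))))))))))))))))))))))))
(cons (mv 1165 (cons (fin 1229 6 973)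
(mv 910 (cons (fin 1102 5 909)
(fin 973 6 909)))))
(mv 1165 (cons (fin 1229 6 973)
(mv 910 (cons (fin 846 5 845)
(fin 973 6 909)))))))))))))))))))))))
def l104 : Lem := ⟨13254031944712882724506621310649321556018620670345837899455453023597314721787975009848330616026462815765143756135158089473467252075149308743152655366187148242124071246428482498451210046760672027239036899891323305324899173507745103325308665813954110541579506451753178596634830548552232523722901151470534797188661248, 394905588026741979346683707578318151148226234064247019447717631339139721980463654268056441008698321340480724257398982790063384578401120766618298926867658462389255739795557676816433755460957600183938067581306208280304152615592476791060557019775756359475778408158289086947263990446254654052416220189802585556924824463314126047508891951953910336330282198924371929321212444716371263251819863206034116914112214171588313442877059822066247518319276278918470052697761164296192,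 394905588026741979346683707578318151148226234064247019447717631339139721980463654268056441008698321340480724257398982790063384578401120766618298926867658462389255739795557676816433755460957600183938067581306208280304152615592476791060557019775756359475778408158289086947263990446254654052416220189802585556924824463314126047508891951953910336330282198924371929321212444716371263251819863206034116914112214171588313442877059822066247518319276278918470052697761164296192, 19, 33⟩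
theorem l104_valid : l104.Valid :=
  Lem.valid_of_chk t104 t104_valid [1037, 1040] c104 l104 (by decide +kernel)
end Crest.Agent.SnakyAux
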