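import Crest.Agent.S0047_aux.Checker

set_option autoImplicit false
set_option maxRecDepth 100000
namespace Crest.Agent.SnakyAux
open Cert
def t105 : Tbl := Tbl.nil
theorem t105_valid : t105.Valid := Tbl.valid_nil
def c105 : Cert :=
(mv 1038 (cons (cons (cons (mv 1039 (cons (cons (mv 972 (cons (fin 973 3 972)
(mv 976 (cons (fin 977 2 973)
(mv 1036 (cons (fin 971 3 971)
(fin 975 2 972)))))))
(mv 972 (cons (fin 973 3 972)
(mv 1036 (cons (fin 971 3 971)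
(mv 1100 (cons (fin 1099 1 1035)
(fin 1101 1 1036))))))))
(cons (mv 976 (cons (fin 977 2 973)
(mv 975 (cons (fin 1036 2 972)
(mv 1100 (cons (fin 1101 1 1036)
(mv 1104 (cons (fin 1105 0 1037)
(mv 911 (cons (fin 1168 7 911)
(fin 847 4 847)))))))))))
(mv 972 (cons (fin 973 3 972)
(mv 976 (cons (fin 977 2 973)
(mv 1100 (cons (fin 1101 1 1036)
(mv 1104 (cons (fin 1105 0 1037)
(mv 912 (cons (cons (mv 847 (cons (fin 911 7 847)
(mv 848 (cons (fin 783 7 783)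
(mv 849 (cons (fin 785 6 784)
(fin 913 6 848)))))))
(mv 849 (cons (fin 913 6 848)
(mv 848 (cons (fin 785 6 784)
(mv 783 (cons (fin 847 7 783)
(mv 784 (cons (fin 719 7 719)
(fin 975 5 783))))))))))
(cons (mv 849 (cons (fin 913 6 848)
(mv 848 (cons (fin 785 6 784)
(mv 975 (cons (fin 784 5 783)
(mv 1168 (cons (fin 911 7 911)
(fin 1232 7 975)))))))))
(mv 911 (cons (fin 847 7 847)
(mv 1168 (cons (fin 975 7 911)
(mv 1231 (cons (fin 1167 5 975)
(mv 1232 (cons (fin 1295 5 1039)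
(mv 1233 (cons (fin 1169 4 976)
(fin 1297 4 1040)))))))))))))))))))))))))
(mv 974 (cons (cons (cons (cons (mv 1101 (cons (cons (mv 910 (cons (fin 846 5 845)
(mv 1165 (cons (fin 1102 5 909)
(fin 973 6 909)))))
(mv 910 (cons (fin 846 5 845)
(mv 1102 (cons (cons (mv 845 (cons (fin 909 7 845)
(mv 911 (cons (fin 847 6 846)
(mv 975 (cons (fin 1166 6 910)
(mv 976 (cons (fin 977 1 973)
(mv 1036 (cons (fin 973 1 972)
(fin 1035 2 971)))))))))))
(cons (mv 911 (cons (fin 847 6 846)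
(mv 975 (cons (fin 1166 6 910)
(mv 976 (cons (fin 977 1 973)
(mv 1036 (cons (fin 973 1 972)
(fin 1035 2 971)))))))))
(mv 909 (cons (fin 845 7 845)
(mv 973 (cons (fin 1166 7 909)
(mv 844 (cons (fin 908 7 844)
(mv 1100 (cons (fin 1164 5 908)
(mv 1099 (cons (fin 1098 2 1034)
(mv 1035 (cons (fin 1034 3 1034)
(mv 1036 (cons (fin 975 2 971)
(mv 970 (cons (fin 971 3 970)
(mv 1163 (cons (fin 1162 1 1098)
(mv 1227 (cons (fin 972 6 971)
(fin 1291 6 1035)))))))))))))))))))))))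
(cons (mv 847 (cons (fin 911 6 846)
(mv 909 (cons (fin 845 7 845)
(mv 973 (cons (cons (mv 844 (cons (fin 908 7 844)
(mv 1100 (cons (fin 1164 5 908)
(mv 1099 (cons (fin 1098 2 1034)
(mv 1035 (cons (fin 1034 3 1034)
(mv 1036 (cons (fin 975 2 971)
(mv 970 (cons (fin 971 3 970)
(mv 1163 (cons (fin 1162 1 1098)
(mv 1227 (cons (fin 972 6 971)
(fin 1291 6 1035)))))))))))))))))
(mv 1100 (cons (fin 1164 5 908)
(mv 1099 (cons (fin 1098 2 1034)
(mv 1035 (cons (fin 1034 3 1034)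
(mv 1036 (cons (fin 975 2 971)
(mv 970 (cons (fin 971 3 970)
(mv 1163 (cons (fin 1162 1 1098)
(mv 1227 (cons (fin 972 6 971)
(fin 1291 6 1035))))))))))))))))
(cons (mv 908 (cons (fin 844 7 844)
(mv 907 (cons (fin 906 0 906)
(fin 975 0 907)))))
(mv 908 (cons (fin 844 7 844)
(mv 906 (cons (fin 907 0 906)
(mv 1100 (cons (fin 1164 5 908)
(mv 1099 (cons (fin 1098 2 1034)
(mv 1035 (cons (fin 1034 3 1034)
(mv 1163 (cons (fin 1162 1 1098)
(mv 971 (cons (fin 970 7 906)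
(fin 972 6 907))))))))))))))))))))))
(cons (mv 845 (cons (fin 909 7 845)
(mv 911 (cons (fin 847 6 846)
(mv 1166 (cons (fin 975 6 910)
(mv 1230 (cons (fin 1294 7 1037)
(mv 1231 (cons (fin 1167 4 974)
(fin 1295 4 1038)))))))))))
(mv 847 (cons (fin 911 6 846)
(mv 909 (cons (fin 845 7 845)
(mv 973 (cons (fin 1166 7 909)
(mv 908 (cons (fin 844 7 844)
(mv 906 (cons (fin 907 0 906)
(mv 1100 (cons (fin 1164 5 908)
(mv 1099 (cons (fin 1098 2 1034)
(mv 1035 (cons (fin 1034 3 1034)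
(mv 1163 (cons (fin 1162 1 1098)
(mv 971 (cons (fin 970 7 906)
(fin 972 6 907))))))))))))))))))))))))))))
(cons (mv 1165 (cons (fin 1229 6 973)
(mv 973 (cons (cons (mv 908 (cons (fin 972 7 908)
(mv 909 (cons (fin 844 7 844)
(mv 845 (cons (fin 781 4 781)
(fin 1102 4 845)))))))
(mv 1164 (cons (fin 1228 5 972)
(mv 909 (cons (fin 1100 5 908)
(mv 845 (cons (fin 781 4 781)
(fin 1102 4 845))))))))
(cons (mv 972 (cons (fin 908 7 908)
(mv 971 (cons (fin 970 0 970)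
(mv 906 (cons (fin 907 3 906)
(mv 1035 (cons (fin 1034 1 970)
(mv 975 (cons (fin 1036 1 971)
(mv 911 (cons (fin 912 2 908)
(mv 1166 (cons (fin 1102 6 910)
(fin 1230 4 973)))))))))))))))
(mv 908 (cons (fin 972 7 908)
(mv 909 (cons (fin 844 7 844)
(mv 1164 (cons (fin 1100 5 908)
(fin 1228 5 972))))))))))))
(cons (mv 910 (cons (fin 846 5 845)
(mv 1165 (cons (fin 1102 5 909)
(fin 1229 6 973)))))
(mv 910 (cons (fin 846 5 845)
(mv 1165 (cons (fin 973 6 909)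
(fin 1229 6 973)))))))))
(mv 973 (cons (cons (cons (mv 975 (cons (mv 976 (cons (fin 1036 1 972)
(fin 977 1 973)))
(cons (mv 1035 (cons (fin 1036 2 971)
(mv 972 (cons (mv 971 (cons (fin 1034 1 970)
(fin 970 0 970)))
(mv 907 (cons (fin 908 3 907)
(mv 911 (cons (fin 912 2 908)
(mv 847 (cons (fin 783 5 782)
(mv 1102 (cons (fin 910 6 846)
(fin 1166 6 910)))))))))))))
(mv 976 (cons (fin 977 1 973)
(mv 908 (cons (fin 909 3 908)
(mv 912 (cons (fin 913 2 909)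
(mv 972 (cons (fin 907 3 907)
(fin 911 2 908))))))))))))
(mv 910 (cons (cons (mv 846 (cons (fin 782 5 781)
(mv 781 (cons (fin 845 7 781)
(mv 847 (cons (fin 783 6 782)
(mv 911 (cons (fin 1102 6 846)
(mv 912 (cons (fin 913 1 909)
(mv 972 (cons (fin 909 1 908)
(fin 971 2 907)))))))))))))
(cons (mv 909 (cons (mv 845 (cons (fin 1102 7 845)
(fin 781 4 781)))
(cons (mv 1102 (cons (fin 1166 7 909)
(mv 911 (cons (fin 847 6 846)
(mv 912 (cons (fin 972 1 908)
(fin 913 1 909)))))))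
(mv 845 (cons (fin 781 4 781)
(mv 780 (cons (fin 844 7 780)
(mv 1036 (cons (fin 1100 5 844)
(mv 1035 (cons (fin 1034 2 970)
(mv 971 (cons (fin 970 3 970)
(mv 911 (cons (fin 972 2 907)
(mv 912 (cons (fin 913 1 909)
(mv 848 (cons (fin 849 2 845)
(mv 847 (cons (fin 908 2 844)
(mv 783 (cons (fin 976 7 783)
(fin 719 5 718))))))))))))))))))))))))
(mv 846 (cons (fin 782 5 781)
(mv 783 (cons (fin 847 6 782)
(mv 845 (cons (fin 781 7 781)
(mv 909 (cons (cons (mv 780 (cons (fin 844 7 780)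
(mv 1036 (cons (fin 1100 5 844)
(mv 1035 (cons (fin 1034 2 970)
(mv 971 (cons (fin 970 3 970)
(mv 972 (cons (fin 911 2 907)
(mv 906 (cons (fin 907 3 906)
(mv 1099 (cons (fin 1098 1 1034)
(mv 1163 (cons (fin 908 6 907)
(fin 1227 6 971)))))))))))))))))
(mv 1036 (cons (fin 1100 5 844)
(mv 1035 (cons (fin 1034 2 970)
(mv 971 (cons (fin 970 3 970)
(mv 972 (cons (fin 911 2 907)
(mv 906 (cons (fin 907 3 906)
(mv 1099 (cons (fin 1098 1 1034)
(mv 1163 (cons (fin 908 6 907)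
(fin 1227 6 971))))))))))))))))
(cons (mv 844 (cons (fin 780 7 780)
(mv 843 (cons (fin 842 0 842)
(fin 911 0 843)))))
(mv 844 (cons (fin 780 7 780)
(mv 842 (cons (fin 843 0 842)
(mv 1036 (cons (fin 1100 5 844)
(mv 1035 (cons (fin 1034 2 970)
(mv 971 (cons (fin 970 3 970)
(mv 1099 (cons (fin 1098 1 1034)
(mv 907 (cons (fin 906 7 842)
(fin 908 6 843))))))))))))))))))))))))))
(cons (cons (mv 846 (cons (fin 782 5 781)
(mv 845 (cons (fin 781 7 781)
(mv 847 (cons (fin 783 6 782)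
(mv 911 (cons (fin 1102 6 846)
(mv 844 (cons (fin 843 0 843)
(fin 912 0 844)))))))))))
(mv 846 (cons (fin 782 5 781)
(mv 847 (cons (fin 783 6 782)
(mv 911 (cons (fin 1102 6 846)
(mv 912 (cons (fin 913 1 909)
(mv 972 (cons (fin 909 1 908)
(fin 971 2 907))))))))))))
(cons (mv 846 (cons (fin 782 5 781)
(mv 783 (cons (fin 847 6 782)
(mv 845 (cons (fin 781 7 781)
(mv 909 (cons (fin 1102 7 845)
(mv 844 (cons (fin 780 7 780)
(mv 842 (cons (fin 843 0 842)
(mv 1036 (cons (fin 1100 5 844)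
(mv 1035 (cons (fin 1034 2 970)
(mv 971 (cons (fin 970 3 970)
(mv 1099 (cons (fin 1098 1 1034)
(mv 907 (cons (fin 906 7 842)
(fin 908 6 843)))))))))))))))))))))))
(mv 846 (cons (fin 782 5 781)
(mv 845 (cons (fin 781 7 781)
(mv 909 (cons (fin 1102 7 845)
(mv 780 (cons (fin 844 7 780)
(mv 1036 (cons (fin 1100 5 844)
(mv 1035 (cons (fin 1034 2 970)
(mv 971 (cons (fin 970 3 970)
(mv 972 (cons (fin 911 2 907)
(mv 906 (cons (fin 907 3 906)
(mv 1099 (cons (fin 1098 1 1034)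
(mv 1163 (cons (fin 908 6 907)
(fin 1227 6 971))))))))))))))))))))))))))))
(cons (mv 975 (cons (mv 976 (cons (fin 1036 1 972)
(fin 977 1 973)))
(cons (mv 976 (cons (fin 977 1 973)
(mv 912 (cons (fin 913 2 909)
(mv 911 (cons (fin 972 2 908)
(mv 847 (cons (fin 1104 7 847)
(fin 783 5 782)))))))))
(mv 1035 (cons (fin 1036 2 971)
(mv 972 (cons (mv 971 (cons (fin 1034 1 970)
(fin 970 0 970)))
(mv 907 (cons (fin 908 3 907)
(mv 911 (cons (fin 912 2 908)
(mv 847 (cons (fin 783 5 782)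
(mv 1102 (cons (fin 910 6 846)
(fin 1166 6 910))))))))))))))))
(cons (mv 910 (cons (cons (cons (mv 846 (cons (fin 782 5 781)
(mv 781 (cons (fin 845 7 781)
(mv 847 (cons (fin 783 6 782)
(mv 911 (cons (fin 1102 6 846)
(mv 912 (cons (fin 913 1 909)
(mv 972 (cons (fin 909 1 908)
(fin 971 2 907)))))))))))))
(mv 1102 (cons (mv 909 (cons (fin 845 7 845)
(fin 1166 7 909)))
(cons (mv 911 (cons (fin 847 6 846)
(mv 1166 (cons (fin 1230 7 973)
(fin 975 6 910)))))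
(mv 845 (cons (fin 909 7 845)
(mv 911 (cons (fin 847 6 846)
(mv 912 (cons (fin 913 1 909)
(mv 972 (cons (fin 971 2 907)
(fin 975 2 908)))))))))))))
(cons (mv 846 (cons (fin 782 5 781)
(mv 783 (cons (fin 847 6 782)
(mv 845 (cons (fin 781 7 781)
(mv 911 (cons (cons (mv 843 (cons (fin 844 0 843)
(mv 912 (cons (fin 913 3 845)
(mv 972 (cons (fin 909 1 908)
(fin 971 2 907)))))))
(mv 844 (cons (fin 843 0 843)
(mv 780 (cons (fin 909 7 780)
(mv 972 (cons (fin 971 2 907)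
(fin 908 4 780))))))))
(cons (mv 844 (cons (fin 843 0 843)
(mv 909 (cons (fin 912 3 844)
(fin 780 7 780)))))
(cons (mv 912 (cons (fin 913 3 845)
(mv 972 (cons (fin 909 1 908)
(fin 971 2 907)))))
(mv 843 (cons (fin 844 0 843)
(mv 912 (cons (fin 913 3 845)
(mv 972 (cons (fin 971 2 907)
(fin 975 2 908)))))))))))))))))
(mv 846 (cons (fin 782 5 781)
(mv 781 (cons (fin 845 7 781)
(mv 847 (cons (fin 783 6 782)
(mv 911 (cons (fin 1102 6 846)
(mv 912 (cons (fin 913 1 909)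
(mv 972 (cons (fin 971 2 907)
(fin 975 2 908)))))))))))))))
(cons (cons (mv 846 (cons (fin 782 5 781)
(mv 847 (cons (fin 783 6 782)
(mv 911 (cons (fin 1102 6 846)
(mv 912 (cons (fin 913 1 909)
(mv 972 (cons (fin 909 1 908)
(fin 971 2 907)))))))))))
(mv 846 (cons (fin 782 5 781)
(mv 783 (cons (fin 847 6 782)
(mv 845 (cons (fin 781 7 781)
(mv 909 (cons (fin 1102 7 845)
(mv 844 (cons (fin 780 7 780)
(mv 843 (cons (fin 842 0 842)
(mv 778 (cons (fin 779 3 778)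
(mv 907 (cons (fin 906 1 842)
(mv 908 (cons (fin 975 0 907)
(mv 971 (cons (fin 970 1 906)
(mv 1035 (cons (fin 1099 6 843)
(mv 1034 (cons (fin 972 1 970)
(fin 1098 5 842))))))))))))))))))))))))))
(cons (mv 846 (cons (fin 782 5 781)
(mv 781 (cons (fin 845 7 781)
(mv 847 (cons (fin 783 6 782)
(mv 911 (cons (fin 1102 6 846)
(mv 912 (cons (fin 913 1 909)
(mv 976 (cons (fin 1104 7 847)
(mv 977 (cons (fin 975 1 973)
(fin 909 0 909)))))))))))))))
(mv 846 (cons (fin 782 5 781)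
(mv 845 (cons (fin 781 7 781)
(mv 909 (cons (fin 1102 7 845)
(mv 844 (cons (fin 780 7 780)
(mv 843 (cons (fin 842 0 842)
(fin 911 0 843)))))))))))))))
(mv 975 (cons (mv 976 (cons (fin 1036 1 972)
(fin 977 1 973)))
(cons (mv 1036 (cons (fin 1035 2 971)
(mv 972 (cons (mv 907 (cons (fin 908 3 907)
(mv 971 (cons (fin 906 3 906)
(fin 970 0 970)))))
(cons (mv 908 (cons (fin 907 3 907)
(mv 844 (cons (fin 780 4 780)
(mv 779 (cons (fin 843 7 779)
(mv 845 (cons (fin 781 6 780)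
(mv 909 (cons (fin 1100 5 844)
(mv 846 (cons (fin 782 6 781)
(mv 847 (cons (fin 848 1 844)
(mv 783 (cons (fin 784 2 780)
(fin 911 5 782)))))))))))))))))
(mv 911 (cons (fin 912 2 908)
(mv 971 (cons (fin 910 2 907)
(fin 970 0 970))))))))))
(mv 976 (cons (fin 977 1 973)
(mv 908 (cons (fin 909 3 908)
(mv 912 (cons (fin 913 2 909)
(mv 972 (cons (fin 907 3 907)
(fin 911 2 908)))))))))))))))
(cons (cons (mv 1102 (cons (mv 909 (cons (fin 1166 7 909)
(fin 845 4 845)))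
(cons (mv 845 (cons (fin 909 4 845)
(mv 910 (cons (mv 846 (cons (fin 781 7 781)
(fin 782 5 781)))
(mv 911 (cons (fin 847 6 846)
(mv 912 (cons (fin 913 1 909)
(mv 972 (cons (fin 971 2 907)
(fin 975 2 908)))))))))))
(mv 1166 (cons (fin 1230 7 973)
(mv 975 (cons (fin 911 6 910)
(mv 976 (cons (fin 1036 1 972)
(fin 977 1 973))))))))))
(mv 1102 (cons (mv 909 (cons (fin 1166 7 909)
(fin 845 4 845)))
(cons (mv 845 (cons (fin 909 4 845)
(mv 910 (cons (mv 846 (cons (fin 781 7 781)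
(fin 782 5 781)))
(mv 911 (cons (fin 847 6 846)
(mv 912 (cons (fin 913 1 909)
(mv 972 (cons (fin 971 2 907)
(fin 975 2 908)))))))))))
(mv 1166 (cons (fin 1230 7 973)
(mv 975 (cons (fin 911 6 910)
(mv 1165 (cons (fin 1229 5 973)
(mv 1167 (cons (fin 1231 4 974)
(mv 1164 (cons (cons (mv 1035 (cons (fin 1036 2 971)
(mv 1099 (cons (fin 1100 3 1099)
(mv 1163 (cons (fin 1098 3 1098)
(mv 1227 (cons (fin 1226 1 1162)
(fin 1228 1 1163)))))))))
(cons (mv 1099 (cons (fin 1100 3 1099)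
(mv 1163 (cons (fin 1098 3 1098)
(mv 1227 (cons (fin 1226 1 1162)
(fin 1228 1 1163)))))))
(mv 1036 (cons (fin 1035 2 971)
(mv 1228 (cons (fin 1227 1 1163)
(fin 1100 6 972)))))))
(cons (mv 1035 (cons (fin 1036 2 971)
(mv 1099 (cons (fin 1100 3 1099)
(mv 1163 (cons (fin 1098 3 1098)
(mv 1226 (cons (fin 1227 1 1162)
(mv 1162 (cons (fin 1225 1 1161)
(fin 971 5 970)))))))))))
(cons (mv 1035 (cons (fin 1036 2 971)
(mv 1227 (cons (fin 1228 1 1163)
(mv 1163 (cons (fin 1226 1 1162)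
(mv 1099 (cons (fin 1098 3 1098)
(mv 970 (cons (fin 1034 7 970)
(mv 971 (cons (fin 972 0 970)
(fin 906 7 906)))))))))))))
(mv 1035 (cons (fin 1036 2 971)
(mv 1099 (cons (fin 1100 3 1099)
(mv 1163 (cons (fin 1098 3 1098)
(mv 971 (cons (fin 1228 4 971)
(mv 970 (cons (fin 972 0 970)
(fin 906 7 906)))))))))))))))))))))))))))
(cons (mv 1102 (cons (mv 909 (cons (fin 1166 7 909)
(fin 845 4 845)))
(cons (mv 910 (cons (cons (mv 782 (cons (fin 846 5 781)
(mv 909 (cons (fin 845 7 845)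
(mv 911 (cons (fin 847 6 846)
(mv 912 (cons (fin 913 1 909)
(mv 848 (cons (fin 849 2 845)
(mv 976 (cons (fin 977 0 909)
(mv 975 (cons (fin 908 3 908)
(fin 1036 1 972)))))))))))))))
(mv 846 (cons (fin 782 5 781)
(mv 847 (cons (fin 783 6 782)
(fin 911 6 846))))))
(cons (mv 909 (cons (fin 845 7 845)
(mv 911 (cons (fin 847 6 846)
(mv 912 (cons (fin 913 1 909)
(mv 848 (cons (fin 849 2 845)
(mv 976 (cons (fin 977 0 909)
(mv 975 (cons (fin 908 3 908)
(fin 1036 1 972)))))))))))))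
(mv 845 (cons (fin 909 7 845)
(mv 846 (cons (fin 781 7 781)
(fin 782 5 781))))))))
(mv 1166 (cons (fin 1230 7 973)
(mv 975 (cons (fin 911 6 910)
(mv 976 (cons (fin 1036 1 972)
(fin 977 1 973))))))))))
(cons (mv 975 (cons (mv 976 (cons (fin 1036 1 972)
(fin 977 1 973)))
(cons (mv 976 (cons (fin 977 1 973)
(mv 908 (cons (fin 909 3 908)
(mv 912 (cons (fin 913 2 909)
(mv 972 (cons (fin 907 3 907)
(fin 911 2 908)))))))))
(mv 972 (cons (mv 907 (cons (fin 908 3 907)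
(mv 971 (cons (fin 906 3 906)
(fin 970 0 970)))))
(cons (mv 908 (cons (fin 907 3 907)
(mv 844 (cons (fin 780 4 780)
(mv 911 (cons (fin 912 2 908)
(mv 783 (cons (fin 847 5 782)
(mv 1036 (cons (fin 1035 1 971)
(mv 779 (cons (fin 843 7 779)
(mv 845 (cons (fin 781 6 780)
(mv 909 (cons (fin 1100 5 844)
(fin 1102 4 845)))))))))))))))))
(mv 911 (cons (fin 912 2 908)
(mv 783 (cons (fin 847 5 782)
(mv 971 (cons (fin 970 0 970)
(mv 1035 (cons (fin 1034 1 970)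
(fin 1036 1 971)))))))))))))))
(mv 975 (cons (mv 976 (cons (fin 1036 1 972)
(fin 977 1 973)))
(cons (mv 976 (cons (fin 977 1 973)
(mv 909 (cons (fin 908 3 908)
(mv 845 (cons (fin 781 4 781)
(fin 1102 4 845)))))))
(mv 972 (cons (mv 907 (cons (fin 908 3 907)
(mv 971 (cons (fin 906 3 906)
(fin 970 0 970)))))
(cons (mv 908 (cons (fin 907 3 907)
(mv 844 (cons (fin 780 4 780)
(mv 1036 (cons (fin 1035 1 971)
(mv 779 (cons (fin 843 7 779)
(mv 845 (cons (fin 781 6 780)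
(mv 909 (cons (fin 1100 5 844)
(fin 1102 4 845)))))))))))))
(mv 971 (cons (fin 970 0 970)
(mv 1035 (cons (fin 1034 1 970)
(fin 1036 1 971)))))))))))))))))
(cons (mv 910 (cons (cons (mv 846 (cons (fin 1101 5 845)
(mv 781 (cons (fin 845 7 781)
(mv 782 (cons (fin 717 7 717)
(fin 973 5 781)))))))
(mv 1102 (cons (cons (mv 845 (cons (fin 909 7 845)
(mv 847 (cons (fin 911 6 846)
(mv 1165 (cons (fin 1101 5 909)
(mv 1166 (cons (fin 1229 5 973)
(mv 1230 (cons (fin 973 7 973)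
(mv 1231 (cons (fin 1167 4 974)
(fin 1295 4 1038)))))))))))))
(cons (mv 847 (cons (fin 911 6 846)
(mv 909 (cons (fin 845 7 845)
(mv 1166 (cons (fin 973 7 909)
(mv 1231 (cons (fin 1167 4 974)
(mv 1230 (cons (fin 1295 4 1038)
(mv 1293 (cons (fin 1229 5 1037)
(mv 1294 (cons (fin 1101 7 1037)
(fin 1357 5 1101)))))))))))))))
(mv 847 (cons (fin 911 6 846)
(mv 909 (cons (fin 845 7 845)
(mv 1166 (cons (fin 973 7 909)
(mv 1229 (cons (fin 1165 5 973)
(mv 1230 (cons (fin 1293 5 1037)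
(mv 1231 (cons (fin 1167 4 974)
(fin 1295 4 1038)))))))))))))))
(cons (cons (mv 847 (cons (fin 911 6 846)
(mv 1165 (cons (fin 1101 5 909)
(mv 1166 (cons (fin 1229 5 973)
(mv 1230 (cons (fin 973 7 973)
(mv 1231 (cons (fin 1167 4 974)
(fin 1295 4 1038)))))))))))
(mv 845 (cons (fin 909 7 845)
(mv 1165 (cons (fin 1101 5 909)
(mv 1166 (cons (fin 1229 5 973)
(mv 1230 (cons (fin 973 7 973)
(mv 1231 (cons (fin 1167 4 974)
(fin 1295 4 1038))))))))))))
(cons (mv 845 (cons (fin 909 7 845)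
(mv 847 (cons (fin 911 6 846)
(mv 1166 (cons (cons (mv 1165 (cons (fin 1101 5 909)
(fin 1229 5 973)))
(mv 1231 (cons (fin 1167 4 974)
(mv 1230 (cons (fin 1295 4 1038)
(mv 1293 (cons (fin 1229 5 1037)
(mv 1294 (cons (fin 1101 7 1037)
(fin 1357 5 1101))))))))))
(cons (mv 1229 (cons (fin 1165 5 973)
(mv 1230 (cons (fin 1293 5 1037)
(mv 1231 (cons (fin 1167 4 974)
(fin 1295 4 1038)))))))
(mv 1101 (cons (fin 1165 5 909)
(mv 1230 (cons (fin 1294 7 1037)
(mv 1231 (cons (fin 1167 4 974)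
(fin 1295 4 1038))))))))))))))
(mv 909 (cons (fin 845 7 845)
(mv 911 (cons (fin 847 6 846)
(mv 1101 (cons (fin 1165 5 909)
(mv 973 (cons (mv 912 (cons (fin 972 1 908)
(fin 913 1 909)))
(cons (mv 908 (cons (fin 844 7 844)
(mv 907 (cons (fin 906 0 906)
(mv 843 (cons (fin 842 3 842)
(mv 912 (cons (fin 913 1 909)
(mv 848 (cons (fin 849 2 845)
(mv 971 (cons (fin 970 1 906)
(mv 976 (cons (fin 977 0 909)
(mv 1100 (cons (fin 1164 5 908)
(mv 1035 (cons (fin 1036 4 843)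
(mv 1034 (cons (fin 1099 3 1034)
(fin 1098 5 842)))))))))))))))))))))
(mv 844 (cons (fin 908 7 844)
(mv 971 (cons (fin 972 2 907)
(mv 1100 (cons (fin 1164 5 908)
(mv 1099 (cons (fin 1098 2 1034)
(mv 1035 (cons (fin 1034 3 1034)
(mv 970 (cons (fin 1036 3 970)
(mv 1163 (cons (fin 1162 1 1098)
(fin 906 7 906)))))))))))))))))))))))))))))
(cons (mv 846 (cons (mv 781 (cons (fin 845 7 781)
(mv 782 (cons (fin 717 7 717)
(fin 973 5 781)))))
(cons (mv 845 (cons (fin 781 7 781)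
(mv 847 (cons (fin 783 6 782)
(mv 1102 (cons (fin 909 7 845)
(fin 911 6 846)))))))
(mv 782 (cons (fin 973 5 781)
(mv 783 (cons (fin 719 6 718)
(fin 847 6 782))))))))
(cons (mv 846 (cons (fin 1101 5 845)
(mv 781 (cons (fin 845 7 781)
(mv 782 (cons (fin 717 7 717)
(mv 783 (cons (fin 719 6 718)
(fin 847 6 782)))))))))
(mv 846 (cons (fin 1101 5 845)
(mv 782 (cons (fin 973 5 781)
(mv 783 (cons (fin 719 6 718)
(fin 847 6 782)))))))))))
(mv 973 (cons (cons (cons (mv 909 (cons (mv 845 (cons (fin 781 4 781)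
(fin 1102 4 845)))
(cons (mv 1102 (cons (fin 1166 7 909)
(mv 1101 (cons (cons (mv 844 (cons (fin 908 7 844)
(mv 1100 (cons (fin 1164 5 908)
(mv 1099 (cons (fin 1098 2 1034)
(mv 1035 (cons (fin 1034 3 1034)
(mv 975 (cons (fin 1036 2 971)
(mv 976 (cons (fin 977 1 973)
(mv 912 (cons (fin 913 2 909)
(mv 911 (cons (fin 972 2 908)
(mv 847 (cons (fin 1104 7 847)
(fin 783 5 782)))))))))))))))))))
(mv 1100 (cons (fin 1164 5 908)
(mv 1099 (cons (fin 1098 2 1034)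
(mv 1035 (cons (fin 1034 3 1034)
(mv 975 (cons (fin 1036 2 971)
(mv 976 (cons (fin 977 1 973)
(mv 912 (cons (fin 913 2 909)
(mv 911 (cons (fin 972 2 908)
(mv 847 (cons (fin 1104 7 847)
(fin 783 5 782))))))))))))))))))
(cons (mv 908 (cons (fin 844 7 844)
(mv 1165 (cons (fin 972 7 908)
(fin 1229 6 973)))))
(mv 844 (cons (fin 908 7 844)
(mv 1164 (cons (fin 1100 5 908)
(mv 1165 (cons (fin 1228 5 972)
(fin 1229 6 973))))))))))))
(mv 845 (cons (fin 781 4 781)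
(mv 780 (cons (fin 844 7 780)
(mv 782 (cons (fin 846 6 781)
(mv 1036 (cons (fin 1100 5 844)
(mv 975 (cons (fin 976 1 972)
(fin 1035 2 971))))))))))))))
(mv 975 (cons (mv 976 (cons (fin 1036 1 972)
(fin 977 1 973)))
(cons (mv 976 (cons (fin 977 1 973)
(mv 912 (cons (fin 913 2 909)
(mv 911 (cons (fin 972 2 908)
(mv 847 (cons (fin 1104 7 847)
(fin 783 5 782)))))))))
(mv 972 (cons (mv 907 (cons (fin 908 3 907)
(mv 971 (cons (fin 906 3 906)
(fin 970 0 970)))))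
(cons (mv 908 (cons (fin 907 3 907)
(mv 844 (cons (fin 780 4 780)
(mv 1036 (cons (fin 1035 1 971)
(fin 1101 4 844)))))))
(mv 911 (cons (fin 912 2 908)
(mv 783 (cons (fin 847 5 782)
(mv 971 (cons (fin 970 0 970)
(mv 1035 (cons (fin 1034 1 970)
(fin 1036 1 971))))))))))))))))
(cons (mv 909 (cons (mv 845 (cons (fin 781 4 781)
(fin 1102 4 845)))
(cons (mv 1102 (cons (fin 1166 7 909)
(mv 1101 (cons (cons (mv 844 (cons (fin 908 7 844)
(mv 1164 (cons (fin 1100 5 908)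
(mv 1165 (cons (fin 1228 5 972)
(fin 1229 6 973)))))))
(mv 908 (cons (fin 844 7 844)
(mv 906 (cons (fin 907 0 906)
(mv 1100 (cons (fin 1164 5 908)
(mv 1099 (cons (fin 1098 2 1034)
(mv 1035 (cons (fin 1034 3 1034)
(mv 1163 (cons (fin 1162 1 1098)
(mv 971 (cons (fin 970 7 906)
(fin 972 6 907))))))))))))))))
(cons (mv 1164 (cons (fin 1100 5 908)
(mv 1165 (cons (fin 1228 5 972)
(fin 1229 6 973)))))
(mv 908 (cons (fin 844 7 844)
(mv 1165 (cons (fin 972 7 908)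
(fin 1229 6 973))))))))))
(mv 845 (cons (fin 781 4 781)
(mv 782 (cons (fin 846 6 781)
(mv 844 (cons (fin 780 7 780)
(mv 908 (cons (fin 1101 7 844)
(mv 906 (cons (fin 907 0 906)
(mv 1036 (cons (fin 1100 5 844)
(mv 1035 (cons (fin 1034 2 970)
(mv 1099 (cons (fin 1098 1 1034)
(fin 972 5 843))))))))))))))))))))
(mv 909 (cons (mv 845 (cons (fin 781 4 781)
(fin 1102 4 845)))
(cons (mv 845 (cons (fin 781 4 781)
(mv 782 (cons (fin 846 6 781)
(mv 844 (cons (fin 780 7 780)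
(mv 908 (cons (fin 1101 7 844)
(mv 907 (cons (fin 906 0 906)
(mv 975 (cons (fin 972 3 907)
(fin 976 3 908)))))))))))))
(mv 1102 (cons (fin 1166 7 909)
(mv 1101 (cons (cons (mv 844 (cons (fin 908 7 844)
(mv 1164 (cons (fin 1100 5 908)
(mv 1165 (cons (fin 1228 5 972)
(fin 1229 6 973)))))))
(mv 1164 (cons (fin 1100 5 908)
(mv 1165 (cons (fin 1228 5 972)
(fin 1229 6 973))))))
(cons (mv 908 (cons (fin 844 7 844)
(mv 906 (cons (fin 907 0 906)
(mv 975 (cons (fin 976 3 908)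
(mv 1100 (cons (fin 1164 5 908)
(mv 1099 (cons (fin 1098 2 1034)
(mv 1035 (cons (fin 1034 3 1034)
(mv 1163 (cons (fin 1162 1 1098)
(mv 971 (cons (fin 970 7 906)
(fin 972 6 907)))))))))))))))))
(mv 908 (cons (fin 844 7 844)
(mv 1165 (cons (fin 972 7 908)
(fin 1229 6 973)))))))))))))))
(cons (cons (mv 909 (cons (mv 845 (cons (fin 781 4 781)
(fin 1102 4 845)))
(cons (mv 1102 (cons (fin 1166 7 909)
(mv 1101 (cons (mv 844 (cons (fin 908 7 844)
(mv 1164 (cons (fin 1100 5 908)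
(mv 1165 (cons (fin 1228 5 972)
(fin 1229 6 973)))))))
(cons (mv 1164 (cons (fin 1100 5 908)
(mv 1165 (cons (fin 1228 5 972)
(fin 1229 6 973)))))
(mv 908 (cons (fin 844 7 844)
(mv 907 (cons (fin 906 0 906)
(mv 975 (cons (fin 972 3 907)
(fin 976 3 908))))))))))))
(mv 845 (cons (fin 781 4 781)
(mv 782 (cons (fin 846 6 781)
(mv 844 (cons (fin 780 7 780)
(mv 908 (cons (fin 1101 7 844)
(mv 907 (cons (fin 906 0 906)
(mv 975 (cons (fin 972 3 907)
(fin 976 3 908))))))))))))))))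
(mv 909 (cons (mv 845 (cons (fin 781 4 781)
(fin 1102 4 845)))
(cons (mv 1101 (cons (cons (mv 844 (cons (fin 908 7 844)
(mv 1100 (cons (fin 1164 5 908)
(mv 1098 (cons (fin 1099 2 1034)
(mv 1165 (cons (fin 1229 6 973)
(mv 1166 (cons (fin 1102 7 909)
(fin 1230 4 973)))))))))))
(mv 844 (cons (fin 908 7 844)
(mv 1164 (cons (fin 1100 5 908)
(mv 1165 (cons (fin 1228 5 972)
(fin 1229 6 973))))))))
(cons (mv 908 (cons (fin 844 7 844)
(mv 906 (cons (fin 907 0 906)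
(mv 975 (cons (fin 976 3 908)
(mv 1035 (cons (fin 1036 2 971)
(mv 1100 (cons (fin 1164 5 908)
(mv 1099 (cons (fin 1098 2 1034)
(mv 1102 (cons (fin 1034 3 1034)
(fin 1166 7 909)))))))))))))))
(cons (mv 1100 (cons (fin 1164 5 908)
(mv 1098 (cons (fin 1099 2 1034)
(mv 1165 (cons (fin 1229 6 973)
(mv 1166 (cons (fin 1102 7 909)
(fin 1230 4 973)))))))))
(mv 844 (cons (fin 908 7 844)
(mv 1165 (cons (fin 1229 6 973)
(mv 1166 (cons (fin 1102 7 909)
(fin 1230 4 973)))))))))))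
(mv 845 (cons (fin 781 4 781)
(mv 780 (cons (fin 844 7 780)
(mv 782 (cons (fin 846 6 781)
(mv 1036 (cons (fin 1100 5 844)
(mv 975 (cons (fin 976 1 972)
(fin 1035 2 971)))))))))))))))
(cons (mv 975 (cons (mv 976 (cons (fin 1036 1 972)
(fin 977 1 973)))
(cons (mv 976 (cons (fin 977 1 973)
(mv 908 (cons (fin 909 3 908)
(mv 912 (cons (fin 913 2 909)
(mv 972 (cons (fin 907 3 907)
(fin 911 2 908)))))))))
(mv 972 (cons (mv 907 (cons (fin 908 3 907)
(mv 971 (cons (fin 906 3 906)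
(fin 970 0 970)))))
(cons (mv 908 (cons (fin 907 3 907)
(mv 844 (cons (fin 780 4 780)
(mv 911 (cons (fin 912 2 908)
(mv 783 (cons (fin 847 5 782)
(mv 1036 (cons (fin 1035 1 971)
(mv 779 (cons (fin 843 7 779)
(mv 845 (cons (fin 781 6 780)
(mv 909 (cons (fin 1100 5 844)
(fin 1102 4 845)))))))))))))))))
(mv 911 (cons (fin 912 2 908)
(mv 783 (cons (fin 847 5 782)
(mv 971 (cons (fin 970 0 970)
(mv 1035 (cons (fin 1034 1 970)
(fin 1036 1 971)))))))))))))))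
(cons (mv 909 (cons (mv 845 (cons (fin 781 4 781)
(fin 1102 4 845)))
(cons (mv 1101 (cons (cons (mv 1100 (cons (fin 1164 5 908)
(mv 1098 (cons (fin 1099 2 1034)
(mv 1165 (cons (fin 1229 6 973)
(mv 1166 (cons (fin 1102 7 909)
(fin 1230 4 973)))))))))
(mv 1164 (cons (fin 1100 5 908)
(mv 1165 (cons (fin 1228 5 972)
(fin 1229 6 973))))))
(cons (mv 1100 (cons (fin 1164 5 908)
(mv 1099 (cons (fin 1098 2 1034)
(mv 1102 (cons (fin 1166 7 909)
(mv 1035 (cons (fin 1034 3 1034)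
(mv 975 (cons (fin 1036 2 971)
(mv 976 (cons (fin 977 1 973)
(mv 912 (cons (fin 913 2 909)
(mv 911 (cons (fin 972 2 908)
(mv 847 (cons (fin 1104 7 847)
(fin 783 5 782)))))))))))))))))))
(mv 1165 (cons (fin 1229 6 973)
(mv 1166 (cons (fin 1102 7 909)
(fin 1230 4 973))))))))
(mv 845 (cons (fin 781 4 781)
(mv 780 (cons (fin 844 7 780)
(mv 782 (cons (fin 846 6 781)
(mv 1036 (cons (fin 1100 5 844)
(mv 975 (cons (fin 976 1 972)
(fin 1035 2 971))))))))))))))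
(mv 975 (cons (mv 976 (cons (fin 1036 1 972)
(fin 977 1 973)))
(cons (mv 976 (cons (fin 977 1 973)
(mv 908 (cons (fin 909 3 908)
(mv 912 (cons (fin 913 2 909)
(mv 972 (cons (fin 907 3 907)
(fin 911 2 908)))))))))
(mv 1035 (cons (fin 1036 2 971)
(mv 972 (cons (mv 971 (cons (fin 1034 1 970)
(fin 970 0 970)))
(cons (mv 908 (cons (fin 907 3 907)
(mv 911 (cons (fin 912 2 908)
(mv 783 (cons (fin 847 5 782)
(mv 1101 (cons (fin 1165 7 908)
(mv 1102 (cons (fin 1166 6 910)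
(mv 909 (cons (fin 845 4 845)
(mv 1100 (cons (fin 1164 5 908)
(mv 1099 (cons (fin 1034 3 1034)
(fin 1098 2 1034)))))))))))))))))
(mv 907 (cons (fin 908 3 907)
(mv 971 (cons (fin 906 3 906)
(fin 970 0 970))))))))))))))))))))
(cons (cons (mv 1101 (cons (cons (mv 910 (cons (fin 846 5 845)
(mv 1165 (cons (fin 1102 5 909)
(fin 973 6 909)))))
(mv 910 (cons (fin 846 5 845)
(mv 1102 (cons (cons (mv 845 (cons (fin 909 7 845)
(mv 911 (cons (fin 847 6 846)
(mv 1166 (cons (fin 975 6 910)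
(mv 1230 (cons (fin 973 7 973)
(fin 1294 7 1037)))))))))
(cons (mv 911 (cons (fin 847 6 846)
(mv 1166 (cons (fin 975 6 910)
(mv 1230 (cons (fin 973 7 973)
(fin 1294 7 1037)))))))
(mv 909 (cons (fin 845 7 845)
(mv 973 (cons (fin 1166 7 909)
(mv 908 (cons (fin 844 7 844)
(mv 907 (cons (fin 906 0 906)
(fin 975 0 907)))))))))))
(cons (mv 909 (cons (fin 845 7 845)
(mv 911 (cons (fin 847 6 846)
(mv 973 (cons (mv 912 (cons (fin 972 1 908)
(fin 913 1 909)))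
(mv 908 (cons (fin 844 7 844)
(mv 907 (cons (fin 906 0 906)
(fin 975 0 907)))))))))))
(cons (mv 845 (cons (fin 909 7 845)
(mv 911 (cons (fin 847 6 846)
(mv 1166 (cons (fin 975 6 910)
(mv 1230 (cons (fin 1294 7 1037)
(mv 1231 (cons (fin 1167 4 974)
(fin 1295 4 1038)))))))))))
(mv 847 (cons (fin 911 6 846)
(mv 909 (cons (fin 845 7 845)
(mv 973 (cons (fin 1166 7 909)
(mv 908 (cons (fin 844 7 844)
(mv 906 (cons (fin 907 0 906)
(mv 1100 (cons (fin 1164 5 908)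
(mv 1099 (cons (fin 1098 2 1034)
(mv 1035 (cons (fin 1034 3 1034)
(mv 1163 (cons (fin 1162 1 1098)
(mv 971 (cons (fin 970 7 906)
(fin 972 6 907))))))))))))))))))))))))))))
(cons (mv 1165 (cons (fin 1229 6 973)
(mv 973 (cons (mv 908 (cons (fin 972 7 908)
(mv 909 (cons (fin 844 7 844)
(mv 845 (cons (fin 781 4 781)
(fin 1102 4 845)))))))
(cons (mv 1164 (cons (fin 1228 5 972)
(mv 909 (cons (fin 1100 5 908)
(mv 845 (cons (fin 781 4 781)
(fin 1102 4 845)))))))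
(mv 972 (cons (fin 908 7 908)
(mv 971 (cons (fin 970 0 970)
(mv 907 (cons (fin 906 3 906)
(mv 1035 (cons (fin 1034 1 970)
(mv 1164 (cons (fin 1228 5 972)
(mv 1099 (cons (fin 1100 4 907)
(mv 1098 (cons (fin 1162 5 906)
(mv 1166 (cons (fin 1163 3 1098)
(fin 1230 4 973))))))))))))))))))))))
(cons (mv 910 (cons (fin 846 5 845)
(mv 1165 (cons (fin 1102 5 909)
(fin 1229 6 973)))))
(mv 910 (cons (fin 846 5 845)
(mv 1165 (cons (fin 973 6 909)
(fin 1229 6 973)))))))))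
(mv 975 (cons (cons (mv 976 (cons (fin 977 1 973)
(mv 1036 (cons (fin 973 1 972)
(fin 1035 2 971)))))
(mv 1035 (cons (fin 1036 2 971)
(mv 910 (cons (cons (mv 846 (cons (fin 1101 5 845)
(mv 781 (cons (fin 845 7 781)
(mv 782 (cons (fin 717 7 717)
(fin 973 5 781)))))))
(mv 1102 (cons (mv 911 (cons (fin 847 6 846)
(fin 1166 6 910)))
(cons (mv 909 (cons (fin 845 7 845)
(mv 907 (cons (fin 908 0 907)
(mv 1166 (cons (fin 973 7 909)
(mv 1231 (cons (fin 1167 4 974)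
(mv 1230 (cons (fin 1295 4 1038)
(mv 1293 (cons (fin 1229 5 1037)
(mv 1294 (cons (fin 1101 7 1037)
(fin 1357 5 1101)))))))))))))))
(mv 909 (cons (fin 845 7 845)
(mv 908 (cons (fin 907 0 907)
(mv 911 (cons (fin 847 6 846)
(mv 843 (cons (fin 844 3 843)
(mv 972 (cons (fin 971 1 907)
(mv 912 (cons (fin 973 1 908)
(mv 849 (cons (fin 848 2 845)
(mv 913 (cons (fin 914 1 910)
(fin 850 2 846)))))))))))))))))))))
(cons (mv 1102 (cons (mv 911 (cons (fin 847 6 846)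
(fin 1166 6 910)))
(cons (mv 845 (cons (fin 909 7 845)
(mv 846 (cons (fin 781 7 781)
(mv 782 (cons (fin 973 5 781)
(mv 783 (cons (fin 719 6 718)
(fin 847 6 782)))))))))
(mv 845 (cons (fin 909 7 845)
(mv 781 (cons (fin 846 7 781)
(mv 1166 (cons (fin 911 6 910)
(mv 1230 (cons (fin 973 7 973)
(mv 1231 (cons (fin 1167 4 974)
(fin 1295 4 1038))))))))))))))
(cons (mv 846 (cons (fin 1101 5 845)
(mv 782 (cons (fin 973 5 781)
(mv 783 (cons (fin 719 6 718)
(fin 847 6 782)))))))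
(mv 846 (cons (fin 1101 5 845)
(mv 781 (cons (fin 845 7 781)
(mv 782 (cons (fin 717 7 717)
(mv 783 (cons (fin 719 6 718)
(fin 847 6 782))))))))))))))))
(cons (mv 976 (cons (fin 977 1 973)
(mv 911 (cons (mv 847 (cons (fin 783 5 782)
(mv 1102 (cons (fin 910 6 846)
(fin 1166 6 910)))))
(cons (mv 1102 (cons (fin 1166 6 910)
(mv 1104 (cons (fin 1168 7 911)
(mv 912 (cons (mv 913 (cons (fin 914 1 910)
(fin 973 2 909)))
(cons (mv 973 (cons (fin 972 2 908)
(mv 909 (cons (fin 908 3 908)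
(fin 845 4 845)))))
(mv 913 (cons (fin 914 1 910)
(fin 849 6 848))))))))))
(mv 847 (cons (fin 783 5 782)
(mv 1104 (cons (fin 912 7 847)
(fin 1168 7 911))))))))))
(mv 976 (cons (fin 977 1 973)
(mv 1035 (cons (fin 1036 2 971)
(mv 910 (cons (cons (mv 846 (cons (fin 1101 5 845)
(mv 781 (cons (fin 845 7 781)
(mv 717 (cons (fin 782 7 717)
(mv 847 (cons (fin 783 6 782)
(mv 911 (cons (fin 1102 6 846)
(mv 1104 (cons (fin 912 7 847)
(fin 1168 7 911)))))))))))))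
(cons (mv 911 (cons (mv 847 (cons (fin 783 5 782)
(fin 1102 6 846)))
(cons (mv 909 (cons (fin 908 0 908)
(mv 1102 (cons (fin 845 7 845)
(fin 1166 6 910)))))
(mv 847 (cons (fin 783 5 782)
(mv 1104 (cons (fin 912 7 847)
(fin 1168 7 911))))))))
(mv 846 (cons (fin 1101 5 845)
(mv 781 (cons (fin 845 7 781)
(mv 782 (cons (fin 717 7 717)
(mv 783 (cons (fin 719 6 718)
(fin 847 6 782)))))))))))
(cons (mv 846 (cons (fin 1101 5 845)
(mv 781 (cons (fin 845 7 781)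
(mv 782 (cons (fin 717 7 717)
(mv 718 (cons (fin 911 4 718)
(mv 719 (cons (fin 655 6 654)
(fin 783 6 718)))))))))))
(cons (mv 846 (cons (fin 1101 5 845)
(mv 781 (cons (fin 845 7 781)
(mv 782 (cons (fin 717 7 717)
(mv 911 (cons (fin 718 4 718)
(mv 1102 (cons (fin 847 6 846)
(fin 1166 6 910)))))))))))
(mv 846 (cons (fin 1101 5 845)
(mv 783 (cons (fin 847 6 782)
(mv 782 (cons (fin 719 6 718)
(mv 717 (cons (fin 781 7 717)
(mv 718 (cons (fin 653 7 653)
(fin 911 4 718)))))))))))))))))))))))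
(cons (mv 1101 (cons (cons (mv 910 (cons (fin 846 5 845)
(mv 1165 (cons (fin 1102 5 909)
(fin 973 6 909)))))
(mv 910 (cons (fin 846 5 845)
(mv 1102 (cons (cons (mv 845 (cons (fin 909 7 845)
(mv 911 (cons (fin 847 6 846)
(mv 975 (cons (fin 1166 6 910)
(mv 976 (cons (fin 977 1 973)
(mv 973 (cons (fin 1036 1 972)
(mv 912 (cons (fin 913 1 909)
(fin 972 2 908)))))))))))))
(cons (mv 911 (cons (fin 847 6 846)
(mv 975 (cons (fin 1166 6 910)
(mv 976 (cons (fin 977 1 973)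
(mv 973 (cons (fin 1036 1 972)
(mv 912 (cons (fin 913 1 909)
(fin 972 2 908)))))))))))
(mv 909 (cons (fin 845 7 845)
(mv 973 (cons (fin 1166 7 909)
(mv 908 (cons (fin 844 7 844)
(mv 907 (cons (fin 906 0 906)
(fin 975 0 907)))))))))))
(cons (mv 909 (cons (fin 845 7 845)
(mv 911 (cons (fin 847 6 846)
(mv 973 (cons (mv 912 (cons (fin 972 1 908)
(fin 913 1 909)))
(mv 908 (cons (fin 844 7 844)
(mv 907 (cons (fin 906 0 906)
(fin 975 0 907)))))))))))
(cons (mv 845 (cons (fin 909 7 845)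
(mv 911 (cons (fin 847 6 846)
(mv 1166 (cons (fin 975 6 910)
(mv 1230 (cons (fin 1294 7 1037)
(mv 1231 (cons (fin 1167 4 974)
(fin 1295 4 1038)))))))))))
(mv 847 (cons (fin 911 6 846)
(mv 909 (cons (fin 845 7 845)
(mv 1166 (cons (fin 973 7 909)
(mv 1230 (cons (fin 1294 7 1037)
(mv 1231 (cons (fin 1167 4 974)
(fin 1295 4 1038))))))))))))))))))
(cons (mv 1165 (cons (fin 1229 6 973)
(mv 973 (cons (cons (mv 908 (cons (fin 972 7 908)
(mv 909 (cons (fin 844 7 844)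
(mv 845 (cons (fin 781 4 781)
(fin 1102 4 845)))))))
(mv 1164 (cons (fin 1228 5 972)
(mv 909 (cons (fin 1100 5 908)
(mv 845 (cons (fin 781 4 781)
(fin 1102 4 845))))))))
(cons (mv 972 (cons (fin 908 7 908)
(mv 971 (cons (fin 970 0 970)
(mv 907 (cons (fin 906 3 906)
(mv 1164 (cons (fin 1228 5 972)
(mv 1036 (cons (fin 1100 7 907)
(mv 779 (cons (fin 843 4 779)
(mv 975 (cons (fin 976 1 972)
(mv 911 (cons (fin 912 2 908)
(mv 1166 (cons (fin 1102 6 910)
(fin 1230 4 973)))))))))))))))))))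
(mv 908 (cons (fin 972 7 908)
(mv 909 (cons (fin 844 7 844)
(mv 1164 (cons (fin 1100 5 908)
(fin 1228 5 972))))))))))))
(cons (mv 910 (cons (fin 846 5 845)
(mv 1165 (cons (fin 1102 5 909)
(fin 1229 6 973)))))
(mv 910 (cons (fin 846 5 845)
(mv 1165 (cons (fin 973 6 909)
(fin 1229 6 973)))))))))
(mv 973 (cons (cons (cons (mv 909 (cons (mv 845 (cons (fin 781 4 781)
(fin 1102 4 845)))
(cons (mv 845 (cons (fin 781 4 781)
(mv 780 (cons (fin 844 7 780)
(mv 1036 (cons (fin 1100 5 844)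
(mv 975 (cons (fin 976 1 972)
(fin 1035 2 971)))))))))
(mv 1102 (cons (fin 1166 7 909)
(mv 1101 (cons (mv 1165 (cons (fin 910 5 909)
(fin 1229 6 973)))
(mv 844 (cons (fin 908 7 844)
(mv 1100 (cons (fin 1164 5 908)
(mv 1099 (cons (fin 1098 2 1034)
(mv 1035 (cons (fin 1034 3 1034)
(mv 975 (cons (fin 1036 2 971)
(mv 976 (cons (fin 977 1 973)
(mv 912 (cons (fin 913 2 909)
(mv 911 (cons (fin 972 2 908)
(mv 847 (cons (fin 1104 7 847)
(fin 783 5 782))))))))))))))))))))))))))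
(mv 975 (cons (mv 976 (cons (fin 1036 1 972)
(fin 977 1 973)))
(cons (mv 976 (cons (fin 977 1 973)
(mv 912 (cons (fin 913 2 909)
(mv 911 (cons (fin 972 2 908)
(mv 847 (cons (fin 1104 7 847)
(fin 783 5 782)))))))))
(mv 1035 (cons (fin 1036 2 971)
(mv 972 (cons (mv 971 (cons (fin 1034 1 970)
(fin 970 0 970)))
(mv 907 (cons (fin 908 3 907)
(mv 911 (cons (fin 912 2 908)
(mv 847 (cons (fin 783 5 782)
(mv 1102 (cons (fin 910 6 846)
(fin 1166 6 910)))))))))))))))))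
(cons (mv 909 (cons (mv 845 (cons (fin 781 4 781)
(fin 1102 4 845)))
(cons (mv 1102 (cons (fin 1166 7 909)
(mv 1101 (cons (mv 1165 (cons (fin 910 5 909)
(fin 1229 6 973)))
(mv 908 (cons (fin 844 7 844)
(mv 906 (cons (fin 907 0 906)
(mv 1100 (cons (fin 1164 5 908)
(mv 1099 (cons (fin 1098 2 1034)
(mv 1035 (cons (fin 1034 3 1034)
(mv 1163 (cons (fin 1162 1 1098)
(mv 971 (cons (fin 970 7 906)
(fin 972 6 907)))))))))))))))))))
(mv 845 (cons (fin 781 4 781)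
(mv 780 (cons (fin 844 7 780)
(mv 1100 (cons (fin 1036 5 844)
(mv 1101 (cons (fin 1164 5 908)
(mv 1165 (cons (fin 910 6 909)
(fin 1229 6 973))))))))))))))
(mv 975 (cons (mv 976 (cons (fin 1036 1 972)
(fin 977 1 973)))
(cons (mv 1035 (cons (fin 1036 2 971)
(mv 972 (cons (mv 971 (cons (fin 1034 1 970)
(fin 970 0 970)))
(mv 908 (cons (fin 907 3 907)
(mv 844 (cons (fin 780 4 780)
(mv 1101 (cons (fin 909 7 844)
(fin 1165 7 908)))))))))))
(mv 976 (cons (fin 977 1 973)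
(mv 908 (cons (fin 909 3 908)
(mv 912 (cons (fin 913 2 909)
(mv 972 (cons (fin 907 3 907)
(fin 911 2 908))))))))))))))
(cons (cons (mv 909 (cons (mv 845 (cons (fin 781 4 781)
(fin 1102 4 845)))
(cons (mv 845 (cons (fin 781 4 781)
(mv 844 (cons (fin 780 7 780)
(mv 908 (cons (fin 1101 7 844)
(mv 907 (cons (fin 906 0 906)
(mv 975 (cons (fin 972 3 907)
(fin 976 3 908)))))))))))
(mv 1102 (cons (fin 1166 7 909)
(mv 1101 (cons (mv 1165 (cons (fin 910 5 909)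
(fin 1229 6 973)))
(mv 908 (cons (fin 844 7 844)
(mv 906 (cons (fin 907 0 906)
(mv 975 (cons (fin 976 3 908)
(mv 1100 (cons (fin 1164 5 908)
(mv 1099 (cons (fin 1098 2 1034)
(mv 1035 (cons (fin 1034 3 1034)
(mv 1163 (cons (fin 1162 1 1098)
(mv 971 (cons (fin 970 7 906)
(fin 972 6 907))))))))))))))))))))))))
(mv 909 (cons (mv 845 (cons (fin 781 4 781)
(fin 1102 4 845)))
(cons (mv 845 (cons (fin 781 4 781)
(mv 780 (cons (fin 844 7 780)
(mv 1100 (cons (fin 1036 5 844)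
(mv 1101 (cons (fin 1164 5 908)
(mv 1165 (cons (fin 910 6 909)
(fin 1229 6 973)))))))))))
(mv 1102 (cons (fin 1166 7 909)
(mv 1101 (cons (mv 1165 (cons (fin 910 5 909)
(fin 1229 6 973)))
(cons (mv 908 (cons (fin 844 7 844)
(mv 906 (cons (fin 907 0 906)
(mv 975 (cons (fin 976 3 908)
(mv 1100 (cons (fin 1164 5 908)
(mv 1099 (cons (fin 1098 2 1034)
(mv 1163 (cons (fin 1162 1 1098)
(mv 972 (cons (fin 1036 5 907)
(mv 911 (cons (fin 912 2 908)
(mv 847 (cons (fin 783 5 782)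
(fin 910 6 846)))))))))))))))))))
(mv 844 (cons (fin 908 7 844)
(mv 1164 (cons (fin 1100 5 908)
(mv 1165 (cons (fin 1228 5 972)
(fin 1229 6 973))))))))))))))))
(cons (mv 909 (cons (mv 845 (cons (fin 781 4 781)
(fin 1102 4 845)))
(cons (mv 845 (cons (fin 781 4 781)
(mv 780 (cons (fin 844 7 780)
(mv 1036 (cons (fin 1100 5 844)
(mv 975 (cons (fin 976 1 972)
(fin 1035 2 971)))))))))
(mv 1102 (cons (fin 1166 7 909)
(mv 1101 (cons (mv 1165 (cons (fin 910 5 909)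
(fin 1229 6 973)))
(mv 908 (cons (fin 844 7 844)
(mv 906 (cons (fin 907 0 906)
(mv 975 (cons (fin 976 3 908)
(mv 1035 (cons (fin 1036 2 971)
(mv 1100 (cons (fin 1164 5 908)
(mv 1099 (cons (fin 1034 3 1034)
(fin 1098 2 1034))))))))))))))))))))
(mv 1102 (cons (mv 909 (cons (fin 1166 7 909)
(fin 845 4 845)))
(cons (mv 909 (cons (fin 845 4 845)
(mv 1101 (cons (mv 1165 (cons (fin 910 5 909)
(fin 1229 6 973)))
(mv 1100 (cons (fin 1164 5 908)
(mv 1099 (cons (fin 1098 2 1034)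
(mv 1035 (cons (fin 1034 3 1034)
(mv 975 (cons (fin 1036 2 971)
(mv 976 (cons (fin 977 1 973)
(mv 912 (cons (fin 913 2 909)
(mv 911 (cons (fin 972 2 908)
(mv 847 (cons (fin 1104 7 847)
(fin 783 5 782)))))))))))))))))))))
(mv 1166 (cons (fin 1230 7 973)
(mv 911 (cons (fin 975 6 910)
(mv 910 (cons (fin 847 6 846)
(mv 1165 (cons (fin 1101 5 909)
(fin 1229 5 973)))))))))))))))))))
(cons (cons (cons (mv 975 (cons (cons (mv 976 (cons (fin 977 1 973)
(mv 1036 (cons (fin 973 1 972)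
(fin 1035 2 971)))))
(mv 1035 (cons (fin 1036 2 971)
(mv 910 (cons (cons (mv 846 (cons (fin 1101 5 845)
(mv 781 (cons (fin 845 7 781)
(mv 782 (cons (fin 717 7 717)
(fin 973 5 781)))))))
(mv 1102 (cons (mv 911 (cons (fin 847 6 846)
(fin 1166 6 910)))
(cons (mv 909 (cons (fin 845 7 845)
(mv 907 (cons (fin 908 0 907)
(mv 973 (cons (fin 1166 7 909)
(mv 1101 (cons (fin 1165 5 909)
(mv 1100 (cons (fin 1164 5 908)
(mv 1099 (cons (fin 1034 3 1034)
(fin 1098 2 1034)))))))))))))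
(mv 847 (cons (fin 911 6 846)
(mv 909 (cons (fin 845 7 845)
(mv 908 (cons (fin 907 0 907)
(mv 1101 (cons (fin 1165 5 909)
(mv 973 (cons (fin 844 7 844)
(mv 1100 (cons (fin 1164 5 908)
(mv 1099 (cons (fin 1034 3 1034)
(fin 1098 2 1034)))))))))))))))))))
(cons (mv 1102 (cons (mv 911 (cons (fin 847 6 846)
(fin 1166 6 910)))
(cons (mv 845 (cons (fin 909 7 845)
(mv 846 (cons (fin 781 7 781)
(mv 782 (cons (fin 973 5 781)
(mv 783 (cons (fin 719 6 718)
(fin 847 6 782)))))))))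
(mv 845 (cons (fin 909 7 845)
(mv 781 (cons (fin 846 7 781)
(mv 1166 (cons (fin 911 6 910)
(mv 1230 (cons (fin 973 7 973)
(mv 1231 (cons (fin 1167 4 974)
(fin 1295 4 1038))))))))))))))
(cons (mv 846 (cons (fin 1101 5 845)
(mv 781 (cons (fin 845 7 781)
(mv 782 (cons (fin 717 7 717)
(mv 783 (cons (fin 719 6 718)
(fin 847 6 782)))))))))
(mv 846 (cons (fin 1101 5 845)
(mv 782 (cons (fin 973 5 781)
(mv 783 (cons (fin 719 6 718)
(fin 847 6 782))))))))))))))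
(cons (mv 976 (cons (fin 977 1 973)
(mv 911 (cons (mv 847 (cons (fin 783 5 782)
(mv 1102 (cons (fin 910 6 846)
(fin 1166 6 910)))))
(cons (mv 1102 (cons (fin 1166 6 910)
(mv 1104 (cons (fin 1168 7 911)
(mv 912 (cons (mv 913 (cons (fin 914 1 910)
(fin 973 2 909)))
(cons (mv 973 (cons (fin 972 2 908)
(mv 909 (cons (fin 908 3 908)
(fin 845 4 845)))))
(mv 913 (cons (fin 914 1 910)
(fin 849 6 848))))))))))
(mv 847 (cons (fin 783 5 782)
(mv 1104 (cons (fin 912 7 847)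
(fin 1168 7 911))))))))))
(mv 976 (cons (fin 977 1 973)
(mv 1035 (cons (fin 1036 2 971)
(mv 911 (cons (mv 847 (cons (fin 783 5 782)
(mv 1102 (cons (fin 910 6 846)
(fin 1166 6 910)))))
(cons (mv 1102 (cons (fin 1166 6 910)
(mv 1104 (cons (fin 1168 7 911)
(mv 910 (cons (mv 909 (cons (fin 908 0 908)
(fin 845 7 845)))
(mv 1101 (cons (fin 846 5 845)
(fin 1165 5 909)))))))))
(mv 847 (cons (fin 783 5 782)
(mv 1104 (cons (fin 912 7 847)
(fin 1168 7 911)))))))))))))))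
(mv 910 (cons (cons (mv 846 (cons (fin 1101 5 845)
(mv 781 (cons (fin 845 7 781)
(mv 782 (cons (fin 717 7 717)
(mv 783 (cons (fin 719 6 718)
(fin 847 6 782)))))))))
(mv 1102 (cons (cons (mv 845 (cons (fin 909 7 845)
(mv 911 (cons (fin 847 6 846)
(mv 1101 (cons (fin 1165 5 909)
(mv 1166 (cons (fin 975 6 910)
(mv 1230 (cons (fin 1294 7 1037)
(mv 1231 (cons (fin 1167 4 974)
(fin 1295 4 1038)))))))))))))
(cons (mv 845 (cons (fin 909 7 845)
(mv 911 (cons (fin 847 6 846)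
(mv 1166 (cons (fin 975 6 910)
(mv 1231 (cons (fin 1167 4 974)
(mv 1230 (cons (fin 1295 4 1038)
(mv 1293 (cons (fin 1229 5 1037)
(mv 1294 (cons (fin 1101 7 1037)
(fin 1357 5 1101)))))))))))))))
(mv 845 (cons (fin 909 7 845)
(mv 911 (cons (fin 847 6 846)
(mv 1166 (cons (fin 975 6 910)
(mv 1229 (cons (fin 1165 5 973)
(mv 1230 (cons (fin 1293 5 1037)
(mv 1231 (cons (fin 1167 4 974)
(fin 1295 4 1038)))))))))))))))
(cons (mv 845 (cons (fin 909 7 845)
(mv 1166 (cons (cons (mv 1165 (cons (fin 1101 5 909)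
(fin 1229 5 973)))
(mv 1231 (cons (fin 1167 4 974)
(mv 1230 (cons (fin 1295 4 1038)
(mv 1293 (cons (fin 1229 5 1037)
(mv 1294 (cons (fin 1101 7 1037)
(fin 1357 5 1101))))))))))
(cons (mv 1229 (cons (fin 1165 5 973)
(mv 1230 (cons (fin 1293 5 1037)
(mv 1231 (cons (fin 1167 4 974)
(fin 1295 4 1038)))))))
(mv 1101 (cons (fin 1165 5 909)
(mv 1230 (cons (fin 1294 7 1037)
(mv 1231 (cons (fin 1167 4 974)
(fin 1295 4 1038))))))))))))
(cons (mv 911 (cons (fin 847 6 846)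
(mv 1101 (cons (fin 1165 5 909)
(mv 1166 (cons (fin 975 6 910)
(mv 1230 (cons (fin 1294 7 1037)
(mv 1231 (cons (fin 1167 4 974)
(fin 1295 4 1038)))))))))))
(mv 909 (cons (fin 845 7 845)
(mv 911 (cons (fin 847 6 846)
(mv 1101 (cons (fin 1165 5 909)
(mv 908 (cons (mv 975 (cons (fin 907 0 907)
(fin 976 0 908)))
(cons (mv 843 (cons (fin 844 3 843)
(mv 907 (cons (fin 842 3 842)
(mv 971 (cons (fin 970 1 906)
(fin 972 1 907)))))))
(mv 843 (cons (fin 844 3 843)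
(mv 971 (cons (fin 972 1 907)
(mv 976 (cons (fin 975 0 908)
(mv 912 (cons (fin 977 0 909)
(mv 849 (cons (fin 848 2 845)
(mv 913 (cons (fin 850 2 846)
(fin 1104 6 848)))))))))))))))))))))))))))
(cons (mv 845 (cons (cons (mv 781 (cons (fin 846 7 781)
(mv 909 (cons (fin 1102 7 845)
(fin 717 4 717)))))
(mv 1102 (cons (fin 909 7 845)
(mv 911 (cons (fin 847 6 846)
(mv 1166 (cons (fin 975 6 910)
(mv 1229 (cons (fin 1165 5 973)
(mv 1230 (cons (fin 1293 5 1037)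
(mv 1231 (cons (fin 1167 4 974)
(fin 1295 4 1038))))))))))))))
(cons (mv 846 (cons (fin 781 7 781)
(mv 847 (cons (fin 783 6 782)
(mv 911 (cons (fin 1102 6 846)
(mv 844 (cons (fin 843 0 843)
(fin 912 0 844)))))))))
(mv 846 (cons (fin 781 7 781)
(mv 847 (cons (fin 783 6 782)
(mv 848 (cons (mv 909 (cons (fin 908 1 844)
(fin 849 1 845)))
(cons (mv 784 (cons (fin 785 2 781)
(mv 912 (cons (fin 913 0 845)
(mv 844 (cons (fin 911 0 844)
(mv 779 (cons (fin 780 3 779)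
(mv 843 (cons (fin 778 3 778)
(mv 907 (cons (fin 906 1 842)
(fin 908 1 843)))))))))))))
(mv 784 (cons (fin 785 2 781)
(mv 849 (cons (fin 909 1 845)
(mv 913 (cons (fin 912 0 845)
(fin 914 0 846)))))))))))))))))
(mv 1101 (cons (fin 846 5 845)
(mv 1165 (cons (fin 1102 5 909)
(fin 1229 6 973)))))))))
(cons (mv 976 (cons (cons (mv 975 (cons (fin 977 1 973)
(mv 1036 (cons (fin 973 1 972)
(fin 1035 2 971)))))
(mv 912 (cons (cons (cons (mv 1104 (cons (cons (mv 847 (cons (fin 911 7 847)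
(mv 783 (cons (fin 848 7 783)
(mv 846 (cons (fin 910 6 782)
(mv 913 (cons (fin 849 6 848)
(mv 1168 (cons (fin 977 6 912)
(mv 1169 (cons (fin 1105 4 912)
(fin 1233 4 976)))))))))))))
(mv 847 (cons (fin 911 7 847)
(mv 848 (cons (fin 783 7 783)
(mv 785 (cons (fin 849 6 784)
(mv 784 (cons (fin 721 6 720)
(mv 786 (cons (fin 787 1 783)
(mv 846 (cons (fin 845 2 781)
(mv 910 (cons (fin 1101 5 845)
(mv 782 (cons (fin 973 5 781)
(mv 717 (cons (fin 781 7 717)
(mv 718 (cons (fin 653 7 653)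
(mv 719 (cons (fin 720 0 717)
(fin 655 6 654))))))))))))))))))))))))
(cons (mv 913 (cons (fin 849 6 848)
(mv 1105 (cons (fin 1169 4 912)
(mv 1168 (cons (fin 977 6 912)
(mv 1167 (cons (fin 1231 5 975)
(mv 1106 (cons (fin 1107 1 1103)
(mv 1165 (cons (fin 1166 2 1101)
(mv 1101 (cons (fin 1229 6 973)
(mv 910 (cons (fin 846 5 845)
(fin 973 6 909)))))))))))))))))
(cons (mv 847 (cons (fin 911 7 847)
(mv 848 (cons (fin 783 7 783)
(mv 1169 (cons (fin 1105 4 912)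
(mv 1168 (cons (fin 1233 4 976)
(mv 913 (cons (fin 977 6 912)
(mv 846 (cons (fin 845 0 845)
(mv 914 (cons (fin 915 3 847)
(mv 1101 (cons (fin 910 5 845)
(mv 1229 (cons (fin 1165 6 973)
(mv 1231 (cons (fin 1167 5 975)
(mv 1232 (cons (fin 1230 2 1165)
(fin 1295 5 1039)))))))))))))))))))))))
(mv 847 (cons (fin 911 7 847)
(mv 783 (cons (fin 848 7 783)
(mv 913 (cons (fin 849 6 848)
(mv 1168 (cons (fin 977 6 912)
(mv 1169 (cons (fin 1105 4 912)
(fin 1233 4 976)))))))))))))))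
(cons (mv 848 (cons (cons (mv 783 (cons (fin 847 7 783)
(mv 784 (cons (fin 719 7 719)
(mv 785 (cons (fin 721 6 720)
(fin 849 6 784)))))))
(mv 849 (cons (fin 785 6 784)
(mv 910 (cons (cons (mv 846 (cons (fin 1101 5 845)
(mv 909 (cons (fin 847 1 845)
(fin 911 2 845)))))
(mv 846 (cons (fin 1101 5 845)
(mv 781 (cons (fin 845 7 781)
(mv 782 (cons (fin 847 3 781)
(fin 717 7 717))))))))
(cons (mv 911 (cons (fin 909 2 845)
(mv 850 (cons (fin 847 1 846)
(fin 851 1 847)))))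
(mv 846 (cons (fin 1101 5 845)
(mv 781 (cons (fin 845 7 781)
(mv 782 (cons (fin 717 7 717)
(fin 973 5 781)))))))))))))
(cons (mv 847 (cons (fin 783 7 783)
(mv 846 (cons (cons (mv 845 (cons (fin 913 0 845)
(mv 781 (cons (fin 780 3 780)
(fin 910 7 781)))))
(mv 910 (cons (fin 1101 5 845)
(mv 782 (cons (fin 973 5 781)
(mv 781 (cons (fin 849 3 781)
(fin 717 7 717))))))))
(cons (mv 845 (cons (fin 913 0 845)
(mv 780 (cons (fin 781 3 780)
(mv 844 (cons (fin 779 3 779)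
(fin 911 0 844)))))))
(mv 845 (cons (fin 913 0 845)
(mv 844 (cons (fin 911 0 844)
(mv 908 (cons (fin 907 1 843)
(fin 909 1 844))))))))))))
(cons (mv 849 (cons (fin 785 6 784)
(mv 910 (cons (mv 846 (cons (fin 1101 5 845)
(mv 781 (cons (fin 845 7 781)
(mv 782 (cons (fin 717 7 717)
(fin 973 5 781)))))))
(mv 911 (cons (fin 909 2 845)
(mv 850 (cons (fin 851 1 847)
(fin 913 2 846)))))))))
(mv 783 (cons (fin 847 7 783)
(mv 784 (cons (fin 719 7 719)
(mv 721 (cons (fin 785 6 720)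
(mv 720 (cons (fin 657 6 656)
(mv 722 (cons (fin 723 1 719)
(mv 781 (cons (fin 782 2 717)
(mv 977 (cons (fin 913 4 720)
(mv 910 (cons (mv 846 (cons (fin 845 7 781)
(fin 1101 5 845)))
(cons (mv 909 (cons (fin 911 0 909)
(mv 845 (cons (fin 717 4 717)
(fin 973 4 781)))))
(mv 909 (cons (fin 911 0 909)
(mv 1101 (cons (fin 846 5 845)
(mv 1165 (cons (fin 973 6 909)
(fin 1229 6 973))))))))))))))))))))))))))))
(mv 848 (cons (cons (mv 783 (cons (fin 847 7 783)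
(mv 784 (cons (fin 719 7 719)
(mv 785 (cons (fin 721 6 720)
(fin 849 6 784)))))))
(mv 849 (cons (fin 785 6 784)
(mv 913 (cons (fin 1104 6 848)
(mv 784 (cons (mv 720 (cons (fin 656 4 656)
(fin 977 4 720)))
(mv 783 (cons (fin 719 7 719)
(mv 781 (cons (fin 782 0 781)
(mv 850 (cons (fin 851 3 783)
(mv 910 (cons (fin 911 2 846)
(mv 845 (cons (fin 846 7 781)
(mv 909 (cons (fin 717 4 717)
(fin 973 4 781))))))))))))))))))))
(cons (mv 847 (cons (fin 783 7 783)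
(mv 911 (cons (fin 1104 7 847)
(mv 913 (cons (mv 846 (cons (fin 914 3 846)
(fin 845 0 845)))
(mv 910 (cons (fin 973 1 909)
(mv 909 (cons (fin 908 2 844)
(fin 977 0 909)))))))))))
(mv 849 (cons (fin 785 6 784)
(mv 911 (cons (mv 1104 (cons (fin 847 7 847)
(fin 913 6 848)))
(cons (mv 850 (cons (fin 851 1 847)
(mv 910 (cons (fin 847 1 846)
(fin 909 2 845)))))
(mv 850 (cons (fin 851 1 847)
(mv 910 (cons (fin 909 2 845)
(fin 913 2 846)))))))))))))))
(cons (mv 1104 (cons (cons (mv 847 (cons (fin 911 7 847)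
(mv 913 (cons (fin 849 6 848)
(mv 1105 (cons (fin 1169 4 912)
(mv 1168 (cons (fin 977 6 912)
(mv 1167 (cons (fin 1231 5 975)
(mv 1106 (cons (fin 1107 1 1103)
(mv 1165 (cons (fin 1166 2 1101)
(mv 1101 (cons (fin 1229 6 973)
(mv 910 (cons (fin 846 5 845)
(fin 973 6 909)))))))))))))))))))
(mv 911 (cons (fin 847 7 847)
(mv 1169 (cons (fin 1105 4 912)
(mv 1168 (cons (fin 1233 4 976)
(mv 1231 (cons (fin 1167 5 975)
(mv 1232 (cons (fin 1295 5 1039)
(mv 1170 (cons (fin 1171 1 1167)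
(mv 1229 (cons (fin 1230 2 1165)
(mv 1101 (cons (fin 1165 6 973)
(mv 910 (cons (fin 846 5 845)
(mv 909 (cons (fin 977 0 909)
(mv 844 (cons (fin 845 3 844)
(mv 908 (cons (fin 843 3 843)
(fin 973 7 844))))))))))))))))))))))))))
(cons (mv 911 (cons (fin 847 7 847)
(mv 913 (cons (fin 849 6 848)
(mv 910 (cons (fin 973 1 909)
(mv 846 (cons (fin 845 3 845)
(fin 1101 5 845)))))))))
(cons (mv 913 (cons (fin 849 6 848)
(mv 1105 (cons (fin 1169 4 912)
(mv 1168 (cons (fin 977 6 912)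
(mv 1167 (cons (fin 1231 5 975)
(mv 1106 (cons (fin 1107 1 1103)
(mv 1165 (cons (fin 1166 2 1101)
(mv 1101 (cons (fin 1229 6 973)
(mv 910 (cons (fin 846 5 845)
(fin 973 6 909)))))))))))))))))
(mv 847 (cons (fin 911 7 847)
(mv 913 (cons (fin 849 6 848)
(mv 1168 (cons (fin 977 6 912)
(mv 1169 (cons (fin 1105 4 912)
(fin 1233 4 976)))))))))))))
(cons (mv 910 (cons (cons (mv 846 (cons (fin 1101 5 845)
(mv 781 (cons (fin 845 7 781)
(mv 782 (cons (fin 717 7 717)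
(fin 973 5 781)))))))
(mv 911 (cons (cons (mv 909 (cons (fin 977 0 909)
(mv 973 (cons (fin 972 1 908)
(fin 913 1 909)))))
(mv 909 (cons (fin 977 0 909)
(mv 844 (cons (fin 845 3 844)
(mv 848 (cons (fin 849 2 845)
(mv 908 (cons (fin 843 3 843)
(mv 972 (cons (fin 971 1 907)
(fin 973 1 908))))))))))))
(cons (mv 913 (cons (fin 973 1 909)
(mv 849 (cons (fin 850 2 846)
(fin 1104 6 848)))))
(mv 909 (cons (fin 977 0 909)
(mv 844 (cons (fin 845 3 844)
(mv 843 (cons (fin 908 3 843)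
(mv 849 (cons (fin 848 2 845)
(mv 913 (cons (fin 850 2 846)
(fin 1104 6 848)))))))))))))))
(cons (mv 846 (cons (fin 1101 5 845)
(mv 845 (cons (fin 781 7 781)
(mv 911 (cons (fin 913 3 845)
(mv 844 (cons (fin 909 3 844)
(fin 843 0 843)))))))))
(mv 846 (cons (fin 1101 5 845)
(mv 782 (cons (fin 973 5 781)
(mv 717 (cons (fin 781 7 717)
(mv 718 (cons (fin 653 7 653)
(mv 719 (cons (fin 655 6 654)
(fin 783 6 718))))))))))))))
(mv 847 (cons (mv 783 (cons (fin 848 7 783)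
(mv 911 (cons (fin 1104 7 847)
(fin 719 4 719)))))
(cons (mv 911 (cons (fin 1104 7 847)
(mv 910 (cons (mv 846 (cons (fin 1101 5 845)
(mv 845 (cons (fin 913 3 845)
(fin 844 0 844)))))
(cons (mv 909 (cons (fin 977 0 909)
(mv 973 (cons (fin 972 1 908)
(fin 913 1 909)))))
(mv 846 (cons (fin 1101 5 845)
(mv 845 (cons (fin 844 0 844)
(fin 781 7 781))))))))))
(mv 846 (cons (mv 783 (cons (fin 848 7 783)
(fin 910 6 782)))
(cons (mv 848 (cons (fin 783 7 783)
(mv 845 (cons (fin 913 0 845)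
(mv 780 (cons (fin 781 3 780)
(mv 784 (cons (fin 785 2 781)
(mv 844 (cons (fin 779 3 779)
(mv 908 (cons (fin 907 1 843)
(fin 909 1 844)))))))))))))
(mv 910 (cons (fin 1101 5 845)
(mv 781 (cons (fin 845 7 781)
(mv 782 (cons (fin 717 7 717)
(fin 973 5 781))))))))))))))))
(cons (cons (mv 847 (cons (cons (mv 783 (cons (fin 848 7 783)
(mv 911 (cons (fin 1104 7 847)
(fin 719 4 719)))))
(mv 848 (cons (fin 783 7 783)
(mv 849 (cons (fin 785 6 784)
(mv 846 (cons (mv 913 (cons (fin 845 0 845)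
(fin 914 0 846)))
(cons (mv 781 (cons (fin 782 3 781)
(mv 845 (cons (fin 780 3 780)
(mv 909 (cons (fin 908 1 844)
(fin 973 4 781)))))))
(mv 781 (cons (fin 782 3 781)
(mv 914 (cons (fin 913 0 846)
(mv 850 (cons (fin 915 0 847)
(mv 787 (cons (fin 786 2 783)
(mv 851 (cons (fin 911 1 847)
(fin 788 2 784)))))))))))))))))))
(cons (mv 1104 (cons (fin 911 7 847)
(mv 913 (cons (fin 849 6 848)
(mv 1168 (cons (fin 977 6 912)
(mv 1169 (cons (fin 1105 4 912)
(fin 1233 4 976)))))))))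
(mv 848 (cons (fin 783 7 783)
(mv 849 (cons (fin 785 6 784)
(mv 913 (cons (fin 1104 6 848)
(mv 846 (cons (fin 845 0 845)
(fin 914 0 846))))))))))))
(cons (mv 847 (cons (cons (mv 783 (cons (fin 848 7 783)
(mv 911 (cons (fin 1104 7 847)
(fin 719 4 719)))))
(mv 911 (cons (fin 1104 7 847)
(mv 910 (cons (mv 846 (cons (fin 1101 5 845)
(mv 845 (cons (fin 844 0 844)
(fin 781 7 781)))))
(mv 909 (cons (fin 977 0 909)
(mv 848 (cons (fin 908 2 844)
(fin 849 2 845))))))))))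
(cons (mv 848 (cons (fin 783 7 783)
(mv 785 (cons (fin 849 6 784)
(mv 784 (cons (fin 721 6 720)
(mv 786 (cons (fin 787 1 783)
(mv 846 (cons (fin 845 2 781)
(mv 910 (cons (fin 1101 5 845)
(mv 782 (cons (fin 973 5 781)
(mv 717 (cons (fin 781 7 717)
(mv 718 (cons (fin 653 7 653)
(mv 719 (cons (fin 720 0 717)
(fin 655 6 654)))))))))))))))))))))
(mv 911 (cons (fin 1104 7 847)
(mv 783 (cons (fin 719 4 719)
(mv 910 (cons (fin 846 6 782)
(mv 909 (cons (fin 977 0 909)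
(mv 844 (cons (fin 845 3 844)
(mv 908 (cons (fin 843 3 843)
(mv 972 (cons (fin 971 1 907)
(fin 973 1 908))))))))))))))))))
(mv 848 (cons (cons (mv 783 (cons (fin 847 7 783)
(mv 784 (cons (fin 719 7 719)
(mv 785 (cons (fin 721 6 720)
(fin 849 6 784)))))))
(mv 846 (cons (mv 783 (cons (fin 847 7 783)
(mv 719 (cons (fin 784 7 719)
(mv 910 (cons (fin 1101 5 845)
(fin 782 6 718)))))))
(cons (mv 847 (cons (fin 783 7 783)
(mv 845 (cons (fin 913 0 845)
(mv 780 (cons (fin 781 3 780)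
(mv 784 (cons (fin 785 2 781)
(mv 844 (cons (fin 779 3 779)
(mv 908 (cons (fin 907 1 843)
(fin 909 1 844)))))))))))))
(mv 910 (cons (fin 1101 5 845)
(mv 781 (cons (fin 845 7 781)
(mv 782 (cons (fin 717 7 717)
(fin 973 5 781)))))))))))
(cons (mv 847 (cons (fin 783 7 783)
(mv 846 (cons (cons (mv 845 (cons (fin 913 0 845)
(mv 781 (cons (fin 780 3 780)
(fin 910 7 781)))))
(mv 910 (cons (fin 1101 5 845)
(mv 782 (cons (fin 973 5 781)
(mv 781 (cons (fin 849 3 781)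
(fin 717 7 717))))))))
(cons (mv 845 (cons (fin 913 0 845)
(mv 780 (cons (fin 781 3 780)
(mv 844 (cons (fin 779 3 779)
(mv 908 (cons (fin 907 1 843)
(fin 909 1 844)))))))))
(mv 845 (cons (fin 913 0 845)
(mv 908 (cons (fin 909 1 844)
(mv 844 (cons (fin 907 1 843)
(mv 779 (cons (fin 780 3 779)
(mv 778 (cons (fin 843 3 778)
(mv 1101 (cons (fin 910 5 845)
(mv 972 (cons (fin 1036 4 844)
(mv 1165 (cons (fin 973 7 908)
(fin 1229 6 973))))))))))))))))))))))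
(cons (mv 849 (cons (fin 785 6 784)
(mv 913 (cons (fin 1104 6 848)
(mv 846 (cons (mv 847 (cons (fin 845 0 845)
(fin 914 0 846)))
(cons (mv 910 (cons (fin 1101 5 845)
(mv 781 (cons (fin 845 7 781)
(mv 782 (cons (fin 717 7 717)
(fin 973 5 781)))))))
(mv 847 (cons (fin 914 0 846)
(mv 910 (cons (fin 909 1 845)
(fin 1101 5 845))))))))))))
(mv 784 (cons (cons (mv 785 (cons (fin 721 6 720)
(fin 849 6 784)))
(mv 719 (cons (fin 783 7 719)
(mv 720 (cons (fin 655 7 655)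
(mv 657 (cons (fin 721 6 656)
(mv 656 (cons (fin 593 6 592)
(mv 913 (cons (fin 849 4 656)
(fin 977 4 720))))))))))))
(cons (mv 719 (cons (fin 783 7 719)
(mv 720 (cons (fin 655 7 655)
(mv 721 (cons (fin 657 6 656)
(fin 785 6 720)))))))
(mv 719 (cons (fin 783 7 719)
(mv 720 (cons (fin 655 7 655)
(mv 849 (cons (fin 785 6 784)
(mv 913 (cons (fin 1104 6 848)
(fin 656 4 656))))))))))))))))))
(cons (mv 848 (cons (cons (mv 783 (cons (fin 847 7 783)
(mv 784 (cons (fin 719 7 719)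
(mv 785 (cons (fin 721 6 720)
(fin 849 6 784)))))))
(mv 847 (cons (fin 783 7 783)
(mv 911 (cons (fin 1104 7 847)
(mv 910 (cons (mv 909 (cons (fin 908 2 844)
(fin 977 0 909)))
(cons (mv 913 (cons (fin 973 1 909)
(mv 914 (cons (fin 915 3 847)
(mv 978 (cons (fin 977 0 910)
(fin 979 0 911)))))))
(mv 908 (cons (fin 909 2 844)
(mv 973 (cons (fin 913 1 909)
(mv 972 (cons (fin 971 2 907)
(mv 844 (cons (fin 780 4 780)
(mv 1101 (cons (fin 1165 7 908)
(fin 1036 4 844)))))))))))))))))))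
(cons (mv 784 (cons (cons (mv 785 (cons (fin 721 6 720)
(fin 849 6 784)))
(mv 719 (cons (fin 783 7 719)
(mv 720 (cons (fin 655 7 655)
(mv 657 (cons (fin 721 6 656)
(mv 656 (cons (fin 593 6 592)
(mv 913 (cons (fin 849 4 656)
(fin 977 4 720))))))))))))
(cons (mv 719 (cons (fin 783 7 719)
(mv 720 (cons (fin 655 7 655)
(mv 721 (cons (fin 657 6 656)
(fin 785 6 720)))))))
(mv 719 (cons (fin 783 7 719)
(mv 720 (cons (fin 655 7 655)
(mv 849 (cons (fin 785 6 784)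
(mv 913 (cons (fin 1104 6 848)
(fin 656 4 656))))))))))))
(mv 849 (cons (fin 785 6 784)
(mv 911 (cons (mv 1104 (cons (fin 847 7 847)
(fin 913 6 848)))
(cons (mv 850 (cons (fin 851 1 847)
(mv 910 (cons (fin 847 1 846)
(fin 909 2 845)))))
(mv 850 (cons (fin 851 1 847)
(mv 910 (cons (fin 909 2 845)
(fin 913 2 846)))))))))))))
(cons (mv 1104 (cons (cons (mv 847 (cons (fin 911 7 847)
(mv 783 (cons (fin 848 7 783)
(mv 846 (cons (fin 910 6 782)
(mv 913 (cons (fin 849 6 848)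
(mv 1168 (cons (fin 977 6 912)
(mv 1169 (cons (fin 1105 4 912)
(fin 1233 4 976)))))))))))))
(mv 847 (cons (fin 911 7 847)
(mv 848 (cons (fin 783 7 783)
(mv 785 (cons (fin 849 6 784)
(mv 784 (cons (fin 721 6 720)
(mv 786 (cons (fin 787 1 783)
(mv 846 (cons (fin 845 2 781)
(mv 1101 (cons (fin 910 5 845)
(mv 1169 (cons (fin 1105 4 912)
(mv 1168 (cons (fin 1233 4 976)
(mv 1229 (cons (fin 1165 6 973)
(mv 1231 (cons (fin 1167 5 975)
(mv 1232 (cons (fin 1230 2 1165)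
(fin 1295 5 1039))))))))))))))))))))))))))
(cons (mv 913 (cons (fin 849 6 848)
(mv 1168 (cons (fin 977 6 912)
(mv 1169 (cons (fin 1105 4 912)
(fin 1233 4 976)))))))
(cons (mv 847 (cons (fin 911 7 847)
(mv 848 (cons (fin 783 7 783)
(mv 1169 (cons (fin 1105 4 912)
(mv 1168 (cons (fin 1233 4 976)
(mv 913 (cons (fin 977 6 912)
(mv 846 (cons (fin 845 0 845)
(mv 914 (cons (fin 915 3 847)
(mv 1101 (cons (fin 910 5 845)
(mv 1229 (cons (fin 1165 6 973)
(mv 1231 (cons (fin 1167 5 975)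
(mv 1232 (cons (fin 1230 2 1165)
(fin 1295 5 1039)))))))))))))))))))))))
(mv 847 (cons (fin 911 7 847)
(mv 848 (cons (fin 783 7 783)
(mv 849 (cons (fin 785 6 784)
(fin 913 6 848)))))))))))
(mv 1101 (cons (mv 910 (cons (fin 846 5 845)
(mv 1165 (cons (fin 973 6 909)
(fin 1229 6 973)))))
(cons (mv 910 (cons (fin 846 5 845)
(mv 911 (cons (mv 847 (cons (fin 1104 7 847)
(mv 783 (cons (fin 848 7 783)
(fin 719 5 718)))))
(cons (mv 913 (cons (fin 973 1 909)
(mv 849 (cons (fin 850 2 846)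
(fin 1104 6 848)))))
(mv 913 (cons (fin 973 1 909)
(mv 849 (cons (fin 850 2 846)
(mv 785 (cons (fin 721 5 720)
(fin 848 6 784))))))))))))
(mv 1229 (cons (fin 1165 6 973)
(mv 1104 (cons (cons (mv 847 (cons (fin 911 7 847)
(mv 783 (cons (fin 848 7 783)
(mv 849 (cons (fin 913 6 848)
(mv 1169 (cons (fin 1105 4 912)
(mv 1168 (cons (fin 1233 4 976)
(mv 1231 (cons (fin 1167 5 975)
(mv 1232 (cons (fin 1230 2 1165)
(fin 1295 5 1039)))))))))))))))
(mv 849 (cons (fin 913 6 848)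
(mv 785 (cons (fin 848 6 784)
(mv 1169 (cons (fin 1105 4 912)
(mv 1168 (cons (fin 1233 4 976)
(mv 1231 (cons (fin 1167 5 975)
(mv 1232 (cons (fin 1230 2 1165)
(fin 1295 5 1039))))))))))))))
(cons (mv 847 (cons (fin 911 7 847)
(mv 848 (cons (fin 783 7 783)
(mv 849 (cons (fin 785 6 784)
(fin 913 6 848)))))))
(cons (mv 847 (cons (fin 911 7 847)
(mv 783 (cons (fin 848 7 783)
(mv 1169 (cons (fin 1105 4 912)
(mv 1168 (cons (fin 1233 4 976)
(mv 1231 (cons (fin 1167 5 975)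
(mv 1232 (cons (fin 1230 2 1165)
(fin 1295 5 1039)))))))))))))
(mv 847 (cons (fin 911 7 847)
(mv 849 (cons (fin 913 6 848)
(mv 1169 (cons (fin 1105 4 912)
(mv 1168 (cons (fin 1233 4 976)
(mv 1231 (cons (fin 1167 5 975)
(mv 1232 (cons (fin 1230 2 1165)
(fin 1295 5 1039))))))))))))))))))))))))))))
(cons (mv 1036 (cons (cons (mv 975 (cons (fin 973 1 972)
(fin 1035 2 971)))
(mv 1035 (cons (cons (mv 970 (cons (fin 971 3 970)
(mv 1034 (cons (fin 969 3 969)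
(fin 973 2 970)))))
(mv 971 (cons (fin 970 3 970)
(mv 1099 (cons (fin 1098 1 1034)
(mv 907 (cons (cons (mv 1100 (cons (fin 843 4 843)
(fin 1164 4 907)))
(mv 842 (cons (fin 906 7 842)
(mv 778 (cons (fin 843 7 778)
(mv 908 (cons (fin 844 6 843)
(mv 1163 (cons (fin 972 6 907)
(mv 1164 (cons (fin 1228 4 971)
(mv 1226 (cons (fin 1162 5 970)
(mv 1227 (cons (fin 1290 5 1034)
(mv 1165 (cons (fin 1166 1 1162)
(mv 1101 (cons (fin 1229 6 973)
(mv 910 (cons (fin 846 5 845)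
(fin 973 6 909))))))))))))))))))))))
(cons (mv 842 (cons (fin 906 7 842)
(mv 844 (cons (fin 908 6 843)
(mv 1164 (cons (fin 1100 4 907)
(mv 1163 (cons (fin 1228 4 971)
(mv 1226 (cons (fin 1162 5 970)
(mv 1227 (cons (fin 1290 5 1034)
(fin 972 6 971)))))))))))))
(mv 842 (cons (fin 906 7 842)
(mv 843 (cons (fin 778 7 778)
(fin 1100 4 843)))))))))))))
(cons (mv 1034 (cons (fin 973 2 970)
(mv 1098 (cons (fin 1097 1 1033)
(fin 1099 1 1034)))))
(mv 970 (cons (fin 971 3 970)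
(mv 1034 (cons (fin 969 3 969)
(mv 1098 (cons (fin 1097 1 1033)
(fin 1099 1 1034)))))))))))
(cons (mv 973 (cons (fin 975 1 972)
(mv 1101 (cons (mv 910 (cons (fin 846 5 845)
(fin 1165 6 909)))
(cons (mv 846 (cons (fin 910 5 845)
(mv 909 (cons (mv 845 (cons (fin 1100 5 844)
(fin 782 6 781)))
(cons (mv 908 (cons (fin 844 7 844)
(mv 907 (cons (fin 906 0 906)
(mv 1100 (cons (fin 1164 5 908)
(mv 972 (cons (fin 843 7 843)
(mv 1099 (cons (fin 1098 2 1034)
(fin 1163 5 907)))))))))))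
(mv 845 (cons (fin 782 6 781)
(fin 781 4 781))))))))
(mv 1165 (cons (fin 1229 6 973)
(mv 908 (cons (fin 972 7 908)
(mv 909 (cons (fin 844 7 844)
(mv 845 (cons (fin 1100 5 844)
(fin 781 4 781))))))))))))))
(mv 1035 (cons (fin 975 2 971)
(mv 970 (cons (fin 971 3 970)
(mv 1034 (cons (fin 969 3 969)
(mv 1098 (cons (fin 1097 1 1033)
(fin 1099 1 1034))))))))))))
(cons (mv 975 (cons (fin 977 1 973)
(mv 973 (cons (cons (mv 908 (cons (fin 909 3 908)
(mv 912 (cons (fin 913 2 909)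
(mv 972 (cons (fin 907 3 907)
(fin 911 2 908)))))))
(mv 912 (cons (fin 913 2 909)
(mv 911 (cons (fin 972 2 908)
(mv 847 (cons (fin 1104 7 847)
(fin 783 5 782))))))))
(cons (mv 908 (cons (fin 909 3 908)
(mv 972 (cons (fin 907 3 907)
(mv 780 (cons (fin 844 4 780)
(mv 971 (cons (fin 970 0 970)
(mv 910 (cons (fin 911 2 907)
(mv 846 (cons (fin 782 5 781)
(fin 1101 5 845)))))))))))))
(mv 909 (cons (fin 908 3 908)
(mv 845 (cons (fin 781 4 781)
(mv 780 (cons (fin 844 7 780)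
(mv 846 (cons (fin 782 6 781)
(mv 912 (cons (fin 913 2 909)
(mv 1101 (cons (fin 910 5 845)
(mv 1164 (cons (fin 1100 5 908)
(mv 1165 (cons (fin 1228 5 972)
(fin 1229 6 973))))))))))))))))))))))
(mv 977 (cons (fin 975 1 973)
(mv 912 (cons (cons (mv 1104 (cons (cons (mv 913 (cons (fin 849 6 848)
(fin 1168 6 912)))
(mv 847 (cons (fin 911 7 847)
(mv 848 (cons (fin 783 7 783)
(mv 785 (cons (fin 849 6 784)
(mv 784 (cons (fin 721 6 720)
(mv 786 (cons (fin 787 1 783)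
(mv 846 (cons (fin 845 2 781)
(mv 1101 (cons (fin 910 5 845)
(mv 1169 (cons (fin 1105 4 912)
(mv 1168 (cons (fin 1233 4 976)
(mv 1229 (cons (fin 1165 6 973)
(mv 1231 (cons (fin 1167 5 975)
(mv 1232 (cons (fin 1230 2 1165)
(fin 1295 5 1039))))))))))))))))))))))))))
(cons (mv 847 (cons (fin 911 7 847)
(mv 848 (cons (fin 783 7 783)
(mv 849 (cons (fin 785 6 784)
(fin 913 6 848)))))))
(mv 847 (cons (fin 911 7 847)
(mv 783 (cons (fin 848 7 783)
(mv 846 (cons (fin 910 6 782)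
(mv 1168 (cons (fin 913 6 912)
(mv 1169 (cons (fin 1105 4 912)
(fin 1233 4 976))))))))))))))
(cons (mv 848 (cons (cons (mv 783 (cons (fin 847 7 783)
(mv 784 (cons (fin 719 7 719)
(mv 785 (cons (fin 721 6 720)
(fin 849 6 784)))))))
(cons (mv 783 (cons (fin 847 7 783)
(mv 719 (cons (fin 784 7 719)
(mv 910 (cons (mv 846 (cons (fin 1101 5 845)
(fin 782 6 718)))
(mv 911 (cons (fin 909 0 909)
(mv 978 (cons (fin 979 3 911)
(fin 913 0 910)))))))))))
(mv 785 (cons (fin 849 6 784)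
(mv 784 (cons (fin 721 6 720)
(mv 720 (cons (fin 913 4 720)
(mv 655 (cons (fin 719 7 655)
(mv 656 (cons (fin 591 7 591)
(mv 657 (cons (fin 593 6 592)
(mv 911 (cons (fin 847 5 655)
(mv 910 (cons (fin 909 0 909)
(mv 717 (cons (mv 654 (cons (fin 718 1 653)
(mv 589 (cons (fin 590 3 589)
(mv 653 (cons (fin 588 3 588)
(fin 716 1 652)))))))
(mv 846 (cons (fin 1101 5 845)
(mv 781 (cons (fin 782 7 717)
(fin 845 7 781)))))))))))))))))))))))))
(cons (mv 785 (cons (fin 849 6 784)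
(mv 784 (cons (fin 721 6 720)
(mv 719 (cons (fin 783 7 719)
(mv 720 (cons (fin 655 7 655)
(fin 913 4 720)))))))))
(cons (mv 783 (cons (fin 847 7 783)
(mv 785 (cons (fin 849 6 784)
(mv 910 (cons (mv 846 (cons (fin 1101 5 845)
(mv 719 (cons (fin 782 6 718)
(mv 781 (cons (fin 845 7 781)
(mv 911 (cons (fin 909 0 909)
(mv 978 (cons (fin 979 3 911)
(fin 913 0 910)))))))))))
(cons (mv 911 (cons (fin 909 0 909)
(mv 978 (cons (fin 979 3 911)
(fin 913 0 910)))))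
(mv 846 (cons (fin 1101 5 845)
(mv 781 (cons (fin 845 7 781)
(mv 782 (cons (fin 717 7 717)
(fin 719 6 718))))))))))))))
(mv 785 (cons (fin 849 6 784)
(mv 784 (cons (fin 721 6 720)
(mv 720 (cons (fin 913 4 720)
(mv 847 (cons (fin 783 7 783)
(mv 656 (cons (fin 911 5 655)
(mv 591 (cons (fin 655 7 591)
(mv 592 (cons (fin 527 7 527)
(mv 593 (cons (fin 529 6 528)
(fin 657 6 592)))))))))))))))))))))
(mv 910 (cons (cons (mv 846 (cons (fin 1101 5 845)
(mv 781 (cons (fin 845 7 781)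
(mv 717 (cons (fin 782 7 717)
(mv 847 (cons (fin 783 6 782)
(mv 911 (cons (fin 909 0 909)
(fin 1104 7 847)))))))))))
(mv 846 (cons (fin 1101 5 845)
(mv 781 (cons (fin 845 7 781)
(mv 782 (cons (fin 717 7 717)
(mv 783 (cons (fin 719 6 718)
(fin 847 6 782))))))))))
(cons (mv 911 (cons (fin 909 0 909)
(mv 847 (cons (fin 1104 7 847)
(mv 783 (cons (fin 848 7 783)
(fin 719 5 718)))))))
(cons (mv 846 (cons (fin 1101 5 845)
(mv 909 (cons (fin 911 0 909)
(mv 782 (cons (cons (mv 781 (cons (fin 717 7 717)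
(fin 845 7 781)))
(mv 719 (cons (fin 783 6 718)
(mv 718 (cons (fin 655 6 654)
(mv 653 (cons (fin 717 7 653)
(mv 654 (cons (fin 589 7 589)
(fin 845 5 653))))))))))
(cons (mv 717 (cons (fin 781 7 717)
(mv 718 (cons (fin 653 7 653)
(mv 719 (cons (fin 655 6 654)
(fin 783 6 718)))))))
(mv 719 (cons (fin 783 6 718)
(mv 718 (cons (fin 655 6 654)
(mv 845 (cons (fin 781 7 781)
(fin 654 5 653))))))))))))))
(mv 846 (cons (fin 1101 5 845)
(mv 845 (cons (fin 781 7 781)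
(mv 911 (cons (fin 909 0 909)
(mv 844 (cons (fin 843 0 843)
(fin 847 0 844)))))))))))))))
(cons (cons (mv 848 (cons (cons (mv 783 (cons (fin 847 7 783)
(mv 784 (cons (fin 719 7 719)
(mv 785 (cons (fin 721 6 720)
(fin 849 6 784)))))))
(mv 783 (cons (fin 847 7 783)
(mv 784 (cons (fin 719 7 719)
(mv 720 (cons (fin 913 4 720)
(mv 721 (cons (fin 657 6 656)
(fin 785 6 720))))))))))
(cons (mv 783 (cons (fin 847 7 783)
(mv 784 (cons (fin 719 7 719)
(mv 913 (cons (fin 720 4 720)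
(mv 1104 (cons (fin 849 6 848)
(fin 1168 6 912)))))))))
(cons (mv 849 (cons (fin 785 6 784)
(mv 846 (cons (mv 910 (cons (fin 1101 5 845)
(mv 781 (cons (fin 845 7 781)
(mv 782 (cons (fin 847 3 781)
(fin 717 7 717)))))))
(cons (mv 913 (cons (fin 1104 6 848)
(mv 847 (cons (fin 845 0 845)
(fin 914 0 846)))))
(mv 1101 (cons (fin 910 5 845)
(mv 1104 (cons (fin 913 6 848)
(mv 1169 (cons (fin 1105 4 912)
(mv 1168 (cons (fin 1233 4 976)
(mv 1229 (cons (fin 1165 6 973)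
(mv 1231 (cons (fin 1167 5 975)
(mv 1232 (cons (fin 1230 2 1165)
(fin 1295 5 1039))))))))))))))))))))
(mv 785 (cons (fin 849 6 784)
(mv 784 (cons (fin 721 6 720)
(mv 719 (cons (fin 783 7 719)
(mv 720 (cons (fin 655 7 655)
(fin 913 4 720)))))))))))))
(mv 1104 (cons (mv 913 (cons (fin 849 6 848)
(fin 1168 6 912)))
(cons (mv 911 (cons (fin 847 7 847)
(mv 910 (cons (fin 909 0 909)
(mv 978 (cons (fin 979 3 911)
(mv 1101 (cons (fin 846 5 845)
(mv 1169 (cons (fin 1105 4 912)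
(mv 1168 (cons (fin 1233 4 976)
(mv 1229 (cons (fin 1165 6 973)
(mv 1231 (cons (fin 1167 5 975)
(mv 1232 (cons (fin 1230 2 1165)
(fin 1295 5 1039)))))))))))))))))))
(mv 911 (cons (fin 847 7 847)
(mv 910 (cons (fin 909 0 909)
(mv 913 (cons (fin 978 0 910)
(fin 849 6 848)))))))))))
(cons (mv 848 (cons (cons (mv 783 (cons (fin 847 7 783)
(mv 784 (cons (fin 719 7 719)
(mv 785 (cons (fin 721 6 720)
(fin 849 6 784)))))))
(cons (mv 783 (cons (fin 847 7 783)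
(mv 784 (cons (fin 719 7 719)
(mv 720 (cons (fin 913 4 720)
(mv 721 (cons (fin 657 6 656)
(fin 785 6 720)))))))))
(mv 783 (cons (fin 847 7 783)
(mv 784 (cons (fin 719 7 719)
(mv 913 (cons (fin 720 4 720)
(mv 1104 (cons (fin 849 6 848)
(fin 1168 6 912)))))))))))
(cons (mv 785 (cons (fin 849 6 784)
(mv 784 (cons (fin 721 6 720)
(mv 719 (cons (fin 783 7 719)
(mv 720 (cons (fin 655 7 655)
(fin 913 4 720)))))))))
(cons (mv 784 (cons (mv 785 (cons (fin 721 6 720)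
(fin 849 6 784)))
(cons (mv 720 (cons (fin 913 4 720)
(mv 655 (cons (fin 719 7 655)
(mv 656 (cons (fin 591 7 591)
(mv 657 (cons (fin 593 6 592)
(fin 721 6 656)))))))))
(mv 849 (cons (fin 785 6 784)
(mv 913 (cons (fin 1104 6 848)
(fin 720 4 720))))))))
(mv 785 (cons (fin 849 6 784)
(mv 847 (cons (fin 783 7 783)
(mv 1104 (cons (fin 911 7 847)
(mv 1168 (cons (fin 913 6 912)
(mv 1169 (cons (fin 1105 4 912)
(fin 1233 4 976)))))))))))))))
(mv 910 (cons (cons (mv 846 (cons (fin 1101 5 845)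
(mv 781 (cons (fin 845 7 781)
(mv 717 (cons (fin 782 7 717)
(mv 911 (cons (fin 909 0 909)
(mv 978 (cons (fin 979 3 911)
(fin 913 0 910)))))))))))
(mv 846 (cons (fin 1101 5 845)
(mv 781 (cons (fin 845 7 781)
(mv 782 (cons (fin 717 7 717)
(mv 783 (cons (fin 719 6 718)
(mv 784 (cons (cons (mv 720 (cons (fin 721 2 717)
(mv 848 (cons (fin 849 0 781)
(fin 913 4 720)))))
(mv 721 (cons (fin 720 2 717)
(mv 785 (cons (fin 722 2 718)
(fin 848 6 720))))))
(cons (mv 721 (cons (fin 720 2 717)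
(mv 785 (cons (fin 722 2 718)
(mv 849 (cons (fin 850 0 782)
(fin 913 5 720)))))))
(mv 849 (cons (fin 848 0 781)
(mv 785 (cons (fin 850 0 782)
(fin 913 5 784)))))))))))))))))
(cons (mv 911 (cons (fin 909 0 909)
(mv 978 (cons (fin 979 3 911)
(fin 913 0 910)))))
(mv 846 (cons (fin 1101 5 845)
(mv 909 (cons (fin 911 0 909)
(mv 782 (cons (cons (mv 781 (cons (fin 717 7 717)
(fin 845 7 781)))
(mv 719 (cons (fin 783 6 718)
(mv 718 (cons (fin 655 6 654)
(mv 653 (cons (fin 717 7 653)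
(mv 654 (cons (fin 589 7 589)
(fin 845 5 653))))))))))
(cons (mv 717 (cons (fin 781 7 717)
(mv 718 (cons (fin 653 7 653)
(mv 719 (cons (fin 655 6 654)
(fin 783 6 718)))))))
(mv 719 (cons (fin 783 6 718)
(mv 718 (cons (fin 655 6 654)
(mv 845 (cons (fin 781 7 781)
(fin 654 5 653)))))))))))))))))))))))))))
(mv 1101 (cons (cons (mv 910 (cons (fin 846 5 845)
(mv 1165 (cons (fin 1102 5 909)
(fin 973 6 909)))))
(mv 1165 (cons (fin 1229 6 973)
(mv 973 (cons (mv 908 (cons (fin 972 7 908)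
(mv 909 (cons (fin 844 7 844)
(mv 845 (cons (fin 781 4 781)
(fin 1102 4 845)))))))
(cons (mv 1164 (cons (fin 1228 5 972)
(mv 909 (cons (fin 1100 5 908)
(mv 845 (cons (fin 781 4 781)
(fin 1102 4 845)))))))
(mv 972 (cons (fin 908 7 908)
(mv 971 (cons (fin 970 0 970)
(mv 906 (cons (fin 907 3 906)
(mv 1035 (cons (fin 1034 1 970)
(mv 975 (cons (fin 1036 1 971)
(mv 912 (cons (fin 911 2 908)
(mv 976 (cons (fin 977 1 973)
(fin 913 2 909)))))))))))))))))))))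
(cons (mv 910 (cons (fin 846 5 845)
(mv 975 (cons (cons (mv 976 (cons (fin 977 1 973)
(mv 1036 (cons (fin 973 1 972)
(fin 1035 2 971)))))
(mv 1035 (cons (fin 1036 2 971)
(mv 909 (cons (mv 845 (cons (fin 1102 7 845)
(mv 781 (cons (fin 717 4 717)
(fin 973 4 781)))))
(cons (mv 908 (cons (fin 907 0 907)
(mv 844 (cons (fin 973 7 844)
(mv 911 (cons (fin 843 3 843)
(mv 847 (cons (fin 848 2 844)
(fin 783 5 782)))))))))
(mv 845 (cons (fin 1102 7 845)
(mv 717 (cons (fin 781 4 717)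
(mv 908 (cons (fin 907 0 907)
(mv 911 (cons (mv 844 (cons (fin 843 3 843)
(fin 912 3 844)))
(mv 847 (cons (fin 848 2 844)
(fin 783 5 782)))))))))))))))))
(cons (mv 976 (cons (fin 977 1 973)
(mv 911 (cons (mv 847 (cons (fin 783 5 782)
(fin 1102 6 846)))
(cons (mv 909 (cons (fin 908 0 908)
(mv 845 (cons (fin 1102 7 845)
(mv 781 (cons (fin 717 4 717)
(fin 973 4 781)))))))
(mv 847 (cons (fin 783 5 782)
(mv 1104 (cons (fin 912 7 847)
(fin 1168 7 911))))))))))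
(mv 976 (cons (fin 977 1 973)
(mv 1035 (cons (fin 1036 2 971)
(mv 911 (cons (mv 847 (cons (fin 783 5 782)
(fin 1102 6 846)))
(cons (mv 909 (cons (fin 908 0 908)
(mv 845 (cons (fin 1102 7 845)
(mv 717 (cons (fin 781 4 717)
(mv 912 (cons (fin 844 3 844)
(mv 849 (cons (fin 848 2 845)
(mv 913 (cons (fin 914 1 910)
(fin 850 2 846)))))))))))))
(mv 847 (cons (fin 783 5 782)
(mv 1104 (cons (fin 912 7 847)
(fin 1168 7 911)))))))))))))))))
(cons (mv 910 (cons (fin 846 5 845)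
(mv 1165 (cons (fin 1102 5 909)
(fin 1229 6 973)))))
(mv 910 (cons (fin 846 5 845)
(mv 1165 (cons (fin 973 6 909)
(fin 1229 6 973)))))))))))
(cons (cons (mv 1165 (cons (cons (mv 1101 (cons (fin 1229 6 973)
(mv 910 (cons (fin 846 5 845)
(fin 1102 5 909)))))
(mv 1166 (cons (cons (mv 1102 (cons (fin 1229 5 973)
(mv 911 (cons (fin 975 6 910)
(mv 847 (cons (fin 910 6 846)
(mv 1230 (cons (fin 973 7 973)
(mv 1231 (cons (fin 1167 4 974)
(fin 1295 4 1038)))))))))))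
(cons (mv 1167 (cons (cons (mv 1168 (cons (mv 1104 (cons (fin 1105 2 1101)
(mv 976 (cons (fin 1231 5 975)
(mv 975 (cons (fin 977 1 973)
(fin 911 7 911)))))))
(cons (mv 1228 (cons (fin 1229 1 1164)
(mv 1164 (cons (fin 1227 1 1163)
(mv 1232 (cons (fin 1231 0 1164)
(fin 1233 0 1165)))))))
(mv 1104 (cons (fin 1105 2 1101)
(mv 1228 (cons (fin 1229 1 1164)
(mv 1164 (cons (fin 1227 1 1163)
(mv 1099 (cons (fin 1100 3 1099)
(mv 1098 (cons (fin 1163 3 1098)
(mv 1035 (cons (fin 1036 1 1034)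
(mv 1233 (cons (fin 1232 0 1165)
(mv 1169 (cons (fin 1234 0 1166)
(fin 976 4 976))))))))))))))))))))
(cons (mv 1164 (cons (cons (mv 1099 (cons (fin 1100 3 1099)
(mv 1163 (cons (fin 1098 3 1098)
(mv 1227 (cons (fin 1226 1 1162)
(fin 1228 1 1163)))))))
(mv 1099 (cons (fin 1100 3 1099)
(mv 1163 (cons (fin 1098 3 1098)
(mv 1231 (cons (fin 1230 0 1163)
(fin 1232 0 1164))))))))
(cons (mv 1227 (cons (fin 1228 1 1163)
(mv 1163 (cons (fin 1226 1 1162)
(mv 1231 (cons (fin 1230 0 1163)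
(fin 1232 0 1164)))))))
(mv 1100 (cons (fin 1099 3 1099)
(mv 1228 (cons (fin 1227 1 1163)
(mv 1036 (cons (fin 973 6 972)
(mv 1035 (cons (fin 975 2 971)
(fin 971 7 971))))))))))))
(mv 1168 (cons (mv 1104 (cons (fin 1105 2 1101)
(mv 976 (cons (fin 1231 5 975)
(mv 975 (cons (fin 977 1 973)
(fin 911 7 911)))))))
(mv 1229 (cons (fin 1228 1 1164)
(mv 1169 (cons (fin 1230 1 1165)
(mv 1233 (cons (fin 1232 0 1165)
(fin 1234 0 1166)))))))))))
(cons (cons (mv 1168 (cons (cons (mv 1104 (cons (fin 1105 2 1101)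
(mv 976 (cons (fin 1231 5 975)
(mv 1233 (cons (fin 1232 0 1165)
(fin 1169 4 976)))))))
(mv 1228 (cons (fin 1229 1 1164)
(mv 1164 (cons (fin 1227 1 1163)
(mv 1232 (cons (fin 1231 0 1164)
(fin 1233 0 1165))))))))
(cons (mv 1104 (cons (fin 1105 2 1101)
(mv 976 (cons (fin 1231 5 975)
(mv 913 (cons (fin 977 6 912)
(mv 849 (cons (fin 912 6 848)
(mv 1169 (cons (fin 1233 4 976)
(mv 1229 (cons (fin 1228 1 1164)
(fin 1230 1 1165)))))))))))))
(cons (mv 1104 (cons (fin 1105 2 1101)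
(mv 976 (cons (fin 1231 5 975)
(mv 913 (cons (fin 977 6 912)
(mv 912 (cons (fin 849 6 848)
(mv 911 (cons (fin 847 7 847)
(mv 973 (cons (fin 910 1 909)
(mv 1228 (cons (fin 1229 1 1164)
(mv 1164 (cons (fin 1227 1 1163)
(mv 1100 (cons (fin 1099 3 1099)
(fin 1036 6 972)))))))))))))))))))
(mv 1104 (cons (fin 1105 2 1101)
(mv 1228 (cons (fin 1229 1 1164)
(mv 1164 (cons (fin 1227 1 1163)
(mv 1099 (cons (fin 1100 3 1099)
(mv 1098 (cons (fin 1163 3 1098)
(mv 1035 (cons (fin 1036 1 1034)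
(mv 1233 (cons (fin 1232 0 1165)
(mv 1169 (cons (fin 1234 0 1166)
(fin 976 4 976)))))))))))))))))))))
(mv 1168 (cons (mv 1104 (cons (fin 1105 2 1101)
(mv 976 (cons (fin 1231 5 975)
(mv 975 (cons (fin 977 1 973)
(fin 911 7 911)))))))
(cons (mv 1228 (cons (fin 1229 1 1164)
(mv 1164 (cons (fin 1227 1 1163)
(mv 1100 (cons (fin 1099 3 1099)
(mv 1036 (cons (fin 973 6 972)
(mv 1035 (cons (fin 975 2 971)
(fin 971 7 971)))))))))))
(mv 1104 (cons (fin 1105 2 1101)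
(mv 976 (cons (fin 1231 5 975)
(mv 913 (cons (fin 977 6 912)
(mv 849 (cons (fin 912 6 848)
(mv 1169 (cons (fin 1233 4 976)
(mv 1229 (cons (fin 1228 1 1164)
(fin 1230 1 1165)))))))))))))))))
(cons (mv 1168 (cons (mv 1104 (cons (fin 1105 2 1101)
(mv 976 (cons (fin 1231 5 975)
(mv 975 (cons (fin 977 1 973)
(fin 911 7 911)))))))
(cons (mv 1232 (cons (fin 1233 0 1165)
(mv 1164 (cons (fin 1231 0 1164)
(mv 1099 (cons (fin 1100 3 1099)
(mv 1163 (cons (fin 1098 3 1098)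
(mv 1226 (cons (fin 1227 1 1162)
(mv 1162 (cons (fin 1225 1 1161)
(mv 1035 (cons (fin 971 5 970)
(mv 1036 (cons (fin 975 2 971)
(mv 1034 (cons (fin 973 2 970)
(mv 969 (cons (fin 970 3 969)
(mv 1033 (cons (fin 968 3 968)
(mv 1097 (cons (fin 1096 1 1032)
(fin 1161 4 969)))))))))))))))))))))))))
(mv 1104 (cons (fin 1105 2 1101)
(mv 1233 (cons (fin 1232 0 1165)
(mv 1169 (cons (fin 1234 0 1166)
(fin 976 4 976))))))))))
(mv 1168 (cons (cons (mv 1104 (cons (fin 1105 2 1101)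
(mv 1228 (cons (fin 1229 1 1164)
(mv 1164 (cons (fin 1227 1 1163)
(mv 1099 (cons (fin 1100 3 1099)
(mv 1098 (cons (fin 1163 3 1098)
(mv 1035 (cons (fin 1036 1 1034)
(mv 1233 (cons (fin 1232 0 1165)
(mv 1169 (cons (fin 1234 0 1166)
(fin 976 4 976)))))))))))))))))
(mv 1104 (cons (fin 1105 2 1101)
(mv 1228 (cons (fin 1229 1 1164)
(mv 1164 (cons (fin 1227 1 1163)
(mv 1099 (cons (fin 1100 3 1099)
(mv 1163 (cons (fin 1098 3 1098)
(mv 1035 (cons (fin 971 4 971)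
(mv 975 (cons (fin 1036 2 971)
(mv 976 (cons (fin 977 1 973)
(fin 911 7 911))))))))))))))))))
(cons (mv 1104 (cons (fin 1105 2 1101)
(mv 1233 (cons (fin 1232 0 1165)
(mv 1169 (cons (fin 1234 0 1166)
(fin 976 4 976)))))))
(cons (mv 1228 (cons (fin 1229 1 1164)
(mv 1164 (cons (fin 1227 1 1163)
(mv 1099 (cons (fin 1100 3 1099)
(mv 1098 (cons (fin 1163 3 1098)
(mv 1036 (cons (fin 1035 1 1034)
(mv 1233 (cons (fin 1232 0 1165)
(mv 1169 (cons (fin 1234 0 1166)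
(mv 976 (cons (fin 1104 4 976)
(mv 975 (cons (fin 973 1 972)
(fin 977 1 973)))))))))))))))))))
(mv 1228 (cons (fin 1229 1 1164)
(mv 1164 (cons (fin 1227 1 1163)
(mv 1100 (cons (fin 1099 3 1099)
(mv 1036 (cons (fin 973 6 972)
(mv 1035 (cons (fin 975 2 971)
(fin 971 7 971)))))))))))))))))))
(mv 975 (cons (cons (mv 911 (cons (fin 1102 6 910)
(mv 783 (cons (fin 847 5 782)
(mv 976 (cons (fin 977 1 973)
(mv 1036 (cons (fin 973 1 972)
(fin 1035 2 971)))))))))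
(mv 976 (cons (fin 977 1 973)
(mv 1036 (cons (fin 973 1 972)
(fin 1035 2 971))))))
(cons (mv 1035 (cons (fin 1036 2 971)
(mv 1102 (cons (fin 911 6 910)
(mv 1230 (cons (fin 973 7 973)
(mv 1231 (cons (fin 1167 4 974)
(fin 1295 4 1038)))))))))
(mv 911 (cons (fin 1102 6 910)
(mv 847 (cons (fin 783 5 782)
(mv 976 (cons (fin 977 1 973)
(mv 1104 (cons (fin 912 7 847)
(fin 1168 7 911))))))))))))))
(cons (cons (mv 1102 (cons (fin 1229 5 973)
(mv 1230 (cons (fin 973 7 973)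
(mv 1231 (cons (fin 1167 4 974)
(fin 1295 4 1038)))))))
(mv 1102 (cons (fin 1229 5 973)
(mv 973 (cons (fin 1230 7 973)
(mv 975 (cons (fin 911 6 910)
(mv 976 (cons (fin 1036 1 972)
(fin 977 1 973))))))))))
(cons (mv 1102 (cons (fin 1229 5 973)
(mv 975 (cons (fin 911 6 910)
(mv 976 (cons (fin 977 1 973)
(mv 1036 (cons (fin 973 1 972)
(fin 1035 2 971)))))))))
(mv 1229 (cons (fin 1102 5 973)
(mv 1228 (cons (cons (mv 1167 (cons (fin 1168 1 1164)
(mv 1227 (cons (fin 1164 1 1163)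
(fin 1226 2 1162)))))
(mv 1167 (cons (fin 1168 1 1164)
(mv 1164 (cons (cons (mv 1099 (cons (fin 1100 3 1099)
(mv 1163 (cons (fin 1098 3 1098)
(mv 1162 (cons (fin 1161 0 1161)
(fin 1230 0 1162)))))))
(mv 1231 (cons (fin 1232 0 1164)
(mv 1163 (cons (fin 1230 3 1163)
(mv 1098 (cons (fin 1099 3 1098)
(mv 1162 (cons (fin 1097 3 1097)
(fin 1161 0 1161))))))))))
(cons (mv 1231 (cons (fin 1232 0 1164)
(mv 1230 (cons (fin 1163 3 1163)
(mv 1292 (cons (fin 1291 1 1227)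
(mv 1295 (cons (fin 1296 0 1228)
(mv 1356 (cons (fin 1420 6 1164)
(mv 1355 (cons (fin 1419 5 1163)
(mv 1293 (cons (fin 1294 1 1291)
(mv 1100 (cons (fin 1357 7 1100)
(fin 1036 4 1036)))))))))))))))))
(mv 1100 (cons (fin 1099 3 1099)
(mv 1036 (cons (fin 972 4 972)
(fin 1293 4 1036)))))))))))
(cons (mv 1227 (cons (fin 1226 2 1162)
(mv 1230 (cons (cons (mv 1162 (cons (fin 1163 3 1162)
(mv 1290 (cons (fin 1291 1 1226)
(mv 1295 (cons (fin 1294 0 1227)
(mv 1231 (cons (fin 1296 0 1228)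
(mv 1232 (cons (fin 1164 3 1164)
(fin 1233 3 1165)))))))))))
(mv 1290 (cons (fin 1291 1 1226)
(mv 1295 (cons (fin 1294 0 1227)
(mv 1231 (cons (fin 1296 0 1228)
(mv 1232 (cons (fin 1164 3 1164)
(fin 1233 3 1165))))))))))
(cons (mv 1162 (cons (fin 1163 3 1162)
(mv 1295 (cons (fin 1294 0 1227)
(mv 1231 (cons (fin 1296 0 1228)
(mv 1232 (cons (fin 1164 3 1164)
(fin 1233 3 1165)))))))))
(cons (mv 1162 (cons (fin 1163 3 1162)
(mv 1291 (cons (fin 1290 1 1226)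
(mv 1231 (cons (fin 1292 1 1227)
(mv 1232 (cons (fin 1164 3 1164)
(fin 1233 3 1165)))))))))
(mv 1162 (cons (fin 1163 3 1162)
(mv 1291 (cons (fin 1290 1 1226)
(mv 1294 (cons (fin 1295 0 1227)
(mv 1358 (cons (fin 1422 7 1165)
(mv 1357 (cons (fin 1421 5 1165)
(mv 1359 (cons (fin 1423 4 1166)
(mv 1292 (cons (fin 1356 3 1291)
(fin 1293 0 1291)))))))))))))))))))))
(mv 1167 (cons (fin 1168 1 1164)
(mv 1227 (cons (fin 1226 2 1162)
(fin 1230 2 1163)))))))))))))))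
(cons (mv 1101 (cons (mv 910 (cons (fin 846 5 845)
(fin 1102 5 909)))
(cons (mv 973 (cons (mv 972 (cons (fin 908 7 908)
(mv 971 (cons (fin 970 0 970)
(mv 906 (cons (fin 907 3 906)
(mv 1035 (cons (fin 1034 1 970)
(mv 975 (cons (fin 1036 1 971)
(mv 911 (cons (fin 912 2 908)
(mv 1166 (cons (fin 1102 6 910)
(fin 1230 4 973)))))))))))))))
(cons (mv 1164 (cons (fin 1228 5 972)
(mv 1166 (cons (fin 1230 4 973)
(mv 1167 (cons (mv 1100 (cons (fin 1099 3 1099)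
(fin 1168 3 1100)))
(mv 1231 (cons (fin 1232 0 1164)
(fin 1102 4 974)))))))))
(mv 972 (cons (fin 908 7 908)
(mv 971 (cons (fin 970 0 970)
(mv 906 (cons (fin 907 3 906)
(mv 1035 (cons (fin 1034 1 970)
(mv 975 (cons (fin 1036 1 971)
(mv 912 (cons (fin 911 2 908)
(mv 976 (cons (fin 977 1 973)
(fin 913 2 909))))))))))))))))))
(mv 910 (cons (fin 846 5 845)
(fin 973 6 909))))))
(cons (mv 1101 (cons (fin 1229 6 973)
(mv 973 (cons (mv 972 (cons (fin 908 7 908)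
(mv 971 (cons (fin 970 0 970)
(mv 906 (cons (fin 907 3 906)
(mv 1035 (cons (fin 1034 1 970)
(mv 975 (cons (fin 1036 1 971)
(mv 911 (cons (fin 912 2 908)
(mv 1166 (cons (fin 1102 6 910)
(fin 1230 4 973)))))))))))))))
(cons (mv 1164 (cons (fin 1228 5 972)
(mv 1166 (cons (fin 1230 4 973)
(mv 1167 (cons (mv 1100 (cons (fin 1099 3 1099)
(fin 1168 3 1100)))
(mv 1231 (cons (fin 1232 0 1164)
(fin 1102 4 974)))))))))
(mv 972 (cons (fin 908 7 908)
(mv 971 (cons (fin 970 0 970)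
(mv 906 (cons (fin 907 3 906)
(mv 1035 (cons (fin 1034 1 970)
(mv 975 (cons (fin 1036 1 971)
(mv 912 (cons (fin 911 2 908)
(mv 976 (cons (fin 977 1 973)
(fin 913 2 909))))))))))))))))))))
(mv 1101 (cons (fin 1229 6 973)
(mv 910 (cons (fin 846 5 845)
(fin 973 6 909)))))))))
(mv 1101 (cons (cons (mv 910 (cons (fin 846 5 845)
(mv 1165 (cons (fin 1102 5 909)
(fin 973 6 909)))))
(mv 910 (cons (fin 846 5 845)
(mv 909 (cons (cons (mv 845 (cons (fin 1102 7 845)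
(mv 781 (cons (fin 717 4 717)
(fin 973 4 781)))))
(mv 975 (cons (cons (mv 907 (cons (fin 908 0 907)
(mv 976 (cons (fin 977 3 909)
(mv 1036 (cons (fin 973 1 972)
(fin 1035 2 971)))))))
(mv 908 (cons (fin 907 0 907)
(mv 844 (cons (fin 973 7 844)
(mv 1036 (cons (fin 1035 2 971)
(fin 972 4 844))))))))
(cons (mv 976 (cons (fin 977 3 909)
(mv 1036 (cons (fin 973 1 972)
(fin 1035 2 971)))))
(cons (mv 908 (cons (fin 907 0 907)
(mv 973 (cons (fin 976 3 908)
(fin 844 7 844)))))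
(mv 908 (cons (fin 907 0 907)
(mv 976 (cons (fin 977 3 909)
(mv 1036 (cons (fin 1035 2 971)
(mv 972 (cons (fin 844 4 844)
(mv 1100 (cons (fin 845 6 844)
(mv 1099 (cons (fin 1098 2 1034)
(fin 1163 5 907))))))))))))))))))
(cons (mv 973 (cons (cons (mv 844 (cons (fin 908 7 844)
(mv 1100 (cons (fin 1164 5 908)
(mv 1099 (cons (fin 1098 2 1034)
(mv 1102 (cons (fin 1166 7 909)
(mv 1035 (cons (fin 1034 3 1034)
(mv 1036 (cons (fin 975 2 971)
(mv 970 (cons (fin 971 3 970)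
(mv 1163 (cons (fin 1162 1 1098)
(mv 1227 (cons (fin 972 6 971)
(fin 1291 6 1035)))))))))))))))))))
(mv 908 (cons (fin 844 7 844)
(mv 907 (cons (fin 906 0 906)
(fin 975 0 907))))))
(cons (mv 1100 (cons (fin 1164 5 908)
(mv 1099 (cons (fin 1098 2 1034)
(mv 1102 (cons (fin 1166 7 909)
(mv 1035 (cons (fin 1034 3 1034)
(mv 1036 (cons (fin 975 2 971)
(mv 970 (cons (fin 971 3 970)
(mv 1163 (cons (fin 1162 1 1098)
(mv 1227 (cons (fin 972 6 971)
(fin 1291 6 1035)))))))))))))))))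
(mv 908 (cons (fin 844 7 844)
(mv 906 (cons (fin 907 0 906)
(mv 1100 (cons (fin 1164 5 908)
(mv 1099 (cons (fin 1098 2 1034)
(mv 1102 (cons (fin 1166 7 909)
(mv 1035 (cons (fin 1034 3 1034)
(mv 1163 (cons (fin 1162 1 1098)
(mv 971 (cons (fin 970 7 906)
(fin 972 6 907))))))))))))))))))))
(mv 1036 (cons (cons (mv 845 (cons (fin 1102 7 845)
(mv 717 (cons (fin 781 4 717)
(mv 975 (cons (fin 1035 2 971)
(mv 908 (cons (fin 907 0 907)
(mv 972 (cons (fin 1100 6 844)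
(fin 844 4 844)))))))))))
(mv 845 (cons (fin 1102 7 845)
(mv 717 (cons (fin 781 4 717)
(mv 908 (cons (mv 972 (cons (fin 1100 6 844)
(fin 844 4 844)))
(mv 907 (cons (fin 975 0 907)
(mv 842 (cons (fin 843 3 842)
(mv 906 (cons (fin 841 3 841)
(mv 970 (cons (fin 969 1 905)
(fin 971 1 906))))))))))))))))
(cons (mv 1102 (cons (fin 845 7 845)
(mv 1035 (cons (fin 1034 0 1034)
(mv 971 (cons (fin 970 3 970)
(mv 1099 (cons (fin 1098 1 1034)
(mv 1100 (cons (mv 907 (cons (fin 843 4 843)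
(fin 1164 4 907)))
(cons (mv 843 (cons (fin 907 4 843)
(mv 1163 (cons (fin 1162 1 1098)
(mv 972 (cons (fin 908 5 907)
(fin 1227 6 971)))))))
(mv 1163 (cons (fin 1162 1 1098)
(mv 972 (cons (fin 908 5 907)
(fin 1227 6 971))))))))))))))))
(cons (mv 975 (cons (fin 1035 2 971)
(mv 908 (cons (fin 907 0 907)
(mv 972 (cons (fin 844 4 844)
(mv 976 (cons (fin 977 3 909)
(mv 1100 (cons (fin 845 6 844)
(mv 1099 (cons (fin 1098 2 1034)
(fin 1163 5 907)))))))))))))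
(mv 1035 (cons (fin 975 2 971)
(mv 970 (cons (fin 971 3 970)
(mv 1034 (cons (fin 969 3 969)
(fin 1102 0 1034)))))))))))))))))
(cons (mv 1165 (cons (fin 1229 6 973)
(mv 973 (cons (cons (mv 908 (cons (fin 972 7 908)
(mv 909 (cons (fin 844 7 844)
(mv 845 (cons (fin 781 4 781)
(fin 1102 4 845)))))))
(mv 1164 (cons (fin 1228 5 972)
(mv 909 (cons (fin 1100 5 908)
(mv 845 (cons (fin 781 4 781)
(fin 1102 4 845))))))))
(cons (mv 972 (cons (fin 908 7 908)
(mv 971 (cons (fin 970 0 970)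
(mv 906 (cons (fin 907 3 906)
(mv 1035 (cons (fin 1034 1 970)
(mv 1036 (cons (fin 975 1 971)
(mv 1099 (cons (fin 1098 1 1034)
(mv 1163 (cons (fin 1227 6 971)
(mv 1162 (cons (fin 1226 5 970)
(mv 1102 (cons (fin 1100 1 1098)
(fin 1164 2 1098)))))))))))))))))))
(mv 908 (cons (fin 972 7 908)
(mv 909 (cons (fin 844 7 844)
(mv 1164 (cons (fin 1100 5 908)
(fin 1228 5 972))))))))))))
(cons (mv 910 (cons (fin 846 5 845)
(mv 1165 (cons (fin 1102 5 909)
(fin 1229 6 973)))))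
(mv 910 (cons (fin 846 5 845)
(mv 1165 (cons (fin 973 6 909)
(fin 1229 6 973))))))))))
(cons (mv 1101 (cons (cons (mv 910 (cons (fin 846 5 845)
(mv 1165 (cons (fin 1102 5 909)
(fin 973 6 909)))))
(mv 910 (cons (fin 846 5 845)
(mv 1102 (cons (cons (mv 845 (cons (fin 909 7 845)
(mv 911 (cons (fin 847 6 846)
(mv 975 (cons (fin 1166 6 910)
(mv 976 (cons (fin 977 1 973)
(mv 1036 (cons (fin 973 1 972)
(fin 1035 2 971)))))))))))
(cons (mv 911 (cons (fin 847 6 846)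
(mv 975 (cons (fin 1166 6 910)
(mv 976 (cons (fin 977 1 973)
(mv 1036 (cons (fin 973 1 972)
(fin 1035 2 971)))))))))
(mv 909 (cons (fin 845 7 845)
(mv 973 (cons (fin 1166 7 909)
(mv 908 (cons (fin 844 7 844)
(mv 907 (cons (fin 906 0 906)
(fin 975 0 907)))))))))))
(cons (mv 847 (cons (fin 911 6 846)
(mv 909 (cons (fin 845 7 845)
(mv 908 (cons (cons (mv 844 (cons (fin 973 7 844)
(mv 907 (cons (fin 975 0 907)
(mv 842 (cons (fin 843 3 842)
(mv 906 (cons (fin 841 3 841)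
(mv 970 (cons (fin 969 1 905)
(fin 971 1 906)))))))))))
(mv 973 (cons (fin 844 7 844)
(mv 907 (cons (fin 906 0 906)
(mv 843 (cons (fin 842 3 842)
(mv 971 (cons (fin 970 1 906)
(mv 1100 (cons (fin 1164 5 908)
(mv 1035 (cons (fin 1036 4 843)
(mv 1034 (cons (fin 1099 3 1034)
(fin 1098 5 842))))))))))))))))
(cons (mv 907 (cons (fin 975 0 907)
(mv 842 (cons (fin 843 3 842)
(mv 906 (cons (fin 841 3 841)
(mv 970 (cons (fin 969 1 905)
(fin 971 1 906)))))))))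
(mv 973 (cons (fin 844 7 844)
(mv 975 (cons (fin 976 3 908)
(mv 1035 (cons (fin 1036 2 971)
(mv 1100 (cons (fin 1164 5 908)
(mv 1099 (cons (fin 1034 3 1034)
(fin 1098 2 1034))))))))))))))))))
(cons (mv 845 (cons (fin 909 7 845)
(mv 911 (cons (fin 847 6 846)
(mv 1166 (cons (fin 975 6 910)
(mv 1230 (cons (fin 1294 7 1037)
(mv 1231 (cons (fin 1167 4 974)
(fin 1295 4 1038)))))))))))
(mv 847 (cons (fin 911 6 846)
(mv 909 (cons (fin 845 7 845)
(mv 973 (cons (fin 1166 7 909)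
(mv 908 (cons (fin 844 7 844)
(mv 907 (cons (fin 906 0 906)
(mv 843 (cons (fin 842 3 842)
(mv 971 (cons (fin 970 1 906)
(mv 1100 (cons (fin 1164 5 908)
(mv 1035 (cons (fin 1036 4 843)
(mv 1034 (cons (fin 1099 3 1034)
(fin 1098 5 842))))))))))))))))))))))))))))
(cons (mv 1165 (cons (fin 1229 6 973)
(mv 973 (cons (cons (mv 1164 (cons (fin 1228 5 972)
(mv 909 (cons (fin 1100 5 908)
(mv 845 (cons (fin 781 4 781)
(fin 1102 4 845)))))))
(mv 1166 (cons (fin 1230 4 973)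
(mv 909 (cons (fin 1102 7 909)
(mv 844 (cons (fin 908 7 844)
(mv 845 (cons (fin 780 7 780)
(fin 781 4 781))))))))))
(cons (mv 1164 (cons (fin 1228 5 972)
(mv 1166 (cons (fin 1230 4 973)
(mv 1167 (cons (mv 1100 (cons (fin 1099 3 1099)
(fin 1168 3 1100)))
(mv 1231 (cons (fin 1232 0 1164)
(fin 1102 4 974)))))))))
(mv 1164 (cons (fin 1228 5 972)
(mv 909 (cons (fin 1100 5 908)
(mv 844 (cons (fin 908 7 844)
(mv 845 (cons (fin 780 7 780)
(fin 781 4 781))))))))))))))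
(cons (mv 910 (cons (fin 846 5 845)
(mv 1165 (cons (fin 1102 5 909)
(fin 1229 6 973)))))
(mv 910 (cons (fin 846 5 845)
(mv 1165 (cons (fin 973 6 909)
(fin 1229 6 973)))))))))
(mv 1101 (cons (cons (mv 910 (cons (fin 846 5 845)
(mv 1165 (cons (fin 1102 5 909)
(fin 973 6 909)))))
(cons (mv 910 (cons (fin 846 5 845)
(mv 1102 (cons (cons (mv 845 (cons (fin 909 7 845)
(mv 911 (cons (fin 847 6 846)
(mv 975 (cons (fin 1166 6 910)
(mv 976 (cons (fin 977 1 973)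
(mv 1036 (cons (fin 973 1 972)
(fin 1035 2 971)))))))))))
(cons (mv 911 (cons (fin 847 6 846)
(mv 975 (cons (fin 1166 6 910)
(mv 976 (cons (fin 977 1 973)
(mv 1036 (cons (fin 973 1 972)
(fin 1035 2 971)))))))))
(mv 909 (cons (fin 845 7 845)
(mv 973 (cons (fin 1166 7 909)
(mv 1100 (cons (fin 1164 5 908)
(mv 1099 (cons (fin 1098 2 1034)
(mv 1035 (cons (fin 1034 3 1034)
(mv 1036 (cons (fin 975 2 971)
(mv 970 (cons (fin 971 3 970)
(mv 1163 (cons (fin 1162 1 1098)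
(mv 1227 (cons (fin 972 6 971)
(fin 1291 6 1035)))))))))))))))))))))
(cons (mv 909 (cons (fin 845 7 845)
(mv 911 (cons (fin 847 6 846)
(mv 973 (cons (mv 912 (cons (fin 972 1 908)
(fin 913 1 909)))
(cons (mv 971 (cons (fin 972 2 907)
(mv 1100 (cons (fin 1164 5 908)
(mv 1099 (cons (fin 1098 2 1034)
(mv 1035 (cons (fin 1034 3 1034)
(mv 1036 (cons (fin 970 3 970)
(fin 975 2 971)))))))))))
(mv 912 (cons (fin 913 1 909)
(mv 976 (cons (fin 977 0 909)
(mv 1036 (cons (fin 975 1 972)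
(mv 1035 (cons (fin 1034 2 970)
(mv 971 (cons (fin 970 3 970)
(mv 1099 (cons (fin 1098 1 1034)
(mv 1163 (cons (cons (mv 1100 (cons (fin 1162 1 1098)
(fin 1164 5 908)))
(mv 1226 (cons (fin 1162 5 970)
(mv 1227 (cons (fin 1290 5 1034)
(mv 1228 (cons (fin 1164 4 971)
(fin 1292 4 1035))))))))
(cons (mv 1162 (cons (fin 1100 1 1098)
(fin 1226 5 970)))
(mv 1164 (cons (fin 1100 5 908)
(fin 1228 4 971)))))))))))))))))))))))))
(cons (mv 845 (cons (fin 909 7 845)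
(mv 911 (cons (fin 847 6 846)
(mv 1166 (cons (fin 975 6 910)
(mv 1230 (cons (fin 1294 7 1037)
(mv 1231 (cons (fin 1167 4 974)
(fin 1295 4 1038)))))))))))
(mv 847 (cons (fin 911 6 846)
(mv 909 (cons (fin 845 7 845)
(mv 1166 (cons (fin 973 7 909)
(mv 1230 (cons (fin 1294 7 1037)
(mv 1231 (cons (fin 1167 4 974)
(fin 1295 4 1038)))))))))))))))))
(mv 1165 (cons (fin 1229 6 973)
(mv 973 (cons (cons (mv 1164 (cons (fin 1228 5 972)
(mv 909 (cons (fin 1100 5 908)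
(mv 845 (cons (fin 781 4 781)
(fin 1102 4 845)))))))
(mv 1166 (cons (fin 1230 4 973)
(mv 909 (cons (fin 1102 7 909)
(mv 845 (cons (fin 781 4 781)
(mv 780 (cons (fin 844 7 780)
(mv 782 (cons (fin 846 6 781)
(mv 1036 (cons (fin 1100 5 844)
(mv 975 (cons (fin 976 1 972)
(fin 1035 2 971))))))))))))))))
(cons (mv 1164 (cons (fin 1228 5 972)
(mv 1166 (cons (fin 1230 4 973)
(mv 1167 (cons (mv 1100 (cons (fin 1099 3 1099)
(fin 1168 3 1100)))
(mv 1231 (cons (fin 1232 0 1164)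
(fin 1102 4 974)))))))))
(cons (mv 1164 (cons (fin 1228 5 972)
(mv 1100 (cons (fin 909 5 908)
(mv 1099 (cons (fin 1098 2 1034)
(mv 1166 (cons (fin 1167 3 1099)
(fin 1230 4 973)))))))))
(mv 1164 (cons (fin 1228 5 972)
(mv 1166 (cons (fin 1230 4 973)
(mv 1102 (cons (fin 909 7 909)
(mv 975 (cons (fin 911 6 910)
(mv 976 (cons (fin 1036 1 972)
(fin 977 1 973)))))))))))))))))))
(cons (mv 1165 (cons (fin 1229 6 973)
(mv 910 (cons (fin 1102 5 909)
(fin 973 6 909)))))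
(cons (mv 910 (cons (fin 846 5 845)
(mv 1165 (cons (fin 1102 5 909)
(fin 1229 6 973)))))
(mv 910 (cons (fin 846 5 845)
(mv 1165 (cons (fin 973 6 909)
(fin 1229 6 973)))))))))))))))
(cons (mv 1036 (cons (cons (mv 1039 (cons (mv 976 (cons (fin 975 2 972)
(fin 977 2 973)))
(mv 1100 (cons (fin 1099 1 1035)
(fin 1101 1 1036)))))
(cons (mv 1035 (cons (cons (mv 970 (cons (fin 971 3 970)
(mv 974 (cons (fin 975 2 971)
(mv 1034 (cons (fin 969 3 969)
(mv 1098 (cons (fin 1097 1 1033)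
(fin 1099 1 1034)))))))))
(cons (mv 971 (cons (fin 970 3 970)
(mv 974 (cons (fin 975 2 971)
(mv 1101 (cons (cons (mv 846 (cons (fin 910 5 845)
(mv 1034 (cons (fin 1102 0 1034)
(mv 1033 (cons (fin 1100 0 1033)
(mv 968 (cons (fin 969 3 968)
(mv 1032 (cons (fin 967 3 967)
(fin 972 2 968)))))))))))
(mv 846 (cons (fin 910 5 845)
(mv 1165 (cons (fin 1229 6 973)
(mv 1100 (cons (cons (mv 843 (cons (fin 907 4 843)
(mv 972 (cons (fin 908 4 908)
(mv 1033 (cons (fin 1034 0 1033)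
(mv 1164 (cons (fin 1228 7 971)
(mv 1163 (cons (fin 1227 5 971)
(mv 1162 (cons (fin 1161 2 1097)
(mv 1226 (cons (fin 1225 1 1161)
(fin 1099 5 970)))))))))))))))
(mv 907 (cons (fin 843 4 843)
(mv 908 (cons (fin 972 4 908)
(mv 844 (cons (fin 1099 6 843)
(mv 716 (cons (fin 780 5 715)
(mv 845 (cons (fin 847 1 843)
(mv 906 (cons (fin 905 2 841)
(fin 909 2 842))))))))))))))
(cons (mv 907 (cons (fin 843 4 843)
(mv 1164 (cons (fin 1228 7 971)
(fin 1099 4 907)))))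
(cons (mv 972 (cons (fin 908 4 908)
(mv 1033 (cons (fin 1034 0 1033)
(mv 1164 (cons (fin 1228 7 971)
(mv 1163 (cons (fin 1227 5 971)
(mv 1162 (cons (fin 1161 2 1097)
(mv 1226 (cons (fin 1225 1 1161)
(fin 1099 5 970)))))))))))))
(mv 907 (cons (fin 843 4 843)
(mv 972 (cons (fin 1164 7 907)
(fin 908 4 908))))))))))))))
(cons (mv 1034 (cons (fin 1102 0 1034)
(mv 1033 (cons (fin 1100 0 1033)
(mv 968 (cons (fin 969 3 968)
(mv 1032 (cons (fin 967 3 967)
(fin 972 2 968)))))))))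
(mv 910 (cons (fin 846 5 845)
(mv 1165 (cons (fin 1102 5 909)
(fin 1229 6 973))))))))))))
(mv 974 (cons (fin 975 2 971)
(mv 1098 (cons (fin 1099 1 1034)
(mv 1034 (cons (fin 1097 1 1033)
(mv 1101 (cons (fin 1102 0 1034)
(mv 846 (cons (fin 910 5 845)
(mv 1100 (cons (fin 1033 0 1033)
(mv 1165 (cons (fin 1229 6 973)
(mv 972 (cons (fin 908 4 908)
(mv 1164 (cons (mv 971 (cons (fin 907 7 907)
(fin 1228 7 971)))
(cons (mv 1227 (cons (fin 1163 5 971)
(mv 1228 (cons (fin 1291 5 1035)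
(fin 1292 6 1036)))))
(mv 971 (cons (fin 907 7 907)
(mv 1162 (cons (fin 1226 6 970)
(mv 1163 (cons (fin 1161 2 1097)
(fin 1227 5 971))))))))))))))))))))))))))))
(cons (cons (mv 970 (cons (fin 971 3 970)
(mv 974 (cons (fin 975 2 971)
(mv 1034 (cons (fin 969 3 969)
(mv 1097 (cons (fin 1098 1 1033)
(mv 1033 (cons (fin 1096 1 1032)
(mv 1101 (cons (fin 1100 0 1033)
(fin 1102 0 1034)))))))))))))
(mv 974 (cons (fin 975 2 971)
(mv 1098 (cons (fin 1099 1 1034)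
(mv 1034 (cons (fin 1097 1 1033)
(mv 969 (cons (fin 970 3 969)
(mv 1033 (cons (fin 968 3 968)
(mv 1101 (cons (fin 1100 0 1033)
(fin 1102 0 1034))))))))))))))
(cons (mv 970 (cons (fin 971 3 970)
(mv 1034 (cons (fin 969 3 969)
(mv 1098 (cons (fin 1097 1 1033)
(fin 1099 1 1034)))))))
(mv 971 (cons (fin 970 3 970)
(mv 974 (cons (fin 975 2 971)
(mv 1099 (cons (fin 1098 1 1034)
(mv 1163 (cons (mv 972 (cons (fin 908 6 907)
(fin 1227 6 971)))
(cons (mv 1162 (cons (fin 1226 5 970)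
(mv 1164 (cons (fin 1228 4 971)
(mv 907 (cons (fin 1100 4 907)
(mv 842 (cons (fin 906 7 842)
(mv 843 (cons (fin 778 7 778)
(mv 844 (cons (fin 780 6 779)
(fin 908 6 843)))))))))))))
(mv 972 (cons (fin 1227 6 971)
(mv 1162 (cons (fin 1226 5 970)
(mv 1164 (cons (fin 1228 4 971)
(mv 907 (cons (fin 1100 7 907)
(mv 842 (cons (fin 906 7 842)
(mv 843 (cons (fin 778 7 778)
(fin 779 4 779))))))))))))))))))))))))))
(mv 1035 (cons (cons (mv 970 (cons (fin 971 3 970)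
(mv 974 (cons (fin 975 2 971)
(mv 1034 (cons (fin 969 3 969)
(mv 1098 (cons (fin 1097 1 1033)
(fin 1099 1 1034)))))))))
(mv 1098 (cons (fin 1099 1 1034)
(mv 1034 (cons (fin 1097 1 1033)
(mv 969 (cons (fin 970 3 969)
(mv 968 (cons (fin 1033 3 968)
(mv 976 (cons (cons (mv 975 (cons (fin 974 2 971)
(fin 1039 2 972)))
(mv 1101 (cons (fin 1102 0 1034)
(mv 1104 (cons (cons (mv 1039 (cons (fin 977 2 973)
(fin 1105 0 1037)))
(mv 912 (cons (cons (mv 847 (cons (fin 911 7 847)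
(mv 783 (cons (fin 848 7 783)
(mv 913 (cons (fin 849 6 848)
(mv 1168 (cons (fin 977 6 912)
(mv 1169 (cons (fin 1105 4 912)
(fin 1233 4 976)))))))))))
(mv 847 (cons (fin 911 7 847)
(mv 1169 (cons (fin 1105 4 912)
(mv 1168 (cons (fin 1233 4 976)
(mv 1231 (cons (fin 1167 5 975)
(mv 1232 (cons (fin 1295 5 1039)
(mv 1229 (cons (fin 1230 2 1165)
(mv 1165 (cons (fin 972 7 972)
(fin 974 6 973))))))))))))))))
(cons (mv 849 (cons (fin 913 6 848)
(mv 1169 (cons (fin 1105 4 912)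
(mv 1168 (cons (fin 1233 4 976)
(mv 1231 (cons (fin 1167 5 975)
(mv 1232 (cons (fin 1295 5 1039)
(mv 1229 (cons (fin 1230 2 1165)
(mv 1165 (cons (fin 972 7 972)
(fin 974 6 973)))))))))))))))
(mv 847 (cons (fin 911 7 847)
(mv 848 (cons (fin 783 7 783)
(mv 849 (cons (fin 785 6 784)
(fin 913 6 848)))))))))))
(cons (mv 1105 (cons (fin 1039 0 1037)
(mv 912 (cons (fin 1169 4 912)
(mv 847 (cons (fin 911 7 847)
(mv 848 (cons (fin 783 7 783)
(mv 849 (cons (fin 785 6 784)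
(fin 913 6 848)))))))))))
(mv 977 (cons (fin 1039 2 973)
(mv 913 (cons (fin 1168 6 912)
(mv 849 (cons (fin 785 5 784)
(fin 912 6 848)))))))))))))
(cons (mv 974 (cons (fin 975 2 971)
(mv 910 (cons (cons (mv 1101 (cons (fin 1102 0 1034)
(fin 846 5 845)))
(mv 847 (cons (cons (mv 783 (cons (fin 846 6 782)
(mv 911 (cons (fin 719 5 718)
(fin 1102 6 846)))))
(mv 846 (cons (fin 783 6 782)
(mv 845 (cons (fin 781 7 781)
(mv 909 (cons (fin 1102 7 845)
(mv 848 (cons (fin 908 1 844)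
(fin 849 1 845))))))))))
(cons (mv 911 (cons (fin 1102 6 846)
(mv 912 (cons (fin 1104 7 847)
(mv 909 (cons (fin 977 0 909)
(mv 848 (cons (fin 908 2 844)
(fin 849 2 845)))))))))
(mv 783 (cons (fin 846 6 782)
(mv 911 (cons (fin 719 5 718)
(mv 912 (cons (fin 848 7 783)
(fin 1104 7 847)))))))))))
(cons (mv 846 (cons (fin 1101 5 845)
(mv 781 (cons (fin 845 7 781)
(mv 782 (cons (fin 717 7 717)
(mv 783 (cons (fin 719 6 718)
(fin 847 6 782)))))))))
(mv 1102 (cons (fin 1101 0 1034)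
(mv 909 (cons (fin 845 7 845)
(mv 911 (cons (fin 847 6 846)
(mv 912 (cons (fin 977 0 909)
(mv 849 (cons (fin 848 2 845)
(mv 913 (cons (fin 850 2 846)
(fin 1104 6 848))))))))))))))))))
(mv 1039 (cons (fin 975 2 972)
(fin 977 2 973)))))))))))))))
(cons (mv 1098 (cons (fin 1099 1 1034)
(mv 1034 (cons (fin 1097 1 1033)
(mv 976 (cons (cons (mv 975 (cons (fin 974 2 971)
(fin 1039 2 972)))
(mv 974 (cons (fin 975 2 971)
(mv 910 (cons (cons (mv 1101 (cons (fin 1102 0 1034)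
(fin 846 5 845)))
(mv 847 (cons (cons (mv 783 (cons (fin 846 6 782)
(mv 911 (cons (fin 719 5 718)
(fin 1102 6 846)))))
(mv 846 (cons (fin 783 6 782)
(mv 845 (cons (fin 781 7 781)
(mv 909 (cons (fin 1102 7 845)
(mv 848 (cons (fin 908 1 844)
(fin 849 1 845))))))))))
(cons (mv 911 (cons (fin 1102 6 846)
(mv 912 (cons (fin 1104 7 847)
(mv 909 (cons (fin 977 0 909)
(mv 848 (cons (fin 908 2 844)
(fin 849 2 845)))))))))
(mv 783 (cons (fin 846 6 782)
(mv 911 (cons (fin 719 5 718)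
(mv 912 (cons (fin 848 7 783)
(fin 1104 7 847)))))))))))
(cons (mv 846 (cons (fin 1101 5 845)
(mv 781 (cons (fin 845 7 781)
(mv 782 (cons (fin 717 7 717)
(mv 783 (cons (fin 719 6 718)
(fin 847 6 782)))))))))
(mv 1102 (cons (fin 1101 0 1034)
(mv 909 (cons (fin 845 7 845)
(mv 911 (cons (fin 847 6 846)
(mv 912 (cons (fin 977 0 909)
(mv 849 (cons (fin 848 2 845)
(mv 913 (cons (fin 850 2 846)
(fin 1104 6 848)))))))))))))))))))
(cons (mv 1101 (cons (fin 1102 0 1034)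
(mv 1104 (cons (mv 1039 (cons (fin 977 2 973)
(fin 1105 0 1037)))
(cons (mv 912 (cons (cons (mv 847 (cons (fin 911 7 847)
(mv 783 (cons (fin 848 7 783)
(mv 849 (cons (fin 913 6 848)
(mv 1169 (cons (fin 1105 4 912)
(mv 1168 (cons (fin 1233 4 976)
(mv 1231 (cons (fin 1167 5 975)
(mv 1232 (cons (fin 1295 5 1039)
(mv 1229 (cons (fin 1230 2 1165)
(mv 1165 (cons (fin 972 7 972)
(fin 974 6 973)))))))))))))))))))
(mv 847 (cons (fin 911 7 847)
(mv 783 (cons (fin 848 7 783)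
(mv 1169 (cons (fin 1105 4 912)
(mv 1168 (cons (fin 1233 4 976)
(mv 1231 (cons (fin 1167 5 975)
(mv 1232 (cons (fin 1295 5 1039)
(mv 1170 (cons (fin 1171 1 1167)
(mv 1229 (cons (fin 1230 2 1165)
(mv 1165 (cons (fin 972 7 972)
(fin 974 6 973))))))))))))))))))))
(cons (mv 849 (cons (fin 913 6 848)
(mv 785 (cons (fin 848 6 784)
(mv 1169 (cons (fin 1105 4 912)
(mv 1168 (cons (fin 1233 4 976)
(mv 1231 (cons (fin 1167 5 975)
(mv 1232 (cons (fin 1295 5 1039)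
(mv 1170 (cons (fin 1171 1 1167)
(mv 1229 (cons (fin 1230 2 1165)
(mv 1165 (cons (fin 972 7 972)
(fin 974 6 973)))))))))))))))))))
(cons (mv 847 (cons (fin 911 7 847)
(mv 848 (cons (fin 783 7 783)
(mv 849 (cons (fin 785 6 784)
(fin 913 6 848)))))))
(mv 847 (cons (fin 911 7 847)
(mv 849 (cons (fin 913 6 848)
(mv 1169 (cons (fin 1105 4 912)
(mv 1168 (cons (fin 1233 4 976)
(mv 1231 (cons (fin 1167 5 975)
(mv 1232 (cons (fin 1295 5 1039)
(mv 1170 (cons (fin 1171 1 1167)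
(mv 1229 (cons (fin 1230 2 1165)
(mv 1165 (cons (fin 972 7 972)
(fin 974 6 973)))))))))))))))))))))))
(mv 977 (cons (fin 1039 2 973)
(mv 913 (cons (fin 1168 6 912)
(mv 849 (cons (fin 785 5 784)
(fin 912 6 848))))))))))))
(mv 1039 (cons (fin 975 2 972)
(fin 977 2 973))))))))))
(cons (mv 970 (cons (fin 971 3 970)
(mv 1034 (cons (fin 969 3 969)
(mv 1098 (cons (fin 1097 1 1033)
(fin 1099 1 1034)))))))
(mv 971 (cons (fin 970 3 970)
(mv 975 (cons (fin 974 2 971)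
(mv 1039 (cons (fin 972 3 971)
(fin 976 2 972)))))))))))))
(cons (mv 1039 (cons (mv 976 (cons (fin 975 2 972)
(fin 977 2 973)))
(cons (mv 971 (cons (fin 972 3 971)
(mv 1035 (cons (fin 970 3 970)
(mv 974 (cons (fin 975 2 971)
(mv 1101 (cons (fin 1100 1 1036)
(mv 910 (cons (fin 846 5 845)
(mv 1102 (cons (fin 1034 0 1034)
(fin 1165 5 909)))))))))))))
(mv 971 (cons (fin 972 3 971)
(mv 976 (cons (fin 977 2 973)
(mv 1035 (cons (fin 970 3 970)
(mv 1101 (cons (fin 1100 1 1036)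
(mv 1104 (cons (fin 1105 0 1037)
(mv 1168 (cons (cons (mv 1034 (cons (fin 1102 0 1034)
(mv 1097 (cons (fin 1098 1 1033)
(mv 1033 (cons (fin 1096 1 1032)
(mv 968 (cons (fin 969 3 968)
(mv 967 (cons (fin 1032 3 967)
(mv 1231 (cons (fin 1167 5 975)
(mv 1232 (cons (fin 1295 5 1039)
(mv 1233 (cons (fin 1169 4 976)
(fin 1297 4 1040)))))))))))))))))
(cons (mv 1167 (cons (fin 1231 5 975)
(mv 1169 (cons (fin 1233 4 976)
(mv 1166 (cons (fin 1102 3 1101)
(mv 1229 (cons (fin 1230 1 1165)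
(mv 1165 (cons (fin 1228 1 1164)
(fin 974 6 973)))))))))))
(mv 1169 (cons (fin 1233 4 976)
(mv 1229 (cons (cons (mv 974 (cons (fin 1165 6 973)
(mv 846 (cons (fin 910 5 845)
(mv 1102 (cons (fin 1034 0 1034)
(mv 1166 (cons (fin 1167 3 1101)
(mv 1230 (cons (fin 1294 7 1037)
(fin 1293 5 1037)))))))))))
(mv 1102 (cons (fin 1034 0 1034)
(mv 1166 (cons (fin 1167 3 1101)
(mv 1230 (cons (fin 1294 7 1037)
(fin 1293 5 1037))))))))
(cons (mv 1165 (cons (fin 974 6 973)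
(mv 1292 (cons (fin 1228 5 1036)
(mv 1293 (cons (fin 1356 5 1100)
(mv 1294 (cons (fin 1230 4 1037)
(fin 1358 4 1101)))))))))
(mv 1034 (cons (fin 1102 0 1034)
(mv 1098 (cons (fin 1097 1 1033)
(mv 843 (cons (fin 907 5 842)
(mv 1165 (cons (fin 974 6 973)
(mv 1226 (cons (fin 1162 6 970)
(mv 1228 (cons (fin 1292 5 1036)
(mv 1166 (cons (fin 1167 1 1164)
(fin 1227 2 1162))))))))))))))))))))))
(cons (cons (mv 1102 (cons (fin 1034 0 1034)
(mv 1167 (cons (fin 1231 5 975)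
(mv 1166 (cons (fin 1169 3 1101)
(mv 1230 (cons (fin 1294 7 1037)
(mv 1229 (cons (fin 1293 5 1037)
(mv 1165 (cons (fin 1228 1 1164)
(fin 974 5 973)))))))))))))
(mv 1167 (cons (fin 1231 5 975)
(mv 1233 (cons (fin 1169 4 976)
(mv 1232 (cons (fin 1297 4 1040)
(mv 1165 (cons (fin 1166 0 1165)
(mv 1229 (cons (fin 974 6 973)
(mv 1234 (cons (fin 1235 3 1167)
(mv 1292 (cons (fin 1228 5 1036)
(mv 1293 (cons (fin 1356 5 1100)
(mv 1294 (cons (fin 1230 4 1037)
(fin 1358 4 1101))))))))))))))))))))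
(cons (mv 1102 (cons (fin 1034 0 1034)
(mv 1231 (cons (fin 1167 5 975)
(mv 1232 (cons (fin 1295 5 1039)
(mv 1297 (cons (fin 1233 4 1040)
(mv 1296 (cons (fin 1361 4 1104)
(mv 1229 (cons (fin 1230 0 1229)
(mv 1165 (cons (fin 974 6 973)
(fin 1293 6 1037)))))))))))))))
(mv 1102 (cons (fin 1034 0 1034)
(mv 1233 (cons (fin 1169 4 976)
(mv 1232 (cons (fin 1297 4 1040)
(mv 1231 (cons (fin 1295 5 1039)
(mv 1230 (cons (cons (mv 1166 (cons (fin 1165 3 1165)
(fin 1294 7 1037)))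
(mv 1293 (cons (fin 1294 1 1229)
(mv 1229 (cons (fin 1292 1 1228)
(fin 1165 6 1037))))))
(cons (mv 1165 (cons (fin 1166 3 1165)
(mv 974 (cons (fin 910 5 909)
(fin 1229 6 973)))))
(mv 1294 (cons (fin 1293 1 1229)
(fin 1166 7 1037)))))))))))))))))))))))))))))))
(cons (mv 1035 (cons (cons (mv 970 (cons (fin 971 3 970)
(mv 1034 (cons (fin 969 3 969)
(mv 1098 (cons (fin 1097 1 1033)
(fin 1099 1 1034)))))))
(cons (mv 970 (cons (fin 971 3 970)
(mv 1034 (cons (fin 969 3 969)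
(mv 1097 (cons (fin 1098 1 1033)
(mv 1033 (cons (fin 1096 1 1032)
(mv 1101 (cons (fin 1100 0 1033)
(fin 1102 0 1034)))))))))))
(mv 1098 (cons (fin 1099 1 1034)
(mv 1034 (cons (fin 1097 1 1033)
(mv 969 (cons (fin 970 3 969)
(mv 1033 (cons (fin 968 3 968)
(mv 1101 (cons (fin 1100 0 1033)
(fin 1102 0 1034)))))))))))))
(cons (mv 970 (cons (fin 971 3 970)
(mv 1034 (cons (fin 969 3 969)
(mv 1101 (cons (fin 1102 0 1034)
(mv 1100 (cons (fin 1039 1 1036)
(fin 1033 0 1033)))))))))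
(cons (mv 1098 (cons (fin 1099 1 1034)
(mv 1034 (cons (fin 1097 1 1033)
(mv 1101 (cons (fin 1102 0 1034)
(mv 1100 (cons (fin 1039 1 1036)
(fin 1033 0 1033)))))))))
(mv 971 (cons (fin 970 3 970)
(mv 972 (cons (fin 1039 3 971)
(mv 1099 (cons (fin 1098 1 1034)
(mv 908 (cons (fin 844 5 843)
(fin 1163 6 907)))))))))))))
(mv 1039 (cons (mv 976 (cons (fin 975 2 972)
(fin 977 2 973)))
(mv 971 (cons (fin 972 3 971)
(mv 1035 (cons (fin 970 3 970)
(mv 1099 (cons (fin 1098 1 1034)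
(fin 1100 1 1035)))))))))))))
(cons (mv 973 (cons (cons (mv 1039 (cons (fin 972 3 972)
(mv 976 (cons (fin 977 2 973)
(mv 975 (cons (fin 1036 2 972)
(mv 1104 (cons (fin 1105 0 1037)
(mv 911 (cons (fin 1168 7 911)
(fin 847 4 847)))))))))))
(cons (mv 972 (cons (cons (cons (mv 971 (cons (fin 970 0 970)
(mv 974 (cons (cons (cons (mv 906 (cons (fin 907 3 906)
(mv 910 (cons (fin 911 2 907)
(mv 782 (cons (fin 846 5 781)
(mv 1035 (cons (fin 1034 1 970)
(mv 975 (cons (fin 1036 1 971)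
(mv 976 (cons (fin 977 1 973)
(mv 909 (cons (fin 908 3 908)
(mv 845 (cons (fin 1102 7 845)
(fin 781 4 781)))))))))))))))))
(mv 906 (cons (fin 907 3 906)
(mv 910 (cons (fin 911 2 907)
(mv 846 (cons (fin 782 5 781)
(mv 783 (cons (fin 847 6 782)
(mv 845 (cons (fin 781 7 781)
(mv 909 (cons (fin 1102 7 845)
(mv 844 (cons (fin 780 7 780)
(mv 843 (cons (fin 842 0 842)
(mv 779 (cons (fin 778 3 778)
(mv 1036 (cons (fin 908 7 779)
(fin 1100 5 844))))))))))))))))))))))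
(cons (mv 906 (cons (fin 907 3 906)
(mv 1035 (cons (fin 1034 1 970)
(mv 975 (cons (fin 1036 1 971)
(mv 911 (cons (fin 912 2 908)
(mv 783 (cons (fin 847 5 782)
(mv 976 (cons (fin 977 1 973)
(mv 909 (cons (fin 908 3 908)
(mv 845 (cons (fin 781 4 781)
(fin 1102 4 845)))))))))))))))))
(mv 906 (cons (fin 907 3 906)
(mv 1035 (cons (fin 1034 1 970)
(mv 975 (cons (fin 1036 1 971)
(mv 976 (cons (fin 977 1 973)
(mv 909 (cons (fin 908 3 908)
(mv 845 (cons (fin 781 4 781)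
(fin 1102 4 845)))))))))))))))
(cons (cons (mv 910 (cons (fin 911 2 907)
(mv 782 (cons (fin 846 5 781)
(mv 1035 (cons (fin 1034 1 970)
(mv 975 (cons (fin 1036 1 971)
(mv 976 (cons (fin 977 1 973)
(mv 909 (cons (fin 908 3 908)
(mv 845 (cons (fin 1102 7 845)
(fin 781 4 781)))))))))))))))
(mv 906 (cons (fin 907 3 906)
(mv 910 (cons (fin 911 2 907)
(mv 846 (cons (fin 782 5 781)
(mv 845 (cons (fin 781 7 781)
(mv 847 (cons (fin 783 6 782)
(mv 909 (cons (fin 1102 7 845)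
(mv 848 (cons (fin 908 1 844)
(fin 849 1 845))))))))))))))))
(cons (mv 906 (cons (fin 907 3 906)
(mv 910 (cons (fin 911 2 907)
(mv 782 (cons (fin 846 5 781)
(mv 1035 (cons (fin 1034 1 970)
(mv 1036 (cons (fin 975 1 971)
(mv 1099 (cons (fin 1098 1 1034)
(mv 908 (cons (fin 844 5 843)
(fin 1163 6 907)))))))))))))))
(mv 906 (cons (fin 907 3 906)
(mv 910 (cons (fin 911 2 907)
(mv 782 (cons (fin 846 5 781)
(mv 1035 (cons (fin 1034 1 970)
(mv 1036 (cons (fin 975 1 971)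
(mv 1099 (cons (fin 1098 1 1034)
(mv 1163 (cons (fin 1227 6 971)
(mv 1162 (cons (fin 1226 5 970)
(mv 1164 (cons (fin 1228 4 971)
(mv 909 (cons (fin 1100 6 908)
(mv 845 (cons (fin 1102 7 845)
(fin 781 5 780)))))))))))))))))))))))))))))
(cons (mv 974 (cons (cons (mv 975 (cons (mv 976 (cons (fin 1036 1 972)
(fin 977 1 973)))
(mv 907 (cons (fin 908 3 907)
(mv 911 (cons (fin 912 2 908)
(mv 847 (cons (fin 783 5 782)
(mv 1102 (cons (fin 910 6 846)
(fin 1166 6 910)))))))))))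
(cons (mv 910 (cons (cons (mv 846 (cons (fin 782 5 781)
(mv 781 (cons (fin 845 7 781)
(mv 847 (cons (fin 783 6 782)
(mv 911 (cons (fin 1102 6 846)
(mv 912 (cons (fin 909 1 908)
(fin 913 1 909)))))))))))
(cons (mv 909 (cons (mv 845 (cons (fin 1102 7 845)
(fin 781 4 781)))
(cons (mv 911 (cons (fin 912 1 908)
(mv 1102 (cons (fin 1166 7 909)
(fin 847 6 846)))))
(mv 845 (cons (fin 781 4 781)
(mv 844 (cons (fin 780 7 780)
(mv 842 (cons (fin 843 0 842)
(mv 911 (cons (fin 912 3 844)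
(mv 1036 (cons (fin 1100 5 844)
(mv 1035 (cons (fin 1034 2 970)
(mv 1099 (cons (fin 1098 1 1034)
(fin 908 5 843))))))))))))))))))
(mv 846 (cons (fin 782 5 781)
(mv 845 (cons (fin 781 7 781)
(mv 847 (cons (fin 783 6 782)
(mv 911 (cons (fin 1102 6 846)
(mv 844 (cons (fin 843 0 843)
(fin 912 0 844)))))))))))))
(cons (cons (mv 846 (cons (fin 782 5 781)
(mv 783 (cons (fin 847 6 782)
(mv 845 (cons (fin 781 7 781)
(mv 844 (cons (mv 780 (cons (fin 909 7 780)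
(fin 908 4 780)))
(cons (mv 843 (cons (fin 911 0 843)
(mv 778 (cons (fin 779 3 778)
(mv 842 (cons (fin 777 3 777)
(fin 909 0 842)))))))
(mv 780 (cons (fin 908 4 780)
(mv 843 (cons (fin 911 0 843)
(mv 778 (cons (fin 779 3 778)
(mv 842 (cons (fin 777 3 777)
(mv 906 (cons (fin 905 1 841)
(fin 907 1 842))))))))))))))))))))
(mv 846 (cons (fin 782 5 781)
(mv 847 (cons (fin 783 6 782)
(mv 911 (cons (fin 1102 6 846)
(mv 912 (cons (fin 909 1 908)
(fin 913 1 909))))))))))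
(cons (mv 846 (cons (fin 782 5 781)
(mv 783 (cons (fin 847 6 782)
(mv 845 (cons (fin 781 7 781)
(mv 909 (cons (fin 1102 7 845)
(mv 844 (cons (fin 780 7 780)
(mv 842 (cons (fin 843 0 842)
(mv 1036 (cons (fin 1100 5 844)
(mv 1035 (cons (fin 1034 2 970)
(mv 1099 (cons (fin 1098 1 1034)
(fin 908 5 843)))))))))))))))))))
(mv 846 (cons (fin 782 5 781)
(mv 845 (cons (fin 781 7 781)
(mv 909 (cons (fin 1102 7 845)
(mv 844 (cons (fin 780 7 780)
(mv 843 (cons (fin 842 0 842)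
(fin 911 0 843)))))))))))))))
(mv 909 (cons (mv 845 (cons (fin 781 4 781)
(fin 1102 4 845)))
(cons (mv 1102 (cons (fin 1166 7 909)
(mv 975 (cons (mv 908 (cons (fin 907 3 907)
(fin 976 3 908)))
(mv 911 (cons (fin 912 2 908)
(mv 847 (cons (fin 783 5 782)
(fin 910 6 846)))))))))
(mv 781 (cons (fin 845 4 781)
(mv 975 (cons (mv 908 (cons (fin 907 3 907)
(fin 976 3 908)))
(cons (mv 912 (cons (fin 911 2 908)
(mv 976 (cons (fin 977 1 973)
(fin 913 2 909)))))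
(mv 908 (cons (fin 907 3 907)
(mv 844 (cons (fin 780 4 780)
(mv 911 (cons (fin 912 2 908)
(mv 847 (cons (fin 783 5 782)
(mv 910 (cons (fin 843 3 843)
(fin 848 2 844)))))))))))))))))))))
(cons (mv 975 (cons (mv 976 (cons (fin 1036 1 972)
(fin 977 1 973)))
(cons (mv 907 (cons (fin 908 3 907)
(mv 912 (cons (fin 911 2 908)
(mv 976 (cons (fin 977 1 973)
(fin 913 2 909)))))))
(mv 908 (cons (fin 907 3 907)
(mv 844 (cons (fin 780 4 780)
(mv 911 (cons (fin 912 2 908)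
(mv 783 (cons (fin 847 5 782)
(mv 1036 (cons (fin 1035 1 971)
(mv 779 (cons (fin 843 7 779)
(mv 845 (cons (fin 781 6 780)
(mv 1100 (cons (fin 909 5 844)
(mv 1163 (cons (fin 1099 5 907)
(mv 1164 (cons (fin 1227 5 971)
(fin 1228 6 972))))))))))))))))))))))))
(cons (mv 975 (cons (mv 976 (cons (fin 1036 1 972)
(fin 977 1 973)))
(mv 911 (cons (fin 912 2 908)
(mv 847 (cons (fin 783 5 782)
(mv 1102 (cons (fin 910 6 846)
(fin 1166 6 910)))))))))
(mv 975 (cons (mv 976 (cons (fin 1036 1 972)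
(fin 977 1 973)))
(cons (mv 908 (cons (fin 907 3 907)
(mv 976 (cons (fin 909 3 908)
(fin 977 1 973)))))
(mv 908 (cons (fin 907 3 907)
(mv 844 (cons (fin 780 4 780)
(mv 1036 (cons (fin 1035 1 971)
(mv 779 (cons (fin 843 7 779)
(mv 845 (cons (fin 781 6 780)
(mv 909 (cons (fin 1100 5 844)
(fin 1102 4 845))))))))))))))))))))
(mv 971 (cons (fin 970 0 970)
(mv 974 (cons (cons (mv 906 (cons (fin 907 3 906)
(mv 910 (cons (fin 911 2 907)
(mv 782 (cons (fin 846 5 781)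
(mv 1035 (cons (fin 1034 1 970)
(mv 1036 (cons (fin 975 1 971)
(mv 1099 (cons (fin 1098 1 1034)
(mv 908 (cons (fin 844 5 843)
(fin 1163 6 907)))))))))))))))
(cons (mv 906 (cons (fin 907 3 906)
(mv 911 (cons (fin 910 2 907)
(mv 975 (cons (fin 912 2 908)
(mv 976 (cons (fin 1036 1 972)
(fin 977 1 973)))))))))
(mv 910 (cons (fin 911 2 907)
(mv 782 (cons (fin 846 5 781)
(mv 1035 (cons (fin 1034 1 970)
(mv 1036 (cons (fin 975 1 971)
(mv 1099 (cons (fin 1098 1 1034)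
(mv 908 (cons (fin 844 5 843)
(fin 1163 6 907)))))))))))))))
(cons (cons (mv 906 (cons (fin 907 3 906)
(mv 1035 (cons (fin 1034 1 970)
(mv 975 (cons (fin 1036 1 971)
(mv 912 (cons (fin 911 2 908)
(mv 976 (cons (fin 977 1 973)
(fin 913 2 909)))))))))))
(mv 906 (cons (fin 907 3 906)
(mv 1035 (cons (fin 1034 1 970)
(mv 1036 (cons (fin 975 1 971)
(mv 1099 (cons (fin 1098 1 1034)
(mv 908 (cons (fin 844 5 843)
(fin 1163 6 907))))))))))))
(cons (mv 907 (cons (fin 906 3 906)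
(mv 910 (cons (fin 911 2 907)
(mv 846 (cons (fin 782 5 781)
(mv 781 (cons (fin 845 7 781)
(mv 847 (cons (fin 783 6 782)
(mv 908 (cons (fin 909 2 843)
(mv 780 (cons (fin 844 4 780)
(mv 1035 (cons (fin 1034 1 970)
(mv 1099 (cons (fin 1163 6 907)
(mv 1098 (cons (fin 1036 1 1034)
(fin 1162 5 906)))))))))))))))))))))
(mv 907 (cons (fin 906 3 906)
(mv 908 (cons (fin 975 3 907)
(mv 780 (cons (fin 844 4 780)
(mv 910 (cons (fin 911 2 907)
(mv 846 (cons (fin 782 5 781)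
(mv 847 (cons (fin 909 2 843)
(fin 783 6 782)))))))))))))))))))))
(cons (mv 971 (cons (fin 970 0 970)
(mv 974 (cons (cons (mv 906 (cons (fin 907 3 906)
(mv 910 (cons (fin 911 2 907)
(mv 782 (cons (fin 846 5 781)
(mv 1035 (cons (fin 1034 1 970)
(mv 1036 (cons (fin 975 1 971)
(mv 1099 (cons (fin 1098 1 1034)
(mv 908 (cons (fin 844 5 843)
(fin 1163 6 907)))))))))))))))
(cons (mv 906 (cons (fin 907 3 906)
(mv 911 (cons (fin 910 2 907)
(mv 975 (cons (fin 912 2 908)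
(mv 976 (cons (fin 1036 1 972)
(fin 977 1 973)))))))))
(mv 910 (cons (fin 911 2 907)
(mv 782 (cons (fin 846 5 781)
(mv 1035 (cons (fin 1034 1 970)
(mv 1036 (cons (fin 975 1 971)
(mv 1099 (cons (fin 1098 1 1034)
(mv 908 (cons (fin 844 5 843)
(fin 1163 6 907)))))))))))))))
(cons (mv 906 (cons (fin 907 3 906)
(mv 1035 (cons (fin 1034 1 970)
(mv 1036 (cons (fin 975 1 971)
(mv 1099 (cons (fin 1098 1 1034)
(mv 908 (cons (fin 844 5 843)
(fin 1163 6 907)))))))))))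
(cons (mv 907 (cons (fin 906 3 906)
(mv 910 (cons (fin 911 2 907)
(mv 846 (cons (fin 782 5 781)
(mv 845 (cons (fin 781 7 781)
(mv 847 (cons (fin 783 6 782)
(mv 844 (cons (fin 908 1 843)
(mv 779 (cons (fin 780 3 779)
(mv 843 (cons (fin 778 3 778)
(fin 1036 4 779)))))))))))))))))
(mv 907 (cons (fin 906 3 906)
(mv 908 (cons (fin 975 3 907)
(mv 844 (cons (fin 780 4 780)
(mv 1035 (cons (fin 1034 1 970)
(fin 1099 6 843)))))))))))))))
(cons (mv 971 (cons (fin 970 0 970)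
(mv 974 (cons (cons (mv 906 (cons (fin 907 3 906)
(mv 910 (cons (fin 911 2 907)
(mv 782 (cons (fin 846 5 781)
(mv 1035 (cons (fin 1034 1 970)
(mv 1036 (cons (fin 975 1 971)
(mv 1099 (cons (fin 1098 1 1034)
(mv 908 (cons (fin 844 5 843)
(fin 1163 6 907)))))))))))))))
(cons (mv 906 (cons (fin 907 3 906)
(mv 911 (cons (fin 910 2 907)
(mv 975 (cons (fin 912 2 908)
(mv 976 (cons (fin 1036 1 972)
(fin 977 1 973)))))))))
(mv 906 (cons (fin 907 3 906)
(mv 1035 (cons (fin 1034 1 970)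
(mv 1036 (cons (fin 975 1 971)
(mv 1099 (cons (fin 1098 1 1034)
(mv 908 (cons (fin 844 5 843)
(fin 1163 6 907)))))))))))))
(cons (mv 910 (cons (fin 911 2 907)
(mv 782 (cons (fin 846 5 781)
(mv 1035 (cons (fin 1034 1 970)
(mv 1036 (cons (fin 975 1 971)
(mv 1099 (cons (fin 1098 1 1034)
(mv 908 (cons (fin 844 5 843)
(fin 1163 6 907)))))))))))))
(cons (mv 907 (cons (fin 906 3 906)
(mv 910 (cons (fin 911 2 907)
(mv 846 (cons (fin 782 5 781)
(mv 847 (cons (fin 783 6 782)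
(mv 908 (cons (fin 909 2 843)
(mv 780 (cons (fin 844 4 780)
(mv 1035 (cons (fin 1034 1 970)
(mv 1099 (cons (fin 1163 6 907)
(mv 1098 (cons (fin 1036 1 1034)
(fin 1162 5 906)))))))))))))))))))
(mv 907 (cons (fin 906 3 906)
(mv 908 (cons (fin 975 3 907)
(mv 780 (cons (fin 844 4 780)
(mv 910 (cons (fin 911 2 907)
(mv 846 (cons (fin 782 5 781)
(mv 847 (cons (fin 909 2 843)
(fin 783 6 782)))))))))))))))))))
(mv 971 (cons (fin 970 0 970)
(mv 974 (cons (cons (mv 906 (cons (fin 907 3 906)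
(mv 910 (cons (fin 911 2 907)
(mv 782 (cons (fin 846 5 781)
(mv 1035 (cons (fin 1034 1 970)
(mv 1036 (cons (fin 975 1 971)
(mv 1099 (cons (fin 1098 1 1034)
(mv 1163 (cons (fin 1227 6 971)
(mv 1162 (cons (fin 1226 5 970)
(mv 1164 (cons (fin 1228 4 971)
(mv 909 (cons (fin 1100 6 908)
(mv 845 (cons (fin 1102 7 845)
(fin 781 5 780)))))))))))))))))))))))
(cons (mv 906 (cons (fin 907 3 906)
(mv 911 (cons (fin 910 2 907)
(mv 975 (cons (fin 912 2 908)
(mv 976 (cons (fin 1036 1 972)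
(fin 977 1 973)))))))))
(mv 906 (cons (fin 907 3 906)
(mv 1035 (cons (fin 1034 1 970)
(mv 975 (cons (fin 1036 1 971)
(mv 912 (cons (fin 911 2 908)
(mv 976 (cons (fin 977 1 973)
(fin 913 2 909)))))))))))))
(cons (cons (mv 906 (cons (fin 907 3 906)
(mv 1035 (cons (fin 1034 1 970)
(mv 1036 (cons (fin 975 1 971)
(mv 1099 (cons (fin 1098 1 1034)
(mv 1163 (cons (fin 1227 6 971)
(mv 1162 (cons (fin 1226 5 970)
(mv 1164 (cons (fin 1228 4 971)
(mv 909 (cons (fin 1100 6 908)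
(mv 845 (cons (fin 781 5 780)
(fin 1102 4 845)))))))))))))))))))
(mv 910 (cons (fin 911 2 907)
(mv 782 (cons (fin 846 5 781)
(mv 1035 (cons (fin 1034 1 970)
(mv 1036 (cons (fin 975 1 971)
(mv 1099 (cons (fin 1098 1 1034)
(mv 1163 (cons (fin 1227 6 971)
(mv 1162 (cons (fin 1226 5 970)
(mv 1164 (cons (fin 1228 4 971)
(mv 909 (cons (fin 1100 6 908)
(mv 845 (cons (fin 1102 7 845)
(fin 781 5 780))))))))))))))))))))))
(cons (mv 907 (cons (fin 906 3 906)
(mv 910 (cons (fin 911 2 907)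
(mv 846 (cons (fin 782 5 781)
(mv 783 (cons (fin 847 6 782)
(mv 845 (cons (fin 781 7 781)
(mv 909 (cons (fin 1102 7 845)
(mv 844 (cons (fin 780 7 780)
(mv 843 (cons (fin 842 0 842)
(mv 779 (cons (fin 778 3 778)
(fin 1036 4 779)))))))))))))))))))
(mv 906 (cons (fin 907 3 906)
(mv 1034 (cons (fin 1035 1 970)
(mv 1102 (cons (mv 909 (cons (fin 1166 7 909)
(fin 845 4 845)))
(cons (mv 845 (cons (fin 909 4 845)
(mv 910 (cons (fin 911 2 907)
(mv 846 (cons (fin 781 7 781)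
(fin 782 5 781)))))))
(mv 911 (cons (fin 910 2 907)
(mv 975 (cons (fin 912 2 908)
(fin 1166 6 910)))))))))))))))))))))
(cons (cons (mv 971 (cons (fin 970 0 970)
(mv 974 (cons (cons (mv 906 (cons (fin 907 3 906)
(mv 910 (cons (fin 911 2 907)
(mv 782 (cons (fin 846 5 781)
(mv 1035 (cons (fin 1034 1 970)
(mv 975 (cons (fin 1036 1 971)
(mv 976 (cons (fin 977 1 973)
(mv 909 (cons (fin 908 3 908)
(mv 845 (cons (fin 1102 7 845)
(fin 781 4 781)))))))))))))))))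
(cons (mv 906 (cons (fin 907 3 906)
(mv 910 (cons (fin 911 2 907)
(mv 846 (cons (fin 782 5 781)
(mv 845 (cons (fin 781 7 781)
(mv 847 (cons (fin 783 6 782)
(mv 909 (cons (fin 1102 7 845)
(mv 848 (cons (fin 908 1 844)
(fin 849 1 845)))))))))))))))
(mv 906 (cons (fin 907 3 906)
(mv 1035 (cons (fin 1034 1 970)
(mv 975 (cons (fin 1036 1 971)
(mv 911 (cons (fin 912 2 908)
(mv 783 (cons (fin 847 5 782)
(mv 976 (cons (fin 977 1 973)
(mv 909 (cons (fin 908 3 908)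
(mv 845 (cons (fin 781 4 781)
(fin 1102 4 845)))))))))))))))))))
(cons (cons (mv 906 (cons (fin 907 3 906)
(mv 1035 (cons (fin 1034 1 970)
(mv 975 (cons (fin 1036 1 971)
(mv 976 (cons (fin 977 1 973)
(mv 909 (cons (fin 908 3 908)
(mv 845 (cons (fin 781 4 781)
(fin 1102 4 845)))))))))))))
(mv 910 (cons (fin 911 2 907)
(mv 782 (cons (fin 846 5 781)
(mv 1035 (cons (fin 1034 1 970)
(mv 975 (cons (fin 1036 1 971)
(mv 976 (cons (fin 977 1 973)
(mv 909 (cons (fin 908 3 908)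
(mv 845 (cons (fin 1102 7 845)
(fin 781 4 781))))))))))))))))
(cons (mv 906 (cons (fin 907 3 906)
(mv 910 (cons (fin 911 2 907)
(mv 782 (cons (fin 846 5 781)
(mv 1035 (cons (fin 1034 1 970)
(mv 1036 (cons (fin 975 1 971)
(mv 1099 (cons (fin 1098 1 1034)
(mv 1163 (cons (fin 908 6 907)
(fin 1227 6 971)))))))))))))))
(mv 906 (cons (fin 907 3 906)
(mv 910 (cons (fin 911 2 907)
(mv 782 (cons (fin 846 5 781)
(mv 1035 (cons (fin 1034 1 970)
(mv 1036 (cons (fin 975 1 971)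
(mv 1099 (cons (fin 1098 1 1034)
(mv 1163 (cons (fin 1227 6 971)
(mv 1162 (cons (fin 1226 5 970)
(mv 1164 (cons (fin 1228 4 971)
(mv 909 (cons (fin 1100 6 908)
(mv 845 (cons (fin 1102 7 845)
(fin 781 5 780)))))))))))))))))))))))))))))
(cons (mv 908 (cons (cons (cons (mv 844 (cons (fin 780 4 780)
(mv 970 (cons (fin 971 0 970)
(mv 1036 (cons (cons (mv 779 (cons (fin 843 7 779)
(mv 781 (cons (fin 845 6 780)
(mv 1035 (cons (fin 1099 5 843)
(mv 1034 (cons (fin 969 3 969)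
(fin 1033 2 969)))))))))
(mv 779 (cons (fin 843 7 779)
(mv 1035 (cons (fin 1099 5 843)
(mv 1034 (cons (fin 969 3 969)
(fin 1033 2 969))))))))
(cons (mv 779 (cons (fin 843 7 779)
(mv 845 (cons (fin 781 6 780)
(mv 909 (cons (fin 1100 5 844)
(fin 1102 4 845)))))))
(mv 781 (cons (fin 845 6 780)
(mv 1035 (cons (fin 1099 5 843)
(mv 1034 (cons (fin 969 3 969)
(fin 1033 2 969))))))))))))))
(mv 844 (cons (fin 780 4 780)
(mv 1036 (cons (cons (mv 779 (cons (fin 843 7 779)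
(mv 781 (cons (fin 845 6 780)
(mv 1099 (cons (fin 1035 5 843)
(mv 1100 (cons (fin 1163 5 907)
(mv 1164 (cons (fin 909 6 908)
(fin 1228 6 972)))))))))))
(cons (mv 779 (cons (fin 843 7 779)
(mv 1099 (cons (fin 1035 5 843)
(mv 1100 (cons (fin 1163 5 907)
(mv 1164 (cons (fin 909 6 908)
(fin 1228 6 972)))))))))
(mv 779 (cons (fin 843 7 779)
(mv 845 (cons (fin 781 6 780)
(mv 909 (cons (fin 1100 5 844)
(fin 1102 4 845)))))))))
(cons (mv 781 (cons (fin 845 6 780)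
(mv 1099 (cons (fin 1035 5 843)
(mv 1100 (cons (fin 1163 5 907)
(mv 1164 (cons (fin 909 6 908)
(fin 1228 6 972)))))))))
(cons (mv 779 (cons (fin 843 7 779)
(mv 845 (cons (fin 781 6 780)
(mv 909 (cons (fin 1102 4 845)
(mv 846 (cons (fin 782 6 781)
(mv 847 (cons (fin 907 1 843)
(fin 848 1 844)))))))))))
(mv 781 (cons (fin 845 6 780)
(mv 843 (cons (fin 779 7 779)
(mv 907 (cons (fin 1100 7 843)
(mv 906 (cons (fin 905 0 905)
(mv 1035 (cons (fin 1099 5 843)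
(mv 1034 (cons (fin 1033 2 969)
(mv 970 (cons (fin 969 3 969)
(fin 1098 6 842))))))))))))))))))))))
(cons (mv 909 (cons (mv 845 (cons (fin 1102 4 845)
(mv 781 (cons (fin 717 5 716)
(fin 1036 5 780)))))
(cons (mv 907 (cons (cons (mv 905 (cons (fin 906 0 905)
(mv 971 (cons (fin 970 0 970)
(mv 910 (cons (fin 911 1 907)
(mv 843 (cons (fin 842 3 842)
(mv 779 (cons (fin 715 4 715)
(fin 1036 4 779)))))))))))
(mv 906 (cons (fin 905 0 905)
(mv 842 (cons (fin 841 3 841)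
(mv 843 (cons (fin 910 3 842)
(mv 715 (cons (fin 779 4 715)
(mv 970 (cons (fin 969 1 905)
(mv 1034 (cons (fin 1098 6 842)
(mv 1033 (cons (fin 1097 5 841)
(mv 1035 (cons (fin 1036 2 969)
(fin 1099 4 842))))))))))))))))))
(cons (mv 906 (cons (fin 905 0 905)
(mv 842 (cons (fin 841 3 841)
(mv 843 (cons (fin 910 3 842)
(mv 779 (cons (fin 715 4 715)
(mv 1036 (cons (fin 1100 7 843)
(fin 971 4 779)))))))))))
(cons (mv 971 (cons (fin 970 0 970)
(mv 910 (cons (fin 911 1 907)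
(mv 843 (cons (fin 842 3 842)
(mv 779 (cons (fin 715 4 715)
(fin 1036 4 779)))))))))
(mv 906 (cons (fin 905 0 905)
(mv 970 (cons (fin 969 1 905)
(fin 971 0 970)))))))))
(mv 845 (cons (fin 1102 4 845)
(mv 717 (cons (fin 781 5 716)
(mv 846 (cons (fin 782 6 781)
(mv 847 (cons (fin 848 1 844)
(mv 907 (cons (fin 906 2 842)
(fin 910 2 843))))))))))))))
(cons (mv 844 (cons (fin 780 4 780)
(mv 1036 (cons (cons (mv 779 (cons (fin 843 7 779)
(mv 781 (cons (fin 845 6 780)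
(mv 1099 (cons (fin 1035 5 843)
(mv 1100 (cons (fin 1163 5 907)
(mv 1164 (cons (fin 909 6 908)
(fin 1228 6 972)))))))))))
(cons (mv 779 (cons (fin 843 7 779)
(mv 1099 (cons (fin 1035 5 843)
(mv 1100 (cons (fin 1163 5 907)
(mv 1164 (cons (fin 909 6 908)
(fin 1228 6 972)))))))))
(mv 779 (cons (fin 843 7 779)
(mv 845 (cons (fin 781 6 780)
(mv 909 (cons (fin 1100 5 844)
(fin 1102 4 845)))))))))
(cons (mv 781 (cons (fin 845 6 780)
(mv 1099 (cons (fin 1035 5 843)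
(mv 1100 (cons (fin 1163 5 907)
(mv 1164 (cons (fin 909 6 908)
(fin 1228 6 972)))))))))
(cons (mv 779 (cons (fin 843 7 779)
(mv 845 (cons (fin 781 6 780)
(mv 909 (cons (fin 1102 4 845)
(mv 846 (cons (fin 782 6 781)
(mv 847 (cons (fin 907 1 843)
(fin 848 1 844)))))))))))
(mv 781 (cons (fin 845 6 780)
(mv 843 (cons (fin 779 7 779)
(mv 907 (cons (fin 1100 7 843)
(mv 905 (cons (fin 906 0 905)
(mv 1035 (cons (fin 1099 5 843)
(mv 1034 (cons (fin 1033 2 969)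
(mv 1098 (cons (fin 1097 1 1033)
(fin 971 5 842)))))))))))))))))))))
(mv 844 (cons (fin 780 4 780)
(mv 970 (cons (fin 971 0 970)
(mv 1036 (cons (cons (mv 779 (cons (fin 843 7 779)
(mv 781 (cons (fin 845 6 780)
(mv 1035 (cons (fin 1099 5 843)
(mv 1034 (cons (fin 969 3 969)
(fin 1033 2 969)))))))))
(mv 779 (cons (fin 843 7 779)
(mv 1035 (cons (fin 1099 5 843)
(mv 1034 (cons (fin 969 3 969)
(fin 1033 2 969))))))))
(cons (mv 779 (cons (fin 843 7 779)
(mv 845 (cons (fin 781 6 780)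
(mv 909 (cons (fin 1100 5 844)
(mv 846 (cons (fin 782 6 781)
(mv 847 (cons (fin 907 1 843)
(fin 848 1 844)))))))))))
(mv 781 (cons (fin 845 6 780)
(mv 1035 (cons (fin 1099 5 843)
(mv 1034 (cons (fin 969 3 969)
(fin 1033 2 969)))))))))))))))))
(cons (cons (mv 844 (cons (fin 780 4 780)
(mv 970 (cons (fin 971 0 970)
(mv 1036 (cons (cons (mv 779 (cons (fin 843 7 779)
(mv 781 (cons (fin 845 6 780)
(mv 1035 (cons (fin 1099 5 843)
(mv 1034 (cons (fin 969 3 969)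
(fin 1033 2 969)))))))))
(mv 781 (cons (fin 845 6 780)
(mv 843 (cons (fin 779 7 779)
(mv 1100 (cons (fin 907 7 843)
(mv 1163 (cons (fin 1099 5 907)
(mv 1164 (cons (fin 1227 5 971)
(fin 1228 6 972))))))))))))
(cons (mv 781 (cons (fin 845 6 780)
(mv 843 (cons (fin 779 7 779)
(mv 907 (cons (fin 1100 7 843)
(mv 906 (cons (fin 905 0 905)
(mv 1034 (cons (fin 1098 6 842)
(mv 1035 (cons (fin 969 3 969)
(fin 1033 2 969)))))))))))))
(cons (mv 781 (cons (fin 845 6 780)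
(mv 1035 (cons (fin 1099 5 843)
(mv 1034 (cons (fin 969 3 969)
(fin 1033 2 969)))))))
(mv 779 (cons (fin 843 7 779)
(mv 1035 (cons (fin 1099 5 843)
(mv 1034 (cons (fin 969 3 969)
(fin 1033 2 969)))))))))))))))
(cons (mv 844 (cons (fin 780 4 780)
(mv 970 (cons (fin 971 0 970)
(mv 1036 (cons (cons (mv 779 (cons (fin 843 7 779)
(mv 1035 (cons (fin 1099 5 843)
(mv 1034 (cons (fin 969 3 969)
(fin 1033 2 969)))))))
(mv 843 (cons (fin 779 7 779)
(mv 907 (cons (fin 1100 7 843)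
(mv 906 (cons (fin 905 0 905)
(mv 909 (cons (fin 969 1 905)
(mv 842 (cons (fin 841 3 841)
(fin 910 3 842))))))))))))
(cons (mv 1035 (cons (fin 1099 5 843)
(mv 1034 (cons (fin 969 3 969)
(fin 1033 2 969)))))
(mv 779 (cons (fin 843 7 779)
(mv 1099 (cons (fin 1035 5 843)
(mv 1100 (cons (fin 1163 5 907)
(mv 1164 (cons (fin 909 6 908)
(fin 1228 6 972))))))))))))))))
(mv 780 (cons (fin 844 4 780)
(mv 909 (cons (mv 845 (cons (fin 1102 4 845)
(mv 781 (cons (fin 716 7 716)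
(fin 717 5 716)))))
(cons (mv 907 (cons (cons (mv 905 (cons (fin 906 0 905)
(mv 971 (cons (fin 970 0 970)
(mv 910 (cons (fin 911 1 907)
(mv 843 (cons (fin 842 3 842)
(mv 779 (cons (fin 716 6 715)
(fin 715 4 715)))))))))))
(mv 906 (cons (fin 905 0 905)
(mv 842 (cons (fin 841 3 841)
(mv 843 (cons (fin 910 3 842)
(mv 779 (cons (fin 715 4 715)
(mv 970 (cons (fin 969 1 905)
(fin 1034 6 778))))))))))))
(cons (mv 906 (cons (fin 905 0 905)
(mv 842 (cons (fin 841 3 841)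
(mv 843 (cons (fin 910 3 842)
(mv 779 (cons (fin 715 4 715)
(mv 781 (cons (fin 782 1 778)
(mv 971 (cons (fin 716 6 715)
(mv 778 (cons (fin 714 7 714)
(fin 1035 7 778)))))))))))))))
(cons (mv 971 (cons (fin 970 0 970)
(mv 910 (cons (fin 911 1 907)
(mv 843 (cons (fin 842 3 842)
(mv 779 (cons (fin 716 6 715)
(fin 715 4 715)))))))))
(mv 906 (cons (fin 905 0 905)
(mv 970 (cons (fin 969 1 905)
(fin 971 0 970)))))))))
(mv 845 (cons (fin 1102 4 845)
(mv 846 (cons (fin 782 6 781)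
(mv 847 (cons (fin 848 1 844)
(mv 907 (cons (fin 906 2 842)
(fin 910 2 843))))))))))))))))
(cons (mv 780 (cons (fin 844 4 780)
(mv 909 (cons (mv 845 (cons (fin 1102 4 845)
(mv 781 (cons (fin 716 7 716)
(fin 717 5 716)))))
(cons (mv 907 (cons (cons (mv 905 (cons (fin 906 0 905)
(mv 971 (cons (fin 970 0 970)
(mv 910 (cons (fin 911 1 907)
(mv 843 (cons (fin 842 3 842)
(mv 779 (cons (fin 716 6 715)
(fin 715 4 715)))))))))))
(mv 906 (cons (fin 905 0 905)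
(mv 842 (cons (fin 841 3 841)
(mv 843 (cons (fin 910 3 842)
(mv 779 (cons (fin 715 4 715)
(mv 970 (cons (fin 969 1 905)
(fin 1034 6 778))))))))))))
(cons (mv 906 (cons (fin 905 0 905)
(mv 842 (cons (fin 841 3 841)
(mv 843 (cons (fin 910 3 842)
(mv 779 (cons (fin 715 4 715)
(mv 971 (cons (fin 716 6 715)
(fin 1036 4 779)))))))))))
(cons (mv 971 (cons (fin 970 0 970)
(mv 910 (cons (fin 911 1 907)
(mv 843 (cons (fin 842 3 842)
(mv 779 (cons (fin 716 6 715)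
(fin 715 4 715)))))))))
(mv 906 (cons (fin 905 0 905)
(mv 970 (cons (fin 969 1 905)
(fin 971 0 970)))))))))
(mv 845 (cons (fin 1102 4 845)
(mv 781 (cons (fin 717 5 716)
(fin 1036 5 780))))))))))
(cons (mv 844 (cons (fin 780 4 780)
(mv 970 (cons (fin 971 0 970)
(mv 1036 (cons (mv 781 (cons (fin 845 6 780)
(mv 1035 (cons (fin 1099 5 843)
(mv 1034 (cons (fin 969 3 969)
(fin 1033 2 969)))))))
(cons (mv 1035 (cons (fin 1099 5 843)
(mv 1034 (cons (fin 969 3 969)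
(fin 1033 2 969)))))
(mv 845 (cons (fin 781 6 780)
(mv 909 (cons (fin 1100 5 844)
(fin 1102 4 845))))))))))))
(mv 780 (cons (fin 844 4 780)
(mv 909 (cons (mv 845 (cons (fin 1102 4 845)
(mv 781 (cons (fin 716 7 716)
(fin 717 5 716)))))
(cons (mv 907 (cons (cons (mv 905 (cons (fin 906 0 905)
(mv 971 (cons (fin 970 0 970)
(mv 910 (cons (fin 911 1 907)
(mv 843 (cons (fin 842 3 842)
(mv 779 (cons (fin 716 6 715)
(fin 715 4 715)))))))))))
(mv 906 (cons (fin 905 0 905)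
(mv 842 (cons (fin 841 3 841)
(mv 910 (cons (fin 843 3 842)
(mv 847 (cons (fin 846 2 843)
(mv 911 (cons (fin 912 1 908)
(fin 848 2 844))))))))))))
(cons (mv 971 (cons (fin 970 0 970)
(mv 910 (cons (fin 911 1 907)
(mv 843 (cons (fin 842 3 842)
(mv 779 (cons (fin 716 6 715)
(fin 715 4 715)))))))))
(mv 906 (cons (fin 905 0 905)
(mv 970 (cons (fin 969 1 905)
(fin 971 0 970))))))))
(mv 845 (cons (fin 1102 4 845)
(mv 781 (cons (fin 717 5 716)
(fin 1036 5 780)))))))))))))))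
(mv 971 (cons (fin 970 0 970)
(mv 974 (cons (cons (mv 906 (cons (fin 907 3 906)
(mv 910 (cons (fin 911 2 907)
(mv 846 (cons (fin 782 5 781)
(mv 845 (cons (fin 781 7 781)
(mv 847 (cons (fin 783 6 782)
(mv 909 (cons (fin 1102 7 845)
(mv 848 (cons (fin 908 1 844)
(fin 849 1 845)))))))))))))))
(mv 907 (cons (fin 906 3 906)
(mv 908 (cons (fin 975 3 907)
(mv 844 (cons (fin 780 4 780)
(mv 1035 (cons (fin 1034 1 970)
(fin 1099 6 843))))))))))
(cons (mv 910 (cons (fin 911 2 907)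
(mv 846 (cons (fin 782 5 781)
(mv 845 (cons (fin 781 7 781)
(mv 847 (cons (fin 783 6 782)
(mv 909 (cons (fin 1102 7 845)
(mv 848 (cons (fin 908 1 844)
(fin 849 1 845)))))))))))))
(mv 906 (cons (fin 907 3 906)
(mv 1034 (cons (fin 1035 1 970)
(mv 1102 (cons (mv 909 (cons (fin 1166 7 909)
(fin 845 4 845)))
(cons (mv 845 (cons (fin 909 4 845)
(mv 910 (cons (fin 911 2 907)
(mv 846 (cons (fin 781 7 781)
(fin 782 5 781)))))))
(mv 911 (cons (fin 910 2 907)
(mv 975 (cons (fin 912 2 908)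
(fin 1166 6 910)))))))))))))))))))
(cons (cons (mv 971 (cons (fin 970 0 970)
(mv 974 (cons (cons (mv 906 (cons (fin 907 3 906)
(mv 910 (cons (fin 911 2 907)
(mv 846 (cons (fin 782 5 781)
(mv 783 (cons (fin 847 6 782)
(mv 845 (cons (fin 781 7 781)
(mv 909 (cons (fin 1102 7 845)
(mv 844 (cons (fin 780 7 780)
(mv 843 (cons (fin 842 0 842)
(mv 779 (cons (fin 778 3 778)
(mv 1036 (cons (fin 908 7 779)
(fin 1100 5 844)))))))))))))))))))))
(mv 907 (cons (fin 906 3 906)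
(mv 975 (cons (fin 908 3 907)
(mv 976 (cons (fin 1036 1 972)
(fin 977 1 973))))))))
(cons (mv 910 (cons (fin 911 2 907)
(mv 846 (cons (fin 782 5 781)
(mv 783 (cons (fin 847 6 782)
(mv 845 (cons (fin 781 7 781)
(mv 909 (cons (fin 1102 7 845)
(mv 844 (cons (fin 780 7 780)
(mv 843 (cons (fin 842 0 842)
(mv 779 (cons (fin 778 3 778)
(mv 1036 (cons (fin 908 7 779)
(fin 1100 5 844)))))))))))))))))))
(cons (mv 906 (cons (fin 907 3 906)
(mv 911 (cons (fin 910 2 907)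
(mv 975 (cons (fin 912 2 908)
(mv 976 (cons (fin 1036 1 972)
(fin 977 1 973)))))))))
(mv 906 (cons (fin 907 3 906)
(mv 910 (cons (fin 911 2 907)
(mv 846 (cons (fin 782 5 781)
(mv 845 (cons (fin 781 7 781)
(mv 847 (cons (fin 783 6 782)
(mv 909 (cons (fin 1102 7 845)
(mv 848 (cons (fin 908 1 844)
(fin 849 1 845)))))))))))))))))))))
(mv 971 (cons (fin 970 0 970)
(mv 974 (cons (cons (mv 906 (cons (fin 907 3 906)
(mv 1035 (cons (fin 1034 1 970)
(mv 975 (cons (fin 1036 1 971)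
(mv 911 (cons (fin 912 2 908)
(mv 783 (cons (fin 847 5 782)
(mv 976 (cons (fin 977 1 973)
(mv 909 (cons (fin 908 3 908)
(mv 845 (cons (fin 781 4 781)
(fin 1102 4 845)))))))))))))))))
(cons (mv 907 (cons (fin 906 3 906)
(mv 975 (cons (fin 908 3 907)
(mv 976 (cons (fin 1036 1 972)
(fin 977 1 973)))))))
(mv 1035 (cons (fin 1034 1 970)
(mv 975 (cons (fin 1036 1 971)
(mv 911 (cons (fin 912 2 908)
(mv 783 (cons (fin 847 5 782)
(mv 976 (cons (fin 977 1 973)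
(mv 909 (cons (fin 908 3 908)
(mv 845 (cons (fin 781 4 781)
(fin 1102 4 845)))))))))))))))))
(cons (mv 907 (cons (fin 906 3 906)
(mv 1035 (cons (fin 1034 1 970)
(mv 1099 (cons (mv 908 (cons (fin 844 6 843)
(fin 1163 6 907)))
(mv 1098 (cons (fin 1036 1 1034)
(fin 1162 5 906)))))))))
(cons (mv 907 (cons (fin 906 3 906)
(mv 908 (cons (fin 975 3 907)
(mv 844 (cons (fin 780 4 780)
(mv 1035 (cons (fin 1034 1 970)
(fin 1099 6 843)))))))))
(mv 906 (cons (fin 907 3 906)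
(mv 1035 (cons (fin 1034 1 970)
(mv 975 (cons (fin 1036 1 971)
(mv 912 (cons (fin 911 2 908)
(mv 976 (cons (fin 977 1 973)
(fin 913 2 909))))))))))))))))))
(cons (mv 971 (cons (fin 970 0 970)
(mv 974 (cons (cons (mv 906 (cons (fin 907 3 906)
(mv 1035 (cons (fin 1034 1 970)
(mv 975 (cons (fin 1036 1 971)
(mv 976 (cons (fin 977 1 973)
(mv 909 (cons (fin 908 3 908)
(mv 845 (cons (fin 781 4 781)
(fin 1102 4 845)))))))))))))
(cons (mv 907 (cons (fin 906 3 906)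
(mv 975 (cons (fin 908 3 907)
(mv 976 (cons (fin 1036 1 972)
(fin 977 1 973)))))))
(mv 1035 (cons (fin 1034 1 970)
(mv 975 (cons (fin 1036 1 971)
(mv 976 (cons (fin 977 1 973)
(mv 909 (cons (fin 908 3 908)
(mv 845 (cons (fin 781 4 781)
(fin 1102 4 845)))))))))))))
(cons (mv 907 (cons (fin 906 3 906)
(mv 1035 (cons (fin 1034 1 970)
(mv 1099 (cons (mv 908 (cons (fin 844 6 843)
(fin 1163 6 907)))
(mv 1098 (cons (fin 1036 1 1034)
(fin 1162 5 906)))))))))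
(cons (mv 907 (cons (fin 906 3 906)
(mv 908 (cons (fin 975 3 907)
(mv 844 (cons (fin 780 4 780)
(mv 1035 (cons (fin 1034 1 970)
(fin 1099 6 843)))))))))
(mv 906 (cons (fin 907 3 906)
(mv 1035 (cons (fin 1034 1 970)
(mv 1036 (cons (fin 975 1 971)
(mv 1099 (cons (fin 1098 1 1034)
(mv 1163 (cons (fin 1227 6 971)
(mv 1162 (cons (fin 1226 5 970)
(mv 1164 (cons (fin 1228 4 971)
(mv 909 (cons (fin 1100 6 908)
(mv 845 (cons (fin 781 5 780)
(fin 1102 4 845)))))))))))))))))))))))))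
(mv 971 (cons (fin 970 0 970)
(mv 974 (cons (cons (mv 910 (cons (fin 911 2 907)
(mv 782 (cons (fin 846 5 781)
(mv 1035 (cons (fin 1034 1 970)
(mv 975 (cons (fin 1036 1 971)
(mv 976 (cons (fin 977 1 973)
(mv 909 (cons (fin 908 3 908)
(mv 845 (cons (fin 1102 7 845)
(fin 781 4 781)))))))))))))))
(cons (mv 910 (cons (fin 911 2 907)
(mv 846 (cons (fin 782 5 781)
(mv 783 (cons (fin 847 6 782)
(mv 845 (cons (fin 781 7 781)
(mv 909 (cons (fin 1102 7 845)
(mv 844 (cons (fin 780 7 780)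
(mv 843 (cons (fin 842 0 842)
(mv 779 (cons (fin 778 3 778)
(mv 1036 (cons (fin 908 7 779)
(fin 1100 5 844)))))))))))))))))))
(mv 1035 (cons (fin 1034 1 970)
(mv 975 (cons (fin 1036 1 971)
(mv 911 (cons (fin 912 2 908)
(mv 783 (cons (fin 847 5 782)
(mv 976 (cons (fin 977 1 973)
(mv 909 (cons (fin 908 3 908)
(mv 845 (cons (fin 781 4 781)
(fin 1102 4 845)))))))))))))))))
(cons (cons (mv 1035 (cons (fin 1034 1 970)
(mv 975 (cons (fin 1036 1 971)
(mv 976 (cons (fin 977 1 973)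
(mv 909 (cons (fin 908 3 908)
(mv 845 (cons (fin 781 4 781)
(fin 1102 4 845)))))))))))
(mv 910 (cons (fin 911 2 907)
(mv 846 (cons (fin 782 5 781)
(mv 845 (cons (fin 781 7 781)
(mv 847 (cons (fin 783 6 782)
(mv 909 (cons (fin 1102 7 845)
(mv 848 (cons (fin 908 1 844)
(fin 849 1 845))))))))))))))
(cons (mv 910 (cons (fin 911 2 907)
(mv 782 (cons (fin 846 5 781)
(mv 1035 (cons (fin 1034 1 970)
(mv 1036 (cons (fin 975 1 971)
(mv 1099 (cons (fin 1098 1 1034)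
(mv 908 (cons (fin 844 5 843)
(fin 1163 6 907)))))))))))))
(mv 910 (cons (fin 911 2 907)
(mv 782 (cons (fin 846 5 781)
(mv 1035 (cons (fin 1034 1 970)
(mv 1036 (cons (fin 975 1 971)
(mv 1099 (cons (fin 1098 1 1034)
(mv 1163 (cons (fin 1227 6 971)
(mv 1162 (cons (fin 1226 5 970)
(mv 1164 (cons (fin 1228 4 971)
(mv 909 (cons (fin 1100 6 908)
(mv 845 (cons (fin 1102 7 845)
(fin 781 5 780))))))))))))))))))))))))))))))))
(mv 976 (cons (cons (mv 1039 (cons (fin 977 2 973)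
(mv 975 (cons (fin 1036 2 972)
(mv 1104 (cons (fin 1105 0 1037)
(mv 911 (cons (fin 1168 7 911)
(fin 847 4 847)))))))))
(mv 974 (cons (cons (mv 975 (cons (fin 1036 1 972)
(fin 977 1 973)))
(mv 910 (cons (cons (mv 846 (cons (fin 782 5 781)
(mv 781 (cons (fin 845 7 781)
(mv 847 (cons (fin 783 6 782)
(mv 911 (cons (fin 1102 6 846)
(mv 912 (cons (fin 913 1 909)
(fin 1104 7 847)))))))))))
(cons (mv 909 (cons (mv 845 (cons (fin 1102 7 845)
(fin 781 4 781)))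
(cons (mv 1102 (cons (fin 1166 7 909)
(mv 911 (cons (fin 847 6 846)
(mv 912 (cons (fin 913 1 909)
(fin 977 0 909)))))))
(mv 845 (cons (fin 781 4 781)
(mv 844 (cons (fin 780 7 780)
(mv 842 (cons (fin 843 0 842)
(mv 911 (cons (fin 912 3 844)
(mv 1036 (cons (fin 1100 5 844)
(mv 1035 (cons (fin 1034 2 970)
(mv 971 (cons (fin 970 3 970)
(mv 1099 (cons (fin 1098 1 1034)
(mv 907 (cons (fin 906 7 842)
(fin 908 6 843))))))))))))))))))))))
(mv 846 (cons (fin 782 5 781)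
(mv 845 (cons (fin 781 7 781)
(mv 847 (cons (fin 783 6 782)
(mv 912 (cons (mv 911 (cons (fin 913 3 845)
(fin 844 0 844)))
(cons (mv 848 (cons (fin 913 0 845)
(mv 785 (cons (fin 784 2 781)
(fin 849 6 784)))))
(mv 911 (cons (fin 844 0 844)
(fin 1104 7 847))))))))))))))
(cons (mv 846 (cons (fin 782 5 781)
(mv 847 (cons (fin 783 6 782)
(mv 911 (cons (fin 1102 6 846)
(mv 912 (cons (fin 913 1 909)
(fin 1104 7 847)))))))))
(cons (mv 846 (cons (fin 782 5 781)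
(mv 783 (cons (fin 847 6 782)
(mv 845 (cons (fin 781 7 781)
(mv 909 (cons (fin 1102 7 845)
(mv 844 (cons (fin 780 7 780)
(mv 842 (cons (fin 843 0 842)
(mv 1036 (cons (fin 1100 5 844)
(mv 1035 (cons (fin 1034 2 970)
(mv 971 (cons (fin 970 3 970)
(mv 1099 (cons (fin 1098 1 1034)
(mv 907 (cons (fin 906 7 842)
(fin 908 6 843)))))))))))))))))))))))
(mv 846 (cons (fin 782 5 781)
(mv 845 (cons (fin 781 7 781)
(mv 909 (cons (fin 1102 7 845)
(mv 844 (cons (fin 780 7 780)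
(mv 843 (cons (fin 842 0 842)
(fin 911 0 843))))))))))))))))
(cons (mv 975 (cons (fin 977 1 973)
(mv 909 (cons (fin 908 3 908)
(mv 845 (cons (fin 781 4 781)
(fin 1102 4 845)))))))
(mv 975 (cons (fin 1036 1 972)
(mv 909 (cons (fin 908 3 908)
(mv 845 (cons (fin 781 4 781)
(fin 1102 4 845)))))))))))
(cons (mv 1036 (cons (cons (mv 975 (cons (fin 974 1 972)
(fin 1039 2 972)))
(mv 1035 (cons (mv 970 (cons (fin 971 3 970)
(mv 1034 (cons (fin 969 3 969)
(fin 974 2 970)))))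
(cons (mv 971 (cons (fin 970 3 970)
(mv 1099 (cons (fin 1098 1 1034)
(mv 1100 (cons (fin 1039 1 1035)
(mv 907 (cons (fin 843 4 843)
(fin 1164 4 907)))))))))
(mv 1034 (cons (fin 974 2 970)
(mv 1098 (cons (fin 1097 1 1033)
(fin 1099 1 1034)))))))))
(cons (mv 1104 (cons (cons (mv 1039 (cons (fin 975 2 972)
(fin 1105 0 1037)))
(mv 1168 (cons (cons (mv 911 (cons (fin 975 7 911)
(mv 847 (cons (fin 912 7 847)
(mv 1231 (cons (fin 1167 5 975)
(mv 1232 (cons (fin 1295 5 1039)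
(mv 1233 (cons (fin 1169 4 976)
(fin 1297 4 1040)))))))))))
(mv 911 (cons (fin 975 7 911)
(mv 912 (cons (fin 847 7 847)
(mv 849 (cons (fin 913 6 848)
(mv 848 (cons (fin 785 6 784)
(mv 850 (cons (fin 851 1 847)
(mv 909 (cons (fin 910 2 845)
(mv 845 (cons (fin 1100 5 844)
(fin 1102 4 845))))))))))))))))
(cons (mv 1167 (cons (fin 1231 5 975)
(mv 1169 (cons (fin 1233 4 976)
(mv 1105 (cons (fin 912 4 912)
(mv 1106 (cons (fin 1107 1 1103)
(fin 1166 2 1102)))))))))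
(mv 911 (cons (fin 975 7 911)
(mv 1231 (cons (fin 1167 5 975)
(mv 1232 (cons (fin 1295 5 1039)
(mv 1233 (cons (fin 1169 4 976)
(fin 1297 4 1040)))))))))))))
(cons (mv 1105 (cons (fin 1039 0 1037)
(mv 912 (cons (fin 1169 4 912)
(mv 847 (cons (fin 911 7 847)
(mv 848 (cons (fin 783 7 783)
(mv 849 (cons (fin 785 6 784)
(fin 913 6 848)))))))))))
(mv 975 (cons (fin 1039 2 972)
(mv 911 (cons (fin 1168 7 911)
(mv 847 (cons (fin 912 7 847)
(fin 783 4 783))))))))))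
(mv 974 (cons (fin 975 1 972)
(mv 1035 (cons (fin 1034 2 970)
(mv 971 (cons (fin 970 3 970)
(mv 1099 (cons (fin 1098 1 1034)
(mv 1100 (cons (mv 907 (cons (fin 843 4 843)
(fin 1164 4 907)))
(cons (mv 907 (cons (fin 843 4 843)
(mv 906 (cons (fin 842 7 842)
(mv 908 (cons (fin 909 0 906)
(fin 844 6 843)))))))
(mv 909 (cons (fin 845 5 844)
(mv 1166 (cons (fin 1102 7 909)
(mv 1163 (cons (mv 1162 (cons (fin 1226 5 970)
(mv 1160 (cons (fin 1161 2 1096)
(mv 1164 (cons (fin 1228 7 971)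
(mv 1165 (cons (fin 1167 3 1099)
(mv 1230 (cons (fin 1229 0 1162)
(fin 1231 0 1163)))))))))))
(cons (mv 1226 (cons (fin 1162 5 970)
(mv 1227 (cons (fin 1290 5 1034)
(fin 1291 6 1035)))))
(mv 1227 (cons (fin 1291 6 1035)
(mv 1228 (cons (fin 1164 7 971)
(fin 1292 4 1035))))))))))))))))))))))))))
(cons (mv 1102 (cons (mv 909 (cons (fin 845 4 845)
(mv 1166 (cons (fin 974 7 909)
(fin 1230 7 973)))))
(cons (mv 1166 (cons (fin 1230 7 973)
(mv 1104 (cons (cons (mv 1039 (cons (fin 977 2 973)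
(fin 1105 0 1037)))
(mv 1168 (cons (cons (mv 913 (cons (fin 977 6 912)
(mv 849 (cons (fin 912 6 848)
(mv 1167 (cons (fin 1231 5 975)
(mv 1105 (cons (fin 1165 2 1101)
(mv 1106 (cons (fin 1107 1 1103)
(fin 1169 2 1102)))))))))))
(mv 913 (cons (fin 977 6 912)
(mv 912 (cons (fin 849 6 848)
(mv 1169 (cons (fin 1105 4 912)
(fin 1233 4 976))))))))
(cons (mv 913 (cons (fin 977 6 912)
(mv 849 (cons (fin 912 6 848)
(mv 1167 (cons (fin 1231 5 975)
(mv 1165 (cons (fin 1105 2 1101)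
(mv 1229 (cons (fin 1228 1 1164)
(fin 974 5 973)))))))))))
(cons (mv 1167 (cons (fin 1231 5 975)
(mv 1105 (cons (fin 1165 2 1101)
(mv 1106 (cons (fin 1107 1 1103)
(fin 1169 2 1102)))))))
(mv 913 (cons (fin 977 6 912)
(mv 849 (cons (fin 912 6 848)
(mv 1167 (cons (fin 1231 5 975)
(mv 1233 (cons (fin 1169 4 976)
(mv 1232 (cons (fin 1165 0 1165)
(fin 1297 4 1040))))))))))))))))
(cons (mv 977 (cons (fin 1039 2 973)
(mv 913 (cons (fin 1168 6 912)
(mv 849 (cons (fin 785 5 784)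
(fin 912 6 848)))))))
(mv 1105 (cons (fin 1039 0 1037)
(mv 912 (cons (fin 1169 4 912)
(mv 847 (cons (fin 911 7 847)
(mv 848 (cons (fin 783 7 783)
(mv 849 (cons (fin 785 6 784)
(fin 913 6 848))))))))))))))))
(mv 845 (cons (fin 909 4 845)
(mv 1104 (cons (cons (mv 1039 (cons (fin 977 2 973)
(fin 1105 0 1037)))
(mv 912 (cons (cons (mv 847 (cons (fin 911 7 847)
(mv 783 (cons (fin 848 7 783)
(mv 913 (cons (fin 849 6 848)
(mv 1168 (cons (fin 977 6 912)
(mv 1169 (cons (fin 1105 4 912)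
(fin 1233 4 976)))))))))))
(mv 847 (cons (fin 911 7 847)
(mv 848 (cons (fin 783 7 783)
(mv 785 (cons (fin 849 6 784)
(mv 784 (cons (fin 846 2 781)
(fin 721 6 720))))))))))
(cons (mv 913 (cons (fin 849 6 848)
(mv 1168 (cons (fin 977 6 912)
(mv 1169 (cons (fin 1105 4 912)
(fin 1233 4 976)))))))
(mv 847 (cons (fin 911 7 847)
(mv 848 (cons (fin 783 7 783)
(mv 913 (cons (fin 846 0 845)
(mv 914 (cons (fin 915 3 847)
(mv 1168 (cons (fin 977 6 912)
(mv 1169 (cons (fin 1105 4 912)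
(fin 1233 4 976)))))))))))))))))
(cons (mv 1105 (cons (fin 1039 0 1037)
(mv 912 (cons (fin 1169 4 912)
(mv 847 (cons (fin 911 7 847)
(mv 848 (cons (fin 783 7 783)
(mv 849 (cons (fin 785 6 784)
(fin 913 6 848)))))))))))
(mv 977 (cons (fin 1039 2 973)
(mv 913 (cons (fin 1168 6 912)
(mv 849 (cons (fin 785 5 784)
(fin 912 6 848)))))))))))))))
(mv 1039 (cons (fin 977 2 973)
(mv 1036 (cons (fin 975 2 972)
(mv 1099 (cons (fin 1100 1 1035)
(mv 1035 (cons (fin 1098 1 1034)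
(mv 970 (cons (fin 971 3 970)
(mv 1034 (cons (fin 969 3 969)
(fin 974 2 970)))))))))))))))))))
(cons (cons (mv 972 (cons (fin 1039 3 972)
(mv 971 (cons (fin 970 0 970)
(mv 974 (cons (cons (mv 906 (cons (fin 907 3 906)
(mv 910 (cons (fin 911 2 907)
(mv 782 (cons (fin 846 5 781)
(mv 1035 (cons (fin 1034 1 970)
(mv 1036 (cons (fin 975 1 971)
(mv 1099 (cons (fin 1098 1 1034)
(mv 908 (cons (fin 844 5 843)
(fin 1163 6 907)))))))))))))))
(cons (mv 906 (cons (fin 907 3 906)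
(mv 910 (cons (fin 911 2 907)
(mv 846 (cons (fin 782 5 781)
(mv 783 (cons (fin 847 6 782)
(mv 845 (cons (fin 781 7 781)
(mv 909 (cons (fin 1102 7 845)
(mv 844 (cons (fin 780 7 780)
(mv 843 (cons (fin 842 0 842)
(mv 779 (cons (fin 778 3 778)
(mv 1036 (cons (fin 908 7 779)
(fin 1100 5 844)))))))))))))))))))))
(mv 906 (cons (fin 907 3 906)
(mv 1035 (cons (fin 1034 1 970)
(mv 1036 (cons (fin 975 1 971)
(mv 1099 (cons (fin 1098 1 1034)
(mv 908 (cons (fin 844 5 843)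
(fin 1163 6 907)))))))))))))
(cons (mv 910 (cons (fin 911 2 907)
(mv 782 (cons (fin 846 5 781)
(mv 1035 (cons (fin 1034 1 970)
(mv 1036 (cons (fin 975 1 971)
(mv 1099 (cons (fin 1098 1 1034)
(mv 908 (cons (fin 844 5 843)
(fin 1163 6 907)))))))))))))
(cons (mv 906 (cons (fin 907 3 906)
(mv 910 (cons (fin 911 2 907)
(mv 846 (cons (fin 782 5 781)
(mv 845 (cons (fin 781 7 781)
(mv 847 (cons (fin 783 6 782)
(mv 909 (cons (fin 1102 7 845)
(mv 848 (cons (fin 908 1 844)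
(fin 849 1 845)))))))))))))))
(mv 906 (cons (fin 907 3 906)
(mv 910 (cons (fin 911 2 907)
(mv 782 (cons (fin 846 5 781)
(mv 1035 (cons (fin 1034 1 970)
(mv 1036 (cons (fin 975 1 971)
(mv 1099 (cons (fin 1098 1 1034)
(mv 1163 (cons (fin 1227 6 971)
(mv 1162 (cons (fin 1226 5 970)
(mv 1164 (cons (fin 1228 4 971)
(mv 909 (cons (fin 1100 6 908)
(mv 845 (cons (fin 1102 7 845)
(fin 781 5 780)))))))))))))))))))))))))))))))
(mv 972 (cons (fin 1039 3 972)
(mv 971 (cons (fin 970 0 970)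
(mv 974 (cons (cons (mv 906 (cons (fin 907 3 906)
(mv 910 (cons (fin 911 2 907)
(mv 846 (cons (fin 782 5 781)
(mv 845 (cons (fin 781 7 781)
(mv 847 (cons (fin 783 6 782)
(mv 909 (cons (fin 1102 7 845)
(mv 848 (cons (fin 908 1 844)
(fin 849 1 845)))))))))))))))
(mv 907 (cons (fin 906 3 906)
(mv 908 (cons (fin 975 3 907)
(mv 844 (cons (fin 780 4 780)
(mv 1035 (cons (fin 1034 1 970)
(fin 1099 6 843))))))))))
(cons (mv 910 (cons (fin 911 2 907)
(mv 846 (cons (fin 782 5 781)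
(mv 845 (cons (fin 781 7 781)
(mv 847 (cons (fin 783 6 782)
(mv 909 (cons (fin 1102 7 845)
(mv 848 (cons (fin 908 1 844)
(fin 849 1 845)))))))))))))
(mv 906 (cons (fin 907 3 906)
(mv 1034 (cons (fin 1035 1 970)
(mv 1102 (cons (mv 909 (cons (fin 1166 7 909)
(fin 845 4 845)))
(cons (mv 845 (cons (fin 909 4 845)
(mv 910 (cons (fin 911 2 907)
(mv 846 (cons (fin 781 7 781)
(fin 782 5 781)))))))
(mv 911 (cons (fin 910 2 907)
(mv 975 (cons (fin 912 2 908)
(fin 1166 6 910))))))))))))))))))))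
(cons (mv 972 (cons (fin 1039 3 972)
(mv 971 (cons (fin 970 0 970)
(mv 974 (cons (cons (mv 906 (cons (fin 907 3 906)
(mv 910 (cons (fin 911 2 907)
(mv 846 (cons (fin 782 5 781)
(mv 783 (cons (fin 847 6 782)
(mv 845 (cons (fin 781 7 781)
(mv 909 (cons (fin 1102 7 845)
(mv 780 (cons (fin 844 7 780)
(mv 1035 (cons (fin 1034 1 970)
(mv 1036 (cons (fin 1100 5 844)
(mv 1099 (cons (fin 1098 1 1034)
(mv 1163 (cons (fin 908 6 907)
(fin 1227 6 971)))))))))))))))))))))))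
(cons (mv 907 (cons (fin 906 3 906)
(mv 1035 (cons (fin 1034 1 970)
(mv 1099 (cons (mv 908 (cons (fin 844 6 843)
(fin 1163 6 907)))
(mv 1098 (cons (fin 1036 1 1034)
(fin 1162 5 906)))))))))
(mv 906 (cons (fin 907 3 906)
(mv 910 (cons (fin 911 2 907)
(mv 846 (cons (fin 782 5 781)
(mv 783 (cons (fin 847 6 782)
(mv 845 (cons (fin 781 7 781)
(mv 909 (cons (fin 1102 7 845)
(mv 844 (cons (fin 780 7 780)
(mv 843 (cons (fin 842 0 842)
(mv 779 (cons (fin 778 3 778)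
(mv 1036 (cons (fin 908 7 779)
(fin 1100 5 844)))))))))))))))))))))))
(cons (mv 910 (cons (fin 911 2 907)
(mv 846 (cons (fin 782 5 781)
(mv 783 (cons (fin 847 6 782)
(mv 845 (cons (fin 781 7 781)
(mv 909 (cons (fin 1102 7 845)
(mv 780 (cons (fin 844 7 780)
(mv 1035 (cons (fin 1034 1 970)
(mv 1036 (cons (fin 1100 5 844)
(mv 1099 (cons (fin 1098 1 1034)
(mv 1163 (cons (fin 908 6 907)
(fin 1227 6 971)))))))))))))))))))))
(cons (mv 906 (cons (fin 907 3 906)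
(mv 910 (cons (fin 911 2 907)
(mv 846 (cons (fin 782 5 781)
(mv 845 (cons (fin 781 7 781)
(mv 847 (cons (fin 783 6 782)
(mv 909 (cons (fin 1102 7 845)
(mv 848 (cons (fin 908 1 844)
(fin 849 1 845)))))))))))))))
(mv 907 (cons (fin 906 3 906)
(mv 910 (cons (fin 911 2 907)
(mv 846 (cons (fin 782 5 781)
(mv 783 (cons (fin 847 6 782)
(mv 845 (cons (fin 781 7 781)
(mv 909 (cons (fin 1102 7 845)
(mv 844 (cons (fin 780 7 780)
(mv 843 (cons (fin 842 0 842)
(mv 779 (cons (fin 778 3 778)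
(fin 1036 4 779)))))))))))))))))))))))))))
(mv 972 (cons (fin 1039 3 972)
(mv 971 (cons (fin 970 0 970)
(mv 974 (cons (cons (mv 906 (cons (fin 907 3 906)
(mv 1035 (cons (fin 1034 1 970)
(mv 975 (cons (fin 1036 1 971)
(mv 976 (cons (fin 977 1 973)
(mv 909 (cons (fin 908 3 908)
(mv 845 (cons (fin 781 4 781)
(fin 1102 4 845)))))))))))))
(cons (mv 907 (cons (fin 906 3 906)
(mv 975 (cons (fin 908 3 907)
(mv 976 (cons (fin 1036 1 972)
(fin 977 1 973)))))))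
(mv 1035 (cons (fin 1034 1 970)
(mv 975 (cons (fin 1036 1 971)
(mv 976 (cons (fin 977 1 973)
(mv 909 (cons (fin 908 3 908)
(mv 845 (cons (fin 781 4 781)
(fin 1102 4 845)))))))))))))
(cons (mv 907 (cons (fin 906 3 906)
(mv 1035 (cons (fin 1034 1 970)
(mv 1099 (cons (mv 908 (cons (fin 844 6 843)
(fin 1163 6 907)))
(mv 1098 (cons (fin 1036 1 1034)
(fin 1162 5 906)))))))))
(cons (mv 907 (cons (fin 906 3 906)
(mv 908 (cons (fin 975 3 907)
(mv 844 (cons (fin 780 4 780)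
(mv 1035 (cons (fin 1034 1 970)
(fin 1099 6 843)))))))))
(mv 906 (cons (fin 907 3 906)
(mv 1035 (cons (fin 1034 1 970)
(mv 1036 (cons (fin 975 1 971)
(mv 1099 (cons (fin 1098 1 1034)
(mv 1163 (cons (fin 1227 6 971)
(mv 1162 (cons (fin 1226 5 970)
(mv 1164 (cons (fin 1228 4 971)
(mv 909 (cons (fin 1100 6 908)
(mv 845 (cons (fin 781 5 780)
(fin 1102 4 845)))))))))))))))))))))))))))))))
(mv 1101 (cons (cons (cons (mv 1039 (cons (fin 1100 1 1036)
(mv 972 (cons (fin 973 3 972)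
(mv 1036 (cons (fin 971 3 971)
(mv 844 (cons (fin 908 4 844)
(mv 1104 (cons (fin 1105 0 1037)
(mv 1165 (cons (fin 1229 7 972)
(mv 974 (cons (mv 910 (cons (fin 846 5 845)
(fin 1102 5 909)))
(cons (mv 1035 (cons (fin 975 2 971)
(mv 1034 (cons (fin 1102 0 1034)
(mv 1098 (cons (fin 1097 1 1033)
(fin 1099 1 1034)))))))
(mv 846 (cons (fin 910 5 845)
(mv 975 (cons (fin 1035 2 971)
(mv 847 (cons (fin 911 4 847)
(mv 845 (cons (cons (mv 779 (cons (fin 780 3 779)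
(mv 783 (cons (fin 784 2 780)
(mv 843 (cons (fin 778 3 778)
(fin 782 2 779)))))))
(mv 783 (cons (fin 784 2 780)
(mv 843 (cons (fin 782 2 779)
(mv 778 (cons (fin 779 3 778)
(mv 842 (cons (fin 777 3 777)
(mv 906 (cons (fin 905 1 841)
(fin 907 1 842))))))))))))
(cons (mv 780 (cons (fin 779 3 779)
(mv 848 (cons (fin 781 3 780)
(mv 785 (cons (fin 784 2 781)
(mv 849 (cons (fin 786 2 782)
(mv 913 (cons (fin 912 0 845)
(fin 914 0 846)))))))))))
(cons (mv 784 (cons (fin 783 2 780)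
(mv 848 (cons (fin 785 2 781)
(mv 781 (cons (fin 780 3 780)
(mv 849 (cons (fin 782 3 781)
(mv 913 (cons (fin 912 0 845)
(fin 914 0 846)))))))))))
(mv 779 (cons (fin 780 3 779)
(mv 843 (cons (fin 778 3 778)
(mv 782 (cons (fin 783 2 779)
(mv 842 (cons (fin 781 2 778)
(mv 906 (cons (fin 905 1 841)
(fin 907 1 842))))))))))))))))))))))))))))))))))))
(mv 974 (cons (cons (mv 910 (cons (fin 846 5 845)
(mv 1165 (cons (fin 1102 5 909)
(fin 973 6 909)))))
(mv 910 (cons (fin 846 5 845)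
(mv 1102 (cons (cons (mv 845 (cons (fin 909 7 845)
(mv 911 (cons (fin 847 6 846)
(mv 1166 (cons (fin 975 6 910)
(mv 1230 (cons (fin 973 7 973)
(fin 1294 7 1037)))))))))
(cons (mv 911 (cons (fin 847 6 846)
(mv 1166 (cons (fin 975 6 910)
(mv 1230 (cons (fin 973 7 973)
(fin 1294 7 1037)))))))
(mv 909 (cons (fin 845 7 845)
(mv 973 (cons (fin 1166 7 909)
(mv 844 (cons (fin 908 7 844)
(mv 1100 (cons (fin 1164 5 908)
(mv 1099 (cons (fin 1098 2 1034)
(mv 1035 (cons (fin 1034 3 1034)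
(mv 1036 (cons (fin 975 2 971)
(mv 970 (cons (fin 971 3 970)
(mv 1163 (cons (fin 1162 1 1098)
(mv 1227 (cons (fin 972 6 971)
(fin 1291 6 1035)))))))))))))))))))))))
(cons (mv 847 (cons (fin 911 6 846)
(mv 909 (cons (fin 845 7 845)
(mv 1036 (cons (mv 1035 (cons (fin 975 2 971)
(fin 1034 0 1034)))
(cons (mv 908 (cons (mv 844 (cons (fin 973 7 844)
(fin 972 4 844)))
(cons (mv 907 (cons (fin 975 0 907)
(mv 842 (cons (fin 843 3 842)
(mv 906 (cons (fin 841 3 841)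
(fin 973 0 906)))))))
(mv 844 (cons (fin 972 4 844)
(mv 907 (cons (fin 975 0 907)
(mv 842 (cons (fin 843 3 842)
(mv 906 (cons (fin 841 3 841)
(mv 970 (cons (fin 969 1 905)
(fin 971 1 906))))))))))))))
(mv 1035 (cons (fin 1034 0 1034)
(mv 971 (cons (fin 970 3 970)
(mv 1099 (cons (fin 1098 1 1034)
(mv 1100 (cons (mv 907 (cons (fin 843 4 843)
(fin 1164 4 907)))
(cons (mv 843 (cons (fin 907 4 843)
(mv 1163 (cons (fin 1162 1 1098)
(mv 972 (cons (fin 908 5 907)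
(fin 1227 6 971)))))))
(mv 1164 (cons (fin 1228 7 971)
(fin 973 5 908)))))))))))))))))))
(cons (mv 845 (cons (fin 909 7 845)
(mv 911 (cons (fin 847 6 846)
(mv 1166 (cons (fin 975 6 910)
(mv 1230 (cons (fin 1294 7 1037)
(mv 1231 (cons (fin 1167 4 974)
(fin 1295 4 1038)))))))))))
(mv 847 (cons (fin 911 6 846)
(mv 909 (cons (fin 845 7 845)
(mv 973 (cons (fin 1166 7 909)
(mv 908 (cons (fin 844 7 844)
(mv 906 (cons (fin 907 0 906)
(mv 1100 (cons (fin 1164 5 908)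
(mv 1099 (cons (fin 1098 2 1034)
(mv 1035 (cons (fin 1034 3 1034)
(mv 1163 (cons (fin 1162 1 1098)
(mv 971 (cons (fin 970 7 906)
(fin 972 6 907))))))))))))))))))))))))))))
(cons (mv 1165 (cons (fin 1229 6 973)
(mv 973 (cons (cons (mv 908 (cons (fin 972 7 908)
(mv 909 (cons (fin 844 7 844)
(mv 845 (cons (fin 781 4 781)
(fin 1102 4 845)))))))
(mv 1164 (cons (fin 1228 5 972)
(mv 909 (cons (fin 1100 5 908)
(mv 845 (cons (fin 781 4 781)
(fin 1102 4 845))))))))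
(cons (mv 972 (cons (fin 908 7 908)
(mv 971 (cons (fin 970 0 970)
(mv 906 (cons (fin 907 3 906)
(mv 1035 (cons (fin 1034 1 970)
(mv 975 (cons (fin 1036 1 971)
(mv 911 (cons (fin 912 2 908)
(mv 1166 (cons (fin 1102 6 910)
(fin 1230 4 973)))))))))))))))
(mv 908 (cons (fin 972 7 908)
(mv 909 (cons (fin 844 7 844)
(mv 1164 (cons (fin 1100 5 908)
(fin 1228 5 972))))))))))))
(cons (mv 910 (cons (fin 846 5 845)
(mv 1165 (cons (fin 1102 5 909)
(fin 1229 6 973)))))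
(mv 910 (cons (fin 846 5 845)
(mv 1165 (cons (fin 973 6 909)
(fin 1229 6 973))))))))))
(cons (mv 974 (cons (cons (mv 910 (cons (fin 846 5 845)
(mv 1165 (cons (fin 1102 5 909)
(fin 973 6 909)))))
(mv 910 (cons (fin 846 5 845)
(mv 1102 (cons (cons (mv 845 (cons (fin 909 7 845)
(mv 911 (cons (fin 847 6 846)
(mv 1166 (cons (fin 975 6 910)
(mv 1230 (cons (fin 973 7 973)
(fin 1294 7 1037)))))))))
(cons (mv 911 (cons (fin 847 6 846)
(mv 1166 (cons (fin 975 6 910)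
(mv 1230 (cons (fin 973 7 973)
(fin 1294 7 1037)))))))
(mv 909 (cons (fin 845 7 845)
(mv 973 (cons (fin 1166 7 909)
(mv 844 (cons (fin 908 7 844)
(mv 972 (cons (fin 1039 3 972)
(mv 971 (cons (fin 970 2 906)
(mv 907 (cons (fin 906 3 906)
(mv 1035 (cons (fin 1034 1 970)
(mv 843 (cons (fin 780 6 779)
(mv 1036 (cons (fin 975 1 971)
(fin 779 4 779)))))))))))))))))))))
(cons (mv 847 (cons (fin 911 6 846)
(mv 909 (cons (fin 845 7 845)
(mv 1036 (cons (mv 1035 (cons (fin 975 2 971)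
(fin 1034 0 1034)))
(cons (mv 972 (cons (mv 1039 (cons (fin 971 3 971)
(fin 973 3 972)))
(cons (mv 908 (cons (fin 844 4 844)
(mv 907 (cons (fin 975 0 907)
(mv 842 (cons (fin 843 3 842)
(mv 906 (cons (fin 841 3 841)
(fin 973 0 906)))))))))
(mv 908 (cons (fin 844 4 844)
(mv 907 (cons (fin 975 0 907)
(mv 971 (cons (fin 1039 3 971)
(fin 970 1 906))))))))))
(mv 1035 (cons (fin 1034 0 1034)
(mv 971 (cons (fin 970 3 970)
(mv 972 (cons (fin 1039 3 971)
(mv 908 (cons (fin 844 4 844)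
(mv 1099 (cons (fin 1098 1 1034)
(fin 1163 6 907))))))))))))))))))
(cons (mv 845 (cons (fin 909 7 845)
(mv 911 (cons (fin 847 6 846)
(mv 1166 (cons (fin 975 6 910)
(mv 1230 (cons (fin 1294 7 1037)
(mv 1231 (cons (fin 1167 4 974)
(fin 1295 4 1038)))))))))))
(mv 847 (cons (fin 911 6 846)
(mv 909 (cons (fin 845 7 845)
(mv 973 (cons (fin 1166 7 909)
(mv 844 (cons (fin 908 7 844)
(mv 972 (cons (fin 1039 3 972)
(mv 971 (cons (fin 970 2 906)
(mv 907 (cons (fin 906 3 906)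
(mv 1035 (cons (fin 1034 1 970)
(mv 843 (cons (fin 780 6 779)
(mv 778 (cons (fin 842 7 778)
(mv 779 (cons (fin 714 7 714)
(fin 1036 4 779))))))))))))))))))))))))))))))
(cons (mv 1165 (cons (fin 1229 6 973)
(mv 973 (cons (mv 972 (cons (fin 1039 3 972)
(fin 908 7 908)))
(cons (mv 1164 (cons (fin 1228 5 972)
(mv 1166 (cons (fin 1230 4 973)
(mv 909 (cons (fin 1102 7 909)
(mv 844 (cons (fin 908 7 844)
(mv 845 (cons (fin 780 7 780)
(fin 781 4 781)))))))))))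
(mv 972 (cons (fin 1039 3 972)
(mv 970 (cons (fin 971 0 970)
(mv 1164 (cons (fin 1228 5 972)
(mv 1166 (cons (fin 1230 4 973)
(mv 1102 (cons (fin 909 7 909)
(mv 911 (cons (fin 975 6 910)
(mv 1163 (cons (fin 1162 2 1098)
(mv 1099 (cons (fin 1098 3 1098)
(mv 1167 (cons (fin 1231 4 974)
(mv 1168 (cons (fin 1169 3 1101)
(mv 1104 (cons (fin 1105 2 1101)
(mv 1227 (cons (fin 1226 1 1162)
(mv 1035 (cons (fin 1034 7 970)
(fin 1036 6 971))))))))))))))))))))))))))))))))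
(cons (mv 910 (cons (fin 846 5 845)
(mv 1165 (cons (fin 1102 5 909)
(fin 1229 6 973)))))
(mv 910 (cons (fin 846 5 845)
(mv 1165 (cons (fin 973 6 909)
(fin 1229 6 973)))))))))
(cons (mv 1039 (cons (fin 1100 1 1036)
(mv 973 (cons (fin 972 3 972)
(mv 1104 (cons (fin 1105 0 1037)
(mv 909 (cons (mv 1102 (cons (fin 845 4 845)
(fin 1166 4 909)))
(cons (mv 844 (cons (fin 908 7 844)
(mv 845 (cons (fin 780 7 780)
(mv 846 (cons (fin 782 6 781)
(fin 910 6 845)))))))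
(mv 844 (cons (fin 908 7 844)
(mv 846 (cons (fin 910 6 845)
(mv 1166 (cons (fin 1102 4 909)
(mv 1165 (cons (fin 1230 4 973)
(mv 1228 (cons (fin 1164 5 972)
(mv 1229 (cons (fin 1292 5 1036)
(mv 1168 (cons (fin 1167 1 1164)
(mv 1226 (cons (fin 1227 2 1162)
(mv 1232 (cons (fin 975 7 975)
(mv 1295 (cons (fin 1231 5 1039)
(mv 1296 (cons (fin 1359 5 1103)
(mv 1297 (cons (fin 1233 4 1040)
(fin 1361 4 1104))))))))))))))))))))))))))))))))))
(mv 1100 (cons (fin 1039 1 1036)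
(mv 1098 (cons (fin 1099 2 1034)
(mv 974 (cons (cons (mv 910 (cons (fin 846 5 845)
(mv 1165 (cons (fin 1102 5 909)
(fin 1229 6 973)))))
(mv 910 (cons (fin 846 5 845)
(mv 1036 (cons (cons (mv 1035 (cons (fin 975 2 971)
(mv 1034 (cons (fin 1097 1 1033)
(fin 1033 0 1033)))))
(mv 909 (cons (cons (mv 845 (cons (fin 1102 7 845)
(mv 717 (cons (fin 781 4 717)
(mv 908 (cons (fin 972 6 844)
(mv 907 (cons (fin 975 0 907)
(mv 842 (cons (fin 843 3 842)
(mv 906 (cons (fin 841 3 841)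
(mv 970 (cons (fin 969 1 905)
(fin 971 1 906)))))))))))))))
(mv 908 (cons (cons (mv 844 (cons (fin 972 4 844)
(mv 843 (cons (fin 911 3 843)
(mv 842 (cons (fin 907 3 842)
(fin 841 0 841)))))))
(mv 844 (cons (fin 972 4 844)
(mv 911 (cons (fin 843 3 843)
(mv 847 (cons (fin 848 2 844)
(fin 1102 6 846))))))))
(cons (mv 907 (cons (fin 975 0 907)
(mv 842 (cons (fin 843 3 842)
(mv 906 (cons (fin 841 3 841)
(mv 970 (cons (fin 969 1 905)
(fin 971 1 906)))))))))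
(mv 844 (cons (fin 972 4 844)
(mv 907 (cons (fin 975 0 907)
(mv 970 (cons (fin 971 1 906)
(mv 906 (cons (fin 969 1 905)
(mv 841 (cons (fin 842 3 841)
(mv 905 (cons (fin 840 3 840)
(fin 1034 7 841)))))))))))))))))
(cons (mv 908 (cons (mv 972 (cons (fin 845 6 844)
(fin 844 4 844)))
(mv 907 (cons (fin 975 0 907)
(mv 842 (cons (fin 843 3 842)
(mv 906 (cons (fin 841 3 841)
(mv 970 (cons (fin 969 1 905)
(fin 971 1 906)))))))))))
(cons (mv 1102 (cons (fin 845 7 845)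
(mv 911 (cons (fin 847 6 846)
(mv 1166 (cons (fin 975 6 910)
(mv 1230 (cons (fin 1294 7 1037)
(mv 1231 (cons (fin 1167 4 974)
(fin 1295 4 1038)))))))))))
(mv 908 (cons (mv 845 (cons (fin 1102 7 845)
(fin 972 6 844)))
(cons (mv 1102 (cons (fin 845 7 845)
(mv 911 (cons (fin 847 6 846)
(mv 843 (cons (fin 844 3 843)
(mv 907 (cons (fin 842 3 842)
(mv 970 (cons (fin 971 1 906)
(mv 906 (cons (fin 969 1 905)
(fin 1034 6 842)))))))))))))
(mv 844 (cons (fin 972 4 844)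
(mv 843 (cons (fin 911 3 843)
(mv 842 (cons (fin 907 3 842)
(fin 841 0 841)))))))))))))))
(cons (mv 1035 (cons (mv 1034 (cons (fin 1097 1 1033)
(fin 1033 0 1033)))
(mv 971 (cons (fin 970 3 970)
(mv 907 (cons (fin 843 4 843)
(mv 1164 (cons (fin 972 7 907)
(fin 1228 7 971)))))))))
(mv 1035 (cons (fin 975 2 971)
(mv 971 (cons (fin 970 3 970)
(mv 907 (cons (fin 843 4 843)
(mv 1164 (cons (fin 972 7 907)
(fin 1228 7 971)))))))))))))))
(cons (mv 1036 (cons (mv 1035 (cons (fin 975 2 971)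
(mv 1034 (cons (fin 1097 1 1033)
(fin 1033 0 1033)))))
(cons (mv 972 (cons (mv 908 (cons (fin 844 4 844)
(fin 1165 4 908)))
(cons (mv 908 (cons (fin 844 4 844)
(mv 845 (cons (fin 909 6 844)
(mv 907 (cons (fin 843 7 843)
(mv 1164 (cons (fin 971 7 907)
(mv 1227 (cons (fin 1163 5 971)
(mv 1228 (cons (fin 1291 5 1035)
(fin 1292 6 1036)))))))))))))
(mv 1164 (cons (cons (mv 907 (cons (fin 971 7 907)
(mv 1163 (cons (fin 1227 5 971)
(mv 1161 (cons (fin 1162 2 1097)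
(mv 1228 (cons (fin 1292 6 1036)
(mv 1229 (cons (fin 1165 7 972)
(fin 1293 4 1036)))))))))))
(mv 907 (cons (fin 971 7 907)
(mv 1163 (cons (fin 1227 5 971)
(mv 1162 (cons (fin 1161 2 1097)
(mv 1165 (cons (fin 1097 3 1097)
(fin 1102 2 1098))))))))))
(cons (mv 907 (cons (fin 971 7 907)
(mv 1227 (cons (fin 1163 5 971)
(mv 1228 (cons (fin 1291 5 1035)
(fin 1292 6 1036)))))))
(cons (mv 907 (cons (fin 971 7 907)
(mv 1228 (cons (fin 1292 6 1036)
(mv 1229 (cons (fin 1165 7 972)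
(fin 1293 4 1036)))))))
(mv 1163 (cons (fin 1227 5 971)
(mv 1161 (cons (fin 1162 2 1097)
(mv 1228 (cons (fin 1292 6 1036)
(mv 1229 (cons (fin 1165 7 972)
(fin 1293 4 1036))))))))))))))))
(mv 1035 (cons (fin 975 2 971)
(mv 1034 (cons (fin 1033 0 1033)
(fin 1102 0 1034))))))))
(mv 846 (cons (fin 910 5 845)
(mv 1036 (cons (cons (mv 975 (cons (fin 1035 2 971)
(mv 1164 (cons (cons (mv 1165 (cons (fin 1229 6 973)
(mv 908 (cons (fin 972 4 908)
(mv 1228 (cons (fin 1292 6 1036)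
(mv 1227 (cons (fin 1291 5 1035)
(mv 1166 (cons (fin 1167 1 1163)
(mv 1226 (cons (fin 1163 1 1162)
(fin 1225 2 1161)))))))))))))
(mv 1228 (cons (fin 1292 6 1036)
(mv 1227 (cons (fin 1291 5 1035)
(mv 972 (cons (fin 1163 5 971)
(mv 907 (cons (fin 971 7 907)
(mv 908 (cons (fin 843 7 843)
(fin 844 4 844))))))))))))
(cons (mv 1165 (cons (fin 1229 6 973)
(mv 972 (cons (fin 908 4 908)
(mv 907 (cons (fin 971 7 907)
(mv 1163 (cons (fin 1227 5 971)
(mv 1162 (cons (fin 1097 3 1097)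
(fin 1161 2 1097)))))))))))
(cons (mv 1165 (cons (fin 1229 6 973)
(mv 1228 (cons (fin 1292 6 1036)
(mv 1227 (cons (fin 1291 5 1035)
(mv 1166 (cons (fin 1167 1 1163)
(mv 1226 (cons (fin 1163 1 1162)
(fin 1225 2 1161)))))))))))
(mv 1228 (cons (fin 1292 6 1036)
(mv 1229 (cons (fin 1165 6 973)
(fin 1293 4 1036)))))))))))
(mv 1035 (cons (fin 975 2 971)
(mv 1034 (cons (fin 1097 1 1033)
(fin 1033 0 1033))))))
(cons (mv 972 (cons (mv 908 (cons (fin 844 4 844)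
(fin 1165 4 908)))
(cons (mv 908 (cons (fin 844 4 844)
(mv 845 (cons (fin 909 6 844)
(mv 907 (cons (fin 843 7 843)
(mv 1164 (cons (fin 971 7 907)
(mv 1227 (cons (fin 1163 5 971)
(mv 1228 (cons (fin 1291 5 1035)
(fin 1292 6 1036)))))))))))))
(mv 1164 (cons (cons (mv 907 (cons (fin 971 7 907)
(mv 1163 (cons (fin 1227 5 971)
(mv 1161 (cons (fin 1162 2 1097)
(mv 1228 (cons (fin 1292 6 1036)
(mv 1229 (cons (fin 1165 7 972)
(fin 1293 4 1036)))))))))))
(mv 907 (cons (fin 971 7 907)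
(mv 1227 (cons (fin 1163 5 971)
(mv 1228 (cons (fin 1291 5 1035)
(fin 1292 6 1036))))))))
(cons (mv 907 (cons (fin 971 7 907)
(mv 1163 (cons (fin 1227 5 971)
(mv 1162 (cons (fin 1161 2 1097)
(mv 1165 (cons (fin 1097 3 1097)
(fin 1229 7 972)))))))))
(cons (mv 907 (cons (fin 971 7 907)
(mv 1228 (cons (fin 1292 6 1036)
(mv 1229 (cons (fin 1165 7 972)
(fin 1293 4 1036)))))))
(mv 1163 (cons (fin 1227 5 971)
(mv 1161 (cons (fin 1162 2 1097)
(mv 1228 (cons (fin 1292 6 1036)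
(mv 1229 (cons (fin 1165 7 972)
(fin 1293 4 1036))))))))))))))))
(mv 1035 (cons (fin 975 2 971)
(mv 970 (cons (fin 971 3 970)
(mv 1034 (cons (fin 969 3 969)
(fin 1033 0 1033))))))))))))))))))))))
(cons (cons (mv 1039 (cons (fin 1100 1 1036)
(mv 1104 (cons (fin 1105 0 1037)
(mv 1036 (cons (cons (mv 972 (cons (fin 971 3 971)
(fin 973 3 972)))
(mv 1035 (cons (cons (mv 970 (cons (fin 971 3 970)
(mv 1034 (cons (fin 969 3 969)
(fin 1102 0 1034)))))
(mv 971 (cons (fin 970 3 970)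
(mv 1099 (cons (fin 1098 1 1034)
(mv 907 (cons (cons (mv 842 (cons (fin 906 7 842)
(mv 843 (cons (fin 778 7 778)
(mv 844 (cons (fin 780 6 779)
(fin 908 6 843)))))))
(cons (mv 842 (cons (fin 906 7 842)
(mv 843 (cons (fin 778 7 778)
(mv 974 (cons (fin 975 2 971)
(mv 910 (cons (fin 846 5 845)
(mv 909 (cons (fin 908 3 842)
(mv 845 (cons (fin 1102 7 845)
(mv 781 (cons (fin 717 4 717)
(fin 973 4 781)))))))))))))))
(mv 844 (cons (fin 908 6 843)
(mv 843 (cons (fin 780 6 779)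
(mv 846 (cons (cons (mv 974 (cons (fin 975 2 971)
(fin 910 5 845)))
(mv 845 (cons (fin 906 1 842)
(mv 778 (cons (fin 779 3 778)
(mv 782 (cons (fin 783 2 779)
(mv 909 (cons (fin 973 6 781)
(mv 911 (cons (fin 910 0 843)
(mv 847 (cons (fin 912 0 844)
(fin 975 7 782))))))))))))))
(cons (mv 845 (cons (fin 906 1 842)
(mv 778 (cons (fin 779 3 778)
(mv 783 (cons (fin 782 2 779)
(mv 847 (cons (fin 784 2 780)
(mv 911 (cons (fin 912 0 844)
(fin 975 4 847)))))))))))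
(mv 845 (cons (fin 906 1 842)
(mv 910 (cons (fin 911 0 843)
(fin 974 5 845))))))))))))))
(cons (mv 974 (cons (fin 975 2 971)
(mv 846 (cons (fin 910 5 845)
(mv 843 (cons (mv 842 (cons (fin 778 7 778)
(fin 906 7 842)))
(cons (mv 780 (cons (fin 844 6 779)
(mv 779 (cons (fin 716 6 715)
(mv 778 (cons (fin 714 7 714)
(mv 781 (cons (fin 845 0 778)
(mv 718 (cons (fin 717 2 714)
(mv 782 (cons (fin 719 2 715)
(fin 847 0 779)))))))))))))
(mv 844 (cons (fin 780 6 779)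
(mv 906 (cons (fin 845 1 842)
(fin 842 7 842))))))))))))
(cons (mv 844 (cons (fin 908 6 843)
(mv 843 (cons (fin 780 6 779)
(mv 778 (cons (fin 842 7 778)
(mv 779 (cons (fin 714 7 714)
(mv 776 (cons (fin 777 0 776)
(mv 846 (cons (fin 845 3 778)
(mv 974 (cons (fin 975 2 971)
(fin 910 5 845)))))))))))))))
(mv 906 (cons (fin 842 7 842)
(mv 908 (cons (fin 844 6 843)
(mv 974 (cons (fin 975 2 971)
(mv 846 (cons (fin 910 5 845)
(mv 909 (cons (fin 845 2 842)
(fin 973 0 906))))))))))))))))))))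
(cons (mv 974 (cons (fin 975 2 971)
(mv 1034 (cons (fin 973 2 970)
(fin 1102 0 1034)))))
(mv 970 (cons (fin 971 3 970)
(mv 974 (cons (fin 975 2 971)
(mv 1034 (cons (fin 969 3 969)
(fin 973 2 970)))))))))))
(cons (mv 973 (cons (fin 972 3 972)
(mv 1102 (cons (mv 909 (cons (fin 845 4 845)
(fin 1166 4 909)))
(cons (mv 1035 (cons (fin 1034 0 1034)
(mv 1098 (cons (fin 1099 1 1034)
(mv 846 (cons (mv 909 (cons (fin 910 6 845)
(fin 845 4 845)))
(cons (mv 974 (cons (fin 975 2 971)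
(fin 910 5 845)))
(mv 845 (cons (fin 909 4 845)
(mv 975 (cons (fin 974 2 971)
(mv 847 (cons (fin 911 5 846)
(mv 1168 (cons (fin 1232 7 975)
(mv 848 (cons (mv 780 (cons (fin 781 3 780)
(mv 784 (cons (fin 785 2 781)
(mv 844 (cons (fin 779 3 779)
(fin 783 2 780)))))))
(cons (mv 781 (cons (fin 780 3 780)
(mv 849 (cons (fin 782 3 781)
(mv 913 (cons (fin 912 0 845)
(fin 914 0 846)))))))
(mv 785 (cons (fin 784 2 781)
(mv 849 (cons (fin 786 2 782)
(mv 913 (cons (fin 912 0 845)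
(fin 914 0 846)))))))))))))))))))))))))
(mv 1034 (cons (fin 1035 0 1034)
(mv 1166 (cons (fin 1230 7 973)
(mv 1168 (cons (cons (mv 975 (cons (fin 1232 7 975)
(mv 911 (cons (fin 847 5 846)
(fin 974 6 910)))))
(mv 1167 (cons (fin 1169 3 1101)
(mv 1231 (cons (fin 974 4 974)
(mv 1295 (cons (fin 1359 7 1102)
(fin 1232 5 1039))))))))
(cons (mv 1167 (cons (fin 1169 3 1101)
(mv 974 (cons (fin 1231 4 974)
(mv 910 (cons (fin 846 5 845)
(mv 911 (cons (fin 847 6 846)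
(fin 975 6 910)))))))))
(mv 1167 (cons (fin 1169 3 1101)
(mv 1232 (cons (fin 975 7 975)
(mv 1231 (cons (fin 1295 5 1039)
(mv 1233 (cons (fin 1234 3 1166)
(fin 1297 4 1040)))))))))))))))))))))
(mv 971 (cons (fin 972 3 971)
(mv 1035 (cons (fin 970 3 970)
(mv 974 (cons (fin 975 2 971)
(mv 846 (cons (fin 910 5 845)
(mv 1034 (cons (fin 1102 0 1034)
(mv 1098 (cons (fin 1097 1 1033)
(fin 1099 1 1034))))))))))))))))))))
(cons (mv 1100 (cons (fin 1039 1 1036)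
(mv 1098 (cons (fin 1099 2 1034)
(mv 974 (cons (cons (mv 910 (cons (fin 846 5 845)
(mv 1165 (cons (fin 1102 5 909)
(fin 973 6 909)))))
(mv 910 (cons (fin 846 5 845)
(mv 909 (cons (cons (mv 845 (cons (fin 1102 7 845)
(mv 781 (cons (fin 717 4 717)
(fin 973 4 781)))))
(mv 1102 (cons (fin 845 7 845)
(mv 911 (cons (fin 847 6 846)
(mv 1166 (cons (fin 975 6 910)
(mv 1230 (cons (fin 1294 7 1037)
(mv 1231 (cons (fin 1167 4 974)
(fin 1295 4 1038))))))))))))
(cons (mv 973 (cons (fin 1164 5 908)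
(mv 845 (cons (fin 1036 5 844)
(fin 781 4 781)))))
(mv 973 (cons (fin 1164 5 908)
(mv 908 (cons (fin 844 7 844)
(mv 907 (cons (fin 906 0 906)
(fin 975 0 907)))))))))))))
(cons (mv 1165 (cons (fin 1229 6 973)
(mv 973 (cons (mv 1164 (cons (fin 909 5 908)
(fin 1228 5 972)))
(cons (mv 1166 (cons (fin 1230 4 973)
(mv 909 (cons (fin 1102 7 909)
(mv 845 (cons (fin 1036 5 844)
(fin 781 4 781)))))))
(mv 1164 (cons (fin 1228 5 972)
(mv 1166 (cons (fin 1230 4 973)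
(mv 1167 (cons (fin 1168 3 1100)
(mv 1231 (cons (fin 1232 0 1164)
(fin 1102 4 974))))))))))))))
(cons (mv 910 (cons (fin 846 5 845)
(mv 1165 (cons (fin 1102 5 909)
(fin 1229 6 973)))))
(mv 910 (cons (fin 846 5 845)
(mv 1165 (cons (fin 973 6 909)
(fin 1229 6 973)))))))))))))
(mv 1039 (cons (fin 1100 1 1036)
(mv 973 (cons (fin 972 3 972)
(mv 1104 (cons (fin 1105 0 1037)
(mv 909 (cons (mv 1102 (cons (fin 845 4 845)
(fin 1166 4 909)))
(cons (mv 844 (cons (fin 908 7 844)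
(mv 845 (cons (fin 780 7 780)
(mv 781 (cons (fin 974 4 781)
(mv 782 (cons (fin 718 6 717)
(fin 846 6 781)))))))))
(mv 844 (cons (fin 908 7 844)
(mv 1166 (cons (fin 1102 4 909)
(mv 1165 (cons (fin 1230 4 973)
(mv 1228 (cons (fin 1164 5 972)
(mv 1229 (cons (fin 1292 5 1036)
(fin 974 6 973))))))))))))))))))))))
(cons (mv 1039 (cons (fin 1100 1 1036)
(mv 972 (cons (fin 973 3 972)
(mv 1036 (cons (fin 971 3 971)
(mv 844 (cons (fin 908 4 844)
(mv 1104 (cons (fin 1105 0 1037)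
(mv 1102 (cons (cons (mv 1035 (cons (fin 1034 0 1034)
(mv 974 (cons (fin 975 2 971)
(mv 1165 (cons (fin 1229 7 972)
(fin 910 5 909)))))))
(cons (mv 1035 (cons (fin 1034 0 1034)
(mv 1098 (cons (fin 1099 1 1034)
(mv 1166 (cons (cons (mv 975 (cons (fin 974 2 971)
(fin 1230 6 974)))
(mv 1230 (cons (fin 1294 7 1037)
(mv 1229 (cons (fin 1293 5 1037)
(mv 1231 (cons (fin 1295 4 1038)
(mv 1167 (cons (fin 974 4 974)
(mv 1168 (cons (fin 1169 3 1101)
(fin 1228 2 1164))))))))))))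
(cons (mv 1168 (cons (cons (mv 975 (cons (fin 974 2 971)
(fin 1232 7 975)))
(mv 1167 (cons (fin 1169 3 1101)
(mv 1231 (cons (fin 974 4 974)
(mv 1295 (cons (fin 1359 7 1102)
(fin 1232 5 1039))))))))
(cons (mv 974 (cons (fin 975 2 971)
(mv 1167 (cons (fin 1169 3 1101)
(fin 1231 4 974)))))
(mv 1167 (cons (fin 1169 3 1101)
(mv 1232 (cons (fin 975 7 975)
(mv 1231 (cons (fin 1295 5 1039)
(mv 1233 (cons (fin 1234 3 1166)
(fin 1297 4 1040))))))))))))
(mv 1230 (cons (fin 1294 7 1037)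
(fin 975 6 974))))))))))
(mv 1035 (cons (fin 1034 0 1034)
(mv 1099 (cons (fin 1098 1 1034)
(mv 1163 (cons (fin 1227 6 971)
(mv 1166 (cons (cons (mv 975 (cons (fin 974 2 971)
(fin 1230 6 974)))
(mv 1230 (cons (fin 1294 7 1037)
(mv 1231 (cons (fin 1295 4 1038)
(mv 974 (cons (fin 1167 4 974)
(mv 1165 (cons (fin 1164 0 1163)
(fin 910 5 909))))))))))
(cons (mv 1168 (cons (cons (mv 975 (cons (fin 974 2 971)
(fin 1232 7 975)))
(mv 1167 (cons (fin 1169 3 1101)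
(mv 1231 (cons (fin 974 4 974)
(mv 1295 (cons (fin 1359 7 1102)
(fin 1232 5 1039))))))))
(cons (mv 1167 (cons (fin 1169 3 1101)
(mv 1232 (cons (fin 975 7 975)
(mv 1233 (cons (fin 1165 0 1165)
(fin 1297 4 1040)))))))
(mv 974 (cons (fin 975 2 971)
(mv 1167 (cons (fin 1169 3 1101)
(fin 1231 4 974))))))))
(mv 1230 (cons (fin 1294 7 1037)
(fin 975 6 974))))))))))))))
(cons (mv 1165 (cons (fin 1229 7 972)
(mv 974 (cons (fin 910 5 909)
(mv 1166 (cons (mv 975 (cons (fin 911 6 910)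
(fin 1230 6 974)))
(cons (mv 1230 (cons (fin 1294 7 1037)
(mv 1231 (cons (fin 1167 4 974)
(fin 1295 4 1038)))))
(mv 975 (cons (fin 911 6 910)
(mv 1167 (cons (fin 1231 4 974)
(mv 1168 (cons (fin 1169 3 1101)
(fin 1232 7 975))))))))))))))
(cons (mv 1035 (cons (fin 1034 0 1034)
(mv 1099 (cons (fin 1098 1 1034)
(mv 1227 (cons (fin 1163 6 971)
(mv 1229 (cons (fin 1165 7 972)
(mv 1230 (cons (cons (mv 1166 (cons (fin 1294 7 1037)
(fin 1293 5 1037)))
(mv 1228 (cons (cons (mv 1290 (cons (fin 1291 1 1226)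
(mv 1226 (cons (fin 1289 1 1225)
(mv 1294 (cons (fin 1293 0 1226)
(fin 1295 0 1227)))))))
(mv 1295 (cons (fin 1294 0 1227)
(mv 1231 (cons (fin 1296 0 1228)
(mv 1168 (cons (fin 1167 2 1164)
(fin 1232 5 1039))))))))
(cons (mv 1290 (cons (fin 1291 1 1226)
(mv 1226 (cons (fin 1289 1 1225)
(mv 1225 (cons (mv 1161 (cons (fin 1160 3 1160)
(fin 1162 3 1161)))
(mv 1293 (cons (fin 1292 0 1225)
(fin 1294 0 1226)))))))))
(mv 1291 (cons (fin 1290 1 1226)
(mv 1231 (cons (fin 1292 1 1227)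
(mv 1168 (cons (fin 1167 2 1164)
(mv 1232 (cons (fin 1169 2 1165)
(fin 1295 5 1039)))))))))))))
(cons (mv 1166 (cons (fin 1293 5 1037)
(mv 1167 (cons (fin 1228 2 1163)
(mv 1231 (cons (fin 974 4 974)
(fin 1295 4 1038)))))))
(mv 1166 (cons (fin 1294 7 1037)
(mv 1167 (cons (fin 1228 2 1163)
(mv 1231 (cons (fin 974 4 974)
(fin 1295 4 1038))))))))))))))))))
(mv 1034 (cons (fin 1035 0 1034)
(mv 1229 (cons (fin 1165 7 972)
(mv 1230 (cons (cons (mv 1166 (cons (fin 1294 7 1037)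
(fin 1293 5 1037)))
(mv 1232 (cons (cons (mv 1168 (cons (fin 975 7 975)
(mv 1231 (cons (fin 1169 2 1165)
(fin 1295 5 1039)))))
(mv 1231 (cons (cons (mv 1292 (cons (fin 1293 1 1228)
(mv 1228 (cons (fin 1291 1 1227)
(mv 1296 (cons (fin 1295 0 1228)
(fin 1297 0 1229)))))))
(mv 1293 (cons (fin 1292 1 1228)
(mv 1233 (cons (fin 1294 1 1229)
(mv 1170 (cons (fin 1169 2 1166)
(mv 1234 (cons (fin 1171 2 1167)
(mv 1298 (cons (fin 1297 0 1230)
(fin 1299 0 1231))))))))))))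
(cons (mv 1296 (cons (fin 1297 0 1229)
(mv 1228 (cons (fin 1295 0 1228)
(mv 1163 (cons (fin 1164 3 1163)
(mv 1227 (cons (fin 1162 3 1162)
(mv 1291 (cons (fin 1290 1 1226)
(fin 1292 1 1227)))))))))))
(cons (mv 1292 (cons (fin 1293 1 1228)
(mv 1228 (cons (fin 1291 1 1227)
(mv 1163 (cons (fin 1164 3 1163)
(mv 1227 (cons (fin 1162 3 1162)
(mv 1295 (cons (fin 1294 0 1227)
(fin 1296 0 1228)))))))))))
(mv 1297 (cons (fin 1296 0 1229)
(mv 1233 (cons (fin 1298 0 1230)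
(mv 1170 (cons (fin 1169 2 1166)
(mv 1234 (cons (fin 1171 2 1167)
(mv 1294 (cons (fin 1293 1 1229)
(fin 1295 1 1230))))))))))))))))
(cons (mv 1168 (cons (fin 975 7 975)
(mv 1297 (cons (fin 1233 4 1040)
(mv 1296 (cons (fin 1361 4 1104)
(mv 1295 (cons (fin 1294 3 1229)
(fin 1359 5 1103)))))))))
(mv 1168 (cons (fin 975 7 975)
(mv 1231 (cons (fin 1169 2 1165)
(mv 1297 (cons (fin 1296 0 1229)
(fin 1233 4 1040)))))))))))
(cons (mv 1166 (cons (fin 1293 5 1037)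
(fin 975 6 974)))
(mv 1166 (cons (fin 1294 7 1037)
(fin 975 6 974))))))))))))))))))))))))
(cons (mv 1039 (cons (fin 1100 1 1036)
(mv 973 (cons (fin 972 3 972)
(mv 1104 (cons (fin 1105 0 1037)
(mv 1165 (cons (mv 974 (cons (fin 910 6 909)
(fin 1229 6 973)))
(cons (mv 1166 (cons (fin 1230 4 973)
(mv 1228 (cons (fin 1164 5 972)
(mv 1229 (cons (fin 1292 5 1036)
(mv 1168 (cons (fin 1167 1 1164)
(mv 1226 (cons (fin 1227 2 1162)
(mv 1232 (cons (fin 975 7 975)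
(mv 1295 (cons (fin 1231 5 1039)
(mv 1296 (cons (fin 1359 5 1103)
(mv 1297 (cons (fin 1233 4 1040)
(fin 1361 4 1104)))))))))))))))))))
(mv 1164 (cons (fin 1228 5 972)
(mv 1166 (cons (fin 1230 4 973)
(mv 909 (cons (cons (mv 910 (cons (fin 846 6 845)
(fin 974 6 909)))
(mv 844 (cons (fin 908 7 844)
(mv 845 (cons (fin 780 7 780)
(mv 781 (cons (fin 974 4 781)
(mv 782 (cons (fin 718 6 717)
(fin 846 6 781))))))))))
(cons (mv 844 (cons (fin 908 7 844)
(mv 845 (cons (fin 780 7 780)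
(mv 846 (cons (fin 782 6 781)
(fin 910 6 845)))))))
(mv 844 (cons (fin 908 7 844)
(mv 845 (cons (fin 780 7 780)
(mv 974 (cons (fin 910 6 909)
(fin 781 4 781)))))))))))))))))))))))
(mv 1039 (cons (fin 1100 1 1036)
(mv 972 (cons (fin 973 3 972)
(mv 1036 (cons (fin 971 3 971)
(mv 1104 (cons (fin 1105 0 1037)
(mv 1102 (cons (cons (mv 1035 (cons (fin 1034 0 1034)
(mv 974 (cons (fin 975 2 971)
(mv 910 (cons (fin 846 5 845)
(fin 1165 5 909)))))))
(mv 1034 (cons (fin 1035 0 1034)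
(mv 1166 (cons (mv 1230 (cons (fin 1294 7 1037)
(fin 975 6 974)))
(cons (mv 1168 (cons (cons (mv 975 (cons (fin 1232 7 975)
(mv 911 (cons (fin 847 5 846)
(fin 974 6 910)))))
(mv 1167 (cons (fin 1169 3 1101)
(mv 1231 (cons (fin 974 4 974)
(mv 1295 (cons (fin 1359 7 1102)
(fin 1232 5 1039))))))))
(cons (mv 1167 (cons (fin 1169 3 1101)
(mv 974 (cons (fin 1231 4 974)
(mv 910 (cons (fin 846 5 845)
(mv 911 (cons (fin 847 6 846)
(fin 975 6 910)))))))))
(mv 1167 (cons (fin 1169 3 1101)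
(mv 1232 (cons (fin 975 7 975)
(mv 1231 (cons (fin 1295 5 1039)
(mv 1233 (cons (fin 1234 3 1166)
(fin 1297 4 1040))))))))))))
(mv 1230 (cons (fin 1294 7 1037)
(mv 1229 (cons (fin 1293 5 1037)
(mv 1231 (cons (fin 1295 4 1038)
(mv 1167 (cons (fin 974 4 974)
(mv 1168 (cons (fin 1169 3 1101)
(fin 1228 2 1164)))))))))))))))))
(cons (mv 1165 (cons (fin 1229 7 972)
(mv 974 (cons (fin 910 5 909)
(mv 1166 (cons (mv 975 (cons (fin 911 6 910)
(fin 1230 6 974)))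
(cons (mv 1230 (cons (fin 1294 7 1037)
(mv 1231 (cons (fin 1167 4 974)
(fin 1295 4 1038)))))
(mv 975 (cons (fin 911 6 910)
(mv 1167 (cons (fin 1231 4 974)
(mv 1168 (cons (fin 1169 3 1101)
(fin 1232 7 975))))))))))))))
(cons (mv 1035 (cons (fin 1034 0 1034)
(mv 1099 (cons (fin 1098 1 1034)
(mv 1227 (cons (fin 1163 6 971)
(mv 1229 (cons (fin 1165 7 972)
(mv 1230 (cons (cons (mv 1166 (cons (fin 1294 7 1037)
(fin 1293 5 1037)))
(mv 1228 (cons (cons (mv 1290 (cons (fin 1291 1 1226)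
(mv 1226 (cons (fin 1289 1 1225)
(mv 1294 (cons (fin 1293 0 1226)
(fin 1295 0 1227)))))))
(mv 1294 (cons (fin 1295 0 1227)
(mv 1226 (cons (fin 1293 0 1226)
(mv 1161 (cons (fin 1162 3 1161)
(mv 1225 (cons (fin 1160 3 1160)
(mv 1289 (cons (fin 1288 1 1224)
(fin 1290 1 1225))))))))))))
(cons (mv 1290 (cons (fin 1291 1 1226)
(mv 1226 (cons (fin 1289 1 1225)
(mv 1161 (cons (fin 1162 3 1161)
(mv 1225 (cons (fin 1160 3 1160)
(mv 1293 (cons (fin 1292 0 1225)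
(fin 1294 0 1226)))))))))))
(cons (mv 1291 (cons (fin 1290 1 1226)
(mv 1231 (cons (fin 1292 1 1227)
(mv 1168 (cons (fin 1167 2 1164)
(mv 1232 (cons (fin 1169 2 1165)
(fin 1295 5 1039)))))))))
(mv 1295 (cons (fin 1294 0 1227)
(mv 1231 (cons (fin 1296 0 1228)
(mv 1168 (cons (fin 1167 2 1164)
(fin 1232 5 1039))))))))))))
(cons (mv 1166 (cons (fin 1293 5 1037)
(mv 1167 (cons (fin 1228 2 1163)
(mv 1231 (cons (fin 974 4 974)
(fin 1295 4 1038)))))))
(mv 1166 (cons (fin 1294 7 1037)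
(mv 1167 (cons (fin 1228 2 1163)
(mv 1231 (cons (fin 974 4 974)
(fin 1295 4 1038))))))))))))))))))
(mv 1034 (cons (fin 1035 0 1034)
(mv 1229 (cons (fin 1165 7 972)
(mv 1230 (cons (cons (mv 1166 (cons (fin 1294 7 1037)
(fin 1293 5 1037)))
(mv 1232 (cons (cons (mv 1168 (cons (fin 975 7 975)
(mv 1231 (cons (fin 1169 2 1165)
(fin 1295 5 1039)))))
(mv 1231 (cons (cons (mv 1292 (cons (fin 1293 1 1228)
(mv 1228 (cons (fin 1291 1 1227)
(mv 1296 (cons (fin 1295 0 1228)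
(fin 1297 0 1229)))))))
(mv 1293 (cons (fin 1292 1 1228)
(mv 1233 (cons (fin 1294 1 1229)
(mv 1170 (cons (fin 1169 2 1166)
(mv 1234 (cons (fin 1171 2 1167)
(mv 1298 (cons (fin 1297 0 1230)
(fin 1299 0 1231))))))))))))
(cons (mv 1296 (cons (fin 1297 0 1229)
(mv 1228 (cons (fin 1295 0 1228)
(mv 1163 (cons (fin 1164 3 1163)
(mv 1227 (cons (fin 1162 3 1162)
(mv 1291 (cons (fin 1290 1 1226)
(fin 1292 1 1227)))))))))))
(cons (mv 1292 (cons (fin 1293 1 1228)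
(mv 1228 (cons (fin 1291 1 1227)
(mv 1163 (cons (fin 1164 3 1163)
(mv 1227 (cons (fin 1162 3 1162)
(mv 1295 (cons (fin 1294 0 1227)
(fin 1296 0 1228)))))))))))
(mv 1297 (cons (fin 1296 0 1229)
(mv 1233 (cons (fin 1298 0 1230)
(mv 1170 (cons (fin 1169 2 1166)
(mv 1234 (cons (fin 1171 2 1167)
(mv 1294 (cons (fin 1293 1 1229)
(fin 1295 1 1230))))))))))))))))
(cons (mv 1168 (cons (fin 975 7 975)
(mv 1297 (cons (fin 1233 4 1040)
(mv 1296 (cons (fin 1361 4 1104)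
(mv 1295 (cons (fin 1294 3 1229)
(fin 1359 5 1103)))))))))
(mv 1168 (cons (fin 975 7 975)
(mv 1231 (cons (fin 1169 2 1165)
(mv 1297 (cons (fin 1296 0 1229)
(fin 1233 4 1040)))))))))))
(cons (mv 1166 (cons (fin 1293 5 1037)
(fin 975 6 974)))
(mv 1166 (cons (fin 1294 7 1037)
(fin 975 6 974))))))))))))))))))))))))))))))
(cons (cons (mv 1039 (cons (cons (mv 976 (cons (fin 977 2 973)
(mv 975 (cons (fin 1036 2 972)
(mv 1100 (cons (fin 1101 1 1036)
(mv 1104 (cons (fin 1105 0 1037)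
(mv 911 (cons (fin 1168 7 911)
(fin 847 4 847)))))))))))
(cons (mv 1104 (cons (fin 1105 0 1037)
(mv 1036 (cons (cons (mv 1100 (cons (fin 1099 1 1035)
(fin 1101 1 1036)))
(mv 1035 (cons (cons (mv 970 (cons (fin 971 3 970)
(mv 974 (cons (fin 975 2 971)
(mv 1034 (cons (fin 969 3 969)
(fin 973 2 970)))))))
(mv 970 (cons (fin 971 3 970)
(mv 1034 (cons (fin 969 3 969)
(mv 1098 (cons (fin 1097 1 1033)
(fin 1099 1 1034))))))))
(cons (mv 974 (cons (fin 975 2 971)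
(mv 1034 (cons (fin 973 2 970)
(mv 1098 (cons (fin 1097 1 1033)
(fin 1099 1 1034)))))))
(mv 971 (cons (fin 970 3 970)
(mv 1099 (cons (fin 1098 1 1034)
(mv 907 (cons (cons (mv 842 (cons (fin 906 7 842)
(mv 843 (cons (fin 778 7 778)
(mv 844 (cons (fin 780 6 779)
(fin 908 6 843)))))))
(cons (mv 842 (cons (fin 906 7 842)
(mv 843 (cons (fin 778 7 778)
(mv 974 (cons (fin 975 2 971)
(mv 910 (cons (cons (mv 846 (cons (fin 1101 5 845)
(mv 781 (cons (fin 845 7 781)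
(mv 782 (cons (fin 717 7 717)
(fin 973 5 781)))))))
(mv 909 (cons (fin 908 3 842)
(mv 845 (cons (fin 1102 7 845)
(mv 781 (cons (fin 717 4 717)
(fin 973 4 781))))))))
(cons (mv 846 (cons (fin 1101 5 845)
(mv 781 (cons (fin 845 7 781)
(mv 782 (cons (fin 717 7 717)
(mv 783 (cons (fin 719 6 718)
(fin 847 6 782)))))))))
(mv 846 (cons (fin 1101 5 845)
(mv 782 (cons (fin 973 5 781)
(mv 783 (cons (fin 719 6 718)
(fin 847 6 782))))))))))))))))
(mv 844 (cons (fin 908 6 843)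
(mv 843 (cons (fin 780 6 779)
(mv 846 (cons (cons (mv 845 (cons (fin 906 1 842)
(mv 778 (cons (fin 779 3 778)
(mv 782 (cons (fin 783 2 779)
(mv 909 (cons (fin 973 6 781)
(mv 654 (cons (fin 718 5 653)
(mv 910 (cons (fin 911 0 843)
(mv 974 (cons (fin 975 2 971)
(fin 781 7 781)))))))))))))))
(cons (mv 974 (cons (fin 975 2 971)
(mv 910 (cons (fin 1101 5 845)
(mv 782 (cons (fin 973 5 781)
(mv 783 (cons (fin 719 6 718)
(fin 847 6 782)))))))))
(mv 845 (cons (fin 906 1 842)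
(mv 778 (cons (fin 779 3 778)
(mv 782 (cons (fin 783 2 779)
(mv 909 (cons (fin 973 6 781)
(mv 654 (cons (fin 718 5 653)
(mv 910 (cons (fin 911 0 843)
(mv 974 (cons (fin 781 7 781)
(fin 1102 7 845)))))))))))))))))
(cons (mv 845 (cons (fin 906 1 842)
(mv 778 (cons (fin 779 3 778)
(mv 782 (cons (fin 783 2 779)
(mv 909 (cons (fin 973 6 781)
(mv 654 (cons (fin 718 5 653)
(mv 911 (cons (fin 910 0 843)
(mv 847 (cons (fin 912 0 844)
(fin 975 7 782)))))))))))))))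
(cons (mv 845 (cons (fin 906 1 842)
(mv 778 (cons (fin 779 3 778)
(mv 783 (cons (fin 782 2 779)
(mv 847 (cons (fin 784 2 780)
(mv 911 (cons (fin 912 0 844)
(fin 975 4 847)))))))))))
(mv 845 (cons (fin 906 1 842)
(mv 778 (cons (fin 779 3 778)
(mv 910 (cons (fin 911 0 843)
(mv 974 (cons (fin 975 2 971)
(fin 781 7 781)))))))))))))))))))
(cons (mv 843 (cons (cons (mv 842 (cons (fin 778 7 778)
(fin 906 7 842)))
(mv 844 (cons (fin 780 6 779)
(mv 846 (cons (cons (mv 845 (cons (fin 906 1 842)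
(mv 778 (cons (fin 779 3 778)
(mv 782 (cons (fin 783 2 779)
(mv 909 (cons (fin 973 6 781)
(mv 654 (cons (fin 718 5 653)
(mv 910 (cons (fin 911 0 843)
(mv 974 (cons (fin 975 2 971)
(fin 781 7 781)))))))))))))))
(cons (mv 974 (cons (fin 975 2 971)
(mv 910 (cons (fin 1101 5 845)
(mv 782 (cons (fin 973 5 781)
(mv 783 (cons (fin 719 6 718)
(fin 847 6 782)))))))))
(mv 845 (cons (fin 906 1 842)
(mv 778 (cons (fin 779 3 778)
(mv 782 (cons (fin 783 2 779)
(mv 909 (cons (fin 973 6 781)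
(mv 654 (cons (fin 718 5 653)
(mv 910 (cons (fin 911 0 843)
(mv 974 (cons (fin 781 7 781)
(fin 1102 7 845)))))))))))))))))
(cons (mv 845 (cons (fin 906 1 842)
(mv 778 (cons (fin 779 3 778)
(mv 782 (cons (fin 783 2 779)
(mv 909 (cons (fin 973 6 781)
(mv 654 (cons (fin 718 5 653)
(mv 911 (cons (fin 910 0 843)
(mv 847 (cons (fin 912 0 844)
(fin 975 7 782)))))))))))))))
(cons (mv 845 (cons (fin 906 1 842)
(mv 778 (cons (fin 779 3 778)
(mv 783 (cons (fin 782 2 779)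
(mv 847 (cons (fin 784 2 780)
(mv 911 (cons (fin 912 0 844)
(fin 975 4 847)))))))))))
(mv 845 (cons (fin 906 1 842)
(mv 778 (cons (fin 779 3 778)
(mv 910 (cons (fin 911 0 843)
(mv 974 (cons (fin 975 2 971)
(fin 781 7 781))))))))))))))))
(cons (mv 844 (cons (fin 780 6 779)
(mv 906 (cons (fin 842 7 842)
(mv 846 (cons (fin 845 1 842)
(mv 904 (cons (fin 905 2 840)
(mv 974 (cons (fin 975 2 971)
(mv 910 (cons (fin 1101 5 845)
(mv 782 (cons (fin 973 5 781)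
(mv 783 (cons (fin 719 6 718)
(fin 847 6 782)))))))))))))))))
(mv 778 (cons (fin 842 7 778)
(mv 779 (cons (fin 714 7 714)
(mv 780 (cons (fin 716 6 715)
(fin 844 6 779))))))))))
(cons (mv 844 (cons (fin 908 6 843)
(mv 843 (cons (fin 780 6 779)
(mv 778 (cons (fin 842 7 778)
(mv 779 (cons (fin 714 7 714)
(mv 776 (cons (fin 777 0 776)
(mv 846 (cons (fin 845 3 778)
(mv 974 (cons (fin 975 2 971)
(mv 910 (cons (fin 1101 5 845)
(mv 782 (cons (fin 973 5 781)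
(mv 783 (cons (fin 719 6 718)
(fin 847 6 782)))))))))))))))))))))
(mv 906 (cons (fin 842 7 842)
(mv 908 (cons (fin 844 6 843)
(mv 974 (cons (fin 975 2 971)
(mv 909 (cons (fin 973 0 906)
(mv 846 (cons (fin 845 2 842)
(mv 910 (cons (fin 847 2 843)
(fin 1101 5 845)))))))))))))))))))))))))
(cons (mv 1101 (cons (fin 1100 1 1036)
(mv 974 (cons (cons (mv 846 (cons (fin 910 5 845)
(mv 975 (cons (fin 1035 2 971)
(mv 911 (cons (fin 847 4 847)
(mv 1165 (cons (fin 1229 6 973)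
(mv 1166 (cons (fin 1102 6 910)
(mv 1230 (cons (fin 973 4 973)
(mv 1232 (cons (fin 1168 7 975)
(mv 1231 (cons (fin 1233 3 1165)
(mv 1164 (cons (fin 1163 0 1163)
(fin 1167 0 1164)))))))))))))))))))
(cons (mv 910 (cons (fin 846 5 845)
(mv 1165 (cons (fin 1102 5 909)
(fin 973 6 909)))))
(mv 975 (cons (fin 1035 2 971)
(mv 911 (cons (fin 847 4 847)
(mv 1165 (cons (fin 1229 6 973)
(mv 1166 (cons (fin 1102 6 910)
(mv 1230 (cons (fin 973 4 973)
(mv 1232 (cons (fin 1168 7 975)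
(mv 1231 (cons (fin 1233 3 1165)
(mv 1164 (cons (fin 1163 0 1163)
(fin 1167 0 1164)))))))))))))))))))
(cons (mv 846 (cons (fin 910 5 845)
(mv 1035 (cons (fin 975 2 971)
(mv 1034 (cons (fin 973 2 970)
(fin 1102 0 1034)))))))
(cons (mv 846 (cons (fin 910 5 845)
(mv 1035 (cons (fin 975 2 971)
(mv 970 (cons (fin 971 3 970)
(mv 1034 (cons (fin 969 3 969)
(fin 973 2 970)))))))))
(mv 846 (cons (fin 910 5 845)
(mv 1035 (cons (fin 975 2 971)
(mv 970 (cons (fin 971 3 970)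
(mv 1034 (cons (fin 969 3 969)
(fin 1102 0 1034)))))))))))))))
(mv 1099 (cons (fin 1100 1 1035)
(mv 1035 (cons (fin 1098 1 1034)
(mv 970 (cons (fin 971 3 970)
(mv 974 (cons (fin 975 2 971)
(mv 1034 (cons (fin 969 3 969)
(fin 973 2 970))))))))))))))))
(mv 976 (cons (fin 977 2 973)
(mv 975 (cons (fin 1036 2 972)
(mv 1104 (cons (fin 1105 0 1037)
(mv 911 (cons (fin 1168 7 911)
(fin 847 4 847)))))))))))
(cons (mv 976 (cons (fin 977 2 973)
(mv 1036 (cons (fin 975 2 972)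
(mv 1100 (cons (fin 1099 1 1035)
(fin 1101 1 1036)))))))
(cons (mv 976 (cons (fin 977 2 973)
(mv 1100 (cons (fin 1101 1 1036)
(mv 1104 (cons (fin 1105 0 1037)
(mv 1168 (cons (mv 975 (cons (fin 911 7 911)
(fin 1232 7 975)))
(cons (mv 1231 (cons (fin 1167 5 975)
(mv 1232 (cons (fin 1295 5 1039)
(mv 1233 (cons (fin 1169 4 976)
(fin 1297 4 1040)))))))
(mv 1167 (cons (fin 1231 5 975)
(mv 1169 (cons (fin 1233 4 976)
(mv 912 (cons (cons (mv 911 (cons (fin 847 7 847)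
(fin 975 7 911)))
(mv 849 (cons (fin 913 6 848)
(mv 848 (cons (fin 785 6 784)
(mv 783 (cons (fin 847 7 783)
(mv 784 (cons (fin 719 7 719)
(fin 975 5 783))))))))))
(cons (mv 847 (cons (fin 911 7 847)
(mv 848 (cons (fin 783 7 783)
(mv 849 (cons (fin 785 6 784)
(fin 913 6 848)))))))
(mv 849 (cons (fin 913 6 848)
(mv 848 (cons (fin 785 6 784)
(mv 975 (cons (fin 911 7 911)
(fin 784 5 783)))))))))))))))))))))))
(mv 976 (cons (fin 977 2 973)
(mv 1101 (cons (fin 1100 1 1036)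
(mv 1104 (cons (fin 1105 0 1037)
(mv 974 (cons (cons (mv 910 (cons (fin 846 5 845)
(mv 1165 (cons (fin 1102 5 909)
(fin 973 6 909)))))
(mv 912 (cons (cons (mv 846 (cons (fin 910 5 845)
(mv 847 (cons (fin 911 7 847)
(mv 848 (cons (fin 783 7 783)
(mv 849 (cons (fin 785 6 784)
(fin 913 6 848)))))))))
(cons (mv 849 (cons (fin 913 6 848)
(mv 848 (cons (fin 785 6 784)
(mv 910 (cons (fin 846 5 845)
(mv 909 (cons (fin 911 2 845)
(mv 845 (cons (fin 1102 7 845)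
(mv 781 (cons (fin 717 4 717)
(fin 973 4 781)))))))))))))
(mv 846 (cons (fin 910 5 845)
(mv 847 (cons (fin 911 7 847)
(mv 848 (cons (fin 783 7 783)
(mv 845 (cons (fin 913 0 845)
(mv 780 (cons (fin 781 3 780)
(mv 779 (cons (fin 844 3 779)
(mv 784 (cons (fin 785 2 781)
(mv 909 (cons (fin 908 1 844)
(mv 973 (cons (fin 782 6 781)
(fin 1102 4 845)))))))))))))))))))))
(cons (cons (mv 847 (cons (fin 911 7 847)
(mv 848 (cons (fin 783 7 783)
(mv 849 (cons (fin 785 6 784)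
(fin 913 6 848)))))))
(mv 846 (cons (fin 910 5 845)
(mv 849 (cons (fin 913 6 848)
(mv 848 (cons (fin 785 6 784)
(mv 847 (cons (fin 783 7 783)
(mv 781 (cons (fin 782 3 781)
(mv 845 (cons (fin 780 3 780)
(mv 909 (cons (fin 908 1 844)
(fin 973 4 781))))))))))))))))
(cons (mv 846 (cons (fin 910 5 845)
(mv 847 (cons (fin 911 7 847)
(mv 848 (cons (fin 783 7 783)
(mv 785 (cons (fin 849 6 784)
(mv 784 (cons (fin 845 2 781)
(fin 721 6 720)))))))))))
(mv 910 (cons (fin 846 5 845)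
(mv 911 (cons (fin 847 7 847)
(mv 913 (cons (fin 973 1 909)
(fin 849 6 848))))))))))))
(cons (mv 1231 (cons (cons (mv 1165 (cons (fin 1229 6 973)
(mv 1167 (cons (fin 1168 5 975)
(mv 1166 (cons (fin 1102 4 974)
(mv 973 (cons (fin 1230 4 973)
(mv 1164 (cons (fin 1232 0 1164)
(fin 1228 5 972)))))))))))
(mv 1165 (cons (fin 1229 6 973)
(mv 1166 (cons (cons (mv 973 (cons (fin 1230 4 973)
(mv 1102 (cons (fin 909 7 909)
(fin 1167 4 974)))))
(mv 1167 (cons (fin 1102 4 974)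
(mv 1164 (cons (fin 1232 0 1164)
(mv 1228 (cons (fin 1227 1 1163)
(fin 973 5 972))))))))
(cons (mv 1230 (cons (fin 973 4 973)
(mv 1164 (cons (fin 1163 0 1163)
(mv 1232 (cons (fin 1233 3 1165)
(fin 1167 0 1164)))))))
(cons (mv 1102 (cons (fin 1167 4 974)
(mv 1230 (cons (fin 1294 7 1037)
(fin 1295 4 1038)))))
(mv 973 (cons (fin 1230 4 973)
(mv 909 (cons (fin 1102 7 909)
(mv 844 (cons (fin 908 7 844)
(mv 845 (cons (fin 780 7 780)
(fin 781 4 781))))))))))))))))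
(cons (mv 1232 (cons (cons (mv 1165 (cons (fin 1229 6 973)
(mv 1168 (cons (fin 1295 5 1039)
(mv 1233 (cons (fin 1169 4 976)
(fin 1297 4 1040)))))))
(cons (mv 1229 (cons (fin 1165 6 973)
(mv 1230 (cons (cons (mv 1292 (cons (fin 1293 1 1228)
(mv 1228 (cons (fin 1291 1 1227)
(mv 1296 (cons (fin 1295 0 1228)
(fin 1297 0 1229)))))))
(mv 1296 (cons (fin 1297 0 1229)
(mv 1228 (cons (fin 1295 0 1228)
(mv 1163 (cons (fin 1164 3 1163)
(mv 1227 (cons (fin 1162 3 1162)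
(mv 1291 (cons (fin 1290 1 1226)
(fin 1292 1 1227))))))))))))
(cons (mv 1293 (cons (fin 1292 1 1228)
(mv 1102 (cons (fin 1166 5 1037)
(mv 1233 (cons (fin 1294 1 1229)
(mv 1170 (cons (fin 1169 2 1166)
(mv 1234 (cons (fin 1171 2 1167)
(mv 1298 (cons (fin 1297 0 1230)
(fin 1299 0 1231)))))))))))))
(cons (mv 1297 (cons (fin 1296 0 1229)
(mv 1233 (cons (fin 1298 0 1230)
(mv 1170 (cons (fin 1169 2 1166)
(mv 1234 (cons (fin 1171 2 1167)
(mv 1294 (cons (fin 1293 1 1229)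
(fin 1295 1 1230)))))))))))
(mv 1292 (cons (fin 1293 1 1228)
(mv 1228 (cons (fin 1291 1 1227)
(mv 1163 (cons (fin 1164 3 1163)
(mv 1227 (cons (fin 1162 3 1162)
(mv 1295 (cons (fin 1294 0 1227)
(fin 1296 0 1228)))))))))))))))))
(mv 1168 (cons (fin 1295 5 1039)
(mv 1233 (cons (fin 1169 4 976)
(fin 1297 4 1040)))))))
(cons (mv 1165 (cons (fin 1229 6 973)
(mv 1233 (cons (cons (mv 1168 (cons (fin 1169 4 976)
(fin 1297 4 1040)))
(mv 1230 (cons (fin 1166 3 1165)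
(mv 1170 (cons (fin 1169 2 1166)
(mv 1234 (cons (fin 1171 2 1167)
(mv 1298 (cons (fin 1297 0 1230)
(fin 1299 0 1231))))))))))
(cons (mv 1169 (cons (fin 1168 4 976)
(mv 1230 (cons (fin 1166 3 1165)
(fin 1170 2 1166)))))
(mv 1230 (cons (fin 1166 3 1165)
(mv 1297 (cons (fin 1298 0 1230)
(fin 1168 4 1040))))))))))
(cons (mv 1229 (cons (fin 1165 6 973)
(mv 1295 (cons (fin 1168 5 1039)
(mv 1230 (cons (mv 1296 (cons (fin 1228 0 1228)
(fin 1297 0 1229)))
(cons (mv 1102 (cons (fin 1166 4 1038)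
(mv 1292 (cons (fin 1293 1 1228)
(mv 1228 (cons (fin 1291 1 1227)
(mv 1163 (cons (fin 1164 3 1163)
(mv 1227 (cons (fin 1162 3 1162)
(fin 1294 0 1227)))))))))))
(mv 1166 (cons (fin 1102 4 1038)
(mv 1293 (cons (fin 1292 1 1228)
(mv 1296 (cons (fin 1297 0 1229)
(mv 1357 (cons (fin 1421 6 1165)
(mv 1356 (cons (fin 1294 1 1292)
(mv 1359 (cons (fin 1358 2 1292)
(fin 1423 7 1166))))))))))))))))))))
(mv 1168 (cons (fin 1295 5 1039)
(mv 1169 (cons (fin 1233 4 976)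
(mv 1229 (cons (fin 1230 2 1165)
(fin 1165 6 973)))))))))))
(cons (mv 1168 (cons (fin 1167 5 975)
(mv 1232 (cons (fin 1295 5 1039)
(mv 1233 (cons (fin 1169 4 976)
(fin 1297 4 1040)))))))
(mv 1165 (cons (fin 1229 6 973)
(mv 1167 (cons (fin 1168 5 975)
(mv 1166 (cons (fin 1102 4 974)
(mv 1164 (cons (cons (mv 973 (cons (fin 1228 5 972)
(fin 1230 4 973)))
(mv 1228 (cons (fin 1227 1 1163)
(fin 973 5 972))))
(cons (mv 1230 (cons (fin 1163 0 1163)
(fin 973 4 973)))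
(mv 1163 (cons (fin 1230 0 1163)
(mv 1227 (cons (fin 1226 1 1162)
(fin 1228 1 1163))))))))))))))))))
(cons (mv 910 (cons (fin 846 5 845)
(mv 1165 (cons (fin 1102 5 909)
(fin 1229 6 973)))))
(mv 910 (cons (fin 846 5 845)
(mv 1165 (cons (fin 973 6 909)
(fin 1229 6 973)))))))))))))))))))
(mv 973 (cons (cons (mv 1039 (cons (fin 972 3 972)
(mv 976 (cons (fin 977 2 973)
(mv 975 (cons (fin 1036 2 972)
(mv 1104 (cons (fin 1105 0 1037)
(mv 911 (cons (fin 1168 7 911)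
(fin 847 4 847)))))))))))
(cons (mv 1102 (cons (cons (mv 909 (cons (fin 845 4 845)
(mv 1166 (cons (fin 974 7 909)
(fin 1230 7 973)))))
(mv 909 (cons (fin 845 4 845)
(mv 1101 (cons (cons (mv 844 (cons (fin 908 7 844)
(mv 910 (cons (fin 846 6 845)
(mv 974 (cons (fin 1165 5 909)
(mv 911 (cons (fin 847 6 846)
(mv 912 (cons (fin 972 1 908)
(fin 913 1 909)))))))))))
(cons (mv 908 (cons (fin 844 7 844)
(mv 1165 (cons (fin 972 7 908)
(mv 1229 (cons (fin 974 6 973)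
(fin 1293 6 1037)))))))
(mv 910 (cons (fin 846 6 845)
(mv 974 (cons (fin 1165 5 909)
(mv 911 (cons (fin 847 6 846)
(mv 912 (cons (fin 972 1 908)
(fin 913 1 909)))))))))))
(cons (mv 908 (cons (fin 844 7 844)
(mv 910 (cons (fin 846 6 845)
(mv 911 (cons (mv 847 (cons (fin 848 2 844)
(fin 974 6 846)))
(mv 972 (cons (fin 971 1 907)
(fin 912 1 908)))))))))
(cons (mv 846 (cons (fin 910 6 845)
(mv 908 (cons (fin 844 7 844)
(mv 1165 (cons (fin 972 7 908)
(mv 1228 (cons (fin 1164 5 972)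
(mv 1229 (cons (fin 1292 5 1036)
(fin 1293 6 1037)))))))))))
(mv 844 (cons (fin 908 7 844)
(mv 910 (cons (fin 846 6 845)
(mv 1165 (cons (fin 974 5 909)
(mv 1228 (cons (fin 1164 5 972)
(mv 1229 (cons (fin 1292 5 1036)
(fin 1293 6 1037))))))))))))))))))
(cons (mv 1166 (cons (fin 1230 7 973)
(mv 974 (cons (cons (mv 911 (cons (fin 975 6 910)
(mv 910 (cons (fin 847 6 846)
(mv 846 (cons (fin 782 5 781)
(fin 1101 5 845)))))))
(mv 1165 (cons (fin 1229 5 973)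
(mv 910 (cons (fin 1101 5 909)
(mv 846 (cons (fin 782 5 781)
(mv 847 (cons (fin 783 6 782)
(fin 911 6 846))))))))))
(cons (mv 1165 (cons (fin 1229 5 973)
(mv 1101 (cons (fin 910 5 909)
(mv 972 (cons (fin 908 7 908)
(mv 970 (cons (fin 971 0 970)
(mv 1164 (cons (fin 1228 5 972)
(mv 1163 (cons (fin 1162 2 1098)
(mv 1099 (cons (fin 1098 3 1098)
(mv 1167 (cons (fin 1231 4 974)
(mv 1168 (cons (fin 1169 3 1101)
(mv 1104 (cons (fin 1105 2 1101)
(mv 1227 (cons (fin 1226 1 1162)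
(mv 1035 (cons (fin 1034 7 970)
(fin 1036 6 971)))))))))))))))))))))))))
(mv 975 (cons (fin 911 6 910)
(mv 976 (cons (fin 1036 1 972)
(fin 977 1 973))))))))))
(mv 909 (cons (fin 845 4 845)
(mv 1166 (cons (fin 1230 7 973)
(fin 1101 4 909))))))))
(mv 1102 (cons (cons (mv 909 (cons (fin 845 4 845)
(mv 1166 (cons (fin 974 7 909)
(fin 1230 7 973)))))
(mv 909 (cons (fin 845 4 845)
(mv 910 (cons (cons (mv 846 (cons (fin 1101 6 845)
(mv 782 (cons (fin 718 5 717)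
(fin 974 5 781)))))
(mv 976 (cons (cons (mv 977 (cons (fin 1039 2 973)
(mv 911 (cons (fin 912 0 909)
(mv 974 (cons (fin 975 3 909)
(fin 847 6 846)))))))
(mv 974 (cons (mv 975 (cons (fin 908 3 908)
(fin 1036 1 972)))
(mv 846 (cons (fin 782 5 781)
(mv 847 (cons (fin 783 6 782)
(fin 911 6 846))))))))
(cons (mv 977 (cons (fin 1039 2 973)
(mv 911 (cons (fin 912 0 909)
(mv 847 (cons (fin 974 6 846)
(mv 848 (cons (fin 908 2 844)
(mv 849 (cons (fin 846 1 845)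
(fin 850 1 846)))))))))))
(cons (mv 977 (cons (fin 1039 2 973)
(mv 911 (cons (fin 912 0 909)
(mv 975 (cons (fin 978 3 910)
(fin 908 0 908)))))))
(mv 977 (cons (fin 1039 2 973)
(mv 974 (cons (fin 975 3 909)
(mv 846 (cons (fin 782 5 781)
(mv 847 (cons (fin 783 6 782)
(mv 849 (cons (fin 848 1 845)
(mv 907 (cons (fin 908 2 843)
(mv 913 (cons (fin 785 5 784)
(mv 1104 (cons (fin 912 6 848)
(fin 1168 6 912))))))))))))))))))))))
(cons (mv 908 (cons (cons (mv 844 (cons (fin 1101 7 844)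
(mv 716 (cons (fin 780 4 716)
(mv 843 (cons (fin 911 3 843)
(mv 842 (cons (fin 907 3 842)
(fin 841 0 841)))))))))
(mv 974 (cons (mv 907 (cons (fin 906 0 906)
(fin 975 0 907)))
(cons (mv 907 (cons (fin 906 0 906)
(mv 843 (cons (fin 842 3 842)
(mv 911 (cons (fin 844 3 843)
(fin 847 6 846)))))))
(mv 911 (cons (fin 847 6 846)
(mv 843 (cons (fin 844 3 843)
(mv 912 (cons (fin 913 1 909)
(mv 976 (cons (fin 975 3 908)
(fin 977 0 909)))))))))))))
(cons (mv 907 (cons (mv 974 (cons (fin 906 0 906)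
(fin 975 0 907)))
(cons (mv 842 (cons (fin 843 3 842)
(mv 906 (cons (fin 841 3 841)
(mv 970 (cons (fin 969 1 905)
(fin 971 1 906)))))))
(mv 842 (cons (fin 843 3 842)
(mv 970 (cons (fin 971 1 906)
(mv 975 (cons (fin 974 0 907)
(mv 911 (cons (fin 976 0 908)
(mv 847 (cons (fin 848 2 844)
(fin 1039 5 846))))))))))))))
(cons (mv 1101 (cons (fin 844 7 844)
(mv 974 (cons (fin 1165 5 909)
(mv 907 (cons (fin 906 0 906)
(fin 975 0 907)))))))
(mv 844 (cons (fin 1101 7 844)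
(mv 716 (cons (fin 780 4 716)
(mv 911 (cons (fin 843 3 843)
(mv 847 (cons (fin 848 2 844)
(fin 974 6 846)))))))))))))
(mv 908 (cons (cons (mv 1101 (cons (fin 844 7 844)
(fin 846 6 845)))
(mv 911 (cons (cons (mv 843 (cons (fin 844 3 843)
(mv 842 (cons (fin 907 3 842)
(mv 847 (cons (fin 848 2 844)
(mv 975 (cons (fin 976 0 908)
(fin 1039 5 846)))))))))
(mv 843 (cons (fin 844 3 843)
(mv 842 (cons (fin 907 3 842)
(mv 976 (cons (fin 975 0 908)
(mv 977 (cons (fin 1039 2 973)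
(fin 912 0 909))))))))))
(cons (mv 843 (cons (fin 844 3 843)
(mv 847 (cons (fin 848 2 844)
(mv 907 (cons (fin 842 3 842)
(fin 846 2 843)))))))
(mv 847 (cons (fin 848 2 844)
(mv 975 (cons (fin 976 0 908)
(fin 1039 5 846)))))))))
(cons (mv 846 (cons (fin 1101 6 845)
(mv 718 (cons (fin 782 5 717)
(mv 847 (cons (fin 907 2 843)
(mv 848 (cons (fin 849 1 845)
(fin 911 2 844)))))))))
(mv 844 (cons (fin 1101 7 844)
(mv 716 (cons (fin 780 4 716)
(mv 843 (cons (fin 911 3 843)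
(mv 842 (cons (fin 907 3 842)
(fin 841 0 841))))))))))))))))))
(cons (mv 1166 (cons (fin 1230 7 973)
(mv 974 (cons (cons (mv 911 (cons (fin 975 6 910)
(mv 910 (cons (fin 847 6 846)
(mv 846 (cons (fin 782 5 781)
(fin 1101 5 845)))))))
(mv 1165 (cons (fin 1229 5 973)
(mv 910 (cons (fin 1101 5 909)
(mv 846 (cons (fin 782 5 781)
(mv 847 (cons (fin 783 6 782)
(fin 911 6 846))))))))))
(cons (mv 1165 (cons (fin 1229 5 973)
(mv 1101 (cons (fin 910 5 909)
(mv 1164 (cons (fin 1228 5 972)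
(mv 1162 (cons (fin 1163 2 1098)
(mv 1167 (cons (fin 1231 4 974)
(mv 1168 (cons (fin 1169 3 1101)
(mv 1104 (cons (fin 1105 2 1101)
(mv 1232 (cons (fin 1233 0 1165)
(mv 975 (cons (fin 1039 7 975)
(mv 976 (cons (fin 1036 1 972)
(fin 977 1 973)))))))))))))))))))))
(mv 975 (cons (fin 911 6 910)
(mv 976 (cons (fin 1036 1 972)
(fin 977 1 973))))))))))
(mv 909 (cons (fin 845 4 845)
(mv 1166 (cons (fin 1230 7 973)
(fin 1101 4 909))))))))))
(cons (cons (mv 972 (cons (fin 1039 3 972)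
(mv 970 (cons (fin 971 0 970)
(mv 908 (cons (cons (mv 844 (cons (fin 780 4 780)
(mv 1101 (cons (fin 909 7 844)
(fin 1165 7 908)))))
(mv 844 (cons (fin 780 4 780)
(mv 1036 (cons (cons (mv 779 (cons (fin 843 7 779)
(mv 781 (cons (fin 845 6 780)
(mv 1035 (cons (fin 1099 5 843)
(mv 974 (cons (fin 975 1 971)
(fin 1034 2 970)))))))))
(mv 779 (cons (fin 843 7 779)
(mv 845 (cons (fin 781 6 780)
(mv 909 (cons (fin 1102 4 845)
(mv 846 (cons (fin 782 6 781)
(mv 847 (cons (fin 907 1 843)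
(fin 848 1 844))))))))))))
(cons (mv 779 (cons (fin 843 7 779)
(mv 1035 (cons (fin 1099 5 843)
(mv 974 (cons (fin 975 1 971)
(fin 1034 2 970)))))))
(mv 781 (cons (fin 845 6 780)
(mv 1035 (cons (fin 1099 5 843)
(mv 974 (cons (fin 975 1 971)
(fin 1034 2 970)))))))))))))
(cons (mv 1101 (cons (fin 1165 7 908)
(mv 909 (cons (mv 1102 (cons (fin 845 4 845)
(fin 1166 4 909)))
(cons (mv 846 (cons (fin 910 6 845)
(mv 845 (cons (fin 782 6 781)
(mv 781 (cons (fin 717 5 716)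
(fin 1036 5 780)))))))
(mv 910 (cons (fin 846 6 845)
(mv 911 (cons (fin 912 1 908)
(mv 847 (cons (fin 848 2 844)
(mv 1102 (cons (fin 974 6 846)
(fin 1166 4 909))))))))))))))
(mv 844 (cons (fin 780 4 780)
(mv 1101 (cons (fin 1165 7 908)
(fin 1036 4 844))))))))))))
(mv 972 (cons (fin 1039 3 972)
(mv 970 (cons (fin 971 0 970)
(mv 909 (cons (cons (mv 845 (cons (fin 1102 4 845)
(mv 780 (cons (fin 844 7 780)
(mv 781 (cons (fin 716 7 716)
(fin 974 4 781)))))))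
(mv 1101 (cons (mv 908 (cons (fin 844 7 844)
(fin 1165 7 908)))
(cons (mv 846 (cons (fin 910 6 845)
(mv 1166 (cons (fin 1102 4 909)
(mv 1165 (cons (fin 1230 4 973)
(mv 1228 (cons (fin 1164 5 972)
(mv 1229 (cons (fin 1292 5 1036)
(fin 974 6 973)))))))))))
(mv 908 (cons (fin 844 7 844)
(mv 910 (cons (fin 846 6 845)
(mv 911 (cons (fin 912 1 908)
(mv 847 (cons (fin 848 2 844)
(mv 1102 (cons (fin 974 6 846)
(fin 1166 4 909)))))))))))))))
(cons (mv 908 (cons (mv 844 (cons (fin 1101 7 844)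
(fin 780 4 780)))
(cons (mv 1101 (cons (fin 1165 7 908)
(mv 846 (cons (fin 910 6 845)
(mv 845 (cons (fin 782 6 781)
(mv 781 (cons (fin 717 5 716)
(fin 974 4 781)))))))))
(mv 780 (cons (fin 844 4 780)
(mv 907 (cons (mv 906 (cons (fin 969 1 905)
(fin 905 0 905)))
(mv 974 (cons (fin 975 3 907)
(mv 845 (cons (fin 781 4 781)
(mv 846 (cons (fin 782 6 781)
(mv 847 (cons (fin 848 1 844)
(fin 910 2 843))))))))))))))))
(cons (mv 845 (cons (fin 1102 4 845)
(mv 781 (cons (fin 974 4 781)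
(mv 782 (cons (fin 718 6 717)
(fin 846 6 781)))))))
(mv 845 (cons (fin 1102 4 845)
(mv 780 (cons (fin 844 7 780)
(mv 716 (cons (fin 781 7 716)
(mv 846 (cons (fin 782 6 781)
(mv 1101 (cons (fin 910 6 845)
(mv 1165 (cons (fin 908 7 908)
(mv 1228 (cons (fin 1164 5 972)
(mv 1229 (cons (fin 1292 5 1036)
(mv 1230 (cons (fin 1166 4 973)
(fin 1294 4 1037))))))))))))))))))))))))))))
(cons (mv 972 (cons (fin 1039 3 972)
(mv 970 (cons (fin 971 0 970)
(mv 908 (cons (cons (mv 844 (cons (fin 780 4 780)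
(mv 1101 (cons (fin 909 7 844)
(fin 1165 7 908)))))
(mv 844 (cons (fin 780 4 780)
(mv 1036 (cons (cons (mv 779 (cons (fin 843 7 779)
(mv 781 (cons (fin 845 6 780)
(mv 1035 (cons (fin 1099 5 843)
(mv 1034 (cons (fin 969 3 969)
(fin 1033 2 969)))))))))
(mv 779 (cons (fin 843 7 779)
(mv 845 (cons (fin 781 6 780)
(mv 909 (cons (fin 1102 4 845)
(mv 846 (cons (fin 782 6 781)
(mv 847 (cons (fin 907 1 843)
(fin 848 1 844))))))))))))
(cons (mv 779 (cons (fin 843 7 779)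
(mv 1035 (cons (fin 1099 5 843)
(mv 1034 (cons (fin 969 3 969)
(fin 1033 2 969)))))))
(mv 781 (cons (fin 845 6 780)
(mv 1035 (cons (fin 1099 5 843)
(mv 1034 (cons (fin 969 3 969)
(fin 1033 2 969)))))))))))))
(cons (mv 1101 (cons (fin 1165 7 908)
(mv 909 (cons (mv 1102 (cons (fin 845 4 845)
(fin 1166 4 909)))
(cons (mv 846 (cons (fin 910 6 845)
(mv 845 (cons (fin 782 6 781)
(mv 781 (cons (fin 717 5 716)
(fin 1036 5 780)))))))
(mv 910 (cons (fin 846 6 845)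
(mv 911 (cons (fin 912 1 908)
(mv 847 (cons (fin 848 2 844)
(mv 1102 (cons (fin 974 6 846)
(fin 1166 4 909))))))))))))))
(mv 844 (cons (fin 780 4 780)
(mv 1101 (cons (fin 1165 7 908)
(fin 1036 4 844))))))))))))
(mv 972 (cons (fin 1039 3 972)
(mv 971 (cons (fin 970 0 970)
(mv 974 (cons (cons (mv 906 (cons (fin 907 3 906)
(mv 1035 (cons (fin 1034 1 970)
(mv 975 (cons (fin 1036 1 971)
(mv 976 (cons (fin 977 1 973)
(mv 909 (cons (fin 908 3 908)
(mv 845 (cons (fin 781 4 781)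
(fin 1102 4 845)))))))))))))
(cons (mv 907 (cons (fin 906 3 906)
(mv 908 (cons (fin 975 3 907)
(mv 844 (cons (fin 780 4 780)
(mv 1101 (cons (fin 909 7 844)
(fin 1165 7 908)))))))))
(mv 1035 (cons (fin 1034 1 970)
(mv 975 (cons (fin 1036 1 971)
(mv 976 (cons (fin 977 1 973)
(mv 909 (cons (fin 908 3 908)
(mv 845 (cons (fin 781 4 781)
(fin 1102 4 845)))))))))))))
(cons (mv 907 (cons (fin 906 3 906)
(mv 1034 (cons (fin 1035 1 970)
(mv 1101 (cons (mv 910 (cons (fin 846 5 845)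
(fin 1165 6 909)))
(cons (mv 910 (cons (fin 846 5 845)
(mv 909 (cons (mv 845 (cons (fin 1102 7 845)
(fin 781 4 781)))
(cons (mv 781 (cons (fin 845 4 781)
(mv 908 (cons (fin 844 7 844)
(mv 843 (cons (fin 842 3 842)
(mv 779 (cons (fin 715 4 715)
(fin 1036 4 779)))))))))
(mv 908 (cons (fin 844 7 844)
(mv 843 (cons (fin 842 3 842)
(mv 779 (cons (fin 715 4 715)
(fin 1036 4 779))))))))))))
(mv 1165 (cons (fin 908 7 908)
(fin 1229 6 973))))))))))
(cons (mv 906 (cons (fin 907 3 906)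
(mv 1035 (cons (fin 1034 1 970)
(mv 1036 (cons (fin 975 1 971)
(mv 1099 (cons (fin 1098 1 1034)
(mv 908 (cons (fin 844 5 843)
(fin 1163 6 907)))))))))))
(mv 906 (cons (fin 907 3 906)
(mv 1035 (cons (fin 1034 1 970)
(mv 1036 (cons (fin 975 1 971)
(mv 1099 (cons (fin 1098 1 1034)
(mv 1163 (cons (fin 1227 6 971)
(mv 1162 (cons (fin 1226 5 970)
(mv 1164 (cons (fin 1228 4 971)
(mv 1165 (cons (cons (mv 1101 (cons (fin 1102 2 1098)
(fin 1229 7 972)))
(mv 1230 (cons (fin 1229 0 1162)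
(mv 1166 (cons (fin 1231 0 1163)
(fin 1102 7 973))))))
(cons (mv 1101 (cons (fin 1102 2 1098)
(fin 910 6 909)))
(mv 1101 (cons (fin 1229 7 972)
(fin 910 6 909)))))))))))))))))))))))))))))))))
(cons (mv 1039 (cons (cons (mv 972 (cons (fin 973 3 972)
(mv 976 (cons (fin 977 2 973)
(mv 1036 (cons (fin 971 3 971)
(fin 975 2 972)))))))
(mv 972 (cons (fin 973 3 972)
(mv 1036 (cons (fin 971 3 971)
(mv 1100 (cons (fin 1099 1 1035)
(fin 1101 1 1036))))))))
(cons (mv 976 (cons (fin 977 2 973)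
(mv 1036 (cons (fin 975 2 972)
(mv 1100 (cons (fin 1099 1 1035)
(fin 1101 1 1036)))))))
(mv 973 (cons (fin 972 3 972)
(mv 976 (cons (fin 977 2 973)
(mv 1101 (cons (fin 1100 1 1036)
(mv 909 (cons (cons (mv 1102 (cons (fin 845 4 845)
(fin 1166 4 909)))
(mv 844 (cons (fin 908 7 844)
(mv 780 (cons (fin 845 7 780)
(mv 910 (cons (fin 846 6 845)
(mv 1165 (cons (fin 974 6 909)
(mv 1228 (cons (fin 1164 5 972)
(mv 1229 (cons (fin 1292 5 1036)
(mv 1230 (cons (fin 1166 4 973)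
(fin 1294 4 1037))))))))))))))))
(cons (mv 844 (cons (fin 908 7 844)
(mv 846 (cons (fin 910 6 845)
(mv 1166 (cons (fin 1102 4 909)
(mv 1165 (cons (fin 1230 4 973)
(mv 1228 (cons (fin 1164 5 972)
(mv 1229 (cons (fin 1292 5 1036)
(fin 974 6 973)))))))))))))
(mv 844 (cons (fin 908 7 844)
(mv 845 (cons (fin 780 7 780)
(fin 1102 4 845)))))))))))))))))
(cons (mv 1039 (cons (cons (mv 972 (cons (fin 973 3 972)
(mv 976 (cons (fin 977 2 973)
(mv 1100 (cons (fin 1101 1 1036)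
(mv 1104 (cons (fin 1105 0 1037)
(mv 912 (cons (cons (mv 847 (cons (fin 911 7 847)
(mv 848 (cons (fin 783 7 783)
(mv 849 (cons (fin 785 6 784)
(fin 913 6 848)))))))
(mv 849 (cons (fin 913 6 848)
(mv 848 (cons (fin 785 6 784)
(mv 783 (cons (fin 847 7 783)
(mv 784 (cons (fin 719 7 719)
(fin 975 5 783))))))))))
(cons (mv 849 (cons (fin 913 6 848)
(mv 848 (cons (fin 785 6 784)
(mv 975 (cons (fin 784 5 783)
(mv 1168 (cons (fin 911 7 911)
(fin 1232 7 975)))))))))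
(mv 911 (cons (fin 847 7 847)
(mv 1168 (cons (fin 975 7 911)
(mv 1231 (cons (fin 1167 5 975)
(mv 1232 (cons (fin 1295 5 1039)
(mv 1233 (cons (fin 1169 4 976)
(fin 1297 4 1040))))))))))))))))))))))
(mv 976 (cons (fin 977 2 973)
(mv 1100 (cons (fin 1101 1 1036)
(mv 1104 (cons (fin 1105 0 1037)
(mv 1168 (cons (mv 975 (cons (fin 911 7 911)
(fin 1232 7 975)))
(cons (mv 1231 (cons (fin 1167 5 975)
(mv 1232 (cons (fin 1295 5 1039)
(mv 1233 (cons (fin 1169 4 976)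
(fin 1297 4 1040)))))))
(mv 1167 (cons (fin 1231 5 975)
(mv 1169 (cons (fin 1233 4 976)
(mv 912 (cons (cons (mv 911 (cons (fin 847 7 847)
(fin 975 7 911)))
(mv 849 (cons (fin 913 6 848)
(mv 848 (cons (fin 785 6 784)
(mv 783 (cons (fin 847 7 783)
(mv 784 (cons (fin 719 7 719)
(fin 975 5 783))))))))))
(cons (mv 847 (cons (fin 911 7 847)
(mv 848 (cons (fin 783 7 783)
(mv 849 (cons (fin 785 6 784)
(fin 913 6 848)))))))
(mv 849 (cons (fin 913 6 848)
(mv 848 (cons (fin 785 6 784)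
(mv 975 (cons (fin 911 7 911)
(fin 784 5 783))))))))))))))))))))))))
(cons (mv 972 (cons (fin 973 3 972)
(mv 976 (cons (fin 977 2 973)
(mv 1104 (cons (fin 1105 0 1037)
(mv 1168 (cons (mv 975 (cons (fin 911 7 911)
(fin 1232 7 975)))
(cons (mv 1231 (cons (fin 1167 5 975)
(mv 1232 (cons (fin 1295 5 1039)
(mv 1233 (cons (fin 1169 4 976)
(fin 1297 4 1040)))))))
(mv 1167 (cons (fin 1231 5 975)
(mv 1169 (cons (fin 1233 4 976)
(mv 912 (cons (cons (mv 911 (cons (fin 847 7 847)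
(fin 975 7 911)))
(mv 849 (cons (fin 913 6 848)
(mv 848 (cons (fin 785 6 784)
(mv 783 (cons (fin 847 7 783)
(mv 784 (cons (fin 719 7 719)
(fin 975 5 783))))))))))
(cons (mv 847 (cons (fin 911 7 847)
(mv 848 (cons (fin 783 7 783)
(mv 849 (cons (fin 785 6 784)
(fin 913 6 848)))))))
(mv 849 (cons (fin 913 6 848)
(mv 848 (cons (fin 785 6 784)
(mv 975 (cons (fin 911 7 911)
(fin 784 5 783)))))))))))))))))))))))
(cons (mv 973 (cons (fin 972 3 972)
(mv 1101 (cons (fin 1100 1 1036)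
(mv 1104 (cons (fin 1105 0 1037)
(mv 909 (cons (cons (mv 1102 (cons (fin 845 4 845)
(fin 1166 4 909)))
(mv 844 (cons (fin 908 7 844)
(mv 780 (cons (fin 845 7 780)
(mv 910 (cons (fin 846 6 845)
(mv 1165 (cons (fin 974 6 909)
(mv 1166 (cons (fin 1230 4 973)
(mv 1228 (cons (fin 1164 5 972)
(mv 1229 (cons (fin 1292 5 1036)
(mv 1168 (cons (fin 1167 1 1164)
(mv 1232 (cons (fin 975 7 975)
(mv 1295 (cons (fin 1231 5 1039)
(mv 1296 (cons (fin 1359 5 1103)
(mv 1297 (cons (fin 1233 4 1040)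
(fin 1361 4 1104))))))))))))))))))))))))))
(cons (mv 844 (cons (fin 908 7 844)
(mv 846 (cons (fin 910 6 845)
(mv 1166 (cons (fin 1102 4 909)
(mv 1165 (cons (fin 1230 4 973)
(mv 1228 (cons (fin 1164 5 972)
(mv 1229 (cons (fin 1292 5 1036)
(fin 974 6 973)))))))))))))
(mv 844 (cons (fin 908 7 844)
(mv 845 (cons (fin 780 7 780)
(fin 1102 4 845))))))))))))))
(mv 973 (cons (fin 972 3 972)
(mv 976 (cons (fin 977 2 973)
(mv 1101 (cons (fin 1100 1 1036)
(mv 909 (cons (cons (mv 1102 (cons (fin 845 4 845)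
(fin 1166 4 909)))
(mv 844 (cons (fin 908 7 844)
(mv 780 (cons (fin 845 7 780)
(mv 910 (cons (fin 846 6 845)
(mv 1165 (cons (fin 974 6 909)
(mv 1228 (cons (fin 1164 5 972)
(mv 1229 (cons (fin 1292 5 1036)
(mv 1230 (cons (fin 1166 4 973)
(fin 1294 4 1037))))))))))))))))
(cons (mv 844 (cons (fin 908 7 844)
(mv 846 (cons (fin 910 6 845)
(mv 1166 (cons (fin 1102 4 909)
(mv 1165 (cons (fin 1230 4 973)
(mv 1228 (cons (fin 1164 5 972)
(mv 1229 (cons (fin 1292 5 1036)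
(fin 974 6 973)))))))))))))
(mv 844 (cons (fin 908 7 844)
(mv 845 (cons (fin 780 7 780)
(fin 1102 4 845))))))))))))))))))
(mv 973 (cons (cons (cons (mv 972 (cons (fin 1039 3 972)
(mv 970 (cons (fin 971 0 970)
(mv 908 (cons (cons (mv 844 (cons (fin 780 4 780)
(mv 1101 (cons (fin 909 7 844)
(fin 1165 7 908)))))
(mv 844 (cons (fin 780 4 780)
(mv 1036 (cons (cons (mv 779 (cons (fin 843 7 779)
(mv 781 (cons (fin 845 6 780)
(mv 1035 (cons (fin 1099 5 843)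
(mv 1034 (cons (fin 969 3 969)
(fin 1033 2 969)))))))))
(mv 779 (cons (fin 843 7 779)
(mv 1035 (cons (fin 1099 5 843)
(mv 1034 (cons (fin 969 3 969)
(fin 1033 2 969))))))))
(cons (mv 779 (cons (fin 843 7 779)
(mv 845 (cons (fin 781 6 780)
(mv 909 (cons (fin 1100 5 844)
(fin 1102 4 845)))))))
(mv 781 (cons (fin 845 6 780)
(mv 1035 (cons (fin 1099 5 843)
(mv 1034 (cons (fin 969 3 969)
(fin 1033 2 969)))))))))))))
(cons (mv 1101 (cons (fin 1165 7 908)
(mv 909 (cons (mv 1102 (cons (fin 845 4 845)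
(fin 1166 4 909)))
(cons (mv 846 (cons (fin 910 6 845)
(mv 782 (cons (fin 845 6 781)
(mv 1100 (cons (fin 1164 5 908)
(mv 1099 (cons (fin 1098 2 1034)
(mv 1036 (cons (fin 1163 5 907)
(mv 907 (cons (fin 843 7 843)
(mv 906 (cons (fin 969 1 905)
(fin 905 0 905)))))))))))))))
(mv 846 (cons (fin 910 6 845)
(mv 1100 (cons (fin 1164 5 908)
(mv 1099 (cons (fin 1098 2 1034)
(mv 1036 (cons (fin 1163 5 907)
(mv 907 (cons (fin 843 7 843)
(mv 906 (cons (fin 969 1 905)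
(fin 905 0 905))))))))))))))))))
(mv 844 (cons (fin 780 4 780)
(mv 1101 (cons (fin 1165 7 908)
(fin 1036 4 844))))))))))))
(cons (mv 1102 (cons (cons (mv 909 (cons (fin 845 4 845)
(mv 1166 (cons (fin 974 7 909)
(fin 1230 7 973)))))
(mv 1166 (cons (fin 1230 7 973)
(mv 1165 (cons (cons (mv 974 (cons (fin 1229 5 973)
(mv 910 (cons (fin 1101 5 909)
(mv 846 (cons (fin 782 5 781)
(mv 847 (cons (fin 783 6 782)
(fin 911 6 846)))))))))
(mv 1101 (cons (cons (mv 908 (cons (fin 972 7 908)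
(mv 1164 (cons (fin 1228 5 972)
(mv 1163 (cons (fin 1162 2 1098)
(mv 1099 (cons (fin 1098 3 1098)
(mv 1100 (cons (fin 1167 3 1099)
(mv 1034 (cons (fin 1035 3 1034)
(mv 1227 (cons (fin 1226 1 1162)
(mv 1291 (cons (fin 1036 6 1035)
(fin 1355 6 1099)))))))))))))))))
(mv 1164 (cons (fin 1228 5 972)
(mv 1163 (cons (fin 1162 2 1098)
(mv 1099 (cons (fin 1098 3 1098)
(mv 1100 (cons (fin 1167 3 1099)
(mv 1034 (cons (fin 1035 3 1034)
(mv 1227 (cons (fin 1226 1 1162)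
(mv 1291 (cons (fin 1036 6 1035)
(fin 1355 6 1099))))))))))))))))
(cons (mv 972 (cons (fin 908 7 908)
(mv 1229 (cons (fin 1036 7 972)
(fin 1293 6 1037)))))
(mv 908 (cons (fin 972 7 908)
(mv 1164 (cons (fin 1228 5 972)
(mv 1163 (cons (fin 1162 2 1098)
(mv 1099 (cons (fin 1098 3 1098)
(mv 1167 (cons (fin 1100 3 1099)
(mv 1168 (cons (fin 1169 3 1101)
(mv 1232 (cons (fin 1231 0 1164)
(fin 1233 0 1165)))))))))))))))))))
(cons (mv 1101 (cons (cons (mv 908 (cons (fin 972 7 908)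
(mv 910 (cons (fin 974 5 909)
(mv 1164 (cons (fin 1228 5 972)
(mv 1163 (cons (fin 1162 2 1098)
(mv 1099 (cons (fin 1098 3 1098)
(mv 1100 (cons (fin 1167 3 1099)
(mv 1034 (cons (fin 1035 3 1034)
(mv 1227 (cons (fin 1226 1 1162)
(mv 1291 (cons (fin 1036 6 1035)
(fin 1355 6 1099)))))))))))))))))))
(cons (mv 908 (cons (fin 972 7 908)
(mv 1164 (cons (fin 1228 5 972)
(mv 1163 (cons (fin 1162 2 1098)
(mv 1099 (cons (fin 1098 3 1098)
(mv 1100 (cons (fin 1167 3 1099)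
(mv 1034 (cons (fin 1035 3 1034)
(mv 1227 (cons (fin 1226 1 1162)
(mv 1291 (cons (fin 1036 6 1035)
(fin 1355 6 1099)))))))))))))))))
(mv 908 (cons (fin 972 7 908)
(mv 974 (cons (fin 910 5 909)
(mv 1167 (cons (fin 1231 4 974)
(mv 1100 (cons (fin 1168 3 1100)
(fin 1099 0 1099)))))))))))
(cons (mv 910 (cons (fin 974 5 909)
(mv 1164 (cons (fin 1228 5 972)
(mv 1163 (cons (fin 1162 2 1098)
(mv 1099 (cons (fin 1098 3 1098)
(mv 1100 (cons (fin 1167 3 1099)
(mv 1034 (cons (fin 1035 3 1034)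
(mv 1227 (cons (fin 1226 1 1162)
(mv 1291 (cons (fin 1036 6 1035)
(fin 1355 6 1099)))))))))))))))))
(cons (mv 910 (cons (fin 974 5 909)
(mv 972 (cons (fin 908 7 908)
(mv 970 (cons (fin 971 0 970)
(mv 1164 (cons (fin 1228 5 972)
(mv 1163 (cons (fin 1162 2 1098)
(mv 1099 (cons (fin 1098 3 1098)
(mv 1227 (cons (fin 1226 1 1162)
(mv 1035 (cons (fin 1034 7 970)
(fin 1036 6 971)))))))))))))))))
(mv 908 (cons (fin 972 7 908)
(mv 974 (cons (fin 910 5 909)
(mv 1164 (cons (fin 1228 5 972)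
(mv 1162 (cons (fin 1163 2 1098)
(mv 1167 (cons (fin 1231 4 974)
(mv 1168 (cons (fin 1100 3 1100)
(fin 1169 3 1101)))))))))))))))))
(mv 1167 (cons (cons (mv 974 (cons (fin 1229 5 973)
(fin 1231 4 974)))
(mv 1168 (cons (mv 1104 (cons (fin 1105 2 1101)
(mv 976 (cons (fin 1231 5 975)
(mv 1233 (cons (fin 1232 0 1165)
(fin 1169 4 976)))))))
(mv 1228 (cons (fin 1229 1 1164)
(mv 1164 (cons (fin 1227 1 1163)
(mv 1100 (cons (fin 1099 3 1099)
(fin 1036 6 972))))))))))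
(cons (mv 1229 (cons (fin 974 5 973)
(mv 1168 (cons (fin 1228 1 1164)
(mv 1104 (cons (fin 1105 2 1101)
(mv 1233 (cons (fin 1232 0 1165)
(mv 1169 (cons (fin 1234 0 1166)
(fin 976 4 976)))))))))))
(mv 1231 (cons (fin 974 4 974)
(mv 1164 (cons (fin 1232 0 1164)
(mv 1099 (cons (fin 1100 3 1099)
(mv 1163 (cons (fin 1098 3 1098)
(mv 1227 (cons (fin 1226 1 1162)
(fin 1228 1 1163))))))))))))))))))))
(cons (mv 909 (cons (fin 845 4 845)
(mv 1101 (cons (cons (mv 844 (cons (fin 908 7 844)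
(mv 846 (cons (fin 910 6 845)
(mv 1164 (cons (fin 1100 5 908)
(mv 1165 (cons (fin 1228 5 972)
(mv 1229 (cons (fin 974 6 973)
(fin 1293 6 1037)))))))))))
(mv 844 (cons (fin 908 7 844)
(mv 1164 (cons (fin 1100 5 908)
(mv 1165 (cons (fin 1228 5 972)
(mv 1229 (cons (fin 974 6 973)
(fin 1293 6 1037))))))))))
(cons (mv 844 (cons (fin 908 7 844)
(mv 910 (cons (fin 846 6 845)
(mv 974 (cons (fin 1165 5 909)
(mv 911 (cons (fin 847 6 846)
(mv 912 (cons (fin 972 1 908)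
(fin 913 1 909)))))))))))
(cons (mv 846 (cons (fin 910 6 845)
(mv 1164 (cons (fin 1100 5 908)
(mv 1165 (cons (fin 1228 5 972)
(mv 1229 (cons (fin 974 6 973)
(fin 1293 6 1037)))))))))
(mv 846 (cons (fin 910 6 845)
(mv 908 (cons (fin 844 7 844)
(mv 1100 (cons (fin 1164 5 908)
(mv 1099 (cons (fin 1098 2 1034)
(mv 1035 (cons (fin 1034 3 1034)
(mv 1163 (cons (fin 1162 1 1098)
(mv 972 (cons (fin 1036 5 907)
(fin 971 6 907)))))))))))))))))))))
(mv 909 (cons (fin 845 4 845)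
(mv 1166 (cons (fin 1230 7 973)
(fin 1101 4 909))))))))
(mv 1102 (cons (cons (mv 909 (cons (fin 845 4 845)
(mv 1166 (cons (fin 974 7 909)
(fin 1230 7 973)))))
(mv 1166 (cons (fin 1230 7 973)
(mv 1165 (cons (cons (mv 974 (cons (fin 1229 5 973)
(mv 910 (cons (fin 1101 5 909)
(mv 846 (cons (fin 782 5 781)
(mv 847 (cons (fin 783 6 782)
(fin 911 6 846)))))))))
(mv 1101 (cons (mv 1039 (cons (fin 1100 1 1036)
(mv 976 (cons (fin 977 2 973)
(mv 1104 (cons (fin 1105 0 1037)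
(mv 1228 (cons (fin 1164 5 972)
(mv 1229 (cons (fin 1292 5 1036)
(fin 1293 6 1037)))))))))))
(cons (mv 1228 (cons (fin 1164 5 972)
(mv 1229 (cons (fin 1292 5 1036)
(fin 1293 6 1037)))))
(mv 1100 (cons (fin 1039 1 1036)
(mv 1099 (cons (fin 1098 2 1034)
(fin 1167 0 1099)))))))))
(cons (mv 1167 (cons (cons (mv 974 (cons (fin 1231 4 974)
(mv 910 (cons (fin 1101 5 909)
(mv 846 (cons (fin 782 5 781)
(mv 847 (cons (fin 783 6 782)
(fin 911 6 846)))))))))
(mv 1101 (cons (mv 1100 (cons (fin 1168 3 1100)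
(fin 1039 1 1036)))
(cons (mv 1164 (cons (fin 1228 5 972)
(mv 1162 (cons (fin 1163 2 1098)
(mv 1168 (cons (fin 1169 3 1101)
(mv 1232 (cons (fin 1231 0 1164)
(fin 1233 0 1165)))))))))
(mv 1100 (cons (fin 1039 1 1036)
(fin 1099 0 1099)))))))
(cons (mv 1100 (cons (mv 1099 (cons (fin 1164 3 1099)
(fin 1101 0 1099)))
(cons (mv 1099 (cons (fin 1164 3 1099)
(mv 1036 (cons (fin 1039 1 1035)
(mv 1098 (cons (fin 1035 1 1034)
(fin 1097 2 1033)))))))
(mv 1101 (cons (fin 1168 3 1100)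
(fin 1039 1 1036))))))
(mv 1231 (cons (fin 974 4 974)
(mv 1164 (cons (fin 1232 0 1164)
(mv 1099 (cons (fin 1100 3 1099)
(mv 1163 (cons (fin 1098 3 1098)
(mv 1227 (cons (fin 1226 1 1162)
(fin 1228 1 1163))))))))))))))
(mv 1167 (cons (cons (mv 974 (cons (fin 1229 5 973)
(fin 1231 4 974)))
(mv 1168 (cons (mv 1104 (cons (fin 1105 2 1101)
(mv 976 (cons (fin 1231 5 975)
(mv 977 (cons (fin 1039 2 973)
(fin 913 6 912)))))))
(mv 1228 (cons (fin 1229 1 1164)
(mv 1164 (cons (fin 1227 1 1163)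
(mv 1100 (cons (fin 1099 3 1099)
(fin 1036 6 972))))))))))
(cons (mv 1229 (cons (fin 974 5 973)
(mv 1168 (cons (fin 1228 1 1164)
(mv 1104 (cons (fin 1105 2 1101)
(mv 1233 (cons (fin 1232 0 1165)
(mv 1169 (cons (fin 1234 0 1166)
(fin 976 4 976)))))))))))
(mv 1231 (cons (fin 974 4 974)
(mv 1164 (cons (fin 1232 0 1164)
(mv 1099 (cons (fin 1100 3 1099)
(mv 1163 (cons (fin 1098 3 1098)
(mv 1227 (cons (fin 1226 1 1162)
(fin 1228 1 1163))))))))))))))))))))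
(cons (mv 909 (cons (fin 845 4 845)
(mv 1101 (cons (mv 1100 (cons (fin 1039 1 1036)
(fin 1164 5 908)))
(cons (mv 844 (cons (fin 908 7 844)
(mv 910 (cons (fin 846 6 845)
(mv 1165 (cons (fin 974 5 909)
(mv 1228 (cons (fin 1164 5 972)
(mv 1229 (cons (fin 1292 5 1036)
(fin 1293 6 1037)))))))))))
(mv 908 (cons (fin 844 7 844)
(mv 910 (cons (fin 846 6 845)
(mv 974 (cons (fin 1165 5 909)
(mv 847 (cons (fin 911 6 846)
(mv 907 (cons (fin 906 0 906)
(mv 843 (cons (fin 842 3 842)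
(mv 971 (cons (fin 970 1 906)
(mv 1100 (cons (fin 1039 1 1036)
(mv 1035 (cons (fin 1036 4 843)
(mv 1034 (cons (fin 1099 3 1034)
(fin 1098 5 842))))))))))))))))))))))))))
(mv 909 (cons (fin 845 4 845)
(mv 1166 (cons (fin 1230 7 973)
(fin 1101 4 909))))))))))
(cons (mv 972 (cons (fin 1039 3 972)
(mv 970 (cons (fin 971 0 970)
(mv 908 (cons (cons (mv 844 (cons (fin 780 4 780)
(mv 1101 (cons (fin 909 7 844)
(fin 1165 7 908)))))
(mv 844 (cons (fin 780 4 780)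
(mv 1036 (cons (cons (mv 779 (cons (fin 843 7 779)
(mv 781 (cons (fin 845 6 780)
(mv 1035 (cons (fin 1099 5 843)
(mv 1034 (cons (fin 969 3 969)
(fin 1033 2 969)))))))))
(mv 779 (cons (fin 843 7 779)
(mv 845 (cons (fin 781 6 780)
(mv 909 (cons (fin 1100 5 844)
(mv 846 (cons (fin 782 6 781)
(mv 847 (cons (fin 907 1 843)
(fin 848 1 844))))))))))))
(cons (mv 779 (cons (fin 843 7 779)
(mv 1035 (cons (fin 1099 5 843)
(mv 1034 (cons (fin 969 3 969)
(fin 1033 2 969)))))))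
(mv 781 (cons (fin 845 6 780)
(mv 1035 (cons (fin 1099 5 843)
(mv 1034 (cons (fin 969 3 969)
(fin 1033 2 969)))))))))))))
(cons (mv 1101 (cons (fin 1165 7 908)
(mv 909 (cons (cons (mv 846 (cons (fin 910 6 845)
(mv 782 (cons (fin 845 6 781)
(mv 1100 (cons (fin 1164 5 908)
(mv 1099 (cons (fin 1098 2 1034)
(mv 1036 (cons (fin 1163 5 907)
(mv 907 (cons (fin 843 7 843)
(mv 906 (cons (fin 969 1 905)
(fin 905 0 905)))))))))))))))
(mv 846 (cons (fin 910 6 845)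
(mv 845 (cons (fin 782 6 781)
(mv 781 (cons (fin 717 5 716)
(fin 1036 5 780))))))))
(cons (mv 1100 (cons (fin 1164 5 908)
(mv 845 (cons (fin 1036 5 844)
(mv 781 (cons (fin 717 5 716)
(fin 974 4 781)))))))
(cons (mv 846 (cons (fin 910 6 845)
(mv 1100 (cons (fin 1164 5 908)
(mv 1099 (cons (fin 1098 2 1034)
(mv 1036 (cons (fin 1163 5 907)
(mv 907 (cons (fin 843 7 843)
(mv 906 (cons (fin 969 1 905)
(fin 905 0 905)))))))))))))
(mv 846 (cons (fin 910 6 845)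
(mv 845 (cons (fin 782 6 781)
(mv 781 (cons (fin 717 5 716)
(fin 974 4 781)))))))))))))
(mv 844 (cons (fin 780 4 780)
(mv 1101 (cons (fin 1165 7 908)
(fin 1036 4 844))))))))))))
(cons (mv 972 (cons (fin 1039 3 972)
(mv 971 (cons (fin 970 0 970)
(mv 974 (cons (cons (mv 906 (cons (fin 907 3 906)
(mv 910 (cons (fin 911 2 907)
(mv 846 (cons (fin 782 5 781)
(mv 783 (cons (fin 847 6 782)
(mv 845 (cons (fin 781 7 781)
(mv 909 (cons (fin 1102 7 845)
(mv 780 (cons (fin 844 7 780)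
(mv 1035 (cons (fin 1034 1 970)
(mv 1036 (cons (fin 1100 5 844)
(mv 1099 (cons (fin 1098 1 1034)
(mv 1163 (cons (fin 908 6 907)
(fin 1227 6 971)))))))))))))))))))))))
(cons (mv 907 (cons (fin 906 3 906)
(mv 1035 (cons (fin 1034 1 970)
(mv 1099 (cons (mv 908 (cons (fin 844 6 843)
(fin 1163 6 907)))
(mv 1098 (cons (fin 1036 1 1034)
(fin 1162 5 906)))))))))
(mv 906 (cons (fin 907 3 906)
(mv 910 (cons (fin 911 2 907)
(mv 846 (cons (fin 782 5 781)
(mv 783 (cons (fin 847 6 782)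
(mv 845 (cons (fin 781 7 781)
(mv 909 (cons (fin 1102 7 845)
(mv 844 (cons (fin 780 7 780)
(mv 843 (cons (fin 842 0 842)
(mv 779 (cons (fin 778 3 778)
(mv 1036 (cons (fin 908 7 779)
(fin 1100 5 844)))))))))))))))))))))))
(cons (mv 910 (cons (fin 911 2 907)
(mv 846 (cons (fin 782 5 781)
(mv 783 (cons (fin 847 6 782)
(mv 845 (cons (fin 781 7 781)
(mv 909 (cons (fin 1102 7 845)
(mv 780 (cons (fin 844 7 780)
(mv 1035 (cons (fin 1034 1 970)
(mv 1036 (cons (fin 1100 5 844)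
(mv 1099 (cons (fin 1098 1 1034)
(mv 1163 (cons (fin 908 6 907)
(fin 1227 6 971)))))))))))))))))))))
(cons (mv 906 (cons (fin 907 3 906)
(mv 910 (cons (fin 911 2 907)
(mv 846 (cons (fin 782 5 781)
(mv 845 (cons (fin 781 7 781)
(mv 847 (cons (fin 783 6 782)
(mv 909 (cons (fin 1102 7 845)
(mv 848 (cons (fin 908 1 844)
(fin 849 1 845)))))))))))))))
(mv 907 (cons (fin 906 3 906)
(mv 910 (cons (fin 911 2 907)
(mv 846 (cons (fin 782 5 781)
(mv 783 (cons (fin 847 6 782)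
(mv 845 (cons (fin 781 7 781)
(mv 909 (cons (fin 1102 7 845)
(mv 844 (cons (fin 780 7 780)
(mv 843 (cons (fin 842 0 842)
(mv 779 (cons (fin 778 3 778)
(fin 1036 4 779)))))))))))))))))))))))))))
(mv 972 (cons (fin 1039 3 972)
(mv 971 (cons (fin 970 0 970)
(mv 974 (cons (cons (mv 906 (cons (fin 907 3 906)
(mv 910 (cons (fin 911 2 907)
(mv 846 (cons (fin 782 5 781)
(fin 1101 5 845)))))))
(mv 906 (cons (fin 907 3 906)
(mv 1035 (cons (fin 1034 1 970)
(mv 1099 (cons (cons (mv 908 (cons (fin 1163 6 907)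
(mv 844 (cons (fin 780 5 779)
(fin 1036 5 843)))))
(mv 1098 (cons (fin 1036 1 1034)
(mv 1101 (cons (fin 1100 2 1034)
(mv 1165 (cons (fin 1229 6 973)
(mv 1164 (cons (fin 1228 5 972)
(mv 1166 (cons (fin 1163 3 1098)
(fin 1230 4 973))))))))))))
(cons (mv 1098 (cons (fin 1036 1 1034)
(mv 1101 (cons (fin 1100 2 1034)
(mv 1165 (cons (fin 908 7 908)
(fin 1229 6 973)))))))
(mv 1163 (cons (fin 908 6 907)
(mv 1162 (cons (fin 1226 5 970)
(mv 1228 (cons (fin 1164 4 971)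
(mv 1227 (cons (fin 1292 4 1035)
(mv 1160 (cons (fin 1161 0 1160)
(mv 1229 (cons (fin 1230 3 1162)
(mv 1101 (cons (fin 1165 6 973)
(mv 1100 (cons (fin 1102 1 1098)
(fin 1098 2 1034)))))))))))))))))))))))))
(cons (mv 910 (cons (fin 911 2 907)
(mv 846 (cons (fin 782 5 781)
(fin 1101 5 845)))))
(mv 907 (cons (fin 906 3 906)
(mv 910 (cons (fin 911 2 907)
(mv 846 (cons (fin 782 5 781)
(mv 845 (cons (fin 781 7 781)
(mv 847 (cons (fin 783 6 782)
(mv 844 (cons (fin 908 1 843)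
(mv 779 (cons (fin 780 3 779)
(mv 843 (cons (fin 778 3 778)
(fin 1036 4 779)))))))))))))))))))))))))))
(cons (cons (mv 972 (cons (fin 1039 3 972)
(mv 970 (cons (fin 971 0 970)
(mv 908 (cons (cons (mv 844 (cons (fin 780 4 780)
(mv 1101 (cons (fin 909 7 844)
(fin 1165 7 908)))))
(mv 844 (cons (fin 780 4 780)
(mv 1036 (cons (cons (mv 779 (cons (fin 843 7 779)
(mv 781 (cons (fin 845 6 780)
(mv 1035 (cons (fin 1099 5 843)
(mv 1034 (cons (fin 969 3 969)
(fin 1033 2 969)))))))))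
(mv 779 (cons (fin 843 7 779)
(mv 845 (cons (fin 781 6 780)
(mv 909 (cons (fin 1102 4 845)
(mv 846 (cons (fin 782 6 781)
(mv 847 (cons (fin 907 1 843)
(fin 848 1 844))))))))))))
(cons (mv 779 (cons (fin 843 7 779)
(mv 1035 (cons (fin 1099 5 843)
(mv 1034 (cons (fin 969 3 969)
(fin 1033 2 969)))))))
(mv 781 (cons (fin 845 6 780)
(mv 1035 (cons (fin 1099 5 843)
(mv 1034 (cons (fin 969 3 969)
(fin 1033 2 969)))))))))))))
(cons (mv 1101 (cons (fin 1165 7 908)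
(mv 909 (cons (mv 1102 (cons (fin 845 4 845)
(fin 1166 4 909)))
(cons (mv 846 (cons (fin 910 6 845)
(mv 845 (cons (fin 782 6 781)
(mv 781 (cons (fin 717 5 716)
(fin 1036 5 780)))))))
(mv 910 (cons (fin 846 6 845)
(mv 911 (cons (fin 912 1 908)
(mv 847 (cons (fin 848 2 844)
(mv 1102 (cons (fin 974 6 846)
(fin 1166 4 909))))))))))))))
(mv 844 (cons (fin 780 4 780)
(mv 1101 (cons (fin 1165 7 908)
(fin 1036 4 844))))))))))))
(cons (mv 972 (cons (fin 1039 3 972)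
(mv 970 (cons (fin 971 0 970)
(mv 908 (cons (cons (mv 844 (cons (fin 780 4 780)
(mv 1101 (cons (fin 909 7 844)
(fin 1165 7 908)))))
(mv 844 (cons (fin 780 4 780)
(mv 1036 (cons (cons (mv 779 (cons (fin 843 7 779)
(mv 1035 (cons (fin 1099 5 843)
(mv 1034 (cons (fin 969 3 969)
(fin 1033 2 969)))))))
(mv 843 (cons (fin 779 7 779)
(mv 907 (cons (fin 1100 7 843)
(mv 906 (cons (fin 905 0 905)
(mv 909 (cons (fin 969 1 905)
(fin 974 0 906))))))))))
(cons (mv 1035 (cons (fin 1099 5 843)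
(mv 1034 (cons (fin 969 3 969)
(fin 1033 2 969)))))
(mv 779 (cons (fin 843 7 779)
(mv 1035 (cons (fin 1099 5 843)
(mv 1034 (cons (fin 1033 2 969)
(fin 974 2 970)))))))))))))
(cons (mv 1101 (cons (fin 1165 7 908)
(mv 909 (cons (mv 846 (cons (fin 910 6 845)
(mv 1100 (cons (fin 1164 5 908)
(mv 1099 (cons (fin 1098 2 1034)
(mv 1036 (cons (fin 1163 5 907)
(mv 907 (cons (fin 843 7 843)
(mv 906 (cons (fin 969 1 905)
(fin 905 0 905)))))))))))))
(cons (mv 1100 (cons (fin 1164 5 908)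
(mv 1099 (cons (fin 1098 2 1034)
(mv 1036 (cons (fin 1163 5 907)
(mv 907 (cons (fin 843 7 843)
(mv 906 (cons (fin 969 1 905)
(fin 905 0 905)))))))))))
(mv 910 (cons (fin 846 6 845)
(mv 911 (cons (fin 912 1 908)
(mv 847 (cons (fin 848 2 844)
(mv 1102 (cons (fin 974 6 846)
(fin 1166 4 909))))))))))))))
(mv 844 (cons (fin 780 4 780)
(mv 1101 (cons (fin 1165 7 908)
(fin 1036 4 844))))))))))))
(mv 972 (cons (fin 1039 3 972)
(mv 908 (cons (cons (mv 844 (cons (fin 780 4 780)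
(mv 1101 (cons (fin 909 7 844)
(fin 1165 7 908)))))
(mv 844 (cons (fin 780 4 780)
(mv 1036 (cons (cons (mv 779 (cons (fin 843 7 779)
(mv 781 (cons (fin 845 6 780)
(mv 1035 (cons (fin 1099 5 843)
(mv 1034 (cons (fin 1033 2 969)
(fin 974 2 970)))))))))
(mv 779 (cons (fin 843 7 779)
(mv 1035 (cons (fin 1099 5 843)
(mv 1034 (cons (fin 1033 2 969)
(fin 974 2 970))))))))
(cons (mv 779 (cons (fin 843 7 779)
(mv 845 (cons (fin 781 6 780)
(mv 909 (cons (fin 1100 5 844)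
(fin 1102 4 845)))))))
(mv 781 (cons (fin 845 6 780)
(mv 1035 (cons (fin 1099 5 843)
(mv 1034 (cons (fin 1033 2 969)
(fin 974 2 970)))))))))))))
(cons (mv 1101 (cons (fin 1165 7 908)
(mv 909 (cons (mv 1102 (cons (fin 845 4 845)
(fin 1166 4 909)))
(cons (mv 846 (cons (fin 910 6 845)
(mv 782 (cons (fin 845 6 781)
(mv 1100 (cons (fin 1164 5 908)
(mv 1099 (cons (fin 1098 2 1034)
(mv 1036 (cons (fin 1163 5 907)
(mv 907 (cons (fin 843 7 843)
(mv 906 (cons (fin 905 0 905)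
(fin 974 0 906)))))))))))))))
(mv 846 (cons (fin 910 6 845)
(mv 1100 (cons (fin 1164 5 908)
(mv 1099 (cons (fin 1098 2 1034)
(mv 1036 (cons (fin 1163 5 907)
(mv 907 (cons (fin 843 7 843)
(mv 906 (cons (fin 905 0 905)
(fin 974 0 906))))))))))))))))))
(mv 844 (cons (fin 780 4 780)
(mv 1101 (cons (fin 1165 7 908)
(fin 1036 4 844))))))))))))
(cons (mv 972 (cons (fin 1039 3 972)
(mv 970 (cons (fin 971 0 970)
(mv 1101 (cons (cons (mv 908 (cons (fin 1165 7 908)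
(mv 844 (cons (fin 909 7 844)
(fin 780 4 780)))))
(mv 909 (cons (mv 1102 (cons (fin 845 4 845)
(fin 1166 4 909)))
(cons (mv 844 (cons (fin 908 7 844)
(mv 845 (cons (fin 780 7 780)
(mv 846 (cons (fin 782 6 781)
(fin 910 6 845)))))))
(mv 908 (cons (fin 844 7 844)
(mv 910 (cons (fin 846 6 845)
(mv 911 (cons (fin 912 1 908)
(mv 847 (cons (fin 848 2 844)
(mv 1102 (cons (fin 974 6 846)
(fin 1166 4 909)))))))))))))))
(cons (mv 909 (cons (cons (mv 1102 (cons (fin 845 4 845)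
(fin 1166 4 909)))
(mv 846 (cons (fin 910 6 845)
(mv 782 (cons (fin 845 6 781)
(mv 1164 (cons (fin 1100 5 908)
(mv 1165 (cons (fin 1228 5 972)
(mv 1229 (cons (fin 974 6 973)
(mv 1230 (cons (fin 1166 4 973)
(fin 1294 4 1037))))))))))))))
(cons (mv 846 (cons (fin 910 6 845)
(mv 1102 (cons (fin 1166 4 909)
(mv 1164 (cons (fin 1100 5 908)
(mv 1165 (cons (fin 1228 5 972)
(mv 1229 (cons (fin 974 6 973)
(fin 1293 6 1037)))))))))))
(mv 845 (cons (fin 1102 4 845)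
(mv 846 (cons (fin 782 6 781)
(fin 910 6 845))))))))
(mv 1165 (cons (fin 908 7 908)
(mv 974 (cons (fin 910 6 909)
(fin 1229 6 973))))))))))))
(cons (mv 972 (cons (fin 1039 3 972)
(mv 970 (cons (fin 971 0 970)
(mv 908 (cons (cons (mv 844 (cons (fin 780 4 780)
(mv 1101 (cons (fin 909 7 844)
(fin 1165 7 908)))))
(mv 844 (cons (fin 780 4 780)
(mv 1036 (cons (cons (mv 779 (cons (fin 843 7 779)
(mv 781 (cons (fin 845 6 780)
(mv 1035 (cons (fin 1099 5 843)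
(mv 1034 (cons (fin 969 3 969)
(fin 1033 2 969)))))))))
(mv 779 (cons (fin 843 7 779)
(mv 1035 (cons (fin 1099 5 843)
(mv 1034 (cons (fin 969 3 969)
(fin 1033 2 969))))))))
(cons (mv 779 (cons (fin 843 7 779)
(mv 845 (cons (fin 781 6 780)
(mv 909 (cons (fin 1100 5 844)
(fin 1102 4 845)))))))
(mv 781 (cons (fin 845 6 780)
(mv 1035 (cons (fin 1099 5 843)
(mv 1034 (cons (fin 969 3 969)
(fin 1033 2 969)))))))))))))
(cons (mv 1101 (cons (fin 1165 7 908)
(mv 909 (cons (mv 1102 (cons (fin 845 4 845)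
(fin 1166 4 909)))
(cons (mv 1100 (cons (fin 1164 5 908)
(mv 845 (cons (fin 1036 5 844)
(mv 781 (cons (fin 717 5 716)
(fin 974 4 781)))))))
(mv 1100 (cons (fin 1164 5 908)
(mv 1099 (cons (fin 1098 2 1034)
(mv 1036 (cons (fin 1163 5 907)
(mv 907 (cons (fin 843 7 843)
(mv 906 (cons (fin 969 1 905)
(fin 905 0 905))))))))))))))))
(mv 844 (cons (fin 780 4 780)
(mv 1101 (cons (fin 1165 7 908)
(fin 1036 4 844))))))))))))
(mv 972 (cons (fin 1039 3 972)
(mv 970 (cons (fin 971 0 970)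
(mv 1102 (cons (cons (mv 909 (cons (fin 845 4 845)
(mv 1166 (cons (fin 974 7 909)
(fin 1230 7 973)))))
(mv 1166 (cons (fin 1230 7 973)
(mv 1165 (cons (cons (mv 974 (cons (fin 1229 5 973)
(mv 910 (cons (fin 1101 5 909)
(mv 846 (cons (fin 782 5 781)
(mv 847 (cons (fin 783 6 782)
(fin 911 6 846)))))))))
(mv 1101 (cons (cons (mv 910 (cons (fin 974 5 909)
(mv 1164 (cons (fin 1228 5 972)
(mv 1163 (cons (fin 1162 2 1098)
(mv 1099 (cons (fin 1098 3 1098)
(mv 1100 (cons (fin 1167 3 1099)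
(mv 1227 (cons (fin 1226 1 1162)
(fin 1036 5 971)))))))))))))
(mv 1164 (cons (fin 1228 5 972)
(mv 1163 (cons (fin 1162 2 1098)
(mv 1099 (cons (fin 1098 3 1098)
(mv 1100 (cons (fin 1167 3 1099)
(mv 1227 (cons (fin 1226 1 1162)
(fin 1036 5 971))))))))))))
(cons (mv 974 (cons (fin 910 5 909)
(mv 1167 (cons (fin 1231 4 974)
(mv 1100 (cons (fin 1168 3 1100)
(fin 1099 0 1099)))))))
(cons (mv 910 (cons (fin 974 5 909)
(mv 1164 (cons (fin 1228 5 972)
(mv 1163 (cons (fin 1162 2 1098)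
(mv 1099 (cons (fin 1098 3 1098)
(mv 1227 (cons (fin 1226 1 1162)
(mv 1035 (cons (fin 1034 7 970)
(fin 1036 6 971)))))))))))))
(mv 974 (cons (fin 910 5 909)
(mv 1164 (cons (fin 1228 5 972)
(mv 1162 (cons (fin 1163 2 1098)
(mv 1167 (cons (fin 1231 4 974)
(mv 1168 (cons (fin 1100 3 1100)
(fin 1169 3 1101))))))))))))))))
(cons (mv 1101 (cons (mv 1229 (cons (fin 1036 7 972)
(fin 1293 6 1037)))
(cons (mv 1164 (cons (fin 1228 5 972)
(mv 1163 (cons (fin 1162 2 1098)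
(mv 1099 (cons (fin 1098 3 1098)
(mv 1100 (cons (fin 1167 3 1099)
(mv 1227 (cons (fin 1226 1 1162)
(fin 1036 5 971)))))))))))
(mv 1164 (cons (fin 1228 5 972)
(mv 1163 (cons (fin 1162 2 1098)
(mv 1099 (cons (fin 1098 3 1098)
(mv 1167 (cons (fin 1100 3 1099)
(mv 1168 (cons (fin 1169 3 1101)
(mv 1232 (cons (fin 1231 0 1164)
(fin 1233 0 1165))))))))))))))))
(mv 1167 (cons (cons (mv 974 (cons (fin 1229 5 973)
(fin 1231 4 974)))
(mv 1164 (cons (cons (mv 1099 (cons (fin 1100 3 1099)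
(mv 1098 (cons (fin 1163 3 1098)
(mv 1035 (cons (fin 1036 1 1034)
(mv 1228 (cons (fin 1227 1 1163)
(mv 1168 (cons (fin 1229 1 1164)
(mv 1232 (cons (fin 1231 0 1164)
(fin 1233 0 1165)))))))))))))
(mv 1227 (cons (fin 1228 1 1163)
(mv 1163 (cons (fin 1226 1 1162)
(mv 1098 (cons (fin 1099 3 1098)
(mv 1162 (cons (fin 1097 3 1097)
(fin 1034 4 970))))))))))
(cons (mv 1099 (cons (fin 1100 3 1099)
(mv 1163 (cons (fin 1098 3 1098)
(mv 1227 (cons (fin 1226 1 1162)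
(mv 1035 (cons (fin 1034 7 970)
(fin 1036 6 971)))))))))
(cons (mv 1100 (cons (fin 1099 3 1099)
(mv 1036 (cons (fin 1228 6 972)
(fin 1229 4 972)))))
(mv 1228 (cons (fin 1227 1 1163)
(mv 1036 (cons (fin 1100 6 972)
(mv 1168 (cons (fin 1229 1 1164)
(mv 1232 (cons (fin 1231 0 1164)
(fin 1233 0 1165))))))))))))))
(cons (mv 1229 (cons (fin 974 5 973)
(mv 1168 (cons (fin 1228 1 1164)
(mv 1104 (cons (fin 1105 2 1101)
(mv 1233 (cons (fin 1232 0 1165)
(mv 1169 (cons (fin 1234 0 1166)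
(fin 976 4 976)))))))))))
(mv 1231 (cons (fin 974 4 974)
(mv 1164 (cons (fin 1232 0 1164)
(mv 1099 (cons (fin 1100 3 1099)
(mv 1163 (cons (fin 1098 3 1098)
(mv 1227 (cons (fin 1226 1 1162)
(fin 1228 1 1163))))))))))))))))))))
(cons (mv 909 (cons (fin 845 4 845)
(mv 1101 (cons (cons (mv 846 (cons (fin 910 6 845)
(mv 1100 (cons (fin 1164 5 908)
(mv 1099 (cons (fin 1098 2 1034)
(mv 1035 (cons (fin 1034 3 1034)
(mv 1163 (cons (fin 1162 1 1098)
(mv 1227 (cons (fin 1036 6 971)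
(mv 1228 (cons (fin 1292 4 1035)
(mv 1290 (cons (fin 1226 5 1034)
(mv 1291 (cons (fin 1354 5 1098)
(mv 1229 (cons (fin 1230 1 1226)
(mv 1165 (cons (fin 974 6 973)
(fin 1293 6 1037)))))))))))))))))))))))
(mv 1100 (cons (fin 1164 5 908)
(mv 1099 (cons (fin 1098 2 1034)
(mv 1035 (cons (fin 1034 3 1034)
(mv 1163 (cons (fin 1162 1 1098)
(mv 1227 (cons (fin 1036 6 971)
(mv 1228 (cons (fin 1292 4 1035)
(mv 1290 (cons (fin 1226 5 1034)
(mv 1291 (cons (fin 1354 5 1098)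
(mv 1229 (cons (fin 1230 1 1226)
(mv 1165 (cons (fin 974 6 973)
(fin 1293 6 1037))))))))))))))))))))))
(cons (mv 910 (cons (fin 846 6 845)
(mv 911 (cons (fin 912 1 908)
(mv 974 (cons (fin 1165 5 909)
(fin 847 6 846)))))))
(mv 846 (cons (fin 910 6 845)
(mv 1100 (cons (fin 1164 5 908)
(mv 1099 (cons (fin 1098 2 1034)
(mv 1035 (cons (fin 1034 3 1034)
(mv 1163 (cons (fin 1162 1 1098)
(mv 1227 (cons (fin 1036 6 971)
(mv 1290 (cons (fin 1226 5 1034)
(mv 1291 (cons (fin 1354 5 1098)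
(mv 1292 (cons (fin 1228 4 1035)
(fin 1356 4 1099))))))))))))))))))))))))
(cons (mv 909 (cons (fin 845 4 845)
(mv 1166 (cons (fin 974 7 909)
(fin 1101 4 909)))))
(mv 909 (cons (fin 845 4 845)
(mv 1166 (cons (fin 1230 7 973)
(fin 1101 4 909)))))))))))))))))))))))
def l105 : Lem := ⟨13254031944712882724506621310649321556018620670345837899455453023597314721787975009848330616026462815765143756135158089473467252075149308743152655366187148242124071246428482498451210046760672027239036899891323305324899173507745103325308665813954110541579506451753178596634830548552232523722901151470534797188661248, 449702747588789128231384296135792401458063700258762027075921289943908893063450021175956861085314802884160079537482275670181483851731803001819341442004048283294386290254438287826113722462246773068967294305116969644807484966513125982728024607968805057892384061431038984310598180390661474949513466984308696041892632796319125058084591016233760555898332857756655162952962833005248304213065108053053925193424042129803325488821648228352,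 449702747588789128231384296135792401458063700258762027075921289943908893063450021175956861085314802884160079537482275670181483851731803001819341442004048283294386290254438287826113722462246773068967294305116969644807484966513125982728024607968805057892384061431038984310598180390661474949513466984308696041892632796319125058084591016233760555898332857756655162952962833005248304213065108053053925193424042129803325488821648228352, 19, 33⟩
theorem l105_valid : l105.Valid :=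
  Lem.valid_of_chk t105 t105_valid [1037, 1040] c105 l105 (by decide +kernel)
end Crest.Agent.SnakyAux
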