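import Crest.Agent.S0047_aux.Checker

set_option autoImplicit false
set_option maxRecDepth 100000
namespace Crest.Agent.SnakyAux
open Cert
def t87 : Tbl := Tbl.nil
theorem t87_valid : t87.Valid := Tbl.valid_nil
def c87 : Cert :=
(mv 1100 (cons (cons (cons (cons (mv 1102 (cons (mv 1103 (cons (fin 1039 2 1036)
(mv 1036 (cons (fin 1035 3 1035)
(fin 1104 3 1036)))))
(cons (mv 1099 (cons (cons (mv 1034 (cons (fin 1035 3 1034)
(mv 1098 (cons (fin 1033 3 1033)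
(mv 1162 (cons (fin 1161 1 1097)
(fin 1163 1 1098)))))))
(mv 1166 (cons (fin 1167 0 1099)
(mv 1098 (cons (fin 1165 0 1098)
(mv 1162 (cons (fin 1161 1 1097)
(fin 1163 1 1098))))))))
(cons (mv 1166 (cons (fin 1167 0 1099)
(mv 1098 (cons (fin 1165 0 1098)
(mv 1034 (cons (fin 1033 3 1033)
(fin 1035 3 1034)))))))
(mv 1166 (cons (fin 1167 0 1099)
(mv 1163 (cons (fin 1162 1 1098)
(mv 1230 (cons (fin 1294 7 1037)
(mv 1035 (cons (fin 1034 3 1034)
(mv 1164 (cons (mv 971 (cons (fin 907 4 907)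
(fin 1228 4 971)))
(cons (mv 1165 (cons (fin 1231 0 1163)
(mv 1226 (cons (fin 1227 1 1162)
(mv 971 (cons (fin 907 4 907)
(mv 972 (cons (fin 908 6 907)
(mv 970 (cons (fin 906 7 906)
(mv 1036 (cons (fin 969 0 969)
(fin 1229 7 972)))))))))))))
(mv 1228 (cons (fin 1292 7 1035)
(mv 1231 (cons (fin 1229 3 1163)
(fin 1165 0 1163)))))))))))))))))))
(mv 1103 (cons (fin 1039 2 1036)
(mv 1163 (cons (fin 1164 1 1099)
(mv 1099 (cons (fin 1162 1 1098)
(mv 1167 (cons (fin 1166 0 1099)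
(fin 1168 0 1100))))))))))))
(mv 1228 (cons (cons (cons (mv 1164 (cons (fin 1292 6 1036)
(mv 1036 (cons (cons (mv 971 (cons (fin 1035 7 971)
(mv 972 (cons (fin 907 7 907)
(mv 1229 (cons (fin 1165 7 972)
(fin 1293 4 1036)))))))
(mv 971 (cons (fin 1035 7 971)
(mv 972 (cons (fin 907 7 907)
(mv 1227 (cons (fin 1163 5 971)
(fin 1291 5 1035))))))))
(cons (mv 1227 (cons (fin 1291 5 1035)
(mv 972 (cons (fin 1163 5 971)
(mv 1229 (cons (fin 1165 7 972)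
(fin 1293 4 1036)))))))
(mv 1229 (cons (fin 1293 4 1036)
(mv 1035 (cons (fin 971 7 971)
(mv 1227 (cons (fin 1291 5 1035)
(mv 1034 (cons (fin 1033 0 1033)
(mv 1097 (cons (fin 1098 1 1033)
(mv 970 (cons (fin 969 3 969)
(mv 1163 (cons (fin 1099 7 970)
(mv 1162 (cons (fin 1230 3 1162)
(fin 1161 2 1097))))))))))))))))))))))
(cons (mv 1229 (cons (cons (cons (mv 1036 (cons (cons (mv 1165 (cons (fin 972 7 972)
(fin 1293 7 1036)))
(mv 1164 (cons (fin 1293 4 1036)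
(mv 1227 (cons (fin 1291 5 1035)
(mv 972 (cons (fin 1163 5 971)
(mv 971 (cons (fin 907 7 907)
(fin 1035 7 971))))))))))
(cons (mv 972 (cons (fin 1165 7 972)
(mv 908 (cons (fin 844 4 844)
(mv 845 (cons (fin 909 6 844)
(mv 1099 (cons (fin 1163 5 907)
(mv 1098 (cons (fin 1097 2 1033)
(mv 907 (cons (fin 843 7 843)
(mv 1033 (cons (fin 1034 3 1033)
(mv 971 (cons (fin 1164 7 907)
(mv 1162 (cons (fin 1161 1 1097)
(fin 1035 5 906)))))))))))))))))))
(mv 1293 (cons (fin 1165 7 1036)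
(fin 1164 4 1036))))))
(mv 1164 (cons (cons (mv 1036 (cons (fin 1293 4 1036)
(mv 1227 (cons (fin 1291 5 1035)
(mv 972 (cons (fin 1163 5 971)
(mv 971 (cons (fin 907 7 907)
(fin 1035 7 971)))))))))
(mv 1230 (cons (cons (mv 1163 (cons (fin 1231 3 1163)
(mv 1162 (cons (fin 1227 3 1162)
(fin 1161 2 1097)))))
(mv 1167 (cons (mv 1166 (cons (fin 1227 2 1163)
(mv 1168 (cons (fin 1169 1 1165)
(fin 1231 2 1164)))))
(cons (mv 1231 (cons (fin 1168 2 1164)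
(mv 1295 (cons (fin 1296 0 1228)
(mv 1103 (cons (fin 1104 6 1039)
(mv 1039 (cons (fin 1294 5 1038)
(fin 976 6 975)))))))))
(mv 1227 (cons (fin 1166 2 1163)
(mv 1290 (cons (fin 1291 1 1226)
(mv 1226 (cons (fin 1289 1 1225)
(mv 1294 (cons (fin 1293 0 1226)
(fin 1295 0 1227)))))))))))))
(cons (mv 1227 (cons (cons (mv 1162 (cons (fin 1163 3 1162)
(mv 1226 (cons (fin 1161 3 1161)
(mv 1290 (cons (fin 1289 1 1225)
(fin 1291 1 1226)))))))
(mv 1290 (cons (fin 1291 1 1226)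
(mv 1226 (cons (fin 1289 1 1225)
(mv 1294 (cons (fin 1293 0 1226)
(fin 1295 0 1227))))))))
(cons (mv 1166 (cons (fin 1167 2 1163)
(mv 1162 (cons (fin 1163 3 1162)
(mv 1226 (cons (fin 1161 3 1161)
(mv 1294 (cons (fin 1293 0 1226)
(fin 1295 0 1227)))))))))
(mv 1294 (cons (fin 1295 0 1227)
(mv 1291 (cons (fin 1290 1 1226)
(mv 1163 (cons (fin 1162 3 1162)
(fin 1355 6 1099))))))))))
(mv 1231 (cons (fin 1163 3 1163)
(mv 1167 (cons (fin 1168 2 1164)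
(mv 1295 (cons (fin 1296 0 1228)
(mv 1103 (cons (fin 1104 6 1039)
(mv 1039 (cons (fin 1294 5 1038)
(fin 976 6 975)))))))))))))))
(cons (mv 1227 (cons (cons (mv 1036 (cons (fin 1291 5 1035)
(mv 972 (cons (fin 1163 5 971)
(mv 971 (cons (fin 907 7 907)
(fin 1035 7 971)))))))
(mv 1163 (cons (mv 1230 (cons (fin 1162 3 1162)
(fin 1231 3 1163)))
(cons (mv 1036 (cons (fin 972 5 971)
(mv 1230 (cons (fin 1231 3 1163)
(mv 1294 (cons (fin 1295 0 1227)
(mv 1035 (cons (fin 971 7 971)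
(mv 1166 (cons (fin 1167 2 1163)
(mv 1034 (cons (fin 1033 0 1033)
(mv 970 (cons (fin 969 3 969)
(fin 1099 7 970)))))))))))))))
(mv 1161 (cons (fin 1162 2 1097)
(mv 1036 (cons (fin 972 5 971)
(mv 1035 (cons (fin 971 7 971)
(mv 1034 (cons (fin 1033 0 1033)
(mv 970 (cons (fin 969 3 969)
(fin 1099 7 970)))))))))))))))
(cons (mv 1230 (cons (mv 1163 (cons (fin 1162 3 1162)
(fin 1231 3 1163)))
(cons (mv 1295 (cons (fin 1294 0 1227)
(mv 1167 (cons (fin 1166 2 1163)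
(mv 1231 (cons (fin 1168 2 1164)
(fin 1296 0 1228)))))))
(mv 1294 (cons (fin 1295 0 1227)
(mv 1162 (cons (fin 1163 3 1162)
(mv 1226 (cons (fin 1161 3 1161)
(mv 1290 (cons (fin 1289 1 1225)
(fin 1291 1 1226))))))))))))
(mv 1291 (cons (fin 1036 5 1035)
(mv 1230 (cons (fin 1290 1 1226)
(mv 1355 (cons (fin 1419 6 1163)
(mv 1295 (cons (fin 1294 0 1227)
(mv 1167 (cons (fin 1166 2 1163)
(mv 1231 (cons (fin 1168 2 1164)
(fin 1296 0 1228))))))))))))))))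
(cons (mv 1036 (cons (fin 1293 4 1036)
(mv 1227 (cons (fin 1291 5 1035)
(mv 1226 (cons (cons (mv 971 (cons (fin 1035 7 971)
(mv 907 (cons (fin 972 7 907)
(mv 1161 (cons (fin 1162 3 1161)
(mv 1225 (cons (fin 1160 3 1160)
(mv 1289 (cons (fin 1288 1 1224)
(fin 1290 1 1225)))))))))))
(cons (mv 1289 (cons (fin 1290 1 1225)
(mv 1225 (cons (fin 1288 1 1224)
(mv 1161 (cons (fin 1160 3 1160)
(fin 1162 3 1161)))))))
(mv 1035 (cons (fin 971 7 971)
(mv 1034 (cons (fin 1033 0 1033)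
(mv 1098 (cons (fin 1097 1 1033)
(mv 1289 (cons (fin 1290 1 1225)
(mv 1225 (cons (fin 1288 1 1224)
(fin 1162 5 1033)))))))))))))
(cons (cons (mv 1161 (cons (fin 1162 3 1161)
(mv 1225 (cons (fin 1160 3 1160)
(mv 1097 (cons (cons (mv 971 (cons (fin 1035 7 971)
(mv 907 (cons (fin 972 7 907)
(mv 1098 (cons (fin 1099 2 1033)
(mv 1033 (cons (fin 1290 4 1033)
(mv 970 (cons (fin 1034 6 969)
(mv 969 (cons (fin 906 6 905)
(mv 968 (cons (fin 908 2 904)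
(fin 904 7 904)))))))))))))))
(mv 1035 (cons (fin 971 7 971)
(mv 1098 (cons (fin 1034 1 1033)
(fin 1099 2 1033))))))
(cons (mv 1098 (cons (fin 1099 2 1033)
(mv 1033 (cons (fin 1290 4 1033)
(mv 970 (cons (fin 1034 6 969)
(mv 969 (cons (fin 906 6 905)
(mv 968 (cons (fin 904 7 904)
(fin 1032 7 968)))))))))))
(cons (mv 1033 (cons (fin 1290 4 1033)
(mv 1034 (cons (fin 1035 0 1033)
(fin 970 6 969)))))
(mv 971 (cons (fin 1035 7 971)
(mv 907 (cons (fin 972 7 907)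
(mv 1098 (cons (fin 1099 2 1033)
(mv 1033 (cons (fin 1290 4 1033)
(mv 968 (cons (fin 1032 7 968)
(mv 969 (cons (fin 904 7 904)
(mv 970 (cons (fin 908 2 904)
(fin 906 6 905)))))))))))))))))))))))
(mv 1035 (cons (fin 971 7 971)
(mv 1033 (cons (fin 1034 0 1033)
(mv 1225 (cons (mv 1289 (cons (fin 1288 1 1224)
(fin 1290 1 1225)))
(cons (mv 1160 (cons (fin 1161 3 1160)
(mv 1224 (cons (fin 1159 3 1159)
(mv 1288 (cons (fin 1287 1 1223)
(mv 1096 (cons (fin 1097 6 1032)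
(mv 1032 (cons (fin 969 6 968)
(mv 1031 (cons (fin 967 7 967)
(fin 1095 7 1031)))))))))))))
(mv 1161 (cons (fin 1160 3 1160)
(mv 1290 (cons (fin 1289 1 1225)
(fin 1097 4 1033)))))))))))))
(cons (mv 1161 (cons (fin 1162 3 1161)
(mv 1225 (cons (fin 1160 3 1160)
(mv 1035 (cons (fin 971 7 971)
(mv 1288 (cons (fin 1289 1 1224)
(mv 1224 (cons (fin 1287 1 1223)
(mv 1033 (cons (fin 1034 0 1033)
(fin 1097 5 1032)))))))))))))
(mv 1035 (cons (fin 971 7 971)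
(mv 1290 (cons (fin 1289 1 1225)
(mv 1033 (cons (fin 1034 0 1033)
(mv 1162 (cons (fin 1161 3 1161)
(mv 1098 (cons (fin 1097 7 1033)
(fin 1099 6 1034)))))))))))))))))))
(mv 1036 (cons (fin 1293 4 1036)
(mv 1099 (cons (cons (mv 971 (cons (fin 1035 7 971)
(mv 907 (cons (fin 972 7 907)
(mv 1098 (cons (fin 1097 2 1033)
(mv 1162 (cons (fin 1161 1 1097)
(mv 1034 (cons (fin 1033 3 1033)
(fin 970 6 906)))))))))))
(mv 1098 (cons (fin 1097 2 1033)
(mv 1162 (cons (fin 1161 1 1097)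
(mv 1034 (cons (fin 1033 3 1033)
(mv 970 (cons (mv 905 (cons (fin 969 7 905)
(mv 906 (cons (fin 841 7 841)
(fin 1163 4 906)))))
(cons (mv 969 (cons (fin 905 7 905)
(mv 971 (cons (fin 972 0 969)
(fin 907 6 906)))))
(mv 907 (cons (fin 971 6 906)
(mv 906 (cons (fin 843 6 842)
(fin 1163 4 906)))))))))))))))
(cons (mv 1098 (cons (fin 1097 2 1033)
(mv 1162 (cons (fin 1161 1 1097)
(mv 1034 (cons (fin 1033 3 1033)
(mv 970 (cons (mv 969 (cons (fin 1035 3 969)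
(fin 905 7 905)))
(cons (mv 906 (cons (fin 1163 4 906)
(mv 842 (cons (fin 1035 4 842)
(mv 843 (cons (fin 779 6 778)
(fin 907 6 842)))))))
(mv 906 (cons (fin 1163 4 906)
(mv 905 (cons (fin 841 7 841)
(fin 969 7 905))))))))))))))
(cons (mv 971 (cons (fin 1035 7 971)
(mv 972 (cons (fin 907 7 907)
(mv 908 (cons (fin 1163 5 907)
(fin 844 4 844)))))))
(mv 1035 (cons (fin 971 7 971)
(mv 1098 (cons (fin 1097 2 1033)
(mv 1034 (cons (fin 1033 3 1033)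
(mv 1161 (cons (fin 1162 1 1097)
(mv 970 (cons (fin 969 3 969)
(mv 906 (cons (fin 842 4 842)
(fin 1163 4 906))))))))))))))))))))))))
(cons (mv 1230 (cons (cons (mv 1294 (cons (fin 1165 4 1037)
(mv 1227 (cons (fin 1295 0 1227)
(mv 1226 (cons (fin 1293 0 1226)
(mv 1290 (cons (fin 1289 1 1225)
(fin 1291 1 1226)))))))))
(mv 1231 (cons (cons (mv 1163 (cons (fin 1164 3 1163)
(mv 1162 (cons (fin 1227 3 1162)
(mv 1295 (cons (fin 1296 0 1228)
(mv 1168 (cons (fin 1167 2 1164)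
(mv 1232 (cons (fin 1169 2 1165)
(fin 1104 5 1039)))))))))))
(mv 1164 (cons (fin 1163 3 1163)
(mv 1295 (cons (fin 1296 0 1228)
(mv 1232 (cons (fin 1165 3 1164)
(mv 1168 (cons (fin 1169 2 1165)
(fin 1104 5 1039))))))))))
(cons (mv 1167 (cons (fin 1168 2 1164)
(mv 1166 (cons (fin 1227 2 1163)
(mv 1295 (cons (fin 1296 0 1228)
(mv 1359 (cons (fin 1423 7 1166)
(mv 1103 (cons (fin 1104 6 1039)
(mv 1039 (cons (fin 975 5 974)
(fin 976 6 975)))))))))))))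
(cons (mv 1295 (cons (fin 1296 0 1228)
(mv 1163 (cons (fin 1164 3 1163)
(mv 1227 (cons (fin 1162 3 1162)
(mv 1290 (cons (fin 1291 1 1226)
(mv 1226 (cons (fin 1289 1 1225)
(mv 1166 (cons (fin 1165 2 1162)
(fin 1167 2 1163)))))))))))))
(mv 1163 (cons (fin 1164 3 1163)
(mv 1227 (cons (fin 1162 3 1162)
(mv 1167 (cons (fin 1166 2 1163)
(fin 1168 2 1164))))))))))))
(cons (mv 1227 (cons (cons (mv 1162 (cons (fin 1163 3 1162)
(mv 1161 (cons (fin 1226 3 1161)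
(mv 1295 (cons (fin 1294 0 1227)
(mv 1167 (cons (fin 1166 2 1163)
(mv 1231 (cons (fin 1168 2 1164)
(fin 1296 0 1228)))))))))))
(mv 1294 (cons (fin 1295 0 1227)
(mv 1226 (cons (fin 1293 0 1226)
(mv 1290 (cons (fin 1289 1 1225)
(fin 1291 1 1226))))))))
(cons (mv 1290 (cons (fin 1291 1 1226)
(mv 1226 (cons (fin 1289 1 1225)
(mv 1162 (cons (fin 1161 3 1161)
(fin 1163 3 1162)))))))
(mv 1162 (cons (fin 1163 3 1162)
(mv 1295 (cons (fin 1294 0 1227)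
(mv 1167 (cons (fin 1166 2 1163)
(mv 1231 (cons (fin 1168 2 1164)
(fin 1296 0 1228))))))))))))
(cons (mv 1165 (cons (fin 1294 4 1037)
(mv 1231 (cons (mv 1164 (cons (fin 1163 3 1163)
(fin 1232 3 1164)))
(cons (mv 1295 (cons (fin 1296 0 1228)
(mv 1168 (cons (fin 1167 2 1164)
(mv 1232 (cons (fin 1169 2 1165)
(fin 1104 5 1039)))))))
(mv 1167 (cons (fin 1168 2 1164)
(mv 1164 (cons (fin 1163 3 1163)
(mv 1295 (cons (fin 1296 0 1228)
(mv 1293 (cons (fin 1357 7 1100)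
(mv 1103 (cons (fin 1104 6 1039)
(mv 1039 (cons (fin 976 6 975)
(mv 1166 (cons (fin 1099 3 1099)
(fin 975 5 974))))))))))))))))))))
(mv 1165 (cons (fin 1294 4 1037)
(mv 1166 (cons (mv 1167 (cons (fin 1168 3 1100)
(fin 1227 2 1163)))
(cons (mv 1098 (cons (fin 1099 0 1098)
(mv 1227 (cons (fin 1226 2 1162)
(mv 1291 (cons (fin 1290 1 1226)
(mv 1163 (cons (fin 1162 3 1162)
(mv 1164 (cons (fin 1231 3 1163)
(fin 1355 6 1099)))))))))))
(mv 1167 (cons (fin 1168 3 1100)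
(mv 1099 (cons (fin 1164 3 1099)
(fin 1098 0 1098))))))))))))))
(mv 1036 (cons (cons (cons (mv 972 (cons (fin 1165 7 972)
(mv 908 (cons (fin 844 4 844)
(mv 845 (cons (fin 909 6 844)
(mv 1099 (cons (fin 1163 5 907)
(mv 1098 (cons (fin 1097 2 1033)
(mv 907 (cons (fin 843 7 843)
(mv 1033 (cons (fin 1034 3 1033)
(mv 971 (cons (fin 1164 7 907)
(mv 1162 (cons (fin 1161 1 1097)
(fin 1035 5 906)))))))))))))))))))
(mv 1164 (cons (cons (mv 1035 (cons (fin 971 7 971)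
(mv 1227 (cons (fin 1291 5 1035)
(mv 1034 (cons (fin 1033 0 1033)
(mv 1097 (cons (fin 1098 1 1033)
(mv 970 (cons (fin 969 3 969)
(mv 1163 (cons (fin 1099 7 970)
(mv 1162 (cons (fin 1230 3 1162)
(fin 1161 2 1097)))))))))))))))
(cons (mv 1227 (cons (fin 1291 5 1035)
(mv 1230 (cons (mv 1163 (cons (fin 1162 3 1162)
(fin 1231 3 1163)))
(mv 1294 (cons (fin 1295 0 1227)
(fin 1165 4 1037)))))))
(mv 1035 (cons (fin 971 7 971)
(mv 1034 (cons (fin 1033 0 1033)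
(mv 1098 (cons (fin 1097 1 1033)
(mv 969 (cons (fin 970 3 969)
(mv 1165 (cons (cons (mv 1099 (cons (fin 1166 0 1098)
(mv 1161 (cons (fin 1162 1 1097)
(mv 1230 (cons (fin 1294 4 1037)
(mv 1231 (cons (fin 1163 3 1163)
(fin 1232 3 1164)))))))))
(mv 1230 (cons (fin 1294 4 1037)
(mv 1163 (cons (fin 1231 3 1163)
(fin 1162 0 1162))))))
(cons (mv 1099 (cons (fin 1166 0 1098)
(mv 1162 (cons (fin 1161 1 1097)
(mv 1226 (cons (fin 1290 6 1034)
(mv 1225 (cons (fin 1163 1 1161)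
(fin 1289 5 1033)))))))))
(mv 1166 (cons (fin 1099 0 1098)
(mv 1230 (cons (fin 1294 4 1037)
(mv 1231 (cons (fin 1232 3 1164)
(mv 1167 (cons (fin 1168 3 1100)
(mv 1103 (cons (fin 1104 2 1100)
(mv 1039 (cons (fin 975 5 974)
(fin 976 6 975))))))))))))))))))))))))))
(cons (mv 971 (cons (fin 1035 7 971)
(mv 1227 (cons (fin 1291 5 1035)
(mv 1230 (cons (mv 1294 (cons (fin 1295 0 1227)
(fin 1165 4 1037)))
(cons (mv 1166 (cons (fin 1167 2 1163)
(mv 1226 (cons (fin 1165 2 1162)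
(mv 1289 (cons (fin 1290 1 1225)
(mv 1225 (cons (fin 1288 1 1224)
(mv 1161 (cons (fin 1160 3 1160)
(fin 1162 3 1161)))))))))))
(mv 1167 (cons (fin 1166 2 1163)
(mv 1295 (cons (fin 1294 0 1227)
(mv 1231 (cons (fin 1168 2 1164)
(fin 1296 0 1228))))))))))))))
(cons (mv 1227 (cons (fin 1291 5 1035)
(mv 1035 (cons (fin 971 7 971)
(mv 1034 (cons (fin 1033 0 1033)
(mv 1098 (cons (fin 1097 1 1033)
(mv 970 (cons (fin 969 3 969)
(mv 1163 (cons (fin 1099 7 970)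
(fin 1162 4 970)))))))))))))
(mv 1035 (cons (fin 971 7 971)
(mv 1227 (cons (fin 1291 5 1035)
(mv 1034 (cons (fin 1033 0 1033)
(mv 1097 (cons (fin 1098 1 1033)
(mv 970 (cons (fin 969 3 969)
(mv 1163 (cons (fin 1099 7 970)
(mv 1230 (cons (fin 1231 3 1163)
(mv 1294 (cons (fin 1295 0 1227)
(fin 1165 4 1037))))))))))))))))))))))
(cons (mv 1035 (cons (cons (mv 1033 (cons (fin 1034 0 1033)
(mv 1164 (cons (fin 971 7 971)
(mv 1227 (cons (fin 1291 5 1035)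
(mv 1163 (cons (fin 972 5 971)
(mv 1162 (cons (fin 1230 3 1162)
(fin 1161 2 1097)))))))))))
(mv 1164 (cons (fin 971 7 971)
(mv 1227 (cons (fin 1291 5 1035)
(mv 1163 (cons (fin 972 5 971)
(mv 1162 (cons (fin 1230 3 1162)
(fin 1161 2 1097))))))))))
(cons (mv 1034 (cons (fin 1033 0 1033)
(mv 1098 (cons (fin 1097 1 1033)
(mv 970 (cons (fin 969 3 969)
(mv 1162 (cons (mv 1161 (cons (fin 1099 1 1097)
(fin 1225 5 969)))
(mv 971 (cons (fin 907 6 906)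
(fin 1226 6 970)))))))))))
(cons (mv 1034 (cons (fin 1033 0 1033)
(mv 1097 (cons (fin 1098 1 1033)
(mv 970 (cons (fin 969 3 969)
(mv 1227 (cons (cons (mv 1099 (cons (fin 1163 7 970)
(mv 1291 (cons (fin 1164 5 1035)
(mv 842 (cons (fin 906 4 842)
(mv 1230 (cons (fin 1290 1 1226)
(mv 1167 (cons (fin 1166 2 1163)
(mv 1295 (cons (fin 1294 0 1227)
(mv 1231 (cons (fin 1168 2 1164)
(fin 1296 0 1228)))))))))))))))
(mv 1291 (cons (fin 1164 5 1035)
(mv 1230 (cons (fin 1290 1 1226)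
(mv 1167 (cons (fin 1166 2 1163)
(mv 1295 (cons (fin 1294 0 1227)
(mv 1231 (cons (fin 1168 2 1164)
(fin 1296 0 1228))))))))))))
(cons (mv 1163 (cons (fin 1099 7 970)
(mv 1162 (cons (fin 1230 3 1162)
(mv 1161 (cons (fin 1226 3 1161)
(fin 1164 2 1097)))))))
(cons (mv 1163 (cons (fin 1099 7 970)
(mv 1162 (cons (fin 1230 3 1162)
(mv 1161 (cons (fin 1226 3 1161)
(fin 1160 0 1160)))))))
(mv 1163 (cons (fin 1099 7 970)
(mv 1164 (cons (fin 972 5 971)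
(fin 1291 5 1035)))))))))))))))
(mv 1034 (cons (fin 1033 0 1033)
(mv 1164 (cons (fin 971 7 971)
(mv 970 (cons (fin 969 3 969)
(mv 1227 (cons (fin 1291 5 1035)
(mv 1163 (cons (fin 1099 7 970)
(fin 972 5 971)))))))))))))))
(mv 972 (cons (fin 1165 7 972)
(mv 908 (cons (fin 844 4 844)
(mv 845 (cons (fin 909 6 844)
(mv 1099 (cons (fin 1163 5 907)
(mv 1098 (cons (fin 1097 2 1033)
(mv 907 (cons (fin 843 7 843)
(mv 1034 (cons (fin 1033 3 1033)
(mv 1162 (cons (fin 1161 1 1097)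
(mv 971 (cons (fin 1035 5 906)
(fin 970 6 906)))))))))))))))))))))
(cons (cons (mv 972 (cons (fin 1165 7 972)
(mv 908 (cons (fin 844 4 844)
(mv 845 (cons (fin 909 6 844)
(mv 1099 (cons (fin 1163 5 907)
(mv 1098 (cons (fin 1097 2 1033)
(mv 907 (cons (fin 843 7 843)
(mv 1034 (cons (fin 1033 3 1033)
(mv 971 (cons (fin 1164 7 907)
(mv 970 (cons (fin 969 0 969)
(fin 1162 6 906)))))))))))))))))))
(mv 972 (cons (fin 1165 7 972)
(mv 908 (cons (fin 844 4 844)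
(mv 845 (cons (fin 909 6 844)
(mv 907 (cons (fin 843 7 843)
(mv 1164 (cons (fin 971 7 907)
(mv 1227 (cons (fin 1163 5 971)
(fin 1291 5 1035))))))))))))))
(cons (mv 972 (cons (fin 1165 7 972)
(mv 908 (cons (fin 844 4 844)
(mv 845 (cons (fin 909 6 844)
(mv 1163 (cons (fin 1099 5 907)
(mv 843 (cons (fin 907 7 843)
(mv 1227 (cons (fin 1164 5 971)
(mv 1162 (cons (fin 1230 3 1162)
(mv 1161 (cons (fin 1226 3 1161)
(fin 1160 0 1160)))))))))))))))))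
(mv 972 (cons (fin 1165 7 972)
(mv 908 (cons (fin 844 4 844)
(mv 909 (cons (fin 845 6 844)
(mv 907 (cons (fin 843 7 843)
(mv 971 (cons (fin 1164 7 907)
(mv 970 (cons (fin 910 1 906)
(fin 969 2 905)))))))))))))))))))
(cons (cons (mv 1165 (cons (mv 1036 (cons (fin 972 7 972)
(fin 1293 7 1036)))
(mv 1230 (cons (fin 1294 4 1037)
(mv 1231 (cons (cons (mv 1167 (cons (fin 1168 2 1164)
(mv 1166 (cons (fin 1227 2 1163)
(mv 1098 (cons (fin 1099 0 1098)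
(mv 1232 (cons (fin 1233 3 1165)
(mv 1296 (cons (fin 1295 0 1228)
(fin 1297 0 1229)))))))))))
(mv 1296 (cons (fin 1295 0 1228)
(mv 1232 (cons (fin 1297 0 1229)
(mv 1169 (cons (fin 1168 2 1165)
(mv 1233 (cons (fin 1166 3 1165)
(fin 1170 2 1166))))))))))
(cons (mv 1296 (cons (fin 1295 0 1228)
(mv 1232 (cons (fin 1297 0 1229)
(mv 1166 (cons (fin 1233 3 1165)
(mv 1227 (cons (fin 1226 2 1162)
(fin 1167 2 1163)))))))))
(cons (mv 1167 (cons (fin 1168 2 1164)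
(mv 1227 (cons (fin 1166 2 1163)
(mv 1290 (cons (fin 1291 1 1226)
(mv 1226 (cons (fin 1289 1 1225)
(mv 1162 (cons (fin 1161 3 1161)
(fin 1163 3 1162)))))))))))
(mv 1295 (cons (fin 1296 0 1228)
(mv 1168 (cons (fin 1167 2 1164)
(mv 1232 (cons (fin 1169 2 1165)
(fin 1104 5 1039)))))))))))))))
(mv 1165 (cons (mv 1036 (cons (fin 972 7 972)
(fin 1293 7 1036)))
(cons (mv 1230 (cons (fin 1294 4 1037)
(mv 1231 (cons (mv 1164 (cons (fin 1163 3 1163)
(fin 1232 3 1164)))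
(cons (mv 1295 (cons (fin 1296 0 1228)
(mv 1168 (cons (fin 1167 2 1164)
(mv 1232 (cons (fin 1169 2 1165)
(fin 1104 5 1039)))))))
(mv 1167 (cons (fin 1168 2 1164)
(mv 1164 (cons (fin 1163 3 1163)
(mv 1295 (cons (fin 1296 0 1228)
(mv 1293 (cons (fin 1357 7 1100)
(mv 1103 (cons (fin 1104 6 1039)
(mv 1039 (cons (fin 976 6 975)
(mv 1166 (cons (fin 1099 3 1099)
(fin 975 5 974))))))))))))))))))))
(mv 1230 (cons (fin 1294 4 1037)
(mv 972 (cons (fin 1036 7 972)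
(mv 1231 (cons (mv 1164 (cons (fin 1163 3 1163)
(fin 1232 3 1164)))
(cons (mv 1295 (cons (fin 1296 0 1228)
(mv 1168 (cons (fin 1167 2 1164)
(mv 1232 (cons (fin 1169 2 1165)
(fin 1104 5 1039)))))))
(mv 1167 (cons (fin 1168 2 1164)
(mv 1164 (cons (fin 1163 3 1163)
(mv 1295 (cons (fin 1296 0 1228)
(mv 1166 (cons (fin 1099 3 1099)
(mv 1103 (cons (fin 1104 2 1100)
(mv 1039 (cons (fin 975 5 974)
(fin 976 6 975))))))))))))))))))))))))
(cons (mv 1165 (cons (mv 1036 (cons (fin 972 7 972)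
(fin 1293 7 1036)))
(cons (mv 1230 (cons (fin 1294 4 1037)
(mv 1164 (cons (mv 1231 (cons (fin 1163 3 1163)
(fin 1232 3 1164)))
(cons (mv 1293 (cons (fin 1357 7 1100)
(mv 1231 (cons (fin 1232 3 1164)
(mv 1167 (cons (fin 1168 2 1164)
(mv 1166 (cons (fin 1227 1 1163)
(mv 1103 (cons (fin 1104 2 1100)
(mv 1039 (cons (fin 975 5 974)
(fin 976 6 975)))))))))))))
(mv 1163 (cons (fin 1162 0 1162)
(mv 1293 (cons (fin 1357 7 1100)
(mv 1227 (cons (mv 1166 (cons (fin 1226 1 1162)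
(fin 1167 1 1163)))
(mv 1291 (cons (fin 1290 1 1226)
(fin 1355 6 1099))))))))))))))
(mv 1230 (cons (fin 1294 4 1037)
(mv 972 (cons (fin 1036 7 972)
(mv 1231 (cons (mv 1164 (cons (fin 1163 3 1163)
(fin 1232 3 1164)))
(cons (mv 1295 (cons (fin 1296 0 1228)
(mv 1167 (cons (fin 1168 2 1164)
(mv 1166 (cons (fin 1227 2 1163)
(mv 1359 (cons (fin 1423 7 1166)
(mv 1232 (cons (fin 1233 3 1165)
(mv 1360 (cons (fin 1424 4 1167)
(mv 1358 (cons (fin 1422 5 1166)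
(mv 1103 (cons (fin 1104 6 1039)
(mv 1039 (cons (fin 975 5 974)
(fin 976 6 975)))))))))))))))))))
(mv 1167 (cons (fin 1168 2 1164)
(mv 1166 (cons (fin 1227 2 1163)
(mv 1163 (cons (fin 1164 3 1163)
(mv 1295 (cons (fin 1296 0 1228)
(mv 1359 (cons (fin 1423 7 1166)
(mv 1103 (cons (fin 1104 6 1039)
(mv 1039 (cons (fin 975 5 974)
(fin 976 6 975)))))))))))))))))))))))))
(mv 1165 (cons (mv 1036 (cons (fin 972 7 972)
(fin 1293 7 1036)))
(mv 1230 (cons (fin 1294 4 1037)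
(mv 1167 (cons (mv 1166 (cons (fin 1168 3 1100)
(fin 1227 2 1163)))
(cons (mv 1231 (cons (fin 1168 2 1164)
(mv 1232 (cons (fin 1164 3 1164)
(mv 1296 (cons (fin 1295 0 1228)
(fin 1297 0 1229)))))))
(mv 1166 (cons (fin 1227 2 1163)
(mv 1099 (cons (fin 1164 3 1099)
(fin 1098 0 1098))))))))))))))))
(mv 1229 (cons (cons (mv 1165 (cons (fin 1292 5 1036)
(mv 1036 (cons (fin 972 7 972)
(fin 1293 7 1036)))))
(mv 1230 (cons (cons (cons (mv 1227 (cons (cons (mv 1162 (cons (fin 1163 3 1162)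
(mv 1161 (cons (fin 1226 3 1161)
(mv 1294 (cons (fin 1295 0 1227)
(mv 1098 (cons (fin 1099 1 1097)
(mv 1167 (cons (fin 1166 2 1163)
(mv 1291 (cons (fin 1290 1 1226)
(mv 1231 (cons (fin 1292 1 1227)
(fin 1168 2 1164)))))))))))))))
(mv 1166 (cons (fin 1167 2 1163)
(mv 1294 (cons (fin 1295 0 1227)
(mv 1226 (cons (fin 1293 0 1226)
(mv 1162 (cons (fin 1161 3 1161)
(fin 1163 3 1162))))))))))
(cons (mv 1162 (cons (fin 1163 3 1162)
(mv 1161 (cons (fin 1226 3 1161)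
(mv 1167 (cons (fin 1166 2 1163)
(mv 1098 (cons (fin 1099 1 1097)
(mv 1231 (cons (fin 1168 2 1164)
(mv 1291 (cons (fin 1290 1 1226)
(fin 1292 1 1227)))))))))))))
(cons (mv 1290 (cons (fin 1291 1 1226)
(mv 1226 (cons (fin 1289 1 1225)
(mv 1294 (cons (fin 1293 0 1226)
(fin 1295 0 1227)))))))
(mv 1294 (cons (fin 1295 0 1227)
(mv 1162 (cons (fin 1163 3 1162)
(mv 1291 (cons (fin 1290 1 1226)
(mv 1167 (cons (fin 1166 2 1163)
(mv 1231 (cons (fin 1292 1 1227)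
(fin 1168 2 1164)))))))))))))))
(mv 1231 (cons (cons (mv 1291 (cons (fin 1292 1 1227)
(mv 1295 (cons (fin 1296 0 1228)
(mv 1167 (cons (fin 1168 2 1164)
(mv 1103 (cons (fin 1104 6 1039)
(mv 1039 (cons (fin 1294 5 1038)
(fin 976 6 975)))))))))))
(mv 1292 (cons (fin 1291 1 1227)
(mv 1296 (cons (fin 1295 0 1228)
(mv 1232 (cons (fin 1293 1 1228)
(fin 1297 0 1229))))))))
(cons (mv 1167 (cons (fin 1168 2 1164)
(mv 1295 (cons (fin 1296 0 1228)
(mv 1103 (cons (fin 1104 6 1039)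
(mv 1039 (cons (fin 1294 5 1038)
(fin 976 6 975)))))))))
(mv 1292 (cons (fin 1291 1 1227)
(mv 1168 (cons (fin 1167 2 1164)
(mv 1232 (cons (fin 1293 1 1228)
(fin 1169 2 1165)))))))))))
(cons (mv 1227 (cons (cons (mv 1162 (cons (fin 1163 3 1162)
(mv 1226 (cons (fin 1161 3 1161)
(mv 1290 (cons (fin 1289 1 1225)
(fin 1291 1 1226)))))))
(mv 1166 (cons (fin 1167 2 1163)
(mv 1162 (cons (fin 1163 3 1162)
(mv 1226 (cons (fin 1161 3 1161)
(mv 1294 (cons (fin 1293 0 1226)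
(fin 1295 0 1227))))))))))
(cons (mv 1294 (cons (fin 1295 0 1227)
(mv 1226 (cons (fin 1293 0 1226)
(mv 1290 (cons (fin 1289 1 1225)
(fin 1291 1 1226)))))))
(mv 1166 (cons (fin 1167 2 1163)
(mv 1163 (cons (fin 1162 3 1162)
(mv 1294 (cons (fin 1295 0 1227)
(mv 1291 (cons (fin 1290 1 1226)
(mv 1099 (cons (fin 1036 6 1035)
(mv 1292 (cons (fin 1035 4 1035)
(fin 1356 4 1099))))))))))))))))
(mv 1227 (cons (cons (mv 1162 (cons (fin 1163 3 1162)
(mv 1161 (cons (fin 1226 3 1161)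
(mv 1167 (cons (fin 1166 2 1163)
(mv 1098 (cons (fin 1099 1 1097)
(mv 1231 (cons (fin 1168 2 1164)
(mv 1291 (cons (fin 1290 1 1226)
(fin 1292 1 1227)))))))))))))
(cons (mv 1162 (cons (fin 1163 3 1162)
(mv 1226 (cons (fin 1161 3 1161)
(mv 1166 (cons (fin 1167 2 1163)
(mv 1293 (cons (fin 1294 0 1226)
(mv 1225 (cons (fin 1292 0 1225)
(mv 1289 (cons (fin 1288 1 1224)
(fin 1290 1 1225)))))))))))))
(mv 1166 (cons (fin 1167 2 1163)
(mv 1162 (cons (fin 1163 3 1162)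
(mv 1226 (cons (fin 1161 3 1161)
(mv 1293 (cons (fin 1294 0 1226)
(mv 1292 (cons (fin 1225 0 1225)
(mv 1231 (cons (fin 1291 1 1227)
(fin 1232 1 1228)))))))))))))))
(cons (mv 1290 (cons (fin 1291 1 1226)
(mv 1226 (cons (fin 1289 1 1225)
(mv 1167 (cons (fin 1166 2 1163)
(mv 1293 (cons (fin 1294 0 1226)
(mv 1292 (cons (fin 1225 0 1225)
(mv 1231 (cons (fin 1232 1 1228)
(fin 1168 2 1164)))))))))))))
(cons (mv 1162 (cons (fin 1163 3 1162)
(mv 1226 (cons (fin 1161 3 1161)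
(mv 1290 (cons (fin 1289 1 1225)
(fin 1291 1 1226)))))))
(mv 1291 (cons (fin 1290 1 1226)
(mv 1166 (cons (fin 1167 2 1163)
(mv 1292 (cons (fin 1231 1 1227)
(mv 1163 (cons (fin 1162 3 1162)
(mv 1099 (cons (fin 1036 6 1035)
(fin 1035 4 1035)))))))))))))))))
(cons (cons (mv 1167 (cons (mv 1166 (cons (fin 1227 2 1163)
(mv 1168 (cons (fin 1169 1 1165)
(fin 1231 2 1164)))))
(cons (mv 1231 (cons (fin 1168 2 1164)
(mv 1295 (cons (fin 1296 0 1228)
(mv 1103 (cons (fin 1104 6 1039)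
(mv 1039 (cons (fin 1294 5 1038)
(fin 976 6 975)))))))))
(mv 1227 (cons (fin 1166 2 1163)
(mv 1162 (cons (fin 1163 3 1162)
(mv 1226 (cons (fin 1161 3 1161)
(mv 1294 (cons (fin 1293 0 1226)
(fin 1295 0 1227))))))))))))
(mv 1227 (cons (cons (mv 1162 (cons (fin 1163 3 1162)
(mv 1161 (cons (fin 1226 3 1161)
(mv 1295 (cons (fin 1294 0 1227)
(mv 1098 (cons (fin 1099 1 1097)
(mv 1231 (cons (fin 1296 0 1228)
(mv 1291 (cons (fin 1290 1 1226)
(fin 1292 1 1227)))))))))))))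
(mv 1162 (cons (fin 1163 3 1162)
(mv 1226 (cons (fin 1161 3 1161)
(mv 1294 (cons (fin 1293 0 1226)
(fin 1295 0 1227))))))))
(cons (mv 1290 (cons (fin 1291 1 1226)
(mv 1226 (cons (fin 1289 1 1225)
(mv 1162 (cons (fin 1161 3 1161)
(fin 1163 3 1162)))))))
(cons (mv 1294 (cons (fin 1295 0 1227)
(mv 1226 (cons (fin 1293 0 1226)
(mv 1290 (cons (fin 1289 1 1225)
(fin 1291 1 1226)))))))
(mv 1291 (cons (fin 1290 1 1226)
(mv 1162 (cons (fin 1163 3 1162)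
(mv 1231 (cons (fin 1292 1 1227)
(mv 1295 (cons (fin 1294 0 1227)
(fin 1296 0 1228))))))))))))))
(cons (mv 1231 (cons (cons (mv 1291 (cons (fin 1292 1 1227)
(mv 1227 (cons (fin 1290 1 1226)
(mv 1167 (cons (fin 1166 2 1163)
(fin 1168 2 1164)))))))
(mv 1295 (cons (fin 1296 0 1228)
(mv 1292 (cons (fin 1291 1 1227)
(mv 1232 (cons (fin 1293 1 1228)
(mv 1168 (cons (fin 1169 2 1165)
(fin 1104 5 1039))))))))))
(cons (mv 1292 (cons (fin 1291 1 1227)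
(mv 1296 (cons (fin 1295 0 1228)
(mv 1232 (cons (fin 1293 1 1228)
(fin 1297 0 1229)))))))
(mv 1167 (cons (fin 1168 2 1164)
(mv 1166 (cons (fin 1227 2 1163)
(mv 1295 (cons (fin 1296 0 1228)
(mv 1359 (cons (fin 1423 7 1166)
(mv 1103 (cons (fin 1104 6 1039)
(mv 1039 (cons (fin 975 5 974)
(fin 976 6 975))))))))))))))))
(mv 1227 (cons (mv 1162 (cons (fin 1163 3 1162)
(mv 1161 (cons (fin 1226 3 1161)
(mv 1294 (cons (fin 1295 0 1227)
(mv 1098 (cons (fin 1099 1 1097)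
(mv 1167 (cons (fin 1166 2 1163)
(mv 1291 (cons (fin 1290 1 1226)
(mv 1231 (cons (fin 1292 1 1227)
(fin 1168 2 1164)))))))))))))))
(cons (mv 1167 (cons (fin 1166 2 1163)
(mv 1295 (cons (fin 1294 0 1227)
(mv 1231 (cons (fin 1168 2 1164)
(fin 1296 0 1228)))))))
(mv 1290 (cons (fin 1291 1 1226)
(mv 1226 (cons (fin 1289 1 1225)
(mv 1162 (cons (fin 1161 3 1161)
(fin 1163 3 1162)))))))))))))))
(cons (mv 1165 (cons (mv 1036 (cons (fin 972 7 972)
(fin 1293 7 1036)))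
(mv 1230 (cons (fin 1294 4 1037)
(mv 1231 (cons (cons (mv 1167 (cons (fin 1168 2 1164)
(mv 1166 (cons (fin 1227 2 1163)
(mv 1098 (cons (fin 1099 0 1098)
(mv 1232 (cons (fin 1233 3 1165)
(mv 1296 (cons (fin 1295 0 1228)
(fin 1297 0 1229)))))))))))
(mv 1296 (cons (fin 1295 0 1228)
(mv 1232 (cons (fin 1297 0 1229)
(mv 1169 (cons (fin 1168 2 1165)
(mv 1233 (cons (fin 1166 3 1165)
(fin 1170 2 1166))))))))))
(cons (mv 1296 (cons (fin 1295 0 1228)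
(mv 1232 (cons (fin 1297 0 1229)
(mv 1166 (cons (fin 1233 3 1165)
(mv 1227 (cons (fin 1226 2 1162)
(fin 1167 2 1163)))))))))
(cons (mv 1167 (cons (fin 1168 2 1164)
(mv 1227 (cons (fin 1166 2 1163)
(mv 1290 (cons (fin 1291 1 1226)
(mv 1226 (cons (fin 1289 1 1225)
(mv 1162 (cons (fin 1161 3 1161)
(fin 1163 3 1162)))))))))))
(mv 1295 (cons (fin 1296 0 1228)
(mv 1168 (cons (fin 1167 2 1164)
(mv 1232 (cons (fin 1169 2 1165)
(fin 1104 5 1039)))))))))))))))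
(mv 1165 (cons (fin 1292 5 1036)
(mv 1230 (cons (fin 1294 4 1037)
(mv 1231 (cons (cons (mv 1167 (cons (fin 1168 2 1164)
(mv 1166 (cons (fin 1227 2 1163)
(mv 1098 (cons (fin 1099 0 1098)
(mv 1232 (cons (fin 1233 3 1165)
(mv 1296 (cons (fin 1295 0 1228)
(fin 1297 0 1229)))))))))))
(mv 1296 (cons (fin 1295 0 1228)
(mv 1232 (cons (fin 1297 0 1229)
(mv 1169 (cons (fin 1168 2 1165)
(mv 1233 (cons (fin 1166 3 1165)
(fin 1170 2 1166))))))))))
(cons (mv 1296 (cons (fin 1295 0 1228)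
(mv 1232 (cons (fin 1297 0 1229)
(mv 1166 (cons (fin 1233 3 1165)
(mv 1227 (cons (fin 1226 2 1162)
(fin 1167 2 1163)))))))))
(cons (mv 1167 (cons (fin 1168 2 1164)
(mv 1227 (cons (fin 1166 2 1163)
(mv 1290 (cons (fin 1291 1 1226)
(mv 1226 (cons (fin 1289 1 1225)
(mv 1162 (cons (fin 1161 3 1161)
(fin 1163 3 1162)))))))))))
(mv 1295 (cons (fin 1296 0 1228)
(mv 1168 (cons (fin 1167 2 1164)
(mv 1232 (cons (fin 1169 2 1165)
(fin 1104 5 1039))))))))))))))))))))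
(cons (mv 1164 (cons (fin 1292 6 1036)
(mv 1036 (cons (cons (mv 971 (cons (fin 1035 7 971)
(mv 972 (cons (fin 907 7 907)
(mv 1227 (cons (fin 1163 5 971)
(fin 1291 5 1035)))))))
(cons (mv 1229 (cons (fin 1293 4 1036)
(mv 1227 (cons (fin 1291 5 1035)
(mv 972 (cons (fin 1163 5 971)
(mv 907 (cons (fin 971 7 907)
(mv 908 (cons (fin 843 7 843)
(fin 844 4 844)))))))))))
(mv 1227 (cons (fin 1291 5 1035)
(mv 1163 (cons (fin 972 5 971)
(mv 1229 (cons (fin 1293 4 1036)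
(mv 1162 (cons (fin 1230 3 1162)
(fin 1161 2 1097)))))))))))
(cons (mv 1229 (cons (fin 1293 4 1036)
(mv 1099 (cons (cons (mv 971 (cons (fin 1035 7 971)
(mv 907 (cons (fin 972 7 907)
(mv 1098 (cons (fin 1097 2 1033)
(mv 1162 (cons (fin 1161 1 1097)
(mv 1034 (cons (fin 1033 3 1033)
(fin 970 6 906)))))))))))
(mv 1098 (cons (fin 1097 2 1033)
(mv 1162 (cons (fin 1161 1 1097)
(mv 1034 (cons (fin 1033 3 1033)
(mv 970 (cons (mv 905 (cons (fin 969 7 905)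
(mv 906 (cons (fin 841 7 841)
(fin 1163 4 906)))))
(cons (mv 969 (cons (fin 905 7 905)
(mv 971 (cons (fin 972 0 969)
(fin 907 6 906)))))
(mv 907 (cons (fin 971 6 906)
(mv 906 (cons (fin 843 6 842)
(fin 1163 4 906)))))))))))))))
(cons (mv 1098 (cons (fin 1097 2 1033)
(mv 1162 (cons (fin 1161 1 1097)
(mv 1034 (cons (fin 1033 3 1033)
(mv 970 (cons (mv 969 (cons (fin 1035 3 969)
(fin 905 7 905)))
(cons (mv 906 (cons (fin 1163 4 906)
(mv 842 (cons (fin 1035 4 842)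
(mv 843 (cons (fin 779 6 778)
(fin 907 6 842)))))))
(mv 906 (cons (fin 1163 4 906)
(mv 905 (cons (fin 841 7 841)
(fin 969 7 905))))))))))))))
(cons (mv 971 (cons (fin 1035 7 971)
(mv 972 (cons (fin 907 7 907)
(mv 908 (cons (fin 1163 5 907)
(fin 844 4 844)))))))
(mv 1035 (cons (fin 971 7 971)
(mv 1098 (cons (fin 1097 2 1033)
(mv 1034 (cons (fin 1033 3 1033)
(mv 1161 (cons (fin 1162 1 1097)
(mv 970 (cons (fin 969 3 969)
(mv 906 (cons (fin 842 4 842)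
(fin 1163 4 906)))))))))))))))))))
(cons (mv 1035 (cons (fin 971 7 971)
(mv 1227 (cons (fin 1291 5 1035)
(mv 1034 (cons (fin 1033 0 1033)
(mv 1229 (cons (fin 1293 4 1036)
(mv 970 (cons (fin 969 3 969)
(mv 1097 (cons (fin 1098 1 1033)
(mv 1163 (cons (fin 1099 7 970)
(mv 1162 (cons (fin 1230 3 1162)
(fin 1161 2 1097)))))))))))))))))
(mv 1229 (cons (fin 1293 4 1036)
(mv 1227 (cons (fin 1291 5 1035)
(mv 1226 (cons (cons (mv 971 (cons (fin 1035 7 971)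
(mv 907 (cons (fin 972 7 907)
(mv 1161 (cons (fin 1162 3 1161)
(mv 1225 (cons (fin 1160 3 1160)
(mv 1289 (cons (fin 1288 1 1224)
(fin 1290 1 1225)))))))))))
(cons (mv 1289 (cons (fin 1290 1 1225)
(mv 1225 (cons (fin 1288 1 1224)
(mv 1161 (cons (fin 1160 3 1160)
(fin 1162 3 1161)))))))
(mv 1035 (cons (fin 971 7 971)
(mv 1034 (cons (fin 1033 0 1033)
(mv 1098 (cons (fin 1097 1 1033)
(mv 1289 (cons (fin 1290 1 1225)
(mv 1225 (cons (fin 1288 1 1224)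
(fin 1162 5 1033)))))))))))))
(cons (cons (mv 1161 (cons (fin 1162 3 1161)
(mv 1225 (cons (fin 1160 3 1160)
(mv 1097 (cons (cons (mv 971 (cons (fin 1035 7 971)
(mv 907 (cons (fin 972 7 907)
(mv 1098 (cons (fin 1099 2 1033)
(mv 1033 (cons (fin 1290 4 1033)
(mv 970 (cons (fin 1034 6 969)
(mv 969 (cons (fin 906 6 905)
(mv 968 (cons (fin 908 2 904)
(fin 904 7 904)))))))))))))))
(mv 1035 (cons (fin 971 7 971)
(mv 1098 (cons (fin 1034 1 1033)
(fin 1099 2 1033))))))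
(cons (mv 1098 (cons (fin 1099 2 1033)
(mv 1033 (cons (fin 1290 4 1033)
(mv 970 (cons (fin 1034 6 969)
(mv 969 (cons (fin 906 6 905)
(mv 968 (cons (fin 904 7 904)
(fin 1032 7 968)))))))))))
(cons (mv 1033 (cons (fin 1290 4 1033)
(mv 1034 (cons (fin 1035 0 1033)
(fin 970 6 969)))))
(mv 971 (cons (fin 1035 7 971)
(mv 907 (cons (fin 972 7 907)
(mv 1098 (cons (fin 1099 2 1033)
(mv 1033 (cons (fin 1290 4 1033)
(mv 968 (cons (fin 1032 7 968)
(mv 969 (cons (fin 904 7 904)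
(mv 970 (cons (fin 908 2 904)
(fin 906 6 905)))))))))))))))))))))))
(mv 1035 (cons (fin 971 7 971)
(mv 1033 (cons (fin 1034 0 1033)
(mv 1225 (cons (mv 1289 (cons (fin 1288 1 1224)
(fin 1290 1 1225)))
(cons (mv 1160 (cons (fin 1161 3 1160)
(mv 1224 (cons (fin 1159 3 1159)
(mv 1288 (cons (fin 1287 1 1223)
(mv 1096 (cons (fin 1097 6 1032)
(mv 1032 (cons (fin 969 6 968)
(mv 1031 (cons (fin 967 7 967)
(fin 1095 7 1031)))))))))))))
(mv 1161 (cons (fin 1160 3 1160)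
(mv 1290 (cons (fin 1289 1 1225)
(fin 1097 4 1033)))))))))))))
(cons (mv 1161 (cons (fin 1162 3 1161)
(mv 1225 (cons (fin 1160 3 1160)
(mv 1035 (cons (fin 971 7 971)
(mv 1288 (cons (fin 1289 1 1224)
(mv 1224 (cons (fin 1287 1 1223)
(mv 1033 (cons (fin 1034 0 1033)
(fin 1097 5 1032)))))))))))))
(mv 1035 (cons (fin 971 7 971)
(mv 1290 (cons (fin 1289 1 1225)
(mv 1033 (cons (fin 1034 0 1033)
(mv 1162 (cons (fin 1161 3 1161)
(mv 1098 (cons (fin 1097 7 1033)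
(fin 1099 6 1034)))))))))))))))))))))))))
(cons (mv 1164 (cons (fin 1292 6 1036)
(mv 1036 (cons (cons (mv 971 (cons (fin 1035 7 971)
(mv 972 (cons (fin 907 7 907)
(mv 1227 (cons (fin 1163 5 971)
(fin 1291 5 1035)))))))
(mv 1227 (cons (fin 1291 5 1035)
(mv 972 (cons (fin 1163 5 971)
(mv 908 (cons (fin 844 4 844)
(fin 1165 4 908))))))))
(cons (mv 971 (cons (fin 1035 7 971)
(mv 972 (cons (fin 907 7 907)
(mv 908 (cons (fin 844 4 844)
(fin 1165 4 908)))))))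
(mv 1035 (cons (fin 971 7 971)
(mv 1227 (cons (fin 1291 5 1035)
(mv 1034 (cons (fin 1033 0 1033)
(mv 1098 (cons (fin 1097 1 1033)
(mv 970 (cons (fin 969 3 969)
(mv 1163 (cons (fin 1099 7 970)
(fin 1162 4 970))))))))))))))))))
(mv 1292 (cons (fin 1164 6 1036)
(mv 1229 (cons (fin 1165 5 1036)
(mv 1291 (cons (cons (mv 1230 (cons (fin 1231 1 1227)
(mv 1290 (cons (fin 1227 1 1226)
(fin 1289 2 1225)))))
(mv 1230 (cons (fin 1231 1 1227)
(mv 1227 (cons (cons (mv 1162 (cons (fin 1163 3 1162)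
(mv 1226 (cons (fin 1161 3 1161)
(mv 1294 (cons (fin 1293 3 1226)
(fin 1295 0 1227)))))))
(mv 1166 (cons (fin 1167 2 1163)
(mv 1294 (cons (fin 1295 0 1227)
(mv 1226 (cons (fin 1293 3 1226)
(mv 1225 (cons (fin 1224 0 1224)
(mv 1161 (cons (fin 1160 3 1160)
(fin 1162 3 1161))))))))))))
(cons (mv 1162 (cons (fin 1163 3 1162)
(mv 1226 (cons (fin 1161 3 1161)
(mv 1225 (cons (fin 1224 0 1224)
(fin 1293 0 1225)))))))
(cons (mv 1166 (cons (fin 1167 2 1163)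
(mv 1294 (cons (fin 1295 0 1227)
(mv 1293 (cons (fin 1226 3 1226)
(mv 1357 (cons (fin 1421 6 1165)
(mv 1358 (cons (fin 1359 0 1291)
(mv 1422 (cons (fin 1486 7 1229)
(mv 1355 (cons (fin 1354 1 1290)
(mv 1423 (cons (fin 1356 0 1355)
(fin 1487 4 1230)))))))))))))))))
(mv 1294 (cons (fin 1295 0 1227)
(mv 1163 (cons (fin 1162 3 1162)
(mv 1099 (cons (fin 1035 4 1035)
(fin 1356 4 1099))))))))))))))
(cons (mv 1290 (cons (fin 1289 2 1225)
(mv 1293 (cons (cons (mv 1225 (cons (fin 1226 3 1225)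
(mv 1357 (cons (fin 1358 0 1290)
(mv 1354 (cons (fin 1353 1 1289)
(mv 1421 (cons (fin 1485 7 1228)
(mv 1294 (cons (fin 1355 1 1290)
(mv 1295 (cons (fin 1227 3 1227)
(fin 1296 3 1228)))))))))))))
(mv 1353 (cons (fin 1354 1 1289)
(mv 1358 (cons (fin 1357 0 1290)
(mv 1294 (cons (fin 1359 0 1291)
(mv 1295 (cons (fin 1227 3 1227)
(fin 1296 3 1228))))))))))
(cons (mv 1357 (cons (fin 1358 0 1290)
(mv 1226 (cons (fin 1225 3 1225)
(mv 1421 (cons (fin 1485 7 1228)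
(mv 1227 (cons (fin 1294 3 1226)
(mv 1422 (cons (fin 1486 4 1229)
(mv 1420 (cons (fin 1484 5 1228)
(mv 1163 (cons (fin 1356 7 1163)
(mv 1162 (cons (fin 1161 3 1161)
(mv 1355 (cons (fin 1098 7 1098)
(fin 1419 7 1162)))))))))))))))))))
(cons (mv 1353 (cons (fin 1354 1 1289)
(mv 1226 (cons (fin 1225 3 1225)
(mv 1227 (cons (fin 1294 3 1226)
(mv 1162 (cons (fin 1161 3 1161)
(mv 1098 (cons (fin 1034 4 1034)
(fin 1355 4 1098)))))))))))
(mv 1225 (cons (fin 1226 3 1225)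
(mv 1357 (cons (fin 1358 0 1290)
(mv 1354 (cons (fin 1353 1 1289)
(mv 1421 (cons (fin 1485 7 1228)
(mv 1420 (cons (fin 1484 5 1228)
(mv 1422 (cons (fin 1486 4 1229)
(mv 1355 (cons (fin 1419 3 1354)
(fin 1356 0 1354)))))))))))))))))))))
(mv 1290 (cons (fin 1289 2 1225)
(mv 1230 (cons (fin 1231 1 1227)
(fin 1293 2 1226)))))))))))))))
(cons (cons (mv 1164 (cons (fin 1292 6 1036)
(mv 1036 (cons (cons (mv 971 (cons (fin 1035 7 971)
(mv 972 (cons (fin 907 7 907)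
(mv 1229 (cons (fin 1165 7 972)
(fin 1293 4 1036)))))))
(mv 971 (cons (fin 1035 7 971)
(mv 972 (cons (fin 907 7 907)
(mv 1227 (cons (fin 1163 5 971)
(fin 1291 5 1035))))))))
(cons (mv 1227 (cons (fin 1291 5 1035)
(mv 972 (cons (fin 1163 5 971)
(mv 1229 (cons (fin 1165 7 972)
(fin 1293 4 1036)))))))
(mv 1229 (cons (fin 1293 4 1036)
(mv 1035 (cons (fin 971 7 971)
(mv 1227 (cons (fin 1291 5 1035)
(mv 1034 (cons (fin 1033 0 1033)
(mv 1098 (cons (fin 1097 1 1033)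
(mv 970 (cons (fin 969 3 969)
(mv 1162 (cons (fin 1163 4 970)
(mv 1161 (cons (fin 1226 3 1161)
(fin 1225 5 969))))))))))))))))))))))
(cons (mv 1164 (cons (fin 1292 6 1036)
(mv 1036 (cons (cons (mv 971 (cons (fin 1035 7 971)
(mv 972 (cons (fin 907 7 907)
(mv 1229 (cons (fin 1165 7 972)
(fin 1293 4 1036)))))))
(mv 971 (cons (fin 1035 7 971)
(mv 972 (cons (fin 907 7 907)
(mv 1227 (cons (fin 1163 5 971)
(fin 1291 5 1035))))))))
(cons (mv 1227 (cons (fin 1291 5 1035)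
(mv 972 (cons (fin 1163 5 971)
(mv 1229 (cons (fin 1165 7 972)
(fin 1293 4 1036)))))))
(mv 1229 (cons (fin 1293 4 1036)
(mv 1035 (cons (fin 971 7 971)
(mv 1227 (cons (fin 1291 5 1035)
(mv 1034 (cons (fin 1033 0 1033)
(mv 970 (cons (fin 969 3 969)
(mv 1163 (cons (fin 1099 7 970)
(mv 1162 (cons (fin 1230 3 1162)
(fin 1161 2 1097))))))))))))))))))))
(mv 1164 (cons (fin 1292 6 1036)
(mv 1036 (cons (cons (mv 1227 (cons (fin 1291 5 1035)
(mv 972 (cons (fin 1163 5 971)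
(mv 1229 (cons (fin 1165 7 972)
(fin 1293 4 1036)))))))
(mv 1227 (cons (fin 1291 5 1035)
(mv 972 (cons (fin 1163 5 971)
(mv 908 (cons (fin 844 4 844)
(fin 1165 4 908))))))))
(cons (mv 1229 (cons (fin 1293 4 1036)
(mv 972 (cons (fin 1165 7 972)
(mv 908 (cons (fin 844 4 844)
(mv 907 (cons (fin 843 7 843)
(fin 971 7 907)))))))))
(cons (mv 1229 (cons (fin 1293 4 1036)
(mv 1227 (cons (fin 1291 5 1035)
(mv 1230 (cons (mv 1163 (cons (fin 1162 3 1162)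
(fin 1231 3 1163)))
(mv 1294 (cons (fin 1295 0 1227)
(fin 1165 4 1037)))))))))
(mv 1229 (cons (fin 1293 4 1036)
(mv 1227 (cons (fin 1291 5 1035)
(mv 972 (cons (fin 1163 5 971)
(mv 907 (cons (fin 971 7 907)
(mv 908 (cons (fin 843 7 843)
(fin 844 4 844)))))))))))))))))))
(cons (cons (mv 1164 (cons (fin 1292 6 1036)
(mv 1036 (cons (cons (mv 971 (cons (fin 1035 7 971)
(mv 972 (cons (fin 907 7 907)
(mv 1229 (cons (fin 1165 7 972)
(fin 1293 4 1036)))))))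
(cons (mv 971 (cons (fin 1035 7 971)
(mv 972 (cons (fin 907 7 907)
(mv 908 (cons (fin 844 4 844)
(fin 1165 4 908)))))))
(mv 1229 (cons (fin 1293 4 1036)
(mv 972 (cons (fin 1165 7 972)
(mv 908 (cons (fin 844 4 844)
(mv 907 (cons (fin 843 7 843)
(fin 971 7 907)))))))))))
(cons (mv 1229 (cons (fin 1293 4 1036)
(mv 972 (cons (fin 1165 7 972)
(mv 908 (cons (fin 844 4 844)
(mv 1163 (cons (fin 1099 5 907)
(fin 1227 5 971)))))))))
(cons (mv 1229 (cons (fin 1293 4 1036)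
(mv 971 (cons (fin 1035 7 971)
(mv 1230 (cons (cons (mv 1163 (cons (fin 1231 3 1163)
(mv 1162 (cons (fin 1227 3 1162)
(fin 1161 2 1097)))))
(mv 1165 (cons (fin 1294 4 1037)
(mv 1231 (cons (fin 1232 3 1164)
(mv 1167 (cons (fin 1168 2 1164)
(mv 1166 (cons (fin 1099 3 1099)
(fin 1227 1 1163))))))))))
(cons (mv 1165 (cons (fin 1294 4 1037)
(mv 1162 (cons (fin 1163 0 1162)
(mv 1166 (cons (mv 1167 (cons (fin 1099 3 1099)
(fin 1168 3 1100)))
(cons (mv 1098 (cons (fin 1099 0 1098)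
(mv 1226 (cons (fin 1227 2 1162)
(mv 1034 (cons (mv 969 (cons (fin 1033 7 969)
(mv 970 (cons (fin 905 7 905)
(fin 907 6 906)))))
(cons (mv 1033 (cons (fin 969 7 969)
(mv 1289 (cons (fin 1225 5 1033)
(mv 1290 (cons (fin 1097 7 1033)
(fin 1353 5 1097)))))))
(mv 970 (cons (fin 907 6 906)
(mv 1225 (cons (fin 1161 5 969)
(fin 1289 5 1033))))))))))))
(mv 1167 (cons (fin 1168 3 1100)
(fin 1227 1 1163))))))))))
(mv 1165 (cons (fin 1294 4 1037)
(mv 1163 (cons (fin 1231 3 1163)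
(fin 1162 0 1162))))))))))))
(mv 971 (cons (fin 1035 7 971)
(mv 972 (cons (fin 907 7 907)
(mv 1229 (cons (fin 1293 4 1036)
(mv 908 (cons (fin 844 4 844)
(mv 1163 (cons (fin 1099 5 907)
(fin 1227 5 971)))))))))))))))))
(mv 1164 (cons (fin 1292 6 1036)
(mv 1036 (cons (cons (mv 971 (cons (fin 1035 7 971)
(mv 972 (cons (fin 907 7 907)
(mv 1229 (cons (fin 1165 7 972)
(fin 1293 4 1036)))))))
(mv 971 (cons (fin 1035 7 971)
(mv 972 (cons (fin 907 7 907)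
(mv 1227 (cons (fin 1163 5 971)
(fin 1291 5 1035))))))))
(cons (mv 1227 (cons (fin 1291 5 1035)
(mv 972 (cons (fin 1163 5 971)
(mv 1229 (cons (fin 1165 7 972)
(fin 1293 4 1036)))))))
(mv 1229 (cons (fin 1293 4 1036)
(mv 1035 (cons (fin 971 7 971)
(mv 1227 (cons (fin 1291 5 1035)
(mv 1034 (cons (fin 1033 0 1033)
(mv 1097 (cons (fin 1098 1 1033)
(mv 970 (cons (fin 969 3 969)
(mv 1163 (cons (fin 1099 7 970)
(mv 1230 (cons (fin 1231 3 1163)
(mv 1294 (cons (fin 1295 0 1227)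
(fin 1165 4 1037)))))))))))))))))))))))))
(cons (mv 1164 (cons (fin 1292 6 1036)
(mv 1036 (cons (cons (mv 971 (cons (fin 1035 7 971)
(mv 972 (cons (fin 907 7 907)
(mv 1229 (cons (fin 1165 7 972)
(fin 1293 4 1036)))))))
(cons (mv 971 (cons (fin 1035 7 971)
(mv 972 (cons (fin 907 7 907)
(mv 908 (cons (fin 844 4 844)
(fin 1165 4 908)))))))
(mv 1229 (cons (fin 1293 4 1036)
(mv 972 (cons (fin 1165 7 972)
(mv 908 (cons (fin 844 4 844)
(mv 907 (cons (fin 843 7 843)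
(fin 971 7 907)))))))))))
(cons (mv 1229 (cons (fin 1293 4 1036)
(mv 1165 (cons (fin 972 7 972)
(mv 1230 (cons (fin 1294 4 1037)
(mv 1163 (cons (fin 1231 3 1163)
(fin 1162 0 1162)))))))))
(cons (mv 1035 (cons (fin 971 7 971)
(mv 1229 (cons (fin 1293 4 1036)
(mv 1034 (cons (fin 1033 0 1033)
(mv 1098 (cons (fin 1097 1 1033)
(mv 969 (cons (fin 970 3 969)
(mv 1165 (cons (cons (mv 1099 (cons (fin 1166 0 1098)
(mv 1161 (cons (fin 1162 1 1097)
(mv 1230 (cons (fin 1294 4 1037)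
(mv 1231 (cons (fin 1163 3 1163)
(fin 1232 3 1164)))))))))
(mv 1230 (cons (fin 1294 4 1037)
(mv 1163 (cons (fin 1231 3 1163)
(fin 1162 0 1162))))))
(cons (mv 1099 (cons (fin 1166 0 1098)
(mv 1162 (cons (fin 1161 1 1097)
(mv 1226 (cons (fin 1290 6 1034)
(mv 1225 (cons (fin 1163 1 1161)
(fin 1289 5 1033)))))))))
(mv 1166 (cons (fin 1099 0 1098)
(mv 1230 (cons (fin 1294 4 1037)
(mv 1231 (cons (fin 1232 3 1164)
(mv 1167 (cons (fin 1168 3 1100)
(mv 1103 (cons (fin 1104 2 1100)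
(mv 1039 (cons (fin 975 5 974)
(fin 976 6 975))))))))))))))))))))))))))
(mv 1229 (cons (fin 1293 4 1036)
(mv 1099 (cons (cons (mv 971 (cons (fin 1035 7 971)
(mv 907 (cons (fin 972 7 907)
(mv 1098 (cons (fin 1097 2 1033)
(mv 1162 (cons (fin 1161 1 1097)
(mv 1034 (cons (fin 1033 3 1033)
(fin 970 6 906)))))))))))
(mv 1098 (cons (fin 1097 2 1033)
(mv 1162 (cons (fin 1161 1 1097)
(mv 1034 (cons (fin 1033 3 1033)
(mv 970 (cons (mv 905 (cons (fin 969 7 905)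
(mv 906 (cons (fin 841 7 841)
(fin 1163 4 906)))))
(cons (mv 969 (cons (fin 905 7 905)
(mv 971 (cons (fin 972 0 969)
(fin 907 6 906)))))
(mv 907 (cons (fin 971 6 906)
(mv 906 (cons (fin 843 6 842)
(fin 1163 4 906)))))))))))))))
(cons (mv 1098 (cons (fin 1097 2 1033)
(mv 1162 (cons (fin 1161 1 1097)
(mv 1034 (cons (fin 1033 3 1033)
(mv 970 (cons (mv 969 (cons (fin 1035 3 969)
(fin 905 7 905)))
(cons (mv 906 (cons (fin 1163 4 906)
(mv 842 (cons (fin 1035 4 842)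
(mv 843 (cons (fin 779 6 778)
(fin 907 6 842)))))))
(mv 906 (cons (fin 1163 4 906)
(mv 905 (cons (fin 841 7 841)
(fin 969 7 905))))))))))))))
(cons (mv 971 (cons (fin 1035 7 971)
(mv 972 (cons (fin 907 7 907)
(mv 908 (cons (fin 1163 5 907)
(fin 844 4 844)))))))
(mv 1035 (cons (fin 971 7 971)
(mv 1098 (cons (fin 1097 2 1033)
(mv 1034 (cons (fin 1033 3 1033)
(mv 1161 (cons (fin 1162 1 1097)
(mv 970 (cons (fin 969 3 969)
(mv 906 (cons (fin 842 4 842)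
(fin 1163 4 906)))))))))))))))))))))))))
(mv 1164 (cons (fin 1292 6 1036)
(mv 1036 (cons (cons (mv 971 (cons (fin 1035 7 971)
(mv 972 (cons (fin 907 7 907)
(mv 1229 (cons (fin 1165 7 972)
(fin 1293 4 1036)))))))
(cons (mv 971 (cons (fin 1035 7 971)
(mv 972 (cons (fin 907 7 907)
(mv 908 (cons (fin 844 4 844)
(fin 1165 4 908)))))))
(mv 1227 (cons (fin 1291 5 1035)
(mv 1229 (cons (fin 1293 4 1036)
(mv 972 (cons (fin 1165 7 972)
(mv 907 (cons (fin 971 7 907)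
(mv 908 (cons (fin 843 7 843)
(fin 844 4 844)))))))))))))
(cons (mv 1229 (cons (fin 1293 4 1036)
(mv 1165 (cons (fin 972 7 972)
(mv 1230 (cons (fin 1294 4 1037)
(mv 1231 (cons (fin 1232 3 1164)
(mv 1227 (cons (fin 1291 5 1035)
(mv 1167 (cons (fin 1166 1 1163)
(fin 1168 2 1164)))))))))))))
(cons (mv 971 (cons (fin 1035 7 971)
(mv 1227 (cons (fin 1291 5 1035)
(mv 1229 (cons (fin 1293 4 1036)
(mv 1230 (cons (mv 1294 (cons (fin 1295 0 1227)
(fin 1165 4 1037)))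
(cons (mv 1166 (cons (fin 1167 2 1163)
(mv 1226 (cons (fin 1165 2 1162)
(mv 1289 (cons (fin 1290 1 1225)
(mv 1225 (cons (fin 1288 1 1224)
(mv 1161 (cons (fin 1160 3 1160)
(fin 1162 3 1161)))))))))))
(mv 1167 (cons (fin 1166 2 1163)
(mv 1295 (cons (fin 1294 0 1227)
(mv 1231 (cons (fin 1168 2 1164)
(fin 1296 0 1228))))))))))))))))
(mv 1229 (cons (fin 1293 4 1036)
(mv 1227 (cons (fin 1291 5 1035)
(mv 1226 (cons (cons (mv 971 (cons (fin 1035 7 971)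
(mv 907 (cons (fin 972 7 907)
(mv 1161 (cons (fin 1162 3 1161)
(mv 1225 (cons (fin 1160 3 1160)
(mv 1289 (cons (fin 1288 1 1224)
(fin 1290 1 1225)))))))))))
(cons (mv 1289 (cons (fin 1290 1 1225)
(mv 1225 (cons (fin 1288 1 1224)
(mv 1161 (cons (fin 1160 3 1160)
(fin 1162 3 1161)))))))
(mv 1035 (cons (fin 971 7 971)
(mv 1034 (cons (fin 1033 0 1033)
(mv 1098 (cons (fin 1097 1 1033)
(mv 1289 (cons (fin 1290 1 1225)
(mv 1225 (cons (fin 1288 1 1224)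
(fin 1162 5 1033)))))))))))))
(cons (cons (mv 1161 (cons (fin 1162 3 1161)
(mv 1225 (cons (fin 1160 3 1160)
(mv 1097 (cons (cons (mv 971 (cons (fin 1035 7 971)
(mv 907 (cons (fin 972 7 907)
(mv 1098 (cons (fin 1099 2 1033)
(mv 1033 (cons (fin 1290 4 1033)
(mv 970 (cons (fin 1034 6 969)
(mv 969 (cons (fin 906 6 905)
(mv 968 (cons (fin 908 2 904)
(fin 904 7 904)))))))))))))))
(mv 1035 (cons (fin 971 7 971)
(mv 1098 (cons (fin 1034 1 1033)
(fin 1099 2 1033))))))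
(cons (mv 1098 (cons (fin 1099 2 1033)
(mv 1033 (cons (fin 1290 4 1033)
(mv 970 (cons (fin 1034 6 969)
(mv 969 (cons (fin 906 6 905)
(mv 968 (cons (fin 904 7 904)
(fin 1032 7 968)))))))))))
(cons (mv 1033 (cons (fin 1290 4 1033)
(mv 1034 (cons (fin 1035 0 1033)
(fin 970 6 969)))))
(mv 971 (cons (fin 1035 7 971)
(mv 907 (cons (fin 972 7 907)
(mv 1098 (cons (fin 1099 2 1033)
(mv 1033 (cons (fin 1290 4 1033)
(mv 968 (cons (fin 1032 7 968)
(mv 969 (cons (fin 904 7 904)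
(mv 970 (cons (fin 908 2 904)
(fin 906 6 905)))))))))))))))))))))))
(mv 1035 (cons (fin 971 7 971)
(mv 1033 (cons (fin 1034 0 1033)
(mv 1225 (cons (mv 1289 (cons (fin 1288 1 1224)
(fin 1290 1 1225)))
(cons (mv 1160 (cons (fin 1161 3 1160)
(mv 1224 (cons (fin 1159 3 1159)
(mv 1288 (cons (fin 1287 1 1223)
(mv 1096 (cons (fin 1097 6 1032)
(mv 1032 (cons (fin 969 6 968)
(mv 1031 (cons (fin 967 7 967)
(fin 1095 7 1031)))))))))))))
(mv 1161 (cons (fin 1160 3 1160)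
(mv 1290 (cons (fin 1289 1 1225)
(fin 1097 4 1033)))))))))))))
(cons (mv 1161 (cons (fin 1162 3 1161)
(mv 1225 (cons (fin 1160 3 1160)
(mv 1035 (cons (fin 971 7 971)
(mv 1288 (cons (fin 1289 1 1224)
(mv 1224 (cons (fin 1287 1 1223)
(mv 1033 (cons (fin 1034 0 1033)
(fin 1097 5 1032)))))))))))))
(mv 1035 (cons (fin 971 7 971)
(mv 1290 (cons (fin 1289 1 1225)
(mv 1033 (cons (fin 1034 0 1033)
(mv 1162 (cons (fin 1161 3 1161)
(mv 1098 (cons (fin 1097 7 1033)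
(fin 1099 6 1034)))))))))))))))))))))))))))))))
(cons (mv 1164 (cons (cons (cons (mv 1228 (cons (fin 1292 6 1036)
(mv 1036 (cons (cons (mv 971 (cons (fin 1035 7 971)
(mv 972 (cons (fin 907 7 907)
(mv 1229 (cons (fin 1165 7 972)
(fin 1293 4 1036)))))))
(mv 971 (cons (fin 1035 7 971)
(mv 972 (cons (fin 907 7 907)
(mv 1227 (cons (fin 1163 5 971)
(fin 1291 5 1035))))))))
(cons (mv 1227 (cons (fin 1291 5 1035)
(mv 972 (cons (fin 1163 5 971)
(mv 1229 (cons (fin 1165 7 972)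
(fin 1293 4 1036)))))))
(mv 1229 (cons (fin 1293 4 1036)
(mv 1035 (cons (fin 971 7 971)
(mv 1034 (cons (fin 1033 0 1033)
(fin 1102 0 1034))))))))))))
(mv 1099 (cons (cons (mv 1098 (cons (cons (mv 1097 (cons (fin 1036 2 1033)
(fin 1165 0 1097)))
(mv 1033 (cons (fin 1034 3 1033)
(mv 1165 (cons (fin 1166 0 1098)
(mv 1162 (cons (fin 1161 1 1097)
(mv 1163 (cons (fin 1102 1 1098)
(mv 1225 (cons (fin 1226 1 1161)
(mv 1229 (cons (fin 1230 0 1162)
(mv 1036 (cons (fin 972 7 972)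
(fin 1293 7 1036))))))))))))))))
(cons (mv 1161 (cons (fin 1162 1 1097)
(mv 1097 (cons (fin 1160 1 1096)
(fin 1036 2 1033)))))
(mv 1165 (cons (fin 1097 0 1097)
(fin 1166 0 1098))))))
(cons (mv 1163 (cons (mv 1162 (cons (fin 1102 1 1098)
(fin 1161 2 1097)))
(cons (mv 1035 (cons (cons (mv 1034 (cons (fin 1102 3 1034)
(mv 1033 (cons (fin 1032 0 1032)
(fin 1036 0 1033)))))
(mv 971 (cons (fin 907 4 907)
(mv 972 (cons (fin 908 6 907)
(mv 906 (cons (fin 970 7 906)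
(mv 1036 (cons (fin 1227 5 971)
(mv 1165 (cons (fin 1229 7 972)
(mv 1166 (cons (fin 1167 3 1099)
(mv 1230 (cons (fin 1231 0 1163)
(mv 1294 (cons (fin 1102 7 1037)
(fin 1358 7 1101))))))))))))))))))
(cons (mv 971 (cons (fin 907 4 907)
(mv 908 (cons (fin 972 6 907)
(mv 970 (cons (fin 906 7 906)
(mv 1034 (cons (fin 1227 7 970)
(mv 1036 (cons (fin 969 3 969)
(fin 1033 0 1033)))))))))))
(mv 907 (cons (fin 971 4 907)
(mv 1034 (cons (fin 1102 3 1034)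
(mv 1032 (cons (fin 1033 0 1032)
(mv 1227 (cons (fin 970 7 970)
(mv 1290 (cons (fin 1226 5 1034)
(mv 1291 (cons (fin 1354 5 1098)
(fin 1355 6 1099))))))))))))))))
(mv 1162 (cons (fin 1161 2 1097)
(mv 1165 (cons (mv 1166 (cons (fin 1167 3 1099)
(mv 1230 (cons (fin 1229 0 1162)
(fin 1231 0 1163)))))
(cons (mv 1166 (cons (fin 1167 3 1099)
(mv 1226 (cons (fin 1225 1 1161)
(fin 1227 1 1162)))))
(mv 1225 (cons (fin 1226 1 1161)
(mv 1229 (cons (fin 1230 0 1162)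
(mv 1036 (cons (fin 972 7 972)
(fin 1293 7 1036)))))))))))))))
(mv 1098 (cons (mv 1161 (cons (fin 1162 1 1097)
(mv 1097 (cons (fin 1160 1 1096)
(fin 1036 2 1033)))))
(cons (mv 1034 (cons (fin 1033 3 1033)
(mv 1162 (cons (fin 1161 1 1097)
(mv 1102 (cons (fin 1035 3 1034)
(fin 1163 1 1098)))))))
(mv 1033 (cons (fin 1034 3 1033)
(mv 1097 (cons (fin 1032 3 1032)
(fin 1036 2 1033))))))))))
(cons (cons (mv 1098 (cons (cons (mv 1097 (cons (fin 1036 2 1033)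
(fin 1165 0 1097)))
(mv 1162 (cons (fin 1161 1 1097)
(mv 1033 (cons (fin 1034 3 1033)
(mv 1165 (cons (fin 1166 0 1098)
(mv 1229 (cons (mv 1036 (cons (fin 972 7 972)
(fin 1293 7 1036)))
(mv 1230 (cons (fin 1163 0 1162)
(fin 1294 4 1037))))))))))))
(cons (mv 1097 (cons (fin 1036 2 1033)
(mv 1161 (cons (fin 1160 1 1096)
(fin 1162 1 1097)))))
(mv 1165 (cons (fin 1097 0 1097)
(fin 1166 0 1098))))))
(mv 1098 (cons (mv 1097 (cons (fin 1036 2 1033)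
(fin 1165 0 1097)))
(cons (mv 1034 (cons (fin 1033 3 1033)
(mv 1166 (cons (fin 1165 0 1098)
(mv 1102 (cons (fin 1035 3 1034)
(fin 1167 0 1099)))))))
(mv 1033 (cons (fin 1034 3 1033)
(mv 1097 (cons (fin 1032 3 1032)
(fin 1036 2 1033)))))))))
(cons (mv 1098 (cons (cons (mv 1097 (cons (fin 1036 2 1033)
(fin 1165 0 1097)))
(mv 1162 (cons (fin 1161 1 1097)
(mv 1165 (cons (fin 1166 0 1098)
(mv 1163 (cons (fin 1102 1 1098)
(mv 1225 (cons (fin 1226 1 1161)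
(mv 1229 (cons (fin 1230 0 1162)
(mv 1036 (cons (fin 972 7 972)
(fin 1293 7 1036))))))))))))))
(cons (mv 1161 (cons (fin 1162 1 1097)
(mv 1097 (cons (fin 1160 1 1096)
(fin 1036 2 1033)))))
(mv 1165 (cons (fin 1097 0 1097)
(fin 1166 0 1098))))))
(mv 1098 (cons (mv 1165 (cons (fin 1097 0 1097)
(fin 1166 0 1098)))
(cons (mv 1033 (cons (fin 1034 3 1033)
(mv 1097 (cons (fin 1032 3 1032)
(mv 1161 (cons (fin 1160 1 1096)
(fin 1162 1 1097)))))))
(mv 1161 (cons (fin 1162 1 1097)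
(mv 1166 (cons (fin 1165 0 1098)
(mv 1034 (cons (fin 1033 3 1033)
(mv 1102 (cons (fin 1035 3 1034)
(fin 1167 0 1099)))))))))))))))))
(cons (mv 1228 (cons (fin 1292 6 1036)
(mv 1036 (cons (cons (mv 971 (cons (fin 1035 7 971)
(mv 972 (cons (fin 907 7 907)
(mv 1229 (cons (fin 1165 7 972)
(fin 1293 4 1036)))))))
(mv 971 (cons (fin 1035 7 971)
(mv 972 (cons (fin 907 7 907)
(mv 908 (cons (fin 844 4 844)
(fin 1165 4 908))))))))
(cons (mv 1227 (cons (fin 1291 5 1035)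
(mv 1229 (cons (fin 1293 4 1036)
(mv 972 (cons (fin 1165 7 972)
(mv 908 (cons (fin 844 4 844)
(mv 907 (cons (fin 843 7 843)
(fin 971 7 907)))))))))))
(cons (mv 1229 (cons (fin 1293 4 1036)
(mv 1165 (cons (fin 972 7 972)
(mv 1230 (cons (fin 1294 4 1037)
(mv 1231 (cons (fin 1232 3 1164)
(mv 1227 (cons (fin 1291 5 1035)
(mv 1167 (cons (fin 1166 1 1163)
(fin 1168 2 1164)))))))))))))
(mv 1227 (cons (fin 1291 5 1035)
(mv 1035 (cons (fin 971 7 971)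
(mv 1034 (cons (fin 1033 0 1033)
(fin 1102 0 1034)))))))))))))
(mv 1228 (cons (fin 1292 6 1036)
(mv 1036 (cons (cons (mv 971 (cons (fin 1035 7 971)
(mv 972 (cons (fin 907 7 907)
(mv 1227 (cons (fin 1163 5 971)
(fin 1291 5 1035)))))))
(mv 1229 (cons (fin 1293 4 1036)
(mv 1227 (cons (fin 1291 5 1035)
(mv 972 (cons (fin 1163 5 971)
(mv 908 (cons (fin 844 4 844)
(mv 907 (cons (fin 843 7 843)
(fin 971 7 907))))))))))))
(cons (mv 1227 (cons (fin 1291 5 1035)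
(mv 1163 (cons (fin 972 5 971)
(mv 1229 (cons (fin 1293 4 1036)
(mv 1162 (cons (fin 1230 3 1162)
(fin 1161 2 1097)))))))))
(mv 1229 (cons (fin 1293 4 1036)
(mv 1035 (cons (fin 971 7 971)
(mv 1034 (cons (fin 1033 0 1033)
(fin 1102 0 1034))))))))))))))
(cons (cons (mv 1228 (cons (fin 1292 6 1036)
(mv 1099 (cons (cons (cons (mv 1098 (cons (mv 1165 (cons (fin 1097 0 1097)
(fin 1166 0 1098)))
(cons (mv 1033 (cons (fin 1034 3 1033)
(mv 1097 (cons (fin 1032 3 1032)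
(mv 1161 (cons (fin 1160 1 1096)
(fin 1162 1 1097)))))))
(mv 1161 (cons (fin 1162 1 1097)
(mv 1165 (cons (fin 1166 0 1098)
(mv 1034 (cons (fin 1033 3 1033)
(mv 1035 (cons (fin 1102 3 1034)
(mv 971 (cons (fin 907 4 907)
(fin 1163 4 971))))))))))))))
(mv 1163 (cons (mv 1162 (cons (fin 1102 1 1098)
(fin 1161 2 1097)))
(cons (mv 1035 (cons (fin 971 4 971)
(mv 1034 (cons (fin 1102 3 1034)
(mv 1032 (cons (fin 1033 0 1032)
(mv 1227 (cons (fin 970 7 970)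
(mv 1226 (cons (fin 1290 5 1034)
(mv 1165 (cons (fin 1166 1 1162)
(fin 1225 2 1161)))))))))))))
(mv 971 (cons (fin 1035 4 971)
(mv 1162 (cons (fin 1161 2 1097)
(mv 1165 (cons (mv 1166 (cons (fin 1167 3 1099)
(mv 1230 (cons (fin 1229 0 1162)
(fin 1231 0 1163)))))
(cons (mv 1166 (cons (fin 1167 3 1099)
(mv 1226 (cons (fin 1225 1 1161)
(fin 1227 1 1162)))))
(mv 1226 (cons (fin 1225 1 1161)
(mv 1229 (cons (fin 1230 0 1162)
(mv 1293 (cons (fin 1357 7 1100)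
(mv 1294 (cons (fin 1227 0 1226)
(fin 1358 4 1101))))))))))))))))))))
(cons (mv 1098 (cons (mv 1165 (cons (fin 1097 0 1097)
(fin 1166 0 1098)))
(cons (mv 1033 (cons (fin 1034 3 1033)
(mv 1097 (cons (fin 1032 3 1032)
(mv 1161 (cons (fin 1160 1 1096)
(fin 1162 1 1097)))))))
(mv 1161 (cons (fin 1162 1 1097)
(mv 1166 (cons (fin 1165 0 1098)
(mv 1034 (cons (fin 1033 3 1033)
(mv 1102 (cons (fin 1035 3 1034)
(fin 1167 0 1099))))))))))))
(mv 1163 (cons (mv 1162 (cons (fin 1102 1 1098)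
(fin 1161 2 1097)))
(cons (mv 1035 (cons (fin 971 4 971)
(mv 1034 (cons (fin 1102 3 1034)
(mv 1033 (cons (fin 1098 3 1033)
(fin 1032 0 1032)))))))
(mv 971 (cons (fin 1035 4 971)
(mv 1098 (cons (cons (mv 1161 (cons (fin 1162 1 1097)
(mv 1097 (cons (fin 1160 1 1096)
(fin 1096 0 1096)))))
(mv 1096 (cons (fin 1097 0 1096)
(mv 1034 (cons (fin 1033 3 1033)
(mv 1227 (cons (fin 1291 7 1034)
(mv 970 (cons (fin 906 4 906)
(fin 1162 4 970))))))))))
(cons (mv 1033 (cons (fin 1034 3 1033)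
(mv 1097 (cons (fin 1032 3 1032)
(fin 1096 0 1096)))))
(mv 1162 (cons (fin 1161 1 1097)
(mv 1034 (cons (fin 1033 3 1033)
(mv 970 (cons (fin 907 6 906)
(fin 906 4 906)))))))))))))))))
(cons (cons (mv 1165 (cons (mv 1098 (cons (fin 1097 0 1097)
(fin 1166 0 1098)))
(cons (mv 1098 (cons (fin 1097 0 1097)
(mv 1034 (cons (fin 1033 3 1033)
(mv 1035 (cons (fin 1102 3 1034)
(mv 971 (cons (fin 907 4 907)
(fin 1163 4 971)))))))))
(mv 1166 (cons (fin 1167 3 1099)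
(mv 1230 (cons (mv 1294 (cons (fin 1102 7 1037)
(fin 1358 7 1101)))
(mv 1163 (cons (fin 1231 0 1163)
(mv 1227 (cons (fin 1226 1 1162)
(mv 971 (cons (fin 1035 4 971)
(mv 1291 (cons (fin 1355 6 1099)
(mv 1290 (cons (fin 1229 1 1226)
(fin 1354 5 1098))))))))))))))))))
(mv 1098 (cons (mv 1165 (cons (fin 1097 0 1097)
(fin 1166 0 1098)))
(cons (mv 1033 (cons (fin 1034 3 1033)
(mv 1097 (cons (fin 1032 3 1032)
(mv 1161 (cons (fin 1160 1 1096)
(fin 1162 1 1097)))))))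
(mv 1033 (cons (fin 1034 3 1033)
(mv 1165 (cons (fin 1166 0 1098)
(mv 1162 (cons (fin 1161 1 1097)
(mv 1229 (cons (cons (mv 1230 (cons (fin 1163 0 1162)
(fin 1294 4 1037)))
(mv 1293 (cons (fin 1357 7 1100)
(mv 1294 (cons (fin 1358 4 1101)
(mv 1226 (cons (fin 1227 0 1226)
(mv 1035 (cons (fin 1290 6 1034)
(mv 1163 (cons (fin 1225 1 1161)
(fin 971 5 970))))))))))))
(cons (mv 1293 (cons (fin 1357 7 1100)
(mv 1294 (cons (fin 1230 4 1037)
(fin 1358 4 1101)))))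
(mv 1163 (cons (fin 1230 0 1162)
(mv 1226 (cons (fin 1225 1 1161)
(mv 1035 (cons (fin 971 5 970)
(fin 1290 6 1034))))))))))))))))))))
(cons (mv 1098 (cons (mv 1165 (cons (fin 1097 0 1097)
(fin 1166 0 1098)))
(cons (mv 1033 (cons (fin 1034 3 1033)
(mv 1097 (cons (fin 1032 3 1032)
(mv 1161 (cons (fin 1160 1 1096)
(fin 1162 1 1097)))))))
(mv 1162 (cons (fin 1161 1 1097)
(mv 1165 (cons (fin 1166 0 1098)
(mv 1163 (cons (fin 1102 1 1098)
(mv 1033 (cons (fin 1034 3 1033)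
(mv 1229 (cons (fin 1230 0 1162)
(mv 1293 (cons (fin 1357 7 1100)
(mv 1226 (cons (fin 1225 1 1161)
(mv 1294 (cons (fin 1227 0 1226)
(fin 1358 4 1101))))))))))))))))))))
(mv 1165 (cons (mv 1098 (cons (fin 1097 0 1097)
(fin 1166 0 1098)))
(cons (mv 1098 (cons (fin 1097 0 1097)
(mv 1162 (cons (fin 1161 1 1097)
(mv 1163 (cons (fin 1102 1 1098)
(mv 1226 (cons (fin 1225 1 1161)
(mv 1035 (cons (fin 971 5 970)
(fin 1290 6 1034)))))))))))
(mv 1166 (cons (fin 1167 3 1099)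
(mv 1163 (cons (mv 1162 (cons (fin 1102 1 1098)
(fin 1161 2 1097)))
(cons (mv 971 (cons (fin 1035 4 971)
(mv 1230 (cons (fin 1231 0 1163)
(mv 1294 (cons (fin 1102 7 1037)
(fin 1358 7 1101)))))))
(mv 1230 (cons (fin 1231 0 1163)
(mv 1162 (cons (fin 1161 2 1097)
(fin 1229 0 1162)))))))))))))))))))
(mv 1228 (cons (fin 1292 6 1036)
(mv 1036 (cons (cons (mv 971 (cons (fin 1035 7 971)
(mv 972 (cons (fin 907 7 907)
(mv 1227 (cons (fin 1163 5 971)
(fin 1291 5 1035)))))))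
(mv 1227 (cons (fin 1291 5 1035)
(mv 972 (cons (fin 1163 5 971)
(mv 908 (cons (fin 844 4 844)
(fin 1165 4 908))))))))
(cons (mv 971 (cons (fin 1035 7 971)
(mv 972 (cons (fin 907 7 907)
(mv 908 (cons (fin 844 4 844)
(fin 1165 4 908)))))))
(mv 1035 (cons (fin 971 7 971)
(mv 1034 (cons (fin 1033 0 1033)
(fin 1102 0 1034)))))))))))
(cons (mv 1228 (cons (fin 1292 6 1036)
(mv 1036 (cons (cons (mv 1227 (cons (fin 1291 5 1035)
(mv 972 (cons (fin 1163 5 971)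
(mv 1229 (cons (fin 1165 7 972)
(fin 1293 4 1036)))))))
(mv 1227 (cons (fin 1291 5 1035)
(mv 972 (cons (fin 1163 5 971)
(mv 908 (cons (fin 844 4 844)
(fin 1165 4 908))))))))
(cons (mv 1229 (cons (fin 1293 4 1036)
(mv 972 (cons (fin 1165 7 972)
(mv 908 (cons (fin 844 4 844)
(mv 907 (cons (fin 843 7 843)
(fin 971 7 907)))))))))
(cons (mv 1229 (cons (fin 1293 4 1036)
(mv 1227 (cons (fin 1291 5 1035)
(mv 1230 (cons (mv 1163 (cons (fin 1162 3 1162)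
(fin 1231 3 1163)))
(mv 1294 (cons (fin 1295 0 1227)
(fin 1165 4 1037)))))))))
(mv 1229 (cons (fin 1293 4 1036)
(mv 1227 (cons (fin 1291 5 1035)
(mv 972 (cons (fin 1163 5 971)
(mv 908 (cons (fin 844 4 844)
(mv 907 (cons (fin 843 7 843)
(fin 971 7 907)))))))))))))))))
(cons (mv 1228 (cons (fin 1292 6 1036)
(mv 1036 (cons (cons (mv 971 (cons (fin 1035 7 971)
(mv 972 (cons (fin 907 7 907)
(mv 1229 (cons (fin 1165 7 972)
(fin 1293 4 1036)))))))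
(mv 971 (cons (fin 1035 7 971)
(mv 972 (cons (fin 907 7 907)
(mv 908 (cons (fin 844 4 844)
(fin 1165 4 908))))))))
(cons (mv 1229 (cons (fin 1293 4 1036)
(mv 972 (cons (fin 1165 7 972)
(mv 908 (cons (fin 844 4 844)
(mv 907 (cons (fin 843 7 843)
(fin 971 7 907)))))))))
(cons (mv 1229 (cons (fin 1293 4 1036)
(mv 1165 (cons (fin 972 7 972)
(mv 1230 (cons (fin 1294 4 1037)
(mv 1163 (cons (fin 1231 3 1163)
(fin 1162 0 1162)))))))))
(mv 1229 (cons (fin 1293 4 1036)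
(mv 1035 (cons (fin 971 7 971)
(mv 1034 (cons (fin 1033 0 1033)
(fin 1102 0 1034)))))))))))))
(mv 1228 (cons (fin 1292 6 1036)
(mv 1036 (cons (cons (mv 1227 (cons (fin 1291 5 1035)
(mv 972 (cons (fin 1163 5 971)
(mv 1229 (cons (fin 1165 7 972)
(fin 1293 4 1036)))))))
(cons (mv 1227 (cons (fin 1291 5 1035)
(mv 972 (cons (fin 1163 5 971)
(mv 908 (cons (fin 844 4 844)
(fin 1165 4 908)))))))
(mv 1229 (cons (fin 1293 4 1036)
(mv 1165 (cons (fin 972 7 972)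
(mv 1230 (cons (fin 1294 4 1037)
(mv 1163 (cons (fin 1231 3 1163)
(fin 1162 0 1162)))))))))))
(cons (mv 1229 (cons (fin 1293 4 1036)
(mv 1227 (cons (fin 1291 5 1035)
(mv 1230 (cons (mv 1163 (cons (fin 1162 3 1162)
(fin 1231 3 1163)))
(mv 1294 (cons (fin 1295 0 1227)
(fin 1165 4 1037)))))))))
(cons (mv 1227 (cons (fin 1291 5 1035)
(mv 1163 (cons (fin 972 5 971)
(mv 1229 (cons (fin 1293 4 1036)
(mv 1162 (cons (fin 1230 3 1162)
(fin 1161 2 1097)))))))))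
(mv 1229 (cons (fin 1293 4 1036)
(mv 1165 (cons (fin 972 7 972)
(mv 1230 (cons (fin 1294 4 1037)
(mv 1231 (cons (fin 1232 3 1164)
(mv 1227 (cons (fin 1291 5 1035)
(mv 1167 (cons (fin 1166 1 1163)
(fin 1168 2 1164))))))))))))))))))))))))
(mv 1102 (cons (cons (mv 1103 (cons (fin 1039 2 1036)
(mv 1036 (cons (fin 1035 3 1035)
(fin 1104 3 1036)))))
(mv 1099 (cons (cons (mv 1034 (cons (fin 1035 3 1034)
(mv 1098 (cons (fin 1033 3 1033)
(mv 1162 (cons (fin 1161 1 1097)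
(fin 1163 1 1098)))))))
(mv 1166 (cons (fin 1167 0 1099)
(mv 1098 (cons (fin 1165 0 1098)
(mv 1162 (cons (fin 1161 1 1097)
(fin 1163 1 1098))))))))
(cons (mv 1166 (cons (fin 1167 0 1099)
(mv 1098 (cons (fin 1165 0 1098)
(mv 1034 (cons (fin 1033 3 1033)
(fin 1035 3 1034)))))))
(mv 1166 (cons (fin 1167 0 1099)
(mv 1163 (cons (fin 1162 1 1098)
(mv 1230 (cons (fin 1294 7 1037)
(mv 1035 (cons (fin 1034 3 1034)
(mv 1227 (cons (mv 1036 (cons (fin 972 6 971)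
(fin 1291 6 1035)))
(cons (mv 1290 (cons (fin 1226 5 1034)
(mv 1228 (cons (fin 1292 4 1035)
(mv 1291 (cons (fin 1229 1 1226)
(fin 1354 5 1098)))))))
(mv 1228 (cons (fin 1292 4 1035)
(mv 1226 (cons (fin 1290 5 1034)
(mv 1165 (cons (fin 1229 2 1162)
(mv 971 (cons (cons (mv 972 (cons (fin 908 6 907)
(fin 1036 6 971)))
(mv 906 (cons (fin 970 7 906)
(mv 907 (cons (fin 842 7 842)
(mv 844 (cons (fin 908 6 843)
(mv 843 (cons (fin 780 6 779)
(fin 1036 4 843))))))))))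
(cons (mv 906 (cons (fin 970 7 906)
(mv 907 (cons (fin 842 7 842)
(mv 908 (cons (fin 844 6 843)
(fin 972 6 907)))))))
(mv 1036 (cons (fin 972 6 971)
(mv 906 (cons (fin 970 7 906)
(mv 907 (cons (fin 842 7 842)
(fin 843 4 843)))))))))))))))))))))))))))))))
(cons (mv 1103 (cons (fin 1039 2 1036)
(mv 1167 (cons (fin 1168 0 1100)
(mv 1099 (cons (fin 1166 0 1099)
(mv 1162 (cons (fin 1163 1 1098)
(mv 1098 (cons (fin 1161 1 1097)
(mv 1034 (cons (fin 1033 3 1033)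
(fin 1035 3 1034)))))))))))))
(mv 1103 (cons (fin 1039 2 1036)
(mv 1036 (cons (fin 1104 3 1036)
(mv 1167 (cons (fin 1168 0 1100)
(mv 1099 (cons (fin 1166 0 1099)
(mv 1098 (cons (fin 1097 2 1033)
(mv 1162 (cons (fin 1161 1 1097)
(fin 1163 1 1098))))))))))))))))))
(cons (cons (mv 1102 (cons (mv 1103 (cons (fin 1039 2 1036)
(mv 1036 (cons (fin 1035 3 1035)
(fin 1104 3 1036)))))
(cons (mv 1099 (cons (cons (mv 1034 (cons (fin 1035 3 1034)
(mv 1098 (cons (fin 1033 3 1033)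
(mv 1162 (cons (fin 1161 1 1097)
(fin 1163 1 1098)))))))
(mv 1166 (cons (fin 1167 0 1099)
(mv 1098 (cons (fin 1165 0 1098)
(mv 1162 (cons (fin 1161 1 1097)
(fin 1163 1 1098))))))))
(cons (mv 1166 (cons (fin 1167 0 1099)
(mv 1098 (cons (fin 1165 0 1098)
(mv 1034 (cons (fin 1033 3 1033)
(fin 1035 3 1034)))))))
(mv 1166 (cons (fin 1167 0 1099)
(mv 1163 (cons (fin 1162 1 1098)
(mv 1230 (cons (fin 1294 7 1037)
(mv 1035 (cons (fin 1034 3 1034)
(mv 972 (cons (cons (mv 908 (cons (fin 1036 5 907)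
(fin 971 6 907)))
(mv 971 (cons (fin 908 6 907)
(mv 906 (cons (fin 970 7 906)
(mv 907 (cons (fin 842 7 842)
(fin 1164 4 907))))))))
(cons (mv 1036 (cons (fin 1227 6 971)
(mv 1165 (cons (fin 1229 7 972)
(mv 1164 (cons (fin 1231 0 1163)
(mv 971 (cons (fin 907 7 907)
(mv 970 (cons (fin 969 0 969)
(fin 906 7 906)))))))))))
(mv 1036 (cons (fin 908 5 907)
(fin 1227 6 971)))))))))))))))))
(mv 1103 (cons (fin 1039 2 1036)
(mv 1163 (cons (fin 1164 1 1099)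
(mv 1099 (cons (fin 1162 1 1098)
(mv 1167 (cons (fin 1166 0 1099)
(fin 1168 0 1100))))))))))))
(mv 1102 (cons (cons (mv 1103 (cons (fin 1039 2 1036)
(mv 1163 (cons (fin 1164 1 1099)
(mv 1099 (cons (fin 1162 1 1098)
(mv 1167 (cons (fin 1166 0 1099)
(fin 1168 0 1100)))))))))
(cons (mv 1099 (cons (cons (mv 1034 (cons (fin 1035 3 1034)
(mv 1098 (cons (fin 1033 3 1033)
(mv 1162 (cons (fin 1161 1 1097)
(fin 1163 1 1098)))))))
(mv 1166 (cons (fin 1167 0 1099)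
(mv 1098 (cons (fin 1165 0 1098)
(mv 1034 (cons (fin 1033 3 1033)
(fin 1035 3 1034))))))))
(cons (mv 1166 (cons (fin 1167 0 1099)
(mv 1098 (cons (fin 1165 0 1098)
(mv 1162 (cons (fin 1161 1 1097)
(fin 1163 1 1098)))))))
(mv 1166 (cons (fin 1167 0 1099)
(mv 1035 (cons (fin 1034 3 1034)
(mv 1163 (cons (fin 1162 1 1098)
(mv 1230 (cons (fin 1294 7 1037)
(mv 1228 (cons (mv 1164 (cons (fin 1292 7 1035)
(fin 971 4 971)))
(cons (mv 1227 (cons (fin 1292 4 1035)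
(mv 1290 (cons (fin 1226 5 1034)
(mv 1291 (cons (fin 1229 1 1226)
(fin 1354 5 1098)))))))
(mv 971 (cons (fin 1164 4 971)
(mv 908 (cons (fin 972 6 907)
(mv 907 (cons (fin 844 6 843)
(mv 906 (cons (fin 842 7 842)
(fin 970 7 906)))))))))))))))))))))))
(mv 1103 (cons (fin 1039 2 1036)
(mv 1164 (cons (fin 1163 1 1099)
(mv 1167 (cons (fin 1168 0 1100)
(mv 1228 (cons (fin 1292 6 1036)
(mv 1165 (cons (fin 1104 1 1100)
(mv 1166 (cons (fin 1227 1 1163)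
(mv 1231 (cons (fin 1232 0 1164)
(mv 1230 (cons (fin 1294 7 1037)
(mv 1295 (cons (fin 1359 7 1102)
(mv 1296 (cons (fin 1229 0 1228)
(fin 1360 4 1103)))))))))))))))))))))))
(cons (cons (mv 1103 (cons (fin 1039 2 1036)
(mv 1167 (cons (fin 1168 0 1100)
(mv 1099 (cons (fin 1166 0 1099)
(mv 1162 (cons (fin 1163 1 1098)
(mv 1098 (cons (fin 1161 1 1097)
(mv 1034 (cons (fin 1033 3 1033)
(fin 1035 3 1034)))))))))))))
(mv 1103 (cons (fin 1039 2 1036)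
(mv 1164 (cons (fin 1163 1 1099)
(mv 1168 (cons (fin 1167 0 1100)
(mv 1104 (cons (fin 1165 1 1100)
(fin 1169 0 1101))))))))))
(cons (mv 1039 (cons (fin 1103 2 1036)
(mv 1099 (cons (cons (mv 1034 (cons (fin 1035 3 1034)
(mv 1098 (cons (fin 1033 3 1033)
(mv 1162 (cons (fin 1161 1 1097)
(fin 1163 1 1098)))))))
(cons (mv 1034 (cons (fin 1035 3 1034)
(mv 1098 (cons (fin 1033 3 1033)
(mv 1165 (cons (fin 1166 0 1098)
(mv 1164 (cons (fin 1097 0 1097)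
(mv 1229 (cons (cons (mv 1228 (cons (fin 1292 5 1036)
(mv 1293 (cons (fin 1357 7 1100)
(mv 1294 (cons (fin 1230 4 1037)
(fin 1358 4 1101)))))))
(mv 1294 (cons (fin 1230 4 1037)
(mv 1293 (cons (fin 1357 7 1100)
(fin 1358 4 1101))))))
(cons (mv 1228 (cons (fin 1292 5 1036)
(mv 1230 (cons (fin 1294 4 1037)
(mv 1231 (cons (fin 1163 3 1163)
(fin 1232 3 1164)))))))
(mv 1293 (cons (fin 1357 7 1100)
(mv 1292 (cons (fin 1228 5 1036)
(fin 1356 5 1100))))))))))))))))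
(mv 1162 (cons (fin 1163 1 1098)
(mv 1098 (cons (fin 1161 1 1097)
(mv 1165 (cons (fin 1166 0 1098)
(mv 1164 (cons (fin 1097 0 1097)
(mv 1292 (cons (fin 1228 6 1036)
(mv 1293 (cons (cons (mv 1229 (cons (fin 1357 7 1100)
(fin 1356 5 1100)))
(mv 1290 (cons (cons (mv 1226 (cons (fin 1035 6 1034)
(mv 1291 (cons (fin 1225 3 1225)
(fin 1355 4 1098)))))
(mv 1291 (cons (cons (mv 1353 (cons (fin 1354 1 1289)
(mv 1289 (cons (fin 1352 1 1288)
(mv 1357 (cons (fin 1356 0 1289)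
(fin 1358 0 1290)))))))
(mv 1357 (cons (fin 1358 0 1290)
(mv 1289 (cons (fin 1356 0 1289)
(mv 1352 (cons (fin 1353 1 1288)
(mv 1288 (cons (fin 1351 1 1287)
(mv 1224 (cons (fin 1223 3 1223)
(fin 1225 3 1224))))))))))))
(cons (mv 1354 (cons (fin 1353 1 1289)
(mv 1294 (cons (fin 1355 1 1290)
(mv 1231 (cons (fin 1230 2 1227)
(mv 1359 (cons (fin 1358 0 1291)
(mv 1295 (cons (fin 1232 2 1228)
(fin 1360 0 1292)))))))))))
(cons (mv 1358 (cons (fin 1357 0 1290)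
(mv 1294 (cons (fin 1359 0 1291)
(mv 1231 (cons (fin 1230 2 1227)
(mv 1355 (cons (fin 1354 1 1290)
(mv 1295 (cons (fin 1356 1 1291)
(fin 1232 2 1228)))))))))))
(mv 1353 (cons (fin 1354 1 1289)
(mv 1289 (cons (fin 1352 1 1288)
(mv 1224 (cons (fin 1225 3 1224)
(mv 1288 (cons (fin 1223 3 1223)
(mv 1356 (cons (fin 1355 0 1288)
(fin 1357 0 1289))))))))))))))))
(cons (mv 1226 (cons (fin 1035 6 1034)
(mv 1353 (cons (fin 1289 5 1097)
(mv 1354 (cons (fin 1417 5 1161)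
(mv 1355 (cons (fin 1356 2 1289)
(fin 1419 4 1162)))))))))
(mv 1226 (cons (fin 1035 6 1034)
(mv 1289 (cons (fin 1353 5 1097)
(mv 1291 (cons (fin 1225 3 1225)
(mv 1357 (cons (fin 1356 0 1289)
(fin 1358 0 1290)))))))))))))
(cons (mv 1229 (cons (fin 1356 5 1100)
(mv 1294 (cons (fin 1230 4 1037)
(fin 1358 4 1101)))))
(mv 1229 (cons (fin 1357 7 1100)
(mv 1294 (cons (fin 1230 4 1037)
(fin 1358 4 1101))))))))))))))))))))
(cons (mv 1034 (cons (fin 1035 3 1034)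
(mv 1098 (cons (fin 1033 3 1033)
(mv 1161 (cons (fin 1162 1 1097)
(mv 1097 (cons (fin 1160 1 1096)
(mv 1165 (cons (fin 1164 0 1097)
(fin 1166 0 1098)))))))))))
(cons (mv 1162 (cons (fin 1163 1 1098)
(mv 1098 (cons (fin 1161 1 1097)
(mv 1033 (cons (fin 1034 3 1033)
(mv 1097 (cons (fin 1032 3 1032)
(mv 1165 (cons (fin 1164 0 1097)
(fin 1166 0 1098)))))))))))
(mv 1163 (cons (fin 1162 1 1098)
(mv 1035 (cons (fin 1034 3 1034)
(mv 971 (cons (mv 1164 (cons (fin 907 4 907)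
(fin 1228 4 971)))
(cons (mv 906 (cons (fin 970 7 906)
(mv 907 (cons (fin 842 7 842)
(mv 908 (cons (fin 844 6 843)
(fin 972 6 907)))))))
(mv 908 (cons (fin 972 6 907)
(mv 906 (cons (fin 970 7 906)
(mv 1227 (cons (cons (mv 1228 (cons (fin 1164 4 971)
(fin 1292 4 1035)))
(mv 1290 (cons (fin 1226 5 1034)
(mv 1291 (cons (fin 1354 5 1098)
(mv 1355 (cons (fin 1164 6 1099)
(mv 1356 (cons (fin 1292 4 1099)
(fin 1420 4 1163))))))))))
(cons (mv 1290 (cons (fin 1226 5 1034)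
(mv 1164 (cons (fin 1228 4 971)
(mv 1291 (cons (fin 1354 5 1098)
(fin 1355 6 1099)))))))
(mv 1290 (cons (fin 1226 5 1034)
(mv 1292 (cons (fin 1228 4 1035)
(mv 1291 (cons (fin 1354 5 1098)
(fin 1356 4 1099)))))))))))))))))))))))))))
(mv 1103 (cons (fin 1039 2 1036)
(mv 1167 (cons (fin 1168 0 1100)
(mv 1166 (cons (fin 1099 0 1099)
(mv 1294 (cons (fin 1230 7 1037)
(mv 1104 (cons (cons (mv 1165 (cons (fin 1164 1 1100)
(fin 1105 1 1101)))
(mv 1295 (cons (fin 1231 6 1039)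
(mv 1105 (cons (fin 1106 1 1102)
(mv 912 (cons (fin 976 5 911)
(mv 1169 (cons (fin 1170 0 1102)
(mv 1297 (cons (fin 1233 7 1040)
(mv 1296 (cons (cons (mv 1357 (cons (fin 1358 1 1293)
(mv 1293 (cons (fin 1356 1 1292)
(mv 1361 (cons (fin 1360 0 1293)
(fin 1362 0 1294)))))))
(mv 1357 (cons (fin 1358 1 1293)
(mv 1293 (cons (fin 1356 1 1292)
(mv 1228 (cons (fin 1229 3 1228)
(mv 1292 (cons (fin 1227 3 1227)
(fin 1164 6 1036))))))))))
(cons (mv 1361 (cons (fin 1362 0 1294)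
(mv 1293 (cons (fin 1360 0 1293)
(mv 1228 (cons (fin 1229 3 1228)
(mv 1292 (cons (fin 1227 3 1227)
(fin 1164 6 1036)))))))))
(mv 1362 (cons (fin 1361 0 1294)
(mv 1358 (cons (fin 1357 1 1293)
(mv 1298 (cons (fin 1359 1 1294)
(fin 1363 0 1295)))))))))))))))))))))
(cons (mv 1164 (cons (fin 1165 1 1100)
(mv 912 (cons (fin 976 5 911)
(mv 1292 (cons (fin 1228 6 1036)
(mv 1295 (cons (fin 1231 6 1039)
(mv 1293 (cons (cons (mv 1355 (cons (fin 1356 1 1291)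
(mv 1291 (cons (fin 1354 1 1290)
(mv 1359 (cons (fin 1358 0 1291)
(fin 1360 0 1292)))))))
(mv 1359 (cons (fin 1360 0 1292)
(mv 1291 (cons (fin 1358 0 1291)
(mv 1354 (cons (fin 1355 1 1290)
(mv 1290 (cons (fin 1353 1 1289)
(mv 1226 (cons (fin 1225 3 1225)
(fin 1227 3 1226))))))))))))
(cons (mv 1356 (cons (fin 1355 1 1291)
(mv 1296 (cons (fin 1357 1 1292)
(mv 1233 (cons (fin 1232 2 1229)
(mv 1361 (cons (fin 1360 0 1293)
(mv 1297 (cons (fin 1234 2 1230)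
(fin 1362 0 1294)))))))))))
(cons (mv 1360 (cons (fin 1359 0 1292)
(mv 1296 (cons (fin 1361 0 1293)
(mv 1233 (cons (fin 1232 2 1229)
(mv 1357 (cons (fin 1356 1 1292)
(mv 1297 (cons (fin 1358 1 1293)
(fin 1234 2 1230)))))))))))
(mv 1355 (cons (fin 1356 1 1291)
(mv 1291 (cons (fin 1354 1 1290)
(mv 1226 (cons (fin 1227 3 1226)
(mv 1290 (cons (fin 1225 3 1225)
(mv 1358 (cons (fin 1357 0 1290)
(fin 1359 0 1291)))))))))))))))))))))))
(mv 1105 (cons (fin 1165 1 1101)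
(fin 1106 1 1102)))))))))))))))))))
(cons (mv 1102 (cons (cons (mv 1103 (cons (fin 1039 2 1036)
(mv 1036 (cons (fin 1035 3 1035)
(fin 1104 3 1036)))))
(mv 1228 (cons (cons (cons (mv 1164 (cons (fin 1292 6 1036)
(mv 1036 (cons (mv 1035 (cons (fin 1034 0 1034)
(fin 971 7 971)))
(mv 1229 (cons (fin 1293 4 1036)
(mv 972 (cons (fin 1165 7 972)
(mv 1227 (cons (fin 1163 5 971)
(fin 1291 5 1035)))))))))))
(mv 1229 (cons (cons (mv 1036 (cons (cons (mv 1165 (cons (fin 972 7 972)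
(fin 1293 7 1036)))
(mv 1034 (cons (fin 1035 0 1034)
(mv 1164 (cons (fin 1293 4 1036)
(mv 1227 (cons (fin 1291 5 1035)
(mv 972 (cons (fin 1163 5 971)
(mv 907 (cons (fin 971 7 907)
(mv 908 (cons (fin 843 7 843)
(fin 844 4 844))))))))))))))
(cons (mv 972 (cons (fin 1165 7 972)
(mv 1034 (cons (fin 1035 0 1034)
(mv 908 (cons (fin 844 4 844)
(mv 845 (cons (fin 909 6 844)
(mv 907 (cons (fin 843 7 843)
(mv 1164 (cons (fin 971 7 907)
(mv 1227 (cons (fin 1163 5 971)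
(fin 1291 5 1035)))))))))))))))
(mv 1293 (cons (fin 1165 7 1036)
(fin 1164 4 1036))))))
(cons (mv 1230 (cons (cons (mv 1294 (cons (fin 1166 7 1037)
(fin 1165 4 1037)))
(mv 1231 (cons (cons (mv 1163 (cons (fin 1164 3 1163)
(mv 1162 (cons (fin 1227 3 1162)
(mv 1295 (cons (fin 1296 0 1228)
(mv 1167 (cons (fin 1168 2 1164)
(mv 1359 (cons (fin 1166 7 1102)
(mv 1424 (cons (fin 1360 4 1167)
(mv 1422 (cons (fin 1358 5 1166)
(mv 1423 (cons (fin 1486 5 1230)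
(fin 1488 4 1231)))))))))))))))))
(mv 1163 (cons (fin 1164 3 1163)
(mv 1227 (cons (fin 1162 3 1162)
(mv 1295 (cons (fin 1296 0 1228)
(mv 1166 (cons (fin 1167 2 1163)
(mv 1226 (cons (fin 1165 2 1162)
(mv 1290 (cons (fin 1289 1 1225)
(fin 1291 1 1226))))))))))))))
(cons (mv 1295 (cons (fin 1296 0 1228)
(mv 1164 (cons (fin 1163 3 1163)
(mv 1232 (cons (fin 1165 3 1164)
(mv 1168 (cons (fin 1169 2 1165)
(fin 1104 5 1039)))))))))
(cons (mv 1167 (cons (fin 1168 2 1164)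
(mv 1166 (cons (fin 1227 2 1163)
(mv 1295 (cons (fin 1296 0 1228)
(fin 1359 7 1102)))))))
(mv 1163 (cons (fin 1164 3 1163)
(mv 1227 (cons (fin 1162 3 1162)
(mv 1167 (cons (fin 1166 2 1163)
(fin 1168 2 1164))))))))))))
(cons (mv 1294 (cons (fin 1165 4 1037)
(mv 1227 (cons (fin 1295 0 1227)
(mv 1226 (cons (fin 1293 0 1226)
(mv 1290 (cons (fin 1289 1 1225)
(fin 1291 1 1226)))))))))
(mv 1166 (cons (fin 1294 7 1037)
(mv 1167 (cons (fin 1227 2 1163)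
(mv 1168 (cons (fin 1169 3 1101)
(fin 1231 2 1164))))))))))
(mv 1230 (cons (cons (mv 1166 (cons (fin 1294 7 1037)
(mv 1167 (cons (fin 1227 2 1163)
(mv 1168 (cons (fin 1169 3 1101)
(fin 1231 2 1164)))))))
(cons (mv 1231 (cons (cons (mv 1163 (cons (fin 1164 3 1163)
(mv 1162 (cons (fin 1227 3 1162)
(mv 1295 (cons (fin 1296 0 1228)
(mv 1167 (cons (fin 1168 2 1164)
(mv 1359 (cons (fin 1166 7 1102)
(mv 1424 (cons (fin 1360 4 1167)
(mv 1422 (cons (fin 1358 5 1166)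
(mv 1423 (cons (fin 1486 5 1230)
(fin 1488 4 1231)))))))))))))))))
(mv 1164 (cons (fin 1163 3 1163)
(mv 1295 (cons (fin 1296 0 1228)
(mv 1036 (cons (fin 1293 4 1036)
(mv 1035 (cons (fin 1034 0 1034)
(fin 971 7 971))))))))))
(cons (mv 1295 (cons (fin 1296 0 1228)
(mv 1167 (cons (fin 1168 2 1164)
(mv 1166 (cons (fin 1227 2 1163)
(fin 1359 7 1102)))))))
(cons (mv 1167 (cons (fin 1168 2 1164)
(mv 1166 (cons (fin 1227 2 1163)
(mv 1164 (cons (fin 1163 3 1163)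
(mv 1295 (cons (fin 1359 7 1102)
(mv 1036 (cons (fin 1293 4 1036)
(mv 1035 (cons (fin 1034 0 1034)
(fin 971 7 971)))))))))))))
(mv 1163 (cons (fin 1164 3 1163)
(mv 1162 (cons (fin 1227 3 1162)
(mv 1168 (cons (fin 1167 2 1164)
(mv 1232 (cons (fin 1169 2 1165)
(mv 1297 (cons (fin 1296 0 1229)
(mv 1233 (cons (fin 1298 0 1230)
(fin 1104 4 1040)))))))))))))))))
(mv 1227 (cons (cons (mv 1162 (cons (fin 1163 3 1162)
(mv 1161 (cons (fin 1226 3 1161)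
(mv 1295 (cons (fin 1294 0 1227)
(mv 1290 (cons (fin 1291 1 1226)
(mv 1231 (cons (fin 1296 0 1228)
(mv 1168 (cons (fin 1167 2 1164)
(mv 1232 (cons (fin 1169 2 1165)
(fin 1104 5 1039)))))))))))))))
(mv 1294 (cons (fin 1295 0 1227)
(mv 1226 (cons (fin 1293 0 1226)
(mv 1290 (cons (fin 1289 1 1225)
(fin 1291 1 1226))))))))
(cons (mv 1162 (cons (fin 1163 3 1162)
(mv 1161 (cons (fin 1226 3 1161)
(mv 1295 (cons (fin 1294 0 1227)
(mv 1231 (cons (fin 1296 0 1228)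
(mv 1168 (cons (fin 1167 2 1164)
(mv 1232 (cons (fin 1169 2 1165)
(fin 1104 5 1039)))))))))))))
(cons (mv 1290 (cons (fin 1291 1 1226)
(mv 1226 (cons (fin 1289 1 1225)
(mv 1162 (cons (fin 1161 3 1161)
(fin 1163 3 1162)))))))
(mv 1162 (cons (fin 1163 3 1162)
(mv 1295 (cons (fin 1294 0 1227)
(mv 1290 (cons (fin 1291 1 1226)
(mv 1231 (cons (fin 1296 0 1228)
(mv 1168 (cons (fin 1167 2 1164)
(mv 1232 (cons (fin 1169 2 1165)
(fin 1104 5 1039)))))))))))))))))))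
(cons (mv 1166 (cons (fin 1294 7 1037)
(mv 1231 (cons (cons (mv 1163 (cons (fin 1164 3 1163)
(mv 1295 (cons (fin 1296 0 1228)
(mv 1167 (cons (fin 1168 2 1164)
(fin 1359 7 1102)))))))
(cons (mv 1163 (cons (fin 1164 3 1163)
(mv 1295 (cons (fin 1296 0 1228)
(mv 1359 (cons (fin 1167 7 1102)
(fin 1423 7 1166)))))))
(mv 1295 (cons (fin 1296 0 1228)
(mv 1164 (cons (fin 1163 3 1163)
(mv 1359 (cons (fin 1423 7 1166)
(mv 1036 (cons (fin 1293 4 1036)
(mv 1035 (cons (fin 1034 0 1034)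
(fin 971 7 971)))))))))))))
(cons (mv 1163 (cons (fin 1164 3 1163)
(mv 1168 (cons (fin 1167 2 1164)
(mv 1232 (cons (fin 1169 2 1165)
(mv 1297 (cons (fin 1296 0 1229)
(mv 1233 (cons (fin 1298 0 1230)
(fin 1104 4 1040)))))))))))
(cons (mv 1167 (cons (fin 1168 2 1164)
(mv 1295 (cons (fin 1296 0 1228)
(fin 1359 7 1102)))))
(mv 1167 (cons (fin 1168 2 1164)
(mv 1164 (cons (fin 1163 3 1163)
(mv 1295 (cons (fin 1359 7 1102)
(mv 1036 (cons (fin 1293 4 1036)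
(mv 1035 (cons (fin 1034 0 1034)
(fin 971 7 971)))))))))))))))))
(cons (mv 1166 (cons (fin 1294 7 1037)
(mv 1227 (cons (fin 1167 2 1163)
(mv 1290 (cons (fin 1291 1 1226)
(mv 1226 (cons (fin 1289 1 1225)
(mv 1162 (cons (fin 1161 3 1161)
(fin 1163 3 1162)))))))))))
(mv 1294 (cons (fin 1166 7 1037)
(mv 1227 (cons (fin 1295 0 1227)
(mv 1226 (cons (fin 1293 0 1226)
(mv 1290 (cons (fin 1289 1 1225)
(fin 1291 1 1226)))))))))))))))
(cons (mv 1230 (cons (cons (mv 1294 (cons (fin 1166 7 1037)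
(fin 1165 4 1037)))
(mv 1227 (cons (cons (mv 1162 (cons (fin 1163 3 1162)
(mv 1161 (cons (fin 1226 3 1161)
(mv 1167 (cons (fin 1166 2 1163)
(mv 1291 (cons (fin 1290 1 1226)
(mv 1231 (cons (fin 1168 2 1164)
(mv 1164 (cons (fin 1036 5 1035)
(mv 1296 (cons (fin 1295 0 1228)
(mv 1232 (cons (fin 1165 3 1164)
(fin 1297 0 1229)))))))))))))))))
(mv 1290 (cons (fin 1291 1 1226)
(mv 1226 (cons (fin 1289 1 1225)
(mv 1166 (cons (fin 1165 2 1162)
(fin 1167 2 1163))))))))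
(cons (mv 1162 (cons (fin 1163 3 1162)
(mv 1226 (cons (fin 1161 3 1161)
(mv 1290 (cons (fin 1289 1 1225)
(fin 1291 1 1226)))))))
(cons (mv 1166 (cons (fin 1167 2 1163)
(mv 1165 (cons (fin 1226 2 1162)
(mv 1163 (cons (fin 1162 3 1162)
(mv 972 (cons (fin 1036 7 972)
(mv 1231 (cons (fin 1164 3 1163)
(mv 1232 (cons (fin 1233 3 1165)
(mv 1296 (cons (fin 1295 0 1228)
(fin 1297 0 1229)))))))))))))))
(mv 1162 (cons (fin 1163 3 1162)
(mv 1291 (cons (fin 1290 1 1226)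
(mv 1167 (cons (fin 1166 2 1163)
(mv 1164 (cons (fin 1036 5 1035)
(mv 1231 (cons (fin 1168 2 1164)
(mv 1355 (cons (fin 1419 6 1163)
(mv 1296 (cons (fin 1295 0 1228)
(mv 1232 (cons (fin 1165 3 1164)
(fin 1297 0 1229))))))))))))))))))))))
(cons (mv 1166 (cons (fin 1294 7 1037)
(mv 1167 (cons (fin 1227 2 1163)
(mv 1168 (cons (fin 1169 3 1101)
(fin 1231 2 1164)))))))
(mv 1165 (cons (fin 1294 4 1037)
(mv 1036 (cons (fin 972 7 972)
(mv 1035 (cons (fin 1034 0 1034)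
(mv 1164 (cons (fin 971 7 971)
(mv 1163 (cons (fin 1231 3 1163)
(fin 1162 2 1098))))))))))))))
(cons (mv 1165 (cons (mv 1036 (cons (fin 972 7 972)
(fin 1293 7 1036)))
(mv 1230 (cons (fin 1294 4 1037)
(mv 1231 (cons (cons (mv 1167 (cons (fin 1168 2 1164)
(mv 1166 (cons (fin 1227 2 1163)
(mv 1295 (cons (fin 1296 0 1228)
(fin 1359 7 1102)))))))
(mv 1296 (cons (fin 1295 0 1228)
(mv 1232 (cons (fin 1297 0 1229)
(mv 1166 (cons (fin 1233 3 1165)
(mv 1227 (cons (fin 1226 2 1162)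
(fin 1167 2 1163))))))))))
(cons (mv 1296 (cons (fin 1295 0 1228)
(mv 1232 (cons (fin 1297 0 1229)
(mv 1169 (cons (fin 1168 2 1165)
(mv 1233 (cons (fin 1166 3 1165)
(fin 1170 2 1166)))))))))
(cons (mv 1167 (cons (fin 1168 2 1164)
(mv 1227 (cons (fin 1166 2 1163)
(mv 1290 (cons (fin 1291 1 1226)
(mv 1226 (cons (fin 1289 1 1225)
(mv 1162 (cons (fin 1161 3 1161)
(fin 1163 3 1162)))))))))))
(mv 1168 (cons (fin 1167 2 1164)
(mv 1295 (cons (fin 1296 0 1228)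
(mv 1232 (cons (fin 1169 2 1165)
(fin 1104 5 1039)))))))))))))))
(mv 1036 (cons (mv 1165 (cons (fin 972 7 972)
(fin 1293 7 1036)))
(cons (mv 1035 (cons (fin 1034 0 1034)
(mv 1164 (cons (fin 971 7 971)
(fin 1293 4 1036)))))
(mv 972 (cons (fin 1165 7 972)
(mv 1034 (cons (fin 1035 0 1034)
(mv 908 (cons (fin 844 4 844)
(mv 909 (cons (fin 845 6 844)
(mv 907 (cons (fin 843 7 843)
(mv 971 (cons (fin 1164 7 907)
(mv 970 (cons (fin 910 1 906)
(fin 969 2 905)))))))))))))))))))))))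
(cons (mv 1229 (cons (cons (mv 1165 (cons (fin 1292 5 1036)
(mv 1036 (cons (fin 972 7 972)
(fin 1293 7 1036)))))
(mv 1230 (cons (cons (mv 1166 (cons (fin 1294 7 1037)
(mv 1167 (cons (fin 1227 2 1163)
(mv 1168 (cons (fin 1169 3 1101)
(fin 1231 2 1164)))))))
(cons (mv 1231 (cons (mv 1291 (cons (fin 1292 1 1227)
(mv 1227 (cons (fin 1290 1 1226)
(mv 1167 (cons (fin 1166 2 1163)
(fin 1168 2 1164)))))))
(cons (mv 1296 (cons (fin 1295 0 1228)
(mv 1292 (cons (fin 1291 1 1227)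
(mv 1232 (cons (fin 1293 1 1228)
(fin 1297 0 1229)))))))
(mv 1295 (cons (fin 1296 0 1228)
(mv 1167 (cons (fin 1168 2 1164)
(mv 1166 (cons (fin 1227 2 1163)
(fin 1359 7 1102))))))))))
(mv 1231 (cons (cons (mv 1291 (cons (fin 1292 1 1227)
(mv 1227 (cons (fin 1290 1 1226)
(mv 1295 (cons (fin 1294 0 1227)
(fin 1296 0 1228)))))))
(mv 1291 (cons (fin 1292 1 1227)
(mv 1227 (cons (fin 1290 1 1226)
(mv 1162 (cons (fin 1163 3 1162)
(mv 1161 (cons (fin 1226 3 1161)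
(mv 1168 (cons (fin 1167 2 1164)
(mv 1232 (cons (fin 1169 2 1165)
(mv 1297 (cons (fin 1296 0 1229)
(mv 1233 (cons (fin 1298 0 1230)
(fin 1104 4 1040))))))))))))))))))
(cons (mv 1167 (cons (fin 1168 2 1164)
(mv 1295 (cons (fin 1296 0 1228)
(mv 1227 (cons (fin 1294 0 1227)
(mv 1290 (cons (fin 1291 1 1226)
(mv 1226 (cons (fin 1289 1 1225)
(mv 1162 (cons (fin 1161 3 1161)
(fin 1163 3 1162)))))))))))))
(cons (mv 1291 (cons (fin 1292 1 1227)
(mv 1227 (cons (fin 1290 1 1226)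
(mv 1162 (cons (fin 1163 3 1162)
(mv 1161 (cons (fin 1226 3 1161)
(mv 1294 (cons (fin 1295 0 1227)
(mv 1168 (cons (fin 1167 2 1164)
(mv 1232 (cons (fin 1169 2 1165)
(mv 1233 (cons (fin 1293 1 1229)
(mv 1297 (cons (fin 1298 0 1230)
(fin 1104 4 1040)))))))))))))))))))
(mv 1168 (cons (fin 1167 2 1164)
(mv 1295 (cons (fin 1296 0 1228)
(mv 1232 (cons (fin 1169 2 1165)
(fin 1104 5 1039)))))))))))))
(cons (mv 1166 (cons (fin 1294 7 1037)
(mv 1231 (cons (cons (mv 1291 (cons (fin 1292 1 1227)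
(mv 1295 (cons (fin 1296 0 1228)
(mv 1167 (cons (fin 1168 2 1164)
(fin 1359 7 1102)))))))
(cons (mv 1291 (cons (fin 1292 1 1227)
(mv 1295 (cons (fin 1296 0 1228)
(mv 1359 (cons (fin 1167 7 1102)
(fin 1423 7 1166)))))))
(mv 1295 (cons (fin 1296 0 1228)
(mv 1292 (cons (fin 1291 1 1227)
(mv 1359 (cons (fin 1423 7 1166)
(mv 1232 (cons (fin 1293 1 1228)
(mv 1168 (cons (fin 1169 2 1165)
(fin 1104 5 1039)))))))))))))
(cons (mv 1291 (cons (fin 1292 1 1227)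
(mv 1168 (cons (fin 1167 2 1164)
(mv 1232 (cons (fin 1169 2 1165)
(mv 1297 (cons (fin 1296 0 1229)
(mv 1233 (cons (fin 1298 0 1230)
(fin 1104 4 1040)))))))))))
(cons (mv 1167 (cons (fin 1168 2 1164)
(mv 1295 (cons (fin 1296 0 1228)
(fin 1359 7 1102)))))
(mv 1168 (cons (fin 1167 2 1164)
(mv 1232 (cons (fin 1169 2 1165)
(mv 1292 (cons (fin 1291 1 1227)
(fin 1293 1 1228)))))))))))))
(cons (mv 1166 (cons (fin 1294 7 1037)
(mv 1227 (cons (fin 1167 2 1163)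
(mv 1290 (cons (fin 1291 1 1226)
(mv 1226 (cons (fin 1289 1 1225)
(mv 1162 (cons (fin 1161 3 1161)
(fin 1163 3 1162)))))))))))
(mv 1294 (cons (fin 1166 7 1037)
(mv 1227 (cons (fin 1295 0 1227)
(mv 1226 (cons (fin 1293 0 1226)
(mv 1290 (cons (fin 1289 1 1225)
(fin 1291 1 1226))))))))))))))
(cons (mv 1165 (cons (mv 1036 (cons (fin 972 7 972)
(fin 1293 7 1036)))
(mv 1230 (cons (fin 1294 4 1037)
(mv 1231 (cons (cons (mv 1167 (cons (fin 1168 2 1164)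
(mv 1166 (cons (fin 1227 2 1163)
(mv 1295 (cons (fin 1296 0 1228)
(fin 1359 7 1102)))))))
(mv 1296 (cons (fin 1295 0 1228)
(mv 1232 (cons (fin 1297 0 1229)
(mv 1166 (cons (fin 1233 3 1165)
(mv 1227 (cons (fin 1226 2 1162)
(fin 1167 2 1163))))))))))
(cons (mv 1296 (cons (fin 1295 0 1228)
(mv 1232 (cons (fin 1297 0 1229)
(mv 1169 (cons (fin 1168 2 1165)
(mv 1233 (cons (fin 1166 3 1165)
(fin 1170 2 1166)))))))))
(cons (mv 1167 (cons (fin 1168 2 1164)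
(mv 1227 (cons (fin 1166 2 1163)
(mv 1290 (cons (fin 1291 1 1226)
(mv 1226 (cons (fin 1289 1 1225)
(mv 1162 (cons (fin 1161 3 1161)
(fin 1163 3 1162)))))))))))
(mv 1168 (cons (fin 1167 2 1164)
(mv 1295 (cons (fin 1296 0 1228)
(mv 1232 (cons (fin 1169 2 1165)
(fin 1104 5 1039)))))))))))))))
(mv 1165 (cons (fin 1292 5 1036)
(mv 972 (cons (fin 1036 7 972)
(mv 1230 (cons (fin 1294 4 1037)
(mv 1227 (cons (mv 1166 (cons (fin 1226 2 1162)
(fin 1167 2 1163)))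
(cons (mv 1162 (cons (fin 1163 3 1162)
(mv 1226 (cons (fin 1161 3 1161)
(mv 1290 (cons (fin 1289 1 1225)
(fin 1291 1 1226)))))))
(mv 1162 (cons (fin 1163 3 1162)
(mv 1290 (cons (fin 1291 1 1226)
(mv 1231 (cons (cons (mv 1167 (cons (fin 1166 2 1163)
(fin 1168 2 1164)))
(mv 1296 (cons (fin 1295 0 1228)
(mv 1232 (cons (fin 1297 0 1229)
(mv 1169 (cons (fin 1168 2 1165)
(mv 1233 (cons (fin 1166 3 1165)
(fin 1170 2 1166))))))))))
(cons (mv 1296 (cons (fin 1295 0 1228)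
(mv 1166 (cons (fin 1167 2 1163)
(mv 1232 (cons (fin 1233 3 1165)
(fin 1297 0 1229)))))))
(mv 1295 (cons (fin 1296 0 1228)
(mv 1168 (cons (fin 1167 2 1164)
(mv 1232 (cons (fin 1169 2 1165)
(fin 1104 5 1039))))))))))))))))))))))))))
(mv 1164 (cons (fin 1292 6 1036)
(mv 1230 (cons (cons (mv 1294 (cons (fin 1166 7 1037)
(mv 1229 (cons (fin 1165 4 1037)
(mv 1227 (cons (fin 1295 0 1227)
(mv 1163 (cons (fin 1162 3 1162)
(fin 1231 3 1163)))))))))
(cons (mv 1229 (cons (cons (mv 1163 (cons (fin 1231 3 1163)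
(mv 1162 (cons (fin 1227 3 1162)
(fin 1161 2 1097)))))
(mv 1231 (cons (cons (mv 1165 (cons (fin 1232 3 1164)
(mv 1293 (cons (fin 1357 7 1100)
(mv 1295 (cons (fin 1296 0 1228)
(mv 1167 (cons (fin 1168 2 1164)
(mv 1166 (cons (fin 1227 1 1163)
(fin 1359 7 1102)))))))))))
(mv 1295 (cons (fin 1296 0 1228)
(mv 1167 (cons (fin 1168 2 1164)
(mv 1166 (cons (fin 1227 2 1163)
(fin 1359 7 1102))))))))
(cons (mv 1232 (cons (fin 1165 3 1164)
(mv 1296 (cons (fin 1295 0 1228)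
(fin 1297 0 1229)))))
(mv 1167 (cons (fin 1168 2 1164)
(mv 1227 (cons (fin 1166 2 1163)
(mv 1290 (cons (fin 1291 1 1226)
(mv 1226 (cons (fin 1289 1 1225)
(mv 1165 (cons (fin 1232 3 1164)
(fin 1225 2 1161)))))))))))))))
(cons (mv 1227 (cons (cons (mv 1162 (cons (fin 1163 3 1162)
(mv 1226 (cons (fin 1161 3 1161)
(mv 1290 (cons (fin 1289 1 1225)
(fin 1291 1 1226)))))))
(mv 1166 (cons (fin 1167 2 1163)
(mv 1226 (cons (fin 1165 2 1162)
(mv 1290 (cons (fin 1289 1 1225)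
(fin 1291 1 1226))))))))
(cons (mv 1162 (cons (fin 1163 3 1162)
(mv 1226 (cons (fin 1161 3 1161)
(mv 1165 (cons (fin 1225 2 1161)
(fin 1166 2 1162)))))))
(mv 1166 (cons (fin 1167 2 1163)
(mv 1291 (cons (fin 1290 1 1226)
(mv 1163 (cons (fin 1162 3 1162)
(fin 1355 6 1099))))))))))
(mv 1163 (cons (fin 1231 3 1163)
(mv 1162 (cons (fin 1161 2 1097)
(fin 1165 2 1098))))))))
(mv 1163 (cons (mv 1162 (cons (fin 1161 2 1097)
(fin 1165 2 1098)))
(cons (mv 1229 (cons (fin 1231 3 1163)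
(mv 1294 (cons (fin 1165 4 1037)
(mv 1227 (cons (fin 1295 0 1227)
(mv 1291 (cons (fin 1290 1 1226)
(fin 1355 6 1099)))))))))
(mv 1229 (cons (fin 1231 3 1163)
(mv 1162 (cons (fin 1227 3 1162)
(fin 1161 2 1097))))))))))
(cons (cons (mv 1294 (cons (fin 1166 7 1037)
(mv 1229 (cons (fin 1165 4 1037)
(mv 1227 (cons (fin 1295 0 1227)
(mv 1226 (cons (fin 1293 0 1226)
(mv 1290 (cons (fin 1289 1 1225)
(fin 1291 1 1226)))))))))))
(mv 1166 (cons (fin 1294 7 1037)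
(mv 1165 (cons (mv 1167 (cons (fin 1168 3 1100)
(fin 1227 1 1163)))
(mv 1163 (cons (fin 1162 2 1098)
(fin 1231 0 1163))))))))
(cons (mv 1166 (cons (fin 1294 7 1037)
(mv 1229 (cons (cons (mv 1163 (cons (fin 1231 3 1163)
(mv 1227 (cons (fin 1162 3 1162)
(fin 1167 2 1163)))))
(mv 1163 (cons (fin 1231 3 1163)
(mv 1162 (cons (fin 1227 3 1162)
(fin 1161 2 1097))))))
(cons (mv 1167 (cons (fin 1227 2 1163)
(mv 1168 (cons (fin 1169 3 1101)
(fin 1231 2 1164)))))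
(cons (mv 1227 (cons (fin 1167 2 1163)
(mv 1290 (cons (fin 1291 1 1226)
(mv 1226 (cons (fin 1289 1 1225)
(mv 1162 (cons (fin 1161 3 1161)
(fin 1163 3 1162)))))))))
(mv 1231 (cons (fin 1163 3 1163)
(mv 1167 (cons (fin 1168 2 1164)
(mv 1295 (cons (fin 1296 0 1228)
(fin 1359 7 1102)))))))))))))
(mv 1294 (cons (fin 1166 7 1037)
(mv 1229 (cons (fin 1165 4 1037)
(mv 1231 (cons (fin 1163 3 1163)
(mv 1168 (cons (fin 1167 2 1164)
(mv 1295 (cons (fin 1296 0 1228)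
(mv 1232 (cons (fin 1169 2 1165)
(fin 1104 5 1039)))))))))))))))))))))
(cons (cons (mv 1164 (cons (fin 1292 6 1036)
(mv 1036 (cons (mv 1035 (cons (fin 1034 0 1034)
(fin 971 7 971)))
(cons (mv 1229 (cons (fin 1293 4 1036)
(mv 1227 (cons (fin 1291 5 1035)
(mv 972 (cons (fin 1163 5 971)
(mv 907 (cons (fin 971 7 907)
(mv 908 (cons (fin 843 7 843)
(fin 844 4 844)))))))))))
(mv 1227 (cons (fin 1291 5 1035)
(mv 1163 (cons (fin 972 5 971)
(mv 1034 (cons (fin 1035 0 1034)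
(mv 1161 (cons (fin 1162 2 1097)
(mv 1229 (cons (fin 1293 4 1036)
(mv 1230 (cons (fin 1231 3 1163)
(mv 1166 (cons (fin 1167 2 1163)
(fin 1294 7 1037))))))))))))))))))))
(mv 1164 (cons (fin 1292 6 1036)
(mv 1036 (cons (mv 1035 (cons (fin 1034 0 1034)
(fin 971 7 971)))
(mv 1227 (cons (fin 1291 5 1035)
(mv 972 (cons (fin 1163 5 971)
(mv 908 (cons (fin 844 4 844)
(fin 1165 4 908))))))))))))
(cons (mv 1164 (cons (fin 1292 6 1036)
(mv 1036 (cons (mv 1035 (cons (fin 1034 0 1034)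
(fin 971 7 971)))
(cons (mv 1229 (cons (fin 1293 4 1036)
(mv 972 (cons (fin 1165 7 972)
(mv 908 (cons (fin 844 4 844)
(mv 907 (cons (fin 843 7 843)
(fin 971 7 907)))))))))
(mv 1229 (cons (fin 1293 4 1036)
(mv 1165 (cons (fin 972 7 972)
(mv 1162 (cons (fin 1163 2 1098)
(mv 1230 (cons (fin 1294 4 1037)
(mv 1231 (cons (fin 1232 3 1164)
(mv 1034 (cons (fin 1035 0 1034)
(mv 1295 (cons (fin 1296 0 1228)
(mv 1167 (cons (fin 1168 2 1164)
(mv 1166 (cons (fin 1227 1 1163)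
(fin 1359 7 1102))))))))))))))))))))))))
(cons (mv 1164 (cons (fin 1292 6 1036)
(mv 1036 (cons (mv 1035 (cons (fin 1034 0 1034)
(fin 971 7 971)))
(cons (mv 1229 (cons (fin 1293 4 1036)
(mv 972 (cons (fin 1165 7 972)
(mv 908 (cons (fin 844 4 844)
(mv 907 (cons (fin 843 7 843)
(fin 971 7 907)))))))))
(mv 1227 (cons (fin 1291 5 1035)
(mv 1034 (cons (fin 1035 0 1034)
(mv 1229 (cons (fin 1293 4 1036)
(mv 1165 (cons (fin 972 7 972)
(mv 1166 (cons (fin 1167 1 1163)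
(fin 1226 2 1162))))))))))))))))
(mv 1164 (cons (fin 1292 6 1036)
(mv 1036 (cons (mv 1035 (cons (fin 1034 0 1034)
(fin 971 7 971)))
(cons (mv 1229 (cons (fin 1293 4 1036)
(mv 972 (cons (fin 1165 7 972)
(mv 908 (cons (fin 844 4 844)
(mv 907 (cons (fin 843 7 843)
(fin 971 7 907)))))))))
(mv 1229 (cons (fin 1293 4 1036)
(mv 1165 (cons (fin 972 7 972)
(mv 1162 (cons (fin 1163 2 1098)
(mv 1230 (cons (fin 1294 4 1037)
(mv 1231 (cons (fin 1232 3 1164)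
(mv 1034 (cons (fin 1035 0 1034)
(mv 1295 (cons (fin 1296 0 1228)
(mv 1167 (cons (fin 1168 2 1164)
(mv 1359 (cons (fin 1166 7 1102)
(mv 1424 (cons (fin 1360 4 1167)
(mv 1422 (cons (fin 1358 5 1166)
(mv 1423 (cons (fin 1486 5 1230)
(fin 1488 4 1231))))))))))))))))))))))))))))))))))))
(cons (mv 1103 (cons (fin 1039 2 1036)
(mv 1164 (cons (fin 1163 1 1099)
(mv 1167 (cons (fin 1168 0 1100)
(mv 1228 (cons (fin 1292 6 1036)
(mv 1165 (cons (fin 1104 1 1100)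
(mv 1166 (cons (fin 1227 1 1163)
(mv 1231 (cons (fin 1232 0 1164)
(mv 1230 (cons (fin 1294 7 1037)
(mv 1295 (cons (fin 1359 7 1102)
(mv 1296 (cons (fin 1229 0 1228)
(fin 1360 4 1103)))))))))))))))))))))
(mv 1103 (cons (fin 1039 2 1036)
(mv 1164 (cons (fin 1163 1 1099)
(mv 1167 (cons (fin 1168 0 1100)
(mv 1228 (cons (fin 1292 6 1036)
(mv 1036 (cons (fin 1035 3 1035)
(mv 1229 (cons (fin 1293 4 1036)
(mv 972 (cons (fin 1165 7 972)
(mv 908 (cons (fin 844 4 844)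
(mv 907 (cons (fin 843 7 843)
(fin 971 7 907))))))))))))))))))))))
(cons (mv 1102 (cons (mv 1103 (cons (fin 1039 2 1036)
(mv 1036 (cons (fin 1035 3 1035)
(fin 1104 3 1036)))))
(cons (mv 1099 (cons (cons (mv 1034 (cons (fin 1035 3 1034)
(mv 1098 (cons (fin 1033 3 1033)
(mv 1162 (cons (fin 1161 1 1097)
(fin 1163 1 1098)))))))
(cons (mv 1166 (cons (fin 1167 0 1099)
(mv 1230 (cons (fin 1294 7 1037)
(mv 1098 (cons (mv 1162 (cons (fin 1161 1 1097)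
(fin 1163 1 1098)))
(cons (mv 1097 (cons (fin 1036 2 1033)
(mv 1032 (cons (fin 1033 3 1032)
(mv 1096 (cons (fin 1031 3 1031)
(mv 1160 (cons (fin 1159 1 1095)
(fin 1161 1 1096)))))))))
(mv 1036 (cons (fin 1097 2 1033)
(mv 1163 (cons (fin 1162 1 1098)
(mv 972 (cons (fin 908 5 907)
(mv 1227 (cons (fin 1164 5 971)
(fin 1035 6 971))))))))))))))))
(mv 1166 (cons (fin 1167 0 1099)
(mv 1162 (cons (fin 1163 1 1098)
(mv 1098 (cons (fin 1161 1 1097)
(mv 1033 (cons (fin 1034 3 1033)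
(mv 1097 (cons (fin 1032 3 1032)
(fin 1036 2 1033)))))))))))))
(cons (mv 1166 (cons (fin 1167 0 1099)
(mv 1034 (cons (fin 1035 3 1034)
(mv 1098 (cons (fin 1033 3 1033)
(mv 1230 (cons (fin 1294 7 1037)
(mv 1036 (cons (fin 1097 2 1033)
(mv 972 (cons (mv 908 (cons (fin 1163 5 907)
(fin 844 4 844)))
(cons (mv 970 (cons (cons (mv 969 (cons (fin 971 0 969)
(mv 906 (cons (fin 1163 4 906)
(mv 843 (cons (fin 907 6 842)
(mv 842 (cons (fin 779 6 778)
(mv 841 (cons (fin 777 7 777)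
(fin 905 7 841)))))))))))
(mv 971 (cons (fin 969 0 969)
(mv 907 (cons (fin 1164 7 907)
(mv 843 (cons (fin 779 5 778)
(fin 906 6 842))))))))
(cons (mv 971 (cons (fin 969 0 969)
(mv 1164 (cons (fin 907 7 907)
(mv 1163 (cons (fin 1227 5 971)
(mv 1228 (cons (fin 1292 6 1036)
(mv 1229 (cons (fin 1231 3 1163)
(fin 1293 4 1036)))))))))))
(cons (mv 906 (cons (fin 1163 4 906)
(mv 843 (cons (fin 907 6 842)
(mv 842 (cons (fin 779 6 778)
(mv 841 (cons (fin 777 7 777)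
(fin 905 7 841)))))))))
(mv 1163 (cons (fin 906 4 906)
(mv 1227 (cons (fin 1291 7 1034)
(fin 1164 5 971)))))))))
(mv 908 (cons (fin 844 4 844)
(mv 909 (cons (fin 845 6 844)
(mv 907 (cons (fin 843 7 843)
(mv 971 (cons (fin 1164 7 907)
(mv 970 (cons (fin 910 1 906)
(fin 969 2 905))))))))))))))))))))))))
(cons (mv 1166 (cons (fin 1167 0 1099)
(mv 1034 (cons (fin 1035 3 1034)
(mv 1098 (cons (fin 1033 3 1033)
(mv 1230 (cons (fin 1294 7 1037)
(mv 1097 (cons (fin 1036 2 1033)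
(mv 1161 (cons (fin 1160 1 1096)
(fin 1162 1 1097)))))))))))))
(mv 1035 (cons (fin 1034 3 1034)
(mv 1163 (cons (fin 1162 1 1098)
(mv 1166 (cons (fin 1167 0 1099)
(mv 1230 (cons (fin 1294 7 1037)
(mv 1164 (cons (mv 971 (cons (fin 907 4 907)
(fin 1228 4 971)))
(cons (mv 971 (cons (fin 907 4 907)
(mv 906 (cons (fin 970 7 906)
(mv 972 (cons (fin 908 6 907)
(mv 1227 (cons (fin 1036 5 971)
(mv 1290 (cons (fin 1226 5 1034)
(mv 1291 (cons (fin 1354 5 1098)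
(fin 1355 6 1099)))))))))))))
(mv 1228 (cons (fin 1292 7 1035)
(mv 1229 (cons (fin 1231 3 1163)
(mv 1036 (cons (fin 1293 4 1036)
(mv 972 (cons (fin 908 5 907)
(fin 1227 5 971))))))))))))))))))))))))
(mv 1103 (cons (fin 1039 2 1036)
(mv 1163 (cons (fin 1164 1 1099)
(mv 1099 (cons (fin 1162 1 1098)
(mv 1167 (cons (fin 1166 0 1099)
(fin 1168 0 1100))))))))))))
(mv 1102 (cons (cons (mv 1103 (cons (fin 1039 2 1036)
(mv 1163 (cons (fin 1164 1 1099)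
(mv 1099 (cons (fin 1162 1 1098)
(mv 1167 (cons (fin 1166 0 1099)
(fin 1168 0 1100)))))))))
(cons (mv 1099 (cons (cons (mv 1162 (cons (fin 1163 1 1098)
(mv 1098 (cons (fin 1161 1 1097)
(mv 1166 (cons (fin 1165 0 1098)
(fin 1167 0 1099)))))))
(mv 1162 (cons (fin 1163 1 1098)
(mv 1098 (cons (fin 1161 1 1097)
(mv 1033 (cons (fin 1034 3 1033)
(mv 1097 (cons (fin 1032 3 1032)
(fin 1036 2 1033))))))))))
(cons (mv 1166 (cons (fin 1167 0 1099)
(mv 1098 (cons (fin 1165 0 1098)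
(mv 1097 (cons (fin 1036 2 1033)
(mv 1033 (cons (fin 1032 3 1032)
(fin 1034 3 1033)))))))))
(mv 1166 (cons (fin 1167 0 1099)
(mv 1163 (cons (fin 1162 1 1098)
(mv 1230 (cons (fin 1294 7 1037)
(mv 1164 (cons (cons (mv 1165 (cons (fin 1231 0 1163)
(mv 1227 (cons (fin 1226 1 1162)
(mv 1036 (cons (fin 972 5 971)
(fin 1291 6 1035)))))))
(mv 1228 (cons (fin 1292 6 1036)
(mv 1229 (cons (fin 1231 3 1163)
(mv 1036 (cons (fin 1293 4 1036)
(mv 972 (cons (fin 908 5 907)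
(fin 1227 5 971))))))))))
(cons (mv 1228 (cons (fin 1292 6 1036)
(mv 1227 (cons (mv 1036 (cons (fin 972 5 971)
(fin 1291 5 1035)))
(cons (mv 1226 (cons (fin 1165 1 1162)
(mv 972 (cons (fin 1036 5 971)
(mv 1225 (cons (fin 1224 2 1160)
(mv 1289 (cons (fin 1288 1 1224)
(mv 1161 (cons (fin 1160 3 1160)
(mv 1290 (cons (fin 1229 1 1225)
(mv 1097 (cons (fin 1033 4 1033)
(fin 1354 4 1097)))))))))))))))
(mv 1165 (cons (fin 1226 1 1162)
(mv 1291 (cons (fin 1355 6 1099)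
(mv 1290 (cons (fin 1229 1 1226)
(fin 1354 5 1098))))))))))))
(mv 1228 (cons (fin 1292 6 1036)
(mv 1231 (cons (fin 1229 3 1163)
(fin 1165 0 1163)))))))))))))))))
(mv 1103 (cons (fin 1039 2 1036)
(mv 1163 (cons (fin 1164 1 1099)
(mv 1168 (cons (fin 1167 0 1100)
(mv 1104 (cons (fin 1036 3 1036)
(fin 1169 0 1101)))))))))))
(cons (mv 1103 (cons (fin 1039 2 1036)
(mv 1036 (cons (fin 1104 3 1036)
(mv 1167 (cons (fin 1168 0 1100)
(mv 1099 (cons (fin 1166 0 1099)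
(mv 1098 (cons (fin 1097 2 1033)
(mv 1162 (cons (fin 1161 1 1097)
(fin 1163 1 1098)))))))))))))
(cons (mv 1103 (cons (fin 1039 2 1036)
(mv 1163 (cons (fin 1164 1 1099)
(mv 1099 (cons (fin 1162 1 1098)
(mv 1036 (cons (fin 1104 3 1036)
(mv 1098 (cons (fin 1097 2 1033)
(mv 1227 (cons (fin 1291 6 1035)
(mv 1165 (cons (fin 1166 0 1098)
(mv 972 (cons (fin 1229 7 972)
(fin 908 5 907)))))))))))))))))
(mv 1103 (cons (fin 1039 2 1036)
(mv 1104 (cons (fin 1036 3 1036)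
(mv 1168 (cons (fin 1167 0 1100)
(fin 1169 0 1101)))))))))))))))
(cons (cons (cons (mv 1102 (cons (mv 1103 (cons (fin 1039 2 1036)
(mv 1036 (cons (fin 1035 3 1035)
(fin 1104 3 1036)))))
(cons (mv 1099 (cons (cons (mv 1034 (cons (fin 1035 3 1034)
(mv 1098 (cons (fin 1033 3 1033)
(mv 1162 (cons (fin 1161 1 1097)
(fin 1163 1 1098)))))))
(mv 1166 (cons (fin 1167 0 1099)
(mv 1098 (cons (fin 1165 0 1098)
(mv 1162 (cons (fin 1161 1 1097)
(fin 1163 1 1098))))))))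
(cons (mv 1166 (cons (fin 1167 0 1099)
(mv 1098 (cons (fin 1165 0 1098)
(mv 1034 (cons (fin 1033 3 1033)
(fin 1035 3 1034)))))))
(mv 1166 (cons (fin 1167 0 1099)
(mv 1163 (cons (fin 1162 1 1098)
(mv 1035 (cons (fin 1034 3 1034)
(mv 1230 (cons (fin 1294 7 1037)
(mv 1164 (cons (mv 971 (cons (fin 907 4 907)
(fin 1228 4 971)))
(cons (mv 1165 (cons (fin 1231 0 1163)
(mv 1226 (cons (fin 1227 1 1162)
(mv 971 (cons (fin 907 4 907)
(mv 972 (cons (fin 908 6 907)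
(mv 970 (cons (fin 906 7 906)
(mv 969 (cons (fin 1036 0 969)
(mv 1032 (cons (fin 1033 1 968)
(mv 968 (cons (fin 1031 1 967)
(mv 904 (cons (fin 903 3 903)
(fin 905 3 904)))))))))))))))))))
(mv 1228 (cons (fin 1292 7 1035)
(mv 1165 (cons (fin 1231 0 1163)
(mv 1227 (cons (fin 1226 1 1162)
(mv 1036 (cons (fin 972 5 971)
(fin 1291 5 1035)))))))))))))))))))))))
(mv 1103 (cons (fin 1039 2 1036)
(mv 1163 (cons (fin 1164 1 1099)
(mv 1099 (cons (fin 1162 1 1098)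
(mv 1167 (cons (fin 1166 0 1099)
(fin 1168 0 1100))))))))))))
(mv 1102 (cons (mv 1103 (cons (fin 1039 2 1036)
(mv 1036 (cons (fin 1035 3 1035)
(fin 1104 3 1036)))))
(cons (mv 1099 (cons (cons (mv 1166 (cons (fin 1167 0 1099)
(mv 1098 (cons (fin 1165 0 1098)
(mv 1162 (cons (fin 1161 1 1097)
(fin 1163 1 1098)))))))
(mv 1162 (cons (fin 1163 1 1098)
(mv 1098 (cons (fin 1161 1 1097)
(mv 1097 (cons (fin 1036 2 1033)
(mv 1292 (cons (cons (mv 1164 (cons (fin 1165 0 1097)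
(fin 1228 6 1036)))
(mv 1033 (cons (fin 1032 3 1032)
(mv 905 (cons (fin 969 4 905)
(mv 1290 (cons (fin 1226 7 1033)
(mv 1229 (cons (cons (mv 1165 (cons (fin 1228 5 1036)
(mv 1230 (cons (fin 1294 4 1037)
(mv 1293 (cons (fin 1291 2 1226)
(fin 1356 5 1100)))))))
(cons (mv 1291 (cons (cons (mv 1228 (cons (fin 1289 2 1225)
(mv 1230 (cons (fin 1227 1 1226)
(fin 1231 1 1227)))))
(mv 1230 (cons (fin 1293 2 1226)
(mv 1228 (cons (fin 1227 1 1226)
(fin 1231 1 1227))))))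
(cons (mv 1293 (cons (fin 1230 2 1226)
(mv 1353 (cons (fin 1354 1 1289)
(mv 1289 (cons (fin 1352 1 1288)
(mv 1357 (cons (fin 1356 0 1289)
(fin 1358 0 1290)))))))))
(mv 1289 (cons (fin 1228 2 1225)
(mv 1352 (cons (fin 1353 1 1288)
(mv 1288 (cons (fin 1351 1 1287)
(mv 1224 (cons (fin 1223 3 1223)
(fin 1225 3 1224))))))))))))
(mv 1293 (cons (cons (mv 1230 (cons (fin 1291 2 1226)
(mv 1165 (cons (fin 1356 5 1100)
(fin 1294 4 1037)))))
(mv 1165 (cons (fin 1356 5 1100)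
(mv 1294 (cons (fin 1230 4 1037)
(fin 1358 4 1101))))))
(cons (mv 1291 (cons (fin 1230 2 1226)
(mv 1353 (cons (fin 1354 1 1289)
(mv 1289 (cons (fin 1352 1 1288)
(mv 1357 (cons (fin 1356 0 1289)
(fin 1358 0 1290)))))))))
(cons (mv 1165 (cons (fin 1356 5 1100)
(mv 1358 (cons (fin 1294 4 1101)
(mv 1357 (cons (fin 1291 0 1290)
(fin 1422 4 1165)))))))
(mv 1291 (cons (fin 1230 2 1226)
(mv 1353 (cons (fin 1354 1 1289)
(mv 1289 (cons (fin 1352 1 1288)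
(mv 1358 (cons (fin 1357 0 1290)
(mv 1294 (cons (fin 1359 0 1291)
(fin 1165 4 1101)))))))))))))))))
(cons (mv 1165 (cons (fin 1228 5 1036)
(mv 1293 (cons (fin 1356 5 1100)
(mv 1294 (cons (fin 1230 4 1037)
(fin 1358 4 1101)))))))
(cons (mv 1228 (cons (fin 1165 5 1036)
(mv 1291 (cons (fin 1289 2 1225)
(mv 1230 (cons (fin 1227 1 1226)
(fin 1231 1 1227)))))))
(mv 1165 (cons (fin 1228 5 1036)
(mv 1293 (cons (fin 1356 5 1100)
(mv 1358 (cons (fin 1294 4 1101)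
(mv 1357 (cons (fin 1291 0 1290)
(fin 1422 4 1165))))))))))))))))))))
(cons (mv 1165 (cons (fin 1164 0 1097)
(mv 1293 (cons (cons (mv 1032 (cons (fin 1033 3 1032)
(mv 1031 (cons (fin 1096 3 1031)
(mv 1229 (cons (fin 1356 5 1100)
(mv 1294 (cons (fin 1230 4 1037)
(fin 1358 4 1101)))))))))
(cons (mv 1033 (cons (fin 1032 3 1032)
(mv 1290 (cons (fin 1226 7 1033)
(mv 1291 (cons (cons (mv 905 (cons (fin 969 4 905)
(mv 1353 (cons (fin 1354 1 1289)
(mv 1289 (cons (fin 1352 1 1288)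
(mv 1357 (cons (fin 1356 0 1289)
(fin 1358 0 1290)))))))))
(mv 1357 (cons (fin 1358 0 1290)
(mv 1289 (cons (fin 1356 0 1289)
(mv 1352 (cons (fin 1353 1 1288)
(mv 1288 (cons (fin 1351 1 1287)
(mv 1224 (cons (fin 1223 3 1223)
(fin 1225 3 1224))))))))))))
(cons (mv 1354 (cons (fin 1353 1 1289)
(mv 1294 (cons (fin 1355 1 1290)
(mv 1231 (cons (fin 1230 2 1227)
(mv 1359 (cons (fin 1358 0 1291)
(mv 1295 (cons (fin 1232 2 1228)
(fin 1360 0 1292)))))))))))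
(cons (mv 1358 (cons (fin 1357 0 1290)
(mv 1294 (cons (fin 1359 0 1291)
(mv 1231 (cons (fin 1230 2 1227)
(mv 1355 (cons (fin 1354 1 1290)
(mv 1295 (cons (fin 1356 1 1291)
(fin 1232 2 1228)))))))))))
(mv 1353 (cons (fin 1354 1 1289)
(mv 1289 (cons (fin 1352 1 1288)
(mv 1224 (cons (fin 1225 3 1224)
(mv 1288 (cons (fin 1223 3 1223)
(mv 1356 (cons (fin 1355 0 1288)
(fin 1357 0 1289)))))))))))))))))))
(mv 1229 (cons (fin 1356 5 1100)
(mv 1294 (cons (fin 1230 4 1037)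
(fin 1358 4 1101)))))))
(cons (mv 1033 (cons (fin 1032 3 1032)
(mv 1226 (cons (fin 1290 7 1033)
(mv 905 (cons (fin 969 4 905)
(mv 1294 (cons (cons (mv 1229 (cons (fin 1230 4 1037)
(fin 1358 4 1101)))
(mv 1291 (cons (fin 1227 3 1226)
(mv 1231 (cons (fin 1230 2 1227)
(mv 1359 (cons (fin 1358 0 1291)
(mv 1295 (cons (fin 1232 2 1228)
(fin 1360 0 1292))))))))))
(cons (mv 1291 (cons (fin 1227 3 1226)
(mv 1230 (cons (fin 1231 2 1227)
(fin 1229 4 1037)))))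
(mv 1358 (cons (fin 1229 4 1101)
(mv 1291 (cons (fin 1227 3 1226)
(fin 1359 0 1291))))))))))))))
(cons (mv 1229 (cons (fin 1356 5 1100)
(mv 1290 (cons (mv 1033 (cons (fin 1032 3 1032)
(fin 1226 7 1033)))
(cons (mv 1291 (cons (fin 1230 2 1226)
(mv 1353 (cons (fin 1354 1 1289)
(mv 1289 (cons (fin 1352 1 1288)
(mv 1224 (cons (fin 1225 3 1224)
(mv 1096 (cons (mv 1032 (cons (fin 1031 3 1031)
(fin 1033 3 1032)))
(mv 1160 (cons (fin 1159 1 1095)
(fin 1288 4 1096)))))))))))))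
(mv 1291 (cons (fin 1230 2 1226)
(mv 1226 (cons (fin 1225 3 1225)
(fin 1035 6 1034))))))))))
(mv 1033 (cons (fin 1032 3 1032)
(mv 1229 (cons (fin 1356 5 1100)
(mv 905 (cons (fin 969 4 905)
(mv 1358 (cons (fin 1294 4 1101)
(mv 1290 (cons (fin 1226 7 1033)
(mv 1357 (cons (fin 1291 0 1290)
(fin 1422 4 1165)))))))))))))))))))
(mv 1032 (cons (fin 1033 3 1032)
(mv 1096 (cons (fin 1031 3 1031)
(mv 1228 (cons (fin 1164 6 1036)
(mv 1160 (cons (fin 1159 1 1095)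
(mv 1290 (cons (cons (mv 1226 (cons (fin 1035 6 1034)
(mv 1289 (cons (fin 1353 5 1097)
(mv 1291 (cons (fin 1229 2 1225)
(fin 1355 4 1098)))))))
(mv 1289 (cons (cons (mv 1229 (cons (fin 1291 2 1225)
(mv 1224 (cons (fin 1225 4 1032)
(mv 1287 (cons (fin 1223 5 1031)
(mv 1288 (cons (fin 1351 5 1095)
(fin 1353 4 1096)))))))))
(mv 1224 (cons (fin 1225 4 1032)
(mv 1287 (cons (fin 1223 5 1031)
(mv 1288 (cons (fin 1351 5 1095)
(fin 1353 4 1096))))))))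
(cons (mv 1291 (cons (fin 1229 2 1225)
(mv 1288 (cons (fin 1227 2 1224)
(mv 1352 (cons (fin 1351 1 1287)
(fin 1353 1 1288)))))))
(cons (mv 1291 (cons (fin 1229 2 1225)
(mv 1353 (cons (fin 1352 1 1288)
(mv 1357 (cons (fin 1356 0 1289)
(mv 1293 (cons (fin 1354 1 1289)
(fin 1358 0 1290)))))))))
(mv 1224 (cons (fin 1225 4 1032)
(mv 1223 (cons (fin 1287 5 1031)
(mv 1291 (cons (fin 1288 3 1223)
(fin 1229 2 1225))))))))))))
(cons (mv 1226 (cons (fin 1035 6 1034)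
(mv 1291 (cons (fin 1355 4 1098)
(mv 1225 (cons (fin 1293 3 1225)
(mv 1224 (cons (fin 1223 0 1223)
(fin 1227 0 1224)))))))))
(mv 1226 (cons (fin 1035 6 1034)
(mv 1289 (cons (fin 1353 5 1097)
(mv 1227 (cons (fin 1229 1 1225)
(mv 1225 (cons (fin 1288 1 1224)
(fin 1293 0 1225))))))))))))))))))))))))))))))
(cons (mv 1166 (cons (fin 1167 0 1099)
(mv 1098 (cons (fin 1165 0 1098)
(mv 1097 (cons (fin 1036 2 1033)
(mv 1230 (cons (fin 1294 7 1037)
(mv 1032 (cons (fin 1033 3 1032)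
(mv 1096 (cons (fin 1031 3 1031)
(mv 1160 (cons (fin 1159 1 1095)
(fin 1161 1 1096)))))))))))))))
(cons (mv 1166 (cons (fin 1167 0 1099)
(mv 1163 (cons (fin 1162 1 1098)
(mv 1230 (cons (fin 1294 7 1037)
(mv 1164 (cons (cons (mv 1165 (cons (fin 1231 0 1163)
(mv 1227 (cons (fin 1226 1 1162)
(mv 1036 (cons (fin 972 5 971)
(fin 1291 6 1035)))))))
(mv 1228 (cons (fin 1292 6 1036)
(mv 971 (cons (fin 1035 4 971)
(mv 1229 (cons (fin 1231 3 1163)
(mv 1036 (cons (fin 1293 4 1036)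
(mv 972 (cons (fin 907 7 907)
(fin 908 5 907))))))))))))
(cons (mv 1228 (cons (fin 1292 6 1036)
(mv 971 (cons (fin 1035 4 971)
(mv 1036 (cons (mv 972 (cons (fin 907 7 907)
(fin 908 5 907)))
(mv 1229 (cons (fin 1293 4 1036)
(mv 1227 (cons (fin 1291 5 1035)
(mv 1226 (cons (fin 1165 1 1162)
(mv 1225 (cons (fin 1224 2 1160)
(mv 1289 (cons (fin 1288 1 1224)
(fin 1290 1 1225)))))))))))))))))
(mv 1228 (cons (fin 1292 6 1036)
(mv 1231 (cons (fin 1229 3 1163)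
(fin 1165 0 1163))))))))))))))
(mv 1166 (cons (fin 1167 0 1099)
(mv 1230 (cons (fin 1294 7 1037)
(mv 1098 (cons (mv 1162 (cons (fin 1161 1 1097)
(fin 1163 1 1098)))
(cons (mv 1097 (cons (fin 1036 2 1033)
(mv 1032 (cons (fin 1033 3 1032)
(mv 1096 (cons (fin 1031 3 1031)
(mv 1160 (cons (fin 1159 1 1095)
(fin 1161 1 1096)))))))))
(mv 1036 (cons (fin 1097 2 1033)
(mv 1163 (cons (fin 1162 1 1098)
(mv 972 (cons (fin 908 5 907)
(mv 1227 (cons (fin 1164 5 971)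
(fin 1035 6 971))))))))))))))))))))
(mv 1103 (cons (fin 1039 2 1036)
(mv 1163 (cons (fin 1164 1 1099)
(mv 1099 (cons (fin 1162 1 1098)
(mv 1167 (cons (fin 1166 0 1099)
(fin 1168 0 1100)))))))))))))
(cons (mv 1102 (cons (mv 1103 (cons (fin 1039 2 1036)
(mv 1036 (cons (fin 1035 3 1035)
(fin 1104 3 1036)))))
(cons (mv 1099 (cons (cons (mv 1034 (cons (fin 1035 3 1034)
(mv 1098 (cons (fin 1033 3 1033)
(mv 1162 (cons (fin 1161 1 1097)
(fin 1163 1 1098)))))))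
(cons (mv 1162 (cons (fin 1163 1 1098)
(mv 1098 (cons (fin 1161 1 1097)
(mv 1097 (cons (fin 1036 2 1033)
(mv 1292 (cons (cons (mv 1164 (cons (fin 1165 0 1097)
(fin 1228 6 1036)))
(mv 1033 (cons (fin 1032 3 1032)
(mv 905 (cons (fin 969 4 905)
(mv 1290 (cons (fin 1226 7 1033)
(mv 1229 (cons (cons (mv 1165 (cons (fin 1228 5 1036)
(mv 1230 (cons (fin 1294 4 1037)
(mv 1293 (cons (fin 1291 2 1226)
(fin 1356 5 1100)))))))
(cons (mv 1291 (cons (cons (mv 1228 (cons (fin 1289 2 1225)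
(mv 1230 (cons (fin 1227 1 1226)
(fin 1231 1 1227)))))
(mv 1230 (cons (fin 1293 2 1226)
(mv 1228 (cons (fin 1227 1 1226)
(fin 1231 1 1227))))))
(cons (mv 1293 (cons (fin 1230 2 1226)
(mv 1353 (cons (fin 1354 1 1289)
(mv 1289 (cons (fin 1352 1 1288)
(mv 1357 (cons (fin 1356 0 1289)
(fin 1358 0 1290)))))))))
(mv 1289 (cons (fin 1228 2 1225)
(mv 1352 (cons (fin 1353 1 1288)
(mv 1288 (cons (fin 1351 1 1287)
(mv 1224 (cons (fin 1223 3 1223)
(fin 1225 3 1224))))))))))))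
(mv 1293 (cons (cons (mv 1230 (cons (fin 1291 2 1226)
(mv 1165 (cons (fin 1356 5 1100)
(fin 1294 4 1037)))))
(mv 1165 (cons (fin 1356 5 1100)
(mv 1294 (cons (fin 1230 4 1037)
(fin 1358 4 1101))))))
(cons (mv 1291 (cons (fin 1230 2 1226)
(mv 1353 (cons (fin 1354 1 1289)
(mv 1289 (cons (fin 1352 1 1288)
(mv 1357 (cons (fin 1356 0 1289)
(fin 1358 0 1290)))))))))
(cons (mv 1165 (cons (fin 1356 5 1100)
(mv 1358 (cons (fin 1294 4 1101)
(mv 1357 (cons (fin 1291 0 1290)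
(fin 1422 4 1165)))))))
(mv 1291 (cons (fin 1230 2 1226)
(mv 1353 (cons (fin 1354 1 1289)
(mv 1289 (cons (fin 1352 1 1288)
(mv 1358 (cons (fin 1357 0 1290)
(mv 1294 (cons (fin 1359 0 1291)
(fin 1165 4 1101)))))))))))))))))
(cons (mv 1165 (cons (fin 1228 5 1036)
(mv 1293 (cons (fin 1356 5 1100)
(mv 1294 (cons (fin 1230 4 1037)
(fin 1358 4 1101)))))))
(cons (mv 1228 (cons (fin 1165 5 1036)
(mv 1291 (cons (fin 1289 2 1225)
(mv 1230 (cons (fin 1227 1 1226)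
(fin 1231 1 1227)))))))
(mv 1165 (cons (fin 1228 5 1036)
(mv 1293 (cons (fin 1356 5 1100)
(mv 1358 (cons (fin 1294 4 1101)
(mv 1357 (cons (fin 1291 0 1290)
(fin 1422 4 1165))))))))))))))))))))
(cons (mv 1165 (cons (fin 1164 0 1097)
(mv 1293 (cons (cons (mv 1032 (cons (fin 1033 3 1032)
(mv 1031 (cons (fin 1096 3 1031)
(mv 1229 (cons (fin 1356 5 1100)
(mv 1294 (cons (fin 1230 4 1037)
(fin 1358 4 1101)))))))))
(cons (mv 1033 (cons (fin 1032 3 1032)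
(mv 1290 (cons (fin 1226 7 1033)
(mv 1291 (cons (cons (mv 905 (cons (fin 969 4 905)
(mv 1353 (cons (fin 1354 1 1289)
(mv 1289 (cons (fin 1352 1 1288)
(mv 1357 (cons (fin 1356 0 1289)
(fin 1358 0 1290)))))))))
(mv 1357 (cons (fin 1358 0 1290)
(mv 1289 (cons (fin 1356 0 1289)
(mv 1352 (cons (fin 1353 1 1288)
(mv 1288 (cons (fin 1351 1 1287)
(mv 1224 (cons (fin 1223 3 1223)
(fin 1225 3 1224))))))))))))
(cons (mv 1354 (cons (fin 1353 1 1289)
(mv 1294 (cons (fin 1355 1 1290)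
(mv 1231 (cons (fin 1230 2 1227)
(mv 1359 (cons (fin 1358 0 1291)
(mv 1295 (cons (fin 1232 2 1228)
(fin 1360 0 1292)))))))))))
(cons (mv 1358 (cons (fin 1357 0 1290)
(mv 1294 (cons (fin 1359 0 1291)
(mv 1231 (cons (fin 1230 2 1227)
(mv 1355 (cons (fin 1354 1 1290)
(mv 1295 (cons (fin 1356 1 1291)
(fin 1232 2 1228)))))))))))
(mv 1353 (cons (fin 1354 1 1289)
(mv 1289 (cons (fin 1352 1 1288)
(mv 1224 (cons (fin 1225 3 1224)
(mv 1288 (cons (fin 1223 3 1223)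
(mv 1356 (cons (fin 1355 0 1288)
(fin 1357 0 1289)))))))))))))))))))
(mv 1229 (cons (fin 1356 5 1100)
(mv 1294 (cons (fin 1230 4 1037)
(fin 1358 4 1101)))))))
(cons (mv 1033 (cons (fin 1032 3 1032)
(mv 1226 (cons (fin 1290 7 1033)
(mv 905 (cons (fin 969 4 905)
(mv 1294 (cons (cons (mv 1229 (cons (fin 1230 4 1037)
(fin 1358 4 1101)))
(mv 1291 (cons (fin 1227 3 1226)
(mv 1231 (cons (fin 1230 2 1227)
(mv 1359 (cons (fin 1358 0 1291)
(mv 1295 (cons (fin 1232 2 1228)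
(fin 1360 0 1292))))))))))
(cons (mv 1291 (cons (fin 1227 3 1226)
(mv 1230 (cons (fin 1231 2 1227)
(fin 1229 4 1037)))))
(mv 1358 (cons (fin 1229 4 1101)
(mv 1291 (cons (fin 1227 3 1226)
(fin 1359 0 1291))))))))))))))
(cons (mv 1229 (cons (fin 1356 5 1100)
(mv 1290 (cons (mv 1033 (cons (fin 1032 3 1032)
(fin 1226 7 1033)))
(cons (mv 1291 (cons (fin 1230 2 1226)
(mv 1353 (cons (fin 1354 1 1289)
(mv 1289 (cons (fin 1352 1 1288)
(mv 1224 (cons (fin 1225 3 1224)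
(mv 1096 (cons (mv 1032 (cons (fin 1031 3 1031)
(fin 1033 3 1032)))
(mv 1160 (cons (fin 1159 1 1095)
(fin 1288 4 1096)))))))))))))
(mv 1291 (cons (fin 1230 2 1226)
(mv 1226 (cons (fin 1225 3 1225)
(fin 1035 6 1034))))))))))
(mv 1033 (cons (fin 1032 3 1032)
(mv 1229 (cons (fin 1356 5 1100)
(mv 905 (cons (fin 969 4 905)
(mv 1358 (cons (fin 1294 4 1101)
(mv 1290 (cons (fin 1226 7 1033)
(mv 1357 (cons (fin 1291 0 1290)
(fin 1422 4 1165)))))))))))))))))))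
(mv 1032 (cons (fin 1033 3 1032)
(mv 1096 (cons (fin 1031 3 1031)
(mv 1228 (cons (fin 1164 6 1036)
(mv 1160 (cons (fin 1159 1 1095)
(mv 1290 (cons (cons (mv 1226 (cons (fin 1035 6 1034)
(mv 1289 (cons (fin 1353 5 1097)
(mv 1291 (cons (fin 1229 2 1225)
(fin 1355 4 1098)))))))
(mv 1289 (cons (cons (mv 1229 (cons (fin 1291 2 1225)
(mv 1224 (cons (fin 1225 4 1032)
(mv 1287 (cons (fin 1223 5 1031)
(mv 1288 (cons (fin 1351 5 1095)
(fin 1353 4 1096)))))))))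
(mv 1224 (cons (fin 1225 4 1032)
(mv 1287 (cons (fin 1223 5 1031)
(mv 1288 (cons (fin 1351 5 1095)
(fin 1353 4 1096))))))))
(cons (mv 1291 (cons (fin 1229 2 1225)
(mv 1288 (cons (fin 1227 2 1224)
(mv 1352 (cons (fin 1351 1 1287)
(fin 1353 1 1288)))))))
(cons (mv 1291 (cons (fin 1229 2 1225)
(mv 1353 (cons (fin 1352 1 1288)
(mv 1357 (cons (fin 1356 0 1289)
(mv 1293 (cons (fin 1354 1 1289)
(fin 1358 0 1290)))))))))
(mv 1224 (cons (fin 1225 4 1032)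
(mv 1223 (cons (fin 1287 5 1031)
(mv 1291 (cons (fin 1288 3 1223)
(fin 1229 2 1225))))))))))))
(cons (mv 1226 (cons (fin 1035 6 1034)
(mv 1291 (cons (fin 1355 4 1098)
(mv 1225 (cons (fin 1293 3 1225)
(mv 1224 (cons (fin 1223 0 1223)
(fin 1227 0 1224)))))))))
(mv 1226 (cons (fin 1035 6 1034)
(mv 1289 (cons (fin 1353 5 1097)
(mv 1227 (cons (fin 1229 1 1225)
(mv 1225 (cons (fin 1288 1 1224)
(fin 1293 0 1225)))))))))))))))))))))))))))))
(mv 1162 (cons (fin 1163 1 1098)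
(mv 1098 (cons (fin 1161 1 1097)
(mv 1033 (cons (fin 1034 3 1033)
(mv 1097 (cons (fin 1032 3 1032)
(fin 1036 2 1033)))))))))))
(cons (mv 1034 (cons (fin 1035 3 1034)
(mv 1098 (cons (fin 1033 3 1033)
(mv 1097 (cons (fin 1036 2 1033)
(mv 1160 (cons (fin 1161 1 1096)
(mv 1096 (cons (fin 1159 1 1095)
(mv 1164 (cons (fin 1163 0 1096)
(fin 1165 0 1097)))))))))))))
(cons (mv 1034 (cons (fin 1035 3 1034)
(mv 1098 (cons (fin 1033 3 1033)
(mv 1161 (cons (fin 1162 1 1097)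
(mv 1097 (cons (fin 1160 1 1096)
(fin 1036 2 1033)))))))))
(mv 1035 (cons (fin 1034 3 1034)
(mv 1163 (cons (fin 1162 1 1098)
(mv 1164 (cons (mv 971 (cons (fin 907 4 907)
(fin 1228 4 971)))
(cons (mv 971 (cons (fin 907 4 907)
(mv 972 (cons (fin 908 6 907)
(mv 906 (cons (fin 970 7 906)
(mv 1227 (cons (fin 1036 5 971)
(mv 1290 (cons (fin 1226 5 1034)
(mv 1291 (cons (fin 1354 5 1098)
(fin 1355 6 1099)))))))))))))
(mv 1228 (cons (fin 1292 7 1035)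
(mv 1036 (cons (mv 972 (cons (fin 908 5 907)
(fin 1227 5 971)))
(cons (mv 972 (cons (fin 908 5 907)
(mv 1229 (cons (fin 1165 7 972)
(fin 1293 4 1036)))))
(mv 1229 (cons (fin 1293 4 1036)
(mv 1230 (cons (fin 1231 3 1163)
(mv 1227 (cons (fin 1291 5 1035)
(mv 1294 (cons (fin 1295 0 1227)
(fin 1165 4 1037)))))))))))))))))))))))))
(mv 1103 (cons (fin 1039 2 1036)
(mv 1164 (cons (fin 1163 1 1099)
(mv 1168 (cons (fin 1167 0 1100)
(mv 1104 (cons (fin 1165 1 1100)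
(fin 1169 0 1101))))))))))))
(cons (mv 1102 (cons (mv 1103 (cons (fin 1039 2 1036)
(mv 1036 (cons (fin 1035 3 1035)
(fin 1104 3 1036)))))
(cons (mv 1099 (cons (cons (mv 1034 (cons (fin 1035 3 1034)
(mv 1098 (cons (fin 1033 3 1033)
(mv 1162 (cons (fin 1161 1 1097)
(fin 1163 1 1098)))))))
(mv 1166 (cons (fin 1167 0 1099)
(mv 1098 (cons (fin 1165 0 1098)
(mv 1162 (cons (fin 1161 1 1097)
(fin 1163 1 1098))))))))
(cons (mv 1166 (cons (fin 1167 0 1099)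
(mv 1098 (cons (fin 1165 0 1098)
(mv 1034 (cons (fin 1033 3 1033)
(fin 1035 3 1034)))))))
(mv 1166 (cons (fin 1167 0 1099)
(mv 1163 (cons (fin 1162 1 1098)
(mv 1230 (cons (fin 1294 7 1037)
(mv 1034 (cons (fin 1035 3 1034)
(mv 1165 (cons (cons (mv 1164 (cons (fin 1231 0 1163)
(mv 1227 (cons (fin 1226 1 1162)
(mv 1291 (cons (fin 1036 6 1035)
(fin 1355 6 1099)))))))
(mv 1229 (cons (mv 1293 (cons (fin 1036 7 1036)
(fin 1357 6 1101)))
(cons (mv 1228 (cons (fin 1292 5 1036)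
(mv 1227 (cons (fin 1226 2 1162)
(mv 1291 (cons (fin 1290 1 1226)
(fin 1036 6 1035)))))))
(mv 1292 (cons (fin 1228 5 1036)
(mv 1293 (cons (fin 1356 5 1100)
(fin 1357 6 1101)))))))))
(cons (mv 1231 (cons (fin 1164 0 1163)
(mv 1232 (cons (fin 1233 3 1165)
(mv 1229 (cons (mv 1293 (cons (fin 1292 1 1228)
(fin 1036 7 1036)))
(cons (mv 1228 (cons (fin 1292 5 1036)
(mv 1296 (cons (fin 1295 0 1228)
(fin 1297 0 1229)))))
(mv 1293 (cons (fin 1036 7 1036)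
(fin 1357 6 1101))))))))))
(mv 1164 (cons (fin 1231 0 1163)
(mv 1227 (cons (fin 1226 1 1162)
(mv 1228 (cons (fin 1292 6 1036)
(mv 1291 (cons (fin 1355 6 1099)
(mv 1290 (cons (fin 1229 1 1226)
(fin 1354 5 1098)))))))))))))))))))))))))
(mv 1103 (cons (fin 1039 2 1036)
(mv 1163 (cons (fin 1164 1 1099)
(mv 1099 (cons (fin 1162 1 1098)
(mv 1167 (cons (fin 1166 0 1099)
(fin 1168 0 1100))))))))))))
(mv 1103 (cons (cons (mv 1102 (cons (fin 1039 2 1036)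
(mv 1036 (cons (fin 1035 3 1035)
(fin 1104 3 1036)))))
(mv 1165 (cons (cons (cons (mv 1229 (cons (mv 1036 (cons (fin 972 7 972)
(fin 1293 7 1036)))
(cons (mv 1230 (cons (fin 1294 4 1037)
(mv 1292 (cons (fin 1228 5 1036)
(mv 1293 (cons (fin 1356 5 1100)
(mv 1357 (cons (fin 1164 7 1100)
(mv 1290 (cons (fin 1291 2 1226)
(mv 1358 (cons (fin 1422 4 1165)
(mv 1359 (cons (fin 1360 3 1292)
(mv 1166 (cons (fin 1421 6 1165)
(mv 1098 (cons (fin 1099 0 1098)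
(mv 1167 (cons (fin 1168 3 1100)
(mv 1231 (cons (fin 1232 1 1228)
(mv 1295 (cons (fin 1423 7 1166)
(fin 1104 6 1039)))))))))))))))))))))))))
(mv 1230 (cons (fin 1294 4 1037)
(mv 972 (cons (fin 1036 7 972)
(mv 1228 (cons (fin 1292 5 1036)
(mv 1167 (cons (mv 1166 (cons (fin 1168 3 1100)
(fin 1227 2 1163)))
(cons (mv 1231 (cons (fin 1168 2 1164)
(mv 1295 (cons (fin 1296 0 1228)
(fin 1104 6 1039)))))
(mv 1166 (cons (fin 1227 2 1163)
(mv 1099 (cons (fin 1164 3 1099)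
(fin 1098 0 1098)))))))))))))))))
(mv 1167 (cons (mv 1166 (cons (fin 1168 3 1100)
(mv 1099 (cons (fin 1164 3 1099)
(fin 1098 0 1098)))))
(cons (mv 1231 (cons (cons (mv 976 (cons (fin 1039 6 975)
(mv 1104 (cons (fin 912 5 911)
(fin 1168 5 975)))))
(mv 1104 (cons (fin 1295 6 1039)
(mv 976 (cons (fin 912 5 911)
(fin 1168 5 975))))))
(cons (mv 1039 (cons (fin 976 6 975)
(mv 1294 (cons (fin 1230 5 1038)
(mv 1296 (cons (fin 1232 4 1039)
(mv 1295 (cons (fin 1358 5 1102)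
(fin 1360 4 1103)))))))))
(mv 1295 (cons (fin 1104 6 1039)
(mv 1294 (cons (fin 1358 5 1102)
(mv 1039 (cons (fin 1230 5 1038)
(mv 1296 (cons (fin 1232 4 1039)
(fin 1360 4 1103))))))))))))
(mv 1231 (cons (cons (mv 976 (cons (fin 1039 6 975)
(mv 1104 (cons (fin 912 5 911)
(fin 1295 6 1039)))))
(mv 1295 (cons (fin 1104 6 1039)
(mv 1294 (cons (fin 1358 5 1102)
(mv 1360 (cons (fin 1296 4 1103)
(mv 1359 (cons (fin 1424 4 1167)
(mv 1292 (cons (fin 1293 0 1292)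
(mv 1164 (cons (fin 1228 6 1036)
(mv 1166 (cons (fin 1099 3 1099)
(fin 1232 0 1164))))))))))))))))
(cons (mv 1039 (cons (fin 976 6 975)
(mv 1230 (cons (fin 1294 5 1038)
(mv 975 (cons (fin 1166 5 974)
(mv 910 (cons (fin 974 7 910)
(mv 911 (cons (fin 846 7 846)
(mv 1232 (cons (fin 1296 4 1039)
(mv 847 (cons (fin 1104 4 847)
(mv 848 (cons (fin 784 6 783)
(fin 912 6 847)))))))))))))))))
(mv 1039 (cons (fin 976 6 975)
(mv 1230 (cons (fin 1294 5 1038)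
(mv 1166 (cons (fin 975 5 974)
(mv 1232 (cons (fin 1233 3 1165)
(fin 1164 0 1164))))))))))))))))
(cons (mv 1229 (cons (mv 1036 (cons (fin 972 7 972)
(fin 1293 7 1036)))
(cons (mv 1294 (cons (fin 1230 4 1037)
(mv 1292 (cons (fin 1228 5 1036)
(mv 1293 (cons (fin 1356 5 1100)
(fin 1358 4 1101)))))))
(mv 1228 (cons (fin 1292 5 1036)
(mv 972 (cons (fin 1036 7 972)
(mv 1230 (cons (fin 1294 4 1037)
(mv 1231 (cons (cons (mv 1164 (cons (fin 1232 3 1164)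
(mv 1295 (cons (fin 1296 0 1228)
(mv 1167 (cons (fin 1168 2 1164)
(fin 1104 6 1039)))))))
(mv 1232 (cons (fin 1164 3 1164)
(mv 1296 (cons (fin 1295 0 1228)
(fin 1297 0 1229))))))
(cons (mv 1295 (cons (fin 1296 0 1228)
(mv 1167 (cons (fin 1168 2 1164)
(fin 1104 6 1039)))))
(cons (mv 1167 (cons (fin 1168 2 1164)
(mv 1232 (cons (fin 1164 3 1164)
(mv 1039 (cons (fin 976 6 975)
(fin 1296 4 1039)))))))
(mv 1167 (cons (fin 1168 2 1164)
(mv 1164 (cons (fin 1232 3 1164)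
(mv 1104 (cons (fin 1295 6 1039)
(mv 976 (cons (fin 912 5 911)
(fin 1039 6 975))))))))))))))))))))))
(cons (mv 1167 (cons (cons (mv 1166 (cons (fin 1168 3 1100)
(mv 1099 (cons (fin 1164 3 1099)
(fin 1098 0 1098)))))
(mv 1231 (cons (cons (mv 976 (cons (fin 1039 6 975)
(mv 1104 (cons (fin 912 5 911)
(fin 1168 5 975)))))
(mv 1104 (cons (fin 1295 6 1039)
(mv 976 (cons (fin 912 5 911)
(fin 1168 5 975))))))
(cons (mv 1039 (cons (fin 976 6 975)
(mv 1230 (cons (fin 1294 5 1038)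
(mv 1232 (cons (fin 1296 4 1039)
(mv 975 (cons (fin 1168 4 975)
(mv 910 (cons (fin 974 7 910)
(mv 846 (cons (fin 911 7 846)
(mv 1229 (cons (fin 1164 3 1164)
(mv 1036 (cons (fin 972 7 972)
(fin 1293 7 1036)))))))))))))))))
(mv 1295 (cons (fin 1104 6 1039)
(mv 1294 (cons (fin 1358 5 1102)
(mv 1230 (cons (fin 1039 5 1038)
(fin 1229 4 1037)))))))))))
(cons (mv 1231 (cons (mv 976 (cons (fin 1039 6 975)
(mv 1104 (cons (fin 912 5 911)
(fin 1295 6 1039)))))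
(cons (mv 1295 (cons (fin 1104 6 1039)
(mv 1294 (cons (fin 1358 5 1102)
(mv 1296 (cons (fin 1360 4 1103)
(mv 1229 (cons (fin 1230 4 1037)
(mv 1293 (cons (fin 1228 3 1228)
(fin 1036 7 1036)))))))))))
(mv 1039 (cons (fin 976 6 975)
(mv 1230 (cons (fin 1294 5 1038)
(mv 975 (cons (fin 1166 5 974)
(mv 910 (cons (fin 974 7 910)
(mv 846 (cons (fin 911 7 846)
(mv 1232 (cons (fin 1296 4 1039)
(mv 1229 (cons (fin 1164 3 1164)
(mv 1036 (cons (fin 972 7 972)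
(fin 1293 7 1036))))))))))))))))))))
(mv 1166 (cons (fin 1168 3 1100)
(mv 1098 (cons (fin 1099 0 1098)
(mv 1230 (cons (mv 1294 (cons (fin 1358 7 1101)
(fin 1229 4 1037)))
(mv 1039 (cons (fin 975 5 974)
(mv 976 (cons (fin 1231 6 975)
(mv 912 (cons (fin 848 5 847)
(fin 1104 5 911))))))))))))))))
(mv 1167 (cons (cons (mv 1166 (cons (fin 1168 3 1100)
(mv 1099 (cons (fin 1164 3 1099)
(fin 1098 0 1098)))))
(mv 1231 (cons (cons (mv 976 (cons (fin 1039 6 975)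
(mv 1104 (cons (fin 912 5 911)
(fin 1168 5 975)))))
(mv 1104 (cons (fin 1295 6 1039)
(mv 976 (cons (fin 912 5 911)
(fin 1168 5 975))))))
(cons (mv 1039 (cons (fin 976 6 975)
(mv 1230 (cons (fin 1294 5 1038)
(mv 1232 (cons (fin 1296 4 1039)
(mv 975 (cons (fin 1168 4 975)
(mv 910 (cons (fin 974 7 910)
(mv 846 (cons (fin 911 7 846)
(mv 1229 (cons (fin 1164 3 1164)
(mv 1036 (cons (fin 972 7 972)
(fin 1293 7 1036)))))))))))))))))
(mv 1295 (cons (fin 1104 6 1039)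
(mv 1294 (cons (fin 1358 5 1102)
(mv 1230 (cons (fin 1039 5 1038)
(fin 1229 4 1037)))))))))))
(cons (mv 1231 (cons (mv 976 (cons (fin 1039 6 975)
(mv 1104 (cons (fin 912 5 911)
(fin 1295 6 1039)))))
(cons (mv 1295 (cons (fin 1104 6 1039)
(mv 1294 (cons (fin 1358 5 1102)
(mv 1296 (cons (fin 1360 4 1103)
(mv 1229 (cons (fin 1230 4 1037)
(mv 1036 (cons (fin 972 7 972)
(fin 1293 7 1036)))))))))))
(mv 1039 (cons (fin 976 6 975)
(mv 1230 (cons (fin 1294 5 1038)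
(mv 975 (cons (fin 1166 5 974)
(mv 910 (cons (fin 974 7 910)
(mv 846 (cons (fin 911 7 846)
(mv 1232 (cons (fin 1296 4 1039)
(mv 1229 (cons (fin 1164 3 1164)
(mv 1036 (cons (fin 972 7 972)
(fin 1293 7 1036))))))))))))))))))))
(mv 1166 (cons (fin 1168 3 1100)
(mv 1098 (cons (fin 1099 0 1098)
(mv 1230 (cons (mv 1294 (cons (fin 1358 7 1101)
(fin 1229 4 1037)))
(mv 1039 (cons (fin 975 5 974)
(mv 976 (cons (fin 1231 6 975)
(mv 912 (cons (fin 848 5 847)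
(fin 1104 5 911)))))))))))))))))))
(cons (cons (mv 1229 (cons (mv 1036 (cons (fin 972 7 972)
(fin 1293 7 1036)))
(cons (mv 1294 (cons (fin 1230 4 1037)
(mv 1292 (cons (fin 1228 5 1036)
(mv 1293 (cons (fin 1356 5 1100)
(fin 1358 4 1101)))))))
(mv 1228 (cons (fin 1292 5 1036)
(mv 972 (cons (fin 1036 7 972)
(mv 1230 (cons (fin 1294 4 1037)
(mv 1167 (cons (mv 1166 (cons (fin 1168 3 1100)
(fin 1227 2 1163)))
(cons (mv 1231 (cons (fin 1168 2 1164)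
(mv 1295 (cons (fin 1296 0 1228)
(fin 1104 6 1039)))))
(mv 1166 (cons (fin 1227 2 1163)
(mv 1039 (cons (fin 975 5 974)
(mv 1098 (cons (fin 1099 0 1098)
(mv 976 (cons (fin 1231 6 975)
(mv 912 (cons (fin 848 5 847)
(fin 1104 5 911)))))))))))))))))))))))
(cons (mv 1229 (cons (mv 1036 (cons (fin 972 7 972)
(fin 1293 7 1036)))
(cons (mv 1230 (cons (fin 1294 4 1037)
(mv 1292 (cons (fin 1228 5 1036)
(mv 1293 (cons (fin 1356 5 1100)
(mv 1357 (cons (fin 1164 7 1100)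
(mv 1290 (cons (fin 1291 2 1226)
(mv 1422 (cons (fin 1358 4 1165)
(mv 1421 (cons (fin 1166 6 1165)
(fin 1486 4 1229)))))))))))))))
(mv 1230 (cons (fin 1294 4 1037)
(mv 1036 (cons (fin 972 7 972)
(mv 1228 (cons (fin 1292 5 1036)
(mv 1227 (cons (cons (mv 1291 (cons (fin 1290 1 1226)
(fin 1164 5 1035)))
(mv 1226 (cons (fin 1166 2 1162)
(mv 1164 (cons (fin 1225 2 1161)
(mv 1231 (cons (fin 1232 3 1164)
(mv 1035 (cons (fin 971 7 971)
(mv 1162 (cons (fin 1161 3 1161)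
(mv 1033 (cons (fin 1034 0 1033)
(mv 1290 (cons (fin 1289 1 1225)
(mv 1098 (cons (fin 1097 7 1033)
(fin 1099 6 1034))))))))))))))))))
(cons (mv 1226 (cons (fin 1166 2 1162)
(mv 1290 (cons (fin 1289 1 1225)
(fin 1291 1 1226)))))
(mv 1164 (cons (fin 1291 5 1035)
(mv 1226 (cons (fin 1225 2 1161)
(fin 1166 2 1162)))))))))))))))))
(mv 1167 (cons (cons (mv 1166 (cons (fin 1168 3 1100)
(mv 1099 (cons (fin 1164 3 1099)
(fin 1098 0 1098)))))
(mv 1231 (cons (cons (mv 976 (cons (fin 1039 6 975)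
(mv 1104 (cons (fin 912 5 911)
(fin 1168 5 975)))))
(mv 1104 (cons (fin 1295 6 1039)
(mv 976 (cons (fin 912 5 911)
(fin 1168 5 975))))))
(cons (mv 1039 (cons (fin 976 6 975)
(mv 1230 (cons (fin 1294 5 1038)
(mv 1232 (cons (fin 1296 4 1039)
(mv 1168 (cons (fin 975 4 975)
(mv 1229 (cons (fin 1164 3 1164)
(fin 1228 2 1164)))))))))))
(mv 1295 (cons (fin 1104 6 1039)
(mv 1294 (cons (fin 1358 5 1102)
(mv 1230 (cons (fin 1039 5 1038)
(fin 1229 4 1037)))))))))))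
(cons (mv 1231 (cons (cons (mv 976 (cons (fin 1039 6 975)
(mv 1104 (cons (fin 912 5 911)
(fin 1295 6 1039)))))
(mv 1295 (cons (fin 1104 6 1039)
(mv 1294 (cons (fin 1358 5 1102)
(mv 1296 (cons (fin 1360 4 1103)
(mv 1230 (cons (fin 1229 4 1037)
(mv 1297 (cons (fin 1298 3 1230)
(mv 1233 (cons (fin 1234 2 1230)
(mv 1166 (cons (fin 1232 3 1165)
(mv 1099 (cons (fin 1164 3 1099)
(fin 1098 0 1098))))))))))))))))))
(cons (mv 1039 (cons (fin 976 6 975)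
(mv 1230 (cons (fin 1294 5 1038)
(mv 975 (cons (fin 1166 5 974)
(mv 910 (cons (fin 974 7 910)
(mv 911 (cons (fin 846 7 846)
(mv 1232 (cons (fin 1296 4 1039)
(mv 1164 (cons (fin 1229 3 1164)
(mv 847 (cons (fin 1104 4 847)
(mv 848 (cons (fin 784 6 783)
(fin 912 6 847)))))))))))))))))))
(mv 1039 (cons (fin 976 6 975)
(mv 1230 (cons (fin 1294 5 1038)
(mv 1166 (cons (fin 975 5 974)
(mv 1232 (cons (fin 1233 3 1165)
(fin 1164 0 1164))))))))))))
(mv 1166 (cons (fin 1168 3 1100)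
(mv 1098 (cons (fin 1099 0 1098)
(mv 1230 (cons (mv 1294 (cons (fin 1358 7 1101)
(fin 1229 4 1037)))
(mv 1039 (cons (fin 975 5 974)
(mv 976 (cons (fin 1231 6 975)
(mv 912 (cons (fin 848 5 847)
(fin 1104 5 911))))))))))))))))))
(cons (mv 1229 (cons (mv 1036 (cons (fin 972 7 972)
(fin 1293 7 1036)))
(cons (mv 1166 (cons (cons (mv 1228 (cons (fin 1292 5 1036)
(mv 1167 (cons (fin 1168 3 1100)
(mv 1164 (cons (fin 1099 3 1099)
(fin 1227 1 1163)))))))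
(mv 1292 (cons (fin 1228 5 1036)
(mv 1098 (cons (fin 1099 0 1098)
(mv 1293 (cons (fin 1356 5 1100)
(mv 1357 (cons (fin 1164 7 1100)
(mv 1421 (cons (fin 1230 6 1165)
(mv 1422 (cons (fin 1358 4 1165)
(fin 1486 4 1229))))))))))))))
(cons (mv 1098 (cons (fin 1099 0 1098)
(mv 1167 (cons (fin 1168 3 1100)
(mv 1104 (cons (fin 1164 2 1100)
(mv 1105 (cons (fin 1106 1 1102)
(mv 1231 (cons (fin 1295 6 1039)
(mv 976 (cons (fin 912 5 911)
(fin 1039 6 975)))))))))))))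
(cons (mv 1167 (cons (fin 1168 3 1100)
(mv 1228 (cons (fin 1292 5 1036)
(mv 1164 (cons (fin 1227 1 1163)
(fin 1104 2 1100)))))))
(mv 1228 (cons (fin 1292 5 1036)
(mv 1227 (cons (fin 1226 2 1162)
(mv 1167 (cons (fin 1168 3 1100)
(fin 1230 2 1163)))))))))))
(mv 1036 (cons (fin 972 7 972)
(mv 1228 (cons (fin 1292 5 1036)
(mv 1166 (cons (cons (mv 1167 (cons (fin 1168 3 1100)
(mv 1164 (cons (fin 1099 3 1099)
(fin 1227 1 1163)))))
(mv 1227 (cons (fin 1226 2 1162)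
(mv 1098 (cons (fin 1099 0 1098)
(mv 1164 (cons (fin 1291 5 1035)
(mv 1035 (cons (fin 971 7 971)
(mv 1034 (cons (fin 1097 1 1033)
(fin 1033 0 1033))))))))))))
(cons (mv 1167 (cons (fin 1168 3 1100)
(mv 1099 (cons (fin 1164 3 1099)
(fin 1098 0 1098)))))
(cons (mv 1167 (cons (fin 1168 3 1100)
(mv 1227 (cons (fin 1164 1 1163)
(fin 1226 2 1162)))))
(mv 1167 (cons (fin 1168 3 1100)
(mv 1227 (cons (fin 1226 2 1162)
(fin 1230 2 1163))))))))))))))))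
(cons (mv 1229 (cons (mv 1036 (cons (fin 972 7 972)
(fin 1293 7 1036)))
(cons (mv 1292 (cons (fin 1228 5 1036)
(mv 1293 (cons (fin 1356 5 1100)
(mv 1357 (cons (fin 1164 7 1100)
(mv 1358 (cons (fin 1294 4 1101)
(fin 1422 4 1165)))))))))
(mv 1228 (cons (fin 1292 5 1036)
(mv 1036 (cons (fin 972 7 972)
(mv 1164 (cons (cons (mv 971 (cons (fin 1035 7 971)
(mv 1227 (cons (fin 1291 5 1035)
(mv 1166 (cons (fin 1167 1 1163)
(fin 1226 2 1162)))))))
(mv 1035 (cons (fin 971 7 971)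
(mv 1034 (cons (fin 1033 0 1033)
(mv 1098 (cons (fin 1097 1 1033)
(mv 969 (cons (fin 970 3 969)
(mv 1166 (cons (fin 1099 0 1098)
(mv 1167 (cons (fin 1168 3 1100)
(fin 1104 2 1100))))))))))))))
(cons (mv 1227 (cons (fin 1291 5 1035)
(mv 1166 (cons (fin 1167 1 1163)
(fin 1226 2 1162)))))
(mv 1227 (cons (fin 1291 5 1035)
(mv 1226 (cons (fin 1225 2 1161)
(mv 1035 (cons (fin 971 7 971)
(mv 1162 (cons (fin 1161 3 1161)
(mv 1033 (cons (fin 1034 0 1033)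
(mv 1290 (cons (fin 1289 1 1225)
(mv 1098 (cons (fin 1097 7 1033)
(fin 1099 6 1034)))))))))))))))))))))))))
(mv 1229 (cons (mv 1036 (cons (fin 972 7 972)
(fin 1293 7 1036)))
(cons (mv 1230 (cons (fin 1294 4 1037)
(mv 1292 (cons (fin 1228 5 1036)
(mv 1293 (cons (fin 1356 5 1100)
(mv 1357 (cons (fin 1164 7 1100)
(mv 1290 (cons (fin 1291 2 1226)
(mv 1166 (cons (fin 1421 6 1165)
(mv 1098 (cons (fin 1099 0 1098)
(mv 1167 (cons (fin 1168 3 1100)
(mv 1231 (cons (fin 1232 1 1228)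
(mv 1039 (cons (fin 975 5 974)
(fin 976 6 975)))))))))))))))))))))
(mv 1230 (cons (fin 1294 4 1037)
(mv 972 (cons (fin 1036 7 972)
(mv 1228 (cons (fin 1292 5 1036)
(mv 1167 (cons (mv 1166 (cons (fin 1168 3 1100)
(fin 1227 2 1163)))
(cons (mv 1231 (cons (fin 1168 2 1164)
(mv 1295 (cons (fin 1296 0 1228)
(fin 1104 6 1039)))))
(mv 1166 (cons (fin 1227 2 1163)
(mv 1099 (cons (fin 1164 3 1099)
(fin 1098 0 1098)))))))))))))))))))))))
(cons (mv 1102 (cons (mv 1036 (cons (fin 1035 3 1035)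
(fin 1104 3 1036)))
(cons (mv 1167 (cons (fin 1168 0 1100)
(mv 1166 (cons (fin 1099 0 1099)
(mv 1294 (cons (fin 1230 7 1037)
(mv 1104 (cons (cons (mv 1165 (cons (fin 1164 1 1100)
(fin 1105 1 1101)))
(mv 1295 (cons (fin 1231 6 1039)
(mv 1105 (cons (fin 1106 1 1102)
(mv 912 (cons (fin 976 5 911)
(mv 1169 (cons (fin 1170 0 1102)
(mv 1297 (cons (fin 1233 7 1040)
(mv 1296 (cons (cons (mv 1357 (cons (fin 1358 1 1293)
(mv 1293 (cons (fin 1356 1 1292)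
(mv 1361 (cons (fin 1360 0 1293)
(fin 1362 0 1294)))))))
(mv 1357 (cons (fin 1358 1 1293)
(mv 1293 (cons (fin 1356 1 1292)
(mv 1228 (cons (fin 1229 3 1228)
(mv 1292 (cons (fin 1227 3 1227)
(fin 1164 6 1036))))))))))
(cons (mv 1361 (cons (fin 1362 0 1294)
(mv 1293 (cons (fin 1360 0 1293)
(mv 1228 (cons (fin 1229 3 1228)
(mv 1292 (cons (fin 1227 3 1227)
(fin 1164 6 1036)))))))))
(mv 1362 (cons (fin 1361 0 1294)
(mv 1358 (cons (fin 1357 1 1293)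
(mv 1298 (cons (fin 1359 1 1294)
(fin 1363 0 1295)))))))))))))))))))))
(cons (mv 1164 (cons (fin 1165 1 1100)
(mv 912 (cons (fin 976 5 911)
(mv 1292 (cons (fin 1228 6 1036)
(mv 1295 (cons (fin 1231 6 1039)
(mv 1293 (cons (cons (mv 1355 (cons (fin 1356 1 1291)
(mv 1291 (cons (fin 1354 1 1290)
(mv 1359 (cons (fin 1358 0 1291)
(fin 1360 0 1292)))))))
(mv 1359 (cons (fin 1360 0 1292)
(mv 1291 (cons (fin 1358 0 1291)
(mv 1354 (cons (fin 1355 1 1290)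
(mv 1290 (cons (fin 1353 1 1289)
(mv 1226 (cons (fin 1225 3 1225)
(fin 1227 3 1226))))))))))))
(cons (mv 1356 (cons (fin 1355 1 1291)
(mv 1296 (cons (fin 1357 1 1292)
(mv 1233 (cons (fin 1232 2 1229)
(mv 1361 (cons (fin 1360 0 1293)
(mv 1297 (cons (fin 1234 2 1230)
(fin 1362 0 1294)))))))))))
(cons (mv 1360 (cons (fin 1359 0 1292)
(mv 1296 (cons (fin 1361 0 1293)
(mv 1233 (cons (fin 1232 2 1229)
(mv 1357 (cons (fin 1356 1 1292)
(mv 1297 (cons (fin 1358 1 1293)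
(fin 1234 2 1230)))))))))))
(mv 1355 (cons (fin 1356 1 1291)
(mv 1291 (cons (fin 1354 1 1290)
(mv 1226 (cons (fin 1227 3 1226)
(mv 1290 (cons (fin 1225 3 1225)
(mv 1358 (cons (fin 1357 0 1290)
(fin 1359 0 1291)))))))))))))))))))))))
(mv 1105 (cons (fin 1165 1 1101)
(fin 1106 1 1102))))))))))))
(mv 1167 (cons (fin 1168 0 1100)
(mv 1099 (cons (fin 1166 0 1099)
(mv 1035 (cons (fin 1034 3 1034)
(fin 1036 3 1035))))))))))
(cons (mv 1102 (cons (fin 1039 2 1036)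
(mv 1167 (cons (fin 1168 0 1100)
(mv 1166 (cons (fin 1099 0 1099)
(mv 1294 (cons (fin 1230 7 1037)
(mv 1104 (cons (cons (mv 1165 (cons (fin 1164 1 1100)
(fin 1105 1 1101)))
(mv 1295 (cons (fin 1231 6 1039)
(mv 1105 (cons (fin 1106 1 1102)
(mv 912 (cons (fin 976 5 911)
(mv 1169 (cons (fin 1170 0 1102)
(mv 1297 (cons (fin 1233 7 1040)
(mv 1296 (cons (cons (mv 1357 (cons (fin 1358 1 1293)
(mv 1293 (cons (fin 1356 1 1292)
(mv 1361 (cons (fin 1360 0 1293)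
(fin 1362 0 1294)))))))
(mv 1357 (cons (fin 1358 1 1293)
(mv 1293 (cons (fin 1356 1 1292)
(mv 1228 (cons (fin 1229 3 1228)
(mv 1292 (cons (fin 1227 3 1227)
(fin 1164 6 1036))))))))))
(cons (mv 1361 (cons (fin 1362 0 1294)
(mv 1293 (cons (fin 1360 0 1293)
(mv 1228 (cons (fin 1229 3 1228)
(mv 1292 (cons (fin 1227 3 1227)
(fin 1164 6 1036)))))))))
(mv 1362 (cons (fin 1361 0 1294)
(mv 1358 (cons (fin 1357 1 1293)
(mv 1298 (cons (fin 1359 1 1294)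
(fin 1363 0 1295)))))))))))))))))))))
(cons (mv 1164 (cons (fin 1165 1 1100)
(mv 912 (cons (fin 976 5 911)
(mv 1292 (cons (fin 1228 6 1036)
(mv 1295 (cons (fin 1231 6 1039)
(mv 1293 (cons (cons (mv 1355 (cons (fin 1356 1 1291)
(mv 1291 (cons (fin 1354 1 1290)
(mv 1359 (cons (fin 1358 0 1291)
(fin 1360 0 1292)))))))
(mv 1359 (cons (fin 1360 0 1292)
(mv 1291 (cons (fin 1358 0 1291)
(mv 1354 (cons (fin 1355 1 1290)
(mv 1290 (cons (fin 1353 1 1289)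
(mv 1226 (cons (fin 1225 3 1225)
(fin 1227 3 1226))))))))))))
(cons (mv 1356 (cons (fin 1355 1 1291)
(mv 1296 (cons (fin 1357 1 1292)
(mv 1233 (cons (fin 1232 2 1229)
(mv 1361 (cons (fin 1360 0 1293)
(mv 1297 (cons (fin 1234 2 1230)
(fin 1362 0 1294)))))))))))
(cons (mv 1360 (cons (fin 1359 0 1292)
(mv 1296 (cons (fin 1361 0 1293)
(mv 1233 (cons (fin 1232 2 1229)
(mv 1357 (cons (fin 1356 1 1292)
(mv 1297 (cons (fin 1358 1 1293)
(fin 1234 2 1230)))))))))))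
(mv 1355 (cons (fin 1356 1 1291)
(mv 1291 (cons (fin 1354 1 1290)
(mv 1226 (cons (fin 1227 3 1226)
(mv 1290 (cons (fin 1225 3 1225)
(mv 1358 (cons (fin 1357 0 1290)
(fin 1359 0 1291)))))))))))))))))))))))
(mv 1105 (cons (fin 1165 1 1101)
(fin 1106 1 1102))))))))))))))
(mv 1102 (cons (fin 1039 2 1036)
(mv 1167 (cons (fin 1168 0 1100)
(mv 1099 (cons (fin 1166 0 1099)
(mv 1035 (cons (fin 1034 3 1034)
(fin 1036 3 1035))))))))))))))))
(cons (cons (mv 1102 (cons (cons (mv 1103 (cons (fin 1039 2 1036)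
(mv 1036 (cons (fin 1035 3 1035)
(fin 1104 3 1036)))))
(mv 1099 (cons (cons (mv 1034 (cons (fin 1035 3 1034)
(mv 1098 (cons (fin 1033 3 1033)
(mv 1162 (cons (fin 1161 1 1097)
(fin 1163 1 1098)))))))
(mv 1162 (cons (fin 1163 1 1098)
(mv 1098 (cons (fin 1161 1 1097)
(mv 1036 (cons (fin 1097 2 1033)
(mv 1165 (cons (fin 1166 0 1098)
(mv 1229 (cons (fin 972 7 972)
(fin 1293 7 1036))))))))))))
(cons (mv 1034 (cons (fin 1035 3 1034)
(mv 1098 (cons (fin 1033 3 1033)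
(mv 1036 (cons (fin 1097 2 1033)
(mv 1165 (cons (fin 1166 0 1098)
(mv 1229 (cons (fin 972 7 972)
(fin 1293 7 1036)))))))))))
(mv 1035 (cons (fin 1034 3 1034)
(mv 1163 (cons (fin 1162 1 1098)
(mv 1164 (cons (mv 971 (cons (fin 907 4 907)
(fin 1228 4 971)))
(cons (mv 971 (cons (fin 907 4 907)
(mv 972 (cons (fin 908 6 907)
(mv 906 (cons (fin 970 7 906)
(mv 1227 (cons (fin 1036 5 971)
(mv 1226 (cons (fin 1290 5 1034)
(mv 1224 (cons (fin 1225 2 1160)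
(mv 1166 (cons (fin 1165 1 1162)
(mv 1291 (cons (fin 1355 6 1099)
(mv 1294 (cons (fin 1230 7 1037)
(mv 1292 (cons (fin 1293 3 1226)
(fin 1356 4 1099)))))))))))))))))))))
(mv 1228 (cons (fin 1292 7 1035)
(mv 1036 (cons (mv 972 (cons (fin 908 5 907)
(fin 1227 5 971)))
(cons (mv 908 (cons (fin 972 5 907)
(mv 1229 (cons (fin 1293 4 1036)
(mv 1230 (cons (fin 1231 3 1163)
(mv 1294 (cons (fin 1166 7 1037)
(fin 1165 4 1037)))))))))
(mv 1229 (cons (fin 1293 4 1036)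
(mv 1230 (cons (fin 1231 3 1163)
(mv 1294 (cons (fin 1166 7 1037)
(fin 1165 4 1037)))))))))))))))))))))))
(cons (mv 1039 (cons (fin 1103 2 1036)
(mv 1099 (cons (cons (mv 1034 (cons (fin 1035 3 1034)
(mv 1098 (cons (fin 1033 3 1033)
(mv 1162 (cons (fin 1161 1 1097)
(fin 1163 1 1098)))))))
(cons (mv 1034 (cons (fin 1035 3 1034)
(mv 1098 (cons (fin 1033 3 1033)
(mv 1165 (cons (fin 1166 0 1098)
(mv 1164 (cons (fin 1097 0 1097)
(mv 1229 (cons (cons (mv 1228 (cons (fin 1292 5 1036)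
(mv 1293 (cons (fin 1357 7 1100)
(mv 1294 (cons (fin 1230 4 1037)
(fin 1358 4 1101)))))))
(mv 1294 (cons (fin 1230 4 1037)
(mv 1293 (cons (fin 1357 7 1100)
(fin 1358 4 1101))))))
(cons (mv 1228 (cons (fin 1292 5 1036)
(mv 1230 (cons (fin 1294 4 1037)
(mv 1231 (cons (fin 1163 3 1163)
(fin 1232 3 1164)))))))
(mv 1293 (cons (fin 1357 7 1100)
(mv 1292 (cons (fin 1228 5 1036)
(fin 1356 5 1100))))))))))))))))
(mv 1162 (cons (fin 1163 1 1098)
(mv 1098 (cons (fin 1161 1 1097)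
(mv 1165 (cons (fin 1166 0 1098)
(mv 1164 (cons (fin 1097 0 1097)
(mv 1292 (cons (fin 1228 6 1036)
(mv 1293 (cons (cons (mv 1229 (cons (fin 1357 7 1100)
(fin 1356 5 1100)))
(mv 1290 (cons (cons (mv 1226 (cons (fin 1035 6 1034)
(mv 1291 (cons (fin 1225 3 1225)
(fin 1355 4 1098)))))
(mv 1291 (cons (cons (mv 1353 (cons (fin 1354 1 1289)
(mv 1289 (cons (fin 1352 1 1288)
(mv 1357 (cons (fin 1356 0 1289)
(fin 1358 0 1290)))))))
(mv 1357 (cons (fin 1358 0 1290)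
(mv 1289 (cons (fin 1356 0 1289)
(mv 1352 (cons (fin 1353 1 1288)
(mv 1288 (cons (fin 1351 1 1287)
(mv 1224 (cons (fin 1223 3 1223)
(fin 1225 3 1224))))))))))))
(cons (mv 1354 (cons (fin 1353 1 1289)
(mv 1294 (cons (fin 1355 1 1290)
(mv 1231 (cons (fin 1230 2 1227)
(mv 1359 (cons (fin 1358 0 1291)
(mv 1295 (cons (fin 1232 2 1228)
(fin 1360 0 1292)))))))))))
(cons (mv 1358 (cons (fin 1357 0 1290)
(mv 1294 (cons (fin 1359 0 1291)
(mv 1231 (cons (fin 1230 2 1227)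
(mv 1355 (cons (fin 1354 1 1290)
(mv 1295 (cons (fin 1356 1 1291)
(fin 1232 2 1228)))))))))))
(mv 1353 (cons (fin 1354 1 1289)
(mv 1289 (cons (fin 1352 1 1288)
(mv 1224 (cons (fin 1225 3 1224)
(mv 1288 (cons (fin 1223 3 1223)
(mv 1356 (cons (fin 1355 0 1288)
(fin 1357 0 1289))))))))))))))))
(cons (mv 1226 (cons (fin 1035 6 1034)
(mv 1353 (cons (fin 1289 5 1097)
(mv 1354 (cons (fin 1417 5 1161)
(mv 1355 (cons (fin 1356 2 1289)
(fin 1419 4 1162)))))))))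
(mv 1226 (cons (fin 1035 6 1034)
(mv 1289 (cons (fin 1353 5 1097)
(mv 1291 (cons (fin 1225 3 1225)
(mv 1357 (cons (fin 1356 0 1289)
(fin 1358 0 1290)))))))))))))
(cons (mv 1229 (cons (fin 1356 5 1100)
(mv 1294 (cons (fin 1230 4 1037)
(fin 1358 4 1101)))))
(mv 1229 (cons (fin 1357 7 1100)
(mv 1294 (cons (fin 1230 4 1037)
(fin 1358 4 1101))))))))))))))))))))
(cons (mv 1034 (cons (fin 1035 3 1034)
(mv 1098 (cons (fin 1033 3 1033)
(mv 1161 (cons (fin 1162 1 1097)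
(mv 1097 (cons (fin 1160 1 1096)
(mv 1165 (cons (fin 1164 0 1097)
(fin 1166 0 1098)))))))))))
(cons (mv 1162 (cons (fin 1163 1 1098)
(mv 1098 (cons (fin 1161 1 1097)
(mv 1033 (cons (fin 1034 3 1033)
(mv 1097 (cons (fin 1032 3 1032)
(mv 1165 (cons (fin 1164 0 1097)
(fin 1166 0 1098)))))))))))
(mv 1163 (cons (fin 1162 1 1098)
(mv 1035 (cons (fin 1034 3 1034)
(mv 971 (cons (mv 1164 (cons (fin 907 4 907)
(fin 1228 4 971)))
(cons (mv 906 (cons (fin 970 7 906)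
(mv 907 (cons (fin 842 7 842)
(mv 908 (cons (fin 844 6 843)
(fin 972 6 907)))))))
(mv 908 (cons (fin 972 6 907)
(mv 906 (cons (fin 970 7 906)
(mv 1227 (cons (cons (mv 1228 (cons (fin 1164 4 971)
(fin 1292 4 1035)))
(mv 1290 (cons (fin 1226 5 1034)
(mv 1291 (cons (fin 1354 5 1098)
(mv 1355 (cons (fin 1164 6 1099)
(mv 1356 (cons (fin 1292 4 1099)
(fin 1420 4 1163))))))))))
(cons (mv 1290 (cons (fin 1226 5 1034)
(mv 1164 (cons (fin 1228 4 971)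
(mv 1291 (cons (fin 1354 5 1098)
(fin 1355 6 1099)))))))
(mv 1290 (cons (fin 1226 5 1034)
(mv 1292 (cons (fin 1228 4 1035)
(mv 1291 (cons (fin 1354 5 1098)
(fin 1356 4 1099)))))))))))))))))))))))))))
(mv 1103 (cons (fin 1039 2 1036)
(mv 1163 (cons (fin 1164 1 1099)
(mv 1099 (cons (fin 1162 1 1098)
(mv 1036 (cons (fin 1104 3 1036)
(mv 1098 (cons (fin 1097 2 1033)
(mv 1227 (cons (fin 1291 6 1035)
(mv 1165 (cons (fin 1166 0 1098)
(mv 972 (cons (fin 1229 7 972)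
(fin 908 5 907))))))))))))))))))))
(mv 1102 (cons (cons (mv 1103 (cons (fin 1039 2 1036)
(mv 1036 (cons (fin 1035 3 1035)
(fin 1104 3 1036)))))
(mv 1099 (cons (cons (mv 1166 (cons (fin 1167 0 1099)
(mv 1098 (cons (fin 1165 0 1098)
(mv 1034 (cons (fin 1033 3 1033)
(fin 1035 3 1034)))))))
(cons (mv 1034 (cons (fin 1035 3 1034)
(mv 1098 (cons (fin 1033 3 1033)
(mv 1097 (cons (fin 1036 2 1033)
(mv 1160 (cons (fin 1161 1 1096)
(mv 1096 (cons (fin 1159 1 1095)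
(mv 1164 (cons (fin 1163 0 1096)
(fin 1165 0 1097)))))))))))))
(mv 1166 (cons (fin 1167 0 1099)
(mv 1098 (cons (fin 1165 0 1098)
(mv 1097 (cons (fin 1036 2 1033)
(mv 1230 (cons (fin 1294 7 1037)
(mv 1032 (cons (fin 1033 3 1032)
(mv 1096 (cons (fin 1031 3 1031)
(mv 1160 (cons (fin 1159 1 1095)
(fin 1161 1 1096)))))))))))))))))
(cons (mv 1166 (cons (fin 1167 0 1099)
(mv 1035 (cons (fin 1034 3 1034)
(mv 1230 (cons (fin 1294 7 1037)
(mv 971 (cons (cons (mv 907 (cons (fin 1164 4 907)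
(mv 843 (cons (fin 1036 4 843)
(mv 844 (cons (fin 780 6 779)
(fin 908 6 843)))))))
(mv 907 (cons (cons (mv 843 (cons (fin 1036 4 843)
(mv 844 (cons (fin 780 6 779)
(fin 908 6 843)))))
(mv 842 (cons (fin 906 7 842)
(mv 908 (cons (fin 844 6 843)
(mv 972 (cons (fin 1163 6 907)
(mv 1036 (cons (fin 1165 4 908)
(mv 909 (cons (fin 845 6 844)
(mv 970 (cons (fin 910 1 906)
(fin 969 2 905))))))))))))))
(cons (mv 843 (cons (fin 1036 4 843)
(mv 842 (cons (fin 778 7 778)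
(fin 906 7 842)))))
(mv 842 (cons (fin 906 7 842)
(mv 843 (cons (fin 778 7 778)
(mv 844 (cons (fin 780 6 779)
(fin 908 6 843)))))))))))
(cons (mv 1228 (cons (cons (mv 1164 (cons (fin 1036 7 971)
(fin 1292 7 1035)))
(mv 1163 (cons (cons (mv 906 (cons (fin 970 7 906)
(mv 1227 (cons (fin 1292 4 1035)
(mv 972 (cons (fin 908 6 907)
(fin 1036 6 971)))))))
(mv 972 (cons (fin 908 6 907)
(mv 970 (cons (fin 906 7 906)
(mv 969 (cons (fin 1036 0 969)
(mv 1032 (cons (fin 1033 1 968)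
(mv 968 (cons (fin 1031 1 967)
(mv 904 (cons (fin 903 3 903)
(fin 905 3 904))))))))))))))
(cons (mv 906 (cons (fin 970 7 906)
(mv 1227 (cons (fin 1292 4 1035)
(mv 1291 (cons (fin 1036 6 1035)
(mv 1290 (cons (fin 1229 1 1226)
(fin 1226 5 1034)))))))))
(cons (mv 1227 (cons (fin 1292 4 1035)
(mv 972 (cons (fin 908 6 907)
(fin 1036 6 971)))))
(mv 908 (cons (fin 972 6 907)
(mv 906 (cons (fin 970 7 906)
(mv 1227 (cons (fin 1292 4 1035)
(mv 1290 (cons (fin 1226 5 1034)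
(mv 1291 (cons (fin 1229 1 1226)
(fin 1354 5 1098))))))))))))))))
(cons (mv 1164 (cons (fin 1036 7 971)
(fin 1163 4 971)))
(mv 1164 (cons (fin 1292 7 1035)
(fin 1163 4 971))))))
(cons (mv 907 (cons (fin 1164 4 907)
(mv 842 (cons (fin 906 7 842)
(mv 843 (cons (fin 778 7 778)
(mv 844 (cons (fin 780 6 779)
(fin 908 6 843)))))))))
(mv 907 (cons (fin 1164 4 907)
(mv 843 (cons (fin 1036 4 843)
(mv 842 (cons (fin 778 7 778)
(fin 906 7 842)))))))))))))))))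
(cons (mv 1166 (cons (fin 1167 0 1099)
(mv 1034 (cons (fin 1035 3 1034)
(mv 1098 (cons (fin 1033 3 1033)
(mv 1230 (cons (fin 1294 7 1037)
(mv 1036 (cons (fin 1097 2 1033)
(mv 972 (cons (mv 908 (cons (fin 1163 5 907)
(fin 844 4 844)))
(cons (mv 970 (cons (cons (mv 969 (cons (fin 971 0 969)
(mv 906 (cons (fin 1163 4 906)
(mv 843 (cons (fin 907 6 842)
(mv 842 (cons (fin 779 6 778)
(mv 841 (cons (fin 777 7 777)
(fin 905 7 841)))))))))))
(mv 971 (cons (fin 969 0 969)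
(mv 907 (cons (fin 1164 7 907)
(mv 843 (cons (fin 779 5 778)
(fin 906 6 842))))))))
(cons (mv 971 (cons (fin 969 0 969)
(mv 1164 (cons (fin 907 7 907)
(mv 1163 (cons (fin 1227 5 971)
(mv 1228 (cons (fin 1292 6 1036)
(mv 1229 (cons (fin 1231 3 1163)
(fin 1293 4 1036)))))))))))
(cons (mv 906 (cons (fin 1163 4 906)
(mv 843 (cons (fin 907 6 842)
(mv 842 (cons (fin 779 6 778)
(mv 841 (cons (fin 777 7 777)
(fin 905 7 841)))))))))
(mv 1163 (cons (fin 906 4 906)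
(mv 1227 (cons (fin 1291 7 1034)
(fin 1164 5 971)))))))))
(mv 908 (cons (fin 844 4 844)
(mv 909 (cons (fin 845 6 844)
(mv 907 (cons (fin 843 7 843)
(mv 971 (cons (fin 1164 7 907)
(mv 970 (cons (fin 910 1 906)
(fin 969 2 905))))))))))))))))))))))))
(mv 1034 (cons (fin 1035 3 1034)
(mv 1166 (cons (fin 1167 0 1099)
(mv 1098 (cons (fin 1165 0 1098)
(mv 1230 (cons (fin 1294 7 1037)
(mv 1036 (cons (fin 1097 2 1033)
(mv 972 (cons (mv 908 (cons (fin 1163 5 907)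
(fin 844 4 844)))
(cons (mv 970 (cons (cons (mv 969 (cons (fin 971 0 969)
(mv 906 (cons (fin 1163 4 906)
(mv 843 (cons (fin 907 6 842)
(mv 842 (cons (fin 779 6 778)
(mv 841 (cons (fin 777 7 777)
(fin 905 7 841)))))))))))
(mv 971 (cons (fin 969 0 969)
(mv 907 (cons (fin 1164 7 907)
(mv 843 (cons (fin 779 5 778)
(fin 906 6 842))))))))
(cons (mv 971 (cons (fin 969 0 969)
(mv 1164 (cons (fin 907 7 907)
(mv 1163 (cons (fin 1227 5 971)
(mv 1228 (cons (fin 1292 6 1036)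
(mv 1229 (cons (fin 1231 3 1163)
(fin 1293 4 1036)))))))))))
(cons (mv 906 (cons (fin 1163 4 906)
(mv 843 (cons (fin 907 6 842)
(mv 842 (cons (fin 779 6 778)
(mv 841 (cons (fin 777 7 777)
(fin 905 7 841)))))))))
(mv 1163 (cons (fin 906 4 906)
(mv 1227 (cons (fin 1291 7 1034)
(fin 1164 5 971)))))))))
(mv 908 (cons (fin 844 4 844)
(mv 909 (cons (fin 845 6 844)
(mv 907 (cons (fin 843 7 843)
(mv 971 (cons (fin 1164 7 907)
(mv 970 (cons (fin 910 1 906)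
(fin 969 2 905)))))))))))))))))))))))))))))
(cons (mv 1103 (cons (fin 1039 2 1036)
(mv 1164 (cons (fin 1163 1 1099)
(mv 1167 (cons (fin 1168 0 1100)
(mv 1099 (cons (fin 1166 0 1099)
(mv 1034 (cons (fin 1035 3 1034)
(mv 1098 (cons (fin 1033 3 1033)
(mv 1165 (cons (fin 1104 1 1100)
(fin 1097 0 1097)))))))))))))))
(mv 1103 (cons (fin 1039 2 1036)
(mv 1163 (cons (fin 1164 1 1099)
(mv 1167 (cons (fin 1168 0 1100)
(mv 1166 (cons (fin 1099 0 1099)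
(mv 1104 (cons (fin 1036 3 1036)
(mv 1105 (cons (fin 1165 1 1101)
(fin 1106 1 1102)))))))))))))))))
(cons (mv 1102 (cons (mv 1103 (cons (fin 1039 2 1036)
(mv 1036 (cons (fin 1035 3 1035)
(fin 1104 3 1036)))))
(cons (mv 1099 (cons (cons (mv 1034 (cons (fin 1035 3 1034)
(mv 1098 (cons (fin 1033 3 1033)
(mv 1166 (cons (fin 1165 0 1098)
(fin 1167 0 1099)))))))
(mv 1034 (cons (fin 1035 3 1034)
(mv 1098 (cons (fin 1033 3 1033)
(mv 1163 (cons (fin 1162 1 1098)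
(mv 1036 (cons (fin 1097 2 1033)
(mv 906 (cons (fin 970 4 906)
(mv 1227 (cons (fin 1291 7 1034)
(mv 972 (cons (fin 908 5 907)
(fin 1164 5 971))))))))))))))))
(cons (mv 1163 (cons (fin 1162 1 1098)
(mv 1166 (cons (fin 1167 0 1099)
(mv 1098 (cons (fin 1165 0 1098)
(mv 1036 (cons (fin 1097 2 1033)
(mv 1230 (cons (fin 1294 7 1037)
(mv 972 (cons (fin 908 5 907)
(mv 1227 (cons (fin 1164 5 971)
(fin 1035 6 971)))))))))))))))
(cons (mv 1166 (cons (fin 1167 0 1099)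
(mv 1098 (cons (fin 1165 0 1098)
(mv 1036 (cons (fin 1097 2 1033)
(mv 1033 (cons (fin 1034 3 1033)
(mv 1230 (cons (fin 1294 7 1037)
(mv 1163 (cons (fin 1162 1 1098)
(mv 972 (cons (fin 908 5 907)
(mv 1227 (cons (fin 1164 5 971)
(fin 1291 6 1035)))))))))))))))))
(mv 1163 (cons (fin 1162 1 1098)
(mv 1034 (cons (fin 1035 3 1034)
(mv 1166 (cons (fin 1167 0 1099)
(mv 1230 (cons (fin 1294 7 1037)
(mv 1164 (cons (cons (mv 1165 (cons (fin 1231 0 1163)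
(mv 1227 (cons (fin 1226 1 1162)
(mv 1036 (cons (fin 972 5 971)
(fin 1291 6 1035)))))))
(mv 1228 (cons (fin 1292 6 1036)
(mv 1229 (cons (fin 1231 3 1163)
(mv 1036 (cons (fin 1293 4 1036)
(mv 972 (cons (fin 908 5 907)
(fin 1227 5 971))))))))))
(cons (mv 1228 (cons (fin 1292 6 1036)
(mv 1227 (cons (mv 1036 (cons (fin 972 5 971)
(fin 1291 5 1035)))
(cons (mv 1226 (cons (fin 1165 1 1162)
(mv 1036 (cons (fin 972 5 971)
(mv 1225 (cons (fin 1224 2 1160)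
(mv 1229 (cons (fin 1293 4 1036)
(mv 1289 (cons (fin 1288 1 1224)
(fin 1290 1 1225)))))))))))
(mv 1291 (cons (fin 1355 6 1099)
(mv 1290 (cons (fin 1229 1 1226)
(fin 1354 5 1098))))))))))
(mv 1228 (cons (fin 1292 6 1036)
(mv 1231 (cons (fin 1229 3 1163)
(fin 1165 0 1163))))))))))))))))))))
(mv 1103 (cons (fin 1039 2 1036)
(mv 1163 (cons (fin 1164 1 1099)
(mv 1099 (cons (fin 1162 1 1098)
(mv 1167 (cons (fin 1166 0 1099)
(fin 1168 0 1100))))))))))))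
(cons (mv 1102 (cons (mv 1103 (cons (fin 1039 2 1036)
(mv 1036 (cons (fin 1035 3 1035)
(fin 1104 3 1036)))))
(cons (mv 1099 (cons (cons (mv 1034 (cons (fin 1035 3 1034)
(mv 1098 (cons (fin 1033 3 1033)
(mv 1162 (cons (fin 1161 1 1097)
(fin 1163 1 1098)))))))
(mv 1166 (cons (fin 1167 0 1099)
(mv 1098 (cons (fin 1165 0 1098)
(mv 1162 (cons (fin 1161 1 1097)
(fin 1163 1 1098))))))))
(cons (mv 1034 (cons (fin 1035 3 1034)
(mv 1098 (cons (fin 1033 3 1033)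
(mv 1166 (cons (fin 1165 0 1098)
(fin 1167 0 1099)))))))
(mv 1035 (cons (fin 1034 3 1034)
(mv 1163 (cons (fin 1162 1 1098)
(mv 1166 (cons (fin 1167 0 1099)
(mv 1164 (cons (mv 971 (cons (fin 907 4 907)
(fin 1228 4 971)))
(cons (mv 971 (cons (fin 907 4 907)
(mv 972 (cons (fin 908 6 907)
(mv 906 (cons (fin 970 7 906)
(mv 1227 (cons (fin 1036 5 971)
(mv 1226 (cons (fin 1165 1 1162)
(fin 1290 5 1034)))))))))))
(mv 1228 (cons (fin 1292 7 1035)
(mv 1227 (cons (mv 1226 (cons (fin 1165 1 1162)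
(fin 1290 5 1034)))
(mv 1036 (cons (fin 972 5 971)
(fin 1291 5 1035)))))))))))))))))))
(mv 1103 (cons (fin 1039 2 1036)
(mv 1163 (cons (fin 1164 1 1099)
(mv 1099 (cons (fin 1162 1 1098)
(mv 1167 (cons (fin 1166 0 1099)
(fin 1168 0 1100))))))))))))
(mv 1102 (cons (mv 1103 (cons (fin 1039 2 1036)
(mv 1036 (cons (fin 1035 3 1035)
(fin 1104 3 1036)))))
(cons (mv 1099 (cons (cons (mv 1034 (cons (fin 1035 3 1034)
(mv 1098 (cons (fin 1033 3 1033)
(mv 1162 (cons (fin 1161 1 1097)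
(fin 1163 1 1098)))))))
(mv 1166 (cons (fin 1167 0 1099)
(mv 1098 (cons (fin 1165 0 1098)
(mv 1162 (cons (fin 1161 1 1097)
(fin 1163 1 1098))))))))
(cons (mv 1166 (cons (fin 1167 0 1099)
(mv 1098 (cons (fin 1165 0 1098)
(mv 1034 (cons (fin 1033 3 1033)
(fin 1035 3 1034)))))))
(mv 1166 (cons (fin 1167 0 1099)
(mv 1163 (cons (fin 1162 1 1098)
(mv 1230 (cons (fin 1294 7 1037)
(mv 1035 (cons (fin 1034 3 1034)
(mv 1164 (cons (mv 971 (cons (fin 907 4 907)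
(fin 1228 4 971)))
(cons (mv 971 (cons (fin 907 4 907)
(mv 972 (cons (fin 908 6 907)
(mv 1165 (cons (fin 1231 0 1163)
(mv 970 (cons (fin 906 7 906)
(mv 1036 (cons (fin 969 0 969)
(fin 1229 7 972)))))))))))
(mv 1231 (cons (fin 1165 0 1163)
(mv 1228 (cons (fin 1229 3 1163)
(fin 1292 7 1035)))))))))))))))))))
(mv 1103 (cons (fin 1039 2 1036)
(mv 1163 (cons (fin 1164 1 1099)
(mv 1099 (cons (fin 1162 1 1098)
(mv 1167 (cons (fin 1166 0 1099)
(fin 1168 0 1100))))))))))))))))))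
def l87 : Lem := ⟨27165970580987716998801060511898218296576498249284212550989014064902099754540289998008098888203096194445487141934157582715221207221627949415778348760750566186924182364999928905689799534757843959984884367813118380264633771435583218431609745572151264086860185278594508511769274459891410842803126299426599840657831449368115902676992000, 16591102988028796405587570817222875270105057591455938122257600454407293003258553924282389419004893450677434756483381765439133616620675341981069017563547950197455914342644441224998049369730210101004946656097515141583853399435706766928778795446071178154827749279110317901242891448880757251092805897202857877624404094782399296976012812171972778718459306860368310969139175670918429803563583118123885225910315966868668322664327805312089002625023315279872, 16591102988028796405587570817222875270105057591455938122257600454407293003258553924282389419004893450677434756483381765439133616620675341981069017563547950197455914342644441224998049369730210101004946656097515141583853399435706766928778795446071178154827749279110317901242891448880757251092805897202857877624404094782399296976012812171972778718459306860368310969139175670918429803563583118123885225910315966868668322664327805312089002625023315279872,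 18, 33⟩
theorem l87_valid : l87.Valid :=
  Lem.valid_of_chk t87 t87_valid [1037, 1040, 1101] c87 l87 (by decide +kernel)
end Crest.Agent.SnakyAux
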