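import Crest.Agent.S0047_aux.Checker

set_option autoImplicit false
set_option maxRecDepth 100000
namespace Crest.Agent.SnakyAux
open Cert
def t81 : Tbl := Tbl.nil
theorem t81_valid : t81.Valid := Tbl.valid_nil
def c81 : Cert :=
(mv 1098 (cons (cons (cons (cons (mv 1099 (cons (fin 1100 3 1033)
(mv 1031 (cons (fin 1032 0 1031)
(mv 969 (cons (cons (mv 1162 (cons (fin 1226 7 969)
(mv 905 (cons (fin 970 7 905)
(fin 841 4 841)))))
(mv 905 (cons (fin 841 4 841)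
(mv 1097 (cons (mv 840 (cons (fin 904 7 840)
(mv 842 (cons (fin 906 6 841)
(mv 1096 (cons (fin 1160 5 904)
(mv 1095 (cons (fin 1030 3 1030)
(fin 1094 2 1030)))))))))
(cons (mv 840 (cons (fin 904 7 840)
(mv 906 (cons (fin 842 6 841)
(mv 970 (cons (fin 1161 5 905)
(fin 1163 4 906)))))))
(mv 1096 (cons (fin 1160 5 904)
(mv 1095 (cons (fin 1030 3 1030)
(fin 1094 2 1030)))))))))))
(cons (mv 1162 (cons (fin 1226 7 969)
(mv 970 (cons (mv 1163 (cons (fin 906 4 906)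
(fin 1227 4 970)))
(cons (mv 1161 (cons (fin 1225 5 969)
(mv 906 (cons (fin 1097 5 905)
(mv 842 (cons (fin 778 5 777)
(fin 1035 4 842)))))))
(mv 1161 (cons (fin 1225 5 969)
(mv 1160 (cons (fin 1159 2 1095)
(mv 1163 (cons (fin 1227 4 970)
(mv 1224 (cons (fin 1223 1 1159)
(fin 1097 5 968))))))))))))))
(mv 1162 (cons (fin 1226 7 969)
(mv 905 (cons (fin 841 4 841)
(fin 1097 4 905))))))))))))
(mv 970 (cons (cons (mv 906 (cons (mv 1097 (cons (fin 842 5 841)
(fin 1161 5 905)))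
(cons (mv 841 (cons (fin 905 7 841)
(mv 842 (cons (fin 777 7 777)
(mv 843 (cons (fin 779 6 778)
(fin 907 6 842)))))))
(mv 843 (cons (fin 907 6 842)
(mv 1097 (cons (fin 1161 5 905)
(mv 905 (cons (fin 841 7 841)
(mv 969 (cons (fin 1162 7 905)
(mv 840 (cons (fin 904 7 840)
(mv 1096 (cons (fin 1160 5 904)
(mv 1095 (cons (fin 1094 2 1030)
(fin 1035 2 1031))))))))))))))))))
(cons (mv 1162 (cons (mv 969 (cons (fin 905 7 905)
(fin 1226 7 969)))
(mv 1163 (cons (fin 1227 4 970)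
(mv 1161 (cons (fin 1225 5 969)
(mv 1164 (cons (fin 1100 2 1097)
(mv 1096 (cons (fin 1097 3 1096)
(mv 1095 (cons (fin 1160 3 1095)
(mv 1228 (cons (fin 1229 0 1161)
(mv 1032 (cons (fin 1035 1 1031)
(mv 1094 (cons (fin 1031 1 1030)
(fin 1093 2 1029)))))))))))))))))))
(mv 906 (cons (mv 1097 (cons (fin 842 5 841)
(fin 1161 5 905)))
(cons (mv 841 (cons (fin 905 7 841)
(mv 842 (cons (fin 777 7 777)
(mv 843 (cons (fin 779 6 778)
(fin 907 6 842)))))))
(mv 907 (cons (fin 843 6 842)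
(mv 1097 (cons (fin 1161 5 905)
(mv 905 (cons (fin 841 7 841)
(mv 908 (cons (fin 972 0 905)
(mv 844 (cons (fin 845 2 841)
(mv 968 (cons (fin 969 1 904)
(mv 904 (cons (fin 967 1 903)
(mv 840 (cons (fin 839 3 839)
(fin 1032 4 840))))))))))))))))))))))
(cons (cons (mv 1162 (cons (cons (mv 1161 (cons (fin 1225 5 969)
(mv 906 (cons (fin 1097 5 905)
(mv 843 (cons (fin 907 6 842)
(mv 842 (cons (fin 779 6 778)
(mv 841 (cons (fin 777 7 777)
(fin 905 7 841)))))))))))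
(mv 1227 (cons (fin 1163 4 970)
(mv 1226 (cons (fin 1291 4 1034)
(mv 1289 (cons (fin 1225 5 1033)
(mv 1290 (cons (fin 1097 7 1033)
(fin 1353 5 1097))))))))))
(cons (mv 1227 (cons (fin 1163 4 970)
(mv 1226 (cons (fin 1291 4 1034)
(mv 1097 (cons (fin 1290 7 1033)
(mv 906 (cons (fin 842 5 841)
(fin 1161 5 905)))))))))
(mv 1227 (cons (fin 1163 4 970)
(mv 1225 (cons (fin 1161 5 969)
(mv 1226 (cons (fin 1289 5 1033)
(fin 1291 4 1034))))))))))
(mv 906 (cons (cons (mv 841 (cons (fin 905 7 841)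
(mv 842 (cons (fin 777 7 777)
(mv 843 (cons (fin 779 6 778)
(fin 907 6 842)))))))
(mv 843 (cons (fin 907 6 842)
(mv 842 (cons (fin 779 6 778)
(mv 778 (cons (fin 969 5 777)
(mv 777 (cons (fin 713 7 713)
(fin 841 7 777))))))))))
(cons (mv 843 (cons (fin 907 6 842)
(mv 842 (cons (fin 779 6 778)
(mv 969 (cons (fin 778 5 777)
(mv 1162 (cons (fin 905 7 905)
(fin 1226 7 969)))))))))
(mv 905 (cons (fin 841 7 841)
(mv 1162 (cons (fin 969 7 905)
(mv 1227 (cons (fin 1163 4 970)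
(mv 1225 (cons (fin 1161 5 969)
(mv 1226 (cons (fin 1289 5 1033)
(fin 1291 4 1034)))))))))))))))
(cons (mv 906 (cons (mv 1097 (cons (fin 842 5 841)
(fin 1161 5 905)))
(cons (mv 843 (cons (fin 907 6 842)
(mv 842 (cons (fin 779 6 778)
(mv 778 (cons (fin 969 5 777)
(mv 777 (cons (fin 713 7 713)
(fin 841 7 777)))))))))
(mv 843 (cons (fin 907 6 842)
(mv 1161 (cons (fin 1097 5 905)
(mv 1162 (cons (fin 1225 5 969)
(mv 1226 (cons (fin 969 7 969)
(mv 1227 (cons (fin 1163 4 970)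
(fin 1291 4 1034))))))))))))))
(mv 1162 (cons (mv 969 (cons (fin 905 7 905)
(fin 1226 7 969)))
(cons (mv 1227 (cons (fin 1163 4 970)
(mv 1226 (cons (fin 1291 4 1034)
(mv 1289 (cons (fin 1225 5 1033)
(mv 1290 (cons (fin 1097 7 1033)
(fin 1353 5 1097)))))))))
(mv 905 (cons (fin 969 7 905)
(mv 906 (cons (fin 841 7 841)
(mv 1163 (cons (fin 1227 4 970)
(mv 843 (cons (fin 907 6 842)
(mv 842 (cons (fin 1097 5 841)
(fin 779 6 778)))))))))))))))))))
(cons (mv 969 (cons (cons (mv 1162 (cons (fin 1226 7 969)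
(mv 905 (cons (fin 970 7 905)
(fin 841 4 841)))))
(mv 1162 (cons (fin 1226 7 969)
(mv 970 (cons (cons (mv 1163 (cons (fin 1227 4 970)
(mv 906 (cons (fin 1099 4 906)
(mv 1161 (cons (fin 1097 5 905)
(fin 1225 5 969)))))))
(mv 1163 (cons (fin 1227 4 970)
(mv 906 (cons (fin 1099 4 906)
(mv 842 (cons (fin 778 5 777)
(fin 1097 5 841))))))))
(cons (mv 1161 (cons (fin 1225 5 969)
(mv 906 (cons (fin 1097 5 905)
(mv 842 (cons (fin 778 5 777)
(mv 843 (cons (fin 779 6 778)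
(fin 907 6 842)))))))))
(cons (mv 1161 (cons (fin 1225 5 969)
(mv 1163 (cons (fin 1227 4 970)
(mv 1097 (cons (mv 1096 (cons (fin 1164 3 1096)
(fin 1095 0 1095)))
(mv 1160 (cons (fin 1224 5 968)
(mv 1159 (cons (fin 1158 2 1094)
(fin 1099 2 1095)))))))))))
(mv 1163 (cons (fin 1227 4 970)
(mv 906 (cons (fin 1099 4 906)
(mv 843 (cons (fin 907 6 842)
(mv 842 (cons (fin 778 5 777)
(fin 779 6 778))))))))))))))))
(cons (mv 905 (cons (fin 841 4 841)
(mv 1097 (cons (mv 840 (cons (fin 904 7 840)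
(mv 842 (cons (fin 906 6 841)
(mv 1096 (cons (fin 1160 5 904)
(mv 1095 (cons (fin 1094 2 1030)
(fin 1035 2 1031)))))))))
(cons (mv 1096 (cons (fin 1160 5 904)
(mv 1095 (cons (fin 1094 2 1030)
(fin 1035 2 1031)))))
(mv 840 (cons (fin 904 7 840)
(mv 906 (cons (fin 842 6 841)
(mv 970 (cons (fin 1161 5 905)
(mv 907 (cons (fin 843 6 842)
(mv 908 (cons (fin 968 1 904)
(fin 972 0 905))))))))))))))))
(mv 905 (cons (fin 841 4 841)
(mv 1162 (cons (fin 1226 7 969)
(fin 1097 4 905))))))))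
(mv 1099 (cons (fin 1100 3 1033)
(mv 1032 (cons (fin 1031 0 1031)
(mv 970 (cons (cons (mv 906 (cons (fin 1163 4 906)
(mv 842 (cons (fin 1097 5 841)
(fin 1035 4 842)))))
(mv 1162 (cons (cons (mv 1161 (cons (fin 1225 5 969)
(mv 1159 (cons (fin 1160 2 1095)
(mv 1227 (cons (fin 1163 4 970)
(mv 1226 (cons (fin 1291 4 1034)
(mv 1290 (cons (fin 1097 7 1033)
(fin 1035 6 1034)))))))))))
(cons (mv 1225 (cons (fin 1161 5 969)
(mv 1226 (cons (fin 1289 5 1033)
(mv 1290 (cons (fin 1097 7 1033)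
(fin 1035 6 1034)))))))
(mv 1227 (cons (fin 1163 4 970)
(mv 1226 (cons (fin 1291 4 1034)
(mv 1290 (cons (fin 1097 7 1033)
(fin 1035 6 1034)))))))))
(cons (mv 1163 (cons (fin 1227 4 970)
(mv 1161 (cons (fin 1225 5 969)
(mv 1160 (cons (fin 1159 2 1095)
(mv 1223 (cons (fin 1224 1 1159)
(mv 1096 (cons (fin 1095 3 1095)
(mv 1097 (cons (fin 1164 3 1096)
(mv 968 (cons (fin 904 4 904)
(mv 967 (cons (fin 1035 3 967)
(fin 903 7 903)))))))))))))))))
(cons (mv 1161 (cons (fin 1225 5 969)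
(mv 1160 (cons (fin 1159 2 1095)
(mv 1163 (cons (fin 1227 4 970)
(mv 1224 (cons (fin 1223 1 1159)
(mv 1096 (cons (fin 1095 3 1095)
(mv 1097 (cons (fin 1164 3 1096)
(fin 1288 6 1032)))))))))))))
(mv 1163 (cons (fin 1227 4 970)
(mv 1225 (cons (fin 1161 5 969)
(mv 1226 (cons (fin 1289 5 1033)
(mv 1290 (cons (fin 1035 6 1034)
(fin 1354 6 1098))))))))))))))
(cons (mv 906 (cons (cons (mv 842 (cons (fin 1097 5 841)
(fin 1035 4 842)))
(mv 905 (cons (fin 841 7 841)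
(mv 907 (cons (fin 843 6 842)
(mv 1161 (cons (fin 1097 5 905)
(mv 1225 (cons (fin 1162 5 969)
(mv 968 (cons (cons (mv 967 (cons (fin 1035 3 967)
(fin 904 1 903)))
(mv 1096 (cons (fin 1160 4 968)
(mv 1095 (cons (fin 1035 1 1031)
(mv 904 (cons (fin 1159 5 903)
(mv 839 (cons (fin 840 3 839)
(fin 903 7 839))))))))))
(cons (mv 908 (cons (fin 972 0 905)
(mv 844 (cons (fin 845 2 841)
(mv 1035 (cons (fin 967 3 967)
(mv 1096 (cons (fin 1095 1 1031)
(fin 1160 4 968)))))))))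
(mv 1096 (cons (fin 1160 4 968)
(mv 908 (cons (fin 972 0 905)
(mv 904 (cons (fin 967 1 903)
(mv 839 (cons (fin 840 3 839)
(fin 903 7 839)))))))))))))))))))))
(cons (mv 842 (cons (fin 1035 4 842)
(mv 843 (cons (fin 779 6 778)
(fin 907 6 842)))))
(mv 1097 (cons (fin 842 5 841)
(fin 1161 5 905))))))
(cons (mv 906 (cons (fin 1163 4 906)
(mv 1097 (cons (fin 842 5 841)
(fin 1161 5 905)))))
(mv 906 (cons (fin 1163 4 906)
(mv 842 (cons (fin 1035 4 842)
(mv 843 (cons (fin 779 6 778)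
(fin 907 6 842)))))))))))))))))
(cons (cons (mv 1099 (cons (fin 1100 3 1033)
(mv 1032 (cons (fin 1031 0 1031)
(mv 1096 (cons (cons (mv 1095 (cons (fin 1035 1 1031)
(mv 1094 (cons (fin 1093 2 1029)
(fin 1097 2 1030)))))
(mv 969 (cons (cons (mv 841 (cons (fin 905 5 840)
(mv 1160 (cons (fin 1224 6 968)
(mv 1097 (cons (fin 1159 1 1095)
(mv 1163 (cons (fin 1164 0 1096)
(mv 1227 (cons (fin 1291 7 1034)
(mv 970 (cons (fin 1035 7 970)
(fin 906 4 906)))))))))))))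
(mv 1160 (cons (fin 1224 6 968)
(mv 1097 (cons (fin 1159 1 1095)
(mv 1163 (cons (fin 1164 0 1096)
(mv 1227 (cons (fin 1291 7 1034)
(mv 970 (cons (fin 1035 7 970)
(fin 906 4 906))))))))))))
(cons (mv 905 (cons (fin 841 5 840)
(mv 1097 (cons (mv 1163 (cons (fin 1164 0 1096)
(mv 906 (cons (fin 842 6 841)
(fin 970 4 906)))))
(cons (mv 1163 (cons (fin 1164 0 1096)
(mv 904 (cons (fin 840 7 840)
(mv 1227 (cons (fin 1291 7 1034)
(mv 970 (cons (fin 1035 7 970)
(mv 1161 (cons (fin 968 7 904)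
(fin 1225 6 969)))))))))))
(mv 842 (cons (fin 906 6 841)
(mv 904 (cons (fin 840 7 840)
(mv 968 (cons (fin 1161 7 904)
(mv 967 (cons (fin 1035 3 967)
(fin 966 0 966))))))))))))))
(mv 905 (cons (fin 841 5 840)
(mv 1160 (cons (fin 968 6 904)
(fin 1224 6 968)))))))))
(cons (mv 969 (cons (cons (mv 841 (cons (fin 905 5 840)
(mv 1160 (cons (fin 1224 6 968)
(mv 1097 (cons (fin 1159 1 1095)
(mv 1094 (cons (fin 1095 2 1030)
(mv 1163 (cons (fin 1164 0 1096)
(mv 970 (cons (fin 906 4 906)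
(mv 1161 (cons (fin 1225 6 969)
(mv 968 (cons (fin 904 7 904)
(mv 967 (cons (fin 966 0 966)
(fin 903 7 903)))))))))))))))))))
(mv 1160 (cons (fin 1224 6 968)
(mv 1097 (cons (fin 1159 1 1095)
(mv 1094 (cons (fin 1095 2 1030)
(mv 1163 (cons (fin 1164 0 1096)
(mv 1227 (cons (fin 1291 7 1034)
(mv 970 (cons (fin 906 4 906)
(mv 1161 (cons (fin 1225 6 969)
(mv 968 (cons (fin 904 7 904)
(mv 967 (cons (fin 966 0 966)
(fin 903 7 903))))))))))))))))))))
(cons (mv 905 (cons (fin 841 5 840)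
(mv 1097 (cons (cons (mv 1094 (cons (fin 1095 2 1030)
(mv 842 (cons (fin 906 6 841)
(mv 904 (cons (fin 840 7 840)
(mv 1163 (cons (fin 1164 0 1096)
(mv 968 (cons (fin 1161 7 904)
(mv 903 (cons (fin 839 7 839)
(mv 902 (cons (fin 901 0 901)
(fin 970 0 902)))))))))))))))
(cons (mv 1163 (cons (fin 1164 0 1096)
(mv 1094 (cons (fin 1095 2 1030)
(mv 1227 (cons (fin 1291 7 1034)
(mv 904 (cons (fin 840 7 840)
(mv 968 (cons (fin 1161 7 904)
(mv 903 (cons (fin 839 7 839)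
(mv 902 (cons (fin 901 0 901)
(fin 970 0 902)))))))))))))))
(mv 906 (cons (fin 842 6 841)
(mv 970 (cons (fin 1161 5 905)
(fin 1163 4 906)))))))
(cons (mv 1094 (cons (fin 1095 2 1030)
(mv 842 (cons (fin 906 6 841)
(mv 904 (cons (fin 840 7 840)
(mv 968 (cons (fin 1161 7 904)
(mv 903 (cons (fin 839 7 839)
(mv 902 (cons (fin 901 0 901)
(fin 970 0 902)))))))))))))
(cons (mv 840 (cons (fin 904 7 840)
(mv 1163 (cons (fin 1164 0 1096)
(mv 906 (cons (fin 842 6 841)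
(fin 970 4 906)))))))
(mv 1094 (cons (fin 1095 2 1030)
(mv 904 (cons (fin 840 7 840)
(mv 1163 (cons (fin 1164 0 1096)
(mv 968 (cons (fin 1161 7 904)
(mv 966 (cons (fin 967 0 966)
(mv 903 (cons (fin 839 7 839)
(mv 902 (cons (fin 965 1 901)
(fin 901 0 901)))))))))))))))))))))
(cons (mv 905 (cons (fin 841 5 840)
(mv 1160 (cons (fin 968 6 904)
(fin 1224 6 968)))))
(mv 1160 (cons (fin 1224 6 968)
(mv 905 (cons (fin 841 5 840)
(fin 1097 5 904)))))))))
(mv 1035 (cons (fin 1095 1 1031)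
(mv 968 (cons (fin 967 3 967)
(mv 905 (cons (mv 841 (cons (fin 969 5 840)
(fin 904 6 840)))
(cons (mv 1160 (cons (fin 969 6 904)
(mv 1159 (cons (fin 1223 5 967)
(mv 1225 (cons (fin 1161 4 968)
(mv 1224 (cons (fin 1289 4 1032)
(mv 1157 (cons (fin 1158 0 1157)
(mv 1227 (cons (fin 1226 3 1159)
(mv 1163 (cons (fin 970 7 970)
(fin 1291 7 1034)))))))))))))))
(mv 904 (cons (fin 841 6 840)
(mv 839 (cons (fin 903 7 839)
(mv 840 (cons (fin 775 7 775)
(mv 837 (cons (fin 838 0 837)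
(mv 906 (cons (fin 907 3 839)
(mv 970 (cons (fin 842 4 842)
(fin 1163 4 906)))))))))))))))))))))))))))
(mv 1099 (cons (fin 1100 3 1033)
(mv 1031 (cons (fin 1032 0 1031)
(mv 1163 (cons (cons (mv 1227 (cons (fin 1291 7 1034)
(mv 970 (cons (fin 1035 7 970)
(fin 906 4 906)))))
(mv 970 (cons (fin 906 4 906)
(mv 1097 (cons (mv 1096 (cons (fin 1164 0 1096)
(mv 1095 (cons (fin 1030 3 1030)
(fin 1094 2 1030)))))
(cons (mv 1161 (cons (fin 1225 6 969)
(mv 969 (cons (cons (mv 904 (cons (fin 968 7 904)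
(mv 1162 (cons (fin 1226 7 969)
(mv 1160 (cons (fin 1159 2 1095)
(fin 1224 5 968)))))))
(mv 1160 (cons (fin 1224 5 968)
(mv 1158 (cons (fin 1159 2 1094)
(mv 968 (cons (fin 904 7 904)
(mv 967 (cons (fin 1030 1 966)
(fin 966 0 966))))))))))
(cons (mv 1162 (cons (fin 1226 7 969)
(mv 1160 (cons (fin 1159 2 1095)
(fin 1224 5 968)))))
(mv 1162 (cons (fin 1226 7 969)
(mv 968 (cons (fin 904 7 904)
(mv 967 (cons (fin 1030 1 966)
(fin 966 0 966))))))))))))
(mv 1161 (cons (fin 1225 6 969)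
(mv 1096 (cons (fin 1164 0 1096)
(mv 1095 (cons (fin 1094 2 1030)
(fin 1035 2 1031)))))))))))))
(cons (mv 1227 (cons (fin 1291 7 1034)
(mv 1226 (cons (mv 1162 (cons (fin 969 7 969)
(mv 1290 (cons (fin 1097 7 1033)
(fin 1035 5 1034)))))
(cons (mv 1035 (cons (fin 1290 5 1034)
(mv 1228 (cons (fin 1292 4 1035)
(mv 1225 (cons (mv 1160 (cons (fin 1161 3 1160)
(mv 1224 (cons (fin 1159 3 1159)
(fin 1164 2 1160)))))
(cons (mv 1161 (cons (fin 1160 3 1160)
(mv 1289 (cons (fin 1288 1 1224)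
(fin 1097 6 1033)))))
(mv 1288 (cons (fin 1289 1 1224)
(mv 1224 (cons (fin 1287 1 1223)
(fin 1164 2 1160))))))))))))
(mv 1162 (cons (fin 969 7 969)
(mv 1225 (cons (fin 1289 5 1033)
(mv 1224 (cons (fin 1223 2 1159)
(fin 1164 2 1160))))))))))))
(mv 1227 (cons (fin 1291 7 1034)
(mv 970 (cons (fin 906 4 906)
(fin 1162 4 970)))))))))))))
(cons (mv 1099 (cons (fin 1100 3 1033)
(mv 1032 (cons (fin 1031 0 1031)
(mv 1163 (cons (cons (mv 1227 (cons (fin 1291 7 1034)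
(mv 970 (cons (fin 1035 7 970)
(fin 906 4 906)))))
(mv 1227 (cons (fin 1291 7 1034)
(mv 1035 (cons (cons (mv 967 (cons (fin 968 3 967)
(mv 1228 (cons (fin 1292 4 1035)
(mv 1096 (cons (fin 1095 1 1031)
(mv 1097 (cons (fin 1164 0 1096)
(mv 1160 (cons (fin 1159 1 1095)
(mv 969 (cons (fin 905 5 904)
(fin 1224 6 968)))))))))))))
(cons (mv 968 (cons (fin 967 3 967)
(mv 1228 (cons (fin 1292 4 1035)
(mv 1161 (cons (mv 1160 (cons (fin 1162 0 1160)
(mv 1097 (cons (fin 1225 7 968)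
(mv 969 (cons (fin 904 7 904)
(fin 1224 5 968)))))))
(cons (mv 1162 (cons (fin 1160 0 1160)
(mv 1229 (cons (fin 1230 3 1162)
(fin 1164 0 1161)))))
(mv 1097 (cons (fin 1225 7 968)
(mv 904 (cons (fin 969 7 904)
(fin 840 4 840))))))))))))
(mv 1228 (cons (fin 1292 4 1035)
(mv 1096 (cons (fin 1095 1 1031)
(mv 1097 (cons (fin 1164 0 1096)
(mv 1160 (cons (fin 1159 1 1095)
(mv 969 (cons (fin 905 5 904)
(fin 1224 6 968)))))))))))))
(cons (mv 1096 (cons (fin 1095 1 1031)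
(mv 967 (cons (fin 968 3 967)
(mv 1097 (cons (fin 1164 0 1096)
(mv 1160 (cons (fin 1159 1 1095)
(mv 969 (cons (fin 905 5 904)
(fin 1224 6 968)))))))))))
(cons (mv 968 (cons (fin 967 3 967)
(mv 1096 (cons (fin 1095 1 1031)
(mv 1228 (cons (fin 1292 4 1035)
(mv 1160 (cons (mv 969 (cons (fin 905 6 904)
(fin 1224 6 968)))
(mv 1161 (cons (fin 1162 0 1160)
(fin 1225 4 968)))))))))))
(mv 968 (cons (fin 967 3 967)
(mv 1096 (cons (fin 1095 1 1031)
(mv 1228 (cons (fin 1292 4 1035)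
(mv 1097 (cons (fin 1164 0 1096)
(mv 904 (cons (fin 840 4 840)
(fin 1161 4 904))))))))))))))))))
(cons (mv 906 (cons (fin 970 4 906)
(mv 1096 (cons (cons (mv 1035 (cons (fin 1095 1 1031)
(mv 967 (cons (fin 968 3 967)
(mv 1097 (cons (fin 1164 0 1096)
(mv 1160 (cons (fin 1159 1 1095)
(mv 969 (cons (fin 905 5 904)
(fin 1224 6 968)))))))))))
(mv 1035 (cons (fin 1095 1 1031)
(mv 968 (cons (fin 967 3 967)
(mv 905 (cons (mv 841 (cons (fin 969 5 840)
(fin 904 6 840)))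
(cons (mv 904 (cons (fin 841 6 840)
(mv 839 (cons (fin 903 7 839)
(mv 840 (cons (fin 907 3 839)
(fin 775 7 775)))))))
(mv 1160 (cons (fin 969 6 904)
(mv 1159 (cons (fin 1223 5 967)
(mv 1161 (cons (fin 1162 2 1095)
(fin 1225 4 968)))))))))))))))
(cons (mv 1097 (cons (fin 1164 0 1096)
(mv 1160 (cons (fin 1159 1 1095)
(mv 969 (cons (fin 905 5 904)
(fin 1224 6 968)))))))
(mv 1097 (cons (fin 1164 0 1096)
(mv 1095 (cons (fin 1035 1 1031)
(fin 1094 2 1030))))))))))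
(mv 970 (cons (fin 906 4 906)
(mv 1227 (cons (fin 1291 7 1034)
(fin 1162 4 970))))))))))))
(mv 1099 (cons (fin 1100 3 1033)
(mv 1032 (cons (fin 1031 0 1031)
(mv 969 (cons (cons (mv 1162 (cons (fin 1226 7 969)
(mv 905 (cons (fin 970 7 905)
(fin 841 4 841)))))
(mv 1162 (cons (fin 1226 7 969)
(mv 1163 (cons (mv 970 (cons (fin 906 4 906)
(fin 1227 4 970)))
(cons (mv 970 (cons (fin 906 4 906)
(mv 1161 (cons (fin 1225 5 969)
(mv 1160 (cons (fin 1159 2 1095)
(mv 1096 (cons (fin 1095 3 1095)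
(fin 1224 6 968)))))))))
(mv 1227 (cons (fin 1291 7 1034)
(mv 1228 (cons (mv 1229 (cons (fin 1230 3 1162)
(mv 1161 (cons (fin 1160 0 1160)
(fin 1164 0 1161)))))
(cons (mv 1292 (cons (fin 1035 4 1035)
(mv 1356 (cons (fin 1164 7 1099)
(fin 1420 7 1163)))))
(mv 1229 (cons (fin 1230 3 1162)
(mv 1160 (cons (fin 1161 0 1160)
(mv 1096 (cons (fin 1224 6 968)
(mv 1035 (cons (fin 1095 1 1031)
(fin 1292 4 1035))))))))))))))))))))
(cons (mv 905 (cons (fin 841 4 841)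
(mv 968 (cons (mv 967 (cons (fin 1035 3 967)
(fin 966 0 966)))
(cons (mv 1096 (cons (fin 1160 6 904)
(mv 1095 (cons (fin 1035 1 1031)
(mv 1093 (cons (fin 1094 2 1029)
(mv 904 (cons (fin 1159 5 903)
(mv 839 (cons (fin 903 7 839)
(mv 840 (cons (fin 775 7 775)
(fin 776 4 776)))))))))))))
(mv 1096 (cons (fin 1160 6 904)
(mv 967 (cons (fin 966 0 966)
(mv 906 (cons (mv 907 (cons (fin 904 1 903)
(fin 908 1 904)))
(cons (mv 970 (cons (fin 1163 4 906)
(mv 778 (cons (fin 842 5 777)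
(mv 903 (cons (fin 902 3 902)
(mv 839 (cons (fin 904 7 839)
(fin 775 4 775)))))))))
(mv 970 (cons (fin 907 2 903)
(fin 1163 4 906)))))))))))))))
(mv 1162 (cons (fin 1226 7 969)
(mv 968 (cons (mv 967 (cons (fin 1035 3 967)
(fin 966 0 966)))
(cons (mv 905 (cons (fin 841 4 841)
(mv 1096 (cons (fin 1160 6 904)
(mv 1095 (cons (fin 1035 1 1031)
(mv 1093 (cons (fin 1094 2 1029)
(mv 904 (cons (fin 1159 5 903)
(mv 839 (cons (fin 903 7 839)
(mv 840 (cons (fin 775 7 775)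
(fin 776 4 776)))))))))))))))
(mv 966 (cons (fin 967 0 966)
(mv 904 (cons (cons (mv 841 (cons (fin 905 4 841)
(mv 840 (cons (fin 777 6 776)
(fin 776 4 776)))))
(mv 840 (cons (fin 776 4 776)
(mv 777 (cons (fin 841 6 776)
(mv 839 (cons (fin 775 7 775)
(mv 1096 (cons (fin 903 7 839)
(mv 1159 (cons (fin 1095 5 903)
(mv 1160 (cons (fin 1161 2 1095)
(fin 1223 5 967))))))))))))))
(cons (mv 840 (cons (fin 776 4 776)
(mv 839 (cons (fin 775 7 775)
(mv 903 (cons (fin 1096 7 839)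
(mv 902 (cons (fin 901 0 901)
(mv 905 (cons (fin 965 1 901)
(mv 838 (cons (fin 837 3 837)
(fin 906 3 838)))))))))))))
(mv 905 (cons (fin 841 4 841)
(mv 1096 (cons (fin 1160 6 904)
(mv 1095 (cons (fin 1159 5 903)
(mv 1093 (cons (fin 1094 2 1029)
(mv 903 (cons (fin 839 7 839)
(mv 902 (cons (fin 965 1 901)
(fin 901 0 901)))))))))))))))))))))))))))))))))
(cons (cons (cons (mv 1099 (cons (fin 1100 3 1033)
(mv 1032 (cons (fin 1031 0 1031)
(mv 969 (cons (cons (mv 1162 (cons (fin 1226 7 969)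
(mv 905 (cons (fin 841 4 841)
(fin 1097 4 905)))))
(mv 1162 (cons (fin 1226 7 969)
(mv 1096 (cons (cons (mv 1035 (cons (fin 1095 1 1031)
(mv 967 (cons (fin 968 3 967)
(mv 1160 (cons (fin 1224 6 968)
(mv 1159 (cons (fin 1097 1 1095)
(fin 1161 2 1095)))))))))
(mv 1160 (cons (fin 1224 6 968)
(mv 1159 (cons (fin 1097 1 1095)
(fin 1161 2 1095))))))
(cons (mv 1095 (cons (fin 1035 1 1031)
(mv 1094 (cons (fin 1093 2 1029)
(fin 1097 2 1030)))))
(mv 1160 (cons (fin 1224 6 968)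
(mv 1159 (cons (fin 1161 2 1095)
(mv 1035 (cons (fin 1095 1 1031)
(mv 968 (cons (fin 967 3 967)
(fin 1223 5 967)))))))))))))))
(cons (mv 841 (cons (fin 905 4 841)
(mv 1096 (cons (cons (mv 1035 (cons (fin 1095 1 1031)
(mv 968 (cons (fin 967 3 967)
(mv 1160 (cons (fin 1224 6 968)
(mv 1159 (cons (fin 1097 1 1095)
(fin 1223 5 967)))))))))
(mv 1160 (cons (fin 1224 6 968)
(mv 1159 (cons (fin 1097 1 1095)
(mv 968 (cons (fin 1223 5 967)
(mv 967 (cons (fin 1035 3 967)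
(fin 966 0 966))))))))))
(cons (mv 1160 (cons (fin 1224 6 968)
(mv 1159 (cons (fin 1097 1 1095)
(mv 968 (cons (fin 1223 5 967)
(mv 967 (cons (fin 966 0 966)
(fin 903 7 903)))))))))
(cons (mv 1095 (cons (fin 1035 1 1031)
(mv 1094 (cons (fin 1093 2 1029)
(fin 1097 2 1030)))))
(mv 1095 (cons (fin 1035 1 1031)
(mv 1160 (cons (fin 1224 6 968)
(mv 1093 (cons (fin 1094 2 1029)
(mv 968 (cons (mv 967 (cons (fin 966 0 966)
(fin 903 7 903)))
(mv 1159 (cons (fin 904 5 903)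
(fin 1223 5 967)))))))))))))))))
(mv 1162 (cons (fin 1226 7 969)
(mv 968 (cons (mv 967 (cons (fin 1035 3 967)
(fin 966 0 966)))
(cons (mv 905 (cons (fin 841 4 841)
(mv 1096 (cons (fin 1160 6 904)
(mv 1095 (cons (fin 1035 1 1031)
(mv 1093 (cons (fin 1094 2 1029)
(mv 904 (cons (fin 1159 5 903)
(mv 839 (cons (fin 903 7 839)
(mv 840 (cons (fin 775 7 775)
(fin 776 4 776)))))))))))))))
(mv 966 (cons (fin 967 0 966)
(mv 904 (cons (cons (mv 841 (cons (fin 905 4 841)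
(mv 840 (cons (fin 777 6 776)
(fin 776 4 776)))))
(mv 840 (cons (fin 776 4 776)
(mv 777 (cons (fin 841 6 776)
(mv 839 (cons (fin 775 7 775)
(mv 1096 (cons (fin 903 7 839)
(mv 1159 (cons (fin 1095 5 903)
(mv 1160 (cons (fin 1161 2 1095)
(fin 1223 5 967))))))))))))))
(cons (mv 840 (cons (fin 776 4 776)
(mv 839 (cons (fin 775 7 775)
(mv 903 (cons (fin 1096 7 839)
(mv 902 (cons (fin 901 0 901)
(mv 905 (cons (fin 965 1 901)
(mv 838 (cons (fin 837 3 837)
(fin 906 3 838)))))))))))))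
(mv 905 (cons (fin 841 4 841)
(mv 1096 (cons (fin 1160 6 904)
(mv 1095 (cons (fin 1159 5 903)
(mv 1093 (cons (fin 1094 2 1029)
(mv 903 (cons (fin 839 7 839)
(mv 902 (cons (fin 965 1 901)
(fin 901 0 901))))))))))))))))))))))))))))))
(mv 1099 (cons (fin 1100 3 1033)
(mv 1032 (cons (fin 1031 0 1031)
(mv 969 (cons (cons (mv 1162 (cons (fin 1226 7 969)
(mv 905 (cons (fin 970 7 905)
(fin 841 4 841)))))
(mv 1162 (cons (fin 1226 7 969)
(mv 1096 (cons (cons (mv 1035 (cons (fin 1095 1 1031)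
(mv 967 (cons (fin 968 3 967)
(mv 1160 (cons (fin 1224 6 968)
(mv 1097 (cons (fin 1159 1 1095)
(mv 1163 (cons (fin 1164 0 1096)
(mv 1227 (cons (fin 970 7 970)
(fin 1291 7 1034)))))))))))))
(mv 1160 (cons (fin 1224 6 968)
(mv 1097 (cons (fin 1159 1 1095)
(mv 1163 (cons (fin 1164 0 1096)
(mv 970 (cons (fin 906 4 906)
(fin 1227 4 970))))))))))
(cons (mv 1095 (cons (fin 1035 1 1031)
(mv 1094 (cons (fin 1093 2 1029)
(fin 1097 2 1030)))))
(mv 1095 (cons (fin 1035 1 1031)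
(mv 1160 (cons (fin 1224 6 968)
(mv 1093 (cons (fin 1094 2 1029)
(mv 968 (cons (mv 967 (cons (fin 966 0 966)
(fin 903 7 903)))
(mv 1159 (cons (fin 904 5 903)
(fin 1223 5 967)))))))))))))))))
(cons (mv 841 (cons (fin 905 4 841)
(mv 968 (cons (mv 967 (cons (fin 1035 3 967)
(fin 966 0 966)))
(cons (mv 1096 (cons (cons (mv 1035 (cons (fin 1095 1 1031)
(mv 1160 (cons (fin 1224 6 968)
(mv 1159 (cons (fin 1097 1 1095)
(fin 1223 5 967)))))))
(mv 1160 (cons (fin 1224 6 968)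
(mv 1159 (cons (fin 1097 1 1095)
(fin 1223 5 967))))))
(cons (mv 1095 (cons (fin 1035 1 1031)
(mv 1094 (cons (fin 1093 2 1029)
(fin 1097 2 1030)))))
(mv 1095 (cons (fin 1035 1 1031)
(mv 1160 (cons (fin 1224 6 968)
(mv 1159 (cons (fin 904 5 903)
(fin 1223 5 967))))))))))
(mv 967 (cons (fin 966 0 966)
(mv 970 (cons (mv 906 (cons (fin 907 2 903)
(fin 1163 4 906)))
(mv 903 (cons (fin 902 3 902)
(mv 1096 (cons (fin 1160 7 903)
(mv 839 (cons (fin 904 7 839)
(fin 775 4 775))))))))))))))))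
(mv 905 (cons (fin 841 4 841)
(mv 1162 (cons (fin 1226 7 969)
(fin 1097 4 905)))))))))))))
(cons (mv 1099 (cons (fin 1100 3 1033)
(mv 1031 (cons (fin 1032 0 1031)
(mv 969 (cons (cons (mv 1162 (cons (fin 1226 7 969)
(mv 905 (cons (fin 970 7 905)
(fin 841 4 841)))))
(mv 905 (cons (fin 841 4 841)
(mv 1097 (cons (mv 1096 (cons (fin 1160 5 904)
(mv 1095 (cons (fin 1030 3 1030)
(fin 1094 2 1030)))))
(cons (mv 904 (cons (fin 840 7 840)
(mv 968 (cons (fin 1161 7 904)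
(mv 967 (cons (fin 966 0 966)
(mv 970 (cons (fin 1030 1 966)
(fin 1035 0 967)))))))))
(mv 840 (cons (fin 904 7 840)
(mv 1096 (cons (fin 1160 5 904)
(mv 1095 (cons (fin 1094 2 1030)
(fin 1035 2 1031)))))))))))))
(cons (mv 1162 (cons (fin 1226 7 969)
(mv 1161 (cons (cons (mv 1159 (cons (fin 1160 2 1095)
(mv 1225 (cons (fin 970 5 969)
(mv 1289 (cons (fin 1097 6 1033)
(fin 1353 6 1097)))))))
(mv 1160 (cons (fin 1159 2 1095)
(mv 1097 (cons (fin 1224 5 968)
(mv 968 (cons (fin 904 7 904)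
(mv 967 (cons (fin 966 0 966)
(mv 970 (cons (fin 1030 1 966)
(fin 1035 0 967))))))))))))
(cons (mv 1160 (cons (fin 1159 2 1095)
(mv 1224 (cons (fin 1097 5 968)
(mv 1163 (cons (fin 1223 1 1159)
(mv 1227 (cons (fin 1228 0 1160)
(fin 1291 7 1034)))))))))
(cons (mv 1225 (cons (fin 970 5 969)
(mv 1289 (cons (fin 1097 6 1033)
(fin 1353 6 1097)))))
(mv 1225 (cons (fin 970 5 969)
(mv 1160 (cons (fin 1159 2 1095)
(mv 1289 (cons (fin 1353 6 1097)
(mv 1163 (cons (mv 1224 (cons (fin 1223 1 1159)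
(fin 1164 1 1160)))
(mv 1227 (cons (fin 1228 0 1160)
(fin 1291 7 1034)))))))))))))))))
(mv 1162 (cons (fin 1226 7 969)
(mv 905 (cons (fin 841 4 841)
(fin 1097 4 905))))))))))))
(mv 1099 (cons (fin 1100 3 1033)
(mv 1031 (cons (fin 1032 0 1031)
(mv 969 (cons (cons (mv 1162 (cons (fin 1226 7 969)
(mv 905 (cons (fin 970 7 905)
(fin 841 4 841)))))
(mv 1162 (cons (fin 1226 7 969)
(mv 970 (cons (mv 1163 (cons (fin 906 4 906)
(fin 1227 4 970)))
(cons (mv 1161 (cons (fin 1225 5 969)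
(mv 906 (cons (fin 1097 5 905)
(mv 842 (cons (fin 778 5 777)
(mv 843 (cons (fin 779 6 778)
(fin 907 6 842)))))))))
(mv 1161 (cons (fin 1225 5 969)
(mv 1160 (cons (fin 1159 2 1095)
(mv 1163 (cons (fin 1227 4 970)
(mv 1224 (cons (fin 1223 1 1159)
(fin 1097 5 968)))))))))))))))
(cons (mv 905 (cons (fin 841 4 841)
(mv 1097 (cons (mv 840 (cons (fin 904 7 840)
(mv 842 (cons (fin 906 6 841)
(mv 1096 (cons (fin 1160 5 904)
(mv 1095 (cons (fin 1030 3 1030)
(fin 1094 2 1030)))))))))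
(cons (mv 1096 (cons (fin 1160 5 904)
(mv 1095 (cons (fin 1030 3 1030)
(fin 1094 2 1030)))))
(mv 840 (cons (fin 904 7 840)
(mv 906 (cons (fin 842 6 841)
(mv 970 (cons (fin 1161 5 905)
(fin 1163 4 906))))))))))))
(mv 905 (cons (fin 841 4 841)
(mv 1162 (cons (fin 1226 7 969)
(fin 1097 4 905))))))))))))))
(cons (cons (mv 1099 (cons (fin 1100 3 1033)
(mv 1031 (cons (fin 1032 0 1031)
(mv 969 (cons (cons (mv 1162 (cons (fin 1226 7 969)
(mv 905 (cons (fin 970 7 905)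
(fin 841 4 841)))))
(mv 905 (cons (fin 841 4 841)
(mv 1097 (cons (cons (mv 840 (cons (fin 904 7 840)
(mv 842 (cons (fin 906 6 841)
(mv 1160 (cons (fin 1096 5 904)
(mv 1161 (cons (fin 1224 5 968)
(mv 1225 (cons (fin 970 6 969)
(fin 1289 6 1033)))))))))))
(cons (mv 1096 (cons (fin 1160 5 904)
(mv 1163 (cons (fin 1164 0 1096)
(mv 904 (cons (fin 840 7 840)
(mv 1227 (cons (fin 1291 7 1034)
(mv 970 (cons (fin 1035 7 970)
(mv 1161 (cons (fin 968 7 904)
(fin 1225 6 969)))))))))))))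
(mv 840 (cons (fin 904 7 840)
(mv 906 (cons (fin 842 6 841)
(mv 970 (cons (fin 1161 5 905)
(fin 1163 4 906)))))))))
(cons (mv 842 (cons (fin 906 6 841)
(mv 1160 (cons (fin 1096 5 904)
(mv 1161 (cons (fin 1224 5 968)
(mv 1225 (cons (fin 970 6 969)
(fin 1289 6 1033)))))))))
(cons (mv 1096 (cons (fin 1160 5 904)
(mv 1163 (cons (fin 1164 0 1096)
(mv 906 (cons (fin 842 6 841)
(fin 970 4 906)))))))
(mv 904 (cons (fin 840 7 840)
(mv 1096 (cons (fin 1160 5 904)
(mv 1163 (cons (fin 1164 0 1096)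
(mv 968 (cons (fin 1161 7 904)
(mv 967 (cons (fin 966 0 966)
(mv 906 (cons (fin 907 1 903)
(fin 842 6 841))))))))))))))))))))
(cons (mv 1162 (cons (fin 1226 7 969)
(mv 970 (cons (mv 1163 (cons (fin 906 4 906)
(fin 1227 4 970)))
(cons (mv 1161 (cons (fin 1225 5 969)
(mv 906 (cons (fin 1097 5 905)
(mv 842 (cons (fin 778 5 777)
(fin 1035 4 842)))))))
(mv 1161 (cons (fin 1225 5 969)
(mv 1160 (cons (fin 1159 2 1095)
(mv 1163 (cons (fin 1227 4 970)
(mv 1224 (cons (fin 1223 1 1159)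
(fin 1097 5 968))))))))))))))
(mv 1162 (cons (fin 1226 7 969)
(mv 905 (cons (fin 841 4 841)
(fin 1097 4 905))))))))))))
(mv 1099 (cons (fin 1100 3 1033)
(mv 1031 (cons (fin 1032 0 1031)
(mv 969 (cons (cons (mv 1162 (cons (fin 1226 7 969)
(mv 905 (cons (fin 970 7 905)
(fin 841 4 841)))))
(mv 905 (cons (fin 841 4 841)
(mv 906 (cons (cons (mv 842 (cons (fin 1097 6 841)
(mv 970 (cons (fin 778 5 777)
(fin 1035 4 842)))))
(mv 1097 (cons (fin 842 6 841)
(mv 904 (cons (fin 840 7 840)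
(mv 968 (cons (fin 1161 7 904)
(mv 967 (cons (fin 907 1 903)
(fin 966 2 902))))))))))
(cons (mv 970 (cons (fin 1163 4 906)
(mv 842 (cons (fin 778 5 777)
(fin 1035 4 842)))))
(mv 970 (cons (fin 1163 4 906)
(mv 1097 (cons (fin 1161 5 905)
(mv 843 (cons (fin 907 6 842)
(mv 904 (cons (fin 840 7 840)
(mv 903 (cons (fin 902 0 902)
(mv 967 (cons (fin 966 1 902)
(mv 968 (cons (fin 1030 1 966)
(fin 1035 0 967)))))))))))))))))))))
(cons (mv 1162 (cons (fin 1226 7 969)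
(mv 970 (cons (mv 1163 (cons (fin 906 4 906)
(fin 1227 4 970)))
(cons (mv 1161 (cons (fin 1225 5 969)
(mv 906 (cons (fin 1097 5 905)
(mv 842 (cons (fin 778 5 777)
(fin 1035 4 842)))))))
(mv 1161 (cons (fin 1225 5 969)
(mv 1160 (cons (fin 1159 2 1095)
(mv 1163 (cons (fin 1227 4 970)
(mv 1224 (cons (fin 1223 1 1159)
(fin 1097 5 968))))))))))))))
(mv 1162 (cons (fin 1226 7 969)
(mv 905 (cons (fin 841 4 841)
(fin 1097 4 905)))))))))))))
(cons (mv 1099 (cons (fin 1100 3 1033)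
(mv 1031 (cons (fin 1032 0 1031)
(mv 969 (cons (cons (mv 1162 (cons (fin 1226 7 969)
(mv 905 (cons (fin 970 7 905)
(fin 841 4 841)))))
(mv 905 (cons (fin 841 4 841)
(mv 906 (cons (cons (mv 842 (cons (fin 1097 6 841)
(mv 970 (cons (fin 778 5 777)
(fin 1035 4 842)))))
(mv 1097 (cons (fin 842 6 841)
(mv 904 (cons (fin 840 7 840)
(mv 968 (cons (fin 1161 7 904)
(mv 967 (cons (fin 907 1 903)
(fin 966 2 902))))))))))
(cons (mv 970 (cons (fin 1163 4 906)
(mv 842 (cons (fin 778 5 777)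
(fin 1035 4 842)))))
(mv 970 (cons (fin 1163 4 906)
(mv 1097 (cons (fin 1161 5 905)
(mv 843 (cons (fin 907 6 842)
(mv 904 (cons (fin 840 7 840)
(mv 903 (cons (fin 902 0 902)
(mv 967 (cons (fin 966 1 902)
(mv 968 (cons (fin 1030 1 966)
(fin 1035 0 967)))))))))))))))))))))
(cons (mv 1162 (cons (fin 1226 7 969)
(mv 970 (cons (mv 1163 (cons (fin 906 4 906)
(fin 1227 4 970)))
(cons (mv 1161 (cons (fin 1225 5 969)
(mv 906 (cons (fin 1097 5 905)
(mv 842 (cons (fin 778 5 777)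
(fin 1035 4 842)))))))
(mv 1161 (cons (fin 1225 5 969)
(mv 1163 (cons (fin 1227 4 970)
(mv 1097 (cons (mv 1096 (cons (fin 1164 3 1096)
(fin 1095 0 1095)))
(mv 968 (cons (fin 904 7 904)
(mv 967 (cons (fin 1030 1 966)
(fin 966 0 966))))))))))))))))
(mv 1162 (cons (fin 1226 7 969)
(mv 905 (cons (fin 841 4 841)
(fin 1097 4 905))))))))))))
(mv 1099 (cons (fin 1100 3 1033)
(mv 1031 (cons (fin 1032 0 1031)
(mv 969 (cons (cons (mv 1162 (cons (fin 1226 7 969)
(mv 905 (cons (fin 970 7 905)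
(fin 841 4 841)))))
(mv 905 (cons (fin 841 4 841)
(mv 1097 (cons (mv 1096 (cons (fin 1160 5 904)
(mv 1095 (cons (fin 1030 3 1030)
(fin 1094 2 1030)))))
(mv 906 (cons (fin 842 6 841)
(mv 970 (cons (fin 1161 5 905)
(fin 1163 4 906))))))))))
(cons (mv 1162 (cons (fin 1226 7 969)
(mv 970 (cons (mv 1163 (cons (fin 906 4 906)
(fin 1227 4 970)))
(cons (mv 1161 (cons (fin 1225 5 969)
(mv 906 (cons (fin 1097 5 905)
(mv 842 (cons (fin 778 5 777)
(fin 1035 4 842)))))))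
(mv 1161 (cons (fin 1225 5 969)
(mv 1160 (cons (fin 1159 2 1095)
(mv 1163 (cons (fin 1227 4 970)
(mv 1224 (cons (fin 1223 1 1159)
(fin 1097 5 968))))))))))))))
(mv 1162 (cons (fin 1226 7 969)
(mv 905 (cons (fin 841 4 841)
(fin 1097 4 905)))))))))))))))))
def l81 : Lem := ⟨27165970580987716999077186177413070020083553138970795542538990237389111586754976653083794579900447563514815838776134120675060020760815837656715947719417209928832093537997904907163617890989830602182084804038675807892815215707760306779851279290011044032537348234590053963607735055040857163199970105463134926567752896499632471348871168, 29013080489599298592890537857235293400242363429170937252695935477707387423046436075842388412166346859144400133601071996940713997583147326545295022687981087849510600167962419777165957114995216571393050044773834040952530374018599882949446039259548370750930224455750204254597560836211804444271888945766114013680184814862914820939413462899012740678529387566405270084534533411829396681431141971266020302096173437805492631380072333312,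 29013080489599298592890537857235293400242363429170937252695935477707387423046436075842388412166346859144400133601071996940713997583147326545295022687981087849510600167962419777165957114995216571393050044773834040952530374018599882949446039259548370750930224455750204254597560836211804444271888945766114013680184814862914820939413462899012740678529387566405270084534533411829396681431141971266020302096173437805492631380072333312, 15, 33⟩
theorem l81_valid : l81.Valid :=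
  Lem.valid_of_chk t81 t81_valid [973, 1033, 1034, 1037, 1040, 1101] c81 l81 (by decide +kernel)
end Crest.Agent.SnakyAux
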