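import Crest.Agent.S0047_aux.Checker

set_option autoImplicit false
set_option maxRecDepth 100000
namespace Crest.Agent.SnakyAux
open Cert
def t82 : Tbl := Tbl.nil
theorem t82_valid : t82.Valid := Tbl.valid_nil
def c82 : Cert :=
(mv 969 (cons (cons (cons (mv 1098 (cons (cons (mv 1099 (cons (fin 1100 3 1033)
(mv 905 (cons (fin 841 4 841)
(mv 1162 (cons (fin 970 7 905)
(fin 1226 7 969)))))))
(mv 1099 (cons (fin 1100 3 1033)
(mv 905 (cons (fin 841 4 841)
(mv 1097 (cons (mv 840 (cons (fin 904 7 840)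
(mv 842 (cons (fin 906 6 841)
(mv 1096 (cons (fin 1160 5 904)
(mv 1095 (cons (fin 1094 2 1030)
(fin 1035 2 1031)))))))))
(cons (mv 1096 (cons (fin 1160 5 904)
(mv 1095 (cons (fin 1094 2 1030)
(fin 1035 2 1031)))))
(mv 840 (cons (fin 904 7 840)
(mv 906 (cons (fin 842 6 841)
(mv 970 (cons (fin 1161 5 905)
(fin 1163 4 906)))))))))))))))
(cons (mv 1099 (cons (fin 1100 3 1033)
(mv 1162 (cons (fin 1226 7 969)
(mv 970 (cons (mv 971 (cons (fin 972 1 969)
(fin 907 6 906)))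
(mv 1163 (cons (fin 906 4 906)
(fin 1227 4 970)))))))))
(cons (mv 1162 (cons (fin 1226 7 969)
(mv 905 (cons (fin 970 7 905)
(fin 841 4 841)))))
(mv 1162 (cons (fin 1226 7 969)
(mv 905 (cons (fin 841 4 841)
(fin 1097 4 905)))))))))
(cons (mv 905 (cons (cons (cons (mv 1097 (cons (cons (cons (mv 840 (cons (fin 904 7 840)
(mv 776 (cons (fin 841 7 776)
(mv 842 (cons (fin 906 6 841)
(mv 1160 (cons (fin 1096 5 904)
(mv 1161 (cons (fin 1224 5 968)
(mv 1225 (cons (fin 970 6 969)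
(mv 1226 (cons (fin 1162 4 969)
(fin 1290 4 1033)))))))))))))))
(mv 1096 (cons (fin 1160 5 904)
(mv 1094 (cons (fin 1095 2 1030)
(mv 840 (cons (fin 904 7 840)
(mv 841 (cons (fin 776 7 776)
(mv 778 (cons (fin 842 6 777)
(mv 777 (cons (fin 714 6 713)
(fin 970 4 777))))))))))))))
(cons (mv 840 (cons (fin 904 7 840)
(mv 776 (cons (fin 841 7 776)
(mv 1160 (cons (fin 1096 5 904)
(mv 1161 (cons (fin 1224 5 968)
(mv 970 (cons (fin 906 6 905)
(fin 1225 6 969)))))))))))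
(mv 1096 (cons (fin 1160 5 904)
(mv 1094 (cons (fin 1095 2 1030)
(mv 842 (cons (fin 906 6 841)
(mv 841 (cons (fin 778 6 777)
(mv 776 (cons (fin 840 7 776)
(mv 777 (cons (fin 712 7 712)
(fin 970 4 777)))))))))))))))
(cons (cons (mv 842 (cons (fin 906 6 841)
(mv 778 (cons (fin 841 6 777)
(mv 1160 (cons (fin 1096 5 904)
(mv 1161 (cons (fin 1224 5 968)
(mv 904 (cons (fin 968 7 904)
(mv 1226 (cons (fin 1162 4 969)
(mv 1225 (cons (fin 970 6 969)
(fin 1290 4 1033)))))))))))))))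
(mv 840 (cons (fin 904 7 840)
(mv 776 (cons (fin 841 7 776)
(mv 906 (cons (fin 842 6 841)
(mv 1161 (cons (fin 970 6 905)
(mv 1224 (cons (fin 1160 5 968)
(mv 1226 (cons (fin 1162 4 969)
(mv 1225 (cons (fin 1288 5 1032)
(fin 1290 4 1033))))))))))))))))
(cons (mv 842 (cons (fin 906 6 841)
(mv 778 (cons (fin 841 6 777)
(mv 904 (cons (fin 840 7 840)
(mv 968 (cons (fin 1161 7 904)
(mv 967 (cons (fin 966 0 966)
(mv 970 (cons (fin 1035 0 967)
(mv 903 (cons (fin 902 3 902)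
(fin 971 3 903)))))))))))))))
(cons (mv 840 (cons (fin 904 7 840)
(mv 841 (cons (fin 776 7 776)
(mv 842 (cons (fin 778 6 777)
(fin 906 6 841)))))))
(mv 1096 (cons (fin 1160 5 904)
(mv 1094 (cons (fin 1095 2 1030)
(mv 904 (cons (fin 840 7 840)
(mv 842 (cons (fin 906 6 841)
(mv 968 (cons (fin 1161 7 904)
(mv 967 (cons (fin 966 0 966)
(mv 970 (cons (fin 1035 0 967)
(mv 903 (cons (fin 902 3 902)
(fin 971 3 903))))))))))))))))))))))
(mv 841 (cons (mv 776 (cons (fin 840 7 776)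
(mv 777 (cons (fin 712 7 712)
(fin 970 4 777)))))
(cons (mv 840 (cons (fin 776 7 776)
(mv 842 (cons (fin 778 6 777)
(mv 839 (cons (cons (mv 906 (cons (fin 838 0 838)
(fin 907 0 839)))
(mv 774 (cons (fin 775 3 774)
(mv 773 (cons (fin 838 3 773)
(mv 903 (cons (fin 902 1 838)
(mv 843 (cons (fin 904 1 839)
(mv 908 (cons (fin 907 0 840)
(mv 780 (cons (fin 779 2 776)
(mv 844 (cons (fin 781 2 777)
(fin 972 4 780))))))))))))))))
(cons (mv 902 (cons (fin 903 1 838)
(mv 907 (cons (fin 906 0 839)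
(mv 774 (cons (fin 775 3 774)
(mv 843 (cons (fin 908 0 840)
(mv 780 (cons (fin 779 2 776)
(mv 844 (cons (fin 904 1 840)
(fin 781 2 777)))))))))))))
(mv 838 (cons (fin 906 0 838)
(mv 774 (cons (fin 773 3 773)
(fin 775 3 774))))))))))))
(mv 778 (cons (fin 842 6 777)
(mv 777 (cons (fin 714 6 713)
(fin 970 4 777)))))))))
(cons (mv 1097 (cons (cons (mv 1096 (cons (fin 1160 5 904)
(mv 1094 (cons (fin 1095 2 1030)
(mv 904 (cons (fin 840 7 840)
(mv 842 (cons (fin 906 6 841)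
(mv 968 (cons (fin 1161 7 904)
(mv 967 (cons (fin 966 0 966)
(mv 970 (cons (fin 1035 0 967)
(mv 903 (cons (fin 902 3 902)
(fin 971 3 903)))))))))))))))))
(cons (mv 840 (cons (fin 904 7 840)
(mv 1160 (cons (fin 1096 5 904)
(mv 1161 (cons (fin 1224 5 968)
(mv 1225 (cons (fin 970 6 969)
(mv 1226 (cons (fin 1162 4 969)
(fin 1290 4 1033)))))))))))
(mv 1160 (cons (fin 1096 5 904)
(mv 842 (cons (fin 906 6 841)
(mv 1161 (cons (fin 1224 5 968)
(mv 1225 (cons (fin 970 6 969)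
(mv 1226 (cons (fin 1162 4 969)
(fin 1290 4 1033)))))))))))))
(cons (cons (mv 840 (cons (fin 904 7 840)
(mv 906 (cons (fin 842 6 841)
(mv 1161 (cons (fin 970 6 905)
(mv 1224 (cons (fin 1160 5 968)
(mv 1226 (cons (fin 1162 4 969)
(mv 1225 (cons (fin 1288 5 1032)
(fin 1290 4 1033)))))))))))))
(mv 842 (cons (fin 906 6 841)
(mv 904 (cons (fin 840 7 840)
(mv 968 (cons (fin 1161 7 904)
(mv 967 (cons (fin 966 0 966)
(mv 970 (cons (fin 1035 0 967)
(mv 903 (cons (fin 902 3 902)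
(fin 971 3 903))))))))))))))
(cons (mv 906 (cons (fin 842 6 841)
(mv 904 (cons (fin 840 7 840)
(mv 1096 (cons (fin 1160 5 904)
(mv 1094 (cons (fin 1095 2 1030)
(mv 972 (cons (cons (mv 971 (cons (fin 970 3 904)
(fin 907 0 904)))
(mv 907 (cons (fin 908 0 905)
(mv 843 (cons (fin 844 2 840)
(mv 967 (cons (fin 968 1 903)
(mv 903 (cons (fin 966 1 902)
(mv 838 (cons (fin 839 3 838)
(mv 902 (cons (fin 837 3 837)
(fin 970 0 902))))))))))))))
(cons (mv 907 (cons (fin 971 0 904)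
(fin 908 0 905)))
(mv 971 (cons (fin 970 3 904)
(mv 974 (cons (fin 1035 1 970)
(mv 911 (cons (fin 910 2 907)
(mv 975 (cons (fin 912 2 908)
(fin 1039 0 972))))))))))))))))))))
(mv 904 (cons (fin 840 7 840)
(mv 1096 (cons (fin 1160 5 904)
(mv 1094 (cons (fin 1095 2 1030)
(mv 968 (cons (fin 1161 7 904)
(mv 967 (cons (fin 966 0 966)
(mv 906 (cons (fin 907 1 903)
(fin 842 6 841)))))))))))))))))
(mv 842 (cons (cons (mv 778 (cons (fin 841 6 777)
(mv 906 (cons (fin 714 5 713)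
(fin 1097 6 841)))))
(mv 841 (cons (fin 778 6 777)
(mv 840 (cons (fin 776 7 776)
(mv 839 (cons (cons (mv 906 (cons (fin 838 0 838)
(fin 907 0 839)))
(mv 774 (cons (fin 775 3 774)
(mv 773 (cons (fin 838 3 773)
(mv 903 (cons (fin 902 1 838)
(mv 843 (cons (fin 904 1 839)
(mv 908 (cons (fin 907 0 840)
(mv 780 (cons (fin 779 2 776)
(mv 844 (cons (fin 781 2 777)
(fin 972 4 780))))))))))))))))
(cons (mv 902 (cons (fin 903 1 838)
(mv 907 (cons (fin 906 0 839)
(mv 774 (cons (fin 775 3 774)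
(mv 843 (cons (fin 908 0 840)
(mv 780 (cons (fin 779 2 776)
(mv 844 (cons (fin 904 1 840)
(fin 781 2 777)))))))))))))
(mv 838 (cons (fin 906 0 838)
(mv 774 (cons (fin 773 3 773)
(fin 775 3 774)))))))))))))
(cons (mv 1097 (cons (fin 906 6 841)
(mv 1160 (cons (fin 1096 5 904)
(mv 904 (cons (fin 840 7 840)
(mv 1161 (cons (fin 968 7 904)
(fin 1224 5 968)))))))))
(mv 841 (cons (fin 778 6 777)
(mv 840 (cons (fin 776 7 776)
(mv 904 (cons (fin 1097 7 840)
(mv 903 (cons (fin 843 1 839)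
(fin 902 2 838))))))))))))))
(cons (cons (mv 1097 (cons (cons (mv 840 (cons (fin 904 7 840)
(mv 776 (cons (fin 841 7 776)
(mv 1160 (cons (fin 1096 5 904)
(mv 1161 (cons (fin 1224 5 968)
(mv 970 (cons (fin 906 6 905)
(fin 1225 6 969)))))))))))
(mv 1160 (cons (fin 1096 5 904)
(mv 1161 (cons (fin 1224 5 968)
(mv 970 (cons (fin 906 6 905)
(fin 1225 6 969))))))))
(cons (mv 840 (cons (fin 904 7 840)
(mv 841 (cons (fin 776 7 776)
(mv 970 (cons (fin 777 4 777)
(mv 1161 (cons (fin 906 6 905)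
(fin 1225 6 969)))))))))
(cons (mv 1096 (cons (fin 1160 5 904)
(mv 1094 (cons (fin 1095 2 1030)
(mv 841 (cons (mv 840 (cons (fin 776 7 776)
(fin 904 7 840)))
(cons (mv 777 (cons (fin 970 4 777)
(mv 714 (cons (fin 778 6 713)
(mv 713 (cons (fin 650 6 649)
(mv 712 (cons (fin 648 7 648)
(fin 776 7 712)))))))))
(mv 777 (cons (fin 970 4 777)
(mv 714 (cons (fin 778 6 713)
(mv 713 (cons (fin 650 6 649)
(mv 904 (cons (fin 840 7 840)
(fin 968 5 712))))))))))))))))
(mv 904 (cons (fin 840 7 840)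
(mv 1160 (cons (fin 1096 5 904)
(mv 1161 (cons (fin 968 7 904)
(fin 1224 5 968)))))))))))
(mv 842 (cons (cons (mv 778 (cons (fin 841 6 777)
(mv 906 (cons (fin 714 5 713)
(fin 970 5 777)))))
(mv 841 (cons (fin 778 6 777)
(mv 970 (cons (fin 777 4 777)
(mv 971 (cons (fin 972 1 969)
(mv 968 (cons (mv 967 (cons (fin 966 0 966)
(fin 1035 0 967)))
(mv 904 (cons (fin 903 3 903)
(mv 907 (cons (fin 908 2 904)
(mv 843 (cons (fin 844 1 840)
(fin 779 5 778))))))))))))))))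
(cons (mv 1097 (cons (fin 906 6 841)
(mv 1160 (cons (fin 1096 5 904)
(mv 1161 (cons (fin 1224 5 968)
(mv 904 (cons (fin 968 7 904)
(mv 1226 (cons (fin 1162 4 969)
(mv 1225 (cons (fin 970 6 969)
(fin 1290 4 1033)))))))))))))
(mv 906 (cons (fin 1097 6 841)
(mv 778 (cons (fin 714 5 713)
(fin 841 6 777)))))))))
(cons (mv 841 (cons (cons (mv 776 (cons (fin 840 7 776)
(mv 777 (cons (fin 712 7 712)
(fin 970 4 777)))))
(mv 840 (cons (fin 776 7 776)
(mv 778 (cons (fin 842 6 777)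
(mv 1097 (cons (fin 904 7 840)
(mv 1160 (cons (fin 1096 5 904)
(mv 1161 (cons (fin 1224 5 968)
(mv 1225 (cons (fin 970 6 969)
(mv 1226 (cons (fin 1162 4 969)
(fin 1290 4 1033))))))))))))))))
(cons (mv 776 (cons (fin 840 7 776)
(mv 777 (cons (fin 712 7 712)
(mv 778 (cons (fin 714 6 713)
(fin 842 6 777)))))))
(mv 778 (cons (fin 842 6 777)
(mv 777 (cons (fin 714 6 713)
(fin 970 4 777))))))))
(mv 841 (cons (cons (mv 776 (cons (fin 840 7 776)
(mv 777 (cons (fin 712 7 712)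
(fin 970 4 777)))))
(mv 776 (cons (fin 840 7 776)
(mv 842 (cons (fin 778 6 777)
(mv 1097 (cons (fin 906 6 841)
(mv 1160 (cons (fin 1096 5 904)
(mv 1161 (cons (fin 1224 5 968)
(mv 1225 (cons (fin 970 6 969)
(mv 1226 (cons (fin 1162 4 969)
(fin 1290 4 1033))))))))))))))))
(cons (mv 778 (cons (fin 842 6 777)
(mv 777 (cons (fin 714 6 713)
(mv 776 (cons (fin 712 7 712)
(fin 840 7 776)))))))
(mv 777 (cons (fin 970 4 777)
(mv 778 (cons (fin 714 6 713)
(fin 842 6 777))))))))))))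
(mv 970 (cons (cons (mv 971 (cons (fin 972 1 969)
(mv 968 (cons (mv 967 (cons (fin 966 0 966)
(fin 1035 0 967)))
(cons (mv 903 (cons (fin 904 3 903)
(mv 907 (cons (fin 908 2 904)
(mv 779 (cons (fin 843 5 778)
(mv 1098 (cons (fin 1162 6 906)
(mv 1099 (cons (fin 1100 3 1033)
(mv 906 (cons (fin 1163 4 906)
(mv 842 (cons (fin 1035 7 842)
(fin 778 5 777)))))))))))))))
(mv 903 (cons (fin 904 3 903)
(mv 967 (cons (fin 902 3 902)
(fin 966 0 966))))))))))
(cons (mv 1098 (cons (cons (mv 1099 (cons (fin 1100 3 1033)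
(mv 1162 (cons (fin 1226 7 969)
(mv 1163 (cons (fin 906 4 906)
(fin 1227 4 970)))))))
(mv 1099 (cons (fin 1100 3 1033)
(mv 906 (cons (fin 1163 4 906)
(mv 842 (cons (fin 778 5 777)
(fin 1097 5 841))))))))
(cons (mv 1162 (cons (fin 1226 7 969)
(mv 1163 (cons (fin 1227 4 970)
(mv 1161 (cons (fin 1225 5 969)
(mv 906 (cons (fin 1097 5 905)
(mv 842 (cons (fin 778 5 777)
(mv 843 (cons (fin 779 6 778)
(fin 907 6 842)))))))))))))
(cons (mv 1162 (cons (fin 1226 7 969)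
(mv 1099 (cons (fin 1100 3 1033)
(mv 1163 (cons (fin 1227 4 970)
(mv 1161 (cons (fin 1225 5 969)
(mv 1160 (cons (fin 1159 2 1095)
(mv 1224 (cons (fin 1223 1 1159)
(fin 1097 5 968)))))))))))))
(mv 1162 (cons (fin 1226 7 969)
(mv 1099 (cons (fin 1100 3 1033)
(mv 1161 (cons (fin 1225 5 969)
(mv 906 (cons (fin 1097 5 905)
(mv 842 (cons (fin 778 5 777)
(fin 1035 4 842)))))))))))))))
(mv 971 (cons (fin 972 1 969)
(mv 968 (cons (mv 967 (cons (fin 966 0 966)
(fin 1035 0 967)))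
(cons (mv 903 (cons (fin 904 3 903)
(mv 907 (cons (fin 908 2 904)
(mv 843 (cons (fin 779 5 778)
(mv 1098 (cons (fin 1035 5 842)
(fin 1162 6 906)))))))))
(mv 903 (cons (fin 904 3 903)
(mv 967 (cons (fin 902 3 902)
(fin 966 0 966))))))))))))
(cons (mv 971 (cons (fin 972 1 969)
(mv 968 (cons (mv 967 (cons (fin 966 0 966)
(fin 1035 0 967)))
(cons (mv 904 (cons (fin 903 3 903)
(mv 907 (cons (fin 908 2 904)
(mv 776 (cons (fin 840 4 776)
(mv 843 (cons (fin 779 5 778)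
(mv 1097 (cons (fin 1161 7 904)
(mv 842 (cons (fin 906 5 841)
(mv 778 (cons (fin 1035 7 778)
(mv 777 (cons (fin 775 0 775)
(mv 844 (cons (fin 841 3 776)
(fin 845 3 777)))))))))))))))))))
(mv 903 (cons (fin 904 3 903)
(mv 967 (cons (fin 902 3 902)
(fin 966 0 966))))))))))
(cons (mv 971 (cons (fin 972 1 969)
(mv 1098 (cons (mv 1162 (cons (fin 1226 7 969)
(fin 907 6 906)))
(mv 1099 (cons (fin 1100 3 1033)
(mv 906 (cons (fin 1163 4 906)
(mv 842 (cons (fin 778 5 777)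
(fin 1097 5 841)))))))))))
(mv 971 (cons (fin 972 1 969)
(mv 1098 (cons (cons (mv 1099 (cons (fin 1100 3 1033)
(mv 1162 (cons (fin 1226 7 969)
(mv 1163 (cons (fin 906 4 906)
(fin 1227 4 970)))))))
(mv 1099 (cons (fin 1100 3 1033)
(mv 906 (cons (fin 1163 4 906)
(mv 842 (cons (fin 778 5 777)
(fin 1097 5 841))))))))
(cons (mv 1162 (cons (fin 1226 7 969)
(mv 1161 (cons (fin 1225 5 969)
(mv 1097 (cons (fin 906 5 905)
(mv 1160 (cons (fin 1224 5 968)
(mv 1158 (cons (fin 1159 2 1094)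
(mv 904 (cons (fin 968 7 904)
(mv 1163 (cons (fin 1227 4 970)
(mv 1096 (cons (fin 1095 3 1095)
(fin 1164 3 1096)))))))))))))))))
(cons (mv 1162 (cons (fin 1226 7 969)
(mv 1099 (cons (fin 1100 3 1033)
(mv 1161 (cons (fin 1225 5 969)
(mv 1160 (cons (fin 1159 2 1095)
(mv 1163 (cons (fin 1227 4 970)
(mv 1224 (cons (fin 1223 1 1159)
(fin 1097 5 968)))))))))))))
(mv 1099 (cons (fin 1100 3 1033)
(mv 1162 (cons (fin 1226 7 969)
(mv 1161 (cons (fin 1225 5 969)
(mv 906 (cons (fin 1097 5 905)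
(mv 842 (cons (fin 778 5 777)
(fin 1035 4 842)))))))))))))))))))))))
(cons (mv 905 (cons (cons (mv 841 (cons (fin 1098 4 841)
(mv 776 (cons (fin 840 7 776)
(mv 777 (cons (fin 712 7 712)
(mv 778 (cons (fin 714 6 713)
(fin 842 6 777)))))))))
(mv 842 (cons (cons (mv 778 (cons (fin 841 6 777)
(mv 906 (cons (fin 714 5 713)
(fin 1097 6 841)))))
(mv 841 (cons (fin 778 6 777)
(mv 840 (cons (fin 776 7 776)
(mv 839 (cons (cons (mv 906 (cons (fin 838 0 838)
(fin 907 0 839)))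
(mv 774 (cons (fin 775 3 774)
(mv 773 (cons (fin 838 3 773)
(mv 903 (cons (fin 902 1 838)
(mv 843 (cons (fin 904 1 839)
(mv 908 (cons (fin 907 0 840)
(mv 780 (cons (fin 779 2 776)
(mv 844 (cons (fin 781 2 777)
(fin 972 4 780))))))))))))))))
(cons (mv 902 (cons (fin 903 1 838)
(mv 907 (cons (fin 906 0 839)
(mv 774 (cons (fin 775 3 774)
(mv 843 (cons (fin 908 0 840)
(mv 780 (cons (fin 779 2 776)
(mv 844 (cons (fin 904 1 840)
(fin 781 2 777)))))))))))))
(mv 838 (cons (fin 906 0 838)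
(mv 774 (cons (fin 773 3 773)
(fin 775 3 774)))))))))))))
(cons (mv 1097 (cons (fin 906 6 841)
(mv 1160 (cons (fin 1096 5 904)
(mv 904 (cons (fin 840 7 840)
(mv 1161 (cons (fin 968 7 904)
(fin 1224 5 968)))))))))
(mv 841 (cons (fin 778 6 777)
(mv 840 (cons (fin 776 7 776)
(mv 904 (cons (fin 1097 7 840)
(mv 903 (cons (fin 843 1 839)
(fin 902 2 838)))))))))))))
(cons (mv 1097 (cons (cons (mv 840 (cons (fin 904 7 840)
(mv 1098 (cons (fin 1162 4 905)
(mv 1099 (cons (fin 1100 3 1033)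
(mv 842 (cons (fin 906 6 841)
(mv 1096 (cons (fin 1160 5 904)
(mv 1095 (cons (fin 1094 2 1030)
(fin 1035 2 1031)))))))))))))
(mv 904 (cons (fin 840 7 840)
(mv 1096 (cons (fin 1160 5 904)
(mv 1094 (cons (fin 1095 2 1030)
(mv 968 (cons (fin 1161 7 904)
(mv 967 (cons (fin 966 0 966)
(mv 906 (cons (fin 907 1 903)
(fin 842 6 841))))))))))))))
(cons (mv 1098 (cons (fin 1162 4 905)
(mv 1099 (cons (fin 1100 3 1033)
(mv 1096 (cons (fin 1160 5 904)
(mv 1095 (cons (fin 1094 2 1030)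
(fin 1035 2 1031)))))))))
(cons (mv 842 (cons (fin 906 6 841)
(mv 1098 (cons (fin 1162 4 905)
(mv 1099 (cons (fin 1100 3 1033)
(mv 904 (cons (fin 840 7 840)
(mv 1161 (cons (fin 968 7 904)
(mv 1224 (cons (fin 1160 5 968)
(mv 1225 (cons (fin 1288 5 1032)
(fin 1289 6 1033)))))))))))))))
(mv 904 (cons (fin 840 7 840)
(mv 842 (cons (fin 906 6 841)
(mv 1161 (cons (fin 968 7 904)
(mv 1162 (cons (fin 1098 4 905)
(fin 1226 4 969)))))))))))))
(mv 1098 (cons (fin 841 4 841)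
(mv 1162 (cons (fin 1226 7 969)
(fin 1097 4 905))))))))
(cons (mv 1098 (cons (cons (cons (mv 1099 (cons (fin 1100 3 1033)
(mv 905 (cons (fin 841 4 841)
(mv 1097 (cons (mv 840 (cons (fin 904 7 840)
(mv 842 (cons (fin 906 6 841)
(mv 1096 (cons (fin 1160 5 904)
(mv 1095 (cons (fin 1094 2 1030)
(fin 1035 2 1031)))))))))
(cons (mv 1096 (cons (fin 1160 5 904)
(mv 1095 (cons (fin 1094 2 1030)
(fin 1035 2 1031)))))
(mv 840 (cons (fin 904 7 840)
(mv 906 (cons (fin 842 6 841)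
(mv 970 (cons (fin 1161 5 905)
(fin 1163 4 906))))))))))))))
(mv 1099 (cons (fin 1100 3 1033)
(mv 970 (cons (mv 971 (cons (fin 972 1 969)
(mv 906 (cons (fin 1163 4 906)
(mv 842 (cons (fin 778 5 777)
(fin 1097 5 841)))))))
(cons (mv 971 (cons (fin 972 1 969)
(mv 968 (cons (mv 967 (cons (fin 966 0 966)
(fin 1035 0 967)))
(cons (mv 903 (cons (fin 904 3 903)
(mv 907 (cons (fin 908 2 904)
(mv 843 (cons (fin 779 5 778)
(fin 1035 5 842)))))))
(mv 907 (cons (fin 908 2 904)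
(mv 967 (cons (fin 966 0 966)
(mv 903 (cons (fin 902 3 902)
(fin 904 3 903))))))))))))
(mv 906 (cons (fin 1163 4 906)
(mv 842 (cons (fin 778 5 777)
(fin 1097 5 841)))))))))))
(cons (mv 905 (cons (fin 841 4 841)
(mv 1097 (cons (mv 840 (cons (fin 904 7 840)
(mv 842 (cons (fin 906 6 841)
(mv 1096 (cons (fin 1160 5 904)
(mv 1095 (cons (fin 1094 2 1030)
(fin 1035 2 1031)))))))))
(cons (mv 1096 (cons (fin 1160 5 904)
(mv 1095 (cons (fin 1094 2 1030)
(fin 1035 2 1031)))))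
(mv 840 (cons (fin 904 7 840)
(mv 906 (cons (fin 842 6 841)
(mv 970 (cons (fin 1161 5 905)
(mv 971 (cons (fin 972 3 905)
(mv 907 (cons (fin 843 6 842)
(mv 968 (cons (fin 908 1 904)
(fin 967 2 903))))))))))))))))))
(mv 1099 (cons (fin 1100 3 1033)
(mv 905 (cons (fin 841 4 841)
(mv 1097 (cons (cons (mv 840 (cons (fin 904 7 840)
(mv 842 (cons (fin 906 6 841)
(mv 1096 (cons (fin 1160 5 904)
(mv 1095 (cons (fin 1094 2 1030)
(fin 1035 2 1031)))))))))
(mv 904 (cons (fin 840 7 840)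
(mv 842 (cons (fin 906 6 841)
(mv 1161 (cons (fin 968 7 904)
(mv 1224 (cons (fin 1160 5 968)
(mv 1225 (cons (fin 1288 5 1032)
(fin 1289 6 1033))))))))))))
(cons (mv 904 (cons (fin 840 7 840)
(mv 906 (cons (fin 842 6 841)
(mv 968 (cons (fin 1161 7 904)
(mv 967 (cons (fin 907 1 903)
(fin 966 2 902)))))))))
(mv 1096 (cons (fin 1160 5 904)
(mv 1095 (cons (fin 1094 2 1030)
(fin 1035 2 1031))))))))))))))
(cons (cons (mv 1099 (cons (fin 1100 3 1033)
(mv 841 (cons (fin 905 4 841)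
(mv 970 (cons (mv 971 (cons (fin 972 1 969)
(mv 906 (cons (fin 1163 4 906)
(mv 842 (cons (fin 777 7 777)
(fin 778 5 777)))))))
(cons (mv 971 (cons (fin 972 1 969)
(mv 968 (cons (mv 967 (cons (fin 966 0 966)
(fin 1035 0 967)))
(cons (mv 903 (cons (fin 904 3 903)
(mv 907 (cons (fin 908 2 904)
(mv 843 (cons (fin 779 5 778)
(fin 1035 5 842)))))))
(mv 907 (cons (fin 908 2 904)
(mv 967 (cons (fin 966 0 966)
(mv 903 (cons (fin 902 3 902)
(fin 904 3 903))))))))))))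
(mv 906 (cons (fin 1163 4 906)
(mv 842 (cons (fin 777 7 777)
(fin 778 5 777))))))))))))
(mv 1099 (cons (fin 1100 3 1033)
(mv 905 (cons (fin 841 4 841)
(mv 1097 (cons (mv 1096 (cons (fin 1160 5 904)
(mv 1095 (cons (fin 1094 2 1030)
(fin 1035 2 1031)))))
(cons (mv 904 (cons (fin 840 7 840)
(mv 968 (cons (fin 1161 7 904)
(mv 967 (cons (fin 966 0 966)
(mv 970 (cons (fin 1035 0 967)
(mv 903 (cons (fin 902 3 902)
(fin 971 3 903)))))))))))
(mv 840 (cons (fin 904 7 840)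
(mv 1160 (cons (fin 1096 5 904)
(mv 1161 (cons (fin 1224 5 968)
(mv 1225 (cons (fin 970 6 969)
(fin 1289 6 1033)))))))))))))))))
(cons (mv 1099 (cons (fin 1100 3 1033)
(mv 905 (cons (fin 841 4 841)
(mv 1097 (cons (cons (mv 840 (cons (fin 904 7 840)
(mv 842 (cons (fin 906 6 841)
(mv 1160 (cons (fin 1096 5 904)
(mv 1161 (cons (fin 1224 5 968)
(mv 1225 (cons (fin 970 6 969)
(fin 1289 6 1033)))))))))))
(mv 840 (cons (fin 904 7 840)
(mv 1160 (cons (fin 1096 5 904)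
(mv 1161 (cons (fin 1224 5 968)
(mv 1225 (cons (fin 970 6 969)
(fin 1289 6 1033))))))))))
(cons (mv 842 (cons (fin 906 6 841)
(mv 904 (cons (fin 840 7 840)
(mv 1161 (cons (fin 968 7 904)
(mv 1225 (cons (fin 970 6 969)
(fin 1289 6 1033)))))))))
(cons (mv 1096 (cons (fin 1160 5 904)
(mv 1163 (cons (fin 1164 0 1096)
(mv 906 (cons (fin 842 6 841)
(fin 970 4 906)))))))
(mv 842 (cons (fin 906 6 841)
(mv 904 (cons (fin 840 7 840)
(mv 1096 (cons (fin 1160 5 904)
(mv 1163 (cons (fin 1164 0 1096)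
(mv 1095 (cons (fin 1094 2 1030)
(mv 1227 (cons (fin 1291 7 1034)
(mv 1031 (cons (fin 1030 3 1030)
(mv 1159 (cons (fin 1158 1 1094)
(mv 968 (cons (fin 1161 7 904)
(fin 967 6 903)))))))))))))))))))))))))))
(mv 1099 (cons (fin 1100 3 1033)
(mv 905 (cons (fin 841 4 841)
(mv 906 (cons (cons (mv 842 (cons (fin 1097 6 841)
(mv 970 (cons (fin 778 5 777)
(fin 1035 4 842)))))
(mv 1097 (cons (fin 842 6 841)
(mv 1096 (cons (fin 1160 5 904)
(mv 1095 (cons (fin 1094 2 1030)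
(fin 1035 2 1031))))))))
(cons (mv 970 (cons (fin 1163 4 906)
(mv 842 (cons (fin 778 5 777)
(fin 1035 4 842)))))
(cons (mv 970 (cons (fin 1163 4 906)
(mv 1097 (cons (fin 1161 5 905)
(mv 843 (cons (fin 907 6 842)
(mv 1096 (cons (fin 1160 5 904)
(mv 1095 (cons (fin 1094 2 1030)
(fin 1035 2 1031)))))))))))
(mv 970 (cons (fin 1163 4 906)
(mv 1097 (cons (fin 842 5 841)
(fin 1161 5 905)))))))))))))))))
(mv 1098 (cons (cons (mv 1099 (cons (fin 1100 3 1033)
(mv 1162 (cons (fin 1226 7 969)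
(mv 905 (cons (fin 970 7 905)
(fin 841 4 841)))))))
(mv 905 (cons (fin 841 4 841)
(mv 1099 (cons (fin 1100 3 1033)
(mv 1097 (cons (mv 840 (cons (fin 904 7 840)
(mv 842 (cons (fin 906 6 841)
(mv 1096 (cons (fin 1160 5 904)
(mv 1095 (cons (fin 1094 2 1030)
(fin 1035 2 1031)))))))))
(cons (mv 1096 (cons (fin 1160 5 904)
(mv 1095 (cons (fin 1094 2 1030)
(fin 1035 2 1031)))))
(mv 840 (cons (fin 904 7 840)
(mv 906 (cons (fin 842 6 841)
(mv 970 (cons (fin 1161 5 905)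
(fin 1163 4 906)))))))))))))))
(cons (mv 1099 (cons (fin 1100 3 1033)
(mv 1162 (cons (fin 1226 7 969)
(mv 970 (cons (mv 1163 (cons (fin 906 4 906)
(fin 1227 4 970)))
(cons (mv 1161 (cons (fin 1225 5 969)
(mv 906 (cons (fin 1097 5 905)
(mv 907 (cons (fin 843 6 842)
(fin 971 6 906)))))))
(mv 1161 (cons (fin 1225 5 969)
(mv 1160 (cons (fin 1159 2 1095)
(mv 1163 (cons (fin 1227 4 970)
(mv 1224 (cons (fin 1223 1 1159)
(fin 1097 5 968))))))))))))))))
(cons (mv 1162 (cons (fin 1226 7 969)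
(mv 905 (cons (fin 970 7 905)
(fin 841 4 841)))))
(mv 1162 (cons (fin 1226 7 969)
(mv 905 (cons (fin 841 4 841)
(fin 1097 4 905))))))))))))
(cons (cons (mv 1098 (cons (cons (mv 1099 (cons (fin 1100 3 1033)
(mv 1162 (cons (fin 1226 7 969)
(mv 905 (cons (fin 970 7 905)
(fin 1097 4 905)))))))
(mv 1099 (cons (fin 1100 3 1033)
(mv 970 (cons (cons (mv 971 (cons (fin 972 1 969)
(mv 906 (cons (fin 1163 4 906)
(mv 842 (cons (fin 778 5 777)
(fin 1097 5 841)))))))
(mv 971 (cons (fin 972 1 969)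
(mv 968 (cons (mv 967 (cons (fin 966 0 966)
(fin 1035 0 967)))
(cons (mv 903 (cons (fin 904 3 903)
(mv 907 (cons (fin 908 2 904)
(mv 843 (cons (fin 779 5 778)
(fin 1035 5 842)))))))
(mv 907 (cons (fin 908 2 904)
(mv 966 (cons (fin 967 0 966)
(mv 779 (cons (fin 843 5 778)
(mv 904 (cons (fin 903 3 903)
(mv 1097 (cons (fin 1161 7 904)
(mv 840 (cons (fin 905 7 840)
(fin 776 4 776)))))))))))))))))))
(cons (mv 906 (cons (fin 1163 4 906)
(mv 842 (cons (fin 778 5 777)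
(fin 1097 5 841)))))
(mv 906 (cons (fin 1163 4 906)
(mv 842 (cons (fin 778 5 777)
(fin 1035 4 842)))))))))))
(cons (mv 1162 (cons (fin 1226 7 969)
(mv 905 (cons (fin 970 7 905)
(fin 1097 4 905)))))
(cons (mv 1162 (cons (fin 1226 7 969)
(mv 1099 (cons (fin 1100 3 1033)
(mv 1097 (cons (fin 905 4 905)
(mv 1096 (cons (mv 1095 (cons (fin 1094 2 1030)
(fin 1035 2 1031)))
(mv 1160 (cons (fin 1159 1 1095)
(mv 1224 (cons (fin 1161 5 968)
(fin 1288 6 1032)))))))))))))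
(mv 1162 (cons (fin 1226 7 969)
(mv 1099 (cons (fin 1100 3 1033)
(mv 970 (cons (mv 971 (cons (fin 972 1 969)
(fin 907 6 906)))
(mv 1163 (cons (fin 906 4 906)
(fin 1227 4 970)))))))))))))
(cons (mv 905 (cons (cons (mv 841 (cons (fin 1098 4 841)
(mv 776 (cons (fin 840 7 776)
(mv 777 (cons (fin 712 7 712)
(fin 970 4 777)))))))
(mv 970 (cons (cons (mv 971 (cons (fin 972 1 969)
(mv 1098 (cons (fin 1162 7 905)
(mv 1099 (cons (fin 1100 3 1033)
(mv 906 (cons (fin 1163 4 906)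
(mv 842 (cons (fin 778 5 777)
(fin 1035 4 842)))))))))))
(mv 1098 (cons (fin 1162 7 905)
(mv 1099 (cons (fin 1100 3 1033)
(mv 906 (cons (fin 1163 4 906)
(mv 842 (cons (fin 778 5 777)
(fin 1035 4 842))))))))))
(cons (mv 971 (cons (fin 972 1 969)
(mv 968 (cons (mv 967 (cons (fin 966 0 966)
(fin 1035 0 967)))
(mv 904 (cons (fin 903 3 903)
(mv 907 (cons (fin 908 2 904)
(mv 843 (cons (fin 779 5 778)
(mv 840 (cons (fin 776 4 776)
(mv 906 (cons (fin 839 3 839)
(fin 844 2 840)))))))))))))))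
(cons (mv 971 (cons (fin 972 1 969)
(mv 1098 (cons (fin 1162 7 905)
(mv 1099 (cons (fin 1100 3 1033)
(mv 968 (cons (mv 967 (cons (fin 966 0 966)
(fin 1035 0 967)))
(cons (mv 903 (cons (fin 904 3 903)
(mv 907 (cons (fin 908 2 904)
(mv 843 (cons (fin 779 5 778)
(fin 1035 5 842)))))))
(mv 907 (cons (fin 908 2 904)
(mv 967 (cons (fin 966 0 966)
(mv 903 (cons (fin 902 3 902)
(fin 904 3 903))))))))))))))))
(mv 1098 (cons (fin 1162 7 905)
(mv 1099 (cons (fin 1100 3 1033)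
(mv 971 (cons (fin 972 1 969)
(mv 906 (cons (fin 1163 4 906)
(mv 843 (cons (fin 907 6 842)
(mv 842 (cons (fin 778 5 777)
(fin 779 6 778))))))))))))))))))
(cons (mv 841 (cons (mv 776 (cons (fin 840 7 776)
(mv 777 (cons (fin 712 7 712)
(fin 970 4 777)))))
(cons (mv 840 (cons (fin 776 7 776)
(mv 842 (cons (fin 778 6 777)
(mv 839 (cons (cons (mv 906 (cons (fin 838 0 838)
(fin 907 0 839)))
(mv 774 (cons (fin 775 3 774)
(mv 773 (cons (fin 838 3 773)
(mv 903 (cons (fin 902 1 838)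
(mv 843 (cons (fin 904 1 839)
(mv 908 (cons (fin 907 0 840)
(mv 780 (cons (fin 779 2 776)
(mv 844 (cons (fin 781 2 777)
(fin 972 4 780))))))))))))))))
(cons (mv 902 (cons (fin 903 1 838)
(mv 907 (cons (fin 906 0 839)
(mv 774 (cons (fin 775 3 774)
(mv 843 (cons (fin 908 0 840)
(mv 780 (cons (fin 779 2 776)
(mv 844 (cons (fin 904 1 840)
(fin 781 2 777)))))))))))))
(mv 838 (cons (fin 906 0 838)
(mv 774 (cons (fin 773 3 773)
(fin 775 3 774))))))))))))
(mv 778 (cons (fin 842 6 777)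
(mv 777 (cons (fin 714 6 713)
(fin 970 4 777))))))))
(cons (mv 841 (cons (fin 1098 4 841)
(mv 778 (cons (fin 842 6 777)
(mv 777 (cons (fin 714 6 713)
(mv 776 (cons (fin 712 7 712)
(fin 840 7 776)))))))))
(mv 841 (cons (fin 1098 4 841)
(mv 778 (cons (fin 842 6 777)
(mv 777 (cons (fin 714 6 713)
(fin 970 4 777)))))))))))
(mv 1098 (cons (cons (mv 1099 (cons (fin 1100 3 1033)
(mv 905 (cons (fin 841 4 841)
(mv 1162 (cons (fin 970 7 905)
(fin 1226 7 969)))))))
(mv 1099 (cons (fin 1100 3 1033)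
(mv 905 (cons (fin 841 4 841)
(mv 1097 (cons (mv 1096 (cons (fin 1160 5 904)
(mv 1095 (cons (fin 1094 2 1030)
(fin 1035 2 1031)))))
(cons (mv 904 (cons (fin 840 7 840)
(mv 968 (cons (fin 1161 7 904)
(mv 967 (cons (fin 966 0 966)
(mv 970 (cons (fin 1035 0 967)
(mv 903 (cons (fin 902 3 902)
(fin 971 3 903)))))))))))
(mv 840 (cons (fin 904 7 840)
(mv 1160 (cons (fin 1096 5 904)
(mv 1161 (cons (fin 1224 5 968)
(mv 1225 (cons (fin 970 6 969)
(fin 1289 6 1033)))))))))))))))))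
(cons (mv 1099 (cons (fin 1100 3 1033)
(mv 1162 (cons (fin 1226 7 969)
(mv 970 (cons (mv 971 (cons (fin 972 1 969)
(fin 907 6 906)))
(mv 1163 (cons (fin 1227 4 970)
(mv 1161 (cons (fin 1225 5 969)
(mv 1160 (cons (fin 1159 2 1095)
(mv 1224 (cons (fin 1223 1 1159)
(fin 1097 5 968)))))))))))))))
(cons (mv 1162 (cons (fin 1226 7 969)
(mv 905 (cons (fin 970 7 905)
(fin 841 4 841)))))
(mv 1162 (cons (fin 1226 7 969)
(mv 905 (cons (fin 841 4 841)
(fin 1097 4 905)))))))))))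
(cons (mv 1098 (cons (cons (mv 1099 (cons (fin 1100 3 1033)
(mv 905 (cons (fin 841 4 841)
(mv 1162 (cons (fin 970 7 905)
(fin 1226 7 969)))))))
(mv 1099 (cons (fin 1100 3 1033)
(mv 905 (cons (fin 841 4 841)
(mv 906 (cons (cons (mv 842 (cons (fin 1097 6 841)
(mv 970 (cons (fin 778 5 777)
(fin 1035 4 842)))))
(mv 1097 (cons (fin 842 6 841)
(mv 1096 (cons (fin 1160 5 904)
(mv 1095 (cons (fin 1094 2 1030)
(fin 1035 2 1031))))))))
(cons (mv 970 (cons (fin 1163 4 906)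
(mv 842 (cons (fin 778 5 777)
(fin 1035 4 842)))))
(cons (mv 970 (cons (fin 1163 4 906)
(mv 1097 (cons (fin 1161 5 905)
(mv 843 (cons (fin 907 6 842)
(mv 1096 (cons (fin 1160 5 904)
(mv 1095 (cons (fin 1094 2 1030)
(fin 1035 2 1031)))))))))))
(mv 970 (cons (fin 1163 4 906)
(mv 1097 (cons (fin 842 5 841)
(fin 1161 5 905))))))))))))))
(cons (mv 1099 (cons (fin 1100 3 1033)
(mv 1162 (cons (fin 1226 7 969)
(mv 970 (cons (mv 971 (cons (fin 972 1 969)
(fin 907 6 906)))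
(mv 1163 (cons (fin 906 4 906)
(fin 1227 4 970)))))))))
(cons (mv 1162 (cons (fin 1226 7 969)
(mv 905 (cons (fin 970 7 905)
(fin 841 4 841)))))
(mv 1162 (cons (fin 1226 7 969)
(mv 905 (cons (fin 841 4 841)
(fin 1097 4 905)))))))))
(cons (mv 1098 (cons (cons (mv 1099 (cons (fin 1100 3 1033)
(mv 905 (cons (fin 841 4 841)
(mv 1162 (cons (fin 970 7 905)
(fin 1226 7 969)))))))
(mv 1099 (cons (fin 1100 3 1033)
(mv 905 (cons (fin 841 4 841)
(mv 1097 (cons (cons (mv 840 (cons (fin 904 7 840)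
(mv 842 (cons (fin 906 6 841)
(mv 1160 (cons (fin 1096 5 904)
(mv 1161 (cons (fin 1224 5 968)
(mv 1225 (cons (fin 970 6 969)
(fin 1289 6 1033)))))))))))
(mv 840 (cons (fin 904 7 840)
(mv 1160 (cons (fin 1096 5 904)
(mv 1161 (cons (fin 1224 5 968)
(mv 1225 (cons (fin 970 6 969)
(fin 1289 6 1033))))))))))
(cons (mv 842 (cons (fin 906 6 841)
(mv 904 (cons (fin 840 7 840)
(mv 1161 (cons (fin 968 7 904)
(mv 1225 (cons (fin 970 6 969)
(fin 1289 6 1033)))))))))
(cons (mv 1096 (cons (fin 1160 5 904)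
(mv 1163 (cons (fin 1164 0 1096)
(mv 906 (cons (fin 842 6 841)
(fin 970 4 906)))))))
(mv 842 (cons (fin 906 6 841)
(mv 904 (cons (fin 840 7 840)
(mv 1096 (cons (fin 1160 5 904)
(mv 1163 (cons (fin 1164 0 1096)
(mv 1095 (cons (fin 1094 2 1030)
(mv 1227 (cons (fin 1291 7 1034)
(mv 1031 (cons (fin 1030 3 1030)
(mv 1159 (cons (fin 1158 1 1094)
(mv 968 (cons (fin 1161 7 904)
(fin 967 6 903))))))))))))))))))))))))))))
(cons (mv 1099 (cons (fin 1100 3 1033)
(mv 1162 (cons (fin 1226 7 969)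
(mv 970 (cons (mv 971 (cons (fin 972 1 969)
(fin 907 6 906)))
(mv 1163 (cons (fin 906 4 906)
(fin 1227 4 970)))))))))
(cons (mv 1162 (cons (fin 1226 7 969)
(mv 905 (cons (fin 970 7 905)
(fin 841 4 841)))))
(mv 1162 (cons (fin 1226 7 969)
(mv 905 (cons (fin 841 4 841)
(fin 1097 4 905)))))))))
(mv 1098 (cons (cons (mv 1099 (cons (fin 1100 3 1033)
(mv 905 (cons (fin 841 4 841)
(mv 1162 (cons (fin 970 7 905)
(fin 1226 7 969)))))))
(mv 1099 (cons (fin 1100 3 1033)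
(mv 905 (cons (fin 841 4 841)
(mv 1097 (cons (mv 840 (cons (fin 904 7 840)
(mv 842 (cons (fin 906 6 841)
(mv 1096 (cons (fin 1160 5 904)
(mv 1095 (cons (fin 1094 2 1030)
(fin 1035 2 1031)))))))))
(cons (mv 1096 (cons (fin 1160 5 904)
(mv 1095 (cons (fin 1094 2 1030)
(fin 1035 2 1031)))))
(mv 840 (cons (fin 904 7 840)
(mv 906 (cons (fin 842 6 841)
(mv 970 (cons (fin 1161 5 905)
(fin 1163 4 906)))))))))))))))
(cons (mv 1162 (cons (fin 1226 7 969)
(mv 1099 (cons (fin 1100 3 1033)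
(mv 970 (cons (mv 1163 (cons (fin 906 4 906)
(fin 1227 4 970)))
(cons (mv 971 (cons (fin 972 1 969)
(mv 1161 (cons (fin 1225 5 969)
(mv 906 (cons (fin 1097 5 905)
(mv 842 (cons (fin 778 5 777)
(fin 1035 4 842)))))))))
(mv 1161 (cons (fin 1225 5 969)
(mv 1160 (cons (fin 1159 2 1095)
(mv 1163 (cons (fin 1227 4 970)
(mv 1224 (cons (fin 1223 1 1159)
(fin 1097 5 968))))))))))))))))
(cons (mv 905 (cons (fin 841 4 841)
(mv 1162 (cons (fin 970 7 905)
(fin 1226 7 969)))))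
(mv 1162 (cons (fin 1226 7 969)
(mv 905 (cons (fin 841 4 841)
(fin 1097 4 905))))))))))))))
def l82 : Lem := ⟨27165970580987716999077186177413070020083553138970795542538990237389111586754976653083794579900447563514815838776134120675060020760815837656715947719417209928832093537997904907163617890989830602182084804038675807892815215707760306779851279290011044032537348234590053963607735055040857163199970105463134926567752896499632471348871168, 79932919255022584953663457024142044857404896158354143785144331069816371956125048720316283244475245129611895827536395542191247944288110721891456796872720590280490883197140359093595451847777224415554801038704752293341634399693745449898354506576556715026374876808858285994339510523552387210902877051313140109588264374956292304379382079838336906748270253740039893964554182652975518353387945984, 79932919255022584953663457024142044857404896158354143785144331069816371956125048720316283244475245129611895827536395542191247944288110721891456796872720590280490883197140359093595451847777224415554801038704752293341634399693745449898354506576556715026374876808858285994339510523552387210902877051313140109588264374956292304379382079838336906748270253740039893964554182652975518353387945984,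 15, 33⟩
theorem l82_valid : l82.Valid :=
  Lem.valid_of_chk t82 t82_valid [973, 1033, 1034, 1037, 1040, 1101] c82 l82 (by decide +kernel)
end Crest.Agent.SnakyAux
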