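import Crest.Agent.S0047_aux.Checker

set_option autoImplicit false
set_option maxRecDepth 100000
namespace Crest.Agent.SnakyAux
open Cert
def t83 : Tbl := Tbl.nil
theorem t83_valid : t83.Valid := Tbl.valid_nil
def c83 : Cert :=
(mv 1098 (cons (cons (cons (mv 1099 (cons (fin 1100 3 1033)
(mv 1031 (cons (fin 1032 0 1031)
(mv 969 (cons (cons (mv 1162 (cons (fin 1226 7 969)
(mv 905 (cons (fin 970 7 905)
(fin 841 4 841)))))
(mv 905 (cons (fin 841 4 841)
(mv 1097 (cons (mv 840 (cons (fin 904 7 840)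
(mv 842 (cons (fin 906 6 841)
(mv 1096 (cons (fin 1160 5 904)
(mv 1095 (cons (fin 1030 3 1030)
(fin 1094 2 1030)))))))))
(cons (mv 840 (cons (fin 904 7 840)
(mv 906 (cons (fin 842 6 841)
(mv 970 (cons (fin 1161 5 905)
(fin 1163 4 906)))))))
(mv 1096 (cons (fin 1160 5 904)
(mv 1095 (cons (fin 1030 3 1030)
(fin 1094 2 1030)))))))))))
(cons (mv 1162 (cons (fin 1226 7 969)
(mv 970 (cons (mv 1163 (cons (fin 906 4 906)
(fin 1227 4 970)))
(cons (mv 1161 (cons (fin 1225 5 969)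
(mv 906 (cons (fin 1097 5 905)
(mv 907 (cons (fin 843 6 842)
(fin 971 6 906)))))))
(mv 1161 (cons (fin 1225 5 969)
(mv 1160 (cons (fin 1159 2 1095)
(mv 1163 (cons (fin 1227 4 970)
(mv 1224 (cons (fin 1223 1 1159)
(fin 1097 5 968))))))))))))))
(mv 1162 (cons (fin 1226 7 969)
(mv 905 (cons (fin 841 4 841)
(fin 1097 4 905))))))))))))
(cons (mv 1162 (cons (cons (mv 969 (cons (fin 1226 7 969)
(mv 905 (cons (fin 970 7 905)
(fin 841 4 841)))))
(mv 970 (cons (cons (mv 905 (cons (fin 969 7 905)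
(mv 841 (cons (fin 906 7 841)
(mv 1163 (cons (fin 1227 4 970)
(mv 907 (cons (fin 971 6 906)
(mv 1161 (cons (fin 1225 5 969)
(mv 1164 (cons (fin 1100 2 1097)
(mv 1096 (cons (fin 1097 3 1096)
(mv 1095 (cons (fin 1160 3 1095)
(mv 1228 (cons (fin 1229 0 1161)
(mv 1032 (cons (fin 1035 1 1031)
(mv 1094 (cons (fin 1031 1 1030)
(fin 1093 2 1029)))))))))))))))))))))))
(mv 1161 (cons (fin 1225 5 969)
(mv 906 (cons (fin 1097 5 905)
(mv 907 (cons (fin 843 6 842)
(fin 971 6 906))))))))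
(cons (mv 905 (cons (fin 969 7 905)
(mv 906 (cons (fin 841 7 841)
(mv 907 (cons (fin 843 6 842)
(fin 971 6 906)))))))
(cons (mv 1163 (cons (fin 1227 4 970)
(mv 905 (cons (fin 969 7 905)
(mv 841 (cons (fin 906 7 841)
(mv 1161 (cons (fin 1225 5 969)
(mv 1164 (cons (fin 1100 2 1097)
(mv 1096 (cons (fin 1097 3 1096)
(mv 1095 (cons (fin 1160 3 1095)
(mv 1228 (cons (fin 1229 0 1161)
(mv 1032 (cons (fin 1035 1 1031)
(mv 1094 (cons (fin 1031 1 1030)
(fin 1093 2 1029)))))))))))))))))))))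
(mv 1161 (cons (fin 1225 5 969)
(mv 907 (cons (fin 971 6 906)
(mv 1163 (cons (fin 1227 4 970)
(mv 1164 (cons (fin 1100 2 1097)
(mv 905 (cons (fin 969 7 905)
(mv 1228 (cons (fin 1229 0 1161)
(mv 1096 (cons (fin 1097 3 1096)
(mv 1095 (cons (fin 1160 3 1095)
(mv 1032 (cons (fin 1035 1 1031)
(mv 1094 (cons (fin 1031 1 1030)
(fin 1093 2 1029))))))))))))))))))))))))))
(cons (mv 1226 (cons (cons (mv 1097 (cons (fin 1290 7 1033)
(mv 1227 (cons (fin 1291 4 1034)
(mv 970 (cons (fin 1163 4 970)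
(mv 1225 (cons (fin 1161 5 969)
(fin 1289 5 1033)))))))))
(mv 971 (cons (fin 1035 6 970)
(mv 970 (cons (fin 907 6 906)
(mv 1225 (cons (fin 1161 5 969)
(fin 1289 5 1033))))))))
(cons (mv 1227 (cons (fin 1291 4 1034)
(mv 970 (cons (fin 1163 4 970)
(mv 971 (cons (fin 907 6 906)
(fin 1035 6 970)))))))
(mv 971 (cons (fin 1035 6 970)
(mv 1225 (cons (fin 1289 5 1033)
(mv 1291 (cons (fin 1227 4 1034)
(mv 1290 (cons (fin 1097 7 1033)
(fin 1355 4 1098))))))))))))
(mv 969 (cons (fin 1226 7 969)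
(mv 905 (cons (fin 841 4 841)
(fin 1097 4 905))))))))
(mv 969 (cons (cons (mv 1162 (cons (fin 1226 7 969)
(mv 905 (cons (fin 970 7 905)
(fin 841 4 841)))))
(mv 1162 (cons (fin 1226 7 969)
(mv 970 (cons (cons (mv 1161 (cons (fin 1225 5 969)
(mv 906 (cons (fin 1097 5 905)
(mv 1163 (cons (fin 1099 4 906)
(fin 1227 4 970)))))))
(mv 1163 (cons (fin 1227 4 970)
(mv 906 (cons (fin 1099 4 906)
(mv 907 (cons (fin 843 6 842)
(fin 971 6 906))))))))
(cons (mv 907 (cons (fin 971 6 906)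
(mv 906 (cons (fin 843 6 842)
(mv 1161 (cons (fin 1097 5 905)
(fin 1225 5 969)))))))
(mv 1161 (cons (fin 1225 5 969)
(mv 1163 (cons (fin 1227 4 970)
(mv 907 (cons (fin 971 6 906)
(mv 1097 (cons (mv 1096 (cons (fin 1164 3 1096)
(fin 1095 0 1095)))
(mv 1160 (cons (fin 1224 5 968)
(mv 1159 (cons (fin 1158 2 1094)
(fin 1099 2 1095)))))))))))))))))))
(cons (mv 905 (cons (fin 841 4 841)
(mv 1097 (cons (mv 840 (cons (fin 904 7 840)
(mv 842 (cons (fin 906 6 841)
(mv 1096 (cons (fin 1160 5 904)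
(mv 1095 (cons (fin 1094 2 1030)
(fin 1035 2 1031)))))))))
(cons (mv 1096 (cons (fin 1160 5 904)
(mv 1095 (cons (fin 1094 2 1030)
(fin 1035 2 1031)))))
(mv 840 (cons (fin 904 7 840)
(mv 906 (cons (fin 842 6 841)
(mv 970 (cons (fin 1161 5 905)
(mv 907 (cons (fin 843 6 842)
(mv 968 (cons (fin 908 1 904)
(fin 967 2 903))))))))))))))))
(mv 905 (cons (fin 841 4 841)
(mv 1162 (cons (fin 1226 7 969)
(fin 1097 4 905))))))))))
(cons (cons (mv 1099 (cons (fin 1100 3 1033)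
(mv 1031 (cons (fin 1032 0 1031)
(mv 1163 (cons (cons (mv 1227 (cons (fin 1291 7 1034)
(mv 970 (cons (fin 1035 7 970)
(fin 906 4 906)))))
(mv 1227 (cons (fin 1291 7 1034)
(mv 1035 (cons (cons (mv 1226 (cons (fin 1290 5 1034)
(mv 971 (cons (fin 1162 5 970)
(mv 1228 (cons (fin 1164 4 971)
(fin 1292 4 1035)))))))
(cons (mv 1228 (cons (fin 1292 4 1035)
(mv 971 (cons (fin 1164 4 971)
(mv 907 (cons (fin 843 5 842)
(fin 1162 5 906)))))))
(mv 1226 (cons (fin 1290 5 1034)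
(mv 1162 (cons (fin 971 5 970)
(mv 1225 (cons (fin 1289 5 1033)
(mv 1224 (cons (fin 1223 2 1159)
(fin 1164 2 1160)))))))))))
(cons (mv 1226 (cons (fin 1290 5 1034)
(mv 1228 (cons (fin 1292 4 1035)
(mv 1162 (cons (mv 1229 (cons (fin 1161 3 1161)
(fin 1230 3 1162)))
(mv 1225 (cons (fin 1289 5 1033)
(mv 1224 (cons (fin 1223 2 1159)
(fin 1164 2 1160)))))))))))
(cons (mv 1228 (cons (fin 1292 4 1035)
(mv 1164 (cons (fin 971 4 971)
(mv 1226 (cons (fin 1290 5 1034)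
(mv 1225 (cons (fin 1224 2 1160)
(mv 1097 (cons (fin 1096 0 1096)
(mv 1161 (cons (fin 1160 3 1160)
(fin 1289 6 1033)))))))))))))
(mv 1226 (cons (fin 1290 5 1034)
(mv 1162 (cons (fin 971 5 970)
(mv 1228 (cons (fin 1292 4 1035)
(mv 1161 (cons (fin 1229 3 1161)
(fin 1160 0 1160))))))))))))))))
(cons (mv 970 (cons (fin 906 4 906)
(mv 1162 (cons (cons (mv 1161 (cons (fin 1225 5 969)
(mv 1159 (cons (fin 1160 2 1095)
(mv 971 (cons (fin 907 6 906)
(mv 1226 (cons (fin 1035 5 970)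
(mv 1290 (cons (fin 1097 7 1033)
(fin 1354 6 1098)))))))))))
(mv 1161 (cons (fin 1225 5 969)
(mv 1160 (cons (fin 1159 2 1095)
(mv 1224 (cons (fin 1223 1 1159)
(mv 1096 (cons (fin 1095 3 1095)
(mv 1097 (cons (fin 1164 3 1096)
(fin 1288 6 1032))))))))))))
(cons (mv 971 (cons (fin 907 6 906)
(mv 1226 (cons (fin 1035 5 970)
(mv 1290 (cons (fin 1097 7 1033)
(fin 1354 6 1098)))))))
(mv 1225 (cons (fin 1161 5 969)
(mv 907 (cons (fin 971 6 906)
(mv 1226 (cons (fin 1289 5 1033)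
(mv 1290 (cons (fin 1035 6 1034)
(fin 1354 6 1098))))))))))))))
(mv 970 (cons (fin 906 4 906)
(mv 1227 (cons (fin 1291 7 1034)
(fin 1162 4 970))))))))))))
(mv 1099 (cons (fin 1100 3 1033)
(mv 1032 (cons (fin 1031 0 1031)
(mv 1096 (cons (cons (mv 1095 (cons (fin 1035 1 1031)
(mv 1094 (cons (fin 1093 2 1029)
(fin 1097 2 1030)))))
(mv 969 (cons (cons (mv 841 (cons (fin 905 5 840)
(mv 1160 (cons (fin 1224 6 968)
(mv 1097 (cons (fin 1159 1 1095)
(mv 1163 (cons (fin 1164 0 1096)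
(mv 1227 (cons (fin 1291 7 1034)
(mv 970 (cons (fin 1035 7 970)
(fin 906 4 906)))))))))))))
(mv 1160 (cons (fin 1224 6 968)
(mv 1097 (cons (fin 1159 1 1095)
(mv 1163 (cons (fin 1164 0 1096)
(mv 1227 (cons (fin 1291 7 1034)
(mv 970 (cons (fin 1035 7 970)
(fin 906 4 906))))))))))))
(cons (mv 905 (cons (fin 841 5 840)
(mv 1097 (cons (mv 1163 (cons (fin 1164 0 1096)
(mv 906 (cons (fin 842 6 841)
(fin 970 4 906)))))
(cons (mv 1163 (cons (fin 1164 0 1096)
(mv 904 (cons (fin 840 7 840)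
(mv 1227 (cons (fin 1291 7 1034)
(mv 970 (cons (fin 1035 7 970)
(mv 1161 (cons (fin 968 7 904)
(fin 1225 6 969)))))))))))
(mv 842 (cons (fin 906 6 841)
(mv 904 (cons (fin 840 7 840)
(mv 968 (cons (fin 1161 7 904)
(mv 967 (cons (fin 1035 3 967)
(fin 966 0 966))))))))))))))
(mv 905 (cons (fin 841 5 840)
(mv 1160 (cons (fin 968 6 904)
(fin 1224 6 968)))))))))
(cons (mv 969 (cons (cons (mv 841 (cons (fin 905 5 840)
(mv 1160 (cons (fin 1224 6 968)
(mv 1097 (cons (fin 1159 1 1095)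
(mv 1094 (cons (fin 1095 2 1030)
(mv 1163 (cons (fin 1164 0 1096)
(mv 970 (cons (fin 906 4 906)
(mv 1161 (cons (fin 1225 6 969)
(mv 968 (cons (fin 904 7 904)
(mv 967 (cons (fin 966 0 966)
(fin 903 7 903)))))))))))))))))))
(mv 1160 (cons (fin 1224 6 968)
(mv 1097 (cons (fin 1159 1 1095)
(mv 1094 (cons (fin 1095 2 1030)
(mv 1163 (cons (fin 1164 0 1096)
(mv 1227 (cons (fin 1291 7 1034)
(mv 970 (cons (fin 906 4 906)
(mv 1161 (cons (fin 1225 6 969)
(mv 968 (cons (fin 904 7 904)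
(mv 967 (cons (fin 966 0 966)
(fin 903 7 903))))))))))))))))))))
(cons (mv 905 (cons (fin 841 5 840)
(mv 1097 (cons (cons (mv 1094 (cons (fin 1095 2 1030)
(mv 842 (cons (fin 906 6 841)
(mv 904 (cons (fin 840 7 840)
(mv 1163 (cons (fin 1164 0 1096)
(mv 968 (cons (fin 1161 7 904)
(mv 903 (cons (fin 839 7 839)
(mv 970 (cons (fin 971 3 903)
(fin 902 0 902)))))))))))))))
(cons (mv 1163 (cons (fin 1164 0 1096)
(mv 1094 (cons (fin 1095 2 1030)
(mv 1227 (cons (fin 1291 7 1034)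
(mv 904 (cons (fin 840 7 840)
(mv 968 (cons (fin 1161 7 904)
(mv 903 (cons (fin 839 7 839)
(mv 970 (cons (fin 971 3 903)
(fin 902 0 902)))))))))))))))
(mv 906 (cons (fin 842 6 841)
(mv 970 (cons (fin 1161 5 905)
(fin 1163 4 906)))))))
(cons (mv 1094 (cons (fin 1095 2 1030)
(mv 842 (cons (fin 906 6 841)
(mv 904 (cons (fin 840 7 840)
(mv 968 (cons (fin 1161 7 904)
(mv 903 (cons (fin 839 7 839)
(mv 970 (cons (fin 971 3 903)
(fin 902 0 902)))))))))))))
(cons (mv 840 (cons (fin 904 7 840)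
(mv 1163 (cons (fin 1164 0 1096)
(mv 906 (cons (fin 842 6 841)
(fin 970 4 906)))))))
(mv 1094 (cons (fin 1095 2 1030)
(mv 904 (cons (fin 840 7 840)
(mv 1163 (cons (fin 1164 0 1096)
(mv 968 (cons (fin 1161 7 904)
(mv 966 (cons (fin 967 0 966)
(mv 903 (cons (fin 839 7 839)
(mv 902 (cons (fin 965 1 901)
(fin 901 0 901)))))))))))))))))))))
(cons (mv 905 (cons (fin 841 5 840)
(mv 1160 (cons (fin 968 6 904)
(fin 1224 6 968)))))
(mv 1160 (cons (fin 1224 6 968)
(mv 905 (cons (fin 841 5 840)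
(fin 1097 5 904)))))))))
(mv 1035 (cons (fin 1095 1 1031)
(mv 968 (cons (fin 967 3 967)
(mv 905 (cons (mv 841 (cons (fin 969 5 840)
(fin 904 6 840)))
(cons (mv 1160 (cons (fin 969 6 904)
(mv 1159 (cons (fin 1223 5 967)
(mv 1225 (cons (fin 1161 4 968)
(mv 1224 (cons (fin 1289 4 1032)
(mv 1157 (cons (fin 1158 0 1157)
(mv 1227 (cons (fin 1226 3 1159)
(mv 1163 (cons (fin 970 7 970)
(fin 1291 7 1034)))))))))))))))
(mv 904 (cons (fin 841 6 840)
(mv 839 (cons (fin 903 7 839)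
(mv 840 (cons (fin 775 7 775)
(mv 837 (cons (fin 838 0 837)
(mv 906 (cons (fin 907 3 839)
(mv 970 (cons (fin 842 4 842)
(fin 1163 4 906))))))))))))))))))))))))))))
(cons (mv 1099 (cons (fin 1100 3 1033)
(mv 1032 (cons (fin 1031 0 1031)
(mv 1163 (cons (cons (mv 1227 (cons (fin 1291 7 1034)
(mv 970 (cons (fin 1035 7 970)
(fin 906 4 906)))))
(mv 1227 (cons (fin 1291 7 1034)
(mv 1035 (cons (cons (mv 967 (cons (fin 968 3 967)
(mv 1228 (cons (fin 1292 4 1035)
(mv 971 (cons (fin 1164 4 971)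
(mv 907 (cons (fin 843 5 842)
(fin 1162 5 906)))))))))
(mv 1096 (cons (fin 1095 1 1031)
(mv 967 (cons (fin 968 3 967)
(mv 1097 (cons (fin 1164 0 1096)
(mv 1160 (cons (fin 1159 1 1095)
(mv 969 (cons (fin 905 5 904)
(fin 1224 6 968))))))))))))
(cons (mv 1095 (cons (fin 1096 1 1031)
(mv 1228 (cons (fin 1292 4 1035)
(mv 971 (cons (fin 1164 4 971)
(mv 907 (cons (fin 843 5 842)
(fin 1162 5 906)))))))))
(mv 1096 (cons (fin 1095 1 1031)
(mv 968 (cons (fin 967 3 967)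
(mv 1228 (cons (fin 1292 4 1035)
(mv 1160 (cons (mv 1159 (cons (fin 1097 1 1095)
(fin 1223 5 967)))
(mv 1161 (cons (fin 1162 0 1160)
(fin 1225 4 968)))))))))))))))))
(cons (mv 906 (cons (fin 970 4 906)
(mv 1096 (cons (cons (mv 1035 (cons (fin 1095 1 1031)
(mv 967 (cons (fin 968 3 967)
(mv 1097 (cons (fin 1164 0 1096)
(mv 1160 (cons (fin 1159 1 1095)
(mv 969 (cons (fin 905 5 904)
(fin 1224 6 968)))))))))))
(mv 1035 (cons (fin 1095 1 1031)
(mv 968 (cons (fin 967 3 967)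
(mv 1160 (cons (mv 969 (cons (fin 905 6 904)
(fin 1224 6 968)))
(mv 1159 (cons (fin 1223 5 967)
(mv 1161 (cons (fin 1162 2 1095)
(fin 1225 4 968))))))))))))
(cons (mv 1097 (cons (fin 1164 0 1096)
(mv 1160 (cons (fin 1159 1 1095)
(mv 969 (cons (fin 905 5 904)
(fin 1224 6 968)))))))
(mv 1097 (cons (fin 1164 0 1096)
(mv 1095 (cons (fin 1035 1 1031)
(fin 1094 2 1030))))))))))
(mv 970 (cons (fin 906 4 906)
(mv 1227 (cons (fin 1291 7 1034)
(fin 1162 4 970))))))))))))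
(mv 1099 (cons (fin 1100 3 1033)
(mv 1032 (cons (fin 1031 0 1031)
(mv 969 (cons (cons (mv 1162 (cons (fin 1226 7 969)
(mv 905 (cons (fin 841 4 841)
(fin 1097 4 905)))))
(mv 1162 (cons (fin 1226 7 969)
(mv 1096 (cons (cons (mv 1035 (cons (fin 1095 1 1031)
(mv 967 (cons (fin 968 3 967)
(mv 907 (cons (fin 971 5 906)
(mv 1160 (cons (fin 1224 6 968)
(mv 1159 (cons (fin 1097 1 1095)
(fin 1161 2 1095)))))))))))
(mv 1160 (cons (fin 1224 6 968)
(mv 1159 (cons (fin 1097 1 1095)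
(fin 1161 2 1095))))))
(cons (mv 1095 (cons (fin 1035 1 1031)
(mv 1094 (cons (fin 1093 2 1029)
(fin 1097 2 1030)))))
(mv 1035 (cons (fin 1095 1 1031)
(mv 968 (cons (fin 967 3 967)
(mv 907 (cons (fin 971 5 906)
(mv 1160 (cons (fin 1224 6 968)
(mv 1159 (cons (fin 1161 2 1095)
(fin 1223 5 967)))))))))))))))))
(cons (mv 841 (cons (fin 905 4 841)
(mv 1096 (cons (cons (mv 1035 (cons (fin 1095 1 1031)
(mv 968 (cons (fin 967 3 967)
(mv 1160 (cons (fin 1224 6 968)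
(mv 1159 (cons (fin 1097 1 1095)
(fin 1223 5 967)))))))))
(mv 1160 (cons (fin 1224 6 968)
(mv 1159 (cons (fin 1097 1 1095)
(mv 968 (cons (fin 1223 5 967)
(mv 967 (cons (fin 1035 3 967)
(fin 966 0 966))))))))))
(cons (mv 1160 (cons (fin 1224 6 968)
(mv 1159 (cons (fin 1097 1 1095)
(mv 968 (cons (fin 1223 5 967)
(mv 967 (cons (fin 966 0 966)
(fin 903 7 903)))))))))
(cons (mv 1095 (cons (fin 1035 1 1031)
(mv 1094 (cons (fin 1093 2 1029)
(fin 1097 2 1030)))))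
(mv 1095 (cons (fin 1035 1 1031)
(mv 1160 (cons (fin 1224 6 968)
(mv 1093 (cons (fin 1094 2 1029)
(mv 968 (cons (mv 967 (cons (fin 966 0 966)
(fin 903 7 903)))
(mv 1159 (cons (fin 904 5 903)
(fin 1223 5 967)))))))))))))))))
(mv 1162 (cons (fin 1226 7 969)
(mv 1096 (cons (cons (mv 841 (cons (fin 905 5 840)
(mv 1035 (cons (fin 1095 1 1031)
(mv 968 (cons (fin 967 3 967)
(mv 1160 (cons (fin 1224 6 968)
(mv 1159 (cons (fin 1161 2 1095)
(fin 1223 5 967)))))))))))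
(mv 1035 (cons (fin 1095 1 1031)
(mv 968 (cons (fin 967 3 967)
(mv 907 (cons (fin 971 5 906)
(mv 1160 (cons (fin 1224 6 968)
(mv 1159 (cons (fin 1161 2 1095)
(fin 1223 5 967))))))))))))
(cons (mv 1035 (cons (fin 1095 1 1031)
(mv 968 (cons (fin 967 3 967)
(mv 907 (cons (fin 971 5 906)
(mv 904 (cons (mv 841 (cons (fin 905 5 840)
(mv 840 (cons (fin 777 6 776)
(fin 776 4 776)))))
(cons (mv 839 (cons (fin 903 7 839)
(mv 840 (cons (fin 775 7 775)
(fin 776 4 776)))))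
(mv 905 (cons (fin 841 5 840)
(mv 906 (cons (fin 908 1 904)
(mv 903 (cons (fin 839 7 839)
(mv 843 (cons (fin 842 2 839)
(fin 844 2 840))))))))))))))))))
(cons (mv 841 (cons (fin 905 5 840)
(mv 1160 (cons (fin 1224 6 968)
(mv 1159 (cons (fin 1161 2 1095)
(mv 968 (cons (fin 1223 5 967)
(mv 967 (cons (fin 966 0 966)
(fin 903 7 903)))))))))))
(mv 1160 (cons (fin 1224 6 968)
(mv 1161 (cons (fin 1159 2 1095)
(mv 1095 (cons (fin 1163 3 1095)
(fin 1035 1 1031)))))))))))))))))))))))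
(cons (cons (mv 1099 (cons (fin 1100 3 1033)
(mv 1032 (cons (fin 1031 0 1031)
(mv 969 (cons (cons (mv 1162 (cons (fin 1226 7 969)
(mv 905 (cons (fin 970 7 905)
(fin 841 4 841)))))
(mv 1162 (cons (fin 1226 7 969)
(mv 970 (cons (mv 1163 (cons (fin 906 4 906)
(fin 1227 4 970)))
(cons (mv 1161 (cons (fin 1225 5 969)
(mv 1159 (cons (fin 1160 2 1095)
(mv 907 (cons (fin 971 6 906)
(mv 906 (cons (fin 843 6 842)
(mv 842 (cons (fin 778 5 777)
(fin 1035 4 842)))))))))))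
(mv 907 (cons (fin 971 6 906)
(mv 1163 (cons (fin 1227 4 970)
(mv 1161 (cons (fin 1225 5 969)
(mv 1160 (cons (fin 1159 2 1095)
(mv 1096 (cons (fin 1095 3 1095)
(fin 1224 6 968)))))))))))))))))
(cons (mv 905 (cons (fin 841 4 841)
(mv 968 (cons (mv 967 (cons (fin 1035 3 967)
(fin 966 0 966)))
(cons (mv 1096 (cons (fin 1160 6 904)
(mv 1095 (cons (fin 1035 1 1031)
(mv 1093 (cons (fin 1094 2 1029)
(mv 904 (cons (fin 1159 5 903)
(mv 839 (cons (fin 903 7 839)
(mv 840 (cons (fin 775 7 775)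
(fin 776 4 776)))))))))))))
(mv 1096 (cons (fin 1160 6 904)
(mv 967 (cons (fin 966 0 966)
(mv 906 (cons (mv 907 (cons (fin 904 1 903)
(fin 908 1 904)))
(cons (mv 970 (cons (fin 1163 4 906)
(mv 778 (cons (fin 842 5 777)
(mv 903 (cons (fin 902 3 902)
(mv 839 (cons (fin 904 7 839)
(fin 775 4 775)))))))))
(mv 970 (cons (fin 907 2 903)
(fin 1163 4 906)))))))))))))))
(mv 1162 (cons (fin 1226 7 969)
(mv 1096 (cons (cons (mv 841 (cons (fin 905 5 840)
(mv 1035 (cons (fin 1095 1 1031)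
(mv 968 (cons (fin 967 3 967)
(mv 1160 (cons (fin 1224 6 968)
(mv 1159 (cons (fin 1161 2 1095)
(fin 1223 5 967)))))))))))
(mv 1035 (cons (fin 1095 1 1031)
(mv 968 (cons (fin 967 3 967)
(mv 907 (cons (fin 971 5 906)
(mv 1160 (cons (fin 1224 6 968)
(mv 1159 (cons (fin 1161 2 1095)
(fin 1223 5 967))))))))))))
(cons (mv 1035 (cons (fin 1095 1 1031)
(mv 968 (cons (fin 967 3 967)
(mv 907 (cons (fin 971 5 906)
(mv 904 (cons (mv 841 (cons (fin 905 5 840)
(mv 840 (cons (fin 777 6 776)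
(fin 776 4 776)))))
(cons (mv 839 (cons (fin 903 7 839)
(mv 840 (cons (fin 775 7 775)
(fin 776 4 776)))))
(mv 905 (cons (fin 841 5 840)
(mv 906 (cons (fin 908 1 904)
(mv 903 (cons (fin 839 7 839)
(mv 843 (cons (fin 842 2 839)
(fin 844 2 840))))))))))))))))))
(cons (mv 841 (cons (fin 905 5 840)
(mv 1160 (cons (fin 1224 6 968)
(mv 1159 (cons (fin 1161 2 1095)
(mv 968 (cons (fin 1223 5 967)
(mv 967 (cons (fin 966 0 966)
(fin 903 7 903)))))))))))
(mv 1160 (cons (fin 1224 6 968)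
(mv 1161 (cons (fin 1159 2 1095)
(mv 1095 (cons (fin 1163 3 1095)
(fin 1035 1 1031))))))))))))))))))))
(cons (mv 1099 (cons (fin 1100 3 1033)
(mv 1032 (cons (fin 1031 0 1031)
(mv 969 (cons (cons (mv 1162 (cons (fin 1226 7 969)
(mv 905 (cons (fin 970 7 905)
(fin 841 4 841)))))
(mv 1162 (cons (fin 1226 7 969)
(mv 970 (cons (mv 1163 (cons (fin 906 4 906)
(fin 1227 4 970)))
(cons (mv 907 (cons (fin 971 6 906)
(mv 906 (cons (fin 843 6 842)
(mv 842 (cons (fin 778 5 777)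
(fin 1097 5 841)))))))
(mv 971 (cons (fin 907 6 906)
(mv 1163 (cons (fin 1227 4 970)
(mv 968 (cons (mv 967 (cons (fin 1035 3 967)
(fin 966 0 966)))
(mv 904 (cons (fin 903 3 903)
(mv 840 (cons (fin 776 4 776)
(fin 1097 4 840)))))))))))))))))
(cons (mv 841 (cons (fin 905 4 841)
(mv 968 (cons (mv 967 (cons (fin 1035 3 967)
(fin 966 0 966)))
(cons (mv 1096 (cons (cons (mv 1035 (cons (fin 1095 1 1031)
(mv 1160 (cons (fin 1224 6 968)
(mv 1159 (cons (fin 1097 1 1095)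
(fin 1223 5 967)))))))
(mv 1160 (cons (fin 1224 6 968)
(mv 1159 (cons (fin 1097 1 1095)
(fin 1223 5 967))))))
(cons (mv 1095 (cons (fin 1035 1 1031)
(mv 1094 (cons (fin 1093 2 1029)
(fin 1097 2 1030)))))
(mv 1095 (cons (fin 1035 1 1031)
(mv 1160 (cons (fin 1224 6 968)
(mv 1159 (cons (fin 904 5 903)
(fin 1223 5 967))))))))))
(mv 967 (cons (fin 966 0 966)
(mv 970 (cons (mv 906 (cons (fin 907 2 903)
(fin 1163 4 906)))
(mv 903 (cons (fin 902 3 902)
(mv 904 (cons (fin 971 3 903)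
(mv 839 (cons (fin 1096 7 839)
(fin 775 4 775))))))))))))))))
(mv 905 (cons (fin 841 4 841)
(mv 1162 (cons (fin 1226 7 969)
(fin 1097 4 905))))))))))))
(mv 1099 (cons (fin 1100 3 1033)
(mv 1031 (cons (fin 1032 0 1031)
(mv 969 (cons (cons (mv 1162 (cons (fin 1226 7 969)
(mv 905 (cons (fin 970 7 905)
(fin 841 4 841)))))
(mv 905 (cons (fin 841 4 841)
(mv 1097 (cons (mv 1096 (cons (fin 1160 5 904)
(mv 1095 (cons (fin 1030 3 1030)
(fin 1094 2 1030)))))
(cons (mv 904 (cons (fin 840 7 840)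
(mv 968 (cons (fin 1161 7 904)
(mv 967 (cons (fin 966 0 966)
(mv 970 (cons (fin 1030 1 966)
(fin 1035 0 967)))))))))
(mv 840 (cons (fin 904 7 840)
(mv 1096 (cons (fin 1160 5 904)
(mv 1095 (cons (fin 1094 2 1030)
(fin 1035 2 1031)))))))))))))
(cons (mv 1162 (cons (fin 1226 7 969)
(mv 1161 (cons (cons (mv 1159 (cons (fin 1160 2 1095)
(mv 1225 (cons (fin 970 5 969)
(mv 1289 (cons (fin 1097 6 1033)
(fin 1353 6 1097)))))))
(mv 1160 (cons (fin 1159 2 1095)
(mv 1097 (cons (fin 1224 5 968)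
(mv 968 (cons (fin 904 7 904)
(mv 967 (cons (fin 966 0 966)
(mv 970 (cons (fin 1030 1 966)
(fin 1035 0 967))))))))))))
(cons (mv 1160 (cons (fin 1159 2 1095)
(mv 1224 (cons (fin 1097 5 968)
(mv 1163 (cons (fin 1223 1 1159)
(mv 1227 (cons (fin 1228 0 1160)
(fin 1291 7 1034)))))))))
(cons (mv 1225 (cons (fin 970 5 969)
(mv 1289 (cons (fin 1097 6 1033)
(fin 1353 6 1097)))))
(mv 1225 (cons (fin 970 5 969)
(mv 1160 (cons (fin 1159 2 1095)
(mv 1289 (cons (fin 1353 6 1097)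
(mv 1163 (cons (mv 1224 (cons (fin 1223 1 1159)
(fin 1164 1 1160)))
(mv 1227 (cons (fin 1228 0 1160)
(fin 1291 7 1034)))))))))))))))))
(mv 1162 (cons (fin 1226 7 969)
(mv 905 (cons (fin 841 4 841)
(fin 1097 4 905))))))))))))))
(cons (cons (mv 1099 (cons (fin 1100 3 1033)
(mv 1031 (cons (fin 1032 0 1031)
(mv 969 (cons (cons (mv 1162 (cons (fin 1226 7 969)
(mv 905 (cons (fin 970 7 905)
(fin 841 4 841)))))
(mv 905 (cons (fin 841 4 841)
(mv 1097 (cons (cons (mv 840 (cons (fin 904 7 840)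
(mv 842 (cons (fin 906 6 841)
(mv 1160 (cons (fin 1096 5 904)
(mv 1161 (cons (fin 1224 5 968)
(mv 1225 (cons (fin 970 6 969)
(fin 1289 6 1033)))))))))))
(cons (mv 1096 (cons (fin 1160 5 904)
(mv 1163 (cons (fin 1164 0 1096)
(mv 904 (cons (fin 840 7 840)
(mv 1227 (cons (fin 1291 7 1034)
(mv 970 (cons (fin 1035 7 970)
(mv 1161 (cons (fin 968 7 904)
(fin 1225 6 969)))))))))))))
(mv 840 (cons (fin 904 7 840)
(mv 906 (cons (fin 842 6 841)
(mv 970 (cons (fin 1161 5 905)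
(fin 1163 4 906)))))))))
(cons (mv 842 (cons (fin 906 6 841)
(mv 1160 (cons (fin 1096 5 904)
(mv 1161 (cons (fin 1224 5 968)
(mv 1225 (cons (fin 970 6 969)
(fin 1289 6 1033)))))))))
(cons (mv 1096 (cons (fin 1160 5 904)
(mv 1163 (cons (fin 1164 0 1096)
(mv 906 (cons (fin 842 6 841)
(fin 970 4 906)))))))
(mv 904 (cons (fin 840 7 840)
(mv 1096 (cons (fin 1160 5 904)
(mv 1163 (cons (fin 1164 0 1096)
(mv 968 (cons (fin 1161 7 904)
(mv 967 (cons (fin 966 0 966)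
(mv 906 (cons (fin 907 1 903)
(fin 842 6 841))))))))))))))))))))
(cons (mv 1162 (cons (fin 1226 7 969)
(mv 970 (cons (mv 1163 (cons (fin 906 4 906)
(fin 1227 4 970)))
(cons (mv 1161 (cons (fin 1225 5 969)
(mv 906 (cons (fin 1097 5 905)
(mv 907 (cons (fin 843 6 842)
(fin 971 6 906)))))))
(mv 1161 (cons (fin 1225 5 969)
(mv 1160 (cons (fin 1159 2 1095)
(mv 1163 (cons (fin 1227 4 970)
(mv 1224 (cons (fin 1223 1 1159)
(fin 1097 5 968))))))))))))))
(mv 1162 (cons (fin 1226 7 969)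
(mv 905 (cons (fin 841 4 841)
(fin 1097 4 905))))))))))))
(mv 1099 (cons (fin 1100 3 1033)
(mv 1031 (cons (fin 1032 0 1031)
(mv 969 (cons (cons (mv 1162 (cons (fin 1226 7 969)
(mv 905 (cons (fin 970 7 905)
(fin 841 4 841)))))
(mv 905 (cons (fin 841 4 841)
(mv 906 (cons (cons (mv 842 (cons (fin 1097 6 841)
(mv 970 (cons (fin 778 5 777)
(fin 1035 4 842)))))
(mv 1097 (cons (fin 842 6 841)
(mv 904 (cons (fin 840 7 840)
(mv 968 (cons (fin 1161 7 904)
(mv 967 (cons (fin 907 1 903)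
(fin 966 2 902))))))))))
(cons (mv 970 (cons (fin 1163 4 906)
(mv 1097 (cons (fin 1161 5 905)
(mv 843 (cons (fin 907 6 842)
(mv 904 (cons (fin 840 7 840)
(mv 903 (cons (fin 902 0 902)
(fin 971 0 903)))))))))))
(mv 970 (cons (fin 1163 4 906)
(mv 842 (cons (fin 778 5 777)
(fin 1035 4 842)))))))))))
(cons (mv 1162 (cons (fin 1226 7 969)
(mv 970 (cons (mv 1163 (cons (fin 906 4 906)
(fin 1227 4 970)))
(cons (mv 1161 (cons (fin 1225 5 969)
(mv 906 (cons (fin 1097 5 905)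
(mv 907 (cons (fin 843 6 842)
(fin 971 6 906)))))))
(mv 1161 (cons (fin 1225 5 969)
(mv 1160 (cons (fin 1159 2 1095)
(mv 1163 (cons (fin 1227 4 970)
(mv 1224 (cons (fin 1223 1 1159)
(fin 1097 5 968))))))))))))))
(mv 1162 (cons (fin 1226 7 969)
(mv 905 (cons (fin 841 4 841)
(fin 1097 4 905)))))))))))))
(cons (mv 1099 (cons (fin 1100 3 1033)
(mv 1031 (cons (fin 1032 0 1031)
(mv 969 (cons (cons (mv 1162 (cons (fin 1226 7 969)
(mv 905 (cons (fin 970 7 905)
(fin 841 4 841)))))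
(mv 905 (cons (fin 841 4 841)
(mv 1097 (cons (mv 840 (cons (fin 904 7 840)
(mv 842 (cons (fin 906 6 841)
(mv 1096 (cons (fin 1160 5 904)
(mv 1095 (cons (fin 1030 3 1030)
(fin 1094 2 1030)))))))))
(cons (mv 840 (cons (fin 904 7 840)
(mv 906 (cons (fin 842 6 841)
(mv 970 (cons (fin 1161 5 905)
(mv 907 (cons (fin 843 6 842)
(mv 968 (cons (fin 908 1 904)
(fin 967 2 903)))))))))))
(mv 1096 (cons (fin 1160 5 904)
(mv 1095 (cons (fin 1030 3 1030)
(fin 1094 2 1030)))))))))))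
(cons (mv 1162 (cons (fin 1226 7 969)
(mv 970 (cons (cons (mv 1161 (cons (fin 1225 5 969)
(mv 906 (cons (fin 1097 5 905)
(mv 907 (cons (fin 843 6 842)
(fin 971 6 906)))))))
(mv 907 (cons (fin 971 6 906)
(mv 906 (cons (fin 843 6 842)
(mv 842 (cons (fin 778 5 777)
(fin 1097 5 841))))))))
(cons (mv 1161 (cons (fin 1225 5 969)
(mv 906 (cons (fin 1097 5 905)
(mv 842 (cons (fin 778 5 777)
(fin 1035 4 842)))))))
(cons (mv 1161 (cons (fin 1225 5 969)
(mv 1160 (cons (fin 1159 2 1095)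
(mv 907 (cons (fin 971 6 906)
(mv 1097 (cons (fin 1224 5 968)
(mv 968 (cons (fin 904 7 904)
(mv 967 (cons (fin 1030 1 966)
(fin 966 0 966)))))))))))))
(mv 1161 (cons (fin 1225 5 969)
(mv 1159 (cons (fin 1160 2 1095)
(mv 907 (cons (fin 971 6 906)
(mv 906 (cons (fin 843 6 842)
(mv 842 (cons (fin 778 5 777)
(fin 1035 4 842)))))))))))))))))
(mv 1162 (cons (fin 1226 7 969)
(mv 905 (cons (fin 841 4 841)
(fin 1097 4 905))))))))))))
(mv 1099 (cons (fin 1100 3 1033)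
(mv 1031 (cons (fin 1032 0 1031)
(mv 969 (cons (cons (mv 1162 (cons (fin 1226 7 969)
(mv 905 (cons (fin 970 7 905)
(fin 841 4 841)))))
(mv 905 (cons (fin 841 4 841)
(mv 1097 (cons (cons (mv 840 (cons (fin 904 7 840)
(mv 906 (cons (fin 842 6 841)
(mv 970 (cons (fin 1161 5 905)
(fin 1163 4 906)))))))
(mv 904 (cons (fin 840 7 840)
(mv 968 (cons (fin 1161 7 904)
(mv 967 (cons (fin 966 0 966)
(mv 970 (cons (fin 1030 1 966)
(fin 1035 0 967))))))))))
(cons (mv 906 (cons (fin 842 6 841)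
(mv 970 (cons (fin 1161 5 905)
(fin 1163 4 906)))))
(cons (mv 842 (cons (fin 906 6 841)
(mv 904 (cons (fin 840 7 840)
(mv 968 (cons (fin 1161 7 904)
(mv 967 (cons (fin 966 0 966)
(mv 1095 (cons (fin 1159 6 903)
(mv 1096 (cons (fin 1030 3 1030)
(fin 1094 2 1030)))))))))))))
(mv 906 (cons (fin 842 6 841)
(mv 840 (cons (fin 904 7 840)
(mv 970 (cons (fin 1163 4 906)
(mv 907 (cons (fin 843 6 842)
(mv 968 (cons (fin 908 1 904)
(fin 967 2 903))))))))))))))))))
(cons (mv 1162 (cons (fin 1226 7 969)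
(mv 970 (cons (mv 1163 (cons (fin 906 4 906)
(fin 1227 4 970)))
(cons (mv 1161 (cons (fin 1225 5 969)
(mv 906 (cons (fin 1097 5 905)
(mv 907 (cons (fin 843 6 842)
(fin 971 6 906)))))))
(mv 907 (cons (fin 971 6 906)
(mv 1163 (cons (fin 1227 4 970)
(mv 1161 (cons (fin 1225 5 969)
(mv 1097 (cons (mv 1096 (cons (fin 1164 3 1096)
(fin 1095 0 1095)))
(mv 968 (cons (fin 904 7 904)
(mv 967 (cons (fin 1030 1 966)
(fin 966 0 966))))))))))))))))))
(mv 1162 (cons (fin 1226 7 969)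
(mv 905 (cons (fin 841 4 841)
(fin 1097 4 905)))))))))))))))))
def l83 : Lem := ⟨27165970580987716999077186177413070020083553138970795542538990237389111586754976653083794579900447563514815838776134120675060020760815837656715947719417209928832093537997904907163617890989830602182084804038675807892815215707760306779851279290011044032537348234590053963607735055040857163199970105463134926567752896499632471348871168, 1376201964257765844825291043539322012489430570730614745900187563352631958387374324749730493621806725781024493259318185804291208850440053629784388697466624265754928595373400457434979094790521735884859018466478653569381679856578867830758507031155786262814093434604840388836182769094836148724707940065540494072967262719294962778571427233497157190231549106255475962280420893282553670288157630950797438746917601280, 1376201964257765844825291043539322012489430570730614745900187563352631958387374324749730493621806725781024493259318185804291208850440053629784388697466624265754928595373400457434979094790521735884859018466478653569381679856578867830758507031155786262814093434604840388836182769094836148724707940065540494072967262719294962778571427233497157190231549106255475962280420893282553670288157630950797438746917601280,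 15, 33⟩
theorem l83_valid : l83.Valid :=
  Lem.valid_of_chk t83 t83_valid [973, 1033, 1034, 1037, 1040, 1101] c83 l83 (by decide +kernel)
end Crest.Agent.SnakyAux
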