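import Crest.Agent.S0047_aux.Checker

set_option autoImplicit false
set_option maxRecDepth 100000
namespace Crest.Agent.SnakyAux
open Cert
def t84 : Tbl := Tbl.nil
theorem t84_valid : t84.Valid := Tbl.valid_nil
def c84 : Cert :=
(mv 970 (cons (cons (cons (mv 971 (cons (fin 972 1 969)
(mv 1031 (cons (fin 1032 2 967)
(mv 1097 (cons (cons (mv 906 (cons (fin 842 5 841)
(mv 1161 (cons (fin 1098 5 905)
(fin 969 6 905)))))
(mv 1161 (cons (fin 1225 6 969)
(mv 969 (cons (cons (mv 904 (cons (fin 968 7 904)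
(mv 840 (cons (fin 905 7 840)
(mv 1162 (cons (fin 1226 4 969)
(mv 1098 (cons (fin 907 6 906)
(mv 1160 (cons (fin 1224 5 968)
(mv 1158 (cons (fin 1159 2 1094)
(mv 1163 (cons (fin 1227 4 970)
(mv 1096 (cons (fin 1095 3 1095)
(fin 1164 3 1096)))))))))))))))))
(mv 1160 (cons (fin 1224 5 968)
(mv 905 (cons (fin 1096 5 904)
(mv 1162 (cons (fin 1098 7 905)
(fin 1226 4 969))))))))
(cons (mv 904 (cons (fin 968 7 904)
(mv 905 (cons (fin 840 7 840)
(mv 1160 (cons (fin 1096 5 904)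
(fin 1224 5 968)))))))
(cons (mv 1162 (cons (fin 1226 4 969)
(mv 1098 (cons (fin 905 7 905)
(fin 907 6 906)))))
(mv 904 (cons (fin 968 7 904)
(mv 1160 (cons (fin 1224 5 968)
(mv 1162 (cons (fin 1226 4 969)
(mv 1098 (cons (fin 907 6 906)
(mv 1158 (cons (fin 1159 2 1094)
(mv 1163 (cons (fin 1227 4 970)
(mv 1096 (cons (fin 1095 3 1095)
(fin 1164 3 1096))))))))))))))))))))))
(cons (mv 906 (cons (fin 842 5 841)
(mv 1098 (cons (mv 907 (cons (fin 843 6 842)
(fin 1162 6 906)))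
(cons (mv 905 (cons (fin 841 7 841)
(mv 903 (cons (fin 904 0 903)
(mv 969 (cons (fin 1162 7 905)
(mv 1096 (cons (fin 1160 5 904)
(mv 1095 (cons (fin 1030 3 1030)
(fin 1094 2 1030)))))))))))
(mv 905 (cons (fin 841 7 841)
(mv 843 (cons (fin 907 6 842)
(mv 904 (cons (fin 903 0 903)
(mv 969 (cons (fin 840 7 840)
(mv 1096 (cons (fin 1160 5 904)
(mv 1095 (cons (fin 1030 3 1030)
(fin 1094 2 1030))))))))))))))))))
(cons (mv 906 (cons (fin 842 5 841)
(mv 1161 (cons (fin 969 6 905)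
(fin 1225 6 969)))))
(mv 1161 (cons (fin 1225 6 969)
(mv 906 (cons (fin 842 5 841)
(fin 1098 5 905)))))))))))))
(cons (mv 1098 (cons (cons (mv 906 (cons (mv 1097 (cons (fin 842 5 841)
(fin 1161 5 905)))
(cons (mv 841 (cons (fin 905 7 841)
(mv 842 (cons (fin 777 7 777)
(mv 843 (cons (fin 779 6 778)
(fin 907 6 842)))))))
(mv 843 (cons (fin 907 6 842)
(mv 1097 (cons (fin 1161 5 905)
(mv 905 (cons (fin 841 7 841)
(mv 969 (cons (fin 1162 7 905)
(mv 840 (cons (fin 904 7 840)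
(mv 1096 (cons (fin 1160 5 904)
(mv 1095 (cons (fin 1094 2 1030)
(fin 1035 2 1031))))))))))))))))))
(cons (mv 1162 (cons (mv 969 (cons (fin 905 7 905)
(fin 1226 7 969)))
(mv 1163 (cons (fin 1227 4 970)
(mv 1161 (cons (fin 1225 5 969)
(mv 1164 (cons (fin 1100 2 1097)
(mv 1096 (cons (fin 1097 3 1096)
(mv 1095 (cons (fin 1160 3 1095)
(mv 1228 (cons (fin 1229 0 1161)
(mv 1032 (cons (fin 1035 1 1031)
(mv 1094 (cons (fin 1031 1 1030)
(fin 1093 2 1029)))))))))))))))))))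
(mv 906 (cons (mv 1097 (cons (fin 842 5 841)
(fin 1161 5 905)))
(cons (mv 841 (cons (fin 905 7 841)
(mv 842 (cons (fin 777 7 777)
(mv 843 (cons (fin 779 6 778)
(fin 907 6 842)))))))
(mv 907 (cons (fin 843 6 842)
(mv 1097 (cons (fin 1161 5 905)
(mv 905 (cons (fin 841 7 841)
(mv 908 (cons (fin 972 0 905)
(mv 844 (cons (fin 845 2 841)
(mv 968 (cons (fin 969 1 904)
(mv 904 (cons (fin 967 1 903)
(mv 840 (cons (fin 839 3 839)
(fin 1032 4 840))))))))))))))))))))))
(cons (cons (mv 1162 (cons (cons (mv 1161 (cons (fin 1225 5 969)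
(mv 906 (cons (fin 1097 5 905)
(mv 843 (cons (fin 907 6 842)
(mv 842 (cons (fin 779 6 778)
(mv 841 (cons (fin 777 7 777)
(fin 905 7 841)))))))))))
(mv 1227 (cons (fin 1163 4 970)
(mv 1226 (cons (fin 1291 4 1034)
(mv 1289 (cons (fin 1225 5 1033)
(mv 1290 (cons (fin 1097 7 1033)
(fin 1353 5 1097))))))))))
(cons (mv 1227 (cons (fin 1163 4 970)
(mv 1226 (cons (fin 1291 4 1034)
(mv 1097 (cons (fin 1290 7 1033)
(mv 906 (cons (fin 842 5 841)
(fin 1161 5 905)))))))))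
(mv 1227 (cons (fin 1163 4 970)
(mv 1225 (cons (fin 1161 5 969)
(mv 1226 (cons (fin 1289 5 1033)
(fin 1291 4 1034))))))))))
(mv 906 (cons (cons (mv 841 (cons (fin 905 7 841)
(mv 842 (cons (fin 777 7 777)
(mv 843 (cons (fin 779 6 778)
(fin 907 6 842)))))))
(mv 843 (cons (fin 907 6 842)
(mv 842 (cons (fin 779 6 778)
(mv 778 (cons (fin 969 5 777)
(mv 777 (cons (fin 713 7 713)
(fin 841 7 777))))))))))
(cons (mv 843 (cons (fin 907 6 842)
(mv 842 (cons (fin 779 6 778)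
(mv 969 (cons (fin 778 5 777)
(mv 1162 (cons (fin 905 7 905)
(fin 1226 7 969)))))))))
(mv 905 (cons (fin 841 7 841)
(mv 1162 (cons (fin 969 7 905)
(mv 1227 (cons (fin 1163 4 970)
(mv 1225 (cons (fin 1161 5 969)
(mv 1226 (cons (fin 1289 5 1033)
(fin 1291 4 1034)))))))))))))))
(cons (mv 906 (cons (mv 1097 (cons (fin 842 5 841)
(fin 1161 5 905)))
(cons (mv 843 (cons (fin 907 6 842)
(mv 842 (cons (fin 779 6 778)
(mv 778 (cons (fin 969 5 777)
(mv 777 (cons (fin 713 7 713)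
(fin 841 7 777)))))))))
(mv 843 (cons (fin 907 6 842)
(mv 1161 (cons (fin 1097 5 905)
(mv 1162 (cons (fin 1225 5 969)
(mv 1226 (cons (fin 969 7 969)
(mv 1227 (cons (fin 1163 4 970)
(fin 1291 4 1034))))))))))))))
(mv 1162 (cons (mv 969 (cons (fin 905 7 905)
(fin 1226 7 969)))
(cons (mv 1227 (cons (fin 1163 4 970)
(mv 1226 (cons (fin 1291 4 1034)
(mv 1289 (cons (fin 1225 5 1033)
(mv 1290 (cons (fin 1097 7 1033)
(fin 1353 5 1097)))))))))
(mv 905 (cons (fin 969 7 905)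
(mv 906 (cons (fin 841 7 841)
(mv 1163 (cons (fin 1227 4 970)
(mv 843 (cons (fin 907 6 842)
(mv 842 (cons (fin 1097 5 841)
(fin 779 6 778))))))))))))))))))
(mv 1097 (cons (cons (mv 906 (cons (fin 842 5 841)
(mv 1161 (cons (fin 1098 5 905)
(fin 969 6 905)))))
(mv 906 (cons (fin 842 5 841)
(mv 1098 (cons (cons (mv 843 (cons (fin 907 6 842)
(mv 905 (cons (fin 841 7 841)
(mv 969 (cons (fin 1162 7 905)
(mv 840 (cons (fin 904 7 840)
(mv 1096 (cons (fin 1160 5 904)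
(mv 1095 (cons (fin 1094 2 1030)
(fin 1035 2 1031)))))))))))))
(mv 907 (cons (fin 843 6 842)
(mv 1162 (cons (fin 971 6 906)
(mv 1226 (cons (fin 969 7 969)
(fin 1290 7 1033))))))))
(cons (mv 905 (cons (fin 841 7 841)
(mv 969 (cons (fin 1162 7 905)
(mv 840 (cons (fin 904 7 840)
(mv 1096 (cons (fin 1160 5 904)
(mv 1095 (cons (fin 1094 2 1030)
(fin 1035 2 1031)))))))))))
(cons (mv 905 (cons (fin 841 7 841)
(mv 843 (cons (fin 907 6 842)
(mv 1096 (cons (mv 1095 (cons (fin 1094 2 1030)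
(fin 1035 2 1031)))
(mv 969 (cons (fin 1160 5 904)
(mv 904 (cons (fin 840 7 840)
(mv 903 (cons (fin 902 0 902)
(fin 971 0 903)))))))))))))
(mv 907 (cons (fin 843 6 842)
(mv 841 (cons (fin 905 7 841)
(mv 1162 (cons (fin 971 6 906)
(mv 1226 (cons (fin 1290 7 1033)
(mv 1227 (cons (fin 1163 4 970)
(fin 1291 4 1034))))))))))))))))))
(cons (mv 1161 (cons (fin 1225 6 969)
(mv 969 (cons (cons (mv 904 (cons (fin 968 7 904)
(mv 905 (cons (fin 840 7 840)
(mv 1162 (cons (fin 1098 7 905)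
(fin 1226 4 969)))))))
(mv 904 (cons (fin 968 7 904)
(mv 905 (cons (fin 840 7 840)
(mv 1160 (cons (fin 1096 5 904)
(fin 1224 5 968))))))))
(cons (mv 1160 (cons (fin 1224 5 968)
(mv 905 (cons (fin 1096 5 904)
(mv 1162 (cons (fin 1098 7 905)
(fin 1226 4 969)))))))
(mv 1162 (cons (fin 1226 4 969)
(mv 968 (cons (fin 904 7 904)
(mv 967 (cons (fin 966 0 966)
(fin 1035 0 967))))))))))))
(cons (mv 1161 (cons (fin 1225 6 969)
(mv 906 (cons (fin 842 5 841)
(fin 1098 5 905)))))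
(mv 906 (cons (fin 842 5 841)
(mv 1161 (cons (fin 969 6 905)
(fin 1225 6 969)))))))))))
(cons (mv 971 (cons (fin 972 1 969)
(mv 1032 (cons (fin 1031 2 967)
(mv 1098 (cons (cons (mv 907 (cons (fin 1162 6 906)
(mv 843 (cons (fin 779 5 778)
(fin 1035 5 842)))))
(mv 906 (cons (cons (mv 841 (cons (fin 905 7 841)
(mv 842 (cons (fin 777 7 777)
(mv 843 (cons (fin 779 6 778)
(fin 907 6 842)))))))
(mv 841 (cons (fin 905 7 841)
(mv 842 (cons (fin 777 7 777)
(mv 778 (cons (fin 969 5 777)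
(fin 1035 4 778))))))))
(cons (mv 843 (cons (fin 907 6 842)
(mv 842 (cons (fin 779 6 778)
(mv 778 (cons (fin 969 5 777)
(fin 1035 4 778)))))))
(mv 907 (cons (fin 843 6 842)
(mv 905 (cons (fin 841 7 841)
(mv 904 (cons (fin 903 0 903)
(mv 968 (cons (fin 967 1 903)
(mv 839 (cons (fin 840 3 839)
(mv 969 (cons (fin 908 1 904)
(mv 1096 (cons (fin 1160 6 904)
(mv 1095 (cons (fin 1035 1 1031)
(fin 1159 5 903)))))))))))))))))))))
(cons (mv 1162 (cons (mv 969 (cons (fin 905 7 905)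
(fin 1226 7 969)))
(cons (mv 1163 (cons (fin 1227 4 970)
(mv 1161 (cons (fin 1225 5 969)
(mv 905 (cons (fin 969 7 905)
(mv 841 (cons (fin 906 7 841)
(mv 1096 (cons (cons (mv 1095 (cons (fin 1160 3 1095)
(fin 1035 1 1031)))
(mv 968 (cons (fin 904 6 840)
(mv 967 (cons (fin 1035 3 967)
(mv 1160 (cons (fin 903 7 903)
(mv 1223 (cons (fin 1224 1 1159)
(fin 1159 5 967))))))))))
(cons (mv 1100 (cons (fin 1164 2 1097)
(mv 1035 (cons (fin 1095 1 1031)
(mv 968 (cons (fin 967 3 967)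
(fin 904 6 840)))))))
(mv 968 (cons (fin 904 6 840)
(mv 1100 (cons (fin 1164 2 1097)
(mv 1160 (cons (fin 1095 3 1095)
(mv 1223 (cons (fin 1224 1 1159)
(fin 1159 5 967))))))))))))))))))))
(mv 1226 (cons (fin 1035 6 970)
(mv 1225 (cons (fin 1161 5 969)
(fin 1289 5 1033))))))))
(mv 907 (cons (fin 1162 6 906)
(mv 843 (cons (fin 779 5 778)
(fin 906 6 842))))))))))))
(cons (mv 971 (cons (fin 972 1 969)
(mv 1032 (cons (fin 1031 2 967)
(mv 968 (cons (cons (mv 967 (cons (fin 1035 3 967)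
(mv 966 (cons (fin 965 0 965)
(fin 969 0 966)))))
(mv 1097 (cons (cons (mv 1161 (cons (fin 1225 7 968)
(mv 904 (cons (fin 969 7 904)
(fin 840 4 840)))))
(mv 904 (cons (fin 840 4 840)
(mv 903 (cons (fin 969 3 903)
(mv 1096 (cons (fin 839 7 839)
(mv 1095 (cons (fin 1035 1 1031)
(fin 1094 2 1030))))))))))
(cons (mv 1161 (cons (fin 1225 7 968)
(mv 969 (cons (cons (mv 907 (cons (fin 908 2 904)
(mv 1162 (cons (fin 1098 6 906)
(fin 1226 4 969)))))
(mv 907 (cons (fin 908 2 904)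
(mv 1160 (cons (fin 1224 5 968)
(mv 905 (cons (fin 1096 5 904)
(mv 841 (cons (fin 777 5 776)
(fin 1098 4 841))))))))))
(cons (mv 1160 (cons (fin 1224 5 968)
(mv 905 (cons (fin 1096 5 904)
(mv 1162 (cons (fin 1098 7 905)
(fin 1226 4 969)))))))
(mv 1160 (cons (fin 1224 5 968)
(mv 1096 (cons (fin 905 5 904)
(mv 1095 (cons (fin 1035 1 1031)
(fin 1094 2 1030))))))))))))
(mv 1161 (cons (fin 1225 7 968)
(mv 904 (cons (fin 840 4 840)
(fin 1096 4 904)))))))))
(cons (mv 1097 (cons (cons (mv 1161 (cons (fin 1225 7 968)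
(mv 904 (cons (fin 969 7 904)
(fin 840 4 840)))))
(mv 904 (cons (fin 840 4 840)
(mv 903 (cons (fin 969 3 903)
(mv 839 (cons (fin 1096 7 839)
(mv 775 (cons (fin 711 4 711)
(fin 967 4 775))))))))))
(cons (mv 1161 (cons (fin 1225 7 968)
(mv 969 (cons (cons (mv 907 (cons (fin 908 2 904)
(mv 1162 (cons (fin 1098 6 906)
(fin 1226 4 969)))))
(mv 907 (cons (fin 908 2 904)
(mv 1160 (cons (fin 1224 5 968)
(mv 905 (cons (fin 1096 5 904)
(mv 841 (cons (fin 777 5 776)
(fin 1098 4 841))))))))))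
(cons (mv 1160 (cons (fin 1224 5 968)
(mv 905 (cons (fin 1096 5 904)
(mv 1162 (cons (fin 1098 7 905)
(fin 1226 4 969)))))))
(mv 1160 (cons (fin 1224 5 968)
(mv 1096 (cons (fin 905 5 904)
(mv 967 (cons (fin 966 0 966)
(fin 903 7 903))))))))))))
(mv 1161 (cons (fin 1225 7 968)
(mv 904 (cons (fin 840 4 840)
(fin 1096 4 904))))))))
(mv 967 (cons (fin 1035 3 967)
(mv 965 (cons (fin 966 0 965)
(mv 1096 (cons (cons (mv 903 (cons (fin 1160 7 903)
(mv 839 (cons (fin 904 7 839)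
(fin 775 4 775)))))
(mv 904 (cons (mv 1097 (cons (fin 840 4 840)
(fin 1161 4 904)))
(cons (mv 839 (cons (fin 903 7 839)
(mv 840 (cons (fin 775 7 775)
(mv 841 (cons (fin 777 6 776)
(fin 905 6 840)))))))
(mv 841 (cons (fin 905 6 840)
(mv 1097 (cons (fin 1161 4 904)
(mv 1095 (cons (fin 1094 2 1030)
(fin 1159 5 903)))))))))))
(cons (mv 1095 (cons (mv 1094 (cons (fin 1093 2 1029)
(fin 1097 2 1030)))
(cons (mv 904 (cons (fin 1159 5 903)
(mv 1097 (cons (fin 840 4 840)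
(fin 1161 4 904)))))
(mv 1159 (cons (fin 904 5 903)
(mv 1223 (cons (fin 1160 5 967)
(fin 1287 6 1031))))))))
(mv 1160 (cons (fin 903 7 903)
(mv 1159 (cons (fin 1223 5 967)
(mv 1225 (cons (fin 1161 4 968)
(mv 1224 (cons (fin 1289 4 1032)
(mv 1097 (cons (fin 1288 6 1032)
(mv 1158 (cons (fin 1157 2 1093)
(mv 1095 (cons (fin 1098 1 1094)
(fin 1094 2 1030)))))))))))))))))))))))))))))
(mv 971 (cons (fin 972 1 969)
(mv 1031 (cons (fin 1032 2 967)
(mv 907 (cons (cons (mv 843 (cons (fin 779 5 778)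
(mv 1098 (cons (fin 1035 5 842)
(fin 906 6 842)))))
(mv 1098 (cons (fin 1162 6 906)
(mv 969 (cons (cons (mv 968 (cons (fin 908 2 904)
(mv 967 (cons (fin 1030 1 966)
(fin 906 2 903)))))
(mv 905 (cons (fin 841 4 841)
(mv 1097 (cons (mv 840 (cons (fin 904 7 840)
(mv 842 (cons (fin 906 5 841)
(mv 1096 (cons (fin 1160 5 904)
(mv 1095 (cons (fin 1030 3 1030)
(fin 1094 2 1030)))))))))
(cons (mv 1096 (cons (fin 1160 5 904)
(mv 1095 (cons (fin 1030 3 1030)
(fin 1094 2 1030)))))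
(mv 904 (cons (fin 840 7 840)
(mv 906 (cons (fin 903 0 903)
(fin 842 5 841)))))))))))
(cons (mv 841 (cons (fin 905 4 841)
(mv 968 (cons (fin 908 2 904)
(mv 967 (cons (fin 1030 1 966)
(fin 966 0 966)))))))
(mv 968 (cons (fin 908 2 904)
(mv 967 (cons (fin 906 2 903)
(fin 966 0 966)))))))))))
(cons (mv 843 (cons (fin 779 5 778)
(mv 842 (cons (mv 778 (cons (fin 1035 7 778)
(mv 906 (cons (fin 969 5 777)
(fin 1097 5 841)))))
(cons (mv 778 (cons (fin 1035 7 778)
(mv 650 (cons (fin 714 4 650)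
(mv 841 (cons (cons (mv 840 (cons (fin 908 0 840)
(mv 903 (cons (fin 904 1 839)
(mv 839 (cons (fin 902 1 838)
(mv 775 (cons (fin 774 3 774)
(fin 776 3 775)))))))))
(mv 905 (cons (fin 969 6 777)
(mv 844 (cons (fin 904 1 840)
(mv 777 (cons (fin 776 3 776)
(fin 845 3 777))))))))
(cons (mv 905 (cons (fin 969 6 777)
(mv 844 (cons (fin 904 1 840)
(mv 777 (cons (fin 845 3 777)
(mv 780 (cons (fin 781 2 777)
(mv 716 (cons (fin 652 5 651)
(fin 908 5 715)))))))))))
(mv 840 (cons (fin 908 0 840)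
(mv 775 (cons (fin 776 3 775)
(mv 839 (cons (fin 774 3 774)
(mv 902 (cons (fin 903 1 838)
(mv 838 (cons (fin 901 1 837)
(fin 777 2 774))))))))))))))))))
(mv 906 (cons (fin 1097 5 841)
(mv 841 (cons (fin 777 7 777)
(mv 840 (cons (fin 839 0 839)
(fin 908 0 840))))))))))))
(mv 843 (cons (fin 779 5 778)
(mv 1098 (cons (fin 1035 5 842)
(fin 1162 6 906)))))))))))))))
(cons (cons (mv 971 (cons (fin 972 1 969)
(mv 1032 (cons (fin 1031 2 967)
(mv 1097 (cons (cons (mv 906 (cons (fin 842 5 841)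
(mv 1161 (cons (fin 1098 5 905)
(fin 1225 6 969)))))
(mv 906 (cons (fin 842 5 841)
(mv 907 (cons (mv 843 (cons (fin 779 5 778)
(fin 1098 6 842)))
(cons (mv 1098 (cons (fin 1162 6 906)
(mv 905 (cons (fin 841 7 841)
(mv 904 (cons (fin 903 0 903)
(mv 840 (cons (fin 839 3 839)
(fin 968 4 840)))))))))
(mv 843 (cons (fin 779 5 778)
(mv 844 (cons (mv 845 (cons (fin 846 1 842)
(mv 905 (cons (fin 904 2 840)
(fin 908 2 841)))))
(cons (mv 780 (cons (fin 1035 6 779)
(mv 716 (cons (fin 652 5 651)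
(fin 908 5 715)))))
(mv 845 (cons (fin 846 1 842)
(mv 904 (cons (fin 905 2 840)
(mv 1035 (cons (fin 780 6 779)
(mv 968 (cons (fin 967 3 967)
(fin 840 4 840))))))))))))))))))))
(cons (mv 1161 (cons (fin 1225 6 969)
(mv 1096 (cons (mv 1095 (cons (fin 1035 1 1031)
(fin 1094 2 1030)))
(cons (mv 968 (cons (fin 904 4 904)
(mv 967 (cons (fin 1035 3 967)
(mv 965 (cons (fin 966 0 965)
(mv 1160 (cons (fin 903 7 903)
(mv 1159 (cons (fin 1223 5 967)
(mv 1158 (cons (fin 1157 2 1093)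
(fin 1098 2 1094)))))))))))))
(mv 904 (cons (fin 968 4 904)
(mv 1095 (cons (fin 1094 2 1030)
(mv 1162 (cons (mv 1163 (cons (fin 1160 3 1095)
(fin 1164 3 1096)))
(cons (mv 1098 (cons (fin 907 6 906)
(mv 1226 (cons (fin 1290 7 1033)
(mv 1159 (cons (fin 1158 1 1094)
(mv 1227 (cons (fin 1160 0 1159)
(fin 1291 4 1034)))))))))
(mv 1098 (cons (fin 1163 0 1095)
(fin 907 6 906)))))))))))))))
(mv 842 (cons (fin 906 5 841)
(mv 1096 (cons (mv 1095 (cons (fin 1035 1 1031)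
(fin 1094 2 1030)))
(cons (mv 1161 (cons (fin 1225 6 969)
(mv 968 (cons (fin 904 4 904)
(mv 967 (cons (fin 1035 3 967)
(mv 965 (cons (fin 966 0 965)
(mv 1160 (cons (fin 903 7 903)
(mv 1223 (cons (fin 1159 5 967)
(mv 1224 (cons (fin 1287 5 1031)
(fin 1288 6 1032)))))))))))))))
(mv 1094 (cons (fin 1095 2 1030)
(mv 1160 (cons (cons (mv 1161 (cons (fin 1225 6 969)
(mv 904 (cons (fin 968 4 904)
(mv 1224 (cons (fin 1288 6 1032)
(mv 1223 (cons (fin 1287 5 1031)
(mv 1222 (cons (fin 1221 2 1157)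
(mv 1162 (cons (fin 1159 1 1158)
(fin 1163 1 1159)))))))))))))
(mv 1224 (cons (fin 1288 6 1032)
(mv 1223 (cons (fin 1287 5 1031)
(mv 968 (cons (fin 1159 5 967)
(mv 903 (cons (fin 967 7 903)
(mv 904 (cons (fin 839 7 839)
(fin 840 4 840))))))))))))
(cons (mv 1161 (cons (fin 1225 6 969)
(mv 968 (cons (fin 904 4 904)
(mv 1159 (cons (fin 1223 5 967)
(mv 1158 (cons (fin 1093 3 1093)
(fin 1157 2 1093)))))))))
(cons (mv 1161 (cons (fin 1225 6 969)
(mv 1224 (cons (fin 1288 6 1032)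
(mv 1223 (cons (fin 1287 5 1031)
(mv 1222 (cons (fin 1221 2 1157)
(mv 1162 (cons (fin 1159 1 1158)
(fin 1163 1 1159)))))))))))
(mv 1224 (cons (fin 1288 6 1032)
(mv 1225 (cons (fin 1161 6 969)
(fin 1289 4 1032)))))))))))))))))))))))
(cons (mv 971 (cons (fin 972 1 969)
(mv 1032 (cons (fin 1031 2 967)
(mv 1097 (cons (cons (mv 906 (cons (fin 842 5 841)
(mv 1161 (cons (fin 969 6 905)
(fin 1225 6 969)))))
(mv 842 (cons (fin 906 5 841)
(mv 968 (cons (cons (mv 967 (cons (fin 1035 3 967)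
(mv 966 (cons (fin 965 0 965)
(fin 969 0 966)))))
(mv 904 (cons (fin 840 4 840)
(mv 903 (cons (fin 969 3 903)
(mv 1096 (cons (fin 839 7 839)
(mv 1095 (cons (fin 1035 1 1031)
(fin 1094 2 1030))))))))))
(cons (mv 904 (cons (fin 840 4 840)
(mv 903 (cons (fin 969 3 903)
(mv 839 (cons (fin 1096 7 839)
(mv 775 (cons (fin 711 4 711)
(fin 967 4 775)))))))))
(mv 904 (cons (fin 840 4 840)
(mv 967 (cons (fin 1035 3 967)
(mv 965 (cons (fin 966 0 965)
(mv 1096 (cons (mv 903 (cons (fin 839 7 839)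
(fin 1160 7 903)))
(mv 1095 (cons (fin 1094 2 1030)
(fin 1159 5 903)))))))))))))))))
(cons (mv 1161 (cons (fin 1225 6 969)
(mv 968 (cons (mv 904 (cons (fin 969 7 904)
(fin 840 4 840)))
(cons (mv 967 (cons (fin 1035 3 967)
(mv 966 (cons (fin 965 0 965)
(fin 969 0 966)))))
(mv 904 (cons (fin 840 4 840)
(fin 1096 4 904))))))))
(mv 842 (cons (fin 906 5 841)
(mv 1096 (cons (mv 1095 (cons (fin 1035 1 1031)
(fin 1094 2 1030)))
(cons (mv 1161 (cons (fin 1225 6 969)
(mv 968 (cons (fin 904 4 904)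
(mv 967 (cons (fin 1035 3 967)
(mv 965 (cons (fin 966 0 965)
(mv 1160 (cons (fin 903 7 903)
(mv 1223 (cons (fin 1159 5 967)
(mv 1224 (cons (fin 1287 5 1031)
(fin 1288 6 1032)))))))))))))))
(mv 1094 (cons (fin 1095 2 1030)
(mv 1160 (cons (cons (mv 1161 (cons (fin 1225 6 969)
(mv 904 (cons (fin 968 4 904)
(mv 1224 (cons (fin 1288 6 1032)
(mv 1223 (cons (fin 1287 5 1031)
(mv 1222 (cons (fin 1221 2 1157)
(mv 1162 (cons (fin 1159 1 1158)
(fin 1163 1 1159)))))))))))))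
(mv 1224 (cons (fin 1288 6 1032)
(mv 1223 (cons (fin 1287 5 1031)
(mv 968 (cons (fin 1159 5 967)
(mv 903 (cons (fin 967 7 903)
(mv 904 (cons (fin 839 7 839)
(fin 840 4 840))))))))))))
(cons (mv 1161 (cons (fin 1225 6 969)
(mv 968 (cons (fin 904 4 904)
(mv 1159 (cons (fin 1223 5 967)
(mv 1158 (cons (fin 1093 3 1093)
(fin 1157 2 1093)))))))))
(cons (mv 1161 (cons (fin 1225 6 969)
(mv 1224 (cons (fin 1288 6 1032)
(mv 1223 (cons (fin 1287 5 1031)
(mv 1222 (cons (fin 1221 2 1157)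
(mv 1162 (cons (fin 1159 1 1158)
(fin 1163 1 1159)))))))))))
(mv 1224 (cons (fin 1288 6 1032)
(mv 1225 (cons (fin 1161 6 969)
(fin 1289 4 1032)))))))))))))))))))))))
(mv 971 (cons (fin 972 1 969)
(mv 1031 (cons (fin 1032 2 967)
(mv 1097 (cons (cons (mv 906 (cons (fin 842 5 841)
(mv 1161 (cons (fin 1098 5 905)
(fin 969 6 905)))))
(mv 1161 (cons (fin 1225 6 969)
(mv 969 (cons (cons (mv 904 (cons (fin 968 7 904)
(mv 905 (cons (fin 840 7 840)
(mv 1160 (cons (fin 1096 5 904)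
(fin 1224 5 968)))))))
(mv 1160 (cons (fin 1224 5 968)
(mv 905 (cons (fin 1096 5 904)
(mv 841 (cons (fin 777 4 777)
(fin 1098 4 841))))))))
(cons (mv 904 (cons (fin 968 7 904)
(mv 905 (cons (fin 840 7 840)
(mv 841 (cons (fin 777 4 777)
(fin 1098 4 841)))))))
(mv 968 (cons (fin 904 7 904)
(mv 967 (cons (fin 1030 1 966)
(fin 966 0 966)))))))))))
(cons (mv 906 (cons (fin 842 5 841)
(mv 905 (cons (cons (mv 903 (cons (fin 904 0 903)
(mv 841 (cons (fin 1098 7 841)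
(mv 777 (cons (fin 713 4 713)
(fin 969 4 777)))))))
(mv 904 (cons (fin 903 0 903)
(mv 840 (cons (fin 969 7 840)
(mv 907 (cons (fin 839 3 839)
(mv 843 (cons (fin 844 2 840)
(fin 779 5 778))))))))))
(cons (mv 841 (cons (fin 1098 7 841)
(mv 777 (cons (fin 713 4 713)
(fin 969 4 777)))))
(mv 841 (cons (fin 1098 7 841)
(mv 904 (cons (fin 903 0 903)
(mv 713 (cons (fin 777 4 713)
(mv 907 (cons (mv 840 (cons (fin 839 3 839)
(fin 908 3 840)))
(mv 843 (cons (fin 844 2 840)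
(fin 779 5 778))))))))))))))))
(cons (mv 906 (cons (fin 842 5 841)
(mv 1161 (cons (fin 1098 5 905)
(fin 1225 6 969)))))
(mv 1161 (cons (fin 1225 6 969)
(mv 906 (cons (fin 842 5 841)
(fin 969 6 905)))))))))))))))
(cons (mv 971 (cons (fin 972 1 969)
(mv 1031 (cons (fin 1032 2 967)
(mv 1097 (cons (cons (mv 906 (cons (fin 842 5 841)
(mv 1161 (cons (fin 1098 5 905)
(fin 969 6 905)))))
(mv 1161 (cons (fin 1225 6 969)
(mv 1162 (cons (cons (mv 907 (cons (fin 1098 6 906)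
(mv 779 (cons (fin 843 5 778)
(mv 969 (cons (fin 1226 4 969)
(mv 1160 (cons (fin 1224 5 968)
(mv 905 (cons (fin 1096 5 904)
(mv 840 (cons (fin 904 7 840)
(mv 841 (cons (fin 776 7 776)
(fin 777 4 777)))))))))))))))
(mv 969 (cons (fin 1226 4 969)
(mv 1160 (cons (fin 1224 5 968)
(mv 905 (cons (fin 1096 5 904)
(mv 840 (cons (fin 904 7 840)
(mv 841 (cons (fin 776 7 776)
(fin 777 4 777))))))))))))
(cons (mv 1098 (cons (fin 907 6 906)
(mv 1226 (cons (fin 1290 7 1033)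
(fin 1035 6 970)))))
(mv 1098 (cons (fin 907 6 906)
(mv 905 (cons (fin 969 7 905)
(mv 1163 (cons (fin 1227 4 970)
(mv 1096 (cons (fin 1164 3 1096)
(fin 1095 0 1095)))))))))))))))
(cons (mv 906 (cons (fin 842 5 841)
(mv 1098 (cons (mv 907 (cons (fin 843 6 842)
(fin 1162 6 906)))
(cons (mv 905 (cons (fin 841 7 841)
(mv 903 (cons (fin 904 0 903)
(mv 969 (cons (fin 1162 7 905)
(mv 1096 (cons (fin 1160 5 904)
(mv 1095 (cons (fin 1030 3 1030)
(fin 1094 2 1030)))))))))))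
(mv 905 (cons (fin 841 7 841)
(mv 843 (cons (fin 907 6 842)
(mv 904 (cons (fin 903 0 903)
(mv 969 (cons (fin 840 7 840)
(mv 1096 (cons (fin 1160 5 904)
(mv 1095 (cons (fin 1030 3 1030)
(fin 1094 2 1030))))))))))))))))))
(cons (mv 906 (cons (fin 842 5 841)
(mv 1161 (cons (fin 969 6 905)
(fin 1225 6 969)))))
(mv 1161 (cons (fin 1225 6 969)
(mv 906 (cons (fin 842 5 841)
(fin 1098 5 905)))))))))))))
(cons (mv 971 (cons (fin 972 1 969)
(mv 1031 (cons (fin 1032 2 967)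
(mv 907 (cons (cons (mv 843 (cons (fin 779 5 778)
(mv 1098 (cons (fin 1035 5 842)
(fin 906 6 842)))))
(mv 843 (cons (fin 779 5 778)
(mv 842 (cons (mv 778 (cons (fin 1035 7 778)
(mv 906 (cons (fin 969 5 777)
(fin 1097 5 841)))))
(cons (mv 778 (cons (fin 1035 7 778)
(mv 650 (cons (fin 714 4 650)
(mv 841 (cons (cons (mv 840 (cons (fin 908 0 840)
(mv 903 (cons (fin 904 1 839)
(mv 839 (cons (fin 902 1 838)
(mv 775 (cons (fin 774 3 774)
(fin 776 3 775)))))))))
(mv 905 (cons (fin 969 6 777)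
(mv 844 (cons (fin 904 1 840)
(mv 777 (cons (fin 776 3 776)
(fin 845 3 777))))))))
(cons (mv 905 (cons (fin 969 6 777)
(mv 844 (cons (fin 904 1 840)
(mv 777 (cons (fin 845 3 777)
(mv 780 (cons (fin 781 2 777)
(mv 716 (cons (fin 652 5 651)
(fin 908 5 715)))))))))))
(mv 840 (cons (fin 908 0 840)
(mv 775 (cons (fin 776 3 775)
(mv 839 (cons (fin 774 3 774)
(mv 902 (cons (fin 903 1 838)
(mv 838 (cons (fin 901 1 837)
(fin 777 2 774))))))))))))))))))
(mv 906 (cons (fin 1097 5 841)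
(mv 841 (cons (fin 777 7 777)
(mv 840 (cons (fin 839 0 839)
(fin 908 0 840)))))))))))))
(cons (mv 1098 (cons (fin 1162 6 906)
(mv 906 (cons (mv 1097 (cons (fin 842 5 841)
(fin 1161 5 905)))
(cons (mv 841 (cons (fin 905 7 841)
(mv 842 (cons (fin 777 7 777)
(mv 778 (cons (fin 969 5 777)
(fin 714 4 714)))))))
(mv 905 (cons (fin 841 7 841)
(mv 1097 (cons (fin 1161 5 905)
(mv 904 (cons (fin 903 0 903)
(mv 840 (cons (fin 839 3 839)
(fin 969 7 840))))))))))))))
(mv 1098 (cons (fin 1162 6 906)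
(mv 843 (cons (fin 779 5 778)
(fin 1035 5 842))))))))))))
(mv 971 (cons (fin 972 1 969)
(mv 1031 (cons (fin 1032 2 967)
(mv 1097 (cons (cons (mv 906 (cons (fin 842 5 841)
(mv 1161 (cons (fin 1098 5 905)
(fin 969 6 905)))))
(mv 1161 (cons (fin 1225 6 969)
(mv 1162 (cons (cons (mv 907 (cons (fin 1098 6 906)
(mv 779 (cons (fin 843 5 778)
(mv 969 (cons (fin 1226 4 969)
(mv 1160 (cons (fin 1224 5 968)
(mv 905 (cons (fin 1096 5 904)
(mv 968 (cons (fin 908 2 904)
(mv 967 (cons (fin 1030 1 966)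
(fin 966 0 966)))))))))))))))
(mv 969 (cons (fin 1226 4 969)
(mv 1160 (cons (fin 1224 5 968)
(mv 1096 (cons (fin 905 5 904)
(mv 1095 (cons (fin 1163 3 1095)
(fin 1094 2 1030))))))))))
(cons (mv 1098 (cons (fin 907 6 906)
(mv 1226 (cons (fin 1290 7 1033)
(fin 1035 6 970)))))
(mv 1098 (cons (fin 907 6 906)
(mv 905 (cons (fin 969 7 905)
(mv 1163 (cons (fin 1227 4 970)
(mv 1096 (cons (fin 1164 3 1096)
(fin 1095 0 1095)))))))))))))))
(cons (mv 906 (cons (fin 842 5 841)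
(mv 1098 (cons (mv 907 (cons (fin 843 6 842)
(fin 1162 6 906)))
(cons (mv 905 (cons (fin 841 7 841)
(mv 969 (cons (fin 1162 7 905)
(mv 1096 (cons (fin 1160 5 904)
(mv 1095 (cons (fin 1030 3 1030)
(fin 1094 2 1030)))))))))
(mv 905 (cons (fin 841 7 841)
(mv 907 (cons (fin 843 6 842)
(mv 969 (cons (mv 968 (cons (fin 908 1 904)
(fin 967 2 903)))
(mv 1096 (cons (fin 1160 5 904)
(mv 1095 (cons (fin 1030 3 1030)
(fin 1094 2 1030))))))))))))))))
(cons (mv 906 (cons (fin 842 5 841)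
(mv 1161 (cons (fin 969 6 905)
(fin 1225 6 969)))))
(mv 1161 (cons (fin 1225 6 969)
(mv 906 (cons (fin 842 5 841)
(fin 1098 5 905))))))))))))))))))
def l84 : Lem := ⟨27165970580987716999077186177413070020083553138970795542538990237389111586754976653083794579900447563514815838776134120675060020760815837656715947719417209928832093537997904907163617890989830602182084804038675807892815215707760306779851279290011044032537348234590053963607735055040857163199970105463134926567752896499632471348871168, 196600280608252263605468256146229338307508112186366532398237084311099553310686342556222348307679493826479819526905063138806397504163893566506167502609559532651477282852928226751884314007476333630892748144455854027831141220982334192639326930416137823912693029408196816076747918194564741005162550827054312698778744688632726475174912938671618669313371633732383327822033037513835937021970196760328879541325922304, 196600280608252263605468256146229338307508112186366532398237084311099553310686342556222348307679493826479819526905063138806397504163893566506167502609559532651477282852928226751884314007476333630892748144455854027831141220982334192639326930416137823912693029408196816076747918194564741005162550827054312698778744688632726475174912938671618669313371633732383327822033037513835937021970196760328879541325922304,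 15, 33⟩
theorem l84_valid : l84.Valid :=
  Lem.valid_of_chk t84 t84_valid [973, 1033, 1034, 1037, 1040, 1101] c84 l84 (by decide +kernel)
end Crest.Agent.SnakyAux
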