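import Crest.Agent.S0047_aux.Checker
import Crest.Agent.S0047_aux.L81
import Crest.Agent.S0047_aux.L82
import Crest.Agent.S0047_aux.L83
import Crest.Agent.S0047_aux.L84
set_option autoImplicit false
set_option maxRecDepth 100000
namespace Crest.Agent.SnakyAux
open Cert
def t85 : Tbl := (Tbl.node (Tbl.node (Tbl.leaf l81) (Tbl.leaf l83)) (Tbl.node (Tbl.leaf l82) (Tbl.leaf l84)))
theorem t85_valid : t85.Valid := (Tbl.valid_node (Tbl.valid_node (Tbl.valid_leaf l81_valid) (Tbl.valid_leaf l83_valid)) (Tbl.valid_node (Tbl.valid_leaf l82_valid) (Tbl.valid_leaf l84_valid)))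
def c85 : Cert :=
(mv 1033 (cons (cons (cons (cons (mv 1098 (cons (cons (cons (mv 1099 (cons (fin 1100 3 1033)
(mv 1031 (cons (fin 1032 0 1031)
(mv 970 (cons (mv 971 (cons (fin 972 1 969)
(mv 906 (cons (fin 1163 4 906)
(mv 907 (cons (fin 843 6 842)
(fin 1162 6 906)))))))
(cons (mv 971 (cons (fin 972 1 969)
(mv 907 (cons (fin 1162 6 906)
(mv 843 (cons (fin 779 5 778)
(fin 1035 5 842)))))))
(mv 906 (cons (fin 1163 4 906)
(mv 842 (cons (fin 1097 5 841)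
(fin 1035 4 842))))))))))))
(mv 970 (cons (cons (mv 971 (cons (fin 972 1 969)
(mv 1031 (cons (fin 1032 2 967)
(mv 907 (cons (fin 1162 6 906)
(mv 843 (cons (fin 779 5 778)
(fin 1035 5 842)))))))))
(mv 906 (cons (mv 1097 (cons (fin 842 5 841)
(fin 1161 5 905)))
(cons (mv 841 (cons (fin 905 7 841)
(mv 842 (cons (fin 777 7 777)
(mv 843 (cons (fin 779 6 778)
(fin 907 6 842)))))))
(mv 843 (cons (fin 907 6 842)
(mv 1097 (cons (fin 1161 5 905)
(mv 905 (cons (fin 841 7 841)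
(mv 969 (cons (fin 1162 7 905)
(mv 840 (cons (fin 904 7 840)
(mv 1096 (cons (fin 1160 5 904)
(mv 1095 (cons (fin 1094 2 1030)
(fin 1035 2 1031)))))))))))))))))))
(cons (mv 971 (cons (fin 972 1 969)
(mv 1031 (cons (fin 1032 2 967)
(mv 906 (cons (mv 1097 (cons (fin 842 5 841)
(fin 1161 5 905)))
(cons (mv 841 (cons (fin 905 7 841)
(mv 842 (cons (fin 777 7 777)
(mv 843 (cons (fin 779 6 778)
(fin 907 6 842)))))))
(mv 843 (cons (fin 907 6 842)
(mv 1097 (cons (fin 1161 5 905)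
(mv 905 (cons (fin 841 7 841)
(mv 904 (cons (fin 903 0 903)
(mv 969 (cons (fin 840 7 840)
(mv 1096 (cons (fin 1160 5 904)
(mv 1095 (cons (fin 1030 3 1030)
(fin 1094 2 1030))))))))))))))))))))))
(mv 971 (cons (fin 972 1 969)
(mv 1031 (cons (fin 1032 2 967)
(mv 1162 (cons (mv 969 (cons (fin 905 7 905)
(fin 1226 7 969)))
(cons (mv 1163 (cons (fin 1227 4 970)
(mv 1226 (cons (fin 1035 6 970)
(mv 1097 (cons (fin 1290 7 1033)
(mv 906 (cons (fin 842 5 841)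
(fin 1161 5 905)))))))))
(mv 905 (cons (fin 969 7 905)
(mv 906 (cons (fin 841 7 841)
(mv 1097 (cons (fin 842 5 841)
(fin 1161 5 905))))))))))))))))))
(cons (mv 1099 (cons (fin 1100 3 1033)
(mv 1032 (cons (fin 1031 0 1031)
(mv 1035 (cons (cons (mv 967 (cons (fin 968 3 967)
(mv 971 (cons (fin 972 2 968)
(mv 907 (cons (fin 843 5 842)
(fin 1162 5 906)))))))
(mv 968 (cons (fin 967 3 967)
(mv 1096 (cons (fin 1095 1 1031)
(mv 969 (cons (mv 905 (cons (fin 841 5 840)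
(fin 1160 6 904)))
(cons (mv 1162 (cons (fin 1226 7 969)
(mv 1160 (cons (fin 1224 6 968)
(mv 1159 (cons (fin 1097 1 1095)
(fin 1161 2 1095)))))))
(mv 905 (cons (fin 841 5 840)
(mv 1162 (cons (fin 1226 7 969)
(fin 1097 4 905)))))))))))))
(cons (mv 1095 (cons (fin 1096 1 1031)
(mv 971 (cons (fin 972 2 968)
(mv 907 (cons (fin 843 5 842)
(fin 1162 5 906)))))))
(mv 971 (cons (fin 972 2 968)
(mv 907 (cons (fin 843 5 842)
(mv 968 (cons (fin 967 3 967)
(mv 1095 (cons (fin 1096 1 1031)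
(mv 906 (cons (fin 842 7 842)
(mv 908 (cons (fin 844 6 843)
(mv 905 (cons (fin 969 1 904)
(mv 840 (cons (fin 841 3 840)
(mv 904 (cons (fin 839 3 839)
(fin 1097 4 840))))))))))))))))))))))))))
(mv 1099 (cons (fin 1100 3 1033)
(mv 970 (cons (mv 971 (cons (fin 972 1 969)
(mv 906 (cons (fin 1163 4 906)
(mv 907 (cons (fin 843 6 842)
(fin 1162 6 906)))))))
(cons (mv 971 (cons (fin 972 1 969)
(mv 907 (cons (fin 1162 6 906)
(mv 843 (cons (fin 779 5 778)
(fin 1035 5 842)))))))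
(mv 906 (cons (fin 1163 4 906)
(mv 842 (cons (fin 1097 5 841)
(fin 1035 4 842))))))))))))
(cons (cons (mv 1099 (cons (fin 1100 3 1033)
(mv 1032 (cons (fin 1031 0 1031)
(mv 1035 (cons (cons (mv 967 (cons (fin 968 3 967)
(mv 971 (cons (fin 972 2 968)
(mv 907 (cons (fin 843 5 842)
(mv 1095 (cons (fin 1096 1 1031)
(mv 844 (cons (fin 908 6 843)
(mv 906 (cons (fin 842 7 842)
(mv 1163 (cons (fin 970 7 906)
(mv 1227 (cons (fin 1291 7 1034)
(mv 1228 (cons (fin 1164 4 971)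
(fin 1292 4 1035)))))))))))))))))))
(mv 1096 (cons (fin 1095 1 1031)
(mv 967 (cons (fin 968 3 967)
(mv 1163 (cons (mv 1227 (cons (fin 970 7 970)
(fin 1291 7 1034)))
(mv 1097 (cons (fin 1164 0 1096)
(mv 1160 (cons (fin 1159 1 1095)
(mv 969 (cons (fin 905 5 904)
(fin 1224 6 968))))))))))))))
(cons (mv 967 (cons (fin 968 3 967)
(mv 971 (cons (fin 972 2 968)
(mv 907 (cons (fin 843 5 842)
(mv 906 (cons (fin 842 7 842)
(mv 844 (cons (fin 908 6 843)
(mv 970 (cons (fin 1163 7 906)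
(mv 1097 (cons (fin 1161 5 905)
(mv 905 (cons (fin 841 7 841)
(mv 904 (cons (fin 903 0 903)
(mv 840 (cons (fin 839 3 839)
(fin 969 7 840)))))))))))))))))))))
(cons (mv 971 (cons (fin 972 2 968)
(mv 907 (cons (fin 843 5 842)
(mv 1095 (cons (fin 1096 1 1031)
(mv 844 (cons (fin 908 6 843)
(mv 906 (cons (fin 842 7 842)
(mv 970 (cons (fin 1163 7 906)
(mv 905 (cons (fin 841 7 841)
(mv 1097 (cons (fin 1161 5 905)
(mv 904 (cons (fin 903 0 903)
(mv 840 (cons (fin 839 3 839)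
(fin 969 7 840)))))))))))))))))))))
(mv 971 (cons (fin 972 2 968)
(mv 907 (cons (fin 843 5 842)
(mv 968 (cons (fin 967 3 967)
(mv 1095 (cons (fin 1096 1 1031)
(mv 906 (cons (fin 842 7 842)
(mv 908 (cons (fin 844 6 843)
(mv 905 (cons (fin 969 1 904)
(mv 840 (cons (fin 841 3 840)
(mv 904 (cons (fin 839 3 839)
(fin 1097 4 840)))))))))))))))))))))))))))
(mv 1099 (cons (fin 1100 3 1033)
(mv 1032 (cons (fin 1031 0 1031)
(mv 969 (cons (mv 1162 (cons (fin 1226 7 969)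
(mv 905 (cons (fin 970 7 905)
(fin 841 4 841)))))
(cons (mv 1162 (cons (fin 1226 7 969)
(mv 1096 (cons (cons (mv 1035 (cons (fin 1095 1 1031)
(mv 967 (cons (fin 968 3 967)
(mv 1160 (cons (fin 1224 6 968)
(mv 1159 (cons (fin 1097 1 1095)
(fin 1161 2 1095)))))))))
(mv 1160 (cons (fin 1224 6 968)
(mv 1159 (cons (fin 1097 1 1095)
(fin 1161 2 1095))))))
(cons (mv 1095 (cons (fin 1035 1 1031)
(mv 1094 (cons (fin 1093 2 1029)
(fin 1097 2 1030)))))
(mv 1035 (cons (fin 1095 1 1031)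
(mv 968 (cons (fin 967 3 967)
(mv 1160 (cons (fin 1224 6 968)
(mv 1159 (cons (fin 1161 2 1095)
(fin 1223 5 967))))))))))))))
(mv 905 (cons (fin 841 4 841)
(mv 1096 (cons (mv 1160 (cons (fin 1097 5 904)
(fin 968 6 904)))
(cons (mv 1095 (cons (fin 1035 1 1031)
(mv 1094 (cons (fin 1093 2 1029)
(fin 1097 2 1030)))))
(mv 1160 (cons (fin 968 6 904)
(fin 1224 6 968))))))))))))))))
(cons (mv 1099 (cons (fin 1100 3 1033)
(mv 1031 (cons (fin 1032 0 1031)
(mv 970 (cons (mv 971 (cons (fin 972 1 969)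
(mv 906 (cons (fin 1163 4 906)
(mv 907 (cons (fin 843 6 842)
(fin 1162 6 906)))))))
(cons (mv 971 (cons (fin 972 1 969)
(mv 1162 (cons (fin 907 6 906)
(mv 969 (cons (fin 905 7 905)
(fin 1226 7 969)))))))
(mv 906 (cons (fin 1163 4 906)
(mv 1097 (cons (fin 842 5 841)
(fin 1161 5 905))))))))))))
(mv 1099 (cons (fin 1100 3 1033)
(mv 1031 (cons (fin 1032 0 1031)
(mv 970 (cons (cons (mv 971 (cons (fin 972 1 969)
(mv 906 (cons (fin 1163 4 906)
(mv 907 (cons (fin 843 6 842)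
(fin 1162 6 906)))))))
(mv 971 (cons (fin 972 1 969)
(mv 907 (cons (fin 1162 6 906)
(mv 843 (cons (fin 779 5 778)
(fin 1035 5 842))))))))
(cons (mv 906 (cons (fin 1163 4 906)
(mv 842 (cons (fin 1035 4 842)
(mv 843 (cons (fin 779 6 778)
(fin 907 6 842)))))))
(mv 906 (cons (fin 1163 4 906)
(mv 842 (cons (fin 1035 4 842)
(mv 841 (cons (fin 777 7 777)
(fin 905 7 841))))))))))))))))))
(cons (mv 970 (cons (cons (cons (mv 971 (cons (fin 972 1 969)
(mv 1031 (cons (fin 1032 2 967)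
(mv 1098 (cons (mv 1099 (cons (fin 1100 3 1033)
(mv 907 (cons (fin 1162 6 906)
(mv 906 (cons (fin 843 6 842)
(fin 1163 4 906)))))))
(cons (mv 1099 (cons (fin 1100 3 1033)
(mv 906 (cons (fin 1163 4 906)
(mv 842 (cons (fin 1097 5 841)
(fin 1035 4 842)))))))
(mv 907 (cons (fin 1162 6 906)
(mv 843 (cons (fin 779 5 778)
(fin 1035 5 842))))))))))))
(mv 1098 (cons (cons (mv 1099 (cons (fin 1100 3 1033)
(mv 1031 (cons (fin 1032 0 1031)
(mv 906 (cons (fin 1163 4 906)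
(mv 842 (cons (fin 1097 5 841)
(fin 1035 4 842)))))))))
(cons (mv 1162 (cons (mv 969 (cons (fin 905 7 905)
(fin 1226 7 969)))
(mv 1163 (cons (fin 1227 4 970)
(mv 1161 (cons (fin 1225 5 969)
(mv 1097 (cons (fin 906 5 905)
(mv 1164 (cons (fin 1096 3 1096)
(fin 1100 2 1097)))))))))))
(mv 1162 (cons (mv 969 (cons (fin 905 7 905)
(fin 1226 7 969)))
(mv 1163 (cons (fin 1227 4 970)
(mv 906 (cons (fin 1099 4 906)
(mv 1097 (cons (fin 842 5 841)
(fin 1161 5 905)))))))))))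
(cons (mv 1099 (cons (fin 1100 3 1033)
(mv 1031 (cons (fin 1032 0 1031)
(mv 1162 (cons (mv 969 (cons (fin 905 7 905)
(fin 1226 7 969)))
(mv 1163 (cons (fin 1227 4 970)
(mv 1161 (cons (fin 1225 5 969)
(mv 1160 (cons (fin 1159 2 1095)
(mv 1224 (cons (fin 1223 1 1159)
(mv 1096 (cons (fin 1095 3 1095)
(mv 1097 (cons (fin 1164 3 1096)
(fin 1288 6 1032)))))))))))))))))))
(cons (mv 1099 (cons (fin 1100 3 1033)
(mv 1031 (cons (fin 1032 0 1031)
(mv 906 (cons (fin 1163 4 906)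
(mv 842 (cons (fin 1035 4 842)
(mv 843 (cons (fin 779 6 778)
(fin 907 6 842)))))))))))
(mv 1099 (cons (fin 1100 3 1033)
(mv 1031 (cons (fin 1032 0 1031)
(mv 906 (cons (mv 842 (cons (fin 1097 5 841)
(fin 1035 4 842)))
(cons (mv 842 (cons (fin 1035 4 842)
(mv 843 (cons (fin 779 6 778)
(fin 907 6 842)))))
(mv 1161 (cons (fin 1097 5 905)
(mv 843 (cons (fin 907 6 842)
(mv 1162 (cons (fin 1225 5 969)
(mv 969 (cons (fin 905 7 905)
(fin 1226 7 969)))))))))))))))))))))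
(cons (mv 971 (cons (fin 972 1 969)
(mv 1031 (cons (fin 1032 2 967)
(mv 1098 (cons (cons (mv 1099 (cons (fin 1100 3 1033)
(mv 906 (cons (fin 1163 4 906)
(mv 907 (cons (fin 843 6 842)
(fin 1162 6 906)))))))
(mv 1099 (cons (fin 1100 3 1033)
(mv 906 (cons (fin 1163 4 906)
(mv 842 (cons (fin 1035 4 842)
(mv 843 (cons (fin 779 6 778)
(fin 907 6 842))))))))))
(cons (mv 1099 (cons (fin 1100 3 1033)
(mv 906 (cons (fin 1163 4 906)
(mv 842 (cons (fin 1035 4 842)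
(mv 779 (cons (fin 843 6 778)
(mv 778 (cons (fin 969 5 777)
(fin 715 6 714)))))))))))
(cons (mv 907 (cons (fin 1162 6 906)
(mv 843 (cons (fin 779 5 778)
(fin 1035 5 842)))))
(mv 907 (cons (fin 1162 6 906)
(mv 1099 (cons (fin 1100 3 1033)
(mv 906 (cons (fin 1163 4 906)
(mv 842 (cons (fin 1035 7 842)
(mv 778 (cons (fin 969 5 777)
(fin 714 4 714)))))))))))))))))))
(mv 971 (cons (fin 972 1 969)
(mv 1032 (cons (fin 1031 2 967)
(mv 1035 (cons (cons (mv 967 (cons (fin 968 3 967)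
(mv 1099 (cons (fin 1100 0 1032)
(mv 906 (cons (fin 1163 7 906)
(fin 842 4 842)))))))
(mv 968 (cons (fin 967 3 967)
(mv 1096 (cons (fin 1095 1 1031)
(mv 1097 (cons (mv 904 (cons (fin 840 4 840)
(fin 1161 4 904)))
(cons (mv 904 (cons (fin 840 4 840)
(mv 903 (cons (fin 969 3 903)
(fin 839 7 839)))))
(mv 906 (cons (fin 842 5 841)
(mv 1161 (cons (fin 1225 7 968)
(fin 969 6 905)))))))))))))
(cons (mv 1095 (cons (fin 1096 1 1031)
(mv 1099 (cons (fin 1100 0 1032)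
(mv 906 (cons (fin 1163 7 906)
(fin 842 4 842)))))))
(mv 1099 (cons (fin 1100 0 1032)
(mv 1163 (cons (fin 1227 7 970)
(mv 967 (cons (fin 968 3 967)
(mv 1164 (cons (fin 1228 4 971)
(mv 1162 (cons (fin 1226 5 970)
(mv 1096 (cons (fin 1095 1 1031)
(mv 1161 (cons (fin 1097 3 1096)
(mv 1224 (cons (fin 1225 1 1160)
(mv 1160 (cons (fin 1223 1 1159)
(fin 969 6 968))))))))))))))))))))))))))))
(cons (cons (mv 971 (cons (fin 972 1 969)
(mv 1098 (cons (mv 1099 (cons (fin 1100 3 1033)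
(mv 907 (cons (fin 1162 6 906)
(mv 906 (cons (fin 843 6 842)
(fin 1163 4 906)))))))
(cons (mv 1099 (cons (fin 1100 3 1033)
(mv 906 (cons (fin 1163 4 906)
(mv 842 (cons (fin 1097 5 841)
(fin 1035 4 842)))))))
(mv 907 (cons (fin 1162 6 906)
(mv 843 (cons (fin 779 5 778)
(fin 1035 5 842))))))))))
(mv 971 (cons (fin 972 1 969)
(mv 1032 (cons (fin 1031 2 967)
(mv 1035 (cons (cons (mv 967 (cons (fin 968 3 967)
(mv 1099 (cons (fin 1100 0 1032)
(mv 1163 (cons (fin 1227 7 970)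
(mv 1095 (cons (fin 1096 1 1031)
(mv 1164 (cons (fin 1228 4 971)
(mv 1162 (cons (fin 1226 5 970)
(mv 907 (cons (fin 1098 5 906)
(mv 843 (cons (fin 779 5 778)
(mv 844 (cons (fin 780 6 779)
(fin 908 6 843)))))))))))))))))))
(cons (mv 968 (cons (fin 967 3 967)
(mv 1095 (cons (fin 1096 1 1031)
(mv 907 (cons (mv 843 (cons (fin 779 5 778)
(fin 1098 5 842)))
(cons (mv 969 (cons (fin 908 2 904)
(mv 1098 (cons (fin 1162 6 906)
(mv 904 (cons (fin 903 3 903)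
(mv 840 (cons (fin 776 4 776)
(fin 1097 4 840)))))))))
(mv 779 (cons (fin 843 5 778)
(mv 969 (cons (fin 908 2 904)
(mv 904 (cons (fin 903 3 903)
(mv 840 (cons (fin 776 4 776)
(fin 1097 4 840))))))))))))))))
(mv 1095 (cons (fin 1096 1 1031)
(mv 1099 (cons (fin 1100 0 1032)
(mv 1163 (cons (fin 1227 7 970)
(mv 1162 (cons (fin 1226 5 970)
(mv 907 (cons (fin 1098 5 906)
(mv 843 (cons (fin 779 5 778)
(mv 844 (cons (fin 780 6 779)
(fin 908 6 843)))))))))))))))))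
(cons (mv 1099 (cons (fin 1100 0 1032)
(mv 1163 (cons (fin 1227 7 970)
(mv 967 (cons (fin 968 3 967)
(mv 1164 (cons (fin 1228 4 971)
(mv 1162 (cons (fin 1226 5 970)
(mv 907 (cons (fin 1098 5 906)
(mv 843 (cons (fin 779 5 778)
(mv 844 (cons (fin 780 6 779)
(fin 908 6 843)))))))))))))))))
(cons (mv 1099 (cons (fin 1100 0 1032)
(mv 1163 (cons (fin 1227 7 970)
(mv 967 (cons (fin 968 3 967)
(mv 1164 (cons (fin 1228 4 971)
(mv 1162 (cons (fin 1226 5 970)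
(mv 1096 (cons (fin 1095 1 1031)
(mv 1161 (cons (fin 1097 3 1096)
(mv 1224 (cons (fin 1225 1 1160)
(mv 1160 (cons (fin 1223 1 1159)
(fin 969 6 968)))))))))))))))))))
(mv 1099 (cons (fin 1100 0 1032)
(mv 1163 (cons (fin 1227 7 970)
(mv 1096 (cons (fin 1095 1 1031)
(mv 1164 (cons (fin 1228 4 971)
(mv 1097 (cons (fin 1098 0 1096)
(mv 968 (cons (fin 967 3 967)
(mv 1161 (cons (fin 1225 7 968)
(fin 904 4 904))))))))))))))))))))))))
(cons (mv 971 (cons (fin 972 1 969)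
(mv 1032 (cons (fin 1031 2 967)
(mv 1097 (cons (cons (mv 906 (cons (fin 842 5 841)
(mv 1161 (cons (fin 1098 5 905)
(fin 969 6 905)))))
(mv 906 (cons (fin 842 5 841)
(mv 968 (cons (mv 967 (cons (fin 1035 3 967)
(mv 966 (cons (fin 965 0 965)
(fin 969 0 966)))))
(cons (mv 904 (cons (fin 840 4 840)
(mv 903 (cons (fin 969 3 903)
(fin 905 0 903)))))
(mv 904 (cons (fin 840 4 840)
(mv 967 (cons (fin 1035 3 967)
(mv 905 (cons (fin 907 1 903)
(fin 903 0 903)))))))))))))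
(cons (mv 1161 (cons (fin 1225 6 969)
(mv 968 (cons (mv 904 (cons (fin 969 7 904)
(fin 840 4 840)))
(cons (mv 967 (cons (fin 1035 3 967)
(mv 966 (cons (fin 965 0 965)
(fin 969 0 966)))))
(mv 904 (cons (fin 840 4 840)
(fin 1096 4 904))))))))
(mv 1161 (cons (fin 1225 6 969)
(mv 906 (cons (fin 842 5 841)
(fin 1098 5 905))))))))))))
(mv 971 (cons (fin 972 1 969)
(mv 1031 (cons (fin 1032 2 967)
(mv 1098 (cons (cons (mv 1099 (cons (fin 1100 3 1033)
(mv 907 (cons (fin 1162 6 906)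
(mv 906 (cons (fin 843 6 842)
(fin 1163 4 906)))))))
(mv 1099 (cons (fin 1100 3 1033)
(mv 906 (cons (fin 1163 4 906)
(mv 1097 (cons (fin 842 5 841)
(fin 1161 5 905))))))))
(cons (mv 907 (cons (fin 1162 6 906)
(mv 843 (cons (fin 779 5 778)
(fin 906 6 842)))))
(mv 1162 (cons (fin 907 6 906)
(mv 969 (cons (fin 905 7 905)
(fin 1226 7 969))))))))))))))))
(mv 1098 (cons (cons (cons (mv 1099 (cons (fin 1100 3 1033)
(mv 1031 (cons (fin 1032 0 1031)
(mv 970 (cons (mv 971 (cons (fin 972 1 969)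
(mv 906 (cons (fin 1163 4 906)
(mv 842 (cons (fin 1097 5 841)
(fin 1035 4 842)))))))
(cons (mv 971 (cons (fin 972 1 969)
(mv 1162 (cons (fin 907 6 906)
(mv 969 (cons (fin 905 7 905)
(fin 1226 7 969)))))))
(mv 906 (cons (fin 1163 4 906)
(mv 842 (cons (fin 1097 5 841)
(fin 1035 4 842))))))))))))
(cons (mv 969 (cons (cons (mv 1162 (cons (fin 1226 7 969)
(mv 905 (cons (fin 970 7 905)
(fin 841 4 841)))))
(mv 1162 (cons (fin 1226 7 969)
(mv 970 (cons (mv 971 (cons (fin 972 1 969)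
(fin 907 6 906)))
(mv 1163 (cons (fin 1227 4 970)
(mv 1161 (cons (fin 1225 5 969)
(mv 1097 (cons (fin 906 5 905)
(mv 1164 (cons (fin 1096 3 1096)
(fin 1100 2 1097))))))))))))))
(cons (mv 905 (cons (fin 841 4 841)
(mv 1097 (cons (cons (mv 840 (cons (fin 904 7 840)
(mv 842 (cons (fin 906 6 841)
(mv 1096 (cons (fin 1160 5 904)
(mv 1095 (cons (fin 1094 2 1030)
(fin 1035 2 1031)))))))))
(mv 1096 (cons (fin 1160 5 904)
(mv 1095 (cons (fin 1094 2 1030)
(fin 1035 2 1031))))))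
(cons (mv 840 (cons (fin 904 7 840)
(mv 906 (cons (fin 842 6 841)
(mv 1161 (cons (fin 970 5 905)
(mv 1224 (cons (fin 1160 5 968)
(mv 1225 (cons (fin 1288 5 1032)
(fin 1289 6 1033)))))))))))
(mv 842 (cons (fin 906 6 841)
(mv 904 (cons (fin 840 7 840)
(mv 968 (cons (fin 1161 7 904)
(mv 967 (cons (fin 966 0 966)
(mv 1035 (cons (fin 1032 3 967)
(fin 970 0 967))))))))))))))))
(mv 905 (cons (fin 841 4 841)
(mv 1162 (cons (fin 1226 7 969)
(fin 1097 4 905))))))))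
(mv 969 (cons (cons (mv 1162 (cons (fin 1226 7 969)
(mv 905 (cons (fin 970 7 905)
(fin 841 4 841)))))
(mv 1162 (cons (fin 1226 7 969)
(mv 970 (cons (mv 971 (cons (fin 972 1 969)
(fin 907 6 906)))
(mv 1163 (cons (fin 1227 4 970)
(mv 906 (cons (fin 1099 4 906)
(mv 1161 (cons (fin 1097 5 905)
(fin 1225 5 969))))))))))))
(cons (mv 905 (cons (fin 841 4 841)
(mv 1097 (cons (cons (mv 840 (cons (fin 904 7 840)
(mv 842 (cons (fin 906 6 841)
(mv 1096 (cons (fin 1160 5 904)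
(mv 1095 (cons (fin 1094 2 1030)
(fin 1035 2 1031)))))))))
(mv 1096 (cons (fin 1160 5 904)
(mv 1095 (cons (fin 1094 2 1030)
(fin 1035 2 1031))))))
(cons (mv 840 (cons (fin 904 7 840)
(mv 906 (cons (fin 842 6 841)
(mv 1161 (cons (fin 970 5 905)
(mv 1160 (cons (fin 1224 5 968)
(mv 1158 (cons (fin 1159 2 1094)
(mv 1225 (cons (fin 1289 6 1033)
(mv 1032 (cons (fin 968 7 968)
(mv 1031 (cons (fin 1030 0 1030)
(fin 1099 0 1031)))))))))))))))))
(mv 842 (cons (fin 906 6 841)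
(mv 904 (cons (fin 840 7 840)
(mv 968 (cons (fin 1161 7 904)
(mv 967 (cons (fin 966 0 966)
(mv 1035 (cons (fin 1032 3 967)
(fin 970 0 967))))))))))))))))
(mv 905 (cons (fin 841 4 841)
(mv 1162 (cons (fin 1226 7 969)
(fin 1097 4 905))))))))))
(cons (mv 1099 (cons (fin 1100 3 1033)
(mv 1031 (cons (fin 1032 0 1031)
(mv 970 (cons (cons (mv 971 (cons (fin 972 1 969)
(mv 906 (cons (fin 1163 4 906)
(mv 842 (cons (fin 1097 5 841)
(fin 1035 4 842)))))))
(mv 971 (cons (fin 972 1 969)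
(mv 1162 (cons (fin 907 6 906)
(mv 1161 (cons (fin 1225 5 969)
(mv 1159 (cons (fin 1160 2 1095)
(mv 1226 (cons (fin 1035 6 970)
(mv 1227 (cons (fin 1163 4 970)
(fin 1291 4 1034))))))))))))))
(cons (mv 971 (cons (fin 972 1 969)
(mv 1162 (cons (fin 907 6 906)
(mv 1161 (cons (fin 1225 5 969)
(mv 906 (cons (fin 1097 5 905)
(mv 1035 (cons (fin 1226 6 970)
(fin 842 4 842)))))))))))
(cons (mv 906 (cons (fin 1163 4 906)
(mv 842 (cons (fin 1097 5 841)
(fin 1035 4 842)))))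
(mv 906 (cons (fin 1163 4 906)
(mv 1097 (cons (fin 842 5 841)
(fin 1161 5 905)))))))))))))
(cons (mv 1099 (cons (fin 1100 3 1033)
(mv 1032 (cons (fin 1031 0 1031)
(mv 1096 (cons (cons (mv 1095 (cons (fin 1035 1 1031)
(mv 1094 (cons (fin 1093 2 1029)
(fin 1097 2 1030)))))
(mv 1160 (cons (cons (mv 1097 (cons (fin 1159 1 1095)
(mv 969 (cons (fin 905 5 904)
(fin 1224 6 968)))))
(mv 969 (cons (fin 1224 6 968)
(mv 905 (cons (fin 841 5 840)
(fin 968 6 904))))))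
(cons (mv 1097 (cons (fin 1159 1 1095)
(mv 1094 (cons (fin 1095 2 1030)
(mv 1224 (cons (fin 1288 6 1032)
(mv 1223 (cons (fin 1287 5 1031)
(mv 1225 (cons (fin 1289 4 1032)
(mv 1161 (cons (fin 968 7 968)
(fin 970 6 969)))))))))))))
(mv 1097 (cons (fin 1159 1 1095)
(mv 1094 (cons (fin 1095 2 1030)
(mv 969 (cons (fin 905 5 904)
(mv 1163 (cons (fin 1164 0 1096)
(mv 1227 (cons (fin 1291 7 1034)
(mv 970 (cons (fin 906 4 906)
(mv 1161 (cons (fin 1225 6 969)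
(mv 968 (cons (fin 904 7 904)
(mv 967 (cons (fin 966 0 966)
(fin 903 7 903)))))))))))))))))))))))
(cons (mv 1163 (cons (cons (mv 1097 (cons (fin 1164 0 1096)
(mv 1159 (cons (fin 1160 1 1095)
(mv 970 (cons (fin 906 4 906)
(mv 1227 (cons (fin 1035 7 970)
(fin 1291 7 1034)))))))))
(mv 1227 (cons (fin 1291 7 1034)
(mv 1097 (cons (fin 1164 0 1096)
(mv 1160 (cons (fin 1159 1 1095)
(mv 969 (cons (fin 905 5 904)
(fin 1224 6 968))))))))))
(cons (mv 970 (cons (fin 906 4 906)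
(mv 1227 (cons (fin 1035 7 970)
(fin 1291 7 1034)))))
(mv 1097 (cons (fin 1164 0 1096)
(mv 1159 (cons (fin 1160 1 1095)
(mv 970 (cons (fin 906 4 906)
(mv 1161 (cons (fin 1225 6 969)
(mv 968 (cons (fin 904 4 904)
(mv 971 (cons (fin 972 1 969)
(mv 967 (cons (fin 1035 3 967)
(mv 966 (cons (fin 965 0 965)
(fin 969 0 966))))))))))))))))))))
(mv 1035 (cons (fin 1095 1 1031)
(mv 968 (cons (fin 967 3 967)
(mv 971 (cons (fin 972 2 968)
(mv 1163 (cons (mv 970 (cons (fin 906 7 906)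
(fin 1227 7 970)))
(cons (mv 1164 (cons (fin 1228 4 971)
(mv 1227 (cons (fin 1291 7 1034)
(mv 1226 (cons (fin 1290 5 1034)
(mv 1224 (cons (fin 1225 2 1160)
(mv 1160 (cons (fin 969 6 968)
(mv 1223 (cons (fin 1159 5 967)
(fin 1287 5 1031)))))))))))))
(mv 906 (cons (fin 970 7 906)
(mv 907 (cons (fin 842 7 842)
(mv 1164 (cons (fin 1228 4 971)
(mv 908 (cons (fin 844 6 843)
(mv 905 (cons (fin 969 1 904)
(mv 841 (cons (fin 840 3 840)
(fin 904 6 840)))))))))))))))))))))))))))))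
(mv 1099 (cons (fin 1100 3 1033)
(mv 1032 (cons (fin 1031 0 1031)
(mv 1035 (cons (cons (mv 967 (cons (fin 968 3 967)
(mv 971 (cons (fin 972 2 968)
(mv 1162 (cons (fin 907 5 906)
(fin 1226 6 970)))))))
(mv 967 (cons (fin 968 3 967)
(mv 1096 (cons (fin 1095 1 1031)
(mv 1097 (cons (cons (mv 1159 (cons (fin 1160 1 1095)
(mv 1163 (cons (fin 1164 0 1096)
(mv 1227 (cons (fin 1291 7 1034)
(mv 1226 (cons (fin 1290 5 1034)
(mv 1162 (cons (fin 969 7 969)
(mv 1228 (cons (fin 1292 4 1035)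
(mv 1229 (cons (fin 1161 3 1161)
(fin 1230 3 1162)))))))))))))))
(mv 1163 (cons (fin 1164 0 1096)
(mv 1227 (cons (fin 1291 7 1034)
(mv 1226 (cons (fin 1290 5 1034)
(mv 1162 (cons (fin 969 7 969)
(mv 1228 (cons (fin 1292 4 1035)
(mv 1229 (cons (fin 1161 3 1161)
(fin 1230 3 1162))))))))))))))
(cons (mv 1160 (cons (fin 1159 1 1095)
(mv 969 (cons (fin 905 5 904)
(fin 1224 6 968)))))
(mv 1160 (cons (fin 1159 1 1095)
(mv 1163 (cons (fin 1164 0 1096)
(mv 1224 (cons (fin 1288 6 1032)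
(mv 1223 (cons (fin 1287 5 1031)
(mv 1162 (cons (fin 1161 1 1159)
(mv 1225 (cons (fin 1226 2 1159)
(fin 1289 4 1032)))))))))))))))))))))
(cons (mv 1095 (cons (fin 1096 1 1031)
(mv 971 (cons (fin 972 2 968)
(mv 1162 (cons (fin 907 5 906)
(fin 1226 6 970)))))))
(mv 1096 (cons (fin 1095 1 1031)
(mv 968 (cons (fin 967 3 967)
(mv 971 (cons (fin 972 2 968)
(mv 1097 (cons (mv 904 (cons (fin 840 4 840)
(fin 1161 4 904)))
(mv 1160 (cons (fin 1159 1 1095)
(mv 969 (cons (fin 905 5 904)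
(fin 1224 6 968)))))))))))))))))))))))
(cons (cons (mv 1099 (cons (fin 1100 3 1033)
(mv 970 (cons (mv 971 (cons (fin 972 1 969)
(mv 906 (cons (fin 1163 4 906)
(mv 842 (cons (fin 1097 5 841)
(fin 1035 4 842)))))))
(cons (mv 971 (cons (fin 972 1 969)
(mv 1162 (cons (fin 907 6 906)
(mv 969 (cons (fin 905 7 905)
(fin 1226 7 969)))))))
(mv 906 (cons (fin 1163 4 906)
(mv 842 (cons (fin 1097 5 841)
(fin 1035 4 842))))))))))
(cons (mv 1099 (cons (fin 1100 3 1033)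
(mv 1031 (cons (fin 1032 0 1031)
(mv 969 (cons (cons (mv 1162 (cons (fin 1226 7 969)
(mv 905 (cons (fin 970 7 905)
(fin 841 4 841)))))
(mv 905 (cons (fin 841 4 841)
(mv 1097 (cons (mv 840 (cons (fin 904 7 840)
(mv 842 (cons (fin 906 6 841)
(mv 1096 (cons (fin 1160 5 904)
(mv 1095 (cons (fin 1030 3 1030)
(fin 1094 2 1030)))))))))
(cons (mv 840 (cons (fin 904 7 840)
(mv 906 (cons (fin 842 6 841)
(mv 970 (cons (fin 1161 5 905)
(fin 1163 4 906)))))))
(mv 1096 (cons (fin 1160 5 904)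
(mv 1095 (cons (fin 1030 3 1030)
(fin 1094 2 1030)))))))))))
(cons (mv 1162 (cons (fin 1226 7 969)
(mv 970 (cons (mv 1163 (cons (fin 906 4 906)
(fin 1227 4 970)))
(cons (mv 1161 (cons (fin 1225 5 969)
(mv 906 (cons (fin 1097 5 905)
(mv 842 (cons (fin 778 5 777)
(fin 1035 4 842)))))))
(mv 1161 (cons (fin 1225 5 969)
(mv 1160 (cons (fin 1159 2 1095)
(mv 1163 (cons (fin 1227 4 970)
(mv 1224 (cons (fin 1223 1 1159)
(fin 1097 5 968))))))))))))))
(mv 1162 (cons (fin 1226 7 969)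
(mv 905 (cons (fin 841 4 841)
(fin 1097 4 905))))))))))))
(mv 1099 (cons (fin 1100 3 1033)
(mv 1031 (cons (fin 1032 0 1031)
(mv 970 (cons (cons (mv 971 (cons (fin 972 1 969)
(mv 906 (cons (fin 1163 4 906)
(mv 842 (cons (fin 1097 5 841)
(fin 1035 4 842)))))))
(mv 971 (cons (fin 972 1 969)
(mv 1162 (cons (fin 907 6 906)
(mv 1161 (cons (fin 1225 5 969)
(mv 1160 (cons (fin 1159 2 1095)
(mv 1163 (cons (fin 1227 4 970)
(mv 1223 (cons (fin 1224 1 1159)
(mv 1096 (cons (fin 1095 3 1095)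
(mv 905 (cons (fin 969 7 905)
(mv 1164 (cons (fin 1097 3 1096)
(mv 1228 (cons (fin 1229 0 1161)
(fin 1035 4 971))))))))))))))))))))))
(cons (mv 971 (cons (fin 972 1 969)
(mv 1162 (cons (fin 907 6 906)
(mv 1161 (cons (fin 1225 5 969)
(mv 906 (cons (fin 1097 5 905)
(mv 905 (cons (fin 841 7 841)
(fin 969 7 905)))))))))))
(cons (mv 906 (cons (fin 1163 4 906)
(mv 842 (cons (fin 1097 5 841)
(fin 1035 4 842)))))
(mv 906 (cons (fin 1163 4 906)
(mv 842 (cons (fin 1035 4 842)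
(mv 841 (cons (fin 777 7 777)
(fin 905 7 841)))))))))))))))))
(cons (mv 1099 (cons (fin 1100 3 1033)
(mv 1031 (cons (fin 1032 0 1031)
(mv 970 (cons (cons (mv 971 (cons (fin 972 1 969)
(mv 906 (cons (fin 1163 4 906)
(mv 842 (cons (fin 1035 4 842)
(mv 841 (cons (fin 777 7 777)
(fin 905 7 841)))))))))
(mv 971 (cons (fin 972 1 969)
(mv 1162 (cons (fin 907 6 906)
(mv 969 (cons (fin 905 7 905)
(fin 1226 7 969))))))))
(cons (mv 906 (cons (fin 1163 4 906)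
(mv 842 (cons (fin 1035 4 842)
(mv 841 (cons (fin 777 7 777)
(fin 905 7 841)))))))
(mv 971 (cons (fin 972 1 969)
(mv 906 (cons (fin 1163 4 906)
(mv 842 (cons (fin 1035 4 842)
(mv 778 (cons (fin 969 5 777)
(mv 777 (cons (fin 713 7 713)
(fin 841 7 777))))))))))))))))))
(cons (mv 1099 (cons (fin 1100 3 1033)
(mv 1031 (cons (fin 1032 0 1031)
(mv 970 (cons (mv 971 (cons (fin 972 1 969)
(mv 906 (cons (fin 1163 4 906)
(mv 1097 (cons (fin 842 5 841)
(fin 1161 5 905)))))))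
(cons (mv 971 (cons (fin 972 1 969)
(mv 1162 (cons (fin 907 6 906)
(mv 969 (cons (fin 905 7 905)
(fin 1226 7 969)))))))
(mv 906 (cons (fin 1163 4 906)
(mv 1097 (cons (fin 842 5 841)
(fin 1161 5 905))))))))))))
(mv 1099 (cons (fin 1100 3 1033)
(mv 1031 (cons (fin 1032 0 1031)
(mv 969 (cons (cons (mv 1162 (cons (fin 1226 7 969)
(mv 905 (cons (fin 970 7 905)
(fin 841 4 841)))))
(mv 905 (cons (fin 841 4 841)
(mv 1097 (cons (cons (mv 840 (cons (fin 904 7 840)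
(mv 842 (cons (fin 906 6 841)
(mv 1096 (cons (fin 1160 5 904)
(mv 1095 (cons (fin 1030 3 1030)
(fin 1094 2 1030)))))))))
(mv 840 (cons (fin 904 7 840)
(mv 906 (cons (fin 842 6 841)
(mv 1161 (cons (fin 970 5 905)
(mv 1224 (cons (fin 1160 5 968)
(mv 1225 (cons (fin 1288 5 1032)
(fin 1289 6 1033))))))))))))
(cons (mv 1096 (cons (fin 1160 5 904)
(mv 1095 (cons (fin 1030 3 1030)
(fin 1094 2 1030)))))
(mv 904 (cons (fin 840 7 840)
(mv 842 (cons (fin 906 6 841)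
(mv 968 (cons (fin 1161 7 904)
(mv 967 (cons (fin 966 0 966)
(mv 970 (cons (fin 1030 1 966)
(fin 1035 0 967)))))))))))))))))
(cons (mv 1162 (cons (fin 1226 7 969)
(mv 970 (cons (mv 971 (cons (fin 972 1 969)
(fin 907 6 906)))
(mv 1161 (cons (fin 1225 5 969)
(mv 906 (cons (fin 1097 5 905)
(mv 842 (cons (fin 778 5 777)
(fin 1035 4 842)))))))))))
(mv 1162 (cons (fin 1226 7 969)
(mv 905 (cons (fin 841 4 841)
(fin 1097 4 905)))))))))))))))))))
(cons (cons (mv 1098 (cons (cons (cons (mv 1099 (cons (fin 1100 3 1033)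
(mv 1031 (cons (fin 1032 0 1031)
(mv 970 (cons (mv 971 (cons (fin 972 1 969)
(mv 906 (cons (fin 1163 4 906)
(mv 907 (cons (fin 843 6 842)
(fin 1162 6 906)))))))
(cons (mv 971 (cons (fin 972 1 969)
(mv 907 (cons (fin 1162 6 906)
(mv 843 (cons (fin 779 5 778)
(fin 1035 5 842)))))))
(mv 906 (cons (fin 1163 4 906)
(mv 842 (cons (fin 1097 5 841)
(fin 1035 4 842))))))))))))
(mv 969 (cons (cons (mv 1162 (cons (fin 1226 7 969)
(mv 905 (cons (fin 970 7 905)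
(fin 841 4 841)))))
(mv 905 (cons (fin 841 4 841)
(mv 1097 (cons (mv 1096 (cons (fin 1160 5 904)
(mv 1095 (cons (fin 1094 2 1030)
(fin 1035 2 1031)))))
(mv 906 (cons (fin 842 6 841)
(mv 970 (cons (fin 1161 5 905)
(mv 971 (cons (fin 972 3 905)
(mv 1031 (cons (fin 1032 2 967)
(mv 907 (cons (fin 843 6 842)
(mv 968 (cons (fin 908 1 904)
(fin 967 2 903))))))))))))))))))
(cons (mv 1162 (cons (fin 1226 7 969)
(mv 970 (cons (mv 971 (cons (fin 972 1 969)
(fin 907 6 906)))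
(cons (mv 1163 (cons (fin 1227 4 970)
(mv 1161 (cons (fin 1225 5 969)
(mv 906 (cons (fin 1097 5 905)
(mv 842 (cons (fin 778 5 777)
(mv 843 (cons (fin 779 6 778)
(fin 907 6 842)))))))))))
(mv 1161 (cons (fin 1225 5 969)
(mv 1097 (cons (fin 906 5 905)
(mv 1163 (cons (fin 1227 4 970)
(mv 1096 (cons (fin 1164 3 1096)
(fin 1095 0 1095))))))))))))))
(mv 1162 (cons (fin 1226 7 969)
(mv 905 (cons (fin 841 4 841)
(fin 1097 4 905)))))))))
(cons (mv 1099 (cons (fin 1100 3 1033)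
(mv 1032 (cons (fin 1031 0 1031)
(mv 1035 (cons (cons (mv 967 (cons (fin 968 3 967)
(mv 971 (cons (fin 972 2 968)
(mv 907 (cons (fin 843 5 842)
(fin 1162 5 906)))))))
(mv 967 (cons (fin 968 3 967)
(mv 1096 (cons (fin 1095 1 1031)
(mv 1097 (cons (cons (mv 1159 (cons (fin 1160 1 1095)
(mv 1163 (cons (fin 1164 0 1096)
(mv 1227 (cons (fin 1291 7 1034)
(mv 1226 (cons (fin 1290 5 1034)
(mv 1162 (cons (fin 969 7 969)
(mv 1228 (cons (fin 1292 4 1035)
(mv 1229 (cons (fin 1161 3 1161)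
(fin 1230 3 1162)))))))))))))))
(mv 1163 (cons (fin 1164 0 1096)
(mv 1227 (cons (fin 1291 7 1034)
(mv 1226 (cons (fin 1290 5 1034)
(mv 1162 (cons (fin 969 7 969)
(mv 1228 (cons (fin 1292 4 1035)
(mv 1229 (cons (fin 1161 3 1161)
(fin 1230 3 1162))))))))))))))
(cons (mv 1160 (cons (fin 1159 1 1095)
(mv 969 (cons (fin 905 5 904)
(fin 1224 6 968)))))
(mv 1160 (cons (fin 1159 1 1095)
(mv 1163 (cons (fin 1164 0 1096)
(mv 1224 (cons (fin 1288 6 1032)
(mv 1223 (cons (fin 1287 5 1031)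
(mv 1162 (cons (fin 1161 1 1159)
(mv 1225 (cons (fin 1226 2 1159)
(fin 1289 4 1032)))))))))))))))))))))
(cons (mv 1095 (cons (fin 1096 1 1031)
(mv 971 (cons (fin 972 2 968)
(mv 907 (cons (fin 843 5 842)
(fin 1162 5 906)))))))
(mv 971 (cons (fin 972 2 968)
(mv 907 (cons (fin 843 5 842)
(mv 968 (cons (fin 967 3 967)
(mv 1096 (cons (fin 1095 1 1031)
(mv 906 (cons (fin 842 7 842)
(mv 908 (cons (fin 844 6 843)
(mv 969 (cons (fin 905 1 904)
(mv 1160 (cons (fin 1224 6 968)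
(mv 1159 (cons (fin 1097 1 1095)
(fin 1223 5 967))))))))))))))))))))))))))
(cons (mv 1099 (cons (fin 1100 3 1033)
(mv 1032 (cons (fin 1031 0 1031)
(mv 1035 (cons (cons (mv 967 (cons (fin 968 3 967)
(mv 971 (cons (fin 972 2 968)
(mv 907 (cons (fin 843 5 842)
(mv 1095 (cons (fin 1096 1 1031)
(mv 844 (cons (fin 908 6 843)
(mv 906 (cons (fin 842 7 842)
(mv 1163 (cons (fin 970 7 906)
(mv 1227 (cons (fin 1291 7 1034)
(mv 1228 (cons (fin 1164 4 971)
(fin 1292 4 1035)))))))))))))))))))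
(mv 1096 (cons (fin 1095 1 1031)
(mv 967 (cons (fin 968 3 967)
(mv 1163 (cons (mv 1227 (cons (fin 970 7 970)
(fin 1291 7 1034)))
(mv 1097 (cons (fin 1164 0 1096)
(mv 1160 (cons (fin 1159 1 1095)
(mv 969 (cons (fin 905 5 904)
(fin 1224 6 968))))))))))))))
(cons (mv 967 (cons (fin 968 3 967)
(mv 971 (cons (fin 972 2 968)
(mv 907 (cons (fin 843 5 842)
(mv 906 (cons (fin 842 7 842)
(mv 844 (cons (fin 908 6 843)
(mv 1163 (cons (fin 970 7 906)
(mv 1227 (cons (fin 1291 7 1034)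
(mv 1228 (cons (fin 1164 4 971)
(fin 1292 4 1035)))))))))))))))))
(cons (mv 971 (cons (fin 972 2 968)
(mv 907 (cons (fin 843 5 842)
(mv 1095 (cons (fin 1096 1 1031)
(mv 844 (cons (fin 908 6 843)
(mv 906 (cons (fin 842 7 842)
(mv 1163 (cons (fin 970 7 906)
(mv 1227 (cons (fin 1291 7 1034)
(mv 1228 (cons (fin 1164 4 971)
(fin 1292 4 1035)))))))))))))))))
(mv 971 (cons (fin 972 2 968)
(mv 907 (cons (fin 843 5 842)
(mv 968 (cons (fin 967 3 967)
(mv 1096 (cons (fin 1095 1 1031)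
(mv 906 (cons (fin 842 7 842)
(mv 908 (cons (fin 844 6 843)
(mv 969 (cons (fin 905 1 904)
(mv 1160 (cons (fin 1224 6 968)
(mv 1159 (cons (fin 1097 1 1095)
(fin 1223 5 967)))))))))))))))))))))))))))
(mv 1099 (cons (fin 1100 3 1033)
(mv 970 (cons (mv 971 (cons (fin 972 1 969)
(mv 906 (cons (fin 1163 4 906)
(mv 907 (cons (fin 843 6 842)
(fin 1162 6 906)))))))
(cons (mv 971 (cons (fin 972 1 969)
(mv 907 (cons (fin 1162 6 906)
(mv 843 (cons (fin 779 5 778)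
(fin 1035 5 842)))))))
(mv 906 (cons (fin 1163 4 906)
(mv 842 (cons (fin 1097 5 841)
(fin 1035 4 842)))))))))))))
(cons (cons (mv 1099 (cons (fin 1100 3 1033)
(mv 1031 (cons (fin 1032 0 1031)
(mv 969 (cons (cons (mv 1162 (cons (fin 1226 7 969)
(mv 905 (cons (fin 970 7 905)
(fin 841 4 841)))))
(mv 905 (cons (fin 841 4 841)
(mv 1097 (cons (mv 1096 (cons (fin 1160 5 904)
(mv 1095 (cons (fin 1030 3 1030)
(fin 1094 2 1030)))))
(mv 906 (cons (fin 842 6 841)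
(mv 970 (cons (fin 1161 5 905)
(fin 1163 4 906))))))))))
(cons (mv 1162 (cons (fin 1226 7 969)
(mv 970 (cons (mv 1163 (cons (fin 906 4 906)
(fin 1227 4 970)))
(cons (mv 1161 (cons (fin 1225 5 969)
(mv 906 (cons (fin 1097 5 905)
(mv 842 (cons (fin 778 5 777)
(fin 1035 4 842)))))))
(mv 1161 (cons (fin 1225 5 969)
(mv 1160 (cons (fin 1159 2 1095)
(mv 1163 (cons (fin 1227 4 970)
(mv 1224 (cons (fin 1223 1 1159)
(fin 1097 5 968))))))))))))))
(mv 1162 (cons (fin 1226 7 969)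
(mv 905 (cons (fin 841 4 841)
(fin 1097 4 905))))))))))))
(mv 1099 (cons (fin 1100 3 1033)
(mv 1031 (cons (fin 1032 0 1031)
(mv 970 (cons (cons (mv 971 (cons (fin 972 1 969)
(mv 906 (cons (fin 1163 4 906)
(mv 907 (cons (fin 843 6 842)
(fin 1162 6 906)))))))
(mv 971 (cons (fin 972 1 969)
(mv 907 (cons (fin 1162 6 906)
(mv 843 (cons (fin 779 5 778)
(fin 1035 5 842))))))))
(cons (mv 906 (cons (fin 1163 4 906)
(mv 842 (cons (fin 1035 4 842)
(mv 843 (cons (fin 779 6 778)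
(fin 907 6 842)))))))
(mv 906 (cons (fin 1163 4 906)
(mv 842 (cons (fin 1035 4 842)
(mv 841 (cons (fin 777 7 777)
(fin 905 7 841)))))))))))))))
(cons (mv 1099 (cons (fin 1100 3 1033)
(mv 1031 (cons (fin 1032 0 1031)
(mv 970 (cons (mv 971 (cons (fin 972 1 969)
(mv 906 (cons (fin 1163 4 906)
(mv 907 (cons (fin 843 6 842)
(fin 1162 6 906)))))))
(cons (mv 971 (cons (fin 972 1 969)
(mv 1162 (cons (fin 907 6 906)
(mv 969 (cons (fin 905 7 905)
(fin 1226 7 969)))))))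
(mv 906 (cons (fin 1163 4 906)
(mv 1097 (cons (fin 842 5 841)
(fin 1161 5 905))))))))))))
(cons (mv 1099 (cons (fin 1100 3 1033)
(mv 1031 (cons (fin 1032 0 1031)
(mv 1162 (cons (cons (mv 969 (cons (fin 1226 7 969)
(mv 905 (cons (fin 970 7 905)
(fin 841 4 841)))))
(mv 970 (cons (mv 971 (cons (fin 972 1 969)
(fin 907 6 906)))
(mv 1163 (cons (fin 1227 4 970)
(mv 1161 (cons (fin 1225 5 969)
(mv 1160 (cons (fin 1159 2 1095)
(mv 905 (cons (fin 969 7 905)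
(mv 1096 (cons (fin 1095 3 1095)
(mv 1224 (cons (fin 1223 1 1159)
(mv 1097 (cons (fin 1164 3 1096)
(fin 1288 6 1032))))))))))))))))))
(cons (mv 1226 (cons (mv 1035 (cons (fin 971 6 970)
(fin 1290 6 1034)))
(cons (mv 1227 (cons (fin 1291 4 1034)
(mv 970 (cons (fin 1163 4 970)
(mv 971 (cons (fin 972 1 969)
(fin 907 6 906)))))))
(mv 1290 (cons (fin 1097 7 1033)
(fin 1035 6 1034))))))
(mv 969 (cons (fin 1226 7 969)
(mv 905 (cons (fin 841 4 841)
(fin 1097 4 905))))))))))))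
(mv 1099 (cons (fin 1100 3 1033)
(mv 1031 (cons (fin 1032 0 1031)
(mv 969 (cons (cons (mv 1162 (cons (fin 1226 7 969)
(mv 905 (cons (fin 970 7 905)
(fin 841 4 841)))))
(mv 905 (cons (fin 841 4 841)
(mv 1097 (cons (mv 1096 (cons (fin 1160 5 904)
(mv 1095 (cons (fin 1030 3 1030)
(fin 1094 2 1030)))))
(mv 906 (cons (fin 842 6 841)
(mv 970 (cons (fin 1161 5 905)
(mv 971 (cons (fin 972 3 905)
(mv 907 (cons (fin 843 6 842)
(mv 968 (cons (fin 908 1 904)
(fin 967 2 903))))))))))))))))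
(cons (mv 1162 (cons (fin 1226 7 969)
(mv 970 (cons (mv 971 (cons (fin 972 1 969)
(fin 907 6 906)))
(mv 1161 (cons (fin 1225 5 969)
(mv 906 (cons (fin 1097 5 905)
(mv 842 (cons (fin 778 5 777)
(fin 1035 4 842)))))))))))
(mv 1162 (cons (fin 1226 7 969)
(mv 905 (cons (fin 841 4 841)
(fin 1097 4 905)))))))))))))))))
(mv 1098 (cons (cons (cons (mv 1099 (cons (fin 1100 3 1033)
(mv 1031 (cons (fin 1032 0 1031)
(mv 969 (cons (cons (mv 1162 (cons (fin 1226 7 969)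
(mv 905 (cons (fin 970 7 905)
(fin 841 4 841)))))
(mv 905 (cons (fin 841 4 841)
(mv 1097 (cons (cons (mv 840 (cons (fin 904 7 840)
(mv 1096 (cons (fin 1160 5 904)
(mv 1095 (cons (fin 1030 3 1030)
(fin 1094 2 1030)))))))
(mv 904 (cons (fin 840 7 840)
(mv 968 (cons (fin 1161 7 904)
(mv 967 (cons (fin 966 0 966)
(mv 970 (cons (fin 1030 1 966)
(fin 1035 0 967))))))))))
(cons (mv 1096 (cons (fin 1160 5 904)
(mv 1095 (cons (fin 1030 3 1030)
(fin 1094 2 1030)))))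
(mv 1096 (cons (fin 1160 5 904)
(mv 1095 (cons (fin 1094 2 1030)
(fin 1035 2 1031)))))))))))
(cons (mv 1162 (cons (fin 1226 7 969)
(mv 970 (cons (mv 971 (cons (fin 972 1 969)
(fin 907 6 906)))
(mv 1161 (cons (fin 1225 5 969)
(mv 1160 (cons (fin 1159 2 1095)
(mv 1163 (cons (fin 1227 4 970)
(mv 1224 (cons (fin 1223 1 1159)
(fin 1097 5 968)))))))))))))
(mv 1162 (cons (fin 1226 7 969)
(mv 905 (cons (fin 841 4 841)
(fin 1097 4 905))))))))))))
(mv 969 (cons (cons (mv 1162 (cons (fin 1226 7 969)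
(mv 905 (cons (fin 970 7 905)
(fin 841 4 841)))))
(mv 905 (cons (fin 841 4 841)
(mv 1097 (cons (mv 1096 (cons (fin 1160 5 904)
(mv 1095 (cons (fin 1094 2 1030)
(fin 1035 2 1031)))))
(cons (mv 904 (cons (fin 840 7 840)
(mv 968 (cons (fin 1161 7 904)
(mv 967 (cons (fin 966 0 966)
(mv 1035 (cons (fin 1032 3 967)
(fin 970 0 967)))))))))
(mv 1096 (cons (fin 1160 5 904)
(mv 1094 (cons (fin 1095 2 1030)
(mv 904 (cons (fin 840 7 840)
(mv 1161 (cons (fin 968 7 904)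
(mv 1225 (cons (fin 970 6 969)
(fin 1289 6 1033)))))))))))))))))
(cons (mv 1162 (cons (fin 1226 7 969)
(mv 970 (cons (mv 971 (cons (fin 972 1 969)
(fin 907 6 906)))
(mv 1163 (cons (fin 1227 4 970)
(mv 1161 (cons (fin 1225 5 969)
(mv 1164 (cons (fin 1100 2 1097)
(mv 1096 (cons (fin 1097 3 1096)
(mv 1095 (cons (fin 1160 3 1095)
(mv 1228 (cons (fin 1229 0 1161)
(mv 1032 (cons (fin 1035 1 1031)
(mv 1031 (cons (fin 1094 1 1030)
(fin 1030 2 966)))))))))))))))))))))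
(mv 1162 (cons (fin 1226 7 969)
(mv 905 (cons (fin 841 4 841)
(fin 1097 4 905)))))))))
(cons (mv 969 (cons (cons (mv 1162 (cons (fin 1226 7 969)
(mv 905 (cons (fin 970 7 905)
(fin 841 4 841)))))
(mv 905 (cons (fin 841 4 841)
(mv 1097 (cons (mv 1096 (cons (fin 1160 5 904)
(mv 1095 (cons (fin 1094 2 1030)
(fin 1035 2 1031)))))
(cons (mv 904 (cons (fin 840 7 840)
(mv 968 (cons (fin 1161 7 904)
(mv 967 (cons (fin 966 0 966)
(mv 1035 (cons (fin 1032 3 967)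
(fin 970 0 967)))))))))
(mv 840 (cons (fin 904 7 840)
(mv 1096 (cons (fin 1160 5 904)
(mv 1095 (cons (fin 1094 2 1030)
(mv 1158 (cons (fin 1159 1 1094)
(mv 1031 (cons (fin 1030 3 1030)
(mv 1032 (cons (fin 1099 3 1031)
(mv 967 (cons (fin 966 3 966)
(mv 970 (cons (fin 971 2 967)
(mv 903 (cons (fin 839 4 839)
(mv 902 (cons (fin 968 3 902)
(fin 838 7 838)))))))))))))))))))))))))))
(cons (mv 1162 (cons (fin 1226 7 969)
(mv 970 (cons (mv 971 (cons (fin 972 1 969)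
(fin 907 6 906)))
(mv 1161 (cons (fin 1225 5 969)
(mv 1163 (cons (fin 1227 4 970)
(mv 1097 (cons (mv 1096 (cons (fin 1164 3 1096)
(fin 1095 0 1095)))
(mv 1160 (cons (fin 1224 5 968)
(mv 1159 (cons (fin 1158 2 1094)
(fin 1099 2 1095)))))))))))))))
(mv 1162 (cons (fin 1226 7 969)
(mv 905 (cons (fin 841 4 841)
(fin 1097 4 905))))))))
(cons (mv 1099 (cons (fin 1100 3 1033)
(mv 1031 (cons (fin 1032 0 1031)
(mv 971 (cons (cons (mv 970 (cons (fin 972 1 969)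
(mv 907 (cons (fin 1162 6 906)
(mv 843 (cons (fin 779 5 778)
(fin 1035 5 842)))))))
(mv 1035 (cons (mv 907 (cons (fin 843 5 842)
(fin 1162 5 906)))
(cons (mv 972 (cons (fin 974 1 970)
(mv 843 (cons (fin 907 5 842)
(mv 1163 (cons (fin 908 6 907)
(mv 1227 (cons (fin 1291 7 1034)
(mv 1228 (cons (fin 1164 4 971)
(fin 1292 4 1035)))))))))))
(mv 972 (cons (fin 974 1 970)
(mv 1162 (cons (fin 1226 6 970)
(mv 1163 (cons (fin 908 6 907)
(mv 1227 (cons (fin 1291 7 1034)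
(mv 1228 (cons (fin 1164 4 971)
(fin 1292 4 1035)))))))))))))))
(cons (mv 1162 (cons (cons (mv 907 (cons (fin 1035 5 906)
(fin 970 6 906)))
(mv 970 (cons (fin 907 6 906)
(mv 1161 (cons (fin 1225 5 969)
(mv 1160 (cons (fin 1159 2 1095)
(mv 1163 (cons (fin 1227 4 970)
(mv 1224 (cons (fin 1223 1 1159)
(mv 1096 (cons (fin 1095 3 1095)
(mv 1097 (cons (fin 1164 3 1096)
(fin 1288 6 1032))))))))))))))))
(cons (mv 1226 (cons (fin 1035 6 970)
(mv 1225 (cons (fin 1289 5 1033)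
(mv 970 (cons (fin 1161 5 969)
(mv 1227 (cons (fin 1163 4 970)
(fin 1291 4 1034)))))))))
(mv 1035 (cons (fin 907 5 906)
(fin 1226 6 970))))))
(cons (mv 970 (cons (fin 972 1 969)
(mv 1162 (cons (fin 907 6 906)
(mv 1161 (cons (fin 1225 5 969)
(mv 1160 (cons (fin 1159 2 1095)
(mv 1163 (cons (fin 1227 4 970)
(mv 1224 (cons (fin 1223 1 1159)
(mv 1096 (cons (fin 1095 3 1095)
(mv 1097 (cons (fin 1164 3 1096)
(fin 1288 6 1032)))))))))))))))))
(mv 972 (cons (fin 970 1 969)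
(mv 974 (cons (fin 1035 1 970)
(mv 911 (cons (fin 910 2 907)
(mv 975 (cons (fin 912 2 908)
(fin 1039 0 972)))))))))))))))))
(mv 1099 (cons (fin 1100 3 1033)
(mv 1032 (cons (fin 1031 0 1031)
(mv 1096 (cons (cons (mv 1035 (cons (fin 1095 1 1031)
(mv 968 (cons (fin 967 3 967)
(mv 971 (cons (fin 972 2 968)
(mv 907 (cons (fin 843 5 842)
(mv 908 (cons (fin 844 6 843)
(mv 969 (cons (fin 970 2 904)
(mv 905 (cons (fin 841 5 840)
(fin 1160 6 904)))))))))))))))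
(mv 1160 (cons (cons (mv 1097 (cons (fin 1159 1 1095)
(mv 969 (cons (fin 905 5 904)
(fin 1224 6 968)))))
(mv 1097 (cons (fin 1159 1 1095)
(mv 1163 (cons (fin 1164 0 1096)
(mv 1224 (cons (fin 1288 6 1032)
(mv 1223 (cons (fin 1287 5 1031)
(mv 1225 (cons (fin 1289 4 1032)
(mv 1161 (cons (fin 968 7 968)
(fin 970 6 969))))))))))))))
(cons (mv 969 (cons (fin 1224 6 968)
(mv 905 (cons (fin 841 5 840)
(fin 968 6 904)))))
(mv 1097 (cons (fin 1159 1 1095)
(mv 1163 (cons (fin 1164 0 1096)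
(mv 905 (cons (fin 969 5 904)
(mv 1227 (cons (fin 1291 7 1034)
(mv 1035 (cons (fin 970 7 970)
(mv 971 (cons (fin 972 2 968)
(mv 843 (cons (fin 907 5 842)
(mv 968 (cons (fin 967 3 967)
(mv 904 (cons (fin 841 6 840)
(fin 840 4 840)))))))))))))))))))))))
(cons (mv 1160 (cons (cons (mv 1097 (cons (fin 1159 1 1095)
(mv 969 (cons (fin 905 5 904)
(fin 1224 6 968)))))
(mv 969 (cons (fin 1224 6 968)
(mv 905 (cons (fin 841 5 840)
(fin 968 6 904))))))
(cons (mv 1097 (cons (fin 1159 1 1095)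
(mv 1094 (cons (fin 1095 2 1030)
(mv 1224 (cons (fin 1288 6 1032)
(mv 1223 (cons (fin 1287 5 1031)
(mv 1225 (cons (fin 1289 4 1032)
(mv 1161 (cons (fin 968 7 968)
(fin 970 6 969)))))))))))))
(mv 1159 (cons (fin 1097 1 1095)
(mv 968 (cons (fin 1223 5 967)
(mv 904 (cons (fin 1095 5 903)
(mv 903 (cons (fin 839 7 839)
(fin 967 7 903))))))))))))
(mv 1095 (cons (fin 1035 1 1031)
(mv 1094 (cons (fin 1093 2 1029)
(fin 1097 2 1030)))))))))))))))
(cons (cons (mv 1099 (cons (fin 1100 3 1033)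
(mv 969 (cons (cons (mv 905 (cons (fin 841 4 841)
(mv 1162 (cons (fin 970 7 905)
(fin 1226 7 969)))))
(mv 905 (cons (fin 841 4 841)
(mv 1097 (cons (mv 1096 (cons (fin 1160 5 904)
(mv 1095 (cons (fin 1094 2 1030)
(fin 1035 2 1031)))))
(cons (mv 904 (cons (fin 840 7 840)
(mv 968 (cons (fin 1161 7 904)
(mv 967 (cons (fin 966 0 966)
(mv 970 (cons (fin 1035 0 967)
(mv 903 (cons (fin 902 3 902)
(fin 971 3 903)))))))))))
(mv 840 (cons (fin 904 7 840)
(mv 1160 (cons (fin 1096 5 904)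
(mv 1161 (cons (fin 1224 5 968)
(mv 1225 (cons (fin 970 6 969)
(fin 1289 6 1033)))))))))))))))
(cons (mv 1162 (cons (fin 1226 7 969)
(mv 970 (cons (mv 971 (cons (fin 972 1 969)
(fin 907 6 906)))
(mv 1163 (cons (fin 1227 4 970)
(mv 1161 (cons (fin 1225 5 969)
(mv 1160 (cons (fin 1159 2 1095)
(mv 1224 (cons (fin 1223 1 1159)
(fin 1097 5 968)))))))))))))
(mv 1162 (cons (fin 1226 7 969)
(mv 905 (cons (fin 841 4 841)
(fin 1097 4 905))))))))))
(cons (mv 1099 (cons (fin 1100 3 1033)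
(mv 1032 (cons (fin 1031 0 1031)
(mv 1035 (cons (cons (mv 967 (cons (fin 968 3 967)
(mv 971 (cons (fin 972 2 968)
(mv 907 (cons (fin 843 5 842)
(fin 1162 5 906)))))))
(mv 967 (cons (fin 968 3 967)
(mv 1096 (cons (fin 1095 1 1031)
(mv 1097 (cons (cons (mv 1159 (cons (fin 1160 1 1095)
(mv 1163 (cons (fin 1164 0 1096)
(mv 1227 (cons (fin 1291 7 1034)
(mv 1226 (cons (fin 1290 5 1034)
(mv 1162 (cons (fin 969 7 969)
(mv 1228 (cons (fin 1292 4 1035)
(mv 1229 (cons (fin 1161 3 1161)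
(fin 1230 3 1162)))))))))))))))
(mv 1163 (cons (fin 1164 0 1096)
(mv 1227 (cons (fin 1291 7 1034)
(mv 1226 (cons (fin 1290 5 1034)
(mv 1162 (cons (fin 969 7 969)
(mv 1228 (cons (fin 1292 4 1035)
(mv 1229 (cons (fin 1161 3 1161)
(fin 1230 3 1162))))))))))))))
(cons (mv 1160 (cons (fin 1159 1 1095)
(mv 969 (cons (fin 905 5 904)
(fin 1224 6 968)))))
(mv 1160 (cons (fin 1159 1 1095)
(mv 1163 (cons (fin 1164 0 1096)
(mv 1224 (cons (fin 1288 6 1032)
(mv 1223 (cons (fin 1287 5 1031)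
(mv 1162 (cons (fin 1161 1 1159)
(mv 1225 (cons (fin 1226 2 1159)
(fin 1289 4 1032)))))))))))))))))))))
(cons (mv 1095 (cons (fin 1096 1 1031)
(mv 971 (cons (fin 972 2 968)
(mv 907 (cons (fin 843 5 842)
(fin 1162 5 906)))))))
(mv 1096 (cons (fin 1095 1 1031)
(mv 968 (cons (fin 967 3 967)
(mv 971 (cons (fin 972 2 968)
(mv 843 (cons (fin 907 5 842)
(mv 1097 (cons (mv 904 (cons (fin 840 4 840)
(fin 1161 4 904)))
(mv 1160 (cons (fin 1159 1 1095)
(mv 969 (cons (fin 905 5 904)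
(fin 1224 6 968))))))))))))))))))))))
(mv 1099 (cons (fin 1100 3 1033)
(mv 1031 (cons (fin 1032 0 1031)
(mv 969 (cons (cons (mv 1162 (cons (fin 1226 7 969)
(mv 905 (cons (fin 970 7 905)
(fin 841 4 841)))))
(mv 905 (cons (fin 841 4 841)
(mv 1097 (cons (mv 1096 (cons (fin 1160 5 904)
(mv 1095 (cons (fin 1030 3 1030)
(fin 1094 2 1030)))))
(cons (mv 904 (cons (fin 840 7 840)
(mv 968 (cons (fin 1161 7 904)
(mv 967 (cons (fin 966 0 966)
(mv 970 (cons (fin 1030 1 966)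
(fin 1035 0 967)))))))))
(mv 840 (cons (fin 904 7 840)
(mv 1096 (cons (fin 1160 5 904)
(mv 1095 (cons (fin 1094 2 1030)
(fin 1035 2 1031)))))))))))))
(cons (mv 1162 (cons (fin 1226 7 969)
(mv 1161 (cons (cons (mv 1159 (cons (fin 1160 2 1095)
(mv 1225 (cons (fin 970 5 969)
(mv 1289 (cons (fin 1097 6 1033)
(fin 1353 6 1097)))))))
(mv 1160 (cons (fin 1159 2 1095)
(mv 1097 (cons (fin 1224 5 968)
(mv 968 (cons (fin 904 7 904)
(mv 967 (cons (fin 966 0 966)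
(mv 970 (cons (fin 1030 1 966)
(fin 1035 0 967))))))))))))
(cons (mv 1160 (cons (fin 1159 2 1095)
(mv 1224 (cons (fin 1097 5 968)
(mv 1163 (cons (fin 1223 1 1159)
(mv 1227 (cons (fin 1228 0 1160)
(fin 1291 7 1034)))))))))
(cons (mv 1225 (cons (fin 970 5 969)
(mv 1289 (cons (fin 1097 6 1033)
(fin 1353 6 1097)))))
(mv 1225 (cons (fin 970 5 969)
(mv 1160 (cons (fin 1159 2 1095)
(mv 1289 (cons (fin 1353 6 1097)
(mv 1163 (cons (mv 1224 (cons (fin 1223 1 1159)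
(fin 1164 1 1160)))
(mv 1227 (cons (fin 1228 0 1160)
(fin 1291 7 1034)))))))))))))))))
(mv 1162 (cons (fin 1226 7 969)
(mv 905 (cons (fin 841 4 841)
(fin 1097 4 905))))))))))))))
(cons (mv 1099 (cons (fin 1100 3 1033)
(mv 1031 (cons (fin 1032 0 1031)
(mv 969 (cons (cons (mv 1162 (cons (fin 1226 7 969)
(mv 905 (cons (fin 970 7 905)
(fin 841 4 841)))))
(mv 905 (cons (fin 841 4 841)
(mv 1097 (cons (cons (mv 840 (cons (fin 904 7 840)
(mv 1096 (cons (fin 1160 5 904)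
(mv 1095 (cons (fin 1030 3 1030)
(fin 1094 2 1030)))))))
(mv 904 (cons (fin 840 7 840)
(mv 968 (cons (fin 1161 7 904)
(mv 967 (cons (fin 966 0 966)
(mv 1095 (cons (fin 1159 6 903)
(mv 970 (cons (fin 1030 1 966)
(mv 903 (cons (fin 902 3 902)
(fin 971 3 903))))))))))))))
(cons (mv 1096 (cons (fin 1160 5 904)
(mv 1095 (cons (fin 1030 3 1030)
(fin 1094 2 1030)))))
(cons (mv 1096 (cons (fin 1160 5 904)
(mv 1163 (cons (fin 1164 0 1096)
(mv 904 (cons (fin 840 7 840)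
(mv 1227 (cons (fin 1291 7 1034)
(mv 968 (cons (fin 1161 7 904)
(mv 967 (cons (fin 966 0 966)
(mv 970 (cons (fin 1030 1 966)
(mv 903 (cons (fin 902 3 902)
(fin 971 3 903)))))))))))))))))
(mv 840 (cons (fin 904 7 840)
(mv 1160 (cons (fin 1096 5 904)
(mv 1161 (cons (fin 1224 5 968)
(mv 1225 (cons (fin 970 6 969)
(fin 1289 6 1033))))))))))))))))
(cons (mv 1162 (cons (fin 1226 7 969)
(mv 970 (cons (mv 971 (cons (fin 972 1 969)
(fin 907 6 906)))
(mv 1161 (cons (fin 1225 5 969)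
(mv 1160 (cons (fin 1159 2 1095)
(mv 1163 (cons (fin 1227 4 970)
(mv 1224 (cons (fin 1223 1 1159)
(fin 1097 5 968)))))))))))))
(mv 1162 (cons (fin 1226 7 969)
(mv 905 (cons (fin 841 4 841)
(fin 1097 4 905))))))))))))
(cons (mv 1099 (cons (fin 1100 3 1033)
(mv 1031 (cons (fin 1032 0 1031)
(mv 1162 (cons (mv 969 (cons (fin 1226 7 969)
(mv 905 (cons (fin 970 7 905)
(fin 841 4 841)))))
(cons (mv 971 (cons (cons (mv 907 (cons (fin 1035 5 906)
(fin 970 6 906)))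
(mv 1035 (cons (fin 907 5 906)
(mv 972 (cons (fin 974 1 970)
(mv 1163 (cons (fin 908 6 907)
(mv 1227 (cons (fin 1291 7 1034)
(mv 1228 (cons (fin 1164 4 971)
(fin 1292 4 1035))))))))))))
(cons (mv 972 (cons (fin 970 1 969)
(mv 974 (cons (fin 1035 1 970)
(mv 911 (cons (fin 910 2 907)
(mv 975 (cons (fin 912 2 908)
(fin 1039 0 972)))))))))
(mv 970 (cons (fin 972 1 969)
(fin 907 6 906))))))
(mv 1226 (cons (fin 969 7 969)
(mv 1035 (cons (fin 971 6 970)
(fin 1290 6 1034))))))))))))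
(mv 1099 (cons (fin 1100 3 1033)
(mv 1031 (cons (fin 1032 0 1031)
(mv 969 (cons (cons (mv 1162 (cons (fin 1226 7 969)
(mv 905 (cons (fin 970 7 905)
(fin 841 4 841)))))
(mv 905 (cons (fin 841 4 841)
(mv 1097 (cons (cons (mv 840 (cons (fin 904 7 840)
(mv 1096 (cons (fin 1160 5 904)
(mv 1095 (cons (fin 1030 3 1030)
(fin 1094 2 1030)))))))
(mv 904 (cons (fin 840 7 840)
(mv 968 (cons (fin 1161 7 904)
(mv 967 (cons (fin 966 0 966)
(mv 970 (cons (fin 1030 1 966)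
(fin 1035 0 967))))))))))
(cons (mv 1096 (cons (fin 1160 5 904)
(mv 1095 (cons (fin 1030 3 1030)
(fin 1094 2 1030)))))
(mv 1096 (cons (fin 1160 5 904)
(mv 1095 (cons (fin 1094 2 1030)
(fin 1035 2 1031)))))))))))
(cons (mv 1162 (cons (fin 1226 7 969)
(mv 970 (cons (mv 971 (cons (fin 972 1 969)
(fin 907 6 906)))
(mv 1161 (cons (fin 1225 5 969)
(mv 1160 (cons (fin 1159 2 1095)
(mv 1097 (cons (fin 1224 5 968)
(mv 968 (cons (fin 904 7 904)
(mv 967 (cons (fin 1030 1 966)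
(fin 966 0 966)))))))))))))))
(mv 1162 (cons (fin 1226 7 969)
(mv 905 (cons (fin 841 4 841)
(fin 1097 4 905))))))))))))))))))
(cons (mv 1098 (cons (cons (cons (mv 1099 (cons (fin 1100 3 1033)
(mv 1031 (cons (fin 1032 0 1031)
(mv 970 (cons (mv 971 (cons (fin 972 1 969)
(mv 906 (cons (fin 1163 4 906)
(mv 907 (cons (fin 843 6 842)
(fin 1162 6 906)))))))
(cons (mv 971 (cons (fin 972 1 969)
(mv 907 (cons (fin 1162 6 906)
(mv 843 (cons (fin 779 5 778)
(fin 1035 5 842)))))))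
(mv 906 (cons (fin 1163 4 906)
(mv 842 (cons (fin 1097 5 841)
(fin 1035 4 842))))))))))))
(mv 969 (cons (cons (mv 1162 (cons (fin 1226 7 969)
(mv 905 (cons (fin 970 7 905)
(fin 841 4 841)))))
(mv 1162 (cons (fin 1226 7 969)
(mv 970 (cons (mv 971 (cons (fin 972 1 969)
(fin 907 6 906)))
(cons (mv 1163 (cons (fin 1227 4 970)
(mv 1161 (cons (fin 1225 5 969)
(mv 906 (cons (fin 1097 5 905)
(mv 842 (cons (fin 778 5 777)
(mv 843 (cons (fin 779 6 778)
(fin 907 6 842)))))))))))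
(mv 1161 (cons (fin 1225 5 969)
(mv 1097 (cons (fin 906 5 905)
(mv 1163 (cons (fin 1227 4 970)
(mv 1096 (cons (fin 1164 3 1096)
(fin 1095 0 1095)))))))))))))))
(cons (mv 905 (cons (fin 841 4 841)
(mv 1097 (cons (cons (mv 840 (cons (fin 904 7 840)
(mv 842 (cons (fin 906 6 841)
(mv 1096 (cons (fin 1160 5 904)
(mv 1095 (cons (fin 1094 2 1030)
(fin 1035 2 1031)))))))))
(mv 1096 (cons (fin 1160 5 904)
(mv 1095 (cons (fin 1094 2 1030)
(fin 1035 2 1031))))))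
(cons (mv 840 (cons (fin 904 7 840)
(mv 906 (cons (fin 842 6 841)
(mv 1161 (cons (fin 970 5 905)
(mv 1224 (cons (fin 1160 5 968)
(mv 1225 (cons (fin 1288 5 1032)
(fin 1289 6 1033)))))))))))
(mv 842 (cons (fin 906 6 841)
(mv 904 (cons (fin 840 7 840)
(mv 968 (cons (fin 1161 7 904)
(mv 967 (cons (fin 966 0 966)
(mv 1035 (cons (fin 1032 3 967)
(fin 970 0 967))))))))))))))))
(mv 905 (cons (fin 841 4 841)
(mv 1162 (cons (fin 1226 7 969)
(fin 1097 4 905)))))))))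
(cons (mv 1099 (cons (fin 1100 3 1033)
(mv 1032 (cons (fin 1031 0 1031)
(mv 1035 (cons (cons (mv 967 (cons (fin 968 3 967)
(mv 971 (cons (fin 972 2 968)
(mv 907 (cons (fin 843 5 842)
(fin 1162 5 906)))))))
(mv 967 (cons (fin 968 3 967)
(mv 1096 (cons (fin 1095 1 1031)
(mv 1097 (cons (cons (mv 1159 (cons (fin 1160 1 1095)
(mv 1163 (cons (fin 1164 0 1096)
(mv 1227 (cons (fin 1291 7 1034)
(mv 1226 (cons (fin 1290 5 1034)
(mv 1162 (cons (fin 969 7 969)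
(mv 1228 (cons (fin 1292 4 1035)
(mv 1229 (cons (fin 1161 3 1161)
(fin 1230 3 1162)))))))))))))))
(mv 1163 (cons (fin 1164 0 1096)
(mv 1227 (cons (fin 1291 7 1034)
(mv 1226 (cons (fin 1290 5 1034)
(mv 1162 (cons (fin 969 7 969)
(mv 1228 (cons (fin 1292 4 1035)
(mv 1229 (cons (fin 1161 3 1161)
(fin 1230 3 1162))))))))))))))
(cons (mv 1160 (cons (fin 1159 1 1095)
(mv 969 (cons (fin 905 5 904)
(fin 1224 6 968)))))
(mv 1160 (cons (fin 1159 1 1095)
(mv 1163 (cons (fin 1164 0 1096)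
(mv 1224 (cons (fin 1288 6 1032)
(mv 1223 (cons (fin 1287 5 1031)
(mv 1162 (cons (fin 1161 1 1159)
(mv 1225 (cons (fin 1226 2 1159)
(fin 1289 4 1032)))))))))))))))))))))
(cons (mv 1095 (cons (fin 1096 1 1031)
(mv 971 (cons (fin 972 2 968)
(mv 907 (cons (fin 843 5 842)
(fin 1162 5 906)))))))
(mv 1096 (cons (fin 1095 1 1031)
(mv 968 (cons (fin 967 3 967)
(mv 971 (cons (fin 972 2 968)
(mv 843 (cons (fin 907 5 842)
(mv 1097 (cons (mv 904 (cons (fin 840 4 840)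
(fin 1161 4 904)))
(mv 1160 (cons (fin 1159 1 1095)
(mv 969 (cons (fin 905 5 904)
(fin 1224 6 968))))))))))))))))))))))
(mv 1099 (cons (fin 1100 3 1033)
(mv 1032 (cons (fin 1031 0 1031)
(mv 1035 (cons (cons (mv 967 (cons (fin 968 3 967)
(mv 971 (cons (fin 972 2 968)
(mv 907 (cons (fin 843 5 842)
(mv 1095 (cons (fin 1096 1 1031)
(mv 906 (cons (fin 842 7 842)
(mv 970 (cons (fin 1163 7 906)
(mv 905 (cons (fin 841 7 841)
(mv 1097 (cons (fin 1161 5 905)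
(mv 904 (cons (fin 903 0 903)
(mv 840 (cons (fin 839 3 839)
(fin 969 7 840)))))))))))))))))))))
(cons (mv 1096 (cons (fin 1095 1 1031)
(mv 967 (cons (fin 968 3 967)
(mv 1163 (cons (mv 1227 (cons (fin 970 7 970)
(fin 1291 7 1034)))
(mv 1097 (cons (fin 1164 0 1096)
(mv 1160 (cons (fin 1159 1 1095)
(mv 969 (cons (fin 905 5 904)
(fin 1224 6 968)))))))))))))
(mv 967 (cons (fin 968 3 967)
(mv 971 (cons (fin 972 2 968)
(mv 907 (cons (fin 843 5 842)
(mv 906 (cons (fin 842 7 842)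
(mv 970 (cons (fin 1163 7 906)
(mv 905 (cons (fin 841 7 841)
(mv 1097 (cons (fin 1161 5 905)
(mv 904 (cons (fin 903 0 903)
(mv 840 (cons (fin 839 3 839)
(fin 969 7 840)))))))))))))))))))))
(cons (mv 971 (cons (fin 972 2 968)
(mv 907 (cons (fin 843 5 842)
(mv 1095 (cons (fin 1096 1 1031)
(mv 906 (cons (fin 842 7 842)
(mv 970 (cons (fin 1163 7 906)
(mv 905 (cons (fin 841 7 841)
(mv 1097 (cons (fin 1161 5 905)
(mv 904 (cons (fin 903 0 903)
(mv 840 (cons (fin 839 3 839)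
(fin 969 7 840)))))))))))))))))))
(cons (mv 1096 (cons (fin 1095 1 1031)
(mv 968 (cons (fin 967 3 967)
(mv 971 (cons (fin 972 2 968)
(mv 843 (cons (fin 907 5 842)
(mv 1097 (cons (mv 904 (cons (fin 840 4 840)
(fin 1161 4 904)))
(mv 1160 (cons (fin 1159 1 1095)
(mv 969 (cons (fin 905 5 904)
(fin 1224 6 968)))))))))))))))
(mv 1095 (cons (fin 1096 1 1031)
(mv 967 (cons (fin 968 3 967)
(mv 971 (cons (fin 972 2 968)
(mv 907 (cons (fin 843 5 842)
(mv 906 (cons (fin 842 7 842)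
(mv 1163 (cons (fin 970 7 906)
(mv 1227 (cons (fin 1291 7 1034)
(mv 1228 (cons (fin 1164 4 971)
(fin 1292 4 1035)))))))))))))))))))))))))))
(cons (cons (mv 1099 (cons (fin 1100 3 1033)
(mv 970 (cons (mv 971 (cons (fin 972 1 969)
(mv 906 (cons (fin 1163 4 906)
(mv 907 (cons (fin 843 6 842)
(fin 1162 6 906)))))))
(cons (mv 971 (cons (fin 972 1 969)
(mv 907 (cons (fin 1162 6 906)
(mv 843 (cons (fin 779 5 778)
(fin 1035 5 842)))))))
(mv 906 (cons (fin 1163 4 906)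
(mv 842 (cons (fin 1097 5 841)
(fin 1035 4 842))))))))))
(mv 1099 (cons (fin 1100 3 1033)
(mv 1031 (cons (fin 1032 0 1031)
(mv 969 (cons (cons (mv 1162 (cons (fin 1226 7 969)
(mv 905 (cons (fin 970 7 905)
(fin 841 4 841)))))
(mv 905 (cons (fin 841 4 841)
(mv 1097 (cons (mv 840 (cons (fin 904 7 840)
(mv 842 (cons (fin 906 6 841)
(mv 1096 (cons (fin 1160 5 904)
(mv 1095 (cons (fin 1030 3 1030)
(fin 1094 2 1030)))))))))
(cons (mv 840 (cons (fin 904 7 840)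
(mv 906 (cons (fin 842 6 841)
(mv 970 (cons (fin 1161 5 905)
(fin 1163 4 906)))))))
(mv 1096 (cons (fin 1160 5 904)
(mv 1095 (cons (fin 1030 3 1030)
(fin 1094 2 1030)))))))))))
(cons (mv 1162 (cons (fin 1226 7 969)
(mv 970 (cons (mv 1163 (cons (fin 906 4 906)
(fin 1227 4 970)))
(cons (mv 1161 (cons (fin 1225 5 969)
(mv 906 (cons (fin 1097 5 905)
(mv 842 (cons (fin 778 5 777)
(fin 1035 4 842)))))))
(mv 1161 (cons (fin 1225 5 969)
(mv 1160 (cons (fin 1159 2 1095)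
(mv 1163 (cons (fin 1227 4 970)
(mv 1224 (cons (fin 1223 1 1159)
(fin 1097 5 968))))))))))))))
(mv 1162 (cons (fin 1226 7 969)
(mv 905 (cons (fin 841 4 841)
(fin 1097 4 905)))))))))))))
(cons (mv 1099 (cons (fin 1100 3 1033)
(mv 1031 (cons (fin 1032 0 1031)
(mv 970 (cons (cons (mv 971 (cons (fin 972 1 969)
(mv 906 (cons (fin 1163 4 906)
(mv 907 (cons (fin 843 6 842)
(fin 1162 6 906)))))))
(mv 971 (cons (fin 972 1 969)
(mv 907 (cons (fin 1162 6 906)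
(mv 843 (cons (fin 779 5 778)
(fin 1035 5 842))))))))
(cons (mv 906 (cons (fin 1163 4 906)
(mv 842 (cons (fin 1035 4 842)
(mv 843 (cons (fin 779 6 778)
(fin 907 6 842)))))))
(mv 906 (cons (fin 1163 4 906)
(mv 842 (cons (fin 1035 4 842)
(mv 841 (cons (fin 777 7 777)
(fin 905 7 841))))))))))))))
(cons (mv 1099 (cons (fin 1100 3 1033)
(mv 1031 (cons (fin 1032 0 1031)
(mv 970 (cons (mv 971 (cons (fin 972 1 969)
(mv 906 (cons (fin 1163 4 906)
(mv 907 (cons (fin 843 6 842)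
(fin 1162 6 906)))))))
(cons (mv 971 (cons (fin 972 1 969)
(mv 1162 (cons (fin 907 6 906)
(mv 969 (cons (fin 905 7 905)
(fin 1226 7 969)))))))
(mv 906 (cons (fin 1163 4 906)
(mv 1097 (cons (fin 842 5 841)
(fin 1161 5 905))))))))))))
(mv 1099 (cons (fin 1100 3 1033)
(mv 1031 (cons (fin 1032 0 1031)
(mv 969 (cons (cons (mv 1162 (cons (fin 1226 7 969)
(mv 905 (cons (fin 970 7 905)
(fin 841 4 841)))))
(mv 905 (cons (fin 841 4 841)
(mv 1097 (cons (cons (mv 840 (cons (fin 904 7 840)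
(mv 842 (cons (fin 906 6 841)
(mv 1096 (cons (fin 1160 5 904)
(mv 1095 (cons (fin 1030 3 1030)
(fin 1094 2 1030)))))))))
(mv 840 (cons (fin 904 7 840)
(mv 906 (cons (fin 842 6 841)
(mv 1161 (cons (fin 970 5 905)
(mv 1224 (cons (fin 1160 5 968)
(mv 1225 (cons (fin 1288 5 1032)
(fin 1289 6 1033))))))))))))
(cons (mv 1096 (cons (fin 1160 5 904)
(mv 1095 (cons (fin 1030 3 1030)
(fin 1094 2 1030)))))
(mv 904 (cons (fin 840 7 840)
(mv 842 (cons (fin 906 6 841)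
(mv 968 (cons (fin 1161 7 904)
(mv 967 (cons (fin 966 0 966)
(mv 970 (cons (fin 1030 1 966)
(fin 1035 0 967)))))))))))))))))
(cons (mv 1162 (cons (fin 1226 7 969)
(mv 970 (cons (mv 971 (cons (fin 972 1 969)
(fin 907 6 906)))
(mv 1161 (cons (fin 1225 5 969)
(mv 906 (cons (fin 1097 5 905)
(mv 842 (cons (fin 778 5 777)
(fin 1035 4 842)))))))))))
(mv 1162 (cons (fin 1226 7 969)
(mv 905 (cons (fin 841 4 841)
(fin 1097 4 905)))))))))))))))))
(mv 970 (cons (cons (cons (mv 971 (cons (fin 972 1 969)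
(mv 1031 (cons (fin 1032 2 967)
(mv 1098 (cons (mv 1099 (cons (fin 1100 3 1033)
(mv 907 (cons (fin 1162 6 906)
(mv 906 (cons (fin 843 6 842)
(fin 1163 4 906)))))))
(cons (mv 1099 (cons (fin 1100 3 1033)
(mv 906 (cons (fin 1163 4 906)
(mv 842 (cons (fin 1097 5 841)
(fin 1035 4 842)))))))
(mv 907 (cons (fin 1162 6 906)
(mv 843 (cons (fin 779 5 778)
(fin 1035 5 842))))))))))))
(mv 906 (cons (cons (mv 842 (cons (fin 1097 5 841)
(mv 778 (cons (fin 969 5 777)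
(mv 777 (cons (fin 713 7 713)
(fin 841 7 777)))))))
(mv 1098 (cons (mv 1099 (cons (fin 1100 3 1033)
(fin 1163 4 906)))
(cons (mv 843 (cons (fin 907 6 842)
(mv 1161 (cons (fin 1097 5 905)
(mv 1162 (cons (fin 1225 5 969)
(mv 1226 (cons (fin 969 7 969)
(mv 1227 (cons (fin 1163 4 970)
(fin 1291 4 1034)))))))))))
(mv 843 (cons (fin 907 6 842)
(mv 1099 (cons (fin 1100 3 1033)
(mv 1161 (cons (fin 1097 5 905)
(mv 1031 (cons (fin 1032 0 1031)
(mv 1162 (cons (fin 1225 5 969)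
(mv 1226 (cons (fin 969 7 969)
(mv 1159 (cons (fin 1160 2 1095)
(mv 1291 (cons (fin 1227 4 1034)
(mv 1290 (cons (fin 1035 6 1034)
(fin 1355 4 1098)))))))))))))))))))))))
(cons (mv 842 (cons (mv 778 (cons (fin 969 5 777)
(mv 777 (cons (fin 713 7 713)
(fin 841 7 777)))))
(cons (mv 777 (cons (fin 841 7 777)
(mv 779 (cons (fin 843 6 778)
(mv 1099 (cons (fin 1035 4 842)
(mv 1098 (cons (fin 1100 3 1033)
(fin 1163 4 906)))))))))
(mv 1035 (cons (fin 1099 4 842)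
(mv 778 (cons (fin 969 5 777)
(mv 779 (cons (fin 715 6 714)
(fin 843 6 778))))))))))
(mv 842 (cons (fin 1097 5 841)
(mv 777 (cons (fin 841 7 777)
(mv 713 (cons (fin 778 7 713)
(mv 1099 (cons (fin 1035 4 842)
(mv 1098 (cons (fin 1100 3 1033)
(fin 1163 4 906)))))))))))))))
(cons (mv 971 (cons (fin 972 1 969)
(mv 1031 (cons (fin 1032 2 967)
(mv 1098 (cons (cons (mv 1099 (cons (fin 1100 3 1033)
(mv 906 (cons (fin 1163 4 906)
(mv 907 (cons (fin 843 6 842)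
(fin 1162 6 906)))))))
(mv 1099 (cons (fin 1100 3 1033)
(mv 906 (cons (fin 1163 4 906)
(mv 842 (cons (fin 1035 4 842)
(mv 843 (cons (fin 779 6 778)
(fin 907 6 842))))))))))
(cons (mv 1099 (cons (fin 1100 3 1033)
(mv 906 (cons (fin 1163 4 906)
(mv 842 (cons (fin 1035 4 842)
(mv 779 (cons (fin 843 6 778)
(mv 778 (cons (fin 969 5 777)
(fin 715 6 714)))))))))))
(cons (mv 907 (cons (fin 1162 6 906)
(mv 843 (cons (fin 779 5 778)
(fin 1035 5 842)))))
(mv 907 (cons (fin 1162 6 906)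
(mv 1099 (cons (fin 1100 3 1033)
(mv 906 (cons (fin 1163 4 906)
(mv 842 (cons (fin 1035 7 842)
(mv 778 (cons (fin 969 5 777)
(fin 714 4 714)))))))))))))))))))
(cons (mv 971 (cons (fin 972 1 969)
(mv 1098 (cons (mv 1099 (cons (fin 1100 3 1033)
(mv 907 (cons (fin 1162 6 906)
(mv 906 (cons (fin 843 6 842)
(fin 1163 4 906)))))))
(cons (mv 1099 (cons (fin 1100 3 1033)
(mv 906 (cons (fin 1163 4 906)
(mv 842 (cons (fin 1097 5 841)
(fin 1035 4 842)))))))
(mv 907 (cons (fin 1162 6 906)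
(mv 843 (cons (fin 779 5 778)
(fin 1035 5 842))))))))))
(mv 971 (cons (fin 972 1 969)
(mv 1032 (cons (fin 1031 2 967)
(mv 1035 (cons (cons (mv 967 (cons (fin 968 3 967)
(mv 1099 (cons (fin 1100 0 1032)
(mv 906 (cons (fin 1163 7 906)
(fin 842 4 842)))))))
(mv 968 (cons (fin 967 3 967)
(mv 1095 (cons (fin 1096 1 1031)
(mv 904 (cons (cons (mv 903 (cons (fin 969 3 903)
(mv 840 (cons (fin 1097 4 840)
(mv 777 (cons (fin 841 6 776)
(mv 776 (cons (fin 713 6 712)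
(mv 775 (cons (fin 711 7 711)
(fin 839 7 775)))))))))))
(mv 969 (cons (fin 903 3 903)
(mv 907 (cons (fin 908 2 904)
(mv 840 (cons (fin 776 4 776)
(mv 779 (cons (fin 843 5 778)
(mv 839 (cons (fin 775 7 775)
(mv 841 (cons (fin 777 6 776)
(mv 842 (cons (fin 778 2 775)
(fin 906 0 839))))))))))))))))
(cons (mv 840 (cons (fin 1097 4 840)
(mv 777 (cons (fin 841 6 776)
(mv 776 (cons (fin 713 6 712)
(mv 775 (cons (fin 711 7 711)
(fin 839 7 775)))))))))
(mv 969 (cons (fin 903 3 903)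
(mv 907 (cons (fin 908 2 904)
(mv 1097 (cons (fin 1161 7 904)
(mv 843 (cons (fin 779 5 778)
(mv 842 (cons (fin 778 7 778)
(fin 906 5 841)))))))))))))))))))
(cons (mv 1095 (cons (fin 1096 1 1031)
(mv 1099 (cons (fin 1100 0 1032)
(mv 906 (cons (fin 1163 7 906)
(fin 842 4 842)))))))
(mv 1099 (cons (fin 1100 0 1032)
(mv 1163 (cons (fin 1227 7 970)
(mv 967 (cons (fin 968 3 967)
(mv 1164 (cons (fin 1228 4 971)
(mv 1162 (cons (fin 1226 5 970)
(mv 1096 (cons (fin 1095 1 1031)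
(mv 1161 (cons (fin 1097 3 1096)
(mv 1224 (cons (fin 1225 1 1160)
(mv 1160 (cons (fin 1223 1 1159)
(fin 969 6 968)))))))))))))))))))))))))))))
(cons (cons (mv 971 (cons (fin 972 1 969)
(mv 1032 (cons (fin 1031 2 967)
(mv 1035 (cons (cons (mv 967 (cons (fin 968 3 967)
(mv 1099 (cons (fin 1100 0 1032)
(mv 1163 (cons (fin 1227 7 970)
(mv 1095 (cons (fin 1096 1 1031)
(mv 1164 (cons (fin 1228 4 971)
(mv 1162 (cons (fin 1226 5 970)
(mv 907 (cons (fin 1098 5 906)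
(mv 843 (cons (fin 779 5 778)
(mv 844 (cons (fin 780 6 779)
(fin 908 6 843)))))))))))))))))))
(cons (mv 968 (cons (fin 967 3 967)
(mv 1095 (cons (fin 1096 1 1031)
(mv 907 (cons (mv 843 (cons (fin 779 5 778)
(fin 1098 5 842)))
(cons (mv 969 (cons (fin 908 2 904)
(mv 1098 (cons (fin 1162 6 906)
(mv 904 (cons (fin 903 3 903)
(mv 840 (cons (fin 776 4 776)
(fin 1097 4 840)))))))))
(mv 779 (cons (fin 843 5 778)
(mv 969 (cons (fin 908 2 904)
(mv 904 (cons (fin 903 3 903)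
(mv 840 (cons (fin 776 4 776)
(fin 1097 4 840))))))))))))))))
(mv 1095 (cons (fin 1096 1 1031)
(mv 1099 (cons (fin 1100 0 1032)
(mv 1163 (cons (fin 1227 7 970)
(mv 1162 (cons (fin 1226 5 970)
(mv 907 (cons (fin 1098 5 906)
(mv 843 (cons (fin 779 5 778)
(mv 844 (cons (fin 780 6 779)
(fin 908 6 843)))))))))))))))))
(cons (mv 1099 (cons (fin 1100 0 1032)
(mv 1163 (cons (fin 1227 7 970)
(mv 967 (cons (fin 968 3 967)
(mv 1164 (cons (fin 1228 4 971)
(mv 1162 (cons (fin 1226 5 970)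
(mv 907 (cons (fin 1098 5 906)
(mv 843 (cons (fin 779 5 778)
(mv 844 (cons (fin 780 6 779)
(fin 908 6 843)))))))))))))))))
(cons (mv 1099 (cons (fin 1100 0 1032)
(mv 1163 (cons (fin 1227 7 970)
(mv 967 (cons (fin 968 3 967)
(mv 1164 (cons (fin 1228 4 971)
(mv 1162 (cons (fin 1226 5 970)
(mv 1096 (cons (fin 1095 1 1031)
(mv 1161 (cons (fin 1097 3 1096)
(mv 1224 (cons (fin 1225 1 1160)
(mv 1160 (cons (fin 1223 1 1159)
(fin 969 6 968)))))))))))))))))))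
(mv 1099 (cons (fin 1100 0 1032)
(mv 1163 (cons (fin 1227 7 970)
(mv 1096 (cons (fin 1095 1 1031)
(mv 1164 (cons (fin 1228 4 971)
(mv 1097 (cons (fin 1098 0 1096)
(mv 968 (cons (fin 967 3 967)
(mv 1161 (cons (fin 1225 7 968)
(fin 904 4 904)))))))))))))))))))))))
(cons (mv 971 (cons (fin 972 1 969)
(mv 1032 (cons (fin 1031 2 967)
(mv 968 (cons (cons (mv 967 (cons (fin 1035 3 967)
(mv 966 (cons (fin 965 0 965)
(fin 969 0 966)))))
(mv 1097 (cons (mv 1161 (cons (fin 1225 7 968)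
(mv 906 (cons (fin 842 5 841)
(fin 1098 5 905)))))
(cons (mv 904 (cons (fin 840 4 840)
(mv 842 (cons (fin 906 5 841)
(mv 903 (cons (fin 969 3 903)
(mv 1096 (cons (fin 839 7 839)
(mv 1095 (cons (fin 1035 1 1031)
(fin 1094 2 1030)))))))))))
(mv 904 (cons (fin 840 4 840)
(mv 1161 (cons (fin 969 7 904)
(fin 1225 7 968)))))))))
(cons (mv 1097 (cons (mv 1161 (cons (fin 1225 7 968)
(mv 906 (cons (fin 842 5 841)
(fin 1098 5 905)))))
(cons (mv 842 (cons (fin 906 5 841)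
(mv 904 (cons (fin 840 4 840)
(mv 903 (cons (fin 969 3 903)
(mv 839 (cons (fin 1096 7 839)
(mv 775 (cons (fin 711 4 711)
(fin 967 4 775)))))))))))
(mv 904 (cons (fin 840 4 840)
(mv 1161 (cons (fin 969 7 904)
(fin 1225 7 968))))))))
(mv 1035 (cons (fin 967 3 967)
(mv 1096 (cons (fin 1095 1 1031)
(mv 1161 (cons (mv 1097 (cons (fin 1225 7 968)
(fin 904 4 904)))
(cons (mv 1160 (cons (fin 1225 4 968)
(mv 1223 (cons (fin 1159 5 967)
(mv 1224 (cons (fin 1287 5 1031)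
(mv 1221 (cons (fin 1222 2 1157)
(mv 1162 (cons (fin 1163 1 1159)
(mv 1098 (cons (fin 907 6 906)
(fin 1226 6 970)))))))))))))
(mv 1097 (cons (fin 904 4 904)
(mv 906 (cons (fin 842 5 841)
(fin 1098 5 905)))))))))))))))))))
(mv 971 (cons (fin 972 1 969)
(mv 1031 (cons (fin 1032 2 967)
(mv 1098 (cons (cons (mv 1099 (cons (fin 1100 3 1033)
(mv 907 (cons (fin 1162 6 906)
(mv 906 (cons (fin 843 6 842)
(fin 1163 4 906)))))))
(mv 1099 (cons (fin 1100 3 1033)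
(mv 906 (cons (fin 1163 4 906)
(mv 1097 (cons (fin 842 5 841)
(fin 1161 5 905))))))))
(cons (mv 907 (cons (fin 1162 6 906)
(mv 843 (cons (fin 779 5 778)
(fin 906 6 842)))))
(mv 1162 (cons (fin 907 6 906)
(mv 1099 (cons (fin 1100 3 1033)
(mv 1163 (cons (fin 1227 4 970)
(mv 969 (cons (fin 1226 7 969)
(mv 1161 (cons (fin 1225 5 969)
(mv 1160 (cons (fin 1159 2 1095)
(mv 1224 (cons (fin 1223 1 1159)
(fin 1097 5 968))))))))))))))))))))))))
(cons (mv 971 (cons (fin 972 1 969)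
(mv 1031 (cons (fin 1032 2 967)
(mv 906 (cons (mv 842 (cons (fin 1097 5 841)
(mv 778 (cons (fin 969 5 777)
(fin 1035 4 778)))))
(cons (mv 1099 (cons (cons (mv 1098 (cons (fin 1100 3 1033)
(fin 1163 4 906)))
(mv 1035 (cons (fin 1163 7 906)
(mv 1100 (cons (fin 1102 3 1034)
(mv 907 (cons (fin 1164 4 907)
(mv 844 (cons (fin 908 6 843)
(mv 843 (cons (fin 779 5 778)
(fin 780 6 779))))))))))))
(cons (mv 1100 (cons (fin 1098 3 1033)
(mv 1035 (cons (fin 1102 3 1034)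
(mv 907 (cons (fin 1164 4 907)
(mv 844 (cons (fin 908 6 843)
(mv 843 (cons (fin 779 5 778)
(fin 780 6 779)))))))))))
(mv 1163 (cons (fin 1035 7 906)
(fin 1098 4 906))))))
(mv 842 (cons (fin 1097 5 841)
(mv 778 (cons (fin 969 5 777)
(mv 777 (cons (fin 713 7 713)
(fin 841 7 777))))))))))))))
(cons (mv 971 (cons (fin 972 1 969)
(mv 1031 (cons (fin 1032 2 967)
(mv 906 (cons (cons (mv 842 (cons (fin 1097 5 841)
(mv 778 (cons (fin 969 5 777)
(fin 1035 4 778)))))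
(mv 1098 (cons (mv 1099 (cons (fin 1100 3 1033)
(fin 1163 4 906)))
(mv 1161 (cons (fin 1097 5 905)
(mv 1162 (cons (fin 1225 5 969)
(mv 1226 (cons (fin 969 7 969)
(fin 1035 6 970))))))))))
(cons (mv 842 (cons (mv 778 (cons (fin 969 5 777)
(fin 1035 4 778)))
(cons (mv 777 (cons (fin 841 7 777)
(mv 779 (cons (fin 843 6 778)
(mv 1099 (cons (fin 1035 4 842)
(mv 1098 (cons (fin 1100 3 1033)
(fin 1163 4 906)))))))))
(mv 778 (cons (fin 969 5 777)
(mv 777 (cons (fin 713 7 713)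
(fin 841 7 777))))))))
(cons (mv 842 (cons (fin 1097 5 841)
(mv 778 (cons (fin 969 5 777)
(mv 777 (cons (fin 713 7 713)
(fin 841 7 777)))))))
(mv 842 (cons (fin 1097 5 841)
(mv 1035 (cons (fin 778 4 778)
(fin 1099 4 842)))))))))))))
(mv 971 (cons (fin 972 1 969)
(mv 1032 (cons (fin 1031 2 967)
(mv 968 (cons (cons (mv 967 (cons (fin 1035 3 967)
(mv 966 (cons (fin 965 0 965)
(fin 969 0 966)))))
(mv 1097 (cons (mv 1161 (cons (fin 1225 7 968)
(mv 906 (cons (fin 842 5 841)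
(fin 1098 5 905)))))
(cons (mv 904 (cons (fin 840 4 840)
(mv 842 (cons (fin 906 5 841)
(mv 903 (cons (fin 969 3 903)
(mv 839 (cons (fin 1096 7 839)
(mv 775 (cons (fin 711 4 711)
(fin 967 4 775)))))))))))
(mv 904 (cons (fin 840 4 840)
(mv 1161 (cons (fin 969 7 904)
(fin 1225 7 968)))))))))
(cons (mv 1097 (cons (mv 1161 (cons (fin 1225 7 968)
(mv 906 (cons (fin 842 5 841)
(fin 1098 5 905)))))
(cons (mv 842 (cons (fin 906 5 841)
(mv 904 (cons (fin 840 4 840)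
(mv 903 (cons (fin 969 3 903)
(mv 1096 (cons (fin 839 7 839)
(mv 1095 (cons (fin 1035 1 1031)
(fin 1094 2 1030)))))))))))
(mv 904 (cons (fin 840 4 840)
(mv 1161 (cons (fin 969 7 904)
(fin 1225 7 968))))))))
(mv 1035 (cons (fin 967 3 967)
(mv 1096 (cons (fin 1095 1 1031)
(mv 1099 (cons (fin 1100 0 1032)
(mv 842 (cons (fin 906 4 842)
(mv 1160 (cons (cons (mv 1159 (cons (fin 1223 5 967)
(mv 1097 (cons (fin 1098 1 1095)
(mv 904 (cons (fin 840 4 840)
(fin 1161 4 904)))))))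
(mv 1159 (cons (fin 1223 5 967)
(mv 1098 (cons (fin 1097 1 1095)
(mv 907 (cons (fin 843 5 842)
(fin 1162 5 906))))))))
(cons (mv 1225 (cons (fin 1161 4 968)
(mv 1224 (cons (fin 1289 4 1032)
(mv 1288 (cons (fin 1097 6 1032)
(mv 1287 (cons (fin 1223 5 1031)
(fin 1351 5 1095)))))))))
(cons (mv 1161 (cons (fin 1225 4 968)
(mv 1097 (cons (fin 904 4 904)
(mv 1224 (cons (fin 1288 6 1032)
(mv 1098 (cons (fin 1159 1 1095)
(mv 1162 (cons (fin 907 5 906)
(fin 1226 6 970)))))))))))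
(mv 1225 (cons (fin 1161 4 968)
(mv 1223 (cons (fin 1159 5 967)
(mv 1224 (cons (fin 1287 5 1031)
(fin 1289 4 1032))))))))))))))))))))))))))))))))))
(cons (cons (mv 970 (cons (cons (cons (mv 971 (cons (fin 972 1 969)
(mv 1031 (cons (fin 1032 2 967)
(mv 1097 (cons (cons (mv 906 (cons (fin 842 5 841)
(mv 1161 (cons (fin 1098 5 905)
(fin 969 6 905)))))
(mv 1161 (cons (fin 1225 6 969)
(mv 969 (cons (cons (mv 904 (cons (fin 968 7 904)
(mv 905 (cons (fin 840 7 840)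
(mv 1162 (cons (fin 1098 7 905)
(fin 1226 4 969)))))))
(mv 1162 (cons (fin 1226 4 969)
(mv 905 (cons (fin 1098 7 905)
(mv 1160 (cons (fin 1096 5 904)
(fin 1224 5 968))))))))
(cons (mv 1160 (cons (fin 1224 5 968)
(mv 905 (cons (fin 1096 5 904)
(mv 904 (cons (fin 840 7 840)
(fin 968 7 904)))))))
(mv 968 (cons (fin 904 7 904)
(mv 967 (cons (fin 1030 1 966)
(fin 966 0 966)))))))))))
(cons (mv 906 (cons (fin 842 5 841)
(mv 1098 (cons (mv 1099 (cons (fin 1100 3 1033)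
(fin 1163 4 906)))
(mv 905 (cons (fin 841 7 841)
(mv 903 (cons (fin 904 0 903)
(mv 969 (cons (fin 1162 7 905)
(mv 1096 (cons (fin 1160 5 904)
(mv 1095 (cons (fin 1030 3 1030)
(fin 1094 2 1030)))))))))))))))
(cons (mv 906 (cons (fin 842 5 841)
(mv 1161 (cons (fin 969 6 905)
(fin 1225 6 969)))))
(mv 1161 (cons (fin 1225 6 969)
(mv 906 (cons (fin 842 5 841)
(fin 1098 5 905)))))))))))))
(cons (mv 1097 (cons (cons (mv 906 (cons (fin 842 5 841)
(mv 1161 (cons (fin 1098 5 905)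
(fin 969 6 905)))))
(mv 906 (cons (fin 842 5 841)
(mv 1098 (cons (mv 1099 (cons (fin 1100 3 1033)
(fin 1163 4 906)))
(mv 905 (cons (fin 841 7 841)
(mv 969 (cons (fin 1162 7 905)
(mv 840 (cons (fin 904 7 840)
(mv 1096 (cons (fin 1160 5 904)
(mv 1095 (cons (fin 1094 2 1030)
(fin 1035 2 1031))))))))))))))))
(cons (mv 1161 (cons (fin 1225 6 969)
(mv 969 (cons (cons (mv 904 (cons (fin 968 7 904)
(mv 905 (cons (fin 840 7 840)
(mv 1162 (cons (fin 1098 7 905)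
(fin 1226 4 969)))))))
(mv 904 (cons (fin 968 7 904)
(mv 905 (cons (fin 840 7 840)
(mv 1160 (cons (fin 1096 5 904)
(fin 1224 5 968))))))))
(cons (mv 1160 (cons (fin 1224 5 968)
(mv 905 (cons (fin 1096 5 904)
(mv 1162 (cons (fin 1098 7 905)
(fin 1226 4 969)))))))
(mv 1162 (cons (fin 1226 4 969)
(mv 968 (cons (fin 904 7 904)
(mv 967 (cons (fin 966 0 966)
(fin 1035 0 967))))))))))))
(cons (mv 1161 (cons (fin 1225 6 969)
(mv 906 (cons (fin 842 5 841)
(fin 969 6 905)))))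
(mv 906 (cons (fin 842 5 841)
(mv 1161 (cons (fin 1098 5 905)
(fin 1225 6 969)))))))))
(mv 971 (cons (fin 972 1 969)
(mv 1032 (cons (fin 1031 2 967)
(mv 1035 (cons (cons (mv 967 (cons (fin 968 3 967)
(mv 1099 (cons (fin 1100 0 1032)
(mv 906 (cons (fin 1163 7 906)
(fin 842 4 842)))))))
(mv 968 (cons (fin 967 3 967)
(mv 1096 (cons (fin 1095 1 1031)
(mv 1160 (cons (mv 969 (cons (fin 905 6 904)
(fin 1224 6 968)))
(cons (mv 1223 (cons (fin 1159 5 967)
(mv 1225 (cons (fin 1161 4 968)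
(mv 1224 (cons (fin 1287 5 1031)
(fin 1289 4 1032)))))))
(mv 1159 (cons (fin 1223 5 967)
(mv 905 (cons (fin 969 6 904)
(mv 841 (cons (fin 904 6 840)
(mv 906 (cons (fin 1098 7 841)
(mv 777 (cons (fin 842 7 777)
(fin 713 4 713)))))))))))))))))))
(cons (mv 1095 (cons (fin 1096 1 1031)
(mv 1099 (cons (fin 1100 0 1032)
(mv 906 (cons (fin 1163 7 906)
(fin 842 4 842)))))))
(mv 1096 (cons (fin 1095 1 1031)
(mv 968 (cons (fin 967 3 967)
(mv 1099 (cons (fin 1100 0 1032)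
(mv 1163 (cons (fin 1227 7 970)
(mv 1162 (cons (fin 1226 5 970)
(mv 1164 (cons (fin 1228 4 971)
(mv 969 (cons (mv 905 (cons (fin 1098 7 905)
(fin 841 5 840)))
(cons (mv 1160 (cons (fin 1224 6 968)
(mv 1159 (cons (fin 1223 5 967)
(mv 1161 (cons (fin 1098 2 1095)
(fin 1225 4 968)))))))
(mv 1160 (cons (fin 905 6 904)
(fin 1224 6 968)))))))))))))))))))))))))))
(cons (cons (mv 971 (cons (fin 972 1 969)
(mv 1032 (cons (fin 1031 2 967)
(mv 1035 (cons (cons (mv 967 (cons (fin 968 3 967)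
(mv 1099 (cons (fin 1100 0 1032)
(mv 906 (cons (fin 1163 7 906)
(fin 842 4 842)))))))
(mv 968 (cons (fin 967 3 967)
(mv 1095 (cons (fin 1096 1 1031)
(mv 904 (cons (cons (mv 903 (cons (fin 969 3 903)
(mv 840 (cons (fin 1097 4 840)
(mv 777 (cons (fin 841 6 776)
(mv 776 (cons (fin 713 6 712)
(mv 775 (cons (fin 711 7 711)
(fin 839 7 775)))))))))))
(mv 903 (cons (fin 969 3 903)
(mv 906 (cons (fin 905 0 903)
(mv 842 (cons (fin 778 4 778)
(mv 843 (cons (fin 779 6 778)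
(mv 841 (cons (fin 840 1 839)
(fin 777 7 777))))))))))))
(cons (mv 903 (cons (fin 969 3 903)
(mv 906 (cons (fin 905 0 903)
(mv 842 (cons (fin 1097 5 841)
(fin 778 4 778)))))))
(mv 840 (cons (fin 1097 4 840)
(mv 777 (cons (fin 841 6 776)
(mv 776 (cons (fin 713 6 712)
(mv 775 (cons (fin 711 7 711)
(fin 839 7 775)))))))))))))))))
(cons (mv 1095 (cons (fin 1096 1 1031)
(mv 1099 (cons (fin 1100 0 1032)
(mv 906 (cons (fin 1163 7 906)
(fin 842 4 842)))))))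
(mv 1099 (cons (fin 1100 0 1032)
(mv 1163 (cons (fin 1227 7 970)
(mv 967 (cons (fin 968 3 967)
(mv 1164 (cons (fin 1228 4 971)
(mv 1162 (cons (fin 1226 5 970)
(mv 1096 (cons (fin 1095 1 1031)
(mv 1161 (cons (fin 1097 3 1096)
(mv 1224 (cons (fin 1225 1 1160)
(mv 1160 (cons (fin 1223 1 1159)
(fin 969 6 968))))))))))))))))))))))))))
(mv 971 (cons (fin 972 1 969)
(mv 1032 (cons (fin 1031 2 967)
(mv 1035 (cons (cons (mv 967 (cons (fin 968 3 967)
(mv 1099 (cons (fin 1100 0 1032)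
(mv 1163 (cons (fin 1227 7 970)
(mv 1096 (cons (fin 1095 1 1031)
(mv 1164 (cons (fin 1228 4 971)
(mv 1097 (cons (fin 1098 0 1096)
(mv 1162 (cons (fin 1161 3 1096)
(fin 1226 5 970)))))))))))))))
(cons (mv 968 (cons (fin 967 3 967)
(mv 1096 (cons (fin 1095 1 1031)
(mv 904 (cons (mv 903 (cons (fin 969 3 903)
(fin 839 7 839)))
(mv 1097 (cons (fin 840 4 840)
(fin 1161 4 904)))))))))
(mv 1096 (cons (fin 1095 1 1031)
(mv 1099 (cons (fin 1100 0 1032)
(mv 1163 (cons (fin 1227 7 970)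
(mv 1162 (cons (fin 1226 5 970)
(mv 1164 (cons (fin 1228 4 971)
(mv 1097 (cons (fin 1161 3 1096)
(fin 1098 0 1096)))))))))))))))
(cons (mv 1099 (cons (fin 1100 0 1032)
(mv 1163 (cons (fin 1227 7 970)
(mv 968 (cons (fin 967 3 967)
(mv 1164 (cons (fin 1228 4 971)
(mv 904 (cons (cons (mv 1162 (cons (fin 1226 5 970)
(mv 969 (cons (fin 903 3 903)
(mv 840 (cons (fin 776 4 776)
(fin 1097 4 840)))))))
(mv 1162 (cons (fin 1226 5 970)
(mv 969 (cons (fin 903 3 903)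
(mv 1161 (cons (fin 1097 7 904)
(mv 1098 (cons (fin 905 7 905)
(fin 1225 5 969))))))))))
(cons (mv 840 (cons (mv 969 (cons (fin 903 3 903)
(fin 776 4 776)))
(cons (mv 1162 (cons (fin 1226 5 970)
(mv 777 (cons (fin 841 6 776)
(mv 776 (cons (fin 713 6 712)
(mv 775 (cons (fin 711 7 711)
(fin 839 7 775)))))))))
(mv 839 (cons (fin 775 7 775)
(mv 841 (cons (fin 777 6 776)
(mv 903 (cons (fin 969 3 903)
(mv 842 (cons (fin 902 1 838)
(fin 843 1 839))))))))))))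
(cons (mv 1162 (cons (fin 1226 5 970)
(mv 840 (cons (fin 1097 4 840)
(mv 777 (cons (fin 841 6 776)
(mv 776 (cons (fin 713 6 712)
(mv 775 (cons (fin 711 7 711)
(fin 839 7 775)))))))))))
(mv 840 (cons (fin 1097 4 840)
(mv 969 (cons (fin 903 3 903)
(fin 776 4 776)))))))))))))))))
(cons (mv 1096 (cons (fin 1095 1 1031)
(mv 968 (cons (fin 967 3 967)
(mv 1099 (cons (fin 1100 0 1032)
(mv 1163 (cons (fin 1227 7 970)
(mv 1162 (cons (fin 1226 5 970)
(mv 1164 (cons (fin 1228 4 971)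
(mv 969 (cons (mv 905 (cons (fin 1098 7 905)
(fin 841 5 840)))
(cons (mv 1160 (cons (fin 1224 6 968)
(mv 1159 (cons (fin 1223 5 967)
(mv 1161 (cons (fin 1098 2 1095)
(fin 1225 4 968)))))))
(mv 1160 (cons (fin 905 6 904)
(fin 1224 6 968))))))))))))))))))
(mv 1099 (cons (fin 1100 0 1032)
(mv 1163 (cons (fin 1227 7 970)
(mv 1096 (cons (fin 1095 1 1031)
(mv 968 (cons (fin 967 3 967)
(mv 1162 (cons (fin 1226 5 970)
(mv 1164 (cons (fin 1228 4 971)
(mv 1097 (cons (fin 1098 0 1096)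
(mv 904 (cons (fin 840 4 840)
(mv 903 (cons (fin 969 3 903)
(fin 839 7 839))))))))))))))))))))))))))))
(cons (mv 971 (cons (fin 972 1 969)
(mv 1031 (cons (fin 1032 2 967)
(mv 906 (cons (cons (mv 842 (cons (fin 1097 5 841)
(mv 778 (cons (fin 969 5 777)
(fin 1035 4 778)))))
(mv 1098 (cons (cons (mv 841 (cons (fin 905 7 841)
(mv 1161 (cons (fin 1097 5 905)
(mv 1162 (cons (fin 1225 5 969)
(mv 1226 (cons (fin 969 7 969)
(fin 1035 6 970)))))))))
(cons (mv 1161 (cons (fin 1097 5 905)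
(mv 1162 (cons (fin 1225 5 969)
(mv 1226 (cons (fin 969 7 969)
(fin 1035 6 970)))))))
(mv 905 (cons (fin 841 7 841)
(mv 903 (cons (fin 904 0 903)
(mv 1162 (cons (fin 969 7 905)
(mv 1163 (cons (fin 1227 4 970)
(mv 1226 (cons (fin 1035 6 970)
(mv 1289 (cons (fin 1225 5 1033)
(mv 1290 (cons (fin 1097 7 1033)
(fin 1353 5 1097)))))))))))))))))
(cons (mv 905 (cons (fin 841 7 841)
(mv 903 (cons (fin 904 0 903)
(mv 1162 (cons (fin 969 7 905)
(mv 1163 (cons (fin 1227 4 970)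
(mv 1226 (cons (fin 1035 6 970)
(mv 1225 (cons (fin 1161 5 969)
(fin 1289 5 1033)))))))))))))
(cons (mv 905 (cons (fin 841 7 841)
(mv 1097 (cons (fin 1161 5 905)
(mv 904 (cons (fin 903 0 903)
(mv 969 (cons (fin 840 7 840)
(mv 1096 (cons (fin 1160 5 904)
(mv 1095 (cons (fin 1030 3 1030)
(fin 1094 2 1030)))))))))))))
(mv 841 (cons (fin 905 7 841)
(mv 1161 (cons (fin 1097 5 905)
(mv 1162 (cons (fin 1225 5 969)
(mv 1226 (cons (fin 1035 6 970)
(mv 1227 (cons (fin 1163 4 970)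
(fin 1291 4 1034))))))))))))))))
(cons (mv 842 (cons (mv 778 (cons (fin 969 5 777)
(fin 1035 4 778)))
(mv 841 (cons (fin 777 7 777)
(mv 843 (cons (fin 779 6 778)
(mv 905 (cons (fin 1098 7 841)
(mv 904 (cons (fin 844 1 840)
(fin 903 2 839)))))))))))
(cons (mv 842 (cons (fin 1097 5 841)
(mv 777 (cons (fin 841 7 777)
(mv 778 (cons (fin 713 7 713)
(fin 1035 4 778)))))))
(mv 842 (cons (fin 1097 5 841)
(mv 778 (cons (fin 969 5 777)
(mv 777 (cons (fin 713 7 713)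
(fin 841 7 777)))))))))))))))
(mv 971 (cons (fin 972 1 969)
(mv 1031 (cons (fin 1032 2 967)
(mv 1098 (cons (cons (mv 1099 (cons (fin 1100 3 1033)
(mv 906 (cons (fin 1163 4 906)
(mv 841 (cons (fin 905 7 841)
(mv 1161 (cons (fin 1097 5 905)
(mv 1162 (cons (fin 1225 5 969)
(mv 1226 (cons (fin 969 7 969)
(fin 1035 6 970)))))))))))))
(cons (mv 1162 (cons (cons (mv 969 (cons (fin 905 7 905)
(fin 1226 7 969)))
(mv 905 (cons (fin 969 7 905)
(mv 906 (cons (fin 841 7 841)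
(mv 1161 (cons (fin 1097 5 905)
(fin 1225 5 969))))))))
(cons (mv 1161 (cons (fin 1225 5 969)
(mv 906 (cons (fin 1097 5 905)
(mv 841 (cons (fin 905 7 841)
(mv 1226 (cons (fin 1035 6 970)
(mv 1227 (cons (fin 1163 4 970)
(fin 1291 4 1034)))))))))))
(mv 1226 (cons (fin 969 7 969)
(fin 1035 6 970))))))
(mv 1099 (cons (fin 1100 3 1033)
(mv 906 (cons (fin 1163 4 906)
(mv 1097 (cons (fin 1161 5 905)
(mv 905 (cons (fin 841 7 841)
(mv 904 (cons (fin 903 0 903)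
(mv 969 (cons (fin 840 7 840)
(mv 1096 (cons (fin 1160 5 904)
(mv 1095 (cons (fin 1030 3 1030)
(fin 1094 2 1030)))))))))))))))))))
(cons (mv 1099 (cons (fin 1100 3 1033)
(mv 1163 (cons (fin 906 4 906)
(mv 1227 (cons (fin 1035 7 970)
(fin 1291 7 1034)))))))
(cons (mv 1099 (cons (fin 1100 3 1033)
(mv 1162 (cons (mv 969 (cons (fin 905 7 905)
(fin 1226 7 969)))
(cons (mv 905 (cons (fin 969 7 905)
(mv 1161 (cons (fin 1225 5 969)
(mv 1160 (cons (fin 1159 2 1095)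
(mv 1163 (cons (fin 1227 4 970)
(mv 1223 (cons (fin 1224 1 1159)
(mv 1096 (cons (fin 1095 3 1095)
(mv 1164 (cons (fin 1097 3 1096)
(mv 1228 (cons (fin 1229 0 1161)
(fin 1035 4 971)))))))))))))))))
(mv 1163 (cons (fin 1227 4 970)
(mv 1035 (cons (fin 1226 5 970)
(mv 1161 (cons (fin 1225 5 969)
(mv 1160 (cons (fin 1159 2 1095)
(mv 1164 (cons (fin 1228 4 971)
(mv 1096 (cons (fin 1095 3 1095)
(fin 1097 3 1096))))))))))))))))))
(mv 1099 (cons (fin 1100 3 1033)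
(mv 1162 (cons (mv 969 (cons (fin 905 7 905)
(fin 1226 7 969)))
(cons (mv 905 (cons (fin 969 7 905)
(mv 906 (cons (fin 841 7 841)
(mv 1161 (cons (fin 1097 5 905)
(fin 1225 5 969)))))))
(mv 1161 (cons (fin 1225 5 969)
(mv 1097 (cons (fin 906 5 905)
(mv 1226 (cons (fin 1290 7 1033)
(fin 1035 6 970)))))))))))))))))))))))
(cons (cons (mv 971 (cons (fin 972 1 969)
(mv 1031 (cons (fin 1032 2 967)
(mv 906 (cons (cons (mv 842 (cons (fin 1097 5 841)
(mv 778 (cons (fin 969 5 777)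
(fin 1035 4 778)))))
(mv 1098 (cons (mv 1099 (cons (fin 1100 3 1033)
(fin 1163 4 906)))
(cons (mv 905 (cons (fin 841 7 841)
(mv 903 (cons (fin 904 0 903)
(mv 1162 (cons (fin 969 7 905)
(mv 1163 (cons (fin 1227 4 970)
(mv 1226 (cons (fin 1035 6 970)
(mv 1289 (cons (fin 1225 5 1033)
(mv 1290 (cons (fin 1097 7 1033)
(fin 1353 5 1097)))))))))))))))
(mv 905 (cons (fin 841 7 841)
(mv 1099 (cons (fin 1100 3 1033)
(mv 969 (cons (fin 1162 7 905)
(mv 904 (cons (fin 903 0 903)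
(mv 840 (cons (fin 1097 7 840)
(mv 776 (cons (fin 712 4 712)
(fin 968 4 776)))))))))))))))))
(cons (mv 842 (cons (mv 778 (cons (fin 969 5 777)
(fin 1035 4 778)))
(cons (mv 777 (cons (fin 841 7 777)
(mv 779 (cons (fin 843 6 778)
(mv 1099 (cons (fin 1035 4 842)
(mv 1098 (cons (fin 1100 3 1033)
(fin 1163 4 906)))))))))
(mv 778 (cons (fin 969 5 777)
(mv 777 (cons (fin 713 7 713)
(fin 841 7 777))))))))
(cons (mv 842 (cons (fin 1097 5 841)
(mv 778 (cons (fin 969 5 777)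
(mv 777 (cons (fin 713 7 713)
(fin 841 7 777)))))))
(mv 842 (cons (fin 1097 5 841)
(mv 1035 (cons (fin 778 4 778)
(fin 1099 4 842)))))))))))))
(cons (mv 971 (cons (fin 972 1 969)
(mv 1031 (cons (fin 1032 2 967)
(mv 906 (cons (cons (mv 842 (cons (fin 1097 5 841)
(mv 778 (cons (fin 969 5 777)
(fin 1035 4 778)))))
(mv 1098 (cons (mv 1099 (cons (fin 1100 3 1033)
(fin 1163 4 906)))
(mv 1097 (cons (fin 1161 5 905)
(mv 905 (cons (fin 841 7 841)
(mv 903 (cons (fin 904 0 903)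
(mv 969 (cons (fin 1162 7 905)
(mv 1096 (cons (fin 1160 5 904)
(mv 1095 (cons (fin 1030 3 1030)
(fin 1094 2 1030))))))))))))))))
(cons (mv 842 (cons (mv 778 (cons (fin 969 5 777)
(fin 1035 4 778)))
(cons (mv 777 (cons (fin 841 7 777)
(mv 779 (cons (fin 843 6 778)
(mv 1099 (cons (fin 1035 4 842)
(mv 1098 (cons (fin 1100 3 1033)
(fin 1163 4 906)))))))))
(mv 778 (cons (fin 969 5 777)
(mv 777 (cons (fin 713 7 713)
(fin 841 7 777))))))))
(mv 842 (cons (fin 1097 5 841)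
(mv 1035 (cons (fin 778 4 778)
(fin 1099 4 842))))))))))))
(mv 971 (cons (fin 972 1 969)
(mv 1031 (cons (fin 1032 2 967)
(mv 1098 (cons (cons (mv 1099 (cons (fin 1100 3 1033)
(mv 906 (cons (fin 1163 4 906)
(mv 1097 (cons (fin 842 5 841)
(fin 1161 5 905)))))))
(mv 906 (cons (mv 1097 (cons (fin 842 5 841)
(fin 1161 5 905)))
(cons (mv 841 (cons (fin 905 7 841)
(mv 842 (cons (fin 777 7 777)
(mv 779 (cons (fin 843 6 778)
(mv 778 (cons (fin 715 6 714)
(fin 1035 4 778)))))))))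
(mv 841 (cons (fin 905 7 841)
(mv 1161 (cons (fin 1097 5 905)
(mv 1162 (cons (fin 1225 5 969)
(mv 1226 (cons (fin 1035 6 970)
(mv 1227 (cons (fin 1163 4 970)
(fin 1291 4 1034)))))))))))))))
(cons (mv 1099 (cons (fin 1100 3 1033)
(mv 1162 (cons (cons (mv 1161 (cons (fin 1225 5 969)
(mv 1035 (cons (fin 1226 6 970)
(mv 1163 (cons (fin 1227 7 970)
(mv 1160 (cons (fin 1159 2 1095)
(mv 1164 (cons (fin 1228 4 971)
(mv 1096 (cons (fin 1095 3 1095)
(fin 1097 3 1096)))))))))))))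
(mv 1161 (cons (fin 1225 5 969)
(mv 1160 (cons (fin 1159 2 1095)
(mv 1163 (cons (fin 1227 4 970)
(mv 1223 (cons (fin 1224 1 1159)
(mv 1096 (cons (fin 1095 3 1095)
(mv 1164 (cons (fin 1097 3 1096)
(mv 1228 (cons (fin 1229 0 1161)
(fin 1035 4 971))))))))))))))))
(cons (mv 1226 (cons (fin 1035 6 970)
(mv 1225 (cons (fin 1161 5 969)
(fin 1289 5 1033)))))
(cons (mv 1161 (cons (fin 1225 5 969)
(mv 1160 (cons (fin 1159 2 1095)
(mv 1163 (cons (fin 1227 4 970)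
(mv 1224 (cons (fin 1223 1 1159)
(mv 1096 (cons (fin 1095 3 1095)
(mv 1097 (cons (fin 1164 3 1096)
(fin 1288 6 1032)))))))))))))
(mv 1163 (cons (fin 1227 4 970)
(mv 1226 (cons (fin 1035 5 970)
(mv 1290 (cons (fin 1097 7 1033)
(fin 1354 6 1098)))))))))))))
(cons (mv 1099 (cons (fin 1100 3 1033)
(mv 906 (cons (fin 1163 4 906)
(mv 842 (cons (fin 1035 4 842)
(mv 841 (cons (fin 777 7 777)
(fin 905 7 841)))))))))
(mv 1099 (cons (fin 1100 3 1033)
(mv 1162 (cons (cons (mv 1161 (cons (fin 1225 5 969)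
(mv 906 (cons (fin 1097 5 905)
(mv 1035 (cons (fin 1226 6 970)
(fin 842 4 842)))))))
(cons (mv 1161 (cons (fin 1225 5 969)
(mv 906 (cons (fin 1097 5 905)
(mv 842 (cons (fin 1035 4 842)
(mv 841 (cons (fin 777 7 777)
(fin 905 7 841)))))))))
(mv 1226 (cons (fin 1035 6 970)
(mv 1225 (cons (fin 1289 5 1033)
(mv 1291 (cons (fin 1227 4 1034)
(mv 1290 (cons (fin 1097 7 1033)
(fin 1355 4 1098)))))))))))
(cons (mv 1226 (cons (fin 1035 6 970)
(mv 1097 (cons (fin 1290 7 1033)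
(mv 906 (cons (fin 842 5 841)
(fin 1161 5 905)))))))
(cons (mv 1225 (cons (fin 1161 5 969)
(mv 1226 (cons (fin 1289 5 1033)
(mv 1291 (cons (fin 1227 4 1034)
(mv 1290 (cons (fin 1097 7 1033)
(fin 1355 4 1098)))))))))
(mv 1225 (cons (fin 1161 5 969)
(mv 1226 (cons (fin 1289 5 1033)
(fin 1035 6 970)))))))))))))))))))))
(cons (cons (mv 971 (cons (fin 972 1 969)
(mv 1031 (cons (fin 1032 2 967)
(mv 906 (cons (cons (mv 842 (cons (fin 1097 5 841)
(mv 778 (cons (fin 969 5 777)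
(fin 1035 4 778)))))
(mv 1098 (cons (mv 1099 (cons (fin 1100 3 1033)
(fin 1163 4 906)))
(mv 1161 (cons (fin 1097 5 905)
(mv 1162 (cons (fin 1225 5 969)
(mv 1226 (cons (fin 969 7 969)
(fin 1035 6 970))))))))))
(cons (mv 842 (cons (mv 778 (cons (fin 969 5 777)
(fin 1035 4 778)))
(cons (mv 777 (cons (fin 841 7 777)
(mv 779 (cons (fin 843 6 778)
(mv 1099 (cons (fin 1035 4 842)
(mv 1098 (cons (fin 1100 3 1033)
(fin 1163 4 906)))))))))
(mv 778 (cons (fin 969 5 777)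
(mv 777 (cons (fin 713 7 713)
(fin 841 7 777))))))))
(cons (mv 842 (cons (fin 1097 5 841)
(mv 778 (cons (fin 969 5 777)
(mv 777 (cons (fin 713 7 713)
(fin 841 7 777)))))))
(mv 842 (cons (fin 1097 5 841)
(mv 1035 (cons (fin 778 4 778)
(fin 1099 4 842)))))))))))))
(mv 971 (cons (fin 972 1 969)
(mv 1031 (cons (fin 1032 2 967)
(mv 1097 (cons (cons (mv 906 (cons (fin 842 5 841)
(mv 1161 (cons (fin 1098 5 905)
(fin 969 6 905)))))
(mv 1161 (cons (fin 1225 6 969)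
(mv 969 (cons (cons (mv 1160 (cons (fin 1224 5 968)
(mv 905 (cons (fin 1096 5 904)
(mv 904 (cons (fin 840 7 840)
(fin 968 7 904)))))))
(mv 1160 (cons (fin 1224 5 968)
(mv 905 (cons (fin 1096 5 904)
(mv 841 (cons (fin 777 4 777)
(fin 1098 4 841))))))))
(cons (mv 904 (cons (fin 968 7 904)
(mv 905 (cons (fin 840 7 840)
(mv 841 (cons (fin 777 4 777)
(fin 1098 4 841)))))))
(mv 968 (cons (fin 904 7 904)
(mv 967 (cons (fin 1030 1 966)
(fin 966 0 966)))))))))))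
(cons (mv 906 (cons (fin 842 5 841)
(mv 1098 (cons (mv 1099 (cons (fin 1100 3 1033)
(fin 1163 4 906)))
(mv 905 (cons (fin 841 7 841)
(mv 904 (cons (fin 903 0 903)
(mv 969 (cons (fin 840 7 840)
(mv 1096 (cons (fin 1160 5 904)
(mv 1095 (cons (fin 1030 3 1030)
(fin 1094 2 1030)))))))))))))))
(cons (mv 906 (cons (fin 842 5 841)
(mv 1161 (cons (fin 969 6 905)
(fin 1225 6 969)))))
(mv 1161 (cons (fin 1225 6 969)
(mv 906 (cons (fin 842 5 841)
(fin 1098 5 905))))))))))))))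
(cons (mv 971 (cons (fin 972 1 969)
(mv 1031 (cons (fin 1032 2 967)
(mv 906 (cons (cons (mv 842 (cons (fin 1097 5 841)
(mv 778 (cons (fin 969 5 777)
(fin 1035 4 778)))))
(mv 1098 (cons (mv 1099 (cons (fin 1100 3 1033)
(fin 1163 4 906)))
(mv 1161 (cons (fin 1097 5 905)
(mv 1162 (cons (fin 1225 5 969)
(mv 969 (cons (fin 905 7 905)
(fin 1226 7 969))))))))))
(cons (mv 1099 (cons (mv 1035 (cons (fin 1163 7 906)
(fin 842 4 842)))
(cons (mv 1098 (cons (fin 1100 3 1033)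
(fin 1163 4 906)))
(mv 1098 (cons (fin 1100 3 1033)
(mv 842 (cons (fin 1035 4 842)
(mv 779 (cons (fin 843 6 778)
(mv 778 (cons (fin 969 5 777)
(fin 715 6 714))))))))))))
(mv 842 (cons (fin 1097 5 841)
(mv 1035 (cons (fin 778 4 778)
(fin 1099 4 842))))))))))))
(mv 971 (cons (fin 972 1 969)
(mv 1031 (cons (fin 1032 2 967)
(mv 1098 (cons (cons (cons (mv 1099 (cons (fin 1100 3 1033)
(mv 906 (cons (mv 1097 (cons (fin 842 5 841)
(fin 1161 5 905)))
(cons (mv 841 (cons (fin 905 7 841)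
(mv 1161 (cons (fin 1097 5 905)
(mv 1162 (cons (fin 1225 5 969)
(mv 1226 (cons (fin 969 7 969)
(fin 1035 6 970)))))))))
(mv 842 (cons (fin 1035 4 842)
(mv 841 (cons (fin 777 7 777)
(fin 905 7 841))))))))))
(mv 1162 (cons (cons (mv 969 (cons (fin 905 7 905)
(fin 1226 7 969)))
(mv 905 (cons (fin 969 7 905)
(mv 906 (cons (fin 841 7 841)
(mv 1097 (cons (fin 842 5 841)
(fin 1161 5 905))))))))
(cons (mv 1161 (cons (fin 1225 5 969)
(mv 906 (cons (fin 1097 5 905)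
(mv 841 (cons (fin 905 7 841)
(mv 842 (cons (fin 777 7 777)
(mv 1035 (cons (fin 1226 6 970)
(fin 778 4 778)))))))))))
(mv 1226 (cons (fin 969 7 969)
(fin 1035 6 970)))))))
(cons (mv 1099 (cons (fin 1100 3 1033)
(mv 906 (cons (mv 1097 (cons (fin 842 5 841)
(fin 1161 5 905)))
(cons (mv 1097 (cons (fin 1161 5 905)
(mv 905 (cons (fin 841 7 841)
(mv 904 (cons (fin 903 0 903)
(mv 969 (cons (fin 840 7 840)
(mv 1096 (cons (fin 1160 5 904)
(mv 1095 (cons (fin 1030 3 1030)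
(fin 1094 2 1030)))))))))))))
(mv 841 (cons (fin 905 7 841)
(mv 842 (cons (fin 777 7 777)
(fin 1035 4 842))))))))))
(mv 1099 (cons (fin 1100 3 1033)
(mv 1162 (cons (cons (mv 1161 (cons (fin 1225 5 969)
(mv 906 (cons (fin 1097 5 905)
(mv 1035 (cons (fin 1226 6 970)
(fin 842 4 842)))))))
(cons (mv 1161 (cons (fin 1225 5 969)
(mv 906 (cons (fin 1097 5 905)
(mv 842 (cons (fin 1035 4 842)
(mv 841 (cons (fin 777 7 777)
(fin 905 7 841)))))))))
(mv 1226 (cons (fin 1035 6 970)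
(mv 1225 (cons (fin 1289 5 1033)
(mv 1291 (cons (fin 1227 4 1034)
(mv 1290 (cons (fin 1097 7 1033)
(fin 1355 4 1098)))))))))))
(cons (mv 1226 (cons (fin 1035 6 970)
(mv 1097 (cons (fin 1290 7 1033)
(mv 906 (cons (fin 842 5 841)
(fin 1161 5 905)))))))
(cons (mv 1225 (cons (fin 1161 5 969)
(mv 1226 (cons (fin 1289 5 1033)
(mv 1291 (cons (fin 1227 4 1034)
(mv 1290 (cons (fin 1097 7 1033)
(fin 1355 4 1098)))))))))
(mv 1225 (cons (fin 1161 5 969)
(mv 1226 (cons (fin 1289 5 1033)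
(fin 1035 6 970)))))))))))))
(cons (cons (mv 1099 (cons (fin 1100 3 1033)
(mv 906 (cons (cons (mv 842 (cons (fin 1035 4 842)
(mv 841 (cons (fin 777 7 777)
(fin 905 7 841)))))
(mv 905 (cons (fin 841 7 841)
(mv 903 (cons (fin 904 0 903)
(mv 1162 (cons (fin 969 7 905)
(mv 1226 (cons (fin 1035 6 970)
(mv 1225 (cons (fin 1161 5 969)
(fin 1289 5 1033))))))))))))
(cons (mv 842 (cons (fin 1035 4 842)
(mv 779 (cons (fin 843 6 778)
(mv 778 (cons (fin 969 5 777)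
(fin 715 6 714)))))))
(mv 841 (cons (fin 905 7 841)
(mv 842 (cons (fin 777 7 777)
(mv 778 (cons (fin 969 5 777)
(mv 779 (cons (fin 715 6 714)
(fin 843 6 778))))))))))))))
(mv 1099 (cons (fin 1100 3 1033)
(mv 1162 (cons (mv 969 (cons (fin 905 7 905)
(fin 1226 7 969)))
(cons (mv 969 (cons (fin 905 7 905)
(mv 1161 (cons (fin 1225 5 969)
(mv 1160 (cons (fin 1159 2 1095)
(mv 1097 (cons (fin 1224 5 968)
(mv 968 (cons (fin 904 7 904)
(mv 967 (cons (fin 1030 1 966)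
(fin 966 0 966)))))))))))))
(mv 1226 (cons (fin 1035 6 970)
(mv 1225 (cons (fin 1161 5 969)
(fin 1289 5 1033)))))))))))
(cons (mv 1099 (cons (fin 1100 3 1033)
(mv 906 (cons (mv 842 (cons (fin 1097 5 841)
(fin 1035 4 842)))
(cons (mv 905 (cons (fin 841 7 841)
(mv 969 (cons (fin 1162 7 905)
(mv 904 (cons (fin 903 0 903)
(mv 840 (cons (fin 1097 7 840)
(mv 776 (cons (fin 712 4 712)
(fin 968 4 776)))))))))))
(mv 841 (cons (fin 905 7 841)
(mv 842 (cons (fin 777 7 777)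
(fin 1035 4 842))))))))))
(cons (mv 1099 (cons (fin 1100 3 1033)
(mv 1162 (cons (cons (mv 1226 (cons (fin 969 7 969)
(fin 1035 6 970)))
(mv 1161 (cons (fin 1225 5 969)
(mv 906 (cons (fin 1097 5 905)
(mv 842 (cons (fin 1035 4 842)
(mv 779 (cons (fin 843 6 778)
(mv 778 (cons (fin 969 5 777)
(fin 715 6 714))))))))))))
(cons (mv 1161 (cons (fin 1225 5 969)
(mv 1097 (cons (fin 906 5 905)
(mv 1226 (cons (fin 969 7 969)
(fin 1290 7 1033)))))))
(mv 1161 (cons (fin 1225 5 969)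
(mv 906 (cons (fin 1097 5 905)
(mv 1035 (cons (fin 1226 6 970)
(fin 842 4 842))))))))))))
(mv 1099 (cons (fin 1100 3 1033)
(mv 906 (cons (mv 1097 (cons (fin 842 5 841)
(fin 1161 5 905)))
(cons (mv 841 (cons (fin 905 7 841)
(mv 842 (cons (fin 777 7 777)
(mv 778 (cons (fin 969 5 777)
(mv 779 (cons (fin 715 6 714)
(fin 843 6 778)))))))))
(mv 905 (cons (fin 841 7 841)
(mv 1097 (cons (fin 1161 5 905)
(mv 903 (cons (fin 904 0 903)
(mv 969 (cons (fin 1162 7 905)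
(mv 1096 (cons (fin 1160 5 904)
(mv 1095 (cons (fin 1030 3 1030)
(fin 1094 2 1030))))))))))))))))))))))))))))))))
(cons (mv 1098 (cons (cons (cons (mv 1099 (cons (fin 1100 3 1033)
(mv 1031 (cons (fin 1032 0 1031)
(mv 970 (cons (mv 971 (cons (fin 972 1 969)
(mv 906 (cons (fin 1163 4 906)
(mv 907 (cons (fin 843 6 842)
(fin 1162 6 906)))))))
(cons (mv 971 (cons (fin 972 1 969)
(mv 907 (cons (fin 1162 6 906)
(mv 843 (cons (fin 779 5 778)
(fin 1035 5 842)))))))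
(mv 906 (cons (fin 1163 4 906)
(mv 842 (cons (fin 1097 5 841)
(fin 1035 4 842))))))))))))
(mv 969 (cons (cons (mv 1162 (cons (fin 1226 7 969)
(mv 905 (cons (fin 970 7 905)
(fin 841 4 841)))))
(mv 1162 (cons (fin 1226 7 969)
(mv 970 (cons (mv 971 (cons (fin 972 1 969)
(fin 907 6 906)))
(cons (mv 1163 (cons (fin 1227 4 970)
(mv 1161 (cons (fin 1225 5 969)
(mv 906 (cons (fin 1097 5 905)
(mv 842 (cons (fin 778 5 777)
(mv 843 (cons (fin 779 6 778)
(fin 907 6 842)))))))))))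
(mv 1161 (cons (fin 1225 5 969)
(mv 1097 (cons (fin 906 5 905)
(mv 1163 (cons (fin 1227 4 970)
(mv 1096 (cons (fin 1164 3 1096)
(fin 1095 0 1095)))))))))))))))
(cons (mv 905 (cons (fin 841 4 841)
(mv 1097 (cons (mv 840 (cons (fin 904 7 840)
(mv 842 (cons (fin 906 6 841)
(mv 1096 (cons (fin 1160 5 904)
(mv 1095 (cons (fin 1094 2 1030)
(fin 1035 2 1031)))))))))
(cons (mv 1096 (cons (fin 1160 5 904)
(mv 1095 (cons (fin 1094 2 1030)
(fin 1035 2 1031)))))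
(mv 840 (cons (fin 904 7 840)
(mv 906 (cons (fin 842 6 841)
(mv 970 (cons (fin 1161 5 905)
(mv 972 (cons (fin 971 3 905)
(mv 907 (cons (fin 908 0 905)
(fin 843 6 842))))))))))))))))
(mv 905 (cons (fin 841 4 841)
(mv 1162 (cons (fin 1226 7 969)
(fin 1097 4 905)))))))))
(cons (mv 1099 (cons (fin 1100 3 1033)
(mv 1032 (cons (fin 1031 0 1031)
(mv 1035 (cons (cons (mv 1095 (cons (fin 1096 1 1031)
(mv 971 (cons (fin 972 2 968)
(mv 907 (cons (fin 843 5 842)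
(fin 1162 5 906)))))))
(mv 1096 (cons (fin 1095 1 1031)
(mv 969 (cons (cons (mv 1162 (cons (fin 1226 7 969)
(mv 905 (cons (fin 841 5 840)
(fin 1097 4 905)))))
(mv 1160 (cons (fin 1224 6 968)
(mv 1097 (cons (fin 1159 1 1095)
(mv 1162 (cons (fin 1226 7 969)
(mv 1163 (cons (fin 1164 0 1096)
(mv 1227 (cons (fin 1291 7 1034)
(mv 1228 (cons (fin 1161 0 1160)
(fin 1292 4 1035))))))))))))))
(cons (mv 905 (cons (fin 841 5 840)
(mv 1160 (cons (fin 1097 5 904)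
(fin 968 6 904)))))
(mv 1160 (cons (fin 1224 6 968)
(mv 905 (cons (fin 841 5 840)
(fin 968 6 904)))))))))))
(cons (mv 971 (cons (fin 972 2 968)
(mv 907 (cons (fin 843 5 842)
(fin 1162 5 906)))))
(mv 971 (cons (fin 972 2 968)
(mv 907 (cons (fin 843 5 842)
(mv 1096 (cons (fin 1095 1 1031)
(mv 908 (cons (fin 844 6 843)
(mv 906 (cons (fin 842 7 842)
(mv 1160 (cons (cons (mv 1097 (cons (fin 1159 1 1095)
(mv 969 (cons (fin 905 5 904)
(fin 1224 6 968)))))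
(mv 1159 (cons (fin 1097 1 1095)
(mv 1223 (cons (fin 968 5 967)
(mv 1287 (cons (fin 1224 5 1031)
(fin 1351 6 1095))))))))
(cons (mv 969 (cons (fin 1224 6 968)
(mv 905 (cons (fin 968 1 904)
(fin 841 5 840)))))
(mv 1097 (cons (fin 1159 1 1095)
(mv 905 (cons (fin 969 5 904)
(mv 840 (cons (fin 841 3 840)
(mv 904 (cons (fin 839 3 839)
(fin 968 4 840)))))))))))))))))))))))))))))
(mv 1099 (cons (fin 1100 3 1033)
(mv 1032 (cons (fin 1031 0 1031)
(mv 1035 (cons (cons (mv 1095 (cons (fin 1096 1 1031)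
(mv 971 (cons (fin 972 2 968)
(mv 907 (cons (fin 843 5 842)
(mv 906 (cons (fin 842 7 842)
(mv 844 (cons (fin 908 6 843)
(mv 970 (cons (fin 1163 7 906)
(mv 1097 (cons (fin 1161 5 905)
(mv 905 (cons (fin 841 7 841)
(mv 904 (cons (fin 903 0 903)
(mv 840 (cons (fin 839 3 839)
(fin 969 7 840)))))))))))))))))))))
(mv 1096 (cons (fin 1095 1 1031)
(mv 1163 (cons (mv 1227 (cons (fin 970 7 970)
(fin 1291 7 1034)))
(mv 1097 (cons (fin 1164 0 1096)
(mv 1160 (cons (fin 1159 1 1095)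
(mv 969 (cons (fin 905 5 904)
(fin 1224 6 968))))))))))))
(cons (mv 971 (cons (fin 972 2 968)
(mv 907 (cons (fin 843 5 842)
(mv 906 (cons (fin 842 7 842)
(mv 844 (cons (fin 908 6 843)
(mv 970 (cons (fin 1163 7 906)
(mv 1097 (cons (fin 1161 5 905)
(mv 905 (cons (fin 841 7 841)
(mv 904 (cons (fin 903 0 903)
(mv 840 (cons (fin 839 3 839)
(fin 969 7 840)))))))))))))))))))
(cons (mv 971 (cons (fin 972 2 968)
(mv 907 (cons (fin 843 5 842)
(mv 1096 (cons (fin 1095 1 1031)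
(mv 908 (cons (fin 844 6 843)
(mv 906 (cons (fin 842 7 842)
(mv 1160 (cons (cons (mv 1097 (cons (fin 1159 1 1095)
(mv 969 (cons (fin 905 5 904)
(fin 1224 6 968)))))
(mv 1159 (cons (fin 1097 1 1095)
(mv 1223 (cons (fin 968 5 967)
(mv 1287 (cons (fin 1224 5 1031)
(fin 1351 6 1095))))))))
(cons (mv 969 (cons (fin 1224 6 968)
(mv 905 (cons (fin 968 1 904)
(fin 841 5 840)))))
(mv 1097 (cons (fin 1159 1 1095)
(mv 905 (cons (fin 969 5 904)
(mv 840 (cons (fin 841 3 840)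
(mv 904 (cons (fin 839 3 839)
(fin 968 4 840))))))))))))))))))))))
(mv 971 (cons (fin 972 2 968)
(mv 907 (cons (fin 843 5 842)
(mv 1095 (cons (fin 1096 1 1031)
(mv 844 (cons (fin 908 6 843)
(mv 906 (cons (fin 842 7 842)
(mv 1163 (cons (fin 970 7 906)
(mv 1227 (cons (fin 1291 7 1034)
(mv 1228 (cons (fin 1164 4 971)
(fin 1292 4 1035)))))))))))))))))))))))))))
(cons (cons (mv 1099 (cons (fin 1100 3 1033)
(mv 1031 (cons (fin 1032 0 1031)
(mv 969 (cons (cons (mv 1162 (cons (fin 1226 7 969)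
(mv 905 (cons (fin 970 7 905)
(fin 841 4 841)))))
(mv 905 (cons (fin 841 4 841)
(mv 1097 (cons (mv 840 (cons (fin 904 7 840)
(mv 842 (cons (fin 906 6 841)
(mv 1096 (cons (fin 1160 5 904)
(mv 1095 (cons (fin 1030 3 1030)
(fin 1094 2 1030)))))))))
(cons (mv 840 (cons (fin 904 7 840)
(mv 906 (cons (fin 842 6 841)
(mv 970 (cons (fin 1161 5 905)
(fin 1163 4 906)))))))
(mv 1096 (cons (fin 1160 5 904)
(mv 1095 (cons (fin 1030 3 1030)
(fin 1094 2 1030)))))))))))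
(cons (mv 1162 (cons (fin 1226 7 969)
(mv 970 (cons (mv 1163 (cons (fin 906 4 906)
(fin 1227 4 970)))
(cons (mv 1161 (cons (fin 1225 5 969)
(mv 906 (cons (fin 1097 5 905)
(mv 842 (cons (fin 778 5 777)
(fin 1035 4 842)))))))
(mv 1161 (cons (fin 1225 5 969)
(mv 1160 (cons (fin 1159 2 1095)
(mv 1163 (cons (fin 1227 4 970)
(mv 1224 (cons (fin 1223 1 1159)
(fin 1097 5 968))))))))))))))
(mv 1162 (cons (fin 1226 7 969)
(mv 905 (cons (fin 841 4 841)
(fin 1097 4 905))))))))))))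
(mv 1099 (cons (fin 1100 3 1033)
(mv 1031 (cons (fin 1032 0 1031)
(mv 970 (cons (cons (mv 971 (cons (fin 972 1 969)
(mv 906 (cons (fin 1163 4 906)
(mv 907 (cons (fin 843 6 842)
(fin 1162 6 906)))))))
(mv 971 (cons (fin 972 1 969)
(mv 907 (cons (fin 1162 6 906)
(mv 843 (cons (fin 779 5 778)
(fin 1035 5 842))))))))
(cons (mv 906 (cons (fin 1163 4 906)
(mv 842 (cons (fin 1035 4 842)
(mv 843 (cons (fin 779 6 778)
(fin 907 6 842)))))))
(mv 906 (cons (fin 1163 4 906)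
(mv 842 (cons (fin 1035 4 842)
(mv 841 (cons (fin 777 7 777)
(fin 905 7 841)))))))))))))))
(cons (mv 1099 (cons (fin 1100 3 1033)
(mv 1031 (cons (fin 1032 0 1031)
(mv 970 (cons (mv 971 (cons (fin 972 1 969)
(mv 906 (cons (fin 1163 4 906)
(mv 907 (cons (fin 843 6 842)
(fin 1162 6 906)))))))
(cons (mv 971 (cons (fin 972 1 969)
(mv 1162 (cons (fin 907 6 906)
(mv 969 (cons (fin 905 7 905)
(fin 1226 7 969)))))))
(mv 906 (cons (fin 1163 4 906)
(mv 1097 (cons (fin 842 5 841)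
(fin 1161 5 905))))))))))))
(cons (mv 1099 (cons (fin 1100 3 1033)
(mv 1031 (cons (fin 1032 0 1031)
(mv 969 (cons (cons (mv 1162 (cons (fin 1226 7 969)
(mv 905 (cons (fin 970 7 905)
(fin 841 4 841)))))
(mv 905 (cons (fin 841 4 841)
(mv 1097 (cons (mv 840 (cons (fin 904 7 840)
(mv 1096 (cons (fin 1160 5 904)
(mv 1095 (cons (fin 1030 3 1030)
(fin 1094 2 1030)))))))
(cons (mv 904 (cons (fin 840 7 840)
(mv 1161 (cons (fin 968 7 904)
(mv 1225 (cons (fin 970 6 969)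
(fin 1289 6 1033)))))))
(mv 1096 (cons (fin 1160 5 904)
(mv 1095 (cons (fin 1030 3 1030)
(fin 1094 2 1030)))))))))))
(cons (mv 1162 (cons (fin 1226 7 969)
(mv 970 (cons (mv 971 (cons (fin 972 1 969)
(fin 907 6 906)))
(mv 1161 (cons (fin 1225 5 969)
(mv 1160 (cons (fin 1159 2 1095)
(mv 1163 (cons (fin 1227 4 970)
(mv 1224 (cons (fin 1223 1 1159)
(fin 1097 5 968)))))))))))))
(mv 1162 (cons (fin 1226 7 969)
(mv 905 (cons (fin 841 4 841)
(fin 1097 4 905))))))))))))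
(mv 1099 (cons (fin 1100 3 1033)
(mv 1031 (cons (fin 1032 0 1031)
(mv 969 (cons (cons (mv 1162 (cons (fin 1226 7 969)
(mv 905 (cons (fin 970 7 905)
(fin 841 4 841)))))
(mv 905 (cons (fin 841 4 841)
(mv 1097 (cons (mv 840 (cons (fin 904 7 840)
(mv 842 (cons (fin 906 6 841)
(mv 1096 (cons (fin 1160 5 904)
(mv 1095 (cons (fin 1030 3 1030)
(fin 1094 2 1030)))))))))
(cons (mv 840 (cons (fin 904 7 840)
(mv 906 (cons (fin 842 6 841)
(mv 970 (cons (fin 1161 5 905)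
(mv 971 (cons (fin 972 3 905)
(mv 907 (cons (fin 843 6 842)
(mv 908 (cons (fin 968 1 904)
(mv 844 (cons (fin 845 2 841)
(fin 1035 6 843)))))))))))))))
(mv 1096 (cons (fin 1160 5 904)
(mv 1095 (cons (fin 1030 3 1030)
(fin 1094 2 1030)))))))))))
(cons (mv 1162 (cons (fin 1226 7 969)
(mv 970 (cons (mv 971 (cons (fin 972 1 969)
(fin 907 6 906)))
(mv 1161 (cons (fin 1225 5 969)
(mv 906 (cons (fin 1097 5 905)
(mv 842 (cons (fin 778 5 777)
(fin 1035 4 842)))))))))))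
(mv 1162 (cons (fin 1226 7 969)
(mv 905 (cons (fin 841 4 841)
(fin 1097 4 905)))))))))))))))))
(mv 970 (cons (cons (cons (mv 971 (cons (fin 972 1 969)
(mv 1031 (cons (fin 1032 2 967)
(mv 1098 (cons (mv 1099 (cons (fin 1100 3 1033)
(mv 906 (cons (fin 1163 4 906)
(mv 907 (cons (fin 843 6 842)
(fin 1162 6 906)))))))
(cons (mv 1099 (cons (fin 1100 3 1033)
(mv 906 (cons (fin 1163 4 906)
(mv 842 (cons (fin 1097 5 841)
(fin 1035 4 842)))))))
(mv 907 (cons (fin 1162 6 906)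
(mv 843 (cons (fin 779 5 778)
(fin 1035 5 842))))))))))))
(mv 1098 (cons (cons (mv 1099 (cons (fin 1100 3 1033)
(mv 1031 (cons (fin 1032 0 1031)
(mv 906 (cons (fin 1163 4 906)
(mv 842 (cons (fin 1097 5 841)
(fin 1035 4 842)))))))))
(mv 1162 (cons (mv 969 (cons (fin 905 7 905)
(fin 1226 7 969)))
(cons (mv 1163 (cons (fin 1227 4 970)
(mv 1161 (cons (fin 1225 5 969)
(mv 906 (cons (fin 1097 5 905)
(mv 843 (cons (fin 907 6 842)
(mv 842 (cons (fin 779 6 778)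
(mv 841 (cons (fin 777 7 777)
(fin 905 7 841)))))))))))))
(mv 1161 (cons (fin 1225 5 969)
(mv 906 (cons (fin 1097 5 905)
(mv 843 (cons (fin 907 6 842)
(mv 779 (cons (fin 842 6 778)
(mv 1226 (cons (fin 969 7 969)
(mv 1227 (cons (fin 1163 4 970)
(fin 1291 4 1034)))))))))))))))))
(cons (mv 1099 (cons (fin 1100 3 1033)
(mv 1031 (cons (fin 1032 0 1031)
(mv 1162 (cons (mv 969 (cons (fin 905 7 905)
(fin 1226 7 969)))
(mv 1163 (cons (fin 1227 4 970)
(mv 1161 (cons (fin 1225 5 969)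
(mv 1160 (cons (fin 1159 2 1095)
(mv 1224 (cons (fin 1223 1 1159)
(mv 1096 (cons (fin 1095 3 1095)
(mv 1097 (cons (fin 1164 3 1096)
(fin 1288 6 1032)))))))))))))))))))
(cons (mv 1099 (cons (fin 1100 3 1033)
(mv 1031 (cons (fin 1032 0 1031)
(mv 906 (cons (fin 1163 4 906)
(mv 842 (cons (fin 1035 4 842)
(mv 843 (cons (fin 779 6 778)
(fin 907 6 842)))))))))))
(mv 1099 (cons (fin 1100 3 1033)
(mv 1031 (cons (fin 1032 0 1031)
(mv 906 (cons (cons (mv 842 (cons (fin 1097 5 841)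
(fin 1035 4 842)))
(mv 841 (cons (fin 905 7 841)
(mv 1161 (cons (fin 1097 5 905)
(mv 843 (cons (fin 907 6 842)
(mv 1162 (cons (fin 1225 5 969)
(mv 1226 (cons (fin 969 7 969)
(mv 1159 (cons (fin 1160 2 1095)
(mv 1291 (cons (fin 1227 4 1034)
(mv 1290 (cons (fin 1035 6 1034)
(fin 1355 4 1098))))))))))))))))))
(cons (mv 842 (cons (fin 1035 4 842)
(mv 843 (cons (fin 779 6 778)
(fin 907 6 842)))))
(mv 1097 (cons (fin 842 5 841)
(fin 1161 5 905)))))))))))))))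
(cons (mv 971 (cons (fin 972 1 969)
(mv 1031 (cons (fin 1032 2 967)
(mv 1098 (cons (mv 1099 (cons (fin 1100 3 1033)
(mv 907 (cons (fin 1162 6 906)
(mv 906 (cons (fin 843 6 842)
(fin 1163 4 906)))))))
(cons (mv 1099 (cons (fin 1100 3 1033)
(mv 906 (cons (fin 1163 4 906)
(mv 842 (cons (fin 1035 4 842)
(mv 841 (cons (fin 777 7 777)
(fin 905 7 841)))))))))
(mv 907 (cons (fin 1162 6 906)
(mv 843 (cons (fin 779 5 778)
(fin 1035 5 842))))))))))))
(cons (mv 906 (cons (cons (mv 971 (cons (fin 972 1 969)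
(mv 1031 (cons (fin 1032 2 967)
(mv 842 (cons (fin 1097 5 841)
(mv 778 (cons (fin 969 5 777)
(fin 1035 4 778)))))))))
(mv 905 (cons (cons (mv 971 (cons (fin 972 3 905)
(mv 1031 (cons (fin 1032 2 967)
(mv 904 (cons (fin 903 0 903)
(mv 907 (cons (mv 843 (cons (fin 844 2 840)
(fin 779 5 778)))
(mv 840 (cons (fin 839 3 839)
(mv 841 (cons (fin 908 3 840)
(mv 969 (cons (fin 776 7 776)
(fin 1097 7 840)))))))))))))))
(mv 969 (cons (cons (mv 1097 (cons (fin 1161 6 905)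
(mv 840 (cons (fin 904 7 840)
(mv 841 (cons (fin 776 7 776)
(fin 777 4 777)))))))
(mv 1097 (cons (fin 1161 6 905)
(mv 904 (cons (fin 840 7 840)
(mv 1096 (cons (fin 1160 5 904)
(mv 1094 (cons (fin 1095 2 1030)
(mv 903 (cons (fin 902 0 902)
(mv 967 (cons (fin 966 1 902)
(mv 839 (cons (fin 838 3 838)
(mv 1031 (cons (fin 1030 5 838)
(fin 1032 4 839))))))))))))))))))
(cons (mv 841 (cons (fin 777 4 777)
(mv 1032 (cons (fin 1096 5 840)
(mv 1030 (cons (fin 1031 2 966)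
(mv 840 (cons (fin 776 7 776)
(mv 839 (cons (fin 838 0 838)
(mv 907 (cons (fin 904 3 839)
(fin 908 3 840)))))))))))))
(mv 841 (cons (fin 777 4 777)
(mv 1097 (cons (fin 1161 6 905)
(mv 1096 (cons (fin 1032 5 840)
(fin 1160 5 904)))))))))))
(cons (mv 907 (cons (cons (mv 972 (cons (fin 971 3 905)
(fin 908 0 905)))
(mv 904 (cons (cons (mv 839 (cons (fin 840 3 839)
(mv 903 (cons (fin 838 3 838)
(fin 971 0 903)))))
(mv 839 (cons (fin 840 3 839)
(mv 843 (cons (fin 844 2 840)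
(mv 779 (cons (fin 715 5 714)
(fin 971 5 778))))))))
(cons (mv 844 (cons (fin 843 2 840)
(mv 840 (cons (fin 839 3 839)
(mv 908 (cons (fin 841 3 840)
(fin 845 2 841)))))))
(mv 843 (cons (fin 844 2 840)
(mv 779 (cons (fin 715 5 714)
(fin 971 5 778)))))))))
(cons (mv 908 (cons (fin 972 0 905)
(mv 844 (cons (fin 845 2 841)
(mv 904 (cons (fin 843 2 840)
(mv 840 (cons (fin 839 3 839)
(fin 841 3 840)))))))))
(mv 971 (cons (fin 972 3 905)
(mv 843 (cons (fin 779 5 778)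
(mv 904 (cons (fin 844 2 840)
(fin 903 0 903))))))))))
(cons (mv 904 (cons (cons (mv 971 (cons (fin 972 3 905)
(fin 903 0 903)))
(mv 969 (cons (mv 1097 (cons (fin 840 7 840)
(fin 1161 6 905)))
(cons (mv 903 (cons (fin 902 0 902)
(mv 966 (cons (fin 967 1 902)
(mv 839 (cons (fin 838 3 838)
(mv 907 (cons (fin 840 3 839)
(mv 844 (cons (fin 843 2 840)
(mv 908 (cons (fin 845 2 841)
(fin 972 0 905)))))))))))))
(mv 903 (cons (fin 902 0 902)
(mv 1097 (cons (fin 1161 6 905)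
(mv 1096 (cons (fin 1160 5 904)
(mv 1094 (cons (fin 1095 2 1030)
(mv 967 (cons (fin 966 1 902)
(mv 839 (cons (fin 838 3 838)
(mv 1031 (cons (fin 1030 5 838)
(fin 1032 4 839)))))))))))))))))))
(cons (mv 903 (cons (fin 971 0 903)
(mv 902 (cons (fin 969 0 902)
(mv 966 (cons (fin 965 1 901)
(fin 967 1 902)))))))
(mv 907 (cons (mv 972 (cons (fin 971 3 905)
(fin 908 0 905)))
(cons (mv 839 (cons (fin 840 3 839)
(mv 843 (cons (fin 844 2 840)
(mv 779 (cons (fin 715 5 714)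
(fin 971 5 778)))))))
(mv 844 (cons (fin 843 2 840)
(mv 908 (cons (fin 845 2 841)
(fin 972 0 905)))))))))))
(mv 971 (cons (fin 972 3 905)
(mv 1032 (cons (fin 1031 2 967)
(mv 1035 (cons (mv 1099 (cons (fin 1100 0 1032)
(fin 1163 7 906)))
(mv 1096 (cons (fin 1095 1 1031)
(mv 969 (cons (fin 841 5 840)
(mv 1097 (cons (fin 1160 5 904)
(fin 1161 6 905))))))))))))))))))
(cons (mv 842 (cons (fin 1097 5 841)
(mv 778 (cons (fin 969 5 777)
(mv 777 (cons (fin 713 7 713)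
(fin 841 7 777)))))))
(cons (mv 971 (cons (fin 972 1 969)
(mv 1031 (cons (fin 1032 2 967)
(mv 842 (cons (mv 778 (cons (fin 969 5 777)
(fin 1035 4 778)))
(cons (mv 1035 (cons (fin 1099 4 842)
(mv 843 (cons (fin 779 6 778)
(mv 841 (cons (fin 777 7 777)
(mv 840 (cons (mv 907 (cons (fin 839 0 839)
(fin 908 0 840)))
(cons (mv 775 (cons (fin 776 3 775)
(mv 839 (cons (fin 774 3 774)
(mv 903 (cons (fin 902 1 838)
(fin 904 1 839)))))))
(mv 903 (cons (fin 904 1 839)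
(mv 907 (cons (fin 908 0 840)
(mv 844 (cons (fin 780 6 779)
(mv 845 (cons (fin 905 1 841)
(fin 846 1 842))))))))))))))))))
(mv 777 (cons (fin 841 7 777)
(mv 778 (cons (fin 713 7 713)
(fin 969 5 777))))))))))))
(mv 971 (cons (fin 972 1 969)
(mv 1031 (cons (fin 1032 2 967)
(mv 842 (cons (fin 1097 5 841)
(mv 1035 (cons (fin 778 4 778)
(fin 1099 4 842)))))))))))))
(mv 971 (cons (fin 972 1 969)
(mv 1032 (cons (fin 1031 2 967)
(mv 1099 (cons (cons (mv 1100 (cons (fin 1098 3 1033)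
(fin 1035 0 1032)))
(mv 1096 (cons (cons (mv 1035 (cons (fin 1095 1 1031)
(mv 1163 (cons (fin 1227 7 970)
(mv 1162 (cons (fin 1226 5 970)
(mv 907 (cons (fin 1098 5 906)
(mv 779 (cons (fin 843 5 778)
(mv 1164 (cons (fin 1228 4 971)
(mv 1161 (cons (fin 1097 3 1096)
(mv 1224 (cons (fin 1225 1 1160)
(mv 1160 (cons (fin 1223 1 1159)
(fin 969 6 968)))))))))))))))))))
(cons (mv 1098 (cons (mv 907 (cons (fin 1162 6 906)
(mv 843 (cons (fin 779 5 778)
(fin 1035 5 842)))))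
(cons (mv 1097 (cons (mv 1159 (cons (fin 1160 1 1095)
(mv 1161 (cons (fin 1225 6 969)
(mv 1163 (cons (fin 1164 0 1096)
(mv 1227 (cons (fin 1035 7 970)
(fin 1291 7 1034)))))))))
(cons (mv 1163 (cons (fin 1164 0 1096)
(mv 1227 (cons (fin 1035 7 970)
(fin 1291 7 1034)))))
(mv 1161 (cons (fin 1225 6 969)
(mv 1160 (cons (fin 1159 1 1095)
(mv 969 (cons (fin 905 5 904)
(fin 1224 5 968))))))))))
(mv 1162 (cons (fin 907 6 906)
(mv 969 (cons (fin 905 7 905)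
(fin 1226 7 969))))))))
(mv 1160 (cons (cons (mv 969 (cons (fin 1224 6 968)
(mv 905 (cons (fin 841 5 840)
(fin 1097 5 904)))))
(mv 1097 (cons (cons (mv 1098 (cons (fin 1159 1 1095)
(mv 1161 (cons (fin 1225 6 969)
(mv 1162 (cons (fin 907 6 906)
(mv 1095 (cons (fin 1163 3 1095)
(fin 1094 2 1030)))))))))
(mv 1161 (cons (fin 1225 6 969)
(mv 969 (cons (fin 905 5 904)
(mv 1162 (cons (fin 1226 4 969)
(mv 1095 (cons (fin 1163 3 1095)
(fin 1094 2 1030))))))))))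
(cons (mv 1094 (cons (fin 1095 2 1030)
(mv 1098 (cons (fin 1159 1 1095)
(mv 905 (cons (fin 969 5 904)
(mv 1162 (cons (fin 907 6 906)
(mv 1163 (cons (fin 1164 0 1096)
(fin 1227 4 970)))))))))))
(cons (mv 1098 (cons (fin 1159 1 1095)
(mv 1161 (cons (fin 1225 6 969)
(mv 1162 (cons (fin 907 6 906)
(mv 969 (cons (fin 905 7 905)
(fin 1226 7 969)))))))))
(mv 1159 (cons (fin 1098 1 1095)
(mv 1094 (cons (fin 1095 2 1030)
(mv 1158 (cons (fin 1157 2 1093)
(mv 1161 (cons (fin 1093 3 1093)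
(fin 1225 6 969))))))))))))))
(cons (mv 1097 (cons (cons (mv 1098 (cons (fin 1159 1 1095)
(mv 1224 (cons (fin 1288 6 1032)
(mv 1225 (cons (fin 1161 6 969)
(fin 1289 4 1032)))))))
(mv 1224 (cons (fin 1288 6 1032)
(mv 1225 (cons (fin 1161 6 969)
(fin 1289 4 1032))))))
(cons (mv 1224 (cons (fin 1288 6 1032)
(mv 1223 (cons (fin 1287 5 1031)
(mv 1098 (cons (fin 1159 1 1095)
(mv 1094 (cons (fin 1095 2 1030)
(mv 1162 (cons (fin 907 6 906)
(mv 1163 (cons (fin 1161 1 1159)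
(fin 1164 0 1096)))))))))))))
(cons (mv 1098 (cons (fin 1159 1 1095)
(mv 1161 (cons (fin 1225 6 969)
(mv 1162 (cons (fin 907 6 906)
(mv 1095 (cons (fin 1163 3 1095)
(fin 1094 2 1030)))))))))
(mv 1098 (cons (fin 1159 1 1095)
(mv 1224 (cons (fin 1288 6 1032)
(mv 1223 (cons (fin 1287 5 1031)
(mv 1225 (cons (fin 1289 4 1032)
(mv 1162 (cons (fin 907 6 906)
(mv 1163 (cons (fin 1226 2 1159)
(fin 1095 0 1095)))))))))))))))))
(mv 1224 (cons (fin 969 6 968)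
(mv 1287 (cons (fin 1223 5 1031)
(mv 1289 (cons (fin 1225 4 1032)
(mv 1288 (cons (fin 1351 5 1095)
(fin 1353 4 1096))))))))))))))
(cons (cons (mv 1035 (cons (fin 1095 1 1031)
(mv 1163 (cons (fin 1227 7 970)
(mv 1162 (cons (fin 1226 5 970)
(mv 907 (cons (fin 1098 5 906)
(mv 843 (cons (fin 779 5 778)
(mv 844 (cons (fin 780 6 779)
(fin 908 6 843)))))))))))))
(mv 1035 (cons (fin 1095 1 1031)
(mv 1163 (cons (fin 1227 7 970)
(mv 1162 (cons (fin 1226 5 970)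
(mv 1164 (cons (fin 1228 4 971)
(mv 1097 (cons (fin 1161 3 1096)
(fin 1098 0 1096))))))))))))
(cons (mv 1035 (cons (fin 1095 1 1031)
(mv 1163 (cons (fin 1227 7 970)
(mv 1164 (cons (fin 1228 4 971)
(mv 1162 (cons (fin 1226 5 970)
(mv 1161 (cons (fin 1097 3 1096)
(mv 1224 (cons (fin 1225 1 1160)
(mv 1160 (cons (fin 1223 1 1159)
(fin 969 6 968)))))))))))))))
(mv 1095 (cons (fin 1035 1 1031)
(mv 1094 (cons (fin 1093 2 1029)
(fin 1097 2 1030))))))))))
(cons (mv 1098 (cons (fin 1100 3 1033)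
(mv 1162 (cons (fin 907 6 906)
(mv 969 (cons (fin 905 7 905)
(fin 1226 7 969)))))))
(mv 1035 (cons (fin 1100 0 1032)
(mv 1163 (cons (fin 1227 7 970)
(mv 1096 (cons (fin 1095 1 1031)
(mv 1164 (cons (fin 1228 4 971)
(mv 1162 (cons (fin 1226 5 970)
(mv 1161 (cons (fin 1097 3 1096)
(mv 1224 (cons (fin 1225 1 1160)
(mv 1160 (cons (fin 1223 1 1159)
(fin 969 6 968)))))))))))))))))))))))))))
(cons (cons (mv 971 (cons (fin 972 1 969)
(mv 1098 (cons (mv 1099 (cons (fin 1100 3 1033)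
(mv 906 (cons (fin 1163 4 906)
(mv 907 (cons (fin 843 6 842)
(fin 1162 6 906)))))))
(cons (mv 1099 (cons (fin 1100 3 1033)
(mv 906 (cons (fin 1163 4 906)
(mv 842 (cons (fin 1097 5 841)
(fin 1035 4 842)))))))
(mv 907 (cons (fin 1162 6 906)
(mv 843 (cons (fin 779 5 778)
(fin 1035 5 842))))))))))
(mv 971 (cons (fin 972 1 969)
(mv 1031 (cons (fin 1032 2 967)
(mv 1097 (cons (cons (mv 906 (cons (fin 842 5 841)
(mv 1161 (cons (fin 1098 5 905)
(fin 969 6 905)))))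
(mv 1161 (cons (fin 1225 6 969)
(mv 1162 (cons (cons (mv 907 (cons (fin 1098 6 906)
(mv 779 (cons (fin 843 5 778)
(mv 969 (cons (fin 1226 4 969)
(mv 1160 (cons (fin 1224 5 968)
(mv 905 (cons (fin 1096 5 904)
(mv 840 (cons (fin 904 7 840)
(mv 841 (cons (fin 776 7 776)
(fin 777 4 777)))))))))))))))
(mv 969 (cons (fin 1226 4 969)
(mv 1160 (cons (fin 1224 5 968)
(mv 905 (cons (fin 1096 5 904)
(mv 840 (cons (fin 904 7 840)
(mv 841 (cons (fin 776 7 776)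
(fin 777 4 777))))))))))))
(cons (mv 1098 (cons (fin 907 6 906)
(mv 1226 (cons (fin 1290 7 1033)
(fin 1035 6 970)))))
(mv 1098 (cons (fin 907 6 906)
(mv 905 (cons (fin 969 7 905)
(mv 1163 (cons (fin 1227 4 970)
(mv 1096 (cons (fin 1164 3 1096)
(fin 1095 0 1095)))))))))))))))
(cons (mv 906 (cons (fin 842 5 841)
(mv 1098 (cons (mv 907 (cons (fin 843 6 842)
(fin 1162 6 906)))
(cons (mv 905 (cons (fin 841 7 841)
(mv 903 (cons (fin 904 0 903)
(mv 969 (cons (fin 1162 7 905)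
(mv 1096 (cons (fin 1160 5 904)
(mv 1095 (cons (fin 1030 3 1030)
(fin 1094 2 1030)))))))))))
(mv 905 (cons (fin 841 7 841)
(mv 843 (cons (fin 907 6 842)
(mv 904 (cons (fin 903 0 903)
(mv 969 (cons (fin 840 7 840)
(mv 1096 (cons (fin 1160 5 904)
(mv 1095 (cons (fin 1030 3 1030)
(fin 1094 2 1030))))))))))))))))))
(cons (mv 906 (cons (fin 842 5 841)
(mv 1161 (cons (fin 969 6 905)
(fin 1225 6 969)))))
(mv 1161 (cons (fin 1225 6 969)
(mv 906 (cons (fin 842 5 841)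
(fin 1098 5 905))))))))))))))
(cons (mv 971 (cons (fin 972 1 969)
(mv 1031 (cons (fin 1032 2 967)
(mv 1098 (cons (cons (mv 1099 (cons (fin 1100 3 1033)
(mv 907 (cons (fin 1162 6 906)
(mv 843 (cons (fin 779 5 778)
(fin 906 6 842)))))))
(mv 1099 (cons (fin 1100 3 1033)
(mv 906 (cons (fin 1163 4 906)
(mv 1097 (cons (fin 842 5 841)
(fin 1161 5 905))))))))
(cons (mv 907 (cons (fin 1162 6 906)
(mv 843 (cons (fin 779 5 778)
(fin 906 6 842)))))
(mv 1162 (cons (fin 907 6 906)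
(mv 969 (cons (fin 905 7 905)
(fin 1226 7 969))))))))))))
(cons (mv 971 (cons (fin 972 1 969)
(mv 1031 (cons (fin 1032 2 967)
(mv 1098 (cons (cons (mv 1099 (cons (fin 1100 3 1033)
(mv 907 (cons (fin 1162 6 906)
(mv 843 (cons (fin 779 5 778)
(fin 1035 5 842)))))))
(mv 1099 (cons (fin 1100 3 1033)
(mv 906 (cons (mv 842 (cons (fin 1097 5 841)
(fin 1035 4 842)))
(cons (mv 905 (cons (fin 841 7 841)
(mv 1097 (cons (fin 1161 5 905)
(mv 904 (cons (fin 903 0 903)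
(mv 843 (cons (fin 907 6 842)
(mv 969 (cons (fin 840 7 840)
(mv 1096 (cons (fin 1160 5 904)
(mv 1095 (cons (fin 1030 3 1030)
(fin 1094 2 1030)))))))))))))))
(mv 842 (cons (fin 1035 4 842)
(mv 841 (cons (fin 777 7 777)
(fin 905 7 841)))))))))))
(cons (mv 1099 (cons (fin 1100 3 1033)
(mv 1162 (cons (mv 969 (cons (fin 905 7 905)
(fin 1226 7 969)))
(cons (mv 905 (cons (fin 969 7 905)
(mv 906 (cons (fin 841 7 841)
(mv 1097 (cons (fin 842 5 841)
(fin 1161 5 905)))))))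
(mv 1161 (cons (fin 1225 5 969)
(mv 906 (cons (fin 1097 5 905)
(mv 1035 (cons (fin 1226 6 970)
(fin 842 4 842))))))))))))
(cons (mv 907 (cons (fin 1162 6 906)
(mv 843 (cons (fin 779 5 778)
(fin 1035 5 842)))))
(mv 907 (cons (fin 1162 6 906)
(mv 843 (cons (fin 779 5 778)
(fin 906 6 842)))))))))))))
(mv 971 (cons (fin 972 1 969)
(mv 1031 (cons (fin 1032 2 967)
(mv 1097 (cons (cons (mv 906 (cons (fin 842 5 841)
(mv 1161 (cons (fin 1098 5 905)
(fin 969 6 905)))))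
(mv 1161 (cons (fin 1225 6 969)
(mv 969 (cons (cons (mv 1162 (cons (fin 1226 4 969)
(mv 905 (cons (fin 1098 7 905)
(mv 1160 (cons (fin 1096 5 904)
(fin 1224 5 968)))))))
(mv 1160 (cons (fin 1224 5 968)
(mv 905 (cons (fin 1096 5 904)
(mv 841 (cons (fin 777 4 777)
(fin 1098 4 841))))))))
(cons (mv 1162 (cons (fin 1226 4 969)
(mv 905 (cons (fin 1098 7 905)
(mv 841 (cons (fin 777 4 777)
(mv 840 (cons (fin 776 7 776)
(fin 904 7 840)))))))))
(cons (mv 1162 (cons (fin 1226 4 969)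
(mv 1160 (cons (fin 1224 5 968)
(mv 1163 (cons (mv 1096 (cons (fin 1095 3 1095)
(fin 1164 3 1096)))
(mv 1227 (cons (fin 1228 0 1160)
(fin 1098 4 970)))))))))
(mv 1160 (cons (fin 1224 5 968)
(mv 905 (cons (fin 1096 5 904)
(mv 840 (cons (fin 904 7 840)
(mv 841 (cons (fin 776 7 776)
(fin 777 4 777))))))))))))))))
(cons (mv 906 (cons (fin 842 5 841)
(mv 1098 (cons (mv 1099 (cons (fin 1100 3 1033)
(fin 1163 4 906)))
(mv 905 (cons (fin 841 7 841)
(mv 903 (cons (fin 904 0 903)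
(mv 969 (cons (fin 1162 7 905)
(mv 1096 (cons (fin 1160 5 904)
(mv 1095 (cons (fin 1030 3 1030)
(fin 1094 2 1030)))))))))))))))
(cons (mv 906 (cons (fin 842 5 841)
(mv 1161 (cons (fin 969 6 905)
(fin 1225 6 969)))))
(mv 1161 (cons (fin 1225 6 969)
(mv 906 (cons (fin 842 5 841)
(fin 1098 5 905))))))))))))))))))))
(cons (cons (mv 970 (cons (cons (cons (mv 971 (cons (fin 972 1 969)
(mv 1031 (cons (fin 1032 2 967)
(mv 1098 (cons (mv 1099 (cons (fin 1100 3 1033)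
(mv 907 (cons (fin 1162 6 906)
(mv 906 (cons (fin 843 6 842)
(fin 1163 4 906)))))))
(cons (mv 1099 (cons (fin 1100 3 1033)
(mv 906 (cons (fin 1163 4 906)
(mv 842 (cons (fin 1097 5 841)
(fin 1035 4 842)))))))
(mv 907 (cons (fin 1162 6 906)
(mv 843 (cons (fin 779 5 778)
(fin 1035 5 842))))))))))))
(mv 1098 (cons (cons (mv 1099 (cons (fin 1100 3 1033)
(mv 1031 (cons (fin 1032 0 1031)
(mv 906 (cons (fin 1163 4 906)
(mv 842 (cons (fin 1097 5 841)
(fin 1035 4 842)))))))))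
(mv 1162 (cons (cons (mv 1161 (cons (fin 1225 5 969)
(mv 906 (cons (fin 1097 5 905)
(mv 843 (cons (fin 907 6 842)
(mv 842 (cons (fin 779 6 778)
(mv 841 (cons (fin 777 7 777)
(fin 905 7 841)))))))))))
(mv 1227 (cons (fin 1163 4 970)
(mv 1226 (cons (fin 1291 4 1034)
(mv 1289 (cons (fin 1225 5 1033)
(mv 1290 (cons (fin 1097 7 1033)
(fin 1353 5 1097))))))))))
(cons (mv 1227 (cons (fin 1163 4 970)
(mv 1226 (cons (fin 1291 4 1034)
(mv 1097 (cons (fin 1290 7 1033)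
(mv 906 (cons (fin 842 5 841)
(fin 1161 5 905)))))))))
(mv 1227 (cons (fin 1163 4 970)
(mv 1225 (cons (fin 1161 5 969)
(mv 1226 (cons (fin 1289 5 1033)
(fin 1291 4 1034)))))))))))
(cons (mv 1099 (cons (fin 1100 3 1033)
(mv 1031 (cons (fin 1032 0 1031)
(mv 1162 (cons (cons (mv 1161 (cons (fin 1225 5 969)
(mv 1159 (cons (fin 1160 2 1095)
(mv 1227 (cons (fin 1163 4 970)
(mv 1226 (cons (fin 1291 4 1034)
(mv 1290 (cons (fin 1097 7 1033)
(fin 1035 6 1034)))))))))))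
(mv 1225 (cons (fin 1161 5 969)
(mv 1226 (cons (fin 1289 5 1033)
(mv 1290 (cons (fin 1097 7 1033)
(fin 1035 6 1034))))))))
(cons (mv 1227 (cons (fin 1163 4 970)
(mv 1226 (cons (fin 1291 4 1034)
(mv 1290 (cons (fin 1097 7 1033)
(fin 1035 6 1034)))))))
(cons (mv 1163 (cons (fin 1227 4 970)
(mv 1161 (cons (fin 1225 5 969)
(mv 1160 (cons (fin 1159 2 1095)
(mv 1224 (cons (fin 1223 1 1159)
(mv 1096 (cons (fin 1095 3 1095)
(mv 1097 (cons (fin 1164 3 1096)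
(fin 1288 6 1032)))))))))))))
(mv 1225 (cons (fin 1161 5 969)
(mv 1163 (cons (fin 1227 4 970)
(mv 1226 (cons (fin 1289 5 1033)
(mv 1290 (cons (fin 1035 6 1034)
(fin 1354 6 1098)))))))))))))))))
(cons (mv 1099 (cons (fin 1100 3 1033)
(mv 1031 (cons (fin 1032 0 1031)
(mv 906 (cons (fin 1163 4 906)
(mv 842 (cons (fin 1035 4 842)
(mv 843 (cons (fin 779 6 778)
(fin 907 6 842)))))))))))
(mv 1099 (cons (fin 1100 3 1033)
(mv 1032 (cons (fin 1031 0 1031)
(mv 906 (cons (cons (mv 842 (cons (fin 1097 5 841)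
(fin 1035 4 842)))
(mv 905 (cons (fin 841 7 841)
(mv 907 (cons (fin 843 6 842)
(mv 1161 (cons (fin 1097 5 905)
(mv 1225 (cons (fin 1162 5 969)
(mv 968 (cons (cons (mv 967 (cons (fin 1035 3 967)
(fin 904 1 903)))
(mv 1096 (cons (fin 1160 4 968)
(mv 1095 (cons (fin 1035 1 1031)
(mv 904 (cons (fin 1159 5 903)
(mv 839 (cons (fin 840 3 839)
(fin 903 7 839))))))))))
(cons (mv 908 (cons (fin 972 0 905)
(mv 844 (cons (fin 845 2 841)
(mv 1035 (cons (fin 967 3 967)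
(mv 1096 (cons (fin 1095 1 1031)
(fin 1160 4 968)))))))))
(mv 1096 (cons (fin 1160 4 968)
(mv 908 (cons (fin 972 0 905)
(mv 904 (cons (fin 967 1 903)
(mv 839 (cons (fin 840 3 839)
(fin 903 7 839)))))))))))))))))))))
(cons (mv 842 (cons (fin 1035 4 842)
(mv 843 (cons (fin 779 6 778)
(fin 907 6 842)))))
(mv 1097 (cons (fin 842 5 841)
(fin 1161 5 905)))))))))))))))
(cons (mv 1098 (cons (cons (mv 1099 (cons (fin 1100 3 1033)
(mv 1031 (cons (fin 1032 0 1031)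
(mv 906 (cons (fin 1163 4 906)
(mv 842 (cons (fin 1097 5 841)
(fin 1035 4 842)))))))))
(mv 906 (cons (cons (mv 1097 (cons (fin 842 5 841)
(fin 1161 5 905)))
(mv 841 (cons (fin 905 7 841)
(mv 777 (cons (fin 842 7 777)
(mv 907 (cons (fin 843 6 842)
(mv 1162 (cons (fin 971 6 906)
(mv 1225 (cons (fin 1161 5 969)
(mv 1227 (cons (fin 1163 4 970)
(mv 1226 (cons (fin 1289 5 1033)
(fin 1291 4 1034))))))))))))))))
(cons (mv 907 (cons (fin 843 6 842)
(mv 1097 (cons (fin 1161 5 905)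
(mv 841 (cons (fin 905 7 841)
(mv 1162 (cons (fin 971 6 906)
(mv 1226 (cons (fin 1290 7 1033)
(mv 1227 (cons (fin 1163 4 970)
(fin 1291 4 1034)))))))))))))
(mv 843 (cons (fin 907 6 842)
(mv 842 (cons (fin 1097 5 841)
(fin 779 6 778)))))))))
(cons (mv 1099 (cons (fin 1100 3 1033)
(mv 1031 (cons (fin 1032 0 1031)
(mv 1162 (cons (cons (mv 1161 (cons (fin 1225 5 969)
(mv 1159 (cons (fin 1160 2 1095)
(mv 1163 (cons (fin 1227 4 970)
(mv 971 (cons (fin 907 6 906)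
(mv 1226 (cons (fin 1035 5 970)
(mv 1290 (cons (fin 1097 7 1033)
(fin 1354 6 1098)))))))))))))
(cons (mv 907 (cons (fin 971 6 906)
(mv 1225 (cons (fin 1161 5 969)
(mv 1226 (cons (fin 1289 5 1033)
(mv 1290 (cons (fin 1097 7 1033)
(fin 1035 6 1034)))))))))
(mv 1161 (cons (fin 1225 5 969)
(mv 1159 (cons (fin 1160 2 1095)
(mv 1227 (cons (fin 1163 4 970)
(mv 1226 (cons (fin 1291 4 1034)
(mv 1290 (cons (fin 1097 7 1033)
(fin 1035 6 1034)))))))))))))
(cons (cons (mv 1163 (cons (fin 1227 4 970)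
(mv 971 (cons (fin 907 6 906)
(mv 1226 (cons (fin 1035 5 970)
(mv 1290 (cons (fin 1097 7 1033)
(fin 1354 6 1098)))))))))
(mv 1161 (cons (fin 1225 5 969)
(mv 1160 (cons (fin 1159 2 1095)
(mv 1163 (cons (fin 1227 4 970)
(mv 1223 (cons (fin 1224 1 1159)
(mv 1096 (cons (fin 1095 3 1095)
(mv 971 (cons (fin 907 6 906)
(mv 1164 (cons (fin 1097 3 1096)
(mv 1228 (cons (fin 1229 0 1161)
(fin 1035 4 971))))))))))))))))))
(cons (mv 1163 (cons (fin 1227 4 970)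
(mv 1161 (cons (fin 1225 5 969)
(mv 1160 (cons (fin 1159 2 1095)
(mv 907 (cons (fin 971 6 906)
(mv 1096 (cons (fin 1095 3 1095)
(mv 1224 (cons (fin 1223 1 1159)
(mv 1097 (cons (fin 1164 3 1096)
(fin 1288 6 1032)))))))))))))))
(mv 1163 (cons (fin 1227 4 970)
(mv 1225 (cons (fin 1161 5 969)
(mv 907 (cons (fin 971 6 906)
(mv 1226 (cons (fin 1289 5 1033)
(mv 1290 (cons (fin 1035 6 1034)
(fin 1354 6 1098)))))))))))))))))))
(cons (mv 1099 (cons (fin 1100 3 1033)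
(mv 1031 (cons (fin 1032 0 1031)
(mv 906 (cons (fin 1163 4 906)
(mv 842 (cons (fin 1035 4 842)
(mv 843 (cons (fin 779 6 778)
(fin 907 6 842)))))))))))
(mv 1099 (cons (fin 1100 3 1033)
(mv 1031 (cons (fin 1032 0 1031)
(mv 906 (cons (mv 842 (cons (fin 1097 5 841)
(fin 1035 4 842)))
(cons (mv 841 (cons (fin 905 7 841)
(mv 1161 (cons (fin 1097 5 905)
(mv 907 (cons (fin 843 6 842)
(mv 1162 (cons (fin 1225 5 969)
(fin 971 6 906)))))))))
(mv 842 (cons (fin 1035 4 842)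
(mv 843 (cons (fin 779 6 778)
(fin 907 6 842))))))))))))))))
(cons (mv 971 (cons (fin 972 1 969)
(mv 1031 (cons (fin 1032 2 967)
(mv 1098 (cons (cons (mv 1099 (cons (fin 1100 3 1033)
(mv 907 (cons (fin 1162 6 906)
(mv 906 (cons (fin 843 6 842)
(fin 1163 4 906)))))))
(mv 1099 (cons (fin 1100 3 1033)
(mv 906 (cons (fin 1163 4 906)
(mv 842 (cons (fin 1035 4 842)
(mv 843 (cons (fin 779 6 778)
(fin 907 6 842))))))))))
(cons (mv 1099 (cons (fin 1100 3 1033)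
(mv 906 (cons (fin 1163 4 906)
(mv 842 (cons (fin 1035 4 842)
(mv 841 (cons (fin 777 7 777)
(fin 905 7 841)))))))))
(mv 907 (cons (fin 1162 6 906)
(mv 843 (cons (fin 779 5 778)
(fin 1035 5 842))))))))))))
(mv 971 (cons (fin 972 1 969)
(mv 1032 (cons (fin 1031 2 967)
(mv 1035 (cons (cons (mv 967 (cons (fin 968 3 967)
(mv 1099 (cons (fin 1100 0 1032)
(mv 906 (cons (fin 1163 7 906)
(fin 842 4 842)))))))
(mv 968 (cons (fin 967 3 967)
(mv 1096 (cons (fin 1095 1 1031)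
(mv 904 (cons (mv 1097 (cons (fin 840 4 840)
(fin 1161 4 904)))
(cons (mv 839 (cons (fin 903 7 839)
(mv 840 (cons (fin 775 7 775)
(mv 841 (cons (fin 777 6 776)
(fin 905 6 840)))))))
(mv 905 (cons (fin 841 6 840)
(mv 903 (cons (fin 906 0 903)
(fin 839 7 839)))))))))))))
(cons (mv 1095 (cons (fin 1096 1 1031)
(mv 1099 (cons (fin 1100 0 1032)
(mv 906 (cons (fin 1163 7 906)
(fin 842 4 842)))))))
(mv 1099 (cons (fin 1100 0 1032)
(mv 1163 (cons (fin 1227 7 970)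
(mv 968 (cons (fin 967 3 967)
(mv 1096 (cons (fin 1095 1 1031)
(mv 1162 (cons (fin 1226 5 970)
(mv 1164 (cons (fin 1228 4 971)
(mv 1161 (cons (fin 1097 3 1096)
(mv 1225 (cons (fin 1224 1 1160)
(fin 1160 4 968)))))))))))))))))))))))))))
(cons (cons (mv 971 (cons (fin 972 1 969)
(mv 1032 (cons (fin 1031 2 967)
(mv 1035 (cons (cons (mv 967 (cons (fin 968 3 967)
(mv 1099 (cons (fin 1100 0 1032)
(mv 1163 (cons (fin 1227 7 970)
(mv 1095 (cons (fin 1096 1 1031)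
(mv 1164 (cons (fin 1228 4 971)
(mv 1162 (cons (fin 1226 5 970)
(mv 907 (cons (fin 1098 5 906)
(mv 843 (cons (fin 779 5 778)
(mv 844 (cons (fin 780 6 779)
(fin 908 6 843)))))))))))))))))))
(cons (mv 968 (cons (fin 967 3 967)
(mv 1096 (cons (fin 1095 1 1031)
(mv 1161 (cons (mv 1097 (cons (fin 1225 7 968)
(fin 904 4 904)))
(cons (mv 904 (cons (fin 1097 4 904)
(mv 841 (cons (fin 905 6 840)
(mv 840 (cons (fin 777 6 776)
(mv 839 (cons (fin 775 7 775)
(fin 903 7 839)))))))))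
(mv 1160 (cons (fin 1225 4 968)
(mv 1223 (cons (fin 1159 5 967)
(mv 1224 (cons (fin 1287 5 1031)
(mv 1221 (cons (fin 1222 2 1157)
(mv 1162 (cons (fin 1163 1 1159)
(mv 1098 (cons (fin 907 6 906)
(fin 1226 6 970))))))))))))))))))))
(mv 1099 (cons (fin 1100 0 1032)
(mv 1163 (cons (fin 1227 7 970)
(mv 967 (cons (fin 968 3 967)
(mv 1164 (cons (fin 1228 4 971)
(mv 1162 (cons (fin 1226 5 970)
(mv 907 (cons (fin 1098 5 906)
(mv 843 (cons (fin 779 5 778)
(mv 844 (cons (fin 780 6 779)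
(fin 908 6 843)))))))))))))))))))
(cons (cons (mv 1099 (cons (fin 1100 0 1032)
(mv 1163 (cons (fin 1227 7 970)
(mv 1095 (cons (fin 1096 1 1031)
(mv 1164 (cons (fin 1228 4 971)
(mv 1162 (cons (fin 1226 5 970)
(mv 907 (cons (fin 1098 5 906)
(mv 843 (cons (fin 779 5 778)
(mv 844 (cons (fin 780 6 779)
(fin 908 6 843)))))))))))))))))
(mv 1099 (cons (fin 1100 0 1032)
(mv 1163 (cons (fin 1227 7 970)
(mv 968 (cons (fin 967 3 967)
(mv 1096 (cons (fin 1095 1 1031)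
(mv 1162 (cons (fin 1226 5 970)
(mv 1164 (cons (fin 1228 4 971)
(mv 1161 (cons (fin 1097 3 1096)
(mv 1225 (cons (fin 1224 1 1160)
(fin 1160 4 968))))))))))))))))))
(cons (mv 1099 (cons (fin 1100 0 1032)
(mv 1163 (cons (fin 1227 7 970)
(mv 968 (cons (fin 967 3 967)
(mv 1164 (cons (fin 1228 4 971)
(mv 1096 (cons (fin 1095 1 1031)
(mv 1097 (cons (fin 1098 0 1096)
(mv 904 (cons (fin 840 4 840)
(fin 1161 4 904)))))))))))))))
(mv 1099 (cons (fin 1100 0 1032)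
(mv 968 (cons (fin 967 3 967)
(mv 1096 (cons (fin 1095 1 1031)
(mv 1160 (cons (cons (mv 1159 (cons (fin 1223 5 967)
(mv 1097 (cons (fin 1098 1 1095)
(mv 904 (cons (fin 840 4 840)
(fin 1161 4 904)))))))
(mv 1159 (cons (fin 1223 5 967)
(mv 1098 (cons (fin 1097 1 1095)
(mv 907 (cons (fin 843 5 842)
(fin 1162 5 906))))))))
(cons (mv 1161 (cons (fin 1225 4 968)
(mv 904 (cons (fin 1097 4 904)
(mv 841 (cons (fin 905 6 840)
(mv 840 (cons (fin 777 6 776)
(mv 839 (cons (fin 775 7 775)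
(fin 903 7 839)))))))))))
(mv 1225 (cons (fin 1161 4 968)
(mv 1223 (cons (fin 1159 5 967)
(mv 1224 (cons (fin 1287 5 1031)
(fin 1289 4 1032))))))))))))))))))))))))
(cons (mv 971 (cons (fin 972 1 969)
(mv 1098 (cons (mv 1099 (cons (fin 1100 3 1033)
(mv 907 (cons (fin 1162 6 906)
(mv 906 (cons (fin 843 6 842)
(fin 1163 4 906)))))))
(cons (mv 1099 (cons (fin 1100 3 1033)
(mv 906 (cons (fin 1163 4 906)
(mv 842 (cons (fin 1097 5 841)
(fin 1035 4 842)))))))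
(mv 907 (cons (fin 1162 6 906)
(mv 843 (cons (fin 779 5 778)
(fin 1035 5 842))))))))))
(mv 971 (cons (fin 972 1 969)
(mv 1032 (cons (fin 1031 2 967)
(mv 1097 (cons (cons (mv 906 (cons (fin 842 5 841)
(mv 1161 (cons (fin 1098 5 905)
(fin 1225 6 969)))))
(mv 906 (cons (fin 842 5 841)
(mv 907 (cons (mv 843 (cons (fin 779 5 778)
(fin 1098 6 842)))
(cons (mv 1098 (cons (fin 1162 6 906)
(mv 905 (cons (fin 841 7 841)
(mv 904 (cons (fin 903 0 903)
(mv 840 (cons (fin 839 3 839)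
(fin 968 4 840)))))))))
(mv 843 (cons (fin 779 5 778)
(mv 844 (cons (mv 845 (cons (fin 846 1 842)
(mv 905 (cons (fin 904 2 840)
(fin 908 2 841)))))
(cons (mv 780 (cons (fin 1035 6 779)
(mv 716 (cons (fin 652 5 651)
(fin 908 5 715)))))
(mv 845 (cons (fin 846 1 842)
(mv 904 (cons (fin 905 2 840)
(mv 1035 (cons (fin 780 6 779)
(mv 968 (cons (fin 967 3 967)
(fin 840 4 840))))))))))))))))))))
(cons (mv 1161 (cons (fin 1225 6 969)
(mv 1096 (cons (mv 1095 (cons (fin 1035 1 1031)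
(fin 1094 2 1030)))
(cons (mv 968 (cons (fin 904 4 904)
(mv 967 (cons (fin 1035 3 967)
(mv 965 (cons (fin 966 0 965)
(mv 1160 (cons (fin 903 7 903)
(mv 1159 (cons (fin 1223 5 967)
(mv 1158 (cons (fin 1157 2 1093)
(fin 1098 2 1094)))))))))))))
(mv 904 (cons (fin 968 4 904)
(mv 1095 (cons (fin 1094 2 1030)
(mv 1162 (cons (mv 1163 (cons (fin 1160 3 1095)
(fin 1164 3 1096)))
(cons (mv 1098 (cons (fin 907 6 906)
(mv 1226 (cons (fin 1290 7 1033)
(mv 1159 (cons (fin 1158 1 1094)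
(mv 1227 (cons (fin 1160 0 1159)
(fin 1291 4 1034)))))))))
(mv 1098 (cons (fin 1163 0 1095)
(fin 907 6 906)))))))))))))))
(mv 842 (cons (fin 906 5 841)
(mv 1096 (cons (mv 1095 (cons (fin 1035 1 1031)
(fin 1094 2 1030)))
(cons (mv 1161 (cons (fin 1225 6 969)
(mv 968 (cons (fin 904 4 904)
(mv 967 (cons (fin 1035 3 967)
(mv 965 (cons (fin 966 0 965)
(mv 1160 (cons (fin 903 7 903)
(mv 1223 (cons (fin 1159 5 967)
(mv 1224 (cons (fin 1287 5 1031)
(fin 1288 6 1032)))))))))))))))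
(mv 1094 (cons (fin 1095 2 1030)
(mv 1160 (cons (cons (mv 1161 (cons (fin 1225 6 969)
(mv 904 (cons (fin 968 4 904)
(mv 1224 (cons (fin 1288 6 1032)
(mv 1223 (cons (fin 1287 5 1031)
(mv 1222 (cons (fin 1221 2 1157)
(mv 1162 (cons (fin 1159 1 1158)
(fin 1163 1 1159)))))))))))))
(mv 1224 (cons (fin 1288 6 1032)
(mv 1223 (cons (fin 1287 5 1031)
(mv 968 (cons (fin 1159 5 967)
(mv 903 (cons (fin 967 7 903)
(mv 904 (cons (fin 839 7 839)
(fin 840 4 840))))))))))))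
(cons (mv 1161 (cons (fin 1225 6 969)
(mv 968 (cons (fin 904 4 904)
(mv 1159 (cons (fin 1223 5 967)
(mv 1158 (cons (fin 1093 3 1093)
(fin 1157 2 1093)))))))))
(cons (mv 1161 (cons (fin 1225 6 969)
(mv 1224 (cons (fin 1288 6 1032)
(mv 1223 (cons (fin 1287 5 1031)
(mv 1222 (cons (fin 1221 2 1157)
(mv 1162 (cons (fin 1159 1 1158)
(fin 1163 1 1159)))))))))))
(mv 1224 (cons (fin 1288 6 1032)
(mv 1225 (cons (fin 1161 6 969)
(fin 1289 4 1032)))))))))))))))))))))))))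
(cons (mv 971 (cons (fin 972 1 969)
(mv 1031 (cons (fin 1032 2 967)
(mv 1098 (cons (cons (mv 1099 (cons (fin 1100 3 1033)
(mv 906 (cons (fin 1163 4 906)
(mv 907 (cons (fin 843 6 842)
(fin 1162 6 906)))))))
(mv 1099 (cons (fin 1100 3 1033)
(mv 906 (cons (fin 1163 4 906)
(mv 1097 (cons (fin 842 5 841)
(fin 1161 5 905))))))))
(cons (mv 907 (cons (fin 1162 6 906)
(mv 843 (cons (fin 779 5 778)
(fin 906 6 842)))))
(mv 1162 (cons (fin 907 6 906)
(mv 1099 (cons (fin 1100 3 1033)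
(mv 1161 (cons (fin 1225 5 969)
(mv 1160 (cons (fin 1159 2 1095)
(mv 1163 (cons (fin 1227 4 970)
(mv 1224 (cons (fin 1223 1 1159)
(mv 1096 (cons (fin 1095 3 1095)
(mv 1097 (cons (fin 1164 3 1096)
(fin 1288 6 1032))))))))))))))))))))))))
(cons (mv 971 (cons (fin 972 1 969)
(mv 1031 (cons (fin 1032 2 967)
(mv 906 (cons (cons (mv 842 (cons (fin 1097 5 841)
(mv 1035 (cons (fin 778 4 778)
(fin 1099 4 842)))))
(mv 1099 (cons (cons (mv 1098 (cons (fin 1100 3 1033)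
(fin 1163 4 906)))
(mv 1035 (cons (fin 1163 7 906)
(mv 1100 (cons (fin 1102 3 1034)
(mv 907 (cons (fin 1164 4 907)
(mv 844 (cons (fin 908 6 843)
(mv 843 (cons (fin 779 5 778)
(fin 780 6 779))))))))))))
(cons (mv 1100 (cons (fin 1098 3 1033)
(mv 1035 (cons (fin 1102 3 1034)
(mv 907 (cons (fin 1164 4 907)
(mv 844 (cons (fin 908 6 843)
(mv 843 (cons (fin 779 5 778)
(fin 780 6 779)))))))))))
(mv 1163 (cons (fin 1035 7 906)
(fin 1098 4 906)))))))
(cons (mv 842 (cons (fin 1097 5 841)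
(mv 777 (cons (fin 841 7 777)
(mv 778 (cons (fin 713 7 713)
(fin 1035 4 778)))))))
(mv 842 (cons (fin 1097 5 841)
(mv 777 (cons (fin 841 7 777)
(mv 713 (cons (fin 778 7 713)
(mv 843 (cons (fin 779 6 778)
(mv 1098 (cons (fin 907 6 842)
(mv 1099 (cons (fin 1100 3 1033)
(fin 1163 4 906))))))))))))))))))))
(mv 971 (cons (fin 972 1 969)
(mv 1032 (cons (fin 1031 2 967)
(mv 1098 (cons (cons (mv 1099 (cons (fin 1100 3 1033)
(mv 907 (cons (fin 1162 6 906)
(mv 843 (cons (fin 779 5 778)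
(fin 1035 5 842)))))))
(mv 1099 (cons (fin 1100 3 1033)
(mv 1162 (cons (cons (mv 1161 (cons (fin 1225 5 969)
(mv 906 (cons (fin 1097 5 905)
(mv 1035 (cons (fin 1226 6 970)
(fin 842 4 842)))))))
(cons (mv 1161 (cons (fin 1225 5 969)
(mv 906 (cons (fin 1097 5 905)
(mv 842 (cons (fin 1035 4 842)
(mv 841 (cons (fin 777 7 777)
(fin 905 7 841)))))))))
(mv 1225 (cons (fin 1161 5 969)
(mv 1226 (cons (fin 1289 5 1033)
(mv 1290 (cons (fin 1097 7 1033)
(mv 1291 (cons (fin 1227 4 1034)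
(fin 1355 4 1098)))))))))))
(cons (mv 1226 (cons (fin 1035 6 970)
(mv 1225 (cons (fin 1289 5 1033)
(mv 1290 (cons (fin 1097 7 1033)
(mv 1291 (cons (fin 1227 4 1034)
(fin 1355 4 1098)))))))))
(cons (mv 1035 (cons (fin 1226 6 970)
(mv 1095 (cons (fin 1096 1 1031)
(mv 906 (cons (fin 842 4 842)
(mv 968 (cons (fin 967 3 967)
(mv 905 (cons (fin 841 7 841)
(mv 1097 (cons (fin 1161 5 905)
(mv 904 (cons (fin 903 0 903)
(fin 840 4 840)))))))))))))))
(mv 1226 (cons (fin 1035 6 970)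
(mv 1225 (cons (fin 1161 5 969)
(fin 1289 5 1033))))))))))))
(cons (mv 1099 (cons (fin 1100 3 1033)
(mv 906 (cons (mv 1097 (cons (fin 842 5 841)
(fin 1161 5 905)))
(cons (mv 905 (cons (fin 841 7 841)
(mv 1097 (cons (fin 1161 5 905)
(mv 904 (cons (fin 903 0 903)
(mv 907 (cons (fin 843 6 842)
(mv 840 (cons (fin 839 3 839)
(fin 968 4 840)))))))))))
(mv 842 (cons (fin 1035 4 842)
(mv 843 (cons (fin 779 6 778)
(fin 907 6 842))))))))))
(cons (mv 907 (cons (fin 1162 6 906)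
(mv 843 (cons (fin 779 5 778)
(fin 1035 5 842)))))
(mv 907 (cons (fin 1162 6 906)
(mv 843 (cons (fin 779 5 778)
(fin 906 6 842))))))))))))))))))
(mv 1032 (cons (cons (cons (mv 1031 (cons (cons (mv 966 (cons (fin 967 3 966)
(mv 965 (cons (fin 1030 3 965)
(mv 1099 (cons (fin 1098 0 1031)
(mv 1095 (cons (fin 1094 1 1030)
(mv 1035 (cons (fin 1096 1 1031)
(fin 1100 0 1032)))))))))))
(mv 966 (cons (fin 967 3 966)
(mv 1030 (cons (fin 965 3 965)
(mv 1094 (cons (fin 1093 1 1029)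
(fin 1095 1 1030))))))))
(cons (mv 1098 (cons (fin 1099 0 1031)
(mv 1030 (cons (fin 1097 0 1030)
(mv 966 (cons (fin 965 3 965)
(fin 967 3 966)))))))
(cons (mv 1094 (cons (fin 1095 1 1030)
(mv 1030 (cons (fin 1093 1 1029)
(mv 1098 (cons (fin 1097 0 1030)
(fin 1099 0 1031)))))))
(mv 1098 (cons (fin 1099 0 1031)
(mv 967 (cons (fin 966 3 966)
(mv 1095 (cons (fin 1094 1 1030)
(mv 1035 (cons (fin 968 3 967)
(fin 1096 1 1031)))))))))))))
(mv 1031 (cons (cons (mv 966 (cons (fin 967 3 966)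
(mv 1030 (cons (fin 965 3 965)
(mv 1094 (cons (fin 1093 1 1029)
(fin 1095 1 1030)))))))
(mv 1098 (cons (fin 1099 0 1031)
(mv 1030 (cons (fin 1097 0 1030)
(mv 1094 (cons (fin 1093 1 1029)
(fin 1095 1 1030))))))))
(cons (mv 966 (cons (fin 967 3 966)
(mv 1030 (cons (fin 965 3 965)
(mv 1098 (cons (fin 1097 0 1030)
(fin 1099 0 1031)))))))
(mv 1098 (cons (fin 1099 0 1031)
(mv 1095 (cons (fin 1094 1 1030)
(mv 967 (cons (fin 966 3 966)
(mv 1159 (cons (mv 968 (cons (fin 904 6 903)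
(fin 1223 6 967)))
(mv 1158 (cons (fin 1222 5 966)
(mv 1096 (cons (fin 1097 1 1094)
(mv 903 (cons (fin 839 4 839)
(fin 1160 4 903)))))))))))))))))))
(cons (mv 1035 (cons (cons (mv 967 (cons (fin 968 3 967)
(mv 1099 (cons (fin 1100 0 1032)
(mv 971 (cons (fin 972 2 968)
(mv 1095 (cons (fin 1096 1 1031)
(mv 1163 (cons (cons (mv 1162 (cons (fin 1226 5 970)
(mv 907 (cons (fin 1098 5 906)
(mv 844 (cons (fin 908 6 843)
(mv 843 (cons (fin 780 6 779)
(mv 842 (cons (fin 778 7 778)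
(fin 906 7 842)))))))))))
(mv 1228 (cons (fin 1164 4 971)
(mv 1227 (cons (fin 1292 4 1035)
(mv 1290 (cons (fin 1226 5 1034)
(mv 1291 (cons (fin 1098 7 1034)
(fin 1354 5 1098))))))))))
(cons (mv 1228 (cons (fin 1164 4 971)
(mv 1227 (cons (fin 1292 4 1035)
(mv 1098 (cons (fin 1291 7 1034)
(mv 907 (cons (fin 843 5 842)
(fin 1162 5 906)))))))))
(mv 1228 (cons (fin 1164 4 971)
(mv 1226 (cons (fin 1162 5 970)
(mv 1227 (cons (fin 1290 5 1034)
(fin 1292 4 1035))))))))))))))))))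
(mv 971 (cons (fin 972 2 968)
(mv 968 (cons (fin 967 3 967)
(mv 1096 (cons (fin 1095 1 1031)
(mv 1160 (cons (mv 969 (cons (fin 905 6 904)
(fin 1224 6 968)))
(cons (mv 1159 (cons (fin 1223 5 967)
(mv 1161 (cons (fin 1225 4 968)
(mv 904 (cons (fin 1097 4 904)
(mv 841 (cons (fin 905 6 840)
(mv 840 (cons (fin 777 6 776)
(mv 839 (cons (fin 775 7 775)
(fin 903 7 839)))))))))))))
(mv 1161 (cons (fin 1225 4 968)
(mv 904 (cons (fin 1097 4 904)
(mv 839 (cons (fin 903 7 839)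
(mv 775 (cons (fin 840 7 775)
(mv 1224 (cons (fin 969 6 968)
(mv 1223 (cons (fin 1159 5 967)
(fin 1287 5 1031)))))))))))))))))))))))
(cons (mv 968 (cons (fin 967 3 967)
(mv 1096 (cons (fin 1095 1 1031)
(mv 1099 (cons (fin 1100 0 1032)
(mv 1160 (cons (mv 969 (cons (fin 905 6 904)
(fin 1224 6 968)))
(mv 1159 (cons (fin 1223 5 967)
(mv 1097 (cons (fin 1098 1 1095)
(mv 904 (cons (fin 840 4 840)
(fin 1161 4 904)))))))))))))))
(cons (mv 971 (cons (fin 972 2 968)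
(mv 967 (cons (fin 968 3 967)
(mv 1099 (cons (fin 1100 0 1032)
(mv 1163 (cons (cons (mv 1162 (cons (fin 1226 5 970)
(mv 907 (cons (fin 1098 5 906)
(mv 844 (cons (fin 908 6 843)
(mv 843 (cons (fin 780 6 779)
(mv 842 (cons (fin 778 7 778)
(fin 906 7 842)))))))))))
(mv 1228 (cons (fin 1164 4 971)
(mv 1227 (cons (fin 1292 4 1035)
(mv 1290 (cons (fin 1226 5 1034)
(mv 1291 (cons (fin 1098 7 1034)
(fin 1354 5 1098))))))))))
(cons (mv 1228 (cons (fin 1164 4 971)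
(mv 1227 (cons (fin 1292 4 1035)
(mv 1098 (cons (fin 1291 7 1034)
(mv 907 (cons (fin 843 5 842)
(fin 1162 5 906)))))))))
(mv 1228 (cons (fin 1164 4 971)
(mv 1226 (cons (fin 1162 5 970)
(mv 1227 (cons (fin 1290 5 1034)
(fin 1292 4 1035))))))))))))))))
(mv 1095 (cons (fin 1096 1 1031)
(mv 971 (cons (fin 972 2 968)
(mv 1099 (cons (fin 1100 0 1032)
(mv 1163 (cons (cons (mv 1162 (cons (fin 1226 5 970)
(mv 907 (cons (fin 1098 5 906)
(mv 844 (cons (fin 908 6 843)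
(mv 843 (cons (fin 780 6 779)
(mv 842 (cons (fin 778 7 778)
(fin 906 7 842)))))))))))
(mv 1228 (cons (fin 1164 4 971)
(mv 1227 (cons (fin 1292 4 1035)
(mv 1290 (cons (fin 1226 5 1034)
(mv 1291 (cons (fin 1098 7 1034)
(fin 1354 5 1098))))))))))
(cons (mv 1228 (cons (fin 1164 4 971)
(mv 1227 (cons (fin 1292 4 1035)
(mv 1098 (cons (fin 1291 7 1034)
(mv 907 (cons (fin 843 5 842)
(fin 1162 5 906)))))))))
(mv 1228 (cons (fin 1164 4 971)
(mv 1226 (cons (fin 1162 5 970)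
(mv 1227 (cons (fin 1290 5 1034)
(fin 1292 4 1035))))))))))))))))))))
(cons (mv 1031 (cons (cons (mv 966 (cons (fin 967 3 966)
(mv 1030 (cons (fin 965 3 965)
(mv 1094 (cons (fin 1093 1 1029)
(fin 1095 1 1030)))))))
(cons (mv 966 (cons (fin 967 3 966)
(mv 1030 (cons (fin 965 3 965)
(mv 1093 (cons (fin 1094 1 1029)
(mv 1029 (cons (fin 1092 1 1028)
(mv 1097 (cons (fin 1096 0 1029)
(fin 1098 0 1030)))))))))))
(mv 1094 (cons (fin 1095 1 1030)
(mv 1030 (cons (fin 1093 1 1029)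
(mv 965 (cons (fin 966 3 965)
(mv 1029 (cons (fin 964 3 964)
(mv 1097 (cons (fin 1096 0 1029)
(fin 1098 0 1030)))))))))))))
(cons (mv 1094 (cons (fin 1095 1 1030)
(mv 1030 (cons (fin 1093 1 1029)
(mv 1097 (cons (fin 1098 0 1030)
(mv 1029 (cons (fin 1096 0 1029)
(mv 968 (cons (fin 969 2 965)
(mv 967 (cons (fin 1035 3 967)
(fin 1028 2 964)))))))))))))
(cons (mv 966 (cons (fin 967 3 966)
(mv 1030 (cons (fin 965 3 965)
(mv 1097 (cons (fin 1098 0 1030)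
(mv 1096 (cons (fin 1029 0 1029)
(mv 1095 (cons (fin 1035 1 1031)
(mv 1159 (cons (fin 1223 7 966)
(mv 838 (cons (fin 902 4 838)
(mv 968 (cons (fin 904 5 903)
(mv 1160 (cons (mv 969 (cons (fin 905 5 904)
(fin 1224 6 968)))
(cons (mv 1161 (cons (fin 1225 7 968)
(mv 1162 (cons (fin 1163 3 1095)
(mv 969 (cons (fin 905 5 904)
(fin 1226 4 969)))))))
(mv 1224 (cons (fin 1288 7 1031)
(mv 1225 (cons (fin 1161 7 968)
(fin 1289 4 1032))))))))))))))))))))))))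
(mv 967 (cons (fin 966 3 966)
(mv 1095 (cons (fin 1094 1 1030)
(mv 1035 (cons (fin 968 3 967)
(fin 1096 1 1031)))))))))))
(mv 1031 (cons (cons (mv 966 (cons (fin 967 3 966)
(mv 1030 (cons (fin 965 3 965)
(mv 1094 (cons (fin 1093 1 1029)
(fin 1095 1 1030)))))))
(mv 1030 (cons (cons (mv 1094 (cons (fin 1093 1 1029)
(fin 1095 1 1030)))
(mv 965 (cons (fin 966 3 965)
(mv 1029 (cons (fin 964 3 964)
(mv 1092 (cons (fin 1093 1 1028)
(mv 1028 (cons (fin 1091 1 1027)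
(mv 1096 (cons (fin 1095 0 1028)
(fin 1097 0 1029))))))))))))
(cons (mv 965 (cons (fin 966 3 965)
(mv 1029 (cons (fin 964 3 964)
(mv 1093 (cons (fin 1092 1 1028)
(fin 1094 1 1029)))))))
(mv 1095 (cons (fin 1094 1 1030)
(mv 965 (cons (fin 966 3 965)
(mv 1029 (cons (fin 964 3 964)
(mv 1096 (cons (fin 1035 1 1031)
(fin 1028 0 1028)))))))))))))
(cons (mv 1030 (cons (cons (mv 966 (cons (fin 965 3 965)
(fin 967 3 966)))
(mv 1093 (cons (fin 1094 1 1029)
(mv 1029 (cons (fin 1092 1 1028)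
(mv 964 (cons (fin 965 3 964)
(mv 963 (cons (fin 1028 3 963)
(mv 1096 (cons (fin 1097 0 1029)
(mv 968 (cons (fin 969 2 965)
(mv 967 (cons (fin 1035 3 967)
(mv 1160 (cons (fin 903 7 903)
(fin 1224 7 967))))))))))))))))))
(cons (mv 965 (cons (fin 966 3 965)
(mv 1029 (cons (fin 964 3 964)
(mv 1093 (cons (fin 1092 1 1028)
(fin 1094 1 1029)))))))
(mv 1093 (cons (fin 1094 1 1029)
(mv 1029 (cons (fin 1092 1 1028)
(mv 967 (cons (fin 966 3 966)
(mv 968 (cons (fin 1035 3 967)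
(fin 1028 2 964))))))))))))
(cons (mv 1095 (cons (fin 1094 1 1030)
(mv 968 (cons (cons (mv 1035 (cons (fin 967 3 967)
(fin 1096 1 1031)))
(mv 904 (cons (fin 840 5 839)
(mv 1159 (cons (fin 1096 5 903)
(fin 967 6 903))))))
(cons (mv 1159 (cons (fin 1223 6 967)
(mv 904 (cons (fin 840 5 839)
(fin 967 6 903)))))
(mv 1096 (cons (fin 1035 1 1031)
(mv 904 (cons (fin 840 5 839)
(fin 1159 5 903))))))))))
(mv 967 (cons (fin 966 3 966)
(mv 1096 (cons (mv 1035 (cons (fin 968 3 967)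
(fin 1095 1 1031)))
(cons (mv 903 (cons (fin 839 4 839)
(mv 1160 (cons (fin 968 7 903)
(fin 1224 7 967)))))
(mv 1160 (cons (fin 1224 7 967)
(mv 903 (cons (fin 839 4 839)
(fin 1095 4 903)))))))))))))))))
(cons (cons (mv 1031 (cons (cons (mv 1098 (cons (fin 1099 0 1031)
(mv 1030 (cons (fin 1097 0 1030)
(mv 966 (cons (fin 965 3 965)
(fin 967 3 966)))))))
(mv 1030 (cons (cons (mv 966 (cons (fin 965 3 965)
(fin 967 3 966)))
(mv 1093 (cons (fin 1094 1 1029)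
(mv 1029 (cons (fin 1092 1 1028)
(mv 964 (cons (fin 965 3 964)
(mv 963 (cons (fin 1028 3 963)
(mv 1096 (cons (fin 1097 0 1029)
(mv 968 (cons (fin 969 2 965)
(mv 967 (cons (fin 1035 3 967)
(mv 1160 (cons (fin 903 7 903)
(fin 1224 7 967))))))))))))))))))
(cons (mv 965 (cons (fin 966 3 965)
(mv 1029 (cons (fin 964 3 964)
(mv 1093 (cons (fin 1092 1 1028)
(fin 1094 1 1029)))))))
(mv 1093 (cons (fin 1094 1 1029)
(mv 1029 (cons (fin 1092 1 1028)
(mv 967 (cons (fin 966 3 966)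
(mv 968 (cons (fin 1035 3 967)
(fin 1028 2 964)))))))))))))
(cons (mv 1098 (cons (fin 1099 0 1031)
(mv 1030 (cons (fin 1097 0 1030)
(mv 1093 (cons (fin 1094 1 1029)
(mv 1029 (cons (fin 1092 1 1028)
(mv 965 (cons (fin 964 3 964)
(fin 966 3 965)))))))))))
(cons (mv 1098 (cons (fin 1099 0 1031)
(mv 1030 (cons (fin 1097 0 1030)
(mv 1093 (cons (fin 1094 1 1029)
(mv 1029 (cons (fin 1092 1 1028)
(mv 964 (cons (fin 965 3 964)
(mv 1028 (cons (fin 963 3 963)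
(mv 968 (cons (fin 967 2 964)
(fin 969 2 965)))))))))))))))
(mv 1099 (cons (fin 1098 0 1031)
(mv 967 (cons (fin 966 3 966)
(mv 1035 (cons (fin 968 3 967)
(fin 1100 0 1032)))))))))))
(mv 1099 (cons (cons (mv 1098 (cons (fin 1100 3 1033)
(fin 1031 0 1031)))
(mv 1031 (cons (fin 1098 0 1031)
(mv 1030 (cons (cons (mv 1094 (cons (fin 1093 1 1029)
(fin 1095 1 1030)))
(mv 965 (cons (fin 966 3 965)
(mv 1029 (cons (fin 964 3 964)
(mv 1092 (cons (fin 1093 1 1028)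
(mv 1028 (cons (fin 1091 1 1027)
(mv 1096 (cons (fin 1095 0 1028)
(fin 1097 0 1029))))))))))))
(cons (mv 1093 (cons (fin 1094 1 1029)
(mv 1029 (cons (fin 1092 1 1028)
(mv 965 (cons (fin 964 3 964)
(fin 966 3 965)))))))
(mv 965 (cons (fin 966 3 965)
(mv 1029 (cons (fin 964 3 964)
(mv 1095 (cons (fin 1094 1 1030)
(mv 1096 (cons (fin 1035 1 1031)
(fin 1028 0 1028)))))))))))))))
(cons (mv 1035 (cons (fin 1100 0 1032)
(mv 971 (cons (fin 972 2 968)
(mv 1163 (cons (cons (mv 1095 (cons (fin 1096 1 1031)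
(mv 1031 (cons (fin 1094 1 1030)
(mv 1226 (cons (fin 1162 5 970)
(mv 1228 (cons (fin 1164 4 971)
(mv 1227 (cons (fin 1290 5 1034)
(fin 1292 4 1035)))))))))))
(cons (mv 1228 (cons (fin 1164 4 971)
(mv 1226 (cons (fin 1162 5 970)
(mv 1227 (cons (fin 1290 5 1034)
(fin 1292 4 1035)))))))
(mv 1228 (cons (fin 1164 4 971)
(mv 1096 (cons (fin 1095 1 1031)
(mv 1227 (cons (fin 1292 4 1035)
(mv 1160 (cons (cons (mv 1161 (cons (fin 1162 0 1160)
(mv 969 (cons (fin 1224 6 968)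
(mv 968 (cons (fin 905 6 904)
(fin 1225 4 968)))))))
(mv 1161 (cons (fin 1162 0 1160)
(mv 968 (cons (fin 1225 4 968)
(mv 904 (cons (fin 1097 4 904)
(mv 905 (cons (fin 841 6 840)
(fin 969 6 904))))))))))
(cons (mv 1161 (cons (fin 1162 0 1160)
(mv 968 (cons (fin 1225 4 968)
(mv 1097 (cons (fin 904 4 904)
(mv 1223 (cons (fin 1159 5 967)
(mv 1224 (cons (fin 1287 5 1031)
(fin 1288 6 1032)))))))))))
(mv 969 (cons (fin 1224 6 968)
(mv 905 (cons (fin 841 5 840)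
(fin 1097 5 904))))))))))))))))
(cons (cons (mv 1226 (cons (fin 1162 5 970)
(mv 1227 (cons (fin 1290 5 1034)
(mv 1224 (cons (cons (mv 1095 (cons (fin 1096 1 1031)
(mv 1031 (cons (fin 1094 1 1030)
(mv 1225 (cons (fin 1164 2 1160)
(mv 1287 (cons (fin 1288 1 1223)
(mv 1223 (cons (fin 1286 1 1222)
(mv 1159 (cons (fin 1158 3 1158)
(fin 1160 3 1159)))))))))))))
(cons (mv 1096 (cons (fin 1095 1 1031)
(mv 1160 (cons (fin 969 6 968)
(mv 1223 (cons (fin 1287 5 1031)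
(mv 968 (cons (fin 1159 5 967)
(mv 1097 (cons (fin 1288 6 1032)
(mv 904 (cons (fin 840 4 840)
(fin 1161 4 904)))))))))))))
(mv 1225 (cons (fin 1164 2 1160)
(mv 1287 (cons (fin 1288 1 1223)
(mv 1223 (cons (fin 1286 1 1222)
(mv 1159 (cons (fin 1158 3 1158)
(fin 1160 3 1159)))))))))))
(cons (cons (mv 1225 (cons (fin 1164 2 1160)
(mv 1095 (cons (fin 1096 1 1031)
(mv 1031 (cons (fin 1094 1 1030)
(mv 1287 (cons (fin 1288 1 1223)
(mv 1223 (cons (fin 1286 1 1222)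
(mv 1159 (cons (fin 1158 3 1158)
(fin 968 6 967)))))))))))))
(mv 1225 (cons (fin 1164 2 1160)
(mv 1095 (cons (fin 1096 1 1031)
(mv 1031 (cons (fin 1094 1 1030)
(mv 1291 (cons (fin 1292 0 1224)
(mv 1159 (cons (fin 1160 3 1159)
(mv 1223 (cons (fin 1158 3 1158)
(fin 968 6 967))))))))))))))
(cons (mv 1096 (cons (fin 1095 1 1031)
(mv 1164 (cons (fin 1225 2 1160)
(mv 1160 (cons (fin 969 6 968)
(mv 1287 (cons (fin 1223 5 1031)
(mv 1288 (cons (fin 1351 5 1095)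
(fin 1097 6 1032)))))))))))
(mv 1096 (cons (fin 1095 1 1031)
(mv 1225 (cons (fin 1164 2 1160)
(mv 1160 (cons (fin 1159 3 1159)
(fin 969 6 968)))))))))))))))
(mv 1227 (cons (cons (mv 1228 (cons (fin 1164 4 971)
(fin 1292 4 1035)))
(mv 1226 (cons (fin 1290 5 1034)
(mv 1224 (cons (cons (mv 1095 (cons (fin 1096 1 1031)
(mv 1031 (cons (fin 1094 1 1030)
(mv 1225 (cons (fin 1164 2 1160)
(mv 1287 (cons (fin 1288 1 1223)
(mv 1223 (cons (fin 1286 1 1222)
(mv 1159 (cons (fin 1158 3 1158)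
(fin 1160 3 1159)))))))))))))
(cons (mv 1096 (cons (fin 1095 1 1031)
(mv 1160 (cons (fin 969 6 968)
(mv 1223 (cons (fin 1287 5 1031)
(mv 968 (cons (fin 1159 5 967)
(mv 1097 (cons (fin 1288 6 1032)
(mv 904 (cons (fin 840 4 840)
(fin 1161 4 904)))))))))))))
(mv 1225 (cons (fin 1164 2 1160)
(mv 1287 (cons (fin 1288 1 1223)
(mv 1223 (cons (fin 1286 1 1222)
(mv 1159 (cons (fin 1158 3 1158)
(fin 1160 3 1159)))))))))))
(cons (cons (mv 1225 (cons (fin 1164 2 1160)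
(mv 1095 (cons (fin 1096 1 1031)
(mv 1031 (cons (fin 1094 1 1030)
(mv 1287 (cons (fin 1288 1 1223)
(mv 1223 (cons (fin 1286 1 1222)
(mv 1159 (cons (fin 1158 3 1158)
(fin 968 6 967)))))))))))))
(mv 1225 (cons (fin 1164 2 1160)
(mv 1095 (cons (fin 1096 1 1031)
(mv 1031 (cons (fin 1094 1 1030)
(mv 1291 (cons (fin 1292 0 1224)
(mv 1159 (cons (fin 1160 3 1159)
(mv 1223 (cons (fin 1158 3 1158)
(fin 968 6 967))))))))))))))
(cons (mv 1096 (cons (fin 1095 1 1031)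
(mv 1164 (cons (fin 1225 2 1160)
(mv 1160 (cons (fin 969 6 968)
(mv 1287 (cons (fin 1223 5 1031)
(mv 1288 (cons (fin 1351 5 1095)
(fin 1097 6 1032)))))))))))
(mv 1096 (cons (fin 1095 1 1031)
(mv 1225 (cons (fin 1164 2 1160)
(mv 1160 (cons (fin 1159 3 1159)
(fin 969 6 968))))))))))))))
(cons (mv 1096 (cons (fin 1095 1 1031)
(mv 1164 (cons (fin 1228 4 971)
(mv 1226 (cons (fin 1290 5 1034)
(mv 1224 (cons (fin 1225 2 1160)
(mv 1160 (cons (fin 969 6 968)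
(mv 1287 (cons (fin 1223 5 1031)
(mv 1288 (cons (fin 1351 5 1095)
(fin 1097 6 1032)))))))))))))))
(mv 1226 (cons (fin 1290 5 1034)
(mv 1096 (cons (fin 1095 1 1031)
(mv 1292 (cons (fin 1228 4 1035)
(mv 1291 (cons (fin 1356 4 1099)
(mv 1224 (cons (fin 1225 0 1224)
(mv 1160 (cons (fin 969 6 968)
(mv 1287 (cons (fin 1223 5 1031)
(mv 1288 (cons (fin 1351 5 1095)
(fin 1097 6 1032)))))))))))))))))))))
(cons (mv 1226 (cons (fin 1162 5 970)
(mv 1096 (cons (fin 1095 1 1031)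
(mv 1227 (cons (fin 1290 5 1034)
(mv 1292 (cons (fin 1228 4 1035)
(mv 1291 (cons (fin 1356 4 1099)
(mv 1224 (cons (fin 1225 0 1224)
(mv 1160 (cons (fin 969 6 968)
(mv 1287 (cons (fin 1223 5 1031)
(mv 1288 (cons (fin 1351 5 1095)
(fin 1097 6 1032)))))))))))))))))))
(mv 1162 (cons (fin 1226 5 970)
(mv 1164 (cons (fin 1228 4 971)
(mv 1096 (cons (fin 1095 1 1031)
(mv 1161 (cons (fin 1097 3 1096)
(mv 1224 (cons (fin 1225 1 1160)
(mv 1160 (cons (fin 1223 1 1159)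
(fin 969 6 968)))))))))))))))))))))
(mv 1100 (cons (fin 1098 3 1033)
(fin 1035 0 1032)))))))
(cons (mv 1031 (cons (cons (mv 966 (cons (fin 967 3 966)
(mv 1030 (cons (fin 965 3 965)
(mv 1094 (cons (fin 1093 1 1029)
(fin 1095 1 1030)))))))
(mv 1098 (cons (fin 1099 0 1031)
(mv 1030 (cons (fin 1097 0 1030)
(mv 1094 (cons (fin 1093 1 1029)
(fin 1095 1 1030))))))))
(cons (mv 966 (cons (fin 967 3 966)
(mv 1030 (cons (fin 965 3 965)
(mv 1098 (cons (fin 1097 0 1030)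
(fin 1099 0 1031)))))))
(mv 1098 (cons (fin 1099 0 1031)
(mv 1095 (cons (fin 1094 1 1030)
(mv 967 (cons (fin 966 3 966)
(mv 968 (cons (fin 1035 3 967)
(mv 904 (cons (fin 840 5 839)
(fin 1159 6 903))))))))))))))
(cons (mv 1031 (cons (cons (mv 966 (cons (fin 967 3 966)
(mv 965 (cons (fin 1030 3 965)
(mv 1099 (cons (fin 1098 0 1031)
(mv 1095 (cons (fin 1094 1 1030)
(mv 1035 (cons (fin 1096 1 1031)
(fin 1100 0 1032)))))))))))
(mv 966 (cons (fin 967 3 966)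
(mv 1030 (cons (fin 965 3 965)
(mv 1094 (cons (fin 1093 1 1029)
(fin 1095 1 1030))))))))
(cons (mv 1098 (cons (fin 1099 0 1031)
(mv 1030 (cons (fin 1097 0 1030)
(mv 966 (cons (fin 965 3 965)
(fin 967 3 966)))))))
(cons (mv 1094 (cons (fin 1095 1 1030)
(mv 1030 (cons (fin 1093 1 1029)
(mv 1098 (cons (fin 1097 0 1030)
(fin 1099 0 1031)))))))
(mv 1098 (cons (fin 1099 0 1031)
(mv 967 (cons (fin 966 3 966)
(mv 1095 (cons (fin 1094 1 1030)
(mv 1096 (cons (fin 1035 1 1031)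
(mv 1160 (cons (fin 1224 7 967)
(fin 903 4 903)))))))))))))))
(mv 1035 (cons (cons (mv 967 (cons (fin 968 3 967)
(mv 1031 (cons (fin 966 3 966)
(mv 1095 (cons (fin 1094 1 1030)
(fin 1096 1 1031)))))))
(mv 1095 (cons (fin 1096 1 1031)
(mv 1031 (cons (fin 1094 1 1030)
(mv 1099 (cons (fin 1098 0 1031)
(fin 1100 0 1032))))))))
(cons (mv 971 (cons (fin 972 2 968)
(mv 967 (cons (fin 968 3 967)
(mv 1031 (cons (fin 966 3 966)
(mv 1099 (cons (fin 1098 0 1031)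
(fin 1100 0 1032)))))))))
(mv 971 (cons (fin 972 2 968)
(mv 1095 (cons (fin 1096 1 1031)
(mv 967 (cons (fin 968 3 967)
(mv 1099 (cons (fin 1100 0 1032)
(mv 907 (cons (mv 1098 (cons (fin 843 5 842)
(fin 1162 5 906)))
(cons (mv 842 (cons (fin 906 7 842)
(mv 843 (cons (fin 778 7 778)
(mv 844 (cons (fin 780 6 779)
(fin 908 6 843)))))))
(mv 844 (cons (fin 908 6 843)
(mv 842 (cons (fin 906 7 842)
(mv 1163 (cons (cons (mv 1162 (cons (fin 1098 5 906)
(fin 1226 5 970)))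
(mv 1228 (cons (fin 1164 4 971)
(mv 1227 (cons (fin 1292 4 1035)
(mv 1290 (cons (fin 1226 5 1034)
(mv 1291 (cons (fin 1098 7 1034)
(fin 1354 5 1098))))))))))
(cons (mv 1228 (cons (fin 1164 4 971)
(mv 1098 (cons (fin 1162 5 906)
(mv 1227 (cons (fin 1291 7 1034)
(fin 1292 4 1035)))))))
(mv 1228 (cons (fin 1164 4 971)
(mv 1226 (cons (fin 1162 5 970)
(mv 1227 (cons (fin 1290 5 1034)
(fin 1292 4 1035))))))))))))))))))))))))))))))))))
(cons (ref 0 0)
(ref 2 0)))))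
(cons (cons (cons (mv 970 (cons (cons (cons (mv 971 (cons (fin 972 1 969)
(mv 1098 (cons (mv 1099 (cons (fin 1100 3 1033)
(mv 907 (cons (fin 1162 6 906)
(mv 906 (cons (fin 843 6 842)
(fin 1163 4 906)))))))
(cons (mv 1099 (cons (fin 1100 3 1033)
(mv 906 (cons (fin 1163 4 906)
(mv 842 (cons (fin 1097 5 841)
(fin 1035 4 842)))))))
(mv 907 (cons (fin 1162 6 906)
(mv 843 (cons (fin 779 5 778)
(fin 1035 5 842))))))))))
(mv 1097 (cons (cons (mv 906 (cons (fin 842 5 841)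
(mv 1161 (cons (fin 1098 5 905)
(fin 969 6 905)))))
(mv 906 (cons (fin 842 5 841)
(mv 1098 (cons (mv 1099 (cons (fin 1100 3 1033)
(fin 1163 4 906)))
(mv 843 (cons (fin 907 6 842)
(mv 905 (cons (fin 841 7 841)
(mv 969 (cons (fin 1162 7 905)
(mv 840 (cons (fin 904 7 840)
(mv 1096 (cons (fin 1160 5 904)
(mv 1095 (cons (fin 1094 2 1030)
(fin 1035 2 1031))))))))))))))))))
(cons (mv 1161 (cons (fin 1225 6 969)
(mv 969 (cons (cons (mv 904 (cons (fin 968 7 904)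
(mv 905 (cons (fin 840 7 840)
(mv 1162 (cons (fin 1098 7 905)
(fin 1226 4 969)))))))
(mv 904 (cons (fin 968 7 904)
(mv 905 (cons (fin 840 7 840)
(mv 1160 (cons (fin 1096 5 904)
(fin 1224 5 968))))))))
(cons (mv 1160 (cons (fin 1224 5 968)
(mv 905 (cons (fin 1096 5 904)
(mv 1162 (cons (fin 1098 7 905)
(fin 1226 4 969)))))))
(mv 1162 (cons (fin 1226 4 969)
(mv 968 (cons (fin 904 7 904)
(mv 967 (cons (fin 966 0 966)
(fin 1035 0 967))))))))))))
(cons (mv 1161 (cons (fin 1225 6 969)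
(mv 906 (cons (fin 842 5 841)
(fin 969 6 905)))))
(mv 906 (cons (fin 842 5 841)
(mv 1161 (cons (fin 1098 5 905)
(fin 1225 6 969))))))))))
(cons (mv 971 (cons (fin 972 1 969)
(mv 1098 (cons (mv 1099 (cons (fin 1100 3 1033)
(mv 907 (cons (fin 1162 6 906)
(mv 906 (cons (fin 843 6 842)
(fin 1163 4 906)))))))
(cons (mv 1099 (cons (fin 1100 3 1033)
(mv 906 (cons (fin 1163 4 906)
(mv 842 (cons (fin 1035 4 842)
(mv 841 (cons (fin 777 7 777)
(fin 905 7 841)))))))))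
(mv 907 (cons (fin 1162 6 906)
(mv 843 (cons (fin 779 5 778)
(fin 1035 5 842))))))))))
(cons (mv 971 (cons (fin 972 1 969)
(mv 1097 (cons (cons (mv 1161 (cons (fin 1225 6 969)
(mv 969 (cons (cons (mv 904 (cons (fin 968 7 904)
(mv 840 (cons (fin 905 7 840)
(mv 1162 (cons (fin 1226 4 969)
(mv 1098 (cons (fin 907 6 906)
(mv 1160 (cons (fin 1224 5 968)
(mv 1099 (cons (fin 1100 3 1033)
(fin 1159 2 1095)))))))))))))
(mv 1160 (cons (fin 1224 5 968)
(mv 905 (cons (fin 1096 5 904)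
(mv 904 (cons (fin 840 7 840)
(fin 968 7 904))))))))
(cons (mv 1162 (cons (fin 1226 4 969)
(mv 1098 (cons (fin 905 7 905)
(fin 907 6 906)))))
(mv 1160 (cons (fin 1224 5 968)
(mv 904 (cons (fin 968 7 904)
(mv 1162 (cons (fin 1226 4 969)
(mv 1098 (cons (fin 907 6 906)
(mv 1099 (cons (fin 1100 3 1033)
(fin 1159 2 1095))))))))))))))))
(cons (mv 1098 (cons (cons (mv 1099 (cons (fin 1100 3 1033)
(mv 907 (cons (fin 1162 6 906)
(mv 843 (cons (fin 779 5 778)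
(fin 1035 5 842)))))))
(mv 1099 (cons (fin 1100 3 1033)
(mv 1096 (cons (mv 1095 (cons (fin 1094 2 1030)
(fin 1035 2 1031)))
(cons (mv 1159 (cons (fin 1160 1 1095)
(mv 1163 (cons (fin 1164 0 1096)
(mv 1227 (cons (fin 1035 7 970)
(fin 1291 7 1034)))))))
(mv 1163 (cons (fin 1164 0 1096)
(mv 1159 (cons (fin 1160 1 1095)
(mv 1095 (cons (fin 1158 1 1094)
(fin 1094 2 1030)))))))))))))
(cons (mv 907 (cons (fin 1162 6 906)
(mv 843 (cons (fin 779 5 778)
(fin 1035 5 842)))))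
(mv 1162 (cons (fin 907 6 906)
(mv 969 (cons (fin 905 7 905)
(fin 1226 7 969))))))))
(mv 1161 (cons (fin 1225 6 969)
(mv 969 (cons (cons (mv 904 (cons (fin 968 7 904)
(mv 905 (cons (fin 840 7 840)
(mv 1160 (cons (fin 1096 5 904)
(fin 1224 5 968)))))))
(mv 1160 (cons (fin 1224 5 968)
(mv 905 (cons (fin 1096 5 904)
(mv 840 (cons (fin 904 7 840)
(mv 841 (cons (fin 776 7 776)
(fin 777 4 777))))))))))
(cons (mv 1160 (cons (fin 1224 5 968)
(mv 1096 (cons (fin 905 5 904)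
(mv 1162 (cons (fin 1226 4 969)
(mv 1095 (cons (fin 1163 3 1095)
(fin 1094 2 1030)))))))))
(mv 1162 (cons (fin 1226 4 969)
(mv 968 (cons (fin 904 7 904)
(mv 967 (cons (fin 966 0 966)
(fin 1035 0 967))))))))))))))
(cons (cons (mv 1161 (cons (fin 1225 6 969)
(mv 969 (cons (cons (mv 1160 (cons (fin 1224 5 968)
(mv 905 (cons (fin 1096 5 904)
(mv 904 (cons (fin 840 7 840)
(fin 968 7 904)))))))
(mv 1160 (cons (fin 1224 5 968)
(mv 905 (cons (fin 1096 5 904)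
(mv 841 (cons (fin 777 4 777)
(fin 1098 4 841))))))))
(cons (mv 904 (cons (fin 968 7 904)
(mv 905 (cons (fin 840 7 840)
(mv 841 (cons (fin 777 4 777)
(fin 1098 4 841)))))))
(mv 968 (cons (fin 904 7 904)
(mv 967 (cons (fin 966 0 966)
(fin 1035 0 967))))))))))
(mv 1161 (cons (fin 1225 6 969)
(mv 969 (cons (cons (mv 904 (cons (fin 968 7 904)
(mv 840 (cons (fin 905 7 840)
(mv 1162 (cons (fin 1226 4 969)
(mv 1098 (cons (fin 907 6 906)
(mv 1160 (cons (fin 1224 5 968)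
(mv 1099 (cons (fin 1100 3 1033)
(fin 1159 2 1095)))))))))))))
(mv 1160 (cons (fin 1224 5 968)
(mv 904 (cons (fin 968 7 904)
(mv 905 (cons (fin 840 7 840)
(mv 841 (cons (fin 777 4 777)
(fin 1098 4 841))))))))))
(cons (mv 1162 (cons (fin 1226 4 969)
(mv 1098 (cons (fin 905 7 905)
(fin 907 6 906)))))
(mv 1160 (cons (fin 1224 5 968)
(mv 968 (cons (fin 904 7 904)
(mv 967 (cons (fin 966 0 966)
(fin 1035 0 967)))))))))))))
(cons (mv 1161 (cons (fin 1225 6 969)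
(mv 1098 (cons (cons (mv 1099 (cons (fin 1100 3 1033)
(mv 907 (cons (fin 1162 6 906)
(mv 843 (cons (fin 779 5 778)
(fin 1035 5 842)))))))
(mv 1099 (cons (fin 1100 3 1033)
(mv 1096 (cons (mv 1095 (cons (fin 1094 2 1030)
(fin 1035 2 1031)))
(cons (mv 1159 (cons (fin 1160 1 1095)
(mv 1163 (cons (fin 1164 0 1096)
(mv 1227 (cons (fin 1035 7 970)
(fin 1291 7 1034)))))))
(mv 1163 (cons (fin 1164 0 1096)
(mv 1095 (cons (fin 1094 2 1030)
(mv 1159 (cons (fin 1158 1 1094)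
(fin 1160 1 1095)))))))))))))
(cons (mv 907 (cons (fin 1162 6 906)
(mv 843 (cons (fin 779 5 778)
(fin 1035 5 842)))))
(mv 1162 (cons (fin 907 6 906)
(mv 1099 (cons (fin 1100 3 1033)
(mv 1159 (cons (fin 1160 2 1095)
(mv 1163 (cons (fin 1227 4 970)
(mv 1096 (cons (fin 1164 3 1096)
(fin 1095 0 1095))))))))))))))))
(mv 1161 (cons (fin 1225 6 969)
(mv 1162 (cons (cons (mv 907 (cons (fin 1098 6 906)
(mv 779 (cons (fin 843 5 778)
(mv 969 (cons (fin 1226 4 969)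
(mv 968 (cons (fin 908 2 904)
(fin 904 7 904)))))))))
(mv 969 (cons (fin 1226 4 969)
(mv 968 (cons (fin 904 7 904)
(mv 967 (cons (fin 966 0 966)
(fin 1035 0 967))))))))
(cons (mv 1098 (cons (fin 907 6 906)
(mv 1226 (cons (fin 1290 7 1033)
(fin 1035 6 970)))))
(mv 1098 (cons (fin 907 6 906)
(mv 905 (cons (fin 969 7 905)
(mv 1163 (cons (fin 1227 4 970)
(mv 1096 (cons (fin 1164 3 1096)
(fin 1095 0 1095))))))))))))))))))))
(mv 971 (cons (fin 972 1 969)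
(mv 969 (cons (cons (mv 968 (cons (mv 967 (cons (fin 966 0 966)
(fin 1035 0 967)))
(mv 907 (cons (fin 908 2 904)
(mv 904 (cons (fin 903 3 903)
(mv 779 (cons (fin 843 5 778)
(mv 840 (cons (fin 776 4 776)
(mv 1097 (cons (fin 905 7 840)
(fin 1161 7 904)))))))))))))
(cons (mv 906 (cons (mv 842 (cons (fin 778 5 777)
(fin 1097 5 841)))
(cons (mv 1097 (cons (fin 1161 6 905)
(mv 905 (cons (mv 904 (cons (fin 903 0 903)
(fin 840 7 840)))
(mv 841 (cons (fin 777 4 777)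
(mv 1096 (cons (fin 1032 5 840)
(fin 1160 5 904)))))))))
(mv 842 (cons (fin 778 5 777)
(mv 841 (cons (fin 777 7 777)
(mv 1035 (cons (fin 1099 4 842)
(mv 843 (cons (fin 779 6 778)
(mv 905 (cons (mv 844 (cons (fin 904 1 840)
(fin 845 1 841)))
(cons (mv 1032 (cons (fin 1096 5 840)
(mv 776 (cons (fin 840 7 776)
(mv 844 (cons (fin 845 1 841)
(mv 780 (cons (fin 781 2 777)
(fin 907 6 779)))))))))
(mv 903 (cons (fin 904 2 839)
(mv 1032 (cons (fin 1096 5 840)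
(mv 840 (cons (fin 776 7 776)
(mv 907 (cons (fin 908 3 840)
(fin 839 0 839)))))))))))))))))))))))
(mv 968 (cons (mv 967 (cons (fin 966 0 966)
(fin 1035 0 967)))
(cons (mv 904 (cons (fin 903 3 903)
(mv 907 (cons (fin 908 2 904)
(mv 776 (cons (fin 840 4 776)
(mv 843 (cons (fin 779 5 778)
(mv 1035 (cons (cons (mv 778 (cons (fin 842 7 778)
(mv 844 (cons (fin 780 6 779)
(mv 906 (cons (fin 905 2 840)
(mv 1099 (cons (fin 1163 7 906)
(mv 1100 (cons (fin 1102 3 1034)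
(fin 1032 0 1032)))))))))))
(mv 844 (cons (fin 780 6 779)
(mv 906 (cons (fin 905 2 840)
(mv 845 (cons (fin 846 1 842)
(mv 1099 (cons (fin 1163 7 906)
(mv 1100 (cons (fin 1102 3 1034)
(fin 1032 0 1032))))))))))))
(cons (mv 842 (cons (fin 778 7 778)
(mv 1099 (cons (fin 906 7 842)
(mv 1100 (cons (fin 1102 3 1034)
(fin 1032 0 1032)))))))
(mv 842 (cons (fin 778 7 778)
(mv 844 (cons (fin 780 6 779)
(mv 841 (cons (fin 777 3 776)
(fin 905 1 840))))))))))))))))))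
(mv 907 (cons (fin 908 2 904)
(mv 967 (cons (fin 906 2 903)
(fin 966 0 966))))))))))
(cons (mv 1097 (cons (mv 906 (cons (fin 842 5 841)
(fin 1161 6 905)))
(cons (mv 842 (cons (fin 906 5 841)
(mv 905 (cons (mv 841 (cons (fin 778 6 777)
(fin 777 4 777)))
(mv 904 (cons (fin 840 7 840)
(mv 903 (cons (fin 968 3 903)
(fin 902 0 902)))))))))
(mv 1161 (cons (fin 1225 6 969)
(mv 1160 (cons (fin 1224 5 968)
(mv 905 (cons (fin 1096 5 904)
(mv 904 (cons (fin 840 7 840)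
(fin 968 7 904))))))))))))
(cons (mv 968 (cons (mv 967 (cons (fin 966 0 966)
(fin 1035 0 967)))
(cons (mv 904 (cons (fin 903 3 903)
(mv 907 (cons (fin 908 2 904)
(mv 776 (cons (fin 840 4 776)
(mv 843 (cons (fin 779 5 778)
(mv 1097 (cons (fin 1161 7 904)
(mv 842 (cons (fin 906 5 841)
(mv 778 (cons (fin 1035 7 778)
(mv 777 (cons (fin 775 0 775)
(mv 844 (cons (fin 841 3 776)
(fin 845 3 777)))))))))))))))))))
(mv 903 (cons (fin 904 3 903)
(mv 967 (cons (fin 902 3 902)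
(fin 966 0 966))))))))
(mv 1097 (cons (mv 906 (cons (fin 842 5 841)
(fin 1161 6 905)))
(cons (mv 1161 (cons (fin 1225 6 969)
(mv 1160 (cons (fin 1224 5 968)
(mv 1096 (cons (fin 905 5 904)
(mv 1162 (cons (fin 1226 4 969)
(mv 1095 (cons (fin 1163 3 1095)
(fin 1094 2 1030)))))))))))
(mv 842 (cons (fin 906 5 841)
(mv 905 (cons (mv 841 (cons (fin 778 6 777)
(fin 777 4 777)))
(cons (mv 1096 (cons (fin 1160 5 904)
(mv 1095 (cons (fin 1094 2 1030)
(mv 1035 (cons (fin 1032 1 1031)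
(mv 968 (cons (fin 967 0 967)
(mv 907 (cons (fin 908 2 904)
(mv 843 (cons (fin 778 7 778)
(fin 779 5 778)))))))))))))
(mv 1096 (cons (fin 1160 5 904)
(mv 841 (cons (fin 1032 5 840)
(fin 777 4 777))))))))))))))))))))))
(cons (cons (mv 971 (cons (fin 972 1 969)
(mv 1097 (cons (cons (mv 906 (cons (fin 842 5 841)
(mv 1161 (cons (fin 1098 5 905)
(fin 969 6 905)))))
(mv 842 (cons (fin 906 5 841)
(mv 907 (cons (cons (mv 843 (cons (fin 779 5 778)
(mv 1035 (cons (fin 778 7 778)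
(fin 1098 5 842)))))
(mv 1098 (cons (fin 1162 6 906)
(mv 969 (cons (cons (mv 908 (cons (fin 968 2 904)
(mv 905 (cons (fin 841 4 841)
(mv 1096 (cons (fin 1160 5 904)
(mv 1095 (cons (fin 1094 2 1030)
(fin 1035 2 1031)))))))))
(mv 968 (cons (fin 908 2 904)
(mv 967 (cons (fin 966 0 966)
(fin 1035 0 967))))))
(cons (mv 905 (cons (fin 841 4 841)
(mv 1096 (cons (fin 1160 5 904)
(mv 1095 (cons (fin 1094 2 1030)
(fin 1035 2 1031)))))))
(mv 841 (cons (fin 905 4 841)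
(mv 968 (cons (fin 908 2 904)
(mv 903 (cons (fin 904 3 903)
(mv 967 (cons (fin 902 3 902)
(fin 966 0 966)))))))))))))))
(cons (mv 843 (cons (fin 779 5 778)
(mv 778 (cons (fin 1035 7 778)
(mv 650 (cons (fin 714 4 650)
(mv 841 (cons (cons (mv 840 (cons (fin 908 0 840)
(mv 903 (cons (fin 904 1 839)
(mv 839 (cons (fin 902 1 838)
(mv 775 (cons (fin 774 3 774)
(fin 776 3 775)))))))))
(mv 905 (cons (fin 969 6 777)
(mv 844 (cons (fin 904 1 840)
(mv 777 (cons (fin 776 3 776)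
(fin 845 3 777))))))))
(cons (mv 905 (cons (fin 969 6 777)
(mv 844 (cons (fin 904 1 840)
(mv 777 (cons (fin 845 3 777)
(mv 780 (cons (fin 781 2 777)
(mv 716 (cons (fin 652 5 651)
(fin 908 5 715)))))))))))
(mv 840 (cons (fin 908 0 840)
(mv 775 (cons (fin 776 3 775)
(mv 839 (cons (fin 774 3 774)
(mv 902 (cons (fin 903 1 838)
(mv 838 (cons (fin 901 1 837)
(fin 777 2 774))))))))))))))))))))
(mv 843 (cons (fin 779 5 778)
(mv 1098 (cons (fin 1162 6 906)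
(mv 841 (cons (cons (mv 840 (cons (fin 908 0 840)
(mv 903 (cons (fin 904 1 839)
(mv 839 (cons (fin 902 1 838)
(mv 775 (cons (fin 774 3 774)
(fin 776 3 775)))))))))
(mv 905 (cons (fin 969 4 841)
(mv 844 (cons (fin 904 1 840)
(mv 776 (cons (fin 777 3 776)
(mv 780 (cons (fin 781 2 777)
(mv 716 (cons (fin 652 5 651)
(fin 908 5 715))))))))))))
(cons (mv 905 (cons (fin 969 4 841)
(mv 844 (cons (fin 904 1 840)
(mv 777 (cons (fin 776 3 776)
(mv 781 (cons (fin 780 2 777)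
(mv 845 (cons (fin 778 3 777)
(fin 782 2 778)))))))))))
(mv 969 (cons (fin 905 4 841)
(mv 908 (cons (fin 968 2 904)
(fin 840 0 840))))))))))))))))))
(cons (mv 1161 (cons (fin 1225 6 969)
(mv 969 (cons (cons (mv 904 (cons (fin 968 7 904)
(mv 840 (cons (fin 905 7 840)
(mv 1162 (cons (fin 1226 4 969)
(mv 1098 (cons (fin 907 6 906)
(mv 1160 (cons (fin 1224 5 968)
(mv 1158 (cons (fin 1159 2 1094)
(mv 1163 (cons (fin 1227 4 970)
(mv 1096 (cons (fin 1095 3 1095)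
(fin 1164 3 1096)))))))))))))))))
(mv 1160 (cons (fin 1224 5 968)
(mv 905 (cons (fin 1096 5 904)
(mv 904 (cons (fin 840 7 840)
(fin 968 7 904))))))))
(cons (mv 1162 (cons (fin 1226 4 969)
(mv 1098 (cons (fin 905 7 905)
(fin 907 6 906)))))
(mv 1160 (cons (fin 1224 5 968)
(mv 904 (cons (fin 968 7 904)
(mv 1162 (cons (fin 1226 4 969)
(mv 1098 (cons (fin 907 6 906)
(mv 1158 (cons (fin 1159 2 1094)
(mv 1163 (cons (fin 1227 4 970)
(mv 1096 (cons (fin 1095 3 1095)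
(fin 1164 3 1096))))))))))))))))))))
(cons (mv 1161 (cons (fin 1225 6 969)
(mv 906 (cons (fin 842 5 841)
(fin 969 6 905)))))
(mv 906 (cons (fin 842 5 841)
(mv 1161 (cons (fin 1098 5 905)
(fin 1225 6 969)))))))))))
(mv 971 (cons (fin 972 1 969)
(mv 1098 (cons (cons (mv 1099 (cons (fin 1100 3 1033)
(mv 907 (cons (fin 1162 6 906)
(mv 843 (cons (fin 779 5 778)
(fin 906 6 842)))))))
(mv 1099 (cons (fin 1100 3 1033)
(mv 906 (cons (fin 1163 4 906)
(mv 1097 (cons (fin 842 5 841)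
(fin 1161 5 905))))))))
(cons (mv 907 (cons (fin 1162 6 906)
(mv 843 (cons (fin 779 5 778)
(fin 906 6 842)))))
(mv 1162 (cons (fin 907 6 906)
(mv 969 (cons (fin 905 7 905)
(fin 1226 7 969)))))))))))
(cons (mv 971 (cons (fin 972 1 969)
(mv 1097 (cons (cons (mv 906 (cons (fin 842 5 841)
(mv 1161 (cons (fin 1098 5 905)
(fin 969 6 905)))))
(mv 1161 (cons (fin 1225 6 969)
(mv 969 (cons (cons (mv 1160 (cons (fin 1224 5 968)
(mv 905 (cons (fin 1096 5 904)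
(mv 904 (cons (fin 840 7 840)
(fin 968 7 904)))))))
(mv 1160 (cons (fin 1224 5 968)
(mv 905 (cons (fin 1096 5 904)
(mv 841 (cons (fin 777 4 777)
(fin 1098 4 841))))))))
(cons (mv 904 (cons (fin 968 7 904)
(mv 905 (cons (fin 840 7 840)
(mv 841 (cons (fin 777 4 777)
(fin 1098 4 841)))))))
(mv 968 (cons (fin 904 7 904)
(mv 967 (cons (fin 966 0 966)
(fin 1035 0 967)))))))))))
(cons (mv 906 (cons (fin 842 5 841)
(mv 1098 (cons (mv 1099 (cons (fin 1100 3 1033)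
(fin 1163 4 906)))
(mv 843 (cons (fin 907 6 842)
(mv 905 (cons (fin 841 7 841)
(mv 904 (cons (fin 903 0 903)
(mv 969 (cons (fin 840 7 840)
(mv 1096 (cons (fin 1160 5 904)
(mv 1095 (cons (fin 1094 2 1030)
(fin 1035 2 1031)))))))))))))))))
(cons (mv 906 (cons (fin 842 5 841)
(mv 1161 (cons (fin 969 6 905)
(fin 1225 6 969)))))
(mv 1161 (cons (fin 1225 6 969)
(mv 906 (cons (fin 842 5 841)
(fin 1098 5 905)))))))))))
(cons (mv 971 (cons (fin 972 1 969)
(mv 1097 (cons (cons (mv 906 (cons (fin 842 5 841)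
(mv 1161 (cons (fin 1098 5 905)
(fin 969 6 905)))))
(mv 1161 (cons (fin 1225 6 969)
(mv 969 (cons (cons (mv 904 (cons (fin 968 7 904)
(mv 905 (cons (fin 840 7 840)
(mv 1162 (cons (fin 1098 7 905)
(fin 1226 4 969)))))))
(mv 904 (cons (fin 968 7 904)
(mv 905 (cons (fin 840 7 840)
(mv 1160 (cons (fin 1096 5 904)
(fin 1224 5 968))))))))
(cons (mv 1160 (cons (fin 1224 5 968)
(mv 905 (cons (fin 1096 5 904)
(mv 1162 (cons (fin 1098 7 905)
(fin 1226 4 969)))))))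
(mv 1162 (cons (fin 1226 4 969)
(mv 968 (cons (fin 904 7 904)
(mv 967 (cons (fin 966 0 966)
(fin 1035 0 967)))))))))))))
(cons (mv 906 (cons (fin 842 5 841)
(mv 1098 (cons (mv 1099 (cons (fin 1100 3 1033)
(fin 1163 4 906)))
(mv 905 (cons (fin 841 7 841)
(mv 903 (cons (fin 904 0 903)
(mv 969 (cons (fin 1162 7 905)
(mv 1096 (cons (fin 1160 5 904)
(mv 1095 (cons (fin 1094 2 1030)
(fin 1035 2 1031)))))))))))))))
(cons (mv 906 (cons (fin 842 5 841)
(mv 1161 (cons (fin 969 6 905)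
(fin 1225 6 969)))))
(mv 1161 (cons (fin 1225 6 969)
(mv 906 (cons (fin 842 5 841)
(fin 1098 5 905)))))))))))
(mv 971 (cons (fin 972 1 969)
(mv 1098 (cons (cons (mv 1099 (cons (fin 1100 3 1033)
(mv 907 (cons (fin 1162 6 906)
(mv 843 (cons (fin 779 5 778)
(fin 1035 5 842)))))))
(mv 1099 (cons (fin 1100 3 1033)
(mv 906 (cons (cons (mv 842 (cons (fin 1097 5 841)
(fin 1035 4 842)))
(mv 905 (cons (fin 841 7 841)
(mv 1097 (cons (fin 1161 5 905)
(mv 904 (cons (fin 903 0 903)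
(mv 843 (cons (fin 907 6 842)
(mv 969 (cons (fin 840 7 840)
(mv 1096 (cons (fin 1160 5 904)
(mv 1095 (cons (fin 1094 2 1030)
(fin 1035 2 1031))))))))))))))))
(cons (mv 842 (cons (fin 1035 4 842)
(mv 841 (cons (fin 777 7 777)
(fin 905 7 841)))))
(mv 1097 (cons (fin 842 5 841)
(fin 1161 5 905)))))))))
(cons (mv 1099 (cons (fin 1100 3 1033)
(mv 906 (cons (mv 1097 (cons (fin 842 5 841)
(fin 1161 5 905)))
(cons (mv 841 (cons (fin 905 7 841)
(mv 1161 (cons (fin 1097 5 905)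
(mv 1162 (cons (fin 1225 5 969)
(mv 1226 (cons (fin 969 7 969)
(fin 1035 6 970)))))))))
(mv 842 (cons (fin 1035 4 842)
(mv 841 (cons (fin 777 7 777)
(fin 905 7 841))))))))))
(cons (mv 907 (cons (fin 1162 6 906)
(mv 843 (cons (fin 779 5 778)
(fin 1035 5 842)))))
(mv 907 (cons (fin 1162 6 906)
(mv 843 (cons (fin 779 5 778)
(fin 906 6 842))))))))))))))))
(cons (ref 1 0)
(mv 970 (cons (cons (cons (mv 971 (cons (fin 972 1 969)
(mv 1031 (cons (fin 1032 2 967)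
(mv 1098 (cons (cons (mv 1099 (cons (fin 1100 3 1033)
(mv 907 (cons (fin 1162 6 906)
(mv 906 (cons (fin 843 6 842)
(fin 1163 4 906)))))))
(mv 1099 (cons (fin 1100 3 1033)
(mv 906 (cons (fin 1163 4 906)
(mv 1097 (cons (fin 842 5 841)
(fin 1161 5 905))))))))
(cons (mv 907 (cons (fin 1162 6 906)
(mv 843 (cons (fin 779 5 778)
(fin 906 6 842)))))
(mv 1162 (cons (fin 907 6 906)
(mv 969 (cons (fin 905 7 905)
(fin 1226 7 969))))))))))))
(mv 1097 (cons (cons (mv 906 (cons (fin 842 5 841)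
(mv 1161 (cons (fin 1098 5 905)
(fin 969 6 905)))))
(mv 906 (cons (fin 842 5 841)
(mv 1098 (cons (mv 1099 (cons (fin 1100 3 1033)
(fin 1163 4 906)))
(mv 843 (cons (fin 907 6 842)
(mv 905 (cons (fin 841 7 841)
(mv 969 (cons (fin 1162 7 905)
(mv 904 (cons (fin 840 7 840)
(mv 1096 (cons (fin 1160 5 904)
(mv 1094 (cons (fin 1095 2 1030)
(mv 903 (cons (fin 902 0 902)
(mv 967 (cons (fin 966 1 902)
(mv 839 (cons (fin 838 3 838)
(mv 1031 (cons (fin 1030 5 838)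
(fin 1032 4 839))))))))))))))))))))))))))
(cons (mv 1161 (cons (fin 1225 6 969)
(mv 969 (cons (cons (mv 904 (cons (fin 968 7 904)
(mv 905 (cons (fin 840 7 840)
(mv 1162 (cons (fin 1098 7 905)
(fin 1226 4 969)))))))
(mv 904 (cons (fin 968 7 904)
(mv 905 (cons (fin 840 7 840)
(mv 1160 (cons (fin 1096 5 904)
(fin 1224 5 968))))))))
(cons (mv 1160 (cons (fin 1224 5 968)
(mv 905 (cons (fin 1096 5 904)
(mv 1162 (cons (fin 1098 7 905)
(fin 1226 4 969)))))))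
(mv 1162 (cons (fin 1226 4 969)
(mv 968 (cons (fin 904 7 904)
(mv 1160 (cons (fin 1224 5 968)
(mv 967 (cons (fin 966 0 966)
(mv 1030 (cons (fin 1031 1 966)
(mv 903 (cons (fin 902 3 902)
(mv 1096 (cons (fin 1032 7 903)
(mv 1095 (cons (fin 1163 3 1095)
(fin 1094 2 1030))))))))))))))))))))))
(cons (mv 1161 (cons (fin 1225 6 969)
(mv 906 (cons (fin 842 5 841)
(fin 969 6 905)))))
(mv 906 (cons (fin 842 5 841)
(mv 1161 (cons (fin 1098 5 905)
(fin 1225 6 969))))))))))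
(cons (mv 971 (cons (fin 972 1 969)
(mv 1031 (cons (fin 1032 2 967)
(mv 1098 (cons (cons (mv 1099 (cons (fin 1100 3 1033)
(mv 907 (cons (fin 1162 6 906)
(mv 906 (cons (fin 843 6 842)
(fin 1163 4 906)))))))
(mv 1099 (cons (fin 1100 3 1033)
(mv 906 (cons (fin 1163 4 906)
(mv 843 (cons (fin 907 6 842)
(mv 842 (cons (fin 779 6 778)
(mv 841 (cons (fin 777 7 777)
(fin 905 7 841))))))))))))
(cons (mv 1099 (cons (fin 1100 3 1033)
(mv 906 (cons (fin 1163 4 906)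
(mv 841 (cons (fin 905 7 841)
(mv 842 (cons (fin 777 7 777)
(mv 778 (cons (fin 969 5 777)
(mv 779 (cons (fin 715 6 714)
(fin 843 6 778)))))))))))))
(cons (mv 907 (cons (fin 1162 6 906)
(mv 843 (cons (fin 779 5 778)
(fin 906 6 842)))))
(mv 1162 (cons (fin 907 6 906)
(mv 969 (cons (fin 905 7 905)
(fin 1226 7 969)))))))))))))
(mv 971 (cons (fin 972 1 969)
(mv 1032 (cons (fin 1031 2 967)
(mv 906 (cons (cons (mv 842 (cons (fin 1097 5 841)
(mv 778 (cons (fin 969 5 777)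
(mv 777 (cons (fin 713 7 713)
(fin 841 7 777)))))))
(mv 904 (cons (cons (cons (mv 903 (cons (fin 905 0 903)
(mv 968 (cons (fin 969 3 903)
(mv 839 (cons (fin 1096 7 839)
(mv 840 (cons (fin 775 7 775)
(fin 1097 4 840)))))))))
(mv 1097 (cons (mv 1161 (cons (fin 969 6 905)
(fin 1225 6 969)))
(cons (mv 840 (cons (fin 968 4 840)
(mv 905 (cons (fin 969 7 840)
(mv 839 (cons (fin 907 3 839)
(mv 838 (cons (fin 837 0 837)
(fin 841 0 838)))))))))
(mv 968 (cons (fin 840 4 840)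
(mv 1161 (cons (fin 1225 7 968)
(fin 1096 4 904)))))))))
(cons (mv 1097 (cons (mv 1161 (cons (fin 969 6 905)
(fin 1225 6 969)))
(cons (mv 968 (cons (fin 840 4 840)
(mv 903 (cons (fin 969 3 903)
(mv 839 (cons (fin 1096 7 839)
(mv 775 (cons (fin 711 4 711)
(fin 967 4 775)))))))))
(mv 968 (cons (fin 840 4 840)
(mv 1161 (cons (fin 1225 7 968)
(fin 1096 4 904))))))))
(mv 903 (cons (fin 905 0 903)
(mv 968 (cons (fin 969 3 903)
(mv 839 (cons (fin 1096 7 839)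
(mv 775 (cons (fin 840 7 775)
(fin 711 4 711)))))))))))
(cons (cons (mv 905 (cons (fin 903 0 903)
(mv 969 (cons (mv 1097 (cons (fin 840 7 840)
(fin 1161 6 905)))
(mv 841 (cons (fin 1096 5 840)
(fin 777 4 777)))))))
(mv 903 (cons (fin 905 0 903)
(mv 968 (cons (cons (mv 839 (cons (fin 1096 7 839)
(mv 840 (cons (fin 775 7 775)
(fin 1097 4 840)))))
(cons (mv 840 (cons (fin 1097 4 840)
(mv 777 (cons (fin 841 6 776)
(mv 776 (cons (fin 713 6 712)
(mv 775 (cons (fin 711 7 711)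
(fin 839 7 775)))))))))
(mv 840 (cons (fin 1097 4 840)
(mv 777 (cons (fin 841 6 776)
(mv 776 (cons (fin 713 6 712)
(mv 712 (cons (fin 967 5 711)
(mv 711 (cons (fin 647 7 647)
(fin 775 7 711)))))))))))))
(cons (mv 839 (cons (fin 1096 7 839)
(mv 775 (cons (fin 840 7 775)
(fin 711 4 711)))))
(cons (mv 839 (cons (fin 1096 7 839)
(mv 775 (cons (fin 711 4 711)
(fin 967 4 775)))))
(mv 839 (cons (fin 1096 7 839)
(mv 840 (cons (fin 1097 4 840)
(mv 777 (cons (fin 841 6 776)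
(mv 776 (cons (fin 713 6 712)
(mv 712 (cons (fin 648 5 647)
(fin 967 5 711))))))))))))))))))
(cons (mv 903 (cons (fin 905 0 903)
(mv 968 (cons (fin 969 3 903)
(mv 839 (cons (fin 1096 7 839)
(mv 775 (cons (fin 711 4 711)
(fin 967 4 775)))))))))
(mv 903 (cons (fin 905 0 903)
(mv 968 (cons (fin 969 3 903)
(mv 840 (cons (fin 1097 4 840)
(mv 777 (cons (fin 841 6 776)
(mv 776 (cons (fin 713 6 712)
(mv 775 (cons (fin 711 7 711)
(fin 839 7 775))))))))))))))))))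
(cons (mv 842 (cons (cons (mv 778 (cons (fin 969 5 777)
(mv 777 (cons (fin 713 7 713)
(fin 841 7 777)))))
(mv 841 (cons (fin 777 7 777)
(mv 843 (cons (fin 779 6 778)
(mv 905 (cons (mv 844 (cons (fin 904 1 840)
(fin 845 1 841)))
(mv 969 (cons (fin 1096 5 840)
(mv 840 (cons (fin 776 7 776)
(mv 907 (cons (fin 908 3 840)
(fin 839 0 839))))))))))))))
(cons (mv 779 (cons (fin 843 6 778)
(mv 778 (cons (fin 969 5 777)
(fin 715 6 714)))))
(mv 777 (cons (fin 841 7 777)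
(mv 778 (cons (fin 713 7 713)
(mv 779 (cons (fin 715 6 714)
(fin 843 6 778))))))))))
(cons (mv 842 (cons (fin 1097 5 841)
(mv 777 (cons (fin 841 7 777)
(mv 778 (cons (fin 713 7 713)
(mv 779 (cons (fin 715 6 714)
(fin 843 6 778)))))))))
(mv 842 (cons (fin 1097 5 841)
(mv 778 (cons (fin 969 5 777)
(mv 779 (cons (fin 715 6 714)
(fin 843 6 778)))))))))))))))))
(cons (cons (mv 1097 (cons (cons (cons (mv 972 (cons (fin 971 1 969)
(mv 1161 (cons (fin 1225 6 969)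
(mv 969 (cons (cons (mv 904 (cons (fin 968 7 904)
(mv 905 (cons (fin 840 7 840)
(mv 1162 (cons (fin 1098 7 905)
(fin 1226 4 969)))))))
(mv 904 (cons (fin 968 7 904)
(mv 905 (cons (fin 840 7 840)
(mv 1160 (cons (fin 1096 5 904)
(fin 1224 5 968))))))))
(cons (mv 1160 (cons (fin 1224 5 968)
(mv 905 (cons (fin 1096 5 904)
(mv 1162 (cons (fin 1098 7 905)
(fin 1226 4 969)))))))
(mv 1162 (cons (fin 1226 4 969)
(mv 968 (cons (fin 904 7 904)
(mv 1160 (cons (fin 1224 5 968)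
(mv 967 (cons (fin 966 0 966)
(mv 1030 (cons (fin 1031 1 966)
(mv 903 (cons (fin 902 3 902)
(mv 1096 (cons (fin 1032 7 903)
(mv 1095 (cons (fin 1163 3 1095)
(fin 1094 2 1030))))))))))))))))))))))))
(mv 1161 (cons (fin 1225 6 969)
(mv 969 (cons (cons (mv 904 (cons (fin 968 7 904)
(mv 905 (cons (fin 840 7 840)
(mv 1162 (cons (fin 1098 7 905)
(fin 1226 4 969)))))))
(mv 904 (cons (fin 968 7 904)
(mv 905 (cons (fin 840 7 840)
(mv 1160 (cons (fin 1096 5 904)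
(fin 1224 5 968))))))))
(cons (mv 1160 (cons (fin 1224 5 968)
(mv 905 (cons (fin 1096 5 904)
(mv 1162 (cons (fin 1098 7 905)
(fin 1226 4 969)))))))
(mv 1162 (cons (fin 1226 4 969)
(mv 968 (cons (fin 904 7 904)
(mv 1160 (cons (fin 1224 5 968)
(mv 967 (cons (fin 966 0 966)
(mv 1030 (cons (fin 1031 1 966)
(mv 903 (cons (fin 902 3 902)
(mv 1096 (cons (fin 1032 7 903)
(mv 1095 (cons (fin 1163 3 1095)
(fin 1094 2 1030)))))))))))))))))))))))
(cons (mv 971 (cons (fin 972 1 969)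
(mv 1098 (cons (cons (mv 1031 (cons (fin 1032 2 967)
(mv 1099 (cons (fin 1100 3 1033)
(mv 1162 (cons (fin 907 6 906)
(mv 969 (cons (fin 905 7 905)
(fin 1226 7 969)))))))))
(mv 1099 (cons (fin 1100 3 1033)
(mv 1096 (cons (mv 1031 (cons (fin 1032 3 1031)
(mv 1095 (cons (fin 1030 3 1030)
(fin 1094 2 1030)))))
(cons (mv 1163 (cons (fin 1164 0 1096)
(mv 1159 (cons (fin 1160 1 1095)
(mv 1095 (cons (fin 1158 1 1094)
(fin 1094 2 1030)))))))
(mv 1163 (cons (fin 1164 0 1096)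
(mv 1032 (cons (fin 1031 3 1031)
(mv 1227 (cons (fin 1291 7 1034)
(mv 1160 (cons (fin 1159 1 1095)
(mv 969 (cons (fin 905 5 904)
(fin 1224 6 968)))))))))))))))))
(cons (mv 1162 (cons (fin 907 6 906)
(mv 969 (cons (fin 905 7 905)
(fin 1226 7 969)))))
(mv 1099 (cons (fin 1100 3 1033)
(mv 1031 (cons (fin 1032 2 967)
(mv 1162 (cons (fin 907 6 906)
(mv 1226 (cons (fin 1290 7 1033)
(mv 1227 (cons (fin 1163 4 970)
(fin 1291 4 1034))))))))))))))))
(mv 1161 (cons (fin 1225 6 969)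
(mv 971 (cons (fin 972 1 969)
(mv 1031 (cons (fin 1032 2 967)
(mv 969 (cons (cons (mv 904 (cons (fin 968 7 904)
(mv 905 (cons (fin 840 7 840)
(mv 1160 (cons (fin 1096 5 904)
(fin 1224 5 968)))))))
(mv 1162 (cons (fin 1226 4 969)
(mv 1160 (cons (fin 1224 5 968)
(mv 905 (cons (fin 1096 5 904)
(mv 840 (cons (fin 904 7 840)
(mv 841 (cons (fin 776 7 776)
(fin 777 4 777))))))))))))
(cons (mv 1160 (cons (fin 1224 5 968)
(mv 1096 (cons (fin 905 5 904)
(mv 1162 (cons (fin 1226 4 969)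
(mv 1095 (cons (fin 1163 3 1095)
(fin 1094 2 1030)))))))))
(mv 1162 (cons (fin 1226 4 969)
(mv 968 (cons (fin 904 7 904)
(mv 967 (cons (fin 1030 1 966)
(fin 966 0 966))))))))))))))))))
(cons (cons (mv 971 (cons (fin 972 1 969)
(mv 1161 (cons (fin 1225 6 969)
(mv 969 (cons (cons (mv 904 (cons (fin 968 7 904)
(mv 840 (cons (fin 905 7 840)
(mv 1162 (cons (fin 1226 4 969)
(mv 1098 (cons (fin 907 6 906)
(mv 1160 (cons (fin 1224 5 968)
(mv 1099 (cons (fin 1100 3 1033)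
(fin 1159 2 1095)))))))))))))
(mv 1160 (cons (fin 1224 5 968)
(mv 905 (cons (fin 1096 5 904)
(mv 904 (cons (fin 840 7 840)
(fin 968 7 904))))))))
(cons (mv 1162 (cons (fin 1226 4 969)
(mv 1098 (cons (fin 905 7 905)
(fin 907 6 906)))))
(mv 1160 (cons (fin 1224 5 968)
(mv 904 (cons (fin 968 7 904)
(mv 1162 (cons (fin 1226 4 969)
(mv 1098 (cons (fin 907 6 906)
(mv 1099 (cons (fin 1100 3 1033)
(fin 1159 2 1095))))))))))))))))))
(mv 1161 (cons (fin 1225 6 969)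
(mv 971 (cons (fin 972 1 969)
(mv 1031 (cons (fin 1032 2 967)
(mv 969 (cons (cons (mv 904 (cons (fin 968 7 904)
(mv 840 (cons (fin 905 7 840)
(mv 1162 (cons (fin 1226 4 969)
(mv 1098 (cons (fin 907 6 906)
(mv 1160 (cons (fin 1224 5 968)
(mv 1099 (cons (fin 1100 3 1033)
(fin 1159 2 1095)))))))))))))
(mv 1160 (cons (fin 1224 5 968)
(mv 904 (cons (fin 968 7 904)
(mv 905 (cons (fin 840 7 840)
(mv 841 (cons (fin 777 4 777)
(fin 1098 4 841))))))))))
(cons (mv 1162 (cons (fin 1226 4 969)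
(mv 1098 (cons (fin 905 7 905)
(fin 907 6 906)))))
(mv 1160 (cons (fin 1224 5 968)
(mv 968 (cons (fin 904 7 904)
(mv 967 (cons (fin 1030 1 966)
(fin 966 0 966)))))))))))))))))
(cons (mv 971 (cons (fin 972 1 969)
(mv 1225 (cons (fin 1161 6 969)
(mv 1098 (cons (cons (mv 1031 (cons (fin 1032 2 967)
(mv 1099 (cons (fin 1100 3 1033)
(mv 1162 (cons (fin 907 6 906)
(mv 1226 (cons (fin 1290 7 1033)
(fin 1289 5 1033)))))))))
(mv 1162 (cons (fin 907 6 906)
(mv 1226 (cons (fin 1290 7 1033)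
(fin 1289 5 1033))))))
(cons (mv 1099 (cons (fin 1100 3 1033)
(mv 1096 (cons (mv 1031 (cons (fin 1032 3 1031)
(mv 1095 (cons (fin 1030 3 1030)
(fin 1094 2 1030)))))
(cons (mv 1163 (cons (fin 1164 0 1096)
(mv 1159 (cons (fin 1160 1 1095)
(mv 1095 (cons (fin 1158 1 1094)
(fin 1094 2 1030)))))))
(mv 1163 (cons (fin 1164 0 1096)
(mv 1032 (cons (fin 1031 3 1031)
(mv 1227 (cons (fin 1291 7 1034)
(mv 1160 (cons (fin 1159 1 1095)
(mv 1224 (cons (fin 1288 6 1032)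
(fin 1289 4 1032))))))))))))))))
(mv 1099 (cons (fin 1100 3 1033)
(mv 1031 (cons (fin 1032 2 967)
(mv 1162 (cons (fin 907 6 906)
(mv 1226 (cons (fin 1290 7 1033)
(mv 1227 (cons (fin 1163 4 970)
(fin 1291 4 1034))))))))))))))))))
(cons (mv 971 (cons (fin 972 1 969)
(mv 1161 (cons (fin 1225 6 969)
(mv 1031 (cons (fin 1032 2 967)
(mv 969 (cons (cons (mv 904 (cons (fin 968 7 904)
(mv 905 (cons (fin 840 7 840)
(mv 1160 (cons (fin 1096 5 904)
(fin 1224 5 968)))))))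
(mv 1160 (cons (fin 1224 5 968)
(mv 905 (cons (fin 1096 5 904)
(mv 841 (cons (fin 777 4 777)
(fin 1098 4 841))))))))
(cons (mv 904 (cons (fin 968 7 904)
(mv 905 (cons (fin 840 7 840)
(mv 841 (cons (fin 777 4 777)
(fin 1098 4 841)))))))
(mv 968 (cons (fin 904 7 904)
(mv 967 (cons (fin 1030 1 966)
(fin 966 0 966))))))))))))))
(mv 971 (cons (fin 972 1 969)
(mv 1161 (cons (fin 1225 6 969)
(mv 1031 (cons (fin 1032 2 967)
(mv 1162 (cons (cons (mv 907 (cons (fin 1098 6 906)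
(mv 779 (cons (fin 843 5 778)
(mv 969 (cons (fin 1226 4 969)
(mv 968 (cons (fin 908 2 904)
(fin 904 7 904)))))))))
(mv 969 (cons (fin 1226 4 969)
(mv 968 (cons (fin 904 7 904)
(mv 967 (cons (fin 1030 1 966)
(fin 966 0 966))))))))
(cons (mv 1098 (cons (fin 907 6 906)
(mv 1226 (cons (fin 1290 7 1033)
(mv 1227 (cons (fin 1163 4 970)
(fin 1291 4 1034)))))))
(mv 1098 (cons (fin 907 6 906)
(mv 905 (cons (fin 969 7 905)
(mv 1163 (cons (fin 1227 4 970)
(mv 1096 (cons (fin 1164 3 1096)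
(fin 1095 0 1095)))))))))))))))))))))))
(mv 971 (cons (fin 972 1 969)
(mv 1098 (cons (cons (mv 1099 (cons (fin 1100 3 1033)
(mv 907 (cons (fin 1162 6 906)
(mv 843 (cons (fin 779 5 778)
(fin 906 6 842)))))))
(mv 1099 (cons (fin 1100 3 1033)
(mv 906 (cons (fin 1163 4 906)
(mv 1097 (cons (fin 842 5 841)
(fin 1161 5 905))))))))
(cons (mv 907 (cons (fin 1162 6 906)
(mv 843 (cons (fin 779 5 778)
(fin 906 6 842)))))
(mv 1162 (cons (fin 907 6 906)
(mv 969 (cons (fin 905 7 905)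
(fin 1226 7 969)))))))))))
(cons (mv 971 (cons (fin 972 1 969)
(mv 1031 (cons (fin 1032 2 967)
(mv 1098 (cons (cons (mv 1099 (cons (fin 1100 3 1033)
(mv 906 (cons (fin 1163 4 906)
(mv 907 (cons (fin 843 6 842)
(fin 1162 6 906)))))))
(mv 1099 (cons (fin 1100 3 1033)
(mv 906 (cons (fin 1163 4 906)
(mv 1097 (cons (fin 842 5 841)
(fin 1161 5 905))))))))
(cons (mv 907 (cons (fin 1162 6 906)
(mv 843 (cons (fin 779 5 778)
(fin 906 6 842)))))
(mv 1162 (cons (fin 907 6 906)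
(mv 1099 (cons (fin 1100 3 1033)
(mv 1161 (cons (fin 1225 5 969)
(mv 1160 (cons (fin 1159 2 1095)
(mv 1163 (cons (fin 1227 4 970)
(mv 1224 (cons (fin 1223 1 1159)
(mv 1096 (cons (fin 1095 3 1095)
(mv 1097 (cons (fin 1164 3 1096)
(fin 1288 6 1032))))))))))))))))))))))))
(mv 971 (cons (fin 972 1 969)
(mv 1031 (cons (fin 1032 2 967)
(mv 1097 (cons (cons (mv 906 (cons (fin 842 5 841)
(mv 1161 (cons (fin 1098 5 905)
(fin 969 6 905)))))
(mv 906 (cons (fin 842 5 841)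
(mv 1098 (cons (mv 1099 (cons (fin 1100 3 1033)
(fin 1163 4 906)))
(mv 905 (cons (fin 841 7 841)
(mv 903 (cons (fin 904 0 903)
(mv 969 (cons (fin 1162 7 905)
(mv 1096 (cons (fin 1160 5 904)
(mv 1095 (cons (fin 1030 3 1030)
(fin 1094 2 1030))))))))))))))))
(cons (mv 1161 (cons (fin 1225 6 969)
(mv 969 (cons (cons (mv 904 (cons (fin 968 7 904)
(mv 905 (cons (fin 840 7 840)
(mv 1162 (cons (fin 1098 7 905)
(fin 1226 4 969)))))))
(mv 904 (cons (fin 968 7 904)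
(mv 905 (cons (fin 840 7 840)
(mv 1160 (cons (fin 1096 5 904)
(fin 1224 5 968))))))))
(cons (mv 1160 (cons (fin 1224 5 968)
(mv 905 (cons (fin 1096 5 904)
(mv 1162 (cons (fin 1098 7 905)
(fin 1226 4 969)))))))
(mv 1162 (cons (fin 1226 4 969)
(mv 968 (cons (fin 904 7 904)
(mv 967 (cons (fin 1030 1 966)
(fin 966 0 966))))))))))))
(cons (mv 1161 (cons (fin 1225 6 969)
(mv 906 (cons (fin 842 5 841)
(fin 969 6 905)))))
(mv 906 (cons (fin 842 5 841)
(mv 1161 (cons (fin 1098 5 905)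
(fin 1225 6 969)))))))))))))))))))
(cons (cons (mv 970 (cons (cons (cons (mv 971 (cons (fin 972 1 969)
(mv 1031 (cons (fin 1032 2 967)
(mv 1098 (cons (mv 1099 (cons (fin 1100 3 1033)
(mv 907 (cons (fin 1162 6 906)
(mv 906 (cons (fin 843 6 842)
(fin 1163 4 906)))))))
(cons (mv 1099 (cons (fin 1100 3 1033)
(mv 906 (cons (fin 1163 4 906)
(mv 842 (cons (fin 1097 5 841)
(fin 1035 4 842)))))))
(mv 907 (cons (fin 1162 6 906)
(mv 843 (cons (fin 779 5 778)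
(fin 1035 5 842))))))))))))
(cons (mv 1097 (cons (cons (mv 906 (cons (fin 842 5 841)
(mv 1161 (cons (fin 1098 5 905)
(fin 969 6 905)))))
(mv 906 (cons (fin 842 5 841)
(mv 1098 (cons (mv 1099 (cons (fin 1100 3 1033)
(fin 1163 4 906)))
(mv 843 (cons (fin 907 6 842)
(mv 905 (cons (fin 841 7 841)
(mv 969 (cons (fin 1162 7 905)
(mv 904 (cons (fin 840 7 840)
(mv 1096 (cons (fin 1160 5 904)
(mv 903 (cons (fin 902 0 902)
(mv 967 (cons (fin 966 1 902)
(mv 839 (cons (fin 838 3 838)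
(mv 968 (cons (fin 1035 0 967)
(fin 1032 7 839))))))))))))))))))))))))
(cons (mv 1161 (cons (fin 1225 6 969)
(mv 969 (cons (cons (mv 904 (cons (fin 968 7 904)
(mv 905 (cons (fin 840 7 840)
(mv 1162 (cons (fin 1098 7 905)
(fin 1226 4 969)))))))
(mv 904 (cons (fin 968 7 904)
(mv 905 (cons (fin 840 7 840)
(mv 1160 (cons (fin 1096 5 904)
(fin 1224 5 968))))))))
(cons (mv 1160 (cons (fin 1224 5 968)
(mv 905 (cons (fin 1096 5 904)
(mv 1162 (cons (fin 1098 7 905)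
(fin 1226 4 969)))))))
(mv 1162 (cons (fin 1226 4 969)
(mv 968 (cons (fin 904 7 904)
(mv 967 (cons (fin 966 0 966)
(fin 1035 0 967))))))))))))
(cons (mv 1161 (cons (fin 1225 6 969)
(mv 906 (cons (fin 842 5 841)
(fin 969 6 905)))))
(mv 906 (cons (fin 842 5 841)
(mv 1161 (cons (fin 1098 5 905)
(fin 1225 6 969)))))))))
(mv 971 (cons (fin 972 1 969)
(mv 1031 (cons (fin 1032 2 967)
(mv 1098 (cons (mv 1099 (cons (fin 1100 3 1033)
(mv 907 (cons (fin 1162 6 906)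
(mv 906 (cons (fin 843 6 842)
(fin 1163 4 906)))))))
(cons (mv 1099 (cons (fin 1100 3 1033)
(mv 906 (cons (fin 1163 4 906)
(mv 842 (cons (fin 1035 4 842)
(mv 841 (cons (fin 777 7 777)
(fin 905 7 841)))))))))
(mv 907 (cons (fin 1162 6 906)
(mv 843 (cons (fin 779 5 778)
(fin 1035 5 842))))))))))))))
(cons (mv 971 (cons (fin 972 1 969)
(mv 1032 (cons (fin 1031 2 967)
(mv 1035 (cons (cons (mv 967 (cons (fin 968 3 967)
(mv 1099 (cons (fin 1100 0 1032)
(mv 906 (cons (fin 1163 7 906)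
(fin 842 4 842)))))))
(mv 968 (cons (fin 967 3 967)
(mv 1097 (cons (cons (mv 1161 (cons (fin 1225 7 968)
(mv 906 (cons (fin 842 5 841)
(fin 969 6 905)))))
(mv 904 (cons (fin 840 4 840)
(mv 842 (cons (fin 906 5 841)
(mv 969 (cons (fin 903 3 903)
(mv 907 (cons (fin 908 2 904)
(mv 843 (cons (fin 778 7 778)
(fin 779 5 778))))))))))))
(cons (mv 1161 (cons (fin 1225 7 968)
(mv 904 (cons (fin 969 7 904)
(fin 840 4 840)))))
(mv 1161 (cons (fin 1225 7 968)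
(mv 904 (cons (fin 840 4 840)
(fin 1096 4 904)))))))))))
(cons (mv 1099 (cons (fin 1100 0 1032)
(mv 906 (cons (fin 1163 7 906)
(fin 842 4 842)))))
(mv 1099 (cons (fin 1100 0 1032)
(mv 1163 (cons (fin 1227 7 970)
(mv 968 (cons (fin 967 3 967)
(mv 1164 (cons (fin 1228 4 971)
(mv 1162 (cons (fin 1226 5 970)
(mv 904 (cons (cons (mv 903 (cons (fin 969 3 903)
(mv 840 (cons (fin 1097 4 840)
(mv 839 (cons (fin 775 7 775)
(fin 1096 7 839)))))))
(mv 903 (cons (fin 969 3 903)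
(mv 839 (cons (fin 1096 7 839)
(mv 775 (cons (fin 840 7 775)
(fin 711 4 711))))))))
(cons (mv 840 (cons (fin 1097 4 840)
(mv 777 (cons (fin 841 6 776)
(mv 776 (cons (fin 713 6 712)
(mv 775 (cons (fin 711 7 711)
(fin 839 7 775)))))))))
(cons (mv 903 (cons (fin 969 3 903)
(mv 1096 (cons (fin 839 7 839)
(mv 1161 (cons (fin 1097 3 1096)
(mv 1225 (cons (fin 1224 1 1160)
(fin 1160 4 968)))))))))
(mv 903 (cons (fin 969 3 903)
(mv 1097 (cons (fin 840 4 840)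
(mv 1161 (cons (fin 1096 3 1096)
(fin 1225 7 968))))))))))))))))))))))))))))
(cons (mv 971 (cons (fin 972 1 969)
(mv 1032 (cons (fin 1031 2 967)
(mv 1035 (cons (cons (mv 967 (cons (fin 968 3 967)
(mv 1099 (cons (fin 1100 0 1032)
(mv 1163 (cons (fin 1227 7 970)
(mv 1162 (cons (fin 1226 5 970)
(mv 907 (cons (fin 1098 5 906)
(mv 1164 (cons (fin 1228 4 971)
(mv 843 (cons (fin 779 5 778)
(mv 844 (cons (fin 780 6 779)
(fin 908 6 843)))))))))))))))))
(mv 968 (cons (fin 967 3 967)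
(mv 907 (cons (mv 843 (cons (fin 779 5 778)
(fin 1098 5 842)))
(cons (mv 969 (cons (fin 908 2 904)
(mv 1098 (cons (fin 1162 6 906)
(mv 904 (cons (fin 903 3 903)
(mv 840 (cons (fin 776 4 776)
(fin 1097 4 840)))))))))
(mv 779 (cons (fin 843 5 778)
(mv 969 (cons (fin 908 2 904)
(mv 904 (cons (fin 903 3 903)
(mv 840 (cons (fin 776 4 776)
(fin 1097 4 840)))))))))))))))
(cons (mv 1099 (cons (fin 1100 0 1032)
(mv 1163 (cons (fin 1227 7 970)
(mv 1162 (cons (fin 1226 5 970)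
(mv 907 (cons (fin 1098 5 906)
(mv 843 (cons (fin 779 5 778)
(mv 844 (cons (fin 780 6 779)
(fin 908 6 843)))))))))))))
(cons (mv 1099 (cons (fin 1100 0 1032)
(mv 1163 (cons (fin 1227 7 970)
(mv 968 (cons (fin 967 3 967)
(mv 1164 (cons (fin 1228 4 971)
(mv 1162 (cons (fin 1226 5 970)
(mv 904 (cons (cons (mv 903 (cons (fin 969 3 903)
(mv 840 (cons (fin 1097 4 840)
(mv 839 (cons (fin 775 7 775)
(fin 1096 7 839)))))))
(mv 903 (cons (fin 969 3 903)
(mv 839 (cons (fin 1096 7 839)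
(mv 775 (cons (fin 840 7 775)
(fin 711 4 711))))))))
(cons (mv 840 (cons (fin 1097 4 840)
(mv 777 (cons (fin 841 6 776)
(mv 776 (cons (fin 713 6 712)
(mv 775 (cons (fin 711 7 711)
(fin 839 7 775)))))))))
(cons (mv 903 (cons (fin 969 3 903)
(mv 1096 (cons (fin 839 7 839)
(mv 1161 (cons (fin 1097 3 1096)
(mv 1225 (cons (fin 1224 1 1160)
(fin 1160 4 968)))))))))
(mv 903 (cons (fin 969 3 903)
(mv 1097 (cons (fin 840 4 840)
(mv 1161 (cons (fin 1096 3 1096)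
(fin 1225 7 968)))))))))))))))))))))
(mv 1099 (cons (fin 1100 0 1032)
(mv 1163 (cons (fin 1227 7 970)
(mv 968 (cons (fin 967 3 967)
(mv 1164 (cons (fin 1228 4 971)
(mv 1097 (cons (cons (mv 1096 (cons (fin 1098 0 1096)
(mv 1161 (cons (fin 1225 7 968)
(fin 904 4 904)))))
(mv 840 (cons (fin 904 4 840)
(mv 1098 (cons (fin 1096 0 1096)
(mv 907 (cons (fin 843 5 842)
(mv 908 (cons (fin 969 2 904)
(fin 844 6 843))))))))))
(cons (mv 1098 (cons (fin 1096 0 1096)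
(mv 1161 (cons (fin 1225 7 968)
(mv 907 (cons (fin 843 5 842)
(mv 908 (cons (fin 969 2 904)
(fin 844 6 843)))))))))
(mv 904 (cons (fin 840 4 840)
(mv 1161 (cons (fin 969 7 904)
(fin 1225 7 968))))))))))))))))))))))))
(mv 971 (cons (fin 972 1 969)
(mv 1098 (cons (mv 1099 (cons (fin 1100 3 1033)
(mv 907 (cons (fin 1162 6 906)
(mv 906 (cons (fin 843 6 842)
(fin 1163 4 906)))))))
(cons (mv 1099 (cons (fin 1100 3 1033)
(mv 906 (cons (fin 1163 4 906)
(mv 842 (cons (fin 1097 5 841)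
(fin 1035 4 842)))))))
(mv 907 (cons (fin 1162 6 906)
(mv 843 (cons (fin 779 5 778)
(fin 1035 5 842)))))))))))))
(cons (cons (mv 971 (cons (fin 972 1 969)
(mv 1031 (cons (fin 1032 2 967)
(mv 1097 (cons (cons (mv 906 (cons (fin 842 5 841)
(mv 1161 (cons (fin 1098 5 905)
(fin 969 6 905)))))
(mv 1161 (cons (fin 1225 6 969)
(mv 969 (cons (cons (mv 904 (cons (fin 968 7 904)
(mv 840 (cons (fin 905 7 840)
(mv 1162 (cons (fin 1226 4 969)
(mv 1098 (cons (fin 907 6 906)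
(mv 1160 (cons (fin 1224 5 968)
(mv 1158 (cons (fin 1159 2 1094)
(mv 1163 (cons (fin 1227 4 970)
(mv 1164 (cons (fin 1096 3 1096)
(fin 1100 2 1097)))))))))))))))))
(mv 1160 (cons (fin 1224 5 968)
(mv 905 (cons (fin 1096 5 904)
(mv 1162 (cons (fin 1098 7 905)
(fin 1226 4 969))))))))
(cons (mv 904 (cons (fin 968 7 904)
(mv 905 (cons (fin 840 7 840)
(mv 1160 (cons (fin 1096 5 904)
(fin 1224 5 968)))))))
(cons (mv 1162 (cons (fin 1226 4 969)
(mv 1098 (cons (fin 905 7 905)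
(fin 907 6 906)))))
(mv 904 (cons (fin 968 7 904)
(mv 1160 (cons (fin 1224 5 968)
(mv 1162 (cons (fin 1226 4 969)
(mv 1098 (cons (fin 907 6 906)
(mv 1158 (cons (fin 1159 2 1094)
(mv 1163 (cons (fin 1227 4 970)
(mv 1164 (cons (fin 1096 3 1096)
(fin 1100 2 1097))))))))))))))))))))))
(cons (mv 906 (cons (fin 842 5 841)
(mv 1098 (cons (mv 907 (cons (fin 843 6 842)
(fin 1162 6 906)))
(cons (mv 905 (cons (fin 841 7 841)
(mv 903 (cons (fin 904 0 903)
(mv 1162 (cons (fin 969 7 905)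
(mv 1226 (cons (fin 1290 7 1033)
(fin 1035 6 970)))))))))
(mv 905 (cons (fin 841 7 841)
(mv 907 (cons (fin 843 6 842)
(mv 904 (cons (fin 903 0 903)
(mv 840 (cons (fin 839 3 839)
(fin 969 7 840))))))))))))))
(cons (mv 906 (cons (fin 842 5 841)
(mv 1161 (cons (fin 969 6 905)
(fin 1225 6 969)))))
(mv 1161 (cons (fin 1225 6 969)
(mv 906 (cons (fin 842 5 841)
(fin 1098 5 905)))))))))))))
(cons (mv 971 (cons (fin 972 1 969)
(mv 1031 (cons (fin 1032 2 967)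
(mv 907 (cons (cons (mv 843 (cons (fin 779 5 778)
(mv 1098 (cons (fin 1035 5 842)
(fin 906 6 842)))))
(mv 843 (cons (fin 779 5 778)
(mv 842 (cons (cons (mv 778 (cons (fin 1035 7 778)
(mv 906 (cons (fin 969 5 777)
(fin 1097 5 841)))))
(mv 1035 (cons (fin 778 7 778)
(mv 844 (cons (fin 780 6 779)
(mv 908 (cons (fin 1099 6 843)
(mv 841 (cons (fin 840 0 840)
(mv 969 (cons (fin 968 2 904)
(mv 777 (cons (fin 776 3 776)
(fin 905 4 777))))))))))))))
(cons (mv 906 (cons (fin 1097 5 841)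
(mv 1035 (cons (fin 1099 7 842)
(mv 780 (cons (fin 844 6 779)
(mv 841 (cons (fin 777 7 777)
(mv 840 (cons (fin 839 0 839)
(fin 908 0 840)))))))))))
(mv 906 (cons (fin 1097 5 841)
(mv 778 (cons (fin 969 5 777)
(fin 714 4 714)))))))))))
(cons (mv 1098 (cons (fin 1162 6 906)
(mv 906 (cons (mv 1097 (cons (fin 842 5 841)
(fin 1161 5 905)))
(cons (mv 841 (cons (fin 905 7 841)
(mv 842 (cons (fin 777 7 777)
(mv 1099 (cons (fin 1035 7 842)
(fin 1163 4 906)))))))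
(mv 1099 (cons (fin 1163 4 906)
(mv 1097 (cons (fin 1161 5 905)
(mv 905 (cons (fin 841 7 841)
(mv 904 (cons (fin 903 0 903)
(mv 840 (cons (fin 839 3 839)
(fin 969 7 840))))))))))))))))
(cons (mv 1098 (cons (fin 1162 6 906)
(mv 843 (cons (fin 779 5 778)
(fin 1035 5 842)))))
(mv 843 (cons (fin 779 5 778)
(mv 1098 (cons (fin 906 6 842)
(fin 1162 6 906)))))))))))))
(mv 971 (cons (fin 972 1 969)
(mv 1031 (cons (fin 1032 2 967)
(mv 1098 (cons (cons (mv 1099 (cons (fin 1100 3 1033)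
(mv 907 (cons (fin 1162 6 906)
(mv 906 (cons (fin 843 6 842)
(fin 1163 4 906)))))))
(mv 1099 (cons (fin 1100 3 1033)
(mv 906 (cons (fin 1163 4 906)
(mv 1097 (cons (fin 842 5 841)
(fin 1161 5 905))))))))
(cons (mv 907 (cons (fin 1162 6 906)
(mv 843 (cons (fin 779 5 778)
(fin 906 6 842)))))
(mv 1162 (cons (fin 907 6 906)
(mv 969 (cons (fin 905 7 905)
(fin 1226 7 969))))))))))))))
(cons (mv 971 (cons (fin 972 1 969)
(mv 1031 (cons (fin 1032 2 967)
(mv 1097 (cons (cons (mv 906 (cons (fin 842 5 841)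
(mv 1161 (cons (fin 1098 5 905)
(fin 969 6 905)))))
(mv 1161 (cons (fin 1225 6 969)
(mv 969 (cons (cons (mv 904 (cons (fin 968 7 904)
(mv 905 (cons (fin 840 7 840)
(mv 1160 (cons (fin 1096 5 904)
(fin 1224 5 968)))))))
(mv 1160 (cons (fin 1224 5 968)
(mv 905 (cons (fin 1096 5 904)
(mv 841 (cons (fin 777 4 777)
(fin 1098 4 841))))))))
(cons (mv 904 (cons (fin 968 7 904)
(mv 905 (cons (fin 840 7 840)
(mv 841 (cons (fin 777 4 777)
(fin 1098 4 841)))))))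
(mv 968 (cons (fin 904 7 904)
(mv 967 (cons (fin 1030 1 966)
(fin 966 0 966)))))))))))
(cons (mv 906 (cons (fin 842 5 841)
(mv 1098 (cons (mv 1099 (cons (fin 1100 3 1033)
(fin 1163 4 906)))
(mv 905 (cons (fin 841 7 841)
(mv 907 (cons (fin 843 6 842)
(mv 904 (cons (fin 903 0 903)
(mv 840 (cons (fin 839 3 839)
(fin 969 7 840)))))))))))))
(cons (mv 906 (cons (fin 842 5 841)
(mv 1161 (cons (fin 969 6 905)
(fin 1225 6 969)))))
(mv 1161 (cons (fin 1225 6 969)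
(mv 906 (cons (fin 842 5 841)
(fin 1098 5 905)))))))))))))
(cons (mv 971 (cons (fin 972 1 969)
(mv 1031 (cons (fin 1032 2 967)
(mv 1097 (cons (cons (mv 906 (cons (fin 842 5 841)
(mv 1161 (cons (fin 1098 5 905)
(fin 969 6 905)))))
(mv 1161 (cons (fin 1225 6 969)
(mv 969 (cons (cons (mv 904 (cons (fin 968 7 904)
(mv 905 (cons (fin 840 7 840)
(mv 1162 (cons (fin 1098 7 905)
(fin 1226 4 969)))))))
(mv 1162 (cons (fin 1226 4 969)
(mv 905 (cons (fin 1098 7 905)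
(mv 1160 (cons (fin 1096 5 904)
(fin 1224 5 968))))))))
(cons (mv 1160 (cons (fin 1224 5 968)
(mv 905 (cons (fin 1096 5 904)
(mv 904 (cons (fin 840 7 840)
(fin 968 7 904)))))))
(mv 968 (cons (fin 904 7 904)
(mv 967 (cons (fin 1030 1 966)
(fin 966 0 966)))))))))))
(cons (mv 906 (cons (fin 842 5 841)
(mv 1098 (cons (mv 1099 (cons (fin 1100 3 1033)
(fin 1163 4 906)))
(mv 905 (cons (fin 841 7 841)
(mv 903 (cons (fin 904 0 903)
(mv 1162 (cons (fin 969 7 905)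
(mv 1226 (cons (fin 1290 7 1033)
(fin 1035 6 970)))))))))))))
(cons (mv 906 (cons (fin 842 5 841)
(mv 1161 (cons (fin 969 6 905)
(fin 1225 6 969)))))
(mv 1161 (cons (fin 1225 6 969)
(mv 906 (cons (fin 842 5 841)
(fin 1098 5 905)))))))))))))
(mv 971 (cons (fin 972 1 969)
(mv 1031 (cons (fin 1032 2 967)
(mv 1098 (cons (cons (mv 1099 (cons (fin 1100 3 1033)
(mv 907 (cons (fin 1162 6 906)
(mv 843 (cons (fin 779 5 778)
(fin 1035 5 842)))))))
(mv 1099 (cons (fin 1100 3 1033)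
(mv 906 (cons (mv 842 (cons (fin 1097 5 841)
(fin 1035 4 842)))
(cons (mv 905 (cons (fin 841 7 841)
(mv 1097 (cons (fin 1161 5 905)
(mv 904 (cons (fin 903 0 903)
(mv 907 (cons (fin 843 6 842)
(mv 840 (cons (fin 839 3 839)
(fin 969 7 840)))))))))))
(mv 842 (cons (fin 1035 4 842)
(mv 841 (cons (fin 777 7 777)
(fin 905 7 841)))))))))))
(cons (mv 1099 (cons (fin 1100 3 1033)
(mv 906 (cons (mv 1097 (cons (fin 842 5 841)
(fin 1161 5 905)))
(cons (mv 841 (cons (fin 905 7 841)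
(mv 1161 (cons (fin 1097 5 905)
(mv 1162 (cons (fin 1225 5 969)
(mv 1226 (cons (fin 969 7 969)
(fin 1035 6 970)))))))))
(mv 842 (cons (fin 1035 4 842)
(mv 841 (cons (fin 777 7 777)
(fin 905 7 841))))))))))
(cons (mv 907 (cons (fin 1162 6 906)
(mv 843 (cons (fin 779 5 778)
(fin 1035 5 842)))))
(mv 907 (cons (fin 1162 6 906)
(mv 843 (cons (fin 779 5 778)
(fin 906 6 842))))))))))))))))))
(mv 1098 (cons (cons (cons (mv 1099 (cons (fin 1100 3 1033)
(mv 1031 (cons (fin 1032 0 1031)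
(mv 970 (cons (mv 971 (cons (fin 972 1 969)
(mv 907 (cons (fin 1162 6 906)
(mv 906 (cons (fin 843 6 842)
(fin 1163 4 906)))))))
(cons (mv 971 (cons (fin 972 1 969)
(mv 907 (cons (fin 1162 6 906)
(mv 843 (cons (fin 779 5 778)
(fin 1035 5 842)))))))
(mv 906 (cons (fin 1163 4 906)
(mv 842 (cons (fin 1097 5 841)
(fin 1035 4 842))))))))))))
(mv 970 (cons (cons (mv 971 (cons (fin 972 1 969)
(mv 1031 (cons (fin 1032 2 967)
(mv 907 (cons (fin 1162 6 906)
(mv 843 (cons (fin 779 5 778)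
(fin 1035 5 842)))))))))
(mv 906 (cons (mv 1097 (cons (fin 842 5 841)
(fin 1161 5 905)))
(cons (mv 841 (cons (fin 905 7 841)
(mv 842 (cons (fin 777 7 777)
(mv 843 (cons (fin 779 6 778)
(fin 907 6 842)))))))
(mv 843 (cons (fin 907 6 842)
(mv 1097 (cons (fin 1161 5 905)
(mv 905 (cons (fin 841 7 841)
(mv 969 (cons (fin 1162 7 905)
(mv 904 (cons (fin 840 7 840)
(mv 903 (cons (fin 902 0 902)
(mv 967 (cons (fin 966 1 902)
(mv 839 (cons (fin 838 3 838)
(mv 968 (cons (fin 1035 0 967)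
(mv 775 (cons (fin 711 4 711)
(fin 1032 4 775)))))))))))))))))))))))))
(cons (mv 971 (cons (fin 972 1 969)
(mv 1031 (cons (fin 1032 2 967)
(mv 906 (cons (mv 1097 (cons (fin 842 5 841)
(fin 1161 5 905)))
(cons (mv 841 (cons (fin 905 7 841)
(mv 842 (cons (fin 777 7 777)
(mv 843 (cons (fin 779 6 778)
(fin 907 6 842)))))))
(mv 907 (cons (fin 843 6 842)
(mv 905 (cons (fin 841 7 841)
(mv 1097 (cons (fin 1161 5 905)
(mv 904 (cons (fin 903 0 903)
(mv 840 (cons (fin 839 3 839)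
(fin 969 7 840))))))))))))))))))
(cons (mv 971 (cons (fin 972 1 969)
(mv 1031 (cons (fin 1032 2 967)
(mv 1162 (cons (cons (mv 969 (cons (fin 905 7 905)
(fin 1226 7 969)))
(mv 905 (cons (fin 969 7 905)
(mv 906 (cons (fin 841 7 841)
(mv 1097 (cons (fin 842 5 841)
(fin 1161 5 905))))))))
(cons (mv 1161 (cons (fin 1225 5 969)
(mv 906 (cons (fin 1097 5 905)
(mv 841 (cons (fin 905 7 841)
(mv 777 (cons (fin 842 7 777)
(mv 1226 (cons (fin 1035 6 970)
(mv 1227 (cons (fin 1163 4 970)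
(fin 1291 4 1034)))))))))))))
(mv 1226 (cons (fin 969 7 969)
(fin 1035 6 970))))))))))
(mv 971 (cons (fin 972 1 969)
(mv 907 (cons (fin 1162 6 906)
(mv 843 (cons (fin 779 5 778)
(fin 1035 5 842))))))))))))
(cons (mv 1162 (cons (cons (mv 1099 (cons (fin 1100 3 1033)
(mv 1031 (cons (fin 1032 0 1031)
(mv 969 (cons (fin 1226 7 969)
(mv 905 (cons (fin 841 4 841)
(fin 1097 4 905)))))))))
(mv 1161 (cons (cons (mv 1099 (cons (fin 1100 3 1033)
(mv 1031 (cons (fin 1032 0 1031)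
(mv 1160 (cons (fin 1159 2 1095)
(mv 1163 (cons (mv 1227 (cons (fin 1228 0 1160)
(fin 1291 7 1034)))
(mv 1224 (cons (fin 1223 1 1159)
(mv 1225 (cons (fin 1164 1 1160)
(mv 1097 (cons (fin 969 5 968)
(fin 1288 5 1032)))))))))))))))
(mv 1097 (cons (cons (mv 1225 (cons (fin 1289 6 1033)
(mv 1224 (cons (fin 1288 5 1032)
(mv 969 (cons (fin 1160 5 968)
(fin 905 4 905)))))))
(mv 969 (cons (fin 905 4 905)
(mv 968 (cons (fin 904 7 904)
(mv 1160 (cons (fin 1224 5 968)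
(mv 1159 (cons (fin 1158 2 1094)
(mv 966 (cons (fin 967 0 966)
(mv 1095 (cons (fin 1094 3 1094)
(mv 1223 (cons (fin 1222 1 1158)
(mv 1031 (cons (fin 1030 7 966)
(fin 1032 6 967))))))))))))))))))
(cons (mv 1225 (cons (fin 1289 6 1033)
(mv 1224 (cons (fin 1288 5 1032)
(mv 1222 (cons (fin 1223 2 1158)
(mv 1163 (cons (fin 1164 1 1160)
(mv 1032 (cons (fin 968 7 968)
(mv 1031 (cons (fin 1030 0 1030)
(mv 1095 (cons (fin 1094 1 1030)
(mv 967 (cons (fin 966 3 966)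
(mv 1159 (cons (fin 1158 5 966)
(fin 1160 4 967)))))))))))))))))))
(cons (mv 1225 (cons (fin 1289 6 1033)
(mv 1224 (cons (fin 1288 5 1032)
(mv 1222 (cons (fin 1223 2 1158)
(mv 1163 (cons (fin 1164 1 1160)
(mv 968 (cons (fin 1032 7 968)
(mv 969 (cons (fin 904 7 904)
(fin 905 4 905)))))))))))))
(mv 969 (cons (fin 905 4 905)
(mv 1225 (cons (fin 1289 6 1033)
(mv 968 (cons (fin 904 7 904)
(fin 1032 7 968))))))))))))
(cons (mv 1163 (cons (cons (mv 1100 (cons (fin 1099 3 1033)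
(fin 1164 2 1097)))
(mv 1160 (cons (mv 1223 (cons (fin 1224 1 1159)
(mv 1159 (cons (fin 1222 1 1158)
(fin 1099 2 1095)))))
(cons (mv 1227 (cons (fin 1228 0 1160)
(mv 1291 (cons (fin 1099 7 1034)
(fin 1355 7 1098)))))
(mv 1224 (cons (fin 1223 1 1159)
(mv 1228 (cons (fin 1227 0 1160)
(mv 1164 (cons (fin 1225 1 1160)
(fin 1229 0 1161)))))))))))
(cons (mv 1164 (cons (fin 1100 2 1097)
(mv 1224 (cons (fin 1225 1 1160)
(mv 1160 (cons (fin 1223 1 1159)
(mv 1228 (cons (fin 1227 0 1160)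
(fin 1229 0 1161)))))))))
(mv 1099 (cons (fin 1100 3 1033)
(mv 1227 (cons (fin 1291 7 1034)
(mv 1160 (cons (fin 1159 2 1095)
(fin 1228 0 1160))))))))))
(cons (mv 1160 (cons (cons (mv 1099 (cons (fin 1100 3 1033)
(fin 1159 2 1095)))
(mv 1097 (cons (mv 969 (cons (fin 1224 5 968)
(fin 905 4 905)))
(cons (mv 1159 (cons (fin 1158 2 1094)
(mv 1223 (cons (fin 1222 1 1158)
(mv 1094 (cons (fin 1095 3 1094)
(mv 1163 (cons (fin 1224 1 1159)
(mv 1164 (cons (fin 1100 2 1097)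
(mv 1228 (cons (fin 1227 0 1160)
(fin 1229 0 1161)))))))))))))
(mv 1159 (cons (fin 1158 2 1094)
(mv 969 (cons (fin 905 4 905)
(mv 1095 (cons (fin 1094 3 1094)
(mv 968 (cons (fin 904 7 904)
(mv 1223 (cons (fin 1222 1 1158)
(mv 966 (cons (fin 967 0 966)
(mv 1031 (cons (fin 1030 7 966)
(fin 1032 6 967)))))))))))))))))))
(cons (mv 1159 (cons (fin 1099 2 1095)
(mv 1097 (cons (fin 1158 2 1094)
(mv 969 (cons (fin 1224 5 968)
(fin 905 4 905)))))))
(mv 1163 (cons (mv 1100 (cons (fin 1099 3 1033)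
(fin 1164 2 1097)))
(cons (mv 1223 (cons (fin 1224 1 1159)
(mv 1227 (cons (fin 1228 0 1160)
(mv 1291 (cons (fin 1099 7 1034)
(fin 1355 7 1098)))))))
(mv 1228 (cons (fin 1227 0 1160)
(mv 1164 (cons (fin 1100 2 1097)
(fin 1229 0 1161)))))))))))
(mv 1099 (cons (fin 1100 3 1033)
(mv 1032 (cons (fin 1031 0 1031)
(mv 1035 (cons (mv 971 (cons (fin 972 2 968)
(fin 907 5 906)))
(mv 968 (cons (fin 967 3 967)
(mv 1097 (cons (fin 1225 7 968)
(mv 969 (cons (fin 904 7 904)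
(fin 905 4 905))))))))))))))))))
(cons (mv 969 (cons (fin 1226 7 969)
(mv 905 (cons (fin 841 4 841)
(fin 1097 4 905)))))
(cons (mv 1099 (cons (fin 1100 3 1033)
(mv 1031 (cons (fin 1032 0 1031)
(mv 1226 (cons (mv 1035 (cons (fin 971 6 970)
(fin 1290 6 1034)))
(cons (mv 1225 (cons (fin 1289 5 1033)
(mv 971 (cons (fin 1035 6 970)
(mv 1227 (cons (fin 1291 4 1034)
(mv 1224 (cons (mv 1163 (cons (fin 1223 2 1159)
(fin 1164 2 1160)))
(cons (mv 1159 (cons (fin 1160 3 1159)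
(mv 1223 (cons (fin 1158 3 1158)
(mv 1287 (cons (fin 1286 1 1222)
(fin 1288 1 1223)))))))
(mv 1288 (cons (fin 1287 1 1223)
(mv 1163 (cons (fin 1164 2 1160)
(mv 1161 (cons (fin 1097 5 1032)
(mv 1160 (cons (fin 1159 3 1159)
(fin 1228 3 1160))))))))))))))))))
(mv 1227 (cons (fin 1291 4 1034)
(mv 1225 (cons (fin 1289 5 1033)
(mv 1290 (cons (fin 1097 7 1033)
(mv 1163 (cons (fin 1354 6 1098)
(mv 1224 (cons (fin 1223 2 1159)
(fin 1164 2 1160))))))))))))))))))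
(mv 1099 (cons (fin 1100 3 1033)
(mv 1226 (cons (fin 969 7 969)
(mv 1035 (cons (fin 971 6 970)
(fin 1290 6 1034)))))))))))
(cons (mv 1099 (cons (fin 1100 3 1033)
(mv 1032 (cons (fin 1031 0 1031)
(mv 971 (cons (cons (mv 972 (cons (fin 970 1 969)
(fin 1035 2 968)))
(mv 968 (cons (cons (mv 967 (cons (fin 1035 3 967)
(mv 966 (cons (fin 965 0 965)
(fin 969 0 966)))))
(mv 970 (cons (mv 906 (cons (fin 1163 4 906)
(mv 842 (cons (fin 1097 5 841)
(fin 1035 4 842)))))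
(cons (mv 969 (cons (mv 903 (cons (fin 904 3 903)
(mv 841 (cons (fin 905 4 841)
(mv 907 (cons (fin 908 2 904)
(mv 843 (cons (fin 779 5 778)
(fin 1035 5 842)))))))))
(cons (mv 907 (cons (fin 908 2 904)
(mv 843 (cons (fin 779 5 778)
(fin 1035 5 842)))))
(mv 841 (cons (fin 905 4 841)
(mv 904 (cons (fin 903 3 903)
(mv 840 (cons (fin 777 6 776)
(fin 776 4 776))))))))))
(mv 906 (cons (fin 1163 4 906)
(mv 1097 (cons (fin 842 5 841)
(fin 1161 5 905)))))))))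
(cons (mv 904 (cons (cons (mv 840 (cons (fin 1097 4 840)
(mv 776 (cons (fin 969 4 776)
(mv 777 (cons (fin 713 6 712)
(fin 841 6 776)))))))
(mv 969 (cons (cons (mv 903 (cons (fin 970 3 903)
(mv 905 (cons (fin 841 4 841)
(mv 901 (cons (fin 902 0 901)
(mv 1097 (cons (fin 1161 7 904)
(mv 906 (cons (fin 842 6 841)
(mv 967 (cons (fin 966 1 902)
(fin 907 1 903)))))))))))))
(mv 967 (cons (fin 966 0 966)
(mv 905 (cons (fin 841 4 841)
(mv 1097 (cons (fin 1161 7 904)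
(mv 906 (cons (fin 907 1 903)
(fin 842 6 841))))))))))
(cons (mv 1097 (cons (fin 1161 7 904)
(mv 970 (cons (fin 903 3 903)
(mv 906 (cons (fin 842 5 841)
(fin 1163 4 906)))))))
(cons (mv 966 (cons (fin 967 0 966)
(mv 841 (cons (fin 905 4 841)
(mv 970 (cons (fin 903 3 903)
(mv 907 (cons (fin 908 2 904)
(mv 843 (cons (fin 779 5 778)
(fin 906 6 842)))))))))))
(mv 903 (cons (fin 970 3 903)
(mv 1097 (cons (fin 1161 7 904)
(mv 902 (cons (fin 901 0 901)
(mv 966 (cons (fin 967 0 966)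
(mv 905 (cons (fin 965 1 901)
(fin 841 4 841))))))))))))))))
(cons (mv 969 (cons (cons (mv 903 (cons (fin 970 3 903)
(mv 841 (cons (fin 905 4 841)
(mv 840 (cons (fin 777 6 776)
(fin 776 4 776)))))))
(mv 841 (cons (fin 905 4 841)
(mv 840 (cons (fin 777 6 776)
(fin 776 4 776))))))
(cons (mv 776 (cons (fin 840 4 776)
(mv 970 (cons (fin 903 3 903)
(mv 966 (cons (fin 967 0 966)
(mv 906 (cons (fin 1163 4 906)
(mv 907 (cons (fin 908 2 904)
(fin 843 6 842)))))))))))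
(mv 966 (cons (fin 967 0 966)
(mv 841 (cons (fin 905 4 841)
(mv 970 (cons (fin 903 3 903)
(mv 907 (cons (fin 908 2 904)
(mv 843 (cons (fin 779 5 778)
(fin 906 6 842))))))))))))))
(cons (mv 840 (cons (fin 1097 4 840)
(mv 777 (cons (fin 841 6 776)
(mv 776 (cons (fin 713 6 712)
(mv 775 (cons (fin 711 7 711)
(fin 839 7 775)))))))))
(mv 840 (cons (fin 1097 4 840)
(mv 776 (cons (fin 969 4 776)
(mv 775 (cons (fin 711 7 711)
(fin 839 7 775)))))))))))
(mv 1035 (cons (fin 967 3 967)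
(mv 907 (cons (fin 843 5 842)
(mv 906 (cons (fin 842 7 842)
(mv 844 (cons (fin 908 6 843)
(mv 970 (cons (fin 1163 7 906)
(mv 1097 (cons (fin 1161 5 905)
(mv 904 (cons (fin 840 4 840)
(mv 905 (cons (fin 903 0 903)
(fin 841 7 841)))))))))))))))))))))
(cons (mv 970 (cons (fin 972 1 969)
(mv 906 (cons (fin 1163 4 906)
(mv 1097 (cons (fin 842 5 841)
(fin 1161 5 905)))))))
(mv 1035 (cons (fin 972 2 968)
(mv 907 (cons (fin 843 5 842)
(mv 968 (cons (fin 967 3 967)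
(mv 908 (cons (fin 844 6 843)
(mv 906 (cons (fin 842 7 842)
(mv 905 (cons (fin 969 1 904)
(mv 840 (cons (fin 841 3 840)
(mv 904 (cons (fin 839 3 839)
(fin 1097 4 840))))))))))))))))))))))))
(mv 1099 (cons (fin 1100 3 1033)
(mv 970 (cons (mv 971 (cons (fin 972 1 969)
(mv 907 (cons (fin 1162 6 906)
(mv 906 (cons (fin 843 6 842)
(fin 1163 4 906)))))))
(cons (mv 971 (cons (fin 972 1 969)
(mv 907 (cons (fin 1162 6 906)
(mv 843 (cons (fin 779 5 778)
(fin 1035 5 842)))))))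
(mv 906 (cons (fin 1163 4 906)
(mv 842 (cons (fin 1097 5 841)
(fin 1035 4 842)))))))))))))
(cons (cons (mv 1099 (cons (fin 1100 3 1033)
(mv 1031 (cons (fin 1032 0 1031)
(mv 969 (cons (cons (mv 1162 (cons (fin 1226 7 969)
(mv 905 (cons (fin 970 7 905)
(fin 841 4 841)))))
(mv 905 (cons (fin 841 4 841)
(mv 906 (cons (cons (mv 842 (cons (fin 1097 6 841)
(mv 970 (cons (fin 778 5 777)
(fin 1035 4 842)))))
(mv 1097 (cons (fin 842 6 841)
(mv 904 (cons (fin 840 7 840)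
(mv 968 (cons (fin 1161 7 904)
(mv 967 (cons (fin 907 1 903)
(fin 966 2 902))))))))))
(cons (mv 970 (cons (fin 1163 4 906)
(mv 842 (cons (fin 778 5 777)
(fin 1035 4 842)))))
(mv 970 (cons (fin 1163 4 906)
(mv 1097 (cons (fin 1161 5 905)
(mv 843 (cons (fin 907 6 842)
(mv 904 (cons (fin 840 7 840)
(mv 903 (cons (fin 902 0 902)
(mv 967 (cons (fin 966 1 902)
(mv 968 (cons (fin 1030 1 966)
(fin 1035 0 967)))))))))))))))))))))
(cons (mv 1162 (cons (fin 1226 7 969)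
(mv 970 (cons (mv 1163 (cons (fin 906 4 906)
(fin 1227 4 970)))
(cons (mv 1161 (cons (fin 1225 5 969)
(mv 906 (cons (fin 1097 5 905)
(mv 842 (cons (fin 778 5 777)
(fin 1035 4 842)))))))
(mv 1161 (cons (fin 1225 5 969)
(mv 1160 (cons (fin 1159 2 1095)
(mv 1163 (cons (fin 1227 4 970)
(mv 1224 (cons (fin 1223 1 1159)
(fin 1097 5 968))))))))))))))
(mv 1162 (cons (fin 1226 7 969)
(mv 905 (cons (fin 841 4 841)
(fin 1097 4 905))))))))))))
(mv 1099 (cons (fin 1100 3 1033)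
(mv 1031 (cons (fin 1032 0 1031)
(mv 970 (cons (cons (mv 971 (cons (fin 972 1 969)
(mv 907 (cons (fin 1162 6 906)
(mv 906 (cons (fin 843 6 842)
(fin 1163 4 906)))))))
(mv 971 (cons (fin 972 1 969)
(mv 907 (cons (fin 1162 6 906)
(mv 843 (cons (fin 779 5 778)
(fin 1035 5 842))))))))
(cons (mv 906 (cons (fin 1163 4 906)
(mv 843 (cons (fin 907 6 842)
(mv 842 (cons (fin 779 6 778)
(fin 1035 4 842)))))))
(mv 906 (cons (fin 1163 4 906)
(mv 842 (cons (fin 1035 4 842)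
(mv 841 (cons (fin 777 7 777)
(fin 905 7 841)))))))))))))))
(cons (mv 1099 (cons (fin 1100 3 1033)
(mv 1031 (cons (fin 1032 0 1031)
(mv 970 (cons (mv 971 (cons (fin 972 1 969)
(mv 906 (cons (fin 1163 4 906)
(mv 907 (cons (fin 843 6 842)
(fin 1162 6 906)))))))
(cons (mv 971 (cons (fin 972 1 969)
(mv 1162 (cons (fin 907 6 906)
(mv 969 (cons (fin 905 7 905)
(fin 1226 7 969)))))))
(mv 906 (cons (fin 1163 4 906)
(mv 1097 (cons (fin 842 5 841)
(fin 1161 5 905))))))))))))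
(cons (mv 1099 (cons (fin 1100 3 1033)
(mv 1031 (cons (fin 1032 0 1031)
(mv 970 (cons (cons (mv 971 (cons (fin 972 1 969)
(mv 906 (cons (fin 1163 4 906)
(mv 842 (cons (fin 1097 5 841)
(fin 1035 4 842)))))))
(cons (mv 971 (cons (fin 972 1 969)
(mv 1162 (cons (mv 969 (cons (fin 905 7 905)
(fin 1226 7 969)))
(cons (mv 969 (cons (fin 905 7 905)
(mv 1161 (cons (fin 1225 5 969)
(mv 1160 (cons (fin 1159 2 1095)
(mv 1163 (cons (fin 1227 4 970)
(mv 1224 (cons (fin 1223 1 1159)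
(fin 1097 5 968)))))))))))
(mv 1161 (cons (fin 1225 5 969)
(mv 1159 (cons (fin 1160 2 1095)
(mv 1226 (cons (fin 1035 6 970)
(mv 1227 (cons (fin 1163 4 970)
(fin 1291 4 1034))))))))))))))
(mv 971 (cons (fin 972 1 969)
(mv 906 (cons (cons (mv 842 (cons (fin 1097 5 841)
(fin 1035 4 842)))
(mv 841 (cons (fin 905 7 841)
(mv 1161 (cons (fin 1097 5 905)
(mv 1162 (cons (fin 1225 5 969)
(mv 1226 (cons (fin 969 7 969)
(fin 1035 6 970))))))))))
(cons (mv 842 (cons (fin 1035 4 842)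
(mv 841 (cons (fin 777 7 777)
(fin 905 7 841)))))
(mv 1097 (cons (fin 842 5 841)
(fin 1161 5 905))))))))))
(cons (mv 906 (cons (fin 1163 4 906)
(mv 842 (cons (fin 1097 5 841)
(fin 1035 4 842)))))
(cons (mv 906 (cons (fin 1163 4 906)
(mv 842 (cons (fin 1035 4 842)
(mv 841 (cons (fin 777 7 777)
(fin 905 7 841)))))))
(mv 906 (cons (fin 1163 4 906)
(mv 1097 (cons (fin 842 5 841)
(fin 1161 5 905)))))))))))))
(mv 1099 (cons (fin 1100 3 1033)
(mv 1031 (cons (fin 1032 0 1031)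
(mv 969 (cons (cons (mv 1162 (cons (fin 1226 7 969)
(mv 905 (cons (fin 970 7 905)
(fin 841 4 841)))))
(mv 905 (cons (fin 841 4 841)
(mv 1097 (cons (cons (mv 840 (cons (fin 904 7 840)
(mv 906 (cons (fin 842 6 841)
(mv 970 (cons (fin 1161 5 905)
(mv 971 (cons (fin 972 3 905)
(mv 907 (cons (fin 843 6 842)
(mv 968 (cons (fin 908 1 904)
(fin 967 2 903)))))))))))))
(cons (mv 904 (cons (fin 840 7 840)
(mv 968 (cons (fin 1161 7 904)
(mv 967 (cons (fin 966 0 966)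
(mv 970 (cons (fin 1030 1 966)
(fin 1035 0 967)))))))))
(mv 906 (cons (fin 842 6 841)
(mv 970 (cons (fin 1161 5 905)
(mv 971 (cons (fin 972 3 905)
(mv 907 (cons (fin 843 6 842)
(mv 968 (cons (fin 908 1 904)
(fin 967 2 903)))))))))))))
(cons (mv 906 (cons (fin 842 6 841)
(mv 904 (cons (fin 840 7 840)
(mv 907 (cons (mv 968 (cons (fin 967 1 903)
(fin 908 1 904)))
(mv 843 (cons (fin 844 2 840)
(fin 970 6 842)))))))))
(cons (mv 904 (cons (fin 840 7 840)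
(mv 842 (cons (fin 906 6 841)
(mv 1161 (cons (fin 968 7 904)
(mv 1224 (cons (fin 1160 5 968)
(mv 1225 (cons (fin 1288 5 1032)
(fin 1289 6 1033)))))))))))
(mv 840 (cons (fin 904 7 840)
(mv 906 (cons (fin 842 6 841)
(mv 970 (cons (fin 1161 5 905)
(mv 972 (cons (fin 971 3 905)
(mv 907 (cons (fin 908 0 905)
(fin 843 6 842))))))))))))))))))
(cons (mv 1162 (cons (fin 1226 7 969)
(mv 970 (cons (mv 971 (cons (fin 972 1 969)
(fin 907 6 906)))
(mv 1161 (cons (fin 1225 5 969)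
(mv 906 (cons (fin 1097 5 905)
(mv 842 (cons (fin 778 5 777)
(fin 1035 4 842)))))))))))
(mv 1162 (cons (fin 1226 7 969)
(mv 905 (cons (fin 841 4 841)
(fin 1097 4 905))))))))))))))))))
(cons (mv 1098 (cons (cons (cons (mv 1099 (cons (fin 1100 3 1033)
(mv 1031 (cons (fin 1032 0 1031)
(mv 970 (cons (cons (mv 971 (cons (fin 972 1 969)
(mv 907 (cons (fin 1162 6 906)
(mv 906 (cons (fin 843 6 842)
(fin 1163 4 906)))))))
(mv 971 (cons (fin 972 1 969)
(mv 907 (cons (fin 1162 6 906)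
(mv 843 (cons (fin 779 5 778)
(fin 1035 5 842))))))))
(cons (mv 906 (cons (fin 1163 4 906)
(mv 842 (cons (fin 1035 4 842)
(mv 843 (cons (fin 779 6 778)
(fin 907 6 842)))))))
(mv 906 (cons (fin 1163 4 906)
(mv 842 (cons (fin 1035 4 842)
(mv 841 (cons (fin 777 7 777)
(fin 905 7 841))))))))))))))
(cons (mv 970 (cons (cons (mv 971 (cons (fin 972 1 969)
(mv 1031 (cons (fin 1032 2 967)
(mv 907 (cons (fin 1162 6 906)
(mv 843 (cons (fin 779 5 778)
(fin 1035 5 842)))))))))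
(mv 906 (cons (cons (mv 841 (cons (fin 905 7 841)
(mv 842 (cons (fin 777 7 777)
(mv 843 (cons (fin 779 6 778)
(fin 907 6 842)))))))
(mv 843 (cons (fin 907 6 842)
(mv 842 (cons (fin 779 6 778)
(mv 778 (cons (fin 969 5 777)
(mv 777 (cons (fin 713 7 713)
(fin 841 7 777))))))))))
(cons (mv 843 (cons (fin 907 6 842)
(mv 842 (cons (fin 779 6 778)
(mv 969 (cons (fin 778 5 777)
(mv 1162 (cons (fin 905 7 905)
(fin 1226 7 969)))))))))
(mv 905 (cons (fin 841 7 841)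
(mv 1162 (cons (fin 969 7 905)
(mv 1227 (cons (fin 1163 4 970)
(mv 1225 (cons (fin 1161 5 969)
(mv 1226 (cons (fin 1289 5 1033)
(fin 1291 4 1034)))))))))))))))
(cons (mv 971 (cons (fin 972 1 969)
(mv 1031 (cons (fin 1032 2 967)
(mv 906 (cons (cons (mv 841 (cons (fin 905 7 841)
(mv 842 (cons (fin 777 7 777)
(mv 843 (cons (fin 779 6 778)
(fin 907 6 842)))))))
(mv 841 (cons (fin 905 7 841)
(mv 842 (cons (fin 777 7 777)
(mv 778 (cons (fin 969 5 777)
(fin 1035 4 778))))))))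
(cons (mv 843 (cons (fin 907 6 842)
(mv 842 (cons (fin 779 6 778)
(mv 778 (cons (fin 969 5 777)
(fin 1035 4 778)))))))
(mv 907 (cons (fin 843 6 842)
(mv 905 (cons (fin 841 7 841)
(mv 904 (cons (fin 903 0 903)
(mv 968 (cons (fin 967 1 903)
(mv 840 (cons (fin 839 3 839)
(mv 969 (cons (fin 908 1 904)
(fin 776 4 776))))))))))))))))))))
(mv 971 (cons (fin 972 1 969)
(mv 1032 (cons (fin 1031 2 967)
(mv 1162 (cons (mv 969 (cons (fin 905 7 905)
(fin 1226 7 969)))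
(cons (mv 1163 (cons (fin 1227 4 970)
(mv 1161 (cons (fin 1225 5 969)
(mv 905 (cons (fin 969 7 905)
(mv 841 (cons (fin 906 7 841)
(mv 1096 (cons (cons (mv 1095 (cons (fin 1160 3 1095)
(fin 1035 1 1031)))
(mv 968 (cons (fin 904 6 840)
(mv 967 (cons (fin 1035 3 967)
(mv 1160 (cons (fin 903 7 903)
(mv 1223 (cons (fin 1224 1 1159)
(fin 1159 5 967))))))))))
(cons (mv 1100 (cons (fin 1164 2 1097)
(mv 1035 (cons (fin 1095 1 1031)
(mv 968 (cons (fin 967 3 967)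
(fin 904 6 840)))))))
(mv 968 (cons (fin 904 6 840)
(mv 1100 (cons (fin 1164 2 1097)
(mv 1160 (cons (fin 1095 3 1095)
(mv 1223 (cons (fin 1224 1 1159)
(fin 1159 5 967))))))))))))))))))))
(mv 1226 (cons (fin 1035 6 970)
(mv 1225 (cons (fin 1161 5 969)
(fin 1289 5 1033)))))))))))))))
(mv 970 (cons (cons (mv 971 (cons (fin 972 1 969)
(mv 1031 (cons (fin 1032 2 967)
(mv 907 (cons (fin 1162 6 906)
(mv 843 (cons (fin 779 5 778)
(fin 1035 5 842)))))))))
(mv 1162 (cons (mv 969 (cons (fin 905 7 905)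
(fin 1226 7 969)))
(cons (mv 1163 (cons (fin 1227 4 970)
(mv 906 (cons (fin 1099 4 906)
(mv 843 (cons (fin 907 6 842)
(mv 842 (cons (fin 779 6 778)
(mv 841 (cons (fin 777 7 777)
(fin 905 7 841)))))))))))
(mv 1161 (cons (fin 1225 5 969)
(mv 969 (cons (fin 1226 7 969)
(mv 1163 (cons (fin 1227 4 970)
(mv 906 (cons (fin 1099 4 906)
(mv 843 (cons (fin 907 6 842)
(mv 842 (cons (fin 778 5 777)
(fin 779 6 778)))))))))))))))))
(cons (mv 971 (cons (fin 972 1 969)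
(mv 1031 (cons (fin 1032 2 967)
(mv 906 (cons (cons (mv 841 (cons (fin 905 7 841)
(mv 842 (cons (fin 777 7 777)
(mv 843 (cons (fin 779 6 778)
(fin 907 6 842)))))))
(mv 1099 (cons (fin 1163 4 906)
(mv 842 (cons (fin 1035 4 842)
(mv 841 (cons (fin 777 7 777)
(fin 905 7 841))))))))
(cons (mv 843 (cons (fin 907 6 842)
(mv 842 (cons (fin 779 6 778)
(mv 778 (cons (fin 969 5 777)
(fin 1035 4 778)))))))
(mv 1099 (cons (fin 1163 4 906)
(mv 905 (cons (fin 841 7 841)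
(mv 907 (cons (fin 843 6 842)
(mv 904 (cons (fin 903 0 903)
(mv 968 (cons (fin 967 1 903)
(mv 839 (cons (fin 840 3 839)
(mv 908 (cons (fin 969 1 904)
(mv 844 (cons (fin 845 2 841)
(fin 1035 6 843))))))))))))))))))))))))
(mv 971 (cons (fin 972 1 969)
(mv 1031 (cons (fin 1032 2 967)
(mv 1162 (cons (cons (mv 969 (cons (fin 905 7 905)
(fin 1226 7 969)))
(mv 905 (cons (fin 969 7 905)
(mv 906 (cons (fin 841 7 841)
(mv 1163 (cons (fin 1099 4 906)
(fin 1227 4 970))))))))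
(cons (mv 1161 (cons (fin 1225 5 969)
(mv 1035 (cons (fin 1226 6 970)
(mv 1163 (cons (fin 1227 4 970)
(mv 906 (cons (fin 1099 7 906)
(mv 842 (cons (fin 778 4 778)
(mv 841 (cons (fin 777 7 777)
(fin 905 7 841)))))))))))))
(mv 1226 (cons (fin 969 7 969)
(fin 1035 6 970)))))))))))))))
(cons (mv 1099 (cons (fin 1100 3 1033)
(mv 1032 (cons (fin 1031 0 1031)
(mv 1035 (cons (cons (mv 967 (cons (fin 968 3 967)
(mv 971 (cons (fin 972 2 968)
(mv 907 (cons (fin 843 5 842)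
(fin 1162 5 906)))))))
(mv 968 (cons (fin 967 3 967)
(mv 1096 (cons (fin 1095 1 1031)
(mv 1160 (cons (mv 969 (cons (fin 905 6 904)
(fin 1224 6 968)))
(mv 1159 (cons (fin 1223 5 967)
(mv 1161 (cons (fin 1162 2 1095)
(fin 1225 4 968))))))))))))
(cons (mv 1095 (cons (fin 1096 1 1031)
(mv 971 (cons (fin 972 2 968)
(mv 907 (cons (fin 843 5 842)
(fin 1162 5 906)))))))
(mv 971 (cons (fin 972 2 968)
(mv 907 (cons (fin 843 5 842)
(mv 968 (cons (fin 967 3 967)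
(mv 1096 (cons (fin 1095 1 1031)
(mv 906 (cons (fin 842 7 842)
(mv 908 (cons (fin 844 6 843)
(mv 905 (cons (fin 969 1 904)
(mv 841 (cons (fin 840 3 840)
(fin 904 6 840))))))))))))))))))))))))
(cons (mv 1099 (cons (fin 1100 3 1033)
(mv 1032 (cons (fin 1031 0 1031)
(mv 1035 (cons (cons (mv 967 (cons (fin 968 3 967)
(mv 971 (cons (fin 972 2 968)
(mv 907 (cons (fin 843 5 842)
(mv 1095 (cons (fin 1096 1 1031)
(mv 844 (cons (fin 908 6 843)
(mv 906 (cons (fin 842 7 842)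
(mv 1163 (cons (fin 970 7 906)
(mv 1227 (cons (fin 1291 7 1034)
(mv 1228 (cons (fin 1164 4 971)
(fin 1292 4 1035)))))))))))))))))))
(cons (mv 1096 (cons (fin 1095 1 1031)
(mv 968 (cons (fin 967 3 967)
(mv 905 (cons (mv 841 (cons (fin 969 5 840)
(fin 904 6 840)))
(cons (mv 1160 (cons (fin 969 6 904)
(mv 1159 (cons (fin 1223 5 967)
(mv 1225 (cons (fin 1161 4 968)
(mv 1224 (cons (fin 1289 4 1032)
(mv 1157 (cons (fin 1158 0 1157)
(mv 1227 (cons (fin 1226 3 1159)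
(mv 1163 (cons (fin 970 7 970)
(fin 1291 7 1034)))))))))))))))
(mv 904 (cons (fin 841 6 840)
(mv 839 (cons (fin 903 7 839)
(mv 840 (cons (fin 775 7 775)
(mv 837 (cons (fin 838 0 837)
(mv 906 (cons (fin 907 3 839)
(mv 970 (cons (fin 842 4 842)
(fin 1163 4 906))))))))))))))))))))
(mv 971 (cons (fin 972 2 968)
(mv 907 (cons (fin 843 5 842)
(mv 1095 (cons (fin 1096 1 1031)
(mv 844 (cons (fin 908 6 843)
(mv 906 (cons (fin 842 7 842)
(mv 1163 (cons (fin 970 7 906)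
(mv 1227 (cons (fin 1291 7 1034)
(mv 1228 (cons (fin 1164 4 971)
(fin 1292 4 1035)))))))))))))))))))
(cons (cons (mv 967 (cons (fin 968 3 967)
(mv 971 (cons (fin 972 2 968)
(mv 907 (cons (fin 843 5 842)
(mv 906 (cons (fin 842 7 842)
(mv 844 (cons (fin 908 6 843)
(mv 1163 (cons (fin 970 7 906)
(mv 1227 (cons (fin 1291 7 1034)
(mv 1228 (cons (fin 1164 4 971)
(fin 1292 4 1035)))))))))))))))))
(mv 971 (cons (fin 972 2 968)
(mv 907 (cons (fin 843 5 842)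
(mv 968 (cons (fin 967 3 967)
(mv 1096 (cons (fin 1095 1 1031)
(mv 906 (cons (fin 842 7 842)
(mv 908 (cons (fin 844 6 843)
(mv 905 (cons (fin 969 1 904)
(mv 841 (cons (fin 840 3 840)
(fin 904 6 840))))))))))))))))))
(cons (mv 971 (cons (fin 972 2 968)
(mv 907 (cons (fin 843 5 842)
(mv 1096 (cons (fin 1095 1 1031)
(mv 908 (cons (fin 844 6 843)
(mv 968 (cons (fin 967 3 967)
(mv 969 (cons (fin 970 2 904)
(mv 905 (cons (fin 841 5 840)
(fin 1160 6 904)))))))))))))))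
(mv 971 (cons (fin 972 2 968)
(mv 1096 (cons (fin 1095 1 1031)
(mv 968 (cons (fin 967 3 967)
(mv 904 (cons (cons (mv 839 (cons (fin 903 7 839)
(mv 840 (cons (fin 775 7 775)
(mv 841 (cons (fin 777 6 776)
(fin 905 6 840)))))))
(cons (mv 839 (cons (fin 903 7 839)
(mv 840 (cons (fin 775 7 775)
(mv 777 (cons (fin 841 6 776)
(mv 776 (cons (fin 713 6 712)
(fin 969 4 776)))))))))
(mv 839 (cons (fin 903 7 839)
(mv 840 (cons (fin 775 7 775)
(mv 969 (cons (fin 776 4 776)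
(mv 1160 (cons (fin 905 6 904)
(fin 1224 6 968)))))))))))
(cons (mv 841 (cons (fin 905 6 840)
(mv 840 (cons (fin 777 6 776)
(mv 775 (cons (fin 839 7 775)
(mv 776 (cons (fin 711 7 711)
(fin 969 4 776)))))))))
(cons (mv 841 (cons (fin 905 6 840)
(mv 840 (cons (fin 777 6 776)
(mv 969 (cons (fin 776 4 776)
(mv 1160 (cons (fin 1224 6 968)
(mv 970 (cons (fin 903 3 903)
(mv 1163 (cons (fin 906 7 906)
(fin 1227 7 970)))))))))))))
(mv 841 (cons (fin 905 6 840)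
(mv 903 (cons (fin 839 7 839)
(mv 970 (cons (fin 969 3 903)
(mv 1163 (cons (fin 906 7 906)
(fin 1227 7 970)))))))))))))))))))))))))))
(mv 1099 (cons (fin 1100 3 1033)
(mv 970 (cons (cons (mv 971 (cons (fin 972 1 969)
(mv 907 (cons (fin 1162 6 906)
(mv 906 (cons (fin 843 6 842)
(fin 1163 4 906)))))))
(mv 971 (cons (fin 972 1 969)
(mv 907 (cons (fin 1162 6 906)
(mv 843 (cons (fin 779 5 778)
(fin 1035 5 842))))))))
(cons (mv 906 (cons (fin 1163 4 906)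
(mv 843 (cons (fin 907 6 842)
(mv 842 (cons (fin 779 6 778)
(fin 1035 4 842)))))))
(mv 906 (cons (fin 1163 4 906)
(mv 842 (cons (fin 1035 4 842)
(mv 841 (cons (fin 777 7 777)
(fin 905 7 841)))))))))))))))
(cons (cons (mv 1099 (cons (fin 1100 3 1033)
(mv 1032 (cons (fin 1031 0 1031)
(mv 969 (cons (cons (mv 1162 (cons (fin 1226 7 969)
(mv 905 (cons (fin 970 7 905)
(fin 841 4 841)))))
(mv 1162 (cons (fin 1226 7 969)
(mv 1163 (cons (mv 970 (cons (fin 906 4 906)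
(fin 1227 4 970)))
(cons (mv 970 (cons (fin 906 4 906)
(mv 1161 (cons (fin 1225 5 969)
(mv 1160 (cons (fin 1159 2 1095)
(mv 1096 (cons (fin 1095 3 1095)
(fin 1224 6 968)))))))))
(mv 1227 (cons (fin 1291 7 1034)
(mv 1228 (cons (mv 1229 (cons (fin 1230 3 1162)
(mv 1161 (cons (fin 1160 0 1160)
(fin 1164 0 1161)))))
(cons (mv 1292 (cons (fin 1035 4 1035)
(mv 1356 (cons (fin 1164 7 1099)
(fin 1420 7 1163)))))
(mv 1229 (cons (fin 1230 3 1162)
(mv 1160 (cons (fin 1161 0 1160)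
(mv 1096 (cons (fin 1224 6 968)
(mv 1035 (cons (fin 1095 1 1031)
(fin 1292 4 1035))))))))))))))))))))
(cons (mv 905 (cons (fin 841 4 841)
(mv 968 (cons (mv 967 (cons (fin 1035 3 967)
(fin 966 0 966)))
(cons (mv 1096 (cons (fin 1160 6 904)
(mv 1095 (cons (fin 1035 1 1031)
(mv 1093 (cons (fin 1094 2 1029)
(mv 904 (cons (fin 1159 5 903)
(mv 839 (cons (fin 903 7 839)
(mv 840 (cons (fin 775 7 775)
(fin 776 4 776)))))))))))))
(mv 1096 (cons (fin 1160 6 904)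
(mv 967 (cons (fin 966 0 966)
(mv 906 (cons (mv 907 (cons (fin 904 1 903)
(fin 908 1 904)))
(cons (mv 970 (cons (fin 1163 4 906)
(mv 778 (cons (fin 842 5 777)
(mv 903 (cons (fin 902 3 902)
(mv 839 (cons (fin 904 7 839)
(fin 775 4 775)))))))))
(mv 970 (cons (fin 907 2 903)
(fin 1163 4 906)))))))))))))))
(mv 1162 (cons (fin 1226 7 969)
(mv 968 (cons (mv 967 (cons (fin 1035 3 967)
(fin 966 0 966)))
(cons (mv 905 (cons (fin 841 4 841)
(mv 1096 (cons (fin 1160 6 904)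
(mv 1095 (cons (fin 1035 1 1031)
(mv 1093 (cons (fin 1094 2 1029)
(mv 904 (cons (fin 1159 5 903)
(mv 839 (cons (fin 903 7 839)
(mv 840 (cons (fin 775 7 775)
(fin 776 4 776)))))))))))))))
(mv 966 (cons (fin 967 0 966)
(mv 904 (cons (cons (mv 841 (cons (fin 905 4 841)
(mv 840 (cons (fin 777 6 776)
(fin 776 4 776)))))
(mv 840 (cons (fin 776 4 776)
(mv 777 (cons (fin 841 6 776)
(mv 839 (cons (fin 775 7 775)
(mv 1096 (cons (fin 903 7 839)
(mv 1159 (cons (fin 1095 5 903)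
(mv 1160 (cons (fin 1161 2 1095)
(fin 1223 5 967))))))))))))))
(cons (mv 840 (cons (fin 776 4 776)
(mv 839 (cons (fin 775 7 775)
(mv 903 (cons (fin 1096 7 839)
(mv 902 (cons (fin 901 0 901)
(mv 905 (cons (fin 965 1 901)
(mv 838 (cons (fin 837 3 837)
(fin 906 3 838)))))))))))))
(mv 905 (cons (fin 841 4 841)
(mv 1096 (cons (fin 1160 6 904)
(mv 1095 (cons (fin 1159 5 903)
(mv 1093 (cons (fin 1094 2 1029)
(mv 903 (cons (fin 839 7 839)
(mv 902 (cons (fin 965 1 901)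
(fin 901 0 901))))))))))))))))))))))))))))))
(cons (mv 1099 (cons (fin 1100 3 1033)
(mv 1031 (cons (fin 1032 0 1031)
(mv 970 (cons (cons (mv 971 (cons (fin 972 1 969)
(mv 906 (cons (fin 1163 4 906)
(mv 907 (cons (fin 843 6 842)
(fin 1162 6 906)))))))
(mv 971 (cons (fin 972 1 969)
(mv 907 (cons (fin 1162 6 906)
(mv 843 (cons (fin 779 5 778)
(fin 1035 5 842))))))))
(cons (mv 906 (cons (fin 1163 4 906)
(mv 842 (cons (fin 1035 4 842)
(mv 843 (cons (fin 779 6 778)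
(fin 907 6 842)))))))
(cons (mv 906 (cons (fin 1163 4 906)
(mv 842 (cons (fin 1035 4 842)
(mv 779 (cons (fin 843 6 778)
(mv 778 (cons (fin 969 5 777)
(fin 715 6 714)))))))))
(mv 971 (cons (fin 972 1 969)
(mv 906 (cons (fin 1163 4 906)
(mv 842 (cons (fin 1035 4 842)
(mv 778 (cons (fin 969 5 777)
(mv 777 (cons (fin 713 7 713)
(fin 841 7 777)))))))))))))))))))
(mv 1099 (cons (fin 1100 3 1033)
(mv 1031 (cons (fin 1032 0 1031)
(mv 970 (cons (cons (mv 971 (cons (fin 972 1 969)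
(mv 906 (cons (fin 1163 4 906)
(mv 907 (cons (fin 843 6 842)
(fin 1162 6 906)))))))
(mv 971 (cons (fin 972 1 969)
(mv 907 (cons (fin 1162 6 906)
(mv 843 (cons (fin 779 5 778)
(fin 1035 5 842))))))))
(cons (mv 906 (cons (fin 1163 4 906)
(mv 842 (cons (fin 1035 4 842)
(mv 843 (cons (fin 779 6 778)
(fin 907 6 842)))))))
(cons (mv 906 (cons (fin 1163 4 906)
(mv 842 (cons (fin 1035 4 842)
(mv 779 (cons (fin 843 6 778)
(mv 778 (cons (fin 969 5 777)
(fin 715 6 714)))))))))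
(mv 971 (cons (fin 972 1 969)
(mv 906 (cons (fin 1163 4 906)
(mv 842 (cons (fin 1035 4 842)
(mv 778 (cons (fin 969 5 777)
(mv 907 (cons (fin 1162 6 906)
(fin 714 4 714)))))))))))))))))))))
(cons (mv 1099 (cons (fin 1100 3 1033)
(mv 1031 (cons (fin 1032 0 1031)
(mv 970 (cons (cons (mv 971 (cons (fin 972 1 969)
(mv 907 (cons (fin 1162 6 906)
(mv 906 (cons (fin 843 6 842)
(fin 1163 4 906)))))))
(mv 971 (cons (fin 972 1 969)
(mv 1162 (cons (fin 907 6 906)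
(mv 969 (cons (fin 905 7 905)
(fin 1226 7 969))))))))
(cons (mv 906 (cons (fin 1163 4 906)
(mv 843 (cons (fin 907 6 842)
(mv 842 (cons (fin 779 6 778)
(mv 841 (cons (fin 777 7 777)
(fin 905 7 841)))))))))
(mv 906 (cons (fin 1163 4 906)
(mv 841 (cons (fin 905 7 841)
(mv 842 (cons (fin 777 7 777)
(mv 971 (cons (fin 972 1 969)
(mv 778 (cons (fin 969 5 777)
(mv 779 (cons (fin 715 6 714)
(fin 843 6 778))))))))))))))))))))
(cons (mv 1099 (cons (fin 1100 3 1033)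
(mv 1031 (cons (fin 1032 0 1031)
(mv 1162 (cons (mv 969 (cons (fin 1226 7 969)
(mv 905 (cons (fin 970 7 905)
(fin 841 4 841)))))
(cons (mv 971 (cons (cons (mv 907 (cons (fin 1035 5 906)
(fin 970 6 906)))
(mv 1035 (cons (fin 907 5 906)
(mv 972 (cons (fin 974 1 970)
(mv 1163 (cons (fin 908 6 907)
(mv 1227 (cons (fin 1291 7 1034)
(mv 1228 (cons (fin 1164 4 971)
(fin 1292 4 1035))))))))))))
(cons (mv 972 (cons (fin 970 1 969)
(mv 974 (cons (fin 1035 1 970)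
(mv 911 (cons (fin 910 2 907)
(mv 975 (cons (fin 912 2 908)
(fin 1039 0 972)))))))))
(mv 970 (cons (fin 972 1 969)
(fin 907 6 906))))))
(mv 1226 (cons (fin 969 7 969)
(mv 1035 (cons (fin 971 6 970)
(fin 1290 6 1034))))))))))))
(mv 1099 (cons (fin 1100 3 1033)
(mv 1032 (cons (fin 1031 0 1031)
(mv 970 (cons (cons (mv 971 (cons (fin 972 1 969)
(mv 906 (cons (fin 1163 4 906)
(mv 842 (cons (fin 1035 4 842)
(mv 841 (cons (fin 777 7 777)
(fin 905 7 841)))))))))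
(cons (mv 971 (cons (fin 972 1 969)
(mv 906 (cons (cons (mv 842 (cons (fin 1035 4 842)
(mv 841 (cons (fin 777 7 777)
(fin 905 7 841)))))
(mv 905 (cons (fin 841 7 841)
(mv 903 (cons (fin 904 0 903)
(mv 1162 (cons (fin 969 7 905)
(mv 1226 (cons (fin 1035 6 970)
(mv 1225 (cons (fin 1161 5 969)
(fin 1289 5 1033))))))))))))
(cons (mv 841 (cons (fin 905 7 841)
(mv 842 (cons (fin 777 7 777)
(mv 778 (cons (fin 969 5 777)
(mv 779 (cons (fin 715 6 714)
(fin 843 6 778)))))))))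
(mv 842 (cons (fin 1035 4 842)
(mv 779 (cons (fin 843 6 778)
(mv 778 (cons (fin 969 5 777)
(fin 715 6 714))))))))))))
(mv 971 (cons (fin 972 1 969)
(mv 1162 (cons (mv 969 (cons (fin 905 7 905)
(fin 1226 7 969)))
(cons (mv 969 (cons (fin 905 7 905)
(mv 1161 (cons (fin 1225 5 969)
(mv 1160 (cons (fin 1159 2 1095)
(mv 1163 (cons (fin 1227 4 970)
(mv 1224 (cons (fin 1223 1 1159)
(fin 1096 6 968)))))))))))
(mv 1163 (cons (fin 1227 4 970)
(mv 1226 (cons (fin 1035 5 970)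
(mv 1225 (cons (fin 1161 5 969)
(fin 1289 5 1033))))))))))))))
(cons (mv 906 (cons (fin 1163 4 906)
(mv 842 (cons (fin 1035 4 842)
(mv 841 (cons (fin 777 7 777)
(fin 905 7 841)))))))
(cons (mv 906 (cons (fin 1163 4 906)
(mv 841 (cons (fin 905 7 841)
(mv 842 (cons (fin 777 7 777)
(mv 971 (cons (fin 972 1 969)
(mv 778 (cons (fin 969 5 777)
(mv 779 (cons (fin 715 6 714)
(fin 843 6 778)))))))))))))
(mv 971 (cons (fin 972 1 969)
(mv 906 (cons (fin 1163 4 906)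
(mv 842 (cons (fin 1035 4 842)
(mv 779 (cons (fin 843 6 778)
(mv 778 (cons (fin 969 5 777)
(fin 715 6 714))))))))))))))))))))))))
(mv 1032 (cons (cons (cons (mv 1031 (cons (cons (mv 970 (cons (fin 971 2 967)
(mv 969 (cons (fin 1030 2 966)
(mv 966 (cons (fin 967 3 966)
(mv 1095 (cons (fin 1094 1 1030)
(mv 1096 (cons (fin 1035 1 1031)
(mv 905 (cons (fin 841 5 840)
(mv 1160 (cons (fin 1097 5 904)
(fin 968 6 904)))))))))))))))
(mv 966 (cons (fin 967 3 966)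
(mv 1030 (cons (fin 965 3 965)
(mv 1094 (cons (fin 1093 1 1029)
(fin 1095 1 1030))))))))
(cons (mv 970 (cons (fin 971 2 967)
(mv 969 (cons (fin 1030 2 966)
(mv 1095 (cons (fin 1094 1 1030)
(mv 1096 (cons (fin 1035 1 1031)
(mv 905 (cons (fin 841 5 840)
(mv 1160 (cons (fin 1097 5 904)
(fin 968 6 904)))))))))))))
(cons (mv 966 (cons (fin 967 3 966)
(mv 1030 (cons (fin 965 3 965)
(mv 970 (cons (fin 969 2 966)
(fin 971 2 967)))))))
(mv 970 (cons (fin 971 2 967)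
(mv 1095 (cons (fin 1094 1 1030)
(mv 967 (cons (fin 966 3 966)
(mv 1035 (cons (fin 968 3 967)
(fin 1096 1 1031)))))))))))))
(mv 1031 (cons (cons (mv 966 (cons (fin 967 3 966)
(mv 1030 (cons (fin 965 3 965)
(mv 1094 (cons (fin 1093 1 1029)
(fin 1095 1 1030)))))))
(mv 970 (cons (fin 971 2 967)
(mv 1030 (cons (fin 969 2 966)
(mv 1094 (cons (fin 1093 1 1029)
(fin 1095 1 1030))))))))
(cons (mv 966 (cons (fin 967 3 966)
(mv 1030 (cons (fin 965 3 965)
(mv 970 (cons (fin 969 2 966)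
(fin 971 2 967)))))))
(mv 970 (cons (fin 971 2 967)
(mv 1095 (cons (fin 1094 1 1030)
(mv 967 (cons (fin 966 3 966)
(mv 903 (cons (cons (mv 1096 (cons (fin 839 4 839)
(fin 1160 4 903)))
(mv 838 (cons (fin 902 7 838)
(mv 774 (cons (fin 839 7 774)
(mv 904 (cons (fin 840 6 839)
(mv 1159 (cons (fin 968 6 903)
(mv 1222 (cons (fin 1158 5 966)
(mv 1224 (cons (fin 1160 4 967)
(mv 1223 (cons (fin 1286 5 1030)
(fin 1288 4 1031))))))))))))))))
(cons (mv 840 (cons (fin 904 6 839)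
(mv 1160 (cons (fin 1096 4 903)
(mv 838 (cons (fin 902 7 838)
(mv 1159 (cons (fin 1224 4 967)
(mv 1223 (cons (fin 968 6 967)
(mv 1222 (cons (fin 1158 5 966)
(fin 1286 5 1030)))))))))))))
(mv 839 (cons (fin 1096 4 839)
(mv 838 (cons (fin 774 7 774)
(fin 902 7 838))))))))))))))))))
(cons (mv 1035 (cons (cons (mv 967 (cons (fin 968 3 967)
(mv 1099 (cons (fin 1100 0 1032)
(mv 971 (cons (fin 972 2 968)
(mv 1095 (cons (fin 1096 1 1031)
(mv 907 (cons (cons (mv 842 (cons (fin 906 7 842)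
(mv 843 (cons (fin 778 7 778)
(mv 844 (cons (fin 780 6 779)
(fin 908 6 843)))))))
(mv 844 (cons (fin 908 6 843)
(mv 843 (cons (fin 780 6 779)
(mv 779 (cons (fin 970 5 778)
(mv 778 (cons (fin 714 7 714)
(fin 842 7 778))))))))))
(cons (mv 844 (cons (fin 908 6 843)
(mv 843 (cons (fin 780 6 779)
(mv 970 (cons (fin 779 5 778)
(mv 1163 (cons (fin 906 7 906)
(fin 1227 7 970)))))))))
(mv 906 (cons (fin 842 7 842)
(mv 1163 (cons (fin 970 7 906)
(mv 1228 (cons (fin 1164 4 971)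
(mv 1226 (cons (fin 1162 5 970)
(mv 1227 (cons (fin 1290 5 1034)
(fin 1292 4 1035))))))))))))))))))))))
(mv 968 (cons (fin 967 3 967)
(mv 1099 (cons (fin 1100 0 1032)
(mv 1096 (cons (fin 1095 1 1031)
(mv 904 (cons (cons (mv 1097 (cons (fin 840 4 840)
(fin 1161 4 904)))
(mv 839 (cons (fin 903 7 839)
(mv 775 (cons (fin 840 7 775)
(mv 905 (cons (fin 841 6 840)
(mv 1160 (cons (fin 969 6 904)
(mv 1223 (cons (fin 1159 5 967)
(mv 1225 (cons (fin 1161 4 968)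
(mv 1224 (cons (fin 1287 5 1031)
(fin 1289 4 1032))))))))))))))))
(cons (mv 841 (cons (fin 905 6 840)
(mv 1161 (cons (fin 1097 4 904)
(mv 839 (cons (fin 903 7 839)
(mv 1160 (cons (fin 1225 4 968)
(mv 1224 (cons (fin 969 6 968)
(mv 1223 (cons (fin 1159 5 967)
(fin 1287 5 1031)))))))))))))
(mv 840 (cons (fin 1097 4 840)
(mv 839 (cons (fin 775 7 775)
(fin 903 7 839)))))))))))))))
(cons (mv 971 (cons (fin 972 2 968)
(mv 968 (cons (fin 967 3 967)
(mv 1096 (cons (fin 1095 1 1031)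
(mv 904 (cons (cons (mv 1097 (cons (fin 840 4 840)
(fin 1161 4 904)))
(mv 839 (cons (fin 903 7 839)
(mv 775 (cons (fin 840 7 775)
(mv 905 (cons (fin 841 6 840)
(mv 1160 (cons (fin 969 6 904)
(mv 1223 (cons (fin 1159 5 967)
(mv 1225 (cons (fin 1161 4 968)
(mv 1224 (cons (fin 1287 5 1031)
(fin 1289 4 1032))))))))))))))))
(cons (mv 841 (cons (fin 905 6 840)
(mv 1161 (cons (fin 1097 4 904)
(mv 839 (cons (fin 903 7 839)
(mv 1160 (cons (fin 1225 4 968)
(mv 1224 (cons (fin 969 6 968)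
(mv 1223 (cons (fin 1159 5 967)
(fin 1287 5 1031)))))))))))))
(mv 840 (cons (fin 1097 4 840)
(mv 839 (cons (fin 775 7 775)
(fin 903 7 839))))))))))))))
(cons (mv 1099 (cons (fin 1100 0 1032)
(mv 971 (cons (fin 972 2 968)
(mv 1095 (cons (fin 1096 1 1031)
(mv 907 (cons (cons (mv 842 (cons (fin 906 7 842)
(mv 843 (cons (fin 778 7 778)
(mv 844 (cons (fin 780 6 779)
(fin 908 6 843)))))))
(mv 844 (cons (fin 908 6 843)
(mv 843 (cons (fin 780 6 779)
(mv 779 (cons (fin 970 5 778)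
(mv 778 (cons (fin 714 7 714)
(fin 842 7 778))))))))))
(cons (mv 844 (cons (fin 908 6 843)
(mv 843 (cons (fin 780 6 779)
(mv 970 (cons (fin 779 5 778)
(mv 1163 (cons (fin 906 7 906)
(fin 1227 7 970)))))))))
(mv 906 (cons (fin 842 7 842)
(mv 1163 (cons (fin 970 7 906)
(mv 1228 (cons (fin 1164 4 971)
(mv 1226 (cons (fin 1162 5 970)
(mv 1227 (cons (fin 1290 5 1034)
(fin 1292 4 1035))))))))))))))))))))
(mv 971 (cons (fin 972 2 968)
(mv 1099 (cons (fin 1100 0 1032)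
(mv 967 (cons (fin 968 3 967)
(mv 907 (cons (cons (mv 842 (cons (fin 906 7 842)
(mv 843 (cons (fin 778 7 778)
(mv 844 (cons (fin 780 6 779)
(fin 908 6 843)))))))
(mv 844 (cons (fin 908 6 843)
(mv 843 (cons (fin 780 6 779)
(mv 779 (cons (fin 970 5 778)
(mv 778 (cons (fin 714 7 714)
(fin 842 7 778))))))))))
(cons (mv 844 (cons (fin 908 6 843)
(mv 843 (cons (fin 780 6 779)
(mv 970 (cons (fin 779 5 778)
(mv 1163 (cons (fin 906 7 906)
(fin 1227 7 970)))))))))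
(mv 906 (cons (fin 842 7 842)
(mv 1163 (cons (fin 970 7 906)
(mv 1228 (cons (fin 1164 4 971)
(mv 1226 (cons (fin 1162 5 970)
(mv 1227 (cons (fin 1290 5 1034)
(fin 1292 4 1035))))))))))))))))))))))))
(cons (mv 1031 (cons (cons (mv 966 (cons (fin 967 3 966)
(mv 1030 (cons (fin 965 3 965)
(mv 1094 (cons (fin 1093 1 1029)
(fin 1095 1 1030)))))))
(cons (mv 1094 (cons (fin 1095 1 1030)
(mv 1030 (cons (fin 1093 1 1029)
(mv 965 (cons (fin 966 3 965)
(mv 1029 (cons (fin 964 3 964)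
(mv 969 (cons (fin 968 2 965)
(fin 970 2 966)))))))))))
(mv 966 (cons (fin 967 3 966)
(mv 1030 (cons (fin 965 3 965)
(mv 1093 (cons (fin 1094 1 1029)
(mv 1029 (cons (fin 1092 1 1028)
(mv 969 (cons (fin 968 2 965)
(fin 970 2 966)))))))))))))
(cons (mv 1094 (cons (fin 1095 1 1030)
(mv 1030 (cons (fin 1093 1 1029)
(mv 969 (cons (fin 970 2 966)
(mv 968 (cons (fin 1029 2 965)
(mv 967 (cons (fin 1035 3 967)
(mv 903 (cons (fin 839 5 838)
(mv 1158 (cons (fin 1222 6 966)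
(mv 1096 (cons (fin 1160 7 903)
(mv 904 (cons (mv 840 (cons (fin 776 5 775)
(fin 1097 4 840)))
(cons (mv 905 (cons (fin 841 5 840)
(mv 1097 (cons (fin 1161 7 904)
(mv 906 (cons (fin 907 1 903)
(fin 842 6 841)))))))
(mv 840 (cons (fin 776 5 775)
(mv 841 (cons (fin 905 5 840)
(fin 777 6 776))))))))))))))))))))))))
(cons (mv 966 (cons (fin 967 3 966)
(mv 1030 (cons (fin 965 3 965)
(mv 969 (cons (fin 970 2 966)
(mv 1029 (cons (fin 968 2 965)
(mv 1092 (cons (fin 1093 1 1028)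
(mv 1028 (cons (fin 1091 1 1027)
(mv 1096 (cons (fin 1095 0 1028)
(fin 1097 0 1029)))))))))))))))
(mv 967 (cons (fin 966 3 966)
(mv 1095 (cons (fin 1094 1 1030)
(mv 1035 (cons (fin 968 3 967)
(fin 1096 1 1031)))))))))))
(mv 1031 (cons (cons (mv 966 (cons (fin 967 3 966)
(mv 1030 (cons (fin 965 3 965)
(mv 1094 (cons (fin 1093 1 1029)
(fin 1095 1 1030)))))))
(mv 1030 (cons (cons (mv 1094 (cons (fin 1093 1 1029)
(fin 1095 1 1030)))
(mv 965 (cons (fin 966 3 965)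
(mv 1029 (cons (fin 964 3 964)
(mv 1092 (cons (fin 1093 1 1028)
(mv 1028 (cons (fin 1091 1 1027)
(mv 1096 (cons (fin 1095 0 1028)
(fin 1097 0 1029))))))))))))
(cons (mv 965 (cons (fin 966 3 965)
(mv 1029 (cons (fin 964 3 964)
(mv 1093 (cons (fin 1092 1 1028)
(fin 1094 1 1029)))))))
(mv 1095 (cons (fin 1094 1 1030)
(mv 965 (cons (fin 966 3 965)
(mv 1029 (cons (fin 964 3 964)
(mv 1096 (cons (fin 1035 1 1031)
(fin 1028 0 1028)))))))))))))
(cons (mv 1030 (cons (cons (mv 966 (cons (fin 965 3 965)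
(fin 967 3 966)))
(mv 1093 (cons (fin 1094 1 1029)
(mv 1029 (cons (fin 1092 1 1028)
(mv 964 (cons (fin 965 3 964)
(mv 963 (cons (fin 1028 3 963)
(mv 1096 (cons (fin 1097 0 1029)
(mv 968 (cons (fin 969 2 965)
(mv 967 (cons (fin 1035 3 967)
(mv 1160 (cons (fin 903 7 903)
(fin 1224 7 967))))))))))))))))))
(cons (mv 965 (cons (fin 966 3 965)
(mv 1029 (cons (fin 964 3 964)
(mv 1093 (cons (fin 1092 1 1028)
(fin 1094 1 1029)))))))
(mv 1093 (cons (fin 1094 1 1029)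
(mv 1029 (cons (fin 1092 1 1028)
(mv 967 (cons (fin 966 3 966)
(mv 968 (cons (fin 1035 3 967)
(fin 1028 2 964))))))))))))
(cons (mv 1095 (cons (fin 1094 1 1030)
(mv 968 (cons (cons (mv 1035 (cons (fin 967 3 967)
(fin 1096 1 1031)))
(mv 904 (cons (fin 840 5 839)
(mv 1159 (cons (fin 1096 5 903)
(fin 967 6 903))))))
(cons (mv 1159 (cons (fin 1223 6 967)
(mv 904 (cons (fin 840 5 839)
(fin 967 6 903)))))
(mv 1096 (cons (fin 1035 1 1031)
(mv 904 (cons (fin 840 5 839)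
(fin 1159 5 903))))))))))
(mv 967 (cons (fin 966 3 966)
(mv 1096 (cons (mv 1035 (cons (fin 968 3 967)
(fin 1095 1 1031)))
(cons (mv 903 (cons (fin 839 4 839)
(mv 1160 (cons (fin 968 7 903)
(fin 1224 7 967)))))
(mv 1160 (cons (fin 1224 7 967)
(mv 903 (cons (fin 839 4 839)
(fin 1095 4 903)))))))))))))))))
(cons (cons (mv 1031 (cons (cons (mv 970 (cons (fin 971 2 967)
(mv 969 (cons (fin 1030 2 966)
(mv 1095 (cons (fin 1094 1 1030)
(mv 1096 (cons (fin 1035 1 1031)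
(mv 905 (cons (fin 841 5 840)
(mv 1160 (cons (fin 1097 5 904)
(fin 968 6 904)))))))))))))
(mv 1030 (cons (cons (mv 1094 (cons (fin 1093 1 1029)
(fin 1095 1 1030)))
(mv 965 (cons (fin 966 3 965)
(mv 1029 (cons (fin 964 3 964)
(mv 1092 (cons (fin 1093 1 1028)
(mv 1028 (cons (fin 1091 1 1027)
(mv 1096 (cons (fin 1095 0 1028)
(fin 1097 0 1029))))))))))))
(cons (mv 965 (cons (fin 966 3 965)
(mv 1029 (cons (fin 964 3 964)
(mv 1093 (cons (fin 1092 1 1028)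
(fin 1094 1 1029)))))))
(mv 1095 (cons (fin 1094 1 1030)
(mv 965 (cons (fin 966 3 965)
(mv 1029 (cons (fin 964 3 964)
(mv 1096 (cons (fin 1035 1 1031)
(fin 1028 0 1028)))))))))))))
(cons (mv 970 (cons (fin 971 2 967)
(mv 1030 (cons (fin 969 2 966)
(mv 1093 (cons (fin 1094 1 1029)
(mv 1029 (cons (fin 1092 1 1028)
(mv 965 (cons (fin 964 3 964)
(fin 966 3 965)))))))))))
(cons (mv 970 (cons (fin 971 2 967)
(mv 1030 (cons (fin 969 2 966)
(mv 965 (cons (fin 966 3 965)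
(mv 1029 (cons (fin 964 3 964)
(mv 1092 (cons (fin 1093 1 1028)
(mv 1028 (cons (fin 1091 1 1027)
(mv 1096 (cons (fin 1095 0 1028)
(fin 1097 0 1029)))))))))))))))
(mv 971 (cons (fin 970 2 967)
(mv 1095 (cons (fin 1094 1 1030)
(mv 1035 (cons (fin 1096 1 1031)
(fin 972 2 968)))))))))))
(mv 971 (cons (cons (mv 970 (cons (fin 972 1 969)
(fin 1031 2 967)))
(mv 1031 (cons (fin 970 2 967)
(mv 1030 (cons (cons (mv 966 (cons (fin 965 3 965)
(fin 967 3 966)))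
(mv 1093 (cons (fin 1094 1 1029)
(mv 1029 (cons (fin 1092 1 1028)
(mv 964 (cons (fin 965 3 964)
(mv 963 (cons (fin 1028 3 963)
(mv 1096 (cons (fin 1097 0 1029)
(mv 968 (cons (fin 969 2 965)
(mv 967 (cons (fin 1035 3 967)
(mv 1160 (cons (fin 903 7 903)
(fin 1224 7 967))))))))))))))))))
(cons (mv 965 (cons (fin 966 3 965)
(mv 1029 (cons (fin 964 3 964)
(mv 1093 (cons (fin 1092 1 1028)
(fin 1094 1 1029)))))))
(mv 1093 (cons (fin 1094 1 1029)
(mv 1029 (cons (fin 1092 1 1028)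
(mv 967 (cons (fin 966 3 966)
(mv 968 (cons (fin 1035 3 967)
(fin 1028 2 964)))))))))))))))
(cons (mv 1035 (cons (fin 972 2 968)
(mv 1099 (cons (fin 1100 0 1032)
(mv 907 (cons (cons (mv 967 (cons (fin 968 3 967)
(mv 966 (cons (fin 1031 3 966)
(mv 842 (cons (fin 906 7 842)
(mv 843 (cons (fin 778 7 778)
(mv 844 (cons (fin 780 6 779)
(fin 908 6 843)))))))))))
(cons (mv 844 (cons (fin 908 6 843)
(mv 843 (cons (fin 780 6 779)
(mv 842 (cons (fin 778 7 778)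
(fin 906 7 842)))))))
(mv 844 (cons (fin 908 6 843)
(mv 843 (cons (fin 780 6 779)
(mv 968 (cons (fin 967 3 967)
(mv 904 (cons (cons (mv 905 (cons (fin 906 2 840)
(mv 840 (cons (fin 1097 4 840)
(mv 841 (cons (fin 777 6 776)
(fin 1096 6 840)))))))
(mv 905 (cons (fin 906 2 840)
(mv 841 (cons (fin 1096 6 840)
(mv 777 (cons (fin 713 5 712)
(fin 969 5 776))))))))
(cons (mv 840 (cons (fin 1097 4 840)
(mv 776 (cons (fin 969 4 776)
(mv 777 (cons (fin 713 6 712)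
(fin 841 6 776)))))))
(mv 840 (cons (fin 1097 4 840)
(mv 776 (cons (fin 969 4 776)
(mv 775 (cons (fin 711 7 711)
(fin 839 7 775))))))))))))))))))
(cons (cons (mv 842 (cons (fin 906 7 842)
(mv 843 (cons (fin 778 7 778)
(mv 840 (cons (cons (mv 967 (cons (fin 968 3 967)
(mv 966 (cons (fin 1031 3 966)
(mv 841 (cons (fin 908 0 840)
(mv 775 (cons (fin 776 3 775)
(mv 903 (cons (fin 904 1 839)
(mv 839 (cons (fin 774 3 774)
(fin 902 1 838)))))))))))))
(cons (mv 968 (cons (fin 967 3 967)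
(mv 904 (cons (fin 1097 4 840)
(mv 776 (cons (fin 969 4 776)
(mv 775 (cons (fin 711 7 711)
(fin 839 7 775)))))))))
(mv 841 (cons (fin 908 0 840)
(mv 779 (cons (fin 780 2 776)
(mv 903 (cons (fin 904 1 839)
(mv 839 (cons (fin 902 1 838)
(mv 775 (cons (fin 774 3 774)
(fin 776 3 775)))))))))))))
(cons (cons (mv 841 (cons (fin 908 0 840)
(mv 967 (cons (fin 968 3 967)
(mv 775 (cons (fin 776 3 775)
(mv 839 (cons (fin 774 3 774)
(mv 966 (cons (fin 1031 3 966)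
(mv 903 (cons (fin 902 1 838)
(fin 1030 5 774)))))))))))))
(mv 967 (cons (fin 968 3 967)
(mv 966 (cons (fin 1031 3 966)
(mv 841 (cons (fin 908 0 840)
(mv 903 (cons (fin 904 1 839)
(mv 839 (cons (fin 902 1 838)
(mv 775 (cons (fin 774 3 774)
(fin 1030 5 774))))))))))))))
(cons (mv 841 (cons (fin 908 0 840)
(mv 779 (cons (fin 780 2 776)
(mv 903 (cons (fin 904 1 839)
(mv 839 (cons (fin 902 1 838)
(mv 967 (cons (fin 968 3 967)
(mv 1031 (cons (fin 966 3 966)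
(fin 776 6 775)))))))))))))
(mv 968 (cons (fin 967 3 967)
(mv 841 (cons (fin 908 0 840)
(mv 904 (cons (fin 903 1 839)
(fin 777 6 776)))))))))))))))
(mv 843 (cons (cons (mv 844 (cons (fin 780 6 779)
(fin 908 6 843)))
(mv 842 (cons (fin 778 7 778)
(mv 840 (cons (cons (mv 967 (cons (fin 968 3 967)
(mv 966 (cons (fin 1031 3 966)
(mv 841 (cons (fin 908 0 840)
(mv 775 (cons (fin 776 3 775)
(mv 903 (cons (fin 904 1 839)
(mv 839 (cons (fin 774 3 774)
(fin 902 1 838)))))))))))))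
(cons (mv 968 (cons (fin 967 3 967)
(mv 904 (cons (fin 1097 4 840)
(mv 776 (cons (fin 969 4 776)
(mv 775 (cons (fin 711 7 711)
(fin 839 7 775)))))))))
(mv 841 (cons (fin 908 0 840)
(mv 779 (cons (fin 780 2 776)
(mv 903 (cons (fin 904 1 839)
(mv 839 (cons (fin 902 1 838)
(mv 775 (cons (fin 774 3 774)
(fin 776 3 775)))))))))))))
(cons (cons (mv 841 (cons (fin 908 0 840)
(mv 967 (cons (fin 968 3 967)
(mv 775 (cons (fin 776 3 775)
(mv 839 (cons (fin 774 3 774)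
(mv 966 (cons (fin 1031 3 966)
(mv 903 (cons (fin 902 1 838)
(fin 1030 5 774)))))))))))))
(mv 967 (cons (fin 968 3 967)
(mv 966 (cons (fin 1031 3 966)
(mv 841 (cons (fin 908 0 840)
(mv 903 (cons (fin 904 1 839)
(mv 839 (cons (fin 902 1 838)
(mv 775 (cons (fin 774 3 774)
(fin 1030 5 774))))))))))))))
(cons (mv 841 (cons (fin 908 0 840)
(mv 779 (cons (fin 780 2 776)
(mv 903 (cons (fin 904 1 839)
(mv 839 (cons (fin 902 1 838)
(mv 967 (cons (fin 968 3 967)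
(mv 1031 (cons (fin 966 3 966)
(fin 776 6 775)))))))))))))
(mv 968 (cons (fin 967 3 967)
(mv 841 (cons (fin 908 0 840)
(mv 904 (cons (fin 903 1 839)
(fin 777 6 776))))))))))))))
(cons (mv 968 (cons (fin 967 3 967)
(mv 908 (cons (fin 844 6 843)
(mv 842 (cons (fin 778 7 778)
(mv 840 (cons (fin 841 0 840)
(mv 904 (cons (fin 1097 4 840)
(mv 776 (cons (fin 969 4 776)
(mv 775 (cons (fin 711 7 711)
(fin 839 7 775)))))))))))))))
(mv 778 (cons (fin 842 7 778)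
(mv 779 (cons (fin 714 7 714)
(mv 780 (cons (fin 716 6 715)
(fin 844 6 779)))))))))))
(cons (mv 968 (cons (fin 967 3 967)
(mv 842 (cons (fin 906 7 842)
(mv 843 (cons (fin 778 7 778)
(mv 780 (cons (fin 844 6 779)
(mv 779 (cons (fin 716 6 715)
(mv 840 (cons (fin 841 2 776)
(mv 904 (cons (fin 1097 4 840)
(mv 776 (cons (fin 969 4 776)
(mv 775 (cons (fin 711 7 711)
(fin 839 7 775)))))))))))))))))))
(mv 906 (cons (fin 842 7 842)
(mv 908 (cons (fin 844 6 843)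
(mv 968 (cons (fin 967 3 967)
(mv 905 (cons (fin 969 1 904)
(mv 840 (cons (fin 841 3 840)
(mv 904 (cons (fin 839 3 839)
(fin 1097 4 840)))))))))))))))))))))
(mv 972 (cons (fin 970 1 969)
(fin 1035 2 968)))))))
(cons (mv 1031 (cons (cons (mv 966 (cons (fin 967 3 966)
(mv 965 (cons (fin 1030 3 965)
(mv 971 (cons (fin 970 2 967)
(mv 1095 (cons (fin 1094 1 1030)
(mv 1035 (cons (fin 1096 1 1031)
(fin 972 2 968)))))))))))
(mv 966 (cons (fin 967 3 966)
(mv 1030 (cons (fin 965 3 965)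
(mv 1094 (cons (fin 1093 1 1029)
(fin 1095 1 1030))))))))
(cons (mv 966 (cons (fin 967 3 966)
(mv 1030 (cons (fin 965 3 965)
(mv 970 (cons (fin 969 2 966)
(fin 971 2 967)))))))
(cons (mv 970 (cons (fin 971 2 967)
(mv 969 (cons (fin 1030 2 966)
(mv 1095 (cons (fin 1094 1 1030)
(mv 1096 (cons (fin 1035 1 1031)
(mv 905 (cons (fin 841 5 840)
(mv 1160 (cons (fin 1097 5 904)
(fin 1224 6 968)))))))))))))
(mv 1095 (cons (fin 1094 1 1030)
(mv 966 (cons (fin 967 3 966)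
(mv 1035 (cons (fin 1096 1 1031)
(mv 971 (cons (fin 970 2 967)
(fin 972 2 968)))))))))))))
(cons (mv 1031 (cons (cons (mv 966 (cons (fin 967 3 966)
(mv 1030 (cons (fin 965 3 965)
(mv 1094 (cons (fin 1093 1 1029)
(fin 1095 1 1030)))))))
(mv 970 (cons (fin 971 2 967)
(mv 1030 (cons (fin 969 2 966)
(mv 1094 (cons (fin 1093 1 1029)
(fin 1095 1 1030))))))))
(cons (mv 966 (cons (fin 967 3 966)
(mv 1030 (cons (fin 965 3 965)
(mv 970 (cons (fin 969 2 966)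
(fin 971 2 967)))))))
(mv 970 (cons (fin 971 2 967)
(mv 1095 (cons (fin 1094 1 1030)
(mv 967 (cons (fin 966 3 966)
(mv 968 (cons (fin 1035 3 967)
(mv 904 (cons (fin 840 5 839)
(fin 1159 6 903))))))))))))))
(mv 1035 (cons (cons (mv 967 (cons (fin 968 3 967)
(mv 1031 (cons (fin 966 3 966)
(mv 1095 (cons (fin 1094 1 1030)
(fin 1096 1 1031)))))))
(mv 967 (cons (fin 968 3 967)
(mv 1031 (cons (fin 966 3 966)
(mv 971 (cons (fin 970 2 967)
(fin 972 2 968))))))))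
(cons (mv 971 (cons (fin 972 2 968)
(mv 970 (cons (fin 1031 2 967)
(mv 1095 (cons (fin 1096 1 1031)
(mv 1099 (cons (fin 1100 0 1032)
(mv 906 (cons (fin 1163 7 906)
(fin 842 4 842)))))))))))
(mv 971 (cons (fin 972 2 968)
(mv 967 (cons (fin 968 3 967)
(mv 1095 (cons (fin 1096 1 1031)
(mv 1099 (cons (fin 1100 0 1032)
(mv 1163 (cons (mv 970 (cons (fin 906 7 906)
(fin 1227 7 970)))
(cons (mv 1228 (cons (fin 1164 4 971)
(mv 1226 (cons (fin 1162 5 970)
(mv 1227 (cons (fin 1290 5 1034)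
(fin 1292 4 1035)))))))
(mv 1162 (cons (fin 1226 5 970)
(mv 1164 (cons (fin 1228 4 971)
(mv 907 (cons (cons (mv 906 (cons (fin 842 7 842)
(fin 970 7 906)))
(mv 844 (cons (fin 908 6 843)
(mv 843 (cons (fin 780 6 779)
(mv 779 (cons (fin 970 5 778)
(mv 778 (cons (fin 714 7 714)
(fin 842 7 778))))))))))
(cons (mv 844 (cons (fin 908 6 843)
(mv 843 (cons (fin 780 6 779)
(mv 970 (cons (fin 906 7 906)
(fin 779 5 778)))))))
(mv 842 (cons (fin 906 7 842)
(mv 843 (cons (fin 778 7 778)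
(mv 844 (cons (fin 780 6 779)
(fin 908 6 843))))))))))))))))))))))))))))))))))))
(cons (cons (ref 3 0)
(cons (mv 970 (cons (cons (cons (mv 971 (cons (fin 972 1 969)
(mv 1031 (cons (fin 1032 2 967)
(mv 1097 (cons (cons (mv 906 (cons (fin 842 5 841)
(mv 1161 (cons (fin 1098 5 905)
(fin 969 6 905)))))
(mv 1161 (cons (fin 1225 6 969)
(mv 969 (cons (cons (mv 904 (cons (fin 968 7 904)
(mv 840 (cons (fin 905 7 840)
(mv 1162 (cons (fin 1226 4 969)
(mv 1098 (cons (fin 907 6 906)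
(mv 1160 (cons (fin 1224 5 968)
(mv 1159 (cons (fin 1158 2 1094)
(fin 1099 2 1095)))))))))))))
(mv 1160 (cons (fin 1224 5 968)
(mv 905 (cons (fin 1096 5 904)
(mv 1162 (cons (fin 1098 7 905)
(fin 1226 4 969))))))))
(cons (mv 904 (cons (fin 968 7 904)
(mv 905 (cons (fin 840 7 840)
(mv 1160 (cons (fin 1096 5 904)
(fin 1224 5 968)))))))
(cons (mv 1162 (cons (fin 1226 4 969)
(mv 1098 (cons (fin 905 7 905)
(fin 907 6 906)))))
(mv 904 (cons (fin 968 7 904)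
(mv 1160 (cons (fin 1224 5 968)
(mv 1162 (cons (fin 1226 4 969)
(mv 1098 (cons (fin 907 6 906)
(mv 1159 (cons (fin 1158 2 1094)
(fin 1099 2 1095))))))))))))))))))
(cons (mv 906 (cons (fin 842 5 841)
(mv 1098 (cons (mv 907 (cons (fin 843 6 842)
(fin 1162 6 906)))
(cons (mv 841 (cons (fin 905 7 841)
(mv 1163 (cons (fin 1099 4 906)
(mv 1162 (cons (fin 1227 4 970)
(mv 1226 (cons (fin 969 7 969)
(fin 1290 7 1033)))))))))
(mv 1099 (cons (fin 1163 4 906)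
(mv 843 (cons (fin 907 6 842)
(mv 905 (cons (fin 841 7 841)
(mv 904 (cons (fin 903 0 903)
(mv 969 (cons (fin 840 7 840)
(mv 1096 (cons (fin 1160 5 904)
(mv 1095 (cons (fin 1030 3 1030)
(fin 1094 2 1030))))))))))))))))))))
(cons (mv 906 (cons (fin 842 5 841)
(mv 1161 (cons (fin 969 6 905)
(fin 1225 6 969)))))
(mv 1161 (cons (fin 1225 6 969)
(mv 906 (cons (fin 842 5 841)
(fin 1098 5 905)))))))))))))
(mv 906 (cons (cons (mv 842 (cons (fin 1097 5 841)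
(mv 778 (cons (fin 969 5 777)
(mv 777 (cons (fin 713 7 713)
(fin 841 7 777)))))))
(mv 1098 (cons (cons (cons (mv 841 (cons (fin 905 7 841)
(mv 1099 (cons (fin 1163 4 906)
(mv 1031 (cons (fin 1032 0 1031)
(mv 843 (cons (fin 907 6 842)
(mv 1161 (cons (fin 1097 5 905)
(mv 1162 (cons (fin 1225 5 969)
(mv 1226 (cons (fin 969 7 969)
(mv 1159 (cons (fin 1160 2 1095)
(mv 1291 (cons (fin 1227 4 1034)
(mv 1290 (cons (fin 1035 6 1034)
(fin 1355 4 1098)))))))))))))))))))))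
(mv 841 (cons (fin 905 7 841)
(mv 1163 (cons (fin 1099 4 906)
(mv 843 (cons (fin 907 6 842)
(mv 1162 (cons (fin 1227 4 970)
(mv 1226 (cons (fin 969 7 969)
(mv 1290 (cons (fin 1097 7 1033)
(mv 1289 (cons (fin 1225 5 1033)
(fin 1353 5 1097))))))))))))))))
(cons (mv 1099 (cons (fin 1163 4 906)
(mv 1031 (cons (fin 1032 0 1031)
(mv 905 (cons (fin 841 7 841)
(mv 843 (cons (fin 907 6 842)
(mv 1162 (cons (fin 969 7 905)
(mv 1225 (cons (fin 1161 5 969)
(mv 1226 (cons (fin 1289 5 1033)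
(mv 1290 (cons (fin 1035 6 1034)
(mv 1291 (cons (fin 1227 4 1034)
(fin 1355 4 1098)))))))))))))))))))
(mv 1097 (cons (fin 1161 5 905)
(mv 1163 (cons (fin 1099 4 906)
(mv 843 (cons (fin 907 6 842)
(mv 1162 (cons (fin 1227 4 970)
(mv 1226 (cons (fin 969 7 969)
(fin 1290 7 1033)))))))))))))
(cons (cons (mv 841 (cons (fin 905 7 841)
(mv 1161 (cons (fin 1097 5 905)
(mv 843 (cons (fin 907 6 842)
(mv 1162 (cons (fin 1225 5 969)
(mv 1226 (cons (fin 969 7 969)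
(mv 1227 (cons (fin 1163 4 970)
(fin 1291 4 1034)))))))))))))
(mv 1097 (cons (fin 1161 5 905)
(mv 905 (cons (fin 841 7 841)
(mv 843 (cons (fin 907 6 842)
(mv 969 (cons (fin 1162 7 905)
(mv 1096 (cons (fin 1160 5 904)
(mv 1095 (cons (fin 1094 2 1030)
(fin 1035 2 1031))))))))))))))
(cons (mv 841 (cons (fin 905 7 841)
(mv 1097 (cons (fin 1161 5 905)
(mv 1163 (cons (fin 1099 4 906)
(mv 1162 (cons (fin 1227 4 970)
(mv 1226 (cons (fin 969 7 969)
(fin 1290 7 1033)))))))))))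
(cons (mv 1163 (cons (fin 1099 4 906)
(mv 1161 (cons (fin 1097 5 905)
(mv 1162 (cons (fin 1225 5 969)
(fin 1227 4 970)))))))
(mv 1099 (cons (fin 1163 4 906)
(mv 1031 (cons (fin 1032 0 1031)
(mv 1097 (cons (fin 1161 5 905)
(mv 907 (cons (fin 843 6 842)
(mv 905 (cons (fin 841 7 841)
(mv 908 (cons (fin 972 0 905)
(mv 844 (cons (fin 845 2 841)
(mv 969 (cons (fin 968 1 904)
(mv 1096 (cons (fin 1160 5 904)
(mv 1095 (cons (fin 1030 3 1030)
(fin 1094 2 1030)))))))))))))))))))))))))))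
(cons (mv 842 (cons (mv 778 (cons (fin 969 5 777)
(mv 777 (cons (fin 713 7 713)
(fin 841 7 777)))))
(cons (mv 777 (cons (fin 841 7 777)
(mv 843 (cons (fin 779 6 778)
(mv 1099 (cons (fin 1035 4 842)
(mv 1098 (cons (fin 907 6 842)
(fin 1163 4 906)))))))))
(mv 779 (cons (fin 843 6 778)
(mv 778 (cons (fin 969 5 777)
(fin 715 6 714))))))))
(cons (mv 842 (cons (fin 1097 5 841)
(mv 777 (cons (fin 841 7 777)
(mv 713 (cons (fin 778 7 713)
(mv 1099 (cons (fin 1035 4 842)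
(mv 843 (cons (fin 779 6 778)
(mv 1098 (cons (fin 907 6 842)
(fin 1163 4 906)))))))))))))
(mv 842 (cons (fin 1097 5 841)
(mv 779 (cons (fin 843 6 778)
(mv 778 (cons (fin 969 5 777)
(fin 715 6 714))))))))))))
(cons (mv 1097 (cons (cons (mv 906 (cons (fin 842 5 841)
(mv 1161 (cons (fin 1098 5 905)
(fin 969 6 905)))))
(mv 906 (cons (fin 842 5 841)
(mv 1098 (cons (cons (mv 841 (cons (fin 905 7 841)
(mv 1099 (cons (fin 1163 4 906)
(mv 1031 (cons (fin 1032 0 1031)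
(mv 907 (cons (fin 843 6 842)
(mv 1162 (cons (fin 971 6 906)
(mv 1226 (cons (fin 969 7 969)
(fin 1290 7 1033)))))))))))))
(cons (mv 843 (cons (fin 907 6 842)
(mv 1163 (cons (fin 1099 4 906)
(mv 1162 (cons (fin 1227 4 970)
(mv 1226 (cons (fin 969 7 969)
(fin 1290 7 1033)))))))))
(mv 841 (cons (fin 905 7 841)
(mv 907 (cons (fin 843 6 842)
(mv 1162 (cons (fin 971 6 906)
(mv 1226 (cons (fin 969 7 969)
(fin 1290 7 1033)))))))))))
(cons (mv 1099 (cons (fin 1163 4 906)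
(mv 1031 (cons (fin 1032 0 1031)
(mv 905 (cons (fin 841 7 841)
(mv 969 (cons (fin 1162 7 905)
(mv 840 (cons (fin 904 7 840)
(mv 1096 (cons (fin 1160 5 904)
(mv 1095 (cons (fin 1030 3 1030)
(fin 1094 2 1030)))))))))))))))
(cons (mv 841 (cons (fin 905 7 841)
(mv 843 (cons (fin 907 6 842)
(mv 1099 (cons (fin 1163 4 906)
(mv 1032 (cons (fin 1031 0 1031)
(mv 1096 (cons (mv 1095 (cons (fin 1035 1 1031)
(fin 1094 2 1030)))
(mv 1160 (cons (fin 1159 1 1095)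
(mv 1224 (cons (fin 969 6 968)
(fin 1288 6 1032)))))))))))))))
(mv 1099 (cons (fin 1163 4 906)
(mv 1032 (cons (fin 1031 0 1031)
(mv 905 (cons (fin 841 7 841)
(mv 907 (cons (fin 843 6 842)
(mv 971 (cons (fin 1162 6 906)
(mv 904 (cons (fin 903 0 903)
(mv 840 (cons (fin 839 3 839)
(fin 968 4 840))))))))))))))))))))))
(cons (mv 1161 (cons (fin 1225 6 969)
(mv 969 (cons (cons (mv 904 (cons (fin 968 7 904)
(mv 905 (cons (fin 840 7 840)
(mv 1162 (cons (fin 1098 7 905)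
(fin 1226 4 969)))))))
(mv 904 (cons (fin 968 7 904)
(mv 905 (cons (fin 840 7 840)
(mv 1160 (cons (fin 1096 5 904)
(fin 1224 5 968))))))))
(cons (mv 1160 (cons (fin 1224 5 968)
(mv 905 (cons (fin 1096 5 904)
(mv 1162 (cons (fin 1098 7 905)
(fin 1226 4 969)))))))
(mv 1162 (cons (fin 1226 4 969)
(mv 968 (cons (fin 904 7 904)
(mv 967 (cons (fin 966 0 966)
(fin 1035 0 967))))))))))))
(cons (mv 1161 (cons (fin 1225 6 969)
(mv 906 (cons (fin 842 5 841)
(fin 1098 5 905)))))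
(mv 906 (cons (fin 842 5 841)
(mv 1161 (cons (fin 969 6 905)
(fin 1225 6 969)))))))))
(cons (mv 971 (cons (fin 972 1 969)
(mv 1031 (cons (fin 1032 2 967)
(mv 907 (cons (cons (mv 843 (cons (fin 779 5 778)
(mv 1098 (cons (fin 1035 5 842)
(fin 906 6 842)))))
(mv 843 (cons (fin 779 5 778)
(mv 1035 (cons (cons (mv 778 (cons (fin 842 7 778)
(mv 844 (cons (fin 780 6 779)
(mv 1099 (cons (fin 908 6 843)
(mv 1163 (cons (fin 906 7 906)
(fin 1227 7 970)))))))))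
(cons (mv 844 (cons (fin 780 6 779)
(mv 1099 (cons (fin 908 6 843)
(mv 1163 (cons (fin 906 7 906)
(fin 1227 7 970)))))))
(mv 842 (cons (fin 778 7 778)
(mv 906 (cons (fin 1099 7 842)
(mv 841 (cons (fin 777 7 777)
(mv 840 (cons (fin 839 0 839)
(fin 908 0 840)))))))))))
(cons (mv 842 (cons (fin 778 7 778)
(mv 780 (cons (fin 844 6 779)
(mv 841 (cons (cons (mv 840 (cons (fin 908 0 840)
(mv 906 (cons (fin 839 0 839)
(fin 777 7 777)))))
(mv 777 (cons (fin 906 7 777)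
(mv 969 (cons (fin 905 4 777)
(mv 968 (cons (fin 908 2 904)
(fin 967 0 967))))))))
(cons (mv 840 (cons (fin 908 0 840)
(mv 903 (cons (fin 904 1 839)
(mv 839 (cons (fin 902 1 838)
(mv 775 (cons (fin 774 3 774)
(fin 776 3 775)))))))))
(mv 906 (cons (fin 777 7 777)
(mv 840 (cons (fin 839 0 839)
(mv 904 (cons (fin 903 1 839)
(mv 776 (cons (fin 775 3 775)
(mv 968 (cons (fin 967 5 775)
(fin 969 4 776))))))))))))))))))
(cons (mv 844 (cons (fin 780 6 779)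
(mv 842 (cons (fin 778 7 778)
(mv 908 (cons (fin 1099 6 843)
(mv 841 (cons (fin 840 0 840)
(mv 969 (cons (fin 968 2 904)
(mv 777 (cons (fin 776 3 776)
(fin 905 4 777)))))))))))))
(mv 780 (cons (fin 844 6 779)
(mv 842 (cons (fin 778 7 778)
(mv 906 (cons (fin 1099 7 842)
(mv 841 (cons (fin 777 7 777)
(mv 840 (cons (fin 839 0 839)
(mv 904 (cons (fin 903 1 839)
(mv 776 (cons (fin 775 3 775)
(mv 968 (cons (fin 967 5 775)
(fin 969 4 776))))))))))))))))))))))))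
(cons (mv 1098 (cons (fin 1162 6 906)
(mv 906 (cons (cons (mv 841 (cons (fin 905 7 841)
(mv 842 (cons (fin 777 7 777)
(mv 1099 (cons (fin 1035 7 842)
(fin 1163 4 906)))))))
(mv 841 (cons (fin 905 7 841)
(mv 842 (cons (fin 777 7 777)
(mv 778 (cons (fin 969 5 777)
(fin 714 4 714))))))))
(cons (mv 1099 (cons (fin 1163 4 906)
(mv 842 (cons (fin 1035 7 842)
(mv 778 (cons (fin 969 5 777)
(fin 714 4 714)))))))
(mv 1099 (cons (fin 1163 4 906)
(mv 905 (cons (fin 841 7 841)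
(mv 904 (cons (fin 903 0 903)
(mv 968 (cons (fin 967 1 903)
(mv 839 (cons (fin 840 3 839)
(mv 908 (cons (fin 969 1 904)
(mv 844 (cons (fin 845 2 841)
(fin 1035 6 843))))))))))))))))))))
(cons (mv 1098 (cons (fin 1162 6 906)
(mv 843 (cons (fin 779 5 778)
(fin 1035 5 842)))))
(mv 843 (cons (fin 779 5 778)
(mv 1098 (cons (fin 906 6 842)
(fin 1162 6 906)))))))))))))
(mv 971 (cons (fin 972 1 969)
(mv 1032 (cons (fin 1031 2 967)
(mv 968 (cons (cons (mv 967 (cons (fin 1035 3 967)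
(mv 966 (cons (fin 965 0 965)
(fin 969 0 966)))))
(mv 1097 (cons (cons (mv 1161 (cons (fin 1225 7 968)
(mv 904 (cons (fin 969 7 904)
(fin 840 4 840)))))
(mv 904 (cons (fin 840 4 840)
(mv 903 (cons (fin 969 3 903)
(mv 1096 (cons (fin 839 7 839)
(mv 1095 (cons (fin 1035 1 1031)
(fin 1094 2 1030))))))))))
(cons (mv 1161 (cons (fin 1225 7 968)
(mv 969 (cons (cons (mv 907 (cons (fin 908 2 904)
(mv 1162 (cons (fin 1098 6 906)
(fin 1226 4 969)))))
(mv 907 (cons (fin 908 2 904)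
(mv 1160 (cons (fin 1224 5 968)
(mv 905 (cons (fin 1096 5 904)
(mv 841 (cons (fin 777 5 776)
(fin 1098 4 841))))))))))
(cons (mv 1160 (cons (fin 1224 5 968)
(mv 905 (cons (fin 1096 5 904)
(mv 1162 (cons (fin 1098 7 905)
(fin 1226 4 969)))))))
(mv 1160 (cons (fin 1224 5 968)
(mv 1096 (cons (fin 905 5 904)
(mv 1095 (cons (fin 1035 1 1031)
(fin 1094 2 1030))))))))))))
(mv 1161 (cons (fin 1225 7 968)
(mv 904 (cons (fin 840 4 840)
(fin 1096 4 904)))))))))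
(cons (mv 1097 (cons (cons (mv 1161 (cons (fin 1225 7 968)
(mv 904 (cons (fin 969 7 904)
(fin 840 4 840)))))
(mv 904 (cons (fin 840 4 840)
(mv 903 (cons (fin 969 3 903)
(mv 839 (cons (fin 1096 7 839)
(mv 775 (cons (fin 711 4 711)
(fin 967 4 775))))))))))
(cons (mv 1161 (cons (fin 1225 7 968)
(mv 969 (cons (cons (mv 907 (cons (fin 908 2 904)
(mv 1162 (cons (fin 1098 6 906)
(fin 1226 4 969)))))
(mv 907 (cons (fin 908 2 904)
(mv 1160 (cons (fin 1224 5 968)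
(mv 905 (cons (fin 1096 5 904)
(mv 841 (cons (fin 777 5 776)
(fin 1098 4 841))))))))))
(cons (mv 1160 (cons (fin 1224 5 968)
(mv 905 (cons (fin 1096 5 904)
(mv 1162 (cons (fin 1098 7 905)
(fin 1226 4 969)))))))
(mv 1160 (cons (fin 1224 5 968)
(mv 1096 (cons (fin 905 5 904)
(mv 967 (cons (fin 966 0 966)
(fin 903 7 903))))))))))))
(mv 1161 (cons (fin 1225 7 968)
(mv 904 (cons (fin 840 4 840)
(fin 1096 4 904))))))))
(mv 967 (cons (fin 1035 3 967)
(mv 965 (cons (fin 966 0 965)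
(mv 1096 (cons (cons (mv 903 (cons (fin 1160 7 903)
(mv 839 (cons (fin 904 7 839)
(fin 775 4 775)))))
(mv 904 (cons (mv 1097 (cons (fin 840 4 840)
(fin 1161 4 904)))
(cons (mv 839 (cons (fin 903 7 839)
(mv 840 (cons (fin 775 7 775)
(mv 841 (cons (fin 777 6 776)
(fin 905 6 840)))))))
(mv 841 (cons (fin 905 6 840)
(mv 1097 (cons (fin 1161 4 904)
(mv 1095 (cons (fin 1094 2 1030)
(fin 1159 5 903)))))))))))
(cons (mv 1095 (cons (mv 1094 (cons (fin 1093 2 1029)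
(fin 1097 2 1030)))
(cons (mv 904 (cons (fin 1159 5 903)
(mv 1097 (cons (fin 840 4 840)
(fin 1161 4 904)))))
(mv 1159 (cons (fin 904 5 903)
(mv 1223 (cons (fin 1160 5 967)
(fin 1287 6 1031))))))))
(mv 1160 (cons (fin 903 7 903)
(mv 1159 (cons (fin 1223 5 967)
(mv 1225 (cons (fin 1161 4 968)
(mv 1224 (cons (fin 1289 4 1032)
(mv 1097 (cons (fin 1288 6 1032)
(mv 1158 (cons (fin 1157 2 1093)
(mv 1095 (cons (fin 1098 1 1094)
(fin 1094 2 1030))))))))))))))))))))))))))))))))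
(cons (cons (mv 971 (cons (fin 972 1 969)
(mv 1097 (cons (cons (mv 906 (cons (fin 842 5 841)
(mv 1161 (cons (fin 1098 5 905)
(fin 969 6 905)))))
(mv 1161 (cons (fin 1225 6 969)
(mv 969 (cons (cons (mv 904 (cons (fin 968 7 904)
(mv 840 (cons (fin 905 7 840)
(mv 1162 (cons (fin 1226 4 969)
(mv 1098 (cons (fin 907 6 906)
(mv 1160 (cons (fin 1224 5 968)
(mv 1159 (cons (fin 1158 2 1094)
(fin 1099 2 1095)))))))))))))
(mv 1160 (cons (fin 1224 5 968)
(mv 905 (cons (fin 1096 5 904)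
(mv 904 (cons (fin 840 7 840)
(fin 968 7 904))))))))
(cons (mv 1162 (cons (fin 1226 4 969)
(mv 1098 (cons (fin 905 7 905)
(fin 907 6 906)))))
(mv 1160 (cons (fin 1224 5 968)
(mv 904 (cons (fin 968 7 904)
(mv 1162 (cons (fin 1226 4 969)
(mv 1098 (cons (fin 907 6 906)
(mv 1159 (cons (fin 1158 2 1094)
(fin 1099 2 1095)))))))))))))))))
(cons (mv 842 (cons (fin 906 5 841)
(mv 907 (cons (cons (mv 843 (cons (fin 779 5 778)
(mv 1035 (cons (fin 778 7 778)
(fin 1098 5 842)))))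
(mv 1098 (cons (fin 1162 6 906)
(mv 969 (cons (cons (mv 908 (cons (fin 968 2 904)
(mv 905 (cons (fin 841 4 841)
(mv 1096 (cons (fin 1160 5 904)
(mv 1095 (cons (fin 1094 2 1030)
(fin 1035 2 1031)))))))))
(mv 968 (cons (fin 908 2 904)
(mv 967 (cons (fin 966 0 966)
(fin 1035 0 967))))))
(cons (mv 905 (cons (fin 841 4 841)
(mv 1096 (cons (fin 1160 5 904)
(mv 1095 (cons (fin 1094 2 1030)
(fin 1035 2 1031)))))))
(mv 841 (cons (fin 905 4 841)
(mv 968 (cons (fin 908 2 904)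
(mv 903 (cons (fin 904 3 903)
(mv 967 (cons (fin 902 3 902)
(fin 966 0 966)))))))))))))))
(cons (mv 843 (cons (fin 779 5 778)
(mv 1035 (cons (fin 778 7 778)
(mv 844 (cons (fin 780 6 779)
(mv 908 (cons (fin 1099 6 843)
(mv 841 (cons (fin 840 0 840)
(mv 969 (cons (fin 968 2 904)
(mv 777 (cons (fin 776 3 776)
(fin 905 4 777)))))))))))))))
(mv 843 (cons (fin 779 5 778)
(mv 1098 (cons (fin 1162 6 906)
(mv 841 (cons (cons (mv 840 (cons (fin 908 0 840)
(mv 903 (cons (fin 904 1 839)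
(mv 839 (cons (fin 902 1 838)
(mv 775 (cons (fin 774 3 774)
(fin 776 3 775)))))))))
(mv 905 (cons (fin 969 4 841)
(mv 844 (cons (fin 904 1 840)
(mv 776 (cons (fin 777 3 776)
(mv 780 (cons (fin 781 2 777)
(mv 716 (cons (fin 652 5 651)
(fin 908 5 715))))))))))))
(cons (mv 905 (cons (fin 969 4 841)
(mv 844 (cons (fin 904 1 840)
(mv 777 (cons (fin 776 3 776)
(mv 781 (cons (fin 780 2 777)
(mv 845 (cons (fin 778 3 777)
(fin 782 2 778)))))))))))
(cons (mv 905 (cons (fin 969 4 841)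
(mv 844 (cons (fin 904 1 840)
(mv 908 (cons (fin 840 0 840)
(mv 780 (cons (fin 781 2 777)
(fin 716 5 715)))))))))
(mv 908 (cons (fin 840 0 840)
(mv 969 (cons (fin 968 2 904)
(fin 905 4 841))))))))))))))))))
(cons (mv 906 (cons (fin 842 5 841)
(mv 1161 (cons (fin 969 6 905)
(fin 1225 6 969)))))
(mv 1161 (cons (fin 1225 6 969)
(mv 906 (cons (fin 842 5 841)
(fin 1098 5 905)))))))))))
(mv 971 (cons (fin 972 1 969)
(mv 1032 (cons (fin 1031 2 967)
(mv 1097 (cons (cons (mv 906 (cons (fin 842 5 841)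
(mv 1161 (cons (fin 969 6 905)
(fin 1225 6 969)))))
(mv 842 (cons (fin 906 5 841)
(mv 968 (cons (cons (mv 967 (cons (fin 1035 3 967)
(mv 966 (cons (fin 965 0 965)
(fin 969 0 966)))))
(mv 904 (cons (fin 840 4 840)
(mv 903 (cons (fin 969 3 903)
(mv 1096 (cons (fin 839 7 839)
(mv 1095 (cons (fin 1035 1 1031)
(fin 1094 2 1030))))))))))
(cons (mv 904 (cons (fin 840 4 840)
(mv 903 (cons (fin 969 3 903)
(mv 839 (cons (fin 1096 7 839)
(mv 775 (cons (fin 711 4 711)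
(fin 967 4 775)))))))))
(mv 904 (cons (fin 840 4 840)
(mv 967 (cons (fin 1035 3 967)
(mv 965 (cons (fin 966 0 965)
(mv 1096 (cons (mv 903 (cons (fin 839 7 839)
(fin 1160 7 903)))
(mv 1095 (cons (fin 1094 2 1030)
(fin 1159 5 903)))))))))))))))))
(cons (mv 1161 (cons (fin 1225 6 969)
(mv 968 (cons (mv 904 (cons (fin 969 7 904)
(fin 840 4 840)))
(cons (mv 967 (cons (fin 1035 3 967)
(mv 966 (cons (fin 965 0 965)
(fin 969 0 966)))))
(mv 904 (cons (fin 840 4 840)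
(fin 1096 4 904))))))))
(mv 842 (cons (fin 906 5 841)
(mv 1096 (cons (mv 1095 (cons (fin 1035 1 1031)
(fin 1094 2 1030)))
(cons (mv 1161 (cons (fin 1225 6 969)
(mv 968 (cons (fin 904 4 904)
(mv 967 (cons (fin 1035 3 967)
(mv 965 (cons (fin 966 0 965)
(mv 1160 (cons (fin 903 7 903)
(mv 1223 (cons (fin 1159 5 967)
(mv 1224 (cons (fin 1287 5 1031)
(fin 1288 6 1032)))))))))))))))
(mv 1094 (cons (fin 1095 2 1030)
(mv 1160 (cons (cons (mv 1161 (cons (fin 1225 6 969)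
(mv 904 (cons (fin 968 4 904)
(mv 1224 (cons (fin 1288 6 1032)
(mv 1223 (cons (fin 1287 5 1031)
(mv 1222 (cons (fin 1221 2 1157)
(mv 1162 (cons (fin 1159 1 1158)
(fin 1163 1 1159)))))))))))))
(mv 1224 (cons (fin 1288 6 1032)
(mv 1223 (cons (fin 1287 5 1031)
(mv 968 (cons (fin 1159 5 967)
(mv 903 (cons (fin 967 7 903)
(mv 904 (cons (fin 839 7 839)
(fin 840 4 840))))))))))))
(cons (mv 1161 (cons (fin 1225 6 969)
(mv 968 (cons (fin 904 4 904)
(mv 1159 (cons (fin 1223 5 967)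
(mv 1158 (cons (fin 1093 3 1093)
(fin 1157 2 1093)))))))))
(cons (mv 1161 (cons (fin 1225 6 969)
(mv 1224 (cons (fin 1288 6 1032)
(mv 1223 (cons (fin 1287 5 1031)
(mv 1222 (cons (fin 1221 2 1157)
(mv 1162 (cons (fin 1159 1 1158)
(fin 1163 1 1159)))))))))))
(mv 1224 (cons (fin 1288 6 1032)
(mv 1225 (cons (fin 1161 6 969)
(fin 1289 4 1032))))))))))))))))))))))))
(cons (mv 971 (cons (fin 972 1 969)
(mv 1032 (cons (fin 1031 2 967)
(mv 1097 (cons (cons (mv 906 (cons (fin 842 5 841)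
(mv 1161 (cons (fin 1098 5 905)
(fin 1225 6 969)))))
(mv 906 (cons (fin 842 5 841)
(mv 1098 (cons (mv 907 (cons (fin 843 6 842)
(fin 1162 6 906)))
(cons (mv 841 (cons (fin 905 7 841)
(mv 1163 (cons (fin 1099 4 906)
(mv 1162 (cons (fin 1227 4 970)
(mv 1226 (cons (fin 1290 7 1033)
(fin 1035 6 970)))))))))
(mv 1099 (cons (fin 1163 4 906)
(mv 907 (cons (fin 843 6 842)
(mv 905 (cons (fin 841 7 841)
(mv 904 (cons (fin 903 0 903)
(mv 840 (cons (fin 839 3 839)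
(fin 968 4 840)))))))))))))))))
(cons (mv 1161 (cons (fin 1225 6 969)
(mv 1096 (cons (mv 1095 (cons (fin 1035 1 1031)
(fin 1094 2 1030)))
(cons (mv 968 (cons (fin 904 4 904)
(mv 967 (cons (fin 1035 3 967)
(mv 965 (cons (fin 966 0 965)
(mv 1160 (cons (fin 903 7 903)
(mv 1159 (cons (fin 1223 5 967)
(mv 1098 (cons (fin 1099 1 1095)
(fin 1158 2 1094)))))))))))))
(mv 904 (cons (fin 968 4 904)
(mv 1095 (cons (fin 1094 2 1030)
(mv 1162 (cons (mv 1163 (cons (fin 1160 3 1095)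
(fin 1164 3 1096)))
(cons (mv 1098 (cons (fin 907 6 906)
(mv 1226 (cons (fin 1290 7 1033)
(mv 1159 (cons (fin 1158 1 1094)
(mv 1160 (cons (fin 1099 1 1095)
(fin 1227 0 1159)))))))))
(mv 1098 (cons (fin 1163 0 1095)
(fin 907 6 906)))))))))))))))
(mv 842 (cons (fin 906 5 841)
(mv 1096 (cons (mv 1095 (cons (fin 1035 1 1031)
(fin 1094 2 1030)))
(cons (mv 1161 (cons (fin 1225 6 969)
(mv 968 (cons (fin 904 4 904)
(mv 967 (cons (fin 1035 3 967)
(mv 965 (cons (fin 966 0 965)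
(mv 1160 (cons (fin 903 7 903)
(mv 1223 (cons (fin 1159 5 967)
(mv 1224 (cons (fin 1287 5 1031)
(fin 1288 6 1032)))))))))))))))
(mv 1094 (cons (fin 1095 2 1030)
(mv 1160 (cons (cons (mv 1161 (cons (fin 1225 6 969)
(mv 904 (cons (fin 968 4 904)
(mv 1224 (cons (fin 1288 6 1032)
(mv 1223 (cons (fin 1287 5 1031)
(mv 1222 (cons (fin 1221 2 1157)
(mv 1162 (cons (fin 1159 1 1158)
(fin 1163 1 1159)))))))))))))
(mv 1224 (cons (fin 1288 6 1032)
(mv 1223 (cons (fin 1287 5 1031)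
(mv 968 (cons (fin 1159 5 967)
(mv 903 (cons (fin 967 7 903)
(mv 904 (cons (fin 839 7 839)
(fin 840 4 840))))))))))))
(cons (mv 1161 (cons (fin 1225 6 969)
(mv 968 (cons (fin 904 4 904)
(mv 1159 (cons (fin 1223 5 967)
(mv 1158 (cons (fin 1093 3 1093)
(fin 1157 2 1093)))))))))
(cons (mv 1161 (cons (fin 1225 6 969)
(mv 1224 (cons (fin 1288 6 1032)
(mv 1223 (cons (fin 1287 5 1031)
(mv 1222 (cons (fin 1221 2 1157)
(mv 1162 (cons (fin 1159 1 1158)
(fin 1163 1 1159)))))))))))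
(mv 1224 (cons (fin 1288 6 1032)
(mv 1225 (cons (fin 1161 6 969)
(fin 1289 4 1032)))))))))))))))))))))))
(cons (mv 971 (cons (fin 972 1 969)
(mv 1031 (cons (fin 1032 2 967)
(mv 1097 (cons (cons (mv 906 (cons (fin 842 5 841)
(mv 1161 (cons (fin 1098 5 905)
(fin 969 6 905)))))
(mv 1161 (cons (fin 1225 6 969)
(mv 969 (cons (cons (mv 904 (cons (fin 968 7 904)
(mv 905 (cons (fin 840 7 840)
(mv 1160 (cons (fin 1096 5 904)
(fin 1224 5 968)))))))
(mv 1160 (cons (fin 1224 5 968)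
(mv 905 (cons (fin 1096 5 904)
(mv 841 (cons (fin 777 4 777)
(fin 1098 4 841))))))))
(cons (mv 904 (cons (fin 968 7 904)
(mv 905 (cons (fin 840 7 840)
(mv 841 (cons (fin 777 4 777)
(fin 1098 4 841)))))))
(mv 968 (cons (fin 904 7 904)
(mv 967 (cons (fin 1030 1 966)
(fin 966 0 966)))))))))))
(cons (mv 906 (cons (fin 842 5 841)
(mv 905 (cons (cons (mv 903 (cons (fin 904 0 903)
(mv 841 (cons (fin 1098 7 841)
(mv 777 (cons (fin 713 4 713)
(fin 969 4 777)))))))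
(mv 904 (cons (fin 903 0 903)
(mv 840 (cons (fin 969 7 840)
(mv 907 (cons (fin 839 3 839)
(mv 843 (cons (fin 844 2 840)
(fin 779 5 778))))))))))
(cons (mv 841 (cons (fin 1098 7 841)
(mv 777 (cons (fin 713 4 713)
(fin 969 4 777)))))
(mv 841 (cons (fin 1098 7 841)
(mv 904 (cons (fin 903 0 903)
(mv 713 (cons (fin 777 4 713)
(mv 907 (cons (mv 840 (cons (fin 839 3 839)
(fin 908 3 840)))
(mv 843 (cons (fin 844 2 840)
(fin 779 5 778))))))))))))))))
(cons (mv 906 (cons (fin 842 5 841)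
(mv 1161 (cons (fin 1098 5 905)
(fin 1225 6 969)))))
(mv 1161 (cons (fin 1225 6 969)
(mv 906 (cons (fin 842 5 841)
(fin 969 6 905)))))))))))))
(mv 971 (cons (fin 972 1 969)
(mv 1031 (cons (fin 1032 2 967)
(mv 1097 (cons (cons (mv 906 (cons (fin 842 5 841)
(mv 1161 (cons (fin 1098 5 905)
(fin 969 6 905)))))
(mv 1161 (cons (fin 1225 6 969)
(mv 1162 (cons (cons (mv 907 (cons (fin 1098 6 906)
(mv 779 (cons (fin 843 5 778)
(mv 969 (cons (fin 1226 4 969)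
(mv 1160 (cons (fin 1224 5 968)
(mv 905 (cons (fin 1096 5 904)
(mv 840 (cons (fin 904 7 840)
(mv 841 (cons (fin 776 7 776)
(fin 777 4 777)))))))))))))))
(mv 969 (cons (fin 1226 4 969)
(mv 1160 (cons (fin 1224 5 968)
(mv 905 (cons (fin 1096 5 904)
(mv 840 (cons (fin 904 7 840)
(mv 841 (cons (fin 776 7 776)
(fin 777 4 777))))))))))))
(cons (mv 1098 (cons (fin 907 6 906)
(mv 905 (cons (fin 969 7 905)
(mv 1163 (cons (fin 1227 4 970)
(mv 1096 (cons (fin 1164 3 1096)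
(fin 1095 0 1095)))))))))
(mv 1098 (cons (fin 907 6 906)
(mv 1226 (cons (fin 1290 7 1033)
(fin 1035 6 970)))))))))))
(cons (mv 906 (cons (fin 842 5 841)
(mv 1098 (cons (mv 907 (cons (fin 843 6 842)
(fin 1162 6 906)))
(cons (mv 841 (cons (fin 905 7 841)
(mv 1163 (cons (fin 1099 4 906)
(mv 1162 (cons (fin 1227 4 970)
(mv 1226 (cons (fin 969 7 969)
(fin 1290 7 1033)))))))))
(mv 1099 (cons (fin 1163 4 906)
(mv 843 (cons (fin 907 6 842)
(mv 905 (cons (fin 841 7 841)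
(mv 904 (cons (fin 903 0 903)
(mv 969 (cons (fin 840 7 840)
(mv 1096 (cons (fin 1160 5 904)
(mv 1095 (cons (fin 1030 3 1030)
(fin 1094 2 1030))))))))))))))))))))
(cons (mv 906 (cons (fin 842 5 841)
(mv 1161 (cons (fin 969 6 905)
(fin 1225 6 969)))))
(mv 1161 (cons (fin 1225 6 969)
(mv 906 (cons (fin 842 5 841)
(fin 1098 5 905))))))))))))))))))
(mv 970 (cons (cons (cons (mv 971 (cons (fin 972 1 969)
(mv 1031 (cons (fin 1032 2 967)
(mv 1098 (cons (mv 1099 (cons (fin 1100 3 1033)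
(mv 907 (cons (fin 1162 6 906)
(mv 906 (cons (fin 843 6 842)
(fin 1163 4 906)))))))
(cons (mv 1099 (cons (fin 1100 3 1033)
(mv 906 (cons (fin 1163 4 906)
(mv 842 (cons (fin 1097 5 841)
(fin 1035 4 842)))))))
(mv 907 (cons (fin 1162 6 906)
(mv 843 (cons (fin 779 5 778)
(fin 1035 5 842))))))))))))
(mv 1097 (cons (cons (mv 906 (cons (fin 842 5 841)
(mv 1161 (cons (fin 1098 5 905)
(fin 969 6 905)))))
(mv 1161 (cons (fin 1225 6 969)
(mv 969 (cons (cons (mv 904 (cons (fin 968 7 904)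
(mv 905 (cons (fin 840 7 840)
(mv 1162 (cons (fin 1098 7 905)
(fin 1226 4 969)))))))
(mv 904 (cons (fin 968 7 904)
(mv 905 (cons (fin 840 7 840)
(mv 841 (cons (fin 777 4 777)
(fin 1098 4 841))))))))
(cons (mv 1162 (cons (fin 1226 4 969)
(mv 905 (cons (fin 1098 7 905)
(mv 841 (cons (fin 777 4 777)
(mv 840 (cons (fin 776 7 776)
(fin 904 7 840)))))))))
(cons (mv 1162 (cons (fin 1226 4 969)
(mv 1098 (cons (fin 905 7 905)
(mv 1099 (cons (fin 1100 3 1033)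
(mv 1031 (cons (fin 1032 0 1031)
(mv 1163 (cons (fin 1227 4 970)
(mv 1096 (cons (fin 1164 3 1096)
(fin 1095 0 1095)))))))))))))
(mv 1162 (cons (fin 1226 4 969)
(mv 968 (cons (fin 904 7 904)
(mv 967 (cons (fin 966 0 966)
(fin 1035 0 967))))))))))))))
(cons (mv 906 (cons (fin 842 5 841)
(mv 1098 (cons (mv 1099 (cons (fin 1100 3 1033)
(fin 1163 4 906)))
(mv 843 (cons (fin 907 6 842)
(mv 905 (cons (fin 841 7 841)
(mv 969 (cons (fin 1162 7 905)
(mv 904 (cons (fin 840 7 840)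
(mv 903 (cons (fin 902 0 902)
(mv 967 (cons (fin 966 1 902)
(mv 839 (cons (fin 838 3 838)
(mv 968 (cons (fin 1035 0 967)
(mv 1032 (cons (fin 1096 7 839)
(fin 775 4 775)))))))))))))))))))))))
(cons (mv 906 (cons (fin 842 5 841)
(mv 1161 (cons (fin 969 6 905)
(fin 1225 6 969)))))
(mv 1161 (cons (fin 1225 6 969)
(mv 906 (cons (fin 842 5 841)
(fin 1098 5 905))))))))))
(cons (mv 971 (cons (fin 972 1 969)
(mv 1031 (cons (fin 1032 2 967)
(mv 1098 (cons (mv 1099 (cons (fin 1100 3 1033)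
(mv 907 (cons (fin 1162 6 906)
(mv 906 (cons (fin 843 6 842)
(fin 1163 4 906)))))))
(cons (mv 1099 (cons (fin 1100 3 1033)
(mv 906 (cons (fin 1163 4 906)
(mv 842 (cons (fin 1035 4 842)
(mv 841 (cons (fin 777 7 777)
(fin 905 7 841)))))))))
(mv 907 (cons (fin 1162 6 906)
(mv 843 (cons (fin 779 5 778)
(fin 1035 5 842))))))))))))
(cons (mv 971 (cons (fin 972 1 969)
(mv 1032 (cons (fin 1031 2 967)
(mv 1035 (cons (cons (mv 967 (cons (fin 968 3 967)
(mv 1099 (cons (fin 1100 0 1032)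
(mv 906 (cons (fin 1163 7 906)
(fin 842 4 842)))))))
(mv 968 (cons (fin 967 3 967)
(mv 1095 (cons (fin 1096 1 1031)
(mv 969 (cons (cons (mv 903 (cons (fin 904 3 903)
(mv 907 (cons (fin 908 2 904)
(mv 843 (cons (fin 779 5 778)
(mv 842 (cons (fin 778 7 778)
(mv 844 (cons (fin 780 6 779)
(mv 906 (cons (fin 1097 5 841)
(mv 845 (cons (fin 905 1 841)
(fin 846 1 842)))))))))))))))
(mv 907 (cons (fin 908 2 904)
(mv 843 (cons (fin 779 5 778)
(mv 842 (cons (fin 778 7 778)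
(mv 844 (cons (fin 780 6 779)
(mv 906 (cons (fin 1097 5 841)
(mv 845 (cons (fin 905 1 841)
(fin 846 1 842))))))))))))))
(cons (mv 904 (cons (fin 903 3 903)
(mv 840 (cons (fin 776 4 776)
(fin 1097 4 840)))))
(mv 904 (cons (fin 903 3 903)
(mv 907 (cons (fin 908 2 904)
(mv 776 (cons (fin 840 4 776)
(mv 843 (cons (fin 779 5 778)
(mv 842 (cons (fin 778 7 778)
(mv 844 (cons (fin 780 6 779)
(mv 841 (cons (fin 777 3 776)
(fin 905 1 840)))))))))))))))))))))))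
(cons (mv 1095 (cons (fin 1096 1 1031)
(mv 1099 (cons (fin 1100 0 1032)
(mv 906 (cons (fin 1163 7 906)
(fin 842 4 842)))))))
(mv 1099 (cons (fin 1100 0 1032)
(mv 1163 (cons (fin 1227 7 970)
(mv 968 (cons (fin 967 3 967)
(mv 1096 (cons (fin 1095 1 1031)
(mv 1162 (cons (fin 1226 5 970)
(mv 1164 (cons (fin 1228 4 971)
(mv 1097 (cons (fin 1161 3 1096)
(mv 904 (cons (fin 840 4 840)
(mv 903 (cons (fin 969 3 903)
(fin 839 7 839))))))))))))))))))))))))))
(mv 971 (cons (fin 972 1 969)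
(mv 1032 (cons (fin 1031 2 967)
(mv 1035 (cons (cons (mv 967 (cons (fin 968 3 967)
(mv 1099 (cons (fin 1100 0 1032)
(mv 1163 (cons (fin 1227 7 970)
(mv 1095 (cons (fin 1096 1 1031)
(mv 1164 (cons (fin 1228 4 971)
(mv 1162 (cons (fin 1226 5 970)
(mv 907 (cons (fin 1098 5 906)
(mv 843 (cons (fin 779 5 778)
(mv 844 (cons (fin 780 6 779)
(fin 908 6 843)))))))))))))))))))
(cons (mv 968 (cons (fin 967 3 967)
(mv 1095 (cons (fin 1096 1 1031)
(mv 907 (cons (mv 843 (cons (fin 779 5 778)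
(fin 1098 5 842)))
(cons (mv 969 (cons (fin 908 2 904)
(mv 1098 (cons (fin 1162 6 906)
(mv 841 (cons (fin 905 4 841)
(mv 904 (cons (fin 903 3 903)
(mv 840 (cons (fin 777 6 776)
(fin 776 4 776)))))))))))
(mv 779 (cons (fin 843 5 778)
(mv 969 (cons (fin 908 2 904)
(mv 904 (cons (fin 903 3 903)
(mv 840 (cons (fin 776 4 776)
(fin 1097 4 840))))))))))))))))
(mv 1095 (cons (fin 1096 1 1031)
(mv 1099 (cons (fin 1100 0 1032)
(mv 1163 (cons (fin 1227 7 970)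
(mv 1162 (cons (fin 1226 5 970)
(mv 907 (cons (fin 1098 5 906)
(mv 843 (cons (fin 779 5 778)
(mv 844 (cons (fin 780 6 779)
(fin 908 6 843)))))))))))))))))
(cons (mv 1099 (cons (fin 1100 0 1032)
(mv 1163 (cons (fin 1227 7 970)
(mv 967 (cons (fin 968 3 967)
(mv 1164 (cons (fin 1228 4 971)
(mv 1162 (cons (fin 1226 5 970)
(mv 907 (cons (fin 1098 5 906)
(mv 843 (cons (fin 779 5 778)
(mv 844 (cons (fin 780 6 779)
(fin 908 6 843)))))))))))))))))
(cons (mv 1099 (cons (fin 1100 0 1032)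
(mv 1163 (cons (fin 1227 7 970)
(mv 968 (cons (fin 967 3 967)
(mv 1096 (cons (fin 1095 1 1031)
(mv 1162 (cons (fin 1226 5 970)
(mv 1164 (cons (fin 1228 4 971)
(mv 1097 (cons (fin 1161 3 1096)
(mv 904 (cons (fin 840 4 840)
(mv 903 (cons (fin 969 3 903)
(fin 839 7 839)))))))))))))))))))
(mv 1099 (cons (fin 1100 0 1032)
(mv 1163 (cons (fin 1227 7 970)
(mv 1096 (cons (fin 1095 1 1031)
(mv 1164 (cons (fin 1228 4 971)
(mv 1097 (cons (fin 1098 0 1096)
(mv 968 (cons (fin 967 3 967)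
(mv 1161 (cons (fin 1225 7 968)
(fin 904 4 904))))))))))))))))))))))))))
(cons (cons (mv 971 (cons (fin 972 1 969)
(mv 1098 (cons (mv 1099 (cons (fin 1100 3 1033)
(mv 907 (cons (fin 1162 6 906)
(mv 906 (cons (fin 843 6 842)
(fin 1163 4 906)))))))
(cons (mv 1099 (cons (fin 1100 3 1033)
(mv 906 (cons (fin 1163 4 906)
(mv 842 (cons (fin 1097 5 841)
(fin 1035 4 842)))))))
(mv 907 (cons (fin 1162 6 906)
(mv 843 (cons (fin 779 5 778)
(fin 1035 5 842))))))))))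
(mv 971 (cons (fin 972 1 969)
(mv 1031 (cons (fin 1032 2 967)
(mv 1097 (cons (cons (mv 906 (cons (fin 842 5 841)
(mv 1161 (cons (fin 1098 5 905)
(fin 969 6 905)))))
(mv 1161 (cons (fin 1225 6 969)
(mv 969 (cons (mv 1162 (cons (fin 1226 4 969)
(mv 1098 (cons (fin 905 7 905)
(fin 907 6 906)))))
(cons (mv 904 (cons (fin 968 7 904)
(mv 905 (cons (fin 840 7 840)
(mv 841 (cons (fin 777 4 777)
(fin 1098 4 841)))))))
(mv 1162 (cons (fin 1226 4 969)
(mv 968 (cons (fin 904 7 904)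
(mv 967 (cons (fin 1030 1 966)
(fin 966 0 966)))))))))))))
(cons (mv 906 (cons (fin 842 5 841)
(mv 1098 (cons (mv 907 (cons (fin 843 6 842)
(fin 1162 6 906)))
(cons (mv 905 (cons (fin 841 7 841)
(mv 903 (cons (fin 904 0 903)
(mv 1162 (cons (fin 969 7 905)
(mv 1226 (cons (fin 1290 7 1033)
(fin 1035 6 970)))))))))
(mv 905 (cons (fin 841 7 841)
(mv 907 (cons (fin 843 6 842)
(mv 904 (cons (fin 903 0 903)
(mv 840 (cons (fin 839 3 839)
(fin 969 7 840))))))))))))))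
(cons (mv 906 (cons (fin 842 5 841)
(mv 1161 (cons (fin 969 6 905)
(fin 1225 6 969)))))
(mv 1161 (cons (fin 1225 6 969)
(mv 906 (cons (fin 842 5 841)
(fin 1098 5 905))))))))))))))
(cons (mv 971 (cons (fin 972 1 969)
(mv 1031 (cons (fin 1032 2 967)
(mv 1098 (cons (cons (mv 1099 (cons (fin 1100 3 1033)
(mv 907 (cons (fin 1162 6 906)
(mv 906 (cons (fin 843 6 842)
(fin 1163 4 906)))))))
(mv 1099 (cons (fin 1100 3 1033)
(mv 906 (cons (fin 1163 4 906)
(mv 1097 (cons (fin 842 5 841)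
(fin 1161 5 905))))))))
(cons (mv 907 (cons (fin 1162 6 906)
(mv 843 (cons (fin 779 5 778)
(fin 906 6 842)))))
(mv 1162 (cons (fin 907 6 906)
(mv 969 (cons (fin 905 7 905)
(fin 1226 7 969))))))))))))
(cons (mv 971 (cons (fin 972 1 969)
(mv 1031 (cons (fin 1032 2 967)
(mv 906 (cons (cons (mv 842 (cons (fin 1097 5 841)
(mv 778 (cons (fin 969 5 777)
(fin 1035 4 778)))))
(mv 1098 (cons (mv 1099 (cons (fin 1100 3 1033)
(fin 1163 4 906)))
(mv 907 (cons (fin 843 6 842)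
(mv 1097 (cons (fin 1161 5 905)
(mv 905 (cons (fin 841 7 841)
(mv 904 (cons (fin 903 0 903)
(mv 840 (cons (fin 839 3 839)
(fin 969 7 840))))))))))))))
(cons (mv 842 (cons (mv 778 (cons (fin 969 5 777)
(fin 1035 4 778)))
(cons (mv 777 (cons (fin 841 7 777)
(mv 779 (cons (fin 843 6 778)
(mv 1099 (cons (fin 1035 4 842)
(mv 1098 (cons (fin 1100 3 1033)
(fin 1163 4 906)))))))))
(mv 778 (cons (fin 969 5 777)
(mv 777 (cons (fin 713 7 713)
(fin 841 7 777))))))))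
(mv 842 (cons (fin 1097 5 841)
(mv 1035 (cons (fin 778 4 778)
(fin 1099 4 842))))))))))))
(mv 971 (cons (fin 972 1 969)
(mv 1031 (cons (fin 1032 2 967)
(mv 1097 (cons (cons (mv 906 (cons (fin 842 5 841)
(mv 1161 (cons (fin 1098 5 905)
(fin 969 6 905)))))
(mv 1161 (cons (fin 1225 6 969)
(mv 969 (cons (cons (mv 904 (cons (fin 968 7 904)
(mv 905 (cons (fin 840 7 840)
(mv 1162 (cons (fin 1098 7 905)
(fin 1226 4 969)))))))
(mv 1162 (cons (fin 1226 4 969)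
(mv 905 (cons (fin 1098 7 905)
(mv 841 (cons (fin 777 4 777)
(mv 840 (cons (fin 776 7 776)
(fin 904 7 840))))))))))
(cons (mv 904 (cons (fin 968 7 904)
(mv 905 (cons (fin 840 7 840)
(mv 841 (cons (fin 777 4 777)
(fin 1098 4 841)))))))
(cons (mv 1162 (cons (fin 1226 4 969)
(mv 1098 (cons (fin 905 7 905)
(mv 1099 (cons (fin 1100 3 1033)
(mv 1163 (cons (fin 1227 4 970)
(mv 1096 (cons (fin 1164 3 1096)
(fin 1095 0 1095)))))))))))
(mv 968 (cons (fin 904 7 904)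
(mv 967 (cons (fin 1030 1 966)
(fin 966 0 966))))))))))))
(cons (mv 906 (cons (fin 842 5 841)
(mv 1098 (cons (mv 1099 (cons (fin 1100 3 1033)
(fin 1163 4 906)))
(mv 905 (cons (fin 841 7 841)
(mv 903 (cons (fin 904 0 903)
(mv 1162 (cons (fin 969 7 905)
(mv 1226 (cons (fin 1290 7 1033)
(fin 1035 6 970)))))))))))))
(cons (mv 906 (cons (fin 842 5 841)
(mv 1161 (cons (fin 969 6 905)
(fin 1225 6 969)))))
(mv 1161 (cons (fin 1225 6 969)
(mv 906 (cons (fin 842 5 841)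
(fin 1098 5 905))))))))))))))))))))
(cons (cons (mv 1098 (cons (cons (cons (mv 1099 (cons (fin 1100 3 1033)
(mv 1031 (cons (fin 1032 0 1031)
(mv 970 (cons (mv 971 (cons (fin 972 1 969)
(mv 906 (cons (fin 1163 4 906)
(mv 907 (cons (fin 843 6 842)
(fin 1162 6 906)))))))
(cons (mv 971 (cons (fin 972 1 969)
(mv 907 (cons (fin 1162 6 906)
(mv 843 (cons (fin 779 5 778)
(fin 1035 5 842)))))))
(mv 906 (cons (fin 1163 4 906)
(mv 842 (cons (fin 1097 5 841)
(fin 1035 4 842))))))))))))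
(mv 1162 (cons (cons (mv 969 (cons (fin 1226 7 969)
(mv 905 (cons (fin 970 7 905)
(fin 841 4 841)))))
(mv 970 (cons (mv 971 (cons (fin 972 1 969)
(fin 907 6 906)))
(cons (mv 905 (cons (fin 969 7 905)
(mv 906 (cons (fin 841 7 841)
(mv 1163 (cons (fin 1227 4 970)
(mv 843 (cons (fin 907 6 842)
(mv 842 (cons (fin 1097 5 841)
(fin 779 6 778)))))))))))
(mv 1163 (cons (fin 1227 4 970)
(mv 971 (cons (fin 972 1 969)
(mv 905 (cons (fin 969 7 905)
(mv 906 (cons (fin 841 7 841)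
(mv 1031 (cons (fin 1032 2 967)
(mv 842 (cons (fin 1097 5 841)
(mv 903 (cons (fin 904 0 903)
(mv 778 (cons (fin 1035 4 778)
(mv 779 (cons (fin 715 6 714)
(fin 843 6 778)))))))))))))))))))))))
(cons (mv 1226 (cons (cons (mv 1097 (cons (fin 1290 7 1033)
(mv 1227 (cons (fin 1291 4 1034)
(mv 970 (cons (fin 1163 4 970)
(mv 971 (cons (fin 972 1 969)
(fin 907 6 906)))))))))
(mv 1097 (cons (fin 1290 7 1033)
(mv 1225 (cons (fin 1289 5 1033)
(mv 1227 (cons (fin 1291 4 1034)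
(mv 1163 (cons (fin 970 4 970)
(mv 1224 (cons (fin 1223 2 1159)
(fin 1164 2 1160))))))))))))
(cons (mv 1227 (cons (fin 1291 4 1034)
(mv 970 (cons (fin 1163 4 970)
(mv 971 (cons (fin 972 1 969)
(fin 907 6 906)))))))
(cons (mv 971 (cons (fin 1035 6 970)
(mv 970 (cons (fin 972 1 969)
(fin 907 6 906)))))
(mv 1290 (cons (fin 1097 7 1033)
(mv 1289 (cons (fin 1225 5 1033)
(fin 1353 5 1097)))))))))
(mv 969 (cons (fin 1226 7 969)
(mv 905 (cons (fin 841 4 841)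
(fin 1097 4 905)))))))))
(cons (mv 1099 (cons (fin 1100 3 1033)
(mv 970 (cons (mv 971 (cons (fin 972 1 969)
(mv 906 (cons (fin 1163 4 906)
(mv 907 (cons (fin 843 6 842)
(fin 1162 6 906)))))))
(cons (mv 971 (cons (fin 972 1 969)
(mv 907 (cons (fin 1162 6 906)
(mv 843 (cons (fin 779 5 778)
(fin 1035 5 842)))))))
(mv 906 (cons (fin 1163 4 906)
(mv 842 (cons (fin 1097 5 841)
(fin 1035 4 842))))))))))
(cons (mv 1099 (cons (fin 1100 3 1033)
(mv 1032 (cons (fin 1031 0 1031)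
(mv 1035 (cons (cons (mv 967 (cons (fin 968 3 967)
(mv 971 (cons (fin 972 2 968)
(mv 907 (cons (fin 843 5 842)
(fin 1162 5 906)))))))
(mv 967 (cons (fin 968 3 967)
(mv 1096 (cons (fin 1095 1 1031)
(mv 1160 (cons (cons (mv 1097 (cons (fin 1159 1 1095)
(mv 969 (cons (fin 905 5 904)
(fin 1224 6 968)))))
(mv 1097 (cons (fin 1159 1 1095)
(mv 1163 (cons (fin 1164 0 1096)
(mv 1224 (cons (fin 1288 6 1032)
(mv 1223 (cons (fin 1287 5 1031)
(mv 1225 (cons (fin 1289 4 1032)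
(mv 1226 (cons (fin 1162 2 1159)
(mv 1291 (cons (fin 1290 0 1223)
(fin 1227 7 1034))))))))))))))))
(cons (mv 1224 (cons (fin 969 6 968)
(mv 1287 (cons (fin 1223 5 1031)
(mv 1289 (cons (fin 1225 4 1032)
(mv 1288 (cons (fin 1351 5 1095)
(fin 1353 4 1096)))))))))
(mv 1097 (cons (fin 1159 1 1095)
(mv 1163 (cons (fin 1164 0 1096)
(mv 969 (cons (fin 905 5 904)
(mv 1227 (cons (fin 1291 7 1034)
(mv 1226 (cons (fin 1162 7 969)
(fin 1290 5 1034)))))))))))))))))))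
(cons (mv 1095 (cons (fin 1096 1 1031)
(mv 971 (cons (fin 972 2 968)
(mv 907 (cons (fin 843 5 842)
(fin 1162 5 906)))))))
(mv 971 (cons (fin 972 2 968)
(mv 907 (cons (fin 843 5 842)
(mv 968 (cons (fin 967 3 967)
(mv 1095 (cons (fin 1096 1 1031)
(mv 906 (cons (fin 842 7 842)
(mv 908 (cons (fin 844 6 843)
(mv 905 (cons (fin 969 1 904)
(mv 840 (cons (fin 841 3 840)
(mv 904 (cons (fin 839 3 839)
(fin 1097 4 840))))))))))))))))))))))))))
(mv 1099 (cons (fin 1100 3 1033)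
(mv 1032 (cons (fin 1031 0 1031)
(mv 1035 (cons (cons (mv 967 (cons (fin 968 3 967)
(mv 971 (cons (fin 972 2 968)
(mv 907 (cons (fin 843 5 842)
(mv 1095 (cons (fin 1096 1 1031)
(mv 844 (cons (fin 908 6 843)
(mv 906 (cons (fin 842 7 842)
(mv 1163 (cons (fin 970 7 906)
(mv 1227 (cons (fin 1291 7 1034)
(mv 1228 (cons (fin 1164 4 971)
(fin 1292 4 1035)))))))))))))))))))
(mv 1096 (cons (fin 1095 1 1031)
(mv 967 (cons (fin 968 3 967)
(mv 1163 (cons (mv 1227 (cons (fin 970 7 970)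
(fin 1291 7 1034)))
(mv 1097 (cons (fin 1164 0 1096)
(mv 1160 (cons (fin 1159 1 1095)
(mv 969 (cons (fin 905 5 904)
(fin 1224 6 968))))))))))))))
(cons (mv 967 (cons (fin 968 3 967)
(mv 971 (cons (fin 972 2 968)
(mv 907 (cons (fin 843 5 842)
(mv 906 (cons (fin 842 7 842)
(mv 844 (cons (fin 908 6 843)
(mv 1163 (cons (fin 970 7 906)
(mv 1227 (cons (fin 1291 7 1034)
(mv 1228 (cons (fin 1164 4 971)
(fin 1292 4 1035)))))))))))))))))
(cons (mv 971 (cons (fin 972 2 968)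
(mv 907 (cons (fin 843 5 842)
(mv 1095 (cons (fin 1096 1 1031)
(mv 844 (cons (fin 908 6 843)
(mv 906 (cons (fin 842 7 842)
(mv 1163 (cons (fin 970 7 906)
(mv 1227 (cons (fin 1291 7 1034)
(mv 1228 (cons (fin 1164 4 971)
(fin 1292 4 1035)))))))))))))))))
(mv 971 (cons (fin 972 2 968)
(mv 907 (cons (fin 843 5 842)
(mv 968 (cons (fin 967 3 967)
(mv 1095 (cons (fin 1096 1 1031)
(mv 906 (cons (fin 842 7 842)
(mv 908 (cons (fin 844 6 843)
(mv 905 (cons (fin 969 1 904)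
(mv 840 (cons (fin 841 3 840)
(mv 904 (cons (fin 839 3 839)
(fin 1097 4 840))))))))))))))))))))))))))))))
(cons (cons (mv 1099 (cons (fin 1100 3 1033)
(mv 1032 (cons (fin 1031 0 1031)
(mv 969 (cons (cons (mv 1162 (cons (fin 1226 7 969)
(mv 905 (cons (fin 970 7 905)
(fin 841 4 841)))))
(mv 1162 (cons (fin 1226 7 969)
(mv 1096 (cons (cons (mv 1035 (cons (fin 1095 1 1031)
(mv 967 (cons (fin 968 3 967)
(mv 1160 (cons (fin 1224 6 968)
(mv 1097 (cons (fin 1159 1 1095)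
(mv 1163 (cons (fin 1164 0 1096)
(mv 1227 (cons (fin 970 7 970)
(fin 1291 7 1034)))))))))))))
(mv 1160 (cons (fin 1224 6 968)
(mv 1097 (cons (fin 1159 1 1095)
(mv 1163 (cons (fin 1164 0 1096)
(mv 970 (cons (fin 906 4 906)
(fin 1227 4 970))))))))))
(cons (mv 1095 (cons (fin 1035 1 1031)
(mv 1094 (cons (fin 1093 2 1029)
(fin 1097 2 1030)))))
(mv 1095 (cons (fin 1035 1 1031)
(mv 1160 (cons (fin 1224 6 968)
(mv 1093 (cons (fin 1094 2 1029)
(mv 968 (cons (mv 967 (cons (fin 966 0 966)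
(fin 903 7 903)))
(mv 1159 (cons (fin 904 5 903)
(fin 1223 5 967)))))))))))))))))
(cons (mv 841 (cons (fin 905 4 841)
(mv 968 (cons (mv 967 (cons (fin 1035 3 967)
(fin 966 0 966)))
(cons (mv 1096 (cons (cons (mv 1035 (cons (fin 1095 1 1031)
(mv 1160 (cons (fin 1224 6 968)
(mv 1159 (cons (fin 1097 1 1095)
(fin 1223 5 967)))))))
(mv 1160 (cons (fin 1224 6 968)
(mv 1159 (cons (fin 1097 1 1095)
(fin 1223 5 967))))))
(cons (mv 1095 (cons (fin 1035 1 1031)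
(mv 1094 (cons (fin 1093 2 1029)
(fin 1097 2 1030)))))
(mv 1095 (cons (fin 1035 1 1031)
(mv 1160 (cons (fin 1224 6 968)
(mv 1159 (cons (fin 904 5 903)
(fin 1223 5 967))))))))))
(mv 967 (cons (fin 966 0 966)
(mv 970 (cons (mv 906 (cons (fin 907 2 903)
(fin 1163 4 906)))
(mv 903 (cons (fin 902 3 902)
(mv 1096 (cons (fin 1160 7 903)
(mv 839 (cons (fin 904 7 839)
(fin 775 4 775))))))))))))))))
(mv 905 (cons (fin 841 4 841)
(mv 1162 (cons (fin 1226 7 969)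
(fin 1097 4 905))))))))))))
(cons (mv 1099 (cons (fin 1100 3 1033)
(mv 1031 (cons (fin 1032 0 1031)
(mv 970 (cons (cons (mv 971 (cons (fin 972 1 969)
(mv 906 (cons (fin 1163 4 906)
(mv 907 (cons (fin 843 6 842)
(fin 1162 6 906)))))))
(mv 971 (cons (fin 972 1 969)
(mv 1162 (cons (fin 907 6 906)
(mv 969 (cons (fin 905 7 905)
(fin 1226 7 969))))))))
(cons (mv 906 (cons (fin 1163 4 906)
(mv 843 (cons (fin 907 6 842)
(mv 842 (cons (fin 1097 5 841)
(fin 779 6 778)))))))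
(mv 906 (cons (fin 1163 4 906)
(mv 842 (cons (fin 1097 5 841)
(mv 841 (cons (fin 777 7 777)
(fin 905 7 841))))))))))))))
(mv 1099 (cons (fin 1100 3 1033)
(mv 1031 (cons (fin 1032 0 1031)
(mv 970 (cons (cons (mv 971 (cons (fin 972 1 969)
(mv 906 (cons (fin 1163 4 906)
(mv 907 (cons (fin 843 6 842)
(fin 1162 6 906)))))))
(mv 971 (cons (fin 972 1 969)
(mv 907 (cons (fin 1162 6 906)
(mv 843 (cons (fin 779 5 778)
(fin 1035 5 842))))))))
(cons (mv 906 (cons (fin 1163 4 906)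
(mv 842 (cons (fin 1035 4 842)
(mv 843 (cons (fin 779 6 778)
(fin 907 6 842)))))))
(mv 906 (cons (fin 1163 4 906)
(mv 842 (cons (fin 1035 4 842)
(mv 841 (cons (fin 777 7 777)
(fin 905 7 841))))))))))))))))
(cons (mv 1099 (cons (fin 1100 3 1033)
(mv 1031 (cons (fin 1032 0 1031)
(mv 1162 (cons (mv 969 (cons (fin 1226 7 969)
(mv 905 (cons (fin 970 7 905)
(fin 841 4 841)))))
(cons (mv 971 (cons (cons (mv 907 (cons (fin 1035 5 906)
(fin 970 6 906)))
(mv 1035 (cons (fin 907 5 906)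
(mv 972 (cons (fin 974 1 970)
(mv 1163 (cons (fin 908 6 907)
(mv 1227 (cons (fin 1291 7 1034)
(mv 1228 (cons (fin 1164 4 971)
(fin 1292 4 1035))))))))))))
(cons (mv 972 (cons (fin 970 1 969)
(mv 974 (cons (fin 1035 1 970)
(mv 911 (cons (fin 910 2 907)
(mv 975 (cons (fin 912 2 908)
(fin 1039 0 972)))))))))
(mv 970 (cons (fin 972 1 969)
(fin 907 6 906))))))
(mv 969 (cons (fin 1226 7 969)
(mv 905 (cons (fin 841 4 841)
(fin 1097 4 905))))))))))))
(cons (mv 1099 (cons (fin 1100 3 1033)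
(mv 1031 (cons (fin 1032 0 1031)
(mv 1162 (cons (cons (mv 969 (cons (fin 1226 7 969)
(mv 905 (cons (fin 970 7 905)
(fin 841 4 841)))))
(mv 970 (cons (mv 971 (cons (fin 972 1 969)
(fin 907 6 906)))
(mv 905 (cons (fin 969 7 905)
(mv 906 (cons (fin 841 7 841)
(mv 842 (cons (fin 1097 5 841)
(fin 1035 4 842))))))))))
(cons (mv 1226 (cons (mv 1035 (cons (fin 971 6 970)
(fin 1290 6 1034)))
(cons (mv 1227 (cons (fin 1291 4 1034)
(mv 971 (cons (fin 1035 6 970)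
(mv 970 (cons (fin 972 1 969)
(fin 907 6 906)))))))
(mv 1225 (cons (fin 1289 5 1033)
(mv 1291 (cons (fin 1227 4 1034)
(mv 1290 (cons (fin 1097 7 1033)
(fin 1355 4 1098))))))))))
(mv 969 (cons (fin 1226 7 969)
(mv 905 (cons (fin 841 4 841)
(fin 1097 4 905))))))))))))
(mv 1099 (cons (fin 1100 3 1033)
(mv 1032 (cons (fin 1031 0 1031)
(mv 970 (cons (cons (mv 971 (cons (fin 972 1 969)
(mv 906 (cons (fin 1163 4 906)
(mv 842 (cons (fin 1097 5 841)
(fin 1035 4 842)))))))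
(cons (mv 971 (cons (fin 972 1 969)
(mv 1162 (cons (mv 969 (cons (fin 905 7 905)
(fin 1226 7 969)))
(cons (mv 969 (cons (fin 905 7 905)
(mv 1163 (cons (fin 1227 4 970)
(mv 968 (cons (mv 967 (cons (fin 1035 3 967)
(fin 966 0 966)))
(mv 904 (cons (fin 903 3 903)
(mv 840 (cons (fin 776 4 776)
(fin 1097 4 840)))))))))))
(mv 1163 (cons (fin 1227 4 970)
(mv 1035 (cons (fin 1226 5 970)
(mv 1096 (cons (fin 1095 1 1031)
(mv 1164 (cons (fin 1097 0 1096)
(fin 1228 4 971))))))))))))))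
(mv 971 (cons (fin 972 1 969)
(mv 906 (cons (cons (mv 842 (cons (fin 1097 5 841)
(fin 1035 4 842)))
(mv 905 (cons (fin 841 7 841)
(mv 903 (cons (fin 904 0 903)
(mv 1162 (cons (fin 969 7 905)
(mv 1226 (cons (fin 1035 6 970)
(mv 1225 (cons (fin 1289 5 1033)
(mv 1291 (cons (fin 1227 4 1034)
(mv 1290 (cons (fin 1097 7 1033)
(fin 1355 4 1098))))))))))))))))
(cons (mv 841 (cons (fin 905 7 841)
(mv 842 (cons (fin 777 7 777)
(fin 1097 5 841)))))
(mv 841 (cons (fin 905 7 841)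
(mv 842 (cons (fin 777 7 777)
(fin 1035 4 842))))))))))))
(cons (mv 906 (cons (fin 1163 4 906)
(mv 842 (cons (fin 1097 5 841)
(fin 1035 4 842)))))
(cons (mv 906 (cons (fin 1163 4 906)
(mv 842 (cons (fin 1097 5 841)
(mv 841 (cons (fin 777 7 777)
(fin 905 7 841)))))))
(mv 971 (cons (fin 972 1 969)
(mv 906 (cons (fin 1163 4 906)
(mv 841 (cons (fin 905 7 841)
(mv 842 (cons (fin 777 7 777)
(fin 1035 4 842))))))))))))))))))))))
(mv 970 (cons (cons (cons (mv 971 (cons (fin 972 1 969)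
(mv 1031 (cons (fin 1032 2 967)
(mv 1097 (cons (cons (mv 906 (cons (fin 842 5 841)
(mv 1161 (cons (fin 1098 5 905)
(fin 969 6 905)))))
(mv 1161 (cons (fin 1225 6 969)
(mv 969 (cons (cons (mv 904 (cons (fin 968 7 904)
(mv 905 (cons (fin 840 7 840)
(mv 1160 (cons (fin 1096 5 904)
(fin 1224 5 968)))))))
(mv 1160 (cons (fin 1224 5 968)
(mv 905 (cons (fin 1096 5 904)
(mv 841 (cons (fin 777 4 777)
(fin 1098 4 841))))))))
(cons (mv 904 (cons (fin 968 7 904)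
(mv 905 (cons (fin 840 7 840)
(mv 841 (cons (fin 777 4 777)
(fin 1098 4 841)))))))
(mv 968 (cons (fin 904 7 904)
(mv 967 (cons (fin 1030 1 966)
(fin 966 0 966)))))))))))
(cons (mv 906 (cons (fin 842 5 841)
(mv 1098 (cons (mv 1099 (cons (fin 1100 3 1033)
(fin 1163 4 906)))
(mv 905 (cons (fin 841 7 841)
(mv 843 (cons (fin 907 6 842)
(mv 904 (cons (fin 903 0 903)
(mv 969 (cons (fin 840 7 840)
(mv 1096 (cons (fin 1160 5 904)
(mv 1095 (cons (fin 1030 3 1030)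
(fin 1094 2 1030)))))))))))))))))
(cons (mv 906 (cons (fin 842 5 841)
(mv 1161 (cons (fin 969 6 905)
(fin 1225 6 969)))))
(mv 1161 (cons (fin 1225 6 969)
(mv 906 (cons (fin 842 5 841)
(fin 1098 5 905)))))))))))))
(mv 1097 (cons (cons (mv 906 (cons (fin 842 5 841)
(mv 1161 (cons (fin 1098 5 905)
(fin 969 6 905)))))
(mv 1161 (cons (fin 1225 6 969)
(mv 969 (cons (cons (mv 904 (cons (fin 968 7 904)
(mv 905 (cons (fin 840 7 840)
(mv 1160 (cons (fin 1096 5 904)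
(fin 1224 5 968)))))))
(mv 1160 (cons (fin 1224 5 968)
(mv 905 (cons (fin 1096 5 904)
(mv 841 (cons (fin 777 4 777)
(fin 1098 4 841))))))))
(cons (mv 904 (cons (fin 968 7 904)
(mv 905 (cons (fin 840 7 840)
(mv 841 (cons (fin 777 4 777)
(fin 1098 4 841)))))))
(mv 968 (cons (fin 904 7 904)
(mv 967 (cons (fin 966 0 966)
(fin 1035 0 967)))))))))))
(cons (mv 906 (cons (fin 842 5 841)
(mv 1098 (cons (mv 1099 (cons (fin 1100 3 1033)
(fin 1163 4 906)))
(mv 907 (cons (fin 843 6 842)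
(mv 905 (cons (fin 841 7 841)
(mv 908 (cons (fin 972 0 905)
(mv 844 (cons (fin 845 2 841)
(mv 968 (cons (fin 969 1 904)
(mv 904 (cons (fin 967 1 903)
(mv 840 (cons (fin 839 3 839)
(fin 1032 4 840)))))))))))))))))))
(cons (mv 906 (cons (fin 842 5 841)
(mv 1161 (cons (fin 969 6 905)
(fin 1225 6 969)))))
(mv 1161 (cons (fin 1225 6 969)
(mv 906 (cons (fin 842 5 841)
(fin 1098 5 905))))))))))
(cons (mv 1097 (cons (cons (mv 906 (cons (fin 842 5 841)
(mv 1161 (cons (fin 1098 5 905)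
(fin 969 6 905)))))
(mv 1161 (cons (fin 1225 6 969)
(mv 969 (cons (cons (mv 904 (cons (fin 968 7 904)
(mv 905 (cons (fin 840 7 840)
(mv 1160 (cons (fin 1096 5 904)
(fin 1224 5 968)))))))
(mv 1160 (cons (fin 1224 5 968)
(mv 905 (cons (fin 1096 5 904)
(mv 841 (cons (fin 777 4 777)
(fin 1098 4 841))))))))
(cons (mv 904 (cons (fin 968 7 904)
(mv 905 (cons (fin 840 7 840)
(mv 841 (cons (fin 777 4 777)
(fin 1098 4 841)))))))
(mv 968 (cons (fin 904 7 904)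
(mv 967 (cons (fin 966 0 966)
(fin 1035 0 967)))))))))))
(cons (mv 906 (cons (fin 842 5 841)
(mv 1098 (cons (mv 1099 (cons (fin 1100 3 1033)
(fin 1163 4 906)))
(mv 905 (cons (fin 841 7 841)
(mv 843 (cons (fin 907 6 842)
(mv 1096 (cons (mv 1095 (cons (fin 1094 2 1030)
(fin 1035 2 1031)))
(mv 969 (cons (fin 1160 5 904)
(mv 904 (cons (fin 840 7 840)
(mv 903 (cons (fin 902 0 902)
(fin 971 0 903)))))))))))))))))
(cons (mv 906 (cons (fin 842 5 841)
(mv 1161 (cons (fin 969 6 905)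
(fin 1225 6 969)))))
(mv 1161 (cons (fin 1225 6 969)
(mv 906 (cons (fin 842 5 841)
(fin 1098 5 905)))))))))
(mv 971 (cons (fin 972 1 969)
(mv 1031 (cons (fin 1032 2 967)
(mv 1099 (cons (cons (mv 1098 (cons (fin 1100 3 1033)
(mv 906 (cons (fin 1163 4 906)
(mv 842 (cons (fin 1035 4 842)
(mv 841 (cons (fin 777 7 777)
(fin 905 7 841)))))))))
(cons (mv 1035 (cons (mv 1163 (cons (fin 906 7 906)
(fin 1227 7 970)))
(cons (mv 1100 (cons (fin 1102 3 1034)
(mv 1163 (cons (fin 1227 7 970)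
(mv 1164 (cons (fin 907 4 907)
(fin 1228 4 971)))))))
(mv 1100 (cons (fin 1102 3 1034)
(mv 842 (cons (fin 906 4 842)
(mv 907 (cons (fin 1164 4 907)
(mv 843 (cons (fin 778 7 778)
(fin 779 5 778))))))))))))
(mv 906 (cons (cons (mv 1035 (cons (fin 1163 7 906)
(fin 842 4 842)))
(mv 1098 (cons (fin 1163 4 906)
(mv 843 (cons (fin 907 6 842)
(mv 842 (cons (fin 779 6 778)
(mv 841 (cons (fin 777 7 777)
(fin 905 7 841))))))))))
(cons (mv 842 (cons (fin 1035 4 842)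
(mv 778 (cons (fin 969 5 777)
(mv 777 (cons (fin 713 7 713)
(fin 841 7 777)))))))
(mv 1163 (cons (fin 1035 7 906)
(fin 1098 4 906))))))))
(cons (mv 1098 (cons (fin 1100 3 1033)
(mv 906 (cons (fin 1163 4 906)
(mv 843 (cons (fin 907 6 842)
(mv 842 (cons (fin 779 6 778)
(mv 841 (cons (fin 777 7 777)
(fin 905 7 841)))))))))))
(cons (mv 1100 (cons (fin 1098 3 1033)
(mv 1035 (cons (fin 1102 3 1034)
(mv 1163 (cons (fin 1227 7 970)
(mv 1164 (cons (fin 907 4 907)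
(fin 1228 4 971)))))))))
(mv 1100 (cons (fin 1098 3 1033)
(mv 1035 (cons (fin 1102 3 1034)
(mv 842 (cons (fin 906 4 842)
(mv 907 (cons (fin 1164 4 907)
(mv 843 (cons (fin 778 7 778)
(fin 779 5 778)))))))))))))))))))))
(cons (cons (mv 971 (cons (fin 972 1 969)
(mv 1032 (cons (fin 1031 2 967)
(mv 968 (cons (cons (mv 967 (cons (fin 1035 3 967)
(mv 966 (cons (fin 965 0 965)
(fin 969 0 966)))))
(mv 904 (cons (cons (mv 903 (cons (fin 969 3 903)
(mv 840 (cons (fin 1097 4 840)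
(mv 839 (cons (fin 775 7 775)
(fin 1096 7 839)))))))
(mv 903 (cons (fin 969 3 903)
(mv 839 (cons (fin 1096 7 839)
(mv 775 (cons (fin 840 7 775)
(fin 711 4 711))))))))
(cons (mv 840 (cons (fin 1097 4 840)
(mv 777 (cons (fin 841 6 776)
(mv 713 (cons (fin 776 6 712)
(mv 839 (cons (fin 775 7 775)
(mv 1096 (cons (fin 903 7 839)
(mv 1095 (cons (fin 1035 1 1031)
(fin 1159 5 903)))))))))))))
(cons (mv 903 (cons (fin 969 3 903)
(mv 1096 (cons (fin 839 7 839)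
(mv 1095 (cons (fin 1035 1 1031)
(fin 1159 5 903)))))))
(mv 840 (cons (fin 1097 4 840)
(mv 776 (cons (fin 969 4 776)
(mv 777 (cons (fin 713 6 712)
(fin 841 6 776))))))))))))
(cons (mv 904 (cons (cons (mv 903 (cons (fin 969 3 903)
(mv 840 (cons (fin 1097 4 840)
(mv 839 (cons (fin 775 7 775)
(fin 1096 7 839)))))))
(cons (mv 840 (cons (fin 1097 4 840)
(mv 777 (cons (fin 841 6 776)
(mv 776 (cons (fin 713 6 712)
(mv 775 (cons (fin 711 7 711)
(fin 839 7 775)))))))))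
(mv 903 (cons (fin 969 3 903)
(mv 839 (cons (fin 1096 7 839)
(mv 775 (cons (fin 840 7 775)
(fin 711 4 711)))))))))
(cons (mv 903 (cons (fin 969 3 903)
(mv 839 (cons (fin 1096 7 839)
(mv 775 (cons (fin 711 4 711)
(fin 967 4 775)))))))
(cons (mv 903 (cons (fin 969 3 903)
(mv 840 (cons (fin 1097 4 840)
(mv 777 (cons (fin 841 6 776)
(mv 776 (cons (fin 713 6 712)
(mv 712 (cons (fin 967 5 711)
(mv 711 (cons (fin 647 7 647)
(fin 775 7 711)))))))))))))
(mv 840 (cons (fin 1097 4 840)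
(mv 969 (cons (fin 903 3 903)
(fin 776 4 776)))))))))
(mv 1035 (cons (fin 967 3 967)
(mv 1096 (cons (fin 1095 1 1031)
(mv 1099 (cons (fin 1100 0 1032)
(mv 1163 (cons (fin 1227 7 970)
(mv 1164 (cons (fin 1228 4 971)
(mv 1097 (cons (fin 1098 0 1096)
(mv 904 (cons (fin 840 4 840)
(fin 1161 4 904))))))))))))))))))))))
(mv 971 (cons (fin 972 1 969)
(mv 1032 (cons (fin 1031 2 967)
(mv 1035 (cons (cons (mv 967 (cons (fin 968 3 967)
(mv 1099 (cons (fin 1100 0 1032)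
(mv 906 (cons (fin 1163 7 906)
(fin 842 4 842)))))))
(mv 968 (cons (fin 967 3 967)
(mv 1095 (cons (fin 1096 1 1031)
(mv 969 (cons (cons (mv 903 (cons (fin 904 3 903)
(mv 907 (cons (fin 908 2 904)
(mv 843 (cons (fin 779 5 778)
(mv 842 (cons (fin 778 7 778)
(mv 844 (cons (fin 780 6 779)
(mv 906 (cons (fin 1097 5 841)
(mv 845 (cons (fin 905 1 841)
(fin 846 1 842)))))))))))))))
(mv 907 (cons (fin 908 2 904)
(mv 843 (cons (fin 779 5 778)
(mv 842 (cons (fin 778 7 778)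
(mv 844 (cons (fin 780 6 779)
(mv 906 (cons (fin 1097 5 841)
(mv 845 (cons (fin 905 1 841)
(fin 846 1 842))))))))))))))
(cons (mv 904 (cons (fin 903 3 903)
(mv 840 (cons (fin 776 4 776)
(fin 1097 4 840)))))
(mv 904 (cons (fin 903 3 903)
(mv 907 (cons (fin 908 2 904)
(mv 776 (cons (fin 840 4 776)
(mv 843 (cons (fin 779 5 778)
(mv 842 (cons (fin 778 7 778)
(mv 844 (cons (fin 780 6 779)
(mv 841 (cons (fin 777 3 776)
(fin 905 1 840)))))))))))))))))))))))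
(cons (mv 1095 (cons (fin 1096 1 1031)
(mv 1099 (cons (fin 1100 0 1032)
(mv 906 (cons (fin 1163 7 906)
(fin 842 4 842)))))))
(mv 1096 (cons (fin 1095 1 1031)
(mv 968 (cons (fin 967 3 967)
(mv 1099 (cons (fin 1100 0 1032)
(mv 1163 (cons (fin 1227 7 970)
(mv 1164 (cons (fin 1228 4 971)
(mv 969 (cons (mv 905 (cons (fin 841 5 840)
(fin 1160 6 904)))
(mv 904 (cons (fin 903 3 903)
(mv 840 (cons (fin 776 4 776)
(fin 1097 4 840)))))))))))))))))))))))))
(cons (mv 971 (cons (fin 972 1 969)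
(mv 1031 (cons (fin 1032 2 967)
(mv 1097 (cons (cons (mv 906 (cons (fin 842 5 841)
(mv 1161 (cons (fin 1098 5 905)
(fin 969 6 905)))))
(mv 1161 (cons (fin 1225 6 969)
(mv 969 (cons (cons (mv 904 (cons (fin 968 7 904)
(mv 905 (cons (fin 840 7 840)
(mv 1160 (cons (fin 1096 5 904)
(fin 1224 5 968)))))))
(mv 1160 (cons (fin 1224 5 968)
(mv 905 (cons (fin 1096 5 904)
(mv 841 (cons (fin 777 4 777)
(fin 1098 4 841))))))))
(cons (mv 904 (cons (fin 968 7 904)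
(mv 905 (cons (fin 840 7 840)
(mv 841 (cons (fin 777 4 777)
(fin 1098 4 841)))))))
(mv 968 (cons (fin 904 7 904)
(mv 967 (cons (fin 1030 1 966)
(fin 966 0 966)))))))))))
(cons (mv 906 (cons (fin 842 5 841)
(mv 905 (cons (cons (mv 903 (cons (fin 904 0 903)
(mv 841 (cons (fin 1098 7 841)
(mv 777 (cons (fin 713 4 713)
(fin 969 4 777)))))))
(mv 904 (cons (fin 903 0 903)
(mv 840 (cons (fin 969 7 840)
(mv 907 (cons (fin 839 3 839)
(mv 843 (cons (fin 844 2 840)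
(fin 779 5 778))))))))))
(cons (mv 841 (cons (fin 1098 7 841)
(mv 777 (cons (fin 713 4 713)
(fin 969 4 777)))))
(mv 841 (cons (fin 1098 7 841)
(mv 904 (cons (fin 903 0 903)
(mv 713 (cons (fin 777 4 713)
(mv 907 (cons (mv 840 (cons (fin 839 3 839)
(fin 908 3 840)))
(mv 843 (cons (fin 844 2 840)
(fin 779 5 778))))))))))))))))
(cons (mv 906 (cons (fin 842 5 841)
(mv 1161 (cons (fin 1098 5 905)
(fin 1225 6 969)))))
(mv 1161 (cons (fin 1225 6 969)
(mv 906 (cons (fin 842 5 841)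
(fin 969 6 905)))))))))))))
(cons (mv 971 (cons (fin 972 1 969)
(mv 1031 (cons (fin 1032 2 967)
(mv 906 (cons (cons (mv 842 (cons (fin 1097 5 841)
(mv 1035 (cons (fin 778 4 778)
(fin 1099 4 842)))))
(mv 1099 (cons (cons (mv 1098 (cons (fin 1100 3 1033)
(fin 1163 4 906)))
(mv 1035 (cons (fin 1163 7 906)
(mv 1100 (cons (fin 1102 3 1034)
(mv 907 (cons (fin 1164 4 907)
(mv 844 (cons (fin 908 6 843)
(mv 843 (cons (fin 779 5 778)
(fin 780 6 779))))))))))))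
(cons (mv 1100 (cons (fin 1098 3 1033)
(mv 1035 (cons (fin 1102 3 1034)
(mv 907 (cons (fin 1164 4 907)
(mv 844 (cons (fin 908 6 843)
(mv 843 (cons (fin 779 5 778)
(fin 780 6 779)))))))))))
(mv 1163 (cons (fin 1035 7 906)
(fin 1098 4 906)))))))
(cons (mv 842 (cons (fin 1097 5 841)
(mv 777 (cons (fin 841 7 777)
(mv 778 (cons (fin 713 7 713)
(fin 1035 4 778)))))))
(mv 842 (cons (fin 1097 5 841)
(mv 777 (cons (fin 841 7 777)
(mv 713 (cons (fin 778 7 713)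
(mv 843 (cons (fin 779 6 778)
(mv 1098 (cons (fin 907 6 842)
(mv 1099 (cons (fin 1100 3 1033)
(fin 1163 4 906))))))))))))))))))))
(mv 971 (cons (fin 972 1 969)
(mv 1031 (cons (fin 1032 2 967)
(mv 1097 (cons (cons (mv 906 (cons (fin 842 5 841)
(mv 1161 (cons (fin 1098 5 905)
(fin 969 6 905)))))
(mv 1161 (cons (fin 1225 6 969)
(mv 969 (cons (mv 904 (cons (fin 968 7 904)
(mv 905 (cons (fin 840 7 840)
(mv 1160 (cons (fin 1096 5 904)
(fin 1224 5 968)))))))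
(cons (mv 1160 (cons (fin 1224 5 968)
(mv 1096 (cons (fin 905 5 904)
(mv 1095 (cons (fin 1094 2 1030)
(mv 1098 (cons (fin 1030 3 1030)
(fin 1035 2 1031)))))))))
(mv 968 (cons (fin 904 7 904)
(mv 967 (cons (fin 1030 1 966)
(fin 966 0 966)))))))))))
(cons (mv 906 (cons (fin 842 5 841)
(mv 1099 (cons (cons (mv 1098 (cons (fin 1100 3 1033)
(fin 1163 4 906)))
(mv 1035 (cons (fin 1163 7 906)
(mv 1100 (cons (fin 1102 3 1034)
(mv 907 (cons (fin 1164 4 907)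
(mv 844 (cons (fin 908 6 843)
(mv 843 (cons (fin 779 5 778)
(fin 780 6 779))))))))))))
(cons (mv 1100 (cons (fin 1098 3 1033)
(mv 1035 (cons (fin 1102 3 1034)
(mv 907 (cons (fin 1164 4 907)
(mv 844 (cons (fin 908 6 843)
(mv 843 (cons (fin 779 5 778)
(fin 780 6 779)))))))))))
(mv 1163 (cons (fin 1035 7 906)
(fin 1098 4 906))))))))
(mv 906 (cons (fin 842 5 841)
(mv 1161 (cons (fin 969 6 905)
(fin 1225 6 969))))))))))))))))))
(cons (mv 970 (cons (cons (cons (mv 971 (cons (fin 972 1 969)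
(mv 1031 (cons (fin 1032 2 967)
(mv 1098 (cons (cons (mv 1099 (cons (fin 1100 3 1033)
(mv 907 (cons (fin 1162 6 906)
(mv 843 (cons (fin 779 5 778)
(fin 1035 5 842)))))))
(mv 1099 (cons (fin 1100 3 1033)
(mv 906 (cons (mv 842 (cons (fin 1097 5 841)
(fin 1035 4 842)))
(cons (mv 905 (cons (fin 841 7 841)
(mv 1097 (cons (fin 1161 5 905)
(mv 904 (cons (fin 903 0 903)
(mv 843 (cons (fin 907 6 842)
(mv 969 (cons (fin 840 7 840)
(mv 1096 (cons (fin 1160 5 904)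
(mv 1095 (cons (fin 1030 3 1030)
(fin 1094 2 1030)))))))))))))))
(mv 842 (cons (fin 1035 4 842)
(mv 841 (cons (fin 777 7 777)
(fin 905 7 841)))))))))))
(cons (mv 1099 (cons (fin 1100 3 1033)
(mv 906 (cons (mv 1097 (cons (fin 842 5 841)
(fin 1161 5 905)))
(cons (mv 841 (cons (fin 905 7 841)
(mv 1161 (cons (fin 1097 5 905)
(mv 1162 (cons (fin 1225 5 969)
(mv 1226 (cons (fin 969 7 969)
(fin 1035 6 970)))))))))
(mv 842 (cons (fin 1035 4 842)
(mv 841 (cons (fin 777 7 777)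
(fin 905 7 841))))))))))
(cons (mv 907 (cons (fin 1162 6 906)
(mv 843 (cons (fin 779 5 778)
(fin 1035 5 842)))))
(mv 907 (cons (fin 1162 6 906)
(mv 843 (cons (fin 779 5 778)
(fin 906 6 842)))))))))))))
(cons (mv 906 (cons (cons (mv 842 (cons (fin 1097 5 841)
(mv 778 (cons (fin 969 5 777)
(mv 777 (cons (fin 713 7 713)
(fin 841 7 777)))))))
(mv 1098 (cons (cons (mv 1099 (cons (fin 1100 3 1033)
(mv 843 (cons (fin 907 6 842)
(mv 1097 (cons (fin 1161 5 905)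
(mv 905 (cons (fin 841 7 841)
(mv 1031 (cons (fin 1032 0 1031)
(mv 969 (cons (fin 1162 7 905)
(mv 1096 (cons (fin 1160 5 904)
(mv 1095 (cons (fin 1030 3 1030)
(fin 1094 2 1030)))))))))))))))))
(cons (mv 907 (cons (fin 843 6 842)
(mv 1099 (cons (fin 1100 3 1033)
(mv 905 (cons (fin 841 7 841)
(mv 1031 (cons (fin 1032 0 1031)
(mv 969 (cons (fin 1162 7 905)
(mv 908 (cons (fin 968 1 904)
(fin 972 0 905)))))))))))))
(mv 843 (cons (fin 907 6 842)
(mv 1099 (cons (fin 1100 3 1033)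
(mv 1161 (cons (fin 1097 5 905)
(mv 1031 (cons (fin 1032 0 1031)
(mv 1162 (cons (fin 1225 5 969)
(mv 1226 (cons (fin 969 7 969)
(mv 1159 (cons (fin 1160 2 1095)
(mv 1291 (cons (fin 1227 4 1034)
(mv 1290 (cons (fin 1035 6 1034)
(fin 1355 4 1098)))))))))))))))))))))
(cons (cons (mv 1097 (cons (fin 1161 5 905)
(mv 843 (cons (fin 907 6 842)
(mv 905 (cons (fin 841 7 841)
(mv 969 (cons (fin 1162 7 905)
(mv 840 (cons (fin 904 7 840)
(mv 1096 (cons (fin 1160 5 904)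
(mv 1095 (cons (fin 1094 2 1030)
(fin 1035 2 1031)))))))))))))))
(mv 841 (cons (fin 905 7 841)
(mv 1161 (cons (fin 1097 5 905)
(mv 1099 (cons (fin 1100 3 1033)
(mv 1162 (cons (fin 1225 5 969)
(mv 1226 (cons (fin 969 7 969)
(mv 1159 (cons (fin 1160 2 1095)
(mv 1291 (cons (fin 1227 4 1034)
(mv 1290 (cons (fin 1035 6 1034)
(fin 1355 4 1098))))))))))))))))))
(cons (mv 905 (cons (fin 841 7 841)
(mv 1161 (cons (fin 1097 5 905)
(mv 1099 (cons (fin 1100 3 1033)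
(mv 1225 (cons (fin 1162 5 969)
(mv 907 (cons (fin 843 6 842)
(mv 1032 (cons (fin 1031 0 1031)
(mv 968 (cons (cons (mv 967 (cons (fin 1035 3 967)
(fin 904 1 903)))
(mv 1096 (cons (fin 1160 4 968)
(mv 1095 (cons (fin 1035 1 1031)
(mv 904 (cons (fin 1159 5 903)
(mv 839 (cons (fin 840 3 839)
(fin 903 7 839))))))))))
(cons (mv 908 (cons (fin 972 0 905)
(mv 844 (cons (fin 845 2 841)
(mv 1035 (cons (fin 967 3 967)
(mv 1096 (cons (fin 1095 1 1031)
(fin 1160 4 968)))))))))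
(mv 1096 (cons (fin 1160 4 968)
(mv 908 (cons (fin 972 0 905)
(mv 904 (cons (fin 967 1 903)
(mv 839 (cons (fin 840 3 839)
(fin 903 7 839))))))))))))))))))))))))
(mv 1099 (cons (fin 1100 3 1033)
(mv 1031 (cons (fin 1032 0 1031)
(mv 1097 (cons (fin 1161 5 905)
(mv 907 (cons (fin 843 6 842)
(mv 905 (cons (fin 841 7 841)
(mv 908 (cons (fin 972 0 905)
(mv 844 (cons (fin 845 2 841)
(mv 969 (cons (fin 968 1 904)
(mv 1096 (cons (fin 1160 5 904)
(mv 1095 (cons (fin 1030 3 1030)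
(fin 1094 2 1030))))))))))))))))))))))))))
(cons (mv 842 (cons (mv 778 (cons (fin 969 5 777)
(mv 777 (cons (fin 713 7 713)
(fin 841 7 777)))))
(cons (mv 777 (cons (fin 841 7 777)
(mv 843 (cons (fin 779 6 778)
(mv 1099 (cons (fin 1035 4 842)
(mv 1098 (cons (fin 1100 3 1033)
(fin 907 6 842)))))))))
(mv 779 (cons (fin 843 6 778)
(mv 778 (cons (fin 969 5 777)
(fin 715 6 714))))))))
(cons (mv 842 (cons (fin 1097 5 841)
(mv 777 (cons (fin 841 7 777)
(mv 713 (cons (fin 778 7 713)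
(mv 1099 (cons (fin 1035 4 842)
(mv 843 (cons (fin 779 6 778)
(mv 1098 (cons (fin 1100 3 1033)
(fin 907 6 842)))))))))))))
(mv 842 (cons (fin 1097 5 841)
(mv 779 (cons (fin 843 6 778)
(mv 778 (cons (fin 969 5 777)
(fin 715 6 714)))))))))))
(mv 1097 (cons (cons (mv 906 (cons (fin 842 5 841)
(mv 1161 (cons (fin 1098 5 905)
(fin 969 6 905)))))
(mv 906 (cons (fin 842 5 841)
(mv 1098 (cons (cons (mv 1099 (cons (fin 1100 3 1033)
(mv 843 (cons (fin 907 6 842)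
(mv 905 (cons (fin 841 7 841)
(mv 1031 (cons (fin 1032 0 1031)
(mv 969 (cons (fin 1162 7 905)
(mv 1096 (cons (fin 1160 5 904)
(mv 1095 (cons (fin 1030 3 1030)
(fin 1094 2 1030)))))))))))))))
(cons (mv 1099 (cons (fin 1100 3 1033)
(mv 1031 (cons (fin 1032 0 1031)
(mv 907 (cons (fin 843 6 842)
(mv 1162 (cons (fin 971 6 906)
(mv 1226 (cons (fin 969 7 969)
(fin 1290 7 1033)))))))))))
(mv 843 (cons (fin 907 6 842)
(mv 905 (cons (fin 841 7 841)
(mv 969 (cons (fin 1162 7 905)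
(mv 840 (cons (fin 904 7 840)
(mv 1096 (cons (fin 1160 5 904)
(mv 1095 (cons (fin 1094 2 1030)
(fin 1035 2 1031)))))))))))))))
(cons (mv 905 (cons (fin 841 7 841)
(mv 1099 (cons (fin 1100 3 1033)
(mv 1031 (cons (fin 1032 0 1031)
(mv 969 (cons (fin 1162 7 905)
(mv 840 (cons (fin 904 7 840)
(mv 1096 (cons (fin 1160 5 904)
(mv 1095 (cons (fin 1030 3 1030)
(fin 1094 2 1030)))))))))))))))
(cons (mv 841 (cons (fin 905 7 841)
(mv 843 (cons (fin 907 6 842)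
(mv 1099 (cons (fin 1100 3 1033)
(mv 1032 (cons (fin 1031 0 1031)
(mv 1096 (cons (mv 1095 (cons (fin 1035 1 1031)
(fin 1094 2 1030)))
(mv 1160 (cons (fin 1159 1 1095)
(mv 1224 (cons (fin 969 6 968)
(fin 1288 6 1032)))))))))))))))
(mv 1099 (cons (fin 1100 3 1033)
(mv 1032 (cons (fin 1031 0 1031)
(mv 905 (cons (fin 841 7 841)
(mv 907 (cons (fin 843 6 842)
(mv 971 (cons (fin 1162 6 906)
(mv 904 (cons (fin 903 0 903)
(mv 840 (cons (fin 839 3 839)
(fin 968 4 840))))))))))))))))))))))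
(cons (mv 1161 (cons (fin 1225 6 969)
(mv 969 (cons (cons (mv 904 (cons (fin 968 7 904)
(mv 905 (cons (fin 840 7 840)
(mv 1162 (cons (fin 1098 7 905)
(fin 1226 4 969)))))))
(mv 904 (cons (fin 968 7 904)
(mv 905 (cons (fin 840 7 840)
(mv 1160 (cons (fin 1096 5 904)
(fin 1224 5 968))))))))
(cons (mv 1160 (cons (fin 1224 5 968)
(mv 905 (cons (fin 1096 5 904)
(mv 1162 (cons (fin 1098 7 905)
(fin 1226 4 969)))))))
(mv 1162 (cons (fin 1226 4 969)
(mv 968 (cons (fin 904 7 904)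
(mv 967 (cons (fin 966 0 966)
(fin 1035 0 967))))))))))))
(cons (mv 1161 (cons (fin 1225 6 969)
(mv 906 (cons (fin 842 5 841)
(fin 969 6 905)))))
(mv 906 (cons (fin 842 5 841)
(mv 1161 (cons (fin 1098 5 905)
(fin 1225 6 969)))))))))))
(cons (mv 971 (cons (fin 972 1 969)
(mv 1031 (cons (fin 1032 2 967)
(mv 1098 (cons (cons (mv 1099 (cons (fin 1100 3 1033)
(mv 907 (cons (fin 1162 6 906)
(mv 843 (cons (fin 779 5 778)
(fin 1035 5 842)))))))
(mv 1099 (cons (fin 1100 3 1033)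
(mv 906 (cons (cons (mv 842 (cons (fin 1035 4 842)
(mv 841 (cons (fin 777 7 777)
(fin 905 7 841)))))
(mv 905 (cons (fin 841 7 841)
(mv 907 (cons (fin 843 6 842)
(mv 904 (cons (fin 903 0 903)
(mv 968 (cons (fin 967 1 903)
(mv 839 (cons (fin 840 3 839)
(mv 908 (cons (fin 969 1 904)
(mv 844 (cons (fin 845 2 841)
(fin 1035 6 843))))))))))))))))
(cons (mv 843 (cons (fin 907 6 842)
(mv 842 (cons (fin 779 6 778)
(mv 841 (cons (fin 777 7 777)
(fin 905 7 841)))))))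
(mv 842 (cons (fin 1035 4 842)
(mv 843 (cons (fin 779 6 778)
(fin 907 6 842)))))))))))
(cons (mv 1099 (cons (fin 1100 3 1033)
(mv 906 (cons (cons (mv 842 (cons (fin 1035 4 842)
(mv 841 (cons (fin 777 7 777)
(fin 905 7 841)))))
(mv 905 (cons (fin 841 7 841)
(mv 903 (cons (fin 904 0 903)
(mv 1162 (cons (fin 969 7 905)
(mv 1226 (cons (fin 1035 6 970)
(mv 1225 (cons (fin 1161 5 969)
(fin 1289 5 1033))))))))))))
(cons (mv 842 (cons (fin 1035 4 842)
(mv 779 (cons (fin 843 6 778)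
(mv 778 (cons (fin 969 5 777)
(fin 715 6 714)))))))
(mv 841 (cons (fin 905 7 841)
(mv 842 (cons (fin 777 7 777)
(mv 778 (cons (fin 969 5 777)
(mv 779 (cons (fin 715 6 714)
(fin 843 6 778))))))))))))))
(cons (mv 907 (cons (fin 1162 6 906)
(mv 843 (cons (fin 779 5 778)
(fin 1035 5 842)))))
(mv 1162 (cons (fin 907 6 906)
(mv 969 (cons (fin 905 7 905)
(fin 1226 7 969)))))))))))))
(cons (mv 971 (cons (fin 972 1 969)
(mv 1098 (cons (cons (mv 1099 (cons (fin 1100 3 1033)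
(mv 907 (cons (fin 1162 6 906)
(mv 843 (cons (fin 779 5 778)
(fin 1035 5 842)))))))
(mv 1099 (cons (fin 1100 3 1033)
(mv 906 (cons (cons (mv 842 (cons (fin 1097 5 841)
(fin 1035 4 842)))
(mv 905 (cons (fin 841 7 841)
(mv 1097 (cons (fin 1161 5 905)
(mv 904 (cons (fin 903 0 903)
(mv 843 (cons (fin 907 6 842)
(mv 969 (cons (fin 840 7 840)
(mv 1096 (cons (fin 1160 5 904)
(mv 1095 (cons (fin 1094 2 1030)
(fin 1035 2 1031))))))))))))))))
(cons (mv 842 (cons (fin 1035 4 842)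
(mv 841 (cons (fin 777 7 777)
(fin 905 7 841)))))
(mv 1097 (cons (fin 842 5 841)
(fin 1161 5 905)))))))))
(cons (mv 1099 (cons (fin 1100 3 1033)
(mv 906 (cons (mv 1097 (cons (fin 842 5 841)
(fin 1161 5 905)))
(cons (mv 841 (cons (fin 905 7 841)
(mv 1161 (cons (fin 1097 5 905)
(mv 1162 (cons (fin 1225 5 969)
(mv 1226 (cons (fin 969 7 969)
(fin 1035 6 970)))))))))
(mv 842 (cons (fin 1035 4 842)
(mv 841 (cons (fin 777 7 777)
(fin 905 7 841))))))))))
(cons (mv 907 (cons (fin 1162 6 906)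
(mv 843 (cons (fin 779 5 778)
(fin 1035 5 842)))))
(mv 907 (cons (fin 1162 6 906)
(mv 843 (cons (fin 779 5 778)
(fin 906 6 842)))))))))))
(mv 971 (cons (fin 972 1 969)
(mv 1032 (cons (fin 1031 2 967)
(mv 968 (cons (cons (mv 967 (cons (fin 1035 3 967)
(mv 966 (cons (fin 965 0 965)
(fin 969 0 966)))))
(mv 1097 (cons (cons (mv 1161 (cons (fin 1225 7 968)
(mv 906 (cons (fin 842 5 841)
(fin 969 6 905)))))
(mv 904 (cons (fin 840 4 840)
(mv 842 (cons (fin 906 5 841)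
(mv 903 (cons (fin 969 3 903)
(mv 1096 (cons (fin 839 7 839)
(mv 1095 (cons (fin 1035 1 1031)
(fin 1094 2 1030))))))))))))
(cons (mv 1161 (cons (fin 1225 7 968)
(mv 904 (cons (fin 969 7 904)
(fin 840 4 840)))))
(mv 1161 (cons (fin 1225 7 968)
(mv 904 (cons (fin 840 4 840)
(fin 1096 4 904)))))))))
(cons (mv 1097 (cons (cons (mv 1161 (cons (fin 1225 7 968)
(mv 906 (cons (fin 842 5 841)
(fin 969 6 905)))))
(mv 904 (cons (fin 840 4 840)
(mv 842 (cons (fin 906 5 841)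
(mv 903 (cons (fin 969 3 903)
(mv 839 (cons (fin 1096 7 839)
(mv 775 (cons (fin 711 4 711)
(fin 967 4 775))))))))))))
(cons (mv 1161 (cons (fin 1225 7 968)
(mv 904 (cons (fin 969 7 904)
(fin 840 4 840)))))
(mv 1161 (cons (fin 1225 7 968)
(mv 904 (cons (fin 840 4 840)
(fin 1096 4 904))))))))
(mv 1035 (cons (fin 967 3 967)
(mv 1096 (cons (fin 1095 1 1031)
(mv 1099 (cons (fin 1100 0 1032)
(mv 842 (cons (fin 906 4 842)
(mv 1160 (cons (cons (mv 1223 (cons (fin 1159 5 967)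
(mv 1161 (cons (fin 1225 4 968)
(mv 1097 (cons (fin 904 4 904)
(mv 1224 (cons (fin 1287 5 1031)
(fin 1288 6 1032)))))))))
(mv 1223 (cons (fin 1159 5 967)
(mv 1224 (cons (fin 1287 5 1031)
(mv 1288 (cons (fin 1097 6 1032)
(mv 1289 (cons (fin 1225 4 1032)
(fin 1353 4 1096))))))))))
(cons (mv 1223 (cons (fin 1159 5 967)
(mv 1224 (cons (fin 1287 5 1031)
(mv 1097 (cons (fin 1288 6 1032)
(mv 904 (cons (fin 840 4 840)
(fin 1161 4 904)))))))))
(cons (mv 1161 (cons (fin 1225 4 968)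
(mv 904 (cons (fin 1097 4 904)
(mv 841 (cons (fin 905 6 840)
(mv 840 (cons (fin 777 6 776)
(mv 839 (cons (fin 775 7 775)
(fin 903 7 839)))))))))))
(mv 1225 (cons (fin 1161 4 968)
(mv 1223 (cons (fin 1159 5 967)
(mv 1224 (cons (fin 1287 5 1031)
(fin 1289 4 1032)))))))))))))))))))))))))))))
(cons (cons (mv 971 (cons (fin 972 1 969)
(mv 1032 (cons (fin 1031 2 967)
(mv 968 (cons (cons (mv 967 (cons (fin 1035 3 967)
(mv 966 (cons (fin 965 0 965)
(fin 969 0 966)))))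
(mv 907 (cons (cons (mv 908 (cons (fin 969 2 904)
(mv 1098 (cons (fin 1162 6 906)
(mv 843 (cons (fin 779 5 778)
(fin 1035 5 842)))))))
(mv 779 (cons (fin 843 5 778)
(mv 969 (cons (fin 908 2 904)
(mv 904 (cons (fin 903 3 903)
(mv 840 (cons (fin 776 4 776)
(fin 1097 4 840))))))))))
(cons (mv 1098 (cons (fin 1162 6 906)
(mv 843 (cons (fin 779 5 778)
(fin 1035 5 842)))))
(mv 969 (cons (fin 908 2 904)
(mv 1098 (cons (fin 1162 6 906)
(mv 841 (cons (fin 905 4 841)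
(mv 1099 (cons (fin 1100 3 1033)
(mv 904 (cons (fin 903 3 903)
(mv 840 (cons (fin 777 6 776)
(fin 776 4 776)))))))))))))))))
(cons (mv 904 (cons (cons (mv 903 (cons (fin 969 3 903)
(mv 840 (cons (fin 1097 4 840)
(mv 839 (cons (fin 775 7 775)
(fin 1096 7 839)))))))
(cons (mv 840 (cons (fin 1097 4 840)
(mv 777 (cons (fin 841 6 776)
(mv 776 (cons (fin 713 6 712)
(mv 775 (cons (fin 711 7 711)
(fin 839 7 775)))))))))
(mv 903 (cons (fin 969 3 903)
(mv 839 (cons (fin 1096 7 839)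
(mv 775 (cons (fin 840 7 775)
(fin 711 4 711)))))))))
(cons (mv 903 (cons (fin 969 3 903)
(mv 839 (cons (fin 1096 7 839)
(mv 775 (cons (fin 711 4 711)
(fin 967 4 775)))))))
(cons (mv 903 (cons (fin 969 3 903)
(mv 840 (cons (fin 1097 4 840)
(mv 777 (cons (fin 841 6 776)
(mv 776 (cons (fin 713 6 712)
(mv 712 (cons (fin 967 5 711)
(mv 711 (cons (fin 647 7 647)
(fin 775 7 711)))))))))))))
(mv 840 (cons (fin 1097 4 840)
(mv 969 (cons (fin 903 3 903)
(fin 776 4 776)))))))))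
(mv 1035 (cons (fin 967 3 967)
(mv 1096 (cons (fin 1095 1 1031)
(mv 1099 (cons (fin 1100 0 1032)
(mv 1160 (cons (cons (mv 1159 (cons (fin 1223 5 967)
(mv 1097 (cons (fin 1098 1 1095)
(mv 904 (cons (fin 840 4 840)
(fin 1161 4 904)))))))
(mv 1159 (cons (fin 1223 5 967)
(mv 1098 (cons (fin 1097 1 1095)
(mv 907 (cons (fin 843 5 842)
(fin 1162 5 906))))))))
(cons (mv 1161 (cons (fin 1225 4 968)
(mv 904 (cons (fin 1097 4 904)
(mv 841 (cons (fin 905 6 840)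
(mv 840 (cons (fin 777 6 776)
(mv 839 (cons (fin 775 7 775)
(fin 903 7 839)))))))))))
(mv 1225 (cons (fin 1161 4 968)
(mv 1223 (cons (fin 1159 5 967)
(mv 1224 (cons (fin 1287 5 1031)
(fin 1289 4 1032)))))))))))))))))))))))
(cons (mv 971 (cons (fin 972 1 969)
(mv 1031 (cons (fin 1032 2 967)
(mv 1097 (cons (cons (mv 906 (cons (fin 842 5 841)
(mv 1161 (cons (fin 1098 5 905)
(fin 969 6 905)))))
(mv 1161 (cons (fin 1225 6 969)
(mv 969 (cons (cons (mv 904 (cons (fin 968 7 904)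
(mv 840 (cons (fin 905 7 840)
(mv 1162 (cons (fin 1226 4 969)
(mv 1098 (cons (fin 907 6 906)
(mv 1160 (cons (fin 1224 5 968)
(mv 1159 (cons (fin 1158 2 1094)
(fin 1099 2 1095)))))))))))))
(mv 1160 (cons (fin 1224 5 968)
(mv 905 (cons (fin 1096 5 904)
(mv 1162 (cons (fin 1098 7 905)
(fin 1226 4 969))))))))
(cons (mv 904 (cons (fin 968 7 904)
(mv 905 (cons (fin 840 7 840)
(mv 1160 (cons (fin 1096 5 904)
(fin 1224 5 968)))))))
(cons (mv 1162 (cons (fin 1226 4 969)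
(mv 1098 (cons (fin 905 7 905)
(fin 907 6 906)))))
(mv 904 (cons (fin 968 7 904)
(mv 1160 (cons (fin 1224 5 968)
(mv 1162 (cons (fin 1226 4 969)
(mv 1098 (cons (fin 907 6 906)
(mv 1159 (cons (fin 1158 2 1094)
(fin 1099 2 1095))))))))))))))))))
(cons (mv 906 (cons (fin 842 5 841)
(mv 1098 (cons (mv 907 (cons (fin 843 6 842)
(fin 1162 6 906)))
(cons (mv 905 (cons (fin 841 7 841)
(mv 903 (cons (fin 904 0 903)
(mv 969 (cons (fin 1162 7 905)
(mv 1096 (cons (fin 1160 5 904)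
(mv 1095 (cons (fin 1030 3 1030)
(fin 1094 2 1030)))))))))))
(mv 905 (cons (fin 841 7 841)
(mv 843 (cons (fin 907 6 842)
(mv 904 (cons (fin 903 0 903)
(mv 969 (cons (fin 840 7 840)
(mv 1096 (cons (fin 1160 5 904)
(mv 1095 (cons (fin 1030 3 1030)
(fin 1094 2 1030))))))))))))))))))
(cons (mv 906 (cons (fin 842 5 841)
(mv 1161 (cons (fin 969 6 905)
(fin 1225 6 969)))))
(mv 1161 (cons (fin 1225 6 969)
(mv 906 (cons (fin 842 5 841)
(fin 1098 5 905)))))))))))))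
(mv 971 (cons (fin 972 1 969)
(mv 1031 (cons (fin 1032 2 967)
(mv 1097 (cons (cons (mv 906 (cons (fin 842 5 841)
(mv 1161 (cons (fin 1098 5 905)
(fin 969 6 905)))))
(mv 1161 (cons (fin 1225 6 969)
(mv 969 (cons (cons (mv 904 (cons (fin 968 7 904)
(mv 840 (cons (fin 905 7 840)
(mv 1162 (cons (fin 1226 4 969)
(mv 1098 (cons (fin 907 6 906)
(mv 1160 (cons (fin 1224 5 968)
(mv 1159 (cons (fin 1158 2 1094)
(mv 1095 (cons (fin 1094 3 1094)
(mv 1096 (cons (fin 1030 3 1030)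
(fin 1035 2 1031)))))))))))))))))
(mv 1160 (cons (fin 1224 5 968)
(mv 905 (cons (fin 1096 5 904)
(mv 1162 (cons (fin 1098 7 905)
(fin 1226 4 969))))))))
(cons (mv 904 (cons (fin 968 7 904)
(mv 905 (cons (fin 840 7 840)
(mv 1160 (cons (fin 1096 5 904)
(fin 1224 5 968)))))))
(cons (mv 1162 (cons (fin 1226 4 969)
(mv 1098 (cons (fin 905 7 905)
(fin 907 6 906)))))
(mv 904 (cons (fin 968 7 904)
(mv 1160 (cons (fin 1224 5 968)
(mv 1162 (cons (fin 1226 4 969)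
(mv 1098 (cons (fin 907 6 906)
(mv 1159 (cons (fin 1158 2 1094)
(mv 1222 (cons (fin 1223 1 1158)
(mv 1095 (cons (fin 1094 3 1094)
(mv 1096 (cons (fin 1030 3 1030)
(fin 1035 2 1031))))))))))))))))))))))))
(cons (mv 906 (cons (fin 842 5 841)
(mv 1098 (cons (mv 907 (cons (fin 843 6 842)
(fin 1162 6 906)))
(cons (mv 905 (cons (fin 841 7 841)
(mv 903 (cons (fin 904 0 903)
(mv 969 (cons (fin 1162 7 905)
(mv 1096 (cons (fin 1160 5 904)
(mv 1095 (cons (fin 1030 3 1030)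
(fin 1094 2 1030)))))))))))
(mv 905 (cons (fin 841 7 841)
(mv 843 (cons (fin 907 6 842)
(mv 904 (cons (fin 903 0 903)
(mv 969 (cons (fin 840 7 840)
(mv 1096 (cons (fin 1160 5 904)
(mv 1095 (cons (fin 1030 3 1030)
(fin 1094 2 1030))))))))))))))))))
(cons (mv 906 (cons (fin 842 5 841)
(mv 1161 (cons (fin 969 6 905)
(fin 1225 6 969)))))
(mv 1161 (cons (fin 1225 6 969)
(mv 906 (cons (fin 842 5 841)
(fin 1098 5 905)))))))))))))))
(cons (cons (mv 971 (cons (fin 972 1 969)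
(mv 1031 (cons (fin 1032 2 967)
(mv 1098 (cons (cons (mv 1099 (cons (fin 1100 3 1033)
(mv 907 (cons (fin 1162 6 906)
(mv 843 (cons (fin 779 5 778)
(fin 1035 5 842)))))))
(mv 1099 (cons (fin 1100 3 1033)
(mv 906 (cons (mv 842 (cons (fin 1097 5 841)
(fin 1035 4 842)))
(cons (mv 905 (cons (fin 841 7 841)
(mv 907 (cons (fin 843 6 842)
(mv 904 (cons (fin 903 0 903)
(mv 968 (cons (fin 967 1 903)
(mv 839 (cons (fin 840 3 839)
(mv 908 (cons (fin 969 1 904)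
(mv 844 (cons (fin 845 2 841)
(fin 1035 6 843)))))))))))))))
(mv 841 (cons (fin 905 7 841)
(mv 842 (cons (fin 777 7 777)
(fin 1097 5 841)))))))))))
(cons (mv 1099 (cons (fin 1100 3 1033)
(mv 906 (cons (mv 842 (cons (fin 1097 5 841)
(fin 1035 4 842)))
(cons (mv 905 (cons (fin 841 7 841)
(mv 969 (cons (fin 1162 7 905)
(mv 904 (cons (fin 903 0 903)
(mv 840 (cons (fin 1097 7 840)
(mv 776 (cons (fin 712 4 712)
(fin 968 4 776)))))))))))
(mv 841 (cons (fin 905 7 841)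
(mv 842 (cons (fin 777 7 777)
(fin 1035 4 842))))))))))
(cons (mv 907 (cons (fin 1162 6 906)
(mv 843 (cons (fin 779 5 778)
(fin 1035 5 842)))))
(mv 907 (cons (fin 1162 6 906)
(mv 843 (cons (fin 779 5 778)
(fin 906 6 842)))))))))))))
(mv 971 (cons (fin 972 1 969)
(mv 1032 (cons (fin 1031 2 967)
(mv 1098 (cons (cons (mv 1099 (cons (fin 1100 3 1033)
(mv 907 (cons (fin 1162 6 906)
(mv 843 (cons (fin 779 5 778)
(fin 1035 5 842)))))))
(mv 1099 (cons (fin 1100 3 1033)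
(mv 1162 (cons (cons (mv 1161 (cons (fin 1225 5 969)
(mv 906 (cons (fin 1097 5 905)
(mv 1035 (cons (fin 1226 6 970)
(fin 842 4 842)))))))
(cons (mv 1161 (cons (fin 1225 5 969)
(mv 906 (cons (fin 1097 5 905)
(mv 842 (cons (fin 1035 4 842)
(mv 841 (cons (fin 777 7 777)
(fin 905 7 841)))))))))
(mv 1225 (cons (fin 1161 5 969)
(mv 1226 (cons (fin 1289 5 1033)
(mv 1290 (cons (fin 1097 7 1033)
(mv 1291 (cons (fin 1227 4 1034)
(fin 1355 4 1098)))))))))))
(cons (mv 1226 (cons (fin 1035 6 970)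
(mv 1225 (cons (fin 1289 5 1033)
(mv 1290 (cons (fin 1097 7 1033)
(mv 1291 (cons (fin 1227 4 1034)
(fin 1355 4 1098)))))))))
(cons (mv 1035 (cons (fin 1226 6 970)
(mv 1095 (cons (fin 1096 1 1031)
(mv 906 (cons (fin 842 4 842)
(mv 968 (cons (fin 967 3 967)
(mv 905 (cons (fin 841 7 841)
(mv 1097 (cons (fin 1161 5 905)
(mv 904 (cons (fin 903 0 903)
(fin 840 4 840)))))))))))))))
(mv 1226 (cons (fin 1035 6 970)
(mv 1225 (cons (fin 1161 5 969)
(fin 1289 5 1033))))))))))))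
(cons (mv 1099 (cons (fin 1100 3 1033)
(mv 906 (cons (mv 1097 (cons (fin 842 5 841)
(fin 1161 5 905)))
(cons (mv 905 (cons (fin 841 7 841)
(mv 1097 (cons (fin 1161 5 905)
(mv 904 (cons (fin 903 0 903)
(mv 907 (cons (fin 843 6 842)
(mv 840 (cons (fin 839 3 839)
(fin 968 4 840)))))))))))
(mv 842 (cons (fin 1035 4 842)
(mv 843 (cons (fin 779 6 778)
(fin 907 6 842))))))))))
(cons (mv 907 (cons (fin 1162 6 906)
(mv 843 (cons (fin 779 5 778)
(fin 1035 5 842)))))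
(mv 907 (cons (fin 1162 6 906)
(mv 843 (cons (fin 779 5 778)
(fin 906 6 842))))))))))))))
(cons (mv 971 (cons (fin 972 1 969)
(mv 1032 (cons (fin 1031 2 967)
(mv 968 (cons (cons (mv 967 (cons (fin 1035 3 967)
(mv 966 (cons (fin 965 0 965)
(fin 969 0 966)))))
(mv 1097 (cons (mv 1161 (cons (fin 1225 7 968)
(mv 906 (cons (fin 842 5 841)
(fin 1098 5 905)))))
(cons (mv 904 (cons (fin 840 4 840)
(mv 842 (cons (fin 906 5 841)
(mv 903 (cons (fin 969 3 903)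
(mv 839 (cons (fin 1096 7 839)
(mv 775 (cons (fin 711 4 711)
(fin 967 4 775)))))))))))
(mv 904 (cons (fin 840 4 840)
(mv 1161 (cons (fin 969 7 904)
(fin 1225 7 968)))))))))
(cons (mv 1097 (cons (mv 1161 (cons (fin 1225 7 968)
(mv 906 (cons (fin 842 5 841)
(fin 1098 5 905)))))
(cons (mv 842 (cons (fin 906 5 841)
(mv 904 (cons (fin 840 4 840)
(mv 903 (cons (fin 969 3 903)
(mv 1096 (cons (fin 839 7 839)
(mv 1095 (cons (fin 1035 1 1031)
(fin 1094 2 1030)))))))))))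
(mv 904 (cons (fin 840 4 840)
(mv 1161 (cons (fin 969 7 904)
(fin 1225 7 968))))))))
(mv 1035 (cons (fin 967 3 967)
(mv 1096 (cons (fin 1095 1 1031)
(mv 1099 (cons (fin 1100 0 1032)
(mv 842 (cons (fin 906 4 842)
(mv 1160 (cons (cons (mv 1159 (cons (fin 1223 5 967)
(mv 1097 (cons (fin 1098 1 1095)
(mv 904 (cons (fin 840 4 840)
(fin 1161 4 904)))))))
(mv 1159 (cons (fin 1223 5 967)
(mv 1098 (cons (fin 1097 1 1095)
(mv 907 (cons (fin 843 5 842)
(fin 1162 5 906))))))))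
(cons (mv 1225 (cons (fin 1161 4 968)
(mv 1224 (cons (fin 1289 4 1032)
(mv 1288 (cons (fin 1097 6 1032)
(mv 1287 (cons (fin 1223 5 1031)
(fin 1351 5 1095)))))))))
(cons (mv 1161 (cons (fin 1225 4 968)
(mv 1097 (cons (fin 904 4 904)
(mv 1224 (cons (fin 1288 6 1032)
(mv 1098 (cons (fin 1159 1 1095)
(mv 1162 (cons (fin 907 5 906)
(fin 1226 6 970)))))))))))
(mv 1225 (cons (fin 1161 4 968)
(mv 1223 (cons (fin 1159 5 967)
(mv 1224 (cons (fin 1287 5 1031)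
(fin 1289 4 1032))))))))))))))))))))))))))
(mv 972 (cons (fin 971 1 969)
(mv 906 (cons (cons (mv 842 (cons (fin 1097 5 841)
(mv 778 (cons (fin 969 5 777)
(mv 777 (cons (fin 713 7 713)
(fin 841 7 777)))))))
(mv 1098 (cons (cons (mv 1099 (cons (fin 1100 3 1033)
(mv 843 (cons (fin 907 6 842)
(mv 1031 (cons (fin 1032 0 1031)
(mv 1097 (cons (fin 1161 5 905)
(mv 905 (cons (fin 841 7 841)
(mv 969 (cons (fin 1162 7 905)
(mv 1096 (cons (fin 1160 5 904)
(mv 1095 (cons (fin 1030 3 1030)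
(fin 1094 2 1030)))))))))))))))))
(mv 843 (cons (fin 907 6 842)
(mv 1099 (cons (fin 1100 3 1033)
(mv 1161 (cons (fin 1097 5 905)
(mv 1031 (cons (fin 1032 0 1031)
(mv 1162 (cons (fin 1225 5 969)
(mv 1226 (cons (fin 969 7 969)
(mv 1159 (cons (fin 1160 2 1095)
(mv 1291 (cons (fin 1227 4 1034)
(mv 1290 (cons (fin 1035 6 1034)
(fin 1355 4 1098))))))))))))))))))))
(cons (mv 905 (cons (fin 841 7 841)
(mv 907 (cons (fin 908 0 905)
(fin 843 6 842)))))
(mv 1097 (cons (fin 1161 5 905)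
(mv 905 (cons (fin 841 7 841)
(mv 1099 (cons (fin 1100 3 1033)
(mv 1031 (cons (fin 1032 0 1031)
(mv 969 (cons (fin 1162 7 905)
(mv 1096 (cons (fin 1160 5 904)
(mv 1095 (cons (fin 1030 3 1030)
(fin 1094 2 1030)))))))))))))))))))
(cons (mv 842 (cons (mv 778 (cons (fin 969 5 777)
(mv 777 (cons (fin 713 7 713)
(fin 841 7 777)))))
(cons (mv 777 (cons (fin 841 7 777)
(mv 843 (cons (fin 779 6 778)
(mv 1099 (cons (fin 1035 4 842)
(mv 1098 (cons (fin 1100 3 1033)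
(fin 907 6 842)))))))))
(mv 779 (cons (fin 843 6 778)
(mv 778 (cons (fin 969 5 777)
(fin 715 6 714))))))))
(cons (mv 842 (cons (fin 1097 5 841)
(mv 777 (cons (fin 841 7 777)
(mv 713 (cons (fin 778 7 713)
(mv 1099 (cons (fin 1035 4 842)
(mv 843 (cons (fin 779 6 778)
(mv 1098 (cons (fin 1100 3 1033)
(fin 907 6 842)))))))))))))
(mv 842 (cons (fin 1097 5 841)
(mv 779 (cons (fin 843 6 778)
(mv 778 (cons (fin 969 5 777)
(fin 715 6 714))))))))))))))))))
(mv 970 (cons (cons (cons (mv 971 (cons (fin 972 1 969)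
(mv 1031 (cons (fin 1032 2 967)
(mv 1098 (cons (mv 1099 (cons (fin 1100 3 1033)
(mv 907 (cons (fin 1162 6 906)
(mv 906 (cons (fin 843 6 842)
(fin 1163 4 906)))))))
(cons (mv 1099 (cons (fin 1100 3 1033)
(mv 906 (cons (fin 1163 4 906)
(mv 842 (cons (fin 1097 5 841)
(fin 1035 4 842)))))))
(mv 907 (cons (fin 1162 6 906)
(mv 843 (cons (fin 779 5 778)
(fin 1035 5 842))))))))))))
(mv 1097 (cons (cons (mv 906 (cons (fin 842 5 841)
(mv 1161 (cons (fin 1098 5 905)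
(fin 969 6 905)))))
(mv 906 (cons (fin 842 5 841)
(mv 1098 (cons (mv 1099 (cons (fin 1100 3 1033)
(fin 1163 4 906)))
(mv 843 (cons (fin 907 6 842)
(mv 905 (cons (fin 841 7 841)
(mv 969 (cons (fin 1162 7 905)
(mv 840 (cons (fin 904 7 840)
(mv 1096 (cons (fin 1160 5 904)
(mv 1095 (cons (fin 1094 2 1030)
(fin 1035 2 1031))))))))))))))))))
(cons (mv 1161 (cons (fin 1225 6 969)
(mv 969 (cons (cons (mv 904 (cons (fin 968 7 904)
(mv 905 (cons (fin 840 7 840)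
(mv 1162 (cons (fin 1098 7 905)
(fin 1226 4 969)))))))
(mv 904 (cons (fin 968 7 904)
(mv 905 (cons (fin 840 7 840)
(mv 1160 (cons (fin 1096 5 904)
(fin 1224 5 968))))))))
(cons (mv 1160 (cons (fin 1224 5 968)
(mv 905 (cons (fin 1096 5 904)
(mv 1162 (cons (fin 1098 7 905)
(fin 1226 4 969)))))))
(mv 1162 (cons (fin 1226 4 969)
(mv 968 (cons (fin 904 7 904)
(mv 967 (cons (fin 966 0 966)
(fin 1035 0 967))))))))))))
(cons (mv 1161 (cons (fin 1225 6 969)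
(mv 906 (cons (fin 842 5 841)
(fin 969 6 905)))))
(mv 906 (cons (fin 842 5 841)
(mv 1161 (cons (fin 1098 5 905)
(fin 1225 6 969))))))))))
(cons (mv 971 (cons (fin 972 1 969)
(mv 1031 (cons (fin 1032 2 967)
(mv 1098 (cons (mv 1099 (cons (fin 1100 3 1033)
(mv 907 (cons (fin 1162 6 906)
(mv 906 (cons (fin 843 6 842)
(fin 1163 4 906)))))))
(cons (mv 1099 (cons (fin 1100 3 1033)
(mv 906 (cons (fin 1163 4 906)
(mv 842 (cons (fin 1035 4 842)
(mv 841 (cons (fin 777 7 777)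
(fin 905 7 841)))))))))
(mv 907 (cons (fin 1162 6 906)
(mv 843 (cons (fin 779 5 778)
(fin 1035 5 842))))))))))))
(mv 971 (cons (fin 972 1 969)
(mv 1032 (cons (fin 1031 2 967)
(mv 968 (cons (cons (mv 967 (cons (fin 1035 3 967)
(mv 966 (cons (fin 965 0 965)
(fin 969 0 966)))))
(mv 904 (cons (cons (mv 903 (cons (fin 969 3 903)
(mv 840 (cons (fin 1097 4 840)
(mv 839 (cons (fin 775 7 775)
(fin 1096 7 839)))))))
(cons (mv 840 (cons (fin 1097 4 840)
(mv 777 (cons (fin 841 6 776)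
(mv 776 (cons (fin 713 6 712)
(mv 775 (cons (fin 711 7 711)
(fin 839 7 775)))))))))
(mv 903 (cons (fin 969 3 903)
(mv 839 (cons (fin 1096 7 839)
(mv 775 (cons (fin 840 7 775)
(fin 711 4 711)))))))))
(cons (mv 903 (cons (fin 969 3 903)
(mv 839 (cons (fin 1096 7 839)
(mv 775 (cons (fin 711 4 711)
(fin 967 4 775)))))))
(cons (mv 903 (cons (fin 969 3 903)
(mv 840 (cons (fin 1097 4 840)
(mv 777 (cons (fin 841 6 776)
(mv 776 (cons (fin 713 6 712)
(mv 712 (cons (fin 967 5 711)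
(mv 711 (cons (fin 647 7 647)
(fin 775 7 711)))))))))))))
(mv 840 (cons (fin 1097 4 840)
(mv 969 (cons (fin 903 3 903)
(fin 776 4 776))))))))))
(cons (mv 907 (cons (cons (mv 908 (cons (fin 969 2 904)
(mv 1098 (cons (fin 1162 6 906)
(mv 843 (cons (fin 779 5 778)
(fin 1035 5 842)))))))
(mv 779 (cons (fin 843 5 778)
(mv 969 (cons (fin 908 2 904)
(mv 904 (cons (fin 903 3 903)
(mv 840 (cons (fin 776 4 776)
(fin 1097 4 840))))))))))
(cons (mv 1098 (cons (fin 1162 6 906)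
(mv 843 (cons (fin 779 5 778)
(fin 1035 5 842)))))
(mv 969 (cons (fin 908 2 904)
(mv 1098 (cons (fin 1162 6 906)
(mv 841 (cons (fin 905 4 841)
(mv 1099 (cons (fin 1100 3 1033)
(mv 904 (cons (fin 903 3 903)
(mv 840 (cons (fin 777 6 776)
(fin 776 4 776))))))))))))))))
(mv 1035 (cons (fin 967 3 967)
(mv 1096 (cons (fin 1095 1 1031)
(mv 1099 (cons (fin 1100 0 1032)
(mv 907 (cons (mv 843 (cons (fin 779 5 778)
(fin 1098 5 842)))
(cons (mv 843 (cons (fin 779 5 778)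
(mv 844 (cons (fin 780 6 779)
(fin 908 6 843)))))
(mv 844 (cons (fin 908 6 843)
(mv 1162 (cons (fin 1098 5 906)
(mv 1163 (cons (fin 1226 5 970)
(mv 1164 (cons (fin 1228 4 971)
(mv 1161 (cons (fin 1097 3 1096)
(mv 1225 (cons (fin 1224 1 1160)
(fin 1160 4 968)))))))))))))))))))))))))))))))
(cons (cons (mv 971 (cons (fin 972 1 969)
(mv 1032 (cons (fin 1031 2 967)
(mv 1035 (cons (cons (mv 967 (cons (fin 968 3 967)
(mv 1099 (cons (fin 1100 0 1032)
(mv 906 (cons (fin 1163 7 906)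
(fin 842 4 842)))))))
(mv 968 (cons (fin 967 3 967)
(mv 1095 (cons (fin 1096 1 1031)
(mv 969 (cons (cons (mv 903 (cons (fin 904 3 903)
(mv 907 (cons (fin 908 2 904)
(mv 843 (cons (fin 779 5 778)
(mv 842 (cons (fin 778 7 778)
(mv 844 (cons (fin 780 6 779)
(mv 906 (cons (fin 1097 5 841)
(mv 845 (cons (fin 905 1 841)
(fin 846 1 842)))))))))))))))
(mv 907 (cons (fin 908 2 904)
(mv 843 (cons (fin 779 5 778)
(mv 842 (cons (fin 778 7 778)
(mv 844 (cons (fin 780 6 779)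
(mv 906 (cons (fin 1097 5 841)
(mv 845 (cons (fin 905 1 841)
(fin 846 1 842))))))))))))))
(cons (mv 904 (cons (fin 903 3 903)
(mv 840 (cons (fin 776 4 776)
(fin 1097 4 840)))))
(mv 904 (cons (fin 903 3 903)
(mv 907 (cons (fin 908 2 904)
(mv 776 (cons (fin 840 4 776)
(mv 843 (cons (fin 779 5 778)
(mv 842 (cons (fin 778 7 778)
(mv 844 (cons (fin 780 6 779)
(mv 841 (cons (fin 777 3 776)
(fin 905 1 840)))))))))))))))))))))))
(cons (mv 1095 (cons (fin 1096 1 1031)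
(mv 1099 (cons (fin 1100 0 1032)
(mv 906 (cons (fin 1163 7 906)
(fin 842 4 842)))))))
(mv 1096 (cons (fin 1095 1 1031)
(mv 1099 (cons (fin 1100 0 1032)
(mv 968 (cons (fin 967 3 967)
(mv 969 (cons (mv 905 (cons (fin 841 5 840)
(fin 1160 6 904)))
(mv 904 (cons (fin 903 3 903)
(mv 840 (cons (fin 776 4 776)
(fin 1097 4 840))))))))))))))))))))
(mv 971 (cons (fin 972 1 969)
(mv 1031 (cons (fin 1032 2 967)
(mv 1097 (cons (cons (mv 906 (cons (fin 842 5 841)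
(mv 1161 (cons (fin 1098 5 905)
(fin 969 6 905)))))
(mv 1161 (cons (fin 1225 6 969)
(mv 969 (cons (cons (mv 904 (cons (fin 968 7 904)
(mv 840 (cons (fin 905 7 840)
(mv 1162 (cons (fin 1226 4 969)
(mv 1098 (cons (fin 907 6 906)
(mv 1160 (cons (fin 1224 5 968)
(mv 1159 (cons (fin 1158 2 1094)
(mv 1095 (cons (fin 1094 3 1094)
(mv 1096 (cons (fin 1030 3 1030)
(fin 1163 3 1095)))))))))))))))))
(mv 1160 (cons (fin 1224 5 968)
(mv 905 (cons (fin 1096 5 904)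
(mv 1162 (cons (fin 1098 7 905)
(fin 1226 4 969))))))))
(cons (mv 904 (cons (fin 968 7 904)
(mv 905 (cons (fin 840 7 840)
(mv 1160 (cons (fin 1096 5 904)
(fin 1224 5 968)))))))
(cons (mv 1162 (cons (fin 1226 4 969)
(mv 1098 (cons (fin 905 7 905)
(fin 907 6 906)))))
(mv 904 (cons (fin 968 7 904)
(mv 1160 (cons (fin 1224 5 968)
(mv 1162 (cons (fin 1226 4 969)
(mv 1098 (cons (fin 907 6 906)
(mv 1159 (cons (fin 1158 2 1094)
(mv 1222 (cons (fin 1223 1 1158)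
(mv 1095 (cons (fin 1094 3 1094)
(mv 1096 (cons (fin 1030 3 1030)
(fin 1163 3 1095))))))))))))))))))))))))
(cons (mv 906 (cons (fin 842 5 841)
(mv 1098 (cons (mv 907 (cons (fin 843 6 842)
(fin 1162 6 906)))
(cons (mv 905 (cons (fin 841 7 841)
(mv 903 (cons (fin 904 0 903)
(mv 969 (cons (fin 1162 7 905)
(mv 1096 (cons (fin 1160 5 904)
(mv 1095 (cons (fin 1030 3 1030)
(fin 1094 2 1030)))))))))))
(mv 905 (cons (fin 841 7 841)
(mv 843 (cons (fin 907 6 842)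
(mv 904 (cons (fin 903 0 903)
(mv 969 (cons (fin 840 7 840)
(mv 1096 (cons (fin 1160 5 904)
(mv 1095 (cons (fin 1030 3 1030)
(fin 1094 2 1030))))))))))))))))))
(cons (mv 906 (cons (fin 842 5 841)
(mv 1161 (cons (fin 969 6 905)
(fin 1225 6 969)))))
(mv 1161 (cons (fin 1225 6 969)
(mv 906 (cons (fin 842 5 841)
(fin 1098 5 905))))))))))))))
(cons (mv 971 (cons (fin 972 1 969)
(mv 1031 (cons (fin 1032 2 967)
(mv 1097 (cons (cons (mv 906 (cons (fin 842 5 841)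
(mv 1161 (cons (fin 1098 5 905)
(fin 969 6 905)))))
(mv 1161 (cons (fin 1225 6 969)
(mv 969 (cons (cons (mv 904 (cons (fin 968 7 904)
(mv 905 (cons (fin 840 7 840)
(mv 1162 (cons (fin 1098 7 905)
(fin 1226 4 969)))))))
(mv 1162 (cons (fin 1226 4 969)
(mv 905 (cons (fin 1098 7 905)
(mv 1160 (cons (fin 1096 5 904)
(fin 1224 5 968))))))))
(cons (mv 1160 (cons (fin 1224 5 968)
(mv 905 (cons (fin 1096 5 904)
(mv 904 (cons (fin 840 7 840)
(fin 968 7 904)))))))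
(mv 968 (cons (fin 904 7 904)
(mv 967 (cons (fin 1030 1 966)
(fin 966 0 966)))))))))))
(cons (mv 906 (cons (fin 842 5 841)
(mv 1098 (cons (mv 1099 (cons (fin 1100 3 1033)
(fin 1163 4 906)))
(mv 905 (cons (fin 841 7 841)
(mv 903 (cons (fin 904 0 903)
(mv 969 (cons (fin 1162 7 905)
(mv 1096 (cons (fin 1160 5 904)
(mv 1095 (cons (fin 1030 3 1030)
(fin 1094 2 1030)))))))))))))))
(cons (mv 906 (cons (fin 842 5 841)
(mv 1161 (cons (fin 969 6 905)
(fin 1225 6 969)))))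
(mv 1161 (cons (fin 1225 6 969)
(mv 906 (cons (fin 842 5 841)
(fin 1098 5 905)))))))))))))
(mv 971 (cons (fin 972 1 969)
(mv 1031 (cons (fin 1032 2 967)
(mv 1098 (cons (cons (mv 1099 (cons (fin 1100 3 1033)
(mv 907 (cons (fin 1162 6 906)
(mv 843 (cons (fin 779 5 778)
(fin 1035 5 842)))))))
(mv 1099 (cons (fin 1100 3 1033)
(mv 906 (cons (mv 842 (cons (fin 1097 5 841)
(fin 1035 4 842)))
(cons (mv 905 (cons (fin 841 7 841)
(mv 1097 (cons (fin 1161 5 905)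
(mv 904 (cons (fin 903 0 903)
(mv 843 (cons (fin 907 6 842)
(mv 969 (cons (fin 840 7 840)
(mv 1096 (cons (fin 1160 5 904)
(mv 1095 (cons (fin 1030 3 1030)
(fin 1094 2 1030)))))))))))))))
(mv 842 (cons (fin 1035 4 842)
(mv 841 (cons (fin 777 7 777)
(fin 905 7 841)))))))))))
(cons (mv 1099 (cons (fin 1100 3 1033)
(mv 906 (cons (mv 1097 (cons (fin 842 5 841)
(fin 1161 5 905)))
(cons (mv 841 (cons (fin 905 7 841)
(mv 1161 (cons (fin 1097 5 905)
(mv 1162 (cons (fin 1225 5 969)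
(mv 1226 (cons (fin 969 7 969)
(fin 1035 6 970)))))))))
(mv 842 (cons (fin 1035 4 842)
(mv 841 (cons (fin 777 7 777)
(fin 905 7 841))))))))))
(cons (mv 907 (cons (fin 1162 6 906)
(mv 843 (cons (fin 779 5 778)
(fin 1035 5 842)))))
(mv 907 (cons (fin 1162 6 906)
(mv 843 (cons (fin 779 5 778)
(fin 906 6 842)))))))))))))))))))))))
def l85 : Lem := ⟨27165970580987716998985144288908119445607812713202397476177749816067265490230980451531035449888031070390869098387061462232246522454321684257594647357784228618115755653510494155482200729556299473720618067602837807703655237236292783826206146140651703037222704721993150418180099593570348978501117115542633311819677194058864868590616576, 29013080489599298593726089049820365520215896996051688131271843818786045370895456358009566012886518387616529676716251997982025093282842455666194508641401424754287741726976501662021079070014890360347453952100881094277100938159380145323174939231721028014490108452607337722831382920863111340009299150497639304999074213573193591326424461286303113053223670198423558780921434770048854798041323284580013929588290994610100094827960991744,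 29013080489599298593726089049820365520215896996051688131271843818786045370895456358009566012886518387616529676716251997982025093282842455666194508641401424754287741726976501662021079070014890360347453952100881094277100938159380145323174939231721028014490108452607337722831382920863111340009299150497639304999074213573193591326424461286303113053223670198423558780921434770048854798041323284580013929588290994610100094827960991744, 16, 33⟩
theorem l85_valid : l85.Valid :=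
  Lem.valid_of_chk t85 t85_valid [973, 1034, 1037, 1040, 1101] c85 l85 (by decide +kernel)
end Crest.Agent.SnakyAux
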