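import Crest.Agent.S0047_aux.Checker

set_option autoImplicit false
set_option maxRecDepth 100000
namespace Crest.Agent.SnakyAux
open Cert
def t80 : Tbl := Tbl.nil
theorem t80_valid : t80.Valid := Tbl.valid_nil
def c80 : Cert :=
(mv 1100 (cons (cons (cons (mv 1164 (cons (mv 1228 (cons (fin 1036 6 972)
(fin 1292 6 1036)))
(cons (mv 1098 (cons (cons (mv 1099 (cons (fin 1033 3 1033)
(mv 1161 (cons (fin 1162 1 1097)
(mv 1097 (cons (fin 1160 1 1096)
(fin 1036 2 1033)))))))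
(cons (mv 1162 (cons (cons (mv 1161 (cons (fin 1163 2 1097)
(mv 970 (cons (fin 1225 5 969)
(mv 906 (cons (fin 1097 5 905)
(mv 905 (cons (fin 841 7 841)
(fin 969 7 905)))))))))
(cons (mv 970 (cons (cons (mv 905 (cons (fin 969 7 905)
(mv 841 (cons (fin 906 7 841)
(mv 971 (cons (fin 907 6 906)
(mv 1225 (cons (fin 1161 5 969)
(mv 1033 (cons (fin 972 1 969)
(mv 1226 (cons (fin 1289 5 1033)
(mv 1290 (cons (fin 1097 7 1033)
(mv 1291 (cons (fin 1227 4 1034)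
(fin 1355 4 1098)))))))))))))))))
(mv 1161 (cons (fin 1225 5 969)
(mv 906 (cons (fin 1097 5 905)
(mv 905 (cons (fin 841 7 841)
(fin 969 7 905))))))))
(cons (mv 907 (cons (fin 971 6 906)
(mv 906 (cons (fin 843 6 842)
(mv 1161 (cons (fin 1097 5 905)
(fin 1225 5 969)))))))
(cons (mv 905 (cons (fin 969 7 905)
(mv 906 (cons (fin 841 7 841)
(mv 971 (cons (fin 972 3 905)
(fin 907 6 906)))))))
(mv 907 (cons (fin 971 6 906)
(mv 1161 (cons (fin 1225 5 969)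
(mv 969 (cons (fin 905 7 905)
(mv 1226 (cons (fin 1033 7 969)
(mv 1291 (cons (fin 1227 4 1034)
(mv 1290 (cons (fin 1355 4 1098)
(mv 1353 (cons (fin 1289 5 1097)
(mv 1354 (cons (fin 1097 7 1097)
(fin 1417 5 1161)))))))))))))))))))))
(mv 970 (cons (cons (mv 905 (cons (fin 969 7 905)
(mv 841 (cons (fin 906 7 841)
(mv 1227 (cons (fin 1163 4 970)
(mv 971 (cons (fin 907 6 906)
(mv 1226 (cons (fin 1291 4 1034)
(mv 1289 (cons (fin 1225 5 1033)
(mv 1033 (cons (fin 972 1 969)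
(mv 1290 (cons (fin 1097 7 1033)
(fin 1353 5 1097)))))))))))))))))
(mv 1227 (cons (fin 1163 4 970)
(mv 969 (cons (fin 905 7 905)
(mv 1226 (cons (fin 1033 7 969)
(fin 1291 4 1034))))))))
(cons (mv 1227 (cons (fin 1163 4 970)
(mv 971 (cons (fin 907 6 906)
(mv 1226 (cons (fin 1291 4 1034)
(mv 1289 (cons (fin 1225 5 1033)
(mv 1033 (cons (fin 972 1 969)
(mv 1290 (cons (fin 1097 7 1033)
(fin 1353 5 1097)))))))))))))
(mv 905 (cons (fin 969 7 905)
(mv 906 (cons (fin 841 7 841)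
(mv 971 (cons (fin 972 3 905)
(fin 907 6 906))))))))))))
(cons (mv 1163 (cons (fin 1161 2 1097)
(mv 1102 (cons (fin 1103 1 1099)
(mv 1226 (cons (cons (mv 969 (cons (fin 1033 7 969)
(mv 1227 (cons (fin 1291 4 1034)
(mv 1225 (cons (fin 1224 2 1160)
(fin 1289 5 1033)))))))
(mv 1289 (cons (fin 1225 5 1033)
(mv 1033 (cons (fin 969 7 969)
(mv 1290 (cons (fin 1097 7 1033)
(fin 1353 5 1097))))))))
(cons (mv 1227 (cons (fin 1291 4 1034)
(mv 972 (cons (fin 1036 5 971)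
(mv 1033 (cons (fin 969 7 969)
(mv 1290 (cons (fin 1097 7 1033)
(mv 1353 (cons (fin 1289 5 1097)
(mv 1354 (cons (fin 1417 5 1161)
(fin 1418 6 1162)))))))))))))
(cons (mv 1225 (cons (fin 1289 5 1033)
(mv 1227 (cons (fin 1224 2 1160)
(fin 1291 4 1034)))))
(mv 1291 (cons (fin 1227 4 1034)
(mv 1033 (cons (fin 969 7 969)
(mv 1290 (cons (fin 1097 7 1033)
(fin 1355 4 1098)))))))))))))))
(cons (mv 1163 (cons (fin 1161 2 1097)
(mv 1102 (cons (fin 1103 1 1099)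
(mv 970 (cons (fin 1227 4 970)
(mv 907 (cons (fin 971 6 906)
(mv 906 (cons (fin 843 6 842)
(mv 905 (cons (fin 841 7 841)
(fin 969 7 905)))))))))))))
(mv 1161 (cons (fin 1163 2 1097)
(mv 970 (cons (fin 1225 5 969)
(mv 906 (cons (fin 1097 5 905)
(mv 907 (cons (fin 843 6 842)
(fin 971 6 906)))))))))))))
(mv 1162 (cons (cons (mv 1161 (cons (fin 1099 1 1097)
(fin 1163 2 1097)))
(mv 1163 (cons (mv 1102 (cons (fin 1099 1 1098)
(fin 1103 1 1099)))
(cons (mv 970 (cons (fin 1227 4 970)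
(mv 906 (cons (fin 1099 4 906)
(mv 907 (cons (fin 843 6 842)
(fin 971 6 906)))))))
(mv 970 (cons (fin 1227 4 970)
(mv 907 (cons (fin 971 6 906)
(mv 906 (cons (fin 843 6 842)
(mv 905 (cons (fin 841 7 841)
(fin 969 7 905)))))))))))))
(cons (mv 1161 (cons (fin 1099 1 1097)
(mv 970 (cons (fin 1225 5 969)
(mv 906 (cons (fin 1097 5 905)
(mv 905 (cons (fin 841 7 841)
(fin 969 7 905)))))))))
(mv 1161 (cons (fin 1163 2 1097)
(mv 970 (cons (fin 1225 5 969)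
(mv 906 (cons (fin 1097 5 905)
(mv 905 (cons (fin 841 7 841)
(fin 969 7 905))))))))))))))
(cons (mv 1099 (cons (fin 1033 3 1033)
(mv 1097 (cons (fin 1036 2 1033)
(mv 1160 (cons (fin 1161 1 1096)
(mv 1096 (cons (fin 1159 1 1095)
(fin 1163 0 1096)))))))))
(cons (mv 1099 (cons (fin 1033 3 1033)
(mv 1097 (cons (fin 1036 2 1033)
(mv 1096 (cons (fin 1163 0 1096)
(mv 1159 (cons (fin 1160 1 1095)
(mv 1095 (cons (fin 1158 1 1094)
(mv 1031 (cons (fin 1030 3 1030)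
(fin 1032 3 1031)))))))))))))
(mv 1099 (cons (fin 1033 3 1033)
(mv 1162 (cons (fin 1161 1 1097)
(mv 1102 (cons (fin 1163 1 1098)
(mv 1167 (cons (fin 1166 0 1099)
(mv 1103 (cons (fin 1039 2 1036)
(fin 1168 0 1100)))))))))))))))
(mv 1228 (cons (fin 1292 6 1036)
(mv 1162 (cons (cons (mv 1161 (cons (fin 1163 2 1097)
(mv 1098 (cons (fin 1099 1 1097)
(mv 970 (cons (fin 1225 5 969)
(mv 906 (cons (fin 1097 5 905)
(mv 905 (cons (fin 841 7 841)
(fin 969 7 905)))))))))))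
(mv 1098 (cons (cons (mv 1099 (cons (fin 1033 3 1033)
(fin 1161 1 1097)))
(mv 1226 (cons (cons (mv 969 (cons (fin 1033 7 969)
(mv 905 (cons (fin 970 7 905)
(mv 1227 (cons (fin 1291 4 1034)
(mv 1161 (cons (fin 1229 3 1161)
(mv 1225 (cons (fin 1160 3 1160)
(fin 1289 5 1033)))))))))))
(mv 1225 (cons (fin 1289 5 1033)
(mv 970 (cons (fin 1161 5 969)
(mv 969 (cons (fin 905 7 905)
(fin 1033 7 969))))))))
(cons (mv 969 (cons (fin 1033 7 969)
(mv 905 (cons (fin 970 7 905)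
(mv 1227 (cons (fin 1291 4 1034)
(mv 1229 (cons (fin 1161 3 1161)
(mv 1289 (cons (fin 1290 1 1225)
(mv 1294 (cons (fin 1293 0 1226)
(mv 1230 (cons (fin 1295 0 1227)
(mv 1166 (cons (fin 1167 2 1163)
(fin 1102 7 1037)))))))))))))))))
(cons (mv 1227 (cons (fin 1291 4 1034)
(mv 1161 (cons (fin 1229 3 1161)
(mv 1160 (cons (fin 1225 3 1160)
(fin 1159 0 1159)))))))
(mv 969 (cons (fin 1033 7 969)
(mv 905 (cons (fin 970 7 905)
(mv 1289 (cons (fin 1225 5 1033)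
(mv 1227 (cons (fin 1291 4 1034)
(mv 1290 (cons (fin 1229 1 1225)
(fin 1353 5 1097))))))))))))))))
(cons (mv 1033 (cons (fin 1099 3 1033)
(mv 969 (cons (fin 1226 7 969)
(mv 905 (cons (fin 970 7 905)
(fin 841 4 841)))))))
(mv 1161 (cons (fin 1099 1 1097)
(mv 970 (cons (fin 1225 5 969)
(mv 906 (cons (fin 1097 5 905)
(mv 905 (cons (fin 841 7 841)
(fin 969 7 905)))))))))))))
(cons (mv 1098 (cons (cons (mv 1033 (cons (fin 1099 3 1033)
(mv 969 (cons (fin 1226 7 969)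
(mv 905 (cons (fin 970 7 905)
(fin 841 4 841)))))))
(mv 1163 (cons (mv 1102 (cons (fin 1099 1 1098)
(fin 1103 1 1099)))
(cons (mv 970 (cons (fin 1227 4 970)
(mv 906 (cons (fin 1099 4 906)
(mv 907 (cons (fin 843 6 842)
(fin 971 6 906)))))))
(mv 970 (cons (fin 1227 4 970)
(mv 907 (cons (fin 971 6 906)
(mv 906 (cons (fin 843 6 842)
(mv 905 (cons (fin 841 7 841)
(fin 969 7 905)))))))))))))
(cons (mv 1226 (cons (cons (mv 969 (cons (fin 1033 7 969)
(mv 905 (cons (fin 970 7 905)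
(mv 1227 (cons (fin 1291 4 1034)
(mv 1225 (cons (fin 1289 5 1033)
(mv 1224 (cons (fin 1163 2 1160)
(mv 1287 (cons (fin 1288 1 1223)
(mv 1223 (cons (fin 1286 1 1222)
(mv 1159 (cons (fin 1158 3 1158)
(fin 1160 3 1159)))))))))))))))))
(mv 1289 (cons (fin 1225 5 1033)
(mv 1033 (cons (fin 969 7 969)
(mv 1290 (cons (fin 1097 7 1033)
(fin 1353 5 1097))))))))
(cons (mv 1225 (cons (fin 1289 5 1033)
(mv 1227 (cons (fin 1291 4 1034)
(mv 1163 (cons (fin 1224 2 1160)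
(fin 970 4 970)))))))
(mv 1227 (cons (fin 1291 4 1034)
(mv 970 (cons (fin 1163 4 970)
(mv 969 (cons (fin 905 7 905)
(fin 1033 7 969))))))))))
(cons (mv 1033 (cons (fin 1099 3 1033)
(mv 969 (cons (fin 1226 7 969)
(mv 905 (cons (fin 841 4 841)
(fin 1097 4 905)))))))
(mv 1099 (cons (fin 1033 3 1033)
(mv 1102 (cons (fin 1163 1 1098)
(mv 1167 (cons (fin 1166 0 1099)
(mv 1103 (cons (fin 1039 2 1036)
(fin 1168 0 1100)))))))))))))
(cons (mv 1161 (cons (fin 1163 2 1097)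
(mv 1098 (cons (cons (mv 970 (cons (fin 1225 5 969)
(mv 906 (cons (fin 1097 5 905)
(mv 905 (cons (fin 841 7 841)
(fin 969 7 905)))))))
(mv 1226 (cons (mv 1227 (cons (fin 1229 3 1161)
(fin 1291 4 1034)))
(cons (mv 1225 (cons (fin 1289 5 1033)
(mv 1033 (cons (fin 969 7 969)
(mv 1290 (cons (fin 1097 7 1033)
(mv 1354 (cons (fin 1418 7 1161)
(mv 1355 (cons (fin 1291 4 1098)
(fin 1419 4 1162)))))))))))
(mv 969 (cons (fin 1033 7 969)
(mv 1227 (cons (fin 1229 3 1161)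
(mv 1225 (cons (fin 1160 3 1160)
(fin 1289 5 1033)))))))))))
(cons (mv 1226 (cons (mv 1227 (cons (fin 1229 3 1161)
(fin 1291 4 1034)))
(mv 969 (cons (fin 1033 7 969)
(mv 970 (cons (fin 905 7 905)
(mv 906 (cons (fin 1097 5 905)
(mv 907 (cons (fin 843 6 842)
(fin 971 6 906)))))))))))
(cons (mv 970 (cons (fin 1225 5 969)
(mv 905 (cons (fin 969 7 905)
(mv 906 (cons (fin 841 7 841)
(mv 971 (cons (fin 972 3 905)
(fin 907 6 906)))))))))
(mv 970 (cons (fin 1225 5 969)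
(mv 906 (cons (fin 1097 5 905)
(mv 907 (cons (fin 843 6 842)
(fin 971 6 906)))))))))))))
(mv 1163 (cons (fin 1161 2 1097)
(mv 1102 (cons (fin 1099 1 1098)
(fin 1103 1 1099))))))))))))))
(mv 1103 (cons (cons (mv 1102 (cons (fin 1039 2 1036)
(mv 1036 (cons (fin 1104 3 1036)
(mv 1167 (cons (fin 1168 0 1100)
(mv 1099 (cons (fin 1166 0 1099)
(mv 1098 (cons (fin 1033 3 1033)
(fin 1097 2 1033)))))))))))
(cons (mv 1039 (cons (cons (mv 911 (cons (cons (mv 1104 (cons (fin 847 4 847)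
(fin 1168 4 911)))
(mv 846 (cons (fin 910 7 846)
(mv 782 (cons (fin 847 7 782)
(mv 912 (cons (fin 848 6 847)
(mv 1167 (cons (fin 976 6 911)
(mv 1230 (cons (fin 1166 5 974)
(mv 1232 (cons (fin 1168 4 975)
(mv 1231 (cons (fin 1294 5 1038)
(fin 1296 4 1039))))))))))))))))
(cons (mv 848 (cons (fin 912 6 847)
(mv 1168 (cons (fin 1104 4 911)
(mv 846 (cons (fin 910 7 846)
(mv 1167 (cons (fin 1232 4 975)
(mv 1231 (cons (fin 976 6 975)
(mv 1230 (cons (fin 1166 5 974)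
(fin 1294 5 1038)))))))))))))
(mv 847 (cons (fin 1104 4 847)
(mv 846 (cons (fin 782 7 782)
(fin 910 7 846))))))))
(cons (mv 1167 (cons (mv 976 (cons (fin 912 6 911)
(fin 1231 6 975)))
(cons (mv 1230 (cons (fin 1166 5 974)
(mv 1232 (cons (fin 1168 4 975)
(mv 1231 (cons (fin 1294 5 1038)
(fin 1296 4 1039)))))))
(mv 1168 (cons (fin 1232 4 975)
(mv 976 (cons (fin 912 6 911)
(mv 1166 (cons (fin 1230 5 974)
(mv 1169 (cons (cons (mv 1233 (cons (fin 1234 0 1166)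
(fin 1104 4 976)))
(mv 1106 (cons (fin 1105 2 1102)
(mv 1170 (cons (fin 1107 2 1103)
(mv 1171 (cons (fin 1104 3 1103)
(mv 1235 (cons (fin 1234 0 1167)
(fin 1236 0 1168))))))))))
(cons (mv 1106 (cons (fin 1105 2 1102)
(mv 1234 (cons (fin 1233 0 1166)
(mv 1170 (cons (fin 1107 2 1103)
(fin 1235 0 1167)))))))
(mv 1106 (cons (fin 1105 2 1102)
(mv 1104 (cons (fin 1233 4 976)
(mv 1170 (cons (fin 1171 3 1103)
(fin 1107 2 1103)))))))))))))))))))
(mv 911 (cons (mv 1104 (cons (fin 847 4 847)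
(fin 1168 4 911)))
(cons (mv 846 (cons (fin 910 7 846)
(mv 847 (cons (fin 782 7 782)
(mv 848 (cons (fin 784 6 783)
(fin 912 6 847)))))))
(mv 910 (cons (fin 846 7 846)
(mv 1104 (cons (fin 1168 4 911)
(mv 912 (cons (fin 848 6 847)
(mv 913 (cons (cons (mv 849 (cons (fin 850 2 846)
(fin 976 6 848)))
(mv 978 (cons (fin 977 0 910)
(mv 914 (cons (fin 979 0 911)
(mv 851 (cons (fin 850 2 847)
(mv 915 (cons (fin 976 1 911)
(fin 852 2 848))))))))))
(cons (mv 978 (cons (fin 977 0 910)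
(mv 850 (cons (fin 849 2 846)
(mv 914 (cons (fin 851 2 847)
(fin 979 0 911)))))))
(mv 978 (cons (fin 977 0 910)
(mv 976 (cons (fin 849 6 848)
(mv 914 (cons (fin 915 1 911)
(fin 979 0 911)))))))))))))))))))))
(cons (cons (mv 911 (cons (mv 1104 (cons (fin 847 4 847)
(fin 1168 4 911)))
(cons (mv 846 (cons (fin 910 7 846)
(mv 847 (cons (fin 782 7 782)
(mv 848 (cons (fin 784 6 783)
(fin 912 6 847)))))))
(mv 848 (cons (fin 912 6 847)
(mv 846 (cons (fin 910 7 846)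
(mv 1167 (cons (cons (mv 1168 (cons (fin 1104 4 911)
(fin 1232 4 975)))
(mv 1230 (cons (fin 1166 5 974)
(mv 1231 (cons (fin 1294 5 1038)
(mv 1295 (cons (fin 1104 6 1039)
(mv 1296 (cons (fin 1232 4 1039)
(fin 1360 4 1103))))))))))
(cons (mv 1230 (cons (fin 1166 5 974)
(mv 1232 (cons (fin 1168 4 975)
(mv 1231 (cons (fin 1294 5 1038)
(fin 1296 4 1039)))))))
(mv 1230 (cons (fin 1166 5 974)
(mv 1104 (cons (fin 1168 4 911)
(mv 1231 (cons (fin 1294 5 1038)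
(fin 1295 6 1039)))))))))))))))))
(mv 1167 (cons (mv 976 (cons (fin 912 6 911)
(fin 1231 6 975)))
(cons (mv 1230 (cons (fin 1166 5 974)
(mv 1232 (cons (fin 1168 4 975)
(mv 1231 (cons (fin 1294 5 1038)
(fin 1296 4 1039)))))))
(mv 1168 (cons (fin 1232 4 975)
(mv 1166 (cons (fin 1230 5 974)
(mv 911 (cons (cons (mv 912 (cons (fin 848 6 847)
(fin 976 6 911)))
(mv 846 (cons (fin 910 7 846)
(mv 847 (cons (fin 782 7 782)
(mv 784 (cons (fin 848 6 783)
(mv 783 (cons (fin 720 6 719)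
(fin 976 4 783))))))))))
(cons (mv 846 (cons (fin 910 7 846)
(mv 847 (cons (fin 782 7 782)
(mv 848 (cons (fin 784 6 783)
(fin 912 6 847)))))))
(mv 976 (cons (fin 912 6 911)
(mv 846 (cons (fin 910 7 846)
(mv 847 (cons (fin 782 7 782)
(fin 783 4 783))))))))))))))))))
(cons (mv 911 (cons (mv 1104 (cons (fin 847 4 847)
(fin 1168 4 911)))
(cons (mv 846 (cons (fin 910 7 846)
(mv 847 (cons (fin 782 7 782)
(mv 784 (cons (fin 848 6 783)
(mv 783 (cons (fin 720 6 719)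
(fin 976 4 783)))))))))
(mv 846 (cons (fin 910 7 846)
(mv 1168 (cons (fin 1104 4 911)
(mv 1167 (cons (fin 1232 4 975)
(mv 1231 (cons (fin 976 6 975)
(mv 1230 (cons (fin 1166 5 974)
(fin 1294 5 1038))))))))))))))
(mv 1167 (cons (mv 976 (cons (fin 912 6 911)
(fin 1231 6 975)))
(cons (mv 1230 (cons (fin 1166 5 974)
(mv 1231 (cons (fin 1294 5 1038)
(mv 1295 (cons (fin 1104 6 1039)
(mv 1296 (cons (fin 1232 4 1039)
(fin 1360 4 1103)))))))))
(mv 1166 (cons (fin 1230 5 974)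
(mv 912 (cons (fin 976 6 911)
(mv 911 (cons (fin 848 6 847)
(mv 846 (cons (fin 910 7 846)
(mv 847 (cons (fin 782 7 782)
(fin 1104 4 847))))))))))))))))))
(mv 1098 (cons (cons (mv 1099 (cons (fin 1033 3 1033)
(mv 1161 (cons (fin 1162 1 1097)
(mv 1097 (cons (fin 1160 1 1096)
(fin 1036 2 1033)))))))
(mv 970 (cons (cons (cons (mv 1162 (cons (cons (mv 905 (cons (fin 969 7 905)
(mv 841 (cons (fin 906 7 841)
(mv 1227 (cons (fin 1163 4 970)
(mv 907 (cons (fin 971 6 906)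
(mv 1226 (cons (fin 1291 4 1034)
(mv 1225 (cons (fin 1161 5 969)
(fin 1289 5 1033)))))))))))))
(mv 1161 (cons (fin 1225 5 969)
(mv 906 (cons (fin 1097 5 905)
(mv 907 (cons (fin 843 6 842)
(fin 971 6 906))))))))
(cons (mv 905 (cons (fin 969 7 905)
(mv 841 (cons (fin 906 7 841)
(mv 1225 (cons (fin 1161 5 969)
(mv 1227 (cons (fin 1163 4 970)
(mv 1226 (cons (fin 1289 5 1033)
(fin 1291 4 1034)))))))))))
(cons (mv 907 (cons (fin 971 6 906)
(mv 843 (cons (fin 906 6 842)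
(mv 969 (cons (fin 905 7 905)
(mv 1227 (cons (fin 1163 4 970)
(mv 1226 (cons (fin 1033 7 969)
(fin 1291 4 1034)))))))))))
(mv 905 (cons (fin 969 7 905)
(mv 1225 (cons (fin 1161 5 969)
(mv 907 (cons (fin 971 6 906)
(mv 1226 (cons (fin 1289 5 1033)
(mv 1227 (cons (fin 1163 4 970)
(fin 1291 4 1034)))))))))))))))
(mv 906 (cons (cons (mv 841 (cons (fin 905 7 841)
(mv 842 (cons (fin 777 7 777)
(mv 1097 (cons (fin 1033 5 841)
(fin 1161 5 905)))))))
(mv 843 (cons (fin 907 6 842)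
(mv 842 (cons (fin 779 6 778)
(mv 1097 (cons (fin 1033 5 841)
(fin 1161 5 905))))))))
(cons (mv 841 (cons (fin 905 7 841)
(mv 842 (cons (fin 777 7 777)
(mv 843 (cons (fin 779 6 778)
(fin 907 6 842)))))))
(mv 907 (cons (fin 843 6 842)
(mv 1097 (cons (fin 1161 5 905)
(mv 905 (cons (fin 841 7 841)
(mv 972 (cons (fin 971 3 905)
(fin 908 0 905)))))))))))))
(cons (mv 1162 (cons (cons (mv 905 (cons (fin 969 7 905)
(mv 1225 (cons (fin 1161 5 969)
(mv 907 (cons (fin 971 6 906)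
(mv 1226 (cons (fin 1289 5 1033)
(mv 1227 (cons (fin 1163 4 970)
(fin 1291 4 1034)))))))))))
(mv 1227 (cons (fin 1163 4 970)
(mv 907 (cons (fin 971 6 906)
(mv 1226 (cons (fin 1291 4 1034)
(mv 1225 (cons (fin 1161 5 969)
(fin 1289 5 1033))))))))))
(cons (mv 1161 (cons (fin 1225 5 969)
(mv 969 (cons (fin 905 7 905)
(mv 1227 (cons (fin 1163 4 970)
(mv 1226 (cons (fin 1033 7 969)
(fin 1291 4 1034)))))))))
(cons (mv 969 (cons (fin 905 7 905)
(mv 907 (cons (fin 971 6 906)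
(mv 1226 (cons (fin 1033 7 969)
(mv 1227 (cons (fin 1163 4 970)
(fin 1291 4 1034)))))))))
(mv 1161 (cons (fin 1225 5 969)
(mv 971 (cons (fin 907 6 906)
(mv 969 (cons (fin 905 7 905)
(mv 972 (cons (fin 1033 1 969)
(fin 1036 0 969)))))))))))))
(mv 906 (cons (cons (mv 841 (cons (fin 905 7 841)
(mv 842 (cons (fin 777 7 777)
(mv 1097 (cons (fin 1033 5 841)
(fin 1161 5 905)))))))
(mv 843 (cons (fin 907 6 842)
(mv 842 (cons (fin 779 6 778)
(mv 1097 (cons (fin 1033 5 841)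
(fin 1161 5 905))))))))
(cons (mv 841 (cons (fin 905 7 841)
(mv 842 (cons (fin 777 7 777)
(mv 843 (cons (fin 779 6 778)
(fin 907 6 842)))))))
(mv 843 (cons (fin 907 6 842)
(mv 1097 (cons (fin 1161 5 905)
(mv 905 (cons (fin 841 7 841)
(mv 1162 (cons (fin 969 7 905)
(mv 1227 (cons (fin 1163 4 970)
(mv 1226 (cons (fin 1291 4 1034)
(mv 1289 (cons (fin 1225 5 1033)
(mv 1290 (cons (fin 1033 7 1033)
(fin 1353 5 1097))))))))))))))))))))))
(cons (cons (mv 1162 (cons (cons (mv 1161 (cons (fin 1225 5 969)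
(mv 906 (cons (fin 1097 5 905)
(mv 907 (cons (fin 843 6 842)
(fin 971 6 906)))))))
(mv 1163 (cons (fin 1227 4 970)
(mv 971 (cons (fin 907 6 906)
(mv 1033 (cons (fin 972 1 969)
(mv 1031 (cons (fin 1032 2 967)
(mv 1226 (cons (fin 969 7 969)
(mv 1290 (cons (fin 1097 7 1033)
(mv 1289 (cons (fin 1225 5 1033)
(fin 1353 5 1097))))))))))))))))
(cons (mv 1161 (cons (fin 1225 5 969)
(mv 1097 (cons (fin 906 5 905)
(mv 1227 (cons (fin 1163 4 970)
(mv 1226 (cons (fin 1291 4 1034)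
(mv 1033 (cons (fin 969 7 969)
(fin 1290 7 1033)))))))))))
(cons (mv 1163 (cons (fin 1227 4 970)
(mv 907 (cons (fin 971 6 906)
(mv 906 (cons (fin 843 6 842)
(mv 1097 (cons (fin 1161 5 905)
(mv 1033 (cons (fin 842 5 841)
(mv 1226 (cons (fin 969 7 969)
(fin 1290 7 1033)))))))))))))
(mv 907 (cons (fin 971 6 906)
(mv 843 (cons (fin 906 6 842)
(mv 1225 (cons (fin 1161 5 969)
(mv 1227 (cons (fin 1163 4 970)
(mv 1226 (cons (fin 1289 5 1033)
(fin 1291 4 1034)))))))))))))))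
(mv 1162 (cons (cons (mv 907 (cons (fin 971 6 906)
(mv 843 (cons (fin 906 6 842)
(mv 969 (cons (fin 905 7 905)
(mv 1227 (cons (fin 1163 4 970)
(mv 1226 (cons (fin 1033 7 969)
(fin 1291 4 1034)))))))))))
(mv 1227 (cons (fin 1163 4 970)
(mv 971 (cons (fin 907 6 906)
(mv 1226 (cons (fin 1291 4 1034)
(mv 1289 (cons (fin 1225 5 1033)
(mv 1033 (cons (fin 972 1 969)
(mv 1290 (cons (fin 1097 7 1033)
(fin 1353 5 1097))))))))))))))
(cons (mv 1227 (cons (fin 1163 4 970)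
(mv 969 (cons (fin 905 7 905)
(mv 1226 (cons (fin 1033 7 969)
(fin 1291 4 1034)))))))
(mv 907 (cons (fin 971 6 906)
(mv 906 (cons (fin 843 6 842)
(mv 905 (cons (fin 841 7 841)
(fin 969 7 905)))))))))))
(cons (mv 1162 (cons (cons (mv 905 (cons (fin 969 7 905)
(mv 841 (cons (fin 906 7 841)
(mv 1227 (cons (fin 1163 4 970)
(mv 1225 (cons (fin 1161 5 969)
(mv 1226 (cons (fin 1289 5 1033)
(fin 1291 4 1034)))))))))))
(mv 1227 (cons (fin 1163 4 970)
(mv 1161 (cons (fin 1225 5 969)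
(mv 1097 (cons (fin 906 5 905)
(mv 1226 (cons (fin 1291 4 1034)
(mv 1290 (cons (fin 1033 7 1033)
(fin 1354 7 1097))))))))))))
(cons (mv 1227 (cons (fin 1163 4 970)
(mv 969 (cons (fin 905 7 905)
(mv 1226 (cons (fin 1033 7 969)
(fin 1291 4 1034)))))))
(mv 1161 (cons (fin 1225 5 969)
(mv 906 (cons (fin 1097 5 905)
(mv 905 (cons (fin 841 7 841)
(fin 969 7 905))))))))))
(mv 1162 (cons (cons (mv 905 (cons (fin 969 7 905)
(mv 841 (cons (fin 906 7 841)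
(mv 1227 (cons (fin 1163 4 970)
(mv 907 (cons (fin 971 6 906)
(mv 1226 (cons (fin 1291 4 1034)
(mv 1225 (cons (fin 1161 5 969)
(fin 1289 5 1033)))))))))))))
(mv 905 (cons (fin 969 7 905)
(mv 906 (cons (fin 841 7 841)
(mv 971 (cons (fin 972 3 905)
(fin 907 6 906))))))))
(cons (mv 907 (cons (fin 971 6 906)
(mv 843 (cons (fin 906 6 842)
(mv 1225 (cons (fin 1161 5 969)
(mv 1227 (cons (fin 1163 4 970)
(mv 1226 (cons (fin 1289 5 1033)
(fin 1291 4 1034)))))))))))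
(cons (mv 1161 (cons (fin 1225 5 969)
(mv 906 (cons (fin 1097 5 905)
(mv 905 (cons (fin 841 7 841)
(fin 969 7 905)))))))
(mv 905 (cons (fin 969 7 905)
(mv 907 (cons (fin 971 6 906)
(mv 1225 (cons (fin 1161 5 969)
(mv 1227 (cons (fin 1163 4 970)
(mv 1226 (cons (fin 1289 5 1033)
(fin 1291 4 1034))))))))))))))))))))
(cons (mv 1099 (cons (mv 1161 (cons (fin 1162 1 1097)
(mv 1097 (cons (fin 1160 1 1096)
(fin 1036 2 1033)))))
(cons (mv 1036 (cons (fin 1097 2 1033)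
(mv 1102 (cons (fin 1104 3 1036)
(mv 1167 (cons (fin 1166 0 1099)
(fin 1168 0 1100)))))))
(mv 1162 (cons (fin 1161 1 1097)
(mv 1102 (cons (fin 1163 1 1098)
(mv 1167 (cons (fin 1166 0 1099)
(fin 1168 0 1100))))))))))
(cons (mv 1099 (cons (fin 1033 3 1033)
(mv 1162 (cons (fin 1161 1 1097)
(mv 1102 (cons (fin 1163 1 1098)
(mv 1167 (cons (fin 1166 0 1099)
(fin 1168 0 1100)))))))))
(mv 1099 (cons (fin 1033 3 1033)
(mv 1036 (cons (fin 1097 2 1033)
(mv 1102 (cons (fin 1104 3 1036)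
(mv 1167 (cons (fin 1166 0 1099)
(fin 1168 0 1100)))))))))))))))
(cons (mv 1102 (cons (fin 1039 2 1036)
(mv 1167 (cons (fin 1168 0 1100)
(mv 1099 (cons (fin 1166 0 1099)
(mv 1162 (cons (fin 1163 1 1098)
(mv 1098 (cons (fin 1033 3 1033)
(fin 1161 1 1097)))))))))))
(cons (mv 1039 (cons (fin 1102 2 1036)
(mv 911 (cons (mv 1104 (cons (fin 847 4 847)
(fin 1168 4 911)))
(cons (mv 846 (cons (fin 910 7 846)
(mv 847 (cons (fin 782 7 782)
(mv 848 (cons (fin 784 6 783)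
(fin 912 6 847)))))))
(mv 910 (cons (fin 846 7 846)
(mv 1104 (cons (fin 1168 4 911)
(mv 912 (cons (fin 848 6 847)
(mv 913 (cons (cons (mv 849 (cons (fin 850 2 846)
(fin 976 6 848)))
(mv 978 (cons (fin 977 0 910)
(mv 914 (cons (fin 979 0 911)
(mv 851 (cons (fin 850 2 847)
(mv 915 (cons (fin 976 1 911)
(fin 852 2 848))))))))))
(cons (mv 978 (cons (fin 977 0 910)
(mv 850 (cons (fin 849 2 846)
(mv 914 (cons (fin 851 2 847)
(fin 979 0 911)))))))
(mv 978 (cons (fin 977 0 910)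
(mv 976 (cons (fin 849 6 848)
(mv 914 (cons (fin 915 1 911)
(fin 979 0 911)))))))))))))))))))))
(mv 1039 (cons (fin 1102 2 1036)
(mv 1167 (cons (mv 976 (cons (fin 912 6 911)
(fin 1231 6 975)))
(cons (mv 1230 (cons (fin 1166 5 974)
(mv 1231 (cons (fin 1294 5 1038)
(mv 1295 (cons (fin 1104 6 1039)
(mv 1296 (cons (fin 1232 4 1039)
(fin 1360 4 1103)))))))))
(mv 1166 (cons (fin 1230 5 974)
(mv 912 (cons (fin 976 6 911)
(mv 911 (cons (fin 848 6 847)
(mv 846 (cons (fin 910 7 846)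
(mv 847 (cons (fin 782 7 782)
(fin 1104 4 847)))))))))))))))))))))
(cons (mv 1098 (cons (cons (mv 1099 (cons (fin 1033 3 1033)
(mv 1161 (cons (fin 1162 1 1097)
(mv 1097 (cons (fin 1160 1 1096)
(fin 1036 2 1033)))))))
(mv 1164 (cons (mv 1228 (cons (fin 1036 6 972)
(fin 1292 6 1036)))
(cons (mv 1162 (cons (cons (mv 1161 (cons (fin 1163 2 1097)
(mv 970 (cons (fin 1225 5 969)
(mv 906 (cons (fin 1097 5 905)
(mv 905 (cons (fin 841 7 841)
(fin 969 7 905)))))))))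
(cons (mv 970 (cons (cons (mv 905 (cons (fin 969 7 905)
(mv 841 (cons (fin 906 7 841)
(mv 971 (cons (fin 907 6 906)
(mv 1225 (cons (fin 1161 5 969)
(mv 1033 (cons (fin 972 1 969)
(mv 1226 (cons (fin 1289 5 1033)
(mv 1290 (cons (fin 1097 7 1033)
(mv 1291 (cons (fin 1227 4 1034)
(fin 1355 4 1098)))))))))))))))))
(mv 1161 (cons (fin 1225 5 969)
(mv 906 (cons (fin 1097 5 905)
(mv 905 (cons (fin 841 7 841)
(fin 969 7 905))))))))
(cons (mv 907 (cons (fin 971 6 906)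
(mv 906 (cons (fin 843 6 842)
(mv 1161 (cons (fin 1097 5 905)
(fin 1225 5 969)))))))
(cons (mv 905 (cons (fin 969 7 905)
(mv 906 (cons (fin 841 7 841)
(mv 971 (cons (fin 972 3 905)
(fin 907 6 906)))))))
(mv 907 (cons (fin 971 6 906)
(mv 1161 (cons (fin 1225 5 969)
(mv 969 (cons (fin 905 7 905)
(mv 1226 (cons (fin 1033 7 969)
(mv 1291 (cons (fin 1227 4 1034)
(mv 1290 (cons (fin 1355 4 1098)
(mv 1353 (cons (fin 1289 5 1097)
(mv 1354 (cons (fin 1097 7 1097)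
(fin 1417 5 1161)))))))))))))))))))))
(mv 970 (cons (cons (mv 905 (cons (fin 969 7 905)
(mv 841 (cons (fin 906 7 841)
(mv 1227 (cons (fin 1163 4 970)
(mv 971 (cons (fin 907 6 906)
(mv 1226 (cons (fin 1291 4 1034)
(mv 1289 (cons (fin 1225 5 1033)
(mv 1033 (cons (fin 972 1 969)
(mv 1290 (cons (fin 1097 7 1033)
(fin 1353 5 1097)))))))))))))))))
(mv 1227 (cons (fin 1163 4 970)
(mv 969 (cons (fin 905 7 905)
(mv 1226 (cons (fin 1033 7 969)
(fin 1291 4 1034))))))))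
(cons (mv 1227 (cons (fin 1163 4 970)
(mv 971 (cons (fin 907 6 906)
(mv 1226 (cons (fin 1291 4 1034)
(mv 1289 (cons (fin 1225 5 1033)
(mv 1033 (cons (fin 972 1 969)
(mv 1290 (cons (fin 1097 7 1033)
(fin 1353 5 1097)))))))))))))
(mv 905 (cons (fin 969 7 905)
(mv 906 (cons (fin 841 7 841)
(mv 971 (cons (fin 972 3 905)
(fin 907 6 906))))))))))))
(cons (mv 1163 (cons (fin 1161 2 1097)
(mv 1226 (cons (cons (mv 969 (cons (fin 1033 7 969)
(mv 1227 (cons (fin 1291 4 1034)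
(mv 1225 (cons (fin 1224 2 1160)
(fin 1289 5 1033)))))))
(mv 1289 (cons (fin 1225 5 1033)
(mv 1033 (cons (fin 969 7 969)
(mv 1290 (cons (fin 1097 7 1033)
(fin 1353 5 1097))))))))
(cons (mv 1227 (cons (fin 1291 4 1034)
(mv 972 (cons (fin 1036 5 971)
(mv 1033 (cons (fin 969 7 969)
(mv 1290 (cons (fin 1097 7 1033)
(mv 1353 (cons (fin 1289 5 1097)
(mv 1354 (cons (fin 1417 5 1161)
(fin 1418 6 1162)))))))))))))
(cons (mv 1225 (cons (fin 1289 5 1033)
(mv 1227 (cons (fin 1224 2 1160)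
(fin 1291 4 1034)))))
(mv 1291 (cons (fin 1227 4 1034)
(mv 1033 (cons (fin 969 7 969)
(mv 1290 (cons (fin 1097 7 1033)
(fin 1355 4 1098)))))))))))))
(cons (mv 1163 (cons (fin 1161 2 1097)
(mv 970 (cons (fin 1227 4 970)
(mv 907 (cons (fin 971 6 906)
(mv 906 (cons (fin 843 6 842)
(mv 905 (cons (fin 841 7 841)
(fin 969 7 905)))))))))))
(mv 1161 (cons (fin 1163 2 1097)
(mv 970 (cons (fin 1225 5 969)
(mv 906 (cons (fin 1097 5 905)
(mv 907 (cons (fin 843 6 842)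
(fin 971 6 906)))))))))))))
(mv 1228 (cons (fin 1292 6 1036)
(mv 1162 (cons (cons (mv 1161 (cons (fin 1163 2 1097)
(mv 970 (cons (fin 1225 5 969)
(mv 906 (cons (fin 1097 5 905)
(mv 905 (cons (fin 841 7 841)
(fin 969 7 905)))))))))
(cons (mv 1226 (cons (cons (mv 969 (cons (fin 1033 7 969)
(mv 905 (cons (fin 970 7 905)
(mv 1227 (cons (fin 1291 4 1034)
(mv 1161 (cons (fin 1229 3 1161)
(mv 1225 (cons (fin 1160 3 1160)
(fin 1289 5 1033)))))))))))
(cons (mv 1225 (cons (fin 1289 5 1033)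
(mv 970 (cons (fin 1161 5 969)
(mv 969 (cons (fin 905 7 905)
(fin 1033 7 969)))))))
(mv 969 (cons (fin 1033 7 969)
(mv 970 (cons (fin 905 7 905)
(mv 1227 (cons (fin 1291 4 1034)
(mv 1161 (cons (fin 1229 3 1161)
(mv 907 (cons (fin 971 6 906)
(mv 906 (cons (fin 1097 5 905)
(fin 843 6 842)))))))))))))))
(cons (mv 1227 (cons (fin 1291 4 1034)
(mv 1161 (cons (fin 1229 3 1161)
(mv 1225 (cons (fin 1160 3 1160)
(fin 970 5 969)))))))
(cons (mv 1225 (cons (fin 1289 5 1033)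
(mv 969 (cons (fin 1033 7 969)
(mv 1227 (cons (fin 1291 4 1034)
(mv 1161 (cons (fin 1160 3 1160)
(fin 1229 3 1161)))))))))
(mv 1227 (cons (fin 1291 4 1034)
(mv 1289 (cons (fin 1225 5 1033)
(mv 1290 (cons (fin 1229 1 1225)
(fin 1353 5 1097)))))))))))
(mv 1226 (cons (cons (mv 969 (cons (fin 1033 7 969)
(mv 905 (cons (fin 970 7 905)
(mv 1227 (cons (fin 1291 4 1034)
(mv 1225 (cons (fin 1289 5 1033)
(mv 1224 (cons (fin 1163 2 1160)
(mv 1287 (cons (fin 1288 1 1223)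
(mv 1223 (cons (fin 1286 1 1222)
(mv 1159 (cons (fin 1158 3 1158)
(fin 1160 3 1159)))))))))))))))))
(mv 1289 (cons (fin 1225 5 1033)
(mv 1033 (cons (fin 969 7 969)
(mv 1290 (cons (fin 1097 7 1033)
(fin 1353 5 1097))))))))
(cons (mv 1225 (cons (fin 1289 5 1033)
(mv 1227 (cons (fin 1291 4 1034)
(mv 1163 (cons (fin 1224 2 1160)
(fin 970 4 970)))))))
(mv 1227 (cons (fin 1291 4 1034)
(mv 970 (cons (fin 1163 4 970)
(mv 969 (cons (fin 905 7 905)
(fin 1033 7 969))))))))))))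
(cons (mv 1161 (cons (fin 1163 2 1097)
(mv 1226 (cons (mv 1227 (cons (fin 1229 3 1161)
(fin 1291 4 1034)))
(cons (mv 1225 (cons (fin 1289 5 1033)
(mv 1033 (cons (fin 969 7 969)
(mv 1290 (cons (fin 1097 7 1033)
(mv 1354 (cons (fin 1418 7 1161)
(mv 1355 (cons (fin 1291 4 1098)
(fin 1419 4 1162)))))))))))
(mv 969 (cons (fin 1033 7 969)
(mv 1227 (cons (fin 1229 3 1161)
(mv 1225 (cons (fin 1160 3 1160)
(fin 1289 5 1033))))))))))))
(cons (mv 1163 (cons (fin 1161 2 1097)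
(mv 970 (cons (fin 1227 4 970)
(mv 907 (cons (fin 971 6 906)
(mv 906 (cons (fin 843 6 842)
(mv 905 (cons (fin 841 7 841)
(fin 969 7 905)))))))))))
(mv 1161 (cons (fin 1163 2 1097)
(mv 970 (cons (fin 1225 5 969)
(mv 906 (cons (fin 1097 5 905)
(mv 907 (cons (fin 843 6 842)
(fin 971 6 906)))))))))))))))))))
(cons (mv 1099 (cons (cons (mv 1161 (cons (fin 1162 1 1097)
(mv 1097 (cons (fin 1160 1 1096)
(fin 1036 2 1033)))))
(mv 1036 (cons (fin 1097 2 1033)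
(mv 1164 (cons (fin 1228 6 972)
(mv 1163 (cons (mv 972 (cons (fin 908 5 907)
(fin 1227 5 971)))
(cons (mv 970 (cons (fin 906 4 906)
(mv 972 (cons (fin 908 5 907)
(mv 971 (cons (fin 969 0 969)
(fin 907 7 907)))))))
(mv 1227 (cons (fin 1291 7 1034)
(mv 970 (cons (fin 906 4 906)
(fin 1162 4 970)))))))))))))
(cons (mv 1162 (cons (fin 1161 1 1097)
(mv 970 (cons (mv 1163 (cons (fin 906 4 906)
(fin 1227 4 970)))
(cons (mv 905 (cons (fin 969 7 905)
(mv 906 (cons (fin 841 7 841)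
(mv 971 (cons (fin 972 3 905)
(fin 907 6 906)))))))
(mv 907 (cons (fin 971 6 906)
(mv 1227 (cons (fin 1163 4 970)
(mv 905 (cons (fin 969 7 905)
(mv 1226 (cons (fin 1291 4 1034)
(mv 1289 (cons (fin 1225 5 1033)
(mv 1290 (cons (fin 1353 5 1097)
(mv 1287 (cons (fin 1288 2 1223)
(mv 1228 (cons (fin 1229 1 1225)
(mv 1164 (cons (fin 1036 6 972)
(fin 1292 6 1036))))))))))))))))))))))))
(cons (mv 1162 (cons (fin 1161 1 1097)
(mv 970 (cons (mv 1163 (cons (fin 906 4 906)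
(fin 1227 4 970)))
(cons (mv 905 (cons (fin 969 7 905)
(mv 906 (cons (fin 841 7 841)
(mv 971 (cons (fin 972 3 905)
(fin 907 6 906)))))))
(mv 907 (cons (fin 971 6 906)
(mv 905 (cons (fin 969 7 905)
(mv 1226 (cons (cons (mv 1227 (cons (fin 1163 4 970)
(fin 1291 4 1034)))
(mv 1289 (cons (fin 1225 5 1033)
(mv 1290 (cons (fin 1353 5 1097)
(mv 1354 (cons (fin 1163 6 1098)
(mv 1355 (cons (fin 1291 4 1098)
(fin 1419 4 1162))))))))))
(cons (mv 1289 (cons (fin 1225 5 1033)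
(mv 1291 (cons (fin 1227 4 1034)
(mv 1290 (cons (fin 1353 5 1097)
(fin 1355 4 1098)))))))
(mv 1289 (cons (fin 1225 5 1033)
(mv 1163 (cons (fin 1227 4 970)
(mv 1290 (cons (fin 1353 5 1097)
(fin 1354 6 1098)))))))))))))))))))
(mv 1036 (cons (fin 1097 2 1033)
(mv 1164 (cons (fin 1228 6 972)
(mv 972 (cons (mv 1163 (cons (fin 908 5 907)
(fin 1227 5 971)))
(cons (mv 907 (cons (fin 971 7 907)
(mv 908 (cons (fin 843 7 843)
(fin 844 4 844)))))
(mv 1163 (cons (fin 1227 5 971)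
(mv 970 (cons (fin 906 4 906)
(mv 971 (cons (fin 969 0 969)
(fin 907 7 907))))))))))))))))))
(cons (mv 1099 (cons (fin 1033 3 1033)
(mv 1162 (cons (fin 1161 1 1097)
(mv 970 (cons (mv 1163 (cons (fin 906 4 906)
(fin 1227 4 970)))
(cons (mv 905 (cons (fin 969 7 905)
(mv 906 (cons (fin 841 7 841)
(mv 971 (cons (fin 972 3 905)
(fin 907 6 906)))))))
(mv 907 (cons (fin 971 6 906)
(mv 905 (cons (fin 969 7 905)
(mv 1226 (cons (cons (mv 1227 (cons (fin 1163 4 970)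
(fin 1291 4 1034)))
(mv 1289 (cons (fin 1225 5 1033)
(mv 1290 (cons (fin 1353 5 1097)
(mv 1354 (cons (fin 1163 6 1098)
(mv 1355 (cons (fin 1291 4 1098)
(fin 1419 4 1162))))))))))
(cons (mv 1289 (cons (fin 1225 5 1033)
(mv 1291 (cons (fin 1227 4 1034)
(mv 1290 (cons (fin 1353 5 1097)
(fin 1355 4 1098)))))))
(mv 1289 (cons (fin 1225 5 1033)
(mv 1163 (cons (fin 1227 4 970)
(mv 1290 (cons (fin 1353 5 1097)
(fin 1354 6 1098)))))))))))))))))))))
(mv 1099 (cons (fin 1033 3 1033)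
(mv 1036 (cons (fin 1097 2 1033)
(mv 1164 (cons (fin 1228 6 972)
(mv 972 (cons (mv 1163 (cons (fin 908 5 907)
(fin 1227 5 971)))
(cons (mv 907 (cons (fin 971 7 907)
(mv 908 (cons (fin 843 7 843)
(fin 844 4 844)))))
(mv 1163 (cons (fin 1227 5 971)
(mv 970 (cons (fin 906 4 906)
(mv 971 (cons (fin 969 0 969)
(fin 907 7 907))))))))))))))))))))
(cons (mv 1164 (cons (mv 1228 (cons (fin 1036 6 972)
(fin 1292 6 1036)))
(cons (mv 1103 (cons (mv 1102 (cons (fin 1163 1 1099)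
(fin 1039 2 1036)))
(cons (mv 1039 (cons (cons (mv 911 (cons (cons (mv 1104 (cons (fin 847 4 847)
(fin 1168 4 911)))
(mv 846 (cons (fin 910 7 846)
(mv 782 (cons (fin 847 7 782)
(mv 912 (cons (fin 848 6 847)
(mv 1167 (cons (fin 976 6 911)
(mv 1230 (cons (fin 1166 5 974)
(mv 1232 (cons (fin 1168 4 975)
(mv 1231 (cons (fin 1294 5 1038)
(fin 1296 4 1039))))))))))))))))
(cons (mv 848 (cons (fin 912 6 847)
(mv 1168 (cons (fin 1104 4 911)
(mv 846 (cons (fin 910 7 846)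
(mv 1167 (cons (fin 1232 4 975)
(mv 1231 (cons (fin 976 6 975)
(mv 1230 (cons (fin 1166 5 974)
(fin 1294 5 1038)))))))))))))
(mv 847 (cons (fin 1104 4 847)
(mv 846 (cons (fin 782 7 782)
(fin 910 7 846))))))))
(cons (mv 1167 (cons (mv 976 (cons (fin 912 6 911)
(fin 1231 6 975)))
(cons (mv 1230 (cons (fin 1166 5 974)
(mv 1232 (cons (fin 1168 4 975)
(mv 1231 (cons (fin 1294 5 1038)
(fin 1296 4 1039)))))))
(mv 1166 (cons (fin 1230 5 974)
(mv 976 (cons (fin 912 6 911)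
(mv 1168 (cons (fin 1232 4 975)
(mv 1169 (cons (cons (mv 1233 (cons (fin 1234 0 1166)
(fin 1104 4 976)))
(mv 1106 (cons (fin 1105 2 1102)
(mv 1170 (cons (fin 1107 2 1103)
(mv 1171 (cons (fin 1104 3 1103)
(mv 1235 (cons (fin 1234 0 1167)
(fin 1236 0 1168))))))))))
(cons (mv 1106 (cons (fin 1105 2 1102)
(mv 1234 (cons (fin 1233 0 1166)
(mv 1170 (cons (fin 1107 2 1103)
(fin 1235 0 1167)))))))
(mv 1106 (cons (fin 1105 2 1102)
(mv 1104 (cons (fin 1233 4 976)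
(mv 1170 (cons (fin 1171 3 1103)
(fin 1107 2 1103)))))))))))))))))))
(mv 911 (cons (mv 1104 (cons (fin 847 4 847)
(fin 1168 4 911)))
(cons (mv 846 (cons (fin 910 7 846)
(mv 847 (cons (fin 782 7 782)
(mv 848 (cons (fin 784 6 783)
(fin 912 6 847)))))))
(mv 910 (cons (fin 846 7 846)
(mv 1104 (cons (fin 1168 4 911)
(mv 912 (cons (fin 848 6 847)
(mv 913 (cons (cons (mv 849 (cons (fin 850 2 846)
(fin 976 6 848)))
(mv 978 (cons (fin 977 0 910)
(mv 914 (cons (fin 979 0 911)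
(mv 851 (cons (fin 850 2 847)
(mv 915 (cons (fin 976 1 911)
(fin 852 2 848))))))))))
(cons (mv 978 (cons (fin 977 0 910)
(mv 850 (cons (fin 849 2 846)
(mv 914 (cons (fin 851 2 847)
(fin 979 0 911)))))))
(mv 978 (cons (fin 977 0 910)
(mv 976 (cons (fin 849 6 848)
(mv 914 (cons (fin 915 1 911)
(fin 979 0 911)))))))))))))))))))))
(cons (cons (mv 911 (cons (mv 1104 (cons (fin 847 4 847)
(fin 1168 4 911)))
(cons (mv 846 (cons (fin 910 7 846)
(mv 847 (cons (fin 782 7 782)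
(mv 848 (cons (fin 784 6 783)
(fin 912 6 847)))))))
(mv 846 (cons (fin 910 7 846)
(mv 848 (cons (fin 912 6 847)
(mv 1167 (cons (cons (mv 1168 (cons (fin 1104 4 911)
(fin 1232 4 975)))
(mv 1230 (cons (fin 1166 5 974)
(mv 1231 (cons (fin 1294 5 1038)
(mv 1295 (cons (fin 1104 6 1039)
(mv 1296 (cons (fin 1232 4 1039)
(fin 1360 4 1103))))))))))
(cons (mv 1230 (cons (fin 1166 5 974)
(mv 1232 (cons (fin 1168 4 975)
(mv 1231 (cons (fin 1294 5 1038)
(fin 1296 4 1039)))))))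
(mv 1230 (cons (fin 1166 5 974)
(mv 1104 (cons (fin 1168 4 911)
(mv 1231 (cons (fin 1294 5 1038)
(fin 1295 6 1039)))))))))))))))))
(mv 1167 (cons (mv 976 (cons (fin 912 6 911)
(fin 1231 6 975)))
(cons (mv 1230 (cons (fin 1166 5 974)
(mv 1232 (cons (fin 1168 4 975)
(mv 1231 (cons (fin 1294 5 1038)
(fin 1296 4 1039)))))))
(mv 1168 (cons (fin 1232 4 975)
(mv 1166 (cons (fin 1230 5 974)
(mv 911 (cons (cons (mv 912 (cons (fin 848 6 847)
(fin 976 6 911)))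
(mv 846 (cons (fin 910 7 846)
(mv 847 (cons (fin 782 7 782)
(mv 784 (cons (fin 848 6 783)
(mv 783 (cons (fin 720 6 719)
(fin 976 4 783))))))))))
(cons (mv 846 (cons (fin 910 7 846)
(mv 847 (cons (fin 782 7 782)
(mv 848 (cons (fin 784 6 783)
(fin 912 6 847)))))))
(mv 976 (cons (fin 912 6 911)
(mv 846 (cons (fin 910 7 846)
(mv 847 (cons (fin 782 7 782)
(fin 783 4 783))))))))))))))))))
(cons (mv 911 (cons (mv 1104 (cons (fin 847 4 847)
(fin 1168 4 911)))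
(cons (mv 846 (cons (fin 910 7 846)
(mv 847 (cons (fin 782 7 782)
(mv 784 (cons (fin 848 6 783)
(mv 783 (cons (fin 720 6 719)
(fin 976 4 783)))))))))
(mv 846 (cons (fin 910 7 846)
(mv 1168 (cons (fin 1104 4 911)
(mv 1167 (cons (fin 1232 4 975)
(mv 1231 (cons (fin 976 6 975)
(mv 1230 (cons (fin 1166 5 974)
(fin 1294 5 1038))))))))))))))
(mv 1167 (cons (mv 976 (cons (fin 912 6 911)
(fin 1231 6 975)))
(cons (mv 1230 (cons (fin 1166 5 974)
(mv 1231 (cons (fin 1294 5 1038)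
(mv 1295 (cons (fin 1104 6 1039)
(mv 1296 (cons (fin 1232 4 1039)
(fin 1360 4 1103)))))))))
(mv 1166 (cons (fin 1230 5 974)
(mv 912 (cons (fin 976 6 911)
(mv 911 (cons (fin 848 6 847)
(mv 846 (cons (fin 910 7 846)
(mv 847 (cons (fin 782 7 782)
(fin 1104 4 847))))))))))))))))))
(mv 1102 (cons (fin 1163 1 1099)
(mv 1104 (cons (fin 1036 3 1036)
(mv 1168 (cons (fin 1167 0 1100)
(fin 1169 0 1101))))))))))
(mv 1292 (cons (fin 1228 6 1036)
(mv 1103 (cons (mv 1102 (cons (fin 1163 1 1099)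
(fin 1039 2 1036)))
(cons (mv 1039 (cons (cons (mv 911 (cons (cons (mv 1104 (cons (fin 847 4 847)
(fin 1168 4 911)))
(mv 846 (cons (fin 910 7 846)
(mv 782 (cons (fin 847 7 782)
(mv 912 (cons (fin 848 6 847)
(mv 1167 (cons (fin 976 6 911)
(mv 1230 (cons (fin 1166 5 974)
(mv 1232 (cons (fin 1168 4 975)
(mv 1231 (cons (fin 1294 5 1038)
(fin 1296 4 1039))))))))))))))))
(cons (mv 848 (cons (fin 912 6 847)
(mv 1168 (cons (fin 1104 4 911)
(mv 846 (cons (fin 910 7 846)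
(mv 1167 (cons (fin 1232 4 975)
(mv 1231 (cons (fin 976 6 975)
(mv 1230 (cons (fin 1166 5 974)
(fin 1294 5 1038)))))))))))))
(mv 847 (cons (fin 1104 4 847)
(mv 846 (cons (fin 782 7 782)
(fin 910 7 846))))))))
(cons (mv 1167 (cons (mv 976 (cons (fin 912 6 911)
(fin 1231 6 975)))
(cons (mv 1166 (cons (fin 1230 5 974)
(mv 1232 (cons (fin 1168 4 975)
(mv 1231 (cons (fin 1296 4 1039)
(mv 1295 (cons (fin 1104 6 1039)
(mv 1294 (cons (fin 1293 2 1228)
(fin 1358 5 1102)))))))))))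
(mv 1166 (cons (fin 1230 5 974)
(mv 976 (cons (fin 912 6 911)
(mv 1168 (cons (fin 1232 4 975)
(mv 1169 (cons (cons (mv 1233 (cons (fin 1234 0 1166)
(fin 1104 4 976)))
(mv 1106 (cons (fin 1105 2 1102)
(mv 1170 (cons (fin 1107 2 1103)
(mv 1171 (cons (fin 1104 3 1103)
(mv 1235 (cons (fin 1234 0 1167)
(fin 1236 0 1168))))))))))
(cons (mv 1106 (cons (fin 1105 2 1102)
(mv 1234 (cons (fin 1233 0 1166)
(mv 1170 (cons (fin 1107 2 1103)
(fin 1235 0 1167)))))))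
(mv 1106 (cons (fin 1105 2 1102)
(mv 1104 (cons (fin 1233 4 976)
(mv 1170 (cons (fin 1171 3 1103)
(fin 1107 2 1103)))))))))))))))))))
(mv 911 (cons (mv 1104 (cons (fin 847 4 847)
(fin 1168 4 911)))
(cons (mv 846 (cons (fin 910 7 846)
(mv 847 (cons (fin 782 7 782)
(mv 848 (cons (fin 784 6 783)
(fin 912 6 847)))))))
(mv 910 (cons (fin 846 7 846)
(mv 1104 (cons (fin 1168 4 911)
(mv 912 (cons (fin 848 6 847)
(mv 913 (cons (cons (mv 849 (cons (fin 850 2 846)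
(fin 976 6 848)))
(mv 978 (cons (fin 977 0 910)
(mv 914 (cons (fin 979 0 911)
(mv 851 (cons (fin 850 2 847)
(mv 915 (cons (fin 976 1 911)
(fin 852 2 848))))))))))
(cons (mv 978 (cons (fin 977 0 910)
(mv 850 (cons (fin 849 2 846)
(mv 914 (cons (fin 851 2 847)
(fin 979 0 911)))))))
(mv 978 (cons (fin 977 0 910)
(mv 976 (cons (fin 849 6 848)
(mv 914 (cons (fin 915 1 911)
(fin 979 0 911)))))))))))))))))))))
(cons (cons (mv 911 (cons (mv 1104 (cons (fin 847 4 847)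
(fin 1168 4 911)))
(cons (mv 846 (cons (fin 910 7 846)
(mv 847 (cons (fin 782 7 782)
(mv 848 (cons (fin 784 6 783)
(fin 912 6 847)))))))
(mv 846 (cons (fin 910 7 846)
(mv 848 (cons (fin 912 6 847)
(mv 1167 (cons (cons (mv 1168 (cons (fin 1104 4 911)
(fin 1232 4 975)))
(mv 1230 (cons (fin 1166 5 974)
(mv 1231 (cons (fin 1294 5 1038)
(mv 1295 (cons (fin 1104 6 1039)
(mv 1296 (cons (fin 1232 4 1039)
(fin 1360 4 1103))))))))))
(cons (mv 1230 (cons (fin 1166 5 974)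
(mv 1232 (cons (fin 1168 4 975)
(mv 1231 (cons (fin 1294 5 1038)
(fin 1296 4 1039)))))))
(mv 1230 (cons (fin 1166 5 974)
(mv 1104 (cons (fin 1168 4 911)
(mv 1231 (cons (fin 1294 5 1038)
(fin 1295 6 1039)))))))))))))))))
(mv 1167 (cons (mv 976 (cons (fin 912 6 911)
(fin 1231 6 975)))
(cons (mv 1230 (cons (fin 1166 5 974)
(mv 1232 (cons (fin 1168 4 975)
(mv 1231 (cons (fin 1294 5 1038)
(fin 1296 4 1039)))))))
(mv 1168 (cons (fin 1232 4 975)
(mv 1166 (cons (fin 1230 5 974)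
(mv 911 (cons (cons (mv 912 (cons (fin 848 6 847)
(fin 976 6 911)))
(mv 846 (cons (fin 910 7 846)
(mv 847 (cons (fin 782 7 782)
(mv 784 (cons (fin 848 6 783)
(mv 783 (cons (fin 720 6 719)
(fin 976 4 783))))))))))
(cons (mv 846 (cons (fin 910 7 846)
(mv 847 (cons (fin 782 7 782)
(mv 848 (cons (fin 784 6 783)
(fin 912 6 847)))))))
(mv 976 (cons (fin 912 6 911)
(mv 846 (cons (fin 910 7 846)
(mv 847 (cons (fin 782 7 782)
(fin 783 4 783))))))))))))))))))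
(cons (mv 911 (cons (mv 1104 (cons (fin 847 4 847)
(fin 1168 4 911)))
(cons (mv 846 (cons (fin 910 7 846)
(mv 847 (cons (fin 782 7 782)
(mv 784 (cons (fin 848 6 783)
(mv 783 (cons (fin 720 6 719)
(fin 976 4 783)))))))))
(mv 846 (cons (fin 910 7 846)
(mv 1168 (cons (fin 1104 4 911)
(mv 1167 (cons (fin 1232 4 975)
(mv 1231 (cons (fin 976 6 975)
(mv 1230 (cons (fin 1166 5 974)
(fin 1294 5 1038))))))))))))))
(mv 1167 (cons (mv 976 (cons (fin 912 6 911)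
(fin 1231 6 975)))
(cons (mv 1230 (cons (fin 1166 5 974)
(mv 1231 (cons (fin 1294 5 1038)
(mv 1295 (cons (fin 1104 6 1039)
(mv 1296 (cons (fin 1232 4 1039)
(fin 1360 4 1103)))))))))
(mv 1166 (cons (fin 1230 5 974)
(mv 912 (cons (fin 976 6 911)
(mv 911 (cons (fin 848 6 847)
(mv 846 (cons (fin 910 7 846)
(mv 847 (cons (fin 782 7 782)
(fin 1104 4 847))))))))))))))))))
(mv 1163 (cons (fin 1102 1 1099)
(mv 1291 (cons (cons (mv 1162 (cons (fin 1161 2 1097)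
(mv 1227 (cons (fin 1355 6 1099)
(mv 1098 (cons (fin 970 4 970)
(fin 1226 4 1034)))))))
(mv 1162 (cons (fin 1161 2 1097)
(mv 1290 (cons (cons (cons (mv 1293 (cons (cons (mv 1225 (cons (fin 1226 3 1225)
(mv 1224 (cons (fin 1289 3 1224)
(mv 1358 (cons (fin 1357 0 1290)
(mv 1230 (cons (fin 1229 2 1226)
(mv 1294 (cons (fin 1231 2 1227)
(fin 1359 0 1291)))))))))))
(mv 1357 (cons (fin 1358 0 1290)
(mv 1289 (cons (fin 1356 0 1289)
(mv 1353 (cons (fin 1352 1 1288)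
(fin 1354 1 1289))))))))
(cons (mv 1229 (cons (fin 1230 2 1226)
(mv 1225 (cons (fin 1226 3 1225)
(mv 1289 (cons (fin 1224 3 1224)
(mv 1353 (cons (fin 1352 1 1288)
(fin 1354 1 1289)))))))))
(mv 1353 (cons (fin 1354 1 1289)
(mv 1357 (cons (fin 1358 0 1290)
(mv 1226 (cons (fin 1225 3 1225)
(mv 1098 (cons (fin 1355 4 1098)
(mv 1033 (cons (fin 969 7 969)
(fin 1097 7 1033))))))))))))))
(mv 1289 (cons (cons (mv 1224 (cons (fin 1225 3 1224)
(mv 1223 (cons (fin 1288 3 1223)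
(mv 1353 (cons (fin 1352 1 1288)
(mv 1226 (cons (fin 1098 5 1097)
(mv 1417 (cons (fin 1354 5 1161)
(fin 1481 6 1225)))))))))))
(mv 1356 (cons (fin 1357 0 1289)
(mv 1288 (cons (fin 1355 0 1288)
(mv 1224 (cons (fin 1223 3 1223)
(fin 1225 3 1224))))))))
(cons (mv 1352 (cons (fin 1353 1 1288)
(mv 1288 (cons (fin 1351 1 1287)
(mv 1356 (cons (fin 1355 0 1288)
(fin 1357 0 1289)))))))
(mv 1356 (cons (fin 1357 0 1289)
(mv 1224 (cons (fin 1225 3 1224)
(mv 1353 (cons (fin 1352 1 1288)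
(mv 1226 (cons (fin 1098 5 1097)
(mv 1417 (cons (fin 1354 5 1161)
(fin 1481 6 1225)))))))))))))))
(cons (mv 1293 (cons (cons (mv 1353 (cons (fin 1354 1 1289)
(mv 1357 (cons (fin 1358 0 1290)
(mv 1226 (cons (fin 1225 3 1225)
(mv 1098 (cons (fin 1355 4 1098)
(mv 1033 (cons (fin 969 7 969)
(fin 1097 7 1033)))))))))))
(mv 1357 (cons (fin 1358 0 1290)
(mv 1230 (cons (fin 1229 2 1226)
(mv 1354 (cons (fin 1353 1 1289)
(mv 1294 (cons (fin 1355 1 1290)
(fin 1231 2 1227))))))))))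
(cons (mv 1229 (cons (fin 1230 2 1226)
(mv 1357 (cons (fin 1358 0 1290)
(mv 1226 (cons (fin 1225 3 1225)
(mv 1098 (cons (fin 1355 4 1098)
(mv 1033 (cons (fin 969 7 969)
(fin 1097 7 1033)))))))))))
(cons (mv 1225 (cons (fin 1226 3 1225)
(mv 1230 (cons (fin 1229 2 1226)
(mv 1354 (cons (fin 1353 1 1289)
(mv 1294 (cons (fin 1355 1 1290)
(fin 1231 2 1227)))))))))
(mv 1230 (cons (fin 1229 2 1226)
(mv 1353 (cons (fin 1354 1 1289)
(mv 1294 (cons (fin 1231 2 1227)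
(mv 1358 (cons (fin 1357 0 1290)
(fin 1359 0 1291)))))))))))))
(mv 1289 (cons (cons (mv 1224 (cons (fin 1225 3 1224)
(mv 1223 (cons (fin 1288 3 1223)
(mv 1357 (cons (fin 1356 0 1289)
(mv 1353 (cons (fin 1352 1 1288)
(mv 1293 (cons (fin 1354 1 1289)
(fin 1358 0 1290)))))))))))
(mv 1356 (cons (fin 1357 0 1289)
(mv 1288 (cons (fin 1355 0 1288)
(mv 1224 (cons (fin 1223 3 1223)
(fin 1225 3 1224))))))))
(cons (mv 1224 (cons (fin 1225 3 1224)
(mv 1288 (cons (fin 1223 3 1223)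
(mv 1352 (cons (fin 1351 1 1287)
(fin 1353 1 1288)))))))
(cons (mv 1352 (cons (fin 1353 1 1288)
(mv 1288 (cons (fin 1351 1 1287)
(mv 1356 (cons (fin 1355 0 1288)
(fin 1357 0 1289)))))))
(mv 1357 (cons (fin 1356 0 1289)
(mv 1224 (cons (fin 1225 3 1224)
(mv 1293 (cons (fin 1358 0 1290)
(mv 1353 (cons (fin 1352 1 1288)
(fin 1354 1 1289)))))))))))))))
(cons (cons (mv 1293 (cons (cons (mv 1225 (cons (fin 1226 3 1225)
(mv 1224 (cons (fin 1289 3 1224)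
(mv 1358 (cons (fin 1357 0 1290)
(mv 1230 (cons (fin 1229 2 1226)
(mv 1294 (cons (fin 1231 2 1227)
(fin 1359 0 1291)))))))))))
(mv 1357 (cons (fin 1358 0 1290)
(mv 1356 (cons (fin 1289 0 1289)
(mv 1230 (cons (fin 1229 2 1226)
(mv 1294 (cons (fin 1231 2 1227)
(mv 1295 (cons (fin 1355 1 1291)
(fin 1296 1 1292))))))))))))
(cons (mv 1229 (cons (fin 1230 2 1226)
(mv 1226 (cons (fin 1225 3 1225)
(mv 1098 (cons (fin 1355 4 1098)
(mv 1033 (cons (fin 969 7 969)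
(fin 1097 7 1033)))))))))
(mv 1225 (cons (fin 1226 3 1225)
(mv 1289 (cons (fin 1224 3 1224)
(mv 1357 (cons (fin 1356 0 1289)
(fin 1358 0 1290))))))))))
(mv 1293 (cons (mv 1353 (cons (fin 1354 1 1289)
(mv 1289 (cons (fin 1352 1 1288)
(mv 1357 (cons (fin 1356 0 1289)
(fin 1358 0 1290)))))))
(cons (mv 1357 (cons (fin 1358 0 1290)
(mv 1356 (cons (fin 1289 0 1289)
(mv 1230 (cons (fin 1229 2 1226)
(mv 1294 (cons (fin 1231 2 1227)
(mv 1295 (cons (fin 1355 1 1291)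
(fin 1296 1 1292)))))))))))
(mv 1229 (cons (fin 1230 2 1226)
(mv 1354 (cons (fin 1353 1 1289)
(mv 1355 (cons (fin 1294 1 1290)
(mv 1226 (cons (fin 1098 4 1098)
(fin 1419 4 1162)))))))))))))
(cons (mv 1293 (cons (cons (mv 1229 (cons (fin 1230 2 1226)
(mv 1225 (cons (fin 1226 3 1225)
(mv 1289 (cons (fin 1224 3 1224)
(mv 1353 (cons (fin 1352 1 1288)
(fin 1354 1 1289)))))))))
(mv 1230 (cons (fin 1229 2 1226)
(mv 1354 (cons (fin 1353 1 1289)
(mv 1294 (cons (fin 1355 1 1290)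
(fin 1231 2 1227))))))))
(cons (mv 1229 (cons (fin 1230 2 1226)
(mv 1226 (cons (fin 1225 3 1225)
(mv 1098 (cons (fin 1355 4 1098)
(mv 1033 (cons (fin 969 7 969)
(fin 1097 7 1033)))))))))
(mv 1225 (cons (fin 1226 3 1225)
(mv 1289 (cons (fin 1224 3 1224)
(mv 1353 (cons (fin 1352 1 1288)
(fin 1354 1 1289))))))))))
(mv 1293 (cons (cons (mv 1225 (cons (fin 1226 3 1225)
(mv 1224 (cons (fin 1289 3 1224)
(mv 1358 (cons (fin 1357 0 1290)
(mv 1230 (cons (fin 1229 2 1226)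
(mv 1294 (cons (fin 1231 2 1227)
(fin 1359 0 1291)))))))))))
(mv 1357 (cons (fin 1358 0 1290)
(mv 1289 (cons (fin 1356 0 1289)
(mv 1353 (cons (fin 1352 1 1288)
(fin 1354 1 1289))))))))
(cons (mv 1229 (cons (fin 1230 2 1226)
(mv 1225 (cons (fin 1226 3 1225)
(mv 1289 (cons (fin 1224 3 1224)
(mv 1353 (cons (fin 1352 1 1288)
(fin 1354 1 1289)))))))))
(mv 1230 (cons (fin 1229 2 1226)
(mv 1353 (cons (fin 1354 1 1289)
(mv 1294 (cons (fin 1231 2 1227)
(mv 1358 (cons (fin 1357 0 1290)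
(fin 1359 0 1291)))))))))))))))))))
(cons (mv 1290 (cons (cons (cons (mv 1161 (cons (fin 1162 2 1097)
(mv 1293 (cons (cons (mv 1225 (cons (fin 1226 3 1225)
(mv 1224 (cons (fin 1289 3 1224)
(mv 1358 (cons (fin 1357 0 1290)
(mv 1230 (cons (fin 1229 2 1226)
(mv 1294 (cons (fin 1231 2 1227)
(fin 1359 0 1291)))))))))))
(mv 1357 (cons (fin 1358 0 1290)
(mv 1289 (cons (fin 1356 0 1289)
(mv 1353 (cons (fin 1352 1 1288)
(fin 1354 1 1289))))))))
(cons (mv 1229 (cons (fin 1230 2 1226)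
(mv 1225 (cons (fin 1226 3 1225)
(mv 1289 (cons (fin 1224 3 1224)
(mv 1353 (cons (fin 1352 1 1288)
(fin 1354 1 1289)))))))))
(mv 1353 (cons (fin 1354 1 1289)
(mv 1357 (cons (fin 1358 0 1290)
(mv 1230 (cons (fin 1229 2 1226)
(mv 1226 (cons (fin 1225 3 1225)
(mv 1294 (cons (fin 1227 3 1226)
(fin 1231 2 1227))))))))))))))))
(mv 1293 (cons (cons (mv 1225 (cons (fin 1226 3 1225)
(mv 1224 (cons (fin 1289 3 1224)
(mv 1358 (cons (fin 1357 0 1290)
(mv 1230 (cons (fin 1229 2 1226)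
(mv 1294 (cons (fin 1231 2 1227)
(fin 1359 0 1291)))))))))))
(mv 1357 (cons (fin 1358 0 1290)
(mv 1289 (cons (fin 1356 0 1289)
(mv 1353 (cons (fin 1352 1 1288)
(fin 1354 1 1289))))))))
(cons (mv 1229 (cons (fin 1230 2 1226)
(mv 1225 (cons (fin 1226 3 1225)
(mv 1289 (cons (fin 1224 3 1224)
(mv 1353 (cons (fin 1352 1 1288)
(fin 1354 1 1289)))))))))
(mv 1353 (cons (fin 1354 1 1289)
(mv 1357 (cons (fin 1358 0 1290)
(mv 1230 (cons (fin 1229 2 1226)
(mv 1226 (cons (fin 1225 3 1225)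
(mv 1294 (cons (fin 1227 3 1226)
(fin 1231 2 1227)))))))))))))))
(cons (mv 1289 (cons (cons (mv 1161 (cons (fin 1162 2 1097)
(mv 1224 (cons (fin 1225 3 1224)
(mv 1288 (cons (fin 1223 3 1223)
(mv 1352 (cons (fin 1351 1 1287)
(fin 1353 1 1288)))))))))
(mv 1356 (cons (fin 1357 0 1289)
(mv 1353 (cons (fin 1352 1 1288)
(mv 1162 (cons (fin 1161 2 1097)
(mv 1226 (cons (fin 1098 5 1097)
(mv 1417 (cons (fin 1354 5 1161)
(fin 1225 6 1161))))))))))))
(cons (mv 1161 (cons (fin 1162 2 1097)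
(mv 1356 (cons (fin 1357 0 1289)
(mv 1225 (cons (fin 1224 3 1224)
(mv 1097 (cons (fin 1098 6 1033)
(fin 1354 4 1097)))))))))
(cons (mv 1353 (cons (fin 1352 1 1288)
(mv 1162 (cons (fin 1161 2 1097)
(mv 1356 (cons (fin 1357 0 1289)
(mv 1226 (cons (fin 1098 5 1097)
(mv 1417 (cons (fin 1354 5 1161)
(fin 1481 6 1225)))))))))))
(mv 1224 (cons (fin 1225 3 1224)
(mv 1288 (cons (fin 1223 3 1223)
(mv 1352 (cons (fin 1351 1 1287)
(fin 1353 1 1288)))))))))))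
(mv 1162 (cons (fin 1161 2 1097)
(mv 1293 (cons (cons (mv 1353 (cons (fin 1354 1 1289)
(mv 1357 (cons (fin 1358 0 1290)
(mv 1229 (cons (fin 1230 2 1226)
(mv 1226 (cons (fin 1225 3 1225)
(mv 1227 (cons (fin 1294 3 1226)
(fin 1098 4 1034)))))))))))
(mv 1358 (cons (fin 1357 0 1290)
(mv 1230 (cons (fin 1229 2 1226)
(mv 1294 (cons (fin 1231 2 1227)
(fin 1359 0 1291))))))))
(cons (mv 1226 (cons (fin 1225 3 1225)
(mv 1227 (cons (fin 1294 3 1226)
(fin 1098 4 1034)))))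
(mv 1229 (cons (fin 1230 2 1226)
(mv 1357 (cons (fin 1358 0 1290)
(mv 1226 (cons (fin 1225 3 1225)
(mv 1354 (cons (fin 1353 1 1289)
(mv 1227 (cons (fin 1418 6 1162)
(fin 1098 4 1034))))))))))))))))))
(cons (cons (mv 1162 (cons (fin 1161 2 1097)
(mv 1293 (cons (mv 1353 (cons (fin 1354 1 1289)
(mv 1289 (cons (fin 1352 1 1288)
(mv 1357 (cons (fin 1356 0 1289)
(fin 1358 0 1290)))))))
(cons (mv 1358 (cons (fin 1357 0 1290)
(mv 1230 (cons (fin 1229 2 1226)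
(mv 1294 (cons (fin 1231 2 1227)
(fin 1359 0 1291)))))))
(mv 1353 (cons (fin 1354 1 1289)
(mv 1289 (cons (fin 1352 1 1288)
(mv 1230 (cons (fin 1229 2 1226)
(mv 1226 (cons (fin 1098 5 1097)
(mv 1294 (cons (fin 1227 3 1226)
(fin 1231 2 1227))))))))))))))))
(mv 1161 (cons (fin 1162 2 1097)
(mv 1293 (cons (mv 1225 (cons (fin 1226 3 1225)
(mv 1224 (cons (fin 1289 3 1224)
(mv 1358 (cons (fin 1357 0 1290)
(mv 1230 (cons (fin 1229 2 1226)
(mv 1294 (cons (fin 1231 2 1227)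
(fin 1359 0 1291)))))))))))
(cons (mv 1358 (cons (fin 1357 0 1290)
(mv 1230 (cons (fin 1229 2 1226)
(mv 1294 (cons (fin 1231 2 1227)
(fin 1359 0 1291)))))))
(mv 1225 (cons (fin 1226 3 1225)
(mv 1289 (cons (fin 1224 3 1224)
(mv 1097 (cons (fin 1098 6 1033)
(fin 1354 4 1097)))))))))))))
(cons (mv 1161 (cons (fin 1162 2 1097)
(mv 1225 (cons (cons (mv 1224 (cons (fin 1289 3 1224)
(mv 1226 (cons (fin 1293 3 1225)
(fin 1227 2 1160)))))
(mv 1289 (cons (fin 1224 3 1224)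
(mv 1097 (cons (fin 1098 6 1033)
(fin 1354 4 1097))))))
(cons (mv 1226 (cons (fin 1293 3 1225)
(mv 1224 (cons (fin 1227 2 1160)
(fin 1223 0 1223)))))
(mv 1226 (cons (fin 1293 3 1225)
(mv 1354 (cons (fin 1418 7 1161)
(mv 1097 (cons (fin 1033 4 1033)
(fin 1289 4 1097))))))))))))
(cons (mv 1161 (cons (fin 1162 2 1097)
(mv 1289 (cons (cons (mv 1224 (cons (fin 1225 3 1224)
(mv 1223 (cons (fin 1288 3 1223)
(mv 1357 (cons (fin 1356 0 1289)
(mv 1353 (cons (fin 1352 1 1288)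
(mv 1293 (cons (fin 1354 1 1289)
(fin 1358 0 1290)))))))))))
(mv 1357 (cons (fin 1356 0 1289)
(mv 1353 (cons (fin 1352 1 1288)
(mv 1293 (cons (fin 1354 1 1289)
(fin 1358 0 1290))))))))
(cons (mv 1356 (cons (fin 1357 0 1289)
(mv 1225 (cons (fin 1224 3 1224)
(mv 1097 (cons (fin 1098 6 1033)
(fin 1354 4 1097)))))))
(mv 1224 (cons (fin 1225 3 1224)
(mv 1288 (cons (fin 1223 3 1223)
(mv 1352 (cons (fin 1351 1 1287)
(fin 1353 1 1288))))))))))))
(mv 1161 (cons (fin 1162 2 1097)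
(mv 1293 (cons (cons (mv 1225 (cons (fin 1226 3 1225)
(mv 1224 (cons (fin 1289 3 1224)
(mv 1358 (cons (fin 1357 0 1290)
(mv 1230 (cons (fin 1229 2 1226)
(mv 1294 (cons (fin 1231 2 1227)
(fin 1359 0 1291)))))))))))
(mv 1358 (cons (fin 1357 0 1290)
(mv 1230 (cons (fin 1229 2 1226)
(mv 1294 (cons (fin 1231 2 1227)
(fin 1359 0 1291))))))))
(cons (mv 1225 (cons (fin 1226 3 1225)
(mv 1289 (cons (fin 1224 3 1224)
(mv 1229 (cons (fin 1230 2 1226)
(mv 1097 (cons (fin 1098 6 1033)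
(mv 1352 (cons (fin 1353 1 1288)
(fin 1288 5 1096)))))))))))
(mv 1357 (cons (fin 1358 0 1290)
(mv 1289 (cons (fin 1356 0 1289)
(mv 1225 (cons (fin 1224 3 1224)
(fin 1226 3 1225)))))))))))))))))
(cons (mv 1293 (cons (cons (mv 1227 (cons (fin 1355 6 1099)
(mv 1226 (cons (fin 1294 3 1226)
(mv 1225 (cons (fin 1290 3 1225)
(fin 1224 2 1160)))))))
(cons (mv 1290 (cons (cons (mv 1225 (cons (fin 1226 3 1225)
(mv 1224 (cons (fin 1289 3 1224)
(mv 1358 (cons (fin 1357 0 1290)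
(mv 1230 (cons (fin 1229 2 1226)
(mv 1294 (cons (fin 1231 2 1227)
(fin 1359 0 1291)))))))))))
(mv 1357 (cons (fin 1358 0 1290)
(mv 1289 (cons (fin 1356 0 1289)
(mv 1353 (cons (fin 1352 1 1288)
(fin 1354 1 1289))))))))
(cons (mv 1229 (cons (fin 1230 2 1226)
(mv 1225 (cons (fin 1226 3 1225)
(mv 1289 (cons (fin 1224 3 1224)
(mv 1353 (cons (fin 1352 1 1288)
(fin 1354 1 1289)))))))))
(mv 1353 (cons (fin 1354 1 1289)
(mv 1357 (cons (fin 1358 0 1290)
(mv 1230 (cons (fin 1229 2 1226)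
(mv 1226 (cons (fin 1225 3 1225)
(mv 1294 (cons (fin 1227 3 1226)
(fin 1231 2 1227))))))))))))))
(mv 1290 (cons (cons (mv 1225 (cons (fin 1226 3 1225)
(mv 1224 (cons (fin 1289 3 1224)
(mv 1357 (cons (fin 1358 0 1290)
(mv 1230 (cons (fin 1229 2 1226)
(mv 1354 (cons (fin 1353 1 1289)
(mv 1294 (cons (fin 1355 1 1290)
(fin 1231 2 1227)))))))))))))
(cons (mv 1229 (cons (fin 1230 2 1226)
(mv 1357 (cons (fin 1358 0 1290)
(mv 1289 (cons (fin 1356 0 1289)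
(mv 1225 (cons (fin 1224 3 1224)
(fin 1226 3 1225)))))))))
(mv 1225 (cons (fin 1226 3 1225)
(mv 1224 (cons (fin 1289 3 1224)
(mv 1230 (cons (fin 1229 2 1226)
(mv 1354 (cons (fin 1353 1 1289)
(mv 1294 (cons (fin 1355 1 1290)
(fin 1231 2 1227)))))))))))))
(cons (mv 1229 (cons (fin 1230 2 1226)
(mv 1357 (cons (fin 1358 0 1290)
(mv 1289 (cons (fin 1356 0 1289)
(mv 1353 (cons (fin 1352 1 1288)
(fin 1354 1 1289)))))))))
(cons (mv 1353 (cons (fin 1354 1 1289)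
(mv 1289 (cons (fin 1352 1 1288)
(mv 1225 (cons (fin 1224 3 1224)
(fin 1226 3 1225)))))))
(mv 1225 (cons (fin 1226 3 1225)
(mv 1353 (cons (fin 1354 1 1289)
(mv 1358 (cons (fin 1357 0 1290)
(mv 1230 (cons (fin 1229 2 1226)
(mv 1294 (cons (fin 1231 2 1227)
(fin 1359 0 1291)))))))))))))))))
(cons (mv 1227 (cons (fin 1355 6 1099)
(mv 1290 (cons (cons (mv 1225 (cons (fin 1226 3 1225)
(mv 1289 (cons (fin 1224 3 1224)
(mv 1353 (cons (fin 1352 1 1288)
(fin 1354 1 1289)))))))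
(mv 1357 (cons (fin 1358 0 1290)
(mv 1289 (cons (fin 1356 0 1289)
(mv 1353 (cons (fin 1352 1 1288)
(fin 1354 1 1289))))))))
(cons (mv 1229 (cons (fin 1230 2 1226)
(mv 1357 (cons (fin 1358 0 1290)
(mv 1289 (cons (fin 1356 0 1289)
(mv 1225 (cons (fin 1224 3 1224)
(fin 1226 3 1225)))))))))
(mv 1226 (cons (fin 1225 3 1225)
(mv 1354 (cons (fin 1353 1 1289)
(fin 1418 6 1162))))))))))
(cons (mv 1227 (cons (fin 1355 6 1099)
(mv 1294 (cons (fin 1226 3 1226)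
(mv 1231 (cons (fin 1230 2 1227)
(mv 1358 (cons (fin 1359 0 1291)
(mv 1295 (cons (fin 1232 2 1228)
(fin 1167 5 1102)))))))))))
(mv 1355 (cons (fin 1227 6 1099)
(mv 1294 (cons (fin 1354 1 1290)
(mv 1295 (cons (fin 1356 1 1291)
(mv 1231 (cons (fin 1230 2 1227)
(fin 1232 2 1228)))))))))))))
(mv 1355 (cons (fin 1227 6 1099)
(mv 1161 (cons (fin 1162 2 1097)
(mv 1353 (cons (cons (mv 1352 (cons (fin 1354 2 1288)
(mv 1289 (cons (fin 1290 1 1288)
(mv 1225 (cons (fin 1416 5 1160)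
(mv 1097 (cons (fin 1288 5 1096)
(fin 1098 6 1033)))))))))
(mv 1289 (cons (cons (mv 1290 (cons (fin 1352 1 1288)
(mv 1356 (cons (fin 1288 0 1288)
(fin 1357 0 1289)))))
(mv 1225 (cons (mv 1096 (cons (fin 1160 7 1096)
(mv 1097 (cons (fin 1032 7 1032)
(fin 1098 6 1033)))))
(cons (mv 1160 (cons (fin 1096 7 1096)
(mv 1416 (cons (fin 1352 5 1160)
(mv 1417 (cons (fin 1224 7 1160)
(fin 1480 5 1224)))))))
(mv 1097 (cons (fin 1098 6 1033)
(mv 1352 (cons (fin 1288 5 1096)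
(fin 1416 5 1160)))))))))
(cons (mv 1225 (cons (mv 1224 (cons (fin 1290 3 1224)
(mv 1160 (cons (fin 1096 7 1096)
(fin 1417 7 1160)))))
(cons (mv 1097 (cons (fin 1098 6 1033)
(mv 1096 (cons (fin 1032 7 1032)
(fin 1160 7 1096)))))
(mv 1224 (cons (fin 1290 3 1224)
(mv 1097 (cons (fin 1098 6 1033)
(mv 1033 (cons (fin 1288 5 1032)
(fin 970 6 969))))))))))
(mv 1290 (cons (fin 1352 1 1288)
(mv 1225 (cons (fin 1224 3 1224)
(mv 1096 (cons (fin 1160 7 1096)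
(mv 1097 (cons (fin 1032 7 1032)
(fin 1098 6 1033)))))))))))))
(cons (mv 1354 (cons (mv 1293 (cons (fin 1290 1 1289)
(fin 1294 1 1290)))
(cons (mv 1356 (cons (cons (mv 1289 (cons (fin 1288 3 1288)
(mv 1421 (cons (fin 1420 0 1353)
(mv 1357 (cons (fin 1290 3 1289)
(fin 1422 0 1354)))))))
(mv 1417 (cons (fin 1416 1 1352)
(mv 1421 (cons (fin 1420 0 1353)
(mv 1357 (cons (fin 1418 1 1353)
(fin 1422 0 1354))))))))
(cons (mv 1417 (cons (fin 1416 1 1352)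
(mv 1289 (cons (fin 1288 3 1288)
(mv 1357 (cons (fin 1290 3 1289)
(fin 1418 1 1353)))))))
(mv 1289 (cons (fin 1288 3 1288)
(mv 1225 (cons (fin 1418 4 1161)
(mv 1290 (cons (fin 1224 3 1224)
(fin 1097 4 1097))))))))))
(mv 1293 (cons (fin 1294 1 1290)
(fin 1356 2 1289))))))
(mv 1354 (cons (fin 1352 2 1288)
(mv 1293 (cons (fin 1294 1 1290)
(fin 1356 2 1289))))))))))))))))))))))))))
(mv 1102 (cons (mv 1103 (cons (fin 1039 2 1036)
(mv 1163 (cons (fin 1164 1 1099)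
(mv 1099 (cons (fin 1162 1 1098)
(mv 1167 (cons (fin 1166 0 1099)
(fin 1168 0 1100)))))))))
(cons (mv 1162 (cons (cons (mv 1099 (cons (fin 1163 1 1098)
(mv 1098 (cons (fin 1033 3 1033)
(fin 1161 1 1097)))))
(cons (mv 1161 (cons (cons (cons (mv 1163 (cons (fin 1164 2 1097)
(mv 1160 (cons (cons (mv 1095 (cons (fin 1096 3 1095)
(mv 1094 (cons (fin 1159 3 1094)
(mv 1227 (cons (fin 1228 0 1160)
(mv 1223 (cons (fin 1224 1 1159)
(mv 1098 (cons (fin 970 4 970)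
(mv 1291 (cons (fin 1355 7 1098)
(fin 1226 4 1034)))))))))))))
(mv 1095 (cons (fin 1096 3 1095)
(mv 1159 (cons (fin 1094 3 1094)
(mv 1223 (cons (fin 1222 1 1158)
(fin 1224 1 1159))))))))
(cons (mv 1223 (cons (fin 1224 1 1159)
(mv 1159 (cons (fin 1222 1 1158)
(mv 1227 (cons (fin 1226 0 1159)
(fin 1228 0 1160)))))))
(cons (mv 1227 (cons (fin 1228 0 1160)
(mv 1159 (cons (fin 1226 0 1159)
(mv 1095 (cons (fin 1094 3 1094)
(fin 1096 3 1095)))))))
(mv 1227 (cons (fin 1228 0 1160)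
(mv 1223 (cons (fin 1224 1 1159)
(mv 1098 (cons (fin 970 4 970)
(mv 1291 (cons (fin 1355 7 1098)
(fin 1226 4 1034)))))))))))))))
(mv 1098 (cons (cons (mv 970 (cons (fin 1225 5 969)
(mv 906 (cons (fin 1097 5 905)
(mv 905 (cons (fin 841 7 841)
(fin 969 7 905)))))))
(mv 1226 (cons (cons (mv 969 (cons (fin 1033 7 969)
(mv 1227 (cons (fin 1291 4 1034)
(mv 1159 (cons (fin 1160 0 1159)
(mv 1289 (cons (fin 1225 5 1033)
(mv 1290 (cons (fin 1353 5 1097)
(mv 1354 (cons (fin 1097 7 1097)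
(mv 1418 (cons (fin 1163 6 1162)
(mv 1419 (cons (fin 1355 4 1162)
(fin 1483 4 1226)))))))))))))))))
(cons (mv 969 (cons (fin 1033 7 969)
(mv 1227 (cons (fin 1291 4 1034)
(mv 1160 (cons (fin 1159 0 1159)
(mv 1228 (cons (fin 1225 3 1160)
(fin 1229 3 1161)))))))))
(mv 1227 (cons (fin 1291 4 1034)
(mv 1159 (cons (fin 1160 0 1159)
(mv 1033 (cons (fin 969 7 969)
(mv 1290 (cons (fin 1097 7 1033)
(mv 1353 (cons (fin 1289 5 1097)
(mv 1354 (cons (fin 1417 5 1161)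
(mv 1418 (cons (fin 1163 6 1162)
(mv 1419 (cons (fin 1355 4 1162)
(fin 1483 4 1226)))))))))))))))))))
(cons (mv 969 (cons (fin 1033 7 969)
(mv 1289 (cons (fin 1225 5 1033)
(mv 1290 (cons (fin 1353 5 1097)
(mv 1354 (cons (fin 1097 7 1097)
(mv 1355 (cons (fin 1291 4 1098)
(fin 1419 4 1162)))))))))))
(cons (mv 1225 (cons (fin 1289 5 1033)
(mv 1227 (cons (fin 1291 4 1034)
(mv 1160 (cons (fin 1228 3 1160)
(fin 1159 0 1159)))))))
(mv 1033 (cons (fin 969 7 969)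
(mv 1225 (cons (fin 1289 5 1033)
(mv 1097 (cons (fin 1290 7 1033)
(mv 968 (cons (fin 1032 7 968)
(mv 1224 (cons (fin 1288 5 1032)
(mv 1223 (cons (fin 1222 2 1158)
(fin 1163 2 1159))))))))))))))))))
(cons (mv 970 (cons (mv 906 (cons (fin 1097 5 905)
(mv 905 (cons (fin 841 7 841)
(fin 969 7 905)))))
(cons (mv 969 (cons (fin 905 7 905)
(mv 907 (cons (fin 971 6 906)
(mv 1226 (cons (fin 1033 7 969)
(mv 1227 (cons (fin 1163 4 970)
(fin 1291 4 1034)))))))))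
(mv 1163 (cons (fin 1227 4 970)
(mv 907 (cons (fin 971 6 906)
(mv 906 (cons (fin 1097 5 905)
(fin 843 6 842))))))))))
(cons (mv 970 (cons (fin 1225 5 969)
(mv 905 (cons (fin 969 7 905)
(mv 906 (cons (fin 841 7 841)
(mv 971 (cons (fin 972 3 905)
(fin 907 6 906)))))))))
(mv 970 (cons (fin 1225 5 969)
(mv 1163 (cons (fin 1227 4 970)
(mv 907 (cons (fin 971 6 906)
(mv 906 (cons (fin 1097 5 905)
(fin 843 6 842))))))))))))))
(cons (mv 1098 (cons (cons (mv 970 (cons (fin 1225 5 969)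
(mv 906 (cons (fin 1097 5 905)
(mv 905 (cons (fin 841 7 841)
(fin 969 7 905)))))))
(mv 1226 (cons (cons (mv 969 (cons (fin 1033 7 969)
(mv 1227 (cons (fin 1291 4 1034)
(mv 1159 (cons (fin 1160 0 1159)
(mv 1228 (cons (fin 1229 3 1161)
(mv 1225 (cons (fin 1289 5 1033)
(mv 1292 (cons (fin 1293 0 1225)
(fin 1164 6 1036)))))))))))))
(cons (mv 969 (cons (fin 1033 7 969)
(mv 1227 (cons (fin 1291 4 1034)
(mv 1160 (cons (fin 1159 0 1159)
(mv 1228 (cons (fin 1225 3 1160)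
(fin 1229 3 1161)))))))))
(mv 1291 (cons (fin 1227 4 1034)
(mv 969 (cons (fin 1033 7 969)
(mv 1290 (cons (fin 1355 4 1098)
(mv 1353 (cons (fin 1289 5 1097)
(mv 1354 (cons (fin 1097 7 1097)
(fin 1417 5 1161)))))))))))))
(cons (mv 1227 (cons (fin 1291 4 1034)
(mv 1159 (cons (fin 1160 0 1159)
(mv 1228 (cons (fin 1229 3 1161)
(mv 1225 (cons (fin 1289 5 1033)
(mv 1292 (cons (fin 1293 0 1225)
(fin 1164 6 1036)))))))))))
(cons (mv 1225 (cons (fin 1289 5 1033)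
(mv 1033 (cons (fin 969 7 969)
(mv 1290 (cons (fin 1097 7 1033)
(mv 1354 (cons (fin 1418 7 1161)
(mv 1355 (cons (fin 1291 4 1098)
(fin 1419 4 1162)))))))))))
(mv 1033 (cons (fin 969 7 969)
(mv 1289 (cons (fin 1225 5 1033)
(mv 1290 (cons (fin 1097 7 1033)
(fin 1353 5 1097))))))))))))
(cons (mv 970 (cons (cons (mv 906 (cons (fin 1097 5 905)
(mv 905 (cons (fin 841 7 841)
(fin 969 7 905)))))
(mv 969 (cons (fin 905 7 905)
(mv 907 (cons (fin 971 6 906)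
(mv 1226 (cons (fin 1033 7 969)
(mv 1291 (cons (fin 1227 4 1034)
(mv 1290 (cons (fin 1355 4 1098)
(mv 1353 (cons (fin 1289 5 1097)
(mv 1354 (cons (fin 1097 7 1097)
(fin 1417 5 1161))))))))))))))))
(cons (mv 906 (cons (fin 1097 5 905)
(mv 907 (cons (fin 843 6 842)
(fin 971 6 906)))))
(mv 905 (cons (fin 969 7 905)
(mv 906 (cons (fin 841 7 841)
(mv 971 (cons (fin 972 3 905)
(fin 907 6 906))))))))))
(cons (mv 970 (cons (fin 1225 5 969)
(mv 905 (cons (fin 969 7 905)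
(mv 906 (cons (fin 841 7 841)
(mv 971 (cons (fin 972 3 905)
(fin 907 6 906)))))))))
(mv 970 (cons (fin 1225 5 969)
(mv 906 (cons (fin 1097 5 905)
(mv 907 (cons (fin 843 6 842)
(fin 971 6 906)))))))))))
(mv 1163 (cons (fin 1164 2 1097)
(mv 1160 (cons (cons (mv 1095 (cons (fin 1096 3 1095)
(mv 1159 (cons (fin 1094 3 1094)
(mv 1223 (cons (fin 1222 1 1158)
(fin 1224 1 1159)))))))
(mv 1227 (cons (fin 1228 0 1160)
(mv 1159 (cons (fin 1226 0 1159)
(mv 1095 (cons (fin 1094 3 1094)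
(fin 1096 3 1095))))))))
(cons (mv 1223 (cons (fin 1224 1 1159)
(mv 1159 (cons (fin 1222 1 1158)
(mv 1227 (cons (fin 1226 0 1159)
(fin 1228 0 1160)))))))
(mv 1224 (cons (fin 1223 1 1159)
(mv 1227 (cons (fin 1228 0 1160)
(mv 1096 (cons (fin 1095 3 1095)
(mv 1288 (cons (mv 1097 (cons (fin 1033 6 1032)
(fin 1352 6 1096)))
(mv 1287 (cons (fin 1351 5 1095)
(mv 1225 (cons (fin 1226 1 1223)
(mv 1032 (cons (fin 968 4 968)
(fin 1289 4 1032))))))))))))))))))))))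
(cons (cons (mv 1163 (cons (fin 1164 2 1097)
(mv 1098 (cons (cons (mv 970 (cons (fin 1225 5 969)
(fin 1227 4 970)))
(mv 1226 (cons (cons (cons (mv 969 (cons (fin 1033 7 969)
(mv 1227 (cons (fin 1291 4 1034)
(mv 1159 (cons (fin 1160 0 1159)
(mv 1289 (cons (fin 1225 5 1033)
(mv 1290 (cons (fin 1353 5 1097)
(mv 1354 (cons (fin 1097 7 1097)
(fin 1418 6 1162)))))))))))))
(mv 969 (cons (fin 1033 7 969)
(mv 1291 (cons (fin 1227 4 1034)
(mv 1290 (cons (fin 1355 4 1098)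
(mv 1353 (cons (fin 1289 5 1097)
(mv 1354 (cons (fin 1097 7 1097)
(fin 1417 5 1161))))))))))))
(cons (mv 1227 (cons (fin 1291 4 1034)
(mv 1160 (cons (fin 1159 0 1159)
(mv 1033 (cons (fin 969 7 969)
(mv 1095 (cons (fin 1096 3 1095)
(mv 1097 (cons (fin 1290 7 1033)
(mv 1224 (cons (fin 1223 1 1159)
(mv 1288 (cons (fin 1225 5 1032)
(fin 1352 6 1096)))))))))))))))
(mv 1225 (cons (fin 1289 5 1033)
(mv 1223 (cons (fin 1224 2 1159)
(mv 1291 (cons (fin 1227 4 1034)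
(mv 1290 (cons (fin 1355 4 1098)
(mv 1354 (cons (fin 1097 7 1097)
(fin 1418 7 1161)))))))))))))
(cons (cons (mv 969 (cons (fin 1033 7 969)
(mv 1289 (cons (fin 1225 5 1033)
(mv 1290 (cons (fin 1353 5 1097)
(mv 1354 (cons (fin 1097 7 1097)
(mv 1355 (cons (fin 1291 4 1098)
(fin 1419 4 1162)))))))))))
(mv 1225 (cons (fin 1289 5 1033)
(mv 1223 (cons (fin 1224 2 1159)
(mv 1033 (cons (fin 969 7 969)
(mv 1097 (cons (fin 1290 7 1033)
(mv 1032 (cons (fin 968 7 968)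
(mv 1095 (cons (fin 1096 0 1095)
(mv 1031 (cons (fin 1094 1 1030)
(fin 1030 0 1030))))))))))))))))
(cons (mv 969 (cons (fin 1033 7 969)
(mv 1227 (cons (fin 1291 4 1034)
(mv 1160 (cons (fin 1159 0 1159)
(mv 1289 (cons (fin 1225 5 1033)
(mv 1096 (cons (fin 1095 3 1095)
(mv 1353 (cons (fin 1290 5 1097)
(mv 1224 (cons (fin 1223 1 1159)
(fin 1288 4 1096)))))))))))))))
(mv 1225 (cons (fin 1289 5 1033)
(mv 1224 (cons (fin 1223 2 1159)
(mv 969 (cons (fin 1033 7 969)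
(mv 1227 (cons (fin 1291 4 1034)
(mv 1160 (cons (fin 1159 3 1159)
(mv 1288 (cons (fin 1287 1 1223)
(mv 1352 (cons (fin 1097 6 1096)
(fin 1416 6 1160))))))))))))))))))))
(cons (mv 970 (cons (fin 1227 4 970)
(mv 907 (cons (fin 971 6 906)
(mv 906 (cons (fin 1097 5 905)
(fin 843 6 842)))))))
(mv 970 (cons (fin 1225 5 969)
(mv 907 (cons (fin 971 6 906)
(mv 906 (cons (fin 1097 5 905)
(fin 843 6 842))))))))))))
(mv 1163 (cons (fin 1164 2 1097)
(mv 1160 (cons (cons (mv 1095 (cons (fin 1096 3 1095)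
(mv 1159 (cons (fin 1094 3 1094)
(mv 1223 (cons (fin 1222 1 1158)
(fin 1224 1 1159)))))))
(mv 1227 (cons (fin 1228 0 1160)
(mv 1224 (cons (fin 1223 1 1159)
(mv 970 (cons (fin 1098 4 970)
(mv 1033 (cons (cons (mv 1097 (cons (fin 969 5 968)
(fin 1225 6 969)))
(mv 971 (cons (fin 972 1 969)
(mv 1032 (cons (fin 1031 2 967)
(mv 1096 (cons (fin 969 6 968)
(mv 1225 (cons (fin 968 4 968)
(fin 1289 4 1032))))))))))
(cons (mv 971 (cons (fin 972 1 969)
(mv 1097 (cons (fin 1225 6 969)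
(mv 1288 (cons (fin 1096 6 1032)
(fin 1352 6 1096)))))))
(mv 969 (cons (fin 1097 5 968)
(mv 971 (cons (fin 972 1 969)
(mv 1032 (cons (fin 1031 2 967)
(fin 1096 6 968)))))))))))))))))
(cons (mv 1227 (cons (fin 1228 0 1160)
(mv 1096 (cons (fin 1095 3 1095)
(mv 970 (cons (fin 1098 4 970)
(mv 1033 (cons (cons (mv 971 (cons (fin 972 1 969)
(mv 1097 (cons (fin 1225 6 969)
(mv 906 (cons (fin 842 5 841)
(fin 969 6 905)))))))
(mv 971 (cons (fin 972 1 969)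
(mv 1032 (cons (fin 1031 2 967)
(mv 969 (cons (fin 1224 6 968)
(mv 968 (cons (fin 905 6 904)
(fin 1225 4 968))))))))))
(cons (mv 971 (cons (fin 972 1 969)
(mv 1032 (cons (fin 1031 2 967)
(mv 969 (cons (fin 1224 6 968)
(mv 905 (cons (fin 841 5 840)
(fin 1097 5 904)))))))))
(cons (mv 1097 (cons (fin 1225 6 969)
(mv 906 (cons (fin 842 5 841)
(fin 969 6 905)))))
(mv 1225 (cons (fin 1097 6 969)
(mv 971 (cons (fin 972 1 969)
(mv 1032 (cons (fin 1031 2 967)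
(fin 968 4 968)))))))))))))))))
(cons (mv 1227 (cons (fin 1228 0 1160)
(mv 1223 (cons (fin 1224 1 1159)
(mv 1159 (cons (fin 1222 1 1158)
(mv 1094 (cons (fin 1095 3 1094)
(mv 1158 (cons (fin 1093 3 1093)
(mv 1098 (cons (fin 1097 2 1094)
(fin 970 4 970)))))))))))))
(mv 1227 (cons (fin 1228 0 1160)
(mv 1095 (cons (fin 1096 3 1095)
(mv 1159 (cons (fin 1094 3 1094)
(mv 1098 (cons (fin 970 4 970)
(mv 1222 (cons (fin 1223 1 1158)
(mv 1158 (cons (fin 1221 1 1157)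
(fin 1097 2 1094))))))))))))))))))))
(cons (mv 1163 (cons (fin 1164 2 1097)
(mv 1098 (cons (cons (mv 970 (cons (fin 1225 5 969)
(fin 1227 4 970)))
(mv 1226 (cons (cons (mv 969 (cons (fin 1033 7 969)
(mv 1227 (cons (fin 1291 4 1034)
(mv 1228 (cons (fin 1229 3 1161)
(mv 1289 (cons (fin 1225 5 1033)
(mv 1290 (cons (fin 1353 5 1097)
(mv 1354 (cons (fin 1097 7 1097)
(fin 1418 6 1162)))))))))))))
(cons (mv 969 (cons (fin 1033 7 969)
(mv 1291 (cons (fin 1227 4 1034)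
(mv 1290 (cons (fin 1355 4 1098)
(mv 1353 (cons (fin 1289 5 1097)
(mv 1354 (cons (fin 1097 7 1097)
(fin 1417 5 1161)))))))))))
(mv 1291 (cons (fin 1227 4 1034)
(mv 969 (cons (fin 1033 7 969)
(mv 1290 (cons (fin 1355 4 1098)
(mv 1354 (cons (fin 1097 7 1097)
(mv 1418 (cons (fin 1225 7 1161)
(mv 1417 (cons (fin 1353 5 1161)
(fin 1481 5 1225)))))))))))))))
(cons (cons (mv 1225 (cons (fin 1289 5 1033)
(mv 1223 (cons (fin 1224 2 1159)
(mv 1033 (cons (fin 969 7 969)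
(mv 1097 (cons (fin 1290 7 1033)
(mv 1032 (cons (fin 968 7 968)
(mv 1095 (cons (fin 1096 0 1095)
(mv 1031 (cons (fin 1094 1 1030)
(fin 1030 0 1030)))))))))))))))
(mv 1227 (cons (fin 1291 4 1034)
(mv 1228 (cons (fin 1229 3 1161)
(mv 1289 (cons (fin 1225 5 1033)
(mv 1290 (cons (fin 1353 5 1097)
(mv 1354 (cons (fin 1097 7 1097)
(fin 1418 6 1162))))))))))))
(cons (mv 1289 (cons (fin 1225 5 1033)
(mv 1291 (cons (fin 1227 4 1034)
(mv 1290 (cons (fin 1353 5 1097)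
(fin 1355 4 1098)))))))
(mv 1033 (cons (fin 969 7 969)
(mv 1227 (cons (fin 1291 4 1034)
(mv 1228 (cons (fin 1229 3 1161)
(mv 1225 (cons (fin 1289 5 1033)
(mv 1292 (cons (fin 1293 0 1225)
(mv 1224 (cons (fin 1223 2 1159)
(mv 1288 (cons (fin 1287 1 1223)
(fin 1097 5 1032))))))))))))))))))))
(cons (mv 970 (cons (fin 1227 4 970)
(mv 907 (cons (fin 971 6 906)
(mv 906 (cons (fin 1097 5 905)
(fin 843 6 842)))))))
(mv 970 (cons (fin 1225 5 969)
(mv 907 (cons (fin 971 6 906)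
(mv 906 (cons (fin 1097 5 905)
(fin 843 6 842))))))))))))
(mv 1097 (cons (cons (cons (mv 1164 (cons (fin 1163 2 1097)
(mv 1228 (cons (fin 1292 6 1036)
(mv 1225 (cons (cons (mv 970 (cons (fin 1098 5 969)
(fin 1033 6 969)))
(mv 1033 (cons (fin 970 6 969)
(mv 1226 (cons (fin 969 4 969)
(fin 1290 4 1033))))))
(cons (mv 1289 (cons (fin 1098 6 1033)
(mv 1288 (cons (fin 1352 5 1096)
(mv 1033 (cons (fin 1224 5 1032)
(mv 1032 (cons (fin 968 7 968)
(fin 1096 7 1032)))))))))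
(mv 1098 (cons (fin 970 5 969)
(fin 1289 6 1033))))))))))
(mv 1225 (cons (cons (mv 970 (cons (fin 1098 5 969)
(fin 1033 6 969)))
(mv 1033 (cons (fin 970 6 969)
(mv 1226 (cons (fin 969 4 969)
(fin 1290 4 1033))))))
(cons (mv 1289 (cons (fin 1098 6 1033)
(mv 1288 (cons (fin 1352 5 1096)
(mv 1033 (cons (fin 1224 5 1032)
(mv 1032 (cons (fin 968 7 968)
(fin 1096 7 1032)))))))))
(mv 1098 (cons (fin 970 5 969)
(fin 1289 6 1033)))))))
(cons (mv 1163 (cons (fin 1164 2 1097)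
(mv 1160 (cons (cons (mv 1095 (cons (fin 1096 3 1095)
(mv 1159 (cons (fin 1094 3 1094)
(mv 1223 (cons (fin 1222 1 1158)
(fin 1224 1 1159)))))))
(mv 1223 (cons (fin 1224 1 1159)
(mv 1159 (cons (fin 1222 1 1158)
(mv 1098 (cons (fin 1158 2 1094)
(mv 970 (cons (fin 906 5 905)
(mv 969 (cons (fin 905 7 905)
(mv 971 (cons (fin 907 6 906)
(mv 1033 (cons (fin 972 1 969)
(fin 1226 7 969))))))))))))))))
(cons (mv 1095 (cons (fin 1096 3 1095)
(mv 1159 (cons (fin 1094 3 1094)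
(mv 1222 (cons (fin 1223 1 1158)
(mv 1158 (cons (fin 1221 1 1157)
(fin 1098 2 1094)))))))))
(cons (mv 1095 (cons (fin 1096 3 1095)
(mv 1159 (cons (fin 1094 3 1094)
(mv 1098 (cons (fin 1158 2 1094)
(mv 970 (cons (fin 906 5 905)
(mv 969 (cons (fin 905 7 905)
(mv 1033 (cons (fin 1226 7 969)
(fin 1224 5 968)))))))))))))
(mv 1096 (cons (fin 1095 3 1095)
(mv 1224 (cons (fin 1223 1 1159)
(mv 1033 (cons (fin 969 5 968)
(fin 1288 6 1032)))))))))))))
(mv 1163 (cons (fin 1164 2 1097)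
(mv 1033 (cons (cons (mv 970 (cons (fin 1225 6 969)
(mv 906 (cons (fin 842 5 841)
(fin 969 6 905)))))
(mv 969 (cons (fin 1226 4 969)
(mv 906 (cons (fin 970 6 905)
(mv 905 (cons (fin 842 6 841)
(mv 1160 (cons (fin 1096 5 904)
(fin 1224 5 968))))))))))
(cons (mv 1225 (cons (fin 970 6 969)
(mv 1224 (cons (fin 1288 5 1032)
(mv 1226 (cons (fin 1223 2 1159)
(fin 1290 4 1033)))))))
(mv 969 (cons (fin 1226 4 969)
(mv 1160 (cons (fin 1224 5 968)
(mv 1096 (cons (fin 1095 3 1095)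
(fin 905 5 904))))))))))))))
(cons (cons (mv 1163 (cons (fin 1164 2 1097)
(mv 1160 (cons (cons (mv 1095 (cons (fin 1096 3 1095)
(mv 1094 (cons (fin 1159 3 1094)
(mv 1224 (cons (fin 1223 1 1159)
(mv 1033 (cons (fin 969 5 968)
(mv 1288 (cons (fin 1225 5 1032)
(fin 1352 6 1096)))))))))))
(cons (mv 1223 (cons (fin 1224 1 1159)
(mv 1159 (cons (fin 1222 1 1158)
(mv 1158 (cons (fin 1098 2 1094)
(mv 1096 (cons (fin 1157 2 1093)
(mv 1225 (cons (fin 1226 0 1158)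
(mv 1032 (cons (fin 1289 7 1032)
(fin 968 5 967)))))))))))))
(mv 1223 (cons (fin 1224 1 1159)
(mv 1159 (cons (fin 1222 1 1158)
(mv 1094 (cons (fin 1095 3 1094)
(mv 1158 (cons (fin 1093 3 1093)
(fin 1098 2 1094)))))))))))
(cons (mv 1095 (cons (fin 1096 3 1095)
(mv 1159 (cons (fin 1094 3 1094)
(mv 1222 (cons (fin 1223 1 1158)
(mv 1158 (cons (fin 1221 1 1157)
(fin 1098 2 1094)))))))))
(cons (mv 1095 (cons (fin 1096 3 1095)
(mv 1159 (cons (fin 1094 3 1094)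
(mv 1158 (cons (fin 1098 2 1094)
(mv 1221 (cons (fin 1222 1 1157)
(mv 1157 (cons (fin 1220 1 1156)
(mv 1225 (cons (fin 1224 0 1157)
(fin 1226 0 1158)))))))))))))
(mv 1095 (cons (fin 1096 3 1095)
(mv 1224 (cons (fin 1223 1 1159)
(mv 1033 (cons (fin 969 5 968)
(mv 1288 (cons (fin 1225 5 1032)
(fin 1352 6 1096)))))))))))))))
(mv 1163 (cons (fin 1164 2 1097)
(mv 1160 (cons (cons (mv 1095 (cons (fin 1096 3 1095)
(mv 1159 (cons (fin 1094 3 1094)
(mv 1223 (cons (fin 1222 1 1158)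
(fin 1224 1 1159)))))))
(mv 1223 (cons (fin 1224 1 1159)
(mv 1159 (cons (fin 1222 1 1158)
(mv 1098 (cons (fin 1158 2 1094)
(mv 970 (cons (fin 906 5 905)
(fin 1225 5 969))))))))))
(cons (mv 1095 (cons (fin 1096 3 1095)
(mv 1159 (cons (fin 1094 3 1094)
(mv 1222 (cons (fin 1223 1 1158)
(mv 1158 (cons (fin 1221 1 1157)
(fin 1098 2 1094)))))))))
(cons (mv 1095 (cons (fin 1096 3 1095)
(mv 1159 (cons (fin 1094 3 1094)
(mv 1098 (cons (fin 1158 2 1094)
(mv 970 (cons (fin 906 5 905)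
(fin 1225 5 969)))))))))
(mv 1096 (cons (fin 1095 3 1095)
(mv 1224 (cons (fin 1223 1 1159)
(mv 1288 (cons (fin 1352 6 1096)
(mv 1287 (cons (fin 1351 5 1095)
(mv 1289 (cons (fin 1353 4 1096)
(mv 1225 (cons (fin 1032 7 1032)
(fin 1098 6 1033))))))))))))))))))))
(cons (mv 1163 (cons (fin 1164 2 1097)
(mv 1225 (cons (cons (mv 970 (cons (fin 1098 5 969)
(fin 1033 6 969)))
(mv 1033 (cons (fin 970 6 969)
(mv 1226 (cons (fin 969 4 969)
(fin 1290 4 1033))))))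
(cons (mv 1289 (cons (fin 1098 6 1033)
(mv 1288 (cons (fin 1352 5 1096)
(mv 1033 (cons (fin 1224 5 1032)
(mv 1226 (cons (fin 969 4 969)
(fin 1290 4 1033)))))))))
(mv 1098 (cons (fin 970 5 969)
(fin 1289 6 1033))))))))
(cons (mv 1163 (cons (fin 1164 2 1097)
(mv 1225 (cons (cons (mv 970 (cons (fin 1098 5 969)
(fin 1033 6 969)))
(mv 1033 (cons (fin 970 6 969)
(mv 1226 (cons (fin 969 4 969)
(fin 1290 4 1033))))))
(cons (mv 1289 (cons (fin 1098 6 1033)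
(mv 1288 (cons (fin 1352 5 1096)
(mv 1290 (cons (fin 1354 4 1097)
(mv 1033 (cons (fin 1226 4 1033)
(mv 1032 (cons (fin 968 7 968)
(fin 1096 7 1032)))))))))))
(mv 1098 (cons (fin 970 5 969)
(fin 1289 6 1033))))))))
(mv 1163 (cons (fin 1164 2 1097)
(mv 1225 (cons (cons (mv 970 (cons (fin 1098 5 969)
(fin 1033 6 969)))
(mv 1033 (cons (fin 970 6 969)
(mv 1226 (cons (fin 969 4 969)
(fin 1290 4 1033))))))
(cons (mv 1289 (cons (fin 1098 6 1033)
(mv 1290 (cons (fin 1354 4 1097)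
(mv 1033 (cons (fin 1226 4 1033)
(mv 1032 (cons (fin 968 7 968)
(fin 1096 7 1032)))))))))
(mv 1098 (cons (fin 970 5 969)
(fin 1289 6 1033)))))))))))))))))
(mv 1098 (cons (cons (mv 1099 (cons (fin 1033 3 1033)
(fin 1161 1 1097)))
(mv 970 (cons (cons (mv 905 (cons (fin 969 7 905)
(mv 841 (cons (fin 906 7 841)
(mv 971 (cons (fin 907 6 906)
(mv 1225 (cons (fin 1161 5 969)
(mv 1033 (cons (fin 972 1 969)
(mv 1226 (cons (fin 1289 5 1033)
(mv 1290 (cons (fin 1097 7 1033)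
(mv 1291 (cons (fin 1227 4 1034)
(fin 1355 4 1098)))))))))))))))))
(cons (mv 1161 (cons (fin 1225 5 969)
(mv 906 (cons (fin 1097 5 905)
(mv 907 (cons (fin 843 6 842)
(fin 971 6 906)))))))
(mv 907 (cons (fin 971 6 906)
(mv 843 (cons (fin 906 6 842)
(mv 969 (cons (fin 905 7 905)
(mv 1226 (cons (fin 1033 7 969)
(mv 1289 (cons (fin 1225 5 1033)
(mv 1291 (cons (fin 1227 4 1034)
(mv 1290 (cons (fin 1353 5 1097)
(fin 1355 4 1098)))))))))))))))))
(cons (mv 905 (cons (fin 969 7 905)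
(mv 906 (cons (fin 841 7 841)
(mv 1161 (cons (fin 1097 5 905)
(fin 1225 5 969)))))))
(cons (mv 907 (cons (fin 971 6 906)
(mv 906 (cons (fin 843 6 842)
(mv 905 (cons (fin 841 7 841)
(fin 969 7 905)))))))
(mv 905 (cons (fin 969 7 905)
(mv 1225 (cons (fin 1161 5 969)
(mv 971 (cons (fin 907 6 906)
(mv 1226 (cons (fin 1289 5 1033)
(mv 1033 (cons (fin 972 1 969)
(mv 1291 (cons (fin 1227 4 1034)
(mv 1290 (cons (fin 1097 7 1033)
(fin 1355 4 1098))))))))))))))))))))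
(cons (mv 1161 (cons (fin 1099 1 1097)
(mv 970 (cons (fin 1225 5 969)
(mv 906 (cons (fin 1097 5 905)
(mv 905 (cons (fin 841 7 841)
(fin 969 7 905)))))))))
(mv 1033 (cons (fin 1099 3 1033)
(mv 969 (cons (fin 1226 7 969)
(mv 905 (cons (fin 970 7 905)
(fin 841 4 841))))))))))))
(cons (mv 1163 (cons (fin 1099 1 1098)
(mv 1161 (cons (fin 1164 2 1097)
(mv 1160 (cons (cons (mv 1095 (cons (fin 1096 3 1095)
(mv 1159 (cons (fin 1094 3 1094)
(mv 1223 (cons (fin 1222 1 1158)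
(fin 1224 1 1159)))))))
(mv 1227 (cons (fin 1228 0 1160)
(mv 1159 (cons (fin 1226 0 1159)
(mv 1095 (cons (fin 1094 3 1094)
(fin 1096 3 1095))))))))
(cons (mv 1223 (cons (fin 1224 1 1159)
(mv 1159 (cons (fin 1222 1 1158)
(mv 1227 (cons (fin 1226 0 1159)
(fin 1228 0 1160)))))))
(mv 1224 (cons (fin 1223 1 1159)
(mv 1227 (cons (fin 1228 0 1160)
(mv 1096 (cons (fin 1095 3 1095)
(mv 1288 (cons (mv 1097 (cons (fin 1033 6 1032)
(fin 1352 6 1096)))
(mv 1287 (cons (fin 1351 5 1095)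
(mv 1225 (cons (fin 1226 1 1223)
(mv 1032 (cons (fin 968 4 968)
(fin 1289 4 1032))))))))))))))))))))))
(cons (mv 1098 (cons (cons (mv 1099 (cons (fin 1033 3 1033)
(fin 1163 1 1098)))
(mv 970 (cons (cons (mv 905 (cons (fin 969 7 905)
(mv 841 (cons (fin 906 7 841)
(mv 1227 (cons (fin 1163 4 970)
(mv 971 (cons (fin 907 6 906)
(mv 1226 (cons (fin 1291 4 1034)
(mv 1289 (cons (fin 1225 5 1033)
(mv 1033 (cons (fin 972 1 969)
(mv 1290 (cons (fin 1097 7 1033)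
(fin 1353 5 1097)))))))))))))))))
(mv 1163 (cons (fin 1227 4 970)
(mv 971 (cons (fin 907 6 906)
(mv 1033 (cons (fin 972 1 969)
(mv 1031 (cons (fin 1032 2 967)
(mv 1226 (cons (fin 969 7 969)
(mv 1290 (cons (fin 1097 7 1033)
(mv 1289 (cons (fin 1225 5 1033)
(fin 1353 5 1097))))))))))))))))
(cons (mv 971 (cons (fin 907 6 906)
(mv 1227 (cons (fin 1163 4 970)
(mv 1033 (cons (fin 972 1 969)
(mv 1226 (cons (fin 1291 4 1034)
(mv 1289 (cons (fin 1225 5 1033)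
(mv 1290 (cons (fin 1097 7 1033)
(fin 1353 5 1097)))))))))))))
(cons (mv 1227 (cons (fin 1163 4 970)
(mv 969 (cons (fin 905 7 905)
(mv 1226 (cons (fin 1033 7 969)
(fin 1291 4 1034)))))))
(mv 907 (cons (fin 971 6 906)
(mv 906 (cons (fin 843 6 842)
(mv 905 (cons (fin 841 7 841)
(fin 969 7 905))))))))))))
(cons (mv 1163 (cons (fin 1099 1 1098)
(mv 970 (cons (fin 1227 4 970)
(mv 907 (cons (fin 971 6 906)
(mv 906 (cons (fin 843 6 842)
(mv 905 (cons (fin 841 7 841)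
(fin 969 7 905)))))))))))
(mv 1033 (cons (fin 1099 3 1033)
(mv 969 (cons (fin 1226 7 969)
(mv 905 (cons (fin 970 7 905)
(fin 841 4 841))))))))))
(mv 1163 (cons (fin 1099 1 1098)
(mv 1161 (cons (fin 1164 2 1097)
(mv 1160 (cons (cons (mv 1095 (cons (fin 1096 3 1095)
(mv 1094 (cons (fin 1159 3 1094)
(mv 1227 (cons (fin 1228 0 1160)
(mv 1223 (cons (fin 1224 1 1159)
(mv 1098 (cons (fin 970 4 970)
(mv 1291 (cons (fin 1355 7 1098)
(fin 1226 4 1034)))))))))))))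
(mv 1095 (cons (fin 1096 3 1095)
(mv 1159 (cons (fin 1094 3 1094)
(mv 1223 (cons (fin 1222 1 1158)
(fin 1224 1 1159))))))))
(cons (mv 1227 (cons (fin 1228 0 1160)
(mv 1159 (cons (fin 1226 0 1159)
(mv 1095 (cons (fin 1094 3 1094)
(fin 1096 3 1095)))))))
(cons (mv 1227 (cons (fin 1228 0 1160)
(mv 1159 (cons (fin 1226 0 1159)
(mv 1223 (cons (fin 1222 1 1158)
(fin 1224 1 1159)))))))
(mv 1227 (cons (fin 1228 0 1160)
(mv 1095 (cons (fin 1096 3 1095)
(mv 1098 (cons (fin 970 4 970)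
(mv 1291 (cons (fin 1355 7 1098)
(fin 1226 4 1034)))))))))))))))))))))
(mv 1168 (cons (cons (mv 1103 (cons (fin 1039 2 1036)
(fin 1167 0 1100)))
(mv 1104 (cons (mv 911 (cons (fin 976 7 911)
(mv 1039 (cons (fin 1232 7 975)
(fin 847 4 847)))))
(cons (mv 1232 (cons (fin 1039 7 975)
(mv 1295 (cons (fin 1231 5 1039)
(mv 1233 (cons (fin 1297 4 1040)
(mv 1296 (cons (fin 1359 5 1103)
(mv 1294 (cons (fin 1293 2 1229)
(mv 1234 (cons (fin 1235 1 1231)
(mv 1166 (cons (fin 1230 7 1037)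
(mv 1169 (cons (fin 1167 3 1101)
(mv 1360 (cons (fin 1105 6 1104)
(fin 1424 6 1168)))))))))))))))))))
(mv 976 (cons (fin 911 7 911)
(mv 1167 (cons (fin 1231 5 975)
(mv 1169 (cons (fin 1166 3 1101)
(fin 1233 4 976)))))))))))
(cons (mv 1167 (cons (fin 1103 0 1100)
(mv 1169 (cons (fin 1166 3 1101)
(mv 1104 (cons (mv 976 (cons (fin 911 7 911)
(fin 1231 5 975)))
(cons (mv 1170 (cons (cons (mv 1230 (cons (fin 1231 1 1166)
(mv 1234 (cons (fin 1235 0 1167)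
(mv 1107 (cons (fin 1106 2 1103)
(mv 1171 (cons (fin 1108 2 1104)
(mv 1172 (cons (fin 1105 3 1104)
(mv 1233 (cons (fin 1232 1 1168)
(fin 1173 1 1169)))))))))))))
(mv 1107 (cons (fin 1106 2 1103)
(mv 1234 (cons (fin 1235 0 1167)
(mv 1171 (cons (fin 1108 2 1104)
(mv 1172 (cons (fin 1105 3 1104)
(mv 1233 (cons (fin 1232 1 1168)
(fin 1173 1 1169))))))))))))
(cons (mv 1231 (cons (fin 1230 1 1166)
(mv 1232 (cons (fin 1171 1 1167)
(fin 1295 5 1039)))))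
(cons (mv 1234 (cons (fin 1235 0 1167)
(mv 1106 (cons (fin 1107 2 1103)
(mv 1231 (cons (fin 1230 1 1166)
(mv 1295 (cons (fin 1232 5 1039)
(fin 1359 6 1103)))))))))
(mv 1230 (cons (fin 1231 1 1166)
(mv 1234 (cons (fin 1235 0 1167)
(mv 1107 (cons (fin 1106 2 1103)
(mv 1171 (cons (fin 1108 2 1104)
(mv 1172 (cons (fin 1105 3 1104)
(mv 1173 (cons (fin 1233 1 1169)
(mv 1237 (cons (fin 1236 0 1169)
(fin 1238 0 1170)))))))))))))))))))
(mv 976 (cons (fin 911 7 911)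
(fin 1233 4 976))))))))))
(mv 1039 (cons (fin 1103 2 1036)
(mv 1104 (cons (fin 1232 7 975)
(mv 911 (cons (fin 976 7 911)
(fin 847 4 847))))))))))))))))
(cons (cons (mv 1164 (cons (mv 1228 (cons (fin 1036 6 972)
(fin 1292 6 1036)))
(cons (mv 1103 (cons (mv 1102 (cons (fin 1163 1 1099)
(fin 1039 2 1036)))
(cons (mv 1039 (cons (cons (mv 911 (cons (cons (mv 1104 (cons (fin 847 4 847)
(fin 1168 4 911)))
(mv 846 (cons (fin 910 7 846)
(mv 782 (cons (fin 847 7 782)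
(mv 912 (cons (fin 848 6 847)
(mv 1167 (cons (fin 976 6 911)
(mv 1230 (cons (fin 1166 5 974)
(mv 1232 (cons (fin 1168 4 975)
(mv 1231 (cons (fin 1294 5 1038)
(fin 1296 4 1039))))))))))))))))
(cons (mv 848 (cons (fin 912 6 847)
(mv 1168 (cons (fin 1104 4 911)
(mv 846 (cons (fin 910 7 846)
(mv 1167 (cons (fin 1232 4 975)
(mv 1231 (cons (fin 976 6 975)
(mv 1230 (cons (fin 1166 5 974)
(fin 1294 5 1038)))))))))))))
(mv 847 (cons (fin 1104 4 847)
(mv 846 (cons (fin 782 7 782)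
(fin 910 7 846))))))))
(cons (mv 1167 (cons (mv 976 (cons (fin 912 6 911)
(fin 1231 6 975)))
(cons (mv 1230 (cons (fin 1166 5 974)
(mv 1232 (cons (fin 1168 4 975)
(mv 1231 (cons (fin 1294 5 1038)
(fin 1296 4 1039)))))))
(mv 1168 (cons (fin 1232 4 975)
(mv 976 (cons (fin 912 6 911)
(mv 1166 (cons (fin 1230 5 974)
(mv 1169 (cons (cons (mv 1233 (cons (fin 1234 0 1166)
(fin 1104 4 976)))
(mv 1106 (cons (fin 1105 2 1102)
(mv 1170 (cons (fin 1107 2 1103)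
(mv 1171 (cons (fin 1104 3 1103)
(mv 1235 (cons (fin 1234 0 1167)
(fin 1236 0 1168))))))))))
(cons (mv 1106 (cons (fin 1105 2 1102)
(mv 1234 (cons (fin 1233 0 1166)
(mv 1170 (cons (fin 1107 2 1103)
(fin 1235 0 1167)))))))
(mv 1106 (cons (fin 1105 2 1102)
(mv 1104 (cons (fin 1233 4 976)
(mv 1170 (cons (fin 1171 3 1103)
(fin 1107 2 1103)))))))))))))))))))
(mv 911 (cons (mv 1104 (cons (fin 847 4 847)
(fin 1168 4 911)))
(cons (mv 846 (cons (fin 910 7 846)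
(mv 847 (cons (fin 782 7 782)
(mv 848 (cons (fin 784 6 783)
(fin 912 6 847)))))))
(mv 910 (cons (fin 846 7 846)
(mv 1104 (cons (fin 1168 4 911)
(mv 912 (cons (fin 848 6 847)
(mv 913 (cons (cons (mv 849 (cons (fin 850 2 846)
(fin 976 6 848)))
(mv 978 (cons (fin 977 0 910)
(mv 914 (cons (fin 979 0 911)
(mv 851 (cons (fin 850 2 847)
(mv 915 (cons (fin 976 1 911)
(fin 852 2 848))))))))))
(cons (mv 978 (cons (fin 977 0 910)
(mv 850 (cons (fin 849 2 846)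
(mv 914 (cons (fin 851 2 847)
(fin 979 0 911)))))))
(mv 978 (cons (fin 977 0 910)
(mv 976 (cons (fin 849 6 848)
(mv 914 (cons (fin 915 1 911)
(fin 979 0 911)))))))))))))))))))))
(cons (cons (mv 911 (cons (mv 1104 (cons (fin 847 4 847)
(fin 1168 4 911)))
(cons (mv 846 (cons (fin 910 7 846)
(mv 847 (cons (fin 782 7 782)
(mv 848 (cons (fin 784 6 783)
(fin 912 6 847)))))))
(mv 846 (cons (fin 910 7 846)
(mv 848 (cons (fin 912 6 847)
(mv 1167 (cons (cons (mv 1168 (cons (fin 1104 4 911)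
(fin 1232 4 975)))
(mv 1230 (cons (fin 1166 5 974)
(mv 1231 (cons (fin 1294 5 1038)
(mv 1295 (cons (fin 1104 6 1039)
(mv 1296 (cons (fin 1232 4 1039)
(fin 1360 4 1103))))))))))
(cons (mv 1230 (cons (fin 1166 5 974)
(mv 1232 (cons (fin 1168 4 975)
(mv 1231 (cons (fin 1294 5 1038)
(fin 1296 4 1039)))))))
(mv 1230 (cons (fin 1166 5 974)
(mv 1104 (cons (fin 1168 4 911)
(mv 1231 (cons (fin 1294 5 1038)
(fin 1295 6 1039)))))))))))))))))
(mv 1167 (cons (mv 976 (cons (fin 912 6 911)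
(fin 1231 6 975)))
(cons (mv 1230 (cons (fin 1166 5 974)
(mv 1232 (cons (fin 1168 4 975)
(mv 1231 (cons (fin 1294 5 1038)
(fin 1296 4 1039)))))))
(mv 1168 (cons (fin 1232 4 975)
(mv 1166 (cons (fin 1230 5 974)
(mv 911 (cons (cons (mv 912 (cons (fin 848 6 847)
(fin 976 6 911)))
(mv 846 (cons (fin 910 7 846)
(mv 847 (cons (fin 782 7 782)
(mv 784 (cons (fin 848 6 783)
(mv 783 (cons (fin 720 6 719)
(fin 976 4 783))))))))))
(cons (mv 846 (cons (fin 910 7 846)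
(mv 847 (cons (fin 782 7 782)
(mv 848 (cons (fin 784 6 783)
(fin 912 6 847)))))))
(mv 976 (cons (fin 912 6 911)
(mv 846 (cons (fin 910 7 846)
(mv 847 (cons (fin 782 7 782)
(fin 783 4 783))))))))))))))))))
(cons (mv 911 (cons (mv 1104 (cons (fin 847 4 847)
(fin 1168 4 911)))
(cons (mv 846 (cons (fin 910 7 846)
(mv 847 (cons (fin 782 7 782)
(mv 784 (cons (fin 848 6 783)
(mv 783 (cons (fin 720 6 719)
(fin 976 4 783)))))))))
(mv 846 (cons (fin 910 7 846)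
(mv 1168 (cons (fin 1104 4 911)
(mv 1167 (cons (fin 1232 4 975)
(mv 1231 (cons (fin 976 6 975)
(mv 1230 (cons (fin 1166 5 974)
(fin 1294 5 1038))))))))))))))
(mv 1167 (cons (mv 976 (cons (fin 912 6 911)
(fin 1231 6 975)))
(cons (mv 1230 (cons (fin 1166 5 974)
(mv 1231 (cons (fin 1294 5 1038)
(mv 1295 (cons (fin 1104 6 1039)
(mv 1296 (cons (fin 1232 4 1039)
(fin 1360 4 1103)))))))))
(mv 1166 (cons (fin 1230 5 974)
(mv 912 (cons (fin 976 6 911)
(mv 911 (cons (fin 848 6 847)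
(mv 846 (cons (fin 910 7 846)
(mv 847 (cons (fin 782 7 782)
(fin 1104 4 847))))))))))))))))))
(mv 1102 (cons (fin 1163 1 1099)
(mv 1104 (cons (fin 1036 3 1036)
(mv 1168 (cons (fin 1167 0 1100)
(fin 1169 0 1101))))))))))
(mv 1228 (cons (fin 1292 6 1036)
(mv 1103 (cons (cons (mv 1102 (cons (fin 1163 1 1099)
(fin 1039 2 1036)))
(mv 1039 (cons (cons (mv 1167 (cons (mv 976 (cons (fin 912 6 911)
(fin 1231 6 975)))
(cons (mv 1166 (cons (fin 1230 5 974)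
(mv 1168 (cons (fin 1232 4 975)
(mv 911 (cons (fin 1104 4 911)
(mv 848 (cons (fin 912 6 847)
(mv 847 (cons (fin 784 6 783)
(mv 846 (cons (fin 782 7 782)
(fin 910 7 846)))))))))))))
(mv 1168 (cons (fin 1232 4 975)
(mv 911 (cons (fin 1104 4 911)
(mv 846 (cons (fin 910 7 846)
(mv 782 (cons (fin 847 7 782)
(mv 1231 (cons (fin 976 6 975)
(mv 1230 (cons (fin 1229 2 1164)
(fin 1166 5 974))))))))))))))))
(cons (mv 911 (cons (mv 1104 (cons (fin 847 4 847)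
(fin 1168 4 911)))
(cons (mv 846 (cons (fin 910 7 846)
(mv 847 (cons (fin 782 7 782)
(mv 848 (cons (fin 784 6 783)
(fin 912 6 847)))))))
(mv 910 (cons (fin 846 7 846)
(mv 912 (cons (fin 848 6 847)
(mv 1104 (cons (fin 1168 4 911)
(mv 913 (cons (cons (mv 849 (cons (fin 850 2 846)
(fin 976 6 848)))
(mv 978 (cons (fin 977 0 910)
(mv 914 (cons (fin 979 0 911)
(mv 851 (cons (fin 850 2 847)
(mv 915 (cons (fin 976 1 911)
(fin 852 2 848))))))))))
(cons (mv 978 (cons (fin 977 0 910)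
(mv 850 (cons (fin 849 2 846)
(mv 914 (cons (fin 851 2 847)
(fin 979 0 911)))))))
(mv 978 (cons (fin 977 0 910)
(mv 976 (cons (fin 849 6 848)
(mv 914 (cons (fin 915 1 911)
(fin 979 0 911)))))))))))))))))))
(mv 1167 (cons (mv 976 (cons (fin 912 6 911)
(fin 1231 6 975)))
(cons (mv 1230 (cons (fin 1166 5 974)
(mv 1168 (cons (fin 1232 4 975)
(mv 1231 (cons (fin 1229 2 1164)
(fin 1294 5 1038)))))))
(mv 1168 (cons (fin 1232 4 975)
(mv 976 (cons (fin 912 6 911)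
(mv 1166 (cons (fin 1230 5 974)
(mv 1169 (cons (cons (mv 1233 (cons (fin 1234 0 1166)
(fin 1104 4 976)))
(mv 1106 (cons (fin 1105 2 1102)
(mv 1170 (cons (fin 1107 2 1103)
(mv 1171 (cons (fin 1104 3 1103)
(mv 1235 (cons (fin 1234 0 1167)
(fin 1236 0 1168))))))))))
(cons (mv 1106 (cons (fin 1105 2 1102)
(mv 1234 (cons (fin 1233 0 1166)
(mv 1170 (cons (fin 1107 2 1103)
(fin 1235 0 1167)))))))
(mv 1106 (cons (fin 1105 2 1102)
(mv 1104 (cons (fin 1233 4 976)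
(mv 1170 (cons (fin 1171 3 1103)
(fin 1107 2 1103)))))))))))))))))))))
(cons (cons (mv 911 (cons (mv 1104 (cons (fin 847 4 847)
(fin 1168 4 911)))
(cons (mv 846 (cons (fin 910 7 846)
(mv 847 (cons (fin 782 7 782)
(mv 848 (cons (fin 784 6 783)
(fin 912 6 847)))))))
(mv 848 (cons (fin 912 6 847)
(mv 1168 (cons (fin 1104 4 911)
(mv 846 (cons (fin 910 7 846)
(mv 1167 (cons (fin 1232 4 975)
(mv 1230 (cons (fin 1166 5 974)
(mv 1231 (cons (fin 1229 2 1164)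
(fin 1294 5 1038))))))))))))))))
(mv 1167 (cons (mv 976 (cons (fin 912 6 911)
(fin 1231 6 975)))
(cons (mv 1230 (cons (fin 1166 5 974)
(mv 1168 (cons (fin 1232 4 975)
(mv 1231 (cons (fin 1229 2 1164)
(fin 1294 5 1038)))))))
(mv 1168 (cons (fin 1232 4 975)
(mv 1166 (cons (fin 1230 5 974)
(mv 911 (cons (cons (mv 912 (cons (fin 848 6 847)
(fin 976 6 911)))
(mv 846 (cons (fin 910 7 846)
(mv 847 (cons (fin 782 7 782)
(mv 784 (cons (fin 848 6 783)
(mv 783 (cons (fin 720 6 719)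
(fin 976 4 783))))))))))
(cons (mv 846 (cons (fin 910 7 846)
(mv 847 (cons (fin 782 7 782)
(mv 848 (cons (fin 784 6 783)
(fin 912 6 847)))))))
(mv 976 (cons (fin 912 6 911)
(mv 846 (cons (fin 910 7 846)
(mv 847 (cons (fin 782 7 782)
(fin 783 4 783))))))))))))))))))
(cons (mv 1167 (cons (mv 976 (cons (fin 912 6 911)
(fin 1231 6 975)))
(cons (mv 1230 (cons (fin 1166 5 974)
(mv 1231 (cons (fin 1294 5 1038)
(mv 1163 (cons (fin 1229 3 1163)
(mv 1296 (cons (fin 1232 4 1039)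
(mv 1295 (cons (fin 1104 6 1039)
(fin 1360 4 1103)))))))))))
(mv 1166 (cons (fin 1230 5 974)
(mv 912 (cons (fin 976 6 911)
(mv 911 (cons (fin 848 6 847)
(mv 846 (cons (fin 910 7 846)
(mv 847 (cons (fin 782 7 782)
(fin 1104 4 847))))))))))))))
(mv 911 (cons (mv 1104 (cons (fin 847 4 847)
(fin 1168 4 911)))
(cons (mv 846 (cons (fin 910 7 846)
(mv 847 (cons (fin 782 7 782)
(mv 784 (cons (fin 848 6 783)
(mv 783 (cons (fin 720 6 719)
(fin 976 4 783)))))))))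
(mv 846 (cons (fin 910 7 846)
(mv 1168 (cons (fin 1104 4 911)
(mv 1167 (cons (fin 1232 4 975)
(mv 1231 (cons (fin 976 6 975)
(mv 1230 (cons (fin 1229 2 1164)
(fin 1166 5 974)))))))))))))))))))
(cons (mv 1039 (cons (fin 1102 2 1036)
(mv 1167 (cons (mv 976 (cons (fin 912 6 911)
(fin 1231 6 975)))
(cons (mv 1166 (cons (fin 1230 5 974)
(mv 1168 (cons (fin 1232 4 975)
(mv 911 (cons (fin 1104 4 911)
(mv 848 (cons (fin 912 6 847)
(mv 847 (cons (fin 784 6 783)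
(mv 846 (cons (fin 782 7 782)
(fin 910 7 846)))))))))))))
(mv 1168 (cons (fin 1232 4 975)
(mv 911 (cons (fin 1104 4 911)
(mv 846 (cons (fin 910 7 846)
(mv 782 (cons (fin 847 7 782)
(mv 1231 (cons (fin 976 6 975)
(mv 1230 (cons (fin 1229 2 1164)
(fin 1166 5 974))))))))))))))))))
(mv 1230 (cons (cons (mv 1102 (cons (fin 1163 1 1099)
(mv 1167 (cons (fin 1168 0 1100)
(mv 1166 (cons (fin 1099 0 1099)
(fin 1294 7 1037)))))))
(mv 1167 (cons (cons (mv 1102 (cons (fin 1168 0 1100)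
(mv 1166 (cons (fin 1099 0 1099)
(fin 1294 7 1037)))))
(mv 1231 (cons (cons (mv 1168 (cons (fin 1229 2 1164)
(mv 1104 (cons (fin 976 5 975)
(fin 1295 6 1039)))))
(mv 1168 (cons (fin 1229 2 1164)
(mv 1169 (cons (fin 1170 1 1166)
(mv 1104 (cons (fin 976 5 975)
(mv 1233 (cons (mv 1297 (cons (fin 1105 7 1040)
(fin 1361 7 1104)))
(mv 1234 (cons (fin 1166 0 1166)
(mv 1235 (cons (fin 1232 3 1167)
(fin 1236 3 1168))))))))))))))
(cons (mv 1295 (cons (fin 1104 6 1039)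
(mv 1296 (cons (fin 1229 0 1228)
(fin 1360 4 1103)))))
(cons (mv 1104 (cons (fin 1295 6 1039)
(mv 976 (cons (fin 912 5 911)
(fin 1168 5 975)))))
(mv 1229 (cons (fin 1168 2 1164)
(mv 1166 (cons (fin 1227 2 1163)
(mv 1295 (cons (fin 1296 0 1228)
(mv 1358 (cons (fin 1294 5 1102)
(mv 1359 (cons (fin 1423 7 1166)
(fin 1422 5 1166))))))))))))))))
(cons (mv 1295 (cons (cons (mv 1231 (cons (fin 1104 6 1039)
(mv 1296 (cons (fin 1229 0 1228)
(fin 1360 4 1103)))))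
(mv 1294 (cons (mv 1166 (cons (fin 1102 7 1037)
(fin 1358 6 1102)))
(mv 1229 (cons (fin 1227 0 1227)
(mv 1296 (cons (fin 1293 3 1228)
(fin 1297 3 1229))))))))
(cons (mv 1231 (cons (fin 1104 6 1039)
(mv 1294 (cons (fin 1358 5 1102)
(mv 1166 (cons (fin 1102 7 1037)
(mv 1359 (cons (fin 1423 7 1166)
(mv 1360 (cons (fin 1296 4 1103)
(fin 1424 4 1167)))))))))))
(mv 1231 (cons (fin 1104 6 1039)
(mv 1358 (cons (fin 1294 5 1102)
(mv 1359 (cons (fin 1422 5 1166)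
(mv 1166 (cons (fin 1102 7 1102)
(fin 1423 7 1166))))))))))))
(mv 1168 (cons (fin 1102 0 1100)
(mv 1231 (cons (fin 1229 2 1164)
(mv 1104 (cons (fin 976 5 975)
(fin 1295 6 1039)))))))))))
(cons (mv 1229 (cons (cons (mv 1163 (cons (fin 1231 3 1163)
(mv 1162 (cons (fin 1227 3 1162)
(fin 1161 2 1097)))))
(mv 1167 (cons (mv 1166 (cons (fin 1227 2 1163)
(mv 1168 (cons (fin 1169 1 1165)
(fin 1231 2 1164)))))
(cons (mv 1227 (cons (fin 1166 2 1163)
(mv 1290 (cons (fin 1291 1 1226)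
(mv 1226 (cons (fin 1289 1 1225)
(mv 1294 (cons (fin 1293 0 1226)
(fin 1295 0 1227)))))))))
(mv 1231 (cons (fin 1168 2 1164)
(mv 1295 (cons (fin 1296 0 1228)
(fin 1104 6 1039)))))))))
(cons (mv 1227 (cons (cons (mv 1162 (cons (fin 1163 3 1162)
(mv 1226 (cons (fin 1161 3 1161)
(mv 1290 (cons (fin 1289 1 1225)
(fin 1291 1 1226)))))))
(mv 1294 (cons (fin 1295 0 1227)
(mv 1226 (cons (fin 1293 0 1226)
(mv 1290 (cons (fin 1289 1 1225)
(fin 1291 1 1226))))))))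
(cons (mv 1166 (cons (fin 1167 2 1163)
(mv 1294 (cons (fin 1295 0 1227)
(mv 1226 (cons (fin 1293 0 1226)
(mv 1162 (cons (fin 1161 3 1161)
(fin 1163 3 1162)))))))))
(mv 1163 (cons (fin 1162 3 1162)
(mv 1291 (cons (fin 1290 1 1226)
(fin 1355 6 1099))))))))
(mv 1231 (cons (fin 1163 3 1163)
(mv 1167 (cons (fin 1168 2 1164)
(mv 1295 (cons (fin 1296 0 1228)
(fin 1104 6 1039))))))))))
(mv 1163 (cons (fin 1102 1 1099)
(mv 1229 (cons (fin 1231 3 1163)
(mv 1162 (cons (fin 1227 3 1162)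
(fin 1161 2 1097))))))))))))))))))
(mv 1164 (cons (mv 1228 (cons (fin 1036 6 972)
(fin 1292 6 1036)))
(cons (mv 1103 (cons (mv 1102 (cons (fin 1163 1 1099)
(fin 1039 2 1036)))
(cons (mv 1039 (cons (cons (mv 911 (cons (cons (mv 1104 (cons (fin 847 4 847)
(fin 1168 4 911)))
(mv 846 (cons (fin 910 7 846)
(mv 782 (cons (fin 847 7 782)
(mv 912 (cons (fin 848 6 847)
(mv 1167 (cons (fin 976 6 911)
(mv 1230 (cons (fin 1166 5 974)
(mv 1232 (cons (fin 1168 4 975)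
(mv 1231 (cons (fin 1294 5 1038)
(fin 1296 4 1039))))))))))))))))
(cons (mv 848 (cons (fin 912 6 847)
(mv 1168 (cons (fin 1104 4 911)
(mv 846 (cons (fin 910 7 846)
(mv 1167 (cons (fin 1232 4 975)
(mv 1231 (cons (fin 976 6 975)
(mv 1230 (cons (fin 1166 5 974)
(fin 1294 5 1038)))))))))))))
(mv 847 (cons (fin 1104 4 847)
(mv 846 (cons (fin 782 7 782)
(fin 910 7 846))))))))
(cons (mv 1167 (cons (mv 976 (cons (fin 912 6 911)
(fin 1231 6 975)))
(cons (mv 1230 (cons (fin 1166 5 974)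
(mv 1232 (cons (fin 1168 4 975)
(mv 1231 (cons (fin 1294 5 1038)
(fin 1296 4 1039)))))))
(mv 1168 (cons (fin 1232 4 975)
(mv 976 (cons (fin 912 6 911)
(mv 1166 (cons (fin 1230 5 974)
(mv 1169 (cons (cons (mv 1233 (cons (fin 1234 0 1166)
(fin 1104 4 976)))
(mv 1106 (cons (fin 1105 2 1102)
(mv 1170 (cons (fin 1107 2 1103)
(mv 1171 (cons (fin 1104 3 1103)
(mv 1235 (cons (fin 1234 0 1167)
(fin 1236 0 1168))))))))))
(cons (mv 1106 (cons (fin 1105 2 1102)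
(mv 1234 (cons (fin 1233 0 1166)
(mv 1170 (cons (fin 1107 2 1103)
(fin 1235 0 1167)))))))
(mv 1106 (cons (fin 1105 2 1102)
(mv 1104 (cons (fin 1233 4 976)
(mv 1170 (cons (fin 1171 3 1103)
(fin 1107 2 1103)))))))))))))))))))
(mv 911 (cons (mv 1104 (cons (fin 847 4 847)
(fin 1168 4 911)))
(cons (mv 846 (cons (fin 910 7 846)
(mv 847 (cons (fin 782 7 782)
(mv 848 (cons (fin 784 6 783)
(fin 912 6 847)))))))
(mv 910 (cons (fin 846 7 846)
(mv 912 (cons (fin 848 6 847)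
(mv 1104 (cons (fin 1168 4 911)
(mv 913 (cons (cons (mv 849 (cons (fin 850 2 846)
(fin 976 6 848)))
(mv 978 (cons (fin 977 0 910)
(mv 914 (cons (fin 979 0 911)
(mv 851 (cons (fin 850 2 847)
(mv 915 (cons (fin 976 1 911)
(fin 852 2 848))))))))))
(cons (mv 978 (cons (fin 977 0 910)
(mv 850 (cons (fin 849 2 846)
(mv 914 (cons (fin 851 2 847)
(fin 979 0 911)))))))
(mv 978 (cons (fin 977 0 910)
(mv 976 (cons (fin 849 6 848)
(mv 914 (cons (fin 915 1 911)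
(fin 979 0 911)))))))))))))))))))))
(cons (cons (mv 911 (cons (mv 1104 (cons (fin 847 4 847)
(fin 1168 4 911)))
(cons (mv 846 (cons (fin 910 7 846)
(mv 847 (cons (fin 782 7 782)
(mv 848 (cons (fin 784 6 783)
(fin 912 6 847)))))))
(mv 846 (cons (fin 910 7 846)
(mv 848 (cons (fin 912 6 847)
(mv 1167 (cons (cons (mv 1168 (cons (fin 1104 4 911)
(fin 1232 4 975)))
(mv 1230 (cons (fin 1166 5 974)
(mv 1231 (cons (fin 1294 5 1038)
(mv 1295 (cons (fin 1104 6 1039)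
(mv 1296 (cons (fin 1232 4 1039)
(fin 1360 4 1103))))))))))
(cons (mv 1230 (cons (fin 1166 5 974)
(mv 1232 (cons (fin 1168 4 975)
(mv 1231 (cons (fin 1294 5 1038)
(fin 1296 4 1039)))))))
(mv 1230 (cons (fin 1166 5 974)
(mv 1104 (cons (fin 1168 4 911)
(mv 1231 (cons (fin 1294 5 1038)
(fin 1295 6 1039)))))))))))))))))
(mv 1167 (cons (mv 976 (cons (fin 912 6 911)
(fin 1231 6 975)))
(cons (mv 1230 (cons (fin 1166 5 974)
(mv 1232 (cons (fin 1168 4 975)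
(mv 1231 (cons (fin 1294 5 1038)
(fin 1296 4 1039)))))))
(mv 1168 (cons (fin 1232 4 975)
(mv 1166 (cons (fin 1230 5 974)
(mv 911 (cons (cons (mv 912 (cons (fin 848 6 847)
(fin 976 6 911)))
(mv 846 (cons (fin 910 7 846)
(mv 847 (cons (fin 782 7 782)
(mv 784 (cons (fin 848 6 783)
(mv 783 (cons (fin 720 6 719)
(fin 976 4 783))))))))))
(cons (mv 846 (cons (fin 910 7 846)
(mv 847 (cons (fin 782 7 782)
(mv 848 (cons (fin 784 6 783)
(fin 912 6 847)))))))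
(mv 976 (cons (fin 912 6 911)
(mv 846 (cons (fin 910 7 846)
(mv 847 (cons (fin 782 7 782)
(fin 783 4 783))))))))))))))))))
(cons (mv 911 (cons (mv 1104 (cons (fin 847 4 847)
(fin 1168 4 911)))
(cons (mv 846 (cons (fin 910 7 846)
(mv 847 (cons (fin 782 7 782)
(mv 784 (cons (fin 848 6 783)
(mv 783 (cons (fin 720 6 719)
(fin 976 4 783)))))))))
(mv 846 (cons (fin 910 7 846)
(mv 1168 (cons (fin 1104 4 911)
(mv 1167 (cons (fin 1232 4 975)
(mv 1231 (cons (fin 976 6 975)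
(mv 1230 (cons (fin 1166 5 974)
(fin 1294 5 1038))))))))))))))
(mv 1167 (cons (mv 976 (cons (fin 912 6 911)
(fin 1231 6 975)))
(cons (mv 1230 (cons (fin 1166 5 974)
(mv 1231 (cons (fin 1294 5 1038)
(mv 1295 (cons (fin 1104 6 1039)
(mv 1296 (cons (fin 1232 4 1039)
(fin 1360 4 1103)))))))))
(mv 1166 (cons (fin 1230 5 974)
(mv 912 (cons (fin 976 6 911)
(mv 911 (cons (fin 848 6 847)
(mv 846 (cons (fin 910 7 846)
(mv 847 (cons (fin 782 7 782)
(fin 1104 4 847))))))))))))))))))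
(mv 1102 (cons (fin 1163 1 1099)
(mv 1036 (cons (fin 1104 3 1036)
(mv 1167 (cons (fin 1168 0 1100)
(mv 1099 (cons (fin 1166 0 1099)
(mv 1098 (cons (fin 1033 3 1033)
(fin 1097 2 1033))))))))))))))
(mv 1292 (cons (fin 1228 6 1036)
(mv 1103 (cons (mv 1102 (cons (fin 1163 1 1099)
(fin 1039 2 1036)))
(cons (mv 1039 (cons (cons (mv 911 (cons (cons (mv 1104 (cons (fin 847 4 847)
(fin 1168 4 911)))
(mv 846 (cons (fin 910 7 846)
(mv 782 (cons (fin 847 7 782)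
(mv 912 (cons (fin 848 6 847)
(mv 1167 (cons (fin 976 6 911)
(mv 1230 (cons (fin 1166 5 974)
(mv 1232 (cons (fin 1168 4 975)
(mv 1231 (cons (fin 1294 5 1038)
(fin 1296 4 1039))))))))))))))))
(cons (mv 848 (cons (fin 912 6 847)
(mv 1168 (cons (fin 1104 4 911)
(mv 846 (cons (fin 910 7 846)
(mv 1167 (cons (fin 1232 4 975)
(mv 1231 (cons (fin 976 6 975)
(mv 1230 (cons (fin 1166 5 974)
(fin 1294 5 1038)))))))))))))
(mv 847 (cons (fin 1104 4 847)
(mv 846 (cons (fin 782 7 782)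
(fin 910 7 846))))))))
(cons (mv 1167 (cons (mv 976 (cons (fin 912 6 911)
(fin 1231 6 975)))
(cons (mv 1166 (cons (fin 1230 5 974)
(mv 1232 (cons (fin 1168 4 975)
(mv 1231 (cons (fin 1296 4 1039)
(mv 1295 (cons (fin 1104 6 1039)
(mv 1294 (cons (fin 1293 2 1228)
(fin 1358 5 1102)))))))))))
(mv 1166 (cons (fin 1230 5 974)
(mv 976 (cons (fin 912 6 911)
(mv 1168 (cons (fin 1232 4 975)
(mv 1169 (cons (cons (mv 1233 (cons (fin 1234 0 1166)
(fin 1104 4 976)))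
(mv 1106 (cons (fin 1105 2 1102)
(mv 1170 (cons (fin 1107 2 1103)
(mv 1171 (cons (fin 1104 3 1103)
(mv 1235 (cons (fin 1234 0 1167)
(fin 1236 0 1168))))))))))
(cons (mv 1106 (cons (fin 1105 2 1102)
(mv 1234 (cons (fin 1233 0 1166)
(mv 1170 (cons (fin 1107 2 1103)
(fin 1235 0 1167)))))))
(mv 1106 (cons (fin 1105 2 1102)
(mv 1104 (cons (fin 1233 4 976)
(mv 1170 (cons (fin 1171 3 1103)
(fin 1107 2 1103)))))))))))))))))))
(mv 911 (cons (mv 1104 (cons (fin 847 4 847)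
(fin 1168 4 911)))
(cons (mv 846 (cons (fin 910 7 846)
(mv 847 (cons (fin 782 7 782)
(mv 848 (cons (fin 784 6 783)
(fin 912 6 847)))))))
(mv 910 (cons (fin 846 7 846)
(mv 1104 (cons (fin 1168 4 911)
(mv 912 (cons (fin 848 6 847)
(mv 913 (cons (cons (mv 849 (cons (fin 850 2 846)
(fin 976 6 848)))
(mv 978 (cons (fin 977 0 910)
(mv 914 (cons (fin 979 0 911)
(mv 851 (cons (fin 850 2 847)
(mv 915 (cons (fin 976 1 911)
(fin 852 2 848))))))))))
(cons (mv 978 (cons (fin 977 0 910)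
(mv 850 (cons (fin 849 2 846)
(mv 914 (cons (fin 851 2 847)
(fin 979 0 911)))))))
(mv 978 (cons (fin 977 0 910)
(mv 976 (cons (fin 849 6 848)
(mv 914 (cons (fin 915 1 911)
(fin 979 0 911)))))))))))))))))))))
(cons (cons (mv 911 (cons (mv 1104 (cons (fin 847 4 847)
(fin 1168 4 911)))
(cons (mv 846 (cons (fin 910 7 846)
(mv 847 (cons (fin 782 7 782)
(mv 848 (cons (fin 784 6 783)
(fin 912 6 847)))))))
(mv 846 (cons (fin 910 7 846)
(mv 848 (cons (fin 912 6 847)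
(mv 1167 (cons (cons (mv 1168 (cons (fin 1104 4 911)
(fin 1232 4 975)))
(mv 1230 (cons (fin 1166 5 974)
(mv 1231 (cons (fin 1294 5 1038)
(mv 1295 (cons (fin 1104 6 1039)
(mv 1296 (cons (fin 1232 4 1039)
(fin 1360 4 1103))))))))))
(cons (mv 1230 (cons (fin 1166 5 974)
(mv 1232 (cons (fin 1168 4 975)
(mv 1231 (cons (fin 1294 5 1038)
(fin 1296 4 1039)))))))
(mv 1230 (cons (fin 1166 5 974)
(mv 1104 (cons (fin 1168 4 911)
(mv 1231 (cons (fin 1294 5 1038)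
(fin 1295 6 1039)))))))))))))))))
(mv 1167 (cons (mv 976 (cons (fin 912 6 911)
(fin 1231 6 975)))
(cons (mv 1230 (cons (fin 1166 5 974)
(mv 1232 (cons (fin 1168 4 975)
(mv 1231 (cons (fin 1294 5 1038)
(fin 1296 4 1039)))))))
(mv 1168 (cons (fin 1232 4 975)
(mv 1166 (cons (fin 1230 5 974)
(mv 911 (cons (cons (mv 912 (cons (fin 848 6 847)
(fin 976 6 911)))
(mv 846 (cons (fin 910 7 846)
(mv 847 (cons (fin 782 7 782)
(mv 784 (cons (fin 848 6 783)
(mv 783 (cons (fin 720 6 719)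
(fin 976 4 783))))))))))
(cons (mv 846 (cons (fin 910 7 846)
(mv 847 (cons (fin 782 7 782)
(mv 848 (cons (fin 784 6 783)
(fin 912 6 847)))))))
(mv 976 (cons (fin 912 6 911)
(mv 846 (cons (fin 910 7 846)
(mv 847 (cons (fin 782 7 782)
(fin 783 4 783))))))))))))))))))
(cons (mv 911 (cons (mv 1104 (cons (fin 847 4 847)
(fin 1168 4 911)))
(cons (mv 846 (cons (fin 910 7 846)
(mv 847 (cons (fin 782 7 782)
(mv 784 (cons (fin 848 6 783)
(mv 783 (cons (fin 720 6 719)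
(fin 976 4 783)))))))))
(mv 846 (cons (fin 910 7 846)
(mv 1168 (cons (fin 1104 4 911)
(mv 1167 (cons (fin 1232 4 975)
(mv 1231 (cons (fin 976 6 975)
(mv 1230 (cons (fin 1166 5 974)
(fin 1294 5 1038))))))))))))))
(mv 1167 (cons (mv 976 (cons (fin 912 6 911)
(fin 1231 6 975)))
(cons (mv 1230 (cons (fin 1166 5 974)
(mv 1231 (cons (fin 1294 5 1038)
(mv 1295 (cons (fin 1104 6 1039)
(mv 1296 (cons (fin 1232 4 1039)
(fin 1360 4 1103)))))))))
(mv 1166 (cons (fin 1230 5 974)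
(mv 912 (cons (fin 976 6 911)
(mv 911 (cons (fin 848 6 847)
(mv 846 (cons (fin 910 7 846)
(mv 847 (cons (fin 782 7 782)
(fin 1104 4 847))))))))))))))))))
(mv 1102 (cons (fin 1163 1 1099)
(mv 1167 (cons (fin 1168 0 1100)
(mv 1166 (cons (fin 1099 0 1099)
(mv 1294 (cons (fin 1230 7 1037)
(mv 1295 (cons (cons (mv 1231 (cons (fin 1359 7 1102)
(fin 1358 5 1102)))
(mv 1293 (cons (cons (mv 1355 (cons (fin 1356 1 1291)
(mv 1291 (cons (fin 1354 1 1290)
(mv 1359 (cons (fin 1358 0 1291)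
(fin 1360 0 1292)))))))
(mv 1359 (cons (fin 1360 0 1292)
(mv 1291 (cons (fin 1358 0 1291)
(mv 1290 (cons (mv 1226 (cons (fin 1225 3 1225)
(fin 1227 3 1226)))
(mv 1354 (cons (fin 1353 1 1289)
(fin 1355 1 1290))))))))))
(cons (mv 1356 (cons (fin 1355 1 1291)
(mv 1296 (cons (fin 1357 1 1292)
(mv 1297 (cons (mv 1233 (cons (fin 1232 2 1229)
(fin 1234 2 1230)))
(mv 1361 (cons (fin 1360 0 1293)
(fin 1362 0 1294)))))))))
(cons (mv 1355 (cons (fin 1356 1 1291)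
(mv 1291 (cons (fin 1354 1 1290)
(mv 1290 (cons (mv 1226 (cons (fin 1225 3 1225)
(fin 1227 3 1226)))
(mv 1358 (cons (fin 1357 0 1290)
(fin 1359 0 1291)))))))))
(mv 1360 (cons (fin 1359 0 1292)
(mv 1296 (cons (fin 1361 0 1293)
(mv 1297 (cons (mv 1357 (cons (fin 1356 1 1292)
(fin 1358 1 1293)))
(mv 1233 (cons (fin 1232 2 1229)
(fin 1234 2 1230))))))))))))))
(cons (mv 1231 (cons (fin 1358 5 1102)
(fin 1104 6 1039)))
(mv 1231 (cons (fin 1359 7 1102)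
(fin 1104 6 1039)))))))))))))))))))))))
(cons (mv 1228 (cons (cons (mv 1164 (cons (fin 1036 6 972)
(fin 1292 6 1036)))
(mv 1098 (cons (cons (mv 1099 (cons (fin 1033 3 1033)
(mv 1161 (cons (fin 1162 1 1097)
(mv 1097 (cons (fin 1160 1 1096)
(fin 1036 2 1033)))))))
(mv 970 (cons (cons (cons (mv 906 (cons (cons (mv 841 (cons (fin 905 7 841)
(mv 777 (cons (fin 842 7 777)
(mv 907 (cons (fin 843 6 842)
(mv 1097 (cons (fin 1161 5 905)
(mv 971 (cons (fin 1162 6 906)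
(mv 972 (cons (fin 1033 1 969)
(mv 969 (cons (fin 1036 0 969)
(mv 968 (cons (fin 967 2 903)
(fin 908 2 904)))))))))))))))))
(mv 843 (cons (fin 907 6 842)
(mv 842 (cons (fin 779 6 778)
(mv 1097 (cons (fin 1033 5 841)
(fin 1161 5 905))))))))
(cons (mv 1097 (cons (fin 1161 5 905)
(mv 842 (cons (fin 1033 5 841)
(mv 841 (cons (fin 777 7 777)
(fin 905 7 841)))))))
(cons (mv 841 (cons (fin 905 7 841)
(mv 777 (cons (fin 842 7 777)
(mv 907 (cons (fin 843 6 842)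
(mv 971 (cons (fin 1162 6 906)
(mv 972 (cons (fin 1033 1 969)
(mv 969 (cons (fin 1036 0 969)
(mv 968 (cons (fin 967 2 903)
(fin 908 2 904)))))))))))))))
(mv 843 (cons (fin 907 6 842)
(mv 1161 (cons (fin 1097 5 905)
(mv 905 (cons (fin 841 7 841)
(mv 1162 (cons (fin 969 7 905)
(fin 1225 5 969)))))))))))))
(mv 1162 (cons (cons (mv 905 (cons (fin 969 7 905)
(mv 971 (cons (fin 907 6 906)
(mv 1225 (cons (fin 1161 5 969)
(mv 1033 (cons (fin 972 1 969)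
(mv 1226 (cons (fin 1289 5 1033)
(mv 1290 (cons (fin 1097 7 1033)
(mv 1291 (cons (fin 1227 4 1034)
(fin 1355 4 1098)))))))))))))))
(cons (mv 1225 (cons (fin 1161 5 969)
(mv 971 (cons (fin 907 6 906)
(mv 1226 (cons (fin 1289 5 1033)
(mv 1033 (cons (fin 972 1 969)
(mv 1291 (cons (fin 1227 4 1034)
(mv 1290 (cons (fin 1097 7 1033)
(fin 1355 4 1098)))))))))))))
(mv 969 (cons (fin 905 7 905)
(mv 907 (cons (fin 971 6 906)
(mv 1226 (cons (fin 1033 7 969)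
(mv 1227 (cons (fin 1291 4 1034)
(mv 1229 (cons (fin 1161 3 1161)
(mv 1289 (cons (fin 1290 1 1225)
(mv 1294 (cons (fin 1293 0 1226)
(mv 1230 (cons (fin 1295 0 1227)
(mv 1166 (cons (fin 1167 2 1163)
(fin 1102 7 1037)))))))))))))))))))))
(cons (cons (mv 969 (cons (fin 905 7 905)
(mv 1161 (cons (fin 1225 5 969)
(mv 1226 (cons (fin 1033 7 969)
(mv 1227 (cons (fin 1229 3 1161)
(fin 1291 4 1034)))))))))
(mv 969 (cons (fin 905 7 905)
(mv 907 (cons (fin 971 6 906)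
(mv 1226 (cons (fin 1033 7 969)
(mv 1289 (cons (fin 1225 5 1033)
(mv 1227 (cons (fin 1291 4 1034)
(mv 1290 (cons (fin 1229 1 1225)
(fin 1353 5 1097))))))))))))))
(cons (mv 969 (cons (fin 905 7 905)
(mv 1161 (cons (fin 1225 5 969)
(mv 971 (cons (fin 907 6 906)
(mv 972 (cons (fin 1033 1 969)
(fin 1036 0 969)))))))))
(mv 907 (cons (fin 971 6 906)
(mv 905 (cons (fin 969 7 905)
(mv 1226 (cons (cons (mv 1225 (cons (fin 1161 5 969)
(fin 1289 5 1033)))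
(mv 1227 (cons (fin 1291 4 1034)
(mv 1229 (cons (fin 1161 3 1161)
(mv 1289 (cons (fin 1290 1 1225)
(mv 1294 (cons (fin 1293 0 1226)
(mv 1230 (cons (fin 1295 0 1227)
(mv 1166 (cons (fin 1167 2 1163)
(fin 1102 7 1037))))))))))))))
(cons (mv 1227 (cons (fin 1291 4 1034)
(mv 1289 (cons (fin 1225 5 1033)
(mv 1290 (cons (fin 1229 1 1225)
(fin 1353 5 1097)))))))
(mv 1161 (cons (fin 1225 5 969)
(mv 1227 (cons (fin 1229 3 1161)
(fin 1291 4 1034)))))))))))))))))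
(cons (mv 906 (cons (cons (mv 841 (cons (fin 905 7 841)
(mv 842 (cons (fin 777 7 777)
(mv 1097 (cons (fin 1033 5 841)
(fin 1161 5 905)))))))
(mv 843 (cons (fin 907 6 842)
(mv 842 (cons (fin 779 6 778)
(mv 1097 (cons (fin 1033 5 841)
(fin 1161 5 905))))))))
(cons (mv 841 (cons (fin 905 7 841)
(mv 842 (cons (fin 777 7 777)
(mv 843 (cons (fin 779 6 778)
(fin 907 6 842)))))))
(mv 907 (cons (fin 843 6 842)
(mv 1097 (cons (fin 1161 5 905)
(mv 905 (cons (fin 841 7 841)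
(mv 972 (cons (fin 971 3 905)
(fin 908 0 905))))))))))))
(mv 906 (cons (cons (mv 841 (cons (fin 905 7 841)
(mv 842 (cons (fin 777 7 777)
(mv 1097 (cons (fin 1033 5 841)
(fin 1161 5 905)))))))
(mv 843 (cons (fin 907 6 842)
(mv 842 (cons (fin 779 6 778)
(mv 1097 (cons (fin 1033 5 841)
(fin 1161 5 905))))))))
(cons (mv 841 (cons (fin 905 7 841)
(mv 842 (cons (fin 777 7 777)
(mv 843 (cons (fin 779 6 778)
(fin 907 6 842)))))))
(mv 843 (cons (fin 907 6 842)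
(mv 1161 (cons (fin 1097 5 905)
(mv 905 (cons (fin 841 7 841)
(mv 1162 (cons (fin 969 7 905)
(fin 1225 5 969))))))))))))))
(cons (cons (mv 906 (cons (cons (mv 843 (cons (fin 907 6 842)
(mv 842 (cons (fin 779 6 778)
(mv 1097 (cons (fin 1033 5 841)
(fin 1161 5 905)))))))
(cons (mv 843 (cons (fin 907 6 842)
(mv 842 (cons (fin 779 6 778)
(mv 777 (cons (fin 841 7 777)
(mv 778 (cons (fin 713 7 713)
(mv 775 (cons (fin 776 0 775)
(mv 1033 (cons (fin 969 5 777)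
(mv 844 (cons (fin 845 3 777)
(mv 972 (cons (fin 971 1 969)
(mv 908 (cons (fin 780 4 780)
(fin 1036 4 844)))))))))))))))))))
(mv 1097 (cons (fin 1161 5 905)
(mv 842 (cons (fin 1033 5 841)
(mv 777 (cons (fin 841 7 777)
(mv 778 (cons (fin 713 7 713)
(mv 779 (cons (fin 715 6 714)
(fin 843 6 778)))))))))))))
(cons (mv 1097 (cons (fin 1161 5 905)
(mv 1033 (cons (fin 842 5 841)
(mv 971 (cons (fin 972 1 969)
(mv 1031 (cons (fin 1032 2 967)
(mv 1162 (cons (fin 907 6 906)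
(mv 1226 (cons (fin 969 7 969)
(fin 1290 7 1033)))))))))))))
(cons (mv 1097 (cons (fin 1161 5 905)
(mv 907 (cons (fin 843 6 842)
(mv 971 (cons (fin 1162 6 906)
(mv 972 (cons (fin 1033 1 969)
(mv 969 (cons (fin 1036 0 969)
(mv 968 (cons (fin 967 2 903)
(fin 908 2 904)))))))))))))
(mv 907 (cons (fin 843 6 842)
(mv 1161 (cons (fin 1097 5 905)
(mv 1162 (cons (fin 1225 5 969)
(fin 971 6 906)))))))))))
(mv 906 (cons (cons (mv 841 (cons (fin 905 7 841)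
(mv 777 (cons (fin 842 7 777)
(mv 907 (cons (fin 843 6 842)
(mv 971 (cons (fin 1162 6 906)
(mv 972 (cons (fin 1033 1 969)
(mv 969 (cons (fin 1036 0 969)
(mv 968 (cons (fin 967 2 903)
(fin 908 2 904)))))))))))))))
(cons (mv 843 (cons (fin 907 6 842)
(mv 842 (cons (fin 779 6 778)
(mv 1033 (cons (fin 1097 5 841)
(mv 778 (cons (fin 969 5 777)
(mv 777 (cons (fin 713 7 713)
(fin 841 7 777)))))))))))
(mv 841 (cons (fin 905 7 841)
(mv 842 (cons (fin 777 7 777)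
(mv 1033 (cons (fin 1097 5 841)
(mv 778 (cons (fin 969 5 777)
(mv 779 (cons (fin 715 6 714)
(fin 843 6 778)))))))))))))
(cons (cons (mv 843 (cons (fin 907 6 842)
(mv 842 (cons (fin 779 6 778)
(mv 1033 (cons (fin 1097 5 841)
(mv 778 (cons (fin 969 5 777)
(mv 777 (cons (fin 713 7 713)
(mv 972 (cons (fin 971 1 969)
(mv 775 (cons (fin 776 0 775)
(mv 844 (cons (fin 845 3 777)
(mv 908 (cons (fin 780 4 780)
(fin 1036 4 844)))))))))))))))))))
(mv 841 (cons (fin 905 7 841)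
(mv 842 (cons (fin 777 7 777)
(mv 1033 (cons (fin 1097 5 841)
(mv 778 (cons (fin 969 5 777)
(mv 971 (cons (fin 972 1 969)
(mv 907 (cons (fin 1162 6 906)
(fin 714 4 714))))))))))))))
(cons (mv 841 (cons (fin 905 7 841)
(mv 907 (cons (fin 843 6 842)
(mv 971 (cons (fin 1162 6 906)
(mv 972 (cons (fin 1033 1 969)
(mv 969 (cons (fin 1036 0 969)
(mv 968 (cons (fin 967 2 903)
(fin 908 2 904)))))))))))))
(mv 843 (cons (fin 907 6 842)
(mv 842 (cons (fin 779 6 778)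
(mv 841 (cons (fin 777 7 777)
(fin 905 7 841))))))))))))
(cons (mv 906 (cons (cons (mv 1097 (cons (fin 1161 5 905)
(mv 842 (cons (fin 1033 5 841)
(mv 841 (cons (fin 777 7 777)
(fin 905 7 841)))))))
(mv 1097 (cons (fin 1161 5 905)
(mv 842 (cons (fin 1033 5 841)
(mv 777 (cons (fin 841 7 777)
(mv 778 (cons (fin 713 7 713)
(mv 779 (cons (fin 715 6 714)
(fin 843 6 778))))))))))))
(cons (mv 905 (cons (fin 841 7 841)
(mv 971 (cons (fin 972 3 905)
(mv 1162 (cons (fin 969 7 905)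
(mv 1226 (cons (mv 1225 (cons (fin 1161 5 969)
(fin 1289 5 1033)))
(cons (mv 1227 (cons (fin 1291 4 1034)
(mv 1229 (cons (fin 1161 3 1161)
(mv 1294 (cons (fin 1293 0 1226)
(mv 1230 (cons (fin 1295 0 1227)
(mv 1166 (cons (fin 1167 2 1163)
(fin 1102 7 1037)))))))))))
(mv 903 (cons (fin 904 0 903)
(mv 1289 (cons (fin 1225 5 1033)
(mv 1227 (cons (fin 1291 4 1034)
(mv 1290 (cons (fin 1229 1 1225)
(fin 1353 5 1097))))))))))))))))))
(cons (mv 841 (cons (fin 905 7 841)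
(mv 842 (cons (fin 777 7 777)
(mv 1033 (cons (fin 1097 5 841)
(mv 778 (cons (fin 969 5 777)
(mv 779 (cons (fin 715 6 714)
(fin 843 6 778)))))))))))
(mv 1161 (cons (fin 1097 5 905)
(mv 1162 (cons (fin 1225 5 969)
(mv 969 (cons (fin 905 7 905)
(mv 1226 (cons (fin 1033 7 969)
(mv 1227 (cons (fin 1229 3 1161)
(fin 1291 4 1034)))))))))))))))
(cons (mv 906 (cons (cons (mv 841 (cons (fin 905 7 841)
(mv 777 (cons (fin 842 7 777)
(mv 907 (cons (fin 843 6 842)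
(mv 1161 (cons (fin 1097 5 905)
(mv 1162 (cons (fin 1225 5 969)
(fin 971 6 906)))))))))))
(mv 907 (cons (fin 843 6 842)
(mv 1161 (cons (fin 1097 5 905)
(mv 1162 (cons (fin 1225 5 969)
(fin 971 6 906))))))))
(cons (mv 905 (cons (fin 841 7 841)
(mv 1161 (cons (fin 1097 5 905)
(mv 1162 (cons (fin 969 7 905)
(fin 1225 5 969)))))))
(mv 843 (cons (fin 907 6 842)
(mv 842 (cons (fin 779 6 778)
(mv 841 (cons (fin 777 7 777)
(fin 905 7 841))))))))))
(mv 1162 (cons (mv 905 (cons (fin 969 7 905)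
(mv 906 (cons (fin 841 7 841)
(mv 971 (cons (fin 972 3 905)
(fin 907 6 906)))))))
(cons (mv 969 (cons (fin 905 7 905)
(mv 1161 (cons (fin 1225 5 969)
(mv 1226 (cons (fin 1033 7 969)
(mv 1227 (cons (fin 1229 3 1161)
(fin 1291 4 1034)))))))))
(mv 907 (cons (fin 971 6 906)
(mv 843 (cons (fin 906 6 842)
(mv 1226 (cons (cons (mv 1225 (cons (fin 1161 5 969)
(fin 1289 5 1033)))
(mv 1227 (cons (fin 1291 4 1034)
(mv 1229 (cons (fin 1161 3 1161)
(mv 1289 (cons (fin 1290 1 1225)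
(mv 1294 (cons (fin 1293 0 1226)
(mv 1230 (cons (fin 1295 0 1227)
(mv 1166 (cons (fin 1167 2 1163)
(fin 1102 7 1037))))))))))))))
(cons (mv 1227 (cons (fin 1291 4 1034)
(mv 1161 (cons (fin 1229 3 1161)
(fin 1225 5 969)))))
(mv 1289 (cons (fin 1225 5 1033)
(mv 1227 (cons (fin 1291 4 1034)
(mv 1290 (cons (fin 1229 1 1225)
(fin 1353 5 1097)))))))))))))))))))))))
(cons (mv 1103 (cons (cons (mv 1102 (cons (fin 1039 2 1036)
(mv 1036 (cons (fin 1104 3 1036)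
(mv 1099 (cons (fin 1097 2 1033)
(mv 1167 (cons (fin 1166 0 1099)
(fin 1168 0 1100)))))))))
(mv 1039 (cons (cons (mv 1167 (cons (mv 976 (cons (fin 912 6 911)
(fin 1231 6 975)))
(cons (mv 1166 (cons (fin 1230 5 974)
(mv 1168 (cons (fin 1232 4 975)
(mv 911 (cons (fin 1104 4 911)
(mv 848 (cons (fin 912 6 847)
(mv 847 (cons (fin 784 6 783)
(mv 846 (cons (fin 782 7 782)
(fin 910 7 846)))))))))))))
(mv 1168 (cons (fin 1232 4 975)
(mv 911 (cons (fin 1104 4 911)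
(mv 846 (cons (fin 910 7 846)
(mv 782 (cons (fin 847 7 782)
(mv 1231 (cons (fin 976 6 975)
(mv 1230 (cons (fin 1229 2 1164)
(fin 1166 5 974))))))))))))))))
(cons (mv 911 (cons (mv 1104 (cons (fin 847 4 847)
(fin 1168 4 911)))
(cons (mv 846 (cons (fin 910 7 846)
(mv 847 (cons (fin 782 7 782)
(mv 848 (cons (fin 784 6 783)
(fin 912 6 847)))))))
(mv 910 (cons (fin 846 7 846)
(mv 912 (cons (fin 848 6 847)
(mv 1104 (cons (fin 1168 4 911)
(mv 913 (cons (cons (mv 849 (cons (fin 850 2 846)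
(fin 976 6 848)))
(mv 978 (cons (fin 977 0 910)
(mv 914 (cons (fin 979 0 911)
(mv 851 (cons (fin 850 2 847)
(mv 915 (cons (fin 976 1 911)
(fin 852 2 848))))))))))
(cons (mv 978 (cons (fin 977 0 910)
(mv 850 (cons (fin 849 2 846)
(mv 914 (cons (fin 851 2 847)
(fin 979 0 911)))))))
(mv 978 (cons (fin 977 0 910)
(mv 976 (cons (fin 849 6 848)
(mv 914 (cons (fin 915 1 911)
(fin 979 0 911)))))))))))))))))))
(mv 1167 (cons (mv 976 (cons (fin 912 6 911)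
(fin 1231 6 975)))
(cons (mv 1230 (cons (fin 1166 5 974)
(mv 1168 (cons (fin 1232 4 975)
(mv 1231 (cons (fin 1229 2 1164)
(fin 1294 5 1038)))))))
(mv 1168 (cons (fin 1232 4 975)
(mv 976 (cons (fin 912 6 911)
(mv 1166 (cons (fin 1230 5 974)
(mv 1169 (cons (cons (mv 1233 (cons (fin 1234 0 1166)
(fin 1104 4 976)))
(mv 1106 (cons (fin 1105 2 1102)
(mv 1170 (cons (fin 1107 2 1103)
(mv 1171 (cons (fin 1104 3 1103)
(mv 1235 (cons (fin 1234 0 1167)
(fin 1236 0 1168))))))))))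
(cons (mv 1106 (cons (fin 1105 2 1102)
(mv 1234 (cons (fin 1233 0 1166)
(mv 1170 (cons (fin 1107 2 1103)
(fin 1235 0 1167)))))))
(mv 1106 (cons (fin 1105 2 1102)
(mv 1104 (cons (fin 1233 4 976)
(mv 1170 (cons (fin 1171 3 1103)
(fin 1107 2 1103)))))))))))))))))))))
(cons (cons (mv 911 (cons (mv 1104 (cons (fin 847 4 847)
(fin 1168 4 911)))
(cons (mv 846 (cons (fin 910 7 846)
(mv 847 (cons (fin 782 7 782)
(mv 848 (cons (fin 784 6 783)
(fin 912 6 847)))))))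
(mv 848 (cons (fin 912 6 847)
(mv 1168 (cons (fin 1104 4 911)
(mv 846 (cons (fin 910 7 846)
(mv 1167 (cons (fin 1232 4 975)
(mv 1230 (cons (fin 1166 5 974)
(mv 1231 (cons (fin 1229 2 1164)
(fin 1294 5 1038))))))))))))))))
(mv 1167 (cons (mv 976 (cons (fin 912 6 911)
(fin 1231 6 975)))
(cons (mv 1230 (cons (fin 1166 5 974)
(mv 1168 (cons (fin 1232 4 975)
(mv 1231 (cons (fin 1229 2 1164)
(fin 1294 5 1038)))))))
(mv 1168 (cons (fin 1232 4 975)
(mv 1166 (cons (fin 1230 5 974)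
(mv 911 (cons (cons (mv 912 (cons (fin 848 6 847)
(fin 976 6 911)))
(mv 846 (cons (fin 910 7 846)
(mv 847 (cons (fin 782 7 782)
(mv 784 (cons (fin 848 6 783)
(mv 783 (cons (fin 720 6 719)
(fin 976 4 783))))))))))
(cons (mv 846 (cons (fin 910 7 846)
(mv 847 (cons (fin 782 7 782)
(mv 848 (cons (fin 784 6 783)
(fin 912 6 847)))))))
(mv 976 (cons (fin 912 6 911)
(mv 846 (cons (fin 910 7 846)
(mv 847 (cons (fin 782 7 782)
(fin 783 4 783))))))))))))))))))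
(cons (mv 1167 (cons (mv 976 (cons (fin 912 6 911)
(fin 1231 6 975)))
(cons (mv 1230 (cons (fin 1166 5 974)
(mv 1231 (cons (fin 1294 5 1038)
(mv 1295 (cons (fin 1104 6 1039)
(mv 1296 (cons (fin 1229 0 1228)
(fin 1232 4 1039)))))))))
(mv 1166 (cons (fin 1230 5 974)
(mv 912 (cons (fin 976 6 911)
(mv 911 (cons (fin 848 6 847)
(mv 846 (cons (fin 910 7 846)
(mv 847 (cons (fin 782 7 782)
(fin 1104 4 847))))))))))))))
(mv 911 (cons (mv 1104 (cons (fin 847 4 847)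
(fin 1168 4 911)))
(cons (mv 846 (cons (fin 910 7 846)
(mv 847 (cons (fin 782 7 782)
(mv 784 (cons (fin 848 6 783)
(mv 783 (cons (fin 720 6 719)
(fin 976 4 783)))))))))
(mv 846 (cons (fin 910 7 846)
(mv 1168 (cons (fin 1104 4 911)
(mv 1167 (cons (fin 1232 4 975)
(mv 1231 (cons (fin 976 6 975)
(mv 1230 (cons (fin 1229 2 1164)
(fin 1166 5 974)))))))))))))))))))
(cons (mv 1102 (cons (cons (mv 1036 (cons (fin 1104 3 1036)
(mv 1099 (cons (fin 1097 2 1033)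
(mv 1167 (cons (fin 1166 0 1099)
(fin 1168 0 1100)))))))
(mv 1167 (cons (fin 1168 0 1100)
(mv 1099 (cons (fin 1166 0 1099)
(mv 1097 (cons (fin 1036 2 1033)
(mv 1161 (cons (fin 1160 1 1096)
(fin 1162 1 1097))))))))))
(cons (mv 1036 (cons (fin 1104 3 1036)
(mv 970 (cons (cons (mv 1097 (cons (fin 1099 2 1033)
(mv 906 (cons (fin 1161 5 905)
(mv 841 (cons (fin 905 7 841)
(mv 842 (cons (fin 777 7 777)
(mv 843 (cons (fin 779 6 778)
(fin 907 6 842)))))))))))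
(cons (mv 1162 (cons (mv 1161 (cons (fin 1099 1 1097)
(fin 1225 5 969)))
(mv 907 (cons (fin 971 6 906)
(mv 906 (cons (fin 843 6 842)
(mv 905 (cons (fin 841 7 841)
(fin 969 7 905)))))))))
(mv 906 (cons (cons (mv 841 (cons (fin 905 7 841)
(mv 777 (cons (fin 842 7 777)
(mv 907 (cons (fin 843 6 842)
(mv 1161 (cons (fin 1097 5 905)
(mv 1162 (cons (fin 1225 5 969)
(fin 971 6 906)))))))))))
(mv 907 (cons (fin 843 6 842)
(mv 1097 (cons (fin 1161 5 905)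
(mv 971 (cons (fin 1162 6 906)
(mv 969 (cons (fin 972 0 969)
(mv 968 (cons (fin 967 2 903)
(fin 908 2 904))))))))))))
(cons (mv 905 (cons (fin 841 7 841)
(mv 1161 (cons (fin 1097 5 905)
(mv 1162 (cons (fin 969 7 905)
(fin 1225 5 969)))))))
(cons (mv 841 (cons (fin 905 7 841)
(mv 777 (cons (fin 842 7 777)
(mv 907 (cons (fin 843 6 842)
(mv 971 (cons (fin 1162 6 906)
(mv 969 (cons (fin 972 0 969)
(mv 968 (cons (fin 967 2 903)
(fin 908 2 904)))))))))))))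
(mv 843 (cons (fin 907 6 842)
(mv 842 (cons (fin 779 6 778)
(mv 841 (cons (fin 777 7 777)
(fin 905 7 841)))))))))))))
(cons (cons (mv 1099 (cons (fin 1097 2 1033)
(mv 1162 (cons (fin 1161 1 1097)
(mv 969 (cons (fin 905 7 905)
(mv 971 (cons (fin 972 0 969)
(fin 907 6 906)))))))))
(mv 1097 (cons (fin 1099 2 1033)
(mv 907 (cons (cons (mv 843 (cons (fin 906 6 842)
(mv 971 (cons (fin 779 5 778)
(fin 1162 6 906)))))
(mv 971 (cons (fin 1162 6 906)
(mv 969 (cons (fin 972 0 969)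
(mv 968 (cons (fin 908 2 904)
(mv 967 (cons (fin 906 2 903)
(mv 1031 (cons (fin 1030 1 966)
(fin 1032 1 967))))))))))))
(cons (mv 906 (cons (fin 843 6 842)
(mv 905 (cons (fin 841 7 841)
(mv 908 (cons (fin 972 0 905)
(mv 969 (cons (fin 968 1 904)
(fin 1162 7 905)))))))))
(cons (mv 971 (cons (fin 1162 6 906)
(mv 843 (cons (fin 779 5 778)
(mv 972 (cons (fin 969 0 969)
(fin 908 7 843)))))))
(mv 843 (cons (fin 906 6 842)
(mv 971 (cons (fin 779 5 778)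
(mv 972 (cons (fin 969 0 969)
(fin 908 7 843))))))))))))))
(cons (mv 1097 (cons (fin 1099 2 1033)
(mv 906 (cons (fin 1161 5 905)
(mv 907 (cons (fin 843 6 842)
(mv 971 (cons (fin 1162 6 906)
(mv 969 (cons (fin 972 0 969)
(mv 968 (cons (fin 967 2 903)
(fin 908 2 904)))))))))))))
(mv 1097 (cons (fin 1099 2 1033)
(mv 1161 (cons (fin 906 5 905)
(mv 1225 (cons (fin 1162 5 969)
(fin 1289 6 1033)))))))))))))
(cons (mv 1167 (cons (fin 1168 0 1100)
(mv 1166 (cons (fin 1099 0 1099)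
(mv 1230 (cons (fin 1294 7 1037)
(mv 1229 (cons (fin 1227 2 1163)
(mv 1231 (cons (mv 1295 (cons (fin 1296 0 1228)
(fin 1359 7 1102)))
(cons (mv 1292 (cons (fin 1291 1 1227)
(mv 1232 (cons (fin 1293 1 1228)
(mv 1233 (cons (fin 1234 3 1166)
(mv 1297 (cons (fin 1296 0 1229)
(fin 1298 0 1230)))))))))
(mv 1295 (cons (fin 1359 7 1102)
(fin 1104 6 1039))))))))))))))
(mv 1168 (cons (fin 1167 0 1100)
(mv 1104 (cons (fin 1036 3 1036)
(fin 1169 0 1101)))))))))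
(cons (mv 1102 (cons (fin 1039 2 1036)
(mv 1167 (cons (fin 1168 0 1100)
(mv 1099 (cons (fin 1166 0 1099)
(mv 1097 (cons (fin 1036 2 1033)
(mv 1161 (cons (fin 1160 1 1096)
(fin 1162 1 1097)))))))))))
(mv 1102 (cons (fin 1039 2 1036)
(mv 1036 (cons (fin 1104 3 1036)
(mv 970 (cons (cons (mv 1097 (cons (fin 1099 2 1033)
(mv 906 (cons (fin 1161 5 905)
(mv 841 (cons (fin 905 7 841)
(mv 842 (cons (fin 777 7 777)
(mv 843 (cons (fin 779 6 778)
(fin 907 6 842)))))))))))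
(cons (mv 1162 (cons (mv 1161 (cons (fin 1099 1 1097)
(fin 1225 5 969)))
(mv 907 (cons (fin 971 6 906)
(mv 906 (cons (fin 843 6 842)
(mv 905 (cons (fin 841 7 841)
(fin 969 7 905)))))))))
(mv 906 (cons (cons (mv 841 (cons (fin 905 7 841)
(mv 777 (cons (fin 842 7 777)
(mv 907 (cons (fin 843 6 842)
(mv 1161 (cons (fin 1097 5 905)
(mv 1162 (cons (fin 1225 5 969)
(fin 971 6 906)))))))))))
(mv 907 (cons (fin 843 6 842)
(mv 1097 (cons (fin 1161 5 905)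
(mv 971 (cons (fin 1162 6 906)
(mv 969 (cons (fin 972 0 969)
(mv 968 (cons (fin 967 2 903)
(fin 908 2 904))))))))))))
(cons (mv 905 (cons (fin 841 7 841)
(mv 1161 (cons (fin 1097 5 905)
(mv 1162 (cons (fin 969 7 905)
(fin 1225 5 969)))))))
(cons (mv 841 (cons (fin 905 7 841)
(mv 777 (cons (fin 842 7 777)
(mv 907 (cons (fin 843 6 842)
(mv 971 (cons (fin 1162 6 906)
(mv 969 (cons (fin 972 0 969)
(mv 968 (cons (fin 967 2 903)
(fin 908 2 904)))))))))))))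
(mv 843 (cons (fin 907 6 842)
(mv 842 (cons (fin 779 6 778)
(mv 841 (cons (fin 777 7 777)
(fin 905 7 841)))))))))))))
(cons (cons (mv 1099 (cons (fin 1097 2 1033)
(mv 1162 (cons (fin 1161 1 1097)
(mv 969 (cons (fin 905 7 905)
(mv 971 (cons (fin 972 0 969)
(fin 907 6 906)))))))))
(mv 1097 (cons (fin 1099 2 1033)
(mv 907 (cons (cons (mv 843 (cons (fin 906 6 842)
(mv 971 (cons (fin 779 5 778)
(fin 1162 6 906)))))
(mv 971 (cons (fin 1162 6 906)
(mv 969 (cons (fin 972 0 969)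
(mv 968 (cons (fin 908 2 904)
(mv 967 (cons (fin 906 2 903)
(mv 1031 (cons (fin 1030 1 966)
(fin 1032 1 967))))))))))))
(cons (mv 906 (cons (fin 843 6 842)
(mv 905 (cons (fin 841 7 841)
(mv 908 (cons (fin 972 0 905)
(mv 969 (cons (fin 968 1 904)
(fin 1162 7 905)))))))))
(cons (mv 971 (cons (fin 1162 6 906)
(mv 843 (cons (fin 779 5 778)
(mv 972 (cons (fin 969 0 969)
(fin 908 7 843)))))))
(mv 843 (cons (fin 906 6 842)
(mv 971 (cons (fin 779 5 778)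
(mv 972 (cons (fin 969 0 969)
(fin 908 7 843))))))))))))))
(cons (mv 1097 (cons (fin 1099 2 1033)
(mv 906 (cons (fin 1161 5 905)
(mv 907 (cons (fin 843 6 842)
(mv 971 (cons (fin 1162 6 906)
(mv 969 (cons (fin 972 0 969)
(mv 968 (cons (fin 967 2 903)
(fin 908 2 904)))))))))))))
(mv 1097 (cons (fin 1099 2 1033)
(mv 1161 (cons (fin 906 5 905)
(mv 1225 (cons (fin 1162 5 969)
(fin 1289 6 1033)))))))))))))))))))
(cons (mv 1099 (cons (fin 1033 3 1033)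
(mv 1103 (cons (cons (mv 1036 (cons (fin 1097 2 1033)
(mv 1102 (cons (fin 1104 3 1036)
(fin 1039 2 1036)))))
(mv 1039 (cons (cons (cons (mv 1036 (cons (fin 1097 2 1033)
(mv 1167 (cons (mv 976 (cons (fin 912 6 911)
(fin 1231 6 975)))
(cons (mv 1166 (cons (fin 1230 5 974)
(mv 1168 (cons (fin 1232 4 975)
(mv 911 (cons (fin 1104 4 911)
(mv 848 (cons (fin 912 6 847)
(mv 847 (cons (fin 784 6 783)
(mv 846 (cons (fin 782 7 782)
(fin 910 7 846)))))))))))))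
(mv 1168 (cons (fin 1232 4 975)
(mv 911 (cons (fin 1104 4 911)
(mv 846 (cons (fin 910 7 846)
(mv 782 (cons (fin 847 7 782)
(mv 1231 (cons (fin 976 6 975)
(mv 1230 (cons (fin 1229 2 1164)
(fin 1166 5 974))))))))))))))))))
(mv 1167 (cons (mv 976 (cons (fin 912 6 911)
(fin 1231 6 975)))
(cons (mv 1166 (cons (fin 1230 5 974)
(mv 1168 (cons (fin 1232 4 975)
(mv 911 (cons (fin 1104 4 911)
(mv 848 (cons (fin 912 6 847)
(mv 847 (cons (fin 784 6 783)
(mv 846 (cons (fin 782 7 782)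
(fin 910 7 846)))))))))))))
(mv 1168 (cons (fin 1232 4 975)
(mv 911 (cons (fin 1104 4 911)
(mv 846 (cons (fin 910 7 846)
(mv 782 (cons (fin 847 7 782)
(mv 1231 (cons (fin 976 6 975)
(mv 1230 (cons (fin 1229 2 1164)
(fin 1166 5 974)))))))))))))))))
(cons (mv 911 (cons (mv 1104 (cons (fin 847 4 847)
(fin 1168 4 911)))
(cons (mv 1036 (cons (fin 1097 2 1033)
(mv 846 (cons (fin 910 7 846)
(mv 847 (cons (fin 782 7 782)
(mv 848 (cons (fin 784 6 783)
(fin 912 6 847)))))))))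
(mv 910 (cons (fin 846 7 846)
(mv 912 (cons (fin 848 6 847)
(mv 913 (cons (cons (mv 1036 (cons (fin 1097 2 1033)
(mv 1104 (cons (fin 1168 4 911)
(mv 849 (cons (fin 850 2 846)
(fin 976 6 848)))))))
(mv 978 (cons (fin 977 0 910)
(mv 850 (cons (fin 849 2 846)
(mv 914 (cons (fin 851 2 847)
(fin 979 0 911))))))))
(cons (mv 978 (cons (fin 977 0 910)
(mv 914 (cons (fin 979 0 911)
(mv 851 (cons (fin 850 2 847)
(mv 915 (cons (fin 976 1 911)
(fin 852 2 848)))))))))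
(mv 1104 (cons (fin 1168 4 911)
(mv 976 (cons (fin 849 6 848)
(mv 978 (cons (fin 977 3 910)
(mv 914 (cons (fin 915 1 911)
(fin 979 0 911)))))))))))))))))))
(mv 1167 (cons (mv 976 (cons (fin 912 6 911)
(fin 1231 6 975)))
(cons (mv 1036 (cons (fin 1097 2 1033)
(mv 1230 (cons (fin 1166 5 974)
(mv 1168 (cons (fin 1232 4 975)
(mv 1231 (cons (fin 1229 2 1164)
(fin 1294 5 1038)))))))))
(mv 1168 (cons (fin 1232 4 975)
(mv 1166 (cons (fin 1230 5 974)
(mv 1169 (cons (cons (mv 912 (cons (fin 976 6 911)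
(mv 1106 (cons (fin 1105 2 1102)
(mv 1234 (cons (fin 1233 0 1166)
(mv 1170 (cons (fin 1107 2 1103)
(fin 1235 0 1167)))))))))
(mv 1234 (cons (fin 1233 0 1166)
(mv 1106 (cons (fin 1105 2 1102)
(mv 1170 (cons (fin 1107 2 1103)
(fin 1235 0 1167))))))))
(cons (mv 1233 (cons (fin 1234 0 1166)
(mv 976 (cons (fin 912 6 911)
(fin 1104 4 976)))))
(cons (mv 1106 (cons (fin 1105 2 1102)
(mv 1170 (cons (fin 1107 2 1103)
(mv 1171 (cons (fin 1104 3 1103)
(mv 1235 (cons (fin 1234 0 1167)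
(fin 1236 0 1168)))))))))
(mv 1106 (cons (fin 1105 2 1102)
(mv 976 (cons (fin 912 6 911)
(mv 1170 (cons (fin 1107 2 1103)
(mv 1104 (cons (fin 1171 3 1103)
(fin 1233 4 976))))))))))))))))))))))
(cons (cons (mv 1036 (cons (fin 1097 2 1033)
(mv 911 (cons (mv 1104 (cons (fin 847 4 847)
(fin 1168 4 911)))
(cons (mv 846 (cons (fin 910 7 846)
(mv 847 (cons (fin 782 7 782)
(mv 848 (cons (fin 784 6 783)
(fin 912 6 847)))))))
(mv 1168 (cons (fin 1104 4 911)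
(mv 848 (cons (fin 912 6 847)
(mv 1167 (cons (fin 1232 4 975)
(mv 1230 (cons (fin 1166 5 974)
(mv 1231 (cons (fin 1229 2 1164)
(fin 1294 5 1038))))))))))))))))
(mv 1036 (cons (fin 1097 2 1033)
(mv 1167 (cons (mv 976 (cons (fin 912 6 911)
(fin 1231 6 975)))
(cons (mv 1230 (cons (fin 1166 5 974)
(mv 1168 (cons (fin 1232 4 975)
(mv 1231 (cons (fin 1229 2 1164)
(fin 1294 5 1038)))))))
(mv 1166 (cons (fin 1230 5 974)
(mv 911 (cons (cons (mv 912 (cons (fin 848 6 847)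
(fin 976 6 911)))
(mv 846 (cons (fin 910 7 846)
(mv 847 (cons (fin 782 7 782)
(mv 784 (cons (fin 848 6 783)
(mv 783 (cons (fin 720 6 719)
(fin 976 4 783))))))))))
(cons (mv 1168 (cons (fin 1232 4 975)
(mv 848 (cons (fin 912 6 847)
(mv 847 (cons (fin 784 6 783)
(mv 846 (cons (fin 782 7 782)
(fin 910 7 846)))))))))
(mv 846 (cons (fin 910 7 846)
(mv 847 (cons (fin 782 7 782)
(mv 976 (cons (fin 912 6 911)
(fin 783 4 783))))))))))))))))))
(cons (mv 1036 (cons (fin 1097 2 1033)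
(mv 1167 (cons (mv 976 (cons (fin 912 6 911)
(fin 1231 6 975)))
(cons (mv 1230 (cons (fin 1166 5 974)
(mv 1231 (cons (fin 1294 5 1038)
(mv 1295 (cons (fin 1104 6 1039)
(mv 1296 (cons (fin 1229 0 1228)
(fin 1232 4 1039)))))))))
(mv 1166 (cons (fin 1230 5 974)
(mv 912 (cons (fin 976 6 911)
(mv 911 (cons (fin 848 6 847)
(mv 846 (cons (fin 910 7 846)
(mv 847 (cons (fin 782 7 782)
(fin 1104 4 847))))))))))))))))
(mv 1036 (cons (fin 1097 2 1033)
(mv 911 (cons (mv 1104 (cons (fin 847 4 847)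
(fin 1168 4 911)))
(cons (mv 846 (cons (fin 910 7 846)
(mv 847 (cons (fin 782 7 782)
(mv 784 (cons (fin 848 6 783)
(mv 783 (cons (fin 720 6 719)
(fin 976 4 783)))))))))
(mv 1168 (cons (fin 1104 4 911)
(mv 846 (cons (fin 910 7 846)
(mv 1167 (cons (fin 1232 4 975)
(mv 1231 (cons (fin 976 6 975)
(mv 1230 (cons (fin 1229 2 1164)
(fin 1166 5 974)))))))))))))))))))))
(cons (mv 1102 (cons (fin 1039 2 1036)
(mv 1167 (cons (fin 1166 0 1099)
(fin 1168 0 1100)))))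
(mv 1036 (cons (fin 1097 2 1033)
(mv 1102 (cons (fin 1104 3 1036)
(mv 1167 (cons (fin 1166 0 1099)
(fin 1168 0 1100))))))))))))
(mv 1162 (cons (cons (mv 1099 (cons (fin 1033 3 1033)
(fin 1161 1 1097)))
(mv 1226 (cons (cons (mv 969 (cons (fin 1033 7 969)
(mv 905 (cons (fin 970 7 905)
(mv 1227 (cons (fin 1291 4 1034)
(mv 1161 (cons (fin 1229 3 1161)
(mv 1225 (cons (fin 1160 3 1160)
(fin 1289 5 1033)))))))))))
(mv 1225 (cons (fin 1289 5 1033)
(mv 970 (cons (fin 1161 5 969)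
(mv 969 (cons (fin 905 7 905)
(fin 1033 7 969))))))))
(cons (mv 969 (cons (fin 1033 7 969)
(mv 905 (cons (fin 970 7 905)
(mv 1227 (cons (fin 1291 4 1034)
(mv 1229 (cons (fin 1161 3 1161)
(mv 1289 (cons (fin 1290 1 1225)
(mv 1294 (cons (fin 1293 0 1226)
(mv 1230 (cons (fin 1295 0 1227)
(mv 1166 (cons (fin 1167 2 1163)
(fin 1102 7 1037)))))))))))))))))
(cons (mv 1227 (cons (fin 1291 4 1034)
(mv 1161 (cons (fin 1229 3 1161)
(mv 1160 (cons (fin 1225 3 1160)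
(fin 1159 0 1159)))))))
(mv 969 (cons (fin 1033 7 969)
(mv 905 (cons (fin 970 7 905)
(mv 1289 (cons (fin 1225 5 1033)
(mv 1227 (cons (fin 1291 4 1034)
(mv 1290 (cons (fin 1229 1 1225)
(fin 1353 5 1097))))))))))))))))
(cons (mv 1033 (cons (fin 1099 3 1033)
(mv 969 (cons (fin 1226 7 969)
(mv 905 (cons (fin 970 7 905)
(fin 841 4 841)))))))
(mv 1161 (cons (fin 1099 1 1097)
(mv 970 (cons (fin 1225 5 969)
(mv 905 (cons (fin 969 7 905)
(mv 906 (cons (fin 841 7 841)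
(mv 971 (cons (fin 972 3 905)
(fin 907 6 906)))))))))))))))))))
(cons (mv 1292 (cons (fin 1164 6 1036)
(mv 1102 (cons (cons (cons (mv 1103 (cons (fin 1039 2 1036)
(mv 1167 (cons (fin 1168 0 1100)
(mv 1166 (cons (fin 1099 0 1099)
(mv 1230 (cons (fin 1294 7 1037)
(mv 1229 (cons (fin 1227 2 1163)
(mv 1231 (cons (fin 1291 1 1227)
(mv 1295 (cons (fin 1296 0 1228)
(fin 1359 7 1102)))))))))))))))
(mv 1166 (cons (cons (mv 1167 (cons (fin 1099 0 1099)
(mv 1230 (cons (fin 1294 7 1037)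
(mv 1229 (cons (fin 1227 2 1163)
(mv 1168 (cons (fin 1169 3 1101)
(fin 1231 2 1164)))))))))
(mv 1294 (cons (fin 1230 7 1037)
(mv 1293 (cons (cons (mv 1227 (cons (fin 1295 3 1227)
(mv 1226 (cons (fin 1291 3 1226)
(fin 1225 0 1225)))))
(mv 1291 (cons (cons (mv 1226 (cons (fin 1227 3 1226)
(mv 1290 (cons (fin 1225 3 1225)
(mv 1354 (cons (fin 1353 1 1289)
(fin 1355 1 1290)))))))
(mv 1358 (cons (fin 1359 0 1291)
(mv 1290 (cons (fin 1357 0 1290)
(mv 1354 (cons (fin 1353 1 1289)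
(fin 1355 1 1290))))))))
(cons (mv 1226 (cons (fin 1227 3 1226)
(mv 1290 (cons (fin 1225 3 1225)
(mv 1358 (cons (fin 1357 0 1290)
(fin 1359 0 1291)))))))
(mv 1358 (cons (fin 1359 0 1291)
(mv 1355 (cons (fin 1354 1 1290)
(mv 1419 (cons (fin 1483 6 1227)
(mv 1418 (cons (mv 1227 (cons (fin 1226 3 1226)
(fin 1482 5 1226)))
(mv 1357 (cons (fin 1356 1 1354)
(mv 1421 (cons (fin 1420 2 1354)
(fin 1485 7 1228)))))))))))))))))
(cons (mv 1295 (cons (cons (mv 1229 (cons (fin 1296 3 1228)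
(mv 1359 (cons (fin 1360 0 1292)
(mv 1291 (cons (fin 1358 0 1291)
(mv 1355 (cons (fin 1354 1 1290)
(fin 1356 1 1291)))))))))
(mv 1231 (cons (fin 1232 2 1228)
(mv 1359 (cons (fin 1360 0 1292)
(mv 1291 (cons (fin 1358 0 1291)
(mv 1355 (cons (fin 1354 1 1290)
(fin 1356 1 1291))))))))))
(cons (mv 1229 (cons (fin 1296 3 1228)
(mv 1231 (cons (fin 1232 2 1228)
(mv 1359 (cons (fin 1360 0 1292)
(mv 1291 (cons (fin 1358 0 1291)
(mv 1290 (cons (fin 1289 2 1225)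
(mv 1354 (cons (fin 1353 1 1289)
(fin 1355 1 1290)))))))))))))
(cons (mv 1359 (cons (fin 1360 0 1292)
(mv 1291 (cons (fin 1358 0 1291)
(mv 1296 (cons (fin 1229 3 1228)
(mv 1232 (cons (fin 1231 2 1228)
(fin 1233 2 1229)))))))))
(mv 1231 (cons (fin 1232 2 1228)
(mv 1356 (cons (fin 1355 1 1291)
(mv 1296 (cons (fin 1229 3 1228)
(fin 1357 1 1292)))))))))))
(mv 1227 (cons (fin 1295 3 1227)
(mv 1226 (cons (fin 1225 0 1225)
(fin 1229 0 1226)))))))))))
(cons (mv 1167 (cons (fin 1099 0 1099)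
(mv 1168 (cons (fin 1169 3 1101)
(mv 1104 (cons (mv 976 (cons (fin 911 7 911)
(fin 1231 5 975)))
(cons (mv 1232 (cons (fin 1039 7 975)
(mv 1231 (cons (fin 1295 5 1039)
(mv 1233 (cons (fin 1234 3 1166)
(fin 1297 4 1040)))))))
(mv 1039 (cons (fin 1232 7 975)
(mv 911 (cons (fin 976 7 911)
(fin 847 4 847))))))))))))
(mv 1099 (cons (fin 1167 0 1099)
(mv 1098 (cons (fin 1033 3 1033)
(mv 1294 (cons (fin 1230 7 1037)
(mv 1162 (cons (fin 1161 1 1097)
(mv 1226 (cons (cons (mv 1225 (cons (fin 1289 5 1033)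
(mv 1227 (cons (fin 1293 0 1225)
(fin 1291 4 1034)))))
(mv 1289 (cons (fin 1225 5 1033)
(mv 1290 (cons (fin 1353 5 1097)
(mv 1291 (cons (fin 1229 2 1225)
(fin 1355 4 1098))))))))
(cons (mv 1227 (cons (mv 1225 (cons (fin 1293 0 1225)
(fin 1289 5 1033)))
(cons (mv 1289 (cons (fin 1225 5 1033)
(mv 1290 (cons (fin 1229 1 1225)
(fin 1353 5 1097)))))
(mv 1293 (cons (fin 1295 3 1227)
(fin 1229 0 1226))))))
(cons (mv 1227 (cons (fin 1291 4 1034)
(mv 1293 (cons (fin 1295 3 1227)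
(fin 1225 0 1225)))))
(mv 1227 (cons (fin 1291 4 1034)
(mv 1293 (cons (fin 1295 3 1227)
(fin 1229 0 1226)))))))))))))))))))))
(cons (mv 1166 (cons (mv 1167 (cons (fin 1099 0 1099)
(mv 1168 (cons (fin 1169 3 1101)
(fin 1103 0 1100)))))
(mv 1294 (cons (fin 1230 7 1037)
(mv 1293 (cons (cons (mv 1227 (cons (fin 1295 3 1227)
(mv 1226 (cons (fin 1291 3 1226)
(fin 1225 0 1225)))))
(mv 1291 (cons (cons (mv 1226 (cons (fin 1227 3 1226)
(mv 1290 (cons (fin 1225 3 1225)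
(mv 1354 (cons (fin 1353 1 1289)
(fin 1355 1 1290)))))))
(mv 1358 (cons (fin 1359 0 1291)
(mv 1290 (cons (fin 1357 0 1290)
(mv 1354 (cons (fin 1353 1 1289)
(fin 1355 1 1290))))))))
(cons (mv 1226 (cons (fin 1227 3 1226)
(mv 1290 (cons (fin 1225 3 1225)
(mv 1358 (cons (fin 1357 0 1290)
(fin 1359 0 1291)))))))
(mv 1358 (cons (fin 1359 0 1291)
(mv 1355 (cons (fin 1354 1 1290)
(mv 1419 (cons (fin 1483 6 1227)
(mv 1418 (cons (mv 1227 (cons (fin 1226 3 1226)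
(fin 1482 5 1226)))
(mv 1357 (cons (fin 1356 1 1354)
(mv 1421 (cons (fin 1420 2 1354)
(fin 1485 7 1228)))))))))))))))))
(cons (mv 1295 (cons (cons (mv 1229 (cons (fin 1296 3 1228)
(mv 1359 (cons (fin 1360 0 1292)
(mv 1291 (cons (fin 1358 0 1291)
(mv 1355 (cons (fin 1354 1 1290)
(fin 1356 1 1291)))))))))
(mv 1231 (cons (fin 1232 2 1228)
(mv 1359 (cons (fin 1360 0 1292)
(mv 1291 (cons (fin 1358 0 1291)
(mv 1355 (cons (fin 1354 1 1290)
(fin 1356 1 1291))))))))))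
(cons (mv 1229 (cons (fin 1296 3 1228)
(mv 1231 (cons (fin 1232 2 1228)
(mv 1359 (cons (fin 1360 0 1292)
(mv 1291 (cons (fin 1358 0 1291)
(mv 1290 (cons (fin 1289 2 1225)
(mv 1354 (cons (fin 1353 1 1289)
(fin 1355 1 1290)))))))))))))
(cons (mv 1359 (cons (fin 1360 0 1292)
(mv 1291 (cons (fin 1358 0 1291)
(mv 1296 (cons (fin 1229 3 1228)
(mv 1232 (cons (fin 1231 2 1228)
(fin 1233 2 1229)))))))))
(mv 1231 (cons (fin 1232 2 1228)
(mv 1356 (cons (fin 1355 1 1291)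
(mv 1296 (cons (fin 1229 3 1228)
(fin 1357 1 1292)))))))))))
(mv 1227 (cons (fin 1295 3 1227)
(mv 1226 (cons (fin 1225 0 1225)
(fin 1229 0 1226))))))))))))
(mv 1168 (cons (cons (mv 1103 (cons (fin 1039 2 1036)
(fin 1167 0 1100)))
(mv 1104 (cons (mv 911 (cons (fin 976 7 911)
(mv 1039 (cons (fin 1232 7 975)
(fin 847 4 847)))))
(cons (mv 1232 (cons (fin 1039 7 975)
(mv 1295 (cons (fin 1231 5 1039)
(mv 1297 (cons (fin 1233 4 1040)
(mv 1296 (cons (fin 1359 5 1103)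
(fin 1361 4 1104)))))))))
(mv 976 (cons (fin 911 7 911)
(mv 1167 (cons (fin 1231 5 975)
(mv 1169 (cons (fin 1233 4 976)
(mv 912 (cons (fin 1105 4 912)
(mv 913 (cons (fin 849 6 848)
(fin 977 6 912)))))))))))))))
(cons (mv 1104 (cons (cons (mv 1103 (cons (fin 1167 0 1100)
(fin 1169 0 1101)))
(mv 976 (cons (fin 911 7 911)
(mv 1167 (cons (fin 1231 5 975)
(mv 1169 (cons (fin 1233 4 976)
(mv 912 (cons (fin 1105 4 912)
(mv 913 (cons (fin 849 6 848)
(fin 977 6 912))))))))))))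
(cons (mv 976 (cons (fin 911 7 911)
(mv 1167 (cons (fin 1103 0 1100)
(fin 1231 5 975)))))
(mv 1169 (cons (fin 1103 0 1101)
(mv 976 (cons (fin 911 7 911)
(fin 1233 4 976))))))))
(mv 1039 (cons (fin 1103 2 1036)
(mv 1104 (cons (fin 1232 7 975)
(mv 911 (cons (fin 976 7 911)
(fin 847 4 847))))))))))))
(cons (cons (mv 1103 (cons (fin 1039 2 1036)
(mv 1294 (cons (cons (cons (mv 1230 (cons (fin 1166 7 1037)
(mv 1293 (cons (mv 1227 (cons (fin 1295 3 1227)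
(mv 1291 (cons (fin 1226 3 1226)
(fin 1231 2 1227)))))
(cons (mv 1227 (cons (fin 1295 3 1227)
(mv 1226 (cons (fin 1225 0 1225)
(fin 1229 0 1226)))))
(mv 1231 (cons (fin 1291 2 1227)
(mv 1232 (cons (fin 1229 1 1228)
(fin 1233 1 1229))))))))))
(mv 1293 (cons (cons (mv 1227 (cons (fin 1295 3 1227)
(mv 1226 (cons (fin 1291 3 1226)
(fin 1225 0 1225)))))
(mv 1291 (cons (cons (mv 1226 (cons (fin 1227 3 1226)
(mv 1290 (cons (fin 1225 3 1225)
(mv 1354 (cons (fin 1353 1 1289)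
(fin 1355 1 1290)))))))
(mv 1358 (cons (fin 1359 0 1291)
(mv 1290 (cons (fin 1357 0 1290)
(mv 1354 (cons (fin 1353 1 1289)
(fin 1355 1 1290))))))))
(cons (mv 1226 (cons (fin 1227 3 1226)
(mv 1290 (cons (fin 1225 3 1225)
(mv 1358 (cons (fin 1357 0 1290)
(fin 1359 0 1291)))))))
(mv 1358 (cons (fin 1359 0 1291)
(mv 1355 (cons (fin 1354 1 1290)
(mv 1419 (cons (fin 1483 6 1227)
(mv 1418 (cons (mv 1227 (cons (fin 1226 3 1226)
(fin 1482 5 1226)))
(mv 1357 (cons (fin 1356 1 1354)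
(mv 1421 (cons (fin 1420 2 1354)
(fin 1485 7 1228)))))))))))))))))
(cons (mv 1295 (cons (cons (mv 1229 (cons (fin 1296 3 1228)
(mv 1359 (cons (fin 1360 0 1292)
(mv 1291 (cons (fin 1358 0 1291)
(mv 1355 (cons (fin 1354 1 1290)
(fin 1356 1 1291)))))))))
(mv 1359 (cons (fin 1360 0 1292)
(mv 1291 (cons (fin 1358 0 1291)
(mv 1355 (cons (fin 1354 1 1290)
(fin 1356 1 1291))))))))
(cons (mv 1231 (cons (fin 1232 2 1228)
(mv 1359 (cons (fin 1360 0 1292)
(mv 1291 (cons (fin 1358 0 1291)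
(mv 1354 (cons (fin 1355 1 1290)
(mv 1290 (cons (fin 1353 1 1289)
(mv 1229 (cons (fin 1296 3 1228)
(fin 1289 2 1225)))))))))))))
(mv 1296 (cons (fin 1229 3 1228)
(mv 1232 (cons (fin 1231 2 1228)
(fin 1233 2 1229))))))))
(mv 1227 (cons (fin 1295 3 1227)
(mv 1226 (cons (fin 1225 0 1225)
(fin 1229 0 1226)))))))))
(cons (mv 1230 (cons (fin 1166 7 1037)
(mv 1229 (cons (cons (mv 1231 (cons (fin 1291 1 1227)
(mv 1295 (cons (fin 1227 0 1227)
(fin 1296 0 1228)))))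
(mv 1295 (cons (fin 1227 0 1227)
(mv 1296 (cons (fin 1297 3 1229)
(fin 1231 0 1228))))))
(cons (mv 1291 (cons (fin 1231 1 1227)
(mv 1290 (cons (fin 1227 1 1226)
(fin 1289 2 1225)))))
(cons (mv 1231 (cons (fin 1291 1 1227)
(mv 1232 (cons (cons (mv 1296 (cons (fin 1295 0 1228)
(fin 1297 0 1229)))
(mv 1169 (cons (fin 1168 2 1165)
(mv 1233 (cons (fin 1170 2 1166)
(mv 1234 (cons (fin 1295 1 1230)
(mv 1298 (cons (fin 1297 0 1230)
(fin 1299 0 1231))))))))))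
(cons (mv 1168 (cons (fin 1169 2 1165)
(mv 1297 (cons (fin 1296 0 1229)
(mv 1233 (cons (fin 1298 0 1230)
(fin 1104 4 1040)))))))
(mv 1295 (cons (fin 1296 0 1228)
(mv 1168 (cons (fin 1169 2 1165)
(fin 1104 5 1039))))))))))
(mv 1227 (cons (fin 1295 0 1227)
(mv 1226 (cons (cons (mv 1290 (cons (fin 1289 1 1225)
(fin 1291 1 1226)))
(mv 1161 (cons (fin 1162 3 1161)
(mv 1225 (cons (fin 1160 3 1160)
(mv 1288 (cons (fin 1289 1 1224)
(mv 1224 (cons (fin 1287 1 1223)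
(fin 1291 0 1224))))))))))
(cons (mv 1161 (cons (fin 1162 3 1161)
(mv 1225 (cons (fin 1160 3 1160)
(mv 1289 (cons (fin 1288 1 1224)
(fin 1290 1 1225)))))))
(mv 1291 (cons (fin 1290 1 1226)
(mv 1162 (cons (fin 1161 3 1161)
(fin 1098 4 1034))))))))))))))))
(mv 1230 (cons (fin 1166 7 1037)
(mv 1291 (cons (cons (mv 1231 (cons (fin 1229 1 1227)
(fin 1293 2 1227)))
(mv 1290 (cons (mv 1229 (cons (fin 1227 1 1226)
(fin 1289 2 1225)))
(cons (mv 1293 (cons (mv 1226 (cons (fin 1225 3 1225)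
(fin 1227 3 1226)))
(mv 1358 (cons (fin 1357 0 1290)
(fin 1359 0 1291)))))
(mv 1229 (cons (fin 1289 2 1225)
(fin 1293 2 1226)))))))
(cons (mv 1229 (cons (fin 1231 1 1227)
(mv 1290 (cons (fin 1227 1 1226)
(fin 1289 2 1225)))))
(mv 1293 (cons (fin 1231 2 1227)
(mv 1354 (cons (fin 1355 1 1290)
(mv 1290 (cons (fin 1353 1 1289)
(mv 1226 (cons (fin 1225 3 1225)
(fin 1227 3 1226))))))))))))))))
(cons (cons (mv 1230 (cons (fin 1166 7 1037)
(mv 1231 (cons (cons (mv 1291 (cons (fin 1229 1 1227)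
(fin 1293 2 1227)))
(mv 1232 (cons (cons (mv 1293 (cons (fin 1229 1 1228)
(fin 1233 1 1229)))
(mv 1168 (cons (cons (mv 1169 (cons (fin 1229 2 1165)
(fin 1104 0 1101)))
(mv 1169 (cons (fin 1229 2 1165)
(mv 1170 (cons (fin 1171 1 1167)
(fin 1233 2 1166))))))
(cons (mv 1104 (cons (fin 1295 5 1039)
(mv 911 (cons (fin 976 7 911)
(mv 1297 (cons (fin 1233 4 1040)
(mv 1296 (cons (fin 1229 0 1229)
(fin 1361 4 1104)))))))))
(mv 1104 (cons (fin 1169 0 1101)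
(fin 1295 5 1039)))))))
(cons (mv 1293 (cons (fin 1229 1 1228)
(fin 1295 2 1228)))
(mv 1293 (cons (fin 1233 1 1229)
(fin 1295 2 1228)))))))
(cons (mv 1229 (cons (fin 1291 1 1227)
(mv 1232 (cons (cons (mv 1296 (cons (fin 1295 0 1228)
(fin 1297 0 1229)))
(mv 1169 (cons (fin 1168 2 1165)
(mv 1233 (cons (fin 1170 2 1166)
(mv 1234 (cons (fin 1295 1 1230)
(mv 1298 (cons (fin 1297 0 1230)
(fin 1299 0 1231))))))))))
(cons (mv 1168 (cons (fin 1169 2 1165)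
(mv 1297 (cons (fin 1296 0 1229)
(mv 1233 (cons (fin 1298 0 1230)
(fin 1104 4 1040)))))))
(mv 1295 (cons (fin 1296 0 1228)
(mv 1168 (cons (fin 1169 2 1165)
(fin 1104 5 1039))))))))))
(mv 1293 (cons (fin 1291 2 1227)
(mv 1232 (cons (fin 1233 1 1229)
(fin 1295 2 1228))))))))))
(mv 1230 (cons (fin 1166 7 1037)
(mv 1295 (cons (cons (mv 1227 (cons (fin 1293 3 1227)
(fin 1229 0 1227)))
(mv 1296 (cons (mv 1229 (cons (fin 1293 3 1228)
(fin 1297 3 1229)))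
(cons (mv 1293 (cons (mv 1360 (cons (fin 1359 0 1292)
(fin 1361 0 1293)))
(mv 1356 (cons (fin 1355 1 1291)
(fin 1357 1 1292)))))
(mv 1229 (cons (fin 1297 3 1229)
(fin 1231 0 1228)))))))
(cons (mv 1229 (cons (fin 1227 0 1227)
(mv 1296 (cons (fin 1297 3 1229)
(fin 1231 0 1228)))))
(mv 1293 (cons (fin 1227 3 1227)
(mv 1355 (cons (fin 1356 1 1291)
(mv 1360 (cons (fin 1359 0 1292)
(mv 1232 (cons (fin 1231 2 1228)
(mv 1296 (cons (fin 1233 2 1229)
(fin 1361 0 1293)))))))))))))))))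
(cons (mv 1230 (cons (fin 1166 7 1037)
(mv 1293 (cons (cons (mv 1227 (cons (fin 1295 3 1227)
(mv 1291 (cons (fin 1226 3 1226)
(fin 1231 2 1227)))))
(mv 1295 (cons (fin 1227 3 1227)
(mv 1355 (cons (fin 1356 1 1291)
(mv 1360 (cons (fin 1359 0 1292)
(mv 1232 (cons (fin 1231 2 1228)
(mv 1296 (cons (fin 1233 2 1229)
(fin 1361 0 1293))))))))))))
(cons (mv 1291 (cons (fin 1231 2 1227)
(mv 1354 (cons (fin 1355 1 1290)
(mv 1290 (cons (fin 1353 1 1289)
(mv 1226 (cons (fin 1225 3 1225)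
(fin 1227 3 1226)))))))))
(cons (mv 1231 (cons (fin 1291 2 1227)
(mv 1232 (cons (fin 1233 1 1229)
(fin 1295 2 1228)))))
(mv 1227 (cons (fin 1295 3 1227)
(mv 1226 (cons (fin 1291 3 1226)
(fin 1225 0 1225)))))))))))
(mv 1230 (cons (fin 1166 7 1037)
(mv 1227 (cons (cons (mv 1295 (cons (fin 1293 3 1227)
(fin 1229 0 1227)))
(mv 1226 (cons (cons (mv 1293 (cons (fin 1291 3 1226)
(fin 1225 0 1225)))
(mv 1225 (cons (cons (mv 1160 (cons (fin 1161 3 1160)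
(mv 1224 (cons (fin 1159 3 1159)
(fin 1291 0 1224)))))
(mv 1160 (cons (fin 1161 3 1160)
(mv 1224 (cons (fin 1159 3 1159)
(mv 1288 (cons (fin 1287 1 1223)
(fin 1289 1 1224))))))))
(cons (mv 1288 (cons (fin 1289 1 1224)
(mv 1161 (cons (fin 1160 3 1160)
(mv 1162 (cons (fin 1229 3 1161)
(mv 1098 (cons (fin 1099 1 1097)
(fin 970 5 969)))))))))
(mv 1224 (cons (fin 1291 0 1224)
(mv 1288 (cons (fin 1287 1 1223)
(fin 1289 1 1224)))))))))
(cons (mv 1293 (cons (fin 1225 0 1225)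
(fin 1229 0 1226)))
(mv 1293 (cons (fin 1291 3 1226)
(fin 1229 0 1226)))))))
(cons (mv 1229 (cons (fin 1295 0 1227)
(mv 1226 (cons (cons (mv 1290 (cons (fin 1289 1 1225)
(fin 1291 1 1226)))
(mv 1161 (cons (fin 1162 3 1161)
(mv 1225 (cons (fin 1160 3 1160)
(mv 1288 (cons (fin 1289 1 1224)
(mv 1224 (cons (fin 1287 1 1223)
(fin 1291 0 1224))))))))))
(cons (mv 1161 (cons (fin 1162 3 1161)
(mv 1225 (cons (fin 1160 3 1160)
(mv 1289 (cons (fin 1288 1 1224)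
(fin 1290 1 1225)))))))
(mv 1291 (cons (fin 1290 1 1226)
(mv 1162 (cons (fin 1161 3 1161)
(fin 1098 4 1034))))))))))
(mv 1293 (cons (fin 1295 3 1227)
(mv 1226 (cons (fin 1291 3 1226)
(fin 1225 0 1225))))))))))))))))
(mv 1103 (cons (fin 1039 2 1036)
(mv 1294 (cons (cons (cons (mv 1166 (cons (fin 1230 7 1037)
(mv 1099 (cons (fin 1167 0 1099)
(mv 1098 (cons (fin 1033 3 1033)
(mv 1162 (cons (fin 1161 1 1097)
(mv 1226 (cons (cons (mv 1225 (cons (fin 1289 5 1033)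
(mv 1227 (cons (fin 1293 0 1225)
(fin 1291 4 1034)))))
(mv 1289 (cons (fin 1225 5 1033)
(mv 1290 (cons (fin 1353 5 1097)
(mv 1291 (cons (fin 1229 2 1225)
(fin 1355 4 1098))))))))
(cons (mv 1227 (cons (mv 1225 (cons (fin 1293 0 1225)
(fin 1289 5 1033)))
(cons (mv 1289 (cons (fin 1225 5 1033)
(mv 1290 (cons (fin 1229 1 1225)
(fin 1353 5 1097)))))
(mv 1293 (cons (fin 1295 3 1227)
(fin 1229 0 1226))))))
(cons (mv 1227 (cons (fin 1291 4 1034)
(mv 1293 (cons (fin 1295 3 1227)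
(fin 1225 0 1225)))))
(mv 1227 (cons (fin 1291 4 1034)
(mv 1293 (cons (fin 1295 3 1227)
(fin 1229 0 1226)))))))))))))))))
(mv 1293 (cons (cons (mv 1227 (cons (fin 1295 3 1227)
(mv 1226 (cons (fin 1291 3 1226)
(fin 1225 0 1225)))))
(mv 1291 (cons (mv 1226 (cons (fin 1227 3 1226)
(mv 1290 (cons (fin 1225 3 1225)
(mv 1354 (cons (fin 1353 1 1289)
(fin 1355 1 1290)))))))
(cons (mv 1358 (cons (fin 1359 0 1291)
(mv 1290 (cons (fin 1357 0 1290)
(mv 1230 (cons (fin 1229 2 1226)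
(fin 1231 2 1227)))))))
(mv 1355 (cons (fin 1354 1 1290)
(mv 1358 (cons (fin 1359 0 1291)
(mv 1419 (cons (fin 1483 6 1227)
(mv 1418 (cons (mv 1227 (cons (fin 1226 3 1226)
(fin 1482 5 1226)))
(mv 1357 (cons (fin 1356 1 1354)
(mv 1421 (cons (fin 1420 2 1354)
(fin 1485 7 1228)))))))))))))))))
(cons (mv 1295 (cons (cons (mv 1229 (cons (fin 1296 3 1228)
(mv 1359 (cons (fin 1360 0 1292)
(mv 1291 (cons (fin 1358 0 1291)
(mv 1231 (cons (fin 1230 1 1227)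
(fin 1232 2 1228)))))))))
(mv 1229 (cons (fin 1296 3 1228)
(mv 1359 (cons (fin 1360 0 1292)
(mv 1291 (cons (fin 1358 0 1291)
(mv 1355 (cons (fin 1354 1 1290)
(fin 1356 1 1291))))))))))
(cons (mv 1355 (cons (fin 1356 1 1291)
(mv 1291 (cons (fin 1354 1 1290)
(mv 1231 (cons (fin 1230 2 1227)
(fin 1232 2 1228)))))))
(mv 1231 (cons (fin 1232 2 1228)
(mv 1167 (cons (fin 1358 5 1102)
(fin 1104 6 1039))))))))
(mv 1227 (cons (fin 1295 3 1227)
(mv 1226 (cons (fin 1225 0 1225)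
(fin 1229 0 1226)))))))))
(cons (mv 1293 (cons (cons (mv 1227 (cons (fin 1295 3 1227)
(mv 1226 (cons (fin 1291 3 1226)
(fin 1225 0 1225)))))
(mv 1291 (cons (cons (mv 1226 (cons (fin 1227 3 1226)
(mv 1290 (cons (fin 1225 3 1225)
(mv 1354 (cons (fin 1353 1 1289)
(fin 1355 1 1290)))))))
(mv 1358 (cons (fin 1359 0 1291)
(mv 1290 (cons (fin 1357 0 1290)
(mv 1354 (cons (fin 1353 1 1289)
(fin 1355 1 1290))))))))
(cons (mv 1226 (cons (fin 1227 3 1226)
(mv 1290 (cons (fin 1225 3 1225)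
(mv 1358 (cons (fin 1357 0 1290)
(fin 1359 0 1291)))))))
(mv 1358 (cons (fin 1359 0 1291)
(mv 1355 (cons (fin 1354 1 1290)
(mv 1419 (cons (fin 1483 6 1227)
(mv 1418 (cons (mv 1227 (cons (fin 1226 3 1226)
(fin 1482 5 1226)))
(mv 1357 (cons (fin 1356 1 1354)
(mv 1421 (cons (fin 1420 2 1354)
(fin 1485 7 1228)))))))))))))))))
(cons (mv 1295 (cons (mv 1229 (cons (fin 1296 3 1228)
(mv 1359 (cons (fin 1360 0 1292)
(mv 1291 (cons (fin 1358 0 1291)
(mv 1355 (cons (fin 1354 1 1290)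
(fin 1356 1 1291)))))))))
(cons (mv 1231 (cons (fin 1232 2 1228)
(mv 1167 (cons (fin 1358 5 1102)
(fin 1104 6 1039)))))
(mv 1359 (cons (fin 1360 0 1292)
(mv 1229 (cons (fin 1296 3 1228)
(mv 1231 (cons (fin 1232 2 1228)
(mv 1167 (cons (fin 1166 7 1102)
(fin 1104 6 1039))))))))))))
(mv 1227 (cons (fin 1295 3 1227)
(mv 1226 (cons (fin 1225 0 1225)
(fin 1229 0 1226))))))))
(mv 1230 (cons (fin 1166 7 1037)
(mv 1229 (cons (cons (mv 1231 (cons (fin 1291 1 1227)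
(mv 1295 (cons (fin 1227 0 1227)
(fin 1296 0 1228)))))
(mv 1291 (cons (fin 1231 1 1227)
(mv 1290 (cons (fin 1227 1 1226)
(fin 1289 2 1225))))))
(cons (mv 1295 (cons (fin 1227 0 1227)
(mv 1296 (cons (fin 1297 3 1229)
(fin 1231 0 1228)))))
(cons (mv 1227 (cons (fin 1295 0 1227)
(mv 1226 (cons (cons (mv 1290 (cons (fin 1289 1 1225)
(fin 1291 1 1226)))
(mv 1161 (cons (fin 1162 3 1161)
(mv 1225 (cons (fin 1160 3 1160)
(mv 1288 (cons (fin 1289 1 1224)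
(mv 1224 (cons (fin 1287 1 1223)
(fin 1291 0 1224))))))))))
(cons (mv 1161 (cons (fin 1162 3 1161)
(mv 1225 (cons (fin 1160 3 1160)
(mv 1289 (cons (fin 1288 1 1224)
(fin 1290 1 1225)))))))
(mv 1291 (cons (fin 1290 1 1226)
(mv 1162 (cons (fin 1161 3 1161)
(fin 1098 4 1034))))))))))
(mv 1231 (cons (fin 1291 1 1227)
(mv 1295 (cons (fin 1296 0 1228)
(mv 1167 (cons (fin 1358 5 1102)
(fin 1104 6 1039)))))))))))))))
(cons (cons (mv 1291 (cons (cons (mv 1166 (cons (fin 1230 7 1037)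
(mv 1099 (cons (fin 1167 0 1099)
(mv 1098 (cons (fin 1033 3 1033)
(mv 1162 (cons (fin 1161 1 1097)
(mv 1226 (cons (fin 1227 4 1034)
(mv 1225 (cons (fin 1289 5 1033)
(mv 1290 (cons (fin 1293 3 1225)
(fin 1355 4 1098)))))))))))))))
(mv 1293 (cons (cons (mv 1226 (cons (fin 1227 3 1226)
(mv 1290 (cons (fin 1225 3 1225)
(mv 1354 (cons (fin 1353 1 1289)
(fin 1355 1 1290)))))))
(mv 1358 (cons (fin 1359 0 1291)
(mv 1290 (cons (fin 1357 0 1290)
(mv 1354 (cons (fin 1353 1 1289)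
(fin 1355 1 1290))))))))
(cons (mv 1226 (cons (fin 1227 3 1226)
(mv 1290 (cons (fin 1225 3 1225)
(mv 1358 (cons (fin 1357 0 1290)
(fin 1359 0 1291)))))))
(mv 1358 (cons (fin 1359 0 1291)
(mv 1355 (cons (fin 1354 1 1290)
(mv 1419 (cons (fin 1483 6 1227)
(mv 1418 (cons (mv 1227 (cons (fin 1226 3 1226)
(fin 1482 5 1226)))
(mv 1357 (cons (fin 1356 1 1354)
(mv 1421 (cons (fin 1420 2 1354)
(fin 1485 7 1228)))))))))))))))))
(cons (mv 1166 (cons (fin 1230 7 1037)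
(mv 1099 (cons (fin 1167 0 1099)
(mv 1098 (cons (fin 1033 3 1033)
(mv 1162 (cons (fin 1161 1 1097)
(mv 1226 (cons (fin 1227 4 1034)
(mv 1289 (cons (fin 1225 5 1033)
(mv 1290 (cons (fin 1229 2 1225)
(fin 1353 5 1097)))))))))))))))
(mv 1230 (cons (fin 1166 7 1037)
(mv 1231 (cons (fin 1229 1 1227)
(fin 1293 2 1227))))))))
(mv 1166 (cons (fin 1230 7 1037)
(mv 1167 (cons (fin 1099 0 1099)
(mv 1295 (cons (cons (mv 1231 (cons (fin 1359 7 1102)
(fin 1358 5 1102)))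
(mv 1293 (cons (cons (mv 1229 (cons (fin 1296 3 1228)
(mv 1359 (cons (fin 1360 0 1292)
(mv 1291 (cons (fin 1358 0 1291)
(mv 1355 (cons (fin 1354 1 1290)
(fin 1356 1 1291)))))))))
(mv 1359 (cons (fin 1360 0 1292)
(mv 1291 (cons (fin 1358 0 1291)
(mv 1355 (cons (fin 1354 1 1290)
(fin 1356 1 1291))))))))
(cons (mv 1296 (cons (fin 1229 3 1228)
(mv 1360 (cons (fin 1359 0 1292)
(fin 1361 0 1293)))))
(mv 1356 (cons (fin 1355 1 1291)
(mv 1296 (cons (fin 1229 3 1228)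
(fin 1357 1 1292)))))))))
(cons (mv 1231 (cons (fin 1358 5 1102)
(fin 1104 6 1039)))
(mv 1231 (cons (fin 1359 7 1102)
(fin 1104 6 1039)))))))))))
(cons (mv 1230 (cons (fin 1166 7 1037)
(mv 1293 (cons (mv 1227 (cons (fin 1295 3 1227)
(mv 1291 (cons (fin 1226 3 1226)
(fin 1231 2 1227)))))
(cons (mv 1227 (cons (fin 1295 3 1227)
(mv 1226 (cons (fin 1225 0 1225)
(fin 1229 0 1226)))))
(mv 1231 (cons (fin 1291 2 1227)
(mv 1232 (cons (fin 1229 1 1228)
(fin 1233 1 1229))))))))))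
(cons (mv 1166 (cons (fin 1230 7 1037)
(mv 1167 (cons (fin 1099 0 1099)
(mv 1295 (cons (mv 1231 (cons (fin 1359 7 1102)
(fin 1358 5 1102)))
(mv 1293 (cons (fin 1227 3 1227)
(mv 1296 (cons (fin 1229 3 1228)
(mv 1356 (cons (fin 1355 1 1291)
(fin 1357 1 1292)))))))))))))
(mv 1166 (cons (fin 1230 7 1037)
(mv 1167 (cons (fin 1099 0 1099)
(mv 1295 (cons (cons (mv 1231 (cons (fin 1359 7 1102)
(fin 1358 5 1102)))
(mv 1293 (cons (fin 1227 3 1227)
(mv 1355 (cons (fin 1356 1 1291)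
(mv 1291 (cons (fin 1354 1 1290)
(mv 1359 (cons (fin 1358 0 1291)
(fin 1360 0 1292))))))))))
(cons (mv 1231 (cons (fin 1358 5 1102)
(fin 1104 6 1039)))
(mv 1231 (cons (fin 1359 7 1102)
(fin 1104 6 1039))))))))))))))))))
(cons (mv 1103 (cons (fin 1039 2 1036)
(mv 1167 (cons (fin 1168 0 1100)
(mv 1166 (cons (fin 1099 0 1099)
(mv 1230 (cons (fin 1294 7 1037)
(mv 1229 (cons (fin 1227 2 1163)
(mv 1231 (cons (fin 1291 1 1227)
(mv 1232 (cons (fin 1293 1 1228)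
(mv 1233 (cons (fin 1234 3 1166)
(mv 1297 (cons (fin 1296 0 1229)
(fin 1298 0 1230)))))))))))))))))))
(cons (mv 1039 (cons (fin 1103 2 1036)
(mv 1294 (cons (mv 1166 (cons (fin 1230 7 1037)
(mv 1167 (cons (fin 1099 0 1099)
(mv 1168 (cons (fin 1169 3 1101)
(mv 1104 (cons (fin 1232 7 975)
(mv 911 (cons (fin 976 7 911)
(fin 847 4 847)))))))))))
(cons (mv 1293 (cons (cons (mv 1227 (cons (fin 1295 3 1227)
(mv 1226 (cons (fin 1291 3 1226)
(fin 1225 0 1225)))))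
(mv 1291 (cons (cons (mv 1226 (cons (fin 1227 3 1226)
(mv 1290 (cons (fin 1225 3 1225)
(mv 1354 (cons (fin 1353 1 1289)
(fin 1355 1 1290)))))))
(mv 1358 (cons (fin 1359 0 1291)
(mv 1290 (cons (fin 1357 0 1290)
(mv 1354 (cons (fin 1353 1 1289)
(fin 1355 1 1290))))))))
(cons (mv 1226 (cons (fin 1227 3 1226)
(mv 1290 (cons (fin 1225 3 1225)
(mv 1229 (cons (fin 1289 2 1225)
(fin 1230 2 1226)))))))
(mv 1358 (cons (fin 1359 0 1291)
(mv 1355 (cons (fin 1354 1 1290)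
(mv 1419 (cons (fin 1483 6 1227)
(mv 1418 (cons (mv 1227 (cons (fin 1226 3 1226)
(fin 1482 5 1226)))
(mv 1357 (cons (fin 1356 1 1354)
(mv 1421 (cons (fin 1420 2 1354)
(fin 1485 7 1228)))))))))))))))))
(cons (mv 1295 (cons (cons (mv 1229 (cons (fin 1296 3 1228)
(mv 1359 (cons (fin 1360 0 1292)
(mv 1291 (cons (fin 1358 0 1291)
(mv 1355 (cons (fin 1354 1 1290)
(fin 1356 1 1291)))))))))
(cons (mv 1355 (cons (fin 1356 1 1291)
(mv 1291 (cons (fin 1354 1 1290)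
(mv 1359 (cons (fin 1358 0 1291)
(fin 1360 0 1292)))))))
(mv 1359 (cons (fin 1360 0 1292)
(mv 1291 (cons (fin 1358 0 1291)
(mv 1354 (cons (fin 1355 1 1290)
(mv 1290 (cons (fin 1353 1 1289)
(mv 1229 (cons (fin 1296 3 1228)
(fin 1289 2 1225)))))))))))))
(cons (mv 1229 (cons (fin 1296 3 1228)
(mv 1355 (cons (fin 1356 1 1291)
(mv 1291 (cons (fin 1354 1 1290)
(mv 1290 (cons (fin 1289 2 1225)
(fin 1230 2 1226)))))))))
(cons (mv 1359 (cons (fin 1360 0 1292)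
(mv 1291 (cons (fin 1358 0 1291)
(mv 1229 (cons (fin 1296 3 1228)
(mv 1290 (cons (fin 1289 2 1225)
(fin 1230 2 1226)))))))))
(mv 1296 (cons (fin 1229 3 1228)
(mv 1356 (cons (fin 1355 1 1291)
(fin 1357 1 1292)))))))))
(mv 1227 (cons (fin 1295 3 1227)
(mv 1226 (cons (fin 1225 0 1225)
(fin 1229 0 1226))))))))
(mv 1293 (cons (cons (mv 1227 (cons (fin 1295 3 1227)
(mv 1226 (cons (fin 1291 3 1226)
(fin 1225 0 1225)))))
(mv 1291 (cons (cons (mv 1226 (cons (fin 1227 3 1226)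
(mv 1290 (cons (fin 1225 3 1225)
(mv 1354 (cons (fin 1353 1 1289)
(fin 1355 1 1290)))))))
(mv 1358 (cons (fin 1359 0 1291)
(mv 1290 (cons (fin 1357 0 1290)
(mv 1354 (cons (fin 1353 1 1289)
(fin 1355 1 1290))))))))
(cons (mv 1226 (cons (fin 1227 3 1226)
(mv 1290 (cons (fin 1225 3 1225)
(mv 1358 (cons (fin 1357 0 1290)
(fin 1359 0 1291)))))))
(mv 1358 (cons (fin 1359 0 1291)
(mv 1355 (cons (fin 1354 1 1290)
(mv 1419 (cons (fin 1483 6 1227)
(mv 1418 (cons (mv 1227 (cons (fin 1226 3 1226)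
(fin 1482 5 1226)))
(mv 1357 (cons (fin 1356 1 1354)
(mv 1421 (cons (fin 1420 2 1354)
(fin 1485 7 1228)))))))))))))))))
(cons (mv 1295 (cons (cons (mv 1229 (cons (fin 1296 3 1228)
(mv 1359 (cons (fin 1360 0 1292)
(mv 1291 (cons (fin 1358 0 1291)
(mv 1355 (cons (fin 1354 1 1290)
(fin 1356 1 1291)))))))))
(cons (mv 1355 (cons (fin 1356 1 1291)
(mv 1291 (cons (fin 1354 1 1290)
(mv 1359 (cons (fin 1358 0 1291)
(fin 1360 0 1292)))))))
(mv 1359 (cons (fin 1360 0 1292)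
(mv 1291 (cons (fin 1358 0 1291)
(mv 1354 (cons (fin 1355 1 1290)
(mv 1290 (cons (fin 1353 1 1289)
(mv 1229 (cons (fin 1296 3 1228)
(fin 1289 2 1225)))))))))))))
(cons (mv 1296 (cons (fin 1229 3 1228)
(mv 1360 (cons (fin 1359 0 1292)
(fin 1361 0 1293)))))
(cons (mv 1355 (cons (fin 1356 1 1291)
(mv 1291 (cons (fin 1354 1 1290)
(mv 1296 (cons (fin 1229 3 1228)
(mv 1233 (cons (fin 1232 2 1229)
(mv 1361 (cons (fin 1360 0 1293)
(mv 1297 (cons (fin 1234 2 1230)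
(fin 1362 0 1294)))))))))))))
(mv 1229 (cons (fin 1296 3 1228)
(mv 1355 (cons (fin 1356 1 1291)
(mv 1291 (cons (fin 1354 1 1290)
(mv 1290 (cons (fin 1289 2 1225)
(mv 1358 (cons (fin 1357 0 1290)
(fin 1359 0 1291)))))))))))))))
(mv 1227 (cons (fin 1295 3 1227)
(mv 1226 (cons (fin 1225 0 1225)
(fin 1229 0 1226)))))))))))))
(mv 1103 (cons (fin 1039 2 1036)
(mv 1167 (cons (fin 1168 0 1100)
(mv 1166 (cons (fin 1099 0 1099)
(mv 1230 (cons (fin 1294 7 1037)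
(mv 1229 (cons (fin 1227 2 1163)
(mv 1231 (cons (fin 1291 1 1227)
(mv 1295 (cons (fin 1359 7 1102)
(fin 1104 6 1039))))))))))))))))))))))
(mv 1098 (cons (cons (mv 1036 (cons (fin 1164 6 972)
(mv 1099 (cons (fin 1033 3 1033)
(fin 1097 2 1033)))))
(mv 1164 (cons (fin 1036 6 972)
(mv 970 (cons (cons (cons (mv 906 (cons (cons (mv 841 (cons (fin 905 7 841)
(mv 777 (cons (fin 842 7 777)
(mv 907 (cons (fin 843 6 842)
(mv 1161 (cons (fin 1097 5 905)
(mv 1162 (cons (fin 1225 5 969)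
(fin 971 6 906)))))))))))
(mv 843 (cons (fin 907 6 842)
(mv 842 (cons (fin 779 6 778)
(mv 1097 (cons (fin 1033 5 841)
(fin 1161 5 905))))))))
(cons (mv 1097 (cons (fin 1161 5 905)
(mv 842 (cons (fin 1033 5 841)
(mv 841 (cons (fin 777 7 777)
(fin 905 7 841)))))))
(cons (mv 841 (cons (fin 905 7 841)
(mv 842 (cons (fin 777 7 777)
(mv 843 (cons (fin 779 6 778)
(fin 907 6 842)))))))
(mv 843 (cons (fin 907 6 842)
(mv 1161 (cons (fin 1097 5 905)
(mv 905 (cons (fin 841 7 841)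
(mv 1162 (cons (fin 969 7 905)
(fin 1225 5 969)))))))))))))
(mv 1162 (cons (cons (mv 1161 (cons (fin 1225 5 969)
(mv 907 (cons (fin 971 6 906)
(mv 969 (cons (fin 905 7 905)
(mv 1226 (cons (fin 1033 7 969)
(mv 1227 (cons (fin 1229 3 1161)
(fin 1291 4 1034)))))))))))
(cons (mv 971 (cons (fin 907 6 906)
(mv 1225 (cons (fin 1161 5 969)
(mv 1033 (cons (fin 972 1 969)
(mv 1226 (cons (fin 1289 5 1033)
(mv 1290 (cons (fin 1097 7 1033)
(mv 1291 (cons (fin 1227 4 1034)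
(fin 1355 4 1098)))))))))))))
(mv 969 (cons (fin 905 7 905)
(mv 907 (cons (fin 971 6 906)
(mv 1226 (cons (fin 1033 7 969)
(mv 1227 (cons (fin 1291 4 1034)
(mv 1229 (cons (fin 1161 3 1161)
(mv 1294 (cons (fin 1293 0 1226)
(mv 1230 (cons (fin 1295 0 1227)
(mv 1166 (cons (fin 1167 2 1163)
(fin 1102 7 1037)))))))))))))))))))
(cons (cons (mv 969 (cons (fin 905 7 905)
(mv 1161 (cons (fin 1225 5 969)
(mv 1226 (cons (fin 1033 7 969)
(mv 1227 (cons (fin 1229 3 1161)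
(fin 1291 4 1034)))))))))
(mv 969 (cons (fin 905 7 905)
(mv 907 (cons (fin 971 6 906)
(mv 1226 (cons (fin 1033 7 969)
(mv 1289 (cons (fin 1225 5 1033)
(mv 1227 (cons (fin 1291 4 1034)
(mv 1290 (cons (fin 1229 1 1225)
(fin 1353 5 1097))))))))))))))
(cons (mv 1161 (cons (fin 1225 5 969)
(mv 971 (cons (fin 907 6 906)
(mv 969 (cons (fin 905 7 905)
(mv 1033 (cons (fin 972 1 969)
(mv 1031 (cons (fin 1032 2 967)
(mv 968 (cons (mv 967 (cons (fin 1030 1 966)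
(fin 966 0 966)))
(mv 904 (cons (fin 903 3 903)
(fin 1097 7 904)))))))))))))))
(mv 905 (cons (fin 969 7 905)
(mv 907 (cons (fin 971 6 906)
(mv 1226 (cons (mv 1225 (cons (fin 1161 5 969)
(fin 1289 5 1033)))
(cons (mv 1227 (cons (fin 1291 4 1034)
(mv 1229 (cons (fin 1161 3 1161)
(mv 1294 (cons (fin 1293 0 1226)
(mv 1230 (cons (fin 1295 0 1227)
(mv 1166 (cons (fin 1167 2 1163)
(fin 1102 7 1037)))))))))))
(mv 1227 (cons (fin 1291 4 1034)
(mv 1289 (cons (fin 1225 5 1033)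
(mv 1290 (cons (fin 1229 1 1225)
(fin 1353 5 1097)))))))))))))))))))
(cons (mv 906 (cons (cons (mv 841 (cons (fin 905 7 841)
(mv 842 (cons (fin 777 7 777)
(mv 1097 (cons (fin 1033 5 841)
(fin 1161 5 905)))))))
(mv 843 (cons (fin 907 6 842)
(mv 842 (cons (fin 779 6 778)
(mv 1097 (cons (fin 1033 5 841)
(fin 1161 5 905))))))))
(cons (mv 841 (cons (fin 905 7 841)
(mv 842 (cons (fin 777 7 777)
(mv 843 (cons (fin 779 6 778)
(fin 907 6 842)))))))
(mv 907 (cons (fin 843 6 842)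
(mv 1097 (cons (fin 1161 5 905)
(mv 905 (cons (fin 841 7 841)
(mv 972 (cons (fin 971 3 905)
(fin 908 0 905))))))))))))
(mv 906 (cons (cons (mv 843 (cons (fin 907 6 842)
(mv 842 (cons (fin 779 6 778)
(mv 1097 (cons (fin 1033 5 841)
(fin 1161 5 905)))))))
(cons (mv 907 (cons (fin 843 6 842)
(mv 1162 (cons (fin 971 6 906)
(mv 1226 (cons (mv 1225 (cons (fin 1161 5 969)
(fin 1289 5 1033)))
(cons (mv 1227 (cons (fin 1291 4 1034)
(mv 1229 (cons (fin 1161 3 1161)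
(mv 1294 (cons (fin 1293 0 1226)
(mv 1230 (cons (fin 1295 0 1227)
(mv 1166 (cons (fin 1167 2 1163)
(fin 1102 7 1037)))))))))))
(mv 969 (cons (fin 1033 7 969)
(mv 967 (cons (fin 968 2 903)
(mv 1289 (cons (fin 1225 5 1033)
(mv 1227 (cons (fin 1291 4 1034)
(mv 1290 (cons (fin 1229 1 1225)
(fin 1353 5 1097))))))))))))))))))
(mv 843 (cons (fin 907 6 842)
(mv 842 (cons (fin 779 6 778)
(mv 1033 (cons (fin 1097 5 841)
(mv 778 (cons (fin 969 5 777)
(mv 777 (cons (fin 713 7 713)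
(fin 841 7 777)))))))))))))
(cons (mv 1097 (cons (fin 1161 5 905)
(mv 842 (cons (fin 1033 5 841)
(mv 777 (cons (fin 841 7 777)
(mv 778 (cons (fin 713 7 713)
(mv 779 (cons (fin 715 6 714)
(fin 843 6 778)))))))))))
(cons (mv 1097 (cons (fin 1161 5 905)
(mv 1033 (cons (fin 842 5 841)
(mv 971 (cons (fin 972 1 969)
(mv 1031 (cons (fin 1032 2 967)
(mv 1162 (cons (fin 907 6 906)
(mv 1226 (cons (fin 969 7 969)
(fin 1290 7 1033)))))))))))))
(mv 1161 (cons (fin 1097 5 905)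
(mv 907 (cons (fin 843 6 842)
(mv 1162 (cons (fin 1225 5 969)
(fin 971 6 906)))))))))))))
(cons (cons (mv 906 (cons (cons (mv 841 (cons (fin 905 7 841)
(mv 842 (cons (fin 777 7 777)
(mv 1097 (cons (fin 1033 5 841)
(fin 1161 5 905)))))))
(mv 843 (cons (fin 907 6 842)
(mv 842 (cons (fin 779 6 778)
(mv 1097 (cons (fin 1033 5 841)
(fin 1161 5 905))))))))
(cons (mv 841 (cons (fin 905 7 841)
(mv 842 (cons (fin 777 7 777)
(mv 843 (cons (fin 779 6 778)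
(fin 907 6 842)))))))
(mv 843 (cons (fin 907 6 842)
(mv 1161 (cons (fin 1097 5 905)
(mv 905 (cons (fin 841 7 841)
(mv 1162 (cons (fin 969 7 905)
(fin 1225 5 969))))))))))))
(mv 906 (cons (cons (mv 841 (cons (fin 905 7 841)
(mv 842 (cons (fin 777 7 777)
(mv 843 (cons (fin 779 6 778)
(fin 907 6 842)))))))
(cons (mv 843 (cons (fin 907 6 842)
(mv 842 (cons (fin 779 6 778)
(mv 1033 (cons (fin 1097 5 841)
(mv 778 (cons (fin 969 5 777)
(mv 777 (cons (fin 713 7 713)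
(fin 841 7 777)))))))))))
(mv 841 (cons (fin 905 7 841)
(mv 842 (cons (fin 777 7 777)
(mv 1033 (cons (fin 1097 5 841)
(mv 778 (cons (fin 969 5 777)
(mv 779 (cons (fin 715 6 714)
(fin 843 6 778)))))))))))))
(cons (mv 843 (cons (fin 907 6 842)
(mv 842 (cons (fin 779 6 778)
(mv 1033 (cons (fin 1097 5 841)
(mv 969 (cons (fin 778 5 777)
(mv 1162 (cons (fin 905 7 905)
(fin 1226 7 969)))))))))))
(cons (mv 841 (cons (fin 905 7 841)
(mv 842 (cons (fin 777 7 777)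
(mv 1033 (cons (fin 1097 5 841)
(mv 778 (cons (fin 969 5 777)
(mv 971 (cons (fin 972 1 969)
(mv 907 (cons (fin 1162 6 906)
(fin 714 4 714)))))))))))))
(mv 905 (cons (fin 841 7 841)
(mv 907 (cons (fin 843 6 842)
(mv 972 (cons (fin 971 3 905)
(fin 908 0 905))))))))))))
(cons (mv 906 (cons (cons (mv 1097 (cons (fin 1161 5 905)
(mv 842 (cons (fin 1033 5 841)
(mv 841 (cons (fin 777 7 777)
(fin 905 7 841)))))))
(mv 1097 (cons (fin 1161 5 905)
(mv 842 (cons (fin 1033 5 841)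
(mv 777 (cons (fin 841 7 777)
(mv 778 (cons (fin 713 7 713)
(mv 779 (cons (fin 715 6 714)
(fin 843 6 778))))))))))))
(cons (mv 905 (cons (fin 841 7 841)
(mv 1162 (cons (fin 969 7 905)
(mv 1226 (cons (mv 1225 (cons (fin 1161 5 969)
(fin 1289 5 1033)))
(cons (mv 1227 (cons (fin 1291 4 1034)
(mv 1229 (cons (fin 1161 3 1161)
(mv 1294 (cons (fin 1293 0 1226)
(mv 1230 (cons (fin 1295 0 1227)
(mv 1166 (cons (fin 1167 2 1163)
(fin 1102 7 1037)))))))))))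
(mv 971 (cons (fin 972 3 905)
(mv 1289 (cons (fin 1225 5 1033)
(mv 903 (cons (fin 904 0 903)
(mv 1290 (cons (fin 1353 5 1097)
(mv 1227 (cons (fin 1229 1 1225)
(fin 1291 4 1034))))))))))))))))))
(cons (mv 841 (cons (fin 905 7 841)
(mv 842 (cons (fin 777 7 777)
(mv 1033 (cons (fin 1097 5 841)
(mv 778 (cons (fin 969 5 777)
(mv 779 (cons (fin 715 6 714)
(fin 843 6 778)))))))))))
(mv 1161 (cons (fin 1097 5 905)
(mv 1162 (cons (fin 1225 5 969)
(mv 969 (cons (fin 905 7 905)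
(mv 1226 (cons (fin 1033 7 969)
(mv 1227 (cons (fin 1229 3 1161)
(fin 1291 4 1034)))))))))))))))
(cons (mv 906 (cons (cons (mv 841 (cons (fin 905 7 841)
(mv 777 (cons (fin 842 7 777)
(mv 907 (cons (fin 843 6 842)
(mv 1161 (cons (fin 1097 5 905)
(mv 1162 (cons (fin 1225 5 969)
(fin 971 6 906)))))))))))
(mv 1161 (cons (fin 1097 5 905)
(mv 907 (cons (fin 843 6 842)
(mv 1162 (cons (fin 1225 5 969)
(fin 971 6 906))))))))
(cons (mv 905 (cons (fin 841 7 841)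
(mv 1161 (cons (fin 1097 5 905)
(mv 1162 (cons (fin 969 7 905)
(fin 1225 5 969)))))))
(mv 841 (cons (fin 905 7 841)
(mv 842 (cons (fin 777 7 777)
(mv 843 (cons (fin 779 6 778)
(fin 907 6 842))))))))))
(mv 1162 (cons (cons (mv 905 (cons (fin 969 7 905)
(mv 906 (cons (fin 841 7 841)
(mv 971 (cons (fin 972 3 905)
(fin 907 6 906)))))))
(mv 969 (cons (fin 905 7 905)
(mv 1161 (cons (fin 1225 5 969)
(mv 1226 (cons (fin 1033 7 969)
(mv 1227 (cons (fin 1229 3 1161)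
(fin 1291 4 1034))))))))))
(cons (mv 907 (cons (fin 971 6 906)
(mv 906 (cons (fin 843 6 842)
(mv 1226 (cons (mv 1225 (cons (fin 1161 5 969)
(fin 1289 5 1033)))
(cons (mv 1227 (cons (fin 1291 4 1034)
(mv 1229 (cons (fin 1161 3 1161)
(mv 1294 (cons (fin 1293 0 1226)
(mv 1230 (cons (fin 1295 0 1227)
(mv 1166 (cons (fin 1167 2 1163)
(fin 1102 7 1037)))))))))))
(mv 969 (cons (fin 1033 7 969)
(mv 967 (cons (fin 968 2 903)
(mv 1289 (cons (fin 1225 5 1033)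
(mv 1227 (cons (fin 1291 4 1034)
(mv 1290 (cons (fin 1229 1 1225)
(fin 1353 5 1097))))))))))))))))))
(mv 907 (cons (fin 971 6 906)
(mv 843 (cons (fin 906 6 842)
(mv 1226 (cons (mv 1225 (cons (fin 1161 5 969)
(fin 1289 5 1033)))
(cons (mv 1227 (cons (fin 1291 4 1034)
(mv 1229 (cons (fin 1161 3 1161)
(mv 1294 (cons (fin 1293 0 1226)
(mv 1230 (cons (fin 1295 0 1227)
(mv 1166 (cons (fin 1167 2 1163)
(fin 1102 7 1037)))))))))))
(mv 1227 (cons (fin 1291 4 1034)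
(mv 1289 (cons (fin 1225 5 1033)
(mv 1290 (cons (fin 1229 1 1225)
(fin 1353 5 1097)))))))))))))))))))))))))
(cons (mv 1033 (cons (fin 1099 3 1033)
(mv 969 (cons (cons (mv 1162 (cons (fin 1226 7 969)
(mv 905 (cons (fin 970 7 905)
(fin 841 4 841)))))
(mv 1162 (cons (fin 1226 7 969)
(mv 970 (cons (mv 971 (cons (fin 972 1 969)
(fin 907 6 906)))
(cons (mv 1161 (cons (fin 1225 5 969)
(mv 906 (cons (fin 1097 5 905)
(mv 842 (cons (fin 778 5 777)
(mv 843 (cons (fin 779 6 778)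
(fin 907 6 842)))))))))
(mv 1161 (cons (fin 1225 5 969)
(mv 1097 (cons (fin 906 5 905)
(mv 971 (cons (fin 972 1 969)
(mv 1031 (cons (fin 1032 2 967)
(mv 1160 (cons (fin 1224 5 968)
(mv 968 (cons (fin 904 7 904)
(mv 967 (cons (fin 1030 1 966)
(fin 966 0 966)))))))))))))))))))))
(cons (mv 905 (cons (fin 841 4 841)
(mv 1097 (cons (cons (mv 840 (cons (fin 904 7 840)
(mv 842 (cons (fin 906 6 841)
(mv 1160 (cons (fin 1096 5 904)
(mv 1161 (cons (fin 1224 5 968)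
(mv 1225 (cons (fin 970 6 969)
(fin 1289 6 1033)))))))))))
(mv 1096 (cons (fin 1160 5 904)
(mv 1094 (cons (fin 1095 2 1030)
(mv 904 (cons (fin 840 7 840)
(mv 1161 (cons (fin 968 7 904)
(mv 1225 (cons (fin 970 6 969)
(fin 1289 6 1033))))))))))))
(cons (mv 842 (cons (fin 906 6 841)
(mv 1160 (cons (fin 1096 5 904)
(mv 1161 (cons (fin 1224 5 968)
(mv 1225 (cons (fin 970 6 969)
(fin 1289 6 1033)))))))))
(cons (mv 840 (cons (fin 904 7 840)
(mv 906 (cons (fin 842 6 841)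
(mv 970 (cons (fin 1161 5 905)
(mv 971 (cons (fin 972 3 905)
(mv 1031 (cons (fin 1032 2 967)
(mv 907 (cons (fin 843 6 842)
(mv 968 (cons (fin 908 1 904)
(fin 967 2 903)))))))))))))))
(mv 842 (cons (fin 906 6 841)
(mv 1096 (cons (fin 1160 5 904)
(mv 1095 (cons (fin 1094 2 1030)
(mv 904 (cons (fin 840 7 840)
(mv 1031 (cons (fin 1030 3 1030)
(mv 1159 (cons (fin 1158 1 1094)
(mv 968 (cons (fin 1032 5 903)
(fin 967 6 903)))))))))))))))))))))
(mv 905 (cons (fin 841 4 841)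
(mv 1162 (cons (fin 1226 7 969)
(fin 1097 4 905))))))))))
(cons (mv 1036 (cons (fin 1164 6 972)
(mv 1097 (cons (fin 1099 2 1033)
(mv 1102 (cons (mv 1103 (cons (fin 1104 3 1036)
(fin 1039 2 1036)))
(mv 970 (cons (cons (mv 906 (cons (fin 1161 5 905)
(mv 841 (cons (fin 905 7 841)
(mv 777 (cons (fin 842 7 777)
(mv 907 (cons (fin 843 6 842)
(mv 971 (cons (fin 1162 6 906)
(mv 969 (cons (fin 972 0 969)
(mv 968 (cons (fin 967 2 903)
(fin 908 2 904)))))))))))))))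
(cons (mv 1162 (cons (mv 969 (cons (fin 905 7 905)
(mv 971 (cons (fin 972 0 969)
(fin 907 6 906)))))
(cons (mv 907 (cons (fin 971 6 906)
(mv 1226 (cons (mv 1225 (cons (fin 1161 5 969)
(fin 1289 5 1033)))
(cons (mv 1227 (cons (fin 1291 4 1034)
(mv 1229 (cons (fin 1161 3 1161)
(mv 1294 (cons (fin 1293 0 1226)
(mv 1230 (cons (fin 1295 0 1227)
(fin 1166 7 1037)))))))))
(mv 1227 (cons (fin 1291 4 1034)
(mv 1289 (cons (fin 1225 5 1033)
(mv 1290 (cons (fin 1229 1 1225)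
(fin 1353 5 1097))))))))))))
(mv 905 (cons (fin 969 7 905)
(mv 1226 (cons (mv 1225 (cons (fin 1161 5 969)
(fin 1289 5 1033)))
(cons (mv 1227 (cons (fin 1291 4 1034)
(mv 1229 (cons (fin 1161 3 1161)
(mv 1294 (cons (fin 1293 0 1226)
(mv 1230 (cons (fin 1295 0 1227)
(fin 1166 7 1037)))))))))
(mv 1227 (cons (fin 1291 4 1034)
(mv 1289 (cons (fin 1225 5 1033)
(mv 1290 (cons (fin 1229 1 1225)
(fin 1353 5 1097)))))))))))))))
(mv 971 (cons (cons (mv 969 (cons (fin 972 0 969)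
(mv 1162 (cons (fin 905 7 905)
(fin 907 6 906)))))
(mv 907 (cons (fin 1162 6 906)
(mv 843 (cons (fin 779 5 778)
(fin 906 6 842))))))
(cons (mv 969 (cons (fin 972 0 969)
(mv 905 (cons (fin 1162 7 905)
(mv 841 (cons (fin 906 7 841)
(fin 777 4 777)))))))
(mv 969 (cons (fin 972 0 969)
(mv 968 (cons (mv 903 (cons (fin 904 3 903)
(mv 902 (cons (fin 967 3 902)
(mv 907 (cons (fin 908 2 904)
(mv 843 (cons (fin 779 5 778)
(fin 906 6 842)))))))))
(cons (mv 1031 (cons (fin 1032 1 967)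
(mv 967 (cons (fin 1030 1 966)
(mv 903 (cons (fin 902 3 902)
(fin 904 3 903)))))))
(mv 907 (cons (fin 908 2 904)
(mv 843 (cons (fin 779 5 778)
(fin 906 6 842)))))))))))))))
(cons (mv 906 (cons (fin 1161 5 905)
(mv 841 (cons (fin 905 7 841)
(mv 842 (cons (fin 777 7 777)
(mv 843 (cons (fin 779 6 778)
(fin 907 6 842)))))))))
(cons (mv 906 (cons (fin 1161 5 905)
(mv 907 (cons (fin 843 6 842)
(mv 971 (cons (fin 1162 6 906)
(mv 969 (cons (fin 972 0 969)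
(mv 968 (cons (fin 967 2 903)
(fin 908 2 904)))))))))))
(mv 1161 (cons (fin 906 5 905)
(mv 1225 (cons (fin 1162 5 969)
(fin 1289 6 1033)))))))))))))))
(mv 1036 (cons (fin 1164 6 972)
(mv 1102 (cons (mv 1103 (cons (fin 1104 3 1036)
(fin 1039 2 1036)))
(mv 1162 (cons (cons (mv 1099 (cons (fin 1033 3 1033)
(fin 1161 1 1097)))
(mv 970 (cons (mv 905 (cons (fin 969 7 905)
(mv 906 (cons (fin 841 7 841)
(mv 971 (cons (fin 972 3 905)
(fin 907 6 906)))))))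
(cons (mv 969 (cons (fin 905 7 905)
(mv 1161 (cons (fin 1225 5 969)
(mv 1226 (cons (fin 1033 7 969)
(mv 1227 (cons (fin 1229 3 1161)
(fin 1291 4 1034)))))))))
(mv 971 (cons (fin 907 6 906)
(mv 1033 (cons (fin 972 1 969)
(mv 1226 (cons (mv 1225 (cons (fin 1161 5 969)
(fin 1289 5 1033)))
(cons (mv 1227 (cons (fin 1291 4 1034)
(mv 1229 (cons (fin 1161 3 1161)
(mv 1294 (cons (fin 1293 0 1226)
(mv 1230 (cons (fin 1295 0 1227)
(fin 1166 7 1037)))))))))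
(mv 1031 (cons (fin 1032 2 967)
(mv 1289 (cons (fin 1225 5 1033)
(mv 1227 (cons (fin 1291 4 1034)
(mv 1290 (cons (fin 1229 1 1225)
(fin 1353 5 1097))))))))))))))))))))
(cons (mv 1033 (cons (fin 1099 3 1033)
(mv 969 (cons (fin 1226 7 969)
(mv 905 (cons (fin 970 7 905)
(fin 841 4 841)))))))
(mv 1161 (cons (fin 1099 1 1097)
(mv 970 (cons (fin 1225 5 969)
(mv 905 (cons (fin 969 7 905)
(mv 906 (cons (fin 841 7 841)
(mv 971 (cons (fin 972 3 905)
(fin 907 6 906)))))))))))))))))))))))))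
(cons (mv 1164 (cons (mv 1228 (cons (fin 1036 6 972)
(fin 1292 6 1036)))
(cons (mv 1102 (cons (mv 1103 (cons (fin 1163 1 1099)
(fin 1039 2 1036)))
(cons (mv 1098 (cons (cons (mv 1099 (cons (fin 1033 3 1033)
(mv 1162 (cons (fin 1161 1 1097)
(fin 1163 1 1098)))))
(cons (mv 970 (cons (cons (mv 1162 (cons (mv 1161 (cons (fin 1163 2 1097)
(fin 1225 5 969)))
(mv 905 (cons (fin 969 7 905)
(mv 906 (cons (fin 841 7 841)
(mv 971 (cons (fin 972 3 905)
(fin 907 6 906)))))))))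
(cons (mv 906 (cons (cons (mv 841 (cons (fin 905 7 841)
(mv 842 (cons (fin 777 7 777)
(mv 1097 (cons (fin 1033 5 841)
(fin 1161 5 905)))))))
(mv 843 (cons (fin 907 6 842)
(mv 842 (cons (fin 779 6 778)
(mv 1097 (cons (fin 1033 5 841)
(fin 1161 5 905))))))))
(cons (mv 841 (cons (fin 905 7 841)
(mv 842 (cons (fin 777 7 777)
(mv 843 (cons (fin 779 6 778)
(fin 907 6 842)))))))
(mv 907 (cons (fin 843 6 842)
(mv 1097 (cons (fin 1161 5 905)
(mv 905 (cons (fin 841 7 841)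
(mv 972 (cons (fin 971 3 905)
(fin 908 0 905))))))))))))
(mv 1162 (cons (mv 1161 (cons (fin 1163 2 1097)
(fin 1225 5 969)))
(mv 971 (cons (fin 907 6 906)
(mv 969 (cons (fin 905 7 905)
(mv 972 (cons (fin 1033 1 969)
(fin 1036 0 969)))))))))))
(cons (cons (mv 971 (cons (mv 972 (cons (fin 1033 1 969)
(mv 907 (cons (fin 1036 7 907)
(fin 1162 6 906)))))
(cons (mv 907 (cons (fin 1162 6 906)
(mv 843 (cons (fin 779 5 778)
(fin 906 6 842)))))
(mv 972 (cons (fin 1033 1 969)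
(mv 905 (cons (fin 906 3 905)
(mv 969 (cons (fin 904 3 904)
(fin 1036 0 969))))))))))
(mv 906 (cons (cons (mv 841 (cons (fin 905 7 841)
(mv 777 (cons (fin 842 7 777)
(mv 843 (cons (fin 907 6 842)
(mv 1161 (cons (fin 1097 5 905)
(mv 1162 (cons (fin 1163 2 1097)
(fin 1225 5 969)))))))))))
(mv 841 (cons (fin 905 7 841)
(mv 842 (cons (fin 777 7 777)
(mv 843 (cons (fin 779 6 778)
(fin 907 6 842))))))))
(cons (mv 843 (cons (fin 907 6 842)
(mv 779 (cons (fin 842 6 778)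
(mv 1161 (cons (fin 1097 5 905)
(mv 1162 (cons (fin 1163 2 1097)
(fin 1225 5 969)))))))))
(cons (mv 1097 (cons (fin 1161 5 905)
(mv 842 (cons (fin 1033 5 841)
(mv 841 (cons (fin 777 7 777)
(fin 905 7 841)))))))
(mv 841 (cons (fin 905 7 841)
(mv 843 (cons (fin 907 6 842)
(mv 1161 (cons (fin 1097 5 905)
(mv 1162 (cons (fin 1163 2 1097)
(fin 1225 5 969))))))))))))))
(cons (mv 1162 (cons (mv 1161 (cons (fin 1163 2 1097)
(fin 1225 5 969)))
(cons (mv 971 (cons (fin 907 6 906)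
(mv 1033 (cons (fin 972 1 969)
(mv 1031 (cons (fin 1032 2 967)
(mv 1226 (cons (fin 969 7 969)
(mv 1290 (cons (fin 1097 7 1033)
(mv 1289 (cons (fin 1225 5 1033)
(fin 1353 5 1097)))))))))))))
(mv 907 (cons (fin 971 6 906)
(mv 906 (cons (fin 843 6 842)
(mv 1161 (cons (fin 1163 2 1097)
(fin 1097 5 905))))))))))
(mv 1162 (cons (mv 1161 (cons (fin 1163 2 1097)
(fin 1225 5 969)))
(mv 969 (cons (fin 905 7 905)
(mv 1033 (cons (fin 1226 7 969)
(mv 971 (cons (fin 972 1 969)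
(mv 968 (cons (mv 1031 (cons (fin 1032 1 967)
(mv 967 (cons (fin 1030 1 966)
(fin 966 0 966)))))
(cons (mv 967 (cons (fin 966 0 966)
(mv 903 (cons (fin 902 3 902)
(fin 904 3 903)))))
(mv 904 (cons (fin 903 3 903)
(mv 1032 (cons (fin 1031 1 967)
(mv 840 (cons (fin 776 4 776)
(fin 1097 4 840))))))))))))))))))))))
(mv 1099 (cons (cons (mv 1162 (cons (fin 1161 1 1097)
(fin 1163 1 1098)))
(mv 1166 (cons (fin 1167 0 1099)
(mv 1097 (cons (fin 1036 2 1033)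
(mv 1230 (cons (fin 1294 7 1037)
(mv 1096 (cons (fin 1163 0 1096)
(mv 1160 (cons (fin 1159 1 1095)
(fin 1161 1 1096))))))))))))
(cons (mv 1166 (cons (fin 1167 0 1099)
(mv 1161 (cons (fin 1162 1 1097)
(mv 1097 (cons (fin 1160 1 1096)
(fin 1036 2 1033)))))))
(mv 1166 (cons (fin 1167 0 1099)
(mv 1163 (cons (fin 1162 1 1098)
(mv 1097 (cons (fin 1036 2 1033)
(fin 1096 0 1096))))))))))))
(cons (mv 1099 (cons (fin 1033 3 1033)
(mv 1166 (cons (fin 1167 0 1099)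
(mv 1097 (cons (fin 1036 2 1033)
(mv 1230 (cons (fin 1294 7 1037)
(mv 1096 (cons (fin 1163 0 1096)
(mv 1160 (cons (fin 1159 1 1095)
(fin 1161 1 1096)))))))))))))
(cons (mv 1099 (cons (fin 1033 3 1033)
(mv 1166 (cons (fin 1167 0 1099)
(mv 1163 (cons (fin 1162 1 1098)
(mv 1097 (cons (fin 1036 2 1033)
(fin 1096 0 1096)))))))))
(mv 1099 (cons (fin 1033 3 1033)
(mv 1166 (cons (fin 1167 0 1099)
(mv 1161 (cons (fin 1162 1 1097)
(mv 1097 (cons (fin 1160 1 1096)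
(fin 1036 2 1033)))))))))))))
(mv 1103 (cons (fin 1039 2 1036)
(mv 1036 (cons (fin 1104 3 1036)
(mv 1167 (cons (fin 1168 0 1100)
(mv 1099 (cons (fin 1166 0 1099)
(mv 1098 (cons (fin 1033 3 1033)
(fin 1097 2 1033))))))))))))))
(mv 1228 (cons (fin 1292 6 1036)
(mv 1103 (cons (cons (mv 1102 (cons (fin 1163 1 1099)
(fin 1039 2 1036)))
(mv 1039 (cons (cons (mv 1167 (cons (mv 976 (cons (fin 912 6 911)
(fin 1231 6 975)))
(cons (mv 1166 (cons (fin 1230 5 974)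
(mv 1168 (cons (fin 1232 4 975)
(mv 911 (cons (fin 1104 4 911)
(mv 848 (cons (fin 912 6 847)
(mv 847 (cons (fin 784 6 783)
(mv 846 (cons (fin 782 7 782)
(fin 910 7 846)))))))))))))
(mv 1168 (cons (fin 1232 4 975)
(mv 911 (cons (fin 1104 4 911)
(mv 846 (cons (fin 910 7 846)
(mv 782 (cons (fin 847 7 782)
(mv 1231 (cons (fin 976 6 975)
(mv 1230 (cons (fin 1229 2 1164)
(fin 1166 5 974))))))))))))))))
(cons (mv 911 (cons (mv 1104 (cons (fin 847 4 847)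
(fin 1168 4 911)))
(cons (mv 846 (cons (fin 910 7 846)
(mv 847 (cons (fin 782 7 782)
(mv 848 (cons (fin 784 6 783)
(fin 912 6 847)))))))
(mv 910 (cons (fin 846 7 846)
(mv 1104 (cons (fin 1168 4 911)
(mv 912 (cons (fin 848 6 847)
(mv 913 (cons (cons (mv 849 (cons (fin 850 2 846)
(fin 976 6 848)))
(mv 978 (cons (fin 977 0 910)
(mv 914 (cons (fin 979 0 911)
(mv 851 (cons (fin 850 2 847)
(mv 915 (cons (fin 976 1 911)
(fin 852 2 848))))))))))
(cons (mv 978 (cons (fin 977 0 910)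
(mv 850 (cons (fin 849 2 846)
(mv 914 (cons (fin 851 2 847)
(fin 979 0 911)))))))
(mv 978 (cons (fin 977 0 910)
(mv 976 (cons (fin 849 6 848)
(mv 914 (cons (fin 915 1 911)
(fin 979 0 911)))))))))))))))))))
(mv 1167 (cons (mv 976 (cons (fin 912 6 911)
(fin 1231 6 975)))
(cons (mv 1230 (cons (fin 1166 5 974)
(mv 1168 (cons (fin 1232 4 975)
(mv 1231 (cons (fin 1229 2 1164)
(fin 1294 5 1038)))))))
(mv 1168 (cons (fin 1232 4 975)
(mv 976 (cons (fin 912 6 911)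
(mv 1166 (cons (fin 1230 5 974)
(mv 1169 (cons (cons (mv 1233 (cons (fin 1234 0 1166)
(fin 1104 4 976)))
(mv 1106 (cons (fin 1105 2 1102)
(mv 1170 (cons (fin 1107 2 1103)
(mv 1171 (cons (fin 1104 3 1103)
(mv 1235 (cons (fin 1234 0 1167)
(fin 1236 0 1168))))))))))
(cons (mv 1106 (cons (fin 1105 2 1102)
(mv 1234 (cons (fin 1233 0 1166)
(mv 1170 (cons (fin 1107 2 1103)
(fin 1235 0 1167)))))))
(mv 1106 (cons (fin 1105 2 1102)
(mv 1104 (cons (fin 1233 4 976)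
(mv 1170 (cons (fin 1171 3 1103)
(fin 1107 2 1103)))))))))))))))))))))
(cons (cons (mv 911 (cons (mv 1104 (cons (fin 847 4 847)
(fin 1168 4 911)))
(cons (mv 846 (cons (fin 910 7 846)
(mv 847 (cons (fin 782 7 782)
(mv 848 (cons (fin 784 6 783)
(fin 912 6 847)))))))
(mv 848 (cons (fin 912 6 847)
(mv 1168 (cons (fin 1104 4 911)
(mv 846 (cons (fin 910 7 846)
(mv 1167 (cons (fin 1232 4 975)
(mv 1230 (cons (fin 1166 5 974)
(mv 1231 (cons (fin 1229 2 1164)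
(fin 1294 5 1038))))))))))))))))
(mv 1167 (cons (mv 976 (cons (fin 912 6 911)
(fin 1231 6 975)))
(cons (mv 1230 (cons (fin 1166 5 974)
(mv 1168 (cons (fin 1232 4 975)
(mv 1231 (cons (fin 1229 2 1164)
(fin 1294 5 1038)))))))
(mv 1168 (cons (fin 1232 4 975)
(mv 1166 (cons (fin 1230 5 974)
(mv 911 (cons (cons (mv 912 (cons (fin 848 6 847)
(fin 976 6 911)))
(mv 846 (cons (fin 910 7 846)
(mv 847 (cons (fin 782 7 782)
(mv 784 (cons (fin 848 6 783)
(mv 783 (cons (fin 720 6 719)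
(fin 976 4 783))))))))))
(cons (mv 846 (cons (fin 910 7 846)
(mv 847 (cons (fin 782 7 782)
(mv 848 (cons (fin 784 6 783)
(fin 912 6 847)))))))
(mv 976 (cons (fin 912 6 911)
(mv 846 (cons (fin 910 7 846)
(mv 847 (cons (fin 782 7 782)
(fin 783 4 783))))))))))))))))))
(cons (mv 1167 (cons (mv 976 (cons (fin 912 6 911)
(fin 1231 6 975)))
(cons (mv 1230 (cons (fin 1166 5 974)
(mv 1231 (cons (fin 1294 5 1038)
(mv 1163 (cons (fin 1229 3 1163)
(mv 1296 (cons (fin 1232 4 1039)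
(mv 1295 (cons (fin 1104 6 1039)
(fin 1360 4 1103)))))))))))
(mv 1166 (cons (fin 1230 5 974)
(mv 912 (cons (fin 976 6 911)
(mv 911 (cons (fin 848 6 847)
(mv 846 (cons (fin 910 7 846)
(mv 847 (cons (fin 782 7 782)
(fin 1104 4 847))))))))))))))
(mv 911 (cons (mv 1104 (cons (fin 847 4 847)
(fin 1168 4 911)))
(cons (mv 846 (cons (fin 910 7 846)
(mv 847 (cons (fin 782 7 782)
(mv 784 (cons (fin 848 6 783)
(mv 783 (cons (fin 720 6 719)
(fin 976 4 783)))))))))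
(mv 846 (cons (fin 910 7 846)
(mv 1168 (cons (fin 1104 4 911)
(mv 1167 (cons (fin 1232 4 975)
(mv 1231 (cons (fin 976 6 975)
(mv 1230 (cons (fin 1229 2 1164)
(fin 1166 5 974)))))))))))))))))))
(cons (mv 1039 (cons (fin 1102 2 1036)
(mv 1167 (cons (mv 976 (cons (fin 912 6 911)
(fin 1231 6 975)))
(cons (mv 1166 (cons (fin 1230 5 974)
(mv 1168 (cons (fin 1232 4 975)
(mv 911 (cons (fin 1104 4 911)
(mv 848 (cons (fin 912 6 847)
(mv 847 (cons (fin 784 6 783)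
(mv 846 (cons (fin 782 7 782)
(fin 910 7 846)))))))))))))
(mv 1168 (cons (fin 1232 4 975)
(mv 911 (cons (fin 1104 4 911)
(mv 846 (cons (fin 910 7 846)
(mv 782 (cons (fin 847 7 782)
(mv 1231 (cons (fin 976 6 975)
(mv 1230 (cons (fin 1229 2 1164)
(fin 1166 5 974))))))))))))))))))
(mv 1161 (cons (mv 1163 (cons (fin 1102 1 1099)
(fin 1162 2 1097)))
(cons (mv 1098 (cons (cons (mv 1099 (cons (fin 1033 3 1033)
(fin 1162 1 1097)))
(mv 970 (cons (cons (mv 906 (cons (fin 1097 5 905)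
(mv 841 (cons (fin 905 7 841)
(mv 777 (cons (fin 842 7 777)
(mv 907 (cons (fin 843 6 842)
(mv 1162 (cons (fin 1225 5 969)
(fin 971 6 906)))))))))))
(mv 1162 (cons (fin 1225 5 969)
(mv 969 (cons (fin 905 7 905)
(mv 971 (cons (fin 907 6 906)
(mv 1033 (cons (fin 972 1 969)
(fin 1226 7 969))))))))))
(cons (mv 906 (cons (fin 1097 5 905)
(mv 841 (cons (fin 905 7 841)
(mv 842 (cons (fin 777 7 777)
(mv 843 (cons (fin 779 6 778)
(fin 907 6 842)))))))))
(cons (mv 906 (cons (fin 1097 5 905)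
(mv 1162 (cons (fin 1225 5 969)
(mv 907 (cons (fin 843 6 842)
(fin 971 6 906)))))))
(mv 906 (cons (fin 1097 5 905)
(mv 905 (cons (fin 841 7 841)
(mv 1162 (cons (fin 969 7 905)
(fin 1225 5 969))))))))))))
(cons (mv 1033 (cons (fin 1099 3 1033)
(mv 1097 (cons (mv 970 (cons (fin 906 5 905)
(fin 1225 6 969)))
(cons (mv 1225 (cons (fin 1289 6 1033)
(mv 1224 (cons (fin 1288 5 1032)
(mv 969 (cons (fin 1160 5 968)
(mv 968 (cons (fin 904 7 904)
(fin 1032 7 968)))))))))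
(mv 970 (cons (fin 906 5 905)
(mv 971 (cons (fin 972 1 969)
(mv 1031 (cons (fin 1032 2 967)
(mv 969 (cons (mv 904 (cons (fin 968 7 904)
(mv 905 (cons (fin 840 7 840)
(fin 841 4 841)))))
(cons (mv 905 (cons (fin 841 4 841)
(mv 1160 (cons (fin 1096 5 904)
(fin 1224 5 968)))))
(mv 968 (cons (fin 904 7 904)
(mv 967 (cons (fin 1030 1 966)
(fin 966 0 966)))))))))))))))))))
(mv 1162 (cons (fin 1099 1 1097)
(mv 970 (cons (fin 1225 5 969)
(mv 906 (cons (fin 1097 5 905)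
(mv 905 (cons (fin 841 7 841)
(fin 969 7 905))))))))))))
(mv 1102 (cons (fin 1163 1 1099)
(mv 1033 (cons (cons (mv 1167 (cons (fin 1168 0 1100)
(mv 1099 (cons (fin 1098 3 1033)
(fin 1166 0 1099)))))
(mv 1097 (cons (cons (mv 1098 (cons (fin 1099 3 1033)
(mv 970 (cons (fin 906 5 905)
(fin 1225 6 969)))))
(mv 970 (cons (fin 1225 6 969)
(mv 906 (cons (fin 842 5 841)
(fin 969 6 905))))))
(cons (mv 969 (cons (cons (mv 1098 (cons (fin 1099 3 1033)
(mv 906 (cons (fin 970 5 905)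
(mv 905 (cons (fin 842 6 841)
(fin 841 4 841)))))))
(mv 906 (cons (fin 970 6 905)
(mv 905 (cons (fin 842 6 841)
(mv 1160 (cons (fin 1096 5 904)
(fin 1224 5 968))))))))
(cons (mv 1160 (cons (fin 1224 5 968)
(mv 905 (cons (fin 1096 5 904)
(mv 904 (cons (fin 840 7 840)
(fin 968 7 904)))))))
(mv 968 (cons (fin 904 7 904)
(mv 970 (cons (fin 906 6 905)
(mv 967 (cons (fin 966 0 966)
(mv 971 (cons (fin 972 1 969)
(mv 1031 (cons (fin 1030 1 966)
(fin 1032 1 967))))))))))))))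
(mv 1098 (cons (fin 1099 3 1033)
(mv 1225 (cons (fin 1289 6 1033)
(mv 1224 (cons (fin 1288 5 1032)
(mv 969 (cons (fin 1160 5 968)
(mv 968 (cons (fin 904 7 904)
(fin 1032 7 968)))))))))))))))
(cons (mv 1097 (cons (cons (mv 1167 (cons (fin 1168 0 1100)
(mv 970 (cons (fin 1225 6 969)
(mv 906 (cons (fin 842 5 841)
(fin 1098 5 905)))))))
(mv 969 (cons (cons (mv 1167 (cons (fin 1168 0 1100)
(mv 904 (cons (fin 968 7 904)
(mv 905 (cons (fin 840 7 840)
(mv 1160 (cons (fin 1096 5 904)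
(fin 1224 5 968)))))))))
(mv 906 (cons (fin 970 6 905)
(mv 905 (cons (fin 842 6 841)
(mv 904 (cons (fin 840 7 840)
(fin 968 7 904))))))))
(cons (mv 1167 (cons (fin 1168 0 1100)
(mv 1160 (cons (fin 1224 5 968)
(mv 905 (cons (fin 1096 5 904)
(mv 906 (cons (fin 842 6 841)
(fin 970 6 905)))))))))
(mv 970 (cons (fin 906 6 905)
(mv 968 (cons (fin 904 7 904)
(mv 971 (cons (fin 972 1 969)
(mv 1031 (cons (fin 1032 1 967)
(mv 967 (cons (fin 1030 1 966)
(fin 966 0 966)))))))))))))))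
(cons (mv 1167 (cons (fin 1168 0 1100)
(mv 1225 (cons (mv 1224 (cons (fin 1288 5 1032)
(mv 969 (cons (fin 1160 5 968)
(mv 968 (cons (fin 904 7 904)
(fin 1032 7 968)))))))
(cons (mv 1226 (cons (fin 1290 4 1033)
(mv 1289 (cons (fin 1098 6 1033)
(mv 1288 (cons (fin 1224 5 1032)
(fin 1352 5 1096)))))))
(mv 968 (cons (fin 1032 7 968)
(mv 904 (cons (fin 969 7 904)
(mv 1290 (cons (fin 1226 4 1033)
(mv 1289 (cons (fin 1098 6 1033)
(fin 1354 4 1097))))))))))))))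
(mv 970 (cons (fin 1225 6 969)
(mv 906 (cons (fin 842 5 841)
(fin 1098 5 905))))))))
(mv 1097 (cons (cons (mv 1167 (cons (fin 1168 0 1100)
(mv 1099 (cons (fin 1166 0 1099)
(mv 970 (cons (fin 1225 6 969)
(mv 906 (cons (fin 842 5 841)
(fin 969 6 905)))))))))
(mv 969 (cons (cons (mv 1167 (cons (fin 1168 0 1100)
(mv 1099 (cons (fin 1166 0 1099)
(mv 904 (cons (fin 968 7 904)
(mv 905 (cons (fin 840 7 840)
(mv 1160 (cons (fin 1096 5 904)
(fin 1224 5 968)))))))))))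
(mv 906 (cons (fin 970 6 905)
(mv 905 (cons (fin 842 6 841)
(mv 1160 (cons (fin 1096 5 904)
(fin 1224 5 968))))))))
(cons (mv 906 (cons (fin 970 6 905)
(mv 905 (cons (fin 842 6 841)
(mv 904 (cons (fin 840 7 840)
(fin 968 7 904)))))))
(mv 968 (cons (fin 904 7 904)
(mv 970 (cons (fin 906 6 905)
(mv 967 (cons (fin 966 0 966)
(mv 971 (cons (fin 972 1 969)
(mv 1031 (cons (fin 1030 1 966)
(fin 1032 1 967)))))))))))))))
(cons (mv 1167 (cons (fin 1168 0 1100)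
(mv 1099 (cons (fin 1166 0 1099)
(mv 1225 (cons (mv 1224 (cons (fin 1288 5 1032)
(mv 969 (cons (fin 1160 5 968)
(mv 968 (cons (fin 904 7 904)
(fin 1032 7 968)))))))
(cons (mv 1290 (cons (fin 1226 4 1033)
(mv 1288 (cons (fin 1224 5 1032)
(mv 1289 (cons (fin 1352 5 1096)
(fin 1354 4 1097)))))))
(mv 1290 (cons (fin 1226 4 1033)
(mv 1032 (cons (fin 968 7 968)
(mv 1289 (cons (fin 1096 7 1032)
(fin 1354 4 1097))))))))))))))
(cons (mv 970 (cons (fin 1225 6 969)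
(mv 906 (cons (fin 842 5 841)
(fin 969 6 905)))))
(mv 1225 (cons (fin 970 6 969)
(mv 1167 (cons (fin 1168 0 1100)
(mv 1099 (cons (fin 1166 0 1099)
(mv 1290 (cons (fin 1226 4 1033)
(mv 1032 (cons (fin 968 7 968)
(mv 1289 (cons (fin 1096 7 1032)
(fin 1354 4 1097)))))))))))))))))))))))))))))))))
(mv 1164 (cons (mv 1228 (cons (fin 1036 6 972)
(fin 1292 6 1036)))
(cons (mv 1102 (cons (mv 1103 (cons (fin 1163 1 1099)
(fin 1039 2 1036)))
(cons (mv 1098 (cons (cons (mv 1099 (cons (fin 1033 3 1033)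
(mv 1162 (cons (fin 1161 1 1097)
(fin 1163 1 1098)))))
(cons (mv 970 (cons (cons (mv 1162 (cons (mv 1161 (cons (fin 1163 2 1097)
(fin 1225 5 969)))
(mv 905 (cons (fin 969 7 905)
(mv 906 (cons (fin 841 7 841)
(mv 971 (cons (fin 972 3 905)
(fin 907 6 906)))))))))
(cons (mv 906 (cons (cons (mv 841 (cons (fin 905 7 841)
(mv 842 (cons (fin 777 7 777)
(mv 1097 (cons (fin 1033 5 841)
(fin 1161 5 905)))))))
(mv 843 (cons (fin 907 6 842)
(mv 842 (cons (fin 779 6 778)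
(mv 1097 (cons (fin 1033 5 841)
(fin 1161 5 905))))))))
(cons (mv 841 (cons (fin 905 7 841)
(mv 842 (cons (fin 777 7 777)
(mv 843 (cons (fin 779 6 778)
(fin 907 6 842)))))))
(mv 907 (cons (fin 843 6 842)
(mv 1097 (cons (fin 1161 5 905)
(mv 905 (cons (fin 841 7 841)
(mv 972 (cons (fin 971 3 905)
(fin 908 0 905))))))))))))
(mv 1162 (cons (mv 1161 (cons (fin 1163 2 1097)
(fin 1225 5 969)))
(mv 971 (cons (fin 907 6 906)
(mv 969 (cons (fin 905 7 905)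
(mv 972 (cons (fin 1033 1 969)
(fin 1036 0 969)))))))))))
(cons (cons (mv 971 (cons (mv 972 (cons (fin 1033 1 969)
(mv 907 (cons (fin 1036 7 907)
(fin 1162 6 906)))))
(cons (mv 907 (cons (fin 1162 6 906)
(mv 843 (cons (fin 779 5 778)
(fin 906 6 842)))))
(mv 972 (cons (fin 1033 1 969)
(mv 905 (cons (fin 906 3 905)
(mv 969 (cons (fin 904 3 904)
(fin 1036 0 969))))))))))
(mv 1162 (cons (mv 1161 (cons (fin 1163 2 1097)
(fin 1225 5 969)))
(cons (mv 1163 (cons (fin 1227 4 970)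
(mv 906 (cons (cons (mv 905 (cons (fin 841 7 841)
(fin 969 7 905)))
(mv 843 (cons (fin 907 6 842)
(mv 842 (cons (fin 779 6 778)
(mv 1033 (cons (fin 1097 5 841)
(mv 778 (cons (fin 969 5 777)
(mv 777 (cons (fin 713 7 713)
(fin 841 7 777))))))))))))
(cons (mv 843 (cons (fin 907 6 842)
(mv 842 (cons (fin 779 6 778)
(mv 969 (cons (fin 905 7 905)
(mv 1033 (cons (fin 778 5 777)
(fin 1097 5 841)))))))))
(mv 841 (cons (fin 905 7 841)
(mv 842 (cons (fin 777 7 777)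
(mv 843 (cons (fin 779 6 778)
(fin 907 6 842))))))))))))
(mv 905 (cons (fin 969 7 905)
(mv 906 (cons (fin 841 7 841)
(mv 1161 (cons (fin 1097 5 905)
(fin 1225 5 969)))))))))))
(cons (mv 1161 (cons (mv 1162 (cons (fin 1163 2 1097)
(fin 1225 5 969)))
(cons (mv 1097 (cons (fin 906 5 905)
(mv 1225 (cons (fin 1033 6 969)
(fin 1289 6 1033)))))
(mv 906 (cons (fin 1097 5 905)
(mv 1162 (cons (fin 1163 2 1097)
(mv 907 (cons (fin 843 6 842)
(fin 971 6 906))))))))))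
(mv 1161 (cons (mv 1162 (cons (fin 1163 2 1097)
(fin 1225 5 969)))
(cons (mv 1097 (cons (fin 906 5 905)
(mv 1225 (cons (fin 1033 6 969)
(fin 1289 6 1033)))))
(mv 906 (cons (fin 1097 5 905)
(mv 905 (cons (fin 841 7 841)
(mv 1162 (cons (fin 1163 2 1097)
(fin 969 7 905))))))))))))))
(mv 1099 (cons (cons (mv 1162 (cons (fin 1161 1 1097)
(fin 1163 1 1098)))
(mv 1166 (cons (fin 1167 0 1099)
(mv 1097 (cons (fin 1036 2 1033)
(mv 1230 (cons (fin 1294 7 1037)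
(mv 1096 (cons (fin 1163 0 1096)
(mv 1160 (cons (fin 1159 1 1095)
(fin 1161 1 1096))))))))))))
(cons (mv 1166 (cons (fin 1167 0 1099)
(mv 1161 (cons (fin 1162 1 1097)
(mv 1097 (cons (fin 1160 1 1096)
(fin 1036 2 1033)))))))
(mv 1166 (cons (fin 1167 0 1099)
(mv 1163 (cons (fin 1162 1 1098)
(mv 1097 (cons (fin 1036 2 1033)
(fin 1096 0 1096))))))))))))
(cons (mv 1099 (cons (fin 1033 3 1033)
(mv 1166 (cons (fin 1167 0 1099)
(mv 1097 (cons (fin 1036 2 1033)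
(mv 1230 (cons (fin 1294 7 1037)
(mv 1096 (cons (fin 1163 0 1096)
(mv 1160 (cons (fin 1159 1 1095)
(fin 1161 1 1096)))))))))))))
(cons (mv 1099 (cons (fin 1033 3 1033)
(mv 1166 (cons (fin 1167 0 1099)
(mv 1161 (cons (fin 1162 1 1097)
(mv 1097 (cons (fin 1160 1 1096)
(fin 1036 2 1033)))))))))
(mv 1099 (cons (fin 1033 3 1033)
(mv 1166 (cons (fin 1167 0 1099)
(mv 1163 (cons (fin 1162 1 1098)
(mv 1097 (cons (fin 1036 2 1033)
(fin 1096 0 1096)))))))))))))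
(mv 1103 (cons (fin 1039 2 1036)
(mv 1036 (cons (fin 1104 3 1036)
(mv 1167 (cons (fin 1168 0 1100)
(mv 1099 (cons (fin 1166 0 1099)
(mv 1098 (cons (fin 1033 3 1033)
(fin 1097 2 1033))))))))))))))
(mv 1228 (cons (fin 1292 6 1036)
(mv 1103 (cons (cons (mv 1102 (cons (fin 1163 1 1099)
(fin 1039 2 1036)))
(mv 1039 (cons (cons (mv 1167 (cons (mv 976 (cons (fin 912 6 911)
(fin 1231 6 975)))
(cons (mv 1166 (cons (fin 1230 5 974)
(mv 1168 (cons (fin 1232 4 975)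
(mv 911 (cons (fin 1104 4 911)
(mv 848 (cons (fin 912 6 847)
(mv 847 (cons (fin 784 6 783)
(mv 846 (cons (fin 782 7 782)
(fin 910 7 846)))))))))))))
(mv 1168 (cons (fin 1232 4 975)
(mv 911 (cons (fin 1104 4 911)
(mv 846 (cons (fin 910 7 846)
(mv 782 (cons (fin 847 7 782)
(mv 1231 (cons (fin 976 6 975)
(mv 1230 (cons (fin 1229 2 1164)
(fin 1166 5 974))))))))))))))))
(cons (mv 911 (cons (mv 1104 (cons (fin 847 4 847)
(fin 1168 4 911)))
(cons (mv 846 (cons (fin 910 7 846)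
(mv 847 (cons (fin 782 7 782)
(mv 848 (cons (fin 784 6 783)
(fin 912 6 847)))))))
(mv 910 (cons (fin 846 7 846)
(mv 912 (cons (fin 848 6 847)
(mv 1104 (cons (fin 1168 4 911)
(mv 913 (cons (cons (mv 849 (cons (fin 850 2 846)
(fin 976 6 848)))
(mv 978 (cons (fin 977 0 910)
(mv 914 (cons (fin 979 0 911)
(mv 851 (cons (fin 850 2 847)
(mv 915 (cons (fin 976 1 911)
(fin 852 2 848))))))))))
(cons (mv 978 (cons (fin 977 0 910)
(mv 850 (cons (fin 849 2 846)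
(mv 914 (cons (fin 851 2 847)
(fin 979 0 911)))))))
(mv 978 (cons (fin 977 0 910)
(mv 976 (cons (fin 849 6 848)
(mv 914 (cons (fin 915 1 911)
(fin 979 0 911)))))))))))))))))))
(mv 1167 (cons (mv 976 (cons (fin 912 6 911)
(fin 1231 6 975)))
(cons (mv 1230 (cons (fin 1166 5 974)
(mv 1168 (cons (fin 1232 4 975)
(mv 1231 (cons (fin 1229 2 1164)
(fin 1294 5 1038)))))))
(mv 1168 (cons (fin 1232 4 975)
(mv 976 (cons (fin 912 6 911)
(mv 1166 (cons (fin 1230 5 974)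
(mv 1169 (cons (cons (mv 1233 (cons (fin 1234 0 1166)
(fin 1104 4 976)))
(mv 1106 (cons (fin 1105 2 1102)
(mv 1170 (cons (fin 1107 2 1103)
(mv 1171 (cons (fin 1104 3 1103)
(mv 1235 (cons (fin 1234 0 1167)
(fin 1236 0 1168))))))))))
(cons (mv 1106 (cons (fin 1105 2 1102)
(mv 1234 (cons (fin 1233 0 1166)
(mv 1170 (cons (fin 1107 2 1103)
(fin 1235 0 1167)))))))
(mv 1106 (cons (fin 1105 2 1102)
(mv 1104 (cons (fin 1233 4 976)
(mv 1170 (cons (fin 1171 3 1103)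
(fin 1107 2 1103)))))))))))))))))))))
(cons (cons (mv 911 (cons (mv 1104 (cons (fin 847 4 847)
(fin 1168 4 911)))
(cons (mv 846 (cons (fin 910 7 846)
(mv 847 (cons (fin 782 7 782)
(mv 848 (cons (fin 784 6 783)
(fin 912 6 847)))))))
(mv 848 (cons (fin 912 6 847)
(mv 1168 (cons (fin 1104 4 911)
(mv 846 (cons (fin 910 7 846)
(mv 1167 (cons (fin 1232 4 975)
(mv 1230 (cons (fin 1166 5 974)
(mv 1231 (cons (fin 1229 2 1164)
(fin 1294 5 1038))))))))))))))))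
(mv 1167 (cons (mv 976 (cons (fin 912 6 911)
(fin 1231 6 975)))
(cons (mv 1230 (cons (fin 1166 5 974)
(mv 1168 (cons (fin 1232 4 975)
(mv 1231 (cons (fin 1229 2 1164)
(fin 1294 5 1038)))))))
(mv 1168 (cons (fin 1232 4 975)
(mv 1166 (cons (fin 1230 5 974)
(mv 911 (cons (cons (mv 912 (cons (fin 848 6 847)
(fin 976 6 911)))
(mv 846 (cons (fin 910 7 846)
(mv 847 (cons (fin 782 7 782)
(mv 784 (cons (fin 848 6 783)
(mv 783 (cons (fin 720 6 719)
(fin 976 4 783))))))))))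
(cons (mv 846 (cons (fin 910 7 846)
(mv 847 (cons (fin 782 7 782)
(mv 848 (cons (fin 784 6 783)
(fin 912 6 847)))))))
(mv 976 (cons (fin 912 6 911)
(mv 846 (cons (fin 910 7 846)
(mv 847 (cons (fin 782 7 782)
(fin 783 4 783))))))))))))))))))
(cons (mv 1167 (cons (mv 976 (cons (fin 912 6 911)
(fin 1231 6 975)))
(cons (mv 1230 (cons (fin 1166 5 974)
(mv 1231 (cons (fin 1294 5 1038)
(mv 1163 (cons (fin 1229 3 1163)
(mv 1296 (cons (fin 1232 4 1039)
(mv 1295 (cons (fin 1104 6 1039)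
(fin 1360 4 1103)))))))))))
(mv 1166 (cons (fin 1230 5 974)
(mv 912 (cons (fin 976 6 911)
(mv 911 (cons (fin 848 6 847)
(mv 846 (cons (fin 910 7 846)
(mv 847 (cons (fin 782 7 782)
(fin 1104 4 847))))))))))))))
(mv 911 (cons (mv 1104 (cons (fin 847 4 847)
(fin 1168 4 911)))
(cons (mv 846 (cons (fin 910 7 846)
(mv 847 (cons (fin 782 7 782)
(mv 784 (cons (fin 848 6 783)
(mv 783 (cons (fin 720 6 719)
(fin 976 4 783)))))))))
(mv 846 (cons (fin 910 7 846)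
(mv 1168 (cons (fin 1104 4 911)
(mv 1167 (cons (fin 1232 4 975)
(mv 1231 (cons (fin 976 6 975)
(mv 1230 (cons (fin 1229 2 1164)
(fin 1166 5 974)))))))))))))))))))
(cons (mv 1039 (cons (fin 1102 2 1036)
(mv 1167 (cons (mv 976 (cons (fin 912 6 911)
(fin 1231 6 975)))
(cons (mv 1166 (cons (fin 1230 5 974)
(mv 1168 (cons (fin 1232 4 975)
(mv 911 (cons (fin 1104 4 911)
(mv 848 (cons (fin 912 6 847)
(mv 847 (cons (fin 784 6 783)
(mv 846 (cons (fin 782 7 782)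
(fin 910 7 846)))))))))))))
(mv 1168 (cons (fin 1232 4 975)
(mv 911 (cons (fin 1104 4 911)
(mv 846 (cons (fin 910 7 846)
(mv 782 (cons (fin 847 7 782)
(mv 1231 (cons (fin 976 6 975)
(mv 1230 (cons (fin 1229 2 1164)
(fin 1166 5 974))))))))))))))))))
(mv 1162 (cons (mv 1163 (cons (fin 1102 1 1099)
(fin 1161 2 1097)))
(cons (mv 1098 (cons (cons (mv 1099 (cons (fin 1033 3 1033)
(fin 1161 1 1097)))
(mv 970 (cons (cons (mv 905 (cons (fin 969 7 905)
(mv 906 (cons (fin 841 7 841)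
(mv 971 (cons (fin 972 3 905)
(fin 907 6 906)))))))
(mv 907 (cons (fin 971 6 906)
(mv 906 (cons (fin 843 6 842)
(mv 1161 (cons (fin 1097 5 905)
(fin 1225 5 969))))))))
(cons (mv 1161 (cons (fin 1225 5 969)
(mv 906 (cons (fin 1097 5 905)
(mv 905 (cons (fin 841 7 841)
(fin 969 7 905)))))))
(mv 969 (cons (fin 905 7 905)
(mv 1161 (cons (fin 1225 5 969)
(mv 971 (cons (fin 907 6 906)
(mv 1033 (cons (fin 972 1 969)
(mv 1031 (cons (fin 1032 2 967)
(mv 968 (cons (mv 967 (cons (fin 1030 1 966)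
(fin 966 0 966)))
(mv 904 (cons (fin 903 3 903)
(fin 1097 7 904)))))))))))))))))))
(cons (mv 1033 (cons (fin 1099 3 1033)
(mv 970 (cons (mv 971 (cons (fin 972 1 969)
(fin 907 6 906)))
(cons (mv 905 (cons (fin 969 7 905)
(mv 906 (cons (fin 841 7 841)
(mv 842 (cons (fin 1097 5 841)
(mv 843 (cons (fin 779 6 778)
(fin 907 6 842)))))))))
(mv 969 (cons (fin 905 7 905)
(mv 971 (cons (fin 972 1 969)
(mv 968 (cons (mv 1031 (cons (fin 1032 1 967)
(mv 967 (cons (fin 1030 1 966)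
(fin 966 0 966)))))
(cons (mv 967 (cons (fin 966 0 966)
(mv 903 (cons (fin 902 3 902)
(fin 904 3 903)))))
(mv 904 (cons (fin 903 3 903)
(mv 1032 (cons (fin 1031 1 967)
(mv 840 (cons (fin 776 4 776)
(fin 1097 4 840)))))))))))))))))))
(mv 1161 (cons (fin 1099 1 1097)
(mv 970 (cons (fin 1225 5 969)
(mv 906 (cons (fin 1097 5 905)
(mv 905 (cons (fin 841 7 841)
(fin 969 7 905))))))))))))
(mv 1098 (cons (mv 1102 (cons (fin 1163 1 1099)
(mv 1167 (cons (fin 1168 0 1100)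
(mv 1099 (cons (fin 1033 3 1033)
(fin 1166 0 1099)))))))
(cons (mv 1033 (cons (fin 1099 3 1033)
(mv 970 (cons (mv 971 (cons (fin 972 1 969)
(fin 907 6 906)))
(cons (mv 905 (cons (fin 969 7 905)
(mv 906 (cons (fin 841 7 841)
(mv 842 (cons (fin 1097 5 841)
(mv 843 (cons (fin 779 6 778)
(fin 907 6 842)))))))))
(mv 969 (cons (fin 905 7 905)
(mv 971 (cons (fin 972 1 969)
(mv 968 (cons (mv 1031 (cons (fin 1032 1 967)
(mv 967 (cons (fin 1030 1 966)
(fin 966 0 966)))))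
(cons (mv 967 (cons (fin 966 0 966)
(mv 903 (cons (fin 902 3 902)
(fin 904 3 903)))))
(mv 904 (cons (fin 903 3 903)
(mv 1032 (cons (fin 1031 1 967)
(mv 840 (cons (fin 776 4 776)
(fin 1097 4 840)))))))))))))))))))
(mv 1163 (cons (fin 1102 1 1099)
(mv 970 (cons (fin 1227 4 970)
(mv 907 (cons (fin 971 6 906)
(mv 906 (cons (fin 843 6 842)
(mv 905 (cons (fin 841 7 841)
(fin 969 7 905))))))))))))))))))))))))))))))
def l80 : Lem := ⟨27165970580987716998985144288908119445927147162727952646042769450153159660801772653200708656528438629180823001086095712757839796933143396431889438852855027857151345731653469141200468217281872500971818975275011515946461272667390861775430683219778730876155634394812489680402316436522036043702256460642754278482454553295719910179078144, 1572140807333373853788483304299373930058011555210452121182570270156198884940438042947814897005847968077259002011582539257878953480942747693169128437636464575294583530363990110899036498126634780309206764997687234509618425777838089874091886695596923055604164544287354063629776277886294980486109502429105402248616819805607514313025552199289430687683277715167557955763357309652341107405457289679981620889476906185677927166193646324999017959445883781120,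 1572140807333373853788483304299373930058011555210452121182570270156198884940438042947814897005847968077259002011582539257878953480942747693169128437636464575294583530363990110899036498126634780309206764997687234509618425777838089874091886695596923055604164544287354063629776277886294980486109502429105402248616819805607514313025552199289430687683277715167557955763357309652341107405457289679981620889476906185677927166193646324999017959445883781120, 15, 33⟩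
theorem l80_valid : l80.Valid :=
  Lem.valid_of_chk t80 t80_valid [973, 975, 1034, 1037, 1040, 1101] c80 l80 (by decide +kernel)
end Crest.Agent.SnakyAux
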