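import Crest.Agent.S0047_aux.Checker
import Crest.Agent.S0047_aux.L80
set_option autoImplicit false
set_option maxRecDepth 100000
namespace Crest.Agent.SnakyAux
open Cert
def t86 : Tbl := (Tbl.leaf l80)
theorem t86_valid : t86.Valid := (Tbl.valid_leaf l80_valid)
def c86 : Cert :=
(mv 975 (cons (cons (cons (mv 974 (cons (cons (mv 976 (cons (fin 1036 1 972)
(mv 972 (cons (fin 1039 0 972)
(mv 912 (cons (fin 911 2 908)
(fin 913 2 909)))))))
(cons (mv 976 (cons (fin 1036 1 972)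
(mv 912 (cons (fin 913 2 909)
(mv 1104 (cons (mv 911 (cons (fin 847 7 847)
(fin 1168 7 911)))
(cons (mv 1105 (cons (fin 1169 4 912)
(mv 1103 (cons (fin 1167 5 911)
(mv 848 (cons (fin 1039 5 847)
(mv 785 (cons (fin 849 6 784)
(mv 784 (cons (fin 721 6 720)
(mv 783 (cons (fin 719 7 719)
(fin 847 7 783)))))))))))))
(mv 1103 (cons (fin 1167 5 911)
(mv 848 (cons (fin 1039 5 847)
(mv 785 (cons (fin 849 6 784)
(mv 721 (cons (fin 784 6 720)
(mv 1168 (cons (fin 911 7 911)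
(mv 1169 (cons (fin 1102 0 1101)
(fin 1105 4 912))))))))))))))))))))
(mv 972 (cons (fin 1039 0 972)
(mv 911 (cons (fin 912 2 908)
(mv 910 (cons (fin 971 2 907)
(mv 908 (cons (fin 907 3 907)
(mv 844 (cons (fin 780 4 780)
(fin 1036 4 844)))))))))))))
(cons (mv 976 (cons (fin 1036 1 972)
(mv 912 (cons (fin 913 2 909)
(mv 911 (cons (fin 972 2 908)
(mv 1104 (cons (fin 847 7 847)
(fin 1168 7 911)))))))))
(cons (mv 972 (cons (fin 1039 0 972)
(mv 911 (cons (fin 912 2 908)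
(mv 971 (cons (fin 910 2 907)
(mv 907 (cons (fin 906 3 906)
(fin 908 3 907)))))))))
(mv 972 (cons (fin 1039 0 972)
(mv 907 (cons (fin 908 3 907)
(mv 971 (cons (fin 906 3 906)
(mv 1036 (cons (fin 976 1 972)
(mv 970 (cons (fin 1033 1 969)
(fin 969 0 969)))))))))))))))
(mv 972 (cons (cons (mv 974 (cons (fin 1039 0 972)
(mv 911 (cons (fin 912 2 908)
(mv 910 (cons (fin 971 2 907)
(mv 908 (cons (fin 907 3 907)
(mv 844 (cons (fin 780 4 780)
(fin 1036 4 844)))))))))))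
(mv 970 (cons (cons (mv 971 (cons (fin 1033 1 969)
(mv 905 (cons (fin 906 3 905)
(mv 969 (cons (fin 904 3 904)
(fin 1036 0 969)))))))
(mv 1098 (cons (cons (cons (mv 906 (cons (cons (mv 841 (cons (fin 905 7 841)
(mv 777 (cons (fin 842 7 777)
(mv 1099 (cons (fin 1163 4 906)
(mv 1100 (cons (fin 1033 3 1033)
(mv 1161 (cons (fin 1162 1 1097)
(fin 1097 5 905)))))))))))
(mv 843 (cons (fin 907 6 842)
(mv 779 (cons (fin 842 6 778)
(mv 1099 (cons (fin 1163 4 906)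
(mv 1100 (cons (fin 1033 3 1033)
(mv 1161 (cons (fin 1162 1 1097)
(fin 1097 5 905))))))))))))
(cons (mv 841 (cons (fin 905 7 841)
(mv 842 (cons (fin 777 7 777)
(mv 843 (cons (fin 779 6 778)
(fin 907 6 842)))))))
(mv 843 (cons (fin 907 6 842)
(mv 1097 (cons (fin 1161 5 905)
(mv 841 (cons (fin 905 7 841)
(mv 1099 (cons (fin 1163 4 906)
(mv 1100 (cons (fin 1033 3 1033)
(fin 1036 2 1033))))))))))))))
(mv 1162 (cons (cons (mv 905 (cons (fin 969 7 905)
(mv 1163 (cons (fin 1227 4 970)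
(mv 1161 (cons (fin 1225 5 969)
(mv 1100 (cons (fin 1099 1 1097)
(fin 1164 2 1097)))))))))
(cons (mv 905 (cons (fin 969 7 905)
(mv 1227 (cons (fin 1163 4 970)
(mv 1226 (cons (fin 1291 4 1034)
(mv 1289 (cons (fin 1225 5 1033)
(mv 1290 (cons (fin 1353 5 1097)
(mv 1033 (cons (fin 1097 7 1033)
(mv 1100 (cons (fin 1099 3 1033)
(mv 1228 (cons (fin 1229 1 1225)
(mv 1164 (cons (fin 1036 6 972)
(fin 1292 6 1036)))))))))))))))))))
(mv 1163 (cons (fin 1227 4 970)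
(mv 1161 (cons (fin 1225 5 969)
(mv 1100 (cons (fin 1099 1 1097)
(fin 1164 2 1097)))))))))
(cons (cons (mv 969 (cons (fin 905 7 905)
(mv 1163 (cons (fin 1227 4 970)
(mv 1033 (cons (fin 1226 7 969)
(mv 1100 (cons (fin 1099 3 1033)
(mv 1164 (cons (fin 1161 2 1097)
(mv 1228 (cons (fin 1036 6 972)
(fin 1292 6 1036)))))))))))))
(mv 905 (cons (fin 969 7 905)
(mv 1161 (cons (fin 1225 5 969)
(mv 1100 (cons (fin 1099 1 1097)
(mv 1164 (cons (fin 1163 2 1097)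
(mv 1228 (cons (fin 1036 6 972)
(fin 1292 6 1036))))))))))))
(cons (mv 1161 (cons (fin 1225 5 969)
(mv 1099 (cons (fin 1100 1 1097)
(mv 1159 (cons (fin 1160 2 1095)
(mv 969 (cons (fin 905 7 905)
(mv 1226 (cons (fin 1033 7 969)
(mv 1291 (cons (fin 1227 4 1034)
(mv 1290 (cons (fin 1355 4 1098)
(mv 1353 (cons (fin 1289 5 1097)
(mv 1354 (cons (fin 1097 7 1097)
(fin 1417 5 1161)))))))))))))))))))
(mv 905 (cons (fin 969 7 905)
(mv 1227 (cons (fin 1163 4 970)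
(mv 1225 (cons (fin 1161 5 969)
(mv 1226 (cons (fin 1289 5 1033)
(fin 1291 4 1034))))))))))))))
(cons (mv 906 (cons (cons (mv 841 (cons (fin 905 7 841)
(mv 777 (cons (fin 842 7 777)
(mv 1099 (cons (fin 1163 4 906)
(mv 1100 (cons (fin 1033 3 1033)
(mv 1097 (cons (fin 1036 2 1033)
(fin 1161 5 905)))))))))))
(mv 841 (cons (fin 905 7 841)
(mv 842 (cons (fin 777 7 777)
(mv 843 (cons (fin 779 6 778)
(fin 907 6 842))))))))
(cons (mv 1099 (cons (fin 1163 4 906)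
(mv 1033 (cons (fin 1100 3 1033)
(mv 1097 (cons (fin 842 5 841)
(fin 1161 5 905)))))))
(mv 1097 (cons (fin 1161 5 905)
(mv 841 (cons (fin 905 7 841)
(mv 1099 (cons (fin 1163 4 906)
(mv 1100 (cons (fin 1033 3 1033)
(fin 1036 2 1033))))))))))))
(mv 906 (cons (cons (mv 841 (cons (fin 905 7 841)
(mv 842 (cons (fin 777 7 777)
(mv 1097 (cons (fin 1033 5 841)
(fin 1161 5 905)))))))
(mv 843 (cons (fin 907 6 842)
(mv 842 (cons (fin 779 6 778)
(mv 1097 (cons (fin 1033 5 841)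
(fin 1161 5 905))))))))
(cons (mv 841 (cons (fin 905 7 841)
(mv 842 (cons (fin 777 7 777)
(mv 843 (cons (fin 779 6 778)
(fin 907 6 842)))))))
(mv 843 (cons (fin 907 6 842)
(mv 1097 (cons (fin 1161 5 905)
(mv 905 (cons (fin 841 7 841)
(mv 1162 (cons (fin 969 7 905)
(mv 1227 (cons (fin 1163 4 970)
(mv 1226 (cons (fin 1291 4 1034)
(mv 1289 (cons (fin 1225 5 1033)
(mv 1290 (cons (fin 1033 7 1033)
(fin 1353 5 1097))))))))))))))))))))))
(cons (cons (mv 906 (cons (cons (mv 841 (cons (fin 905 7 841)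
(mv 842 (cons (fin 777 7 777)
(mv 843 (cons (fin 779 6 778)
(fin 907 6 842)))))))
(mv 1099 (cons (fin 1163 4 906)
(mv 1033 (cons (fin 1100 3 1033)
(mv 843 (cons (fin 907 6 842)
(mv 842 (cons (fin 1097 5 841)
(fin 779 6 778))))))))))
(cons (mv 841 (cons (fin 905 7 841)
(mv 842 (cons (fin 777 7 777)
(mv 1099 (cons (fin 1163 4 906)
(mv 1033 (cons (fin 1100 3 1033)
(fin 1097 5 841)))))))))
(mv 1099 (cons (fin 1163 4 906)
(mv 1033 (cons (fin 1100 3 1033)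
(mv 907 (cons (fin 843 6 842)
(mv 905 (cons (fin 908 0 905)
(fin 841 7 841))))))))))))
(mv 906 (cons (cons (mv 843 (cons (fin 907 6 842)
(mv 779 (cons (fin 842 6 778)
(mv 1099 (cons (fin 1163 4 906)
(mv 1100 (cons (fin 1033 3 1033)
(mv 1161 (cons (fin 1162 1 1097)
(fin 1097 5 905)))))))))))
(cons (mv 1099 (cons (fin 1163 4 906)
(mv 1033 (cons (fin 1100 3 1033)
(mv 843 (cons (fin 907 6 842)
(mv 842 (cons (fin 779 6 778)
(mv 1031 (cons (fin 1032 0 1031)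
(mv 777 (cons (fin 841 7 777)
(mv 778 (cons (fin 713 7 713)
(fin 969 5 777)))))))))))))))
(mv 843 (cons (fin 907 6 842)
(mv 842 (cons (fin 779 6 778)
(mv 1097 (cons (fin 1033 5 841)
(fin 1161 5 905)))))))))
(cons (mv 1099 (cons (fin 1163 4 906)
(mv 1033 (cons (fin 1100 3 1033)
(mv 1097 (cons (fin 842 5 841)
(fin 1161 5 905)))))))
(cons (mv 1097 (cons (fin 1161 5 905)
(mv 843 (cons (fin 907 6 842)
(mv 1099 (cons (fin 1163 4 906)
(mv 1100 (cons (fin 1033 3 1033)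
(fin 1036 2 1033)))))))))
(mv 1099 (cons (fin 1163 4 906)
(mv 1097 (cons (fin 1161 5 905)
(mv 1036 (cons (fin 1100 2 1033)
(mv 843 (cons (fin 907 6 842)
(mv 842 (cons (fin 779 6 778)
(mv 844 (cons (fin 908 4 844)
(mv 777 (cons (fin 841 7 777)
(mv 778 (cons (fin 845 3 777)
(fin 713 7 713))))))))))))))))))))))
(cons (mv 906 (cons (cons (mv 841 (cons (fin 905 7 841)
(mv 842 (cons (fin 777 7 777)
(mv 1097 (cons (fin 1033 5 841)
(fin 1161 5 905)))))))
(mv 843 (cons (fin 907 6 842)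
(mv 842 (cons (fin 779 6 778)
(mv 1097 (cons (fin 1033 5 841)
(fin 1161 5 905))))))))
(cons (mv 841 (cons (fin 905 7 841)
(mv 842 (cons (fin 777 7 777)
(mv 843 (cons (fin 779 6 778)
(fin 907 6 842)))))))
(mv 843 (cons (fin 907 6 842)
(mv 1161 (cons (fin 1097 5 905)
(mv 905 (cons (fin 841 7 841)
(mv 1162 (cons (fin 969 7 905)
(fin 1225 5 969))))))))))))
(cons (mv 906 (cons (cons (mv 841 (cons (fin 905 7 841)
(mv 777 (cons (fin 842 7 777)
(mv 1099 (cons (fin 1163 4 906)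
(mv 843 (cons (fin 907 6 842)
(mv 1161 (cons (fin 1097 5 905)
(mv 1162 (cons (fin 1100 1 1097)
(fin 1225 5 969)))))))))))))
(cons (mv 1099 (cons (fin 1163 4 906)
(mv 1097 (cons (fin 1161 5 905)
(mv 1036 (cons (fin 1100 2 1033)
(mv 843 (cons (fin 907 6 842)
(mv 842 (cons (fin 779 6 778)
(mv 844 (cons (fin 908 4 844)
(mv 777 (cons (fin 841 7 777)
(mv 778 (cons (fin 845 3 777)
(fin 713 7 713)))))))))))))))))
(mv 1097 (cons (fin 1161 5 905)
(mv 1163 (cons (fin 1099 4 906)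
(mv 905 (cons (fin 841 7 841)
(mv 1162 (cons (fin 969 7 905)
(fin 1227 4 970)))))))))))
(cons (mv 1099 (cons (fin 1163 4 906)
(mv 843 (cons (fin 907 6 842)
(mv 842 (cons (fin 779 6 778)
(mv 841 (cons (fin 777 7 777)
(fin 905 7 841)))))))))
(cons (mv 1097 (cons (fin 1161 5 905)
(mv 1099 (cons (fin 1163 4 906)
(mv 1036 (cons (fin 1100 2 1033)
(mv 907 (cons (fin 843 6 842)
(mv 908 (cons (fin 905 0 905)
(fin 844 4 844)))))))))))
(mv 843 (cons (fin 907 6 842)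
(mv 779 (cons (fin 842 6 778)
(mv 1161 (cons (fin 1097 5 905)
(mv 905 (cons (fin 841 7 841)
(mv 1162 (cons (fin 969 7 905)
(fin 1225 5 969)))))))))))))))
(mv 1162 (cons (cons (mv 905 (cons (fin 969 7 905)
(mv 841 (cons (fin 906 7 841)
(mv 1163 (cons (fin 1227 4 970)
(mv 1161 (cons (fin 1225 5 969)
(mv 1100 (cons (fin 1099 1 1097)
(fin 1164 2 1097)))))))))))
(mv 1161 (cons (fin 1225 5 969)
(mv 1099 (cons (fin 1100 1 1097)
(mv 1159 (cons (fin 1160 2 1095)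
(mv 905 (cons (fin 969 7 905)
(mv 906 (cons (fin 841 7 841)
(mv 907 (cons (fin 908 0 905)
(fin 843 6 842))))))))))))))
(cons (mv 905 (cons (fin 969 7 905)
(mv 906 (cons (fin 841 7 841)
(mv 907 (cons (fin 908 0 905)
(fin 843 6 842)))))))
(cons (mv 1163 (cons (fin 1227 4 970)
(mv 906 (cons (fin 1099 4 906)
(mv 843 (cons (fin 907 6 842)
(mv 842 (cons (fin 779 6 778)
(mv 1161 (cons (fin 1225 5 969)
(mv 1100 (cons (fin 1164 2 1097)
(mv 777 (cons (fin 841 7 777)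
(mv 778 (cons (fin 713 7 713)
(mv 844 (cons (fin 845 3 777)
(mv 908 (cons (fin 780 4 780)
(fin 1036 4 844)))))))))))))))))))))
(mv 1161 (cons (fin 1225 5 969)
(mv 1099 (cons (fin 1100 1 1097)
(mv 1159 (cons (fin 1160 2 1095)
(mv 969 (cons (fin 905 7 905)
(mv 1227 (cons (fin 1163 4 970)
(mv 1226 (cons (fin 1033 7 969)
(fin 1291 4 1034)))))))))))))))))))))))
(cons (mv 971 (cons (cons (mv 905 (cons (fin 906 3 905)
(mv 969 (cons (fin 904 3 904)
(fin 1036 0 969)))))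
(mv 969 (cons (fin 1036 0 969)
(mv 968 (cons (cons (mv 903 (cons (fin 904 3 903)
(mv 902 (cons (fin 967 3 902)
(mv 907 (cons (fin 908 2 904)
(mv 1031 (cons (fin 1032 1 967)
(mv 1098 (cons (fin 1162 6 906)
(mv 843 (cons (fin 779 5 778)
(fin 906 6 842)))))))))))))
(mv 903 (cons (fin 904 3 903)
(mv 967 (cons (fin 902 3 902)
(mv 1031 (cons (fin 1030 1 966)
(fin 1032 1 967))))))))
(cons (mv 1031 (cons (fin 1032 1 967)
(mv 967 (cons (fin 1030 1 966)
(mv 907 (cons (fin 906 2 903)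
(fin 908 2 904)))))))
(cons (mv 907 (cons (fin 908 2 904)
(mv 906 (cons (fin 967 2 903)
(mv 843 (cons (fin 779 5 778)
(fin 1098 6 842)))))))
(mv 907 (cons (fin 908 2 904)
(mv 1031 (cons (fin 1032 1 967)
(mv 1098 (cons (fin 1162 6 906)
(mv 843 (cons (fin 779 5 778)
(fin 906 6 842))))))))))))))))
(cons (mv 906 (cons (fin 905 3 905)
(mv 1098 (cons (mv 907 (cons (fin 843 6 842)
(fin 1162 6 906)))
(cons (mv 1161 (cons (fin 1097 5 905)
(mv 1099 (cons (fin 1163 4 906)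
(mv 1162 (cons (fin 1100 1 1097)
(fin 1225 5 969)))))))
(mv 1097 (cons (fin 1161 5 905)
(mv 843 (cons (fin 907 6 842)
(mv 842 (cons (fin 779 6 778)
(mv 1099 (cons (fin 1163 4 906)
(mv 1036 (cons (fin 1100 2 1033)
(mv 777 (cons (fin 841 7 777)
(mv 778 (cons (fin 713 7 713)
(mv 844 (cons (fin 845 3 777)
(fin 908 4 844))))))))))))))))))))))
(cons (mv 906 (cons (fin 905 3 905)
(mv 842 (cons (cons (mv 777 (cons (fin 841 7 777)
(mv 713 (cons (fin 778 7 713)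
(mv 843 (cons (fin 779 6 778)
(mv 1098 (cons (fin 907 6 842)
(mv 1161 (cons (fin 1097 5 905)
(mv 1099 (cons (fin 1163 4 906)
(mv 1162 (cons (fin 1100 1 1097)
(fin 1225 5 969)))))))))))))))
(mv 777 (cons (fin 841 7 777)
(mv 778 (cons (fin 713 7 713)
(mv 715 (cons (fin 779 6 714)
(mv 714 (cons (fin 651 6 650)
(fin 907 4 714))))))))))
(cons (mv 777 (cons (fin 841 7 777)
(mv 778 (cons (fin 713 7 713)
(mv 907 (cons (fin 714 4 714)
(mv 1098 (cons (fin 843 6 842)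
(fin 1162 6 906)))))))))
(cons (mv 843 (cons (fin 779 6 778)
(mv 1098 (cons (fin 907 6 842)
(mv 1161 (cons (fin 1097 5 905)
(mv 1099 (cons (fin 1163 4 906)
(mv 1162 (cons (fin 1100 1 1097)
(fin 1225 5 969)))))))))))
(mv 779 (cons (fin 843 6 778)
(mv 778 (cons (fin 715 6 714)
(mv 777 (cons (fin 713 7 713)
(fin 841 7 777)))))))))))))
(mv 1036 (cons (fin 969 0 969)
(mv 908 (cons (fin 844 4 844)
(mv 1100 (cons (mv 907 (cons (fin 843 7 843)
(fin 1164 7 907)))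
(cons (mv 1164 (cons (fin 1228 6 972)
(mv 1163 (cons (fin 1099 5 907)
(fin 1227 5 971)))))
(mv 907 (cons (fin 843 7 843)
(mv 1099 (cons (fin 1163 5 907)
(mv 1098 (cons (fin 1097 2 1033)
(fin 1162 6 906))))))))))))))))))
(cons (mv 971 (cons (fin 1033 1 969)
(mv 906 (cons (fin 905 3 905)
(mv 842 (cons (cons (mv 777 (cons (fin 841 7 777)
(mv 713 (cons (fin 778 7 713)
(mv 843 (cons (fin 779 6 778)
(mv 1098 (cons (fin 907 6 842)
(mv 1161 (cons (fin 1097 5 905)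
(mv 1099 (cons (fin 1163 4 906)
(mv 1162 (cons (fin 1100 1 1097)
(fin 1225 5 969)))))))))))))))
(mv 777 (cons (fin 841 7 777)
(mv 778 (cons (fin 713 7 713)
(mv 715 (cons (fin 779 6 714)
(mv 714 (cons (fin 651 6 650)
(fin 907 4 714))))))))))
(cons (mv 777 (cons (fin 841 7 777)
(mv 778 (cons (fin 713 7 713)
(mv 907 (cons (fin 714 4 714)
(mv 1098 (cons (fin 843 6 842)
(fin 1162 6 906)))))))))
(cons (mv 843 (cons (fin 779 6 778)
(mv 1098 (cons (fin 907 6 842)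
(mv 1161 (cons (fin 1097 5 905)
(mv 1099 (cons (fin 1163 4 906)
(mv 1162 (cons (fin 1100 1 1097)
(fin 1225 5 969)))))))))))
(mv 779 (cons (fin 843 6 778)
(mv 778 (cons (fin 715 6 714)
(mv 777 (cons (fin 713 7 713)
(fin 841 7 777)))))))))))))))
(mv 971 (cons (fin 1033 1 969)
(mv 1036 (cons (fin 969 0 969)
(mv 908 (cons (fin 844 4 844)
(mv 1100 (cons (mv 907 (cons (fin 843 7 843)
(fin 1164 7 907)))
(cons (mv 1164 (cons (fin 1228 6 972)
(mv 1163 (cons (fin 1099 5 907)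
(fin 1227 5 971)))))
(mv 907 (cons (fin 843 7 843)
(mv 1099 (cons (fin 1163 5 907)
(mv 1098 (cons (fin 1097 2 1033)
(fin 1162 6 906)))))))))))))))))))))
(cons (mv 974 (cons (fin 1039 0 972)
(mv 911 (cons (fin 912 2 908)
(mv 971 (cons (fin 910 2 907)
(mv 970 (cons (fin 1033 1 969)
(mv 906 (cons (fin 905 3 905)
(fin 907 3 906)))))))))))
(cons (mv 974 (cons (fin 1039 0 972)
(mv 911 (cons (fin 912 2 908)
(mv 908 (cons (fin 907 3 907)
(mv 844 (cons (fin 780 4 780)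
(fin 1036 4 844)))))))))
(mv 974 (cons (fin 1039 0 972)
(mv 911 (cons (fin 912 2 908)
(mv 971 (cons (fin 910 2 907)
(mv 970 (cons (fin 1033 1 969)
(mv 905 (cons (fin 906 3 905)
(mv 969 (cons (fin 904 3 904)
(fin 1036 0 969))))))))))))))))))
(cons (mv 1104 (cons (cons (cons (mv 1039 (cons (cons (mv 972 (cons (fin 974 0 972)
(mv 1168 (cons (fin 1232 7 975)
(mv 911 (cons (fin 976 7 911)
(fin 847 4 847)))))))
(mv 972 (cons (fin 974 0 972)
(mv 911 (cons (fin 847 4 847)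
(mv 1103 (cons (mv 1102 (cons (fin 1100 2 1036)
(fin 1166 5 910)))
(cons (mv 912 (cons (fin 848 6 847)
(mv 846 (cons (fin 910 7 846)
(mv 1167 (cons (fin 976 5 911)
(mv 1230 (cons (fin 1166 5 974)
(mv 1231 (cons (fin 1294 5 1038)
(fin 1295 6 1039)))))))))))
(mv 912 (cons (fin 848 6 847)
(mv 1100 (cons (fin 1102 2 1036)
(mv 976 (cons (fin 1167 5 911)
(mv 913 (cons (fin 849 6 848)
(mv 1105 (cons (fin 1169 4 912)
(mv 1106 (cons (fin 1107 3 1039)
(mv 914 (cons (fin 915 1 911)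
(mv 910 (cons (fin 846 7 846)
(mv 978 (cons (fin 977 3 910)
(fin 979 0 911)))))))))))))))))))))))))))
(cons (mv 972 (cons (fin 974 0 972)
(mv 1168 (cons (fin 1232 7 975)
(mv 976 (cons (cons (mv 1167 (cons (fin 1231 5 975)
(mv 912 (cons (fin 1103 5 911)
(mv 1169 (cons (fin 1105 4 912)
(fin 1233 4 976)))))))
(mv 1169 (cons (fin 1233 4 976)
(mv 912 (cons (fin 1105 4 912)
(mv 913 (cons (fin 849 6 848)
(fin 977 6 912))))))))
(cons (mv 913 (cons (fin 977 6 912)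
(mv 912 (cons (fin 849 6 848)
(mv 1167 (cons (fin 1103 5 911)
(fin 1231 5 975)))))))
(mv 1167 (cons (fin 1231 5 975)
(mv 1169 (cons (fin 1233 4 976)
(mv 1102 (cons (fin 1166 3 1101)
(fin 1103 0 1101))))))))))))))
(cons (mv 1168 (cons (fin 1232 7 975)
(mv 911 (cons (fin 976 7 911)
(fin 847 4 847)))))
(mv 1168 (cons (fin 1232 7 975)
(mv 911 (cons (fin 847 4 847)
(fin 1103 4 911)))))))))
(mv 976 (cons (cons (mv 911 (cons (fin 1168 7 911)
(mv 847 (cons (fin 912 7 847)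
(fin 783 4 783)))))
(mv 912 (cons (mv 913 (cons (fin 974 2 909)
(fin 849 6 848)))
(cons (mv 1105 (cons (fin 1169 4 912)
(mv 1103 (cons (fin 1167 5 911)
(mv 848 (cons (cons (mv 847 (cons (fin 783 7 783)
(fin 911 7 847)))
(mv 785 (cons (fin 849 6 784)
(mv 784 (cons (fin 721 6 720)
(mv 720 (cons (fin 911 5 719)
(mv 719 (cons (fin 655 7 655)
(fin 783 7 719))))))))))
(cons (mv 785 (cons (fin 849 6 784)
(mv 784 (cons (fin 721 6 720)
(mv 783 (cons (fin 719 7 719)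
(fin 847 7 783)))))))
(mv 911 (cons (fin 847 7 847)
(mv 785 (cons (fin 849 6 784)
(mv 784 (cons (fin 720 5 719)
(fin 721 6 720))))))))))))))
(mv 911 (cons (fin 847 7 847)
(mv 974 (cons (fin 972 2 908)
(fin 913 2 909)))))))))
(cons (mv 912 (cons (mv 913 (cons (fin 974 2 909)
(fin 849 6 848)))
(mv 1169 (cons (fin 1105 4 912)
(mv 1103 (cons (fin 1167 5 911)
(mv 1168 (cons (fin 1102 0 1101)
(fin 1233 4 976)))))))))
(mv 1168 (cons (fin 911 7 911)
(mv 1167 (cons (fin 1231 5 975)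
(mv 1169 (cons (fin 1233 4 976)
(mv 1102 (cons (fin 1166 3 1101)
(fin 1103 0 1101)))))))))))))
(cons (mv 912 (cons (cons (cons (mv 976 (cons (mv 913 (cons (fin 974 2 909)
(fin 849 6 848)))
(mv 1105 (cons (fin 1169 4 912)
(mv 1103 (cons (fin 1167 5 911)
(mv 848 (cons (fin 1039 5 847)
(mv 847 (cons (fin 783 7 783)
(fin 911 7 847)))))))))))
(mv 911 (cons (mv 972 (cons (fin 974 2 908)
(mv 1039 (cons (fin 847 4 847)
(mv 1103 (cons (fin 848 6 847)
(mv 1102 (cons (fin 1100 2 1036)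
(fin 1166 5 910)))))))))
(cons (mv 1039 (cons (fin 847 4 847)
(mv 1103 (cons (fin 848 6 847)
(mv 1102 (cons (fin 1100 2 1036)
(fin 1166 5 910)))))))
(mv 974 (cons (fin 972 2 908)
(mv 913 (cons (fin 910 1 909)
(fin 914 1 910)))))))))
(cons (mv 976 (cons (mv 913 (cons (fin 974 2 909)
(fin 849 6 848)))
(cons (mv 1105 (cons (fin 1169 4 912)
(mv 1103 (cons (fin 1167 5 911)
(mv 848 (cons (fin 1039 5 847)
(mv 785 (cons (fin 849 6 784)
(mv 784 (cons (fin 721 6 720)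
(mv 783 (cons (fin 719 7 719)
(fin 847 7 783)))))))))))))
(mv 1103 (cons (fin 1167 5 911)
(mv 848 (cons (fin 1039 5 847)
(mv 783 (cons (fin 847 7 783)
(mv 784 (cons (fin 719 7 719)
(mv 913 (cons (fin 974 2 909)
(mv 914 (cons (fin 915 1 911)
(mv 720 (cons (fin 977 4 720)
(mv 721 (cons (fin 657 6 656)
(fin 785 6 720))))))))))))))))))))
(mv 976 (cons (cons (mv 847 (cons (fin 911 7 847)
(mv 848 (cons (fin 783 7 783)
(mv 1039 (cons (fin 784 5 783)
(fin 1103 5 847)))))))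
(mv 1105 (cons (fin 1169 4 912)
(mv 849 (cons (fin 913 6 848)
(mv 848 (cons (fin 785 6 784)
(mv 1103 (cons (fin 1039 5 847)
(fin 1167 5 911))))))))))
(cons (mv 847 (cons (fin 911 7 847)
(mv 848 (cons (fin 783 7 783)
(mv 849 (cons (fin 785 6 784)
(fin 913 6 848)))))))
(mv 1105 (cons (fin 1169 4 912)
(mv 1103 (cons (fin 1167 5 911)
(mv 911 (cons (fin 847 7 847)
(mv 913 (cons (fin 849 6 848)
(mv 914 (cons (fin 915 1 911)
(mv 850 (cons (fin 851 2 847)
(mv 978 (cons (fin 979 0 911)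
(mv 910 (cons (fin 977 3 910)
(mv 846 (cons (fin 845 3 845)
(fin 1039 7 846))))))))))))))))))))))))
(cons (cons (mv 976 (cons (mv 913 (cons (fin 974 2 909)
(fin 849 6 848)))
(cons (mv 1105 (cons (fin 1169 4 912)
(mv 1103 (cons (fin 1167 5 911)
(mv 848 (cons (cons (mv 847 (cons (fin 783 7 783)
(fin 911 7 847)))
(mv 785 (cons (fin 849 6 784)
(mv 784 (cons (fin 721 6 720)
(mv 720 (cons (fin 911 5 719)
(mv 719 (cons (fin 655 7 655)
(fin 783 7 719))))))))))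
(cons (mv 785 (cons (fin 849 6 784)
(mv 784 (cons (fin 721 6 720)
(mv 783 (cons (fin 719 7 719)
(fin 847 7 783)))))))
(mv 911 (cons (fin 847 7 847)
(mv 785 (cons (fin 849 6 784)
(mv 784 (cons (fin 720 5 719)
(fin 721 6 720))))))))))))))
(mv 911 (cons (fin 847 7 847)
(mv 974 (cons (fin 972 2 908)
(fin 913 2 909))))))))
(mv 1103 (cons (cons (mv 976 (cons (fin 1167 5 911)
(mv 848 (cons (fin 1039 5 847)
(mv 847 (cons (fin 783 7 783)
(fin 911 7 847)))))))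
(cons (mv 1039 (cons (mv 911 (cons (fin 848 6 847)
(fin 847 4 847)))
(mv 974 (cons (fin 972 0 972)
(mv 1100 (cons (fin 1102 2 1036)
(mv 1167 (cons (fin 910 7 910)
(mv 1230 (cons (fin 1166 5 974)
(mv 1231 (cons (fin 1294 5 1038)
(fin 1295 6 1039)))))))))))))
(mv 911 (cons (mv 847 (cons (fin 976 7 847)
(fin 1039 4 847)))
(cons (mv 974 (cons (fin 972 2 908)
(mv 847 (cons (fin 976 7 847)
(mv 783 (cons (cons (mv 718 (cons (fin 782 7 718)
(mv 719 (cons (fin 654 7 654)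
(fin 910 5 718)))))
(mv 784 (cons (fin 720 6 719)
(mv 782 (cons (fin 718 7 718)
(mv 846 (cons (fin 910 5 781)
(mv 845 (cons (fin 785 1 781)
(fin 844 2 780))))))))))
(cons (mv 719 (cons (fin 910 5 718)
(mv 720 (cons (fin 656 6 655)
(fin 784 6 719)))))
(mv 718 (cons (fin 782 7 718)
(mv 719 (cons (fin 654 7 654)
(mv 720 (cons (fin 656 6 655)
(fin 784 6 719))))))))))))))
(mv 1039 (cons (fin 848 6 847)
(mv 1102 (cons (fin 1100 2 1036)
(fin 1166 5 910))))))))))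
(cons (mv 976 (cons (fin 1167 5 911)
(mv 1105 (cons (fin 1169 4 912)
(mv 848 (cons (cons (mv 847 (cons (fin 783 7 783)
(fin 911 7 847)))
(mv 785 (cons (fin 849 6 784)
(mv 784 (cons (fin 721 6 720)
(mv 720 (cons (fin 911 5 719)
(mv 719 (cons (fin 655 7 655)
(fin 783 7 719))))))))))
(cons (mv 785 (cons (fin 849 6 784)
(mv 784 (cons (fin 721 6 720)
(mv 783 (cons (fin 719 7 719)
(fin 847 7 783)))))))
(mv 911 (cons (fin 847 7 847)
(mv 785 (cons (fin 849 6 784)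
(mv 784 (cons (fin 720 5 719)
(fin 721 6 720))))))))))))))
(cons (mv 976 (cons (fin 1167 5 911)
(mv 848 (cons (fin 1039 5 847)
(mv 785 (cons (fin 849 6 784)
(mv 784 (cons (fin 721 6 720)
(mv 783 (cons (fin 719 7 719)
(fin 847 7 783)))))))))))
(mv 1167 (cons (fin 976 5 911)
(mv 1231 (cons (fin 1295 6 1039)
(mv 1039 (cons (mv 974 (cons (fin 972 0 972)
(fin 910 7 910)))
(mv 1230 (cons (fin 1166 5 974)
(fin 1294 5 1038))))))))))))))
(cons (mv 976 (cons (mv 913 (cons (fin 974 2 909)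
(fin 849 6 848)))
(cons (mv 1105 (cons (fin 1169 4 912)
(mv 1103 (cons (fin 1167 5 911)
(mv 848 (cons (fin 1039 5 847)
(mv 785 (cons (fin 849 6 784)
(mv 784 (cons (fin 721 6 720)
(mv 720 (cons (fin 911 5 719)
(mv 719 (cons (fin 655 7 655)
(fin 783 7 719)))))))))))))))
(mv 1105 (cons (fin 1169 4 912)
(mv 913 (cons (fin 974 2 909)
(mv 914 (cons (fin 915 1 911)
(mv 1103 (cons (fin 1167 5 911)
(mv 1039 (cons (fin 848 5 847)
(mv 1102 (cons (fin 1100 2 1036)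
(mv 1106 (cons (fin 1107 3 1039)
(mv 911 (cons (fin 1166 5 910)
(mv 910 (cons (fin 846 7 846)
(mv 978 (cons (fin 977 3 910)
(fin 979 0 911))))))))))))))))))))))))
(cons (mv 976 (cons (mv 913 (cons (fin 974 2 909)
(fin 849 6 848)))
(cons (mv 847 (cons (fin 911 7 847)
(mv 848 (cons (fin 783 7 783)
(mv 1105 (cons (fin 1169 4 912)
(mv 785 (cons (fin 849 6 784)
(mv 784 (cons (fin 1039 5 783)
(fin 721 6 720)))))))))))
(mv 1105 (cons (fin 1169 4 912)
(mv 913 (cons (fin 974 2 909)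
(mv 914 (cons (fin 915 1 911)
(mv 847 (cons (fin 911 7 847)
(mv 848 (cons (fin 783 7 783)
(mv 845 (cons (fin 846 0 845)
(mv 784 (cons (fin 1039 5 783)
(mv 721 (cons (fin 785 6 720)
(mv 720 (cons (fin 657 6 656)
(fin 977 4 720))))))))))))))))))))))
(mv 974 (cons (mv 972 (cons (fin 911 2 908)
(fin 1039 0 972)))
(cons (mv 913 (cons (fin 976 2 909)
(mv 911 (cons (fin 910 1 909)
(fin 914 1 910)))))
(mv 1039 (cons (fin 972 0 972)
(mv 1103 (cons (mv 976 (cons (fin 913 2 909)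
(fin 1167 5 911)))
(cons (mv 1102 (cons (fin 1100 2 1036)
(mv 1105 (cons (mv 976 (cons (fin 913 2 909)
(fin 1169 4 912)))
(cons (mv 1170 (cons (fin 1169 0 1102)
(mv 1106 (cons (fin 1107 3 1039)
(fin 1171 0 1103)))))
(mv 1106 (cons (fin 1107 3 1039)
(mv 913 (cons (fin 976 2 909)
(mv 1170 (cons (fin 1171 0 1103)
(mv 1042 (cons (fin 1043 2 1039)
(mv 978 (cons (fin 977 7 913)
(mv 914 (cons (fin 849 7 849)
(mv 915 (cons (fin 851 6 850)
(fin 979 6 914))))))))))))))))))))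
(mv 1167 (cons (fin 910 7 910)
(mv 1100 (cons (fin 1102 2 1036)
(mv 1231 (cons (fin 1295 6 1039)
(mv 1230 (cons (fin 1166 5 974)
(fin 1294 5 1038))))))))))))))))))))))
(mv 1168 (cons (cons (mv 1232 (cons (fin 1039 7 975)
(mv 1231 (cons (fin 1295 5 1039)
(mv 976 (cons (fin 1167 5 975)
(mv 1233 (cons (fin 1169 4 976)
(fin 1297 4 1040)))))))))
(mv 976 (cons (cons (mv 1167 (cons (fin 1231 5 975)
(mv 912 (cons (fin 1103 5 911)
(mv 913 (cons (fin 974 2 909)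
(fin 849 6 848)))))))
(mv 1169 (cons (fin 1233 4 976)
(mv 912 (cons (fin 1105 4 912)
(mv 1167 (cons (fin 1103 5 911)
(fin 1231 5 975))))))))
(cons (mv 913 (cons (fin 977 6 912)
(mv 912 (cons (fin 974 2 909)
(fin 849 6 848)))))
(mv 1169 (cons (fin 1233 4 976)
(mv 1102 (cons (fin 1103 0 1101)
(mv 1167 (cons (fin 1166 3 1101)
(fin 1231 5 975)))))))))))
(cons (mv 1232 (cons (fin 1039 7 975)
(mv 1295 (cons (fin 1231 5 1039)
(mv 1297 (cons (fin 1233 4 1040)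
(mv 1296 (cons (fin 1359 5 1103)
(fin 1361 4 1104)))))))))
(cons (mv 1232 (cons (fin 1039 7 975)
(mv 1233 (cons (fin 1297 4 1040)
(mv 976 (cons (fin 1169 4 976)
(mv 913 (cons (fin 977 6 912)
(mv 912 (cons (fin 974 2 909)
(fin 849 6 848)))))))))))
(mv 1232 (cons (fin 1039 7 975)
(mv 1231 (cons (fin 1295 5 1039)
(mv 976 (cons (fin 1167 5 975)
(mv 913 (cons (fin 977 6 912)
(mv 912 (cons (fin 974 2 909)
(fin 849 6 848)))))))))))))))))
(cons (cons (mv 1168 (cons (cons (mv 1039 (cons (fin 1232 7 975)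
(mv 911 (cons (fin 847 4 847)
(fin 1103 4 911)))))
(mv 1232 (cons (cons (mv 1295 (cons (fin 1231 5 1039)
(mv 1297 (cons (fin 1233 4 1040)
(mv 1296 (cons (fin 1359 5 1103)
(fin 1361 4 1104)))))))
(cons (mv 1231 (cons (fin 1295 5 1039)
(mv 1169 (cons (cons (mv 1170 (cons (fin 1171 1 1167)
(mv 1230 (cons (fin 1167 1 1166)
(fin 1229 2 1165)))))
(mv 1102 (cons (fin 1103 0 1101)
(mv 1166 (cons (fin 1167 3 1101)
(mv 1230 (cons (fin 1229 2 1165)
(fin 1294 7 1037))))))))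
(cons (mv 1170 (cons (fin 1171 1 1167)
(mv 1102 (cons (fin 1103 0 1101)
(mv 1167 (cons (fin 1166 3 1101)
(mv 1106 (cons (fin 1107 2 1103)
(mv 1234 (cons (fin 1235 0 1167)
(mv 1298 (cons (mv 1299 (cons (fin 1233 0 1231)
(fin 1363 4 1106)))
(cons (mv 1362 (cons (fin 1105 7 1105)
(mv 1426 (cons (fin 1233 7 1169)
(mv 1425 (cons (fin 1361 5 1169)
(fin 1489 5 1233)))))))
(mv 1362 (cons (fin 1105 7 1105)
(mv 1363 (cons (fin 1299 4 1106)
(fin 1427 4 1170))))))))))))))))))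
(mv 1102 (cons (fin 1103 0 1101)
(mv 1230 (cons (fin 1229 2 1165)
(mv 1170 (cons (fin 1171 1 1167)
(fin 1233 2 1166))))))))))))
(mv 1296 (cons (mv 1297 (cons (fin 1233 4 1040)
(fin 1361 4 1104)))
(cons (mv 1360 (cons (mv 1103 (cons (fin 1167 7 1103)
(mv 1169 (cons (fin 1102 0 1101)
(fin 1105 6 1104)))))
(cons (mv 1361 (cons (fin 1425 4 1168)
(mv 1167 (cons (fin 1103 7 1103)
(mv 1423 (cons (fin 1359 5 1167)
(mv 1424 (cons (fin 1231 7 1167)
(fin 1487 5 1231)))))))))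
(mv 1105 (cons (fin 1169 6 1104)
(mv 1425 (cons (fin 1361 4 1168)
(mv 1423 (cons (fin 1359 5 1167)
(mv 1424 (cons (fin 1487 5 1231)
(fin 1489 4 1232))))))))))))
(mv 1233 (cons (fin 1297 4 1040)
(mv 1360 (cons (mv 1169 (cons (fin 1105 6 1104)
(fin 1424 6 1168)))
(cons (mv 1167 (cons (fin 1103 7 1103)
(mv 1359 (cons (fin 1423 5 1167)
(mv 1231 (cons (fin 1424 7 1167)
(mv 1234 (cons (fin 1166 3 1166)
(fin 1235 3 1167)))))))))
(mv 1359 (cons (fin 1423 5 1167)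
(mv 1169 (cons (fin 1105 6 1104)
(mv 1103 (cons (fin 1102 0 1101)
(fin 1167 7 1103)))))))))))))))))
(cons (mv 1297 (cons (fin 1233 4 1040)
(mv 1296 (cons (fin 1361 4 1104)
(mv 1359 (cons (fin 1295 5 1103)
(mv 1360 (cons (fin 1423 5 1167)
(mv 1103 (cons (fin 1167 7 1103)
(mv 1169 (cons (fin 1102 0 1101)
(fin 1105 6 1104)))))))))))))
(cons (mv 1295 (cons (fin 1231 5 1039)
(mv 1296 (cons (fin 1359 5 1103)
(mv 1361 (cons (fin 1297 4 1104)
(mv 1360 (cons (fin 1425 4 1168)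
(mv 1169 (cons (fin 1105 6 1104)
(mv 1103 (cons (fin 1102 0 1101)
(fin 1167 7 1103)))))))))))))
(mv 1231 (cons (fin 1295 5 1039)
(mv 1233 (cons (fin 1297 4 1040)
(mv 1169 (cons (mv 1170 (cons (fin 1171 1 1167)
(fin 1230 2 1166)))
(cons (mv 1102 (cons (fin 1103 0 1101)
(mv 1166 (cons (fin 1167 3 1101)
(mv 1230 (cons (fin 1229 2 1165)
(fin 1294 7 1037)))))))
(mv 1170 (cons (fin 1171 1 1167)
(mv 1102 (cons (fin 1103 0 1101)
(mv 1167 (cons (fin 1166 3 1101)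
(mv 1234 (cons (fin 1235 3 1167)
(mv 1298 (cons (fin 1299 0 1231)
(mv 1362 (cons (fin 1105 7 1105)
(fin 1426 7 1169)))))))))))))))))))))))))
(cons (mv 1103 (cons (mv 1102 (cons (fin 1169 0 1101)
(mv 1039 (cons (fin 1100 2 1036)
(fin 911 4 911)))))
(cons (mv 1169 (cons (fin 1102 0 1101)
(mv 1170 (cons (fin 1171 3 1103)
(mv 1167 (cons (mv 1231 (cons (fin 1230 1 1166)
(fin 1295 6 1039)))
(mv 1234 (cons (fin 1235 0 1167)
(mv 1166 (cons (fin 1233 0 1166)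
(mv 1106 (cons (fin 1105 1 1102)
(fin 1107 2 1103)))))))))))))
(mv 1039 (cons (fin 911 4 911)
(mv 974 (cons (fin 972 0 972)
(mv 1167 (cons (fin 910 7 910)
(mv 1230 (cons (fin 1166 5 974)
(mv 1231 (cons (fin 1294 5 1038)
(fin 1295 6 1039))))))))))))))
(mv 1232 (cons (fin 1039 7 975)
(mv 1295 (cons (fin 1231 5 1039)
(mv 1297 (cons (fin 1233 4 1040)
(mv 1296 (cons (fin 1359 5 1103)
(fin 1361 4 1104))))))))))))
(mv 1168 (cons (cons (mv 911 (cons (fin 976 7 911)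
(mv 1039 (cons (fin 1232 7 975)
(fin 847 4 847)))))
(mv 1039 (cons (fin 1232 7 975)
(mv 911 (cons (fin 847 4 847)
(fin 1103 4 911))))))
(cons (mv 976 (cons (fin 911 7 911)
(mv 1167 (cons (fin 1231 5 975)
(mv 912 (cons (fin 1103 5 911)
(mv 913 (cons (fin 849 6 848)
(fin 977 6 912)))))))))
(mv 1232 (cons (fin 1039 7 975)
(mv 1231 (cons (fin 1295 5 1039)
(mv 976 (cons (fin 1167 5 975)
(mv 1233 (cons (fin 1169 4 976)
(fin 1297 4 1040)))))))))))))
(cons (mv 1168 (cons (mv 911 (cons (fin 976 7 911)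
(mv 1039 (cons (fin 1232 7 975)
(fin 847 4 847)))))
(cons (mv 1232 (cons (fin 1039 7 975)
(mv 1295 (cons (fin 1231 5 1039)
(mv 1297 (cons (fin 1233 4 1040)
(mv 1296 (cons (fin 1359 5 1103)
(fin 1361 4 1104)))))))))
(mv 976 (cons (fin 911 7 911)
(mv 1167 (cons (fin 1231 5 975)
(mv 1169 (cons (fin 1233 4 976)
(mv 912 (cons (fin 1105 4 912)
(mv 913 (cons (fin 974 2 909)
(fin 849 6 848))))))))))))))
(cons (mv 1168 (cons (cons (mv 911 (cons (fin 976 7 911)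
(mv 1039 (cons (fin 1232 7 975)
(fin 847 4 847)))))
(mv 976 (cons (fin 911 7 911)
(mv 1167 (cons (fin 1231 5 975)
(mv 912 (cons (fin 1103 5 911)
(mv 913 (cons (fin 974 2 909)
(fin 849 6 848))))))))))
(cons (mv 1039 (cons (fin 1232 7 975)
(mv 911 (cons (fin 847 4 847)
(fin 1103 4 911)))))
(mv 1232 (cons (fin 1039 7 975)
(mv 1231 (cons (fin 1295 5 1039)
(mv 976 (cons (fin 1167 5 975)
(mv 1233 (cons (fin 1297 4 1040)
(mv 913 (cons (fin 977 6 912)
(mv 912 (cons (fin 974 2 909)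
(fin 849 6 848))))))))))))))))
(mv 1039 (cons (cons (mv 972 (cons (fin 974 0 972)
(mv 911 (cons (fin 847 4 847)
(mv 1168 (cons (fin 976 7 911)
(fin 1232 7 975)))))))
(mv 1168 (cons (fin 1232 7 975)
(mv 972 (cons (fin 974 0 972)
(mv 976 (cons (cons (mv 1169 (cons (fin 1233 4 976)
(mv 912 (cons (fin 1105 4 912)
(mv 913 (cons (fin 849 6 848)
(fin 977 6 912)))))))
(mv 913 (cons (fin 977 6 912)
(mv 912 (cons (fin 849 6 848)
(mv 848 (cons (fin 784 5 783)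
(fin 1103 5 847))))))))
(cons (mv 1169 (cons (fin 1233 4 976)
(mv 912 (cons (fin 1105 4 912)
(mv 848 (cons (fin 784 5 783)
(fin 1103 5 847)))))))
(mv 1169 (cons (fin 1233 4 976)
(mv 1103 (cons (fin 1102 0 1101)
(mv 977 (cons (fin 913 6 912)
(mv 1171 (cons (fin 1170 3 1103)
(mv 978 (cons (fin 979 1 975)
(mv 914 (cons (fin 915 2 911)
(mv 1042 (cons (fin 1043 0 975)
(mv 1106 (cons (fin 1105 5 913)
(fin 1107 4 914)))))))))))))))))))))))))
(cons (mv 972 (cons (fin 974 0 972)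
(mv 911 (cons (fin 847 4 847)
(mv 1103 (cons (mv 1102 (cons (fin 1100 2 1036)
(fin 1166 5 910)))
(mv 912 (cons (fin 848 6 847)
(mv 910 (cons (fin 846 7 846)
(mv 913 (cons (cons (mv 849 (cons (fin 850 2 846)
(fin 976 6 848)))
(mv 978 (cons (fin 977 0 910)
(mv 914 (cons (fin 979 0 911)
(mv 851 (cons (fin 850 2 847)
(mv 915 (cons (fin 976 1 911)
(fin 852 2 848))))))))))
(cons (mv 978 (cons (fin 977 0 910)
(mv 850 (cons (fin 849 2 846)
(mv 914 (cons (fin 851 2 847)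
(fin 979 0 911)))))))
(mv 978 (cons (fin 977 0 910)
(mv 976 (cons (fin 849 6 848)
(mv 914 (cons (fin 915 1 911)
(fin 979 0 911))))))))))))))))))))
(cons (mv 911 (cons (fin 847 4 847)
(mv 1168 (cons (fin 976 7 911)
(fin 1232 7 975)))))
(mv 1168 (cons (fin 1232 7 975)
(mv 911 (cons (fin 847 4 847)
(fin 1103 4 911))))))))))))))
(mv 1103 (cons (cons (cons (mv 1102 (cons (cons (mv 1036 (cons (fin 1104 3 1036)
(mv 1039 (cons (fin 1100 2 1036)
(mv 911 (cons (fin 1166 5 910)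
(mv 846 (cons (fin 910 7 846)
(mv 782 (cons (fin 847 7 782)
(mv 912 (cons (fin 848 6 847)
(mv 976 (cons (fin 974 1 972)
(fin 1167 6 911)))))))))))))))
(cons (mv 1104 (cons (fin 1036 3 1036)
(mv 1168 (cons (fin 1169 0 1101)
(mv 911 (cons (fin 976 7 911)
(fin 1039 4 911)))))))
(mv 1104 (cons (fin 1036 3 1036)
(mv 1168 (cons (fin 1169 0 1101)
(mv 1100 (cons (fin 1167 0 1100)
(mv 1163 (cons (fin 1164 1 1099)
(mv 1099 (cons (fin 1162 1 1098)
(mv 1033 (cons (fin 1098 3 1033)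
(mv 976 (cons (fin 911 7 911)
(mv 913 (cons (fin 977 6 912)
(mv 912 (cons (fin 974 2 909)
(fin 849 6 848)))))))))))))))))))))
(cons (mv 1039 (cons (fin 1100 2 1036)
(mv 911 (cons (fin 1166 5 910)
(mv 846 (cons (fin 910 7 846)
(mv 782 (cons (fin 847 7 782)
(mv 912 (cons (fin 848 6 847)
(mv 976 (cons (fin 1167 6 911)
(mv 974 (cons (fin 1036 1 972)
(fin 913 2 909)))))))))))))))
(cons (mv 1039 (cons (fin 1100 2 1036)
(mv 911 (cons (fin 1166 5 910)
(mv 1104 (cons (fin 847 4 847)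
(fin 1168 4 911)))))))
(mv 1039 (cons (fin 1100 2 1036)
(mv 1036 (cons (fin 1104 3 1036)
(mv 974 (cons (fin 976 1 972)
(mv 1167 (cons (fin 910 7 910)
(mv 1166 (cons (fin 1230 5 974)
(mv 1168 (cons (fin 1169 3 1101)
(fin 1232 4 975)))))))))))))))))
(mv 1039 (cons (cons (cons (mv 1167 (cons (mv 976 (cons (fin 912 6 911)
(fin 1231 6 975)))
(cons (mv 910 (cons (fin 974 7 910)
(mv 846 (cons (fin 911 7 846)
(mv 1232 (cons (fin 1168 4 975)
(mv 1230 (cons (fin 1166 5 974)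
(mv 1231 (cons (fin 1294 5 1038)
(fin 1296 4 1039)))))))))))
(mv 1168 (cons (fin 1232 4 975)
(mv 911 (cons (fin 1104 4 911)
(mv 912 (cons (fin 848 6 847)
(fin 976 6 911))))))))))
(mv 911 (cons (mv 1104 (cons (fin 847 4 847)
(fin 1168 4 911)))
(cons (mv 846 (cons (fin 910 7 846)
(mv 847 (cons (fin 782 7 782)
(mv 848 (cons (fin 784 6 783)
(fin 912 6 847)))))))
(mv 912 (cons (fin 848 6 847)
(mv 1104 (cons (fin 1168 4 911)
(mv 910 (cons (fin 846 7 846)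
(mv 913 (cons (fin 974 1 909)
(mv 849 (cons (fin 850 2 846)
(fin 976 6 848)))))))))))))))
(cons (mv 911 (cons (cons (mv 1104 (cons (fin 847 4 847)
(fin 1168 4 911)))
(mv 848 (cons (fin 912 6 847)
(mv 784 (cons (fin 847 6 783)
(mv 910 (cons (fin 846 7 846)
(mv 1167 (cons (fin 974 7 910)
(mv 1230 (cons (fin 1166 5 974)
(mv 1232 (cons (fin 1168 4 975)
(mv 1231 (cons (fin 1294 5 1038)
(fin 1296 4 1039))))))))))))))))
(cons (mv 1104 (cons (fin 1168 4 911)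
(mv 848 (cons (fin 912 6 847)
(mv 910 (cons (fin 846 7 846)
(mv 1167 (cons (fin 974 7 910)
(mv 1230 (cons (fin 1166 5 974)
(mv 1231 (cons (fin 1294 5 1038)
(fin 1295 6 1039)))))))))))))
(mv 846 (cons (fin 910 7 846)
(mv 847 (cons (fin 782 7 782)
(fin 1104 4 847))))))))
(mv 1167 (cons (mv 976 (cons (fin 912 6 911)
(fin 1231 6 975)))
(cons (mv 910 (cons (fin 974 7 910)
(mv 1232 (cons (fin 1168 4 975)
(mv 1230 (cons (fin 1166 5 974)
(mv 1231 (cons (fin 1294 5 1038)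
(fin 1296 4 1039)))))))))
(mv 1168 (cons (fin 1232 4 975)
(mv 976 (cons (fin 912 6 911)
(mv 974 (cons (fin 1036 1 972)
(fin 910 7 910))))))))))))
(cons (cons (mv 1167 (cons (cons (mv 910 (cons (fin 974 7 910)
(mv 846 (cons (fin 911 7 846)
(mv 1168 (cons (fin 1232 4 975)
(mv 1231 (cons (fin 976 6 975)
(mv 1230 (cons (fin 1166 5 974)
(fin 1294 5 1038)))))))))))
(mv 1166 (cons (fin 1230 5 974)
(mv 1168 (cons (fin 1232 4 975)
(mv 911 (cons (fin 1104 4 911)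
(mv 910 (cons (fin 846 7 846)
(fin 974 7 910))))))))))
(cons (mv 910 (cons (fin 974 7 910)
(mv 846 (cons (fin 911 7 846)
(mv 1166 (cons (fin 1230 5 974)
(mv 1231 (cons (fin 976 6 975)
(mv 1295 (cons (fin 1104 6 1039)
(mv 1296 (cons (fin 1232 4 1039)
(fin 1360 4 1103)))))))))))))
(cons (mv 976 (cons (fin 1231 6 975)
(mv 974 (cons (fin 1036 1 972)
(fin 910 7 910)))))
(mv 1168 (cons (fin 1232 4 975)
(mv 911 (cons (fin 1104 4 911)
(mv 1231 (cons (fin 976 6 975)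
(mv 1230 (cons (fin 1166 5 974)
(fin 1294 5 1038)))))))))))))
(mv 976 (cons (mv 912 (cons (fin 848 5 847)
(fin 1167 6 911)))
(cons (mv 974 (cons (fin 1036 1 972)
(mv 1167 (cons (fin 910 7 910)
(fin 1231 6 975)))))
(mv 912 (cons (fin 848 5 847)
(mv 974 (cons (fin 1036 1 972)
(fin 913 2 909)))))))))
(cons (mv 911 (cons (cons (mv 1104 (cons (fin 847 4 847)
(fin 1168 4 911)))
(mv 846 (cons (fin 910 7 846)
(mv 782 (cons (fin 847 7 782)
(mv 912 (cons (fin 848 6 847)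
(mv 1167 (cons (fin 976 6 911)
(mv 1230 (cons (fin 1166 5 974)
(mv 1232 (cons (fin 1168 4 975)
(mv 1231 (cons (fin 1294 5 1038)
(fin 1296 4 1039))))))))))))))))
(cons (mv 848 (cons (fin 912 6 847)
(mv 1168 (cons (fin 1104 4 911)
(mv 846 (cons (fin 910 7 846)
(mv 1167 (cons (fin 1232 4 975)
(mv 1231 (cons (fin 976 6 975)
(mv 1230 (cons (fin 1166 5 974)
(fin 1294 5 1038)))))))))))))
(mv 847 (cons (fin 1104 4 847)
(mv 846 (cons (fin 782 7 782)
(fin 910 7 846))))))))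
(mv 976 (cons (mv 912 (cons (fin 848 5 847)
(fin 1167 6 911)))
(cons (mv 974 (cons (fin 1036 1 972)
(mv 1167 (cons (fin 1231 6 975)
(mv 1166 (cons (fin 1230 5 974)
(mv 1168 (cons (fin 1232 4 975)
(mv 1104 (cons (fin 911 7 911)
(mv 1106 (cons (fin 1105 1 1102)
(mv 913 (cons (fin 977 6 912)
(mv 1169 (cons (fin 1233 4 976)
(mv 1170 (cons (fin 1171 3 1103)
(fin 1107 2 1103)))))))))))))))))))
(mv 912 (cons (fin 848 5 847)
(mv 974 (cons (fin 1036 1 972)
(fin 913 2 909)))))))))))))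
(cons (mv 1039 (cons (cons (mv 1102 (cons (fin 1100 2 1036)
(mv 911 (cons (fin 1166 5 910)
(mv 1104 (cons (fin 847 4 847)
(fin 1168 4 911)))))))
(mv 1167 (cons (mv 976 (cons (fin 912 6 911)
(fin 1231 6 975)))
(cons (mv 910 (cons (fin 974 7 910)
(mv 846 (cons (fin 911 7 846)
(mv 1232 (cons (fin 1168 4 975)
(mv 1230 (cons (fin 1166 5 974)
(mv 1231 (cons (fin 1294 5 1038)
(fin 1296 4 1039)))))))))))
(mv 1168 (cons (fin 1232 4 975)
(mv 911 (cons (fin 1104 4 911)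
(mv 912 (cons (fin 848 6 847)
(fin 976 6 911)))))))))))
(cons (mv 1102 (cons (fin 1100 2 1036)
(mv 1167 (cons (mv 976 (cons (fin 912 6 911)
(fin 1231 6 975)))
(mv 910 (cons (fin 974 7 910)
(mv 1168 (cons (fin 1232 4 975)
(mv 1166 (cons (fin 1169 3 1101)
(fin 1230 5 974)))))))))))
(cons (mv 1102 (cons (fin 1100 2 1036)
(mv 911 (cons (fin 1166 5 910)
(mv 846 (cons (fin 910 7 846)
(mv 847 (cons (fin 782 7 782)
(fin 1104 4 847)))))))))
(mv 1100 (cons (fin 1102 2 1036)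
(mv 911 (cons (mv 1104 (cons (fin 847 4 847)
(fin 1168 4 911)))
(cons (mv 846 (cons (fin 910 7 846)
(mv 847 (cons (fin 782 7 782)
(mv 848 (cons (fin 784 6 783)
(fin 912 6 847)))))))
(mv 848 (cons (fin 912 6 847)
(mv 1104 (cons (fin 1168 4 911)
(mv 910 (cons (fin 846 7 846)
(mv 1167 (cons (fin 974 7 910)
(mv 1231 (cons (fin 976 6 975)
(fin 1295 6 1039))))))))))))))))))))
(cons (mv 1104 (cons (cons (mv 1036 (cons (fin 1102 3 1036)
(mv 976 (cons (fin 974 1 972)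
(mv 911 (cons (fin 1168 7 911)
(mv 912 (cons (fin 847 7 847)
(fin 1167 5 911)))))))))
(cons (mv 976 (cons (mv 974 (cons (fin 1036 1 972)
(mv 912 (cons (fin 913 2 909)
(fin 1167 5 911)))))
(cons (mv 974 (cons (fin 1036 1 972)
(mv 1168 (cons (fin 911 7 911)
(mv 1231 (cons (fin 1167 5 975)
(mv 1233 (cons (fin 1169 4 976)
(mv 1232 (cons (fin 1295 5 1039)
(fin 1297 4 1040)))))))))))
(mv 911 (cons (fin 1168 7 911)
(mv 847 (cons (fin 912 7 847)
(fin 783 4 783))))))))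
(mv 976 (cons (mv 911 (cons (fin 1168 7 911)
(mv 912 (cons (fin 847 7 847)
(fin 1167 5 911)))))
(cons (mv 912 (cons (fin 1167 5 911)
(mv 913 (cons (fin 974 2 909)
(fin 849 6 848)))))
(mv 1168 (cons (fin 911 7 911)
(mv 1169 (cons (fin 1102 0 1101)
(fin 1233 4 976))))))))))
(cons (mv 1102 (cons (fin 1036 3 1036)
(mv 1168 (cons (fin 1169 0 1101)
(mv 1167 (cons (fin 1100 0 1100)
(mv 1232 (cons (cons (mv 1231 (cons (fin 1295 5 1039)
(mv 1296 (cons (fin 1360 7 1103)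
(mv 1297 (cons (fin 1233 4 1040)
(fin 1361 4 1104)))))))
(mv 1297 (cons (fin 1233 4 1040)
(mv 1296 (cons (fin 1360 7 1103)
(fin 1361 4 1104))))))
(cons (mv 1231 (cons (fin 1295 5 1039)
(mv 1233 (cons (fin 1297 4 1040)
(mv 1234 (cons (fin 1166 3 1166)
(fin 1235 3 1167)))))))
(mv 1296 (cons (fin 1360 7 1103)
(mv 1295 (cons (fin 1231 5 1039)
(fin 1359 5 1103))))))))))))))
(cons (mv 1036 (cons (fin 1102 3 1036)
(mv 976 (cons (fin 974 1 972)
(mv 912 (cons (fin 1167 5 911)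
(mv 847 (cons (fin 911 7 847)
(mv 848 (cons (fin 783 7 783)
(mv 849 (cons (fin 785 6 784)
(fin 913 6 848)))))))))))))
(mv 1036 (cons (fin 1102 3 1036)
(mv 976 (cons (fin 974 1 972)
(mv 911 (cons (fin 1168 7 911)
(mv 847 (cons (fin 912 7 847)
(fin 783 4 783)))))))))))))
(mv 1102 (cons (cons (mv 1036 (cons (fin 1104 3 1036)
(mv 1039 (cons (fin 1100 2 1036)
(mv 911 (cons (fin 1166 5 910)
(mv 846 (cons (fin 910 7 846)
(mv 847 (cons (fin 782 7 782)
(mv 848 (cons (fin 784 6 783)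
(fin 912 6 847)))))))))))))
(mv 1104 (cons (fin 1036 3 1036)
(mv 1168 (cons (fin 1169 0 1101)
(mv 1039 (cons (fin 1232 7 975)
(fin 911 4 911))))))))
(cons (mv 1104 (cons (fin 1036 3 1036)
(mv 1168 (cons (fin 1169 0 1101)
(mv 1167 (cons (fin 1100 0 1100)
(mv 1232 (cons (cons (mv 1231 (cons (fin 1295 5 1039)
(mv 1296 (cons (fin 1360 7 1103)
(mv 1297 (cons (fin 1233 4 1040)
(fin 1361 4 1104)))))))
(mv 1297 (cons (fin 1233 4 1040)
(mv 1296 (cons (fin 1360 7 1103)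
(fin 1361 4 1104))))))
(cons (mv 1231 (cons (fin 1295 5 1039)
(mv 1233 (cons (fin 1297 4 1040)
(mv 1234 (cons (fin 1166 3 1166)
(fin 1235 3 1167)))))))
(mv 1296 (cons (fin 1360 7 1103)
(mv 1295 (cons (fin 1231 5 1039)
(fin 1359 5 1103))))))))))))))
(mv 1039 (cons (fin 1100 2 1036)
(mv 911 (cons (fin 1166 5 910)
(mv 846 (cons (fin 910 7 846)
(mv 847 (cons (fin 782 7 782)
(mv 848 (cons (fin 784 6 783)
(fin 912 6 847)))))))))))))))))
(cons (cons (mv 1039 (cons (cons (mv 1102 (cons (fin 1100 2 1036)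
(mv 911 (cons (fin 1166 5 910)
(mv 846 (cons (fin 910 7 846)
(mv 782 (cons (fin 847 7 782)
(mv 912 (cons (fin 848 6 847)
(mv 976 (cons (fin 1167 6 911)
(mv 974 (cons (fin 1036 1 972)
(fin 913 2 909)))))))))))))))
(cons (mv 1167 (cons (mv 976 (cons (fin 912 6 911)
(fin 1231 6 975)))
(cons (mv 910 (cons (fin 974 7 910)
(mv 846 (cons (fin 911 7 846)
(mv 1232 (cons (fin 1168 4 975)
(mv 1230 (cons (fin 1166 5 974)
(mv 1231 (cons (fin 1294 5 1038)
(fin 1296 4 1039)))))))))))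
(mv 1168 (cons (fin 1232 4 975)
(mv 912 (cons (fin 976 6 911)
(mv 911 (cons (fin 848 6 847)
(mv 910 (cons (fin 846 7 846)
(fin 974 7 910))))))))))))
(mv 1102 (cons (fin 1100 2 1036)
(mv 911 (cons (fin 1166 5 910)
(mv 846 (cons (fin 910 7 846)
(mv 847 (cons (fin 782 7 782)
(mv 848 (cons (fin 784 6 783)
(fin 912 6 847)))))))))))))
(cons (cons (mv 1100 (cons (fin 1102 2 1036)
(mv 1167 (cons (mv 976 (cons (fin 912 6 911)
(fin 1231 6 975)))
(cons (mv 910 (cons (fin 974 7 910)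
(mv 1168 (cons (fin 1232 4 975)
(mv 1230 (cons (fin 1166 5 974)
(mv 1231 (cons (fin 1294 5 1038)
(mv 1228 (cons (fin 1229 2 1164)
(mv 1164 (cons (fin 1036 6 972)
(fin 1292 6 1036)))))))))))))
(mv 1166 (cons (fin 1230 5 974)
(mv 976 (cons (fin 912 6 911)
(mv 974 (cons (fin 1036 1 972)
(fin 910 7 910))))))))))))
(mv 1102 (cons (fin 1100 2 1036)
(mv 911 (cons (fin 1166 5 910)
(mv 846 (cons (fin 910 7 846)
(mv 847 (cons (fin 782 7 782)
(mv 784 (cons (fin 848 6 783)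
(mv 783 (cons (fin 720 6 719)
(fin 976 4 783))))))))))))))
(cons (mv 1102 (cons (fin 1100 2 1036)
(mv 911 (cons (fin 1166 5 910)
(mv 848 (cons (fin 912 6 847)
(mv 847 (cons (fin 784 6 783)
(mv 782 (cons (fin 846 7 782)
(mv 783 (cons (fin 718 7 718)
(fin 976 4 783)))))))))))))
(mv 1100 (cons (fin 1102 2 1036)
(mv 976 (cons (mv 912 (cons (fin 848 5 847)
(fin 1167 6 911)))
(cons (mv 974 (cons (fin 1036 1 972)
(mv 1167 (cons (fin 910 7 910)
(fin 1231 6 975)))))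
(mv 912 (cons (fin 848 5 847)
(mv 974 (cons (fin 1036 1 972)
(fin 913 2 909))))))))))))))
(cons (mv 1102 (cons (cons (mv 1036 (cons (fin 1104 3 1036)
(mv 1039 (cons (fin 1100 2 1036)
(mv 974 (cons (fin 976 1 972)
(mv 911 (cons (fin 1166 5 910)
(mv 846 (cons (fin 910 7 846)
(mv 847 (cons (fin 782 7 782)
(mv 848 (cons (fin 784 6 783)
(fin 912 6 847)))))))))))))))
(mv 1104 (cons (fin 1036 3 1036)
(mv 1168 (cons (fin 1169 0 1101)
(mv 976 (cons (fin 911 7 911)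
(mv 913 (cons (fin 977 6 912)
(mv 912 (cons (fin 974 2 909)
(fin 849 6 848))))))))))))
(cons (mv 1039 (cons (fin 1100 2 1036)
(mv 911 (cons (fin 1166 5 910)
(mv 846 (cons (fin 910 7 846)
(mv 847 (cons (fin 782 7 782)
(mv 848 (cons (fin 784 6 783)
(fin 912 6 847)))))))))))
(mv 1039 (cons (fin 1100 2 1036)
(mv 1104 (cons (fin 1036 3 1036)
(mv 1168 (cons (fin 1169 0 1101)
(fin 1232 7 975))))))))))
(mv 1102 (cons (cons (mv 1039 (cons (fin 1100 2 1036)
(mv 1036 (cons (fin 1104 3 1036)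
(mv 974 (cons (fin 976 1 972)
(mv 1167 (cons (fin 910 7 910)
(mv 1166 (cons (fin 1230 5 974)
(mv 1168 (cons (fin 1169 3 1101)
(fin 1232 4 975)))))))))))))
(cons (mv 1104 (cons (fin 1036 3 1036)
(mv 1168 (cons (fin 1169 0 1101)
(mv 1232 (cons (fin 1039 7 975)
(mv 1233 (cons (fin 1297 4 1040)
(mv 1231 (cons (fin 1295 5 1039)
(mv 976 (cons (fin 1167 5 975)
(mv 913 (cons (fin 977 6 912)
(mv 912 (cons (fin 974 2 909)
(fin 849 6 848)))))))))))))))))
(mv 1100 (cons (fin 1039 2 1036)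
(mv 1163 (cons (fin 1164 1 1099)
(mv 1099 (cons (fin 1162 1 1098)
(mv 1167 (cons (fin 1166 0 1099)
(fin 1168 0 1100)))))))))))
(cons (mv 1104 (cons (fin 1036 3 1036)
(mv 1168 (cons (fin 1169 0 1101)
(mv 1167 (cons (fin 1100 0 1100)
(mv 976 (cons (fin 912 5 911)
(fin 1231 5 975)))))))))
(cons (mv 1036 (cons (fin 1104 3 1036)
(mv 1039 (cons (fin 1100 2 1036)
(mv 976 (cons (fin 974 1 972)
(mv 912 (cons (fin 848 5 847)
(fin 1167 6 911)))))))))
(mv 1039 (cons (fin 1100 2 1036)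
(mv 1104 (cons (fin 1036 3 1036)
(mv 1168 (cons (fin 1169 0 1101)
(fin 1232 7 975)))))))))))))
(cons (mv 1036 (cons (cons (mv 1102 (cons (fin 1104 3 1036)
(mv 1039 (cons (fin 1100 2 1036)
(mv 974 (cons (fin 976 1 972)
(mv 911 (cons (fin 1166 5 910)
(mv 910 (cons (fin 846 7 846)
(fin 1167 7 910)))))))))))
(cons (mv 976 (cons (fin 974 1 972)
(mv 912 (cons (cons (mv 1039 (cons (fin 848 5 847)
(fin 1167 6 911)))
(mv 1104 (cons (fin 1167 5 911)
(mv 847 (cons (fin 911 7 847)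
(mv 848 (cons (fin 783 7 783)
(mv 849 (cons (fin 785 6 784)
(fin 913 6 848))))))))))
(cons (mv 848 (cons (fin 1039 5 847)
(mv 785 (cons (fin 849 6 784)
(mv 784 (cons (fin 721 6 720)
(mv 783 (cons (fin 719 7 719)
(fin 847 7 783)))))))))
(mv 1167 (cons (fin 1104 5 911)
(fin 1039 6 911))))))))
(mv 1102 (cons (fin 1104 3 1036)
(mv 1039 (cons (fin 1100 2 1036)
(mv 911 (cons (fin 1166 5 910)
(mv 846 (cons (fin 910 7 846)
(mv 847 (cons (fin 782 7 782)
(mv 848 (cons (fin 784 6 783)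
(fin 912 6 847)))))))))))))))
(cons (mv 974 (cons (fin 976 1 972)
(mv 1039 (cons (cons (mv 1100 (cons (fin 1102 2 1036)
(mv 910 (cons (fin 1167 7 910)
(mv 846 (cons (fin 911 7 846)
(fin 782 5 781)))))))
(mv 1102 (cons (fin 1100 2 1036)
(mv 1166 (cons (fin 911 5 910)
(mv 1230 (cons (fin 1294 7 1037)
(fin 1167 5 974))))))))
(cons (mv 910 (cons (fin 1167 7 910)
(mv 846 (cons (fin 911 7 846)
(fin 782 5 781)))))
(cons (mv 1102 (cons (fin 1100 2 1036)
(mv 911 (cons (fin 1166 5 910)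
(mv 846 (cons (fin 910 7 846)
(mv 847 (cons (fin 782 7 782)
(mv 848 (cons (fin 784 6 783)
(fin 912 6 847)))))))))))
(mv 1100 (cons (fin 1102 2 1036)
(mv 1167 (cons (fin 910 7 910)
(mv 1228 (cons (fin 1164 6 972)
(mv 1230 (cons (fin 1166 5 974)
(mv 1231 (cons (fin 1294 5 1038)
(mv 1296 (cons (fin 1232 4 1039)
(mv 1295 (cons (fin 1229 0 1228)
(fin 1360 4 1103)))))))))))))))))))))
(cons (mv 976 (cons (fin 974 1 972)
(mv 1104 (cons (fin 1102 3 1036)
(mv 912 (cons (fin 1167 5 911)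
(mv 847 (cons (fin 911 7 847)
(mv 848 (cons (fin 783 7 783)
(mv 849 (cons (fin 785 6 784)
(fin 913 6 848)))))))))))))
(mv 1102 (cons (fin 1104 3 1036)
(mv 1039 (cons (fin 1100 2 1036)
(mv 976 (cons (fin 974 1 972)
(mv 912 (cons (fin 848 5 847)
(fin 1167 6 911)))))))))))))
(cons (mv 1102 (cons (cons (mv 1036 (cons (fin 1104 3 1036)
(mv 1039 (cons (fin 1100 2 1036)
(mv 974 (cons (fin 976 1 972)
(mv 911 (cons (fin 1166 5 910)
(mv 910 (cons (fin 846 7 846)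
(fin 1167 7 910)))))))))))
(cons (mv 1104 (cons (fin 1036 3 1036)
(mv 1168 (cons (fin 1169 0 1101)
(mv 911 (cons (fin 976 7 911)
(fin 1039 4 911)))))))
(mv 1104 (cons (fin 1036 3 1036)
(mv 1168 (cons (fin 1169 0 1101)
(mv 1167 (cons (fin 1100 0 1100)
(mv 976 (cons (fin 911 7 911)
(fin 1231 5 975)))))))))))
(cons (mv 1039 (cons (fin 1100 2 1036)
(mv 911 (cons (fin 1166 5 910)
(mv 846 (cons (fin 910 7 846)
(mv 847 (cons (fin 782 7 782)
(mv 784 (cons (fin 848 6 783)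
(mv 783 (cons (fin 720 6 719)
(fin 976 4 783)))))))))))))
(cons (mv 1039 (cons (fin 1100 2 1036)
(mv 1036 (cons (fin 1104 3 1036)
(mv 974 (cons (fin 976 1 972)
(mv 1167 (cons (fin 910 7 910)
(mv 1166 (cons (fin 1230 5 974)
(mv 1168 (cons (fin 1169 3 1101)
(fin 1232 4 975)))))))))))))
(mv 1036 (cons (fin 1104 3 1036)
(mv 1039 (cons (fin 1100 2 1036)
(mv 1166 (cons (fin 911 5 910)
(mv 1230 (cons (fin 1294 7 1037)
(fin 1167 5 974)))))))))))))
(mv 1102 (cons (cons (mv 1036 (cons (fin 1104 3 1036)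
(mv 1039 (cons (fin 1100 2 1036)
(mv 974 (cons (fin 976 1 972)
(mv 910 (cons (fin 1167 7 910)
(mv 846 (cons (fin 911 7 846)
(fin 782 5 781)))))))))))
(mv 1104 (cons (fin 1036 3 1036)
(mv 1168 (cons (fin 1169 0 1101)
(mv 911 (cons (fin 976 7 911)
(fin 1039 4 911))))))))
(cons (mv 1100 (cons (fin 1039 2 1036)
(mv 1164 (cons (fin 1163 1 1099)
(mv 1228 (cons (fin 1036 6 972)
(fin 1292 6 1036)))))))
(cons (mv 1100 (cons (fin 1039 2 1036)
(mv 1163 (cons (fin 1164 1 1099)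
(mv 1099 (cons (fin 1162 1 1098)
(mv 1033 (cons (fin 1098 3 1033)
(mv 1168 (cons (fin 1167 0 1100)
(mv 1104 (cons (fin 1169 0 1101)
(mv 976 (cons (fin 911 7 911)
(mv 913 (cons (fin 977 6 912)
(mv 912 (cons (fin 974 2 909)
(fin 849 6 848)))))))))))))))))))
(mv 1104 (cons (fin 1036 3 1036)
(mv 1168 (cons (fin 1169 0 1101)
(mv 1100 (cons (fin 1167 0 1100)
(mv 1163 (cons (fin 1164 1 1099)
(mv 1099 (cons (fin 1162 1 1098)
(mv 1033 (cons (fin 1098 3 1033)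
(mv 976 (cons (fin 911 7 911)
(mv 913 (cons (fin 977 6 912)
(mv 912 (cons (fin 974 2 909)
(fin 849 6 848))))))))))))))))))))))))))))))
(cons (cons (mv 974 (cons (cons (mv 976 (cons (fin 1036 1 972)
(mv 972 (cons (fin 1039 0 972)
(mv 912 (cons (fin 911 2 908)
(fin 913 2 909)))))))
(cons (mv 976 (cons (fin 1036 1 972)
(mv 912 (cons (fin 913 2 909)
(mv 1104 (cons (mv 911 (cons (fin 847 7 847)
(fin 1168 7 911)))
(cons (mv 1105 (cons (fin 1169 4 912)
(mv 1103 (cons (fin 1167 5 911)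
(mv 848 (cons (fin 1039 5 847)
(mv 785 (cons (fin 849 6 784)
(mv 784 (cons (fin 721 6 720)
(mv 783 (cons (fin 719 7 719)
(fin 847 7 783)))))))))))))
(mv 1103 (cons (fin 1167 5 911)
(mv 848 (cons (fin 1039 5 847)
(mv 785 (cons (fin 849 6 784)
(mv 721 (cons (fin 784 6 720)
(mv 1168 (cons (fin 911 7 911)
(mv 1169 (cons (fin 1102 0 1101)
(fin 1105 4 912))))))))))))))))))))
(mv 972 (cons (fin 1039 0 972)
(mv 911 (cons (fin 912 2 908)
(mv 908 (cons (fin 907 3 907)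
(mv 844 (cons (fin 780 4 780)
(fin 1036 4 844)))))))))))
(cons (mv 976 (cons (fin 1036 1 972)
(mv 912 (cons (fin 913 2 909)
(mv 911 (cons (fin 972 2 908)
(mv 1104 (cons (fin 847 7 847)
(fin 1168 7 911)))))))))
(cons (mv 1039 (cons (fin 972 0 972)
(mv 1104 (cons (cons (mv 1168 (cons (fin 1232 7 975)
(mv 911 (cons (fin 976 7 911)
(fin 847 4 847)))))
(mv 911 (cons (fin 847 4 847)
(mv 912 (cons (mv 913 (cons (fin 914 1 910)
(fin 976 2 909)))
(cons (mv 848 (cons (fin 1103 6 847)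
(mv 784 (cons (fin 720 5 719)
(fin 976 5 783)))))
(mv 1103 (cons (fin 848 6 847)
(mv 1102 (cons (fin 1100 2 1036)
(fin 1166 5 910)))))))))))
(cons (mv 1168 (cons (fin 1232 7 975)
(mv 976 (cons (mv 913 (cons (fin 912 2 909)
(fin 977 6 912)))
(cons (mv 1169 (cons (fin 1233 4 976)
(mv 912 (cons (fin 1105 4 912)
(mv 1167 (cons (fin 1103 5 911)
(fin 1231 5 975)))))))
(mv 1167 (cons (fin 1231 5 975)
(mv 913 (cons (fin 977 6 912)
(mv 1169 (cons (fin 1233 4 976)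
(mv 1102 (cons (fin 1166 3 1101)
(fin 1103 0 1101))))))))))))))
(mv 1168 (cons (fin 1232 7 975)
(mv 911 (cons (fin 847 4 847)
(fin 1103 4 911))))))))))
(mv 972 (cons (fin 1039 0 972)
(mv 907 (cons (fin 908 3 907)
(mv 971 (cons (fin 906 3 906)
(mv 1036 (cons (fin 976 1 972)
(mv 970 (cons (fin 1033 1 969)
(fin 969 0 969)))))))))))))))
(mv 972 (cons (cons (mv 974 (cons (fin 1039 0 972)
(mv 1036 (cons (fin 976 1 972)
(mv 908 (cons (fin 907 3 907)
(fin 844 4 844)))))))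
(mv 970 (cons (cons (mv 971 (cons (fin 1033 1 969)
(mv 905 (cons (fin 906 3 905)
(mv 969 (cons (fin 904 3 904)
(fin 1036 0 969)))))))
(mv 1098 (cons (cons (cons (mv 906 (cons (cons (mv 841 (cons (fin 905 7 841)
(mv 777 (cons (fin 842 7 777)
(mv 1099 (cons (fin 1163 4 906)
(mv 1100 (cons (fin 1033 3 1033)
(mv 1161 (cons (fin 1162 1 1097)
(fin 1097 5 905)))))))))))
(mv 843 (cons (fin 907 6 842)
(mv 779 (cons (fin 842 6 778)
(mv 1099 (cons (fin 1163 4 906)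
(mv 1100 (cons (fin 1033 3 1033)
(mv 1161 (cons (fin 1162 1 1097)
(fin 1097 5 905))))))))))))
(cons (mv 841 (cons (fin 905 7 841)
(mv 842 (cons (fin 777 7 777)
(mv 843 (cons (fin 779 6 778)
(fin 907 6 842)))))))
(mv 843 (cons (fin 907 6 842)
(mv 1097 (cons (fin 1161 5 905)
(mv 841 (cons (fin 905 7 841)
(mv 1099 (cons (fin 1163 4 906)
(mv 1100 (cons (fin 1033 3 1033)
(fin 1036 2 1033))))))))))))))
(mv 1162 (cons (cons (mv 905 (cons (fin 969 7 905)
(mv 1163 (cons (fin 1227 4 970)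
(mv 1161 (cons (fin 1225 5 969)
(mv 1100 (cons (fin 1099 1 1097)
(fin 1164 2 1097)))))))))
(cons (mv 905 (cons (fin 969 7 905)
(mv 1227 (cons (fin 1163 4 970)
(mv 1226 (cons (fin 1291 4 1034)
(mv 1289 (cons (fin 1225 5 1033)
(mv 1290 (cons (fin 1353 5 1097)
(mv 1033 (cons (fin 1097 7 1033)
(mv 1100 (cons (fin 1099 3 1033)
(mv 1228 (cons (fin 1229 1 1225)
(mv 1164 (cons (fin 1036 6 972)
(fin 1292 6 1036)))))))))))))))))))
(mv 1163 (cons (fin 1227 4 970)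
(mv 1161 (cons (fin 1225 5 969)
(mv 1100 (cons (fin 1099 1 1097)
(fin 1164 2 1097)))))))))
(cons (cons (mv 969 (cons (fin 905 7 905)
(mv 1163 (cons (fin 1227 4 970)
(mv 1033 (cons (fin 1226 7 969)
(mv 1100 (cons (fin 1099 3 1033)
(mv 1164 (cons (fin 1161 2 1097)
(mv 1228 (cons (fin 1036 6 972)
(fin 1292 6 1036)))))))))))))
(mv 905 (cons (fin 969 7 905)
(mv 1161 (cons (fin 1225 5 969)
(mv 1100 (cons (fin 1099 1 1097)
(mv 1164 (cons (fin 1163 2 1097)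
(mv 1228 (cons (fin 1036 6 972)
(fin 1292 6 1036))))))))))))
(cons (mv 1161 (cons (fin 1225 5 969)
(mv 1099 (cons (fin 1100 1 1097)
(mv 1159 (cons (fin 1160 2 1095)
(mv 969 (cons (fin 905 7 905)
(mv 1226 (cons (fin 1033 7 969)
(mv 1291 (cons (fin 1227 4 1034)
(mv 1290 (cons (fin 1355 4 1098)
(mv 1353 (cons (fin 1289 5 1097)
(mv 1354 (cons (fin 1097 7 1097)
(fin 1417 5 1161)))))))))))))))))))
(mv 905 (cons (fin 969 7 905)
(mv 1227 (cons (fin 1163 4 970)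
(mv 1225 (cons (fin 1161 5 969)
(mv 1226 (cons (fin 1289 5 1033)
(fin 1291 4 1034))))))))))))))
(cons (mv 906 (cons (cons (mv 841 (cons (fin 905 7 841)
(mv 777 (cons (fin 842 7 777)
(mv 1099 (cons (fin 1163 4 906)
(mv 1100 (cons (fin 1033 3 1033)
(mv 1097 (cons (fin 1036 2 1033)
(fin 1161 5 905)))))))))))
(mv 841 (cons (fin 905 7 841)
(mv 842 (cons (fin 777 7 777)
(mv 843 (cons (fin 779 6 778)
(fin 907 6 842))))))))
(cons (mv 1099 (cons (fin 1163 4 906)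
(mv 1033 (cons (fin 1100 3 1033)
(mv 1097 (cons (fin 842 5 841)
(fin 1161 5 905)))))))
(mv 1097 (cons (fin 1161 5 905)
(mv 841 (cons (fin 905 7 841)
(mv 1099 (cons (fin 1163 4 906)
(mv 1100 (cons (fin 1033 3 1033)
(fin 1036 2 1033))))))))))))
(mv 906 (cons (cons (mv 841 (cons (fin 905 7 841)
(mv 842 (cons (fin 777 7 777)
(mv 1097 (cons (fin 1033 5 841)
(fin 1161 5 905)))))))
(mv 843 (cons (fin 907 6 842)
(mv 842 (cons (fin 779 6 778)
(mv 1097 (cons (fin 1033 5 841)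
(fin 1161 5 905))))))))
(cons (mv 841 (cons (fin 905 7 841)
(mv 842 (cons (fin 777 7 777)
(mv 843 (cons (fin 779 6 778)
(fin 907 6 842)))))))
(mv 843 (cons (fin 907 6 842)
(mv 1097 (cons (fin 1161 5 905)
(mv 905 (cons (fin 841 7 841)
(mv 1162 (cons (fin 969 7 905)
(mv 1227 (cons (fin 1163 4 970)
(mv 1226 (cons (fin 1291 4 1034)
(mv 1289 (cons (fin 1225 5 1033)
(mv 1290 (cons (fin 1033 7 1033)
(fin 1353 5 1097))))))))))))))))))))))
(cons (cons (mv 906 (cons (cons (mv 841 (cons (fin 905 7 841)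
(mv 842 (cons (fin 777 7 777)
(mv 843 (cons (fin 779 6 778)
(fin 907 6 842)))))))
(mv 1099 (cons (fin 1163 4 906)
(mv 1033 (cons (fin 1100 3 1033)
(mv 843 (cons (fin 907 6 842)
(mv 842 (cons (fin 1097 5 841)
(fin 779 6 778))))))))))
(cons (mv 841 (cons (fin 905 7 841)
(mv 842 (cons (fin 777 7 777)
(mv 1099 (cons (fin 1163 4 906)
(mv 1033 (cons (fin 1100 3 1033)
(fin 1097 5 841)))))))))
(mv 1099 (cons (fin 1163 4 906)
(mv 1033 (cons (fin 1100 3 1033)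
(mv 907 (cons (fin 843 6 842)
(mv 905 (cons (fin 908 0 905)
(fin 841 7 841))))))))))))
(mv 906 (cons (cons (mv 843 (cons (fin 907 6 842)
(mv 779 (cons (fin 842 6 778)
(mv 1099 (cons (fin 1163 4 906)
(mv 1100 (cons (fin 1033 3 1033)
(mv 1161 (cons (fin 1162 1 1097)
(fin 1097 5 905)))))))))))
(cons (mv 1099 (cons (fin 1163 4 906)
(mv 1033 (cons (fin 1100 3 1033)
(mv 843 (cons (fin 907 6 842)
(mv 842 (cons (fin 779 6 778)
(mv 1031 (cons (fin 1032 0 1031)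
(mv 777 (cons (fin 841 7 777)
(mv 778 (cons (fin 713 7 713)
(fin 969 5 777)))))))))))))))
(mv 843 (cons (fin 907 6 842)
(mv 842 (cons (fin 779 6 778)
(mv 1097 (cons (fin 1033 5 841)
(fin 1161 5 905)))))))))
(cons (mv 1099 (cons (fin 1163 4 906)
(mv 1033 (cons (fin 1100 3 1033)
(mv 1097 (cons (fin 842 5 841)
(fin 1161 5 905)))))))
(cons (mv 1097 (cons (fin 1161 5 905)
(mv 843 (cons (fin 907 6 842)
(mv 1099 (cons (fin 1163 4 906)
(mv 1100 (cons (fin 1033 3 1033)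
(fin 1036 2 1033)))))))))
(mv 1099 (cons (fin 1163 4 906)
(mv 1097 (cons (fin 1161 5 905)
(mv 1036 (cons (fin 1100 2 1033)
(mv 843 (cons (fin 907 6 842)
(mv 842 (cons (fin 779 6 778)
(mv 844 (cons (fin 908 4 844)
(mv 777 (cons (fin 841 7 777)
(mv 778 (cons (fin 845 3 777)
(fin 713 7 713))))))))))))))))))))))
(cons (mv 906 (cons (cons (mv 841 (cons (fin 905 7 841)
(mv 842 (cons (fin 777 7 777)
(mv 1097 (cons (fin 1033 5 841)
(fin 1161 5 905)))))))
(mv 843 (cons (fin 907 6 842)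
(mv 842 (cons (fin 779 6 778)
(mv 1097 (cons (fin 1033 5 841)
(fin 1161 5 905))))))))
(cons (mv 841 (cons (fin 905 7 841)
(mv 842 (cons (fin 777 7 777)
(mv 843 (cons (fin 779 6 778)
(fin 907 6 842)))))))
(mv 843 (cons (fin 907 6 842)
(mv 1161 (cons (fin 1097 5 905)
(mv 905 (cons (fin 841 7 841)
(mv 1162 (cons (fin 969 7 905)
(fin 1225 5 969))))))))))))
(cons (mv 906 (cons (cons (mv 841 (cons (fin 905 7 841)
(mv 777 (cons (fin 842 7 777)
(mv 1099 (cons (fin 1163 4 906)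
(mv 843 (cons (fin 907 6 842)
(mv 1161 (cons (fin 1097 5 905)
(mv 1162 (cons (fin 1100 1 1097)
(fin 1225 5 969)))))))))))))
(cons (mv 1099 (cons (fin 1163 4 906)
(mv 1097 (cons (fin 1161 5 905)
(mv 1036 (cons (fin 1100 2 1033)
(mv 843 (cons (fin 907 6 842)
(mv 842 (cons (fin 779 6 778)
(mv 844 (cons (fin 908 4 844)
(mv 777 (cons (fin 841 7 777)
(mv 778 (cons (fin 845 3 777)
(fin 713 7 713)))))))))))))))))
(mv 1097 (cons (fin 1161 5 905)
(mv 1163 (cons (fin 1099 4 906)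
(mv 905 (cons (fin 841 7 841)
(mv 1162 (cons (fin 969 7 905)
(fin 1227 4 970)))))))))))
(cons (mv 1099 (cons (fin 1163 4 906)
(mv 843 (cons (fin 907 6 842)
(mv 842 (cons (fin 779 6 778)
(mv 841 (cons (fin 777 7 777)
(fin 905 7 841)))))))))
(cons (mv 1097 (cons (fin 1161 5 905)
(mv 1099 (cons (fin 1163 4 906)
(mv 1036 (cons (fin 1100 2 1033)
(mv 907 (cons (fin 843 6 842)
(mv 908 (cons (fin 905 0 905)
(fin 844 4 844)))))))))))
(mv 843 (cons (fin 907 6 842)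
(mv 779 (cons (fin 842 6 778)
(mv 1161 (cons (fin 1097 5 905)
(mv 905 (cons (fin 841 7 841)
(mv 1162 (cons (fin 969 7 905)
(fin 1225 5 969)))))))))))))))
(mv 1162 (cons (cons (mv 905 (cons (fin 969 7 905)
(mv 841 (cons (fin 906 7 841)
(mv 1163 (cons (fin 1227 4 970)
(mv 1161 (cons (fin 1225 5 969)
(mv 1100 (cons (fin 1099 1 1097)
(fin 1164 2 1097)))))))))))
(mv 1161 (cons (fin 1225 5 969)
(mv 1099 (cons (fin 1100 1 1097)
(mv 1159 (cons (fin 1160 2 1095)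
(mv 905 (cons (fin 969 7 905)
(mv 906 (cons (fin 841 7 841)
(mv 907 (cons (fin 908 0 905)
(fin 843 6 842))))))))))))))
(cons (mv 905 (cons (fin 969 7 905)
(mv 906 (cons (fin 841 7 841)
(mv 907 (cons (fin 908 0 905)
(fin 843 6 842)))))))
(cons (mv 1163 (cons (fin 1227 4 970)
(mv 906 (cons (fin 1099 4 906)
(mv 843 (cons (fin 907 6 842)
(mv 842 (cons (fin 779 6 778)
(mv 1161 (cons (fin 1225 5 969)
(mv 1100 (cons (fin 1164 2 1097)
(mv 777 (cons (fin 841 7 777)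
(mv 778 (cons (fin 713 7 713)
(mv 844 (cons (fin 845 3 777)
(mv 908 (cons (fin 780 4 780)
(fin 1036 4 844)))))))))))))))))))))
(mv 1161 (cons (fin 1225 5 969)
(mv 1099 (cons (fin 1100 1 1097)
(mv 1159 (cons (fin 1160 2 1095)
(mv 969 (cons (fin 905 7 905)
(mv 1227 (cons (fin 1163 4 970)
(mv 1226 (cons (fin 1033 7 969)
(fin 1291 4 1034)))))))))))))))))))))))
(cons (mv 971 (cons (cons (mv 905 (cons (fin 906 3 905)
(mv 969 (cons (fin 904 3 904)
(fin 1036 0 969)))))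
(mv 969 (cons (fin 1036 0 969)
(mv 968 (cons (cons (mv 903 (cons (fin 904 3 903)
(mv 902 (cons (fin 967 3 902)
(mv 907 (cons (fin 908 2 904)
(mv 1031 (cons (fin 1032 1 967)
(mv 1098 (cons (fin 1162 6 906)
(mv 843 (cons (fin 779 5 778)
(fin 906 6 842)))))))))))))
(mv 903 (cons (fin 904 3 903)
(mv 967 (cons (fin 902 3 902)
(mv 1031 (cons (fin 1030 1 966)
(fin 1032 1 967))))))))
(cons (mv 1031 (cons (fin 1032 1 967)
(mv 967 (cons (fin 1030 1 966)
(mv 907 (cons (fin 906 2 903)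
(fin 908 2 904)))))))
(cons (mv 907 (cons (fin 908 2 904)
(mv 906 (cons (fin 967 2 903)
(mv 843 (cons (fin 779 5 778)
(fin 1098 6 842)))))))
(mv 907 (cons (fin 908 2 904)
(mv 1031 (cons (fin 1032 1 967)
(mv 1098 (cons (fin 1162 6 906)
(mv 843 (cons (fin 779 5 778)
(fin 906 6 842))))))))))))))))
(cons (mv 906 (cons (fin 905 3 905)
(mv 1098 (cons (mv 907 (cons (fin 843 6 842)
(fin 1162 6 906)))
(cons (mv 1161 (cons (fin 1097 5 905)
(mv 1099 (cons (fin 1163 4 906)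
(mv 1162 (cons (fin 1100 1 1097)
(fin 1225 5 969)))))))
(mv 1097 (cons (fin 1161 5 905)
(mv 843 (cons (fin 907 6 842)
(mv 842 (cons (fin 779 6 778)
(mv 1099 (cons (fin 1163 4 906)
(mv 1036 (cons (fin 1100 2 1033)
(mv 777 (cons (fin 841 7 777)
(mv 778 (cons (fin 713 7 713)
(mv 844 (cons (fin 845 3 777)
(fin 908 4 844))))))))))))))))))))))
(cons (mv 906 (cons (fin 905 3 905)
(mv 842 (cons (cons (mv 777 (cons (fin 841 7 777)
(mv 713 (cons (fin 778 7 713)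
(mv 843 (cons (fin 779 6 778)
(mv 1098 (cons (fin 907 6 842)
(mv 1161 (cons (fin 1097 5 905)
(mv 1099 (cons (fin 1163 4 906)
(mv 1162 (cons (fin 1100 1 1097)
(fin 1225 5 969)))))))))))))))
(mv 777 (cons (fin 841 7 777)
(mv 778 (cons (fin 713 7 713)
(mv 715 (cons (fin 779 6 714)
(mv 714 (cons (fin 651 6 650)
(fin 907 4 714))))))))))
(cons (mv 777 (cons (fin 841 7 777)
(mv 778 (cons (fin 713 7 713)
(mv 907 (cons (fin 714 4 714)
(mv 1098 (cons (fin 843 6 842)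
(fin 1162 6 906)))))))))
(cons (mv 843 (cons (fin 779 6 778)
(mv 1098 (cons (fin 907 6 842)
(mv 1161 (cons (fin 1097 5 905)
(mv 1099 (cons (fin 1163 4 906)
(mv 1162 (cons (fin 1100 1 1097)
(fin 1225 5 969)))))))))))
(mv 779 (cons (fin 843 6 778)
(mv 778 (cons (fin 715 6 714)
(mv 777 (cons (fin 713 7 713)
(fin 841 7 777)))))))))))))
(mv 1036 (cons (fin 969 0 969)
(mv 908 (cons (fin 844 4 844)
(mv 1100 (cons (mv 907 (cons (fin 843 7 843)
(fin 1164 7 907)))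
(cons (mv 1164 (cons (fin 1228 6 972)
(mv 1163 (cons (fin 1099 5 907)
(fin 1227 5 971)))))
(mv 907 (cons (fin 843 7 843)
(mv 1099 (cons (fin 1163 5 907)
(mv 1098 (cons (fin 1097 2 1033)
(fin 1162 6 906))))))))))))))))))
(cons (mv 971 (cons (fin 1033 1 969)
(mv 906 (cons (fin 905 3 905)
(mv 842 (cons (cons (mv 777 (cons (fin 841 7 777)
(mv 713 (cons (fin 778 7 713)
(mv 843 (cons (fin 779 6 778)
(mv 1098 (cons (fin 907 6 842)
(mv 1161 (cons (fin 1097 5 905)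
(mv 1099 (cons (fin 1163 4 906)
(mv 1162 (cons (fin 1100 1 1097)
(fin 1225 5 969)))))))))))))))
(mv 777 (cons (fin 841 7 777)
(mv 778 (cons (fin 713 7 713)
(mv 715 (cons (fin 779 6 714)
(mv 714 (cons (fin 651 6 650)
(fin 907 4 714))))))))))
(cons (mv 777 (cons (fin 841 7 777)
(mv 778 (cons (fin 713 7 713)
(mv 907 (cons (fin 714 4 714)
(mv 1098 (cons (fin 843 6 842)
(fin 1162 6 906)))))))))
(cons (mv 843 (cons (fin 779 6 778)
(mv 1098 (cons (fin 907 6 842)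
(mv 1161 (cons (fin 1097 5 905)
(mv 1099 (cons (fin 1163 4 906)
(mv 1162 (cons (fin 1100 1 1097)
(fin 1225 5 969)))))))))))
(mv 779 (cons (fin 843 6 778)
(mv 778 (cons (fin 715 6 714)
(mv 777 (cons (fin 713 7 713)
(fin 841 7 777)))))))))))))))
(mv 971 (cons (fin 1033 1 969)
(mv 1036 (cons (fin 969 0 969)
(mv 908 (cons (fin 844 4 844)
(mv 1100 (cons (mv 907 (cons (fin 843 7 843)
(fin 1164 7 907)))
(cons (mv 1164 (cons (fin 1228 6 972)
(mv 1163 (cons (fin 1099 5 907)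
(fin 1227 5 971)))))
(mv 907 (cons (fin 843 7 843)
(mv 1099 (cons (fin 1163 5 907)
(mv 1098 (cons (fin 1097 2 1033)
(fin 1162 6 906)))))))))))))))))))))
(cons (mv 974 (cons (fin 1039 0 972)
(mv 1036 (cons (fin 976 1 972)
(mv 970 (cons (cons (mv 971 (cons (fin 1033 1 969)
(fin 969 0 969)))
(mv 1098 (cons (cons (cons (mv 906 (cons (cons (mv 841 (cons (fin 905 7 841)
(mv 777 (cons (fin 842 7 777)
(mv 1099 (cons (fin 1163 4 906)
(mv 1097 (cons (fin 1100 2 1033)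
(fin 1161 5 905)))))))))
(mv 843 (cons (fin 907 6 842)
(mv 779 (cons (fin 842 6 778)
(mv 1099 (cons (fin 1163 4 906)
(mv 1100 (cons (fin 1033 3 1033)
(mv 905 (cons (fin 841 7 841)
(mv 1162 (cons (fin 1161 1 1097)
(fin 969 7 905))))))))))))))
(cons (mv 841 (cons (fin 905 7 841)
(mv 842 (cons (fin 777 7 777)
(mv 1097 (cons (fin 1033 5 841)
(fin 1161 5 905)))))))
(cons (mv 843 (cons (fin 907 6 842)
(mv 779 (cons (fin 842 6 778)
(mv 841 (cons (fin 905 7 841)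
(mv 1099 (cons (fin 1163 4 906)
(mv 1100 (cons (fin 1033 3 1033)
(fin 1097 2 1033)))))))))))
(mv 1099 (cons (fin 1163 4 906)
(mv 1097 (cons (fin 1100 2 1033)
(fin 1161 5 905)))))))))
(mv 1162 (cons (cons (mv 905 (cons (fin 969 7 905)
(mv 1163 (cons (fin 1227 4 970)
(mv 1161 (cons (fin 1225 5 969)
(mv 1100 (cons (fin 1099 1 1097)
(fin 1164 2 1097)))))))))
(cons (mv 905 (cons (fin 969 7 905)
(mv 1227 (cons (fin 1163 4 970)
(mv 1226 (cons (fin 1291 4 1034)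
(mv 1289 (cons (fin 1225 5 1033)
(mv 1290 (cons (fin 1353 5 1097)
(mv 1033 (cons (fin 1097 7 1033)
(mv 1100 (cons (fin 1099 3 1033)
(mv 1228 (cons (fin 1229 1 1225)
(fin 1164 6 972)))))))))))))))))
(mv 1161 (cons (fin 1225 5 969)
(mv 1099 (cons (fin 1100 1 1097)
(mv 1160 (cons (fin 1159 2 1095)
(mv 969 (cons (fin 905 7 905)
(mv 1033 (cons (fin 1226 7 969)
(mv 1032 (cons (fin 1031 0 1031)
(mv 1224 (cons (fin 1097 5 968)
(fin 1096 6 968)))))))))))))))))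
(cons (mv 1163 (cons (fin 1227 4 970)
(mv 1161 (cons (fin 1225 5 969)
(mv 1100 (cons (fin 1099 1 1097)
(fin 1164 2 1097)))))))
(cons (mv 969 (cons (fin 905 7 905)
(mv 1163 (cons (fin 1227 4 970)
(mv 1033 (cons (fin 1226 7 969)
(mv 1100 (cons (fin 1099 3 1033)
(mv 1164 (cons (fin 1161 2 1097)
(fin 1228 6 972)))))))))))
(mv 905 (cons (fin 969 7 905)
(mv 1225 (cons (fin 1161 5 969)
(mv 1227 (cons (fin 1163 4 970)
(mv 1226 (cons (fin 1289 5 1033)
(fin 1291 4 1034))))))))))))))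
(cons (mv 906 (cons (mv 841 (cons (fin 905 7 841)
(mv 777 (cons (fin 842 7 777)
(mv 1099 (cons (fin 1163 4 906)
(mv 1097 (cons (fin 1100 2 1033)
(fin 1161 5 905)))))))))
(cons (mv 843 (cons (fin 907 6 842)
(mv 842 (cons (fin 779 6 778)
(mv 841 (cons (fin 777 7 777)
(fin 905 7 841)))))))
(mv 1099 (cons (fin 1163 4 906)
(mv 1097 (cons (fin 1100 2 1033)
(fin 1161 5 905))))))))
(mv 906 (cons (cons (mv 841 (cons (fin 905 7 841)
(mv 777 (cons (fin 842 7 777)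
(mv 1163 (cons (fin 1099 4 906)
(mv 843 (cons (fin 907 6 842)
(mv 1162 (cons (fin 1227 4 970)
(mv 1161 (cons (fin 1097 5 905)
(fin 1225 5 969)))))))))))))
(mv 1097 (cons (fin 1161 5 905)
(mv 842 (cons (fin 1033 5 841)
(mv 843 (cons (fin 779 6 778)
(fin 907 6 842))))))))
(cons (mv 843 (cons (fin 907 6 842)
(mv 779 (cons (fin 842 6 778)
(mv 905 (cons (fin 841 7 841)
(mv 1163 (cons (fin 1099 4 906)
(mv 1162 (cons (fin 969 7 905)
(fin 1227 4 970)))))))))))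
(cons (mv 841 (cons (fin 905 7 841)
(mv 777 (cons (fin 842 7 777)
(mv 1161 (cons (fin 1097 5 905)
(mv 1163 (cons (fin 1099 4 906)
(mv 1162 (cons (fin 1225 5 969)
(fin 1227 4 970)))))))))))
(mv 1097 (cons (fin 1161 5 905)
(mv 843 (cons (fin 907 6 842)
(mv 905 (cons (fin 841 7 841)
(mv 1163 (cons (fin 1099 4 906)
(mv 1162 (cons (fin 969 7 905)
(fin 1227 4 970)))))))))))))))))
(cons (cons (mv 1162 (cons (cons (mv 905 (cons (fin 969 7 905)
(mv 841 (cons (fin 906 7 841)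
(mv 1227 (cons (fin 1163 4 970)
(mv 1225 (cons (fin 1161 5 969)
(mv 1226 (cons (fin 1289 5 1033)
(fin 1291 4 1034)))))))))))
(mv 1227 (cons (fin 1163 4 970)
(mv 969 (cons (fin 905 7 905)
(mv 1226 (cons (fin 1033 7 969)
(fin 1291 4 1034))))))))
(cons (mv 1163 (cons (fin 1227 4 970)
(mv 1161 (cons (fin 1225 5 969)
(mv 906 (cons (fin 1097 5 905)
(mv 841 (cons (fin 905 7 841)
(mv 842 (cons (fin 777 7 777)
(mv 843 (cons (fin 779 6 778)
(fin 907 6 842)))))))))))))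
(cons (mv 1161 (cons (fin 1225 5 969)
(mv 1097 (cons (fin 906 5 905)
(mv 1163 (cons (fin 1227 4 970)
(mv 1096 (cons (fin 1164 3 1096)
(fin 1095 0 1095)))))))))
(mv 905 (cons (fin 969 7 905)
(mv 906 (cons (fin 841 7 841)
(mv 1161 (cons (fin 1097 5 905)
(fin 1225 5 969)))))))))))
(mv 1162 (cons (cons (mv 905 (cons (fin 969 7 905)
(mv 841 (cons (fin 906 7 841)
(mv 1163 (cons (fin 1227 4 970)
(mv 1161 (cons (fin 1225 5 969)
(mv 1100 (cons (fin 1099 1 1097)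
(fin 1164 2 1097)))))))))))
(cons (mv 1161 (cons (fin 1225 5 969)
(mv 1100 (cons (fin 1099 1 1097)
(mv 1228 (cons (fin 1164 6 972)
(mv 969 (cons (fin 905 7 905)
(mv 1226 (cons (fin 1033 7 969)
(mv 1227 (cons (fin 1229 3 1161)
(fin 1291 4 1034)))))))))))))
(mv 905 (cons (fin 969 7 905)
(mv 906 (cons (fin 841 7 841)
(mv 1163 (cons (fin 1099 4 906)
(fin 1227 4 970)))))))))
(cons (cons (mv 1161 (cons (fin 1225 5 969)
(mv 1099 (cons (fin 1100 1 1097)
(mv 906 (cons (fin 1163 4 906)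
(mv 905 (cons (fin 841 7 841)
(fin 969 7 905)))))))))
(mv 1163 (cons (fin 1227 4 970)
(mv 906 (cons (fin 1099 4 906)
(mv 843 (cons (fin 907 6 842)
(mv 842 (cons (fin 779 6 778)
(mv 841 (cons (fin 777 7 777)
(fin 905 7 841))))))))))))
(cons (mv 1161 (cons (fin 1225 5 969)
(mv 1099 (cons (fin 1100 1 1097)
(mv 1163 (cons (fin 906 4 906)
(fin 1227 4 970)))))))
(mv 1163 (cons (fin 1227 4 970)
(mv 969 (cons (fin 905 7 905)
(mv 1225 (cons (fin 1161 5 969)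
(mv 1226 (cons (fin 1033 7 969)
(fin 1289 5 1033))))))))))))))
(cons (mv 906 (cons (cons (mv 843 (cons (fin 907 6 842)
(mv 779 (cons (fin 842 6 778)
(mv 841 (cons (fin 905 7 841)
(mv 1099 (cons (fin 1163 4 906)
(mv 1100 (cons (fin 1033 3 1033)
(fin 1097 2 1033)))))))))))
(mv 841 (cons (fin 905 7 841)
(mv 842 (cons (fin 777 7 777)
(mv 843 (cons (fin 779 6 778)
(fin 907 6 842))))))))
(cons (mv 843 (cons (fin 907 6 842)
(mv 779 (cons (fin 842 6 778)
(mv 1099 (cons (fin 1163 4 906)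
(mv 1100 (cons (fin 1033 3 1033)
(fin 1097 2 1033)))))))))
(mv 1099 (cons (fin 1163 4 906)
(mv 1100 (cons (fin 1033 3 1033)
(fin 1097 2 1033))))))))
(cons (mv 906 (cons (cons (mv 841 (cons (fin 905 7 841)
(mv 842 (cons (fin 777 7 777)
(mv 1097 (cons (fin 1033 5 841)
(fin 1161 5 905)))))))
(mv 843 (cons (fin 907 6 842)
(mv 842 (cons (fin 779 6 778)
(mv 841 (cons (fin 777 7 777)
(fin 905 7 841))))))))
(cons (mv 1097 (cons (fin 1161 5 905)
(mv 842 (cons (fin 1033 5 841)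
(mv 843 (cons (fin 779 6 778)
(fin 907 6 842)))))))
(mv 843 (cons (fin 907 6 842)
(mv 905 (cons (fin 841 7 841)
(mv 1161 (cons (fin 1097 5 905)
(mv 1162 (cons (fin 969 7 905)
(fin 1225 5 969))))))))))))
(mv 1100 (cons (cons (mv 1099 (cons (fin 1033 3 1033)
(fin 1097 2 1033)))
(mv 1164 (cons (fin 1228 6 972)
(mv 1163 (cons (fin 1227 5 971)
(mv 1161 (cons (fin 1162 2 1097)
(mv 1102 (cons (fin 1103 1 1099)
(mv 1097 (cons (fin 906 5 905)
(mv 1225 (cons (fin 1033 6 969)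
(fin 1289 6 1033))))))))))))))
(cons (mv 1164 (cons (fin 1228 6 972)
(mv 1163 (cons (fin 1227 5 971)
(mv 1099 (cons (fin 1033 3 1033)
(fin 906 4 906)))))))
(mv 1164 (cons (fin 1228 6 972)
(mv 1163 (cons (fin 1227 5 971)
(mv 1099 (cons (fin 1097 2 1033)
(fin 906 4 906))))))))))))))))
(cons (mv 971 (cons (fin 969 0 969)
(mv 906 (cons (fin 905 3 905)
(fin 907 3 906)))))
(mv 971 (cons (fin 1033 1 969)
(mv 906 (cons (fin 905 3 905)
(fin 907 3 906))))))))))))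
(cons (mv 974 (cons (fin 1039 0 972)
(mv 907 (cons (fin 908 3 907)
(mv 906 (cons (fin 971 3 906)
(mv 970 (cons (cons (mv 843 (cons (fin 1098 6 842)
(mv 779 (cons (fin 715 5 714)
(fin 842 6 778)))))
(mv 842 (cons (cons (mv 777 (cons (fin 841 7 777)
(mv 778 (cons (fin 713 7 713)
(mv 1033 (cons (fin 969 5 777)
(fin 1097 5 841)))))))
(mv 779 (cons (fin 843 6 778)
(mv 778 (cons (fin 715 6 714)
(mv 1033 (cons (fin 969 5 777)
(fin 1097 5 841))))))))
(cons (mv 777 (cons (fin 841 7 777)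
(mv 778 (cons (fin 713 7 713)
(mv 779 (cons (fin 715 6 714)
(fin 843 6 778)))))))
(mv 843 (cons (fin 779 6 778)
(mv 1033 (cons (fin 1097 5 841)
(mv 841 (cons (fin 777 7 777)
(mv 840 (cons (fin 839 0 839)
(mv 904 (cons (fin 903 1 839)
(mv 776 (cons (fin 775 3 775)
(mv 905 (cons (fin 844 1 840)
(fin 969 7 776)))))))))))))))))))
(cons (mv 1098 (cons (cons (mv 1097 (cons (fin 1161 5 905)
(mv 842 (cons (fin 1033 5 841)
(mv 841 (cons (fin 777 7 777)
(fin 905 7 841)))))))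
(mv 1099 (cons (fin 1163 4 906)
(mv 1033 (cons (fin 1100 3 1033)
(mv 1097 (cons (fin 842 5 841)
(fin 1161 5 905))))))))
(cons (mv 841 (cons (fin 905 7 841)
(mv 842 (cons (fin 777 7 777)
(mv 1099 (cons (fin 1163 4 906)
(mv 1033 (cons (fin 1100 3 1033)
(fin 1097 5 841)))))))))
(cons (mv 1099 (cons (fin 1163 4 906)
(mv 1100 (cons (fin 1033 3 1033)
(mv 905 (cons (fin 841 7 841)
(mv 1162 (cons (fin 1161 1 1097)
(fin 969 7 905)))))))))
(mv 841 (cons (fin 905 7 841)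
(mv 777 (cons (fin 842 7 777)
(mv 1161 (cons (fin 1097 5 905)
(mv 1099 (cons (fin 1163 4 906)
(mv 1162 (cons (fin 1100 1 1097)
(fin 1225 5 969)))))))))))))))
(mv 1098 (cons (fin 843 6 842)
(mv 1097 (cons (fin 1161 5 905)
(mv 1099 (cons (fin 1163 4 906)
(mv 1033 (cons (fin 1100 3 1033)
(mv 1031 (cons (fin 1032 0 1031)
(mv 905 (cons (fin 841 7 841)
(mv 969 (cons (fin 1162 7 905)
(mv 1096 (cons (fin 1160 5 904)
(mv 1095 (cons (fin 1030 3 1030)
(fin 1094 2 1030))))))))))))))))))))))))))))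
(mv 970 (cons (cons (mv 974 (cons (fin 1039 0 972)
(mv 976 (cons (fin 1036 1 972)
(mv 912 (cons (fin 913 2 909)
(mv 1033 (cons (fin 971 1 969)
(mv 1098 (cons (cons (mv 1099 (cons (fin 1100 3 1033)
(mv 1031 (cons (fin 1032 0 1031)
(mv 906 (cons (fin 1163 4 906)
(mv 1097 (cons (fin 842 5 841)
(fin 1161 5 905)))))))))
(cons (mv 1162 (cons (mv 969 (cons (fin 905 7 905)
(fin 1226 7 969)))
(mv 1163 (cons (fin 1227 4 970)
(mv 1161 (cons (fin 1225 5 969)
(mv 1097 (cons (fin 906 5 905)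
(mv 1164 (cons (fin 1096 3 1096)
(fin 1100 2 1097)))))))))))
(mv 1162 (cons (mv 969 (cons (fin 905 7 905)
(fin 1226 7 969)))
(mv 1163 (cons (fin 1227 4 970)
(mv 906 (cons (fin 1099 4 906)
(mv 1161 (cons (fin 1097 5 905)
(fin 1225 5 969)))))))))))
(cons (mv 1099 (cons (fin 1100 3 1033)
(mv 1032 (cons (fin 1031 0 1031)
(mv 1162 (cons (mv 969 (cons (fin 905 7 905)
(fin 1226 7 969)))
(cons (mv 1163 (cons (fin 1227 4 970)
(mv 1225 (cons (fin 1161 5 969)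
(mv 1226 (cons (fin 1289 5 1033)
(mv 1290 (cons (fin 1097 7 1033)
(fin 1354 6 1098)))))))))
(mv 1161 (cons (fin 1225 5 969)
(mv 1160 (cons (fin 1159 2 1095)
(mv 969 (cons (fin 905 7 905)
(mv 1224 (cons (fin 1097 5 968)
(fin 1096 6 968))))))))))))))))
(cons (mv 1099 (cons (fin 1100 3 1033)
(mv 1031 (cons (fin 1032 0 1031)
(mv 906 (cons (fin 1163 4 906)
(mv 841 (cons (fin 905 7 841)
(mv 842 (cons (fin 777 7 777)
(mv 778 (cons (fin 969 5 777)
(mv 779 (cons (fin 715 6 714)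
(fin 843 6 778)))))))))))))))
(mv 1099 (cons (fin 1100 3 1033)
(mv 1031 (cons (fin 1032 0 1031)
(mv 1162 (cons (mv 969 (cons (fin 905 7 905)
(fin 1226 7 969)))
(cons (mv 1225 (cons (fin 1161 5 969)
(mv 1226 (cons (fin 1289 5 1033)
(mv 1290 (cons (fin 1097 7 1033)
(mv 1291 (cons (fin 1227 4 1034)
(fin 1355 4 1098)))))))))
(mv 1161 (cons (fin 1225 5 969)
(mv 906 (cons (fin 1097 5 905)
(mv 905 (cons (fin 841 7 841)
(fin 969 7 905))))))))))))))))))))))))))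
(cons (mv 974 (cons (fin 1039 0 972)
(mv 906 (cons (cons (cons (mv 976 (cons (fin 1036 1 972)
(mv 912 (cons (fin 913 2 909)
(mv 1098 (cons (cons (mv 841 (cons (fin 905 7 841)
(mv 777 (cons (fin 842 7 777)
(mv 1099 (cons (fin 1163 4 906)
(mv 1100 (cons (fin 1033 3 1033)
(mv 1161 (cons (fin 1162 1 1097)
(fin 1097 5 905)))))))))))
(cons (mv 841 (cons (fin 905 7 841)
(mv 842 (cons (fin 777 7 777)
(mv 1099 (cons (fin 1163 4 906)
(mv 1033 (cons (fin 1100 3 1033)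
(fin 1097 5 841)))))))))
(mv 1099 (cons (fin 1163 4 906)
(mv 1033 (cons (fin 1100 3 1033)
(mv 841 (cons (fin 905 7 841)
(mv 842 (cons (fin 777 7 777)
(mv 1031 (cons (fin 1032 0 1031)
(mv 778 (cons (fin 969 5 777)
(mv 779 (cons (fin 715 6 714)
(fin 843 6 778)))))))))))))))))
(cons (mv 1097 (cons (fin 1161 5 905)
(mv 842 (cons (fin 1033 5 841)
(mv 777 (cons (fin 841 7 777)
(mv 778 (cons (fin 713 7 713)
(mv 779 (cons (fin 715 6 714)
(fin 843 6 778)))))))))))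
(cons (mv 1099 (cons (fin 1163 4 906)
(mv 1033 (cons (fin 1100 3 1033)
(mv 1097 (cons (fin 842 5 841)
(fin 1161 5 905)))))))
(mv 1097 (cons (fin 1161 5 905)
(mv 905 (cons (fin 841 7 841)
(mv 1163 (cons (fin 1099 4 906)
(mv 1162 (cons (fin 969 7 905)
(fin 1227 4 970)))))))))))))))))
(mv 1098 (cons (cons (mv 841 (cons (fin 905 7 841)
(mv 777 (cons (fin 842 7 777)
(mv 1099 (cons (fin 1163 4 906)
(mv 1100 (cons (fin 1033 3 1033)
(mv 1161 (cons (fin 1162 1 1097)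
(fin 1097 5 905)))))))))))
(cons (mv 841 (cons (fin 905 7 841)
(mv 842 (cons (fin 777 7 777)
(mv 1099 (cons (fin 1163 4 906)
(mv 1033 (cons (fin 1100 3 1033)
(fin 1097 5 841)))))))))
(mv 1099 (cons (fin 1163 4 906)
(mv 1033 (cons (fin 1100 3 1033)
(mv 841 (cons (fin 905 7 841)
(mv 842 (cons (fin 777 7 777)
(mv 1031 (cons (fin 1032 0 1031)
(mv 779 (cons (fin 843 6 778)
(mv 778 (cons (fin 969 5 777)
(fin 715 6 714)))))))))))))))))
(cons (cons (mv 1097 (cons (fin 1161 5 905)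
(mv 842 (cons (fin 1033 5 841)
(mv 777 (cons (fin 841 7 777)
(mv 778 (cons (fin 713 7 713)
(mv 779 (cons (fin 715 6 714)
(fin 843 6 778)))))))))))
(mv 1099 (cons (fin 1163 4 906)
(mv 1033 (cons (fin 1100 3 1033)
(mv 1097 (cons (fin 842 5 841)
(fin 1161 5 905))))))))
(cons (mv 1097 (cons (fin 1161 5 905)
(mv 905 (cons (fin 841 7 841)
(mv 1099 (cons (fin 1163 4 906)
(mv 1033 (cons (fin 1100 3 1033)
(mv 1031 (cons (fin 1032 0 1031)
(mv 969 (cons (fin 1162 7 905)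
(mv 1096 (cons (fin 1160 5 904)
(mv 1095 (cons (fin 1030 3 1030)
(fin 1094 2 1030)))))))))))))))))
(mv 841 (cons (fin 905 7 841)
(mv 777 (cons (fin 842 7 777)
(mv 1161 (cons (fin 1097 5 905)
(mv 1099 (cons (fin 1163 4 906)
(mv 1162 (cons (fin 1100 1 1097)
(fin 1225 5 969))))))))))))))))
(cons (mv 1036 (cons (fin 976 1 972)
(mv 844 (cons (fin 908 4 844)
(mv 842 (cons (cons (mv 777 (cons (fin 841 7 777)
(mv 713 (cons (fin 778 7 713)
(mv 843 (cons (fin 779 6 778)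
(mv 1033 (cons (fin 1097 5 841)
(mv 845 (cons (fin 905 1 841)
(mv 782 (cons (fin 781 2 778)
(mv 846 (cons (fin 783 2 779)
(fin 910 5 781)))))))))))))))
(mv 1033 (cons (fin 1097 5 841)
(mv 778 (cons (fin 969 5 777)
(mv 777 (cons (fin 713 7 713)
(fin 841 7 777))))))))
(cons (mv 779 (cons (fin 843 6 778)
(mv 778 (cons (fin 715 6 714)
(mv 1033 (cons (fin 969 5 777)
(fin 1097 5 841)))))))
(cons (mv 777 (cons (fin 841 7 777)
(mv 713 (cons (fin 778 7 713)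
(mv 843 (cons (fin 779 6 778)
(mv 845 (cons (fin 905 1 841)
(mv 782 (cons (fin 781 2 778)
(mv 846 (cons (fin 783 2 779)
(fin 910 5 781)))))))))))))
(mv 843 (cons (fin 779 6 778)
(mv 1033 (cons (fin 1097 5 841)
(mv 845 (cons (fin 905 1 841)
(mv 777 (cons (fin 841 7 777)
(mv 782 (cons (fin 781 2 778)
(mv 846 (cons (fin 783 2 779)
(fin 910 5 781)))))))))))))))))))))
(mv 976 (cons (fin 1036 1 972)
(mv 912 (cons (fin 913 2 909)
(mv 1098 (cons (cons (mv 1097 (cons (fin 1161 5 905)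
(mv 905 (cons (fin 841 7 841)
(mv 1163 (cons (fin 1099 4 906)
(mv 1162 (cons (fin 969 7 905)
(fin 1227 4 970)))))))))
(cons (mv 905 (cons (fin 841 7 841)
(mv 1163 (cons (fin 1099 4 906)
(mv 1162 (cons (fin 969 7 905)
(fin 1227 4 970)))))))
(mv 905 (cons (fin 841 7 841)
(mv 1097 (cons (fin 1161 5 905)
(mv 1162 (cons (fin 969 7 905)
(mv 1227 (cons (fin 1163 4 970)
(mv 1226 (cons (fin 1291 4 1034)
(mv 1289 (cons (fin 1225 5 1033)
(mv 1290 (cons (fin 1033 7 1033)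
(fin 1353 5 1097)))))))))))))))))
(cons (mv 1099 (cons (fin 1163 4 906)
(mv 1100 (cons (fin 1033 3 1033)
(mv 1161 (cons (fin 1162 1 1097)
(fin 1097 5 905)))))))
(cons (mv 1161 (cons (fin 1097 5 905)
(mv 905 (cons (fin 841 7 841)
(mv 1162 (cons (fin 969 7 905)
(fin 1225 5 969)))))))
(mv 1097 (cons (fin 1161 5 905)
(mv 905 (cons (fin 841 7 841)
(mv 1099 (cons (fin 1163 4 906)
(mv 1033 (cons (fin 1100 3 1033)
(mv 1031 (cons (fin 1032 0 1031)
(mv 1096 (cons (mv 1095 (cons (fin 1030 3 1030)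
(fin 1094 2 1030)))
(mv 1160 (cons (fin 1159 1 1095)
(fin 969 5 904)))))))))))))))))))))))))
(cons (cons (mv 1036 (cons (fin 976 1 972)
(mv 844 (cons (fin 908 4 844)
(mv 842 (cons (cons (mv 777 (cons (fin 841 7 777)
(mv 713 (cons (fin 778 7 713)
(mv 843 (cons (fin 779 6 778)
(mv 845 (cons (fin 905 1 841)
(mv 782 (cons (fin 781 2 778)
(mv 846 (cons (fin 783 2 779)
(fin 910 5 781)))))))))))))
(cons (mv 777 (cons (fin 841 7 777)
(mv 778 (cons (fin 713 7 713)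
(mv 969 (cons (fin 1033 5 777)
(mv 714 (cons (fin 905 5 713)
(mv 715 (cons (fin 651 6 650)
(fin 779 6 714)))))))))))
(mv 779 (cons (fin 843 6 778)
(mv 778 (cons (fin 715 6 714)
(mv 969 (cons (fin 1033 5 777)
(mv 714 (cons (fin 905 5 713)
(mv 713 (cons (fin 649 7 649)
(fin 777 7 713)))))))))))))
(cons (mv 779 (cons (fin 843 6 778)
(mv 778 (cons (fin 715 6 714)
(mv 969 (cons (fin 1033 5 777)
(mv 905 (cons (fin 714 5 713)
(mv 1098 (cons (fin 841 7 841)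
(fin 1162 7 905)))))))))))
(cons (mv 841 (cons (fin 777 7 777)
(mv 905 (cons (fin 1098 7 841)
(mv 843 (cons (fin 904 1 840)
(fin 845 1 841)))))))
(mv 777 (cons (fin 841 7 777)
(mv 778 (cons (fin 713 7 713)
(mv 843 (cons (fin 845 3 777)
(fin 779 6 778)))))))))))))))
(mv 1036 (cons (fin 976 1 972)
(mv 844 (cons (fin 908 4 844)
(mv 1098 (cons (cons (mv 1097 (cons (fin 1161 5 905)
(mv 1099 (cons (fin 1100 2 1033)
(fin 1163 4 906)))))
(mv 1163 (cons (fin 1099 4 906)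
(mv 1162 (cons (fin 1227 4 970)
(mv 1225 (cons (fin 1161 5 969)
(mv 969 (cons (fin 905 7 905)
(mv 1226 (cons (fin 1033 7 969)
(fin 1289 5 1033))))))))))))
(cons (mv 1097 (cons (fin 1161 5 905)
(mv 842 (cons (fin 1033 5 841)
(mv 843 (cons (fin 779 6 778)
(mv 845 (cons (fin 905 1 841)
(mv 777 (cons (fin 778 3 777)
(mv 782 (cons (fin 781 2 778)
(mv 846 (cons (fin 783 2 779)
(fin 910 5 781)))))))))))))))
(mv 1099 (cons (fin 1163 4 906)
(mv 1100 (cons (fin 1033 3 1033)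
(fin 1097 2 1033)))))))))))))
(cons (mv 1036 (cons (fin 976 1 972)
(mv 844 (cons (fin 908 4 844)
(mv 1098 (cons (cons (mv 841 (cons (fin 905 7 841)
(mv 777 (cons (fin 842 7 777)
(mv 1099 (cons (fin 1163 4 906)
(mv 1097 (cons (fin 1100 2 1033)
(fin 1161 5 905)))))))))
(mv 1097 (cons (fin 1161 5 905)
(mv 1099 (cons (fin 1100 2 1033)
(fin 1163 4 906))))))
(cons (mv 905 (cons (fin 841 7 841)
(mv 1161 (cons (fin 1097 5 905)
(mv 1162 (cons (fin 969 7 905)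
(fin 1225 5 969)))))))
(mv 905 (cons (fin 841 7 841)
(mv 1163 (cons (fin 1099 4 906)
(mv 1162 (cons (fin 969 7 905)
(fin 1227 4 970))))))))))))))
(cons (mv 1036 (cons (fin 976 1 972)
(mv 844 (cons (fin 908 4 844)
(mv 842 (cons (cons (mv 777 (cons (fin 841 7 777)
(mv 713 (cons (fin 778 7 713)
(mv 779 (cons (fin 843 6 778)
(mv 1097 (cons (fin 1033 5 841)
(mv 1098 (cons (fin 1161 5 905)
(mv 1099 (cons (fin 1100 2 1033)
(fin 1163 4 906)))))))))))))
(mv 777 (cons (fin 841 7 777)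
(mv 778 (cons (fin 713 7 713)
(mv 843 (cons (fin 845 3 777)
(fin 779 6 778))))))))
(cons (mv 779 (cons (fin 843 6 778)
(mv 715 (cons (fin 778 6 714)
(mv 1097 (cons (fin 1033 5 841)
(mv 1098 (cons (fin 1161 5 905)
(mv 1099 (cons (fin 1100 2 1033)
(fin 1163 4 906)))))))))))
(cons (mv 1033 (cons (fin 1097 5 841)
(mv 778 (cons (fin 969 5 777)
(mv 777 (cons (fin 713 7 713)
(fin 841 7 777)))))))
(mv 777 (cons (fin 841 7 777)
(mv 779 (cons (fin 843 6 778)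
(mv 1097 (cons (fin 1033 5 841)
(mv 1098 (cons (fin 1161 5 905)
(mv 1099 (cons (fin 1100 2 1033)
(fin 1163 4 906)))))))))))))))))))
(mv 1036 (cons (fin 976 1 972)
(mv 844 (cons (fin 908 4 844)
(mv 842 (cons (cons (mv 777 (cons (fin 841 7 777)
(mv 713 (cons (fin 778 7 713)
(mv 779 (cons (fin 843 6 778)
(mv 1097 (cons (fin 1033 5 841)
(mv 1098 (cons (fin 1161 5 905)
(mv 1099 (cons (fin 1100 2 1033)
(fin 1163 4 906)))))))))))))
(mv 1033 (cons (fin 1097 5 841)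
(mv 841 (cons (fin 777 7 777)
(mv 1098 (cons (fin 905 7 841)
(mv 1099 (cons (fin 1100 3 1033)
(fin 1163 4 906))))))))))
(cons (mv 779 (cons (fin 843 6 778)
(mv 715 (cons (fin 778 6 714)
(mv 1097 (cons (fin 1033 5 841)
(mv 1098 (cons (fin 1161 5 905)
(mv 1099 (cons (fin 1100 2 1033)
(fin 1163 4 906)))))))))))
(mv 777 (cons (fin 841 7 777)
(mv 713 (cons (fin 778 7 713)
(mv 843 (cons (fin 779 6 778)
(mv 845 (cons (fin 905 1 841)
(mv 782 (cons (fin 781 2 778)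
(mv 846 (cons (fin 783 2 779)
(fin 910 5 781)))))))))))))))))))))))))))
(mv 971 (cons (fin 1033 1 969)
(mv 905 (cons (fin 906 3 905)
(mv 969 (cons (fin 904 3 904)
(fin 1036 0 969)))))))))
(cons (cons (mv 1098 (cons (cons (mv 974 (cons (fin 1039 0 972)
(mv 1036 (cons (fin 976 1 972)
(mv 969 (cons (fin 971 0 969)
(mv 844 (cons (fin 908 4 844)
(mv 905 (cons (fin 1162 7 905)
(mv 841 (cons (fin 906 7 841)
(fin 777 4 777)))))))))))))
(cons (mv 906 (cons (mv 905 (cons (fin 971 3 905)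
(fin 841 7 841)))
(mv 1099 (cons (fin 1163 4 906)
(mv 1161 (cons (fin 1097 5 905)
(mv 1162 (cons (fin 1100 1 1097)
(fin 1225 5 969)))))))))
(mv 974 (cons (fin 1039 0 972)
(mv 1036 (cons (fin 976 1 972)
(mv 969 (cons (fin 971 0 969)
(mv 844 (cons (fin 908 4 844)
(mv 1162 (cons (fin 905 7 905)
(mv 1161 (cons (fin 1225 5 969)
(mv 1100 (cons (fin 1099 1 1097)
(mv 1163 (cons (fin 1164 2 1097)
(fin 1227 4 970)))))))))))))))))))
(cons (mv 974 (cons (fin 1039 0 972)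
(mv 1036 (cons (fin 976 1 972)
(mv 971 (cons (fin 969 0 969)
(mv 844 (cons (fin 908 4 844)
(mv 906 (cons (fin 905 3 905)
(mv 1099 (cons (fin 1163 4 906)
(mv 1097 (cons (fin 1100 2 1033)
(fin 1161 5 905)))))))))))))))
(cons (mv 974 (cons (fin 1039 0 972)
(mv 1036 (cons (fin 976 1 972)
(mv 969 (cons (fin 971 0 969)
(mv 844 (cons (fin 908 4 844)
(mv 1099 (cons (cons (mv 1097 (cons (fin 1100 2 1033)
(mv 906 (cons (fin 1161 5 905)
(fin 1163 4 906)))))
(mv 1163 (cons (fin 906 4 906)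
(mv 1227 (cons (fin 1291 7 1034)
(fin 1162 4 970))))))
(cons (mv 1097 (cons (fin 1100 2 1033)
(mv 1161 (cons (fin 906 5 905)
(mv 1225 (cons (fin 1162 5 969)
(fin 1289 6 1033)))))))
(mv 1100 (cons (fin 1097 2 1033)
(mv 1162 (cons (fin 1161 1 1097)
(mv 1163 (cons (fin 1102 1 1098)
(fin 1227 4 970))))))))))))))))))
(mv 974 (cons (fin 1039 0 972)
(mv 976 (cons (fin 1036 1 972)
(mv 912 (cons (fin 913 2 909)
(mv 1162 (cons (cons (mv 905 (cons (fin 969 7 905)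
(mv 841 (cons (fin 906 7 841)
(mv 1163 (cons (fin 1227 4 970)
(mv 1161 (cons (fin 1225 5 969)
(mv 1100 (cons (fin 1099 1 1097)
(fin 1164 2 1097)))))))))))
(mv 905 (cons (fin 969 7 905)
(mv 906 (cons (fin 841 7 841)
(mv 1163 (cons (fin 1099 4 906)
(fin 1227 4 970))))))))
(cons (mv 1161 (cons (fin 1225 5 969)
(mv 906 (cons (fin 1097 5 905)
(mv 905 (cons (fin 841 7 841)
(fin 969 7 905)))))))
(cons (mv 1163 (cons (fin 1227 4 970)
(mv 906 (cons (fin 1099 4 906)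
(mv 1161 (cons (fin 1097 5 905)
(fin 1225 5 969)))))))
(mv 1161 (cons (fin 1225 5 969)
(mv 1100 (cons (fin 1099 1 1097)
(mv 1163 (cons (fin 1164 2 1097)
(fin 1227 4 970)))))))))))))))))))))
(mv 974 (cons (fin 1039 0 972)
(mv 1033 (cons (fin 971 1 969)
(mv 1097 (cons (cons (mv 906 (cons (fin 842 5 841)
(mv 1161 (cons (fin 1098 5 905)
(fin 969 6 905)))))
(mv 906 (cons (fin 842 5 841)
(mv 1098 (cons (mv 1099 (cons (fin 1100 3 1033)
(fin 1163 4 906)))
(cons (mv 905 (cons (fin 841 7 841)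
(mv 1162 (cons (fin 969 7 905)
(mv 1226 (cons (fin 1290 7 1033)
(mv 1227 (cons (fin 1163 4 970)
(fin 1291 4 1034)))))))))
(mv 905 (cons (fin 841 7 841)
(mv 1099 (cons (fin 1100 3 1033)
(mv 1031 (cons (fin 1032 0 1031)
(mv 969 (cons (fin 1162 7 905)
(mv 1096 (cons (fin 1160 5 904)
(mv 1095 (cons (fin 1030 3 1030)
(fin 1094 2 1030)))))))))))))))))))
(cons (mv 1161 (cons (fin 1225 6 969)
(mv 969 (cons (cons (mv 904 (cons (fin 968 7 904)
(mv 905 (cons (fin 840 7 840)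
(mv 1162 (cons (fin 1098 7 905)
(fin 1226 4 969)))))))
(mv 904 (cons (fin 968 7 904)
(mv 905 (cons (fin 840 7 840)
(mv 1160 (cons (fin 1096 5 904)
(fin 1224 5 968))))))))
(cons (mv 1160 (cons (fin 1224 5 968)
(mv 905 (cons (fin 1096 5 904)
(mv 1162 (cons (fin 1098 7 905)
(fin 1226 4 969)))))))
(mv 1162 (cons (fin 1226 4 969)
(mv 968 (cons (fin 904 7 904)
(mv 1160 (cons (fin 1224 5 968)
(mv 967 (cons (fin 966 0 966)
(mv 1031 (cons (fin 1030 1 966)
(mv 903 (cons (fin 902 3 902)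
(mv 1096 (cons (fin 1032 7 903)
(fin 1095 4 903))))))))))))))))))))
(cons (mv 1161 (cons (fin 1225 6 969)
(mv 906 (cons (fin 842 5 841)
(fin 969 6 905)))))
(mv 906 (cons (fin 842 5 841)
(mv 1161 (cons (fin 1098 5 905)
(fin 1225 6 969))))))))))))))
(cons (mv 971 (cons (fin 1033 1 969)
(mv 974 (cons (fin 1039 0 972)
(mv 1036 (cons (fin 976 1 972)
(fin 969 0 969)))))))
(mv 974 (cons (fin 1039 0 972)
(mv 1036 (cons (fin 976 1 972)
(mv 844 (cons (fin 908 4 844)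
(mv 906 (cons (cons (mv 971 (cons (fin 905 3 905)
(fin 1033 1 969)))
(mv 842 (cons (cons (mv 777 (cons (fin 841 7 777)
(mv 713 (cons (fin 778 7 713)
(mv 779 (cons (fin 843 6 778)
(mv 1097 (cons (fin 1033 5 841)
(mv 1098 (cons (fin 1161 5 905)
(mv 1099 (cons (fin 1100 2 1033)
(fin 1163 4 906)))))))))))))
(mv 1033 (cons (fin 1097 5 841)
(mv 841 (cons (fin 777 7 777)
(mv 1098 (cons (fin 905 7 841)
(mv 1099 (cons (fin 1100 3 1033)
(fin 1163 4 906))))))))))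
(cons (mv 779 (cons (fin 843 6 778)
(mv 715 (cons (fin 778 6 714)
(mv 1097 (cons (fin 1033 5 841)
(mv 1098 (cons (fin 1161 5 905)
(mv 1099 (cons (fin 1100 2 1033)
(fin 1163 4 906)))))))))))
(mv 777 (cons (fin 841 7 777)
(mv 713 (cons (fin 778 7 713)
(mv 843 (cons (fin 779 6 778)
(mv 845 (cons (fin 905 1 841)
(mv 782 (cons (fin 781 2 778)
(mv 846 (cons (fin 783 2 779)
(fin 910 5 781)))))))))))))))))
(cons (mv 1033 (cons (fin 971 1 969)
(mv 842 (cons (fin 1097 5 841)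
(mv 779 (cons (fin 843 6 778)
(mv 778 (cons (fin 715 6 714)
(mv 777 (cons (fin 713 7 713)
(fin 841 7 777)))))))))))
(mv 905 (cons (fin 971 3 905)
(mv 841 (cons (fin 1098 7 841)
(mv 777 (cons (fin 842 7 777)
(fin 713 4 713)))))))))))))))))))))))))
(cons (mv 972 (cons (cons (mv 974 (cons (fin 1039 0 972)
(mv 907 (cons (fin 908 3 907)
(mv 971 (cons (fin 906 3 906)
(mv 1036 (cons (fin 976 1 972)
(mv 970 (cons (fin 1033 1 969)
(fin 969 0 969)))))))))))
(mv 970 (cons (cons (mv 971 (cons (fin 1033 1 969)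
(mv 905 (cons (fin 906 3 905)
(mv 969 (cons (fin 904 3 904)
(fin 1036 0 969)))))))
(mv 1098 (cons (cons (cons (mv 906 (cons (cons (mv 841 (cons (fin 905 7 841)
(mv 777 (cons (fin 842 7 777)
(mv 1099 (cons (fin 1163 4 906)
(mv 1100 (cons (fin 1033 3 1033)
(mv 1161 (cons (fin 1162 1 1097)
(fin 1097 5 905)))))))))))
(mv 843 (cons (fin 907 6 842)
(mv 779 (cons (fin 842 6 778)
(mv 1099 (cons (fin 1163 4 906)
(mv 1100 (cons (fin 1033 3 1033)
(mv 1161 (cons (fin 1162 1 1097)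
(fin 1097 5 905))))))))))))
(cons (mv 841 (cons (fin 905 7 841)
(mv 842 (cons (fin 777 7 777)
(mv 843 (cons (fin 779 6 778)
(fin 907 6 842)))))))
(mv 843 (cons (fin 907 6 842)
(mv 1097 (cons (fin 1161 5 905)
(mv 841 (cons (fin 905 7 841)
(mv 1099 (cons (fin 1163 4 906)
(mv 1100 (cons (fin 1033 3 1033)
(fin 1036 2 1033))))))))))))))
(mv 1162 (cons (cons (mv 905 (cons (fin 969 7 905)
(mv 1163 (cons (fin 1227 4 970)
(mv 1161 (cons (fin 1225 5 969)
(mv 1100 (cons (fin 1099 1 1097)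
(fin 1164 2 1097)))))))))
(cons (mv 905 (cons (fin 969 7 905)
(mv 1227 (cons (fin 1163 4 970)
(mv 1226 (cons (fin 1291 4 1034)
(mv 1289 (cons (fin 1225 5 1033)
(mv 1290 (cons (fin 1353 5 1097)
(mv 1033 (cons (fin 1097 7 1033)
(mv 1100 (cons (fin 1099 3 1033)
(mv 1228 (cons (fin 1229 1 1225)
(mv 1164 (cons (fin 1036 6 972)
(fin 1292 6 1036)))))))))))))))))))
(mv 1163 (cons (fin 1227 4 970)
(mv 1161 (cons (fin 1225 5 969)
(mv 1100 (cons (fin 1099 1 1097)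
(fin 1164 2 1097)))))))))
(cons (cons (mv 969 (cons (fin 905 7 905)
(mv 1163 (cons (fin 1227 4 970)
(mv 1033 (cons (fin 1226 7 969)
(mv 1100 (cons (fin 1099 3 1033)
(mv 1164 (cons (fin 1161 2 1097)
(mv 1228 (cons (fin 1036 6 972)
(fin 1292 6 1036)))))))))))))
(mv 905 (cons (fin 969 7 905)
(mv 1161 (cons (fin 1225 5 969)
(mv 1100 (cons (fin 1099 1 1097)
(mv 1164 (cons (fin 1163 2 1097)
(mv 1228 (cons (fin 1036 6 972)
(fin 1292 6 1036))))))))))))
(cons (mv 1161 (cons (fin 1225 5 969)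
(mv 1099 (cons (fin 1100 1 1097)
(mv 1159 (cons (fin 1160 2 1095)
(mv 969 (cons (fin 905 7 905)
(mv 1226 (cons (fin 1033 7 969)
(mv 1291 (cons (fin 1227 4 1034)
(mv 1290 (cons (fin 1355 4 1098)
(mv 1353 (cons (fin 1289 5 1097)
(mv 1354 (cons (fin 1097 7 1097)
(fin 1417 5 1161)))))))))))))))))))
(mv 905 (cons (fin 969 7 905)
(mv 1227 (cons (fin 1163 4 970)
(mv 1225 (cons (fin 1161 5 969)
(mv 1226 (cons (fin 1289 5 1033)
(fin 1291 4 1034))))))))))))))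
(cons (mv 906 (cons (cons (mv 841 (cons (fin 905 7 841)
(mv 777 (cons (fin 842 7 777)
(mv 1099 (cons (fin 1163 4 906)
(mv 1100 (cons (fin 1033 3 1033)
(mv 1097 (cons (fin 1036 2 1033)
(fin 1161 5 905)))))))))))
(mv 841 (cons (fin 905 7 841)
(mv 842 (cons (fin 777 7 777)
(mv 843 (cons (fin 779 6 778)
(fin 907 6 842))))))))
(cons (mv 1099 (cons (fin 1163 4 906)
(mv 1033 (cons (fin 1100 3 1033)
(mv 1097 (cons (fin 842 5 841)
(fin 1161 5 905)))))))
(mv 1097 (cons (fin 1161 5 905)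
(mv 841 (cons (fin 905 7 841)
(mv 1099 (cons (fin 1163 4 906)
(mv 1100 (cons (fin 1033 3 1033)
(fin 1036 2 1033))))))))))))
(mv 906 (cons (cons (mv 841 (cons (fin 905 7 841)
(mv 842 (cons (fin 777 7 777)
(mv 1097 (cons (fin 1033 5 841)
(fin 1161 5 905)))))))
(mv 843 (cons (fin 907 6 842)
(mv 842 (cons (fin 779 6 778)
(mv 1097 (cons (fin 1033 5 841)
(fin 1161 5 905))))))))
(cons (mv 841 (cons (fin 905 7 841)
(mv 842 (cons (fin 777 7 777)
(mv 843 (cons (fin 779 6 778)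
(fin 907 6 842)))))))
(mv 843 (cons (fin 907 6 842)
(mv 1097 (cons (fin 1161 5 905)
(mv 905 (cons (fin 841 7 841)
(mv 1162 (cons (fin 969 7 905)
(mv 1227 (cons (fin 1163 4 970)
(mv 1226 (cons (fin 1291 4 1034)
(mv 1289 (cons (fin 1225 5 1033)
(mv 1290 (cons (fin 1033 7 1033)
(fin 1353 5 1097))))))))))))))))))))))
(cons (cons (mv 906 (cons (cons (mv 841 (cons (fin 905 7 841)
(mv 842 (cons (fin 777 7 777)
(mv 843 (cons (fin 779 6 778)
(fin 907 6 842)))))))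
(mv 1099 (cons (fin 1163 4 906)
(mv 1033 (cons (fin 1100 3 1033)
(mv 843 (cons (fin 907 6 842)
(mv 842 (cons (fin 1097 5 841)
(fin 779 6 778))))))))))
(cons (mv 841 (cons (fin 905 7 841)
(mv 842 (cons (fin 777 7 777)
(mv 1099 (cons (fin 1163 4 906)
(mv 1033 (cons (fin 1100 3 1033)
(fin 1097 5 841)))))))))
(mv 1099 (cons (fin 1163 4 906)
(mv 1033 (cons (fin 1100 3 1033)
(mv 907 (cons (fin 843 6 842)
(mv 905 (cons (fin 908 0 905)
(fin 841 7 841))))))))))))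
(mv 906 (cons (cons (mv 843 (cons (fin 907 6 842)
(mv 779 (cons (fin 842 6 778)
(mv 1099 (cons (fin 1163 4 906)
(mv 1100 (cons (fin 1033 3 1033)
(mv 1161 (cons (fin 1162 1 1097)
(fin 1097 5 905)))))))))))
(cons (mv 1099 (cons (fin 1163 4 906)
(mv 1033 (cons (fin 1100 3 1033)
(mv 843 (cons (fin 907 6 842)
(mv 842 (cons (fin 779 6 778)
(mv 1031 (cons (fin 1032 0 1031)
(mv 777 (cons (fin 841 7 777)
(mv 778 (cons (fin 713 7 713)
(fin 969 5 777)))))))))))))))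
(mv 843 (cons (fin 907 6 842)
(mv 842 (cons (fin 779 6 778)
(mv 1097 (cons (fin 1033 5 841)
(fin 1161 5 905)))))))))
(cons (mv 1099 (cons (fin 1163 4 906)
(mv 1033 (cons (fin 1100 3 1033)
(mv 1097 (cons (fin 842 5 841)
(fin 1161 5 905)))))))
(cons (mv 1097 (cons (fin 1161 5 905)
(mv 843 (cons (fin 907 6 842)
(mv 1099 (cons (fin 1163 4 906)
(mv 1100 (cons (fin 1033 3 1033)
(fin 1036 2 1033)))))))))
(mv 1099 (cons (fin 1163 4 906)
(mv 1097 (cons (fin 1161 5 905)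
(mv 1036 (cons (fin 1100 2 1033)
(mv 843 (cons (fin 907 6 842)
(mv 842 (cons (fin 779 6 778)
(mv 844 (cons (fin 908 4 844)
(mv 777 (cons (fin 841 7 777)
(mv 778 (cons (fin 845 3 777)
(fin 713 7 713))))))))))))))))))))))
(cons (mv 906 (cons (cons (mv 841 (cons (fin 905 7 841)
(mv 842 (cons (fin 777 7 777)
(mv 1097 (cons (fin 1033 5 841)
(fin 1161 5 905)))))))
(mv 843 (cons (fin 907 6 842)
(mv 842 (cons (fin 779 6 778)
(mv 1097 (cons (fin 1033 5 841)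
(fin 1161 5 905))))))))
(cons (mv 841 (cons (fin 905 7 841)
(mv 842 (cons (fin 777 7 777)
(mv 843 (cons (fin 779 6 778)
(fin 907 6 842)))))))
(mv 843 (cons (fin 907 6 842)
(mv 1161 (cons (fin 1097 5 905)
(mv 905 (cons (fin 841 7 841)
(mv 1162 (cons (fin 969 7 905)
(fin 1225 5 969))))))))))))
(cons (mv 906 (cons (cons (mv 841 (cons (fin 905 7 841)
(mv 777 (cons (fin 842 7 777)
(mv 1099 (cons (fin 1163 4 906)
(mv 843 (cons (fin 907 6 842)
(mv 1161 (cons (fin 1097 5 905)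
(mv 1162 (cons (fin 1100 1 1097)
(fin 1225 5 969)))))))))))))
(cons (mv 1099 (cons (fin 1163 4 906)
(mv 1097 (cons (fin 1161 5 905)
(mv 1036 (cons (fin 1100 2 1033)
(mv 843 (cons (fin 907 6 842)
(mv 842 (cons (fin 779 6 778)
(mv 844 (cons (fin 908 4 844)
(mv 777 (cons (fin 841 7 777)
(mv 778 (cons (fin 845 3 777)
(fin 713 7 713)))))))))))))))))
(mv 1097 (cons (fin 1161 5 905)
(mv 1163 (cons (fin 1099 4 906)
(mv 905 (cons (fin 841 7 841)
(mv 1162 (cons (fin 969 7 905)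
(fin 1227 4 970)))))))))))
(cons (mv 1099 (cons (fin 1163 4 906)
(mv 843 (cons (fin 907 6 842)
(mv 842 (cons (fin 779 6 778)
(mv 841 (cons (fin 777 7 777)
(fin 905 7 841)))))))))
(cons (mv 1097 (cons (fin 1161 5 905)
(mv 1099 (cons (fin 1163 4 906)
(mv 1036 (cons (fin 1100 2 1033)
(mv 907 (cons (fin 843 6 842)
(mv 908 (cons (fin 905 0 905)
(fin 844 4 844)))))))))))
(mv 843 (cons (fin 907 6 842)
(mv 779 (cons (fin 842 6 778)
(mv 1161 (cons (fin 1097 5 905)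
(mv 905 (cons (fin 841 7 841)
(mv 1162 (cons (fin 969 7 905)
(fin 1225 5 969)))))))))))))))
(mv 1162 (cons (cons (mv 905 (cons (fin 969 7 905)
(mv 841 (cons (fin 906 7 841)
(mv 1163 (cons (fin 1227 4 970)
(mv 1161 (cons (fin 1225 5 969)
(mv 1100 (cons (fin 1099 1 1097)
(fin 1164 2 1097)))))))))))
(mv 1161 (cons (fin 1225 5 969)
(mv 1099 (cons (fin 1100 1 1097)
(mv 1159 (cons (fin 1160 2 1095)
(mv 905 (cons (fin 969 7 905)
(mv 906 (cons (fin 841 7 841)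
(mv 907 (cons (fin 908 0 905)
(fin 843 6 842))))))))))))))
(cons (mv 905 (cons (fin 969 7 905)
(mv 906 (cons (fin 841 7 841)
(mv 907 (cons (fin 908 0 905)
(fin 843 6 842)))))))
(cons (mv 1163 (cons (fin 1227 4 970)
(mv 906 (cons (fin 1099 4 906)
(mv 843 (cons (fin 907 6 842)
(mv 842 (cons (fin 779 6 778)
(mv 1161 (cons (fin 1225 5 969)
(mv 1100 (cons (fin 1164 2 1097)
(mv 777 (cons (fin 841 7 777)
(mv 778 (cons (fin 713 7 713)
(mv 844 (cons (fin 845 3 777)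
(mv 908 (cons (fin 780 4 780)
(fin 1036 4 844)))))))))))))))))))))
(mv 1161 (cons (fin 1225 5 969)
(mv 1099 (cons (fin 1100 1 1097)
(mv 1159 (cons (fin 1160 2 1095)
(mv 969 (cons (fin 905 7 905)
(mv 1227 (cons (fin 1163 4 970)
(mv 1226 (cons (fin 1033 7 969)
(fin 1291 4 1034)))))))))))))))))))))))
(cons (mv 971 (cons (cons (mv 905 (cons (fin 906 3 905)
(mv 969 (cons (fin 904 3 904)
(fin 1036 0 969)))))
(mv 969 (cons (fin 1036 0 969)
(mv 968 (cons (cons (mv 903 (cons (fin 904 3 903)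
(mv 902 (cons (fin 967 3 902)
(mv 907 (cons (fin 908 2 904)
(mv 1031 (cons (fin 1032 1 967)
(mv 1098 (cons (fin 1162 6 906)
(mv 843 (cons (fin 779 5 778)
(fin 906 6 842)))))))))))))
(mv 903 (cons (fin 904 3 903)
(mv 967 (cons (fin 902 3 902)
(mv 1031 (cons (fin 1030 1 966)
(fin 1032 1 967))))))))
(cons (mv 1031 (cons (fin 1032 1 967)
(mv 967 (cons (fin 1030 1 966)
(mv 907 (cons (fin 906 2 903)
(fin 908 2 904)))))))
(cons (mv 907 (cons (fin 908 2 904)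
(mv 906 (cons (fin 967 2 903)
(mv 843 (cons (fin 779 5 778)
(fin 1098 6 842)))))))
(mv 907 (cons (fin 908 2 904)
(mv 1031 (cons (fin 1032 1 967)
(mv 1098 (cons (fin 1162 6 906)
(mv 843 (cons (fin 779 5 778)
(fin 906 6 842))))))))))))))))
(cons (mv 906 (cons (fin 905 3 905)
(mv 1098 (cons (mv 907 (cons (fin 843 6 842)
(fin 1162 6 906)))
(cons (mv 1161 (cons (fin 1097 5 905)
(mv 1099 (cons (fin 1163 4 906)
(mv 1162 (cons (fin 1100 1 1097)
(fin 1225 5 969)))))))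
(mv 1097 (cons (fin 1161 5 905)
(mv 843 (cons (fin 907 6 842)
(mv 842 (cons (fin 779 6 778)
(mv 1099 (cons (fin 1163 4 906)
(mv 1036 (cons (fin 1100 2 1033)
(mv 777 (cons (fin 841 7 777)
(mv 778 (cons (fin 713 7 713)
(mv 844 (cons (fin 845 3 777)
(fin 908 4 844))))))))))))))))))))))
(cons (mv 906 (cons (fin 905 3 905)
(mv 842 (cons (cons (mv 777 (cons (fin 841 7 777)
(mv 713 (cons (fin 778 7 713)
(mv 843 (cons (fin 779 6 778)
(mv 1098 (cons (fin 907 6 842)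
(mv 1161 (cons (fin 1097 5 905)
(mv 1099 (cons (fin 1163 4 906)
(mv 1162 (cons (fin 1100 1 1097)
(fin 1225 5 969)))))))))))))))
(mv 777 (cons (fin 841 7 777)
(mv 778 (cons (fin 713 7 713)
(mv 715 (cons (fin 779 6 714)
(mv 714 (cons (fin 651 6 650)
(fin 907 4 714))))))))))
(cons (mv 777 (cons (fin 841 7 777)
(mv 778 (cons (fin 713 7 713)
(mv 907 (cons (fin 714 4 714)
(mv 1098 (cons (fin 843 6 842)
(fin 1162 6 906)))))))))
(cons (mv 843 (cons (fin 779 6 778)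
(mv 1098 (cons (fin 907 6 842)
(mv 1161 (cons (fin 1097 5 905)
(mv 1099 (cons (fin 1163 4 906)
(mv 1162 (cons (fin 1100 1 1097)
(fin 1225 5 969)))))))))))
(mv 779 (cons (fin 843 6 778)
(mv 778 (cons (fin 715 6 714)
(mv 777 (cons (fin 713 7 713)
(fin 841 7 777)))))))))))))
(mv 1036 (cons (fin 969 0 969)
(mv 908 (cons (fin 844 4 844)
(mv 1100 (cons (mv 907 (cons (fin 843 7 843)
(fin 1164 7 907)))
(cons (mv 1164 (cons (fin 1228 6 972)
(mv 1163 (cons (fin 1099 5 907)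
(fin 1227 5 971)))))
(mv 907 (cons (fin 843 7 843)
(mv 1099 (cons (fin 1163 5 907)
(mv 1098 (cons (fin 1097 2 1033)
(fin 1162 6 906))))))))))))))))))
(cons (mv 971 (cons (fin 1033 1 969)
(mv 906 (cons (fin 905 3 905)
(mv 842 (cons (cons (mv 777 (cons (fin 841 7 777)
(mv 713 (cons (fin 778 7 713)
(mv 843 (cons (fin 779 6 778)
(mv 1098 (cons (fin 907 6 842)
(mv 1161 (cons (fin 1097 5 905)
(mv 1099 (cons (fin 1163 4 906)
(mv 1162 (cons (fin 1100 1 1097)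
(fin 1225 5 969)))))))))))))))
(mv 777 (cons (fin 841 7 777)
(mv 778 (cons (fin 713 7 713)
(mv 715 (cons (fin 779 6 714)
(mv 714 (cons (fin 651 6 650)
(fin 907 4 714))))))))))
(cons (mv 777 (cons (fin 841 7 777)
(mv 778 (cons (fin 713 7 713)
(mv 907 (cons (fin 714 4 714)
(mv 1098 (cons (fin 843 6 842)
(fin 1162 6 906)))))))))
(cons (mv 843 (cons (fin 779 6 778)
(mv 1098 (cons (fin 907 6 842)
(mv 1161 (cons (fin 1097 5 905)
(mv 1099 (cons (fin 1163 4 906)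
(mv 1162 (cons (fin 1100 1 1097)
(fin 1225 5 969)))))))))))
(mv 779 (cons (fin 843 6 778)
(mv 778 (cons (fin 715 6 714)
(mv 777 (cons (fin 713 7 713)
(fin 841 7 777)))))))))))))))
(mv 971 (cons (fin 1033 1 969)
(mv 1036 (cons (fin 969 0 969)
(mv 908 (cons (fin 844 4 844)
(mv 1100 (cons (mv 907 (cons (fin 843 7 843)
(fin 1164 7 907)))
(cons (mv 1164 (cons (fin 1228 6 972)
(mv 1163 (cons (fin 1099 5 907)
(fin 1227 5 971)))))
(mv 907 (cons (fin 843 7 843)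
(mv 1099 (cons (fin 1163 5 907)
(mv 1098 (cons (fin 1097 2 1033)
(fin 1162 6 906)))))))))))))))))))))
(cons (mv 1039 (cons (fin 974 0 972)
(mv 1103 (cons (cons (mv 1102 (cons (fin 1100 2 1036)
(mv 1036 (cons (fin 1104 3 1036)
(mv 911 (cons (fin 1166 5 910)
(mv 846 (cons (fin 910 7 846)
(mv 847 (cons (fin 782 7 782)
(mv 784 (cons (fin 848 6 783)
(mv 783 (cons (fin 720 6 719)
(fin 976 4 783)))))))))))))))
(mv 911 (cons (mv 1104 (cons (fin 847 4 847)
(fin 1168 4 911)))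
(cons (mv 846 (cons (fin 910 7 846)
(mv 847 (cons (fin 782 7 782)
(mv 784 (cons (fin 848 6 783)
(mv 783 (cons (fin 720 6 719)
(fin 976 4 783)))))))))
(mv 846 (cons (fin 910 7 846)
(mv 1168 (cons (fin 1104 4 911)
(mv 1167 (cons (fin 1232 4 975)
(mv 1231 (cons (fin 976 6 975)
(mv 1230 (cons (fin 1166 5 974)
(fin 1294 5 1038)))))))))))))))
(cons (mv 1102 (cons (fin 1100 2 1036)
(mv 911 (cons (fin 1166 5 910)
(mv 846 (cons (fin 910 7 846)
(mv 847 (cons (fin 782 7 782)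
(mv 784 (cons (fin 848 6 783)
(mv 783 (cons (fin 720 6 719)
(fin 976 4 783)))))))))))))
(mv 1102 (cons (fin 1100 2 1036)
(mv 1104 (cons (fin 1036 3 1036)
(mv 1168 (cons (fin 1169 0 1101)
(fin 1232 7 975))))))))))))
(mv 974 (cons (fin 1039 0 972)
(mv 907 (cons (fin 908 3 907)
(mv 906 (cons (fin 971 3 906)
(mv 970 (cons (cons (mv 843 (cons (fin 1098 6 842)
(mv 779 (cons (fin 715 5 714)
(fin 842 6 778)))))
(mv 842 (cons (cons (mv 777 (cons (fin 841 7 777)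
(mv 778 (cons (fin 713 7 713)
(mv 1033 (cons (fin 969 5 777)
(fin 1097 5 841)))))))
(mv 779 (cons (fin 843 6 778)
(mv 778 (cons (fin 715 6 714)
(mv 1033 (cons (fin 969 5 777)
(fin 1097 5 841))))))))
(cons (mv 777 (cons (fin 841 7 777)
(mv 778 (cons (fin 713 7 713)
(mv 779 (cons (fin 715 6 714)
(fin 843 6 778)))))))
(mv 843 (cons (fin 779 6 778)
(mv 1033 (cons (fin 1097 5 841)
(mv 841 (cons (fin 777 7 777)
(mv 840 (cons (fin 839 0 839)
(mv 904 (cons (fin 903 1 839)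
(mv 776 (cons (fin 775 3 775)
(mv 905 (cons (fin 844 1 840)
(fin 969 7 776)))))))))))))))))))
(cons (mv 1098 (cons (cons (mv 1097 (cons (fin 1161 5 905)
(mv 842 (cons (fin 1033 5 841)
(mv 841 (cons (fin 777 7 777)
(fin 905 7 841)))))))
(mv 1097 (cons (fin 1161 5 905)
(mv 1033 (cons (fin 842 5 841)
(mv 1099 (cons (fin 1100 3 1033)
(fin 1163 4 906))))))))
(cons (mv 841 (cons (fin 905 7 841)
(mv 842 (cons (fin 777 7 777)
(mv 1099 (cons (fin 1163 4 906)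
(mv 1033 (cons (fin 1100 3 1033)
(fin 1097 5 841)))))))))
(cons (mv 905 (cons (fin 841 7 841)
(mv 1099 (cons (fin 1163 4 906)
(mv 1100 (cons (fin 1033 3 1033)
(mv 1162 (cons (fin 1161 1 1097)
(fin 969 7 905)))))))))
(mv 1097 (cons (fin 1161 5 905)
(mv 1163 (cons (fin 1099 4 906)
(mv 905 (cons (fin 841 7 841)
(mv 1162 (cons (fin 969 7 905)
(fin 1227 4 970)))))))))))))
(mv 1098 (cons (fin 843 6 842)
(mv 1097 (cons (fin 1161 5 905)
(mv 1099 (cons (fin 1163 4 906)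
(mv 1033 (cons (fin 1100 3 1033)
(mv 1031 (cons (fin 1032 0 1031)
(mv 905 (cons (fin 841 7 841)
(mv 969 (cons (fin 1162 7 905)
(mv 1096 (cons (fin 1160 5 904)
(mv 1095 (cons (fin 1030 3 1030)
(fin 1094 2 1030)))))))))))))))))))))))))))))))
(cons (ref 0 0)
(mv 1036 (cons (cons (mv 974 (cons (fin 976 1 972)
(mv 972 (cons (mv 908 (cons (fin 907 3 907)
(fin 844 4 844)))
(mv 911 (cons (fin 912 2 908)
(mv 971 (cons (fin 910 2 907)
(mv 970 (cons (fin 1033 1 969)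
(fin 969 0 969)))))))))))
(mv 1103 (cons (cons (mv 1102 (cons (fin 1104 3 1036)
(mv 1100 (cons (mv 1164 (cons (fin 1163 1 1099)
(fin 1228 6 972)))
(mv 1167 (cons (fin 1168 0 1100)
(mv 1099 (cons (fin 1166 0 1099)
(mv 1098 (cons (fin 1033 3 1033)
(fin 1097 2 1033)))))))))))
(mv 1098 (cons (cons (cons (mv 1100 (cons (mv 1099 (cons (fin 1033 3 1033)
(fin 1097 2 1033)))
(mv 1164 (cons (fin 1228 6 972)
(mv 1163 (cons (fin 1102 1 1099)
(mv 1161 (cons (fin 1162 2 1097)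
(mv 972 (cons (fin 1227 5 971)
(mv 907 (cons (fin 971 7 907)
(mv 908 (cons (fin 843 7 843)
(fin 844 4 844)))))))))))))))
(mv 970 (cons (cons (cons (mv 906 (cons (cons (mv 841 (cons (fin 905 7 841)
(mv 777 (cons (fin 842 7 777)
(mv 1099 (cons (fin 1163 4 906)
(mv 907 (cons (fin 843 6 842)
(mv 1097 (cons (fin 1161 5 905)
(mv 971 (cons (fin 1162 6 906)
(mv 972 (cons (fin 1033 1 969)
(fin 969 0 969)))))))))))))))
(cons (mv 843 (cons (fin 907 6 842)
(mv 779 (cons (fin 842 6 778)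
(mv 1163 (cons (fin 1099 4 906)
(mv 1161 (cons (fin 1097 5 905)
(mv 1162 (cons (fin 1225 5 969)
(fin 1227 4 970)))))))))))
(mv 1099 (cons (fin 1163 4 906)
(mv 841 (cons (fin 905 7 841)
(mv 842 (cons (fin 777 7 777)
(mv 1097 (cons (fin 1033 5 841)
(fin 1161 5 905)))))))))))
(cons (mv 843 (cons (fin 907 6 842)
(mv 779 (cons (fin 842 6 778)
(mv 1163 (cons (fin 1099 4 906)
(mv 905 (cons (fin 841 7 841)
(mv 1162 (cons (fin 969 7 905)
(fin 1227 4 970)))))))))))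
(cons (mv 1097 (cons (fin 1161 5 905)
(mv 842 (cons (fin 1033 5 841)
(mv 841 (cons (fin 777 7 777)
(fin 905 7 841)))))))
(mv 843 (cons (fin 907 6 842)
(mv 1099 (cons (fin 1163 4 906)
(mv 1161 (cons (fin 1097 5 905)
(mv 905 (cons (fin 841 7 841)
(mv 1162 (cons (fin 969 7 905)
(fin 1225 5 969)))))))))))))))
(mv 1162 (cons (cons (mv 905 (cons (fin 969 7 905)
(mv 1163 (cons (fin 1227 4 970)
(mv 971 (cons (fin 907 6 906)
(mv 1225 (cons (fin 1161 5 969)
(mv 1033 (cons (fin 972 1 969)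
(mv 1226 (cons (fin 1289 5 1033)
(mv 1290 (cons (fin 1097 7 1033)
(mv 1354 (cons (fin 1099 6 1098)
(mv 1355 (cons (fin 1291 4 1098)
(fin 1419 4 1162)))))))))))))))))))
(mv 1225 (cons (fin 1161 5 969)
(mv 1163 (cons (fin 1227 4 970)
(mv 1226 (cons (fin 1289 5 1033)
(mv 1223 (cons (fin 1224 2 1159)
(mv 971 (cons (fin 907 6 906)
(mv 1033 (cons (fin 972 1 969)
(mv 1290 (cons (fin 1097 7 1033)
(mv 1354 (cons (fin 1099 6 1098)
(mv 1355 (cons (fin 1291 4 1098)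
(fin 1419 4 1162))))))))))))))))))))
(cons (mv 905 (cons (fin 969 7 905)
(mv 1227 (cons (fin 1163 4 970)
(mv 1225 (cons (fin 1161 5 969)
(mv 1226 (cons (fin 1289 5 1033)
(fin 1291 4 1034)))))))))
(cons (mv 1163 (cons (fin 1227 4 970)
(mv 969 (cons (fin 905 7 905)
(mv 971 (cons (fin 972 0 969)
(fin 907 6 906)))))))
(mv 907 (cons (fin 971 6 906)
(mv 1225 (cons (fin 1161 5 969)
(mv 969 (cons (fin 905 7 905)
(mv 1226 (cons (fin 1033 7 969)
(fin 1289 5 1033))))))))))))))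
(cons (mv 906 (cons (cons (mv 841 (cons (fin 905 7 841)
(mv 842 (cons (fin 777 7 777)
(mv 1097 (cons (fin 1033 5 841)
(fin 1161 5 905)))))))
(mv 1097 (cons (fin 1161 5 905)
(mv 842 (cons (fin 1033 5 841)
(mv 843 (cons (fin 779 6 778)
(fin 907 6 842))))))))
(cons (mv 843 (cons (fin 907 6 842)
(mv 842 (cons (fin 779 6 778)
(mv 841 (cons (fin 777 7 777)
(fin 905 7 841)))))))
(mv 905 (cons (fin 841 7 841)
(mv 1099 (cons (fin 1163 4 906)
(mv 971 (cons (fin 972 3 905)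
(mv 907 (cons (fin 843 6 842)
(mv 904 (cons (fin 903 0 903)
(mv 1097 (cons (fin 1161 5 905)
(mv 840 (cons (fin 839 3 839)
(mv 968 (cons (fin 967 1 903)
(mv 969 (cons (fin 908 1 904)
(fin 1033 7 840))))))))))))))))))))))
(cons (mv 906 (cons (cons (mv 841 (cons (fin 905 7 841)
(mv 777 (cons (fin 842 7 777)
(mv 1163 (cons (fin 1099 4 906)
(mv 843 (cons (fin 907 6 842)
(mv 1162 (cons (fin 1227 4 970)
(mv 1161 (cons (fin 1097 5 905)
(fin 1225 5 969)))))))))))))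
(mv 1097 (cons (fin 1161 5 905)
(mv 842 (cons (fin 1033 5 841)
(mv 843 (cons (fin 779 6 778)
(fin 907 6 842))))))))
(cons (mv 843 (cons (fin 907 6 842)
(mv 779 (cons (fin 842 6 778)
(mv 905 (cons (fin 841 7 841)
(mv 1163 (cons (fin 1099 4 906)
(mv 1162 (cons (fin 969 7 905)
(fin 1227 4 970)))))))))))
(cons (mv 841 (cons (fin 905 7 841)
(mv 777 (cons (fin 842 7 777)
(mv 1161 (cons (fin 1097 5 905)
(mv 1163 (cons (fin 1099 4 906)
(mv 1162 (cons (fin 1225 5 969)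
(fin 1227 4 970)))))))))))
(mv 1097 (cons (fin 1161 5 905)
(mv 843 (cons (fin 907 6 842)
(mv 905 (cons (fin 841 7 841)
(mv 1163 (cons (fin 1099 4 906)
(mv 1162 (cons (fin 969 7 905)
(fin 1227 4 970)))))))))))))))
(mv 906 (cons (cons (mv 841 (cons (fin 905 7 841)
(mv 777 (cons (fin 842 7 777)
(mv 1099 (cons (fin 1163 4 906)
(mv 907 (cons (fin 843 6 842)
(mv 1161 (cons (fin 1097 5 905)
(mv 1162 (cons (fin 1225 5 969)
(fin 971 6 906)))))))))))))
(mv 843 (cons (fin 907 6 842)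
(mv 779 (cons (fin 842 6 778)
(mv 1163 (cons (fin 1099 4 906)
(mv 1161 (cons (fin 1097 5 905)
(mv 1162 (cons (fin 1225 5 969)
(fin 1227 4 970))))))))))))
(cons (mv 1099 (cons (fin 1163 4 906)
(mv 841 (cons (fin 905 7 841)
(mv 842 (cons (fin 777 7 777)
(mv 1097 (cons (fin 1033 5 841)
(fin 1161 5 905)))))))))
(cons (mv 843 (cons (fin 907 6 842)
(mv 842 (cons (fin 779 6 778)
(mv 841 (cons (fin 777 7 777)
(fin 905 7 841)))))))
(mv 1099 (cons (fin 1163 4 906)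
(mv 1097 (cons (fin 1161 5 905)
(mv 907 (cons (fin 843 6 842)
(mv 905 (cons (fin 841 7 841)
(mv 971 (cons (fin 972 3 905)
(fin 1162 6 906))))))))))))))))))
(cons (cons (mv 1162 (cons (cons (mv 1161 (cons (fin 1225 5 969)
(mv 906 (cons (fin 1097 5 905)
(mv 907 (cons (fin 843 6 842)
(fin 971 6 906)))))))
(mv 1163 (cons (fin 1227 4 970)
(mv 906 (cons (fin 1099 4 906)
(mv 1161 (cons (fin 1097 5 905)
(fin 1225 5 969))))))))
(cons (mv 907 (cons (fin 971 6 906)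
(mv 843 (cons (fin 906 6 842)
(mv 1227 (cons (fin 1163 4 970)
(mv 1226 (cons (fin 1291 4 1034)
(mv 1289 (cons (fin 1225 5 1033)
(mv 1033 (cons (fin 969 7 969)
(mv 1290 (cons (fin 1097 7 1033)
(fin 1353 5 1097)))))))))))))))
(cons (mv 1163 (cons (fin 1227 4 970)
(mv 906 (cons (fin 1099 4 906)
(mv 907 (cons (fin 843 6 842)
(fin 971 6 906)))))))
(mv 907 (cons (fin 971 6 906)
(mv 1225 (cons (fin 1161 5 969)
(mv 1163 (cons (fin 1227 4 970)
(mv 1226 (cons (fin 1289 5 1033)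
(mv 1033 (cons (fin 969 7 969)
(mv 1223 (cons (fin 1224 2 1159)
(mv 1290 (cons (fin 1097 7 1033)
(mv 1354 (cons (fin 1099 6 1098)
(mv 1355 (cons (fin 1291 4 1098)
(fin 1419 4 1162)))))))))))))))))))))))
(cons (mv 906 (cons (cons (cons (mv 841 (cons (fin 905 7 841)
(mv 777 (cons (fin 842 7 777)
(mv 1099 (cons (fin 1163 4 906)
(mv 907 (cons (fin 843 6 842)
(mv 971 (cons (fin 1162 6 906)
(mv 972 (cons (fin 1033 1 969)
(fin 969 0 969)))))))))))))
(mv 843 (cons (fin 907 6 842)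
(mv 842 (cons (fin 779 6 778)
(mv 1099 (cons (fin 1163 4 906)
(mv 777 (cons (fin 841 7 777)
(mv 778 (cons (fin 713 7 713)
(mv 1033 (cons (fin 969 5 777)
(fin 1097 5 841))))))))))))))
(cons (mv 1099 (cons (fin 1163 4 906)
(mv 841 (cons (fin 905 7 841)
(mv 842 (cons (fin 777 7 777)
(mv 1033 (cons (fin 1097 5 841)
(mv 778 (cons (fin 969 5 777)
(mv 779 (cons (fin 715 6 714)
(fin 843 6 778)))))))))))))
(mv 843 (cons (fin 907 6 842)
(mv 842 (cons (fin 779 6 778)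
(mv 1099 (cons (fin 1163 4 906)
(mv 1033 (cons (fin 1097 5 841)
(mv 778 (cons (fin 969 5 777)
(mv 777 (cons (fin 713 7 713)
(mv 1031 (cons (fin 1032 0 1031)
(mv 844 (cons (fin 845 3 777)
(mv 972 (cons (fin 971 1 969)
(fin 908 4 844)))))))))))))))))))))
(cons (cons (mv 1099 (cons (fin 1163 4 906)
(mv 841 (cons (fin 905 7 841)
(mv 842 (cons (fin 777 7 777)
(mv 1033 (cons (fin 1097 5 841)
(mv 778 (cons (fin 969 5 777)
(mv 1031 (cons (fin 1032 0 1031)
(mv 715 (cons (fin 779 6 714)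
(mv 714 (cons (fin 651 6 650)
(mv 971 (cons (fin 972 1 969)
(fin 907 4 714)))))))))))))))))))
(mv 841 (cons (fin 905 7 841)
(mv 777 (cons (fin 842 7 777)
(mv 907 (cons (fin 843 6 842)
(mv 971 (cons (fin 1162 6 906)
(mv 972 (cons (fin 1033 1 969)
(fin 969 0 969))))))))))))
(cons (mv 843 (cons (fin 907 6 842)
(mv 1163 (cons (fin 1099 4 906)
(mv 905 (cons (fin 841 7 841)
(mv 1162 (cons (fin 969 7 905)
(fin 1227 4 970)))))))))
(mv 1099 (cons (fin 1163 4 906)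
(mv 843 (cons (fin 907 6 842)
(mv 842 (cons (fin 779 6 778)
(mv 841 (cons (fin 777 7 777)
(fin 905 7 841)))))))))))))
(mv 906 (cons (cons (mv 1099 (cons (fin 1163 4 906)
(mv 841 (cons (fin 905 7 841)
(mv 842 (cons (fin 777 7 777)
(mv 1097 (cons (fin 1033 5 841)
(fin 1161 5 905)))))))))
(mv 1099 (cons (fin 1163 4 906)
(mv 1097 (cons (fin 1161 5 905)
(mv 842 (cons (fin 1033 5 841)
(mv 777 (cons (fin 841 7 777)
(mv 778 (cons (fin 713 7 713)
(mv 779 (cons (fin 715 6 714)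
(fin 843 6 778))))))))))))))
(cons (mv 905 (cons (fin 841 7 841)
(mv 1163 (cons (fin 1099 4 906)
(mv 1162 (cons (fin 969 7 905)
(fin 1227 4 970)))))))
(cons (mv 1097 (cons (fin 1161 5 905)
(mv 842 (cons (fin 1033 5 841)
(mv 1163 (cons (fin 1099 4 906)
(mv 843 (cons (fin 779 6 778)
(mv 1162 (cons (fin 1227 4 970)
(mv 905 (cons (fin 969 7 905)
(mv 903 (cons (fin 904 2 839)
(mv 844 (cons (fin 845 1 841)
(mv 972 (cons (fin 971 3 905)
(fin 908 4 844)))))))))))))))))))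
(mv 841 (cons (fin 905 7 841)
(mv 842 (cons (fin 777 7 777)
(mv 1097 (cons (fin 1033 5 841)
(fin 1161 5 905)))))))))))))
(cons (mv 906 (cons (cons (mv 1097 (cons (fin 1161 5 905)
(mv 842 (cons (fin 1033 5 841)
(mv 841 (cons (fin 777 7 777)
(fin 905 7 841)))))))
(mv 843 (cons (fin 907 6 842)
(mv 842 (cons (fin 779 6 778)
(mv 1097 (cons (fin 1033 5 841)
(fin 1161 5 905))))))))
(cons (mv 841 (cons (fin 905 7 841)
(mv 777 (cons (fin 842 7 777)
(mv 907 (cons (fin 843 6 842)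
(mv 971 (cons (fin 1162 6 906)
(mv 972 (cons (fin 1033 1 969)
(fin 969 0 969)))))))))))
(mv 843 (cons (fin 907 6 842)
(mv 1161 (cons (fin 1097 5 905)
(mv 905 (cons (fin 841 7 841)
(mv 1162 (cons (fin 969 7 905)
(fin 1225 5 969))))))))))))
(cons (mv 906 (cons (cons (mv 841 (cons (fin 905 7 841)
(mv 777 (cons (fin 842 7 777)
(mv 1099 (cons (fin 1163 4 906)
(mv 907 (cons (fin 843 6 842)
(mv 1097 (cons (fin 1161 5 905)
(mv 971 (cons (fin 1162 6 906)
(mv 969 (cons (fin 972 0 969)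
(mv 968 (cons (fin 967 2 903)
(fin 908 2 904)))))))))))))))))
(cons (mv 843 (cons (fin 907 6 842)
(mv 779 (cons (fin 842 6 778)
(mv 1163 (cons (fin 1099 4 906)
(mv 1161 (cons (fin 1097 5 905)
(mv 1162 (cons (fin 1225 5 969)
(fin 1227 4 970)))))))))))
(mv 1099 (cons (fin 1163 4 906)
(mv 905 (cons (fin 841 7 841)
(mv 1161 (cons (fin 1097 5 905)
(mv 1162 (cons (fin 969 7 905)
(fin 1225 5 969)))))))))))
(cons (mv 841 (cons (fin 905 7 841)
(mv 777 (cons (fin 842 7 777)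
(mv 1099 (cons (fin 1163 4 906)
(mv 907 (cons (fin 843 6 842)
(mv 971 (cons (fin 1162 6 906)
(mv 969 (cons (fin 972 0 969)
(mv 968 (cons (fin 967 2 903)
(fin 908 2 904)))))))))))))))
(cons (mv 843 (cons (fin 907 6 842)
(mv 779 (cons (fin 842 6 778)
(mv 905 (cons (fin 841 7 841)
(mv 1161 (cons (fin 1097 5 905)
(mv 1162 (cons (fin 969 7 905)
(fin 1225 5 969)))))))))))
(mv 841 (cons (fin 905 7 841)
(mv 842 (cons (fin 777 7 777)
(mv 843 (cons (fin 779 6 778)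
(fin 907 6 842)))))))))))
(mv 1162 (cons (cons (mv 905 (cons (fin 969 7 905)
(mv 841 (cons (fin 906 7 841)
(mv 1227 (cons (fin 1163 4 970)
(mv 907 (cons (fin 971 6 906)
(mv 1226 (cons (fin 1291 4 1034)
(mv 1225 (cons (fin 1161 5 969)
(fin 1289 5 1033)))))))))))))
(mv 1161 (cons (fin 1225 5 969)
(mv 905 (cons (fin 969 7 905)
(mv 906 (cons (fin 841 7 841)
(mv 1163 (cons (fin 1099 4 906)
(fin 1227 4 970))))))))))
(cons (mv 1163 (cons (fin 1227 4 970)
(mv 906 (cons (fin 1099 4 906)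
(mv 907 (cons (fin 843 6 842)
(fin 971 6 906)))))))
(cons (mv 1161 (cons (fin 1225 5 969)
(mv 905 (cons (fin 969 7 905)
(mv 906 (cons (fin 841 7 841)
(mv 971 (cons (fin 972 3 905)
(fin 907 6 906)))))))))
(mv 907 (cons (fin 971 6 906)
(mv 1163 (cons (fin 1227 4 970)
(mv 1225 (cons (fin 1161 5 969)
(mv 969 (cons (fin 905 7 905)
(mv 1226 (cons (fin 1033 7 969)
(fin 1289 5 1033)))))))))))))))))))))
(cons (mv 970 (cons (cons (cons (mv 1162 (cons (cons (mv 905 (cons (fin 969 7 905)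
(mv 841 (cons (fin 906 7 841)
(mv 1227 (cons (fin 1163 4 970)
(mv 907 (cons (fin 971 6 906)
(mv 1226 (cons (fin 1291 4 1034)
(mv 1225 (cons (fin 1161 5 969)
(fin 1289 5 1033)))))))))))))
(mv 1161 (cons (fin 1225 5 969)
(mv 906 (cons (fin 1097 5 905)
(mv 907 (cons (fin 843 6 842)
(fin 971 6 906))))))))
(cons (mv 905 (cons (fin 969 7 905)
(mv 841 (cons (fin 906 7 841)
(mv 1225 (cons (fin 1161 5 969)
(mv 1227 (cons (fin 1163 4 970)
(mv 1226 (cons (fin 1289 5 1033)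
(fin 1291 4 1034)))))))))))
(cons (mv 907 (cons (fin 971 6 906)
(mv 843 (cons (fin 906 6 842)
(mv 969 (cons (fin 905 7 905)
(mv 1227 (cons (fin 1163 4 970)
(mv 1226 (cons (fin 1033 7 969)
(fin 1291 4 1034)))))))))))
(mv 905 (cons (fin 969 7 905)
(mv 1225 (cons (fin 1161 5 969)
(mv 907 (cons (fin 971 6 906)
(mv 1226 (cons (fin 1289 5 1033)
(mv 1227 (cons (fin 1163 4 970)
(fin 1291 4 1034)))))))))))))))
(mv 906 (cons (cons (mv 841 (cons (fin 905 7 841)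
(mv 842 (cons (fin 777 7 777)
(mv 1097 (cons (fin 1033 5 841)
(fin 1161 5 905)))))))
(mv 843 (cons (fin 907 6 842)
(mv 842 (cons (fin 779 6 778)
(mv 1097 (cons (fin 1033 5 841)
(fin 1161 5 905))))))))
(cons (mv 841 (cons (fin 905 7 841)
(mv 842 (cons (fin 777 7 777)
(mv 843 (cons (fin 779 6 778)
(fin 907 6 842)))))))
(mv 907 (cons (fin 843 6 842)
(mv 1097 (cons (fin 1161 5 905)
(mv 905 (cons (fin 841 7 841)
(mv 972 (cons (fin 971 3 905)
(fin 908 0 905)))))))))))))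
(cons (mv 1162 (cons (cons (mv 905 (cons (fin 969 7 905)
(mv 1225 (cons (fin 1161 5 969)
(mv 907 (cons (fin 971 6 906)
(mv 1226 (cons (fin 1289 5 1033)
(mv 1227 (cons (fin 1163 4 970)
(fin 1291 4 1034)))))))))))
(mv 1227 (cons (fin 1163 4 970)
(mv 907 (cons (fin 971 6 906)
(mv 1226 (cons (fin 1291 4 1034)
(mv 1225 (cons (fin 1161 5 969)
(fin 1289 5 1033))))))))))
(cons (mv 1161 (cons (fin 1225 5 969)
(mv 969 (cons (fin 905 7 905)
(mv 1163 (cons (fin 1227 4 970)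
(mv 1164 (cons (fin 1100 2 1097)
(mv 1033 (cons (fin 1226 7 969)
(mv 1096 (cons (fin 1097 3 1096)
(mv 1160 (cons (fin 1095 3 1095)
(mv 1224 (cons (fin 1223 1 1159)
(fin 1032 6 968)))))))))))))))))
(mv 969 (cons (fin 905 7 905)
(mv 971 (cons (fin 972 0 969)
(fin 907 6 906))))))))
(mv 906 (cons (cons (mv 841 (cons (fin 905 7 841)
(mv 842 (cons (fin 777 7 777)
(mv 1097 (cons (fin 1033 5 841)
(fin 1161 5 905)))))))
(mv 843 (cons (fin 907 6 842)
(mv 842 (cons (fin 779 6 778)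
(mv 1097 (cons (fin 1033 5 841)
(fin 1161 5 905))))))))
(cons (mv 841 (cons (fin 905 7 841)
(mv 842 (cons (fin 777 7 777)
(mv 843 (cons (fin 779 6 778)
(fin 907 6 842)))))))
(mv 843 (cons (fin 907 6 842)
(mv 1097 (cons (fin 1161 5 905)
(mv 905 (cons (fin 841 7 841)
(mv 1162 (cons (fin 969 7 905)
(mv 1227 (cons (fin 1163 4 970)
(mv 1226 (cons (fin 1291 4 1034)
(mv 1289 (cons (fin 1225 5 1033)
(mv 1290 (cons (fin 1033 7 1033)
(fin 1353 5 1097))))))))))))))))))))))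
(cons (cons (mv 1162 (cons (cons (mv 1161 (cons (fin 1225 5 969)
(mv 906 (cons (fin 1097 5 905)
(mv 907 (cons (fin 843 6 842)
(fin 971 6 906)))))))
(mv 1163 (cons (fin 1227 4 970)
(mv 1161 (cons (fin 1225 5 969)
(mv 1097 (cons (fin 906 5 905)
(mv 1096 (cons (fin 1164 3 1096)
(fin 1095 0 1095))))))))))
(cons (mv 907 (cons (fin 971 6 906)
(mv 843 (cons (fin 906 6 842)
(mv 1227 (cons (fin 1163 4 970)
(mv 1226 (cons (fin 1291 4 1034)
(mv 1289 (cons (fin 1225 5 1033)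
(mv 1033 (cons (fin 969 7 969)
(mv 1290 (cons (fin 1097 7 1033)
(fin 1353 5 1097)))))))))))))))
(cons (mv 1163 (cons (fin 1227 4 970)
(mv 907 (cons (fin 971 6 906)
(mv 906 (cons (fin 843 6 842)
(mv 1097 (cons (fin 1161 5 905)
(mv 1033 (cons (fin 842 5 841)
(mv 1226 (cons (fin 969 7 969)
(fin 1290 7 1033)))))))))))))
(mv 907 (cons (fin 971 6 906)
(mv 1225 (cons (fin 1161 5 969)
(mv 1227 (cons (fin 1163 4 970)
(mv 1226 (cons (fin 1289 5 1033)
(fin 1291 4 1034)))))))))))))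
(mv 971 (cons (mv 972 (cons (fin 1033 1 969)
(fin 969 0 969)))
(mv 907 (cons (fin 1162 6 906)
(mv 843 (cons (fin 779 5 778)
(fin 906 6 842))))))))
(cons (mv 1162 (cons (cons (mv 905 (cons (fin 969 7 905)
(mv 841 (cons (fin 906 7 841)
(mv 1227 (cons (fin 1163 4 970)
(mv 1225 (cons (fin 1161 5 969)
(mv 1226 (cons (fin 1289 5 1033)
(fin 1291 4 1034)))))))))))
(mv 1163 (cons (fin 1227 4 970)
(mv 1161 (cons (fin 1225 5 969)
(mv 1097 (cons (fin 906 5 905)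
(mv 1096 (cons (fin 1164 3 1096)
(fin 1095 0 1095))))))))))
(cons (mv 969 (cons (fin 905 7 905)
(mv 1227 (cons (fin 1163 4 970)
(mv 1226 (cons (fin 1033 7 969)
(fin 1291 4 1034)))))))
(mv 905 (cons (fin 969 7 905)
(mv 906 (cons (fin 841 7 841)
(mv 1161 (cons (fin 1097 5 905)
(fin 1225 5 969))))))))))
(mv 1162 (cons (cons (mv 905 (cons (fin 969 7 905)
(mv 841 (cons (fin 906 7 841)
(mv 1227 (cons (fin 1163 4 970)
(mv 907 (cons (fin 971 6 906)
(mv 1226 (cons (fin 1291 4 1034)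
(mv 1225 (cons (fin 1161 5 969)
(fin 1289 5 1033)))))))))))))
(mv 905 (cons (fin 969 7 905)
(mv 906 (cons (fin 841 7 841)
(mv 971 (cons (fin 972 3 905)
(fin 907 6 906))))))))
(cons (mv 1161 (cons (fin 1225 5 969)
(mv 906 (cons (fin 1097 5 905)
(mv 905 (cons (fin 841 7 841)
(fin 969 7 905)))))))
(cons (mv 907 (cons (fin 971 6 906)
(mv 843 (cons (fin 906 6 842)
(mv 1225 (cons (fin 1161 5 969)
(mv 1227 (cons (fin 1163 4 970)
(mv 1226 (cons (fin 1289 5 1033)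
(fin 1291 4 1034)))))))))))
(mv 1161 (cons (fin 1225 5 969)
(mv 969 (cons (fin 905 7 905)
(mv 971 (cons (fin 972 0 969)
(fin 907 6 906)))))))))))))))
(cons (mv 970 (cons (cons (cons (mv 1162 (cons (cons (mv 905 (cons (fin 969 7 905)
(mv 841 (cons (fin 906 7 841)
(mv 1163 (cons (fin 1227 4 970)
(mv 907 (cons (fin 971 6 906)
(mv 1161 (cons (fin 1225 5 969)
(mv 1100 (cons (fin 1099 1 1097)
(fin 1164 2 1097)))))))))))))
(mv 905 (cons (fin 969 7 905)
(mv 906 (cons (fin 841 7 841)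
(mv 971 (cons (fin 972 3 905)
(fin 907 6 906))))))))
(cons (mv 1163 (cons (fin 1227 4 970)
(mv 906 (cons (fin 1099 4 906)
(mv 905 (cons (fin 841 7 841)
(fin 969 7 905)))))))
(cons (mv 907 (cons (fin 971 6 906)
(mv 843 (cons (fin 906 6 842)
(mv 1163 (cons (fin 1227 4 970)
(mv 1161 (cons (fin 1225 5 969)
(mv 1100 (cons (fin 1099 1 1097)
(fin 1164 2 1097)))))))))))
(mv 1161 (cons (fin 1225 5 969)
(mv 1099 (cons (fin 1100 1 1097)
(mv 969 (cons (fin 905 7 905)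
(mv 971 (cons (fin 972 0 969)
(fin 907 6 906)))))))))))))
(mv 906 (cons (cons (mv 841 (cons (fin 905 7 841)
(mv 777 (cons (fin 842 7 777)
(mv 1099 (cons (fin 1163 4 906)
(mv 1097 (cons (fin 1100 2 1033)
(fin 1161 5 905)))))))))
(mv 843 (cons (fin 907 6 842)
(mv 779 (cons (fin 842 6 778)
(mv 1099 (cons (fin 1163 4 906)
(mv 1097 (cons (fin 1100 2 1033)
(fin 1161 5 905))))))))))
(cons (mv 841 (cons (fin 905 7 841)
(mv 842 (cons (fin 777 7 777)
(mv 843 (cons (fin 779 6 778)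
(fin 907 6 842)))))))
(mv 843 (cons (fin 907 6 842)
(mv 1097 (cons (fin 1161 5 905)
(mv 1099 (cons (fin 1100 2 1033)
(fin 1163 4 906)))))))))))
(cons (mv 1162 (cons (cons (mv 1161 (cons (fin 1225 5 969)
(mv 1099 (cons (fin 1100 1 1097)
(mv 969 (cons (fin 905 7 905)
(mv 971 (cons (fin 972 0 969)
(fin 907 6 906)))))))))
(mv 969 (cons (fin 905 7 905)
(mv 971 (cons (fin 972 0 969)
(fin 907 6 906))))))
(cons (mv 907 (cons (fin 971 6 906)
(mv 1161 (cons (fin 1225 5 969)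
(mv 1100 (cons (fin 1099 1 1097)
(mv 1163 (cons (fin 1164 2 1097)
(fin 1227 4 970)))))))))
(mv 1163 (cons (fin 1227 4 970)
(mv 905 (cons (fin 969 7 905)
(mv 1161 (cons (fin 1225 5 969)
(mv 1100 (cons (fin 1099 1 1097)
(fin 1164 2 1097))))))))))))
(mv 906 (cons (cons (mv 841 (cons (fin 905 7 841)
(mv 777 (cons (fin 842 7 777)
(mv 1099 (cons (fin 1163 4 906)
(mv 907 (cons (fin 843 6 842)
(mv 1097 (cons (fin 1161 5 905)
(mv 971 (cons (fin 1162 6 906)
(mv 969 (cons (fin 972 0 969)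
(mv 968 (cons (fin 967 2 903)
(fin 908 2 904)))))))))))))))))
(cons (mv 843 (cons (fin 907 6 842)
(mv 779 (cons (fin 842 6 778)
(mv 1163 (cons (fin 1099 4 906)
(mv 1161 (cons (fin 1097 5 905)
(mv 1162 (cons (fin 1225 5 969)
(fin 1227 4 970)))))))))))
(mv 1099 (cons (fin 1163 4 906)
(mv 905 (cons (fin 841 7 841)
(mv 1161 (cons (fin 1097 5 905)
(mv 1162 (cons (fin 969 7 905)
(fin 1225 5 969)))))))))))
(cons (mv 841 (cons (fin 905 7 841)
(mv 777 (cons (fin 842 7 777)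
(mv 1099 (cons (fin 1163 4 906)
(mv 907 (cons (fin 843 6 842)
(mv 971 (cons (fin 1162 6 906)
(mv 969 (cons (fin 972 0 969)
(mv 968 (cons (fin 967 2 903)
(fin 908 2 904)))))))))))))))
(cons (mv 843 (cons (fin 907 6 842)
(mv 779 (cons (fin 842 6 778)
(mv 905 (cons (fin 841 7 841)
(mv 1161 (cons (fin 1097 5 905)
(mv 1162 (cons (fin 969 7 905)
(fin 1225 5 969)))))))))))
(mv 841 (cons (fin 905 7 841)
(mv 842 (cons (fin 777 7 777)
(mv 843 (cons (fin 779 6 778)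
(fin 907 6 842)))))))))))))
(cons (cons (mv 1162 (cons (cons (mv 905 (cons (fin 969 7 905)
(mv 841 (cons (fin 906 7 841)
(mv 1227 (cons (fin 1163 4 970)
(mv 907 (cons (fin 971 6 906)
(mv 1226 (cons (fin 1291 4 1034)
(mv 1225 (cons (fin 1161 5 969)
(fin 1289 5 1033)))))))))))))
(mv 905 (cons (fin 969 7 905)
(mv 906 (cons (fin 841 7 841)
(mv 971 (cons (fin 972 3 905)
(fin 907 6 906))))))))
(cons (mv 1161 (cons (fin 1225 5 969)
(mv 906 (cons (fin 1097 5 905)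
(mv 905 (cons (fin 841 7 841)
(fin 969 7 905)))))))
(cons (mv 907 (cons (fin 971 6 906)
(mv 843 (cons (fin 906 6 842)
(mv 1225 (cons (fin 1161 5 969)
(mv 1227 (cons (fin 1163 4 970)
(mv 1226 (cons (fin 1289 5 1033)
(fin 1291 4 1034)))))))))))
(mv 1161 (cons (fin 1225 5 969)
(mv 969 (cons (fin 905 7 905)
(mv 971 (cons (fin 972 0 969)
(fin 907 6 906)))))))))))
(mv 906 (cons (cons (mv 841 (cons (fin 905 7 841)
(mv 777 (cons (fin 842 7 777)
(mv 907 (cons (fin 843 6 842)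
(mv 1097 (cons (fin 1161 5 905)
(mv 1099 (cons (fin 1100 2 1033)
(mv 971 (cons (fin 1162 6 906)
(mv 969 (cons (fin 972 0 969)
(mv 968 (cons (fin 967 2 903)
(fin 908 2 904)))))))))))))))))
(mv 907 (cons (fin 843 6 842)
(mv 1097 (cons (fin 1161 5 905)
(mv 1099 (cons (fin 1100 2 1033)
(mv 971 (cons (fin 1162 6 906)
(mv 969 (cons (fin 972 0 969)
(mv 968 (cons (fin 967 2 903)
(fin 908 2 904))))))))))))))
(cons (mv 905 (cons (fin 841 7 841)
(mv 1161 (cons (fin 1097 5 905)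
(mv 1162 (cons (fin 969 7 905)
(fin 1225 5 969)))))))
(cons (mv 841 (cons (fin 905 7 841)
(mv 777 (cons (fin 842 7 777)
(mv 907 (cons (fin 843 6 842)
(mv 971 (cons (fin 1162 6 906)
(mv 969 (cons (fin 972 0 969)
(mv 968 (cons (fin 967 2 903)
(fin 908 2 904)))))))))))))
(mv 843 (cons (fin 907 6 842)
(mv 842 (cons (fin 779 6 778)
(mv 841 (cons (fin 777 7 777)
(fin 905 7 841))))))))))))
(cons (mv 1162 (cons (cons (mv 907 (cons (fin 971 6 906)
(mv 843 (cons (fin 906 6 842)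
(mv 1163 (cons (fin 1227 4 970)
(mv 1161 (cons (fin 1225 5 969)
(mv 1100 (cons (fin 1099 1 1097)
(fin 1164 2 1097)))))))))))
(mv 1163 (cons (fin 1227 4 970)
(mv 906 (cons (fin 1099 4 906)
(mv 907 (cons (fin 843 6 842)
(fin 971 6 906))))))))
(cons (mv 907 (cons (fin 971 6 906)
(mv 906 (cons (fin 843 6 842)
(mv 1161 (cons (fin 1097 5 905)
(fin 1225 5 969)))))))
(cons (mv 1161 (cons (fin 1225 5 969)
(mv 906 (cons (fin 1097 5 905)
(mv 1099 (cons (fin 1100 1 1097)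
(fin 1163 4 906)))))))
(mv 1163 (cons (fin 1227 4 970)
(mv 907 (cons (fin 971 6 906)
(mv 1161 (cons (fin 1225 5 969)
(mv 1100 (cons (fin 1099 1 1097)
(fin 1164 2 1097)))))))))))))
(cons (mv 906 (cons (cons (mv 841 (cons (fin 905 7 841)
(mv 777 (cons (fin 842 7 777)
(mv 1099 (cons (fin 1163 4 906)
(mv 1097 (cons (fin 1100 2 1033)
(mv 907 (cons (fin 843 6 842)
(mv 971 (cons (fin 1162 6 906)
(mv 969 (cons (fin 972 0 969)
(mv 968 (cons (fin 967 2 903)
(fin 908 2 904)))))))))))))))))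
(mv 907 (cons (fin 843 6 842)
(mv 1099 (cons (fin 1163 4 906)
(mv 1097 (cons (fin 1100 2 1033)
(mv 971 (cons (fin 1162 6 906)
(mv 969 (cons (fin 972 0 969)
(mv 968 (cons (fin 967 2 903)
(fin 908 2 904))))))))))))))
(cons (mv 905 (cons (fin 841 7 841)
(mv 1163 (cons (fin 1099 4 906)
(mv 1162 (cons (fin 969 7 905)
(fin 1227 4 970)))))))
(cons (mv 841 (cons (fin 905 7 841)
(mv 777 (cons (fin 842 7 777)
(mv 907 (cons (fin 843 6 842)
(mv 971 (cons (fin 1162 6 906)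
(mv 969 (cons (fin 972 0 969)
(mv 968 (cons (fin 967 2 903)
(fin 908 2 904)))))))))))))
(mv 841 (cons (fin 905 7 841)
(mv 842 (cons (fin 777 7 777)
(mv 843 (cons (fin 779 6 778)
(fin 907 6 842)))))))))))
(mv 1162 (cons (cons (mv 905 (cons (fin 969 7 905)
(mv 841 (cons (fin 906 7 841)
(mv 1163 (cons (fin 1227 4 970)
(mv 1161 (cons (fin 1225 5 969)
(mv 1100 (cons (fin 1099 1 1097)
(fin 1164 2 1097)))))))))))
(mv 905 (cons (fin 969 7 905)
(mv 906 (cons (fin 841 7 841)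
(mv 1163 (cons (fin 1099 4 906)
(fin 1227 4 970))))))))
(cons (mv 1161 (cons (fin 1225 5 969)
(mv 906 (cons (fin 1097 5 905)
(mv 905 (cons (fin 841 7 841)
(fin 969 7 905)))))))
(cons (mv 1161 (cons (fin 1225 5 969)
(mv 906 (cons (fin 1097 5 905)
(mv 1099 (cons (fin 1100 1 1097)
(fin 1163 4 906)))))))
(mv 1163 (cons (fin 1227 4 970)
(mv 905 (cons (fin 969 7 905)
(mv 1161 (cons (fin 1225 5 969)
(mv 1100 (cons (fin 1099 1 1097)
(fin 1164 2 1097))))))))))))))))))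
(mv 1100 (cons (mv 1099 (cons (fin 1033 3 1033)
(fin 1097 2 1033)))
(mv 1164 (cons (fin 1228 6 972)
(mv 1163 (cons (fin 1102 1 1099)
(mv 1162 (cons (fin 1161 2 1097)
(mv 970 (cons (fin 1227 4 970)
(mv 907 (cons (fin 971 6 906)
(mv 906 (cons (fin 843 6 842)
(mv 905 (cons (fin 841 7 841)
(fin 969 7 905))))))))))))))))))))
(cons (cons (mv 970 (cons (cons (cons (mv 1162 (cons (cons (mv 905 (cons (fin 969 7 905)
(mv 841 (cons (fin 906 7 841)
(mv 1163 (cons (fin 1227 4 970)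
(mv 907 (cons (fin 971 6 906)
(mv 1161 (cons (fin 1225 5 969)
(mv 1100 (cons (fin 1099 1 1097)
(fin 1164 2 1097)))))))))))))
(cons (mv 1161 (cons (fin 1225 5 969)
(mv 1099 (cons (fin 1100 1 1097)
(mv 1163 (cons (fin 906 4 906)
(fin 1227 4 970)))))))
(mv 907 (cons (fin 971 6 906)
(mv 843 (cons (fin 906 6 842)
(mv 1161 (cons (fin 1225 5 969)
(mv 1100 (cons (fin 1099 1 1097)
(mv 1228 (cons (fin 1164 6 972)
(mv 908 (cons (fin 972 7 843)
(mv 969 (cons (fin 905 7 905)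
(mv 1226 (cons (fin 1033 7 969)
(mv 1227 (cons (fin 1229 3 1161)
(fin 1291 4 1034)))))))))))))))))))))
(cons (cons (mv 905 (cons (fin 969 7 905)
(mv 841 (cons (fin 906 7 841)
(mv 971 (cons (fin 907 6 906)
(mv 1163 (cons (fin 1227 4 970)
(mv 972 (cons (fin 1033 1 969)
(mv 908 (cons (fin 844 4 844)
(mv 1100 (cons (fin 1099 5 907)
(mv 1164 (cons (fin 1102 1 1099)
(fin 1228 6 972)))))))))))))))))
(mv 1161 (cons (fin 1225 5 969)
(mv 1099 (cons (fin 1100 1 1097)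
(mv 906 (cons (fin 1163 4 906)
(mv 907 (cons (fin 843 6 842)
(fin 971 6 906))))))))))
(cons (mv 905 (cons (fin 969 7 905)
(mv 841 (cons (fin 906 7 841)
(mv 1227 (cons (fin 1163 4 970)
(mv 907 (cons (fin 971 6 906)
(mv 1226 (cons (fin 1291 4 1034)
(mv 1225 (cons (fin 1161 5 969)
(fin 1289 5 1033)))))))))))))
(mv 905 (cons (fin 969 7 905)
(mv 1163 (cons (fin 1227 4 970)
(mv 1161 (cons (fin 1225 5 969)
(mv 1100 (cons (fin 1099 1 1097)
(fin 1164 2 1097)))))))))))))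
(mv 906 (cons (cons (mv 841 (cons (fin 905 7 841)
(mv 842 (cons (fin 777 7 777)
(mv 843 (cons (fin 779 6 778)
(fin 907 6 842)))))))
(cons (mv 1099 (cons (fin 1163 4 906)
(mv 1033 (cons (fin 1100 3 1033)
(mv 843 (cons (fin 907 6 842)
(mv 842 (cons (fin 779 6 778)
(mv 1031 (cons (fin 1032 0 1031)
(mv 777 (cons (fin 841 7 777)
(mv 778 (cons (fin 713 7 713)
(fin 969 5 777)))))))))))))))
(mv 843 (cons (fin 907 6 842)
(mv 842 (cons (fin 779 6 778)
(mv 1099 (cons (fin 1163 4 906)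
(mv 1033 (cons (fin 1100 3 1033)
(mv 972 (cons (fin 971 1 969)
(mv 844 (cons (fin 908 4 844)
(mv 845 (cons (fin 905 1 841)
(mv 778 (cons (fin 777 3 777)
(fin 969 5 777)))))))))))))))))))
(cons (mv 1099 (cons (fin 1163 4 906)
(mv 1033 (cons (fin 1100 3 1033)
(mv 841 (cons (fin 905 7 841)
(mv 842 (cons (fin 777 7 777)
(mv 1031 (cons (fin 1032 0 1031)
(mv 778 (cons (fin 969 5 777)
(mv 971 (cons (fin 972 1 969)
(mv 715 (cons (fin 779 6 714)
(mv 714 (cons (fin 651 6 650)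
(fin 907 4 714)))))))))))))))))))
(cons (mv 841 (cons (fin 905 7 841)
(mv 842 (cons (fin 777 7 777)
(mv 1099 (cons (fin 1163 4 906)
(mv 1033 (cons (fin 1100 3 1033)
(mv 779 (cons (fin 843 6 778)
(mv 778 (cons (fin 969 5 777)
(fin 715 6 714)))))))))))))
(mv 1099 (cons (fin 1163 4 906)
(mv 1033 (cons (fin 1100 3 1033)
(mv 907 (cons (fin 843 6 842)
(mv 971 (cons (fin 972 1 969)
(mv 905 (cons (fin 841 7 841)
(mv 904 (cons (fin 903 0 903)
(mv 968 (cons (fin 967 1 903)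
(mv 840 (cons (fin 839 3 839)
(mv 969 (cons (fin 908 1 904)
(fin 776 4 776))))))))))))))))))))))))
(cons (mv 1162 (cons (cons (mv 905 (cons (fin 969 7 905)
(mv 1163 (cons (fin 1227 4 970)
(mv 1161 (cons (fin 1225 5 969)
(mv 1100 (cons (fin 1099 1 1097)
(fin 1164 2 1097)))))))))
(cons (mv 1163 (cons (fin 1227 4 970)
(mv 907 (cons (fin 971 6 906)
(mv 1161 (cons (fin 1225 5 969)
(mv 1100 (cons (fin 1099 1 1097)
(fin 1164 2 1097)))))))))
(mv 905 (cons (fin 969 7 905)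
(mv 1163 (cons (fin 1227 4 970)
(mv 971 (cons (fin 907 6 906)
(mv 972 (cons (fin 1033 1 969)
(mv 908 (cons (fin 844 4 844)
(mv 1100 (cons (fin 1099 5 907)
(mv 1164 (cons (fin 1102 1 1099)
(fin 1228 6 972)))))))))))))))))
(cons (mv 907 (cons (fin 971 6 906)
(mv 905 (cons (fin 969 7 905)
(mv 1161 (cons (fin 1225 5 969)
(mv 1100 (cons (fin 1099 1 1097)
(mv 1164 (cons (fin 1163 2 1097)
(fin 1228 6 972)))))))))))
(cons (mv 1161 (cons (fin 1225 5 969)
(mv 1099 (cons (fin 1100 1 1097)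
(mv 1159 (cons (fin 1160 2 1095)
(mv 971 (cons (fin 907 6 906)
(mv 969 (cons (fin 972 0 969)
(fin 905 7 905)))))))))))
(mv 907 (cons (fin 971 6 906)
(mv 1163 (cons (fin 1227 4 970)
(mv 1225 (cons (fin 1161 5 969)
(mv 969 (cons (fin 905 7 905)
(mv 1226 (cons (fin 1033 7 969)
(fin 1289 5 1033)))))))))))))))
(mv 1162 (cons (cons (mv 1161 (cons (fin 1225 5 969)
(mv 1099 (cons (fin 1100 1 1097)
(mv 1163 (cons (fin 906 4 906)
(fin 1227 4 970)))))))
(mv 969 (cons (fin 905 7 905)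
(mv 1161 (cons (fin 1225 5 969)
(mv 1100 (cons (fin 1099 1 1097)
(mv 1228 (cons (fin 1164 6 972)
(mv 1226 (cons (fin 1033 7 969)
(mv 1227 (cons (fin 1229 3 1161)
(fin 1291 4 1034))))))))))))))
(cons (mv 905 (cons (fin 969 7 905)
(mv 906 (cons (fin 841 7 841)
(mv 1163 (cons (fin 1099 4 906)
(fin 1227 4 970)))))))
(cons (mv 1161 (cons (fin 1225 5 969)
(mv 1099 (cons (fin 1100 1 1097)
(mv 906 (cons (fin 1163 4 906)
(mv 905 (cons (fin 841 7 841)
(fin 969 7 905)))))))))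
(mv 905 (cons (fin 969 7 905)
(mv 841 (cons (fin 906 7 841)
(mv 1227 (cons (fin 1163 4 970)
(mv 1225 (cons (fin 1161 5 969)
(mv 1226 (cons (fin 1289 5 1033)
(fin 1291 4 1034)))))))))))))))))
(cons (cons (mv 1162 (cons (cons (mv 905 (cons (fin 969 7 905)
(mv 841 (cons (fin 906 7 841)
(mv 1227 (cons (fin 1163 4 970)
(mv 907 (cons (fin 971 6 906)
(mv 1226 (cons (fin 1291 4 1034)
(mv 1225 (cons (fin 1161 5 969)
(fin 1289 5 1033)))))))))))))
(mv 1161 (cons (fin 1225 5 969)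
(mv 905 (cons (fin 969 7 905)
(mv 906 (cons (fin 841 7 841)
(mv 1163 (cons (fin 1099 4 906)
(fin 1227 4 970))))))))))
(cons (mv 1163 (cons (fin 1227 4 970)
(mv 906 (cons (fin 1099 4 906)
(mv 907 (cons (fin 843 6 842)
(fin 971 6 906)))))))
(cons (mv 1161 (cons (fin 1225 5 969)
(mv 905 (cons (fin 969 7 905)
(mv 906 (cons (fin 841 7 841)
(mv 971 (cons (fin 972 3 905)
(fin 907 6 906)))))))))
(mv 907 (cons (fin 971 6 906)
(mv 1163 (cons (fin 1227 4 970)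
(mv 1225 (cons (fin 1161 5 969)
(mv 969 (cons (fin 905 7 905)
(mv 1226 (cons (fin 1033 7 969)
(fin 1289 5 1033)))))))))))))))
(mv 1162 (cons (cons (mv 905 (cons (fin 969 7 905)
(mv 841 (cons (fin 906 7 841)
(mv 1163 (cons (fin 1227 4 970)
(mv 907 (cons (fin 971 6 906)
(mv 1161 (cons (fin 1225 5 969)
(mv 1100 (cons (fin 1099 1 1097)
(fin 1164 2 1097)))))))))))))
(cons (mv 1161 (cons (fin 1225 5 969)
(mv 1099 (cons (fin 1100 1 1097)
(mv 905 (cons (fin 969 7 905)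
(mv 906 (cons (fin 841 7 841)
(mv 971 (cons (fin 972 3 905)
(fin 907 6 906)))))))))))
(mv 905 (cons (fin 969 7 905)
(mv 906 (cons (fin 841 7 841)
(mv 971 (cons (fin 972 3 905)
(fin 907 6 906)))))))))
(cons (mv 1163 (cons (fin 1227 4 970)
(mv 906 (cons (fin 1099 4 906)
(mv 905 (cons (fin 841 7 841)
(fin 969 7 905)))))))
(cons (mv 907 (cons (fin 971 6 906)
(mv 843 (cons (fin 906 6 842)
(mv 1163 (cons (fin 1227 4 970)
(mv 1161 (cons (fin 1225 5 969)
(mv 1100 (cons (fin 1099 1 1097)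
(fin 1164 2 1097)))))))))))
(mv 1161 (cons (fin 1225 5 969)
(mv 1099 (cons (fin 1100 1 1097)
(mv 969 (cons (fin 905 7 905)
(mv 971 (cons (fin 972 0 969)
(fin 907 6 906))))))))))))))
(cons (mv 1100 (cons (cons (mv 1033 (cons (fin 1099 3 1033)
(mv 1164 (cons (fin 1228 6 972)
(mv 1102 (cons (fin 1163 1 1099)
(mv 971 (cons (fin 972 1 969)
(mv 1167 (cons (fin 1168 0 1100)
(mv 907 (cons (fin 1162 6 906)
(mv 843 (cons (fin 779 5 778)
(fin 906 6 842)))))))))))))))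
(mv 1164 (cons (fin 1228 6 972)
(mv 1163 (cons (fin 1102 1 1099)
(mv 1162 (cons (fin 1161 2 1097)
(fin 1227 4 970))))))))
(cons (mv 1033 (cons (fin 1099 3 1033)
(mv 971 (cons (fin 972 1 969)
(mv 1031 (cons (fin 1032 2 967)
(mv 907 (cons (fin 1162 6 906)
(mv 843 (cons (fin 779 5 778)
(fin 906 6 842)))))))))))
(mv 1033 (cons (fin 1099 3 1033)
(mv 1164 (cons (fin 1228 6 972)
(mv 1163 (cons (fin 1102 1 1099)
(mv 972 (cons (fin 971 1 969)
(fin 1227 5 971))))))))))))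
(cons (mv 1162 (cons (cons (mv 905 (cons (fin 969 7 905)
(mv 841 (cons (fin 906 7 841)
(mv 1227 (cons (fin 1163 4 970)
(mv 907 (cons (fin 971 6 906)
(mv 1226 (cons (fin 1291 4 1034)
(mv 1225 (cons (fin 1161 5 969)
(fin 1289 5 1033)))))))))))))
(mv 905 (cons (fin 969 7 905)
(mv 841 (cons (fin 906 7 841)
(mv 1227 (cons (fin 1163 4 970)
(mv 1225 (cons (fin 1161 5 969)
(mv 1226 (cons (fin 1289 5 1033)
(fin 1291 4 1034))))))))))))
(cons (mv 1225 (cons (fin 1161 5 969)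
(mv 907 (cons (fin 971 6 906)
(mv 843 (cons (fin 906 6 842)
(mv 1226 (cons (fin 1289 5 1033)
(mv 1227 (cons (fin 1163 4 970)
(fin 1291 4 1034)))))))))))
(cons (mv 905 (cons (fin 969 7 905)
(mv 906 (cons (fin 841 7 841)
(mv 971 (cons (fin 972 3 905)
(fin 907 6 906)))))))
(mv 907 (cons (fin 971 6 906)
(mv 1163 (cons (fin 1227 4 970)
(mv 969 (cons (fin 905 7 905)
(mv 1225 (cons (fin 1161 5 969)
(mv 1226 (cons (fin 1033 7 969)
(fin 1289 5 1033)))))))))))))))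
(mv 971 (cons (mv 972 (cons (fin 1033 1 969)
(fin 969 0 969)))
(mv 907 (cons (fin 1162 6 906)
(mv 843 (cons (fin 779 5 778)
(fin 906 6 842))))))))))))
(mv 1100 (cons (mv 1099 (cons (fin 1033 3 1033)
(fin 1097 2 1033)))
(mv 1164 (cons (fin 1228 6 972)
(mv 1163 (cons (fin 1102 1 1099)
(mv 972 (cons (fin 1227 5 971)
(mv 907 (cons (fin 971 7 907)
(mv 908 (cons (fin 843 7 843)
(fin 844 4 844))))))))))))))
(cons (mv 970 (cons (cons (mv 906 (cons (cons (mv 841 (cons (fin 905 7 841)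
(mv 777 (cons (fin 842 7 777)
(mv 907 (cons (fin 843 6 842)
(mv 1097 (cons (fin 1161 5 905)
(mv 1099 (cons (fin 1100 2 1033)
(mv 971 (cons (fin 1162 6 906)
(mv 972 (cons (fin 1033 1 969)
(fin 969 0 969)))))))))))))))
(cons (mv 843 (cons (fin 907 6 842)
(mv 842 (cons (fin 779 6 778)
(mv 1097 (cons (fin 1033 5 841)
(fin 1161 5 905)))))))
(mv 841 (cons (fin 905 7 841)
(mv 777 (cons (fin 842 7 777)
(mv 907 (cons (fin 843 6 842)
(mv 971 (cons (fin 1162 6 906)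
(mv 972 (cons (fin 1033 1 969)
(fin 969 0 969)))))))))))))
(cons (mv 1097 (cons (fin 1161 5 905)
(mv 842 (cons (fin 1033 5 841)
(mv 841 (cons (fin 777 7 777)
(fin 905 7 841)))))))
(cons (mv 841 (cons (fin 905 7 841)
(mv 777 (cons (fin 842 7 777)
(mv 907 (cons (fin 843 6 842)
(mv 1097 (cons (fin 1161 5 905)
(mv 1099 (cons (fin 1100 2 1033)
(mv 971 (cons (fin 1162 6 906)
(mv 969 (cons (fin 972 0 969)
(mv 968 (cons (fin 967 2 903)
(fin 908 2 904)))))))))))))))))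
(mv 841 (cons (fin 905 7 841)
(mv 907 (cons (fin 843 6 842)
(mv 1097 (cons (fin 1161 5 905)
(mv 1099 (cons (fin 1100 2 1033)
(mv 971 (cons (fin 1162 6 906)
(mv 972 (cons (fin 1033 1 969)
(fin 969 0 969)))))))))))))))))
(cons (mv 1162 (cons (cons (mv 905 (cons (fin 969 7 905)
(mv 971 (cons (fin 907 6 906)
(mv 1225 (cons (fin 1161 5 969)
(mv 1033 (cons (fin 972 1 969)
(mv 1226 (cons (fin 1289 5 1033)
(mv 1290 (cons (fin 1097 7 1033)
(mv 1291 (cons (fin 1227 4 1034)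
(fin 1355 4 1098)))))))))))))))
(mv 1225 (cons (fin 1161 5 969)
(mv 971 (cons (fin 907 6 906)
(mv 1226 (cons (fin 1289 5 1033)
(mv 1033 (cons (fin 972 1 969)
(mv 1291 (cons (fin 1227 4 1034)
(mv 1290 (cons (fin 1097 7 1033)
(fin 1355 4 1098))))))))))))))
(cons (mv 1161 (cons (fin 1225 5 969)
(mv 1099 (cons (fin 1100 1 1097)
(mv 1159 (cons (fin 1160 2 1095)
(mv 969 (cons (fin 905 7 905)
(mv 1226 (cons (fin 1033 7 969)
(mv 1291 (cons (fin 1227 4 1034)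
(mv 1290 (cons (fin 1355 4 1098)
(mv 1353 (cons (fin 1289 5 1097)
(mv 1354 (cons (fin 1097 7 1097)
(fin 1417 5 1161)))))))))))))))))))
(mv 969 (cons (fin 905 7 905)
(mv 971 (cons (fin 972 0 969)
(fin 907 6 906))))))))
(mv 906 (cons (cons (mv 841 (cons (fin 905 7 841)
(mv 842 (cons (fin 777 7 777)
(mv 1097 (cons (fin 1033 5 841)
(fin 1161 5 905)))))))
(mv 843 (cons (fin 907 6 842)
(mv 842 (cons (fin 779 6 778)
(mv 841 (cons (fin 777 7 777)
(fin 905 7 841))))))))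
(cons (mv 1097 (cons (fin 1161 5 905)
(mv 842 (cons (fin 1033 5 841)
(mv 843 (cons (fin 779 6 778)
(fin 907 6 842)))))))
(mv 907 (cons (fin 843 6 842)
(mv 905 (cons (fin 841 7 841)
(mv 972 (cons (fin 971 3 905)
(fin 908 0 905))))))))))))
(cons (cons (mv 906 (cons (cons (mv 841 (cons (fin 905 7 841)
(mv 842 (cons (fin 777 7 777)
(mv 1097 (cons (fin 1033 5 841)
(fin 1161 5 905)))))))
(mv 843 (cons (fin 907 6 842)
(mv 842 (cons (fin 779 6 778)
(mv 841 (cons (fin 777 7 777)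
(fin 905 7 841))))))))
(cons (mv 1097 (cons (fin 1161 5 905)
(mv 842 (cons (fin 1033 5 841)
(mv 843 (cons (fin 779 6 778)
(fin 907 6 842)))))))
(mv 843 (cons (fin 907 6 842)
(mv 905 (cons (fin 841 7 841)
(mv 1161 (cons (fin 1097 5 905)
(mv 1162 (cons (fin 969 7 905)
(fin 1225 5 969))))))))))))
(mv 906 (cons (cons (mv 841 (cons (fin 905 7 841)
(mv 777 (cons (fin 842 7 777)
(mv 907 (cons (fin 843 6 842)
(mv 1097 (cons (fin 1161 5 905)
(mv 1099 (cons (fin 1100 2 1033)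
(mv 971 (cons (fin 1162 6 906)
(mv 969 (cons (fin 972 0 969)
(mv 968 (cons (fin 967 2 903)
(fin 908 2 904)))))))))))))))))
(mv 907 (cons (fin 843 6 842)
(mv 1097 (cons (fin 1161 5 905)
(mv 1099 (cons (fin 1100 2 1033)
(mv 971 (cons (fin 1162 6 906)
(mv 969 (cons (fin 972 0 969)
(mv 968 (cons (fin 967 2 903)
(fin 908 2 904))))))))))))))
(cons (mv 905 (cons (fin 841 7 841)
(mv 1161 (cons (fin 1097 5 905)
(mv 1162 (cons (fin 969 7 905)
(fin 1225 5 969)))))))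
(cons (mv 841 (cons (fin 905 7 841)
(mv 777 (cons (fin 842 7 777)
(mv 907 (cons (fin 843 6 842)
(mv 971 (cons (fin 1162 6 906)
(mv 969 (cons (fin 972 0 969)
(mv 968 (cons (fin 967 2 903)
(fin 908 2 904)))))))))))))
(mv 843 (cons (fin 907 6 842)
(mv 842 (cons (fin 779 6 778)
(mv 841 (cons (fin 777 7 777)
(fin 905 7 841))))))))))))
(cons (mv 971 (cons (mv 972 (cons (fin 1033 1 969)
(fin 969 0 969)))
(mv 907 (cons (fin 1162 6 906)
(mv 843 (cons (fin 779 5 778)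
(fin 906 6 842)))))))
(mv 906 (cons (cons (mv 1097 (cons (fin 1161 5 905)
(mv 842 (cons (fin 1033 5 841)
(mv 841 (cons (fin 777 7 777)
(fin 905 7 841)))))))
(mv 1097 (cons (fin 1161 5 905)
(mv 842 (cons (fin 1033 5 841)
(mv 777 (cons (fin 841 7 777)
(mv 778 (cons (fin 713 7 713)
(mv 779 (cons (fin 715 6 714)
(fin 843 6 778))))))))))))
(cons (mv 905 (cons (fin 841 7 841)
(mv 972 (cons (fin 971 3 905)
(mv 969 (cons (fin 1162 7 905)
(mv 844 (cons (fin 908 4 844)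
(mv 842 (cons (mv 778 (cons (fin 714 5 713)
(fin 1033 5 777)))
(mv 843 (cons (fin 845 1 841)
(fin 779 6 778)))))))))))))
(cons (mv 1161 (cons (fin 1097 5 905)
(mv 1162 (cons (fin 1225 5 969)
(mv 969 (cons (fin 905 7 905)
(mv 1100 (cons (fin 1099 1 1097)
(mv 1228 (cons (fin 1164 6 972)
(mv 1226 (cons (fin 1033 7 969)
(mv 1227 (cons (fin 1229 3 1161)
(fin 1291 4 1034)))))))))))))))
(mv 905 (cons (fin 841 7 841)
(mv 1161 (cons (fin 1097 5 905)
(mv 1162 (cons (fin 969 7 905)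
(fin 1225 5 969)))))))))))))))
(cons (mv 1100 (cons (mv 1099 (cons (fin 1033 3 1033)
(fin 1097 2 1033)))
(mv 1164 (cons (fin 1228 6 972)
(mv 1163 (cons (fin 1102 1 1099)
(mv 1162 (cons (fin 1161 2 1097)
(mv 1227 (cons (fin 972 5 971)
(fin 970 4 970)))))))))))
(mv 1100 (cons (cons (mv 1099 (cons (fin 1033 3 1033)
(fin 1097 2 1033)))
(mv 1164 (cons (fin 1228 6 972)
(mv 1163 (cons (fin 1102 1 1099)
(mv 972 (cons (cons (mv 1161 (cons (fin 1162 2 1097)
(mv 907 (cons (fin 971 7 907)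
(mv 908 (cons (fin 843 7 843)
(fin 844 4 844)))))))
(mv 908 (cons (fin 844 4 844)
(mv 1162 (cons (fin 1161 2 1097)
(mv 907 (cons (fin 843 7 843)
(mv 905 (cons (fin 906 0 905)
(mv 969 (cons (fin 970 7 905)
(mv 1033 (cons (fin 1226 7 969)
(fin 841 4 841))))))))))))))
(cons (mv 1161 (cons (fin 1162 2 1097)
(mv 971 (cons (fin 907 7 907)
(mv 970 (cons (fin 1033 1 969)
(fin 969 0 969)))))))
(cons (mv 844 (cons (fin 908 4 844)
(mv 1161 (cons (fin 1162 2 1097)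
(mv 970 (cons (mv 971 (cons (fin 1033 1 969)
(fin 969 0 969)))
(cons (mv 1097 (cons (fin 906 5 905)
(mv 1225 (cons (fin 1033 6 969)
(fin 1289 6 1033)))))
(mv 906 (cons (fin 1097 5 905)
(mv 905 (cons (fin 971 3 905)
(fin 841 7 841))))))))))))
(mv 907 (cons (fin 971 7 907)
(mv 908 (cons (fin 843 7 843)
(fin 844 4 844))))))))))))))
(cons (mv 1164 (cons (fin 1228 6 972)
(mv 1102 (cons (fin 1163 1 1099)
(mv 1099 (cons (fin 1097 2 1033)
(mv 1167 (cons (fin 1166 0 1099)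
(fin 1168 0 1100)))))))))
(mv 1164 (cons (fin 1228 6 972)
(mv 1102 (cons (fin 1163 1 1099)
(mv 1099 (cons (fin 1033 3 1033)
(mv 1167 (cons (fin 1166 0 1099)
(fin 1168 0 1100))))))))))))))))))
(cons (mv 970 (cons (cons (cons (mv 972 (cons (cons (mv 971 (cons (fin 1033 1 969)
(fin 969 0 969)))
(mv 908 (cons (fin 844 4 844)
(mv 1100 (cons (cons (mv 843 (cons (fin 907 7 843)
(mv 1164 (cons (fin 1228 6 972)
(mv 1163 (cons (fin 1099 5 907)
(fin 1227 5 971)))))))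
(mv 1164 (cons (fin 1228 6 972)
(mv 1163 (cons (fin 1227 5 971)
(mv 1161 (cons (fin 1162 2 1097)
(mv 907 (cons (fin 843 7 843)
(mv 906 (cons (fin 905 0 905)
(mv 1097 (cons (fin 1098 5 905)
(mv 1033 (cons (fin 842 5 841)
(fin 969 6 905))))))))))))))))
(cons (mv 1099 (cons (fin 1163 5 907)
(mv 1098 (cons (fin 1033 3 1033)
(fin 1097 2 1033)))))
(mv 907 (cons (fin 843 7 843)
(mv 1164 (cons (fin 1228 6 972)
(mv 905 (cons (fin 906 0 905)
(mv 1098 (cons (mv 1099 (cons (fin 1033 3 1033)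
(fin 1097 2 1033)))
(cons (mv 969 (cons (fin 1162 7 905)
(mv 841 (cons (fin 777 4 777)
(fin 1033 4 841)))))
(mv 1162 (cons (fin 969 7 905)
(mv 1099 (cons (fin 1161 1 1097)
(fin 1097 2 1033))))))))))))))))))))
(cons (mv 844 (cons (fin 908 4 844)
(mv 969 (cons (fin 971 0 969)
(mv 1098 (cons (cons (mv 905 (cons (fin 1162 7 905)
(mv 841 (cons (fin 906 7 841)
(fin 777 4 777)))))
(mv 906 (cons (cons (mv 841 (cons (fin 905 7 841)
(mv 777 (cons (fin 842 7 777)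
(mv 1099 (cons (fin 1163 4 906)
(mv 1097 (cons (fin 1100 2 1033)
(fin 1161 5 905)))))))))
(mv 843 (cons (fin 907 6 842)
(mv 779 (cons (fin 842 6 778)
(mv 1099 (cons (fin 1163 4 906)
(mv 1097 (cons (fin 1100 2 1033)
(fin 1161 5 905))))))))))
(cons (mv 841 (cons (fin 905 7 841)
(mv 842 (cons (fin 777 7 777)
(mv 843 (cons (fin 779 6 778)
(fin 907 6 842)))))))
(mv 843 (cons (fin 907 6 842)
(mv 1097 (cons (fin 1161 5 905)
(mv 1099 (cons (fin 1100 2 1033)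
(fin 1163 4 906)))))))))))
(cons (mv 906 (cons (cons (mv 1097 (cons (fin 1161 5 905)
(mv 1099 (cons (fin 1100 2 1033)
(fin 1163 4 906)))))
(mv 1097 (cons (fin 1161 5 905)
(mv 843 (cons (fin 907 6 842)
(mv 842 (cons (fin 779 6 778)
(mv 777 (cons (fin 841 7 777)
(mv 778 (cons (fin 845 3 777)
(fin 713 7 713))))))))))))
(cons (mv 843 (cons (fin 907 6 842)
(mv 842 (cons (fin 779 6 778)
(mv 1099 (cons (fin 1163 4 906)
(mv 1097 (cons (fin 1100 2 1033)
(mv 777 (cons (fin 841 7 777)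
(mv 778 (cons (fin 845 3 777)
(fin 713 7 713)))))))))))))
(mv 1099 (cons (fin 1163 4 906)
(mv 843 (cons (fin 907 6 842)
(mv 842 (cons (fin 779 6 778)
(mv 777 (cons (fin 841 7 777)
(mv 778 (cons (fin 845 3 777)
(fin 713 7 713))))))))))))))
(mv 1162 (cons (fin 905 7 905)
(mv 1161 (cons (fin 1225 5 969)
(mv 1100 (cons (fin 1099 1 1097)
(mv 1163 (cons (fin 1164 2 1097)
(fin 1227 4 970))))))))))))))))
(mv 971 (cons (fin 1033 1 969)
(mv 905 (cons (fin 906 3 905)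
(mv 908 (cons (fin 844 4 844)
(mv 1100 (cons (mv 907 (cons (fin 843 7 843)
(fin 1164 7 907)))
(cons (mv 1164 (cons (fin 1228 6 972)
(mv 1163 (cons (fin 1099 5 907)
(fin 1227 5 971)))))
(mv 907 (cons (fin 843 7 843)
(mv 1099 (cons (fin 1163 5 907)
(mv 1098 (cons (fin 1097 2 1033)
(fin 1162 6 906)))))))))))))))))))
(cons (mv 1098 (cons (cons (cons (mv 1162 (cons (cons (mv 905 (cons (fin 969 7 905)
(mv 841 (cons (fin 906 7 841)
(mv 1163 (cons (fin 1227 4 970)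
(mv 907 (cons (fin 971 6 906)
(mv 1161 (cons (fin 1225 5 969)
(mv 1100 (cons (fin 1099 1 1097)
(fin 1164 2 1097)))))))))))))
(cons (mv 905 (cons (fin 969 7 905)
(mv 841 (cons (fin 906 7 841)
(mv 1227 (cons (fin 1163 4 970)
(mv 1226 (cons (fin 1291 4 1034)
(mv 1289 (cons (fin 1225 5 1033)
(mv 1290 (cons (fin 1353 5 1097)
(mv 1033 (cons (fin 1097 7 1033)
(mv 1100 (cons (fin 1099 3 1033)
(mv 1228 (cons (fin 1229 1 1225)
(fin 1164 6 972)))))))))))))))))))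
(mv 907 (cons (fin 971 6 906)
(mv 843 (cons (fin 906 6 842)
(mv 969 (cons (fin 905 7 905)
(mv 1161 (cons (fin 1225 5 969)
(mv 1099 (cons (fin 1100 1 1097)
(mv 1160 (cons (fin 1159 2 1095)
(mv 1033 (cons (fin 1226 7 969)
(mv 1032 (cons (fin 1031 0 1031)
(mv 1224 (cons (fin 1097 5 968)
(fin 1096 6 968)))))))))))))))))))))
(cons (mv 1163 (cons (fin 1227 4 970)
(mv 906 (cons (fin 1099 4 906)
(mv 907 (cons (fin 843 6 842)
(fin 971 6 906)))))))
(cons (mv 907 (cons (fin 971 6 906)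
(mv 905 (cons (fin 969 7 905)
(mv 1163 (cons (fin 1227 4 970)
(mv 1161 (cons (fin 1225 5 969)
(mv 1100 (cons (fin 1099 1 1097)
(fin 1164 2 1097)))))))))))
(mv 1161 (cons (fin 1225 5 969)
(mv 906 (cons (fin 1097 5 905)
(mv 905 (cons (fin 841 7 841)
(fin 969 7 905)))))))))))
(mv 906 (cons (mv 841 (cons (fin 905 7 841)
(mv 777 (cons (fin 842 7 777)
(mv 1099 (cons (fin 1163 4 906)
(mv 1097 (cons (fin 1100 2 1033)
(fin 1161 5 905)))))))))
(cons (mv 843 (cons (fin 907 6 842)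
(mv 842 (cons (fin 779 6 778)
(mv 841 (cons (fin 777 7 777)
(fin 905 7 841)))))))
(mv 1099 (cons (fin 1163 4 906)
(mv 1097 (cons (fin 1100 2 1033)
(fin 1161 5 905)))))))))
(cons (mv 1162 (cons (cons (mv 907 (cons (fin 971 6 906)
(mv 905 (cons (fin 969 7 905)
(mv 1163 (cons (fin 1227 4 970)
(mv 1161 (cons (fin 1225 5 969)
(mv 1100 (cons (fin 1099 1 1097)
(fin 1164 2 1097)))))))))))
(cons (mv 905 (cons (fin 969 7 905)
(mv 907 (cons (fin 971 6 906)
(mv 1227 (cons (fin 1163 4 970)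
(mv 1226 (cons (fin 1291 4 1034)
(mv 1289 (cons (fin 1225 5 1033)
(mv 1290 (cons (fin 1353 5 1097)
(mv 1033 (cons (fin 1097 7 1033)
(mv 1100 (cons (fin 1099 3 1033)
(mv 1228 (cons (fin 1229 1 1225)
(fin 1164 6 972)))))))))))))))))))
(mv 1163 (cons (fin 1227 4 970)
(mv 1161 (cons (fin 1225 5 969)
(mv 1100 (cons (fin 1099 1 1097)
(fin 1164 2 1097)))))))))
(cons (cons (mv 907 (cons (fin 971 6 906)
(mv 1163 (cons (fin 1227 4 970)
(mv 969 (cons (fin 905 7 905)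
(mv 1033 (cons (fin 1226 7 969)
(mv 1100 (cons (fin 1099 3 1033)
(mv 1164 (cons (fin 1161 2 1097)
(fin 1228 6 972)))))))))))))
(mv 905 (cons (fin 969 7 905)
(mv 907 (cons (fin 971 6 906)
(mv 1161 (cons (fin 1225 5 969)
(mv 1100 (cons (fin 1099 1 1097)
(mv 1164 (cons (fin 1163 2 1097)
(fin 1228 6 972))))))))))))
(cons (mv 1161 (cons (fin 1225 5 969)
(mv 1099 (cons (fin 1100 1 1097)
(mv 1159 (cons (fin 1160 2 1095)
(mv 969 (cons (fin 905 7 905)
(mv 1226 (cons (fin 1033 7 969)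
(mv 1291 (cons (fin 1227 4 1034)
(mv 1290 (cons (fin 1355 4 1098)
(mv 1353 (cons (fin 1289 5 1097)
(mv 1354 (cons (fin 1097 7 1097)
(fin 1417 5 1161)))))))))))))))))))
(mv 907 (cons (fin 971 6 906)
(mv 1163 (cons (fin 1227 4 970)
(mv 1225 (cons (fin 1161 5 969)
(mv 969 (cons (fin 905 7 905)
(mv 1226 (cons (fin 1033 7 969)
(fin 1289 5 1033)))))))))))))))
(cons (mv 1162 (cons (cons (mv 1161 (cons (fin 1225 5 969)
(mv 906 (cons (fin 1097 5 905)
(mv 905 (cons (fin 841 7 841)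
(fin 969 7 905)))))))
(mv 905 (cons (fin 969 7 905)
(mv 906 (cons (fin 841 7 841)
(mv 907 (cons (fin 843 6 842)
(fin 971 6 906))))))))
(cons (mv 907 (cons (fin 971 6 906)
(mv 843 (cons (fin 906 6 842)
(mv 1225 (cons (fin 1161 5 969)
(mv 1227 (cons (fin 1163 4 970)
(mv 1226 (cons (fin 1289 5 1033)
(fin 1291 4 1034)))))))))))
(mv 1161 (cons (fin 1225 5 969)
(mv 969 (cons (fin 905 7 905)
(mv 907 (cons (fin 971 6 906)
(mv 1033 (cons (fin 1226 7 969)
(mv 1163 (cons (fin 1227 4 970)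
(mv 1164 (cons (fin 1100 2 1097)
(mv 1096 (cons (fin 1097 3 1096)
(mv 1160 (cons (fin 1095 3 1095)
(mv 1224 (cons (fin 1223 1 1159)
(fin 1032 6 968))))))))))))))))))))))
(mv 906 (cons (cons (mv 841 (cons (fin 905 7 841)
(mv 777 (cons (fin 842 7 777)
(mv 1099 (cons (fin 1163 4 906)
(mv 907 (cons (fin 843 6 842)
(mv 1161 (cons (fin 1097 5 905)
(mv 1162 (cons (fin 1225 5 969)
(fin 971 6 906)))))))))))))
(cons (mv 843 (cons (fin 907 6 842)
(mv 779 (cons (fin 842 6 778)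
(mv 1163 (cons (fin 1099 4 906)
(mv 1161 (cons (fin 1097 5 905)
(mv 1162 (cons (fin 1225 5 969)
(fin 1227 4 970)))))))))))
(mv 1099 (cons (fin 1163 4 906)
(mv 843 (cons (fin 907 6 842)
(mv 842 (cons (fin 779 6 778)
(mv 841 (cons (fin 777 7 777)
(fin 905 7 841)))))))))))
(cons (mv 841 (cons (fin 905 7 841)
(mv 777 (cons (fin 842 7 777)
(mv 1163 (cons (fin 1099 4 906)
(mv 1161 (cons (fin 1097 5 905)
(mv 1162 (cons (fin 1225 5 969)
(fin 1227 4 970)))))))))))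
(cons (mv 843 (cons (fin 907 6 842)
(mv 779 (cons (fin 842 6 778)
(mv 905 (cons (fin 841 7 841)
(mv 1161 (cons (fin 1097 5 905)
(mv 1162 (cons (fin 969 7 905)
(fin 1225 5 969)))))))))))
(mv 841 (cons (fin 905 7 841)
(mv 1099 (cons (fin 1163 4 906)
(mv 907 (cons (fin 843 6 842)
(mv 1161 (cons (fin 1097 5 905)
(mv 1162 (cons (fin 1225 5 969)
(fin 971 6 906))))))))))))))))))
(cons (cons (mv 1162 (cons (cons (mv 905 (cons (fin 969 7 905)
(mv 841 (cons (fin 906 7 841)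
(mv 1163 (cons (fin 1227 4 970)
(mv 907 (cons (fin 971 6 906)
(mv 1161 (cons (fin 1225 5 969)
(mv 1100 (cons (fin 1099 1 1097)
(fin 1164 2 1097)))))))))))))
(mv 905 (cons (fin 969 7 905)
(mv 906 (cons (fin 841 7 841)
(mv 907 (cons (fin 843 6 842)
(fin 971 6 906))))))))
(cons (mv 1163 (cons (fin 1227 4 970)
(mv 906 (cons (fin 1099 4 906)
(mv 907 (cons (fin 843 6 842)
(fin 971 6 906)))))))
(cons (mv 1161 (cons (fin 1225 5 969)
(mv 1099 (cons (fin 1100 1 1097)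
(mv 1163 (cons (fin 906 4 906)
(fin 1227 4 970)))))))
(mv 1163 (cons (fin 1227 4 970)
(mv 907 (cons (fin 971 6 906)
(mv 1161 (cons (fin 1225 5 969)
(mv 1100 (cons (fin 1099 1 1097)
(fin 1164 2 1097)))))))))))))
(mv 906 (cons (mv 841 (cons (fin 905 7 841)
(mv 777 (cons (fin 842 7 777)
(mv 1099 (cons (fin 1163 4 906)
(mv 1100 (cons (fin 1033 3 1033)
(fin 1097 2 1033)))))))))
(cons (mv 843 (cons (fin 907 6 842)
(mv 842 (cons (fin 779 6 778)
(mv 841 (cons (fin 777 7 777)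
(fin 905 7 841)))))))
(mv 1099 (cons (fin 1163 4 906)
(mv 1100 (cons (fin 1033 3 1033)
(fin 1097 2 1033)))))))))
(cons (mv 1162 (cons (cons (mv 1161 (cons (fin 1225 5 969)
(mv 906 (cons (fin 1097 5 905)
(mv 907 (cons (fin 843 6 842)
(fin 971 6 906)))))))
(mv 1163 (cons (fin 1227 4 970)
(mv 906 (cons (fin 1099 4 906)
(mv 907 (cons (fin 843 6 842)
(fin 971 6 906))))))))
(cons (mv 1161 (cons (fin 1225 5 969)
(mv 906 (cons (fin 1097 5 905)
(mv 1099 (cons (fin 1100 1 1097)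
(fin 1163 4 906)))))))
(mv 1163 (cons (fin 1227 4 970)
(mv 907 (cons (fin 971 6 906)
(mv 1161 (cons (fin 1225 5 969)
(mv 1100 (cons (fin 1099 1 1097)
(fin 1164 2 1097))))))))))))
(cons (mv 1162 (cons (cons (mv 907 (cons (fin 971 6 906)
(mv 843 (cons (fin 906 6 842)
(mv 969 (cons (fin 905 7 905)
(mv 1161 (cons (fin 1225 5 969)
(mv 1099 (cons (fin 1100 1 1097)
(mv 1160 (cons (fin 1159 2 1095)
(mv 1033 (cons (fin 1226 7 969)
(mv 1032 (cons (fin 1031 0 1031)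
(mv 1224 (cons (fin 1097 5 968)
(fin 1096 6 968)))))))))))))))))))
(mv 905 (cons (fin 969 7 905)
(mv 906 (cons (fin 841 7 841)
(mv 907 (cons (fin 843 6 842)
(fin 971 6 906))))))))
(cons (mv 907 (cons (fin 971 6 906)
(mv 906 (cons (fin 843 6 842)
(mv 1161 (cons (fin 1097 5 905)
(fin 1225 5 969)))))))
(cons (mv 1161 (cons (fin 1225 5 969)
(mv 906 (cons (fin 1097 5 905)
(mv 905 (cons (fin 841 7 841)
(fin 969 7 905)))))))
(mv 1161 (cons (fin 1225 5 969)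
(mv 1099 (cons (fin 1100 1 1097)
(mv 1159 (cons (fin 1160 2 1095)
(mv 969 (cons (fin 905 7 905)
(mv 1226 (cons (fin 1033 7 969)
(mv 1291 (cons (fin 1227 4 1034)
(mv 1290 (cons (fin 1355 4 1098)
(mv 1353 (cons (fin 1289 5 1097)
(mv 1354 (cons (fin 1097 7 1097)
(fin 1417 5 1161)))))))))))))))))))))))
(mv 1162 (cons (cons (mv 905 (cons (fin 969 7 905)
(mv 841 (cons (fin 906 7 841)
(mv 1163 (cons (fin 1227 4 970)
(mv 1161 (cons (fin 1225 5 969)
(mv 1100 (cons (fin 1099 1 1097)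
(fin 1164 2 1097)))))))))))
(cons (mv 905 (cons (fin 969 7 905)
(mv 841 (cons (fin 906 7 841)
(mv 1227 (cons (fin 1163 4 970)
(mv 1226 (cons (fin 1291 4 1034)
(mv 1289 (cons (fin 1225 5 1033)
(mv 1290 (cons (fin 1353 5 1097)
(mv 1033 (cons (fin 1097 7 1033)
(mv 1100 (cons (fin 1099 3 1033)
(mv 1228 (cons (fin 1229 1 1225)
(fin 1164 6 972)))))))))))))))))))
(mv 1161 (cons (fin 1225 5 969)
(mv 906 (cons (fin 1097 5 905)
(mv 905 (cons (fin 841 7 841)
(fin 969 7 905)))))))))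
(cons (mv 1161 (cons (fin 1225 5 969)
(mv 906 (cons (fin 1097 5 905)
(mv 1099 (cons (fin 1100 1 1097)
(fin 1163 4 906)))))))
(cons (mv 1163 (cons (fin 1227 4 970)
(mv 906 (cons (fin 1099 4 906)
(mv 905 (cons (fin 841 7 841)
(fin 969 7 905)))))))
(mv 905 (cons (fin 969 7 905)
(mv 1161 (cons (fin 1225 5 969)
(mv 1099 (cons (fin 1100 1 1097)
(mv 1160 (cons (fin 1159 2 1095)
(mv 1163 (cons (fin 1227 4 970)
(mv 1224 (cons (fin 1223 1 1159)
(mv 1096 (cons (fin 1095 3 1095)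
(mv 1097 (cons (fin 1164 3 1096)
(mv 1288 (cons (fin 1033 6 1032)
(fin 1352 6 1096))))))))))))))))))))))))))))
(mv 1098 (cons (cons (cons (mv 906 (cons (cons (mv 841 (cons (fin 905 7 841)
(mv 777 (cons (fin 842 7 777)
(mv 1099 (cons (fin 1163 4 906)
(mv 1097 (cons (fin 1100 2 1033)
(fin 1161 5 905)))))))))
(cons (mv 843 (cons (fin 907 6 842)
(mv 779 (cons (fin 842 6 778)
(mv 1099 (cons (fin 1163 4 906)
(mv 1100 (cons (fin 1033 3 1033)
(mv 905 (cons (fin 841 7 841)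
(mv 1162 (cons (fin 1161 1 1097)
(fin 969 7 905)))))))))))))
(mv 841 (cons (fin 905 7 841)
(mv 842 (cons (fin 777 7 777)
(mv 1097 (cons (fin 1033 5 841)
(fin 1161 5 905)))))))))
(cons (mv 843 (cons (fin 907 6 842)
(mv 779 (cons (fin 842 6 778)
(mv 1099 (cons (fin 1163 4 906)
(mv 1097 (cons (fin 1100 2 1033)
(fin 1161 5 905)))))))))
(cons (mv 841 (cons (fin 905 7 841)
(mv 777 (cons (fin 842 7 777)
(mv 843 (cons (fin 907 6 842)
(mv 1099 (cons (fin 1163 4 906)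
(mv 1100 (cons (fin 1033 3 1033)
(fin 1097 2 1033)))))))))))
(mv 1099 (cons (fin 1163 4 906)
(mv 1097 (cons (fin 1100 2 1033)
(fin 1161 5 905)))))))))
(mv 1162 (cons (cons (mv 905 (cons (fin 969 7 905)
(mv 1163 (cons (fin 1227 4 970)
(mv 1161 (cons (fin 1225 5 969)
(mv 1100 (cons (fin 1099 1 1097)
(fin 1164 2 1097)))))))))
(cons (mv 905 (cons (fin 969 7 905)
(mv 1227 (cons (fin 1163 4 970)
(mv 1226 (cons (fin 1291 4 1034)
(mv 1289 (cons (fin 1225 5 1033)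
(mv 1290 (cons (fin 1353 5 1097)
(mv 1033 (cons (fin 1097 7 1033)
(mv 1100 (cons (fin 1099 3 1033)
(mv 1228 (cons (fin 1229 1 1225)
(fin 1164 6 972)))))))))))))))))
(mv 1163 (cons (fin 1227 4 970)
(mv 1161 (cons (fin 1225 5 969)
(mv 1100 (cons (fin 1099 1 1097)
(fin 1164 2 1097)))))))))
(cons (cons (mv 969 (cons (fin 905 7 905)
(mv 1163 (cons (fin 1227 4 970)
(mv 1033 (cons (fin 1226 7 969)
(mv 1100 (cons (fin 1099 3 1033)
(mv 1164 (cons (fin 1161 2 1097)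
(fin 1228 6 972)))))))))))
(mv 905 (cons (fin 969 7 905)
(mv 1161 (cons (fin 1225 5 969)
(mv 1100 (cons (fin 1099 1 1097)
(mv 1164 (cons (fin 1163 2 1097)
(fin 1228 6 972))))))))))
(cons (mv 1161 (cons (fin 1225 5 969)
(mv 1099 (cons (fin 1100 1 1097)
(mv 1159 (cons (fin 1160 2 1095)
(mv 969 (cons (fin 905 7 905)
(mv 1226 (cons (fin 1033 7 969)
(mv 1291 (cons (fin 1227 4 1034)
(mv 1290 (cons (fin 1355 4 1098)
(mv 1353 (cons (fin 1289 5 1097)
(mv 1354 (cons (fin 1097 7 1097)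
(fin 1417 5 1161)))))))))))))))))))
(mv 905 (cons (fin 969 7 905)
(mv 1227 (cons (fin 1163 4 970)
(mv 1225 (cons (fin 1161 5 969)
(mv 1226 (cons (fin 1289 5 1033)
(fin 1291 4 1034))))))))))))))
(cons (mv 906 (cons (mv 841 (cons (fin 905 7 841)
(mv 777 (cons (fin 842 7 777)
(mv 1099 (cons (fin 1163 4 906)
(mv 1097 (cons (fin 1100 2 1033)
(fin 1161 5 905)))))))))
(cons (mv 843 (cons (fin 907 6 842)
(mv 842 (cons (fin 779 6 778)
(mv 841 (cons (fin 777 7 777)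
(fin 905 7 841)))))))
(mv 1099 (cons (fin 1163 4 906)
(mv 1097 (cons (fin 1100 2 1033)
(fin 1161 5 905))))))))
(mv 906 (cons (cons (mv 841 (cons (fin 905 7 841)
(mv 842 (cons (fin 777 7 777)
(mv 1097 (cons (fin 1033 5 841)
(fin 1161 5 905)))))))
(mv 843 (cons (fin 907 6 842)
(mv 842 (cons (fin 779 6 778)
(mv 1097 (cons (fin 1033 5 841)
(fin 1161 5 905))))))))
(cons (mv 841 (cons (fin 905 7 841)
(mv 842 (cons (fin 777 7 777)
(mv 843 (cons (fin 779 6 778)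
(fin 907 6 842)))))))
(mv 843 (cons (fin 907 6 842)
(mv 1097 (cons (fin 1161 5 905)
(mv 905 (cons (fin 841 7 841)
(mv 1162 (cons (fin 969 7 905)
(mv 1227 (cons (fin 1163 4 970)
(mv 1226 (cons (fin 1291 4 1034)
(mv 1289 (cons (fin 1225 5 1033)
(mv 1290 (cons (fin 1033 7 1033)
(fin 1353 5 1097))))))))))))))))))))))
(cons (cons (mv 1162 (cons (cons (mv 905 (cons (fin 969 7 905)
(mv 841 (cons (fin 906 7 841)
(mv 1163 (cons (fin 1227 4 970)
(mv 1161 (cons (fin 1225 5 969)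
(mv 1100 (cons (fin 1099 1 1097)
(fin 1164 2 1097)))))))))))
(cons (mv 1161 (cons (fin 1225 5 969)
(mv 1100 (cons (fin 1099 1 1097)
(mv 1228 (cons (fin 1164 6 972)
(mv 969 (cons (fin 905 7 905)
(mv 1226 (cons (fin 1033 7 969)
(mv 1227 (cons (fin 1229 3 1161)
(fin 1291 4 1034)))))))))))))
(mv 905 (cons (fin 969 7 905)
(mv 906 (cons (fin 841 7 841)
(mv 1163 (cons (fin 1099 4 906)
(fin 1227 4 970)))))))))
(cons (cons (mv 1161 (cons (fin 1225 5 969)
(mv 1099 (cons (fin 1100 1 1097)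
(mv 906 (cons (fin 1163 4 906)
(mv 905 (cons (fin 841 7 841)
(fin 969 7 905)))))))))
(mv 1163 (cons (fin 1227 4 970)
(mv 906 (cons (fin 1099 4 906)
(mv 843 (cons (fin 907 6 842)
(mv 842 (cons (fin 779 6 778)
(mv 841 (cons (fin 777 7 777)
(fin 905 7 841))))))))))))
(cons (mv 1161 (cons (fin 1225 5 969)
(mv 1099 (cons (fin 1100 1 1097)
(mv 1163 (cons (fin 906 4 906)
(fin 1227 4 970)))))))
(mv 1163 (cons (fin 1227 4 970)
(mv 969 (cons (fin 905 7 905)
(mv 1225 (cons (fin 1161 5 969)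
(mv 1226 (cons (fin 1033 7 969)
(fin 1289 5 1033)))))))))))))
(mv 906 (cons (cons (mv 841 (cons (fin 905 7 841)
(mv 777 (cons (fin 842 7 777)
(mv 843 (cons (fin 907 6 842)
(mv 1099 (cons (fin 1163 4 906)
(mv 1100 (cons (fin 1033 3 1033)
(fin 1097 2 1033)))))))))))
(mv 841 (cons (fin 905 7 841)
(mv 842 (cons (fin 777 7 777)
(mv 843 (cons (fin 779 6 778)
(fin 907 6 842))))))))
(cons (mv 843 (cons (fin 907 6 842)
(mv 779 (cons (fin 842 6 778)
(mv 1099 (cons (fin 1163 4 906)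
(mv 1100 (cons (fin 1033 3 1033)
(fin 1097 2 1033)))))))))
(mv 1099 (cons (fin 1163 4 906)
(mv 1100 (cons (fin 1033 3 1033)
(fin 1097 2 1033)))))))))
(cons (mv 1099 (cons (cons (mv 1100 (cons (fin 1033 3 1033)
(fin 1097 2 1033)))
(mv 906 (cons (fin 1163 4 906)
(mv 843 (cons (fin 907 6 842)
(mv 842 (cons (fin 779 6 778)
(mv 1097 (cons (fin 1033 5 841)
(fin 1161 5 905))))))))))
(cons (mv 906 (cons (fin 1163 4 906)
(mv 843 (cons (fin 907 6 842)
(mv 842 (cons (fin 779 6 778)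
(mv 1033 (cons (fin 1100 3 1033)
(mv 777 (cons (fin 841 7 777)
(mv 778 (cons (fin 713 7 713)
(fin 969 5 777)))))))))))))
(mv 1097 (cons (fin 1100 2 1033)
(mv 906 (cons (fin 1161 5 905)
(fin 1163 4 906))))))))
(mv 906 (cons (cons (mv 841 (cons (fin 905 7 841)
(mv 842 (cons (fin 777 7 777)
(mv 1097 (cons (fin 1033 5 841)
(fin 1161 5 905)))))))
(mv 843 (cons (fin 907 6 842)
(mv 842 (cons (fin 779 6 778)
(mv 841 (cons (fin 777 7 777)
(fin 905 7 841))))))))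
(cons (mv 1097 (cons (fin 1161 5 905)
(mv 842 (cons (fin 1033 5 841)
(mv 843 (cons (fin 779 6 778)
(fin 907 6 842)))))))
(mv 843 (cons (fin 907 6 842)
(mv 905 (cons (fin 841 7 841)
(mv 1161 (cons (fin 1097 5 905)
(mv 1162 (cons (fin 969 7 905)
(fin 1225 5 969))))))))))))))))))
(cons (cons (mv 972 (cons (cons (cons (mv 844 (cons (fin 908 4 844)
(mv 969 (cons (fin 971 0 969)
(mv 1098 (cons (cons (mv 905 (cons (fin 1162 7 905)
(mv 841 (cons (fin 906 7 841)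
(fin 777 4 777)))))
(mv 906 (cons (cons (mv 841 (cons (fin 905 7 841)
(mv 777 (cons (fin 842 7 777)
(mv 1099 (cons (fin 1163 4 906)
(mv 1097 (cons (fin 1100 2 1033)
(fin 1161 5 905)))))))))
(mv 843 (cons (fin 907 6 842)
(mv 779 (cons (fin 842 6 778)
(mv 1099 (cons (fin 1163 4 906)
(mv 1097 (cons (fin 1100 2 1033)
(fin 1161 5 905))))))))))
(cons (mv 841 (cons (fin 905 7 841)
(mv 842 (cons (fin 777 7 777)
(mv 843 (cons (fin 779 6 778)
(fin 907 6 842)))))))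
(mv 843 (cons (fin 907 6 842)
(mv 1097 (cons (fin 1161 5 905)
(mv 1099 (cons (fin 1100 2 1033)
(fin 1163 4 906)))))))))))
(cons (mv 906 (cons (cons (mv 1097 (cons (fin 1161 5 905)
(mv 1099 (cons (fin 1100 2 1033)
(fin 1163 4 906)))))
(mv 1097 (cons (fin 1161 5 905)
(mv 843 (cons (fin 907 6 842)
(mv 842 (cons (fin 779 6 778)
(mv 777 (cons (fin 841 7 777)
(mv 778 (cons (fin 845 3 777)
(fin 713 7 713))))))))))))
(cons (mv 843 (cons (fin 907 6 842)
(mv 842 (cons (fin 779 6 778)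
(mv 1099 (cons (fin 1163 4 906)
(mv 1097 (cons (fin 1100 2 1033)
(mv 777 (cons (fin 841 7 777)
(mv 778 (cons (fin 845 3 777)
(fin 713 7 713)))))))))))))
(mv 1099 (cons (fin 1163 4 906)
(mv 843 (cons (fin 907 6 842)
(mv 842 (cons (fin 779 6 778)
(mv 777 (cons (fin 841 7 777)
(mv 778 (cons (fin 845 3 777)
(fin 713 7 713))))))))))))))
(mv 1162 (cons (fin 905 7 905)
(mv 1161 (cons (fin 1225 5 969)
(mv 1100 (cons (fin 1099 1 1097)
(mv 1163 (cons (fin 1164 2 1097)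
(fin 1227 4 970))))))))))))))))
(mv 906 (cons (cons (mv 908 (cons (fin 844 4 844)
(mv 905 (cons (fin 907 0 905)
(mv 841 (cons (fin 1098 7 841)
(mv 777 (cons (fin 842 7 777)
(fin 713 4 713)))))))))
(cons (mv 1098 (cons (cons (mv 841 (cons (fin 905 7 841)
(mv 777 (cons (fin 842 7 777)
(mv 1099 (cons (fin 1163 4 906)
(mv 1097 (cons (fin 1100 2 1033)
(fin 1161 5 905)))))))))
(mv 843 (cons (fin 907 6 842)
(mv 779 (cons (fin 842 6 778)
(mv 1099 (cons (fin 1163 4 906)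
(mv 1097 (cons (fin 1100 2 1033)
(fin 1161 5 905))))))))))
(cons (mv 1097 (cons (fin 1161 5 905)
(mv 843 (cons (fin 907 6 842)
(mv 842 (cons (fin 779 6 778)
(mv 841 (cons (fin 777 7 777)
(fin 905 7 841)))))))))
(cons (mv 841 (cons (fin 905 7 841)
(mv 842 (cons (fin 777 7 777)
(mv 843 (cons (fin 779 6 778)
(fin 907 6 842)))))))
(mv 1099 (cons (fin 1163 4 906)
(mv 1097 (cons (fin 1100 2 1033)
(fin 1161 5 905)))))))))
(mv 908 (cons (fin 844 4 844)
(mv 907 (cons (fin 905 0 905)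
(mv 843 (cons (fin 1100 7 843)
(mv 779 (cons (fin 715 5 714)
(fin 842 6 778)))))))))))
(cons (mv 844 (cons (fin 908 4 844)
(mv 1098 (cons (cons (mv 1097 (cons (fin 1161 5 905)
(mv 1099 (cons (fin 1100 2 1033)
(fin 1163 4 906)))))
(mv 1097 (cons (fin 1161 5 905)
(mv 843 (cons (fin 907 6 842)
(mv 842 (cons (fin 779 6 778)
(mv 777 (cons (fin 841 7 777)
(mv 778 (cons (fin 845 3 777)
(fin 713 7 713))))))))))))
(cons (mv 843 (cons (fin 907 6 842)
(mv 842 (cons (fin 779 6 778)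
(mv 1099 (cons (fin 1163 4 906)
(mv 1097 (cons (fin 1100 2 1033)
(mv 777 (cons (fin 841 7 777)
(mv 778 (cons (fin 845 3 777)
(fin 713 7 713)))))))))))))
(mv 1099 (cons (fin 1163 4 906)
(mv 843 (cons (fin 907 6 842)
(mv 842 (cons (fin 779 6 778)
(mv 777 (cons (fin 841 7 777)
(mv 778 (cons (fin 845 3 777)
(fin 713 7 713))))))))))))))))
(cons (mv 844 (cons (fin 908 4 844)
(mv 1098 (cons (cons (mv 841 (cons (fin 905 7 841)
(mv 777 (cons (fin 842 7 777)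
(mv 1099 (cons (fin 1163 4 906)
(mv 1097 (cons (fin 1100 2 1033)
(fin 1161 5 905)))))))))
(mv 1097 (cons (fin 1161 5 905)
(mv 1099 (cons (fin 1100 2 1033)
(fin 1163 4 906))))))
(cons (mv 905 (cons (fin 841 7 841)
(mv 1161 (cons (fin 1097 5 905)
(mv 1162 (cons (fin 969 7 905)
(fin 1225 5 969)))))))
(mv 905 (cons (fin 841 7 841)
(mv 1163 (cons (fin 1099 4 906)
(mv 1162 (cons (fin 969 7 905)
(fin 1227 4 970))))))))))))
(mv 908 (cons (fin 844 4 844)
(mv 905 (cons (fin 907 0 905)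
(mv 841 (cons (fin 1098 7 841)
(mv 777 (cons (fin 713 4 713)
(fin 969 4 777))))))))))))))
(cons (mv 969 (cons (fin 971 0 969)
(mv 1098 (cons (cons (mv 905 (cons (fin 1162 7 905)
(mv 841 (cons (fin 906 7 841)
(fin 777 4 777)))))
(mv 906 (cons (cons (mv 841 (cons (fin 905 7 841)
(mv 777 (cons (fin 842 7 777)
(mv 1099 (cons (fin 1163 4 906)
(mv 1097 (cons (fin 1100 2 1033)
(fin 1161 5 905)))))))))
(mv 843 (cons (fin 907 6 842)
(mv 779 (cons (fin 842 6 778)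
(mv 1099 (cons (fin 1163 4 906)
(mv 1097 (cons (fin 1100 2 1033)
(fin 1161 5 905))))))))))
(cons (mv 841 (cons (fin 905 7 841)
(mv 842 (cons (fin 777 7 777)
(mv 843 (cons (fin 779 6 778)
(fin 907 6 842)))))))
(mv 843 (cons (fin 907 6 842)
(mv 1097 (cons (fin 1161 5 905)
(mv 1099 (cons (fin 1100 2 1033)
(fin 1163 4 906)))))))))))
(cons (mv 1099 (cons (cons (mv 1097 (cons (fin 1100 2 1033)
(mv 906 (cons (fin 1161 5 905)
(fin 1163 4 906)))))
(mv 1163 (cons (fin 906 4 906)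
(mv 1227 (cons (fin 1291 7 1034)
(fin 1162 4 970))))))
(cons (mv 1097 (cons (fin 1100 2 1033)
(mv 1161 (cons (fin 906 5 905)
(mv 1225 (cons (fin 1162 5 969)
(fin 1289 6 1033)))))))
(mv 1100 (cons (fin 1097 2 1033)
(mv 1162 (cons (fin 1161 1 1097)
(mv 1228 (cons (fin 1164 6 972)
(mv 1227 (cons (fin 1163 4 970)
(mv 1226 (cons (fin 1291 4 1034)
(mv 1289 (cons (fin 1225 5 1033)
(mv 1290 (cons (fin 1229 1 1225)
(fin 1353 5 1097))))))))))))))))))
(mv 1162 (cons (fin 905 7 905)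
(mv 1161 (cons (fin 1225 5 969)
(mv 1100 (cons (fin 1099 1 1097)
(mv 1163 (cons (fin 1164 2 1097)
(fin 1227 4 970))))))))))))))
(cons (mv 844 (cons (fin 908 4 844)
(mv 906 (cons (cons (mv 905 (cons (fin 971 3 905)
(mv 841 (cons (fin 1098 7 841)
(mv 777 (cons (fin 842 7 777)
(fin 713 4 713)))))))
(mv 1098 (cons (cons (mv 1097 (cons (fin 1161 5 905)
(mv 1099 (cons (fin 1100 2 1033)
(fin 1163 4 906)))))
(mv 1097 (cons (fin 1161 5 905)
(mv 843 (cons (fin 907 6 842)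
(mv 842 (cons (fin 779 6 778)
(mv 777 (cons (fin 841 7 777)
(mv 778 (cons (fin 845 3 777)
(fin 713 7 713))))))))))))
(cons (mv 843 (cons (fin 907 6 842)
(mv 842 (cons (fin 779 6 778)
(mv 1099 (cons (fin 1163 4 906)
(mv 1097 (cons (fin 1100 2 1033)
(mv 777 (cons (fin 841 7 777)
(mv 778 (cons (fin 845 3 777)
(fin 713 7 713)))))))))))))
(mv 1099 (cons (fin 1163 4 906)
(mv 843 (cons (fin 907 6 842)
(mv 842 (cons (fin 779 6 778)
(mv 777 (cons (fin 841 7 777)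
(mv 778 (cons (fin 845 3 777)
(fin 713 7 713)))))))))))))))
(cons (mv 842 (cons (cons (mv 905 (cons (fin 971 3 905)
(mv 843 (cons (fin 845 1 841)
(fin 779 6 778)))))
(mv 971 (cons (fin 905 3 905)
(mv 777 (cons (fin 841 7 777)
(mv 778 (cons (fin 713 7 713)
(mv 715 (cons (fin 779 6 714)
(mv 714 (cons (fin 651 6 650)
(fin 907 4 714))))))))))))
(cons (mv 777 (cons (fin 841 7 777)
(mv 778 (cons (fin 713 7 713)
(mv 843 (cons (fin 845 3 777)
(fin 779 6 778)))))))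
(mv 905 (cons (fin 971 3 905)
(mv 777 (cons (fin 841 7 777)
(mv 713 (cons (fin 778 7 713)
(mv 843 (cons (fin 845 1 841)
(mv 904 (cons (fin 903 2 839)
(fin 907 2 840))))))))))))))
(cons (mv 905 (cons (fin 971 3 905)
(mv 1098 (cons (fin 841 7 841)
(mv 1097 (cons (fin 1161 5 905)
(mv 1099 (cons (fin 1100 2 1033)
(fin 1163 4 906)))))))))
(mv 905 (cons (fin 971 3 905)
(mv 843 (cons (mv 842 (cons (fin 845 1 841)
(fin 779 6 778)))
(mv 907 (cons (fin 904 2 840)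
(fin 1098 6 842)))))))))))))
(mv 971 (cons (fin 969 0 969)
(mv 908 (cons (fin 844 4 844)
(mv 1100 (cons (mv 907 (cons (fin 843 7 843)
(fin 1164 7 907)))
(cons (mv 1164 (cons (fin 1228 6 972)
(mv 1163 (cons (fin 1099 5 907)
(fin 1227 5 971)))))
(mv 907 (cons (fin 843 7 843)
(mv 1099 (cons (fin 1163 5 907)
(mv 1098 (cons (fin 1097 2 1033)
(fin 1162 6 906)))))))))))))))))
(cons (cons (mv 844 (cons (fin 908 4 844)
(mv 971 (cons (fin 969 0 969)
(mv 906 (cons (fin 905 3 905)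
(mv 843 (cons (mv 779 (cons (fin 907 5 778)
(fin 842 6 778)))
(cons (mv 842 (cons (fin 779 6 778)
(mv 777 (cons (fin 841 7 777)
(mv 778 (cons (fin 845 3 777)
(fin 713 7 713)))))))
(mv 1098 (cons (fin 907 6 842)
(mv 1161 (cons (fin 1097 5 905)
(mv 1163 (cons (fin 1099 4 906)
(mv 1162 (cons (fin 1225 5 969)
(fin 1227 4 970))))))))))))))))))
(mv 971 (cons (fin 969 0 969)
(mv 908 (cons (fin 844 4 844)
(mv 906 (cons (fin 905 3 905)
(mv 1100 (cons (mv 907 (cons (fin 843 7 843)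
(fin 1164 7 907)))
(cons (mv 1164 (cons (fin 1228 6 972)
(mv 1163 (cons (fin 1099 5 907)
(fin 1227 5 971)))))
(mv 1099 (cons (fin 1163 5 907)
(mv 842 (cons (cons (mv 843 (cons (fin 907 7 843)
(fin 779 6 778)))
(mv 777 (cons (fin 841 7 777)
(mv 778 (cons (fin 713 7 713)
(mv 715 (cons (fin 779 6 714)
(mv 714 (cons (fin 651 6 650)
(fin 907 4 714))))))))))
(cons (mv 779 (cons (fin 843 6 778)
(mv 778 (cons (fin 715 6 714)
(mv 777 (cons (fin 713 7 713)
(fin 841 7 777)))))))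
(mv 777 (cons (fin 841 7 777)
(mv 778 (cons (fin 713 7 713)
(mv 907 (cons (fin 843 7 843)
(fin 714 4 714))))))))))))))))))))))
(cons (mv 908 (cons (fin 844 4 844)
(mv 1100 (cons (cons (mv 969 (cons (fin 971 0 969)
(mv 1099 (cons (fin 1163 5 907)
(mv 1098 (cons (fin 1097 2 1033)
(mv 1162 (cons (fin 1161 1 1097)
(fin 905 7 905)))))))))
(mv 1164 (cons (fin 1228 6 972)
(mv 1098 (cons (cons (mv 969 (cons (fin 971 0 969)
(mv 1097 (cons (fin 1099 2 1033)
(mv 905 (cons (fin 1162 7 905)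
(mv 906 (cons (fin 841 7 841)
(fin 1161 5 905)))))))))
(mv 1097 (cons (fin 1099 2 1033)
(mv 906 (cons (fin 1161 5 905)
(mv 905 (cons (fin 971 3 905)
(fin 841 7 841))))))))
(cons (mv 969 (cons (fin 971 0 969)
(mv 905 (cons (fin 1162 7 905)
(mv 841 (cons (fin 906 7 841)
(fin 777 4 777)))))))
(cons (mv 1097 (cons (fin 1099 2 1033)
(mv 1161 (cons (fin 906 5 905)
(mv 1225 (cons (fin 1162 5 969)
(fin 1289 6 1033)))))))
(mv 1099 (cons (fin 1097 2 1033)
(mv 969 (cons (fin 971 0 969)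
(mv 1162 (cons (fin 1161 1 1097)
(fin 905 7 905))))))))))))))
(cons (mv 1164 (cons (fin 1228 6 972)
(mv 905 (cons (cons (mv 971 (cons (fin 906 3 905)
(fin 969 0 969)))
(mv 1163 (cons (fin 1227 5 971)
(mv 1162 (cons (fin 1161 2 1097)
(mv 841 (cons (cons (mv 1098 (cons (fin 906 7 841)
(fin 969 7 905)))
(mv 906 (cons (fin 1098 7 841)
(mv 777 (cons (fin 842 7 777)
(fin 713 4 713))))))
(cons (mv 777 (cons (fin 969 4 777)
(mv 906 (cons (fin 842 7 777)
(fin 713 4 713)))))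
(mv 969 (cons (fin 1098 7 905)
(fin 777 4 777)))))))))))
(cons (mv 1163 (cons (fin 1227 5 971)
(mv 1161 (cons (fin 1162 2 1097)
(mv 906 (cons (fin 971 3 905)
(mv 1098 (cons (fin 841 7 841)
(fin 1097 5 905)))))))))
(mv 969 (cons (fin 971 0 969)
(mv 777 (cons (fin 841 4 777)
(mv 1162 (cons (fin 1098 7 905)
(mv 1163 (cons (fin 1161 2 1097)
(fin 1227 5 971))))))))))))))
(mv 1164 (cons (fin 1228 6 972)
(mv 1163 (cons (fin 1099 5 907)
(fin 1227 5 971))))))))))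
(cons (mv 971 (cons (fin 969 0 969)
(mv 844 (cons (fin 908 4 844)
(mv 906 (cons (fin 905 3 905)
(mv 907 (cons (mv 843 (cons (fin 779 5 778)
(fin 1098 6 842)))
(cons (mv 1100 (cons (fin 1164 7 907)
(mv 1098 (cons (fin 1162 6 906)
(mv 1097 (cons (fin 1099 2 1033)
(fin 1161 5 905)))))))
(mv 1100 (cons (fin 1164 7 907)
(mv 842 (cons (mv 779 (cons (fin 843 5 778)
(mv 778 (cons (fin 715 6 714)
(fin 714 4 714)))))
(cons (mv 777 (cons (fin 841 7 777)
(mv 778 (cons (fin 713 7 713)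
(fin 714 4 714)))))
(mv 843 (cons (fin 779 5 778)
(mv 845 (cons (fin 846 1 842)
(mv 841 (cons (fin 777 7 777)
(mv 781 (cons (fin 780 2 777)
(fin 782 2 778)))))))))))))))))))))))
(mv 844 (cons (fin 908 4 844)
(mv 971 (cons (fin 969 0 969)
(mv 906 (cons (fin 905 3 905)
(mv 842 (cons (cons (mv 777 (cons (fin 841 7 777)
(mv 778 (cons (fin 713 7 713)
(mv 843 (cons (fin 845 3 777)
(fin 779 6 778)))))))
(mv 777 (cons (fin 841 7 777)
(mv 778 (cons (fin 713 7 713)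
(mv 715 (cons (fin 779 6 714)
(mv 714 (cons (fin 651 6 650)
(fin 907 4 714))))))))))
(cons (mv 777 (cons (fin 841 7 777)
(mv 778 (cons (fin 713 7 713)
(mv 843 (cons (fin 845 3 777)
(mv 907 (cons (fin 1098 6 842)
(fin 714 4 714)))))))))
(cons (mv 778 (cons (mv 779 (cons (fin 715 6 714)
(fin 843 6 778)))
(cons (mv 714 (cons (fin 907 4 714)
(mv 651 (cons (fin 715 6 650)
(mv 650 (cons (fin 587 6 586)
(mv 649 (cons (fin 585 7 585)
(fin 713 7 649)))))))))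
(mv 907 (cons (fin 714 4 714)
(mv 843 (cons (fin 779 5 778)
(fin 1098 6 842))))))))
(mv 843 (cons (fin 779 6 778)
(mv 841 (cons (fin 777 7 777)
(mv 907 (cons (fin 1098 6 842)
(mv 1100 (cons (fin 1164 7 907)
(mv 781 (cons (fin 780 2 777)
(mv 845 (cons (fin 846 1 842)
(fin 782 2 778))))))))))))))))))))))))))))
(mv 972 (cons (cons (mv 971 (cons (fin 1033 1 969)
(fin 969 0 969)))
(mv 908 (cons (fin 844 4 844)
(mv 906 (cons (cons (mv 905 (cons (fin 907 0 905)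
(mv 841 (cons (fin 1098 7 841)
(mv 777 (cons (fin 842 7 777)
(fin 713 4 713)))))))
(cons (mv 842 (cons (cons (mv 777 (cons (fin 841 7 777)
(mv 713 (cons (fin 778 7 713)
(mv 843 (cons (fin 779 6 778)
(mv 1097 (cons (fin 1033 5 841)
(mv 1098 (cons (fin 1161 5 905)
(fin 907 6 842)))))))))))
(mv 777 (cons (fin 841 7 777)
(mv 778 (cons (fin 713 7 713)
(mv 1033 (cons (fin 969 5 777)
(fin 1097 5 841))))))))
(cons (mv 779 (cons (fin 843 6 778)
(mv 778 (cons (fin 715 6 714)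
(mv 777 (cons (fin 713 7 713)
(fin 841 7 777)))))))
(cons (mv 1033 (cons (fin 1097 5 841)
(mv 778 (cons (fin 969 5 777)
(mv 779 (cons (fin 715 6 714)
(fin 843 6 778)))))))
(mv 843 (cons (fin 779 6 778)
(mv 777 (cons (fin 841 7 777)
(mv 1098 (cons (fin 907 6 842)
(mv 1097 (cons (fin 1033 5 841)
(fin 1161 5 905)))))))))))))
(mv 842 (cons (cons (mv 777 (cons (fin 841 7 777)
(mv 778 (cons (fin 713 7 713)
(mv 1033 (cons (fin 969 5 777)
(fin 1097 5 841)))))))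
(mv 779 (cons (fin 843 6 778)
(mv 778 (cons (fin 715 6 714)
(mv 1033 (cons (fin 969 5 777)
(fin 1097 5 841))))))))
(cons (mv 777 (cons (fin 841 7 777)
(mv 778 (cons (fin 713 7 713)
(mv 779 (cons (fin 715 6 714)
(fin 843 6 778)))))))
(mv 779 (cons (fin 843 6 778)
(mv 1097 (cons (fin 1033 5 841)
(mv 841 (cons (fin 777 7 777)
(mv 1098 (cons (fin 905 7 841)
(fin 1161 5 905))))))))))))))
(cons (mv 907 (cons (fin 905 0 905)
(mv 842 (cons (cons (mv 777 (cons (fin 841 7 777)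
(mv 778 (cons (fin 713 7 713)
(mv 1033 (cons (fin 969 5 777)
(fin 1097 5 841)))))))
(mv 779 (cons (fin 843 6 778)
(mv 778 (cons (fin 715 6 714)
(mv 1033 (cons (fin 969 5 777)
(fin 1097 5 841))))))))
(cons (mv 777 (cons (fin 841 7 777)
(mv 778 (cons (fin 713 7 713)
(mv 779 (cons (fin 715 6 714)
(fin 843 6 778)))))))
(mv 843 (cons (fin 779 6 778)
(mv 841 (cons (fin 840 0 840)
(fin 777 7 777))))))))))
(cons (mv 905 (cons (fin 907 0 905)
(mv 841 (cons (fin 1098 7 841)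
(mv 777 (cons (fin 713 4 713)
(fin 969 4 777)))))))
(mv 907 (cons (fin 905 0 905)
(mv 843 (cons (fin 1098 6 842)
(mv 779 (cons (fin 715 5 714)
(fin 842 6 778))))))))))))))
(cons (mv 844 (cons (fin 908 4 844)
(mv 971 (cons (fin 1033 1 969)
(mv 906 (cons (fin 905 3 905)
(mv 843 (cons (mv 779 (cons (fin 907 5 778)
(fin 842 6 778)))
(cons (mv 842 (cons (fin 779 6 778)
(mv 777 (cons (fin 841 7 777)
(mv 778 (cons (fin 845 3 777)
(fin 713 7 713)))))))
(mv 1098 (cons (fin 907 6 842)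
(mv 1161 (cons (fin 1097 5 905)
(mv 1163 (cons (fin 1099 4 906)
(mv 1162 (cons (fin 1225 5 969)
(fin 1227 4 970))))))))))))))))))
(mv 844 (cons (fin 908 4 844)
(mv 971 (cons (fin 969 0 969)
(mv 906 (cons (fin 905 3 905)
(mv 843 (cons (mv 779 (cons (fin 907 5 778)
(fin 842 6 778)))
(cons (mv 842 (cons (fin 779 6 778)
(mv 777 (cons (fin 841 7 777)
(mv 778 (cons (fin 845 3 777)
(fin 713 7 713)))))))
(mv 1098 (cons (fin 907 6 842)
(mv 1161 (cons (fin 1097 5 905)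
(mv 1163 (cons (fin 1099 4 906)
(mv 1162 (cons (fin 1225 5 969)
(fin 1227 4 970))))))))))))))))))))))
(cons (mv 972 (cons (cons (cons (mv 971 (cons (fin 1033 1 969)
(mv 905 (cons (fin 906 3 905)
(mv 908 (cons (fin 844 4 844)
(mv 1100 (cons (mv 907 (cons (fin 843 7 843)
(fin 1164 7 907)))
(cons (mv 1164 (cons (fin 1228 6 972)
(mv 1163 (cons (fin 1099 5 907)
(fin 1227 5 971)))))
(mv 907 (cons (fin 843 7 843)
(mv 1099 (cons (fin 1163 5 907)
(mv 1098 (cons (fin 1097 2 1033)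
(fin 1162 6 906))))))))))))))))
(mv 971 (cons (fin 1033 1 969)
(mv 906 (cons (fin 905 3 905)
(mv 1098 (cons (mv 907 (cons (fin 843 6 842)
(fin 1162 6 906)))
(mv 1097 (cons (fin 1161 5 905)
(mv 1099 (cons (fin 1100 2 1033)
(fin 1163 4 906))))))))))))
(cons (mv 908 (cons (fin 844 4 844)
(mv 906 (cons (cons (mv 905 (cons (fin 907 0 905)
(mv 841 (cons (fin 1098 7 841)
(mv 777 (cons (fin 842 7 777)
(fin 713 4 713)))))))
(mv 842 (cons (cons (mv 777 (cons (fin 841 7 777)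
(mv 713 (cons (fin 778 7 713)
(mv 779 (cons (fin 843 6 778)
(mv 1097 (cons (fin 1033 5 841)
(mv 1098 (cons (fin 1161 5 905)
(mv 1099 (cons (fin 1100 2 1033)
(fin 1163 4 906)))))))))))))
(mv 1097 (cons (fin 1033 5 841)
(mv 779 (cons (fin 843 6 778)
(mv 715 (cons (fin 778 6 714)
(mv 1098 (cons (fin 1161 5 905)
(mv 1099 (cons (fin 1100 2 1033)
(fin 1163 4 906))))))))))))
(cons (mv 777 (cons (fin 841 7 777)
(mv 778 (cons (fin 713 7 713)
(mv 779 (cons (fin 715 6 714)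
(fin 843 6 778)))))))
(mv 1033 (cons (fin 1097 5 841)
(mv 841 (cons (fin 777 7 777)
(mv 1098 (cons (fin 905 7 841)
(mv 1099 (cons (fin 1100 3 1033)
(fin 1163 4 906)))))))))))))
(cons (mv 1100 (cons (cons (mv 843 (cons (fin 907 7 843)
(mv 1164 (cons (fin 1228 6 972)
(mv 1163 (cons (fin 1099 5 907)
(fin 1227 5 971)))))))
(mv 1164 (cons (fin 1228 6 972)
(mv 1163 (cons (fin 1227 5 971)
(mv 1161 (cons (fin 1162 2 1097)
(mv 843 (cons (fin 907 7 843)
(mv 1097 (cons (fin 1098 5 905)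
(mv 842 (cons (fin 1033 5 841)
(fin 779 6 778))))))))))))))
(cons (mv 843 (cons (fin 907 7 843)
(mv 1164 (cons (fin 1228 6 972)
(mv 842 (cons (fin 779 6 778)
(mv 1097 (cons (fin 1033 5 841)
(mv 1098 (cons (fin 1099 2 1033)
(fin 1161 5 905)))))))))))
(cons (mv 843 (cons (fin 907 7 843)
(mv 1099 (cons (fin 1163 5 907)
(mv 1098 (cons (fin 1033 3 1033)
(fin 1097 2 1033)))))))
(mv 1099 (cons (fin 1163 5 907)
(mv 1098 (cons (fin 1033 3 1033)
(fin 1097 2 1033)))))))))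
(cons (mv 907 (cons (fin 905 0 905)
(mv 843 (cons (fin 1100 7 843)
(mv 779 (cons (fin 715 5 714)
(fin 842 6 778)))))))
(mv 905 (cons (fin 907 0 905)
(mv 1098 (cons (fin 841 7 841)
(mv 1097 (cons (fin 1161 5 905)
(mv 1099 (cons (fin 1100 2 1033)
(fin 1163 4 906)))))))))))))))
(cons (mv 844 (cons (fin 908 4 844)
(mv 906 (cons (cons (mv 905 (cons (fin 971 3 905)
(mv 841 (cons (fin 1098 7 841)
(mv 777 (cons (fin 842 7 777)
(fin 713 4 713)))))))
(mv 1098 (cons (cons (mv 1097 (cons (fin 1161 5 905)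
(mv 1099 (cons (fin 1100 2 1033)
(fin 1163 4 906)))))
(mv 1097 (cons (fin 1161 5 905)
(mv 843 (cons (fin 907 6 842)
(mv 842 (cons (fin 779 6 778)
(mv 777 (cons (fin 841 7 777)
(mv 778 (cons (fin 845 3 777)
(fin 713 7 713))))))))))))
(cons (mv 843 (cons (fin 907 6 842)
(mv 842 (cons (fin 779 6 778)
(mv 1099 (cons (fin 1163 4 906)
(mv 1097 (cons (fin 1100 2 1033)
(mv 777 (cons (fin 841 7 777)
(mv 778 (cons (fin 845 3 777)
(fin 713 7 713)))))))))))))
(mv 1099 (cons (fin 1163 4 906)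
(mv 843 (cons (fin 907 6 842)
(mv 842 (cons (fin 779 6 778)
(mv 777 (cons (fin 841 7 777)
(mv 778 (cons (fin 845 3 777)
(fin 713 7 713)))))))))))))))
(cons (mv 842 (cons (cons (mv 905 (cons (fin 971 3 905)
(mv 843 (cons (fin 845 1 841)
(fin 779 6 778)))))
(mv 971 (cons (fin 905 3 905)
(mv 777 (cons (fin 841 7 777)
(mv 778 (cons (fin 713 7 713)
(mv 715 (cons (fin 779 6 714)
(mv 714 (cons (fin 651 6 650)
(fin 907 4 714))))))))))))
(cons (mv 777 (cons (fin 841 7 777)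
(mv 778 (cons (fin 713 7 713)
(mv 843 (cons (fin 845 3 777)
(fin 779 6 778)))))))
(mv 905 (cons (fin 971 3 905)
(mv 777 (cons (fin 841 7 777)
(mv 713 (cons (fin 778 7 713)
(mv 843 (cons (fin 845 1 841)
(mv 904 (cons (fin 903 2 839)
(fin 907 2 840))))))))))))))
(cons (mv 905 (cons (fin 971 3 905)
(mv 1098 (cons (fin 841 7 841)
(mv 1097 (cons (fin 1161 5 905)
(mv 1099 (cons (fin 1100 2 1033)
(fin 1163 4 906)))))))))
(mv 905 (cons (fin 971 3 905)
(mv 843 (cons (mv 842 (cons (fin 845 1 841)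
(fin 779 6 778)))
(mv 907 (cons (fin 904 2 840)
(fin 1098 6 842)))))))))))))
(mv 971 (cons (fin 1033 1 969)
(mv 908 (cons (fin 844 4 844)
(mv 1100 (cons (mv 907 (cons (fin 843 7 843)
(fin 1164 7 907)))
(cons (mv 1164 (cons (fin 1228 6 972)
(mv 1163 (cons (fin 1099 5 907)
(fin 1227 5 971)))))
(mv 907 (cons (fin 843 7 843)
(mv 1099 (cons (fin 1163 5 907)
(mv 1098 (cons (fin 1097 2 1033)
(fin 1162 6 906)))))))))))))))))
(cons (cons (mv 844 (cons (fin 908 4 844)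
(mv 971 (cons (fin 1033 1 969)
(mv 906 (cons (fin 905 3 905)
(mv 843 (cons (mv 779 (cons (fin 907 5 778)
(fin 842 6 778)))
(cons (mv 842 (cons (fin 779 6 778)
(mv 777 (cons (fin 841 7 777)
(mv 778 (cons (fin 845 3 777)
(fin 713 7 713)))))))
(mv 1098 (cons (fin 907 6 842)
(mv 1161 (cons (fin 1097 5 905)
(mv 1163 (cons (fin 1099 4 906)
(mv 1162 (cons (fin 1225 5 969)
(fin 1227 4 970))))))))))))))))))
(mv 908 (cons (fin 844 4 844)
(mv 971 (cons (fin 1033 1 969)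
(mv 906 (cons (fin 905 3 905)
(mv 1100 (cons (mv 907 (cons (fin 843 7 843)
(fin 1164 7 907)))
(cons (mv 1164 (cons (fin 1228 6 972)
(mv 1163 (cons (fin 1099 5 907)
(fin 1227 5 971)))))
(mv 1099 (cons (fin 1163 5 907)
(mv 842 (cons (cons (mv 843 (cons (fin 907 7 843)
(fin 779 6 778)))
(mv 777 (cons (fin 841 7 777)
(mv 778 (cons (fin 713 7 713)
(mv 715 (cons (fin 779 6 714)
(mv 714 (cons (fin 651 6 650)
(fin 907 4 714))))))))))
(cons (mv 779 (cons (fin 843 6 778)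
(mv 778 (cons (fin 715 6 714)
(mv 777 (cons (fin 713 7 713)
(fin 841 7 777)))))))
(mv 777 (cons (fin 841 7 777)
(mv 778 (cons (fin 713 7 713)
(mv 907 (cons (fin 843 7 843)
(fin 714 4 714))))))))))))))))))))))
(cons (mv 844 (cons (fin 908 4 844)
(mv 906 (cons (cons (mv 971 (cons (fin 905 3 905)
(fin 1033 1 969)))
(mv 842 (cons (cons (mv 777 (cons (fin 841 7 777)
(mv 713 (cons (fin 778 7 713)
(mv 779 (cons (fin 843 6 778)
(mv 1097 (cons (fin 1033 5 841)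
(mv 1098 (cons (fin 1161 5 905)
(mv 1099 (cons (fin 1100 2 1033)
(fin 1163 4 906)))))))))))))
(mv 1033 (cons (fin 1097 5 841)
(mv 841 (cons (fin 777 7 777)
(mv 1098 (cons (fin 905 7 841)
(mv 1099 (cons (fin 1100 3 1033)
(fin 1163 4 906))))))))))
(cons (mv 779 (cons (fin 843 6 778)
(mv 715 (cons (fin 778 6 714)
(mv 1097 (cons (fin 1033 5 841)
(mv 1098 (cons (fin 1161 5 905)
(mv 1099 (cons (fin 1100 2 1033)
(fin 1163 4 906)))))))))))
(mv 777 (cons (fin 841 7 777)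
(mv 778 (cons (fin 713 7 713)
(mv 843 (cons (fin 845 3 777)
(fin 779 6 778)))))))))))
(cons (mv 1033 (cons (fin 971 1 969)
(mv 842 (cons (fin 1097 5 841)
(mv 777 (cons (fin 841 7 777)
(mv 778 (cons (fin 713 7 713)
(mv 843 (cons (fin 845 3 777)
(fin 779 6 778)))))))))))
(mv 905 (cons (fin 971 3 905)
(mv 841 (cons (fin 1098 7 841)
(mv 777 (cons (fin 842 7 777)
(fin 713 4 713))))))))))))
(cons (mv 971 (cons (fin 1033 1 969)
(mv 905 (cons (fin 906 3 905)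
(mv 908 (cons (fin 844 4 844)
(mv 1100 (cons (mv 1164 (cons (fin 907 7 907)
(fin 1228 6 972)))
(cons (mv 1099 (cons (fin 1163 5 907)
(mv 1098 (cons (fin 1097 2 1033)
(mv 1162 (cons (fin 1161 1 1097)
(fin 907 6 906)))))))
(mv 1163 (cons (fin 1099 5 907)
(mv 1164 (cons (fin 1227 5 971)
(fin 1228 6 972))))))))))))))
(mv 844 (cons (fin 908 4 844)
(mv 971 (cons (fin 1033 1 969)
(mv 906 (cons (fin 905 3 905)
(mv 842 (cons (cons (mv 777 (cons (fin 841 7 777)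
(mv 778 (cons (fin 713 7 713)
(mv 843 (cons (fin 845 3 777)
(fin 779 6 778)))))))
(mv 777 (cons (fin 841 7 777)
(mv 778 (cons (fin 713 7 713)
(mv 715 (cons (fin 779 6 714)
(mv 714 (cons (fin 651 6 650)
(fin 907 4 714))))))))))
(cons (mv 777 (cons (fin 841 7 777)
(mv 778 (cons (fin 713 7 713)
(mv 843 (cons (fin 845 3 777)
(mv 907 (cons (fin 1098 6 842)
(fin 714 4 714)))))))))
(cons (mv 778 (cons (mv 779 (cons (fin 715 6 714)
(fin 843 6 778)))
(cons (mv 714 (cons (fin 907 4 714)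
(mv 651 (cons (fin 715 6 650)
(mv 650 (cons (fin 587 6 586)
(mv 649 (cons (fin 585 7 585)
(fin 713 7 649)))))))))
(mv 907 (cons (fin 714 4 714)
(mv 843 (cons (fin 779 5 778)
(fin 1098 6 842))))))))
(mv 843 (cons (fin 779 6 778)
(mv 841 (cons (fin 777 7 777)
(mv 907 (cons (fin 1098 6 842)
(mv 1100 (cons (fin 1164 7 907)
(mv 781 (cons (fin 780 2 777)
(mv 845 (cons (fin 846 1 842)
(fin 782 2 778))))))))))))))))))))))))))))
(mv 906 (cons (cons (cons (mv 972 (cons (mv 971 (cons (fin 905 3 905)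
(fin 1033 1 969)))
(cons (mv 908 (cons (fin 844 4 844)
(mv 907 (cons (fin 905 0 905)
(mv 843 (cons (fin 1100 7 843)
(mv 779 (cons (fin 715 5 714)
(fin 842 6 778)))))))))
(mv 971 (cons (fin 1033 1 969)
(fin 969 0 969))))))
(mv 842 (cons (cons (mv 777 (cons (fin 841 7 777)
(mv 778 (cons (fin 713 7 713)
(mv 1033 (cons (fin 969 5 777)
(fin 1097 5 841)))))))
(mv 779 (cons (fin 843 6 778)
(mv 778 (cons (fin 715 6 714)
(mv 777 (cons (fin 713 7 713)
(fin 841 7 777))))))))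
(cons (mv 1033 (cons (fin 1097 5 841)
(mv 778 (cons (fin 969 5 777)
(mv 779 (cons (fin 715 6 714)
(fin 843 6 778)))))))
(mv 1033 (cons (fin 1097 5 841)
(mv 841 (cons (fin 777 7 777)
(mv 843 (cons (fin 779 6 778)
(mv 840 (cons (mv 907 (cons (fin 839 0 839)
(fin 908 0 840)))
(cons (mv 775 (cons (fin 776 3 775)
(mv 839 (cons (fin 774 3 774)
(mv 903 (cons (fin 902 1 838)
(fin 904 1 839)))))))
(mv 904 (cons (fin 903 1 839)
(mv 907 (cons (fin 908 0 840)
(mv 844 (cons (fin 905 1 840)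
(mv 781 (cons (fin 780 2 777)
(mv 845 (cons (fin 846 1 842)
(fin 782 2 778))))))))))))))))))))))))
(cons (mv 972 (cons (mv 971 (cons (fin 905 3 905)
(fin 1033 1 969)))
(cons (mv 908 (cons (fin 844 4 844)
(mv 907 (cons (fin 905 0 905)
(mv 1100 (cons (fin 843 7 843)
(mv 1163 (cons (fin 1099 5 907)
(mv 1164 (cons (fin 1227 5 971)
(fin 1228 6 972)))))))))))
(mv 971 (cons (fin 1033 1 969)
(fin 969 0 969))))))
(cons (mv 972 (cons (mv 971 (cons (fin 905 3 905)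
(fin 969 0 969)))
(cons (mv 908 (cons (fin 844 4 844)
(mv 907 (cons (fin 905 0 905)
(mv 843 (cons (fin 1100 7 843)
(mv 779 (cons (fin 715 5 714)
(fin 842 6 778)))))))))
(mv 908 (cons (fin 844 4 844)
(mv 971 (cons (fin 969 0 969)
(mv 1100 (cons (mv 907 (cons (fin 843 7 843)
(fin 1164 7 907)))
(cons (mv 1164 (cons (fin 1228 6 972)
(mv 1163 (cons (fin 1099 5 907)
(fin 1227 5 971)))))
(mv 1099 (cons (fin 1163 5 907)
(mv 842 (cons (cons (mv 843 (cons (fin 907 7 843)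
(fin 779 6 778)))
(mv 777 (cons (fin 841 7 777)
(mv 778 (cons (fin 713 7 713)
(mv 715 (cons (fin 779 6 714)
(mv 714 (cons (fin 651 6 650)
(fin 907 4 714))))))))))
(cons (mv 779 (cons (fin 843 6 778)
(mv 778 (cons (fin 715 6 714)
(mv 777 (cons (fin 713 7 713)
(fin 841 7 777)))))))
(mv 777 (cons (fin 841 7 777)
(mv 778 (cons (fin 713 7 713)
(mv 907 (cons (fin 843 7 843)
(fin 714 4 714))))))))))))))))))))))
(mv 842 (cons (cons (mv 777 (cons (fin 841 7 777)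
(mv 713 (cons (fin 778 7 713)
(mv 843 (cons (fin 779 6 778)
(mv 1033 (cons (fin 1097 5 841)
(mv 972 (cons (fin 971 1 969)
(mv 908 (cons (fin 844 4 844)
(mv 1100 (cons (fin 907 7 843)
(mv 1163 (cons (fin 1099 5 907)
(mv 1164 (cons (fin 1227 5 971)
(fin 1228 6 972)))))))))))))))))))
(mv 777 (cons (fin 841 7 777)
(mv 778 (cons (fin 713 7 713)
(mv 779 (cons (fin 715 6 714)
(fin 843 6 778))))))))
(cons (mv 1033 (cons (fin 1097 5 841)
(mv 778 (cons (fin 969 5 777)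
(mv 777 (cons (fin 713 7 713)
(fin 841 7 777)))))))
(cons (mv 779 (cons (fin 843 6 778)
(mv 778 (cons (fin 715 6 714)
(mv 1033 (cons (fin 969 5 777)
(fin 1097 5 841)))))))
(mv 1033 (cons (fin 1097 5 841)
(mv 972 (cons (fin 971 1 969)
(mv 843 (cons (fin 779 6 778)
(mv 908 (cons (fin 844 4 844)
(mv 777 (cons (fin 841 7 777)
(mv 1100 (cons (fin 907 7 843)
(mv 1163 (cons (fin 1099 5 907)
(mv 1164 (cons (fin 1227 5 971)
(fin 1228 6 972))))))))))))))))))))))))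
(cons (cons (mv 842 (cons (cons (mv 777 (cons (fin 841 7 777)
(mv 713 (cons (fin 778 7 713)
(mv 843 (cons (fin 779 6 778)
(mv 1033 (cons (fin 1097 5 841)
(mv 972 (cons (fin 971 1 969)
(mv 844 (cons (fin 908 4 844)
(mv 845 (cons (fin 905 1 841)
(mv 846 (cons (fin 907 1 842)
(mv 782 (cons (fin 781 2 778)
(fin 783 2 779)))))))))))))))))))
(mv 1033 (cons (fin 1097 5 841)
(mv 972 (cons (fin 971 1 969)
(mv 908 (cons (fin 844 4 844)
(mv 777 (cons (fin 841 7 777)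
(mv 713 (cons (fin 778 7 713)
(mv 907 (cons (fin 905 0 905)
(mv 1100 (cons (fin 843 7 843)
(mv 1163 (cons (fin 1099 5 907)
(mv 1164 (cons (fin 1227 5 971)
(fin 1228 6 972))))))))))))))))))))
(cons (mv 843 (cons (fin 779 6 778)
(mv 1033 (cons (fin 1097 5 841)
(mv 972 (cons (fin 971 1 969)
(mv 844 (cons (fin 908 4 844)
(mv 845 (cons (fin 905 1 841)
(mv 846 (cons (fin 907 1 842)
(mv 782 (cons (fin 781 2 778)
(fin 783 2 779)))))))))))))))
(cons (mv 777 (cons (fin 841 7 777)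
(mv 778 (cons (fin 713 7 713)
(mv 779 (cons (fin 715 6 714)
(fin 843 6 778)))))))
(mv 1033 (cons (fin 1097 5 841)
(mv 971 (cons (fin 972 1 969)
(mv 1031 (cons (fin 1032 2 967)
(mv 777 (cons (fin 841 7 777)
(mv 778 (cons (fin 713 7 713)
(mv 715 (cons (fin 779 6 714)
(mv 714 (cons (fin 651 6 650)
(fin 907 4 714)))))))))))))))))))
(mv 1033 (cons (cons (mv 971 (cons (fin 972 1 969)
(mv 1031 (cons (fin 1032 2 967)
(mv 842 (cons (fin 1097 5 841)
(mv 778 (cons (fin 969 5 777)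
(mv 777 (cons (fin 713 7 713)
(fin 841 7 777)))))))))))
(cons (mv 842 (cons (fin 1097 5 841)
(mv 778 (cons (fin 969 5 777)
(mv 777 (cons (fin 713 7 713)
(fin 841 7 777)))))))
(mv 971 (cons (fin 972 1 969)
(mv 1032 (cons (fin 1031 2 967)
(mv 904 (cons (cons (cons (mv 903 (cons (fin 905 0 903)
(mv 968 (cons (fin 969 3 903)
(mv 839 (cons (fin 1096 7 839)
(mv 840 (cons (fin 775 7 775)
(fin 1097 4 840)))))))))
(mv 1097 (cons (mv 1161 (cons (fin 969 6 905)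
(fin 1225 6 969)))
(cons (mv 840 (cons (fin 968 4 840)
(mv 905 (cons (fin 969 7 840)
(mv 839 (cons (fin 907 3 839)
(mv 838 (cons (fin 837 0 837)
(fin 841 0 838)))))))))
(mv 968 (cons (fin 840 4 840)
(mv 1161 (cons (fin 1225 7 968)
(fin 1096 4 904)))))))))
(cons (mv 1097 (cons (mv 1161 (cons (fin 969 6 905)
(fin 1225 6 969)))
(cons (mv 968 (cons (fin 840 4 840)
(mv 903 (cons (fin 969 3 903)
(mv 839 (cons (fin 1096 7 839)
(mv 775 (cons (fin 711 4 711)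
(fin 967 4 775)))))))))
(mv 968 (cons (fin 840 4 840)
(mv 1161 (cons (fin 1225 7 968)
(fin 1096 4 904))))))))
(mv 903 (cons (fin 905 0 903)
(mv 968 (cons (fin 969 3 903)
(mv 839 (cons (fin 1096 7 839)
(mv 775 (cons (fin 840 7 775)
(fin 711 4 711)))))))))))
(cons (cons (mv 905 (cons (fin 903 0 903)
(mv 969 (cons (mv 1097 (cons (fin 840 7 840)
(fin 1161 6 905)))
(mv 841 (cons (fin 1096 5 840)
(fin 777 4 777)))))))
(mv 903 (cons (fin 905 0 903)
(mv 968 (cons (cons (mv 839 (cons (fin 1096 7 839)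
(mv 840 (cons (fin 775 7 775)
(fin 1097 4 840)))))
(mv 840 (cons (fin 1097 4 840)
(mv 777 (cons (fin 841 6 776)
(mv 776 (cons (fin 713 6 712)
(mv 775 (cons (fin 711 7 711)
(fin 839 7 775))))))))))
(cons (mv 1097 (cons (fin 840 4 840)
(mv 1161 (cons (fin 1225 7 968)
(fin 1096 4 904)))))
(cons (mv 839 (cons (fin 1096 7 839)
(mv 775 (cons (fin 840 7 775)
(fin 711 4 711)))))
(mv 839 (cons (fin 1096 7 839)
(mv 775 (cons (fin 711 4 711)
(fin 967 4 775))))))))))))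
(cons (mv 903 (cons (fin 905 0 903)
(mv 968 (cons (fin 969 3 903)
(mv 839 (cons (fin 1096 7 839)
(mv 775 (cons (fin 711 4 711)
(fin 967 4 775)))))))))
(mv 903 (cons (fin 905 0 903)
(mv 968 (cons (fin 969 3 903)
(mv 840 (cons (fin 1097 4 840)
(mv 777 (cons (fin 841 6 776)
(mv 776 (cons (fin 713 6 712)
(mv 775 (cons (fin 711 7 711)
(fin 839 7 775)))))))))))))))))))))))
(cons (mv 969 (cons (cons (cons (mv 971 (cons (fin 972 1 969)
(mv 1032 (cons (fin 1031 2 967)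
(mv 842 (cons (fin 778 5 777)
(mv 841 (cons (fin 777 7 777)
(mv 905 (cons (fin 1096 5 840)
(mv 840 (cons (fin 776 7 776)
(mv 907 (cons (fin 908 3 840)
(fin 839 0 839)))))))))))))))
(mv 842 (cons (fin 778 5 777)
(mv 841 (cons (fin 777 7 777)
(mv 840 (cons (cons (mv 839 (cons (fin 907 0 839)
(mv 905 (cons (fin 838 0 838)
(fin 776 7 776)))))
(mv 839 (cons (fin 907 0 839)
(mv 902 (cons (fin 903 1 838)
(mv 838 (cons (fin 901 1 837)
(mv 774 (cons (fin 773 3 773)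
(fin 775 3 774))))))))))
(cons (mv 776 (cons (fin 905 7 776)
(mv 968 (cons (fin 904 4 776)
(mv 967 (cons (fin 907 2 903)
(fin 966 0 966)))))))
(mv 776 (cons (fin 905 7 776)
(mv 968 (cons (fin 904 4 776)
(mv 967 (cons (fin 966 0 966)
(mv 1031 (cons (fin 1030 1 966)
(mv 903 (cons (fin 902 3 902)
(fin 839 6 775)))))))))))))))))))
(cons (mv 971 (cons (fin 972 1 969)
(mv 1032 (cons (fin 1031 2 967)
(mv 968 (cons (mv 907 (cons (fin 967 2 903)
(fin 908 2 904)))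
(cons (mv 904 (cons (fin 903 3 903)
(mv 907 (cons (fin 908 2 904)
(mv 840 (cons (fin 776 4 776)
(mv 839 (cons (fin 905 3 839)
(fin 775 7 775)))))))))
(mv 903 (cons (fin 904 3 903)
(mv 967 (cons (fin 902 3 902)
(fin 966 0 966))))))))))))
(mv 971 (cons (fin 972 1 969)
(mv 842 (cons (fin 778 5 777)
(mv 1032 (cons (fin 1031 2 967)
(mv 841 (cons (fin 777 7 777)
(mv 968 (cons (mv 907 (cons (fin 967 2 903)
(fin 908 2 904)))
(cons (mv 904 (cons (fin 903 3 903)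
(mv 907 (cons (fin 908 2 904)
(mv 840 (cons (fin 839 0 839)
(fin 776 4 776)))))))
(mv 903 (cons (fin 904 3 903)
(mv 967 (cons (fin 902 3 902)
(fin 966 0 966))))))))))))))))))
(cons (cons (mv 971 (cons (fin 972 1 969)
(mv 842 (cons (fin 778 5 777)
(mv 841 (cons (fin 777 7 777)
(mv 968 (cons (mv 907 (cons (fin 967 2 903)
(fin 908 2 904)))
(cons (mv 904 (cons (fin 903 3 903)
(mv 907 (cons (fin 908 2 904)
(mv 840 (cons (fin 839 0 839)
(fin 776 4 776)))))))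
(mv 967 (cons (fin 966 0 966)
(mv 903 (cons (fin 902 3 902)
(fin 904 3 903))))))))))))))
(mv 842 (cons (fin 778 5 777)
(mv 971 (cons (fin 972 1 969)
(mv 1032 (cons (fin 1031 2 967)
(mv 841 (cons (fin 777 7 777)
(mv 905 (cons (fin 1096 5 840)
(mv 840 (cons (fin 776 7 776)
(mv 903 (cons (fin 904 0 903)
(mv 839 (cons (fin 902 1 838)
(fin 838 0 838))))))))))))))))))
(cons (mv 778 (cons (fin 842 5 777)
(mv 1032 (cons (mv 971 (cons (fin 972 1 968)
(fin 1031 2 967)))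
(cons (mv 1031 (cons (fin 1030 2 966)
(mv 1094 (cons (fin 1095 1 1030)
(mv 967 (cons (fin 966 3 966)
(mv 968 (cons (fin 907 2 903)
(mv 903 (cons (fin 902 3 902)
(mv 839 (cons (fin 775 4 775)
(fin 1096 4 839)))))))))))))
(mv 972 (cons (fin 971 1 968)
(mv 908 (cons (fin 844 4 844)
(mv 905 (cons (fin 907 0 905)
(mv 841 (cons (fin 1096 5 840)
(fin 777 4 777))))))))))))))
(mv 778 (cons (fin 842 5 777)
(mv 1032 (cons (mv 971 (cons (fin 972 1 968)
(fin 1031 2 967)))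
(cons (mv 1031 (cons (fin 1030 2 966)
(mv 1095 (cons (fin 1094 1 1030)
(mv 967 (cons (fin 966 3 966)
(mv 968 (cons (fin 907 2 903)
(mv 904 (cons (fin 840 5 839)
(fin 1159 6 903)))))))))))
(mv 972 (cons (fin 971 1 968)
(mv 908 (cons (fin 844 4 844)
(mv 905 (cons (fin 907 0 905)
(mv 841 (cons (fin 1096 5 840)
(fin 777 4 777))))))))))))))))))
(cons (mv 971 (cons (fin 972 1 969)
(mv 1031 (cons (fin 1032 2 967)
(mv 842 (cons (fin 1097 5 841)
(mv 777 (cons (fin 841 7 777)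
(mv 778 (cons (fin 713 7 713)
(mv 715 (cons (fin 779 6 714)
(mv 714 (cons (fin 651 6 650)
(fin 907 4 714)))))))))))))))
(mv 842 (cons (fin 1097 5 841)
(mv 778 (cons (fin 969 5 777)
(mv 971 (cons (fin 972 1 969)
(mv 1031 (cons (fin 1032 2 967)
(mv 714 (cons (fin 907 4 714)
(mv 715 (cons (fin 651 6 650)
(fin 779 6 714))))))))))))))))))
(cons (mv 842 (cons (cons (mv 777 (cons (fin 841 7 777)
(mv 778 (cons (fin 713 7 713)
(mv 1033 (cons (fin 969 5 777)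
(fin 1097 5 841)))))))
(mv 779 (cons (fin 843 6 778)
(mv 778 (cons (fin 715 6 714)
(mv 777 (cons (fin 713 7 713)
(fin 841 7 777))))))))
(cons (mv 1033 (cons (fin 1097 5 841)
(mv 778 (cons (fin 969 5 777)
(mv 779 (cons (fin 715 6 714)
(fin 843 6 778)))))))
(mv 1033 (cons (fin 1097 5 841)
(mv 841 (cons (fin 777 7 777)
(mv 972 (cons (fin 971 1 969)
(mv 843 (cons (fin 779 6 778)
(mv 840 (cons (mv 775 (cons (fin 776 3 775)
(mv 839 (cons (fin 774 3 774)
(fin 907 0 839)))))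
(cons (mv 776 (cons (fin 775 3 775)
(mv 904 (cons (fin 903 1 839)
(mv 905 (cons (fin 844 1 840)
(fin 969 7 776)))))))
(mv 839 (cons (fin 907 0 839)
(mv 903 (cons (fin 902 1 838)
(fin 904 1 839)))))))))))))))))))
(cons (mv 842 (cons (cons (mv 777 (cons (fin 841 7 777)
(mv 778 (cons (fin 713 7 713)
(mv 1033 (cons (fin 969 5 777)
(fin 1097 5 841)))))))
(mv 779 (cons (fin 843 6 778)
(mv 778 (cons (fin 715 6 714)
(mv 777 (cons (fin 713 7 713)
(fin 841 7 777))))))))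
(cons (mv 1033 (cons (fin 1097 5 841)
(mv 778 (cons (fin 969 5 777)
(mv 779 (cons (fin 715 6 714)
(fin 843 6 778)))))))
(mv 1033 (cons (fin 1097 5 841)
(mv 841 (cons (fin 777 7 777)
(mv 972 (cons (fin 971 1 969)
(mv 843 (cons (fin 779 6 778)
(mv 840 (cons (mv 907 (cons (fin 839 0 839)
(fin 908 0 840)))
(cons (mv 775 (cons (fin 776 3 775)
(mv 839 (cons (fin 774 3 774)
(mv 903 (cons (fin 902 1 838)
(fin 904 1 839)))))))
(mv 904 (cons (fin 903 1 839)
(mv 907 (cons (fin 908 0 840)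
(mv 776 (cons (fin 775 3 775)
(mv 969 (cons (fin 905 7 776)
(fin 968 4 776)))))))))))))))))))))))
(mv 972 (cons (cons (mv 971 (cons (fin 905 3 905)
(fin 1033 1 969)))
(mv 844 (cons (fin 908 4 844)
(mv 842 (cons (cons (mv 777 (cons (fin 841 7 777)
(mv 778 (cons (fin 713 7 713)
(mv 843 (cons (fin 845 3 777)
(fin 779 6 778)))))))
(mv 777 (cons (fin 841 7 777)
(mv 778 (cons (fin 713 7 713)
(mv 1033 (cons (fin 969 5 777)
(fin 1097 5 841))))))))
(cons (mv 1033 (cons (fin 1097 5 841)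
(mv 778 (cons (fin 969 5 777)
(mv 779 (cons (fin 715 6 714)
(fin 843 6 778)))))))
(mv 843 (cons (fin 779 6 778)
(mv 841 (cons (fin 777 7 777)
(mv 905 (cons (fin 904 1 840)
(fin 845 1 841)))))))))))))
(cons (mv 971 (cons (fin 905 3 905)
(fin 969 0 969)))
(mv 971 (cons (fin 1033 1 969)
(fin 969 0 969))))))))))))))
(cons (cons (mv 1100 (cons (cons (cons (mv 1164 (cons (fin 1228 6 972)
(mv 972 (cons (mv 971 (cons (fin 1033 1 969)
(fin 969 0 969)))
(mv 908 (cons (fin 844 4 844)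
(mv 1163 (cons (fin 1099 5 907)
(fin 1227 5 971)))))))))
(mv 972 (cons (mv 971 (cons (fin 1033 1 969)
(fin 969 0 969)))
(cons (mv 908 (cons (fin 844 4 844)
(mv 843 (cons (fin 907 7 843)
(mv 1099 (cons (fin 1163 5 907)
(mv 1098 (cons (fin 1033 3 1033)
(fin 1097 2 1033)))))))))
(mv 908 (cons (fin 844 4 844)
(mv 969 (cons (fin 971 0 969)
(mv 843 (cons (fin 907 7 843)
(mv 1099 (cons (fin 1163 5 907)
(mv 1098 (cons (fin 1097 2 1033)
(mv 1162 (cons (fin 1161 1 1097)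
(fin 905 7 905)))))))))))))))))
(cons (mv 1164 (cons (fin 1228 6 972)
(mv 1098 (cons (mv 1099 (cons (fin 1033 3 1033)
(fin 1097 2 1033)))
(cons (mv 1162 (cons (mv 1161 (cons (fin 1163 2 1097)
(fin 1225 5 969)))
(cons (mv 1227 (cons (fin 1163 4 970)
(mv 907 (cons (fin 971 6 906)
(mv 1226 (cons (fin 1291 4 1034)
(mv 969 (cons (fin 905 7 905)
(fin 1033 7 969)))))))))
(mv 969 (cons (fin 905 7 905)
(mv 907 (cons (fin 971 6 906)
(mv 1226 (cons (fin 1033 7 969)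
(mv 1225 (cons (fin 1161 5 969)
(fin 1289 5 1033))))))))))))
(mv 1099 (cons (fin 1097 2 1033)
(mv 1162 (cons (fin 1161 1 1097)
(mv 905 (cons (fin 969 7 905)
(mv 1226 (cons (cons (mv 1227 (cons (fin 1163 4 970)
(fin 1291 4 1034)))
(mv 1289 (cons (fin 1225 5 1033)
(mv 1290 (cons (fin 1353 5 1097)
(mv 1354 (cons (fin 1163 6 1098)
(mv 1355 (cons (fin 1291 4 1098)
(fin 1419 4 1162))))))))))
(cons (mv 1289 (cons (fin 1225 5 1033)
(mv 1291 (cons (fin 1227 4 1034)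
(mv 1290 (cons (fin 1353 5 1097)
(fin 1355 4 1098)))))))
(mv 1289 (cons (fin 1225 5 1033)
(mv 1163 (cons (fin 1227 4 970)
(mv 1290 (cons (fin 1353 5 1097)
(fin 1354 6 1098)))))))))))))))))))))
(mv 1164 (cons (fin 1228 6 972)
(mv 1098 (cons (cons (mv 1099 (cons (fin 1033 3 1033)
(fin 1097 2 1033)))
(mv 1162 (cons (mv 1161 (cons (fin 1163 2 1097)
(fin 1225 5 969)))
(cons (mv 1161 (cons (fin 1225 5 969)
(mv 969 (cons (fin 905 7 905)
(mv 1226 (cons (fin 1033 7 969)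
(mv 1291 (cons (fin 1227 4 1034)
(mv 1290 (cons (fin 1355 4 1098)
(mv 1353 (cons (fin 1289 5 1097)
(mv 1354 (cons (fin 1097 7 1097)
(fin 1417 5 1161)))))))))))))))
(mv 969 (cons (fin 905 7 905)
(mv 1227 (cons (fin 1163 4 970)
(mv 1226 (cons (fin 1033 7 969)
(fin 1291 4 1034)))))))))))
(cons (mv 1033 (cons (fin 1099 3 1033)
(mv 1162 (cons (mv 969 (cons (fin 905 7 905)
(fin 1226 7 969)))
(mv 1163 (cons (fin 1161 2 1097)
(fin 1227 4 970)))))))
(mv 1099 (cons (fin 1097 2 1033)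
(mv 1162 (cons (fin 1161 1 1097)
(mv 905 (cons (fin 969 7 905)
(mv 1226 (cons (cons (mv 1227 (cons (fin 1163 4 970)
(fin 1291 4 1034)))
(mv 1289 (cons (fin 1225 5 1033)
(mv 1290 (cons (fin 1353 5 1097)
(mv 1354 (cons (fin 1163 6 1098)
(mv 1355 (cons (fin 1291 4 1098)
(fin 1419 4 1162))))))))))
(cons (mv 1291 (cons (fin 1227 4 1034)
(mv 1289 (cons (fin 1225 5 1033)
(mv 1290 (cons (fin 1353 5 1097)
(fin 1355 4 1098)))))))
(mv 1289 (cons (fin 1225 5 1033)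
(mv 1163 (cons (fin 1227 4 970)
(mv 1290 (cons (fin 1353 5 1097)
(fin 1354 6 1098)))))))))))))))))))))))
(cons (cons (mv 1164 (cons (fin 1228 6 972)
(mv 1162 (cons (cons (mv 1161 (cons (fin 1163 2 1097)
(mv 1098 (cons (fin 1225 5 969)
(mv 969 (cons (fin 905 7 905)
(mv 971 (cons (fin 972 0 969)
(fin 907 6 906)))))))))
(cons (mv 971 (cons (mv 972 (cons (fin 1033 1 969)
(fin 969 0 969)))
(cons (mv 1098 (cons (fin 907 6 906)
(mv 1225 (cons (fin 1161 5 969)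
(mv 969 (cons (fin 905 7 905)
(mv 1226 (cons (fin 1033 7 969)
(fin 1289 5 1033)))))))))
(mv 907 (cons (fin 972 7 907)
(fin 1098 6 906))))))
(mv 971 (cons (mv 972 (cons (fin 1033 1 969)
(fin 969 0 969)))
(cons (mv 1098 (cons (fin 907 6 906)
(mv 969 (cons (fin 905 7 905)
(mv 1227 (cons (fin 1163 4 970)
(mv 1226 (cons (fin 1033 7 969)
(fin 1291 4 1034)))))))))
(mv 907 (cons (fin 972 7 907)
(fin 1098 6 906))))))))
(cons (mv 1161 (cons (fin 1163 2 1097)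
(mv 1098 (cons (fin 1225 5 969)
(mv 969 (cons (fin 905 7 905)
(mv 1226 (cons (fin 1033 7 969)
(mv 1291 (cons (fin 1227 4 1034)
(mv 1290 (cons (fin 1355 4 1098)
(mv 1353 (cons (fin 1289 5 1097)
(mv 1354 (cons (fin 1097 7 1097)
(fin 1417 5 1161)))))))))))))))))
(cons (mv 1163 (cons (fin 1161 2 1097)
(mv 972 (cons (fin 1227 5 971)
(mv 971 (cons (fin 1033 1 969)
(fin 969 0 969)))))))
(mv 1163 (cons (fin 1161 2 1097)
(mv 1227 (cons (fin 972 5 971)
(fin 1098 4 970)))))))))))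
(mv 1164 (cons (fin 1228 6 972)
(mv 972 (cons (mv 971 (cons (fin 969 0 969)
(fin 907 7 907)))
(mv 908 (cons (fin 844 4 844)
(mv 1163 (cons (fin 1099 5 907)
(fin 1227 5 971))))))))))
(cons (mv 1164 (cons (fin 1228 6 972)
(mv 972 (cons (mv 971 (cons (fin 1033 1 969)
(fin 907 7 907)))
(mv 908 (cons (fin 844 4 844)
(mv 1163 (cons (fin 1099 5 907)
(fin 1227 5 971)))))))))
(mv 1164 (cons (fin 1228 6 972)
(mv 971 (cons (cons (mv 972 (cons (fin 1033 1 969)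
(fin 969 0 969)))
(mv 1098 (cons (mv 1099 (cons (fin 1033 3 1033)
(fin 1097 2 1033)))
(cons (mv 1162 (cons (fin 907 6 906)
(mv 1225 (cons (fin 1161 5 969)
(mv 969 (cons (fin 905 7 905)
(mv 1226 (cons (fin 1033 7 969)
(fin 1289 5 1033)))))))))
(mv 1162 (cons (fin 907 6 906)
(mv 1099 (cons (fin 1161 1 1097)
(fin 1097 2 1033)))))))))
(cons (mv 972 (cons (fin 969 0 969)
(fin 907 7 907)))
(mv 972 (cons (fin 1033 1 969)
(fin 907 7 907))))))))))))
(cons (mv 971 (cons (cons (mv 972 (cons (fin 1033 1 969)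
(fin 969 0 969)))
(mv 1098 (cons (cons (mv 907 (cons (fin 1162 6 906)
(mv 843 (cons (fin 779 5 778)
(fin 906 6 842)))))
(mv 906 (cons (mv 1097 (cons (fin 1161 5 905)
(mv 1099 (cons (fin 1100 2 1033)
(fin 1163 4 906)))))
(cons (mv 1099 (cons (fin 1163 4 906)
(mv 1033 (cons (fin 1100 3 1033)
(mv 843 (cons (fin 907 6 842)
(mv 842 (cons (fin 779 6 778)
(mv 1031 (cons (fin 1032 2 967)
(mv 777 (cons (fin 841 7 777)
(mv 778 (cons (fin 713 7 713)
(fin 969 5 777)))))))))))))))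
(mv 843 (cons (fin 907 6 842)
(mv 842 (cons (fin 779 6 778)
(mv 1097 (cons (fin 1033 5 841)
(fin 1161 5 905)))))))))))
(cons (mv 1099 (cons (cons (mv 1100 (cons (fin 1033 3 1033)
(fin 1097 2 1033)))
(mv 906 (cons (fin 1163 4 906)
(mv 1097 (cons (fin 1161 5 905)
(mv 842 (cons (fin 1033 5 841)
(mv 777 (cons (fin 841 7 777)
(mv 778 (cons (fin 713 7 713)
(mv 779 (cons (fin 715 6 714)
(fin 843 6 778))))))))))))))
(cons (mv 906 (cons (fin 1163 4 906)
(mv 1097 (cons (fin 1100 2 1033)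
(fin 1161 5 905)))))
(mv 1033 (cons (fin 1100 3 1033)
(mv 1163 (cons (fin 906 4 906)
(mv 1227 (cons (fin 1291 7 1034)
(fin 1162 4 970))))))))))
(mv 1162 (cons (fin 907 6 906)
(mv 1161 (cons (fin 1225 5 969)
(mv 1099 (cons (fin 1100 1 1097)
(mv 1160 (cons (fin 1159 2 1095)
(mv 1163 (cons (fin 1227 4 970)
(mv 1224 (cons (fin 1223 1 1159)
(mv 1096 (cons (fin 1095 3 1095)
(mv 1097 (cons (fin 1164 3 1096)
(mv 1033 (cons (fin 969 5 968)
(fin 1288 6 1032)))))))))))))))))))))))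
(cons (mv 969 (cons (fin 972 0 969)
(mv 968 (cons (cons (mv 903 (cons (fin 904 3 903)
(mv 902 (cons (fin 967 3 902)
(mv 907 (cons (fin 908 2 904)
(mv 1031 (cons (fin 1032 1 967)
(mv 1098 (cons (fin 1162 6 906)
(mv 843 (cons (fin 779 5 778)
(fin 906 6 842)))))))))))))
(mv 903 (cons (fin 904 3 903)
(mv 967 (cons (fin 902 3 902)
(mv 1031 (cons (fin 1030 1 966)
(fin 1032 1 967))))))))
(cons (mv 1031 (cons (fin 1032 1 967)
(mv 967 (cons (fin 1030 1 966)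
(mv 907 (cons (fin 906 2 903)
(fin 908 2 904)))))))
(cons (mv 907 (cons (fin 908 2 904)
(mv 906 (cons (fin 967 2 903)
(mv 843 (cons (fin 779 5 778)
(fin 1098 6 842)))))))
(mv 907 (cons (fin 908 2 904)
(mv 1031 (cons (fin 1032 1 967)
(mv 1098 (cons (fin 1162 6 906)
(mv 843 (cons (fin 779 5 778)
(fin 906 6 842)))))))))))))))
(mv 972 (cons (fin 1033 1 969)
(mv 844 (cons (fin 908 4 844)
(mv 1098 (cons (cons (mv 907 (cons (fin 1162 6 906)
(mv 843 (cons (fin 779 5 778)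
(fin 906 6 842)))))
(mv 1099 (cons (cons (mv 1097 (cons (fin 1100 2 1033)
(mv 906 (cons (fin 1161 5 905)
(fin 1163 4 906)))))
(mv 1163 (cons (fin 906 4 906)
(mv 1227 (cons (fin 1291 7 1034)
(fin 1162 4 970))))))
(cons (mv 1097 (cons (fin 1100 2 1033)
(mv 1161 (cons (fin 906 5 905)
(mv 1225 (cons (fin 1162 5 969)
(fin 1289 6 1033)))))))
(mv 1097 (cons (fin 1100 2 1033)
(mv 1096 (cons (cons (mv 1031 (cons (fin 1032 3 1031)
(mv 1030 (cons (fin 1095 3 1030)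
(mv 1163 (cons (fin 1164 0 1096)
(mv 1227 (cons (fin 1291 7 1034)
(fin 1162 4 970)))))))))
(mv 1159 (cons (fin 1160 1 1095)
(mv 1095 (cons (fin 1158 1 1094)
(mv 1031 (cons (fin 1030 3 1030)
(fin 1032 3 1031))))))))
(cons (mv 1163 (cons (fin 1164 0 1096)
(mv 1162 (cons (fin 1095 0 1095)
(fin 1227 4 970)))))
(mv 1163 (cons (fin 1164 0 1096)
(mv 1227 (cons (fin 1291 7 1034)
(fin 1162 4 970))))))))))))))
(cons (mv 906 (cons (mv 1097 (cons (fin 1161 5 905)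
(mv 1099 (cons (fin 1100 2 1033)
(fin 1163 4 906)))))
(cons (mv 1099 (cons (fin 1163 4 906)
(mv 843 (cons (fin 907 6 842)
(mv 842 (cons (fin 779 6 778)
(mv 777 (cons (fin 841 7 777)
(mv 778 (cons (fin 845 3 777)
(fin 713 7 713)))))))))))
(mv 843 (cons (fin 907 6 842)
(mv 842 (cons (fin 779 6 778)
(mv 1097 (cons (fin 1161 5 905)
(mv 777 (cons (fin 841 7 777)
(mv 778 (cons (fin 845 3 777)
(fin 713 7 713))))))))))))))
(mv 1162 (cons (fin 907 6 906)
(mv 1161 (cons (fin 1225 5 969)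
(mv 1100 (cons (fin 1099 1 1097)
(mv 1163 (cons (fin 1164 2 1097)
(fin 1227 4 970)))))))))))))))))))
(mv 971 (cons (cons (mv 972 (cons (fin 1033 1 969)
(fin 969 0 969)))
(mv 1098 (cons (cons (mv 907 (cons (fin 1162 6 906)
(mv 843 (cons (fin 779 5 778)
(fin 906 6 842)))))
(mv 906 (cons (cons (mv 841 (cons (fin 905 7 841)
(mv 842 (cons (fin 777 7 777)
(mv 843 (cons (fin 779 6 778)
(fin 907 6 842)))))))
(cons (mv 1099 (cons (fin 1163 4 906)
(mv 1033 (cons (fin 1100 3 1033)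
(mv 841 (cons (fin 905 7 841)
(mv 842 (cons (fin 777 7 777)
(mv 1031 (cons (fin 1032 2 967)
(mv 778 (cons (fin 969 5 777)
(mv 715 (cons (fin 779 6 714)
(mv 714 (cons (fin 651 6 650)
(fin 907 4 714)))))))))))))))))
(mv 841 (cons (fin 905 7 841)
(mv 842 (cons (fin 777 7 777)
(mv 1099 (cons (fin 1163 4 906)
(mv 1033 (cons (fin 1100 3 1033)
(mv 779 (cons (fin 843 6 778)
(mv 778 (cons (fin 969 5 777)
(fin 715 6 714)))))))))))))))
(cons (mv 1099 (cons (fin 1163 4 906)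
(mv 1033 (cons (fin 1100 3 1033)
(mv 843 (cons (fin 907 6 842)
(mv 842 (cons (fin 779 6 778)
(mv 1031 (cons (fin 1032 2 967)
(mv 777 (cons (fin 841 7 777)
(mv 778 (cons (fin 713 7 713)
(fin 969 5 777)))))))))))))))
(cons (mv 1099 (cons (fin 1163 4 906)
(mv 1033 (cons (fin 1100 3 1033)
(mv 1031 (cons (fin 1032 2 967)
(mv 842 (cons (mv 843 (cons (fin 779 6 778)
(fin 907 6 842)))
(cons (mv 778 (cons (fin 969 5 777)
(mv 713 (cons (fin 777 7 713)
(mv 714 (cons (fin 649 7 649)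
(fin 907 4 714)))))))
(mv 778 (cons (fin 969 5 777)
(mv 779 (cons (fin 715 6 714)
(fin 843 6 778))))))))))))))
(mv 907 (cons (fin 843 6 842)
(mv 905 (cons (fin 841 7 841)
(mv 1099 (cons (fin 1163 4 906)
(mv 1033 (cons (fin 1100 3 1033)
(mv 904 (cons (fin 903 0 903)
(mv 968 (cons (fin 967 1 903)
(mv 840 (cons (fin 839 3 839)
(mv 969 (cons (fin 908 1 904)
(fin 776 4 776))))))))))))))))))))))
(cons (mv 1162 (cons (cons (mv 905 (cons (fin 969 7 905)
(mv 841 (cons (fin 906 7 841)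
(mv 1163 (cons (fin 1227 4 970)
(mv 1161 (cons (fin 1225 5 969)
(mv 1100 (cons (fin 1099 1 1097)
(fin 1164 2 1097)))))))))))
(cons (mv 1161 (cons (fin 1225 5 969)
(mv 1099 (cons (fin 1100 1 1097)
(mv 1163 (cons (fin 906 4 906)
(fin 1227 4 970)))))))
(mv 1163 (cons (fin 1227 4 970)
(mv 906 (cons (fin 1099 4 906)
(mv 905 (cons (fin 841 7 841)
(fin 969 7 905)))))))))
(cons (mv 969 (cons (fin 905 7 905)
(mv 1161 (cons (fin 1225 5 969)
(mv 1100 (cons (fin 1099 1 1097)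
(mv 1228 (cons (fin 1164 6 972)
(mv 1226 (cons (fin 1033 7 969)
(mv 1227 (cons (fin 1229 3 1161)
(fin 1291 4 1034)))))))))))))
(cons (mv 905 (cons (fin 969 7 905)
(mv 841 (cons (fin 906 7 841)
(mv 1161 (cons (fin 1225 5 969)
(mv 1100 (cons (fin 1099 1 1097)
(mv 1164 (cons (fin 1163 2 1097)
(fin 1228 6 972)))))))))))
(mv 1161 (cons (fin 1225 5 969)
(mv 1227 (cons (fin 1163 4 970)
(mv 969 (cons (fin 905 7 905)
(mv 1226 (cons (fin 1033 7 969)
(fin 1291 4 1034)))))))))))))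
(mv 1162 (cons (fin 907 6 906)
(mv 1161 (cons (fin 1225 5 969)
(mv 1099 (cons (fin 1100 1 1097)
(mv 1159 (cons (fin 1160 2 1095)
(mv 1227 (cons (fin 1163 4 970)
(mv 969 (cons (fin 905 7 905)
(mv 1226 (cons (fin 1033 7 969)
(fin 1291 4 1034)))))))))))))))))))
(cons (mv 969 (cons (fin 972 0 969)
(mv 968 (cons (cons (mv 903 (cons (fin 904 3 903)
(mv 902 (cons (fin 967 3 902)
(mv 907 (cons (fin 908 2 904)
(mv 1031 (cons (fin 1032 1 967)
(mv 1098 (cons (fin 1162 6 906)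
(mv 843 (cons (fin 779 5 778)
(fin 906 6 842)))))))))))))
(mv 903 (cons (fin 904 3 903)
(mv 967 (cons (fin 902 3 902)
(mv 1031 (cons (fin 1030 1 966)
(fin 1032 1 967))))))))
(cons (mv 1031 (cons (fin 1032 1 967)
(mv 967 (cons (fin 1030 1 966)
(mv 907 (cons (fin 906 2 903)
(fin 908 2 904)))))))
(cons (mv 907 (cons (fin 908 2 904)
(mv 906 (cons (fin 967 2 903)
(mv 843 (cons (fin 779 5 778)
(fin 1098 6 842)))))))
(mv 907 (cons (fin 908 2 904)
(mv 1031 (cons (fin 1032 1 967)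
(mv 1098 (cons (fin 1162 6 906)
(mv 843 (cons (fin 779 5 778)
(fin 906 6 842)))))))))))))))
(mv 972 (cons (fin 1033 1 969)
(mv 906 (cons (fin 905 3 905)
(mv 844 (cons (fin 908 4 844)
(mv 842 (cons (cons (mv 777 (cons (fin 841 7 777)
(mv 778 (cons (fin 713 7 713)
(mv 843 (cons (fin 845 3 777)
(fin 779 6 778)))))))
(mv 777 (cons (fin 841 7 777)
(mv 778 (cons (fin 713 7 713)
(mv 715 (cons (fin 779 6 714)
(mv 714 (cons (fin 651 6 650)
(fin 907 4 714))))))))))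
(cons (mv 777 (cons (fin 841 7 777)
(mv 778 (cons (fin 713 7 713)
(mv 843 (cons (fin 845 3 777)
(mv 907 (cons (fin 1098 6 842)
(fin 714 4 714)))))))))
(cons (mv 778 (cons (mv 779 (cons (fin 715 6 714)
(fin 843 6 778)))
(cons (mv 714 (cons (fin 907 4 714)
(mv 651 (cons (fin 715 6 650)
(mv 650 (cons (fin 587 6 586)
(mv 649 (cons (fin 585 7 585)
(fin 713 7 649)))))))))
(mv 907 (cons (fin 714 4 714)
(mv 843 (cons (fin 779 5 778)
(fin 1098 6 842))))))))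
(mv 843 (cons (fin 779 6 778)
(mv 841 (cons (fin 777 7 777)
(mv 907 (cons (fin 1098 6 842)
(mv 1100 (cons (fin 1164 7 907)
(mv 781 (cons (fin 780 2 777)
(mv 845 (cons (fin 846 1 842)
(fin 782 2 778))))))))))))))))))))))))))))
(cons (cons (mv 972 (cons (cons (mv 971 (cons (fin 1033 1 969)
(fin 969 0 969)))
(mv 844 (cons (fin 908 4 844)
(mv 906 (cons (cons (cons (mv 1098 (cons (cons (mv 841 (cons (fin 905 7 841)
(mv 777 (cons (fin 842 7 777)
(mv 1099 (cons (fin 1163 4 906)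
(mv 1097 (cons (fin 1100 2 1033)
(fin 1161 5 905)))))))))
(mv 841 (cons (fin 905 7 841)
(mv 842 (cons (fin 777 7 777)
(mv 1099 (cons (fin 1163 4 906)
(mv 1033 (cons (fin 1100 3 1033)
(mv 779 (cons (fin 843 6 778)
(mv 778 (cons (fin 969 5 777)
(fin 715 6 714))))))))))))))
(cons (mv 1097 (cons (fin 1161 5 905)
(mv 842 (cons (fin 1033 5 841)
(mv 841 (cons (fin 777 7 777)
(fin 905 7 841)))))))
(mv 1099 (cons (fin 1163 4 906)
(mv 1097 (cons (fin 1100 2 1033)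
(fin 1161 5 905))))))))
(mv 842 (cons (cons (mv 777 (cons (fin 841 7 777)
(mv 778 (cons (fin 713 7 713)
(mv 843 (cons (fin 845 3 777)
(fin 779 6 778)))))))
(mv 777 (cons (fin 841 7 777)
(mv 778 (cons (fin 713 7 713)
(mv 1033 (cons (fin 969 5 777)
(fin 1097 5 841))))))))
(cons (mv 1033 (cons (fin 1097 5 841)
(mv 778 (cons (fin 969 5 777)
(mv 779 (cons (fin 715 6 714)
(fin 843 6 778)))))))
(mv 843 (cons (fin 779 6 778)
(mv 841 (cons (fin 777 7 777)
(mv 905 (cons (fin 904 1 840)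
(fin 845 1 841)))))))))))
(cons (mv 1098 (cons (cons (mv 841 (cons (fin 905 7 841)
(mv 1099 (cons (fin 1163 4 906)
(mv 1097 (cons (fin 1100 2 1033)
(fin 1161 5 905)))))))
(cons (mv 1097 (cons (fin 1161 5 905)
(mv 905 (cons (fin 841 7 841)
(mv 1162 (cons (fin 969 7 905)
(mv 1227 (cons (fin 1163 4 970)
(mv 1226 (cons (fin 1291 4 1034)
(mv 1289 (cons (fin 1225 5 1033)
(mv 1290 (cons (fin 1033 7 1033)
(fin 1353 5 1097)))))))))))))))
(mv 841 (cons (fin 905 7 841)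
(mv 1099 (cons (fin 1163 4 906)
(mv 1100 (cons (fin 1033 3 1033)
(fin 1097 2 1033)))))))))
(cons (mv 1099 (cons (fin 1163 4 906)
(mv 1100 (cons (fin 1033 3 1033)
(mv 905 (cons (fin 841 7 841)
(mv 1162 (cons (fin 1161 1 1097)
(fin 969 7 905)))))))))
(cons (mv 1097 (cons (fin 1161 5 905)
(mv 1099 (cons (fin 1100 2 1033)
(fin 1163 4 906)))))
(mv 905 (cons (fin 841 7 841)
(mv 1161 (cons (fin 1097 5 905)
(mv 1162 (cons (fin 969 7 905)
(fin 1225 5 969)))))))))))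
(mv 842 (cons (cons (mv 777 (cons (fin 841 7 777)
(mv 778 (cons (fin 713 7 713)
(mv 843 (cons (fin 845 3 777)
(fin 779 6 778)))))))
(mv 777 (cons (fin 841 7 777)
(mv 778 (cons (fin 713 7 713)
(mv 969 (cons (fin 1033 5 777)
(mv 714 (cons (fin 905 5 713)
(mv 715 (cons (fin 651 6 650)
(fin 779 6 714))))))))))))
(cons (mv 779 (cons (fin 843 6 778)
(mv 778 (cons (fin 715 6 714)
(mv 969 (cons (fin 1033 5 777)
(mv 714 (cons (fin 905 5 713)
(mv 713 (cons (fin 649 7 649)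
(fin 777 7 713)))))))))))
(cons (mv 779 (cons (fin 843 6 778)
(mv 778 (cons (fin 715 6 714)
(mv 969 (cons (fin 1033 5 777)
(mv 905 (cons (fin 714 5 713)
(mv 1098 (cons (fin 841 7 841)
(fin 1162 7 905)))))))))))
(mv 841 (cons (fin 777 7 777)
(mv 905 (cons (fin 1098 7 841)
(mv 843 (cons (fin 904 1 840)
(fin 845 1 841)))))))))))))
(cons (cons (mv 1098 (cons (cons (mv 1097 (cons (fin 1161 5 905)
(mv 1099 (cons (fin 1100 2 1033)
(fin 1163 4 906)))))
(mv 1163 (cons (fin 1099 4 906)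
(mv 1162 (cons (fin 1227 4 970)
(mv 1225 (cons (fin 1161 5 969)
(mv 969 (cons (fin 905 7 905)
(mv 1226 (cons (fin 1033 7 969)
(fin 1289 5 1033))))))))))))
(cons (mv 1161 (cons (fin 1097 5 905)
(mv 1162 (cons (fin 1225 5 969)
(mv 969 (cons (fin 905 7 905)
(mv 1227 (cons (fin 1163 4 970)
(mv 1226 (cons (fin 1033 7 969)
(fin 1291 4 1034)))))))))))
(cons (mv 1099 (cons (fin 1163 4 906)
(mv 1100 (cons (fin 1033 3 1033)
(fin 1097 2 1033)))))
(mv 1161 (cons (fin 1097 5 905)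
(mv 1162 (cons (fin 1225 5 969)
(mv 969 (cons (fin 905 7 905)
(mv 1100 (cons (fin 1099 1 1097)
(mv 1228 (cons (fin 1164 6 972)
(mv 1226 (cons (fin 1033 7 969)
(mv 1227 (cons (fin 1229 3 1161)
(fin 1291 4 1034)))))))))))))))))))
(mv 842 (cons (cons (mv 777 (cons (fin 841 7 777)
(mv 713 (cons (fin 778 7 713)
(mv 779 (cons (fin 843 6 778)
(mv 1097 (cons (fin 1033 5 841)
(mv 1098 (cons (fin 1161 5 905)
(mv 1099 (cons (fin 1100 2 1033)
(fin 1163 4 906)))))))))))))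
(mv 777 (cons (fin 841 7 777)
(mv 778 (cons (fin 713 7 713)
(mv 843 (cons (fin 845 3 777)
(fin 779 6 778))))))))
(cons (mv 779 (cons (fin 843 6 778)
(mv 715 (cons (fin 778 6 714)
(mv 1097 (cons (fin 1033 5 841)
(mv 1098 (cons (fin 1161 5 905)
(mv 1099 (cons (fin 1100 2 1033)
(fin 1163 4 906)))))))))))
(cons (mv 1033 (cons (fin 1097 5 841)
(mv 778 (cons (fin 969 5 777)
(mv 777 (cons (fin 713 7 713)
(fin 841 7 777)))))))
(mv 777 (cons (fin 841 7 777)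
(mv 779 (cons (fin 843 6 778)
(mv 1097 (cons (fin 1033 5 841)
(mv 1098 (cons (fin 1161 5 905)
(mv 1099 (cons (fin 1100 2 1033)
(fin 1163 4 906))))))))))))))))
(cons (mv 1098 (cons (cons (mv 841 (cons (fin 905 7 841)
(mv 777 (cons (fin 842 7 777)
(mv 1099 (cons (fin 1163 4 906)
(mv 1097 (cons (fin 1100 2 1033)
(fin 1161 5 905)))))))))
(mv 1097 (cons (fin 1161 5 905)
(mv 1099 (cons (fin 1100 2 1033)
(fin 1163 4 906))))))
(cons (mv 905 (cons (fin 841 7 841)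
(mv 1161 (cons (fin 1097 5 905)
(mv 1162 (cons (fin 969 7 905)
(fin 1225 5 969)))))))
(mv 905 (cons (fin 841 7 841)
(mv 1163 (cons (fin 1099 4 906)
(mv 1162 (cons (fin 969 7 905)
(fin 1227 4 970))))))))))
(mv 842 (cons (cons (mv 777 (cons (fin 841 7 777)
(mv 713 (cons (fin 778 7 713)
(mv 779 (cons (fin 843 6 778)
(mv 1097 (cons (fin 1033 5 841)
(mv 1098 (cons (fin 1161 5 905)
(mv 1099 (cons (fin 1100 2 1033)
(fin 1163 4 906)))))))))))))
(mv 1033 (cons (fin 1097 5 841)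
(mv 841 (cons (fin 777 7 777)
(mv 1098 (cons (fin 905 7 841)
(mv 1099 (cons (fin 1100 3 1033)
(fin 1163 4 906))))))))))
(cons (mv 779 (cons (fin 843 6 778)
(mv 715 (cons (fin 778 6 714)
(mv 1097 (cons (fin 1033 5 841)
(mv 1098 (cons (fin 1161 5 905)
(mv 1099 (cons (fin 1100 2 1033)
(fin 1163 4 906)))))))))))
(mv 777 (cons (fin 841 7 777)
(mv 778 (cons (fin 713 7 713)
(mv 843 (cons (fin 845 3 777)
(fin 779 6 778)))))))))))))))))
(cons (mv 908 (cons (fin 844 4 844)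
(mv 1100 (cons (cons (mv 969 (cons (fin 971 0 969)
(mv 1099 (cons (fin 1163 5 907)
(mv 1098 (cons (fin 1097 2 1033)
(mv 1162 (cons (fin 1161 1 1097)
(fin 905 7 905)))))))))
(mv 1164 (cons (fin 1228 6 972)
(mv 1098 (cons (cons (mv 969 (cons (fin 971 0 969)
(mv 1097 (cons (fin 1099 2 1033)
(mv 905 (cons (fin 1162 7 905)
(mv 906 (cons (fin 841 7 841)
(fin 1161 5 905)))))))))
(mv 1097 (cons (fin 1099 2 1033)
(mv 906 (cons (fin 1161 5 905)
(mv 905 (cons (fin 971 3 905)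
(fin 841 7 841))))))))
(cons (mv 969 (cons (fin 971 0 969)
(mv 905 (cons (fin 1162 7 905)
(mv 841 (cons (fin 906 7 841)
(fin 777 4 777)))))))
(cons (mv 1097 (cons (fin 1099 2 1033)
(mv 1161 (cons (fin 906 5 905)
(mv 1225 (cons (fin 1162 5 969)
(fin 1289 6 1033)))))))
(mv 1099 (cons (fin 1097 2 1033)
(mv 969 (cons (fin 971 0 969)
(mv 1162 (cons (fin 1161 1 1097)
(fin 905 7 905))))))))))))))
(cons (mv 1164 (cons (fin 1228 6 972)
(mv 905 (cons (cons (mv 971 (cons (fin 906 3 905)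
(fin 969 0 969)))
(mv 1163 (cons (fin 1227 5 971)
(mv 1162 (cons (fin 1161 2 1097)
(mv 841 (cons (cons (mv 1098 (cons (fin 906 7 841)
(fin 969 7 905)))
(mv 906 (cons (fin 1098 7 841)
(mv 777 (cons (fin 842 7 777)
(fin 713 4 713))))))
(cons (mv 777 (cons (fin 969 4 777)
(mv 906 (cons (fin 842 7 777)
(fin 713 4 713)))))
(mv 969 (cons (fin 1098 7 905)
(fin 777 4 777)))))))))))
(cons (mv 1163 (cons (fin 1227 5 971)
(mv 1161 (cons (fin 1162 2 1097)
(mv 906 (cons (fin 971 3 905)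
(mv 1098 (cons (fin 841 7 841)
(fin 1097 5 905)))))))))
(mv 969 (cons (fin 971 0 969)
(mv 777 (cons (fin 841 4 777)
(mv 1162 (cons (fin 1098 7 905)
(mv 1163 (cons (fin 1161 2 1097)
(fin 1227 5 971))))))))))))))
(mv 1164 (cons (fin 1228 6 972)
(mv 1163 (cons (fin 1099 5 907)
(fin 1227 5 971))))))))))
(mv 844 (cons (fin 908 4 844)
(mv 906 (cons (cons (mv 971 (cons (fin 905 3 905)
(fin 1033 1 969)))
(mv 842 (cons (cons (mv 777 (cons (fin 841 7 777)
(mv 713 (cons (fin 778 7 713)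
(mv 779 (cons (fin 843 6 778)
(mv 1097 (cons (fin 1033 5 841)
(mv 1098 (cons (fin 1161 5 905)
(mv 1099 (cons (fin 1100 2 1033)
(fin 1163 4 906)))))))))))))
(mv 1033 (cons (fin 1097 5 841)
(mv 841 (cons (fin 777 7 777)
(mv 1098 (cons (fin 905 7 841)
(mv 1099 (cons (fin 1100 3 1033)
(fin 1163 4 906))))))))))
(cons (mv 779 (cons (fin 843 6 778)
(mv 715 (cons (fin 778 6 714)
(mv 1097 (cons (fin 1033 5 841)
(mv 1098 (cons (fin 1161 5 905)
(mv 1099 (cons (fin 1100 2 1033)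
(fin 1163 4 906)))))))))))
(mv 777 (cons (fin 841 7 777)
(mv 778 (cons (fin 713 7 713)
(mv 843 (cons (fin 845 3 777)
(fin 779 6 778)))))))))))
(cons (mv 1033 (cons (fin 971 1 969)
(mv 842 (cons (fin 1097 5 841)
(mv 777 (cons (fin 841 7 777)
(mv 778 (cons (fin 713 7 713)
(mv 843 (cons (fin 845 3 777)
(fin 779 6 778)))))))))))
(mv 905 (cons (fin 971 3 905)
(mv 841 (cons (fin 1098 7 841)
(mv 777 (cons (fin 842 7 777)
(fin 713 4 713)))))))))))))))
(mv 972 (cons (cons (mv 971 (cons (fin 1033 1 969)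
(fin 969 0 969)))
(mv 908 (cons (fin 844 4 844)
(mv 906 (cons (cons (mv 905 (cons (fin 907 0 905)
(mv 841 (cons (fin 1098 7 841)
(mv 777 (cons (fin 842 7 777)
(fin 713 4 713)))))))
(mv 842 (cons (cons (mv 777 (cons (fin 841 7 777)
(mv 778 (cons (fin 713 7 713)
(mv 1033 (cons (fin 969 5 777)
(fin 1097 5 841)))))))
(mv 779 (cons (fin 843 6 778)
(mv 778 (cons (fin 715 6 714)
(mv 1033 (cons (fin 969 5 777)
(fin 1097 5 841))))))))
(cons (mv 777 (cons (fin 841 7 777)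
(mv 778 (cons (fin 713 7 713)
(mv 779 (cons (fin 715 6 714)
(fin 843 6 778)))))))
(mv 779 (cons (fin 843 6 778)
(mv 1097 (cons (fin 1033 5 841)
(mv 841 (cons (fin 777 7 777)
(mv 1098 (cons (fin 905 7 841)
(fin 1161 5 905)))))))))))))
(cons (mv 842 (cons (cons (mv 777 (cons (fin 841 7 777)
(mv 713 (cons (fin 778 7 713)
(mv 843 (cons (fin 779 6 778)
(mv 907 (cons (fin 1100 7 843)
(fin 1098 6 842)))))))))
(mv 1033 (cons (fin 1097 5 841)
(mv 778 (cons (fin 969 5 777)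
(mv 777 (cons (fin 713 7 713)
(fin 841 7 777))))))))
(cons (mv 779 (cons (fin 843 6 778)
(mv 778 (cons (fin 715 6 714)
(mv 1033 (cons (fin 969 5 777)
(fin 1097 5 841)))))))
(mv 1033 (cons (fin 1097 5 841)
(mv 777 (cons (fin 841 7 777)
(mv 843 (cons (fin 779 6 778)
(mv 907 (cons (fin 1100 7 843)
(fin 1098 6 842))))))))))))
(cons (mv 905 (cons (fin 907 0 905)
(mv 841 (cons (fin 1098 7 841)
(mv 777 (cons (fin 713 4 713)
(fin 969 4 777)))))))
(mv 907 (cons (fin 905 0 905)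
(mv 843 (cons (fin 1100 7 843)
(mv 779 (cons (fin 715 5 714)
(fin 842 6 778))))))))))))))
(cons (mv 844 (cons (fin 908 4 844)
(mv 971 (cons (fin 1033 1 969)
(mv 906 (cons (fin 905 3 905)
(mv 842 (cons (cons (mv 777 (cons (fin 841 7 777)
(mv 778 (cons (fin 713 7 713)
(mv 843 (cons (fin 845 3 777)
(fin 779 6 778)))))))
(mv 777 (cons (fin 841 7 777)
(mv 778 (cons (fin 713 7 713)
(mv 715 (cons (fin 779 6 714)
(mv 714 (cons (fin 651 6 650)
(fin 907 4 714))))))))))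
(cons (mv 777 (cons (fin 841 7 777)
(mv 778 (cons (fin 713 7 713)
(mv 843 (cons (fin 845 3 777)
(mv 907 (cons (fin 1098 6 842)
(fin 714 4 714)))))))))
(cons (mv 778 (cons (mv 779 (cons (fin 715 6 714)
(fin 843 6 778)))
(cons (mv 714 (cons (fin 907 4 714)
(mv 651 (cons (fin 715 6 650)
(mv 650 (cons (fin 587 6 586)
(mv 649 (cons (fin 585 7 585)
(fin 713 7 649)))))))))
(mv 907 (cons (fin 714 4 714)
(mv 843 (cons (fin 779 5 778)
(fin 1098 6 842))))))))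
(mv 843 (cons (fin 779 6 778)
(mv 841 (cons (fin 777 7 777)
(mv 907 (cons (fin 1098 6 842)
(mv 1100 (cons (fin 1164 7 907)
(mv 781 (cons (fin 780 2 777)
(mv 845 (cons (fin 846 1 842)
(fin 782 2 778)))))))))))))))))))))))
(mv 844 (cons (fin 908 4 844)
(mv 971 (cons (fin 969 0 969)
(mv 906 (cons (fin 905 3 905)
(mv 842 (cons (cons (mv 777 (cons (fin 841 7 777)
(mv 778 (cons (fin 713 7 713)
(mv 843 (cons (fin 845 3 777)
(fin 779 6 778)))))))
(mv 777 (cons (fin 841 7 777)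
(mv 778 (cons (fin 713 7 713)
(mv 715 (cons (fin 779 6 714)
(mv 714 (cons (fin 651 6 650)
(fin 907 4 714))))))))))
(cons (mv 777 (cons (fin 841 7 777)
(mv 778 (cons (fin 713 7 713)
(mv 843 (cons (fin 845 3 777)
(mv 907 (cons (fin 1098 6 842)
(fin 714 4 714)))))))))
(cons (mv 778 (cons (mv 779 (cons (fin 715 6 714)
(fin 843 6 778)))
(cons (mv 714 (cons (fin 907 4 714)
(mv 651 (cons (fin 715 6 650)
(mv 650 (cons (fin 587 6 586)
(mv 649 (cons (fin 585 7 585)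
(fin 713 7 649)))))))))
(mv 907 (cons (fin 714 4 714)
(mv 843 (cons (fin 779 5 778)
(fin 1098 6 842))))))))
(mv 843 (cons (fin 779 6 778)
(mv 841 (cons (fin 777 7 777)
(mv 907 (cons (fin 1098 6 842)
(mv 1100 (cons (fin 1164 7 907)
(mv 781 (cons (fin 780 2 777)
(mv 845 (cons (fin 846 1 842)
(fin 782 2 778)))))))))))))))))))))))))))
(cons (mv 972 (cons (cons (mv 971 (cons (fin 1033 1 969)
(fin 969 0 969)))
(mv 908 (cons (fin 844 4 844)
(mv 906 (cons (cons (mv 905 (cons (fin 907 0 905)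
(mv 841 (cons (fin 1098 7 841)
(mv 777 (cons (fin 842 7 777)
(fin 713 4 713)))))))
(mv 842 (cons (cons (mv 777 (cons (fin 841 7 777)
(mv 778 (cons (fin 713 7 713)
(mv 1033 (cons (fin 969 5 777)
(fin 1097 5 841)))))))
(mv 779 (cons (fin 843 6 778)
(mv 778 (cons (fin 715 6 714)
(mv 1033 (cons (fin 969 5 777)
(fin 1097 5 841))))))))
(cons (mv 777 (cons (fin 841 7 777)
(mv 778 (cons (fin 713 7 713)
(mv 779 (cons (fin 715 6 714)
(fin 843 6 778)))))))
(mv 779 (cons (fin 843 6 778)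
(mv 1033 (cons (fin 1097 5 841)
(mv 841 (cons (fin 777 7 777)
(mv 1098 (cons (fin 905 7 841)
(mv 1099 (cons (fin 1100 3 1033)
(fin 1163 4 906)))))))))))))))
(cons (mv 1100 (cons (cons (mv 843 (cons (fin 907 7 843)
(mv 1164 (cons (fin 1228 6 972)
(mv 1163 (cons (fin 1099 5 907)
(fin 1227 5 971)))))))
(mv 1164 (cons (fin 1228 6 972)
(mv 1163 (cons (fin 1227 5 971)
(mv 843 (cons (fin 907 7 843)
(mv 842 (cons (fin 779 6 778)
(mv 1033 (cons (fin 1097 5 841)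
(mv 778 (cons (fin 969 5 777)
(mv 777 (cons (fin 713 7 713)
(fin 841 7 777))))))))))))))))
(cons (mv 843 (cons (fin 907 7 843)
(mv 1099 (cons (fin 1163 5 907)
(mv 1098 (cons (fin 1033 3 1033)
(fin 1097 2 1033)))))))
(cons (mv 1164 (cons (fin 1228 6 972)
(mv 843 (cons (fin 907 7 843)
(mv 842 (cons (fin 779 6 778)
(mv 1033 (cons (fin 1097 5 841)
(mv 778 (cons (fin 969 5 777)
(mv 777 (cons (fin 713 7 713)
(fin 841 7 777)))))))))))))
(mv 1099 (cons (fin 1163 5 907)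
(mv 1098 (cons (fin 1033 3 1033)
(fin 1097 2 1033)))))))))
(cons (mv 907 (cons (fin 905 0 905)
(mv 843 (cons (fin 1100 7 843)
(mv 779 (cons (fin 715 5 714)
(fin 842 6 778)))))))
(mv 905 (cons (fin 907 0 905)
(mv 841 (cons (fin 1098 7 841)
(mv 777 (cons (fin 713 4 713)
(fin 969 4 777))))))))))))))
(cons (mv 844 (cons (fin 908 4 844)
(mv 971 (cons (fin 1033 1 969)
(mv 906 (cons (fin 905 3 905)
(mv 907 (cons (mv 843 (cons (fin 779 5 778)
(fin 1098 6 842)))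
(cons (mv 1100 (cons (fin 1164 7 907)
(mv 1098 (cons (fin 1162 6 906)
(mv 1099 (cons (fin 1097 2 1033)
(fin 1163 4 906)))))))
(mv 1100 (cons (fin 1164 7 907)
(mv 842 (cons (mv 779 (cons (fin 843 5 778)
(mv 778 (cons (fin 715 6 714)
(fin 714 4 714)))))
(cons (mv 777 (cons (fin 841 7 777)
(mv 778 (cons (fin 713 7 713)
(fin 714 4 714)))))
(mv 843 (cons (fin 779 5 778)
(mv 845 (cons (fin 846 1 842)
(mv 841 (cons (fin 777 7 777)
(mv 781 (cons (fin 780 2 777)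
(fin 782 2 778)))))))))))))))))))))))
(mv 844 (cons (fin 908 4 844)
(mv 971 (cons (fin 969 0 969)
(mv 906 (cons (fin 905 3 905)
(mv 907 (cons (mv 843 (cons (fin 779 5 778)
(fin 1098 6 842)))
(cons (mv 1100 (cons (fin 1164 7 907)
(mv 1098 (cons (fin 1162 6 906)
(mv 1099 (cons (fin 1097 2 1033)
(fin 1163 4 906)))))))
(mv 1100 (cons (fin 1164 7 907)
(mv 842 (cons (mv 779 (cons (fin 843 5 778)
(mv 778 (cons (fin 715 6 714)
(fin 714 4 714)))))
(cons (mv 777 (cons (fin 841 7 777)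
(mv 778 (cons (fin 713 7 713)
(fin 714 4 714)))))
(mv 843 (cons (fin 779 5 778)
(mv 845 (cons (fin 846 1 842)
(mv 841 (cons (fin 777 7 777)
(mv 781 (cons (fin 780 2 777)
(fin 782 2 778))))))))))))))))))))))))))
(mv 971 (cons (cons (mv 972 (cons (fin 1033 1 969)
(fin 969 0 969)))
(mv 1098 (cons (cons (mv 1162 (cons (fin 907 6 906)
(mv 1161 (cons (fin 1225 5 969)
(mv 906 (cons (fin 1097 5 905)
(mv 905 (cons (fin 841 7 841)
(fin 969 7 905)))))))))
(cons (mv 906 (cons (cons (mv 841 (cons (fin 905 7 841)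
(mv 777 (cons (fin 842 7 777)
(mv 1099 (cons (fin 1163 4 906)
(mv 1097 (cons (fin 1100 2 1033)
(fin 1161 5 905)))))))))
(mv 1099 (cons (fin 1163 4 906)
(mv 1033 (cons (fin 1100 3 1033)
(mv 841 (cons (fin 905 7 841)
(mv 842 (cons (fin 777 7 777)
(mv 1031 (cons (fin 1032 2 967)
(mv 778 (cons (fin 969 5 777)
(mv 715 (cons (fin 779 6 714)
(mv 714 (cons (fin 651 6 650)
(fin 907 4 714))))))))))))))))))
(cons (mv 841 (cons (fin 905 7 841)
(mv 842 (cons (fin 777 7 777)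
(mv 1097 (cons (fin 1033 5 841)
(fin 1161 5 905)))))))
(mv 1097 (cons (fin 1161 5 905)
(mv 1099 (cons (fin 1100 2 1033)
(fin 1163 4 906))))))))
(mv 1162 (cons (cons (mv 1161 (cons (fin 1225 5 969)
(mv 906 (cons (fin 1097 5 905)
(mv 905 (cons (fin 841 7 841)
(fin 969 7 905)))))))
(mv 905 (cons (fin 969 7 905)
(mv 906 (cons (fin 841 7 841)
(mv 1163 (cons (fin 1099 4 906)
(fin 1227 4 970))))))))
(cons (mv 1163 (cons (fin 1227 4 970)
(mv 906 (cons (fin 1099 4 906)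
(mv 1161 (cons (fin 1097 5 905)
(fin 1225 5 969)))))))
(mv 1161 (cons (fin 1225 5 969)
(mv 1099 (cons (fin 1100 1 1097)
(mv 1159 (cons (fin 1160 2 1095)
(mv 969 (cons (fin 905 7 905)
(mv 1227 (cons (fin 1163 4 970)
(mv 1226 (cons (fin 1033 7 969)
(fin 1291 4 1034))))))))))))))))))
(cons (mv 1162 (cons (fin 907 6 906)
(mv 1161 (cons (fin 1225 5 969)
(mv 1099 (cons (fin 1100 1 1097)
(mv 1159 (cons (fin 1160 2 1095)
(mv 969 (cons (fin 905 7 905)
(mv 1227 (cons (fin 1163 4 970)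
(mv 1226 (cons (fin 1033 7 969)
(fin 1291 4 1034)))))))))))))))
(cons (mv 1162 (cons (fin 907 6 906)
(mv 905 (cons (fin 969 7 905)
(mv 906 (cons (fin 841 7 841)
(mv 1163 (cons (fin 1099 4 906)
(fin 1227 4 970)))))))))
(mv 1162 (cons (fin 907 6 906)
(mv 1161 (cons (fin 1225 5 969)
(mv 906 (cons (fin 1097 5 905)
(mv 1099 (cons (fin 1100 1 1097)
(fin 1163 4 906))))))))))))))
(cons (mv 972 (cons (fin 969 0 969)
(mv 905 (cons (fin 906 3 905)
(mv 908 (cons (fin 844 4 844)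
(mv 1100 (cons (mv 1164 (cons (fin 907 7 907)
(fin 1228 6 972)))
(cons (mv 1099 (cons (fin 1163 5 907)
(mv 1098 (cons (fin 1097 2 1033)
(mv 1162 (cons (fin 1161 1 1097)
(fin 907 6 906)))))))
(mv 1163 (cons (fin 1099 5 907)
(mv 1164 (cons (fin 1227 5 971)
(fin 1228 6 972))))))))))))))
(mv 972 (cons (fin 1033 1 969)
(mv 905 (cons (fin 906 3 905)
(mv 908 (cons (fin 844 4 844)
(mv 1100 (cons (mv 1164 (cons (fin 907 7 907)
(fin 1228 6 972)))
(cons (mv 1099 (cons (fin 1163 5 907)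
(mv 1098 (cons (fin 1097 2 1033)
(mv 1162 (cons (fin 1161 1 1097)
(fin 907 6 906)))))))
(mv 1163 (cons (fin 1099 5 907)
(mv 1164 (cons (fin 1227 5 971)
(fin 1228 6 972))))))))))))))))))))))
(mv 1104 (cons (fin 1102 3 1036)
(mv 976 (cons (cons (mv 911 (cons (fin 1168 7 911)
(mv 912 (cons (fin 847 7 847)
(fin 1167 5 911)))))
(mv 1168 (cons (fin 911 7 911)
(mv 1231 (cons (fin 1167 5 975)
(mv 1233 (cons (fin 1169 4 976)
(mv 1232 (cons (fin 1295 5 1039)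
(fin 1297 4 1040))))))))))
(cons (mv 912 (cons (fin 1167 5 911)
(mv 847 (cons (fin 911 7 847)
(mv 848 (cons (fin 783 7 783)
(mv 849 (cons (fin 785 6 784)
(fin 913 6 848)))))))))
(cons (mv 912 (cons (fin 1167 5 911)
(mv 913 (cons (fin 849 6 848)
(mv 1169 (cons (fin 1105 4 912)
(mv 1168 (cons (fin 977 6 912)
(fin 1233 4 976)))))))))
(mv 911 (cons (fin 1168 7 911)
(mv 847 (cons (fin 912 7 847)
(fin 783 4 783)))))))))))))))
(cons (mv 972 (cons (cons (mv 908 (cons (fin 844 4 844)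
(mv 907 (cons (fin 974 3 907)
(mv 905 (cons (fin 906 0 905)
(mv 843 (cons (fin 1100 7 843)
(mv 779 (cons (fin 715 4 715)
(fin 971 4 779)))))))))))
(cons (mv 1100 (cons (cons (mv 1164 (cons (fin 1228 6 972)
(mv 1163 (cons (fin 1227 5 971)
(mv 1161 (cons (fin 1162 2 1097)
(mv 1102 (cons (fin 1103 1 1099)
(mv 971 (cons (fin 907 7 907)
(mv 970 (cons (fin 1033 1 969)
(fin 969 0 969)))))))))))))
(mv 970 (cons (cons (mv 971 (cons (fin 1033 1 969)
(fin 969 0 969)))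
(mv 1098 (cons (cons (mv 1099 (cons (fin 1033 3 1033)
(fin 1097 2 1033)))
(mv 906 (cons (cons (mv 841 (cons (fin 905 7 841)
(mv 842 (cons (fin 777 7 777)
(mv 1097 (cons (fin 1033 5 841)
(fin 1161 5 905)))))))
(mv 843 (cons (fin 907 6 842)
(mv 842 (cons (fin 779 6 778)
(mv 1097 (cons (fin 1033 5 841)
(fin 1161 5 905))))))))
(cons (mv 841 (cons (fin 905 7 841)
(mv 842 (cons (fin 777 7 777)
(mv 843 (cons (fin 779 6 778)
(fin 907 6 842)))))))
(mv 843 (cons (fin 907 6 842)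
(mv 1097 (cons (fin 1161 5 905)
(mv 905 (cons (fin 841 7 841)
(mv 1162 (cons (fin 969 7 905)
(mv 1227 (cons (fin 1163 4 970)
(mv 1226 (cons (fin 1291 4 1034)
(mv 1289 (cons (fin 1225 5 1033)
(mv 1290 (cons (fin 1033 7 1033)
(fin 1353 5 1097)))))))))))))))))))))
(cons (mv 1099 (cons (fin 1033 3 1033)
(mv 1161 (cons (fin 1162 1 1097)
(mv 906 (cons (fin 1163 4 906)
(mv 843 (cons (fin 907 6 842)
(mv 842 (cons (fin 779 6 778)
(mv 841 (cons (fin 777 7 777)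
(fin 905 7 841)))))))))))))
(mv 1097 (cons (fin 1099 2 1033)
(mv 906 (cons (fin 1161 5 905)
(mv 841 (cons (fin 905 7 841)
(mv 842 (cons (fin 777 7 777)
(mv 843 (cons (fin 779 6 778)
(fin 907 6 842)))))))))))))))
(cons (mv 971 (cons (fin 969 0 969)
(mv 906 (cons (fin 905 3 905)
(mv 907 (cons (fin 974 3 906)
(mv 843 (cons (fin 779 5 778)
(fin 1098 6 842)))))))))
(mv 971 (cons (fin 1033 1 969)
(mv 906 (cons (fin 905 3 905)
(mv 907 (cons (fin 974 3 906)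
(mv 843 (cons (fin 779 5 778)
(fin 1098 6 842)))))))))))))
(cons (mv 1164 (cons (fin 1228 6 972)
(mv 1163 (cons (fin 1227 5 971)
(mv 1162 (cons (fin 1161 2 1097)
(mv 1102 (cons (fin 1099 1 1098)
(fin 1103 1 1099)))))))))
(mv 1164 (cons (fin 1228 6 972)
(mv 971 (cons (fin 907 7 907)
(mv 970 (cons (fin 1033 1 969)
(fin 969 0 969))))))))))
(mv 908 (cons (fin 844 4 844)
(mv 907 (cons (fin 974 3 907)
(mv 905 (cons (fin 906 0 905)
(mv 1100 (cons (fin 843 7 843)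
(mv 1099 (cons (fin 1163 5 907)
(mv 1098 (cons (fin 1033 3 1033)
(fin 1097 2 1033)))))))))))))))
(cons (mv 844 (cons (fin 908 4 844)
(mv 1100 (cons (cons (mv 1164 (cons (fin 1228 6 972)
(mv 1163 (cons (fin 1227 5 971)
(mv 1161 (cons (fin 1162 2 1097)
(mv 1102 (cons (fin 1103 1 1099)
(mv 971 (cons (fin 907 7 907)
(mv 970 (cons (fin 1033 1 969)
(fin 969 0 969)))))))))))))
(mv 970 (cons (cons (mv 971 (cons (fin 1033 1 969)
(fin 969 0 969)))
(mv 1098 (cons (cons (mv 1099 (cons (fin 1033 3 1033)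
(fin 1097 2 1033)))
(mv 906 (cons (cons (mv 841 (cons (fin 905 7 841)
(mv 842 (cons (fin 777 7 777)
(mv 1097 (cons (fin 1033 5 841)
(fin 1161 5 905)))))))
(mv 843 (cons (fin 907 6 842)
(mv 842 (cons (fin 779 6 778)
(mv 1097 (cons (fin 1033 5 841)
(fin 1161 5 905))))))))
(cons (mv 841 (cons (fin 905 7 841)
(mv 842 (cons (fin 777 7 777)
(mv 843 (cons (fin 779 6 778)
(fin 907 6 842)))))))
(mv 843 (cons (fin 907 6 842)
(mv 1161 (cons (fin 1097 5 905)
(mv 905 (cons (fin 841 7 841)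
(mv 1162 (cons (fin 969 7 905)
(fin 1225 5 969)))))))))))))
(cons (mv 1099 (cons (fin 1033 3 1033)
(mv 1161 (cons (fin 1162 1 1097)
(mv 906 (cons (fin 1163 4 906)
(mv 843 (cons (fin 907 6 842)
(mv 842 (cons (fin 779 6 778)
(mv 841 (cons (fin 777 7 777)
(fin 905 7 841)))))))))))))
(mv 1097 (cons (fin 1099 2 1033)
(mv 906 (cons (fin 1161 5 905)
(mv 841 (cons (fin 905 7 841)
(mv 842 (cons (fin 777 7 777)
(mv 843 (cons (fin 779 6 778)
(fin 907 6 842)))))))))))))))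
(cons (mv 969 (cons (fin 971 0 969)
(mv 1098 (cons (cons (mv 1097 (cons (fin 1099 2 1033)
(mv 905 (cons (fin 1162 7 905)
(mv 906 (cons (fin 841 7 841)
(fin 1161 5 905)))))))
(mv 1097 (cons (fin 1099 2 1033)
(mv 906 (cons (fin 1161 5 905)
(mv 841 (cons (fin 905 7 841)
(mv 842 (cons (fin 777 7 777)
(mv 843 (cons (fin 779 6 778)
(fin 907 6 842))))))))))))
(cons (mv 905 (cons (fin 1162 7 905)
(mv 841 (cons (fin 906 7 841)
(fin 777 4 777)))))
(cons (mv 1097 (cons (fin 1099 2 1033)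
(mv 906 (cons (fin 1161 5 905)
(mv 843 (cons (fin 907 6 842)
(mv 842 (cons (fin 779 6 778)
(mv 777 (cons (fin 841 7 777)
(mv 778 (cons (fin 845 3 777)
(fin 713 7 713)))))))))))))
(mv 1097 (cons (fin 1099 2 1033)
(mv 1162 (cons (fin 905 7 905)
(mv 1225 (cons (fin 1161 5 969)
(mv 1227 (cons (fin 1163 4 970)
(mv 1226 (cons (fin 1289 5 1033)
(fin 1291 4 1034)))))))))))))))))
(mv 971 (cons (fin 1033 1 969)
(mv 906 (cons (fin 905 3 905)
(mv 1098 (cons (mv 1097 (cons (fin 1099 2 1033)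
(fin 1161 5 905)))
(mv 907 (cons (fin 843 6 842)
(fin 1162 6 906)))))))))))))
(cons (mv 1164 (cons (fin 1228 6 972)
(mv 1163 (cons (fin 1227 5 971)
(mv 1162 (cons (fin 1161 2 1097)
(mv 1102 (cons (fin 1099 1 1098)
(fin 1103 1 1099)))))))))
(mv 1164 (cons (fin 1228 6 972)
(mv 971 (cons (fin 907 7 907)
(mv 970 (cons (fin 1033 1 969)
(fin 969 0 969))))))))))))
(cons (mv 908 (cons (fin 844 4 844)
(mv 974 (cons (fin 907 3 907)
(mv 911 (cons (fin 912 2 908)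
(mv 971 (cons (fin 910 2 907)
(mv 970 (cons (fin 1033 1 969)
(fin 969 0 969)))))))))))
(mv 970 (cons (cons (mv 971 (cons (fin 1033 1 969)
(fin 969 0 969)))
(mv 1100 (cons (cons (mv 844 (cons (fin 908 4 844)
(mv 1164 (cons (fin 1228 6 972)
(mv 1163 (cons (fin 1227 5 971)
(mv 1162 (cons (fin 1161 2 1097)
(mv 1102 (cons (fin 1099 1 1098)
(fin 1103 1 1099)))))))))))
(mv 908 (cons (fin 844 4 844)
(mv 1099 (cons (fin 1163 5 907)
(mv 1098 (cons (fin 1033 3 1033)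
(fin 1097 2 1033))))))))
(cons (mv 1164 (cons (fin 1228 6 972)
(mv 1163 (cons (fin 1227 5 971)
(mv 1162 (cons (fin 1161 2 1097)
(mv 1102 (cons (fin 1099 1 1098)
(fin 1103 1 1099)))))))))
(cons (mv 1164 (cons (fin 1228 6 972)
(mv 844 (cons (fin 908 4 844)
(mv 1161 (cons (mv 1163 (cons (fin 1162 2 1097)
(fin 1227 5 971)))
(cons (mv 1097 (cons (cons (mv 906 (cons (fin 1098 5 905)
(mv 1033 (cons (fin 842 5 841)
(fin 969 6 905)))))
(mv 1098 (cons (fin 906 5 905)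
(mv 1225 (cons (fin 1162 5 969)
(fin 1289 6 1033))))))
(cons (mv 1033 (cons (fin 1225 6 969)
(mv 906 (cons (fin 842 5 841)
(fin 969 6 905)))))
(mv 1225 (cons (fin 1033 6 969)
(mv 1098 (cons (fin 1162 5 969)
(fin 1289 6 1033))))))))
(mv 906 (cons (cons (mv 1163 (cons (fin 1227 5 971)
(mv 1102 (cons (fin 1103 1 1099)
(mv 1097 (cons (fin 1098 5 905)
(mv 1033 (cons (fin 842 5 841)
(fin 969 6 905)))))))))
(cons (mv 1163 (cons (fin 1227 5 971)
(mv 842 (cons (cons (mv 1102 (cons (fin 1103 1 1099)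
(mv 777 (cons (fin 841 7 777)
(mv 778 (cons (fin 713 7 713)
(mv 843 (cons (fin 845 3 777)
(fin 779 6 778)))))))))
(mv 777 (cons (fin 841 7 777)
(mv 778 (cons (fin 713 7 713)
(mv 714 (cons (mv 969 (cons (fin 905 5 713)
(fin 1033 5 777)))
(mv 715 (cons (fin 651 6 650)
(fin 779 6 714))))))))))
(cons (mv 779 (cons (fin 843 6 778)
(mv 778 (cons (fin 715 6 714)
(mv 714 (cons (mv 713 (cons (fin 649 7 649)
(fin 777 7 713)))
(mv 969 (cons (fin 905 5 713)
(fin 1033 5 777)))))))))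
(cons (mv 1102 (cons (fin 1103 1 1099)
(mv 843 (cons (fin 779 6 778)
(mv 905 (cons (fin 845 1 841)
(mv 904 (cons (fin 841 1 840)
(fin 903 2 839)))))))))
(mv 841 (cons (fin 777 7 777)
(mv 1102 (cons (fin 1103 1 1099)
(mv 905 (cons (fin 1098 7 841)
(mv 843 (cons (fin 904 1 840)
(fin 845 1 841)))))))))))))))
(mv 1163 (cons (fin 1227 5 971)
(mv 1102 (cons (fin 1103 1 1099)
(mv 842 (cons (cons (mv 777 (cons (fin 841 7 777)
(mv 778 (cons (fin 713 7 713)
(mv 843 (cons (fin 845 3 777)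
(fin 779 6 778)))))))
(mv 777 (cons (fin 841 7 777)
(mv 778 (cons (fin 713 7 713)
(mv 1033 (cons (fin 969 5 777)
(fin 1097 5 841))))))))
(cons (mv 1033 (cons (fin 1097 5 841)
(mv 778 (cons (fin 969 5 777)
(mv 779 (cons (fin 715 6 714)
(fin 843 6 778)))))))
(mv 843 (cons (fin 779 6 778)
(mv 841 (cons (fin 777 7 777)
(mv 905 (cons (fin 904 1 840)
(fin 845 1 841))))))))))))))))
(cons (mv 1097 (cons (fin 1098 5 905)
(mv 1033 (cons (fin 842 5 841)
(fin 969 6 905)))))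
(cons (mv 1097 (cons (fin 1098 5 905)
(mv 1033 (cons (fin 969 6 905)
(fin 1225 6 969)))))
(mv 842 (cons (mv 1163 (cons (fin 1227 5 971)
(mv 1097 (cons (fin 1098 5 905)
(mv 777 (cons (fin 841 7 777)
(mv 779 (cons (fin 843 6 778)
(mv 778 (cons (fin 713 7 713)
(fin 715 6 714)))))))))))
(cons (mv 1163 (cons (fin 1227 5 971)
(mv 1098 (cons (fin 1097 5 905)
(mv 841 (cons (fin 777 7 777)
(fin 905 7 841)))))))
(mv 843 (cons (fin 779 6 778)
(mv 845 (cons (fin 905 1 841)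
(mv 782 (cons (fin 781 2 778)
(mv 846 (cons (fin 783 2 779)
(mv 910 (cons (fin 911 0 843)
(fin 974 5 781)))))))))))))))))))))))))
(mv 844 (cons (fin 908 4 844)
(mv 1164 (cons (fin 1228 6 972)
(mv 1098 (cons (cons (mv 1099 (cons (fin 1033 3 1033)
(fin 1097 2 1033)))
(mv 906 (cons (cons (mv 841 (cons (fin 905 7 841)
(mv 842 (cons (fin 777 7 777)
(mv 1097 (cons (fin 1033 5 841)
(fin 1161 5 905)))))))
(mv 1097 (cons (fin 1161 5 905)
(mv 842 (cons (fin 1033 5 841)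
(mv 777 (cons (fin 841 7 777)
(mv 778 (cons (fin 713 7 713)
(mv 843 (cons (fin 845 3 777)
(fin 779 6 778))))))))))))
(cons (mv 905 (cons (fin 841 7 841)
(mv 969 (cons (fin 1162 7 905)
(mv 842 (cons (mv 778 (cons (fin 714 5 713)
(fin 1033 5 777)))
(mv 843 (cons (fin 845 1 841)
(fin 779 6 778)))))))))
(cons (mv 842 (cons (mv 1097 (cons (fin 1033 5 841)
(fin 1161 5 905)))
(cons (mv 779 (cons (fin 843 6 778)
(mv 778 (cons (fin 715 6 714)
(mv 969 (cons (fin 1033 5 777)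
(mv 905 (cons (fin 1162 7 905)
(fin 714 5 713)))))))))
(mv 843 (cons (fin 779 6 778)
(mv 1161 (cons (fin 1097 5 905)
(mv 905 (cons (fin 845 1 841)
(mv 1162 (cons (fin 969 7 905)
(fin 1225 5 969))))))))))))
(mv 1161 (cons (fin 1097 5 905)
(mv 905 (cons (fin 841 7 841)
(mv 1162 (cons (fin 969 7 905)
(fin 1225 5 969))))))))))))
(cons (mv 1162 (cons (cons (mv 1099 (cons (fin 1033 3 1033)
(fin 1161 1 1097)))
(mv 1225 (cons (fin 1161 5 969)
(mv 969 (cons (fin 905 7 905)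
(mv 1226 (cons (fin 1033 7 969)
(fin 1289 5 1033))))))))
(cons (mv 1033 (cons (fin 1099 3 1033)
(mv 969 (cons (fin 905 7 905)
(fin 1226 7 969)))))
(mv 1161 (cons (fin 1099 1 1097)
(fin 1225 5 969))))))
(mv 1097 (cons (fin 1099 2 1033)
(mv 1161 (cons (fin 906 5 905)
(mv 1225 (cons (fin 1162 5 969)
(fin 1289 6 1033)))))))))))))))))))
(cons (mv 844 (cons (fin 908 4 844)
(mv 969 (cons (fin 971 0 969)
(mv 1098 (cons (cons (mv 905 (cons (fin 1162 7 905)
(mv 841 (cons (fin 906 7 841)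
(fin 777 4 777)))))
(mv 906 (cons (cons (mv 841 (cons (fin 905 7 841)
(mv 777 (cons (fin 842 7 777)
(mv 1099 (cons (fin 1163 4 906)
(mv 1097 (cons (fin 1100 2 1033)
(fin 1161 5 905)))))))))
(mv 1097 (cons (fin 1161 5 905)
(mv 1099 (cons (fin 1100 2 1033)
(fin 1163 4 906))))))
(cons (mv 1099 (cons (fin 1163 4 906)
(mv 842 (cons (cons (mv 841 (cons (fin 777 7 777)
(fin 905 7 841)))
(mv 779 (cons (fin 843 6 778)
(mv 778 (cons (fin 715 6 714)
(mv 714 (cons (fin 905 5 713)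
(mv 713 (cons (fin 649 7 649)
(fin 777 7 713))))))))))
(cons (mv 779 (cons (fin 843 6 778)
(mv 778 (cons (fin 715 6 714)
(mv 777 (cons (fin 713 7 713)
(fin 841 7 777)))))))
(mv 905 (cons (fin 841 7 841)
(mv 843 (cons (fin 845 1 841)
(fin 779 6 778))))))))))
(mv 1097 (cons (fin 1161 5 905)
(mv 842 (cons (cons (mv 841 (cons (fin 777 7 777)
(fin 905 7 841)))
(mv 779 (cons (fin 843 6 778)
(mv 778 (cons (fin 715 6 714)
(mv 714 (cons (fin 905 5 713)
(mv 713 (cons (fin 649 7 649)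
(fin 777 7 713))))))))))
(cons (mv 779 (cons (fin 843 6 778)
(mv 778 (cons (fin 715 6 714)
(mv 777 (cons (fin 713 7 713)
(fin 841 7 777)))))))
(mv 905 (cons (fin 841 7 841)
(mv 843 (cons (fin 845 1 841)
(fin 779 6 778))))))))))))))
(cons (mv 1099 (cons (cons (mv 1097 (cons (fin 1100 2 1033)
(mv 906 (cons (fin 1161 5 905)
(fin 1163 4 906)))))
(mv 1163 (cons (fin 906 4 906)
(mv 1227 (cons (fin 1291 7 1034)
(fin 1162 4 970))))))
(cons (mv 1097 (cons (fin 1100 2 1033)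
(mv 1161 (cons (fin 906 5 905)
(mv 1225 (cons (fin 1162 5 969)
(fin 1289 6 1033)))))))
(mv 1100 (cons (fin 1097 2 1033)
(mv 1162 (cons (fin 1161 1 1097)
(mv 1163 (cons (fin 1102 1 1098)
(fin 1227 4 970))))))))))
(mv 1162 (cons (fin 905 7 905)
(mv 1161 (cons (fin 1225 5 969)
(mv 1100 (cons (fin 1099 1 1097)
(mv 1163 (cons (fin 1164 2 1097)
(fin 1227 4 970))))))))))))))))
(mv 1033 (cons (fin 971 1 969)
(mv 908 (cons (fin 844 4 844)
(mv 1163 (cons (cons (mv 1099 (cons (fin 1100 5 907)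
(mv 906 (cons (fin 1098 4 906)
(mv 842 (cons (fin 1097 5 841)
(mv 777 (cons (fin 841 7 777)
(mv 778 (cons (fin 713 7 713)
(mv 779 (cons (fin 715 6 714)
(fin 843 6 778)))))))))))))
(mv 1098 (cons (cons (mv 906 (cons (fin 1099 4 906)
(mv 1097 (cons (fin 842 5 841)
(fin 1161 5 905)))))
(mv 1162 (cons (fin 1227 4 970)
(mv 1225 (cons (fin 1161 5 969)
(mv 1226 (cons (fin 1289 5 1033)
(mv 1290 (cons (fin 1097 7 1033)
(mv 1223 (cons (fin 1224 2 1159)
(mv 1355 (cons (fin 1291 4 1098)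
(mv 1354 (cons (fin 1099 6 1098)
(fin 1419 4 1162))))))))))))))))
(cons (mv 1162 (cons (fin 1227 4 970)
(mv 1161 (cons (fin 1225 5 969)
(mv 1097 (cons (fin 906 5 905)
(mv 1096 (cons (fin 1164 3 1096)
(fin 1095 0 1095)))))))))
(mv 1227 (cons (fin 1162 4 970)
(mv 1099 (cons (fin 1291 7 1034)
(fin 906 4 906)))))))))
(cons (mv 1164 (cons (cons (mv 1100 (cons (fin 1227 5 971)
(fin 1228 6 972)))
(mv 1161 (cons (cons (mv 1097 (cons (fin 1225 6 969)
(mv 906 (cons (fin 842 5 841)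
(fin 1098 5 905)))))
(mv 1162 (cons (mv 1225 (cons (fin 1224 1 1160)
(fin 1098 5 969)))
(cons (mv 1227 (cons (fin 1098 4 970)
(mv 1228 (cons (fin 1160 0 1160)
(fin 1229 0 1161)))))
(mv 1228 (cons (fin 1229 0 1161)
(mv 1160 (cons (fin 1227 0 1160)
(mv 1224 (cons (fin 1223 1 1159)
(fin 1225 1 1160)))))))))))
(cons (mv 1162 (cons (cons (mv 1096 (cons (fin 1097 3 1096)
(mv 1160 (cons (fin 1095 3 1095)
(mv 1227 (cons (fin 1228 0 1160)
(fin 1098 4 970)))))))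
(mv 1227 (cons (fin 1098 4 970)
(mv 1228 (cons (fin 1160 0 1160)
(fin 1229 0 1161))))))
(cons (mv 1097 (cons (fin 1096 3 1096)
(mv 906 (cons (fin 842 5 841)
(fin 1098 5 905)))))
(mv 1228 (cons (fin 1229 0 1161)
(mv 1160 (cons (fin 1227 0 1160)
(mv 1096 (cons (fin 1095 3 1095)
(fin 1097 3 1096))))))))))
(mv 1162 (cons (mv 1097 (cons (fin 1096 3 1096)
(fin 1225 6 969)))
(cons (mv 1228 (cons (fin 1229 0 1161)
(mv 1160 (cons (fin 1227 0 1160)
(mv 1224 (cons (fin 1223 1 1159)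
(fin 1225 1 1160)))))))
(mv 1228 (cons (fin 1229 0 1161)
(mv 1160 (cons (fin 1227 0 1160)
(mv 1096 (cons (fin 1095 3 1095)
(fin 1097 3 1096))))))))))))))
(cons (mv 1100 (cons (fin 1227 5 971)
(mv 1161 (cons (fin 1162 2 1097)
(mv 1102 (cons (fin 1103 1 1099)
(mv 1097 (cons (fin 1225 6 969)
(mv 906 (cons (fin 842 5 841)
(fin 1098 5 905)))))))))))
(mv 1100 (cons (fin 1228 6 972)
(mv 1161 (cons (fin 1162 2 1097)
(mv 1102 (cons (fin 1103 1 1099)
(mv 1097 (cons (fin 1225 6 969)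
(mv 906 (cons (fin 842 5 841)
(fin 1098 5 905))))))))))))))
(mv 1100 (cons (fin 1099 5 907)
(mv 1164 (cons (fin 1227 5 971)
(fin 1228 6 972)))))))))))))))))))
(cons (mv 976 (cons (fin 974 1 972)
(mv 1104 (cons (cons (mv 1102 (cons (fin 1103 3 1036)
(mv 911 (cons (fin 1168 7 911)
(mv 847 (cons (fin 912 7 847)
(fin 783 4 783)))))))
(mv 1103 (cons (fin 1102 3 1036)
(mv 912 (cons (fin 1167 5 911)
(mv 847 (cons (fin 911 7 847)
(mv 848 (cons (fin 783 7 783)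
(mv 849 (cons (fin 785 6 784)
(fin 913 6 848))))))))))))
(cons (mv 1103 (cons (fin 1102 3 1036)
(mv 912 (cons (fin 1167 5 911)
(mv 913 (cons (fin 849 6 848)
(mv 1169 (cons (fin 1105 4 912)
(mv 1168 (cons (fin 977 6 912)
(fin 1233 4 976)))))))))))
(cons (mv 911 (cons (fin 1168 7 911)
(mv 847 (cons (fin 912 7 847)
(fin 783 4 783)))))
(mv 1168 (cons (fin 911 7 911)
(mv 1102 (cons (fin 1103 3 1036)
(mv 1169 (cons (fin 1233 4 976)
(mv 1167 (cons (fin 1166 3 1101)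
(fin 1231 5 975)))))))))))))))
(mv 974 (cons (fin 976 1 972)
(mv 972 (cons (mv 908 (cons (fin 907 3 907)
(fin 844 4 844)))
(cons (mv 1100 (cons (cons (mv 1164 (cons (fin 1228 6 972)
(mv 1163 (cons (fin 1227 5 971)
(mv 1161 (cons (fin 1162 2 1097)
(mv 1102 (cons (fin 1103 1 1099)
(mv 971 (cons (fin 907 7 907)
(mv 970 (cons (fin 1033 1 969)
(fin 969 0 969)))))))))))))
(mv 970 (cons (cons (mv 971 (cons (fin 1033 1 969)
(fin 969 0 969)))
(mv 1098 (cons (cons (mv 1099 (cons (fin 1033 3 1033)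
(fin 1097 2 1033)))
(mv 906 (cons (cons (mv 841 (cons (fin 905 7 841)
(mv 842 (cons (fin 777 7 777)
(mv 1097 (cons (fin 1033 5 841)
(fin 1161 5 905)))))))
(mv 843 (cons (fin 907 6 842)
(mv 842 (cons (fin 779 6 778)
(mv 1097 (cons (fin 1033 5 841)
(fin 1161 5 905))))))))
(cons (mv 841 (cons (fin 905 7 841)
(mv 842 (cons (fin 777 7 777)
(mv 843 (cons (fin 779 6 778)
(fin 907 6 842)))))))
(mv 843 (cons (fin 907 6 842)
(mv 1161 (cons (fin 1097 5 905)
(mv 905 (cons (fin 841 7 841)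
(mv 1162 (cons (fin 969 7 905)
(fin 1225 5 969)))))))))))))
(cons (mv 1099 (cons (fin 1033 3 1033)
(mv 1161 (cons (fin 1162 1 1097)
(mv 906 (cons (fin 1163 4 906)
(mv 843 (cons (fin 907 6 842)
(mv 842 (cons (fin 779 6 778)
(mv 841 (cons (fin 777 7 777)
(fin 905 7 841)))))))))))))
(mv 1097 (cons (fin 1099 2 1033)
(mv 906 (cons (fin 1161 5 905)
(mv 841 (cons (fin 905 7 841)
(mv 842 (cons (fin 777 7 777)
(mv 843 (cons (fin 779 6 778)
(fin 907 6 842)))))))))))))))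
(cons (mv 971 (cons (fin 969 0 969)
(mv 906 (cons (fin 905 3 905)
(fin 907 3 906)))))
(mv 971 (cons (fin 1033 1 969)
(mv 906 (cons (fin 905 3 905)
(fin 907 3 906)))))))))
(cons (mv 1164 (cons (fin 1228 6 972)
(mv 1163 (cons (fin 1227 5 971)
(mv 1162 (cons (fin 1161 2 1097)
(mv 1102 (cons (fin 1099 1 1098)
(fin 1103 1 1099)))))))))
(mv 1164 (cons (fin 1228 6 972)
(mv 971 (cons (fin 907 7 907)
(mv 970 (cons (fin 1033 1 969)
(fin 969 0 969))))))))))
(mv 970 (cons (cons (mv 971 (cons (fin 1033 1 969)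
(fin 969 0 969)))
(mv 1100 (cons (cons (mv 844 (cons (fin 908 4 844)
(mv 1164 (cons (fin 1228 6 972)
(mv 1163 (cons (fin 1227 5 971)
(mv 1162 (cons (fin 1161 2 1097)
(mv 1102 (cons (fin 1099 1 1098)
(fin 1103 1 1099)))))))))))
(mv 908 (cons (fin 844 4 844)
(mv 1099 (cons (fin 1163 5 907)
(mv 1098 (cons (fin 1033 3 1033)
(fin 1097 2 1033))))))))
(cons (mv 1164 (cons (fin 1228 6 972)
(mv 1163 (cons (fin 1227 5 971)
(mv 1162 (cons (fin 1161 2 1097)
(mv 1102 (cons (fin 1099 1 1098)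
(fin 1103 1 1099)))))))))
(cons (mv 1164 (cons (fin 1228 6 972)
(mv 1161 (cons (mv 1163 (cons (fin 1162 2 1097)
(fin 1227 5 971)))
(cons (mv 844 (cons (fin 908 4 844)
(mv 1097 (cons (cons (mv 906 (cons (fin 1098 5 905)
(mv 1033 (cons (fin 842 5 841)
(fin 969 6 905)))))
(mv 1098 (cons (fin 906 5 905)
(mv 1225 (cons (fin 1162 5 969)
(fin 1289 6 1033))))))
(cons (mv 1033 (cons (fin 1225 6 969)
(mv 906 (cons (fin 842 5 841)
(fin 969 6 905)))))
(mv 1225 (cons (fin 1033 6 969)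
(mv 1098 (cons (fin 1162 5 969)
(fin 1289 6 1033))))))))))
(mv 906 (cons (cons (mv 1163 (cons (fin 1227 5 971)
(mv 1102 (cons (fin 1103 1 1099)
(mv 844 (cons (fin 908 4 844)
(mv 1097 (cons (fin 1098 5 905)
(mv 1033 (cons (fin 842 5 841)
(fin 969 6 905)))))))))))
(cons (mv 1163 (cons (fin 1227 5 971)
(mv 842 (cons (cons (mv 1102 (cons (fin 1103 1 1099)
(mv 777 (cons (fin 841 7 777)
(mv 779 (cons (fin 843 6 778)
(mv 778 (cons (fin 713 7 713)
(fin 715 6 714)))))))))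
(mv 779 (cons (fin 843 6 778)
(mv 778 (cons (fin 715 6 714)
(mv 714 (cons (mv 713 (cons (fin 649 7 649)
(fin 777 7 713)))
(mv 969 (cons (fin 905 5 713)
(fin 1033 5 777))))))))))
(cons (mv 844 (cons (fin 908 4 844)
(mv 843 (cons (fin 779 6 778)
(mv 905 (cons (fin 845 1 841)
(mv 904 (cons (fin 841 1 840)
(fin 903 2 839)))))))))
(cons (mv 841 (cons (fin 777 7 777)
(mv 844 (cons (fin 908 4 844)
(mv 905 (cons (fin 1098 7 841)
(mv 843 (cons (fin 904 1 840)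
(fin 845 1 841)))))))))
(mv 777 (cons (fin 841 7 777)
(mv 778 (cons (fin 713 7 713)
(mv 714 (cons (mv 969 (cons (fin 905 5 713)
(fin 1033 5 777)))
(mv 715 (cons (fin 651 6 650)
(fin 779 6 714)))))))))))))))
(mv 1097 (cons (fin 1098 5 905)
(mv 1033 (cons (fin 842 5 841)
(fin 969 6 905)))))))
(cons (mv 844 (cons (fin 908 4 844)
(mv 1163 (cons (fin 1227 5 971)
(mv 842 (cons (cons (mv 777 (cons (fin 841 7 777)
(mv 779 (cons (fin 843 6 778)
(mv 778 (cons (fin 713 7 713)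
(fin 715 6 714)))))))
(mv 777 (cons (fin 841 7 777)
(mv 1033 (cons (fin 1097 5 841)
(mv 778 (cons (fin 713 7 713)
(fin 969 5 777))))))))
(cons (mv 1033 (cons (fin 1097 5 841)
(mv 778 (cons (fin 969 5 777)
(mv 779 (cons (fin 715 6 714)
(fin 843 6 778)))))))
(mv 843 (cons (fin 779 6 778)
(mv 841 (cons (fin 777 7 777)
(mv 905 (cons (fin 904 1 840)
(fin 845 1 841))))))))))))))
(cons (mv 1163 (cons (fin 1227 5 971)
(mv 1102 (cons (fin 1103 1 1099)
(mv 1097 (cons (fin 1098 5 905)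
(mv 1033 (cons (fin 969 6 905)
(fin 1225 6 969)))))))))
(mv 844 (cons (fin 908 4 844)
(mv 842 (cons (mv 1097 (cons (fin 1098 5 905)
(mv 777 (cons (fin 841 7 777)
(mv 779 (cons (fin 843 6 778)
(mv 778 (cons (fin 713 7 713)
(fin 715 6 714)))))))))
(cons (mv 1098 (cons (fin 1097 5 905)
(mv 841 (cons (fin 777 7 777)
(fin 905 7 841)))))
(mv 843 (cons (fin 779 6 778)
(mv 845 (cons (fin 905 1 841)
(mv 782 (cons (fin 781 2 778)
(mv 846 (cons (fin 783 2 779)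
(fin 910 5 781)))))))))))))))))))))))
(mv 844 (cons (fin 908 4 844)
(mv 1164 (cons (fin 1228 6 972)
(mv 1098 (cons (cons (mv 1099 (cons (fin 1033 3 1033)
(fin 1097 2 1033)))
(mv 906 (cons (cons (mv 841 (cons (fin 905 7 841)
(mv 842 (cons (fin 777 7 777)
(mv 1097 (cons (fin 1033 5 841)
(fin 1161 5 905)))))))
(mv 1097 (cons (fin 1161 5 905)
(mv 842 (cons (fin 1033 5 841)
(mv 777 (cons (fin 841 7 777)
(mv 778 (cons (fin 713 7 713)
(mv 843 (cons (fin 845 3 777)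
(fin 779 6 778))))))))))))
(cons (mv 905 (cons (fin 841 7 841)
(mv 969 (cons (fin 1162 7 905)
(mv 842 (cons (mv 778 (cons (fin 714 5 713)
(fin 1033 5 777)))
(mv 843 (cons (fin 845 1 841)
(fin 779 6 778)))))))))
(cons (mv 842 (cons (mv 1097 (cons (fin 1033 5 841)
(fin 1161 5 905)))
(cons (mv 779 (cons (fin 843 6 778)
(mv 778 (cons (fin 715 6 714)
(mv 969 (cons (fin 1033 5 777)
(mv 905 (cons (fin 1162 7 905)
(fin 714 5 713)))))))))
(mv 843 (cons (fin 779 6 778)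
(mv 1161 (cons (fin 1097 5 905)
(mv 905 (cons (fin 845 1 841)
(mv 1162 (cons (fin 969 7 905)
(fin 1225 5 969))))))))))))
(mv 1161 (cons (fin 1097 5 905)
(mv 905 (cons (fin 841 7 841)
(mv 1162 (cons (fin 969 7 905)
(fin 1225 5 969))))))))))))
(cons (mv 1162 (cons (cons (mv 1099 (cons (fin 1033 3 1033)
(fin 1161 1 1097)))
(mv 1225 (cons (fin 1161 5 969)
(mv 969 (cons (fin 905 7 905)
(mv 1226 (cons (fin 1033 7 969)
(fin 1289 5 1033))))))))
(cons (mv 1033 (cons (fin 1099 3 1033)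
(mv 969 (cons (fin 905 7 905)
(fin 1226 7 969)))))
(mv 1161 (cons (fin 1099 1 1097)
(fin 1225 5 969))))))
(mv 1097 (cons (fin 1099 2 1033)
(mv 1161 (cons (fin 906 5 905)
(mv 1225 (cons (fin 1162 5 969)
(fin 1289 6 1033)))))))))))))))))))
(cons (mv 844 (cons (fin 908 4 844)
(mv 969 (cons (fin 971 0 969)
(mv 1098 (cons (cons (mv 905 (cons (fin 1162 7 905)
(mv 841 (cons (fin 906 7 841)
(fin 777 4 777)))))
(mv 906 (cons (cons (mv 841 (cons (fin 905 7 841)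
(mv 777 (cons (fin 842 7 777)
(mv 1099 (cons (fin 1163 4 906)
(mv 1097 (cons (fin 1100 2 1033)
(fin 1161 5 905)))))))))
(mv 1097 (cons (fin 1161 5 905)
(mv 1099 (cons (fin 1100 2 1033)
(fin 1163 4 906))))))
(cons (mv 1099 (cons (fin 1163 4 906)
(mv 842 (cons (cons (mv 841 (cons (fin 777 7 777)
(fin 905 7 841)))
(mv 779 (cons (fin 843 6 778)
(mv 778 (cons (fin 715 6 714)
(mv 714 (cons (fin 905 5 713)
(mv 713 (cons (fin 649 7 649)
(fin 777 7 713))))))))))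
(cons (mv 779 (cons (fin 843 6 778)
(mv 778 (cons (fin 715 6 714)
(mv 777 (cons (fin 713 7 713)
(fin 841 7 777)))))))
(mv 905 (cons (fin 841 7 841)
(mv 843 (cons (fin 845 1 841)
(fin 779 6 778))))))))))
(mv 1097 (cons (fin 1161 5 905)
(mv 842 (cons (cons (mv 841 (cons (fin 777 7 777)
(fin 905 7 841)))
(mv 779 (cons (fin 843 6 778)
(mv 778 (cons (fin 715 6 714)
(mv 714 (cons (fin 905 5 713)
(mv 713 (cons (fin 649 7 649)
(fin 777 7 713))))))))))
(cons (mv 779 (cons (fin 843 6 778)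
(mv 778 (cons (fin 715 6 714)
(mv 777 (cons (fin 713 7 713)
(fin 841 7 777)))))))
(mv 905 (cons (fin 841 7 841)
(mv 843 (cons (fin 845 1 841)
(fin 779 6 778))))))))))))))
(cons (mv 1099 (cons (cons (mv 1097 (cons (fin 1100 2 1033)
(mv 906 (cons (fin 1161 5 905)
(fin 1163 4 906)))))
(mv 1163 (cons (fin 906 4 906)
(mv 1227 (cons (fin 1291 7 1034)
(fin 1162 4 970))))))
(cons (mv 1097 (cons (fin 1100 2 1033)
(mv 1161 (cons (fin 906 5 905)
(mv 1225 (cons (fin 1162 5 969)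
(fin 1289 6 1033)))))))
(mv 1100 (cons (fin 1097 2 1033)
(mv 1162 (cons (fin 1161 1 1097)
(mv 1163 (cons (fin 1102 1 1098)
(fin 1227 4 970))))))))))
(mv 1162 (cons (fin 905 7 905)
(mv 1161 (cons (fin 1225 5 969)
(mv 1100 (cons (fin 1099 1 1097)
(mv 1163 (cons (fin 1164 2 1097)
(fin 1227 4 970))))))))))))))))
(mv 1033 (cons (fin 971 1 969)
(mv 908 (cons (fin 844 4 844)
(mv 1163 (cons (cons (mv 1099 (cons (fin 1100 5 907)
(mv 906 (cons (fin 1098 4 906)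
(mv 842 (cons (fin 1097 5 841)
(mv 777 (cons (fin 841 7 777)
(mv 778 (cons (fin 713 7 713)
(mv 779 (cons (fin 715 6 714)
(fin 843 6 778)))))))))))))
(mv 1098 (cons (cons (mv 906 (cons (fin 1099 4 906)
(mv 1097 (cons (fin 842 5 841)
(fin 1161 5 905)))))
(mv 1162 (cons (fin 1227 4 970)
(mv 1225 (cons (fin 1161 5 969)
(mv 1226 (cons (fin 1289 5 1033)
(mv 1290 (cons (fin 1097 7 1033)
(mv 1354 (cons (fin 1099 6 1098)
(mv 1355 (cons (fin 1291 4 1098)
(fin 1419 4 1162))))))))))))))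
(cons (mv 1162 (cons (fin 1227 4 970)
(mv 1161 (cons (fin 1225 5 969)
(mv 1097 (cons (fin 906 5 905)
(mv 1096 (cons (fin 1164 3 1096)
(fin 1095 0 1095)))))))))
(mv 1227 (cons (fin 1162 4 970)
(mv 1099 (cons (fin 1291 7 1034)
(fin 906 4 906)))))))))
(cons (mv 1164 (cons (cons (mv 1100 (cons (fin 1227 5 971)
(fin 1228 6 972)))
(mv 1161 (cons (cons (mv 1097 (cons (fin 1225 6 969)
(mv 906 (cons (fin 842 5 841)
(fin 1098 5 905)))))
(mv 1162 (cons (mv 1225 (cons (fin 1224 1 1160)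
(fin 1098 5 969)))
(cons (mv 1227 (cons (fin 1098 4 970)
(mv 1228 (cons (fin 1160 0 1160)
(fin 1229 0 1161)))))
(mv 1228 (cons (fin 1229 0 1161)
(mv 1160 (cons (fin 1227 0 1160)
(mv 1224 (cons (fin 1223 1 1159)
(fin 1225 1 1160)))))))))))
(cons (mv 1162 (cons (cons (mv 1096 (cons (fin 1097 3 1096)
(mv 1160 (cons (fin 1095 3 1095)
(mv 1227 (cons (fin 1228 0 1160)
(fin 1098 4 970)))))))
(mv 1227 (cons (fin 1098 4 970)
(mv 1228 (cons (fin 1160 0 1160)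
(fin 1229 0 1161))))))
(cons (mv 1097 (cons (fin 1096 3 1096)
(mv 906 (cons (fin 842 5 841)
(fin 1098 5 905)))))
(mv 1228 (cons (fin 1229 0 1161)
(mv 1160 (cons (fin 1227 0 1160)
(mv 1096 (cons (fin 1095 3 1095)
(fin 1097 3 1096))))))))))
(mv 1162 (cons (mv 1097 (cons (fin 1096 3 1096)
(fin 1225 6 969)))
(cons (mv 1228 (cons (fin 1229 0 1161)
(mv 1160 (cons (fin 1227 0 1160)
(mv 1224 (cons (fin 1223 1 1159)
(fin 1225 1 1160)))))))
(mv 1228 (cons (fin 1229 0 1161)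
(mv 1160 (cons (fin 1227 0 1160)
(mv 1096 (cons (fin 1095 3 1095)
(fin 1097 3 1096))))))))))))))
(cons (mv 1100 (cons (fin 1227 5 971)
(mv 1161 (cons (fin 1162 2 1097)
(mv 1102 (cons (fin 1103 1 1099)
(mv 1097 (cons (fin 1225 6 969)
(mv 906 (cons (fin 842 5 841)
(fin 1098 5 905)))))))))))
(mv 1100 (cons (fin 1228 6 972)
(mv 1161 (cons (fin 1162 2 1097)
(mv 1102 (cons (fin 1103 1 1099)
(mv 1097 (cons (fin 1225 6 969)
(mv 906 (cons (fin 842 5 841)
(fin 1098 5 905))))))))))))))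
(mv 1100 (cons (fin 1099 5 907)
(mv 1164 (cons (fin 1227 5 971)
(fin 1228 6 972)))))))))))))))))))))))))))))
def l86 : Lem := ⟨27165970580987716998985144288908119445607812713202397476177749816067265490230980451531035449888031070390869098387061462232246522454321684257594647357784228618115755653510494155482200729556299473720618067602837807703655237236292783826206146140651703037222704721993150418180099593570348978501117115542633311819677194058864868590616576, 22980015630596336963087454813633226429770385604990008973021026070939408086916468289409237715534202025980100122006898905683947630907963120110532282004417698346092089552227276266238464686382694637036236986757716759986799103079825645524214210410476697149057814417443422423804075933711908869922673088916826914848168709082865275858082455361731421022520282772269618002548387716221658823876922465341271900231260161110972375998692193105715084851159874142208,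 22980015630596336963087454813633226429770385604990008973021026070939408086916468289409237715534202025980100122006898905683947630907963120110532282004417698346092089552227276266238464686382694637036236986757716759986799103079825645524214210410476697149057814417443422423804075933711908869922673088916826914848168709082865275858082455361731421022520282772269618002548387716221658823876922465341271900231260161110972375998692193105715084851159874142208, 16, 33⟩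
theorem l86_valid : l86.Valid :=
  Lem.valid_of_chk t86 t86_valid [973, 1034, 1037, 1040, 1101] c86 l86 (by decide +kernel)
end Crest.Agent.SnakyAux
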