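import Crest.Agent.S0047_aux.Checker
import Crest.Agent.S0047_aux.L85
import Crest.Agent.S0047_aux.L86
set_option autoImplicit false
set_option maxRecDepth 100000
namespace Crest.Agent.SnakyAux
open Cert
def t88 : Tbl := (Tbl.node (Tbl.leaf l85) (Tbl.leaf l86))
theorem t88_valid : t88.Valid := (Tbl.valid_node (Tbl.valid_leaf l85_valid) (Tbl.valid_leaf l86_valid))
def c88 : Cert :=
(mv 973 (cons (cons (cons (mv 909 (cons (cons (mv 844 (cons (fin 908 7 844)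
(mv 780 (cons (fin 845 7 780)
(mv 1102 (cons (fin 1166 4 909)
(mv 846 (cons (fin 910 6 845)
(mv 1100 (cons (fin 1164 5 908)
(mv 1103 (cons (fin 1039 2 1036)
(mv 1036 (cons (fin 1035 3 1035)
(fin 1104 3 1036)))))))))))))))
(mv 844 (cons (fin 908 7 844)
(mv 845 (cons (fin 780 7 780)
(mv 846 (cons (fin 782 6 781)
(fin 910 6 845))))))))
(cons (mv 1102 (cons (fin 1166 4 909)
(mv 1100 (cons (fin 1164 5 908)
(mv 845 (cons (fin 1036 5 844)
(mv 846 (cons (fin 782 6 781)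
(fin 910 6 845)))))))))
(cons (mv 844 (cons (fin 908 7 844)
(mv 780 (cons (fin 845 7 780)
(mv 1102 (cons (fin 1166 4 909)
(mv 1100 (cons (fin 1164 5 908)
(mv 1103 (cons (fin 1039 2 1036)
(mv 1036 (cons (fin 1035 3 1035)
(fin 1104 3 1036)))))))))))))
(mv 1100 (cons (fin 1164 5 908)
(mv 846 (cons (fin 910 6 845)
(mv 844 (cons (fin 908 7 844)
(mv 1102 (cons (fin 1166 4 909)
(mv 1103 (cons (fin 1039 2 1036)
(mv 1036 (cons (fin 1035 3 1035)
(fin 1104 3 1036)))))))))))))))))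
(mv 909 (cons (cons (mv 1100 (cons (fin 1164 5 908)
(mv 846 (cons (fin 910 6 845)
(mv 844 (cons (fin 908 7 844)
(mv 1102 (cons (fin 1166 4 909)
(mv 1103 (cons (fin 1039 2 1036)
(mv 1036 (cons (fin 1035 3 1035)
(fin 1104 3 1036)))))))))))))
(mv 1100 (cons (fin 1164 5 908)
(mv 846 (cons (fin 910 6 845)
(mv 1102 (cons (fin 1166 4 909)
(mv 1103 (cons (fin 1039 2 1036)
(mv 1036 (cons (fin 1035 3 1035)
(fin 1104 3 1036))))))))))))
(cons (mv 1100 (cons (fin 1164 5 908)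
(mv 1102 (cons (fin 1166 4 909)
(mv 1103 (cons (fin 1039 2 1036)
(mv 1036 (cons (fin 1035 3 1035)
(fin 1104 3 1036)))))))))
(cons (mv 1102 (cons (fin 1166 4 909)
(mv 908 (cons (fin 844 7 844)
(mv 910 (cons (fin 846 6 845)
(mv 911 (cons (mv 972 (cons (fin 971 1 907)
(fin 912 1 908)))
(cons (mv 975 (cons (fin 976 0 908)
(mv 907 (cons (fin 974 0 907)
(mv 970 (cons (fin 971 1 906)
(mv 906 (cons (fin 969 1 905)
(mv 842 (cons (fin 841 3 841)
(fin 843 3 842)))))))))))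
(mv 847 (cons (fin 848 2 844)
(mv 912 (cons (fin 972 1 908)
(mv 976 (cons (fin 975 0 908)
(fin 977 0 909))))))))))))))))
(mv 1100 (cons (fin 1164 5 908)
(mv 908 (cons (fin 844 7 844)
(mv 910 (cons (fin 846 6 845)
(mv 907 (cons (cons (mv 974 (cons (fin 906 0 906)
(fin 975 0 907)))
(mv 842 (cons (fin 843 3 842)
(mv 841 (cons (fin 906 3 841)
(mv 971 (cons (fin 970 1 906)
(mv 911 (cons (fin 972 1 907)
(mv 976 (cons (fin 975 0 908)
(mv 847 (cons (fin 848 2 844)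
(mv 912 (cons (fin 977 0 909)
(fin 1104 7 847))))))))))))))))
(cons (mv 970 (cons (fin 971 1 906)
(mv 975 (cons (fin 974 0 907)
(mv 842 (cons (fin 843 3 842)
(mv 911 (cons (fin 976 0 908)
(mv 848 (cons (fin 847 2 844)
(mv 912 (cons (fin 972 1 908)
(fin 849 2 845)))))))))))))
(mv 906 (cons (fin 974 0 906)
(mv 842 (cons (fin 841 3 841)
(fin 843 3 842)))))))))))))))))))
(cons (mv 909 (cons (cons (mv 1102 (cons (fin 1166 4 909)
(mv 1100 (cons (fin 1164 5 908)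
(mv 845 (cons (fin 1036 5 844)
(mv 846 (cons (fin 782 6 781)
(fin 910 6 845)))))))))
(mv 1102 (cons (fin 1166 4 909)
(mv 910 (cons (fin 846 6 845)
(mv 911 (cons (cons (mv 912 (cons (fin 972 1 908)
(mv 913 (cons (fin 974 1 909)
(mv 849 (cons (fin 848 2 845)
(fin 850 2 846)))))))
(mv 908 (cons (cons (mv 971 (cons (fin 972 1 907)
(mv 907 (cons (fin 970 1 906)
(mv 974 (cons (fin 906 0 906)
(fin 975 0 907)))))))
(cons (mv 975 (cons (fin 976 0 908)
(mv 907 (cons (fin 974 0 907)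
(mv 842 (cons (fin 843 3 842)
(mv 906 (cons (fin 841 3 841)
(mv 847 (cons (fin 848 2 844)
(mv 905 (cons (fin 972 0 905)
(mv 969 (cons (fin 968 1 904)
(fin 970 1 905)))))))))))))))
(mv 847 (cons (fin 848 2 844)
(mv 971 (cons (fin 972 1 907)
(mv 907 (cons (fin 970 1 906)
(mv 842 (cons (fin 843 3 842)
(mv 906 (cons (fin 841 3 841)
(fin 974 0 906)))))))))))))
(cons (mv 975 (cons (fin 976 0 908)
(mv 907 (cons (fin 974 0 907)
(mv 970 (cons (fin 971 1 906)
(mv 906 (cons (fin 969 1 905)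
(mv 842 (cons (fin 841 3 841)
(fin 843 3 842)))))))))))
(cons (mv 847 (cons (fin 848 2 844)
(mv 971 (cons (fin 972 1 907)
(mv 907 (cons (fin 970 1 906)
(mv 842 (cons (fin 843 3 842)
(mv 906 (cons (fin 841 3 841)
(mv 975 (cons (fin 976 0 908)
(mv 714 (cons (fin 778 4 714)
(mv 1104 (cons (fin 1039 4 847)
(mv 1035 (cons (fin 1099 7 842)
(mv 1036 (cons (fin 1103 3 1036)
(fin 1034 0 1034)))))))))))))))))))))
(mv 975 (cons (fin 976 0 908)
(mv 847 (cons (fin 848 2 844)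
(mv 972 (cons (fin 971 1 907)
(mv 1039 (cons (fin 974 0 972)
(fin 1104 4 847))))))))))))))
(cons (mv 912 (cons (mv 913 (cons (fin 974 1 909)
(mv 849 (cons (fin 848 2 845)
(fin 850 2 846)))))
(cons (mv 976 (cons (fin 977 0 909)
(mv 908 (cons (fin 975 0 908)
(mv 848 (cons (fin 847 2 844)
(fin 849 2 845)))))))
(mv 976 (cons (fin 977 0 909)
(mv 908 (cons (fin 975 0 908)
(mv 1104 (cons (fin 847 7 847)
(mv 1103 (cons (fin 1036 3 1036)
(fin 1167 5 911))))))))))))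
(cons (mv 912 (cons (fin 972 1 908)
(mv 848 (cons (fin 849 2 845)
(mv 847 (cons (fin 908 2 844)
(mv 976 (cons (fin 977 0 909)
(fin 783 7 783)))))))))
(mv 912 (cons (fin 972 1 908)
(mv 976 (cons (fin 977 0 909)
(mv 908 (cons (fin 975 0 908)
(mv 1104 (cons (fin 847 7 847)
(mv 1103 (cons (fin 1036 3 1036)
(fin 1167 5 911))))))))))))))))))))
(cons (mv 1102 (cons (fin 1166 4 909)
(mv 1100 (cons (fin 1164 5 908)
(mv 1036 (cons (fin 845 5 844)
(mv 1035 (cons (fin 1103 3 1035)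
(fin 1034 0 1034)))))))))
(cons (mv 1100 (cons (fin 1164 5 908)
(mv 845 (cons (fin 1036 5 844)
(mv 846 (cons (fin 782 6 781)
(fin 910 6 845)))))))
(mv 910 (cons (fin 846 6 845)
(mv 1102 (cons (fin 1166 4 909)
(mv 1100 (cons (fin 1164 5 908)
(mv 1039 (cons (fin 1103 2 1036)
(mv 972 (cons (cons (mv 911 (cons (fin 912 1 908)
(mv 971 (cons (fin 908 1 907)
(fin 970 2 906)))))
(mv 974 (cons (fin 975 0 972)
(mv 1099 (cons (cons (mv 970 (cons (fin 971 2 906)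
(mv 1034 (cons (fin 1035 3 1034)
(mv 1098 (cons (fin 1033 3 1033)
(mv 1162 (cons (fin 1161 1 1097)
(fin 1163 1 1098)))))))))
(cons (mv 1162 (cons (fin 1163 1 1098)
(mv 1098 (cons (fin 1161 1 1097)
(mv 1034 (cons (fin 1033 3 1033)
(fin 1035 3 1034)))))))
(mv 971 (cons (fin 970 2 906)
(mv 1162 (cons (fin 1163 1 1098)
(mv 1098 (cons (fin 1161 1 1097)
(mv 907 (cons (fin 906 3 906)
(fin 1035 5 906)))))))))))
(cons (cons (mv 1162 (cons (fin 1163 1 1098)
(mv 1098 (cons (fin 1161 1 1097)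
(mv 1034 (cons (fin 1033 3 1033)
(mv 970 (cons (fin 971 2 906)
(mv 905 (cons (fin 969 7 905)
(mv 906 (cons (fin 841 7 841)
(mv 907 (cons (fin 908 0 905)
(fin 843 6 842)))))))))))))))
(mv 970 (cons (fin 971 2 906)
(mv 1034 (cons (fin 1035 3 1034)
(mv 1098 (cons (fin 1033 3 1033)
(mv 906 (cons (fin 1163 4 906)
(mv 907 (cons (fin 908 0 906)
(fin 843 6 842))))))))))))
(cons (mv 1034 (cons (fin 1035 3 1034)
(mv 1098 (cons (fin 1033 3 1033)
(mv 970 (cons (fin 971 2 906)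
(mv 1161 (cons (fin 1162 1 1097)
(mv 1097 (cons (fin 1160 1 1096)
(fin 906 5 905)))))))))))
(mv 1035 (cons (fin 1034 3 1034)
(mv 1163 (cons (fin 1162 1 1098)
(mv 971 (cons (fin 970 2 906)
(fin 908 6 907))))))))))))))
(cons (mv 911 (cons (fin 912 1 908)
(mv 975 (cons (fin 974 0 972)
(mv 908 (cons (fin 976 0 908)
(mv 847 (cons (fin 848 2 844)
(fin 1104 4 847)))))))))
(mv 974 (cons (fin 975 0 972)
(mv 911 (cons (fin 912 1 908)
(fin 971 2 907))))))))))))))))))))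
(cons (mv 909 (cons (cons (mv 844 (cons (fin 908 7 844)
(mv 780 (cons (fin 845 7 780)
(mv 1102 (cons (fin 1166 4 909)
(mv 1100 (cons (fin 1164 5 908)
(mv 1103 (cons (fin 1039 2 1036)
(mv 1036 (cons (fin 1035 3 1035)
(fin 1104 3 1036)))))))))))))
(mv 1102 (cons (fin 1166 4 909)
(mv 908 (cons (fin 844 7 844)
(mv 975 (cons (cons (mv 974 (cons (fin 976 3 908)
(mv 907 (cons (fin 972 3 907)
(fin 906 0 906)))))
(mv 1104 (cons (cons (mv 1103 (cons (fin 1036 3 1036)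
(mv 1168 (cons (fin 1169 0 1101)
(mv 911 (cons (fin 976 7 911)
(fin 1039 4 911)))))))
(cons (mv 911 (cons (mv 976 (cons (fin 910 0 908)
(fin 1168 7 911)))
(cons (mv 847 (cons (fin 1039 4 847)
(mv 910 (cons (fin 848 2 844)
(mv 972 (cons (fin 971 1 907)
(fin 912 1 908)))))))
(mv 847 (cons (fin 1039 4 847)
(mv 976 (cons (fin 912 7 847)
(fin 1168 7 911))))))))
(mv 1036 (cons (fin 1103 3 1036)
(mv 1034 (cons (fin 1035 0 1034)
(mv 911 (cons (cons (mv 910 (cons (fin 976 0 908)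
(mv 847 (cons (fin 848 2 844)
(fin 1039 4 847)))))
(mv 847 (cons (fin 1039 4 847)
(mv 976 (cons (fin 912 7 847)
(fin 783 4 783))))))
(cons (mv 910 (cons (fin 976 0 908)
(mv 972 (cons (fin 971 1 907)
(fin 912 1 908)))))
(mv 847 (cons (fin 1039 4 847)
(mv 910 (cons (fin 848 2 844)
(mv 972 (cons (fin 971 1 907)
(fin 912 1 908))))))))))))))))
(cons (mv 1103 (cons (fin 1036 3 1036)
(mv 1168 (cons (fin 1169 0 1101)
(mv 1232 (cons (fin 1039 7 975)
(mv 1297 (cons (fin 1233 4 1040)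
(mv 1231 (cons (fin 1295 5 1039)
(mv 1167 (cons (fin 976 5 975)
(mv 1296 (cons (fin 1360 7 1103)
(fin 1361 4 1104)))))))))))))))
(cons (mv 1103 (cons (fin 1036 3 1036)
(mv 1168 (cons (fin 1169 0 1101)
(mv 1039 (cons (fin 1232 7 975)
(fin 911 4 911)))))))
(mv 1103 (cons (fin 1036 3 1036)
(mv 1168 (cons (fin 1169 0 1101)
(mv 976 (cons (fin 911 7 911)
(mv 1167 (cons (fin 912 5 911)
(fin 1231 5 975))))))))))))))
(cons (mv 974 (cons (mv 907 (cons (fin 972 3 907)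
(fin 906 0 906)))
(cons (mv 972 (cons (fin 1039 0 972)
(mv 911 (cons (fin 912 2 908)
(mv 971 (cons (fin 910 1 907)
(mv 1035 (cons (fin 1034 1 970)
(fin 1036 1 971)))))))))
(mv 907 (cons (fin 906 0 906)
(fin 910 0 907))))))
(mv 974 (cons (fin 976 3 908)
(mv 907 (cons (fin 906 0 906)
(fin 910 0 907)))))))))))))
(cons (mv 1102 (cons (fin 1166 4 909)
(mv 1100 (cons (fin 1164 5 908)
(mv 1036 (cons (fin 845 5 844)
(mv 1035 (cons (fin 1103 3 1035)
(fin 1034 0 1034)))))))))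
(cons (mv 1100 (cons (fin 1164 5 908)
(mv 845 (cons (fin 1036 5 844)
(mv 844 (cons (fin 780 7 780)
(fin 908 7 844)))))))
(mv 1100 (cons (fin 1164 5 908)
(mv 1102 (cons (fin 1166 4 909)
(mv 1039 (cons (fin 1103 2 1036)
(mv 908 (cons (fin 844 7 844)
(mv 975 (cons (cons (mv 974 (cons (fin 976 3 908)
(fin 972 0 972)))
(mv 911 (cons (cons (mv 910 (cons (fin 976 0 908)
(mv 847 (cons (fin 848 2 844)
(fin 1104 4 847)))))
(mv 847 (cons (fin 1104 4 847)
(mv 783 (cons (fin 976 4 783)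
(mv 784 (cons (fin 720 6 719)
(fin 848 6 783))))))))
(cons (mv 910 (cons (fin 976 0 908)
(mv 972 (cons (fin 971 1 907)
(fin 912 1 908)))))
(mv 847 (cons (fin 1104 4 847)
(mv 848 (cons (fin 910 2 844)
(fin 784 6 783)))))))))
(cons (mv 974 (cons (fin 976 3 908)
(mv 907 (cons (fin 906 0 906)
(fin 910 0 907)))))
(mv 974 (cons (fin 972 0 972)
(mv 907 (cons (fin 906 0 906)
(fin 910 0 907))))))))))))))))))))
(mv 909 (cons (cons (mv 1100 (cons (fin 1164 5 908)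
(mv 845 (cons (fin 1036 5 844)
(mv 846 (cons (fin 782 6 781)
(fin 910 6 845)))))))
(mv 846 (cons (fin 910 6 845)
(mv 845 (cons (fin 782 6 781)
(mv 1102 (cons (fin 1166 4 909)
(mv 780 (cons (fin 844 7 780)
(mv 781 (cons (fin 716 7 716)
(mv 778 (cons (fin 779 0 778)
(mv 1036 (cons (fin 972 5 780)
(mv 847 (cons (fin 848 3 780)
(mv 1104 (cons (fin 1103 3 1036)
(mv 1034 (cons (fin 1035 0 1034)
(mv 976 (cons (cons (mv 975 (cons (fin 974 1 972)
(mv 911 (cons (fin 912 7 847)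
(fin 1168 7 911)))))
(mv 912 (cons (fin 911 7 847)
(mv 913 (cons (fin 849 6 848)
(mv 1169 (cons (fin 1105 4 912)
(mv 1168 (cons (fin 977 6 912)
(fin 1233 4 976))))))))))
(cons (mv 975 (cons (fin 974 1 972)
(mv 1168 (cons (mv 1232 (cons (fin 1039 7 975)
(mv 1231 (cons (fin 1167 5 975)
(fin 1295 5 1039)))))
(mv 912 (cons (mv 913 (cons (fin 849 6 848)
(fin 977 6 912)))
(mv 1169 (cons (fin 1105 4 912)
(fin 1233 4 976)))))))))
(cons (mv 975 (cons (fin 974 1 972)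
(mv 911 (cons (fin 1168 7 911)
(fin 783 4 783)))))
(mv 975 (cons (fin 974 1 972)
(mv 911 (cons (fin 912 7 847)
(fin 783 4 783))))))))))))))))))))))))))))))
(cons (mv 1102 (cons (fin 1166 4 909)
(mv 1100 (cons (fin 1164 5 908)
(mv 1036 (cons (fin 845 5 844)
(mv 1035 (cons (fin 1103 3 1035)
(fin 1034 0 1034)))))))))
(cons (mv 1100 (cons (fin 1164 5 908)
(mv 846 (cons (fin 910 6 845)
(mv 1102 (cons (fin 1166 4 909)
(mv 1103 (cons (fin 1039 2 1036)
(mv 1036 (cons (fin 1035 3 1035)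
(fin 1104 3 1036)))))))))))
(mv 1102 (cons (fin 1166 4 909)
(mv 1100 (cons (fin 1164 5 908)
(mv 1103 (cons (fin 1039 2 1036)
(mv 1168 (cons (fin 1167 0 1100)
(mv 1104 (cons (fin 1169 0 1101)
(mv 976 (cons (cons (mv 846 (cons (fin 910 6 845)
(mv 782 (cons (fin 845 6 781)
(mv 911 (cons (fin 975 7 911)
(mv 912 (cons (fin 847 7 847)
(mv 913 (cons (fin 849 6 848)
(fin 977 6 912)))))))))))
(cons (mv 913 (cons (fin 977 6 912)
(mv 912 (cons (fin 849 6 848)
(mv 974 (cons (fin 975 2 909)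
(mv 845 (cons (cons (mv 846 (cons (fin 782 6 781)
(fin 910 6 845)))
(mv 780 (cons (fin 844 7 780)
(mv 781 (cons (fin 716 7 716)
(mv 718 (cons (fin 782 6 717)
(mv 717 (cons (fin 654 6 653)
(fin 910 4 717))))))))))
(cons (mv 780 (cons (fin 844 7 780)
(mv 781 (cons (fin 716 7 716)
(mv 782 (cons (fin 718 6 717)
(fin 846 6 781)))))))
(mv 910 (cons (fin 846 6 845)
(mv 780 (cons (fin 844 7 780)
(mv 781 (cons (fin 716 7 716)
(fin 717 4 717))))))))))))))))
(mv 846 (cons (fin 910 6 845)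
(mv 911 (cons (fin 975 7 911)
(mv 847 (cons (fin 912 7 847)
(mv 845 (cons (fin 782 6 781)
(mv 780 (cons (fin 844 7 780)
(mv 781 (cons (fin 848 3 780)
(fin 716 7 716)))))))))))))))
(cons (cons (mv 911 (cons (fin 975 7 911)
(mv 912 (cons (fin 847 7 847)
(mv 977 (cons (fin 910 0 909)
(fin 913 6 912)))))))
(mv 913 (cons (fin 977 6 912)
(mv 912 (cons (fin 849 6 848)
(mv 911 (cons (fin 847 7 847)
(fin 975 7 911))))))))
(cons (mv 846 (cons (fin 910 6 845)
(mv 845 (cons (fin 782 6 781)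
(mv 913 (cons (fin 977 6 912)
(mv 912 (cons (fin 849 6 848)
(mv 847 (cons (fin 848 0 845)
(fin 911 7 847)))))))))))
(mv 977 (cons (fin 913 6 912)
(mv 975 (cons (fin 911 7 911)
(mv 910 (cons (fin 974 3 909)
(fin 846 6 845))))))))))))))))))))))))))))
(cons (cons (mv 1034 (cons (cons (cons (mv 1035 (cons (cons (mv 1036 (cons (fin 974 2 970)
(fin 1102 0 1034)))
(mv 1099 (cons (cons (mv 1100 (cons (fin 1102 3 1034)
(mv 1033 (cons (fin 1098 3 1033)
(fin 1032 0 1032)))))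
(mv 971 (cons (cons (mv 972 (cons (fin 974 1 970)
(mv 1032 (cons (fin 1033 2 968)
(mv 908 (cons (fin 1163 6 907)
(mv 844 (cons (fin 780 5 779)
(fin 907 6 843)))))))))
(mv 1163 (cons (cons (mv 1164 (cons (fin 1228 4 971)
(mv 1162 (cons (fin 1226 5 970)
(mv 907 (cons (fin 1098 5 906)
(mv 844 (cons (fin 908 6 843)
(mv 843 (cons (fin 780 6 779)
(mv 842 (cons (fin 778 7 778)
(fin 906 7 842)))))))))))))
(mv 1228 (cons (fin 1164 4 971)
(mv 1227 (cons (fin 1292 4 1035)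
(mv 1290 (cons (fin 1226 5 1034)
(mv 1291 (cons (fin 1098 7 1034)
(fin 1354 5 1098))))))))))
(cons (mv 1228 (cons (fin 1164 4 971)
(mv 1227 (cons (fin 1292 4 1035)
(mv 1098 (cons (fin 1291 7 1034)
(mv 907 (cons (fin 843 5 842)
(fin 1162 5 906)))))))))
(cons (mv 1162 (cons (fin 1226 5 970)
(mv 907 (cons (fin 1098 5 906)
(mv 844 (cons (fin 908 6 843)
(mv 843 (cons (fin 780 6 779)
(mv 842 (cons (fin 778 7 778)
(fin 906 7 842)))))))))))
(mv 1228 (cons (fin 1164 4 971)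
(mv 1226 (cons (fin 1162 5 970)
(mv 1227 (cons (fin 1290 5 1034)
(fin 1292 4 1035))))))))))))
(cons (mv 972 (cons (fin 974 1 970)
(mv 1032 (cons (fin 1033 2 968)
(mv 1163 (cons (fin 908 6 907)
(mv 1226 (cons (fin 1162 5 970)
(mv 1228 (cons (fin 1164 4 971)
(mv 1227 (cons (fin 1290 5 1034)
(fin 1292 4 1035)))))))))))))
(cons (mv 972 (cons (fin 974 1 970)
(mv 1032 (cons (fin 1033 2 968)
(mv 907 (cons (mv 1098 (cons (fin 843 5 842)
(fin 1162 5 906)))
(cons (mv 842 (cons (fin 906 7 842)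
(mv 843 (cons (fin 778 7 778)
(mv 844 (cons (fin 780 6 779)
(fin 908 6 843)))))))
(mv 908 (cons (fin 844 6 843)
(mv 906 (cons (fin 905 0 905)
(fin 842 7 842))))))))))))
(mv 972 (cons (fin 974 1 970)
(mv 1032 (cons (fin 1033 2 968)
(mv 1163 (cons (cons (mv 1162 (cons (fin 1226 5 970)
(mv 1098 (cons (fin 907 5 906)
(mv 1228 (cons (fin 1164 4 971)
(mv 1227 (cons (fin 1291 7 1034)
(fin 1292 4 1035)))))))))
(cons (mv 1228 (cons (fin 1164 4 971)
(mv 1227 (cons (fin 1292 4 1035)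
(mv 1290 (cons (fin 1226 5 1034)
(mv 1291 (cons (fin 1098 7 1034)
(fin 1354 5 1098)))))))))
(mv 1228 (cons (fin 1164 4 971)
(mv 1227 (cons (fin 1292 4 1035)
(mv 1098 (cons (fin 1291 7 1034)
(mv 907 (cons (fin 843 5 842)
(fin 1162 5 906)))))))))))
(cons (mv 1227 (cons (mv 1226 (cons (fin 1162 5 970)
(fin 1290 5 1034)))
(cons (mv 1098 (cons (fin 1291 7 1034)
(mv 907 (cons (fin 843 5 842)
(fin 1162 5 906)))))
(mv 1291 (cons (fin 1098 7 1034)
(mv 1290 (cons (fin 1226 5 1034)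
(fin 1354 5 1098))))))))
(cons (mv 1226 (cons (fin 1162 5 970)
(mv 1228 (cons (fin 1164 4 971)
(mv 1227 (cons (fin 1290 5 1034)
(fin 1292 4 1035)))))))
(mv 1162 (cons (fin 1226 5 970)
(mv 1098 (cons (fin 907 5 906)
(mv 1164 (cons (fin 1228 4 971)
(mv 1161 (cons (cons (mv 1096 (cons (fin 1097 3 1096)
(mv 1160 (cons (fin 1095 3 1095)
(fin 1159 2 1095)))))
(mv 1159 (cons (fin 1160 2 1095)
(mv 1225 (cons (fin 1224 1 1160)
(mv 1289 (cons (fin 1097 6 1033)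
(fin 1353 6 1097))))))))
(cons (mv 1224 (cons (fin 1225 1 1160)
(mv 1160 (cons (fin 1223 1 1159)
(fin 1159 2 1095)))))
(mv 1097 (cons (fin 1096 3 1096)
(mv 1225 (cons (fin 1224 1 1160)
(fin 1289 6 1033)))))))))))))))))))))))))))
(cons (mv 1100 (cons (fin 1102 3 1034)
(mv 971 (cons (cons (mv 972 (cons (fin 974 1 970)
(mv 908 (cons (fin 1163 6 907)
(mv 907 (cons (fin 844 6 843)
(fin 1164 4 907)))))))
(mv 972 (cons (fin 974 1 970)
(mv 1163 (cons (fin 908 6 907)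
(mv 1164 (cons (fin 1228 4 971)
(mv 1162 (cons (fin 1161 2 1097)
(fin 1226 5 970))))))))))
(cons (mv 972 (cons (fin 974 1 970)
(mv 908 (cons (fin 1163 6 907)
(mv 844 (cons (fin 780 5 779)
(fin 907 6 843)))))))
(mv 907 (cons (fin 1164 4 907)
(mv 1098 (cons (fin 843 5 842)
(fin 1162 5 906))))))))))
(mv 1100 (cons (fin 1102 3 1034)
(mv 1032 (cons (fin 1033 0 1032)
(mv 971 (cons (cons (mv 972 (cons (fin 974 1 970)
(mv 907 (cons (fin 1164 4 907)
(mv 908 (cons (fin 844 6 843)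
(fin 1163 6 907)))))))
(mv 972 (cons (fin 974 1 970)
(mv 908 (cons (fin 1163 6 907)
(mv 844 (cons (fin 780 5 779)
(fin 907 6 843))))))))
(cons (mv 972 (cons (fin 974 1 970)
(mv 1163 (cons (fin 908 6 907)
(mv 1162 (cons (fin 1226 5 970)
(mv 1164 (cons (fin 1161 2 1097)
(fin 1228 4 971)))))))))
(cons (mv 907 (cons (fin 1164 4 907)
(mv 844 (cons (fin 908 6 843)
(mv 843 (cons (fin 780 6 779)
(mv 842 (cons (fin 778 7 778)
(fin 906 7 842)))))))))
(mv 1164 (cons (fin 907 4 907)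
(mv 1228 (cons (fin 1292 7 1035)
(fin 1163 4 971)))))))))))))))))
(cons (mv 1036 (cons (fin 1102 0 1034)
(mv 1033 (cons (fin 972 2 969)
(fin 1100 0 1033)))))
(mv 1036 (cons (fin 974 2 970)
(mv 1033 (cons (fin 972 2 969)
(fin 1100 0 1033))))))))
(cons (mv 1036 (cons (cons (mv 1035 (cons (fin 974 2 970)
(fin 1102 0 1034)))
(mv 975 (cons (cons (mv 974 (cons (fin 976 1 972)
(mv 972 (cons (fin 1039 0 972)
(mv 908 (cons (fin 907 3 907)
(fin 844 4 844)))))))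
(mv 1103 (cons (cons (mv 1102 (cons (fin 1104 3 1036)
(mv 1039 (cons (fin 1100 2 1036)
(mv 911 (cons (fin 1166 5 910)
(mv 846 (cons (fin 910 7 846)
(mv 847 (cons (fin 782 7 782)
(mv 848 (cons (fin 784 6 783)
(fin 912 6 847)))))))))))))
(mv 1039 (cons (cons (mv 911 (cons (cons (mv 1104 (cons (fin 847 4 847)
(fin 1168 4 911)))
(mv 846 (cons (fin 910 7 846)
(mv 782 (cons (fin 847 7 782)
(mv 912 (cons (fin 848 6 847)
(mv 1167 (cons (fin 976 6 911)
(mv 1230 (cons (fin 1166 5 974)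
(mv 1232 (cons (fin 1168 4 975)
(mv 1231 (cons (fin 1294 5 1038)
(fin 1296 4 1039))))))))))))))))
(cons (mv 848 (cons (fin 912 6 847)
(mv 1168 (cons (fin 1104 4 911)
(mv 846 (cons (fin 910 7 846)
(mv 1167 (cons (fin 1232 4 975)
(mv 1231 (cons (fin 976 6 975)
(mv 1230 (cons (fin 1166 5 974)
(fin 1294 5 1038)))))))))))))
(mv 847 (cons (fin 1104 4 847)
(mv 846 (cons (fin 782 7 782)
(fin 910 7 846))))))))
(cons (mv 1167 (cons (mv 976 (cons (fin 912 6 911)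
(fin 1231 6 975)))
(cons (mv 1230 (cons (fin 1166 5 974)
(mv 1232 (cons (fin 1168 4 975)
(mv 1231 (cons (fin 1294 5 1038)
(fin 1296 4 1039)))))))
(mv 1166 (cons (fin 1230 5 974)
(mv 976 (cons (fin 912 6 911)
(mv 1168 (cons (fin 1232 4 975)
(mv 1169 (cons (cons (mv 1233 (cons (fin 1234 0 1166)
(fin 1104 4 976)))
(mv 1106 (cons (fin 1105 2 1102)
(mv 1170 (cons (fin 1107 2 1103)
(mv 1171 (cons (fin 1104 3 1103)
(mv 1235 (cons (fin 1234 0 1167)
(fin 1236 0 1168))))))))))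
(cons (mv 1106 (cons (fin 1105 2 1102)
(mv 1234 (cons (fin 1233 0 1166)
(mv 1170 (cons (fin 1107 2 1103)
(fin 1235 0 1167)))))))
(mv 1106 (cons (fin 1105 2 1102)
(mv 1104 (cons (fin 1233 4 976)
(mv 1170 (cons (fin 1171 3 1103)
(fin 1107 2 1103)))))))))))))))))))
(mv 911 (cons (mv 1104 (cons (fin 847 4 847)
(fin 1168 4 911)))
(cons (mv 846 (cons (fin 910 7 846)
(mv 847 (cons (fin 782 7 782)
(mv 848 (cons (fin 784 6 783)
(fin 912 6 847)))))))
(mv 910 (cons (fin 846 7 846)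
(mv 1104 (cons (fin 1168 4 911)
(mv 912 (cons (fin 848 6 847)
(mv 913 (cons (cons (mv 849 (cons (fin 850 2 846)
(fin 976 6 848)))
(mv 978 (cons (fin 977 0 910)
(mv 914 (cons (fin 979 0 911)
(mv 851 (cons (fin 850 2 847)
(mv 915 (cons (fin 976 1 911)
(fin 852 2 848))))))))))
(cons (mv 978 (cons (fin 977 0 910)
(mv 850 (cons (fin 849 2 846)
(mv 914 (cons (fin 851 2 847)
(fin 979 0 911)))))))
(mv 978 (cons (fin 977 0 910)
(mv 976 (cons (fin 849 6 848)
(mv 914 (cons (fin 915 1 911)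
(fin 979 0 911)))))))))))))))))))))
(cons (cons (mv 1167 (cons (cons (mv 1166 (cons (fin 1230 5 974)
(mv 1168 (cons (fin 1232 4 975)
(mv 911 (cons (fin 1104 4 911)
(mv 848 (cons (fin 912 6 847)
(mv 847 (cons (fin 784 6 783)
(mv 846 (cons (fin 782 7 782)
(fin 910 7 846)))))))))))))
(mv 1230 (cons (fin 1166 5 974)
(mv 1231 (cons (fin 1294 5 1038)
(mv 1295 (cons (fin 1104 6 1039)
(mv 1296 (cons (fin 1232 4 1039)
(fin 1360 4 1103))))))))))
(cons (mv 1230 (cons (fin 1166 5 974)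
(mv 1231 (cons (fin 1294 5 1038)
(mv 1104 (cons (fin 1295 6 1039)
(mv 911 (cons (fin 847 4 847)
(fin 1168 4 911)))))))))
(cons (mv 1168 (cons (fin 1232 4 975)
(mv 911 (cons (fin 1104 4 911)
(mv 848 (cons (fin 912 6 847)
(mv 847 (cons (fin 784 6 783)
(mv 846 (cons (fin 782 7 782)
(fin 910 7 846)))))))))))
(mv 1230 (cons (fin 1166 5 974)
(mv 1232 (cons (fin 1168 4 975)
(mv 1231 (cons (fin 1294 5 1038)
(fin 1296 4 1039)))))))))))
(mv 911 (cons (cons (mv 846 (cons (fin 910 7 846)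
(mv 782 (cons (fin 847 7 782)
(mv 912 (cons (fin 848 6 847)
(mv 1167 (cons (fin 976 6 911)
(mv 1230 (cons (fin 1166 5 974)
(mv 1232 (cons (fin 1168 4 975)
(mv 1231 (cons (fin 1294 5 1038)
(fin 1296 4 1039)))))))))))))))
(mv 846 (cons (fin 910 7 846)
(mv 847 (cons (fin 782 7 782)
(mv 784 (cons (fin 848 6 783)
(mv 783 (cons (fin 720 6 719)
(fin 976 4 783))))))))))
(cons (mv 846 (cons (fin 910 7 846)
(mv 847 (cons (fin 782 7 782)
(mv 976 (cons (fin 783 4 783)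
(mv 1167 (cons (fin 912 6 911)
(fin 1231 6 975)))))))))
(cons (mv 912 (cons (fin 848 6 847)
(mv 1167 (cons (fin 976 6 911)
(mv 1230 (cons (fin 1166 5 974)
(mv 1232 (cons (fin 1168 4 975)
(mv 1231 (cons (fin 1294 5 1038)
(fin 1296 4 1039)))))))))))
(mv 848 (cons (fin 912 6 847)
(mv 847 (cons (fin 784 6 783)
(mv 846 (cons (fin 782 7 782)
(fin 910 7 846))))))))))))
(cons (mv 911 (cons (mv 1104 (cons (fin 847 4 847)
(fin 1168 4 911)))
(cons (mv 846 (cons (fin 910 7 846)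
(mv 847 (cons (fin 782 7 782)
(mv 784 (cons (fin 848 6 783)
(mv 783 (cons (fin 720 6 719)
(fin 976 4 783)))))))))
(mv 846 (cons (fin 910 7 846)
(mv 1168 (cons (fin 1104 4 911)
(mv 1167 (cons (fin 1232 4 975)
(mv 1231 (cons (fin 976 6 975)
(mv 1230 (cons (fin 1166 5 974)
(fin 1294 5 1038))))))))))))))
(mv 1167 (cons (mv 976 (cons (fin 912 6 911)
(fin 1231 6 975)))
(cons (mv 1230 (cons (fin 1166 5 974)
(mv 1231 (cons (fin 1294 5 1038)
(mv 1295 (cons (fin 1104 6 1039)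
(mv 1296 (cons (fin 1232 4 1039)
(fin 1360 4 1103)))))))))
(mv 1166 (cons (fin 1230 5 974)
(mv 912 (cons (fin 976 6 911)
(mv 911 (cons (fin 848 6 847)
(mv 846 (cons (fin 910 7 846)
(mv 847 (cons (fin 782 7 782)
(fin 1104 4 847)))))))))))))))))))
(cons (mv 1039 (cons (cons (mv 1102 (cons (fin 1100 2 1036)
(mv 911 (cons (fin 1166 5 910)
(mv 846 (cons (fin 910 7 846)
(mv 847 (cons (fin 782 7 782)
(mv 848 (cons (fin 784 6 783)
(fin 912 6 847)))))))))))
(cons (mv 1167 (cons (mv 976 (cons (fin 912 6 911)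
(fin 1231 6 975)))
(cons (mv 1166 (cons (fin 1230 5 974)
(mv 911 (cons (fin 1102 5 910)
(mv 846 (cons (fin 910 7 846)
(mv 847 (cons (fin 782 7 782)
(mv 848 (cons (fin 784 6 783)
(fin 912 6 847)))))))))))
(mv 1168 (cons (fin 1232 4 975)
(mv 976 (cons (fin 1231 6 975)
(mv 1166 (cons (fin 1230 5 974)
(mv 1102 (cons (fin 1169 3 1101)
(fin 911 5 910))))))))))))
(mv 911 (cons (cons (mv 846 (cons (fin 910 7 846)
(mv 782 (cons (fin 847 7 782)
(mv 912 (cons (fin 848 6 847)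
(mv 1167 (cons (fin 976 6 911)
(mv 1230 (cons (fin 1166 5 974)
(mv 1232 (cons (fin 1168 4 975)
(mv 1231 (cons (fin 1294 5 1038)
(fin 1296 4 1039)))))))))))))))
(mv 846 (cons (fin 910 7 846)
(mv 847 (cons (fin 782 7 782)
(mv 784 (cons (fin 848 6 783)
(mv 783 (cons (fin 720 6 719)
(fin 976 4 783))))))))))
(cons (mv 846 (cons (fin 910 7 846)
(mv 847 (cons (fin 782 7 782)
(mv 976 (cons (fin 783 4 783)
(mv 1167 (cons (fin 912 6 911)
(fin 1231 6 975)))))))))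
(cons (mv 912 (cons (fin 848 6 847)
(mv 1167 (cons (fin 976 6 911)
(mv 1230 (cons (fin 1166 5 974)
(mv 1232 (cons (fin 1168 4 975)
(mv 1231 (cons (fin 1294 5 1038)
(fin 1296 4 1039)))))))))))
(mv 848 (cons (fin 912 6 847)
(mv 847 (cons (fin 784 6 783)
(mv 846 (cons (fin 782 7 782)
(fin 910 7 846)))))))))))))
(cons (mv 1102 (cons (fin 1100 2 1036)
(mv 1167 (cons (mv 976 (cons (fin 912 6 911)
(fin 1231 6 975)))
(mv 1166 (cons (fin 1230 5 974)
(mv 1168 (cons (fin 1169 3 1101)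
(fin 1232 4 975)))))))))
(cons (mv 1102 (cons (fin 1100 2 1036)
(mv 911 (cons (fin 1166 5 910)
(mv 846 (cons (fin 910 7 846)
(mv 847 (cons (fin 782 7 782)
(mv 784 (cons (fin 848 6 783)
(mv 783 (cons (fin 720 6 719)
(fin 976 4 783)))))))))))))
(mv 1100 (cons (fin 1102 2 1036)
(mv 1164 (cons (fin 1228 6 972)
(mv 911 (cons (cons (mv 846 (cons (fin 910 7 846)
(mv 847 (cons (fin 782 7 782)
(mv 848 (cons (fin 784 6 783)
(fin 912 6 847)))))))
(mv 846 (cons (fin 910 7 846)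
(mv 847 (cons (fin 782 7 782)
(mv 784 (cons (fin 848 6 783)
(mv 783 (cons (fin 720 6 719)
(fin 976 4 783))))))))))
(cons (mv 846 (cons (fin 910 7 846)
(mv 847 (cons (fin 782 7 782)
(mv 976 (cons (fin 783 4 783)
(mv 1167 (cons (fin 912 6 911)
(fin 1231 6 975)))))))))
(cons (mv 847 (cons (mv 848 (cons (fin 784 6 783)
(fin 912 6 847)))
(cons (mv 783 (cons (fin 976 4 783)
(mv 720 (cons (fin 784 6 719)
(mv 719 (cons (fin 656 6 655)
(mv 718 (cons (fin 654 7 654)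
(fin 782 7 718)))))))))
(mv 976 (cons (fin 783 4 783)
(mv 912 (cons (fin 848 5 847)
(fin 1167 6 911))))))))
(mv 912 (cons (fin 848 6 847)
(mv 910 (cons (fin 846 7 846)
(mv 976 (cons (fin 1167 6 911)
(mv 913 (cons (mv 977 (cons (fin 978 3 910)
(mv 849 (cons (fin 850 2 846)
(fin 785 5 784)))))
(cons (mv 850 (cons (fin 849 2 846)
(mv 914 (cons (fin 915 1 911)
(fin 851 2 847)))))
(mv 914 (cons (fin 915 1 911)
(mv 978 (cons (fin 977 3 910)
(fin 979 0 911))))))))))))))))))))))))))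
(cons (mv 1102 (cons (fin 1104 3 1036)
(mv 1100 (cons (mv 1164 (cons (fin 1163 1 1099)
(fin 1228 6 972)))
(mv 1167 (cons (fin 1168 0 1100)
(mv 1099 (cons (fin 1166 0 1099)
(mv 1098 (cons (fin 1033 3 1033)
(fin 1097 2 1033)))))))))))
(mv 1102 (cons (fin 1104 3 1036)
(mv 1100 (cons (fin 1039 2 1036)
(mv 1164 (cons (fin 1163 1 1099)
(fin 1228 6 972))))))))))))
(cons (mv 1103 (cons (cons (mv 1102 (cons (fin 1104 3 1036)
(mv 1039 (cons (fin 1100 2 1036)
(mv 972 (cons (fin 974 0 972)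
(mv 911 (cons (fin 1166 5 910)
(mv 846 (cons (fin 910 7 846)
(mv 847 (cons (fin 782 7 782)
(mv 848 (cons (fin 784 6 783)
(fin 912 6 847)))))))))))))))
(mv 1039 (cons (cons (mv 974 (cons (fin 972 0 972)
(mv 910 (cons (fin 1167 7 910)
(mv 846 (cons (fin 911 7 846)
(fin 782 5 781)))))))
(mv 1167 (cons (cons (mv 1166 (cons (fin 1230 5 974)
(mv 1168 (cons (fin 1232 4 975)
(mv 911 (cons (fin 1104 4 911)
(mv 848 (cons (fin 912 6 847)
(mv 847 (cons (fin 784 6 783)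
(mv 846 (cons (fin 782 7 782)
(fin 910 7 846)))))))))))))
(mv 1230 (cons (fin 1166 5 974)
(mv 1231 (cons (fin 1294 5 1038)
(mv 1295 (cons (fin 1104 6 1039)
(mv 1296 (cons (fin 1232 4 1039)
(fin 1360 4 1103))))))))))
(cons (mv 1230 (cons (fin 1166 5 974)
(mv 1231 (cons (fin 1294 5 1038)
(mv 1104 (cons (fin 1295 6 1039)
(mv 911 (cons (fin 847 4 847)
(fin 1168 4 911)))))))))
(cons (mv 1168 (cons (fin 1232 4 975)
(mv 911 (cons (fin 1104 4 911)
(mv 848 (cons (fin 912 6 847)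
(mv 847 (cons (fin 784 6 783)
(mv 846 (cons (fin 782 7 782)
(fin 910 7 846)))))))))))
(mv 1230 (cons (fin 1166 5 974)
(mv 1232 (cons (fin 1168 4 975)
(mv 1231 (cons (fin 1294 5 1038)
(fin 1296 4 1039))))))))))))
(cons (mv 974 (cons (fin 972 0 972)
(mv 1167 (cons (fin 910 7 910)
(mv 1230 (cons (fin 1166 5 974)
(mv 1232 (cons (fin 1168 4 975)
(mv 1231 (cons (fin 1294 5 1038)
(fin 1296 4 1039)))))))))))
(cons (mv 974 (cons (fin 972 0 972)
(mv 911 (cons (mv 1104 (cons (fin 847 4 847)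
(fin 1168 4 911)))
(cons (mv 846 (cons (fin 910 7 846)
(mv 847 (cons (fin 782 7 782)
(mv 848 (cons (fin 784 6 783)
(fin 912 6 847)))))))
(mv 912 (cons (fin 848 6 847)
(mv 910 (cons (fin 913 1 909)
(fin 846 7 846))))))))))
(mv 972 (cons (fin 974 0 972)
(mv 844 (cons (fin 908 4 844)
(mv 911 (cons (mv 1104 (cons (fin 847 4 847)
(fin 1168 4 911)))
(cons (mv 847 (cons (mv 848 (cons (fin 784 6 783)
(fin 912 6 847)))
(cons (mv 782 (cons (fin 846 7 782)
(mv 783 (cons (fin 718 7 718)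
(mv 784 (cons (fin 720 6 719)
(mv 781 (cons (fin 845 1 780)
(mv 780 (cons (fin 843 1 779)
(mv 716 (cons (fin 715 3 715)
(fin 717 3 716)))))))))))))
(mv 846 (cons (fin 782 7 782)
(mv 912 (cons (fin 845 0 844)
(fin 848 6 847))))))))
(mv 848 (cons (fin 912 6 847)
(mv 1167 (cons (cons (mv 1168 (cons (fin 1104 4 911)
(fin 1232 4 975)))
(mv 1230 (cons (fin 1166 5 974)
(mv 1231 (cons (fin 1294 5 1038)
(mv 1295 (cons (fin 1104 6 1039)
(mv 1296 (cons (fin 1232 4 1039)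
(fin 1360 4 1103))))))))))
(cons (mv 1232 (cons (fin 1168 4 975)
(mv 1230 (cons (fin 1166 5 974)
(mv 1231 (cons (fin 1294 5 1038)
(fin 1296 4 1039)))))))
(mv 1230 (cons (fin 1166 5 974)
(mv 1104 (cons (fin 1168 4 911)
(mv 1231 (cons (fin 1294 5 1038)
(fin 1295 6 1039))))))))))))))))))))))))
(cons (mv 1039 (cons (mv 1100 (cons (fin 1102 2 1036)
(mv 972 (cons (fin 974 0 972)
(mv 1164 (cons (fin 1228 6 972)
(mv 1163 (cons (fin 1227 5 971)
(mv 908 (cons (fin 1099 5 907)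
(fin 844 4 844)))))))))))
(cons (mv 974 (cons (fin 972 0 972)
(mv 910 (cons (fin 1167 7 910)
(mv 846 (cons (fin 911 7 846)
(fin 782 5 781)))))))
(mv 1102 (cons (fin 1100 2 1036)
(mv 911 (cons (fin 1166 5 910)
(mv 846 (cons (fin 910 7 846)
(mv 847 (cons (fin 782 7 782)
(mv 848 (cons (fin 784 6 783)
(fin 912 6 847))))))))))))))
(cons (mv 1102 (cons (fin 1104 3 1036)
(mv 1100 (cons (mv 1164 (cons (fin 1163 1 1099)
(fin 1228 6 972)))
(mv 1167 (cons (fin 1168 0 1100)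
(mv 1099 (cons (fin 1166 0 1099)
(mv 1098 (cons (fin 1033 3 1033)
(fin 1097 2 1033)))))))))))
(mv 1102 (cons (fin 1104 3 1036)
(mv 1039 (cons (fin 1100 2 1036)
(mv 974 (cons (fin 972 0 972)
(mv 910 (cons (fin 1167 7 910)
(mv 846 (cons (fin 911 7 846)
(fin 782 5 781)))))))))))))))
(mv 976 (cons (fin 974 1 972)
(mv 1104 (cons (cons (mv 1102 (cons (fin 1103 3 1036)
(mv 911 (cons (fin 1168 7 911)
(mv 847 (cons (fin 912 7 847)
(fin 783 4 783)))))))
(mv 1103 (cons (fin 1102 3 1036)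
(mv 912 (cons (fin 1167 5 911)
(mv 847 (cons (fin 911 7 847)
(mv 848 (cons (fin 783 7 783)
(mv 849 (cons (fin 785 6 784)
(fin 913 6 848))))))))))))
(cons (mv 1103 (cons (fin 1102 3 1036)
(mv 912 (cons (fin 1167 5 911)
(mv 913 (cons (fin 849 6 848)
(mv 1169 (cons (fin 1105 4 912)
(mv 1168 (cons (fin 977 6 912)
(fin 1233 4 976)))))))))))
(cons (mv 911 (cons (fin 1168 7 911)
(mv 847 (cons (fin 912 7 847)
(fin 783 4 783)))))
(mv 1168 (cons (fin 911 7 911)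
(mv 1102 (cons (fin 1103 3 1036)
(mv 1169 (cons (fin 1233 4 976)
(mv 1167 (cons (fin 1166 3 1101)
(fin 1231 5 975)))))))))))))))))))
(cons (mv 974 (cons (fin 1035 2 970)
(mv 975 (cons (fin 976 1 972)
(mv 972 (cons (fin 1039 0 972)
(mv 908 (cons (fin 907 3 907)
(fin 844 4 844)))))))))
(mv 1035 (cons (fin 1102 0 1034)
(mv 1033 (cons (fin 972 2 969)
(fin 1100 0 1033))))))))
(mv 1035 (cons (cons (mv 1036 (cons (fin 974 2 970)
(fin 1102 0 1034)))
(mv 1099 (cons (cons (mv 1100 (cons (fin 1102 3 1034)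
(mv 1033 (cons (fin 1098 3 1033)
(fin 1032 0 1032)))))
(mv 971 (cons (mv 972 (cons (fin 974 1 970)
(mv 1033 (cons (fin 970 1 969)
(fin 1032 2 968)))))
(cons (mv 1163 (cons (mv 970 (cons (fin 906 7 906)
(fin 1227 7 970)))
(cons (mv 1228 (cons (fin 1164 4 971)
(mv 1226 (cons (fin 1162 5 970)
(mv 1227 (cons (fin 1290 5 1034)
(fin 1292 4 1035)))))))
(mv 1164 (cons (fin 1228 4 971)
(mv 970 (cons (fin 906 7 906)
(mv 1162 (cons (fin 1226 5 970)
(mv 1161 (cons (cons (mv 1225 (cons (fin 1224 1 1160)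
(fin 1098 5 969)))
(mv 1096 (cons (fin 1097 3 1096)
(mv 1160 (cons (fin 1095 3 1095)
(mv 1223 (cons (fin 1224 1 1159)
(mv 1159 (cons (fin 1222 1 1158)
(fin 1098 2 1095))))))))))
(cons (mv 1096 (cons (fin 1097 3 1096)
(mv 1160 (cons (fin 1095 3 1095)
(mv 1224 (cons (fin 1223 1 1159)
(fin 1225 1 1160)))))))
(mv 1098 (cons (fin 1225 5 969)
(mv 905 (cons (fin 969 7 905)
(mv 1096 (cons (fin 1097 3 1096)
(mv 1160 (cons (fin 1095 3 1095)
(fin 1159 2 1095)))))))))))))))))))))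
(mv 972 (cons (fin 974 1 970)
(mv 1032 (cons (fin 1033 2 968)
(mv 1163 (cons (fin 908 6 907)
(mv 1226 (cons (fin 1162 5 970)
(mv 1228 (cons (fin 1164 4 971)
(mv 1227 (cons (fin 1290 5 1034)
(fin 1292 4 1035)))))))))))))))))
(cons (mv 1100 (cons (fin 1102 3 1034)
(mv 970 (cons (cons (mv 1163 (cons (fin 1227 7 970)
(mv 906 (cons (fin 971 7 906)
(fin 842 4 842)))))
(mv 906 (cons (fin 842 4 842)
(mv 1098 (cons (mv 1161 (cons (fin 1162 1 1097)
(fin 1097 5 905)))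
(cons (mv 905 (cons (fin 841 7 841)
(mv 971 (cons (fin 972 3 905)
(mv 1162 (cons (fin 969 7 905)
(fin 1226 6 970)))))))
(mv 905 (cons (fin 841 7 841)
(mv 1097 (cons (fin 1161 5 905)
(mv 1096 (cons (fin 1095 2 1031)
(mv 971 (cons (fin 972 3 905)
(mv 1032 (cons (fin 1031 3 1031)
(mv 903 (cons (fin 904 0 903)
(mv 1160 (cons (fin 1159 1 1095)
(mv 968 (cons (fin 967 7 903)
(fin 969 6 904)))))))))))))))))))))))
(cons (mv 1163 (cons (fin 1227 7 970)
(mv 1162 (cons (mv 1161 (cons (fin 1098 1 1097)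
(fin 1160 2 1096)))
(mv 971 (cons (fin 1226 5 970)
(mv 972 (cons (fin 974 1 970)
(fin 908 6 907)))))))))
(mv 1163 (cons (fin 1227 7 970)
(mv 906 (cons (fin 842 4 842)
(fin 1098 4 906))))))))))
(cons (mv 1100 (cons (fin 1102 3 1034)
(mv 1032 (cons (fin 1033 0 1032)
(mv 1163 (cons (mv 970 (cons (fin 1227 7 970)
(mv 906 (cons (fin 971 7 906)
(fin 842 4 842)))))
(cons (mv 971 (cons (mv 972 (cons (fin 974 1 970)
(fin 908 6 907)))
(mv 1164 (cons (fin 1228 4 971)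
(mv 1162 (cons (fin 1161 2 1097)
(fin 1226 5 970)))))))
(mv 1227 (cons (fin 970 7 970)
(mv 1226 (cons (fin 1290 5 1034)
(mv 1292 (cons (fin 1228 4 1035)
(mv 1291 (cons (fin 1356 4 1099)
(mv 1355 (cons (fin 1164 6 1099)
(mv 1293 (cons (fin 1294 3 1226)
(mv 1419 (cons (fin 1162 7 1162)
(mv 1418 (cons (fin 1354 5 1162)
(fin 1482 5 1226))))))))))))))))))))))))
(mv 1100 (cons (fin 1102 3 1034)
(mv 1098 (cons (fin 1033 3 1033)
(mv 1161 (cons (fin 1162 1 1097)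
(mv 1097 (cons (fin 1160 1 1096)
(mv 1096 (cons (fin 1095 2 1031)
(mv 1225 (cons (fin 1289 6 1033)
(mv 1163 (cons (fin 1164 0 1096)
(mv 970 (cons (fin 1227 7 970)
(fin 906 5 905))))))))))))))))))))))
(cons (mv 1036 (cons (fin 974 2 970)
(mv 1033 (cons (fin 972 2 969)
(fin 1100 0 1033)))))
(mv 1036 (cons (fin 1102 0 1034)
(mv 1033 (cons (fin 972 2 969)
(fin 1100 0 1033))))))))))
(cons (cons (mv 1035 (cons (cons (mv 1036 (cons (fin 974 2 970)
(fin 1102 0 1034)))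
(mv 1099 (cons (cons (mv 1100 (cons (fin 1102 3 1034)
(mv 1033 (cons (fin 1098 3 1033)
(fin 1032 0 1032)))))
(mv 970 (cons (cons (mv 1163 (cons (fin 1227 7 970)
(mv 906 (cons (fin 971 7 906)
(fin 842 4 842)))))
(mv 1163 (cons (fin 1227 7 970)
(mv 971 (cons (mv 972 (cons (fin 1033 1 969)
(fin 974 1 970)))
(mv 1164 (cons (fin 1228 4 971)
(mv 1162 (cons (fin 1226 5 970)
(mv 1098 (cons (fin 907 5 906)
(mv 905 (cons (fin 969 7 905)
(mv 1096 (cons (fin 1097 0 1096)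
(mv 1161 (cons (fin 1225 5 969)
(mv 1160 (cons (fin 1095 3 1095)
(fin 1159 2 1095))))))))))))))))))))
(cons (mv 906 (cons (fin 842 4 842)
(mv 1098 (cons (cons (mv 841 (cons (fin 905 7 841)
(mv 843 (cons (fin 907 6 842)
(mv 1161 (cons (fin 1097 5 905)
(mv 1162 (cons (fin 1225 5 969)
(mv 1226 (cons (fin 971 6 970)
(fin 1290 6 1034)))))))))))
(cons (mv 1097 (cons (fin 1161 5 905)
(mv 1095 (cons (fin 1096 2 1031)
(mv 905 (cons (fin 841 7 841)
(mv 971 (cons (fin 972 3 905)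
(mv 1162 (cons (fin 969 7 905)
(fin 1226 6 970)))))))))))
(mv 843 (cons (fin 907 6 842)
(mv 1161 (cons (fin 1097 5 905)
(mv 1162 (cons (fin 1225 5 969)
(mv 1226 (cons (fin 971 6 970)
(fin 1290 6 1034)))))))))))
(cons (mv 841 (cons (fin 905 7 841)
(mv 907 (cons (fin 843 6 842)
(mv 971 (cons (fin 1162 5 906)
(mv 972 (cons (fin 974 3 906)
(fin 1033 1 969)))))))))
(cons (mv 843 (cons (fin 907 6 842)
(mv 1097 (cons (fin 1161 5 905)
(mv 1096 (cons (fin 1095 2 1031)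
(mv 905 (cons (fin 841 7 841)
(mv 1031 (cons (fin 1032 3 1031)
(mv 969 (cons (fin 1162 7 905)
(mv 1160 (cons (fin 1159 1 1095)
(fin 1033 5 904)))))))))))))))
(mv 905 (cons (fin 841 7 841)
(mv 843 (cons (fin 907 6 842)
(mv 971 (cons (fin 972 3 905)
(mv 1097 (cons (fin 1161 5 905)
(mv 1096 (cons (fin 1095 2 1031)
(mv 903 (cons (fin 904 0 903)
(mv 1032 (cons (fin 1031 3 1031)
(mv 1160 (cons (fin 1159 1 1095)
(mv 968 (cons (fin 967 7 903)
(fin 969 6 904)))))))))))))))))))))))))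
(mv 906 (cons (fin 842 4 842)
(mv 1163 (cons (fin 1227 7 970)
(fin 1098 4 906)))))))))
(cons (mv 1100 (cons (fin 1102 3 1034)
(mv 971 (cons (cons (mv 972 (cons (fin 974 1 970)
(mv 907 (cons (fin 1164 4 907)
(mv 1098 (cons (fin 843 5 842)
(fin 1162 5 906)))))))
(mv 972 (cons (fin 974 1 970)
(mv 1163 (cons (mv 970 (cons (fin 906 7 906)
(fin 1227 7 970)))
(mv 1164 (cons (fin 1228 4 971)
(mv 1162 (cons (fin 1161 2 1097)
(fin 1226 5 970))))))))))
(cons (mv 972 (cons (fin 974 1 970)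
(mv 970 (cons (mv 906 (cons (fin 905 3 905)
(fin 1163 7 906)))
(cons (mv 1163 (cons (fin 1227 7 970)
(mv 1162 (cons (fin 1226 5 970)
(mv 1098 (cons (fin 1161 1 1097)
(fin 907 5 906)))))))
(mv 906 (cons (fin 905 3 905)
(fin 842 4 842))))))))
(cons (mv 907 (cons (fin 1164 4 907)
(mv 1098 (cons (fin 843 5 842)
(fin 1162 5 906)))))
(mv 907 (cons (fin 1164 4 907)
(mv 843 (cons (fin 1098 5 842)
(mv 842 (cons (fin 778 7 778)
(fin 906 7 842)))))))))))))
(mv 1100 (cons (fin 1102 3 1034)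
(mv 1033 (cons (fin 1032 0 1032)
(mv 971 (cons (mv 972 (cons (fin 970 1 969)
(fin 974 1 970)))
(cons (mv 907 (cons (fin 1164 4 907)
(mv 842 (cons (fin 906 7 842)
(mv 843 (cons (fin 778 7 778)
(mv 779 (cons (fin 970 5 778)
(mv 780 (cons (fin 716 6 715)
(fin 844 6 779)))))))))))
(mv 1164 (cons (fin 907 4 907)
(mv 1228 (cons (fin 1292 7 1035)
(fin 1163 4 971))))))))))))))))
(cons (mv 1036 (cons (fin 974 2 970)
(mv 1033 (cons (fin 972 2 969)
(fin 1100 0 1033)))))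
(mv 1036 (cons (fin 1102 0 1034)
(mv 1033 (cons (fin 972 2 969)
(fin 1100 0 1033))))))))
(mv 1035 (cons (mv 1036 (cons (fin 974 2 970)
(fin 1102 0 1034)))
(cons (mv 1099 (cons (cons (mv 1100 (cons (fin 1102 3 1034)
(mv 1033 (cons (fin 1098 3 1033)
(fin 1032 0 1032)))))
(mv 971 (cons (cons (mv 907 (cons (mv 1098 (cons (fin 843 5 842)
(fin 1162 5 906)))
(cons (mv 842 (cons (fin 906 7 842)
(mv 843 (cons (fin 778 7 778)
(mv 844 (cons (fin 780 6 779)
(fin 908 6 843)))))))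
(mv 844 (cons (fin 908 6 843)
(mv 1098 (cons (fin 1162 5 906)
(mv 906 (cons (fin 842 7 842)
(mv 970 (cons (fin 1163 7 906)
(mv 1097 (cons (fin 1161 5 905)
(mv 1095 (cons (fin 1096 2 1031)
(mv 905 (cons (fin 841 7 841)
(mv 904 (cons (fin 903 0 903)
(mv 968 (cons (fin 967 1 903)
(mv 840 (cons (fin 839 3 839)
(mv 1032 (cons (fin 1031 5 839)
(fin 1033 4 840))))))))))))))))))))))))))
(cons (mv 1163 (cons (mv 970 (cons (fin 906 7 906)
(fin 1227 7 970)))
(cons (mv 1228 (cons (fin 1164 4 971)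
(mv 1226 (cons (fin 1162 5 970)
(mv 1227 (cons (fin 1290 5 1034)
(fin 1292 4 1035)))))))
(mv 1164 (cons (fin 1228 4 971)
(mv 970 (cons (fin 906 7 906)
(mv 1162 (cons (fin 1226 5 970)
(mv 1161 (cons (cons (mv 1225 (cons (fin 1224 1 1160)
(fin 1098 5 969)))
(mv 1096 (cons (fin 1097 3 1096)
(mv 1160 (cons (fin 1095 3 1095)
(mv 1223 (cons (fin 1224 1 1159)
(mv 1159 (cons (fin 1222 1 1158)
(fin 1098 2 1095))))))))))
(cons (mv 1096 (cons (fin 1097 3 1096)
(mv 1160 (cons (fin 1095 3 1095)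
(mv 1224 (cons (fin 1223 1 1159)
(fin 1225 1 1160)))))))
(mv 1098 (cons (fin 1225 5 969)
(mv 905 (cons (fin 969 7 905)
(mv 1096 (cons (fin 1097 3 1096)
(mv 1160 (cons (fin 1095 3 1095)
(fin 1159 2 1095)))))))))))))))))))))
(mv 907 (cons (mv 1098 (cons (fin 843 5 842)
(fin 1162 5 906)))
(cons (mv 842 (cons (fin 906 7 842)
(mv 843 (cons (fin 778 7 778)
(mv 844 (cons (fin 780 6 779)
(fin 908 6 843)))))))
(mv 906 (cons (fin 842 7 842)
(mv 908 (cons (fin 844 6 843)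
(mv 1098 (cons (fin 1162 5 906)
(mv 905 (cons (cons (mv 841 (cons (fin 840 3 840)
(fin 970 7 841)))
(mv 968 (cons (fin 969 1 904)
(mv 904 (cons (fin 967 1 903)
(mv 839 (cons (fin 840 3 839)
(mv 903 (cons (fin 838 3 838)
(fin 970 0 903))))))))))
(cons (mv 968 (cons (fin 969 1 904)
(mv 904 (cons (fin 967 1 903)
(mv 840 (cons (fin 839 3 839)
(fin 841 3 840)))))))
(mv 841 (cons (fin 970 7 841)
(mv 969 (cons (fin 968 1 904)
(fin 1033 4 841)))))))))))))))))))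
(cons (cons (mv 1163 (cons (cons (mv 1164 (cons (fin 1228 4 971)
(mv 1162 (cons (fin 1226 5 970)
(mv 907 (cons (fin 1098 5 906)
(mv 844 (cons (fin 908 6 843)
(mv 843 (cons (fin 780 6 779)
(mv 842 (cons (fin 778 7 778)
(fin 906 7 842)))))))))))))
(mv 1228 (cons (fin 1164 4 971)
(mv 1227 (cons (fin 1292 4 1035)
(mv 1290 (cons (fin 1226 5 1034)
(mv 1291 (cons (fin 1098 7 1034)
(fin 1354 5 1098))))))))))
(cons (mv 1228 (cons (fin 1164 4 971)
(mv 1227 (cons (fin 1292 4 1035)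
(mv 1098 (cons (fin 1291 7 1034)
(mv 907 (cons (fin 843 5 842)
(fin 1162 5 906)))))))))
(cons (mv 1162 (cons (fin 1226 5 970)
(mv 907 (cons (fin 1098 5 906)
(mv 844 (cons (fin 908 6 843)
(mv 843 (cons (fin 780 6 779)
(mv 842 (cons (fin 778 7 778)
(fin 906 7 842)))))))))))
(mv 1228 (cons (fin 1164 4 971)
(mv 1226 (cons (fin 1162 5 970)
(mv 1227 (cons (fin 1290 5 1034)
(fin 1292 4 1035)))))))))))
(mv 907 (cons (cons (mv 842 (cons (fin 906 7 842)
(mv 843 (cons (fin 778 7 778)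
(mv 844 (cons (fin 780 6 779)
(fin 908 6 843)))))))
(mv 844 (cons (fin 908 6 843)
(mv 843 (cons (fin 780 6 779)
(mv 779 (cons (fin 970 5 778)
(mv 778 (cons (fin 714 7 714)
(fin 842 7 778))))))))))
(cons (mv 844 (cons (fin 908 6 843)
(mv 843 (cons (fin 780 6 779)
(mv 970 (cons (fin 779 5 778)
(mv 1163 (cons (fin 906 7 906)
(fin 1227 7 970)))))))))
(mv 906 (cons (fin 842 7 842)
(mv 1163 (cons (fin 970 7 906)
(mv 1228 (cons (fin 1164 4 971)
(mv 1226 (cons (fin 1162 5 970)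
(mv 1227 (cons (fin 1290 5 1034)
(fin 1292 4 1035)))))))))))))))
(cons (mv 907 (cons (mv 1098 (cons (fin 843 5 842)
(fin 1162 5 906)))
(cons (mv 844 (cons (fin 908 6 843)
(mv 843 (cons (fin 780 6 779)
(mv 779 (cons (fin 970 5 778)
(mv 778 (cons (fin 714 7 714)
(fin 842 7 778)))))))))
(mv 844 (cons (fin 908 6 843)
(mv 1162 (cons (fin 1098 5 906)
(mv 1163 (cons (fin 1226 5 970)
(mv 1227 (cons (fin 970 7 970)
(mv 1228 (cons (fin 1164 4 971)
(fin 1292 4 1035))))))))))))))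
(mv 1163 (cons (mv 970 (cons (fin 906 7 906)
(fin 1227 7 970)))
(cons (mv 1228 (cons (fin 1164 4 971)
(mv 1227 (cons (fin 1292 4 1035)
(mv 1290 (cons (fin 1226 5 1034)
(mv 1291 (cons (fin 1098 7 1034)
(fin 1354 5 1098)))))))))
(mv 1164 (cons (fin 1228 4 971)
(mv 906 (cons (fin 970 7 906)
(mv 907 (cons (fin 842 7 842)
(mv 843 (cons (fin 1098 5 842)
(mv 844 (cons (fin 780 6 779)
(fin 908 6 843)))))))))))))))))))
(cons (mv 971 (cons (cons (mv 1100 (cons (fin 1102 3 1034)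
(mv 907 (cons (fin 1164 4 907)
(mv 1098 (cons (fin 843 5 842)
(fin 1162 5 906)))))))
(mv 907 (cons (mv 1098 (cons (fin 843 5 842)
(fin 1162 5 906)))
(cons (mv 842 (cons (fin 906 7 842)
(mv 843 (cons (fin 778 7 778)
(mv 844 (cons (fin 780 6 779)
(fin 908 6 843)))))))
(mv 844 (cons (fin 908 6 843)
(mv 1098 (cons (fin 1162 5 906)
(mv 906 (cons (fin 842 7 842)
(mv 970 (cons (fin 1163 7 906)
(mv 905 (cons (fin 841 7 841)
(mv 1097 (cons (fin 1161 5 905)
(mv 1096 (cons (fin 1095 2 1031)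
(mv 903 (cons (fin 904 0 903)
(mv 1032 (cons (fin 1031 3 1031)
(mv 1160 (cons (fin 1159 1 1095)
(mv 968 (cons (fin 967 7 903)
(fin 969 6 904)))))))))))))))))))))))))))
(cons (mv 1100 (cons (fin 1102 3 1034)
(mv 1163 (cons (mv 970 (cons (fin 906 7 906)
(fin 1227 7 970)))
(mv 1164 (cons (fin 1228 4 971)
(mv 1162 (cons (fin 1161 2 1097)
(fin 1226 5 970)))))))))
(mv 1100 (cons (fin 1102 3 1034)
(mv 907 (cons (fin 1164 4 907)
(mv 844 (cons (fin 908 6 843)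
(mv 843 (cons (fin 1098 5 842)
(fin 780 6 779))))))))))))
(cons (mv 1100 (cons (fin 1102 3 1034)
(mv 1032 (cons (fin 1033 0 1032)
(mv 971 (cons (cons (mv 907 (cons (fin 1164 4 907)
(mv 844 (cons (fin 908 6 843)
(mv 843 (cons (fin 780 6 779)
(mv 842 (cons (fin 778 7 778)
(fin 906 7 842)))))))))
(mv 907 (cons (cons (mv 844 (cons (fin 908 6 843)
(mv 843 (cons (fin 780 6 779)
(mv 842 (cons (fin 778 7 778)
(fin 906 7 842)))))))
(mv 844 (cons (fin 908 6 843)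
(mv 843 (cons (fin 780 6 779)
(mv 779 (cons (fin 970 5 778)
(mv 778 (cons (fin 714 7 714)
(fin 842 7 778))))))))))
(cons (mv 844 (cons (fin 908 6 843)
(mv 843 (cons (fin 780 6 779)
(mv 970 (cons (fin 779 5 778)
(mv 1163 (cons (fin 906 7 906)
(fin 1227 7 970)))))))))
(cons (mv 843 (cons (mv 842 (cons (fin 778 7 778)
(fin 906 7 842)))
(cons (mv 779 (cons (fin 970 5 778)
(mv 714 (cons (fin 778 7 714)
(mv 715 (cons (fin 650 7 650)
(mv 716 (cons (fin 652 6 651)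
(fin 780 6 715)))))))))
(mv 970 (cons (fin 779 5 778)
(mv 906 (cons (fin 842 7 842)
(fin 1163 7 906))))))))
(mv 906 (cons (fin 842 7 842)
(mv 908 (cons (fin 844 6 843)
(mv 970 (cons (fin 1163 7 906)
(mv 905 (cons (cons (mv 968 (cons (fin 969 1 904)
(mv 904 (cons (fin 967 1 903)
(fin 903 0 903)))))
(mv 903 (cons (fin 904 0 903)
(mv 841 (cons (fin 840 3 840)
(mv 777 (cons (fin 713 4 713)
(fin 969 4 777))))))))
(cons (mv 840 (cons (fin 841 3 840)
(mv 904 (cons (fin 839 3 839)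
(fin 903 0 903)))))
(mv 969 (cons (fin 968 1 904)
(mv 841 (cons (fin 840 3 840)
(fin 777 4 777)))))))))))))))))))
(cons (mv 1163 (cons (mv 970 (cons (fin 906 7 906)
(fin 1227 7 970)))
(mv 1164 (cons (fin 1228 4 971)
(mv 1162 (cons (fin 1161 2 1097)
(fin 1226 5 970)))))))
(mv 907 (cons (fin 1164 4 907)
(mv 844 (cons (fin 908 6 843)
(mv 843 (cons (fin 780 6 779)
(mv 779 (cons (fin 970 5 778)
(mv 778 (cons (fin 714 7 714)
(fin 842 7 778))))))))))))))))))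
(mv 1100 (cons (fin 1102 3 1034)
(mv 1098 (cons (fin 1033 3 1033)
(mv 1161 (cons (fin 1162 1 1097)
(mv 1097 (cons (fin 1160 1 1096)
(mv 1096 (cons (fin 1095 2 1031)
(mv 1225 (cons (fin 1289 6 1033)
(mv 1163 (cons (fin 1164 0 1096)
(mv 970 (cons (fin 1227 7 970)
(fin 906 5 905)))))))))))))))))))))
(mv 1036 (cons (fin 974 2 970)
(mv 1097 (cons (fin 1098 1 1033)
(mv 1033 (cons (fin 1096 1 1032)
(fin 1100 0 1033)))))))))))
(cons (mv 1035 (cons (cons (mv 1036 (cons (fin 1102 0 1034)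
(mv 1033 (cons (fin 972 2 969)
(fin 1100 0 1033)))))
(cons (mv 1099 (cons (cons (mv 1100 (cons (fin 1102 3 1034)
(mv 1033 (cons (fin 1098 3 1033)
(fin 1032 0 1032)))))
(mv 970 (cons (cons (mv 906 (cons (fin 842 4 842)
(mv 1163 (cons (fin 971 7 906)
(fin 1227 7 970)))))
(mv 1163 (cons (fin 1227 7 970)
(mv 971 (cons (mv 972 (cons (fin 1033 1 969)
(fin 908 6 907)))
(cons (mv 1164 (cons (fin 1228 4 971)
(mv 1162 (cons (fin 1226 5 970)
(mv 907 (cons (fin 1098 5 906)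
(mv 843 (cons (fin 779 5 778)
(mv 844 (cons (fin 780 6 779)
(fin 908 6 843)))))))))))
(mv 1162 (cons (fin 1226 5 970)
(mv 907 (cons (fin 1098 5 906)
(mv 779 (cons (fin 843 5 778)
(mv 1033 (cons (fin 972 1 969)
(mv 1164 (cons (fin 1228 4 971)
(mv 1032 (cons (fin 1031 2 967)
(mv 1096 (cons (fin 1095 1 1031)
(mv 968 (cons (fin 967 3 967)
(mv 1161 (cons (fin 1097 3 1096)
(mv 1225 (cons (fin 1224 1 1160)
(fin 1160 4 968)))))))))))))))))))))))))))
(cons (mv 906 (cons (fin 842 4 842)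
(mv 1098 (cons (cons (mv 841 (cons (fin 905 7 841)
(mv 843 (cons (fin 907 6 842)
(mv 1161 (cons (fin 1097 5 905)
(mv 1162 (cons (fin 1225 5 969)
(mv 1226 (cons (fin 971 6 970)
(fin 1290 6 1034)))))))))))
(cons (mv 1097 (cons (fin 1161 5 905)
(mv 1095 (cons (fin 1096 2 1031)
(mv 905 (cons (fin 841 7 841)
(mv 971 (cons (fin 972 3 905)
(mv 1162 (cons (fin 969 7 905)
(fin 1226 6 970)))))))))))
(mv 843 (cons (fin 907 6 842)
(mv 1161 (cons (fin 1097 5 905)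
(mv 1162 (cons (fin 1225 5 969)
(mv 1226 (cons (fin 971 6 970)
(fin 1290 6 1034)))))))))))
(cons (mv 841 (cons (fin 905 7 841)
(mv 907 (cons (fin 843 6 842)
(mv 971 (cons (fin 1162 5 906)
(mv 1033 (cons (fin 972 1 969)
(mv 908 (cons (fin 844 6 843)
(mv 1032 (cons (fin 1031 2 967)
(mv 968 (cons (fin 967 3 967)
(fin 969 2 904)))))))))))))))
(cons (mv 843 (cons (fin 907 6 842)
(mv 1097 (cons (fin 1161 5 905)
(mv 1096 (cons (fin 1095 2 1031)
(mv 905 (cons (fin 841 7 841)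
(mv 1031 (cons (fin 1032 3 1031)
(mv 969 (cons (fin 1162 7 905)
(mv 1160 (cons (fin 1159 1 1095)
(fin 1033 5 904)))))))))))))))
(mv 905 (cons (fin 841 7 841)
(mv 843 (cons (fin 907 6 842)
(mv 971 (cons (fin 972 3 905)
(mv 1097 (cons (fin 1161 5 905)
(mv 1096 (cons (fin 1095 2 1031)
(mv 903 (cons (fin 904 0 903)
(mv 1032 (cons (fin 1031 3 1031)
(mv 1160 (cons (fin 1159 1 1095)
(mv 968 (cons (fin 967 7 903)
(fin 969 6 904)))))))))))))))))))))))))
(mv 906 (cons (fin 842 4 842)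
(mv 1163 (cons (fin 1227 7 970)
(fin 1098 4 906)))))))))
(cons (mv 1100 (cons (fin 1102 3 1034)
(mv 970 (cons (cons (mv 906 (cons (fin 842 4 842)
(mv 1163 (cons (fin 971 7 906)
(fin 1227 7 970)))))
(mv 906 (cons (fin 842 4 842)
(mv 1098 (cons (mv 1161 (cons (fin 1162 1 1097)
(fin 1097 5 905)))
(cons (mv 843 (cons (fin 907 6 842)
(mv 905 (cons (fin 841 7 841)
(mv 971 (cons (fin 972 3 905)
(mv 1162 (cons (fin 969 7 905)
(fin 1226 6 970)))))))))
(mv 905 (cons (fin 841 7 841)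
(mv 1097 (cons (fin 1161 5 905)
(mv 1095 (cons (fin 1096 2 1031)
(mv 971 (cons (fin 972 3 905)
(mv 907 (cons (fin 843 5 842)
(fin 1164 4 907)))))))))))))))))
(cons (mv 1163 (cons (fin 1227 7 970)
(mv 1162 (cons (mv 1161 (cons (fin 1098 1 1097)
(fin 1160 2 1096)))
(cons (mv 971 (cons (fin 1226 5 970)
(mv 907 (cons (fin 1098 5 906)
(fin 1164 4 907)))))
(mv 1161 (cons (fin 1160 2 1096)
(fin 1164 2 1097))))))))
(mv 1163 (cons (fin 1227 7 970)
(mv 906 (cons (fin 842 4 842)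
(fin 1098 4 906))))))))))
(mv 1100 (cons (fin 1102 3 1034)
(mv 1032 (cons (fin 1033 0 1032)
(mv 1163 (cons (cons (mv 970 (cons (fin 1227 7 970)
(mv 906 (cons (fin 971 7 906)
(fin 842 4 842)))))
(mv 971 (cons (mv 1164 (cons (fin 907 4 907)
(fin 1228 4 971)))
(cons (mv 906 (cons (fin 970 7 906)
(mv 907 (cons (fin 842 7 842)
(mv 908 (cons (fin 844 6 843)
(fin 972 6 907)))))))
(mv 908 (cons (fin 972 6 907)
(mv 1164 (cons (fin 1228 4 971)
(mv 1162 (cons (fin 1161 2 1097)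
(fin 1226 5 970)))))))))))
(cons (mv 1162 (cons (mv 1161 (cons (fin 1160 2 1096)
(fin 1164 2 1097)))
(cons (mv 971 (cons (fin 1226 5 970)
(mv 1164 (cons (fin 907 4 907)
(fin 1228 4 971)))))
(mv 1226 (cons (fin 971 5 970)
(mv 1290 (cons (fin 1227 5 1034)
(fin 1354 6 1098))))))))
(mv 1227 (cons (fin 970 7 970)
(mv 1226 (cons (fin 1290 5 1034)
(mv 1292 (cons (fin 1228 4 1035)
(mv 1291 (cons (fin 1356 4 1099)
(mv 1355 (cons (fin 1164 6 1099)
(mv 1293 (cons (fin 1294 3 1226)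
(mv 1419 (cons (fin 1162 7 1162)
(mv 1418 (cons (fin 1354 5 1162)
(fin 1482 5 1226)))))))))))))))))))))))))))
(mv 1036 (cons (cons (mv 1033 (cons (fin 972 2 969)
(fin 1100 0 1033)))
(mv 970 (cons (fin 969 3 969)
(mv 1098 (cons (fin 1097 1 1033)
(mv 906 (cons (cons (mv 1099 (cons (fin 842 4 842)
(fin 1163 4 906)))
(mv 841 (cons (fin 905 7 841)
(mv 777 (cons (fin 842 7 777)
(mv 907 (cons (fin 843 6 842)
(mv 1162 (cons (fin 971 6 906)
(mv 1225 (cons (fin 1161 5 969)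
(mv 1227 (cons (fin 1163 4 970)
(mv 1226 (cons (fin 1289 5 1033)
(fin 1291 4 1034))))))))))))))))
(cons (mv 843 (cons (fin 907 6 842)
(mv 1099 (cons (fin 1163 4 906)
(mv 905 (cons (fin 841 7 841)
(mv 971 (cons (fin 972 3 905)
(mv 903 (cons (fin 904 0 903)
(mv 1162 (cons (fin 1226 6 970)
(mv 1161 (cons (fin 1100 1 1097)
(fin 1225 5 969)))))))))))))))
(mv 841 (cons (fin 905 7 841)
(mv 842 (cons (fin 777 7 777)
(fin 1099 4 842)))))))))))))
(cons (mv 1097 (cons (fin 1098 1 1033)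
(mv 1033 (cons (fin 1096 1 1032)
(fin 1100 0 1033)))))
(mv 972 (cons (fin 1033 2 969)
(mv 1097 (cons (fin 1098 1 1033)
(mv 970 (cons (fin 969 3 969)
(mv 908 (cons (fin 844 4 844)
(mv 906 (cons (mv 905 (cons (fin 971 3 905)
(fin 907 0 905)))
(cons (mv 842 (cons (fin 1099 4 842)
(mv 778 (cons (fin 971 4 778)
(mv 779 (cons (fin 715 6 714)
(fin 843 6 778)))))))
(mv 842 (cons (fin 1099 4 842)
(mv 779 (cons (fin 843 6 778)
(mv 778 (cons (fin 715 6 714)
(mv 777 (cons (fin 713 7 713)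
(fin 841 7 777)))))))))))))))))))))))))
(cons (mv 1036 (cons (fin 1102 0 1034)
(mv 970 (cons (fin 969 3 969)
(mv 1098 (cons (fin 1097 1 1033)
(mv 906 (cons (cons (mv 1099 (cons (fin 842 4 842)
(fin 1163 4 906)))
(mv 841 (cons (fin 905 7 841)
(mv 777 (cons (fin 842 7 777)
(mv 907 (cons (fin 843 6 842)
(mv 1162 (cons (fin 971 6 906)
(mv 1225 (cons (fin 1161 5 969)
(mv 1227 (cons (fin 1163 4 970)
(mv 1226 (cons (fin 1289 5 1033)
(fin 1291 4 1034))))))))))))))))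
(cons (mv 843 (cons (fin 907 6 842)
(mv 1099 (cons (fin 1163 4 906)
(mv 905 (cons (fin 841 7 841)
(mv 971 (cons (fin 972 3 905)
(mv 903 (cons (fin 904 0 903)
(mv 1162 (cons (fin 1226 6 970)
(mv 1161 (cons (fin 1100 1 1097)
(fin 1225 5 969)))))))))))))))
(mv 841 (cons (fin 905 7 841)
(mv 842 (cons (fin 777 7 777)
(fin 1099 4 842))))))))))))))
(cons (mv 1036 (cons (fin 1102 0 1034)
(mv 972 (cons (fin 1033 2 969)
(mv 1097 (cons (fin 1098 1 1033)
(mv 970 (cons (fin 969 3 969)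
(mv 908 (cons (fin 844 4 844)
(mv 906 (cons (mv 905 (cons (fin 971 3 905)
(fin 907 0 905)))
(cons (mv 842 (cons (fin 1099 4 842)
(mv 778 (cons (fin 971 4 778)
(mv 779 (cons (fin 715 6 714)
(fin 843 6 778)))))))
(mv 842 (cons (fin 1099 4 842)
(mv 779 (cons (fin 843 6 778)
(mv 778 (cons (fin 715 6 714)
(mv 777 (cons (fin 713 7 713)
(fin 841 7 777))))))))))))))))))))))
(mv 1036 (cons (fin 1102 0 1034)
(mv 1097 (cons (fin 1098 1 1033)
(mv 1033 (cons (fin 1096 1 1032)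
(fin 1100 0 1033)))))))))))
(mv 1036 (cons (cons (mv 1035 (cons (fin 974 2 970)
(fin 1102 0 1034)))
(mv 975 (cons (cons (mv 974 (cons (fin 976 1 972)
(mv 972 (cons (fin 1039 0 972)
(mv 908 (cons (fin 907 3 907)
(fin 844 4 844)))))))
(mv 1103 (cons (cons (mv 1102 (cons (fin 1104 3 1036)
(mv 1039 (cons (fin 1100 2 1036)
(mv 911 (cons (fin 1166 5 910)
(mv 846 (cons (fin 910 7 846)
(mv 847 (cons (fin 782 7 782)
(mv 848 (cons (fin 784 6 783)
(fin 912 6 847)))))))))))))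
(mv 1039 (cons (cons (mv 911 (cons (cons (mv 1104 (cons (fin 847 4 847)
(fin 1168 4 911)))
(mv 846 (cons (fin 910 7 846)
(mv 782 (cons (fin 847 7 782)
(mv 912 (cons (fin 848 6 847)
(mv 1167 (cons (fin 976 6 911)
(mv 1230 (cons (fin 1166 5 974)
(mv 1232 (cons (fin 1168 4 975)
(mv 1231 (cons (fin 1294 5 1038)
(fin 1296 4 1039))))))))))))))))
(cons (mv 848 (cons (fin 912 6 847)
(mv 1168 (cons (fin 1104 4 911)
(mv 846 (cons (fin 910 7 846)
(mv 1167 (cons (fin 1232 4 975)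
(mv 1231 (cons (fin 976 6 975)
(mv 1230 (cons (fin 1166 5 974)
(fin 1294 5 1038)))))))))))))
(mv 847 (cons (fin 1104 4 847)
(mv 846 (cons (fin 782 7 782)
(fin 910 7 846))))))))
(cons (mv 1167 (cons (mv 976 (cons (fin 912 6 911)
(fin 1231 6 975)))
(cons (mv 1230 (cons (fin 1166 5 974)
(mv 1232 (cons (fin 1168 4 975)
(mv 1231 (cons (fin 1294 5 1038)
(fin 1296 4 1039)))))))
(mv 1166 (cons (fin 1230 5 974)
(mv 976 (cons (fin 912 6 911)
(mv 1168 (cons (fin 1232 4 975)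
(mv 1169 (cons (cons (mv 1233 (cons (fin 1234 0 1166)
(fin 1104 4 976)))
(mv 1106 (cons (fin 1105 2 1102)
(mv 1170 (cons (fin 1107 2 1103)
(mv 1171 (cons (fin 1104 3 1103)
(mv 1235 (cons (fin 1234 0 1167)
(fin 1236 0 1168))))))))))
(cons (mv 1106 (cons (fin 1105 2 1102)
(mv 1234 (cons (fin 1233 0 1166)
(mv 1170 (cons (fin 1107 2 1103)
(fin 1235 0 1167)))))))
(mv 1106 (cons (fin 1105 2 1102)
(mv 1104 (cons (fin 1233 4 976)
(mv 1170 (cons (fin 1171 3 1103)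
(fin 1107 2 1103)))))))))))))))))))
(mv 911 (cons (mv 1104 (cons (fin 847 4 847)
(fin 1168 4 911)))
(cons (mv 846 (cons (fin 910 7 846)
(mv 847 (cons (fin 782 7 782)
(mv 848 (cons (fin 784 6 783)
(fin 912 6 847)))))))
(mv 910 (cons (fin 846 7 846)
(mv 912 (cons (fin 848 6 847)
(mv 1104 (cons (fin 1168 4 911)
(mv 913 (cons (cons (mv 849 (cons (fin 850 2 846)
(fin 976 6 848)))
(mv 978 (cons (fin 977 0 910)
(mv 914 (cons (fin 979 0 911)
(mv 851 (cons (fin 850 2 847)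
(mv 915 (cons (fin 976 1 911)
(fin 852 2 848))))))))))
(cons (mv 978 (cons (fin 977 0 910)
(mv 850 (cons (fin 849 2 846)
(mv 914 (cons (fin 851 2 847)
(fin 979 0 911)))))))
(mv 978 (cons (fin 977 0 910)
(mv 976 (cons (fin 849 6 848)
(mv 914 (cons (fin 915 1 911)
(fin 979 0 911)))))))))))))))))))))
(cons (cons (mv 1167 (cons (cons (mv 1166 (cons (fin 1230 5 974)
(mv 1168 (cons (fin 1232 4 975)
(mv 911 (cons (fin 1104 4 911)
(mv 848 (cons (fin 912 6 847)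
(mv 847 (cons (fin 784 6 783)
(mv 846 (cons (fin 782 7 782)
(fin 910 7 846)))))))))))))
(mv 1230 (cons (fin 1166 5 974)
(mv 1231 (cons (fin 1294 5 1038)
(mv 1295 (cons (fin 1104 6 1039)
(mv 1296 (cons (fin 1232 4 1039)
(fin 1360 4 1103))))))))))
(cons (mv 1230 (cons (fin 1166 5 974)
(mv 1231 (cons (fin 1294 5 1038)
(mv 1104 (cons (fin 1295 6 1039)
(mv 911 (cons (fin 847 4 847)
(fin 1168 4 911)))))))))
(cons (mv 1168 (cons (fin 1232 4 975)
(mv 911 (cons (fin 1104 4 911)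
(mv 848 (cons (fin 912 6 847)
(mv 847 (cons (fin 784 6 783)
(mv 846 (cons (fin 782 7 782)
(fin 910 7 846)))))))))))
(mv 1230 (cons (fin 1166 5 974)
(mv 1232 (cons (fin 1168 4 975)
(mv 1231 (cons (fin 1294 5 1038)
(fin 1296 4 1039)))))))))))
(mv 911 (cons (cons (mv 846 (cons (fin 910 7 846)
(mv 782 (cons (fin 847 7 782)
(mv 912 (cons (fin 848 6 847)
(mv 1167 (cons (fin 976 6 911)
(mv 1230 (cons (fin 1166 5 974)
(mv 1232 (cons (fin 1168 4 975)
(mv 1231 (cons (fin 1294 5 1038)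
(fin 1296 4 1039)))))))))))))))
(mv 846 (cons (fin 910 7 846)
(mv 847 (cons (fin 782 7 782)
(mv 784 (cons (fin 848 6 783)
(mv 783 (cons (fin 720 6 719)
(fin 976 4 783))))))))))
(cons (mv 846 (cons (fin 910 7 846)
(mv 847 (cons (fin 782 7 782)
(mv 976 (cons (fin 783 4 783)
(mv 1167 (cons (fin 912 6 911)
(fin 1231 6 975)))))))))
(cons (mv 912 (cons (fin 848 6 847)
(mv 1167 (cons (fin 976 6 911)
(mv 1230 (cons (fin 1166 5 974)
(mv 1232 (cons (fin 1168 4 975)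
(mv 1231 (cons (fin 1294 5 1038)
(fin 1296 4 1039)))))))))))
(mv 848 (cons (fin 912 6 847)
(mv 847 (cons (fin 784 6 783)
(mv 846 (cons (fin 782 7 782)
(fin 910 7 846))))))))))))
(cons (mv 911 (cons (mv 1104 (cons (fin 847 4 847)
(fin 1168 4 911)))
(cons (mv 846 (cons (fin 910 7 846)
(mv 847 (cons (fin 782 7 782)
(mv 784 (cons (fin 848 6 783)
(mv 783 (cons (fin 720 6 719)
(fin 976 4 783)))))))))
(mv 846 (cons (fin 910 7 846)
(mv 1168 (cons (fin 1104 4 911)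
(mv 1167 (cons (fin 1232 4 975)
(mv 1231 (cons (fin 976 6 975)
(mv 1230 (cons (fin 1166 5 974)
(fin 1294 5 1038))))))))))))))
(mv 1167 (cons (mv 976 (cons (fin 912 6 911)
(fin 1231 6 975)))
(cons (mv 1230 (cons (fin 1166 5 974)
(mv 1231 (cons (fin 1294 5 1038)
(mv 1295 (cons (fin 1104 6 1039)
(mv 1296 (cons (fin 1232 4 1039)
(fin 1360 4 1103)))))))))
(mv 1166 (cons (fin 1230 5 974)
(mv 912 (cons (fin 976 6 911)
(mv 911 (cons (fin 848 6 847)
(mv 846 (cons (fin 910 7 846)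
(mv 847 (cons (fin 782 7 782)
(fin 1104 4 847)))))))))))))))))))
(cons (mv 1100 (cons (cons (mv 1102 (cons (fin 1039 2 1036)
(mv 1164 (cons (fin 1163 1 1099)
(fin 1228 6 972)))))
(mv 1102 (cons (fin 1039 2 1036)
(mv 1167 (cons (fin 1168 0 1100)
(mv 1099 (cons (fin 1166 0 1099)
(mv 1098 (cons (fin 1097 2 1033)
(mv 1162 (cons (fin 1161 1 1097)
(fin 1163 1 1098))))))))))))
(cons (mv 1164 (cons (fin 1228 6 972)
(mv 972 (cons (mv 907 (cons (fin 971 7 907)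
(mv 908 (cons (fin 843 7 843)
(fin 844 4 844)))))
(cons (mv 971 (cons (fin 907 7 907)
(mv 1163 (cons (fin 1227 5 971)
(mv 1161 (cons (fin 1162 2 1097)
(mv 970 (cons (fin 969 0 969)
(mv 906 (cons (fin 905 3 905)
(mv 1098 (cons (fin 1097 5 905)
(fin 1099 4 906)))))))))))))
(mv 1163 (cons (fin 1227 5 971)
(mv 908 (cons (fin 1099 5 907)
(fin 844 4 844))))))))))
(mv 1164 (cons (fin 1228 6 972)
(mv 1039 (cons (fin 1102 2 1036)
(mv 1167 (cons (mv 976 (cons (fin 912 6 911)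
(fin 1231 6 975)))
(cons (mv 1230 (cons (fin 1166 5 974)
(mv 1232 (cons (fin 1168 4 975)
(mv 1231 (cons (fin 1294 5 1038)
(fin 1296 4 1039)))))))
(mv 1166 (cons (fin 1230 5 974)
(mv 1168 (cons (fin 1232 4 975)
(mv 911 (cons (cons (mv 912 (cons (fin 848 6 847)
(fin 976 6 911)))
(mv 846 (cons (fin 910 7 846)
(mv 847 (cons (fin 782 7 782)
(mv 784 (cons (fin 848 6 783)
(mv 783 (cons (fin 720 6 719)
(fin 976 4 783))))))))))
(cons (mv 846 (cons (fin 910 7 846)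
(mv 847 (cons (fin 782 7 782)
(mv 848 (cons (fin 784 6 783)
(fin 912 6 847)))))))
(mv 976 (cons (fin 912 6 911)
(mv 846 (cons (fin 910 7 846)
(mv 847 (cons (fin 782 7 782)
(fin 783 4 783))))))))))))))))))))))))
(cons (mv 1102 (cons (fin 1104 3 1036)
(mv 1100 (cons (mv 1164 (cons (fin 1163 1 1099)
(fin 1228 6 972)))
(cons (mv 1167 (cons (fin 1168 0 1100)
(mv 1099 (cons (fin 1166 0 1099)
(mv 1098 (cons (fin 1097 2 1033)
(mv 1162 (cons (fin 1161 1 1097)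
(fin 1163 1 1098)))))))))
(mv 1167 (cons (fin 1168 0 1100)
(mv 1166 (cons (fin 1099 0 1099)
(mv 1228 (cons (fin 1164 6 972)
(mv 1294 (cons (fin 1230 7 1037)
(mv 1295 (cons (cons (mv 1231 (cons (fin 1359 7 1102)
(fin 1358 5 1102)))
(mv 1293 (cons (mv 1227 (cons (fin 1292 3 1227)
(mv 1229 (cons (fin 1296 3 1228)
(fin 1226 0 1226)))))
(cons (mv 1292 (cons (fin 1227 3 1227)
(mv 1355 (cons (fin 1356 1 1291)
(mv 1291 (cons (fin 1354 1 1290)
(mv 1359 (cons (fin 1358 0 1291)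
(fin 1360 0 1292)))))))))
(mv 1296 (cons (fin 1229 3 1228)
(mv 1357 (cons (fin 1356 1 1292)
(mv 1361 (cons (fin 1360 0 1293)
(mv 1297 (cons (fin 1358 1 1293)
(fin 1362 0 1294)))))))))))))
(cons (mv 1231 (cons (fin 1358 5 1102)
(mv 1296 (cons (fin 1360 4 1103)
(mv 1293 (cons (fin 1229 3 1228)
(mv 1292 (cons (fin 1227 3 1227)
(fin 1232 2 1228)))))))))
(mv 1231 (cons (fin 1359 7 1102)
(mv 1296 (cons (fin 1360 4 1103)
(mv 1293 (cons (fin 1229 3 1228)
(mv 1292 (cons (fin 1227 3 1227)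
(fin 1232 2 1228)))))))))))))))))))))))))
(mv 1102 (cons (fin 1104 3 1036)
(mv 1100 (cons (fin 1039 2 1036)
(mv 1164 (cons (fin 1163 1 1099)
(fin 1228 6 972))))))))))))
(cons (mv 972 (cons (cons (mv 974 (cons (fin 1039 0 972)
(mv 908 (cons (fin 907 3 907)
(fin 844 4 844)))))
(mv 974 (cons (fin 1039 0 972)
(mv 911 (cons (fin 912 2 908)
(mv 971 (cons (fin 910 2 907)
(mv 906 (cons (fin 907 3 906)
(mv 970 (cons (fin 905 3 905)
(fin 969 0 969))))))))))))
(cons (mv 908 (cons (fin 844 4 844)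
(mv 1100 (cons (cons (mv 843 (cons (fin 907 7 843)
(mv 1164 (cons (fin 1228 6 972)
(mv 1163 (cons (fin 1099 5 907)
(fin 1227 5 971)))))))
(mv 907 (cons (fin 843 7 843)
(mv 1099 (cons (fin 1163 5 907)
(mv 1098 (cons (fin 1097 2 1033)
(mv 905 (cons (fin 906 0 905)
(mv 1162 (cons (fin 1161 1 1097)
(mv 970 (cons (fin 969 7 905)
(fin 971 6 906))))))))))))))
(cons (mv 1163 (cons (fin 1099 5 907)
(mv 1164 (cons (fin 1227 5 971)
(fin 1228 6 972)))))
(mv 1164 (cons (fin 1228 6 972)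
(mv 907 (cons (fin 843 7 843)
(fin 971 7 907))))))))))
(mv 844 (cons (fin 908 4 844)
(mv 974 (cons (fin 1039 0 972)
(mv 911 (cons (fin 912 2 908)
(mv 910 (cons (fin 971 2 907)
(mv 782 (cons (fin 846 5 781)
(mv 783 (cons (cons (mv 847 (cons (fin 718 7 718)
(fin 719 5 718)))
(mv 781 (cons (cons (mv 780 (cons (fin 843 1 779)
(mv 715 (cons (fin 716 3 715)
(mv 714 (cons (fin 779 3 714)
(mv 720 (cons (fin 719 2 716)
(mv 784 (cons (fin 845 1 780)
(fin 721 2 717)))))))))))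
(mv 780 (cons (fin 843 1 779)
(mv 715 (cons (fin 716 3 715)
(mv 779 (cons (fin 714 3 714)
(mv 719 (cons (fin 718 2 715)
(fin 720 2 716))))))))))
(cons (mv 784 (cons (fin 845 1 780)
(mv 716 (cons (fin 717 3 716)
(mv 849 (cons (fin 848 0 781)
(mv 721 (cons (fin 720 2 717)
(mv 785 (cons (fin 722 2 718)
(fin 850 0 782)))))))))))
(cons (mv 784 (cons (fin 845 1 780)
(mv 780 (cons (fin 843 1 779)
(mv 720 (cons (fin 719 2 716)
(fin 721 2 717)))))))
(mv 780 (cons (fin 843 1 779)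
(mv 716 (cons (fin 715 3 715)
(mv 784 (cons (fin 717 3 716)
(fin 845 1 780))))))))))))
(cons (mv 847 (cons (fin 718 7 718)
(mv 784 (cons (fin 720 6 719)
(mv 781 (cons (fin 845 1 780)
(mv 780 (cons (fin 843 1 779)
(fin 848 0 780)))))))))
(mv 847 (cons (fin 719 5 718)
(mv 784 (cons (fin 720 6 719)
(mv 781 (cons (fin 845 1 780)
(mv 780 (cons (fin 843 1 779)
(fin 848 0 780)))))))))))))))))))))))))
(cons (mv 976 (cons (fin 974 1 972)
(mv 1104 (cons (cons (mv 1102 (cons (fin 1103 3 1036)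
(mv 911 (cons (fin 1168 7 911)
(mv 847 (cons (fin 912 7 847)
(fin 783 4 783)))))))
(mv 1103 (cons (fin 1102 3 1036)
(mv 912 (cons (fin 1167 5 911)
(mv 848 (cons (fin 1039 5 847)
(mv 849 (cons (fin 785 6 784)
(fin 913 6 848))))))))))
(cons (mv 911 (cons (fin 1168 7 911)
(mv 847 (cons (fin 912 7 847)
(fin 783 4 783)))))
(mv 911 (cons (fin 1168 7 911)
(mv 847 (cons (fin 783 4 783)
(fin 1039 4 847))))))))))
(mv 974 (cons (fin 976 1 972)
(mv 972 (cons (mv 908 (cons (fin 907 3 907)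
(fin 844 4 844)))
(cons (mv 911 (cons (fin 912 2 908)
(mv 971 (cons (fin 910 2 907)
(mv 906 (cons (fin 907 3 906)
(mv 970 (cons (fin 905 3 905)
(fin 969 0 969)))))))))
(mv 911 (cons (fin 912 2 908)
(mv 910 (cons (fin 971 2 907)
(mv 844 (cons (fin 908 4 844)
(mv 782 (cons (fin 846 5 781)
(mv 783 (cons (cons (mv 847 (cons (fin 718 7 718)
(fin 719 5 718)))
(mv 781 (cons (cons (mv 780 (cons (fin 843 1 779)
(mv 715 (cons (fin 716 3 715)
(mv 714 (cons (fin 779 3 714)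
(mv 720 (cons (fin 719 2 716)
(mv 784 (cons (fin 845 1 780)
(fin 721 2 717)))))))))))
(mv 780 (cons (fin 843 1 779)
(mv 715 (cons (fin 716 3 715)
(mv 779 (cons (fin 714 3 714)
(mv 719 (cons (fin 718 2 715)
(fin 720 2 716))))))))))
(cons (mv 784 (cons (fin 845 1 780)
(mv 716 (cons (fin 717 3 716)
(mv 849 (cons (fin 848 0 781)
(mv 721 (cons (fin 720 2 717)
(mv 785 (cons (fin 722 2 718)
(fin 850 0 782)))))))))))
(cons (mv 784 (cons (fin 845 1 780)
(mv 780 (cons (fin 843 1 779)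
(mv 720 (cons (fin 719 2 716)
(fin 721 2 717)))))))
(mv 780 (cons (fin 843 1 779)
(mv 716 (cons (fin 715 3 715)
(mv 784 (cons (fin 717 3 716)
(fin 845 1 780))))))))))))
(cons (mv 847 (cons (fin 718 7 718)
(mv 784 (cons (fin 720 6 719)
(mv 781 (cons (fin 845 1 780)
(mv 780 (cons (fin 843 1 779)
(fin 848 0 780)))))))))
(mv 847 (cons (fin 719 5 718)
(mv 784 (cons (fin 720 6 719)
(mv 781 (cons (fin 845 1 780)
(mv 780 (cons (fin 843 1 779)
(fin 848 0 780))))))))))))))))))))))))))))))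
(cons (mv 1035 (cons (fin 1102 0 1034)
(mv 970 (cons (fin 969 3 969)
(mv 1098 (cons (fin 1097 1 1033)
(mv 906 (cons (cons (mv 1099 (cons (fin 842 4 842)
(fin 1163 4 906)))
(mv 841 (cons (fin 905 7 841)
(mv 777 (cons (fin 842 7 777)
(mv 907 (cons (fin 843 6 842)
(mv 1162 (cons (fin 971 6 906)
(mv 1225 (cons (fin 1161 5 969)
(mv 1227 (cons (fin 1163 4 970)
(mv 1226 (cons (fin 1289 5 1033)
(fin 1291 4 1034))))))))))))))))
(cons (mv 843 (cons (fin 907 6 842)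
(mv 1099 (cons (fin 1163 4 906)
(mv 905 (cons (fin 841 7 841)
(mv 971 (cons (fin 972 3 905)
(mv 903 (cons (fin 904 0 903)
(mv 1162 (cons (fin 1226 6 970)
(mv 1161 (cons (fin 1100 1 1097)
(fin 1225 5 969)))))))))))))))
(mv 841 (cons (fin 905 7 841)
(mv 842 (cons (fin 777 7 777)
(fin 1099 4 842))))))))))))))
(mv 974 (cons (fin 1035 2 970)
(mv 975 (cons (fin 976 1 972)
(mv 972 (cons (fin 1039 0 972)
(mv 908 (cons (fin 907 3 907)
(fin 844 4 844)))))))))))))))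
(cons (cons (cons (ref 1 0)
(ref 0 0))
(cons (mv 1035 (cons (cons (mv 1036 (cons (fin 974 2 970)
(fin 1102 0 1034)))
(mv 971 (cons (cons (mv 972 (cons (fin 974 1 970)
(mv 1033 (cons (fin 970 1 969)
(fin 1032 2 968)))))
(mv 1099 (cons (cons (mv 1100 (cons (fin 1102 3 1034)
(mv 1032 (cons (fin 1033 0 1032)
(mv 907 (cons (fin 1164 4 907)
(mv 844 (cons (fin 908 6 843)
(mv 843 (cons (fin 780 6 779)
(mv 842 (cons (fin 778 7 778)
(fin 906 7 842)))))))))))))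
(mv 907 (cons (cons (mv 842 (cons (fin 906 7 842)
(mv 843 (cons (fin 778 7 778)
(mv 844 (cons (fin 780 6 779)
(fin 908 6 843)))))))
(mv 844 (cons (fin 908 6 843)
(mv 843 (cons (fin 780 6 779)
(mv 779 (cons (fin 970 5 778)
(mv 778 (cons (fin 714 7 714)
(fin 842 7 778))))))))))
(cons (mv 844 (cons (fin 908 6 843)
(mv 843 (cons (fin 780 6 779)
(mv 970 (cons (fin 779 5 778)
(mv 1163 (cons (fin 906 7 906)
(fin 1227 7 970)))))))))
(mv 906 (cons (fin 842 7 842)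
(mv 1163 (cons (fin 970 7 906)
(mv 1228 (cons (fin 1164 4 971)
(mv 1226 (cons (fin 1162 5 970)
(mv 1227 (cons (fin 1290 5 1034)
(fin 1292 4 1035)))))))))))))))
(cons (mv 1100 (cons (fin 1102 3 1034)
(mv 1032 (cons (fin 1033 0 1032)
(mv 1163 (cons (mv 970 (cons (fin 906 7 906)
(fin 1227 7 970)))
(mv 1164 (cons (fin 1228 4 971)
(mv 1162 (cons (fin 1161 2 1097)
(fin 1226 5 970)))))))))))
(cons (mv 1100 (cons (fin 1102 3 1034)
(mv 1032 (cons (fin 1033 0 1032)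
(mv 907 (cons (fin 1164 4 907)
(mv 844 (cons (fin 908 6 843)
(mv 843 (cons (fin 780 6 779)
(mv 779 (cons (fin 970 5 778)
(mv 778 (cons (fin 714 7 714)
(fin 842 7 778)))))))))))))))
(mv 1100 (cons (fin 1102 3 1034)
(mv 1032 (cons (fin 1033 0 1032)
(mv 907 (cons (cons (mv 844 (cons (fin 908 6 843)
(mv 843 (cons (fin 780 6 779)
(mv 842 (cons (fin 778 7 778)
(fin 906 7 842)))))))
(mv 844 (cons (fin 908 6 843)
(mv 843 (cons (fin 780 6 779)
(mv 779 (cons (fin 970 5 778)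
(mv 778 (cons (fin 714 7 714)
(fin 842 7 778))))))))))
(cons (mv 844 (cons (fin 908 6 843)
(mv 843 (cons (fin 780 6 779)
(mv 970 (cons (fin 779 5 778)
(mv 1163 (cons (fin 906 7 906)
(fin 1227 7 970)))))))))
(cons (mv 843 (cons (mv 842 (cons (fin 778 7 778)
(fin 906 7 842)))
(cons (mv 779 (cons (fin 970 5 778)
(mv 714 (cons (fin 778 7 714)
(mv 715 (cons (fin 650 7 650)
(mv 716 (cons (fin 652 6 651)
(fin 780 6 715)))))))))
(mv 970 (cons (fin 779 5 778)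
(mv 906 (cons (fin 842 7 842)
(fin 1163 7 906))))))))
(mv 906 (cons (fin 842 7 842)
(mv 908 (cons (fin 844 6 843)
(mv 970 (cons (fin 1163 7 906)
(mv 905 (cons (cons (mv 968 (cons (fin 969 1 904)
(mv 904 (cons (fin 967 1 903)
(fin 903 0 903)))))
(mv 903 (cons (fin 904 0 903)
(mv 841 (cons (fin 840 3 840)
(mv 777 (cons (fin 713 4 713)
(fin 969 4 777))))))))
(cons (mv 840 (cons (fin 841 3 840)
(mv 904 (cons (fin 839 3 839)
(fin 903 0 903)))))
(mv 969 (cons (fin 968 1 904)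
(mv 841 (cons (fin 840 3 840)
(fin 777 4 777)))))))))))))))))))))))))))
(cons (mv 972 (cons (fin 974 1 970)
(mv 1099 (cons (cons (mv 1100 (cons (fin 1102 3 1034)
(mv 907 (cons (fin 1164 4 907)
(mv 908 (cons (fin 844 6 843)
(fin 1163 6 907)))))))
(mv 1100 (cons (fin 1102 3 1034)
(mv 907 (cons (fin 1164 4 907)
(mv 844 (cons (fin 908 6 843)
(mv 780 (cons (fin 843 6 779)
(mv 906 (cons (fin 842 7 842)
(mv 905 (cons (fin 970 3 905)
(fin 904 0 904))))))))))))))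
(cons (mv 1100 (cons (fin 1102 3 1034)
(mv 907 (cons (fin 1164 4 907)
(mv 842 (cons (fin 906 7 842)
(mv 843 (cons (fin 778 7 778)
(mv 780 (cons (fin 844 6 779)
(mv 779 (cons (fin 970 5 778)
(fin 716 6 715)))))))))))))
(cons (mv 908 (cons (fin 1163 6 907)
(mv 844 (cons (fin 780 5 779)
(fin 907 6 843)))))
(mv 1163 (cons (fin 908 6 907)
(mv 970 (cons (fin 906 7 906)
(fin 1227 7 970)))))))))))
(mv 972 (cons (fin 974 1 970)
(mv 1032 (cons (fin 1033 2 968)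
(mv 1099 (cons (cons (mv 1100 (cons (fin 1102 3 1034)
(mv 907 (cons (fin 1164 4 907)
(mv 908 (cons (fin 844 6 843)
(fin 1163 6 907)))))))
(mv 1100 (cons (fin 1102 3 1034)
(mv 1164 (cons (fin 907 4 907)
(mv 1228 (cons (fin 1292 7 1035)
(fin 1163 4 971))))))))
(cons (mv 1100 (cons (fin 1102 3 1034)
(mv 907 (cons (fin 1164 4 907)
(mv 844 (cons (fin 908 6 843)
(mv 843 (cons (fin 780 6 779)
(mv 842 (cons (fin 778 7 778)
(fin 906 7 842)))))))))))
(cons (mv 908 (cons (fin 1163 6 907)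
(mv 844 (cons (fin 780 5 779)
(fin 907 6 843)))))
(mv 1163 (cons (fin 908 6 907)
(mv 1100 (cons (fin 1102 3 1034)
(mv 1162 (cons (fin 1226 5 970)
(mv 1164 (cons (fin 1161 2 1097)
(fin 1228 4 971)))))))))))))))))))))
(cons (mv 1036 (cons (fin 1102 0 1034)
(mv 1033 (cons (fin 972 2 969)
(fin 1100 0 1033)))))
(mv 1036 (cons (fin 974 2 970)
(mv 1033 (cons (fin 972 2 969)
(fin 1100 0 1033))))))))
(mv 1036 (cons (cons (mv 1035 (cons (fin 974 2 970)
(fin 1102 0 1034)))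
(mv 975 (cons (cons (mv 974 (cons (fin 976 1 972)
(mv 972 (cons (fin 1039 0 972)
(mv 908 (cons (fin 907 3 907)
(fin 844 4 844)))))))
(mv 1103 (cons (cons (mv 1102 (cons (fin 1104 3 1036)
(mv 1039 (cons (fin 1100 2 1036)
(mv 911 (cons (fin 1166 5 910)
(mv 846 (cons (fin 910 7 846)
(mv 847 (cons (fin 782 7 782)
(mv 848 (cons (fin 784 6 783)
(fin 912 6 847)))))))))))))
(mv 1039 (cons (cons (mv 911 (cons (cons (mv 1104 (cons (fin 847 4 847)
(fin 1168 4 911)))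
(mv 846 (cons (fin 910 7 846)
(mv 782 (cons (fin 847 7 782)
(mv 912 (cons (fin 848 6 847)
(mv 1167 (cons (fin 976 6 911)
(mv 1230 (cons (fin 1166 5 974)
(mv 1232 (cons (fin 1168 4 975)
(mv 1231 (cons (fin 1294 5 1038)
(fin 1296 4 1039))))))))))))))))
(cons (mv 848 (cons (fin 912 6 847)
(mv 1168 (cons (fin 1104 4 911)
(mv 846 (cons (fin 910 7 846)
(mv 1167 (cons (fin 1232 4 975)
(mv 1231 (cons (fin 976 6 975)
(mv 1230 (cons (fin 1166 5 974)
(fin 1294 5 1038)))))))))))))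
(mv 847 (cons (fin 1104 4 847)
(mv 846 (cons (fin 782 7 782)
(fin 910 7 846))))))))
(cons (mv 1167 (cons (mv 976 (cons (fin 912 6 911)
(fin 1231 6 975)))
(cons (mv 1230 (cons (fin 1166 5 974)
(mv 1232 (cons (fin 1168 4 975)
(mv 1231 (cons (fin 1294 5 1038)
(fin 1296 4 1039)))))))
(mv 1166 (cons (fin 1230 5 974)
(mv 976 (cons (fin 912 6 911)
(mv 1168 (cons (fin 1232 4 975)
(mv 1169 (cons (cons (mv 1233 (cons (fin 1234 0 1166)
(fin 1104 4 976)))
(mv 1106 (cons (fin 1105 2 1102)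
(mv 1170 (cons (fin 1107 2 1103)
(mv 1171 (cons (fin 1104 3 1103)
(mv 1235 (cons (fin 1234 0 1167)
(fin 1236 0 1168))))))))))
(cons (mv 1106 (cons (fin 1105 2 1102)
(mv 1234 (cons (fin 1233 0 1166)
(mv 1170 (cons (fin 1107 2 1103)
(fin 1235 0 1167)))))))
(mv 1106 (cons (fin 1105 2 1102)
(mv 1104 (cons (fin 1233 4 976)
(mv 1170 (cons (fin 1171 3 1103)
(fin 1107 2 1103)))))))))))))))))))
(mv 911 (cons (mv 1104 (cons (fin 847 4 847)
(fin 1168 4 911)))
(cons (mv 846 (cons (fin 910 7 846)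
(mv 847 (cons (fin 782 7 782)
(mv 848 (cons (fin 784 6 783)
(fin 912 6 847)))))))
(mv 910 (cons (fin 846 7 846)
(mv 1104 (cons (fin 1168 4 911)
(mv 912 (cons (fin 848 6 847)
(mv 913 (cons (cons (mv 849 (cons (fin 850 2 846)
(fin 976 6 848)))
(mv 978 (cons (fin 977 0 910)
(mv 914 (cons (fin 979 0 911)
(mv 851 (cons (fin 850 2 847)
(mv 915 (cons (fin 976 1 911)
(fin 852 2 848))))))))))
(cons (mv 978 (cons (fin 977 0 910)
(mv 850 (cons (fin 849 2 846)
(mv 914 (cons (fin 851 2 847)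
(fin 979 0 911)))))))
(mv 978 (cons (fin 977 0 910)
(mv 976 (cons (fin 849 6 848)
(mv 914 (cons (fin 915 1 911)
(fin 979 0 911)))))))))))))))))))))
(cons (cons (mv 1167 (cons (cons (mv 1166 (cons (fin 1230 5 974)
(mv 1168 (cons (fin 1232 4 975)
(mv 911 (cons (fin 1104 4 911)
(mv 848 (cons (fin 912 6 847)
(mv 847 (cons (fin 784 6 783)
(mv 846 (cons (fin 782 7 782)
(fin 910 7 846)))))))))))))
(mv 1230 (cons (fin 1166 5 974)
(mv 1231 (cons (fin 1294 5 1038)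
(mv 1295 (cons (fin 1104 6 1039)
(mv 1296 (cons (fin 1232 4 1039)
(fin 1360 4 1103))))))))))
(cons (mv 1230 (cons (fin 1166 5 974)
(mv 1231 (cons (fin 1294 5 1038)
(mv 1104 (cons (fin 1295 6 1039)
(mv 911 (cons (fin 847 4 847)
(fin 1168 4 911)))))))))
(cons (mv 1168 (cons (fin 1232 4 975)
(mv 911 (cons (fin 1104 4 911)
(mv 848 (cons (fin 912 6 847)
(mv 847 (cons (fin 784 6 783)
(mv 846 (cons (fin 782 7 782)
(fin 910 7 846)))))))))))
(mv 1230 (cons (fin 1166 5 974)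
(mv 1232 (cons (fin 1168 4 975)
(mv 1231 (cons (fin 1294 5 1038)
(fin 1296 4 1039)))))))))))
(mv 911 (cons (cons (mv 846 (cons (fin 910 7 846)
(mv 782 (cons (fin 847 7 782)
(mv 912 (cons (fin 848 6 847)
(mv 1167 (cons (fin 976 6 911)
(mv 1230 (cons (fin 1166 5 974)
(mv 1232 (cons (fin 1168 4 975)
(mv 1231 (cons (fin 1294 5 1038)
(fin 1296 4 1039)))))))))))))))
(mv 846 (cons (fin 910 7 846)
(mv 847 (cons (fin 782 7 782)
(mv 784 (cons (fin 848 6 783)
(mv 783 (cons (fin 720 6 719)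
(fin 976 4 783))))))))))
(cons (mv 846 (cons (fin 910 7 846)
(mv 847 (cons (fin 782 7 782)
(mv 976 (cons (fin 783 4 783)
(mv 1167 (cons (fin 912 6 911)
(fin 1231 6 975)))))))))
(cons (mv 912 (cons (fin 848 6 847)
(mv 1167 (cons (fin 976 6 911)
(mv 1230 (cons (fin 1166 5 974)
(mv 1232 (cons (fin 1168 4 975)
(mv 1231 (cons (fin 1294 5 1038)
(fin 1296 4 1039)))))))))))
(mv 848 (cons (fin 912 6 847)
(mv 847 (cons (fin 784 6 783)
(mv 846 (cons (fin 782 7 782)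
(fin 910 7 846))))))))))))
(cons (mv 911 (cons (mv 1104 (cons (fin 847 4 847)
(fin 1168 4 911)))
(cons (mv 846 (cons (fin 910 7 846)
(mv 847 (cons (fin 782 7 782)
(mv 784 (cons (fin 848 6 783)
(mv 783 (cons (fin 720 6 719)
(fin 976 4 783)))))))))
(mv 846 (cons (fin 910 7 846)
(mv 1168 (cons (fin 1104 4 911)
(mv 1167 (cons (fin 1232 4 975)
(mv 1231 (cons (fin 976 6 975)
(mv 1230 (cons (fin 1166 5 974)
(fin 1294 5 1038))))))))))))))
(mv 1167 (cons (mv 976 (cons (fin 912 6 911)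
(fin 1231 6 975)))
(cons (mv 1230 (cons (fin 1166 5 974)
(mv 1231 (cons (fin 1294 5 1038)
(mv 1295 (cons (fin 1104 6 1039)
(mv 1296 (cons (fin 1232 4 1039)
(fin 1360 4 1103)))))))))
(mv 1166 (cons (fin 1230 5 974)
(mv 912 (cons (fin 976 6 911)
(mv 911 (cons (fin 848 6 847)
(mv 846 (cons (fin 910 7 846)
(mv 847 (cons (fin 782 7 782)
(fin 1104 4 847)))))))))))))))))))
(cons (mv 1039 (cons (cons (mv 1102 (cons (fin 1100 2 1036)
(mv 911 (cons (fin 1166 5 910)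
(mv 846 (cons (fin 910 7 846)
(mv 847 (cons (fin 782 7 782)
(mv 848 (cons (fin 784 6 783)
(fin 912 6 847)))))))))))
(mv 911 (cons (cons (mv 846 (cons (fin 910 7 846)
(mv 782 (cons (fin 847 7 782)
(mv 912 (cons (fin 848 6 847)
(mv 1167 (cons (fin 976 6 911)
(mv 1230 (cons (fin 1166 5 974)
(mv 1232 (cons (fin 1168 4 975)
(mv 1231 (cons (fin 1294 5 1038)
(fin 1296 4 1039)))))))))))))))
(mv 846 (cons (fin 910 7 846)
(mv 847 (cons (fin 782 7 782)
(mv 784 (cons (fin 848 6 783)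
(mv 783 (cons (fin 720 6 719)
(fin 976 4 783))))))))))
(cons (mv 846 (cons (fin 910 7 846)
(mv 847 (cons (fin 782 7 782)
(mv 976 (cons (fin 783 4 783)
(mv 1167 (cons (fin 912 6 911)
(fin 1231 6 975)))))))))
(cons (mv 912 (cons (fin 848 6 847)
(mv 1167 (cons (fin 976 6 911)
(mv 1230 (cons (fin 1166 5 974)
(mv 1232 (cons (fin 1168 4 975)
(mv 1231 (cons (fin 1294 5 1038)
(fin 1296 4 1039)))))))))))
(mv 848 (cons (fin 912 6 847)
(mv 847 (cons (fin 784 6 783)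
(mv 846 (cons (fin 782 7 782)
(fin 910 7 846))))))))))))
(cons (mv 1102 (cons (fin 1100 2 1036)
(mv 1167 (cons (mv 976 (cons (fin 912 6 911)
(fin 1231 6 975)))
(mv 1166 (cons (fin 1230 5 974)
(mv 1168 (cons (fin 1169 3 1101)
(fin 1232 4 975)))))))))
(cons (mv 1102 (cons (fin 1100 2 1036)
(mv 911 (cons (fin 1166 5 910)
(mv 846 (cons (fin 910 7 846)
(mv 847 (cons (fin 782 7 782)
(mv 784 (cons (fin 848 6 783)
(mv 783 (cons (fin 720 6 719)
(fin 976 4 783)))))))))))))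
(mv 1100 (cons (fin 1102 2 1036)
(mv 1164 (cons (fin 1228 6 972)
(mv 911 (cons (cons (mv 846 (cons (fin 910 7 846)
(mv 847 (cons (fin 782 7 782)
(mv 848 (cons (fin 784 6 783)
(fin 912 6 847)))))))
(mv 846 (cons (fin 910 7 846)
(mv 847 (cons (fin 782 7 782)
(mv 784 (cons (fin 848 6 783)
(mv 783 (cons (fin 720 6 719)
(fin 976 4 783))))))))))
(cons (mv 846 (cons (fin 910 7 846)
(mv 847 (cons (fin 782 7 782)
(mv 783 (cons (fin 976 4 783)
(mv 784 (cons (fin 720 6 719)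
(mv 844 (cons (fin 845 2 780)
(mv 972 (cons (fin 908 4 844)
(mv 971 (cons (fin 907 7 907)
(mv 970 (cons (fin 1033 1 969)
(fin 969 0 969)))))))))))))))))
(cons (mv 847 (cons (mv 848 (cons (fin 784 6 783)
(fin 912 6 847)))
(cons (mv 783 (cons (fin 976 4 783)
(mv 720 (cons (fin 784 6 719)
(mv 719 (cons (fin 656 6 655)
(mv 718 (cons (fin 654 7 654)
(fin 782 7 718)))))))))
(mv 976 (cons (fin 783 4 783)
(mv 912 (cons (fin 848 5 847)
(fin 1167 6 911))))))))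
(mv 912 (cons (fin 848 6 847)
(mv 910 (cons (fin 846 7 846)
(mv 976 (cons (fin 1167 6 911)
(mv 913 (cons (mv 977 (cons (fin 978 3 910)
(mv 849 (cons (fin 850 2 846)
(fin 785 5 784)))))
(cons (mv 850 (cons (fin 849 2 846)
(mv 914 (cons (fin 915 1 911)
(fin 851 2 847)))))
(mv 914 (cons (fin 915 1 911)
(mv 978 (cons (fin 977 3 910)
(fin 979 0 911))))))))))))))))))))))))))
(cons (mv 1104 (cons (fin 1102 3 1036)
(mv 976 (cons (cons (mv 911 (cons (fin 1168 7 911)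
(mv 912 (cons (fin 847 7 847)
(fin 1167 5 911)))))
(mv 1168 (cons (fin 911 7 911)
(mv 1231 (cons (fin 1167 5 975)
(mv 1233 (cons (fin 1169 4 976)
(mv 1232 (cons (fin 1295 5 1039)
(fin 1297 4 1040))))))))))
(cons (mv 912 (cons (fin 1167 5 911)
(mv 847 (cons (fin 911 7 847)
(mv 848 (cons (fin 783 7 783)
(mv 849 (cons (fin 785 6 784)
(fin 913 6 848)))))))))
(cons (mv 912 (cons (fin 1167 5 911)
(mv 913 (cons (fin 849 6 848)
(mv 1169 (cons (fin 1105 4 912)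
(mv 1168 (cons (fin 977 6 912)
(fin 1233 4 976)))))))))
(mv 911 (cons (fin 1168 7 911)
(mv 847 (cons (fin 912 7 847)
(fin 783 4 783)))))))))))
(mv 1102 (cons (fin 1104 3 1036)
(mv 1100 (cons (fin 1039 2 1036)
(mv 1164 (cons (fin 1163 1 1099)
(fin 1228 6 972))))))))))))
(cons (mv 972 (cons (mv 974 (cons (fin 1039 0 972)
(mv 908 (cons (fin 907 3 907)
(fin 844 4 844)))))
(cons (mv 974 (cons (fin 1039 0 972)
(mv 911 (cons (fin 912 2 908)
(mv 971 (cons (fin 910 2 907)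
(mv 970 (cons (fin 1033 1 969)
(fin 969 0 969)))))))))
(mv 908 (cons (fin 844 4 844)
(mv 970 (cons (cons (mv 971 (cons (fin 1033 1 969)
(fin 969 0 969)))
(mv 906 (cons (cons (mv 905 (cons (fin 907 0 905)
(mv 841 (cons (fin 1098 7 841)
(mv 777 (cons (fin 842 7 777)
(fin 713 4 713)))))))
(mv 842 (cons (cons (mv 777 (cons (fin 841 7 777)
(mv 778 (cons (fin 713 7 713)
(mv 1033 (cons (fin 969 5 777)
(fin 1097 5 841)))))))
(mv 779 (cons (fin 843 6 778)
(mv 778 (cons (fin 715 6 714)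
(mv 1033 (cons (fin 969 5 777)
(fin 1097 5 841))))))))
(cons (mv 777 (cons (fin 841 7 777)
(mv 778 (cons (fin 713 7 713)
(mv 779 (cons (fin 715 6 714)
(fin 843 6 778)))))))
(mv 779 (cons (fin 843 6 778)
(mv 1097 (cons (fin 1033 5 841)
(mv 841 (cons (fin 777 7 777)
(mv 1098 (cons (fin 905 7 841)
(fin 1161 5 905)))))))))))))
(cons (mv 842 (cons (cons (mv 777 (cons (fin 841 7 777)
(mv 713 (cons (fin 778 7 713)
(mv 843 (cons (fin 779 6 778)
(mv 907 (cons (fin 1100 7 843)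
(fin 1098 6 842)))))))))
(mv 1033 (cons (fin 1097 5 841)
(mv 778 (cons (fin 969 5 777)
(mv 777 (cons (fin 713 7 713)
(fin 841 7 777))))))))
(cons (mv 779 (cons (fin 843 6 778)
(mv 778 (cons (fin 715 6 714)
(mv 1033 (cons (fin 969 5 777)
(fin 1097 5 841)))))))
(mv 1033 (cons (fin 1097 5 841)
(mv 777 (cons (fin 841 7 777)
(mv 843 (cons (fin 779 6 778)
(mv 907 (cons (fin 1100 7 843)
(fin 1098 6 842))))))))))))
(cons (mv 905 (cons (fin 907 0 905)
(mv 841 (cons (fin 1098 7 841)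
(mv 777 (cons (fin 713 4 713)
(fin 969 4 777)))))))
(mv 907 (cons (fin 905 0 905)
(mv 843 (cons (fin 1100 7 843)
(mv 779 (cons (fin 715 5 714)
(fin 842 6 778))))))))))))
(cons (mv 971 (cons (fin 1033 1 969)
(mv 906 (cons (fin 905 3 905)
(mv 842 (cons (cons (mv 777 (cons (fin 841 7 777)
(mv 713 (cons (fin 778 7 713)
(mv 843 (cons (fin 779 6 778)
(mv 907 (cons (fin 1100 7 843)
(fin 1098 6 842)))))))))
(mv 777 (cons (fin 841 7 777)
(mv 778 (cons (fin 713 7 713)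
(mv 715 (cons (fin 779 6 714)
(mv 714 (cons (fin 651 6 650)
(fin 907 4 714))))))))))
(cons (mv 777 (cons (fin 841 7 777)
(mv 778 (cons (fin 713 7 713)
(mv 907 (cons (fin 714 4 714)
(mv 1100 (cons (fin 843 7 843)
(fin 1164 7 907)))))))))
(cons (mv 843 (cons (fin 779 6 778)
(mv 907 (cons (fin 1100 7 843)
(fin 1098 6 842)))))
(mv 779 (cons (fin 843 6 778)
(mv 778 (cons (fin 715 6 714)
(mv 777 (cons (fin 713 7 713)
(fin 841 7 777)))))))))))))))
(mv 971 (cons (fin 969 0 969)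
(mv 906 (cons (fin 905 3 905)
(mv 842 (cons (cons (mv 777 (cons (fin 841 7 777)
(mv 713 (cons (fin 778 7 713)
(mv 843 (cons (fin 779 6 778)
(mv 907 (cons (fin 1100 7 843)
(fin 1098 6 842)))))))))
(mv 777 (cons (fin 841 7 777)
(mv 778 (cons (fin 713 7 713)
(mv 715 (cons (fin 779 6 714)
(mv 714 (cons (fin 651 6 650)
(fin 907 4 714))))))))))
(cons (mv 777 (cons (fin 841 7 777)
(mv 778 (cons (fin 713 7 713)
(mv 907 (cons (fin 714 4 714)
(mv 1100 (cons (fin 843 7 843)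
(fin 1164 7 907)))))))))
(cons (mv 843 (cons (fin 779 6 778)
(mv 907 (cons (fin 1100 7 843)
(fin 1098 6 842)))))
(mv 779 (cons (fin 843 6 778)
(mv 778 (cons (fin 715 6 714)
(mv 777 (cons (fin 713 7 713)
(fin 841 7 777)))))))))))))))))))))))
(cons (mv 976 (cons (fin 974 1 972)
(mv 1104 (cons (cons (mv 1102 (cons (fin 1103 3 1036)
(mv 911 (cons (fin 1168 7 911)
(mv 847 (cons (fin 912 7 847)
(fin 783 4 783)))))))
(mv 1103 (cons (fin 1102 3 1036)
(mv 912 (cons (fin 1167 5 911)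
(mv 848 (cons (fin 1039 5 847)
(mv 849 (cons (fin 785 6 784)
(fin 913 6 848))))))))))
(cons (mv 911 (cons (fin 1168 7 911)
(mv 847 (cons (fin 912 7 847)
(fin 783 4 783)))))
(mv 911 (cons (fin 1168 7 911)
(mv 847 (cons (fin 783 4 783)
(fin 1039 4 847))))))))))
(mv 974 (cons (fin 976 1 972)
(mv 972 (cons (mv 908 (cons (fin 907 3 907)
(fin 844 4 844)))
(mv 911 (cons (fin 912 2 908)
(mv 971 (cons (fin 910 2 907)
(mv 970 (cons (fin 1033 1 969)
(fin 969 0 969))))))))))))))))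
(cons (mv 1035 (cons (fin 1102 0 1034)
(mv 1033 (cons (fin 972 2 969)
(fin 1100 0 1033)))))
(mv 974 (cons (fin 1035 2 970)
(mv 975 (cons (fin 976 1 972)
(mv 972 (cons (fin 1039 0 972)
(mv 908 (cons (fin 907 3 907)
(fin 844 4 844))))))))))))))
(cons (cons (mv 1035 (cons (mv 1036 (cons (fin 974 2 970)
(fin 1102 0 1034)))
(cons (mv 971 (cons (cons (mv 972 (cons (fin 974 1 970)
(mv 1033 (cons (fin 970 1 969)
(fin 1032 2 968)))))
(mv 1099 (cons (cons (mv 907 (cons (mv 1098 (cons (fin 843 5 842)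
(fin 1162 5 906)))
(cons (mv 842 (cons (fin 906 7 842)
(mv 843 (cons (fin 778 7 778)
(mv 844 (cons (fin 780 6 779)
(fin 908 6 843)))))))
(mv 844 (cons (fin 908 6 843)
(mv 1098 (cons (fin 1162 5 906)
(mv 906 (cons (fin 842 7 842)
(mv 970 (cons (fin 1163 7 906)
(mv 1097 (cons (fin 1161 5 905)
(mv 1095 (cons (fin 1096 2 1031)
(mv 905 (cons (fin 841 7 841)
(mv 904 (cons (fin 903 0 903)
(mv 968 (cons (fin 967 1 903)
(mv 840 (cons (fin 839 3 839)
(mv 1032 (cons (fin 1031 5 839)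
(fin 1033 4 840))))))))))))))))))))))))))
(cons (mv 1163 (cons (mv 970 (cons (fin 906 7 906)
(fin 1227 7 970)))
(cons (mv 1228 (cons (fin 1164 4 971)
(mv 1226 (cons (fin 1162 5 970)
(mv 1227 (cons (fin 1290 5 1034)
(fin 1292 4 1035)))))))
(mv 1164 (cons (fin 1228 4 971)
(mv 970 (cons (fin 906 7 906)
(mv 1162 (cons (fin 1226 5 970)
(mv 1161 (cons (cons (mv 1225 (cons (fin 1224 1 1160)
(fin 1098 5 969)))
(mv 1096 (cons (fin 1097 3 1096)
(mv 1160 (cons (fin 1095 3 1095)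
(mv 1223 (cons (fin 1224 1 1159)
(mv 1159 (cons (fin 1222 1 1158)
(fin 1098 2 1095))))))))))
(cons (mv 1096 (cons (fin 1097 3 1096)
(mv 1160 (cons (fin 1095 3 1095)
(mv 1224 (cons (fin 1223 1 1159)
(fin 1225 1 1160)))))))
(mv 1098 (cons (fin 1225 5 969)
(mv 905 (cons (fin 969 7 905)
(mv 1096 (cons (fin 1097 3 1096)
(mv 1160 (cons (fin 1095 3 1095)
(fin 1159 2 1095)))))))))))))))))))))
(mv 907 (cons (mv 1098 (cons (fin 843 5 842)
(fin 1162 5 906)))
(cons (mv 842 (cons (fin 906 7 842)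
(mv 843 (cons (fin 778 7 778)
(mv 844 (cons (fin 780 6 779)
(fin 908 6 843)))))))
(mv 906 (cons (fin 842 7 842)
(mv 908 (cons (fin 844 6 843)
(mv 1098 (cons (fin 1162 5 906)
(mv 905 (cons (cons (mv 841 (cons (fin 840 3 840)
(fin 970 7 841)))
(mv 968 (cons (fin 969 1 904)
(mv 904 (cons (fin 967 1 903)
(mv 839 (cons (fin 840 3 839)
(mv 903 (cons (fin 838 3 838)
(fin 970 0 903))))))))))
(cons (mv 968 (cons (fin 969 1 904)
(mv 904 (cons (fin 967 1 903)
(mv 840 (cons (fin 839 3 839)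
(fin 841 3 840)))))))
(mv 841 (cons (fin 970 7 841)
(mv 969 (cons (fin 968 1 904)
(fin 1033 4 841)))))))))))))))))))
(cons (cons (mv 1163 (cons (cons (mv 1164 (cons (fin 1228 4 971)
(mv 1162 (cons (fin 1226 5 970)
(mv 907 (cons (fin 1098 5 906)
(mv 844 (cons (fin 908 6 843)
(mv 843 (cons (fin 780 6 779)
(mv 842 (cons (fin 778 7 778)
(fin 906 7 842)))))))))))))
(mv 1228 (cons (fin 1164 4 971)
(mv 1227 (cons (fin 1292 4 1035)
(mv 1290 (cons (fin 1226 5 1034)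
(mv 1291 (cons (fin 1098 7 1034)
(fin 1354 5 1098))))))))))
(cons (mv 1228 (cons (fin 1164 4 971)
(mv 1227 (cons (fin 1292 4 1035)
(mv 1098 (cons (fin 1291 7 1034)
(mv 907 (cons (fin 843 5 842)
(fin 1162 5 906)))))))))
(cons (mv 1162 (cons (fin 1226 5 970)
(mv 907 (cons (fin 1098 5 906)
(mv 844 (cons (fin 908 6 843)
(mv 843 (cons (fin 780 6 779)
(mv 842 (cons (fin 778 7 778)
(fin 906 7 842)))))))))))
(mv 1228 (cons (fin 1164 4 971)
(mv 1226 (cons (fin 1162 5 970)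
(mv 1227 (cons (fin 1290 5 1034)
(fin 1292 4 1035)))))))))))
(mv 907 (cons (cons (mv 842 (cons (fin 906 7 842)
(mv 843 (cons (fin 778 7 778)
(mv 844 (cons (fin 780 6 779)
(fin 908 6 843)))))))
(mv 844 (cons (fin 908 6 843)
(mv 843 (cons (fin 780 6 779)
(mv 779 (cons (fin 970 5 778)
(mv 778 (cons (fin 714 7 714)
(fin 842 7 778))))))))))
(cons (mv 844 (cons (fin 908 6 843)
(mv 843 (cons (fin 780 6 779)
(mv 970 (cons (fin 779 5 778)
(mv 1163 (cons (fin 906 7 906)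
(fin 1227 7 970)))))))))
(mv 906 (cons (fin 842 7 842)
(mv 1163 (cons (fin 970 7 906)
(mv 1228 (cons (fin 1164 4 971)
(mv 1226 (cons (fin 1162 5 970)
(mv 1227 (cons (fin 1290 5 1034)
(fin 1292 4 1035)))))))))))))))
(cons (mv 907 (cons (mv 1098 (cons (fin 843 5 842)
(fin 1162 5 906)))
(cons (mv 844 (cons (fin 908 6 843)
(mv 843 (cons (fin 780 6 779)
(mv 779 (cons (fin 970 5 778)
(mv 778 (cons (fin 714 7 714)
(fin 842 7 778)))))))))
(mv 844 (cons (fin 908 6 843)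
(mv 1162 (cons (fin 1098 5 906)
(mv 1163 (cons (fin 1226 5 970)
(mv 1227 (cons (fin 970 7 970)
(mv 1228 (cons (fin 1164 4 971)
(fin 1292 4 1035))))))))))))))
(mv 1163 (cons (mv 970 (cons (fin 906 7 906)
(fin 1227 7 970)))
(cons (mv 1228 (cons (fin 1164 4 971)
(mv 1227 (cons (fin 1292 4 1035)
(mv 1290 (cons (fin 1226 5 1034)
(mv 1291 (cons (fin 1098 7 1034)
(fin 1354 5 1098)))))))))
(mv 1164 (cons (fin 1228 4 971)
(mv 906 (cons (fin 970 7 906)
(mv 907 (cons (fin 842 7 842)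
(mv 843 (cons (fin 1098 5 842)
(mv 844 (cons (fin 780 6 779)
(fin 908 6 843)))))))))))))))))))
(cons (mv 972 (cons (fin 974 1 970)
(mv 1099 (cons (cons (mv 908 (cons (fin 1163 6 907)
(mv 844 (cons (fin 780 5 779)
(fin 907 6 843)))))
(mv 907 (cons (mv 1098 (cons (fin 843 5 842)
(fin 1162 5 906)))
(cons (mv 842 (cons (fin 906 7 842)
(mv 843 (cons (fin 778 7 778)
(mv 844 (cons (fin 780 6 779)
(fin 908 6 843)))))))
(mv 844 (cons (fin 908 6 843)
(mv 1098 (cons (fin 1162 5 906)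
(mv 906 (cons (fin 842 7 842)
(mv 905 (cons (fin 970 3 905)
(fin 904 0 904)))))))))))))
(cons (mv 970 (cons (mv 906 (cons (fin 905 3 905)
(fin 1163 7 906)))
(cons (mv 1163 (cons (fin 1227 7 970)
(mv 1162 (cons (fin 1226 5 970)
(mv 1098 (cons (fin 907 5 906)
(mv 1164 (cons (fin 1228 4 971)
(mv 1096 (cons (fin 1097 0 1096)
(mv 1161 (cons (fin 1225 5 969)
(mv 1160 (cons (fin 1095 3 1095)
(fin 1159 2 1095)))))))))))))))
(mv 906 (cons (fin 905 3 905)
(fin 842 4 842))))))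
(mv 1163 (cons (fin 908 6 907)
(mv 970 (cons (fin 906 7 906)
(fin 1227 7 970))))))))))
(mv 972 (cons (fin 974 1 970)
(mv 1032 (cons (fin 1033 2 968)
(mv 1099 (cons (cons (mv 908 (cons (fin 1163 6 907)
(mv 844 (cons (fin 780 5 779)
(fin 907 6 843)))))
(mv 1163 (cons (cons (mv 1162 (cons (fin 1226 5 970)
(mv 1098 (cons (fin 907 5 906)
(mv 1228 (cons (fin 1164 4 971)
(mv 1227 (cons (fin 1291 7 1034)
(fin 1292 4 1035)))))))))
(cons (mv 1228 (cons (fin 1164 4 971)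
(mv 1227 (cons (fin 1292 4 1035)
(mv 1290 (cons (fin 1226 5 1034)
(mv 1291 (cons (fin 1098 7 1034)
(fin 1354 5 1098)))))))))
(mv 1228 (cons (fin 1164 4 971)
(mv 1227 (cons (fin 1292 4 1035)
(mv 1098 (cons (fin 1291 7 1034)
(mv 907 (cons (fin 843 5 842)
(fin 1162 5 906)))))))))))
(cons (mv 1227 (cons (mv 1226 (cons (fin 1162 5 970)
(fin 1290 5 1034)))
(cons (mv 1098 (cons (fin 1291 7 1034)
(mv 907 (cons (fin 843 5 842)
(fin 1162 5 906)))))
(mv 1291 (cons (fin 1098 7 1034)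
(mv 1290 (cons (fin 1226 5 1034)
(fin 1354 5 1098))))))))
(cons (mv 1226 (cons (fin 1162 5 970)
(mv 1228 (cons (fin 1164 4 971)
(mv 1227 (cons (fin 1290 5 1034)
(fin 1292 4 1035)))))))
(mv 1162 (cons (fin 1226 5 970)
(mv 1098 (cons (fin 907 5 906)
(mv 1164 (cons (fin 1228 4 971)
(mv 1161 (cons (cons (mv 1096 (cons (fin 1097 3 1096)
(mv 1160 (cons (fin 1095 3 1095)
(fin 1159 2 1095)))))
(mv 1159 (cons (fin 1160 2 1095)
(mv 1225 (cons (fin 1224 1 1160)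
(mv 1289 (cons (fin 1097 6 1033)
(fin 1353 6 1097))))))))
(cons (mv 1224 (cons (fin 1225 1 1160)
(mv 1160 (cons (fin 1223 1 1159)
(fin 1159 2 1095)))))
(mv 1097 (cons (fin 1096 3 1096)
(mv 1225 (cons (fin 1224 1 1160)
(fin 1289 6 1033)))))))))))))))))))
(cons (mv 907 (cons (mv 1098 (cons (fin 843 5 842)
(fin 1162 5 906)))
(cons (mv 842 (cons (fin 906 7 842)
(mv 843 (cons (fin 778 7 778)
(mv 844 (cons (fin 780 6 779)
(fin 908 6 843)))))))
(mv 908 (cons (fin 844 6 843)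
(mv 906 (cons (fin 905 0 905)
(fin 842 7 842))))))))
(mv 1163 (cons (fin 908 6 907)
(mv 1226 (cons (fin 1162 5 970)
(mv 1228 (cons (fin 1164 4 971)
(mv 1227 (cons (fin 1290 5 1034)
(fin 1292 4 1035)))))))))))))))))))
(mv 1036 (cons (fin 1102 0 1034)
(mv 972 (cons (fin 1033 2 969)
(mv 1097 (cons (fin 1098 1 1033)
(mv 970 (cons (fin 969 3 969)
(mv 908 (cons (fin 844 4 844)
(mv 906 (cons (mv 905 (cons (fin 971 3 905)
(fin 907 0 905)))
(cons (mv 842 (cons (fin 1099 4 842)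
(mv 778 (cons (fin 971 4 778)
(mv 779 (cons (fin 715 6 714)
(fin 843 6 778)))))))
(mv 842 (cons (fin 1099 4 842)
(mv 779 (cons (fin 843 6 778)
(mv 778 (cons (fin 715 6 714)
(mv 777 (cons (fin 713 7 713)
(fin 841 7 777)))))))))))))))))))))))))
(mv 1035 (cons (cons (mv 1036 (cons (fin 974 2 970)
(mv 1033 (cons (fin 972 2 969)
(fin 1100 0 1033)))))
(cons (mv 971 (cons (cons (mv 972 (cons (fin 974 1 970)
(mv 1033 (cons (fin 970 1 969)
(fin 1032 2 968)))))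
(mv 1098 (cons (cons (mv 907 (cons (fin 843 5 842)
(mv 1162 (cons (fin 1099 5 906)
(fin 970 6 906)))))
(mv 907 (cons (fin 843 5 842)
(mv 1099 (cons (mv 1100 (cons (fin 1033 3 1033)
(fin 1164 4 907)))
(cons (mv 844 (cons (fin 908 6 843)
(mv 906 (cons (fin 842 7 842)
(mv 970 (cons (fin 1163 7 906)
(mv 905 (cons (fin 841 7 841)
(mv 1097 (cons (fin 1161 5 905)
(mv 1095 (cons (fin 1096 2 1031)
(mv 904 (cons (fin 903 0 903)
(mv 968 (cons (fin 967 1 903)
(mv 840 (cons (fin 839 3 839)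
(mv 1032 (cons (fin 1031 5 839)
(fin 1033 4 840)))))))))))))))))))))
(mv 842 (cons (fin 906 7 842)
(mv 1164 (cons (fin 1100 4 907)
(mv 844 (cons (fin 908 6 843)
(mv 1163 (cons (fin 1228 4 971)
(mv 1227 (cons (fin 970 7 970)
(fin 1291 7 1034)))))))))))))))))
(cons (mv 1162 (cons (fin 1226 6 970)
(mv 970 (cons (cons (mv 905 (cons (fin 969 7 905)
(mv 841 (cons (fin 906 7 841)
(mv 1163 (cons (fin 1227 4 970)
(mv 1161 (cons (fin 1225 5 969)
(mv 1100 (cons (fin 1099 1 1097)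
(fin 1164 2 1097)))))))))))
(mv 1161 (cons (fin 1225 5 969)
(mv 906 (cons (fin 1097 5 905)
(mv 905 (cons (fin 841 7 841)
(fin 969 7 905))))))))
(cons (mv 905 (cons (fin 969 7 905)
(mv 906 (cons (fin 841 7 841)
(mv 1163 (cons (fin 1099 7 906)
(fin 1227 4 970)))))))
(cons (mv 1163 (cons (fin 1227 4 970)
(mv 906 (cons (fin 1099 7 906)
(mv 1161 (cons (fin 1097 5 905)
(fin 1225 5 969)))))))
(mv 1161 (cons (fin 1225 5 969)
(mv 1099 (cons (fin 1100 1 1097)
(mv 1163 (cons (fin 1227 7 970)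
(mv 1159 (cons (fin 1160 2 1095)
(mv 969 (cons (fin 905 7 905)
(mv 1164 (cons (fin 1228 4 971)
(mv 1096 (cons (fin 1097 3 1096)
(mv 968 (cons (fin 967 0 967)
(mv 1032 (cons (fin 1031 1 967)
(mv 904 (cons (fin 903 3 903)
(fin 1095 5 903)))))))))))))))))))))))))))
(cons (mv 1162 (cons (fin 1226 6 970)
(mv 907 (cons (fin 843 5 842)
(fin 970 6 906)))))
(mv 1162 (cons (fin 1226 6 970)
(mv 907 (cons (fin 843 5 842)
(fin 1099 5 906))))))))))
(cons (mv 972 (cons (fin 974 1 970)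
(mv 1098 (cons (cons (mv 1162 (cons (fin 1226 6 970)
(mv 907 (cons (fin 843 5 842)
(fin 1099 5 906)))))
(mv 1162 (cons (fin 1226 6 970)
(mv 970 (cons (mv 905 (cons (fin 906 3 905)
(fin 969 7 905)))
(cons (mv 1163 (cons (fin 1227 4 970)
(mv 1099 (cons (fin 906 7 906)
(fin 908 6 907)))))
(mv 1161 (cons (fin 1225 5 969)
(mv 1099 (cons (fin 1100 1 1097)
(mv 1163 (cons (fin 1227 7 970)
(fin 908 6 907)))))))))))))
(cons (mv 907 (cons (fin 843 5 842)
(mv 906 (cons (mv 905 (cons (fin 970 3 905)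
(fin 904 0 904)))
(cons (mv 842 (cons (fin 1099 7 842)
(mv 778 (cons (fin 714 4 714)
(fin 970 4 778)))))
(mv 905 (cons (fin 904 0 904)
(fin 908 0 905))))))))
(mv 907 (cons (fin 843 5 842)
(mv 1162 (cons (fin 970 6 906)
(fin 1226 6 970))))))))))
(mv 972 (cons (fin 974 1 970)
(mv 1032 (cons (fin 1033 2 968)
(mv 907 (cons (cons (mv 843 (cons (fin 1098 5 842)
(mv 778 (cons (fin 842 7 778)
(mv 779 (cons (fin 714 7 714)
(mv 780 (cons (fin 716 6 715)
(fin 844 6 779)))))))))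
(mv 1099 (cons (mv 908 (cons (fin 844 6 843)
(fin 1163 6 907)))
(cons (mv 842 (cons (fin 906 7 842)
(mv 1164 (cons (fin 1100 4 907)
(mv 1162 (cons (fin 1098 5 906)
(mv 1163 (cons (fin 1226 5 970)
(fin 1228 4 971)))))))))
(mv 1100 (cons (fin 1164 4 907)
(mv 908 (cons (fin 844 6 843)
(mv 906 (cons (fin 905 0 905)
(fin 842 7 842)))))))))))
(cons (mv 906 (cons (mv 905 (cons (fin 904 0 904)
(fin 908 0 905)))
(mv 842 (cons (fin 1099 7 842)
(mv 778 (cons (fin 843 7 778)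
(fin 714 4 714)))))))
(mv 843 (cons (fin 1098 5 842)
(mv 780 (cons (fin 844 6 779)
(mv 779 (cons (fin 716 6 715)
(mv 714 (cons (fin 778 7 714)
(mv 715 (cons (fin 650 7 650)
(fin 908 4 715)))))))))))))))))))))
(mv 1036 (cons (cons (mv 1033 (cons (fin 972 2 969)
(fin 1100 0 1033)))
(mv 970 (cons (fin 969 3 969)
(mv 1098 (cons (fin 1097 1 1033)
(mv 906 (cons (cons (mv 1099 (cons (fin 842 4 842)
(fin 1163 4 906)))
(mv 841 (cons (fin 905 7 841)
(mv 777 (cons (fin 842 7 777)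
(mv 907 (cons (fin 843 6 842)
(mv 1162 (cons (fin 971 6 906)
(mv 1225 (cons (fin 1161 5 969)
(mv 1227 (cons (fin 1163 4 970)
(mv 1226 (cons (fin 1289 5 1033)
(fin 1291 4 1034))))))))))))))))
(cons (mv 843 (cons (fin 907 6 842)
(mv 1099 (cons (fin 1163 4 906)
(mv 905 (cons (fin 841 7 841)
(mv 971 (cons (fin 972 3 905)
(mv 903 (cons (fin 904 0 903)
(mv 1162 (cons (fin 1226 6 970)
(mv 1161 (cons (fin 1100 1 1097)
(fin 1225 5 969)))))))))))))))
(mv 841 (cons (fin 905 7 841)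
(mv 842 (cons (fin 777 7 777)
(fin 1099 4 842)))))))))))))
(cons (mv 1097 (cons (fin 1098 1 1033)
(mv 1033 (cons (fin 1096 1 1032)
(fin 1100 0 1033)))))
(mv 972 (cons (fin 1033 2 969)
(mv 1097 (cons (fin 1098 1 1033)
(mv 970 (cons (fin 969 3 969)
(mv 908 (cons (fin 844 4 844)
(mv 906 (cons (mv 905 (cons (fin 971 3 905)
(fin 907 0 905)))
(cons (mv 842 (cons (fin 1099 4 842)
(mv 778 (cons (fin 971 4 778)
(mv 779 (cons (fin 715 6 714)
(fin 843 6 778)))))))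
(mv 842 (cons (fin 1099 4 842)
(mv 779 (cons (fin 843 6 778)
(mv 778 (cons (fin 715 6 714)
(mv 777 (cons (fin 713 7 713)
(fin 841 7 777)))))))))))))))))))))))))
(cons (mv 1036 (cons (fin 974 2 970)
(mv 970 (cons (fin 969 3 969)
(mv 1098 (cons (fin 1097 1 1033)
(mv 906 (cons (cons (mv 1099 (cons (fin 842 4 842)
(fin 1163 4 906)))
(mv 841 (cons (fin 905 7 841)
(mv 777 (cons (fin 842 7 777)
(mv 907 (cons (fin 843 6 842)
(mv 1162 (cons (fin 971 6 906)
(mv 1225 (cons (fin 1161 5 969)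
(mv 1227 (cons (fin 1163 4 970)
(mv 1226 (cons (fin 1289 5 1033)
(fin 1291 4 1034))))))))))))))))
(cons (mv 843 (cons (fin 907 6 842)
(mv 1099 (cons (fin 1163 4 906)
(mv 905 (cons (fin 841 7 841)
(mv 971 (cons (fin 972 3 905)
(mv 903 (cons (fin 904 0 903)
(mv 1162 (cons (fin 1226 6 970)
(mv 1161 (cons (fin 1100 1 1097)
(fin 1225 5 969)))))))))))))))
(mv 841 (cons (fin 905 7 841)
(mv 842 (cons (fin 777 7 777)
(fin 1099 4 842))))))))))))))
(cons (mv 1036 (cons (fin 974 2 970)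
(mv 1097 (cons (fin 1098 1 1033)
(mv 1033 (cons (fin 1096 1 1032)
(fin 1100 0 1033)))))))
(mv 1036 (cons (fin 974 2 970)
(mv 972 (cons (fin 1033 2 969)
(mv 1097 (cons (fin 1098 1 1033)
(mv 970 (cons (fin 969 3 969)
(mv 908 (cons (fin 844 4 844)
(mv 906 (cons (mv 905 (cons (fin 971 3 905)
(fin 907 0 905)))
(cons (mv 842 (cons (fin 1099 4 842)
(mv 778 (cons (fin 971 4 778)
(mv 779 (cons (fin 715 6 714)
(fin 843 6 778)))))))
(mv 842 (cons (fin 1099 4 842)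
(mv 779 (cons (fin 843 6 778)
(mv 778 (cons (fin 715 6 714)
(mv 777 (cons (fin 713 7 713)
(fin 841 7 777)))))))))))))))))))))))))))
(cons (mv 1035 (cons (cons (mv 1036 (cons (fin 974 2 970)
(fin 1102 0 1034)))
(mv 971 (cons (cons (mv 972 (cons (fin 974 1 970)
(mv 1033 (cons (fin 970 1 969)
(fin 1032 2 968)))))
(mv 1099 (cons (cons (mv 1100 (cons (fin 1102 3 1034)
(mv 1033 (cons (fin 1098 3 1033)
(fin 1032 0 1032)))))
(mv 907 (cons (mv 1098 (cons (fin 843 5 842)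
(fin 1162 5 906)))
(cons (mv 842 (cons (fin 906 7 842)
(mv 843 (cons (fin 778 7 778)
(mv 844 (cons (fin 780 6 779)
(fin 908 6 843)))))))
(mv 906 (cons (fin 842 7 842)
(mv 908 (cons (fin 844 6 843)
(mv 1098 (cons (fin 1162 5 906)
(mv 905 (cons (cons (mv 841 (cons (fin 840 3 840)
(fin 970 7 841)))
(mv 968 (cons (fin 969 1 904)
(mv 904 (cons (fin 967 1 903)
(mv 839 (cons (fin 840 3 839)
(mv 903 (cons (fin 838 3 838)
(fin 970 0 903))))))))))
(cons (mv 968 (cons (fin 969 1 904)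
(mv 904 (cons (fin 967 1 903)
(mv 840 (cons (fin 839 3 839)
(fin 841 3 840)))))))
(mv 841 (cons (fin 970 7 841)
(mv 969 (cons (fin 968 1 904)
(fin 1033 4 841))))))))))))))))))
(cons (mv 1100 (cons (fin 1102 3 1034)
(mv 1032 (cons (fin 1033 0 1032)
(mv 907 (cons (fin 1164 4 907)
(mv 844 (cons (fin 908 6 843)
(mv 843 (cons (fin 780 6 779)
(mv 842 (cons (fin 778 7 778)
(fin 906 7 842)))))))))))))
(mv 1100 (cons (fin 1102 3 1034)
(mv 907 (cons (fin 1164 4 907)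
(mv 1098 (cons (fin 843 5 842)
(fin 1162 5 906)))))))))))
(cons (mv 972 (cons (fin 974 1 970)
(mv 1098 (cons (cons (mv 907 (cons (fin 843 5 842)
(mv 1162 (cons (fin 1099 5 906)
(fin 970 6 906)))))
(mv 1162 (cons (fin 1226 6 970)
(mv 970 (cons (mv 905 (cons (fin 906 3 905)
(fin 969 7 905)))
(cons (mv 1161 (cons (fin 1225 5 969)
(mv 906 (cons (fin 1097 5 905)
(mv 842 (cons (fin 778 4 778)
(fin 1099 4 842)))))))
(mv 1161 (cons (fin 1225 5 969)
(mv 1099 (cons (fin 1100 1 1097)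
(mv 1159 (cons (fin 1160 2 1095)
(mv 969 (cons (fin 905 7 905)
(mv 968 (cons (fin 967 0 967)
(mv 904 (cons (fin 903 3 903)
(mv 1032 (cons (fin 1031 1 967)
(mv 1096 (cons (fin 1095 5 903)
(fin 1097 4 904)))))))))))))))))))))))
(cons (mv 907 (cons (fin 843 5 842)
(mv 906 (cons (mv 905 (cons (fin 970 3 905)
(fin 904 0 904)))
(cons (mv 842 (cons (fin 1099 7 842)
(mv 778 (cons (fin 714 4 714)
(fin 970 4 778)))))
(mv 905 (cons (fin 904 0 904)
(fin 908 0 905))))))))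
(cons (mv 907 (cons (fin 843 5 842)
(mv 1162 (cons (fin 1099 5 906)
(fin 1226 6 970)))))
(mv 1162 (cons (fin 1226 6 970)
(mv 907 (cons (fin 843 5 842)
(fin 970 6 906)))))))))))
(cons (mv 972 (cons (fin 974 1 970)
(mv 1032 (cons (fin 1033 2 968)
(mv 907 (cons (cons (mv 843 (cons (fin 1098 5 842)
(mv 778 (cons (fin 842 7 778)
(mv 714 (cons (fin 779 7 714)
(mv 844 (cons (fin 780 6 779)
(mv 1099 (cons (fin 908 6 843)
(mv 1100 (cons (fin 1102 3 1034)
(fin 1164 4 907)))))))))))))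
(mv 1099 (cons (mv 1100 (cons (fin 1102 3 1034)
(fin 1164 4 907)))
(mv 908 (cons (fin 844 6 843)
(mv 906 (cons (fin 905 0 905)
(fin 842 7 842))))))))
(cons (mv 843 (cons (fin 1098 5 842)
(mv 778 (cons (fin 842 7 778)
(mv 779 (cons (fin 714 7 714)
(mv 780 (cons (fin 716 6 715)
(fin 844 6 779)))))))))
(cons (mv 843 (cons (fin 1098 5 842)
(mv 778 (cons (fin 842 7 778)
(mv 779 (cons (fin 714 7 714)
(mv 716 (cons (fin 780 6 715)
(mv 715 (cons (fin 652 6 651)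
(fin 908 4 715)))))))))))
(mv 843 (cons (fin 1098 5 842)
(mv 780 (cons (fin 844 6 779)
(mv 779 (cons (fin 716 6 715)
(mv 714 (cons (fin 778 7 714)
(mv 715 (cons (fin 650 7 650)
(fin 908 4 715)))))))))))))))))))
(mv 972 (cons (fin 974 1 970)
(mv 970 (cons (fin 1033 1 969)
(mv 905 (cons (fin 906 3 905)
(mv 969 (cons (fin 904 3 904)
(mv 968 (cons (fin 967 0 967)
(mv 777 (cons (fin 841 4 777)
(mv 907 (cons (fin 908 2 904)
(mv 843 (cons (fin 779 5 778)
(fin 1098 5 842))))))))))))))))))))))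
(cons (mv 1036 (cons (fin 1102 0 1034)
(mv 1033 (cons (fin 972 2 969)
(fin 1100 0 1033)))))
(mv 1036 (cons (fin 974 2 970)
(mv 1033 (cons (fin 972 2 969)
(fin 1100 0 1033))))))))
(mv 1035 (cons (cons (mv 1036 (cons (fin 974 2 970)
(fin 1102 0 1034)))
(mv 971 (cons (cons (mv 972 (cons (fin 974 1 970)
(mv 1033 (cons (fin 970 1 969)
(fin 1032 2 968)))))
(mv 1098 (cons (cons (mv 907 (cons (fin 843 5 842)
(mv 1162 (cons (fin 1099 5 906)
(fin 970 6 906)))))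
(mv 907 (cons (fin 843 5 842)
(mv 1099 (cons (mv 1100 (cons (fin 1033 3 1033)
(fin 1102 3 1034)))
(cons (mv 844 (cons (fin 908 6 843)
(mv 906 (cons (fin 842 7 842)
(mv 970 (cons (fin 1163 7 906)
(mv 905 (cons (fin 841 7 841)
(mv 1097 (cons (fin 1161 5 905)
(mv 1095 (cons (fin 1096 2 1031)
(mv 904 (cons (fin 903 0 903)
(mv 968 (cons (fin 967 1 903)
(mv 840 (cons (fin 839 3 839)
(mv 1032 (cons (fin 1031 5 839)
(fin 1033 4 840)))))))))))))))))))))
(mv 906 (cons (fin 842 7 842)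
(mv 1100 (cons (fin 1102 3 1034)
(mv 970 (cons (fin 1163 7 906)
(mv 1097 (cons (fin 1161 5 905)
(mv 1095 (cons (fin 1096 2 1031)
(mv 905 (cons (fin 841 7 841)
(mv 904 (cons (fin 903 0 903)
(mv 908 (cons (fin 844 6 843)
(mv 968 (cons (fin 967 1 903)
(fin 969 1 904)))))))))))))))))))))))))
(cons (mv 1162 (cons (fin 1226 6 970)
(mv 970 (cons (cons (mv 905 (cons (fin 969 7 905)
(mv 906 (cons (fin 841 7 841)
(mv 1163 (cons (fin 1099 7 906)
(fin 1227 4 970)))))))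
(mv 905 (cons (fin 969 7 905)
(mv 906 (cons (fin 841 7 841)
(mv 1161 (cons (fin 1097 5 905)
(fin 1225 5 969))))))))
(cons (mv 1161 (cons (fin 1225 5 969)
(mv 906 (cons (fin 1097 5 905)
(mv 1163 (cons (fin 1099 7 906)
(fin 1227 4 970)))))))
(mv 1163 (cons (fin 1227 4 970)
(mv 969 (cons (fin 905 7 905)
(mv 1161 (cons (fin 1225 5 969)
(mv 1099 (cons (fin 1100 1 1097)
(mv 1159 (cons (fin 1160 2 1095)
(mv 968 (cons (fin 967 0 967)
(mv 1032 (cons (fin 1031 1 967)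
(mv 904 (cons (fin 903 3 903)
(mv 1096 (cons (fin 1095 5 903)
(fin 1097 4 904))))))))))))))))))))))))
(cons (mv 1162 (cons (fin 1226 6 970)
(mv 907 (cons (fin 843 5 842)
(fin 970 6 906)))))
(mv 1162 (cons (fin 1226 6 970)
(mv 907 (cons (fin 843 5 842)
(fin 1099 5 906))))))))))
(cons (mv 972 (cons (fin 974 1 970)
(mv 1099 (cons (cons (mv 1100 (cons (fin 1102 3 1034)
(mv 908 (cons (fin 1163 6 907)
(mv 844 (cons (fin 780 5 779)
(fin 907 6 843)))))))
(mv 1100 (cons (fin 1102 3 1034)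
(mv 907 (cons (mv 1098 (cons (fin 843 5 842)
(fin 1162 5 906)))
(cons (mv 844 (cons (fin 908 6 843)
(mv 780 (cons (fin 843 6 779)
(mv 906 (cons (fin 842 7 842)
(mv 905 (cons (fin 970 3 905)
(fin 904 0 904)))))))))
(mv 906 (cons (fin 842 7 842)
(mv 908 (cons (fin 905 0 905)
(fin 844 6 843)))))))))))
(cons (mv 1100 (cons (fin 1102 3 1034)
(mv 970 (cons (mv 906 (cons (fin 905 3 905)
(fin 1163 7 906)))
(cons (mv 1163 (cons (fin 1227 7 970)
(mv 1162 (cons (fin 1226 5 970)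
(mv 1098 (cons (fin 1161 1 1097)
(fin 907 5 906)))))))
(mv 906 (cons (fin 905 3 905)
(fin 842 4 842))))))))
(cons (mv 908 (cons (fin 1163 6 907)
(mv 844 (cons (fin 780 5 779)
(fin 907 6 843)))))
(mv 1163 (cons (fin 908 6 907)
(mv 970 (cons (fin 906 7 906)
(fin 1227 7 970)))))))))))
(mv 972 (cons (fin 974 1 970)
(mv 1033 (cons (fin 1032 2 968)
(mv 1098 (cons (cons (mv 1099 (cons (fin 1100 3 1033)
(mv 907 (cons (fin 843 5 842)
(fin 1162 5 906)))))
(mv 1162 (cons (fin 1226 6 970)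
(mv 907 (cons (fin 843 5 842)
(mv 905 (cons (mv 906 (cons (fin 904 0 904)
(fin 908 0 905)))
(mv 969 (cons (fin 841 4 841)
(fin 1097 4 905))))))))))
(cons (mv 907 (cons (fin 843 5 842)
(mv 1099 (cons (fin 1100 3 1033)
(mv 908 (cons (fin 844 6 843)
(fin 1163 6 907)))))))
(mv 1099 (cons (fin 1100 3 1033)
(mv 1226 (cons (fin 1162 6 970)
(mv 1163 (cons (fin 908 6 907)
(mv 1227 (cons (fin 1291 7 1034)
(fin 1290 5 1034))))))))))))))))))))
(cons (mv 1036 (cons (fin 1102 0 1034)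
(mv 1033 (cons (fin 972 2 969)
(fin 1100 0 1033)))))
(mv 1036 (cons (fin 974 2 970)
(mv 1033 (cons (fin 972 2 969)
(fin 1100 0 1033)))))))))))))
(cons (mv 1102 (cons (cons (mv 909 (cons (fin 1166 4 909)
(mv 1100 (cons (fin 1164 5 908)
(mv 845 (cons (fin 1036 5 844)
(mv 844 (cons (fin 780 7 780)
(fin 908 7 844)))))))))
(mv 1103 (cons (mv 1036 (cons (fin 1104 3 1036)
(mv 1035 (cons (fin 1100 3 1035)
(fin 1034 0 1034)))))
(cons (mv 1104 (cons (fin 1036 3 1036)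
(mv 1168 (cons (fin 1169 0 1101)
(mv 976 (cons (mv 1167 (cons (fin 912 5 911)
(fin 1231 5 975)))
(cons (mv 911 (cons (fin 975 7 911)
(mv 912 (cons (fin 847 7 847)
(mv 913 (cons (fin 849 6 848)
(fin 977 6 912)))))))
(mv 913 (cons (fin 977 6 912)
(mv 1167 (cons (fin 1231 5 975)
(mv 975 (cons (fin 911 7 911)
(mv 1232 (cons (fin 1039 7 975)
(mv 1296 (cons (fin 1360 7 1103)
(mv 1297 (cons (fin 1233 4 1040)
(fin 1361 4 1104))))))))))))))))))))
(mv 1100 (cons (fin 1039 2 1036)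
(mv 1163 (cons (fin 1164 1 1099)
(mv 1099 (cons (fin 1162 1 1098)
(mv 1167 (cons (fin 1166 0 1099)
(fin 1168 0 1100)))))))))))))
(cons (mv 1100 (cons (cons (mv 1039 (cons (fin 1103 2 1036)
(mv 909 (cons (fin 1164 5 908)
(mv 845 (cons (fin 1036 5 844)
(mv 844 (cons (fin 780 7 780)
(fin 908 7 844)))))))))
(mv 909 (cons (fin 1164 5 908)
(mv 845 (cons (fin 1036 5 844)
(mv 844 (cons (fin 780 7 780)
(fin 908 7 844))))))))
(cons (mv 1103 (cons (fin 1039 2 1036)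
(mv 1036 (cons (fin 1035 3 1035)
(fin 1104 3 1036)))))
(mv 1103 (cons (fin 1039 2 1036)
(mv 1164 (cons (fin 1163 1 1099)
(fin 909 5 908))))))))
(cons (mv 909 (cons (fin 1166 4 909)
(mv 844 (cons (fin 908 7 844)
(mv 845 (cons (fin 780 7 780)
(mv 1036 (cons (cons (mv 1034 (cons (fin 1035 0 1034)
(mv 1103 (cons (fin 1104 3 1036)
(mv 782 (cons (fin 846 6 781)
(mv 781 (cons (fin 972 5 780)
(fin 718 6 717)))))))))
(mv 782 (cons (fin 846 6 781)
(mv 781 (cons (fin 972 5 780)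
(fin 718 6 717))))))
(cons (mv 1104 (cons (fin 1103 3 1036)
(mv 1034 (cons (fin 1035 0 1034)
(mv 846 (cons (fin 782 6 781)
(mv 976 (cons (cons (mv 975 (cons (fin 974 1 972)
(mv 911 (cons (fin 1168 7 911)
(mv 847 (cons (fin 912 0 844)
(fin 783 4 783)))))))
(cons (mv 912 (cons (mv 847 (cons (fin 911 0 844)
(mv 783 (cons (fin 784 2 780)
(fin 848 7 783)))))
(mv 913 (cons (fin 849 6 848)
(mv 1169 (cons (fin 1105 4 912)
(mv 1168 (cons (fin 977 6 912)
(fin 1233 4 976)))))))))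
(mv 975 (cons (fin 974 1 972)
(mv 911 (cons (fin 1168 7 911)
(mv 847 (cons (fin 783 4 783)
(fin 1039 4 847)))))))))
(cons (mv 975 (cons (fin 974 1 972)
(mv 847 (cons (mv 783 (cons (fin 784 2 780)
(fin 911 4 783)))
(cons (mv 784 (cons (fin 783 2 780)
(mv 848 (cons (fin 785 2 781)
(mv 912 (cons (fin 913 0 845)
(fin 1039 5 783)))))))
(mv 911 (cons (fin 912 0 844)
(fin 1039 4 847))))))))
(cons (mv 975 (cons (fin 974 1 972)
(mv 1168 (cons (fin 911 7 911)
(mv 1039 (cons (fin 1232 7 975)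
(mv 1169 (cons (fin 1233 4 976)
(mv 912 (cons (fin 1105 4 912)
(mv 913 (cons (fin 849 6 848)
(fin 977 6 912)))))))))))))
(mv 975 (cons (fin 974 1 972)
(mv 1168 (cons (cons (mv 1039 (cons (fin 1232 7 975)
(mv 1169 (cons (fin 1233 4 976)
(mv 912 (cons (fin 1105 4 912)
(mv 913 (cons (fin 849 6 848)
(fin 977 6 912)))))))))
(mv 913 (cons (fin 977 6 912)
(mv 912 (cons (fin 849 6 848)
(mv 1169 (cons (fin 1105 4 912)
(fin 1233 4 976))))))))
(cons (mv 1169 (cons (fin 1233 4 976)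
(mv 912 (cons (fin 1105 4 912)
(mv 1232 (cons (fin 1039 7 975)
(mv 1231 (cons (fin 1167 5 975)
(fin 1295 5 1039)))))))))
(cons (mv 1167 (cons (fin 1231 5 975)
(mv 913 (cons (fin 977 6 912)
(mv 912 (cons (fin 849 6 848)
(mv 1039 (cons (fin 1232 7 975)
(mv 848 (cons (fin 847 0 845)
(fin 784 5 783)))))))))))
(mv 1232 (cons (fin 1039 7 975)
(mv 1231 (cons (fin 1167 5 975)
(fin 1295 5 1039)))))))))))))))))))))
(mv 1035 (cons (fin 1034 0 1034)
(mv 1104 (cons (fin 1103 3 1036)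
(mv 972 (cons (fin 781 5 780)
(mv 975 (cons (fin 974 1 971)
(mv 1168 (cons (mv 911 (cons (fin 976 7 911)
(mv 1039 (cons (fin 1232 7 975)
(fin 847 4 847)))))
(cons (mv 1232 (cons (fin 1039 7 975)
(mv 1295 (cons (fin 1231 5 1039)
(mv 1297 (cons (fin 1233 4 1040)
(mv 1296 (cons (fin 1359 5 1103)
(fin 1361 4 1104)))))))))
(mv 976 (cons (fin 911 7 911)
(mv 1167 (cons (fin 1231 5 975)
(mv 1169 (cons (fin 1233 4 976)
(mv 912 (cons (fin 1105 4 912)
(mv 913 (cons (fin 849 6 848)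
(fin 977 6 912)))))))))))))))))))))))))))))))
(mv 1100 (cons (cons (mv 909 (cons (fin 1164 5 908)
(fin 1166 4 909)))
(mv 1103 (cons (fin 1039 2 1036)
(mv 1163 (cons (fin 1164 1 1099)
(mv 1099 (cons (fin 1162 1 1098)
(mv 1167 (cons (fin 1166 0 1099)
(fin 1168 0 1100))))))))))
(cons (mv 1039 (cons (fin 1103 2 1036)
(mv 1166 (cons (fin 909 4 909)
(mv 1230 (cons (fin 1294 7 1037)
(mv 1099 (cons (fin 1167 0 1099)
(mv 1162 (cons (fin 1163 1 1098)
(mv 1098 (cons (fin 1161 1 1097)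
(mv 1034 (cons (fin 1033 3 1033)
(fin 1035 3 1034)))))))))))))))
(mv 1103 (cons (fin 1039 2 1036)
(mv 1164 (cons (fin 1163 1 1099)
(fin 909 5 908))))))))))))
(mv 909 (cons (cons (mv 844 (cons (fin 908 7 844)
(mv 845 (cons (fin 780 7 780)
(mv 1100 (cons (fin 1036 5 844)
(fin 1164 5 908)))))))
(mv 846 (cons (fin 910 6 845)
(mv 845 (cons (fin 782 6 781)
(mv 844 (cons (fin 780 7 780)
(fin 908 7 844))))))))
(cons (mv 1100 (cons (fin 1164 5 908)
(mv 845 (cons (fin 1036 5 844)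
(mv 846 (cons (fin 782 6 781)
(fin 910 6 845)))))))
(mv 1100 (cons (fin 1164 5 908)
(mv 908 (cons (fin 844 7 844)
(mv 910 (cons (fin 846 6 845)
(mv 907 (cons (cons (mv 974 (cons (fin 906 0 906)
(fin 975 0 907)))
(mv 842 (cons (fin 843 3 842)
(mv 841 (cons (fin 906 3 841)
(mv 971 (cons (fin 970 1 906)
(mv 911 (cons (fin 972 1 907)
(mv 976 (cons (fin 975 0 908)
(mv 847 (cons (fin 848 2 844)
(mv 912 (cons (fin 977 0 909)
(fin 1104 7 847))))))))))))))))
(cons (mv 970 (cons (fin 971 1 906)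
(mv 975 (cons (fin 974 0 907)
(mv 842 (cons (fin 843 3 842)
(mv 911 (cons (fin 976 0 908)
(mv 848 (cons (fin 847 2 844)
(mv 912 (cons (fin 972 1 908)
(fin 849 2 845)))))))))))))
(mv 906 (cons (fin 974 0 906)
(mv 842 (cons (fin 841 3 841)
(fin 843 3 842)))))))))))))))))))
(cons (mv 909 (cons (cons (mv 844 (cons (fin 908 7 844)
(mv 1100 (cons (fin 1164 5 908)
(mv 846 (cons (fin 910 6 845)
(mv 845 (cons (fin 780 7 780)
(fin 782 6 781)))))))))
(cons (mv 910 (cons (fin 846 6 845)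
(mv 1102 (cons (fin 1166 4 909)
(mv 1100 (cons (fin 1164 5 908)
(mv 1039 (cons (fin 1103 2 1036)
(mv 972 (cons (cons (mv 911 (cons (fin 912 1 908)
(mv 971 (cons (fin 908 1 907)
(fin 970 2 906)))))
(mv 974 (cons (fin 975 0 972)
(mv 1099 (cons (cons (mv 970 (cons (fin 971 2 906)
(mv 1034 (cons (fin 1035 3 1034)
(mv 1098 (cons (fin 1033 3 1033)
(mv 1162 (cons (fin 1161 1 1097)
(fin 1163 1 1098)))))))))
(cons (mv 1162 (cons (fin 1163 1 1098)
(mv 1098 (cons (fin 1161 1 1097)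
(mv 1034 (cons (fin 1033 3 1033)
(fin 1035 3 1034)))))))
(mv 971 (cons (fin 970 2 906)
(mv 1162 (cons (fin 1163 1 1098)
(mv 1098 (cons (fin 1161 1 1097)
(mv 907 (cons (fin 906 3 906)
(fin 1035 5 906)))))))))))
(cons (cons (mv 1162 (cons (fin 1163 1 1098)
(mv 1098 (cons (fin 1161 1 1097)
(mv 1034 (cons (fin 1033 3 1033)
(mv 970 (cons (fin 971 2 906)
(mv 905 (cons (fin 969 7 905)
(mv 906 (cons (fin 841 7 841)
(mv 907 (cons (fin 908 0 905)
(fin 843 6 842)))))))))))))))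
(mv 970 (cons (fin 971 2 906)
(mv 1034 (cons (fin 1035 3 1034)
(mv 1098 (cons (fin 1033 3 1033)
(mv 906 (cons (fin 1163 4 906)
(mv 907 (cons (fin 908 0 906)
(fin 843 6 842))))))))))))
(cons (mv 1034 (cons (fin 1035 3 1034)
(mv 1098 (cons (fin 1033 3 1033)
(mv 970 (cons (fin 971 2 906)
(mv 1161 (cons (fin 1162 1 1097)
(mv 1097 (cons (fin 1160 1 1096)
(fin 906 5 905)))))))))))
(mv 1035 (cons (fin 1034 3 1034)
(mv 1163 (cons (fin 1162 1 1098)
(mv 971 (cons (fin 970 2 906)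
(fin 908 6 907))))))))))))))
(cons (mv 911 (cons (fin 912 1 908)
(mv 975 (cons (fin 974 0 972)
(mv 908 (cons (fin 976 0 908)
(mv 847 (cons (fin 848 2 844)
(fin 1104 4 847)))))))))
(mv 974 (cons (fin 975 0 972)
(mv 911 (cons (fin 912 1 908)
(fin 971 2 907))))))))))))))))
(mv 1100 (cons (fin 1164 5 908)
(mv 1102 (cons (fin 1166 4 909)
(mv 1039 (cons (fin 1103 2 1036)
(mv 908 (cons (fin 844 7 844)
(mv 975 (cons (cons (mv 974 (cons (fin 976 3 908)
(fin 972 0 972)))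
(mv 911 (cons (cons (mv 910 (cons (fin 976 0 908)
(mv 847 (cons (fin 848 2 844)
(fin 1104 4 847)))))
(mv 847 (cons (fin 1104 4 847)
(mv 783 (cons (fin 976 4 783)
(mv 784 (cons (fin 720 6 719)
(fin 848 6 783))))))))
(cons (mv 910 (cons (fin 976 0 908)
(mv 972 (cons (fin 971 1 907)
(fin 912 1 908)))))
(mv 847 (cons (fin 1104 4 847)
(mv 848 (cons (fin 910 2 844)
(fin 784 6 783)))))))))
(cons (mv 974 (cons (fin 976 3 908)
(mv 907 (cons (fin 906 0 906)
(fin 910 0 907)))))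
(mv 974 (cons (fin 972 0 972)
(mv 907 (cons (fin 906 0 906)
(fin 910 0 907))))))))))))))))))
(cons (mv 1102 (cons (fin 1166 4 909)
(mv 1100 (cons (fin 1164 5 908)
(mv 1103 (cons (fin 1039 2 1036)
(mv 1168 (cons (fin 1167 0 1100)
(mv 1104 (cons (fin 1169 0 1101)
(mv 976 (cons (cons (mv 846 (cons (fin 910 6 845)
(mv 782 (cons (fin 845 6 781)
(mv 911 (cons (fin 975 7 911)
(mv 912 (cons (fin 847 7 847)
(mv 913 (cons (fin 849 6 848)
(fin 977 6 912)))))))))))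
(cons (mv 913 (cons (fin 977 6 912)
(mv 912 (cons (fin 849 6 848)
(mv 974 (cons (fin 975 2 909)
(mv 845 (cons (cons (mv 846 (cons (fin 782 6 781)
(fin 910 6 845)))
(mv 780 (cons (fin 844 7 780)
(mv 781 (cons (fin 716 7 716)
(mv 718 (cons (fin 782 6 717)
(mv 717 (cons (fin 654 6 653)
(fin 910 4 717))))))))))
(cons (mv 780 (cons (fin 844 7 780)
(mv 781 (cons (fin 716 7 716)
(mv 782 (cons (fin 718 6 717)
(fin 846 6 781)))))))
(mv 910 (cons (fin 846 6 845)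
(mv 780 (cons (fin 844 7 780)
(mv 781 (cons (fin 716 7 716)
(fin 717 4 717))))))))))))))))
(mv 846 (cons (fin 910 6 845)
(mv 911 (cons (fin 975 7 911)
(mv 847 (cons (fin 912 7 847)
(mv 845 (cons (fin 782 6 781)
(mv 780 (cons (fin 844 7 780)
(mv 781 (cons (fin 848 3 780)
(fin 716 7 716)))))))))))))))
(cons (cons (mv 911 (cons (fin 975 7 911)
(mv 912 (cons (fin 847 7 847)
(mv 977 (cons (fin 910 0 909)
(fin 913 6 912)))))))
(mv 913 (cons (fin 977 6 912)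
(mv 912 (cons (fin 849 6 848)
(mv 911 (cons (fin 847 7 847)
(fin 975 7 911))))))))
(cons (mv 846 (cons (fin 910 6 845)
(mv 845 (cons (fin 782 6 781)
(mv 913 (cons (fin 977 6 912)
(mv 912 (cons (fin 849 6 848)
(mv 847 (cons (fin 848 0 845)
(fin 911 7 847)))))))))))
(mv 977 (cons (fin 913 6 912)
(mv 975 (cons (fin 911 7 911)
(mv 910 (cons (fin 974 3 909)
(fin 846 6 845)))))))))))))))))))))
(cons (mv 1102 (cons (fin 1166 4 909)
(mv 975 (cons (cons (mv 844 (cons (fin 908 7 844)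
(mv 780 (cons (fin 845 7 780)
(mv 1100 (cons (fin 1164 5 908)
(mv 1103 (cons (fin 1039 2 1036)
(mv 1168 (cons (fin 1167 0 1100)
(mv 1104 (cons (fin 1169 0 1101)
(mv 976 (cons (fin 911 7 911)
(mv 913 (cons (fin 977 6 912)
(mv 912 (cons (fin 974 2 909)
(fin 849 6 848)))))))))))))))))))
(mv 908 (cons (fin 844 7 844)
(mv 974 (cons (fin 976 3 908)
(mv 907 (cons (fin 972 3 907)
(fin 906 0 906))))))))
(cons (mv 1100 (cons (fin 1164 5 908)
(mv 1103 (cons (fin 1039 2 1036)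
(mv 1168 (cons (fin 1167 0 1100)
(mv 1104 (cons (fin 1169 0 1101)
(mv 976 (cons (fin 911 7 911)
(mv 913 (cons (fin 977 6 912)
(mv 912 (cons (fin 974 2 909)
(fin 849 6 848)))))))))))))))
(cons (mv 1100 (cons (fin 1164 5 908)
(mv 1039 (cons (fin 1103 2 1036)
(mv 844 (cons (fin 908 7 844)
(mv 845 (cons (fin 780 7 780)
(mv 846 (cons (fin 782 6 781)
(mv 847 (cons (mv 911 (cons (fin 912 0 844)
(fin 1104 4 847)))
(cons (mv 784 (cons (fin 783 2 780)
(mv 848 (cons (fin 785 2 781)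
(mv 912 (cons (fin 913 0 845)
(fin 976 5 783)))))))
(mv 783 (cons (fin 784 2 780)
(mv 911 (cons (fin 976 4 783)
(fin 1104 4 847))))))))))))))))))
(mv 1100 (cons (fin 1164 5 908)
(mv 1039 (cons (fin 1103 2 1036)
(mv 972 (cons (fin 974 0 972)
(mv 845 (cons (cons (mv 844 (cons (fin 780 7 780)
(fin 908 7 844)))
(mv 782 (cons (fin 846 6 781)
(mv 781 (cons (fin 718 6 717)
(mv 717 (cons (fin 908 5 716)
(mv 716 (cons (fin 652 7 652)
(fin 780 7 716))))))))))
(cons (mv 782 (cons (fin 846 6 781)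
(mv 781 (cons (fin 718 6 717)
(mv 780 (cons (fin 716 7 716)
(fin 844 7 780)))))))
(mv 908 (cons (fin 844 7 844)
(mv 782 (cons (fin 846 6 781)
(mv 781 (cons (fin 717 5 716)
(fin 718 6 717))))))))))))))))))))))
(mv 844 (cons (fin 908 7 844)
(mv 845 (cons (fin 780 7 780)
(mv 846 (cons (fin 782 6 781)
(fin 910 6 845)))))))))))
(cons (mv 909 (cons (cons (mv 844 (cons (fin 908 7 844)
(mv 845 (cons (fin 780 7 780)
(mv 846 (cons (fin 782 6 781)
(fin 910 6 845)))))))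
(mv 1102 (cons (fin 1166 4 909)
(mv 910 (cons (fin 846 6 845)
(mv 911 (cons (cons (mv 912 (cons (fin 972 1 908)
(mv 913 (cons (fin 974 1 909)
(mv 849 (cons (fin 848 2 845)
(fin 850 2 846)))))))
(mv 908 (cons (cons (mv 971 (cons (fin 972 1 907)
(mv 907 (cons (fin 970 1 906)
(mv 974 (cons (fin 906 0 906)
(fin 975 0 907)))))))
(cons (mv 975 (cons (fin 976 0 908)
(mv 907 (cons (fin 974 0 907)
(mv 842 (cons (fin 843 3 842)
(mv 906 (cons (fin 841 3 841)
(mv 847 (cons (fin 848 2 844)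
(mv 905 (cons (fin 972 0 905)
(mv 969 (cons (fin 968 1 904)
(fin 970 1 905)))))))))))))))
(mv 847 (cons (fin 848 2 844)
(mv 971 (cons (fin 972 1 907)
(mv 907 (cons (fin 970 1 906)
(mv 842 (cons (fin 843 3 842)
(mv 906 (cons (fin 841 3 841)
(fin 974 0 906)))))))))))))
(cons (mv 975 (cons (fin 976 0 908)
(mv 907 (cons (fin 974 0 907)
(mv 970 (cons (fin 971 1 906)
(mv 906 (cons (fin 969 1 905)
(mv 842 (cons (fin 841 3 841)
(fin 843 3 842)))))))))))
(cons (mv 847 (cons (fin 848 2 844)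
(mv 971 (cons (fin 972 1 907)
(mv 907 (cons (fin 970 1 906)
(mv 842 (cons (fin 843 3 842)
(mv 906 (cons (fin 841 3 841)
(mv 975 (cons (fin 976 0 908)
(mv 714 (cons (fin 778 4 714)
(mv 1104 (cons (fin 1039 4 847)
(mv 1035 (cons (fin 1099 7 842)
(mv 1036 (cons (fin 1103 3 1036)
(fin 1034 0 1034)))))))))))))))))))))
(mv 975 (cons (fin 976 0 908)
(mv 847 (cons (fin 848 2 844)
(mv 972 (cons (fin 971 1 907)
(mv 1039 (cons (fin 974 0 972)
(fin 1104 4 847))))))))))))))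
(cons (mv 912 (cons (mv 913 (cons (fin 974 1 909)
(mv 849 (cons (fin 848 2 845)
(fin 850 2 846)))))
(cons (mv 976 (cons (fin 977 0 909)
(mv 908 (cons (fin 975 0 908)
(mv 848 (cons (fin 847 2 844)
(fin 849 2 845)))))))
(mv 976 (cons (fin 977 0 909)
(mv 908 (cons (fin 975 0 908)
(mv 1104 (cons (fin 847 7 847)
(mv 1103 (cons (fin 1036 3 1036)
(fin 1167 5 911))))))))))))
(cons (mv 912 (cons (fin 972 1 908)
(mv 848 (cons (fin 849 2 845)
(mv 847 (cons (fin 908 2 844)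
(mv 976 (cons (fin 977 0 909)
(fin 783 7 783)))))))))
(mv 912 (cons (fin 972 1 908)
(mv 976 (cons (fin 977 0 909)
(mv 908 (cons (fin 975 0 908)
(mv 1104 (cons (fin 847 7 847)
(mv 1103 (cons (fin 1036 3 1036)
(fin 1167 5 911))))))))))))))))))))
(cons (mv 1102 (cons (fin 1166 4 909)
(mv 908 (cons (fin 844 7 844)
(mv 975 (cons (cons (mv 974 (cons (fin 976 3 908)
(mv 907 (cons (fin 972 3 907)
(fin 906 0 906)))))
(mv 1104 (cons (cons (mv 1103 (cons (fin 1036 3 1036)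
(mv 1168 (cons (fin 1169 0 1101)
(mv 911 (cons (fin 976 7 911)
(fin 1039 4 911)))))))
(cons (mv 911 (cons (mv 976 (cons (fin 910 0 908)
(fin 1168 7 911)))
(cons (mv 847 (cons (fin 1039 4 847)
(mv 910 (cons (fin 848 2 844)
(mv 972 (cons (fin 971 1 907)
(fin 912 1 908)))))))
(mv 847 (cons (fin 1039 4 847)
(mv 976 (cons (fin 912 7 847)
(fin 1168 7 911))))))))
(mv 1036 (cons (fin 1103 3 1036)
(mv 1034 (cons (fin 1035 0 1034)
(mv 911 (cons (cons (mv 910 (cons (fin 976 0 908)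
(mv 847 (cons (fin 848 2 844)
(fin 1039 4 847)))))
(mv 847 (cons (fin 1039 4 847)
(mv 976 (cons (fin 912 7 847)
(fin 783 4 783))))))
(cons (mv 910 (cons (fin 976 0 908)
(mv 972 (cons (fin 971 1 907)
(fin 912 1 908)))))
(mv 847 (cons (fin 1039 4 847)
(mv 910 (cons (fin 848 2 844)
(mv 972 (cons (fin 971 1 907)
(fin 912 1 908))))))))))))))))
(cons (mv 1103 (cons (fin 1036 3 1036)
(mv 1168 (cons (fin 1169 0 1101)
(mv 1232 (cons (fin 1039 7 975)
(mv 1297 (cons (fin 1233 4 1040)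
(mv 1231 (cons (fin 1295 5 1039)
(mv 1167 (cons (fin 976 5 975)
(mv 1296 (cons (fin 1360 7 1103)
(fin 1361 4 1104)))))))))))))))
(cons (mv 1103 (cons (fin 1036 3 1036)
(mv 1168 (cons (fin 1169 0 1101)
(mv 1039 (cons (fin 1232 7 975)
(fin 911 4 911)))))))
(mv 1103 (cons (fin 1036 3 1036)
(mv 1168 (cons (fin 1169 0 1101)
(mv 976 (cons (fin 911 7 911)
(mv 1167 (cons (fin 912 5 911)
(fin 1231 5 975))))))))))))))
(cons (mv 974 (cons (mv 907 (cons (fin 972 3 907)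
(fin 906 0 906)))
(cons (mv 972 (cons (fin 1039 0 972)
(mv 911 (cons (fin 912 2 908)
(mv 971 (cons (fin 910 1 907)
(mv 1035 (cons (fin 1034 1 970)
(fin 1036 1 971)))))))))
(mv 907 (cons (fin 906 0 906)
(fin 910 0 907))))))
(mv 974 (cons (fin 976 3 908)
(mv 907 (cons (fin 906 0 906)
(fin 910 0 907))))))))))))
(cons (mv 846 (cons (fin 910 6 845)
(mv 845 (cons (fin 782 6 781)
(mv 1102 (cons (fin 1166 4 909)
(mv 780 (cons (fin 844 7 780)
(mv 781 (cons (fin 716 7 716)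
(mv 778 (cons (fin 779 0 778)
(mv 1036 (cons (fin 972 5 780)
(mv 847 (cons (fin 848 3 780)
(mv 1104 (cons (fin 1103 3 1036)
(mv 1034 (cons (fin 1035 0 1034)
(mv 976 (cons (cons (mv 975 (cons (fin 974 1 972)
(mv 911 (cons (fin 912 7 847)
(fin 1168 7 911)))))
(mv 912 (cons (fin 911 7 847)
(mv 913 (cons (fin 849 6 848)
(mv 1169 (cons (fin 1105 4 912)
(mv 1168 (cons (fin 977 6 912)
(fin 1233 4 976))))))))))
(cons (mv 975 (cons (fin 974 1 972)
(mv 1168 (cons (mv 1232 (cons (fin 1039 7 975)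
(mv 1231 (cons (fin 1167 5 975)
(fin 1295 5 1039)))))
(mv 912 (cons (mv 913 (cons (fin 849 6 848)
(fin 977 6 912)))
(mv 1169 (cons (fin 1105 4 912)
(fin 1233 4 976)))))))))
(cons (mv 975 (cons (fin 974 1 972)
(mv 911 (cons (fin 1168 7 911)
(fin 783 4 783)))))
(mv 975 (cons (fin 974 1 972)
(mv 911 (cons (fin 912 7 847)
(fin 783 4 783)))))))))))))))))))))))))))))
(mv 1102 (cons (fin 1166 4 909)
(mv 844 (cons (fin 908 7 844)
(mv 845 (cons (fin 780 7 780)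
(mv 1036 (cons (cons (mv 1034 (cons (fin 1035 0 1034)
(mv 1103 (cons (fin 1104 3 1036)
(mv 782 (cons (fin 846 6 781)
(mv 781 (cons (fin 972 5 780)
(fin 718 6 717)))))))))
(mv 782 (cons (fin 846 6 781)
(mv 781 (cons (fin 972 5 780)
(fin 718 6 717))))))
(cons (mv 1104 (cons (fin 1103 3 1036)
(mv 1034 (cons (fin 1035 0 1034)
(mv 846 (cons (fin 782 6 781)
(mv 976 (cons (cons (mv 975 (cons (fin 974 1 972)
(mv 911 (cons (fin 1168 7 911)
(mv 847 (cons (fin 912 0 844)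
(fin 783 4 783)))))))
(cons (mv 912 (cons (mv 847 (cons (fin 911 0 844)
(mv 783 (cons (fin 784 2 780)
(fin 848 7 783)))))
(mv 913 (cons (fin 849 6 848)
(mv 1169 (cons (fin 1105 4 912)
(mv 1168 (cons (fin 977 6 912)
(fin 1233 4 976)))))))))
(mv 975 (cons (fin 974 1 972)
(mv 911 (cons (fin 1168 7 911)
(mv 847 (cons (fin 783 4 783)
(fin 1039 4 847)))))))))
(cons (mv 975 (cons (fin 974 1 972)
(mv 847 (cons (mv 783 (cons (fin 784 2 780)
(fin 911 4 783)))
(cons (mv 784 (cons (fin 783 2 780)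
(mv 848 (cons (fin 785 2 781)
(mv 912 (cons (fin 913 0 845)
(fin 1039 5 783)))))))
(mv 911 (cons (fin 912 0 844)
(fin 1039 4 847))))))))
(cons (mv 975 (cons (fin 974 1 972)
(mv 1168 (cons (fin 911 7 911)
(mv 1039 (cons (fin 1232 7 975)
(mv 1169 (cons (fin 1233 4 976)
(mv 912 (cons (fin 1105 4 912)
(mv 913 (cons (fin 849 6 848)
(fin 977 6 912)))))))))))))
(mv 975 (cons (fin 974 1 972)
(mv 1168 (cons (cons (mv 1039 (cons (fin 1232 7 975)
(mv 1169 (cons (fin 1233 4 976)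
(mv 912 (cons (fin 1105 4 912)
(mv 913 (cons (fin 849 6 848)
(fin 977 6 912)))))))))
(mv 913 (cons (fin 977 6 912)
(mv 912 (cons (fin 849 6 848)
(mv 1169 (cons (fin 1105 4 912)
(fin 1233 4 976))))))))
(cons (mv 1169 (cons (fin 1233 4 976)
(mv 912 (cons (fin 1105 4 912)
(mv 1232 (cons (fin 1039 7 975)
(mv 1231 (cons (fin 1167 5 975)
(fin 1295 5 1039)))))))))
(cons (mv 1167 (cons (fin 1231 5 975)
(mv 913 (cons (fin 977 6 912)
(mv 912 (cons (fin 849 6 848)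
(mv 1039 (cons (fin 1232 7 975)
(mv 848 (cons (fin 847 0 845)
(fin 784 5 783)))))))))))
(mv 1232 (cons (fin 1039 7 975)
(mv 1231 (cons (fin 1167 5 975)
(fin 1295 5 1039)))))))))))))))))))))
(mv 1035 (cons (fin 1034 0 1034)
(mv 1104 (cons (fin 1103 3 1036)
(mv 972 (cons (fin 781 5 780)
(mv 975 (cons (fin 974 1 971)
(mv 1168 (cons (mv 911 (cons (fin 976 7 911)
(mv 1039 (cons (fin 1232 7 975)
(fin 847 4 847)))))
(cons (mv 1232 (cons (fin 1039 7 975)
(mv 1295 (cons (fin 1231 5 1039)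
(mv 1297 (cons (fin 1233 4 1040)
(mv 1296 (cons (fin 1359 5 1103)
(fin 1361 4 1104)))))))))
(mv 976 (cons (fin 911 7 911)
(mv 1167 (cons (fin 1231 5 975)
(mv 1169 (cons (fin 1233 4 976)
(mv 912 (cons (fin 1105 4 912)
(mv 913 (cons (fin 849 6 848)
(fin 977 6 912)))))))))))))))))))))))))))))))))))
(mv 909 (cons (cons (mv 844 (cons (fin 908 7 844)
(mv 780 (cons (fin 845 7 780)
(mv 1102 (cons (fin 1166 4 909)
(mv 910 (cons (fin 846 6 845)
(mv 1100 (cons (fin 1164 5 908)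
(mv 1103 (cons (fin 1039 2 1036)
(mv 1035 (cons (fin 1036 3 1035)
(mv 1099 (cons (fin 1034 3 1034)
(mv 1167 (cons (fin 1168 0 1100)
(mv 1162 (cons (fin 1163 1 1098)
(mv 1098 (cons (fin 1161 1 1097)
(mv 971 (cons (fin 907 5 906)
(mv 1226 (cons (fin 1290 6 1034)
(mv 972 (cons (fin 970 2 906)
(mv 911 (cons (fin 912 1 908)
(fin 974 2 907)))))))))))))))))))))))))))))))
(mv 844 (cons (fin 908 7 844)
(mv 845 (cons (fin 780 7 780)
(mv 846 (cons (fin 782 6 781)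
(fin 910 6 845))))))))
(cons (mv 1102 (cons (fin 1166 4 909)
(mv 1100 (cons (fin 1164 5 908)
(mv 845 (cons (fin 1036 5 844)
(mv 846 (cons (fin 782 6 781)
(fin 910 6 845)))))))))
(cons (mv 844 (cons (fin 908 7 844)
(mv 845 (cons (fin 780 7 780)
(mv 1100 (cons (fin 1036 5 844)
(fin 1164 5 908)))))))
(mv 1102 (cons (fin 1166 4 909)
(mv 846 (cons (fin 910 6 845)
(mv 908 (cons (fin 844 7 844)
(mv 1100 (cons (fin 1164 5 908)
(mv 1103 (cons (fin 1039 2 1036)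
(mv 1035 (cons (fin 1036 3 1035)
(mv 1099 (cons (fin 1034 3 1034)
(mv 1167 (cons (fin 1168 0 1100)
(mv 1162 (cons (fin 1163 1 1098)
(mv 1098 (cons (fin 1161 1 1097)
(mv 907 (cons (fin 971 5 906)
(mv 906 (cons (fin 974 0 906)
(mv 905 (cons (fin 972 0 905)
(mv 969 (cons (fin 968 1 904)
(fin 970 1 905))))))))))))))))))))))))))))))))))))))
def l88 : Lem := ⟨27165970580987716998801060511898218296576498249284212550989014064902099754540289998008098888203096194445487141934157582715221207221627949415778348760750566186924182364999928905689799534757843959984884367813118380264633771435583218431609745572151264086860185278594508511769274459891410842803126299426599840657831449368115902676992000, 22980015630596336963087454813633226429770385604990008973021026070939408086916468289409237715534202025980100122006898905763535435344450572777507350336886049446813126638087092785957093248754316619932435161832485632902994176610065211667781069705585021918540573214492327464930330723958973805395119550369080339058073625749450789035011935884551813313230326996725942269756618471101394902229495815414035671203048648782412389751594490723495993474173915627520,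 22980015630596336963087454813633226429770385604990008973021026070939408086916468289409237715534202025980100122006898905763535435344450572777507350336886049446813126638087092785957093248754316619932435161832485632902994176610065211667781069705585021918540573214492327464930330723958973805395119550369080339058073625749450789035011935884551813313230326996725942269756618471101394902229495815414035671203048648782412389751594490723495993474173915627520, 18, 33⟩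
theorem l88_valid : l88.Valid :=
  Lem.valid_of_chk t88 t88_valid [1037, 1040, 1101] c88 l88 (by decide +kernel)
end Crest.Agent.SnakyAux
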