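import Crest.Agent.S0047_aux.Checker
import Crest.Agent.S0047_aux.L87
import Crest.Agent.S0047_aux.L88
set_option autoImplicit false
set_option maxRecDepth 100000
namespace Crest.Agent.SnakyAux
open Cert
def t106 : Tbl := (Tbl.node (Tbl.leaf l87) (Tbl.leaf l88))
theorem t106_valid : t106.Valid := (Tbl.valid_node (Tbl.valid_leaf l87_valid) (Tbl.valid_leaf l88_valid))
def c106 : Cert :=
(mv 1101 (cons (cons (cons (cons (mv 973 (cons (cons (cons (mv 909 (cons (cons (mv 844 (cons (fin 908 7 844)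
(mv 780 (cons (fin 845 7 780)
(mv 1102 (cons (fin 1166 4 909)
(mv 846 (cons (fin 910 6 845)
(mv 1100 (cons (fin 1164 5 908)
(mv 1103 (cons (fin 1039 2 1036)
(mv 1036 (cons (fin 1035 3 1035)
(fin 1104 3 1036)))))))))))))))
(mv 1100 (cons (fin 1164 5 908)
(mv 845 (cons (fin 1036 5 844)
(mv 846 (cons (fin 782 6 781)
(fin 910 6 845))))))))
(cons (mv 1102 (cons (fin 1166 4 909)
(mv 1100 (cons (fin 1164 5 908)
(mv 845 (cons (fin 1036 5 844)
(mv 844 (cons (fin 780 7 780)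
(fin 908 7 844)))))))))
(cons (mv 844 (cons (fin 908 7 844)
(mv 780 (cons (fin 845 7 780)
(mv 1166 (cons (fin 1102 4 909)
(mv 910 (cons (fin 846 6 845)
(mv 1165 (cons (fin 974 6 909)
(fin 1230 4 973)))))))))))
(mv 1102 (cons (fin 1166 4 909)
(mv 1100 (cons (fin 1164 5 908)
(mv 1039 (cons (fin 1103 2 1036)
(mv 844 (cons (fin 908 7 844)
(mv 910 (cons (fin 846 6 845)
(mv 974 (cons (fin 1165 6 909)
(mv 972 (cons (fin 975 0 972)
(mv 911 (cons (fin 912 1 908)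
(fin 971 2 907)))))))))))))))))))))
(mv 1165 (cons (cons (mv 908 (cons (fin 972 7 908)
(mv 1230 (cons (fin 1166 4 973)
(mv 910 (cons (fin 974 6 909)
(mv 1229 (cons (fin 1294 4 1037)
(mv 1228 (cons (fin 1164 5 972)
(fin 1292 5 1036)))))))))))
(mv 1228 (cons (fin 1164 5 972)
(mv 910 (cons (fin 974 6 909)
(mv 1229 (cons (fin 1292 5 1036)
(mv 1230 (cons (fin 1166 4 973)
(fin 1294 4 1037))))))))))
(cons (mv 1166 (cons (fin 1230 4 973)
(mv 974 (cons (fin 910 6 909)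
(mv 972 (cons (fin 908 7 908)
(mv 975 (cons (fin 1039 0 972)
(mv 1036 (cons (fin 1035 1 971)
(fin 976 1 972)))))))))))
(cons (mv 972 (cons (fin 908 7 908)
(mv 1164 (cons (fin 1228 5 972)
(mv 1036 (cons (fin 1229 7 972)
(mv 974 (cons (fin 910 6 909)
(mv 975 (cons (fin 1035 1 971)
(fin 976 1 972)))))))))))
(mv 1166 (cons (fin 1230 4 973)
(mv 1228 (cons (fin 1164 5 972)
(mv 972 (cons (fin 908 7 908)
(mv 1229 (cons (fin 1036 7 972)
(fin 1292 5 1036))))))))))))))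
(cons (mv 909 (cons (cons (mv 844 (cons (fin 908 7 844)
(mv 780 (cons (fin 845 7 780)
(mv 1102 (cons (fin 1166 4 909)
(mv 846 (cons (fin 910 6 845)
(mv 1100 (cons (fin 1164 5 908)
(mv 1103 (cons (fin 1039 2 1036)
(mv 1036 (cons (fin 1035 3 1035)
(fin 1104 3 1036)))))))))))))))
(mv 844 (cons (fin 908 7 844)
(mv 845 (cons (fin 780 7 780)
(mv 846 (cons (fin 782 6 781)
(fin 910 6 845))))))))
(cons (mv 1102 (cons (fin 1166 4 909)
(mv 1100 (cons (fin 1164 5 908)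
(mv 845 (cons (fin 1036 5 844)
(mv 846 (cons (fin 782 6 781)
(fin 910 6 845)))))))))
(cons (mv 844 (cons (fin 908 7 844)
(mv 780 (cons (fin 845 7 780)
(mv 1102 (cons (fin 1166 4 909)
(mv 1100 (cons (fin 1164 5 908)
(mv 1103 (cons (fin 1039 2 1036)
(mv 1036 (cons (fin 1035 3 1035)
(fin 1104 3 1036)))))))))))))
(mv 1100 (cons (fin 1164 5 908)
(mv 846 (cons (fin 910 6 845)
(mv 844 (cons (fin 908 7 844)
(mv 1102 (cons (fin 1166 4 909)
(mv 1103 (cons (fin 1039 2 1036)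
(mv 1036 (cons (fin 1035 3 1035)
(fin 1104 3 1036)))))))))))))))))
(mv 1165 (cons (cons (mv 1164 (cons (fin 1228 5 972)
(mv 909 (cons (fin 1100 5 908)
(mv 910 (cons (fin 846 6 845)
(fin 974 6 909)))))))
(mv 1166 (cons (fin 1230 4 973)
(mv 909 (cons (fin 1102 4 909)
(mv 910 (cons (fin 846 6 845)
(fin 974 6 909))))))))
(cons (mv 1164 (cons (fin 1228 5 972)
(mv 909 (cons (fin 1100 5 908)
(mv 1166 (cons (fin 1102 4 909)
(fin 1230 4 973)))))))
(mv 1166 (cons (fin 1230 4 973)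
(mv 910 (cons (fin 974 6 909)
(mv 1228 (cons (fin 1164 5 972)
(mv 1229 (cons (fin 1292 5 1036)
(mv 1036 (cons (fin 972 7 972)
(mv 1226 (cons (fin 1227 2 1162)
(mv 1293 (cons (fin 1100 7 1036)
(mv 1357 (cons (fin 1102 6 1101)
(mv 1358 (cons (fin 1294 4 1101)
(fin 1422 4 1165))))))))))))))))))))))))
(cons (cons (mv 909 (cons (cons (mv 844 (cons (fin 908 7 844)
(mv 780 (cons (fin 845 7 780)
(mv 1166 (cons (fin 1102 4 909)
(mv 910 (cons (fin 846 6 845)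
(mv 1165 (cons (fin 974 6 909)
(fin 1230 4 973)))))))))))
(cons (mv 1102 (cons (fin 1166 4 909)
(mv 846 (cons (fin 910 6 845)
(mv 845 (cons (fin 782 6 781)
(mv 1036 (cons (fin 1100 5 844)
(mv 781 (cons (fin 972 5 780)
(mv 780 (cons (fin 716 7 716)
(fin 844 7 780)))))))))))))
(mv 844 (cons (fin 908 7 844)
(mv 845 (cons (fin 780 7 780)
(mv 1102 (cons (fin 1166 4 909)
(mv 782 (cons (fin 846 6 781)
(mv 781 (cons (fin 718 6 717)
(mv 1036 (cons (fin 972 5 780)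
(fin 1100 5 844)))))))))))))))
(cons (cons (mv 1102 (cons (fin 1166 4 909)
(mv 846 (cons (fin 910 6 845)
(mv 845 (cons (fin 782 6 781)
(mv 1036 (cons (fin 1100 5 844)
(mv 972 (cons (fin 781 5 780)
(mv 1165 (cons (fin 908 7 908)
(fin 1229 7 972)))))))))))))
(mv 844 (cons (fin 908 7 844)
(mv 845 (cons (fin 780 7 780)
(mv 1102 (cons (fin 1166 4 909)
(mv 1036 (cons (fin 1100 5 844)
(mv 972 (cons (fin 781 5 780)
(mv 1034 (cons (fin 1035 0 1034)
(mv 1165 (cons (fin 1229 7 972)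
(mv 1103 (cons (fin 1104 3 1036)
(mv 974 (cons (fin 910 6 909)
(mv 975 (cons (fin 976 1 972)
(fin 1039 0 972))))))))))))))))))))))
(cons (mv 846 (cons (fin 910 6 845)
(mv 845 (cons (fin 782 6 781)
(mv 844 (cons (fin 780 7 780)
(fin 908 7 844)))))))
(mv 844 (cons (fin 908 7 844)
(mv 1166 (cons (fin 1102 4 909)
(mv 910 (cons (fin 846 6 845)
(mv 1165 (cons (fin 974 6 909)
(fin 1230 4 973)))))))))))))
(mv 1165 (cons (cons (mv 908 (cons (fin 972 7 908)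
(mv 844 (cons (fin 909 7 844)
(mv 1230 (cons (fin 1166 4 973)
(mv 1228 (cons (fin 1164 5 972)
(mv 1229 (cons (fin 1292 5 1036)
(fin 1294 4 1037)))))))))))
(mv 1166 (cons (fin 1230 4 973)
(mv 909 (cons (fin 1102 4 909)
(mv 908 (cons (fin 844 7 844)
(fin 972 7 908))))))))
(cons (mv 1164 (cons (fin 1228 5 972)
(mv 909 (cons (fin 1100 5 908)
(mv 1166 (cons (fin 1102 4 909)
(fin 1230 4 973)))))))
(cons (mv 908 (cons (fin 972 7 908)
(mv 909 (cons (fin 844 7 844)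
(mv 1164 (cons (fin 1100 5 908)
(fin 1228 5 972)))))))
(mv 1164 (cons (fin 1228 5 972)
(mv 1230 (cons (fin 1166 4 973)
(mv 972 (cons (fin 908 7 908)
(mv 1229 (cons (fin 1036 7 972)
(fin 1294 4 1037))))))))))))))
(cons (mv 909 (cons (cons (mv 844 (cons (fin 908 7 844)
(mv 780 (cons (fin 845 7 780)
(mv 910 (cons (fin 846 6 845)
(mv 1164 (cons (fin 1100 5 908)
(mv 1165 (cons (fin 1228 5 972)
(fin 974 6 909)))))))))))
(mv 846 (cons (fin 910 6 845)
(mv 845 (cons (fin 782 6 781)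
(mv 1100 (cons (fin 1036 5 844)
(fin 1164 5 908))))))))
(cons (mv 1100 (cons (fin 1164 5 908)
(mv 845 (cons (fin 1036 5 844)
(mv 844 (cons (fin 780 7 780)
(fin 908 7 844)))))))
(cons (mv 844 (cons (fin 908 7 844)
(mv 845 (cons (fin 780 7 780)
(mv 846 (cons (fin 782 6 781)
(fin 910 6 845)))))))
(mv 846 (cons (fin 910 6 845)
(mv 1164 (cons (fin 1100 5 908)
(mv 908 (cons (fin 844 7 844)
(mv 1165 (cons (fin 972 7 908)
(fin 1228 5 972)))))))))))))
(mv 909 (cons (cons (mv 844 (cons (fin 908 7 844)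
(mv 780 (cons (fin 845 7 780)
(mv 1102 (cons (fin 1166 4 909)
(mv 910 (cons (fin 846 6 845)
(mv 1100 (cons (fin 1164 5 908)
(mv 1039 (cons (fin 1103 2 1036)
(mv 974 (cons (fin 1165 6 909)
(mv 972 (cons (fin 975 0 972)
(mv 911 (cons (fin 912 1 908)
(fin 971 2 907)))))))))))))))))))
(mv 846 (cons (fin 910 6 845)
(mv 782 (cons (fin 845 6 781)
(mv 1166 (cons (fin 1102 4 909)
(mv 1164 (cons (fin 1100 5 908)
(mv 1165 (cons (fin 1228 5 972)
(fin 1230 4 973))))))))))))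
(cons (mv 1102 (cons (fin 1166 4 909)
(mv 908 (cons (fin 844 7 844)
(mv 1164 (cons (fin 1100 5 908)
(mv 1165 (cons (fin 972 7 908)
(fin 1228 5 972)))))))))
(cons (mv 844 (cons (fin 908 7 844)
(mv 780 (cons (fin 845 7 780)
(mv 1166 (cons (fin 1102 4 909)
(mv 910 (cons (fin 846 6 845)
(mv 1165 (cons (fin 974 6 909)
(fin 1230 4 973)))))))))))
(mv 1100 (cons (fin 1164 5 908)
(mv 844 (cons (fin 908 7 844)
(mv 845 (cons (fin 780 7 780)
(mv 846 (cons (fin 782 6 781)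
(fin 910 6 845)))))))))))))))))
(mv 1165 (cons (cons (cons (mv 1229 (cons (cons (mv 972 (cons (fin 1036 7 972)
(mv 908 (cons (fin 973 7 908)
(mv 1294 (cons (fin 1230 4 1037)
(mv 1292 (cons (fin 1228 5 1036)
(mv 1293 (cons (fin 1356 5 1100)
(fin 1358 4 1101)))))))))))
(mv 1230 (cons (fin 1294 4 1037)
(mv 973 (cons (fin 1166 4 973)
(mv 972 (cons (fin 908 7 908)
(fin 1036 7 972))))))))
(cons (mv 972 (cons (fin 1036 7 972)
(mv 973 (cons (fin 908 7 908)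
(mv 1228 (cons (fin 1164 5 972)
(fin 1292 5 1036)))))))
(cons (mv 1228 (cons (fin 1292 5 1036)
(mv 973 (cons (fin 1164 5 972)
(mv 1230 (cons (fin 1166 4 973)
(fin 1294 4 1037)))))))
(mv 1230 (cons (fin 1294 4 1037)
(mv 1036 (cons (fin 972 7 972)
(mv 1292 (cons (fin 1228 5 1036)
(mv 1293 (cons (fin 1100 7 1036)
(fin 1356 5 1100)))))))))))))
(mv 973 (cons (cons (mv 908 (cons (fin 972 7 908)
(mv 909 (cons (fin 844 7 844)
(mv 1164 (cons (fin 1100 5 908)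
(fin 1228 5 972)))))))
(mv 908 (cons (fin 972 7 908)
(mv 909 (cons (fin 844 7 844)
(mv 1166 (cons (fin 1102 4 909)
(fin 1230 4 973))))))))
(cons (mv 1166 (cons (fin 1230 4 973)
(mv 909 (cons (fin 1102 4 909)
(mv 1164 (cons (fin 1100 5 908)
(fin 1228 5 972)))))))
(mv 1164 (cons (fin 1228 5 972)
(mv 908 (cons (fin 972 7 908)
(mv 1166 (cons (fin 1230 4 973)
(mv 1167 (cons (mv 1100 (cons (fin 1099 3 1099)
(fin 1168 3 1100)))
(cons (mv 1231 (cons (fin 1232 0 1164)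
(mv 1103 (cons (fin 1104 2 1100)
(mv 1163 (cons (fin 1102 2 1099)
(mv 976 (cons (fin 1039 6 975)
(mv 1098 (cons (fin 1099 3 1098)
(mv 1162 (cons (fin 1097 3 1097)
(mv 1226 (cons (fin 1225 1 1161)
(fin 1227 1 1162)))))))))))))))
(mv 1103 (cons (fin 1104 2 1100)
(mv 1102 (cons (fin 1163 2 1099)
(mv 1100 (cons (fin 1168 3 1100)
(fin 1039 2 1036))))))))))))))))))))
(cons (mv 1229 (cons (cons (mv 1230 (cons (fin 1294 4 1037)
(mv 1036 (cons (fin 972 7 972)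
(mv 1292 (cons (fin 1228 5 1036)
(mv 1293 (cons (fin 1100 7 1036)
(fin 1356 5 1100)))))))))
(mv 1294 (cons (fin 1230 4 1037)
(mv 1292 (cons (fin 1228 5 1036)
(mv 1293 (cons (fin 1356 5 1100)
(fin 1358 4 1101))))))))
(cons (mv 1294 (cons (fin 1230 4 1037)
(mv 1036 (cons (fin 972 7 972)
(mv 1293 (cons (fin 1100 7 1036)
(fin 1358 4 1101)))))))
(cons (mv 1292 (cons (fin 1228 5 1036)
(mv 1036 (cons (fin 972 7 972)
(mv 1293 (cons (fin 1100 7 1036)
(fin 1356 5 1100)))))))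
(mv 972 (cons (fin 1036 7 972)
(mv 1230 (cons (fin 1294 4 1037)
(mv 1228 (cons (fin 1292 5 1036)
(mv 1231 (cons (mv 1164 (cons (fin 1163 3 1163)
(fin 1232 3 1164)))
(mv 1295 (cons (fin 1296 0 1228)
(mv 1167 (cons (fin 1168 2 1164)
(mv 1166 (cons (fin 1227 2 1163)
(mv 1359 (cons (fin 1102 7 1102)
(fin 1423 7 1166)))))))))))))))))))))
(mv 1229 (cons (cons (mv 1230 (cons (fin 1294 4 1037)
(mv 973 (cons (fin 1166 4 973)
(mv 972 (cons (fin 908 7 908)
(fin 1036 7 972)))))))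
(mv 1293 (cons (cons (mv 1294 (cons (fin 1230 4 1037)
(fin 1358 4 1101)))
(mv 1356 (cons (fin 1292 5 1100)
(mv 1357 (cons (fin 1420 5 1164)
(mv 1100 (cons (fin 1164 7 1100)
(mv 1358 (cons (fin 1422 4 1165)
(mv 1166 (cons (fin 1102 6 1101)
(mv 1230 (cons (fin 1421 6 1165)
(fin 973 4 973))))))))))))))
(cons (mv 1356 (cons (fin 1292 5 1100)
(mv 1358 (cons (fin 1294 4 1101)
(mv 1357 (cons (fin 1420 5 1164)
(fin 1422 4 1165)))))))
(mv 1292 (cons (fin 1356 5 1100)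
(mv 1230 (cons (fin 1294 4 1037)
(mv 1166 (cons (fin 973 4 973)
(mv 1357 (cons (fin 1102 6 1101)
(fin 1421 6 1165)))))))))))))
(cons (mv 1036 (cons (fin 972 7 972)
(mv 1293 (cons (fin 1100 7 1036)
(mv 1356 (cons (fin 1292 5 1100)
(mv 1358 (cons (fin 1294 4 1101)
(mv 1357 (cons (fin 1420 5 1164)
(fin 1422 4 1165)))))))))))
(mv 1036 (cons (fin 972 7 972)
(mv 1293 (cons (fin 1100 7 1036)
(mv 1356 (cons (fin 1292 5 1100)
(mv 1357 (cons (fin 1420 5 1164)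
(mv 1166 (cons (fin 1102 6 1101)
(mv 1230 (cons (fin 1421 6 1165)
(fin 973 4 973))))))))))))))))))
(cons (cons (mv 973 (cons (cons (mv 908 (cons (fin 972 7 908)
(mv 909 (cons (fin 844 7 844)
(mv 1164 (cons (fin 1100 5 908)
(fin 1228 5 972)))))))
(mv 972 (cons (fin 908 7 908)
(mv 1036 (cons (fin 1229 7 972)
(mv 974 (cons (mv 975 (cons (fin 1035 1 971)
(fin 976 1 972)))
(cons (mv 971 (cons (cons (mv 1034 (cons (fin 1035 1 970)
(mv 970 (cons (fin 1033 1 969)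
(fin 969 0 969)))))
(mv 969 (cons (fin 970 0 969)
(mv 907 (cons (fin 906 3 906)
(mv 843 (cons (fin 779 4 779)
(mv 1100 (cons (fin 1035 4 843)
(mv 909 (cons (fin 845 5 844)
(mv 1102 (cons (fin 1166 4 909)
(mv 1103 (cons (fin 1104 3 1036)
(fin 1039 2 1036))))))))))))))))
(cons (mv 906 (cons (fin 907 3 906)
(mv 970 (cons (fin 905 3 905)
(fin 969 0 969)))))
(mv 1035 (cons (fin 1034 1 970)
(mv 907 (cons (fin 906 3 906)
(mv 843 (cons (fin 779 4 779)
(fin 1100 4 843))))))))))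
(mv 975 (cons (fin 976 1 972)
(fin 1039 0 972)))))))))))
(cons (mv 1164 (cons (fin 1228 5 972)
(mv 1100 (cons (fin 909 5 908)
(mv 1102 (cons (mv 1103 (cons (fin 1163 1 1099)
(fin 1104 1 1100)))
(cons (mv 1163 (cons (fin 1162 2 1098)
(mv 1099 (cons (mv 1166 (cons (fin 1098 3 1098)
(fin 1167 3 1099)))
(cons (mv 1034 (cons (fin 1035 3 1034)
(mv 1098 (cons (fin 1033 3 1033)
(fin 1097 0 1097)))))
(mv 1034 (cons (fin 1035 3 1034)
(mv 1166 (cons (fin 1167 3 1099)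
(mv 1227 (cons (fin 1226 1 1162)
(mv 1291 (cons (fin 1036 6 1035)
(fin 1355 6 1099))))))))))))))
(mv 1103 (cons (fin 1104 1 1100)
(fin 1039 2 1036))))))))))
(mv 1228 (cons (fin 1164 5 972)
(mv 972 (cons (fin 908 7 908)
(mv 1229 (cons (fin 1036 7 972)
(fin 1292 5 1036))))))))))
(mv 1229 (cons (cons (mv 1228 (cons (fin 1292 5 1036)
(mv 973 (cons (fin 1164 5 972)
(mv 1230 (cons (fin 1166 4 973)
(fin 1294 4 1037)))))))
(cons (mv 1294 (cons (fin 1230 4 1037)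
(mv 1293 (cons (fin 1358 4 1101)
(mv 1356 (cons (fin 1292 5 1100)
(mv 1100 (cons (fin 1036 7 1036)
(mv 1357 (cons (fin 1164 7 1100)
(fin 1420 5 1164)))))))))))
(mv 1292 (cons (fin 1228 5 1036)
(mv 1293 (cons (fin 1356 5 1100)
(mv 1100 (cons (fin 1036 7 1036)
(mv 1358 (cons (fin 1294 4 1101)
(mv 1357 (cons (fin 1164 7 1100)
(fin 1422 4 1165)))))))))))))
(cons (mv 1230 (cons (fin 1294 4 1037)
(mv 973 (cons (fin 1166 4 973)
(mv 1164 (cons (fin 1228 5 972)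
(mv 1100 (cons (fin 909 5 908)
(mv 1293 (cons (fin 1036 7 1036)
(fin 1357 7 1100)))))))))))
(cons (mv 1228 (cons (fin 1292 5 1036)
(mv 973 (cons (fin 1164 5 972)
(mv 1166 (cons (fin 1230 4 973)
(mv 1102 (cons (fin 909 4 909)
(mv 1226 (cons (fin 1227 2 1162)
(mv 1293 (cons (fin 1357 6 1101)
(mv 1100 (cons (fin 1036 7 1036)
(mv 1167 (cons (fin 1168 3 1100)
(fin 1099 0 1099)))))))))))))))))
(mv 1228 (cons (fin 1292 5 1036)
(mv 1230 (cons (fin 1294 4 1037)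
(mv 1166 (cons (fin 973 4 973)
(mv 1167 (cons (fin 1168 1 1164)
(fin 1227 2 1163))))))))))))))
(cons (mv 1229 (cons (cons (mv 972 (cons (fin 1036 7 972)
(mv 908 (cons (fin 973 7 908)
(mv 1294 (cons (fin 1230 4 1037)
(mv 1292 (cons (fin 1228 5 1036)
(mv 1293 (cons (fin 1356 5 1100)
(fin 1358 4 1101)))))))))))
(mv 1230 (cons (fin 1294 4 1037)
(mv 1166 (cons (fin 973 4 973)
(mv 1228 (cons (fin 1292 5 1036)
(mv 1167 (cons (fin 1168 1 1164)
(fin 1227 2 1163))))))))))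
(cons (mv 1292 (cons (fin 1228 5 1036)
(mv 1036 (cons (fin 972 7 972)
(mv 1293 (cons (fin 1100 7 1036)
(fin 1356 5 1100)))))))
(mv 1230 (cons (fin 1294 4 1037)
(mv 973 (cons (fin 1166 4 973)
(mv 972 (cons (fin 908 7 908)
(fin 1036 7 972))))))))))
(cons (mv 1229 (cons (cons (mv 972 (cons (fin 1036 7 972)
(mv 908 (cons (fin 973 7 908)
(mv 1294 (cons (fin 1230 4 1037)
(mv 1292 (cons (fin 1228 5 1036)
(mv 1293 (cons (fin 1356 5 1100)
(fin 1358 4 1101)))))))))))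
(mv 1230 (cons (fin 1294 4 1037)
(mv 1228 (cons (fin 1292 5 1036)
(mv 1164 (cons (fin 973 5 972)
(mv 1163 (cons (fin 1231 3 1163)
(fin 1162 0 1162))))))))))
(cons (mv 1036 (cons (fin 972 7 972)
(mv 1294 (cons (fin 1230 4 1037)
(mv 1293 (cons (fin 1100 7 1036)
(fin 1358 4 1101)))))))
(mv 972 (cons (fin 1036 7 972)
(mv 973 (cons (fin 908 7 908)
(mv 1228 (cons (fin 1164 5 972)
(fin 1292 5 1036))))))))))
(mv 1229 (cons (cons (mv 972 (cons (fin 1036 7 972)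
(mv 908 (cons (fin 973 7 908)
(mv 1294 (cons (fin 1230 4 1037)
(mv 1292 (cons (fin 1228 5 1036)
(mv 1293 (cons (fin 1356 5 1100)
(fin 1358 4 1101)))))))))))
(mv 972 (cons (fin 1036 7 972)
(mv 973 (cons (fin 908 7 908)
(mv 1228 (cons (fin 1164 5 972)
(fin 1292 5 1036))))))))
(cons (mv 1230 (cons (fin 1294 4 1037)
(mv 973 (cons (fin 1166 4 973)
(mv 972 (cons (fin 908 7 908)
(fin 1036 7 972)))))))
(cons (mv 1228 (cons (fin 1292 5 1036)
(mv 973 (cons (fin 1164 5 972)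
(mv 1230 (cons (fin 1166 4 973)
(fin 1294 4 1037)))))))
(mv 1294 (cons (fin 1230 4 1037)
(mv 972 (cons (fin 1036 7 972)
(mv 1293 (cons (fin 1358 4 1101)
(mv 1292 (cons (fin 1228 5 1036)
(fin 1356 5 1100)))))))))))))))))))
(cons (mv 1165 (cons (cons (cons (mv 1229 (cons (cons (mv 972 (cons (fin 1036 7 972)
(mv 1230 (cons (fin 1294 4 1037)
(mv 973 (cons (fin 1166 4 973)
(mv 1228 (cons (fin 1164 5 972)
(fin 1292 5 1036)))))))))
(mv 1036 (cons (fin 972 7 972)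
(mv 1230 (cons (fin 1294 4 1037)
(mv 973 (cons (fin 1166 4 973)
(mv 910 (cons (fin 974 6 909)
(mv 909 (cons (fin 846 6 845)
(mv 1100 (cons (fin 1293 7 1036)
(fin 845 5 844))))))))))))))
(cons (mv 1036 (cons (fin 972 7 972)
(mv 1228 (cons (fin 1292 5 1036)
(mv 973 (cons (fin 1164 5 972)
(mv 1100 (cons (fin 1293 7 1036)
(mv 910 (cons (fin 974 6 909)
(mv 909 (cons (fin 845 5 844)
(fin 846 6 845)))))))))))))
(cons (mv 1230 (cons (fin 1294 4 1037)
(mv 973 (cons (fin 1166 4 973)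
(mv 1228 (cons (fin 1164 5 972)
(fin 1292 5 1036)))))))
(mv 1228 (cons (fin 1292 5 1036)
(mv 1036 (cons (fin 972 7 972)
(mv 1294 (cons (fin 1230 4 1037)
(mv 1293 (cons (fin 1100 7 1036)
(fin 1358 4 1101)))))))))))))
(mv 973 (cons (cons (mv 1164 (cons (fin 1228 5 972)
(mv 909 (cons (fin 1100 5 908)
(mv 910 (cons (fin 846 6 845)
(fin 974 6 909)))))))
(mv 1166 (cons (fin 1230 4 973)
(mv 909 (cons (fin 1102 4 909)
(mv 910 (cons (fin 846 6 845)
(fin 974 6 909))))))))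
(cons (mv 1166 (cons (fin 1230 4 973)
(mv 909 (cons (fin 1102 4 909)
(mv 1164 (cons (fin 1100 5 908)
(fin 1228 5 972)))))))
(mv 1166 (cons (fin 1230 4 973)
(mv 910 (cons (fin 974 6 909)
(mv 1164 (cons (fin 1228 5 972)
(mv 1167 (cons (mv 1100 (cons (fin 1099 3 1099)
(fin 1168 3 1100)))
(cons (mv 1231 (cons (fin 1232 0 1164)
(mv 1103 (cons (fin 1104 2 1100)
(mv 1163 (cons (fin 1102 2 1099)
(mv 976 (cons (fin 1039 6 975)
(mv 1098 (cons (fin 1099 3 1098)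
(mv 1162 (cons (fin 1097 3 1097)
(mv 1226 (cons (fin 1225 1 1161)
(fin 1227 1 1162)))))))))))))))
(mv 1103 (cons (fin 1104 2 1100)
(mv 1102 (cons (fin 1163 2 1099)
(mv 1100 (cons (fin 1168 3 1100)
(fin 1039 2 1036))))))))))))))))))))
(cons (mv 1229 (cons (cons (mv 1228 (cons (fin 1292 5 1036)
(mv 1036 (cons (fin 972 7 972)
(mv 1294 (cons (fin 1230 4 1037)
(mv 1293 (cons (fin 1100 7 1036)
(fin 1358 4 1101)))))))))
(mv 1294 (cons (fin 1230 4 1037)
(mv 1292 (cons (fin 1228 5 1036)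
(mv 1293 (cons (fin 1356 5 1100)
(fin 1358 4 1101))))))))
(cons (mv 1294 (cons (fin 1230 4 1037)
(mv 1036 (cons (fin 972 7 972)
(mv 1293 (cons (fin 1100 7 1036)
(fin 1358 4 1101)))))))
(cons (mv 1292 (cons (fin 1228 5 1036)
(mv 1036 (cons (fin 972 7 972)
(mv 1293 (cons (fin 1100 7 1036)
(fin 1356 5 1100)))))))
(mv 972 (cons (fin 1036 7 972)
(mv 1230 (cons (fin 1294 4 1037)
(mv 1228 (cons (fin 1292 5 1036)
(mv 1231 (cons (mv 1164 (cons (fin 1163 3 1163)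
(fin 1232 3 1164)))
(mv 1295 (cons (fin 1296 0 1228)
(mv 1167 (cons (fin 1168 2 1164)
(mv 1166 (cons (fin 1227 2 1163)
(mv 1359 (cons (fin 1102 7 1102)
(fin 1423 7 1166)))))))))))))))))))))
(mv 1229 (cons (cons (mv 1036 (cons (fin 972 7 972)
(mv 1230 (cons (fin 1294 4 1037)
(mv 973 (cons (fin 1166 4 973)
(mv 910 (cons (fin 974 6 909)
(mv 909 (cons (fin 846 6 845)
(mv 1100 (cons (fin 1293 7 1036)
(fin 845 5 844)))))))))))))
(cons (mv 1036 (cons (fin 972 7 972)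
(mv 1293 (cons (fin 1100 7 1036)
(mv 1356 (cons (fin 1292 5 1100)
(mv 1358 (cons (fin 1294 4 1101)
(mv 1357 (cons (fin 1420 5 1164)
(fin 1422 4 1165)))))))))))
(mv 1293 (cons (cons (mv 1294 (cons (fin 1230 4 1037)
(fin 1358 4 1101)))
(mv 1356 (cons (fin 1292 5 1100)
(mv 1357 (cons (fin 1420 5 1164)
(mv 1100 (cons (fin 1164 7 1100)
(mv 1358 (cons (fin 1422 4 1165)
(mv 1166 (cons (fin 1102 6 1101)
(mv 1230 (cons (fin 1421 6 1165)
(fin 973 4 973))))))))))))))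
(cons (mv 1356 (cons (fin 1292 5 1100)
(mv 1358 (cons (fin 1294 4 1101)
(mv 1357 (cons (fin 1420 5 1164)
(fin 1422 4 1165)))))))
(mv 1292 (cons (fin 1356 5 1100)
(mv 1230 (cons (fin 1294 4 1037)
(mv 1166 (cons (fin 973 4 973)
(mv 1357 (cons (fin 1102 6 1101)
(fin 1421 6 1165))))))))))))))
(cons (mv 1036 (cons (fin 972 7 972)
(mv 1293 (cons (fin 1100 7 1036)
(mv 1356 (cons (fin 1292 5 1100)
(mv 1357 (cons (fin 1420 5 1164)
(mv 1166 (cons (fin 1102 6 1101)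
(mv 1230 (cons (fin 1421 6 1165)
(fin 973 4 973)))))))))))))
(cons (mv 1036 (cons (fin 972 7 972)
(mv 1230 (cons (fin 1294 4 1037)
(mv 973 (cons (fin 1166 4 973)
(mv 910 (cons (fin 974 6 909)
(mv 909 (cons (fin 846 6 845)
(mv 1100 (cons (fin 845 5 844)
(fin 1164 5 908)))))))))))))
(mv 972 (cons (fin 1036 7 972)
(mv 1293 (cons (mv 1294 (cons (fin 1230 4 1037)
(fin 1358 4 1101)))
(cons (mv 1356 (cons (fin 1292 5 1100)
(mv 1357 (cons (fin 1420 5 1164)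
(mv 1166 (cons (fin 1102 6 1101)
(mv 1230 (cons (fin 1421 6 1165)
(fin 973 4 973)))))))))
(mv 1356 (cons (fin 1292 5 1100)
(mv 1358 (cons (fin 1294 4 1101)
(mv 1357 (cons (fin 1420 5 1164)
(fin 1422 4 1165))))))))))))))))))
(cons (cons (mv 1228 (cons (cons (mv 1229 (cons (fin 1292 5 1036)
(mv 1036 (cons (fin 972 7 972)
(mv 973 (cons (fin 1164 5 972)
(mv 1100 (cons (fin 1293 7 1036)
(mv 910 (cons (fin 974 6 909)
(mv 909 (cons (fin 845 5 844)
(fin 846 6 845)))))))))))))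
(cons (mv 1229 (cons (fin 1292 5 1036)
(mv 1036 (cons (fin 972 7 972)
(mv 1100 (cons (fin 1293 7 1036)
(mv 973 (cons (cons (mv 910 (cons (fin 974 6 909)
(mv 909 (cons (fin 845 5 844)
(fin 846 6 845)))))
(mv 974 (cons (fin 910 6 909)
(mv 1035 (cons (fin 1034 2 970)
(mv 1102 (cons (fin 1103 3 1035)
(mv 975 (cons (fin 976 1 972)
(mv 1099 (cons (mv 1098 (cons (fin 1097 2 1033)
(fin 1166 0 1098)))
(cons (mv 1162 (cons (fin 1163 1 1098)
(mv 1098 (cons (fin 1161 1 1097)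
(fin 1097 2 1033)))))
(mv 1166 (cons (fin 1167 0 1099)
(mv 1227 (cons (fin 1226 2 1162)
(mv 1163 (cons (fin 1162 1 1098)
(fin 1291 6 1035)))))))))))))))))))
(cons (mv 909 (cons (fin 845 5 844)
(mv 846 (cons (fin 910 6 845)
(mv 1102 (cons (fin 1166 4 909)
(mv 1035 (cons (fin 1103 3 1035)
(fin 1034 0 1034)))))))))
(mv 909 (cons (fin 845 5 844)
(mv 1102 (cons (fin 1166 4 909)
(mv 1035 (cons (fin 1103 3 1035)
(fin 1034 0 1034))))))))))))))))
(mv 973 (cons (fin 1164 5 972)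
(mv 1036 (cons (cons (mv 910 (cons (fin 974 6 909)
(mv 909 (cons (fin 846 6 845)
(mv 1102 (cons (fin 1166 4 909)
(mv 1103 (cons (fin 1104 3 1036)
(mv 1035 (cons (fin 1100 3 1035)
(fin 1034 0 1034)))))))))))
(mv 1229 (cons (fin 972 7 972)
(mv 1100 (cons (fin 1293 7 1036)
(mv 909 (cons (fin 845 5 844)
(mv 846 (cons (fin 910 6 845)
(mv 1102 (cons (fin 1166 4 909)
(mv 1035 (cons (fin 1103 3 1035)
(fin 1034 0 1034))))))))))))))
(cons (mv 1229 (cons (fin 972 7 972)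
(mv 1100 (cons (fin 1293 7 1036)
(mv 909 (cons (fin 845 5 844)
(mv 1102 (cons (fin 1166 4 909)
(mv 1035 (cons (fin 1103 3 1035)
(fin 1034 0 1034)))))))))))
(cons (mv 972 (cons (fin 1229 7 972)
(mv 974 (cons (fin 910 6 909)
(mv 975 (cons (fin 1035 1 971)
(fin 976 1 972)))))))
(mv 910 (cons (fin 974 6 909)
(mv 909 (cons (fin 846 6 845)
(mv 972 (cons (fin 1229 7 972)
(mv 845 (cons (fin 781 5 780)
(fin 1100 5 844)))))))))))))))))
(cons (mv 1164 (cons (fin 973 5 972)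
(mv 1292 (cons (fin 1100 6 1036)
(fin 1356 6 1100)))))
(cons (mv 1229 (cons (fin 1292 5 1036)
(mv 1036 (cons (fin 972 7 972)
(mv 1293 (cons (fin 1100 7 1036)
(mv 1358 (cons (fin 1294 4 1101)
(mv 1357 (cons (fin 1422 4 1165)
(mv 1102 (cons (fin 1166 6 1101)
(mv 1034 (cons (fin 1035 0 1034)
(mv 1103 (cons (fin 1104 3 1036)
(mv 1420 (cons (fin 1356 5 1164)
(mv 1421 (cons (fin 1164 7 1164)
(fin 1484 5 1228)))))))))))))))))))))
(mv 1292 (cons (fin 1229 5 1036)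
(mv 1164 (cons (fin 973 5 972)
(fin 1356 6 1100)))))))))
(mv 1229 (cons (cons (mv 972 (cons (fin 1036 7 972)
(mv 1228 (cons (fin 1292 5 1036)
(mv 1230 (cons (fin 1294 4 1037)
(mv 1166 (cons (fin 973 4 973)
(mv 1167 (cons (fin 1168 1 1164)
(fin 1227 2 1163)))))))))))
(mv 1036 (cons (fin 972 7 972)
(mv 1228 (cons (fin 1292 5 1036)
(mv 1100 (cons (fin 1293 7 1036)
(mv 973 (cons (cons (mv 910 (cons (fin 974 6 909)
(mv 909 (cons (fin 845 5 844)
(fin 846 6 845)))))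
(mv 974 (cons (fin 910 6 909)
(mv 1035 (cons (fin 1034 2 970)
(mv 1102 (cons (fin 1103 3 1035)
(mv 975 (cons (fin 976 1 972)
(mv 1099 (cons (mv 1098 (cons (fin 1097 2 1033)
(fin 1166 0 1098)))
(cons (mv 1162 (cons (fin 1163 1 1098)
(mv 1098 (cons (fin 1161 1 1097)
(fin 1097 2 1033)))))
(mv 1166 (cons (fin 1167 0 1099)
(mv 1227 (cons (fin 1226 2 1162)
(mv 1163 (cons (fin 1162 1 1098)
(fin 1291 6 1035)))))))))))))))))))
(cons (mv 909 (cons (fin 845 5 844)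
(mv 846 (cons (fin 910 6 845)
(mv 1102 (cons (fin 1166 4 909)
(mv 1035 (cons (fin 1103 3 1035)
(fin 1034 0 1034)))))))))
(mv 909 (cons (fin 845 5 844)
(mv 1102 (cons (fin 1166 4 909)
(mv 1035 (cons (fin 1103 3 1035)
(fin 1034 0 1034)))))))))))))))))
(cons (mv 1230 (cons (fin 1294 4 1037)
(mv 1166 (cons (fin 973 4 973)
(mv 1228 (cons (fin 1292 5 1036)
(mv 1167 (cons (fin 1168 1 1164)
(fin 1227 2 1163)))))))))
(cons (mv 1036 (cons (fin 972 7 972)
(mv 1230 (cons (fin 1294 4 1037)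
(mv 973 (cons (fin 1166 4 973)
(mv 910 (cons (fin 974 6 909)
(mv 909 (cons (fin 846 6 845)
(mv 1100 (cons (fin 1293 7 1036)
(fin 845 5 844)))))))))))))
(mv 972 (cons (fin 1036 7 972)
(mv 1292 (cons (fin 1228 5 1036)
(mv 1294 (cons (fin 1230 4 1037)
(mv 1293 (cons (fin 1356 5 1100)
(fin 1358 4 1101))))))))))))))
(cons (mv 1229 (cons (cons (mv 972 (cons (fin 1036 7 972)
(mv 1228 (cons (fin 1292 5 1036)
(mv 1164 (cons (fin 973 5 972)
(mv 1230 (cons (fin 1294 4 1037)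
(mv 1163 (cons (fin 1231 3 1163)
(fin 1162 0 1162)))))))))))
(mv 1294 (cons (fin 1230 4 1037)
(mv 1036 (cons (fin 972 7 972)
(mv 1293 (cons (fin 1100 7 1036)
(fin 1358 4 1101))))))))
(cons (mv 1230 (cons (fin 1294 4 1037)
(mv 1228 (cons (fin 1292 5 1036)
(mv 1164 (cons (fin 973 5 972)
(mv 1163 (cons (fin 1231 3 1163)
(fin 1162 0 1162)))))))))
(mv 1228 (cons (fin 1292 5 1036)
(mv 973 (cons (fin 1164 5 972)
(mv 1036 (cons (fin 972 7 972)
(mv 1100 (cons (fin 1293 7 1036)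
(mv 910 (cons (fin 974 6 909)
(mv 909 (cons (fin 845 5 844)
(fin 846 6 845))))))))))))))))
(mv 973 (cons (cons (mv 1164 (cons (fin 1228 5 972)
(mv 1166 (cons (fin 1230 4 973)
(mv 909 (cons (fin 1102 4 909)
(mv 910 (cons (fin 846 6 845)
(fin 974 6 909)))))))))
(mv 974 (cons (fin 910 6 909)
(mv 1164 (cons (fin 1228 5 972)
(mv 975 (cons (cons (mv 976 (cons (fin 1036 1 972)
(mv 972 (cons (fin 1039 0 972)
(mv 912 (cons (fin 911 2 908)
(fin 913 2 909)))))))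
(mv 976 (cons (fin 1036 1 972)
(mv 912 (cons (fin 913 2 909)
(mv 1104 (cons (mv 911 (cons (fin 847 7 847)
(fin 1168 7 911)))
(mv 1103 (cons (fin 1102 1 1100)
(fin 1167 5 911))))))))))
(cons (mv 1039 (cons (fin 972 0 972)
(mv 1104 (cons (cons (mv 1102 (cons (fin 1103 1 1100)
(mv 911 (cons (fin 847 4 847)
(mv 1168 (cons (fin 976 7 911)
(fin 1232 7 975)))))))
(mv 1103 (cons (fin 1102 1 1100)
(mv 911 (cons (fin 847 4 847)
(mv 912 (cons (fin 848 6 847)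
(mv 913 (cons (fin 914 1 910)
(fin 976 2 909))))))))))
(cons (mv 1168 (cons (fin 1232 7 975)
(mv 1103 (cons (fin 1102 1 1100)
(mv 976 (cons (mv 912 (cons (fin 913 2 909)
(fin 848 5 847)))
(cons (mv 1169 (cons (fin 1233 4 976)
(mv 1171 (cons (fin 1170 3 1103)
(mv 977 (cons (fin 913 6 912)
(mv 978 (cons (fin 979 1 975)
(mv 914 (cons (fin 915 2 911)
(mv 1042 (cons (fin 1043 0 975)
(mv 1106 (cons (fin 1105 5 913)
(fin 1107 4 914)))))))))))))))
(mv 1167 (cons (fin 912 5 911)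
(fin 1231 5 975))))))))))
(cons (mv 911 (cons (fin 847 4 847)
(mv 1168 (cons (fin 976 7 911)
(fin 1232 7 975)))))
(mv 1168 (cons (fin 1232 7 975)
(mv 911 (cons (fin 847 4 847)
(fin 1103 4 911)))))))))))
(mv 972 (cons (fin 1039 0 972)
(mv 1036 (cons (fin 1035 1 971)
(fin 1229 7 972)))))))))))))
(cons (mv 1166 (cons (fin 1230 4 973)
(mv 909 (cons (fin 1102 4 909)
(mv 910 (cons (fin 846 6 845)
(fin 974 6 909)))))))
(cons (mv 1164 (cons (fin 1228 5 972)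
(mv 1166 (cons (fin 1230 4 973)
(mv 1102 (cons (fin 909 4 909)
(mv 1103 (cons (fin 1104 1 1100)
(fin 1163 2 1099)))))))))
(mv 1230 (cons (fin 1166 4 973)
(mv 910 (cons (fin 974 6 909)
(mv 846 (cons (fin 909 6 845)
(mv 1229 (cons (fin 1294 4 1037)
(mv 1228 (cons (fin 1164 5 972)
(fin 1292 5 1036)))))))))))))))))))
(mv 1165 (cons (cons (cons (mv 973 (cons (cons (mv 908 (cons (fin 972 7 908)
(mv 1230 (cons (fin 1166 4 973)
(mv 910 (cons (fin 974 6 909)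
(mv 1229 (cons (fin 1294 4 1037)
(mv 1228 (cons (fin 1164 5 972)
(fin 1292 5 1036)))))))))))
(mv 1228 (cons (fin 1164 5 972)
(mv 910 (cons (fin 974 6 909)
(mv 1229 (cons (fin 1292 5 1036)
(mv 1230 (cons (fin 1166 4 973)
(fin 1294 4 1037))))))))))
(cons (mv 1166 (cons (fin 1230 4 973)
(mv 974 (cons (fin 910 6 909)
(mv 972 (cons (fin 908 7 908)
(mv 975 (cons (fin 1039 0 972)
(mv 1036 (cons (fin 1035 1 971)
(fin 976 1 972)))))))))))
(cons (mv 972 (cons (fin 908 7 908)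
(mv 1164 (cons (fin 1228 5 972)
(mv 1036 (cons (fin 1229 7 972)
(mv 974 (cons (fin 910 6 909)
(mv 975 (cons (fin 1035 1 971)
(fin 976 1 972)))))))))))
(mv 1166 (cons (fin 1230 4 973)
(mv 1228 (cons (fin 1164 5 972)
(mv 972 (cons (fin 908 7 908)
(mv 1229 (cons (fin 1036 7 972)
(fin 1292 5 1036)))))))))))))
(mv 1229 (cons (cons (mv 972 (cons (fin 1036 7 972)
(mv 1294 (cons (fin 1230 4 1037)
(mv 1292 (cons (fin 1228 5 1036)
(mv 1293 (cons (fin 1356 5 1100)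
(fin 1358 4 1101)))))))))
(mv 1294 (cons (fin 1230 4 1037)
(mv 1292 (cons (fin 1228 5 1036)
(mv 1293 (cons (fin 1356 5 1100)
(fin 1358 4 1101))))))))
(cons (mv 1294 (cons (fin 1230 4 1037)
(mv 1036 (cons (fin 972 7 972)
(mv 1293 (cons (fin 1100 7 1036)
(fin 1358 4 1101)))))))
(cons (mv 1292 (cons (fin 1228 5 1036)
(mv 1036 (cons (fin 972 7 972)
(mv 1293 (cons (fin 1100 7 1036)
(fin 1356 5 1100)))))))
(mv 1228 (cons (fin 1292 5 1036)
(mv 1230 (cons (fin 1294 4 1037)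
(mv 972 (cons (fin 1036 7 972)
(mv 1231 (cons (mv 1164 (cons (fin 1163 3 1163)
(fin 1232 3 1164)))
(mv 1295 (cons (fin 1296 0 1228)
(mv 1167 (cons (fin 1168 2 1164)
(mv 1166 (cons (fin 1227 2 1163)
(mv 1359 (cons (fin 1102 7 1102)
(fin 1423 7 1166))))))))))))))))))))))
(cons (mv 973 (cons (cons (mv 972 (cons (fin 908 7 908)
(mv 1164 (cons (fin 1228 5 972)
(mv 974 (cons (fin 910 6 909)
(mv 1166 (cons (fin 1230 4 973)
(mv 975 (cons (fin 1039 0 972)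
(mv 1036 (cons (fin 1035 1 971)
(fin 976 1 972)))))))))))))
(cons (mv 1166 (cons (fin 1230 4 973)
(mv 972 (cons (fin 908 7 908)
(mv 974 (cons (fin 910 6 909)
(mv 975 (cons (fin 1039 0 972)
(mv 1036 (cons (fin 1035 1 971)
(fin 976 1 972)))))))))))
(mv 974 (cons (fin 910 6 909)
(mv 1164 (cons (fin 1228 5 972)
(mv 972 (cons (fin 908 7 908)
(mv 975 (cons (fin 1039 0 972)
(mv 1036 (cons (fin 1035 1 971)
(fin 976 1 972)))))))))))))
(cons (mv 1164 (cons (fin 1228 5 972)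
(mv 910 (cons (fin 974 6 909)
(mv 1166 (cons (fin 1230 4 973)
(mv 1167 (cons (mv 1100 (cons (fin 1099 3 1099)
(fin 1168 3 1100)))
(cons (mv 1231 (cons (fin 1232 0 1164)
(mv 1103 (cons (fin 1104 2 1100)
(mv 1163 (cons (fin 1102 2 1099)
(mv 976 (cons (fin 1039 6 975)
(mv 1098 (cons (fin 1099 3 1098)
(mv 1162 (cons (fin 1097 3 1097)
(mv 1226 (cons (fin 1225 1 1161)
(fin 1227 1 1162)))))))))))))))
(mv 1103 (cons (fin 1104 2 1100)
(mv 1102 (cons (fin 1163 2 1099)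
(mv 1100 (cons (fin 1168 3 1100)
(fin 1039 2 1036))))))))))))))))
(cons (mv 908 (cons (fin 972 7 908)
(mv 1164 (cons (fin 1228 5 972)
(mv 1166 (cons (fin 1230 4 973)
(mv 1167 (cons (mv 1100 (cons (fin 1099 3 1099)
(fin 1168 3 1100)))
(cons (mv 1231 (cons (fin 1232 0 1164)
(mv 1103 (cons (fin 1104 2 1100)
(mv 1163 (cons (fin 1102 2 1099)
(mv 976 (cons (fin 1039 6 975)
(mv 1098 (cons (fin 1099 3 1098)
(mv 1162 (cons (fin 1097 3 1097)
(mv 1226 (cons (fin 1225 1 1161)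
(fin 1227 1 1162)))))))))))))))
(mv 1103 (cons (fin 1104 2 1100)
(mv 1102 (cons (fin 1163 2 1099)
(mv 1100 (cons (fin 1168 3 1100)
(fin 1039 2 1036))))))))))))))))
(mv 908 (cons (fin 972 7 908)
(mv 910 (cons (fin 974 6 909)
(mv 1164 (cons (fin 1228 5 972)
(mv 1166 (cons (fin 1230 4 973)
(mv 1167 (cons (mv 1100 (cons (fin 1099 3 1099)
(fin 1168 3 1100)))
(cons (mv 1231 (cons (fin 1232 0 1164)
(mv 1103 (cons (fin 1104 2 1100)
(mv 1163 (cons (fin 1102 2 1099)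
(mv 1226 (cons (fin 1227 1 1162)
(mv 1162 (cons (fin 1225 1 1161)
(mv 1098 (cons (fin 1097 3 1097)
(fin 1099 3 1098)))))))))))))
(mv 1103 (cons (fin 1104 2 1100)
(mv 1102 (cons (fin 1163 2 1099)
(mv 1168 (cons (fin 1100 3 1100)
(fin 1169 3 1101))))))))))))))))))))))
(mv 1229 (cons (cons (mv 1230 (cons (fin 1294 4 1037)
(mv 973 (cons (fin 1166 4 973)
(mv 972 (cons (fin 908 7 908)
(fin 1036 7 972)))))))
(mv 1036 (cons (fin 972 7 972)
(mv 1293 (cons (fin 1100 7 1036)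
(mv 1356 (cons (fin 1292 5 1100)
(mv 1358 (cons (fin 1294 4 1101)
(mv 1357 (cons (fin 1420 5 1164)
(fin 1422 4 1165))))))))))))
(cons (mv 1293 (cons (cons (mv 1294 (cons (fin 1230 4 1037)
(fin 1358 4 1101)))
(mv 1356 (cons (fin 1292 5 1100)
(mv 1357 (cons (fin 1420 5 1164)
(mv 1100 (cons (fin 1164 7 1100)
(mv 1358 (cons (fin 1422 4 1165)
(mv 1166 (cons (fin 1102 6 1101)
(mv 1230 (cons (fin 1421 6 1165)
(fin 973 4 973))))))))))))))
(cons (mv 1356 (cons (fin 1292 5 1100)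
(mv 1358 (cons (fin 1294 4 1101)
(mv 1357 (cons (fin 1420 5 1164)
(fin 1422 4 1165)))))))
(mv 1292 (cons (fin 1356 5 1100)
(mv 1230 (cons (fin 1294 4 1037)
(mv 1166 (cons (fin 973 4 973)
(mv 1357 (cons (fin 1102 6 1101)
(fin 1421 6 1165))))))))))))
(mv 1036 (cons (fin 972 7 972)
(mv 1293 (cons (fin 1100 7 1036)
(mv 1356 (cons (fin 1292 5 1100)
(mv 1357 (cons (fin 1420 5 1164)
(mv 1166 (cons (fin 1102 6 1101)
(mv 1230 (cons (fin 1421 6 1165)
(fin 973 4 973))))))))))))))))))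
(cons (cons (mv 972 (cons (cons (mv 908 (cons (fin 973 7 908)
(mv 1036 (cons (fin 1229 7 972)
(fin 844 4 844)))))
(mv 973 (cons (fin 908 7 908)
(mv 1164 (cons (fin 1228 5 972)
(mv 974 (cons (fin 910 6 909)
(mv 1039 (cons (fin 975 0 972)
(mv 1103 (cons (cons (mv 1102 (cons (fin 1104 1 1100)
(fin 1100 2 1036)))
(mv 1167 (cons (cons (mv 1104 (cons (fin 1166 2 1100)
(mv 976 (cons (fin 912 5 911)
(fin 1231 6 975)))))
(mv 976 (cons (fin 1231 6 975)
(mv 912 (cons (fin 848 5 847)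
(fin 1104 5 911))))))
(cons (mv 1166 (cons (fin 1104 2 1100)
(mv 1100 (cons (fin 1099 3 1099)
(fin 1168 3 1100)))))
(mv 1231 (cons (fin 976 6 975)
(mv 1232 (cons (fin 1166 0 1164)
(fin 1296 4 1039)))))))))
(cons (mv 1102 (cons (fin 1104 1 1100)
(mv 1163 (cons (fin 1162 2 1098)
(fin 1166 2 1099)))))
(mv 1102 (cons (fin 1100 2 1036)
(mv 1163 (cons (fin 1162 2 1098)
(fin 1166 2 1099)))))))))))))))))
(cons (mv 1036 (cons (fin 1229 7 972)
(mv 908 (cons (fin 844 4 844)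
(fin 1100 4 908)))))
(mv 1229 (cons (fin 1036 7 972)
(mv 1293 (cons (cons (mv 1292 (cons (fin 1228 5 1036)
(fin 1356 5 1100)))
(mv 1358 (cons (fin 1294 4 1101)
(mv 1357 (cons (fin 1422 4 1165)
(mv 1102 (cons (fin 1166 6 1101)
(mv 1356 (cons (fin 1420 5 1164)
(mv 1164 (cons (fin 1100 7 1100)
(mv 1228 (cons (fin 1421 7 1164)
(fin 973 5 972))))))))))))))
(cons (mv 1358 (cons (fin 1294 4 1101)
(mv 1356 (cons (fin 1292 5 1100)
(mv 1357 (cons (fin 1420 5 1164)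
(fin 1422 4 1165)))))))
(mv 1294 (cons (fin 1358 4 1101)
(mv 1228 (cons (fin 1292 5 1036)
(mv 1164 (cons (fin 973 5 972)
(mv 1357 (cons (fin 1100 7 1100)
(fin 1421 7 1164)))))))))))))))))
(mv 1229 (cons (cons (mv 1228 (cons (fin 1292 5 1036)
(mv 973 (cons (fin 1164 5 972)
(mv 1230 (cons (fin 1166 4 973)
(fin 1294 4 1037)))))))
(cons (mv 1294 (cons (fin 1230 4 1037)
(mv 1293 (cons (fin 1358 4 1101)
(mv 1356 (cons (fin 1292 5 1100)
(mv 1100 (cons (fin 1036 7 1036)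
(mv 1357 (cons (fin 1164 7 1100)
(fin 1420 5 1164)))))))))))
(mv 1292 (cons (fin 1228 5 1036)
(mv 1293 (cons (fin 1356 5 1100)
(mv 1100 (cons (fin 1036 7 1036)
(mv 1358 (cons (fin 1294 4 1101)
(mv 1357 (cons (fin 1164 7 1100)
(fin 1422 4 1165)))))))))))))
(cons (mv 1230 (cons (fin 1294 4 1037)
(mv 1166 (cons (fin 973 4 973)
(mv 1100 (cons (mv 1167 (cons (fin 1168 3 1100)
(mv 1099 (cons (fin 1164 3 1099)
(fin 1098 0 1098)))))
(cons (mv 1293 (cons (fin 1036 7 1036)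
(mv 1357 (cons (fin 1164 7 1100)
(fin 1102 6 1101)))))
(mv 1098 (cons (fin 1099 0 1098)
(mv 1167 (cons (fin 1168 3 1100)
(mv 1293 (cons (fin 1036 7 1036)
(mv 1357 (cons (fin 1102 6 1101)
(fin 1421 6 1165))))))))))))))))
(cons (mv 1292 (cons (fin 1228 5 1036)
(mv 1293 (cons (fin 1356 5 1100)
(mv 1100 (cons (fin 1036 7 1036)
(mv 1357 (cons (fin 1164 7 1100)
(mv 1166 (cons (fin 1102 6 1101)
(mv 1230 (cons (fin 1421 6 1165)
(fin 973 4 973)))))))))))))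
(mv 1228 (cons (fin 1292 5 1036)
(mv 1230 (cons (fin 1294 4 1037)
(mv 1166 (cons (fin 973 4 973)
(mv 1167 (cons (fin 1168 1 1164)
(fin 1227 2 1163))))))))))))))
(cons (mv 973 (cons (cons (mv 908 (cons (fin 972 7 908)
(mv 1230 (cons (fin 1166 4 973)
(mv 910 (cons (fin 974 6 909)
(mv 1229 (cons (fin 1294 4 1037)
(mv 1228 (cons (fin 1164 5 972)
(fin 1292 5 1036)))))))))))
(cons (mv 972 (cons (fin 908 7 908)
(mv 974 (cons (fin 910 6 909)
(mv 1166 (cons (fin 1230 4 973)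
(mv 1039 (cons (fin 975 0 972)
(mv 1100 (cons (cons (mv 1167 (cons (fin 1168 3 1100)
(mv 1099 (cons (fin 1164 3 1099)
(fin 1098 0 1098)))))
(mv 1102 (cons (fin 1103 2 1036)
(mv 971 (cons (cons (mv 1098 (cons (fin 1099 0 1098)
(mv 906 (cons (fin 907 3 906)
(mv 970 (cons (fin 905 3 905)
(mv 1034 (cons (fin 1033 1 969)
(fin 1035 1 970)))))))))
(cons (mv 1034 (cons (fin 1035 1 970)
(mv 970 (cons (fin 1033 1 969)
(mv 906 (cons (fin 905 3 905)
(fin 907 3 906)))))))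
(mv 906 (cons (fin 907 3 906)
(mv 970 (cons (fin 905 3 905)
(mv 1099 (cons (fin 1098 0 1098)
(mv 1163 (cons (fin 1162 1 1098)
(fin 1035 7 906)))))))))))
(cons (cons (mv 1098 (cons (fin 1099 0 1098)
(mv 906 (cons (fin 907 3 906)
(mv 970 (cons (fin 905 3 905)
(mv 1034 (cons (fin 1033 1 969)
(mv 1161 (cons (fin 1097 5 905)
(mv 1162 (cons (fin 1225 5 969)
(mv 1163 (cons (fin 1164 2 1097)
(fin 1227 4 970)))))))))))))))
(mv 1034 (cons (fin 1035 1 970)
(mv 970 (cons (fin 1033 1 969)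
(mv 1098 (cons (fin 1099 0 1098)
(mv 1162 (cons (fin 907 6 906)
(mv 1163 (cons (fin 1164 2 1098)
(fin 1227 4 970))))))))))))
(cons (mv 1098 (cons (fin 1099 0 1098)
(mv 1034 (cons (fin 1035 1 970)
(mv 970 (cons (fin 1033 1 969)
(mv 905 (cons (fin 906 3 905)
(mv 969 (cons (fin 904 3 904)
(fin 1162 7 905)))))))))))
(mv 1035 (cons (fin 1034 1 970)
(mv 907 (cons (fin 906 3 906)
(mv 1099 (cons (fin 1098 0 1098)
(fin 1164 4 907))))))))))))))
(cons (mv 1167 (cons (fin 1168 3 1100)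
(mv 1103 (cons (fin 1102 2 1036)
(mv 1104 (cons (fin 1164 2 1100)
(mv 976 (cons (fin 912 5 911)
(fin 1231 6 975)))))))))
(mv 1102 (cons (fin 1103 2 1036)
(mv 1099 (cons (fin 1098 0 1098)
(fin 1167 0 1099))))))))))))))))
(mv 1164 (cons (fin 1228 5 972)
(mv 972 (cons (fin 908 7 908)
(mv 974 (cons (fin 910 6 909)
(mv 1039 (cons (fin 975 0 972)
(mv 1103 (cons (cons (mv 1102 (cons (fin 1104 1 1100)
(fin 1100 2 1036)))
(mv 1167 (cons (cons (mv 1104 (cons (fin 1166 2 1100)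
(mv 976 (cons (fin 912 5 911)
(fin 1231 6 975)))))
(mv 976 (cons (fin 1231 6 975)
(mv 912 (cons (fin 848 5 847)
(fin 1104 5 911))))))
(cons (mv 1166 (cons (fin 1104 2 1100)
(mv 1100 (cons (fin 1099 3 1099)
(fin 1168 3 1100)))))
(mv 1231 (cons (fin 976 6 975)
(mv 1232 (cons (fin 1166 0 1164)
(fin 1296 4 1039)))))))))
(cons (mv 1102 (cons (fin 1104 1 1100)
(mv 1163 (cons (fin 1162 2 1098)
(fin 1166 2 1099)))))
(mv 1102 (cons (fin 1100 2 1036)
(mv 1163 (cons (fin 1162 2 1098)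
(fin 1166 2 1099))))))))))))))))))
(cons (mv 974 (cons (fin 910 6 909)
(mv 972 (cons (fin 908 7 908)
(mv 975 (cons (fin 1039 0 972)
(mv 912 (cons (fin 911 2 908)
(mv 976 (cons (fin 913 2 909)
(mv 1104 (cons (cons (mv 1166 (cons (fin 1230 4 973)
(mv 1103 (cons (fin 1167 5 911)
(mv 1105 (cons (fin 1102 1 1101)
(fin 1169 4 912)))))))
(cons (mv 1169 (cons (fin 1105 4 912)
(mv 1168 (cons (fin 1233 4 976)
(mv 1102 (cons (fin 1103 0 1101)
(mv 1229 (cons (cons (mv 1230 (cons (fin 1166 4 973)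
(fin 1294 4 1037)))
(mv 1292 (cons (fin 1228 5 1036)
(mv 1293 (cons (fin 1356 5 1100)
(mv 1357 (cons (fin 1166 6 1101)
(mv 1358 (cons (fin 1294 4 1101)
(fin 1422 4 1165))))))))))
(cons (mv 1292 (cons (fin 1228 5 1036)
(mv 1294 (cons (fin 1230 4 1037)
(mv 1293 (cons (fin 1356 5 1100)
(fin 1358 4 1101)))))))
(mv 1292 (cons (fin 1228 5 1036)
(mv 1166 (cons (fin 1230 4 973)
(mv 1293 (cons (fin 1356 5 1100)
(fin 1357 6 1101))))))))))))))))
(mv 1166 (cons (fin 1230 4 973)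
(mv 1167 (cons (fin 1103 5 911)
(mv 1168 (cons (fin 1100 3 1100)
(fin 1105 2 1101)))))))))
(cons (mv 1103 (cons (fin 1167 5 911)
(mv 1169 (cons (fin 1105 4 912)
(mv 1168 (cons (fin 1102 0 1101)
(fin 1233 4 976)))))))
(cons (mv 1166 (cons (fin 1230 4 973)
(mv 1167 (cons (fin 1103 5 911)
(mv 1168 (cons (fin 1100 3 1100)
(fin 1231 5 975)))))))
(mv 1169 (cons (fin 1105 4 912)
(mv 1166 (cons (fin 1230 4 973)
(mv 1168 (cons (fin 1233 4 976)
(mv 1167 (cons (fin 1100 3 1100)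
(fin 1102 3 1101)))))))))))))))))))))))
(cons (mv 972 (cons (fin 908 7 908)
(mv 1103 (cons (cons (mv 910 (cons (fin 974 6 909)
(mv 1164 (cons (fin 1228 5 972)
(mv 1102 (cons (fin 1104 1 1100)
(mv 1163 (cons (fin 1100 1 1099)
(fin 1162 2 1098)))))))))
(mv 1164 (cons (fin 1228 5 972)
(mv 1102 (cons (fin 1104 1 1100)
(mv 1100 (cons (fin 1163 1 1099)
(fin 1039 2 1036))))))))
(cons (mv 974 (cons (fin 910 6 909)
(mv 975 (cons (fin 1039 0 972)
(mv 912 (cons (fin 911 2 908)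
(mv 976 (cons (fin 913 2 909)
(mv 1104 (cons (fin 1167 5 911)
(mv 1169 (cons (fin 1105 4 912)
(mv 1168 (cons (fin 1102 0 1101)
(fin 1233 4 976)))))))))))))))
(cons (mv 974 (cons (fin 910 6 909)
(mv 1228 (cons (fin 1164 5 972)
(mv 1039 (cons (fin 975 0 972)
(mv 1229 (cons (fin 1292 5 1036)
(mv 1230 (cons (fin 1294 4 1037)
(mv 1231 (cons (mv 1167 (cons (fin 1168 2 1164)
(fin 976 6 975)))
(cons (mv 1296 (cons (fin 1295 0 1228)
(mv 1232 (cons (fin 1297 0 1229)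
(mv 1168 (cons (fin 1169 2 1165)
(fin 1104 7 1039)))))))
(mv 1295 (cons (fin 1296 0 1228)
(mv 1167 (cons (fin 976 6 975)
(fin 1104 6 1039))))))))))))))))))
(mv 974 (cons (fin 910 6 909)
(mv 1039 (cons (fin 975 0 972)
(mv 1100 (cons (fin 1102 2 1036)
(mv 1229 (cons (cons (mv 1228 (cons (fin 1164 5 972)
(fin 1292 5 1036)))
(mv 1294 (cons (fin 1230 4 1037)
(mv 1293 (cons (fin 1358 4 1101)
(mv 1356 (cons (fin 1292 5 1100)
(mv 1357 (cons (fin 1164 7 1100)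
(fin 1420 5 1164))))))))))
(cons (mv 1294 (cons (fin 1230 4 1037)
(mv 1292 (cons (fin 1228 5 1036)
(mv 1293 (cons (fin 1356 5 1100)
(fin 1358 4 1101)))))))
(mv 1294 (cons (fin 1230 4 1037)
(mv 1164 (cons (fin 1228 5 972)
(mv 1293 (cons (fin 1357 7 1100)
(fin 1358 4 1101))))))))))))))))))))))
(mv 1228 (cons (fin 1164 5 972)
(mv 1230 (cons (fin 1166 4 973)
(mv 1229 (cons (fin 1292 5 1036)
(fin 1294 4 1037)))))))))))
(cons (mv 1229 (cons (cons (mv 972 (cons (fin 1036 7 972)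
(mv 908 (cons (fin 973 7 908)
(mv 1294 (cons (fin 1230 4 1037)
(mv 1292 (cons (fin 1228 5 1036)
(mv 1293 (cons (fin 1356 5 1100)
(fin 1358 4 1101)))))))))))
(mv 1230 (cons (fin 1294 4 1037)
(mv 1166 (cons (fin 973 4 973)
(mv 1228 (cons (fin 1292 5 1036)
(mv 1167 (cons (fin 1168 1 1164)
(fin 1227 2 1163))))))))))
(cons (mv 1292 (cons (fin 1228 5 1036)
(mv 1036 (cons (fin 972 7 972)
(mv 1293 (cons (fin 1100 7 1036)
(fin 1356 5 1100)))))))
(mv 1230 (cons (fin 1294 4 1037)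
(mv 973 (cons (fin 1166 4 973)
(mv 972 (cons (fin 908 7 908)
(fin 1036 7 972))))))))))
(mv 1229 (cons (cons (mv 972 (cons (fin 1036 7 972)
(mv 908 (cons (fin 973 7 908)
(mv 1294 (cons (fin 1230 4 1037)
(mv 1292 (cons (fin 1228 5 1036)
(mv 1293 (cons (fin 1356 5 1100)
(fin 1358 4 1101)))))))))))
(mv 1230 (cons (fin 1294 4 1037)
(mv 1228 (cons (fin 1292 5 1036)
(mv 1164 (cons (fin 973 5 972)
(mv 1163 (cons (fin 1231 3 1163)
(fin 1162 0 1162))))))))))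
(cons (mv 1036 (cons (fin 972 7 972)
(mv 1294 (cons (fin 1230 4 1037)
(mv 1293 (cons (fin 1100 7 1036)
(fin 1358 4 1101)))))))
(mv 972 (cons (fin 1036 7 972)
(mv 973 (cons (fin 908 7 908)
(mv 1228 (cons (fin 1164 5 972)
(fin 1292 5 1036)))))))))))))))))
(cons (cons (mv 1100 (cons (cons (cons (mv 1102 (cons (mv 1103 (cons (fin 1039 2 1036)
(mv 1036 (cons (fin 1035 3 1035)
(fin 1104 3 1036)))))
(cons (mv 1099 (cons (cons (mv 1034 (cons (fin 1035 3 1034)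
(mv 1033 (cons (fin 1098 3 1033)
(mv 1166 (cons (fin 1167 0 1099)
(mv 1162 (cons (fin 1163 1 1098)
(mv 973 (cons (fin 909 4 909)
(mv 1230 (cons (fin 1294 7 1037)
(fin 1165 4 973)))))))))))))
(mv 1034 (cons (fin 1035 3 1034)
(mv 1098 (cons (fin 1033 3 1033)
(mv 1162 (cons (fin 1161 1 1097)
(fin 1163 1 1098))))))))
(cons (mv 1162 (cons (fin 1163 1 1098)
(mv 1098 (cons (fin 1161 1 1097)
(mv 1166 (cons (fin 1165 0 1098)
(fin 1167 0 1099)))))))
(cons (mv 1166 (cons (fin 1167 0 1099)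
(mv 1098 (cons (fin 1165 0 1098)
(mv 1034 (cons (fin 1033 3 1033)
(fin 1035 3 1034)))))))
(mv 1166 (cons (fin 1167 0 1099)
(mv 1162 (cons (fin 1163 1 1098)
(mv 973 (cons (fin 909 4 909)
(mv 1230 (cons (fin 1294 7 1037)
(fin 1165 4 973)))))))))))))
(mv 1103 (cons (fin 1039 2 1036)
(mv 1163 (cons (fin 1164 1 1099)
(mv 1099 (cons (fin 1162 1 1098)
(mv 1167 (cons (fin 1166 0 1099)
(fin 1168 0 1100))))))))))))
(mv 1102 (cons (mv 1103 (cons (fin 1039 2 1036)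
(mv 1036 (cons (fin 1035 3 1035)
(fin 1104 3 1036)))))
(cons (mv 1099 (cons (cons (mv 1034 (cons (fin 1035 3 1034)
(mv 1033 (cons (fin 1098 3 1033)
(mv 1166 (cons (fin 1167 0 1099)
(mv 1162 (cons (fin 1163 1 1098)
(mv 973 (cons (fin 909 4 909)
(mv 1230 (cons (fin 1294 7 1037)
(fin 1165 4 973)))))))))))))
(mv 1034 (cons (fin 1035 3 1034)
(mv 1098 (cons (fin 1033 3 1033)
(mv 1162 (cons (fin 1161 1 1097)
(fin 1163 1 1098))))))))
(cons (mv 1162 (cons (fin 1163 1 1098)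
(mv 1098 (cons (fin 1161 1 1097)
(mv 1166 (cons (fin 1165 0 1098)
(fin 1167 0 1099)))))))
(cons (mv 1166 (cons (fin 1167 0 1099)
(mv 1098 (cons (fin 1165 0 1098)
(mv 1034 (cons (fin 1033 3 1033)
(fin 1035 3 1034)))))))
(mv 1166 (cons (fin 1167 0 1099)
(mv 1162 (cons (fin 1163 1 1098)
(mv 973 (cons (fin 909 4 909)
(mv 1230 (cons (fin 1294 7 1037)
(fin 1165 4 973)))))))))))))
(mv 1103 (cons (fin 1039 2 1036)
(mv 1036 (cons (fin 1104 3 1036)
(mv 1167 (cons (fin 1168 0 1100)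
(mv 1099 (cons (fin 1166 0 1099)
(mv 1098 (cons (fin 1097 2 1033)
(mv 1162 (cons (fin 1161 1 1097)
(fin 1163 1 1098)))))))))))))))))
(cons (mv 973 (cons (cons (mv 909 (cons (fin 1164 5 908)
(mv 845 (cons (fin 1036 5 844)
(mv 844 (cons (fin 780 7 780)
(fin 908 7 844)))))))
(mv 1165 (cons (cons (mv 1164 (cons (fin 1228 5 972)
(mv 910 (cons (fin 974 6 909)
(mv 1166 (cons (fin 1230 4 973)
(mv 1099 (cons (fin 1167 3 1099)
(fin 1098 0 1098)))))))))
(mv 1166 (cons (fin 1230 4 973)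
(mv 1099 (cons (fin 1098 0 1098)
(mv 1167 (cons (fin 1164 3 1099)
(fin 1168 3 1100))))))))
(cons (mv 910 (cons (fin 974 6 909)
(mv 1230 (cons (fin 1166 4 973)
(mv 1229 (cons (fin 1294 4 1037)
(mv 1293 (cons (fin 1036 7 1036)
(mv 1292 (cons (fin 1228 5 1036)
(fin 1356 5 1100)))))))))))
(cons (mv 1228 (cons (fin 1164 5 972)
(mv 910 (cons (fin 974 6 909)
(mv 1229 (cons (fin 1292 5 1036)
(mv 1293 (cons (fin 1036 7 1036)
(mv 1294 (cons (fin 1230 4 1037)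
(fin 1358 4 1101)))))))))))
(mv 910 (cons (fin 974 6 909)
(mv 1229 (cons (cons (mv 1228 (cons (fin 1164 5 972)
(fin 1292 5 1036)))
(mv 1293 (cons (fin 1036 7 1036)
(mv 1357 (cons (fin 1164 7 1100)
(mv 1356 (cons (fin 1292 5 1100)
(fin 1420 5 1164))))))))
(cons (mv 1293 (cons (fin 1036 7 1036)
(mv 1292 (cons (fin 1228 5 1036)
(fin 1356 5 1100)))))
(mv 1164 (cons (fin 1228 5 972)
(mv 1293 (cons (fin 1036 7 1036)
(fin 1357 7 1100)))))))))))))))
(cons (mv 909 (cons (cons (mv 845 (cons (fin 1036 5 844)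
(mv 844 (cons (fin 780 7 780)
(fin 908 7 844)))))
(mv 844 (cons (fin 908 7 844)
(mv 910 (cons (fin 846 6 845)
(mv 1165 (cons (fin 974 6 909)
(mv 1230 (cons (fin 1166 4 973)
(mv 1229 (cons (fin 1294 4 1037)
(mv 1292 (cons (fin 1228 5 1036)
(mv 1293 (cons (fin 1036 7 1036)
(fin 1356 5 1100))))))))))))))))
(cons (mv 845 (cons (fin 1036 5 844)
(mv 846 (cons (fin 782 6 781)
(fin 910 6 845)))))
(mv 846 (cons (fin 910 6 845)
(mv 845 (cons (fin 782 6 781)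
(mv 844 (cons (fin 780 7 780)
(fin 908 7 844))))))))))
(mv 909 (cons (fin 1164 5 908)
(mv 846 (cons (fin 910 6 845)
(mv 845 (cons (fin 782 6 781)
(mv 844 (cons (fin 780 7 780)
(fin 908 7 844))))))))))))
(mv 1102 (cons (mv 1103 (cons (fin 1039 2 1036)
(mv 1036 (cons (fin 1035 3 1035)
(fin 1104 3 1036)))))
(cons (mv 1099 (cons (cons (mv 1034 (cons (fin 1035 3 1034)
(mv 1098 (cons (fin 1033 3 1033)
(mv 1162 (cons (fin 1161 1 1097)
(fin 1163 1 1098)))))))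
(mv 1166 (cons (fin 1167 0 1099)
(mv 1098 (cons (fin 1165 0 1098)
(mv 1162 (cons (fin 1161 1 1097)
(fin 1163 1 1098))))))))
(cons (mv 1166 (cons (fin 1167 0 1099)
(mv 1098 (cons (fin 1165 0 1098)
(mv 1034 (cons (fin 1033 3 1033)
(fin 1035 3 1034)))))))
(mv 1166 (cons (fin 1167 0 1099)
(mv 1163 (cons (fin 1162 1 1098)
(mv 1230 (cons (fin 1294 7 1037)
(mv 1034 (cons (fin 1035 3 1034)
(mv 1165 (cons (cons (mv 1164 (cons (fin 1231 0 1163)
(mv 1227 (cons (fin 1226 1 1162)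
(mv 1291 (cons (fin 1036 6 1035)
(fin 1355 6 1099)))))))
(mv 1229 (cons (mv 1293 (cons (fin 1036 7 1036)
(fin 1357 6 1101)))
(cons (mv 1228 (cons (fin 1292 5 1036)
(mv 1227 (cons (fin 1226 2 1162)
(mv 1291 (cons (fin 1290 1 1226)
(fin 1036 6 1035)))))))
(mv 1292 (cons (fin 1228 5 1036)
(mv 1293 (cons (fin 1356 5 1100)
(fin 1357 6 1101)))))))))
(cons (mv 1231 (cons (fin 1164 0 1163)
(mv 1232 (cons (fin 1233 3 1165)
(mv 1229 (cons (mv 1293 (cons (fin 1292 1 1228)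
(fin 1036 7 1036)))
(cons (mv 1228 (cons (fin 1292 5 1036)
(mv 1296 (cons (fin 1295 0 1228)
(fin 1297 0 1229)))))
(mv 1293 (cons (fin 1036 7 1036)
(fin 1357 6 1101))))))))))
(mv 1164 (cons (fin 1231 0 1163)
(mv 1227 (cons (fin 1226 1 1162)
(mv 1228 (cons (fin 1292 6 1036)
(mv 1291 (cons (fin 1355 6 1099)
(mv 1290 (cons (fin 1229 1 1226)
(fin 1354 5 1098)))))))))))))))))))))))))
(mv 1103 (cons (fin 1039 2 1036)
(mv 1163 (cons (fin 1164 1 1099)
(mv 1099 (cons (fin 1162 1 1098)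
(mv 1167 (cons (fin 1166 0 1099)
(fin 1168 0 1100))))))))))))))
(cons (cons (mv 1102 (cons (mv 1103 (cons (fin 1039 2 1036)
(mv 1036 (cons (fin 1035 3 1035)
(fin 1104 3 1036)))))
(cons (mv 1099 (cons (cons (mv 1034 (cons (fin 1035 3 1034)
(mv 1098 (cons (fin 1033 3 1033)
(mv 1162 (cons (fin 1161 1 1097)
(fin 1163 1 1098)))))))
(mv 1166 (cons (fin 1167 0 1099)
(mv 1230 (cons (fin 1294 7 1037)
(mv 909 (cons (fin 973 4 909)
(mv 1098 (cons (mv 1162 (cons (fin 1161 1 1097)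
(fin 1163 1 1098)))
(cons (mv 1097 (cons (fin 1036 2 1033)
(mv 1160 (cons (fin 1161 1 1096)
(mv 1096 (cons (fin 1159 1 1095)
(mv 1032 (cons (fin 1031 3 1031)
(fin 1033 3 1032)))))))))
(mv 1097 (cons (fin 1036 2 1033)
(mv 1163 (cons (fin 1162 1 1098)
(mv 1032 (cons (fin 1033 3 1032)
(mv 1096 (cons (fin 1031 3 1031)
(fin 1164 0 1096)))))))))))))))))))
(cons (mv 1166 (cons (fin 1167 0 1099)
(mv 1230 (cons (fin 1294 7 1037)
(mv 973 (cons (fin 909 4 909)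
(mv 1164 (cons (mv 1228 (cons (fin 1036 6 972)
(fin 1292 6 1036)))
(cons (mv 1034 (cons (fin 1035 3 1034)
(mv 1098 (cons (fin 1033 3 1033)
(mv 1097 (cons (fin 1036 2 1033)
(mv 1160 (cons (fin 1161 1 1096)
(mv 1096 (cons (fin 1159 1 1095)
(fin 1163 0 1096)))))))))))
(mv 1035 (cons (fin 1034 3 1034)
(mv 1228 (cons (fin 1292 7 1035)
(mv 971 (cons (fin 907 4 907)
(fin 1163 4 971))))))))))))))))
(cons (mv 1034 (cons (fin 1035 3 1034)
(mv 1098 (cons (fin 1033 3 1033)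
(mv 1166 (cons (fin 1167 0 1099)
(mv 1097 (cons (fin 1036 2 1033)
(mv 1161 (cons (fin 1160 1 1096)
(fin 1162 1 1097)))))))))))
(mv 1166 (cons (fin 1167 0 1099)
(mv 1163 (cons (fin 1162 1 1098)
(mv 909 (cons (fin 973 4 909)
(mv 1230 (cons (fin 1294 7 1037)
(mv 1035 (cons (fin 1034 3 1034)
(mv 1228 (cons (mv 1164 (cons (fin 1292 7 1035)
(fin 971 4 971)))
(cons (mv 1227 (cons (fin 1292 4 1035)
(mv 1291 (cons (fin 1036 6 1035)
(mv 1290 (cons (fin 1229 1 1226)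
(fin 1226 5 1034)))))))
(mv 971 (cons (fin 1164 4 971)
(mv 906 (cons (fin 970 7 906)
(mv 907 (cons (fin 842 7 842)
(mv 844 (cons (fin 908 6 843)
(mv 843 (cons (fin 780 6 779)
(fin 1036 4 843))))))))))))))))))))))))))))
(mv 1103 (cons (fin 1039 2 1036)
(mv 1163 (cons (fin 1164 1 1099)
(mv 1099 (cons (fin 1162 1 1098)
(mv 1167 (cons (fin 1166 0 1099)
(fin 1168 0 1100))))))))))))
(mv 1102 (cons (cons (mv 1103 (cons (fin 1039 2 1036)
(mv 1163 (cons (fin 1164 1 1099)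
(mv 1099 (cons (fin 1162 1 1098)
(mv 1167 (cons (fin 1166 0 1099)
(fin 1168 0 1100)))))))))
(mv 1166 (cons (mv 1099 (cons (fin 1167 0 1099)
(mv 1098 (cons (fin 1165 0 1098)
(mv 1162 (cons (fin 1161 1 1097)
(fin 1163 1 1098)))))))
(cons (mv 973 (cons (fin 909 4 909)
(mv 1230 (cons (fin 1294 7 1037)
(fin 1165 4 973)))))
(mv 1230 (cons (fin 1294 7 1037)
(mv 1099 (cons (fin 1167 0 1099)
(mv 1162 (cons (fin 1163 1 1098)
(mv 1098 (cons (fin 1161 1 1097)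
(mv 1034 (cons (fin 1033 3 1033)
(fin 1035 3 1034)))))))))))))))
(cons (mv 1103 (cons (fin 1039 2 1036)
(mv 1164 (cons (fin 1163 1 1099)
(mv 1167 (cons (fin 1168 0 1100)
(mv 1228 (cons (fin 1292 6 1036)
(mv 1165 (cons (fin 1104 1 1100)
(fin 973 5 972)))))))))))
(cons (mv 1103 (cons (fin 1039 2 1036)
(mv 1164 (cons (fin 1163 1 1099)
(mv 1165 (cons (fin 1104 1 1100)
(mv 973 (cons (fin 909 5 908)
(fin 1228 5 972)))))))))
(mv 1103 (cons (fin 1039 2 1036)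
(mv 1167 (cons (fin 1168 0 1100)
(mv 1166 (cons (fin 1099 0 1099)
(mv 1230 (cons (fin 1294 7 1037)
(mv 973 (cons (fin 909 4 909)
(fin 1165 4 973))))))))))))))))
(cons (mv 973 (cons (cons (mv 909 (cons (fin 1164 5 908)
(mv 845 (cons (fin 1036 5 844)
(mv 844 (cons (fin 780 7 780)
(fin 908 7 844)))))))
(mv 1165 (cons (cons (mv 1164 (cons (fin 1228 5 972)
(mv 910 (cons (fin 974 6 909)
(mv 1166 (cons (fin 1230 4 973)
(mv 1167 (cons (fin 1168 3 1100)
(mv 1103 (cons (fin 1104 2 1100)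
(mv 1102 (cons (fin 1163 1 1099)
(fin 1039 2 1036)))))))))))))
(cons (mv 1230 (cons (fin 1166 4 973)
(mv 910 (cons (fin 974 6 909)
(mv 1229 (cons (fin 1294 4 1037)
(mv 1293 (cons (fin 1036 7 1036)
(mv 1357 (cons (fin 1164 7 1100)
(mv 1356 (cons (fin 1292 5 1100)
(fin 1420 5 1164)))))))))))))
(mv 1230 (cons (fin 1166 4 973)
(mv 910 (cons (fin 974 6 909)
(mv 1229 (cons (fin 1294 4 1037)
(mv 1292 (cons (fin 1228 5 1036)
(mv 1293 (cons (fin 1036 7 1036)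
(fin 1356 5 1100)))))))))))))
(cons (mv 1228 (cons (fin 1164 5 972)
(mv 910 (cons (fin 974 6 909)
(mv 1229 (cons (fin 1292 5 1036)
(mv 1293 (cons (fin 1036 7 1036)
(mv 1294 (cons (fin 1230 4 1037)
(fin 1358 4 1101)))))))))))
(cons (mv 1228 (cons (fin 1164 5 972)
(mv 974 (cons (fin 910 6 909)
(mv 1229 (cons (fin 1292 5 1036)
(mv 1036 (cons (fin 1293 7 1036)
(mv 1035 (cons (fin 1034 2 970)
(mv 976 (cons (fin 975 1 972)
(mv 1103 (cons (fin 1102 3 1035)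
(mv 912 (cons (cons (mv 848 (cons (fin 1039 5 847)
(mv 783 (cons (fin 847 7 783)
(mv 719 (cons (fin 784 7 719)
(mv 849 (cons (fin 785 6 784)
(mv 1104 (cons (fin 1167 5 911)
(fin 913 6 848)))))))))))
(mv 848 (cons (fin 1039 5 847)
(mv 783 (cons (fin 847 7 783)
(mv 784 (cons (fin 719 7 719)
(mv 785 (cons (fin 721 6 720)
(fin 849 6 784))))))))))
(cons (mv 1104 (cons (fin 1167 5 911)
(mv 847 (cons (fin 911 7 847)
(mv 1169 (cons (fin 1105 4 912)
(mv 913 (cons (fin 849 6 848)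
(mv 1168 (cons (fin 977 6 912)
(fin 1233 4 976)))))))))))
(cons (mv 1104 (cons (fin 1167 5 911)
(mv 847 (cons (fin 911 7 847)
(mv 848 (cons (fin 783 7 783)
(fin 1039 5 847)))))))
(mv 1104 (cons (fin 1167 5 911)
(mv 848 (cons (fin 1039 5 847)
(mv 849 (cons (fin 785 6 784)
(fin 913 6 848)))))))))))))))))))))))))
(mv 1164 (cons (fin 1228 5 972)
(mv 1166 (cons (fin 1230 4 973)
(mv 1167 (cons (fin 1168 3 1100)
(mv 1103 (cons (fin 1104 2 1100)
(mv 1102 (cons (fin 1163 1 1099)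
(fin 1039 2 1036))))))))))))))))
(cons (mv 909 (cons (cons (mv 845 (cons (fin 1036 5 844)
(mv 844 (cons (fin 780 7 780)
(fin 908 7 844)))))
(mv 844 (cons (fin 908 7 844)
(mv 846 (cons (fin 910 6 845)
(mv 1102 (cons (fin 1166 4 909)
(mv 1103 (cons (fin 1039 2 1036)
(mv 1036 (cons (fin 1035 3 1035)
(fin 1104 3 1036))))))))))))
(cons (mv 1102 (cons (fin 1166 4 909)
(mv 1039 (cons (fin 1103 2 1036)
(mv 845 (cons (fin 1036 5 844)
(mv 846 (cons (fin 782 6 781)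
(fin 910 6 845)))))))))
(mv 846 (cons (fin 910 6 845)
(mv 845 (cons (fin 782 6 781)
(mv 844 (cons (fin 780 7 780)
(fin 908 7 844))))))))))
(mv 909 (cons (fin 1164 5 908)
(mv 846 (cons (fin 910 6 845)
(mv 845 (cons (fin 782 6 781)
(mv 844 (cons (fin 780 7 780)
(fin 908 7 844))))))))))))
(cons (mv 1102 (cons (mv 1103 (cons (fin 1039 2 1036)
(mv 1036 (cons (fin 1035 3 1035)
(fin 1104 3 1036)))))
(cons (mv 1099 (cons (cons (mv 1034 (cons (fin 1035 3 1034)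
(mv 1098 (cons (fin 1033 3 1033)
(mv 1162 (cons (fin 1161 1 1097)
(fin 1163 1 1098)))))))
(mv 1162 (cons (fin 1163 1 1098)
(mv 1098 (cons (fin 1161 1 1097)
(mv 1164 (cons (mv 1097 (cons (fin 1036 2 1033)
(fin 1165 0 1097)))
(cons (mv 1228 (cons (fin 1292 6 1036)
(mv 973 (cons (fin 909 5 908)
(fin 1165 5 972)))))
(mv 973 (cons (fin 909 5 908)
(mv 1036 (cons (fin 1097 2 1033)
(fin 1228 6 972)))))))))))))
(cons (mv 1034 (cons (fin 1035 3 1034)
(mv 1098 (cons (fin 1033 3 1033)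
(mv 1097 (cons (fin 1036 2 1033)
(mv 1160 (cons (fin 1161 1 1096)
(mv 1096 (cons (fin 1159 1 1095)
(mv 1164 (cons (fin 1163 0 1096)
(fin 1165 0 1097)))))))))))))
(cons (mv 1034 (cons (fin 1035 3 1034)
(mv 1098 (cons (fin 1033 3 1033)
(mv 1161 (cons (fin 1162 1 1097)
(mv 1097 (cons (fin 1160 1 1096)
(fin 1036 2 1033)))))))))
(mv 1035 (cons (fin 1034 3 1034)
(mv 1163 (cons (fin 1162 1 1098)
(mv 1228 (cons (mv 1164 (cons (fin 1292 7 1035)
(fin 971 4 971)))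
(cons (mv 1227 (cons (fin 1292 4 1035)
(mv 1291 (cons (fin 1036 6 1035)
(mv 1290 (cons (fin 1226 5 1034)
(fin 1354 5 1098)))))))
(mv 971 (cons (fin 1164 4 971)
(mv 906 (cons (fin 970 7 906)
(mv 907 (cons (fin 842 7 842)
(mv 844 (cons (fin 908 6 843)
(mv 843 (cons (fin 780 6 779)
(fin 1036 4 843))))))))))))))))))))))
(mv 1103 (cons (fin 1039 2 1036)
(mv 1164 (cons (fin 1163 1 1099)
(mv 1167 (cons (fin 1168 0 1100)
(mv 1228 (cons (fin 1292 6 1036)
(mv 1165 (cons (fin 1104 1 1100)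
(fin 973 5 972))))))))))))))
(mv 973 (cons (cons (mv 909 (cons (fin 1164 5 908)
(mv 845 (cons (fin 1036 5 844)
(mv 844 (cons (fin 780 7 780)
(fin 908 7 844)))))))
(mv 1165 (cons (cons (cons (mv 1164 (cons (fin 1228 5 972)
(mv 910 (cons (fin 974 6 909)
(mv 1230 (cons (fin 1166 4 973)
(mv 1229 (cons (fin 1294 4 1037)
(mv 1293 (cons (fin 1036 7 1036)
(fin 1357 7 1100)))))))))))
(mv 1230 (cons (fin 1166 4 973)
(mv 910 (cons (fin 974 6 909)
(mv 1229 (cons (fin 1294 4 1037)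
(mv 1293 (cons (fin 1036 7 1036)
(mv 1357 (cons (fin 1164 7 1100)
(mv 1356 (cons (fin 1292 5 1100)
(fin 1420 5 1164))))))))))))))
(cons (mv 1230 (cons (fin 1166 4 973)
(mv 910 (cons (fin 974 6 909)
(mv 1229 (cons (fin 1294 4 1037)
(mv 1292 (cons (fin 1228 5 1036)
(mv 1293 (cons (fin 1036 7 1036)
(fin 1356 5 1100)))))))))))
(mv 1228 (cons (fin 1164 5 972)
(mv 910 (cons (fin 974 6 909)
(mv 1229 (cons (fin 1292 5 1036)
(mv 1293 (cons (fin 1036 7 1036)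
(mv 1294 (cons (fin 1230 4 1037)
(fin 1358 4 1101)))))))))))))
(cons (cons (mv 1228 (cons (fin 1164 5 972)
(mv 974 (cons (fin 910 6 909)
(mv 1229 (cons (fin 1292 5 1036)
(mv 1036 (cons (fin 1293 7 1036)
(mv 1035 (cons (fin 1034 2 970)
(mv 975 (cons (fin 976 1 972)
(mv 1102 (cons (fin 1103 3 1035)
(mv 1099 (cons (mv 1098 (cons (fin 1097 2 1033)
(fin 1166 0 1098)))
(cons (mv 1163 (cons (fin 1162 1 1098)
(mv 1227 (cons (fin 1291 6 1035)
(mv 1226 (cons (fin 1166 2 1162)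
(fin 1290 5 1034)))))))
(mv 1162 (cons (fin 1163 1 1098)
(mv 1098 (cons (fin 1161 1 1097)
(fin 1097 2 1033))))))))))))))))))))))
(mv 1164 (cons (fin 1228 5 972)
(mv 1230 (cons (fin 1166 4 973)
(mv 1229 (cons (fin 1294 4 1037)
(mv 1293 (cons (fin 1036 7 1036)
(fin 1357 7 1100))))))))))
(cons (mv 1166 (cons (fin 1230 4 973)
(mv 1099 (cons (fin 1098 0 1098)
(mv 1164 (cons (fin 1228 5 972)
(mv 910 (cons (fin 974 6 909)
(mv 1102 (cons (mv 1163 (cons (fin 1162 1 1098)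
(fin 1103 1 1099)))
(cons (mv 1034 (cons (fin 1035 3 1034)
(mv 1163 (cons (fin 1162 1 1098)
(mv 1227 (cons (fin 1226 1 1162)
(mv 1291 (cons (fin 1036 6 1035)
(fin 1355 6 1099)))))))))
(mv 1103 (cons (fin 1104 1 1100)
(fin 1039 2 1036))))))))))))))
(mv 910 (cons (fin 974 6 909)
(mv 1230 (cons (fin 1166 4 973)
(mv 1228 (cons (fin 1164 5 972)
(mv 1229 (cons (fin 1292 5 1036)
(fin 1294 4 1037))))))))))))))
(cons (mv 909 (cons (cons (mv 845 (cons (fin 1036 5 844)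
(mv 844 (cons (fin 780 7 780)
(fin 908 7 844)))))
(mv 844 (cons (fin 908 7 844)
(mv 846 (cons (fin 910 6 845)
(mv 1102 (cons (fin 1166 4 909)
(mv 1103 (cons (fin 1039 2 1036)
(mv 1036 (cons (fin 1035 3 1035)
(fin 1104 3 1036))))))))))))
(cons (mv 1102 (cons (fin 1166 4 909)
(mv 1039 (cons (fin 1103 2 1036)
(mv 845 (cons (fin 1036 5 844)
(mv 846 (cons (fin 782 6 781)
(fin 910 6 845)))))))))
(mv 846 (cons (fin 910 6 845)
(mv 845 (cons (fin 782 6 781)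
(mv 844 (cons (fin 780 7 780)
(fin 908 7 844))))))))))
(mv 909 (cons (fin 1164 5 908)
(mv 846 (cons (fin 910 6 845)
(mv 845 (cons (fin 782 6 781)
(mv 844 (cons (fin 780 7 780)
(fin 908 7 844)))))))))))))))))
(ref 0 0))
(cons (mv 973 (cons (cons (mv 909 (cons (cons (mv 844 (cons (fin 908 7 844)
(mv 780 (cons (fin 845 7 780)
(mv 1102 (cons (fin 1166 4 909)
(mv 846 (cons (fin 910 6 845)
(mv 1100 (cons (fin 1164 5 908)
(mv 1103 (cons (fin 1039 2 1036)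
(mv 1036 (cons (fin 1035 3 1035)
(fin 1104 3 1036)))))))))))))))
(mv 844 (cons (fin 908 7 844)
(mv 845 (cons (fin 780 7 780)
(mv 846 (cons (fin 782 6 781)
(fin 910 6 845))))))))
(cons (mv 1102 (cons (fin 1166 4 909)
(mv 1100 (cons (fin 1164 5 908)
(mv 845 (cons (fin 1036 5 844)
(mv 846 (cons (fin 782 6 781)
(fin 910 6 845)))))))))
(cons (mv 844 (cons (fin 908 7 844)
(mv 780 (cons (fin 845 7 780)
(mv 1102 (cons (fin 1166 4 909)
(mv 1100 (cons (fin 1164 5 908)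
(mv 1103 (cons (fin 1039 2 1036)
(mv 1036 (cons (fin 1035 3 1035)
(fin 1104 3 1036)))))))))))))
(mv 1100 (cons (fin 1164 5 908)
(mv 846 (cons (fin 910 6 845)
(mv 844 (cons (fin 908 7 844)
(mv 1102 (cons (fin 1166 4 909)
(mv 1103 (cons (fin 1039 2 1036)
(mv 1036 (cons (fin 1035 3 1035)
(fin 1104 3 1036)))))))))))))))))
(cons (mv 1165 (cons (cons (mv 1166 (cons (fin 1230 4 973)
(mv 1228 (cons (fin 1164 5 972)
(mv 972 (cons (fin 908 7 908)
(mv 1229 (cons (fin 1036 7 972)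
(fin 1292 5 1036)))))))))
(mv 1230 (cons (fin 1166 4 973)
(mv 1228 (cons (fin 1164 5 972)
(mv 1229 (cons (fin 1292 5 1036)
(fin 1294 4 1037))))))))
(cons (mv 972 (cons (fin 908 7 908)
(mv 1230 (cons (fin 1166 4 973)
(mv 1229 (cons (fin 1036 7 972)
(fin 1294 4 1037)))))))
(cons (mv 1228 (cons (fin 1164 5 972)
(mv 972 (cons (fin 908 7 908)
(mv 1229 (cons (fin 1036 7 972)
(fin 1292 5 1036)))))))
(mv 908 (cons (fin 972 7 908)
(mv 1164 (cons (fin 1228 5 972)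
(mv 1166 (cons (fin 1230 4 973)
(mv 1167 (cons (mv 1100 (cons (fin 1099 3 1099)
(fin 1168 3 1100)))
(cons (mv 1231 (cons (fin 1232 0 1164)
(mv 1103 (cons (fin 1104 2 1100)
(mv 1163 (cons (fin 1102 2 1099)
(mv 976 (cons (fin 1039 6 975)
(mv 1098 (cons (fin 1099 3 1098)
(mv 1162 (cons (fin 1097 3 1097)
(mv 1226 (cons (fin 1225 1 1161)
(fin 1227 1 1162)))))))))))))))
(mv 1103 (cons (fin 1104 2 1100)
(mv 1102 (cons (fin 1163 2 1099)
(mv 1100 (cons (fin 1168 3 1100)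
(fin 1039 2 1036))))))))))))))))))))
(mv 909 (cons (cons (mv 844 (cons (fin 908 7 844)
(mv 845 (cons (fin 780 7 780)
(mv 846 (cons (fin 782 6 781)
(fin 910 6 845)))))))
(mv 1102 (cons (fin 1166 4 909)
(mv 846 (cons (fin 910 6 845)
(mv 845 (cons (fin 782 6 781)
(mv 1036 (cons (fin 1100 5 844)
(mv 781 (cons (fin 972 5 780)
(mv 780 (cons (fin 716 7 716)
(fin 844 7 780))))))))))))))
(cons (mv 846 (cons (fin 910 6 845)
(mv 845 (cons (fin 782 6 781)
(mv 1102 (cons (fin 1166 4 909)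
(mv 1036 (cons (fin 1100 5 844)
(mv 972 (cons (fin 781 5 780)
(mv 1165 (cons (fin 908 7 908)
(fin 1229 7 972)))))))))))))
(cons (mv 1166 (cons (fin 1102 4 909)
(mv 844 (cons (fin 908 7 844)
(mv 845 (cons (fin 780 7 780)
(mv 1165 (cons (fin 1230 4 973)
(mv 1036 (cons (fin 1100 5 844)
(mv 972 (cons (fin 1229 7 972)
(fin 781 5 780)))))))))))))
(mv 1102 (cons (fin 1166 4 909)
(mv 910 (cons (fin 846 6 845)
(mv 908 (cons (fin 844 7 844)
(mv 972 (cons (fin 1165 7 908)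
(mv 971 (cons (fin 911 1 907)
(fin 970 2 906)))))))))))))))))
(cons (cons (mv 1165 (cons (cons (mv 1164 (cons (fin 1228 5 972)
(mv 909 (cons (fin 1100 5 908)
(mv 1166 (cons (fin 1102 4 909)
(fin 1230 4 973)))))))
(mv 1166 (cons (fin 1230 4 973)
(mv 909 (cons (fin 1102 4 909)
(mv 846 (cons (fin 910 6 845)
(mv 845 (cons (fin 782 6 781)
(mv 1036 (cons (fin 1100 5 844)
(mv 972 (cons (fin 1229 7 972)
(fin 781 5 780))))))))))))))
(cons (mv 1228 (cons (fin 1164 5 972)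
(mv 1229 (cons (fin 1292 5 1036)
(mv 1036 (cons (fin 972 7 972)
(mv 1294 (cons (fin 1230 4 1037)
(mv 1293 (cons (fin 1100 7 1036)
(fin 1358 4 1101)))))))))))
(cons (mv 1228 (cons (fin 1164 5 972)
(mv 1229 (cons (fin 1292 5 1036)
(mv 1036 (cons (fin 972 7 972)
(mv 1100 (cons (fin 1293 7 1036)
(mv 909 (cons (fin 845 5 844)
(mv 846 (cons (fin 910 6 845)
(mv 1102 (cons (fin 1166 4 909)
(mv 1035 (cons (fin 1103 3 1035)
(fin 1034 0 1034)))))))))))))))))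
(mv 1164 (cons (fin 1228 5 972)
(mv 1166 (cons (fin 1230 4 973)
(mv 1102 (cons (fin 909 4 909)
(mv 1103 (cons (fin 1104 1 1100)
(fin 1163 2 1099)))))))))))))
(mv 909 (cons (cons (mv 844 (cons (fin 908 7 844)
(mv 845 (cons (fin 780 7 780)
(mv 1100 (cons (fin 1036 5 844)
(fin 1164 5 908)))))))
(mv 846 (cons (fin 910 6 845)
(mv 845 (cons (fin 782 6 781)
(mv 844 (cons (fin 780 7 780)
(fin 908 7 844))))))))
(cons (mv 1100 (cons (fin 1164 5 908)
(mv 845 (cons (fin 1036 5 844)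
(mv 846 (cons (fin 782 6 781)
(fin 910 6 845)))))))
(mv 846 (cons (fin 910 6 845)
(mv 908 (cons (fin 844 7 844)
(mv 1164 (cons (fin 1100 5 908)
(mv 1165 (cons (fin 972 7 908)
(fin 1228 5 972)))))))))))))
(cons (mv 1165 (cons (cons (mv 908 (cons (fin 972 7 908)
(mv 844 (cons (fin 909 7 844)
(mv 1230 (cons (fin 1166 4 973)
(mv 1228 (cons (fin 1164 5 972)
(mv 1229 (cons (fin 1292 5 1036)
(fin 1294 4 1037)))))))))))
(mv 972 (cons (fin 908 7 908)
(mv 1228 (cons (fin 1164 5 972)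
(mv 1229 (cons (fin 1036 7 972)
(fin 1292 5 1036))))))))
(cons (mv 1166 (cons (fin 1230 4 973)
(mv 909 (cons (fin 1102 4 909)
(mv 846 (cons (fin 910 6 845)
(mv 845 (cons (fin 782 6 781)
(mv 844 (cons (fin 780 7 780)
(fin 908 7 844)))))))))))
(mv 1164 (cons (fin 1228 5 972)
(mv 1166 (cons (fin 1230 4 973)
(mv 1102 (cons (fin 909 4 909)
(mv 1103 (cons (fin 1104 1 1100)
(fin 1163 2 1099))))))))))))
(mv 909 (cons (cons (mv 844 (cons (fin 908 7 844)
(mv 780 (cons (fin 845 7 780)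
(mv 1166 (cons (fin 1102 4 909)
(mv 846 (cons (fin 910 6 845)
(mv 1165 (cons (fin 1230 4 973)
(mv 1164 (cons (fin 1100 5 908)
(fin 1228 5 972)))))))))))))
(mv 1164 (cons (fin 1100 5 908)
(mv 846 (cons (fin 910 6 845)
(mv 782 (cons (fin 845 6 781)
(mv 1165 (cons (fin 1228 5 972)
(mv 1166 (cons (fin 1102 4 909)
(fin 1230 4 973))))))))))))
(cons (mv 1102 (cons (fin 1166 4 909)
(mv 908 (cons (fin 844 7 844)
(mv 1164 (cons (fin 1100 5 908)
(mv 1165 (cons (fin 972 7 908)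
(fin 1228 5 972)))))))))
(mv 844 (cons (fin 908 7 844)
(mv 845 (cons (fin 780 7 780)
(mv 846 (cons (fin 782 6 781)
(fin 910 6 845))))))))))))))
(cons (mv 973 (cons (cons (cons (mv 909 (cons (cons (mv 844 (cons (fin 908 7 844)
(mv 780 (cons (fin 845 7 780)
(mv 1102 (cons (fin 1166 4 909)
(mv 910 (cons (fin 846 6 845)
(mv 1164 (cons (fin 1100 5 908)
(mv 1165 (cons (fin 1228 5 972)
(fin 974 6 909)))))))))))))
(cons (mv 846 (cons (fin 910 6 845)
(mv 782 (cons (fin 845 6 781)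
(mv 1166 (cons (fin 1102 4 909)
(mv 1164 (cons (fin 1100 5 908)
(mv 1165 (cons (fin 1228 5 972)
(fin 1230 4 973)))))))))))
(mv 1102 (cons (fin 1166 4 909)
(mv 844 (cons (fin 908 7 844)
(mv 845 (cons (fin 780 7 780)
(mv 1100 (cons (fin 1036 5 844)
(fin 1164 5 908)))))))))))
(cons (mv 846 (cons (fin 910 6 845)
(mv 782 (cons (fin 845 6 781)
(mv 1166 (cons (fin 1102 4 909)
(mv 908 (cons (fin 844 7 844)
(mv 1165 (cons (fin 972 7 908)
(fin 1230 4 973)))))))))))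
(cons (mv 1100 (cons (fin 1164 5 908)
(mv 845 (cons (fin 1036 5 844)
(mv 844 (cons (fin 780 7 780)
(fin 908 7 844)))))))
(mv 846 (cons (fin 910 6 845)
(mv 1102 (cons (fin 1166 4 909)
(mv 1164 (cons (fin 1100 5 908)
(mv 908 (cons (fin 844 7 844)
(mv 1165 (cons (fin 972 7 908)
(fin 1228 5 972)))))))))))))))
(mv 1165 (cons (cons (mv 908 (cons (fin 972 7 908)
(mv 1230 (cons (fin 1166 4 973)
(mv 910 (cons (fin 974 6 909)
(mv 1229 (cons (fin 1294 4 1037)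
(mv 1228 (cons (fin 1164 5 972)
(fin 1292 5 1036)))))))))))
(cons (mv 1228 (cons (fin 1164 5 972)
(mv 910 (cons (fin 974 6 909)
(mv 1229 (cons (fin 1292 5 1036)
(mv 1230 (cons (fin 1166 4 973)
(fin 1294 4 1037)))))))))
(mv 1166 (cons (fin 1230 4 973)
(mv 974 (cons (fin 910 6 909)
(mv 972 (cons (fin 908 7 908)
(mv 1036 (cons (fin 1229 7 972)
(mv 1035 (cons (fin 975 1 971)
(fin 1034 2 970)))))))))))))
(cons (mv 972 (cons (fin 908 7 908)
(mv 1164 (cons (fin 1228 5 972)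
(mv 1036 (cons (fin 1229 7 972)
(mv 974 (cons (fin 910 6 909)
(mv 1035 (cons (fin 975 1 971)
(fin 1034 2 970)))))))))))
(cons (mv 1166 (cons (fin 1230 4 973)
(mv 1228 (cons (fin 1164 5 972)
(mv 972 (cons (fin 908 7 908)
(mv 1229 (cons (fin 1036 7 972)
(fin 1292 5 1036)))))))))
(mv 908 (cons (fin 972 7 908)
(mv 910 (cons (fin 974 6 909)
(mv 1164 (cons (fin 1228 5 972)
(mv 1166 (cons (fin 1230 4 973)
(mv 1167 (cons (mv 1100 (cons (fin 1099 3 1099)
(fin 1168 3 1100)))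
(cons (mv 1231 (cons (fin 1232 0 1164)
(mv 1103 (cons (fin 1104 2 1100)
(mv 1163 (cons (fin 1102 2 1099)
(mv 1226 (cons (fin 1227 1 1162)
(mv 1162 (cons (fin 1225 1 1161)
(mv 1098 (cons (fin 1097 3 1097)
(fin 1099 3 1098)))))))))))))
(mv 1103 (cons (fin 1104 2 1100)
(mv 1102 (cons (fin 1163 2 1099)
(mv 1168 (cons (fin 1100 3 1100)
(fin 1169 3 1101)))))))))))))))))))))))
(cons (mv 909 (cons (cons (mv 844 (cons (fin 908 7 844)
(mv 845 (cons (fin 780 7 780)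
(mv 1100 (cons (fin 1036 5 844)
(fin 1164 5 908)))))))
(mv 844 (cons (fin 908 7 844)
(mv 845 (cons (fin 780 7 780)
(mv 846 (cons (fin 782 6 781)
(fin 910 6 845))))))))
(cons (mv 846 (cons (fin 910 6 845)
(mv 845 (cons (fin 782 6 781)
(mv 1100 (cons (fin 1036 5 844)
(fin 1164 5 908)))))))
(mv 1100 (cons (fin 1164 5 908)
(mv 908 (cons (fin 844 7 844)
(mv 1102 (cons (fin 1166 4 909)
(mv 846 (cons (fin 910 6 845)
(mv 1035 (cons (cons (mv 1034 (cons (fin 1099 3 1034)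
(fin 1036 0 1034)))
(mv 1099 (cons (fin 1034 3 1034)
(mv 1162 (cons (fin 1163 1 1098)
(mv 1098 (cons (fin 1161 1 1097)
(mv 907 (cons (fin 971 5 906)
(mv 906 (cons (fin 974 0 906)
(mv 905 (cons (fin 972 0 905)
(mv 969 (cons (fin 968 1 904)
(fin 970 1 905))))))))))))))))
(cons (mv 1036 (cons (fin 1103 3 1035)
(mv 1099 (cons (cons (mv 1163 (cons (fin 1162 1 1098)
(fin 972 5 907)))
(mv 1098 (cons (fin 1097 2 1033)
(mv 1162 (cons (fin 1161 1 1097)
(mv 907 (cons (fin 971 5 906)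
(mv 843 (cons (fin 972 7 843)
(mv 906 (cons (fin 974 0 906)
(mv 969 (cons (fin 970 1 905)
(mv 905 (cons (fin 968 1 904)
(mv 841 (cons (fin 840 3 840)
(fin 842 3 841))))))))))))))))))
(cons (mv 1098 (cons (fin 1097 2 1033)
(mv 1162 (cons (fin 1161 1 1097)
(fin 1163 1 1098)))))
(mv 972 (cons (fin 1163 5 907)
(mv 907 (cons (fin 843 7 843)
(mv 974 (cons (fin 975 3 907)
(fin 906 0 906))))))))))))
(mv 1036 (cons (fin 1103 3 1035)
(fin 1034 0 1034)))))))))))))))))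
(mv 1165 (cons (cons (mv 1164 (cons (fin 1228 5 972)
(mv 909 (cons (fin 1100 5 908)
(mv 910 (cons (fin 846 6 845)
(fin 974 6 909)))))))
(mv 1166 (cons (fin 1230 4 973)
(mv 909 (cons (fin 1102 4 909)
(mv 910 (cons (fin 846 6 845)
(fin 974 6 909))))))))
(cons (mv 1164 (cons (fin 1228 5 972)
(mv 909 (cons (fin 1100 5 908)
(mv 1166 (cons (fin 1102 4 909)
(fin 1230 4 973)))))))
(mv 1166 (cons (fin 1230 4 973)
(mv 910 (cons (fin 974 6 909)
(mv 1228 (cons (fin 1164 5 972)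
(mv 1229 (cons (fin 1292 5 1036)
(mv 1036 (cons (fin 972 7 972)
(mv 1226 (cons (fin 1227 2 1162)
(mv 1100 (cons (fin 1293 7 1036)
(mv 1099 (cons (fin 1098 0 1098)
(mv 1167 (cons (fin 1168 3 1100)
(fin 1102 0 1099))))))))))))))))))))))))
(cons (cons (mv 909 (cons (cons (mv 844 (cons (fin 908 7 844)
(mv 780 (cons (fin 845 7 780)
(mv 1166 (cons (fin 1102 4 909)
(mv 910 (cons (fin 846 6 845)
(mv 1165 (cons (fin 974 6 909)
(fin 1230 4 973)))))))))))
(cons (mv 1102 (cons (fin 1166 4 909)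
(mv 846 (cons (fin 910 6 845)
(mv 845 (cons (fin 782 6 781)
(mv 1036 (cons (fin 1100 5 844)
(mv 781 (cons (fin 972 5 780)
(mv 780 (cons (fin 716 7 716)
(fin 844 7 780)))))))))))))
(mv 844 (cons (fin 908 7 844)
(mv 845 (cons (fin 780 7 780)
(mv 1102 (cons (fin 1166 4 909)
(mv 782 (cons (fin 846 6 781)
(mv 781 (cons (fin 718 6 717)
(mv 1036 (cons (fin 972 5 780)
(fin 1100 5 844)))))))))))))))
(cons (cons (mv 1102 (cons (fin 1166 4 909)
(mv 846 (cons (fin 910 6 845)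
(mv 845 (cons (fin 782 6 781)
(mv 1036 (cons (fin 1100 5 844)
(mv 972 (cons (fin 781 5 780)
(mv 1165 (cons (fin 908 7 908)
(fin 1229 7 972)))))))))))))
(mv 844 (cons (fin 908 7 844)
(mv 845 (cons (fin 780 7 780)
(mv 1102 (cons (fin 1166 4 909)
(mv 1036 (cons (fin 1100 5 844)
(mv 972 (cons (fin 781 5 780)
(mv 1035 (cons (fin 1034 0 1034)
(mv 1165 (cons (fin 1229 7 972)
(mv 974 (cons (fin 975 1 971)
(fin 910 6 909))))))))))))))))))
(cons (mv 846 (cons (fin 910 6 845)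
(mv 845 (cons (fin 782 6 781)
(mv 844 (cons (fin 780 7 780)
(fin 908 7 844)))))))
(mv 844 (cons (fin 908 7 844)
(mv 1166 (cons (fin 1102 4 909)
(mv 910 (cons (fin 846 6 845)
(mv 1165 (cons (fin 974 6 909)
(fin 1230 4 973)))))))))))))
(mv 1165 (cons (cons (mv 908 (cons (fin 972 7 908)
(mv 844 (cons (fin 909 7 844)
(mv 1230 (cons (fin 1166 4 973)
(mv 1228 (cons (fin 1164 5 972)
(mv 1229 (cons (fin 1292 5 1036)
(fin 1294 4 1037)))))))))))
(mv 1166 (cons (fin 1230 4 973)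
(mv 909 (cons (fin 1102 4 909)
(mv 908 (cons (fin 844 7 844)
(fin 972 7 908))))))))
(cons (mv 908 (cons (fin 972 7 908)
(mv 909 (cons (fin 844 7 844)
(mv 1164 (cons (fin 1100 5 908)
(fin 1228 5 972)))))))
(cons (mv 1164 (cons (fin 1228 5 972)
(mv 909 (cons (fin 1100 5 908)
(mv 1166 (cons (fin 1102 4 909)
(fin 1230 4 973)))))))
(mv 1166 (cons (fin 1230 4 973)
(mv 972 (cons (fin 908 7 908)
(mv 1228 (cons (fin 1164 5 972)
(mv 1229 (cons (fin 1036 7 972)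
(fin 1292 5 1036))))))))))))))
(cons (mv 909 (cons (cons (mv 1100 (cons (fin 1164 5 908)
(mv 845 (cons (fin 1036 5 844)
(mv 844 (cons (fin 780 7 780)
(fin 908 7 844)))))))
(mv 846 (cons (fin 910 6 845)
(mv 845 (cons (fin 782 6 781)
(mv 1100 (cons (fin 1036 5 844)
(fin 1164 5 908))))))))
(cons (mv 844 (cons (fin 908 7 844)
(mv 845 (cons (fin 780 7 780)
(mv 846 (cons (fin 782 6 781)
(fin 910 6 845)))))))
(mv 846 (cons (fin 910 6 845)
(mv 1164 (cons (fin 1100 5 908)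
(mv 908 (cons (fin 844 7 844)
(mv 1165 (cons (fin 972 7 908)
(fin 1228 5 972))))))))))))
(cons (mv 909 (cons (cons (mv 844 (cons (fin 908 7 844)
(mv 780 (cons (fin 845 7 780)
(mv 1102 (cons (fin 1166 4 909)
(mv 910 (cons (fin 846 6 845)
(mv 1164 (cons (fin 1100 5 908)
(mv 1165 (cons (fin 1228 5 972)
(fin 974 6 909)))))))))))))
(cons (mv 844 (cons (fin 908 7 844)
(mv 780 (cons (fin 845 7 780)
(mv 1166 (cons (fin 1102 4 909)
(mv 1164 (cons (fin 1100 5 908)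
(mv 1165 (cons (fin 1228 5 972)
(fin 1230 4 973)))))))))))
(mv 1102 (cons (fin 1166 4 909)
(mv 844 (cons (fin 908 7 844)
(mv 845 (cons (fin 780 7 780)
(mv 846 (cons (fin 782 6 781)
(fin 910 6 845)))))))))))
(cons (mv 846 (cons (fin 910 6 845)
(mv 782 (cons (fin 845 6 781)
(mv 1166 (cons (fin 1102 4 909)
(mv 1164 (cons (fin 1100 5 908)
(mv 1165 (cons (fin 1228 5 972)
(fin 1230 4 973)))))))))))
(cons (mv 844 (cons (fin 908 7 844)
(mv 780 (cons (fin 845 7 780)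
(mv 910 (cons (fin 846 6 845)
(mv 1164 (cons (fin 1100 5 908)
(mv 1165 (cons (fin 1228 5 972)
(fin 974 6 909)))))))))))
(mv 846 (cons (fin 910 6 845)
(mv 1166 (cons (fin 1102 4 909)
(mv 844 (cons (fin 908 7 844)
(mv 1165 (cons (fin 1230 4 973)
(mv 1164 (cons (fin 1100 5 908)
(fin 1228 5 972)))))))))))))))
(mv 1165 (cons (cons (mv 908 (cons (fin 972 7 908)
(mv 844 (cons (fin 909 7 844)
(mv 1230 (cons (fin 1166 4 973)
(mv 910 (cons (fin 974 6 909)
(mv 1229 (cons (fin 1294 4 1037)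
(mv 1228 (cons (fin 1164 5 972)
(fin 1292 5 1036)))))))))))))
(mv 1164 (cons (fin 1228 5 972)
(mv 910 (cons (fin 974 6 909)
(mv 909 (cons (fin 846 6 845)
(mv 908 (cons (fin 844 7 844)
(fin 972 7 908))))))))))
(cons (mv 1166 (cons (fin 1230 4 973)
(mv 909 (cons (fin 1102 4 909)
(mv 910 (cons (fin 846 6 845)
(fin 974 6 909)))))))
(cons (mv 1164 (cons (fin 1228 5 972)
(mv 1166 (cons (fin 1230 4 973)
(mv 909 (cons (fin 1102 4 909)
(mv 908 (cons (fin 844 7 844)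
(fin 972 7 908)))))))))
(mv 908 (cons (fin 972 7 908)
(mv 910 (cons (fin 974 6 909)
(mv 1228 (cons (fin 1164 5 972)
(mv 1230 (cons (fin 1166 4 973)
(mv 1229 (cons (fin 1292 5 1036)
(fin 1294 4 1037))))))))))))))))))))
(mv 973 (cons (cons (cons (mv 1165 (cons (cons (mv 908 (cons (fin 972 7 908)
(mv 844 (cons (fin 909 7 844)
(mv 1230 (cons (fin 1166 4 973)
(mv 910 (cons (fin 974 6 909)
(mv 1229 (cons (fin 1294 4 1037)
(mv 1228 (cons (fin 1164 5 972)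
(fin 1292 5 1036)))))))))))))
(mv 1164 (cons (fin 1228 5 972)
(mv 909 (cons (fin 1100 5 908)
(mv 910 (cons (fin 846 6 845)
(fin 974 6 909))))))))
(cons (mv 910 (cons (fin 974 6 909)
(mv 846 (cons (fin 909 6 845)
(mv 972 (cons (fin 908 7 908)
(mv 1230 (cons (fin 1166 4 973)
(mv 1229 (cons (fin 1036 7 972)
(fin 1294 4 1037)))))))))))
(cons (mv 908 (cons (fin 972 7 908)
(mv 844 (cons (fin 909 7 844)
(mv 1228 (cons (fin 1164 5 972)
(mv 1230 (cons (fin 1166 4 973)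
(mv 1229 (cons (fin 1292 5 1036)
(fin 1294 4 1037)))))))))))
(mv 1164 (cons (fin 1228 5 972)
(mv 910 (cons (fin 974 6 909)
(mv 972 (cons (fin 908 7 908)
(mv 1230 (cons (fin 1166 4 973)
(mv 1229 (cons (fin 1036 7 972)
(fin 1294 4 1037)))))))))))))))
(mv 909 (cons (cons (mv 844 (cons (fin 908 7 844)
(mv 845 (cons (fin 780 7 780)
(mv 1100 (cons (fin 1036 5 844)
(fin 1164 5 908)))))))
(mv 846 (cons (fin 910 6 845)
(mv 845 (cons (fin 782 6 781)
(mv 844 (cons (fin 780 7 780)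
(fin 908 7 844))))))))
(cons (mv 1100 (cons (fin 1164 5 908)
(mv 845 (cons (fin 1036 5 844)
(mv 846 (cons (fin 782 6 781)
(fin 910 6 845)))))))
(mv 1100 (cons (fin 1164 5 908)
(mv 908 (cons (fin 844 7 844)
(mv 910 (cons (fin 846 6 845)
(mv 907 (cons (cons (mv 974 (cons (fin 906 0 906)
(fin 975 0 907)))
(mv 842 (cons (fin 843 3 842)
(mv 841 (cons (fin 906 3 841)
(mv 971 (cons (fin 970 1 906)
(mv 911 (cons (fin 972 1 907)
(mv 976 (cons (fin 975 0 908)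
(mv 847 (cons (fin 848 2 844)
(mv 912 (cons (fin 977 0 909)
(fin 1104 7 847))))))))))))))))
(cons (mv 970 (cons (fin 971 1 906)
(mv 975 (cons (fin 974 0 907)
(mv 842 (cons (fin 843 3 842)
(mv 911 (cons (fin 976 0 908)
(mv 848 (cons (fin 847 2 844)
(mv 912 (cons (fin 972 1 908)
(fin 849 2 845)))))))))))))
(mv 906 (cons (fin 974 0 906)
(mv 842 (cons (fin 841 3 841)
(fin 843 3 842))))))))))))))))))
(cons (mv 1165 (cons (cons (mv 1164 (cons (fin 1228 5 972)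
(mv 910 (cons (fin 974 6 909)
(mv 972 (cons (fin 908 7 908)
(mv 1230 (cons (fin 1166 4 973)
(mv 1229 (cons (fin 1036 7 972)
(fin 1294 4 1037)))))))))))
(mv 1230 (cons (fin 1166 4 973)
(mv 910 (cons (fin 974 6 909)
(mv 1229 (cons (fin 1294 4 1037)
(mv 1228 (cons (fin 1164 5 972)
(fin 1292 5 1036))))))))))
(cons (mv 972 (cons (fin 908 7 908)
(mv 910 (cons (fin 974 6 909)
(mv 1229 (cons (fin 1036 7 972)
(mv 1230 (cons (fin 1166 4 973)
(fin 1294 4 1037)))))))))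
(cons (mv 1164 (cons (fin 1228 5 972)
(mv 974 (cons (fin 910 6 909)
(mv 972 (cons (fin 908 7 908)
(mv 975 (cons (fin 1039 0 972)
(mv 1036 (cons (fin 1035 1 971)
(fin 976 1 972)))))))))))
(mv 908 (cons (fin 972 7 908)
(mv 1228 (cons (fin 1164 5 972)
(mv 1230 (cons (fin 1166 4 973)
(mv 1229 (cons (fin 1292 5 1036)
(fin 1294 4 1037)))))))))))))
(mv 1165 (cons (cons (mv 1164 (cons (fin 1228 5 972)
(mv 909 (cons (fin 1100 5 908)
(mv 910 (cons (fin 846 6 845)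
(fin 974 6 909)))))))
(mv 1230 (cons (fin 1166 4 973)
(mv 910 (cons (fin 974 6 909)
(mv 846 (cons (fin 909 6 845)
(mv 1229 (cons (fin 1294 4 1037)
(mv 1292 (cons (fin 1228 5 1036)
(mv 1036 (cons (fin 972 7 972)
(mv 1293 (cons (fin 1100 7 1036)
(fin 1356 5 1100))))))))))))))))
(cons (mv 1166 (cons (fin 1230 4 973)
(mv 910 (cons (fin 974 6 909)
(mv 909 (cons (fin 846 6 845)
(mv 1100 (cons (fin 1164 5 908)
(mv 1036 (cons (fin 845 5 844)
(mv 1229 (cons (fin 972 7 972)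
(fin 1293 7 1036)))))))))))))
(cons (mv 1164 (cons (fin 1228 5 972)
(mv 1100 (cons (fin 909 5 908)
(mv 1166 (cons (fin 1230 4 973)
(mv 1099 (cons (fin 1167 3 1099)
(fin 1098 0 1098)))))))))
(mv 1230 (cons (fin 1166 4 973)
(mv 910 (cons (fin 974 6 909)
(mv 1229 (cons (fin 1294 4 1037)
(mv 1228 (cons (fin 1164 5 972)
(fin 1292 5 1036)))))))))))))))
(cons (cons (mv 909 (cons (cons (mv 846 (cons (fin 910 6 845)
(mv 845 (cons (fin 782 6 781)
(mv 844 (cons (fin 780 7 780)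
(fin 908 7 844)))))))
(cons (mv 846 (cons (fin 910 6 845)
(mv 845 (cons (fin 782 6 781)
(mv 1036 (cons (fin 1100 5 844)
(mv 781 (cons (fin 972 5 780)
(mv 780 (cons (fin 716 7 716)
(fin 844 7 780)))))))))))
(mv 844 (cons (fin 908 7 844)
(mv 845 (cons (fin 780 7 780)
(mv 1036 (cons (fin 1100 5 844)
(mv 781 (cons (fin 972 5 780)
(mv 782 (cons (fin 718 6 717)
(fin 846 6 781)))))))))))))
(cons (mv 846 (cons (fin 910 6 845)
(mv 845 (cons (fin 782 6 781)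
(mv 1036 (cons (fin 1100 5 844)
(mv 972 (cons (fin 781 5 780)
(mv 1165 (cons (fin 908 7 908)
(fin 1229 7 972)))))))))))
(cons (mv 844 (cons (fin 908 7 844)
(mv 845 (cons (fin 780 7 780)
(mv 1036 (cons (fin 1100 5 844)
(mv 972 (cons (fin 781 5 780)
(mv 1165 (cons (fin 1229 7 972)
(mv 974 (cons (fin 910 6 909)
(mv 975 (cons (fin 1035 1 971)
(fin 976 1 972)))))))))))))))
(mv 844 (cons (fin 908 7 844)
(mv 910 (cons (fin 846 6 845)
(mv 1165 (cons (fin 974 6 909)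
(mv 1230 (cons (fin 1166 4 973)
(mv 1229 (cons (fin 1294 4 1037)
(mv 1292 (cons (fin 1228 5 1036)
(mv 1036 (cons (fin 972 7 972)
(mv 1293 (cons (fin 1100 7 1036)
(fin 1356 5 1100)))))))))))))))))))))
(mv 1165 (cons (cons (mv 908 (cons (fin 972 7 908)
(mv 844 (cons (fin 909 7 844)
(mv 1228 (cons (fin 1164 5 972)
(mv 1230 (cons (fin 1166 4 973)
(mv 1229 (cons (fin 1292 5 1036)
(fin 1294 4 1037)))))))))))
(mv 1166 (cons (fin 1230 4 973)
(mv 1164 (cons (fin 1228 5 972)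
(mv 1100 (cons (fin 909 5 908)
(mv 1099 (cons (fin 1167 3 1099)
(fin 1098 0 1098))))))))))
(cons (mv 972 (cons (fin 908 7 908)
(mv 1230 (cons (fin 1166 4 973)
(mv 1229 (cons (fin 1036 7 972)
(fin 1294 4 1037)))))))
(mv 908 (cons (fin 972 7 908)
(mv 909 (cons (fin 844 7 844)
(mv 1164 (cons (fin 1100 5 908)
(fin 1228 5 972)))))))))))
(cons (mv 909 (cons (cons (mv 844 (cons (fin 908 7 844)
(mv 780 (cons (fin 845 7 780)
(mv 910 (cons (fin 846 6 845)
(mv 1100 (cons (fin 1164 5 908)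
(mv 1165 (cons (fin 974 6 909)
(mv 1230 (cons (fin 1166 4 973)
(mv 1229 (cons (fin 1294 4 1037)
(mv 1292 (cons (fin 1228 5 1036)
(mv 1293 (cons (fin 1036 7 1036)
(fin 1356 5 1100)))))))))))))))))))
(mv 844 (cons (fin 908 7 844)
(mv 845 (cons (fin 780 7 780)
(mv 1100 (cons (fin 1036 5 844)
(fin 1164 5 908))))))))
(cons (mv 846 (cons (fin 910 6 845)
(mv 845 (cons (fin 782 6 781)
(mv 844 (cons (fin 780 7 780)
(fin 908 7 844)))))))
(cons (mv 1100 (cons (fin 1164 5 908)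
(mv 845 (cons (fin 1036 5 844)
(mv 846 (cons (fin 782 6 781)
(fin 910 6 845)))))))
(mv 910 (cons (fin 846 6 845)
(mv 844 (cons (fin 908 7 844)
(mv 1165 (cons (fin 974 6 909)
(mv 1164 (cons (fin 1100 5 908)
(fin 1228 5 972)))))))))))))
(mv 1165 (cons (cons (mv 908 (cons (fin 972 7 908)
(mv 844 (cons (fin 909 7 844)
(mv 1230 (cons (fin 1166 4 973)
(mv 910 (cons (fin 974 6 909)
(mv 1229 (cons (fin 1294 4 1037)
(mv 1228 (cons (fin 1164 5 972)
(fin 1292 5 1036)))))))))))))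
(mv 908 (cons (fin 972 7 908)
(mv 909 (cons (fin 844 7 844)
(mv 910 (cons (fin 846 6 845)
(fin 974 6 909))))))))
(cons (mv 910 (cons (fin 974 6 909)
(mv 846 (cons (fin 909 6 845)
(mv 1228 (cons (fin 1164 5 972)
(mv 1230 (cons (fin 1166 4 973)
(mv 1229 (cons (fin 1292 5 1036)
(fin 1294 4 1037)))))))))))
(cons (mv 1164 (cons (fin 1228 5 972)
(mv 909 (cons (fin 1100 5 908)
(mv 908 (cons (fin 844 7 844)
(fin 972 7 908)))))))
(mv 908 (cons (fin 972 7 908)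
(mv 910 (cons (fin 974 6 909)
(mv 1228 (cons (fin 1164 5 972)
(mv 1230 (cons (fin 1166 4 973)
(mv 1229 (cons (fin 1292 5 1036)
(fin 1294 4 1037)))))))))))))))))))))))
(cons (cons (cons (mv 973 (cons (cons (cons (mv 909 (cons (cons (mv 844 (cons (fin 908 7 844)
(mv 780 (cons (fin 845 7 780)
(mv 1102 (cons (fin 1166 4 909)
(mv 846 (cons (fin 910 6 845)
(mv 1100 (cons (fin 1164 5 908)
(mv 1103 (cons (fin 1039 2 1036)
(mv 1104 (cons (fin 1036 3 1036)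
(mv 1168 (cons (fin 1167 0 1100)
(fin 1169 0 1101)))))))))))))))))
(mv 1100 (cons (fin 1164 5 908)
(mv 845 (cons (fin 1036 5 844)
(mv 846 (cons (fin 782 6 781)
(fin 910 6 845))))))))
(cons (mv 1102 (cons (fin 1166 4 909)
(mv 1100 (cons (fin 1164 5 908)
(mv 845 (cons (fin 1036 5 844)
(mv 844 (cons (fin 780 7 780)
(fin 908 7 844)))))))))
(cons (mv 844 (cons (fin 908 7 844)
(mv 780 (cons (fin 845 7 780)
(mv 1166 (cons (fin 1102 4 909)
(mv 910 (cons (fin 846 6 845)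
(mv 1165 (cons (fin 974 6 909)
(fin 1230 4 973)))))))))))
(mv 1102 (cons (fin 1166 4 909)
(mv 1100 (cons (fin 1164 5 908)
(mv 1039 (cons (fin 1103 2 1036)
(mv 844 (cons (fin 908 7 844)
(mv 910 (cons (fin 846 6 845)
(mv 974 (cons (fin 1165 6 909)
(mv 972 (cons (fin 975 0 972)
(mv 911 (cons (fin 912 1 908)
(fin 971 2 907)))))))))))))))))))))
(mv 1165 (cons (cons (mv 908 (cons (fin 972 7 908)
(mv 1230 (cons (fin 1166 4 973)
(mv 910 (cons (fin 974 6 909)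
(mv 1229 (cons (fin 1294 4 1037)
(mv 1228 (cons (fin 1164 5 972)
(fin 1292 5 1036)))))))))))
(cons (mv 1228 (cons (fin 1164 5 972)
(mv 910 (cons (fin 974 6 909)
(mv 1229 (cons (fin 1292 5 1036)
(mv 1230 (cons (fin 1166 4 973)
(fin 1294 4 1037)))))))))
(mv 1166 (cons (fin 1230 4 973)
(mv 974 (cons (fin 910 6 909)
(mv 972 (cons (fin 908 7 908)
(mv 975 (cons (fin 1039 0 972)
(mv 1036 (cons (fin 976 1 972)
(fin 1229 7 972)))))))))))))
(cons (mv 972 (cons (fin 908 7 908)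
(mv 1164 (cons (fin 1228 5 972)
(mv 1036 (cons (fin 1229 7 972)
(mv 974 (cons (fin 910 6 909)
(mv 975 (cons (fin 976 1 972)
(fin 1039 0 972)))))))))))
(cons (mv 1166 (cons (fin 1230 4 973)
(mv 1228 (cons (fin 1164 5 972)
(mv 972 (cons (fin 908 7 908)
(mv 1229 (cons (fin 1036 7 972)
(fin 1292 5 1036)))))))))
(mv 1164 (cons (fin 1228 5 972)
(mv 974 (cons (fin 910 6 909)
(mv 1166 (cons (fin 1230 4 973)
(mv 972 (cons (fin 908 7 908)
(mv 975 (cons (fin 1039 0 972)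
(mv 911 (cons (fin 912 2 908)
(mv 976 (cons (fin 1036 1 972)
(mv 1104 (cons (fin 1168 7 911)
(mv 1103 (cons (fin 1102 1 1100)
(fin 1167 2 1100))))))))))))))))))))))))
(cons (mv 909 (cons (cons (mv 844 (cons (fin 908 7 844)
(mv 780 (cons (fin 845 7 780)
(mv 1102 (cons (fin 1166 4 909)
(mv 846 (cons (fin 910 6 845)
(mv 1100 (cons (fin 1164 5 908)
(mv 1103 (cons (fin 1039 2 1036)
(mv 1104 (cons (fin 1036 3 1036)
(mv 1168 (cons (fin 1167 0 1100)
(fin 1169 0 1101)))))))))))))))))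
(mv 844 (cons (fin 908 7 844)
(mv 845 (cons (fin 780 7 780)
(mv 846 (cons (fin 782 6 781)
(fin 910 6 845))))))))
(cons (mv 1102 (cons (fin 1166 4 909)
(mv 1100 (cons (fin 1164 5 908)
(mv 845 (cons (fin 1036 5 844)
(mv 846 (cons (fin 782 6 781)
(fin 910 6 845)))))))))
(cons (mv 844 (cons (fin 908 7 844)
(mv 780 (cons (fin 845 7 780)
(mv 1102 (cons (fin 1166 4 909)
(mv 1100 (cons (fin 1164 5 908)
(mv 1103 (cons (fin 1039 2 1036)
(mv 1104 (cons (fin 1036 3 1036)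
(mv 1168 (cons (fin 1167 0 1100)
(fin 1169 0 1101)))))))))))))))
(mv 1100 (cons (fin 1164 5 908)
(mv 846 (cons (fin 910 6 845)
(mv 844 (cons (fin 908 7 844)
(mv 1102 (cons (fin 1166 4 909)
(mv 1103 (cons (fin 1039 2 1036)
(mv 1104 (cons (fin 1036 3 1036)
(mv 1168 (cons (fin 1167 0 1100)
(fin 1169 0 1101)))))))))))))))))))
(mv 1165 (cons (cons (mv 1164 (cons (fin 1228 5 972)
(mv 909 (cons (fin 1100 5 908)
(mv 910 (cons (fin 846 6 845)
(fin 974 6 909)))))))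
(mv 1166 (cons (fin 1230 4 973)
(mv 909 (cons (fin 1102 4 909)
(mv 910 (cons (fin 846 6 845)
(fin 974 6 909))))))))
(cons (mv 1164 (cons (fin 1228 5 972)
(mv 909 (cons (fin 1100 5 908)
(mv 1166 (cons (fin 1102 4 909)
(fin 1230 4 973)))))))
(mv 1166 (cons (fin 1230 4 973)
(mv 910 (cons (fin 974 6 909)
(mv 1228 (cons (fin 1164 5 972)
(mv 1229 (cons (fin 1292 5 1036)
(mv 1036 (cons (fin 972 7 972)
(mv 1226 (cons (fin 1227 2 1162)
(mv 1100 (cons (fin 1293 7 1036)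
(mv 1099 (cons (fin 1098 0 1098)
(mv 1167 (cons (fin 1168 3 1100)
(fin 1102 0 1099))))))))))))))))))))))))
(cons (cons (mv 909 (cons (cons (mv 844 (cons (fin 908 7 844)
(mv 780 (cons (fin 845 7 780)
(mv 1166 (cons (fin 1102 4 909)
(mv 910 (cons (fin 846 6 845)
(mv 1165 (cons (fin 974 6 909)
(fin 1230 4 973)))))))))))
(cons (mv 1102 (cons (fin 1166 4 909)
(mv 846 (cons (fin 910 6 845)
(mv 845 (cons (fin 782 6 781)
(mv 1036 (cons (fin 1100 5 844)
(mv 781 (cons (fin 972 5 780)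
(mv 780 (cons (fin 716 7 716)
(fin 844 7 780)))))))))))))
(mv 844 (cons (fin 908 7 844)
(mv 845 (cons (fin 780 7 780)
(mv 1102 (cons (fin 1166 4 909)
(mv 782 (cons (fin 846 6 781)
(mv 781 (cons (fin 718 6 717)
(mv 1036 (cons (fin 972 5 780)
(fin 1100 5 844)))))))))))))))
(cons (cons (mv 1102 (cons (fin 1166 4 909)
(mv 846 (cons (fin 910 6 845)
(mv 845 (cons (fin 782 6 781)
(mv 1036 (cons (fin 1100 5 844)
(mv 972 (cons (fin 781 5 780)
(mv 1165 (cons (fin 908 7 908)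
(fin 1229 7 972)))))))))))))
(mv 844 (cons (fin 908 7 844)
(mv 845 (cons (fin 780 7 780)
(mv 1102 (cons (fin 1166 4 909)
(mv 1036 (cons (fin 1100 5 844)
(mv 972 (cons (fin 781 5 780)
(mv 1103 (cons (fin 1104 3 1036)
(mv 1165 (cons (fin 1229 7 972)
(mv 974 (cons (fin 910 6 909)
(mv 975 (cons (fin 976 1 972)
(fin 1039 0 972))))))))))))))))))))
(cons (mv 846 (cons (fin 910 6 845)
(mv 845 (cons (fin 782 6 781)
(mv 844 (cons (fin 780 7 780)
(fin 908 7 844)))))))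
(mv 844 (cons (fin 908 7 844)
(mv 1166 (cons (fin 1102 4 909)
(mv 910 (cons (fin 846 6 845)
(mv 1165 (cons (fin 974 6 909)
(fin 1230 4 973)))))))))))))
(mv 1165 (cons (cons (mv 908 (cons (fin 972 7 908)
(mv 844 (cons (fin 909 7 844)
(mv 1230 (cons (fin 1166 4 973)
(mv 1228 (cons (fin 1164 5 972)
(mv 1229 (cons (fin 1292 5 1036)
(fin 1294 4 1037)))))))))))
(mv 1166 (cons (fin 1230 4 973)
(mv 909 (cons (fin 1102 4 909)
(mv 908 (cons (fin 844 7 844)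
(fin 972 7 908))))))))
(cons (mv 908 (cons (fin 972 7 908)
(mv 909 (cons (fin 844 7 844)
(mv 1164 (cons (fin 1100 5 908)
(fin 1228 5 972)))))))
(cons (mv 1164 (cons (fin 1228 5 972)
(mv 909 (cons (fin 1100 5 908)
(mv 1166 (cons (fin 1102 4 909)
(fin 1230 4 973)))))))
(mv 1166 (cons (fin 1230 4 973)
(mv 972 (cons (fin 908 7 908)
(mv 1228 (cons (fin 1164 5 972)
(mv 1229 (cons (fin 1036 7 972)
(fin 1292 5 1036))))))))))))))
(cons (mv 909 (cons (cons (mv 844 (cons (fin 908 7 844)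
(mv 780 (cons (fin 845 7 780)
(mv 910 (cons (fin 846 6 845)
(mv 1164 (cons (fin 1100 5 908)
(mv 1165 (cons (fin 1228 5 972)
(fin 974 6 909)))))))))))
(mv 846 (cons (fin 910 6 845)
(mv 845 (cons (fin 782 6 781)
(mv 1100 (cons (fin 1036 5 844)
(fin 1164 5 908))))))))
(cons (mv 1100 (cons (fin 1164 5 908)
(mv 845 (cons (fin 1036 5 844)
(mv 844 (cons (fin 780 7 780)
(fin 908 7 844)))))))
(cons (mv 844 (cons (fin 908 7 844)
(mv 845 (cons (fin 780 7 780)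
(mv 846 (cons (fin 782 6 781)
(fin 910 6 845)))))))
(mv 846 (cons (fin 910 6 845)
(mv 1164 (cons (fin 1100 5 908)
(mv 908 (cons (fin 844 7 844)
(mv 1165 (cons (fin 972 7 908)
(fin 1228 5 972)))))))))))))
(mv 909 (cons (cons (mv 844 (cons (fin 908 7 844)
(mv 780 (cons (fin 845 7 780)
(mv 1102 (cons (fin 1166 4 909)
(mv 910 (cons (fin 846 6 845)
(mv 1100 (cons (fin 1164 5 908)
(mv 1039 (cons (fin 1103 2 1036)
(mv 974 (cons (fin 1165 6 909)
(mv 972 (cons (fin 975 0 972)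
(mv 911 (cons (fin 912 1 908)
(fin 971 2 907)))))))))))))))))))
(cons (mv 844 (cons (fin 908 7 844)
(mv 780 (cons (fin 845 7 780)
(mv 1166 (cons (fin 1102 4 909)
(mv 1164 (cons (fin 1100 5 908)
(mv 1165 (cons (fin 1228 5 972)
(fin 1230 4 973)))))))))))
(mv 1102 (cons (fin 1166 4 909)
(mv 910 (cons (fin 846 6 845)
(mv 1100 (cons (fin 1164 5 908)
(mv 1039 (cons (fin 1103 2 1036)
(mv 974 (cons (fin 1165 6 909)
(mv 972 (cons (fin 975 0 972)
(mv 911 (cons (fin 912 1 908)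
(fin 971 2 907)))))))))))))))))
(cons (mv 846 (cons (fin 910 6 845)
(mv 782 (cons (fin 845 6 781)
(mv 908 (cons (fin 844 7 844)
(mv 1164 (cons (fin 1100 5 908)
(mv 1165 (cons (fin 972 7 908)
(fin 1228 5 972)))))))))))
(cons (mv 844 (cons (fin 908 7 844)
(mv 780 (cons (fin 845 7 780)
(mv 910 (cons (fin 846 6 845)
(mv 1166 (cons (fin 1102 4 909)
(mv 1165 (cons (fin 974 6 909)
(fin 1230 4 973)))))))))))
(mv 846 (cons (fin 910 6 845)
(mv 845 (cons (fin 782 6 781)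
(mv 844 (cons (fin 780 7 780)
(fin 908 7 844)))))))))))))))
(mv 973 (cons (cons (mv 909 (cons (cons (mv 844 (cons (fin 908 7 844)
(mv 780 (cons (fin 845 7 780)
(mv 1102 (cons (fin 1166 4 909)
(mv 910 (cons (fin 846 6 845)
(mv 1100 (cons (fin 1164 5 908)
(mv 1039 (cons (fin 1103 2 1036)
(mv 974 (cons (fin 1165 6 909)
(mv 972 (cons (fin 975 0 972)
(mv 911 (cons (fin 912 1 908)
(fin 971 2 907)))))))))))))))))))
(mv 846 (cons (fin 910 6 845)
(mv 782 (cons (fin 845 6 781)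
(mv 1166 (cons (fin 1102 4 909)
(mv 1164 (cons (fin 1100 5 908)
(mv 1165 (cons (fin 1228 5 972)
(fin 1230 4 973))))))))))))
(cons (mv 1102 (cons (fin 1166 4 909)
(mv 908 (cons (fin 844 7 844)
(mv 1164 (cons (fin 1100 5 908)
(mv 1165 (cons (fin 972 7 908)
(fin 1228 5 972)))))))))
(cons (mv 844 (cons (fin 908 7 844)
(mv 780 (cons (fin 845 7 780)
(mv 1166 (cons (fin 1102 4 909)
(mv 910 (cons (fin 846 6 845)
(mv 1165 (cons (fin 974 6 909)
(fin 1230 4 973)))))))))))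
(mv 1100 (cons (fin 1164 5 908)
(mv 844 (cons (fin 908 7 844)
(mv 845 (cons (fin 780 7 780)
(mv 846 (cons (fin 782 6 781)
(fin 910 6 845)))))))))))))
(cons (mv 1165 (cons (cons (mv 908 (cons (fin 972 7 908)
(mv 1230 (cons (fin 1166 4 973)
(mv 910 (cons (fin 974 6 909)
(mv 1229 (cons (fin 1294 4 1037)
(mv 1228 (cons (fin 1164 5 972)
(fin 1292 5 1036)))))))))))
(cons (mv 972 (cons (fin 908 7 908)
(mv 974 (cons (fin 910 6 909)
(mv 1166 (cons (fin 1230 4 973)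
(mv 1039 (cons (fin 975 0 972)
(mv 1100 (cons (cons (mv 1167 (cons (fin 1168 3 1100)
(mv 1099 (cons (fin 1164 3 1099)
(fin 1098 0 1098)))))
(mv 1102 (cons (fin 1103 2 1036)
(mv 971 (cons (cons (mv 1098 (cons (fin 1099 0 1098)
(mv 906 (cons (fin 907 3 906)
(mv 970 (cons (fin 905 3 905)
(mv 1034 (cons (fin 1033 1 969)
(fin 1035 1 970)))))))))
(cons (mv 1034 (cons (fin 1035 1 970)
(mv 970 (cons (fin 1033 1 969)
(mv 906 (cons (fin 905 3 905)
(fin 907 3 906)))))))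
(mv 906 (cons (fin 907 3 906)
(mv 970 (cons (fin 905 3 905)
(mv 1099 (cons (fin 1098 0 1098)
(mv 1163 (cons (fin 1162 1 1098)
(fin 1035 7 906)))))))))))
(cons (cons (mv 1098 (cons (fin 1099 0 1098)
(mv 906 (cons (fin 907 3 906)
(mv 970 (cons (fin 905 3 905)
(mv 1034 (cons (fin 1033 1 969)
(mv 1161 (cons (fin 1097 5 905)
(mv 1162 (cons (fin 1225 5 969)
(mv 1163 (cons (fin 1164 2 1097)
(fin 1227 4 970)))))))))))))))
(mv 1034 (cons (fin 1035 1 970)
(mv 970 (cons (fin 1033 1 969)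
(mv 1098 (cons (fin 1099 0 1098)
(mv 1162 (cons (fin 907 6 906)
(mv 1163 (cons (fin 1164 2 1098)
(fin 1227 4 970))))))))))))
(cons (mv 1098 (cons (fin 1099 0 1098)
(mv 1034 (cons (fin 1035 1 970)
(mv 970 (cons (fin 1033 1 969)
(mv 905 (cons (fin 906 3 905)
(mv 969 (cons (fin 904 3 904)
(fin 1162 7 905)))))))))))
(mv 1035 (cons (fin 1034 1 970)
(mv 907 (cons (fin 906 3 906)
(mv 1099 (cons (fin 1098 0 1098)
(fin 1164 4 907))))))))))))))
(cons (mv 1167 (cons (fin 1168 3 1100)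
(mv 1103 (cons (fin 1102 2 1036)
(mv 1104 (cons (fin 1164 2 1100)
(mv 976 (cons (fin 912 5 911)
(fin 1231 6 975)))))))))
(mv 1102 (cons (fin 1103 2 1036)
(mv 1099 (cons (fin 1098 0 1098)
(fin 1167 0 1099))))))))))))))))
(mv 1164 (cons (fin 1228 5 972)
(mv 972 (cons (fin 908 7 908)
(mv 974 (cons (fin 910 6 909)
(mv 1039 (cons (fin 975 0 972)
(mv 1103 (cons (cons (mv 1102 (cons (fin 1104 1 1100)
(fin 1100 2 1036)))
(mv 1167 (cons (cons (mv 1104 (cons (fin 1166 2 1100)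
(mv 976 (cons (fin 912 5 911)
(fin 1231 6 975)))))
(mv 976 (cons (fin 1231 6 975)
(mv 912 (cons (fin 848 5 847)
(fin 1104 5 911))))))
(cons (mv 1166 (cons (fin 1104 2 1100)
(mv 1100 (cons (fin 1099 3 1099)
(fin 1168 3 1100)))))
(mv 1231 (cons (fin 976 6 975)
(mv 1232 (cons (fin 1166 0 1164)
(fin 1296 4 1039)))))))))
(cons (mv 1102 (cons (fin 1104 1 1100)
(mv 1163 (cons (fin 1162 2 1098)
(fin 1166 2 1099)))))
(mv 1102 (cons (fin 1100 2 1036)
(mv 1163 (cons (fin 1162 2 1098)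
(fin 1166 2 1099))))))))))))))))))
(cons (mv 974 (cons (fin 910 6 909)
(mv 972 (cons (fin 908 7 908)
(mv 975 (cons (fin 1039 0 972)
(mv 912 (cons (fin 911 2 908)
(mv 976 (cons (fin 913 2 909)
(mv 1104 (cons (cons (mv 1166 (cons (fin 1230 4 973)
(mv 1103 (cons (fin 1167 5 911)
(mv 1105 (cons (fin 1102 1 1101)
(fin 1169 4 912)))))))
(cons (mv 1169 (cons (fin 1105 4 912)
(mv 1168 (cons (fin 1233 4 976)
(mv 1102 (cons (fin 1103 0 1101)
(mv 1229 (cons (cons (mv 1230 (cons (fin 1166 4 973)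
(fin 1294 4 1037)))
(mv 1292 (cons (fin 1228 5 1036)
(mv 1293 (cons (fin 1356 5 1100)
(mv 1357 (cons (fin 1166 6 1101)
(mv 1358 (cons (fin 1294 4 1101)
(fin 1422 4 1165))))))))))
(cons (mv 1292 (cons (fin 1228 5 1036)
(mv 1294 (cons (fin 1230 4 1037)
(mv 1293 (cons (fin 1356 5 1100)
(fin 1358 4 1101)))))))
(mv 1292 (cons (fin 1228 5 1036)
(mv 1166 (cons (fin 1230 4 973)
(mv 1293 (cons (fin 1356 5 1100)
(fin 1357 6 1101))))))))))))))))
(mv 1166 (cons (fin 1230 4 973)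
(mv 1167 (cons (fin 1103 5 911)
(mv 1168 (cons (fin 1100 3 1100)
(fin 1105 2 1101)))))))))
(cons (mv 1103 (cons (fin 1167 5 911)
(mv 1169 (cons (fin 1105 4 912)
(mv 1168 (cons (fin 1102 0 1101)
(fin 1233 4 976)))))))
(cons (mv 1166 (cons (fin 1230 4 973)
(mv 1167 (cons (fin 1103 5 911)
(mv 1168 (cons (fin 1100 3 1100)
(fin 1231 5 975)))))))
(mv 1169 (cons (fin 1105 4 912)
(mv 1166 (cons (fin 1230 4 973)
(mv 1168 (cons (fin 1233 4 976)
(mv 1167 (cons (fin 1100 3 1100)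
(fin 1102 3 1101)))))))))))))))))))))))
(cons (mv 972 (cons (fin 908 7 908)
(mv 1103 (cons (cons (mv 910 (cons (fin 974 6 909)
(mv 1164 (cons (fin 1228 5 972)
(mv 1102 (cons (fin 1104 1 1100)
(mv 1163 (cons (fin 1100 1 1099)
(fin 1162 2 1098)))))))))
(mv 1164 (cons (fin 1228 5 972)
(mv 1102 (cons (fin 1104 1 1100)
(mv 1100 (cons (fin 1163 1 1099)
(fin 1039 2 1036))))))))
(cons (mv 974 (cons (fin 910 6 909)
(mv 975 (cons (fin 1039 0 972)
(mv 912 (cons (fin 911 2 908)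
(mv 976 (cons (fin 913 2 909)
(mv 1104 (cons (fin 1167 5 911)
(mv 1169 (cons (fin 1105 4 912)
(mv 1168 (cons (fin 1102 0 1101)
(fin 1233 4 976)))))))))))))))
(cons (mv 974 (cons (fin 910 6 909)
(mv 1228 (cons (fin 1164 5 972)
(mv 1039 (cons (fin 975 0 972)
(mv 1229 (cons (fin 1292 5 1036)
(mv 1230 (cons (fin 1294 4 1037)
(mv 1231 (cons (mv 1167 (cons (fin 1168 2 1164)
(fin 976 6 975)))
(cons (mv 1296 (cons (fin 1295 0 1228)
(mv 1232 (cons (fin 1297 0 1229)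
(mv 1168 (cons (fin 1169 2 1165)
(fin 1104 7 1039)))))))
(mv 1295 (cons (fin 1296 0 1228)
(mv 1167 (cons (fin 976 6 975)
(fin 1104 6 1039))))))))))))))))))
(mv 974 (cons (fin 910 6 909)
(mv 1039 (cons (fin 975 0 972)
(mv 1100 (cons (fin 1102 2 1036)
(mv 1229 (cons (cons (mv 1228 (cons (fin 1164 5 972)
(fin 1292 5 1036)))
(mv 1294 (cons (fin 1230 4 1037)
(mv 1293 (cons (fin 1358 4 1101)
(mv 1356 (cons (fin 1292 5 1100)
(mv 1357 (cons (fin 1164 7 1100)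
(fin 1420 5 1164))))))))))
(cons (mv 1294 (cons (fin 1230 4 1037)
(mv 1292 (cons (fin 1228 5 1036)
(mv 1293 (cons (fin 1356 5 1100)
(fin 1358 4 1101)))))))
(mv 1294 (cons (fin 1230 4 1037)
(mv 1164 (cons (fin 1228 5 972)
(mv 1293 (cons (fin 1357 7 1100)
(fin 1358 4 1101))))))))))))))))))))))
(mv 1228 (cons (fin 1164 5 972)
(mv 1230 (cons (fin 1166 4 973)
(mv 1229 (cons (fin 1292 5 1036)
(fin 1294 4 1037)))))))))))
(mv 909 (cons (cons (mv 844 (cons (fin 908 7 844)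
(mv 845 (cons (fin 780 7 780)
(mv 846 (cons (fin 782 6 781)
(fin 910 6 845)))))))
(mv 1100 (cons (fin 1164 5 908)
(mv 910 (cons (fin 846 6 845)
(mv 1102 (cons (fin 1166 4 909)
(mv 1039 (cons (fin 1103 2 1036)
(mv 972 (cons (cons (mv 911 (cons (fin 912 1 908)
(mv 971 (cons (fin 908 1 907)
(fin 970 2 906)))))
(mv 974 (cons (fin 975 0 972)
(mv 1099 (cons (cons (mv 970 (cons (fin 971 2 906)
(mv 1034 (cons (fin 1035 3 1034)
(mv 1098 (cons (fin 1033 3 1033)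
(mv 1162 (cons (fin 1161 1 1097)
(fin 1163 1 1098)))))))))
(cons (mv 1162 (cons (fin 1163 1 1098)
(mv 1098 (cons (fin 1161 1 1097)
(mv 1034 (cons (fin 1033 3 1033)
(fin 1035 3 1034)))))))
(mv 971 (cons (fin 970 2 906)
(mv 1162 (cons (fin 1163 1 1098)
(mv 1098 (cons (fin 1161 1 1097)
(mv 907 (cons (fin 906 3 906)
(fin 1035 5 906)))))))))))
(cons (cons (mv 1162 (cons (fin 1163 1 1098)
(mv 1098 (cons (fin 1161 1 1097)
(mv 1034 (cons (fin 1033 3 1033)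
(mv 970 (cons (fin 971 2 906)
(mv 905 (cons (fin 969 7 905)
(mv 906 (cons (fin 841 7 841)
(mv 907 (cons (fin 908 0 905)
(fin 843 6 842)))))))))))))))
(mv 970 (cons (fin 971 2 906)
(mv 1034 (cons (fin 1035 3 1034)
(mv 1098 (cons (fin 1033 3 1033)
(mv 906 (cons (fin 1163 4 906)
(mv 907 (cons (fin 908 0 906)
(fin 843 6 842))))))))))))
(cons (mv 1034 (cons (fin 1035 3 1034)
(mv 1098 (cons (fin 1033 3 1033)
(mv 970 (cons (fin 971 2 906)
(mv 1161 (cons (fin 1162 1 1097)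
(mv 1097 (cons (fin 1160 1 1096)
(fin 906 5 905)))))))))))
(mv 1035 (cons (fin 1034 3 1034)
(mv 1163 (cons (fin 1162 1 1098)
(mv 971 (cons (fin 970 2 906)
(fin 908 6 907))))))))))))))
(cons (mv 911 (cons (fin 912 1 908)
(mv 975 (cons (fin 974 0 972)
(mv 908 (cons (fin 976 0 908)
(mv 847 (cons (fin 848 2 844)
(fin 1104 4 847)))))))))
(mv 974 (cons (fin 975 0 972)
(mv 911 (cons (fin 912 1 908)
(fin 971 2 907)))))))))))))))))
(cons (mv 1102 (cons (fin 1166 4 909)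
(mv 1100 (cons (fin 1164 5 908)
(mv 1039 (cons (fin 1103 2 1036)
(mv 908 (cons (fin 844 7 844)
(mv 975 (cons (cons (mv 974 (cons (fin 976 3 908)
(fin 972 0 972)))
(mv 911 (cons (cons (mv 910 (cons (fin 976 0 908)
(mv 847 (cons (fin 848 2 844)
(fin 1104 4 847)))))
(mv 847 (cons (fin 1104 4 847)
(mv 783 (cons (fin 976 4 783)
(mv 784 (cons (fin 720 6 719)
(fin 848 6 783))))))))
(cons (mv 910 (cons (fin 976 0 908)
(mv 972 (cons (fin 971 1 907)
(fin 912 1 908)))))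
(mv 847 (cons (fin 1104 4 847)
(mv 848 (cons (fin 910 2 844)
(fin 784 6 783)))))))))
(cons (mv 974 (cons (fin 976 3 908)
(mv 907 (cons (fin 906 0 906)
(fin 910 0 907)))))
(mv 974 (cons (fin 972 0 972)
(mv 907 (cons (fin 906 0 906)
(fin 910 0 907))))))))))))))))
(cons (mv 1100 (cons (fin 1164 5 908)
(mv 1102 (cons (fin 1166 4 909)
(mv 1103 (cons (fin 1039 2 1036)
(mv 1168 (cons (fin 1167 0 1100)
(mv 1104 (cons (fin 1169 0 1101)
(mv 976 (cons (cons (mv 846 (cons (fin 910 6 845)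
(mv 782 (cons (fin 845 6 781)
(mv 911 (cons (fin 975 7 911)
(mv 912 (cons (fin 847 7 847)
(mv 913 (cons (fin 849 6 848)
(fin 977 6 912)))))))))))
(cons (mv 913 (cons (fin 977 6 912)
(mv 912 (cons (fin 849 6 848)
(mv 974 (cons (fin 975 2 909)
(mv 845 (cons (cons (mv 846 (cons (fin 782 6 781)
(fin 910 6 845)))
(mv 780 (cons (fin 844 7 780)
(mv 781 (cons (fin 716 7 716)
(mv 718 (cons (fin 782 6 717)
(mv 717 (cons (fin 654 6 653)
(fin 910 4 717))))))))))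
(cons (mv 780 (cons (fin 844 7 780)
(mv 781 (cons (fin 716 7 716)
(mv 782 (cons (fin 718 6 717)
(fin 846 6 781)))))))
(mv 910 (cons (fin 846 6 845)
(mv 780 (cons (fin 844 7 780)
(mv 781 (cons (fin 716 7 716)
(fin 717 4 717))))))))))))))))
(mv 846 (cons (fin 910 6 845)
(mv 911 (cons (fin 975 7 911)
(mv 847 (cons (fin 912 7 847)
(mv 845 (cons (fin 782 6 781)
(mv 780 (cons (fin 844 7 780)
(mv 781 (cons (fin 848 3 780)
(fin 716 7 716)))))))))))))))
(cons (cons (mv 911 (cons (fin 975 7 911)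
(mv 912 (cons (fin 847 7 847)
(mv 977 (cons (fin 910 0 909)
(fin 913 6 912)))))))
(mv 913 (cons (fin 977 6 912)
(mv 912 (cons (fin 849 6 848)
(mv 911 (cons (fin 847 7 847)
(fin 975 7 911))))))))
(cons (mv 846 (cons (fin 910 6 845)
(mv 845 (cons (fin 782 6 781)
(mv 913 (cons (fin 977 6 912)
(mv 912 (cons (fin 849 6 848)
(mv 847 (cons (fin 848 0 845)
(fin 911 7 847)))))))))))
(mv 977 (cons (fin 913 6 912)
(mv 975 (cons (fin 911 7 911)
(mv 910 (cons (fin 974 3 909)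
(fin 846 6 845)))))))))))))))))))))
(mv 1102 (cons (fin 1166 4 909)
(mv 975 (cons (cons (mv 844 (cons (fin 908 7 844)
(mv 780 (cons (fin 845 7 780)
(mv 1100 (cons (fin 1164 5 908)
(mv 1103 (cons (fin 1039 2 1036)
(mv 1168 (cons (fin 1167 0 1100)
(mv 1104 (cons (fin 1169 0 1101)
(mv 976 (cons (fin 911 7 911)
(mv 913 (cons (fin 977 6 912)
(mv 912 (cons (fin 974 2 909)
(fin 849 6 848)))))))))))))))))))
(mv 908 (cons (fin 844 7 844)
(mv 974 (cons (fin 976 3 908)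
(mv 907 (cons (fin 972 3 907)
(fin 906 0 906))))))))
(cons (mv 1100 (cons (fin 1164 5 908)
(mv 1103 (cons (fin 1039 2 1036)
(mv 1168 (cons (fin 1167 0 1100)
(mv 1104 (cons (fin 1169 0 1101)
(mv 976 (cons (fin 911 7 911)
(mv 913 (cons (fin 977 6 912)
(mv 912 (cons (fin 974 2 909)
(fin 849 6 848)))))))))))))))
(cons (mv 1100 (cons (fin 1164 5 908)
(mv 1039 (cons (fin 1103 2 1036)
(mv 844 (cons (fin 908 7 844)
(mv 845 (cons (fin 780 7 780)
(mv 846 (cons (fin 782 6 781)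
(mv 847 (cons (mv 911 (cons (fin 912 0 844)
(fin 1104 4 847)))
(cons (mv 784 (cons (fin 783 2 780)
(mv 848 (cons (fin 785 2 781)
(mv 912 (cons (fin 913 0 845)
(fin 976 5 783)))))))
(mv 783 (cons (fin 784 2 780)
(mv 911 (cons (fin 976 4 783)
(fin 1104 4 847))))))))))))))))))
(mv 1100 (cons (fin 1164 5 908)
(mv 1039 (cons (fin 1103 2 1036)
(mv 972 (cons (fin 974 0 972)
(mv 845 (cons (cons (mv 844 (cons (fin 780 7 780)
(fin 908 7 844)))
(mv 782 (cons (fin 846 6 781)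
(mv 781 (cons (fin 718 6 717)
(mv 717 (cons (fin 908 5 716)
(mv 716 (cons (fin 652 7 652)
(fin 780 7 716))))))))))
(cons (mv 782 (cons (fin 846 6 781)
(mv 781 (cons (fin 718 6 717)
(mv 780 (cons (fin 716 7 716)
(fin 844 7 780)))))))
(mv 908 (cons (fin 844 7 844)
(mv 782 (cons (fin 846 6 781)
(mv 781 (cons (fin 717 5 716)
(fin 718 6 717))))))))))))))))))))))))))))
(cons (cons (mv 1165 (cons (cons (mv 910 (cons (fin 974 6 909)
(mv 846 (cons (fin 909 6 845)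
(mv 1228 (cons (fin 1164 5 972)
(mv 1230 (cons (fin 1166 4 973)
(mv 1229 (cons (fin 1292 5 1036)
(fin 1294 4 1037)))))))))))
(mv 1166 (cons (fin 1230 4 973)
(mv 909 (cons (fin 1102 4 909)
(mv 910 (cons (fin 846 6 845)
(fin 974 6 909))))))))
(cons (mv 910 (cons (fin 974 6 909)
(mv 909 (cons (fin 846 6 845)
(mv 1164 (cons (fin 1100 5 908)
(fin 1228 5 972)))))))
(cons (mv 1164 (cons (fin 1228 5 972)
(mv 909 (cons (fin 1100 5 908)
(mv 1166 (cons (fin 1102 4 909)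
(fin 1230 4 973)))))))
(mv 1230 (cons (fin 1166 4 973)
(mv 910 (cons (fin 974 6 909)
(mv 1229 (cons (fin 1294 4 1037)
(mv 1228 (cons (fin 1164 5 972)
(fin 1292 5 1036)))))))))))))
(mv 1165 (cons (cons (mv 1164 (cons (fin 1228 5 972)
(mv 909 (cons (fin 1100 5 908)
(mv 908 (cons (fin 844 7 844)
(fin 972 7 908)))))))
(mv 908 (cons (fin 972 7 908)
(mv 909 (cons (fin 844 7 844)
(mv 1166 (cons (fin 1102 4 909)
(fin 1230 4 973))))))))
(cons (mv 1164 (cons (fin 1228 5 972)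
(mv 909 (cons (fin 1100 5 908)
(mv 1166 (cons (fin 1102 4 909)
(fin 1230 4 973)))))))
(mv 1230 (cons (fin 1166 4 973)
(mv 908 (cons (fin 972 7 908)
(mv 1229 (cons (fin 1294 4 1037)
(mv 1228 (cons (fin 1164 5 972)
(fin 1292 5 1036)))))))))))))
(cons (mv 909 (cons (cons (mv 844 (cons (fin 908 7 844)
(mv 780 (cons (fin 845 7 780)
(mv 1166 (cons (fin 1102 4 909)
(mv 910 (cons (fin 846 6 845)
(mv 1165 (cons (fin 974 6 909)
(fin 1230 4 973)))))))))))
(mv 1166 (cons (fin 1102 4 909)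
(mv 910 (cons (fin 846 6 845)
(mv 1165 (cons (fin 974 6 909)
(fin 1230 4 973))))))))
(cons (mv 1166 (cons (fin 1102 4 909)
(mv 908 (cons (fin 844 7 844)
(mv 1165 (cons (fin 972 7 908)
(fin 1230 4 973)))))))
(mv 846 (cons (fin 910 6 845)
(mv 845 (cons (fin 782 6 781)
(mv 844 (cons (fin 780 7 780)
(fin 908 7 844))))))))))
(mv 909 (cons (cons (mv 1100 (cons (fin 1164 5 908)
(mv 844 (cons (fin 908 7 844)
(mv 845 (cons (fin 780 7 780)
(mv 846 (cons (fin 782 6 781)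
(fin 910 6 845)))))))))
(mv 910 (cons (fin 846 6 845)
(mv 1164 (cons (fin 1100 5 908)
(mv 1165 (cons (fin 1228 5 972)
(fin 974 6 909))))))))
(cons (mv 908 (cons (fin 844 7 844)
(mv 1164 (cons (fin 1100 5 908)
(mv 1165 (cons (fin 972 7 908)
(fin 1228 5 972)))))))
(mv 846 (cons (fin 910 6 845)
(mv 845 (cons (fin 782 6 781)
(mv 844 (cons (fin 780 7 780)
(fin 908 7 844)))))))))))))))
(cons (mv 973 (cons (cons (cons (mv 1165 (cons (cons (mv 908 (cons (fin 972 7 908)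
(mv 844 (cons (fin 909 7 844)
(mv 1230 (cons (fin 1166 4 973)
(mv 910 (cons (fin 974 6 909)
(mv 1229 (cons (fin 1294 4 1037)
(mv 1228 (cons (fin 1164 5 972)
(fin 1292 5 1036)))))))))))))
(mv 1164 (cons (fin 1228 5 972)
(mv 910 (cons (fin 974 6 909)
(mv 909 (cons (fin 846 6 845)
(mv 1166 (cons (fin 1102 4 909)
(fin 1230 4 973))))))))))
(cons (mv 908 (cons (fin 972 7 908)
(mv 909 (cons (fin 844 7 844)
(mv 910 (cons (fin 846 6 845)
(fin 974 6 909)))))))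
(cons (mv 1164 (cons (fin 1228 5 972)
(mv 908 (cons (fin 972 7 908)
(mv 909 (cons (fin 844 7 844)
(mv 1166 (cons (fin 1102 4 909)
(fin 1230 4 973)))))))))
(mv 1166 (cons (fin 1230 4 973)
(mv 910 (cons (fin 974 6 909)
(mv 1228 (cons (fin 1164 5 972)
(mv 972 (cons (fin 908 7 908)
(mv 1229 (cons (fin 1036 7 972)
(fin 1292 5 1036)))))))))))))))
(mv 909 (cons (cons (mv 844 (cons (fin 908 7 844)
(mv 845 (cons (fin 780 7 780)
(mv 846 (cons (fin 782 6 781)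
(fin 910 6 845)))))))
(mv 1102 (cons (fin 1166 4 909)
(mv 910 (cons (fin 846 6 845)
(mv 911 (cons (cons (mv 912 (cons (fin 972 1 908)
(mv 913 (cons (fin 974 1 909)
(mv 849 (cons (fin 848 2 845)
(fin 850 2 846)))))))
(mv 908 (cons (cons (mv 971 (cons (fin 972 1 907)
(mv 907 (cons (fin 970 1 906)
(mv 974 (cons (fin 906 0 906)
(fin 975 0 907)))))))
(cons (mv 975 (cons (fin 976 0 908)
(mv 907 (cons (fin 974 0 907)
(mv 842 (cons (fin 843 3 842)
(mv 906 (cons (fin 841 3 841)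
(mv 847 (cons (fin 848 2 844)
(mv 905 (cons (fin 972 0 905)
(mv 969 (cons (fin 968 1 904)
(fin 970 1 905)))))))))))))))
(mv 847 (cons (fin 848 2 844)
(mv 971 (cons (fin 972 1 907)
(mv 907 (cons (fin 970 1 906)
(mv 842 (cons (fin 843 3 842)
(mv 906 (cons (fin 841 3 841)
(fin 974 0 906)))))))))))))
(cons (mv 975 (cons (fin 976 0 908)
(mv 907 (cons (fin 974 0 907)
(mv 970 (cons (fin 971 1 906)
(mv 906 (cons (fin 969 1 905)
(mv 842 (cons (fin 841 3 841)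
(fin 843 3 842)))))))))))
(cons (mv 847 (cons (fin 848 2 844)
(mv 971 (cons (fin 972 1 907)
(mv 907 (cons (fin 970 1 906)
(mv 842 (cons (fin 843 3 842)
(mv 906 (cons (fin 841 3 841)
(mv 975 (cons (fin 976 0 908)
(mv 714 (cons (fin 778 4 714)
(mv 1104 (cons (fin 1039 4 847)
(mv 1035 (cons (fin 1099 7 842)
(mv 1036 (cons (fin 1103 3 1036)
(fin 1034 0 1034)))))))))))))))))))))
(mv 975 (cons (fin 976 0 908)
(mv 847 (cons (fin 848 2 844)
(mv 972 (cons (fin 971 1 907)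
(mv 1039 (cons (fin 974 0 972)
(fin 1104 4 847))))))))))))))
(cons (mv 912 (cons (mv 913 (cons (fin 974 1 909)
(mv 849 (cons (fin 848 2 845)
(fin 850 2 846)))))
(cons (mv 976 (cons (fin 977 0 909)
(mv 908 (cons (fin 975 0 908)
(mv 848 (cons (fin 847 2 844)
(fin 849 2 845)))))))
(mv 976 (cons (fin 977 0 909)
(mv 908 (cons (fin 975 0 908)
(mv 1104 (cons (fin 847 7 847)
(mv 1103 (cons (fin 1036 3 1036)
(fin 1167 5 911))))))))))))
(cons (mv 912 (cons (fin 972 1 908)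
(mv 848 (cons (fin 849 2 845)
(mv 847 (cons (fin 908 2 844)
(mv 976 (cons (fin 977 0 909)
(fin 783 7 783)))))))))
(mv 912 (cons (fin 972 1 908)
(mv 976 (cons (fin 977 0 909)
(mv 908 (cons (fin 975 0 908)
(mv 1104 (cons (fin 847 7 847)
(mv 1103 (cons (fin 1036 3 1036)
(fin 1167 5 911))))))))))))))))))))
(cons (mv 1102 (cons (fin 1166 4 909)
(mv 908 (cons (fin 844 7 844)
(mv 975 (cons (cons (mv 974 (cons (fin 976 3 908)
(mv 907 (cons (fin 972 3 907)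
(fin 906 0 906)))))
(mv 1104 (cons (cons (mv 1103 (cons (fin 1036 3 1036)
(mv 1168 (cons (fin 1169 0 1101)
(mv 911 (cons (fin 976 7 911)
(fin 1039 4 911)))))))
(cons (mv 911 (cons (mv 976 (cons (fin 910 0 908)
(fin 1168 7 911)))
(cons (mv 847 (cons (fin 1039 4 847)
(mv 910 (cons (fin 848 2 844)
(mv 972 (cons (fin 971 1 907)
(fin 912 1 908)))))))
(mv 847 (cons (fin 1039 4 847)
(mv 976 (cons (fin 912 7 847)
(fin 1168 7 911))))))))
(mv 1036 (cons (fin 1103 3 1036)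
(mv 1034 (cons (fin 1035 0 1034)
(mv 911 (cons (cons (mv 910 (cons (fin 976 0 908)
(mv 847 (cons (fin 848 2 844)
(fin 1039 4 847)))))
(mv 847 (cons (fin 1039 4 847)
(mv 976 (cons (fin 912 7 847)
(fin 783 4 783))))))
(cons (mv 910 (cons (fin 976 0 908)
(mv 972 (cons (fin 971 1 907)
(fin 912 1 908)))))
(mv 847 (cons (fin 1039 4 847)
(mv 910 (cons (fin 848 2 844)
(mv 972 (cons (fin 971 1 907)
(fin 912 1 908))))))))))))))))
(cons (mv 1103 (cons (fin 1036 3 1036)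
(mv 1168 (cons (fin 1169 0 1101)
(mv 1232 (cons (fin 1039 7 975)
(mv 1297 (cons (fin 1233 4 1040)
(mv 1231 (cons (fin 1295 5 1039)
(mv 1167 (cons (fin 976 5 975)
(mv 1296 (cons (fin 1360 7 1103)
(fin 1361 4 1104)))))))))))))))
(cons (mv 1103 (cons (fin 1036 3 1036)
(mv 1168 (cons (fin 1169 0 1101)
(mv 1039 (cons (fin 1232 7 975)
(fin 911 4 911)))))))
(mv 1103 (cons (fin 1036 3 1036)
(mv 1168 (cons (fin 1169 0 1101)
(mv 976 (cons (fin 911 7 911)
(mv 1167 (cons (fin 912 5 911)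
(fin 1231 5 975))))))))))))))
(cons (mv 974 (cons (mv 907 (cons (fin 972 3 907)
(fin 906 0 906)))
(cons (mv 972 (cons (fin 1039 0 972)
(mv 911 (cons (fin 912 2 908)
(mv 971 (cons (fin 910 1 907)
(mv 1035 (cons (fin 1034 1 970)
(fin 1036 1 971)))))))))
(mv 907 (cons (fin 906 0 906)
(fin 910 0 907))))))
(mv 974 (cons (fin 976 3 908)
(mv 907 (cons (fin 906 0 906)
(fin 910 0 907))))))))))))
(cons (mv 846 (cons (fin 910 6 845)
(mv 845 (cons (fin 782 6 781)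
(mv 1102 (cons (fin 1166 4 909)
(mv 780 (cons (fin 844 7 780)
(mv 781 (cons (fin 716 7 716)
(mv 778 (cons (fin 779 0 778)
(mv 1036 (cons (fin 972 5 780)
(mv 847 (cons (fin 848 3 780)
(mv 1104 (cons (fin 1103 3 1036)
(mv 1034 (cons (fin 1035 0 1034)
(mv 976 (cons (cons (mv 975 (cons (fin 974 1 972)
(mv 911 (cons (fin 912 7 847)
(fin 1168 7 911)))))
(mv 912 (cons (fin 911 7 847)
(mv 913 (cons (fin 849 6 848)
(mv 1169 (cons (fin 1105 4 912)
(mv 1168 (cons (fin 977 6 912)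
(fin 1233 4 976))))))))))
(cons (mv 975 (cons (fin 974 1 972)
(mv 1168 (cons (mv 1232 (cons (fin 1039 7 975)
(mv 1231 (cons (fin 1167 5 975)
(fin 1295 5 1039)))))
(mv 912 (cons (mv 913 (cons (fin 849 6 848)
(fin 977 6 912)))
(mv 1169 (cons (fin 1105 4 912)
(fin 1233 4 976)))))))))
(cons (mv 975 (cons (fin 974 1 972)
(mv 911 (cons (fin 1168 7 911)
(fin 783 4 783)))))
(mv 975 (cons (fin 974 1 972)
(mv 911 (cons (fin 912 7 847)
(fin 783 4 783)))))))))))))))))))))))))))))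
(mv 1102 (cons (fin 1166 4 909)
(mv 844 (cons (fin 908 7 844)
(mv 845 (cons (fin 780 7 780)
(mv 1036 (cons (cons (mv 1034 (cons (fin 1035 0 1034)
(mv 1103 (cons (fin 1104 3 1036)
(mv 782 (cons (fin 846 6 781)
(mv 781 (cons (fin 972 5 780)
(fin 718 6 717)))))))))
(mv 782 (cons (fin 846 6 781)
(mv 781 (cons (fin 972 5 780)
(fin 718 6 717))))))
(cons (mv 1104 (cons (fin 1103 3 1036)
(mv 1034 (cons (fin 1035 0 1034)
(mv 846 (cons (fin 782 6 781)
(mv 976 (cons (cons (mv 975 (cons (fin 974 1 972)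
(mv 911 (cons (fin 1168 7 911)
(mv 847 (cons (fin 912 0 844)
(fin 783 4 783)))))))
(cons (mv 912 (cons (mv 847 (cons (fin 911 0 844)
(mv 783 (cons (fin 784 2 780)
(fin 848 7 783)))))
(mv 913 (cons (fin 849 6 848)
(mv 1169 (cons (fin 1105 4 912)
(mv 1168 (cons (fin 977 6 912)
(fin 1233 4 976)))))))))
(mv 975 (cons (fin 974 1 972)
(mv 911 (cons (fin 1168 7 911)
(mv 847 (cons (fin 783 4 783)
(fin 1039 4 847)))))))))
(cons (mv 975 (cons (fin 974 1 972)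
(mv 847 (cons (mv 783 (cons (fin 784 2 780)
(fin 911 4 783)))
(cons (mv 784 (cons (fin 783 2 780)
(mv 848 (cons (fin 785 2 781)
(mv 912 (cons (fin 913 0 845)
(fin 1039 5 783)))))))
(mv 911 (cons (fin 912 0 844)
(fin 1039 4 847))))))))
(cons (mv 975 (cons (fin 974 1 972)
(mv 1168 (cons (fin 911 7 911)
(mv 1039 (cons (fin 1232 7 975)
(mv 1169 (cons (fin 1233 4 976)
(mv 912 (cons (fin 1105 4 912)
(mv 913 (cons (fin 849 6 848)
(fin 977 6 912)))))))))))))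
(mv 975 (cons (fin 974 1 972)
(mv 1168 (cons (cons (mv 1039 (cons (fin 1232 7 975)
(mv 1169 (cons (fin 1233 4 976)
(mv 912 (cons (fin 1105 4 912)
(mv 913 (cons (fin 849 6 848)
(fin 977 6 912)))))))))
(mv 913 (cons (fin 977 6 912)
(mv 912 (cons (fin 849 6 848)
(mv 1169 (cons (fin 1105 4 912)
(fin 1233 4 976))))))))
(cons (mv 1169 (cons (fin 1233 4 976)
(mv 912 (cons (fin 1105 4 912)
(mv 1232 (cons (fin 1039 7 975)
(mv 1231 (cons (fin 1167 5 975)
(fin 1295 5 1039)))))))))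
(cons (mv 1167 (cons (fin 1231 5 975)
(mv 913 (cons (fin 977 6 912)
(mv 912 (cons (fin 849 6 848)
(mv 1039 (cons (fin 1232 7 975)
(mv 848 (cons (fin 847 0 845)
(fin 784 5 783)))))))))))
(mv 1232 (cons (fin 1039 7 975)
(mv 1231 (cons (fin 1167 5 975)
(fin 1295 5 1039)))))))))))))))))))))
(mv 1035 (cons (fin 1034 0 1034)
(mv 1104 (cons (fin 1103 3 1036)
(mv 972 (cons (fin 781 5 780)
(mv 975 (cons (fin 974 1 971)
(mv 1168 (cons (mv 911 (cons (fin 976 7 911)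
(mv 1039 (cons (fin 1232 7 975)
(fin 847 4 847)))))
(cons (mv 1232 (cons (fin 1039 7 975)
(mv 1295 (cons (fin 1231 5 1039)
(mv 1297 (cons (fin 1233 4 1040)
(mv 1296 (cons (fin 1359 5 1103)
(fin 1361 4 1104)))))))))
(mv 976 (cons (fin 911 7 911)
(mv 1167 (cons (fin 1231 5 975)
(mv 1169 (cons (fin 1233 4 976)
(mv 912 (cons (fin 1105 4 912)
(mv 913 (cons (fin 849 6 848)
(fin 977 6 912))))))))))))))))))))))))))))))))))))
(cons (mv 1165 (cons (cons (mv 1166 (cons (fin 1230 4 973)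
(mv 910 (cons (fin 974 6 909)
(mv 1228 (cons (fin 1164 5 972)
(mv 972 (cons (fin 908 7 908)
(mv 1229 (cons (fin 1036 7 972)
(fin 1292 5 1036)))))))))))
(mv 1230 (cons (fin 1166 4 973)
(mv 910 (cons (fin 974 6 909)
(mv 1229 (cons (fin 1294 4 1037)
(mv 1228 (cons (fin 1164 5 972)
(fin 1292 5 1036))))))))))
(cons (mv 1164 (cons (fin 1228 5 972)
(mv 974 (cons (fin 910 6 909)
(mv 972 (cons (fin 908 7 908)
(mv 975 (cons (fin 1039 0 972)
(mv 1036 (cons (fin 1035 1 971)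
(fin 976 1 972)))))))))))
(cons (mv 972 (cons (fin 908 7 908)
(mv 1166 (cons (fin 1230 4 973)
(mv 1036 (cons (fin 1229 7 972)
(mv 974 (cons (fin 910 6 909)
(mv 975 (cons (fin 1035 1 971)
(fin 976 1 972)))))))))))
(mv 1164 (cons (fin 1228 5 972)
(mv 1230 (cons (fin 1166 4 973)
(mv 972 (cons (fin 908 7 908)
(mv 1229 (cons (fin 1036 7 972)
(fin 1294 4 1037)))))))))))))
(mv 1165 (cons (cons (mv 1164 (cons (fin 1228 5 972)
(mv 1166 (cons (fin 1230 4 973)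
(mv 909 (cons (fin 1102 4 909)
(mv 910 (cons (fin 846 6 845)
(fin 974 6 909)))))))))
(mv 974 (cons (fin 910 6 909)
(mv 1164 (cons (fin 1228 5 972)
(mv 975 (cons (cons (mv 976 (cons (fin 1036 1 972)
(mv 972 (cons (fin 1039 0 972)
(mv 912 (cons (fin 911 2 908)
(fin 913 2 909)))))))
(mv 976 (cons (fin 1036 1 972)
(mv 912 (cons (fin 913 2 909)
(mv 1104 (cons (mv 911 (cons (fin 847 7 847)
(fin 1168 7 911)))
(mv 1103 (cons (fin 1102 1 1100)
(fin 1167 5 911))))))))))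
(cons (mv 1039 (cons (fin 972 0 972)
(mv 1104 (cons (cons (mv 1102 (cons (fin 1103 1 1100)
(mv 911 (cons (fin 847 4 847)
(mv 1168 (cons (fin 976 7 911)
(fin 1232 7 975)))))))
(mv 1103 (cons (fin 1102 1 1100)
(mv 911 (cons (fin 847 4 847)
(mv 912 (cons (fin 848 6 847)
(mv 913 (cons (fin 914 1 910)
(fin 976 2 909))))))))))
(cons (mv 1168 (cons (fin 1232 7 975)
(mv 1103 (cons (fin 1102 1 1100)
(mv 976 (cons (mv 912 (cons (fin 913 2 909)
(fin 848 5 847)))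
(cons (mv 1169 (cons (fin 1233 4 976)
(mv 1171 (cons (fin 1170 3 1103)
(mv 977 (cons (fin 913 6 912)
(mv 978 (cons (fin 979 1 975)
(mv 914 (cons (fin 915 2 911)
(mv 1042 (cons (fin 1043 0 975)
(mv 1106 (cons (fin 1105 5 913)
(fin 1107 4 914)))))))))))))))
(mv 1167 (cons (fin 912 5 911)
(fin 1231 5 975))))))))))
(cons (mv 911 (cons (fin 847 4 847)
(mv 1168 (cons (fin 976 7 911)
(fin 1232 7 975)))))
(mv 1168 (cons (fin 1232 7 975)
(mv 911 (cons (fin 847 4 847)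
(fin 1103 4 911)))))))))))
(mv 972 (cons (fin 1039 0 972)
(mv 1036 (cons (fin 1035 1 971)
(fin 1229 7 972)))))))))))))
(cons (mv 1166 (cons (fin 1230 4 973)
(mv 909 (cons (fin 1102 4 909)
(mv 910 (cons (fin 846 6 845)
(fin 974 6 909)))))))
(cons (mv 1164 (cons (fin 1228 5 972)
(mv 1166 (cons (fin 1230 4 973)
(mv 1102 (cons (fin 909 4 909)
(mv 1103 (cons (fin 1104 1 1100)
(fin 1163 2 1099)))))))))
(mv 1230 (cons (fin 1166 4 973)
(mv 910 (cons (fin 974 6 909)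
(mv 846 (cons (fin 909 6 845)
(mv 1229 (cons (fin 1294 4 1037)
(mv 1228 (cons (fin 1164 5 972)
(fin 1292 5 1036)))))))))))))))))
(cons (cons (mv 1165 (cons (cons (mv 1164 (cons (fin 1228 5 972)
(mv 908 (cons (fin 972 7 908)
(mv 909 (cons (fin 844 7 844)
(mv 1166 (cons (fin 1102 4 909)
(fin 1230 4 973)))))))))
(mv 1166 (cons (fin 1230 4 973)
(mv 1102 (cons (fin 909 4 909)
(mv 1164 (cons (fin 1228 5 972)
(mv 1103 (cons (fin 1104 1 1100)
(fin 1163 2 1099))))))))))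
(cons (mv 1228 (cons (fin 1164 5 972)
(mv 972 (cons (fin 908 7 908)
(mv 1229 (cons (fin 1036 7 972)
(fin 1292 5 1036)))))))
(mv 1166 (cons (fin 1230 4 973)
(mv 909 (cons (fin 1102 4 909)
(mv 908 (cons (fin 844 7 844)
(fin 972 7 908))))))))))
(mv 909 (cons (cons (mv 844 (cons (fin 908 7 844)
(mv 845 (cons (fin 780 7 780)
(mv 846 (cons (fin 782 6 781)
(fin 910 6 845)))))))
(mv 910 (cons (fin 846 6 845)
(mv 974 (cons (fin 1165 6 909)
(mv 972 (cons (mv 911 (cons (fin 912 1 908)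
(fin 971 2 907)))
(mv 975 (cons (fin 1039 0 972)
(mv 976 (cons (fin 977 3 909)
(fin 1036 1 972))))))))))))
(cons (mv 845 (cons (mv 844 (cons (fin 780 7 780)
(fin 908 7 844)))
(cons (mv 782 (cons (fin 846 6 781)
(mv 781 (cons (fin 718 6 717)
(mv 972 (cons (fin 1036 5 780)
(mv 908 (cons (fin 1165 7 908)
(fin 717 5 716)))))))))
(mv 782 (cons (fin 846 6 781)
(mv 781 (cons (fin 718 6 717)
(mv 780 (cons (fin 716 7 716)
(fin 844 7 780))))))))))
(mv 844 (cons (fin 908 7 844)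
(mv 845 (cons (fin 780 7 780)
(mv 974 (cons (cons (cons (mv 910 (cons (fin 1165 6 909)
(mv 842 (cons (fin 843 0 842)
(mv 717 (cons (fin 781 4 717)
(mv 911 (cons (fin 912 3 844)
(mv 972 (cons (fin 971 2 907)
(mv 975 (cons (fin 1039 0 972)
(mv 976 (cons (fin 977 3 909)
(fin 1036 1 972)))))))))))))))
(mv 975 (cons (cons (mv 976 (cons (fin 1036 1 972)
(mv 972 (cons (fin 1039 0 972)
(mv 912 (cons (fin 911 2 908)
(fin 913 2 909)))))))
(mv 976 (cons (fin 1036 1 972)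
(mv 912 (cons (fin 913 2 909)
(mv 1104 (cons (mv 911 (cons (fin 847 7 847)
(fin 1168 7 911)))
(cons (mv 1105 (cons (fin 1169 4 912)
(mv 1103 (cons (fin 1167 5 911)
(mv 848 (cons (fin 1039 5 847)
(mv 785 (cons (fin 849 6 784)
(mv 784 (cons (fin 721 6 720)
(mv 783 (cons (fin 719 7 719)
(fin 847 7 783)))))))))))))
(mv 1103 (cons (fin 1167 5 911)
(mv 848 (cons (fin 1039 5 847)
(mv 785 (cons (fin 849 6 784)
(mv 721 (cons (fin 784 6 720)
(mv 1168 (cons (fin 911 7 911)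
(mv 1169 (cons (fin 1102 0 1101)
(fin 1105 4 912)))))))))))))))))))))
(cons (mv 912 (cons (cons (mv 972 (cons (fin 911 2 908)
(fin 1039 0 972)))
(mv 976 (cons (fin 913 2 909)
(mv 1104 (cons (mv 911 (cons (fin 847 7 847)
(fin 1168 7 911)))
(cons (mv 1105 (cons (fin 1169 4 912)
(mv 1103 (cons (fin 1167 5 911)
(mv 848 (cons (fin 1039 5 847)
(mv 785 (cons (fin 849 6 784)
(mv 784 (cons (fin 721 6 720)
(mv 783 (cons (fin 719 7 719)
(fin 847 7 783)))))))))))))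
(mv 1103 (cons (fin 1167 5 911)
(mv 848 (cons (fin 1039 5 847)
(mv 785 (cons (fin 849 6 784)
(mv 721 (cons (fin 784 6 720)
(mv 1168 (cons (fin 911 7 911)
(mv 1169 (cons (fin 1102 0 1101)
(fin 1105 4 912)))))))))))))))))))
(cons (mv 976 (cons (fin 913 2 909)
(mv 1039 (cons (fin 972 0 972)
(mv 848 (cons (fin 784 5 783)
(fin 1103 5 847)))))))
(mv 911 (cons (fin 972 2 908)
(mv 913 (cons (fin 914 1 910)
(fin 976 2 909))))))))
(cons (mv 972 (cons (fin 1039 0 972)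
(mv 1036 (cons (fin 1035 1 971)
(fin 781 5 780)))))
(mv 976 (cons (fin 1036 1 972)
(mv 912 (cons (fin 913 2 909)
(mv 911 (cons (fin 972 2 908)
(mv 1104 (cons (fin 847 7 847)
(fin 1168 7 911))))))))))))))
(cons (mv 910 (cons (fin 1165 6 909)
(mv 842 (cons (fin 843 0 842)
(mv 781 (cons (fin 717 4 717)
(mv 911 (cons (fin 912 3 844)
(mv 782 (cons (fin 718 6 717)
(mv 972 (cons (fin 971 2 907)
(mv 783 (cons (fin 784 1 780)
(mv 975 (cons (fin 1039 0 972)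
(mv 847 (cons (fin 719 5 718)
(fin 976 4 783)))))))))))))))))))
(mv 910 (cons (fin 1165 6 909)
(mv 842 (cons (fin 843 0 842)
(mv 911 (cons (fin 912 3 844)
(mv 972 (cons (fin 971 2 907)
(mv 975 (cons (fin 1039 0 972)
(mv 976 (cons (fin 977 3 909)
(fin 1036 1 972)))))))))))))))
(cons (cons (mv 910 (cons (fin 1165 6 909)
(mv 842 (cons (fin 843 0 842)
(mv 717 (cons (fin 781 4 717)
(mv 912 (cons (fin 911 3 844)
(mv 976 (cons (cons (mv 975 (cons (fin 977 3 909)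
(fin 1036 1 972)))
(mv 1104 (cons (cons (mv 1103 (cons (fin 1167 5 911)
(mv 848 (cons (fin 1039 5 847)
(mv 849 (cons (fin 785 6 784)
(fin 913 6 848)))))))
(mv 1169 (cons (fin 1105 4 912)
(mv 913 (cons (fin 849 6 848)
(mv 1168 (cons (fin 977 6 912)
(fin 1233 4 976))))))))
(cons (mv 1105 (cons (fin 1169 4 912)
(mv 1103 (cons (fin 1167 5 911)
(mv 848 (cons (fin 1039 5 847)
(mv 783 (cons (fin 847 7 783)
(mv 784 (cons (fin 719 7 719)
(mv 785 (cons (fin 721 6 720)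
(fin 849 6 784)))))))))))))
(mv 1103 (cons (fin 1167 5 911)
(mv 848 (cons (fin 1039 5 847)
(mv 783 (cons (fin 847 7 783)
(mv 719 (cons (fin 784 7 719)
(mv 1102 (cons (fin 1036 3 1036)
(mv 1169 (cons (fin 1168 0 1101)
(fin 1105 4 912)))))))))))))))))
(cons (mv 975 (cons (fin 977 3 909)
(fin 913 2 909)))
(mv 975 (cons (fin 1036 1 972)
(fin 913 2 909))))))))))))))
(mv 910 (cons (fin 1165 6 909)
(mv 842 (cons (fin 843 0 842)
(mv 781 (cons (fin 717 4 717)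
(mv 911 (cons (fin 912 3 844)
(mv 972 (cons (fin 971 2 907)
(fin 1036 5 780))))))))))))
(cons (mv 910 (cons (fin 1165 6 909)
(mv 842 (cons (fin 843 0 842)
(mv 781 (cons (fin 717 4 717)
(mv 718 (cons (fin 782 6 717)
(mv 972 (cons (fin 1036 5 780)
(mv 971 (cons (fin 970 2 906)
(fin 911 2 907)))))))))))))
(mv 910 (cons (fin 1165 6 909)
(mv 842 (cons (fin 843 0 842)
(mv 717 (cons (fin 781 4 717)
(mv 975 (cons (mv 976 (cons (fin 977 3 909)
(fin 1036 1 972)))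
(cons (mv 972 (cons (fin 1039 0 972)
(mv 971 (cons (fin 970 2 906)
(mv 1035 (cons (fin 1034 1 970)
(fin 1036 1 971)))))))
(mv 1039 (cons (fin 972 0 972)
(mv 976 (cons (fin 977 3 909)
(mv 1103 (cons (fin 1167 7 910)
(mv 912 (cons (fin 913 2 909)
(fin 848 5 847))))))))))))))))))))))))))))))
(cons (mv 910 (cons (cons (mv 846 (cons (fin 909 6 845)
(mv 974 (cons (fin 782 5 781)
(fin 1165 6 909)))))
(mv 1165 (cons (fin 974 6 909)
(mv 1228 (cons (fin 1164 5 972)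
(mv 1230 (cons (fin 1166 4 973)
(mv 1229 (cons (fin 1292 5 1036)
(fin 1294 4 1037))))))))))
(cons (mv 846 (cons (fin 909 6 845)
(mv 782 (cons (fin 974 5 781)
(mv 718 (cons (cons (mv 653 (cons (fin 717 7 653)
(mv 654 (cons (fin 589 7 589)
(mv 655 (cons (fin 591 6 590)
(fin 719 6 654)))))))
(mv 911 (cons (fin 975 4 718)
(mv 654 (cons (fin 847 4 654)
(mv 655 (cons (fin 591 6 590)
(fin 719 6 654))))))))
(cons (mv 653 (cons (fin 717 7 653)
(mv 654 (cons (fin 589 7 589)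
(mv 911 (cons (fin 847 4 654)
(fin 975 4 718)))))))
(mv 717 (cons (fin 653 7 653)
(mv 719 (cons (fin 655 6 654)
(mv 911 (cons (fin 975 4 718)
(mv 720 (cons (mv 781 (cons (fin 780 1 716)
(fin 721 1 717)))
(cons (mv 784 (cons (fin 785 0 717)
(mv 716 (cons (fin 783 0 716)
(mv 779 (cons (fin 780 1 715)
(mv 715 (cons (fin 778 1 714)
(mv 651 (cons (fin 650 3 650)
(fin 652 3 651)))))))))))
(mv 656 (cons (fin 657 2 653)
(mv 721 (cons (fin 781 1 717)
(mv 783 (cons (fin 722 1 718)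
(fin 847 6 655)))))))))))))))))))))))
(mv 909 (cons (fin 846 6 845)
(mv 844 (cons (fin 908 7 844)
(mv 845 (cons (fin 780 7 780)
(mv 842 (cons (fin 843 0 842)
(mv 912 (cons (fin 911 3 844)
(mv 1104 (cons (cons (mv 1102 (cons (fin 1166 4 909)
(mv 1103 (cons (fin 1036 3 1036)
(mv 1164 (cons (fin 1165 1 1100)
(mv 976 (cons (fin 1167 5 911)
(mv 1169 (cons (fin 1168 0 1101)
(fin 1105 4 912)))))))))))
(cons (mv 976 (cons (cons (mv 1103 (cons (fin 1167 5 911)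
(mv 848 (cons (fin 1039 5 847)
(mv 849 (cons (fin 785 6 784)
(fin 913 6 848)))))))
(mv 1105 (cons (fin 1169 4 912)
(mv 1103 (cons (fin 1167 5 911)
(mv 848 (cons (fin 1039 5 847)
(mv 783 (cons (fin 847 7 783)
(mv 784 (cons (fin 719 7 719)
(mv 785 (cons (fin 721 6 720)
(fin 849 6 784))))))))))))))
(cons (mv 913 (cons (fin 849 6 848)
(mv 1169 (cons (fin 1105 4 912)
(mv 1168 (cons (fin 977 6 912)
(fin 1233 4 976)))))))
(mv 1103 (cons (fin 1167 5 911)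
(mv 1039 (cons (fin 848 5 847)
(mv 1169 (cons (fin 1105 4 912)
(mv 1168 (cons (fin 1233 4 976)
(mv 1232 (cons (fin 975 7 975)
(fin 1296 7 1039))))))))))))))
(mv 1166 (cons (fin 1102 4 909)
(mv 1165 (cons (fin 1230 4 973)
(mv 1164 (cons (fin 1228 5 972)
(mv 1167 (cons (fin 1103 2 1100)
(mv 1168 (cons (fin 1105 2 1101)
(mv 1232 (cons (fin 1231 0 1164)
(fin 1233 0 1165)))))))))))))))
(cons (mv 1166 (cons (fin 1102 4 909)
(mv 1165 (cons (fin 1230 4 973)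
(mv 1164 (cons (fin 1228 5 972)
(mv 1168 (cons (cons (mv 1105 (cons (fin 1167 2 1101)
(mv 976 (cons (fin 1169 4 912)
(mv 913 (cons (fin 849 6 848)
(fin 977 6 912)))))))
(mv 976 (cons (mv 913 (cons (fin 849 6 848)
(fin 977 6 912)))
(mv 1169 (cons (fin 1105 4 912)
(fin 1233 4 976))))))
(cons (mv 1232 (cons (cons (mv 1167 (cons (fin 1231 0 1164)
(fin 1233 0 1165)))
(mv 1231 (cons (fin 1167 0 1164)
(fin 1295 5 1039))))
(cons (mv 1233 (cons (fin 1167 0 1165)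
(fin 1297 4 1040)))
(mv 1233 (cons (fin 1297 4 1040)
(mv 976 (cons (fin 1169 4 976)
(mv 913 (cons (fin 849 6 848)
(fin 977 6 912))))))))))
(mv 1167 (cons (fin 1105 2 1101)
(mv 1232 (cons (fin 1231 0 1164)
(fin 1233 0 1165))))))))))))))
(cons (mv 1102 (cons (fin 1166 4 909)
(mv 1103 (cons (fin 1036 3 1036)
(mv 1164 (cons (fin 1165 1 1100)
(mv 976 (cons (fin 1167 5 911)
(mv 848 (cons (fin 1039 5 847)
(mv 849 (cons (fin 785 6 784)
(fin 913 6 848)))))))))))))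
(mv 1102 (cons (fin 1166 4 909)
(mv 1103 (cons (fin 1036 3 1036)
(mv 1164 (cons (fin 1165 1 1100)
(mv 1169 (cons (fin 1168 0 1101)
(mv 1105 (cons (fin 1170 0 1102)
(fin 976 4 912))))))))))))))))))))))))))))
(mv 1165 (cons (cons (mv 908 (cons (fin 972 7 908)
(mv 844 (cons (fin 909 7 844)
(mv 1230 (cons (fin 1166 4 973)
(mv 910 (cons (fin 974 6 909)
(mv 1229 (cons (fin 1294 4 1037)
(mv 1228 (cons (fin 1164 5 972)
(fin 1292 5 1036)))))))))))))
(mv 1164 (cons (fin 1228 5 972)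
(mv 910 (cons (fin 974 6 909)
(mv 909 (cons (fin 846 6 845)
(mv 908 (cons (fin 844 7 844)
(fin 972 7 908))))))))))
(cons (mv 1166 (cons (fin 1230 4 973)
(mv 909 (cons (fin 1102 4 909)
(mv 910 (cons (fin 846 6 845)
(fin 974 6 909)))))))
(cons (mv 1164 (cons (fin 1228 5 972)
(mv 1166 (cons (fin 1230 4 973)
(mv 909 (cons (fin 1102 4 909)
(mv 908 (cons (fin 844 7 844)
(fin 972 7 908)))))))))
(mv 908 (cons (fin 972 7 908)
(mv 910 (cons (fin 974 6 909)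
(mv 1228 (cons (fin 1164 5 972)
(mv 1230 (cons (fin 1166 4 973)
(mv 1229 (cons (fin 1292 5 1036)
(fin 1294 4 1037)))))))))))))))))))
(cons (mv 973 (cons (cons (cons (mv 909 (cons (cons (mv 844 (cons (fin 908 7 844)
(mv 780 (cons (fin 845 7 780)
(mv 1102 (cons (fin 1166 4 909)
(mv 910 (cons (fin 846 6 845)
(mv 1100 (cons (fin 1164 5 908)
(mv 1039 (cons (fin 1103 2 1036)
(mv 974 (cons (fin 1165 6 909)
(mv 972 (cons (fin 975 0 972)
(mv 911 (cons (fin 912 1 908)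
(fin 971 2 907)))))))))))))))))))
(cons (mv 846 (cons (fin 910 6 845)
(mv 782 (cons (fin 845 6 781)
(mv 1166 (cons (fin 1102 4 909)
(mv 1164 (cons (fin 1100 5 908)
(mv 1165 (cons (fin 1228 5 972)
(fin 1230 4 973)))))))))))
(mv 1102 (cons (fin 1166 4 909)
(mv 844 (cons (fin 908 7 844)
(mv 845 (cons (fin 780 7 780)
(mv 1100 (cons (fin 1036 5 844)
(fin 1164 5 908)))))))))))
(cons (mv 846 (cons (fin 910 6 845)
(mv 782 (cons (fin 845 6 781)
(mv 1166 (cons (fin 1102 4 909)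
(mv 908 (cons (fin 844 7 844)
(mv 1165 (cons (fin 972 7 908)
(fin 1230 4 973)))))))))))
(cons (mv 1100 (cons (fin 1164 5 908)
(mv 845 (cons (fin 1036 5 844)
(mv 844 (cons (fin 780 7 780)
(fin 908 7 844)))))))
(mv 846 (cons (fin 910 6 845)
(mv 1102 (cons (fin 1166 4 909)
(mv 1100 (cons (fin 1164 5 908)
(mv 1039 (cons (fin 1103 2 1036)
(mv 908 (cons (fin 844 7 844)
(mv 972 (cons (fin 1165 7 908)
(mv 974 (cons (fin 975 0 972)
(mv 907 (cons (fin 906 0 906)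
(mv 1036 (cons (fin 843 7 843)
(mv 1034 (cons (fin 1035 2 970)
(mv 1099 (cons (fin 1163 5 907)
(mv 1098 (cons (fin 1033 3 1033)
(fin 1097 2 1033)))))))))))))))))))))))))))))
(mv 1165 (cons (cons (mv 908 (cons (fin 972 7 908)
(mv 1230 (cons (fin 1166 4 973)
(mv 910 (cons (fin 974 6 909)
(mv 1229 (cons (fin 1294 4 1037)
(mv 1228 (cons (fin 1164 5 972)
(fin 1292 5 1036)))))))))))
(mv 1228 (cons (fin 1164 5 972)
(mv 910 (cons (fin 974 6 909)
(mv 1229 (cons (fin 1292 5 1036)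
(mv 1230 (cons (fin 1166 4 973)
(fin 1294 4 1037))))))))))
(cons (mv 1166 (cons (fin 1230 4 973)
(mv 974 (cons (fin 910 6 909)
(mv 972 (cons (fin 908 7 908)
(mv 975 (cons (fin 1039 0 972)
(mv 1036 (cons (fin 1035 1 971)
(fin 976 1 972)))))))))))
(cons (mv 972 (cons (fin 908 7 908)
(mv 1164 (cons (fin 1228 5 972)
(mv 1036 (cons (fin 1229 7 972)
(mv 974 (cons (fin 910 6 909)
(mv 975 (cons (fin 1035 1 971)
(fin 976 1 972)))))))))))
(mv 1166 (cons (fin 1230 4 973)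
(mv 1228 (cons (fin 1164 5 972)
(mv 972 (cons (fin 908 7 908)
(mv 1229 (cons (fin 1036 7 972)
(fin 1292 5 1036))))))))))))))
(cons (mv 909 (cons (cons (mv 844 (cons (fin 908 7 844)
(mv 780 (cons (fin 845 7 780)
(mv 1102 (cons (fin 1166 4 909)
(mv 910 (cons (fin 846 6 845)
(mv 1100 (cons (fin 1164 5 908)
(mv 1103 (cons (fin 1039 2 1036)
(mv 1035 (cons (fin 1036 3 1035)
(mv 1099 (cons (fin 1034 3 1034)
(mv 1167 (cons (fin 1168 0 1100)
(mv 1162 (cons (fin 1163 1 1098)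
(mv 1098 (cons (fin 1161 1 1097)
(mv 971 (cons (fin 907 5 906)
(mv 1226 (cons (fin 1290 6 1034)
(mv 972 (cons (fin 970 2 906)
(mv 911 (cons (fin 912 1 908)
(fin 974 2 907)))))))))))))))))))))))))))))))
(mv 844 (cons (fin 908 7 844)
(mv 845 (cons (fin 780 7 780)
(mv 846 (cons (fin 782 6 781)
(fin 910 6 845))))))))
(cons (mv 1102 (cons (fin 1166 4 909)
(mv 1100 (cons (fin 1164 5 908)
(mv 845 (cons (fin 1036 5 844)
(mv 846 (cons (fin 782 6 781)
(fin 910 6 845)))))))))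
(cons (mv 844 (cons (fin 908 7 844)
(mv 845 (cons (fin 780 7 780)
(mv 1100 (cons (fin 1036 5 844)
(fin 1164 5 908)))))))
(mv 1102 (cons (fin 1166 4 909)
(mv 846 (cons (fin 910 6 845)
(mv 908 (cons (fin 844 7 844)
(mv 1100 (cons (fin 1164 5 908)
(mv 1103 (cons (fin 1039 2 1036)
(mv 1035 (cons (fin 1036 3 1035)
(mv 1099 (cons (fin 1034 3 1034)
(mv 1167 (cons (fin 1168 0 1100)
(mv 1162 (cons (fin 1163 1 1098)
(mv 1098 (cons (fin 1161 1 1097)
(mv 907 (cons (fin 971 5 906)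
(mv 906 (cons (fin 974 0 906)
(mv 905 (cons (fin 972 0 905)
(mv 969 (cons (fin 968 1 904)
(fin 970 1 905)))))))))))))))))))))))))))))))))
(mv 1165 (cons (cons (mv 1164 (cons (fin 1228 5 972)
(mv 909 (cons (fin 1100 5 908)
(mv 910 (cons (fin 846 6 845)
(fin 974 6 909)))))))
(mv 1166 (cons (fin 1230 4 973)
(mv 909 (cons (fin 1102 4 909)
(mv 910 (cons (fin 846 6 845)
(fin 974 6 909))))))))
(cons (mv 1164 (cons (fin 1228 5 972)
(mv 909 (cons (fin 1100 5 908)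
(mv 1166 (cons (fin 1102 4 909)
(fin 1230 4 973)))))))
(mv 1166 (cons (fin 1230 4 973)
(mv 910 (cons (fin 974 6 909)
(mv 1228 (cons (fin 1164 5 972)
(mv 1229 (cons (fin 1292 5 1036)
(mv 1036 (cons (fin 972 7 972)
(mv 1226 (cons (fin 1227 2 1162)
(mv 1100 (cons (fin 1293 7 1036)
(mv 1099 (cons (fin 1098 0 1098)
(mv 1167 (cons (fin 1168 3 1100)
(fin 1102 0 1099))))))))))))))))))))))))
(cons (cons (mv 909 (cons (cons (mv 844 (cons (fin 908 7 844)
(mv 780 (cons (fin 845 7 780)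
(mv 1166 (cons (fin 1102 4 909)
(mv 910 (cons (fin 846 6 845)
(mv 1165 (cons (fin 974 6 909)
(fin 1230 4 973)))))))))))
(cons (mv 1102 (cons (fin 1166 4 909)
(mv 846 (cons (fin 910 6 845)
(mv 845 (cons (fin 782 6 781)
(mv 1036 (cons (fin 1100 5 844)
(mv 781 (cons (fin 972 5 780)
(mv 780 (cons (fin 716 7 716)
(fin 844 7 780)))))))))))))
(mv 844 (cons (fin 908 7 844)
(mv 845 (cons (fin 780 7 780)
(mv 1102 (cons (fin 1166 4 909)
(mv 782 (cons (fin 846 6 781)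
(mv 781 (cons (fin 718 6 717)
(mv 1036 (cons (fin 972 5 780)
(fin 1100 5 844)))))))))))))))
(cons (cons (mv 1102 (cons (fin 1166 4 909)
(mv 846 (cons (fin 910 6 845)
(mv 845 (cons (fin 782 6 781)
(mv 1036 (cons (fin 1100 5 844)
(mv 972 (cons (fin 781 5 780)
(mv 1165 (cons (fin 908 7 908)
(fin 1229 7 972)))))))))))))
(mv 844 (cons (fin 908 7 844)
(mv 845 (cons (fin 780 7 780)
(mv 1102 (cons (fin 1166 4 909)
(mv 1036 (cons (fin 1100 5 844)
(mv 972 (cons (fin 781 5 780)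
(mv 1034 (cons (fin 1035 0 1034)
(mv 1165 (cons (fin 1229 7 972)
(mv 974 (cons (fin 910 6 909)
(mv 975 (cons (fin 976 1 972)
(fin 1039 0 972))))))))))))))))))))
(cons (mv 846 (cons (fin 910 6 845)
(mv 845 (cons (fin 782 6 781)
(mv 844 (cons (fin 780 7 780)
(fin 908 7 844)))))))
(mv 844 (cons (fin 908 7 844)
(mv 1166 (cons (fin 1102 4 909)
(mv 910 (cons (fin 846 6 845)
(mv 1165 (cons (fin 974 6 909)
(fin 1230 4 973)))))))))))))
(mv 1165 (cons (cons (mv 908 (cons (fin 972 7 908)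
(mv 844 (cons (fin 909 7 844)
(mv 1230 (cons (fin 1166 4 973)
(mv 1228 (cons (fin 1164 5 972)
(mv 1229 (cons (fin 1292 5 1036)
(fin 1294 4 1037)))))))))))
(mv 1166 (cons (fin 1230 4 973)
(mv 909 (cons (fin 1102 4 909)
(mv 908 (cons (fin 844 7 844)
(fin 972 7 908))))))))
(cons (mv 908 (cons (fin 972 7 908)
(mv 909 (cons (fin 844 7 844)
(mv 1164 (cons (fin 1100 5 908)
(fin 1228 5 972)))))))
(cons (mv 1164 (cons (fin 1228 5 972)
(mv 909 (cons (fin 1100 5 908)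
(mv 1166 (cons (fin 1102 4 909)
(fin 1230 4 973)))))))
(mv 1166 (cons (fin 1230 4 973)
(mv 972 (cons (fin 908 7 908)
(mv 1228 (cons (fin 1164 5 972)
(mv 1229 (cons (fin 1036 7 972)
(fin 1292 5 1036))))))))))))))
(cons (mv 909 (cons (cons (mv 1100 (cons (fin 1164 5 908)
(mv 845 (cons (fin 1036 5 844)
(mv 844 (cons (fin 780 7 780)
(fin 908 7 844)))))))
(mv 846 (cons (fin 910 6 845)
(mv 845 (cons (fin 782 6 781)
(mv 1100 (cons (fin 1036 5 844)
(fin 1164 5 908))))))))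
(cons (mv 844 (cons (fin 908 7 844)
(mv 845 (cons (fin 780 7 780)
(mv 846 (cons (fin 782 6 781)
(fin 910 6 845)))))))
(mv 846 (cons (fin 910 6 845)
(mv 1164 (cons (fin 1100 5 908)
(mv 908 (cons (fin 844 7 844)
(mv 1165 (cons (fin 972 7 908)
(fin 1228 5 972))))))))))))
(cons (mv 909 (cons (cons (mv 844 (cons (fin 908 7 844)
(mv 780 (cons (fin 845 7 780)
(mv 1102 (cons (fin 1166 4 909)
(mv 910 (cons (fin 846 6 845)
(mv 1164 (cons (fin 1100 5 908)
(mv 1165 (cons (fin 1228 5 972)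
(fin 974 6 909)))))))))))))
(mv 846 (cons (fin 910 6 845)
(mv 845 (cons (fin 782 6 781)
(mv 844 (cons (fin 780 7 780)
(fin 908 7 844))))))))
(cons (mv 1102 (cons (fin 1166 4 909)
(mv 1100 (cons (fin 1164 5 908)
(mv 845 (cons (fin 1036 5 844)
(mv 844 (cons (fin 780 7 780)
(fin 908 7 844)))))))))
(cons (mv 846 (cons (fin 910 6 845)
(mv 782 (cons (fin 845 6 781)
(mv 1166 (cons (fin 1102 4 909)
(mv 1164 (cons (fin 1100 5 908)
(mv 1165 (cons (fin 1228 5 972)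
(fin 1230 4 973)))))))))))
(mv 1102 (cons (fin 1166 4 909)
(mv 844 (cons (fin 908 7 844)
(mv 910 (cons (fin 846 6 845)
(mv 1164 (cons (fin 1100 5 908)
(mv 1165 (cons (fin 1228 5 972)
(fin 974 6 909)))))))))))))))
(mv 909 (cons (cons (mv 844 (cons (fin 908 7 844)
(mv 780 (cons (fin 845 7 780)
(mv 1102 (cons (fin 1166 4 909)
(mv 910 (cons (fin 846 6 845)
(mv 1100 (cons (fin 1164 5 908)
(mv 1039 (cons (fin 1103 2 1036)
(mv 974 (cons (fin 1165 6 909)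
(mv 972 (cons (fin 975 0 972)
(mv 911 (cons (fin 912 1 908)
(fin 971 2 907)))))))))))))))))))
(cons (mv 846 (cons (fin 910 6 845)
(mv 782 (cons (fin 845 6 781)
(mv 1166 (cons (fin 1102 4 909)
(mv 1164 (cons (fin 1100 5 908)
(mv 1165 (cons (fin 1228 5 972)
(fin 1230 4 973)))))))))))
(mv 1102 (cons (fin 1166 4 909)
(mv 908 (cons (fin 844 7 844)
(mv 1164 (cons (fin 1100 5 908)
(mv 1165 (cons (fin 972 7 908)
(fin 1228 5 972)))))))))))
(cons (mv 844 (cons (fin 908 7 844)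
(mv 780 (cons (fin 845 7 780)
(mv 910 (cons (fin 846 6 845)
(mv 1164 (cons (fin 1100 5 908)
(mv 1165 (cons (fin 1228 5 972)
(fin 974 6 909)))))))))))
(cons (mv 846 (cons (fin 910 6 845)
(mv 782 (cons (fin 845 6 781)
(mv 908 (cons (fin 844 7 844)
(mv 1166 (cons (fin 1102 4 909)
(mv 1165 (cons (fin 972 7 908)
(fin 1230 4 973)))))))))))
(mv 844 (cons (fin 908 7 844)
(mv 845 (cons (fin 780 7 780)
(mv 846 (cons (fin 782 6 781)
(fin 910 6 845))))))))))))))))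
(mv 973 (cons (cons (cons (mv 909 (cons (cons (mv 844 (cons (fin 908 7 844)
(mv 780 (cons (fin 845 7 780)
(mv 1166 (cons (fin 1102 4 909)
(mv 910 (cons (fin 846 6 845)
(mv 1165 (cons (fin 974 6 909)
(fin 1230 4 973)))))))))))
(cons (mv 1102 (cons (fin 1166 4 909)
(mv 846 (cons (fin 910 6 845)
(mv 845 (cons (fin 782 6 781)
(mv 1036 (cons (fin 1100 5 844)
(mv 781 (cons (fin 972 5 780)
(mv 780 (cons (fin 716 7 716)
(fin 844 7 780)))))))))))))
(mv 844 (cons (fin 908 7 844)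
(mv 845 (cons (fin 780 7 780)
(mv 1102 (cons (fin 1166 4 909)
(mv 782 (cons (fin 846 6 781)
(mv 781 (cons (fin 718 6 717)
(mv 1036 (cons (fin 972 5 780)
(fin 1100 5 844)))))))))))))))
(cons (cons (mv 1102 (cons (fin 1166 4 909)
(mv 846 (cons (fin 910 6 845)
(mv 845 (cons (fin 782 6 781)
(mv 1036 (cons (fin 1100 5 844)
(mv 972 (cons (fin 781 5 780)
(mv 1165 (cons (fin 908 7 908)
(fin 1229 7 972)))))))))))))
(mv 844 (cons (fin 908 7 844)
(mv 845 (cons (fin 780 7 780)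
(mv 1102 (cons (fin 1166 4 909)
(mv 1036 (cons (fin 1100 5 844)
(mv 972 (cons (fin 781 5 780)
(mv 1034 (cons (fin 1035 0 1034)
(mv 1165 (cons (fin 1229 7 972)
(mv 1103 (cons (fin 1104 3 1036)
(mv 974 (cons (fin 910 6 909)
(mv 975 (cons (fin 976 1 972)
(fin 1039 0 972))))))))))))))))))))))
(cons (mv 846 (cons (fin 910 6 845)
(mv 845 (cons (fin 782 6 781)
(mv 844 (cons (fin 780 7 780)
(fin 908 7 844)))))))
(mv 844 (cons (fin 908 7 844)
(mv 1166 (cons (fin 1102 4 909)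
(mv 910 (cons (fin 846 6 845)
(mv 1165 (cons (fin 974 6 909)
(fin 1230 4 973)))))))))))))
(mv 1165 (cons (cons (mv 972 (cons (fin 908 7 908)
(mv 1166 (cons (fin 1230 4 973)
(mv 1036 (cons (fin 1229 7 972)
(mv 974 (cons (fin 910 6 909)
(mv 975 (cons (fin 1035 1 971)
(fin 976 1 972)))))))))))
(cons (mv 1230 (cons (fin 1166 4 973)
(mv 974 (cons (fin 910 6 909)
(mv 1229 (cons (fin 1294 4 1037)
(mv 1292 (cons (fin 1228 5 1036)
(mv 1293 (cons (fin 1356 5 1100)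
(mv 1036 (cons (fin 1100 7 1036)
(mv 1034 (cons (fin 1035 2 970)
(mv 976 (cons (fin 975 1 972)
(mv 1290 (cons (fin 1291 2 1226)
(mv 1231 (cons (fin 1232 1 1228)
(mv 1104 (cons (cons (mv 1103 (cons (fin 1102 3 1036)
(mv 1167 (cons (fin 912 5 911)
(fin 1168 5 975)))))
(mv 1168 (cons (fin 1167 5 975)
(mv 913 (cons (fin 977 6 912)
(mv 912 (cons (fin 849 6 848)
(mv 1169 (cons (fin 1105 4 912)
(fin 1233 4 976))))))))))
(cons (mv 912 (cons (mv 1103 (cons (fin 1102 3 1036)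
(mv 847 (cons (fin 911 7 847)
(mv 848 (cons (fin 783 7 783)
(fin 1039 5 847)))))))
(mv 1169 (cons (fin 1105 4 912)
(mv 913 (cons (fin 849 6 848)
(mv 1168 (cons (fin 977 6 912)
(fin 1233 4 976)))))))))
(cons (mv 1103 (cons (fin 1102 3 1036)
(mv 1167 (cons (fin 912 5 911)
(fin 1039 6 975)))))
(mv 1103 (cons (fin 1102 3 1036)
(mv 1167 (cons (fin 1168 5 975)
(fin 1039 6 975)))))))))))))))))))))))))))))
(mv 972 (cons (fin 908 7 908)
(mv 974 (cons (fin 910 6 909)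
(mv 1036 (cons (fin 1229 7 972)
(mv 975 (cons (fin 1035 1 971)
(fin 976 1 972)))))))))))
(cons (mv 972 (cons (fin 908 7 908)
(mv 1166 (cons (fin 1230 4 973)
(mv 1229 (cons (fin 1036 7 972)
(mv 1292 (cons (fin 1228 5 1036)
(mv 1293 (cons (fin 1356 5 1100)
(mv 1357 (cons (fin 1102 6 1101)
(mv 1358 (cons (fin 1294 4 1101)
(fin 1422 4 1165)))))))))))))))
(cons (mv 1166 (cons (fin 1230 4 973)
(mv 972 (cons (fin 908 7 908)
(mv 974 (cons (fin 910 6 909)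
(mv 975 (cons (fin 1039 0 972)
(mv 1036 (cons (fin 1035 1 971)
(fin 976 1 972)))))))))))
(mv 974 (cons (fin 910 6 909)
(mv 972 (cons (fin 908 7 908)
(mv 975 (cons (fin 1039 0 972)
(mv 912 (cons (fin 911 2 908)
(mv 976 (cons (fin 913 2 909)
(mv 1104 (cons (cons (mv 1166 (cons (fin 1230 4 973)
(mv 1103 (cons (fin 1167 5 911)
(mv 1105 (cons (fin 1102 1 1101)
(fin 1169 4 912)))))))
(cons (mv 1169 (cons (fin 1105 4 912)
(mv 1168 (cons (fin 1233 4 976)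
(mv 1102 (cons (fin 1103 0 1101)
(mv 1229 (cons (cons (mv 1230 (cons (fin 1166 4 973)
(fin 1294 4 1037)))
(mv 1292 (cons (fin 1228 5 1036)
(mv 1293 (cons (fin 1356 5 1100)
(mv 1357 (cons (fin 1166 6 1101)
(mv 1358 (cons (fin 1294 4 1101)
(fin 1422 4 1165))))))))))
(cons (mv 1292 (cons (fin 1228 5 1036)
(mv 1294 (cons (fin 1230 4 1037)
(mv 1293 (cons (fin 1356 5 1100)
(fin 1358 4 1101)))))))
(mv 1292 (cons (fin 1228 5 1036)
(mv 1166 (cons (fin 1230 4 973)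
(mv 1293 (cons (fin 1356 5 1100)
(fin 1357 6 1101))))))))))))))))
(mv 1166 (cons (fin 1230 4 973)
(mv 1167 (cons (fin 1103 5 911)
(mv 1168 (cons (fin 1100 3 1100)
(fin 1105 2 1101)))))))))
(cons (mv 1103 (cons (fin 1167 5 911)
(mv 1169 (cons (fin 1105 4 912)
(mv 1168 (cons (fin 1102 0 1101)
(fin 1233 4 976)))))))
(cons (mv 1166 (cons (fin 1230 4 973)
(mv 1167 (cons (fin 1103 5 911)
(mv 1168 (cons (fin 1100 3 1100)
(fin 1231 5 975)))))))
(mv 1169 (cons (fin 1105 4 912)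
(mv 1166 (cons (fin 1230 4 973)
(mv 1168 (cons (fin 1233 4 976)
(mv 1167 (cons (fin 1100 3 1100)
(fin 1102 3 1101))))))))))))))))))))))))))))
(cons (mv 909 (cons (cons (mv 844 (cons (fin 908 7 844)
(mv 845 (cons (fin 780 7 780)
(mv 846 (cons (fin 782 6 781)
(fin 910 6 845)))))))
(cons (mv 1102 (cons (fin 1166 4 909)
(mv 846 (cons (fin 910 6 845)
(mv 845 (cons (fin 782 6 781)
(mv 1036 (cons (fin 1100 5 844)
(mv 781 (cons (fin 972 5 780)
(mv 716 (cons (fin 780 7 716)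
(mv 652 (cons (fin 717 7 652)
(mv 1034 (cons (fin 1035 0 1034)
(mv 1104 (cons (fin 1103 3 1036)
(mv 976 (cons (cons (mv 975 (cons (fin 974 1 972)
(mv 911 (cons (fin 1168 7 911)
(mv 847 (cons (fin 912 7 847)
(fin 783 4 783)))))))
(cons (mv 912 (cons (mv 847 (cons (fin 911 7 847)
(mv 848 (cons (fin 908 1 844)
(fin 913 0 845)))))
(cons (mv 1169 (cons (fin 1105 4 912)
(mv 913 (cons (fin 849 6 848)
(mv 1168 (cons (fin 977 6 912)
(fin 1233 4 976)))))))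
(mv 1105 (cons (fin 1169 4 912)
(mv 847 (cons (fin 911 7 847)
(mv 848 (cons (fin 908 1 844)
(fin 783 7 783))))))))))
(mv 975 (cons (fin 974 1 972)
(mv 847 (cons (cons (mv 911 (cons (fin 912 7 847)
(fin 783 4 783)))
(mv 848 (cons (fin 908 1 844)
(mv 912 (cons (fin 913 0 845)
(fin 783 7 783))))))
(cons (mv 911 (cons (fin 783 4 783)
(fin 1039 4 847)))
(mv 911 (cons (fin 912 7 847)
(fin 1039 4 847))))))))))
(cons (mv 975 (cons (fin 974 1 972)
(mv 911 (cons (fin 1168 7 911)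
(mv 847 (cons (fin 783 4 783)
(fin 1039 4 847)))))))
(cons (mv 975 (cons (fin 974 1 972)
(mv 1168 (cons (fin 911 7 911)
(mv 1232 (cons (fin 1039 7 975)
(mv 1231 (cons (fin 1167 5 975)
(fin 1295 5 1039)))))))))
(mv 975 (cons (fin 974 1 972)
(mv 1168 (cons (mv 1232 (cons (fin 1039 7 975)
(mv 1231 (cons (fin 1167 5 975)
(fin 1295 5 1039)))))
(mv 1169 (cons (fin 1233 4 976)
(mv 912 (cons (fin 1105 4 912)
(mv 913 (cons (fin 849 6 848)
(fin 977 6 912)))))))))))))))))))))))))))))))))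
(mv 844 (cons (fin 908 7 844)
(mv 845 (cons (fin 780 7 780)
(mv 1102 (cons (fin 1166 4 909)
(mv 1036 (cons (fin 1100 5 844)
(mv 781 (cons (fin 972 5 780)
(mv 1034 (cons (fin 1035 0 1034)
(mv 718 (cons (fin 782 6 717)
(mv 717 (cons (fin 654 6 653)
(mv 1104 (cons (fin 1103 3 1036)
(mv 652 (cons (fin 716 7 652)
(mv 976 (cons (mv 974 (cons (fin 975 1 972)
(fin 910 4 717)))
(cons (mv 912 (cons (mv 911 (cons (fin 910 3 844)
(fin 847 7 847)))
(mv 1169 (cons (fin 1105 4 912)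
(mv 913 (cons (fin 849 6 848)
(mv 1168 (cons (fin 977 6 912)
(fin 1233 4 976)))))))))
(mv 588 (cons (fin 653 7 588)
(mv 975 (cons (fin 974 1 972)
(mv 911 (cons (fin 1168 7 911)
(mv 847 (cons (fin 912 7 847)
(fin 783 4 783))))))))))))))))))))))))))))))))))
(cons (mv 1102 (cons (fin 1166 4 909)
(mv 846 (cons (fin 910 6 845)
(mv 845 (cons (fin 782 6 781)
(mv 1036 (cons (fin 1100 5 844)
(mv 781 (cons (fin 972 5 780)
(mv 780 (cons (fin 716 7 716)
(fin 844 7 780)))))))))))))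
(cons (mv 844 (cons (fin 908 7 844)
(mv 845 (cons (fin 780 7 780)
(mv 1102 (cons (fin 1166 4 909)
(mv 782 (cons (fin 846 6 781)
(mv 781 (cons (fin 718 6 717)
(mv 1036 (cons (fin 972 5 780)
(fin 1100 5 844)))))))))))))
(mv 844 (cons (fin 908 7 844)
(mv 910 (cons (fin 846 6 845)
(mv 1102 (cons (fin 1166 4 909)
(mv 1103 (cons (cons (mv 1036 (cons (fin 1104 3 1036)
(mv 1100 (cons (fin 1035 3 1035)
(fin 1039 2 1036)))))
(mv 1039 (cons (fin 1100 2 1036)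
(mv 1167 (cons (cons (mv 974 (cons (fin 975 7 910)
(mv 976 (cons (fin 1231 6 975)
(mv 912 (cons (fin 848 5 847)
(fin 1104 5 911)))))))
(mv 976 (cons (fin 1231 6 975)
(mv 912 (cons (fin 848 5 847)
(fin 1104 5 911))))))
(cons (mv 975 (cons (fin 974 7 910)
(mv 1168 (cons (fin 1232 4 975)
(mv 1104 (cons (fin 1169 0 1101)
(fin 911 4 911)))))))
(mv 974 (cons (fin 975 7 910)
(mv 976 (cons (fin 1231 6 975)
(mv 912 (cons (fin 848 5 847)
(mv 911 (cons (fin 972 1 908)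
(fin 913 1 909)))))))))))))))
(cons (mv 1104 (cons (fin 1036 3 1036)
(mv 1169 (cons (fin 1168 0 1101)
(mv 1105 (cons (fin 1170 0 1102)
(mv 1233 (cons (fin 1297 7 1040)
(mv 912 (cons (fin 976 4 912)
(mv 911 (cons (fin 972 1 908)
(mv 913 (cons (fin 974 1 909)
(mv 849 (cons (fin 848 2 845)
(fin 850 2 846)))))))))))))))))
(mv 1100 (cons (fin 1039 2 1036)
(mv 1035 (cons (fin 1036 3 1035)
(mv 1099 (cons (fin 1034 3 1034)
(mv 1167 (cons (fin 1168 0 1100)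
(mv 1162 (cons (fin 1163 1 1098)
(mv 1098 (cons (fin 1161 1 1097)
(mv 971 (cons (fin 907 5 906)
(mv 1226 (cons (fin 1290 6 1034)
(mv 972 (cons (fin 970 2 906)
(mv 911 (cons (fin 912 1 908)
(fin 974 2 907))))))))))))))))))))))))))))))))))
(mv 910 (cons (mv 846 (cons (fin 909 6 845)
(mv 974 (cons (fin 782 5 781)
(fin 1165 6 909)))))
(cons (mv 1165 (cons (fin 974 6 909)
(mv 1230 (cons (fin 1166 4 973)
(mv 1229 (cons (fin 1294 4 1037)
(mv 1292 (cons (fin 1228 5 1036)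
(mv 1036 (cons (fin 972 7 972)
(mv 1293 (cons (fin 1100 7 1036)
(fin 1356 5 1100)))))))))))))
(mv 909 (cons (fin 846 6 845)
(mv 1102 (cons (fin 1166 4 909)
(mv 1103 (cons (cons (mv 1036 (cons (fin 1104 3 1036)
(mv 1035 (cons (fin 1100 3 1035)
(fin 1034 0 1034)))))
(mv 1039 (cons (fin 1100 2 1036)
(mv 912 (cons (cons (mv 911 (cons (fin 972 1 908)
(mv 848 (cons (fin 849 2 845)
(fin 976 5 847)))))
(mv 911 (cons (fin 972 1 908)
(mv 848 (cons (fin 849 2 845)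
(fin 975 6 847))))))
(cons (mv 976 (cons (fin 848 5 847)
(mv 1167 (cons (fin 1104 5 911)
(fin 975 6 911)))))
(mv 911 (cons (fin 972 1 908)
(mv 844 (cons (fin 845 3 844)
(mv 976 (cons (fin 977 0 909)
(mv 1104 (cons (fin 847 7 847)
(fin 1167 5 911)))))))))))))))
(cons (mv 1104 (cons (fin 1036 3 1036)
(mv 1168 (cons (fin 1169 0 1101)
(mv 976 (cons (mv 1167 (cons (fin 912 5 911)
(fin 1231 5 975)))
(cons (mv 911 (cons (fin 975 7 911)
(mv 912 (cons (fin 972 1 908)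
(fin 977 0 909)))))
(mv 911 (cons (fin 975 7 911)
(mv 1231 (cons (fin 1167 5 975)
(mv 913 (cons (fin 977 6 912)
(mv 1232 (cons (fin 1295 5 1039)
(mv 1296 (cons (fin 1039 7 1039)
(mv 1297 (cons (fin 1233 4 1040)
(fin 1361 4 1104))))))))))))))))))))
(mv 1100 (cons (fin 1039 2 1036)
(mv 1036 (cons (fin 1035 3 1035)
(fin 845 5 844)))))))))))))))))
(cons (cons (mv 1165 (cons (cons (mv 1166 (cons (fin 1230 4 973)
(mv 909 (cons (fin 1102 4 909)
(mv 908 (cons (fin 844 7 844)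
(fin 972 7 908)))))))
(mv 1166 (cons (fin 1230 4 973)
(mv 1102 (cons (fin 909 4 909)
(mv 1100 (cons (mv 1099 (cons (fin 1098 0 1098)
(fin 1167 0 1099)))
(cons (mv 1098 (cons (fin 1099 0 1098)
(mv 1103 (cons (fin 1039 2 1036)
(mv 1036 (cons (fin 1035 3 1035)
(fin 1104 3 1036)))))))
(mv 1103 (cons (fin 1039 2 1036)
(mv 1036 (cons (fin 1035 3 1035)
(fin 1104 3 1036)))))))))))))
(cons (mv 972 (cons (fin 908 7 908)
(mv 1229 (cons (fin 1036 7 972)
(mv 1292 (cons (fin 1228 5 1036)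
(mv 1294 (cons (fin 1230 4 1037)
(mv 1293 (cons (fin 1356 5 1100)
(fin 1358 4 1101)))))))))))
(mv 972 (cons (fin 908 7 908)
(mv 1036 (cons (fin 1229 7 972)
(mv 974 (cons (mv 975 (cons (fin 1035 1 971)
(fin 976 1 972)))
(cons (mv 971 (cons (cons (mv 1034 (cons (fin 1035 1 970)
(mv 970 (cons (fin 1033 1 969)
(fin 969 0 969)))))
(mv 969 (cons (fin 970 0 969)
(mv 907 (cons (fin 906 3 906)
(mv 843 (cons (fin 779 4 779)
(mv 1100 (cons (fin 1035 4 843)
(mv 909 (cons (fin 845 5 844)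
(mv 1102 (cons (fin 1166 4 909)
(mv 1103 (cons (fin 1104 3 1036)
(fin 1039 2 1036))))))))))))))))
(cons (mv 906 (cons (fin 907 3 906)
(mv 970 (cons (fin 905 3 905)
(fin 969 0 969)))))
(mv 1035 (cons (fin 1034 1 970)
(mv 907 (cons (fin 906 3 906)
(mv 843 (cons (fin 779 4 779)
(fin 1100 4 843))))))))))
(mv 975 (cons (fin 976 1 972)
(fin 1039 0 972)))))))))))))
(mv 909 (cons (cons (mv 846 (cons (fin 910 6 845)
(mv 845 (cons (fin 782 6 781)
(mv 844 (cons (fin 780 7 780)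
(fin 908 7 844)))))))
(cons (mv 846 (cons (fin 910 6 845)
(mv 845 (cons (fin 782 6 781)
(mv 1036 (cons (fin 1100 5 844)
(mv 781 (cons (fin 972 5 780)
(mv 780 (cons (fin 716 7 716)
(fin 844 7 780)))))))))))
(mv 844 (cons (fin 908 7 844)
(mv 845 (cons (fin 780 7 780)
(mv 1036 (cons (fin 1100 5 844)
(mv 781 (cons (fin 972 5 780)
(mv 782 (cons (fin 718 6 717)
(fin 846 6 781)))))))))))))
(cons (mv 846 (cons (fin 910 6 845)
(mv 845 (cons (fin 782 6 781)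
(mv 1036 (cons (fin 1100 5 844)
(mv 972 (cons (fin 781 5 780)
(mv 1165 (cons (fin 908 7 908)
(fin 1229 7 972)))))))))))
(cons (mv 844 (cons (fin 908 7 844)
(mv 845 (cons (fin 780 7 780)
(mv 1036 (cons (fin 1100 5 844)
(mv 972 (cons (fin 781 5 780)
(mv 1165 (cons (fin 1229 7 972)
(mv 974 (cons (fin 910 6 909)
(mv 975 (cons (fin 1035 1 971)
(fin 976 1 972)))))))))))))))
(mv 908 (cons (fin 844 7 844)
(mv 910 (cons (fin 846 6 845)
(mv 1165 (cons (fin 972 7 908)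
(fin 974 6 909))))))))))))
(cons (mv 909 (cons (cons (mv 844 (cons (fin 908 7 844)
(mv 780 (cons (fin 845 7 780)
(mv 1166 (cons (fin 1102 4 909)
(mv 910 (cons (fin 846 6 845)
(mv 1165 (cons (fin 974 6 909)
(fin 1230 4 973)))))))))))
(mv 1102 (cons (fin 1166 4 909)
(mv 844 (cons (fin 908 7 844)
(mv 845 (cons (fin 780 7 780)
(mv 1036 (cons (fin 1100 5 844)
(mv 1034 (cons (fin 1035 0 1034)
(mv 1104 (cons (fin 1103 3 1036)
(mv 846 (cons (fin 782 6 781)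
(mv 976 (cons (cons (mv 975 (cons (fin 974 1 972)
(mv 911 (cons (fin 1168 7 911)
(mv 847 (cons (fin 912 0 844)
(fin 783 4 783)))))))
(cons (mv 912 (cons (mv 847 (cons (fin 911 0 844)
(mv 783 (cons (fin 784 2 780)
(fin 848 7 783)))))
(mv 913 (cons (fin 849 6 848)
(mv 1169 (cons (fin 1105 4 912)
(mv 1168 (cons (fin 977 6 912)
(fin 1233 4 976)))))))))
(mv 975 (cons (fin 974 1 972)
(mv 911 (cons (fin 1168 7 911)
(mv 847 (cons (fin 783 4 783)
(fin 1039 4 847)))))))))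
(cons (mv 975 (cons (fin 974 1 972)
(mv 847 (cons (mv 783 (cons (fin 784 2 780)
(fin 911 4 783)))
(cons (mv 784 (cons (fin 783 2 780)
(mv 848 (cons (fin 785 2 781)
(mv 912 (cons (fin 913 0 845)
(fin 1039 5 783)))))))
(mv 911 (cons (fin 912 0 844)
(fin 1039 4 847))))))))
(cons (mv 975 (cons (fin 974 1 972)
(mv 1168 (cons (fin 911 7 911)
(mv 1039 (cons (fin 1232 7 975)
(mv 1169 (cons (fin 1233 4 976)
(mv 912 (cons (fin 1105 4 912)
(mv 913 (cons (fin 849 6 848)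
(fin 977 6 912)))))))))))))
(mv 975 (cons (fin 974 1 972)
(mv 1168 (cons (cons (mv 1039 (cons (fin 1232 7 975)
(mv 1169 (cons (fin 1233 4 976)
(mv 912 (cons (fin 1105 4 912)
(mv 913 (cons (fin 849 6 848)
(fin 977 6 912)))))))))
(mv 913 (cons (fin 977 6 912)
(mv 912 (cons (fin 849 6 848)
(mv 1169 (cons (fin 1105 4 912)
(fin 1233 4 976))))))))
(cons (mv 1169 (cons (fin 1233 4 976)
(mv 912 (cons (fin 1105 4 912)
(mv 1232 (cons (fin 1039 7 975)
(mv 1231 (cons (fin 1167 5 975)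
(fin 1295 5 1039)))))))))
(cons (mv 1167 (cons (fin 1231 5 975)
(mv 913 (cons (fin 977 6 912)
(mv 912 (cons (fin 849 6 848)
(mv 1039 (cons (fin 1232 7 975)
(mv 848 (cons (fin 847 0 845)
(fin 784 5 783)))))))))))
(mv 1232 (cons (fin 1039 7 975)
(mv 1231 (cons (fin 1167 5 975)
(fin 1295 5 1039))))))))))))))))))))))))))))))
(cons (mv 844 (cons (fin 908 7 844)
(mv 845 (cons (fin 780 7 780)
(mv 1102 (cons (fin 1166 4 909)
(mv 1036 (cons (fin 1100 5 844)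
(mv 1034 (cons (fin 1035 0 1034)
(mv 1104 (cons (fin 1103 3 1036)
(mv 976 (cons (cons (mv 974 (cons (fin 975 1 972)
(mv 910 (cons (fin 1165 6 909)
(mv 842 (cons (fin 843 0 842)
(mv 717 (cons (fin 781 4 717)
(mv 912 (cons (fin 911 3 844)
(mv 1169 (cons (fin 1105 4 912)
(mv 913 (cons (fin 849 6 848)
(mv 1168 (cons (fin 977 6 912)
(fin 1233 4 976)))))))))))))))))
(mv 912 (cons (mv 911 (cons (fin 910 3 844)
(fin 847 7 847)))
(mv 1169 (cons (fin 1105 4 912)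
(mv 913 (cons (fin 849 6 848)
(mv 1168 (cons (fin 977 6 912)
(fin 1233 4 976))))))))))
(cons (mv 975 (cons (fin 974 1 972)
(mv 911 (cons (fin 1168 7 911)
(mv 847 (cons (fin 783 4 783)
(fin 1039 4 847)))))))
(cons (mv 974 (cons (fin 975 1 972)
(mv 910 (cons (fin 1165 6 909)
(mv 912 (cons (fin 911 3 844)
(mv 781 (cons (fin 717 4 717)
(mv 849 (cons (fin 913 6 848)
(mv 848 (cons (fin 785 6 784)
(mv 782 (cons (fin 718 6 717)
(mv 783 (cons (fin 784 1 780)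
(fin 847 7 783)))))))))))))))))
(mv 975 (cons (fin 974 1 972)
(mv 1168 (cons (mv 1039 (cons (fin 1232 7 975)
(mv 1169 (cons (fin 1233 4 976)
(mv 912 (cons (fin 1105 4 912)
(mv 913 (cons (fin 849 6 848)
(fin 977 6 912)))))))))
(cons (mv 913 (cons (fin 977 6 912)
(mv 912 (cons (fin 849 6 848)
(mv 1169 (cons (fin 1105 4 912)
(fin 1233 4 976)))))))
(mv 1232 (cons (fin 1039 7 975)
(mv 1231 (cons (fin 1167 5 975)
(fin 1295 5 1039))))))))))))))))))))))))))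
(cons (mv 1166 (cons (fin 1102 4 909)
(mv 910 (cons (fin 846 6 845)
(mv 1165 (cons (fin 974 6 909)
(fin 1230 4 973)))))))
(mv 844 (cons (fin 908 7 844)
(mv 845 (cons (fin 780 7 780)
(mv 846 (cons (fin 782 6 781)
(fin 910 6 845)))))))))))
(cons (mv 909 (cons (cons (mv 844 (cons (fin 908 7 844)
(mv 845 (cons (fin 780 7 780)
(mv 846 (cons (fin 782 6 781)
(fin 910 6 845)))))))
(mv 1102 (cons (fin 1166 4 909)
(mv 846 (cons (fin 910 6 845)
(mv 845 (cons (fin 782 6 781)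
(mv 1036 (cons (fin 1100 5 844)
(mv 781 (cons (fin 972 5 780)
(mv 780 (cons (fin 716 7 716)
(fin 844 7 780))))))))))))))
(cons (mv 846 (cons (fin 910 6 845)
(mv 845 (cons (fin 782 6 781)
(mv 1102 (cons (fin 1166 4 909)
(mv 1036 (cons (fin 1100 5 844)
(mv 972 (cons (fin 781 5 780)
(mv 1165 (cons (fin 908 7 908)
(fin 1229 7 972)))))))))))))
(cons (mv 1166 (cons (fin 1102 4 909)
(mv 844 (cons (fin 908 7 844)
(mv 845 (cons (fin 780 7 780)
(mv 1165 (cons (fin 1230 4 973)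
(mv 1036 (cons (fin 1100 5 844)
(mv 972 (cons (fin 1229 7 972)
(fin 781 5 780)))))))))))))
(mv 1102 (cons (fin 1166 4 909)
(mv 910 (cons (fin 846 6 845)
(mv 908 (cons (fin 844 7 844)
(mv 972 (cons (fin 1165 7 908)
(mv 971 (cons (fin 911 1 907)
(fin 970 2 906)))))))))))))))
(mv 909 (cons (cons (mv 844 (cons (fin 908 7 844)
(mv 780 (cons (fin 845 7 780)
(mv 1166 (cons (fin 1102 4 909)
(mv 910 (cons (fin 846 6 845)
(mv 1165 (cons (fin 974 6 909)
(fin 1230 4 973)))))))))))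
(mv 1166 (cons (fin 1102 4 909)
(mv 910 (cons (fin 846 6 845)
(mv 1165 (cons (fin 974 6 909)
(fin 1230 4 973))))))))
(cons (mv 1166 (cons (fin 1102 4 909)
(mv 908 (cons (fin 844 7 844)
(mv 1165 (cons (fin 972 7 908)
(fin 1230 4 973)))))))
(mv 846 (cons (fin 910 6 845)
(mv 845 (cons (fin 782 6 781)
(mv 844 (cons (fin 780 7 780)
(fin 908 7 844))))))))))))))))))
(cons (cons (ref 1 0)
(mv 973 (cons (cons (cons (mv 909 (cons (cons (mv 844 (cons (fin 908 7 844)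
(mv 780 (cons (fin 845 7 780)
(mv 910 (cons (fin 846 6 845)
(mv 1164 (cons (fin 1100 5 908)
(mv 1165 (cons (fin 1228 5 972)
(fin 974 6 909)))))))))))
(mv 846 (cons (fin 910 6 845)
(mv 845 (cons (fin 782 6 781)
(mv 1100 (cons (fin 1036 5 844)
(fin 1164 5 908))))))))
(cons (mv 1100 (cons (fin 1164 5 908)
(mv 845 (cons (fin 1036 5 844)
(mv 844 (cons (fin 780 7 780)
(fin 908 7 844)))))))
(cons (mv 844 (cons (fin 908 7 844)
(mv 845 (cons (fin 780 7 780)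
(mv 846 (cons (fin 782 6 781)
(fin 910 6 845)))))))
(mv 846 (cons (fin 910 6 845)
(mv 1164 (cons (fin 1100 5 908)
(mv 908 (cons (fin 844 7 844)
(mv 1165 (cons (fin 972 7 908)
(fin 1228 5 972)))))))))))))
(mv 1165 (cons (cons (mv 972 (cons (fin 908 7 908)
(mv 910 (cons (fin 974 6 909)
(mv 1229 (cons (fin 1036 7 972)
(mv 1228 (cons (fin 1164 5 972)
(fin 1292 5 1036)))))))))
(cons (mv 910 (cons (fin 974 6 909)
(mv 1229 (cons (cons (mv 1228 (cons (fin 1164 5 972)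
(fin 1292 5 1036)))
(mv 1294 (cons (fin 1230 4 1037)
(mv 1293 (cons (fin 1358 4 1101)
(mv 1356 (cons (fin 1292 5 1100)
(mv 1100 (cons (fin 1036 7 1036)
(mv 1357 (cons (fin 1164 7 1100)
(fin 1420 5 1164))))))))))))
(cons (mv 1294 (cons (fin 1230 4 1037)
(mv 1164 (cons (fin 1228 5 972)
(mv 1293 (cons (fin 1358 4 1101)
(mv 1100 (cons (fin 1036 7 1036)
(fin 1357 7 1100)))))))))
(mv 1294 (cons (fin 1230 4 1037)
(mv 1292 (cons (fin 1228 5 1036)
(mv 1293 (cons (fin 1356 5 1100)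
(fin 1358 4 1101))))))))))))
(mv 972 (cons (fin 908 7 908)
(mv 974 (cons (fin 910 6 909)
(mv 1036 (cons (fin 1229 7 972)
(mv 975 (cons (fin 1035 1 971)
(fin 976 1 972)))))))))))
(cons (mv 972 (cons (fin 908 7 908)
(mv 1164 (cons (fin 1228 5 972)
(mv 1229 (cons (fin 1036 7 972)
(mv 1294 (cons (fin 1230 4 1037)
(mv 1293 (cons (fin 1358 4 1101)
(mv 1356 (cons (fin 1292 5 1100)
(mv 1357 (cons (fin 1100 7 1100)
(fin 1420 5 1164)))))))))))))))
(cons (mv 974 (cons (fin 910 6 909)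
(mv 1164 (cons (fin 1228 5 972)
(mv 972 (cons (fin 908 7 908)
(mv 975 (cons (fin 1039 0 972)
(mv 1036 (cons (fin 1035 1 971)
(fin 976 1 972)))))))))))
(mv 972 (cons (fin 908 7 908)
(mv 1103 (cons (cons (mv 910 (cons (fin 974 6 909)
(mv 1164 (cons (fin 1228 5 972)
(mv 1102 (cons (fin 1104 1 1100)
(mv 1163 (cons (fin 1100 1 1099)
(fin 1162 2 1098)))))))))
(mv 1164 (cons (fin 1228 5 972)
(mv 1102 (cons (fin 1104 1 1100)
(mv 1100 (cons (fin 1163 1 1099)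
(fin 1039 2 1036))))))))
(cons (mv 974 (cons (fin 910 6 909)
(mv 975 (cons (fin 1039 0 972)
(mv 912 (cons (fin 911 2 908)
(mv 976 (cons (fin 913 2 909)
(mv 1104 (cons (fin 1167 5 911)
(mv 1169 (cons (fin 1105 4 912)
(mv 1168 (cons (fin 1102 0 1101)
(fin 1233 4 976)))))))))))))))
(cons (mv 974 (cons (fin 910 6 909)
(mv 1228 (cons (fin 1164 5 972)
(mv 1039 (cons (fin 975 0 972)
(mv 1229 (cons (fin 1292 5 1036)
(mv 1230 (cons (fin 1294 4 1037)
(mv 1231 (cons (mv 1167 (cons (fin 1168 2 1164)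
(fin 976 6 975)))
(cons (mv 1296 (cons (fin 1295 0 1228)
(mv 1232 (cons (fin 1297 0 1229)
(mv 1168 (cons (fin 1169 2 1165)
(fin 1104 7 1039)))))))
(mv 1295 (cons (fin 1296 0 1228)
(mv 1167 (cons (fin 976 6 975)
(fin 1104 6 1039))))))))))))))))))
(mv 974 (cons (fin 910 6 909)
(mv 1039 (cons (fin 975 0 972)
(mv 1100 (cons (fin 1102 2 1036)
(mv 1229 (cons (cons (mv 1228 (cons (fin 1164 5 972)
(fin 1292 5 1036)))
(mv 1294 (cons (fin 1230 4 1037)
(mv 1293 (cons (fin 1358 4 1101)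
(mv 1356 (cons (fin 1292 5 1100)
(mv 1357 (cons (fin 1164 7 1100)
(fin 1420 5 1164))))))))))
(cons (mv 1294 (cons (fin 1230 4 1037)
(mv 1292 (cons (fin 1228 5 1036)
(mv 1293 (cons (fin 1356 5 1100)
(fin 1358 4 1101)))))))
(mv 1294 (cons (fin 1230 4 1037)
(mv 1164 (cons (fin 1228 5 972)
(mv 1293 (cons (fin 1357 7 1100)
(fin 1358 4 1101)))))))))))))))))))))))))))
(cons (mv 909 (cons (cons (mv 844 (cons (fin 908 7 844)
(mv 845 (cons (fin 780 7 780)
(mv 1100 (cons (fin 1036 5 844)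
(fin 1164 5 908)))))))
(mv 846 (cons (fin 910 6 845)
(mv 845 (cons (fin 782 6 781)
(mv 844 (cons (fin 780 7 780)
(fin 908 7 844))))))))
(cons (mv 1100 (cons (fin 1164 5 908)
(mv 845 (cons (fin 1036 5 844)
(mv 846 (cons (fin 782 6 781)
(fin 910 6 845)))))))
(mv 1100 (cons (fin 1164 5 908)
(mv 908 (cons (fin 844 7 844)
(mv 910 (cons (fin 846 6 845)
(mv 907 (cons (cons (mv 974 (cons (fin 906 0 906)
(fin 975 0 907)))
(mv 842 (cons (fin 843 3 842)
(mv 841 (cons (fin 906 3 841)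
(mv 971 (cons (fin 970 1 906)
(mv 911 (cons (fin 972 1 907)
(mv 976 (cons (fin 975 0 908)
(mv 847 (cons (fin 848 2 844)
(mv 912 (cons (fin 977 0 909)
(fin 1104 7 847))))))))))))))))
(cons (mv 970 (cons (fin 971 1 906)
(mv 975 (cons (fin 974 0 907)
(mv 842 (cons (fin 843 3 842)
(mv 911 (cons (fin 976 0 908)
(mv 848 (cons (fin 847 2 844)
(mv 912 (cons (fin 972 1 908)
(fin 849 2 845)))))))))))))
(mv 906 (cons (fin 974 0 906)
(mv 842 (cons (fin 841 3 841)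
(fin 843 3 842)))))))))))))))))
(mv 909 (cons (cons (mv 846 (cons (fin 910 6 845)
(mv 845 (cons (fin 782 6 781)
(mv 1100 (cons (fin 1036 5 844)
(fin 1164 5 908)))))))
(mv 910 (cons (fin 846 6 845)
(mv 974 (cons (fin 1165 6 909)
(mv 972 (cons (mv 911 (cons (fin 912 1 908)
(fin 971 2 907)))
(mv 975 (cons (fin 1039 0 972)
(mv 976 (cons (fin 977 3 909)
(fin 1036 1 972))))))))))))
(cons (mv 1100 (cons (fin 1164 5 908)
(mv 845 (cons (fin 1036 5 844)
(mv 780 (cons (fin 844 7 780)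
(mv 781 (cons (fin 716 7 716)
(mv 782 (cons (fin 718 6 717)
(fin 846 6 781)))))))))))
(cons (mv 974 (cons (cons (mv 1100 (cons (fin 1164 5 908)
(mv 845 (cons (fin 1036 5 844)
(mv 780 (cons (fin 844 7 780)
(mv 781 (cons (fin 716 7 716)
(mv 910 (cons (fin 1165 6 909)
(fin 717 4 717)))))))))))
(mv 910 (cons (fin 1165 6 909)
(mv 972 (cons (mv 911 (cons (fin 912 1 908)
(fin 971 2 907)))
(mv 975 (cons (fin 1039 0 972)
(mv 976 (cons (fin 977 3 909)
(fin 1036 1 972))))))))))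
(cons (mv 1100 (cons (fin 1164 5 908)
(mv 845 (cons (fin 1036 5 844)
(mv 780 (cons (fin 844 7 780)
(mv 781 (cons (fin 716 7 716)
(mv 718 (cons (fin 782 6 717)
(mv 717 (cons (fin 654 6 653)
(fin 910 4 717)))))))))))))
(cons (mv 1100 (cons (fin 1164 5 908)
(mv 1036 (cons (fin 845 5 844)
(mv 1035 (cons (fin 1034 2 970)
(mv 975 (cons (fin 972 1 971)
(fin 976 1 972)))))))))
(mv 1164 (cons (fin 1100 5 908)
(mv 1165 (cons (fin 1228 5 972)
(fin 910 6 909)))))))))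
(mv 910 (cons (fin 846 6 845)
(mv 1164 (cons (fin 1100 5 908)
(mv 1165 (cons (fin 1228 5 972)
(fin 974 6 909)))))))))))))
(cons (cons (mv 909 (cons (cons (mv 846 (cons (fin 910 6 845)
(mv 845 (cons (fin 782 6 781)
(mv 844 (cons (fin 780 7 780)
(fin 908 7 844)))))))
(cons (mv 846 (cons (fin 910 6 845)
(mv 845 (cons (fin 782 6 781)
(mv 1036 (cons (fin 1100 5 844)
(mv 781 (cons (fin 972 5 780)
(mv 780 (cons (fin 716 7 716)
(fin 844 7 780)))))))))))
(mv 844 (cons (fin 908 7 844)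
(mv 845 (cons (fin 780 7 780)
(mv 1036 (cons (fin 1100 5 844)
(mv 781 (cons (fin 972 5 780)
(mv 782 (cons (fin 718 6 717)
(fin 846 6 781)))))))))))))
(cons (mv 846 (cons (fin 910 6 845)
(mv 845 (cons (fin 782 6 781)
(mv 1036 (cons (fin 1100 5 844)
(mv 972 (cons (fin 781 5 780)
(mv 1165 (cons (fin 908 7 908)
(fin 1229 7 972)))))))))))
(cons (mv 844 (cons (fin 908 7 844)
(mv 845 (cons (fin 780 7 780)
(mv 1036 (cons (fin 1100 5 844)
(mv 972 (cons (fin 781 5 780)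
(mv 1165 (cons (fin 1229 7 972)
(mv 974 (cons (fin 910 6 909)
(mv 975 (cons (fin 1035 1 971)
(fin 976 1 972)))))))))))))))
(mv 908 (cons (fin 844 7 844)
(mv 910 (cons (fin 846 6 845)
(mv 1165 (cons (fin 972 7 908)
(fin 974 6 909)))))))))))
(mv 909 (cons (cons (mv 1100 (cons (fin 1164 5 908)
(mv 845 (cons (fin 1036 5 844)
(mv 844 (cons (fin 780 7 780)
(fin 908 7 844)))))))
(mv 1100 (cons (fin 1164 5 908)
(mv 845 (cons (fin 1036 5 844)
(mv 780 (cons (fin 844 7 780)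
(mv 781 (cons (fin 716 7 716)
(mv 782 (cons (fin 718 6 717)
(fin 846 6 781))))))))))))
(cons (mv 845 (cons (mv 844 (cons (fin 780 7 780)
(fin 908 7 844)))
(cons (mv 782 (cons (fin 846 6 781)
(mv 781 (cons (fin 718 6 717)
(mv 972 (cons (fin 1036 5 780)
(mv 908 (cons (fin 1165 7 908)
(fin 717 5 716)))))))))
(mv 782 (cons (fin 846 6 781)
(mv 781 (cons (fin 718 6 717)
(mv 780 (cons (fin 716 7 716)
(fin 844 7 780))))))))))
(cons (mv 1165 (cons (mv 1164 (cons (fin 1100 5 908)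
(fin 1228 5 972)))
(cons (mv 972 (cons (fin 908 7 908)
(mv 1036 (cons (fin 1229 7 972)
(mv 845 (cons (fin 781 5 780)
(fin 1100 5 844)))))))
(mv 972 (cons (fin 908 7 908)
(mv 1228 (cons (fin 1164 5 972)
(mv 1229 (cons (fin 1036 7 972)
(fin 1292 5 1036))))))))))
(mv 1164 (cons (fin 1100 5 908)
(mv 908 (cons (fin 844 7 844)
(mv 1165 (cons (fin 972 7 908)
(fin 1228 5 972))))))))))))
(cons (mv 909 (cons (cons (mv 844 (cons (fin 908 7 844)
(mv 780 (cons (fin 845 7 780)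
(mv 910 (cons (fin 846 6 845)
(mv 1164 (cons (fin 1100 5 908)
(mv 1165 (cons (fin 1228 5 972)
(fin 974 6 909)))))))))))
(mv 846 (cons (fin 910 6 845)
(mv 845 (cons (fin 782 6 781)
(mv 844 (cons (fin 780 7 780)
(fin 908 7 844))))))))
(cons (mv 844 (cons (fin 908 7 844)
(mv 845 (cons (fin 780 7 780)
(mv 1100 (cons (fin 1036 5 844)
(fin 1164 5 908)))))))
(cons (mv 1100 (cons (fin 1164 5 908)
(mv 845 (cons (fin 1036 5 844)
(mv 846 (cons (fin 782 6 781)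
(fin 910 6 845)))))))
(mv 910 (cons (fin 846 6 845)
(mv 844 (cons (fin 908 7 844)
(mv 1165 (cons (fin 974 6 909)
(mv 1164 (cons (fin 1100 5 908)
(fin 1228 5 972)))))))))))))
(cons (mv 909 (cons (cons (mv 844 (cons (fin 908 7 844)
(mv 845 (cons (fin 780 7 780)
(mv 846 (cons (fin 782 6 781)
(fin 910 6 845)))))))
(mv 910 (cons (fin 846 6 845)
(mv 974 (cons (fin 1165 6 909)
(mv 972 (cons (mv 911 (cons (fin 912 1 908)
(fin 971 2 907)))
(mv 975 (cons (fin 1039 0 972)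
(mv 976 (cons (fin 977 3 909)
(fin 1036 1 972))))))))))))
(cons (mv 845 (cons (mv 844 (cons (fin 780 7 780)
(fin 908 7 844)))
(cons (mv 782 (cons (fin 846 6 781)
(mv 781 (cons (fin 718 6 717)
(mv 972 (cons (fin 1036 5 780)
(mv 908 (cons (fin 1165 7 908)
(fin 717 5 716)))))))))
(mv 782 (cons (fin 846 6 781)
(mv 781 (cons (fin 718 6 717)
(mv 780 (cons (fin 716 7 716)
(fin 844 7 780))))))))))
(mv 844 (cons (fin 908 7 844)
(mv 845 (cons (fin 780 7 780)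
(mv 974 (cons (cons (cons (mv 910 (cons (fin 1165 6 909)
(mv 842 (cons (fin 843 0 842)
(mv 717 (cons (fin 781 4 717)
(mv 911 (cons (fin 912 3 844)
(mv 972 (cons (fin 971 2 907)
(mv 975 (cons (fin 1039 0 972)
(mv 976 (cons (fin 977 3 909)
(fin 1036 1 972)))))))))))))))
(mv 975 (cons (cons (mv 976 (cons (fin 1036 1 972)
(mv 972 (cons (fin 1039 0 972)
(mv 912 (cons (fin 911 2 908)
(fin 913 2 909)))))))
(mv 976 (cons (fin 1036 1 972)
(mv 912 (cons (fin 913 2 909)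
(mv 1104 (cons (mv 911 (cons (fin 847 7 847)
(fin 1168 7 911)))
(cons (mv 1105 (cons (fin 1169 4 912)
(mv 1103 (cons (fin 1167 5 911)
(mv 848 (cons (fin 1039 5 847)
(mv 785 (cons (fin 849 6 784)
(mv 784 (cons (fin 721 6 720)
(mv 783 (cons (fin 719 7 719)
(fin 847 7 783)))))))))))))
(mv 1103 (cons (fin 1167 5 911)
(mv 848 (cons (fin 1039 5 847)
(mv 785 (cons (fin 849 6 784)
(mv 721 (cons (fin 784 6 720)
(mv 1168 (cons (fin 911 7 911)
(mv 1169 (cons (fin 1102 0 1101)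
(fin 1105 4 912)))))))))))))))))))))
(cons (mv 912 (cons (cons (mv 972 (cons (fin 911 2 908)
(fin 1039 0 972)))
(mv 976 (cons (fin 913 2 909)
(mv 1104 (cons (mv 911 (cons (fin 847 7 847)
(fin 1168 7 911)))
(cons (mv 1105 (cons (fin 1169 4 912)
(mv 1103 (cons (fin 1167 5 911)
(mv 848 (cons (fin 1039 5 847)
(mv 785 (cons (fin 849 6 784)
(mv 784 (cons (fin 721 6 720)
(mv 783 (cons (fin 719 7 719)
(fin 847 7 783)))))))))))))
(mv 1103 (cons (fin 1167 5 911)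
(mv 848 (cons (fin 1039 5 847)
(mv 785 (cons (fin 849 6 784)
(mv 721 (cons (fin 784 6 720)
(mv 1168 (cons (fin 911 7 911)
(mv 1169 (cons (fin 1102 0 1101)
(fin 1105 4 912)))))))))))))))))))
(cons (mv 976 (cons (fin 913 2 909)
(mv 1039 (cons (fin 972 0 972)
(mv 848 (cons (fin 784 5 783)
(fin 1103 5 847)))))))
(mv 911 (cons (fin 972 2 908)
(mv 913 (cons (fin 914 1 910)
(fin 976 2 909))))))))
(cons (mv 972 (cons (fin 1039 0 972)
(mv 1036 (cons (fin 1035 1 971)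
(fin 781 5 780)))))
(mv 976 (cons (fin 1036 1 972)
(mv 912 (cons (fin 913 2 909)
(mv 911 (cons (fin 972 2 908)
(mv 1104 (cons (fin 847 7 847)
(fin 1168 7 911))))))))))))))
(cons (mv 910 (cons (fin 1165 6 909)
(mv 842 (cons (fin 843 0 842)
(mv 781 (cons (fin 717 4 717)
(mv 911 (cons (fin 912 3 844)
(mv 782 (cons (fin 718 6 717)
(mv 972 (cons (fin 971 2 907)
(mv 783 (cons (fin 784 1 780)
(mv 975 (cons (fin 1039 0 972)
(mv 847 (cons (fin 719 5 718)
(fin 976 4 783)))))))))))))))))))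
(mv 910 (cons (fin 1165 6 909)
(mv 842 (cons (fin 843 0 842)
(mv 911 (cons (fin 912 3 844)
(mv 972 (cons (fin 971 2 907)
(mv 975 (cons (fin 1039 0 972)
(mv 976 (cons (fin 977 3 909)
(fin 1036 1 972)))))))))))))))
(cons (cons (mv 910 (cons (fin 1165 6 909)
(mv 842 (cons (fin 843 0 842)
(mv 717 (cons (fin 781 4 717)
(mv 912 (cons (fin 911 3 844)
(mv 976 (cons (cons (mv 975 (cons (fin 977 3 909)
(fin 1036 1 972)))
(mv 1104 (cons (cons (mv 1103 (cons (fin 1167 5 911)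
(mv 848 (cons (fin 1039 5 847)
(mv 849 (cons (fin 785 6 784)
(fin 913 6 848)))))))
(mv 1169 (cons (fin 1105 4 912)
(mv 913 (cons (fin 849 6 848)
(mv 1168 (cons (fin 977 6 912)
(fin 1233 4 976))))))))
(cons (mv 1105 (cons (fin 1169 4 912)
(mv 1103 (cons (fin 1167 5 911)
(mv 848 (cons (fin 1039 5 847)
(mv 783 (cons (fin 847 7 783)
(mv 784 (cons (fin 719 7 719)
(mv 785 (cons (fin 721 6 720)
(fin 849 6 784)))))))))))))
(mv 1103 (cons (fin 1167 5 911)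
(mv 848 (cons (fin 1039 5 847)
(mv 783 (cons (fin 847 7 783)
(mv 719 (cons (fin 784 7 719)
(mv 1102 (cons (fin 1036 3 1036)
(mv 1169 (cons (fin 1168 0 1101)
(fin 1105 4 912)))))))))))))))))
(cons (mv 975 (cons (fin 977 3 909)
(fin 913 2 909)))
(mv 975 (cons (fin 1036 1 972)
(fin 913 2 909))))))))))))))
(mv 910 (cons (fin 1165 6 909)
(mv 842 (cons (fin 843 0 842)
(mv 781 (cons (fin 717 4 717)
(mv 911 (cons (fin 912 3 844)
(mv 972 (cons (fin 971 2 907)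
(fin 1036 5 780))))))))))))
(cons (mv 910 (cons (fin 1165 6 909)
(mv 842 (cons (fin 843 0 842)
(mv 781 (cons (fin 717 4 717)
(mv 718 (cons (fin 782 6 717)
(mv 972 (cons (fin 1036 5 780)
(mv 971 (cons (fin 970 2 906)
(fin 911 2 907)))))))))))))
(mv 910 (cons (fin 1165 6 909)
(mv 842 (cons (fin 843 0 842)
(mv 717 (cons (fin 781 4 717)
(mv 975 (cons (mv 976 (cons (fin 977 3 909)
(fin 1036 1 972)))
(cons (mv 972 (cons (fin 1039 0 972)
(mv 971 (cons (fin 970 2 906)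
(mv 1035 (cons (fin 1034 1 970)
(fin 1036 1 971)))))))
(mv 1039 (cons (fin 972 0 972)
(mv 976 (cons (fin 977 3 909)
(mv 1103 (cons (fin 1167 7 910)
(mv 912 (cons (fin 913 2 909)
(fin 848 5 847)))))))))))))))))))))))))))))
(mv 909 (cons (cons (mv 1100 (cons (fin 1164 5 908)
(mv 844 (cons (fin 908 7 844)
(mv 845 (cons (fin 780 7 780)
(mv 846 (cons (fin 782 6 781)
(fin 910 6 845)))))))))
(mv 910 (cons (fin 846 6 845)
(mv 1164 (cons (fin 1100 5 908)
(mv 1165 (cons (fin 1228 5 972)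
(fin 974 6 909))))))))
(cons (mv 908 (cons (fin 844 7 844)
(mv 1164 (cons (fin 1100 5 908)
(mv 1165 (cons (fin 972 7 908)
(fin 1228 5 972)))))))
(mv 846 (cons (fin 910 6 845)
(mv 845 (cons (fin 782 6 781)
(mv 844 (cons (fin 780 7 780)
(fin 908 7 844))))))))))))))))
(cons (mv 973 (cons (cons (mv 909 (cons (cons (mv 844 (cons (fin 908 7 844)
(mv 780 (cons (fin 845 7 780)
(mv 1102 (cons (fin 1166 4 909)
(mv 846 (cons (fin 910 6 845)
(mv 1100 (cons (fin 1164 5 908)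
(mv 1103 (cons (fin 1039 2 1036)
(mv 1036 (cons (fin 1035 3 1035)
(fin 1104 3 1036)))))))))))))))
(mv 1100 (cons (fin 1164 5 908)
(mv 845 (cons (fin 1036 5 844)
(mv 846 (cons (fin 782 6 781)
(fin 910 6 845))))))))
(cons (mv 1102 (cons (fin 1166 4 909)
(mv 1100 (cons (fin 1164 5 908)
(mv 845 (cons (fin 1036 5 844)
(mv 844 (cons (fin 780 7 780)
(fin 908 7 844)))))))))
(cons (mv 844 (cons (fin 908 7 844)
(mv 780 (cons (fin 845 7 780)
(mv 1166 (cons (fin 1102 4 909)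
(mv 910 (cons (fin 846 6 845)
(mv 1165 (cons (fin 974 6 909)
(fin 1230 4 973)))))))))))
(mv 1102 (cons (fin 1166 4 909)
(mv 1100 (cons (fin 1164 5 908)
(mv 1039 (cons (fin 1103 2 1036)
(mv 844 (cons (fin 908 7 844)
(mv 910 (cons (fin 846 6 845)
(mv 974 (cons (fin 1165 6 909)
(mv 972 (cons (fin 975 0 972)
(mv 911 (cons (fin 912 1 908)
(fin 971 2 907)))))))))))))))))))))
(cons (mv 1165 (cons (cons (mv 1166 (cons (fin 1230 4 973)
(mv 974 (cons (fin 910 6 909)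
(mv 972 (cons (fin 908 7 908)
(mv 975 (cons (fin 1039 0 972)
(mv 1036 (cons (fin 1035 1 971)
(fin 976 1 972)))))))))))
(mv 1166 (cons (fin 1230 4 973)
(mv 910 (cons (fin 974 6 909)
(mv 1167 (cons (cons (mv 1100 (cons (fin 1168 3 1100)
(mv 1099 (cons (fin 1164 3 1099)
(fin 1098 0 1098)))))
(mv 1100 (cons (mv 1099 (cons (fin 1164 3 1099)
(fin 1098 0 1098)))
(cons (mv 1103 (cons (cons (mv 1039 (cons (fin 1102 2 1036)
(mv 1104 (cons (fin 1164 2 1100)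
(mv 976 (cons (fin 912 5 911)
(fin 1231 6 975)))))))
(mv 1104 (cons (fin 1164 2 1100)
(mv 1105 (cons (fin 1106 1 1102)
(mv 1231 (cons (fin 1295 6 1039)
(mv 976 (cons (fin 912 5 911)
(fin 1039 6 975))))))))))
(cons (mv 1039 (cons (fin 1102 2 1036)
(mv 976 (cons (fin 1231 6 975)
(mv 912 (cons (fin 848 5 847)
(fin 975 6 911)))))))
(mv 1104 (cons (fin 1164 2 1100)
(mv 1102 (cons (fin 1036 3 1036)
(fin 1105 1 1101))))))))
(mv 1099 (cons (fin 1098 0 1098)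
(fin 1102 0 1099)))))))
(cons (mv 1168 (cons (cons (mv 1102 (cons (fin 1169 3 1101)
(mv 1232 (cons (fin 1233 0 1165)
(mv 1164 (cons (fin 1231 0 1164)
(mv 1104 (cons (fin 1103 1 1100)
(fin 1105 2 1101)))))))))
(cons (mv 1102 (cons (fin 1169 3 1101)
(mv 1232 (cons (fin 1233 0 1165)
(mv 1164 (cons (fin 1231 0 1164)
(mv 1163 (cons (fin 1162 2 1098)
(fin 1103 2 1099)))))))))
(mv 1232 (cons (fin 1233 0 1165)
(mv 1164 (cons (fin 1231 0 1164)
(mv 1104 (cons (fin 1103 2 1100)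
(fin 1105 2 1101)))))))))
(cons (mv 1104 (cons (fin 1105 2 1101)
(mv 1103 (cons (fin 1164 2 1100)
(mv 1231 (cons (fin 976 5 975)
(fin 1295 6 1039)))))))
(cons (mv 1104 (cons (fin 1105 2 1101)
(mv 1103 (cons (fin 1164 2 1100)
(mv 1102 (cons (fin 1036 3 1036)
(fin 1169 3 1101)))))))
(mv 1232 (cons (fin 1233 0 1165)
(mv 1104 (cons (fin 1105 2 1101)
(mv 1231 (cons (fin 976 5 975)
(fin 1295 5 1039)))))))))))
(mv 1100 (cons (fin 1168 3 1100)
(mv 1099 (cons (fin 1098 0 1098)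
(fin 1102 0 1099)))))))))))))
(cons (mv 972 (cons (fin 908 7 908)
(mv 974 (cons (fin 910 6 909)
(mv 1036 (cons (fin 1229 7 972)
(mv 975 (cons (fin 1035 1 971)
(fin 976 1 972)))))))))
(cons (mv 972 (cons (fin 908 7 908)
(mv 1230 (cons (fin 1166 4 973)
(mv 1229 (cons (fin 1036 7 972)
(fin 1294 4 1037)))))))
(mv 972 (cons (fin 908 7 908)
(mv 974 (cons (fin 910 6 909)
(mv 1166 (cons (fin 1230 4 973)
(mv 1039 (cons (fin 975 0 972)
(mv 1100 (cons (cons (mv 1167 (cons (fin 1168 3 1100)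
(mv 1099 (cons (fin 1164 3 1099)
(fin 1098 0 1098)))))
(mv 1102 (cons (fin 1103 2 1036)
(mv 971 (cons (cons (mv 1098 (cons (fin 1099 0 1098)
(mv 906 (cons (fin 907 3 906)
(mv 970 (cons (fin 905 3 905)
(mv 1034 (cons (fin 1033 1 969)
(fin 1035 1 970)))))))))
(cons (mv 1034 (cons (fin 1035 1 970)
(mv 970 (cons (fin 1033 1 969)
(mv 906 (cons (fin 905 3 905)
(fin 907 3 906)))))))
(mv 906 (cons (fin 907 3 906)
(mv 970 (cons (fin 905 3 905)
(mv 1099 (cons (fin 1098 0 1098)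
(mv 1163 (cons (fin 1162 1 1098)
(fin 1035 7 906)))))))))))
(cons (cons (mv 1098 (cons (fin 1099 0 1098)
(mv 906 (cons (fin 907 3 906)
(mv 970 (cons (fin 905 3 905)
(mv 1034 (cons (fin 1033 1 969)
(mv 1161 (cons (fin 1097 5 905)
(mv 1162 (cons (fin 1225 5 969)
(mv 1163 (cons (fin 1164 2 1097)
(fin 1227 4 970)))))))))))))))
(mv 1034 (cons (fin 1035 1 970)
(mv 970 (cons (fin 1033 1 969)
(mv 1098 (cons (fin 1099 0 1098)
(mv 1162 (cons (fin 907 6 906)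
(mv 1163 (cons (fin 1164 2 1098)
(fin 1227 4 970))))))))))))
(cons (mv 1098 (cons (fin 1099 0 1098)
(mv 1034 (cons (fin 1035 1 970)
(mv 970 (cons (fin 1033 1 969)
(mv 905 (cons (fin 906 3 905)
(mv 969 (cons (fin 904 3 904)
(fin 1162 7 905)))))))))))
(mv 1035 (cons (fin 1034 1 970)
(mv 907 (cons (fin 906 3 906)
(mv 1099 (cons (fin 1098 0 1098)
(fin 1164 4 907))))))))))))))
(cons (mv 1167 (cons (fin 1168 3 1100)
(mv 1103 (cons (fin 1102 2 1036)
(mv 1104 (cons (fin 1164 2 1100)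
(mv 976 (cons (fin 912 5 911)
(fin 1231 6 975)))))))))
(mv 1102 (cons (fin 1103 2 1036)
(mv 1099 (cons (fin 1098 0 1098)
(fin 1167 0 1099))))))))))))))))))))
(mv 909 (cons (cons (mv 844 (cons (fin 908 7 844)
(mv 780 (cons (fin 845 7 780)
(mv 1102 (cons (fin 1166 4 909)
(mv 846 (cons (fin 910 6 845)
(mv 1100 (cons (fin 1164 5 908)
(mv 1103 (cons (fin 1039 2 1036)
(mv 1036 (cons (fin 1035 3 1035)
(fin 1104 3 1036)))))))))))))))
(mv 1100 (cons (fin 1164 5 908)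
(mv 845 (cons (fin 1036 5 844)
(mv 846 (cons (fin 782 6 781)
(fin 910 6 845))))))))
(cons (mv 1102 (cons (fin 1166 4 909)
(mv 844 (cons (fin 908 7 844)
(mv 845 (cons (fin 780 7 780)
(mv 846 (cons (fin 782 6 781)
(fin 910 6 845)))))))))
(cons (mv 1100 (cons (fin 1164 5 908)
(mv 845 (cons (fin 1036 5 844)
(mv 844 (cons (fin 780 7 780)
(fin 908 7 844)))))))
(mv 1102 (cons (fin 1166 4 909)
(mv 846 (cons (fin 910 6 845)
(mv 1100 (cons (fin 1164 5 908)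
(mv 1103 (cons (fin 1039 2 1036)
(mv 1036 (cons (fin 1035 3 1035)
(fin 1104 3 1036)))))))))))))))))
(cons (cons (mv 909 (cons (cons (mv 1100 (cons (fin 1164 5 908)
(mv 845 (cons (fin 1036 5 844)
(mv 846 (cons (fin 782 6 781)
(fin 910 6 845)))))))
(mv 1100 (cons (fin 1164 5 908)
(mv 845 (cons (fin 1036 5 844)
(mv 780 (cons (fin 844 7 780)
(mv 781 (cons (fin 716 7 716)
(mv 782 (cons (fin 718 6 717)
(fin 846 6 781))))))))))))
(cons (mv 1166 (cons (fin 1102 4 909)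
(mv 910 (cons (fin 846 6 845)
(mv 1165 (cons (fin 974 6 909)
(fin 1230 4 973)))))))
(mv 1102 (cons (fin 1166 4 909)
(mv 1100 (cons (fin 1164 5 908)
(mv 1036 (cons (fin 845 5 844)
(mv 1035 (cons (fin 1103 3 1035)
(fin 1034 0 1034))))))))))))
(mv 909 (cons (cons (mv 1102 (cons (fin 1166 4 909)
(mv 1100 (cons (fin 1164 5 908)
(mv 845 (cons (fin 1036 5 844)
(mv 844 (cons (fin 780 7 780)
(fin 908 7 844)))))))))
(mv 1100 (cons (fin 1164 5 908)
(mv 845 (cons (fin 1036 5 844)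
(mv 780 (cons (fin 844 7 780)
(mv 781 (cons (fin 716 7 716)
(mv 782 (cons (fin 718 6 717)
(fin 846 6 781))))))))))))
(cons (mv 1102 (cons (fin 1166 4 909)
(mv 1100 (cons (fin 1164 5 908)
(mv 1036 (cons (fin 845 5 844)
(mv 1035 (cons (fin 1103 3 1035)
(fin 1034 0 1034)))))))))
(mv 908 (cons (fin 844 7 844)
(mv 1166 (cons (fin 1102 4 909)
(mv 1165 (cons (fin 972 7 908)
(fin 1230 4 973)))))))))))
(cons (mv 909 (cons (cons (mv 844 (cons (fin 908 7 844)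
(mv 845 (cons (fin 780 7 780)
(mv 1100 (cons (fin 1036 5 844)
(fin 1164 5 908)))))))
(mv 846 (cons (fin 910 6 845)
(mv 845 (cons (fin 782 6 781)
(mv 1100 (cons (fin 1036 5 844)
(fin 1164 5 908))))))))
(cons (mv 844 (cons (fin 908 7 844)
(mv 845 (cons (fin 780 7 780)
(mv 846 (cons (fin 782 6 781)
(fin 910 6 845)))))))
(mv 910 (cons (fin 846 6 845)
(mv 1100 (cons (fin 1164 5 908)
(mv 974 (cons (fin 1165 6 909)
(mv 908 (cons (fin 844 7 844)
(mv 975 (cons (fin 976 3 908)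
(fin 907 0 907))))))))))))))
(mv 909 (cons (cons (mv 844 (cons (fin 908 7 844)
(mv 780 (cons (fin 845 7 780)
(mv 1166 (cons (fin 1102 4 909)
(mv 910 (cons (fin 846 6 845)
(mv 1165 (cons (fin 974 6 909)
(fin 1230 4 973)))))))))))
(mv 1166 (cons (fin 1102 4 909)
(mv 910 (cons (fin 846 6 845)
(mv 1165 (cons (fin 974 6 909)
(fin 1230 4 973))))))))
(cons (mv 908 (cons (fin 844 7 844)
(mv 1166 (cons (fin 1102 4 909)
(mv 1165 (cons (fin 972 7 908)
(fin 1230 4 973)))))))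
(mv 844 (cons (fin 908 7 844)
(mv 845 (cons (fin 780 7 780)
(mv 846 (cons (fin 782 6 781)
(fin 910 6 845))))))))))))))
(cons (mv 973 (cons (cons (cons (mv 909 (cons (cons (mv 844 (cons (fin 908 7 844)
(mv 780 (cons (fin 845 7 780)
(mv 1102 (cons (fin 1166 4 909)
(mv 846 (cons (fin 910 6 845)
(mv 1100 (cons (fin 1164 5 908)
(mv 1103 (cons (fin 1039 2 1036)
(mv 1036 (cons (fin 1035 3 1035)
(fin 1104 3 1036)))))))))))))))
(mv 1100 (cons (fin 1164 5 908)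
(mv 845 (cons (fin 1036 5 844)
(mv 846 (cons (fin 782 6 781)
(fin 910 6 845))))))))
(cons (mv 1102 (cons (fin 1166 4 909)
(mv 1100 (cons (fin 1164 5 908)
(mv 845 (cons (fin 1036 5 844)
(mv 844 (cons (fin 780 7 780)
(fin 908 7 844)))))))))
(cons (mv 844 (cons (fin 908 7 844)
(mv 780 (cons (fin 845 7 780)
(mv 1166 (cons (fin 1102 4 909)
(mv 910 (cons (fin 846 6 845)
(mv 1165 (cons (fin 974 6 909)
(fin 1230 4 973)))))))))))
(mv 1102 (cons (fin 1166 4 909)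
(mv 1100 (cons (fin 1164 5 908)
(mv 1039 (cons (fin 1103 2 1036)
(mv 844 (cons (fin 908 7 844)
(mv 910 (cons (fin 846 6 845)
(mv 974 (cons (fin 1165 6 909)
(mv 972 (cons (fin 975 0 972)
(mv 911 (cons (fin 912 1 908)
(fin 971 2 907)))))))))))))))))))))
(mv 1165 (cons (cons (mv 972 (cons (fin 908 7 908)
(mv 1164 (cons (fin 1228 5 972)
(mv 974 (cons (fin 910 6 909)
(mv 1166 (cons (fin 1230 4 973)
(mv 975 (cons (fin 1039 0 972)
(mv 1036 (cons (fin 1035 1 971)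
(fin 976 1 972)))))))))))))
(cons (mv 1166 (cons (fin 1230 4 973)
(mv 972 (cons (fin 908 7 908)
(mv 974 (cons (fin 910 6 909)
(mv 975 (cons (fin 1039 0 972)
(mv 1036 (cons (fin 1035 1 971)
(fin 976 1 972)))))))))))
(mv 974 (cons (fin 910 6 909)
(mv 1164 (cons (fin 1228 5 972)
(mv 972 (cons (fin 908 7 908)
(mv 975 (cons (fin 1039 0 972)
(mv 1036 (cons (fin 1035 1 971)
(fin 976 1 972)))))))))))))
(cons (mv 1164 (cons (fin 1228 5 972)
(mv 910 (cons (fin 974 6 909)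
(mv 1166 (cons (fin 1230 4 973)
(mv 1167 (cons (mv 1100 (cons (fin 1099 3 1099)
(fin 1168 3 1100)))
(cons (mv 1231 (cons (fin 1232 0 1164)
(mv 1103 (cons (fin 1104 2 1100)
(mv 1163 (cons (fin 1102 2 1099)
(mv 976 (cons (fin 1039 6 975)
(mv 1098 (cons (fin 1099 3 1098)
(mv 1162 (cons (fin 1097 3 1097)
(mv 1226 (cons (fin 1225 1 1161)
(fin 1227 1 1162)))))))))))))))
(mv 1103 (cons (fin 1104 2 1100)
(mv 1102 (cons (fin 1163 2 1099)
(mv 1100 (cons (fin 1168 3 1100)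
(fin 1039 2 1036))))))))))))))))
(cons (mv 908 (cons (fin 972 7 908)
(mv 1164 (cons (fin 1228 5 972)
(mv 1166 (cons (fin 1230 4 973)
(mv 1167 (cons (mv 1100 (cons (fin 1099 3 1099)
(fin 1168 3 1100)))
(cons (mv 1231 (cons (fin 1232 0 1164)
(mv 1103 (cons (fin 1104 2 1100)
(mv 1163 (cons (fin 1102 2 1099)
(mv 976 (cons (fin 1039 6 975)
(mv 1098 (cons (fin 1099 3 1098)
(mv 1162 (cons (fin 1097 3 1097)
(mv 1226 (cons (fin 1225 1 1161)
(fin 1227 1 1162)))))))))))))))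
(mv 1103 (cons (fin 1104 2 1100)
(mv 1102 (cons (fin 1163 2 1099)
(mv 1100 (cons (fin 1168 3 1100)
(fin 1039 2 1036))))))))))))))))
(mv 908 (cons (fin 972 7 908)
(mv 910 (cons (fin 974 6 909)
(mv 1164 (cons (fin 1228 5 972)
(mv 1166 (cons (fin 1230 4 973)
(mv 1167 (cons (mv 1100 (cons (fin 1099 3 1099)
(fin 1168 3 1100)))
(cons (mv 1231 (cons (fin 1232 0 1164)
(mv 1103 (cons (fin 1104 2 1100)
(mv 1163 (cons (fin 1102 2 1099)
(mv 1226 (cons (fin 1227 1 1162)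
(mv 1162 (cons (fin 1225 1 1161)
(mv 1098 (cons (fin 1097 3 1097)
(fin 1099 3 1098)))))))))))))
(mv 1103 (cons (fin 1104 2 1100)
(mv 1102 (cons (fin 1163 2 1099)
(mv 1168 (cons (fin 1100 3 1100)
(fin 1169 3 1101)))))))))))))))))))))))
(cons (mv 909 (cons (cons (mv 844 (cons (fin 908 7 844)
(mv 780 (cons (fin 845 7 780)
(mv 1102 (cons (fin 1166 4 909)
(mv 846 (cons (fin 910 6 845)
(mv 1100 (cons (fin 1164 5 908)
(mv 1103 (cons (fin 1039 2 1036)
(mv 1036 (cons (fin 1035 3 1035)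
(fin 1104 3 1036)))))))))))))))
(mv 844 (cons (fin 908 7 844)
(mv 845 (cons (fin 780 7 780)
(mv 846 (cons (fin 782 6 781)
(fin 910 6 845))))))))
(cons (mv 1102 (cons (fin 1166 4 909)
(mv 1100 (cons (fin 1164 5 908)
(mv 845 (cons (fin 1036 5 844)
(mv 846 (cons (fin 782 6 781)
(fin 910 6 845)))))))))
(cons (mv 844 (cons (fin 908 7 844)
(mv 780 (cons (fin 845 7 780)
(mv 1102 (cons (fin 1166 4 909)
(mv 1100 (cons (fin 1164 5 908)
(mv 1103 (cons (fin 1039 2 1036)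
(mv 1036 (cons (fin 1035 3 1035)
(fin 1104 3 1036)))))))))))))
(mv 1100 (cons (fin 1164 5 908)
(mv 846 (cons (fin 910 6 845)
(mv 844 (cons (fin 908 7 844)
(mv 1102 (cons (fin 1166 4 909)
(mv 1103 (cons (fin 1039 2 1036)
(mv 1036 (cons (fin 1035 3 1035)
(fin 1104 3 1036)))))))))))))))))
(mv 909 (cons (cons (mv 1100 (cons (fin 1164 5 908)
(mv 845 (cons (fin 1036 5 844)
(mv 846 (cons (fin 782 6 781)
(fin 910 6 845)))))))
(mv 1166 (cons (fin 1102 4 909)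
(mv 910 (cons (fin 846 6 845)
(mv 1165 (cons (fin 974 6 909)
(fin 1230 4 973))))))))
(cons (mv 1102 (cons (fin 1166 4 909)
(mv 1100 (cons (fin 1164 5 908)
(mv 845 (cons (fin 1036 5 844)
(mv 780 (cons (fin 844 7 780)
(mv 781 (cons (fin 716 7 716)
(mv 782 (cons (fin 718 6 717)
(fin 846 6 781)))))))))))))
(mv 1100 (cons (fin 1164 5 908)
(mv 1036 (cons (fin 845 5 844)
(mv 1102 (cons (fin 1166 4 909)
(mv 1035 (cons (fin 1103 3 1035)
(fin 1034 0 1034))))))))))))))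
(cons (cons (mv 909 (cons (cons (mv 844 (cons (fin 908 7 844)
(mv 780 (cons (fin 845 7 780)
(mv 1166 (cons (fin 1102 4 909)
(mv 910 (cons (fin 846 6 845)
(mv 1165 (cons (fin 974 6 909)
(fin 1230 4 973)))))))))))
(cons (mv 1102 (cons (fin 1166 4 909)
(mv 846 (cons (fin 910 6 845)
(mv 845 (cons (fin 782 6 781)
(mv 1036 (cons (fin 1100 5 844)
(mv 781 (cons (fin 972 5 780)
(mv 780 (cons (fin 716 7 716)
(fin 844 7 780)))))))))))))
(mv 844 (cons (fin 908 7 844)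
(mv 845 (cons (fin 780 7 780)
(mv 1102 (cons (fin 1166 4 909)
(mv 782 (cons (fin 846 6 781)
(mv 781 (cons (fin 718 6 717)
(mv 1036 (cons (fin 972 5 780)
(fin 1100 5 844)))))))))))))))
(cons (cons (mv 1102 (cons (fin 1166 4 909)
(mv 846 (cons (fin 910 6 845)
(mv 845 (cons (fin 782 6 781)
(mv 1036 (cons (fin 1100 5 844)
(mv 972 (cons (fin 781 5 780)
(mv 1034 (cons (fin 1035 0 1034)
(mv 908 (cons (fin 1165 7 908)
(mv 907 (cons (fin 906 2 842)
(mv 847 (cons (fin 848 1 844)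
(mv 975 (cons (fin 974 3 907)
(mv 1104 (cons (fin 1103 3 1036)
(mv 911 (cons (fin 1039 4 847)
(mv 976 (cons (fin 912 7 847)
(fin 1168 7 911)))))))))))))))))))))))))))
(mv 844 (cons (fin 908 7 844)
(mv 845 (cons (fin 780 7 780)
(mv 1102 (cons (fin 1166 4 909)
(mv 1036 (cons (fin 1100 5 844)
(mv 972 (cons (fin 781 5 780)
(mv 1035 (cons (fin 1034 0 1034)
(mv 1103 (cons (fin 1104 3 1036)
(mv 974 (cons (fin 975 1 971)
(mv 910 (cons (fin 1165 6 909)
(mv 911 (cons (fin 912 3 844)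
(fin 971 2 907))))))))))))))))))))))
(cons (mv 846 (cons (fin 910 6 845)
(mv 845 (cons (fin 782 6 781)
(mv 844 (cons (fin 780 7 780)
(fin 908 7 844)))))))
(mv 844 (cons (fin 908 7 844)
(mv 1166 (cons (fin 1102 4 909)
(mv 910 (cons (fin 846 6 845)
(mv 1165 (cons (fin 974 6 909)
(fin 1230 4 973)))))))))))))
(mv 909 (cons (cons (mv 1102 (cons (fin 1166 4 909)
(mv 1100 (cons (fin 1164 5 908)
(mv 845 (cons (fin 1036 5 844)
(mv 844 (cons (fin 780 7 780)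
(fin 908 7 844)))))))))
(mv 1102 (cons (fin 1166 4 909)
(mv 1100 (cons (fin 1164 5 908)
(mv 845 (cons (fin 1036 5 844)
(mv 780 (cons (fin 844 7 780)
(mv 781 (cons (fin 716 7 716)
(mv 782 (cons (fin 718 6 717)
(fin 846 6 781))))))))))))))
(cons (mv 1166 (cons (fin 1102 4 909)
(mv 908 (cons (fin 844 7 844)
(mv 1165 (cons (fin 972 7 908)
(fin 1230 4 973)))))))
(cons (mv 1102 (cons (fin 1166 4 909)
(mv 1100 (cons (fin 1164 5 908)
(mv 1036 (cons (fin 845 5 844)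
(mv 1035 (cons (fin 1103 3 1035)
(fin 1034 0 1034)))))))))
(mv 1100 (cons (fin 1164 5 908)
(mv 845 (cons (fin 1036 5 844)
(mv 844 (cons (fin 780 7 780)
(fin 908 7 844))))))))))))
(cons (mv 909 (cons (cons (mv 844 (cons (fin 908 7 844)
(mv 780 (cons (fin 845 7 780)
(mv 910 (cons (fin 846 6 845)
(mv 1164 (cons (fin 1100 5 908)
(mv 1165 (cons (fin 1228 5 972)
(fin 974 6 909)))))))))))
(mv 846 (cons (fin 910 6 845)
(mv 845 (cons (fin 782 6 781)
(mv 1100 (cons (fin 1036 5 844)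
(fin 1164 5 908))))))))
(cons (mv 1100 (cons (fin 1164 5 908)
(mv 845 (cons (fin 1036 5 844)
(mv 844 (cons (fin 780 7 780)
(fin 908 7 844)))))))
(cons (mv 846 (cons (fin 910 6 845)
(mv 845 (cons (fin 782 6 781)
(mv 844 (cons (fin 780 7 780)
(fin 908 7 844)))))))
(mv 844 (cons (fin 908 7 844)
(mv 1164 (cons (fin 1100 5 908)
(mv 910 (cons (fin 846 6 845)
(mv 1165 (cons (fin 1228 5 972)
(fin 974 6 909)))))))))))))
(cons (mv 1165 (cons (cons (mv 908 (cons (fin 972 7 908)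
(mv 909 (cons (fin 844 7 844)
(mv 910 (cons (fin 846 6 845)
(fin 974 6 909)))))))
(mv 1164 (cons (fin 1228 5 972)
(mv 910 (cons (fin 974 6 909)
(mv 909 (cons (fin 846 6 845)
(mv 1166 (cons (fin 1102 4 909)
(fin 1230 4 973))))))))))
(cons (mv 1166 (cons (fin 1230 4 973)
(mv 909 (cons (fin 1102 4 909)
(mv 908 (cons (fin 844 7 844)
(fin 972 7 908)))))))
(mv 1164 (cons (fin 1228 5 972)
(mv 974 (cons (fin 910 6 909)
(mv 1166 (cons (fin 1230 4 973)
(mv 972 (cons (fin 908 7 908)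
(mv 975 (cons (fin 1039 0 972)
(mv 1036 (cons (fin 1035 1 971)
(fin 976 1 972))))))))))))))))
(mv 909 (cons (cons (mv 844 (cons (fin 908 7 844)
(mv 780 (cons (fin 845 7 780)
(mv 1102 (cons (fin 1166 4 909)
(mv 910 (cons (fin 846 6 845)
(mv 1100 (cons (fin 1164 5 908)
(mv 1039 (cons (fin 1103 2 1036)
(mv 974 (cons (fin 1165 6 909)
(mv 972 (cons (fin 975 0 972)
(mv 911 (cons (fin 912 1 908)
(fin 971 2 907)))))))))))))))))))
(mv 846 (cons (fin 910 6 845)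
(mv 782 (cons (fin 845 6 781)
(mv 1166 (cons (fin 1102 4 909)
(mv 1164 (cons (fin 1100 5 908)
(mv 1165 (cons (fin 1228 5 972)
(fin 1230 4 973))))))))))))
(cons (mv 1102 (cons (fin 1166 4 909)
(mv 908 (cons (fin 844 7 844)
(mv 1164 (cons (fin 1100 5 908)
(mv 1165 (cons (fin 972 7 908)
(fin 1228 5 972)))))))))
(cons (mv 844 (cons (fin 908 7 844)
(mv 780 (cons (fin 845 7 780)
(mv 1166 (cons (fin 1102 4 909)
(mv 910 (cons (fin 846 6 845)
(mv 1165 (cons (fin 974 6 909)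
(fin 1230 4 973)))))))))))
(mv 1100 (cons (fin 1164 5 908)
(mv 844 (cons (fin 908 7 844)
(mv 845 (cons (fin 780 7 780)
(mv 846 (cons (fin 782 6 781)
(fin 910 6 845))))))))))))))))))
(mv 1100 (cons (cons (cons (cons (mv 1164 (cons (cons (mv 973 (cons (fin 909 5 908)
(mv 1228 (cons (fin 1165 5 972)
(fin 1036 6 972)))))
(mv 909 (cons (fin 973 5 908)
(mv 1102 (cons (mv 1103 (cons (fin 1163 1 1099)
(fin 1039 2 1036)))
(cons (mv 1099 (cons (cons (mv 1034 (cons (fin 1035 3 1034)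
(mv 1098 (cons (fin 1033 3 1033)
(mv 1162 (cons (fin 1161 1 1097)
(fin 1163 1 1098)))))))
(mv 1166 (cons (fin 1167 0 1099)
(mv 1098 (cons (fin 1165 0 1098)
(mv 1034 (cons (fin 1033 3 1033)
(fin 1035 3 1034))))))))
(cons (mv 1162 (cons (fin 1163 1 1098)
(mv 1098 (cons (fin 1161 1 1097)
(mv 1097 (cons (fin 1036 2 1033)
(fin 1165 0 1097)))))))
(mv 1163 (cons (fin 1162 1 1098)
(mv 1035 (cons (fin 1034 3 1034)
(mv 1166 (cons (fin 1167 0 1099)
(mv 971 (cons (fin 907 4 907)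
(mv 972 (cons (fin 908 6 907)
(mv 906 (cons (fin 970 7 906)
(mv 1227 (cons (fin 1036 5 971)
(mv 1226 (cons (fin 1165 1 1162)
(fin 1290 5 1034))))))))))))))))))))
(mv 1103 (cons (fin 1039 2 1036)
(mv 1036 (cons (fin 1035 3 1035)
(fin 1104 3 1036)))))))))))
(cons (mv 1228 (cons (fin 1292 6 1036)
(mv 1036 (cons (cons (mv 971 (cons (fin 1035 7 971)
(mv 972 (cons (fin 907 7 907)
(mv 1229 (cons (fin 1165 7 972)
(fin 1293 4 1036)))))))
(mv 1229 (cons (fin 1293 4 1036)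
(mv 972 (cons (fin 1165 7 972)
(mv 1227 (cons (fin 1163 5 971)
(fin 1291 5 1035))))))))
(cons (mv 1227 (cons (fin 1291 5 1035)
(mv 972 (cons (fin 1163 5 971)
(mv 971 (cons (fin 907 7 907)
(fin 1035 7 971)))))))
(mv 1035 (cons (fin 971 7 971)
(mv 1102 (cons (fin 1103 3 1035)
(fin 1034 0 1034))))))))))
(cons (mv 1228 (cons (fin 1292 6 1036)
(mv 973 (cons (fin 909 5 908)
(fin 1165 5 972)))))
(mv 973 (cons (fin 909 5 908)
(mv 1228 (cons (fin 1036 6 972)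
(fin 1292 6 1036)))))))))
(mv 1102 (cons (cons (mv 1103 (cons (fin 1039 2 1036)
(mv 1036 (cons (fin 1035 3 1035)
(fin 1104 3 1036)))))
(mv 1099 (cons (cons (mv 1034 (cons (fin 1035 3 1034)
(mv 1098 (cons (fin 1033 3 1033)
(mv 1162 (cons (fin 1161 1 1097)
(fin 1163 1 1098)))))))
(mv 1166 (cons (fin 1167 0 1099)
(mv 1098 (cons (fin 1165 0 1098)
(mv 1162 (cons (fin 1161 1 1097)
(fin 1163 1 1098))))))))
(cons (mv 1166 (cons (fin 1167 0 1099)
(mv 1098 (cons (fin 1165 0 1098)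
(mv 1034 (cons (fin 1033 3 1033)
(fin 1035 3 1034)))))))
(mv 1166 (cons (fin 1167 0 1099)
(mv 1163 (cons (fin 1162 1 1098)
(mv 909 (cons (fin 973 4 909)
(mv 1035 (cons (fin 1034 3 1034)
(mv 971 (cons (cons (mv 906 (cons (fin 970 7 906)
(mv 842 (cons (fin 907 7 842)
(mv 972 (cons (fin 908 6 907)
(mv 1227 (cons (fin 1036 6 971)
(mv 1290 (cons (fin 1226 5 1034)
(mv 1292 (cons (fin 1228 4 1035)
(mv 1291 (cons (fin 1354 5 1098)
(fin 1356 4 1099)))))))))))))))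
(cons (mv 906 (cons (fin 970 7 906)
(mv 907 (cons (fin 842 7 842)
(mv 844 (cons (fin 908 6 843)
(mv 843 (cons (fin 780 6 779)
(fin 1036 4 843)))))))))
(mv 906 (cons (fin 970 7 906)
(mv 907 (cons (fin 842 7 842)
(mv 1036 (cons (fin 843 4 843)
(mv 1227 (cons (fin 972 6 971)
(fin 1291 6 1035)))))))))))
(cons (mv 908 (cons (fin 972 6 907)
(mv 907 (cons (fin 844 6 843)
(mv 910 (cons (fin 970 1 906)
(mv 843 (cons (fin 842 3 842)
(fin 1036 4 843)))))))))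
(cons (mv 908 (cons (fin 972 6 907)
(mv 907 (cons (fin 844 6 843)
(mv 842 (cons (fin 906 7 842)
(mv 843 (cons (fin 910 3 842)
(fin 778 7 778)))))))))
(mv 972 (cons (fin 908 6 907)
(mv 906 (cons (fin 970 7 906)
(mv 1227 (cons (fin 1036 6 971)
(mv 1290 (cons (fin 1226 5 1034)
(mv 1292 (cons (fin 1228 4 1035)
(mv 1291 (cons (fin 1354 5 1098)
(fin 1356 4 1099)))))))))))))))))))))))))))))
(cons (mv 1103 (cons (fin 1039 2 1036)
(mv 1167 (cons (fin 1168 0 1100)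
(mv 1099 (cons (fin 1166 0 1099)
(mv 1162 (cons (fin 1163 1 1098)
(mv 1098 (cons (fin 1161 1 1097)
(mv 1034 (cons (fin 1033 3 1033)
(fin 1035 3 1034)))))))))))))
(mv 1103 (cons (fin 1039 2 1036)
(mv 1036 (cons (fin 1104 3 1036)
(mv 1167 (cons (fin 1168 0 1100)
(mv 1099 (cons (fin 1166 0 1099)
(mv 1098 (cons (fin 1097 2 1033)
(mv 1162 (cons (fin 1161 1 1097)
(fin 1163 1 1098)))))))))))))))))
(cons (mv 1164 (cons (cons (mv 973 (cons (fin 909 5 908)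
(mv 1228 (cons (fin 1165 5 972)
(fin 1036 6 972)))))
(mv 973 (cons (fin 909 5 908)
(mv 972 (cons (cons (mv 908 (cons (fin 1165 7 908)
(mv 844 (cons (fin 780 4 780)
(fin 1036 4 844)))))
(mv 1036 (cons (mv 907 (cons (fin 971 7 907)
(mv 908 (cons (fin 843 7 843)
(fin 844 4 844)))))
(cons (mv 971 (cons (fin 907 7 907)
(mv 1163 (cons (fin 1227 5 971)
(mv 1161 (cons (fin 1162 2 1097)
(mv 970 (cons (fin 969 0 969)
(mv 1034 (cons (fin 1033 1 969)
(mv 905 (cons (fin 906 3 905)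
(mv 974 (cons (fin 1035 1 970)
(mv 975 (cons (fin 976 1 972)
(fin 1039 0 972)))))))))))))))))
(mv 1163 (cons (fin 1227 5 971)
(mv 908 (cons (fin 1099 5 907)
(fin 844 4 844)))))))))
(cons (mv 1036 (cons (cons (mv 907 (cons (fin 971 7 907)
(mv 1165 (cons (fin 1229 7 972)
(mv 910 (cons (fin 974 6 909)
(mv 1163 (cons (fin 1227 5 971)
(mv 1162 (cons (fin 1161 2 1097)
(mv 1225 (cons (fin 1226 1 1161)
(mv 1098 (cons (fin 1097 3 1097)
(mv 1099 (cons (fin 1166 3 1098)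
(mv 1034 (cons (fin 1033 3 1033)
(mv 970 (cons (fin 906 4 906)
(mv 969 (cons (fin 1035 3 969)
(fin 905 7 905)))))))))))))))))))))))
(cons (mv 971 (cons (fin 907 7 907)
(mv 1163 (cons (fin 1227 5 971)
(mv 1161 (cons (fin 1162 2 1097)
(mv 970 (cons (fin 969 0 969)
(mv 1034 (cons (fin 1033 1 969)
(mv 905 (cons (fin 906 3 905)
(mv 974 (cons (fin 1035 1 970)
(mv 975 (cons (fin 976 1 972)
(fin 1039 0 972)))))))))))))))))
(mv 1163 (cons (fin 1227 5 971)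
(mv 1161 (cons (fin 1162 2 1097)
(mv 1165 (cons (fin 1229 7 972)
(mv 974 (cons (fin 910 6 909)
(mv 975 (cons (fin 1035 1 971)
(fin 976 1 972)))))))))))))
(cons (mv 1165 (cons (fin 1229 7 972)
(mv 907 (cons (fin 971 7 907)
(mv 974 (cons (fin 910 6 909)
(mv 975 (cons (fin 1035 1 971)
(fin 976 1 972)))))))))
(cons (mv 1165 (cons (fin 1229 7 972)
(mv 1163 (cons (fin 1227 5 971)
(mv 1161 (cons (fin 1162 2 1097)
(mv 971 (cons (fin 907 7 907)
(mv 970 (cons (fin 969 0 969)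
(mv 1033 (cons (fin 1034 1 969)
(mv 906 (cons (fin 905 3 905)
(mv 1099 (cons (fin 1035 7 906)
(mv 1166 (cons (fin 1098 3 1098)
(fin 1167 3 1099)))))))))))))))))))
(mv 907 (cons (fin 971 7 907)
(mv 1165 (cons (fin 1229 7 972)
(mv 974 (cons (fin 910 6 909)
(mv 975 (cons (fin 976 1 972)
(fin 1039 0 972)))))))))))))
(mv 1165 (cons (fin 908 7 908)
(mv 974 (cons (fin 910 6 909)
(mv 975 (cons (fin 1039 0 972)
(mv 912 (cons (fin 911 2 908)
(mv 976 (cons (fin 913 2 909)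
(mv 1099 (cons (mv 1098 (cons (fin 1097 0 1097)
(fin 1166 0 1098)))
(cons (mv 1167 (cons (fin 1166 3 1099)
(mv 1104 (cons (fin 1103 5 911)
(mv 1168 (cons (fin 1231 5 975)
(mv 1169 (cons (fin 1105 4 912)
(fin 1233 4 976)))))))))
(mv 1098 (cons (fin 1097 0 1097)
(mv 1161 (cons (fin 1162 1 1097)
(mv 1034 (cons (fin 1033 3 1033)
(mv 971 (cons (fin 1035 1 970)
(mv 906 (cons (fin 907 3 906)
(mv 970 (cons (fin 905 3 905)
(fin 1163 4 906))))))))))))))))))))))))))))))))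
(cons (mv 1228 (cons (fin 1292 6 1036)
(mv 1036 (cons (cons (mv 971 (cons (fin 1035 7 971)
(mv 972 (cons (fin 907 7 907)
(mv 1229 (cons (fin 1165 7 972)
(fin 1293 4 1036)))))))
(mv 971 (cons (fin 1035 7 971)
(mv 972 (cons (fin 907 7 907)
(mv 1227 (cons (fin 1163 5 971)
(fin 1291 5 1035))))))))
(cons (mv 1227 (cons (fin 1291 5 1035)
(mv 972 (cons (fin 1163 5 971)
(mv 1229 (cons (fin 1165 7 972)
(fin 1293 4 1036)))))))
(mv 1229 (cons (fin 1293 4 1036)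
(mv 1227 (cons (fin 1291 5 1035)
(mv 1035 (cons (fin 971 7 971)
(mv 1034 (cons (fin 1033 0 1033)
(mv 1098 (cons (fin 1097 1 1033)
(mv 970 (cons (fin 969 3 969)
(mv 1163 (cons (fin 1099 7 970)
(fin 1162 4 970))))))))))))))))))))
(cons (mv 1228 (cons (fin 1292 6 1036)
(mv 973 (cons (fin 909 5 908)
(fin 1165 5 972)))))
(mv 973 (cons (fin 909 5 908)
(mv 1228 (cons (fin 1036 6 972)
(fin 1292 6 1036)))))))))
(mv 1102 (cons (mv 1103 (cons (fin 1039 2 1036)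
(mv 1036 (cons (fin 1035 3 1035)
(fin 1104 3 1036)))))
(cons (mv 1099 (cons (cons (mv 1034 (cons (fin 1035 3 1034)
(mv 1098 (cons (fin 1033 3 1033)
(mv 1162 (cons (fin 1161 1 1097)
(fin 1163 1 1098)))))))
(mv 1166 (cons (fin 1167 0 1099)
(mv 1098 (cons (fin 1165 0 1098)
(mv 1162 (cons (fin 1161 1 1097)
(fin 1163 1 1098))))))))
(cons (mv 1034 (cons (fin 1035 3 1034)
(mv 1098 (cons (fin 1033 3 1033)
(mv 1166 (cons (fin 1165 0 1098)
(fin 1167 0 1099)))))))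
(mv 1035 (cons (fin 1034 3 1034)
(mv 1163 (cons (fin 1162 1 1098)
(mv 1166 (cons (fin 1167 0 1099)
(mv 1227 (cons (mv 1036 (cons (fin 972 6 971)
(fin 1291 6 1035)))
(mv 1226 (cons (fin 1290 5 1034)
(mv 1164 (cons (fin 1165 1 1162)
(mv 971 (cons (fin 907 4 907)
(fin 1228 4 971))))))))))))))))))
(mv 1103 (cons (fin 1039 2 1036)
(mv 1163 (cons (fin 1164 1 1099)
(mv 1099 (cons (fin 1162 1 1098)
(mv 1167 (cons (fin 1166 0 1099)
(fin 1168 0 1100))))))))))))))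
(cons (cons (mv 1164 (cons (cons (mv 973 (cons (fin 909 5 908)
(mv 1228 (cons (fin 1165 5 972)
(fin 1036 6 972)))))
(mv 973 (cons (fin 909 5 908)
(mv 972 (cons (cons (mv 908 (cons (fin 1165 7 908)
(mv 844 (cons (fin 780 4 780)
(fin 1036 4 844)))))
(mv 1036 (cons (mv 907 (cons (fin 971 7 907)
(mv 908 (cons (fin 843 7 843)
(fin 844 4 844)))))
(cons (mv 907 (cons (fin 971 7 907)
(mv 1163 (cons (fin 1227 5 971)
(mv 1162 (cons (fin 1161 2 1097)
(mv 1099 (cons (fin 1102 1 1098)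
(mv 1098 (cons (fin 1097 2 1033)
(mv 1034 (cons (fin 1033 3 1033)
(mv 906 (cons (fin 970 4 906)
(mv 974 (cons (fin 1035 2 970)
(mv 975 (cons (fin 976 1 972)
(fin 1039 0 972)))))))))))))))))))
(mv 1163 (cons (fin 1227 5 971)
(mv 908 (cons (fin 1099 5 907)
(fin 844 4 844)))))))))
(cons (mv 1036 (cons (cons (mv 907 (cons (fin 971 7 907)
(mv 1165 (cons (fin 1229 7 972)
(mv 910 (cons (fin 974 6 909)
(mv 1163 (cons (fin 1227 5 971)
(mv 1162 (cons (fin 1161 2 1097)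
(fin 1102 2 1098)))))))))))
(mv 907 (cons (fin 971 7 907)
(mv 1163 (cons (fin 1227 5 971)
(mv 1162 (cons (fin 1161 2 1097)
(mv 1099 (cons (fin 1102 1 1098)
(mv 1098 (cons (fin 1097 2 1033)
(mv 1034 (cons (fin 1033 3 1033)
(mv 906 (cons (fin 970 4 906)
(mv 974 (cons (fin 1035 2 970)
(mv 975 (cons (fin 976 1 972)
(fin 1039 0 972))))))))))))))))))))
(cons (mv 1163 (cons (fin 1227 5 971)
(mv 1161 (cons (fin 1162 2 1097)
(mv 1165 (cons (fin 1229 7 972)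
(mv 974 (cons (fin 910 6 909)
(mv 975 (cons (fin 1035 1 971)
(fin 976 1 972)))))))))))
(cons (mv 1165 (cons (fin 1229 7 972)
(mv 907 (cons (fin 971 7 907)
(mv 974 (cons (fin 910 6 909)
(mv 975 (cons (fin 1035 1 971)
(fin 976 1 972)))))))))
(mv 1165 (cons (fin 1229 7 972)
(mv 1163 (cons (fin 1227 5 971)
(mv 1162 (cons (fin 1161 2 1097)
(fin 1102 2 1098)))))))))))
(mv 974 (cons (cons (mv 1165 (cons (fin 908 7 908)
(fin 910 6 909)))
(mv 975 (cons (fin 1039 0 972)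
(mv 911 (cons (fin 912 2 908)
(mv 971 (cons (fin 910 2 907)
(mv 907 (cons (fin 906 3 906)
(fin 908 3 907))))))))))
(cons (mv 975 (cons (fin 1039 0 972)
(mv 911 (cons (fin 912 2 908)
(mv 910 (cons (fin 971 2 907)
(fin 1165 6 909)))))))
(mv 908 (cons (fin 1165 7 908)
(mv 975 (cons (fin 907 3 907)
(fin 1039 0 972))))))))))))))
(cons (mv 1228 (cons (fin 1292 6 1036)
(mv 1036 (cons (cons (mv 971 (cons (fin 1035 7 971)
(mv 972 (cons (fin 907 7 907)
(mv 1229 (cons (fin 1165 7 972)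
(fin 1293 4 1036)))))))
(mv 971 (cons (fin 1035 7 971)
(mv 972 (cons (fin 907 7 907)
(mv 1227 (cons (fin 1163 5 971)
(fin 1291 5 1035))))))))
(cons (mv 1227 (cons (fin 1291 5 1035)
(mv 972 (cons (fin 1163 5 971)
(mv 1229 (cons (fin 1165 7 972)
(fin 1293 4 1036)))))))
(mv 1229 (cons (fin 1293 4 1036)
(mv 1035 (cons (fin 971 7 971)
(mv 1034 (cons (fin 1033 0 1033)
(fin 1102 0 1034))))))))))))
(cons (mv 1228 (cons (fin 1292 6 1036)
(mv 973 (cons (fin 909 5 908)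
(fin 1165 5 972)))))
(mv 973 (cons (fin 909 5 908)
(mv 1228 (cons (fin 1036 6 972)
(fin 1292 6 1036)))))))))
(mv 1102 (cons (mv 1103 (cons (fin 1039 2 1036)
(mv 1036 (cons (fin 1035 3 1035)
(fin 1104 3 1036)))))
(cons (mv 1099 (cons (cons (mv 1034 (cons (fin 1035 3 1034)
(mv 1098 (cons (fin 1033 3 1033)
(mv 1162 (cons (fin 1161 1 1097)
(fin 1163 1 1098)))))))
(mv 1166 (cons (fin 1167 0 1099)
(mv 1098 (cons (fin 1165 0 1098)
(mv 1162 (cons (fin 1161 1 1097)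
(fin 1163 1 1098))))))))
(cons (mv 1166 (cons (fin 1167 0 1099)
(mv 1098 (cons (fin 1165 0 1098)
(mv 1034 (cons (fin 1033 3 1033)
(fin 1035 3 1034)))))))
(mv 1166 (cons (fin 1167 0 1099)
(mv 1163 (cons (fin 1162 1 1098)
(mv 909 (cons (fin 973 4 909)
(mv 1035 (cons (fin 1034 3 1034)
(mv 972 (cons (mv 908 (cons (fin 1036 5 907)
(fin 971 6 907)))
(cons (mv 971 (cons (fin 908 6 907)
(mv 906 (cons (fin 970 7 906)
(mv 907 (cons (fin 842 7 842)
(fin 1164 4 907)))))))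
(mv 1227 (cons (fin 1036 6 971)
(mv 1290 (cons (fin 1226 5 1034)
(mv 1291 (cons (fin 1354 5 1098)
(mv 1355 (cons (fin 1164 6 1099)
(mv 1356 (cons (fin 1292 4 1099)
(fin 1420 4 1163)))))))))))))))))))))))))
(mv 1103 (cons (fin 1039 2 1036)
(mv 1163 (cons (fin 1164 1 1099)
(mv 1099 (cons (fin 1162 1 1098)
(mv 1167 (cons (fin 1166 0 1099)
(fin 1168 0 1100)))))))))))))
(cons (mv 1164 (cons (cons (mv 973 (cons (fin 909 5 908)
(mv 1228 (cons (fin 1165 5 972)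
(fin 1036 6 972)))))
(mv 909 (cons (fin 973 5 908)
(mv 1102 (cons (cons (mv 1103 (cons (fin 1163 1 1099)
(mv 1036 (cons (fin 1035 3 1035)
(fin 1104 3 1036)))))
(mv 1099 (cons (cons (mv 1034 (cons (fin 1035 3 1034)
(mv 1098 (cons (fin 1033 3 1033)
(mv 1162 (cons (fin 1161 1 1097)
(fin 1163 1 1098)))))))
(mv 1166 (cons (fin 1167 0 1099)
(mv 1098 (cons (fin 1165 0 1098)
(mv 1034 (cons (fin 1033 3 1033)
(fin 1035 3 1034))))))))
(cons (mv 1162 (cons (fin 1163 1 1098)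
(mv 1098 (cons (fin 1161 1 1097)
(mv 1097 (cons (fin 1036 2 1033)
(fin 1165 0 1097)))))))
(mv 1163 (cons (fin 1162 1 1098)
(mv 1035 (cons (fin 1034 3 1034)
(mv 1166 (cons (fin 1167 0 1099)
(mv 971 (cons (fin 907 4 907)
(mv 972 (cons (fin 908 6 907)
(mv 906 (cons (fin 970 7 906)
(mv 1227 (cons (fin 1036 5 971)
(mv 1226 (cons (fin 1165 1 1162)
(fin 1290 5 1034)))))))))))))))))))))
(cons (mv 1103 (cons (cons (mv 1036 (cons (fin 1035 3 1035)
(fin 1104 3 1036)))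
(mv 1167 (cons (fin 1168 0 1100)
(mv 1099 (cons (fin 1166 0 1099)
(mv 1034 (cons (fin 1035 3 1034)
(mv 1098 (cons (fin 1033 3 1033)
(mv 1165 (cons (fin 1104 1 1100)
(fin 1097 0 1097))))))))))))
(cons (mv 1035 (cons (fin 1036 3 1035)
(mv 1099 (cons (fin 1034 3 1034)
(mv 1167 (cons (fin 1166 0 1099)
(fin 1168 0 1100)))))))
(mv 1104 (cons (fin 1036 3 1036)
(fin 1165 1 1100))))))
(cons (mv 1103 (cons (fin 1163 1 1099)
(mv 1167 (cons (fin 1168 0 1100)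
(mv 1099 (cons (fin 1166 0 1099)
(mv 1034 (cons (fin 1035 3 1034)
(mv 1098 (cons (fin 1033 3 1033)
(mv 1165 (cons (fin 1104 1 1100)
(fin 1097 0 1097)))))))))))))
(mv 1103 (cons (fin 1163 1 1099)
(mv 1104 (cons (fin 1036 3 1036)
(fin 1165 1 1100))))))))))))
(cons (mv 1228 (cons (fin 1292 6 1036)
(mv 1036 (cons (cons (mv 971 (cons (fin 1035 7 971)
(mv 972 (cons (fin 907 7 907)
(mv 1229 (cons (fin 1165 7 972)
(fin 1293 4 1036)))))))
(mv 1229 (cons (fin 1293 4 1036)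
(mv 972 (cons (fin 1165 7 972)
(mv 1227 (cons (fin 1163 5 971)
(fin 1291 5 1035))))))))
(cons (mv 1227 (cons (fin 1291 5 1035)
(mv 972 (cons (fin 1163 5 971)
(mv 971 (cons (fin 907 7 907)
(fin 1035 7 971)))))))
(mv 1035 (cons (fin 971 7 971)
(mv 1102 (cons (fin 1103 3 1035)
(fin 1034 0 1034))))))))))
(cons (mv 1228 (cons (fin 1292 6 1036)
(mv 973 (cons (fin 909 5 908)
(fin 1165 5 972)))))
(mv 973 (cons (fin 909 5 908)
(mv 1228 (cons (fin 1036 6 972)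
(fin 1292 6 1036)))))))))
(cons (mv 1102 (cons (cons (mv 1103 (cons (fin 1039 2 1036)
(mv 1163 (cons (fin 1164 1 1099)
(mv 1099 (cons (fin 1162 1 1098)
(mv 1167 (cons (fin 1166 0 1099)
(fin 1168 0 1100)))))))))
(cons (mv 1099 (cons (cons (mv 1034 (cons (fin 1035 3 1034)
(mv 1098 (cons (fin 1033 3 1033)
(mv 1162 (cons (fin 1161 1 1097)
(fin 1163 1 1098)))))))
(mv 1166 (cons (fin 1167 0 1099)
(mv 1098 (cons (fin 1165 0 1098)
(mv 1034 (cons (fin 1033 3 1033)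
(fin 1035 3 1034))))))))
(cons (mv 1166 (cons (fin 1167 0 1099)
(mv 1098 (cons (fin 1165 0 1098)
(mv 1162 (cons (fin 1161 1 1097)
(fin 1163 1 1098)))))))
(mv 1166 (cons (fin 1167 0 1099)
(mv 1035 (cons (fin 1034 3 1034)
(mv 1163 (cons (fin 1162 1 1098)
(mv 909 (cons (fin 973 4 909)
(mv 1227 (cons (cons (mv 1226 (cons (fin 1290 5 1034)
(mv 1164 (cons (fin 1165 1 1162)
(mv 971 (cons (fin 907 4 907)
(fin 1228 4 971)))))))
(mv 1290 (cons (fin 1226 5 1034)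
(mv 1291 (cons (fin 1354 5 1098)
(mv 1355 (cons (fin 1164 6 1099)
(mv 1356 (cons (fin 1292 4 1099)
(fin 1420 4 1163))))))))))
(cons (mv 1228 (cons (fin 1292 4 1035)
(mv 971 (cons (fin 1164 4 971)
(mv 908 (cons (fin 972 6 907)
(mv 907 (cons (fin 844 6 843)
(mv 906 (cons (fin 842 7 842)
(fin 970 7 906)))))))))))
(mv 1290 (cons (fin 1226 5 1034)
(mv 1292 (cons (fin 1228 4 1035)
(mv 1291 (cons (fin 1354 5 1098)
(fin 1356 4 1099)))))))))))))))))))))
(mv 1103 (cons (fin 1039 2 1036)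
(mv 1167 (cons (fin 1168 0 1100)
(mv 1099 (cons (fin 1166 0 1099)
(mv 1162 (cons (fin 1163 1 1098)
(mv 1098 (cons (fin 1161 1 1097)
(mv 1034 (cons (fin 1033 3 1033)
(fin 1035 3 1034)))))))))))))))
(cons (mv 1103 (cons (fin 1039 2 1036)
(mv 1164 (cons (fin 1163 1 1099)
(mv 1167 (cons (fin 1168 0 1100)
(mv 1228 (cons (fin 1292 6 1036)
(mv 1165 (cons (fin 1104 1 1100)
(fin 973 5 972)))))))))))
(cons (mv 1103 (cons (fin 1039 2 1036)
(mv 1164 (cons (fin 1163 1 1099)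
(mv 1165 (cons (fin 1104 1 1100)
(mv 973 (cons (fin 909 5 908)
(fin 1228 5 972)))))))))
(mv 1103 (cons (fin 1039 2 1036)
(mv 973 (cons (cons (mv 909 (cons (fin 1164 5 908)
(fin 1166 4 909)))
(mv 1104 (cons (mv 1168 (cons (fin 1167 0 1100)
(fin 1169 0 1101)))
(cons (mv 1165 (cons (fin 1164 1 1100)
(mv 1166 (cons (fin 1105 1 1101)
(mv 1099 (cons (fin 1098 0 1098)
(fin 1167 0 1099)))))))
(mv 1165 (cons (fin 1164 1 1100)
(mv 1169 (cons (fin 1168 0 1101)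
(mv 1105 (cons (fin 1166 1 1101)
(fin 1170 0 1102)))))))))))
(cons (mv 1167 (cons (fin 1168 0 1100)
(mv 1166 (cons (fin 1099 0 1099)
(fin 909 4 909)))))
(mv 909 (cons (fin 1164 5 908)
(mv 844 (cons (fin 908 7 844)
(mv 845 (cons (fin 780 7 780)
(mv 846 (cons (fin 782 6 781)
(fin 910 6 845))))))))))))))))))
(mv 1102 (cons (mv 1103 (cons (fin 1039 2 1036)
(mv 1036 (cons (fin 1035 3 1035)
(fin 1104 3 1036)))))
(cons (mv 1099 (cons (cons (mv 1034 (cons (fin 1035 3 1034)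
(mv 1098 (cons (fin 1033 3 1033)
(mv 1162 (cons (fin 1161 1 1097)
(fin 1163 1 1098)))))))
(cons (mv 1166 (cons (fin 1167 0 1099)
(mv 909 (cons (fin 973 4 909)
(mv 1098 (cons (mv 1162 (cons (fin 1161 1 1097)
(fin 1163 1 1098)))
(cons (mv 1097 (cons (fin 1036 2 1033)
(mv 1160 (cons (fin 1161 1 1096)
(mv 1096 (cons (fin 1159 1 1095)
(mv 1032 (cons (fin 1031 3 1031)
(fin 1033 3 1032)))))))))
(mv 1036 (cons (fin 1097 2 1033)
(mv 1163 (cons (fin 1162 1 1098)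
(mv 972 (cons (fin 908 5 907)
(mv 1227 (cons (fin 1164 5 971)
(fin 1035 6 971))))))))))))))))
(mv 1162 (cons (fin 1163 1 1098)
(mv 1098 (cons (fin 1161 1 1097)
(mv 1033 (cons (fin 1034 3 1033)
(mv 1097 (cons (fin 1032 3 1032)
(fin 1036 2 1033)))))))))))
(cons (mv 1166 (cons (fin 1167 0 1099)
(mv 1034 (cons (fin 1035 3 1034)
(mv 1098 (cons (fin 1033 3 1033)
(mv 973 (cons (fin 909 4 909)
(mv 1036 (cons (fin 1097 2 1033)
(mv 1164 (cons (fin 1228 6 972)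
(mv 972 (cons (mv 1163 (cons (fin 908 5 907)
(fin 1227 5 971)))
(cons (mv 907 (cons (fin 971 7 907)
(mv 908 (cons (fin 843 7 843)
(fin 844 4 844)))))
(mv 1163 (cons (fin 1227 5 971)
(mv 970 (cons (fin 906 4 906)
(mv 971 (cons (fin 969 0 969)
(fin 907 7 907))))))))))))))))))))))
(cons (mv 1034 (cons (fin 1035 3 1034)
(mv 1098 (cons (fin 1033 3 1033)
(mv 1166 (cons (fin 1167 0 1099)
(mv 1097 (cons (fin 1036 2 1033)
(mv 1161 (cons (fin 1160 1 1096)
(fin 1162 1 1097)))))))))))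
(mv 1166 (cons (fin 1167 0 1099)
(mv 1163 (cons (fin 1162 1 1098)
(mv 909 (cons (fin 973 4 909)
(mv 1035 (cons (fin 1034 3 1034)
(mv 971 (cons (cons (mv 1164 (cons (fin 907 4 907)
(fin 1228 4 971)))
(mv 906 (cons (fin 970 7 906)
(mv 842 (cons (fin 907 7 842)
(mv 972 (cons (fin 908 6 907)
(mv 1227 (cons (fin 1036 6 971)
(mv 1290 (cons (fin 1226 5 1034)
(mv 1292 (cons (fin 1228 4 1035)
(mv 1291 (cons (fin 1354 5 1098)
(fin 1356 4 1099))))))))))))))))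
(cons (mv 908 (cons (fin 972 6 907)
(mv 907 (cons (fin 844 6 843)
(fin 1164 4 907)))))
(mv 1164 (cons (fin 1228 4 971)
(mv 972 (cons (fin 908 6 907)
(mv 906 (cons (fin 970 7 906)
(mv 1227 (cons (fin 1036 5 971)
(mv 1290 (cons (fin 1226 5 1034)
(mv 1291 (cons (fin 1354 5 1098)
(fin 1355 6 1099))))))))))))))))))))))))))))
(mv 1103 (cons (fin 1039 2 1036)
(mv 1163 (cons (fin 1164 1 1099)
(mv 1099 (cons (fin 1162 1 1098)
(mv 1167 (cons (fin 1166 0 1099)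
(fin 1168 0 1100))))))))))))))))
(cons (cons (cons (mv 973 (cons (cons (mv 909 (cons (fin 1164 5 908)
(mv 845 (cons (fin 1036 5 844)
(mv 844 (cons (fin 780 7 780)
(fin 908 7 844)))))))
(mv 1165 (cons (cons (mv 972 (cons (fin 908 7 908)
(mv 910 (cons (fin 974 6 909)
(mv 1036 (cons (fin 1229 7 972)
(mv 1164 (cons (fin 1228 5 972)
(mv 1163 (cons (fin 1227 5 971)
(mv 1102 (cons (fin 1103 1 1099)
(fin 1162 2 1098)))))))))))))
(mv 972 (cons (fin 908 7 908)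
(mv 974 (cons (fin 910 6 909)
(mv 1036 (cons (fin 1229 7 972)
(mv 975 (cons (fin 1035 1 971)
(fin 976 1 972))))))))))
(cons (mv 1228 (cons (fin 1164 5 972)
(mv 974 (cons (fin 910 6 909)
(mv 1229 (cons (fin 1292 5 1036)
(mv 1036 (cons (fin 1293 7 1036)
(mv 1035 (cons (fin 1034 2 970)
(mv 976 (cons (fin 975 1 972)
(mv 1103 (cons (fin 1102 3 1035)
(mv 912 (cons (cons (mv 848 (cons (fin 1039 5 847)
(mv 783 (cons (fin 847 7 783)
(mv 719 (cons (fin 784 7 719)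
(mv 849 (cons (fin 785 6 784)
(mv 1104 (cons (fin 1167 5 911)
(fin 913 6 848)))))))))))
(mv 848 (cons (fin 1039 5 847)
(mv 783 (cons (fin 847 7 783)
(mv 784 (cons (fin 719 7 719)
(mv 785 (cons (fin 721 6 720)
(fin 849 6 784))))))))))
(cons (mv 1104 (cons (fin 1167 5 911)
(mv 847 (cons (fin 911 7 847)
(mv 1169 (cons (fin 1105 4 912)
(mv 913 (cons (fin 849 6 848)
(mv 1168 (cons (fin 977 6 912)
(fin 1233 4 976)))))))))))
(cons (mv 1104 (cons (fin 1167 5 911)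
(mv 847 (cons (fin 911 7 847)
(mv 848 (cons (fin 783 7 783)
(fin 1039 5 847)))))))
(mv 1104 (cons (fin 1167 5 911)
(mv 848 (cons (fin 1039 5 847)
(mv 849 (cons (fin 785 6 784)
(fin 913 6 848)))))))))))))))))))))))))
(cons (mv 1164 (cons (fin 1228 5 972)
(mv 972 (cons (fin 908 7 908)
(mv 1036 (cons (fin 1229 7 972)
(mv 907 (cons (fin 971 7 907)
(mv 1163 (cons (fin 1227 5 971)
(mv 1102 (cons (fin 1103 1 1099)
(fin 1162 2 1098)))))))))))))
(mv 972 (cons (fin 908 7 908)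
(mv 974 (cons (fin 910 6 909)
(mv 1164 (cons (fin 1228 5 972)
(mv 1039 (cons (fin 975 0 972)
(mv 1103 (cons (fin 1102 2 1036)
(mv 1167 (cons (mv 1166 (cons (fin 1168 3 1100)
(fin 1104 2 1100)))
(cons (mv 976 (cons (fin 1231 6 975)
(mv 912 (cons (fin 848 5 847)
(fin 1104 5 911)))))
(mv 1231 (cons (fin 976 6 975)
(mv 1166 (cons (fin 1168 3 1100)
(fin 1232 0 1164)))))))))))))))))))))))
(cons (mv 909 (cons (cons (mv 845 (cons (fin 1036 5 844)
(mv 844 (cons (fin 780 7 780)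
(fin 908 7 844)))))
(mv 844 (cons (fin 908 7 844)
(mv 846 (cons (fin 910 6 845)
(mv 1102 (cons (fin 1166 4 909)
(mv 1103 (cons (fin 1039 2 1036)
(mv 1036 (cons (fin 1035 3 1035)
(fin 1104 3 1036))))))))))))
(cons (mv 1102 (cons (fin 1166 4 909)
(mv 1039 (cons (fin 1103 2 1036)
(mv 845 (cons (fin 1036 5 844)
(mv 846 (cons (fin 782 6 781)
(fin 910 6 845)))))))))
(mv 844 (cons (fin 908 7 844)
(mv 780 (cons (fin 845 7 780)
(mv 1102 (cons (fin 1166 4 909)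
(mv 1039 (cons (fin 1103 2 1036)
(mv 910 (cons (fin 846 6 845)
(mv 974 (cons (fin 1165 6 909)
(mv 972 (cons (fin 975 0 972)
(mv 911 (cons (fin 912 1 908)
(fin 971 2 907))))))))))))))))))))
(cons (mv 909 (cons (fin 1164 5 908)
(mv 844 (cons (fin 908 7 844)
(mv 780 (cons (fin 845 7 780)
(mv 1102 (cons (fin 1166 4 909)
(mv 1039 (cons (fin 1103 2 1036)
(mv 910 (cons (fin 846 6 845)
(mv 974 (cons (fin 1165 6 909)
(mv 972 (cons (fin 975 0 972)
(mv 911 (cons (fin 912 1 908)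
(fin 971 2 907)))))))))))))))))))
(mv 909 (cons (fin 1164 5 908)
(mv 1102 (cons (fin 1166 4 909)
(mv 1039 (cons (fin 1103 2 1036)
(mv 845 (cons (fin 1036 5 844)
(mv 846 (cons (fin 782 6 781)
(fin 910 6 845)))))))))))))))
(mv 1102 (cons (mv 1103 (cons (fin 1039 2 1036)
(mv 1036 (cons (fin 1035 3 1035)
(fin 1104 3 1036)))))
(cons (mv 1099 (cons (cons (mv 1034 (cons (fin 1035 3 1034)
(mv 1098 (cons (fin 1033 3 1033)
(mv 1162 (cons (fin 1161 1 1097)
(fin 1163 1 1098)))))))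
(mv 1166 (cons (fin 1167 0 1099)
(mv 1098 (cons (fin 1165 0 1098)
(mv 1162 (cons (fin 1161 1 1097)
(fin 1163 1 1098))))))))
(cons (mv 1166 (cons (fin 1167 0 1099)
(mv 1098 (cons (fin 1165 0 1098)
(mv 1034 (cons (fin 1033 3 1033)
(fin 1035 3 1034)))))))
(mv 1166 (cons (fin 1167 0 1099)
(mv 1163 (cons (fin 1162 1 1098)
(mv 1035 (cons (fin 1034 3 1034)
(mv 909 (cons (fin 973 4 909)
(mv 1228 (cons (mv 1164 (cons (fin 1292 7 1035)
(fin 971 4 971)))
(cons (mv 1227 (cons (fin 1292 4 1035)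
(mv 1291 (cons (fin 1036 6 1035)
(mv 1290 (cons (fin 1226 5 1034)
(fin 1354 5 1098)))))))
(mv 971 (cons (fin 1164 4 971)
(mv 906 (cons (fin 970 7 906)
(mv 907 (cons (fin 842 7 842)
(mv 844 (cons (fin 908 6 843)
(mv 843 (cons (fin 780 6 779)
(fin 1036 4 843)))))))))))))))))))))))))
(mv 1103 (cons (fin 1039 2 1036)
(mv 1163 (cons (fin 1164 1 1099)
(mv 1099 (cons (fin 1162 1 1098)
(mv 1167 (cons (fin 1166 0 1099)
(fin 1168 0 1100)))))))))))))
(cons (mv 1164 (cons (cons (mv 973 (cons (fin 909 5 908)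
(mv 1228 (cons (fin 1165 5 972)
(fin 1036 6 972)))))
(mv 1228 (cons (fin 1292 6 1036)
(mv 1036 (cons (cons (mv 1229 (cons (fin 1293 4 1036)
(mv 972 (cons (fin 1165 7 972)
(mv 1227 (cons (fin 1163 5 971)
(fin 1291 5 1035)))))))
(mv 1227 (cons (fin 1291 5 1035)
(mv 972 (cons (fin 1163 5 971)
(mv 908 (cons (fin 844 4 844)
(fin 1165 4 908))))))))
(cons (mv 1229 (cons (fin 1293 4 1036)
(mv 972 (cons (fin 1165 7 972)
(mv 908 (cons (fin 844 4 844)
(mv 907 (cons (fin 843 7 843)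
(fin 971 7 907)))))))))
(cons (mv 1229 (cons (fin 1293 4 1036)
(mv 1227 (cons (fin 1291 5 1035)
(mv 1226 (cons (mv 1165 (cons (fin 1225 2 1161)
(fin 1166 2 1162)))
(cons (mv 1161 (cons (fin 1162 3 1161)
(mv 1225 (cons (fin 1160 3 1160)
(mv 1289 (cons (fin 1288 1 1224)
(fin 1290 1 1225)))))))
(mv 1289 (cons (fin 1290 1 1225)
(mv 1165 (cons (fin 1166 2 1162)
(mv 1162 (cons (fin 1161 3 1161)
(mv 1102 (cons (fin 1163 2 1098)
(mv 1103 (cons (fin 1104 3 1036)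
(fin 1039 2 1036))))))))))))))))))
(mv 1229 (cons (fin 1293 4 1036)
(mv 1227 (cons (fin 1291 5 1035)
(mv 972 (cons (fin 1163 5 971)
(mv 907 (cons (fin 971 7 907)
(mv 908 (cons (fin 843 7 843)
(fin 844 4 844))))))))))))))))))
(cons (mv 973 (cons (fin 909 5 908)
(mv 1163 (cons (cons (mv 1102 (cons (fin 1103 1 1099)
(mv 1162 (cons (fin 1099 1 1098)
(fin 1161 2 1097)))))
(mv 1162 (cons (fin 1161 2 1097)
(mv 1165 (cons (cons (mv 1097 (cons (fin 1098 3 1097)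
(mv 910 (cons (fin 974 6 909)
(mv 908 (cons (fin 972 7 908)
(mv 1226 (cons (fin 1225 1 1161)
(mv 1166 (cons (fin 1227 1 1162)
(mv 1167 (cons (fin 1099 3 1099)
(fin 1168 3 1100)))))))))))))
(mv 1225 (cons (fin 1226 1 1161)
(mv 910 (cons (fin 974 6 909)
(mv 1098 (cons (fin 1097 3 1097)
(mv 1099 (cons (fin 1166 3 1098)
(mv 1034 (cons (fin 1033 3 1033)
(mv 970 (cons (fin 906 4 906)
(fin 1227 4 970))))))))))))))
(cons (mv 908 (cons (fin 972 7 908)
(mv 1226 (cons (fin 1225 1 1161)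
(mv 910 (cons (fin 974 6 909)
(mv 1166 (cons (fin 1227 1 1162)
(mv 1167 (cons (fin 1099 3 1099)
(fin 1168 3 1100)))))))))))
(cons (mv 1097 (cons (fin 1098 3 1097)
(mv 972 (cons (fin 908 7 908)
(mv 1036 (cons (fin 1229 7 972)
(fin 1227 5 971)))))))
(mv 910 (cons (fin 974 6 909)
(mv 1225 (cons (fin 1226 1 1161)
(mv 1098 (cons (fin 1097 3 1097)
(mv 972 (cons (fin 908 7 908)
(mv 1099 (cons (fin 1166 3 1098)
(mv 1034 (cons (fin 1033 3 1033)
(mv 1036 (cons (fin 1229 7 972)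
(mv 971 (cons (fin 907 7 907)
(mv 970 (cons (fin 969 0 969)
(fin 906 4 906))))))))))))))))))))))))))
(cons (mv 1103 (cons (fin 1102 1 1099)
(mv 972 (cons (cons (mv 908 (cons (fin 1165 7 908)
(mv 1036 (cons (fin 1099 5 907)
(fin 1227 5 971)))))
(mv 1165 (cons (fin 908 7 908)
(mv 974 (cons (fin 910 6 909)
(mv 975 (cons (fin 1039 0 972)
(mv 912 (cons (fin 911 2 908)
(mv 976 (cons (fin 913 2 909)
(mv 1167 (cons (fin 1104 5 911)
(mv 1166 (cons (fin 1099 3 1099)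
(fin 1168 3 1100))))))))))))))))
(cons (mv 1036 (cons (fin 1227 5 971)
(mv 908 (cons (fin 1099 5 907)
(fin 844 4 844)))))
(mv 1036 (cons (fin 1227 5 971)
(mv 1165 (cons (fin 1229 7 972)
(mv 974 (cons (fin 910 6 909)
(mv 975 (cons (fin 976 1 972)
(fin 1039 0 972))))))))))))))
(mv 1102 (cons (fin 1103 1 1099)
(mv 1162 (cons (fin 1161 2 1097)
(fin 1165 2 1098))))))))))
(cons (mv 973 (cons (fin 909 5 908)
(mv 1228 (cons (fin 1036 6 972)
(fin 1292 6 1036)))))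
(mv 1228 (cons (fin 1292 6 1036)
(mv 973 (cons (fin 909 5 908)
(fin 1165 5 972)))))))))
(mv 1164 (cons (cons (mv 973 (cons (fin 909 5 908)
(mv 1228 (cons (fin 1165 5 972)
(fin 1036 6 972)))))
(mv 973 (cons (fin 909 5 908)
(mv 1163 (cons (cons (mv 1102 (cons (fin 1103 1 1099)
(mv 1162 (cons (fin 1099 1 1098)
(fin 1161 2 1097)))))
(mv 1162 (cons (fin 1161 2 1097)
(mv 1165 (cons (cons (mv 1097 (cons (fin 1098 3 1097)
(mv 910 (cons (fin 974 6 909)
(mv 908 (cons (fin 972 7 908)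
(mv 1226 (cons (fin 1225 1 1161)
(mv 1166 (cons (fin 1227 1 1162)
(mv 1167 (cons (fin 1099 3 1099)
(fin 1168 3 1100)))))))))))))
(mv 1226 (cons (fin 1225 1 1161)
(mv 910 (cons (fin 974 6 909)
(mv 1097 (cons (fin 1098 3 1097)
(mv 1166 (cons (fin 1227 1 1162)
(mv 1167 (cons (fin 1099 3 1099)
(fin 1168 3 1100))))))))))))
(cons (mv 1225 (cons (fin 1226 1 1161)
(mv 910 (cons (fin 974 6 909)
(mv 972 (cons (fin 908 7 908)
(mv 1036 (cons (fin 1229 7 972)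
(fin 1227 5 971)))))))))
(cons (mv 972 (cons (fin 908 7 908)
(mv 1036 (cons (fin 1229 7 972)
(fin 1227 5 971)))))
(mv 1097 (cons (fin 1098 3 1097)
(mv 1225 (cons (fin 1226 1 1161)
(mv 972 (cons (fin 908 7 908)
(mv 974 (cons (fin 910 6 909)
(mv 1036 (cons (fin 1229 7 972)
(mv 975 (cons (fin 1035 1 971)
(fin 976 1 972))))))))))))))))))))
(cons (mv 1103 (cons (fin 1102 1 1099)
(mv 972 (cons (cons (mv 908 (cons (fin 1165 7 908)
(mv 1036 (cons (fin 1099 5 907)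
(fin 1227 5 971)))))
(mv 1165 (cons (fin 908 7 908)
(mv 974 (cons (fin 910 6 909)
(mv 975 (cons (fin 1039 0 972)
(mv 912 (cons (fin 911 2 908)
(mv 976 (cons (fin 913 2 909)
(mv 1167 (cons (fin 1104 5 911)
(mv 1166 (cons (fin 1099 3 1099)
(fin 1168 3 1100))))))))))))))))
(cons (mv 1036 (cons (fin 1227 5 971)
(mv 908 (cons (fin 1099 5 907)
(fin 844 4 844)))))
(cons (mv 1036 (cons (fin 1227 5 971)
(mv 1165 (cons (fin 1229 7 972)
(mv 910 (cons (fin 974 6 909)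
(mv 971 (cons (fin 907 7 907)
(mv 970 (cons (fin 969 0 969)
(mv 906 (cons (fin 905 3 905)
(mv 1099 (cons (fin 1035 7 906)
(mv 1166 (cons (fin 1098 3 1098)
(fin 1167 3 1099)))))))))))))))))
(mv 1036 (cons (fin 1227 5 971)
(mv 1165 (cons (fin 908 7 908)
(fin 1229 7 972)))))))))))
(mv 1102 (cons (fin 1103 1 1099)
(mv 1162 (cons (fin 1161 2 1097)
(fin 1165 2 1098)))))))))))
(cons (mv 1228 (cons (fin 1292 6 1036)
(mv 1036 (cons (cons (mv 971 (cons (fin 1035 7 971)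
(mv 972 (cons (fin 907 7 907)
(mv 1229 (cons (fin 1165 7 972)
(fin 1293 4 1036)))))))
(mv 971 (cons (fin 1035 7 971)
(mv 972 (cons (fin 907 7 907)
(mv 1227 (cons (fin 1163 5 971)
(fin 1291 5 1035))))))))
(cons (mv 1227 (cons (fin 1291 5 1035)
(mv 972 (cons (fin 1163 5 971)
(mv 1229 (cons (fin 1165 7 972)
(fin 1293 4 1036)))))))
(mv 1229 (cons (fin 1293 4 1036)
(mv 971 (cons (fin 1035 7 971)
(mv 1227 (cons (fin 1291 5 1035)
(mv 1226 (cons (mv 1165 (cons (fin 1225 2 1161)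
(fin 1166 2 1162)))
(cons (mv 1161 (cons (fin 1162 3 1161)
(mv 1225 (cons (fin 1160 3 1160)
(mv 1289 (cons (fin 1288 1 1224)
(fin 1290 1 1225)))))))
(mv 1289 (cons (fin 1290 1 1225)
(mv 1165 (cons (fin 1166 2 1162)
(mv 1162 (cons (fin 1161 3 1161)
(mv 1102 (cons (fin 1163 2 1098)
(mv 1103 (cons (fin 1104 3 1036)
(fin 1039 2 1036)))))))))))))))))))))))))
(cons (mv 1228 (cons (fin 1292 6 1036)
(mv 973 (cons (fin 909 5 908)
(fin 1036 6 972)))))
(mv 973 (cons (fin 909 5 908)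
(mv 1228 (cons (fin 1165 5 972)
(fin 1292 6 1036)))))))))))
(cons (cons (mv 973 (cons (cons (mv 909 (cons (fin 1164 5 908)
(mv 845 (cons (fin 1036 5 844)
(mv 844 (cons (fin 780 7 780)
(fin 908 7 844)))))))
(mv 1165 (cons (cons (mv 972 (cons (fin 908 7 908)
(mv 910 (cons (fin 974 6 909)
(mv 1036 (cons (fin 1229 7 972)
(mv 1164 (cons (fin 1228 5 972)
(mv 971 (cons (fin 907 7 907)
(mv 970 (cons (fin 969 0 969)
(mv 1034 (cons (fin 1033 1 969)
(mv 905 (cons (fin 906 3 905)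
(mv 1035 (cons (fin 1102 0 1034)
(mv 1098 (cons (fin 1097 1 1033)
(mv 1162 (cons (fin 1226 6 970)
(mv 1099 (cons (fin 1161 1 1097)
(fin 1166 0 1098)))))))))))))))))))))))))
(cons (mv 972 (cons (fin 908 7 908)
(mv 974 (cons (fin 910 6 909)
(mv 1036 (cons (fin 1229 7 972)
(mv 975 (cons (fin 1035 1 971)
(fin 976 1 972)))))))))
(mv 1228 (cons (fin 1164 5 972)
(mv 910 (cons (fin 974 6 909)
(mv 1229 (cons (fin 1292 5 1036)
(mv 1102 (cons (cons (mv 1036 (cons (fin 1293 7 1036)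
(mv 1103 (cons (fin 1035 3 1035)
(fin 1104 3 1036)))))
(mv 1293 (cons (fin 1036 7 1036)
(mv 1166 (cons (fin 1357 6 1101)
(mv 1167 (cons (fin 1168 3 1100)
(fin 1099 0 1099))))))))
(cons (mv 1103 (cons (fin 1039 2 1036)
(mv 1167 (cons (fin 1168 0 1100)
(mv 1166 (cons (fin 1099 0 1099)
(mv 1293 (cons (fin 1357 6 1101)
(mv 1226 (cons (fin 1227 2 1162)
(mv 1294 (cons (fin 1358 4 1101)
(mv 1295 (cons (fin 1296 3 1228)
(mv 1104 (cons (fin 1105 1 1101)
(fin 1231 6 1039)))))))))))))))))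
(mv 1103 (cons (fin 1039 2 1036)
(mv 1036 (cons (fin 1035 3 1035)
(fin 1104 3 1036))))))))))))))))
(cons (mv 1164 (cons (fin 1228 5 972)
(mv 972 (cons (fin 908 7 908)
(mv 1036 (cons (fin 1229 7 972)
(mv 971 (cons (fin 907 7 907)
(mv 970 (cons (fin 969 0 969)
(mv 1034 (cons (fin 1033 1 969)
(mv 905 (cons (fin 906 3 905)
(mv 1035 (cons (fin 1102 0 1034)
(mv 1098 (cons (fin 1097 1 1033)
(mv 1162 (cons (fin 1226 6 970)
(mv 1099 (cons (fin 1161 1 1097)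
(fin 1166 0 1098)))))))))))))))))))))))
(cons (mv 972 (cons (fin 908 7 908)
(mv 1164 (cons (fin 1228 5 972)
(mv 974 (cons (fin 910 6 909)
(mv 975 (cons (fin 1039 0 972)
(mv 912 (cons (fin 911 2 908)
(mv 976 (cons (fin 913 2 909)
(mv 1167 (cons (mv 1166 (cons (fin 1099 3 1099)
(fin 1168 3 1100)))
(cons (mv 1104 (cons (fin 1103 5 911)
(mv 1169 (cons (fin 1105 4 912)
(mv 1168 (cons (fin 1231 5 975)
(fin 1233 4 976)))))))
(mv 1103 (cons (fin 1104 5 911)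
(mv 1099 (cons (fin 1166 3 1099)
(mv 1098 (cons (fin 1097 0 1097)
(mv 1161 (cons (fin 1162 1 1097)
(mv 1034 (cons (fin 1033 3 1033)
(mv 1035 (cons (fin 1102 3 1034)
(fin 971 1 970))))))))))))))))))))))))))))
(mv 910 (cons (fin 974 6 909)
(mv 972 (cons (fin 908 7 908)
(mv 1228 (cons (fin 1164 5 972)
(mv 1229 (cons (fin 1036 7 972)
(fin 1292 5 1036))))))))))))))
(cons (mv 909 (cons (cons (mv 845 (cons (fin 1036 5 844)
(mv 844 (cons (fin 780 7 780)
(fin 908 7 844)))))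
(mv 844 (cons (fin 908 7 844)
(mv 846 (cons (fin 910 6 845)
(mv 1102 (cons (fin 1166 4 909)
(mv 1103 (cons (fin 1039 2 1036)
(mv 1036 (cons (fin 1035 3 1035)
(fin 1104 3 1036))))))))))))
(cons (mv 1102 (cons (fin 1166 4 909)
(mv 1039 (cons (fin 1103 2 1036)
(mv 845 (cons (fin 1036 5 844)
(mv 846 (cons (fin 782 6 781)
(fin 910 6 845)))))))))
(mv 844 (cons (fin 908 7 844)
(mv 780 (cons (fin 845 7 780)
(mv 1102 (cons (fin 1166 4 909)
(mv 1039 (cons (fin 1103 2 1036)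
(mv 910 (cons (fin 846 6 845)
(mv 974 (cons (fin 1165 6 909)
(mv 972 (cons (fin 975 0 972)
(mv 911 (cons (fin 912 1 908)
(fin 971 2 907))))))))))))))))))))
(cons (mv 909 (cons (fin 1164 5 908)
(mv 844 (cons (fin 908 7 844)
(mv 780 (cons (fin 845 7 780)
(mv 1102 (cons (fin 1166 4 909)
(mv 1039 (cons (fin 1103 2 1036)
(mv 910 (cons (fin 846 6 845)
(mv 974 (cons (fin 1165 6 909)
(mv 972 (cons (fin 975 0 972)
(mv 911 (cons (fin 912 1 908)
(fin 971 2 907)))))))))))))))))))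
(mv 909 (cons (fin 1164 5 908)
(mv 1102 (cons (fin 1166 4 909)
(mv 1039 (cons (fin 1103 2 1036)
(mv 845 (cons (fin 1036 5 844)
(mv 846 (cons (fin 782 6 781)
(fin 910 6 845)))))))))))))))
(mv 1164 (cons (cons (mv 973 (cons (fin 909 5 908)
(mv 1228 (cons (fin 1165 5 972)
(fin 1036 6 972)))))
(mv 973 (cons (fin 909 5 908)
(mv 972 (cons (cons (mv 908 (cons (fin 1165 7 908)
(mv 844 (cons (fin 780 4 780)
(fin 1036 4 844)))))
(mv 1036 (cons (mv 907 (cons (fin 971 7 907)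
(mv 908 (cons (fin 843 7 843)
(fin 844 4 844)))))
(cons (mv 971 (cons (fin 907 7 907)
(mv 1163 (cons (fin 1227 5 971)
(mv 1102 (cons (fin 1103 1 1099)
(mv 1034 (cons (fin 1035 0 1034)
(mv 970 (cons (fin 1033 1 969)
(fin 969 0 969)))))))))))
(mv 1163 (cons (fin 1227 5 971)
(mv 908 (cons (fin 1099 5 907)
(fin 844 4 844)))))))))
(cons (mv 1036 (cons (cons (mv 907 (cons (fin 971 7 907)
(mv 1165 (cons (fin 1229 7 972)
(mv 974 (cons (fin 910 6 909)
(mv 975 (cons (fin 1035 1 971)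
(fin 976 1 972)))))))))
(mv 971 (cons (fin 907 7 907)
(mv 1163 (cons (fin 1227 5 971)
(mv 1102 (cons (fin 1103 1 1099)
(mv 1034 (cons (fin 1035 0 1034)
(mv 970 (cons (fin 1033 1 969)
(fin 969 0 969))))))))))))
(cons (mv 1163 (cons (fin 1227 5 971)
(mv 1102 (cons (fin 1103 1 1099)
(mv 1034 (cons (fin 1035 0 1034)
(mv 1165 (cons (fin 1229 7 972)
(mv 974 (cons (fin 910 6 909)
(mv 975 (cons (fin 976 1 972)
(fin 1039 0 972)))))))))))))
(mv 1165 (cons (fin 1229 7 972)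
(mv 907 (cons (fin 971 7 907)
(mv 1163 (cons (fin 1227 5 971)
(mv 1102 (cons (fin 1103 1 1099)
(mv 974 (cons (fin 910 6 909)
(mv 975 (cons (fin 976 1 972)
(fin 1039 0 972))))))))))))))))
(mv 1165 (cons (fin 908 7 908)
(mv 974 (cons (fin 910 6 909)
(mv 975 (cons (fin 1039 0 972)
(mv 912 (cons (fin 911 2 908)
(mv 976 (cons (fin 913 2 909)
(mv 1167 (cons (mv 1166 (cons (fin 1099 3 1099)
(fin 1168 3 1100)))
(cons (mv 1103 (cons (fin 1104 5 911)
(mv 1102 (cons (fin 1163 1 1099)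
(fin 1168 0 1100)))))
(mv 1103 (cons (fin 1104 5 911)
(mv 1102 (cons (fin 1163 1 1099)
(mv 1099 (cons (fin 1166 3 1099)
(mv 1034 (cons (fin 1035 3 1034)
(mv 1098 (cons (fin 1033 3 1033)
(fin 1097 0 1097))))))))))))))))))))))))))))))
(cons (mv 1228 (cons (fin 1292 6 1036)
(mv 1036 (cons (cons (mv 971 (cons (fin 1035 7 971)
(mv 972 (cons (fin 907 7 907)
(mv 1229 (cons (fin 1165 7 972)
(fin 1293 4 1036)))))))
(mv 1229 (cons (fin 1293 4 1036)
(mv 972 (cons (fin 1165 7 972)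
(mv 1227 (cons (fin 1163 5 971)
(fin 1291 5 1035))))))))
(cons (mv 1227 (cons (fin 1291 5 1035)
(mv 972 (cons (fin 1163 5 971)
(mv 971 (cons (fin 907 7 907)
(fin 1035 7 971)))))))
(mv 1035 (cons (fin 971 7 971)
(mv 1102 (cons (fin 1103 3 1035)
(fin 1034 0 1034))))))))))
(cons (mv 1228 (cons (fin 1292 6 1036)
(mv 973 (cons (fin 909 5 908)
(fin 1165 5 972)))))
(mv 973 (cons (fin 909 5 908)
(mv 1228 (cons (fin 1036 6 972)
(fin 1292 6 1036))))))))))
(cons (mv 1164 (cons (cons (mv 973 (cons (fin 909 5 908)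
(mv 1228 (cons (fin 1165 5 972)
(fin 1036 6 972)))))
(cons (mv 973 (cons (fin 909 5 908)
(mv 1163 (cons (cons (mv 1102 (cons (fin 1103 1 1099)
(mv 1162 (cons (fin 1099 1 1098)
(fin 1161 2 1097)))))
(mv 1162 (cons (fin 1161 2 1097)
(mv 1165 (cons (cons (mv 1097 (cons (fin 1098 3 1097)
(mv 910 (cons (fin 974 6 909)
(mv 908 (cons (fin 972 7 908)
(mv 1226 (cons (fin 1225 1 1161)
(mv 1166 (cons (fin 1227 1 1162)
(mv 1167 (cons (fin 1099 3 1099)
(fin 1168 3 1100)))))))))))))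
(mv 1225 (cons (fin 1226 1 1161)
(mv 910 (cons (fin 974 6 909)
(mv 1098 (cons (fin 1097 3 1097)
(mv 1099 (cons (fin 1166 3 1098)
(mv 1034 (cons (fin 1033 3 1033)
(mv 970 (cons (fin 906 4 906)
(fin 1227 4 970))))))))))))))
(cons (mv 908 (cons (fin 972 7 908)
(mv 1226 (cons (fin 1225 1 1161)
(mv 910 (cons (fin 974 6 909)
(mv 1166 (cons (fin 1227 1 1162)
(mv 1167 (cons (fin 1099 3 1099)
(fin 1168 3 1100)))))))))))
(cons (mv 1097 (cons (fin 1098 3 1097)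
(mv 972 (cons (fin 908 7 908)
(mv 1036 (cons (fin 1229 7 972)
(fin 1227 5 971)))))))
(mv 910 (cons (fin 974 6 909)
(mv 1225 (cons (fin 1226 1 1161)
(mv 1098 (cons (fin 1097 3 1097)
(mv 972 (cons (fin 908 7 908)
(mv 1099 (cons (fin 1166 3 1098)
(mv 1034 (cons (fin 1033 3 1033)
(mv 1036 (cons (fin 1229 7 972)
(mv 970 (cons (fin 906 4 906)
(mv 969 (cons (fin 1035 3 969)
(fin 905 7 905))))))))))))))))))))))))))
(cons (mv 1103 (cons (fin 1102 1 1099)
(mv 972 (cons (cons (mv 908 (cons (fin 1165 7 908)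
(mv 1036 (cons (fin 1099 5 907)
(fin 1227 5 971)))))
(mv 1165 (cons (fin 908 7 908)
(mv 974 (cons (fin 910 6 909)
(mv 975 (cons (fin 1039 0 972)
(mv 912 (cons (fin 911 2 908)
(mv 976 (cons (fin 913 2 909)
(mv 1167 (cons (fin 1104 5 911)
(mv 1166 (cons (fin 1099 3 1099)
(fin 1168 3 1100))))))))))))))))
(cons (mv 1036 (cons (fin 1227 5 971)
(mv 908 (cons (fin 1099 5 907)
(fin 844 4 844)))))
(mv 1036 (cons (fin 1227 5 971)
(mv 1165 (cons (fin 1229 7 972)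
(mv 974 (cons (fin 910 6 909)
(mv 975 (cons (fin 1035 1 971)
(fin 976 1 972))))))))))))))
(mv 1102 (cons (fin 1103 1 1099)
(mv 1162 (cons (fin 1161 2 1097)
(fin 1165 2 1098))))))))))
(mv 1228 (cons (fin 1292 6 1036)
(mv 1036 (cons (cons (mv 1227 (cons (fin 1291 5 1035)
(mv 972 (cons (fin 1163 5 971)
(mv 1229 (cons (fin 1165 7 972)
(fin 1293 4 1036)))))))
(cons (mv 1227 (cons (fin 1291 5 1035)
(mv 972 (cons (fin 1163 5 971)
(mv 908 (cons (fin 844 4 844)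
(fin 1165 4 908)))))))
(mv 1229 (cons (fin 1293 4 1036)
(mv 972 (cons (fin 1165 7 972)
(mv 908 (cons (fin 844 4 844)
(mv 845 (cons (fin 909 6 844)
(mv 1099 (cons (fin 1163 5 907)
(mv 1098 (cons (fin 1097 2 1033)
(mv 843 (cons (fin 907 7 843)
(mv 1034 (cons (fin 1033 3 1033)
(mv 1161 (cons (fin 1162 1 1097)
(mv 1102 (cons (fin 1035 3 1034)
(mv 1103 (cons (fin 1104 3 1036)
(fin 1039 2 1036)))))))))))))))))))))))))
(cons (mv 1229 (cons (fin 1293 4 1036)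
(mv 1227 (cons (fin 1291 5 1035)
(mv 1226 (cons (mv 1165 (cons (fin 1225 2 1161)
(fin 1166 2 1162)))
(cons (mv 1161 (cons (fin 1162 3 1161)
(mv 1225 (cons (fin 1160 3 1160)
(mv 1289 (cons (fin 1288 1 1224)
(fin 1290 1 1225)))))))
(mv 1289 (cons (fin 1290 1 1225)
(mv 1165 (cons (fin 1166 2 1162)
(mv 1162 (cons (fin 1161 3 1161)
(mv 1102 (cons (fin 1163 2 1098)
(mv 1103 (cons (fin 1035 3 1035)
(fin 1104 3 1036))))))))))))))))))
(cons (mv 1227 (cons (fin 1291 5 1035)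
(mv 1163 (cons (fin 972 5 971)
(mv 1229 (cons (fin 1293 4 1036)
(mv 1162 (cons (fin 1161 2 1097)
(mv 1102 (cons (fin 1099 1 1098)
(fin 1103 1 1099)))))))))))
(mv 1229 (cons (fin 1293 4 1036)
(mv 1165 (cons (fin 972 7 972)
(mv 1227 (cons (fin 1291 5 1035)
(mv 1166 (cons (fin 1167 1 1163)
(fin 1226 2 1162)))))))))))))))))
(cons (mv 1228 (cons (fin 1292 6 1036)
(mv 973 (cons (fin 1165 5 972)
(fin 1036 6 972)))))
(cons (mv 1228 (cons (fin 1292 6 1036)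
(mv 973 (cons (fin 909 5 908)
(fin 1036 6 972)))))
(mv 973 (cons (fin 909 5 908)
(mv 1228 (cons (fin 1165 5 972)
(fin 1292 6 1036)))))))))
(cons (mv 1164 (cons (cons (mv 973 (cons (fin 909 5 908)
(mv 1228 (cons (fin 1165 5 972)
(fin 1036 6 972)))))
(mv 973 (cons (fin 909 5 908)
(mv 1163 (cons (cons (mv 1102 (cons (fin 1103 1 1099)
(mv 1162 (cons (fin 1099 1 1098)
(fin 1161 2 1097)))))
(mv 1162 (cons (fin 1161 2 1097)
(mv 1165 (cons (cons (mv 1097 (cons (fin 1098 3 1097)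
(mv 910 (cons (fin 974 6 909)
(mv 908 (cons (fin 972 7 908)
(mv 1226 (cons (fin 1225 1 1161)
(mv 1166 (cons (fin 1227 1 1162)
(mv 1167 (cons (fin 1099 3 1099)
(fin 1168 3 1100)))))))))))))
(mv 1225 (cons (fin 1226 1 1161)
(mv 910 (cons (fin 974 6 909)
(mv 1098 (cons (fin 1097 3 1097)
(mv 1099 (cons (fin 1166 3 1098)
(mv 1034 (cons (fin 1033 3 1033)
(mv 970 (cons (fin 906 4 906)
(fin 1227 4 970))))))))))))))
(cons (mv 908 (cons (fin 972 7 908)
(mv 1226 (cons (fin 1225 1 1161)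
(mv 910 (cons (fin 974 6 909)
(mv 1166 (cons (fin 1227 1 1162)
(mv 1167 (cons (fin 1099 3 1099)
(fin 1168 3 1100)))))))))))
(cons (mv 1097 (cons (fin 1098 3 1097)
(mv 972 (cons (fin 908 7 908)
(mv 1036 (cons (fin 1229 7 972)
(fin 1227 5 971)))))))
(mv 910 (cons (fin 974 6 909)
(mv 1225 (cons (fin 1226 1 1161)
(mv 1098 (cons (fin 1097 3 1097)
(mv 972 (cons (fin 908 7 908)
(mv 1099 (cons (fin 1166 3 1098)
(mv 1034 (cons (fin 1033 3 1033)
(mv 1036 (cons (fin 1229 7 972)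
(mv 970 (cons (fin 906 4 906)
(mv 969 (cons (fin 1035 3 969)
(fin 971 0 969))))))))))))))))))))))))))
(cons (mv 1103 (cons (fin 1102 1 1099)
(mv 972 (cons (cons (mv 908 (cons (fin 1165 7 908)
(mv 1036 (cons (fin 1099 5 907)
(fin 1227 5 971)))))
(mv 1165 (cons (fin 908 7 908)
(mv 974 (cons (fin 910 6 909)
(mv 975 (cons (fin 1039 0 972)
(mv 912 (cons (fin 911 2 908)
(mv 976 (cons (fin 913 2 909)
(mv 1167 (cons (fin 1104 5 911)
(mv 1166 (cons (fin 1099 3 1099)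
(fin 1168 3 1100))))))))))))))))
(cons (mv 1036 (cons (fin 1227 5 971)
(mv 908 (cons (fin 1099 5 907)
(fin 844 4 844)))))
(mv 1036 (cons (fin 1227 5 971)
(mv 1165 (cons (fin 1229 7 972)
(mv 974 (cons (fin 910 6 909)
(mv 975 (cons (fin 1035 1 971)
(fin 976 1 972))))))))))))))
(mv 1102 (cons (fin 1103 1 1099)
(mv 1162 (cons (fin 1161 2 1097)
(fin 1165 2 1098)))))))))))
(cons (mv 1228 (cons (fin 1292 6 1036)
(mv 1036 (cons (cons (mv 971 (cons (fin 1035 7 971)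
(mv 1229 (cons (fin 1293 4 1036)
(mv 972 (cons (fin 1165 7 972)
(mv 1227 (cons (fin 1163 5 971)
(fin 1291 5 1035)))))))))
(mv 1227 (cons (fin 1291 5 1035)
(mv 972 (cons (fin 1163 5 971)
(mv 1229 (cons (fin 1165 7 972)
(fin 1293 4 1036))))))))
(cons (mv 971 (cons (fin 1035 7 971)
(mv 1227 (cons (fin 1291 5 1035)
(mv 972 (cons (fin 1163 5 971)
(mv 908 (cons (fin 844 4 844)
(fin 1165 4 908)))))))))
(cons (mv 1229 (cons (fin 1293 4 1036)
(mv 972 (cons (fin 1165 7 972)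
(mv 844 (cons (fin 908 4 844)
(mv 1035 (cons (fin 971 7 971)
(mv 1102 (cons (fin 1103 3 1035)
(fin 1034 0 1034)))))))))))
(mv 1035 (cons (fin 971 7 971)
(mv 1102 (cons (fin 1103 3 1035)
(fin 1034 0 1034)))))))))))
(cons (mv 1228 (cons (fin 1292 6 1036)
(mv 973 (cons (fin 909 5 908)
(fin 1165 5 972)))))
(mv 973 (cons (fin 909 5 908)
(mv 1228 (cons (fin 1036 6 972)
(fin 1292 6 1036)))))))))
(mv 1164 (cons (cons (mv 973 (cons (fin 909 5 908)
(mv 1228 (cons (fin 1165 5 972)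
(fin 1036 6 972)))))
(cons (mv 1228 (cons (fin 1292 6 1036)
(mv 1036 (cons (cons (mv 971 (cons (fin 1035 7 971)
(mv 972 (cons (fin 907 7 907)
(mv 1229 (cons (fin 1165 7 972)
(fin 1293 4 1036)))))))
(mv 1229 (cons (fin 1293 4 1036)
(mv 972 (cons (fin 1165 7 972)
(mv 908 (cons (fin 844 4 844)
(mv 907 (cons (fin 843 7 843)
(fin 971 7 907))))))))))
(cons (mv 971 (cons (fin 1035 7 971)
(mv 972 (cons (fin 907 7 907)
(mv 908 (cons (fin 844 4 844)
(fin 1165 4 908)))))))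
(cons (mv 1229 (cons (fin 1293 4 1036)
(mv 972 (cons (fin 1165 7 972)
(mv 908 (cons (fin 844 4 844)
(mv 845 (cons (fin 909 6 844)
(mv 1099 (cons (fin 1163 5 907)
(mv 1098 (cons (fin 1097 2 1033)
(mv 843 (cons (fin 907 7 843)
(mv 1034 (cons (fin 1033 3 1033)
(mv 1161 (cons (fin 1162 1 1097)
(mv 1102 (cons (fin 1035 3 1034)
(mv 1103 (cons (fin 1104 3 1036)
(fin 1039 2 1036)))))))))))))))))))))))
(mv 1229 (cons (fin 1293 4 1036)
(mv 1035 (cons (fin 971 7 971)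
(mv 1102 (cons (fin 1103 3 1035)
(fin 1034 0 1034)))))))))))))
(mv 909 (cons (fin 973 5 908)
(mv 1102 (cons (mv 1103 (cons (fin 1163 1 1099)
(fin 1039 2 1036)))
(cons (mv 1099 (cons (cons (mv 1034 (cons (fin 1035 3 1034)
(mv 1098 (cons (fin 1033 3 1033)
(mv 1162 (cons (fin 1161 1 1097)
(fin 1163 1 1098)))))))
(mv 1166 (cons (fin 1167 0 1099)
(mv 1098 (cons (fin 1165 0 1098)
(mv 1034 (cons (fin 1033 3 1033)
(fin 1035 3 1034))))))))
(cons (mv 1162 (cons (fin 1163 1 1098)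
(mv 1098 (cons (fin 1161 1 1097)
(mv 1097 (cons (fin 1036 2 1033)
(fin 1165 0 1097)))))))
(mv 1163 (cons (fin 1162 1 1098)
(mv 1035 (cons (fin 1034 3 1034)
(mv 1166 (cons (fin 1167 0 1099)
(mv 971 (cons (fin 907 4 907)
(mv 972 (cons (fin 908 6 907)
(mv 970 (cons (fin 906 7 906)
(mv 969 (cons (fin 1036 0 969)
(mv 1032 (cons (fin 1033 1 968)
(mv 968 (cons (fin 1031 1 967)
(mv 904 (cons (fin 903 3 903)
(fin 905 3 904))))))))))))))))))))))))
(mv 1103 (cons (fin 1039 2 1036)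
(mv 1036 (cons (fin 1035 3 1035)
(fin 1104 3 1036))))))))))))
(cons (mv 1228 (cons (fin 1292 6 1036)
(mv 973 (cons (fin 1165 5 972)
(fin 1036 6 972)))))
(cons (mv 1228 (cons (fin 1292 6 1036)
(mv 973 (cons (fin 909 5 908)
(fin 1165 5 972)))))
(mv 973 (cons (fin 909 5 908)
(mv 1228 (cons (fin 1036 6 972)
(fin 1292 6 1036)))))))))))))))))))))
def l106 : Lem := ⟨13254031944712882724506621310649321556018620670345837899455453023597314721787975009848330616026462815765143756135158089473467252075149308743152655366187148242124071246428482498451210046760672027239036899891323305324899173507745103325308665813954110541579506451753178596634830548552232523722901151470534797188661248, 34219149912809392592057476590456621477744084541253244527610744065943836811004446900810585045525113697982654577423522648792160055346165007031076568774569991953435688875803185333772407675718759910628579139773258593885215809864617171866683893519266856061784605389196861552766913486928061184243206726298742237932746451530240382790182750537969122760438726914513896154205438821789090247675880735540782119577419564550124198426579478536794578834335358517248,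 34219149912809392592057476590456621477744084541253244527610744065943836811004446900810585045525113697982654577423522648792160055346165007031076568774569991953435688875803185333772407675718759910628579139773258593885215809864617171866683893519266856061784605389196861552766913486928061184243206726298742237932746451530240382790182750537969122760438726914513896154205438821789090247675880735540782119577419564550124198426579478536794578834335358517248, 19, 33⟩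
theorem l106_valid : l106.Valid :=
  Lem.valid_of_chk t106 t106_valid [1037, 1040] c106 l106 (by decide +kernel)
end Crest.Agent.SnakyAux
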