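import Crest.Agent.S0047_aux.Checker

set_option autoImplicit false
set_option maxRecDepth 100000
namespace Crest.Agent.SnakyAux
open Cert
def t107 : Tbl := Tbl.nil
theorem t107_valid : t107.Valid := Tbl.valid_nil
def c107 : Cert :=
(mv 973 (cons (cons (cons (cons (mv 1038 (cons (cons (mv 1039 (cons (fin 972 3 972)
(mv 976 (cons (fin 977 2 973)
(mv 975 (cons (fin 1036 2 972)
(mv 1100 (cons (fin 1101 1 1036)
(mv 1104 (cons (fin 1105 0 1037)
(mv 1168 (cons (fin 911 7 911)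
(fin 1232 7 975)))))))))))))
(cons (mv 1102 (cons (cons (mv 909 (cons (fin 845 4 845)
(mv 1166 (cons (fin 974 7 909)
(fin 1230 7 973)))))
(mv 1166 (cons (fin 1230 7 973)
(mv 974 (cons (cons (mv 911 (cons (fin 975 6 910)
(mv 1165 (cons (fin 1229 5 973)
(mv 910 (cons (fin 1101 5 909)
(mv 1167 (cons (fin 1103 4 910)
(fin 1231 4 974)))))))))
(mv 911 (cons (fin 975 6 910)
(mv 1167 (cons (fin 1231 4 974)
(mv 910 (cons (fin 1103 4 910)
(mv 846 (cons (fin 782 5 781)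
(fin 1101 5 845))))))))))
(cons (mv 1165 (cons (fin 1229 5 973)
(mv 910 (cons (fin 1101 5 909)
(mv 1167 (cons (fin 1103 4 910)
(fin 1231 4 974)))))))
(cons (mv 911 (cons (fin 975 6 910)
(mv 1165 (cons (fin 1229 5 973)
(mv 1101 (cons (fin 910 5 909)
(mv 908 (cons (fin 972 7 908)
(mv 1164 (cons (fin 1228 5 972)
(mv 1103 (cons (fin 1104 1 1100)
(fin 1163 2 1099)))))))))))))
(mv 975 (cons (fin 911 6 910)
(mv 976 (cons (fin 1036 1 972)
(fin 977 1 973))))))))))))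
(cons (mv 909 (cons (fin 845 4 845)
(mv 1101 (cons (cons (mv 844 (cons (fin 908 7 844)
(mv 846 (cons (fin 910 6 845)
(mv 1100 (cons (fin 1164 5 908)
(mv 1099 (cons (fin 1098 2 1034)
(mv 1035 (cons (fin 1034 3 1034)
(mv 1036 (cons (fin 1103 3 1035)
(mv 970 (cons (fin 971 3 970)
(mv 974 (cons (fin 975 2 971)
(mv 1163 (cons (fin 1162 1 1098)
(mv 1227 (cons (fin 972 6 971)
(fin 1291 6 1035)))))))))))))))))))))
(cons (mv 844 (cons (fin 908 7 844)
(mv 1100 (cons (fin 1164 5 908)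
(mv 1099 (cons (fin 1098 2 1034)
(mv 1035 (cons (fin 1034 3 1034)
(mv 1036 (cons (fin 1103 3 1035)
(mv 970 (cons (fin 971 3 970)
(mv 974 (cons (fin 975 2 971)
(mv 1163 (cons (fin 1162 1 1098)
(mv 1227 (cons (fin 972 6 971)
(fin 1291 6 1035)))))))))))))))))))
(mv 844 (cons (fin 908 7 844)
(mv 910 (cons (fin 846 6 845)
(mv 974 (cons (fin 1165 5 909)
(mv 1103 (cons (fin 1167 4 910)
(mv 1036 (cons (fin 1104 3 1036)
(fin 1035 0 1035)))))))))))))
(cons (mv 846 (cons (fin 910 6 845)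
(mv 1100 (cons (fin 1164 5 908)
(mv 1099 (cons (fin 1098 2 1034)
(mv 1035 (cons (fin 1034 3 1034)
(mv 1036 (cons (fin 1103 3 1035)
(mv 970 (cons (fin 971 3 970)
(mv 974 (cons (fin 975 2 971)
(mv 1163 (cons (fin 1162 1 1098)
(mv 1227 (cons (fin 972 6 971)
(fin 1291 6 1035)))))))))))))))))))
(cons (mv 844 (cons (fin 908 7 844)
(mv 846 (cons (fin 910 6 845)
(mv 1100 (cons (fin 1164 5 908)
(mv 1099 (cons (fin 1098 2 1034)
(mv 1035 (cons (fin 1034 3 1034)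
(mv 1036 (cons (fin 1103 3 1035)
(mv 970 (cons (fin 971 3 970)
(mv 1163 (cons (fin 1162 1 1098)
(mv 1227 (cons (fin 972 6 971)
(fin 1291 6 1035)))))))))))))))))))
(mv 844 (cons (fin 908 7 844)
(mv 846 (cons (fin 910 6 845)
(mv 1164 (cons (fin 1100 5 908)
(mv 1165 (cons (fin 1228 5 972)
(mv 1229 (cons (fin 974 6 973)
(fin 1293 6 1037)))))))))))))))))
(mv 909 (cons (fin 845 4 845)
(mv 1166 (cons (fin 1230 7 973)
(fin 1101 4 909))))))))
(mv 1039 (cons (cons (mv 976 (cons (fin 977 2 973)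
(mv 975 (cons (fin 1036 2 972)
(mv 1100 (cons (fin 1101 1 1036)
(mv 1104 (cons (fin 1105 0 1037)
(mv 1168 (cons (fin 911 7 911)
(fin 1232 7 975)))))))))))
(mv 1100 (cons (fin 1101 1 1036)
(mv 1036 (cons (fin 1099 1 1035)
(mv 1104 (cons (fin 1103 0 1036)
(fin 1105 0 1037))))))))
(cons (mv 976 (cons (fin 977 2 973)
(mv 975 (cons (fin 1036 2 972)
(mv 1104 (cons (fin 1105 0 1037)
(mv 1168 (cons (fin 911 7 911)
(fin 1232 7 975)))))))))
(cons (mv 976 (cons (fin 977 2 973)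
(mv 1036 (cons (fin 975 2 972)
(mv 1100 (cons (fin 1099 1 1035)
(fin 1101 1 1036)))))))
(mv 976 (cons (fin 977 2 973)
(mv 1100 (cons (fin 1101 1 1036)
(mv 1104 (cons (fin 1105 0 1037)
(mv 1168 (cons (mv 975 (cons (fin 911 7 911)
(fin 1232 7 975)))
(cons (mv 1167 (cons (fin 1231 5 975)
(mv 912 (cons (fin 1103 5 911)
(mv 849 (cons (fin 913 6 848)
(mv 785 (cons (fin 848 6 784)
(mv 1233 (cons (fin 1169 4 976)
(mv 1232 (cons (fin 1297 4 1040)
(mv 1166 (cons (fin 1165 0 1165)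
(mv 1102 (cons (fin 1230 7 973)
(mv 909 (cons (fin 974 7 909)
(fin 845 4 845)))))))))))))))))))
(mv 911 (cons (fin 975 7 911)
(mv 1167 (cons (fin 1231 5 975)
(mv 912 (cons (fin 1103 5 911)
(mv 849 (cons (fin 913 6 848)
(mv 848 (cons (fin 785 6 784)
(mv 850 (cons (fin 851 1 847)
(mv 909 (cons (fin 910 2 845)
(mv 845 (cons (fin 1102 4 845)
(mv 780 (cons (fin 844 7 780)
(mv 781 (cons (fin 716 7 716)
(fin 974 4 781))))))))))))))))))))))))))))))))))))
(cons (cons (mv 1039 (cons (fin 972 3 972)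
(mv 976 (cons (fin 977 2 973)
(mv 975 (cons (fin 1036 2 972)
(mv 1104 (cons (fin 1105 0 1037)
(mv 1168 (cons (fin 911 7 911)
(fin 1232 7 975)))))))))))
(mv 1039 (cons (fin 972 3 972)
(mv 1100 (cons (fin 1101 1 1036)
(mv 1036 (cons (fin 1099 1 1035)
(mv 1104 (cons (fin 1103 0 1036)
(fin 1105 0 1037))))))))))
(cons (mv 1039 (cons (fin 972 3 972)
(mv 976 (cons (fin 977 2 973)
(mv 1036 (cons (fin 975 2 972)
(mv 1100 (cons (fin 1099 1 1035)
(fin 1101 1 1036)))))))))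
(mv 1039 (cons (fin 972 3 972)
(mv 976 (cons (fin 977 2 973)
(mv 1100 (cons (fin 1101 1 1036)
(mv 1104 (cons (fin 1105 0 1037)
(mv 1168 (cons (mv 975 (cons (fin 911 7 911)
(fin 1232 7 975)))
(cons (mv 1167 (cons (fin 1231 5 975)
(mv 912 (cons (fin 1103 5 911)
(mv 849 (cons (fin 913 6 848)
(mv 785 (cons (fin 848 6 784)
(mv 1233 (cons (fin 1169 4 976)
(mv 1232 (cons (fin 1297 4 1040)
(mv 1166 (cons (fin 1165 0 1165)
(mv 1102 (cons (fin 1230 7 973)
(mv 909 (cons (fin 974 7 909)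
(fin 845 4 845)))))))))))))))))))
(mv 911 (cons (fin 975 7 911)
(mv 1167 (cons (fin 1231 5 975)
(mv 912 (cons (fin 1103 5 911)
(mv 849 (cons (fin 913 6 848)
(mv 848 (cons (fin 785 6 784)
(mv 850 (cons (fin 851 1 847)
(mv 909 (cons (fin 910 2 845)
(mv 845 (cons (fin 1102 4 845)
(mv 780 (cons (fin 844 7 780)
(mv 781 (cons (fin 716 7 716)
(fin 974 4 781))))))))))))))))))))))))))))))))))))
(mv 1101 (cons (cons (mv 1165 (cons (cons (mv 908 (cons (fin 972 7 908)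
(mv 844 (cons (fin 909 7 844)
(mv 910 (cons (fin 974 6 909)
(mv 1228 (cons (fin 1164 5 972)
(mv 1229 (cons (fin 1292 5 1036)
(mv 1230 (cons (fin 1166 4 973)
(fin 1294 4 1037)))))))))))))
(mv 908 (cons (fin 972 7 908)
(mv 909 (cons (fin 844 7 844)
(mv 910 (cons (fin 846 6 845)
(fin 974 6 909))))))))
(cons (mv 910 (cons (fin 974 6 909)
(mv 846 (cons (fin 909 6 845)
(mv 1228 (cons (fin 1164 5 972)
(mv 1229 (cons (fin 1292 5 1036)
(mv 1230 (cons (fin 1166 4 973)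
(fin 1294 4 1037)))))))))))
(cons (mv 908 (cons (fin 972 7 908)
(mv 844 (cons (fin 909 7 844)
(mv 1228 (cons (fin 1164 5 972)
(mv 1229 (cons (fin 1292 5 1036)
(mv 1230 (cons (fin 1166 4 973)
(fin 1294 4 1037)))))))))))
(mv 908 (cons (fin 972 7 908)
(mv 910 (cons (fin 974 6 909)
(mv 1228 (cons (fin 1164 5 972)
(mv 1229 (cons (fin 1292 5 1036)
(mv 1230 (cons (fin 1166 4 973)
(fin 1294 4 1037)))))))))))))))
(cons (mv 909 (cons (cons (mv 844 (cons (fin 908 7 844)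
(mv 780 (cons (fin 845 7 780)
(mv 846 (cons (fin 910 6 845)
(mv 1100 (cons (fin 1164 5 908)
(mv 1102 (cons (fin 1166 4 909)
(mv 1103 (cons (fin 1039 2 1036)
(mv 1036 (cons (fin 1035 3 1035)
(fin 1104 3 1036)))))))))))))))
(mv 844 (cons (fin 908 7 844)
(mv 845 (cons (fin 780 7 780)
(mv 846 (cons (fin 782 6 781)
(fin 910 6 845))))))))
(cons (mv 846 (cons (fin 910 6 845)
(mv 782 (cons (fin 845 6 781)
(mv 1100 (cons (fin 1164 5 908)
(mv 1102 (cons (fin 1166 4 909)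
(mv 1103 (cons (fin 1039 2 1036)
(mv 1036 (cons (fin 1035 3 1035)
(fin 1104 3 1036)))))))))))))
(cons (mv 844 (cons (fin 908 7 844)
(mv 780 (cons (fin 845 7 780)
(mv 1100 (cons (fin 1164 5 908)
(mv 1102 (cons (fin 1166 4 909)
(mv 1103 (cons (fin 1039 2 1036)
(mv 1036 (cons (fin 1035 3 1035)
(fin 1104 3 1036)))))))))))))
(mv 844 (cons (fin 908 7 844)
(mv 846 (cons (fin 910 6 845)
(mv 1100 (cons (fin 1164 5 908)
(mv 1102 (cons (fin 1166 4 909)
(mv 1103 (cons (fin 1039 2 1036)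
(mv 1036 (cons (fin 1035 3 1035)
(fin 1104 3 1036)))))))))))))))))
(mv 1165 (cons (cons (mv 908 (cons (fin 972 7 908)
(mv 910 (cons (fin 974 6 909)
(mv 1228 (cons (fin 1164 5 972)
(mv 1229 (cons (fin 1292 5 1036)
(mv 1230 (cons (fin 1166 4 973)
(fin 1294 4 1037)))))))))))
(cons (mv 910 (cons (fin 974 6 909)
(mv 1228 (cons (fin 1164 5 972)
(mv 1229 (cons (fin 1292 5 1036)
(mv 1230 (cons (fin 1166 4 973)
(fin 1294 4 1037)))))))))
(mv 910 (cons (fin 974 6 909)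
(mv 972 (cons (fin 908 7 908)
(mv 1229 (cons (fin 1036 7 972)
(mv 1230 (cons (fin 1166 4 973)
(fin 1294 4 1037)))))))))))
(cons (mv 910 (cons (fin 974 6 909)
(mv 972 (cons (fin 908 7 908)
(mv 1228 (cons (fin 1164 5 972)
(mv 1229 (cons (fin 1036 7 972)
(fin 1292 5 1036)))))))))
(cons (mv 908 (cons (fin 972 7 908)
(mv 1228 (cons (fin 1164 5 972)
(mv 1229 (cons (fin 1292 5 1036)
(mv 1230 (cons (fin 1166 4 973)
(fin 1294 4 1037)))))))))
(mv 972 (cons (fin 908 7 908)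
(mv 974 (cons (fin 910 6 909)
(mv 975 (cons (fin 1039 0 972)
(mv 1036 (cons (fin 1035 1 971)
(fin 976 1 972)))))))))))))))
(cons (cons (mv 909 (cons (cons (mv 844 (cons (fin 908 7 844)
(mv 780 (cons (fin 845 7 780)
(mv 910 (cons (fin 846 6 845)
(mv 1165 (cons (fin 974 6 909)
(mv 1166 (cons (fin 1102 4 909)
(fin 1230 4 973)))))))))))
(cons (mv 846 (cons (fin 910 6 845)
(mv 845 (cons (fin 782 6 781)
(mv 780 (cons (fin 844 7 780)
(mv 781 (cons (fin 716 7 716)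
(mv 1036 (cons (fin 972 5 780)
(fin 1100 5 844)))))))))))
(mv 844 (cons (fin 908 7 844)
(mv 845 (cons (fin 780 7 780)
(mv 782 (cons (fin 846 6 781)
(mv 781 (cons (fin 718 6 717)
(mv 1036 (cons (fin 972 5 780)
(fin 1100 5 844)))))))))))))
(cons (mv 846 (cons (fin 910 6 845)
(mv 845 (cons (fin 782 6 781)
(mv 1036 (cons (fin 1100 5 844)
(mv 972 (cons (fin 781 5 780)
(mv 1165 (cons (fin 908 7 908)
(fin 1229 7 972)))))))))))
(cons (mv 844 (cons (fin 908 7 844)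
(mv 845 (cons (fin 780 7 780)
(mv 1036 (cons (fin 1100 5 844)
(mv 972 (cons (fin 781 5 780)
(mv 1102 (cons (fin 1166 4 909)
(mv 1034 (cons (fin 1035 0 1034)
(mv 1103 (cons (fin 1104 3 1036)
(mv 1165 (cons (fin 1229 7 972)
(mv 974 (cons (fin 910 6 909)
(mv 975 (cons (fin 976 1 972)
(fin 1039 0 972)))))))))))))))))))))
(mv 844 (cons (fin 908 7 844)
(mv 910 (cons (fin 846 6 845)
(mv 1165 (cons (fin 974 6 909)
(mv 1166 (cons (fin 1102 4 909)
(fin 1230 4 973)))))))))))))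
(mv 1165 (cons (cons (mv 910 (cons (fin 974 6 909)
(mv 846 (cons (fin 909 6 845)
(mv 1166 (cons (fin 1230 4 973)
(mv 1228 (cons (fin 1164 5 972)
(mv 1229 (cons (fin 1292 5 1036)
(mv 1036 (cons (fin 972 7 972)
(mv 1100 (cons (fin 1293 7 1036)
(mv 1099 (cons (fin 1098 0 1098)
(mv 1167 (cons (fin 1168 3 1100)
(fin 1102 0 1099)))))))))))))))))))
(cons (mv 910 (cons (fin 974 6 909)
(mv 846 (cons (fin 909 6 845)
(mv 1230 (cons (fin 1166 4 973)
(mv 1229 (cons (fin 1294 4 1037)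
(mv 1036 (cons (fin 972 7 972)
(mv 1292 (cons (fin 1228 5 1036)
(mv 1293 (cons (fin 1100 7 1036)
(fin 1356 5 1100)))))))))))))))
(mv 910 (cons (fin 974 6 909)
(mv 846 (cons (fin 909 6 845)
(mv 1228 (cons (fin 1164 5 972)
(mv 1229 (cons (fin 1292 5 1036)
(mv 1036 (cons (fin 972 7 972)
(mv 1293 (cons (fin 1100 7 1036)
(mv 1294 (cons (fin 1230 4 1037)
(fin 1358 4 1101)))))))))))))))))
(cons (cons (mv 910 (cons (fin 974 6 909)
(mv 909 (cons (fin 846 6 845)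
(mv 1166 (cons (fin 1102 4 909)
(fin 1230 4 973)))))))
(mv 910 (cons (fin 974 6 909)
(mv 909 (cons (fin 846 6 845)
(mv 1164 (cons (fin 1100 5 908)
(fin 1228 5 972))))))))
(cons (mv 1164 (cons (fin 1228 5 972)
(mv 909 (cons (fin 1100 5 908)
(mv 1166 (cons (fin 1102 4 909)
(fin 1230 4 973)))))))
(mv 910 (cons (fin 974 6 909)
(mv 1166 (cons (fin 1230 4 973)
(mv 1228 (cons (fin 1164 5 972)
(mv 1229 (cons (fin 1292 5 1036)
(mv 1036 (cons (fin 972 7 972)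
(mv 1100 (cons (fin 1293 7 1036)
(mv 1099 (cons (fin 1098 0 1098)
(mv 1167 (cons (fin 1168 3 1100)
(fin 1102 0 1099))))))))))))))))))))))
(cons (mv 909 (cons (cons (mv 844 (cons (fin 908 7 844)
(mv 780 (cons (fin 845 7 780)
(mv 910 (cons (fin 846 6 845)
(mv 1164 (cons (fin 1100 5 908)
(mv 1165 (cons (fin 1228 5 972)
(fin 974 6 909)))))))))))
(mv 846 (cons (fin 910 6 845)
(mv 845 (cons (fin 782 6 781)
(mv 1100 (cons (fin 1036 5 844)
(fin 1164 5 908))))))))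
(cons (mv 844 (cons (fin 908 7 844)
(mv 845 (cons (fin 780 7 780)
(mv 1100 (cons (fin 1036 5 844)
(fin 1164 5 908)))))))
(cons (mv 844 (cons (fin 908 7 844)
(mv 845 (cons (fin 780 7 780)
(mv 846 (cons (fin 782 6 781)
(fin 910 6 845)))))))
(mv 844 (cons (fin 908 7 844)
(mv 910 (cons (fin 846 6 845)
(mv 1164 (cons (fin 1100 5 908)
(mv 1165 (cons (fin 1228 5 972)
(fin 974 6 909)))))))))))))
(mv 1165 (cons (cons (mv 908 (cons (fin 972 7 908)
(mv 844 (cons (fin 909 7 844)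
(mv 1228 (cons (fin 1164 5 972)
(mv 1229 (cons (fin 1292 5 1036)
(mv 1230 (cons (fin 1166 4 973)
(fin 1294 4 1037)))))))))))
(mv 908 (cons (fin 972 7 908)
(mv 909 (cons (fin 844 7 844)
(mv 1166 (cons (fin 1102 4 909)
(fin 1230 4 973))))))))
(cons (mv 908 (cons (fin 972 7 908)
(mv 909 (cons (fin 844 7 844)
(mv 1164 (cons (fin 1100 5 908)
(fin 1228 5 972)))))))
(cons (mv 1164 (cons (fin 1228 5 972)
(mv 909 (cons (fin 1100 5 908)
(mv 1166 (cons (fin 1102 4 909)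
(fin 1230 4 973)))))))
(mv 908 (cons (fin 972 7 908)
(mv 1228 (cons (fin 1164 5 972)
(mv 1229 (cons (fin 1292 5 1036)
(mv 1230 (cons (fin 1166 4 973)
(fin 1294 4 1037))))))))))))))))))
(cons (mv 1101 (cons (cons (cons (mv 909 (cons (cons (cons (mv 844 (cons (fin 908 7 844)
(mv 780 (cons (fin 845 7 780)
(mv 846 (cons (fin 910 6 845)
(mv 1100 (cons (fin 1164 5 908)
(mv 1038 (cons (fin 1039 1 1036)
(mv 1098 (cons (fin 1099 2 1034)
(mv 1166 (cons (fin 1102 4 909)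
(mv 1165 (cons (fin 1230 4 973)
(mv 1167 (cons (fin 1168 3 1100)
(mv 1229 (cons (fin 974 6 973)
(mv 1292 (cons (fin 1228 5 1036)
(mv 1293 (cons (fin 1036 7 1036)
(fin 1356 5 1100)))))))))))))))))))))))))
(mv 844 (cons (fin 908 7 844)
(mv 780 (cons (fin 845 7 780)
(mv 910 (cons (fin 846 6 845)
(mv 1102 (cons (fin 1166 4 909)
(mv 1165 (cons (fin 974 6 909)
(mv 1228 (cons (fin 1164 5 972)
(mv 1229 (cons (fin 1292 5 1036)
(mv 1293 (cons (fin 1038 6 1037)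
(mv 1294 (cons (fin 1230 4 1037)
(fin 1358 4 1101))))))))))))))))))))
(cons (mv 844 (cons (fin 908 7 844)
(mv 780 (cons (fin 845 7 780)
(mv 910 (cons (fin 846 6 845)
(mv 1100 (cons (fin 1164 5 908)
(mv 1038 (cons (fin 1039 1 1036)
(mv 1098 (cons (fin 1099 2 1034)
(mv 1165 (cons (fin 974 6 909)
(mv 1230 (cons (fin 1166 4 973)
(mv 1229 (cons (fin 1294 4 1037)
(mv 1292 (cons (fin 1228 5 1036)
(mv 1293 (cons (fin 1036 7 1036)
(fin 1356 5 1100)))))))))))))))))))))))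
(mv 844 (cons (fin 908 7 844)
(mv 780 (cons (fin 845 7 780)
(mv 1100 (cons (fin 1164 5 908)
(mv 1038 (cons (fin 1039 1 1036)
(mv 1098 (cons (fin 1099 2 1034)
(mv 1166 (cons (fin 1102 4 909)
(mv 1165 (cons (fin 1230 4 973)
(mv 1167 (cons (fin 1168 3 1100)
(mv 1229 (cons (fin 974 6 973)
(mv 1292 (cons (fin 1228 5 1036)
(mv 1293 (cons (fin 1036 7 1036)
(fin 1356 5 1100)))))))))))))))))))))))))
(cons (cons (mv 844 (cons (fin 908 7 844)
(mv 780 (cons (fin 845 7 780)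
(mv 910 (cons (fin 846 6 845)
(mv 974 (cons (fin 1165 6 909)
(mv 1100 (cons (fin 1164 5 908)
(mv 1039 (cons (fin 1038 1 1036)
(mv 1103 (cons (fin 1102 2 1036)
(mv 975 (cons (fin 1167 7 910)
(mv 976 (cons (fin 977 3 909)
(fin 1036 1 972)))))))))))))))))))
(mv 844 (cons (fin 908 7 844)
(mv 780 (cons (fin 845 7 780)
(mv 910 (cons (fin 846 6 845)
(mv 1165 (cons (fin 974 6 909)
(mv 1166 (cons (fin 1102 4 909)
(fin 1230 4 973))))))))))))
(cons (mv 846 (cons (fin 910 6 845)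
(mv 782 (cons (fin 845 6 781)
(mv 1100 (cons (fin 1164 5 908)
(mv 1038 (cons (fin 1039 1 1036)
(mv 1098 (cons (fin 1099 2 1034)
(mv 1166 (cons (fin 1102 4 909)
(mv 1165 (cons (fin 1230 4 973)
(mv 1167 (cons (fin 1168 3 1100)
(mv 1229 (cons (fin 974 6 973)
(mv 1292 (cons (fin 1228 5 1036)
(mv 1293 (cons (fin 1036 7 1036)
(fin 1356 5 1100)))))))))))))))))))))))
(cons (mv 844 (cons (fin 908 7 844)
(mv 846 (cons (fin 910 6 845)
(mv 1100 (cons (fin 1164 5 908)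
(mv 1038 (cons (fin 1039 1 1036)
(mv 1098 (cons (fin 1099 2 1034)
(mv 1166 (cons (fin 1102 4 909)
(mv 1165 (cons (fin 1230 4 973)
(mv 1167 (cons (fin 1168 3 1100)
(mv 1229 (cons (fin 974 6 973)
(mv 1292 (cons (fin 1228 5 1036)
(mv 1293 (cons (fin 1036 7 1036)
(fin 1356 5 1100)))))))))))))))))))))))
(mv 844 (cons (fin 908 7 844)
(mv 780 (cons (fin 845 7 780)
(mv 846 (cons (fin 910 6 845)
(mv 1100 (cons (fin 1164 5 908)
(mv 1038 (cons (fin 1039 1 1036)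
(mv 1099 (cons (fin 1098 2 1034)
(mv 1102 (cons (fin 1166 4 909)
(mv 1035 (cons (fin 1034 3 1034)
(mv 1103 (cons (fin 1036 3 1035)
(mv 1104 (cons (fin 1105 3 1037)
(mv 1168 (cons (fin 1167 0 1100)
(fin 1169 0 1101))))))))))))))))))))))))))))
(mv 1165 (cons (cons (mv 910 (cons (fin 974 6 909)
(mv 1228 (cons (fin 1164 5 972)
(mv 1229 (cons (fin 1292 5 1036)
(mv 1230 (cons (fin 1166 4 973)
(fin 1294 4 1037)))))))))
(mv 1228 (cons (fin 1164 5 972)
(mv 1229 (cons (fin 1292 5 1036)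
(mv 1230 (cons (fin 1166 4 973)
(fin 1294 4 1037))))))))
(cons (mv 974 (cons (fin 910 6 909)
(mv 1038 (cons (fin 1229 6 973)
(mv 1039 (cons (fin 1100 1 1036)
(mv 976 (cons (fin 977 2 973)
(mv 975 (cons (fin 1036 1 972)
(mv 912 (cons (fin 913 2 909)
(mv 848 (cons (fin 784 5 783)
(fin 1103 5 847)))))))))))))))
(mv 910 (cons (fin 974 6 909)
(mv 1164 (cons (fin 1228 5 972)
(mv 1166 (cons (fin 1230 4 973)
(mv 1100 (cons (mv 1099 (cons (fin 1167 3 1099)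
(fin 1098 0 1098)))
(cons (mv 1038 (cons (fin 1039 1 1036)
(mv 1167 (cons (fin 1168 3 1100)
(mv 1103 (cons (fin 1104 2 1100)
(mv 1102 (cons (fin 1163 1 1099)
(mv 1231 (cons (fin 1232 0 1164)
(fin 1295 7 1038)))))))))))
(mv 1039 (cons (fin 1038 1 1036)
(mv 1099 (cons (fin 1098 0 1098)
(mv 1102 (cons (fin 1103 2 1036)
(mv 1034 (cons (fin 1035 3 1034)
(mv 1163 (cons (fin 1162 1 1098)
(mv 1227 (cons (fin 1226 1 1162)
(mv 1291 (cons (fin 1036 6 1035)
(fin 1355 6 1099))))))))))))))))))))))))))))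
(cons (mv 909 (cons (cons (mv 844 (cons (fin 908 7 844)
(mv 780 (cons (fin 845 7 780)
(mv 846 (cons (fin 910 6 845)
(mv 1100 (cons (fin 1164 5 908)
(mv 1038 (cons (fin 1039 1 1036)
(mv 1099 (cons (fin 1098 2 1034)
(mv 1102 (cons (fin 1166 4 909)
(mv 1035 (cons (fin 1034 3 1034)
(mv 1103 (cons (fin 1036 3 1035)
(mv 1104 (cons (fin 1105 3 1037)
(mv 1168 (cons (fin 1167 0 1100)
(fin 1169 0 1101)))))))))))))))))))))))
(cons (mv 844 (cons (fin 908 7 844)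
(mv 845 (cons (fin 780 7 780)
(mv 846 (cons (fin 782 6 781)
(fin 910 6 845)))))))
(mv 844 (cons (fin 908 7 844)
(mv 780 (cons (fin 845 7 780)
(mv 1100 (cons (fin 1164 5 908)
(mv 1038 (cons (fin 1039 1 1036)
(mv 1099 (cons (fin 1098 2 1034)
(mv 1102 (cons (fin 1166 4 909)
(mv 1035 (cons (fin 1034 3 1034)
(mv 1103 (cons (fin 1036 3 1035)
(mv 1104 (cons (fin 1105 3 1037)
(mv 1168 (cons (fin 1167 0 1100)
(fin 1169 0 1101)))))))))))))))))))))))
(cons (mv 846 (cons (fin 910 6 845)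
(mv 782 (cons (fin 845 6 781)
(mv 1100 (cons (fin 1164 5 908)
(mv 1038 (cons (fin 1039 1 1036)
(mv 1099 (cons (fin 1098 2 1034)
(mv 1102 (cons (fin 1166 4 909)
(mv 1035 (cons (fin 1034 3 1034)
(mv 1036 (cons (fin 1103 3 1035)
(mv 971 (cons (fin 970 3 970)
(mv 907 (cons (fin 843 4 843)
(mv 906 (cons (fin 842 7 842)
(mv 974 (cons (fin 975 2 971)
(fin 908 0 906)))))))))))))))))))))))))
(cons (mv 846 (cons (fin 910 6 845)
(mv 782 (cons (fin 845 6 781)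
(mv 1100 (cons (fin 1164 5 908)
(mv 1038 (cons (fin 1039 1 1036)
(mv 1099 (cons (fin 1098 2 1034)
(mv 1102 (cons (fin 1166 4 909)
(mv 1035 (cons (fin 1034 3 1034)
(mv 1103 (cons (fin 1036 3 1035)
(mv 1104 (cons (fin 1105 3 1037)
(mv 1168 (cons (fin 1167 0 1100)
(fin 1169 0 1101)))))))))))))))))))))
(mv 844 (cons (fin 908 7 844)
(mv 846 (cons (fin 910 6 845)
(mv 1100 (cons (fin 1164 5 908)
(mv 1038 (cons (fin 1039 1 1036)
(mv 1099 (cons (fin 1098 2 1034)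
(mv 1102 (cons (fin 1166 4 909)
(mv 1035 (cons (fin 1034 3 1034)
(mv 1103 (cons (fin 1036 3 1035)
(mv 1104 (cons (fin 1105 3 1037)
(mv 1168 (cons (fin 1167 0 1100)
(fin 1169 0 1101)))))))))))))))))))))))))
(cons (mv 1165 (cons (cons (mv 910 (cons (fin 974 6 909)
(mv 846 (cons (fin 909 6 845)
(mv 1228 (cons (fin 1164 5 972)
(mv 1229 (cons (fin 1292 5 1036)
(mv 1230 (cons (fin 1166 4 973)
(fin 1294 4 1037)))))))))))
(mv 1164 (cons (fin 1228 5 972)
(mv 1166 (cons (fin 1230 4 973)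
(mv 909 (cons (fin 1102 4 909)
(mv 844 (cons (fin 908 7 844)
(mv 845 (cons (fin 780 7 780)
(mv 846 (cons (fin 782 6 781)
(fin 910 6 845))))))))))))))
(cons (mv 974 (cons (fin 910 6 909)
(mv 1228 (cons (fin 1164 5 972)
(mv 1229 (cons (fin 1292 5 1036)
(fin 1038 6 973)))))))
(cons (mv 1164 (cons (fin 1228 5 972)
(mv 1166 (cons (fin 1230 4 973)
(mv 1102 (cons (fin 909 4 909)
(mv 1103 (cons (fin 1104 1 1100)
(fin 1163 2 1099)))))))))
(mv 910 (cons (fin 974 6 909)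
(mv 909 (cons (fin 846 6 845)
(mv 1166 (cons (fin 1102 4 909)
(fin 1230 4 973)))))))))))
(mv 909 (cons (cons (mv 844 (cons (fin 908 7 844)
(mv 780 (cons (fin 845 7 780)
(mv 910 (cons (fin 846 6 845)
(mv 974 (cons (fin 1165 6 909)
(mv 1100 (cons (fin 1164 5 908)
(mv 1039 (cons (fin 1038 1 1036)
(mv 1103 (cons (fin 1102 2 1036)
(mv 975 (cons (fin 1167 7 910)
(mv 976 (cons (fin 977 3 909)
(fin 1036 1 972)))))))))))))))))))
(mv 844 (cons (fin 908 7 844)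
(mv 845 (cons (fin 780 7 780)
(mv 846 (cons (fin 782 6 781)
(fin 910 6 845))))))))
(cons (mv 844 (cons (fin 908 7 844)
(mv 845 (cons (fin 780 7 780)
(mv 1100 (cons (fin 1036 5 844)
(fin 1164 5 908)))))))
(cons (mv 846 (cons (fin 910 6 845)
(mv 845 (cons (fin 782 6 781)
(mv 1100 (cons (fin 1036 5 844)
(fin 1164 5 908)))))))
(mv 844 (cons (fin 908 7 844)
(mv 910 (cons (fin 846 6 845)
(mv 974 (cons (fin 1165 6 909)
(mv 1100 (cons (fin 1164 5 908)
(mv 1039 (cons (fin 1038 1 1036)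
(mv 1103 (cons (fin 1102 2 1036)
(mv 975 (cons (fin 1167 7 910)
(mv 976 (cons (fin 977 3 909)
(fin 1036 1 972))))))))))))))))))))))))
(cons (cons (mv 909 (cons (cons (mv 844 (cons (fin 908 7 844)
(mv 780 (cons (fin 845 7 780)
(mv 910 (cons (fin 846 6 845)
(mv 1165 (cons (fin 974 6 909)
(mv 1166 (cons (fin 1102 4 909)
(fin 1230 4 973)))))))))))
(mv 844 (cons (fin 908 7 844)
(mv 845 (cons (fin 780 7 780)
(mv 846 (cons (fin 782 6 781)
(fin 910 6 845))))))))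
(cons (mv 844 (cons (fin 908 7 844)
(mv 845 (cons (fin 780 7 780)
(mv 1102 (cons (fin 1038 4 845)
(fin 1166 4 909)))))))
(cons (mv 846 (cons (fin 910 6 845)
(mv 845 (cons (fin 782 6 781)
(mv 1102 (cons (fin 1038 4 845)
(fin 1166 4 909)))))))
(mv 844 (cons (fin 908 7 844)
(mv 910 (cons (fin 846 6 845)
(mv 1165 (cons (fin 974 6 909)
(mv 1166 (cons (fin 1102 4 909)
(fin 1230 4 973)))))))))))))
(mv 909 (cons (cons (mv 844 (cons (fin 908 7 844)
(mv 780 (cons (fin 845 7 780)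
(mv 1100 (cons (fin 1164 5 908)
(mv 1038 (cons (fin 1039 1 1036)
(mv 1098 (cons (fin 1099 2 1034)
(mv 1166 (cons (fin 1102 4 909)
(mv 1165 (cons (fin 1230 4 973)
(mv 1167 (cons (fin 1168 3 1100)
(mv 1229 (cons (fin 974 6 973)
(mv 1292 (cons (fin 1228 5 1036)
(mv 1293 (cons (fin 1036 7 1036)
(fin 1356 5 1100)))))))))))))))))))))))
(mv 844 (cons (fin 908 7 844)
(mv 845 (cons (fin 780 7 780)
(mv 1102 (cons (fin 1038 4 845)
(fin 1166 4 909))))))))
(cons (mv 844 (cons (fin 908 7 844)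
(mv 845 (cons (fin 780 7 780)
(mv 1100 (cons (fin 1036 5 844)
(fin 1164 5 908)))))))
(cons (mv 1100 (cons (fin 1164 5 908)
(mv 845 (cons (fin 1036 5 844)
(mv 1038 (cons (fin 1039 1 1036)
(fin 1102 4 845)))))))
(mv 844 (cons (fin 908 7 844)
(mv 1100 (cons (fin 1164 5 908)
(mv 1038 (cons (fin 1039 1 1036)
(mv 1098 (cons (fin 1099 2 1034)
(mv 1166 (cons (fin 1102 4 909)
(mv 1165 (cons (fin 1230 4 973)
(mv 1167 (cons (fin 1168 3 1100)
(mv 1229 (cons (fin 974 6 973)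
(mv 1292 (cons (fin 1228 5 1036)
(mv 1293 (cons (fin 1036 7 1036)
(fin 1356 5 1100))))))))))))))))))))))))))
(cons (mv 909 (cons (cons (mv 844 (cons (fin 908 7 844)
(mv 780 (cons (fin 845 7 780)
(mv 846 (cons (fin 910 6 845)
(mv 1100 (cons (fin 1164 5 908)
(mv 1102 (cons (fin 1166 4 909)
(mv 1103 (cons (fin 1039 2 1036)
(mv 1036 (cons (fin 1035 3 1035)
(fin 1104 3 1036)))))))))))))))
(cons (mv 844 (cons (fin 908 7 844)
(mv 780 (cons (fin 845 7 780)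
(mv 910 (cons (fin 846 6 845)
(mv 1165 (cons (fin 974 6 909)
(mv 1166 (cons (fin 1102 4 909)
(fin 1230 4 973)))))))))))
(mv 844 (cons (fin 908 7 844)
(mv 780 (cons (fin 845 7 780)
(mv 1100 (cons (fin 1164 5 908)
(mv 1102 (cons (fin 1166 4 909)
(mv 1103 (cons (fin 1039 2 1036)
(mv 1036 (cons (fin 1035 3 1035)
(fin 1104 3 1036)))))))))))))))
(cons (mv 844 (cons (fin 908 7 844)
(mv 780 (cons (fin 845 7 780)
(mv 910 (cons (fin 846 6 845)
(mv 1164 (cons (fin 1100 5 908)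
(mv 1165 (cons (fin 1228 5 972)
(fin 974 6 909)))))))))))
(cons (mv 846 (cons (fin 910 6 845)
(mv 782 (cons (fin 845 6 781)
(mv 1100 (cons (fin 1164 5 908)
(mv 1102 (cons (fin 1166 4 909)
(mv 1103 (cons (fin 1039 2 1036)
(mv 1036 (cons (fin 1035 3 1035)
(fin 1104 3 1036)))))))))))))
(mv 844 (cons (fin 908 7 844)
(mv 846 (cons (fin 910 6 845)
(mv 1100 (cons (fin 1164 5 908)
(mv 1102 (cons (fin 1166 4 909)
(mv 1103 (cons (fin 1039 2 1036)
(mv 1036 (cons (fin 1035 3 1035)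
(fin 1104 3 1036)))))))))))))))))
(cons (mv 1165 (cons (cons (mv 910 (cons (fin 974 6 909)
(mv 846 (cons (fin 909 6 845)
(mv 1228 (cons (fin 1164 5 972)
(mv 1229 (cons (fin 1292 5 1036)
(mv 1230 (cons (fin 1166 4 973)
(fin 1294 4 1037)))))))))))
(mv 1164 (cons (fin 1228 5 972)
(mv 909 (cons (fin 1100 5 908)
(mv 844 (cons (fin 908 7 844)
(mv 845 (cons (fin 780 7 780)
(mv 846 (cons (fin 782 6 781)
(fin 910 6 845))))))))))))
(cons (mv 974 (cons (fin 910 6 909)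
(mv 1038 (cons (fin 1229 6 973)
(mv 1039 (cons (fin 1100 1 1036)
(mv 976 (cons (fin 977 2 973)
(mv 975 (cons (fin 1036 1 972)
(mv 908 (cons (fin 909 3 908)
(mv 912 (cons (fin 913 2 909)
(mv 848 (cons (fin 784 5 783)
(fin 1103 5 847)))))))))))))))))
(cons (mv 1164 (cons (fin 1228 5 972)
(mv 1100 (cons (fin 909 5 908)
(mv 1038 (cons (fin 1039 1 1036)
(mv 974 (cons (fin 1229 6 973)
(mv 1099 (cons (fin 1098 2 1034)
(mv 1166 (cons (fin 1167 3 1099)
(fin 1230 4 973)))))))))))))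
(mv 910 (cons (fin 974 6 909)
(mv 1228 (cons (fin 1164 5 972)
(mv 1229 (cons (fin 1292 5 1036)
(mv 1230 (cons (fin 1166 4 973)
(fin 1294 4 1037)))))))))))))
(mv 909 (cons (cons (mv 844 (cons (fin 908 7 844)
(mv 780 (cons (fin 845 7 780)
(mv 846 (cons (fin 910 6 845)
(mv 1100 (cons (fin 1164 5 908)
(mv 1038 (cons (fin 1039 1 1036)
(mv 1099 (cons (fin 1098 2 1034)
(mv 1102 (cons (fin 1166 4 909)
(mv 1035 (cons (fin 1034 3 1034)
(mv 1103 (cons (fin 1036 3 1035)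
(mv 1104 (cons (fin 1105 3 1037)
(mv 1168 (cons (fin 1167 0 1100)
(fin 1169 0 1101)))))))))))))))))))))))
(mv 844 (cons (fin 908 7 844)
(mv 845 (cons (fin 780 7 780)
(mv 846 (cons (fin 782 6 781)
(fin 910 6 845))))))))
(cons (mv 846 (cons (fin 910 6 845)
(mv 782 (cons (fin 845 6 781)
(mv 1100 (cons (fin 1164 5 908)
(mv 1038 (cons (fin 1039 1 1036)
(mv 1099 (cons (fin 1098 2 1034)
(mv 1102 (cons (fin 1166 4 909)
(mv 1035 (cons (fin 1034 3 1034)
(mv 1103 (cons (fin 1036 3 1035)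
(mv 1104 (cons (fin 1105 3 1037)
(mv 1168 (cons (fin 1167 0 1100)
(fin 1169 0 1101)))))))))))))))))))))
(cons (mv 844 (cons (fin 908 7 844)
(mv 780 (cons (fin 845 7 780)
(mv 1100 (cons (fin 1164 5 908)
(mv 1038 (cons (fin 1039 1 1036)
(mv 1099 (cons (fin 1098 2 1034)
(mv 1102 (cons (fin 1166 4 909)
(mv 1035 (cons (fin 1034 3 1034)
(mv 1103 (cons (fin 1036 3 1035)
(mv 1104 (cons (fin 1105 3 1037)
(mv 1168 (cons (fin 1167 0 1100)
(fin 1169 0 1101)))))))))))))))))))))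
(mv 844 (cons (fin 908 7 844)
(mv 846 (cons (fin 910 6 845)
(mv 1100 (cons (fin 1164 5 908)
(mv 1038 (cons (fin 1039 1 1036)
(mv 1099 (cons (fin 1098 2 1034)
(mv 1102 (cons (fin 1166 4 909)
(mv 1035 (cons (fin 1034 3 1034)
(mv 1103 (cons (fin 1036 3 1035)
(mv 1104 (cons (fin 1105 3 1037)
(mv 1168 (cons (fin 1167 0 1100)
(fin 1169 0 1101))))))))))))))))))))))))))))))
(cons (mv 909 (cons (cons (cons (mv 1101 (cons (cons (cons (mv 844 (cons (fin 908 7 844)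
(mv 780 (cons (fin 845 7 780)
(mv 846 (cons (fin 910 6 845)
(mv 1164 (cons (fin 1100 5 908)
(mv 1165 (cons (fin 1228 5 972)
(mv 1166 (cons (fin 1102 4 909)
(fin 1230 4 973)))))))))))))
(mv 846 (cons (fin 910 6 845)
(mv 782 (cons (fin 845 6 781)
(mv 1164 (cons (fin 1100 5 908)
(mv 1165 (cons (fin 1228 5 972)
(mv 1166 (cons (fin 1102 4 909)
(fin 1230 4 973))))))))))))
(cons (mv 844 (cons (fin 908 7 844)
(mv 780 (cons (fin 845 7 780)
(mv 1164 (cons (fin 1100 5 908)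
(mv 1165 (cons (fin 1228 5 972)
(mv 1166 (cons (fin 1102 4 909)
(fin 1230 4 973)))))))))))
(mv 844 (cons (fin 908 7 844)
(mv 780 (cons (fin 845 7 780)
(mv 910 (cons (fin 846 6 845)
(mv 1100 (cons (fin 1164 5 908)
(mv 1165 (cons (fin 974 6 909)
(mv 1230 (cons (fin 1166 4 973)
(mv 1229 (cons (fin 1294 4 1037)
(mv 1036 (cons (fin 972 7 972)
(fin 1293 7 1036)))))))))))))))))))
(cons (cons (mv 844 (cons (fin 908 7 844)
(mv 780 (cons (fin 845 7 780)
(mv 910 (cons (fin 846 6 845)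
(mv 1102 (cons (fin 1166 4 909)
(mv 1165 (cons (fin 974 6 909)
(mv 1228 (cons (fin 1164 5 972)
(mv 1229 (cons (fin 1292 5 1036)
(mv 972 (cons (fin 1036 7 972)
(mv 911 (cons (fin 912 1 908)
(mv 970 (cons (fin 971 2 906)
(mv 1293 (cons (fin 1038 6 1037)
(mv 1294 (cons (fin 1230 4 1037)
(fin 1358 4 1101)))))))))))))))))))))))))
(mv 844 (cons (fin 908 7 844)
(mv 780 (cons (fin 845 7 780)
(mv 910 (cons (fin 846 6 845)
(mv 1165 (cons (fin 974 6 909)
(mv 1166 (cons (fin 1102 4 909)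
(fin 1230 4 973))))))))))))
(cons (mv 844 (cons (fin 908 7 844)
(mv 780 (cons (fin 845 7 780)
(mv 910 (cons (fin 846 6 845)
(mv 1164 (cons (fin 1100 5 908)
(mv 1165 (cons (fin 1228 5 972)
(fin 974 6 909)))))))))))
(cons (mv 844 (cons (fin 908 7 844)
(mv 845 (cons (fin 780 7 780)
(mv 846 (cons (fin 782 6 781)
(fin 910 6 845)))))))
(mv 844 (cons (fin 908 7 844)
(mv 846 (cons (fin 910 6 845)
(mv 1164 (cons (fin 1100 5 908)
(mv 1165 (cons (fin 1228 5 972)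
(mv 1166 (cons (fin 1102 4 909)
(fin 1230 4 973))))))))))))))))
(mv 845 (cons (cons (mv 780 (cons (fin 844 7 780)
(mv 781 (cons (fin 716 7 716)
(mv 782 (cons (fin 718 6 717)
(fin 846 6 781)))))))
(mv 780 (cons (fin 844 7 780)
(mv 781 (cons (fin 716 7 716)
(mv 1036 (cons (fin 972 5 780)
(fin 1100 5 844))))))))
(cons (mv 782 (cons (fin 846 6 781)
(mv 781 (cons (fin 718 6 717)
(mv 1036 (cons (fin 972 5 780)
(fin 1100 5 844)))))))
(mv 782 (cons (fin 846 6 781)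
(mv 844 (cons (fin 780 7 780)
(mv 1036 (cons (fin 1100 5 844)
(mv 1038 (cons (fin 1102 4 845)
(mv 1035 (cons (mv 974 (cons (fin 1034 2 970)
(fin 975 2 971)))
(cons (mv 970 (cons (fin 971 3 970)
(mv 1034 (cons (fin 969 3 969)
(mv 1098 (cons (fin 1097 1 1033)
(fin 1099 1 1034)))))))
(mv 971 (cons (fin 970 3 970)
(mv 974 (cons (fin 975 2 971)
(mv 1099 (cons (fin 1098 1 1034)
(mv 908 (cons (fin 972 5 843)
(fin 907 6 843))))))))))))))))))))))))
(cons (mv 1101 (cons (cons (mv 844 (cons (fin 908 7 844)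
(mv 846 (cons (fin 910 6 845)
(mv 1164 (cons (fin 1100 5 908)
(mv 1165 (cons (fin 1228 5 972)
(mv 1166 (cons (fin 1102 4 909)
(fin 1230 4 973)))))))))))
(cons (mv 846 (cons (fin 910 6 845)
(mv 1164 (cons (fin 1100 5 908)
(mv 1165 (cons (fin 1228 5 972)
(mv 1166 (cons (fin 1102 4 909)
(fin 1230 4 973)))))))))
(mv 844 (cons (fin 908 7 844)
(mv 1164 (cons (fin 1100 5 908)
(mv 1165 (cons (fin 1228 5 972)
(mv 1166 (cons (fin 1102 4 909)
(fin 1230 4 973)))))))))))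
(cons (mv 844 (cons (fin 908 7 844)
(mv 910 (cons (fin 846 6 845)
(mv 1165 (cons (fin 974 6 909)
(mv 1166 (cons (fin 1102 4 909)
(fin 1230 4 973)))))))))
(cons (mv 844 (cons (fin 908 7 844)
(mv 910 (cons (fin 846 6 845)
(mv 1164 (cons (fin 1100 5 908)
(mv 1165 (cons (fin 1228 5 972)
(fin 974 6 909)))))))))
(mv 844 (cons (fin 908 7 844)
(mv 846 (cons (fin 910 6 845)
(mv 1100 (cons (fin 1164 5 908)
(mv 1102 (cons (fin 1166 4 909)
(mv 1099 (cons (mv 1034 (cons (fin 1035 3 1034)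
(mv 1098 (cons (fin 1033 3 1033)
(fin 1038 2 1034)))))
(cons (mv 1035 (cons (fin 1034 3 1034)
(mv 1036 (cons (fin 1103 3 1035)
(mv 1163 (cons (fin 1162 1 1098)
(mv 1227 (cons (fin 972 6 971)
(fin 1291 6 1035)))))))))
(mv 1098 (cons (fin 1038 2 1034)
(mv 1162 (cons (fin 1161 1 1097)
(fin 1163 1 1098))))))))))))))))))))
(mv 1101 (cons (cons (mv 846 (cons (fin 910 6 845)
(mv 782 (cons (fin 845 6 781)
(mv 1102 (cons (fin 1166 4 909)
(mv 1164 (cons (fin 1100 5 908)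
(mv 1165 (cons (fin 1228 5 972)
(mv 972 (cons (fin 908 7 908)
(mv 1036 (cons (fin 1229 7 972)
(mv 1035 (cons (fin 1034 0 1034)
(mv 1103 (cons (fin 1104 3 1036)
(fin 1038 0 1035)))))))))))))))))))
(cons (mv 846 (cons (fin 910 6 845)
(mv 782 (cons (fin 845 6 781)
(mv 1164 (cons (fin 1100 5 908)
(mv 1165 (cons (fin 1228 5 972)
(mv 972 (cons (fin 908 7 908)
(mv 1229 (cons (fin 1036 7 972)
(mv 1230 (cons (fin 1166 4 973)
(fin 1294 4 1037)))))))))))))))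
(mv 1100 (cons (fin 1164 5 908)
(mv 845 (cons (fin 1036 5 844)
(mv 1102 (cons (fin 1038 4 845)
(fin 1166 4 909)))))))))
(cons (cons (mv 846 (cons (fin 910 6 845)
(mv 782 (cons (fin 845 6 781)
(mv 1166 (cons (fin 1102 4 909)
(mv 1165 (cons (fin 1230 4 973)
(mv 972 (cons (fin 908 7 908)
(mv 1228 (cons (fin 1164 5 972)
(mv 1229 (cons (fin 1036 7 972)
(fin 1292 5 1036)))))))))))))))
(mv 846 (cons (fin 910 6 845)
(mv 845 (cons (fin 782 6 781)
(mv 1102 (cons (fin 1038 4 845)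
(fin 1166 4 909))))))))
(cons (mv 846 (cons (fin 910 6 845)
(mv 782 (cons (fin 845 6 781)
(mv 1164 (cons (fin 1100 5 908)
(mv 1165 (cons (fin 1228 5 972)
(mv 972 (cons (fin 908 7 908)
(mv 1229 (cons (fin 1036 7 972)
(mv 1038 (cons (fin 974 6 973)
(mv 970 (cons (fin 971 0 970)
(mv 1293 (cons (fin 1102 6 1037)
(mv 1294 (cons (fin 1230 4 1037)
(fin 1358 4 1101)))))))))))))))))))))
(mv 846 (cons (fin 910 6 845)
(mv 1102 (cons (fin 1166 4 909)
(mv 1164 (cons (fin 1100 5 908)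
(mv 1165 (cons (fin 1228 5 972)
(mv 972 (cons (fin 908 7 908)
(mv 1036 (cons (fin 1229 7 972)
(mv 1035 (cons (fin 1034 0 1034)
(mv 1103 (cons (fin 1104 3 1036)
(fin 1038 0 1035)))))))))))))))))))))))
(cons (cons (mv 845 (cons (cons (mv 780 (cons (fin 844 7 780)
(mv 716 (cons (fin 781 7 716)
(mv 846 (cons (fin 782 6 781)
(mv 1100 (cons (fin 1036 5 844)
(mv 1101 (cons (fin 1164 5 908)
(fin 910 6 845)))))))))))
(mv 782 (cons (fin 846 6 781)
(mv 781 (cons (fin 718 6 717)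
(mv 1036 (cons (fin 972 5 780)
(fin 1100 5 844))))))))
(cons (mv 780 (cons (fin 844 7 780)
(mv 781 (cons (fin 716 7 716)
(mv 782 (cons (fin 718 6 717)
(fin 846 6 781)))))))
(cons (mv 780 (cons (fin 844 7 780)
(mv 781 (cons (fin 716 7 716)
(mv 1036 (cons (fin 972 5 780)
(fin 1100 5 844)))))))
(mv 780 (cons (fin 844 7 780)
(mv 846 (cons (fin 782 6 781)
(mv 1100 (cons (fin 1036 5 844)
(mv 1101 (cons (fin 1164 5 908)
(fin 910 6 845)))))))))))))
(mv 845 (cons (cons (mv 780 (cons (fin 844 7 780)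
(mv 716 (cons (fin 781 7 716)
(mv 846 (cons (fin 782 6 781)
(mv 1101 (cons (fin 910 6 845)
(mv 1102 (cons (fin 1038 4 845)
(fin 1166 4 909)))))))))))
(cons (mv 782 (cons (fin 846 6 781)
(mv 781 (cons (fin 718 6 717)
(mv 1038 (cons (fin 974 4 781)
(fin 1102 4 845)))))))
(mv 780 (cons (fin 844 7 780)
(mv 781 (cons (fin 716 7 716)
(mv 1038 (cons (fin 974 4 781)
(fin 1102 4 845)))))))))
(cons (mv 780 (cons (fin 844 7 780)
(mv 716 (cons (fin 781 7 716)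
(mv 846 (cons (fin 782 6 781)
(mv 1101 (cons (fin 910 6 845)
(mv 1166 (cons (fin 1102 4 909)
(mv 1165 (cons (fin 1230 4 973)
(mv 972 (cons (fin 908 7 908)
(mv 1228 (cons (fin 1164 5 972)
(mv 1229 (cons (fin 1036 7 972)
(fin 1292 5 1036)))))))))))))))))))
(cons (mv 780 (cons (fin 844 7 780)
(mv 781 (cons (fin 716 7 716)
(mv 782 (cons (fin 718 6 717)
(fin 846 6 781)))))))
(mv 780 (cons (fin 844 7 780)
(mv 846 (cons (fin 782 6 781)
(mv 1101 (cons (fin 910 6 845)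
(mv 1102 (cons (fin 1038 4 845)
(fin 1166 4 909))))))))))))))
(cons (mv 1101 (cons (cons (mv 844 (cons (fin 908 7 844)
(mv 780 (cons (fin 845 7 780)
(mv 1100 (cons (fin 1164 5 908)
(mv 1166 (cons (fin 1102 4 909)
(mv 1165 (cons (fin 1230 4 973)
(mv 974 (cons (fin 910 6 909)
(mv 1098 (cons (fin 1099 0 1098)
(mv 1167 (cons (fin 1168 3 1100)
(mv 1229 (cons (fin 1038 6 973)
(mv 1036 (cons (fin 972 7 972)
(fin 1293 7 1036)))))))))))))))))))))
(cons (mv 1100 (cons (fin 1164 5 908)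
(mv 845 (cons (fin 1036 5 844)
(mv 1102 (cons (fin 1038 4 845)
(fin 1166 4 909)))))))
(mv 844 (cons (fin 908 7 844)
(mv 780 (cons (fin 845 7 780)
(mv 1164 (cons (fin 1100 5 908)
(mv 1165 (cons (fin 1228 5 972)
(mv 974 (cons (fin 910 6 909)
(mv 1229 (cons (fin 1038 6 973)
(mv 1230 (cons (fin 1166 4 973)
(fin 1294 4 1037)))))))))))))))))
(cons (cons (mv 844 (cons (fin 908 7 844)
(mv 780 (cons (fin 845 7 780)
(mv 1166 (cons (fin 1102 4 909)
(mv 1165 (cons (fin 1230 4 973)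
(mv 974 (cons (fin 910 6 909)
(mv 1228 (cons (fin 1164 5 972)
(mv 1229 (cons (fin 1292 5 1036)
(fin 1038 6 973)))))))))))))))
(mv 844 (cons (fin 908 7 844)
(mv 780 (cons (fin 845 7 780)
(mv 1166 (cons (fin 1102 4 909)
(mv 1165 (cons (fin 1230 4 973)
(mv 974 (cons (fin 910 6 909)
(mv 1229 (cons (fin 1038 6 973)
(mv 1036 (cons (fin 972 7 972)
(mv 975 (cons (fin 976 1 972)
(mv 1034 (cons (fin 1035 2 970)
(mv 1292 (cons (fin 1228 5 1036)
(mv 1293 (cons (fin 1100 7 1036)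
(fin 1356 5 1100))))))))))))))))))))))))
(cons (mv 844 (cons (fin 908 7 844)
(mv 845 (cons (fin 780 7 780)
(mv 1100 (cons (fin 1036 5 844)
(fin 1164 5 908)))))))
(mv 844 (cons (fin 908 7 844)
(mv 1100 (cons (fin 1164 5 908)
(mv 1166 (cons (fin 1102 4 909)
(mv 1165 (cons (fin 1230 4 973)
(mv 974 (cons (fin 910 6 909)
(mv 1098 (cons (fin 1099 0 1098)
(mv 1167 (cons (fin 1168 3 1100)
(mv 1229 (cons (fin 1038 6 973)
(mv 1036 (cons (fin 972 7 972)
(fin 1293 7 1036)))))))))))))))))))))))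
(mv 1101 (cons (cons (mv 844 (cons (fin 908 7 844)
(mv 780 (cons (fin 845 7 780)
(mv 846 (cons (fin 910 6 845)
(mv 1164 (cons (fin 1100 5 908)
(mv 1165 (cons (fin 1228 5 972)
(mv 1166 (cons (fin 1102 4 909)
(fin 1230 4 973)))))))))))))
(cons (mv 844 (cons (fin 908 7 844)
(mv 780 (cons (fin 845 7 780)
(mv 1164 (cons (fin 1100 5 908)
(mv 1165 (cons (fin 1228 5 972)
(mv 1166 (cons (fin 1102 4 909)
(fin 1230 4 973)))))))))))
(mv 846 (cons (fin 910 6 845)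
(mv 782 (cons (fin 845 6 781)
(mv 1164 (cons (fin 1100 5 908)
(mv 1165 (cons (fin 1228 5 972)
(mv 1166 (cons (fin 1102 4 909)
(fin 1230 4 973)))))))))))))
(cons (cons (mv 844 (cons (fin 908 7 844)
(mv 780 (cons (fin 845 7 780)
(mv 910 (cons (fin 846 6 845)
(mv 1164 (cons (fin 1100 5 908)
(mv 1165 (cons (fin 1228 5 972)
(fin 974 6 909)))))))))))
(mv 844 (cons (fin 908 7 844)
(mv 780 (cons (fin 845 7 780)
(mv 910 (cons (fin 846 6 845)
(mv 1165 (cons (fin 974 6 909)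
(mv 1166 (cons (fin 1102 4 909)
(fin 1230 4 973))))))))))))
(cons (mv 844 (cons (fin 908 7 844)
(mv 845 (cons (fin 780 7 780)
(mv 846 (cons (fin 782 6 781)
(fin 910 6 845)))))))
(mv 844 (cons (fin 908 7 844)
(mv 846 (cons (fin 910 6 845)
(mv 1164 (cons (fin 1100 5 908)
(mv 1165 (cons (fin 1228 5 972)
(mv 1166 (cons (fin 1102 4 909)
(fin 1230 4 973)))))))))))))))))))
(mv 972 (cons (cons (cons (mv 1038 (cons (fin 1039 3 972)
(mv 971 (cons (fin 970 0 970)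
(mv 974 (cons (cons (mv 906 (cons (fin 907 3 906)
(mv 910 (cons (fin 911 2 907)
(mv 782 (cons (fin 846 5 781)
(mv 1035 (cons (fin 1034 1 970)
(mv 975 (cons (fin 1036 1 971)
(mv 976 (cons (fin 977 1 973)
(mv 909 (cons (fin 908 3 908)
(mv 845 (cons (fin 1102 7 845)
(fin 781 4 781)))))))))))))))))
(cons (mv 906 (cons (fin 907 3 906)
(mv 910 (cons (fin 911 2 907)
(mv 846 (cons (fin 782 5 781)
(mv 845 (cons (fin 781 7 781)
(mv 909 (cons (fin 1102 7 845)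
(mv 844 (cons (fin 780 7 780)
(mv 843 (cons (fin 842 0 842)
(mv 779 (cons (fin 778 3 778)
(mv 1036 (cons (fin 908 7 779)
(fin 1100 5 844)))))))))))))))))))
(mv 906 (cons (fin 907 3 906)
(mv 1035 (cons (fin 1034 1 970)
(mv 975 (cons (fin 1036 1 971)
(mv 911 (cons (fin 912 2 908)
(mv 976 (cons (fin 977 1 973)
(mv 909 (cons (fin 908 3 908)
(mv 845 (cons (fin 781 4 781)
(fin 1102 4 845)))))))))))))))))
(cons (cons (mv 910 (cons (fin 911 2 907)
(mv 782 (cons (fin 846 5 781)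
(mv 1035 (cons (fin 1034 1 970)
(mv 975 (cons (fin 1036 1 971)
(mv 976 (cons (fin 977 1 973)
(mv 909 (cons (fin 908 3 908)
(mv 845 (cons (fin 1102 7 845)
(fin 781 4 781)))))))))))))))
(mv 906 (cons (fin 907 3 906)
(mv 1035 (cons (fin 1034 1 970)
(mv 975 (cons (fin 1036 1 971)
(mv 976 (cons (fin 977 1 973)
(mv 909 (cons (fin 908 3 908)
(mv 845 (cons (fin 781 4 781)
(fin 1102 4 845))))))))))))))
(cons (mv 906 (cons (fin 907 3 906)
(mv 910 (cons (fin 911 2 907)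
(mv 846 (cons (fin 782 5 781)
(mv 845 (cons (fin 781 7 781)
(mv 1034 (cons (fin 1035 1 970)
(mv 1102 (cons (fin 909 7 845)
(mv 1166 (cons (fin 1230 7 973)
(mv 1167 (cons (fin 1103 4 910)
(fin 1231 4 974)))))))))))))))))
(mv 906 (cons (fin 907 3 906)
(mv 910 (cons (fin 911 2 907)
(mv 782 (cons (fin 846 5 781)
(mv 1035 (cons (fin 1034 1 970)
(mv 1036 (cons (fin 975 1 971)
(mv 1099 (cons (fin 1098 1 1034)
(mv 908 (cons (fin 844 5 843)
(fin 1163 6 907)))))))))))))))))))))))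
(mv 974 (cons (mv 975 (cons (fin 1039 0 972)
(mv 1036 (cons (fin 1035 1 971)
(fin 976 1 972)))))
(cons (mv 971 (cons (cons (mv 906 (cons (fin 907 3 906)
(mv 910 (cons (fin 911 2 907)
(mv 970 (cons (fin 905 3 905)
(fin 909 2 906)))))))
(mv 906 (cons (fin 907 3 906)
(mv 970 (cons (fin 905 3 905)
(mv 1034 (cons (fin 1033 1 969)
(fin 1035 1 970))))))))
(cons (mv 910 (cons (fin 911 2 907)
(mv 782 (cons (fin 846 5 781)
(mv 970 (cons (fin 909 2 906)
(mv 1034 (cons (fin 1033 1 969)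
(fin 1035 1 970)))))))))
(mv 907 (cons (fin 906 3 906)
(mv 910 (cons (fin 911 2 907)
(mv 782 (cons (fin 846 5 781)
(mv 1035 (cons (fin 1034 1 970)
(mv 843 (cons (cons (mv 1036 (cons (fin 779 4 779)
(fin 1100 4 843)))
(mv 778 (cons (fin 842 7 778)
(mv 714 (cons (fin 779 7 714)
(mv 844 (cons (fin 780 6 779)
(mv 1099 (cons (fin 908 6 843)
(mv 1162 (cons (fin 1098 5 906)
(mv 1163 (cons (fin 1226 5 970)
(mv 1164 (cons (fin 1100 4 907)
(fin 1228 4 971))))))))))))))))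
(cons (mv 778 (cons (fin 842 7 778)
(mv 780 (cons (fin 844 6 779)
(mv 1100 (cons (fin 1036 4 843)
(mv 1099 (cons (fin 1164 4 907)
(mv 1162 (cons (fin 1098 5 906)
(mv 1163 (cons (fin 1226 5 970)
(fin 908 6 907)))))))))))))
(mv 778 (cons (fin 842 7 778)
(mv 779 (cons (fin 714 7 714)
(fin 1036 4 779)))))))))))))))))))
(mv 975 (cons (fin 1039 0 972)
(mv 907 (cons (fin 908 3 907)
(mv 911 (cons (fin 912 2 908)
(mv 971 (cons (fin 906 3 906)
(fin 910 2 907)))))))))))))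
(cons (mv 971 (cons (cons (mv 970 (cons (fin 1038 0 970)
(mv 905 (cons (fin 906 3 905)
(mv 969 (cons (fin 904 3 904)
(fin 1036 0 969)))))))
(mv 974 (cons (cons (mv 906 (cons (fin 907 3 906)
(mv 911 (cons (fin 910 2 907)
(mv 975 (cons (fin 912 2 908)
(mv 1035 (cons (fin 1034 1 970)
(fin 1036 1 971)))))))))
(cons (mv 906 (cons (fin 907 3 906)
(mv 911 (cons (fin 910 2 907)
(mv 975 (cons (fin 912 2 908)
(mv 976 (cons (fin 1036 1 972)
(mv 909 (cons (fin 908 3 908)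
(mv 1038 (cons (fin 977 1 973)
(mv 845 (cons (fin 781 4 781)
(fin 1102 4 845)))))))))))))))
(mv 911 (cons (fin 910 2 907)
(mv 975 (cons (fin 912 2 908)
(mv 1035 (cons (fin 1034 1 970)
(fin 1036 1 971)))))))))
(cons (cons (mv 906 (cons (fin 907 3 906)
(mv 1035 (cons (fin 1034 1 970)
(mv 975 (cons (fin 1036 1 971)
(mv 912 (cons (fin 911 2 908)
(mv 976 (cons (fin 913 2 909)
(mv 909 (cons (fin 908 3 908)
(mv 1038 (cons (fin 977 1 973)
(mv 845 (cons (fin 781 4 781)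
(fin 1102 4 845)))))))))))))))))
(mv 907 (cons (fin 906 3 906)
(mv 908 (cons (fin 975 3 907)
(mv 780 (cons (fin 844 4 780)
(mv 1035 (cons (fin 1034 1 970)
(mv 1099 (cons (fin 1163 6 907)
(mv 1098 (cons (fin 1162 5 906)
(mv 1036 (cons (fin 1038 1 1034)
(mv 843 (cons (fin 1100 7 843)
(fin 779 4 779))))))))))))))))))
(cons (mv 907 (cons (fin 906 3 906)
(mv 910 (cons (fin 911 2 907)
(mv 782 (cons (fin 846 5 781)
(mv 1035 (cons (fin 1034 1 970)
(mv 843 (cons (cons (mv 1036 (cons (fin 779 4 779)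
(fin 1100 4 843)))
(mv 778 (cons (fin 842 7 778)
(mv 714 (cons (fin 779 7 714)
(mv 844 (cons (fin 780 6 779)
(mv 1099 (cons (fin 908 6 843)
(mv 1162 (cons (fin 1098 5 906)
(mv 1163 (cons (fin 1226 5 970)
(mv 1164 (cons (fin 1100 4 907)
(fin 1228 4 971))))))))))))))))
(cons (mv 778 (cons (fin 842 7 778)
(mv 780 (cons (fin 844 6 779)
(mv 1100 (cons (fin 1036 4 843)
(mv 1099 (cons (fin 1164 4 907)
(mv 1162 (cons (fin 1098 5 906)
(mv 1163 (cons (fin 1226 5 970)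
(fin 908 6 907)))))))))))))
(mv 778 (cons (fin 842 7 778)
(mv 779 (cons (fin 714 7 714)
(fin 1036 4 779))))))))))))))))
(mv 907 (cons (fin 906 3 906)
(mv 908 (cons (fin 975 3 907)
(mv 844 (cons (fin 780 4 780)
(mv 1035 (cons (fin 1034 1 970)
(fin 1099 6 843))))))))))))))
(cons (mv 970 (cons (mv 905 (cons (fin 906 3 905)
(mv 969 (cons (fin 904 3 904)
(fin 1036 0 969)))))
(cons (mv 905 (cons (fin 906 3 905)
(mv 910 (cons (fin 909 2 906)
(mv 974 (cons (fin 911 2 907)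
(mv 1034 (cons (fin 1033 1 969)
(fin 1035 1 970)))))))))
(mv 909 (cons (fin 910 2 906)
(mv 969 (cons (fin 908 2 905)
(fin 1036 0 969))))))))
(cons (mv 970 (cons (fin 1038 0 970)
(mv 909 (cons (fin 910 2 906)
(mv 969 (cons (fin 908 2 905)
(fin 1036 0 969)))))))
(mv 970 (cons (fin 1038 0 970)
(mv 905 (cons (fin 906 3 905)
(mv 904 (cons (fin 969 3 904)
(mv 910 (cons (fin 909 2 906)
(mv 974 (cons (fin 911 2 907)
(mv 1034 (cons (fin 1033 1 969)
(fin 1035 1 970)))))))))))))))))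
(cons (mv 1038 (cons (fin 1039 3 972)
(mv 1036 (cons (cons (cons (mv 970 (cons (fin 971 0 970)
(mv 1035 (cons (mv 1034 (cons (fin 969 3 969)
(fin 1033 2 969)))
(mv 1099 (cons (fin 1098 1 1034)
(mv 908 (cons (fin 844 5 843)
(mv 1163 (cons (fin 1100 5 907)
(fin 1227 6 971)))))))))))
(mv 909 (cons (mv 845 (cons (fin 781 5 780)
(fin 1100 5 844)))
(cons (mv 1100 (cons (fin 1164 6 908)
(mv 908 (cons (cons (mv 780 (cons (fin 844 4 780)
(mv 843 (cons (fin 907 7 843)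
(mv 1099 (cons (fin 1163 5 907)
(mv 1098 (cons (fin 1035 1 1034)
(fin 1097 2 1033)))))))))
(mv 843 (cons (fin 907 7 843)
(mv 1099 (cons (fin 1163 5 907)
(mv 1098 (cons (fin 1035 1 1034)
(fin 1097 2 1033))))))))
(cons (mv 843 (cons (fin 907 7 843)
(mv 844 (cons (fin 779 7 779)
(fin 780 4 780)))))
(mv 780 (cons (fin 844 4 780)
(mv 1099 (cons (fin 1163 5 907)
(mv 1098 (cons (fin 1035 1 1034)
(fin 1097 2 1033))))))))))))
(mv 845 (cons (fin 781 5 780)
(fin 1102 4 845)))))))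
(cons (mv 970 (cons (fin 971 0 970)
(mv 1100 (cons (mv 909 (cons (fin 845 5 844)
(fin 1164 6 908)))
(cons (mv 1164 (cons (fin 1228 6 972)
(mv 1163 (cons (fin 1227 5 971)
(mv 908 (cons (fin 1099 5 907)
(mv 843 (cons (fin 907 7 843)
(mv 844 (cons (fin 779 7 779)
(fin 780 4 780)))))))))))
(mv 908 (cons (cons (mv 780 (cons (fin 844 4 780)
(mv 907 (cons (fin 843 7 843)
(mv 906 (cons (fin 905 0 905)
(mv 909 (cons (fin 969 1 905)
(fin 845 5 844)))))))))
(mv 780 (cons (fin 844 4 780)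
(mv 907 (cons (fin 843 7 843)
(mv 906 (cons (fin 905 0 905)
(mv 969 (cons (fin 909 1 905)
(mv 967 (cons (fin 968 2 903)
(mv 1099 (cons (fin 1163 5 907)
(mv 1097 (cons (fin 1098 2 1033)
(mv 1033 (cons (fin 1161 6 905)
(mv 842 (cons (fin 778 5 777)
(fin 1034 5 841))))))))))))))))))))
(cons (mv 843 (cons (fin 907 7 843)
(mv 844 (cons (fin 779 7 779)
(fin 780 4 780)))))
(cons (mv 907 (cons (fin 843 7 843)
(mv 906 (cons (fin 905 0 905)
(mv 909 (cons (fin 969 1 905)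
(fin 845 5 844)))))))
(mv 844 (cons (fin 780 4 780)
(mv 845 (cons (fin 909 5 844)
(fin 781 6 780))))))))))))))
(mv 1035 (cons (cons (mv 970 (cons (fin 971 3 970)
(mv 1034 (cons (fin 969 3 969)
(fin 1033 2 969)))))
(mv 1033 (cons (fin 1034 2 969)
(mv 1099 (cons (fin 1098 1 1034)
(mv 908 (cons (fin 844 5 843)
(mv 1163 (cons (fin 971 6 907)
(fin 1227 6 971))))))))))
(cons (mv 1034 (cons (fin 1033 2 969)
(mv 1098 (cons (fin 1097 1 1033)
(fin 1099 1 1034)))))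
(mv 971 (cons (fin 970 3 970)
(mv 1099 (cons (fin 1098 1 1034)
(mv 908 (cons (fin 844 5 843)
(fin 1163 6 907))))))))))))
(cons (cons (mv 909 (cons (mv 845 (cons (fin 781 5 780)
(fin 1100 5 844)))
(cons (mv 1164 (cons (fin 1100 6 908)
(mv 1035 (cons (cons (mv 970 (cons (fin 971 3 970)
(mv 1034 (cons (fin 969 3 969)
(fin 1033 2 969)))))
(mv 1033 (cons (fin 1034 2 969)
(mv 1099 (cons (fin 1098 1 1034)
(mv 1102 (cons (fin 1103 0 1035)
(mv 1163 (cons (fin 1227 6 971)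
(mv 1228 (cons (fin 971 4 971)
(mv 1230 (cons (fin 1166 7 973)
(mv 1229 (cons (fin 1231 3 1163)
(mv 1162 (cons (fin 1161 0 1161)
(fin 1165 0 1162))))))))))))))))))
(cons (mv 1034 (cons (fin 1033 2 969)
(mv 1098 (cons (fin 1097 1 1033)
(fin 1099 1 1034)))))
(mv 971 (cons (fin 970 3 970)
(mv 1099 (cons (fin 1098 1 1034)
(mv 1163 (cons (fin 1227 6 971)
(fin 1228 4 971))))))))))))
(mv 845 (cons (fin 781 5 780)
(fin 1102 4 845))))))
(mv 970 (cons (fin 971 0 970)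
(mv 1102 (cons (cons (mv 845 (cons (fin 909 4 845)
(mv 1035 (cons (fin 1103 0 1035)
(mv 1034 (cons (fin 969 3 969)
(fin 1033 2 969)))))))
(mv 1035 (cons (fin 1103 0 1035)
(mv 1034 (cons (fin 969 3 969)
(fin 1033 2 969))))))
(cons (mv 1166 (cons (fin 1230 7 973)
(mv 908 (cons (cons (mv 780 (cons (fin 844 4 780)
(mv 909 (cons (fin 845 4 845)
(mv 1100 (cons (fin 1164 6 908)
(mv 907 (cons (fin 843 7 843)
(mv 906 (cons (fin 969 1 905)
(fin 905 0 905)))))))))))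
(mv 844 (cons (fin 780 4 780)
(mv 781 (cons (fin 845 6 780)
(mv 843 (cons (fin 779 7 779)
(mv 1100 (cons (fin 907 7 843)
(mv 1164 (cons (fin 1228 6 972)
(mv 1163 (cons (fin 1227 5 971)
(mv 1165 (cons (fin 1103 2 1099)
(fin 1229 4 972))))))))))))))))
(cons (mv 844 (cons (fin 780 4 780)
(mv 843 (cons (fin 779 7 779)
(mv 907 (cons (fin 1100 7 843)
(mv 906 (cons (fin 905 0 905)
(mv 909 (cons (fin 969 1 905)
(mv 842 (cons (fin 841 3 841)
(fin 910 3 842)))))))))))))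
(cons (mv 909 (cons (fin 845 4 845)
(mv 1100 (cons (fin 1164 6 908)
(mv 907 (cons (fin 843 7 843)
(mv 906 (cons (fin 969 1 905)
(fin 905 0 905)))))))))
(mv 844 (cons (fin 780 4 780)
(mv 845 (cons (fin 781 6 780)
(fin 909 4 845)))))))))))
(cons (mv 1166 (cons (fin 1230 7 973)
(mv 908 (cons (cons (mv 780 (cons (fin 844 4 780)
(mv 909 (cons (fin 845 4 845)
(mv 1100 (cons (fin 1164 6 908)
(mv 907 (cons (fin 843 7 843)
(mv 906 (cons (fin 969 1 905)
(fin 905 0 905)))))))))))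
(mv 844 (cons (fin 780 4 780)
(mv 781 (cons (fin 845 6 780)
(mv 843 (cons (fin 779 7 779)
(mv 907 (cons (fin 1100 7 843)
(mv 906 (cons (fin 905 0 905)
(mv 1034 (cons (fin 1098 6 842)
(mv 1035 (cons (fin 969 3 969)
(fin 1033 2 969))))))))))))))))
(cons (mv 844 (cons (fin 780 4 780)
(mv 843 (cons (fin 779 7 779)
(mv 907 (cons (fin 1100 7 843)
(mv 906 (cons (fin 905 0 905)
(mv 909 (cons (fin 969 1 905)
(mv 842 (cons (fin 841 3 841)
(fin 910 3 842)))))))))))))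
(cons (mv 909 (cons (fin 845 4 845)
(mv 1100 (cons (fin 1164 6 908)
(mv 907 (cons (fin 843 7 843)
(mv 906 (cons (fin 969 1 905)
(fin 905 0 905)))))))))
(mv 844 (cons (fin 780 4 780)
(mv 845 (cons (fin 781 6 780)
(fin 909 4 845)))))))))))
(mv 909 (cons (fin 845 4 845)
(mv 1103 (cons (fin 1035 0 1035)
(mv 1104 (cons (fin 1105 3 1037)
(mv 1164 (cons (fin 1100 6 908)
(mv 1166 (cons (fin 1230 7 973)
(mv 1165 (cons (fin 1163 2 1099)
(fin 1167 2 1100))))))))))))))))))))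
(cons (mv 970 (cons (fin 971 0 970)
(mv 909 (cons (mv 845 (cons (fin 781 5 780)
(fin 1100 5 844)))
(cons (mv 1100 (cons (fin 1164 6 908)
(mv 908 (cons (mv 780 (cons (fin 844 4 780)
(mv 907 (cons (fin 843 7 843)
(mv 906 (cons (fin 969 1 905)
(fin 905 0 905)))))))
(cons (mv 907 (cons (fin 843 7 843)
(mv 906 (cons (fin 969 1 905)
(fin 905 0 905)))))
(mv 844 (cons (fin 780 4 780)
(mv 1099 (cons (fin 1035 5 843)
(fin 1163 5 907))))))))))
(mv 845 (cons (fin 781 5 780)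
(fin 1102 4 845))))))))
(mv 970 (cons (fin 971 0 970)
(mv 909 (cons (mv 845 (cons (fin 781 5 780)
(fin 1100 5 844)))
(cons (mv 1100 (cons (fin 1164 6 908)
(mv 1035 (cons (mv 1034 (cons (fin 969 3 969)
(fin 1033 2 969)))
(cons (mv 1099 (cons (fin 1098 1 1034)
(mv 908 (cons (fin 844 5 843)
(mv 907 (cons (fin 843 7 843)
(mv 906 (cons (fin 969 1 905)
(fin 905 0 905)))))))))
(mv 1034 (cons (fin 1033 2 969)
(mv 1098 (cons (fin 1097 1 1033)
(fin 1099 1 1034))))))))))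
(mv 845 (cons (fin 781 5 780)
(fin 1102 4 845))))))))))))))
(mv 1036 (cons (cons (cons (mv 1038 (cons (fin 1039 3 972)
(mv 1035 (cons (mv 974 (cons (fin 975 1 971)
(fin 1034 2 970)))
(cons (mv 1033 (cons (fin 1034 2 969)
(mv 1099 (cons (fin 1098 1 1034)
(mv 908 (cons (fin 844 5 843)
(mv 1163 (cons (fin 1100 5 907)
(fin 1227 6 971)))))))))
(mv 974 (cons (fin 975 1 971)
(mv 1098 (cons (fin 1099 1 1034)
(mv 1102 (cons (fin 1103 0 1035)
(mv 909 (cons (fin 1166 7 909)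
(fin 845 4 845))))))))))))))
(mv 1035 (cons (mv 974 (cons (fin 975 1 971)
(fin 1034 2 970)))
(cons (mv 1034 (cons (fin 1033 2 969)
(mv 969 (cons (fin 970 3 969)
(mv 1098 (cons (fin 1097 1 1033)
(mv 1099 (cons (fin 1038 1 1034)
(mv 908 (cons (fin 844 5 843)
(mv 1163 (cons (fin 1100 5 907)
(fin 1227 6 971)))))))))))))
(mv 974 (cons (fin 975 1 971)
(mv 1099 (cons (mv 844 (cons (fin 908 5 843)
(mv 1038 (cons (fin 1098 1 1034)
(mv 1102 (cons (fin 1103 0 1035)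
(mv 909 (cons (fin 1166 7 909)
(fin 845 4 845)))))))))
(cons (mv 1038 (cons (fin 1098 1 1034)
(mv 1102 (cons (fin 1103 0 1035)
(mv 909 (cons (fin 1166 7 909)
(fin 845 4 845)))))))
(mv 908 (cons (fin 844 5 843)
(mv 1163 (cons (fin 1100 5 907)
(fin 1227 6 971))))))))))))))
(cons (mv 1100 (cons (mv 909 (cons (fin 845 5 844)
(fin 1164 6 908)))
(cons (mv 1164 (cons (fin 1228 6 972)
(mv 1163 (cons (fin 1227 5 971)
(mv 908 (cons (fin 1099 5 907)
(mv 843 (cons (fin 907 7 843)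
(mv 844 (cons (fin 779 7 779)
(fin 780 4 780)))))))))))
(mv 909 (cons (fin 845 5 844)
(mv 908 (cons (mv 780 (cons (fin 844 4 780)
(mv 907 (cons (fin 843 7 843)
(mv 906 (cons (fin 905 0 905)
(fin 974 0 906)))))))
(cons (mv 844 (cons (fin 780 4 780)
(mv 1099 (cons (fin 1035 5 843)
(fin 1163 5 907)))))
(mv 907 (cons (fin 843 7 843)
(mv 906 (cons (fin 905 0 905)
(fin 974 0 906)))))))))))))
(mv 1038 (cons (fin 1039 3 972)
(mv 909 (cons (mv 845 (cons (fin 781 5 780)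
(fin 1100 5 844)))
(cons (mv 1100 (cons (fin 1164 6 908)
(mv 908 (cons (cons (mv 780 (cons (fin 844 4 780)
(mv 843 (cons (fin 907 7 843)
(mv 1099 (cons (fin 1163 5 907)
(mv 1098 (cons (fin 1035 1 1034)
(fin 1097 2 1033)))))))))
(mv 843 (cons (fin 907 7 843)
(mv 1099 (cons (fin 1163 5 907)
(mv 1098 (cons (fin 1035 1 1034)
(fin 1097 2 1033))))))))
(cons (mv 843 (cons (fin 907 7 843)
(mv 844 (cons (fin 779 7 779)
(fin 780 4 780)))))
(mv 780 (cons (fin 844 4 780)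
(mv 1099 (cons (fin 1163 5 907)
(mv 1098 (cons (fin 1035 1 1034)
(fin 1097 2 1033))))))))))))
(mv 845 (cons (fin 781 5 780)
(fin 1102 4 845))))))))))
(cons (cons (mv 1038 (cons (fin 1039 3 972)
(mv 1100 (cons (mv 909 (cons (fin 845 5 844)
(fin 1164 6 908)))
(cons (mv 1164 (cons (fin 1228 6 972)
(mv 1163 (cons (fin 1227 5 971)
(mv 908 (cons (fin 1099 5 907)
(mv 843 (cons (fin 907 7 843)
(mv 844 (cons (fin 779 7 779)
(fin 780 4 780)))))))))))
(mv 908 (cons (cons (mv 780 (cons (fin 844 4 780)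
(mv 907 (cons (fin 843 7 843)
(mv 906 (cons (fin 905 0 905)
(mv 909 (cons (fin 974 0 906)
(fin 845 5 844)))))))))
(mv 780 (cons (fin 844 4 780)
(mv 907 (cons (fin 843 7 843)
(mv 906 (cons (fin 905 0 905)
(mv 974 (cons (fin 975 3 907)
(fin 909 0 906))))))))))
(cons (mv 843 (cons (fin 907 7 843)
(mv 844 (cons (fin 779 7 779)
(fin 780 4 780)))))
(cons (mv 907 (cons (fin 843 7 843)
(mv 906 (cons (fin 905 0 905)
(mv 909 (cons (fin 974 0 906)
(fin 845 5 844)))))))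
(mv 844 (cons (fin 780 4 780)
(mv 845 (cons (fin 909 5 844)
(fin 781 6 780))))))))))))))
(mv 1038 (cons (fin 1039 3 972)
(mv 1035 (cons (mv 974 (cons (fin 975 1 971)
(fin 1034 2 970)))
(cons (mv 1034 (cons (fin 1033 2 969)
(mv 1098 (cons (fin 1097 1 1033)
(fin 1099 1 1034)))))
(mv 974 (cons (fin 975 1 971)
(mv 1098 (cons (fin 1099 1 1034)
(mv 1102 (cons (fin 1103 0 1035)
(mv 909 (cons (fin 1166 7 909)
(fin 845 4 845)))))))))))))))
(cons (mv 1038 (cons (fin 1039 3 972)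
(mv 1035 (cons (mv 974 (cons (fin 975 1 971)
(fin 1034 2 970)))
(cons (mv 1033 (cons (fin 1034 2 969)
(mv 1099 (cons (fin 1098 1 1034)
(mv 908 (cons (fin 844 5 843)
(mv 1163 (cons (fin 1100 5 907)
(fin 1227 6 971)))))))))
(mv 974 (cons (fin 975 1 971)
(mv 1099 (cons (fin 1098 1 1034)
(mv 844 (cons (fin 908 5 843)
(mv 1102 (cons (fin 1103 0 1035)
(mv 1166 (cons (fin 1230 7 973)
(mv 1165 (cons (fin 1229 5 973)
(mv 1167 (cons (fin 1231 4 974)
(mv 1164 (cons (fin 1100 3 1099)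
(mv 1227 (cons (fin 1228 1 1163)
(fin 1163 6 971))))))))))))))))))))))))
(mv 1038 (cons (fin 1039 3 972)
(mv 974 (cons (mv 975 (cons (fin 1035 1 971)
(fin 976 1 972)))
(cons (mv 1035 (cons (fin 1034 2 970)
(mv 1102 (cons (fin 1103 0 1035)
(mv 909 (cons (fin 1166 7 909)
(fin 845 4 845)))))))
(mv 975 (cons (fin 976 1 972)
(mv 908 (cons (fin 907 3 907)
(mv 844 (cons (fin 780 4 780)
(mv 779 (cons (fin 843 7 779)
(mv 845 (cons (fin 781 6 780)
(mv 909 (cons (fin 1100 5 844)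
(fin 1102 4 845)))))))))))))))))))))))))
(cons (cons (mv 974 (cons (mv 1039 (cons (fin 1038 3 972)
(fin 975 0 972)))
(cons (mv 975 (cons (mv 1036 (cons (fin 1035 1 971)
(fin 976 1 972)))
(mv 907 (cons (fin 908 3 907)
(mv 911 (cons (fin 912 2 908)
(mv 971 (cons (fin 906 3 906)
(fin 910 2 907)))))))))
(mv 1038 (cons (fin 1039 3 972)
(mv 1102 (cons (mv 909 (cons (fin 1166 7 909)
(fin 845 4 845)))
(cons (mv 1166 (cons (fin 1230 7 973)
(mv 1165 (cons (fin 1229 5 973)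
(mv 1167 (cons (fin 1231 4 974)
(mv 1103 (cons (fin 910 4 910)
(mv 1104 (cons (fin 1105 3 1037)
(fin 1164 2 1100)))))))))))
(mv 845 (cons (fin 909 4 845)
(mv 910 (cons (mv 846 (cons (fin 781 7 781)
(fin 782 5 781)))
(mv 971 (cons (fin 911 2 907)
(mv 906 (cons (fin 907 3 906)
(mv 1035 (cons (fin 1034 1 970)
(mv 1103 (cons (fin 1036 0 1035)
(fin 1167 4 910)))))))))))))))))))))
(cons (mv 1038 (cons (fin 1039 3 972)
(mv 971 (cons (fin 970 0 970)
(mv 974 (cons (cons (mv 906 (cons (fin 907 3 906)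
(mv 910 (cons (fin 911 2 907)
(mv 782 (cons (fin 846 5 781)
(mv 1035 (cons (fin 1034 1 970)
(mv 1036 (cons (fin 975 1 971)
(mv 1098 (cons (fin 1099 1 1034)
(mv 1102 (cons (fin 1103 0 1035)
(mv 909 (cons (fin 845 7 845)
(fin 1166 7 909)))))))))))))))))
(mv 906 (cons (fin 907 3 906)
(mv 910 (cons (fin 911 2 907)
(mv 846 (cons (fin 782 5 781)
(mv 845 (cons (fin 781 7 781)
(mv 1102 (cons (fin 909 7 845)
(mv 1166 (cons (fin 1230 7 973)
(mv 1167 (cons (fin 1103 4 910)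
(fin 1231 4 974))))))))))))))))
(cons (mv 906 (cons (fin 907 3 906)
(mv 1035 (cons (fin 1034 1 970)
(mv 975 (cons (fin 1036 1 971)
(mv 912 (cons (fin 911 2 908)
(mv 976 (cons (fin 977 1 973)
(fin 913 2 909)))))))))))
(cons (mv 906 (cons (fin 907 3 906)
(mv 1035 (cons (fin 1034 1 970)
(mv 1036 (cons (fin 975 1 971)
(mv 1098 (cons (fin 1099 1 1034)
(mv 1102 (cons (fin 1103 0 1035)
(mv 909 (cons (fin 1166 7 909)
(fin 845 4 845)))))))))))))
(mv 910 (cons (fin 911 2 907)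
(mv 782 (cons (fin 846 5 781)
(mv 1035 (cons (fin 1034 1 970)
(mv 1036 (cons (fin 975 1 971)
(mv 1098 (cons (fin 1099 1 1034)
(mv 1102 (cons (fin 1103 0 1035)
(mv 909 (cons (fin 845 7 845)
(fin 1166 7 909)))))))))))))))))))))))
(mv 1038 (cons (fin 1039 3 972)
(mv 971 (cons (fin 970 0 970)
(mv 974 (cons (cons (mv 906 (cons (fin 907 3 906)
(mv 910 (cons (fin 911 2 907)
(mv 846 (cons (fin 782 5 781)
(mv 845 (cons (fin 781 7 781)
(mv 1034 (cons (fin 1035 1 970)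
(mv 1102 (cons (fin 909 7 845)
(mv 1166 (cons (fin 1230 7 973)
(mv 1167 (cons (fin 1103 4 910)
(fin 1231 4 974)))))))))))))))))
(mv 907 (cons (fin 906 3 906)
(mv 908 (cons (fin 975 3 907)
(mv 844 (cons (fin 780 4 780)
(mv 1035 (cons (fin 1034 1 970)
(fin 1099 6 843))))))))))
(cons (mv 910 (cons (fin 911 2 907)
(mv 846 (cons (fin 782 5 781)
(mv 845 (cons (fin 781 7 781)
(mv 1034 (cons (fin 1035 1 970)
(mv 1102 (cons (fin 909 7 845)
(mv 1166 (cons (fin 1230 7 973)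
(mv 1167 (cons (fin 1103 4 910)
(fin 1231 4 974)))))))))))))))
(mv 906 (cons (fin 907 3 906)
(mv 910 (cons (fin 911 2 907)
(mv 846 (cons (fin 782 5 781)
(mv 845 (cons (fin 781 7 781)
(mv 1102 (cons (fin 909 7 845)
(mv 1166 (cons (fin 1230 7 973)
(mv 1167 (cons (fin 1103 4 910)
(fin 1231 4 974))))))))))))))))))))))))
(cons (mv 1038 (cons (fin 1039 3 972)
(mv 971 (cons (fin 970 0 970)
(mv 974 (cons (cons (mv 906 (cons (fin 907 3 906)
(mv 910 (cons (fin 911 2 907)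
(mv 782 (cons (fin 846 5 781)
(mv 1035 (cons (fin 1034 1 970)
(mv 1036 (cons (fin 975 1 971)
(mv 1099 (cons (fin 1098 1 1034)
(mv 908 (cons (fin 844 5 843)
(fin 1163 6 907)))))))))))))))
(cons (mv 906 (cons (fin 907 3 906)
(mv 911 (cons (fin 910 2 907)
(mv 975 (cons (fin 912 2 908)
(mv 976 (cons (fin 1036 1 972)
(fin 977 1 973)))))))))
(mv 910 (cons (fin 911 2 907)
(mv 782 (cons (fin 846 5 781)
(mv 1035 (cons (fin 1034 1 970)
(mv 1036 (cons (fin 975 1 971)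
(mv 1099 (cons (fin 1098 1 1034)
(mv 908 (cons (fin 844 5 843)
(fin 1163 6 907)))))))))))))))
(cons (cons (mv 906 (cons (fin 907 3 906)
(mv 1035 (cons (fin 1034 1 970)
(mv 975 (cons (fin 1036 1 971)
(mv 912 (cons (fin 911 2 908)
(mv 976 (cons (fin 977 1 973)
(fin 913 2 909)))))))))))
(mv 906 (cons (fin 907 3 906)
(mv 1035 (cons (fin 1034 1 970)
(mv 1036 (cons (fin 975 1 971)
(mv 1099 (cons (fin 1098 1 1034)
(mv 908 (cons (fin 844 5 843)
(fin 1163 6 907))))))))))))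
(cons (mv 907 (cons (fin 906 3 906)
(mv 910 (cons (fin 911 2 907)
(mv 782 (cons (fin 846 5 781)
(mv 1035 (cons (fin 1034 1 970)
(mv 1036 (cons (mv 843 (cons (fin 779 4 779)
(fin 1100 4 843)))
(cons (mv 779 (cons (fin 843 4 779)
(mv 1099 (cons (fin 1098 1 1034)
(mv 908 (cons (fin 844 5 843)
(fin 1163 6 907)))))))
(mv 1099 (cons (fin 1098 1 1034)
(mv 908 (cons (fin 844 5 843)
(fin 1163 6 907))))))))))))))))
(mv 907 (cons (fin 906 3 906)
(mv 908 (cons (fin 975 3 907)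
(mv 844 (cons (fin 780 4 780)
(mv 1035 (cons (fin 1034 1 970)
(fin 1099 6 843)))))))))))))))))
(cons (mv 1038 (cons (fin 1039 3 972)
(mv 971 (cons (fin 970 0 970)
(mv 974 (cons (cons (mv 906 (cons (fin 907 3 906)
(mv 910 (cons (fin 911 2 907)
(mv 846 (cons (fin 782 5 781)
(mv 845 (cons (fin 781 7 781)
(mv 909 (cons (fin 1102 7 845)
(mv 844 (cons (fin 780 7 780)
(mv 843 (cons (fin 842 0 842)
(mv 779 (cons (fin 778 3 778)
(mv 1036 (cons (fin 908 7 779)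
(fin 1100 5 844)))))))))))))))))))
(mv 907 (cons (fin 906 3 906)
(mv 975 (cons (fin 908 3 907)
(mv 976 (cons (fin 1036 1 972)
(fin 977 1 973))))))))
(cons (mv 910 (cons (fin 911 2 907)
(mv 846 (cons (fin 782 5 781)
(mv 845 (cons (fin 781 7 781)
(mv 909 (cons (fin 1102 7 845)
(mv 844 (cons (fin 780 7 780)
(mv 843 (cons (fin 842 0 842)
(mv 779 (cons (fin 778 3 778)
(mv 1036 (cons (fin 908 7 779)
(fin 1100 5 844)))))))))))))))))
(mv 906 (cons (fin 907 3 906)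
(mv 910 (cons (fin 911 2 907)
(mv 846 (cons (fin 782 5 781)
(mv 845 (cons (fin 781 7 781)
(mv 1102 (cons (fin 909 7 845)
(mv 1166 (cons (fin 1230 7 973)
(mv 1167 (cons (fin 1103 4 910)
(fin 1231 4 974))))))))))))))))))))))
(mv 1038 (cons (fin 1039 3 972)
(mv 971 (cons (fin 970 0 970)
(mv 974 (cons (cons (mv 910 (cons (fin 911 2 907)
(mv 782 (cons (fin 846 5 781)
(mv 1035 (cons (fin 1034 1 970)
(mv 975 (cons (fin 1036 1 971)
(mv 976 (cons (fin 977 1 973)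
(mv 909 (cons (fin 908 3 908)
(mv 845 (cons (fin 1102 7 845)
(fin 781 4 781)))))))))))))))
(cons (mv 910 (cons (fin 911 2 907)
(mv 846 (cons (fin 782 5 781)
(mv 845 (cons (fin 781 7 781)
(mv 909 (cons (fin 1102 7 845)
(mv 844 (cons (fin 780 7 780)
(mv 843 (cons (fin 842 0 842)
(mv 779 (cons (fin 778 3 778)
(mv 1036 (cons (fin 908 7 779)
(fin 1100 5 844)))))))))))))))))
(mv 1035 (cons (fin 1034 1 970)
(mv 975 (cons (fin 1036 1 971)
(mv 911 (cons (fin 912 2 908)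
(mv 976 (cons (fin 977 1 973)
(mv 909 (cons (fin 908 3 908)
(mv 845 (cons (fin 781 4 781)
(fin 1102 4 845)))))))))))))))
(cons (mv 1035 (cons (fin 1034 1 970)
(mv 975 (cons (fin 1036 1 971)
(mv 976 (cons (fin 977 1 973)
(mv 909 (cons (fin 908 3 908)
(mv 845 (cons (fin 781 4 781)
(fin 1102 4 845)))))))))))
(cons (mv 910 (cons (fin 911 2 907)
(mv 846 (cons (fin 782 5 781)
(mv 845 (cons (fin 781 7 781)
(mv 1034 (cons (fin 1035 1 970)
(mv 1102 (cons (fin 909 7 845)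
(mv 1166 (cons (fin 1230 7 973)
(mv 1167 (cons (fin 1103 4 910)
(fin 1231 4 974)))))))))))))))
(mv 910 (cons (fin 911 2 907)
(mv 782 (cons (fin 846 5 781)
(mv 1035 (cons (fin 1034 1 970)
(mv 1036 (cons (fin 975 1 971)
(mv 1099 (cons (fin 1098 1 1034)
(mv 908 (cons (fin 844 5 843)
(fin 1163 6 907)))))))))))))))))))))))))))))
(cons (cons (mv 972 (cons (cons (cons (mv 1038 (cons (fin 1039 3 972)
(mv 971 (cons (fin 970 0 970)
(mv 974 (cons (cons (mv 906 (cons (fin 907 3 906)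
(mv 910 (cons (fin 911 2 907)
(mv 846 (cons (fin 782 5 781)
(fin 1101 5 845)))))))
(mv 906 (cons (fin 907 3 906)
(mv 1035 (cons (fin 1034 1 970)
(mv 975 (cons (fin 1036 1 971)
(mv 912 (cons (fin 911 2 908)
(mv 976 (cons (fin 977 1 973)
(fin 913 2 909))))))))))))
(cons (mv 910 (cons (fin 911 2 907)
(mv 846 (cons (fin 782 5 781)
(fin 1101 5 845)))))
(mv 906 (cons (fin 907 3 906)
(mv 1035 (cons (fin 1034 1 970)
(mv 1036 (cons (fin 975 1 971)
(mv 1098 (cons (fin 1099 1 1034)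
(mv 1102 (cons (fin 1103 0 1035)
(mv 1166 (cons (fin 1230 7 973)
(mv 1165 (cons (fin 1229 5 973)
(mv 1101 (cons (fin 908 7 908)
(fin 910 5 909))))))))))))))))))))))))
(mv 974 (cons (mv 975 (cons (fin 1039 0 972)
(mv 1036 (cons (fin 1035 1 971)
(fin 976 1 972)))))
(cons (mv 971 (cons (cons (mv 906 (cons (fin 907 3 906)
(mv 910 (cons (fin 911 2 907)
(mv 782 (cons (fin 846 5 781)
(mv 970 (cons (fin 905 3 905)
(mv 1034 (cons (fin 1033 1 969)
(fin 1035 1 970)))))))))))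
(cons (mv 907 (cons (fin 906 3 906)
(mv 910 (cons (fin 911 2 907)
(mv 782 (cons (fin 846 5 781)
(mv 1101 (cons (fin 1165 6 909)
(mv 1036 (cons (cons (mv 779 (cons (fin 843 4 779)
(mv 908 (cons (fin 844 4 844)
(mv 969 (cons (fin 970 0 969)
(mv 1100 (cons (fin 1164 7 907)
(mv 1099 (cons (fin 1163 5 907)
(mv 1098 (cons (fin 1097 2 1033)
(mv 1162 (cons (fin 1161 1 1097)
(fin 1035 5 906)))))))))))))))
(mv 843 (cons (fin 779 4 779)
(mv 844 (cons (fin 908 4 844)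
(mv 780 (cons (fin 1035 6 779)
(mv 652 (cons (fin 716 5 651)
(mv 781 (cons (fin 783 1 779)
(mv 842 (cons (fin 841 2 777)
(fin 845 2 778))))))))))))))
(cons (mv 843 (cons (fin 779 4 779)
(mv 1100 (cons (fin 1164 7 907)
(fin 1035 4 843)))))
(cons (mv 908 (cons (fin 844 4 844)
(mv 969 (cons (fin 970 0 969)
(mv 1100 (cons (fin 1164 7 907)
(mv 1099 (cons (fin 1163 5 907)
(mv 1098 (cons (fin 1097 2 1033)
(mv 1162 (cons (fin 1161 1 1097)
(fin 1035 5 906)))))))))))))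
(mv 843 (cons (fin 779 4 779)
(mv 908 (cons (fin 1100 7 843)
(fin 844 4 844)))))))))))))))))
(mv 906 (cons (fin 907 3 906)
(mv 970 (cons (fin 905 3 905)
(mv 1034 (cons (fin 1033 1 969)
(fin 1035 1 970)))))))))
(cons (cons (mv 906 (cons (fin 907 3 906)
(mv 910 (cons (fin 911 2 907)
(mv 782 (cons (fin 846 5 781)
(mv 970 (cons (fin 905 3 905)
(mv 969 (cons (fin 1036 0 969)
(mv 1033 (cons (fin 1032 1 968)
(fin 1034 1 969)))))))))))))
(mv 910 (cons (fin 911 2 907)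
(mv 782 (cons (fin 846 5 781)
(mv 1034 (cons (fin 1035 1 970)
(mv 970 (cons (fin 1033 1 969)
(mv 1036 (cons (fin 969 0 969)
(mv 1101 (cons (fin 1165 6 909)
(mv 908 (cons (fin 844 4 844)
(mv 1100 (cons (mv 907 (cons (fin 843 7 843)
(fin 1164 7 907)))
(cons (mv 1163 (cons (fin 1099 5 907)
(mv 1164 (cons (fin 1227 5 971)
(fin 1228 6 972)))))
(mv 907 (cons (fin 843 7 843)
(mv 1098 (cons (fin 1162 6 906)
(mv 1099 (cons (fin 1097 2 1033)
(fin 1163 5 907)))))))))))))))))))))))))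
(cons (mv 910 (cons (fin 911 2 907)
(mv 782 (cons (fin 846 5 781)
(mv 1034 (cons (fin 1035 1 970)
(mv 970 (cons (fin 1033 1 969)
(mv 905 (cons (fin 906 3 905)
(mv 969 (cons (fin 904 3 904)
(fin 1036 0 969)))))))))))))
(mv 907 (cons (fin 906 3 906)
(mv 910 (cons (fin 911 2 907)
(mv 782 (cons (fin 846 5 781)
(mv 1035 (cons (fin 1034 1 970)
(mv 1101 (cons (fin 1165 6 909)
(mv 908 (cons (mv 844 (cons (fin 780 5 779)
(fin 1099 6 843)))
(cons (mv 1099 (cons (fin 1163 6 907)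
(mv 1098 (cons (fin 1162 5 906)
(mv 1100 (cons (fin 1164 4 907)
(mv 1036 (cons (fin 1097 2 1033)
(fin 843 7 843)))))))))
(mv 844 (cons (fin 780 5 779)
(fin 1036 4 844))))))))))))))))))))
(mv 975 (cons (fin 1039 0 972)
(mv 907 (cons (fin 908 3 907)
(mv 911 (cons (fin 912 2 908)
(mv 971 (cons (fin 906 3 906)
(fin 910 2 907)))))))))))))
(cons (mv 908 (cons (cons (mv 844 (cons (fin 780 4 780)
(mv 1101 (cons (fin 1165 7 908)
(fin 1036 4 844)))))
(mv 1101 (cons (fin 1165 7 908)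
(mv 974 (cons (cons (mv 907 (cons (fin 975 3 907)
(mv 906 (cons (fin 971 3 906)
(fin 905 0 905)))))
(mv 971 (cons (cons (mv 906 (cons (fin 907 3 906)
(mv 970 (cons (fin 905 3 905)
(fin 1038 0 970)))))
(mv 906 (cons (fin 907 3 906)
(mv 910 (cons (fin 911 2 907)
(mv 846 (cons (fin 782 5 781)
(fin 1038 5 845))))))))
(cons (mv 910 (cons (fin 911 2 907)
(mv 846 (cons (fin 782 5 781)
(fin 1038 5 845)))))
(mv 906 (cons (fin 907 3 906)
(mv 910 (cons (fin 911 2 907)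
(mv 782 (cons (fin 846 5 781)
(mv 970 (cons (fin 905 3 905)
(mv 1034 (cons (fin 1033 1 969)
(fin 1035 1 970)))))))))))))))
(cons (mv 1035 (cons (cons (mv 1034 (cons (fin 971 1 970)
(fin 1036 2 970)))
(mv 971 (cons (fin 1034 1 970)
(mv 910 (cons (fin 911 2 907)
(mv 846 (cons (fin 782 5 781)
(fin 1038 5 845))))))))
(cons (mv 975 (cons (fin 1036 1 971)
(mv 911 (cons (fin 912 2 908)
(mv 910 (cons (fin 971 2 907)
(mv 846 (cons (fin 782 5 781)
(fin 1038 5 845)))))))))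
(mv 1036 (cons (fin 975 1 971)
(fin 1034 2 970))))))
(mv 975 (cons (fin 907 3 907)
(mv 1036 (cons (fin 1035 1 971)
(fin 976 1 972)))))))))))
(cons (mv 780 (cons (fin 844 4 780)
(mv 974 (cons (cons (mv 907 (cons (fin 975 3 907)
(mv 906 (cons (fin 971 3 906)
(fin 905 0 905)))))
(mv 971 (cons (cons (mv 906 (cons (fin 907 3 906)
(mv 970 (cons (fin 905 3 905)
(fin 1038 0 970)))))
(mv 907 (cons (fin 906 3 906)
(mv 910 (cons (fin 911 2 907)
(mv 782 (cons (fin 846 5 781)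
(mv 1035 (cons (fin 1034 1 970)
(mv 1099 (cons (fin 1163 6 907)
(mv 1098 (cons (fin 1162 5 906)
(mv 1036 (cons (fin 1038 1 1034)
(mv 843 (cons (fin 1100 7 843)
(fin 779 4 779))))))))))))))))))
(cons (mv 910 (cons (fin 911 2 907)
(mv 782 (cons (fin 846 5 781)
(mv 970 (cons (fin 1038 0 970)
(mv 1034 (cons (fin 1033 1 969)
(fin 1035 1 970)))))))))
(mv 906 (cons (fin 907 3 906)
(mv 910 (cons (fin 911 2 907)
(mv 782 (cons (fin 846 5 781)
(mv 970 (cons (fin 905 3 905)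
(mv 1034 (cons (fin 1033 1 969)
(fin 1035 1 970)))))))))))))))
(cons (mv 971 (cons (cons (mv 910 (cons (fin 911 2 907)
(mv 782 (cons (fin 846 5 781)
(mv 970 (cons (fin 1038 0 970)
(mv 1034 (cons (fin 1033 1 969)
(fin 1035 1 970)))))))))
(mv 910 (cons (fin 911 2 907)
(mv 782 (cons (fin 846 5 781)
(mv 970 (cons (fin 1038 0 970)
(mv 905 (cons (fin 906 3 905)
(mv 969 (cons (fin 904 3 904)
(fin 1036 0 969))))))))))))
(cons (mv 910 (cons (fin 911 2 907)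
(mv 782 (cons (fin 846 5 781)
(mv 1035 (cons (fin 1034 1 970)
(mv 1036 (cons (fin 975 1 971)
(mv 1099 (cons (fin 1163 6 907)
(mv 1098 (cons (fin 1038 1 1034)
(mv 1097 (cons (fin 1096 2 1032)
(fin 1100 2 1033)))))))))))))))
(cons (mv 970 (cons (fin 1038 0 970)
(mv 1034 (cons (fin 1033 1 969)
(fin 1035 1 970)))))
(mv 910 (cons (fin 911 2 907)
(mv 782 (cons (fin 846 5 781)
(mv 1034 (cons (fin 1035 1 970)
(mv 970 (cons (fin 1033 1 969)
(mv 905 (cons (fin 906 3 905)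
(mv 969 (cons (fin 904 3 904)
(fin 1036 0 969)))))))))))))))))
(mv 975 (cons (fin 907 3 907)
(mv 1036 (cons (fin 1035 1 971)
(fin 976 1 972))))))))))
(mv 780 (cons (fin 844 4 780)
(mv 1101 (cons (fin 1165 7 908)
(mv 971 (cons (cons (mv 970 (cons (fin 1038 0 970)
(mv 905 (cons (fin 906 3 905)
(mv 904 (cons (fin 969 3 904)
(mv 1034 (cons (fin 1033 1 969)
(mv 974 (cons (fin 1035 1 970)
(mv 911 (cons (fin 910 2 907)
(mv 975 (cons (fin 907 3 907)
(fin 912 2 908)))))))))))))))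
(mv 974 (cons (mv 907 (cons (fin 906 3 906)
(fin 975 3 907)))
(mv 910 (cons (fin 911 2 907)
(mv 846 (cons (fin 782 5 781)
(fin 1038 5 845))))))))
(cons (mv 1034 (cons (cons (mv 970 (cons (fin 1033 1 969)
(mv 905 (cons (fin 906 3 905)
(mv 904 (cons (fin 969 3 904)
(mv 974 (cons (fin 1035 1 970)
(mv 911 (cons (fin 910 2 907)
(mv 975 (cons (fin 907 3 907)
(fin 912 2 908)))))))))))))
(cons (mv 970 (cons (fin 1033 1 969)
(mv 905 (cons (fin 906 3 905)
(mv 969 (cons (fin 904 3 904)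
(mv 777 (cons (fin 841 4 777)
(mv 907 (cons (fin 968 2 904)
(mv 843 (cons (fin 779 5 778)
(mv 1098 (cons (fin 1162 7 905)
(fin 1035 5 842)))))))))))))))
(mv 970 (cons (fin 1033 1 969)
(mv 906 (cons (fin 905 3 905)
(mv 907 (cons (fin 974 3 906)
(mv 843 (cons (fin 779 5 778)
(fin 1098 6 842)))))))))))
(cons (mv 974 (cons (fin 1035 1 970)
(mv 907 (cons (fin 906 3 906)
(fin 975 3 907)))))
(cons (mv 970 (cons (fin 1033 1 969)
(mv 906 (cons (fin 905 3 905)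
(mv 1035 (cons (fin 974 1 970)
(mv 842 (cons (fin 778 4 778)
(fin 1099 4 842)))))))))
(mv 970 (cons (fin 1033 1 969)
(mv 974 (cons (fin 1035 1 970)
(mv 911 (cons (fin 910 2 907)
(mv 975 (cons (fin 907 3 907)
(fin 912 2 908)))))))))))))
(cons (mv 970 (cons (fin 1038 0 970)
(mv 905 (cons (fin 906 3 905)
(mv 969 (cons (fin 904 3 904)
(mv 1033 (cons (fin 1032 1 968)
(fin 1034 1 969)))))))))
(mv 970 (cons (fin 1038 0 970)
(mv 1033 (cons (fin 1034 1 969)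
(mv 969 (cons (fin 1032 1 968)
(mv 904 (cons (fin 905 3 904)
(mv 968 (cons (fin 903 3 903)
(fin 907 2 904))))))))))))))))))))))
(cons (mv 1038 (cons (fin 1039 3 972)
(mv 971 (cons (fin 970 0 970)
(mv 974 (cons (cons (mv 906 (cons (fin 907 3 906)
(mv 910 (cons (fin 911 2 907)
(mv 846 (cons (fin 782 5 781)
(fin 1101 5 845)))))))
(mv 906 (cons (fin 907 3 906)
(mv 1035 (cons (fin 1034 1 970)
(mv 975 (cons (fin 1036 1 971)
(mv 912 (cons (fin 911 2 908)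
(mv 976 (cons (fin 977 1 973)
(fin 913 2 909))))))))))))
(cons (mv 906 (cons (fin 907 3 906)
(mv 1035 (cons (fin 1034 1 970)
(mv 1036 (cons (fin 975 1 971)
(mv 1098 (cons (fin 1099 1 1034)
(mv 1102 (cons (fin 1103 0 1035)
(mv 1166 (cons (fin 1230 7 973)
(mv 1165 (cons (fin 1229 5 973)
(mv 1101 (cons (fin 910 5 909)
(mv 1164 (cons (fin 1228 5 972)
(mv 1162 (cons (fin 1163 2 1098)
(mv 1167 (cons (fin 1231 4 974)
(mv 1168 (cons (fin 1100 3 1100)
(fin 1169 3 1101)))))))))))))))))))))))))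
(mv 910 (cons (fin 911 2 907)
(mv 846 (cons (fin 782 5 781)
(fin 1101 5 845))))))))))))
(mv 1038 (cons (fin 1039 3 972)
(mv 971 (cons (fin 970 0 970)
(mv 1101 (cons (cons (mv 908 (cons (fin 1165 7 908)
(mv 844 (cons (fin 780 4 780)
(fin 1036 4 844)))))
(mv 1099 (cons (cons (mv 1098 (cons (fin 1100 2 1034)
(mv 1035 (cons (fin 1036 1 1034)
(mv 907 (cons (fin 1162 5 906)
(mv 908 (cons (fin 844 6 843)
(fin 1163 6 907)))))))))
(cons (mv 908 (cons (mv 844 (cons (fin 780 4 780)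
(fin 1036 4 844)))
(cons (mv 1163 (cons (fin 1035 6 907)
(mv 1100 (cons (fin 1036 5 907)
(mv 1102 (cons (fin 1162 1 1098)
(mv 1166 (cons (fin 1167 0 1099)
(fin 1230 7 973)))))))))
(mv 844 (cons (fin 780 4 780)
(mv 1035 (cons (fin 907 6 843)
(fin 1163 6 907))))))))
(mv 908 (cons (mv 844 (cons (fin 780 4 780)
(fin 1036 4 844)))
(cons (mv 1035 (cons (fin 1163 6 907)
(mv 1036 (cons (fin 1098 1 1034)
(mv 1034 (cons (fin 1033 2 969)
(fin 1102 0 1034)))))))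
(mv 844 (cons (fin 780 4 780)
(mv 1035 (cons (fin 907 6 843)
(fin 1163 6 907))))))))))
(cons (cons (mv 1098 (cons (fin 1100 2 1034)
(mv 1035 (cons (fin 1036 1 1034)
(mv 907 (cons (fin 1162 5 906)
(mv 842 (cons (fin 906 7 842)
(mv 843 (cons (fin 778 7 778)
(fin 1034 5 842)))))))))))
(mv 1100 (cons (fin 1098 2 1034)
(mv 1036 (cons (mv 908 (cons (fin 1163 5 907)
(fin 844 4 844)))
(mv 1164 (cons (fin 907 7 907)
(fin 1228 6 972))))))))
(cons (mv 1098 (cons (fin 1100 2 1034)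
(mv 1035 (cons (cons (mv 907 (cons (fin 1162 5 906)
(mv 908 (cons (fin 844 6 843)
(fin 1163 6 907)))))
(mv 1163 (cons (fin 908 6 907)
(mv 1162 (cons (fin 1226 5 970)
(mv 1228 (cons (fin 1164 4 971)
(mv 1227 (cons (fin 1292 4 1035)
(mv 1291 (cons (fin 1034 7 1034)
(fin 1355 7 1098))))))))))))
(cons (mv 908 (cons (fin 1163 6 907)
(mv 844 (cons (fin 780 5 779)
(fin 907 6 843)))))
(mv 907 (cons (fin 1162 5 906)
(mv 842 (cons (fin 906 7 842)
(mv 843 (cons (fin 778 7 778)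
(fin 1034 5 842))))))))))))
(mv 1098 (cons (fin 1100 2 1034)
(mv 1035 (cons (fin 1036 1 1034)
(mv 1163 (cons (fin 908 6 907)
(mv 1162 (cons (fin 1226 5 970)
(mv 1228 (cons (fin 1164 4 971)
(mv 1227 (cons (fin 1292 4 1035)
(mv 1291 (cons (fin 1034 7 1034)
(fin 1355 7 1098))))))))))))))))))))
(cons (mv 1165 (cons (cons (mv 1036 (cons (fin 1229 7 972)
(mv 1164 (cons (fin 1228 5 972)
(mv 1100 (cons (fin 907 7 907)
(mv 1098 (cons (fin 1099 2 1034)
(mv 1163 (cons (fin 1227 5 971)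
(mv 1102 (cons (fin 1103 1 1099)
(fin 1162 2 1098)))))))))))))
(mv 1164 (cons (fin 1228 5 972)
(mv 1166 (cons (fin 1230 4 973)
(mv 1100 (cons (mv 1099 (cons (fin 1167 3 1099)
(fin 1098 2 1034)))
(cons (mv 907 (cons (fin 1036 7 907)
(mv 1167 (cons (fin 1168 3 1100)
(mv 1103 (cons (fin 1104 2 1100)
(mv 1102 (cons (fin 1163 1 1099)
(mv 1231 (cons (fin 1232 0 1164)
(fin 1295 7 1038)))))))))))
(mv 907 (cons (fin 1036 7 907)
(mv 1099 (cons (fin 1098 2 1034)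
(fin 1035 4 907)))))))))))))
(cons (mv 1166 (cons (fin 1230 4 973)
(mv 1229 (cons (fin 1036 7 972)
(mv 1293 (cons (fin 1102 6 1037)
(mv 1356 (cons (fin 1292 5 1100)
(mv 1357 (cons (fin 1420 5 1164)
(mv 1358 (cons (fin 1294 4 1101)
(fin 1422 4 1165)))))))))))))
(cons (mv 1164 (cons (fin 1228 5 972)
(mv 1230 (cons (fin 1166 4 973)
(mv 1229 (cons (fin 1294 4 1037)
(mv 1102 (cons (fin 1293 6 1037)
(mv 1103 (cons (fin 1104 1 1100)
(mv 1163 (cons (fin 1100 1 1099)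
(fin 1162 2 1098)))))))))))))
(mv 1036 (cons (fin 1229 7 972)
(mv 1164 (cons (fin 1228 5 972)
(mv 1100 (cons (fin 907 7 907)
(mv 1098 (cons (fin 1099 2 1034)
(mv 1163 (cons (fin 1227 5 971)
(mv 1162 (cons (fin 1097 3 1097)
(fin 1161 2 1097)))))))))))))))))
(mv 1165 (cons (fin 908 7 908)
(mv 1164 (cons (fin 1228 5 972)
(mv 1230 (cons (fin 1166 4 973)
(mv 1229 (cons (fin 1294 4 1037)
(mv 1102 (cons (fin 1293 6 1037)
(mv 1103 (cons (fin 1104 1 1100)
(mv 1163 (cons (fin 1100 1 1099)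
(fin 1162 2 1098)))))))))))))))))))))))))
(cons (cons (mv 1039 (cons (fin 1038 3 972)
(mv 975 (cons (fin 974 0 972)
(mv 908 (cons (cons (mv 844 (cons (fin 780 4 780)
(mv 1101 (cons (fin 1165 7 908)
(fin 1036 4 844)))))
(mv 844 (cons (fin 780 4 780)
(mv 1036 (cons (cons (mv 781 (cons (fin 845 6 780)
(mv 843 (cons (fin 779 7 779)
(mv 907 (cons (fin 1100 7 843)
(mv 906 (cons (fin 905 0 905)
(mv 1035 (cons (fin 1099 5 843)
(mv 1034 (cons (fin 1033 2 969)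
(mv 970 (cons (fin 969 3 969)
(fin 1098 6 842)))))))))))))))
(cons (mv 781 (cons (fin 845 6 780)
(mv 843 (cons (fin 779 7 779)
(mv 1100 (cons (fin 907 7 843)
(mv 1163 (cons (fin 1099 5 907)
(mv 1164 (cons (fin 1227 5 971)
(fin 1228 6 972)))))))))))
(mv 781 (cons (fin 845 6 780)
(mv 1099 (cons (fin 1035 5 843)
(mv 1100 (cons (fin 1163 5 907)
(mv 1164 (cons (fin 1228 6 972)
(mv 1165 (cons (fin 1229 4 972)
(mv 1167 (cons (fin 1166 3 1099)
(mv 1103 (cons (mv 976 (cons (fin 912 6 911)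
(fin 1231 6 975)))
(cons (mv 1232 (cons (fin 1168 4 975)
(mv 1231 (cons (fin 1296 4 1039)
(mv 1294 (cons (fin 1230 5 1038)
(mv 1295 (cons (fin 1358 5 1102)
(fin 1104 6 1039)))))))))
(mv 912 (cons (fin 976 6 911)
(mv 911 (cons (fin 848 6 847)
(mv 1168 (cons (fin 1104 4 911)
(fin 1232 4 975))))))))))))))))))))))))
(cons (mv 843 (cons (fin 779 7 779)
(mv 845 (cons (fin 781 6 780)
(mv 907 (cons (fin 1100 7 843)
(mv 906 (cons (fin 846 1 842)
(fin 905 2 841)))))))))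
(cons (mv 843 (cons (fin 779 7 779)
(mv 907 (cons (fin 1100 7 843)
(mv 906 (cons (fin 905 0 905)
(mv 1035 (cons (fin 1099 5 843)
(mv 1034 (cons (fin 1033 2 969)
(mv 970 (cons (fin 969 3 969)
(fin 1098 6 842)))))))))))))
(mv 843 (cons (fin 779 7 779)
(mv 845 (cons (fin 781 6 780)
(mv 1035 (cons (fin 1099 5 843)
(mv 1034 (cons (fin 1033 2 969)
(mv 970 (cons (fin 969 3 969)
(mv 1098 (cons (fin 1097 1 1033)
(mv 906 (cons (fin 907 6 842)
(mv 905 (cons (fin 842 1 841)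
(fin 841 7 841))))))))))))))))))))))))
(cons (mv 1101 (cons (fin 1165 7 908)
(mv 1103 (cons (cons (mv 1102 (cons (fin 1100 2 1036)
(mv 911 (cons (fin 1166 5 910)
(mv 1104 (cons (fin 1036 3 1036)
(fin 1168 4 911)))))))
(mv 1167 (cons (mv 976 (cons (fin 912 6 911)
(fin 1231 6 975)))
(cons (mv 1168 (cons (fin 1232 4 975)
(mv 1104 (cons (fin 911 4 911)
(mv 1230 (cons (fin 1166 5 974)
(mv 1231 (cons (fin 1294 5 1038)
(fin 1295 6 1039)))))))))
(mv 912 (cons (fin 976 6 911)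
(mv 911 (cons (fin 848 6 847)
(mv 1168 (cons (fin 1104 4 911)
(fin 1232 4 975)))))))))))
(cons (mv 1102 (cons (fin 1100 2 1036)
(mv 1104 (cons (fin 1036 3 1036)
(mv 1168 (cons (fin 1169 0 1101)
(fin 1232 7 975)))))))
(mv 1102 (cons (fin 1100 2 1036)
(mv 1166 (cons (fin 911 5 910)
(mv 1230 (cons (fin 1294 7 1037)
(fin 1167 5 974))))))))))))
(cons (mv 844 (cons (fin 780 4 780)
(mv 1036 (cons (fin 1101 4 844)
(mv 781 (cons (fin 845 6 780)
(mv 843 (cons (fin 779 7 779)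
(mv 907 (cons (fin 1100 7 843)
(mv 906 (cons (fin 905 0 905)
(mv 1035 (cons (fin 1099 5 843)
(mv 1034 (cons (fin 1033 2 969)
(mv 970 (cons (fin 969 3 969)
(fin 1098 6 842)))))))))))))))))))
(mv 780 (cons (fin 844 4 780)
(mv 1101 (cons (fin 1165 7 908)
(mv 1103 (cons (cons (mv 1102 (cons (fin 1100 2 1036)
(mv 911 (cons (fin 1166 5 910)
(mv 846 (cons (fin 910 7 846)
(mv 912 (cons (fin 848 6 847)
(mv 1167 (cons (fin 976 6 911)
(mv 1168 (cons (fin 1104 4 911)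
(fin 1232 4 975)))))))))))))
(cons (mv 1167 (cons (mv 976 (cons (fin 912 6 911)
(fin 1231 6 975)))
(cons (mv 1168 (cons (fin 1232 4 975)
(mv 1104 (cons (fin 911 4 911)
(mv 1230 (cons (fin 1166 5 974)
(mv 1231 (cons (fin 1294 5 1038)
(fin 1295 6 1039)))))))))
(mv 912 (cons (fin 976 6 911)
(mv 911 (cons (fin 848 6 847)
(mv 1168 (cons (fin 1104 4 911)
(fin 1232 4 975))))))))))
(mv 1102 (cons (fin 1100 2 1036)
(mv 911 (cons (fin 1166 5 910)
(mv 910 (cons (fin 846 7 846)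
(mv 912 (cons (fin 848 6 847)
(mv 1104 (cons (fin 1168 4 911)
(mv 913 (cons (cons (mv 849 (cons (fin 850 2 846)
(fin 976 6 848)))
(mv 978 (cons (fin 977 0 910)
(mv 914 (cons (fin 979 0 911)
(mv 851 (cons (fin 850 2 847)
(mv 915 (cons (fin 976 1 911)
(fin 852 2 848))))))))))
(cons (mv 850 (cons (fin 849 2 846)
(mv 914 (cons (fin 851 2 847)
(mv 978 (cons (fin 977 0 910)
(fin 979 0 911)))))))
(mv 976 (cons (fin 849 6 848)
(mv 914 (cons (fin 915 1 911)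
(mv 978 (cons (fin 977 3 910)
(fin 979 0 911))))))))))))))))))))))
(cons (mv 1102 (cons (fin 1100 2 1036)
(mv 1167 (cons (mv 976 (cons (fin 912 6 911)
(fin 1231 6 975)))
(mv 1166 (cons (fin 1230 5 974)
(mv 1168 (cons (fin 1169 3 1101)
(fin 1232 4 975)))))))))
(cons (mv 1102 (cons (fin 1100 2 1036)
(mv 1166 (cons (fin 911 5 910)
(mv 1230 (cons (fin 1294 7 1037)
(fin 1167 5 974)))))))
(mv 1100 (cons (fin 1102 2 1036)
(mv 1167 (cons (mv 976 (cons (fin 912 6 911)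
(fin 1231 6 975)))
(cons (mv 1232 (cons (fin 1168 4 975)
(mv 1231 (cons (fin 1296 4 1039)
(mv 1294 (cons (fin 1230 5 1038)
(mv 1295 (cons (fin 1358 5 1102)
(fin 1104 6 1039)))))))))
(mv 912 (cons (fin 976 6 911)
(mv 911 (cons (fin 848 6 847)
(mv 1168 (cons (fin 1104 4 911)
(fin 1232 4 975))))))))))))))))))))))))))))
(cons (mv 1038 (cons (fin 1039 3 972)
(mv 971 (cons (fin 970 0 970)
(mv 974 (cons (cons (mv 906 (cons (fin 907 3 906)
(mv 910 (cons (fin 911 2 907)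
(mv 782 (cons (fin 846 5 781)
(mv 1035 (cons (fin 1034 1 970)
(mv 1036 (cons (fin 975 1 971)
(mv 1099 (cons (fin 1098 1 1034)
(mv 908 (cons (fin 844 5 843)
(fin 1163 6 907)))))))))))))))
(cons (mv 906 (cons (fin 907 3 906)
(mv 911 (cons (fin 910 2 907)
(mv 975 (cons (fin 912 2 908)
(mv 976 (cons (fin 1036 1 972)
(fin 977 1 973)))))))))
(mv 910 (cons (fin 911 2 907)
(mv 782 (cons (fin 846 5 781)
(mv 1035 (cons (fin 1034 1 970)
(mv 1036 (cons (fin 975 1 971)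
(mv 1099 (cons (fin 1098 1 1034)
(mv 908 (cons (fin 844 5 843)
(fin 1163 6 907)))))))))))))))
(cons (cons (mv 906 (cons (fin 907 3 906)
(mv 1035 (cons (fin 1034 1 970)
(mv 975 (cons (fin 1036 1 971)
(mv 912 (cons (fin 911 2 908)
(mv 976 (cons (fin 977 1 973)
(fin 913 2 909)))))))))))
(mv 906 (cons (fin 907 3 906)
(mv 1035 (cons (fin 1034 1 970)
(mv 1036 (cons (fin 975 1 971)
(mv 1099 (cons (fin 1098 1 1034)
(mv 908 (cons (fin 844 5 843)
(fin 1163 6 907))))))))))))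
(cons (mv 907 (cons (fin 906 3 906)
(mv 910 (cons (fin 911 2 907)
(mv 782 (cons (fin 846 5 781)
(mv 1035 (cons (fin 1034 1 970)
(mv 1036 (cons (mv 843 (cons (fin 779 4 779)
(fin 1100 4 843)))
(cons (mv 779 (cons (fin 843 4 779)
(mv 1099 (cons (fin 1098 1 1034)
(mv 908 (cons (fin 844 5 843)
(fin 1163 6 907)))))))
(mv 1099 (cons (fin 1098 1 1034)
(mv 908 (cons (fin 844 5 843)
(fin 1163 6 907))))))))))))))))
(mv 907 (cons (fin 906 3 906)
(mv 908 (cons (fin 975 3 907)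
(mv 844 (cons (fin 780 4 780)
(mv 1035 (cons (fin 1034 1 970)
(fin 1099 6 843)))))))))))))))))
(mv 1038 (cons (fin 1039 3 972)
(mv 908 (cons (cons (mv 844 (cons (fin 780 4 780)
(mv 1101 (cons (fin 1165 7 908)
(fin 1036 4 844)))))
(mv 844 (cons (fin 780 4 780)
(mv 1036 (cons (cons (mv 779 (cons (fin 843 7 779)
(mv 781 (cons (fin 845 6 780)
(mv 1035 (cons (fin 1099 5 843)
(mv 974 (cons (fin 975 1 971)
(fin 1034 2 970)))))))))
(mv 781 (cons (fin 845 6 780)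
(mv 843 (cons (fin 779 7 779)
(mv 907 (cons (fin 1100 7 843)
(mv 906 (cons (fin 905 0 905)
(mv 974 (cons (fin 971 3 906)
(fin 975 3 907))))))))))))
(cons (mv 781 (cons (fin 845 6 780)
(mv 1035 (cons (fin 1099 5 843)
(mv 974 (cons (fin 975 1 971)
(fin 1034 2 970)))))))
(cons (mv 779 (cons (fin 843 7 779)
(mv 1035 (cons (fin 1099 5 843)
(mv 974 (cons (fin 975 1 971)
(fin 1034 2 970)))))))
(mv 781 (cons (fin 845 6 780)
(mv 843 (cons (fin 779 7 779)
(mv 907 (cons (fin 1100 7 843)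
(mv 905 (cons (fin 906 0 905)
(mv 1035 (cons (fin 1099 5 843)
(mv 1034 (cons (fin 1033 2 969)
(mv 1098 (cons (fin 1097 1 1033)
(fin 971 5 842))))))))))))))))))))))
(cons (mv 1101 (cons (fin 1165 7 908)
(mv 974 (cons (cons (mv 846 (cons (fin 910 5 845)
(mv 907 (cons (fin 975 3 907)
(mv 906 (cons (fin 971 3 906)
(fin 905 0 905)))))))
(mv 910 (cons (fin 846 5 845)
(mv 971 (cons (fin 911 2 907)
(mv 906 (cons (fin 907 3 906)
(mv 1035 (cons (fin 1034 1 970)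
(mv 1099 (cons (fin 1163 6 907)
(mv 1098 (cons (fin 1036 1 1034)
(fin 1100 2 1034))))))))))))))
(cons (mv 907 (cons (fin 975 3 907)
(mv 906 (cons (fin 971 3 906)
(fin 905 0 905)))))
(cons (mv 910 (cons (fin 846 5 845)
(mv 911 (cons (fin 971 2 907)
(mv 912 (cons (fin 913 1 909)
(fin 975 2 908)))))))
(mv 846 (cons (fin 910 5 845)
(mv 975 (cons (fin 907 3 907)
(mv 976 (cons (fin 1036 1 972)
(fin 977 1 973)))))))))))))
(mv 780 (cons (fin 844 4 780)
(mv 1101 (cons (fin 1165 7 908)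
(mv 974 (cons (cons (mv 846 (cons (fin 910 5 845)
(mv 907 (cons (fin 975 3 907)
(mv 906 (cons (fin 971 3 906)
(fin 905 0 905)))))))
(mv 907 (cons (fin 975 3 907)
(mv 906 (cons (fin 971 3 906)
(fin 905 0 905))))))
(cons (mv 910 (cons (fin 846 5 845)
(mv 971 (cons (fin 911 2 907)
(mv 907 (cons (fin 906 3 906)
(mv 1035 (cons (fin 1034 1 970)
(mv 1099 (cons (fin 1163 6 907)
(mv 1098 (cons (fin 1100 2 1034)
(fin 1162 5 906)))))))))))))
(cons (mv 910 (cons (fin 846 5 845)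
(mv 911 (cons (fin 971 2 907)
(mv 912 (cons (fin 913 1 909)
(fin 975 2 908)))))))
(mv 846 (cons (fin 910 5 845)
(mv 975 (cons (fin 907 3 907)
(mv 912 (cons (fin 911 2 908)
(mv 976 (cons (fin 977 1 973)
(fin 913 2 909))))))))))))))))))))))))
(cons (mv 1038 (cons (fin 1039 3 972)
(mv 971 (cons (fin 970 0 970)
(mv 974 (cons (cons (mv 906 (cons (fin 907 3 906)
(mv 910 (cons (fin 911 2 907)
(mv 846 (cons (fin 782 5 781)
(fin 1101 5 845)))))))
(mv 907 (cons (fin 906 3 906)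
(mv 908 (cons (fin 975 3 907)
(mv 780 (cons (fin 844 4 780)
(mv 1035 (cons (fin 1034 1 970)
(mv 1099 (cons (fin 1163 6 907)
(mv 1098 (cons (fin 1162 5 906)
(mv 1100 (cons (fin 1101 2 1034)
(fin 1164 4 907))))))))))))))))
(cons (mv 910 (cons (fin 911 2 907)
(mv 846 (cons (fin 782 5 781)
(fin 1101 5 845)))))
(mv 907 (cons (fin 906 3 906)
(mv 908 (cons (fin 975 3 907)
(mv 844 (cons (fin 780 4 780)
(mv 1035 (cons (fin 1034 1 970)
(fin 1099 6 843))))))))))))))))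
(cons (mv 1038 (cons (fin 1039 3 972)
(mv 971 (cons (fin 970 0 970)
(mv 974 (cons (cons (mv 906 (cons (fin 907 3 906)
(mv 910 (cons (fin 911 2 907)
(mv 846 (cons (fin 782 5 781)
(fin 1101 5 845)))))))
(mv 907 (cons (fin 906 3 906)
(mv 908 (cons (fin 975 3 907)
(mv 844 (cons (fin 780 4 780)
(mv 1101 (cons (fin 1165 7 908)
(fin 1036 4 844))))))))))
(cons (mv 910 (cons (fin 911 2 907)
(mv 846 (cons (fin 782 5 781)
(fin 1101 5 845)))))
(mv 906 (cons (fin 907 3 906)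
(mv 911 (cons (fin 910 2 907)
(mv 975 (cons (fin 912 2 908)
(mv 976 (cons (fin 1036 1 972)
(fin 977 1 973))))))))))))))))
(mv 1038 (cons (fin 1039 3 972)
(mv 971 (cons (fin 970 0 970)
(mv 974 (cons (mv 910 (cons (fin 911 2 907)
(mv 846 (cons (fin 782 5 781)
(fin 1101 5 845)))))
(cons (mv 1035 (cons (fin 1034 1 970)
(mv 975 (cons (fin 1036 1 971)
(mv 912 (cons (fin 911 2 908)
(mv 976 (cons (fin 977 1 973)
(fin 913 2 909)))))))))
(mv 1035 (cons (fin 1034 1 970)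
(mv 1036 (cons (fin 975 1 971)
(mv 1098 (cons (fin 1099 1 1034)
(mv 1102 (cons (fin 1103 0 1035)
(mv 1166 (cons (fin 1230 7 973)
(mv 1165 (cons (fin 1229 5 973)
(mv 1101 (cons (fin 908 7 908)
(fin 910 5 909)))))))))))))))))))))))))))
(cons (mv 1038 (cons (cons (mv 1039 (cons (fin 972 3 972)
(mv 976 (cons (fin 977 2 973)
(mv 975 (cons (fin 1036 2 972)
(mv 1100 (cons (fin 1101 1 1036)
(mv 1104 (cons (fin 1105 0 1037)
(mv 1168 (cons (fin 911 7 911)
(fin 1232 7 975)))))))))))))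
(cons (mv 909 (cons (cons (mv 845 (cons (fin 1102 4 845)
(mv 780 (cons (fin 844 7 780)
(mv 716 (cons (fin 781 7 716)
(mv 846 (cons (fin 782 6 781)
(mv 1100 (cons (fin 1036 5 844)
(mv 1101 (cons (fin 1164 5 908)
(fin 910 6 845)))))))))))))
(cons (mv 1101 (cons (cons (mv 844 (cons (fin 908 7 844)
(mv 846 (cons (fin 910 6 845)
(mv 1100 (cons (fin 1164 5 908)
(mv 1099 (cons (fin 1098 2 1034)
(mv 1102 (cons (fin 1166 4 909)
(mv 1035 (cons (fin 1034 3 1034)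
(mv 1036 (cons (fin 1103 3 1035)
(mv 970 (cons (fin 971 3 970)
(mv 1163 (cons (fin 1162 1 1098)
(mv 1227 (cons (fin 972 6 971)
(fin 1291 6 1035)))))))))))))))))))))
(cons (mv 846 (cons (fin 910 6 845)
(mv 908 (cons (fin 844 7 844)
(mv 972 (cons (fin 1165 7 908)
(mv 970 (cons (fin 971 0 970)
(mv 1100 (cons (fin 1164 5 908)
(mv 1099 (cons (fin 1098 2 1034)
(mv 1036 (cons (fin 1163 5 907)
(mv 907 (cons (fin 843 7 843)
(mv 906 (cons (fin 969 1 905)
(fin 905 0 905)))))))))))))))))))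
(mv 846 (cons (fin 910 6 845)
(mv 908 (cons (fin 844 7 844)
(mv 1102 (cons (fin 1166 4 909)
(mv 1165 (cons (fin 972 7 908)
(mv 1228 (cons (fin 1164 5 972)
(mv 1229 (cons (fin 1292 5 1036)
(fin 1293 6 1037)))))))))))))))
(cons (cons (mv 846 (cons (fin 910 6 845)
(mv 1100 (cons (fin 1164 5 908)
(mv 1099 (cons (fin 1098 2 1034)
(mv 1102 (cons (fin 1166 4 909)
(mv 1035 (cons (fin 1034 3 1034)
(mv 1036 (cons (fin 1103 3 1035)
(mv 970 (cons (fin 971 3 970)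
(mv 1163 (cons (fin 1162 1 1098)
(mv 1227 (cons (fin 972 6 971)
(fin 1291 6 1035)))))))))))))))))))
(mv 846 (cons (fin 910 6 845)
(mv 908 (cons (fin 844 7 844)
(mv 1165 (cons (fin 972 7 908)
(mv 1166 (cons (fin 1102 4 909)
(fin 1230 4 973))))))))))
(cons (mv 844 (cons (fin 908 7 844)
(mv 1100 (cons (fin 1164 5 908)
(mv 1099 (cons (fin 1098 2 1034)
(mv 1102 (cons (fin 1166 4 909)
(mv 1035 (cons (fin 1034 3 1034)
(mv 1036 (cons (fin 1103 3 1035)
(mv 970 (cons (fin 971 3 970)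
(mv 1163 (cons (fin 1162 1 1098)
(mv 1227 (cons (fin 972 6 971)
(fin 1291 6 1035)))))))))))))))))))
(mv 844 (cons (fin 908 7 844)
(mv 846 (cons (fin 910 6 845)
(mv 1100 (cons (fin 1164 5 908)
(mv 1099 (cons (fin 1098 2 1034)
(mv 1102 (cons (fin 1166 4 909)
(mv 1035 (cons (fin 1034 3 1034)
(mv 1103 (cons (fin 1036 3 1035)
(mv 1104 (cons (fin 1105 3 1037)
(mv 1168 (cons (fin 1167 0 1100)
(fin 1169 0 1101)))))))))))))))))))))))
(mv 1101 (cons (cons (mv 844 (cons (fin 908 7 844)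
(mv 845 (cons (fin 780 7 780)
(mv 846 (cons (fin 782 6 781)
(fin 910 6 845)))))))
(mv 846 (cons (fin 910 6 845)
(mv 845 (cons (fin 782 6 781)
(mv 1100 (cons (fin 1036 5 844)
(fin 1164 5 908))))))))
(cons (mv 844 (cons (fin 908 7 844)
(mv 845 (cons (fin 780 7 780)
(mv 1100 (cons (fin 1036 5 844)
(fin 1164 5 908)))))))
(mv 846 (cons (fin 910 6 845)
(mv 908 (cons (fin 844 7 844)
(mv 972 (cons (fin 1165 7 908)
(mv 970 (cons (fin 971 0 970)
(mv 1100 (cons (fin 1164 5 908)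
(mv 1099 (cons (fin 1098 2 1034)
(mv 1036 (cons (fin 1163 5 907)
(mv 907 (cons (fin 843 7 843)
(mv 906 (cons (fin 969 1 905)
(fin 905 0 905))))))))))))))))))))))))
(cons (mv 845 (cons (fin 1102 4 845)
(mv 780 (cons (fin 844 7 780)
(mv 781 (cons (fin 716 7 716)
(mv 782 (cons (fin 718 6 717)
(fin 846 6 781)))))))))
(cons (mv 845 (cons (fin 1102 4 845)
(mv 782 (cons (fin 846 6 781)
(mv 781 (cons (fin 718 6 717)
(mv 1036 (cons (fin 972 5 780)
(fin 1100 5 844)))))))))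
(mv 845 (cons (fin 1102 4 845)
(mv 780 (cons (fin 844 7 780)
(mv 781 (cons (fin 716 7 716)
(mv 1036 (cons (fin 972 5 780)
(fin 1100 5 844)))))))))))))
(mv 1039 (cons (cons (mv 976 (cons (fin 977 2 973)
(mv 975 (cons (fin 1036 2 972)
(mv 1100 (cons (fin 1101 1 1036)
(mv 1104 (cons (fin 1105 0 1037)
(mv 1168 (cons (fin 911 7 911)
(fin 1232 7 975)))))))))))
(mv 976 (cons (fin 977 2 973)
(mv 975 (cons (fin 1036 2 972)
(mv 1104 (cons (fin 1105 0 1037)
(mv 1168 (cons (fin 911 7 911)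
(fin 1232 7 975))))))))))
(cons (mv 976 (cons (fin 977 2 973)
(mv 1036 (cons (fin 975 2 972)
(mv 1100 (cons (fin 1099 1 1035)
(fin 1101 1 1036)))))))
(cons (mv 1100 (cons (fin 1101 1 1036)
(mv 1036 (cons (fin 1099 1 1035)
(mv 1104 (cons (fin 1103 0 1036)
(fin 1105 0 1037)))))))
(mv 976 (cons (fin 977 2 973)
(mv 1100 (cons (fin 1101 1 1036)
(mv 1104 (cons (fin 1105 0 1037)
(mv 1168 (cons (mv 975 (cons (fin 911 7 911)
(fin 1232 7 975)))
(mv 1167 (cons (fin 1231 5 975)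
(mv 1103 (cons (fin 912 5 911)
(mv 1169 (cons (fin 1233 4 976)
(mv 1170 (cons (fin 1102 3 1102)
(fin 1171 3 1103)))))))))))))))))))))))
(cons (cons (mv 972 (cons (fin 1039 3 972)
(mv 1036 (cons (cons (cons (mv 970 (cons (fin 971 0 970)
(mv 1035 (cons (mv 1034 (cons (fin 969 3 969)
(fin 1033 2 969)))
(mv 1099 (cons (fin 1098 1 1034)
(mv 908 (cons (fin 844 5 843)
(mv 1163 (cons (fin 1100 5 907)
(fin 1227 6 971)))))))))))
(mv 909 (cons (mv 845 (cons (fin 781 5 780)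
(fin 1100 5 844)))
(cons (mv 1100 (cons (fin 1164 6 908)
(mv 908 (cons (cons (mv 780 (cons (fin 844 4 780)
(mv 843 (cons (fin 907 7 843)
(mv 1099 (cons (fin 1163 5 907)
(mv 1098 (cons (fin 1035 1 1034)
(fin 1097 2 1033)))))))))
(mv 843 (cons (fin 907 7 843)
(mv 1099 (cons (fin 1163 5 907)
(mv 1098 (cons (fin 1035 1 1034)
(fin 1097 2 1033))))))))
(cons (mv 843 (cons (fin 907 7 843)
(mv 844 (cons (fin 779 7 779)
(fin 780 4 780)))))
(mv 780 (cons (fin 844 4 780)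
(mv 1099 (cons (fin 1163 5 907)
(mv 1098 (cons (fin 1035 1 1034)
(fin 1097 2 1033))))))))))))
(mv 845 (cons (fin 781 5 780)
(fin 1102 4 845)))))))
(cons (mv 970 (cons (fin 971 0 970)
(mv 1100 (cons (mv 909 (cons (fin 845 5 844)
(fin 1164 6 908)))
(cons (mv 1164 (cons (fin 1228 6 972)
(mv 1163 (cons (fin 1227 5 971)
(mv 908 (cons (fin 1099 5 907)
(mv 843 (cons (fin 907 7 843)
(mv 844 (cons (fin 779 7 779)
(fin 780 4 780)))))))))))
(mv 908 (cons (cons (mv 780 (cons (fin 844 4 780)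
(mv 907 (cons (fin 843 7 843)
(mv 906 (cons (fin 905 0 905)
(mv 909 (cons (fin 969 1 905)
(fin 845 5 844)))))))))
(mv 780 (cons (fin 844 4 780)
(mv 907 (cons (fin 843 7 843)
(mv 906 (cons (fin 905 0 905)
(mv 969 (cons (fin 909 1 905)
(mv 967 (cons (fin 968 2 903)
(mv 1099 (cons (fin 1163 5 907)
(mv 1097 (cons (fin 1098 2 1033)
(mv 1033 (cons (fin 1161 6 905)
(mv 842 (cons (fin 778 5 777)
(fin 1034 5 841))))))))))))))))))))
(cons (mv 843 (cons (fin 907 7 843)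
(mv 844 (cons (fin 779 7 779)
(fin 780 4 780)))))
(cons (mv 907 (cons (fin 843 7 843)
(mv 906 (cons (fin 905 0 905)
(mv 909 (cons (fin 969 1 905)
(fin 845 5 844)))))))
(mv 844 (cons (fin 780 4 780)
(mv 845 (cons (fin 909 5 844)
(fin 781 6 780))))))))))))))
(mv 1035 (cons (cons (mv 970 (cons (fin 971 3 970)
(mv 1034 (cons (fin 969 3 969)
(fin 1033 2 969)))))
(mv 1033 (cons (fin 1034 2 969)
(mv 1099 (cons (fin 1098 1 1034)
(mv 908 (cons (fin 844 5 843)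
(mv 1163 (cons (fin 971 6 907)
(fin 1227 6 971))))))))))
(cons (mv 1034 (cons (fin 1033 2 969)
(mv 1098 (cons (fin 1097 1 1033)
(fin 1099 1 1034)))))
(mv 971 (cons (fin 970 3 970)
(mv 1099 (cons (fin 1098 1 1034)
(mv 908 (cons (fin 844 5 843)
(fin 1163 6 907))))))))))))
(cons (cons (mv 909 (cons (mv 845 (cons (fin 781 5 780)
(fin 1100 5 844)))
(cons (mv 1164 (cons (fin 1100 6 908)
(mv 1035 (cons (cons (mv 970 (cons (fin 971 3 970)
(mv 1034 (cons (fin 969 3 969)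
(fin 1033 2 969)))))
(mv 1033 (cons (fin 1034 2 969)
(mv 1099 (cons (fin 1098 1 1034)
(mv 1102 (cons (fin 1103 0 1035)
(mv 1163 (cons (fin 1227 6 971)
(mv 1228 (cons (fin 971 4 971)
(mv 1230 (cons (fin 1166 7 973)
(mv 1229 (cons (fin 1231 3 1163)
(mv 1162 (cons (fin 1161 0 1161)
(fin 1165 0 1162))))))))))))))))))
(cons (mv 1034 (cons (fin 1033 2 969)
(mv 1098 (cons (fin 1097 1 1033)
(fin 1099 1 1034)))))
(mv 971 (cons (fin 970 3 970)
(mv 1099 (cons (fin 1098 1 1034)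
(mv 1163 (cons (fin 1227 6 971)
(fin 1228 4 971))))))))))))
(mv 845 (cons (fin 781 5 780)
(fin 1102 4 845))))))
(mv 970 (cons (fin 971 0 970)
(mv 1102 (cons (cons (mv 845 (cons (fin 909 4 845)
(mv 1035 (cons (fin 1103 0 1035)
(mv 1034 (cons (fin 969 3 969)
(fin 1033 2 969)))))))
(mv 1035 (cons (fin 1103 0 1035)
(mv 1034 (cons (fin 969 3 969)
(fin 1033 2 969))))))
(cons (mv 1166 (cons (fin 1230 7 973)
(mv 908 (cons (cons (mv 780 (cons (fin 844 4 780)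
(mv 909 (cons (fin 845 4 845)
(mv 1100 (cons (fin 1164 6 908)
(mv 907 (cons (fin 843 7 843)
(mv 906 (cons (fin 969 1 905)
(fin 905 0 905)))))))))))
(mv 844 (cons (fin 780 4 780)
(mv 781 (cons (fin 845 6 780)
(mv 843 (cons (fin 779 7 779)
(mv 1100 (cons (fin 907 7 843)
(mv 1164 (cons (fin 1228 6 972)
(mv 1163 (cons (fin 1227 5 971)
(mv 1165 (cons (fin 1103 2 1099)
(fin 1229 4 972))))))))))))))))
(cons (mv 844 (cons (fin 780 4 780)
(mv 843 (cons (fin 779 7 779)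
(mv 907 (cons (fin 1100 7 843)
(mv 906 (cons (fin 905 0 905)
(mv 909 (cons (fin 969 1 905)
(mv 842 (cons (fin 841 3 841)
(fin 910 3 842)))))))))))))
(cons (mv 909 (cons (fin 845 4 845)
(mv 1100 (cons (fin 1164 6 908)
(mv 907 (cons (fin 843 7 843)
(mv 906 (cons (fin 969 1 905)
(fin 905 0 905)))))))))
(mv 844 (cons (fin 780 4 780)
(mv 845 (cons (fin 781 6 780)
(fin 909 4 845)))))))))))
(cons (mv 1166 (cons (fin 1230 7 973)
(mv 908 (cons (cons (mv 780 (cons (fin 844 4 780)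
(mv 909 (cons (fin 845 4 845)
(mv 1100 (cons (fin 1164 6 908)
(mv 907 (cons (fin 843 7 843)
(mv 906 (cons (fin 969 1 905)
(fin 905 0 905)))))))))))
(mv 844 (cons (fin 780 4 780)
(mv 781 (cons (fin 845 6 780)
(mv 843 (cons (fin 779 7 779)
(mv 907 (cons (fin 1100 7 843)
(mv 906 (cons (fin 905 0 905)
(mv 1034 (cons (fin 1098 6 842)
(mv 1035 (cons (fin 969 3 969)
(fin 1033 2 969))))))))))))))))
(cons (mv 844 (cons (fin 780 4 780)
(mv 843 (cons (fin 779 7 779)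
(mv 907 (cons (fin 1100 7 843)
(mv 906 (cons (fin 905 0 905)
(mv 909 (cons (fin 969 1 905)
(mv 842 (cons (fin 841 3 841)
(fin 910 3 842)))))))))))))
(cons (mv 909 (cons (fin 845 4 845)
(mv 1100 (cons (fin 1164 6 908)
(mv 907 (cons (fin 843 7 843)
(mv 906 (cons (fin 969 1 905)
(fin 905 0 905)))))))))
(mv 844 (cons (fin 780 4 780)
(mv 845 (cons (fin 781 6 780)
(fin 909 4 845)))))))))))
(mv 909 (cons (fin 845 4 845)
(mv 1103 (cons (fin 1035 0 1035)
(mv 1104 (cons (fin 1105 3 1037)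
(mv 1164 (cons (fin 1100 6 908)
(mv 1166 (cons (fin 1230 7 973)
(mv 1165 (cons (fin 1163 2 1099)
(fin 1167 2 1100))))))))))))))))))))
(cons (mv 970 (cons (fin 971 0 970)
(mv 909 (cons (mv 845 (cons (fin 781 5 780)
(fin 1100 5 844)))
(cons (mv 1100 (cons (fin 1164 6 908)
(mv 908 (cons (mv 780 (cons (fin 844 4 780)
(mv 907 (cons (fin 843 7 843)
(mv 906 (cons (fin 969 1 905)
(fin 905 0 905)))))))
(cons (mv 907 (cons (fin 843 7 843)
(mv 906 (cons (fin 969 1 905)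
(fin 905 0 905)))))
(mv 844 (cons (fin 780 4 780)
(mv 1099 (cons (fin 1035 5 843)
(fin 1163 5 907))))))))))
(mv 845 (cons (fin 781 5 780)
(fin 1102 4 845))))))))
(mv 970 (cons (fin 971 0 970)
(mv 909 (cons (mv 845 (cons (fin 781 5 780)
(fin 1100 5 844)))
(cons (mv 1100 (cons (fin 1164 6 908)
(mv 1035 (cons (mv 1034 (cons (fin 969 3 969)
(fin 1033 2 969)))
(cons (mv 1099 (cons (fin 1098 1 1034)
(mv 908 (cons (fin 844 5 843)
(mv 907 (cons (fin 843 7 843)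
(mv 906 (cons (fin 969 1 905)
(fin 905 0 905)))))))))
(mv 1034 (cons (fin 1033 2 969)
(mv 1098 (cons (fin 1097 1 1033)
(fin 1099 1 1034))))))))))
(mv 845 (cons (fin 781 5 780)
(fin 1102 4 845))))))))))))))
(mv 1039 (cons (fin 972 3 972)
(mv 976 (cons (fin 977 2 973)
(mv 975 (cons (fin 1036 2 972)
(mv 1104 (cons (fin 1105 0 1037)
(mv 1168 (cons (fin 911 7 911)
(fin 1232 7 975))))))))))))
(cons (mv 1039 (cons (fin 972 3 972)
(mv 976 (cons (fin 977 2 973)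
(mv 1036 (cons (fin 975 2 972)
(mv 1100 (cons (fin 1099 1 1035)
(fin 1101 1 1036)))))))))
(mv 1039 (cons (fin 972 3 972)
(mv 976 (cons (fin 977 2 973)
(mv 1100 (cons (fin 1101 1 1036)
(mv 1104 (cons (fin 1105 0 1037)
(mv 1168 (cons (mv 975 (cons (fin 911 7 911)
(fin 1232 7 975)))
(mv 1167 (cons (fin 1231 5 975)
(mv 1103 (cons (fin 912 5 911)
(mv 1169 (cons (fin 1233 4 976)
(mv 1170 (cons (fin 1102 3 1102)
(fin 1171 3 1103)))))))))))))))))))))))
(mv 1038 (cons (cons (cons (mv 1039 (cons (fin 972 3 972)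
(mv 976 (cons (fin 977 2 973)
(mv 1100 (cons (fin 1101 1 1036)
(mv 1104 (cons (fin 1105 0 1037)
(mv 1168 (cons (mv 975 (cons (fin 911 7 911)
(fin 1232 7 975)))
(cons (mv 1167 (cons (fin 1231 5 975)
(mv 912 (cons (fin 1103 5 911)
(mv 849 (cons (fin 913 6 848)
(mv 785 (cons (fin 848 6 784)
(mv 1233 (cons (fin 1169 4 976)
(mv 1232 (cons (fin 1297 4 1040)
(mv 1166 (cons (fin 1165 0 1165)
(mv 1102 (cons (fin 1230 7 973)
(mv 909 (cons (fin 974 7 909)
(fin 845 4 845)))))))))))))))))))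
(mv 911 (cons (fin 975 7 911)
(mv 1167 (cons (fin 1231 5 975)
(mv 912 (cons (fin 1103 5 911)
(mv 849 (cons (fin 913 6 848)
(mv 848 (cons (fin 785 6 784)
(mv 850 (cons (fin 851 1 847)
(mv 909 (cons (fin 910 2 845)
(mv 845 (cons (fin 1102 4 845)
(mv 780 (cons (fin 844 7 780)
(mv 781 (cons (fin 716 7 716)
(fin 974 4 781))))))))))))))))))))))))))))))))
(mv 1102 (cons (cons (mv 909 (cons (fin 845 4 845)
(mv 1166 (cons (fin 974 7 909)
(fin 1230 7 973)))))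
(mv 909 (cons (fin 845 4 845)
(mv 1101 (cons (cons (mv 844 (cons (fin 908 7 844)
(mv 846 (cons (fin 910 6 845)
(mv 1164 (cons (fin 1100 5 908)
(mv 1165 (cons (fin 1228 5 972)
(mv 1229 (cons (fin 974 6 973)
(fin 1293 6 1037)))))))))))
(cons (mv 844 (cons (fin 908 7 844)
(mv 1164 (cons (fin 1100 5 908)
(mv 1165 (cons (fin 1228 5 972)
(mv 1229 (cons (fin 974 6 973)
(fin 1293 6 1037)))))))))
(mv 844 (cons (fin 908 7 844)
(mv 910 (cons (fin 846 6 845)
(mv 1165 (cons (fin 974 5 909)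
(mv 1228 (cons (fin 1164 5 972)
(mv 1229 (cons (fin 1292 5 1036)
(fin 1293 6 1037)))))))))))))
(cons (cons (mv 846 (cons (fin 910 6 845)
(mv 1164 (cons (fin 1100 5 908)
(mv 1165 (cons (fin 1228 5 972)
(mv 1229 (cons (fin 974 6 973)
(fin 1293 6 1037)))))))))
(mv 846 (cons (fin 910 6 845)
(mv 908 (cons (fin 844 7 844)
(mv 1165 (cons (fin 972 7 908)
(mv 1229 (cons (fin 974 6 973)
(fin 1293 6 1037))))))))))
(cons (mv 846 (cons (fin 910 6 845)
(mv 908 (cons (fin 844 7 844)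
(mv 1100 (cons (fin 1164 5 908)
(mv 1099 (cons (fin 1098 2 1034)
(mv 1035 (cons (fin 1034 3 1034)
(mv 1163 (cons (fin 1162 1 1098)
(mv 971 (cons (fin 972 6 907)
(mv 906 (cons (fin 970 7 906)
(mv 907 (cons (fin 974 0 906)
(fin 842 7 842)))))))))))))))))))
(mv 846 (cons (fin 910 6 845)
(mv 908 (cons (fin 844 7 844)
(mv 972 (cons (fin 1165 7 908)
(mv 971 (cons (fin 970 0 970)
(mv 1100 (cons (fin 1164 5 908)
(mv 1099 (cons (fin 1098 2 1034)
(mv 1035 (cons (fin 1034 3 1034)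
(fin 1163 6 907))))))))))))))))))))))
(cons (mv 1166 (cons (fin 1230 7 973)
(mv 974 (cons (cons (mv 911 (cons (fin 975 6 910)
(mv 1165 (cons (fin 1229 5 973)
(mv 910 (cons (fin 1101 5 909)
(mv 1167 (cons (fin 1103 4 910)
(fin 1231 4 974)))))))))
(cons (mv 911 (cons (fin 975 6 910)
(mv 1167 (cons (fin 1231 4 974)
(mv 910 (cons (fin 1103 4 910)
(mv 846 (cons (fin 782 5 781)
(fin 1101 5 845)))))))))
(mv 911 (cons (fin 975 6 910)
(mv 1165 (cons (fin 1229 5 973)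
(mv 1101 (cons (fin 910 5 909)
(mv 908 (cons (fin 972 7 908)
(mv 1164 (cons (fin 1228 5 972)
(mv 1103 (cons (fin 1104 1 1100)
(fin 1163 2 1099)))))))))))))))
(cons (cons (mv 1165 (cons (fin 1229 5 973)
(mv 910 (cons (fin 1101 5 909)
(mv 1167 (cons (fin 1103 4 910)
(fin 1231 4 974)))))))
(mv 975 (cons (fin 911 6 910)
(mv 976 (cons (fin 977 1 973)
(mv 912 (cons (fin 913 2 909)
(mv 1165 (cons (fin 1229 5 973)
(mv 1167 (cons (fin 1231 4 974)
(mv 1103 (cons (fin 1104 5 911)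
(mv 1164 (cons (fin 1163 2 1099)
(mv 1228 (cons (fin 1227 1 1163)
(fin 1101 5 972))))))))))))))))))
(cons (mv 911 (cons (fin 975 6 910)
(mv 1165 (cons (fin 1229 5 973)
(mv 1167 (cons (fin 1231 4 974)
(mv 1103 (cons (fin 910 4 910)
(mv 1104 (cons (fin 1105 3 1037)
(fin 1164 2 1100)))))))))))
(mv 911 (cons (fin 975 6 910)
(mv 1165 (cons (fin 1229 5 973)
(mv 1101 (cons (fin 910 5 909)
(mv 908 (cons (fin 972 7 908)
(mv 1164 (cons (fin 1228 5 972)
(mv 1162 (cons (fin 1163 2 1098)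
(mv 1167 (cons (fin 1231 4 974)
(mv 1100 (cons (fin 1099 3 1099)
(fin 1168 3 1100)))))))))))))))))))))))
(mv 909 (cons (fin 845 4 845)
(mv 1166 (cons (fin 1230 7 973)
(fin 1101 4 909)))))))))
(cons (mv 1039 (cons (cons (mv 976 (cons (fin 977 2 973)
(mv 1100 (cons (fin 1101 1 1036)
(mv 1104 (cons (fin 1105 0 1037)
(mv 1168 (cons (mv 975 (cons (fin 911 7 911)
(fin 1232 7 975)))
(cons (mv 1167 (cons (fin 1231 5 975)
(mv 912 (cons (fin 1103 5 911)
(mv 849 (cons (fin 913 6 848)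
(mv 785 (cons (fin 848 6 784)
(mv 1233 (cons (fin 1169 4 976)
(mv 1232 (cons (fin 1297 4 1040)
(mv 1166 (cons (fin 1165 0 1165)
(mv 1102 (cons (fin 1230 7 973)
(mv 909 (cons (fin 974 7 909)
(fin 845 4 845)))))))))))))))))))
(mv 911 (cons (fin 975 7 911)
(mv 1167 (cons (fin 1231 5 975)
(mv 912 (cons (fin 1103 5 911)
(mv 849 (cons (fin 913 6 848)
(mv 848 (cons (fin 785 6 784)
(mv 850 (cons (fin 851 1 847)
(mv 909 (cons (fin 910 2 845)
(mv 845 (cons (fin 1102 4 845)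
(mv 780 (cons (fin 844 7 780)
(mv 781 (cons (fin 716 7 716)
(fin 974 4 781))))))))))))))))))))))))))))))
(cons (mv 976 (cons (fin 977 2 973)
(mv 1104 (cons (fin 1105 0 1037)
(mv 1168 (cons (mv 975 (cons (fin 911 7 911)
(fin 1232 7 975)))
(cons (mv 1167 (cons (fin 1231 5 975)
(mv 912 (cons (fin 1103 5 911)
(mv 849 (cons (fin 913 6 848)
(mv 785 (cons (fin 848 6 784)
(mv 1233 (cons (fin 1169 4 976)
(mv 1232 (cons (fin 1297 4 1040)
(mv 1166 (cons (fin 1165 0 1165)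
(mv 1102 (cons (fin 1230 7 973)
(mv 909 (cons (fin 974 7 909)
(fin 845 4 845)))))))))))))))))))
(mv 911 (cons (fin 975 7 911)
(mv 1167 (cons (fin 1231 5 975)
(mv 912 (cons (fin 1103 5 911)
(mv 849 (cons (fin 913 6 848)
(mv 848 (cons (fin 785 6 784)
(mv 850 (cons (fin 851 1 847)
(mv 909 (cons (fin 910 2 845)
(mv 845 (cons (fin 1102 4 845)
(mv 780 (cons (fin 844 7 780)
(mv 781 (cons (fin 716 7 716)
(fin 974 4 781))))))))))))))))))))))))))))
(mv 1101 (cons (fin 1100 1 1036)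
(mv 1104 (cons (fin 1105 0 1037)
(mv 1165 (cons (mv 974 (cons (fin 910 6 909)
(fin 1229 6 973)))
(mv 1164 (cons (fin 1228 5 972)
(mv 1102 (cons (fin 1103 1 1100)
(mv 909 (cons (fin 845 4 845)
(fin 1166 4 909)))))))))))))))
(cons (cons (mv 976 (cons (fin 977 2 973)
(mv 1101 (cons (fin 1100 1 1036)
(mv 909 (cons (cons (mv 1102 (cons (fin 845 4 845)
(fin 1166 4 909)))
(mv 844 (cons (fin 908 7 844)
(mv 780 (cons (fin 845 7 780)
(mv 910 (cons (fin 846 6 845)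
(mv 1165 (cons (fin 974 6 909)
(mv 1166 (cons (fin 1230 4 973)
(mv 1228 (cons (fin 1164 5 972)
(mv 1229 (cons (fin 1292 5 1036)
(mv 1167 (cons (fin 1168 1 1164)
(mv 1103 (cons (fin 1231 6 975)
(mv 912 (cons (fin 848 5 847)
(fin 975 6 911))))))))))))))))))))))
(cons (mv 844 (cons (fin 908 7 844)
(mv 846 (cons (fin 910 6 845)
(mv 1166 (cons (fin 1102 4 909)
(mv 1165 (cons (fin 1230 4 973)
(mv 1228 (cons (fin 1164 5 972)
(mv 1229 (cons (fin 1292 5 1036)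
(fin 974 6 973)))))))))))))
(mv 844 (cons (fin 908 7 844)
(mv 845 (cons (fin 780 7 780)
(fin 1102 4 845))))))))))))
(mv 976 (cons (fin 977 2 973)
(mv 1100 (cons (fin 1101 1 1036)
(mv 1104 (cons (fin 1105 0 1037)
(mv 1168 (cons (mv 975 (cons (fin 911 7 911)
(fin 1232 7 975)))
(cons (mv 1167 (cons (fin 1231 5 975)
(mv 1103 (cons (fin 912 5 911)
(mv 1232 (cons (fin 1296 7 1039)
(mv 1233 (cons (fin 1169 4 976)
(fin 1297 4 1040)))))))))
(mv 975 (cons (fin 911 7 911)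
(mv 1167 (cons (fin 1231 5 975)
(mv 912 (cons (fin 1103 5 911)
(mv 913 (cons (fin 974 2 909)
(fin 849 6 848)))))))))))))))))))
(cons (mv 976 (cons (fin 977 2 973)
(mv 1100 (cons (fin 1101 1 1036)
(mv 1104 (cons (fin 1105 0 1037)
(mv 1168 (cons (mv 975 (cons (fin 911 7 911)
(fin 1232 7 975)))
(mv 1167 (cons (fin 1231 5 975)
(mv 1103 (cons (fin 912 5 911)
(mv 1169 (cons (fin 1233 4 976)
(mv 1170 (cons (fin 1102 3 1102)
(fin 1171 3 1103)))))))))))))))))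
(mv 976 (cons (fin 977 2 973)
(mv 1101 (cons (fin 1100 1 1036)
(mv 1104 (cons (fin 1105 0 1037)
(mv 909 (cons (cons (mv 1102 (cons (fin 845 4 845)
(fin 1166 4 909)))
(mv 844 (cons (fin 908 7 844)
(mv 780 (cons (fin 845 7 780)
(mv 910 (cons (fin 846 6 845)
(mv 1165 (cons (fin 974 6 909)
(mv 1164 (cons (fin 1228 5 972)
(mv 1230 (cons (fin 1166 4 973)
(mv 1229 (cons (fin 1294 4 1037)
(mv 1162 (cons (fin 1163 0 1162)
(mv 1232 (cons (fin 1231 3 1164)
(mv 1168 (cons (fin 975 7 975)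
(mv 1233 (cons (fin 1169 4 976)
(fin 1297 4 1040))))))))))))))))))))))))
(cons (mv 844 (cons (fin 908 7 844)
(mv 846 (cons (fin 910 6 845)
(mv 1166 (cons (fin 1102 4 909)
(mv 1165 (cons (fin 1230 4 973)
(mv 1228 (cons (fin 1164 5 972)
(mv 1229 (cons (fin 1292 5 1036)
(fin 974 6 973)))))))))))))
(mv 844 (cons (fin 908 7 844)
(mv 845 (cons (fin 780 7 780)
(fin 1102 4 845))))))))))))))))))
(mv 972 (cons (fin 1039 3 972)
(mv 971 (cons (fin 970 0 970)
(mv 974 (cons (cons (mv 906 (cons (fin 907 3 906)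
(mv 910 (cons (fin 911 2 907)
(mv 846 (cons (fin 782 5 781)
(fin 1101 5 845)))))))
(mv 907 (cons (fin 906 3 906)
(mv 908 (cons (fin 975 3 907)
(mv 780 (cons (fin 844 4 780)
(mv 1035 (cons (fin 1034 1 970)
(mv 1099 (cons (fin 1163 6 907)
(mv 1098 (cons (fin 1162 5 906)
(mv 1100 (cons (fin 1101 2 1034)
(fin 1164 4 907))))))))))))))))
(cons (mv 910 (cons (fin 911 2 907)
(mv 846 (cons (fin 782 5 781)
(fin 1101 5 845)))))
(mv 907 (cons (fin 906 3 906)
(mv 908 (cons (fin 975 3 907)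
(mv 844 (cons (fin 780 4 780)
(mv 1035 (cons (fin 1034 1 970)
(fin 1099 6 843))))))))))))))))))
(cons (cons (mv 972 (cons (fin 1039 3 972)
(mv 971 (cons (fin 970 0 970)
(mv 974 (cons (cons (mv 906 (cons (fin 907 3 906)
(mv 910 (cons (fin 911 2 907)
(mv 846 (cons (fin 782 5 781)
(mv 845 (cons (fin 781 7 781)
(mv 1034 (cons (fin 1035 1 970)
(mv 1102 (cons (fin 909 7 845)
(mv 1166 (cons (fin 1230 7 973)
(mv 1167 (cons (fin 1103 4 910)
(fin 1231 4 974)))))))))))))))))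
(mv 907 (cons (fin 906 3 906)
(mv 908 (cons (fin 975 3 907)
(mv 844 (cons (fin 780 4 780)
(mv 1035 (cons (fin 1034 1 970)
(fin 1099 6 843))))))))))
(cons (mv 910 (cons (fin 911 2 907)
(mv 846 (cons (fin 782 5 781)
(mv 845 (cons (fin 781 7 781)
(mv 1034 (cons (fin 1035 1 970)
(mv 1102 (cons (fin 909 7 845)
(mv 1166 (cons (fin 1230 7 973)
(mv 1167 (cons (fin 1103 4 910)
(fin 1231 4 974)))))))))))))))
(mv 906 (cons (fin 907 3 906)
(mv 910 (cons (fin 911 2 907)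
(mv 846 (cons (fin 782 5 781)
(mv 845 (cons (fin 781 7 781)
(mv 1102 (cons (fin 909 7 845)
(mv 1166 (cons (fin 1230 7 973)
(mv 1167 (cons (fin 1103 4 910)
(fin 1231 4 974))))))))))))))))))))))
(mv 1039 (cons (fin 972 3 972)
(mv 976 (cons (fin 977 2 973)
(mv 1100 (cons (fin 1101 1 1036)
(mv 1104 (cons (fin 1105 0 1037)
(mv 1168 (cons (mv 975 (cons (fin 911 7 911)
(fin 1232 7 975)))
(mv 1167 (cons (fin 1231 5 975)
(mv 1103 (cons (fin 912 5 911)
(mv 1169 (cons (fin 1233 4 976)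
(mv 1170 (cons (fin 1102 3 1102)
(fin 1171 3 1103))))))))))))))))))))
(cons (mv 972 (cons (fin 1039 3 972)
(mv 971 (cons (fin 970 0 970)
(mv 974 (cons (cons (mv 906 (cons (fin 907 3 906)
(mv 910 (cons (fin 911 2 907)
(mv 846 (cons (fin 782 5 781)
(fin 1101 5 845)))))))
(mv 906 (cons (fin 907 3 906)
(mv 1035 (cons (fin 1034 1 970)
(mv 909 (cons (mv 845 (cons (fin 781 4 781)
(fin 1102 4 845)))
(cons (mv 845 (cons (fin 781 4 781)
(mv 782 (cons (fin 846 6 781)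
(mv 844 (cons (fin 780 7 780)
(mv 1101 (cons (fin 908 7 844)
(mv 1164 (cons (fin 1100 5 908)
(mv 1165 (cons (fin 1228 5 972)
(fin 1229 6 973)))))))))))))
(mv 1102 (cons (fin 1166 7 909)
(mv 1101 (cons (mv 908 (cons (fin 844 7 844)
(fin 1165 7 908)))
(cons (mv 1164 (cons (fin 1100 5 908)
(mv 1165 (cons (fin 1228 5 972)
(fin 1229 6 973)))))
(mv 908 (cons (fin 844 7 844)
(mv 1099 (cons (fin 1163 6 907)
(mv 1100 (cons (fin 1098 2 1034)
(fin 1164 5 908))))))))))))))))))))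
(cons (mv 910 (cons (fin 911 2 907)
(mv 846 (cons (fin 782 5 781)
(fin 1101 5 845)))))
(cons (mv 906 (cons (fin 907 3 906)
(mv 910 (cons (fin 911 2 907)
(mv 846 (cons (fin 782 5 781)
(mv 845 (cons (fin 781 7 781)
(mv 1034 (cons (fin 1035 1 970)
(mv 1102 (cons (fin 909 7 845)
(mv 1166 (cons (fin 1230 7 973)
(mv 1167 (cons (fin 1103 4 910)
(fin 1231 4 974)))))))))))))))))
(mv 906 (cons (fin 907 3 906)
(mv 910 (cons (fin 911 2 907)
(mv 1035 (cons (fin 1034 1 970)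
(mv 1101 (cons (fin 1165 6 909)
(mv 909 (cons (mv 845 (cons (fin 1102 7 845)
(fin 781 4 781)))
(cons (mv 781 (cons (fin 845 4 781)
(mv 908 (cons (fin 844 7 844)
(mv 1099 (cons (fin 1163 6 907)
(mv 1100 (cons (fin 1098 2 1034)
(fin 1164 5 908)))))))))
(mv 908 (cons (fin 844 7 844)
(mv 1099 (cons (fin 1163 6 907)
(mv 1100 (cons (fin 1098 2 1034)
(fin 1164 5 908))))))))))))))))))))))))))
(mv 972 (cons (fin 1039 3 972)
(mv 971 (cons (fin 970 0 970)
(mv 974 (cons (cons (mv 907 (cons (fin 906 3 906)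
(mv 908 (cons (fin 975 3 907)
(mv 780 (cons (fin 844 4 780)
(mv 1035 (cons (fin 1034 1 970)
(mv 1099 (cons (fin 1163 6 907)
(mv 1098 (cons (fin 1162 5 906)
(mv 1100 (cons (fin 1101 2 1034)
(fin 1164 4 907)))))))))))))))
(mv 1035 (cons (fin 1034 1 970)
(mv 1101 (cons (mv 910 (cons (fin 846 5 845)
(fin 1165 6 909)))
(cons (mv 846 (cons (fin 910 5 845)
(mv 909 (cons (mv 845 (cons (fin 782 6 781)
(fin 781 4 781)))
(mv 908 (cons (fin 844 7 844)
(mv 975 (cons (fin 976 3 908)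
(mv 1099 (cons (fin 1163 6 907)
(mv 1100 (cons (fin 1098 2 1034)
(fin 1164 5 908)))))))))))))
(mv 1165 (cons (fin 908 7 908)
(fin 1229 6 973)))))))))
(cons (mv 907 (cons (fin 906 3 906)
(mv 908 (cons (fin 975 3 907)
(mv 844 (cons (fin 780 4 780)
(mv 1101 (cons (fin 909 7 844)
(fin 1165 7 908)))))))))
(cons (mv 907 (cons (fin 906 3 906)
(mv 908 (cons (fin 975 3 907)
(mv 844 (cons (fin 780 4 780)
(mv 1035 (cons (fin 1034 1 970)
(fin 1099 6 843)))))))))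
(mv 907 (cons (fin 906 3 906)
(mv 1035 (cons (fin 1034 1 970)
(mv 910 (cons (mv 846 (cons (fin 782 5 781)
(fin 1101 5 845)))
(cons (mv 846 (cons (fin 782 5 781)
(mv 845 (cons (fin 781 7 781)
(mv 1102 (cons (fin 909 7 845)
(mv 1166 (cons (fin 1230 7 973)
(mv 1167 (cons (fin 1103 4 910)
(fin 1231 4 974)))))))))))
(mv 1099 (cons (cons (mv 1098 (cons (fin 1162 5 906)
(mv 1100 (cons (fin 1101 2 1034)
(fin 1164 4 907)))))
(cons (mv 1098 (cons (fin 1162 5 906)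
(mv 1164 (cons (fin 1100 4 907)
(mv 1163 (cons (fin 1228 4 971)
(mv 1096 (cons (fin 1097 0 1096)
(mv 1166 (cons (fin 1165 3 1098)
(mv 1102 (cons (fin 909 7 909)
(fin 1230 7 973)))))))))))))
(mv 1098 (cons (fin 1162 5 906)
(mv 1101 (cons (fin 1100 2 1034)
(fin 1165 6 909)))))))
(cons (mv 1162 (cons (fin 1098 5 906)
(mv 1163 (cons (fin 1226 5 970)
(mv 1164 (cons (fin 1228 4 971)
(mv 1165 (cons (fin 1101 6 909)
(mv 1230 (cons (fin 1229 0 1162)
(mv 1166 (cons (fin 1231 0 1163)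
(fin 1102 7 973)))))))))))))
(cons (mv 1164 (cons (fin 1100 4 907)
(mv 1163 (cons (fin 1228 4 971)
(mv 1162 (cons (fin 1226 5 970)
(mv 1165 (cons (fin 1101 6 909)
(mv 1230 (cons (fin 1229 0 1162)
(mv 1166 (cons (fin 1231 0 1163)
(fin 1102 7 973)))))))))))))
(mv 1100 (cons (fin 1164 4 907)
(mv 1101 (cons (fin 1098 2 1034)
(fin 1165 6 909))))))))))))))))))))))))))))))
(cons (mv 1038 (cons (cons (mv 1039 (cons (fin 972 3 972)
(mv 976 (cons (fin 977 2 973)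
(mv 975 (cons (fin 1036 2 972)
(mv 1104 (cons (fin 1105 0 1037)
(mv 1168 (cons (fin 911 7 911)
(fin 1232 7 975)))))))))))
(cons (mv 1102 (cons (cons (mv 909 (cons (fin 845 4 845)
(mv 1166 (cons (fin 974 7 909)
(fin 1230 7 973)))))
(mv 909 (cons (fin 845 4 845)
(mv 1101 (cons (cons (mv 844 (cons (fin 908 7 844)
(mv 910 (cons (fin 846 6 845)
(mv 974 (cons (fin 1165 5 909)
(mv 1103 (cons (fin 1167 4 910)
(mv 1036 (cons (fin 1104 3 1036)
(fin 1035 0 1035)))))))))))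
(mv 908 (cons (fin 844 7 844)
(mv 1165 (cons (fin 972 7 908)
(mv 1229 (cons (fin 974 6 973)
(fin 1293 6 1037))))))))
(cons (mv 910 (cons (fin 846 6 845)
(mv 974 (cons (fin 1165 5 909)
(mv 1103 (cons (fin 1167 4 910)
(mv 1036 (cons (fin 1104 3 1036)
(fin 1035 0 1035)))))))))
(cons (mv 908 (cons (fin 844 7 844)
(mv 910 (cons (fin 846 6 845)
(mv 974 (cons (mv 907 (cons (fin 906 0 906)
(fin 975 0 907)))
(cons (mv 906 (cons (fin 907 0 906)
(mv 1103 (cons (fin 1167 4 910)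
(mv 1036 (cons (fin 1104 3 1036)
(fin 1035 0 1035)))))))
(mv 975 (cons (fin 976 3 908)
(mv 1036 (cons (fin 1035 2 971)
(mv 1103 (cons (fin 1104 3 1036)
(fin 1167 4 910))))))))))))))
(mv 846 (cons (fin 910 6 845)
(mv 908 (cons (fin 844 7 844)
(mv 1165 (cons (fin 972 7 908)
(mv 1228 (cons (fin 1164 5 972)
(mv 1229 (cons (fin 1292 5 1036)
(fin 1293 6 1037))))))))))))))))))
(cons (mv 1166 (cons (fin 1230 7 973)
(mv 974 (cons (cons (mv 911 (cons (fin 975 6 910)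
(mv 1165 (cons (fin 1229 5 973)
(mv 910 (cons (fin 1101 5 909)
(mv 1167 (cons (fin 1103 4 910)
(fin 1231 4 974)))))))))
(mv 911 (cons (fin 975 6 910)
(mv 1167 (cons (fin 1231 4 974)
(mv 910 (cons (fin 1103 4 910)
(mv 846 (cons (fin 782 5 781)
(fin 1101 5 845))))))))))
(cons (mv 1165 (cons (fin 1229 5 973)
(mv 910 (cons (fin 1101 5 909)
(mv 1167 (cons (fin 1103 4 910)
(fin 1231 4 974)))))))
(cons (mv 911 (cons (fin 975 6 910)
(mv 1165 (cons (fin 1229 5 973)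
(mv 1101 (cons (fin 910 5 909)
(mv 908 (cons (fin 972 7 908)
(mv 1164 (cons (fin 1228 5 972)
(mv 1103 (cons (fin 1104 1 1100)
(fin 1163 2 1099)))))))))))))
(mv 975 (cons (fin 911 6 910)
(mv 976 (cons (fin 1036 1 972)
(fin 977 1 973)))))))))))
(mv 909 (cons (fin 845 4 845)
(mv 1166 (cons (fin 1230 7 973)
(fin 1101 4 909))))))))
(mv 1102 (cons (cons (mv 909 (cons (fin 845 4 845)
(mv 1166 (cons (fin 974 7 909)
(fin 1230 7 973)))))
(mv 845 (cons (fin 909 4 845)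
(mv 1039 (cons (cons (mv 976 (cons (fin 977 2 973)
(mv 975 (cons (fin 1036 2 972)
(mv 1104 (cons (fin 1105 0 1037)
(mv 1168 (cons (fin 911 7 911)
(fin 1232 7 975)))))))))
(mv 976 (cons (fin 977 2 973)
(mv 1036 (cons (fin 975 2 972)
(mv 1035 (cons (fin 1103 0 1035)
(mv 1034 (cons (fin 974 2 970)
(fin 1101 0 1034))))))))))
(cons (mv 1104 (cons (fin 1105 0 1037)
(mv 1103 (cons (fin 1036 0 1036)
(mv 1168 (cons (mv 975 (cons (fin 1232 7 975)
(fin 911 4 911)))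
(cons (mv 911 (cons (fin 975 4 911)
(mv 1101 (cons (fin 1169 0 1101)
(mv 1165 (cons (fin 1164 1 1100)
(mv 974 (cons (fin 910 5 909)
(fin 1229 6 973)))))))))
(mv 1101 (cons (fin 1169 0 1101)
(mv 1165 (cons (fin 1164 1 1100)
(mv 974 (cons (fin 910 5 909)
(fin 1229 6 973))))))))))))))
(cons (mv 976 (cons (fin 977 2 973)
(mv 1104 (cons (fin 1105 0 1037)
(mv 1168 (cons (mv 975 (cons (fin 911 7 911)
(fin 1232 7 975)))
(mv 1167 (cons (fin 1231 5 975)
(mv 1103 (cons (fin 912 5 911)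
(mv 1169 (cons (fin 1170 3 1102)
(fin 1101 0 1101)))))))))))))
(mv 976 (cons (fin 977 2 973)
(mv 1104 (cons (fin 1105 0 1037)
(mv 1103 (cons (fin 1036 0 1036)
(mv 912 (cons (fin 848 5 847)
(fin 1167 5 911))))))))))))))))
(cons (mv 1166 (cons (fin 1230 7 973)
(mv 974 (cons (cons (mv 911 (cons (fin 975 6 910)
(mv 1165 (cons (fin 1229 5 973)
(mv 910 (cons (fin 1101 5 909)
(mv 1167 (cons (fin 1103 4 910)
(fin 1231 4 974)))))))))
(mv 911 (cons (fin 975 6 910)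
(mv 1167 (cons (fin 1231 4 974)
(mv 910 (cons (fin 1103 4 910)
(mv 846 (cons (fin 782 5 781)
(fin 1101 5 845))))))))))
(cons (mv 1165 (cons (fin 1229 5 973)
(mv 910 (cons (fin 1101 5 909)
(mv 1167 (cons (fin 1103 4 910)
(fin 1231 4 974)))))))
(cons (mv 911 (cons (fin 975 6 910)
(mv 1165 (cons (fin 1229 5 973)
(mv 1101 (cons (fin 910 5 909)
(mv 1164 (cons (fin 1228 5 972)
(mv 1103 (cons (fin 1104 1 1100)
(fin 1163 2 1099)))))))))))
(mv 975 (cons (fin 911 6 910)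
(mv 976 (cons (fin 1036 1 972)
(fin 977 1 973)))))))))))
(mv 909 (cons (fin 845 4 845)
(mv 1166 (cons (fin 1230 7 973)
(fin 1101 4 909))))))))))
(cons (cons (mv 972 (cons (fin 1039 3 972)
(mv 970 (cons (fin 971 0 970)
(mv 1102 (cons (cons (mv 909 (cons (fin 845 4 845)
(mv 1166 (cons (fin 974 7 909)
(fin 1230 7 973)))))
(mv 1166 (cons (fin 1230 7 973)
(mv 974 (cons (cons (mv 911 (cons (fin 975 6 910)
(mv 1165 (cons (fin 1229 5 973)
(mv 1101 (cons (fin 908 7 908)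
(fin 910 5 909)))))))
(mv 911 (cons (fin 975 6 910)
(mv 1167 (cons (fin 1231 4 974)
(mv 910 (cons (fin 1103 4 910)
(mv 846 (cons (fin 782 5 781)
(fin 1101 5 845))))))))))
(cons (mv 1165 (cons (fin 1229 5 973)
(mv 1101 (cons (fin 908 7 908)
(fin 910 5 909)))))
(cons (mv 911 (cons (fin 975 6 910)
(mv 1165 (cons (fin 1229 5 973)
(mv 1167 (cons (fin 1231 4 974)
(mv 1103 (cons (fin 910 4 910)
(mv 1104 (cons (fin 1105 3 1037)
(fin 1164 2 1100)))))))))))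
(mv 911 (cons (fin 975 6 910)
(mv 1165 (cons (fin 1229 5 973)
(mv 1101 (cons (fin 908 7 908)
(mv 1164 (cons (fin 1228 5 972)
(mv 1103 (cons (fin 1104 1 1100)
(fin 1163 2 1099))))))))))))))))))
(cons (mv 909 (cons (fin 845 4 845)
(mv 1101 (cons (mv 908 (cons (fin 844 7 844)
(fin 1165 7 908)))
(cons (mv 910 (cons (fin 846 6 845)
(mv 911 (cons (fin 912 1 908)
(mv 974 (cons (fin 1165 5 909)
(mv 1103 (cons (fin 1167 4 910)
(mv 1036 (cons (fin 1104 3 1036)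
(fin 1035 0 1035)))))))))))
(mv 908 (cons (fin 844 7 844)
(mv 910 (cons (fin 846 6 845)
(mv 911 (cons (fin 912 1 908)
(mv 907 (cons (mv 906 (cons (fin 969 1 905)
(fin 905 0 905)))
(mv 842 (cons (fin 843 3 842)
(mv 974 (cons (fin 975 3 907)
(mv 1103 (cons (fin 1167 4 910)
(mv 1036 (cons (fin 1104 3 1036)
(fin 1035 0 1035))))))))))))))))))))))
(mv 909 (cons (fin 845 4 845)
(mv 1166 (cons (fin 1230 7 973)
(fin 1101 4 909))))))))))))
(mv 972 (cons (fin 1039 3 972)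
(mv 970 (cons (fin 971 0 970)
(mv 908 (cons (cons (mv 844 (cons (fin 780 4 780)
(mv 1101 (cons (fin 909 7 844)
(fin 1165 7 908)))))
(mv 844 (cons (fin 780 4 780)
(mv 1036 (cons (cons (mv 779 (cons (fin 843 7 779)
(mv 781 (cons (fin 845 6 780)
(mv 1035 (cons (fin 1099 5 843)
(mv 974 (cons (fin 975 1 971)
(fin 1034 2 970)))))))))
(mv 843 (cons (fin 779 7 779)
(mv 845 (cons (fin 781 6 780)
(mv 909 (cons (fin 1102 4 845)
(mv 842 (cons (fin 841 0 841)
(fin 910 0 842))))))))))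
(cons (mv 779 (cons (fin 843 7 779)
(mv 1035 (cons (fin 1099 5 843)
(mv 974 (cons (fin 975 1 971)
(fin 1034 2 970)))))))
(mv 781 (cons (fin 845 6 780)
(mv 1035 (cons (fin 1099 5 843)
(mv 974 (cons (fin 975 1 971)
(fin 1034 2 970)))))))))))))
(cons (mv 1101 (cons (fin 1165 7 908)
(mv 909 (cons (mv 1102 (cons (fin 845 4 845)
(fin 1166 4 909)))
(cons (mv 846 (cons (fin 910 6 845)
(mv 845 (cons (fin 782 6 781)
(mv 781 (cons (fin 717 5 716)
(fin 1036 5 780)))))))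
(mv 910 (cons (fin 846 6 845)
(mv 911 (cons (fin 912 1 908)
(mv 975 (cons (fin 976 0 908)
(mv 907 (cons (fin 974 3 907)
(mv 906 (cons (fin 969 1 905)
(fin 905 0 905))))))))))))))))
(mv 844 (cons (fin 780 4 780)
(mv 1101 (cons (fin 1165 7 908)
(fin 1036 4 844)))))))))))))
(cons (mv 972 (cons (fin 1039 3 972)
(mv 970 (cons (fin 971 0 970)
(mv 1102 (cons (cons (mv 909 (cons (fin 845 4 845)
(mv 1166 (cons (fin 974 7 909)
(fin 1230 7 973)))))
(mv 1166 (cons (fin 1230 7 973)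
(mv 974 (cons (cons (mv 911 (cons (fin 975 6 910)
(mv 1165 (cons (fin 1229 5 973)
(mv 1101 (cons (fin 908 7 908)
(fin 910 5 909)))))))
(mv 911 (cons (fin 975 6 910)
(mv 1167 (cons (fin 1231 4 974)
(mv 910 (cons (fin 1103 4 910)
(mv 846 (cons (fin 782 5 781)
(fin 1101 5 845))))))))))
(cons (mv 1165 (cons (fin 1229 5 973)
(mv 1101 (cons (fin 908 7 908)
(fin 910 5 909)))))
(cons (mv 911 (cons (fin 975 6 910)
(mv 1165 (cons (fin 1229 5 973)
(mv 1167 (cons (fin 1231 4 974)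
(mv 1103 (cons (fin 910 4 910)
(mv 1104 (cons (fin 1105 3 1037)
(fin 1164 2 1100)))))))))))
(mv 911 (cons (fin 975 6 910)
(mv 1165 (cons (fin 1229 5 973)
(mv 1101 (cons (fin 908 7 908)
(mv 1164 (cons (fin 1228 5 972)
(mv 1103 (cons (fin 1104 1 1100)
(fin 1163 2 1099))))))))))))))))))
(cons (mv 909 (cons (fin 845 4 845)
(mv 1101 (cons (mv 908 (cons (fin 844 7 844)
(fin 1165 7 908)))
(cons (mv 910 (cons (fin 846 6 845)
(mv 911 (cons (fin 912 1 908)
(mv 1165 (cons (fin 974 5 909)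
(mv 1228 (cons (fin 1164 5 972)
(mv 1229 (cons (fin 1292 5 1036)
(fin 1293 6 1037)))))))))))
(mv 908 (cons (fin 844 7 844)
(mv 910 (cons (fin 846 6 845)
(mv 911 (cons (fin 912 1 908)
(mv 975 (cons (fin 976 0 908)
(mv 907 (cons (fin 974 3 907)
(mv 906 (cons (fin 969 1 905)
(fin 905 0 905))))))))))))))))))
(mv 909 (cons (fin 845 4 845)
(mv 1166 (cons (fin 1230 7 973)
(fin 1101 4 909))))))))))))
(mv 1039 (cons (fin 972 3 972)
(mv 976 (cons (fin 977 2 973)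
(mv 1104 (cons (fin 1105 0 1037)
(mv 1103 (cons (fin 1036 0 1036)
(mv 912 (cons (fin 848 5 847)
(fin 1167 5 911)))))))))))))))
(cons (mv 1038 (cons (cons (mv 1039 (cons (fin 972 3 972)
(mv 976 (cons (fin 977 2 973)
(mv 975 (cons (fin 1036 2 972)
(mv 1100 (cons (fin 1101 1 1036)
(mv 1104 (cons (fin 1105 0 1037)
(mv 1168 (cons (fin 911 7 911)
(fin 1232 7 975)))))))))))))
(cons (mv 1102 (cons (cons (mv 909 (cons (fin 845 4 845)
(mv 1166 (cons (fin 974 7 909)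
(fin 1230 7 973)))))
(mv 1166 (cons (fin 1230 7 973)
(mv 974 (cons (mv 911 (cons (fin 975 6 910)
(mv 1167 (cons (fin 1231 4 974)
(mv 910 (cons (fin 1103 4 910)
(mv 846 (cons (fin 782 5 781)
(fin 1101 5 845)))))))))
(cons (mv 1167 (cons (fin 1231 4 974)
(mv 910 (cons (fin 1103 4 910)
(mv 846 (cons (fin 782 5 781)
(fin 1101 5 845)))))))
(mv 975 (cons (fin 911 6 910)
(mv 976 (cons (fin 1036 1 972)
(fin 977 1 973)))))))))))
(cons (mv 909 (cons (fin 845 4 845)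
(mv 1101 (cons (cons (mv 844 (cons (fin 908 7 844)
(mv 846 (cons (fin 910 6 845)
(mv 1100 (cons (fin 1164 5 908)
(mv 1099 (cons (fin 1098 2 1034)
(mv 1035 (cons (fin 1034 3 1034)
(mv 1036 (cons (fin 1103 3 1035)
(mv 970 (cons (fin 971 3 970)
(mv 974 (cons (fin 975 2 971)
(mv 1163 (cons (fin 1162 1 1098)
(mv 1227 (cons (fin 972 6 971)
(fin 1291 6 1035)))))))))))))))))))))
(cons (mv 908 (cons (fin 844 7 844)
(mv 910 (cons (fin 846 6 845)
(mv 974 (cons (mv 907 (cons (fin 906 0 906)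
(fin 975 0 907)))
(cons (mv 906 (cons (fin 907 0 906)
(mv 1103 (cons (fin 1167 4 910)
(mv 1036 (cons (fin 1104 3 1036)
(fin 1035 0 1035)))))))
(mv 975 (cons (fin 976 3 908)
(mv 1036 (cons (fin 1035 2 971)
(mv 1103 (cons (fin 1104 3 1036)
(fin 1167 4 910))))))))))))))
(mv 844 (cons (fin 908 7 844)
(mv 1100 (cons (fin 1164 5 908)
(mv 1099 (cons (fin 1098 2 1034)
(mv 1035 (cons (fin 1034 3 1034)
(mv 1036 (cons (fin 1103 3 1035)
(mv 970 (cons (fin 971 3 970)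
(mv 974 (cons (fin 975 2 971)
(mv 1163 (cons (fin 1162 1 1098)
(mv 1227 (cons (fin 972 6 971)
(fin 1291 6 1035)))))))))))))))))))))
(cons (mv 846 (cons (fin 910 6 845)
(mv 1100 (cons (fin 1164 5 908)
(mv 1099 (cons (fin 1098 2 1034)
(mv 1035 (cons (fin 1034 3 1034)
(mv 1036 (cons (fin 1103 3 1035)
(mv 970 (cons (fin 971 3 970)
(mv 974 (cons (fin 975 2 971)
(mv 1163 (cons (fin 1162 1 1098)
(mv 1227 (cons (fin 972 6 971)
(fin 1291 6 1035)))))))))))))))))))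
(cons (mv 846 (cons (fin 910 6 845)
(mv 908 (cons (fin 844 7 844)
(mv 1100 (cons (fin 1164 5 908)
(mv 1099 (cons (fin 1098 2 1034)
(mv 1035 (cons (fin 1034 3 1034)
(mv 1163 (cons (fin 1162 1 1098)
(mv 971 (cons (fin 972 6 907)
(mv 906 (cons (fin 970 7 906)
(mv 907 (cons (fin 974 0 906)
(fin 842 7 842)))))))))))))))))))
(mv 908 (cons (fin 844 7 844)
(mv 910 (cons (fin 846 6 845)
(mv 1100 (cons (fin 1164 5 908)
(mv 1099 (cons (fin 1098 2 1034)
(mv 1163 (cons (fin 1162 1 1098)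
(mv 972 (cons (fin 1036 5 907)
(mv 911 (cons (fin 971 1 907)
(fin 912 1 908)))))))))))))))))))))
(mv 909 (cons (fin 845 4 845)
(mv 1166 (cons (fin 1230 7 973)
(fin 1101 4 909))))))))
(mv 1039 (cons (cons (mv 976 (cons (fin 977 2 973)
(mv 975 (cons (fin 1036 2 972)
(mv 1100 (cons (fin 1101 1 1036)
(mv 1104 (cons (fin 1105 0 1037)
(mv 1168 (cons (fin 911 7 911)
(fin 1232 7 975)))))))))))
(mv 1100 (cons (fin 1101 1 1036)
(mv 1036 (cons (fin 1099 1 1035)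
(mv 1104 (cons (fin 1103 0 1036)
(fin 1105 0 1037))))))))
(cons (mv 976 (cons (fin 977 2 973)
(mv 975 (cons (fin 1036 2 972)
(mv 1104 (cons (fin 1105 0 1037)
(mv 1168 (cons (fin 911 7 911)
(fin 1232 7 975)))))))))
(cons (mv 976 (cons (fin 977 2 973)
(mv 1036 (cons (fin 975 2 972)
(mv 1100 (cons (fin 1099 1 1035)
(fin 1101 1 1036)))))))
(mv 976 (cons (fin 977 2 973)
(mv 1100 (cons (fin 1101 1 1036)
(mv 1104 (cons (fin 1105 0 1037)
(mv 1168 (cons (mv 975 (cons (fin 911 7 911)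
(fin 1232 7 975)))
(mv 1167 (cons (fin 1231 5 975)
(mv 1103 (cons (fin 912 5 911)
(mv 1169 (cons (fin 1233 4 976)
(mv 1170 (cons (fin 1102 3 1102)
(fin 1171 3 1103)))))))))))))))))))))))
(cons (cons (mv 1039 (cons (fin 972 3 972)
(mv 976 (cons (fin 977 2 973)
(mv 975 (cons (fin 1036 2 972)
(mv 1104 (cons (fin 1105 0 1037)
(mv 1168 (cons (fin 911 7 911)
(fin 1232 7 975)))))))))))
(mv 1039 (cons (fin 972 3 972)
(mv 1100 (cons (fin 1101 1 1036)
(mv 1036 (cons (fin 1099 1 1035)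
(mv 1104 (cons (fin 1103 0 1036)
(fin 1105 0 1037))))))))))
(cons (mv 1039 (cons (fin 972 3 972)
(mv 976 (cons (fin 977 2 973)
(mv 1036 (cons (fin 975 2 972)
(mv 1100 (cons (fin 1099 1 1035)
(fin 1101 1 1036)))))))))
(mv 972 (cons (fin 1039 3 972)
(mv 971 (cons (fin 970 0 970)
(mv 974 (cons (cons (mv 906 (cons (fin 907 3 906)
(mv 910 (cons (fin 911 2 907)
(mv 846 (cons (fin 782 5 781)
(fin 1101 5 845)))))))
(mv 907 (cons (fin 906 3 906)
(mv 908 (cons (fin 975 3 907)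
(mv 780 (cons (fin 844 4 780)
(mv 1035 (cons (fin 1034 1 970)
(mv 1099 (cons (fin 1163 6 907)
(mv 1098 (cons (fin 1162 5 906)
(mv 1100 (cons (fin 1101 2 1034)
(fin 1164 4 907))))))))))))))))
(cons (mv 910 (cons (fin 911 2 907)
(mv 846 (cons (fin 782 5 781)
(fin 1101 5 845)))))
(mv 906 (cons (fin 907 3 906)
(mv 910 (cons (fin 911 2 907)
(mv 846 (cons (fin 782 5 781)
(mv 845 (cons (fin 781 7 781)
(mv 1034 (cons (fin 1035 1 970)
(mv 1102 (cons (fin 909 7 845)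
(mv 1166 (cons (fin 1230 7 973)
(mv 1167 (cons (fin 1103 4 910)
(fin 1231 4 974))))))))))))))))))))))))))))
(mv 1039 (cons (cons (mv 1038 (cons (fin 972 3 972)
(mv 976 (cons (fin 977 2 973)
(mv 975 (cons (fin 1036 2 972)
(mv 1100 (cons (fin 1101 1 1036)
(mv 1104 (cons (fin 1105 0 1037)
(mv 1168 (cons (fin 911 7 911)
(fin 1232 7 975)))))))))))))
(cons (mv 974 (cons (cons (mv 975 (cons (fin 972 0 972)
(mv 976 (cons (fin 1036 1 972)
(mv 908 (cons (fin 909 3 908)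
(mv 912 (cons (fin 913 2 909)
(mv 848 (cons (fin 784 5 783)
(fin 1103 5 847)))))))))))
(cons (mv 1101 (cons (cons (mv 910 (cons (fin 1165 6 909)
(mv 846 (cons (fin 782 5 781)
(fin 909 6 845)))))
(mv 909 (cons (cons (mv 844 (cons (fin 908 7 844)
(mv 846 (cons (fin 910 6 845)
(mv 1100 (cons (fin 1164 5 908)
(mv 1102 (cons (fin 1103 2 1036)
(fin 1166 4 909)))))))))
(mv 844 (cons (fin 908 7 844)
(mv 1100 (cons (fin 1164 5 908)
(mv 1102 (cons (fin 1103 2 1036)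
(fin 1166 4 909))))))))
(cons (mv 908 (cons (fin 844 7 844)
(mv 907 (cons (fin 906 0 906)
(mv 910 (cons (fin 846 6 845)
(mv 842 (cons (fin 843 3 842)
(mv 971 (cons (fin 970 1 906)
(mv 911 (cons (fin 972 1 907)
(mv 912 (cons (fin 913 1 909)
(mv 848 (cons (fin 849 2 845)
(mv 976 (cons (fin 977 0 909)
(fin 1103 5 847)))))))))))))))))))
(cons (mv 846 (cons (fin 910 6 845)
(mv 1100 (cons (fin 1164 5 908)
(mv 1102 (cons (fin 1103 2 1036)
(fin 1166 4 909)))))))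
(mv 908 (cons (fin 844 7 844)
(mv 907 (cons (fin 906 0 906)
(mv 910 (cons (fin 846 6 845)
(mv 843 (cons (fin 842 3 842)
(mv 971 (cons (fin 970 1 906)
(mv 911 (cons (fin 972 1 907)
(mv 912 (cons (fin 913 1 909)
(mv 848 (cons (fin 849 2 845)
(mv 976 (cons (fin 977 0 909)
(mv 1100 (cons (fin 1164 5 908)
(mv 1035 (cons (fin 1036 4 843)
(mv 1034 (cons (fin 1098 5 842)
(mv 1102 (cons (fin 1099 3 1034)
(fin 1166 4 909))))))))))))))))))))))))))))))))
(cons (mv 1165 (cons (cons (mv 908 (cons (fin 972 7 908)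
(mv 844 (cons (fin 909 7 844)
(mv 1228 (cons (fin 1164 5 972)
(mv 1229 (cons (fin 1292 5 1036)
(mv 1230 (cons (fin 1166 4 973)
(fin 1294 4 1037)))))))))))
(mv 908 (cons (fin 972 7 908)
(mv 909 (cons (fin 844 7 844)
(mv 1166 (cons (fin 1102 4 909)
(fin 1230 4 973))))))))
(cons (mv 1164 (cons (fin 1228 5 972)
(mv 909 (cons (fin 1100 5 908)
(mv 1166 (cons (fin 1102 4 909)
(fin 1230 4 973)))))))
(cons (mv 908 (cons (fin 972 7 908)
(mv 909 (cons (fin 844 7 844)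
(mv 1164 (cons (fin 1100 5 908)
(fin 1228 5 972)))))))
(mv 908 (cons (fin 972 7 908)
(mv 1228 (cons (fin 1164 5 972)
(mv 1229 (cons (fin 1292 5 1036)
(mv 1230 (cons (fin 1166 4 973)
(fin 1294 4 1037)))))))))))))
(mv 1165 (cons (fin 910 6 909)
(mv 908 (cons (fin 972 7 908)
(mv 1228 (cons (fin 1164 5 972)
(mv 1229 (cons (fin 1292 5 1036)
(mv 1230 (cons (fin 1166 4 973)
(fin 1294 4 1037))))))))))))))
(mv 910 (cons (cons (mv 846 (cons (fin 782 5 781)
(mv 1101 (cons (fin 909 6 845)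
(fin 1165 6 909)))))
(mv 1101 (cons (fin 1165 6 909)
(mv 909 (cons (mv 844 (cons (fin 908 7 844)
(mv 1100 (cons (fin 1164 5 908)
(mv 1102 (cons (fin 1103 2 1036)
(fin 1166 4 909)))))))
(cons (mv 1100 (cons (fin 1164 5 908)
(mv 1102 (cons (fin 1103 2 1036)
(fin 1166 4 909)))))
(mv 908 (cons (fin 844 7 844)
(mv 907 (cons (fin 906 0 906)
(fin 975 0 907)))))))))))
(cons (mv 846 (cons (fin 782 5 781)
(mv 975 (cons (mv 1103 (cons (fin 911 7 846)
(fin 1167 7 910)))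
(mv 976 (cons (fin 1036 1 972)
(mv 909 (cons (fin 908 3 908)
(fin 977 3 909)))))))))
(mv 782 (cons (fin 846 5 781)
(mv 1101 (cons (fin 1165 6 909)
(mv 1103 (cons (cons (mv 975 (cons (fin 1167 7 910)
(mv 976 (cons (fin 1036 1 972)
(mv 912 (cons (fin 913 2 909)
(fin 848 5 847)))))))
(mv 1102 (cons (fin 1100 2 1036)
(mv 1036 (cons (fin 1104 3 1036)
(mv 975 (cons (fin 976 1 972)
(mv 911 (cons (fin 1166 5 910)
(mv 912 (cons (fin 913 1 909)
(fin 848 6 847))))))))))))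
(cons (mv 1102 (cons (fin 1100 2 1036)
(mv 1104 (cons (fin 1036 3 1036)
(mv 1168 (cons (fin 1169 0 1101)
(mv 1232 (cons (fin 1296 7 1039)
(mv 1231 (cons (fin 1295 5 1039)
(mv 976 (cons (fin 1167 5 975)
(mv 912 (cons (fin 848 5 847)
(mv 913 (cons (fin 911 1 909)
(fin 849 6 848)))))))))))))))))
(cons (mv 975 (cons (fin 1167 7 910)
(mv 1102 (cons (fin 1100 2 1036)
(mv 911 (cons (fin 1166 5 910)
(mv 912 (cons (fin 913 1 909)
(fin 848 6 847)))))))))
(mv 975 (cons (fin 1167 7 910)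
(mv 1036 (cons (fin 976 1 972)
(mv 1102 (cons (fin 1104 3 1036)
(fin 1100 2 1036))))))))))))))))))))
(cons (mv 972 (cons (fin 975 0 972)
(mv 910 (cons (cons (mv 782 (cons (fin 846 5 781)
(mv 911 (cons (fin 971 2 907)
(mv 912 (cons (fin 909 1 908)
(fin 913 1 909)))))))
(mv 846 (cons (fin 782 5 781)
(mv 1101 (cons (fin 909 6 845)
(fin 1165 6 909))))))
(cons (mv 911 (cons (fin 971 2 907)
(mv 912 (cons (fin 909 1 908)
(fin 913 1 909)))))
(mv 782 (cons (fin 846 5 781)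
(mv 971 (cons (fin 911 2 907)
(mv 906 (cons (fin 907 3 906)
(mv 970 (cons (fin 905 3 905)
(mv 1034 (cons (fin 1033 1 969)
(fin 1035 1 970))))))))))))))))
(cons (mv 975 (cons (fin 972 0 972)
(mv 976 (cons (fin 1036 1 972)
(mv 912 (cons (fin 913 2 909)
(mv 848 (cons (fin 784 5 783)
(fin 1103 5 847)))))))))
(mv 975 (cons (fin 972 0 972)
(mv 976 (cons (fin 1036 1 972)
(mv 909 (cons (fin 908 3 908)
(mv 910 (cons (fin 977 3 909)
(mv 846 (cons (fin 782 5 781)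
(fin 1101 6 845)))))))))))))))
(mv 1038 (cons (cons (mv 976 (cons (fin 977 2 973)
(mv 975 (cons (fin 1036 2 972)
(mv 1100 (cons (fin 1101 1 1036)
(mv 1104 (cons (fin 1105 0 1037)
(mv 1168 (cons (fin 911 7 911)
(fin 1232 7 975)))))))))))
(mv 1100 (cons (fin 1101 1 1036)
(mv 1036 (cons (fin 1099 1 1035)
(mv 1104 (cons (fin 1103 0 1036)
(fin 1105 0 1037))))))))
(cons (mv 976 (cons (fin 977 2 973)
(mv 975 (cons (fin 1036 2 972)
(mv 1104 (cons (fin 1105 0 1037)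
(mv 1168 (cons (fin 911 7 911)
(fin 1232 7 975)))))))))
(cons (mv 976 (cons (fin 977 2 973)
(mv 1036 (cons (fin 975 2 972)
(mv 1100 (cons (fin 1099 1 1035)
(fin 1101 1 1036)))))))
(mv 976 (cons (fin 977 2 973)
(mv 1100 (cons (fin 1101 1 1036)
(mv 1104 (cons (fin 1105 0 1037)
(mv 1168 (cons (mv 975 (cons (fin 911 7 911)
(fin 1232 7 975)))
(mv 1167 (cons (fin 1231 5 975)
(mv 1103 (cons (fin 912 5 911)
(mv 1169 (cons (fin 1233 4 976)
(mv 1170 (cons (fin 1102 3 1102)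
(fin 1171 3 1103)))))))))))))))))))))))
(cons (cons (mv 1038 (cons (fin 972 3 972)
(mv 976 (cons (fin 977 2 973)
(mv 975 (cons (fin 1036 2 972)
(mv 1104 (cons (fin 1105 0 1037)
(mv 1168 (cons (fin 911 7 911)
(fin 1232 7 975)))))))))))
(mv 1038 (cons (fin 972 3 972)
(mv 1100 (cons (fin 1101 1 1036)
(mv 1036 (cons (fin 1099 1 1035)
(mv 1104 (cons (fin 1103 0 1036)
(fin 1105 0 1037))))))))))
(cons (mv 1038 (cons (fin 972 3 972)
(mv 976 (cons (fin 977 2 973)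
(mv 1036 (cons (fin 975 2 972)
(mv 1100 (cons (fin 1099 1 1035)
(fin 1101 1 1036)))))))))
(mv 972 (cons (fin 1038 3 972)
(mv 974 (cons (fin 975 0 972)
(mv 910 (cons (cons (mv 782 (cons (fin 846 5 781)
(mv 911 (cons (fin 971 2 907)
(mv 912 (cons (fin 909 1 908)
(fin 913 1 909)))))))
(mv 846 (cons (fin 782 5 781)
(mv 1101 (cons (fin 909 6 845)
(fin 1165 6 909))))))
(cons (mv 911 (cons (fin 971 2 907)
(mv 912 (cons (fin 909 1 908)
(fin 913 1 909)))))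
(mv 782 (cons (fin 846 5 781)
(mv 971 (cons (fin 911 2 907)
(mv 906 (cons (fin 907 3 906)
(mv 970 (cons (fin 905 3 905)
(mv 1034 (cons (fin 1033 1 969)
(fin 1035 1 970))))))))))))))))))))))))))
(cons (cons (cons (mv 972 (cons (cons (cons (mv 1038 (cons (fin 1039 3 972)
(mv 971 (cons (fin 970 0 970)
(mv 974 (cons (cons (mv 906 (cons (fin 907 3 906)
(mv 910 (cons (fin 911 2 907)
(mv 846 (cons (fin 782 5 781)
(fin 1101 5 845)))))))
(mv 906 (cons (fin 907 3 906)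
(mv 1035 (cons (fin 1034 1 970)
(mv 975 (cons (fin 1036 1 971)
(mv 912 (cons (fin 911 2 908)
(mv 976 (cons (fin 977 1 973)
(fin 913 2 909))))))))))))
(cons (mv 910 (cons (fin 911 2 907)
(mv 846 (cons (fin 782 5 781)
(fin 1101 5 845)))))
(mv 906 (cons (fin 907 3 906)
(mv 1035 (cons (fin 1034 1 970)
(mv 975 (cons (fin 1036 1 971)
(mv 976 (cons (fin 977 1 973)
(mv 909 (cons (fin 908 3 908)
(mv 845 (cons (fin 781 4 781)
(mv 780 (cons (fin 844 7 780)
(mv 846 (cons (fin 782 6 781)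
(mv 912 (cons (fin 913 2 909)
(mv 1101 (cons (fin 910 5 845)
(mv 1164 (cons (fin 1100 5 908)
(mv 1165 (cons (fin 1228 5 972)
(fin 1229 6 973))))))))))))))))))))))))))))))))
(mv 908 (cons (cons (mv 844 (cons (fin 780 4 780)
(mv 1101 (cons (fin 909 7 844)
(fin 1165 7 908)))))
(mv 1101 (cons (fin 1165 7 908)
(mv 909 (cons (cons (mv 846 (cons (fin 910 6 845)
(mv 845 (cons (fin 782 6 781)
(mv 781 (cons (fin 717 5 716)
(fin 1036 5 780)))))))
(mv 1100 (cons (fin 1164 5 908)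
(mv 845 (cons (fin 1036 5 844)
(mv 781 (cons (fin 717 5 716)
(mv 782 (cons (fin 718 6 717)
(fin 846 6 781))))))))))
(cons (mv 1100 (cons (fin 1164 5 908)
(mv 1036 (cons (fin 845 5 844)
(mv 843 (cons (fin 907 7 843)
(mv 1099 (cons (fin 1163 5 907)
(mv 1098 (cons (fin 1097 2 1033)
(mv 1034 (cons (fin 1033 3 1033)
(mv 974 (cons (fin 1035 2 970)
(mv 975 (cons (fin 976 3 908)
(fin 1039 0 972)))))))))))))))))
(mv 910 (cons (fin 846 6 845)
(mv 911 (cons (fin 971 1 907)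
(fin 912 1 908)))))))))))
(cons (mv 780 (cons (fin 844 4 780)
(mv 974 (cons (mv 975 (cons (fin 907 3 907)
(fin 1039 0 972)))
(cons (mv 971 (cons (cons (mv 906 (cons (fin 907 3 906)
(mv 910 (cons (fin 911 2 907)
(mv 970 (cons (fin 905 3 905)
(fin 909 2 906)))))))
(mv 906 (cons (fin 907 3 906)
(mv 970 (cons (fin 905 3 905)
(mv 969 (cons (fin 909 2 905)
(fin 1036 0 969))))))))
(cons (mv 910 (cons (fin 911 2 907)
(mv 782 (cons (fin 846 5 781)
(mv 970 (cons (fin 909 2 906)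
(mv 1034 (cons (fin 1033 1 969)
(fin 1035 1 970)))))))))
(mv 907 (cons (fin 906 3 906)
(mv 910 (cons (fin 911 2 907)
(mv 782 (cons (fin 846 5 781)
(mv 1035 (cons (fin 1034 1 970)
(mv 1099 (cons (fin 1163 6 907)
(mv 1098 (cons (fin 1162 5 906)
(mv 1100 (cons (fin 1164 4 907)
(mv 1036 (cons (fin 1097 2 1033)
(fin 843 7 843))))))))))))))))))))
(mv 975 (cons (fin 1039 0 972)
(mv 976 (cons (fin 909 3 908)
(fin 1036 1 972))))))))))
(mv 844 (cons (fin 780 4 780)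
(mv 1101 (cons (fin 1165 7 908)
(fin 1036 4 844)))))))))
(cons (mv 908 (cons (cons (mv 844 (cons (fin 780 4 780)
(mv 1101 (cons (fin 909 7 844)
(fin 1165 7 908)))))
(mv 1101 (cons (fin 1165 7 908)
(mv 909 (cons (cons (mv 846 (cons (fin 910 6 845)
(mv 845 (cons (fin 782 6 781)
(mv 781 (cons (fin 717 5 716)
(fin 1036 5 780)))))))
(mv 1100 (cons (fin 1164 5 908)
(mv 845 (cons (fin 1036 5 844)
(mv 781 (cons (fin 717 5 716)
(mv 782 (cons (fin 718 6 717)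
(fin 846 6 781))))))))))
(cons (mv 1100 (cons (fin 1164 5 908)
(mv 845 (cons (fin 1036 5 844)
(mv 781 (cons (fin 717 5 716)
(mv 716 (cons (fin 780 7 716)
(mv 718 (cons (fin 782 6 717)
(mv 974 (cons (fin 1038 4 781)
(mv 907 (cons (fin 975 3 907)
(fin 906 0 906)))))))))))))))
(mv 910 (cons (fin 846 6 845)
(mv 911 (cons (fin 971 1 907)
(fin 912 1 908)))))))))))
(cons (mv 780 (cons (fin 844 4 780)
(mv 907 (cons (cons (mv 906 (cons (fin 905 0 905)
(mv 974 (cons (fin 971 3 906)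
(fin 975 3 907)))))
(mv 906 (cons (fin 905 0 905)
(mv 909 (cons (mv 841 (cons (fin 842 3 841)
(mv 845 (cons (fin 846 2 842)
(mv 781 (cons (fin 716 7 716)
(fin 717 5 716)))))))
(cons (mv 841 (cons (fin 842 3 841)
(mv 970 (cons (fin 969 1 905)
(mv 971 (cons (fin 910 1 906)
(fin 1038 0 970)))))))
(mv 845 (cons (fin 846 2 842)
(mv 781 (cons (fin 716 7 716)
(fin 717 5 716)))))))))))
(cons (mv 974 (cons (fin 975 3 907)
(mv 971 (cons (cons (mv 910 (cons (fin 911 2 907)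
(mv 970 (cons (fin 909 1 906)
(fin 1038 0 970)))))
(mv 910 (cons (fin 911 2 907)
(mv 782 (cons (fin 846 5 781)
(mv 1035 (cons (fin 1034 1 970)
(mv 1099 (cons (fin 1163 6 907)
(mv 1098 (cons (fin 1162 5 906)
(mv 1036 (cons (fin 1038 1 1034)
(mv 843 (cons (fin 1100 7 843)
(fin 779 4 779))))))))))))))))
(cons (mv 970 (cons (fin 1038 0 970)
(mv 969 (cons (fin 968 2 904)
(fin 909 2 905)))))
(mv 910 (cons (fin 911 2 907)
(mv 782 (cons (fin 846 5 781)
(mv 909 (cons (fin 970 1 906)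
(mv 842 (cons (fin 843 3 842)
(mv 1035 (cons (fin 1034 1 970)
(mv 1099 (cons (fin 1163 6 907)
(mv 1098 (cons (fin 1162 5 906)
(mv 1100 (cons (fin 1164 4 907)
(mv 1036 (cons (fin 1097 2 1033)
(fin 845 5 844))))))))))))))))))))))))
(mv 906 (cons (fin 905 0 905)
(mv 974 (cons (fin 975 3 907)
(fin 909 0 906))))))))))
(cons (mv 1101 (cons (fin 1165 7 908)
(mv 844 (cons (fin 909 7 844)
(fin 1036 4 844)))))
(mv 844 (cons (fin 780 4 780)
(mv 1101 (cons (fin 1165 7 908)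
(fin 1036 4 844)))))))))
(cons (mv 1038 (cons (fin 1039 3 972)
(mv 971 (cons (fin 970 0 970)
(mv 974 (cons (cons (mv 906 (cons (fin 907 3 906)
(mv 910 (cons (fin 911 2 907)
(mv 846 (cons (fin 782 5 781)
(fin 1101 5 845)))))))
(mv 906 (cons (fin 907 3 906)
(mv 1035 (cons (fin 1034 1 970)
(mv 975 (cons (fin 1036 1 971)
(mv 912 (cons (fin 911 2 908)
(mv 976 (cons (fin 977 1 973)
(fin 913 2 909))))))))))))
(cons (mv 906 (cons (fin 907 3 906)
(mv 1035 (cons (fin 1034 1 970)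
(mv 1036 (cons (fin 975 1 971)
(mv 1099 (cons (fin 1098 1 1034)
(mv 1163 (cons (fin 1227 6 971)
(mv 1162 (cons (fin 1226 5 970)
(mv 1164 (cons (fin 1228 4 971)
(mv 1100 (cons (fin 909 6 908)
(mv 1161 (cons (fin 1160 2 1096)
(fin 1101 2 1097)))))))))))))))))))
(mv 910 (cons (fin 911 2 907)
(mv 846 (cons (fin 782 5 781)
(fin 1101 5 845))))))))))))
(mv 1038 (cons (fin 1039 3 972)
(mv 970 (cons (fin 971 0 970)
(mv 1101 (cons (cons (mv 908 (cons (fin 1165 7 908)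
(mv 844 (cons (fin 909 7 844)
(fin 780 4 780)))))
(mv 909 (cons (cons (mv 844 (cons (fin 908 7 844)
(mv 845 (cons (fin 780 7 780)
(mv 846 (cons (fin 782 6 781)
(fin 910 6 845)))))))
(mv 846 (cons (fin 910 6 845)
(mv 845 (cons (fin 782 6 781)
(mv 1036 (cons (fin 781 5 780)
(fin 1100 5 844))))))))
(cons (mv 844 (cons (fin 908 7 844)
(mv 845 (cons (fin 780 7 780)
(mv 1036 (cons (fin 781 5 780)
(fin 1100 5 844)))))))
(mv 846 (cons (fin 910 6 845)
(mv 908 (cons (fin 844 7 844)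
(mv 1100 (cons (fin 1164 5 908)
(mv 1099 (cons (fin 1098 2 1034)
(mv 1036 (cons (fin 1163 5 907)
(mv 907 (cons (fin 843 7 843)
(mv 906 (cons (fin 969 1 905)
(fin 905 0 905)))))))))))))))))))
(cons (mv 1165 (cons (cons (mv 1036 (cons (fin 1229 7 972)
(mv 1164 (cons (fin 1228 5 972)
(mv 909 (cons (fin 1100 5 908)
(mv 845 (cons (fin 781 5 780)
(mv 846 (cons (fin 782 6 781)
(fin 910 6 845)))))))))))
(mv 1164 (cons (fin 1228 5 972)
(mv 909 (cons (fin 1100 5 908)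
(mv 846 (cons (fin 910 6 845)
(mv 845 (cons (fin 782 6 781)
(mv 780 (cons (fin 844 7 780)
(mv 781 (cons (fin 716 7 716)
(fin 1036 5 780))))))))))))))
(cons (mv 1229 (cons (fin 1036 7 972)
(mv 1230 (cons (fin 1166 4 973)
(fin 1294 4 1037)))))
(mv 1164 (cons (fin 1228 5 972)
(mv 1100 (cons (fin 909 5 908)
(mv 1099 (cons (fin 1098 2 1034)
(mv 1166 (cons (fin 1167 3 1099)
(fin 1230 4 973))))))))))))
(cons (mv 908 (cons (fin 1165 7 908)
(mv 844 (cons (fin 780 4 780)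
(fin 1036 4 844)))))
(mv 1165 (cons (fin 908 7 908)
(mv 1036 (cons (fin 1229 7 972)
(mv 1164 (cons (fin 1228 5 972)
(mv 909 (cons (fin 1100 5 908)
(mv 845 (cons (fin 781 5 780)
(mv 846 (cons (fin 782 6 781)
(fin 910 6 845))))))))))))))))))))))))
(cons (cons (mv 1038 (cons (fin 1039 3 972)
(mv 908 (cons (cons (mv 844 (cons (fin 780 4 780)
(mv 1101 (cons (fin 909 7 844)
(fin 1165 7 908)))))
(mv 844 (cons (fin 780 4 780)
(mv 1036 (cons (cons (mv 779 (cons (fin 843 7 779)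
(mv 781 (cons (fin 845 6 780)
(mv 1035 (cons (fin 1099 5 843)
(mv 974 (cons (fin 975 1 971)
(fin 1034 2 970)))))))))
(mv 779 (cons (fin 843 7 779)
(mv 845 (cons (fin 781 6 780)
(mv 1100 (cons (fin 909 5 844)
(mv 1163 (cons (fin 1099 5 907)
(mv 1164 (cons (fin 1227 5 971)
(fin 1228 6 972))))))))))))
(cons (mv 779 (cons (fin 843 7 779)
(mv 1035 (cons (fin 1099 5 843)
(mv 974 (cons (fin 975 1 971)
(fin 1034 2 970)))))))
(cons (mv 781 (cons (fin 845 6 780)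
(mv 843 (cons (fin 779 7 779)
(mv 907 (cons (fin 1100 7 843)
(mv 906 (cons (fin 905 0 905)
(mv 974 (cons (fin 975 3 907)
(fin 909 0 906)))))))))))
(mv 781 (cons (fin 845 6 780)
(mv 1035 (cons (fin 1099 5 843)
(mv 974 (cons (fin 975 1 971)
(fin 1034 2 970))))))))))))))
(cons (mv 1101 (cons (fin 1165 7 908)
(mv 909 (cons (cons (mv 846 (cons (fin 910 6 845)
(mv 782 (cons (fin 845 6 781)
(mv 1100 (cons (fin 1164 5 908)
(mv 1099 (cons (fin 1098 2 1034)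
(mv 1036 (cons (fin 1163 5 907)
(mv 907 (cons (fin 843 7 843)
(mv 906 (cons (fin 905 0 905)
(fin 974 0 906)))))))))))))))
(mv 846 (cons (fin 910 6 845)
(mv 845 (cons (fin 782 6 781)
(mv 781 (cons (fin 717 5 716)
(fin 1036 5 780))))))))
(cons (mv 1100 (cons (fin 1164 5 908)
(mv 845 (cons (fin 1036 5 844)
(mv 781 (cons (fin 717 5 716)
(fin 974 4 781)))))))
(cons (mv 846 (cons (fin 910 6 845)
(mv 1100 (cons (fin 1164 5 908)
(mv 1099 (cons (fin 1098 2 1034)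
(mv 1036 (cons (fin 1163 5 907)
(mv 907 (cons (fin 843 7 843)
(mv 906 (cons (fin 905 0 905)
(fin 974 0 906)))))))))))))
(mv 846 (cons (fin 910 6 845)
(mv 845 (cons (fin 782 6 781)
(mv 781 (cons (fin 717 5 716)
(fin 974 4 781)))))))))))))
(mv 844 (cons (fin 780 4 780)
(mv 1101 (cons (fin 1165 7 908)
(fin 1036 4 844))))))))))
(cons (mv 1038 (cons (fin 1039 3 972)
(mv 971 (cons (fin 970 0 970)
(mv 974 (cons (cons (mv 906 (cons (fin 907 3 906)
(mv 910 (cons (fin 911 2 907)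
(mv 782 (cons (fin 846 5 781)
(mv 1035 (cons (fin 1034 1 970)
(mv 1036 (cons (fin 975 1 971)
(mv 1099 (cons (fin 1098 1 1034)
(mv 908 (cons (fin 844 5 843)
(fin 1163 6 907)))))))))))))))
(cons (mv 906 (cons (fin 907 3 906)
(mv 911 (cons (fin 910 2 907)
(mv 975 (cons (fin 912 2 908)
(mv 976 (cons (fin 1036 1 972)
(fin 977 1 973)))))))))
(mv 910 (cons (fin 911 2 907)
(mv 782 (cons (fin 846 5 781)
(mv 1035 (cons (fin 1034 1 970)
(mv 1036 (cons (fin 975 1 971)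
(mv 1099 (cons (fin 1098 1 1034)
(mv 908 (cons (fin 844 5 843)
(fin 1163 6 907)))))))))))))))
(cons (cons (mv 906 (cons (fin 907 3 906)
(mv 1035 (cons (fin 1034 1 970)
(mv 975 (cons (fin 1036 1 971)
(mv 912 (cons (fin 911 2 908)
(mv 976 (cons (fin 977 1 973)
(fin 913 2 909)))))))))))
(mv 906 (cons (fin 907 3 906)
(mv 1035 (cons (fin 1034 1 970)
(mv 1036 (cons (fin 975 1 971)
(mv 1099 (cons (fin 1098 1 1034)
(mv 908 (cons (fin 844 5 843)
(fin 1163 6 907))))))))))))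
(cons (mv 907 (cons (fin 906 3 906)
(mv 910 (cons (fin 911 2 907)
(mv 782 (cons (fin 846 5 781)
(mv 1035 (cons (fin 1034 1 970)
(mv 1099 (cons (mv 908 (cons (fin 844 6 843)
(fin 1163 6 907)))
(mv 1098 (cons (fin 1036 1 1034)
(fin 1162 5 906)))))))))))))
(mv 907 (cons (fin 906 3 906)
(mv 908 (cons (fin 975 3 907)
(mv 844 (cons (fin 780 4 780)
(mv 1035 (cons (fin 1034 1 970)
(fin 1099 6 843)))))))))))))))))
(mv 1038 (cons (fin 1039 3 972)
(mv 971 (cons (fin 970 0 970)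
(mv 974 (cons (cons (mv 906 (cons (fin 907 3 906)
(mv 910 (cons (fin 911 2 907)
(mv 846 (cons (fin 782 5 781)
(fin 1101 5 845)))))))
(mv 907 (cons (fin 906 3 906)
(mv 908 (cons (fin 975 3 907)
(mv 780 (cons (fin 844 4 780)
(mv 1035 (cons (fin 1034 1 970)
(mv 1099 (cons (fin 1163 6 907)
(mv 1098 (cons (fin 1162 5 906)
(mv 1100 (cons (fin 1101 2 1034)
(fin 1164 4 907))))))))))))))))
(cons (mv 910 (cons (fin 911 2 907)
(mv 846 (cons (fin 782 5 781)
(fin 1101 5 845)))))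
(mv 907 (cons (fin 906 3 906)
(mv 908 (cons (fin 975 3 907)
(mv 844 (cons (fin 780 4 780)
(mv 1035 (cons (fin 1034 1 970)
(fin 1099 6 843))))))))))))))))))
(cons (mv 1038 (cons (fin 1039 3 972)
(mv 970 (cons (fin 971 0 970)
(mv 1101 (cons (cons (mv 908 (cons (fin 1165 7 908)
(mv 844 (cons (fin 909 7 844)
(fin 780 4 780)))))
(mv 909 (cons (cons (mv 844 (cons (fin 908 7 844)
(mv 845 (cons (fin 780 7 780)
(mv 781 (cons (fin 1036 5 780)
(fin 974 4 781)))))))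
(mv 1100 (cons (fin 1164 5 908)
(mv 845 (cons (fin 1036 5 844)
(mv 781 (cons (fin 974 4 781)
(mv 782 (cons (fin 718 6 717)
(fin 846 6 781))))))))))
(cons (mv 908 (cons (fin 844 7 844)
(mv 1100 (cons (fin 1164 5 908)
(mv 1099 (cons (fin 1098 2 1034)
(mv 1036 (cons (fin 1163 5 907)
(mv 907 (cons (fin 843 7 843)
(mv 906 (cons (fin 969 1 905)
(fin 905 0 905)))))))))))))
(mv 844 (cons (fin 908 7 844)
(mv 845 (cons (fin 780 7 780)
(mv 781 (cons (fin 974 4 781)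
(mv 782 (cons (fin 718 6 717)
(fin 846 6 781)))))))))))))
(cons (mv 1165 (cons (mv 1229 (cons (fin 1036 7 972)
(fin 974 6 973)))
(mv 1164 (cons (fin 1228 5 972)
(mv 1100 (cons (fin 909 5 908)
(mv 1099 (cons (fin 1098 2 1034)
(mv 1166 (cons (fin 1167 3 1099)
(fin 1230 4 973)))))))))))
(mv 908 (cons (fin 1165 7 908)
(mv 844 (cons (fin 780 4 780)
(fin 1036 4 844))))))))))))
(cons (mv 1038 (cons (fin 1039 3 972)
(mv 970 (cons (fin 971 0 970)
(mv 908 (cons (cons (mv 844 (cons (fin 780 4 780)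
(mv 1101 (cons (fin 909 7 844)
(fin 1165 7 908)))))
(mv 844 (cons (fin 780 4 780)
(mv 1036 (cons (cons (mv 779 (cons (fin 843 7 779)
(mv 781 (cons (fin 845 6 780)
(mv 1035 (cons (fin 1099 5 843)
(mv 974 (cons (fin 975 1 971)
(fin 1034 2 970)))))))))
(mv 779 (cons (fin 843 7 779)
(mv 845 (cons (fin 781 6 780)
(mv 1100 (cons (fin 909 5 844)
(mv 1163 (cons (fin 1099 5 907)
(mv 1164 (cons (fin 1227 5 971)
(fin 1228 6 972))))))))))))
(cons (mv 779 (cons (fin 843 7 779)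
(mv 1035 (cons (fin 1099 5 843)
(mv 974 (cons (fin 975 1 971)
(fin 1034 2 970)))))))
(cons (mv 843 (cons (fin 779 7 779)
(mv 845 (cons (fin 781 6 780)
(mv 909 (cons (fin 1100 5 844)
(mv 842 (cons (fin 841 0 841)
(fin 910 0 842)))))))))
(mv 781 (cons (fin 845 6 780)
(mv 1035 (cons (fin 1099 5 843)
(mv 974 (cons (fin 975 1 971)
(fin 1034 2 970))))))))))))))
(cons (mv 1101 (cons (fin 1165 7 908)
(mv 909 (cons (cons (mv 846 (cons (fin 910 6 845)
(mv 845 (cons (fin 782 6 781)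
(mv 781 (cons (fin 717 5 716)
(fin 1036 5 780)))))))
(mv 1100 (cons (fin 1164 5 908)
(mv 845 (cons (fin 1036 5 844)
(mv 781 (cons (fin 717 5 716)
(fin 974 4 781))))))))
(cons (mv 910 (cons (fin 846 6 845)
(mv 911 (cons (fin 912 1 908)
(mv 975 (cons (fin 976 0 908)
(mv 1100 (cons (fin 1164 5 908)
(mv 1099 (cons (fin 1098 2 1034)
(mv 1036 (cons (fin 1163 5 907)
(mv 1035 (cons (fin 974 1 971)
(mv 1034 (cons (fin 969 3 969)
(fin 1033 2 969)))))))))))))))))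
(mv 846 (cons (fin 910 6 845)
(mv 845 (cons (fin 782 6 781)
(mv 781 (cons (fin 717 5 716)
(fin 974 4 781))))))))))))
(mv 844 (cons (fin 780 4 780)
(mv 1101 (cons (fin 1165 7 908)
(fin 1036 4 844))))))))))))
(mv 1038 (cons (fin 1039 3 972)
(mv 971 (cons (fin 970 0 970)
(mv 974 (cons (cons (mv 906 (cons (fin 907 3 906)
(mv 910 (cons (fin 911 2 907)
(mv 1035 (cons (fin 1034 1 970)
(mv 1036 (cons (fin 975 1 971)
(mv 1099 (cons (fin 1098 1 1034)
(mv 908 (cons (fin 844 5 843)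
(fin 1163 6 907)))))))))))))
(cons (mv 906 (cons (fin 907 3 906)
(mv 911 (cons (fin 910 2 907)
(mv 975 (cons (fin 912 2 908)
(mv 976 (cons (fin 1036 1 972)
(fin 977 1 973)))))))))
(mv 910 (cons (fin 911 2 907)
(mv 1035 (cons (fin 1034 1 970)
(mv 1036 (cons (fin 975 1 971)
(mv 1099 (cons (fin 1098 1 1034)
(mv 908 (cons (fin 844 5 843)
(fin 1163 6 907)))))))))))))
(cons (cons (mv 906 (cons (fin 907 3 906)
(mv 1035 (cons (fin 1034 1 970)
(mv 975 (cons (fin 1036 1 971)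
(mv 912 (cons (fin 911 2 908)
(mv 976 (cons (fin 977 1 973)
(fin 913 2 909)))))))))))
(mv 906 (cons (fin 907 3 906)
(mv 1035 (cons (fin 1034 1 970)
(mv 1036 (cons (fin 975 1 971)
(mv 1099 (cons (fin 1098 1 1034)
(mv 908 (cons (fin 844 5 843)
(fin 1163 6 907))))))))))))
(cons (mv 906 (cons (fin 907 3 906)
(mv 910 (cons (fin 911 2 907)
(mv 1035 (cons (fin 1034 1 970)
(mv 1101 (cons (fin 1165 6 909)
(mv 908 (cons (mv 844 (cons (fin 909 7 844)
(fin 780 5 779)))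
(mv 1099 (cons (fin 1163 6 907)
(mv 1098 (cons (fin 1036 1 1034)
(fin 1100 2 1034)))))))))))))))
(mv 907 (cons (fin 906 3 906)
(mv 908 (cons (fin 975 3 907)
(mv 780 (cons (fin 844 4 780)
(mv 910 (cons (fin 911 2 907)
(mv 1035 (cons (fin 1034 1 970)
(mv 1099 (cons (fin 1163 6 907)
(mv 1098 (cons (fin 1162 5 906)
(mv 1100 (cons (fin 1101 2 1034)
(fin 1164 4 907))))))))))))))))))))))))))))))
(mv 1038 (cons (cons (mv 1039 (cons (fin 972 3 972)
(mv 976 (cons (fin 977 2 973)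
(mv 975 (cons (fin 1036 2 972)
(mv 1100 (cons (fin 1101 1 1036)
(mv 1104 (cons (fin 1105 0 1037)
(mv 1168 (cons (fin 911 7 911)
(fin 1232 7 975)))))))))))))
(cons (mv 1102 (cons (cons (mv 909 (cons (fin 845 4 845)
(mv 1166 (cons (fin 974 7 909)
(fin 1230 7 973)))))
(mv 909 (cons (fin 845 4 845)
(mv 1101 (cons (cons (mv 846 (cons (fin 910 6 845)
(mv 1100 (cons (fin 1164 5 908)
(mv 1099 (cons (fin 1098 2 1034)
(mv 1035 (cons (fin 1034 3 1034)
(mv 1036 (cons (fin 1103 3 1035)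
(mv 970 (cons (fin 971 3 970)
(mv 974 (cons (fin 975 2 971)
(mv 1163 (cons (fin 1162 1 1098)
(mv 1227 (cons (fin 972 6 971)
(fin 1291 6 1035)))))))))))))))))))
(mv 1100 (cons (fin 1164 5 908)
(mv 1099 (cons (fin 1098 2 1034)
(mv 1035 (cons (fin 1034 3 1034)
(mv 1036 (cons (fin 1103 3 1035)
(mv 970 (cons (fin 971 3 970)
(mv 974 (cons (fin 975 2 971)
(mv 1163 (cons (fin 1162 1 1098)
(mv 1227 (cons (fin 972 6 971)
(fin 1291 6 1035))))))))))))))))))
(cons (mv 910 (cons (fin 846 6 845)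
(mv 974 (cons (fin 1165 5 909)
(mv 1103 (cons (fin 1167 4 910)
(mv 1036 (cons (fin 1104 3 1036)
(fin 1035 0 1035)))))))))
(cons (mv 846 (cons (fin 910 6 845)
(mv 1100 (cons (fin 1164 5 908)
(mv 1099 (cons (fin 1098 2 1034)
(mv 1035 (cons (fin 1034 3 1034)
(mv 1036 (cons (fin 1103 3 1035)
(mv 970 (cons (fin 971 3 970)
(mv 1163 (cons (fin 1162 1 1098)
(mv 1227 (cons (fin 972 6 971)
(fin 1291 6 1035)))))))))))))))))
(mv 846 (cons (fin 910 6 845)
(mv 1164 (cons (fin 1100 5 908)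
(mv 1165 (cons (fin 1228 5 972)
(mv 1229 (cons (fin 974 6 973)
(fin 1293 6 1037))))))))))))))))
(cons (mv 1166 (cons (fin 1230 7 973)
(mv 974 (cons (cons (mv 911 (cons (fin 975 6 910)
(mv 1165 (cons (fin 1229 5 973)
(mv 910 (cons (fin 1101 5 909)
(mv 1167 (cons (fin 1103 4 910)
(fin 1231 4 974)))))))))
(mv 911 (cons (fin 975 6 910)
(mv 1167 (cons (fin 1231 4 974)
(mv 910 (cons (fin 1103 4 910)
(mv 846 (cons (fin 782 5 781)
(fin 1101 5 845))))))))))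
(cons (mv 1165 (cons (fin 1229 5 973)
(mv 910 (cons (fin 1101 5 909)
(mv 1167 (cons (fin 1103 4 910)
(fin 1231 4 974)))))))
(cons (mv 911 (cons (fin 975 6 910)
(mv 1165 (cons (fin 1229 5 973)
(mv 1101 (cons (fin 910 5 909)
(mv 1164 (cons (fin 1228 5 972)
(mv 1103 (cons (fin 1104 1 1100)
(fin 1163 2 1099)))))))))))
(mv 975 (cons (fin 911 6 910)
(mv 976 (cons (fin 1036 1 972)
(fin 977 1 973)))))))))))
(mv 909 (cons (fin 845 4 845)
(mv 1166 (cons (fin 1230 7 973)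
(fin 1101 4 909))))))))
(mv 1039 (cons (cons (mv 976 (cons (fin 977 2 973)
(mv 975 (cons (fin 1036 2 972)
(mv 1100 (cons (fin 1101 1 1036)
(mv 1104 (cons (fin 1105 0 1037)
(mv 1168 (cons (fin 911 7 911)
(fin 1232 7 975)))))))))))
(mv 1100 (cons (fin 1101 1 1036)
(mv 1036 (cons (fin 1099 1 1035)
(mv 1104 (cons (fin 1103 0 1036)
(fin 1105 0 1037))))))))
(cons (mv 976 (cons (fin 977 2 973)
(mv 975 (cons (fin 1036 2 972)
(mv 1104 (cons (fin 1105 0 1037)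
(mv 1168 (cons (fin 911 7 911)
(fin 1232 7 975)))))))))
(cons (mv 976 (cons (fin 977 2 973)
(mv 1036 (cons (fin 975 2 972)
(mv 1100 (cons (fin 1099 1 1035)
(fin 1101 1 1036)))))))
(mv 976 (cons (fin 977 2 973)
(mv 1100 (cons (fin 1101 1 1036)
(mv 1104 (cons (fin 1105 0 1037)
(mv 1168 (cons (mv 975 (cons (fin 911 7 911)
(fin 1232 7 975)))
(cons (mv 1167 (cons (fin 1231 5 975)
(mv 912 (cons (fin 1103 5 911)
(mv 849 (cons (fin 913 6 848)
(mv 785 (cons (fin 848 6 784)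
(mv 1233 (cons (fin 1169 4 976)
(mv 1232 (cons (fin 1297 4 1040)
(mv 1166 (cons (fin 1165 0 1165)
(mv 1102 (cons (fin 1230 7 973)
(mv 909 (cons (fin 974 7 909)
(fin 845 4 845)))))))))))))))))))
(mv 911 (cons (fin 975 7 911)
(mv 1167 (cons (fin 1231 5 975)
(mv 912 (cons (fin 1103 5 911)
(mv 849 (cons (fin 913 6 848)
(mv 848 (cons (fin 785 6 784)
(mv 850 (cons (fin 851 1 847)
(mv 909 (cons (fin 910 2 845)
(mv 845 (cons (fin 1102 4 845)
(mv 780 (cons (fin 844 7 780)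
(mv 781 (cons (fin 716 7 716)
(fin 974 4 781))))))))))))))))))))))))))))))))))))
(cons (mv 972 (cons (fin 1039 3 972)
(mv 971 (cons (fin 970 0 970)
(mv 974 (cons (cons (mv 906 (cons (fin 907 3 906)
(mv 910 (cons (fin 911 2 907)
(mv 782 (cons (fin 846 5 781)
(mv 1035 (cons (fin 1034 1 970)
(mv 1036 (cons (fin 975 1 971)
(mv 1098 (cons (fin 1099 1 1034)
(mv 1102 (cons (fin 1103 0 1035)
(mv 909 (cons (fin 845 7 845)
(fin 1166 7 909)))))))))))))))))
(mv 906 (cons (fin 907 3 906)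
(mv 910 (cons (fin 911 2 907)
(mv 846 (cons (fin 782 5 781)
(mv 845 (cons (fin 781 7 781)
(mv 1102 (cons (fin 909 7 845)
(mv 1166 (cons (fin 1230 7 973)
(mv 1167 (cons (fin 1103 4 910)
(fin 1231 4 974))))))))))))))))
(cons (mv 906 (cons (fin 907 3 906)
(mv 1035 (cons (fin 1034 1 970)
(mv 975 (cons (fin 1036 1 971)
(mv 912 (cons (fin 911 2 908)
(mv 976 (cons (fin 977 1 973)
(fin 913 2 909)))))))))))
(cons (mv 906 (cons (fin 907 3 906)
(mv 1035 (cons (fin 1034 1 970)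
(mv 1036 (cons (fin 975 1 971)
(mv 1098 (cons (fin 1099 1 1034)
(mv 1102 (cons (fin 1103 0 1035)
(mv 909 (cons (fin 1166 7 909)
(fin 845 4 845)))))))))))))
(mv 910 (cons (fin 911 2 907)
(mv 782 (cons (fin 846 5 781)
(mv 1035 (cons (fin 1034 1 970)
(mv 1036 (cons (fin 975 1 971)
(mv 1098 (cons (fin 1099 1 1034)
(mv 1102 (cons (fin 1103 0 1035)
(mv 909 (cons (fin 845 7 845)
(fin 1166 7 909)))))))))))))))))))))))
(cons (mv 1039 (cons (fin 972 3 972)
(mv 1100 (cons (fin 1101 1 1036)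
(mv 1036 (cons (fin 1099 1 1035)
(mv 1104 (cons (fin 1103 0 1036)
(fin 1105 0 1037)))))))))
(mv 1039 (cons (fin 972 3 972)
(mv 976 (cons (fin 977 2 973)
(mv 1100 (cons (fin 1101 1 1036)
(mv 1104 (cons (fin 1105 0 1037)
(mv 1168 (cons (mv 975 (cons (fin 911 7 911)
(fin 1232 7 975)))
(cons (mv 1167 (cons (fin 1231 5 975)
(mv 912 (cons (fin 1103 5 911)
(mv 849 (cons (fin 913 6 848)
(mv 785 (cons (fin 848 6 784)
(mv 1233 (cons (fin 1169 4 976)
(mv 1232 (cons (fin 1297 4 1040)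
(mv 1166 (cons (fin 1165 0 1165)
(mv 1102 (cons (fin 1230 7 973)
(mv 909 (cons (fin 974 7 909)
(fin 845 4 845)))))))))))))))))))
(mv 911 (cons (fin 975 7 911)
(mv 1167 (cons (fin 1231 5 975)
(mv 912 (cons (fin 1103 5 911)
(mv 849 (cons (fin 913 6 848)
(mv 848 (cons (fin 785 6 784)
(mv 850 (cons (fin 851 1 847)
(mv 909 (cons (fin 910 2 845)
(mv 845 (cons (fin 1102 4 845)
(mv 780 (cons (fin 844 7 780)
(mv 781 (cons (fin 716 7 716)
(fin 974 4 781)))))))))))))))))))))))))))))))))))))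
(cons (mv 1038 (cons (cons (mv 1039 (cons (fin 972 3 972)
(mv 976 (cons (fin 977 2 973)
(mv 975 (cons (fin 1036 2 972)
(mv 1100 (cons (fin 1101 1 1036)
(mv 1104 (cons (fin 1105 0 1037)
(mv 1168 (cons (fin 911 7 911)
(fin 1232 7 975)))))))))))))
(cons (mv 1102 (cons (cons (mv 909 (cons (fin 845 4 845)
(mv 1166 (cons (fin 974 7 909)
(fin 1230 7 973)))))
(mv 909 (cons (fin 845 4 845)
(mv 1101 (cons (cons (mv 844 (cons (fin 908 7 844)
(mv 1100 (cons (fin 1164 5 908)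
(mv 1099 (cons (fin 1098 2 1034)
(mv 1035 (cons (fin 1034 3 1034)
(mv 1036 (cons (fin 1103 3 1035)
(mv 970 (cons (fin 971 3 970)
(mv 974 (cons (fin 975 2 971)
(mv 1163 (cons (fin 1162 1 1098)
(mv 1227 (cons (fin 972 6 971)
(fin 1291 6 1035)))))))))))))))))))
(mv 908 (cons (fin 844 7 844)
(mv 1165 (cons (fin 972 7 908)
(mv 1229 (cons (fin 974 6 973)
(fin 1293 6 1037))))))))
(cons (mv 1100 (cons (fin 1164 5 908)
(mv 1099 (cons (fin 1098 2 1034)
(mv 1035 (cons (fin 1034 3 1034)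
(mv 1036 (cons (fin 1103 3 1035)
(mv 970 (cons (fin 971 3 970)
(mv 974 (cons (fin 975 2 971)
(mv 1163 (cons (fin 1162 1 1098)
(mv 1227 (cons (fin 972 6 971)
(fin 1291 6 1035)))))))))))))))))
(mv 844 (cons (fin 908 7 844)
(mv 1100 (cons (fin 1164 5 908)
(mv 1099 (cons (fin 1098 2 1034)
(mv 1035 (cons (fin 1034 3 1034)
(mv 1103 (cons (fin 1036 3 1035)
(mv 1104 (cons (fin 1105 3 1037)
(mv 1168 (cons (fin 1167 0 1100)
(fin 1169 0 1101)))))))))))))))))))))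
(cons (mv 1166 (cons (fin 1230 7 973)
(mv 974 (cons (mv 975 (cons (fin 911 6 910)
(mv 976 (cons (fin 1036 1 972)
(fin 977 1 973)))))
(mv 1165 (cons (fin 1229 5 973)
(mv 1167 (cons (fin 1231 4 974)
(mv 1101 (cons (mv 1100 (cons (fin 1168 3 1100)
(fin 1099 0 1099)))
(mv 908 (cons (fin 972 7 908)
(mv 1164 (cons (fin 1228 5 972)
(mv 1103 (cons (fin 1104 1 1100)
(fin 1163 2 1099)))))))))))))))))
(mv 909 (cons (fin 845 4 845)
(mv 1166 (cons (fin 1230 7 973)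
(fin 1101 4 909))))))))
(mv 1039 (cons (cons (mv 976 (cons (fin 977 2 973)
(mv 975 (cons (fin 1036 2 972)
(mv 1100 (cons (fin 1101 1 1036)
(mv 1104 (cons (fin 1105 0 1037)
(mv 1168 (cons (fin 911 7 911)
(fin 1232 7 975)))))))))))
(mv 1100 (cons (fin 1101 1 1036)
(mv 1036 (cons (fin 1099 1 1035)
(mv 1104 (cons (fin 1103 0 1036)
(fin 1105 0 1037))))))))
(cons (mv 976 (cons (fin 977 2 973)
(mv 975 (cons (fin 1036 2 972)
(mv 1104 (cons (fin 1105 0 1037)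
(mv 1168 (cons (fin 911 7 911)
(fin 1232 7 975)))))))))
(cons (mv 976 (cons (fin 977 2 973)
(mv 1036 (cons (fin 975 2 972)
(mv 1100 (cons (fin 1099 1 1035)
(fin 1101 1 1036)))))))
(mv 976 (cons (fin 977 2 973)
(mv 1100 (cons (fin 1101 1 1036)
(mv 1104 (cons (fin 1105 0 1037)
(mv 1168 (cons (mv 975 (cons (fin 911 7 911)
(fin 1232 7 975)))
(cons (mv 1167 (cons (fin 1231 5 975)
(mv 912 (cons (fin 1103 5 911)
(mv 849 (cons (fin 913 6 848)
(mv 785 (cons (fin 848 6 784)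
(mv 1233 (cons (fin 1169 4 976)
(mv 1232 (cons (fin 1297 4 1040)
(mv 1166 (cons (fin 1165 0 1165)
(mv 1102 (cons (fin 1230 7 973)
(mv 909 (cons (fin 974 7 909)
(fin 845 4 845)))))))))))))))))))
(mv 911 (cons (fin 975 7 911)
(mv 1167 (cons (fin 1231 5 975)
(mv 1103 (cons (fin 912 5 911)
(mv 1169 (cons (fin 1233 4 976)
(mv 1170 (cons (fin 1102 3 1102)
(fin 1171 3 1103))))))))))))))))))))))))))
(cons (cons (mv 1039 (cons (fin 972 3 972)
(mv 976 (cons (fin 977 2 973)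
(mv 975 (cons (fin 1036 2 972)
(mv 1104 (cons (fin 1105 0 1037)
(mv 1168 (cons (fin 911 7 911)
(fin 1232 7 975)))))))))))
(mv 1039 (cons (fin 972 3 972)
(mv 1100 (cons (fin 1101 1 1036)
(mv 1036 (cons (fin 1099 1 1035)
(mv 1104 (cons (fin 1103 0 1036)
(fin 1105 0 1037))))))))))
(cons (mv 1039 (cons (fin 972 3 972)
(mv 976 (cons (fin 977 2 973)
(mv 1036 (cons (fin 975 2 972)
(mv 1100 (cons (fin 1099 1 1035)
(fin 1101 1 1036)))))))))
(mv 1039 (cons (fin 972 3 972)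
(mv 976 (cons (fin 977 2 973)
(mv 1100 (cons (fin 1101 1 1036)
(mv 1104 (cons (fin 1105 0 1037)
(mv 1168 (cons (mv 975 (cons (fin 911 7 911)
(fin 1232 7 975)))
(cons (mv 1167 (cons (fin 1231 5 975)
(mv 912 (cons (fin 1103 5 911)
(mv 849 (cons (fin 913 6 848)
(mv 785 (cons (fin 848 6 784)
(mv 1233 (cons (fin 1169 4 976)
(mv 1232 (cons (fin 1297 4 1040)
(mv 1166 (cons (fin 1165 0 1165)
(mv 1102 (cons (fin 1230 7 973)
(mv 909 (cons (fin 974 7 909)
(fin 845 4 845)))))))))))))))))))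
(mv 911 (cons (fin 975 7 911)
(mv 1167 (cons (fin 1231 5 975)
(mv 1103 (cons (fin 912 5 911)
(mv 1169 (cons (fin 1233 4 976)
(mv 1170 (cons (fin 1102 3 1102)
(fin 1171 3 1103))))))))))))))))))))))))))
(cons (mv 1038 (cons (cons (mv 1039 (cons (fin 972 3 972)
(mv 976 (cons (fin 977 2 973)
(mv 975 (cons (fin 1036 2 972)
(mv 1100 (cons (fin 1101 1 1036)
(mv 1104 (cons (fin 1105 0 1037)
(mv 1168 (cons (fin 911 7 911)
(fin 1232 7 975)))))))))))))
(cons (mv 1102 (cons (cons (mv 909 (cons (fin 845 4 845)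
(mv 1166 (cons (fin 974 7 909)
(fin 1230 7 973)))))
(mv 1166 (cons (fin 1230 7 973)
(mv 974 (cons (cons (mv 911 (cons (fin 975 6 910)
(mv 1165 (cons (fin 1229 5 973)
(mv 910 (cons (fin 1101 5 909)
(mv 1167 (cons (fin 1103 4 910)
(fin 1231 4 974)))))))))
(mv 911 (cons (fin 975 6 910)
(mv 1167 (cons (fin 1231 4 974)
(mv 910 (cons (fin 1103 4 910)
(mv 846 (cons (fin 782 5 781)
(fin 1101 5 845))))))))))
(cons (mv 1165 (cons (fin 1229 5 973)
(mv 910 (cons (fin 1101 5 909)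
(mv 1167 (cons (fin 1103 4 910)
(fin 1231 4 974)))))))
(cons (mv 911 (cons (fin 975 6 910)
(mv 1165 (cons (fin 1229 5 973)
(mv 1101 (cons (fin 910 5 909)
(mv 972 (cons (fin 908 7 908)
(mv 971 (cons (fin 970 0 970)
(mv 906 (cons (fin 907 3 906)
(mv 1035 (cons (fin 1034 1 970)
(mv 1036 (cons (fin 1103 0 1035)
(mv 1099 (cons (fin 1098 1 1034)
(mv 1163 (cons (fin 1227 6 971)
(mv 1162 (cons (fin 1100 1 1098)
(fin 1226 5 970)))))))))))))))))))))))
(mv 975 (cons (fin 911 6 910)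
(mv 976 (cons (fin 1036 1 972)
(fin 977 1 973))))))))))))
(cons (mv 909 (cons (fin 845 4 845)
(mv 1101 (cons (cons (mv 844 (cons (fin 908 7 844)
(mv 910 (cons (fin 846 6 845)
(mv 974 (cons (fin 1165 5 909)
(mv 1103 (cons (fin 1167 4 910)
(mv 1036 (cons (fin 1104 3 1036)
(fin 1035 0 1035)))))))))))
(mv 908 (cons (fin 844 7 844)
(mv 1165 (cons (fin 972 7 908)
(mv 1229 (cons (fin 974 6 973)
(fin 1293 6 1037))))))))
(cons (mv 910 (cons (fin 846 6 845)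
(mv 974 (cons (fin 1165 5 909)
(mv 1103 (cons (fin 1167 4 910)
(mv 1036 (cons (fin 1104 3 1036)
(fin 1035 0 1035)))))))))
(cons (mv 844 (cons (fin 908 7 844)
(mv 910 (cons (fin 846 6 845)
(mv 1103 (cons (mv 1036 (cons (fin 1104 3 1036)
(fin 1035 0 1035)))
(cons (mv 1104 (cons (fin 1105 3 1037)
(mv 1167 (cons (fin 974 4 910)
(mv 1168 (cons (fin 1100 0 1100)
(fin 1169 0 1101)))))))
(mv 1035 (cons (fin 1036 0 1035)
(mv 1167 (cons (fin 974 4 910)
(mv 1100 (cons (fin 1168 0 1100)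
(mv 1099 (cons (fin 1034 3 1034)
(fin 1098 2 1034))))))))))))))))
(mv 908 (cons (fin 844 7 844)
(mv 910 (cons (fin 846 6 845)
(mv 972 (cons (fin 1165 7 908)
(mv 911 (cons (fin 971 1 907)
(fin 912 1 908)))))))))))))))
(mv 909 (cons (fin 845 4 845)
(mv 1166 (cons (fin 1230 7 973)
(fin 1101 4 909))))))))
(mv 1039 (cons (cons (mv 976 (cons (fin 977 2 973)
(mv 975 (cons (fin 1036 2 972)
(mv 1100 (cons (fin 1101 1 1036)
(mv 1104 (cons (fin 1105 0 1037)
(mv 1168 (cons (fin 911 7 911)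
(fin 1232 7 975)))))))))))
(mv 1100 (cons (fin 1101 1 1036)
(mv 1036 (cons (fin 1099 1 1035)
(mv 1104 (cons (fin 1103 0 1036)
(fin 1105 0 1037))))))))
(cons (mv 976 (cons (fin 977 2 973)
(mv 1036 (cons (fin 975 2 972)
(mv 1100 (cons (fin 1099 1 1035)
(fin 1101 1 1036)))))))
(cons (mv 976 (cons (fin 977 2 973)
(mv 975 (cons (fin 1036 2 972)
(mv 1104 (cons (fin 1105 0 1037)
(mv 1168 (cons (fin 911 7 911)
(fin 1232 7 975)))))))))
(mv 976 (cons (fin 977 2 973)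
(mv 1100 (cons (fin 1101 1 1036)
(mv 1104 (cons (fin 1105 0 1037)
(mv 1168 (cons (mv 975 (cons (fin 911 7 911)
(fin 1232 7 975)))
(cons (mv 1167 (cons (fin 1231 5 975)
(mv 912 (cons (fin 1103 5 911)
(mv 849 (cons (fin 913 6 848)
(mv 785 (cons (fin 848 6 784)
(mv 1233 (cons (fin 1169 4 976)
(mv 1232 (cons (fin 1297 4 1040)
(mv 1166 (cons (fin 1165 0 1165)
(mv 1102 (cons (fin 1230 7 973)
(mv 909 (cons (fin 974 7 909)
(fin 845 4 845)))))))))))))))))))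
(mv 911 (cons (fin 975 7 911)
(mv 1167 (cons (fin 1231 5 975)
(mv 912 (cons (fin 1103 5 911)
(mv 849 (cons (fin 913 6 848)
(mv 848 (cons (fin 785 6 784)
(mv 850 (cons (fin 851 1 847)
(mv 909 (cons (fin 910 2 845)
(mv 845 (cons (fin 1102 4 845)
(mv 780 (cons (fin 844 7 780)
(mv 781 (cons (fin 716 7 716)
(fin 974 4 781))))))))))))))))))))))))))))))))))))
(cons (cons (mv 1039 (cons (fin 972 3 972)
(mv 976 (cons (fin 977 2 973)
(mv 975 (cons (fin 1036 2 972)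
(mv 1104 (cons (fin 1105 0 1037)
(mv 1168 (cons (fin 911 7 911)
(fin 1232 7 975)))))))))))
(mv 1039 (cons (fin 972 3 972)
(mv 1100 (cons (fin 1101 1 1036)
(mv 1036 (cons (fin 1099 1 1035)
(mv 1104 (cons (fin 1103 0 1036)
(fin 1105 0 1037))))))))))
(cons (mv 1039 (cons (fin 972 3 972)
(mv 976 (cons (fin 977 2 973)
(mv 1036 (cons (fin 975 2 972)
(mv 1100 (cons (fin 1099 1 1035)
(fin 1101 1 1036)))))))))
(mv 1039 (cons (fin 972 3 972)
(mv 976 (cons (fin 977 2 973)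
(mv 1100 (cons (fin 1101 1 1036)
(mv 1104 (cons (fin 1105 0 1037)
(mv 1168 (cons (mv 975 (cons (fin 911 7 911)
(fin 1232 7 975)))
(cons (mv 1167 (cons (fin 1231 5 975)
(mv 912 (cons (fin 1103 5 911)
(mv 849 (cons (fin 913 6 848)
(mv 785 (cons (fin 848 6 784)
(mv 1233 (cons (fin 1169 4 976)
(mv 1232 (cons (fin 1297 4 1040)
(mv 1166 (cons (fin 1165 0 1165)
(mv 1102 (cons (fin 1230 7 973)
(mv 909 (cons (fin 974 7 909)
(fin 845 4 845)))))))))))))))))))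
(mv 911 (cons (fin 975 7 911)
(mv 1167 (cons (fin 1231 5 975)
(mv 912 (cons (fin 1103 5 911)
(mv 849 (cons (fin 913 6 848)
(mv 848 (cons (fin 785 6 784)
(mv 850 (cons (fin 851 1 847)
(mv 909 (cons (fin 910 2 845)
(mv 845 (cons (fin 1102 4 845)
(mv 780 (cons (fin 844 7 780)
(mv 781 (cons (fin 716 7 716)
(fin 974 4 781))))))))))))))))))))))))))))))))))))
(mv 1038 (cons (cons (mv 1039 (cons (fin 972 3 972)
(mv 976 (cons (fin 977 2 973)
(mv 975 (cons (fin 1036 2 972)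
(mv 1100 (cons (fin 1101 1 1036)
(mv 1104 (cons (fin 1105 0 1037)
(mv 1168 (cons (fin 911 7 911)
(fin 1232 7 975)))))))))))))
(cons (mv 909 (cons (cons (mv 845 (cons (fin 1102 4 845)
(mv 780 (cons (fin 844 7 780)
(mv 781 (cons (fin 716 7 716)
(fin 974 4 781)))))))
(mv 1101 (cons (cons (cons (mv 844 (cons (fin 908 7 844)
(mv 846 (cons (fin 910 6 845)
(mv 1164 (cons (fin 1100 5 908)
(mv 1165 (cons (fin 1228 5 972)
(mv 1229 (cons (fin 974 6 973)
(mv 972 (cons (fin 1036 7 972)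
(mv 970 (cons (fin 971 0 970)
(mv 1293 (cons (fin 1102 6 1037)
(mv 1294 (cons (fin 1230 4 1037)
(fin 1358 4 1101)))))))))))))))))))
(mv 844 (cons (fin 908 7 844)
(mv 1164 (cons (fin 1100 5 908)
(mv 1165 (cons (fin 1228 5 972)
(mv 1229 (cons (fin 974 6 973)
(mv 972 (cons (fin 1036 7 972)
(mv 970 (cons (fin 971 0 970)
(mv 1293 (cons (fin 1102 6 1037)
(mv 1294 (cons (fin 1230 4 1037)
(fin 1358 4 1101))))))))))))))))))
(cons (mv 846 (cons (fin 910 6 845)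
(mv 1164 (cons (fin 1100 5 908)
(mv 1165 (cons (fin 1228 5 972)
(mv 1229 (cons (fin 974 6 973)
(mv 972 (cons (fin 1036 7 972)
(mv 970 (cons (fin 971 0 970)
(mv 1293 (cons (fin 1102 6 1037)
(mv 1294 (cons (fin 1230 4 1037)
(fin 1358 4 1101)))))))))))))))))
(mv 844 (cons (fin 908 7 844)
(mv 910 (cons (fin 846 6 845)
(mv 1165 (cons (fin 974 6 909)
(mv 1228 (cons (fin 1164 5 972)
(mv 1229 (cons (fin 1292 5 1036)
(mv 972 (cons (fin 1036 7 972)
(mv 911 (cons (fin 912 1 908)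
(mv 970 (cons (fin 971 2 906)
(mv 1293 (cons (fin 1102 6 1037)
(mv 1294 (cons (fin 1230 4 1037)
(fin 1358 4 1101)))))))))))))))))))))))
(cons (cons (mv 846 (cons (fin 910 6 845)
(mv 908 (cons (fin 844 7 844)
(mv 1165 (cons (fin 972 7 908)
(mv 1229 (cons (fin 974 6 973)
(mv 1228 (cons (fin 1292 5 1036)
(mv 1293 (cons (fin 1102 6 1037)
(mv 1294 (cons (fin 1230 4 1037)
(fin 1358 4 1101)))))))))))))))
(mv 908 (cons (fin 844 7 844)
(mv 910 (cons (fin 846 6 845)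
(mv 1100 (cons (fin 1164 5 908)
(mv 1098 (cons (fin 1099 2 1034)
(mv 907 (cons (cons (mv 974 (cons (fin 906 0 906)
(fin 975 0 907)))
(mv 842 (cons (fin 843 3 842)
(mv 841 (cons (fin 906 3 841)
(mv 971 (cons (fin 970 1 906)
(mv 911 (cons (fin 972 1 907)
(mv 976 (cons (fin 975 0 908)
(mv 912 (cons (fin 977 0 909)
(mv 849 (cons (fin 848 2 845)
(mv 913 (cons (fin 850 2 846)
(fin 1104 6 848))))))))))))))))))
(cons (mv 842 (cons (fin 843 3 842)
(mv 971 (cons (fin 970 1 906)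
(mv 911 (cons (fin 972 1 907)
(mv 975 (cons (fin 974 0 907)
(fin 976 0 908)))))))))
(mv 842 (cons (fin 843 3 842)
(mv 906 (cons (fin 841 3 841)
(fin 974 0 906)))))))))))))))))
(cons (mv 846 (cons (fin 910 6 845)
(mv 908 (cons (fin 844 7 844)
(mv 972 (cons (fin 1165 7 908)
(mv 970 (cons (fin 971 0 970)
(mv 1100 (cons (fin 1164 5 908)
(mv 1099 (cons (fin 1098 2 1034)
(mv 1036 (cons (fin 1163 5 907)
(mv 907 (cons (fin 843 7 843)
(mv 906 (cons (fin 969 1 905)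
(fin 905 0 905)))))))))))))))))))
(mv 844 (cons (fin 908 7 844)
(mv 846 (cons (fin 910 6 845)
(mv 1164 (cons (fin 1100 5 908)
(mv 1165 (cons (fin 1228 5 972)
(mv 1229 (cons (fin 974 6 973)
(mv 1293 (cons (fin 1102 6 1037)
(mv 1294 (cons (fin 1230 4 1037)
(fin 1358 4 1101))))))))))))))))))))
(cons (mv 845 (cons (mv 780 (cons (fin 844 7 780)
(mv 781 (cons (fin 716 7 716)
(fin 974 4 781)))))
(cons (mv 780 (cons (fin 844 7 780)
(mv 846 (cons (fin 782 6 781)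
(mv 1100 (cons (fin 1036 5 844)
(mv 1101 (cons (fin 1164 5 908)
(fin 910 6 845)))))))))
(mv 781 (cons (fin 974 4 781)
(mv 782 (cons (fin 718 6 717)
(fin 846 6 781))))))))
(cons (mv 845 (cons (fin 1102 4 845)
(mv 781 (cons (fin 974 4 781)
(mv 782 (cons (fin 718 6 717)
(fin 846 6 781)))))))
(mv 845 (cons (fin 1102 4 845)
(mv 780 (cons (fin 844 7 780)
(mv 716 (cons (fin 781 7 716)
(mv 846 (cons (fin 782 6 781)
(mv 1100 (cons (fin 1036 5 844)
(mv 1101 (cons (fin 1164 5 908)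
(fin 910 6 845)))))))))))))))))
(mv 1039 (cons (cons (mv 976 (cons (fin 977 2 973)
(mv 975 (cons (fin 1036 2 972)
(mv 1100 (cons (fin 1101 1 1036)
(mv 1104 (cons (fin 1105 0 1037)
(mv 1168 (cons (fin 911 7 911)
(fin 1232 7 975)))))))))))
(mv 1100 (cons (fin 1101 1 1036)
(mv 1036 (cons (fin 1099 1 1035)
(mv 1104 (cons (fin 1103 0 1036)
(fin 1105 0 1037))))))))
(cons (mv 976 (cons (fin 977 2 973)
(mv 975 (cons (fin 1036 2 972)
(mv 1104 (cons (fin 1105 0 1037)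
(mv 1168 (cons (fin 911 7 911)
(fin 1232 7 975)))))))))
(cons (mv 976 (cons (fin 977 2 973)
(mv 1036 (cons (fin 975 2 972)
(mv 1100 (cons (fin 1099 1 1035)
(fin 1101 1 1036)))))))
(mv 976 (cons (fin 977 2 973)
(mv 1100 (cons (fin 1101 1 1036)
(mv 1104 (cons (fin 1105 0 1037)
(mv 1168 (cons (mv 975 (cons (fin 911 7 911)
(fin 1232 7 975)))
(mv 1167 (cons (fin 1231 5 975)
(mv 1103 (cons (fin 912 5 911)
(mv 1169 (cons (fin 1233 4 976)
(mv 1170 (cons (fin 1102 3 1102)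
(fin 1171 3 1103)))))))))))))))))))))))
(cons (cons (mv 1039 (cons (fin 972 3 972)
(mv 976 (cons (fin 977 2 973)
(mv 975 (cons (fin 1036 2 972)
(mv 1104 (cons (fin 1105 0 1037)
(mv 1168 (cons (fin 911 7 911)
(fin 1232 7 975)))))))))))
(mv 1039 (cons (fin 972 3 972)
(mv 1100 (cons (fin 1101 1 1036)
(mv 1036 (cons (fin 1099 1 1035)
(mv 1104 (cons (fin 1103 0 1036)
(fin 1105 0 1037))))))))))
(cons (mv 1039 (cons (fin 972 3 972)
(mv 976 (cons (fin 977 2 973)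
(mv 1036 (cons (fin 975 2 972)
(mv 1100 (cons (fin 1099 1 1035)
(fin 1101 1 1036)))))))))
(mv 1039 (cons (fin 972 3 972)
(mv 976 (cons (fin 977 2 973)
(mv 1100 (cons (fin 1101 1 1036)
(mv 1104 (cons (fin 1105 0 1037)
(mv 1168 (cons (mv 975 (cons (fin 911 7 911)
(fin 1232 7 975)))
(mv 1167 (cons (fin 1231 5 975)
(mv 1103 (cons (fin 912 5 911)
(mv 1169 (cons (fin 1233 4 976)
(mv 1170 (cons (fin 1102 3 1102)
(fin 1171 3 1103))))))))))))))))))))))))))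
(cons (cons (mv 1038 (cons (cons (mv 1039 (cons (fin 972 3 972)
(mv 976 (cons (fin 977 2 973)
(mv 975 (cons (fin 1036 2 972)
(mv 1100 (cons (fin 1101 1 1036)
(mv 1104 (cons (fin 1105 0 1037)
(mv 1168 (cons (fin 911 7 911)
(fin 1232 7 975)))))))))))))
(cons (mv 1102 (cons (cons (mv 909 (cons (fin 845 4 845)
(mv 1166 (cons (fin 974 7 909)
(fin 1230 7 973)))))
(mv 909 (cons (fin 845 4 845)
(mv 1101 (cons (cons (mv 846 (cons (fin 910 6 845)
(mv 1100 (cons (fin 1164 5 908)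
(mv 1099 (cons (fin 1098 2 1034)
(mv 1035 (cons (fin 1034 3 1034)
(mv 1036 (cons (fin 1103 3 1035)
(mv 970 (cons (fin 971 3 970)
(mv 974 (cons (fin 975 2 971)
(mv 1163 (cons (fin 1162 1 1098)
(mv 972 (cons (fin 908 5 907)
(fin 1227 6 971)))))))))))))))))))
(mv 1100 (cons (fin 1164 5 908)
(mv 1099 (cons (fin 1098 2 1034)
(mv 1035 (cons (fin 1034 3 1034)
(mv 1036 (cons (fin 1103 3 1035)
(mv 970 (cons (fin 971 3 970)
(mv 974 (cons (fin 975 2 971)
(mv 1163 (cons (fin 1162 1 1098)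
(mv 972 (cons (fin 908 5 907)
(fin 1227 6 971))))))))))))))))))
(cons (mv 910 (cons (fin 846 6 845)
(mv 974 (cons (fin 1165 5 909)
(mv 1103 (cons (fin 1167 4 910)
(mv 1036 (cons (fin 1104 3 1036)
(fin 1035 0 1035)))))))))
(cons (mv 846 (cons (fin 910 6 845)
(mv 1100 (cons (fin 1164 5 908)
(mv 1099 (cons (fin 1098 2 1034)
(mv 1035 (cons (fin 1034 3 1034)
(mv 1036 (cons (fin 1103 3 1035)
(mv 970 (cons (fin 971 3 970)
(mv 1163 (cons (fin 1162 1 1098)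
(mv 972 (cons (fin 908 5 907)
(fin 1227 6 971)))))))))))))))))
(mv 846 (cons (fin 910 6 845)
(mv 1164 (cons (fin 1100 5 908)
(mv 1165 (cons (fin 1228 5 972)
(mv 1229 (cons (fin 974 6 973)
(fin 1293 6 1037))))))))))))))))
(cons (mv 1166 (cons (fin 1230 7 973)
(mv 974 (cons (cons (mv 911 (cons (fin 975 6 910)
(mv 1165 (cons (fin 1229 5 973)
(mv 910 (cons (fin 1101 5 909)
(mv 1167 (cons (fin 1103 4 910)
(fin 1231 4 974)))))))))
(mv 911 (cons (fin 975 6 910)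
(mv 1167 (cons (fin 1231 4 974)
(mv 910 (cons (fin 1103 4 910)
(mv 846 (cons (fin 782 5 781)
(fin 1101 5 845))))))))))
(cons (mv 1165 (cons (fin 1229 5 973)
(mv 910 (cons (fin 1101 5 909)
(mv 1167 (cons (fin 1103 4 910)
(fin 1231 4 974)))))))
(cons (mv 911 (cons (fin 975 6 910)
(mv 1165 (cons (fin 1229 5 973)
(mv 1101 (cons (fin 910 5 909)
(mv 908 (cons (fin 972 7 908)
(mv 1164 (cons (fin 1228 5 972)
(mv 1103 (cons (fin 1104 1 1100)
(fin 1163 2 1099)))))))))))))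
(mv 975 (cons (fin 911 6 910)
(mv 976 (cons (fin 1036 1 972)
(fin 977 1 973)))))))))))
(mv 909 (cons (fin 845 4 845)
(mv 1166 (cons (fin 1230 7 973)
(fin 1101 4 909))))))))
(mv 1039 (cons (cons (mv 976 (cons (fin 977 2 973)
(mv 975 (cons (fin 1036 2 972)
(mv 1100 (cons (fin 1101 1 1036)
(mv 1104 (cons (fin 1105 0 1037)
(mv 1168 (cons (fin 911 7 911)
(fin 1232 7 975)))))))))))
(mv 1100 (cons (fin 1101 1 1036)
(mv 1036 (cons (fin 1099 1 1035)
(mv 1104 (cons (fin 1103 0 1036)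
(fin 1105 0 1037))))))))
(cons (mv 976 (cons (fin 977 2 973)
(mv 975 (cons (fin 1036 2 972)
(mv 1104 (cons (fin 1105 0 1037)
(mv 1168 (cons (fin 911 7 911)
(fin 1232 7 975)))))))))
(cons (mv 976 (cons (fin 977 2 973)
(mv 1036 (cons (fin 975 2 972)
(mv 1100 (cons (fin 1099 1 1035)
(fin 1101 1 1036)))))))
(mv 976 (cons (fin 977 2 973)
(mv 1100 (cons (fin 1101 1 1036)
(mv 1104 (cons (fin 1105 0 1037)
(mv 1168 (cons (mv 975 (cons (fin 911 7 911)
(fin 1232 7 975)))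
(cons (mv 1167 (cons (fin 1231 5 975)
(mv 912 (cons (fin 1103 5 911)
(mv 849 (cons (fin 913 6 848)
(mv 785 (cons (fin 848 6 784)
(mv 1233 (cons (fin 1169 4 976)
(mv 1232 (cons (fin 1297 4 1040)
(mv 1166 (cons (fin 1165 0 1165)
(mv 1102 (cons (fin 1230 7 973)
(mv 909 (cons (fin 974 7 909)
(fin 845 4 845)))))))))))))))))))
(mv 911 (cons (fin 975 7 911)
(mv 1167 (cons (fin 1231 5 975)
(mv 912 (cons (fin 1103 5 911)
(mv 849 (cons (fin 913 6 848)
(mv 848 (cons (fin 785 6 784)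
(mv 850 (cons (fin 851 1 847)
(mv 909 (cons (fin 910 2 845)
(mv 845 (cons (fin 1102 4 845)
(mv 781 (cons (fin 974 4 781)
(mv 782 (cons (fin 718 6 717)
(fin 846 6 781))))))))))))))))))))))))))))))))))))
(cons (cons (mv 1039 (cons (fin 972 3 972)
(mv 976 (cons (fin 977 2 973)
(mv 975 (cons (fin 1036 2 972)
(mv 1104 (cons (fin 1105 0 1037)
(mv 1168 (cons (fin 911 7 911)
(fin 1232 7 975)))))))))))
(mv 1039 (cons (fin 972 3 972)
(mv 1100 (cons (fin 1101 1 1036)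
(mv 1036 (cons (fin 1099 1 1035)
(mv 1104 (cons (fin 1103 0 1036)
(fin 1105 0 1037))))))))))
(cons (mv 1039 (cons (fin 972 3 972)
(mv 976 (cons (fin 977 2 973)
(mv 1036 (cons (fin 975 2 972)
(mv 1100 (cons (fin 1099 1 1035)
(fin 1101 1 1036)))))))))
(mv 1039 (cons (fin 972 3 972)
(mv 976 (cons (fin 977 2 973)
(mv 1100 (cons (fin 1101 1 1036)
(mv 1104 (cons (fin 1105 0 1037)
(mv 1168 (cons (mv 975 (cons (fin 911 7 911)
(fin 1232 7 975)))
(cons (mv 1167 (cons (fin 1231 5 975)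
(mv 912 (cons (fin 1103 5 911)
(mv 849 (cons (fin 913 6 848)
(mv 785 (cons (fin 848 6 784)
(mv 1233 (cons (fin 1169 4 976)
(mv 1232 (cons (fin 1297 4 1040)
(mv 1166 (cons (fin 1165 0 1165)
(mv 1102 (cons (fin 1230 7 973)
(mv 909 (cons (fin 974 7 909)
(fin 845 4 845)))))))))))))))))))
(mv 911 (cons (fin 975 7 911)
(mv 1167 (cons (fin 1231 5 975)
(mv 912 (cons (fin 1103 5 911)
(mv 849 (cons (fin 913 6 848)
(mv 848 (cons (fin 785 6 784)
(mv 850 (cons (fin 851 1 847)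
(mv 909 (cons (fin 910 2 845)
(mv 845 (cons (fin 1102 4 845)
(mv 781 (cons (fin 974 4 781)
(mv 782 (cons (fin 718 6 717)
(fin 846 6 781))))))))))))))))))))))))))))))))))))
(cons (mv 1038 (cons (cons (cons (mv 1039 (cons (fin 972 3 972)
(mv 1100 (cons (fin 1101 1 1036)
(mv 1036 (cons (fin 1099 1 1035)
(mv 1104 (cons (fin 1103 0 1036)
(fin 1105 0 1037)))))))))
(mv 1102 (cons (cons (mv 909 (cons (fin 845 4 845)
(mv 1166 (cons (fin 974 7 909)
(fin 1230 7 973)))))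
(mv 1166 (cons (fin 1230 7 973)
(mv 974 (cons (cons (mv 911 (cons (fin 975 6 910)
(mv 1165 (cons (fin 1229 5 973)
(mv 910 (cons (fin 1101 5 909)
(mv 1167 (cons (fin 1103 4 910)
(fin 1231 4 974)))))))))
(cons (mv 911 (cons (fin 975 6 910)
(mv 1167 (cons (fin 1231 4 974)
(mv 910 (cons (fin 1103 4 910)
(mv 846 (cons (fin 782 5 781)
(fin 1101 5 845)))))))))
(mv 911 (cons (fin 975 6 910)
(mv 1165 (cons (fin 1229 5 973)
(mv 1101 (cons (fin 910 5 909)
(mv 908 (cons (fin 972 7 908)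
(mv 1164 (cons (fin 1228 5 972)
(mv 1103 (cons (fin 1104 1 1100)
(fin 1163 2 1099)))))))))))))))
(cons (cons (mv 1165 (cons (fin 1229 5 973)
(mv 910 (cons (fin 1101 5 909)
(mv 1167 (cons (fin 1103 4 910)
(fin 1231 4 974)))))))
(mv 911 (cons (fin 975 6 910)
(mv 1165 (cons (fin 1229 5 973)
(mv 1167 (cons (fin 1231 4 974)
(mv 1101 (cons (mv 1100 (cons (fin 1168 3 1100)
(fin 1099 0 1099)))
(mv 908 (cons (fin 972 7 908)
(mv 1164 (cons (fin 1228 5 972)
(mv 1103 (cons (fin 1104 1 1100)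
(fin 1163 2 1099))))))))))))))))
(cons (mv 911 (cons (fin 975 6 910)
(mv 1165 (cons (fin 1229 5 973)
(mv 1167 (cons (fin 1231 4 974)
(mv 1103 (cons (fin 910 4 910)
(mv 1104 (cons (fin 1105 3 1037)
(fin 1164 2 1100)))))))))))
(mv 911 (cons (fin 975 6 910)
(mv 1165 (cons (fin 1229 5 973)
(mv 1101 (cons (fin 910 5 909)
(mv 908 (cons (fin 972 7 908)
(mv 1164 (cons (fin 1228 5 972)
(mv 1162 (cons (fin 1163 2 1098)
(mv 1167 (cons (fin 1231 4 974)
(mv 1100 (cons (fin 1099 3 1099)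
(fin 1168 3 1100))))))))))))))))))))))))
(cons (mv 909 (cons (fin 845 4 845)
(mv 1101 (cons (cons (mv 844 (cons (fin 908 7 844)
(mv 846 (cons (fin 910 6 845)
(mv 1100 (cons (fin 1164 5 908)
(mv 1099 (cons (fin 1098 2 1034)
(mv 1035 (cons (fin 1034 3 1034)
(mv 1036 (cons (fin 1103 3 1035)
(mv 970 (cons (fin 971 3 970)
(mv 974 (cons (fin 975 2 971)
(mv 1163 (cons (fin 1162 1 1098)
(mv 1227 (cons (fin 972 6 971)
(fin 1291 6 1035)))))))))))))))))))))
(cons (mv 844 (cons (fin 908 7 844)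
(mv 1100 (cons (fin 1164 5 908)
(mv 1099 (cons (fin 1098 2 1034)
(mv 1035 (cons (fin 1034 3 1034)
(mv 1036 (cons (fin 1103 3 1035)
(mv 970 (cons (fin 971 3 970)
(mv 974 (cons (fin 975 2 971)
(mv 1163 (cons (fin 1162 1 1098)
(mv 1227 (cons (fin 972 6 971)
(fin 1291 6 1035)))))))))))))))))))
(mv 844 (cons (fin 908 7 844)
(mv 910 (cons (fin 846 6 845)
(mv 974 (cons (fin 1165 5 909)
(mv 1103 (cons (fin 1167 4 910)
(mv 1036 (cons (fin 1104 3 1036)
(fin 1035 0 1035)))))))))))))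
(cons (mv 846 (cons (fin 910 6 845)
(mv 1100 (cons (fin 1164 5 908)
(mv 1099 (cons (fin 1098 2 1034)
(mv 1035 (cons (fin 1034 3 1034)
(mv 1036 (cons (fin 1103 3 1035)
(mv 970 (cons (fin 971 3 970)
(mv 974 (cons (fin 975 2 971)
(mv 1163 (cons (fin 1162 1 1098)
(mv 1227 (cons (fin 972 6 971)
(fin 1291 6 1035)))))))))))))))))))
(cons (mv 844 (cons (fin 908 7 844)
(mv 846 (cons (fin 910 6 845)
(mv 1100 (cons (fin 1164 5 908)
(mv 1099 (cons (fin 1098 2 1034)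
(mv 1035 (cons (fin 1034 3 1034)
(mv 1036 (cons (fin 1103 3 1035)
(mv 970 (cons (fin 971 3 970)
(mv 1163 (cons (fin 1162 1 1098)
(mv 1227 (cons (fin 972 6 971)
(fin 1291 6 1035)))))))))))))))))))
(mv 844 (cons (fin 908 7 844)
(mv 846 (cons (fin 910 6 845)
(mv 1164 (cons (fin 1100 5 908)
(mv 1165 (cons (fin 1228 5 972)
(mv 1229 (cons (fin 974 6 973)
(fin 1293 6 1037)))))))))))))))))
(mv 909 (cons (fin 845 4 845)
(mv 1166 (cons (fin 1230 7 973)
(fin 1101 4 909)))))))))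
(cons (mv 1102 (cons (cons (mv 909 (cons (fin 845 4 845)
(mv 1166 (cons (fin 974 7 909)
(fin 1230 7 973)))))
(mv 845 (cons (fin 909 4 845)
(mv 1036 (cons (mv 1035 (cons (fin 1103 0 1035)
(mv 974 (cons (fin 1034 2 970)
(fin 975 2 971)))))
(cons (mv 1039 (cons (mv 1100 (cons (fin 1099 1 1035)
(fin 1101 1 1036)))
(mv 1104 (cons (fin 1103 0 1036)
(fin 1105 0 1037)))))
(mv 1035 (cons (mv 974 (cons (fin 1034 2 970)
(fin 975 2 971)))
(cons (mv 971 (cons (fin 970 3 970)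
(mv 974 (cons (fin 975 2 971)
(mv 1099 (cons (fin 1098 1 1034)
(mv 1100 (cons (fin 1039 1 1035)
(mv 907 (cons (fin 843 4 843)
(fin 1164 4 907)))))))))))
(mv 970 (cons (fin 971 3 970)
(mv 1034 (cons (fin 969 3 969)
(fin 1101 0 1034))))))))))))))
(cons (mv 1166 (cons (fin 1230 7 973)
(mv 974 (cons (cons (mv 911 (cons (fin 975 6 910)
(mv 1165 (cons (fin 1229 5 973)
(mv 910 (cons (fin 1101 5 909)
(mv 1167 (cons (fin 1103 4 910)
(fin 1231 4 974)))))))))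
(cons (mv 911 (cons (fin 975 6 910)
(mv 1167 (cons (fin 1231 4 974)
(mv 910 (cons (fin 1103 4 910)
(mv 846 (cons (fin 782 5 781)
(fin 1101 5 845)))))))))
(mv 911 (cons (fin 975 6 910)
(mv 1165 (cons (fin 1229 5 973)
(mv 1101 (cons (fin 910 5 909)
(mv 1039 (cons (fin 1100 1 1036)
(mv 1104 (cons (fin 1105 0 1037)
(mv 1103 (cons (fin 1036 3 1036)
(fin 1164 1 1100)))))))))))))))
(cons (cons (mv 1165 (cons (fin 1229 5 973)
(mv 910 (cons (fin 1101 5 909)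
(mv 1167 (cons (fin 1103 4 910)
(fin 1231 4 974)))))))
(mv 911 (cons (fin 975 6 910)
(mv 1165 (cons (fin 1229 5 973)
(mv 1167 (cons (fin 1231 4 974)
(mv 1103 (cons (fin 910 4 910)
(mv 1104 (cons (fin 1105 3 1037)
(fin 1164 2 1100))))))))))))
(cons (mv 911 (cons (fin 975 6 910)
(mv 1165 (cons (fin 1229 5 973)
(mv 1167 (cons (fin 1231 4 974)
(mv 1101 (cons (mv 1100 (cons (fin 1168 3 1100)
(fin 1039 1 1036)))
(mv 1164 (cons (fin 1228 5 972)
(mv 1103 (cons (fin 1104 1 1100)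
(fin 1163 2 1099)))))))))))))
(mv 911 (cons (fin 975 6 910)
(mv 1165 (cons (fin 1229 5 973)
(mv 1101 (cons (fin 910 5 909)
(mv 1100 (cons (fin 1039 1 1036)
(mv 1099 (cons (fin 1098 2 1034)
(fin 1167 0 1099)))))))))))))))))
(mv 909 (cons (fin 845 4 845)
(mv 1166 (cons (fin 1230 7 973)
(fin 1101 4 909))))))))
(mv 1039 (cons (fin 972 3 972)
(mv 1104 (cons (fin 1105 0 1037)
(mv 1036 (cons (fin 1103 0 1036)
(mv 1099 (cons (fin 1100 1 1035)
(mv 1035 (cons (fin 1098 1 1034)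
(mv 974 (cons (fin 1034 2 970)
(fin 975 2 971)))))))))))))))
(cons (cons (mv 972 (cons (fin 1039 3 972)
(mv 970 (cons (fin 971 0 970)
(mv 1102 (cons (cons (mv 909 (cons (fin 845 4 845)
(mv 1166 (cons (fin 974 7 909)
(fin 1230 7 973)))))
(mv 1166 (cons (fin 1230 7 973)
(mv 974 (cons (cons (mv 911 (cons (fin 975 6 910)
(mv 1165 (cons (fin 1229 5 973)
(mv 1101 (cons (fin 908 7 908)
(fin 910 5 909)))))))
(mv 911 (cons (fin 975 6 910)
(mv 1167 (cons (fin 1231 4 974)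
(mv 910 (cons (fin 1103 4 910)
(mv 846 (cons (fin 782 5 781)
(fin 1101 5 845))))))))))
(cons (mv 1165 (cons (fin 1229 5 973)
(mv 1101 (cons (fin 908 7 908)
(fin 910 5 909)))))
(cons (mv 911 (cons (fin 975 6 910)
(mv 1165 (cons (fin 1229 5 973)
(mv 1167 (cons (fin 1231 4 974)
(mv 1103 (cons (fin 910 4 910)
(mv 1104 (cons (fin 1105 3 1037)
(fin 1164 2 1100)))))))))))
(mv 911 (cons (fin 975 6 910)
(mv 1165 (cons (fin 1229 5 973)
(mv 1101 (cons (fin 908 7 908)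
(mv 1164 (cons (fin 1228 5 972)
(mv 1103 (cons (fin 1104 1 1100)
(fin 1163 2 1099))))))))))))))))))
(cons (mv 909 (cons (fin 845 4 845)
(mv 1101 (cons (mv 908 (cons (fin 844 7 844)
(fin 1165 7 908)))
(cons (mv 910 (cons (fin 846 6 845)
(mv 911 (cons (fin 912 1 908)
(mv 974 (cons (fin 1165 5 909)
(mv 1103 (cons (fin 1167 4 910)
(mv 1036 (cons (fin 1104 3 1036)
(fin 1035 0 1035)))))))))))
(mv 908 (cons (fin 844 7 844)
(mv 910 (cons (fin 846 6 845)
(mv 911 (cons (fin 912 1 908)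
(mv 907 (cons (mv 906 (cons (fin 969 1 905)
(fin 905 0 905)))
(mv 842 (cons (fin 843 3 842)
(mv 974 (cons (fin 975 3 907)
(mv 1103 (cons (fin 1167 4 910)
(mv 1036 (cons (fin 1104 3 1036)
(fin 1035 0 1035))))))))))))))))))))))
(mv 909 (cons (fin 845 4 845)
(mv 1166 (cons (fin 1230 7 973)
(fin 1101 4 909))))))))))))
(mv 972 (cons (fin 1039 3 972)
(mv 970 (cons (fin 971 0 970)
(mv 908 (cons (cons (mv 844 (cons (fin 780 4 780)
(mv 1101 (cons (fin 909 7 844)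
(fin 1165 7 908)))))
(mv 780 (cons (fin 844 4 780)
(mv 907 (cons (cons (mv 906 (cons (fin 905 0 905)
(mv 909 (cons (fin 969 1 905)
(fin 974 0 906)))))
(mv 974 (cons (fin 975 3 907)
(mv 1036 (cons (cons (mv 843 (cons (fin 1100 7 843)
(mv 715 (cons (fin 779 4 715)
(mv 1035 (cons (fin 1034 2 970)
(mv 1098 (cons (fin 1099 1 1034)
(mv 1102 (cons (fin 1103 0 1035)
(mv 909 (cons (fin 1166 7 909)
(fin 845 4 845)))))))))))))
(mv 1035 (cons (fin 1034 2 970)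
(mv 1098 (cons (fin 1099 1 1034)
(mv 1102 (cons (fin 1103 0 1035)
(mv 909 (cons (fin 1166 7 909)
(fin 845 4 845))))))))))
(cons (mv 1100 (cons (fin 843 7 843)
(mv 909 (cons (fin 845 5 844)
(fin 1164 6 908)))))
(mv 1034 (cons (fin 1035 2 970)
(mv 1100 (cons (fin 843 7 843)
(mv 1163 (cons (fin 1099 5 907)
(mv 1164 (cons (fin 1227 5 971)
(fin 1228 6 972)))))))))))))))
(cons (mv 906 (cons (fin 905 0 905)
(mv 909 (cons (fin 969 1 905)
(mv 845 (cons (fin 846 2 842)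
(fin 1102 4 845)))))))
(mv 906 (cons (fin 905 0 905)
(mv 974 (cons (fin 975 3 907)
(mv 1034 (cons (mv 843 (cons (fin 1098 6 842)
(mv 779 (cons (fin 715 5 714)
(fin 842 6 778)))))
(cons (mv 1035 (cons (fin 1036 2 970)
(mv 842 (cons (fin 1099 4 842)
(mv 777 (cons (fin 841 7 777)
(mv 778 (cons (fin 713 7 713)
(mv 1033 (cons (fin 969 5 777)
(fin 1097 5 841)))))))))))
(mv 843 (cons (fin 1098 6 842)
(mv 1036 (cons (fin 1035 2 970)
(fin 1100 7 843))))))))))))))))))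
(cons (mv 1101 (cons (fin 1165 7 908)
(mv 909 (cons (mv 1102 (cons (fin 845 4 845)
(fin 1166 4 909)))
(cons (mv 846 (cons (fin 910 6 845)
(mv 782 (cons (fin 845 6 781)
(mv 1100 (cons (fin 1164 5 908)
(mv 1099 (cons (fin 1098 2 1034)
(mv 1036 (cons (fin 1163 5 907)
(mv 907 (cons (fin 843 7 843)
(mv 906 (cons (fin 969 1 905)
(fin 905 0 905)))))))))))))))
(mv 846 (cons (fin 910 6 845)
(mv 1100 (cons (fin 1164 5 908)
(mv 1099 (cons (fin 1098 2 1034)
(mv 1036 (cons (fin 1163 5 907)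
(mv 843 (cons (fin 907 7 843)
(mv 1102 (cons (fin 1166 4 909)
(mv 1035 (cons (fin 1034 3 1034)
(fin 1103 3 1035))))))))))))))))))))
(mv 844 (cons (fin 780 4 780)
(mv 1101 (cons (fin 1165 7 908)
(fin 1036 4 844)))))))))))))
(cons (mv 1039 (cons (fin 972 3 972)
(mv 1101 (cons (fin 1100 1 1036)
(mv 1104 (cons (fin 1105 0 1037)
(mv 1165 (cons (mv 974 (cons (fin 910 6 909)
(fin 1229 6 973)))
(mv 1164 (cons (fin 1228 5 972)
(mv 1102 (cons (fin 1103 1 1100)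
(mv 909 (cons (fin 845 4 845)
(fin 1166 4 909)))))))))))))))
(mv 972 (cons (fin 1039 3 972)
(mv 970 (cons (fin 971 0 970)
(mv 908 (cons (cons (mv 844 (cons (fin 780 4 780)
(mv 1101 (cons (fin 909 7 844)
(fin 1165 7 908)))))
(mv 844 (cons (fin 780 4 780)
(mv 1036 (cons (cons (mv 779 (cons (fin 843 7 779)
(mv 781 (cons (fin 845 6 780)
(mv 1035 (cons (fin 1099 5 843)
(mv 974 (cons (fin 975 1 971)
(fin 1034 2 970)))))))))
(mv 779 (cons (fin 843 7 779)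
(mv 845 (cons (fin 781 6 780)
(mv 909 (cons (fin 1100 5 844)
(fin 1102 4 845))))))))
(cons (mv 779 (cons (fin 843 7 779)
(mv 1035 (cons (fin 1099 5 843)
(mv 974 (cons (fin 975 1 971)
(fin 1034 2 970)))))))
(mv 781 (cons (fin 845 6 780)
(mv 1035 (cons (fin 1099 5 843)
(mv 974 (cons (fin 975 1 971)
(fin 1034 2 970)))))))))))))
(cons (mv 1101 (cons (fin 1165 7 908)
(mv 909 (cons (mv 1102 (cons (fin 845 4 845)
(fin 1166 4 909)))
(cons (mv 846 (cons (fin 910 6 845)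
(mv 782 (cons (fin 845 6 781)
(mv 1100 (cons (fin 1164 5 908)
(mv 1099 (cons (fin 1098 2 1034)
(mv 1036 (cons (fin 1163 5 907)
(mv 907 (cons (fin 843 7 843)
(mv 906 (cons (fin 969 1 905)
(fin 905 0 905)))))))))))))))
(mv 846 (cons (fin 910 6 845)
(mv 1100 (cons (fin 1164 5 908)
(mv 1099 (cons (fin 1098 2 1034)
(mv 1036 (cons (fin 1163 5 907)
(mv 907 (cons (fin 843 7 843)
(mv 906 (cons (fin 969 1 905)
(fin 905 0 905))))))))))))))))))
(mv 844 (cons (fin 780 4 780)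
(mv 1101 (cons (fin 1165 7 908)
(fin 1036 4 844))))))))))))))))
(mv 1038 (cons (cons (cons (mv 1039 (cons (fin 972 3 972)
(mv 976 (cons (fin 977 2 973)
(mv 1100 (cons (fin 1101 1 1036)
(mv 1036 (cons (fin 1099 1 1035)
(mv 1104 (cons (fin 1103 0 1036)
(fin 1105 0 1037)))))))))))
(mv 1102 (cons (cons (mv 909 (cons (fin 845 4 845)
(mv 1166 (cons (fin 974 7 909)
(fin 1230 7 973)))))
(mv 1166 (cons (fin 1230 7 973)
(mv 974 (cons (cons (mv 1165 (cons (fin 1229 5 973)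
(mv 910 (cons (fin 1101 5 909)
(mv 1167 (cons (fin 1103 4 910)
(fin 1231 4 974)))))))
(cons (mv 1167 (cons (fin 1231 4 974)
(mv 910 (cons (fin 1103 4 910)
(mv 846 (cons (fin 782 5 781)
(fin 1101 5 845)))))))
(mv 1165 (cons (fin 1229 5 973)
(mv 1101 (cons (fin 910 5 909)
(mv 908 (cons (fin 972 7 908)
(mv 1164 (cons (fin 1228 5 972)
(mv 1103 (cons (fin 1104 1 1100)
(fin 1163 2 1099)))))))))))))
(cons (mv 1165 (cons (fin 1229 5 973)
(mv 1167 (cons (fin 1231 4 974)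
(mv 1101 (cons (mv 1100 (cons (fin 1168 3 1100)
(fin 1099 0 1099)))
(mv 908 (cons (fin 972 7 908)
(mv 1164 (cons (fin 1228 5 972)
(mv 1103 (cons (fin 1104 1 1100)
(fin 1163 2 1099)))))))))))))
(cons (mv 1165 (cons (fin 1229 5 973)
(mv 1167 (cons (fin 1231 4 974)
(mv 1103 (cons (fin 910 4 910)
(mv 1104 (cons (fin 1105 3 1037)
(fin 1164 2 1100)))))))))
(mv 1165 (cons (fin 1229 5 973)
(mv 1101 (cons (fin 910 5 909)
(mv 908 (cons (fin 972 7 908)
(mv 1164 (cons (fin 1228 5 972)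
(mv 1162 (cons (fin 1163 2 1098)
(mv 1167 (cons (fin 1231 4 974)
(mv 1100 (cons (fin 1099 3 1099)
(fin 1168 3 1100))))))))))))))))))))))
(cons (mv 909 (cons (fin 845 4 845)
(mv 1101 (cons (cons (mv 844 (cons (fin 908 7 844)
(mv 846 (cons (fin 910 6 845)
(mv 1100 (cons (fin 1164 5 908)
(mv 1099 (cons (fin 1098 2 1034)
(mv 1035 (cons (fin 1034 3 1034)
(mv 1036 (cons (fin 1103 3 1035)
(mv 970 (cons (fin 971 3 970)
(mv 1163 (cons (fin 1162 1 1098)
(mv 1227 (cons (fin 972 6 971)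
(fin 1291 6 1035)))))))))))))))))))
(mv 844 (cons (fin 908 7 844)
(mv 1100 (cons (fin 1164 5 908)
(mv 1099 (cons (fin 1098 2 1034)
(mv 1035 (cons (fin 1034 3 1034)
(mv 1036 (cons (fin 1103 3 1035)
(mv 970 (cons (fin 971 3 970)
(mv 1163 (cons (fin 1162 1 1098)
(mv 1227 (cons (fin 972 6 971)
(fin 1291 6 1035))))))))))))))))))
(cons (mv 844 (cons (fin 908 7 844)
(mv 910 (cons (fin 846 6 845)
(mv 974 (cons (fin 1165 5 909)
(mv 1103 (cons (fin 1167 4 910)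
(mv 1036 (cons (fin 1104 3 1036)
(fin 1035 0 1035)))))))))))
(cons (mv 846 (cons (fin 910 6 845)
(mv 1100 (cons (fin 1164 5 908)
(mv 1099 (cons (fin 1098 2 1034)
(mv 1035 (cons (fin 1034 3 1034)
(mv 1036 (cons (fin 1103 3 1035)
(mv 970 (cons (fin 971 3 970)
(mv 1163 (cons (fin 1162 1 1098)
(mv 1227 (cons (fin 972 6 971)
(fin 1291 6 1035)))))))))))))))))
(mv 844 (cons (fin 908 7 844)
(mv 846 (cons (fin 910 6 845)
(mv 1164 (cons (fin 1100 5 908)
(mv 1165 (cons (fin 1228 5 972)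
(mv 1229 (cons (fin 974 6 973)
(fin 1293 6 1037)))))))))))))))))
(mv 909 (cons (fin 845 4 845)
(mv 1166 (cons (fin 1230 7 973)
(fin 1101 4 909)))))))))
(cons (mv 1039 (cons (cons (mv 976 (cons (fin 977 2 973)
(mv 1100 (cons (fin 1101 1 1036)
(mv 1036 (cons (fin 1099 1 1035)
(mv 1104 (cons (fin 1103 0 1036)
(fin 1105 0 1037)))))))))
(cons (mv 976 (cons (fin 977 2 973)
(mv 1104 (cons (fin 1105 0 1037)
(mv 1103 (cons (fin 1036 0 1036)
(mv 912 (cons (fin 848 5 847)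
(fin 1167 5 911)))))))))
(mv 976 (cons (fin 977 2 973)
(mv 1100 (cons (fin 1101 1 1036)
(mv 1036 (cons (fin 1099 1 1035)
(mv 909 (cons (fin 845 5 844)
(mv 1228 (cons (fin 1164 6 972)
(mv 1102 (cons (mv 1166 (cons (fin 974 7 909)
(fin 1230 7 973)))
(cons (mv 1035 (cons (fin 1103 0 1035)
(mv 970 (cons (fin 971 3 970)
(mv 1034 (cons (fin 969 3 969)
(fin 974 2 970)))))))
(mv 1103 (cons (fin 1035 0 1035)
(mv 1230 (cons (fin 1166 7 973)
(mv 1231 (cons (fin 1167 6 975)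
(mv 1229 (cons (cons (mv 848 (cons (fin 912 5 847)
(mv 1291 (cons (fin 1292 1 1227)
(mv 1227 (cons (fin 1290 1 1226)
(mv 1295 (cons (fin 1294 0 1227)
(fin 1296 0 1228)))))))))
(mv 1295 (cons (fin 1296 0 1228)
(mv 1227 (cons (fin 1294 0 1227)
(mv 1162 (cons (fin 1163 3 1162)
(mv 1226 (cons (fin 1161 3 1161)
(mv 1290 (cons (fin 1289 1 1225)
(fin 1291 1 1226))))))))))))
(cons (mv 1292 (cons (fin 1291 1 1227)
(mv 1232 (cons (fin 1293 1 1228)
(mv 1169 (cons (fin 1168 2 1165)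
(mv 1233 (cons (fin 1170 2 1166)
(mv 1297 (cons (fin 1296 0 1229)
(fin 1298 0 1230)))))))))))
(cons (mv 1296 (cons (fin 1295 0 1228)
(mv 1232 (cons (fin 1297 0 1229)
(mv 1169 (cons (fin 1168 2 1165)
(mv 1233 (cons (fin 1170 2 1166)
(mv 1293 (cons (fin 1292 1 1228)
(fin 1294 1 1229)))))))))))
(mv 1291 (cons (fin 1292 1 1227)
(mv 1227 (cons (fin 1290 1 1226)
(mv 1162 (cons (fin 1163 3 1162)
(mv 1226 (cons (fin 1161 3 1161)
(mv 1294 (cons (fin 1293 0 1226)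
(fin 1295 0 1227))))))))))))))))))))))))))))))))))))
(cons (mv 1100 (cons (fin 1101 1 1036)
(mv 1036 (cons (fin 1099 1 1035)
(mv 1104 (cons (fin 1103 0 1036)
(fin 1105 0 1037)))))))
(cons (mv 976 (cons (fin 977 2 973)
(mv 1100 (cons (fin 1101 1 1036)
(mv 1104 (cons (fin 1105 0 1037)
(mv 1168 (cons (cons (mv 1167 (cons (fin 1231 5 975)
(mv 912 (cons (fin 1103 5 911)
(mv 849 (cons (fin 913 6 848)
(mv 785 (cons (fin 848 6 784)
(mv 1233 (cons (fin 1169 4 976)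
(mv 1232 (cons (fin 1297 4 1040)
(mv 1166 (cons (fin 1165 0 1165)
(mv 1102 (cons (fin 1230 7 973)
(mv 909 (cons (fin 974 7 909)
(fin 845 4 845)))))))))))))))))))
(cons (mv 1233 (cons (fin 1169 4 976)
(mv 1232 (cons (fin 1297 4 1040)
(mv 1295 (cons (fin 1231 5 1039)
(mv 1296 (cons (fin 1103 7 1039)
(fin 1359 5 1103)))))))))
(mv 1233 (cons (fin 1169 4 976)
(mv 1232 (cons (fin 1297 4 1040)
(mv 1103 (cons (fin 1296 7 1039)
(mv 912 (cons (fin 848 5 847)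
(fin 1167 5 911)))))))))))
(cons (mv 1232 (cons (mv 1231 (cons (fin 1167 5 975)
(fin 1295 5 1039)))
(cons (mv 1103 (cons (fin 1296 7 1039)
(mv 912 (cons (fin 848 5 847)
(fin 1167 5 911)))))
(mv 1295 (cons (fin 1231 5 1039)
(mv 1296 (cons (fin 1103 7 1039)
(fin 1359 5 1103))))))))
(cons (mv 1167 (cons (fin 1231 5 975)
(mv 1233 (cons (fin 1169 4 976)
(mv 1232 (cons (fin 1297 4 1040)
(mv 1166 (cons (fin 1165 0 1165)
(mv 1102 (cons (fin 1230 7 973)
(mv 909 (cons (fin 974 7 909)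
(fin 845 4 845)))))))))))))
(mv 1167 (cons (fin 1231 5 975)
(mv 1103 (cons (fin 912 5 911)
(mv 1169 (cons (fin 1233 4 976)
(mv 1170 (cons (fin 1102 3 1102)
(fin 1171 3 1103)))))))))))))))))))
(mv 976 (cons (fin 977 2 973)
(mv 1101 (cons (fin 1100 1 1036)
(mv 1104 (cons (fin 1105 0 1037)
(mv 1165 (cons (mv 974 (cons (fin 910 6 909)
(fin 1229 6 973)))
(cons (mv 1164 (cons (fin 1228 5 972)
(mv 1166 (cons (fin 1230 4 973)
(mv 909 (cons (fin 1102 4 909)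
(mv 844 (cons (fin 908 7 844)
(mv 845 (cons (fin 780 7 780)
(mv 846 (cons (fin 782 6 781)
(fin 910 6 845)))))))))))))
(mv 974 (cons (fin 1229 6 973)
(mv 1164 (cons (fin 1228 5 972)
(mv 1166 (cons (fin 1230 4 973)
(mv 909 (cons (fin 1102 7 909)
(mv 844 (cons (fin 908 7 844)
(mv 845 (cons (fin 780 7 780)
(fin 781 4 781))))))))))))))))))))))))))
(mv 1039 (cons (fin 972 3 972)
(mv 976 (cons (fin 977 2 973)
(mv 1104 (cons (fin 1105 0 1037)
(mv 1036 (cons (fin 1103 0 1036)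
(mv 1099 (cons (fin 1100 1 1035)
(mv 1035 (cons (fin 1098 1 1034)
(mv 970 (cons (fin 971 3 970)
(mv 1034 (cons (fin 969 3 969)
(fin 974 2 970)))))))))))))))))))
(cons (cons (mv 1039 (cons (fin 972 3 972)
(mv 976 (cons (fin 977 2 973)
(mv 1104 (cons (fin 1105 0 1037)
(mv 1103 (cons (fin 1036 0 1036)
(mv 912 (cons (fin 848 5 847)
(fin 1167 5 911)))))))))))
(mv 1039 (cons (fin 972 3 972)
(mv 976 (cons (fin 977 2 973)
(mv 1100 (cons (fin 1101 1 1036)
(mv 1036 (cons (fin 1099 1 1035)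
(mv 909 (cons (fin 845 5 844)
(mv 1228 (cons (fin 1164 6 972)
(mv 1102 (cons (mv 1166 (cons (fin 974 7 909)
(fin 1230 7 973)))
(cons (mv 1035 (cons (fin 1103 0 1035)
(mv 970 (cons (fin 971 3 970)
(mv 1034 (cons (fin 969 3 969)
(fin 974 2 970)))))))
(mv 1103 (cons (fin 1035 0 1035)
(mv 1230 (cons (fin 1166 7 973)
(mv 1231 (cons (fin 1167 6 975)
(mv 1229 (cons (cons (mv 848 (cons (fin 912 5 847)
(mv 1291 (cons (fin 1292 1 1227)
(mv 1227 (cons (fin 1290 1 1226)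
(mv 1295 (cons (fin 1294 0 1227)
(fin 1296 0 1228)))))))))
(mv 1295 (cons (fin 1296 0 1228)
(mv 1227 (cons (fin 1294 0 1227)
(mv 1162 (cons (fin 1163 3 1162)
(mv 1226 (cons (fin 1161 3 1161)
(mv 1290 (cons (fin 1289 1 1225)
(fin 1291 1 1226))))))))))))
(cons (mv 1292 (cons (fin 1291 1 1227)
(mv 1232 (cons (fin 1293 1 1228)
(mv 1169 (cons (fin 1168 2 1165)
(mv 1233 (cons (fin 1170 2 1166)
(mv 1297 (cons (fin 1296 0 1229)
(fin 1298 0 1230)))))))))))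
(cons (mv 1296 (cons (fin 1295 0 1228)
(mv 1232 (cons (fin 1297 0 1229)
(mv 1169 (cons (fin 1168 2 1165)
(mv 1233 (cons (fin 1170 2 1166)
(mv 1293 (cons (fin 1292 1 1228)
(fin 1294 1 1229)))))))))))
(mv 1291 (cons (fin 1292 1 1227)
(mv 1227 (cons (fin 1290 1 1226)
(mv 1162 (cons (fin 1163 3 1162)
(mv 1226 (cons (fin 1161 3 1161)
(mv 1294 (cons (fin 1293 0 1226)
(fin 1295 0 1227)))))))))))))))))))))))))))))))))))))
(cons (mv 972 (cons (fin 1039 3 972)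
(mv 971 (cons (fin 970 0 970)
(mv 974 (cons (cons (mv 906 (cons (fin 907 3 906)
(mv 910 (cons (fin 911 2 907)
(mv 846 (cons (fin 782 5 781)
(fin 1101 5 845)))))))
(mv 906 (cons (fin 907 3 906)
(mv 1035 (cons (fin 1034 1 970)
(mv 909 (cons (mv 845 (cons (fin 781 4 781)
(fin 1102 4 845)))
(cons (mv 845 (cons (fin 781 4 781)
(mv 782 (cons (fin 846 6 781)
(mv 844 (cons (fin 780 7 780)
(mv 1101 (cons (fin 908 7 844)
(mv 1164 (cons (fin 1100 5 908)
(mv 1165 (cons (fin 1228 5 972)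
(fin 1229 6 973)))))))))))))
(mv 1102 (cons (fin 1166 7 909)
(mv 1101 (cons (mv 908 (cons (fin 844 7 844)
(fin 1165 7 908)))
(cons (mv 1164 (cons (fin 1100 5 908)
(mv 1165 (cons (fin 1228 5 972)
(fin 1229 6 973)))))
(mv 908 (cons (fin 844 7 844)
(mv 1099 (cons (fin 1163 6 907)
(mv 1100 (cons (fin 1098 2 1034)
(fin 1164 5 908))))))))))))))))))))
(cons (mv 910 (cons (fin 911 2 907)
(mv 846 (cons (fin 782 5 781)
(fin 1101 5 845)))))
(cons (mv 906 (cons (fin 907 3 906)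
(mv 910 (cons (fin 911 2 907)
(mv 846 (cons (fin 782 5 781)
(mv 845 (cons (fin 781 7 781)
(mv 1034 (cons (fin 1035 1 970)
(mv 1102 (cons (fin 909 7 845)
(mv 1166 (cons (fin 1230 7 973)
(mv 1167 (cons (fin 1103 4 910)
(fin 1231 4 974)))))))))))))))))
(mv 906 (cons (fin 907 3 906)
(mv 910 (cons (fin 911 2 907)
(mv 1035 (cons (fin 1034 1 970)
(mv 1101 (cons (fin 1165 6 909)
(mv 909 (cons (mv 845 (cons (fin 1102 7 845)
(fin 781 4 781)))
(cons (mv 781 (cons (fin 845 4 781)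
(mv 908 (cons (fin 844 7 844)
(mv 1099 (cons (fin 1163 6 907)
(mv 1100 (cons (fin 1098 2 1034)
(fin 1164 5 908)))))))))
(mv 908 (cons (fin 844 7 844)
(mv 1099 (cons (fin 1163 6 907)
(mv 1100 (cons (fin 1098 2 1034)
(fin 1164 5 908))))))))))))))))))))))))))
(mv 1039 (cons (fin 972 3 972)
(mv 976 (cons (fin 977 2 973)
(mv 1101 (cons (fin 1100 1 1036)
(mv 1104 (cons (fin 1105 0 1037)
(mv 1165 (cons (mv 974 (cons (fin 910 6 909)
(fin 1229 6 973)))
(cons (mv 1164 (cons (fin 1228 5 972)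
(mv 1166 (cons (fin 1230 4 973)
(mv 909 (cons (fin 1102 4 909)
(mv 844 (cons (fin 908 7 844)
(mv 845 (cons (fin 780 7 780)
(mv 846 (cons (fin 782 6 781)
(fin 910 6 845)))))))))))))
(mv 974 (cons (fin 1229 6 973)
(mv 1164 (cons (fin 1228 5 972)
(mv 1166 (cons (fin 1230 4 973)
(mv 909 (cons (fin 1102 7 909)
(mv 844 (cons (fin 908 7 844)
(mv 845 (cons (fin 780 7 780)
(fin 781 4 781))))))))))))))))))))))))))))))
(cons (mv 1038 (cons (cons (mv 1039 (cons (fin 972 3 972)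
(mv 976 (cons (fin 977 2 973)
(mv 975 (cons (fin 1036 2 972)
(mv 1100 (cons (fin 1101 1 1036)
(mv 1104 (cons (fin 1105 0 1037)
(mv 1168 (cons (fin 911 7 911)
(fin 1232 7 975)))))))))))))
(cons (mv 909 (cons (cons (mv 845 (cons (fin 1102 4 845)
(mv 780 (cons (fin 844 7 780)
(mv 781 (cons (fin 716 7 716)
(fin 974 4 781)))))))
(mv 1101 (cons (cons (mv 844 (cons (fin 908 7 844)
(mv 846 (cons (fin 910 6 845)
(mv 1100 (cons (fin 1164 5 908)
(mv 1099 (cons (fin 1098 2 1034)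
(mv 1102 (cons (fin 1166 4 909)
(mv 1035 (cons (fin 1034 3 1034)
(mv 1036 (cons (fin 1103 3 1035)
(mv 970 (cons (fin 971 3 970)
(mv 974 (cons (fin 975 2 971)
(mv 1163 (cons (fin 1162 1 1098)
(mv 1227 (cons (fin 972 6 971)
(fin 1291 6 1035)))))))))))))))))))))))
(cons (mv 844 (cons (fin 908 7 844)
(mv 1100 (cons (fin 1164 5 908)
(mv 1099 (cons (fin 1098 2 1034)
(mv 1102 (cons (fin 1166 4 909)
(mv 1035 (cons (fin 1034 3 1034)
(mv 1036 (cons (fin 1103 3 1035)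
(mv 970 (cons (fin 971 3 970)
(mv 974 (cons (fin 975 2 971)
(mv 1163 (cons (fin 1162 1 1098)
(mv 1227 (cons (fin 972 6 971)
(fin 1291 6 1035)))))))))))))))))))))
(mv 844 (cons (fin 908 7 844)
(mv 910 (cons (fin 846 6 845)
(mv 1164 (cons (fin 1100 5 908)
(mv 1165 (cons (fin 1228 5 972)
(fin 974 6 909)))))))))))
(cons (mv 846 (cons (fin 910 6 845)
(mv 1100 (cons (fin 1164 5 908)
(mv 1099 (cons (fin 1098 2 1034)
(mv 1102 (cons (fin 1166 4 909)
(mv 1035 (cons (fin 1034 3 1034)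
(mv 1036 (cons (fin 1103 3 1035)
(mv 970 (cons (fin 971 3 970)
(mv 974 (cons (fin 975 2 971)
(mv 1163 (cons (fin 1162 1 1098)
(mv 1227 (cons (fin 972 6 971)
(fin 1291 6 1035)))))))))))))))))))))
(cons (mv 844 (cons (fin 908 7 844)
(mv 910 (cons (fin 846 6 845)
(mv 974 (cons (fin 1165 6 909)
(mv 1102 (cons (fin 1166 7 909)
(mv 1103 (cons (fin 1167 4 910)
(mv 1036 (cons (fin 1104 3 1036)
(fin 1035 0 1035)))))))))))))
(mv 844 (cons (fin 908 7 844)
(mv 846 (cons (fin 910 6 845)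
(mv 1100 (cons (fin 1164 5 908)
(mv 1099 (cons (fin 1098 2 1034)
(mv 1102 (cons (fin 1166 4 909)
(mv 1035 (cons (fin 1034 3 1034)
(mv 1036 (cons (fin 1103 3 1035)
(mv 970 (cons (fin 971 3 970)
(mv 1163 (cons (fin 1162 1 1098)
(mv 1227 (cons (fin 972 6 971)
(fin 1291 6 1035))))))))))))))))))))))))))
(cons (mv 845 (cons (mv 780 (cons (fin 844 7 780)
(mv 781 (cons (fin 716 7 716)
(fin 974 4 781)))))
(cons (mv 780 (cons (fin 844 7 780)
(mv 846 (cons (fin 782 6 781)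
(mv 1100 (cons (fin 1036 5 844)
(mv 1101 (cons (fin 1164 5 908)
(fin 910 6 845)))))))))
(mv 781 (cons (fin 974 4 781)
(mv 782 (cons (fin 718 6 717)
(fin 846 6 781))))))))
(cons (mv 845 (cons (fin 1102 4 845)
(mv 780 (cons (fin 844 7 780)
(mv 716 (cons (fin 781 7 716)
(mv 846 (cons (fin 782 6 781)
(mv 1100 (cons (fin 1036 5 844)
(mv 1101 (cons (fin 1164 5 908)
(fin 910 6 845)))))))))))))
(mv 845 (cons (fin 1102 4 845)
(mv 781 (cons (fin 974 4 781)
(mv 782 (cons (fin 718 6 717)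
(fin 846 6 781)))))))))))
(mv 1039 (cons (cons (mv 976 (cons (fin 977 2 973)
(mv 975 (cons (fin 1036 2 972)
(mv 1100 (cons (fin 1101 1 1036)
(mv 1104 (cons (fin 1105 0 1037)
(mv 1168 (cons (fin 911 7 911)
(fin 1232 7 975)))))))))))
(mv 1100 (cons (fin 1101 1 1036)
(mv 1036 (cons (fin 1099 1 1035)
(mv 1104 (cons (fin 1103 0 1036)
(fin 1105 0 1037))))))))
(cons (mv 976 (cons (fin 977 2 973)
(mv 975 (cons (fin 1036 2 972)
(mv 1104 (cons (fin 1105 0 1037)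
(mv 1168 (cons (fin 911 7 911)
(fin 1232 7 975)))))))))
(cons (mv 976 (cons (fin 977 2 973)
(mv 1036 (cons (fin 975 2 972)
(mv 1100 (cons (fin 1099 1 1035)
(fin 1101 1 1036)))))))
(mv 976 (cons (fin 977 2 973)
(mv 1100 (cons (fin 1101 1 1036)
(mv 1104 (cons (fin 1105 0 1037)
(mv 1168 (cons (mv 975 (cons (fin 911 7 911)
(fin 1232 7 975)))
(mv 1167 (cons (fin 1231 5 975)
(mv 1103 (cons (fin 912 5 911)
(mv 1169 (cons (fin 1233 4 976)
(mv 1170 (cons (fin 1102 3 1102)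
(fin 1171 3 1103)))))))))))))))))))))))
(cons (cons (mv 1039 (cons (fin 972 3 972)
(mv 976 (cons (fin 977 2 973)
(mv 975 (cons (fin 1036 2 972)
(mv 1104 (cons (fin 1105 0 1037)
(mv 1168 (cons (fin 911 7 911)
(fin 1232 7 975)))))))))))
(mv 1039 (cons (fin 972 3 972)
(mv 976 (cons (fin 977 2 973)
(mv 1036 (cons (fin 975 2 972)
(mv 1100 (cons (fin 1099 1 1035)
(fin 1101 1 1036))))))))))
(cons (mv 1039 (cons (fin 972 3 972)
(mv 976 (cons (fin 977 2 973)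
(mv 1100 (cons (fin 1101 1 1036)
(mv 1104 (cons (fin 1105 0 1037)
(mv 1168 (cons (mv 975 (cons (fin 911 7 911)
(fin 1232 7 975)))
(mv 1167 (cons (fin 1231 5 975)
(mv 1103 (cons (fin 912 5 911)
(mv 1169 (cons (fin 1233 4 976)
(mv 1170 (cons (fin 1102 3 1102)
(fin 1171 3 1103)))))))))))))))))))
(mv 1039 (cons (fin 972 3 972)
(mv 976 (cons (fin 977 2 973)
(mv 1100 (cons (fin 1101 1 1036)
(mv 1036 (cons (fin 1099 1 1035)
(mv 1104 (cons (fin 1103 0 1036)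
(fin 1105 0 1037)))))))))))))))
(cons (mv 1038 (cons (cons (cons (mv 1039 (cons (fin 972 3 972)
(mv 976 (cons (fin 977 2 973)
(mv 975 (cons (fin 1036 2 972)
(mv 1100 (cons (fin 1101 1 1036)
(mv 1104 (cons (fin 1105 0 1037)
(mv 1168 (cons (fin 911 7 911)
(fin 1232 7 975)))))))))))))
(mv 1102 (cons (cons (mv 909 (cons (fin 845 4 845)
(mv 1166 (cons (fin 974 7 909)
(fin 1230 7 973)))))
(mv 1166 (cons (fin 1230 7 973)
(mv 974 (cons (cons (mv 911 (cons (fin 975 6 910)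
(mv 1165 (cons (fin 1229 5 973)
(mv 910 (cons (fin 1101 5 909)
(mv 1167 (cons (fin 1103 4 910)
(fin 1231 4 974)))))))))
(mv 911 (cons (fin 975 6 910)
(mv 1167 (cons (fin 1231 4 974)
(mv 910 (cons (fin 1103 4 910)
(mv 846 (cons (fin 782 5 781)
(fin 1101 5 845))))))))))
(cons (mv 1165 (cons (fin 1229 5 973)
(mv 910 (cons (fin 1101 5 909)
(mv 1167 (cons (fin 1103 4 910)
(fin 1231 4 974)))))))
(cons (mv 911 (cons (fin 975 6 910)
(mv 1165 (cons (fin 1229 5 973)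
(mv 1101 (cons (fin 910 5 909)
(mv 908 (cons (fin 972 7 908)
(mv 1164 (cons (fin 1228 5 972)
(mv 1103 (cons (fin 1104 1 1100)
(fin 1163 2 1099)))))))))))))
(mv 975 (cons (fin 911 6 910)
(mv 976 (cons (fin 1036 1 972)
(fin 977 1 973))))))))))))
(cons (mv 909 (cons (fin 845 4 845)
(mv 1101 (cons (cons (mv 844 (cons (fin 908 7 844)
(mv 846 (cons (fin 910 6 845)
(mv 1164 (cons (fin 1100 5 908)
(mv 1165 (cons (fin 1228 5 972)
(mv 1229 (cons (fin 974 6 973)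
(fin 1293 6 1037)))))))))))
(cons (mv 844 (cons (fin 908 7 844)
(mv 1164 (cons (fin 1100 5 908)
(mv 1165 (cons (fin 1228 5 972)
(mv 1229 (cons (fin 974 6 973)
(fin 1293 6 1037)))))))))
(mv 844 (cons (fin 908 7 844)
(mv 910 (cons (fin 846 6 845)
(mv 974 (cons (fin 1165 5 909)
(mv 1103 (cons (fin 1167 4 910)
(mv 1036 (cons (fin 1104 3 1036)
(fin 1035 0 1035)))))))))))))
(cons (mv 846 (cons (fin 910 6 845)
(mv 1164 (cons (fin 1100 5 908)
(mv 1165 (cons (fin 1228 5 972)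
(mv 1229 (cons (fin 974 6 973)
(fin 1293 6 1037)))))))))
(cons (mv 844 (cons (fin 908 7 844)
(mv 910 (cons (fin 846 6 845)
(mv 1100 (cons (fin 1164 5 908)
(mv 1103 (cons (mv 1036 (cons (fin 1035 3 1035)
(fin 1104 3 1036)))
(mv 1167 (cons (fin 1168 0 1100)
(fin 974 4 910)))))))))))
(mv 844 (cons (fin 908 7 844)
(mv 846 (cons (fin 910 6 845)
(mv 1164 (cons (fin 1100 5 908)
(mv 1165 (cons (fin 1228 5 972)
(mv 1103 (cons (fin 1104 1 1100)
(mv 1036 (cons (fin 1035 0 1035)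
(mv 1229 (cons (fin 972 7 972)
(fin 1293 6 1037)))))))))))))))))))))
(mv 909 (cons (fin 845 4 845)
(mv 1166 (cons (fin 1230 7 973)
(fin 1101 4 909)))))))))
(cons (mv 1039 (cons (cons (mv 976 (cons (fin 977 2 973)
(mv 975 (cons (fin 1036 2 972)
(mv 1100 (cons (fin 1101 1 1036)
(mv 1104 (cons (fin 1105 0 1037)
(mv 1168 (cons (fin 911 7 911)
(fin 1232 7 975)))))))))))
(cons (mv 1100 (cons (fin 1101 1 1036)
(mv 1104 (cons (fin 1105 0 1037)
(mv 1103 (cons (fin 1036 0 1036)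
(mv 1168 (cons (mv 975 (cons (fin 1232 7 975)
(fin 911 4 911)))
(cons (mv 975 (cons (fin 911 4 911)
(mv 1167 (cons (mv 974 (cons (fin 910 7 910)
(fin 1231 7 974)))
(cons (mv 974 (cons (fin 910 7 910)
(mv 1166 (cons (fin 1230 5 974)
(mv 1102 (cons (fin 909 7 909)
(mv 1165 (cons (fin 1164 2 1100)
(fin 1229 5 973)))))))))
(mv 1230 (cons (fin 1166 5 974)
(mv 1231 (cons (fin 1294 5 1038)
(fin 1295 6 1039))))))))))
(mv 1232 (cons (fin 1296 7 1039)
(mv 1231 (cons (fin 1295 5 1039)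
(mv 1167 (cons (fin 974 7 974)
(mv 1230 (cons (fin 1294 5 1038)
(mv 1169 (cons (fin 1170 1 1166)
(fin 1229 2 1165))))))))))))))))))))
(mv 976 (cons (fin 977 2 973)
(mv 1036 (cons (fin 975 2 972)
(mv 1100 (cons (fin 1101 1 1036)
(mv 909 (cons (fin 845 5 844)
(mv 1228 (cons (fin 1164 6 972)
(mv 1102 (cons (mv 1166 (cons (fin 974 7 909)
(fin 1230 7 973)))
(cons (mv 1035 (cons (fin 1103 0 1035)
(mv 970 (cons (fin 971 3 970)
(mv 1034 (cons (fin 969 3 969)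
(fin 974 2 970)))))))
(mv 1103 (cons (fin 1035 0 1035)
(mv 1230 (cons (fin 1166 7 973)
(mv 1231 (cons (fin 1167 6 975)
(mv 1229 (cons (cons (mv 848 (cons (fin 912 5 847)
(mv 1291 (cons (fin 1292 1 1227)
(mv 1227 (cons (fin 1290 1 1226)
(mv 1295 (cons (fin 1294 0 1227)
(fin 1296 0 1228)))))))))
(mv 1295 (cons (fin 1296 0 1228)
(mv 1227 (cons (fin 1294 0 1227)
(mv 1162 (cons (fin 1163 3 1162)
(mv 1226 (cons (fin 1161 3 1161)
(mv 1290 (cons (fin 1289 1 1225)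
(fin 1291 1 1226))))))))))))
(cons (mv 1292 (cons (fin 1291 1 1227)
(mv 1232 (cons (fin 1293 1 1228)
(mv 1169 (cons (fin 1168 2 1165)
(mv 1233 (cons (fin 1170 2 1166)
(mv 1297 (cons (fin 1296 0 1229)
(fin 1298 0 1230)))))))))))
(cons (mv 1296 (cons (fin 1295 0 1228)
(mv 1232 (cons (fin 1297 0 1229)
(mv 1169 (cons (fin 1168 2 1165)
(mv 1233 (cons (fin 1170 2 1166)
(mv 1293 (cons (fin 1292 1 1228)
(fin 1294 1 1229)))))))))))
(mv 1291 (cons (fin 1292 1 1227)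
(mv 1227 (cons (fin 1290 1 1226)
(mv 1162 (cons (fin 1163 3 1162)
(mv 1226 (cons (fin 1161 3 1161)
(mv 1294 (cons (fin 1293 0 1226)
(fin 1295 0 1227))))))))))))))))))))))))))))))))))))
(cons (mv 976 (cons (fin 977 2 973)
(mv 975 (cons (fin 1036 2 972)
(mv 1104 (cons (fin 1105 0 1037)
(mv 1168 (cons (fin 911 7 911)
(fin 1232 7 975)))))))))
(cons (mv 976 (cons (fin 977 2 973)
(mv 1100 (cons (fin 1101 1 1036)
(mv 1104 (cons (fin 1105 0 1037)
(mv 1168 (cons (mv 975 (cons (fin 911 7 911)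
(fin 1232 7 975)))
(cons (mv 1167 (cons (fin 1231 5 975)
(mv 912 (cons (fin 1103 5 911)
(mv 849 (cons (fin 913 6 848)
(mv 785 (cons (fin 848 6 784)
(mv 1233 (cons (fin 1169 4 976)
(mv 1232 (cons (fin 1297 4 1040)
(mv 1166 (cons (fin 1165 0 1165)
(mv 1102 (cons (fin 1230 7 973)
(mv 909 (cons (fin 974 7 909)
(fin 845 4 845)))))))))))))))))))
(mv 911 (cons (fin 975 7 911)
(mv 1167 (cons (fin 1231 5 975)
(mv 912 (cons (fin 1103 5 911)
(mv 849 (cons (fin 913 6 848)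
(mv 848 (cons (fin 785 6 784)
(mv 850 (cons (fin 851 1 847)
(mv 909 (cons (fin 910 2 845)
(mv 845 (cons (fin 1102 4 845)
(mv 780 (cons (fin 844 7 780)
(mv 781 (cons (fin 716 7 716)
(fin 974 4 781))))))))))))))))))))))))))))))
(mv 976 (cons (fin 977 2 973)
(mv 1100 (cons (fin 1101 1 1036)
(mv 1104 (cons (fin 1105 0 1037)
(mv 1103 (cons (fin 1036 0 1036)
(mv 912 (cons (fin 848 5 847)
(fin 1167 5 911)))))))))))))))
(mv 1039 (cons (fin 972 3 972)
(mv 976 (cons (fin 977 2 973)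
(mv 975 (cons (fin 1036 2 972)
(mv 1104 (cons (fin 1105 0 1037)
(mv 1168 (cons (fin 911 7 911)
(fin 1232 7 975)))))))))))))
(cons (cons (mv 1039 (cons (fin 972 3 972)
(mv 1100 (cons (fin 1101 1 1036)
(mv 1104 (cons (fin 1105 0 1037)
(mv 1103 (cons (fin 1036 0 1036)
(mv 1168 (cons (mv 975 (cons (fin 1232 7 975)
(fin 911 4 911)))
(cons (mv 975 (cons (fin 911 4 911)
(mv 1167 (cons (mv 974 (cons (fin 910 7 910)
(fin 1231 7 974)))
(cons (mv 974 (cons (fin 910 7 910)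
(mv 1166 (cons (fin 1230 5 974)
(mv 1102 (cons (fin 909 7 909)
(mv 1165 (cons (fin 1164 2 1100)
(fin 1229 5 973)))))))))
(mv 1230 (cons (fin 1166 5 974)
(mv 1231 (cons (fin 1294 5 1038)
(fin 1295 6 1039))))))))))
(mv 1232 (cons (fin 1296 7 1039)
(mv 1231 (cons (fin 1295 5 1039)
(mv 1167 (cons (fin 974 7 974)
(mv 1230 (cons (fin 1294 5 1038)
(mv 1169 (cons (fin 1170 1 1166)
(fin 1229 2 1165))))))))))))))))))))))
(mv 1039 (cons (fin 972 3 972)
(mv 976 (cons (fin 977 2 973)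
(mv 1036 (cons (fin 975 2 972)
(mv 1100 (cons (fin 1101 1 1036)
(mv 909 (cons (fin 845 5 844)
(mv 1228 (cons (fin 1164 6 972)
(mv 1102 (cons (mv 1166 (cons (fin 974 7 909)
(fin 1230 7 973)))
(cons (mv 1035 (cons (fin 1103 0 1035)
(mv 970 (cons (fin 971 3 970)
(mv 1034 (cons (fin 969 3 969)
(fin 974 2 970)))))))
(mv 1103 (cons (fin 1035 0 1035)
(mv 1230 (cons (fin 1166 7 973)
(mv 1231 (cons (fin 1167 6 975)
(mv 1229 (cons (cons (mv 848 (cons (fin 912 5 847)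
(mv 1291 (cons (fin 1292 1 1227)
(mv 1227 (cons (fin 1290 1 1226)
(mv 1295 (cons (fin 1294 0 1227)
(fin 1296 0 1228)))))))))
(mv 1295 (cons (fin 1296 0 1228)
(mv 1227 (cons (fin 1294 0 1227)
(mv 1162 (cons (fin 1163 3 1162)
(mv 1226 (cons (fin 1161 3 1161)
(mv 1290 (cons (fin 1289 1 1225)
(fin 1291 1 1226))))))))))))
(cons (mv 1292 (cons (fin 1291 1 1227)
(mv 1232 (cons (fin 1293 1 1228)
(mv 1169 (cons (fin 1168 2 1165)
(mv 1233 (cons (fin 1170 2 1166)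
(mv 1297 (cons (fin 1296 0 1229)
(fin 1298 0 1230)))))))))))
(cons (mv 1296 (cons (fin 1295 0 1228)
(mv 1232 (cons (fin 1297 0 1229)
(mv 1169 (cons (fin 1168 2 1165)
(mv 1233 (cons (fin 1170 2 1166)
(mv 1293 (cons (fin 1292 1 1228)
(fin 1294 1 1229)))))))))))
(mv 1291 (cons (fin 1292 1 1227)
(mv 1227 (cons (fin 1290 1 1226)
(mv 1162 (cons (fin 1163 3 1162)
(mv 1226 (cons (fin 1161 3 1161)
(mv 1294 (cons (fin 1293 0 1226)
(fin 1295 0 1227)))))))))))))))))))))))))))))))))))))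
(cons (mv 1039 (cons (fin 972 3 972)
(mv 976 (cons (fin 977 2 973)
(mv 1100 (cons (fin 1101 1 1036)
(mv 1104 (cons (fin 1105 0 1037)
(mv 1168 (cons (mv 975 (cons (fin 911 7 911)
(fin 1232 7 975)))
(cons (mv 1167 (cons (fin 1231 5 975)
(mv 912 (cons (fin 1103 5 911)
(mv 849 (cons (fin 913 6 848)
(mv 785 (cons (fin 848 6 784)
(mv 1233 (cons (fin 1169 4 976)
(mv 1232 (cons (fin 1297 4 1040)
(mv 1166 (cons (fin 1165 0 1165)
(mv 1102 (cons (fin 1230 7 973)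
(mv 909 (cons (fin 974 7 909)
(fin 845 4 845)))))))))))))))))))
(mv 911 (cons (fin 975 7 911)
(mv 1167 (cons (fin 1231 5 975)
(mv 912 (cons (fin 1103 5 911)
(mv 849 (cons (fin 913 6 848)
(mv 848 (cons (fin 785 6 784)
(mv 850 (cons (fin 851 1 847)
(mv 909 (cons (fin 910 2 845)
(mv 845 (cons (fin 1102 4 845)
(mv 780 (cons (fin 844 7 780)
(mv 781 (cons (fin 716 7 716)
(fin 974 4 781))))))))))))))))))))))))))))))))
(mv 1039 (cons (fin 972 3 972)
(mv 976 (cons (fin 977 2 973)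
(mv 1100 (cons (fin 1101 1 1036)
(mv 1104 (cons (fin 1105 0 1037)
(mv 1103 (cons (fin 1036 0 1036)
(mv 912 (cons (fin 848 5 847)
(fin 1167 5 911)))))))))))))))))
(mv 1038 (cons (cons (mv 1039 (cons (fin 972 3 972)
(mv 976 (cons (fin 977 2 973)
(mv 975 (cons (fin 1036 2 972)
(mv 1100 (cons (fin 1101 1 1036)
(mv 1104 (cons (fin 1105 0 1037)
(mv 1168 (cons (fin 911 7 911)
(fin 1232 7 975)))))))))))))
(cons (mv 1102 (cons (cons (mv 909 (cons (fin 845 4 845)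
(mv 1166 (cons (fin 974 7 909)
(fin 1230 7 973)))))
(mv 1166 (cons (fin 1230 7 973)
(mv 974 (cons (mv 911 (cons (fin 975 6 910)
(mv 1165 (cons (fin 1229 5 973)
(mv 1101 (cons (fin 910 5 909)
(mv 908 (cons (fin 972 7 908)
(mv 1164 (cons (fin 1228 5 972)
(mv 1103 (cons (fin 1104 1 1100)
(fin 1163 2 1099)))))))))))))
(cons (mv 975 (cons (fin 911 6 910)
(mv 976 (cons (fin 1036 1 972)
(fin 977 1 973)))))
(mv 1165 (cons (fin 1229 5 973)
(mv 1101 (cons (fin 910 5 909)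
(mv 908 (cons (fin 972 7 908)
(mv 1164 (cons (fin 1228 5 972)
(mv 1103 (cons (fin 1104 1 1100)
(fin 1163 2 1099)))))))))))))))))
(cons (mv 909 (cons (fin 845 4 845)
(mv 1101 (cons (cons (mv 844 (cons (fin 908 7 844)
(mv 846 (cons (fin 910 6 845)
(mv 1100 (cons (fin 1164 5 908)
(mv 1099 (cons (fin 1098 2 1034)
(mv 1035 (cons (fin 1034 3 1034)
(mv 1036 (cons (fin 1103 3 1035)
(mv 970 (cons (fin 971 3 970)
(mv 974 (cons (fin 975 2 971)
(mv 1163 (cons (fin 1162 1 1098)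
(mv 1227 (cons (fin 972 6 971)
(fin 1291 6 1035)))))))))))))))))))))
(cons (mv 844 (cons (fin 908 7 844)
(mv 1100 (cons (fin 1164 5 908)
(mv 1099 (cons (fin 1098 2 1034)
(mv 1035 (cons (fin 1034 3 1034)
(mv 1036 (cons (fin 1103 3 1035)
(mv 970 (cons (fin 971 3 970)
(mv 974 (cons (fin 975 2 971)
(mv 1163 (cons (fin 1162 1 1098)
(mv 1227 (cons (fin 972 6 971)
(fin 1291 6 1035)))))))))))))))))))
(mv 844 (cons (fin 908 7 844)
(mv 910 (cons (fin 846 6 845)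
(mv 1165 (cons (fin 974 5 909)
(mv 1164 (cons (fin 1228 5 972)
(mv 1103 (cons (fin 1104 1 1100)
(mv 1036 (cons (fin 1035 0 1035)
(mv 1229 (cons (fin 972 7 972)
(fin 1293 6 1037)))))))))))))))))
(cons (cons (mv 844 (cons (fin 908 7 844)
(mv 910 (cons (fin 846 6 845)
(mv 1165 (cons (fin 974 5 909)
(mv 1229 (cons (fin 1293 6 1037)
(mv 1036 (cons (fin 972 7 972)
(mv 1035 (cons (fin 1034 0 1034)
(fin 1103 0 1035)))))))))))))
(mv 846 (cons (fin 910 6 845)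
(mv 1100 (cons (fin 1164 5 908)
(mv 1099 (cons (fin 1098 2 1034)
(mv 1035 (cons (fin 1034 3 1034)
(mv 1036 (cons (fin 1103 3 1035)
(mv 970 (cons (fin 971 3 970)
(mv 974 (cons (fin 975 2 971)
(mv 1163 (cons (fin 1162 1 1098)
(mv 1227 (cons (fin 972 6 971)
(fin 1291 6 1035))))))))))))))))))))
(cons (mv 844 (cons (fin 908 7 844)
(mv 846 (cons (fin 910 6 845)
(mv 1100 (cons (fin 1164 5 908)
(mv 1099 (cons (fin 1098 2 1034)
(mv 1035 (cons (fin 1034 3 1034)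
(mv 1036 (cons (fin 1103 3 1035)
(mv 970 (cons (fin 971 3 970)
(mv 1163 (cons (fin 1162 1 1098)
(mv 1227 (cons (fin 972 6 971)
(fin 1291 6 1035)))))))))))))))))))
(mv 844 (cons (fin 908 7 844)
(mv 846 (cons (fin 910 6 845)
(mv 1164 (cons (fin 1100 5 908)
(mv 1165 (cons (fin 1228 5 972)
(mv 1229 (cons (fin 974 6 973)
(fin 1293 6 1037)))))))))))))))))
(mv 909 (cons (fin 845 4 845)
(mv 1166 (cons (fin 1230 7 973)
(fin 1101 4 909))))))))
(mv 1039 (cons (cons (mv 976 (cons (fin 977 2 973)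
(mv 975 (cons (fin 1036 2 972)
(mv 1100 (cons (fin 1101 1 1036)
(mv 1104 (cons (fin 1105 0 1037)
(mv 1168 (cons (fin 911 7 911)
(fin 1232 7 975)))))))))))
(mv 976 (cons (fin 977 2 973)
(mv 975 (cons (fin 1036 2 972)
(mv 1104 (cons (fin 1105 0 1037)
(mv 1168 (cons (fin 911 7 911)
(fin 1232 7 975))))))))))
(cons (mv 1100 (cons (fin 1101 1 1036)
(mv 1036 (cons (fin 1099 1 1035)
(mv 1104 (cons (fin 1103 0 1036)
(fin 1105 0 1037)))))))
(cons (mv 976 (cons (fin 977 2 973)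
(mv 1036 (cons (fin 975 2 972)
(mv 1100 (cons (fin 1099 1 1035)
(fin 1101 1 1036)))))))
(mv 976 (cons (fin 977 2 973)
(mv 1100 (cons (fin 1101 1 1036)
(mv 1104 (cons (fin 1105 0 1037)
(mv 1168 (cons (mv 975 (cons (fin 911 7 911)
(fin 1232 7 975)))
(cons (mv 1233 (cons (fin 1169 4 976)
(mv 1232 (cons (fin 1297 4 1040)
(mv 1295 (cons (fin 1231 5 1039)
(mv 1296 (cons (fin 1103 7 1039)
(fin 1359 5 1103)))))))))
(mv 975 (cons (fin 911 7 911)
(mv 1169 (cons (fin 1233 4 976)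
(mv 912 (cons (mv 848 (cons (fin 784 5 783)
(fin 1103 5 847)))
(mv 913 (cons (fin 974 2 909)
(fin 849 6 848))))))))))))))))))))))))
(cons (cons (mv 1039 (cons (fin 972 3 972)
(mv 976 (cons (fin 977 2 973)
(mv 975 (cons (fin 1036 2 972)
(mv 1104 (cons (fin 1105 0 1037)
(mv 1168 (cons (fin 911 7 911)
(fin 1232 7 975)))))))))))
(mv 1039 (cons (fin 972 3 972)
(mv 1100 (cons (fin 1101 1 1036)
(mv 1036 (cons (fin 1099 1 1035)
(mv 1104 (cons (fin 1103 0 1036)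
(fin 1105 0 1037))))))))))
(cons (mv 1039 (cons (fin 972 3 972)
(mv 976 (cons (fin 977 2 973)
(mv 1036 (cons (fin 975 2 972)
(mv 1100 (cons (fin 1099 1 1035)
(fin 1101 1 1036)))))))))
(mv 1039 (cons (fin 972 3 972)
(mv 976 (cons (fin 977 2 973)
(mv 1100 (cons (fin 1101 1 1036)
(mv 1104 (cons (fin 1105 0 1037)
(mv 1168 (cons (mv 975 (cons (fin 911 7 911)
(fin 1232 7 975)))
(cons (mv 1233 (cons (fin 1169 4 976)
(mv 1232 (cons (fin 1297 4 1040)
(mv 1295 (cons (fin 1231 5 1039)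
(mv 1296 (cons (fin 1103 7 1039)
(fin 1359 5 1103)))))))))
(mv 975 (cons (fin 911 7 911)
(mv 1169 (cons (fin 1233 4 976)
(mv 912 (cons (mv 848 (cons (fin 784 5 783)
(fin 1103 5 847)))
(mv 913 (cons (fin 974 2 909)
(fin 849 6 848))))))))))))))))))))))))))))))
def l107 : Lem := ⟨13254031944712882724506621310649321556018620670345837899455453023597314721787975009848330616026462815765143756135158089473467252075149308743152655366187148242124071246428482498451210046760672027239036899891323305324899173507745103325308665813954110541579506451753178596634830548552232523722901151470534797188661248, 145065402447996492978018108648145873194353464211268743743760585865306615102062034101565918642657746416552445962116302446912021246409893693797149135567861060625785156637532094522610965107655056654268893994867918541068835906065935627911216344821913923043782317454823870481056248996311279775795391987573868720010325828923043912530170871417463733230063640855791241652222042548379387895952624988840690933600942954112097921069809139712,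 145065402447996492978018108648145873194353464211268743743760585865306615102062034101565918642657746416552445962116302446912021246409893693797149135567861060625785156637532094522610965107655056654268893994867918541068835906065935627911216344821913923043782317454823870481056248996311279775795391987573868720010325828923043912530170871417463733230063640855791241652222042548379387895952624988840690933600942954112097921069809139712, 19, 33⟩
theorem l107_valid : l107.Valid :=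
  Lem.valid_of_chk t107 t107_valid [1037, 1040] c107 l107 (by decide +kernel)
end Crest.Agent.SnakyAux
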