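import Crest.Agent.S0047_aux.Checker

set_option autoImplicit false
set_option maxRecDepth 100000
namespace Crest.Agent.SnakyAux
open Cert
def t108 : Tbl := Tbl.nil
theorem t108_valid : t108.Valid := Tbl.valid_nil
def c108 : Cert :=
(mv 1101 (cons (cons (cons (cons (mv 1038 (cons (cons (mv 1039 (cons (fin 1100 1 1036)
(mv 1104 (cons (fin 1105 0 1037)
(mv 1103 (cons (fin 1036 0 1036)
(mv 972 (cons (fin 973 3 972)
(mv 976 (cons (fin 977 2 973)
(mv 1167 (cons (fin 912 5 911)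
(fin 1231 6 975)))))))))))))
(cons (mv 974 (cons (cons (mv 1165 (cons (fin 1229 6 973)
(mv 910 (cons (fin 1102 5 909)
(fin 846 5 845)))))
(mv 910 (cons (fin 846 5 845)
(mv 1102 (cons (mv 1167 (cons (fin 1103 4 910)
(mv 1166 (cons (fin 1231 4 974)
(mv 1230 (cons (fin 1294 7 1037)
(fin 973 7 973)))))))
(cons (mv 911 (cons (fin 847 6 846)
(mv 1166 (cons (fin 975 6 910)
(mv 1230 (cons (fin 1294 7 1037)
(fin 973 7 973)))))))
(mv 1103 (cons (fin 1167 4 910)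
(mv 1104 (cons (fin 1036 3 1036)
(fin 1105 3 1037)))))))))))
(cons (mv 1165 (cons (fin 1229 6 973)
(mv 973 (cons (cons (mv 1228 (cons (fin 1164 5 972)
(mv 1230 (cons (fin 1166 4 973)
(mv 972 (cons (fin 908 7 908)
(mv 971 (cons (fin 970 0 970)
(mv 1035 (cons (fin 1034 1 970)
(mv 1036 (cons (fin 975 1 971)
(mv 1098 (cons (fin 1099 1 1034)
(mv 1102 (cons (fin 1103 0 1035)
(mv 907 (cons (fin 906 3 906)
(mv 843 (cons (fin 1100 4 843)
(fin 779 4 779)))))))))))))))))))))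
(cons (mv 1228 (cons (fin 1164 5 972)
(mv 1166 (cons (fin 1230 4 973)
(mv 975 (cons (mv 1036 (cons (fin 976 1 972)
(fin 1035 2 971)))
(mv 1102 (cons (fin 911 6 910)
(mv 1167 (cons (fin 1231 4 974)
(mv 1168 (cons (fin 1100 3 1100)
(fin 1169 3 1101)))))))))))))
(mv 1228 (cons (fin 1164 5 972)
(mv 972 (cons (fin 908 7 908)
(mv 971 (cons (fin 970 0 970)
(mv 1035 (cons (fin 1034 1 970)
(mv 1036 (cons (fin 975 1 971)
(mv 1098 (cons (fin 1099 1 1034)
(mv 1102 (cons (fin 1103 0 1035)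
(mv 907 (cons (fin 906 3 906)
(mv 843 (cons (fin 1100 4 843)
(fin 779 4 779)))))))))))))))))))))
(cons (cons (mv 1230 (cons (fin 1166 4 973)
(mv 972 (cons (fin 908 7 908)
(mv 971 (cons (fin 970 0 970)
(mv 1035 (cons (fin 1034 1 970)
(mv 1036 (cons (fin 975 1 971)
(mv 1098 (cons (fin 1099 1 1034)
(mv 1102 (cons (fin 1103 0 1035)
(mv 907 (cons (fin 906 3 906)
(mv 843 (cons (fin 1100 4 843)
(fin 779 4 779)))))))))))))))))))
(mv 1230 (cons (fin 1166 4 973)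
(mv 1164 (cons (fin 1228 5 972)
(mv 972 (cons (fin 908 7 908)
(mv 971 (cons (fin 970 0 970)
(mv 1035 (cons (fin 1034 1 970)
(mv 907 (cons (fin 906 3 906)
(mv 1099 (cons (fin 1100 4 907)
(mv 1162 (cons (fin 1098 5 906)
(mv 1163 (cons (fin 1102 2 1098)
(fin 1226 5 970))))))))))))))))))))
(cons (mv 1164 (cons (fin 1228 5 972)
(mv 1166 (cons (fin 1230 4 973)
(mv 972 (cons (fin 908 7 908)
(mv 971 (cons (fin 970 0 970)
(mv 907 (cons (fin 906 3 906)
(mv 1100 (cons (fin 1036 7 907)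
(mv 1167 (cons (fin 1099 3 1099)
(fin 1168 3 1100)))))))))))))))
(mv 1228 (cons (fin 1164 5 972)
(mv 1230 (cons (fin 1166 4 973)
(mv 972 (cons (fin 908 7 908)
(mv 971 (cons (fin 970 0 970)
(mv 1035 (cons (fin 1034 1 970)
(mv 975 (cons (fin 1036 1 971)
(mv 976 (cons (fin 977 1 973)
(mv 912 (cons (fin 911 2 908)
(fin 913 2 909)))))))))))))))))))))))
(mv 1165 (cons (fin 1229 6 973)
(mv 910 (cons (fin 846 5 845)
(fin 973 6 909))))))))
(mv 1039 (cons (cons (mv 1104 (cons (fin 1105 0 1037)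
(mv 1103 (cons (fin 1036 0 1036)
(mv 972 (cons (fin 973 3 972)
(mv 976 (cons (fin 977 2 973)
(mv 1167 (cons (fin 912 5 911)
(fin 1231 6 975)))))))))))
(mv 972 (cons (fin 973 3 972)
(mv 1036 (cons (fin 971 3 971)
(mv 976 (cons (fin 975 2 972)
(fin 977 2 973))))))))
(cons (mv 1104 (cons (fin 1105 0 1037)
(mv 1103 (cons (fin 1036 0 1036)
(mv 976 (cons (fin 977 2 973)
(mv 1167 (cons (fin 912 5 911)
(fin 1231 6 975)))))))))
(cons (mv 1104 (cons (fin 1105 0 1037)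
(mv 1036 (cons (fin 1103 0 1036)
(mv 972 (cons (fin 971 3 971)
(fin 973 3 972)))))))
(mv 1104 (cons (fin 1105 0 1037)
(mv 972 (cons (fin 973 3 972)
(mv 976 (cons (fin 977 2 973)
(mv 1168 (cons (mv 975 (cons (fin 1232 7 975)
(fin 911 7 911)))
(cons (mv 1231 (cons (fin 1167 5 975)
(mv 1232 (cons (fin 1295 5 1039)
(mv 1233 (cons (fin 1297 4 1040)
(fin 1169 4 976)))))))
(mv 1231 (cons (fin 1167 5 975)
(mv 1233 (cons (fin 1169 4 976)
(mv 911 (cons (fin 975 7 911)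
(mv 912 (cons (fin 847 7 847)
(mv 848 (cons (fin 1103 5 847)
(mv 849 (cons (fin 913 6 848)
(fin 785 6 784))))))))))))))))))))))))))))
(cons (cons (mv 1039 (cons (fin 1100 1 1036)
(mv 1104 (cons (fin 1105 0 1037)
(mv 1103 (cons (fin 1036 0 1036)
(mv 976 (cons (fin 977 2 973)
(mv 1167 (cons (fin 912 5 911)
(fin 1231 6 975)))))))))))
(mv 1039 (cons (fin 1100 1 1036)
(mv 972 (cons (fin 973 3 972)
(mv 1036 (cons (fin 971 3 971)
(mv 976 (cons (fin 975 2 972)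
(fin 977 2 973))))))))))
(cons (mv 1039 (cons (fin 1100 1 1036)
(mv 1104 (cons (fin 1105 0 1037)
(mv 1036 (cons (fin 1103 0 1036)
(mv 972 (cons (fin 971 3 971)
(fin 973 3 972)))))))))
(mv 1039 (cons (fin 1100 1 1036)
(mv 1104 (cons (fin 1105 0 1037)
(mv 972 (cons (fin 973 3 972)
(mv 976 (cons (fin 977 2 973)
(mv 1168 (cons (mv 975 (cons (fin 1232 7 975)
(fin 911 7 911)))
(cons (mv 1231 (cons (fin 1167 5 975)
(mv 1232 (cons (fin 1295 5 1039)
(mv 1233 (cons (fin 1297 4 1040)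
(fin 1169 4 976)))))))
(mv 1231 (cons (fin 1167 5 975)
(mv 1233 (cons (fin 1169 4 976)
(mv 911 (cons (fin 975 7 911)
(mv 912 (cons (fin 847 7 847)
(mv 848 (cons (fin 1103 5 847)
(mv 849 (cons (fin 913 6 848)
(fin 785 6 784))))))))))))))))))))))))))))
(mv 1165 (cons (cons (cons (mv 973 (cons (cons (mv 1228 (cons (fin 1164 5 972)
(mv 1292 (cons (fin 1229 5 1036)
(mv 1230 (cons (fin 1166 4 973)
(mv 972 (cons (fin 908 7 908)
(mv 974 (cons (fin 910 6 909)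
(mv 975 (cons (fin 1039 0 972)
(mv 1036 (cons (fin 1035 1 971)
(fin 976 1 972)))))))))))))))
(mv 1228 (cons (fin 1164 5 972)
(mv 1229 (cons (fin 1292 5 1036)
(mv 1230 (cons (fin 1294 4 1037)
(fin 1166 4 973))))))))
(cons (mv 1230 (cons (fin 1166 4 973)
(mv 1294 (cons (fin 1229 4 1037)
(mv 972 (cons (fin 908 7 908)
(mv 974 (cons (fin 910 6 909)
(mv 975 (cons (fin 1039 0 972)
(mv 1036 (cons (fin 1035 1 971)
(fin 976 1 972)))))))))))))
(cons (mv 1228 (cons (fin 1164 5 972)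
(mv 1292 (cons (fin 1229 5 1036)
(mv 972 (cons (fin 908 7 908)
(mv 974 (cons (fin 910 6 909)
(mv 975 (cons (fin 1039 0 972)
(mv 1036 (cons (fin 1035 1 971)
(fin 976 1 972)))))))))))))
(mv 1228 (cons (fin 1164 5 972)
(mv 1230 (cons (fin 1166 4 973)
(mv 972 (cons (fin 908 7 908)
(mv 974 (cons (fin 910 6 909)
(mv 975 (cons (fin 1039 0 972)
(mv 1036 (cons (fin 1035 1 971)
(fin 976 1 972)))))))))))))))))
(mv 1229 (cons (cons (mv 1292 (cons (fin 1228 5 1036)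
(mv 1293 (cons (fin 1356 5 1100)
(mv 1294 (cons (fin 1358 4 1101)
(fin 1230 4 1037)))))))
(mv 1294 (cons (fin 1230 4 1037)
(mv 1293 (cons (fin 1358 4 1101)
(mv 1036 (cons (fin 1100 7 1036)
(fin 972 7 972))))))))
(cons (mv 1292 (cons (fin 1228 5 1036)
(mv 1293 (cons (fin 1356 5 1100)
(mv 1036 (cons (fin 1100 7 1036)
(fin 972 7 972)))))))
(mv 1228 (cons (fin 1292 5 1036)
(mv 1230 (cons (fin 1294 4 1037)
(mv 1036 (cons (fin 972 7 972)
(mv 1227 (cons (cons (mv 1166 (cons (fin 1226 2 1162)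
(fin 1167 2 1163)))
(mv 1290 (cons (fin 1291 1 1226)
(mv 1289 (cons (fin 1226 1 1225)
(mv 1163 (cons (fin 1162 3 1162)
(mv 1231 (cons (fin 1164 3 1163)
(mv 1295 (cons (fin 1296 0 1228)
(mv 1168 (cons (fin 1167 2 1164)
(mv 1232 (cons (fin 1169 2 1165)
(fin 1104 5 1039))))))))))))))))
(cons (mv 1290 (cons (fin 1291 1 1226)
(mv 1162 (cons (fin 1163 3 1162)
(mv 1167 (cons (fin 1166 2 1163)
(mv 1231 (cons (fin 1168 2 1164)
(mv 1296 (cons (fin 1295 0 1228)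
(mv 1232 (cons (fin 1164 3 1164)
(fin 1297 0 1229)))))))))))))
(mv 1290 (cons (fin 1291 1 1226)
(mv 1226 (cons (fin 1289 1 1225)
(fin 1166 2 1162))))))))))))))))))
(cons (mv 973 (cons (cons (mv 1228 (cons (fin 1164 5 972)
(mv 1230 (cons (fin 1166 4 973)
(mv 972 (cons (fin 908 7 908)
(mv 974 (cons (fin 910 6 909)
(mv 975 (cons (fin 1039 0 972)
(mv 1036 (cons (fin 1035 1 971)
(fin 976 1 972)))))))))))))
(mv 1230 (cons (fin 1166 4 973)
(mv 972 (cons (fin 908 7 908)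
(mv 974 (cons (fin 910 6 909)
(mv 975 (cons (fin 1039 0 972)
(mv 1036 (cons (fin 1035 1 971)
(fin 976 1 972))))))))))))
(cons (mv 1228 (cons (fin 1164 5 972)
(mv 972 (cons (fin 908 7 908)
(mv 974 (cons (fin 910 6 909)
(mv 975 (cons (fin 1039 0 972)
(mv 1036 (cons (fin 1035 1 971)
(fin 976 1 972)))))))))))
(cons (mv 1164 (cons (fin 1228 5 972)
(mv 1166 (cons (fin 1230 4 973)
(mv 974 (cons (fin 910 6 909)
(mv 1167 (cons (mv 1100 (cons (fin 1099 3 1099)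
(fin 1168 3 1100)))
(cons (mv 1231 (cons (fin 1232 0 1164)
(mv 1103 (cons (fin 1104 2 1100)
(mv 1163 (cons (fin 1102 2 1099)
(mv 1226 (cons (fin 1227 1 1162)
(mv 1162 (cons (fin 1225 1 1161)
(mv 1098 (cons (fin 1097 3 1097)
(fin 1099 3 1098)))))))))))))
(mv 1231 (cons (fin 1232 0 1164)
(mv 1168 (cons (fin 1100 3 1100)
(mv 1104 (cons (fin 1103 2 1100)
(fin 1105 2 1101))))))))))))))))
(mv 1164 (cons (fin 1228 5 972)
(mv 1166 (cons (fin 1230 4 973)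
(mv 972 (cons (fin 908 7 908)
(mv 1163 (cons (cons (mv 1102 (cons (fin 1162 2 1098)
(fin 1103 2 1099)))
(mv 1226 (cons (fin 1227 1 1162)
(mv 1225 (cons (fin 1162 1 1161)
(mv 1099 (cons (fin 1098 3 1098)
(mv 1167 (cons (fin 1100 3 1099)
(mv 1231 (cons (fin 1232 0 1164)
(mv 1104 (cons (fin 1103 2 1100)
(mv 1168 (cons (fin 1105 2 1101)
(fin 976 5 975))))))))))))))))
(cons (mv 1226 (cons (fin 1227 1 1162)
(mv 1098 (cons (fin 1099 3 1098)
(mv 1103 (cons (fin 1102 2 1099)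
(mv 1167 (cons (fin 1104 2 1100)
(mv 1232 (cons (fin 1231 0 1164)
(mv 1168 (cons (fin 1100 3 1100)
(fin 1233 0 1165)))))))))))))
(mv 1226 (cons (fin 1227 1 1162)
(mv 1162 (cons (fin 1225 1 1161)
(fin 1102 2 1098))))))))))))))))))
(mv 973 (cons (cons (mv 1230 (cons (fin 1166 4 973)
(mv 1294 (cons (fin 1229 4 1037)
(mv 972 (cons (fin 908 7 908)
(mv 974 (cons (fin 910 6 909)
(mv 975 (cons (fin 1039 0 972)
(mv 1036 (cons (fin 1035 1 971)
(fin 976 1 972)))))))))))))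
(mv 1166 (cons (fin 1230 4 973)
(mv 974 (cons (fin 910 6 909)
(mv 1167 (cons (cons (mv 1168 (cons (fin 1100 3 1100)
(mv 1232 (cons (fin 1233 0 1165)
(mv 1231 (cons (fin 1164 0 1164)
(mv 1104 (cons (fin 1105 2 1101)
(fin 1295 5 1039)))))))))
(cons (mv 1164 (cons (cons (mv 1231 (cons (fin 1232 0 1164)
(mv 1099 (cons (fin 1100 3 1099)
(mv 1163 (cons (fin 1098 3 1098)
(mv 1102 (cons (fin 1162 2 1098)
(fin 1103 2 1099)))))))))
(cons (mv 1231 (cons (fin 1232 0 1164)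
(mv 1103 (cons (fin 1104 2 1100)
(mv 1163 (cons (fin 1102 2 1099)
(mv 1226 (cons (fin 1227 1 1162)
(mv 1162 (cons (fin 1225 1 1161)
(mv 1161 (cons (fin 1100 2 1097)
(mv 1097 (cons (fin 1096 3 1096)
(fin 1098 3 1097)))))))))))))))
(mv 1231 (cons (fin 1232 0 1164)
(mv 1099 (cons (fin 1100 3 1099)
(mv 1163 (cons (fin 1098 3 1098)
(mv 1226 (cons (fin 1227 1 1162)
(mv 1162 (cons (fin 1225 1 1161)
(fin 1102 2 1098)))))))))))))
(cons (cons (mv 1231 (cons (fin 1232 0 1164)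
(mv 1103 (cons (fin 1104 2 1100)
(mv 1163 (cons (fin 1102 2 1099)
(mv 1226 (cons (fin 1227 1 1162)
(mv 1162 (cons (fin 1225 1 1161)
(mv 1098 (cons (fin 1097 3 1097)
(fin 1099 3 1098)))))))))))))
(mv 1099 (cons (fin 1100 3 1099)
(mv 1163 (cons (fin 1098 3 1098)
(mv 1102 (cons (fin 1162 2 1098)
(fin 1103 2 1099))))))))
(cons (mv 1231 (cons (fin 1232 0 1164)
(mv 1099 (cons (fin 1100 3 1099)
(mv 1163 (cons (fin 1098 3 1098)
(mv 1226 (cons (fin 1227 1 1162)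
(mv 1162 (cons (fin 1225 1 1161)
(mv 1354 (cons (fin 1290 6 1098)
(mv 1103 (cons (fin 1104 2 1100)
(mv 1035 (cons (fin 971 5 970)
(mv 1036 (cons (fin 1034 2 970)
(mv 976 (cons (fin 975 1 972)
(fin 1039 6 975)))))))))))))))))))))
(mv 1231 (cons (fin 1232 0 1164)
(mv 1100 (cons (fin 1099 3 1099)
(mv 1103 (cons (fin 1104 2 1100)
(mv 1039 (cons (fin 1102 2 1036)
(fin 976 6 975)))))))))))))
(mv 1168 (cons (cons (mv 1232 (cons (fin 1233 0 1165)
(mv 1231 (cons (fin 1164 0 1164)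
(mv 1104 (cons (fin 1105 2 1101)
(fin 1295 5 1039)))))))
(mv 1232 (cons (fin 1233 0 1165)
(mv 1231 (cons (fin 1164 0 1164)
(mv 1169 (cons (fin 1102 3 1101)
(mv 1170 (cons (fin 1171 1 1167)
(mv 1106 (cons (fin 1105 2 1102)
(fin 1107 2 1103))))))))))))
(cons (mv 1169 (cons (fin 1102 3 1101)
(mv 1105 (cons (fin 1104 2 1101)
(fin 1106 2 1102)))))
(mv 1232 (cons (fin 1233 0 1165)
(mv 1231 (cons (fin 1164 0 1164)
(mv 1104 (cons (fin 1295 5 1039)
(fin 976 5 975))))))))))))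
(cons (mv 1168 (cons (fin 1100 3 1100)
(mv 1232 (cons (fin 1233 0 1165)
(mv 1169 (cons (fin 1102 3 1101)
(mv 1105 (cons (fin 1104 2 1101)
(fin 1106 2 1102)))))))))
(cons (mv 1168 (cons (fin 1100 3 1100)
(mv 1232 (cons (fin 1233 0 1165)
(mv 1231 (cons (fin 1164 0 1164)
(mv 1169 (cons (fin 1102 3 1101)
(mv 1170 (cons (fin 1171 1 1167)
(mv 1106 (cons (fin 1105 2 1102)
(fin 1107 2 1103)))))))))))))
(mv 1168 (cons (fin 1100 3 1100)
(mv 1169 (cons (fin 1102 3 1101)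
(mv 1105 (cons (fin 1104 2 1101)
(fin 1106 2 1102))))))))))))))))
(cons (mv 972 (cons (fin 908 7 908)
(mv 1036 (cons (fin 1229 7 972)
(mv 974 (cons (fin 910 6 909)
(mv 1035 (cons (fin 975 1 971)
(fin 1034 2 970)))))))))
(cons (mv 1230 (cons (fin 1166 4 973)
(mv 1229 (cons (fin 1294 4 1037)
(mv 972 (cons (fin 1036 7 972)
(fin 908 7 908)))))))
(mv 1166 (cons (fin 1230 4 973)
(mv 972 (cons (fin 908 7 908)
(mv 974 (cons (fin 910 6 909)
(mv 1039 (cons (fin 975 0 972)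
(mv 1100 (cons (cons (mv 1167 (cons (fin 1168 3 1100)
(mv 1099 (cons (fin 1164 3 1099)
(fin 1098 0 1098)))))
(mv 1102 (cons (fin 1103 2 1036)
(mv 971 (cons (cons (mv 1098 (cons (fin 1099 0 1098)
(mv 1034 (cons (fin 1035 1 970)
(mv 970 (cons (fin 1033 1 969)
(mv 906 (cons (fin 905 3 905)
(fin 907 3 906)))))))))
(cons (mv 1034 (cons (fin 1035 1 970)
(mv 970 (cons (fin 1033 1 969)
(mv 906 (cons (fin 905 3 905)
(fin 907 3 906)))))))
(mv 1099 (cons (fin 1098 0 1098)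
(mv 1163 (cons (fin 1162 1 1098)
(mv 906 (cons (fin 907 3 906)
(mv 970 (cons (fin 905 3 905)
(fin 1035 7 906)))))))))))
(cons (cons (mv 1098 (cons (fin 1099 0 1098)
(mv 906 (cons (fin 907 3 906)
(mv 970 (cons (fin 905 3 905)
(mv 1034 (cons (fin 1033 1 969)
(mv 1161 (cons (fin 1097 5 905)
(mv 1162 (cons (fin 1225 5 969)
(mv 1163 (cons (fin 1164 2 1097)
(fin 1227 4 970)))))))))))))))
(mv 1098 (cons (fin 1099 0 1098)
(mv 1034 (cons (fin 1035 1 970)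
(mv 970 (cons (fin 1033 1 969)
(mv 1162 (cons (fin 907 6 906)
(mv 1163 (cons (fin 1164 2 1098)
(fin 1227 4 970))))))))))))
(cons (mv 1098 (cons (fin 1099 0 1098)
(mv 1034 (cons (fin 1035 1 970)
(mv 970 (cons (fin 1033 1 969)
(mv 905 (cons (fin 906 3 905)
(mv 969 (cons (fin 904 3 904)
(fin 1162 7 905)))))))))))
(mv 1099 (cons (fin 1098 0 1098)
(mv 1162 (cons (fin 1163 1 1098)
(mv 1035 (cons (fin 1034 1 970)
(mv 907 (cons (fin 906 3 906)
(fin 1164 4 907))))))))))))))))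
(cons (mv 1167 (cons (fin 1168 3 1100)
(mv 1103 (cons (fin 1102 2 1036)
(mv 1231 (cons (fin 976 6 975)
(mv 1232 (cons (fin 1164 0 1164)
(fin 1296 4 1039)))))))))
(mv 1167 (cons (fin 1168 3 1100)
(mv 1099 (cons (fin 1098 0 1098)
(fin 1102 0 1099))))))))))))))))))))))
(cons (cons (mv 972 (cons (cons (mv 1229 (cons (fin 1036 7 972)
(mv 1292 (cons (fin 1228 5 1036)
(mv 1293 (cons (fin 1356 5 1100)
(mv 1358 (cons (fin 1294 4 1101)
(mv 1357 (cons (fin 1422 4 1165)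
(mv 1359 (cons (fin 1360 3 1292)
(mv 1290 (cons (fin 1291 0 1290)
(mv 1100 (cons (fin 1164 7 1100)
(mv 1102 (cons (fin 1166 6 1101)
(mv 1039 (cons (fin 1103 2 1036)
(mv 973 (cons (fin 908 7 908)
(mv 974 (cons (fin 975 0 972)
(fin 910 6 909)))))))))))))))))))))))))
(mv 973 (cons (fin 908 7 908)
(mv 1164 (cons (fin 1228 5 972)
(mv 974 (cons (fin 910 6 909)
(mv 1039 (cons (fin 975 0 972)
(mv 1103 (cons (cons (mv 1102 (cons (fin 1104 1 1100)
(fin 1100 2 1036)))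
(mv 1167 (cons (mv 1231 (cons (fin 976 6 975)
(mv 1232 (cons (fin 1166 0 1164)
(fin 1296 4 1039)))))
(cons (mv 1231 (cons (fin 976 6 975)
(mv 1295 (cons (fin 1104 6 1039)
(mv 1296 (cons (fin 1360 4 1103)
(fin 1232 4 1039)))))))
(mv 1166 (cons (fin 1104 2 1100)
(mv 1100 (cons (fin 1099 3 1099)
(fin 1168 3 1100)))))))))
(cons (mv 1102 (cons (fin 1104 1 1100)
(mv 1163 (cons (fin 1162 2 1098)
(fin 1166 2 1099)))))
(mv 1102 (cons (fin 1100 2 1036)
(mv 1163 (cons (fin 1162 2 1098)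
(fin 1166 2 1099)))))))))))))))))
(cons (mv 1036 (cons (fin 1229 7 972)
(mv 908 (cons (fin 1100 4 908)
(fin 844 4 844)))))
(cons (mv 1229 (cons (fin 1036 7 972)
(mv 1293 (cons (cons (mv 1292 (cons (fin 1356 5 1100)
(fin 1228 5 1036)))
(mv 1358 (cons (fin 1294 4 1101)
(mv 1357 (cons (fin 1422 4 1165)
(mv 1420 (cons (fin 1356 5 1164)
(mv 1484 (cons (fin 1421 5 1228)
(mv 1164 (cons (fin 1100 7 1100)
(mv 1228 (cons (fin 973 5 972)
(mv 1166 (cons (fin 1102 6 1101)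
(mv 1227 (cons (fin 1167 1 1163)
(fin 1226 2 1162))))))))))))))))))
(cons (mv 1356 (cons (fin 1292 5 1100)
(mv 1357 (cons (fin 1420 5 1164)
(mv 1358 (cons (fin 1422 4 1165)
(fin 1294 4 1101)))))))
(mv 1358 (cons (fin 1294 4 1101)
(mv 1357 (cons (fin 1422 4 1165)
(mv 1228 (cons (fin 1292 5 1036)
(mv 1164 (cons (fin 973 5 972)
(fin 1421 7 1164))))))))))))))
(mv 1229 (cons (fin 1036 7 972)
(mv 1228 (cons (fin 1292 5 1036)
(mv 973 (cons (fin 1164 5 972)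
(fin 908 7 908)))))))))))
(mv 1229 (cons (cons (mv 1292 (cons (fin 1228 5 1036)
(mv 1293 (cons (fin 1356 5 1100)
(mv 1294 (cons (fin 1358 4 1101)
(fin 1230 4 1037)))))))
(cons (mv 1294 (cons (fin 1230 4 1037)
(mv 1293 (cons (fin 1358 4 1101)
(mv 1356 (cons (fin 1292 5 1100)
(mv 1357 (cons (fin 1420 5 1164)
(mv 1100 (cons (fin 1164 7 1100)
(fin 1036 7 1036)))))))))))
(mv 1292 (cons (fin 1228 5 1036)
(mv 1293 (cons (fin 1356 5 1100)
(mv 1358 (cons (fin 1294 4 1101)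
(mv 1357 (cons (fin 1422 4 1165)
(mv 1100 (cons (fin 1164 7 1100)
(fin 1036 7 1036)))))))))))))
(cons (mv 1294 (cons (fin 1230 4 1037)
(mv 1293 (cons (fin 1358 4 1101)
(mv 1100 (cons (fin 1036 7 1036)
(mv 1164 (cons (fin 1357 7 1100)
(mv 1228 (cons (fin 973 5 972)
(mv 1295 (cons (fin 1296 3 1228)
(mv 1227 (cons (fin 1226 0 1226)
(mv 1166 (cons (fin 1167 1 1163)
(mv 1099 (cons (fin 1098 0 1098)
(mv 1102 (cons (mv 1163 (cons (fin 1162 1 1098)
(fin 1103 1 1099)))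
(cons (mv 1103 (cons (fin 1104 1 1100)
(fin 1039 2 1036)))
(mv 1163 (cons (fin 1162 1 1098)
(mv 1035 (cons (fin 1034 3 1034)
(fin 971 4 971))))))))))))))))))))))))))
(cons (mv 1292 (cons (fin 1228 5 1036)
(mv 1293 (cons (fin 1356 5 1100)
(mv 1100 (cons (fin 1036 7 1036)
(mv 1357 (cons (fin 1164 7 1100)
(mv 1422 (cons (fin 1358 4 1165)
(mv 1421 (cons (fin 1486 4 1229)
(mv 1166 (cons (fin 1230 6 1165)
(fin 1102 6 1101)))))))))))))))
(mv 1228 (cons (fin 1292 5 1036)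
(mv 1230 (cons (fin 1294 4 1037)
(mv 973 (cons (fin 1164 5 972)
(fin 1166 4 973))))))))))))
(cons (mv 973 (cons (cons (mv 1228 (cons (fin 1164 5 972)
(mv 1229 (cons (fin 1292 5 1036)
(mv 1230 (cons (fin 1294 4 1037)
(fin 1166 4 973)))))))
(mv 1166 (cons (fin 1230 4 973)
(mv 972 (cons (fin 908 7 908)
(mv 974 (cons (fin 910 6 909)
(mv 1039 (cons (fin 975 0 972)
(mv 1100 (cons (cons (mv 1167 (cons (fin 1168 3 1100)
(mv 1099 (cons (fin 1164 3 1099)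
(fin 1098 0 1098)))))
(mv 1102 (cons (fin 1103 2 1036)
(mv 971 (cons (cons (mv 1098 (cons (fin 1099 0 1098)
(mv 1034 (cons (fin 1035 1 970)
(mv 970 (cons (fin 1033 1 969)
(mv 906 (cons (fin 905 3 905)
(fin 907 3 906)))))))))
(cons (mv 1034 (cons (fin 1035 1 970)
(mv 970 (cons (fin 1033 1 969)
(mv 906 (cons (fin 905 3 905)
(fin 907 3 906)))))))
(mv 1099 (cons (fin 1098 0 1098)
(mv 1163 (cons (fin 1162 1 1098)
(mv 906 (cons (fin 907 3 906)
(mv 970 (cons (fin 905 3 905)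
(fin 1035 7 906)))))))))))
(cons (cons (mv 1098 (cons (fin 1099 0 1098)
(mv 906 (cons (fin 907 3 906)
(mv 970 (cons (fin 905 3 905)
(mv 1034 (cons (fin 1033 1 969)
(mv 1161 (cons (fin 1097 5 905)
(mv 1162 (cons (fin 1225 5 969)
(mv 1163 (cons (fin 1164 2 1097)
(fin 1227 4 970)))))))))))))))
(mv 1098 (cons (fin 1099 0 1098)
(mv 1034 (cons (fin 1035 1 970)
(mv 970 (cons (fin 1033 1 969)
(mv 1162 (cons (fin 907 6 906)
(mv 1163 (cons (fin 1164 2 1098)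
(fin 1227 4 970))))))))))))
(cons (mv 1098 (cons (fin 1099 0 1098)
(mv 1034 (cons (fin 1035 1 970)
(mv 970 (cons (fin 1033 1 969)
(mv 905 (cons (fin 906 3 905)
(mv 969 (cons (fin 904 3 904)
(fin 1162 7 905)))))))))))
(mv 1099 (cons (fin 1098 0 1098)
(mv 1162 (cons (fin 1163 1 1098)
(mv 1035 (cons (fin 1034 1 970)
(mv 907 (cons (fin 906 3 906)
(fin 1164 4 907))))))))))))))))
(cons (mv 1167 (cons (fin 1168 3 1100)
(mv 1103 (cons (fin 1102 2 1036)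
(mv 1231 (cons (fin 976 6 975)
(mv 1232 (cons (fin 1164 0 1164)
(fin 1296 4 1039)))))))))
(mv 1167 (cons (fin 1168 3 1100)
(mv 1099 (cons (fin 1098 0 1098)
(fin 1102 0 1099)))))))))))))))))
(cons (mv 1164 (cons (fin 1228 5 972)
(mv 972 (cons (fin 908 7 908)
(mv 974 (cons (fin 910 6 909)
(mv 1039 (cons (fin 975 0 972)
(mv 1103 (cons (cons (mv 1102 (cons (fin 1104 1 1100)
(fin 1100 2 1036)))
(mv 1167 (cons (mv 1231 (cons (fin 976 6 975)
(mv 1232 (cons (fin 1166 0 1164)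
(fin 1296 4 1039)))))
(cons (mv 1231 (cons (fin 976 6 975)
(mv 1295 (cons (fin 1104 6 1039)
(mv 1296 (cons (fin 1360 4 1103)
(fin 1232 4 1039)))))))
(mv 1166 (cons (fin 1104 2 1100)
(mv 1100 (cons (fin 1099 3 1099)
(fin 1168 3 1100)))))))))
(cons (mv 1102 (cons (fin 1104 1 1100)
(mv 1163 (cons (fin 1162 2 1098)
(fin 1166 2 1099)))))
(mv 1102 (cons (fin 1100 2 1036)
(mv 1163 (cons (fin 1162 2 1098)
(fin 1166 2 1099))))))))))))))))
(cons (mv 972 (cons (fin 908 7 908)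
(mv 974 (cons (fin 910 6 909)
(mv 975 (cons (fin 1039 0 972)
(mv 912 (cons (fin 911 2 908)
(mv 976 (cons (fin 913 2 909)
(mv 1104 (cons (cons (mv 1230 (cons (fin 1166 4 973)
(mv 1294 (cons (fin 1229 4 1037)
(mv 1167 (cons (fin 1103 5 911)
(mv 1168 (cons (fin 1231 5 975)
(mv 1169 (cons (fin 1233 4 976)
(fin 1105 4 912)))))))))))
(cons (mv 1169 (cons (fin 1105 4 912)
(mv 1168 (cons (fin 1233 4 976)
(mv 1102 (cons (fin 1103 0 1101)
(mv 1229 (cons (cons (mv 1230 (cons (fin 1294 4 1037)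
(fin 1166 4 973)))
(mv 1292 (cons (fin 1228 5 1036)
(mv 1293 (cons (fin 1356 5 1100)
(mv 1357 (cons (fin 1166 6 1101)
(mv 1358 (cons (fin 1422 4 1165)
(fin 1294 4 1101))))))))))
(cons (mv 1292 (cons (fin 1228 5 1036)
(mv 1293 (cons (fin 1356 5 1100)
(mv 1294 (cons (fin 1358 4 1101)
(fin 1230 4 1037)))))))
(mv 1292 (cons (fin 1228 5 1036)
(mv 1293 (cons (fin 1356 5 1100)
(mv 1166 (cons (fin 1230 4 973)
(fin 1357 6 1101))))))))))))))))
(mv 1230 (cons (fin 1166 4 973)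
(mv 1229 (cons (fin 1294 4 1037)
(mv 1292 (cons (fin 1228 5 1036)
(mv 1293 (cons (fin 1356 5 1100)
(mv 1290 (cons (fin 1291 2 1226)
(mv 1231 (cons (fin 1232 1 1228)
(mv 1167 (cons (fin 1168 5 975)
(fin 1103 5 911)))))))))))))))))
(cons (cons (mv 1167 (cons (fin 1103 5 911)
(mv 1168 (cons (fin 1231 5 975)
(mv 1166 (cons (fin 1100 3 1100)
(fin 1105 2 1101)))))))
(mv 1167 (cons (fin 1103 5 911)
(mv 1168 (cons (fin 1231 5 975)
(mv 1169 (cons (fin 1233 4 976)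
(fin 1105 4 912))))))))
(cons (mv 1230 (cons (fin 1166 4 973)
(mv 1229 (cons (fin 1294 4 1037)
(mv 1292 (cons (fin 1228 5 1036)
(mv 1356 (cons (fin 1293 5 1100)
(mv 1169 (cons (fin 1105 4 912)
(mv 1168 (cons (fin 1233 4 976)
(mv 1231 (cons (fin 1232 2 1165)
(fin 1167 5 975)))))))))))))))
(mv 1166 (cons (fin 1230 4 973)
(mv 1103 (cons (fin 1167 5 911)
(mv 1105 (cons (fin 1102 1 1101)
(fin 1169 4 912)))))))))))))))))))))
(mv 972 (cons (fin 908 7 908)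
(mv 1103 (cons (cons (mv 1228 (cons (fin 1164 5 972)
(mv 1292 (cons (fin 1229 5 1036)
(mv 974 (cons (fin 910 6 909)
(mv 975 (cons (fin 1039 0 972)
(mv 912 (cons (fin 911 2 908)
(mv 976 (cons (fin 913 2 909)
(mv 1104 (cons (fin 1167 5 911)
(mv 1169 (cons (fin 1105 4 912)
(mv 1168 (cons (fin 1102 0 1101)
(fin 1233 4 976)))))))))))))))))))
(mv 1164 (cons (fin 1228 5 972)
(mv 1102 (cons (fin 1104 1 1100)
(mv 1163 (cons (fin 1100 1 1099)
(fin 1162 2 1098))))))))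
(cons (mv 974 (cons (fin 910 6 909)
(mv 975 (cons (fin 1039 0 972)
(mv 912 (cons (fin 911 2 908)
(mv 976 (cons (fin 913 2 909)
(mv 1104 (cons (fin 1167 5 911)
(mv 1169 (cons (fin 1105 4 912)
(mv 1168 (cons (fin 1102 0 1101)
(fin 1233 4 976)))))))))))))))
(cons (mv 1228 (cons (fin 1164 5 972)
(mv 1229 (cons (fin 1292 5 1036)
(mv 1230 (cons (fin 1294 4 1037)
(mv 974 (cons (fin 910 6 909)
(mv 1039 (cons (fin 975 0 972)
(mv 1231 (cons (mv 1167 (cons (fin 1168 2 1164)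
(fin 976 6 975)))
(cons (mv 1296 (cons (fin 1295 0 1228)
(mv 1232 (cons (fin 1297 0 1229)
(mv 1168 (cons (fin 1169 2 1165)
(fin 1104 7 1039)))))))
(mv 1295 (cons (fin 1296 0 1228)
(mv 1167 (cons (fin 1104 6 1039)
(fin 976 6 975))))))))))))))))))
(mv 974 (cons (fin 910 6 909)
(mv 1039 (cons (fin 975 0 972)
(mv 1100 (cons (fin 1102 2 1036)
(mv 1229 (cons (cons (mv 1228 (cons (fin 1292 5 1036)
(fin 1164 5 972)))
(mv 1294 (cons (fin 1230 4 1037)
(mv 1293 (cons (fin 1358 4 1101)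
(mv 1356 (cons (fin 1292 5 1100)
(mv 1357 (cons (fin 1420 5 1164)
(fin 1164 7 1100))))))))))
(cons (mv 1292 (cons (fin 1228 5 1036)
(mv 1293 (cons (fin 1356 5 1100)
(mv 1294 (cons (fin 1358 4 1101)
(fin 1230 4 1037)))))))
(mv 1294 (cons (fin 1230 4 1037)
(mv 1293 (cons (fin 1358 4 1101)
(mv 1164 (cons (fin 1228 5 972)
(fin 1357 7 1100))))))))))))))))))))))))))
(cons (mv 1229 (cons (cons (mv 1292 (cons (fin 1228 5 1036)
(mv 1356 (cons (fin 1293 5 1100)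
(mv 1230 (cons (fin 1294 4 1037)
(mv 972 (cons (fin 1036 7 972)
(mv 973 (cons (fin 908 7 908)
(fin 1166 4 973)))))))))))
(mv 1292 (cons (fin 1228 5 1036)
(mv 1293 (cons (fin 1356 5 1100)
(mv 1294 (cons (fin 1358 4 1101)
(fin 1230 4 1037))))))))
(cons (mv 1292 (cons (fin 1228 5 1036)
(mv 1293 (cons (fin 1356 5 1100)
(mv 1036 (cons (fin 1100 7 1036)
(fin 972 7 972)))))))
(cons (mv 1294 (cons (fin 1230 4 1037)
(mv 1293 (cons (fin 1358 4 1101)
(mv 1036 (cons (fin 1100 7 1036)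
(fin 972 7 972)))))))
(mv 1292 (cons (fin 1228 5 1036)
(mv 1230 (cons (fin 1294 4 1037)
(mv 972 (cons (fin 1036 7 972)
(mv 973 (cons (fin 908 7 908)
(fin 1166 4 973)))))))))))))
(mv 1229 (cons (cons (mv 1292 (cons (fin 1228 5 1036)
(mv 1293 (cons (fin 1356 5 1100)
(mv 1294 (cons (fin 1358 4 1101)
(fin 1230 4 1037)))))))
(mv 1294 (cons (fin 1230 4 1037)
(mv 1293 (cons (fin 1358 4 1101)
(mv 1036 (cons (fin 1100 7 1036)
(fin 972 7 972))))))))
(cons (mv 1292 (cons (fin 1228 5 1036)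
(mv 1293 (cons (fin 1356 5 1100)
(mv 1036 (cons (fin 1100 7 1036)
(fin 972 7 972)))))))
(mv 1294 (cons (fin 1230 4 1037)
(mv 1228 (cons (fin 1292 5 1036)
(mv 972 (cons (fin 1036 7 972)
(mv 973 (cons (fin 1164 5 972)
(fin 908 7 908))))))))))))))))))
(cons (mv 1165 (cons (cons (mv 1229 (cons (cons (mv 1292 (cons (fin 1228 5 1036)
(mv 1356 (cons (fin 1293 5 1100)
(mv 1294 (cons (fin 1230 4 1037)
(mv 972 (cons (fin 1036 7 972)
(mv 973 (cons (fin 908 7 908)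
(mv 974 (cons (fin 1038 6 973)
(fin 910 6 909)))))))))))))
(cons (mv 1294 (cons (fin 1230 4 1037)
(mv 1358 (cons (fin 1293 4 1101)
(mv 972 (cons (fin 1036 7 972)
(mv 973 (cons (fin 908 7 908)
(mv 974 (cons (fin 1038 6 973)
(fin 910 6 909)))))))))))
(mv 1292 (cons (fin 1228 5 1036)
(mv 1356 (cons (fin 1293 5 1100)
(mv 972 (cons (fin 1036 7 972)
(mv 973 (cons (fin 908 7 908)
(mv 974 (cons (fin 1038 6 973)
(fin 910 6 909)))))))))))))
(cons (cons (mv 1292 (cons (fin 1228 5 1036)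
(mv 1356 (cons (fin 1293 5 1100)
(mv 1230 (cons (fin 1294 4 1037)
(mv 973 (cons (fin 1166 4 973)
(mv 974 (cons (fin 1038 6 973)
(fin 910 6 909)))))))))))
(mv 1292 (cons (fin 1228 5 1036)
(mv 1356 (cons (fin 1293 5 1100)
(mv 1230 (cons (fin 1294 4 1037)
(mv 972 (cons (fin 1036 7 972)
(mv 973 (cons (fin 908 7 908)
(fin 1166 4 973))))))))))))
(cons (mv 1292 (cons (fin 1228 5 1036)
(mv 1294 (cons (fin 1230 4 1037)
(mv 972 (cons (fin 1036 7 972)
(mv 973 (cons (fin 908 7 908)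
(mv 974 (cons (fin 1038 6 973)
(fin 910 6 909)))))))))))
(mv 1292 (cons (fin 1228 5 1036)
(mv 1293 (cons (fin 1356 5 1100)
(mv 1294 (cons (fin 1358 4 1101)
(fin 1230 4 1037)))))))))))
(cons (mv 973 (cons (cons (mv 1228 (cons (fin 1164 5 972)
(mv 1230 (cons (fin 1166 4 973)
(mv 972 (cons (fin 908 7 908)
(mv 974 (cons (fin 910 6 909)
(mv 971 (cons (mv 1034 (cons (fin 1035 1 970)
(mv 970 (cons (fin 1033 1 969)
(fin 1038 0 970)))))
(cons (mv 1035 (cons (fin 1034 1 970)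
(mv 1036 (cons (fin 975 1 971)
(mv 907 (cons (fin 906 3 906)
(mv 843 (cons (fin 1100 4 843)
(fin 779 4 779)))))))))
(mv 970 (cons (fin 1038 0 970)
(mv 906 (cons (fin 905 3 905)
(fin 907 3 906))))))))))))))))
(cons (mv 1230 (cons (fin 1166 4 973)
(mv 972 (cons (fin 908 7 908)
(mv 974 (cons (fin 910 6 909)
(mv 971 (cons (mv 1034 (cons (fin 1035 1 970)
(mv 970 (cons (fin 1033 1 969)
(fin 1038 0 970)))))
(cons (mv 1035 (cons (fin 1034 1 970)
(mv 1036 (cons (fin 975 1 971)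
(mv 907 (cons (fin 906 3 906)
(mv 843 (cons (fin 1100 4 843)
(fin 779 4 779)))))))))
(mv 970 (cons (fin 1038 0 970)
(mv 906 (cons (fin 905 3 905)
(fin 907 3 906))))))))))))))
(mv 1228 (cons (fin 1164 5 972)
(mv 972 (cons (fin 908 7 908)
(mv 974 (cons (fin 910 6 909)
(mv 971 (cons (mv 1034 (cons (fin 1035 1 970)
(mv 970 (cons (fin 1033 1 969)
(fin 1038 0 970)))))
(cons (mv 1035 (cons (fin 1034 1 970)
(mv 1036 (cons (fin 975 1 971)
(mv 907 (cons (fin 906 3 906)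
(mv 843 (cons (fin 1100 4 843)
(fin 779 4 779)))))))))
(mv 970 (cons (fin 1038 0 970)
(mv 906 (cons (fin 905 3 905)
(fin 907 3 906))))))))))))))))
(cons (mv 1164 (cons (fin 1228 5 972)
(mv 1166 (cons (fin 1230 4 973)
(mv 972 (cons (fin 908 7 908)
(mv 1163 (cons (cons (mv 1102 (cons (fin 1162 2 1098)
(fin 1103 2 1099)))
(mv 1226 (cons (fin 1227 1 1162)
(mv 1225 (cons (fin 1162 1 1161)
(mv 1099 (cons (fin 1098 3 1098)
(mv 1167 (cons (fin 1100 3 1099)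
(mv 1231 (cons (fin 1232 0 1164)
(mv 1104 (cons (fin 1103 2 1100)
(mv 1168 (cons (fin 1105 2 1101)
(fin 976 5 975))))))))))))))))
(cons (mv 1226 (cons (fin 1227 1 1162)
(mv 1098 (cons (fin 1099 3 1098)
(mv 1103 (cons (fin 1102 2 1099)
(mv 1167 (cons (fin 1104 2 1100)
(mv 1232 (cons (fin 1231 0 1164)
(mv 1168 (cons (fin 1100 3 1100)
(fin 1233 0 1165)))))))))))))
(mv 1226 (cons (fin 1227 1 1162)
(mv 1162 (cons (fin 1225 1 1161)
(fin 1102 2 1098))))))))))))))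
(cons (mv 1164 (cons (fin 1228 5 972)
(mv 1166 (cons (fin 1230 4 973)
(mv 974 (cons (fin 910 6 909)
(mv 1167 (cons (mv 1100 (cons (fin 1099 3 1099)
(fin 1168 3 1100)))
(mv 1231 (cons (fin 1232 0 1164)
(mv 1102 (cons (fin 1038 4 974)
(mv 1163 (cons (fin 1162 2 1098)
(fin 1103 2 1099)))))))))))))))
(mv 1164 (cons (fin 1228 5 972)
(mv 1166 (cons (fin 1230 4 973)
(mv 972 (cons (fin 908 7 908)
(mv 974 (cons (fin 910 6 909)
(mv 1163 (cons (mv 1102 (cons (fin 1162 2 1098)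
(fin 1103 2 1099)))
(cons (mv 1226 (cons (fin 1227 1 1162)
(mv 1162 (cons (fin 1225 1 1161)
(mv 1098 (cons (fin 1097 3 1097)
(fin 1099 3 1098)))))))
(mv 1227 (cons (fin 1226 1 1162)
(mv 1099 (cons (fin 1098 3 1098)
(mv 1102 (cons (fin 1103 2 1099)
(mv 1035 (cons (fin 1036 6 971)
(mv 1034 (cons (fin 971 1 970)
(fin 970 7 970))))))))))))))))))))))))))
(mv 1229 (cons (cons (mv 1292 (cons (fin 1228 5 1036)
(mv 1293 (cons (fin 1356 5 1100)
(mv 1294 (cons (fin 1358 4 1101)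
(fin 1230 4 1037)))))))
(mv 1294 (cons (fin 1230 4 1037)
(mv 1293 (cons (fin 1358 4 1101)
(mv 1036 (cons (fin 1100 7 1036)
(fin 972 7 972))))))))
(cons (mv 1292 (cons (fin 1228 5 1036)
(mv 1293 (cons (fin 1356 5 1100)
(mv 1036 (cons (fin 1100 7 1036)
(fin 972 7 972)))))))
(mv 1294 (cons (fin 1230 4 1037)
(mv 1228 (cons (fin 1292 5 1036)
(mv 1036 (cons (fin 972 7 972)
(mv 1038 (cons (fin 974 6 973)
(mv 1035 (cons (mv 1102 (cons (fin 1034 0 1034)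
(fin 1103 0 1035)))
(cons (mv 1098 (cons (fin 1099 1 1034)
(mv 1034 (cons (fin 1097 1 1033)
(mv 970 (cons (fin 969 3 969)
(fin 971 3 970)))))))
(mv 1099 (cons (fin 1098 1 1034)
(mv 1102 (cons (fin 1103 0 1035)
(mv 971 (cons (fin 970 3 970)
(mv 1164 (cons (fin 1100 7 971)
(fin 1163 4 971)))))))))))))))))))))))))
(cons (cons (mv 1229 (cons (cons (mv 1294 (cons (fin 1230 4 1037)
(mv 1358 (cons (fin 1293 4 1101)
(mv 972 (cons (fin 1036 7 972)
(mv 973 (cons (fin 908 7 908)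
(mv 974 (cons (fin 1038 6 973)
(fin 910 6 909)))))))))))
(mv 1294 (cons (fin 1230 4 1037)
(mv 1293 (cons (fin 1358 4 1101)
(mv 1038 (cons (fin 1102 6 1037)
(fin 974 6 973))))))))
(cons (mv 1036 (cons (fin 972 7 972)
(mv 1293 (cons (fin 1100 7 1036)
(mv 1038 (cons (fin 1102 6 1037)
(fin 974 6 973)))))))
(cons (mv 1294 (cons (fin 1230 4 1037)
(mv 1293 (cons (fin 1358 4 1101)
(mv 1036 (cons (fin 1100 7 1036)
(fin 972 7 972)))))))
(mv 1294 (cons (fin 1230 4 1037)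
(mv 972 (cons (fin 1036 7 972)
(mv 973 (cons (fin 908 7 908)
(mv 974 (cons (fin 1038 6 973)
(fin 910 6 909)))))))))))))
(mv 1229 (cons (cons (mv 1292 (cons (fin 1228 5 1036)
(mv 1356 (cons (fin 1293 5 1100)
(mv 972 (cons (fin 1036 7 972)
(mv 973 (cons (fin 908 7 908)
(mv 974 (cons (fin 1038 6 973)
(fin 910 6 909)))))))))))
(mv 1292 (cons (fin 1228 5 1036)
(mv 1293 (cons (fin 1356 5 1100)
(mv 1038 (cons (fin 1102 6 1037)
(fin 974 6 973))))))))
(cons (mv 1036 (cons (fin 972 7 972)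
(mv 1293 (cons (fin 1100 7 1036)
(mv 1038 (cons (fin 1102 6 1037)
(fin 974 6 973)))))))
(cons (mv 1292 (cons (fin 1228 5 1036)
(mv 1293 (cons (fin 1356 5 1100)
(mv 1036 (cons (fin 1100 7 1036)
(fin 972 7 972)))))))
(mv 1292 (cons (fin 1228 5 1036)
(mv 972 (cons (fin 1036 7 972)
(mv 973 (cons (fin 908 7 908)
(mv 974 (cons (fin 1038 6 973)
(fin 910 6 909))))))))))))))
(cons (mv 1229 (cons (cons (mv 1292 (cons (fin 1228 5 1036)
(mv 1356 (cons (fin 1293 5 1100)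
(mv 1230 (cons (fin 1294 4 1037)
(mv 972 (cons (fin 1036 7 972)
(mv 973 (cons (fin 908 7 908)
(fin 1166 4 973)))))))))))
(mv 1294 (cons (fin 1230 4 1037)
(mv 1293 (cons (fin 1358 4 1101)
(mv 1036 (cons (fin 1100 7 1036)
(fin 972 7 972))))))))
(cons (mv 1292 (cons (fin 1228 5 1036)
(mv 1293 (cons (fin 1356 5 1100)
(mv 1036 (cons (fin 1100 7 1036)
(fin 972 7 972)))))))
(cons (mv 1292 (cons (fin 1228 5 1036)
(mv 1293 (cons (fin 1356 5 1100)
(mv 1294 (cons (fin 1358 4 1101)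
(fin 1230 4 1037)))))))
(mv 1292 (cons (fin 1228 5 1036)
(mv 1230 (cons (fin 1294 4 1037)
(mv 972 (cons (fin 1036 7 972)
(mv 973 (cons (fin 908 7 908)
(fin 1166 4 973)))))))))))))
(mv 1229 (cons (cons (mv 1292 (cons (fin 1228 5 1036)
(mv 1356 (cons (fin 1293 5 1100)
(mv 1230 (cons (fin 1294 4 1037)
(mv 973 (cons (fin 1166 4 973)
(mv 974 (cons (fin 1038 6 973)
(fin 910 6 909)))))))))))
(mv 1294 (cons (fin 1230 4 1037)
(mv 1293 (cons (fin 1358 4 1101)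
(mv 1038 (cons (fin 1102 6 1037)
(fin 974 6 973))))))))
(cons (mv 1292 (cons (fin 1228 5 1036)
(mv 1293 (cons (fin 1356 5 1100)
(mv 1038 (cons (fin 1102 6 1037)
(fin 974 6 973)))))))
(cons (mv 1292 (cons (fin 1228 5 1036)
(mv 1293 (cons (fin 1356 5 1100)
(mv 1294 (cons (fin 1358 4 1101)
(fin 1230 4 1037)))))))
(mv 1292 (cons (fin 1228 5 1036)
(mv 1230 (cons (fin 1294 4 1037)
(mv 973 (cons (fin 1166 4 973)
(mv 974 (cons (fin 1038 6 973)
(fin 910 6 909)))))))))))))))))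
(cons (mv 1165 (cons (cons (cons (mv 1229 (cons (cons (mv 1292 (cons (fin 1228 5 1036)
(mv 1356 (cons (fin 1293 5 1100)
(mv 1294 (cons (fin 1230 4 1037)
(mv 1038 (cons (fin 974 6 973)
(mv 972 (cons (fin 1036 7 972)
(mv 973 (cons (fin 1039 3 972)
(fin 908 7 908)))))))))))))
(cons (mv 1292 (cons (fin 1228 5 1036)
(mv 1356 (cons (fin 1293 5 1100)
(mv 1230 (cons (fin 1294 4 1037)
(mv 972 (cons (fin 1036 7 972)
(mv 973 (cons (fin 908 7 908)
(fin 1166 4 973)))))))))))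
(mv 1292 (cons (fin 1228 5 1036)
(mv 1356 (cons (fin 1293 5 1100)
(mv 1038 (cons (fin 974 6 973)
(mv 972 (cons (fin 1036 7 972)
(mv 973 (cons (fin 1039 3 972)
(fin 908 7 908)))))))))))))
(cons (cons (mv 1294 (cons (fin 1230 4 1037)
(mv 1358 (cons (fin 1293 4 1101)
(mv 1038 (cons (fin 974 6 973)
(mv 972 (cons (fin 1036 7 972)
(mv 973 (cons (fin 1039 3 972)
(fin 908 7 908)))))))))))
(mv 1292 (cons (fin 1228 5 1036)
(mv 1356 (cons (fin 1293 5 1100)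
(mv 1230 (cons (fin 1294 4 1037)
(mv 973 (cons (fin 1166 4 973)
(mv 974 (cons (fin 1038 6 973)
(fin 910 6 909))))))))))))
(cons (mv 1292 (cons (fin 1228 5 1036)
(mv 1293 (cons (fin 1356 5 1100)
(mv 1294 (cons (fin 1358 4 1101)
(fin 1230 4 1037)))))))
(mv 1292 (cons (fin 1228 5 1036)
(mv 1294 (cons (fin 1230 4 1037)
(mv 1038 (cons (fin 974 6 973)
(mv 972 (cons (fin 1036 7 972)
(mv 973 (cons (fin 1039 3 972)
(fin 908 7 908)))))))))))))))
(mv 973 (cons (cons (mv 1228 (cons (fin 1164 5 972)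
(mv 1230 (cons (fin 1166 4 973)
(mv 972 (cons (fin 908 7 908)
(mv 1038 (cons (fin 1039 3 972)
(mv 971 (cons (fin 970 0 970)
(mv 974 (cons (fin 910 6 909)
(mv 1035 (cons (fin 1034 1 970)
(mv 975 (cons (fin 1036 1 971)
(mv 976 (cons (fin 977 1 973)
(mv 912 (cons (fin 911 2 908)
(fin 913 2 909)))))))))))))))))))))
(cons (mv 1164 (cons (fin 1228 5 972)
(mv 1166 (cons (fin 1230 4 973)
(mv 974 (cons (fin 910 6 909)
(mv 1163 (cons (mv 1102 (cons (fin 1162 2 1098)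
(fin 1103 2 1099)))
(cons (mv 1226 (cons (fin 1227 1 1162)
(mv 1162 (cons (fin 1225 1 1161)
(mv 1098 (cons (fin 1097 3 1097)
(fin 1099 3 1098)))))))
(mv 1226 (cons (fin 1227 1 1162)
(mv 1098 (cons (fin 1099 3 1098)
(mv 1103 (cons (fin 1102 2 1099)
(mv 1167 (cons (fin 1104 2 1100)
(mv 1231 (cons (fin 1232 0 1164)
(mv 1039 (cons (fin 1038 7 974)
(fin 976 6 975))))))))))))))))))))))
(mv 1164 (cons (fin 1228 5 972)
(mv 1166 (cons (fin 1230 4 973)
(mv 972 (cons (fin 908 7 908)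
(mv 1038 (cons (fin 1039 3 972)
(mv 970 (cons (fin 971 0 970)
(mv 1163 (cons (mv 1102 (cons (fin 1162 2 1098)
(fin 1103 2 1099)))
(cons (mv 1226 (cons (fin 1227 1 1162)
(mv 1162 (cons (fin 1225 1 1161)
(mv 1098 (cons (fin 1097 3 1097)
(fin 1099 3 1098)))))))
(mv 1227 (cons (fin 1226 1 1162)
(mv 1099 (cons (fin 1098 3 1098)
(mv 1035 (cons (fin 1034 7 970)
(fin 1036 6 971))))))))))))))))))))))
(cons (cons (mv 1228 (cons (fin 1164 5 972)
(mv 972 (cons (fin 908 7 908)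
(mv 1038 (cons (fin 1039 3 972)
(mv 971 (cons (fin 970 0 970)
(mv 974 (cons (fin 910 6 909)
(mv 1035 (cons (fin 1034 1 970)
(mv 975 (cons (fin 1036 1 971)
(mv 976 (cons (fin 977 1 973)
(mv 912 (cons (fin 911 2 908)
(fin 913 2 909)))))))))))))))))))
(mv 1230 (cons (fin 1166 4 973)
(mv 972 (cons (fin 908 7 908)
(mv 1038 (cons (fin 1039 3 972)
(mv 971 (cons (fin 970 0 970)
(mv 974 (cons (fin 910 6 909)
(mv 1035 (cons (fin 1034 1 970)
(mv 975 (cons (fin 1036 1 971)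
(mv 976 (cons (fin 977 1 973)
(mv 912 (cons (fin 911 2 908)
(fin 913 2 909))))))))))))))))))))
(cons (mv 1228 (cons (fin 1164 5 972)
(mv 1230 (cons (fin 1166 4 973)
(mv 972 (cons (fin 908 7 908)
(mv 974 (cons (fin 910 6 909)
(mv 975 (cons (fin 1039 0 972)
(mv 1036 (cons (fin 1035 1 971)
(fin 976 1 972)))))))))))))
(mv 1164 (cons (fin 1228 5 972)
(mv 1166 (cons (fin 1230 4 973)
(mv 972 (cons (fin 908 7 908)
(mv 974 (cons (fin 910 6 909)
(mv 1163 (cons (mv 1102 (cons (fin 1162 2 1098)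
(fin 1103 2 1099)))
(cons (mv 1226 (cons (fin 1227 1 1162)
(mv 1162 (cons (fin 1225 1 1161)
(mv 1098 (cons (fin 1097 3 1097)
(fin 1099 3 1098)))))))
(mv 1227 (cons (fin 1226 1 1162)
(mv 1099 (cons (fin 1098 3 1098)
(mv 1102 (cons (fin 1103 2 1099)
(mv 1035 (cons (fin 1036 6 971)
(mv 1034 (cons (fin 971 1 970)
(fin 970 7 970)))))))))))))))))))))))))))
(cons (mv 1229 (cons (cons (mv 1292 (cons (fin 1228 5 1036)
(mv 1293 (cons (fin 1356 5 1100)
(mv 1294 (cons (fin 1358 4 1101)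
(fin 1230 4 1037)))))))
(mv 1292 (cons (fin 1228 5 1036)
(mv 1293 (cons (fin 1356 5 1100)
(mv 1038 (cons (fin 1102 6 1037)
(fin 974 6 973))))))))
(cons (mv 1294 (cons (fin 1230 4 1037)
(mv 1293 (cons (fin 1358 4 1101)
(mv 1038 (cons (fin 1102 6 1037)
(fin 974 6 973)))))))
(mv 1292 (cons (fin 1228 5 1036)
(mv 1294 (cons (fin 1230 4 1037)
(mv 1036 (cons (fin 972 7 972)
(mv 1038 (cons (fin 974 6 973)
(mv 1035 (cons (mv 1102 (cons (fin 1034 0 1034)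
(fin 1103 0 1035)))
(cons (mv 1098 (cons (fin 1099 1 1034)
(mv 1034 (cons (fin 1097 1 1033)
(mv 970 (cons (fin 969 3 969)
(fin 971 3 970)))))))
(mv 1098 (cons (fin 1099 1 1034)
(mv 1103 (cons (fin 1102 0 1035)
(mv 1039 (cons (fin 1104 0 1036)
(mv 976 (cons (fin 975 2 972)
(fin 977 2 973)))))))))))))))))))))))
(mv 1229 (cons (cons (mv 1292 (cons (fin 1228 5 1036)
(mv 1356 (cons (fin 1293 5 1100)
(mv 1230 (cons (fin 1294 4 1037)
(mv 972 (cons (fin 1036 7 972)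
(mv 973 (cons (fin 908 7 908)
(fin 1166 4 973)))))))))))
(cons (mv 1292 (cons (fin 1228 5 1036)
(mv 1293 (cons (fin 1356 5 1100)
(mv 1358 (cons (fin 1294 4 1101)
(mv 1422 (cons (fin 1357 4 1165)
(mv 1038 (cons (fin 1102 6 1037)
(mv 972 (cons (fin 1036 7 972)
(mv 973 (cons (fin 1039 3 972)
(fin 908 7 908)))))))))))))))
(mv 1294 (cons (fin 1230 4 1037)
(mv 1293 (cons (fin 1358 4 1101)
(mv 1356 (cons (fin 1292 5 1100)
(mv 1420 (cons (fin 1357 5 1164)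
(mv 1038 (cons (fin 1102 6 1037)
(mv 972 (cons (fin 1036 7 972)
(mv 973 (cons (fin 1039 3 972)
(fin 908 7 908)))))))))))))))))
(cons (cons (mv 1292 (cons (fin 1228 5 1036)
(mv 1293 (cons (fin 1356 5 1100)
(mv 1102 (cons (fin 1038 6 1037)
(mv 1166 (cons (fin 1357 6 1101)
(mv 972 (cons (fin 1036 7 972)
(mv 973 (cons (fin 908 7 908)
(fin 1230 4 973)))))))))))))
(mv 1294 (cons (fin 1230 4 1037)
(mv 1293 (cons (fin 1358 4 1101)
(mv 1102 (cons (fin 1038 6 1037)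
(mv 1166 (cons (fin 1357 6 1101)
(mv 1036 (cons (fin 972 7 972)
(mv 1103 (cons (fin 1104 3 1036)
(mv 1164 (cons (fin 1163 2 1099)
(mv 1228 (cons (fin 973 5 972)
(mv 1227 (cons (fin 1167 1 1163)
(fin 1226 0 1226))))))))))))))))))))
(cons (mv 1292 (cons (fin 1228 5 1036)
(mv 1293 (cons (fin 1356 5 1100)
(mv 1294 (cons (fin 1358 4 1101)
(fin 1230 4 1037)))))))
(mv 1292 (cons (fin 1228 5 1036)
(mv 1230 (cons (fin 1294 4 1037)
(mv 972 (cons (fin 1036 7 972)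
(mv 973 (cons (fin 908 7 908)
(fin 1166 4 973)))))))))))))))
(cons (cons (mv 1229 (cons (cons (mv 1292 (cons (fin 1228 5 1036)
(mv 1356 (cons (fin 1293 5 1100)
(mv 1038 (cons (fin 974 6 973)
(mv 972 (cons (fin 1036 7 972)
(mv 973 (cons (fin 1039 3 972)
(fin 908 7 908)))))))))))
(mv 1228 (cons (fin 1292 5 1036)
(mv 972 (cons (fin 1036 7 972)
(mv 973 (cons (fin 1164 5 972)
(fin 908 7 908))))))))
(cons (mv 1036 (cons (fin 972 7 972)
(mv 1038 (cons (fin 974 6 973)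
(mv 1293 (cons (fin 1102 6 1037)
(mv 1356 (cons (fin 1292 5 1100)
(mv 1357 (cons (fin 1420 5 1164)
(mv 1358 (cons (fin 1422 4 1165)
(fin 1294 4 1101)))))))))))))
(cons (mv 1292 (cons (fin 1228 5 1036)
(mv 1293 (cons (fin 1356 5 1100)
(mv 1038 (cons (fin 1102 6 1037)
(fin 974 6 973)))))))
(mv 1036 (cons (fin 972 7 972)
(mv 1038 (cons (fin 974 6 973)
(mv 1102 (cons (fin 1293 6 1037)
(mv 1103 (cons (fin 1104 3 1036)
(fin 1035 0 1035)))))))))))))
(mv 1229 (cons (cons (mv 1292 (cons (fin 1228 5 1036)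
(mv 1356 (cons (fin 1293 5 1100)
(mv 1230 (cons (fin 1294 4 1037)
(mv 973 (cons (fin 1166 4 973)
(mv 974 (cons (fin 1038 6 973)
(fin 910 6 909)))))))))))
(mv 1292 (cons (fin 1228 5 1036)
(mv 1293 (cons (fin 1356 5 1100)
(mv 1038 (cons (fin 1102 6 1037)
(fin 974 6 973))))))))
(cons (mv 1292 (cons (fin 1228 5 1036)
(mv 1293 (cons (fin 1356 5 1100)
(mv 1294 (cons (fin 1358 4 1101)
(fin 1230 4 1037)))))))
(cons (mv 1294 (cons (fin 1230 4 1037)
(mv 1293 (cons (fin 1358 4 1101)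
(mv 1038 (cons (fin 1102 6 1037)
(fin 974 6 973)))))))
(mv 1292 (cons (fin 1228 5 1036)
(mv 1230 (cons (fin 1294 4 1037)
(mv 973 (cons (fin 1166 4 973)
(mv 974 (cons (fin 1038 6 973)
(fin 910 6 909))))))))))))))
(cons (mv 1229 (cons (cons (mv 1294 (cons (fin 1230 4 1037)
(mv 1358 (cons (fin 1293 4 1101)
(mv 1038 (cons (fin 974 6 973)
(mv 972 (cons (fin 1036 7 972)
(mv 973 (cons (fin 1039 3 972)
(fin 908 7 908)))))))))))
(mv 1230 (cons (fin 1294 4 1037)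
(mv 972 (cons (fin 1036 7 972)
(mv 973 (cons (fin 908 7 908)
(fin 1166 4 973))))))))
(cons (mv 1036 (cons (fin 972 7 972)
(mv 1038 (cons (fin 974 6 973)
(mv 1293 (cons (fin 1102 6 1037)
(mv 1356 (cons (fin 1292 5 1100)
(mv 1357 (cons (fin 1420 5 1164)
(mv 1358 (cons (fin 1422 4 1165)
(fin 1294 4 1101)))))))))))))
(cons (mv 1036 (cons (fin 972 7 972)
(mv 1038 (cons (fin 974 6 973)
(mv 1102 (cons (fin 1293 6 1037)
(mv 1103 (cons (fin 1104 3 1036)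
(fin 1035 0 1035)))))))))
(mv 1294 (cons (fin 1230 4 1037)
(mv 1293 (cons (fin 1358 4 1101)
(mv 1038 (cons (fin 1102 6 1037)
(fin 974 6 973)))))))))))
(mv 973 (cons (cons (mv 1228 (cons (fin 1164 5 972)
(mv 1292 (cons (fin 1229 5 1036)
(mv 1230 (cons (fin 1166 4 973)
(mv 972 (cons (fin 908 7 908)
(mv 974 (cons (fin 910 6 909)
(mv 975 (cons (fin 1039 0 972)
(mv 1036 (cons (fin 1035 1 971)
(fin 976 1 972)))))))))))))))
(mv 1228 (cons (fin 1164 5 972)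
(mv 1229 (cons (fin 1292 5 1036)
(mv 1230 (cons (fin 1294 4 1037)
(fin 1166 4 973))))))))
(cons (mv 1228 (cons (fin 1164 5 972)
(mv 1292 (cons (fin 1229 5 1036)
(mv 972 (cons (fin 908 7 908)
(mv 974 (cons (fin 910 6 909)
(mv 975 (cons (fin 1039 0 972)
(mv 1036 (cons (fin 1035 1 971)
(fin 976 1 972)))))))))))))
(cons (mv 1230 (cons (fin 1166 4 973)
(mv 1294 (cons (fin 1229 4 1037)
(mv 972 (cons (fin 908 7 908)
(mv 974 (cons (fin 910 6 909)
(mv 975 (cons (fin 1039 0 972)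
(mv 1036 (cons (fin 1035 1 971)
(fin 976 1 972)))))))))))))
(mv 1228 (cons (fin 1164 5 972)
(mv 1230 (cons (fin 1166 4 973)
(mv 972 (cons (fin 908 7 908)
(mv 974 (cons (fin 910 6 909)
(mv 975 (cons (fin 1039 0 972)
(mv 1036 (cons (fin 1035 1 971)
(fin 976 1 972)))))))))))))))))))))
(mv 1039 (cons (cons (mv 1038 (cons (fin 1100 1 1036)
(mv 1104 (cons (fin 1105 0 1037)
(mv 1103 (cons (fin 1036 0 1036)
(mv 972 (cons (fin 973 3 972)
(mv 976 (cons (fin 977 2 973)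
(mv 1167 (cons (fin 912 5 911)
(fin 1231 6 975)))))))))))))
(cons (mv 1103 (cons (cons (mv 1102 (cons (fin 1100 2 1036)
(mv 1104 (cons (fin 1036 3 1036)
(mv 1168 (cons (fin 1169 0 1101)
(mv 1232 (cons (fin 1296 7 1039)
(fin 975 7 975)))))))))
(cons (mv 976 (cons (cons (mv 1167 (cons (fin 1231 6 975)
(mv 912 (cons (fin 1104 5 911)
(fin 848 5 847)))))
(mv 1167 (cons (fin 1231 6 975)
(mv 975 (cons (cons (mv 1230 (cons (fin 1166 5 974)
(mv 1232 (cons (fin 1168 4 975)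
(mv 974 (cons (fin 910 7 910)
(mv 973 (cons (fin 1036 1 972)
(fin 972 0 972)))))))))
(mv 1230 (cons (fin 1166 5 974)
(mv 974 (cons (fin 910 7 910)
(mv 973 (cons (fin 1036 1 972)
(fin 972 0 972))))))))
(cons (mv 1230 (cons (fin 1166 5 974)
(mv 1168 (cons (fin 1232 4 975)
(mv 1104 (cons (fin 911 7 911)
(mv 1169 (cons (fin 1233 4 976)
(mv 1170 (cons (fin 1171 3 1103)
(mv 1234 (cons (fin 1235 0 1167)
(mv 1106 (cons (fin 1107 2 1103)
(mv 977 (cons (fin 913 6 912)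
(mv 978 (cons (fin 979 1 975)
(mv 1042 (cons (fin 1043 0 975)
(mv 914 (cons (fin 915 2 911)
(fin 1105 5 913)))))))))))))))))))))))
(mv 1232 (cons (fin 1168 4 975)
(mv 974 (cons (fin 910 7 910)
(mv 973 (cons (fin 1036 1 972)
(fin 972 0 972)))))))))))))
(cons (mv 912 (cons (fin 848 5 847)
(mv 1104 (cons (mv 1169 (cons (fin 1105 4 912)
(mv 1168 (cons (fin 1233 4 976)
(mv 1232 (cons (fin 1296 7 1039)
(fin 975 7 975)))))))
(cons (mv 911 (cons (fin 847 7 847)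
(mv 1168 (cons (fin 975 7 911)
(mv 913 (cons (fin 977 6 912)
(fin 849 6 848)))))))
(mv 1105 (cons (fin 1169 4 912)
(mv 1106 (cons (fin 1107 3 1039)
(mv 1170 (cons (fin 1171 0 1103)
(mv 1042 (cons (fin 1043 2 1039)
(mv 911 (cons (fin 847 7 847)
(mv 913 (cons (fin 849 6 848)
(mv 978 (cons (fin 977 7 913)
(mv 979 (cons (fin 914 0 911)
(fin 915 6 914))))))))))))))))))))))
(mv 1167 (cons (fin 1231 6 975)
(mv 912 (cons (fin 848 5 847)
(fin 975 6 911))))))))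
(mv 1102 (cons (fin 1100 2 1036)
(mv 1167 (cons (cons (mv 1231 (cons (fin 976 6 975)
(mv 1294 (cons (fin 1230 5 1038)
(mv 1358 (cons (fin 1295 5 1102)
(mv 1232 (cons (fin 1296 4 1039)
(mv 1168 (cons (fin 975 4 975)
(mv 1169 (cons (fin 1166 3 1101)
(fin 1170 3 1102)))))))))))))
(mv 975 (cons (mv 1166 (cons (fin 1230 5 974)
(fin 911 5 910)))
(mv 1232 (cons (fin 1168 4 975)
(mv 974 (cons (fin 910 7 910)
(mv 973 (cons (fin 972 0 972)
(mv 976 (cons (fin 1036 1 972)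
(fin 912 6 911))))))))))))
(cons (mv 1168 (cons (mv 1169 (cons (fin 1166 3 1101)
(fin 1170 3 1102)))
(mv 1232 (cons (fin 975 4 975)
(mv 1296 (cons (fin 1360 7 1103)
(fin 1231 4 1039)))))))
(cons (mv 1231 (cons (fin 976 6 975)
(mv 1294 (cons (fin 1230 5 1038)
(mv 1295 (cons (fin 1358 5 1102)
(mv 1296 (cons (fin 1360 4 1103)
(fin 1232 4 1039)))))))))
(mv 1231 (cons (fin 976 6 975)
(mv 1294 (cons (fin 1230 5 1038)
(mv 1295 (cons (fin 1358 5 1102)
(mv 1359 (cons (fin 1166 7 1102)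
(mv 1360 (cons (fin 1424 4 1167)
(fin 1296 4 1103)))))))))))))))))))
(cons (cons (mv 1102 (cons (fin 1100 2 1036)
(mv 976 (cons (cons (mv 1167 (cons (fin 1231 6 975)
(mv 912 (cons (fin 1104 5 911)
(fin 848 5 847)))))
(mv 912 (cons (fin 848 5 847)
(mv 1104 (cons (mv 1169 (cons (fin 1168 0 1101)
(fin 1105 4 912)))
(cons (mv 911 (cons (fin 847 7 847)
(mv 975 (cons (fin 1166 5 910)
(fin 1168 7 911)))))
(mv 1169 (cons (fin 1105 4 912)
(mv 911 (cons (fin 847 7 847)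
(mv 975 (cons (fin 1166 5 910)
(mv 910 (cons (fin 846 7 846)
(mv 977 (cons (fin 978 3 910)
(mv 913 (cons (fin 849 6 848)
(mv 974 (cons (fin 973 1 909)
(fin 914 1 910)))))))))))))))))))))
(cons (mv 1167 (cons (fin 1231 6 975)
(mv 1168 (cons (mv 1169 (cons (fin 1166 3 1101)
(fin 1170 3 1102)))
(mv 1232 (cons (fin 975 4 975)
(mv 1296 (cons (fin 1360 7 1103)
(fin 1104 7 1039)))))))))
(mv 1167 (cons (fin 1231 6 975)
(mv 912 (cons (fin 848 5 847)
(fin 975 6 911))))))))))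
(mv 1102 (cons (fin 1100 2 1036)
(mv 1104 (cons (fin 1036 3 1036)
(mv 1168 (cons (fin 1169 0 1101)
(mv 1232 (cons (fin 1296 7 1039)
(mv 1297 (cons (fin 1233 4 1040)
(mv 1231 (cons (fin 1295 5 1039)
(mv 976 (cons (fin 1167 5 975)
(mv 912 (cons (fin 848 5 847)
(mv 913 (cons (fin 977 6 912)
(fin 849 6 848))))))))))))))))))))
(cons (mv 1102 (cons (fin 1100 2 1036)
(mv 976 (cons (cons (mv 1231 (cons (fin 1167 6 975)
(mv 1104 (cons (fin 1036 3 1036)
(mv 912 (cons (fin 848 5 847)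
(mv 1169 (cons (fin 1105 4 912)
(mv 911 (cons (fin 847 7 847)
(mv 975 (cons (fin 1166 5 910)
(mv 910 (cons (fin 846 7 846)
(mv 977 (cons (fin 978 3 910)
(mv 913 (cons (fin 849 6 848)
(mv 974 (cons (fin 973 1 909)
(fin 914 1 910)))))))))))))))))))))
(mv 1167 (cons (fin 1231 6 975)
(mv 1036 (cons (fin 1104 3 1036)
(mv 1034 (cons (fin 1035 0 1034)
(mv 975 (cons (mv 1166 (cons (fin 1230 5 974)
(fin 911 5 910)))
(mv 974 (cons (fin 973 1 972)
(fin 910 7 910))))))))))))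
(cons (mv 1104 (cons (fin 1036 3 1036)
(mv 912 (cons (fin 848 5 847)
(mv 1169 (cons (fin 1105 4 912)
(mv 911 (cons (fin 847 7 847)
(mv 975 (cons (fin 1166 5 910)
(mv 910 (cons (fin 846 7 846)
(mv 977 (cons (fin 978 3 910)
(mv 913 (cons (fin 849 6 848)
(mv 974 (cons (fin 973 1 909)
(fin 914 1 910)))))))))))))))))))
(cons (mv 1167 (cons (fin 1231 6 975)
(mv 912 (cons (fin 848 5 847)
(fin 975 6 911)))))
(mv 1231 (cons (fin 1167 6 975)
(mv 1104 (cons (fin 1036 3 1036)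
(mv 912 (cons (fin 848 5 847)
(mv 1105 (cons (fin 1169 4 912)
(mv 1106 (cons (fin 1107 3 1039)
(mv 1170 (cons (fin 1171 0 1103)
(mv 1042 (cons (fin 1043 2 1039)
(mv 911 (cons (fin 847 7 847)
(mv 913 (cons (fin 849 6 848)
(mv 978 (cons (fin 977 7 913)
(mv 979 (cons (fin 914 0 911)
(fin 915 6 914)))))))))))))))))))))))))))))
(mv 1100 (cons (fin 1102 2 1036)
(mv 1167 (cons (cons (mv 1231 (cons (fin 976 6 975)
(mv 1294 (cons (fin 1230 5 1038)
(mv 1295 (cons (fin 1358 5 1102)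
(fin 1104 6 1039)))))))
(mv 975 (cons (cons (mv 1230 (cons (fin 1166 5 974)
(mv 1232 (cons (fin 1168 4 975)
(mv 974 (cons (fin 910 7 910)
(mv 973 (cons (fin 972 0 972)
(mv 976 (cons (fin 1036 1 972)
(fin 912 6 911)))))))))))
(cons (mv 1230 (cons (fin 1166 5 974)
(mv 1232 (cons (fin 1168 4 975)
(mv 910 (cons (fin 974 7 910)
(mv 911 (cons (fin 846 7 846)
(mv 847 (cons (fin 1104 4 847)
(mv 783 (cons (fin 976 4 783)
(mv 784 (cons (fin 848 6 783)
(fin 720 6 719)))))))))))))))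
(mv 1230 (cons (fin 1166 5 974)
(mv 1232 (cons (fin 1168 4 975)
(mv 910 (cons (fin 974 7 910)
(mv 911 (cons (fin 846 7 846)
(mv 847 (cons (fin 1104 4 847)
(mv 848 (cons (fin 912 6 847)
(fin 784 6 783)))))))))))))))
(cons (cons (mv 1230 (cons (fin 1166 5 974)
(mv 974 (cons (fin 910 7 910)
(mv 973 (cons (fin 972 0 972)
(mv 976 (cons (fin 1036 1 972)
(fin 912 6 911)))))))))
(mv 1230 (cons (fin 1166 5 974)
(mv 1232 (cons (fin 1168 4 975)
(mv 912 (cons (fin 976 6 911)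
(mv 911 (cons (fin 848 6 847)
(mv 846 (cons (fin 910 7 846)
(mv 847 (cons (fin 782 7 782)
(fin 1104 4 847))))))))))))))
(cons (mv 1230 (cons (fin 1166 5 974)
(mv 1168 (cons (fin 1232 4 975)
(mv 911 (cons (fin 1104 4 911)
(mv 912 (cons (fin 976 6 911)
(fin 848 6 847)))))))))
(mv 1232 (cons (fin 1168 4 975)
(mv 974 (cons (fin 910 7 910)
(mv 973 (cons (fin 972 0 972)
(mv 976 (cons (fin 1036 1 972)
(fin 912 6 911))))))))))))))
(cons (mv 975 (cons (cons (mv 1230 (cons (fin 1166 5 974)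
(mv 1294 (cons (fin 1231 5 1038)
(mv 1232 (cons (fin 1168 4 975)
(mv 910 (cons (fin 974 7 910)
(mv 911 (cons (fin 846 7 846)
(mv 847 (cons (fin 1104 4 847)
(mv 848 (cons (fin 912 6 847)
(fin 784 6 783)))))))))))))))
(cons (mv 1230 (cons (fin 1166 5 974)
(mv 1294 (cons (fin 1231 5 1038)
(mv 910 (cons (fin 974 7 910)
(mv 911 (cons (fin 846 7 846)
(mv 847 (cons (fin 1104 4 847)
(mv 848 (cons (fin 912 6 847)
(fin 784 6 783)))))))))))))
(mv 1230 (cons (fin 1166 5 974)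
(mv 1294 (cons (fin 1231 5 1038)
(mv 1168 (cons (fin 1232 4 975)
(mv 911 (cons (fin 1104 4 911)
(mv 846 (cons (fin 910 7 846)
(mv 847 (cons (fin 782 7 782)
(mv 848 (cons (fin 912 6 847)
(fin 784 6 783)))))))))))))))))
(cons (mv 1232 (cons (fin 1168 4 975)
(mv 1296 (cons (fin 1231 4 1039)
(mv 910 (cons (fin 974 7 910)
(mv 911 (cons (fin 846 7 846)
(mv 847 (cons (fin 1104 4 847)
(mv 848 (cons (fin 912 6 847)
(fin 784 6 783)))))))))))))
(cons (mv 1230 (cons (fin 1166 5 974)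
(mv 1231 (cons (fin 1294 5 1038)
(mv 1232 (cons (fin 1296 4 1039)
(fin 1168 4 975)))))))
(mv 1230 (cons (fin 1166 5 974)
(mv 1232 (cons (fin 1168 4 975)
(mv 910 (cons (fin 974 7 910)
(mv 911 (cons (fin 846 7 846)
(mv 847 (cons (fin 1104 4 847)
(mv 848 (cons (fin 912 6 847)
(fin 784 6 783)))))))))))))))))
(cons (mv 1231 (cons (fin 976 6 975)
(mv 1294 (cons (fin 1230 5 1038)
(mv 1295 (cons (fin 1358 5 1102)
(mv 1296 (cons (fin 1360 4 1103)
(fin 1232 4 1039)))))))))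
(mv 1231 (cons (fin 976 6 975)
(mv 1295 (cons (fin 1104 6 1039)
(mv 1296 (cons (fin 1360 4 1103)
(fin 1232 4 1039)))))))))))))))))
(mv 1038 (cons (cons (mv 1104 (cons (fin 1105 0 1037)
(mv 1103 (cons (fin 1036 0 1036)
(mv 972 (cons (fin 973 3 972)
(mv 976 (cons (fin 977 2 973)
(mv 1167 (cons (fin 912 5 911)
(fin 1231 6 975)))))))))))
(mv 972 (cons (fin 973 3 972)
(mv 1036 (cons (fin 971 3 971)
(mv 976 (cons (fin 975 2 972)
(fin 977 2 973))))))))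
(cons (mv 1104 (cons (fin 1105 0 1037)
(mv 1036 (cons (fin 1103 0 1036)
(mv 972 (cons (fin 971 3 971)
(fin 973 3 972)))))))
(cons (mv 1104 (cons (fin 1105 0 1037)
(mv 1103 (cons (fin 1036 0 1036)
(mv 976 (cons (fin 977 2 973)
(mv 1167 (cons (fin 912 5 911)
(fin 1231 6 975)))))))))
(mv 1104 (cons (fin 1105 0 1037)
(mv 972 (cons (fin 973 3 972)
(mv 976 (cons (fin 977 2 973)
(mv 1168 (cons (mv 975 (cons (fin 1232 7 975)
(fin 911 7 911)))
(cons (mv 1231 (cons (fin 1167 5 975)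
(mv 1232 (cons (fin 1295 5 1039)
(mv 1233 (cons (fin 1297 4 1040)
(fin 1169 4 976)))))))
(mv 1231 (cons (fin 1167 5 975)
(mv 1233 (cons (fin 1169 4 976)
(mv 911 (cons (fin 975 7 911)
(mv 912 (cons (fin 847 7 847)
(mv 848 (cons (fin 1103 5 847)
(mv 849 (cons (fin 913 6 848)
(fin 785 6 784))))))))))))))))))))))))))))
(cons (cons (mv 1038 (cons (fin 1100 1 1036)
(mv 972 (cons (fin 973 3 972)
(mv 1036 (cons (fin 971 3 971)
(mv 976 (cons (fin 975 2 972)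
(fin 977 2 973)))))))))
(mv 1038 (cons (fin 1100 1 1036)
(mv 1104 (cons (fin 1105 0 1037)
(mv 1036 (cons (fin 1103 0 1036)
(mv 972 (cons (fin 971 3 971)
(fin 973 3 972))))))))))
(cons (mv 1038 (cons (fin 1100 1 1036)
(mv 1104 (cons (fin 1105 0 1037)
(mv 1103 (cons (fin 1036 0 1036)
(mv 976 (cons (fin 977 2 973)
(mv 1167 (cons (fin 912 5 911)
(fin 1231 6 975)))))))))))
(mv 1038 (cons (fin 1100 1 1036)
(mv 1104 (cons (fin 1105 0 1037)
(mv 972 (cons (fin 973 3 972)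
(mv 976 (cons (fin 977 2 973)
(mv 1168 (cons (mv 975 (cons (fin 1232 7 975)
(fin 911 7 911)))
(cons (mv 1231 (cons (fin 1167 5 975)
(mv 1232 (cons (fin 1295 5 1039)
(mv 1233 (cons (fin 1297 4 1040)
(fin 1169 4 976)))))))
(mv 1231 (cons (fin 1167 5 975)
(mv 1233 (cons (fin 1169 4 976)
(mv 911 (cons (fin 975 7 911)
(mv 912 (cons (fin 847 7 847)
(mv 848 (cons (fin 1103 5 847)
(mv 849 (cons (fin 913 6 848)
(fin 785 6 784)))))))))))))))))))))))))))))))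
(cons (cons (mv 1039 (cons (cons (mv 1038 (cons (fin 1100 1 1036)
(mv 1104 (cons (fin 1105 0 1037)
(mv 1103 (cons (fin 1036 0 1036)
(mv 976 (cons (fin 977 2 973)
(mv 1167 (cons (fin 912 5 911)
(fin 1231 6 975)))))))))))
(cons (mv 1103 (cons (cons (mv 1102 (cons (fin 1100 2 1036)
(mv 1104 (cons (fin 1036 3 1036)
(mv 1164 (cons (fin 1165 1 1100)
(mv 1168 (cons (fin 1169 0 1101)
(mv 1232 (cons (fin 1296 7 1039)
(fin 975 7 975)))))))))))
(cons (mv 1167 (cons (cons (mv 1231 (cons (fin 976 6 975)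
(mv 1294 (cons (fin 1230 5 1038)
(mv 1295 (cons (fin 1358 5 1102)
(fin 1104 6 1039)))))))
(mv 975 (cons (cons (cons (mv 1230 (cons (fin 1166 5 974)
(mv 1232 (cons (fin 1168 4 975)
(mv 976 (cons (fin 912 6 911)
(mv 910 (cons (fin 974 7 910)
(mv 911 (cons (fin 846 7 846)
(mv 847 (cons (fin 1104 4 847)
(fin 783 4 783)))))))))))))
(mv 1230 (cons (fin 1166 5 974)
(mv 1232 (cons (fin 1168 4 975)
(mv 910 (cons (fin 974 7 910)
(mv 911 (cons (fin 846 7 846)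
(mv 847 (cons (fin 1104 4 847)
(mv 783 (cons (fin 976 4 783)
(mv 784 (cons (fin 848 6 783)
(fin 720 6 719))))))))))))))))
(cons (mv 1230 (cons (fin 1166 5 974)
(mv 976 (cons (fin 912 6 911)
(mv 910 (cons (fin 974 7 910)
(mv 911 (cons (fin 846 7 846)
(mv 847 (cons (fin 1104 4 847)
(fin 783 4 783)))))))))))
(mv 1230 (cons (fin 1166 5 974)
(mv 1232 (cons (fin 1168 4 975)
(mv 910 (cons (fin 974 7 910)
(mv 911 (cons (fin 846 7 846)
(mv 847 (cons (fin 1104 4 847)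
(mv 848 (cons (fin 912 6 847)
(fin 784 6 783)))))))))))))))
(cons (cons (mv 1230 (cons (fin 1166 5 974)
(mv 1168 (cons (fin 1232 4 975)
(mv 1104 (cons (fin 911 4 911)
(mv 976 (cons (fin 912 5 911)
(mv 1169 (cons (fin 1233 4 976)
(mv 1170 (cons (fin 1171 3 1103)
(mv 1234 (cons (fin 1235 0 1167)
(mv 1106 (cons (fin 1107 2 1103)
(mv 977 (cons (fin 913 6 912)
(mv 978 (cons (fin 979 1 975)
(mv 1042 (cons (fin 1043 0 975)
(mv 914 (cons (fin 915 2 911)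
(fin 1105 5 913)))))))))))))))))))))))))
(mv 1232 (cons (fin 1168 4 975)
(mv 976 (cons (fin 912 6 911)
(mv 910 (cons (fin 974 7 910)
(mv 911 (cons (fin 846 7 846)
(mv 847 (cons (fin 1104 4 847)
(fin 783 4 783))))))))))))
(cons (mv 1230 (cons (fin 1166 5 974)
(mv 1232 (cons (fin 1168 4 975)
(mv 910 (cons (fin 974 7 910)
(mv 911 (cons (fin 846 7 846)
(mv 912 (cons (fin 976 6 911)
(fin 848 6 847)))))))))))
(mv 1166 (cons (fin 1230 5 974)
(mv 1168 (cons (fin 1232 4 975)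
(mv 1165 (cons (fin 1100 3 1100)
(mv 1104 (cons (fin 1164 2 1100)
(fin 1105 2 1101))))))))))))))
(cons (mv 975 (cons (cons (mv 1230 (cons (fin 1166 5 974)
(mv 1294 (cons (fin 1231 5 1038)
(mv 1229 (cons (fin 1165 4 1037)
(mv 1232 (cons (fin 1168 4 975)
(mv 910 (cons (fin 974 7 910)
(mv 911 (cons (fin 846 7 846)
(mv 847 (cons (fin 1104 4 847)
(mv 848 (cons (fin 912 6 847)
(fin 784 6 783)))))))))))))))))
(mv 1230 (cons (fin 1166 5 974)
(mv 1294 (cons (fin 1231 5 1038)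
(mv 1229 (cons (fin 1165 4 1037)
(mv 910 (cons (fin 974 7 910)
(mv 911 (cons (fin 846 7 846)
(mv 847 (cons (fin 1104 4 847)
(mv 848 (cons (fin 912 6 847)
(fin 784 6 783))))))))))))))))
(cons (mv 1232 (cons (fin 1168 4 975)
(mv 1296 (cons (fin 1231 4 1039)
(mv 910 (cons (fin 974 7 910)
(mv 911 (cons (fin 846 7 846)
(mv 847 (cons (fin 1104 4 847)
(mv 848 (cons (fin 912 6 847)
(fin 784 6 783)))))))))))))
(cons (mv 1230 (cons (fin 1166 5 974)
(mv 1231 (cons (fin 1294 5 1038)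
(mv 1232 (cons (fin 1296 4 1039)
(fin 1168 4 975)))))))
(mv 1230 (cons (fin 1166 5 974)
(mv 1232 (cons (fin 1168 4 975)
(mv 910 (cons (fin 974 7 910)
(mv 911 (cons (fin 846 7 846)
(mv 847 (cons (fin 1104 4 847)
(mv 848 (cons (fin 912 6 847)
(fin 784 6 783)))))))))))))))))
(cons (mv 1231 (cons (fin 976 6 975)
(mv 1294 (cons (fin 1230 5 1038)
(mv 1295 (cons (fin 1358 5 1102)
(mv 1296 (cons (fin 1360 4 1103)
(fin 1232 4 1039)))))))))
(mv 1231 (cons (fin 976 6 975)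
(mv 1295 (cons (fin 1104 6 1039)
(mv 1296 (cons (fin 1360 4 1103)
(fin 1232 4 1039)))))))))))
(mv 976 (cons (cons (mv 1167 (cons (fin 1231 6 975)
(mv 912 (cons (fin 1104 5 911)
(fin 848 5 847)))))
(mv 912 (cons (fin 848 5 847)
(mv 1104 (cons (cons (mv 1169 (cons (fin 1105 4 912)
(mv 1168 (cons (fin 1102 0 1101)
(fin 1233 4 976)))))
(mv 1169 (cons (fin 1105 4 912)
(mv 1168 (cons (fin 1233 4 976)
(mv 1232 (cons (fin 1296 7 1039)
(fin 975 7 975))))))))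
(cons (mv 1102 (cons (fin 1036 3 1036)
(mv 1164 (cons (fin 1165 1 1100)
(mv 911 (cons (fin 847 7 847)
(mv 975 (cons (fin 1166 5 910)
(fin 1168 7 911)))))))))
(mv 1169 (cons (fin 1105 4 912)
(mv 1102 (cons (fin 1036 3 1036)
(mv 1164 (cons (fin 1165 1 1100)
(mv 911 (cons (fin 847 7 847)
(mv 975 (cons (fin 1166 5 910)
(mv 910 (cons (fin 846 7 846)
(mv 977 (cons (fin 978 3 910)
(mv 913 (cons (fin 849 6 848)
(mv 914 (cons (fin 974 1 910)
(fin 915 1 911)))))))))))))))))))))))))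
(cons (mv 1167 (cons (fin 1231 6 975)
(mv 975 (cons (cons (mv 1230 (cons (fin 1166 5 974)
(mv 1232 (cons (fin 1168 4 975)
(mv 910 (cons (fin 974 7 910)
(mv 911 (cons (fin 846 7 846)
(mv 847 (cons (fin 1104 4 847)
(fin 783 4 783)))))))))))
(cons (mv 1230 (cons (fin 1166 5 974)
(mv 910 (cons (fin 974 7 910)
(mv 911 (cons (fin 846 7 846)
(mv 847 (cons (fin 1104 4 847)
(fin 783 4 783)))))))))
(mv 1232 (cons (fin 1168 4 975)
(mv 910 (cons (fin 974 7 910)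
(mv 911 (cons (fin 846 7 846)
(mv 847 (cons (fin 1104 4 847)
(fin 783 4 783)))))))))))
(cons (mv 1230 (cons (fin 1166 5 974)
(mv 1168 (cons (fin 1232 4 975)
(mv 1104 (cons (fin 911 7 911)
(mv 1169 (cons (fin 1102 0 1101)
(fin 1233 4 976)))))))))
(cons (mv 1166 (cons (fin 1230 5 974)
(mv 1168 (cons (fin 1232 4 975)
(mv 1169 (cons (fin 1102 3 1101)
(mv 1233 (cons (fin 1234 0 1166)
(fin 1104 4 976)))))))))
(mv 1232 (cons (fin 1168 4 975)
(mv 1166 (cons (fin 1230 5 974)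
(mv 910 (cons (fin 974 7 910)
(mv 911 (cons (fin 1102 5 910)
(fin 846 7 846)))))))))))))))
(mv 1167 (cons (fin 1231 6 975)
(mv 912 (cons (fin 848 5 847)
(fin 975 6 911))))))))))
(cons (cons (mv 1100 (cons (fin 1102 2 1036)
(mv 1167 (cons (cons (mv 1231 (cons (fin 976 6 975)
(mv 1294 (cons (fin 1230 5 1038)
(mv 1295 (cons (fin 1358 5 1102)
(mv 1296 (cons (fin 1360 4 1103)
(fin 1232 4 1039)))))))))
(mv 975 (cons (cons (mv 1230 (cons (fin 1166 5 974)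
(mv 1232 (cons (fin 1168 4 975)
(mv 910 (cons (fin 974 7 910)
(mv 911 (cons (fin 846 7 846)
(mv 912 (cons (fin 976 6 911)
(fin 848 6 847)))))))))))
(mv 1166 (cons (fin 1230 5 974)
(mv 1168 (cons (fin 1165 3 1100)
(fin 1232 4 975))))))
(cons (mv 1232 (cons (fin 1168 4 975)
(mv 910 (cons (fin 974 7 910)
(mv 911 (cons (fin 846 7 846)
(mv 912 (cons (fin 976 6 911)
(fin 848 6 847)))))))))
(mv 1230 (cons (fin 1166 5 974)
(mv 910 (cons (fin 974 7 910)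
(mv 911 (cons (fin 846 7 846)
(mv 912 (cons (fin 976 6 911)
(fin 848 6 847)))))))))))))
(cons (mv 1166 (cons (mv 1230 (cons (fin 975 5 974)
(mv 1294 (cons (fin 1231 5 1038)
(fin 1358 6 1102)))))
(mv 1165 (cons (fin 1168 3 1100)
(mv 1099 (cons (fin 1164 3 1099)
(fin 1098 0 1098)))))))
(mv 976 (cons (fin 1231 6 975)
(mv 912 (cons (fin 848 5 847)
(fin 975 6 911))))))))))
(mv 1102 (cons (fin 1100 2 1036)
(mv 1104 (cons (fin 1036 3 1036)
(mv 1164 (cons (fin 1165 1 1100)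
(mv 1168 (cons (fin 1169 0 1101)
(mv 1232 (cons (fin 1296 7 1039)
(mv 1297 (cons (fin 1233 4 1040)
(mv 1231 (cons (fin 1295 5 1039)
(mv 976 (cons (fin 1167 5 975)
(mv 912 (cons (fin 848 5 847)
(mv 913 (cons (fin 977 6 912)
(fin 849 6 848))))))))))))))))))))))
(cons (mv 1102 (cons (fin 1100 2 1036)
(mv 1104 (cons (fin 1036 3 1036)
(mv 1165 (cons (fin 1164 1 1100)
(mv 1166 (cons (fin 1105 1 1101)
(mv 1230 (cons (fin 1294 7 1037)
(mv 975 (cons (fin 1167 5 974)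
(fin 911 5 910)))))))))))))
(mv 1102 (cons (fin 1100 2 1036)
(mv 1104 (cons (fin 1036 3 1036)
(mv 1168 (cons (fin 1169 0 1101)
(mv 1232 (cons (fin 1296 7 1039)
(fin 975 7 975)))))))))))))
(mv 1038 (cons (cons (mv 1104 (cons (fin 1105 0 1037)
(mv 1103 (cons (fin 1036 0 1036)
(mv 976 (cons (fin 977 2 973)
(mv 1167 (cons (fin 912 5 911)
(fin 1231 6 975)))))))))
(mv 976 (cons (fin 977 2 973)
(mv 1036 (cons (fin 975 2 972)
(mv 971 (cons (fin 972 3 971)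
(mv 1035 (cons (fin 970 3 970)
(mv 1102 (cons (fin 1034 0 1034)
(fin 1103 0 1035))))))))))))
(cons (mv 1104 (cons (fin 1105 0 1037)
(mv 1036 (cons (fin 1103 0 1036)
(mv 971 (cons (fin 972 3 971)
(mv 1035 (cons (fin 970 3 970)
(mv 1098 (cons (fin 1099 1 1034)
(mv 1034 (cons (fin 1097 1 1033)
(fin 1102 0 1034)))))))))))))
(cons (mv 1104 (cons (fin 1105 0 1037)
(mv 976 (cons (fin 977 2 973)
(mv 1168 (cons (mv 975 (cons (fin 1232 7 975)
(fin 911 7 911)))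
(cons (mv 1231 (cons (fin 1167 5 975)
(mv 1232 (cons (fin 1295 5 1039)
(mv 1233 (cons (fin 1297 4 1040)
(fin 1169 4 976)))))))
(mv 1231 (cons (fin 1167 5 975)
(mv 1233 (cons (fin 1169 4 976)
(mv 911 (cons (fin 975 7 911)
(mv 912 (cons (fin 847 7 847)
(mv 848 (cons (fin 1103 5 847)
(mv 849 (cons (fin 913 6 848)
(fin 785 6 784))))))))))))))))))))
(mv 1104 (cons (fin 1105 0 1037)
(mv 976 (cons (fin 977 2 973)
(mv 1036 (cons (fin 975 2 972)
(mv 971 (cons (fin 972 3 971)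
(mv 1035 (cons (fin 970 3 970)
(mv 1098 (cons (fin 1099 1 1034)
(mv 1034 (cons (fin 1097 1 1033)
(fin 1102 0 1034)))))))))))))))))))))
(cons (mv 1100 (cons (fin 1038 1 1036)
(mv 1103 (cons (fin 1102 2 1036)
(mv 1167 (cons (cons (mv 1231 (cons (fin 976 6 975)
(mv 1294 (cons (fin 1230 5 1038)
(mv 1295 (cons (fin 1358 5 1102)
(mv 1296 (cons (fin 1360 4 1103)
(fin 1232 4 1039)))))))))
(mv 975 (cons (cons (mv 1230 (cons (fin 1166 5 974)
(mv 1232 (cons (fin 1168 4 975)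
(mv 910 (cons (fin 974 7 910)
(mv 911 (cons (fin 846 7 846)
(mv 912 (cons (fin 976 6 911)
(fin 848 6 847)))))))))))
(mv 1166 (cons (fin 1230 5 974)
(mv 1168 (cons (fin 1165 3 1100)
(fin 1232 4 975))))))
(cons (mv 1232 (cons (fin 1168 4 975)
(mv 910 (cons (fin 974 7 910)
(mv 911 (cons (fin 846 7 846)
(mv 912 (cons (fin 976 6 911)
(fin 848 6 847)))))))))
(mv 1230 (cons (fin 1166 5 974)
(mv 910 (cons (fin 974 7 910)
(mv 911 (cons (fin 846 7 846)
(mv 912 (cons (fin 976 6 911)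
(fin 848 6 847)))))))))))))
(cons (mv 1166 (cons (mv 1230 (cons (fin 975 5 974)
(mv 1294 (cons (fin 1231 5 1038)
(fin 1358 6 1102)))))
(mv 1165 (cons (fin 1168 3 1100)
(mv 1099 (cons (fin 1164 3 1099)
(fin 1098 0 1098)))))))
(mv 976 (cons (fin 1231 6 975)
(mv 912 (cons (fin 848 5 847)
(fin 975 6 911))))))))))))
(cons (mv 1038 (cons (fin 1100 1 1036)
(mv 1104 (cons (fin 1105 0 1037)
(mv 976 (cons (fin 977 2 973)
(mv 1036 (cons (fin 975 2 972)
(mv 971 (cons (fin 972 3 971)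
(mv 1035 (cons (fin 970 3 970)
(mv 1098 (cons (fin 1099 1 1034)
(mv 1034 (cons (fin 1097 1 1033)
(fin 1102 0 1034)))))))))))))))))
(mv 1038 (cons (fin 1100 1 1036)
(mv 1104 (cons (fin 1105 0 1037)
(mv 1036 (cons (fin 1103 0 1036)
(mv 971 (cons (fin 972 3 971)
(mv 1035 (cons (fin 970 3 970)
(mv 1098 (cons (fin 1099 1 1034)
(mv 1034 (cons (fin 1097 1 1033)
(fin 1102 0 1034)))))))))))))))))))
(mv 1038 (cons (cons (cons (mv 1039 (cons (fin 1100 1 1036)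
(mv 1104 (cons (fin 1105 0 1037)
(mv 972 (cons (fin 973 3 972)
(mv 976 (cons (fin 977 2 973)
(mv 1168 (cons (mv 975 (cons (fin 1232 7 975)
(fin 911 7 911)))
(cons (mv 1231 (cons (fin 1167 5 975)
(mv 1232 (cons (fin 1295 5 1039)
(mv 1233 (cons (fin 1297 4 1040)
(fin 1169 4 976)))))))
(mv 1231 (cons (fin 1167 5 975)
(mv 1233 (cons (fin 1169 4 976)
(mv 911 (cons (fin 975 7 911)
(mv 912 (cons (fin 847 7 847)
(mv 848 (cons (fin 1103 5 847)
(mv 849 (cons (fin 913 6 848)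
(fin 785 6 784))))))))))))))))))))))))
(mv 974 (cons (cons (mv 1165 (cons (fin 1229 6 973)
(mv 910 (cons (fin 1102 5 909)
(fin 846 5 845)))))
(mv 910 (cons (fin 846 5 845)
(mv 1102 (cons (cons (mv 1167 (cons (fin 1103 4 910)
(mv 1166 (cons (fin 1231 4 974)
(mv 1230 (cons (fin 1294 7 1037)
(fin 973 7 973)))))))
(mv 911 (cons (fin 847 6 846)
(mv 1166 (cons (fin 975 6 910)
(mv 1230 (cons (fin 1294 7 1037)
(fin 973 7 973))))))))
(cons (mv 1103 (cons (fin 1167 4 910)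
(mv 1104 (cons (fin 1105 3 1037)
(mv 1168 (cons (fin 1169 0 1101)
(mv 911 (cons (fin 847 6 846)
(mv 976 (cons (fin 975 7 911)
(mv 913 (cons (fin 977 6 912)
(mv 912 (cons (fin 973 1 909)
(fin 849 6 848)))))))))))))))
(mv 1167 (cons (fin 1103 4 910)
(mv 1166 (cons (fin 1231 4 974)
(mv 911 (cons (fin 975 6 910)
(fin 847 6 846)))))))))))))
(cons (mv 1165 (cons (fin 1229 6 973)
(mv 1166 (cons (cons (mv 1230 (cons (fin 973 4 973)
(mv 1294 (cons (fin 1358 7 1101)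
(fin 1102 7 1037)))))
(mv 1167 (cons (cons (mv 1231 (cons (fin 1102 4 974)
(mv 1232 (cons (fin 1164 0 1164)
(mv 1233 (cons (fin 1234 3 1166)
(fin 1168 0 1165)))))))
(mv 1168 (cons (fin 1100 3 1100)
(mv 1232 (cons (fin 1233 0 1165)
(mv 1231 (cons (fin 1164 0 1164)
(mv 1104 (cons (fin 1105 2 1101)
(fin 1295 5 1039))))))))))
(cons (mv 1231 (cons (fin 1102 4 974)
(mv 1164 (cons (fin 1232 0 1164)
(mv 1228 (cons (fin 1227 1 1163)
(fin 973 5 972)))))))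
(cons (mv 1168 (cons (fin 1100 3 1100)
(mv 1232 (cons (fin 1233 0 1165)
(mv 1169 (cons (fin 1102 3 1101)
(mv 1105 (cons (fin 1104 2 1101)
(fin 1106 2 1102)))))))))
(mv 1231 (cons (fin 1102 4 974)
(mv 1168 (cons (fin 1100 3 1100)
(mv 1104 (cons (fin 1105 2 1101)
(fin 976 5 975))))))))))))
(cons (mv 1167 (cons (cons (mv 1231 (cons (fin 1102 4 974)
(mv 1232 (cons (fin 1164 0 1164)
(mv 1233 (cons (fin 1230 3 1165)
(fin 1234 3 1166)))))))
(mv 1168 (cons (fin 1100 3 1100)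
(mv 1232 (cons (fin 1233 0 1165)
(mv 1231 (cons (fin 1164 0 1164)
(mv 1104 (cons (fin 1105 2 1101)
(fin 1295 5 1039))))))))))
(cons (mv 1168 (cons (fin 1100 3 1100)
(mv 1232 (cons (fin 1233 0 1165)
(mv 1169 (cons (fin 1102 3 1101)
(mv 1105 (cons (fin 1104 2 1101)
(fin 1106 2 1102)))))))))
(mv 1231 (cons (fin 1102 4 974)
(mv 1168 (cons (fin 1100 3 1100)
(mv 1104 (cons (fin 1105 2 1101)
(fin 976 5 975))))))))))
(mv 973 (cons (fin 1230 4 973)
(mv 1164 (cons (fin 1228 5 972)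
(mv 972 (cons (fin 908 7 908)
(mv 971 (cons (fin 970 0 970)
(mv 1035 (cons (fin 1034 1 970)
(mv 907 (cons (fin 906 3 906)
(mv 1099 (cons (fin 1100 4 907)
(mv 1098 (cons (fin 1163 3 1098)
(fin 1162 5 906))))))))))))))))))))))
(mv 1165 (cons (fin 1229 6 973)
(mv 910 (cons (fin 846 5 845)
(fin 973 6 909)))))))))
(cons (mv 1039 (cons (cons (mv 1104 (cons (fin 1105 0 1037)
(mv 972 (cons (fin 973 3 972)
(mv 976 (cons (fin 977 2 973)
(mv 1168 (cons (mv 975 (cons (fin 1232 7 975)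
(fin 911 7 911)))
(cons (mv 1231 (cons (fin 1167 5 975)
(mv 1232 (cons (fin 1295 5 1039)
(mv 1233 (cons (fin 1297 4 1040)
(fin 1169 4 976)))))))
(mv 1231 (cons (fin 1167 5 975)
(mv 1233 (cons (fin 1169 4 976)
(mv 911 (cons (fin 975 7 911)
(mv 912 (cons (fin 847 7 847)
(mv 848 (cons (fin 1103 5 847)
(mv 849 (cons (fin 913 6 848)
(fin 785 6 784))))))))))))))))))))))
(cons (mv 1104 (cons (fin 1105 0 1037)
(mv 976 (cons (fin 977 2 973)
(mv 1168 (cons (mv 975 (cons (fin 1232 7 975)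
(fin 911 7 911)))
(cons (mv 1231 (cons (fin 1167 5 975)
(mv 1232 (cons (fin 1295 5 1039)
(mv 1233 (cons (fin 1297 4 1040)
(fin 1169 4 976)))))))
(mv 1231 (cons (fin 1167 5 975)
(mv 1233 (cons (fin 1169 4 976)
(mv 911 (cons (fin 975 7 911)
(mv 912 (cons (fin 847 7 847)
(mv 848 (cons (fin 1103 5 847)
(mv 849 (cons (fin 913 6 848)
(fin 785 6 784))))))))))))))))))))
(mv 973 (cons (fin 972 3 972)
(mv 976 (cons (fin 977 2 973)
(mv 1165 (cons (mv 974 (cons (fin 1229 6 973)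
(fin 910 6 909)))
(cons (mv 1228 (cons (fin 1164 5 972)
(mv 1229 (cons (fin 1292 5 1036)
(mv 1230 (cons (fin 1294 4 1037)
(fin 1166 4 973)))))))
(mv 1164 (cons (fin 1228 5 972)
(mv 1166 (cons (fin 1230 4 973)
(mv 974 (cons (fin 910 6 909)
(mv 1163 (cons (mv 1102 (cons (fin 1162 2 1098)
(fin 1103 2 1099)))
(cons (mv 1226 (cons (fin 1227 1 1162)
(mv 1162 (cons (fin 1225 1 1161)
(mv 1098 (cons (fin 1097 3 1097)
(fin 1099 3 1098)))))))
(mv 1226 (cons (fin 1227 1 1162)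
(mv 1098 (cons (fin 1099 3 1098)
(mv 1103 (cons (fin 1102 2 1099)
(mv 1167 (cons (fin 1231 7 974)
(mv 912 (cons (fin 848 5 847)
(fin 975 6 911)))))))))))))))))))))))))))))
(cons (mv 1104 (cons (fin 1105 0 1037)
(mv 973 (cons (fin 972 3 972)
(mv 1165 (cons (mv 974 (cons (fin 1229 6 973)
(fin 910 6 909)))
(cons (mv 1228 (cons (fin 1164 5 972)
(mv 1229 (cons (fin 1292 5 1036)
(mv 1230 (cons (fin 1294 4 1037)
(fin 1166 4 973)))))))
(mv 1164 (cons (fin 1228 5 972)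
(mv 1166 (cons (fin 1230 4 973)
(mv 1103 (cons (fin 1102 1 1100)
(fin 1167 2 1100))))))))))))))
(cons (mv 1104 (cons (fin 1105 0 1037)
(mv 972 (cons (fin 973 3 972)
(mv 976 (cons (fin 977 2 973)
(mv 1168 (cons (mv 975 (cons (fin 1232 7 975)
(fin 911 7 911)))
(cons (mv 1231 (cons (fin 1167 5 975)
(mv 1232 (cons (fin 1295 5 1039)
(mv 1233 (cons (fin 1297 4 1040)
(fin 1169 4 976)))))))
(mv 1167 (cons (fin 1231 5 975)
(mv 1169 (cons (fin 1233 4 976)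
(mv 1166 (cons (fin 1102 3 1101)
(mv 1229 (cons (fin 1230 1 1165)
(mv 1165 (cons (fin 1228 1 1164)
(fin 974 6 973))))))))))))))))))))
(mv 1104 (cons (fin 1105 0 1037)
(mv 972 (cons (fin 973 3 972)
(mv 976 (cons (fin 977 2 973)
(mv 1168 (cons (mv 975 (cons (fin 1232 7 975)
(fin 911 7 911)))
(cons (mv 1233 (cons (fin 1169 4 976)
(mv 1232 (cons (fin 1297 4 1040)
(mv 1295 (cons (fin 1231 5 1039)
(mv 1296 (cons (fin 1359 5 1103)
(fin 1103 7 1039)))))))))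
(mv 1233 (cons (fin 1169 4 976)
(mv 911 (cons (fin 975 7 911)
(mv 912 (cons (fin 847 7 847)
(mv 848 (cons (fin 1103 5 847)
(mv 849 (cons (fin 913 6 848)
(fin 785 6 784))))))))))))))))))))))))
(mv 1039 (cons (fin 1100 1 1036)
(mv 1104 (cons (fin 1105 0 1037)
(mv 976 (cons (fin 977 2 973)
(mv 1168 (cons (mv 975 (cons (fin 1232 7 975)
(fin 911 7 911)))
(cons (mv 1231 (cons (fin 1167 5 975)
(mv 1232 (cons (fin 1295 5 1039)
(mv 1233 (cons (fin 1297 4 1040)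
(fin 1169 4 976)))))))
(mv 1231 (cons (fin 1167 5 975)
(mv 1233 (cons (fin 1169 4 976)
(mv 911 (cons (fin 975 7 911)
(mv 912 (cons (fin 847 7 847)
(mv 848 (cons (fin 1103 5 847)
(mv 849 (cons (fin 913 6 848)
(fin 785 6 784))))))))))))))))))))))))
(cons (cons (mv 1039 (cons (fin 1100 1 1036)
(mv 973 (cons (fin 972 3 972)
(mv 976 (cons (fin 977 2 973)
(mv 1165 (cons (mv 974 (cons (fin 1229 6 973)
(fin 910 6 909)))
(cons (mv 1228 (cons (fin 1164 5 972)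
(mv 1229 (cons (fin 1292 5 1036)
(mv 1230 (cons (fin 1294 4 1037)
(fin 1166 4 973)))))))
(mv 1164 (cons (fin 1228 5 972)
(mv 1166 (cons (fin 1230 4 973)
(mv 974 (cons (fin 910 6 909)
(mv 1163 (cons (mv 1102 (cons (fin 1162 2 1098)
(fin 1103 2 1099)))
(cons (mv 1226 (cons (fin 1227 1 1162)
(mv 1162 (cons (fin 1225 1 1161)
(mv 1098 (cons (fin 1097 3 1097)
(fin 1099 3 1098)))))))
(mv 1226 (cons (fin 1227 1 1162)
(mv 1098 (cons (fin 1099 3 1098)
(mv 1103 (cons (fin 1102 2 1099)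
(mv 1167 (cons (fin 1231 7 974)
(mv 912 (cons (fin 848 5 847)
(fin 975 6 911)))))))))))))))))))))))))))))
(mv 1100 (cons (fin 1039 1 1036)
(mv 1098 (cons (fin 1099 2 1034)
(mv 1165 (cons (cons (mv 1229 (cons (fin 974 6 973)
(mv 1292 (cons (fin 1228 5 1036)
(mv 1293 (cons (fin 1356 5 1100)
(fin 1102 6 1037)))))))
(mv 1166 (cons (cons (mv 1230 (cons (fin 973 4 973)
(mv 1294 (cons (fin 1358 7 1101)
(fin 1102 7 1037)))))
(mv 1167 (cons (fin 1168 3 1100)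
(mv 1164 (cons (mv 1228 (cons (fin 1227 1 1163)
(fin 1292 6 1036)))
(mv 1231 (cons (fin 1232 0 1164)
(mv 1230 (cons (fin 1163 0 1163)
(mv 1294 (cons (fin 1358 7 1101)
(fin 1102 7 1037))))))))))))
(cons (mv 1167 (cons (fin 1168 3 1100)
(mv 1164 (cons (mv 1228 (cons (fin 1227 1 1163)
(fin 973 5 972)))
(mv 1231 (cons (fin 1232 0 1164)
(mv 1102 (cons (fin 974 4 974)
(mv 1295 (cons (fin 1359 7 1102)
(fin 1103 7 1038)))))))))))
(mv 1230 (cons (fin 973 4 973)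
(mv 1358 (cons (fin 1294 7 1101)
(mv 1167 (cons (fin 1168 3 1100)
(mv 1164 (cons (mv 1228 (cons (fin 1227 1 1163)
(fin 1292 6 1036)))
(mv 1231 (cons (fin 1163 0 1163)
(fin 1232 0 1164)))))))))))))))
(cons (mv 1229 (cons (mv 1292 (cons (fin 1228 5 1036)
(mv 1293 (cons (fin 1356 5 1100)
(fin 1102 6 1037)))))
(cons (mv 1228 (cons (fin 1292 5 1036)
(mv 1230 (cons (fin 1294 4 1037)
(mv 973 (cons (fin 1164 5 972)
(fin 1166 4 973)))))))
(mv 1293 (cons (fin 1102 6 1037)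
(mv 1294 (cons (fin 1358 4 1101)
(fin 1230 4 1037))))))))
(cons (mv 1229 (cons (fin 974 6 973)
(mv 1293 (cons (fin 1102 6 1037)
(mv 1294 (cons (fin 1358 4 1101)
(fin 1230 4 1037)))))))
(mv 1229 (cons (fin 974 6 973)
(mv 1292 (cons (fin 1228 5 1036)
(mv 1293 (cons (fin 1356 5 1100)
(mv 1294 (cons (fin 1358 4 1101)
(fin 1230 4 1037))))))))))))))))))
(cons (mv 1039 (cons (fin 1100 1 1036)
(mv 1104 (cons (fin 1105 0 1037)
(mv 972 (cons (fin 973 3 972)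
(mv 976 (cons (fin 977 2 973)
(mv 1168 (cons (mv 975 (cons (fin 1232 7 975)
(fin 911 7 911)))
(cons (mv 1231 (cons (fin 1167 5 975)
(mv 1232 (cons (fin 1295 5 1039)
(mv 1233 (cons (fin 1297 4 1040)
(fin 1169 4 976)))))))
(mv 1167 (cons (fin 1231 5 975)
(mv 1169 (cons (fin 1233 4 976)
(mv 1166 (cons (fin 1102 3 1101)
(mv 1229 (cons (fin 1230 1 1165)
(mv 1165 (cons (fin 1228 1 1164)
(fin 974 6 973))))))))))))))))))))))
(cons (mv 1039 (cons (fin 1100 1 1036)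
(mv 1104 (cons (fin 1105 0 1037)
(mv 972 (cons (fin 973 3 972)
(mv 976 (cons (fin 977 2 973)
(mv 1168 (cons (mv 975 (cons (fin 1232 7 975)
(fin 911 7 911)))
(cons (mv 1233 (cons (fin 1169 4 976)
(mv 1232 (cons (fin 1297 4 1040)
(mv 1295 (cons (fin 1231 5 1039)
(mv 1296 (cons (fin 1359 5 1103)
(fin 1103 7 1039)))))))))
(mv 1233 (cons (fin 1169 4 976)
(mv 911 (cons (fin 975 7 911)
(mv 912 (cons (fin 847 7 847)
(mv 848 (cons (fin 1103 5 847)
(mv 849 (cons (fin 913 6 848)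
(fin 785 6 784))))))))))))))))))))))
(mv 1100 (cons (fin 1039 1 1036)
(mv 1099 (cons (fin 1098 2 1034)
(mv 1102 (cons (cons (mv 1162 (cons (fin 1163 1 1098)
(mv 1166 (cons (fin 1167 0 1099)
(mv 1230 (cons (fin 1294 7 1037)
(fin 973 7 973)))))))
(mv 1163 (cons (fin 1162 1 1098)
(mv 1164 (cons (fin 1103 1 1099)
(mv 1292 (cons (fin 1228 6 1036)
(mv 1035 (cons (fin 1034 3 1034)
(mv 971 (cons (fin 907 4 907)
(mv 970 (cons (fin 906 7 906)
(mv 972 (cons (fin 973 0 970)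
(fin 908 6 907))))))))))))))))
(cons (mv 1166 (cons (fin 1167 0 1099)
(mv 1230 (cons (fin 1294 7 1037)
(fin 973 7 973)))))
(mv 1162 (cons (fin 1163 1 1098)
(mv 1166 (cons (fin 1167 0 1099)
(mv 1230 (cons (fin 1294 7 1037)
(mv 1229 (cons (fin 1293 5 1037)
(mv 1034 (cons (fin 1035 3 1034)
(mv 974 (cons (fin 1165 5 973)
(mv 910 (cons (fin 846 5 845)
(mv 911 (cons (fin 975 6 910)
(fin 847 6 846))))))))))))))))))))))))))))))
(cons (mv 1038 (cons (cons (mv 1039 (cons (fin 1100 1 1036)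
(mv 1104 (cons (fin 1105 0 1037)
(mv 1103 (cons (fin 1036 0 1036)
(mv 972 (cons (fin 973 3 972)
(mv 976 (cons (fin 977 2 973)
(mv 1167 (cons (fin 912 5 911)
(fin 1231 6 975)))))))))))))
(cons (mv 1165 (cons (cons (mv 1229 (cons (fin 974 6 973)
(mv 1292 (cons (fin 1228 5 1036)
(mv 1356 (cons (fin 1293 5 1100)
(mv 1230 (cons (fin 1294 4 1037)
(mv 972 (cons (fin 1036 7 972)
(mv 973 (cons (fin 908 7 908)
(fin 1166 4 973)))))))))))))
(cons (mv 973 (cons (cons (cons (mv 1228 (cons (fin 1164 5 972)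
(mv 1230 (cons (fin 1166 4 973)
(mv 972 (cons (fin 908 7 908)
(mv 971 (cons (fin 970 0 970)
(mv 974 (cons (fin 910 6 909)
(mv 1035 (cons (fin 1034 1 970)
(mv 1036 (cons (fin 975 1 971)
(mv 1098 (cons (fin 1099 1 1034)
(mv 907 (cons (fin 906 3 906)
(mv 843 (cons (fin 1100 4 843)
(fin 779 4 779)))))))))))))))))))))
(mv 1164 (cons (fin 1228 5 972)
(mv 1166 (cons (fin 1230 4 973)
(mv 972 (cons (fin 908 7 908)
(mv 970 (cons (fin 971 0 970)
(mv 1099 (cons (mv 1098 (cons (fin 1163 3 1098)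
(fin 1100 0 1098)))
(cons (mv 1167 (cons (fin 1100 3 1099)
(mv 1231 (cons (fin 1232 0 1164)
(mv 1104 (cons (fin 1103 2 1100)
(mv 1168 (cons (fin 1105 2 1101)
(fin 976 5 975)))))))))
(mv 1163 (cons (fin 1098 3 1098)
(mv 1227 (cons (fin 1226 1 1162)
(mv 1035 (cons (fin 1034 7 970)
(fin 1036 6 971)))))))))))))))))))
(cons (mv 1164 (cons (fin 1228 5 972)
(mv 1166 (cons (fin 1230 4 973)
(mv 974 (cons (fin 910 6 909)
(mv 1167 (cons (mv 1100 (cons (fin 1099 3 1099)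
(fin 1168 3 1100)))
(cons (mv 1231 (cons (fin 1232 0 1164)
(mv 1104 (cons (fin 1103 2 1100)
(mv 1168 (cons (fin 1105 2 1101)
(fin 976 5 975)))))))
(mv 1231 (cons (fin 1232 0 1164)
(mv 1099 (cons (fin 1100 3 1099)
(mv 1163 (cons (fin 1098 3 1098)
(mv 1226 (cons (fin 1227 1 1162)
(mv 1162 (cons (fin 1225 1 1161)
(mv 1354 (cons (fin 1290 6 1098)
(mv 1103 (cons (fin 1104 2 1100)
(mv 1035 (cons (fin 971 5 970)
(mv 1036 (cons (fin 1034 2 970)
(fin 975 2 971))))))))))))))))))))))))))))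
(mv 1230 (cons (fin 1166 4 973)
(mv 972 (cons (fin 908 7 908)
(mv 971 (cons (fin 970 0 970)
(mv 974 (cons (fin 910 6 909)
(mv 1035 (cons (fin 1034 1 970)
(mv 1036 (cons (fin 975 1 971)
(mv 1098 (cons (fin 1099 1 1034)
(mv 907 (cons (fin 906 3 906)
(mv 843 (cons (fin 1100 4 843)
(fin 779 4 779)))))))))))))))))))))
(cons (cons (mv 1228 (cons (fin 1164 5 972)
(mv 972 (cons (fin 908 7 908)
(mv 971 (cons (fin 970 0 970)
(mv 974 (cons (fin 910 6 909)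
(mv 1035 (cons (fin 1034 1 970)
(mv 1036 (cons (fin 975 1 971)
(mv 1098 (cons (fin 1099 1 1034)
(mv 907 (cons (fin 906 3 906)
(mv 843 (cons (fin 1100 4 843)
(fin 779 4 779)))))))))))))))))))
(mv 1228 (cons (fin 1164 5 972)
(mv 1230 (cons (fin 1166 4 973)
(mv 972 (cons (fin 908 7 908)
(mv 971 (cons (fin 970 0 970)
(mv 974 (cons (fin 910 6 909)
(mv 1035 (cons (fin 1034 1 970)
(mv 975 (cons (fin 1036 1 971)
(mv 976 (cons (fin 977 1 973)
(mv 912 (cons (fin 911 2 908)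
(fin 913 2 909))))))))))))))))))))
(cons (mv 1164 (cons (fin 1228 5 972)
(mv 1166 (cons (fin 1230 4 973)
(mv 972 (cons (fin 908 7 908)
(mv 974 (cons (fin 910 6 909)
(mv 1163 (cons (cons (mv 1226 (cons (fin 1227 1 1162)
(mv 1225 (cons (fin 1162 1 1161)
(mv 1099 (cons (fin 1098 3 1098)
(mv 1167 (cons (fin 1100 3 1099)
(mv 1231 (cons (fin 1232 0 1164)
(mv 1104 (cons (fin 1103 2 1100)
(mv 1168 (cons (fin 1105 2 1101)
(fin 976 5 975)))))))))))))))
(cons (mv 1226 (cons (fin 1227 1 1162)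
(mv 1162 (cons (fin 1225 1 1161)
(mv 1161 (cons (fin 1100 2 1097)
(mv 1097 (cons (fin 1096 3 1096)
(fin 1098 3 1097)))))))))
(mv 1226 (cons (fin 1227 1 1162)
(mv 1162 (cons (fin 1225 1 1161)
(mv 1100 (cons (fin 1161 2 1097)
(mv 1167 (cons (fin 1099 3 1099)
(fin 1168 3 1100)))))))))))
(cons (cons (mv 1098 (cons (fin 1099 3 1098)
(mv 1162 (cons (fin 1097 3 1097)
(mv 1225 (cons (fin 1226 1 1161)
(mv 1161 (cons (fin 1224 1 1160)
(fin 1100 2 1097)))))))))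
(mv 1098 (cons (fin 1099 3 1098)
(mv 1162 (cons (fin 1097 3 1097)
(mv 1100 (cons (fin 1161 2 1097)
(mv 1167 (cons (fin 1168 3 1100)
(mv 1231 (cons (fin 1232 0 1164)
(mv 1103 (cons (fin 1104 2 1100)
(mv 1036 (cons (fin 1227 5 971)
(mv 1035 (cons (fin 975 1 971)
(fin 1034 2 970))))))))))))))))))
(cons (mv 1226 (cons (fin 1227 1 1162)
(mv 1162 (cons (fin 1225 1 1161)
(mv 1098 (cons (fin 1097 3 1097)
(fin 1099 3 1098)))))))
(mv 1226 (cons (fin 1227 1 1162)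
(mv 1099 (cons (fin 1098 3 1098)
(mv 1167 (cons (fin 1100 3 1099)
(mv 1231 (cons (fin 1232 0 1164)
(mv 1104 (cons (fin 1103 2 1100)
(mv 1168 (cons (fin 1105 2 1101)
(fin 976 5 975)))))))))))))))))))))))))
(cons (mv 1164 (cons (fin 1228 5 972)
(mv 1166 (cons (fin 1230 4 973)
(mv 972 (cons (fin 908 7 908)
(mv 971 (cons (fin 970 0 970)
(mv 974 (cons (fin 910 6 909)
(mv 1035 (cons (fin 1034 1 970)
(mv 907 (cons (fin 906 3 906)
(mv 1099 (cons (fin 1100 4 907)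
(mv 1098 (cons (fin 1163 3 1098)
(fin 1162 5 906)))))))))))))))))))
(mv 1164 (cons (fin 1228 5 972)
(mv 1166 (cons (fin 1230 4 973)
(mv 972 (cons (fin 908 7 908)
(mv 971 (cons (fin 970 0 970)
(mv 974 (cons (fin 910 6 909)
(mv 907 (cons (fin 906 3 906)
(mv 1100 (cons (fin 1036 7 907)
(mv 1167 (cons (fin 1099 3 1099)
(fin 1168 3 1100))))))))))))))))))))))
(mv 1229 (cons (cons (mv 1292 (cons (fin 1228 5 1036)
(mv 1356 (cons (fin 1293 5 1100)
(mv 1230 (cons (fin 1294 4 1037)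
(mv 972 (cons (fin 1036 7 972)
(mv 973 (cons (fin 908 7 908)
(fin 1166 4 973)))))))))))
(mv 1294 (cons (fin 1230 4 1037)
(mv 1293 (cons (fin 1358 4 1101)
(mv 1036 (cons (fin 1100 7 1036)
(fin 972 7 972))))))))
(cons (mv 1292 (cons (fin 1228 5 1036)
(mv 1293 (cons (fin 1356 5 1100)
(mv 1294 (cons (fin 1358 4 1101)
(fin 1230 4 1037)))))))
(cons (mv 1292 (cons (fin 1228 5 1036)
(mv 1293 (cons (fin 1356 5 1100)
(mv 1036 (cons (fin 1100 7 1036)
(fin 972 7 972)))))))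
(mv 1292 (cons (fin 1228 5 1036)
(mv 1230 (cons (fin 1294 4 1037)
(mv 972 (cons (fin 1036 7 972)
(mv 973 (cons (fin 908 7 908)
(fin 1166 4 973)))))))))))))))
(cons (mv 1229 (cons (fin 974 6 973)
(mv 1292 (cons (fin 1228 5 1036)
(mv 1293 (cons (fin 1356 5 1100)
(mv 1294 (cons (fin 1358 4 1101)
(fin 1230 4 1037)))))))))
(cons (mv 1229 (cons (fin 974 6 973)
(mv 1294 (cons (fin 1230 4 1037)
(mv 1293 (cons (fin 1358 4 1101)
(mv 1036 (cons (fin 1100 7 1036)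
(fin 972 7 972)))))))))
(mv 1229 (cons (fin 974 6 973)
(mv 1292 (cons (fin 1228 5 1036)
(mv 1293 (cons (fin 1356 5 1100)
(mv 1036 (cons (fin 1100 7 1036)
(fin 972 7 972)))))))))))))
(mv 1039 (cons (cons (mv 1104 (cons (fin 1105 0 1037)
(mv 1103 (cons (fin 1036 0 1036)
(mv 972 (cons (fin 973 3 972)
(mv 976 (cons (fin 977 2 973)
(mv 1167 (cons (fin 912 5 911)
(fin 1231 6 975)))))))))))
(mv 1104 (cons (fin 1105 0 1037)
(mv 1103 (cons (fin 1036 0 1036)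
(mv 976 (cons (fin 977 2 973)
(mv 1167 (cons (fin 912 5 911)
(fin 1231 6 975))))))))))
(cons (mv 1104 (cons (fin 1105 0 1037)
(mv 1036 (cons (fin 1103 0 1036)
(mv 972 (cons (fin 971 3 971)
(fin 973 3 972)))))))
(cons (mv 972 (cons (fin 973 3 972)
(mv 1036 (cons (fin 971 3 971)
(mv 976 (cons (fin 975 2 972)
(fin 977 2 973)))))))
(mv 1104 (cons (fin 1105 0 1037)
(mv 972 (cons (fin 973 3 972)
(mv 976 (cons (fin 977 2 973)
(mv 1168 (cons (mv 975 (cons (fin 1232 7 975)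
(fin 911 7 911)))
(cons (mv 1231 (cons (fin 1167 5 975)
(mv 1232 (cons (fin 1295 5 1039)
(mv 1233 (cons (fin 1297 4 1040)
(fin 1169 4 976)))))))
(mv 1231 (cons (fin 1167 5 975)
(mv 1233 (cons (fin 1169 4 976)
(mv 911 (cons (fin 975 7 911)
(mv 912 (cons (fin 847 7 847)
(mv 848 (cons (fin 1103 5 847)
(mv 849 (cons (fin 913 6 848)
(fin 785 6 784))))))))))))))))))))))))))))
(cons (cons (mv 1039 (cons (fin 1100 1 1036)
(mv 1104 (cons (fin 1105 0 1037)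
(mv 1103 (cons (fin 1036 0 1036)
(mv 976 (cons (fin 977 2 973)
(mv 1167 (cons (fin 912 5 911)
(fin 1231 6 975)))))))))))
(mv 1039 (cons (fin 1100 1 1036)
(mv 1104 (cons (fin 1105 0 1037)
(mv 1036 (cons (fin 1103 0 1036)
(mv 972 (cons (fin 971 3 971)
(fin 973 3 972))))))))))
(cons (mv 1039 (cons (fin 1100 1 1036)
(mv 972 (cons (fin 973 3 972)
(mv 1036 (cons (fin 971 3 971)
(mv 976 (cons (fin 975 2 972)
(fin 977 2 973)))))))))
(mv 1039 (cons (fin 1100 1 1036)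
(mv 1104 (cons (fin 1105 0 1037)
(mv 972 (cons (fin 973 3 972)
(mv 976 (cons (fin 977 2 973)
(mv 1168 (cons (mv 975 (cons (fin 1232 7 975)
(fin 911 7 911)))
(cons (mv 1231 (cons (fin 1167 5 975)
(mv 1232 (cons (fin 1295 5 1039)
(mv 1233 (cons (fin 1297 4 1040)
(fin 1169 4 976)))))))
(mv 1231 (cons (fin 1167 5 975)
(mv 1233 (cons (fin 1169 4 976)
(mv 911 (cons (fin 975 7 911)
(mv 912 (cons (fin 847 7 847)
(mv 848 (cons (fin 1103 5 847)
(mv 849 (cons (fin 913 6 848)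
(fin 785 6 784))))))))))))))))))))))))))))
(cons (mv 1038 (cons (cons (mv 1039 (cons (fin 1100 1 1036)
(mv 1104 (cons (fin 1105 0 1037)
(mv 1103 (cons (fin 1036 0 1036)
(mv 976 (cons (fin 977 2 973)
(mv 1167 (cons (fin 912 5 911)
(fin 1231 6 975)))))))))))
(cons (mv 974 (cons (cons (mv 1165 (cons (fin 1229 6 973)
(mv 910 (cons (fin 1102 5 909)
(fin 846 5 845)))))
(mv 910 (cons (fin 846 5 845)
(mv 1102 (cons (mv 1167 (cons (fin 1103 4 910)
(mv 1166 (cons (fin 1231 4 974)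
(mv 1230 (cons (fin 1294 7 1037)
(fin 973 7 973)))))))
(cons (mv 911 (cons (fin 847 6 846)
(mv 1166 (cons (fin 975 6 910)
(mv 1230 (cons (fin 1294 7 1037)
(fin 973 7 973)))))))
(mv 1103 (cons (fin 1167 4 910)
(mv 1104 (cons (fin 1036 3 1036)
(fin 1105 3 1037)))))))))))
(cons (mv 1165 (cons (fin 1229 6 973)
(mv 1166 (cons (cons (mv 1230 (cons (fin 973 4 973)
(mv 1294 (cons (fin 1358 7 1101)
(fin 1102 7 1037)))))
(mv 975 (cons (mv 1102 (cons (fin 911 6 910)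
(mv 1231 (cons (fin 1167 4 974)
(mv 1036 (cons (fin 1035 2 971)
(mv 976 (cons (fin 973 1 972)
(fin 977 1 973)))))))))
(cons (mv 1036 (cons (fin 1035 2 971)
(mv 976 (cons (fin 973 1 972)
(fin 977 1 973)))))
(mv 1102 (cons (fin 911 6 910)
(mv 1167 (cons (fin 1231 4 974)
(mv 1168 (cons (fin 1100 3 1100)
(fin 1169 3 1101)))))))))))
(cons (mv 1167 (cons (cons (mv 1231 (cons (fin 1102 4 974)
(mv 1232 (cons (fin 1164 0 1164)
(mv 1233 (cons (fin 1230 3 1165)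
(fin 1234 3 1166)))))))
(mv 1168 (cons (fin 1100 3 1100)
(mv 1232 (cons (fin 1233 0 1165)
(mv 1231 (cons (fin 1164 0 1164)
(mv 1104 (cons (fin 1105 2 1101)
(fin 1295 5 1039))))))))))
(cons (mv 1168 (cons (fin 1100 3 1100)
(mv 1232 (cons (fin 1233 0 1165)
(mv 1169 (cons (fin 1102 3 1101)
(mv 1105 (cons (fin 1104 2 1101)
(fin 1106 2 1102)))))))))
(mv 1231 (cons (fin 1102 4 974)
(mv 1168 (cons (fin 1100 3 1100)
(mv 1104 (cons (fin 1105 2 1101)
(fin 976 5 975))))))))))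
(mv 973 (cons (fin 1230 4 973)
(mv 1164 (cons (fin 1228 5 972)
(mv 1167 (cons (mv 1100 (cons (fin 1099 3 1099)
(fin 1168 3 1100)))
(cons (mv 1231 (cons (fin 1232 0 1164)
(mv 1104 (cons (fin 1103 2 1100)
(mv 1168 (cons (fin 1105 2 1101)
(fin 976 5 975)))))))
(mv 1231 (cons (fin 1232 0 1164)
(mv 1099 (cons (fin 1100 3 1099)
(mv 1163 (cons (fin 1098 3 1098)
(mv 1226 (cons (fin 1227 1 1162)
(mv 1162 (cons (fin 1225 1 1161)
(mv 1354 (cons (fin 1290 6 1098)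
(mv 1103 (cons (fin 1104 2 1100)
(mv 1035 (cons (fin 971 5 970)
(mv 1036 (cons (fin 1034 2 970)
(fin 975 2 971)))))))))))))))))))))))))))))))
(mv 1165 (cons (fin 1229 6 973)
(mv 910 (cons (fin 846 5 845)
(fin 973 6 909))))))))
(mv 974 (cons (cons (mv 1165 (cons (fin 1229 6 973)
(mv 910 (cons (fin 1102 5 909)
(fin 846 5 845)))))
(mv 910 (cons (fin 846 5 845)
(mv 1102 (cons (mv 1167 (cons (fin 1103 4 910)
(mv 1166 (cons (fin 1231 4 974)
(mv 1230 (cons (fin 1294 7 1037)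
(fin 973 7 973)))))))
(cons (mv 911 (cons (fin 847 6 846)
(mv 1166 (cons (fin 975 6 910)
(mv 1230 (cons (fin 1294 7 1037)
(fin 973 7 973)))))))
(mv 1103 (cons (fin 1167 4 910)
(mv 1104 (cons (fin 1036 3 1036)
(fin 1105 3 1037)))))))))))
(cons (mv 1229 (cons (fin 1165 6 973)
(mv 1039 (cons (cons (mv 1104 (cons (fin 1105 0 1037)
(mv 1103 (cons (fin 1036 0 1036)
(mv 1231 (cons (fin 1167 7 974)
(mv 976 (cons (fin 977 2 973)
(mv 912 (cons (fin 848 5 847)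
(mv 911 (cons (fin 847 7 847)
(mv 1168 (cons (fin 975 7 911)
(mv 1232 (cons (fin 1295 5 1039)
(fin 1296 7 1039)))))))))))))))))
(cons (mv 1104 (cons (fin 1105 0 1037)
(mv 1036 (cons (fin 1103 0 1036)
(mv 1035 (cons (fin 975 2 971)
(mv 1034 (cons (fin 1102 0 1034)
(fin 973 2 970)))))))))
(mv 976 (cons (fin 977 2 973)
(mv 975 (cons (fin 1036 2 972)
(mv 912 (cons (mv 1103 (cons (fin 848 5 847)
(fin 1167 6 911)))
(cons (mv 1167 (cons (fin 1103 6 911)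
(mv 913 (cons (fin 973 2 909)
(mv 914 (cons (fin 911 1 910)
(fin 915 1 911)))))))
(mv 913 (cons (fin 973 2 909)
(mv 914 (cons (fin 911 1 910)
(fin 915 1 911))))))))))))))
(cons (mv 1104 (cons (fin 1105 0 1037)
(mv 1103 (cons (fin 1036 0 1036)
(mv 1167 (cons (fin 1231 7 974)
(mv 976 (cons (fin 977 2 973)
(fin 912 5 911)))))))))
(cons (mv 1104 (cons (fin 1105 0 1037)
(mv 976 (cons (fin 977 2 973)
(mv 1168 (cons (mv 975 (cons (fin 1232 7 975)
(fin 911 7 911)))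
(cons (mv 1231 (cons (fin 1167 5 975)
(mv 1295 (cons (fin 1232 5 1039)
(mv 1169 (cons (fin 1233 4 976)
(mv 1102 (cons (fin 1103 0 1101)
(mv 1230 (cons (fin 1166 4 1038)
(mv 1296 (cons (fin 1228 0 1228)
(mv 1297 (cons (fin 1294 3 1229)
(fin 1298 3 1230)))))))))))))))
(mv 1231 (cons (fin 1167 5 975)
(mv 1233 (cons (fin 1169 4 976)
(mv 911 (cons (fin 975 7 911)
(mv 912 (cons (fin 847 7 847)
(mv 848 (cons (fin 1103 5 847)
(mv 849 (cons (fin 913 6 848)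
(fin 785 6 784))))))))))))))))))))
(mv 1104 (cons (fin 1105 0 1037)
(mv 976 (cons (fin 977 2 973)
(mv 975 (cons (fin 1036 2 972)
(mv 1168 (cons (fin 1232 7 975)
(fin 911 7 911)))))))))))))))
(mv 1165 (cons (fin 1229 6 973)
(mv 910 (cons (fin 846 5 845)
(fin 973 6 909))))))))))
(cons (mv 1100 (cons (fin 1039 1 1036)
(mv 1098 (cons (fin 1099 2 1034)
(mv 974 (cons (cons (mv 1165 (cons (fin 1229 6 973)
(mv 910 (cons (fin 1102 5 909)
(fin 846 5 845)))))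
(mv 910 (cons (fin 846 5 845)
(mv 1102 (cons (cons (mv 1167 (cons (fin 1103 4 910)
(mv 1166 (cons (fin 1231 4 974)
(mv 1230 (cons (fin 1294 7 1037)
(fin 973 7 973)))))))
(mv 911 (cons (fin 847 6 846)
(mv 1166 (cons (fin 975 6 910)
(mv 1230 (cons (fin 1294 7 1037)
(fin 973 7 973))))))))
(cons (mv 1103 (cons (fin 1167 4 910)
(mv 1164 (cons (fin 1163 1 1099)
(mv 1228 (cons (fin 1292 6 1036)
(mv 1036 (cons (fin 1035 3 1035)
(fin 973 6 972)))))))))
(mv 1167 (cons (fin 1103 4 910)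
(mv 1166 (cons (fin 1231 4 974)
(mv 911 (cons (fin 975 6 910)
(fin 847 6 846)))))))))))))
(cons (mv 1165 (cons (fin 1229 6 973)
(mv 1164 (cons (mv 1228 (cons (fin 973 5 972)
(fin 1292 6 1036)))
(cons (mv 1166 (cons (mv 1230 (cons (fin 973 4 973)
(mv 1294 (cons (fin 1358 7 1101)
(fin 1102 7 1037)))))
(cons (mv 1167 (cons (fin 1168 3 1100)
(mv 1231 (cons (fin 1232 0 1164)
(fin 1102 4 974)))))
(mv 1230 (cons (fin 973 4 973)
(mv 1358 (cons (fin 1294 7 1101)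
(mv 1231 (cons (fin 1163 0 1163)
(mv 1232 (cons (fin 1233 3 1165)
(fin 1167 0 1164))))))))))))
(mv 1228 (cons (fin 1292 6 1036)
(mv 1036 (cons (mv 1035 (cons (fin 975 2 971)
(fin 971 7 971)))
(mv 1227 (cons (fin 1291 5 1035)
(mv 1226 (cons (fin 1225 2 1161)
(mv 1166 (cons (fin 1163 1 1162)
(fin 1167 1 1163))))))))))))))))
(mv 1165 (cons (fin 1229 6 973)
(mv 910 (cons (fin 846 5 845)
(fin 973 6 909))))))))))))
(cons (mv 1100 (cons (fin 1039 1 1036)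
(mv 1098 (cons (fin 1099 2 1034)
(mv 974 (cons (cons (mv 1165 (cons (fin 1229 6 973)
(mv 910 (cons (fin 1102 5 909)
(fin 846 5 845)))))
(mv 910 (cons (fin 846 5 845)
(mv 1102 (cons (cons (mv 1167 (cons (fin 1103 4 910)
(mv 1166 (cons (fin 1231 4 974)
(mv 1230 (cons (fin 1294 7 1037)
(fin 973 7 973)))))))
(mv 911 (cons (fin 847 6 846)
(mv 1166 (cons (fin 975 6 910)
(mv 1230 (cons (fin 1294 7 1037)
(fin 973 7 973))))))))
(cons (mv 1103 (cons (fin 1167 4 910)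
(mv 1163 (cons (fin 1164 1 1099)
(mv 1104 (cons (fin 1105 3 1037)
(mv 1168 (cons (fin 1169 0 1101)
(mv 911 (cons (fin 847 6 846)
(mv 976 (cons (fin 975 7 911)
(mv 913 (cons (fin 977 6 912)
(mv 912 (cons (fin 973 1 909)
(fin 849 6 848)))))))))))))))))
(mv 1167 (cons (fin 1103 4 910)
(mv 1166 (cons (fin 1231 4 974)
(mv 911 (cons (fin 975 6 910)
(fin 847 6 846)))))))))))))
(cons (mv 1165 (cons (fin 1229 6 973)
(mv 1166 (cons (cons (mv 1230 (cons (fin 973 4 973)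
(mv 1294 (cons (fin 1358 7 1101)
(fin 1102 7 1037)))))
(mv 1167 (cons (fin 1168 3 1100)
(mv 1231 (cons (fin 1102 4 974)
(mv 1164 (cons (fin 1232 0 1164)
(mv 1228 (cons (fin 1227 1 1163)
(fin 973 5 972))))))))))
(cons (mv 1167 (cons (fin 1168 3 1100)
(mv 1231 (cons (fin 1102 4 974)
(mv 1232 (cons (fin 1164 0 1164)
(mv 1233 (cons (fin 1230 3 1165)
(fin 1234 3 1166)))))))))
(mv 1230 (cons (fin 973 4 973)
(mv 1358 (cons (fin 1294 7 1101)
(mv 1167 (cons (fin 1168 3 1100)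
(mv 1164 (cons (mv 1228 (cons (fin 1227 1 1163)
(fin 1292 6 1036)))
(mv 1231 (cons (fin 1163 0 1163)
(fin 1232 0 1164))))))))))))))))
(mv 1165 (cons (fin 1229 6 973)
(mv 910 (cons (fin 846 5 845)
(fin 973 6 909))))))))))))
(mv 1039 (cons (fin 1100 1 1036)
(mv 1104 (cons (fin 1105 0 1037)
(mv 976 (cons (fin 977 2 973)
(mv 975 (cons (fin 1036 2 972)
(mv 1168 (cons (fin 1232 7 975)
(fin 911 7 911)))))))))))))))
(mv 1039 (cons (cons (mv 1038 (cons (fin 1100 1 1036)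
(mv 1104 (cons (fin 1105 0 1037)
(mv 1103 (cons (fin 1036 0 1036)
(mv 972 (cons (fin 973 3 972)
(mv 976 (cons (fin 977 2 973)
(mv 1167 (cons (fin 912 5 911)
(fin 1231 6 975)))))))))))))
(cons (mv 1103 (cons (cons (mv 1102 (cons (fin 1100 2 1036)
(mv 1104 (cons (fin 1036 3 1036)
(mv 1164 (cons (fin 1165 1 1100)
(mv 1168 (cons (fin 1169 0 1101)
(mv 1232 (cons (fin 1296 7 1039)
(fin 975 7 975)))))))))))
(cons (mv 1167 (cons (cons (mv 1231 (cons (fin 976 6 975)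
(mv 1294 (cons (fin 1230 5 1038)
(mv 1295 (cons (fin 1358 5 1102)
(fin 1104 6 1039)))))))
(mv 975 (cons (cons (mv 1230 (cons (fin 1166 5 974)
(mv 1232 (cons (fin 1168 4 975)
(mv 912 (cons (fin 976 6 911)
(mv 911 (cons (fin 848 6 847)
(mv 846 (cons (fin 910 7 846)
(mv 847 (cons (fin 782 7 782)
(fin 1104 4 847)))))))))))))
(cons (mv 1230 (cons (fin 1166 5 974)
(mv 1168 (cons (fin 1232 4 975)
(mv 911 (cons (fin 1104 4 911)
(mv 846 (cons (fin 910 7 846)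
(mv 847 (cons (fin 782 7 782)
(mv 783 (cons (fin 976 4 783)
(mv 784 (cons (fin 848 6 783)
(fin 720 6 719)))))))))))))))
(mv 1230 (cons (fin 1166 5 974)
(mv 912 (cons (fin 976 6 911)
(mv 911 (cons (fin 848 6 847)
(mv 846 (cons (fin 910 7 846)
(mv 847 (cons (fin 782 7 782)
(fin 1104 4 847)))))))))))))
(cons (mv 1230 (cons (fin 1166 5 974)
(mv 1168 (cons (fin 1232 4 975)
(mv 911 (cons (fin 1104 4 911)
(mv 846 (cons (fin 910 7 846)
(mv 847 (cons (fin 782 7 782)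
(mv 848 (cons (fin 912 6 847)
(fin 784 6 783)))))))))))))
(cons (mv 1232 (cons (fin 1168 4 975)
(mv 912 (cons (fin 976 6 911)
(mv 911 (cons (fin 848 6 847)
(mv 846 (cons (fin 910 7 846)
(mv 847 (cons (fin 782 7 782)
(fin 1104 4 847)))))))))))
(mv 1166 (cons (fin 1230 5 974)
(mv 1168 (cons (fin 1232 4 975)
(mv 1165 (cons (fin 1100 3 1100)
(mv 1228 (cons (fin 1229 1 1164)
(mv 1164 (cons (fin 1227 1 1163)
(fin 973 5 972))))))))))))))))
(cons (mv 1231 (cons (cons (mv 1294 (cons (fin 1230 5 1038)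
(mv 1295 (cons (fin 1358 5 1102)
(fin 1104 6 1039)))))
(mv 1296 (cons (fin 1232 4 1039)
(mv 1230 (cons (fin 1294 5 1038)
(mv 1166 (cons (fin 975 5 974)
(mv 1165 (cons (fin 973 4 973)
(mv 1164 (cons (fin 1163 0 1163)
(fin 1104 2 1100))))))))))))
(cons (mv 1295 (cons (fin 1104 6 1039)
(mv 1296 (cons (fin 1360 4 1103)
(fin 1232 4 1039)))))
(mv 1294 (cons (fin 1230 5 1038)
(mv 1295 (cons (fin 1358 5 1102)
(mv 1296 (cons (fin 1360 4 1103)
(fin 1232 4 1039))))))))))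
(cons (mv 1231 (cons (fin 976 6 975)
(mv 1294 (cons (fin 1230 5 1038)
(mv 1295 (cons (fin 1358 5 1102)
(mv 1296 (cons (fin 1360 4 1103)
(fin 1232 4 1039)))))))))
(mv 1231 (cons (fin 976 6 975)
(mv 1295 (cons (fin 1104 6 1039)
(mv 1296 (cons (fin 1360 4 1103)
(fin 1232 4 1039)))))))))))
(mv 976 (cons (cons (mv 1167 (cons (fin 1231 6 975)
(mv 912 (cons (fin 1104 5 911)
(fin 848 5 847)))))
(mv 1167 (cons (fin 1231 6 975)
(mv 975 (cons (cons (mv 1230 (cons (fin 1166 5 974)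
(mv 1168 (cons (fin 1232 4 975)
(mv 1104 (cons (fin 911 7 911)
(mv 1169 (cons (fin 1102 0 1101)
(fin 1233 4 976)))))))))
(cons (mv 1166 (cons (fin 1230 5 974)
(mv 1102 (cons (fin 911 5 910)
(mv 1104 (cons (fin 1036 3 1036)
(mv 1165 (cons (fin 1164 1 1100)
(fin 1105 1 1101)))))))))
(mv 1168 (cons (fin 1232 4 975)
(mv 1104 (cons (fin 911 7 911)
(mv 1169 (cons (fin 1102 0 1101)
(fin 1233 4 976)))))))))
(cons (mv 1166 (cons (fin 1230 5 974)
(mv 1168 (cons (fin 1232 4 975)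
(mv 1169 (cons (fin 1102 3 1101)
(mv 1233 (cons (fin 1234 0 1166)
(fin 1104 4 976)))))))))
(cons (mv 1232 (cons (fin 1168 4 975)
(mv 1166 (cons (fin 1230 5 974)
(mv 911 (cons (fin 1102 5 910)
(mv 846 (cons (fin 910 7 846)
(mv 847 (cons (fin 782 7 782)
(fin 783 4 783)))))))))))
(mv 1230 (cons (fin 1166 5 974)
(mv 1168 (cons (fin 1232 4 975)
(mv 1104 (cons (fin 911 7 911)
(mv 1169 (cons (fin 1233 4 976)
(mv 1170 (cons (fin 1171 3 1103)
(mv 1234 (cons (fin 1235 0 1167)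
(mv 1106 (cons (fin 1107 2 1103)
(mv 977 (cons (fin 913 6 912)
(mv 978 (cons (fin 979 1 975)
(mv 1042 (cons (fin 1043 0 975)
(mv 914 (cons (fin 915 2 911)
(fin 1105 5 913))))))))))))))))))))))))))))))
(cons (mv 912 (cons (fin 848 5 847)
(mv 1104 (cons (cons (mv 1169 (cons (fin 1105 4 912)
(mv 1168 (cons (fin 1102 0 1101)
(fin 1233 4 976)))))
(mv 1169 (cons (fin 1105 4 912)
(mv 1168 (cons (fin 1233 4 976)
(mv 1232 (cons (fin 1296 7 1039)
(fin 975 7 975))))))))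
(cons (mv 1102 (cons (fin 1036 3 1036)
(mv 1164 (cons (fin 1165 1 1100)
(mv 911 (cons (fin 847 7 847)
(mv 975 (cons (fin 1166 5 910)
(fin 1168 7 911)))))))))
(mv 1169 (cons (fin 1105 4 912)
(mv 1102 (cons (fin 1036 3 1036)
(mv 1164 (cons (fin 1165 1 1100)
(mv 911 (cons (fin 847 7 847)
(mv 975 (cons (fin 1166 5 910)
(mv 910 (cons (fin 846 7 846)
(mv 978 (cons (fin 977 3 910)
(mv 913 (cons (fin 849 6 848)
(mv 914 (cons (fin 915 1 911)
(fin 979 0 911))))))))))))))))))))))))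
(mv 1167 (cons (fin 1231 6 975)
(mv 912 (cons (fin 848 5 847)
(fin 975 6 911))))))))))
(cons (cons (mv 1102 (cons (fin 1100 2 1036)
(mv 1167 (cons (cons (mv 1231 (cons (fin 976 6 975)
(mv 1294 (cons (fin 1230 5 1038)
(mv 1358 (cons (fin 1295 5 1102)
(mv 1232 (cons (fin 1296 4 1039)
(mv 1168 (cons (fin 975 4 975)
(mv 1169 (cons (fin 1166 3 1101)
(fin 1170 3 1102)))))))))))))
(cons (mv 1166 (cons (mv 1230 (cons (fin 975 5 974)
(fin 1294 7 1037)))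
(cons (mv 1168 (cons (fin 1169 3 1101)
(mv 975 (cons (fin 911 5 910)
(fin 1232 4 975)))))
(mv 1230 (cons (fin 1294 7 1037)
(mv 1165 (cons (fin 973 4 973)
(mv 1164 (cons (fin 1163 2 1099)
(mv 1228 (cons (fin 1227 1 1163)
(mv 1292 (cons (fin 1229 5 1036)
(fin 1356 6 1100))))))))))))))
(mv 1231 (cons (fin 976 6 975)
(mv 1294 (cons (fin 1230 5 1038)
(mv 1295 (cons (fin 1358 5 1102)
(mv 1296 (cons (fin 1360 4 1103)
(fin 1232 4 1039)))))))))))
(cons (mv 1231 (cons (fin 976 6 975)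
(mv 1296 (cons (fin 1232 4 1039)
(mv 1295 (cons (fin 1360 4 1103)
(mv 1358 (cons (fin 1294 5 1102)
(mv 1359 (cons (fin 1422 5 1166)
(fin 1166 7 1102)))))))))))
(cons (mv 1231 (cons (fin 976 6 975)
(mv 1296 (cons (fin 1232 4 1039)
(mv 1295 (cons (fin 1360 4 1103)
(mv 1166 (cons (fin 1359 7 1102)
(mv 975 (cons (fin 1230 5 974)
(fin 911 5 910)))))))))))
(mv 1231 (cons (fin 976 6 975)
(mv 1294 (cons (fin 1230 5 1038)
(mv 1295 (cons (fin 1358 5 1102)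
(mv 1359 (cons (fin 1166 7 1102)
(mv 1360 (cons (fin 1424 4 1167)
(fin 1296 4 1103)))))))))))))))))
(mv 1102 (cons (fin 1100 2 1036)
(mv 1104 (cons (fin 1036 3 1036)
(mv 1164 (cons (fin 1165 1 1100)
(mv 1168 (cons (fin 1169 0 1101)
(mv 1232 (cons (fin 1296 7 1039)
(mv 1297 (cons (fin 1233 4 1040)
(mv 1231 (cons (fin 1295 5 1039)
(mv 976 (cons (fin 1167 5 975)
(mv 912 (cons (fin 848 5 847)
(mv 913 (cons (fin 977 6 912)
(fin 849 6 848))))))))))))))))))))))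
(cons (mv 1102 (cons (fin 1100 2 1036)
(mv 1104 (cons (fin 1036 3 1036)
(mv 1168 (cons (fin 1169 0 1101)
(mv 1232 (cons (fin 1296 7 1039)
(fin 975 7 975)))))))))
(mv 1102 (cons (fin 1100 2 1036)
(mv 1104 (cons (fin 1036 3 1036)
(mv 1165 (cons (fin 1164 1 1100)
(mv 1166 (cons (fin 1105 1 1101)
(mv 1230 (cons (fin 1294 7 1037)
(fin 973 4 973)))))))))))))))
(mv 1038 (cons (cons (mv 1104 (cons (fin 1105 0 1037)
(mv 1103 (cons (fin 1036 0 1036)
(mv 972 (cons (fin 973 3 972)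
(mv 976 (cons (fin 977 2 973)
(mv 1167 (cons (fin 912 5 911)
(fin 1231 6 975)))))))))))
(mv 972 (cons (fin 973 3 972)
(mv 1036 (cons (fin 971 3 971)
(mv 976 (cons (fin 975 2 972)
(fin 977 2 973))))))))
(cons (mv 1104 (cons (fin 1105 0 1037)
(mv 1036 (cons (fin 1103 0 1036)
(mv 972 (cons (fin 971 3 971)
(fin 973 3 972)))))))
(cons (mv 1104 (cons (fin 1105 0 1037)
(mv 1103 (cons (fin 1036 0 1036)
(mv 976 (cons (fin 977 2 973)
(mv 1167 (cons (fin 912 5 911)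
(fin 1231 6 975)))))))))
(mv 1104 (cons (fin 1105 0 1037)
(mv 972 (cons (fin 973 3 972)
(mv 976 (cons (fin 977 2 973)
(mv 1168 (cons (mv 975 (cons (fin 1232 7 975)
(fin 911 7 911)))
(cons (mv 1231 (cons (fin 1167 5 975)
(mv 1232 (cons (fin 1295 5 1039)
(mv 1233 (cons (fin 1297 4 1040)
(fin 1169 4 976)))))))
(mv 1231 (cons (fin 1167 5 975)
(mv 1233 (cons (fin 1169 4 976)
(mv 911 (cons (fin 975 7 911)
(mv 912 (cons (fin 847 7 847)
(mv 848 (cons (fin 1103 5 847)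
(mv 849 (cons (fin 913 6 848)
(fin 785 6 784))))))))))))))))))))))))))))
(cons (cons (mv 1038 (cons (fin 1100 1 1036)
(mv 972 (cons (fin 973 3 972)
(mv 1036 (cons (fin 971 3 971)
(mv 976 (cons (fin 975 2 972)
(fin 977 2 973)))))))))
(mv 1038 (cons (fin 1100 1 1036)
(mv 1104 (cons (fin 1105 0 1037)
(mv 1036 (cons (fin 1103 0 1036)
(mv 972 (cons (fin 971 3 971)
(fin 973 3 972))))))))))
(cons (mv 1038 (cons (fin 1100 1 1036)
(mv 1104 (cons (fin 1105 0 1037)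
(mv 1103 (cons (fin 1036 0 1036)
(mv 976 (cons (fin 977 2 973)
(mv 1167 (cons (fin 912 5 911)
(fin 1231 6 975)))))))))))
(mv 1038 (cons (fin 1100 1 1036)
(mv 1104 (cons (fin 1105 0 1037)
(mv 972 (cons (fin 973 3 972)
(mv 976 (cons (fin 977 2 973)
(mv 1168 (cons (mv 975 (cons (fin 1232 7 975)
(fin 911 7 911)))
(cons (mv 1231 (cons (fin 1167 5 975)
(mv 1232 (cons (fin 1295 5 1039)
(mv 1233 (cons (fin 1297 4 1040)
(fin 1169 4 976)))))))
(mv 1231 (cons (fin 1167 5 975)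
(mv 1233 (cons (fin 1169 4 976)
(mv 911 (cons (fin 975 7 911)
(mv 912 (cons (fin 847 7 847)
(mv 848 (cons (fin 1103 5 847)
(mv 849 (cons (fin 913 6 848)
(fin 785 6 784))))))))))))))))))))))))))))))))
(cons (cons (cons (mv 1039 (cons (cons (mv 1038 (cons (fin 1100 1 1036)
(mv 1104 (cons (fin 1105 0 1037)
(mv 1103 (cons (fin 1036 0 1036)
(mv 972 (cons (fin 973 3 972)
(mv 976 (cons (fin 977 2 973)
(mv 1167 (cons (fin 912 5 911)
(fin 1231 6 975)))))))))))))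
(cons (mv 1103 (cons (cons (cons (mv 1102 (cons (fin 1100 2 1036)
(mv 1104 (cons (fin 1036 3 1036)
(mv 1164 (cons (fin 1165 1 1100)
(mv 1168 (cons (fin 1169 0 1101)
(mv 1232 (cons (fin 1296 7 1039)
(fin 975 7 975)))))))))))
(mv 976 (cons (cons (mv 1167 (cons (fin 1231 6 975)
(mv 912 (cons (fin 1104 5 911)
(fin 848 5 847)))))
(mv 1167 (cons (fin 1231 6 975)
(mv 975 (cons (mv 1232 (cons (fin 1168 4 975)
(mv 974 (cons (fin 910 7 910)
(mv 973 (cons (fin 1036 1 972)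
(fin 972 0 972)))))))
(cons (mv 974 (cons (fin 910 7 910)
(mv 973 (cons (fin 1036 1 972)
(fin 972 0 972)))))
(mv 1168 (cons (fin 1232 4 975)
(mv 1104 (cons (fin 911 7 911)
(mv 1169 (cons (fin 1233 4 976)
(mv 1170 (cons (fin 1171 3 1103)
(mv 1234 (cons (fin 1235 0 1167)
(mv 1106 (cons (fin 1107 2 1103)
(mv 1166 (cons (fin 1105 1 1102)
(mv 1165 (cons (fin 1100 3 1100)
(fin 1164 2 1100)))))))))))))))))))))))
(cons (mv 912 (cons (fin 848 5 847)
(mv 1104 (cons (mv 1169 (cons (fin 1105 4 912)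
(mv 1168 (cons (fin 1233 4 976)
(mv 1232 (cons (fin 1296 7 1039)
(fin 975 7 975)))))))
(cons (mv 911 (cons (fin 847 7 847)
(mv 1168 (cons (fin 975 7 911)
(mv 913 (cons (fin 977 6 912)
(fin 849 6 848)))))))
(mv 1105 (cons (fin 1169 4 912)
(mv 1106 (cons (fin 1107 3 1039)
(mv 1170 (cons (fin 1171 0 1103)
(mv 1042 (cons (fin 1043 2 1039)
(mv 911 (cons (fin 847 7 847)
(mv 913 (cons (fin 849 6 848)
(mv 978 (cons (fin 977 7 913)
(mv 979 (cons (fin 914 0 911)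
(fin 915 6 914))))))))))))))))))))))
(mv 1167 (cons (fin 1231 6 975)
(mv 912 (cons (fin 848 5 847)
(fin 975 6 911)))))))))
(cons (mv 976 (cons (cons (mv 1167 (cons (fin 1231 6 975)
(mv 912 (cons (fin 1104 5 911)
(fin 848 5 847)))))
(mv 1167 (cons (fin 1231 6 975)
(mv 975 (cons (mv 1232 (cons (fin 1168 4 975)
(mv 974 (cons (fin 910 7 910)
(mv 973 (cons (fin 1036 1 972)
(fin 972 0 972)))))))
(cons (mv 974 (cons (fin 910 7 910)
(mv 973 (cons (fin 1036 1 972)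
(fin 972 0 972)))))
(mv 1168 (cons (fin 1232 4 975)
(mv 1104 (cons (fin 911 7 911)
(mv 1169 (cons (fin 1102 0 1101)
(fin 1233 4 976)))))))))))))
(cons (mv 912 (cons (fin 848 5 847)
(mv 1104 (cons (cons (mv 1169 (cons (fin 1105 4 912)
(mv 1168 (cons (fin 1102 0 1101)
(fin 1233 4 976)))))
(mv 1169 (cons (fin 1105 4 912)
(mv 1168 (cons (fin 1233 4 976)
(mv 1232 (cons (fin 1296 7 1039)
(fin 975 7 975))))))))
(cons (mv 1102 (cons (fin 1036 3 1036)
(mv 1164 (cons (fin 1165 1 1100)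
(mv 911 (cons (fin 847 7 847)
(mv 975 (cons (fin 1166 5 910)
(fin 1168 7 911)))))))))
(mv 1169 (cons (fin 1105 4 912)
(mv 1102 (cons (fin 1036 3 1036)
(mv 1164 (cons (fin 1165 1 1100)
(mv 911 (cons (fin 847 7 847)
(mv 975 (cons (fin 1166 5 910)
(mv 910 (cons (fin 846 7 846)
(mv 977 (cons (fin 978 3 910)
(mv 913 (cons (fin 849 6 848)
(mv 974 (cons (fin 973 1 909)
(fin 914 1 910))))))))))))))))))))))))
(mv 1167 (cons (fin 1231 6 975)
(mv 912 (cons (fin 848 5 847)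
(fin 975 6 911))))))))
(mv 1102 (cons (fin 1100 2 1036)
(mv 975 (cons (cons (mv 911 (cons (fin 1166 5 910)
(mv 910 (cons (fin 846 7 846)
(mv 1167 (cons (fin 974 7 910)
(mv 976 (cons (fin 1231 6 975)
(fin 912 6 911)))))))))
(mv 1167 (cons (mv 976 (cons (fin 1231 6 975)
(fin 912 6 911)))
(mv 1168 (cons (fin 1232 4 975)
(mv 1169 (cons (fin 1166 3 1101)
(fin 1170 3 1102))))))))
(cons (mv 974 (cons (cons (mv 1167 (cons (fin 910 7 910)
(mv 976 (cons (fin 1231 6 975)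
(fin 912 6 911)))))
(mv 973 (cons (fin 972 0 972)
(mv 1165 (cons (fin 910 6 909)
(mv 1228 (cons (fin 1164 5 972)
(mv 1292 (cons (fin 1229 5 1036)
(mv 976 (cons (fin 1036 1 972)
(mv 912 (cons (fin 913 2 909)
(fin 848 5 847))))))))))))))
(cons (mv 973 (cons (fin 972 0 972)
(mv 976 (cons (fin 1036 1 972)
(mv 1167 (cons (fin 1231 6 975)
(fin 912 6 911)))))))
(mv 972 (cons (fin 973 0 972)
(mv 910 (cons (fin 1167 7 910)
(mv 846 (cons (fin 911 7 846)
(fin 782 4 782))))))))))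
(cons (mv 911 (cons (fin 1166 5 910)
(mv 910 (cons (fin 846 7 846)
(mv 848 (cons (fin 912 6 847)
(mv 847 (cons (fin 784 6 783)
(mv 976 (cons (fin 783 4 783)
(mv 977 (cons (fin 978 3 910)
(mv 849 (cons (fin 850 1 846)
(mv 913 (cons (fin 785 5 784)
(mv 974 (cons (fin 914 2 910)
(mv 973 (cons (fin 1036 1 972)
(fin 972 0 972)))))))))))))))))))))
(mv 911 (cons (fin 1166 5 910)
(mv 910 (cons (fin 846 7 846)
(mv 974 (cons (fin 1167 7 910)
(mv 973 (cons (fin 972 0 972)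
(fin 1165 6 909)))))))))))))))))
(cons (cons (mv 1102 (cons (fin 1100 2 1036)
(mv 1104 (cons (cons (mv 1164 (cons (fin 1165 1 1100)
(mv 1168 (cons (fin 1169 0 1101)
(mv 1232 (cons (fin 1296 7 1039)
(fin 975 7 975)))))))
(mv 1165 (cons (fin 1164 1 1100)
(mv 1105 (cons (fin 1166 1 1101)
(mv 1170 (cons (fin 1169 0 1102)
(mv 1106 (cons (fin 1107 3 1039)
(fin 1171 0 1103))))))))))
(cons (mv 1168 (cons (fin 1169 0 1101)
(mv 1232 (cons (fin 1296 7 1039)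
(fin 975 7 975)))))
(mv 1165 (cons (fin 1164 1 1100)
(mv 1166 (cons (fin 1105 1 1101)
(mv 975 (cons (fin 911 5 910)
(mv 1229 (cons (cons (mv 1357 (cons (fin 1293 6 1101)
(mv 1228 (cons (fin 1292 5 1036)
(mv 1168 (cons (fin 1167 1 1164)
(fin 1232 7 975)))))))
(mv 1292 (cons (fin 1228 5 1036)
(mv 1293 (cons (fin 1356 5 1100)
(fin 1357 6 1101))))))
(cons (mv 1228 (cons (fin 1292 5 1036)
(mv 1168 (cons (fin 1167 1 1164)
(fin 1232 7 975)))))
(cons (mv 1293 (cons (fin 1357 6 1101)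
(mv 1292 (cons (fin 1356 5 1100)
(mv 1294 (cons (fin 1358 4 1101)
(mv 1232 (cons (fin 1168 7 975)
(mv 1295 (cons (fin 1231 2 1228)
(mv 1360 (cons (fin 1359 0 1292)
(mv 1296 (cons (fin 1361 0 1293)
(fin 1233 2 1229)))))))))))))))
(mv 1357 (cons (fin 1293 6 1101)
(mv 1168 (cons (fin 1232 7 975)
(mv 1167 (cons (fin 1228 1 1164)
(mv 1231 (cons (fin 976 5 975)
(fin 1295 6 1039))))))))))))))))))))))))
(mv 1102 (cons (fin 1100 2 1036)
(mv 1104 (cons (fin 1036 3 1036)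
(mv 1164 (cons (fin 1165 1 1100)
(mv 1168 (cons (fin 1169 0 1101)
(mv 1232 (cons (fin 1296 7 1039)
(mv 1297 (cons (fin 1233 4 1040)
(mv 1231 (cons (fin 1295 5 1039)
(mv 976 (cons (fin 1167 5 975)
(mv 912 (cons (fin 848 5 847)
(mv 913 (cons (fin 977 6 912)
(fin 849 6 848))))))))))))))))))))))
(cons (mv 1102 (cons (fin 1100 2 1036)
(mv 1104 (cons (fin 1036 3 1036)
(mv 1165 (cons (fin 1164 1 1100)
(mv 1105 (cons (fin 1166 1 1101)
(mv 1170 (cons (fin 1169 0 1102)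
(mv 1106 (cons (fin 1107 3 1039)
(fin 1171 0 1103)))))))))))))
(cons (mv 1102 (cons (fin 1100 2 1036)
(mv 1104 (cons (fin 1036 3 1036)
(mv 1168 (cons (fin 1169 0 1101)
(mv 1232 (cons (fin 1296 7 1039)
(fin 975 7 975)))))))))
(mv 1102 (cons (fin 1100 2 1036)
(mv 1104 (cons (fin 1036 3 1036)
(mv 1165 (cons (fin 1164 1 1100)
(mv 1166 (cons (fin 1105 1 1101)
(mv 975 (cons (fin 911 5 910)
(mv 1229 (cons (cons (mv 1357 (cons (fin 1293 6 1101)
(mv 1228 (cons (fin 1292 5 1036)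
(mv 1168 (cons (fin 1167 1 1164)
(fin 1232 7 975)))))))
(mv 1292 (cons (fin 1228 5 1036)
(mv 1293 (cons (fin 1356 5 1100)
(fin 1357 6 1101))))))
(cons (mv 1228 (cons (fin 1292 5 1036)
(mv 1168 (cons (fin 1167 1 1164)
(fin 1232 7 975)))))
(cons (mv 1293 (cons (fin 1357 6 1101)
(mv 1292 (cons (fin 1356 5 1100)
(mv 1294 (cons (fin 1358 4 1101)
(mv 1232 (cons (fin 1168 7 975)
(mv 1295 (cons (fin 1231 2 1228)
(mv 1360 (cons (fin 1359 0 1292)
(mv 1296 (cons (fin 1361 0 1293)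
(fin 1233 2 1229)))))))))))))))
(mv 1357 (cons (fin 1293 6 1101)
(mv 1168 (cons (fin 1232 7 975)
(mv 1167 (cons (fin 1228 1 1164)
(mv 1231 (cons (fin 976 5 975)
(fin 1295 6 1039))))))))))))))))))))))))))))
(mv 1038 (cons (cons (mv 1104 (cons (fin 1105 0 1037)
(mv 1103 (cons (fin 1036 0 1036)
(mv 972 (cons (fin 973 3 972)
(mv 976 (cons (fin 977 2 973)
(mv 1167 (cons (fin 912 5 911)
(fin 1231 6 975)))))))))))
(mv 972 (cons (fin 973 3 972)
(mv 1036 (cons (fin 971 3 971)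
(mv 976 (cons (fin 975 2 972)
(fin 977 2 973))))))))
(cons (mv 1104 (cons (fin 1105 0 1037)
(mv 1103 (cons (fin 1036 0 1036)
(mv 976 (cons (fin 977 2 973)
(mv 1167 (cons (fin 912 5 911)
(fin 1231 6 975)))))))))
(cons (mv 1104 (cons (fin 1105 0 1037)
(mv 1036 (cons (fin 1103 0 1036)
(mv 972 (cons (fin 971 3 971)
(fin 973 3 972)))))))
(mv 1104 (cons (fin 1105 0 1037)
(mv 972 (cons (fin 973 3 972)
(mv 976 (cons (fin 977 2 973)
(mv 1168 (cons (mv 975 (cons (fin 1232 7 975)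
(fin 911 7 911)))
(cons (mv 1231 (cons (fin 1167 5 975)
(mv 1232 (cons (fin 1295 5 1039)
(mv 1233 (cons (fin 1297 4 1040)
(fin 1169 4 976)))))))
(mv 1231 (cons (fin 1167 5 975)
(mv 1233 (cons (fin 1169 4 976)
(mv 911 (cons (fin 975 7 911)
(mv 912 (cons (fin 847 7 847)
(mv 848 (cons (fin 1103 5 847)
(mv 849 (cons (fin 913 6 848)
(fin 785 6 784))))))))))))))))))))))))))))
(cons (cons (mv 1038 (cons (fin 1100 1 1036)
(mv 972 (cons (fin 973 3 972)
(mv 1036 (cons (fin 971 3 971)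
(mv 976 (cons (fin 975 2 972)
(fin 977 2 973)))))))))
(mv 1038 (cons (fin 1100 1 1036)
(mv 1104 (cons (fin 1105 0 1037)
(mv 1103 (cons (fin 1036 0 1036)
(mv 976 (cons (fin 977 2 973)
(mv 1167 (cons (fin 912 5 911)
(fin 1231 6 975))))))))))))
(cons (mv 1038 (cons (fin 1100 1 1036)
(mv 1104 (cons (fin 1105 0 1037)
(mv 1036 (cons (fin 1103 0 1036)
(mv 972 (cons (fin 971 3 971)
(fin 973 3 972)))))))))
(mv 1038 (cons (fin 1100 1 1036)
(mv 1104 (cons (fin 1105 0 1037)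
(mv 972 (cons (fin 973 3 972)
(mv 976 (cons (fin 977 2 973)
(mv 1168 (cons (mv 975 (cons (fin 1232 7 975)
(fin 911 7 911)))
(cons (mv 1231 (cons (fin 1167 5 975)
(mv 1232 (cons (fin 1295 5 1039)
(mv 1233 (cons (fin 1297 4 1040)
(fin 1169 4 976)))))))
(mv 1231 (cons (fin 1167 5 975)
(mv 1233 (cons (fin 1169 4 976)
(mv 911 (cons (fin 975 7 911)
(mv 912 (cons (fin 847 7 847)
(mv 848 (cons (fin 1103 5 847)
(mv 849 (cons (fin 913 6 848)
(fin 785 6 784))))))))))))))))))))))))))))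
(mv 1038 (cons (cons (mv 1039 (cons (fin 1100 1 1036)
(mv 972 (cons (fin 973 3 972)
(mv 1036 (cons (fin 971 3 971)
(mv 976 (cons (fin 975 2 972)
(fin 977 2 973)))))))))
(cons (mv 974 (cons (cons (mv 1165 (cons (fin 1229 6 973)
(mv 910 (cons (fin 1102 5 909)
(fin 846 5 845)))))
(mv 910 (cons (fin 846 5 845)
(mv 1102 (cons (cons (mv 1167 (cons (fin 1103 4 910)
(mv 1166 (cons (fin 1231 4 974)
(mv 1230 (cons (fin 1294 7 1037)
(fin 973 7 973)))))))
(mv 911 (cons (fin 847 6 846)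
(mv 1166 (cons (fin 975 6 910)
(mv 1230 (cons (fin 1294 7 1037)
(fin 973 7 973))))))))
(cons (mv 1103 (cons (fin 1167 4 910)
(mv 911 (cons (fin 847 6 846)
(mv 1100 (cons (mv 1163 (cons (fin 1164 1 1099)
(mv 1099 (cons (fin 1162 1 1098)
(fin 1098 2 1034)))))
(cons (mv 1164 (cons (fin 1163 1 1099)
(mv 1228 (cons (fin 1292 6 1036)
(mv 1036 (cons (fin 1035 3 1035)
(fin 973 6 972)))))))
(mv 1099 (cons (fin 1098 2 1034)
(mv 1035 (cons (fin 1034 3 1034)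
(fin 1036 3 1035))))))))))))
(mv 1167 (cons (fin 1103 4 910)
(mv 1166 (cons (fin 1231 4 974)
(mv 911 (cons (fin 975 6 910)
(fin 847 6 846)))))))))))))
(cons (mv 1165 (cons (fin 1229 6 973)
(mv 973 (cons (cons (mv 1228 (cons (fin 1164 5 972)
(mv 1230 (cons (fin 1166 4 973)
(mv 972 (cons (fin 908 7 908)
(mv 971 (cons (fin 970 0 970)
(mv 1035 (cons (fin 1034 1 970)
(mv 1036 (cons (fin 975 1 971)
(mv 1098 (cons (fin 1099 1 1034)
(mv 1102 (cons (fin 1103 0 1035)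
(mv 907 (cons (fin 906 3 906)
(mv 843 (cons (fin 1100 4 843)
(fin 779 4 779)))))))))))))))))))))
(cons (mv 1228 (cons (fin 1164 5 972)
(mv 1166 (cons (fin 1230 4 973)
(mv 975 (cons (mv 1036 (cons (fin 976 1 972)
(fin 1035 2 971)))
(mv 1102 (cons (fin 911 6 910)
(mv 1167 (cons (fin 1231 4 974)
(mv 1168 (cons (fin 1100 3 1100)
(fin 1169 3 1101)))))))))))))
(mv 1228 (cons (fin 1164 5 972)
(mv 972 (cons (fin 908 7 908)
(mv 971 (cons (fin 970 0 970)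
(mv 1035 (cons (fin 1034 1 970)
(mv 1036 (cons (fin 975 1 971)
(mv 1098 (cons (fin 1099 1 1034)
(mv 1102 (cons (fin 1103 0 1035)
(mv 907 (cons (fin 906 3 906)
(mv 843 (cons (fin 1100 4 843)
(fin 779 4 779)))))))))))))))))))))
(cons (cons (mv 1230 (cons (fin 1166 4 973)
(mv 972 (cons (fin 908 7 908)
(mv 971 (cons (fin 970 0 970)
(mv 1035 (cons (fin 1034 1 970)
(mv 1036 (cons (fin 975 1 971)
(mv 1098 (cons (fin 1099 1 1034)
(mv 1102 (cons (fin 1103 0 1035)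
(mv 907 (cons (fin 906 3 906)
(mv 843 (cons (fin 1100 4 843)
(fin 779 4 779)))))))))))))))))))
(mv 1230 (cons (fin 1166 4 973)
(mv 1164 (cons (fin 1228 5 972)
(mv 972 (cons (fin 908 7 908)
(mv 971 (cons (fin 970 0 970)
(mv 1035 (cons (fin 1034 1 970)
(mv 907 (cons (fin 906 3 906)
(mv 1099 (cons (fin 1100 4 907)
(mv 1162 (cons (fin 1098 5 906)
(mv 1163 (cons (fin 1102 2 1098)
(fin 1226 5 970))))))))))))))))))))
(cons (mv 1164 (cons (fin 1228 5 972)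
(mv 1166 (cons (fin 1230 4 973)
(mv 972 (cons (fin 908 7 908)
(mv 971 (cons (fin 970 0 970)
(mv 907 (cons (fin 906 3 906)
(mv 1100 (cons (fin 1036 7 907)
(mv 1167 (cons (fin 1099 3 1099)
(fin 1168 3 1100)))))))))))))))
(mv 1228 (cons (fin 1164 5 972)
(mv 1230 (cons (fin 1166 4 973)
(mv 972 (cons (fin 908 7 908)
(mv 971 (cons (fin 970 0 970)
(mv 1035 (cons (fin 1034 1 970)
(mv 975 (cons (fin 1036 1 971)
(mv 976 (cons (fin 977 1 973)
(mv 912 (cons (fin 911 2 908)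
(fin 913 2 909)))))))))))))))))))))))
(mv 1165 (cons (fin 1229 6 973)
(mv 910 (cons (fin 846 5 845)
(fin 973 6 909))))))))
(mv 974 (cons (cons (mv 1165 (cons (fin 1229 6 973)
(mv 910 (cons (fin 1102 5 909)
(fin 846 5 845)))))
(mv 910 (cons (fin 846 5 845)
(mv 1039 (cons (cons (mv 972 (cons (fin 973 3 972)
(mv 1036 (cons (fin 971 3 971)
(mv 975 (cons (fin 1035 2 971)
(fin 976 2 972)))))))
(mv 976 (cons (fin 977 2 973)
(mv 975 (cons (fin 1036 2 972)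
(mv 1103 (cons (fin 1167 7 910)
(mv 912 (cons (fin 848 5 847)
(mv 913 (cons (fin 973 2 909)
(mv 914 (cons (fin 911 1 910)
(fin 915 1 911))))))))))))))
(cons (mv 976 (cons (fin 977 2 973)
(mv 1036 (cons (fin 975 2 972)
(mv 971 (cons (fin 972 3 971)
(mv 1035 (cons (fin 970 3 970)
(mv 1102 (cons (fin 1034 0 1034)
(fin 1103 0 1035)))))))))))
(cons (mv 972 (cons (fin 973 3 972)
(mv 1036 (cons (fin 971 3 971)
(mv 1035 (cons (fin 975 2 971)
(mv 1102 (cons (fin 1034 0 1034)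
(fin 1103 0 1035)))))))))
(mv 973 (cons (fin 972 3 972)
(mv 976 (cons (fin 977 2 973)
(mv 912 (cons (cons (mv 1103 (cons (fin 848 5 847)
(mv 1167 (cons (fin 1231 7 974)
(fin 1102 4 910)))))
(mv 911 (cons (fin 913 1 909)
(mv 847 (cons (fin 1102 6 846)
(mv 783 (cons (fin 719 5 718)
(fin 848 7 783))))))))
(cons (mv 911 (cons (fin 913 1 909)
(mv 1102 (cons (fin 847 6 846)
(mv 1166 (cons (fin 1230 7 973)
(mv 1167 (cons (fin 1231 4 974)
(fin 1103 4 910)))))))))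
(mv 911 (cons (fin 913 1 909)
(mv 848 (cons (fin 1103 5 847)
(mv 847 (cons (fin 783 7 783)
(mv 849 (cons (fin 850 1 846)
(fin 785 6 784)))))))))))))))))))))))
(cons (mv 1229 (cons (fin 1165 6 973)
(mv 1036 (cons (mv 1035 (cons (fin 975 2 971)
(mv 1102 (cons (fin 1034 0 1034)
(fin 1103 0 1035)))))
(cons (mv 1039 (cons (mv 972 (cons (fin 971 3 971)
(fin 973 3 972)))
(mv 976 (cons (fin 975 2 972)
(fin 977 2 973)))))
(mv 1035 (cons (mv 1102 (cons (fin 1034 0 1034)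
(fin 1103 0 1035)))
(cons (mv 1099 (cons (fin 1098 1 1034)
(mv 1102 (cons (fin 1103 0 1035)
(mv 971 (cons (fin 970 3 970)
(mv 972 (cons (fin 1039 3 971)
(mv 1163 (cons (fin 1227 6 971)
(fin 908 6 907)))))))))))
(mv 1098 (cons (fin 1099 1 1034)
(mv 1034 (cons (fin 1097 1 1033)
(fin 973 2 970)))))))))))))
(mv 1165 (cons (fin 1229 6 973)
(mv 910 (cons (fin 846 5 845)
(fin 973 6 909))))))))))
(cons (cons (mv 1039 (cons (fin 1100 1 1036)
(mv 976 (cons (fin 977 2 973)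
(mv 1036 (cons (fin 975 2 972)
(mv 971 (cons (fin 972 3 971)
(mv 1035 (cons (fin 970 3 970)
(mv 1102 (cons (fin 1034 0 1034)
(fin 1103 0 1035)))))))))))))
(mv 1100 (cons (fin 1039 1 1036)
(mv 1098 (cons (fin 1099 2 1034)
(mv 974 (cons (cons (mv 1165 (cons (fin 1229 6 973)
(mv 910 (cons (fin 1102 5 909)
(fin 846 5 845)))))
(mv 910 (cons (fin 846 5 845)
(mv 1102 (cons (cons (mv 1167 (cons (fin 1103 4 910)
(mv 1166 (cons (fin 1231 4 974)
(mv 1230 (cons (fin 1294 7 1037)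
(fin 973 7 973)))))))
(mv 911 (cons (fin 847 6 846)
(mv 1166 (cons (fin 975 6 910)
(mv 1230 (cons (fin 1294 7 1037)
(fin 973 7 973))))))))
(cons (mv 1103 (cons (fin 1167 4 910)
(mv 1164 (cons (fin 1163 1 1099)
(mv 1228 (cons (fin 1292 6 1036)
(mv 1036 (cons (fin 1035 3 1035)
(fin 973 6 972)))))))))
(mv 1167 (cons (fin 1103 4 910)
(mv 1166 (cons (fin 1231 4 974)
(mv 911 (cons (fin 975 6 910)
(fin 847 6 846)))))))))))))
(cons (mv 1165 (cons (fin 1229 6 973)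
(mv 1164 (cons (mv 1228 (cons (fin 973 5 972)
(fin 1292 6 1036)))
(cons (mv 1166 (cons (mv 1230 (cons (fin 973 4 973)
(mv 1294 (cons (fin 1358 7 1101)
(fin 1102 7 1037)))))
(cons (mv 1167 (cons (fin 1168 3 1100)
(mv 1231 (cons (fin 1232 0 1164)
(fin 1102 4 974)))))
(mv 1230 (cons (fin 973 4 973)
(mv 1358 (cons (fin 1294 7 1101)
(mv 1231 (cons (fin 1163 0 1163)
(mv 1232 (cons (fin 1233 3 1165)
(fin 1167 0 1164))))))))))))
(mv 1228 (cons (fin 1292 6 1036)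
(mv 1036 (cons (mv 1035 (cons (fin 975 2 971)
(fin 971 7 971)))
(mv 1227 (cons (fin 1291 5 1035)
(mv 1226 (cons (fin 1225 2 1161)
(mv 1166 (cons (fin 1163 1 1162)
(fin 1167 1 1163))))))))))))))))
(mv 1165 (cons (fin 1229 6 973)
(mv 910 (cons (fin 846 5 845)
(fin 973 6 909)))))))))))))
(cons (mv 1039 (cons (fin 1100 1 1036)
(mv 973 (cons (fin 972 3 972)
(mv 976 (cons (fin 977 2 973)
(mv 1165 (cons (mv 974 (cons (fin 1229 6 973)
(fin 910 6 909)))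
(cons (mv 1228 (cons (fin 1164 5 972)
(mv 1229 (cons (fin 1292 5 1036)
(mv 1230 (cons (fin 1294 4 1037)
(fin 1166 4 973)))))))
(mv 1164 (cons (fin 1228 5 972)
(mv 1166 (cons (fin 1230 4 973)
(mv 974 (cons (fin 910 6 909)
(mv 1163 (cons (mv 1102 (cons (fin 1162 2 1098)
(fin 1103 2 1099)))
(cons (mv 1226 (cons (fin 1227 1 1162)
(mv 1162 (cons (fin 1225 1 1161)
(mv 1098 (cons (fin 1097 3 1097)
(fin 1099 3 1098)))))))
(mv 1226 (cons (fin 1227 1 1162)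
(mv 1098 (cons (fin 1099 3 1098)
(mv 1103 (cons (fin 1102 2 1099)
(mv 1167 (cons (fin 1231 7 974)
(mv 912 (cons (fin 848 5 847)
(fin 975 6 911)))))))))))))))))))))))))))))
(mv 1100 (cons (fin 1039 1 1036)
(mv 1098 (cons (fin 1099 2 1034)
(mv 1165 (cons (cons (mv 1229 (cons (fin 974 6 973)
(mv 1293 (cons (fin 1036 7 1036)
(fin 1102 6 1037)))))
(mv 973 (cons (cons (mv 1228 (cons (fin 1164 5 972)
(mv 1230 (cons (fin 1166 4 973)
(mv 972 (cons (fin 908 7 908)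
(mv 971 (cons (fin 970 0 970)
(mv 974 (cons (fin 910 6 909)
(mv 1035 (cons (fin 1034 1 970)
(mv 907 (cons (fin 906 3 906)
(mv 843 (cons (fin 1036 4 843)
(mv 778 (cons (fin 842 7 778)
(mv 779 (cons (fin 714 7 714)
(mv 780 (cons (fin 844 6 779)
(fin 716 6 715)))))))))))))))))))))))
(mv 1230 (cons (fin 1166 4 973)
(mv 972 (cons (fin 908 7 908)
(mv 971 (cons (fin 970 0 970)
(mv 974 (cons (fin 910 6 909)
(mv 1035 (cons (fin 1034 1 970)
(mv 907 (cons (fin 906 3 906)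
(mv 843 (cons (fin 1036 4 843)
(mv 778 (cons (fin 842 7 778)
(mv 779 (cons (fin 714 7 714)
(mv 780 (cons (fin 844 6 779)
(fin 716 6 715))))))))))))))))))))))
(cons (mv 1164 (cons (fin 1228 5 972)
(mv 1166 (cons (fin 1230 4 973)
(mv 1167 (cons (fin 1168 3 1100)
(mv 1231 (cons (fin 1232 0 1164)
(mv 974 (cons (fin 1102 4 974)
(fin 910 6 909)))))))))))
(cons (mv 1228 (cons (fin 1164 5 972)
(mv 972 (cons (fin 908 7 908)
(mv 971 (cons (fin 970 0 970)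
(mv 974 (cons (fin 910 6 909)
(mv 1035 (cons (fin 1034 1 970)
(mv 907 (cons (fin 906 3 906)
(mv 843 (cons (fin 1036 4 843)
(mv 778 (cons (fin 842 7 778)
(mv 779 (cons (fin 714 7 714)
(mv 780 (cons (fin 844 6 779)
(fin 716 6 715)))))))))))))))))))))
(mv 1230 (cons (fin 1166 4 973)
(mv 1164 (cons (fin 1228 5 972)
(mv 972 (cons (fin 908 7 908)
(mv 971 (cons (fin 970 0 970)
(mv 1036 (cons (fin 907 7 907)
(mv 1163 (cons (fin 1227 5 971)
(mv 1162 (cons (fin 1097 3 1097)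
(fin 1161 2 1097))))))))))))))))))))
(cons (mv 1229 (cons (mv 1293 (cons (fin 1036 7 1036)
(fin 1102 6 1037)))
(cons (mv 1292 (cons (fin 1228 5 1036)
(mv 1230 (cons (fin 1294 4 1037)
(mv 972 (cons (fin 1036 7 972)
(mv 973 (cons (fin 908 7 908)
(fin 1166 4 973)))))))))
(mv 1292 (cons (fin 1228 5 1036)
(mv 1293 (cons (fin 1356 5 1100)
(fin 1102 6 1037))))))))
(cons (mv 1229 (cons (fin 974 6 973)
(mv 1292 (cons (fin 1228 5 1036)
(mv 1293 (cons (fin 1356 5 1100)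
(fin 1102 6 1037)))))))
(mv 1229 (cons (fin 974 6 973)
(mv 1036 (cons (fin 1293 7 1036)
(fin 972 7 972))))))))))))))))))
(cons (mv 1038 (cons (cons (cons (mv 1039 (cons (fin 1100 1 1036)
(mv 1104 (cons (fin 1105 0 1037)
(mv 972 (cons (fin 973 3 972)
(mv 1036 (cons (fin 971 3 971)
(mv 976 (cons (fin 975 2 972)
(fin 977 2 973)))))))))))
(mv 1165 (cons (cons (mv 1229 (cons (fin 974 6 973)
(mv 1292 (cons (fin 1228 5 1036)
(mv 1293 (cons (fin 1356 5 1100)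
(fin 1102 6 1037)))))))
(mv 973 (cons (cons (mv 1228 (cons (fin 1164 5 972)
(mv 1230 (cons (fin 1166 4 973)
(mv 972 (cons (fin 908 7 908)
(mv 971 (cons (fin 970 0 970)
(mv 974 (cons (fin 910 6 909)
(mv 1035 (cons (fin 1034 1 970)
(mv 1036 (cons (fin 975 1 971)
(mv 1098 (cons (fin 1099 1 1034)
(mv 907 (cons (fin 906 3 906)
(mv 843 (cons (fin 1100 4 843)
(fin 779 4 779)))))))))))))))))))))
(cons (mv 1164 (cons (fin 1228 5 972)
(mv 1166 (cons (fin 1230 4 973)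
(mv 972 (cons (fin 908 7 908)
(mv 970 (cons (fin 971 0 970)
(mv 1099 (cons (mv 1098 (cons (fin 1163 3 1098)
(fin 1100 0 1098)))
(cons (mv 1163 (cons (fin 1098 3 1098)
(mv 1226 (cons (fin 1227 1 1162)
(mv 1162 (cons (fin 1225 1 1161)
(fin 1102 2 1098)))))))
(mv 1167 (cons (fin 1100 3 1099)
(mv 1232 (cons (fin 1231 0 1164)
(mv 1168 (cons (fin 1233 0 1165)
(mv 1169 (cons (fin 1102 3 1101)
(mv 1105 (cons (fin 1104 2 1101)
(fin 1106 2 1102))))))))))))))))))))))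
(mv 1228 (cons (fin 1164 5 972)
(mv 972 (cons (fin 908 7 908)
(mv 971 (cons (fin 970 0 970)
(mv 974 (cons (fin 910 6 909)
(mv 1035 (cons (fin 1034 1 970)
(mv 1036 (cons (fin 975 1 971)
(mv 1098 (cons (fin 1099 1 1034)
(mv 907 (cons (fin 906 3 906)
(mv 843 (cons (fin 1100 4 843)
(fin 779 4 779)))))))))))))))))))))
(cons (mv 1228 (cons (fin 1164 5 972)
(mv 1166 (cons (fin 1230 4 973)
(mv 974 (cons (fin 910 6 909)
(mv 975 (cons (mv 1036 (cons (fin 976 1 972)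
(fin 1035 2 971)))
(mv 1102 (cons (fin 911 6 910)
(mv 1167 (cons (fin 1231 4 974)
(mv 1168 (cons (fin 1100 3 1100)
(fin 1169 3 1101)))))))))))))))
(cons (mv 1230 (cons (fin 1166 4 973)
(mv 972 (cons (fin 908 7 908)
(mv 971 (cons (fin 970 0 970)
(mv 974 (cons (fin 910 6 909)
(mv 1035 (cons (fin 1034 1 970)
(mv 1036 (cons (fin 975 1 971)
(mv 1098 (cons (fin 1099 1 1034)
(mv 907 (cons (fin 906 3 906)
(mv 843 (cons (fin 1100 4 843)
(fin 779 4 779)))))))))))))))))))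
(mv 1228 (cons (fin 1164 5 972)
(mv 1230 (cons (fin 1166 4 973)
(mv 972 (cons (fin 908 7 908)
(mv 971 (cons (fin 970 0 970)
(mv 974 (cons (fin 910 6 909)
(mv 1035 (cons (fin 1034 1 970)
(mv 975 (cons (fin 1036 1 971)
(mv 976 (cons (fin 977 1 973)
(mv 912 (cons (fin 911 2 908)
(fin 913 2 909))))))))))))))))))))))))
(cons (mv 1229 (cons (mv 1292 (cons (fin 1228 5 1036)
(mv 1293 (cons (fin 1356 5 1100)
(fin 1102 6 1037)))))
(cons (mv 1292 (cons (fin 1228 5 1036)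
(mv 1230 (cons (fin 1294 4 1037)
(mv 972 (cons (fin 1036 7 972)
(mv 973 (cons (fin 908 7 908)
(fin 1166 4 973)))))))))
(mv 1293 (cons (fin 1102 6 1037)
(mv 1294 (cons (fin 1358 4 1101)
(fin 1230 4 1037))))))))
(cons (mv 1229 (cons (fin 974 6 973)
(mv 1292 (cons (fin 1228 5 1036)
(mv 1356 (cons (fin 1293 5 1100)
(mv 1230 (cons (fin 1294 4 1037)
(mv 972 (cons (fin 1036 7 972)
(mv 973 (cons (fin 908 7 908)
(fin 1166 4 973)))))))))))))
(mv 1229 (cons (fin 974 6 973)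
(mv 1293 (cons (fin 1102 6 1037)
(mv 1294 (cons (fin 1358 4 1101)
(fin 1230 4 1037))))))))))))
(cons (mv 1039 (cons (cons (mv 1104 (cons (fin 1105 0 1037)
(mv 972 (cons (fin 973 3 972)
(mv 1036 (cons (fin 971 3 971)
(mv 976 (cons (fin 975 2 972)
(fin 977 2 973)))))))))
(cons (mv 1104 (cons (fin 1105 0 1037)
(mv 976 (cons (fin 977 2 973)
(mv 975 (cons (fin 1036 2 972)
(mv 1168 (cons (fin 1232 7 975)
(fin 911 7 911)))))))))
(mv 1104 (cons (fin 1105 0 1037)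
(mv 972 (cons (fin 973 3 972)
(mv 1036 (cons (fin 971 3 971)
(mv 1165 (cons (fin 1229 7 972)
(mv 844 (cons (fin 908 4 844)
(mv 974 (cons (mv 910 (cons (fin 1102 5 909)
(fin 846 5 845)))
(cons (mv 1035 (cons (fin 975 2 971)
(mv 1098 (cons (fin 1099 1 1034)
(mv 1034 (cons (fin 1097 1 1033)
(fin 1102 0 1034)))))))
(mv 975 (cons (fin 1035 2 971)
(mv 846 (cons (fin 910 5 845)
(mv 847 (cons (fin 911 4 847)
(mv 845 (cons (cons (mv 1232 (cons (fin 1168 7 975)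
(mv 779 (cons (fin 780 3 779)
(mv 843 (cons (fin 778 3 778)
(mv 783 (cons (fin 782 2 779)
(fin 784 2 780)))))))))
(mv 783 (cons (fin 784 2 780)
(mv 843 (cons (fin 782 2 779)
(mv 906 (cons (fin 907 1 842)
(mv 842 (cons (fin 905 1 841)
(mv 778 (cons (fin 777 3 777)
(fin 779 3 778))))))))))))
(cons (mv 780 (cons (fin 779 3 779)
(mv 848 (cons (fin 781 3 780)
(mv 913 (cons (fin 912 0 845)
(mv 849 (cons (fin 914 0 846)
(mv 785 (cons (fin 784 2 781)
(fin 786 2 782)))))))))))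
(cons (mv 784 (cons (fin 783 2 780)
(mv 848 (cons (fin 785 2 781)
(mv 913 (cons (fin 912 0 845)
(mv 849 (cons (fin 914 0 846)
(mv 781 (cons (fin 780 3 780)
(fin 782 3 781)))))))))))
(mv 779 (cons (fin 780 3 779)
(mv 843 (cons (fin 778 3 778)
(mv 906 (cons (fin 907 1 842)
(mv 842 (cons (fin 905 1 841)
(mv 782 (cons (fin 781 2 778)
(fin 783 2 779))))))))))))))))))))))))))))))))))))
(cons (mv 972 (cons (fin 973 3 972)
(mv 1036 (cons (fin 971 3 971)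
(mv 976 (cons (fin 975 2 972)
(fin 977 2 973)))))))
(cons (mv 1104 (cons (fin 1105 0 1037)
(mv 972 (cons (fin 973 3 972)
(mv 976 (cons (fin 977 2 973)
(mv 1168 (cons (mv 975 (cons (fin 1232 7 975)
(fin 911 7 911)))
(cons (mv 1231 (cons (fin 1167 5 975)
(mv 1232 (cons (fin 1295 5 1039)
(mv 1233 (cons (fin 1297 4 1040)
(fin 1169 4 976)))))))
(mv 1167 (cons (fin 1231 5 975)
(mv 1169 (cons (fin 1233 4 976)
(mv 1166 (cons (fin 1102 3 1101)
(mv 1229 (cons (fin 1230 1 1165)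
(mv 1165 (cons (fin 1228 1 1164)
(fin 974 6 973))))))))))))))))))))
(mv 1104 (cons (fin 1105 0 1037)
(mv 976 (cons (fin 977 2 973)
(mv 1168 (cons (cons (mv 1231 (cons (fin 1167 5 975)
(mv 1232 (cons (fin 1295 5 1039)
(mv 1233 (cons (fin 1297 4 1040)
(fin 1169 4 976)))))))
(cons (mv 1233 (cons (fin 1169 4 976)
(mv 1232 (cons (fin 1297 4 1040)
(mv 973 (cons (fin 972 3 972)
(mv 1165 (cons (mv 1166 (cons (fin 1167 0 1165)
(fin 1230 4 973)))
(mv 974 (cons (fin 1229 6 973)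
(fin 910 6 909)))))))))))
(mv 1231 (cons (fin 1167 5 975)
(mv 1232 (cons (fin 1295 5 1039)
(mv 972 (cons (fin 973 3 972)
(mv 1036 (cons (fin 971 3 971)
(mv 1229 (cons (fin 1165 7 972)
(mv 1230 (cons (fin 1169 2 1165)
(mv 1292 (cons (fin 1293 1 1228)
(mv 1035 (cons (mv 1291 (cons (fin 1228 1 1227)
(mv 1296 (cons (fin 1297 0 1229)
(mv 1098 (cons (fin 1099 1 1034)
(mv 1034 (cons (fin 1097 1 1033)
(fin 1102 0 1034)))))))))
(cons (mv 1296 (cons (fin 1297 0 1229)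
(mv 1228 (cons (fin 1291 1 1227)
(mv 1163 (cons (fin 1164 3 1163)
(mv 1227 (cons (fin 1162 3 1162)
(fin 1099 4 1035)))))))))
(mv 1034 (cons (fin 1102 0 1034)
(mv 1097 (cons (fin 1098 1 1033)
(mv 1033 (cons (fin 1096 1 1032)
(mv 969 (cons (fin 968 3 968)
(fin 970 3 969))))))))))))))))))))))))))))
(cons (mv 1231 (cons (fin 1167 5 975)
(mv 1232 (cons (fin 1295 5 1039)
(mv 1297 (cons (fin 1233 4 1040)
(mv 1296 (cons (fin 1361 4 1104)
(mv 1298 (cons (fin 1299 3 1231)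
(mv 1229 (cons (fin 1230 0 1229)
(mv 1165 (cons (fin 974 6 973)
(mv 972 (cons (fin 973 3 972)
(fin 1036 7 972)))))))))))))))))
(cons (mv 972 (cons (fin 973 3 972)
(mv 1036 (cons (fin 971 3 971)
(mv 1229 (cons (fin 1165 7 972)
(mv 908 (cons (fin 844 4 844)
(mv 1232 (cons (mv 1233 (cons (fin 1297 4 1040)
(fin 1169 4 976)))
(cons (mv 1295 (cons (fin 1231 5 1039)
(mv 1296 (cons (fin 1359 5 1103)
(mv 1297 (cons (fin 1361 4 1104)
(mv 1294 (cons (fin 1230 3 1229)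
(mv 1357 (cons (fin 1358 1 1293)
(mv 1293 (cons (fin 1356 1 1292)
(fin 1228 3 1228)))))))))))))
(mv 1231 (cons (fin 1295 5 1039)
(mv 1169 (cons (fin 1230 2 1165)
(fin 1233 4 976))))))))))))))))
(mv 1167 (cons (fin 1231 5 975)
(mv 1169 (cons (fin 1233 4 976)
(mv 1166 (cons (fin 1102 3 1101)
(mv 1229 (cons (fin 1230 1 1165)
(mv 1165 (cons (fin 1228 1 1164)
(fin 974 6 973)))))))))))))))))))))))
(mv 1039 (cons (fin 1100 1 1036)
(mv 1104 (cons (fin 1105 0 1037)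
(mv 976 (cons (fin 977 2 973)
(mv 1036 (cons (fin 975 2 972)
(mv 971 (cons (fin 972 3 971)
(mv 1035 (cons (fin 970 3 970)
(mv 1098 (cons (fin 1099 1 1034)
(mv 1034 (cons (fin 1097 1 1033)
(fin 1102 0 1034)))))))))))))))))))
(cons (cons (mv 1039 (cons (fin 1100 1 1036)
(mv 1104 (cons (fin 1105 0 1037)
(mv 976 (cons (fin 977 2 973)
(mv 975 (cons (fin 1036 2 972)
(mv 1168 (cons (fin 1232 7 975)
(fin 911 7 911)))))))))))
(mv 1100 (cons (fin 1039 1 1036)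
(mv 1098 (cons (fin 1099 2 1034)
(mv 1165 (cons (cons (mv 1229 (cons (fin 974 6 973)
(mv 1293 (cons (fin 1036 7 1036)
(fin 1102 6 1037)))))
(mv 973 (cons (cons (mv 1228 (cons (fin 1164 5 972)
(mv 1230 (cons (fin 1166 4 973)
(mv 972 (cons (fin 908 7 908)
(mv 971 (cons (fin 970 0 970)
(mv 974 (cons (fin 910 6 909)
(mv 1035 (cons (fin 1034 1 970)
(mv 1036 (cons (fin 975 1 971)
(mv 907 (cons (fin 906 3 906)
(fin 843 4 843)))))))))))))))))
(mv 1230 (cons (fin 1166 4 973)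
(mv 972 (cons (fin 908 7 908)
(mv 971 (cons (fin 970 0 970)
(mv 974 (cons (fin 910 6 909)
(mv 1035 (cons (fin 1034 1 970)
(mv 1036 (cons (fin 975 1 971)
(mv 907 (cons (fin 906 3 906)
(fin 843 4 843))))))))))))))))
(cons (mv 1230 (cons (fin 1166 4 973)
(mv 1164 (cons (fin 1228 5 972)
(mv 972 (cons (fin 908 7 908)
(mv 971 (cons (fin 970 0 970)
(mv 1036 (cons (fin 907 7 907)
(mv 1163 (cons (fin 1227 5 971)
(mv 1162 (cons (fin 1097 3 1097)
(fin 1161 2 1097)))))))))))))))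
(cons (mv 1164 (cons (fin 1228 5 972)
(mv 1166 (cons (fin 1230 4 973)
(mv 1167 (cons (fin 1168 3 1100)
(mv 1231 (cons (fin 1232 0 1164)
(mv 974 (cons (fin 1102 4 974)
(fin 910 6 909)))))))))))
(mv 1228 (cons (fin 1164 5 972)
(mv 972 (cons (fin 908 7 908)
(mv 971 (cons (fin 970 0 970)
(mv 974 (cons (fin 910 6 909)
(mv 1035 (cons (fin 1034 1 970)
(mv 1036 (cons (fin 975 1 971)
(mv 907 (cons (fin 906 3 906)
(fin 843 4 843))))))))))))))))))))
(cons (mv 1229 (cons (mv 1293 (cons (fin 1036 7 1036)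
(fin 1102 6 1037)))
(cons (mv 1292 (cons (fin 1228 5 1036)
(mv 1230 (cons (fin 1294 4 1037)
(mv 972 (cons (fin 1036 7 972)
(mv 973 (cons (fin 908 7 908)
(fin 1166 4 973)))))))))
(mv 1292 (cons (fin 1228 5 1036)
(mv 1293 (cons (fin 1356 5 1100)
(fin 1102 6 1037))))))))
(cons (mv 1229 (cons (fin 974 6 973)
(mv 1292 (cons (fin 1228 5 1036)
(mv 1293 (cons (fin 1356 5 1100)
(fin 1102 6 1037)))))))
(mv 1229 (cons (fin 974 6 973)
(mv 1036 (cons (fin 1293 7 1036)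
(fin 972 7 972))))))))))))))
(cons (mv 1039 (cons (fin 1100 1 1036)
(mv 1104 (cons (fin 1105 0 1037)
(mv 972 (cons (fin 973 3 972)
(mv 976 (cons (fin 977 2 973)
(mv 1168 (cons (mv 975 (cons (fin 1232 7 975)
(fin 911 7 911)))
(cons (mv 1231 (cons (fin 1167 5 975)
(mv 1232 (cons (fin 1295 5 1039)
(mv 1233 (cons (fin 1297 4 1040)
(fin 1169 4 976)))))))
(mv 1167 (cons (fin 1231 5 975)
(mv 1169 (cons (fin 1233 4 976)
(mv 1166 (cons (fin 1102 3 1101)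
(mv 1229 (cons (fin 1230 1 1165)
(mv 1165 (cons (fin 1228 1 1164)
(fin 974 6 973))))))))))))))))))))))
(mv 1039 (cons (fin 1100 1 1036)
(mv 1104 (cons (fin 1105 0 1037)
(mv 976 (cons (fin 977 2 973)
(mv 1168 (cons (cons (mv 1231 (cons (fin 1167 5 975)
(mv 1232 (cons (fin 1295 5 1039)
(mv 1233 (cons (fin 1297 4 1040)
(fin 1169 4 976)))))))
(cons (mv 1233 (cons (fin 1169 4 976)
(mv 1232 (cons (fin 1297 4 1040)
(mv 973 (cons (fin 972 3 972)
(mv 1165 (cons (mv 1166 (cons (fin 1167 0 1165)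
(fin 1230 4 973)))
(mv 974 (cons (fin 1229 6 973)
(fin 910 6 909)))))))))))
(mv 1231 (cons (fin 1167 5 975)
(mv 1232 (cons (fin 1295 5 1039)
(mv 972 (cons (fin 973 3 972)
(mv 1036 (cons (fin 971 3 971)
(mv 1229 (cons (fin 1165 7 972)
(mv 1230 (cons (fin 1169 2 1165)
(mv 1292 (cons (fin 1293 1 1228)
(mv 1035 (cons (mv 1291 (cons (fin 1228 1 1227)
(mv 1296 (cons (fin 1297 0 1229)
(mv 1098 (cons (fin 1099 1 1034)
(mv 1034 (cons (fin 1097 1 1033)
(fin 1102 0 1034)))))))))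
(cons (mv 1296 (cons (fin 1297 0 1229)
(mv 1228 (cons (fin 1291 1 1227)
(mv 1163 (cons (fin 1164 3 1163)
(mv 1227 (cons (fin 1162 3 1162)
(fin 1099 4 1035)))))))))
(mv 1034 (cons (fin 1102 0 1034)
(mv 1097 (cons (fin 1098 1 1033)
(mv 1033 (cons (fin 1096 1 1032)
(mv 969 (cons (fin 968 3 968)
(fin 970 3 969))))))))))))))))))))))))))))
(cons (mv 1231 (cons (fin 1167 5 975)
(mv 1232 (cons (fin 1295 5 1039)
(mv 1297 (cons (fin 1233 4 1040)
(mv 1296 (cons (fin 1361 4 1104)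
(mv 1298 (cons (fin 1299 3 1231)
(mv 1229 (cons (fin 1230 0 1229)
(mv 1165 (cons (fin 974 6 973)
(mv 972 (cons (fin 973 3 972)
(fin 1036 7 972)))))))))))))))))
(cons (mv 972 (cons (fin 973 3 972)
(mv 1036 (cons (fin 971 3 971)
(mv 1229 (cons (fin 1165 7 972)
(mv 908 (cons (fin 844 4 844)
(mv 1232 (cons (mv 1233 (cons (fin 1297 4 1040)
(fin 1169 4 976)))
(cons (mv 1295 (cons (fin 1231 5 1039)
(mv 1296 (cons (fin 1359 5 1103)
(mv 1297 (cons (fin 1361 4 1104)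
(mv 1294 (cons (fin 1230 3 1229)
(mv 1357 (cons (fin 1358 1 1293)
(mv 1293 (cons (fin 1356 1 1292)
(fin 1228 3 1228)))))))))))))
(mv 1231 (cons (fin 1295 5 1039)
(mv 1169 (cons (fin 1230 2 1165)
(fin 1233 4 976))))))))))))))))
(mv 1167 (cons (fin 1231 5 975)
(mv 1169 (cons (fin 1233 4 976)
(mv 1166 (cons (fin 1102 3 1101)
(mv 1229 (cons (fin 1230 1 1165)
(mv 1165 (cons (fin 1228 1 1164)
(fin 974 6 973)))))))))))))))))))))))))
(cons (mv 1100 (cons (cons (cons (mv 1038 (cons (fin 1039 1 1036)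
(mv 1099 (cons (fin 1098 2 1034)
(mv 1102 (cons (cons (mv 1162 (cons (fin 1163 1 1098)
(mv 1035 (cons (fin 1034 3 1034)
(mv 1103 (cons (fin 1036 3 1035)
(mv 1167 (cons (fin 1168 0 1100)
(mv 1295 (cons (fin 1231 7 1038)
(mv 1104 (cons (fin 1105 3 1037)
(mv 1165 (cons (fin 1164 1 1100)
(mv 1229 (cons (fin 1293 6 1037)
(fin 974 6 973)))))))))))))))))
(cons (mv 1163 (cons (fin 1162 1 1098)
(mv 1164 (cons (fin 1103 1 1099)
(mv 1228 (cons (fin 1292 6 1036)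
(mv 973 (cons (fin 1165 5 972)
(fin 1036 6 972)))))))))
(mv 1035 (cons (fin 1034 3 1034)
(mv 1103 (cons (fin 1036 3 1035)
(mv 1167 (cons (fin 1168 0 1100)
(mv 1295 (cons (fin 1231 7 1038)
(mv 1104 (cons (fin 1105 3 1037)
(mv 1165 (cons (fin 1164 1 1100)
(mv 1229 (cons (fin 1293 6 1037)
(fin 974 6 973)))))))))))))))))
(cons (mv 1162 (cons (fin 1163 1 1098)
(mv 1035 (cons (fin 1034 3 1034)
(mv 974 (cons (mv 1165 (cons (fin 910 5 909)
(fin 1229 6 973)))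
(mv 1036 (cons (fin 975 2 971)
(mv 971 (cons (fin 970 3 970)
(mv 1164 (cons (fin 1228 7 971)
(fin 907 4 907)))))))))))))
(cons (mv 1163 (cons (fin 1162 1 1098)
(mv 1164 (cons (fin 1103 1 1099)
(mv 1292 (cons (fin 1228 6 1036)
(mv 1035 (cons (fin 1034 3 1034)
(mv 971 (cons (fin 907 4 907)
(mv 970 (cons (fin 906 7 906)
(mv 972 (cons (fin 973 0 970)
(fin 908 6 907)))))))))))))))
(mv 1162 (cons (fin 1163 1 1098)
(mv 1035 (cons (fin 1034 3 1034)
(mv 1103 (cons (fin 1036 3 1035)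
(mv 1168 (cons (fin 1167 0 1100)
(mv 1104 (cons (fin 1105 3 1037)
(fin 1169 0 1101)))))))))))))))))))
(mv 1102 (cons (mv 1103 (cons (fin 1039 2 1036)
(mv 1036 (cons (fin 1035 3 1035)
(fin 1104 3 1036)))))
(cons (mv 1099 (cons (cons (mv 1162 (cons (fin 1163 1 1098)
(mv 1098 (cons (fin 1161 1 1097)
(mv 1034 (cons (fin 1033 3 1033)
(fin 1035 3 1034)))))))
(mv 1162 (cons (fin 1163 1 1098)
(mv 1098 (cons (fin 1161 1 1097)
(mv 1164 (cons (cons (mv 1097 (cons (fin 1165 0 1097)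
(fin 1036 2 1033)))
(mv 1228 (cons (fin 1292 6 1036)
(mv 973 (cons (fin 1165 5 972)
(fin 1036 6 972))))))
(cons (mv 1228 (cons (fin 1292 6 1036)
(mv 1165 (cons (fin 1097 0 1097)
(fin 973 5 972)))))
(mv 1228 (cons (fin 1292 6 1036)
(mv 1036 (cons (fin 1097 2 1033)
(fin 973 6 972)))))))))))))
(cons (mv 1034 (cons (fin 1035 3 1034)
(mv 1098 (cons (fin 1033 3 1033)
(mv 1097 (cons (fin 1036 2 1033)
(mv 1160 (cons (fin 1161 1 1096)
(mv 1164 (cons (fin 1165 0 1097)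
(mv 1096 (cons (fin 1159 1 1095)
(fin 1163 0 1096)))))))))))))
(cons (mv 1034 (cons (fin 1035 3 1034)
(mv 1098 (cons (fin 1033 3 1033)
(mv 1161 (cons (fin 1162 1 1097)
(mv 1097 (cons (fin 1160 1 1096)
(fin 1036 2 1033)))))))))
(mv 1163 (cons (fin 1162 1 1098)
(mv 1035 (cons (fin 1034 3 1034)
(mv 1164 (cons (mv 1228 (cons (fin 1292 7 1035)
(fin 971 4 971)))
(cons (mv 971 (cons (fin 907 4 907)
(mv 970 (cons (fin 906 7 906)
(mv 972 (cons (fin 908 6 907)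
(mv 1036 (cons (fin 969 0 969)
(fin 1227 5 971)))))))))
(mv 1228 (cons (fin 1292 7 1035)
(mv 973 (cons (fin 1165 5 972)
(fin 1036 6 972))))))))))))))))
(mv 1103 (cons (fin 1039 2 1036)
(mv 1164 (cons (fin 1163 1 1099)
(mv 1292 (cons (fin 1228 6 1036)
(mv 1168 (cons (fin 1167 0 1100)
(mv 1104 (cons (fin 1165 1 1100)
(fin 1169 0 1101)))))))))))))))
(cons (mv 1099 (cons (cons (mv 1098 (cons (fin 1038 2 1034)
(mv 1161 (cons (fin 1162 1 1097)
(mv 1097 (cons (fin 1160 1 1096)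
(fin 1036 2 1033)))))))
(mv 1102 (cons (cons (mv 1162 (cons (fin 1163 1 1098)
(mv 1035 (cons (fin 1034 3 1034)
(mv 1103 (cons (fin 1036 3 1035)
(mv 1168 (cons (fin 1167 0 1100)
(mv 1104 (cons (fin 1169 0 1101)
(mv 1165 (cons (fin 1164 1 1100)
(mv 1038 (cons (fin 1105 3 1037)
(mv 1229 (cons (fin 1293 6 1037)
(fin 974 6 973)))))))))))))))))
(cons (mv 1163 (cons (fin 1162 1 1098)
(mv 1164 (cons (fin 1103 1 1099)
(mv 1228 (cons (fin 1292 6 1036)
(mv 973 (cons (fin 1165 5 972)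
(fin 1036 6 972)))))))))
(mv 1035 (cons (fin 1034 3 1034)
(mv 1103 (cons (fin 1036 3 1035)
(mv 1168 (cons (fin 1167 0 1100)
(mv 1104 (cons (fin 1169 0 1101)
(mv 1165 (cons (fin 1164 1 1100)
(mv 1038 (cons (fin 1105 3 1037)
(mv 1229 (cons (fin 1293 6 1037)
(fin 974 6 973)))))))))))))))))
(cons (mv 1163 (cons (fin 1162 1 1098)
(mv 1035 (cons (fin 1034 3 1034)
(mv 1164 (cons (mv 1228 (cons (fin 1292 7 1035)
(fin 971 4 971)))
(cons (mv 971 (cons (fin 907 4 907)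
(mv 970 (cons (fin 906 7 906)
(mv 1036 (cons (fin 1038 3 970)
(mv 1227 (cons (fin 972 5 971)
(fin 1291 6 1035)))))))))
(mv 1228 (cons (fin 1292 7 1035)
(mv 973 (cons (fin 1165 5 972)
(fin 1036 6 972))))))))))))
(cons (mv 1163 (cons (fin 1162 1 1098)
(mv 1164 (cons (fin 1103 1 1099)
(mv 1228 (cons (fin 1292 6 1036)
(mv 1035 (cons (fin 1034 3 1034)
(fin 971 4 971)))))))))
(mv 1163 (cons (fin 1162 1 1098)
(mv 1035 (cons (fin 1034 3 1034)
(mv 1036 (cons (fin 1103 3 1035)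
(mv 1227 (cons (fin 1291 6 1035)
(fin 972 6 971))))))))))))))
(cons (mv 1098 (cons (mv 1161 (cons (fin 1162 1 1097)
(mv 1097 (cons (fin 1160 1 1096)
(fin 1036 2 1033)))))
(cons (mv 1162 (cons (fin 1161 1 1097)
(mv 1163 (cons (fin 1102 1 1098)
(mv 1034 (cons (fin 1033 3 1033)
(mv 1227 (cons (fin 1291 7 1034)
(fin 970 4 970)))))))))
(mv 1097 (cons (fin 1036 2 1033)
(mv 1033 (cons (fin 1032 3 1032)
(fin 1034 3 1033))))))))
(cons (mv 1098 (cons (fin 1038 2 1034)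
(mv 1097 (cons (fin 1036 2 1033)
(mv 1033 (cons (fin 1032 3 1032)
(fin 1034 3 1033)))))))
(mv 1098 (cons (fin 1038 2 1034)
(mv 1161 (cons (fin 1162 1 1097)
(mv 1097 (cons (fin 1160 1 1096)
(mv 1033 (cons (fin 1032 3 1032)
(fin 1034 3 1033)))))))))))))
(mv 1038 (cons (fin 1039 1 1036)
(mv 1036 (cons (cons (mv 1098 (cons (fin 1099 2 1034)
(mv 1035 (cons (mv 1034 (cons (fin 1097 1 1033)
(fin 1033 0 1033)))
(mv 970 (cons (fin 971 3 970)
(mv 974 (cons (fin 975 2 971)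
(mv 1165 (cons (fin 1229 6 973)
(mv 910 (cons (fin 846 5 845)
(fin 973 6 909)))))))))))))
(mv 1165 (cons (mv 1229 (cons (fin 1293 7 1036)
(fin 972 7 972)))
(cons (mv 972 (cons (fin 908 4 908)
(mv 1164 (cons (mv 1228 (cons (fin 973 5 972)
(fin 1292 6 1036)))
(mv 1227 (cons (fin 1163 5 971)
(mv 971 (cons (fin 907 7 907)
(mv 970 (cons (fin 1035 3 970)
(fin 969 0 969)))))))))))
(mv 1229 (cons (fin 1293 7 1036)
(fin 974 6 973)))))))
(cons (mv 1098 (cons (fin 1099 2 1034)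
(mv 1035 (cons (mv 1034 (cons (fin 1097 1 1033)
(fin 1033 0 1033)))
(mv 971 (cons (fin 970 3 970)
(mv 1164 (cons (fin 1228 7 971)
(mv 907 (cons (fin 972 7 907)
(fin 843 4 843)))))))))))
(cons (mv 1098 (cons (fin 1099 2 1034)
(mv 1165 (cons (mv 1229 (cons (fin 1293 7 1036)
(fin 972 7 972)))
(cons (mv 972 (cons (fin 908 4 908)
(mv 1164 (cons (mv 1228 (cons (fin 973 5 972)
(fin 1292 6 1036)))
(cons (mv 1227 (cons (fin 1163 5 971)
(mv 971 (cons (fin 907 7 907)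
(mv 970 (cons (fin 969 0 969)
(fin 973 0 970)))))))
(mv 1292 (cons (fin 1228 6 1036)
(mv 1163 (cons (fin 1227 5 971)
(mv 1162 (cons (fin 1097 3 1097)
(fin 1161 2 1097))))))))))))
(mv 1229 (cons (fin 1293 7 1036)
(fin 974 6 973))))))))
(mv 1098 (cons (fin 1099 2 1034)
(mv 1165 (cons (mv 1229 (cons (fin 1293 7 1036)
(fin 972 7 972)))
(cons (mv 972 (cons (fin 908 4 908)
(mv 1164 (cons (mv 1228 (cons (fin 973 5 972)
(fin 1292 6 1036)))
(mv 1163 (cons (fin 1227 5 971)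
(mv 1162 (cons (fin 1097 3 1097)
(fin 1161 2 1097)))))))))
(mv 1229 (cons (fin 1293 7 1036)
(fin 974 6 973))))))))))))))))
(cons (cons (mv 1039 (cons (fin 1038 1 1036)
(mv 1103 (cons (fin 1102 2 1036)
(mv 976 (cons (cons (mv 1167 (cons (fin 1231 6 975)
(mv 912 (cons (fin 1104 5 911)
(fin 848 5 847)))))
(mv 1167 (cons (fin 1231 6 975)
(mv 975 (cons (mv 1232 (cons (fin 1168 4 975)
(mv 974 (cons (fin 910 7 910)
(mv 973 (cons (fin 1036 1 972)
(fin 972 0 972)))))))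
(cons (mv 974 (cons (fin 910 7 910)
(mv 973 (cons (fin 1036 1 972)
(fin 972 0 972)))))
(mv 1168 (cons (fin 1232 4 975)
(mv 1104 (cons (fin 911 7 911)
(mv 1169 (cons (fin 1233 4 976)
(mv 1170 (cons (fin 1171 3 1103)
(mv 1234 (cons (fin 1235 0 1167)
(mv 1106 (cons (fin 1107 2 1103)
(mv 977 (cons (fin 913 6 912)
(mv 978 (cons (fin 979 1 975)
(mv 1042 (cons (fin 1043 0 975)
(mv 914 (cons (fin 915 2 911)
(fin 1105 5 913)))))))))))))))))))))))))))
(cons (mv 912 (cons (fin 848 5 847)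
(mv 1104 (cons (mv 1169 (cons (fin 1105 4 912)
(mv 1168 (cons (fin 1233 4 976)
(mv 1232 (cons (fin 1296 7 1039)
(fin 975 7 975)))))))
(cons (mv 911 (cons (fin 847 7 847)
(mv 1168 (cons (fin 975 7 911)
(mv 913 (cons (fin 977 6 912)
(fin 849 6 848)))))))
(mv 1105 (cons (fin 1169 4 912)
(mv 1106 (cons (fin 1107 3 1039)
(mv 1170 (cons (fin 1171 0 1103)
(mv 1042 (cons (fin 1043 2 1039)
(mv 911 (cons (fin 847 7 847)
(mv 913 (cons (fin 849 6 848)
(mv 978 (cons (fin 977 7 913)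
(mv 979 (cons (fin 914 0 911)
(fin 915 6 914))))))))))))))))))))))
(mv 1167 (cons (fin 1231 6 975)
(mv 912 (cons (fin 848 5 847)
(fin 975 6 911))))))))))))
(mv 1038 (cons (fin 1039 1 1036)
(mv 1099 (cons (fin 1098 2 1034)
(mv 974 (cons (cons (mv 1165 (cons (fin 1229 6 973)
(mv 910 (cons (fin 1102 5 909)
(fin 846 5 845)))))
(mv 910 (cons (fin 846 5 845)
(mv 1102 (cons (cons (mv 1162 (cons (fin 1163 1 1098)
(mv 1103 (cons (fin 1167 4 910)
(mv 1104 (cons (fin 1105 3 1037)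
(mv 1168 (cons (fin 1169 0 1101)
(mv 1034 (cons (fin 1035 3 1034)
(mv 911 (cons (fin 847 6 846)
(mv 976 (cons (fin 975 7 911)
(mv 913 (cons (fin 977 6 912)
(mv 912 (cons (fin 973 1 909)
(fin 849 6 848)))))))))))))))))))
(mv 1163 (cons (fin 1162 1 1098)
(mv 1035 (cons (fin 1034 3 1034)
(mv 911 (cons (fin 847 6 846)
(mv 971 (cons (mv 1164 (cons (fin 1228 4 971)
(fin 907 4 907)))
(mv 972 (cons (fin 973 2 907)
(fin 908 6 907))))))))))))
(cons (mv 1103 (cons (fin 1167 4 910)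
(mv 1104 (cons (fin 1105 3 1037)
(mv 1168 (cons (fin 1169 0 1101)
(mv 1034 (cons (fin 1035 3 1034)
(mv 911 (cons (fin 847 6 846)
(mv 976 (cons (fin 975 7 911)
(mv 913 (cons (fin 977 6 912)
(mv 912 (cons (fin 973 1 909)
(fin 849 6 848)))))))))))))))))
(mv 1163 (cons (fin 1162 1 1098)
(mv 1103 (cons (fin 1164 1 1099)
(fin 1167 4 910)))))))))))
(cons (mv 1165 (cons (fin 1229 6 973)
(mv 1164 (cons (mv 1228 (cons (fin 973 5 972)
(fin 1292 6 1036)))
(cons (mv 1163 (cons (mv 1162 (cons (fin 1102 1 1098)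
(fin 1161 2 1097)))
(cons (mv 1102 (cons (fin 1103 1 1099)
(mv 1035 (cons (fin 1034 3 1034)
(mv 971 (cons (fin 907 4 907)
(mv 970 (cons (fin 906 7 906)
(mv 972 (cons (fin 973 0 970)
(fin 908 6 907)))))))))))
(mv 1162 (cons (fin 1161 2 1097)
(mv 1226 (cons (fin 1225 1 1161)
(mv 1290 (cons (fin 1354 6 1098)
(mv 1035 (cons (fin 1227 5 1034)
(fin 971 5 970))))))))))))
(mv 1228 (cons (fin 1292 6 1036)
(mv 1163 (cons (mv 1162 (cons (fin 1102 1 1098)
(fin 1161 2 1097)))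
(cons (mv 1102 (cons (fin 1103 1 1099)
(mv 1035 (cons (fin 1034 3 1034)
(fin 971 4 971)))))
(mv 1162 (cons (fin 1161 2 1097)
(mv 1226 (cons (fin 1225 1 1161)
(mv 1290 (cons (fin 1354 6 1098)
(mv 1035 (cons (fin 1227 5 1034)
(fin 971 5 970)))))))))))))))))))
(mv 1165 (cons (fin 1229 6 973)
(mv 910 (cons (fin 846 5 845)
(fin 973 6 909)))))))))))))
(cons (mv 1038 (cons (fin 1039 1 1036)
(mv 1099 (cons (fin 1098 2 1034)
(mv 1102 (cons (cons (mv 1162 (cons (fin 1163 1 1098)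
(mv 1035 (cons (fin 1034 3 1034)
(mv 1103 (cons (fin 1036 3 1035)
(mv 1167 (cons (fin 1168 0 1100)
(mv 1295 (cons (fin 1231 7 1038)
(mv 1104 (cons (fin 1105 3 1037)
(mv 1165 (cons (fin 1164 1 1100)
(mv 1229 (cons (fin 1293 6 1037)
(fin 974 6 973)))))))))))))))))
(cons (mv 1163 (cons (fin 1162 1 1098)
(mv 1164 (cons (fin 1103 1 1099)
(mv 1228 (cons (fin 1292 6 1036)
(mv 973 (cons (fin 1165 5 972)
(fin 1036 6 972)))))))))
(mv 1035 (cons (fin 1034 3 1034)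
(mv 1103 (cons (fin 1036 3 1035)
(mv 1167 (cons (fin 1168 0 1100)
(mv 1295 (cons (fin 1231 7 1038)
(mv 1104 (cons (fin 1105 3 1037)
(mv 1165 (cons (fin 1164 1 1100)
(mv 1229 (cons (fin 1293 6 1037)
(fin 974 6 973)))))))))))))))))
(cons (mv 1162 (cons (fin 1163 1 1098)
(mv 1035 (cons (fin 1034 3 1034)
(mv 974 (cons (mv 1165 (cons (fin 910 5 909)
(fin 1229 6 973)))
(mv 1036 (cons (fin 975 2 971)
(mv 971 (cons (fin 970 3 970)
(mv 1164 (cons (fin 1228 7 971)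
(fin 907 4 907)))))))))))))
(cons (mv 1163 (cons (fin 1162 1 1098)
(mv 1164 (cons (fin 1103 1 1099)
(mv 1228 (cons (fin 1292 6 1036)
(mv 1035 (cons (fin 1034 3 1034)
(fin 971 4 971)))))))))
(mv 1162 (cons (fin 1163 1 1098)
(mv 1035 (cons (fin 1034 3 1034)
(mv 1103 (cons (fin 1036 3 1035)
(mv 1168 (cons (fin 1167 0 1100)
(mv 1104 (cons (fin 1105 3 1037)
(fin 1169 0 1101)))))))))))))))))))
(mv 1038 (cons (fin 1039 1 1036)
(mv 1099 (cons (fin 1098 2 1034)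
(mv 1102 (cons (cons (mv 1162 (cons (fin 1163 1 1098)
(mv 1035 (cons (fin 1034 3 1034)
(mv 1103 (cons (fin 1036 3 1035)
(mv 1167 (cons (fin 1168 0 1100)
(mv 1295 (cons (fin 1231 7 1038)
(mv 1104 (cons (fin 1105 3 1037)
(mv 1165 (cons (fin 1164 1 1100)
(mv 1229 (cons (fin 1293 6 1037)
(fin 974 6 973)))))))))))))))))
(cons (mv 1163 (cons (fin 1162 1 1098)
(mv 1103 (cons (fin 1164 1 1099)
(mv 1104 (cons (fin 1036 3 1036)
(fin 1105 3 1037)))))))
(mv 1035 (cons (fin 1034 3 1034)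
(mv 1103 (cons (fin 1036 3 1035)
(mv 1167 (cons (fin 1168 0 1100)
(mv 1295 (cons (fin 1231 7 1038)
(mv 1104 (cons (fin 1105 3 1037)
(mv 1165 (cons (fin 1164 1 1100)
(mv 1229 (cons (fin 1293 6 1037)
(fin 974 6 973)))))))))))))))))
(cons (mv 1162 (cons (fin 1163 1 1098)
(mv 1035 (cons (fin 1034 3 1034)
(mv 974 (cons (mv 1165 (cons (fin 910 5 909)
(fin 1229 6 973)))
(mv 1036 (cons (fin 975 2 971)
(mv 971 (cons (fin 970 3 970)
(mv 1164 (cons (fin 1228 7 971)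
(fin 907 4 907)))))))))))))
(cons (mv 1163 (cons (fin 1162 1 1098)
(mv 1164 (cons (fin 1103 1 1099)
(mv 1228 (cons (fin 1292 6 1036)
(mv 1035 (cons (fin 1034 3 1034)
(fin 971 4 971)))))))))
(mv 1162 (cons (fin 1163 1 1098)
(mv 1035 (cons (fin 1034 3 1034)
(mv 1103 (cons (fin 1036 3 1035)
(mv 1168 (cons (fin 1167 0 1100)
(mv 1104 (cons (fin 1105 3 1037)
(fin 1169 0 1101)))))))))))))))))))))))
(mv 1100 (cons (cons (cons (mv 1038 (cons (fin 1039 1 1036)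
(mv 1099 (cons (fin 1098 2 1034)
(mv 1102 (cons (cons (mv 1162 (cons (fin 1163 1 1098)
(mv 1166 (cons (fin 1167 0 1099)
(mv 1230 (cons (fin 1294 7 1037)
(fin 973 7 973)))))))
(mv 1162 (cons (fin 1163 1 1098)
(mv 1035 (cons (fin 1034 3 1034)
(mv 1103 (cons (fin 1036 3 1035)
(mv 1167 (cons (fin 1168 0 1100)
(mv 1295 (cons (fin 1231 7 1038)
(mv 1104 (cons (fin 1105 3 1037)
(mv 1165 (cons (fin 1164 1 1100)
(mv 1229 (cons (fin 1293 6 1037)
(fin 974 6 973))))))))))))))))))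
(cons (mv 1166 (cons (fin 1167 0 1099)
(mv 1230 (cons (fin 1294 7 1037)
(fin 973 7 973)))))
(mv 1162 (cons (fin 1163 1 1098)
(mv 1035 (cons (fin 1034 3 1034)
(mv 1103 (cons (fin 1036 3 1035)
(mv 1104 (cons (fin 1105 3 1037)
(mv 1165 (cons (fin 1164 1 1100)
(mv 1229 (cons (fin 1293 6 1037)
(fin 974 6 973))))))))))))))))))))
(mv 1102 (cons (mv 1103 (cons (fin 1039 2 1036)
(mv 1036 (cons (fin 1035 3 1035)
(fin 1104 3 1036)))))
(cons (mv 1099 (cons (cons (mv 1162 (cons (fin 1163 1 1098)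
(mv 1166 (cons (fin 1167 0 1099)
(mv 1098 (cons (fin 1161 1 1097)
(fin 1165 0 1098)))))))
(mv 1162 (cons (fin 1163 1 1098)
(mv 1098 (cons (fin 1161 1 1097)
(mv 1034 (cons (fin 1033 3 1033)
(fin 1035 3 1034))))))))
(cons (mv 1166 (cons (fin 1167 0 1099)
(mv 1294 (cons (fin 1230 7 1037)
(mv 1098 (cons (fin 1165 0 1098)
(mv 1034 (cons (fin 1033 3 1033)
(fin 1035 3 1034)))))))))
(mv 1163 (cons (fin 1162 1 1098)
(mv 1166 (cons (fin 1167 0 1099)
(mv 1230 (cons (fin 1294 7 1037)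
(mv 1165 (cons (fin 973 4 973)
(mv 1164 (cons (fin 1231 0 1163)
(mv 1292 (cons (fin 1228 6 1036)
(mv 1226 (cons (fin 1227 1 1162)
(mv 1035 (cons (fin 1034 3 1034)
(mv 971 (cons (fin 907 4 907)
(mv 970 (cons (fin 906 7 906)
(mv 972 (cons (fin 908 6 907)
(mv 1036 (cons (fin 969 0 969)
(fin 1229 7 972))))))))))))))))))))))))))))
(mv 1103 (cons (fin 1039 2 1036)
(mv 1163 (cons (fin 1164 1 1099)
(mv 1167 (cons (fin 1168 0 1100)
(mv 1099 (cons (fin 1162 1 1098)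
(fin 1166 0 1099)))))))))))))
(cons (mv 1099 (cons (cons (mv 1098 (cons (fin 1038 2 1034)
(mv 1161 (cons (fin 1162 1 1097)
(mv 1097 (cons (fin 1160 1 1096)
(fin 1036 2 1033)))))))
(mv 1102 (cons (cons (mv 1162 (cons (fin 1163 1 1098)
(mv 1166 (cons (fin 1167 0 1099)
(mv 1230 (cons (fin 1294 7 1037)
(mv 973 (cons (fin 1038 7 973)
(fin 1165 4 973)))))))))
(mv 1166 (cons (fin 1167 0 1099)
(mv 1230 (cons (fin 1294 7 1037)
(mv 973 (cons (fin 1038 7 973)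
(fin 1165 4 973))))))))
(cons (mv 1162 (cons (fin 1163 1 1098)
(mv 1035 (cons (fin 1034 3 1034)
(mv 1103 (cons (fin 1036 3 1035)
(mv 1168 (cons (fin 1167 0 1100)
(mv 1104 (cons (fin 1169 0 1101)
(mv 1165 (cons (fin 1164 1 1100)
(mv 1038 (cons (fin 1105 3 1037)
(mv 1229 (cons (fin 1293 6 1037)
(fin 974 6 973)))))))))))))))))
(cons (mv 1163 (cons (fin 1162 1 1098)
(mv 1164 (cons (fin 1103 1 1099)
(mv 1292 (cons (fin 1228 6 1036)
(mv 1035 (cons (fin 1034 3 1034)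
(mv 971 (cons (fin 907 4 907)
(mv 970 (cons (fin 906 7 906)
(mv 1036 (cons (fin 1038 3 970)
(mv 1227 (cons (fin 972 5 971)
(fin 1291 6 1035)))))))))))))))))
(mv 1162 (cons (fin 1163 1 1098)
(mv 1166 (cons (fin 1167 0 1099)
(mv 1230 (cons (fin 1294 7 1037)
(mv 1165 (cons (fin 973 4 973)
(mv 1035 (cons (fin 1034 3 1034)
(mv 1103 (cons (fin 1036 3 1035)
(mv 1104 (cons (fin 1164 1 1100)
(fin 1105 1 1101))))))))))))))))))))
(cons (mv 1098 (cons (mv 1161 (cons (fin 1162 1 1097)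
(mv 1097 (cons (fin 1160 1 1096)
(fin 1036 2 1033)))))
(cons (mv 1161 (cons (fin 1162 1 1097)
(mv 1166 (cons (fin 1165 0 1098)
(mv 1102 (cons (fin 1167 0 1099)
(mv 1034 (cons (fin 1033 3 1033)
(fin 1035 3 1034)))))))))
(mv 1165 (cons (fin 1166 0 1098)
(mv 1097 (cons (fin 1164 0 1097)
(fin 1036 2 1033))))))))
(cons (mv 1098 (cons (fin 1038 2 1034)
(mv 1165 (cons (fin 1166 0 1098)
(mv 1097 (cons (fin 1164 0 1097)
(fin 1036 2 1033)))))))
(mv 1098 (cons (fin 1038 2 1034)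
(mv 1161 (cons (fin 1162 1 1097)
(mv 1160 (cons (fin 1097 1 1096)
(mv 1166 (cons (fin 1165 0 1098)
(mv 1102 (cons (fin 1167 0 1099)
(mv 1034 (cons (fin 1033 3 1033)
(fin 1035 3 1034)))))))))))))))))
(cons (mv 1038 (cons (fin 1039 1 1036)
(mv 1099 (cons (fin 1098 2 1034)
(mv 1164 (cons (cons (mv 1228 (cons (fin 1292 6 1036)
(mv 973 (cons (fin 1165 5 972)
(fin 1036 6 972)))))
(mv 1165 (cons (mv 1229 (cons (fin 974 6 973)
(mv 1293 (cons (fin 1357 7 1100)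
(fin 1036 7 1036)))))
(mv 1166 (cons (fin 1167 3 1099)
(mv 1230 (cons (fin 973 4 973)
(mv 1358 (cons (fin 1294 7 1101)
(mv 1163 (cons (fin 1231 0 1163)
(mv 1226 (cons (fin 1227 1 1162)
(mv 1162 (cons (fin 1225 1 1161)
(fin 1161 2 1097))))))))))))))))
(cons (mv 1228 (cons (fin 1292 6 1036)
(mv 1036 (cons (fin 973 6 972)
(mv 1291 (cons (fin 1227 5 1035)
(mv 1293 (cons (fin 1229 4 1036)
(mv 971 (cons (fin 1035 7 971)
(mv 972 (cons (fin 907 7 907)
(mv 908 (cons (fin 1163 5 907)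
(fin 844 4 844)))))))))))))))
(cons (mv 1228 (cons (fin 1292 6 1036)
(mv 1036 (cons (cons (mv 1291 (cons (fin 1227 5 1035)
(mv 1293 (cons (fin 1229 4 1036)
(mv 971 (cons (fin 1035 7 971)
(mv 972 (cons (fin 907 7 907)
(mv 908 (cons (fin 1163 5 907)
(fin 1165 4 908)))))))))))
(cons (mv 1291 (cons (fin 1227 5 1035)
(mv 1229 (cons (fin 1293 4 1036)
(mv 1165 (cons (fin 972 7 972)
(fin 974 6 973)))))))
(mv 1291 (cons (fin 1227 5 1035)
(mv 971 (cons (fin 1035 7 971)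
(mv 972 (cons (fin 907 7 907)
(mv 908 (cons (fin 1163 5 907)
(fin 1165 4 908)))))))))))
(cons (mv 1293 (cons (fin 1229 4 1036)
(mv 971 (cons (fin 1035 7 971)
(mv 972 (cons (fin 907 7 907)
(mv 908 (cons (fin 1163 5 907)
(fin 1165 4 908)))))))))
(cons (mv 1291 (cons (fin 1227 5 1035)
(mv 1229 (cons (fin 1293 4 1036)
(mv 1165 (cons (fin 974 6 973)
(mv 1230 (cons (fin 1294 4 1037)
(mv 1231 (cons (fin 1163 3 1163)
(fin 1232 3 1164)))))))))))
(mv 1291 (cons (fin 1227 5 1035)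
(mv 1293 (cons (fin 1229 4 1036)
(mv 971 (cons (fin 1035 7 971)
(mv 972 (cons (fin 907 7 907)
(mv 908 (cons (fin 1163 5 907)
(fin 844 4 844)))))))))))))))))
(mv 1228 (cons (fin 1292 6 1036)
(mv 1165 (cons (fin 973 5 972)
(mv 1229 (cons (fin 974 6 973)
(mv 1357 (cons (fin 1293 7 1100)
(mv 1230 (cons (fin 1294 4 1037)
(mv 1231 (cons (fin 1163 3 1163)
(fin 1232 3 1164)))))))))))))))))))))
(mv 1039 (cons (fin 1038 1 1036)
(mv 1103 (cons (fin 1102 2 1036)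
(mv 976 (cons (cons (mv 1167 (cons (fin 1231 6 975)
(mv 912 (cons (fin 1104 5 911)
(fin 848 5 847)))))
(mv 1167 (cons (fin 1231 6 975)
(mv 1166 (cons (cons (mv 1230 (cons (fin 975 5 974)
(mv 1165 (cons (fin 1168 3 1100)
(fin 973 4 973)))))
(mv 975 (cons (fin 1230 5 974)
(mv 1168 (cons (fin 1232 4 975)
(mv 1104 (cons (fin 911 7 911)
(mv 1169 (cons (fin 1233 4 976)
(mv 1170 (cons (fin 1171 3 1103)
(mv 1106 (cons (fin 1105 1 1102)
(fin 1107 2 1103))))))))))))))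
(cons (mv 1165 (cons (fin 1168 3 1100)
(mv 1164 (cons (fin 1104 2 1100)
(mv 1228 (cons (fin 1227 1 1163)
(fin 973 5 972)))))))
(mv 1230 (cons (fin 975 5 974)
(mv 1358 (cons (fin 1294 6 1102)
(mv 1165 (cons (fin 973 4 973)
(mv 1164 (cons (fin 1104 2 1100)
(mv 1228 (cons (fin 1227 1 1163)
(fin 1292 6 1036)))))))))))))))))
(cons (mv 912 (cons (fin 848 5 847)
(mv 1104 (cons (mv 1169 (cons (fin 1105 4 912)
(mv 1168 (cons (fin 1233 4 976)
(mv 1232 (cons (fin 1296 7 1039)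
(fin 975 7 975)))))))
(cons (mv 911 (cons (fin 847 7 847)
(mv 1168 (cons (fin 975 7 911)
(mv 913 (cons (fin 977 6 912)
(fin 849 6 848)))))))
(mv 1105 (cons (fin 1169 4 912)
(mv 1106 (cons (fin 1107 3 1039)
(mv 1170 (cons (fin 1171 0 1103)
(mv 1042 (cons (fin 1043 2 1039)
(mv 911 (cons (fin 847 7 847)
(mv 913 (cons (fin 849 6 848)
(mv 978 (cons (fin 977 7 913)
(mv 979 (cons (fin 914 0 911)
(fin 915 6 914))))))))))))))))))))))
(mv 1167 (cons (fin 1231 6 975)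
(mv 912 (cons (fin 848 5 847)
(fin 975 6 911)))))))))))))))
(cons (cons (mv 1038 (cons (fin 1039 1 1036)
(mv 1099 (cons (fin 1098 2 1034)
(mv 1102 (cons (cons (mv 1162 (cons (fin 1163 1 1098)
(mv 1166 (cons (fin 1167 0 1099)
(mv 1230 (cons (fin 1294 7 1037)
(fin 973 7 973)))))))
(mv 1162 (cons (fin 1163 1 1098)
(mv 1035 (cons (fin 1034 3 1034)
(mv 1103 (cons (fin 1036 3 1035)
(mv 1168 (cons (fin 1167 0 1100)
(mv 1104 (cons (fin 1105 3 1037)
(fin 1169 0 1101))))))))))))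
(cons (mv 1162 (cons (fin 1163 1 1098)
(mv 1035 (cons (fin 1034 3 1034)
(mv 1036 (cons (fin 1103 3 1035)
(mv 971 (cons (fin 970 3 970)
(mv 974 (cons (fin 975 2 971)
(mv 1165 (cons (fin 1229 6 973)
(mv 972 (cons (fin 908 4 908)
(mv 907 (cons (fin 843 4 843)
(mv 906 (cons (fin 973 3 906)
(fin 842 7 842)))))))))))))))))))
(mv 1166 (cons (fin 1167 0 1099)
(mv 1230 (cons (fin 1294 7 1037)
(fin 973 7 973))))))))))))
(mv 1038 (cons (fin 1039 1 1036)
(mv 1099 (cons (fin 1098 2 1034)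
(mv 1102 (cons (cons (mv 1162 (cons (fin 1163 1 1098)
(mv 1166 (cons (fin 1167 0 1099)
(mv 1230 (cons (fin 1294 7 1037)
(fin 973 7 973)))))))
(mv 1162 (cons (fin 1163 1 1098)
(mv 1035 (cons (fin 1034 3 1034)
(mv 1103 (cons (fin 1036 3 1035)
(mv 1168 (cons (fin 1167 0 1100)
(mv 1104 (cons (fin 1105 3 1037)
(fin 1169 0 1101))))))))))))
(cons (mv 1166 (cons (fin 1167 0 1099)
(mv 1230 (cons (fin 1294 7 1037)
(fin 973 7 973)))))
(mv 1162 (cons (fin 1163 1 1098)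
(mv 1035 (cons (fin 1034 3 1034)
(mv 1036 (cons (fin 1103 3 1035)
(mv 971 (cons (fin 970 3 970)
(mv 1164 (cons (fin 1228 7 971)
(fin 907 4 907)))))))))))))))))))
(cons (mv 1038 (cons (fin 1039 1 1036)
(mv 1099 (cons (fin 1098 2 1034)
(mv 1102 (cons (cons (cons (mv 1162 (cons (fin 1163 1 1098)
(mv 1166 (cons (fin 1167 0 1099)
(mv 1294 (cons (fin 1230 7 1037)
(mv 1035 (cons (fin 1034 3 1034)
(mv 1103 (cons (fin 1036 3 1035)
(mv 1104 (cons (fin 1105 3 1037)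
(mv 1165 (cons (fin 1164 1 1100)
(mv 1229 (cons (fin 974 5 973)
(fin 1293 6 1037)))))))))))))))))
(mv 1162 (cons (fin 1163 1 1098)
(mv 1166 (cons (fin 1167 0 1099)
(mv 1230 (cons (fin 1294 7 1037)
(mv 1295 (cons (fin 1231 4 1038)
(mv 1229 (cons (fin 1293 5 1037)
(mv 1165 (cons (fin 974 5 973)
(mv 1228 (cons (fin 1292 5 1036)
(mv 1227 (cons (fin 1226 2 1162)
(mv 1291 (cons (fin 1290 1 1226)
(mv 1036 (cons (fin 1164 5 1035)
(fin 972 7 972))))))))))))))))))))))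
(cons (mv 1162 (cons (fin 1163 1 1098)
(mv 1035 (cons (fin 1034 3 1034)
(mv 1103 (cons (fin 1036 3 1035)
(mv 1167 (cons (fin 1168 0 1100)
(mv 1295 (cons (fin 1231 7 1038)
(mv 1104 (cons (fin 1105 3 1037)
(mv 1165 (cons (fin 1164 1 1100)
(mv 1229 (cons (fin 1293 6 1037)
(fin 974 6 973)))))))))))))))))
(mv 1166 (cons (fin 1167 0 1099)
(mv 1294 (cons (fin 1230 7 1037)
(mv 1035 (cons (fin 1034 3 1034)
(mv 1103 (cons (fin 1036 3 1035)
(mv 1104 (cons (fin 1105 3 1037)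
(mv 1165 (cons (fin 1164 1 1100)
(mv 1229 (cons (fin 974 5 973)
(fin 1293 6 1037)))))))))))))))))
(cons (cons (mv 1162 (cons (fin 1163 1 1098)
(mv 1035 (cons (fin 1034 3 1034)
(mv 1103 (cons (fin 1036 3 1035)
(mv 1104 (cons (fin 1105 3 1037)
(mv 1165 (cons (fin 1164 1 1100)
(mv 1229 (cons (fin 1293 6 1037)
(fin 974 6 973)))))))))))))
(mv 1162 (cons (fin 1163 1 1098)
(mv 1166 (cons (fin 1167 0 1099)
(mv 1230 (cons (fin 1294 7 1037)
(mv 1229 (cons (fin 1293 5 1037)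
(mv 1231 (cons (fin 1295 4 1038)
(mv 1165 (cons (fin 974 5 973)
(mv 1232 (cons (fin 1164 3 1164)
(fin 1233 3 1165))))))))))))))))
(cons (mv 1162 (cons (fin 1163 1 1098)
(mv 1166 (cons (fin 1167 0 1099)
(mv 1294 (cons (fin 1230 7 1037)
(mv 1035 (cons (fin 1034 3 1034)
(mv 1036 (cons (fin 1103 3 1035)
(mv 971 (cons (fin 970 3 970)
(mv 1164 (cons (fin 1228 7 971)
(fin 907 4 907)))))))))))))))
(mv 1162 (cons (fin 1163 1 1098)
(mv 1166 (cons (fin 1167 0 1099)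
(mv 1294 (cons (fin 1230 7 1037)
(mv 1035 (cons (fin 1034 3 1034)
(mv 1036 (cons (fin 1103 3 1035)
(mv 971 (cons (fin 970 3 970)
(mv 974 (cons (fin 975 2 971)
(mv 1165 (cons (fin 1229 5 973)
(mv 907 (cons (fin 843 4 843)
(mv 908 (cons (fin 972 4 908)
(fin 844 6 843)))))))))))))))))))))))))))))
(cons (mv 1038 (cons (fin 1039 1 1036)
(mv 1099 (cons (fin 1098 2 1034)
(mv 1102 (cons (cons (mv 1162 (cons (fin 1163 1 1098)
(mv 1035 (cons (fin 1034 3 1034)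
(mv 1103 (cons (fin 1036 3 1035)
(mv 1167 (cons (fin 1168 0 1100)
(mv 1295 (cons (fin 1231 7 1038)
(mv 1104 (cons (fin 1105 3 1037)
(mv 1165 (cons (fin 1164 1 1100)
(mv 1229 (cons (fin 1293 6 1037)
(fin 974 6 973)))))))))))))))))
(cons (mv 1163 (cons (fin 1162 1 1098)
(mv 1164 (cons (fin 1103 1 1099)
(mv 1228 (cons (fin 1292 6 1036)
(mv 973 (cons (fin 1165 5 972)
(fin 1036 6 972)))))))))
(mv 1035 (cons (fin 1034 3 1034)
(mv 1103 (cons (fin 1036 3 1035)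
(mv 1167 (cons (fin 1168 0 1100)
(mv 1295 (cons (fin 1231 7 1038)
(mv 1104 (cons (fin 1105 3 1037)
(mv 1165 (cons (fin 1164 1 1100)
(mv 1229 (cons (fin 1293 6 1037)
(fin 974 6 973)))))))))))))))))
(cons (mv 1163 (cons (fin 1162 1 1098)
(mv 1035 (cons (fin 1034 3 1034)
(mv 1036 (cons (mv 1227 (cons (fin 1291 6 1035)
(fin 972 6 971)))
(cons (mv 1291 (cons (fin 1227 6 1035)
(mv 971 (cons (fin 970 3 970)
(mv 1164 (cons (fin 1228 7 971)
(fin 907 4 907)))))))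
(mv 971 (cons (fin 970 3 970)
(mv 1164 (cons (fin 1228 7 971)
(fin 907 4 907))))))))))))
(cons (mv 1163 (cons (fin 1162 1 1098)
(mv 1164 (cons (fin 1103 1 1099)
(mv 1292 (cons (fin 1228 6 1036)
(mv 1035 (cons (fin 1034 3 1034)
(mv 971 (cons (fin 907 4 907)
(mv 970 (cons (fin 906 7 906)
(mv 972 (cons (fin 973 0 970)
(fin 908 6 907)))))))))))))))
(mv 1162 (cons (fin 1163 1 1098)
(mv 1035 (cons (fin 1034 3 1034)
(mv 1103 (cons (fin 1036 3 1035)
(mv 1168 (cons (fin 1167 0 1100)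
(mv 1104 (cons (fin 1105 3 1037)
(fin 1169 0 1101)))))))))))))))))))
(mv 1038 (cons (fin 1039 1 1036)
(mv 1099 (cons (fin 1098 2 1034)
(mv 1102 (cons (cons (mv 1162 (cons (fin 1163 1 1098)
(mv 1035 (cons (fin 1034 3 1034)
(mv 1103 (cons (fin 1036 3 1035)
(mv 1104 (cons (fin 1105 3 1037)
(mv 1165 (cons (fin 1164 1 1100)
(mv 1229 (cons (fin 1293 6 1037)
(fin 974 6 973)))))))))))))
(cons (mv 1163 (cons (fin 1162 1 1098)
(mv 1164 (cons (fin 1103 1 1099)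
(mv 1228 (cons (fin 1292 6 1036)
(mv 973 (cons (fin 1165 5 972)
(fin 1036 6 972)))))))))
(mv 1035 (cons (fin 1034 3 1034)
(mv 1103 (cons (fin 1036 3 1035)
(mv 1104 (cons (fin 1105 3 1037)
(mv 1165 (cons (fin 1164 1 1100)
(mv 1229 (cons (fin 1293 6 1037)
(fin 974 6 973)))))))))))))
(cons (mv 1163 (cons (fin 1162 1 1098)
(mv 1035 (cons (fin 1034 3 1034)
(mv 1036 (cons (mv 1227 (cons (fin 1291 6 1035)
(fin 972 6 971)))
(cons (mv 1291 (cons (fin 1227 6 1035)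
(mv 971 (cons (fin 970 3 970)
(mv 1164 (cons (fin 1228 7 971)
(fin 907 4 907)))))))
(mv 971 (cons (fin 970 3 970)
(mv 1164 (cons (fin 1228 7 971)
(fin 907 4 907))))))))))))
(cons (mv 1163 (cons (fin 1162 1 1098)
(mv 1164 (cons (fin 1103 1 1099)
(mv 1292 (cons (fin 1228 6 1036)
(mv 1035 (cons (fin 1034 3 1034)
(mv 971 (cons (fin 907 4 907)
(mv 970 (cons (fin 906 7 906)
(mv 972 (cons (fin 973 0 970)
(fin 908 6 907)))))))))))))))
(mv 1162 (cons (fin 1163 1 1098)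
(mv 1035 (cons (fin 1034 3 1034)
(mv 1036 (cons (fin 1103 3 1035)
(mv 971 (cons (fin 970 3 970)
(mv 974 (cons (fin 975 2 971)
(mv 1165 (cons (fin 1229 6 973)
(mv 972 (cons (fin 908 4 908)
(mv 907 (cons (fin 843 4 843)
(mv 906 (cons (fin 973 3 906)
(fin 842 7 842)))))))))))))))))))))))))))))))))))
(cons (cons (mv 1038 (cons (cons (cons (mv 1039 (cons (fin 1100 1 1036)
(mv 1104 (cons (fin 1105 0 1037)
(mv 1036 (cons (fin 1103 0 1036)
(mv 972 (cons (fin 971 3 971)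
(fin 973 3 972)))))))))
(mv 974 (cons (cons (mv 1165 (cons (fin 1229 6 973)
(mv 910 (cons (fin 1102 5 909)
(fin 846 5 845)))))
(mv 910 (cons (fin 846 5 845)
(mv 1102 (cons (mv 1167 (cons (fin 1103 4 910)
(mv 1166 (cons (fin 1231 4 974)
(mv 1230 (cons (fin 1294 7 1037)
(fin 973 7 973)))))))
(cons (mv 911 (cons (fin 847 6 846)
(mv 1166 (cons (fin 975 6 910)
(mv 1230 (cons (fin 1294 7 1037)
(fin 973 7 973)))))))
(mv 1103 (cons (fin 1167 4 910)
(mv 1104 (cons (fin 1036 3 1036)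
(fin 1105 3 1037)))))))))))
(cons (mv 1165 (cons (fin 1229 6 973)
(mv 973 (cons (cons (cons (mv 1228 (cons (fin 1164 5 972)
(mv 1230 (cons (fin 1166 4 973)
(mv 972 (cons (fin 908 7 908)
(mv 971 (cons (fin 970 0 970)
(mv 1035 (cons (fin 1034 1 970)
(mv 1036 (cons (fin 975 1 971)
(mv 1098 (cons (fin 1099 1 1034)
(mv 1102 (cons (fin 1103 0 1035)
(mv 907 (cons (fin 906 3 906)
(mv 843 (cons (fin 1100 4 843)
(fin 779 4 779)))))))))))))))))))))
(mv 1164 (cons (fin 1228 5 972)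
(mv 1166 (cons (fin 1230 4 973)
(mv 1102 (cons (mv 1163 (cons (fin 1162 2 1098)
(fin 1103 2 1099)))
(cons (mv 1231 (cons (fin 1167 4 974)
(mv 1163 (cons (fin 1162 2 1098)
(mv 1227 (cons (fin 1226 1 1162)
(mv 1099 (cons (fin 1098 3 1098)
(mv 975 (cons (fin 911 6 910)
(mv 1035 (cons (fin 1036 2 971)
(mv 1034 (cons (fin 1100 3 1034)
(fin 970 7 970)))))))))))))))
(mv 1167 (cons (fin 1231 4 974)
(mv 1168 (cons (fin 1100 3 1100)
(fin 1169 3 1101)))))))))))))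
(cons (mv 1228 (cons (fin 1164 5 972)
(mv 972 (cons (fin 908 7 908)
(mv 971 (cons (fin 970 0 970)
(mv 1035 (cons (fin 1034 1 970)
(mv 1036 (cons (fin 975 1 971)
(mv 1098 (cons (fin 1099 1 1034)
(mv 1102 (cons (fin 1103 0 1035)
(mv 907 (cons (fin 906 3 906)
(mv 843 (cons (fin 1100 4 843)
(fin 779 4 779)))))))))))))))))))
(mv 1230 (cons (fin 1166 4 973)
(mv 972 (cons (fin 908 7 908)
(mv 971 (cons (fin 970 0 970)
(mv 1035 (cons (fin 1034 1 970)
(mv 1036 (cons (fin 975 1 971)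
(mv 1098 (cons (fin 1099 1 1034)
(mv 1102 (cons (fin 1103 0 1035)
(mv 907 (cons (fin 906 3 906)
(mv 843 (cons (fin 1100 4 843)
(fin 779 4 779)))))))))))))))))))))
(cons (cons (mv 1230 (cons (fin 1166 4 973)
(mv 1164 (cons (fin 1228 5 972)
(mv 972 (cons (fin 908 7 908)
(mv 971 (cons (fin 970 0 970)
(mv 1035 (cons (fin 1034 1 970)
(mv 907 (cons (fin 906 3 906)
(mv 1099 (cons (fin 1100 4 907)
(mv 1162 (cons (fin 1098 5 906)
(mv 1163 (cons (fin 1102 2 1098)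
(fin 1226 5 970)))))))))))))))))))
(mv 1164 (cons (fin 1228 5 972)
(mv 1166 (cons (fin 1230 4 973)
(mv 972 (cons (fin 908 7 908)
(mv 971 (cons (fin 970 0 970)
(mv 907 (cons (fin 906 3 906)
(mv 1100 (cons (fin 1036 7 907)
(mv 1167 (cons (fin 1099 3 1099)
(fin 1168 3 1100))))))))))))))))
(cons (mv 1228 (cons (fin 1164 5 972)
(mv 1166 (cons (fin 1230 4 973)
(mv 972 (cons (fin 908 7 908)
(mv 971 (cons (fin 970 0 970)
(mv 1035 (cons (fin 1034 1 970)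
(mv 975 (cons (fin 1036 1 971)
(mv 911 (cons (fin 912 2 908)
(fin 1102 6 910)))))))))))))))
(mv 1230 (cons (fin 1166 4 973)
(mv 1164 (cons (fin 1228 5 972)
(mv 972 (cons (fin 908 7 908)
(mv 1035 (cons (mv 1034 (cons (fin 971 1 970)
(fin 1036 2 970)))
(cons (mv 971 (cons (fin 1034 1 970)
(mv 907 (cons (fin 906 3 906)
(mv 1099 (cons (fin 1100 4 907)
(mv 1162 (cons (fin 1098 5 906)
(mv 1163 (cons (fin 1102 2 1098)
(fin 1226 5 970)))))))))))
(mv 1036 (cons (fin 975 1 971)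
(mv 1099 (cons (fin 1098 1 1034)
(mv 1163 (cons (fin 1227 6 971)
(mv 1102 (cons (fin 1103 0 1035)
(fin 1162 2 1098))))))))))))))))))))))))
(mv 1165 (cons (fin 1229 6 973)
(mv 910 (cons (fin 846 5 845)
(fin 973 6 909)))))))))
(cons (mv 974 (cons (cons (mv 1165 (cons (fin 1229 6 973)
(mv 910 (cons (fin 1102 5 909)
(fin 846 5 845)))))
(mv 910 (cons (fin 846 5 845)
(mv 1102 (cons (mv 1167 (cons (fin 1103 4 910)
(mv 1166 (cons (fin 1231 4 974)
(mv 1230 (cons (fin 1294 7 1037)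
(fin 973 7 973)))))))
(cons (mv 911 (cons (fin 847 6 846)
(mv 1166 (cons (fin 975 6 910)
(mv 1230 (cons (fin 1294 7 1037)
(fin 973 7 973)))))))
(mv 1103 (cons (fin 1167 4 910)
(mv 1104 (cons (fin 1036 3 1036)
(fin 1105 3 1037)))))))))))
(cons (mv 1229 (cons (fin 1165 6 973)
(mv 1036 (cons (mv 1035 (cons (fin 975 2 971)
(mv 1102 (cons (fin 1034 0 1034)
(fin 1103 0 1035)))))
(cons (mv 1039 (cons (mv 1104 (cons (fin 1103 0 1036)
(fin 1105 0 1037)))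
(mv 972 (cons (fin 971 3 971)
(fin 973 3 972)))))
(mv 1035 (cons (fin 975 2 971)
(mv 1034 (cons (fin 1102 0 1034)
(fin 973 2 970))))))))))
(mv 1165 (cons (fin 1229 6 973)
(mv 910 (cons (fin 846 5 845)
(fin 973 6 909))))))))
(mv 1039 (cons (fin 1100 1 1036)
(mv 1104 (cons (fin 1105 0 1037)
(mv 1036 (cons (fin 1103 0 1036)
(mv 971 (cons (fin 972 3 971)
(mv 1035 (cons (fin 970 3 970)
(mv 1098 (cons (fin 1099 1 1034)
(mv 1034 (cons (fin 1097 1 1033)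
(fin 1102 0 1034)))))))))))))))))
(cons (cons (mv 1100 (cons (fin 1039 1 1036)
(mv 1098 (cons (fin 1099 2 1034)
(mv 974 (cons (cons (mv 1165 (cons (fin 1229 6 973)
(mv 910 (cons (fin 1102 5 909)
(fin 846 5 845)))))
(mv 910 (cons (fin 846 5 845)
(mv 1102 (cons (mv 1167 (cons (fin 1103 4 910)
(mv 1166 (cons (fin 1231 4 974)
(mv 1230 (cons (fin 1294 7 1037)
(fin 973 7 973)))))))
(cons (mv 911 (cons (fin 847 6 846)
(mv 1166 (cons (fin 975 6 910)
(mv 1230 (cons (fin 1294 7 1037)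
(fin 973 7 973)))))))
(mv 1103 (cons (fin 1167 4 910)
(mv 1104 (cons (fin 1036 3 1036)
(fin 1105 3 1037)))))))))))
(cons (mv 1165 (cons (fin 1229 6 973)
(mv 1164 (cons (mv 1228 (cons (fin 973 5 972)
(fin 1292 6 1036)))
(cons (mv 1166 (cons (mv 1230 (cons (fin 973 4 973)
(mv 1294 (cons (fin 1358 7 1101)
(fin 1102 7 1037)))))
(cons (mv 1167 (cons (fin 1168 3 1100)
(mv 1231 (cons (fin 1232 0 1164)
(fin 1102 4 974)))))
(mv 1230 (cons (fin 973 4 973)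
(mv 1358 (cons (fin 1294 7 1101)
(mv 1231 (cons (fin 1163 0 1163)
(mv 1232 (cons (fin 1233 3 1165)
(fin 1167 0 1164))))))))))))
(mv 1228 (cons (fin 1292 6 1036)
(mv 1036 (cons (mv 1035 (cons (fin 975 2 971)
(fin 971 7 971)))
(mv 1227 (cons (fin 1291 5 1035)
(mv 1226 (cons (fin 1225 2 1161)
(mv 1166 (cons (fin 1163 1 1162)
(fin 1167 1 1163))))))))))))))))
(mv 1165 (cons (fin 1229 6 973)
(mv 910 (cons (fin 846 5 845)
(fin 973 6 909))))))))))))
(mv 1100 (cons (fin 1039 1 1036)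
(mv 1098 (cons (fin 1099 2 1034)
(mv 974 (cons (cons (mv 1165 (cons (fin 1229 6 973)
(mv 910 (cons (fin 1102 5 909)
(fin 846 5 845)))))
(mv 910 (cons (fin 846 5 845)
(mv 1102 (cons (cons (mv 1167 (cons (fin 1103 4 910)
(mv 1166 (cons (fin 1231 4 974)
(mv 1230 (cons (fin 1294 7 1037)
(fin 973 7 973)))))))
(mv 911 (cons (fin 847 6 846)
(mv 1166 (cons (fin 975 6 910)
(mv 1230 (cons (fin 1294 7 1037)
(fin 973 7 973))))))))
(cons (mv 1103 (cons (fin 1167 4 910)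
(mv 1164 (cons (fin 1163 1 1099)
(mv 1228 (cons (fin 1292 6 1036)
(mv 1036 (cons (fin 1035 3 1035)
(fin 973 6 972)))))))))
(mv 1167 (cons (fin 1103 4 910)
(mv 1166 (cons (fin 1231 4 974)
(mv 911 (cons (fin 975 6 910)
(fin 847 6 846)))))))))))))
(cons (mv 1165 (cons (fin 1229 6 973)
(mv 973 (cons (cons (mv 1228 (cons (fin 1164 5 972)
(mv 1230 (cons (fin 1166 4 973)
(mv 972 (cons (fin 908 7 908)
(mv 971 (cons (fin 970 0 970)
(mv 1035 (cons (fin 1034 1 970)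
(mv 1036 (cons (fin 975 1 971)
(mv 907 (cons (fin 906 3 906)
(fin 843 4 843)))))))))))))))
(mv 1164 (cons (fin 1228 5 972)
(mv 1166 (cons (fin 1230 4 973)
(mv 1167 (cons (fin 1168 3 1100)
(mv 1231 (cons (fin 1232 0 1164)
(fin 1102 4 974))))))))))
(cons (mv 1230 (cons (fin 1166 4 973)
(mv 972 (cons (fin 908 7 908)
(mv 971 (cons (fin 970 0 970)
(mv 1035 (cons (fin 1034 1 970)
(mv 1036 (cons (fin 975 1 971)
(mv 907 (cons (fin 906 3 906)
(fin 843 4 843)))))))))))))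
(mv 1228 (cons (fin 1164 5 972)
(mv 972 (cons (fin 908 7 908)
(mv 971 (cons (fin 970 0 970)
(mv 1035 (cons (fin 1034 1 970)
(mv 1036 (cons (fin 975 1 971)
(mv 907 (cons (fin 906 3 906)
(fin 843 4 843))))))))))))))))))
(mv 1165 (cons (fin 1229 6 973)
(mv 910 (cons (fin 846 5 845)
(fin 973 6 909)))))))))))))
(cons (mv 1100 (cons (fin 1039 1 1036)
(mv 1098 (cons (fin 1099 2 1034)
(mv 1165 (cons (cons (mv 1229 (cons (fin 974 6 973)
(mv 1292 (cons (fin 1228 5 1036)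
(mv 1293 (cons (fin 1356 5 1100)
(fin 1102 6 1037)))))))
(mv 1166 (cons (cons (mv 1230 (cons (fin 973 4 973)
(mv 1294 (cons (fin 1358 7 1101)
(fin 1102 7 1037)))))
(mv 1167 (cons (fin 1168 3 1100)
(mv 1164 (cons (mv 1228 (cons (fin 1227 1 1163)
(fin 1292 6 1036)))
(mv 1231 (cons (fin 1232 0 1164)
(mv 1230 (cons (fin 1163 0 1163)
(mv 1294 (cons (fin 1358 7 1101)
(fin 1102 7 1037))))))))))))
(cons (mv 1167 (cons (fin 1168 3 1100)
(mv 1164 (cons (mv 1228 (cons (fin 1227 1 1163)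
(fin 973 5 972)))
(mv 1231 (cons (fin 1232 0 1164)
(mv 1102 (cons (fin 974 4 974)
(mv 1295 (cons (fin 1359 7 1102)
(fin 1103 7 1038)))))))))))
(mv 1230 (cons (fin 973 4 973)
(mv 1358 (cons (fin 1294 7 1101)
(mv 1167 (cons (fin 1168 3 1100)
(mv 1164 (cons (mv 1228 (cons (fin 1227 1 1163)
(fin 1292 6 1036)))
(mv 1231 (cons (fin 1163 0 1163)
(fin 1232 0 1164)))))))))))))))
(cons (mv 1229 (cons (mv 1292 (cons (fin 1228 5 1036)
(mv 1293 (cons (fin 1356 5 1100)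
(fin 1102 6 1037)))))
(cons (mv 1228 (cons (fin 1292 5 1036)
(mv 1230 (cons (fin 1294 4 1037)
(mv 973 (cons (fin 1164 5 972)
(fin 1166 4 973)))))))
(mv 1293 (cons (fin 1102 6 1037)
(mv 1294 (cons (fin 1358 4 1101)
(fin 1230 4 1037))))))))
(cons (mv 1229 (cons (fin 974 6 973)
(mv 1293 (cons (fin 1102 6 1037)
(mv 1294 (cons (fin 1358 4 1101)
(fin 1230 4 1037)))))))
(mv 1229 (cons (fin 974 6 973)
(mv 1292 (cons (fin 1228 5 1036)
(mv 1293 (cons (fin 1356 5 1100)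
(mv 1294 (cons (fin 1358 4 1101)
(fin 1230 4 1037)))))))))))))))))
(mv 1100 (cons (fin 1039 1 1036)
(mv 1098 (cons (fin 1099 2 1034)
(mv 1165 (cons (cons (mv 1229 (cons (fin 974 6 973)
(mv 1293 (cons (fin 1036 7 1036)
(fin 1102 6 1037)))))
(mv 973 (cons (cons (mv 1228 (cons (fin 1164 5 972)
(mv 1230 (cons (fin 1166 4 973)
(mv 972 (cons (fin 908 7 908)
(mv 971 (cons (fin 970 0 970)
(mv 974 (cons (fin 910 6 909)
(mv 1035 (cons (fin 1034 1 970)
(mv 1036 (cons (fin 975 1 971)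
(mv 907 (cons (fin 906 3 906)
(fin 843 4 843)))))))))))))))))
(mv 1230 (cons (fin 1166 4 973)
(mv 972 (cons (fin 908 7 908)
(mv 971 (cons (fin 970 0 970)
(mv 974 (cons (fin 910 6 909)
(mv 1035 (cons (fin 1034 1 970)
(mv 1036 (cons (fin 975 1 971)
(mv 907 (cons (fin 906 3 906)
(fin 843 4 843))))))))))))))))
(cons (mv 1230 (cons (fin 1166 4 973)
(mv 1164 (cons (fin 1228 5 972)
(mv 972 (cons (fin 908 7 908)
(mv 971 (cons (fin 970 0 970)
(mv 1036 (cons (fin 907 7 907)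
(mv 1163 (cons (fin 1227 5 971)
(mv 1162 (cons (fin 1097 3 1097)
(fin 1161 2 1097)))))))))))))))
(cons (mv 1164 (cons (fin 1228 5 972)
(mv 1166 (cons (fin 1230 4 973)
(mv 1167 (cons (fin 1168 3 1100)
(mv 1231 (cons (fin 1232 0 1164)
(mv 974 (cons (fin 1102 4 974)
(fin 910 6 909)))))))))))
(mv 1228 (cons (fin 1164 5 972)
(mv 972 (cons (fin 908 7 908)
(mv 971 (cons (fin 970 0 970)
(mv 974 (cons (fin 910 6 909)
(mv 1035 (cons (fin 1034 1 970)
(mv 1036 (cons (fin 975 1 971)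
(mv 907 (cons (fin 906 3 906)
(fin 843 4 843))))))))))))))))))))
(cons (mv 1229 (cons (mv 1293 (cons (fin 1036 7 1036)
(fin 1102 6 1037)))
(cons (mv 1292 (cons (fin 1228 5 1036)
(mv 1230 (cons (fin 1294 4 1037)
(mv 972 (cons (fin 1036 7 972)
(mv 973 (cons (fin 908 7 908)
(fin 1166 4 973)))))))))
(mv 1292 (cons (fin 1228 5 1036)
(mv 1293 (cons (fin 1356 5 1100)
(fin 1102 6 1037))))))))
(cons (mv 1229 (cons (fin 974 6 973)
(mv 1292 (cons (fin 1228 5 1036)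
(mv 1293 (cons (fin 1356 5 1100)
(fin 1102 6 1037)))))))
(mv 1229 (cons (fin 974 6 973)
(mv 1036 (cons (fin 1293 7 1036)
(fin 972 7 972)))))))))))))))))
(mv 1038 (cons (cons (mv 1039 (cons (fin 1100 1 1036)
(mv 1104 (cons (fin 1105 0 1037)
(mv 1103 (cons (fin 1036 0 1036)
(mv 972 (cons (fin 973 3 972)
(mv 976 (cons (fin 977 2 973)
(mv 1167 (cons (fin 912 5 911)
(fin 1231 6 975)))))))))))))
(cons (mv 1165 (cons (cons (mv 1229 (cons (fin 974 6 973)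
(mv 1292 (cons (fin 1228 5 1036)
(mv 1293 (cons (fin 1356 5 1100)
(fin 1102 6 1037)))))))
(mv 973 (cons (cons (mv 1230 (cons (fin 1166 4 973)
(mv 1164 (cons (fin 1228 5 972)
(mv 972 (cons (fin 908 7 908)
(mv 971 (cons (fin 970 0 970)
(mv 974 (cons (fin 910 6 909)
(mv 1035 (cons (fin 1034 1 970)
(mv 907 (cons (fin 906 3 906)
(mv 1100 (cons (fin 1036 7 907)
(fin 1099 4 907)))))))))))))))))
(cons (mv 1164 (cons (fin 1228 5 972)
(mv 1166 (cons (fin 1230 4 973)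
(mv 972 (cons (fin 908 7 908)
(mv 970 (cons (fin 971 0 970)
(mv 1163 (cons (cons (mv 1102 (cons (fin 1162 2 1098)
(fin 1103 2 1099)))
(mv 1226 (cons (fin 1227 1 1162)
(mv 1225 (cons (fin 1162 1 1161)
(mv 1099 (cons (fin 1098 3 1098)
(mv 1167 (cons (fin 1100 3 1099)
(mv 1231 (cons (fin 1232 0 1164)
(mv 1104 (cons (fin 1103 2 1100)
(mv 1168 (cons (fin 1105 2 1101)
(fin 976 5 975))))))))))))))))
(cons (mv 1226 (cons (fin 1227 1 1162)
(mv 1098 (cons (fin 1099 3 1098)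
(mv 1103 (cons (fin 1102 2 1099)
(mv 1167 (cons (fin 1104 2 1100)
(mv 1232 (cons (fin 1231 0 1164)
(mv 1168 (cons (fin 1100 3 1100)
(fin 1233 0 1165)))))))))))))
(mv 1226 (cons (fin 1227 1 1162)
(mv 1162 (cons (fin 1225 1 1161)
(fin 1102 2 1098))))))))))))))))
(mv 1164 (cons (fin 1228 5 972)
(mv 972 (cons (fin 908 7 908)
(mv 971 (cons (fin 970 0 970)
(mv 974 (cons (fin 910 6 909)
(mv 1035 (cons (fin 1034 1 970)
(mv 907 (cons (fin 906 3 906)
(mv 1100 (cons (fin 1036 7 907)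
(fin 1099 4 907)))))))))))))))))
(cons (cons (mv 1164 (cons (fin 1228 5 972)
(mv 1166 (cons (fin 1230 4 973)
(mv 974 (cons (fin 910 6 909)
(mv 1167 (cons (mv 1231 (cons (fin 1232 0 1164)
(fin 1102 4 974)))
(mv 1100 (cons (fin 1099 3 1099)
(fin 1168 3 1100)))))))))))
(mv 1166 (cons (fin 1230 4 973)
(mv 972 (cons (fin 908 7 908)
(mv 971 (cons (fin 970 0 970)
(mv 974 (cons (fin 910 6 909)
(mv 1035 (cons (fin 1034 1 970)
(mv 907 (cons (fin 906 3 906)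
(mv 843 (cons (mv 1036 (cons (fin 1100 4 843)
(fin 779 4 779)))
(cons (mv 778 (cons (fin 842 7 778)
(mv 779 (cons (fin 714 7 714)
(mv 780 (cons (fin 844 6 779)
(fin 716 6 715)))))))
(mv 1100 (cons (fin 1036 4 843)
(mv 1167 (cons (fin 1168 3 1100)
(mv 1099 (cons (fin 1098 0 1098)
(fin 1102 0 1099)))))))))))))))))))))))
(cons (mv 1164 (cons (fin 1228 5 972)
(mv 1166 (cons (fin 1230 4 973)
(mv 972 (cons (fin 908 7 908)
(mv 970 (cons (fin 971 0 970)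
(mv 974 (cons (fin 910 6 909)
(mv 1102 (cons (mv 1163 (cons (fin 1162 2 1098)
(fin 1103 2 1099)))
(cons (mv 1231 (cons (fin 1167 4 974)
(mv 1163 (cons (fin 1162 2 1098)
(mv 1227 (cons (fin 1226 1 1162)
(mv 1099 (cons (fin 1098 3 1098)
(mv 1035 (cons (fin 1034 7 970)
(fin 1036 6 971)))))))))))
(mv 1167 (cons (fin 1231 4 974)
(mv 1168 (cons (fin 1169 3 1101)
(mv 1104 (cons (fin 1103 1 1100)
(fin 1105 2 1101))))))))))))))))))))
(mv 1164 (cons (fin 1228 5 972)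
(mv 1166 (cons (fin 1230 4 973)
(mv 972 (cons (fin 908 7 908)
(mv 971 (cons (fin 970 0 970)
(mv 974 (cons (fin 910 6 909)
(mv 1034 (cons (fin 1035 1 970)
(mv 907 (cons (fin 906 3 906)
(mv 1100 (cons (fin 1036 7 907)
(mv 1167 (cons (fin 1168 3 1100)
(mv 1231 (cons (fin 1232 0 1164)
(fin 1102 4 974))))))))))))))))))))))))))
(cons (mv 1229 (cons (mv 1292 (cons (fin 1228 5 1036)
(mv 1293 (cons (fin 1356 5 1100)
(fin 1102 6 1037)))))
(cons (mv 1292 (cons (fin 1228 5 1036)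
(mv 1230 (cons (fin 1294 4 1037)
(mv 972 (cons (fin 1036 7 972)
(mv 973 (cons (fin 908 7 908)
(fin 1166 4 973)))))))))
(mv 1293 (cons (fin 1102 6 1037)
(mv 1294 (cons (fin 1358 4 1101)
(fin 1230 4 1037))))))))
(cons (mv 1229 (cons (fin 974 6 973)
(mv 1292 (cons (fin 1228 5 1036)
(mv 1356 (cons (fin 1293 5 1100)
(mv 1230 (cons (fin 1294 4 1037)
(mv 972 (cons (fin 1036 7 972)
(mv 973 (cons (fin 908 7 908)
(fin 1166 4 973)))))))))))))
(mv 1229 (cons (fin 974 6 973)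
(mv 1293 (cons (fin 1102 6 1037)
(mv 1294 (cons (fin 1358 4 1101)
(fin 1230 4 1037)))))))))))
(mv 1165 (cons (cons (mv 1229 (cons (fin 974 6 973)
(mv 1292 (cons (fin 1228 5 1036)
(mv 1293 (cons (fin 1356 5 1100)
(fin 1102 6 1037)))))))
(mv 973 (cons (mv 972 (cons (fin 1039 3 972)
(fin 908 7 908)))
(cons (mv 1164 (cons (fin 1228 5 972)
(mv 1166 (cons (fin 1230 4 973)
(mv 974 (cons (fin 910 6 909)
(mv 1163 (cons (mv 1102 (cons (fin 1162 2 1098)
(fin 1103 2 1099)))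
(cons (mv 1226 (cons (fin 1227 1 1162)
(mv 1162 (cons (fin 1225 1 1161)
(mv 1098 (cons (fin 1097 3 1097)
(fin 1099 3 1098)))))))
(mv 1226 (cons (fin 1227 1 1162)
(mv 1098 (cons (fin 1099 3 1098)
(mv 1103 (cons (fin 1102 2 1099)
(mv 1167 (cons (fin 1104 2 1100)
(mv 1231 (cons (fin 1232 0 1164)
(fin 1039 7 974))))))))))))))))))))
(mv 1164 (cons (fin 1228 5 972)
(mv 1166 (cons (fin 1230 4 973)
(mv 972 (cons (fin 908 7 908)
(mv 970 (cons (fin 971 0 970)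
(mv 974 (cons (fin 910 6 909)
(mv 1102 (cons (mv 1163 (cons (fin 1162 2 1098)
(fin 1103 2 1099)))
(cons (mv 1231 (cons (fin 1167 4 974)
(mv 1163 (cons (fin 1162 2 1098)
(mv 1227 (cons (fin 1226 1 1162)
(mv 1099 (cons (fin 1098 3 1098)
(mv 1035 (cons (fin 1034 7 970)
(fin 1036 6 971)))))))))))
(mv 1167 (cons (fin 1231 4 974)
(mv 1168 (cons (fin 1169 3 1101)
(mv 1104 (cons (fin 1103 1 1100)
(fin 1105 2 1101))))))))))))))))))))))))
(cons (mv 1229 (cons (mv 1292 (cons (fin 1228 5 1036)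
(mv 1293 (cons (fin 1356 5 1100)
(fin 1102 6 1037)))))
(cons (mv 1292 (cons (fin 1228 5 1036)
(mv 1294 (cons (fin 1230 4 1037)
(mv 972 (cons (fin 1036 7 972)
(mv 973 (cons (fin 1039 3 972)
(fin 908 7 908)))))))))
(mv 1293 (cons (fin 1102 6 1037)
(mv 1294 (cons (fin 1358 4 1101)
(fin 1230 4 1037))))))))
(cons (mv 1229 (cons (fin 974 6 973)
(mv 1292 (cons (fin 1228 5 1036)
(mv 1356 (cons (fin 1293 5 1100)
(mv 1294 (cons (fin 1230 4 1037)
(mv 972 (cons (fin 1036 7 972)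
(mv 973 (cons (fin 1039 3 972)
(fin 908 7 908)))))))))))))
(mv 1229 (cons (fin 974 6 973)
(mv 1293 (cons (fin 1102 6 1037)
(mv 1294 (cons (fin 1358 4 1101)
(fin 1230 4 1037)))))))))))))
(cons (cons (mv 1039 (cons (fin 1100 1 1036)
(mv 1104 (cons (fin 1105 0 1037)
(mv 1103 (cons (fin 1036 0 1036)
(mv 976 (cons (fin 977 2 973)
(mv 1167 (cons (fin 912 5 911)
(fin 1231 6 975)))))))))))
(mv 1100 (cons (fin 1039 1 1036)
(mv 1098 (cons (fin 1099 2 1034)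
(mv 1165 (cons (cons (mv 1229 (cons (fin 974 6 973)
(mv 1293 (cons (fin 1036 7 1036)
(fin 1102 6 1037)))))
(mv 973 (cons (cons (mv 1228 (cons (fin 1164 5 972)
(mv 1230 (cons (fin 1166 4 973)
(mv 972 (cons (fin 908 7 908)
(mv 971 (cons (fin 970 0 970)
(mv 974 (cons (fin 910 6 909)
(mv 1035 (cons (fin 1034 1 970)
(mv 907 (cons (fin 906 3 906)
(mv 843 (cons (fin 1036 4 843)
(mv 778 (cons (fin 842 7 778)
(mv 779 (cons (fin 714 7 714)
(mv 780 (cons (fin 844 6 779)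
(fin 716 6 715)))))))))))))))))))))))
(mv 1230 (cons (fin 1166 4 973)
(mv 972 (cons (fin 908 7 908)
(mv 971 (cons (fin 970 0 970)
(mv 974 (cons (fin 910 6 909)
(mv 1035 (cons (fin 1034 1 970)
(mv 907 (cons (fin 906 3 906)
(mv 843 (cons (fin 1036 4 843)
(mv 778 (cons (fin 842 7 778)
(mv 779 (cons (fin 714 7 714)
(mv 780 (cons (fin 844 6 779)
(fin 716 6 715))))))))))))))))))))))
(cons (mv 1164 (cons (fin 1228 5 972)
(mv 1166 (cons (fin 1230 4 973)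
(mv 1167 (cons (fin 1168 3 1100)
(mv 1231 (cons (fin 1232 0 1164)
(mv 974 (cons (fin 1102 4 974)
(fin 910 6 909)))))))))))
(cons (mv 1228 (cons (fin 1164 5 972)
(mv 972 (cons (fin 908 7 908)
(mv 971 (cons (fin 970 0 970)
(mv 974 (cons (fin 910 6 909)
(mv 1035 (cons (fin 1034 1 970)
(mv 907 (cons (fin 906 3 906)
(mv 843 (cons (fin 1036 4 843)
(mv 778 (cons (fin 842 7 778)
(mv 779 (cons (fin 714 7 714)
(mv 780 (cons (fin 844 6 779)
(fin 716 6 715)))))))))))))))))))))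
(mv 1230 (cons (fin 1166 4 973)
(mv 1164 (cons (fin 1228 5 972)
(mv 972 (cons (fin 908 7 908)
(mv 971 (cons (fin 970 0 970)
(mv 1036 (cons (fin 907 7 907)
(mv 1163 (cons (fin 1227 5 971)
(mv 1162 (cons (fin 1097 3 1097)
(fin 1161 2 1097))))))))))))))))))))
(cons (mv 1229 (cons (mv 1293 (cons (fin 1036 7 1036)
(fin 1102 6 1037)))
(cons (mv 1292 (cons (fin 1228 5 1036)
(mv 1230 (cons (fin 1294 4 1037)
(mv 972 (cons (fin 1036 7 972)
(mv 973 (cons (fin 908 7 908)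
(fin 1166 4 973)))))))))
(mv 1292 (cons (fin 1228 5 1036)
(mv 1293 (cons (fin 1356 5 1100)
(fin 1102 6 1037))))))))
(cons (mv 1229 (cons (fin 974 6 973)
(mv 1292 (cons (fin 1228 5 1036)
(mv 1293 (cons (fin 1356 5 1100)
(fin 1102 6 1037)))))))
(mv 1229 (cons (fin 974 6 973)
(mv 1036 (cons (fin 1293 7 1036)
(fin 972 7 972))))))))))))))
(cons (mv 1100 (cons (fin 1039 1 1036)
(mv 1098 (cons (fin 1099 2 1034)
(mv 1165 (cons (cons (mv 1229 (cons (fin 974 6 973)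
(mv 1292 (cons (fin 1228 5 1036)
(mv 1293 (cons (fin 1356 5 1100)
(fin 1102 6 1037)))))))
(mv 1166 (cons (cons (mv 1230 (cons (fin 973 4 973)
(mv 1294 (cons (fin 1358 7 1101)
(fin 1102 7 1037)))))
(mv 1167 (cons (fin 1168 3 1100)
(mv 1164 (cons (mv 1228 (cons (fin 1227 1 1163)
(fin 1292 6 1036)))
(mv 1231 (cons (fin 1232 0 1164)
(mv 1230 (cons (fin 1163 0 1163)
(mv 1294 (cons (fin 1358 7 1101)
(fin 1102 7 1037))))))))))))
(cons (mv 1167 (cons (fin 1168 3 1100)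
(mv 1164 (cons (mv 1228 (cons (fin 1227 1 1163)
(fin 973 5 972)))
(mv 1231 (cons (fin 1232 0 1164)
(mv 1102 (cons (fin 974 4 974)
(mv 1295 (cons (fin 1359 7 1102)
(fin 1103 7 1038)))))))))))
(mv 1230 (cons (fin 973 4 973)
(mv 1358 (cons (fin 1294 7 1101)
(mv 1167 (cons (fin 1168 3 1100)
(mv 1164 (cons (mv 1228 (cons (fin 1227 1 1163)
(fin 1292 6 1036)))
(mv 1231 (cons (fin 1163 0 1163)
(fin 1232 0 1164)))))))))))))))
(cons (mv 1229 (cons (mv 1292 (cons (fin 1228 5 1036)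
(mv 1293 (cons (fin 1356 5 1100)
(fin 1102 6 1037)))))
(cons (mv 1228 (cons (fin 1292 5 1036)
(mv 1230 (cons (fin 1294 4 1037)
(mv 973 (cons (fin 1164 5 972)
(fin 1166 4 973)))))))
(mv 1293 (cons (fin 1102 6 1037)
(mv 1294 (cons (fin 1358 4 1101)
(fin 1230 4 1037))))))))
(cons (mv 1229 (cons (fin 974 6 973)
(mv 1293 (cons (fin 1102 6 1037)
(mv 1294 (cons (fin 1358 4 1101)
(fin 1230 4 1037)))))))
(mv 1229 (cons (fin 974 6 973)
(mv 1292 (cons (fin 1228 5 1036)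
(mv 1293 (cons (fin 1356 5 1100)
(mv 1294 (cons (fin 1358 4 1101)
(fin 1230 4 1037)))))))))))))))))
(mv 1039 (cons (fin 1100 1 1036)
(mv 1104 (cons (fin 1105 0 1037)
(mv 1103 (cons (fin 1036 0 1036)
(mv 973 (cons (fin 972 3 972)
(mv 976 (cons (fin 977 2 973)
(mv 912 (cons (fin 848 5 847)
(mv 911 (cons (fin 847 7 847)
(mv 913 (cons (fin 849 6 848)
(mv 974 (cons (fin 910 1 909)
(mv 1165 (cons (fin 1229 6 973)
(mv 1164 (cons (fin 1102 1 1100)
(fin 1228 5 972))))))))))))))))))))))))))))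
(cons (mv 1038 (cons (cons (mv 1100 (cons (fin 1039 1 1036)
(mv 1099 (cons (fin 1098 2 1034)
(mv 1102 (cons (cons (mv 1162 (cons (fin 1163 1 1098)
(mv 1035 (cons (fin 1034 3 1034)
(mv 1103 (cons (fin 1036 3 1035)
(mv 1104 (cons (fin 1105 3 1037)
(mv 1165 (cons (fin 1164 1 1100)
(mv 1229 (cons (fin 1293 6 1037)
(fin 974 6 973)))))))))))))
(cons (mv 1163 (cons (fin 1162 1 1098)
(mv 1164 (cons (fin 1103 1 1099)
(mv 1228 (cons (fin 1292 6 1036)
(mv 973 (cons (fin 1165 5 972)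
(fin 1036 6 972)))))))))
(mv 1035 (cons (fin 1034 3 1034)
(mv 1103 (cons (fin 1036 3 1035)
(mv 1104 (cons (fin 1105 3 1037)
(mv 1165 (cons (fin 1164 1 1100)
(mv 1229 (cons (fin 1293 6 1037)
(fin 974 6 973)))))))))))))
(cons (mv 1162 (cons (fin 1163 1 1098)
(mv 1035 (cons (fin 1034 3 1034)
(mv 974 (cons (mv 1165 (cons (fin 910 5 909)
(fin 1229 6 973)))
(mv 1036 (cons (fin 975 2 971)
(mv 971 (cons (fin 970 3 970)
(mv 1164 (cons (fin 1228 7 971)
(fin 907 4 907)))))))))))))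
(cons (mv 1163 (cons (fin 1162 1 1098)
(mv 1164 (cons (fin 1103 1 1099)
(mv 1292 (cons (fin 1228 6 1036)
(mv 1035 (cons (fin 1034 3 1034)
(mv 971 (cons (fin 907 4 907)
(mv 970 (cons (fin 906 7 906)
(mv 972 (cons (fin 973 0 970)
(fin 908 6 907)))))))))))))))
(mv 1162 (cons (fin 1163 1 1098)
(mv 1035 (cons (fin 1034 3 1034)
(mv 1036 (cons (fin 1103 3 1035)
(mv 970 (cons (fin 971 3 970)
(mv 974 (cons (fin 975 2 971)
(mv 1165 (cons (fin 910 5 909)
(fin 1229 6 973)))))))))))))))))))))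
(cons (mv 1165 (cons (cons (mv 1229 (cons (fin 974 6 973)
(mv 1292 (cons (fin 1228 5 1036)
(mv 1293 (cons (fin 1356 5 1100)
(fin 1102 6 1037)))))))
(mv 973 (cons (cons (cons (mv 1228 (cons (fin 1164 5 972)
(mv 1230 (cons (fin 1166 4 973)
(mv 972 (cons (fin 908 7 908)
(mv 971 (cons (fin 970 0 970)
(mv 974 (cons (fin 910 6 909)
(mv 1035 (cons (fin 1034 1 970)
(mv 1036 (cons (fin 975 1 971)
(mv 1098 (cons (fin 1099 1 1034)
(mv 1102 (cons (fin 1103 0 1035)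
(mv 907 (cons (fin 906 3 906)
(mv 843 (cons (fin 1100 4 843)
(fin 779 4 779)))))))))))))))))))))))
(mv 1164 (cons (fin 1228 5 972)
(mv 1166 (cons (fin 1230 4 973)
(mv 972 (cons (fin 908 7 908)
(mv 970 (cons (fin 971 0 970)
(mv 1163 (cons (mv 1102 (cons (fin 1162 2 1098)
(fin 1103 2 1099)))
(cons (mv 1226 (cons (fin 1227 1 1162)
(mv 1162 (cons (fin 1225 1 1161)
(mv 1098 (cons (fin 1097 3 1097)
(fin 1099 3 1098)))))))
(mv 1227 (cons (fin 1226 1 1162)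
(mv 1099 (cons (fin 1098 3 1098)
(mv 1035 (cons (fin 1034 7 970)
(fin 1036 6 971)))))))))))))))))))
(cons (mv 1164 (cons (fin 1228 5 972)
(mv 1166 (cons (fin 1230 4 973)
(mv 974 (cons (fin 910 6 909)
(mv 1102 (cons (mv 1163 (cons (fin 1162 2 1098)
(fin 1103 2 1099)))
(cons (mv 1162 (cons (fin 1163 2 1098)
(mv 975 (cons (fin 911 6 910)
(mv 1036 (cons (fin 976 1 972)
(fin 1035 2 971)))))))
(mv 1103 (cons (fin 1104 1 1100)
(mv 1036 (cons (fin 1035 0 1035)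
(mv 975 (cons (fin 976 1 972)
(fin 911 6 910))))))))))))))))
(mv 1228 (cons (fin 1164 5 972)
(mv 972 (cons (fin 908 7 908)
(mv 971 (cons (fin 970 0 970)
(mv 974 (cons (fin 910 6 909)
(mv 1035 (cons (fin 1034 1 970)
(mv 1036 (cons (fin 975 1 971)
(mv 1098 (cons (fin 1099 1 1034)
(mv 1102 (cons (fin 1103 0 1035)
(mv 907 (cons (fin 906 3 906)
(mv 843 (cons (fin 1100 4 843)
(fin 779 4 779)))))))))))))))))))))))
(cons (cons (mv 1230 (cons (fin 1166 4 973)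
(mv 972 (cons (fin 908 7 908)
(mv 971 (cons (fin 970 0 970)
(mv 974 (cons (fin 910 6 909)
(mv 1035 (cons (fin 1034 1 970)
(mv 1036 (cons (fin 975 1 971)
(mv 1098 (cons (fin 1099 1 1034)
(mv 1102 (cons (fin 1103 0 1035)
(mv 907 (cons (fin 906 3 906)
(mv 843 (cons (fin 1100 4 843)
(fin 779 4 779)))))))))))))))))))))
(mv 1228 (cons (fin 1164 5 972)
(mv 1230 (cons (fin 1166 4 973)
(mv 972 (cons (fin 908 7 908)
(mv 971 (cons (fin 970 0 970)
(mv 974 (cons (fin 910 6 909)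
(mv 1035 (cons (fin 1034 1 970)
(mv 1036 (cons (fin 975 1 971)
(mv 1098 (cons (fin 1099 1 1034)
(mv 907 (cons (fin 906 3 906)
(mv 843 (cons (fin 1100 4 843)
(fin 779 4 779))))))))))))))))))))))
(cons (mv 1230 (cons (fin 1166 4 973)
(mv 1164 (cons (fin 1228 5 972)
(mv 972 (cons (fin 908 7 908)
(mv 971 (cons (fin 970 0 970)
(mv 974 (cons (fin 910 6 909)
(mv 1035 (cons (fin 1034 1 970)
(mv 907 (cons (fin 906 3 906)
(mv 1099 (cons (fin 1100 4 907)
(mv 1162 (cons (fin 1098 5 906)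
(mv 1163 (cons (fin 1102 2 1098)
(fin 1226 5 970)))))))))))))))))))))
(mv 1164 (cons (fin 1228 5 972)
(mv 1166 (cons (fin 1230 4 973)
(mv 972 (cons (fin 908 7 908)
(mv 971 (cons (fin 970 0 970)
(mv 974 (cons (fin 910 6 909)
(mv 907 (cons (fin 906 3 906)
(mv 1036 (cons (fin 1100 7 907)
(mv 975 (cons (fin 976 1 972)
(mv 911 (cons (fin 912 2 908)
(fin 1102 6 910))))))))))))))))))))))))
(cons (mv 1229 (cons (mv 1292 (cons (fin 1228 5 1036)
(mv 1293 (cons (fin 1356 5 1100)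
(fin 1102 6 1037)))))
(cons (mv 1292 (cons (fin 1228 5 1036)
(mv 1230 (cons (fin 1294 4 1037)
(mv 972 (cons (fin 1036 7 972)
(mv 973 (cons (fin 908 7 908)
(fin 1166 4 973)))))))))
(mv 1293 (cons (fin 1102 6 1037)
(mv 1294 (cons (fin 1358 4 1101)
(fin 1230 4 1037))))))))
(cons (mv 1229 (cons (fin 974 6 973)
(mv 1292 (cons (fin 1228 5 1036)
(mv 1356 (cons (fin 1293 5 1100)
(mv 1230 (cons (fin 1294 4 1037)
(mv 972 (cons (fin 1036 7 972)
(mv 973 (cons (fin 908 7 908)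
(fin 1166 4 973)))))))))))))
(mv 1229 (cons (fin 974 6 973)
(mv 1293 (cons (fin 1102 6 1037)
(mv 1294 (cons (fin 1358 4 1101)
(fin 1230 4 1037)))))))))))
(mv 1039 (cons (cons (mv 1104 (cons (fin 1105 0 1037)
(mv 1103 (cons (fin 1036 0 1036)
(mv 972 (cons (fin 973 3 972)
(mv 976 (cons (fin 977 2 973)
(mv 912 (cons (fin 848 5 847)
(mv 911 (cons (fin 847 7 847)
(mv 1168 (cons (fin 975 7 911)
(mv 1169 (cons (fin 1102 0 1101)
(fin 1233 4 976)))))))))))))))))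
(mv 972 (cons (fin 973 3 972)
(mv 1036 (cons (fin 971 3 971)
(mv 976 (cons (fin 975 2 972)
(fin 977 2 973))))))))
(cons (mv 1104 (cons (fin 1105 0 1037)
(mv 1103 (cons (fin 1036 0 1036)
(mv 976 (cons (fin 977 2 973)
(mv 912 (cons (fin 848 5 847)
(mv 911 (cons (fin 847 7 847)
(mv 1168 (cons (fin 975 7 911)
(mv 1169 (cons (fin 1102 0 1101)
(fin 1233 4 976)))))))))))))))
(cons (mv 1104 (cons (fin 1105 0 1037)
(mv 1036 (cons (fin 1103 0 1036)
(mv 972 (cons (fin 971 3 971)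
(fin 973 3 972)))))))
(mv 1104 (cons (fin 1105 0 1037)
(mv 972 (cons (fin 973 3 972)
(mv 976 (cons (fin 977 2 973)
(mv 1168 (cons (mv 975 (cons (fin 1232 7 975)
(fin 911 7 911)))
(cons (mv 1233 (cons (fin 1169 4 976)
(mv 1232 (cons (fin 1297 4 1040)
(mv 1295 (cons (fin 1231 5 1039)
(mv 1296 (cons (fin 1359 5 1103)
(fin 1103 7 1039)))))))))
(mv 1233 (cons (fin 1169 4 976)
(mv 911 (cons (fin 975 7 911)
(mv 912 (cons (fin 847 7 847)
(mv 848 (cons (fin 1103 5 847)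
(mv 849 (cons (fin 913 6 848)
(fin 785 6 784))))))))))))))))))))))))))
(cons (cons (mv 1039 (cons (fin 1100 1 1036)
(mv 1104 (cons (fin 1105 0 1037)
(mv 1103 (cons (fin 1036 0 1036)
(mv 976 (cons (fin 977 2 973)
(mv 912 (cons (fin 848 5 847)
(mv 911 (cons (fin 847 7 847)
(mv 1168 (cons (fin 975 7 911)
(mv 1169 (cons (fin 1102 0 1101)
(fin 1233 4 976)))))))))))))))))
(mv 1039 (cons (fin 1100 1 1036)
(mv 972 (cons (fin 973 3 972)
(mv 1036 (cons (fin 971 3 971)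
(mv 976 (cons (fin 975 2 972)
(fin 977 2 973))))))))))
(cons (mv 1039 (cons (fin 1100 1 1036)
(mv 1104 (cons (fin 1105 0 1037)
(mv 972 (cons (fin 973 3 972)
(mv 976 (cons (fin 977 2 973)
(mv 1168 (cons (mv 975 (cons (fin 1232 7 975)
(fin 911 7 911)))
(cons (mv 1233 (cons (fin 1169 4 976)
(mv 1232 (cons (fin 1297 4 1040)
(mv 1295 (cons (fin 1231 5 1039)
(mv 1296 (cons (fin 1359 5 1103)
(fin 1103 7 1039)))))))))
(mv 1233 (cons (fin 1169 4 976)
(mv 911 (cons (fin 975 7 911)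
(mv 912 (cons (fin 847 7 847)
(mv 848 (cons (fin 1103 5 847)
(mv 849 (cons (fin 913 6 848)
(fin 785 6 784))))))))))))))))))))))
(mv 1039 (cons (fin 1100 1 1036)
(mv 1104 (cons (fin 1105 0 1037)
(mv 1103 (cons (fin 1036 0 1036)
(mv 973 (cons (fin 972 3 972)
(mv 976 (cons (fin 977 2 973)
(mv 912 (cons (fin 848 5 847)
(mv 911 (cons (fin 847 7 847)
(mv 913 (cons (fin 849 6 848)
(mv 974 (cons (fin 910 1 909)
(mv 1165 (cons (fin 1229 6 973)
(mv 1164 (cons (fin 1102 1 1100)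
(fin 1228 5 972)))))))))))))))))))))))))))
(cons (mv 1038 (cons (cons (mv 1039 (cons (fin 1100 1 1036)
(mv 1104 (cons (fin 1105 0 1037)
(mv 1103 (cons (fin 1036 0 1036)
(mv 972 (cons (fin 973 3 972)
(mv 976 (cons (fin 977 2 973)
(mv 912 (cons (fin 1167 5 911)
(fin 848 5 847)))))))))))))
(cons (mv 974 (cons (cons (mv 1165 (cons (fin 1229 6 973)
(mv 910 (cons (fin 1102 5 909)
(fin 846 5 845)))))
(mv 910 (cons (fin 846 5 845)
(mv 1102 (cons (mv 1167 (cons (fin 1103 4 910)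
(mv 911 (cons (fin 847 6 846)
(mv 1166 (cons (fin 975 6 910)
(mv 1230 (cons (fin 1294 7 1037)
(fin 973 7 973)))))))))
(cons (mv 911 (cons (fin 847 6 846)
(mv 1166 (cons (fin 975 6 910)
(mv 1230 (cons (fin 1294 7 1037)
(fin 973 7 973)))))))
(mv 1103 (cons (fin 1167 4 910)
(mv 1104 (cons (fin 1036 3 1036)
(fin 1105 3 1037)))))))))))
(cons (mv 1165 (cons (fin 1229 6 973)
(mv 973 (cons (cons (mv 1228 (cons (fin 1164 5 972)
(mv 1230 (cons (fin 1166 4 973)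
(mv 972 (cons (fin 908 7 908)
(mv 971 (cons (fin 970 0 970)
(mv 1035 (cons (fin 1034 1 970)
(mv 1036 (cons (fin 975 1 971)
(mv 1098 (cons (fin 1099 1 1034)
(mv 1102 (cons (fin 1103 0 1035)
(mv 907 (cons (fin 906 3 906)
(mv 843 (cons (fin 1100 4 843)
(fin 779 4 779)))))))))))))))))))))
(cons (mv 1164 (cons (fin 1228 5 972)
(mv 1166 (cons (fin 1230 4 973)
(mv 1102 (cons (mv 1163 (cons (fin 1162 2 1098)
(fin 1103 2 1099)))
(cons (mv 1162 (cons (fin 1163 2 1098)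
(mv 975 (cons (fin 911 6 910)
(mv 1036 (cons (fin 976 1 972)
(fin 1035 2 971)))))))
(mv 1103 (cons (fin 1104 1 1100)
(mv 1036 (cons (fin 1035 0 1035)
(mv 975 (cons (fin 976 1 972)
(fin 911 6 910))))))))))))))
(mv 1228 (cons (fin 1164 5 972)
(mv 972 (cons (fin 908 7 908)
(mv 971 (cons (fin 970 0 970)
(mv 1035 (cons (fin 1034 1 970)
(mv 1036 (cons (fin 975 1 971)
(mv 1098 (cons (fin 1099 1 1034)
(mv 1102 (cons (fin 1103 0 1035)
(mv 907 (cons (fin 906 3 906)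
(mv 843 (cons (fin 1100 4 843)
(fin 779 4 779)))))))))))))))))))))
(cons (mv 1230 (cons (fin 1166 4 973)
(mv 972 (cons (fin 908 7 908)
(mv 971 (cons (fin 970 0 970)
(mv 1035 (cons (fin 1034 1 970)
(mv 1036 (cons (fin 975 1 971)
(mv 1098 (cons (fin 1099 1 1034)
(mv 1102 (cons (fin 1103 0 1035)
(mv 907 (cons (fin 906 3 906)
(mv 843 (cons (fin 1100 4 843)
(fin 779 4 779)))))))))))))))))))
(cons (mv 1230 (cons (fin 1166 4 973)
(mv 1164 (cons (fin 1228 5 972)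
(mv 972 (cons (fin 908 7 908)
(mv 971 (cons (fin 970 0 970)
(mv 1035 (cons (fin 1034 1 970)
(mv 907 (cons (fin 906 3 906)
(mv 1099 (cons (fin 1100 4 907)
(mv 1162 (cons (fin 1098 5 906)
(mv 1163 (cons (fin 1102 2 1098)
(fin 1226 5 970)))))))))))))))))))
(mv 1164 (cons (fin 1228 5 972)
(mv 1166 (cons (fin 1230 4 973)
(mv 972 (cons (fin 908 7 908)
(mv 971 (cons (fin 970 0 970)
(mv 907 (cons (fin 906 3 906)
(mv 1100 (cons (fin 1036 7 907)
(mv 1167 (cons (fin 1099 3 1099)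
(fin 1168 3 1100)))))))))))))))))))))
(mv 1165 (cons (fin 1229 6 973)
(mv 910 (cons (fin 846 5 845)
(fin 973 6 909))))))))
(mv 1039 (cons (cons (mv 1104 (cons (fin 1105 0 1037)
(mv 1103 (cons (fin 1036 0 1036)
(mv 972 (cons (fin 973 3 972)
(mv 976 (cons (fin 977 2 973)
(mv 912 (cons (fin 1167 5 911)
(fin 848 5 847)))))))))))
(mv 972 (cons (fin 973 3 972)
(mv 1036 (cons (fin 971 3 971)
(mv 976 (cons (fin 975 2 972)
(fin 977 2 973))))))))
(cons (mv 1104 (cons (fin 1105 0 1037)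
(mv 1103 (cons (fin 1036 0 1036)
(mv 976 (cons (fin 977 2 973)
(mv 912 (cons (fin 1167 5 911)
(fin 848 5 847)))))))))
(cons (mv 1104 (cons (fin 1105 0 1037)
(mv 1036 (cons (fin 1103 0 1036)
(mv 972 (cons (fin 971 3 971)
(fin 973 3 972)))))))
(mv 1104 (cons (fin 1105 0 1037)
(mv 972 (cons (fin 973 3 972)
(mv 976 (cons (fin 977 2 973)
(mv 912 (cons (mv 1103 (cons (fin 1167 5 911)
(fin 848 5 847)))
(mv 911 (cons (fin 847 7 847)
(mv 975 (cons (fin 1168 7 911)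
(mv 913 (cons (fin 849 6 848)
(mv 914 (cons (fin 974 1 910)
(fin 915 1 911)))))))))))))))))))))))
(cons (cons (mv 1039 (cons (fin 1100 1 1036)
(mv 1104 (cons (fin 1105 0 1037)
(mv 1103 (cons (fin 1036 0 1036)
(mv 976 (cons (fin 977 2 973)
(mv 912 (cons (fin 1167 5 911)
(fin 848 5 847)))))))))))
(mv 1039 (cons (fin 1100 1 1036)
(mv 972 (cons (fin 973 3 972)
(mv 1036 (cons (fin 971 3 971)
(mv 976 (cons (fin 975 2 972)
(fin 977 2 973))))))))))
(cons (mv 1039 (cons (fin 1100 1 1036)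
(mv 1104 (cons (fin 1105 0 1037)
(mv 1036 (cons (fin 1103 0 1036)
(mv 972 (cons (fin 971 3 971)
(fin 973 3 972)))))))))
(mv 1100 (cons (fin 1039 1 1036)
(mv 1099 (cons (fin 1098 2 1034)
(mv 1102 (cons (cons (mv 1162 (cons (fin 1163 1 1098)
(mv 1166 (cons (fin 1167 0 1099)
(mv 1230 (cons (fin 1294 7 1037)
(fin 973 7 973)))))))
(mv 1163 (cons (fin 1162 1 1098)
(mv 1164 (cons (fin 1103 1 1099)
(mv 1292 (cons (fin 1228 6 1036)
(mv 1035 (cons (fin 1034 3 1034)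
(mv 971 (cons (fin 907 4 907)
(mv 970 (cons (fin 906 7 906)
(mv 972 (cons (fin 973 0 970)
(fin 908 6 907))))))))))))))))
(cons (mv 1166 (cons (fin 1167 0 1099)
(mv 1230 (cons (fin 1294 7 1037)
(fin 973 7 973)))))
(mv 1162 (cons (fin 1163 1 1098)
(mv 1166 (cons (fin 1167 0 1099)
(mv 1230 (cons (fin 1294 7 1037)
(mv 1229 (cons (fin 1293 5 1037)
(mv 1034 (cons (fin 1035 3 1034)
(mv 974 (cons (fin 1165 5 973)
(mv 910 (cons (fin 846 5 845)
(mv 911 (cons (fin 975 6 910)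
(fin 847 6 846))))))))))))))))))))))))))))
(mv 1038 (cons (cons (cons (mv 1039 (cons (fin 1100 1 1036)
(mv 1104 (cons (fin 1105 0 1037)
(mv 1103 (cons (fin 1036 0 1036)
(mv 972 (cons (fin 973 3 972)
(mv 976 (cons (fin 977 2 973)
(mv 1167 (cons (fin 912 5 911)
(fin 1231 6 975)))))))))))))
(mv 974 (cons (cons (mv 1165 (cons (fin 1229 6 973)
(mv 910 (cons (fin 1102 5 909)
(fin 846 5 845)))))
(mv 910 (cons (fin 846 5 845)
(mv 1102 (cons (mv 1167 (cons (fin 1103 4 910)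
(mv 1166 (cons (fin 1231 4 974)
(mv 1230 (cons (fin 1294 7 1037)
(fin 973 7 973)))))))
(cons (mv 911 (cons (fin 847 6 846)
(mv 1166 (cons (fin 975 6 910)
(mv 1230 (cons (fin 1294 7 1037)
(fin 973 7 973)))))))
(mv 1103 (cons (fin 1167 4 910)
(mv 1104 (cons (fin 1036 3 1036)
(fin 1105 3 1037)))))))))))
(cons (mv 1165 (cons (fin 1229 6 973)
(mv 1166 (cons (cons (mv 1230 (cons (fin 973 4 973)
(mv 1294 (cons (fin 1358 7 1101)
(fin 1102 7 1037)))))
(mv 975 (cons (mv 1102 (cons (fin 911 6 910)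
(mv 1231 (cons (fin 1167 4 974)
(mv 1036 (cons (fin 1035 2 971)
(mv 976 (cons (fin 973 1 972)
(fin 977 1 973)))))))))
(cons (mv 1036 (cons (fin 1035 2 971)
(mv 976 (cons (fin 973 1 972)
(fin 977 1 973)))))
(mv 1102 (cons (fin 911 6 910)
(mv 1167 (cons (fin 1231 4 974)
(mv 1168 (cons (fin 1100 3 1100)
(fin 1169 3 1101)))))))))))
(cons (mv 1167 (cons (cons (mv 1231 (cons (fin 1102 4 974)
(mv 1232 (cons (fin 1164 0 1164)
(mv 1233 (cons (fin 1230 3 1165)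
(fin 1234 3 1166)))))))
(mv 1168 (cons (fin 1100 3 1100)
(mv 1232 (cons (fin 1233 0 1165)
(mv 1231 (cons (fin 1164 0 1164)
(mv 1104 (cons (fin 1105 2 1101)
(fin 1295 5 1039))))))))))
(cons (mv 1168 (cons (fin 1100 3 1100)
(mv 1232 (cons (fin 1233 0 1165)
(mv 1169 (cons (fin 1102 3 1101)
(mv 1105 (cons (fin 1104 2 1101)
(fin 1106 2 1102)))))))))
(mv 1231 (cons (fin 1102 4 974)
(mv 1168 (cons (fin 1100 3 1100)
(mv 1104 (cons (fin 1105 2 1101)
(fin 976 5 975))))))))))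
(mv 973 (cons (fin 1230 4 973)
(mv 1164 (cons (fin 1228 5 972)
(mv 972 (cons (fin 908 7 908)
(mv 1163 (cons (cons (mv 1226 (cons (fin 1227 1 1162)
(mv 1225 (cons (fin 1162 1 1161)
(mv 1099 (cons (fin 1098 3 1098)
(mv 1167 (cons (fin 1100 3 1099)
(mv 1231 (cons (fin 1232 0 1164)
(mv 1104 (cons (fin 1103 2 1100)
(mv 1168 (cons (fin 1105 2 1101)
(fin 976 5 975)))))))))))))))
(cons (mv 1226 (cons (fin 1227 1 1162)
(mv 1162 (cons (fin 1225 1 1161)
(mv 1161 (cons (fin 1100 2 1097)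
(mv 1097 (cons (fin 1096 3 1096)
(fin 1098 3 1097)))))))))
(mv 1226 (cons (fin 1227 1 1162)
(mv 1162 (cons (fin 1225 1 1161)
(mv 1100 (cons (fin 1161 2 1097)
(mv 1167 (cons (fin 1099 3 1099)
(fin 1168 3 1100)))))))))))
(cons (cons (mv 1098 (cons (fin 1099 3 1098)
(mv 1162 (cons (fin 1097 3 1097)
(mv 1225 (cons (fin 1226 1 1161)
(mv 1161 (cons (fin 1224 1 1160)
(fin 1100 2 1097)))))))))
(mv 1098 (cons (fin 1099 3 1098)
(mv 1162 (cons (fin 1097 3 1097)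
(mv 1100 (cons (fin 1161 2 1097)
(mv 1167 (cons (fin 1168 3 1100)
(mv 1231 (cons (fin 1232 0 1164)
(mv 1103 (cons (fin 1104 2 1100)
(mv 1036 (cons (fin 1227 5 971)
(mv 1035 (cons (fin 975 1 971)
(fin 1034 2 970))))))))))))))))))
(cons (mv 1226 (cons (fin 1227 1 1162)
(mv 1162 (cons (fin 1225 1 1161)
(mv 1098 (cons (fin 1097 3 1097)
(fin 1099 3 1098)))))))
(mv 1226 (cons (fin 1227 1 1162)
(mv 1099 (cons (fin 1098 3 1098)
(mv 1167 (cons (fin 1100 3 1099)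
(mv 1231 (cons (fin 1232 0 1164)
(mv 1104 (cons (fin 1103 2 1100)
(mv 1168 (cons (fin 1105 2 1101)
(fin 976 5 975))))))))))))))))))))))))))))
(mv 1165 (cons (fin 1229 6 973)
(mv 910 (cons (fin 846 5 845)
(fin 973 6 909)))))))))
(cons (mv 1039 (cons (cons (mv 1104 (cons (fin 1105 0 1037)
(mv 1103 (cons (fin 1036 0 1036)
(mv 972 (cons (fin 973 3 972)
(mv 976 (cons (fin 977 2 973)
(mv 1167 (cons (fin 912 5 911)
(fin 1231 6 975)))))))))))
(cons (mv 972 (cons (fin 973 3 972)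
(mv 976 (cons (fin 977 2 973)
(mv 1165 (cons (cons (mv 1229 (cons (fin 1036 7 972)
(fin 974 6 973)))
(mv 975 (cons (fin 1036 2 972)
(mv 1102 (cons (cons (mv 1230 (cons (fin 1166 6 974)
(mv 910 (cons (fin 974 5 909)
(mv 911 (cons (fin 847 5 846)
(mv 1103 (cons (fin 846 7 846)
(mv 1167 (cons (fin 1231 6 975)
(fin 912 6 911)))))))))))
(mv 910 (cons (fin 974 5 909)
(mv 911 (cons (fin 847 5 846)
(mv 1103 (cons (fin 846 7 846)
(mv 1167 (cons (fin 1231 6 975)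
(fin 912 6 911))))))))))
(cons (mv 1166 (cons (fin 1230 6 974)
(mv 974 (cons (fin 910 5 909)
(mv 1167 (cons (fin 1231 4 974)
(mv 1168 (cons (fin 1169 3 1101)
(mv 1232 (cons (fin 1233 0 1165)
(fin 1103 4 975)))))))))))
(cons (mv 1166 (cons (fin 1230 6 974)
(mv 911 (cons (fin 1103 5 910)
(fin 847 5 846)))))
(mv 1166 (cons (fin 1230 6 974)
(mv 974 (cons (fin 910 5 909)
(fin 911 6 910))))))))))))
(cons (mv 1229 (cons (fin 974 6 973)
(mv 1292 (cons (fin 1228 5 1036)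
(mv 1293 (cons (fin 1356 5 1100)
(fin 1102 6 1037)))))))
(mv 1036 (cons (fin 975 2 972)
(fin 1229 7 972))))))))))
(mv 1104 (cons (fin 1105 0 1037)
(mv 1036 (cons (fin 1103 0 1036)
(mv 972 (cons (fin 973 3 972)
(mv 1165 (cons (fin 1229 7 972)
(mv 844 (cons (fin 908 4 844)
(mv 974 (cons (mv 910 (cons (fin 1102 5 909)
(fin 846 5 845)))
(cons (mv 1035 (cons (fin 975 2 971)
(mv 1098 (cons (fin 1099 1 1034)
(mv 1034 (cons (fin 1097 1 1033)
(fin 1102 0 1034)))))))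
(mv 975 (cons (fin 1035 2 971)
(mv 846 (cons (fin 910 5 845)
(mv 847 (cons (fin 911 4 847)
(mv 845 (cons (cons (mv 1232 (cons (fin 1168 7 975)
(mv 779 (cons (fin 780 3 779)
(mv 843 (cons (fin 778 3 778)
(mv 783 (cons (fin 782 2 779)
(fin 784 2 780)))))))))
(mv 783 (cons (fin 784 2 780)
(mv 843 (cons (fin 782 2 779)
(mv 906 (cons (fin 907 1 842)
(mv 842 (cons (fin 905 1 841)
(mv 778 (cons (fin 777 3 777)
(fin 779 3 778))))))))))))
(cons (mv 780 (cons (fin 779 3 779)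
(mv 848 (cons (fin 781 3 780)
(mv 913 (cons (fin 912 0 845)
(mv 849 (cons (fin 914 0 846)
(mv 785 (cons (fin 784 2 781)
(fin 786 2 782)))))))))))
(cons (mv 784 (cons (fin 783 2 780)
(mv 848 (cons (fin 785 2 781)
(mv 913 (cons (fin 912 0 845)
(mv 849 (cons (fin 914 0 846)
(mv 781 (cons (fin 780 3 780)
(fin 782 3 781)))))))))))
(mv 779 (cons (fin 780 3 779)
(mv 843 (cons (fin 778 3 778)
(mv 906 (cons (fin 907 1 842)
(mv 842 (cons (fin 905 1 841)
(mv 782 (cons (fin 781 2 778)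
(fin 783 2 779))))))))))))))))))))))))))))))))))))
(cons (mv 1104 (cons (fin 1105 0 1037)
(mv 1103 (cons (fin 1036 0 1036)
(mv 976 (cons (fin 977 2 973)
(mv 1167 (cons (fin 912 5 911)
(fin 1231 6 975)))))))))
(cons (mv 1104 (cons (fin 1105 0 1037)
(mv 972 (cons (fin 973 3 972)
(mv 976 (cons (fin 977 2 973)
(mv 1168 (cons (mv 975 (cons (fin 1232 7 975)
(fin 911 7 911)))
(cons (mv 1231 (cons (fin 1167 5 975)
(mv 1232 (cons (fin 1295 5 1039)
(mv 1233 (cons (fin 1297 4 1040)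
(fin 1169 4 976)))))))
(mv 1231 (cons (fin 1167 5 975)
(mv 1233 (cons (fin 1169 4 976)
(mv 911 (cons (fin 975 7 911)
(mv 912 (cons (fin 847 7 847)
(mv 848 (cons (fin 1103 5 847)
(mv 849 (cons (fin 913 6 848)
(fin 785 6 784))))))))))))))))))))))
(mv 1104 (cons (fin 1105 0 1037)
(mv 972 (cons (fin 973 3 972)
(mv 976 (cons (fin 977 2 973)
(mv 975 (cons (fin 1036 2 972)
(mv 1168 (cons (fin 1232 7 975)
(fin 911 7 911)))))))))))))))
(mv 1039 (cons (fin 1100 1 1036)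
(mv 1104 (cons (fin 1105 0 1037)
(mv 1103 (cons (fin 1036 0 1036)
(mv 976 (cons (fin 977 2 973)
(mv 1167 (cons (fin 912 5 911)
(fin 1231 6 975)))))))))))))
(cons (cons (mv 1039 (cons (fin 1100 1 1036)
(mv 972 (cons (fin 973 3 972)
(mv 976 (cons (fin 977 2 973)
(mv 1165 (cons (cons (mv 1229 (cons (fin 1036 7 972)
(fin 974 6 973)))
(mv 975 (cons (fin 1036 2 972)
(mv 1102 (cons (cons (mv 1230 (cons (fin 1166 6 974)
(mv 910 (cons (fin 974 5 909)
(mv 911 (cons (fin 847 5 846)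
(mv 1103 (cons (fin 846 7 846)
(mv 1167 (cons (fin 1231 6 975)
(fin 912 6 911)))))))))))
(mv 910 (cons (fin 974 5 909)
(mv 911 (cons (fin 847 5 846)
(mv 1103 (cons (fin 846 7 846)
(mv 1167 (cons (fin 1231 6 975)
(fin 912 6 911))))))))))
(cons (mv 1166 (cons (fin 1230 6 974)
(mv 974 (cons (fin 910 5 909)
(mv 1167 (cons (fin 1231 4 974)
(mv 1168 (cons (fin 1169 3 1101)
(mv 1232 (cons (fin 1233 0 1165)
(fin 1103 4 975)))))))))))
(cons (mv 1166 (cons (fin 1230 6 974)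
(mv 911 (cons (fin 1103 5 910)
(fin 847 5 846)))))
(mv 1166 (cons (fin 1230 6 974)
(mv 974 (cons (fin 910 5 909)
(fin 911 6 910))))))))))))
(cons (mv 1229 (cons (fin 974 6 973)
(mv 1292 (cons (fin 1228 5 1036)
(mv 1293 (cons (fin 1356 5 1100)
(fin 1102 6 1037)))))))
(mv 1036 (cons (fin 975 2 972)
(fin 1229 7 972))))))))))))
(mv 1039 (cons (fin 1100 1 1036)
(mv 1104 (cons (fin 1105 0 1037)
(mv 1036 (cons (fin 1103 0 1036)
(mv 972 (cons (fin 973 3 972)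
(mv 1165 (cons (fin 1229 7 972)
(mv 844 (cons (fin 908 4 844)
(mv 974 (cons (mv 910 (cons (fin 1102 5 909)
(fin 846 5 845)))
(cons (mv 1035 (cons (fin 975 2 971)
(mv 1098 (cons (fin 1099 1 1034)
(mv 1034 (cons (fin 1097 1 1033)
(fin 1102 0 1034)))))))
(mv 975 (cons (fin 1035 2 971)
(mv 846 (cons (fin 910 5 845)
(mv 847 (cons (fin 911 4 847)
(mv 845 (cons (cons (mv 1232 (cons (fin 1168 7 975)
(mv 779 (cons (fin 780 3 779)
(mv 843 (cons (fin 778 3 778)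
(mv 783 (cons (fin 782 2 779)
(fin 784 2 780)))))))))
(mv 783 (cons (fin 784 2 780)
(mv 843 (cons (fin 782 2 779)
(mv 906 (cons (fin 907 1 842)
(mv 842 (cons (fin 905 1 841)
(mv 778 (cons (fin 777 3 777)
(fin 779 3 778))))))))))))
(cons (mv 780 (cons (fin 779 3 779)
(mv 848 (cons (fin 781 3 780)
(mv 913 (cons (fin 912 0 845)
(mv 849 (cons (fin 914 0 846)
(mv 785 (cons (fin 784 2 781)
(fin 786 2 782)))))))))))
(cons (mv 784 (cons (fin 783 2 780)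
(mv 848 (cons (fin 785 2 781)
(mv 913 (cons (fin 912 0 845)
(mv 849 (cons (fin 914 0 846)
(mv 781 (cons (fin 780 3 780)
(fin 782 3 781)))))))))))
(mv 779 (cons (fin 780 3 779)
(mv 843 (cons (fin 778 3 778)
(mv 906 (cons (fin 907 1 842)
(mv 842 (cons (fin 905 1 841)
(mv 782 (cons (fin 781 2 778)
(fin 783 2 779)))))))))))))))))))))))))))))))))))))
(cons (mv 1039 (cons (fin 1100 1 1036)
(mv 1104 (cons (fin 1105 0 1037)
(mv 972 (cons (fin 973 3 972)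
(mv 976 (cons (fin 977 2 973)
(mv 1168 (cons (mv 975 (cons (fin 1232 7 975)
(fin 911 7 911)))
(cons (mv 1231 (cons (fin 1167 5 975)
(mv 1232 (cons (fin 1295 5 1039)
(mv 1233 (cons (fin 1297 4 1040)
(fin 1169 4 976)))))))
(mv 1231 (cons (fin 1167 5 975)
(mv 1233 (cons (fin 1169 4 976)
(mv 911 (cons (fin 975 7 911)
(mv 912 (cons (fin 847 7 847)
(mv 848 (cons (fin 1103 5 847)
(mv 849 (cons (fin 913 6 848)
(fin 785 6 784))))))))))))))))))))))))
(mv 1039 (cons (fin 1100 1 1036)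
(mv 1104 (cons (fin 1105 0 1037)
(mv 972 (cons (fin 973 3 972)
(mv 976 (cons (fin 977 2 973)
(mv 975 (cons (fin 1036 2 972)
(mv 1168 (cons (fin 1232 7 975)
(fin 911 7 911)))))))))))))))))))))))
def l108 : Lem := ⟨13254031944712882724506621310649321556018620670345837899455453023597314721787975009848330616026462815765143756135158089473467252075149308743152655366187148242124071246428482498451210046760672027239036899891323305324899173507745103325308665813954110541579506451753178596634830548552232523722901151470534797188661248, 2675984352907870388517306036218735069584721988439641369606653914105540063532385997402866509629288252674729235190071850481293424838680461900808090777176523505436731708188709778182707131824009817185543628291758220487456664956361972457096692878329662690034214509501007550144891688951704494624091570283426437083019111521680393627375782401388166010749398242356130377345833075678667027504669226509635002948671015591130226403617076232383736103626315137024,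 2675984352907870388517306036218735069584721988439641369606653914105540063532385997402866509629288252674729235190071850481293424838680461900808090777176523505436731708188709778182707131824009817185543628291758220487456664956361972457096692878329662690034214509501007550144891688951704494624091570283426437083019111521680393627375782401388166010749398242356130377345833075678667027504669226509635002948671015591130226403617076232383736103626315137024, 19, 33⟩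
theorem l108_valid : l108.Valid :=
  Lem.valid_of_chk t108 t108_valid [1037, 1040] c108 l108 (by decide +kernel)
end Crest.Agent.SnakyAux
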