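import Crest.Agent.S0047_aux.Checker

set_option autoImplicit false
set_option maxRecDepth 100000
namespace Crest.Agent.SnakyAux
open Cert
def t109 : Tbl := Tbl.nil
theorem t109_valid : t109.Valid := Tbl.valid_nil
def c109 : Cert :=
(mv 973 (cons (cons (cons (cons (mv 1038 (cons (cons (mv 1039 (cons (fin 972 3 972)
(mv 976 (cons (fin 977 2 973)
(mv 975 (cons (fin 1036 2 972)
(mv 1100 (cons (fin 1101 1 1036)
(mv 1104 (cons (fin 1105 0 1037)
(mv 911 (cons (fin 1168 7 911)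
(fin 847 4 847)))))))))))))
(cons (mv 1102 (cons (cons (mv 909 (cons (fin 845 4 845)
(mv 1166 (cons (fin 974 7 909)
(fin 1230 7 973)))))
(mv 1166 (cons (fin 1230 7 973)
(mv 974 (cons (mv 911 (cons (fin 975 6 910)
(mv 910 (cons (fin 847 6 846)
(mv 846 (cons (fin 782 5 781)
(fin 1101 5 845)))))))
(cons (mv 1167 (cons (fin 1231 4 974)
(mv 910 (cons (fin 1103 4 910)
(mv 846 (cons (fin 782 5 781)
(fin 1101 5 845)))))))
(mv 975 (cons (fin 911 6 910)
(mv 976 (cons (fin 1036 1 972)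
(fin 977 1 973)))))))))))
(cons (mv 909 (cons (fin 845 4 845)
(mv 1101 (cons (cons (mv 844 (cons (fin 908 7 844)
(mv 846 (cons (fin 910 6 845)
(mv 1100 (cons (fin 1164 5 908)
(mv 1099 (cons (fin 1098 2 1034)
(mv 1035 (cons (fin 1034 3 1034)
(mv 1036 (cons (fin 1103 3 1035)
(mv 970 (cons (fin 971 3 970)
(mv 974 (cons (fin 975 2 971)
(mv 1163 (cons (fin 1162 1 1098)
(mv 1227 (cons (fin 972 6 971)
(fin 1291 6 1035)))))))))))))))))))))
(cons (mv 844 (cons (fin 908 7 844)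
(mv 910 (cons (fin 846 6 845)
(mv 1103 (cons (mv 1036 (cons (fin 1104 3 1036)
(fin 1035 0 1035)))
(mv 974 (cons (fin 1167 4 910)
(mv 911 (cons (fin 847 6 846)
(mv 912 (cons (fin 972 1 908)
(fin 913 1 909)))))))))))))
(mv 844 (cons (fin 908 7 844)
(mv 1100 (cons (fin 1164 5 908)
(mv 1099 (cons (fin 1098 2 1034)
(mv 1035 (cons (fin 1034 3 1034)
(mv 1036 (cons (fin 1103 3 1035)
(mv 970 (cons (fin 971 3 970)
(mv 974 (cons (fin 975 2 971)
(mv 1163 (cons (fin 1162 1 1098)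
(mv 1227 (cons (fin 972 6 971)
(fin 1291 6 1035)))))))))))))))))))))
(cons (cons (mv 846 (cons (fin 910 6 845)
(mv 1100 (cons (fin 1164 5 908)
(mv 1099 (cons (fin 1098 2 1034)
(mv 1035 (cons (fin 1034 3 1034)
(mv 1036 (cons (fin 1103 3 1035)
(mv 970 (cons (fin 971 3 970)
(mv 974 (cons (fin 975 2 971)
(mv 1163 (cons (fin 1162 1 1098)
(mv 1227 (cons (fin 972 6 971)
(fin 1291 6 1035)))))))))))))))))))
(mv 846 (cons (fin 910 6 845)
(mv 908 (cons (fin 844 7 844)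
(mv 1100 (cons (fin 1164 5 908)
(mv 1099 (cons (fin 1098 2 1034)
(mv 1035 (cons (fin 1034 3 1034)
(mv 1163 (cons (fin 1162 1 1098)
(mv 971 (cons (fin 972 6 907)
(mv 906 (cons (fin 970 7 906)
(mv 907 (cons (fin 974 0 906)
(fin 842 7 842))))))))))))))))))))
(cons (mv 908 (cons (fin 844 7 844)
(mv 910 (cons (fin 846 6 845)
(mv 1100 (cons (fin 1164 5 908)
(mv 1099 (cons (fin 1098 2 1034)
(mv 1163 (cons (fin 1162 1 1098)
(mv 972 (cons (fin 1036 5 907)
(mv 911 (cons (fin 971 1 907)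
(fin 912 1 908)))))))))))))))
(mv 844 (cons (fin 908 7 844)
(mv 846 (cons (fin 910 6 845)
(mv 1100 (cons (fin 1164 5 908)
(mv 1099 (cons (fin 1098 2 1034)
(mv 1035 (cons (fin 1034 3 1034)
(mv 1103 (cons (fin 1036 3 1035)
(mv 1104 (cons (fin 1105 3 1037)
(mv 1168 (cons (fin 1167 0 1100)
(fin 1169 0 1101)))))))))))))))))))))))
(mv 909 (cons (fin 845 4 845)
(mv 1166 (cons (fin 1230 7 973)
(fin 1101 4 909))))))))
(mv 1039 (cons (cons (mv 976 (cons (fin 977 2 973)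
(mv 975 (cons (fin 1036 2 972)
(mv 1100 (cons (fin 1101 1 1036)
(mv 1104 (cons (fin 1105 0 1037)
(mv 911 (cons (fin 1168 7 911)
(fin 847 4 847)))))))))))
(mv 1100 (cons (fin 1101 1 1036)
(mv 1036 (cons (fin 1099 1 1035)
(mv 1104 (cons (fin 1103 0 1036)
(fin 1105 0 1037))))))))
(cons (mv 976 (cons (fin 977 2 973)
(mv 975 (cons (fin 1036 2 972)
(mv 1104 (cons (fin 1105 0 1037)
(mv 911 (cons (fin 1168 7 911)
(fin 847 4 847)))))))))
(cons (mv 976 (cons (fin 977 2 973)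
(mv 1036 (cons (fin 975 2 972)
(mv 1100 (cons (fin 1099 1 1035)
(fin 1101 1 1036)))))))
(mv 976 (cons (fin 977 2 973)
(mv 1100 (cons (fin 1101 1 1036)
(mv 1104 (cons (fin 1105 0 1037)
(mv 912 (cons (mv 1103 (cons (fin 848 5 847)
(fin 1167 5 911)))
(cons (mv 847 (cons (fin 911 7 847)
(mv 848 (cons (fin 783 7 783)
(mv 849 (cons (fin 785 6 784)
(fin 913 6 848)))))))
(mv 847 (cons (fin 911 7 847)
(mv 849 (cons (fin 913 6 848)
(mv 1167 (cons (fin 1103 5 911)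
(mv 1168 (cons (fin 1231 5 975)
(mv 1232 (cons (fin 975 7 975)
(mv 1233 (cons (fin 1169 4 976)
(fin 1297 4 1040))))))))))))))))))))))))))))
(cons (cons (mv 1039 (cons (fin 972 3 972)
(mv 976 (cons (fin 977 2 973)
(mv 975 (cons (fin 1036 2 972)
(mv 1104 (cons (fin 1105 0 1037)
(mv 911 (cons (fin 1168 7 911)
(fin 847 4 847)))))))))))
(mv 1039 (cons (fin 972 3 972)
(mv 1100 (cons (fin 1101 1 1036)
(mv 1036 (cons (fin 1099 1 1035)
(mv 1104 (cons (fin 1103 0 1036)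
(fin 1105 0 1037))))))))))
(cons (mv 1039 (cons (fin 972 3 972)
(mv 976 (cons (fin 977 2 973)
(mv 1036 (cons (fin 975 2 972)
(mv 1100 (cons (fin 1099 1 1035)
(fin 1101 1 1036)))))))))
(mv 1039 (cons (fin 972 3 972)
(mv 976 (cons (fin 977 2 973)
(mv 1100 (cons (fin 1101 1 1036)
(mv 1104 (cons (fin 1105 0 1037)
(mv 912 (cons (mv 1103 (cons (fin 848 5 847)
(fin 1167 5 911)))
(cons (mv 847 (cons (fin 911 7 847)
(mv 848 (cons (fin 783 7 783)
(mv 849 (cons (fin 785 6 784)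
(fin 913 6 848)))))))
(mv 847 (cons (fin 911 7 847)
(mv 849 (cons (fin 913 6 848)
(mv 1167 (cons (fin 1103 5 911)
(mv 1168 (cons (fin 1231 5 975)
(mv 1232 (cons (fin 975 7 975)
(mv 1233 (cons (fin 1169 4 976)
(fin 1297 4 1040))))))))))))))))))))))))))))
(mv 909 (cons (cons (cons (mv 1101 (cons (cons (mv 844 (cons (fin 908 7 844)
(mv 780 (cons (fin 845 7 780)
(mv 846 (cons (fin 910 6 845)
(mv 1100 (cons (fin 1164 5 908)
(mv 1102 (cons (fin 1166 4 909)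
(mv 1103 (cons (fin 1039 2 1036)
(mv 1036 (cons (fin 1035 3 1035)
(fin 1104 3 1036)))))))))))))))
(mv 844 (cons (fin 908 7 844)
(mv 845 (cons (fin 780 7 780)
(mv 846 (cons (fin 782 6 781)
(fin 910 6 845))))))))
(cons (mv 846 (cons (fin 910 6 845)
(mv 782 (cons (fin 845 6 781)
(mv 1100 (cons (fin 1164 5 908)
(mv 1102 (cons (fin 1166 4 909)
(mv 1103 (cons (fin 1039 2 1036)
(mv 1036 (cons (fin 1035 3 1035)
(fin 1104 3 1036)))))))))))))
(cons (mv 844 (cons (fin 908 7 844)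
(mv 780 (cons (fin 845 7 780)
(mv 1100 (cons (fin 1164 5 908)
(mv 1102 (cons (fin 1166 4 909)
(mv 1103 (cons (fin 1039 2 1036)
(mv 1036 (cons (fin 1035 3 1035)
(fin 1104 3 1036)))))))))))))
(mv 844 (cons (fin 908 7 844)
(mv 846 (cons (fin 910 6 845)
(mv 1100 (cons (fin 1164 5 908)
(mv 1102 (cons (fin 1166 4 909)
(mv 1103 (cons (fin 1039 2 1036)
(mv 1036 (cons (fin 1035 3 1035)
(fin 1104 3 1036)))))))))))))))))
(mv 845 (cons (cons (mv 780 (cons (fin 844 7 780)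
(mv 781 (cons (fin 716 7 716)
(mv 782 (cons (fin 718 6 717)
(fin 846 6 781)))))))
(mv 782 (cons (fin 846 6 781)
(mv 781 (cons (fin 718 6 717)
(mv 1036 (cons (fin 972 5 780)
(fin 1100 5 844))))))))
(cons (mv 780 (cons (fin 844 7 780)
(mv 781 (cons (fin 716 7 716)
(mv 1036 (cons (fin 972 5 780)
(fin 1100 5 844)))))))
(mv 844 (cons (fin 780 7 780)
(mv 846 (cons (fin 782 6 781)
(mv 1036 (cons (fin 1100 5 844)
(mv 843 (cons (cons (mv 910 (cons (fin 842 0 842)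
(fin 911 0 843)))
(mv 778 (cons (fin 779 3 778)
(mv 777 (cons (fin 842 3 777)
(mv 907 (cons (fin 906 1 842)
(mv 847 (cons (fin 908 1 843)
(mv 783 (cons (fin 784 2 780)
(mv 912 (cons (fin 911 0 844)
(mv 848 (cons (fin 913 0 845)
(fin 976 7 783))))))))))))))))
(cons (mv 778 (cons (fin 779 3 778)
(mv 906 (cons (fin 907 1 842)
(mv 911 (cons (fin 910 0 843)
(mv 847 (cons (fin 912 0 844)
(mv 784 (cons (fin 783 2 780)
(mv 848 (cons (fin 908 1 844)
(fin 785 2 781)))))))))))))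
(mv 778 (cons (fin 779 3 778)
(mv 842 (cons (fin 777 3 777)
(fin 910 0 842))))))))))))))))))
(cons (mv 1101 (cons (cons (mv 844 (cons (fin 908 7 844)
(mv 846 (cons (fin 910 6 845)
(mv 1100 (cons (fin 1164 5 908)
(mv 1102 (cons (fin 1166 4 909)
(mv 1103 (cons (fin 1039 2 1036)
(mv 1036 (cons (fin 1035 3 1035)
(fin 1104 3 1036)))))))))))))
(mv 846 (cons (fin 910 6 845)
(mv 1100 (cons (fin 1164 5 908)
(mv 1102 (cons (fin 1166 4 909)
(mv 1103 (cons (fin 1039 2 1036)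
(mv 1036 (cons (fin 1035 3 1035)
(fin 1104 3 1036))))))))))))
(cons (mv 844 (cons (fin 908 7 844)
(mv 1100 (cons (fin 1164 5 908)
(mv 1102 (cons (fin 1166 4 909)
(mv 1103 (cons (fin 1039 2 1036)
(mv 1036 (cons (fin 1035 3 1035)
(fin 1104 3 1036)))))))))))
(cons (mv 908 (cons (fin 844 7 844)
(mv 910 (cons (fin 846 6 845)
(mv 1102 (cons (fin 1166 4 909)
(mv 911 (cons (mv 972 (cons (fin 971 1 907)
(fin 912 1 908)))
(cons (mv 847 (cons (fin 848 2 844)
(mv 975 (cons (fin 976 0 908)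
(mv 907 (cons (fin 974 0 907)
(mv 842 (cons (fin 843 3 842)
(mv 906 (cons (fin 841 3 841)
(mv 970 (cons (fin 969 1 905)
(fin 971 1 906)))))))))))))
(mv 847 (cons (fin 848 2 844)
(mv 912 (cons (fin 972 1 908)
(mv 976 (cons (fin 975 0 908)
(fin 977 0 909))))))))))))))))
(mv 908 (cons (fin 844 7 844)
(mv 910 (cons (fin 846 6 845)
(mv 1100 (cons (fin 1164 5 908)
(mv 907 (cons (cons (mv 974 (cons (fin 906 0 906)
(fin 975 0 907)))
(mv 842 (cons (fin 843 3 842)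
(mv 841 (cons (fin 906 3 841)
(mv 971 (cons (fin 970 1 906)
(mv 911 (cons (fin 972 1 907)
(mv 847 (cons (fin 848 2 844)
(mv 976 (cons (fin 975 0 908)
(mv 912 (cons (fin 977 0 909)
(fin 1104 7 847))))))))))))))))
(cons (mv 842 (cons (fin 843 3 842)
(mv 970 (cons (fin 971 1 906)
(mv 975 (cons (fin 974 0 907)
(mv 911 (cons (fin 976 0 908)
(mv 848 (cons (fin 847 2 844)
(mv 912 (cons (fin 972 1 908)
(fin 849 2 845)))))))))))))
(mv 842 (cons (fin 843 3 842)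
(mv 906 (cons (fin 841 3 841)
(fin 974 0 906))))))))))))))))))
(mv 1101 (cons (cons (mv 846 (cons (fin 910 6 845)
(mv 782 (cons (fin 845 6 781)
(mv 1100 (cons (fin 1164 5 908)
(mv 1102 (cons (fin 1166 4 909)
(mv 1103 (cons (fin 1039 2 1036)
(mv 1036 (cons (fin 1035 3 1035)
(fin 1104 3 1036)))))))))))))
(mv 910 (cons (fin 846 6 845)
(mv 1102 (cons (fin 1166 4 909)
(mv 911 (cons (cons (mv 912 (cons (fin 972 1 908)
(mv 848 (cons (fin 849 2 845)
(mv 847 (cons (fin 908 2 844)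
(mv 976 (cons (fin 977 0 909)
(fin 783 7 783)))))))))
(cons (mv 908 (cons (cons (mv 847 (cons (fin 848 2 844)
(mv 971 (cons (fin 972 1 907)
(mv 907 (cons (fin 970 1 906)
(mv 974 (cons (fin 906 0 906)
(fin 975 0 907)))))))))
(cons (mv 847 (cons (fin 848 2 844)
(mv 975 (cons (fin 976 0 908)
(mv 907 (cons (fin 974 0 907)
(mv 842 (cons (fin 843 3 842)
(mv 906 (cons (fin 841 3 841)
(mv 905 (cons (fin 972 0 905)
(mv 969 (cons (fin 968 1 904)
(fin 970 1 905)))))))))))))))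
(mv 847 (cons (fin 848 2 844)
(mv 971 (cons (fin 972 1 907)
(mv 907 (cons (fin 970 1 906)
(mv 842 (cons (fin 843 3 842)
(mv 906 (cons (fin 841 3 841)
(fin 974 0 906)))))))))))))
(cons (cons (mv 847 (cons (fin 848 2 844)
(mv 975 (cons (fin 976 0 908)
(mv 907 (cons (fin 974 0 907)
(mv 842 (cons (fin 843 3 842)
(mv 906 (cons (fin 841 3 841)
(mv 970 (cons (fin 969 1 905)
(fin 971 1 906)))))))))))))
(mv 971 (cons (fin 972 1 907)
(mv 907 (cons (fin 970 1 906)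
(mv 974 (cons (fin 906 0 906)
(fin 975 0 907))))))))
(cons (mv 847 (cons (fin 848 2 844)
(mv 971 (cons (fin 972 1 907)
(mv 907 (cons (fin 970 1 906)
(mv 842 (cons (fin 843 3 842)
(mv 906 (cons (fin 841 3 841)
(mv 714 (cons (fin 778 4 714)
(mv 975 (cons (fin 976 0 908)
(mv 1035 (cons (fin 1099 7 842)
(mv 1036 (cons (fin 1034 0 1034)
(mv 1104 (cons (fin 1103 3 1036)
(fin 1039 4 847)))))))))))))))))))))
(mv 847 (cons (fin 848 2 844)
(mv 972 (cons (fin 971 1 907)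
(mv 975 (cons (fin 976 0 908)
(mv 1039 (cons (fin 974 0 972)
(fin 1104 4 847)))))))))))))
(mv 912 (cons (cons (mv 848 (cons (fin 849 2 845)
(mv 847 (cons (fin 908 2 844)
(mv 976 (cons (fin 977 0 909)
(fin 783 7 783)))))))
(mv 848 (cons (fin 849 2 845)
(mv 847 (cons (fin 908 2 844)
(mv 913 (cons (fin 974 1 909)
(mv 914 (cons (fin 915 3 847)
(mv 978 (cons (fin 977 0 910)
(fin 979 0 911))))))))))))
(cons (mv 913 (cons (fin 974 1 909)
(mv 977 (cons (fin 976 0 909)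
(fin 978 0 910)))))
(mv 848 (cons (fin 849 2 845)
(mv 847 (cons (fin 908 2 844)
(mv 976 (cons (fin 783 7 783)
(fin 1104 7 847))))))))))))
(cons (mv 912 (cons (fin 972 1 908)
(mv 848 (cons (fin 849 2 845)
(mv 913 (cons (fin 974 1 909)
(mv 977 (cons (fin 976 0 909)
(fin 978 0 910)))))))))
(cons (mv 912 (cons (fin 972 1 908)
(mv 848 (cons (fin 849 2 845)
(mv 847 (cons (fin 908 2 844)
(mv 913 (cons (fin 974 1 909)
(mv 914 (cons (fin 915 3 847)
(mv 978 (cons (fin 977 0 910)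
(fin 979 0 911)))))))))))))
(mv 912 (cons (fin 972 1 908)
(mv 913 (cons (fin 974 1 909)
(mv 977 (cons (fin 976 0 909)
(fin 978 0 910))))))))))))))))
(cons (mv 1100 (cons (fin 1164 5 908)
(mv 1036 (cons (fin 845 5 844)
(mv 1102 (cons (fin 1166 4 909)
(mv 1035 (cons (fin 1103 3 1035)
(fin 1034 0 1034)))))))))
(cons (mv 846 (cons (fin 910 6 845)
(mv 845 (cons (fin 782 6 781)
(mv 1100 (cons (fin 1036 5 844)
(fin 1164 5 908)))))))
(mv 910 (cons (fin 846 6 845)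
(mv 1100 (cons (fin 1164 5 908)
(mv 1102 (cons (fin 1166 4 909)
(mv 1039 (cons (fin 1103 2 1036)
(mv 972 (cons (cons (mv 911 (cons (fin 912 1 908)
(mv 971 (cons (fin 908 1 907)
(fin 970 2 906)))))
(mv 974 (cons (fin 975 0 972)
(mv 1099 (cons (cons (mv 970 (cons (fin 971 2 906)
(mv 1034 (cons (fin 1035 3 1034)
(mv 1098 (cons (fin 1033 3 1033)
(mv 1162 (cons (fin 1161 1 1097)
(fin 1163 1 1098)))))))))
(cons (mv 1034 (cons (fin 1035 3 1034)
(mv 1098 (cons (fin 1033 3 1033)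
(mv 1162 (cons (fin 1161 1 1097)
(fin 1163 1 1098)))))))
(mv 971 (cons (fin 970 2 906)
(mv 907 (cons (fin 906 3 906)
(mv 1162 (cons (fin 1163 1 1098)
(mv 1098 (cons (fin 1161 1 1097)
(fin 1035 5 906)))))))))))
(cons (cons (mv 970 (cons (fin 971 2 906)
(mv 1162 (cons (fin 1163 1 1098)
(mv 1098 (cons (fin 1161 1 1097)
(mv 1034 (cons (fin 1033 3 1033)
(mv 905 (cons (fin 969 7 905)
(mv 906 (cons (fin 841 7 841)
(mv 907 (cons (fin 908 0 905)
(fin 843 6 842)))))))))))))))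
(mv 970 (cons (fin 971 2 906)
(mv 1034 (cons (fin 1035 3 1034)
(mv 1098 (cons (fin 1033 3 1033)
(mv 906 (cons (fin 1163 4 906)
(mv 907 (cons (fin 908 0 906)
(fin 843 6 842))))))))))))
(cons (mv 970 (cons (fin 971 2 906)
(mv 1034 (cons (fin 1035 3 1034)
(mv 1098 (cons (fin 1033 3 1033)
(mv 1161 (cons (fin 1162 1 1097)
(mv 1097 (cons (fin 1160 1 1096)
(fin 906 5 905)))))))))))
(mv 971 (cons (fin 970 2 906)
(mv 906 (cons (fin 907 3 906)
(mv 1035 (cons (fin 1034 3 1034)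
(mv 1163 (cons (fin 1162 1 1098)
(fin 908 6 907))))))))))))))))
(cons (mv 911 (cons (fin 912 1 908)
(mv 975 (cons (fin 974 0 972)
(mv 847 (cons (fin 1104 4 847)
(mv 848 (cons (fin 908 2 844)
(fin 784 6 783)))))))))
(mv 911 (cons (fin 912 1 908)
(mv 971 (cons (fin 970 2 906)
(fin 974 2 907))))))))))))))))))))))
(cons (cons (mv 1100 (cons (cons (mv 845 (cons (fin 1036 5 844)
(mv 780 (cons (fin 844 7 780)
(mv 781 (cons (fin 716 7 716)
(mv 718 (cons (fin 782 6 717)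
(mv 717 (cons (fin 654 6 653)
(mv 719 (cons (fin 720 1 716)
(mv 778 (cons (fin 779 2 714)
(mv 972 (cons (fin 908 5 716)
(mv 974 (cons (fin 910 4 717)
(mv 1039 (cons (fin 975 0 972)
(mv 1101 (cons (fin 1164 5 908)
(mv 1102 (cons (fin 1103 2 1036)
(fin 1166 4 909)))))))))))))))))))))))))
(mv 1101 (cons (fin 1164 5 908)
(mv 908 (cons (fin 844 7 844)
(mv 1102 (cons (fin 1166 4 909)
(mv 1039 (cons (fin 1103 2 1036)
(mv 975 (cons (cons (mv 974 (cons (fin 976 3 908)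
(fin 972 0 972)))
(mv 911 (cons (mv 847 (cons (fin 1104 4 847)
(mv 848 (cons (fin 910 2 844)
(fin 784 6 783)))))
(cons (mv 847 (cons (fin 1104 4 847)
(mv 783 (cons (fin 976 4 783)
(mv 784 (cons (fin 720 6 719)
(fin 848 6 783)))))))
(mv 910 (cons (fin 976 0 908)
(mv 972 (cons (fin 971 1 907)
(fin 912 1 908)))))))))
(cons (mv 974 (cons (fin 976 3 908)
(mv 907 (cons (fin 906 0 906)
(fin 910 0 907)))))
(mv 974 (cons (fin 972 0 972)
(mv 907 (cons (fin 906 0 906)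
(fin 910 0 907)))))))))))))))))
(cons (mv 1036 (cons (fin 845 5 844)
(mv 1164 (cons (fin 972 6 908)
(fin 1228 6 972)))))
(cons (mv 845 (cons (fin 1036 5 844)
(mv 781 (cons (cons (mv 780 (cons (fin 716 7 716)
(fin 844 7 780)))
(mv 718 (cons (fin 782 6 717)
(mv 717 (cons (fin 654 6 653)
(mv 652 (cons (fin 716 7 652)
(mv 588 (cons (fin 653 7 588)
(mv 908 (cons (fin 972 5 716)
(mv 844 (cons (fin 1101 7 844)
(mv 910 (cons (fin 974 4 717)
(mv 843 (cons (fin 911 3 843)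
(fin 842 0 842))))))))))))))))))
(cons (mv 716 (cons (fin 780 7 716)
(mv 717 (cons (fin 652 7 652)
(mv 718 (cons (fin 654 6 653)
(fin 782 6 717)))))))
(mv 718 (cons (fin 782 6 717)
(mv 717 (cons (fin 654 6 653)
(mv 844 (cons (fin 780 7 780)
(mv 908 (cons (fin 1101 7 844)
(fin 653 5 652))))))))))))))
(mv 845 (cons (fin 1036 5 844)
(mv 844 (cons (fin 780 7 780)
(mv 1101 (cons (fin 908 7 844)
(fin 1164 5 908)))))))))))
(mv 845 (cons (cons (mv 780 (cons (fin 844 7 780)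
(mv 781 (cons (fin 716 7 716)
(mv 782 (cons (fin 718 6 717)
(fin 846 6 781)))))))
(cons (mv 782 (cons (fin 846 6 781)
(mv 781 (cons (fin 718 6 717)
(mv 716 (cons (fin 780 7 716)
(mv 717 (cons (fin 652 7 652)
(mv 972 (cons (fin 908 5 716)
(fin 1036 5 780)))))))))))
(mv 780 (cons (fin 844 7 780)
(mv 781 (cons (fin 716 7 716)
(mv 718 (cons (fin 782 6 717)
(mv 717 (cons (fin 654 6 653)
(mv 972 (cons (fin 908 5 716)
(fin 1036 5 780)))))))))))))
(cons (mv 782 (cons (fin 846 6 781)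
(mv 781 (cons (fin 718 6 717)
(mv 972 (cons (fin 1036 5 780)
(mv 908 (cons (fin 717 5 716)
(mv 844 (cons (fin 1101 7 844)
(mv 783 (cons (fin 784 1 780)
(mv 843 (cons (fin 842 2 778)
(mv 910 (cons (fin 911 3 843)
(mv 971 (cons (fin 970 2 906)
(mv 974 (cons (mv 907 (cons (fin 906 3 906)
(fin 975 3 907)))
(cons (mv 975 (cons (fin 976 3 908)
(fin 1039 0 972)))
(mv 907 (cons (fin 906 3 906)
(mv 1035 (cons (fin 1034 1 970)
(fin 1099 6 843))))))))))))))))))))))))))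
(cons (mv 780 (cons (fin 844 7 780)
(mv 781 (cons (fin 716 7 716)
(mv 972 (cons (fin 1036 5 780)
(mv 717 (cons (fin 908 5 716)
(mv 654 (cons (fin 718 6 653)
(mv 653 (cons (fin 590 6 589)
(mv 910 (cons (fin 846 4 653)
(fin 974 4 717)))))))))))))))
(mv 844 (cons (fin 780 7 780)
(mv 846 (cons (fin 782 6 781)
(mv 1101 (cons (fin 908 7 844)
(fin 910 6 845))))))))))))
(cons (mv 1101 (cons (cons (mv 844 (cons (fin 908 7 844)
(mv 845 (cons (fin 780 7 780)
(mv 846 (cons (fin 782 6 781)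
(fin 910 6 845)))))))
(mv 910 (cons (fin 846 6 845)
(mv 1100 (cons (fin 1164 5 908)
(mv 1102 (cons (fin 1166 4 909)
(mv 1039 (cons (fin 1103 2 1036)
(mv 972 (cons (cons (mv 911 (cons (fin 912 1 908)
(mv 971 (cons (fin 908 1 907)
(fin 970 2 906)))))
(mv 974 (cons (fin 975 0 972)
(mv 1099 (cons (cons (mv 970 (cons (fin 971 2 906)
(mv 1034 (cons (fin 1035 3 1034)
(mv 1098 (cons (fin 1033 3 1033)
(mv 1162 (cons (fin 1161 1 1097)
(fin 1163 1 1098)))))))))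
(cons (mv 1034 (cons (fin 1035 3 1034)
(mv 1098 (cons (fin 1033 3 1033)
(mv 1162 (cons (fin 1161 1 1097)
(fin 1163 1 1098)))))))
(mv 971 (cons (fin 970 2 906)
(mv 907 (cons (fin 906 3 906)
(mv 1162 (cons (fin 1163 1 1098)
(mv 1098 (cons (fin 1161 1 1097)
(fin 1035 5 906)))))))))))
(cons (cons (mv 970 (cons (fin 971 2 906)
(mv 1162 (cons (fin 1163 1 1098)
(mv 1098 (cons (fin 1161 1 1097)
(mv 1034 (cons (fin 1033 3 1033)
(mv 905 (cons (fin 969 7 905)
(mv 906 (cons (fin 841 7 841)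
(mv 907 (cons (fin 908 0 905)
(fin 843 6 842)))))))))))))))
(mv 970 (cons (fin 971 2 906)
(mv 1034 (cons (fin 1035 3 1034)
(mv 1098 (cons (fin 1033 3 1033)
(mv 906 (cons (fin 1163 4 906)
(mv 907 (cons (fin 908 0 906)
(fin 843 6 842))))))))))))
(cons (mv 970 (cons (fin 971 2 906)
(mv 1034 (cons (fin 1035 3 1034)
(mv 1098 (cons (fin 1033 3 1033)
(mv 1161 (cons (fin 1162 1 1097)
(mv 1097 (cons (fin 1160 1 1096)
(fin 906 5 905)))))))))))
(mv 971 (cons (fin 970 2 906)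
(mv 906 (cons (fin 907 3 906)
(mv 1035 (cons (fin 1034 3 1034)
(mv 1163 (cons (fin 1162 1 1098)
(fin 908 6 907))))))))))))))))
(cons (mv 911 (cons (fin 912 1 908)
(mv 975 (cons (fin 974 0 972)
(mv 847 (cons (fin 1104 4 847)
(mv 848 (cons (fin 908 2 844)
(fin 784 6 783)))))))))
(mv 911 (cons (fin 912 1 908)
(mv 971 (cons (fin 970 2 906)
(fin 974 2 907)))))))))))))))))
(cons (mv 908 (cons (fin 844 7 844)
(mv 1100 (cons (fin 1164 5 908)
(mv 1102 (cons (fin 1166 4 909)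
(mv 1039 (cons (fin 1103 2 1036)
(mv 975 (cons (cons (mv 974 (cons (fin 976 3 908)
(fin 972 0 972)))
(mv 911 (cons (mv 847 (cons (fin 1104 4 847)
(mv 848 (cons (fin 910 2 844)
(fin 784 6 783)))))
(cons (mv 847 (cons (fin 1104 4 847)
(mv 783 (cons (fin 976 4 783)
(mv 784 (cons (fin 720 6 719)
(fin 848 6 783)))))))
(mv 910 (cons (fin 976 0 908)
(mv 972 (cons (fin 971 1 907)
(fin 912 1 908)))))))))
(cons (mv 974 (cons (fin 976 3 908)
(mv 907 (cons (fin 906 0 906)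
(fin 910 0 907)))))
(mv 974 (cons (fin 972 0 972)
(mv 907 (cons (fin 906 0 906)
(fin 910 0 907))))))))))))))))
(cons (mv 1100 (cons (fin 1164 5 908)
(mv 1102 (cons (fin 1166 4 909)
(mv 1103 (cons (fin 1039 2 1036)
(mv 1168 (cons (fin 1167 0 1100)
(mv 1104 (cons (fin 1169 0 1101)
(mv 976 (cons (cons (mv 846 (cons (fin 910 6 845)
(mv 782 (cons (fin 845 6 781)
(mv 911 (cons (fin 975 7 911)
(mv 912 (cons (fin 847 7 847)
(mv 913 (cons (fin 849 6 848)
(fin 977 6 912)))))))))))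
(cons (mv 913 (cons (fin 977 6 912)
(mv 912 (cons (fin 849 6 848)
(mv 974 (cons (fin 975 2 909)
(mv 845 (cons (cons (mv 846 (cons (fin 782 6 781)
(fin 910 6 845)))
(mv 780 (cons (fin 844 7 780)
(mv 781 (cons (fin 716 7 716)
(mv 717 (cons (fin 910 4 717)
(mv 718 (cons (fin 654 6 653)
(fin 782 6 717))))))))))
(cons (mv 780 (cons (fin 844 7 780)
(mv 781 (cons (fin 716 7 716)
(mv 782 (cons (fin 718 6 717)
(fin 846 6 781)))))))
(mv 780 (cons (fin 844 7 780)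
(mv 781 (cons (fin 716 7 716)
(mv 910 (cons (fin 846 6 845)
(fin 717 4 717))))))))))))))))
(mv 846 (cons (fin 910 6 845)
(mv 845 (cons (fin 782 6 781)
(mv 780 (cons (fin 844 7 780)
(mv 781 (cons (fin 716 7 716)
(mv 778 (cons (fin 779 0 778)
(mv 847 (cons (fin 848 3 780)
(mv 911 (cons (fin 912 7 847)
(fin 975 7 911)))))))))))))))))
(cons (cons (mv 911 (cons (fin 975 7 911)
(mv 912 (cons (fin 847 7 847)
(mv 910 (cons (fin 972 1 908)
(fin 977 0 909)))))))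
(mv 911 (cons (fin 975 7 911)
(mv 912 (cons (fin 847 7 847)
(mv 913 (cons (fin 849 6 848)
(fin 977 6 912))))))))
(cons (mv 846 (cons (fin 910 6 845)
(mv 845 (cons (fin 782 6 781)
(mv 780 (cons (fin 844 7 780)
(mv 716 (cons (fin 781 7 716)
(mv 913 (cons (fin 977 6 912)
(mv 912 (cons (fin 849 6 848)
(mv 847 (cons (fin 848 0 845)
(fin 911 7 847)))))))))))))))
(mv 910 (cons (fin 846 6 845)
(mv 975 (cons (fin 911 7 911)
(mv 977 (cons (fin 974 3 909)
(fin 913 6 912)))))))))))))))))))))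
(mv 1100 (cons (fin 1164 5 908)
(mv 975 (cons (cons (mv 844 (cons (fin 908 7 844)
(mv 780 (cons (fin 845 7 780)
(mv 1102 (cons (fin 1166 4 909)
(mv 1103 (cons (fin 1039 2 1036)
(mv 1168 (cons (fin 1167 0 1100)
(mv 1104 (cons (fin 1169 0 1101)
(mv 976 (cons (fin 911 7 911)
(mv 913 (cons (fin 977 6 912)
(mv 912 (cons (fin 974 2 909)
(fin 849 6 848)))))))))))))))))))
(mv 908 (cons (fin 844 7 844)
(mv 974 (cons (fin 976 3 908)
(mv 907 (cons (fin 972 3 907)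
(fin 906 0 906))))))))
(cons (mv 1102 (cons (fin 1166 4 909)
(mv 1103 (cons (fin 1039 2 1036)
(mv 1168 (cons (fin 1167 0 1100)
(mv 1104 (cons (fin 1169 0 1101)
(mv 976 (cons (fin 911 7 911)
(mv 913 (cons (fin 977 6 912)
(mv 912 (cons (fin 974 2 909)
(fin 849 6 848)))))))))))))))
(cons (mv 844 (cons (fin 908 7 844)
(mv 845 (cons (fin 780 7 780)
(mv 846 (cons (fin 782 6 781)
(mv 1102 (cons (fin 1166 4 909)
(mv 1039 (cons (fin 1103 2 1036)
(mv 847 (cons (mv 911 (cons (fin 912 0 844)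
(fin 1104 4 847)))
(cons (mv 784 (cons (fin 783 2 780)
(mv 848 (cons (fin 785 2 781)
(mv 912 (cons (fin 913 0 845)
(fin 976 5 783)))))))
(mv 783 (cons (fin 784 2 780)
(mv 911 (cons (fin 976 4 783)
(fin 1104 4 847))))))))))))))))))
(mv 1102 (cons (fin 1166 4 909)
(mv 1039 (cons (fin 1103 2 1036)
(mv 972 (cons (fin 974 0 972)
(mv 845 (cons (cons (mv 844 (cons (fin 780 7 780)
(fin 908 7 844)))
(mv 782 (cons (fin 846 6 781)
(mv 781 (cons (fin 718 6 717)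
(mv 716 (cons (fin 780 7 716)
(mv 717 (cons (fin 652 7 652)
(fin 908 5 716))))))))))
(cons (mv 780 (cons (fin 844 7 780)
(mv 781 (cons (fin 716 7 716)
(mv 782 (cons (fin 718 6 717)
(fin 846 6 781)))))))
(mv 782 (cons (fin 846 6 781)
(mv 781 (cons (fin 718 6 717)
(mv 908 (cons (fin 844 7 844)
(fin 717 5 716))))))))))))))))))))))))))
(cons (mv 845 (cons (cons (mv 780 (cons (fin 844 7 780)
(mv 716 (cons (fin 781 7 716)
(mv 846 (cons (fin 782 6 781)
(mv 1100 (cons (fin 1036 5 844)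
(mv 1101 (cons (fin 1164 5 908)
(fin 910 6 845)))))))))))
(mv 780 (cons (fin 844 7 780)
(mv 781 (cons (fin 716 7 716)
(mv 782 (cons (fin 718 6 717)
(fin 846 6 781))))))))
(cons (mv 780 (cons (fin 844 7 780)
(mv 781 (cons (fin 716 7 716)
(mv 1036 (cons (fin 972 5 780)
(fin 1100 5 844)))))))
(cons (mv 782 (cons (fin 846 6 781)
(mv 781 (cons (fin 718 6 717)
(mv 1036 (cons (fin 972 5 780)
(fin 1100 5 844)))))))
(mv 780 (cons (fin 844 7 780)
(mv 846 (cons (fin 782 6 781)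
(mv 1100 (cons (fin 1036 5 844)
(mv 1101 (cons (fin 1164 5 908)
(fin 910 6 845)))))))))))))
(mv 845 (cons (cons (mv 780 (cons (fin 844 7 780)
(mv 781 (cons (fin 716 7 716)
(mv 782 (cons (fin 718 6 717)
(fin 846 6 781)))))))
(mv 782 (cons (fin 846 6 781)
(mv 781 (cons (fin 718 6 717)
(mv 1036 (cons (fin 972 5 780)
(fin 1100 5 844))))))))
(cons (mv 780 (cons (fin 844 7 780)
(mv 781 (cons (fin 716 7 716)
(mv 1036 (cons (fin 972 5 780)
(fin 1100 5 844)))))))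
(mv 782 (cons (fin 846 6 781)
(mv 844 (cons (fin 780 7 780)
(mv 1100 (cons (fin 1036 5 844)
(mv 1101 (cons (fin 908 7 844)
(fin 1164 5 908))))))))))))))))))
(cons (mv 909 (cons (cons (mv 845 (cons (cons (mv 780 (cons (fin 844 7 780)
(mv 716 (cons (fin 781 7 716)
(mv 782 (cons (fin 846 6 781)
(mv 1100 (cons (fin 1036 5 844)
(mv 1101 (cons (fin 1164 5 908)
(mv 1102 (cons (fin 1038 4 845)
(fin 1166 4 909)))))))))))))
(cons (mv 782 (cons (fin 846 6 781)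
(mv 718 (cons (fin 781 6 717)
(mv 1100 (cons (fin 1036 5 844)
(mv 1101 (cons (fin 1164 5 908)
(mv 1102 (cons (fin 1038 4 845)
(fin 1166 4 909)))))))))))
(mv 780 (cons (fin 844 7 780)
(mv 716 (cons (fin 781 7 716)
(mv 1100 (cons (fin 1036 5 844)
(mv 1101 (cons (fin 1164 5 908)
(mv 1102 (cons (fin 1038 4 845)
(fin 1166 4 909)))))))))))))
(cons (cons (mv 780 (cons (fin 844 7 780)
(mv 716 (cons (fin 781 7 716)
(mv 846 (cons (fin 782 6 781)
(mv 1101 (cons (fin 910 6 845)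
(mv 1102 (cons (fin 1038 4 845)
(fin 1166 4 909)))))))))))
(mv 780 (cons (fin 844 7 780)
(mv 716 (cons (fin 781 7 716)
(mv 846 (cons (fin 782 6 781)
(mv 1100 (cons (fin 1036 5 844)
(mv 1101 (cons (fin 1164 5 908)
(fin 910 6 845))))))))))))
(cons (mv 780 (cons (fin 844 7 780)
(mv 782 (cons (fin 846 6 781)
(mv 1100 (cons (fin 1036 5 844)
(mv 1101 (cons (fin 1164 5 908)
(mv 1102 (cons (fin 1038 4 845)
(fin 1166 4 909)))))))))))
(mv 780 (cons (fin 844 7 780)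
(mv 781 (cons (fin 716 7 716)
(mv 782 (cons (fin 718 6 717)
(fin 846 6 781)))))))))))
(cons (mv 1101 (cons (cons (mv 844 (cons (fin 908 7 844)
(mv 846 (cons (fin 910 6 845)
(mv 1100 (cons (fin 1164 5 908)
(mv 1102 (cons (fin 1166 4 909)
(mv 1099 (cons (mv 1034 (cons (fin 1035 3 1034)
(mv 1098 (cons (fin 1033 3 1033)
(fin 1038 2 1034)))))
(cons (mv 1035 (cons (fin 1034 3 1034)
(mv 1036 (cons (fin 1103 3 1035)
(mv 1163 (cons (fin 1162 1 1098)
(mv 1227 (cons (fin 972 6 971)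
(fin 1291 6 1035)))))))))
(mv 1098 (cons (fin 1038 2 1034)
(mv 1162 (cons (fin 1161 1 1097)
(fin 1163 1 1098))))))))))))))))
(cons (mv 846 (cons (fin 910 6 845)
(mv 1100 (cons (fin 1164 5 908)
(mv 1102 (cons (fin 1166 4 909)
(mv 1099 (cons (mv 1034 (cons (fin 1035 3 1034)
(mv 1098 (cons (fin 1033 3 1033)
(fin 1038 2 1034)))))
(cons (mv 1035 (cons (fin 1034 3 1034)
(mv 1036 (cons (fin 1103 3 1035)
(mv 1163 (cons (fin 1162 1 1098)
(mv 1227 (cons (fin 972 6 971)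
(fin 1291 6 1035)))))))))
(mv 1098 (cons (fin 1038 2 1034)
(mv 1162 (cons (fin 1161 1 1097)
(fin 1163 1 1098))))))))))))))
(mv 844 (cons (fin 908 7 844)
(mv 1100 (cons (fin 1164 5 908)
(mv 1102 (cons (fin 1166 4 909)
(mv 1099 (cons (mv 1034 (cons (fin 1035 3 1034)
(mv 1098 (cons (fin 1033 3 1033)
(fin 1038 2 1034)))))
(cons (mv 1035 (cons (fin 1034 3 1034)
(mv 1036 (cons (fin 1103 3 1035)
(mv 1163 (cons (fin 1162 1 1098)
(mv 1227 (cons (fin 972 6 971)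
(fin 1291 6 1035)))))))))
(mv 1098 (cons (fin 1038 2 1034)
(mv 1162 (cons (fin 1161 1 1097)
(fin 1163 1 1098))))))))))))))))
(cons (mv 908 (cons (fin 844 7 844)
(mv 910 (cons (fin 846 6 845)
(mv 1100 (cons (fin 1164 5 908)
(mv 907 (cons (cons (mv 974 (cons (fin 906 0 906)
(fin 975 0 907)))
(mv 842 (cons (fin 843 3 842)
(mv 841 (cons (fin 906 3 841)
(mv 971 (cons (fin 970 1 906)
(mv 911 (cons (fin 972 1 907)
(mv 847 (cons (fin 848 2 844)
(mv 976 (cons (fin 975 0 908)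
(mv 912 (cons (fin 977 0 909)
(fin 1104 7 847))))))))))))))))
(cons (mv 842 (cons (fin 843 3 842)
(mv 970 (cons (fin 971 1 906)
(mv 975 (cons (fin 974 0 907)
(mv 911 (cons (fin 976 0 908)
(mv 848 (cons (fin 847 2 844)
(mv 912 (cons (fin 972 1 908)
(fin 849 2 845)))))))))))))
(mv 842 (cons (fin 843 3 842)
(mv 906 (cons (fin 841 3 841)
(fin 974 0 906))))))))))))))
(cons (mv 908 (cons (fin 844 7 844)
(mv 910 (cons (fin 846 6 845)
(mv 1102 (cons (fin 1166 4 909)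
(mv 911 (cons (mv 972 (cons (fin 971 1 907)
(fin 912 1 908)))
(mv 847 (cons (fin 848 2 844)
(mv 974 (cons (fin 1038 6 846)
(mv 907 (cons (fin 906 0 906)
(fin 975 0 907)))))))))))))))
(mv 908 (cons (fin 844 7 844)
(mv 910 (cons (fin 846 6 845)
(mv 1100 (cons (fin 1164 5 908)
(mv 1102 (cons (fin 1166 4 909)
(mv 907 (cons (mv 974 (cons (fin 906 0 906)
(fin 975 0 907)))
(cons (mv 842 (cons (fin 843 3 842)
(mv 906 (cons (fin 841 3 841)
(mv 970 (cons (fin 969 1 905)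
(fin 971 1 906)))))))
(mv 843 (cons (fin 842 3 842)
(mv 971 (cons (fin 970 1 906)
(mv 974 (cons (fin 975 0 907)
(mv 1035 (cons (fin 1036 4 843)
(mv 1034 (cons (fin 1099 3 1034)
(fin 1098 5 842))))))))))))))))))))))))))
(mv 845 (cons (cons (mv 780 (cons (fin 844 7 780)
(mv 781 (cons (fin 716 7 716)
(mv 782 (cons (fin 718 6 717)
(fin 846 6 781)))))))
(mv 782 (cons (fin 846 6 781)
(mv 781 (cons (fin 718 6 717)
(mv 1036 (cons (fin 972 5 780)
(fin 1100 5 844))))))))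
(cons (mv 780 (cons (fin 844 7 780)
(mv 781 (cons (fin 716 7 716)
(mv 1036 (cons (fin 972 5 780)
(fin 1100 5 844)))))))
(mv 782 (cons (fin 846 6 781)
(mv 844 (cons (fin 780 7 780)
(mv 1036 (cons (fin 1100 5 844)
(mv 1038 (cons (fin 1102 4 845)
(mv 1035 (cons (mv 974 (cons (fin 1034 2 970)
(fin 975 2 971)))
(cons (mv 970 (cons (fin 971 3 970)
(mv 1034 (cons (fin 969 3 969)
(mv 1098 (cons (fin 1097 1 1033)
(fin 1099 1 1034)))))))
(mv 971 (cons (fin 970 3 970)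
(mv 974 (cons (fin 975 2 971)
(mv 1099 (cons (fin 1098 1 1034)
(mv 908 (cons (fin 972 5 843)
(fin 907 6 843)))))))))))))))))))))))))
(cons (cons (mv 845 (cons (cons (mv 782 (cons (fin 846 6 781)
(mv 718 (cons (fin 781 6 717)
(mv 1100 (cons (fin 1036 5 844)
(mv 1101 (cons (fin 1164 5 908)
(mv 1102 (cons (fin 1038 4 845)
(fin 1166 4 909)))))))))))
(mv 782 (cons (fin 846 6 781)
(mv 781 (cons (fin 718 6 717)
(mv 1038 (cons (fin 974 4 781)
(fin 1102 4 845))))))))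
(cons (mv 1036 (cons (fin 1100 5 844)
(mv 781 (cons (fin 972 5 780)
(mv 1038 (cons (fin 974 4 781)
(fin 1102 4 845)))))))
(cons (mv 782 (cons (fin 846 6 781)
(mv 781 (cons (fin 718 6 717)
(mv 1036 (cons (fin 972 5 780)
(fin 1100 5 844)))))))
(mv 782 (cons (fin 846 6 781)
(mv 1100 (cons (fin 1036 5 844)
(mv 1101 (cons (fin 1164 5 908)
(mv 1102 (cons (fin 1038 4 845)
(fin 1166 4 909)))))))))))))
(mv 845 (cons (cons (mv 780 (cons (fin 844 7 780)
(mv 716 (cons (fin 781 7 716)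
(mv 1100 (cons (fin 1036 5 844)
(mv 1101 (cons (fin 1164 5 908)
(mv 1102 (cons (fin 1038 4 845)
(fin 1166 4 909)))))))))))
(mv 780 (cons (fin 844 7 780)
(mv 781 (cons (fin 716 7 716)
(mv 1038 (cons (fin 974 4 781)
(fin 1102 4 845))))))))
(cons (mv 1036 (cons (fin 1100 5 844)
(mv 781 (cons (fin 972 5 780)
(mv 1038 (cons (fin 974 4 781)
(fin 1102 4 845)))))))
(cons (mv 780 (cons (fin 844 7 780)
(mv 781 (cons (fin 716 7 716)
(mv 1036 (cons (fin 972 5 780)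
(fin 1100 5 844)))))))
(mv 780 (cons (fin 844 7 780)
(mv 1100 (cons (fin 1036 5 844)
(mv 1101 (cons (fin 1164 5 908)
(mv 1102 (cons (fin 1038 4 845)
(fin 1166 4 909))))))))))))))
(cons (mv 845 (cons (cons (mv 780 (cons (fin 844 7 780)
(mv 716 (cons (fin 781 7 716)
(mv 846 (cons (fin 782 6 781)
(mv 1100 (cons (fin 1036 5 844)
(mv 1101 (cons (fin 1164 5 908)
(fin 910 6 845)))))))))))
(mv 782 (cons (fin 846 6 781)
(mv 781 (cons (fin 718 6 717)
(mv 1036 (cons (fin 972 5 780)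
(fin 1100 5 844))))))))
(cons (mv 780 (cons (fin 844 7 780)
(mv 781 (cons (fin 716 7 716)
(mv 1036 (cons (fin 972 5 780)
(fin 1100 5 844)))))))
(cons (mv 780 (cons (fin 844 7 780)
(mv 781 (cons (fin 716 7 716)
(mv 782 (cons (fin 718 6 717)
(fin 846 6 781)))))))
(mv 780 (cons (fin 844 7 780)
(mv 846 (cons (fin 782 6 781)
(mv 1100 (cons (fin 1036 5 844)
(mv 1101 (cons (fin 1164 5 908)
(fin 910 6 845)))))))))))))
(mv 845 (cons (cons (mv 780 (cons (fin 844 7 780)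
(mv 716 (cons (fin 781 7 716)
(mv 846 (cons (fin 782 6 781)
(mv 1101 (cons (fin 910 6 845)
(mv 1102 (cons (fin 1038 4 845)
(fin 1166 4 909)))))))))))
(mv 782 (cons (fin 846 6 781)
(mv 781 (cons (fin 718 6 717)
(mv 1038 (cons (fin 974 4 781)
(fin 1102 4 845))))))))
(cons (mv 780 (cons (fin 844 7 780)
(mv 781 (cons (fin 716 7 716)
(mv 1038 (cons (fin 974 4 781)
(fin 1102 4 845)))))))
(cons (mv 780 (cons (fin 844 7 780)
(mv 781 (cons (fin 716 7 716)
(mv 782 (cons (fin 718 6 717)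
(fin 846 6 781)))))))
(mv 780 (cons (fin 844 7 780)
(mv 846 (cons (fin 782 6 781)
(mv 1101 (cons (fin 910 6 845)
(mv 1102 (cons (fin 1038 4 845)
(fin 1166 4 909)))))))))))))))))
(cons (mv 909 (cons (cons (cons (mv 845 (cons (cons (mv 780 (cons (fin 844 7 780)
(mv 716 (cons (fin 781 7 716)
(mv 782 (cons (fin 846 6 781)
(mv 1038 (cons (fin 1102 4 845)
(mv 1100 (cons (fin 1036 5 844)
(mv 1101 (cons (fin 1039 1 1036)
(fin 1164 5 908)))))))))))))
(cons (mv 780 (cons (fin 844 7 780)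
(mv 716 (cons (fin 781 7 716)
(mv 846 (cons (fin 782 6 781)
(mv 1100 (cons (fin 1036 5 844)
(mv 1101 (cons (fin 1164 5 908)
(fin 910 6 845)))))))))))
(mv 780 (cons (fin 844 7 780)
(mv 716 (cons (fin 781 7 716)
(mv 1038 (cons (fin 1102 4 845)
(mv 1100 (cons (fin 1036 5 844)
(mv 1101 (cons (fin 1039 1 1036)
(fin 1164 5 908)))))))))))))
(cons (cons (mv 782 (cons (fin 846 6 781)
(mv 718 (cons (fin 781 6 717)
(mv 1038 (cons (fin 1102 4 845)
(mv 1100 (cons (fin 1036 5 844)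
(mv 1101 (cons (fin 1039 1 1036)
(fin 1164 5 908)))))))))))
(mv 780 (cons (fin 844 7 780)
(mv 716 (cons (fin 781 7 716)
(mv 846 (cons (fin 782 6 781)
(mv 1101 (cons (fin 910 6 845)
(mv 1102 (cons (fin 1038 4 845)
(fin 1166 4 909))))))))))))
(cons (mv 780 (cons (fin 844 7 780)
(mv 781 (cons (fin 716 7 716)
(mv 782 (cons (fin 718 6 717)
(fin 846 6 781)))))))
(mv 780 (cons (fin 844 7 780)
(mv 782 (cons (fin 846 6 781)
(mv 1038 (cons (fin 1102 4 845)
(mv 1100 (cons (fin 1036 5 844)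
(mv 1101 (cons (fin 1039 1 1036)
(fin 1164 5 908)))))))))))))))
(mv 1101 (cons (cons (mv 844 (cons (fin 908 7 844)
(mv 846 (cons (fin 910 6 845)
(mv 1100 (cons (fin 1164 5 908)
(mv 1038 (cons (fin 1039 1 1036)
(mv 1099 (cons (fin 1098 2 1034)
(mv 1102 (cons (fin 1166 4 909)
(mv 1035 (cons (fin 1034 3 1034)
(mv 1103 (cons (fin 1036 3 1035)
(mv 1104 (cons (fin 1105 3 1037)
(mv 1168 (cons (fin 1167 0 1100)
(fin 1169 0 1101)))))))))))))))))))))
(cons (mv 908 (cons (fin 844 7 844)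
(mv 910 (cons (fin 846 6 845)
(mv 1102 (cons (fin 1166 4 909)
(mv 907 (cons (mv 974 (cons (fin 906 0 906)
(fin 975 0 907)))
(cons (mv 842 (cons (fin 843 3 842)
(mv 906 (cons (fin 841 3 841)
(mv 970 (cons (fin 969 1 905)
(fin 971 1 906)))))))
(mv 842 (cons (fin 843 3 842)
(mv 970 (cons (fin 971 1 906)
(mv 975 (cons (fin 974 0 907)
(mv 911 (cons (fin 976 0 908)
(mv 847 (cons (fin 848 2 844)
(mv 1039 (cons (fin 1038 5 846)
(fin 1104 4 847))))))))))))))))))))))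
(mv 908 (cons (fin 844 7 844)
(mv 910 (cons (fin 846 6 845)
(mv 1100 (cons (fin 1164 5 908)
(mv 1038 (cons (fin 1039 1 1036)
(mv 1098 (cons (fin 1099 2 1034)
(mv 907 (cons (mv 974 (cons (fin 906 0 906)
(fin 975 0 907)))
(cons (mv 842 (cons (fin 843 3 842)
(mv 906 (cons (fin 841 3 841)
(mv 970 (cons (fin 969 1 905)
(fin 971 1 906)))))))
(mv 843 (cons (fin 842 3 842)
(mv 971 (cons (fin 970 1 906)
(mv 1035 (cons (fin 1034 5 842)
(fin 1036 4 843))))))))))))))))))))))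
(cons (cons (mv 844 (cons (fin 908 7 844)
(mv 1100 (cons (fin 1164 5 908)
(mv 1038 (cons (fin 1039 1 1036)
(mv 1099 (cons (fin 1098 2 1034)
(mv 1102 (cons (fin 1166 4 909)
(mv 1035 (cons (fin 1034 3 1034)
(mv 1103 (cons (fin 1036 3 1035)
(mv 1104 (cons (fin 1105 3 1037)
(mv 1168 (cons (fin 1167 0 1100)
(fin 1169 0 1101)))))))))))))))))))
(mv 846 (cons (fin 910 6 845)
(mv 1100 (cons (fin 1164 5 908)
(mv 1038 (cons (fin 1039 1 1036)
(mv 1099 (cons (fin 1098 2 1034)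
(mv 1102 (cons (fin 1166 4 909)
(mv 1035 (cons (fin 1034 3 1034)
(mv 1103 (cons (fin 1036 3 1035)
(mv 1104 (cons (fin 1105 3 1037)
(mv 1168 (cons (fin 1167 0 1100)
(fin 1169 0 1101))))))))))))))))))))
(cons (mv 844 (cons (fin 908 7 844)
(mv 846 (cons (fin 910 6 845)
(mv 1100 (cons (fin 1164 5 908)
(mv 1102 (cons (fin 1166 4 909)
(mv 1103 (cons (fin 1039 2 1036)
(mv 1036 (cons (fin 1035 3 1035)
(fin 1104 3 1036)))))))))))))
(mv 908 (cons (fin 844 7 844)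
(mv 910 (cons (fin 846 6 845)
(mv 1100 (cons (fin 1164 5 908)
(mv 1102 (cons (fin 1166 4 909)
(mv 907 (cons (mv 974 (cons (fin 906 0 906)
(fin 975 0 907)))
(cons (mv 842 (cons (fin 843 3 842)
(mv 906 (cons (fin 841 3 841)
(mv 970 (cons (fin 969 1 905)
(fin 971 1 906)))))))
(mv 843 (cons (fin 842 3 842)
(mv 971 (cons (fin 970 1 906)
(mv 974 (cons (fin 975 0 907)
(mv 1035 (cons (fin 1036 4 843)
(mv 1034 (cons (fin 1099 3 1034)
(fin 1098 5 842)))))))))))))))))))))))))))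
(cons (mv 845 (cons (cons (mv 780 (cons (fin 844 7 780)
(mv 781 (cons (fin 716 7 716)
(mv 782 (cons (fin 718 6 717)
(fin 846 6 781)))))))
(mv 780 (cons (fin 844 7 780)
(mv 781 (cons (fin 716 7 716)
(mv 1038 (cons (fin 974 4 781)
(fin 1102 4 845))))))))
(cons (mv 782 (cons (fin 846 6 781)
(mv 781 (cons (fin 718 6 717)
(mv 1038 (cons (fin 974 4 781)
(fin 1102 4 845)))))))
(mv 780 (cons (fin 844 7 780)
(mv 782 (cons (fin 846 6 781)
(mv 1036 (cons (fin 1100 5 844)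
(mv 1038 (cons (fin 1102 4 845)
(mv 1035 (cons (mv 974 (cons (fin 1034 2 970)
(fin 975 2 971)))
(cons (mv 970 (cons (fin 971 3 970)
(mv 1034 (cons (fin 969 3 969)
(mv 1098 (cons (fin 1097 1 1033)
(fin 1099 1 1034)))))))
(mv 970 (cons (fin 971 3 970)
(mv 975 (cons (fin 974 2 971)
(mv 1039 (cons (fin 976 2 972)
(mv 1104 (cons (fin 1103 0 1036)
(fin 1105 0 1037)))))))))))))))))))))))
(mv 845 (cons (cons (mv 780 (cons (fin 844 7 780)
(mv 716 (cons (fin 781 7 716)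
(mv 846 (cons (fin 782 6 781)
(mv 1100 (cons (fin 1036 5 844)
(mv 1101 (cons (fin 1164 5 908)
(fin 910 6 845)))))))))))
(cons (mv 780 (cons (fin 844 7 780)
(mv 781 (cons (fin 716 7 716)
(mv 718 (cons (fin 782 6 717)
(mv 654 (cons (fin 717 6 653)
(mv 1038 (cons (fin 974 4 781)
(mv 1100 (cons (fin 1036 5 844)
(mv 1101 (cons (fin 1039 1 1036)
(fin 1164 5 908)))))))))))))))
(mv 782 (cons (fin 846 6 781)
(mv 781 (cons (fin 718 6 717)
(mv 716 (cons (fin 780 7 716)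
(mv 652 (cons (fin 717 7 652)
(mv 1038 (cons (fin 974 4 781)
(mv 1100 (cons (fin 1036 5 844)
(mv 1101 (cons (fin 1039 1 1036)
(fin 1164 5 908)))))))))))))))))
(cons (cons (mv 780 (cons (fin 844 7 780)
(mv 781 (cons (fin 716 7 716)
(mv 974 (cons (fin 1038 4 781)
(mv 910 (cons (fin 717 4 717)
(mv 1100 (cons (fin 1036 5 844)
(mv 1101 (cons (fin 1164 5 908)
(fin 846 6 845)))))))))))))
(mv 782 (cons (fin 846 6 781)
(mv 781 (cons (fin 718 6 717)
(mv 974 (cons (fin 1038 4 781)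
(mv 910 (cons (fin 717 4 717)
(mv 1036 (cons (fin 1100 5 844)
(mv 975 (cons (fin 976 1 972)
(mv 908 (cons (fin 907 0 907)
(mv 844 (cons (fin 1101 7 844)
(mv 843 (cons (fin 911 3 843)
(fin 842 2 778))))))))))))))))))))
(cons (mv 780 (cons (fin 844 7 780)
(mv 781 (cons (fin 716 7 716)
(mv 782 (cons (fin 718 6 717)
(fin 846 6 781)))))))
(mv 780 (cons (fin 844 7 780)
(mv 846 (cons (fin 782 6 781)
(mv 1100 (cons (fin 1036 5 844)
(mv 1101 (cons (fin 1164 5 908)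
(fin 910 6 845)))))))))))))))
(cons (cons (mv 845 (cons (cons (mv 780 (cons (fin 844 7 780)
(mv 716 (cons (fin 781 7 716)
(mv 1038 (cons (fin 1102 4 845)
(mv 1100 (cons (fin 1036 5 844)
(mv 1101 (cons (fin 1039 1 1036)
(fin 1164 5 908)))))))))))
(mv 844 (cons (fin 780 7 780)
(mv 1100 (cons (fin 1036 5 844)
(mv 1101 (cons (fin 908 7 844)
(fin 1164 5 908))))))))
(cons (mv 1036 (cons (fin 1100 5 844)
(mv 1038 (cons (fin 1102 4 845)
(mv 781 (cons (fin 974 4 781)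
(mv 716 (cons (fin 780 7 716)
(mv 717 (cons (fin 652 7 652)
(mv 718 (cons (fin 654 6 653)
(fin 782 6 717)))))))))))))
(cons (mv 780 (cons (fin 844 7 780)
(mv 781 (cons (fin 716 7 716)
(mv 1038 (cons (fin 974 4 781)
(fin 1102 4 845)))))))
(mv 1036 (cons (fin 1100 5 844)
(mv 1038 (cons (fin 1102 4 845)
(mv 974 (cons (fin 781 4 781)
(mv 975 (cons (fin 976 1 972)
(fin 1035 2 971)))))))))))))
(mv 845 (cons (cons (mv 780 (cons (fin 844 7 780)
(mv 716 (cons (fin 781 7 716)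
(mv 846 (cons (fin 782 6 781)
(mv 1101 (cons (fin 910 6 845)
(mv 1102 (cons (fin 1038 4 845)
(fin 1166 4 909)))))))))))
(mv 780 (cons (fin 844 7 780)
(mv 781 (cons (fin 716 7 716)
(mv 1038 (cons (fin 974 4 781)
(fin 1102 4 845))))))))
(cons (mv 780 (cons (fin 844 7 780)
(mv 781 (cons (fin 716 7 716)
(mv 782 (cons (fin 718 6 717)
(fin 846 6 781)))))))
(cons (mv 782 (cons (fin 846 6 781)
(mv 781 (cons (fin 718 6 717)
(mv 1038 (cons (fin 974 4 781)
(fin 1102 4 845)))))))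
(mv 780 (cons (fin 844 7 780)
(mv 846 (cons (fin 782 6 781)
(mv 1101 (cons (fin 910 6 845)
(mv 1102 (cons (fin 1038 4 845)
(fin 1166 4 909))))))))))))))
(cons (mv 845 (cons (cons (mv 782 (cons (fin 846 6 781)
(mv 718 (cons (fin 781 6 717)
(mv 1038 (cons (fin 1102 4 845)
(mv 1100 (cons (fin 1036 5 844)
(mv 1101 (cons (fin 1039 1 1036)
(fin 1164 5 908)))))))))))
(mv 846 (cons (fin 782 6 781)
(mv 1100 (cons (fin 1036 5 844)
(mv 1101 (cons (fin 1164 5 908)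
(fin 910 6 845))))))))
(cons (mv 1036 (cons (fin 1100 5 844)
(mv 1038 (cons (fin 1102 4 845)
(mv 781 (cons (fin 974 4 781)
(mv 716 (cons (fin 780 7 716)
(mv 717 (cons (fin 652 7 652)
(mv 718 (cons (fin 654 6 653)
(fin 782 6 717)))))))))))))
(cons (mv 1036 (cons (fin 1100 5 844)
(mv 1038 (cons (fin 1102 4 845)
(mv 974 (cons (fin 781 4 781)
(mv 975 (cons (fin 976 1 972)
(fin 1035 2 971)))))))))
(mv 782 (cons (fin 846 6 781)
(mv 781 (cons (fin 718 6 717)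
(mv 1038 (cons (fin 974 4 781)
(fin 1102 4 845)))))))))))
(mv 1101 (cons (cons (mv 844 (cons (fin 908 7 844)
(mv 780 (cons (fin 845 7 780)
(mv 846 (cons (fin 910 6 845)
(mv 1100 (cons (fin 1164 5 908)
(mv 1102 (cons (fin 1166 4 909)
(mv 1103 (cons (fin 1039 2 1036)
(mv 1036 (cons (fin 1035 3 1035)
(fin 1104 3 1036)))))))))))))))
(mv 844 (cons (fin 908 7 844)
(mv 845 (cons (fin 780 7 780)
(mv 846 (cons (fin 782 6 781)
(fin 910 6 845))))))))
(cons (mv 844 (cons (fin 908 7 844)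
(mv 780 (cons (fin 845 7 780)
(mv 1100 (cons (fin 1164 5 908)
(mv 1102 (cons (fin 1166 4 909)
(mv 1103 (cons (fin 1039 2 1036)
(mv 1036 (cons (fin 1035 3 1035)
(fin 1104 3 1036)))))))))))))
(cons (mv 846 (cons (fin 910 6 845)
(mv 782 (cons (fin 845 6 781)
(mv 1100 (cons (fin 1164 5 908)
(mv 1102 (cons (fin 1166 4 909)
(mv 1103 (cons (fin 1039 2 1036)
(mv 1036 (cons (fin 1035 3 1035)
(fin 1104 3 1036)))))))))))))
(mv 844 (cons (fin 908 7 844)
(mv 846 (cons (fin 910 6 845)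
(mv 1100 (cons (fin 1164 5 908)
(mv 1102 (cons (fin 1166 4 909)
(mv 1103 (cons (fin 1039 2 1036)
(mv 1036 (cons (fin 1035 3 1035)
(fin 1104 3 1036)))))))))))))))))))))
(mv 1039 (cons (cons (mv 1038 (cons (fin 972 3 972)
(mv 976 (cons (fin 977 2 973)
(mv 975 (cons (fin 1036 2 972)
(mv 1100 (cons (fin 1101 1 1036)
(mv 1104 (cons (fin 1105 0 1037)
(mv 911 (cons (fin 1168 7 911)
(fin 847 4 847)))))))))))))
(cons (mv 975 (cons (cons (mv 974 (cons (fin 972 0 972)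
(mv 976 (cons (fin 1036 1 972)
(mv 912 (cons (fin 913 2 909)
(mv 848 (cons (fin 784 5 783)
(fin 1103 5 847)))))))))
(cons (mv 1104 (cons (cons (mv 911 (cons (fin 847 4 847)
(mv 1168 (cons (fin 976 7 911)
(fin 1232 7 975)))))
(mv 911 (cons (fin 847 4 847)
(mv 1103 (cons (cons (mv 846 (cons (fin 910 7 846)
(mv 848 (cons (fin 912 6 847)
(mv 1102 (cons (fin 1166 5 910)
(mv 1101 (cons (fin 1036 3 1036)
(fin 1100 2 1036)))))))))
(mv 846 (cons (fin 910 7 846)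
(mv 1102 (cons (fin 1166 5 910)
(mv 1101 (cons (fin 1036 3 1036)
(fin 1100 2 1036))))))))
(cons (mv 846 (cons (fin 910 7 846)
(mv 912 (cons (fin 848 6 847)
(mv 976 (cons (fin 1167 5 911)
(mv 913 (cons (fin 849 6 848)
(mv 914 (cons (fin 915 1 911)
(mv 850 (cons (fin 851 2 847)
(mv 978 (cons (fin 979 0 911)
(mv 1105 (cons (fin 1169 4 912)
(mv 1106 (cons (fin 1107 3 1039)
(mv 1042 (cons (fin 1043 2 1039)
(mv 1170 (cons (fin 1171 0 1103)
(fin 977 7 913)))))))))))))))))))))))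
(mv 848 (cons (fin 912 6 847)
(mv 1102 (cons (fin 1166 5 910)
(mv 1101 (cons (fin 1036 3 1036)
(fin 1100 2 1036)))))))))))))
(cons (mv 1168 (cons (fin 1232 7 975)
(mv 976 (cons (mv 913 (cons (fin 977 6 912)
(mv 912 (cons (fin 849 6 848)
(mv 848 (cons (fin 784 5 783)
(fin 1103 5 847)))))))
(cons (mv 1167 (cons (fin 1231 5 975)
(mv 912 (cons (fin 1103 5 911)
(mv 1169 (cons (fin 1105 4 912)
(fin 1233 4 976)))))))
(mv 977 (cons (fin 913 6 912)
(mv 978 (cons (fin 979 1 975)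
(mv 914 (cons (fin 915 2 911)
(mv 1042 (cons (fin 1043 0 975)
(mv 1167 (cons (fin 1231 5 975)
(mv 1169 (cons (fin 1233 4 976)
(mv 1106 (cons (fin 1105 5 913)
(mv 1107 (cons (fin 1170 2 1103)
(fin 1171 4 914))))))))))))))))))))))
(mv 911 (cons (fin 847 4 847)
(mv 1168 (cons (fin 1232 7 975)
(fin 1103 4 911))))))))
(mv 974 (cons (fin 972 0 972)
(mv 911 (cons (cons (mv 847 (cons (fin 1104 4 847)
(mv 782 (cons (fin 846 7 782)
(mv 718 (cons (fin 783 7 718)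
(mv 848 (cons (fin 784 6 783)
(mv 912 (cons (fin 1103 6 847)
(mv 913 (cons (fin 910 1 909)
(fin 914 1 910)))))))))))))
(mv 1103 (cons (mv 910 (cons (fin 846 7 846)
(fin 1167 7 910)))
(mv 848 (cons (fin 912 6 847)
(mv 1102 (cons (fin 1166 5 910)
(mv 1101 (cons (fin 1100 2 1036)
(mv 1104 (cons (fin 1036 3 1036)
(fin 1168 4 911))))))))))))
(cons (mv 912 (cons (mv 913 (cons (fin 910 1 909)
(fin 914 1 910)))
(mv 848 (cons (fin 1103 6 847)
(mv 784 (cons (fin 720 5 719)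
(fin 847 6 783)))))))
(cons (mv 847 (cons (fin 1104 4 847)
(mv 782 (cons (fin 846 7 782)
(mv 783 (cons (fin 718 7 718)
(mv 784 (cons (fin 720 6 719)
(fin 848 6 783)))))))))
(mv 847 (cons (fin 1104 4 847)
(mv 782 (cons (fin 846 7 782)
(mv 783 (cons (fin 718 7 718)
(mv 719 (cons (fin 910 5 718)
(mv 720 (cons (fin 656 6 655)
(fin 784 6 719)))))))))))))))))))
(cons (cons (mv 974 (cons (fin 972 0 972)
(mv 1104 (cons (cons (mv 911 (cons (fin 847 4 847)
(mv 1168 (cons (fin 976 7 911)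
(fin 1232 7 975)))))
(mv 1168 (cons (fin 1232 7 975)
(mv 976 (cons (mv 913 (cons (fin 912 2 909)
(fin 977 6 912)))
(cons (mv 1167 (cons (fin 1231 5 975)
(mv 1103 (cons (fin 910 7 910)
(fin 912 5 911)))))
(mv 913 (cons (fin 977 6 912)
(mv 1167 (cons (fin 1231 5 975)
(mv 1103 (cons (fin 910 7 910)
(mv 1166 (cons (fin 1230 5 974)
(mv 1105 (cons (fin 1106 1 1102)
(mv 1169 (cons (fin 1233 4 976)
(mv 1102 (cons (fin 1101 3 1101)
(fin 1170 3 1102)))))))))))))))))))))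
(cons (mv 911 (cons (fin 847 4 847)
(mv 912 (cons (mv 913 (cons (fin 910 1 909)
(fin 914 1 910)))
(mv 848 (cons (fin 1103 6 847)
(mv 784 (cons (fin 720 5 719)
(fin 976 5 783)))))))))
(mv 911 (cons (fin 847 4 847)
(mv 1168 (cons (fin 1232 7 975)
(fin 1103 4 911))))))))))
(mv 974 (cons (fin 972 0 972)
(mv 976 (cons (fin 1036 1 972)
(mv 912 (cons (fin 913 2 909)
(mv 848 (cons (fin 784 5 783)
(mv 785 (cons (fin 849 6 784)
(mv 847 (cons (fin 783 7 783)
(mv 1104 (cons (fin 911 7 847)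
(mv 1168 (cons (fin 1232 7 975)
(mv 1169 (cons (fin 1105 4 912)
(fin 1233 4 976))))))))))))))))))))
(cons (mv 974 (cons (fin 972 0 972)
(mv 1104 (cons (cons (mv 847 (cons (fin 911 4 847)
(mv 976 (cons (fin 1036 1 972)
(mv 1168 (cons (fin 1232 7 975)
(mv 913 (cons (fin 977 6 912)
(mv 1167 (cons (fin 1231 5 975)
(mv 1103 (cons (fin 910 7 910)
(mv 1166 (cons (fin 1230 5 974)
(mv 1105 (cons (fin 1106 1 1102)
(mv 1169 (cons (fin 1233 4 976)
(mv 1102 (cons (fin 1101 3 1101)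
(fin 1170 3 1102)))))))))))))))))))))
(mv 911 (cons (fin 847 4 847)
(mv 1036 (cons (fin 976 1 972)
(mv 1034 (cons (fin 1035 2 970)
(mv 1103 (cons (mv 910 (cons (fin 846 7 846)
(fin 1167 7 910)))
(mv 1102 (cons (fin 1101 3 1036)
(fin 1166 5 910))))))))))))
(cons (mv 976 (cons (fin 1036 1 972)
(mv 1168 (cons (fin 1232 7 975)
(mv 913 (cons (fin 977 6 912)
(mv 1167 (cons (fin 1231 5 975)
(mv 1103 (cons (fin 910 7 910)
(mv 1166 (cons (fin 1230 5 974)
(mv 1105 (cons (fin 1106 1 1102)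
(mv 1169 (cons (fin 1233 4 976)
(mv 1102 (cons (fin 1101 3 1101)
(fin 1170 3 1102)))))))))))))))))))
(cons (mv 911 (cons (fin 847 4 847)
(mv 1168 (cons (fin 1232 7 975)
(fin 1103 4 911)))))
(mv 847 (cons (fin 911 4 847)
(mv 976 (cons (fin 1036 1 972)
(mv 1168 (cons (fin 1232 7 975)
(mv 977 (cons (fin 913 6 912)
(mv 978 (cons (fin 979 1 975)
(mv 914 (cons (fin 915 2 911)
(mv 1042 (cons (fin 1043 0 975)
(mv 1167 (cons (fin 1231 5 975)
(mv 1169 (cons (fin 1233 4 976)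
(mv 1106 (cons (fin 1105 5 913)
(mv 1107 (cons (fin 1170 2 1103)
(fin 1171 4 914)))))))))))))))))))))))))))))
(mv 972 (cons (fin 974 0 972)
(mv 911 (cons (cons (mv 847 (cons (fin 1104 4 847)
(mv 782 (cons (fin 846 7 782)
(mv 783 (cons (fin 718 7 718)
(fin 976 4 783)))))))
(mv 1103 (cons (cons (mv 846 (cons (fin 910 7 846)
(mv 848 (cons (fin 912 6 847)
(mv 1102 (cons (fin 1166 5 910)
(mv 1101 (cons (fin 1100 2 1036)
(mv 1104 (cons (fin 1036 3 1036)
(fin 1168 4 911)))))))))))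
(cons (mv 846 (cons (fin 910 7 846)
(mv 848 (cons (fin 912 6 847)
(mv 1166 (cons (fin 1102 5 910)
(mv 1167 (cons (fin 1230 5 974)
(mv 1231 (cons (fin 976 6 975)
(mv 1295 (cons (fin 1104 6 1039)
(mv 1296 (cons (fin 1232 4 1039)
(fin 1360 4 1103)))))))))))))))
(mv 846 (cons (fin 910 7 846)
(mv 848 (cons (fin 912 6 847)
(mv 1166 (cons (fin 1102 5 910)
(mv 1167 (cons (fin 1230 5 974)
(mv 1231 (cons (fin 976 6 975)
(mv 1232 (cons (fin 1168 4 975)
(fin 1296 4 1039)))))))))))))))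
(cons (cons (mv 846 (cons (fin 910 7 846)
(mv 1102 (cons (fin 1166 5 910)
(mv 1101 (cons (fin 1100 2 1036)
(mv 1104 (cons (fin 1036 3 1036)
(fin 1168 4 911)))))))))
(mv 846 (cons (fin 910 7 846)
(mv 848 (cons (fin 912 6 847)
(mv 1168 (cons (fin 1104 4 911)
(mv 1167 (cons (fin 1232 4 975)
(mv 1230 (cons (fin 1166 5 974)
(mv 1231 (cons (fin 1294 5 1038)
(fin 976 6 975))))))))))))))
(cons (mv 846 (cons (fin 910 7 846)
(mv 912 (cons (fin 848 6 847)
(mv 1167 (cons (fin 976 6 911)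
(mv 1168 (cons (fin 1104 4 911)
(fin 1232 4 975)))))))))
(mv 848 (cons (fin 912 6 847)
(mv 1102 (cons (fin 1166 5 910)
(mv 1101 (cons (fin 1100 2 1036)
(mv 1104 (cons (fin 1036 3 1036)
(fin 1168 4 911))))))))))))))
(cons (mv 1103 (cons (cons (mv 846 (cons (fin 910 7 846)
(mv 782 (cons (fin 847 7 782)
(mv 848 (cons (fin 912 6 847)
(mv 1166 (cons (fin 1102 5 910)
(mv 1167 (cons (fin 1230 5 974)
(mv 1231 (cons (fin 976 6 975)
(mv 1232 (cons (fin 1168 4 975)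
(fin 1296 4 1039)))))))))))))))
(cons (mv 846 (cons (fin 910 7 846)
(mv 782 (cons (fin 847 7 782)
(mv 1166 (cons (fin 1102 5 910)
(mv 1167 (cons (fin 1230 5 974)
(mv 1231 (cons (fin 976 6 975)
(mv 1232 (cons (fin 1168 4 975)
(fin 1296 4 1039)))))))))))))
(mv 846 (cons (fin 910 7 846)
(mv 782 (cons (fin 847 7 782)
(mv 912 (cons (fin 848 6 847)
(mv 1167 (cons (fin 976 6 911)
(mv 1230 (cons (fin 1166 5 974)
(mv 1231 (cons (fin 1294 5 1038)
(mv 1232 (cons (fin 1168 4 975)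
(fin 1296 4 1039)))))))))))))))))
(cons (mv 848 (cons (fin 912 6 847)
(mv 784 (cons (fin 847 6 783)
(mv 1166 (cons (fin 1102 5 910)
(mv 1167 (cons (fin 1230 5 974)
(mv 1231 (cons (fin 976 6 975)
(mv 1232 (cons (fin 1168 4 975)
(fin 1296 4 1039)))))))))))))
(cons (mv 846 (cons (fin 910 7 846)
(mv 847 (cons (fin 782 7 782)
(mv 848 (cons (fin 784 6 783)
(fin 912 6 847)))))))
(mv 846 (cons (fin 910 7 846)
(mv 848 (cons (fin 912 6 847)
(mv 1166 (cons (fin 1102 5 910)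
(mv 1167 (cons (fin 1230 5 974)
(mv 1231 (cons (fin 976 6 975)
(mv 1232 (cons (fin 1168 4 975)
(fin 1296 4 1039)))))))))))))))))
(cons (mv 847 (cons (fin 1104 4 847)
(mv 782 (cons (fin 846 7 782)
(mv 783 (cons (fin 718 7 718)
(mv 784 (cons (fin 720 6 719)
(fin 848 6 783)))))))))
(mv 847 (cons (fin 1104 4 847)
(mv 783 (cons (fin 976 4 783)
(mv 784 (cons (fin 720 6 719)
(fin 848 6 783)))))))))))))))))
(mv 1038 (cons (cons (mv 976 (cons (fin 977 2 973)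
(mv 975 (cons (fin 1036 2 972)
(mv 1100 (cons (fin 1101 1 1036)
(mv 1104 (cons (fin 1105 0 1037)
(mv 911 (cons (fin 1168 7 911)
(fin 847 4 847)))))))))))
(mv 1100 (cons (fin 1101 1 1036)
(mv 1036 (cons (fin 1099 1 1035)
(mv 1104 (cons (fin 1103 0 1036)
(fin 1105 0 1037))))))))
(cons (mv 976 (cons (fin 977 2 973)
(mv 1036 (cons (fin 975 2 972)
(mv 1100 (cons (fin 1099 1 1035)
(fin 1101 1 1036)))))))
(cons (mv 976 (cons (fin 977 2 973)
(mv 975 (cons (fin 1036 2 972)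
(mv 1104 (cons (fin 1105 0 1037)
(mv 911 (cons (fin 1168 7 911)
(fin 847 4 847)))))))))
(mv 976 (cons (fin 977 2 973)
(mv 1100 (cons (fin 1101 1 1036)
(mv 1104 (cons (fin 1105 0 1037)
(mv 912 (cons (mv 1103 (cons (fin 848 5 847)
(fin 1167 5 911)))
(cons (mv 847 (cons (fin 911 7 847)
(mv 848 (cons (fin 783 7 783)
(mv 849 (cons (fin 785 6 784)
(fin 913 6 848)))))))
(mv 847 (cons (fin 911 7 847)
(mv 849 (cons (fin 913 6 848)
(mv 1167 (cons (fin 1103 5 911)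
(mv 1168 (cons (fin 1231 5 975)
(mv 1232 (cons (fin 975 7 975)
(mv 1233 (cons (fin 1169 4 976)
(fin 1297 4 1040))))))))))))))))))))))))))))
(cons (cons (mv 1038 (cons (fin 972 3 972)
(mv 1100 (cons (fin 1101 1 1036)
(mv 1036 (cons (fin 1099 1 1035)
(mv 1104 (cons (fin 1103 0 1036)
(fin 1105 0 1037)))))))))
(mv 1038 (cons (fin 972 3 972)
(mv 976 (cons (fin 977 2 973)
(mv 1036 (cons (fin 975 2 972)
(mv 1100 (cons (fin 1099 1 1035)
(fin 1101 1 1036))))))))))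
(cons (mv 1038 (cons (fin 972 3 972)
(mv 976 (cons (fin 977 2 973)
(mv 975 (cons (fin 1036 2 972)
(mv 1104 (cons (fin 1105 0 1037)
(mv 911 (cons (fin 1168 7 911)
(fin 847 4 847)))))))))))
(mv 1038 (cons (fin 972 3 972)
(mv 976 (cons (fin 977 2 973)
(mv 1100 (cons (fin 1101 1 1036)
(mv 1104 (cons (fin 1105 0 1037)
(mv 912 (cons (mv 1103 (cons (fin 848 5 847)
(fin 1167 5 911)))
(cons (mv 847 (cons (fin 911 7 847)
(mv 848 (cons (fin 783 7 783)
(mv 849 (cons (fin 785 6 784)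
(fin 913 6 848)))))))
(mv 847 (cons (fin 911 7 847)
(mv 849 (cons (fin 913 6 848)
(mv 1167 (cons (fin 1103 5 911)
(mv 1168 (cons (fin 1231 5 975)
(mv 1232 (cons (fin 975 7 975)
(mv 1233 (cons (fin 1169 4 976)
(fin 1297 4 1040)))))))))))))))))))))))))))))))
(cons (cons (mv 1039 (cons (cons (mv 1038 (cons (fin 972 3 972)
(mv 976 (cons (fin 977 2 973)
(mv 975 (cons (fin 1036 2 972)
(mv 1104 (cons (fin 1105 0 1037)
(mv 911 (cons (fin 1168 7 911)
(fin 847 4 847)))))))))))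
(cons (mv 975 (cons (cons (mv 974 (cons (fin 972 0 972)
(mv 976 (cons (fin 1036 1 972)
(mv 908 (cons (fin 909 3 908)
(mv 912 (cons (fin 913 2 909)
(mv 848 (cons (fin 784 5 783)
(fin 1103 5 847)))))))))))
(cons (mv 911 (cons (cons (mv 847 (cons (fin 1104 4 847)
(mv 782 (cons (fin 846 7 782)
(mv 783 (cons (fin 718 7 718)
(fin 976 4 783)))))))
(mv 1103 (cons (cons (cons (mv 846 (cons (fin 910 7 846)
(mv 848 (cons (fin 912 6 847)
(mv 1104 (cons (fin 1168 4 911)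
(mv 1166 (cons (fin 1102 5 910)
(mv 1167 (cons (fin 1230 5 974)
(mv 1231 (cons (fin 976 6 975)
(fin 1295 6 1039)))))))))))))
(mv 846 (cons (fin 910 7 846)
(mv 848 (cons (fin 912 6 847)
(mv 1166 (cons (fin 1102 5 910)
(mv 1167 (cons (fin 1230 5 974)
(mv 1231 (cons (fin 976 6 975)
(mv 1295 (cons (fin 1104 6 1039)
(mv 1296 (cons (fin 1232 4 1039)
(fin 1360 4 1103))))))))))))))))
(cons (mv 846 (cons (fin 910 7 846)
(mv 1104 (cons (fin 1168 4 911)
(mv 1166 (cons (fin 1102 5 910)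
(mv 1167 (cons (fin 1230 5 974)
(mv 1231 (cons (fin 976 6 975)
(fin 1295 6 1039)))))))))))
(mv 846 (cons (fin 910 7 846)
(mv 848 (cons (fin 912 6 847)
(mv 1166 (cons (fin 1102 5 910)
(mv 1167 (cons (fin 1230 5 974)
(mv 1231 (cons (fin 976 6 975)
(mv 1232 (cons (fin 1168 4 975)
(fin 1296 4 1039)))))))))))))))
(cons (cons (mv 846 (cons (fin 910 7 846)
(mv 912 (cons (fin 848 6 847)
(mv 976 (cons (fin 1167 6 911)
(mv 1104 (cons (fin 1168 7 911)
(mv 913 (cons (fin 849 6 848)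
(mv 914 (cons (fin 915 1 911)
(mv 850 (cons (fin 851 2 847)
(mv 978 (cons (fin 979 0 911)
(mv 1105 (cons (fin 1169 4 912)
(mv 1106 (cons (fin 1107 3 1039)
(mv 1042 (cons (fin 1043 2 1039)
(mv 1170 (cons (fin 1171 0 1103)
(fin 977 7 913)))))))))))))))))))))))))
(mv 848 (cons (fin 912 6 847)
(mv 1104 (cons (fin 1168 4 911)
(mv 1166 (cons (fin 1102 5 910)
(mv 1167 (cons (fin 1230 5 974)
(mv 1231 (cons (fin 976 6 975)
(fin 1295 6 1039))))))))))))
(cons (mv 846 (cons (fin 910 7 846)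
(mv 848 (cons (fin 912 6 847)
(mv 1166 (cons (fin 1102 5 910)
(mv 1167 (cons (fin 1230 5 974)
(mv 1168 (cons (fin 1104 4 911)
(fin 1232 4 975)))))))))))
(mv 910 (cons (fin 846 7 846)
(mv 912 (cons (fin 848 6 847)
(mv 909 (cons (fin 972 1 908)
(mv 976 (cons (fin 908 0 908)
(fin 977 0 909))))))))))))))
(cons (mv 1103 (cons (cons (mv 846 (cons (fin 910 7 846)
(mv 782 (cons (fin 847 7 782)
(mv 845 (cons (fin 909 6 781)
(mv 848 (cons (fin 912 6 847)
(mv 1166 (cons (fin 1102 5 910)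
(mv 1167 (cons (fin 1230 5 974)
(mv 1231 (cons (fin 976 6 975)
(mv 1232 (cons (fin 1168 4 975)
(fin 1296 4 1039)))))))))))))))))
(mv 846 (cons (fin 910 7 846)
(mv 782 (cons (fin 847 7 782)
(mv 845 (cons (fin 909 6 781)
(mv 1166 (cons (fin 1102 5 910)
(mv 1167 (cons (fin 1230 5 974)
(mv 1231 (cons (fin 976 6 975)
(mv 1232 (cons (fin 1168 4 975)
(fin 1296 4 1039))))))))))))))))
(cons (mv 848 (cons (fin 912 6 847)
(mv 784 (cons (fin 847 6 783)
(mv 1166 (cons (fin 1102 5 910)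
(mv 1167 (cons (fin 1230 5 974)
(mv 1231 (cons (fin 976 6 975)
(mv 1232 (cons (fin 1168 4 975)
(fin 1296 4 1039)))))))))))))
(cons (mv 846 (cons (fin 910 7 846)
(mv 847 (cons (fin 782 7 782)
(mv 848 (cons (fin 784 6 783)
(fin 912 6 847)))))))
(mv 846 (cons (fin 910 7 846)
(mv 848 (cons (fin 912 6 847)
(mv 1166 (cons (fin 1102 5 910)
(mv 1167 (cons (fin 1230 5 974)
(mv 1231 (cons (fin 976 6 975)
(mv 1232 (cons (fin 1168 4 975)
(fin 1296 4 1039)))))))))))))))))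
(cons (mv 847 (cons (fin 1104 4 847)
(mv 782 (cons (fin 846 7 782)
(mv 783 (cons (fin 718 7 718)
(mv 784 (cons (fin 720 6 719)
(fin 848 6 783)))))))))
(mv 847 (cons (fin 1104 4 847)
(mv 783 (cons (fin 976 4 783)
(mv 784 (cons (fin 720 6 719)
(fin 848 6 783)))))))))))
(mv 1104 (cons (cons (mv 911 (cons (fin 847 4 847)
(mv 1168 (cons (fin 976 7 911)
(fin 1232 7 975)))))
(mv 1168 (cons (fin 1232 7 975)
(mv 976 (cons (cons (mv 913 (cons (fin 977 6 912)
(mv 912 (cons (fin 974 2 909)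
(fin 849 6 848)))))
(mv 913 (cons (fin 977 6 912)
(mv 912 (cons (fin 849 6 848)
(mv 848 (cons (fin 784 5 783)
(fin 1103 5 847))))))))
(cons (mv 974 (cons (fin 1036 1 972)
(mv 908 (cons (fin 909 3 908)
(mv 1167 (cons (fin 1231 5 975)
(mv 1103 (cons (fin 910 7 910)
(fin 912 5 911)))))))))
(mv 913 (cons (fin 977 6 912)
(mv 974 (cons (fin 1036 1 972)
(mv 908 (cons (fin 909 3 908)
(mv 1167 (cons (fin 1231 5 975)
(mv 1103 (cons (fin 910 7 910)
(mv 1166 (cons (fin 1230 5 974)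
(mv 1105 (cons (fin 1106 1 1102)
(mv 1169 (cons (fin 1233 4 976)
(mv 1170 (cons (fin 1102 3 1102)
(fin 1171 3 1103)))))))))))))))))))))))))
(cons (mv 911 (cons (fin 847 4 847)
(mv 1103 (cons (cons (mv 846 (cons (fin 910 7 846)
(mv 848 (cons (fin 912 6 847)
(mv 1166 (cons (fin 1102 5 910)
(mv 1167 (cons (fin 1230 5 974)
(mv 1231 (cons (fin 976 6 975)
(fin 1295 6 1039)))))))))))
(cons (mv 846 (cons (fin 910 7 846)
(mv 1166 (cons (fin 1102 5 910)
(mv 1167 (cons (fin 1230 5 974)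
(mv 1231 (cons (fin 976 6 975)
(fin 1295 6 1039)))))))))
(mv 848 (cons (fin 912 6 847)
(mv 1166 (cons (fin 1102 5 910)
(mv 1167 (cons (fin 1230 5 974)
(mv 1231 (cons (fin 976 6 975)
(fin 1295 6 1039)))))))))))
(cons (mv 846 (cons (fin 910 7 846)
(mv 912 (cons (fin 848 6 847)
(mv 976 (cons (fin 1167 5 911)
(mv 913 (cons (fin 974 2 909)
(fin 849 6 848)))))))))
(cons (mv 910 (cons (fin 846 7 846)
(mv 912 (cons (fin 848 6 847)
(mv 913 (cons (fin 974 1 909)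
(mv 849 (cons (fin 850 2 846)
(fin 976 6 848)))))))))
(mv 848 (cons (fin 912 6 847)
(mv 910 (cons (fin 846 7 846)
(mv 1166 (cons (fin 1102 5 910)
(mv 1167 (cons (fin 974 7 910)
(fin 1230 5 974)))))))))))))))
(mv 911 (cons (fin 847 4 847)
(mv 1168 (cons (fin 1232 7 975)
(fin 1103 4 911))))))))))
(cons (cons (mv 972 (cons (fin 974 0 972)
(mv 911 (cons (cons (mv 847 (cons (fin 1104 4 847)
(mv 782 (cons (fin 846 7 782)
(mv 783 (cons (fin 718 7 718)
(mv 784 (cons (fin 720 6 719)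
(fin 848 6 783)))))))))
(mv 1103 (cons (cons (mv 846 (cons (fin 910 7 846)
(mv 848 (cons (fin 912 6 847)
(mv 1166 (cons (fin 1102 5 910)
(mv 1167 (cons (fin 1230 5 974)
(mv 1168 (cons (fin 1104 4 911)
(fin 1232 4 975)))))))))))
(mv 910 (cons (fin 846 7 846)
(mv 912 (cons (fin 909 1 908)
(fin 848 6 847))))))
(cons (mv 848 (cons (fin 912 6 847)
(mv 1166 (cons (fin 1102 5 910)
(mv 1167 (cons (fin 1230 5 974)
(mv 1168 (cons (fin 1104 4 911)
(fin 1232 4 975)))))))))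
(mv 846 (cons (fin 910 7 846)
(mv 1166 (cons (fin 1102 5 910)
(mv 1167 (cons (fin 1230 5 974)
(mv 1168 (cons (fin 1104 4 911)
(fin 1232 4 975)))))))))))))
(cons (mv 910 (cons (mv 846 (cons (fin 1103 7 846)
(mv 782 (cons (fin 847 7 782)
(fin 718 4 718)))))
(mv 909 (cons (fin 912 1 908)
(mv 971 (cons (fin 908 1 907)
(fin 970 2 906)))))))
(mv 1104 (cons (fin 847 4 847)
(mv 1168 (cons (fin 1232 7 975)
(fin 1103 4 911))))))))))
(mv 974 (cons (fin 972 0 972)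
(mv 976 (cons (fin 1036 1 972)
(mv 908 (cons (fin 909 3 908)
(mv 912 (cons (fin 913 2 909)
(mv 848 (cons (fin 784 5 783)
(mv 785 (cons (fin 849 6 784)
(mv 847 (cons (fin 783 7 783)
(mv 1104 (cons (fin 911 7 847)
(mv 1168 (cons (fin 1232 7 975)
(mv 1169 (cons (fin 1105 4 912)
(fin 1233 4 976))))))))))))))))))))))
(cons (mv 974 (cons (fin 972 0 972)
(mv 976 (cons (fin 1036 1 972)
(mv 909 (cons (fin 908 3 908)
(mv 910 (cons (fin 977 3 909)
(mv 846 (cons (fin 782 5 781)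
(mv 1103 (cons (fin 911 7 846)
(fin 1167 7 910)))))))))))))
(mv 974 (cons (fin 972 0 972)
(mv 976 (cons (fin 1036 1 972)
(mv 912 (cons (fin 913 2 909)
(mv 848 (cons (fin 784 5 783)
(fin 1103 5 847)))))))))))))
(mv 1038 (cons (cons (mv 976 (cons (fin 977 2 973)
(mv 975 (cons (fin 1036 2 972)
(mv 1104 (cons (fin 1105 0 1037)
(mv 911 (cons (fin 1168 7 911)
(fin 847 4 847)))))))))
(mv 1104 (cons (fin 1105 0 1037)
(mv 1036 (cons (fin 1103 0 1036)
(mv 1099 (cons (fin 1100 1 1035)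
(mv 1035 (cons (fin 1098 1 1034)
(mv 974 (cons (fin 1034 2 970)
(fin 975 2 971))))))))))))
(cons (mv 976 (cons (fin 977 2 973)
(mv 1036 (cons (fin 975 2 972)
(mv 1099 (cons (fin 1100 1 1035)
(mv 1035 (cons (fin 1098 1 1034)
(mv 970 (cons (fin 971 3 970)
(mv 1034 (cons (fin 969 3 969)
(fin 974 2 970)))))))))))))
(cons (mv 976 (cons (fin 977 2 973)
(mv 1104 (cons (fin 1105 0 1037)
(mv 912 (cons (mv 1103 (cons (fin 848 5 847)
(fin 1167 5 911)))
(cons (mv 847 (cons (fin 911 7 847)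
(mv 848 (cons (fin 783 7 783)
(mv 849 (cons (fin 785 6 784)
(fin 913 6 848)))))))
(mv 847 (cons (fin 911 7 847)
(mv 849 (cons (fin 913 6 848)
(mv 1167 (cons (fin 1103 5 911)
(mv 1168 (cons (fin 1231 5 975)
(mv 1232 (cons (fin 975 7 975)
(mv 1233 (cons (fin 1169 4 976)
(fin 1297 4 1040))))))))))))))))))))
(mv 976 (cons (fin 977 2 973)
(mv 1104 (cons (fin 1105 0 1037)
(mv 1036 (cons (fin 1103 0 1036)
(mv 1099 (cons (fin 1100 1 1035)
(mv 1035 (cons (fin 1098 1 1034)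
(mv 970 (cons (fin 971 3 970)
(mv 1034 (cons (fin 969 3 969)
(fin 974 2 970)))))))))))))))))))))
(cons (mv 972 (cons (fin 1038 3 972)
(mv 975 (cons (fin 974 0 972)
(mv 911 (cons (cons (mv 847 (cons (fin 1104 4 847)
(mv 782 (cons (fin 846 7 782)
(mv 783 (cons (fin 718 7 718)
(mv 784 (cons (fin 720 6 719)
(fin 848 6 783)))))))))
(mv 1103 (cons (cons (mv 846 (cons (fin 910 7 846)
(mv 848 (cons (fin 912 6 847)
(mv 1166 (cons (fin 1102 5 910)
(mv 1167 (cons (fin 1230 5 974)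
(mv 1168 (cons (fin 1104 4 911)
(fin 1232 4 975)))))))))))
(mv 910 (cons (fin 846 7 846)
(mv 912 (cons (fin 909 1 908)
(fin 848 6 847))))))
(cons (mv 848 (cons (fin 912 6 847)
(mv 1166 (cons (fin 1102 5 910)
(mv 1167 (cons (fin 1230 5 974)
(mv 1168 (cons (fin 1104 4 911)
(fin 1232 4 975)))))))))
(mv 846 (cons (fin 910 7 846)
(mv 1166 (cons (fin 1102 5 910)
(mv 1167 (cons (fin 1230 5 974)
(mv 1168 (cons (fin 1104 4 911)
(fin 1232 4 975)))))))))))))
(cons (mv 910 (cons (mv 846 (cons (fin 1103 7 846)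
(mv 782 (cons (fin 847 7 782)
(fin 718 4 718)))))
(mv 909 (cons (fin 912 1 908)
(mv 971 (cons (fin 908 1 907)
(fin 970 2 906)))))))
(mv 1104 (cons (fin 847 4 847)
(mv 1168 (cons (fin 1232 7 975)
(fin 1103 4 911))))))))))))
(cons (mv 1038 (cons (fin 972 3 972)
(mv 976 (cons (fin 977 2 973)
(mv 1104 (cons (fin 1105 0 1037)
(mv 1036 (cons (fin 1103 0 1036)
(mv 1099 (cons (fin 1100 1 1035)
(mv 1035 (cons (fin 1098 1 1034)
(mv 970 (cons (fin 971 3 970)
(mv 1034 (cons (fin 969 3 969)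
(fin 974 2 970)))))))))))))))))
(mv 1038 (cons (fin 972 3 972)
(mv 976 (cons (fin 977 2 973)
(mv 1036 (cons (fin 975 2 972)
(mv 1099 (cons (fin 1100 1 1035)
(mv 1035 (cons (fin 1098 1 1034)
(mv 970 (cons (fin 971 3 970)
(mv 1034 (cons (fin 969 3 969)
(fin 974 2 970)))))))))))))))))))
(mv 1038 (cons (cons (cons (mv 1039 (cons (fin 972 3 972)
(mv 976 (cons (fin 977 2 973)
(mv 1100 (cons (fin 1101 1 1036)
(mv 1104 (cons (fin 1105 0 1037)
(mv 912 (cons (mv 1103 (cons (fin 848 5 847)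
(fin 1167 5 911)))
(cons (mv 847 (cons (fin 911 7 847)
(mv 848 (cons (fin 783 7 783)
(mv 849 (cons (fin 785 6 784)
(fin 913 6 848)))))))
(mv 847 (cons (fin 911 7 847)
(mv 849 (cons (fin 913 6 848)
(mv 1167 (cons (fin 1103 5 911)
(mv 1168 (cons (fin 1231 5 975)
(mv 1232 (cons (fin 975 7 975)
(mv 1233 (cons (fin 1169 4 976)
(fin 1297 4 1040))))))))))))))))))))))))
(mv 1102 (cons (cons (mv 909 (cons (fin 845 4 845)
(mv 1166 (cons (fin 974 7 909)
(fin 1230 7 973)))))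
(mv 1166 (cons (fin 1230 7 973)
(mv 974 (cons (cons (mv 911 (cons (fin 975 6 910)
(mv 910 (cons (fin 847 6 846)
(mv 846 (cons (fin 782 5 781)
(fin 1101 5 845)))))))
(mv 1167 (cons (fin 1231 4 974)
(mv 910 (cons (fin 1103 4 910)
(mv 846 (cons (fin 782 5 781)
(fin 1101 5 845))))))))
(cons (mv 975 (cons (fin 911 6 910)
(mv 976 (cons (fin 977 1 973)
(mv 912 (cons (fin 913 2 909)
(mv 1167 (cons (fin 1231 4 974)
(mv 1104 (cons (fin 1103 5 911)
(mv 1169 (cons (fin 1105 4 912)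
(mv 1168 (cons (fin 1101 3 1101)
(fin 1233 4 976)))))))))))))))
(mv 911 (cons (fin 975 6 910)
(mv 910 (cons (fin 847 6 846)
(mv 1167 (cons (fin 1103 4 910)
(fin 1231 4 974)))))))))))))
(cons (mv 909 (cons (fin 845 4 845)
(mv 910 (cons (cons (mv 846 (cons (fin 1101 6 845)
(mv 782 (cons (fin 718 5 717)
(fin 974 5 781)))))
(mv 911 (cons (cons (mv 847 (cons (fin 974 6 846)
(mv 848 (cons (fin 908 2 844)
(mv 849 (cons (fin 850 1 846)
(fin 912 2 845)))))))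
(mv 912 (cons (fin 972 1 908)
(mv 848 (cons (fin 849 2 845)
(mv 847 (cons (fin 908 2 844)
(mv 976 (cons (fin 977 0 909)
(fin 783 7 783))))))))))
(cons (mv 847 (cons (fin 974 6 846)
(mv 908 (cons (fin 848 2 844)
(mv 844 (cons (fin 843 3 843)
(fin 1101 7 844)))))))
(cons (mv 912 (cons (fin 972 1 908)
(mv 848 (cons (fin 849 2 845)
(mv 913 (cons (fin 974 1 909)
(mv 977 (cons (fin 976 0 909)
(fin 978 0 910)))))))))
(mv 847 (cons (fin 974 6 846)
(mv 912 (cons (fin 972 1 908)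
(mv 976 (cons (fin 977 0 909)
(fin 1104 7 847))))))))))))
(cons (mv 911 (cons (cons (mv 847 (cons (fin 974 6 846)
(mv 848 (cons (fin 908 2 844)
(mv 849 (cons (fin 846 1 845)
(fin 850 1 846)))))))
(mv 912 (cons (fin 972 1 908)
(mv 848 (cons (fin 849 2 845)
(mv 847 (cons (fin 908 2 844)
(mv 976 (cons (fin 977 0 909)
(fin 783 7 783))))))))))
(cons (mv 912 (cons (fin 972 1 908)
(mv 848 (cons (fin 849 2 845)
(mv 913 (cons (fin 974 1 909)
(mv 977 (cons (fin 976 0 909)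
(fin 978 0 910)))))))))
(mv 847 (cons (fin 974 6 846)
(mv 912 (cons (fin 972 1 908)
(mv 976 (cons (fin 977 0 909)
(fin 1104 7 847))))))))))
(mv 1101 (cons (fin 846 6 845)
(mv 908 (cons (fin 844 7 844)
(mv 1100 (cons (fin 1164 5 908)
(mv 1099 (cons (fin 1098 2 1034)
(mv 1035 (cons (fin 1034 3 1034)
(mv 1163 (cons (fin 1162 1 1098)
(mv 971 (cons (fin 972 6 907)
(mv 970 (cons (fin 907 1 906)
(fin 906 7 906))))))))))))))))))))))
(mv 909 (cons (fin 845 4 845)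
(mv 1166 (cons (fin 1230 7 973)
(fin 1101 4 909)))))))))
(cons (mv 1039 (cons (cons (mv 976 (cons (fin 977 2 973)
(mv 1100 (cons (fin 1101 1 1036)
(mv 1104 (cons (fin 1105 0 1037)
(mv 912 (cons (mv 1103 (cons (fin 848 5 847)
(fin 1167 5 911)))
(cons (mv 847 (cons (fin 911 7 847)
(mv 848 (cons (fin 783 7 783)
(mv 849 (cons (fin 785 6 784)
(fin 913 6 848)))))))
(mv 847 (cons (fin 911 7 847)
(mv 849 (cons (fin 913 6 848)
(mv 1167 (cons (fin 1103 5 911)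
(mv 1168 (cons (fin 1231 5 975)
(mv 1232 (cons (fin 975 7 975)
(mv 1233 (cons (fin 1169 4 976)
(fin 1297 4 1040))))))))))))))))))))))
(cons (mv 976 (cons (fin 977 2 973)
(mv 1104 (cons (fin 1105 0 1037)
(mv 912 (cons (mv 1103 (cons (fin 848 5 847)
(fin 1167 5 911)))
(cons (mv 847 (cons (fin 911 7 847)
(mv 848 (cons (fin 783 7 783)
(mv 849 (cons (fin 785 6 784)
(fin 913 6 848)))))))
(mv 847 (cons (fin 911 7 847)
(mv 849 (cons (fin 913 6 848)
(mv 1167 (cons (fin 1103 5 911)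
(mv 1168 (cons (fin 1231 5 975)
(mv 1232 (cons (fin 975 7 975)
(mv 1233 (cons (fin 1169 4 976)
(fin 1297 4 1040))))))))))))))))))))
(mv 1101 (cons (fin 1100 1 1036)
(mv 1104 (cons (fin 1105 0 1037)
(mv 909 (cons (mv 1102 (cons (fin 845 4 845)
(fin 1166 4 909)))
(cons (mv 844 (cons (fin 908 7 844)
(mv 845 (cons (fin 780 7 780)
(mv 846 (cons (fin 782 6 781)
(fin 910 6 845)))))))
(mv 908 (cons (fin 844 7 844)
(mv 910 (cons (fin 846 6 845)
(mv 1102 (cons (fin 1166 4 909)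
(mv 907 (cons (mv 974 (cons (fin 906 0 906)
(fin 975 0 907)))
(cons (mv 842 (cons (fin 843 3 842)
(mv 906 (cons (fin 841 3 841)
(mv 970 (cons (fin 969 1 905)
(fin 971 1 906)))))))
(mv 842 (cons (fin 843 3 842)
(mv 970 (cons (fin 971 1 906)
(mv 975 (cons (fin 974 0 907)
(mv 911 (cons (fin 847 5 846)
(mv 1168 (cons (fin 1232 7 975)
(fin 1103 4 911)))))))))))))))))))))))))))))
(cons (mv 976 (cons (fin 977 2 973)
(mv 1101 (cons (fin 1100 1 1036)
(mv 909 (cons (mv 1102 (cons (fin 845 4 845)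
(fin 1166 4 909)))
(cons (mv 844 (cons (fin 908 7 844)
(mv 845 (cons (fin 780 7 780)
(mv 846 (cons (fin 782 6 781)
(fin 910 6 845)))))))
(mv 908 (cons (fin 844 7 844)
(mv 910 (cons (fin 846 6 845)
(mv 975 (cons (fin 974 3 908)
(fin 911 0 908))))))))))))))
(cons (mv 976 (cons (fin 977 2 973)
(mv 1100 (cons (fin 1101 1 1036)
(mv 1104 (cons (fin 1105 0 1037)
(mv 912 (cons (mv 1103 (cons (fin 848 5 847)
(fin 1167 5 911)))
(cons (mv 847 (cons (fin 911 7 847)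
(mv 848 (cons (fin 783 7 783)
(mv 849 (cons (fin 785 6 784)
(fin 913 6 848)))))))
(mv 911 (cons (fin 847 7 847)
(mv 913 (cons (fin 849 6 848)
(mv 910 (cons (fin 974 1 909)
(mv 845 (cons (fin 846 3 845)
(mv 909 (cons (fin 844 3 844)
(fin 1102 4 845))))))))))))))))))))
(mv 976 (cons (fin 977 2 973)
(mv 1100 (cons (fin 1101 1 1036)
(mv 1104 (cons (fin 1105 0 1037)
(mv 912 (cons (mv 1103 (cons (fin 848 5 847)
(fin 1167 5 911)))
(cons (mv 849 (cons (fin 913 6 848)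
(mv 848 (cons (fin 785 6 784)
(mv 783 (cons (fin 847 7 783)
(mv 784 (cons (fin 719 7 719)
(fin 975 5 783)))))))))
(mv 849 (cons (fin 913 6 848)
(mv 1167 (cons (fin 1103 5 911)
(mv 1168 (cons (fin 1231 5 975)
(mv 1232 (cons (fin 975 7 975)
(mv 1233 (cons (fin 1169 4 976)
(fin 1297 4 1040))))))))))))))))))))))))
(mv 1039 (cons (fin 972 3 972)
(mv 976 (cons (fin 977 2 973)
(mv 1104 (cons (fin 1105 0 1037)
(mv 912 (cons (mv 1103 (cons (fin 848 5 847)
(fin 1167 5 911)))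
(cons (mv 847 (cons (fin 911 7 847)
(mv 848 (cons (fin 783 7 783)
(mv 849 (cons (fin 785 6 784)
(fin 913 6 848)))))))
(mv 847 (cons (fin 911 7 847)
(mv 849 (cons (fin 913 6 848)
(mv 1167 (cons (fin 1103 5 911)
(mv 1168 (cons (fin 1231 5 975)
(mv 1232 (cons (fin 975 7 975)
(mv 1233 (cons (fin 1169 4 976)
(fin 1297 4 1040))))))))))))))))))))))))
(cons (cons (mv 1039 (cons (fin 972 3 972)
(mv 1101 (cons (fin 1100 1 1036)
(mv 1104 (cons (fin 1105 0 1037)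
(mv 909 (cons (mv 1102 (cons (fin 845 4 845)
(fin 1166 4 909)))
(cons (mv 844 (cons (fin 908 7 844)
(mv 845 (cons (fin 780 7 780)
(mv 846 (cons (fin 782 6 781)
(fin 910 6 845)))))))
(mv 908 (cons (fin 844 7 844)
(mv 910 (cons (fin 846 6 845)
(mv 1102 (cons (fin 1166 4 909)
(mv 907 (cons (mv 974 (cons (fin 906 0 906)
(fin 975 0 907)))
(cons (mv 842 (cons (fin 843 3 842)
(mv 906 (cons (fin 841 3 841)
(mv 970 (cons (fin 969 1 905)
(fin 971 1 906)))))))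
(mv 842 (cons (fin 843 3 842)
(mv 970 (cons (fin 971 1 906)
(mv 975 (cons (fin 974 0 907)
(mv 911 (cons (fin 847 5 846)
(mv 1168 (cons (fin 1232 7 975)
(fin 1103 4 911)))))))))))))))))))))))))))))
(mv 972 (cons (fin 1039 3 972)
(mv 970 (cons (fin 971 0 970)
(mv 909 (cons (cons (mv 845 (cons (fin 1102 4 845)
(mv 780 (cons (fin 844 7 780)
(mv 781 (cons (fin 716 7 716)
(fin 974 4 781)))))))
(mv 910 (cons (cons (mv 846 (cons (fin 1101 6 845)
(mv 782 (cons (fin 718 5 717)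
(fin 974 5 781)))))
(mv 911 (cons (fin 912 1 908)
(mv 908 (cons (mv 844 (cons (fin 843 3 843)
(fin 780 4 780)))
(mv 847 (cons (fin 848 2 844)
(mv 846 (cons (fin 907 2 843)
(mv 782 (cons (fin 718 5 717)
(fin 974 5 781))))))))))))
(cons (mv 911 (cons (fin 912 1 908)
(mv 908 (cons (mv 844 (cons (fin 843 3 843)
(fin 1101 7 844)))
(mv 847 (cons (fin 848 2 844)
(mv 974 (cons (fin 1102 6 846)
(mv 783 (cons (fin 719 5 718)
(fin 975 5 782)))))))))))
(mv 846 (cons (fin 1101 6 845)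
(mv 718 (cons (fin 782 5 717)
(mv 911 (cons (fin 912 1 908)
(mv 908 (cons (mv 844 (cons (fin 843 3 843)
(fin 780 4 780)))
(mv 847 (cons (fin 907 2 843)
(fin 848 2 844)))))))))))))))
(cons (mv 845 (cons (mv 780 (cons (fin 844 7 780)
(mv 781 (cons (fin 716 7 716)
(fin 974 4 781)))))
(cons (mv 844 (cons (fin 780 7 780)
(mv 846 (cons (fin 782 6 781)
(mv 1101 (cons (fin 908 7 844)
(fin 910 6 845)))))))
(mv 781 (cons (fin 974 4 781)
(mv 782 (cons (fin 718 6 717)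
(fin 846 6 781))))))))
(cons (mv 845 (cons (fin 1102 4 845)
(mv 781 (cons (fin 974 4 781)
(mv 782 (cons (fin 718 6 717)
(fin 846 6 781)))))))
(mv 845 (cons (fin 1102 4 845)
(mv 780 (cons (fin 844 7 780)
(mv 781 (cons (fin 716 7 716)
(mv 782 (cons (fin 718 6 717)
(fin 846 6 781))))))))))))))))))
(cons (mv 1039 (cons (fin 972 3 972)
(mv 976 (cons (fin 977 2 973)
(mv 1100 (cons (fin 1101 1 1036)
(mv 1104 (cons (fin 1105 0 1037)
(mv 912 (cons (mv 1103 (cons (fin 848 5 847)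
(fin 1167 5 911)))
(cons (mv 847 (cons (fin 911 7 847)
(mv 848 (cons (fin 783 7 783)
(mv 849 (cons (fin 785 6 784)
(fin 913 6 848)))))))
(mv 911 (cons (fin 847 7 847)
(mv 913 (cons (fin 849 6 848)
(mv 910 (cons (fin 974 1 909)
(mv 845 (cons (fin 846 3 845)
(mv 909 (cons (fin 844 3 844)
(fin 1102 4 845))))))))))))))))))))))
(cons (mv 1039 (cons (fin 972 3 972)
(mv 976 (cons (fin 977 2 973)
(mv 1100 (cons (fin 1101 1 1036)
(mv 1104 (cons (fin 1105 0 1037)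
(mv 912 (cons (mv 1103 (cons (fin 848 5 847)
(fin 1167 5 911)))
(cons (mv 849 (cons (fin 913 6 848)
(mv 848 (cons (fin 785 6 784)
(mv 783 (cons (fin 847 7 783)
(mv 784 (cons (fin 719 7 719)
(fin 975 5 783)))))))))
(mv 849 (cons (fin 913 6 848)
(mv 1167 (cons (fin 1103 5 911)
(mv 1168 (cons (fin 1231 5 975)
(mv 1232 (cons (fin 975 7 975)
(mv 1233 (cons (fin 1169 4 976)
(fin 1297 4 1040))))))))))))))))))))))
(mv 972 (cons (fin 1039 3 972)
(mv 971 (cons (fin 970 0 970)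
(mv 974 (cons (cons (mv 906 (cons (fin 907 3 906)
(mv 910 (cons (fin 911 2 907)
(mv 846 (cons (fin 782 5 781)
(fin 1101 5 845)))))))
(mv 907 (cons (fin 906 3 906)
(mv 908 (cons (fin 975 3 907)
(mv 780 (cons (fin 844 4 780)
(mv 1035 (cons (fin 1034 1 970)
(mv 1099 (cons (fin 1163 6 907)
(mv 1098 (cons (fin 1162 5 906)
(mv 1100 (cons (fin 1101 2 1034)
(fin 1164 4 907))))))))))))))))
(cons (mv 910 (cons (fin 911 2 907)
(mv 846 (cons (fin 782 5 781)
(fin 1101 5 845)))))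
(mv 906 (cons (fin 907 3 906)
(mv 910 (cons (fin 911 2 907)
(mv 846 (cons (fin 782 5 781)
(mv 845 (cons (fin 781 7 781)
(mv 1034 (cons (fin 1035 1 970)
(mv 1102 (cons (fin 909 7 845)
(mv 1166 (cons (fin 1230 7 973)
(mv 1167 (cons (fin 1103 4 910)
(fin 1231 4 974))))))))))))))))))))))))))))))
(cons (mv 1038 (cons (cons (mv 1039 (cons (fin 972 3 972)
(mv 976 (cons (fin 977 2 973)
(mv 975 (cons (fin 1036 2 972)
(mv 1100 (cons (fin 1101 1 1036)
(mv 1104 (cons (fin 1105 0 1037)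
(mv 911 (cons (fin 1168 7 911)
(fin 847 4 847)))))))))))))
(cons (mv 909 (cons (cons (mv 845 (cons (fin 1102 4 845)
(mv 780 (cons (fin 844 7 780)
(mv 716 (cons (fin 781 7 716)
(mv 846 (cons (fin 782 6 781)
(mv 1100 (cons (fin 1036 5 844)
(mv 1101 (cons (fin 1164 5 908)
(fin 910 6 845)))))))))))))
(cons (mv 1101 (cons (cons (cons (mv 844 (cons (fin 908 7 844)
(mv 846 (cons (fin 910 6 845)
(mv 1100 (cons (fin 1164 5 908)
(mv 1099 (cons (fin 1098 2 1034)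
(mv 1102 (cons (fin 1166 4 909)
(mv 1035 (cons (fin 1034 3 1034)
(mv 1036 (cons (fin 1103 3 1035)
(mv 970 (cons (fin 971 3 970)
(mv 1163 (cons (fin 1162 1 1098)
(mv 1227 (cons (fin 972 6 971)
(fin 1291 6 1035)))))))))))))))))))))
(mv 908 (cons (fin 844 7 844)
(mv 910 (cons (fin 846 6 845)
(mv 1100 (cons (fin 1164 5 908)
(mv 1098 (cons (fin 1099 2 1034)
(mv 971 (cons (mv 970 (cons (fin 907 1 906)
(fin 972 2 906)))
(cons (mv 911 (cons (fin 972 1 907)
(mv 847 (cons (fin 848 2 844)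
(mv 976 (cons (fin 975 0 908)
(mv 912 (cons (fin 977 0 909)
(fin 1104 7 847)))))))))
(mv 907 (cons (fin 970 1 906)
(mv 843 (cons (fin 842 3 842)
(mv 1035 (cons (fin 1034 5 842)
(fin 1036 4 843)))))))))))))))))))
(cons (mv 908 (cons (fin 844 7 844)
(mv 910 (cons (fin 846 6 845)
(mv 1102 (cons (fin 1166 4 909)
(mv 911 (cons (mv 972 (cons (fin 971 1 907)
(fin 912 1 908)))
(cons (mv 847 (cons (fin 848 2 844)
(mv 976 (cons (fin 975 0 908)
(mv 912 (cons (fin 977 0 909)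
(fin 1104 7 847)))))))
(mv 847 (cons (fin 848 2 844)
(mv 971 (cons (fin 972 1 907)
(mv 907 (cons (fin 970 1 906)
(mv 842 (cons (fin 843 3 842)
(mv 906 (cons (fin 841 3 841)
(mv 714 (cons (fin 778 4 714)
(mv 975 (cons (fin 976 0 908)
(mv 1035 (cons (fin 1099 7 842)
(mv 1036 (cons (fin 1034 0 1034)
(fin 1103 0 1035))))))))))))))))))))))))))))
(mv 846 (cons (fin 910 6 845)
(mv 1100 (cons (fin 1164 5 908)
(mv 1099 (cons (fin 1098 2 1034)
(mv 1102 (cons (fin 1166 4 909)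
(mv 1035 (cons (fin 1034 3 1034)
(mv 1036 (cons (fin 1103 3 1035)
(mv 970 (cons (fin 971 3 970)
(mv 1163 (cons (fin 1162 1 1098)
(mv 1227 (cons (fin 972 6 971)
(fin 1291 6 1035)))))))))))))))))))))
(cons (cons (mv 844 (cons (fin 908 7 844)
(mv 1100 (cons (fin 1164 5 908)
(mv 1099 (cons (fin 1098 2 1034)
(mv 1102 (cons (fin 1166 4 909)
(mv 1035 (cons (fin 1034 3 1034)
(mv 1036 (cons (fin 1103 3 1035)
(mv 970 (cons (fin 971 3 970)
(mv 1163 (cons (fin 1162 1 1098)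
(mv 1227 (cons (fin 972 6 971)
(fin 1291 6 1035)))))))))))))))))))
(mv 844 (cons (fin 908 7 844)
(mv 846 (cons (fin 910 6 845)
(mv 1100 (cons (fin 1164 5 908)
(mv 1099 (cons (fin 1098 2 1034)
(mv 1102 (cons (fin 1166 4 909)
(mv 1035 (cons (fin 1034 3 1034)
(mv 1103 (cons (fin 1036 3 1035)
(mv 1104 (cons (fin 1105 3 1037)
(mv 1168 (cons (fin 1167 0 1100)
(fin 1169 0 1101))))))))))))))))))))
(cons (mv 908 (cons (fin 844 7 844)
(mv 910 (cons (fin 846 6 845)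
(mv 1100 (cons (fin 1164 5 908)
(mv 1102 (cons (fin 1166 4 909)
(mv 907 (cons (cons (mv 842 (cons (fin 843 3 842)
(mv 841 (cons (fin 906 3 841)
(mv 971 (cons (fin 970 1 906)
(mv 911 (cons (fin 972 1 907)
(mv 847 (cons (fin 848 2 844)
(mv 976 (cons (fin 975 0 908)
(mv 912 (cons (fin 977 0 909)
(fin 1104 7 847)))))))))))))))
(cons (mv 842 (cons (fin 843 3 842)
(mv 906 (cons (fin 841 3 841)
(mv 905 (cons (fin 972 0 905)
(mv 969 (cons (fin 968 1 904)
(fin 970 1 905)))))))))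
(mv 842 (cons (fin 843 3 842)
(mv 906 (cons (fin 841 3 841)
(mv 972 (cons (fin 905 0 905)
(mv 911 (cons (fin 971 1 907)
(fin 912 1 908)))))))))))
(cons (cons (mv 970 (cons (fin 971 1 906)
(mv 906 (cons (fin 969 1 905)
(mv 841 (cons (fin 842 3 841)
(mv 905 (cons (fin 840 3 840)
(fin 972 0 905)))))))))
(mv 970 (cons (fin 971 1 906)
(mv 906 (cons (fin 969 1 905)
(mv 972 (cons (fin 905 0 905)
(mv 911 (cons (fin 912 1 908)
(mv 847 (cons (fin 848 2 844)
(mv 975 (cons (fin 976 0 908)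
(mv 1036 (cons (fin 843 7 843)
(mv 1035 (cons (fin 1103 3 1035)
(fin 1034 0 1034))))))))))))))))))
(cons (mv 842 (cons (fin 843 3 842)
(mv 906 (cons (fin 841 3 841)
(mv 970 (cons (fin 969 1 905)
(fin 971 1 906)))))))
(mv 842 (cons (fin 843 3 842)
(mv 971 (cons (fin 970 1 906)
(mv 911 (cons (fin 972 1 907)
(mv 847 (cons (fin 848 2 844)
(mv 976 (cons (fin 975 0 908)
(mv 912 (cons (fin 977 0 909)
(fin 1104 7 847)))))))))))))))))))))))))
(cons (mv 908 (cons (fin 844 7 844)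
(mv 910 (cons (fin 846 6 845)
(mv 1100 (cons (fin 1164 5 908)
(mv 1099 (cons (fin 1098 2 1034)
(mv 1102 (cons (fin 1166 4 909)
(mv 1035 (cons (fin 1034 3 1034)
(mv 1163 (cons (fin 1162 1 1098)
(mv 971 (cons (fin 972 6 907)
(mv 970 (cons (fin 907 1 906)
(fin 906 7 906)))))))))))))))))))
(mv 908 (cons (fin 844 7 844)
(mv 910 (cons (fin 846 6 845)
(mv 1100 (cons (fin 1164 5 908)
(mv 1099 (cons (fin 1098 2 1034)
(mv 1102 (cons (fin 1166 4 909)
(mv 1163 (cons (fin 1162 1 1098)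
(mv 972 (cons (fin 1036 5 907)
(mv 911 (cons (fin 971 1 907)
(fin 912 1 908))))))))))))))))))))))
(mv 845 (cons (cons (mv 780 (cons (fin 844 7 780)
(mv 716 (cons (fin 781 7 716)
(mv 846 (cons (fin 782 6 781)
(mv 1100 (cons (fin 1036 5 844)
(mv 1101 (cons (fin 1164 5 908)
(fin 910 6 845)))))))))))
(mv 782 (cons (fin 846 6 781)
(mv 781 (cons (fin 718 6 717)
(mv 1036 (cons (fin 972 5 780)
(fin 1100 5 844))))))))
(cons (mv 780 (cons (fin 844 7 780)
(mv 781 (cons (fin 716 7 716)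
(mv 782 (cons (fin 718 6 717)
(fin 846 6 781)))))))
(cons (mv 780 (cons (fin 844 7 780)
(mv 781 (cons (fin 716 7 716)
(mv 1036 (cons (fin 972 5 780)
(fin 1100 5 844)))))))
(mv 780 (cons (fin 844 7 780)
(mv 846 (cons (fin 782 6 781)
(mv 1100 (cons (fin 1036 5 844)
(mv 1101 (cons (fin 1164 5 908)
(fin 910 6 845)))))))))))))))
(cons (mv 845 (cons (fin 1102 4 845)
(mv 780 (cons (fin 844 7 780)
(mv 781 (cons (fin 716 7 716)
(mv 782 (cons (fin 718 6 717)
(fin 846 6 781)))))))))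
(cons (mv 845 (cons (fin 1102 4 845)
(mv 782 (cons (fin 846 6 781)
(mv 781 (cons (fin 718 6 717)
(mv 1036 (cons (fin 972 5 780)
(fin 1100 5 844)))))))))
(mv 845 (cons (fin 1102 4 845)
(mv 780 (cons (fin 844 7 780)
(mv 781 (cons (fin 716 7 716)
(mv 1036 (cons (fin 972 5 780)
(fin 1100 5 844)))))))))))))
(mv 1039 (cons (cons (mv 976 (cons (fin 977 2 973)
(mv 975 (cons (fin 1036 2 972)
(mv 1100 (cons (fin 1101 1 1036)
(mv 1104 (cons (fin 1105 0 1037)
(mv 911 (cons (fin 1168 7 911)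
(fin 847 4 847)))))))))))
(mv 976 (cons (fin 977 2 973)
(mv 975 (cons (fin 1036 2 972)
(mv 1104 (cons (fin 1105 0 1037)
(mv 911 (cons (fin 1168 7 911)
(fin 847 4 847))))))))))
(cons (mv 976 (cons (fin 977 2 973)
(mv 1036 (cons (fin 975 2 972)
(mv 1100 (cons (fin 1099 1 1035)
(fin 1101 1 1036)))))))
(cons (mv 1100 (cons (fin 1101 1 1036)
(mv 1036 (cons (fin 1099 1 1035)
(mv 1104 (cons (fin 1103 0 1036)
(fin 1105 0 1037)))))))
(mv 976 (cons (fin 977 2 973)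
(mv 1100 (cons (fin 1101 1 1036)
(mv 1104 (cons (fin 1105 0 1037)
(mv 912 (cons (mv 1103 (cons (fin 848 5 847)
(fin 1167 5 911)))
(cons (mv 847 (cons (fin 911 7 847)
(mv 848 (cons (fin 783 7 783)
(mv 849 (cons (fin 785 6 784)
(fin 913 6 848)))))))
(mv 847 (cons (fin 911 7 847)
(mv 849 (cons (fin 913 6 848)
(mv 1167 (cons (fin 1103 5 911)
(mv 1168 (cons (fin 1231 5 975)
(mv 1232 (cons (fin 975 7 975)
(mv 1233 (cons (fin 1169 4 976)
(fin 1297 4 1040))))))))))))))))))))))))))))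
(cons (cons (mv 1039 (cons (fin 972 3 972)
(mv 976 (cons (fin 977 2 973)
(mv 975 (cons (fin 1036 2 972)
(mv 1104 (cons (fin 1105 0 1037)
(mv 911 (cons (fin 1168 7 911)
(fin 847 4 847)))))))))))
(mv 1039 (cons (fin 972 3 972)
(mv 976 (cons (fin 977 2 973)
(mv 1036 (cons (fin 975 2 972)
(mv 1100 (cons (fin 1099 1 1035)
(fin 1101 1 1036))))))))))
(cons (mv 1039 (cons (fin 972 3 972)
(mv 1100 (cons (fin 1101 1 1036)
(mv 1036 (cons (fin 1099 1 1035)
(mv 1104 (cons (fin 1103 0 1036)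
(fin 1105 0 1037)))))))))
(mv 1039 (cons (fin 972 3 972)
(mv 976 (cons (fin 977 2 973)
(mv 1100 (cons (fin 1101 1 1036)
(mv 1104 (cons (fin 1105 0 1037)
(mv 912 (cons (mv 1103 (cons (fin 848 5 847)
(fin 1167 5 911)))
(cons (mv 847 (cons (fin 911 7 847)
(mv 848 (cons (fin 783 7 783)
(mv 849 (cons (fin 785 6 784)
(fin 913 6 848)))))))
(mv 847 (cons (fin 911 7 847)
(mv 849 (cons (fin 913 6 848)
(mv 1167 (cons (fin 1103 5 911)
(mv 1168 (cons (fin 1231 5 975)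
(mv 1232 (cons (fin 975 7 975)
(mv 1233 (cons (fin 1169 4 976)
(fin 1297 4 1040))))))))))))))))))))))))))))
(cons (mv 1038 (cons (cons (mv 1039 (cons (fin 972 3 972)
(mv 976 (cons (fin 977 2 973)
(mv 975 (cons (fin 1036 2 972)
(mv 1104 (cons (fin 1105 0 1037)
(mv 911 (cons (fin 1168 7 911)
(fin 847 4 847)))))))))))
(cons (mv 1102 (cons (cons (mv 909 (cons (fin 845 4 845)
(mv 1166 (cons (fin 974 7 909)
(fin 1230 7 973)))))
(mv 1166 (cons (fin 1230 7 973)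
(mv 974 (cons (mv 911 (cons (fin 975 6 910)
(mv 910 (cons (fin 847 6 846)
(mv 846 (cons (fin 782 5 781)
(fin 1101 5 845)))))))
(cons (mv 1167 (cons (fin 1231 4 974)
(mv 910 (cons (fin 1103 4 910)
(mv 846 (cons (fin 782 5 781)
(fin 1101 5 845)))))))
(mv 975 (cons (fin 911 6 910)
(mv 976 (cons (fin 1036 1 972)
(fin 977 1 973)))))))))))
(cons (mv 909 (cons (fin 845 4 845)
(mv 910 (cons (cons (mv 846 (cons (fin 1101 6 845)
(mv 782 (cons (fin 718 5 717)
(fin 974 5 781)))))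
(mv 1103 (cons (mv 974 (cons (fin 1167 4 910)
(mv 847 (cons (fin 911 6 846)
(mv 1036 (cons (fin 1035 0 1035)
(mv 1104 (cons (fin 1101 3 1036)
(fin 1105 3 1037)))))))))
(cons (mv 1036 (cons (fin 1035 0 1035)
(mv 1104 (cons (fin 1101 3 1036)
(fin 1105 3 1037)))))
(mv 974 (cons (fin 1167 4 910)
(mv 911 (cons (fin 847 6 846)
(mv 912 (cons (fin 972 1 908)
(fin 913 1 909)))))))))))
(cons (mv 911 (cons (cons (mv 847 (cons (fin 974 6 846)
(mv 848 (cons (fin 908 2 844)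
(mv 849 (cons (fin 846 1 845)
(fin 850 1 846)))))))
(mv 912 (cons (fin 972 1 908)
(mv 848 (cons (fin 849 2 845)
(mv 847 (cons (fin 908 2 844)
(mv 976 (cons (fin 977 0 909)
(fin 783 7 783))))))))))
(cons (mv 912 (cons (fin 972 1 908)
(mv 848 (cons (fin 849 2 845)
(mv 913 (cons (fin 974 1 909)
(mv 977 (cons (fin 976 0 909)
(fin 978 0 910)))))))))
(mv 847 (cons (fin 974 6 846)
(mv 912 (cons (fin 972 1 908)
(mv 976 (cons (fin 977 0 909)
(fin 1104 7 847))))))))))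
(mv 1101 (cons (fin 846 6 845)
(mv 908 (cons (fin 844 7 844)
(mv 911 (cons (mv 972 (cons (fin 971 1 907)
(fin 912 1 908)))
(cons (mv 847 (cons (fin 848 2 844)
(mv 976 (cons (fin 975 0 908)
(mv 912 (cons (fin 977 0 909)
(fin 1104 7 847)))))))
(mv 847 (cons (fin 848 2 844)
(mv 971 (cons (fin 972 1 907)
(mv 907 (cons (fin 970 1 906)
(mv 842 (cons (fin 843 3 842)
(mv 906 (cons (fin 841 3 841)
(mv 714 (cons (fin 778 4 714)
(mv 975 (cons (fin 976 0 908)
(mv 1035 (cons (fin 1099 7 842)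
(mv 1036 (cons (fin 1034 0 1034)
(fin 1103 0 1035)))))))))))))))))))))))))))))))
(mv 909 (cons (fin 845 4 845)
(mv 1166 (cons (fin 1230 7 973)
(fin 1101 4 909))))))))
(mv 1102 (cons (cons (mv 909 (cons (fin 845 4 845)
(mv 1166 (cons (fin 974 7 909)
(fin 1230 7 973)))))
(mv 1166 (cons (fin 1230 7 973)
(mv 974 (cons (mv 911 (cons (fin 975 6 910)
(mv 910 (cons (fin 847 6 846)
(mv 846 (cons (fin 782 5 781)
(fin 1101 5 845)))))))
(cons (mv 1167 (cons (fin 1231 4 974)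
(mv 910 (cons (fin 1103 4 910)
(mv 846 (cons (fin 782 5 781)
(fin 1101 5 845)))))))
(mv 975 (cons (fin 911 6 910)
(mv 976 (cons (fin 1036 1 972)
(fin 977 1 973)))))))))))
(cons (mv 845 (cons (fin 909 4 845)
(mv 1039 (cons (cons (mv 976 (cons (fin 977 2 973)
(mv 975 (cons (fin 1036 2 972)
(mv 847 (cons (fin 911 5 846)
(mv 1104 (cons (fin 1105 0 1037)
(mv 1168 (cons (fin 1232 7 975)
(mv 1167 (cons (fin 1231 5 975)
(mv 912 (cons (fin 1103 5 911)
(mv 848 (cons (fin 783 7 783)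
(fin 784 5 783)))))))))))))))))
(cons (mv 976 (cons (fin 977 2 973)
(mv 1036 (cons (fin 975 2 972)
(mv 1035 (cons (fin 1103 0 1035)
(mv 1034 (cons (fin 974 2 970)
(fin 1101 0 1034)))))))))
(mv 1104 (cons (fin 1105 0 1037)
(mv 1103 (cons (fin 1036 0 1036)
(mv 1168 (cons (mv 975 (cons (fin 1232 7 975)
(fin 911 4 911)))
(cons (mv 911 (cons (fin 975 4 911)
(mv 1169 (cons (fin 1101 0 1101)
(mv 1170 (cons (fin 1167 3 1102)
(fin 1171 3 1103)))))))
(mv 1169 (cons (fin 1101 0 1101)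
(mv 1170 (cons (fin 1167 3 1102)
(fin 1171 3 1103))))))))))))))
(cons (mv 976 (cons (fin 977 2 973)
(mv 975 (cons (fin 1036 2 972)
(mv 911 (cons (fin 847 5 846)
(mv 1104 (cons (fin 1105 0 1037)
(fin 1168 7 911)))))))))
(cons (mv 976 (cons (fin 977 2 973)
(mv 1104 (cons (fin 1105 0 1037)
(mv 912 (cons (mv 1103 (cons (fin 848 5 847)
(fin 1167 5 911)))
(cons (mv 847 (cons (fin 911 7 847)
(mv 783 (cons (fin 848 7 783)
(mv 913 (cons (fin 849 6 848)
(mv 974 (cons (fin 975 2 909)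
(mv 846 (cons (fin 910 6 782)
(mv 784 (cons (fin 844 2 780)
(mv 785 (cons (fin 782 1 781)
(fin 786 1 782)))))))))))))))
(mv 847 (cons (fin 911 7 847)
(mv 849 (cons (fin 913 6 848)
(mv 1167 (cons (fin 1103 5 911)
(mv 1168 (cons (fin 1231 5 975)
(mv 1232 (cons (fin 975 7 975)
(mv 1233 (cons (fin 1169 4 976)
(fin 1297 4 1040))))))))))))))))))))
(mv 976 (cons (fin 977 2 973)
(mv 1104 (cons (fin 1105 0 1037)
(mv 1103 (cons (fin 1036 0 1036)
(mv 912 (cons (fin 848 5 847)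
(fin 1167 5 911)))))))))))))))
(mv 909 (cons (fin 845 4 845)
(mv 1166 (cons (fin 1230 7 973)
(fin 1101 4 909))))))))))
(cons (mv 972 (cons (fin 1039 3 972)
(mv 970 (cons (fin 971 0 970)
(mv 1102 (cons (cons (mv 909 (cons (fin 845 4 845)
(mv 1166 (cons (fin 974 7 909)
(fin 1230 7 973)))))
(mv 1166 (cons (fin 1230 7 973)
(mv 974 (cons (cons (mv 911 (cons (fin 975 6 910)
(mv 910 (cons (fin 847 6 846)
(mv 846 (cons (fin 782 5 781)
(fin 1101 5 845)))))))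
(mv 1167 (cons (fin 1231 4 974)
(mv 910 (cons (fin 1103 4 910)
(mv 846 (cons (fin 782 5 781)
(fin 1101 5 845))))))))
(cons (mv 975 (cons (fin 911 6 910)
(mv 908 (cons (fin 907 3 907)
(mv 844 (cons (fin 780 4 780)
(mv 1036 (cons (fin 1035 1 971)
(fin 1101 4 844)))))))))
(mv 911 (cons (fin 975 6 910)
(mv 910 (cons (fin 847 6 846)
(mv 1167 (cons (fin 1103 4 910)
(fin 1231 4 974)))))))))))))
(cons (mv 909 (cons (fin 845 4 845)
(mv 908 (cons (mv 844 (cons (fin 1101 7 844)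
(fin 780 4 780)))
(cons (mv 910 (cons (mv 846 (cons (fin 1101 6 845)
(mv 782 (cons (fin 718 5 717)
(fin 974 5 781)))))
(cons (mv 911 (cons (fin 912 1 908)
(mv 847 (cons (fin 848 2 844)
(fin 974 6 846)))))
(mv 846 (cons (fin 1101 6 845)
(mv 718 (cons (fin 782 5 717)
(mv 847 (cons (fin 907 2 843)
(mv 848 (cons (fin 849 1 845)
(fin 911 2 844))))))))))))
(mv 844 (cons (fin 780 4 780)
(mv 1036 (cons (mv 1035 (cons (fin 1103 0 1035)
(fin 1099 5 843)))
(mv 843 (cons (fin 779 7 779)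
(mv 842 (cons (fin 841 0 841)
(mv 910 (cons (fin 907 3 842)
(fin 911 3 843))))))))))))))))
(mv 909 (cons (fin 845 4 845)
(mv 1166 (cons (fin 1230 7 973)
(fin 1101 4 909))))))))))))
(cons (mv 972 (cons (fin 1039 3 972)
(mv 970 (cons (fin 971 0 970)
(mv 1102 (cons (cons (mv 909 (cons (fin 845 4 845)
(mv 1166 (cons (fin 974 7 909)
(fin 1230 7 973)))))
(mv 1166 (cons (fin 1230 7 973)
(mv 974 (cons (cons (mv 911 (cons (fin 975 6 910)
(mv 910 (cons (fin 847 6 846)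
(mv 846 (cons (fin 782 5 781)
(fin 1101 5 845)))))))
(mv 1167 (cons (fin 1231 4 974)
(mv 910 (cons (fin 1103 4 910)
(mv 846 (cons (fin 782 5 781)
(fin 1101 5 845))))))))
(cons (mv 975 (cons (fin 911 6 910)
(mv 907 (cons (fin 908 3 907)
(mv 976 (cons (fin 977 1 973)
(mv 912 (cons (fin 913 2 909)
(mv 1167 (cons (fin 1231 4 974)
(mv 1104 (cons (fin 1103 5 911)
(mv 1169 (cons (fin 1105 4 912)
(mv 1168 (cons (fin 1101 3 1101)
(fin 1233 4 976)))))))))))))))))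
(mv 911 (cons (fin 975 6 910)
(mv 910 (cons (fin 847 6 846)
(mv 1167 (cons (fin 1103 4 910)
(fin 1231 4 974)))))))))))))
(cons (mv 909 (cons (fin 845 4 845)
(mv 910 (cons (cons (mv 846 (cons (fin 1101 6 845)
(mv 782 (cons (fin 718 5 717)
(fin 974 5 781)))))
(mv 911 (cons (fin 912 1 908)
(mv 847 (cons (fin 974 6 846)
(mv 908 (cons (fin 848 2 844)
(mv 844 (cons (fin 843 3 843)
(fin 1101 7 844))))))))))
(cons (mv 911 (cons (fin 912 1 908)
(mv 847 (cons (fin 974 6 846)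
(mv 848 (cons (fin 908 2 844)
(mv 849 (cons (fin 846 1 845)
(fin 850 1 846)))))))))
(mv 846 (cons (fin 1101 6 845)
(mv 718 (cons (fin 782 5 717)
(mv 911 (cons (fin 912 1 908)
(mv 908 (cons (mv 844 (cons (fin 843 3 843)
(fin 780 4 780)))
(mv 847 (cons (fin 907 2 843)
(fin 848 2 844))))))))))))))))
(mv 909 (cons (fin 845 4 845)
(mv 1166 (cons (fin 1230 7 973)
(fin 1101 4 909))))))))))))
(mv 1039 (cons (fin 972 3 972)
(mv 976 (cons (fin 977 2 973)
(mv 1104 (cons (fin 1105 0 1037)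
(mv 1103 (cons (fin 1036 0 1036)
(mv 912 (cons (fin 848 5 847)
(fin 1167 5 911)))))))))))))))
(mv 1039 (cons (cons (mv 1038 (cons (fin 972 3 972)
(mv 976 (cons (fin 977 2 973)
(mv 975 (cons (fin 1036 2 972)
(mv 1100 (cons (fin 1101 1 1036)
(mv 1104 (cons (fin 1105 0 1037)
(mv 911 (cons (fin 1168 7 911)
(fin 847 4 847)))))))))))))
(cons (mv 975 (cons (cons (mv 974 (cons (fin 972 0 972)
(mv 976 (cons (fin 1036 1 972)
(mv 908 (cons (fin 909 3 908)
(mv 912 (cons (fin 913 2 909)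
(mv 848 (cons (fin 784 5 783)
(fin 1103 5 847)))))))))))
(cons (mv 911 (cons (cons (mv 847 (cons (fin 1104 4 847)
(mv 782 (cons (fin 846 7 782)
(mv 783 (cons (fin 718 7 718)
(fin 976 4 783)))))))
(mv 1103 (cons (cons (mv 846 (cons (fin 910 7 846)
(mv 848 (cons (fin 912 6 847)
(mv 1168 (cons (fin 1104 4 911)
(mv 1167 (cons (fin 1232 4 975)
(mv 1230 (cons (fin 1166 5 974)
(mv 1231 (cons (fin 1294 5 1038)
(fin 976 6 975)))))))))))))
(cons (mv 846 (cons (fin 910 7 846)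
(mv 912 (cons (fin 848 6 847)
(mv 1167 (cons (fin 976 6 911)
(mv 1230 (cons (fin 1166 5 974)
(mv 1231 (cons (fin 1294 5 1038)
(mv 1295 (cons (fin 1104 6 1039)
(mv 1296 (cons (fin 1232 4 1039)
(fin 1360 4 1103)))))))))))))))
(mv 846 (cons (fin 910 7 846)
(mv 1168 (cons (fin 1104 4 911)
(mv 1167 (cons (fin 1232 4 975)
(mv 1230 (cons (fin 1166 5 974)
(mv 1231 (cons (fin 1294 5 1038)
(fin 976 6 975)))))))))))))
(cons (mv 846 (cons (fin 910 7 846)
(mv 912 (cons (fin 848 6 847)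
(mv 1167 (cons (fin 976 6 911)
(mv 1230 (cons (fin 1166 5 974)
(mv 1231 (cons (fin 1294 5 1038)
(mv 1232 (cons (fin 1168 4 975)
(fin 1296 4 1039)))))))))))))
(cons (mv 848 (cons (fin 912 6 847)
(mv 1168 (cons (fin 1104 4 911)
(mv 1167 (cons (fin 1232 4 975)
(mv 1230 (cons (fin 1166 5 974)
(mv 1231 (cons (fin 1294 5 1038)
(fin 976 6 975)))))))))))
(mv 910 (cons (fin 846 7 846)
(mv 912 (cons (fin 848 6 847)
(mv 909 (cons (fin 972 1 908)
(mv 844 (cons (fin 845 3 844)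
(mv 908 (cons (fin 843 3 843)
(fin 1101 7 844))))))))))))))))
(cons (mv 847 (cons (cons (mv 782 (cons (fin 846 7 782)
(mv 783 (cons (fin 718 7 718)
(fin 976 4 783)))))
(mv 784 (cons (fin 848 6 783)
(mv 846 (cons (fin 782 7 782)
(mv 910 (cons (fin 1103 7 846)
(mv 909 (cons (fin 1101 6 845)
(mv 908 (cons (fin 907 2 843)
(fin 976 0 908))))))))))))
(cons (mv 783 (cons (fin 976 4 783)
(mv 784 (cons (fin 720 6 719)
(fin 848 6 783)))))
(mv 782 (cons (fin 846 7 782)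
(mv 783 (cons (fin 718 7 718)
(mv 784 (cons (fin 720 6 719)
(fin 848 6 783))))))))))
(cons (mv 847 (cons (fin 1104 4 847)
(mv 782 (cons (fin 846 7 782)
(mv 783 (cons (fin 718 7 718)
(mv 784 (cons (fin 720 6 719)
(fin 848 6 783)))))))))
(mv 847 (cons (fin 1104 4 847)
(mv 783 (cons (fin 976 4 783)
(mv 784 (cons (fin 720 6 719)
(fin 848 6 783)))))))))))
(mv 1104 (cons (cons (mv 911 (cons (fin 847 4 847)
(mv 1168 (cons (fin 976 7 911)
(fin 1232 7 975)))))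
(mv 911 (cons (fin 847 4 847)
(mv 1103 (cons (cons (mv 846 (cons (fin 910 7 846)
(mv 912 (cons (fin 848 6 847)
(mv 976 (cons (fin 1167 5 911)
(mv 913 (cons (fin 974 2 909)
(fin 849 6 848)))))))))
(cons (mv 910 (cons (fin 846 7 846)
(mv 974 (cons (fin 1167 7 910)
(mv 976 (cons (fin 1036 1 972)
(mv 909 (cons (fin 908 3 908)
(fin 977 3 909)))))))))
(mv 912 (cons (fin 848 6 847)
(mv 976 (cons (fin 1167 5 911)
(mv 913 (cons (fin 974 2 909)
(fin 849 6 848)))))))))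
(cons (mv 910 (cons (fin 846 7 846)
(mv 912 (cons (fin 848 6 847)
(mv 913 (cons (fin 974 1 909)
(mv 849 (cons (fin 850 2 846)
(fin 976 6 848)))))))))
(cons (mv 848 (cons (fin 912 6 847)
(mv 910 (cons (fin 846 7 846)
(mv 1167 (cons (fin 974 7 910)
(mv 1230 (cons (fin 1166 5 974)
(mv 1231 (cons (fin 1294 5 1038)
(fin 1295 6 1039)))))))))))
(mv 846 (cons (fin 910 7 846)
(mv 912 (cons (fin 848 6 847)
(mv 976 (cons (fin 1167 5 911)
(mv 913 (cons (fin 849 6 848)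
(mv 914 (cons (fin 915 1 911)
(mv 850 (cons (fin 851 2 847)
(mv 978 (cons (fin 979 0 911)
(mv 1105 (cons (fin 1169 4 912)
(mv 1106 (cons (fin 1107 3 1039)
(mv 1042 (cons (fin 1043 2 1039)
(mv 1170 (cons (fin 1171 0 1103)
(fin 977 7 913))))))))))))))))))))))))))))))
(cons (mv 1168 (cons (fin 1232 7 975)
(mv 976 (cons (cons (mv 913 (cons (fin 977 6 912)
(mv 912 (cons (fin 974 2 909)
(fin 849 6 848)))))
(mv 913 (cons (fin 977 6 912)
(mv 912 (cons (fin 849 6 848)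
(mv 848 (cons (fin 784 5 783)
(fin 1103 5 847))))))))
(cons (mv 974 (cons (fin 1036 1 972)
(mv 908 (cons (fin 909 3 908)
(mv 1167 (cons (fin 1231 5 975)
(mv 1103 (cons (fin 910 7 910)
(fin 912 5 911)))))))))
(mv 913 (cons (fin 977 6 912)
(mv 974 (cons (fin 1036 1 972)
(mv 908 (cons (fin 909 3 908)
(mv 1167 (cons (fin 1231 5 975)
(mv 1103 (cons (fin 910 7 910)
(mv 1166 (cons (fin 1230 5 974)
(mv 1106 (cons (fin 1105 1 1102)
(mv 1169 (cons (fin 1233 4 976)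
(mv 1170 (cons (fin 1171 3 1103)
(fin 1107 2 1103))))))))))))))))))))))))
(mv 911 (cons (fin 847 4 847)
(mv 1168 (cons (fin 1232 7 975)
(fin 1103 4 911))))))))))
(cons (cons (mv 974 (cons (fin 972 0 972)
(mv 911 (cons (cons (mv 847 (cons (fin 1104 4 847)
(mv 782 (cons (fin 846 7 782)
(mv 718 (cons (fin 783 7 718)
(mv 848 (cons (fin 784 6 783)
(mv 912 (cons (fin 1103 6 847)
(mv 913 (cons (fin 910 1 909)
(fin 914 1 910)))))))))))))
(cons (mv 910 (cons (mv 846 (cons (fin 1103 7 846)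
(fin 782 5 781)))
(cons (mv 912 (cons (fin 913 1 909)
(mv 1103 (cons (fin 1167 7 910)
(fin 848 6 847)))))
(mv 846 (cons (fin 782 5 781)
(mv 909 (cons (fin 1101 6 845)
(mv 908 (cons (fin 907 0 907)
(mv 844 (cons (fin 843 3 843)
(mv 780 (cons (fin 845 7 780)
(fin 716 4 716))))))))))))))
(mv 847 (cons (fin 1104 4 847)
(mv 782 (cons (fin 846 7 782)
(mv 783 (cons (fin 718 7 718)
(mv 784 (cons (fin 720 6 719)
(fin 848 6 783)))))))))))
(cons (mv 847 (cons (fin 1104 4 847)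
(mv 784 (cons (fin 848 6 783)
(mv 783 (cons (fin 720 6 719)
(mv 718 (cons (fin 782 7 718)
(mv 719 (cons (fin 654 7 654)
(fin 910 5 718)))))))))))
(cons (mv 847 (cons (fin 1104 4 847)
(mv 784 (cons (fin 848 6 783)
(mv 783 (cons (fin 720 6 719)
(mv 910 (cons (fin 719 5 718)
(mv 1103 (cons (fin 846 7 846)
(fin 1167 7 910)))))))))))
(mv 847 (cons (fin 1104 4 847)
(mv 782 (cons (fin 846 7 782)
(mv 783 (cons (fin 718 7 718)
(mv 719 (cons (fin 910 5 718)
(mv 720 (cons (fin 656 6 655)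
(fin 784 6 719)))))))))))))))))
(mv 974 (cons (fin 972 0 972)
(mv 976 (cons (fin 1036 1 972)
(mv 908 (cons (fin 909 3 908)
(mv 912 (cons (fin 913 2 909)
(mv 848 (cons (fin 784 5 783)
(mv 785 (cons (fin 849 6 784)
(mv 847 (cons (fin 783 7 783)
(mv 1104 (cons (fin 911 7 847)
(mv 1168 (cons (fin 1232 7 975)
(mv 1169 (cons (fin 1105 4 912)
(fin 1233 4 976))))))))))))))))))))))
(cons (mv 974 (cons (fin 972 0 972)
(mv 976 (cons (fin 1036 1 972)
(mv 912 (cons (fin 913 2 909)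
(mv 848 (cons (fin 784 5 783)
(fin 1103 5 847)))))))))
(mv 974 (cons (fin 972 0 972)
(mv 976 (cons (fin 1036 1 972)
(mv 909 (cons (fin 908 3 908)
(mv 910 (cons (fin 977 3 909)
(mv 846 (cons (fin 782 5 781)
(fin 1101 6 845)))))))))))))))
(mv 1038 (cons (cons (mv 976 (cons (fin 977 2 973)
(mv 975 (cons (fin 1036 2 972)
(mv 1100 (cons (fin 1101 1 1036)
(mv 1104 (cons (fin 1105 0 1037)
(mv 911 (cons (fin 1168 7 911)
(fin 847 4 847)))))))))))
(mv 1100 (cons (fin 1101 1 1036)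
(mv 1036 (cons (fin 1099 1 1035)
(mv 1104 (cons (fin 1103 0 1036)
(fin 1105 0 1037))))))))
(cons (mv 976 (cons (fin 977 2 973)
(mv 1036 (cons (fin 975 2 972)
(mv 1100 (cons (fin 1099 1 1035)
(fin 1101 1 1036)))))))
(cons (mv 976 (cons (fin 977 2 973)
(mv 975 (cons (fin 1036 2 972)
(mv 1104 (cons (fin 1105 0 1037)
(mv 911 (cons (fin 1168 7 911)
(fin 847 4 847)))))))))
(mv 976 (cons (fin 977 2 973)
(mv 1100 (cons (fin 1101 1 1036)
(mv 1104 (cons (fin 1105 0 1037)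
(mv 912 (cons (mv 1103 (cons (fin 848 5 847)
(fin 1167 5 911)))
(cons (mv 847 (cons (fin 911 7 847)
(mv 848 (cons (fin 783 7 783)
(mv 849 (cons (fin 785 6 784)
(fin 913 6 848)))))))
(mv 847 (cons (fin 911 7 847)
(mv 849 (cons (fin 913 6 848)
(mv 1167 (cons (fin 1103 5 911)
(mv 1168 (cons (fin 1231 5 975)
(mv 1232 (cons (fin 975 7 975)
(mv 1233 (cons (fin 1169 4 976)
(fin 1297 4 1040))))))))))))))))))))))))))))
(cons (cons (mv 1038 (cons (fin 972 3 972)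
(mv 1100 (cons (fin 1101 1 1036)
(mv 1036 (cons (fin 1099 1 1035)
(mv 1104 (cons (fin 1103 0 1036)
(fin 1105 0 1037)))))))))
(mv 1038 (cons (fin 972 3 972)
(mv 976 (cons (fin 977 2 973)
(mv 1036 (cons (fin 975 2 972)
(mv 1100 (cons (fin 1099 1 1035)
(fin 1101 1 1036))))))))))
(cons (mv 1038 (cons (fin 972 3 972)
(mv 976 (cons (fin 977 2 973)
(mv 975 (cons (fin 1036 2 972)
(mv 1104 (cons (fin 1105 0 1037)
(mv 911 (cons (fin 1168 7 911)
(fin 847 4 847)))))))))))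
(mv 1038 (cons (fin 972 3 972)
(mv 976 (cons (fin 977 2 973)
(mv 1100 (cons (fin 1101 1 1036)
(mv 1104 (cons (fin 1105 0 1037)
(mv 912 (cons (mv 1103 (cons (fin 848 5 847)
(fin 1167 5 911)))
(cons (mv 847 (cons (fin 911 7 847)
(mv 848 (cons (fin 783 7 783)
(mv 849 (cons (fin 785 6 784)
(fin 913 6 848)))))))
(mv 847 (cons (fin 911 7 847)
(mv 849 (cons (fin 913 6 848)
(mv 1167 (cons (fin 1103 5 911)
(mv 1168 (cons (fin 1231 5 975)
(mv 1232 (cons (fin 975 7 975)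
(mv 1233 (cons (fin 1169 4 976)
(fin 1297 4 1040))))))))))))))))))))))))))))))))
(cons (cons (cons (mv 1039 (cons (cons (mv 1038 (cons (fin 972 3 972)
(mv 976 (cons (fin 977 2 973)
(mv 975 (cons (fin 1036 2 972)
(mv 1100 (cons (fin 1101 1 1036)
(mv 1104 (cons (fin 1105 0 1037)
(mv 911 (cons (fin 1168 7 911)
(fin 847 4 847)))))))))))))
(cons (mv 975 (cons (cons (cons (mv 974 (cons (fin 972 0 972)
(mv 976 (cons (fin 1036 1 972)
(mv 908 (cons (fin 909 3 908)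
(mv 912 (cons (fin 913 2 909)
(mv 848 (cons (fin 784 5 783)
(fin 1103 5 847)))))))))))
(mv 1104 (cons (cons (mv 911 (cons (fin 847 4 847)
(mv 1168 (cons (fin 976 7 911)
(fin 1232 7 975)))))
(mv 911 (cons (fin 847 4 847)
(mv 1103 (cons (mv 848 (cons (fin 912 6 847)
(mv 1102 (cons (fin 1166 5 910)
(mv 1101 (cons (fin 1036 3 1036)
(fin 1100 2 1036)))))))
(cons (mv 1102 (cons (fin 1166 5 910)
(mv 1101 (cons (fin 1036 3 1036)
(fin 1100 2 1036)))))
(mv 912 (cons (fin 848 6 847)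
(mv 976 (cons (fin 1167 5 911)
(mv 913 (cons (fin 849 6 848)
(mv 914 (cons (fin 915 1 911)
(mv 850 (cons (fin 851 2 847)
(mv 978 (cons (fin 979 0 911)
(mv 910 (cons (fin 977 3 910)
(mv 909 (cons (fin 972 1 908)
(fin 908 0 908)))))))))))))))))))))))
(cons (mv 1168 (cons (fin 1232 7 975)
(mv 976 (cons (mv 913 (cons (fin 977 6 912)
(mv 912 (cons (fin 849 6 848)
(mv 848 (cons (fin 784 5 783)
(fin 1103 5 847)))))))
(cons (mv 1167 (cons (fin 1231 5 975)
(mv 912 (cons (fin 1103 5 911)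
(mv 1169 (cons (fin 1105 4 912)
(fin 1233 4 976)))))))
(mv 977 (cons (fin 913 6 912)
(mv 978 (cons (fin 979 1 975)
(mv 914 (cons (fin 915 2 911)
(mv 1042 (cons (fin 1043 0 975)
(mv 1167 (cons (fin 1231 5 975)
(mv 1169 (cons (fin 1233 4 976)
(mv 1106 (cons (fin 1105 5 913)
(mv 1107 (cons (fin 1170 2 1103)
(fin 1171 4 914))))))))))))))))))))))
(mv 911 (cons (fin 847 4 847)
(mv 1168 (cons (fin 1232 7 975)
(fin 1103 4 911)))))))))
(cons (mv 1104 (cons (cons (mv 911 (cons (fin 847 4 847)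
(mv 1168 (cons (fin 976 7 911)
(fin 1232 7 975)))))
(mv 911 (cons (fin 847 4 847)
(mv 1103 (cons (mv 848 (cons (fin 912 6 847)
(mv 1102 (cons (fin 1166 5 910)
(mv 1101 (cons (fin 1036 3 1036)
(fin 1100 2 1036)))))))
(cons (mv 1102 (cons (fin 1166 5 910)
(mv 1101 (cons (fin 1036 3 1036)
(fin 1100 2 1036)))))
(mv 912 (cons (fin 848 6 847)
(mv 976 (cons (fin 1167 5 911)
(mv 913 (cons (fin 974 2 909)
(fin 849 6 848)))))))))))))
(cons (mv 1168 (cons (fin 1232 7 975)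
(mv 976 (cons (cons (mv 913 (cons (fin 977 6 912)
(mv 912 (cons (fin 974 2 909)
(fin 849 6 848)))))
(mv 913 (cons (fin 977 6 912)
(mv 912 (cons (fin 849 6 848)
(mv 848 (cons (fin 784 5 783)
(fin 1103 5 847))))))))
(cons (mv 974 (cons (fin 1036 1 972)
(mv 908 (cons (fin 909 3 908)
(mv 1167 (cons (fin 1231 5 975)
(mv 1103 (cons (fin 910 7 910)
(fin 912 5 911)))))))))
(mv 913 (cons (fin 977 6 912)
(mv 974 (cons (fin 1036 1 972)
(mv 908 (cons (fin 909 3 908)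
(mv 1167 (cons (fin 1231 5 975)
(mv 1103 (cons (fin 910 7 910)
(mv 1166 (cons (fin 1230 5 974)
(mv 1105 (cons (fin 1106 1 1102)
(mv 1169 (cons (fin 1233 4 976)
(mv 1102 (cons (fin 1101 3 1101)
(fin 1170 3 1102))))))))))))))))))))))))
(mv 911 (cons (fin 847 4 847)
(mv 1168 (cons (fin 1232 7 975)
(fin 1103 4 911))))))))
(mv 974 (cons (fin 972 0 972)
(mv 1103 (cons (cons (mv 1167 (cons (fin 910 7 910)
(mv 1166 (cons (fin 1230 5 974)
(mv 911 (cons (fin 1102 5 910)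
(mv 1104 (cons (fin 847 4 847)
(fin 1168 4 911)))))))))
(mv 911 (cons (mv 1104 (cons (fin 847 4 847)
(fin 1168 4 911)))
(mv 912 (cons (fin 848 6 847)
(mv 913 (cons (fin 910 1 909)
(fin 914 1 910))))))))
(cons (mv 1102 (cons (cons (mv 911 (cons (fin 1166 5 910)
(mv 1104 (cons (fin 847 4 847)
(fin 1168 4 911)))))
(mv 1101 (cons (fin 1100 2 1036)
(mv 909 (cons (fin 1166 4 909)
(mv 844 (cons (fin 908 7 844)
(mv 780 (cons (fin 845 7 780)
(mv 1104 (cons (fin 1036 3 1036)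
(mv 1168 (cons (fin 1169 0 1101)
(fin 1232 7 975))))))))))))))
(cons (mv 1101 (cons (fin 1100 2 1036)
(mv 1104 (cons (fin 1036 3 1036)
(mv 911 (cons (fin 847 4 847)
(fin 1168 4 911)))))))
(mv 1100 (cons (fin 1101 2 1036)
(mv 1166 (cons (fin 911 5 910)
(mv 1230 (cons (fin 1167 5 974)
(fin 1294 6 1038))))))))))
(cons (mv 1167 (cons (fin 910 7 910)
(mv 1166 (cons (fin 1230 5 974)
(mv 1232 (cons (fin 1168 4 975)
(mv 1231 (cons (fin 1296 4 1039)
(mv 1104 (cons (fin 1295 6 1039)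
(mv 1105 (cons (fin 1106 1 1102)
(mv 1233 (cons (fin 1234 3 1166)
(mv 1169 (cons (fin 1297 7 1040)
(mv 1102 (cons (fin 1170 0 1102)
(mv 1101 (cons (fin 1036 3 1036)
(fin 1100 2 1036)))))))))))))))))))))
(mv 1167 (cons (fin 910 7 910)
(mv 1166 (cons (fin 1230 5 974)
(mv 1102 (cons (fin 911 5 910)
(mv 1101 (cons (fin 1100 2 1036)
(fin 909 4 909)))))))))))))))))
(cons (cons (mv 974 (cons (fin 972 0 972)
(mv 976 (cons (cons (mv 908 (cons (fin 909 3 908)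
(mv 912 (cons (fin 913 2 909)
(mv 848 (cons (fin 784 5 783)
(fin 1103 5 847)))))))
(mv 909 (cons (fin 908 3 908)
(mv 977 (cons (fin 910 3 909)
(mv 914 (cons (fin 913 2 910)
(mv 978 (cons (fin 979 1 975)
(fin 915 2 911))))))))))
(cons (mv 912 (cons (fin 913 2 909)
(mv 848 (cons (fin 784 5 783)
(fin 1103 5 847)))))
(mv 909 (cons (fin 908 3 908)
(mv 910 (cons (fin 977 3 909)
(mv 1103 (cons (fin 1167 7 910)
(mv 845 (cons (cons (mv 717 (cons (fin 781 4 717)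
(mv 844 (cons (fin 780 7 780)
(mv 912 (cons (fin 911 3 844)
(fin 848 5 847)))))))
(mv 780 (cons (fin 844 7 780)
(mv 781 (cons (fin 716 7 716)
(fin 717 4 717))))))
(cons (mv 844 (cons (fin 780 7 780)
(mv 912 (cons (fin 911 3 844)
(fin 848 5 847)))))
(cons (mv 781 (cons (fin 717 4 717)
(mv 780 (cons (fin 716 7 716)
(mv 782 (cons (fin 718 6 717)
(mv 848 (cons (fin 912 5 847)
(mv 783 (cons (fin 847 0 780)
(mv 720 (cons (fin 719 2 716)
(mv 784 (cons (fin 721 2 717)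
(fin 849 0 781)))))))))))))))
(mv 717 (cons (fin 781 4 717)
(mv 912 (cons (fin 848 5 847)
(mv 911 (cons (fin 844 3 844)
(mv 847 (cons (fin 1104 7 847)
(fin 783 4 783))))))))))))))))))))))))
(mv 974 (cons (fin 972 0 972)
(mv 976 (cons (fin 1036 1 972)
(mv 908 (cons (fin 909 3 908)
(mv 912 (cons (fin 913 2 909)
(mv 848 (cons (fin 784 5 783)
(mv 785 (cons (fin 849 6 784)
(mv 847 (cons (fin 783 7 783)
(mv 1104 (cons (fin 911 7 847)
(mv 1168 (cons (fin 1232 7 975)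
(mv 1169 (cons (fin 1105 4 912)
(fin 1233 4 976))))))))))))))))))))))
(cons (mv 974 (cons (fin 972 0 972)
(mv 976 (cons (fin 1036 1 972)
(mv 909 (cons (fin 908 3 908)
(mv 977 (cons (fin 910 3 909)
(mv 914 (cons (fin 913 2 910)
(mv 978 (cons (fin 979 1 975)
(fin 915 2 911)))))))))))))
(cons (mv 974 (cons (fin 972 0 972)
(mv 976 (cons (fin 1036 1 972)
(mv 912 (cons (fin 913 2 909)
(mv 848 (cons (fin 784 5 783)
(fin 1103 5 847)))))))))
(mv 974 (cons (fin 972 0 972)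
(mv 976 (cons (fin 1036 1 972)
(mv 909 (cons (fin 908 3 908)
(mv 910 (cons (fin 977 3 909)
(mv 1103 (cons (fin 1167 7 910)
(mv 845 (cons (cons (mv 717 (cons (fin 781 4 717)
(mv 844 (cons (fin 780 7 780)
(mv 912 (cons (fin 911 3 844)
(fin 848 5 847)))))))
(mv 780 (cons (fin 844 7 780)
(mv 781 (cons (fin 716 7 716)
(fin 717 4 717))))))
(cons (mv 844 (cons (fin 780 7 780)
(mv 912 (cons (fin 911 3 844)
(fin 848 5 847)))))
(cons (mv 781 (cons (fin 717 4 717)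
(mv 780 (cons (fin 716 7 716)
(mv 782 (cons (fin 718 6 717)
(mv 848 (cons (fin 912 5 847)
(mv 783 (cons (fin 847 0 780)
(mv 720 (cons (fin 719 2 716)
(mv 784 (cons (fin 721 2 717)
(fin 849 0 781)))))))))))))))
(mv 717 (cons (fin 781 4 717)
(mv 912 (cons (fin 848 5 847)
(mv 911 (cons (fin 844 3 844)
(mv 847 (cons (fin 1104 7 847)
(fin 783 4 783))))))))))))))))))))))))))))
(mv 1038 (cons (cons (mv 976 (cons (fin 977 2 973)
(mv 975 (cons (fin 1036 2 972)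
(mv 1100 (cons (fin 1101 1 1036)
(mv 1104 (cons (fin 1105 0 1037)
(mv 911 (cons (fin 1168 7 911)
(fin 847 4 847)))))))))))
(mv 1100 (cons (fin 1101 1 1036)
(mv 1036 (cons (fin 1099 1 1035)
(mv 1104 (cons (fin 1103 0 1036)
(fin 1105 0 1037))))))))
(cons (mv 976 (cons (fin 977 2 973)
(mv 975 (cons (fin 1036 2 972)
(mv 1104 (cons (fin 1105 0 1037)
(mv 911 (cons (fin 1168 7 911)
(fin 847 4 847)))))))))
(cons (mv 976 (cons (fin 977 2 973)
(mv 1036 (cons (fin 975 2 972)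
(mv 1100 (cons (fin 1099 1 1035)
(fin 1101 1 1036)))))))
(mv 976 (cons (fin 977 2 973)
(mv 1100 (cons (fin 1101 1 1036)
(mv 1104 (cons (fin 1105 0 1037)
(mv 912 (cons (mv 1103 (cons (fin 848 5 847)
(fin 1167 5 911)))
(cons (mv 847 (cons (fin 911 7 847)
(mv 848 (cons (fin 783 7 783)
(mv 849 (cons (fin 785 6 784)
(fin 913 6 848)))))))
(mv 847 (cons (fin 911 7 847)
(mv 849 (cons (fin 913 6 848)
(mv 1167 (cons (fin 1103 5 911)
(mv 1168 (cons (fin 1231 5 975)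
(mv 1232 (cons (fin 975 7 975)
(mv 1233 (cons (fin 1169 4 976)
(fin 1297 4 1040))))))))))))))))))))))))))))
(cons (cons (mv 1038 (cons (fin 972 3 972)
(mv 1100 (cons (fin 1101 1 1036)
(mv 1036 (cons (fin 1099 1 1035)
(mv 1104 (cons (fin 1103 0 1036)
(fin 1105 0 1037)))))))))
(mv 1038 (cons (fin 972 3 972)
(mv 976 (cons (fin 977 2 973)
(mv 975 (cons (fin 1036 2 972)
(mv 1104 (cons (fin 1105 0 1037)
(mv 911 (cons (fin 1168 7 911)
(fin 847 4 847))))))))))))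
(cons (mv 1038 (cons (fin 972 3 972)
(mv 976 (cons (fin 977 2 973)
(mv 1036 (cons (fin 975 2 972)
(mv 1100 (cons (fin 1099 1 1035)
(fin 1101 1 1036)))))))))
(mv 1038 (cons (fin 972 3 972)
(mv 976 (cons (fin 977 2 973)
(mv 1100 (cons (fin 1101 1 1036)
(mv 1104 (cons (fin 1105 0 1037)
(mv 912 (cons (mv 1103 (cons (fin 848 5 847)
(fin 1167 5 911)))
(cons (mv 847 (cons (fin 911 7 847)
(mv 848 (cons (fin 783 7 783)
(mv 849 (cons (fin 785 6 784)
(fin 913 6 848)))))))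
(mv 847 (cons (fin 911 7 847)
(mv 849 (cons (fin 913 6 848)
(mv 1167 (cons (fin 1103 5 911)
(mv 1168 (cons (fin 1231 5 975)
(mv 1232 (cons (fin 975 7 975)
(mv 1233 (cons (fin 1169 4 976)
(fin 1297 4 1040))))))))))))))))))))))))))))
(mv 1038 (cons (cons (mv 1039 (cons (fin 972 3 972)
(mv 1100 (cons (fin 1101 1 1036)
(mv 1036 (cons (fin 1099 1 1035)
(mv 1104 (cons (fin 1103 0 1036)
(fin 1105 0 1037)))))))))
(cons (mv 1102 (cons (cons (mv 909 (cons (fin 845 4 845)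
(mv 1166 (cons (fin 974 7 909)
(fin 1230 7 973)))))
(mv 1166 (cons (fin 1230 7 973)
(mv 974 (cons (cons (mv 911 (cons (fin 975 6 910)
(mv 910 (cons (fin 847 6 846)
(mv 846 (cons (fin 782 5 781)
(fin 1101 5 845)))))))
(mv 1167 (cons (fin 1231 4 974)
(mv 910 (cons (fin 1103 4 910)
(mv 846 (cons (fin 782 5 781)
(fin 1101 5 845))))))))
(cons (mv 975 (cons (fin 911 6 910)
(mv 1167 (cons (fin 1231 4 974)
(mv 972 (cons (mv 907 (cons (fin 908 3 907)
(mv 971 (cons (fin 906 3 906)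
(fin 970 0 970)))))
(cons (mv 908 (cons (fin 907 3 907)
(mv 844 (cons (fin 780 4 780)
(mv 1036 (cons (fin 1035 1 971)
(fin 1101 4 844)))))))
(mv 971 (cons (fin 970 0 970)
(mv 1035 (cons (fin 1034 1 970)
(fin 1036 1 971))))))))))))
(mv 911 (cons (fin 975 6 910)
(mv 910 (cons (fin 847 6 846)
(mv 1167 (cons (fin 1103 4 910)
(fin 1231 4 974)))))))))))))
(cons (mv 909 (cons (fin 845 4 845)
(mv 1101 (cons (cons (mv 844 (cons (fin 908 7 844)
(mv 846 (cons (fin 910 6 845)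
(mv 1100 (cons (fin 1164 5 908)
(mv 1099 (cons (fin 1098 2 1034)
(mv 1035 (cons (fin 1034 3 1034)
(mv 1036 (cons (fin 1103 3 1035)
(mv 970 (cons (fin 971 3 970)
(mv 974 (cons (fin 975 2 971)
(mv 1163 (cons (fin 1162 1 1098)
(mv 1227 (cons (fin 972 6 971)
(fin 1291 6 1035)))))))))))))))))))))
(cons (mv 844 (cons (fin 908 7 844)
(mv 910 (cons (fin 846 6 845)
(mv 1103 (cons (mv 1036 (cons (fin 1104 3 1036)
(fin 1035 0 1035)))
(mv 974 (cons (fin 1167 4 910)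
(mv 911 (cons (fin 847 6 846)
(mv 912 (cons (fin 972 1 908)
(fin 913 1 909)))))))))))))
(mv 844 (cons (fin 908 7 844)
(mv 1100 (cons (fin 1164 5 908)
(mv 1099 (cons (fin 1098 2 1034)
(mv 1035 (cons (fin 1034 3 1034)
(mv 1036 (cons (fin 1103 3 1035)
(mv 970 (cons (fin 971 3 970)
(mv 974 (cons (fin 975 2 971)
(mv 1163 (cons (fin 1162 1 1098)
(mv 1227 (cons (fin 972 6 971)
(fin 1291 6 1035)))))))))))))))))))))
(cons (cons (mv 846 (cons (fin 910 6 845)
(mv 1100 (cons (fin 1164 5 908)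
(mv 1099 (cons (fin 1098 2 1034)
(mv 1035 (cons (fin 1034 3 1034)
(mv 1036 (cons (fin 1103 3 1035)
(mv 970 (cons (fin 971 3 970)
(mv 974 (cons (fin 975 2 971)
(mv 1163 (cons (fin 1162 1 1098)
(mv 1227 (cons (fin 972 6 971)
(fin 1291 6 1035)))))))))))))))))))
(mv 846 (cons (fin 910 6 845)
(mv 908 (cons (fin 844 7 844)
(mv 1100 (cons (fin 1164 5 908)
(mv 1099 (cons (fin 1098 2 1034)
(mv 1035 (cons (fin 1034 3 1034)
(mv 1163 (cons (fin 1162 1 1098)
(mv 971 (cons (fin 972 6 907)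
(mv 906 (cons (fin 970 7 906)
(mv 907 (cons (fin 974 0 906)
(fin 842 7 842))))))))))))))))))))
(cons (mv 908 (cons (fin 844 7 844)
(mv 910 (cons (fin 846 6 845)
(mv 1100 (cons (fin 1164 5 908)
(mv 1099 (cons (fin 1098 2 1034)
(mv 1163 (cons (fin 1162 1 1098)
(mv 972 (cons (fin 1036 5 907)
(mv 911 (cons (fin 971 1 907)
(fin 912 1 908)))))))))))))))
(mv 844 (cons (fin 908 7 844)
(mv 846 (cons (fin 910 6 845)
(mv 1100 (cons (fin 1164 5 908)
(mv 1099 (cons (fin 1098 2 1034)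
(mv 1035 (cons (fin 1034 3 1034)
(mv 1103 (cons (fin 1036 3 1035)
(mv 1104 (cons (fin 1105 3 1037)
(mv 1168 (cons (fin 1167 0 1100)
(fin 1169 0 1101)))))))))))))))))))))))
(mv 909 (cons (fin 845 4 845)
(mv 1166 (cons (fin 1230 7 973)
(fin 1101 4 909))))))))
(mv 1102 (cons (cons (mv 909 (cons (fin 845 4 845)
(mv 1166 (cons (fin 974 7 909)
(fin 1230 7 973)))))
(mv 1166 (cons (fin 1230 7 973)
(mv 1039 (cons (cons (mv 1100 (cons (fin 1101 1 1036)
(mv 1036 (cons (fin 1099 1 1035)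
(mv 1103 (cons (fin 1035 0 1035)
(fin 1104 0 1036)))))))
(mv 1104 (cons (fin 1105 0 1037)
(mv 1103 (cons (fin 1036 0 1036)
(mv 975 (cons (fin 911 5 910)
(mv 1168 (cons (fin 1232 7 975)
(mv 1169 (cons (fin 1101 0 1101)
(mv 1170 (cons (fin 1167 3 1102)
(fin 1171 3 1103))))))))))))))
(cons (mv 1104 (cons (fin 1105 0 1037)
(mv 1036 (cons (fin 1103 0 1036)
(mv 1099 (cons (fin 1100 1 1035)
(mv 1035 (cons (fin 1098 1 1034)
(mv 974 (cons (fin 1034 2 970)
(fin 975 2 971)))))))))))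
(cons (mv 1100 (cons (fin 1101 1 1036)
(mv 1036 (cons (fin 1099 1 1035)
(mv 1035 (cons (fin 1103 0 1035)
(mv 974 (cons (fin 1034 2 970)
(fin 975 2 971)))))))))
(mv 1101 (cons (fin 1100 1 1036)
(mv 1104 (cons (fin 1105 0 1037)
(mv 1168 (cons (cons (mv 975 (cons (fin 1232 7 975)
(mv 911 (cons (fin 847 5 846)
(fin 974 6 910)))))
(mv 1167 (cons (fin 1169 3 1101)
(mv 1231 (cons (fin 974 4 974)
(mv 1295 (cons (fin 1359 7 1102)
(fin 1232 5 1039))))))))
(cons (mv 1167 (cons (fin 1169 3 1101)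
(mv 974 (cons (fin 1231 4 974)
(mv 910 (cons (fin 846 5 845)
(mv 911 (cons (fin 847 6 846)
(fin 975 6 910)))))))))
(mv 1167 (cons (fin 1169 3 1101)
(mv 1232 (cons (fin 975 7 975)
(mv 1231 (cons (fin 1295 5 1039)
(mv 1233 (cons (fin 1234 3 1166)
(fin 1297 4 1040)))))))))))))))))))))))
(cons (mv 845 (cons (fin 909 4 845)
(mv 1036 (cons (mv 1035 (cons (fin 1103 0 1035)
(mv 974 (cons (fin 1034 2 970)
(fin 975 2 971)))))
(cons (mv 1039 (cons (mv 1100 (cons (fin 1099 1 1035)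
(fin 1101 1 1036)))
(mv 1104 (cons (fin 1103 0 1036)
(fin 1105 0 1037)))))
(mv 1035 (cons (mv 974 (cons (fin 1034 2 970)
(fin 975 2 971)))
(cons (mv 971 (cons (fin 970 3 970)
(mv 974 (cons (fin 975 2 971)
(mv 1099 (cons (fin 1098 1 1034)
(mv 1100 (cons (fin 1039 1 1035)
(mv 907 (cons (fin 843 4 843)
(fin 1164 4 907)))))))))))
(mv 970 (cons (fin 971 3 970)
(mv 1034 (cons (fin 969 3 969)
(fin 1101 0 1034)))))))))))))
(mv 909 (cons (fin 845 4 845)
(mv 1166 (cons (fin 1230 7 973)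
(fin 1101 4 909))))))))))
(cons (cons (mv 1039 (cons (fin 972 3 972)
(mv 1104 (cons (fin 1105 0 1037)
(mv 1036 (cons (fin 1103 0 1036)
(mv 1099 (cons (fin 1100 1 1035)
(mv 1035 (cons (fin 1098 1 1034)
(mv 974 (cons (fin 1034 2 970)
(fin 975 2 971)))))))))))))
(mv 972 (cons (fin 1039 3 972)
(mv 970 (cons (fin 971 0 970)
(mv 1102 (cons (cons (mv 909 (cons (fin 845 4 845)
(mv 1166 (cons (fin 974 7 909)
(fin 1230 7 973)))))
(mv 1166 (cons (fin 1230 7 973)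
(mv 974 (cons (cons (mv 911 (cons (fin 975 6 910)
(mv 910 (cons (fin 847 6 846)
(mv 846 (cons (fin 782 5 781)
(fin 1101 5 845)))))))
(mv 1167 (cons (fin 1231 4 974)
(mv 910 (cons (fin 1103 4 910)
(mv 846 (cons (fin 782 5 781)
(fin 1101 5 845))))))))
(cons (mv 975 (cons (fin 911 6 910)
(mv 908 (cons (fin 907 3 907)
(mv 844 (cons (fin 780 4 780)
(mv 1036 (cons (fin 1035 1 971)
(fin 1101 4 844)))))))))
(mv 911 (cons (fin 975 6 910)
(mv 910 (cons (fin 847 6 846)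
(mv 1167 (cons (fin 1103 4 910)
(fin 1231 4 974)))))))))))))
(cons (mv 909 (cons (fin 845 4 845)
(mv 908 (cons (mv 844 (cons (fin 1101 7 844)
(fin 780 4 780)))
(cons (mv 910 (cons (mv 846 (cons (fin 1101 6 845)
(mv 782 (cons (fin 718 5 717)
(fin 974 5 781)))))
(cons (mv 911 (cons (fin 912 1 908)
(mv 847 (cons (fin 848 2 844)
(fin 974 6 846)))))
(mv 846 (cons (fin 1101 6 845)
(mv 718 (cons (fin 782 5 717)
(mv 847 (cons (fin 907 2 843)
(mv 848 (cons (fin 849 1 845)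
(fin 911 2 844))))))))))))
(mv 844 (cons (fin 780 4 780)
(mv 1036 (cons (mv 1035 (cons (fin 1103 0 1035)
(fin 1099 5 843)))
(mv 843 (cons (fin 779 7 779)
(mv 842 (cons (fin 841 0 841)
(mv 910 (cons (fin 907 3 842)
(fin 911 3 843))))))))))))))))
(mv 909 (cons (fin 845 4 845)
(mv 1166 (cons (fin 1230 7 973)
(fin 1101 4 909)))))))))))))
(cons (mv 1039 (cons (fin 972 3 972)
(mv 1101 (cons (fin 1100 1 1036)
(mv 1104 (cons (fin 1105 0 1037)
(mv 909 (cons (mv 1102 (cons (fin 845 4 845)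
(fin 1166 4 909)))
(cons (mv 844 (cons (fin 908 7 844)
(mv 845 (cons (fin 780 7 780)
(mv 846 (cons (fin 782 6 781)
(fin 910 6 845)))))))
(mv 908 (cons (fin 844 7 844)
(mv 910 (cons (fin 846 6 845)
(mv 1102 (cons (fin 1166 4 909)
(mv 907 (cons (mv 974 (cons (fin 906 0 906)
(fin 975 0 907)))
(cons (mv 842 (cons (fin 843 3 842)
(mv 906 (cons (fin 841 3 841)
(mv 970 (cons (fin 969 1 905)
(fin 971 1 906)))))))
(mv 842 (cons (fin 843 3 842)
(mv 970 (cons (fin 971 1 906)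
(mv 975 (cons (fin 974 0 907)
(mv 911 (cons (fin 847 5 846)
(mv 1168 (cons (fin 1232 7 975)
(fin 1103 4 911)))))))))))))))))))))))))))))
(mv 972 (cons (fin 1039 3 972)
(mv 970 (cons (fin 971 0 970)
(mv 909 (cons (cons (mv 845 (cons (fin 1102 4 845)
(mv 781 (cons (fin 1036 5 780)
(fin 974 4 781)))))
(mv 1101 (cons (cons (mv 844 (cons (fin 908 7 844)
(mv 846 (cons (fin 910 6 845)
(mv 1100 (cons (fin 1164 5 908)
(mv 1099 (cons (fin 1098 2 1034)
(mv 1102 (cons (fin 1166 4 909)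
(mv 1035 (cons (fin 1034 3 1034)
(mv 1163 (cons (fin 1162 1 1098)
(mv 1227 (cons (fin 1036 6 971)
(mv 1290 (cons (fin 1226 5 1034)
(mv 1291 (cons (fin 1354 5 1098)
(mv 1292 (cons (fin 1228 4 1035)
(fin 1356 4 1099)))))))))))))))))))))))
(mv 846 (cons (fin 910 6 845)
(mv 1100 (cons (fin 1164 5 908)
(mv 1099 (cons (fin 1098 2 1034)
(mv 1102 (cons (fin 1166 4 909)
(mv 1035 (cons (fin 1034 3 1034)
(mv 1163 (cons (fin 1162 1 1098)
(mv 1227 (cons (fin 1036 6 971)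
(mv 1290 (cons (fin 1226 5 1034)
(mv 1291 (cons (fin 1354 5 1098)
(mv 1292 (cons (fin 1228 4 1035)
(fin 1356 4 1099))))))))))))))))))))))
(cons (mv 908 (cons (fin 844 7 844)
(mv 910 (cons (fin 846 6 845)
(mv 911 (cons (fin 912 1 908)
(mv 847 (cons (fin 848 2 844)
(mv 1102 (cons (fin 974 6 846)
(fin 1166 4 909)))))))))))
(cons (mv 844 (cons (fin 908 7 844)
(mv 1100 (cons (fin 1164 5 908)
(mv 1099 (cons (fin 1098 2 1034)
(mv 1102 (cons (fin 1166 4 909)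
(mv 1035 (cons (fin 1034 3 1034)
(mv 1163 (cons (fin 1162 1 1098)
(mv 1227 (cons (fin 1036 6 971)
(mv 1290 (cons (fin 1226 5 1034)
(mv 1291 (cons (fin 1354 5 1098)
(mv 1292 (cons (fin 1228 4 1035)
(fin 1356 4 1099)))))))))))))))))))))
(mv 846 (cons (fin 910 6 845)
(mv 908 (cons (fin 844 7 844)
(mv 1100 (cons (fin 1164 5 908)
(mv 1099 (cons (fin 1098 2 1034)
(mv 1036 (cons (fin 1163 5 907)
(mv 907 (cons (fin 843 7 843)
(mv 906 (cons (fin 969 1 905)
(fin 905 0 905))))))))))))))))))))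
(cons (mv 845 (cons (mv 781 (cons (fin 1036 5 780)
(fin 974 4 781)))
(cons (mv 780 (cons (fin 844 7 780)
(mv 846 (cons (fin 782 6 781)
(mv 1100 (cons (fin 1036 5 844)
(mv 1101 (cons (fin 1164 5 908)
(fin 910 6 845)))))))))
(mv 780 (cons (fin 844 7 780)
(mv 781 (cons (fin 716 7 716)
(fin 974 4 781))))))))
(cons (mv 845 (cons (fin 1102 4 845)
(mv 780 (cons (fin 844 7 780)
(mv 781 (cons (fin 716 7 716)
(fin 974 4 781)))))))
(mv 845 (cons (fin 1102 4 845)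
(mv 1036 (cons (fin 781 5 780)
(fin 1100 5 844))))))))))))))))))
(cons (mv 1038 (cons (cons (cons (mv 1039 (cons (fin 972 3 972)
(mv 976 (cons (fin 977 2 973)
(mv 1100 (cons (fin 1101 1 1036)
(mv 1036 (cons (fin 1099 1 1035)
(mv 1104 (cons (fin 1103 0 1036)
(fin 1105 0 1037)))))))))))
(mv 909 (cons (cons (mv 845 (cons (fin 1102 4 845)
(mv 780 (cons (fin 844 7 780)
(mv 781 (cons (fin 716 7 716)
(fin 974 4 781)))))))
(mv 1101 (cons (cons (mv 844 (cons (fin 908 7 844)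
(mv 846 (cons (fin 910 6 845)
(mv 1100 (cons (fin 1164 5 908)
(mv 1099 (cons (fin 1098 2 1034)
(mv 1102 (cons (fin 1166 4 909)
(mv 1035 (cons (fin 1034 3 1034)
(mv 1036 (cons (fin 1103 3 1035)
(mv 970 (cons (fin 971 3 970)
(mv 1163 (cons (fin 1162 1 1098)
(mv 1227 (cons (fin 972 6 971)
(fin 1291 6 1035)))))))))))))))))))))
(cons (mv 908 (cons (fin 844 7 844)
(mv 910 (cons (fin 846 6 845)
(mv 1100 (cons (fin 1164 5 908)
(mv 1098 (cons (fin 1099 2 1034)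
(mv 971 (cons (mv 970 (cons (fin 907 1 906)
(fin 972 2 906)))
(cons (mv 907 (cons (fin 970 1 906)
(mv 842 (cons (fin 843 3 842)
(mv 906 (cons (fin 841 3 841)
(fin 974 0 906)))))))
(mv 911 (cons (fin 972 1 907)
(mv 848 (cons (fin 847 2 844)
(mv 912 (cons (fin 849 2 845)
(mv 913 (cons (fin 974 1 909)
(mv 977 (cons (fin 976 0 909)
(fin 978 0 910))))))))))))))))))))))
(mv 844 (cons (fin 908 7 844)
(mv 1100 (cons (fin 1164 5 908)
(mv 1099 (cons (fin 1098 2 1034)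
(mv 1102 (cons (fin 1166 4 909)
(mv 1035 (cons (fin 1034 3 1034)
(mv 1036 (cons (fin 1103 3 1035)
(mv 970 (cons (fin 971 3 970)
(mv 1163 (cons (fin 1162 1 1098)
(mv 1227 (cons (fin 972 6 971)
(fin 1291 6 1035)))))))))))))))))))))
(cons (mv 844 (cons (fin 908 7 844)
(mv 910 (cons (fin 846 6 845)
(mv 1102 (cons (fin 1166 4 909)
(mv 1103 (cons (mv 1036 (cons (fin 1104 3 1036)
(fin 1035 0 1035)))
(mv 974 (cons (fin 1167 4 910)
(mv 911 (cons (fin 847 6 846)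
(mv 912 (cons (fin 972 1 908)
(fin 913 1 909)))))))))))))))
(cons (mv 846 (cons (fin 910 6 845)
(mv 1100 (cons (fin 1164 5 908)
(mv 1099 (cons (fin 1098 2 1034)
(mv 1102 (cons (fin 1166 4 909)
(mv 1035 (cons (fin 1034 3 1034)
(mv 1036 (cons (fin 1103 3 1035)
(mv 970 (cons (fin 971 3 970)
(mv 1163 (cons (fin 1162 1 1098)
(mv 1227 (cons (fin 972 6 971)
(fin 1291 6 1035)))))))))))))))))))
(mv 844 (cons (fin 908 7 844)
(mv 846 (cons (fin 910 6 845)
(mv 1100 (cons (fin 1164 5 908)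
(mv 1099 (cons (fin 1098 2 1034)
(mv 1102 (cons (fin 1166 4 909)
(mv 1035 (cons (fin 1034 3 1034)
(mv 1103 (cons (fin 1036 3 1035)
(mv 1104 (cons (fin 1105 3 1037)
(mv 1168 (cons (fin 1167 0 1100)
(fin 1169 0 1101))))))))))))))))))))))))
(cons (mv 845 (cons (mv 780 (cons (fin 844 7 780)
(mv 781 (cons (fin 716 7 716)
(fin 974 4 781)))))
(cons (mv 780 (cons (fin 844 7 780)
(mv 846 (cons (fin 782 6 781)
(mv 1100 (cons (fin 1036 5 844)
(mv 1101 (cons (fin 1164 5 908)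
(fin 910 6 845)))))))))
(mv 781 (cons (fin 974 4 781)
(mv 782 (cons (fin 718 6 717)
(fin 846 6 781))))))))
(cons (mv 845 (cons (fin 1102 4 845)
(mv 780 (cons (fin 844 7 780)
(mv 716 (cons (fin 781 7 716)
(mv 846 (cons (fin 782 6 781)
(mv 1100 (cons (fin 1036 5 844)
(mv 1101 (cons (fin 1164 5 908)
(fin 910 6 845)))))))))))))
(mv 845 (cons (fin 1102 4 845)
(mv 781 (cons (fin 974 4 781)
(mv 782 (cons (fin 718 6 717)
(fin 846 6 781))))))))))))
(cons (mv 1039 (cons (cons (mv 976 (cons (fin 977 2 973)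
(mv 1100 (cons (fin 1101 1 1036)
(mv 1036 (cons (fin 1099 1 1035)
(mv 1104 (cons (fin 1103 0 1036)
(fin 1105 0 1037)))))))))
(cons (mv 976 (cons (fin 977 2 973)
(mv 1104 (cons (fin 1105 0 1037)
(mv 1103 (cons (fin 1036 0 1036)
(mv 912 (cons (fin 848 5 847)
(fin 1167 5 911)))))))))
(mv 976 (cons (fin 977 2 973)
(mv 1100 (cons (fin 1101 1 1036)
(mv 1036 (cons (fin 1099 1 1035)
(mv 909 (cons (fin 845 5 844)
(mv 1228 (cons (fin 1164 6 972)
(mv 1102 (cons (mv 1166 (cons (fin 974 7 909)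
(fin 1230 7 973)))
(cons (mv 1035 (cons (fin 1103 0 1035)
(mv 970 (cons (fin 971 3 970)
(mv 1034 (cons (fin 969 3 969)
(fin 974 2 970)))))))
(mv 1103 (cons (fin 1035 0 1035)
(mv 1230 (cons (fin 1166 7 973)
(mv 1231 (cons (fin 1167 6 975)
(mv 1229 (cons (cons (mv 848 (cons (fin 912 5 847)
(mv 1291 (cons (fin 1292 1 1227)
(mv 1227 (cons (fin 1290 1 1226)
(mv 1295 (cons (fin 1294 0 1227)
(fin 1296 0 1228)))))))))
(mv 1295 (cons (fin 1296 0 1228)
(mv 1227 (cons (fin 1294 0 1227)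
(mv 1162 (cons (fin 1163 3 1162)
(mv 1226 (cons (fin 1161 3 1161)
(mv 1290 (cons (fin 1289 1 1225)
(fin 1291 1 1226))))))))))))
(cons (mv 1292 (cons (fin 1291 1 1227)
(mv 1232 (cons (fin 1293 1 1228)
(mv 1169 (cons (fin 1168 2 1165)
(mv 1233 (cons (fin 1170 2 1166)
(mv 1297 (cons (fin 1296 0 1229)
(fin 1298 0 1230)))))))))))
(cons (mv 1296 (cons (fin 1295 0 1228)
(mv 1232 (cons (fin 1297 0 1229)
(mv 1169 (cons (fin 1168 2 1165)
(mv 1233 (cons (fin 1170 2 1166)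
(mv 1293 (cons (fin 1292 1 1228)
(fin 1294 1 1229)))))))))))
(mv 1291 (cons (fin 1292 1 1227)
(mv 1227 (cons (fin 1290 1 1226)
(mv 1162 (cons (fin 1163 3 1162)
(mv 1226 (cons (fin 1161 3 1161)
(mv 1294 (cons (fin 1293 0 1226)
(fin 1295 0 1227))))))))))))))))))))))))))))))))))))
(cons (mv 1100 (cons (fin 1101 1 1036)
(mv 1036 (cons (fin 1099 1 1035)
(mv 1104 (cons (fin 1103 0 1036)
(fin 1105 0 1037)))))))
(cons (mv 976 (cons (fin 977 2 973)
(mv 1100 (cons (fin 1101 1 1036)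
(mv 1104 (cons (fin 1105 0 1037)
(mv 912 (cons (mv 1103 (cons (fin 848 5 847)
(fin 1167 5 911)))
(cons (mv 847 (cons (fin 911 7 847)
(mv 848 (cons (fin 783 7 783)
(mv 849 (cons (fin 785 6 784)
(fin 913 6 848)))))))
(mv 911 (cons (fin 847 7 847)
(mv 913 (cons (fin 849 6 848)
(mv 910 (cons (fin 974 1 909)
(mv 845 (cons (fin 846 3 845)
(mv 909 (cons (fin 844 3 844)
(fin 1102 4 845))))))))))))))))))))
(mv 976 (cons (fin 977 2 973)
(mv 1104 (cons (fin 1105 0 1037)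
(mv 912 (cons (cons (mv 847 (cons (fin 911 7 847)
(mv 848 (cons (fin 783 7 783)
(mv 849 (cons (fin 785 6 784)
(fin 913 6 848)))))))
(cons (mv 849 (cons (fin 913 6 848)
(mv 848 (cons (fin 785 6 784)
(mv 1101 (cons (fin 1100 1 1036)
(mv 909 (cons (mv 910 (cons (fin 911 2 845)
(fin 846 6 845)))
(mv 1102 (cons (fin 845 4 845)
(fin 1166 4 909)))))))))))
(mv 847 (cons (fin 911 7 847)
(mv 848 (cons (fin 783 7 783)
(mv 1100 (cons (fin 1101 1 1036)
(mv 1036 (cons (fin 1099 1 1035)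
(mv 845 (cons (fin 909 5 844)
(mv 846 (cons (fin 913 0 845)
(mv 780 (cons (fin 781 3 780)
(mv 1035 (cons (mv 779 (cons (fin 844 3 779)
(mv 784 (cons (fin 785 2 781)
(mv 970 (cons (fin 971 3 970)
(mv 1034 (cons (fin 969 3 969)
(fin 974 2 970)))))))))
(cons (mv 784 (cons (fin 785 2 781)
(mv 844 (cons (fin 779 3 779)
(mv 907 (cons (fin 908 1 843)
(mv 843 (cons (fin 906 1 842)
(fin 971 6 779)))))))))
(mv 1034 (cons (fin 974 2 970)
(mv 969 (cons (fin 970 3 969)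
(mv 1033 (cons (fin 968 3 968)
(mv 1097 (cons (fin 1096 1 1032)
(fin 1098 1 1033))))))))))))))))))))))))))))
(cons (mv 847 (cons (fin 911 7 847)
(mv 848 (cons (fin 783 7 783)
(mv 785 (cons (fin 849 6 784)
(mv 784 (cons (fin 721 6 720)
(mv 786 (cons (fin 787 1 783)
(mv 845 (cons (fin 846 2 781)
(mv 909 (cons (fin 1102 4 845)
(mv 1100 (cons (fin 1101 1 1036)
(fin 1036 5 844)))))))))))))))))
(cons (mv 1100 (cons (fin 1101 1 1036)
(mv 1036 (cons (fin 1099 1 1035)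
(mv 845 (cons (fin 909 5 844)
(mv 1164 (cons (fin 1228 6 972)
(mv 848 (cons (mv 849 (cons (fin 785 6 784)
(fin 913 6 848)))
(cons (mv 783 (cons (fin 847 7 783)
(mv 784 (cons (fin 719 7 719)
(mv 785 (cons (fin 721 6 720)
(mv 782 (cons (fin 846 1 781)
(mv 717 (cons (fin 718 3 717)
(mv 781 (cons (fin 716 3 716)
(fin 844 1 780)))))))))))))
(mv 847 (cons (fin 783 7 783)
(mv 913 (cons (fin 846 0 845)
(fin 849 6 848))))))))))))))))
(mv 911 (cons (fin 847 7 847)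
(mv 913 (cons (fin 849 6 848)
(mv 910 (cons (fin 974 1 909)
(mv 845 (cons (fin 846 3 845)
(mv 909 (cons (fin 844 3 844)
(fin 1102 4 845)))))))))))))))))))))))
(mv 1039 (cons (fin 972 3 972)
(mv 976 (cons (fin 977 2 973)
(mv 1104 (cons (fin 1105 0 1037)
(mv 1036 (cons (fin 1103 0 1036)
(mv 1099 (cons (fin 1100 1 1035)
(mv 1035 (cons (fin 1098 1 1034)
(mv 970 (cons (fin 971 3 970)
(mv 1034 (cons (fin 969 3 969)
(fin 974 2 970)))))))))))))))))))
(cons (cons (mv 1039 (cons (fin 972 3 972)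
(mv 976 (cons (fin 977 2 973)
(mv 1104 (cons (fin 1105 0 1037)
(mv 1103 (cons (fin 1036 0 1036)
(mv 912 (cons (fin 848 5 847)
(fin 1167 5 911)))))))))))
(mv 972 (cons (fin 1039 3 972)
(mv 970 (cons (fin 971 0 970)
(mv 909 (cons (cons (mv 845 (cons (fin 1102 4 845)
(mv 781 (cons (fin 1036 5 780)
(fin 974 4 781)))))
(mv 1101 (cons (cons (mv 844 (cons (fin 908 7 844)
(mv 846 (cons (fin 910 6 845)
(mv 1100 (cons (fin 1164 5 908)
(mv 1099 (cons (fin 1098 2 1034)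
(mv 1102 (cons (fin 1166 4 909)
(mv 1035 (cons (fin 1034 3 1034)
(mv 1036 (cons (fin 1103 3 1035)
(mv 1163 (cons (fin 1162 1 1098)
(fin 1227 6 971)))))))))))))))))
(mv 846 (cons (fin 910 6 845)
(mv 1100 (cons (fin 1164 5 908)
(mv 1099 (cons (fin 1098 2 1034)
(mv 1102 (cons (fin 1166 4 909)
(mv 1035 (cons (fin 1034 3 1034)
(mv 1036 (cons (fin 1103 3 1035)
(mv 1163 (cons (fin 1162 1 1098)
(fin 1227 6 971))))))))))))))))
(cons (mv 846 (cons (fin 910 6 845)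
(mv 908 (cons (fin 844 7 844)
(mv 1100 (cons (fin 1164 5 908)
(mv 1099 (cons (fin 1098 2 1034)
(mv 1036 (cons (fin 1163 5 907)
(mv 907 (cons (fin 843 7 843)
(mv 906 (cons (fin 969 1 905)
(fin 905 0 905)))))))))))))))
(cons (mv 908 (cons (fin 844 7 844)
(mv 910 (cons (fin 846 6 845)
(mv 911 (cons (fin 912 1 908)
(mv 847 (cons (fin 848 2 844)
(mv 1102 (cons (fin 974 6 846)
(fin 1166 4 909)))))))))))
(mv 844 (cons (fin 908 7 844)
(mv 1100 (cons (fin 1164 5 908)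
(mv 1099 (cons (fin 1098 2 1034)
(mv 1102 (cons (fin 1166 4 909)
(mv 1035 (cons (fin 1034 3 1034)
(mv 1036 (cons (fin 1103 3 1035)
(mv 1163 (cons (fin 1162 1 1098)
(fin 1227 6 971))))))))))))))))))))
(cons (mv 845 (cons (mv 781 (cons (fin 1036 5 780)
(fin 974 4 781)))
(cons (mv 780 (cons (fin 844 7 780)
(mv 846 (cons (fin 782 6 781)
(mv 1100 (cons (fin 1036 5 844)
(mv 1101 (cons (fin 1164 5 908)
(fin 910 6 845)))))))))
(mv 780 (cons (fin 844 7 780)
(mv 781 (cons (fin 716 7 716)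
(fin 974 4 781))))))))
(cons (mv 845 (cons (fin 1102 4 845)
(mv 780 (cons (fin 844 7 780)
(mv 781 (cons (fin 716 7 716)
(fin 974 4 781)))))))
(mv 845 (cons (fin 1102 4 845)
(mv 1036 (cons (fin 781 5 780)
(fin 1100 5 844))))))))))))))
(cons (mv 1039 (cons (fin 972 3 972)
(mv 976 (cons (fin 977 2 973)
(mv 1100 (cons (fin 1101 1 1036)
(mv 1104 (cons (fin 1105 0 1037)
(mv 912 (cons (mv 1103 (cons (fin 848 5 847)
(fin 1167 5 911)))
(cons (mv 847 (cons (fin 911 7 847)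
(mv 848 (cons (fin 783 7 783)
(mv 849 (cons (fin 785 6 784)
(fin 913 6 848)))))))
(mv 911 (cons (fin 847 7 847)
(mv 913 (cons (fin 849 6 848)
(mv 910 (cons (fin 974 1 909)
(mv 845 (cons (fin 846 3 845)
(mv 909 (cons (fin 844 3 844)
(fin 1102 4 845))))))))))))))))))))))
(mv 1039 (cons (fin 972 3 972)
(mv 976 (cons (fin 977 2 973)
(mv 1104 (cons (fin 1105 0 1037)
(mv 912 (cons (cons (mv 847 (cons (fin 911 7 847)
(mv 848 (cons (fin 783 7 783)
(mv 849 (cons (fin 785 6 784)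
(fin 913 6 848)))))))
(cons (mv 849 (cons (fin 913 6 848)
(mv 848 (cons (fin 785 6 784)
(mv 1101 (cons (fin 1100 1 1036)
(mv 909 (cons (mv 910 (cons (fin 911 2 845)
(fin 846 6 845)))
(mv 1102 (cons (fin 845 4 845)
(fin 1166 4 909)))))))))))
(mv 847 (cons (fin 911 7 847)
(mv 848 (cons (fin 783 7 783)
(mv 1100 (cons (fin 1101 1 1036)
(mv 1036 (cons (fin 1099 1 1035)
(mv 845 (cons (fin 909 5 844)
(mv 846 (cons (fin 913 0 845)
(mv 780 (cons (fin 781 3 780)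
(mv 1035 (cons (mv 779 (cons (fin 844 3 779)
(mv 784 (cons (fin 785 2 781)
(mv 970 (cons (fin 971 3 970)
(mv 1034 (cons (fin 969 3 969)
(fin 974 2 970)))))))))
(cons (mv 784 (cons (fin 785 2 781)
(mv 844 (cons (fin 779 3 779)
(mv 907 (cons (fin 908 1 843)
(mv 843 (cons (fin 906 1 842)
(fin 971 6 779)))))))))
(mv 1034 (cons (fin 974 2 970)
(mv 969 (cons (fin 970 3 969)
(mv 1033 (cons (fin 968 3 968)
(mv 1097 (cons (fin 1096 1 1032)
(fin 1098 1 1033))))))))))))))))))))))))))))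
(cons (mv 847 (cons (fin 911 7 847)
(mv 848 (cons (fin 783 7 783)
(mv 785 (cons (fin 849 6 784)
(mv 784 (cons (fin 721 6 720)
(mv 786 (cons (fin 787 1 783)
(mv 845 (cons (fin 846 2 781)
(mv 909 (cons (fin 1102 4 845)
(mv 1100 (cons (fin 1101 1 1036)
(fin 1036 5 844)))))))))))))))))
(cons (mv 1100 (cons (fin 1101 1 1036)
(mv 1036 (cons (fin 1099 1 1035)
(mv 845 (cons (fin 909 5 844)
(mv 1164 (cons (fin 1228 6 972)
(mv 848 (cons (mv 849 (cons (fin 785 6 784)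
(fin 913 6 848)))
(cons (mv 783 (cons (fin 847 7 783)
(mv 784 (cons (fin 719 7 719)
(mv 785 (cons (fin 721 6 720)
(mv 782 (cons (fin 846 1 781)
(mv 717 (cons (fin 718 3 717)
(mv 781 (cons (fin 716 3 716)
(fin 844 1 780)))))))))))))
(mv 847 (cons (fin 783 7 783)
(mv 913 (cons (fin 846 0 845)
(fin 849 6 848))))))))))))))))
(mv 911 (cons (fin 847 7 847)
(mv 913 (cons (fin 849 6 848)
(mv 910 (cons (fin 974 1 909)
(mv 845 (cons (fin 846 3 845)
(mv 909 (cons (fin 844 3 844)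
(fin 1102 4 845)))))))))))))))))))))))))
(cons (mv 972 (cons (cons (cons (mv 1038 (cons (fin 1039 3 972)
(mv 971 (cons (fin 970 0 970)
(mv 974 (cons (cons (mv 906 (cons (fin 907 3 906)
(mv 1035 (cons (fin 1034 1 970)
(mv 975 (cons (fin 1036 1 971)
(mv 911 (cons (fin 912 2 908)
(mv 783 (cons (fin 847 5 782)
(mv 976 (cons (fin 977 1 973)
(mv 909 (cons (fin 908 3 908)
(mv 845 (cons (fin 781 4 781)
(fin 1102 4 845)))))))))))))))))
(cons (mv 907 (cons (fin 906 3 906)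
(mv 908 (cons (fin 975 3 907)
(mv 844 (cons (fin 780 4 780)
(mv 1101 (cons (fin 909 7 844)
(fin 1036 4 844)))))))))
(mv 1035 (cons (fin 1034 1 970)
(mv 975 (cons (fin 1036 1 971)
(mv 911 (cons (fin 912 2 908)
(mv 783 (cons (fin 847 5 782)
(mv 976 (cons (fin 977 1 973)
(mv 909 (cons (fin 908 3 908)
(mv 845 (cons (fin 781 4 781)
(fin 1102 4 845)))))))))))))))))
(cons (mv 906 (cons (fin 907 3 906)
(mv 1035 (cons (fin 1034 1 970)
(mv 1102 (cons (mv 909 (cons (fin 1166 7 909)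
(fin 845 4 845)))
(mv 1036 (cons (fin 1103 0 1035)
(mv 1099 (cons (fin 1098 1 1034)
(mv 908 (cons (fin 844 5 843)
(fin 1163 6 907)))))))))))))
(cons (mv 907 (cons (fin 906 3 906)
(mv 908 (cons (fin 975 3 907)
(mv 780 (cons (fin 844 4 780)
(mv 1035 (cons (fin 1034 1 970)
(mv 1099 (cons (fin 1163 6 907)
(mv 1098 (cons (fin 1162 5 906)
(mv 1100 (cons (fin 1101 2 1034)
(fin 1164 4 907)))))))))))))))
(mv 906 (cons (fin 907 3 906)
(mv 1035 (cons (fin 1034 1 970)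
(mv 975 (cons (fin 1036 1 971)
(mv 912 (cons (fin 911 2 908)
(mv 976 (cons (fin 977 1 973)
(fin 913 2 909)))))))))))))))))))
(mv 974 (cons (mv 975 (cons (fin 1039 0 972)
(mv 1036 (cons (fin 1035 1 971)
(fin 976 1 972)))))
(cons (mv 971 (cons (cons (mv 906 (cons (fin 907 3 906)
(mv 970 (cons (fin 905 3 905)
(mv 1034 (cons (fin 1033 1 969)
(fin 1035 1 970)))))))
(mv 906 (cons (fin 907 3 906)
(mv 970 (cons (fin 905 3 905)
(mv 908 (cons (cons (mv 969 (cons (fin 909 2 905)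
(fin 1036 0 969)))
(mv 844 (cons (fin 780 4 780)
(mv 1101 (cons (fin 909 7 844)
(fin 1036 4 844))))))
(cons (mv 844 (cons (fin 780 4 780)
(mv 909 (cons (fin 969 2 905)
(fin 1101 7 844)))))
(mv 844 (cons (fin 780 4 780)
(mv 1036 (cons (fin 969 0 969)
(fin 1101 4 844)))))))))))))
(cons (mv 1034 (cons (fin 1035 1 970)
(mv 970 (cons (fin 1033 1 969)
(mv 969 (cons (fin 1036 0 969)
(mv 904 (cons (fin 905 3 904)
(mv 908 (cons (fin 909 2 905)
(mv 968 (cons (fin 903 3 903)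
(fin 907 2 904)))))))))))))
(cons (mv 1034 (cons (fin 1035 1 970)
(mv 970 (cons (fin 1033 1 969)
(mv 905 (cons (fin 906 3 905)
(mv 969 (cons (fin 904 3 904)
(fin 1036 0 969)))))))))
(mv 907 (cons (fin 906 3 906)
(mv 1035 (cons (fin 1034 1 970)
(mv 908 (cons (mv 844 (cons (fin 780 5 779)
(fin 1099 6 843)))
(cons (mv 1099 (cons (fin 1163 6 907)
(mv 1098 (cons (fin 1162 5 906)
(mv 1100 (cons (fin 1164 4 907)
(mv 1036 (cons (fin 1097 2 1033)
(fin 843 7 843)))))))))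
(mv 844 (cons (fin 780 5 779)
(mv 1101 (cons (fin 909 7 844)
(fin 1036 4 844))))))))))))))))
(mv 975 (cons (fin 1039 0 972)
(mv 908 (cons (fin 907 3 907)
(mv 780 (cons (fin 844 4 780)
(mv 912 (cons (fin 911 2 908)
(mv 976 (cons (fin 909 3 908)
(fin 913 2 909)))))))))))))))
(cons (mv 971 (cons (cons (mv 970 (cons (fin 1038 0 970)
(mv 905 (cons (fin 906 3 905)
(mv 969 (cons (fin 904 3 904)
(fin 1036 0 969)))))))
(mv 974 (cons (cons (mv 906 (cons (fin 907 3 906)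
(mv 1035 (cons (fin 1034 1 970)
(mv 975 (cons (fin 1036 1 971)
(mv 912 (cons (fin 911 2 908)
(mv 976 (cons (fin 913 2 909)
(mv 909 (cons (fin 908 3 908)
(mv 1038 (cons (fin 977 1 973)
(mv 845 (cons (fin 781 4 781)
(fin 1102 4 845)))))))))))))))))
(cons (mv 907 (cons (fin 906 3 906)
(mv 908 (cons (fin 975 3 907)
(mv 844 (cons (fin 780 4 780)
(mv 1101 (cons (fin 909 7 844)
(fin 1036 4 844)))))))))
(mv 1035 (cons (fin 1034 1 970)
(mv 975 (cons (fin 1036 1 971)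
(mv 912 (cons (fin 911 2 908)
(mv 976 (cons (fin 913 2 909)
(mv 909 (cons (fin 908 3 908)
(mv 1038 (cons (fin 977 1 973)
(mv 845 (cons (fin 781 4 781)
(fin 1102 4 845)))))))))))))))))
(cons (mv 907 (cons (fin 906 3 906)
(mv 1035 (cons (fin 1034 1 970)
(mv 908 (cons (mv 844 (cons (fin 780 5 779)
(fin 1099 6 843)))
(cons (mv 1099 (cons (fin 1163 6 907)
(mv 1098 (cons (fin 1162 5 906)
(mv 1036 (cons (fin 1038 1 1034)
(mv 843 (cons (fin 1100 7 843)
(fin 779 4 779)))))))))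
(mv 844 (cons (fin 780 5 779)
(mv 1101 (cons (fin 909 7 844)
(fin 1036 4 844))))))))))))
(cons (mv 907 (cons (fin 906 3 906)
(mv 908 (cons (fin 975 3 907)
(mv 844 (cons (fin 780 4 780)
(mv 1035 (cons (fin 1034 1 970)
(fin 1099 6 843)))))))))
(mv 907 (cons (fin 906 3 906)
(mv 1035 (cons (fin 1034 1 970)
(mv 1036 (cons (fin 975 1 971)
(mv 843 (cons (fin 779 4 779)
(fin 1100 4 843))))))))))))))
(cons (mv 970 (cons (mv 905 (cons (fin 906 3 905)
(mv 969 (cons (fin 904 3 904)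
(fin 1036 0 969)))))
(cons (mv 906 (cons (fin 905 3 905)
(mv 907 (cons (fin 974 3 906)
(mv 1034 (cons (fin 1033 1 969)
(mv 843 (cons (fin 779 5 778)
(fin 1098 6 842)))))))))
(mv 969 (cons (fin 1036 0 969)
(mv 1033 (cons (fin 1032 1 968)
(fin 1034 1 969))))))))
(cons (mv 970 (cons (fin 1038 0 970)
(mv 969 (cons (fin 1036 0 969)
(mv 1033 (cons (fin 1032 1 968)
(fin 1034 1 969)))))))
(mv 970 (cons (fin 1038 0 970)
(mv 905 (cons (fin 906 3 905)
(mv 969 (cons (fin 904 3 904)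
(mv 1033 (cons (fin 1032 1 968)
(fin 1034 1 969)))))))))))))
(mv 1038 (cons (fin 1039 3 972)
(mv 1036 (cons (cons (mv 970 (cons (fin 971 0 970)
(mv 1035 (cons (mv 1034 (cons (fin 969 3 969)
(fin 1033 2 969)))
(mv 1098 (cons (fin 1099 1 1034)
(mv 1102 (cons (fin 1103 0 1035)
(mv 909 (cons (fin 845 4 845)
(mv 1166 (cons (fin 1230 7 973)
(fin 1101 4 909)))))))))))))
(mv 909 (cons (mv 845 (cons (fin 781 5 780)
(fin 1100 5 844)))
(cons (mv 1100 (cons (fin 1164 6 908)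
(mv 908 (cons (mv 844 (cons (fin 1101 7 844)
(fin 780 4 780)))
(mv 843 (cons (fin 907 7 843)
(mv 1099 (cons (fin 1163 5 907)
(mv 1098 (cons (fin 1035 1 1034)
(fin 1097 2 1033)))))))))))
(mv 845 (cons (fin 781 5 780)
(fin 1102 4 845)))))))
(cons (mv 970 (cons (fin 971 0 970)
(mv 1035 (cons (mv 1034 (cons (fin 969 3 969)
(fin 1033 2 969)))
(mv 1099 (cons (fin 1098 1 1034)
(mv 908 (cons (fin 844 5 843)
(mv 1163 (cons (fin 1100 5 907)
(fin 1227 6 971)))))))))))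
(cons (mv 970 (cons (fin 971 0 970)
(mv 909 (cons (mv 845 (cons (fin 781 5 780)
(fin 1100 5 844)))
(cons (mv 1100 (cons (fin 1164 6 908)
(mv 908 (cons (mv 844 (cons (fin 1101 7 844)
(fin 780 4 780)))
(cons (mv 843 (cons (fin 907 7 843)
(mv 1099 (cons (fin 1163 5 907)
(mv 1098 (cons (fin 1097 2 1033)
(fin 1101 2 1034)))))))
(mv 780 (cons (fin 844 4 780)
(mv 907 (cons (fin 843 7 843)
(mv 906 (cons (fin 969 1 905)
(fin 905 0 905))))))))))))
(mv 845 (cons (fin 781 5 780)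
(fin 1102 4 845))))))))
(mv 970 (cons (fin 971 0 970)
(mv 909 (cons (mv 845 (cons (fin 781 5 780)
(fin 1100 5 844)))
(cons (mv 1100 (cons (fin 1164 6 908)
(mv 908 (cons (mv 844 (cons (fin 1101 7 844)
(fin 780 4 780)))
(mv 907 (cons (fin 843 7 843)
(mv 906 (cons (fin 969 1 905)
(fin 905 0 905)))))))))
(mv 845 (cons (fin 781 5 780)
(fin 1102 4 845))))))))))))))))
(cons (cons (mv 1039 (cons (fin 1038 3 972)
(mv 975 (cons (fin 974 0 972)
(mv 1104 (cons (cons (mv 911 (cons (fin 847 4 847)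
(mv 1168 (cons (fin 976 7 911)
(fin 1232 7 975)))))
(mv 911 (cons (fin 847 4 847)
(mv 1103 (cons (mv 848 (cons (fin 912 6 847)
(mv 1102 (cons (fin 1166 5 910)
(mv 1101 (cons (fin 1036 3 1036)
(fin 1100 2 1036)))))))
(cons (mv 1102 (cons (fin 1166 5 910)
(mv 1101 (cons (fin 1036 3 1036)
(fin 1100 2 1036)))))
(mv 912 (cons (fin 848 6 847)
(mv 976 (cons (fin 1167 5 911)
(mv 913 (cons (fin 849 6 848)
(mv 914 (cons (fin 915 1 911)
(mv 850 (cons (fin 851 2 847)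
(mv 978 (cons (fin 979 0 911)
(mv 1105 (cons (fin 1169 4 912)
(mv 1106 (cons (fin 1107 3 1039)
(mv 1042 (cons (fin 1043 2 1039)
(mv 1170 (cons (fin 1171 0 1103)
(fin 977 7 913)))))))))))))))))))))))))))
(cons (mv 1168 (cons (fin 1232 7 975)
(mv 976 (cons (mv 913 (cons (fin 977 6 912)
(mv 912 (cons (fin 849 6 848)
(mv 848 (cons (fin 784 5 783)
(fin 1103 5 847)))))))
(cons (mv 1167 (cons (fin 1231 5 975)
(mv 912 (cons (fin 1103 5 911)
(mv 1169 (cons (fin 1105 4 912)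
(fin 1233 4 976)))))))
(mv 977 (cons (fin 913 6 912)
(mv 978 (cons (fin 979 1 975)
(mv 914 (cons (fin 915 2 911)
(mv 1042 (cons (fin 1043 0 975)
(mv 1167 (cons (fin 1231 5 975)
(mv 1169 (cons (fin 1233 4 976)
(mv 1106 (cons (fin 1105 5 913)
(mv 1107 (cons (fin 1170 2 1103)
(fin 1171 4 914))))))))))))))))))))))
(mv 911 (cons (fin 847 4 847)
(mv 1168 (cons (fin 1232 7 975)
(fin 1103 4 911))))))))))))
(mv 1038 (cons (fin 1039 3 972)
(mv 971 (cons (fin 970 0 970)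
(mv 1102 (cons (cons (mv 909 (cons (fin 845 4 845)
(mv 1166 (cons (fin 974 7 909)
(fin 1230 7 973)))))
(mv 1166 (cons (fin 1230 7 973)
(mv 974 (cons (cons (mv 906 (cons (fin 907 3 906)
(mv 975 (cons (fin 911 6 910)
(mv 976 (cons (fin 977 1 973)
(mv 912 (cons (fin 913 2 909)
(mv 1034 (cons (fin 1035 1 970)
(mv 1167 (cons (fin 1231 4 974)
(mv 1104 (cons (fin 1103 5 911)
(mv 1169 (cons (fin 1105 4 912)
(mv 1168 (cons (fin 1101 3 1101)
(fin 1233 4 976)))))))))))))))))))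
(mv 907 (cons (fin 906 3 906)
(mv 1035 (cons (fin 1034 1 970)
(mv 1167 (cons (fin 1231 4 974)
(mv 1099 (cons (mv 908 (cons (fin 844 6 843)
(fin 1163 6 907)))
(mv 1100 (cons (fin 1101 0 1099)
(fin 1164 4 907))))))))))))
(cons (mv 975 (cons (fin 911 6 910)
(mv 976 (cons (fin 977 1 973)
(mv 912 (cons (fin 913 2 909)
(mv 1034 (cons (fin 1035 1 970)
(mv 1167 (cons (fin 1231 4 974)
(mv 1104 (cons (fin 1103 5 911)
(mv 1169 (cons (fin 1105 4 912)
(mv 1168 (cons (fin 1101 3 1101)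
(fin 1233 4 976)))))))))))))))))
(mv 907 (cons (fin 906 3 906)
(mv 975 (cons (fin 908 3 907)
(fin 911 6 910)))))))))))
(cons (mv 909 (cons (fin 845 4 845)
(mv 908 (cons (mv 844 (cons (fin 1101 7 844)
(fin 780 4 780)))
(cons (mv 907 (cons (mv 906 (cons (fin 974 3 906)
(fin 905 0 905)))
(cons (mv 974 (cons (fin 975 3 907)
(mv 1035 (cons (fin 1034 1 970)
(mv 1099 (cons (fin 1163 6 907)
(mv 1098 (cons (fin 1162 5 906)
(mv 1100 (cons (fin 1101 2 1034)
(fin 1164 4 907)))))))))))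
(mv 906 (cons (fin 905 0 905)
(mv 842 (cons (fin 841 3 841)
(mv 778 (cons (fin 714 4 714)
(mv 1035 (cons (fin 843 7 778)
(fin 1099 7 842))))))))))))
(mv 844 (cons (fin 780 4 780)
(mv 907 (cons (mv 906 (cons (fin 974 3 906)
(fin 905 0 905)))
(cons (mv 974 (cons (fin 975 3 907)
(mv 1035 (cons (fin 1034 1 970)
(fin 1099 6 843)))))
(mv 906 (cons (fin 905 0 905)
(mv 842 (cons (fin 841 3 841)
(mv 778 (cons (fin 714 4 714)
(mv 1035 (cons (fin 843 7 778)
(fin 1099 7 842)))))))))))))))))))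
(mv 909 (cons (fin 845 4 845)
(mv 1166 (cons (fin 1230 7 973)
(fin 1101 4 909)))))))))))))
(cons (mv 1038 (cons (fin 1039 3 972)
(mv 971 (cons (fin 970 0 970)
(mv 974 (cons (cons (mv 906 (cons (fin 907 3 906)
(mv 1035 (cons (fin 1034 1 970)
(mv 975 (cons (fin 1036 1 971)
(mv 911 (cons (fin 912 2 908)
(mv 783 (cons (fin 847 5 782)
(mv 976 (cons (fin 977 1 973)
(mv 909 (cons (fin 908 3 908)
(mv 845 (cons (fin 781 4 781)
(fin 1102 4 845)))))))))))))))))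
(cons (mv 907 (cons (fin 906 3 906)
(mv 908 (cons (fin 975 3 907)
(mv 844 (cons (fin 780 4 780)
(mv 1101 (cons (fin 909 7 844)
(fin 1036 4 844)))))))))
(mv 1035 (cons (fin 1034 1 970)
(mv 975 (cons (fin 1036 1 971)
(mv 911 (cons (fin 912 2 908)
(mv 783 (cons (fin 847 5 782)
(mv 976 (cons (fin 977 1 973)
(mv 909 (cons (fin 908 3 908)
(mv 845 (cons (fin 781 4 781)
(fin 1102 4 845)))))))))))))))))
(cons (mv 906 (cons (fin 907 3 906)
(mv 1035 (cons (fin 1034 1 970)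
(mv 1102 (cons (mv 909 (cons (fin 1166 7 909)
(fin 845 4 845)))
(mv 1036 (cons (fin 1103 0 1035)
(mv 1099 (cons (fin 1098 1 1034)
(mv 908 (cons (fin 844 5 843)
(fin 1163 6 907)))))))))))))
(cons (mv 907 (cons (fin 906 3 906)
(mv 908 (cons (fin 975 3 907)
(mv 844 (cons (fin 780 4 780)
(mv 1035 (cons (fin 1034 1 970)
(fin 1099 6 843)))))))))
(mv 906 (cons (fin 907 3 906)
(mv 1035 (cons (fin 1034 1 970)
(mv 975 (cons (fin 1036 1 971)
(mv 912 (cons (fin 911 2 908)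
(mv 976 (cons (fin 977 1 973)
(fin 913 2 909)))))))))))))))))))
(mv 1038 (cons (fin 1039 3 972)
(mv 971 (cons (fin 970 0 970)
(mv 974 (cons (cons (mv 906 (cons (fin 907 3 906)
(mv 1035 (cons (fin 1034 1 970)
(mv 975 (cons (fin 1036 1 971)
(mv 911 (cons (fin 912 2 908)
(mv 783 (cons (fin 847 5 782)
(mv 976 (cons (fin 977 1 973)
(mv 909 (cons (fin 908 3 908)
(mv 845 (cons (fin 781 4 781)
(fin 1102 4 845)))))))))))))))))
(cons (mv 907 (cons (fin 906 3 906)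
(mv 975 (cons (fin 908 3 907)
(mv 976 (cons (fin 1036 1 972)
(fin 977 1 973)))))))
(mv 1035 (cons (fin 1034 1 970)
(mv 975 (cons (fin 1036 1 971)
(mv 911 (cons (fin 912 2 908)
(mv 783 (cons (fin 847 5 782)
(mv 976 (cons (fin 977 1 973)
(mv 909 (cons (fin 908 3 908)
(mv 845 (cons (fin 781 4 781)
(fin 1102 4 845)))))))))))))))))
(cons (mv 906 (cons (fin 907 3 906)
(mv 1035 (cons (fin 1034 1 970)
(mv 1102 (cons (mv 909 (cons (fin 1166 7 909)
(fin 845 4 845)))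
(mv 1036 (cons (fin 1103 0 1035)
(mv 1099 (cons (fin 1098 1 1034)
(mv 908 (cons (fin 844 5 843)
(fin 1163 6 907)))))))))))))
(cons (mv 907 (cons (fin 906 3 906)
(mv 908 (cons (fin 975 3 907)
(mv 844 (cons (fin 780 4 780)
(mv 1035 (cons (fin 1034 1 970)
(fin 1099 6 843)))))))))
(mv 906 (cons (fin 907 3 906)
(mv 1035 (cons (fin 1034 1 970)
(mv 975 (cons (fin 1036 1 971)
(mv 912 (cons (fin 911 2 908)
(mv 976 (cons (fin 977 1 973)
(fin 913 2 909)))))))))))))))))))))))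
(mv 972 (cons (cons (cons (mv 1038 (cons (fin 1039 3 972)
(mv 971 (cons (fin 970 0 970)
(mv 974 (cons (cons (mv 906 (cons (fin 907 3 906)
(mv 910 (cons (fin 911 2 907)
(mv 846 (cons (fin 782 5 781)
(fin 1101 5 845)))))))
(mv 906 (cons (fin 907 3 906)
(mv 1035 (cons (fin 1034 1 970)
(mv 975 (cons (fin 1036 1 971)
(mv 911 (cons (fin 912 2 908)
(mv 783 (cons (fin 847 5 782)
(mv 976 (cons (fin 977 1 973)
(mv 909 (cons (fin 908 3 908)
(mv 845 (cons (fin 781 4 781)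
(fin 1102 4 845))))))))))))))))))
(cons (mv 910 (cons (fin 911 2 907)
(mv 846 (cons (fin 782 5 781)
(fin 1101 5 845)))))
(mv 906 (cons (fin 907 3 906)
(mv 1035 (cons (fin 1034 1 970)
(mv 975 (cons (fin 1036 1 971)
(mv 976 (cons (fin 977 1 973)
(mv 909 (cons (fin 908 3 908)
(mv 845 (cons (fin 781 4 781)
(fin 1102 4 845))))))))))))))))))))
(mv 974 (cons (mv 975 (cons (fin 1039 0 972)
(mv 1036 (cons (fin 1035 1 971)
(fin 976 1 972)))))
(cons (mv 971 (cons (cons (mv 906 (cons (fin 907 3 906)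
(mv 910 (cons (fin 911 2 907)
(mv 970 (cons (fin 905 3 905)
(fin 909 2 906)))))))
(mv 906 (cons (fin 907 3 906)
(mv 970 (cons (fin 905 3 905)
(mv 1034 (cons (fin 1033 1 969)
(fin 1035 1 970))))))))
(cons (mv 910 (cons (fin 911 2 907)
(mv 782 (cons (fin 846 5 781)
(mv 970 (cons (fin 909 2 906)
(mv 1034 (cons (fin 1033 1 969)
(fin 1035 1 970)))))))))
(mv 907 (cons (fin 906 3 906)
(mv 910 (cons (fin 911 2 907)
(mv 846 (cons (fin 782 5 781)
(mv 909 (cons (fin 1101 6 845)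
(mv 908 (cons (fin 847 2 843)
(mv 780 (cons (fin 844 4 780)
(mv 842 (cons (fin 843 3 842)
(mv 1035 (cons (fin 1034 1 970)
(mv 1099 (cons (fin 1163 6 907)
(mv 1098 (cons (fin 1162 5 906)
(mv 1100 (cons (fin 1164 4 907)
(mv 1036 (cons (fin 1097 2 1033)
(fin 845 5 844))))))))))))))))))))))))))))
(mv 975 (cons (fin 1039 0 972)
(mv 907 (cons (fin 908 3 907)
(mv 911 (cons (fin 912 2 908)
(mv 971 (cons (fin 906 3 906)
(fin 910 2 907)))))))))))))
(cons (mv 971 (cons (cons (mv 970 (cons (fin 1038 0 970)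
(mv 905 (cons (fin 906 3 905)
(mv 969 (cons (fin 904 3 904)
(fin 1036 0 969)))))))
(mv 974 (cons (cons (mv 906 (cons (fin 907 3 906)
(mv 910 (cons (fin 911 2 907)
(mv 846 (cons (fin 782 5 781)
(mv 1101 (cons (fin 1038 5 845)
(fin 909 6 845)))))))))
(mv 910 (cons (fin 911 2 907)
(mv 846 (cons (fin 782 5 781)
(mv 1101 (cons (fin 1038 5 845)
(fin 909 6 845))))))))
(cons (mv 906 (cons (fin 907 3 906)
(mv 1035 (cons (fin 1034 1 970)
(mv 975 (cons (fin 1036 1 971)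
(mv 912 (cons (fin 911 2 908)
(mv 976 (cons (fin 913 2 909)
(mv 909 (cons (fin 908 3 908)
(mv 1038 (cons (fin 977 1 973)
(mv 845 (cons (fin 781 4 781)
(fin 1102 4 845)))))))))))))))))
(cons (mv 907 (cons (fin 906 3 906)
(mv 908 (cons (fin 975 3 907)
(mv 780 (cons (fin 844 4 780)
(mv 1035 (cons (fin 1034 1 970)
(mv 1099 (cons (fin 1163 6 907)
(mv 1098 (cons (fin 1162 5 906)
(mv 1036 (cons (fin 1038 1 1034)
(mv 843 (cons (fin 1100 7 843)
(fin 779 4 779)))))))))))))))))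
(mv 906 (cons (fin 907 3 906)
(mv 910 (cons (fin 911 2 907)
(mv 846 (cons (fin 782 5 781)
(mv 909 (cons (fin 1101 6 845)
(mv 1035 (cons (fin 1034 1 970)
(mv 975 (cons (fin 1036 1 971)
(mv 976 (cons (fin 908 3 908)
(fin 977 3 909))))))))))))))))))))
(cons (mv 970 (cons (mv 905 (cons (fin 906 3 905)
(mv 969 (cons (fin 904 3 904)
(fin 1036 0 969)))))
(cons (mv 905 (cons (fin 906 3 905)
(mv 910 (cons (fin 909 2 906)
(mv 974 (cons (fin 911 2 907)
(mv 1034 (cons (fin 1033 1 969)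
(fin 1035 1 970)))))))))
(mv 909 (cons (fin 910 2 906)
(mv 969 (cons (fin 908 2 905)
(fin 1036 0 969))))))))
(cons (mv 970 (cons (fin 1038 0 970)
(mv 909 (cons (fin 910 2 906)
(mv 969 (cons (fin 908 2 905)
(fin 1036 0 969)))))))
(mv 970 (cons (fin 1038 0 970)
(mv 905 (cons (fin 906 3 905)
(mv 904 (cons (fin 969 3 904)
(mv 910 (cons (fin 909 2 906)
(mv 974 (cons (fin 911 2 907)
(mv 1034 (cons (fin 1033 1 969)
(fin 1035 1 970)))))))))))))))))
(cons (mv 1038 (cons (fin 1039 3 972)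
(mv 971 (cons (fin 970 0 970)
(mv 908 (cons (cons (mv 844 (cons (fin 780 4 780)
(mv 1101 (cons (fin 909 7 844)
(fin 1036 4 844)))))
(mv 909 (cons (mv 845 (cons (fin 1102 4 845)
(mv 781 (cons (fin 717 5 716)
(fin 1036 5 780)))))
(mv 910 (cons (fin 911 1 907)
(mv 846 (cons (fin 1101 6 845)
(mv 718 (cons (fin 782 5 717)
(mv 907 (cons (fin 847 2 843)
(mv 842 (cons (fin 843 3 842)
(mv 906 (cons (fin 841 3 841)
(fin 905 0 905))))))))))))))))
(cons (mv 844 (cons (fin 780 4 780)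
(mv 1036 (cons (fin 1101 4 844)
(mv 779 (cons (fin 843 7 779)
(mv 781 (cons (fin 845 6 780)
(mv 1099 (cons (fin 1035 5 843)
(mv 1100 (cons (fin 1163 5 907)
(mv 1164 (cons (fin 907 7 907)
(fin 1228 6 972)))))))))))))))
(cons (mv 844 (cons (fin 780 4 780)
(mv 1036 (cons (cons (mv 779 (cons (fin 843 7 779)
(mv 781 (cons (fin 845 6 780)
(mv 1099 (cons (fin 1035 5 843)
(mv 1100 (cons (fin 1163 5 907)
(mv 1164 (cons (fin 907 7 907)
(fin 909 6 908)))))))))))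
(cons (mv 779 (cons (fin 843 7 779)
(mv 845 (cons (fin 781 6 780)
(mv 909 (cons (fin 1100 5 844)
(fin 1102 4 845)))))))
(mv 779 (cons (fin 843 7 779)
(mv 1099 (cons (fin 1035 5 843)
(mv 1100 (cons (fin 1163 5 907)
(mv 1164 (cons (fin 907 7 907)
(fin 909 6 908)))))))))))
(cons (mv 781 (cons (fin 845 6 780)
(mv 1099 (cons (fin 1035 5 843)
(mv 1100 (cons (fin 1163 5 907)
(mv 1164 (cons (fin 907 7 907)
(fin 909 6 908)))))))))
(cons (mv 779 (cons (fin 843 7 779)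
(mv 845 (cons (fin 781 6 780)
(mv 909 (cons (fin 1102 4 845)
(mv 846 (cons (fin 782 6 781)
(mv 847 (cons (fin 907 1 843)
(fin 848 1 844)))))))))))
(mv 779 (cons (fin 843 7 779)
(mv 781 (cons (fin 845 6 780)
(mv 1099 (cons (fin 1035 5 843)
(mv 1100 (cons (fin 1163 5 907)
(mv 1164 (cons (fin 907 7 907)
(fin 1228 6 972)))))))))))))))))
(mv 844 (cons (fin 780 4 780)
(mv 909 (cons (fin 1101 7 844)
(mv 845 (cons (fin 1102 4 845)
(mv 717 (cons (fin 781 5 716)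
(mv 846 (cons (fin 782 6 781)
(mv 847 (cons (fin 907 1 843)
(fin 848 1 844)))))))))))))))))))))
(mv 1039 (cons (fin 1038 3 972)
(mv 975 (cons (fin 974 0 972)
(mv 1104 (cons (cons (mv 911 (cons (fin 847 4 847)
(mv 1168 (cons (fin 976 7 911)
(fin 1232 7 975)))))
(mv 911 (cons (fin 847 4 847)
(mv 910 (cons (cons (mv 846 (cons (fin 1103 7 846)
(mv 909 (cons (fin 912 1 908)
(fin 1101 6 845)))))
(mv 1103 (cons (fin 846 7 846)
(mv 912 (cons (fin 848 6 847)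
(mv 976 (cons (fin 1167 5 911)
(mv 913 (cons (fin 849 6 848)
(mv 914 (cons (fin 915 1 911)
(mv 978 (cons (fin 977 3 910)
(fin 979 0 911))))))))))))))
(cons (mv 909 (cons (fin 912 1 908)
(mv 908 (cons (fin 976 0 908)
(mv 844 (cons (fin 843 3 843)
(fin 1101 7 844)))))))
(mv 846 (cons (fin 1103 7 846)
(mv 718 (cons (fin 782 4 718)
(mv 909 (cons (fin 1101 6 845)
(mv 908 (cons (fin 976 0 908)
(mv 844 (cons (fin 843 3 843)
(fin 780 4 780)))))))))))))))))
(cons (mv 1168 (cons (fin 1232 7 975)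
(mv 976 (cons (mv 913 (cons (fin 977 6 912)
(mv 912 (cons (fin 849 6 848)
(mv 848 (cons (fin 784 5 783)
(fin 1103 5 847)))))))
(cons (mv 1167 (cons (fin 1231 5 975)
(mv 912 (cons (fin 1103 5 911)
(mv 1169 (cons (fin 1105 4 912)
(fin 1233 4 976)))))))
(mv 977 (cons (fin 913 6 912)
(mv 978 (cons (fin 979 1 975)
(mv 914 (cons (fin 915 2 911)
(mv 1042 (cons (fin 1043 0 975)
(mv 1167 (cons (fin 1231 5 975)
(mv 1169 (cons (fin 1233 4 976)
(mv 1106 (cons (fin 1105 5 913)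
(mv 1107 (cons (fin 1170 2 1103)
(fin 1171 4 914))))))))))))))))))))))
(mv 911 (cons (fin 847 4 847)
(mv 1168 (cons (fin 1232 7 975)
(fin 1103 4 911)))))))))))))))
(cons (cons (mv 1038 (cons (fin 1039 3 972)
(mv 971 (cons (fin 970 0 970)
(mv 974 (cons (cons (mv 906 (cons (fin 907 3 906)
(mv 910 (cons (fin 911 2 907)
(mv 846 (cons (fin 782 5 781)
(fin 1101 5 845)))))))
(mv 906 (cons (fin 907 3 906)
(mv 1035 (cons (fin 1034 1 970)
(mv 975 (cons (fin 1036 1 971)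
(mv 912 (cons (fin 911 2 908)
(mv 976 (cons (fin 977 1 973)
(fin 913 2 909))))))))))))
(cons (mv 906 (cons (fin 907 3 906)
(mv 1035 (cons (fin 1034 1 970)
(mv 1036 (cons (fin 975 1 971)
(mv 1099 (cons (fin 1098 1 1034)
(mv 1102 (cons (fin 1103 0 1035)
(mv 909 (cons (fin 845 4 845)
(mv 1100 (cons (fin 1164 6 908)
(mv 1163 (cons (fin 1227 6 971)
(mv 1162 (cons (fin 1101 1 1098)
(fin 1226 5 970)))))))))))))))))))
(mv 910 (cons (fin 911 2 907)
(mv 846 (cons (fin 782 5 781)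
(fin 1101 5 845))))))))))))
(mv 1038 (cons (fin 1039 3 972)
(mv 971 (cons (fin 970 0 970)
(mv 974 (cons (cons (mv 906 (cons (fin 907 3 906)
(mv 910 (cons (fin 911 2 907)
(mv 846 (cons (fin 782 5 781)
(fin 1101 5 845)))))))
(mv 906 (cons (fin 907 3 906)
(mv 1035 (cons (fin 1034 1 970)
(mv 975 (cons (fin 1036 1 971)
(mv 912 (cons (fin 911 2 908)
(mv 976 (cons (fin 977 1 973)
(fin 913 2 909))))))))))))
(cons (mv 910 (cons (fin 911 2 907)
(mv 846 (cons (fin 782 5 781)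
(fin 1101 5 845)))))
(mv 906 (cons (fin 907 3 906)
(mv 1035 (cons (fin 1034 1 970)
(mv 1036 (cons (fin 975 1 971)
(mv 1099 (cons (fin 1098 1 1034)
(mv 908 (cons (fin 844 5 843)
(fin 1163 6 907)))))))))))))))))))
(cons (mv 1038 (cons (fin 1039 3 972)
(mv 971 (cons (fin 970 0 970)
(mv 974 (cons (cons (cons (mv 906 (cons (fin 907 3 906)
(mv 910 (cons (fin 911 2 907)
(mv 782 (cons (fin 846 5 781)
(mv 1035 (cons (fin 1034 1 970)
(mv 975 (cons (fin 1036 1 971)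
(mv 976 (cons (fin 977 1 973)
(mv 909 (cons (fin 908 3 908)
(mv 845 (cons (fin 1102 7 845)
(fin 781 4 781)))))))))))))))))
(mv 906 (cons (fin 907 3 906)
(mv 910 (cons (fin 911 2 907)
(mv 846 (cons (fin 782 5 781)
(mv 783 (cons (fin 847 6 782)
(mv 845 (cons (fin 781 7 781)
(mv 909 (cons (fin 1102 7 845)
(mv 844 (cons (fin 780 7 780)
(mv 843 (cons (fin 842 0 842)
(mv 779 (cons (fin 778 3 778)
(mv 1036 (cons (fin 908 7 779)
(fin 1100 5 844))))))))))))))))))))))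
(cons (mv 906 (cons (fin 907 3 906)
(mv 1035 (cons (fin 1034 1 970)
(mv 975 (cons (fin 1036 1 971)
(mv 911 (cons (fin 912 2 908)
(mv 783 (cons (fin 847 5 782)
(mv 976 (cons (fin 977 1 973)
(mv 909 (cons (fin 908 3 908)
(mv 845 (cons (fin 781 4 781)
(fin 1102 4 845)))))))))))))))))
(mv 910 (cons (fin 911 2 907)
(mv 782 (cons (fin 846 5 781)
(mv 1035 (cons (fin 1034 1 970)
(mv 975 (cons (fin 1036 1 971)
(mv 976 (cons (fin 977 1 973)
(mv 909 (cons (fin 908 3 908)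
(mv 845 (cons (fin 1102 7 845)
(fin 781 4 781)))))))))))))))))
(cons (cons (mv 906 (cons (fin 907 3 906)
(mv 1035 (cons (fin 1034 1 970)
(mv 975 (cons (fin 1036 1 971)
(mv 976 (cons (fin 977 1 973)
(mv 909 (cons (fin 908 3 908)
(mv 845 (cons (fin 781 4 781)
(fin 1102 4 845)))))))))))))
(mv 906 (cons (fin 907 3 906)
(mv 910 (cons (fin 911 2 907)
(mv 846 (cons (fin 782 5 781)
(mv 845 (cons (fin 781 7 781)
(mv 847 (cons (fin 783 6 782)
(mv 909 (cons (fin 1102 7 845)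
(mv 848 (cons (fin 908 1 844)
(fin 849 1 845))))))))))))))))
(cons (mv 906 (cons (fin 907 3 906)
(mv 910 (cons (fin 911 2 907)
(mv 782 (cons (fin 846 5 781)
(mv 1035 (cons (fin 1034 1 970)
(mv 1036 (cons (fin 975 1 971)
(mv 1099 (cons (fin 1098 1 1034)
(mv 908 (cons (fin 844 5 843)
(fin 1163 6 907)))))))))))))))
(mv 906 (cons (fin 907 3 906)
(mv 910 (cons (fin 911 2 907)
(mv 782 (cons (fin 846 5 781)
(mv 1035 (cons (fin 1034 1 970)
(mv 1036 (cons (fin 975 1 971)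
(mv 1099 (cons (fin 1098 1 1034)
(mv 1102 (cons (fin 1103 0 1035)
(mv 909 (cons (fin 845 7 845)
(mv 1163 (cons (fin 1227 6 971)
(mv 1164 (cons (fin 1100 6 908)
(fin 1228 4 971)))))))))))))))))))))))))))))
(cons (mv 1038 (cons (fin 1039 3 972)
(mv 971 (cons (fin 970 0 970)
(mv 974 (cons (cons (mv 906 (cons (fin 907 3 906)
(mv 1035 (cons (fin 1034 1 970)
(mv 975 (cons (fin 1036 1 971)
(mv 911 (cons (fin 912 2 908)
(mv 783 (cons (fin 847 5 782)
(mv 976 (cons (fin 977 1 973)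
(mv 909 (cons (fin 908 3 908)
(mv 845 (cons (fin 781 4 781)
(fin 1102 4 845)))))))))))))))))
(cons (mv 907 (cons (fin 906 3 906)
(mv 908 (cons (fin 975 3 907)
(mv 844 (cons (fin 780 4 780)
(mv 1101 (cons (fin 909 7 844)
(fin 1036 4 844)))))))))
(mv 1035 (cons (fin 1034 1 970)
(mv 975 (cons (fin 1036 1 971)
(mv 911 (cons (fin 912 2 908)
(mv 783 (cons (fin 847 5 782)
(mv 976 (cons (fin 977 1 973)
(mv 909 (cons (fin 908 3 908)
(mv 845 (cons (fin 781 4 781)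
(fin 1102 4 845)))))))))))))))))
(cons (mv 907 (cons (fin 906 3 906)
(mv 1035 (cons (fin 1034 1 970)
(mv 1036 (cons (mv 843 (cons (fin 779 4 779)
(fin 1100 4 843)))
(cons (mv 779 (cons (fin 843 4 779)
(mv 1099 (cons (fin 1098 1 1034)
(mv 908 (cons (fin 844 5 843)
(fin 1163 6 907)))))))
(mv 1099 (cons (fin 1098 1 1034)
(mv 908 (cons (fin 844 5 843)
(fin 1163 6 907))))))))))))
(cons (mv 907 (cons (fin 906 3 906)
(mv 908 (cons (fin 975 3 907)
(mv 780 (cons (fin 844 4 780)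
(mv 1035 (cons (fin 1034 1 970)
(mv 1099 (cons (fin 1163 6 907)
(mv 1098 (cons (fin 1162 5 906)
(mv 1100 (cons (fin 1101 2 1034)
(fin 1164 4 907)))))))))))))))
(mv 906 (cons (fin 907 3 906)
(mv 1035 (cons (fin 1034 1 970)
(mv 975 (cons (fin 1036 1 971)
(mv 912 (cons (fin 911 2 908)
(mv 976 (cons (fin 977 1 973)
(fin 913 2 909)))))))))))))))))))
(mv 1038 (cons (fin 1039 3 972)
(mv 971 (cons (fin 970 0 970)
(mv 974 (cons (cons (mv 906 (cons (fin 907 3 906)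
(mv 1035 (cons (fin 1034 1 970)
(mv 975 (cons (fin 1036 1 971)
(mv 976 (cons (fin 977 1 973)
(mv 909 (cons (fin 908 3 908)
(mv 845 (cons (fin 781 4 781)
(fin 1102 4 845)))))))))))))
(cons (mv 907 (cons (fin 906 3 906)
(mv 908 (cons (fin 975 3 907)
(mv 844 (cons (fin 780 4 780)
(mv 1101 (cons (fin 909 7 844)
(fin 1036 4 844)))))))))
(mv 1035 (cons (fin 1034 1 970)
(mv 975 (cons (fin 1036 1 971)
(mv 976 (cons (fin 977 1 973)
(mv 909 (cons (fin 908 3 908)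
(mv 845 (cons (fin 781 4 781)
(fin 1102 4 845)))))))))))))
(cons (mv 907 (cons (fin 906 3 906)
(mv 1035 (cons (fin 1034 1 970)
(mv 1036 (cons (mv 843 (cons (fin 779 4 779)
(fin 1100 4 843)))
(cons (mv 779 (cons (fin 843 4 779)
(mv 1099 (cons (fin 1098 1 1034)
(mv 908 (cons (fin 844 5 843)
(fin 1163 6 907)))))))
(mv 1099 (cons (fin 1098 1 1034)
(mv 908 (cons (fin 844 5 843)
(fin 1163 6 907))))))))))))
(cons (mv 907 (cons (fin 906 3 906)
(mv 908 (cons (fin 975 3 907)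
(mv 780 (cons (fin 844 4 780)
(mv 1035 (cons (fin 1034 1 970)
(mv 1099 (cons (fin 1163 6 907)
(mv 1098 (cons (fin 1162 5 906)
(mv 1100 (cons (fin 1101 2 1034)
(fin 1164 4 907)))))))))))))))
(mv 906 (cons (fin 907 3 906)
(mv 1035 (cons (fin 1034 1 970)
(mv 1036 (cons (fin 975 1 971)
(mv 1099 (cons (fin 1098 1 1034)
(mv 1102 (cons (fin 1103 0 1035)
(mv 909 (cons (fin 845 4 845)
(mv 1100 (cons (fin 1164 6 908)
(mv 1163 (cons (fin 1227 6 971)
(mv 1162 (cons (fin 1101 1 1098)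
(fin 1226 5 970)))))))))))))))))))))))))))))))))))
(cons (cons (mv 1038 (cons (cons (cons (mv 1039 (cons (fin 972 3 972)
(mv 976 (cons (fin 977 2 973)
(mv 1036 (cons (fin 975 2 972)
(mv 1100 (cons (fin 1099 1 1035)
(fin 1101 1 1036)))))))))
(mv 1102 (cons (cons (mv 909 (cons (fin 845 4 845)
(mv 1166 (cons (fin 974 7 909)
(fin 1230 7 973)))))
(mv 1166 (cons (fin 1230 7 973)
(mv 974 (cons (mv 911 (cons (fin 975 6 910)
(mv 910 (cons (fin 847 6 846)
(mv 846 (cons (fin 782 5 781)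
(fin 1101 5 845)))))))
(cons (mv 1167 (cons (fin 1231 4 974)
(mv 910 (cons (fin 1103 4 910)
(mv 846 (cons (fin 782 5 781)
(fin 1101 5 845)))))))
(mv 975 (cons (fin 911 6 910)
(mv 976 (cons (fin 1036 1 972)
(fin 977 1 973)))))))))))
(cons (mv 909 (cons (fin 845 4 845)
(mv 1101 (cons (cons (cons (mv 844 (cons (fin 908 7 844)
(mv 846 (cons (fin 910 6 845)
(mv 1100 (cons (fin 1164 5 908)
(mv 1099 (cons (fin 1098 2 1034)
(mv 1035 (cons (fin 1034 3 1034)
(mv 1036 (cons (fin 1103 3 1035)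
(mv 970 (cons (fin 971 3 970)
(mv 974 (cons (fin 975 2 971)
(mv 1163 (cons (fin 1162 1 1098)
(mv 1227 (cons (fin 972 6 971)
(fin 1291 6 1035)))))))))))))))))))))
(mv 908 (cons (fin 844 7 844)
(mv 910 (cons (fin 846 6 845)
(mv 974 (cons (mv 907 (cons (fin 906 0 906)
(fin 975 0 907)))
(cons (mv 847 (cons (fin 911 6 846)
(mv 907 (cons (fin 906 0 906)
(mv 843 (cons (fin 842 3 842)
(mv 971 (cons (fin 970 1 906)
(mv 1103 (cons (fin 1167 4 910)
(mv 1035 (cons (fin 1036 0 1035)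
(mv 1034 (cons (fin 972 1 970)
(fin 1098 5 842)))))))))))))))
(mv 911 (cons (fin 847 6 846)
(mv 912 (cons (fin 972 1 908)
(fin 913 1 909)))))))))))))
(cons (mv 844 (cons (fin 908 7 844)
(mv 1100 (cons (fin 1164 5 908)
(mv 1099 (cons (fin 1098 2 1034)
(mv 1035 (cons (fin 1034 3 1034)
(mv 1036 (cons (fin 1103 3 1035)
(mv 970 (cons (fin 971 3 970)
(mv 974 (cons (fin 975 2 971)
(mv 1163 (cons (fin 1162 1 1098)
(mv 1227 (cons (fin 972 6 971)
(fin 1291 6 1035)))))))))))))))))))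
(mv 846 (cons (fin 910 6 845)
(mv 1100 (cons (fin 1164 5 908)
(mv 1099 (cons (fin 1098 2 1034)
(mv 1035 (cons (fin 1034 3 1034)
(mv 1036 (cons (fin 1103 3 1035)
(mv 970 (cons (fin 971 3 970)
(mv 974 (cons (fin 975 2 971)
(mv 1163 (cons (fin 1162 1 1098)
(mv 1227 (cons (fin 972 6 971)
(fin 1291 6 1035)))))))))))))))))))))
(cons (cons (mv 846 (cons (fin 910 6 845)
(mv 908 (cons (fin 844 7 844)
(mv 1100 (cons (fin 1164 5 908)
(mv 1099 (cons (fin 1098 2 1034)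
(mv 1035 (cons (fin 1034 3 1034)
(mv 1163 (cons (fin 1162 1 1098)
(mv 971 (cons (fin 972 6 907)
(mv 906 (cons (fin 970 7 906)
(mv 907 (cons (fin 974 0 906)
(fin 842 7 842)))))))))))))))))))
(mv 908 (cons (fin 844 7 844)
(mv 910 (cons (fin 846 6 845)
(mv 1100 (cons (fin 1164 5 908)
(mv 1099 (cons (fin 1098 2 1034)
(mv 1163 (cons (fin 1162 1 1098)
(mv 972 (cons (fin 1036 5 907)
(mv 911 (cons (fin 971 1 907)
(fin 912 1 908))))))))))))))))
(cons (mv 844 (cons (fin 908 7 844)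
(mv 910 (cons (fin 846 6 845)
(mv 1100 (cons (fin 1164 5 908)
(mv 1099 (cons (fin 1098 2 1034)
(mv 1035 (cons (fin 1034 3 1034)
(mv 1103 (cons (fin 1036 3 1035)
(mv 1167 (cons (fin 1168 0 1100)
(fin 974 4 910)))))))))))))))
(mv 846 (cons (fin 910 6 845)
(mv 908 (cons (fin 844 7 844)
(mv 1100 (cons (fin 1164 5 908)
(mv 1035 (cons (mv 1034 (cons (fin 1099 3 1034)
(fin 1036 0 1034)))
(cons (mv 1099 (cons (fin 1034 3 1034)
(mv 1163 (cons (fin 1162 1 1098)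
(mv 971 (cons (fin 972 6 907)
(mv 906 (cons (fin 970 7 906)
(mv 907 (cons (fin 974 0 906)
(fin 842 7 842)))))))))))
(mv 1036 (cons (fin 1103 3 1035)
(mv 971 (cons (fin 970 3 970)
(mv 907 (cons (fin 843 4 843)
(mv 974 (cons (fin 975 2 971)
(fin 906 0 906))))))))))))))))))))))))
(mv 909 (cons (fin 845 4 845)
(mv 1166 (cons (fin 1230 7 973)
(fin 1101 4 909)))))))))
(cons (mv 1102 (cons (cons (mv 909 (cons (fin 845 4 845)
(mv 1166 (cons (fin 974 7 909)
(fin 1230 7 973)))))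
(mv 1166 (cons (fin 1230 7 973)
(mv 974 (cons (mv 911 (cons (fin 975 6 910)
(mv 910 (cons (fin 847 6 846)
(mv 846 (cons (fin 782 5 781)
(fin 1101 5 845)))))))
(cons (mv 1167 (cons (fin 1231 4 974)
(mv 910 (cons (fin 1103 4 910)
(mv 846 (cons (fin 782 5 781)
(fin 1101 5 845)))))))
(mv 975 (cons (fin 911 6 910)
(mv 976 (cons (fin 1036 1 972)
(fin 977 1 973)))))))))))
(cons (mv 845 (cons (fin 909 4 845)
(mv 1036 (cons (mv 1035 (cons (fin 1103 0 1035)
(mv 974 (cons (fin 1034 2 970)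
(fin 975 2 971)))))
(cons (mv 1039 (cons (mv 976 (cons (fin 975 2 972)
(fin 977 2 973)))
(mv 1100 (cons (fin 1099 1 1035)
(fin 1101 1 1036)))))
(mv 1035 (cons (fin 1103 0 1035)
(mv 1034 (cons (fin 974 2 970)
(fin 1101 0 1034))))))))))
(mv 909 (cons (fin 845 4 845)
(mv 1166 (cons (fin 1230 7 973)
(fin 1101 4 909))))))))
(mv 1039 (cons (fin 972 3 972)
(mv 976 (cons (fin 977 2 973)
(mv 1036 (cons (fin 975 2 972)
(mv 1099 (cons (fin 1100 1 1035)
(mv 1035 (cons (fin 1098 1 1034)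
(mv 970 (cons (fin 971 3 970)
(mv 1034 (cons (fin 969 3 969)
(fin 974 2 970)))))))))))))))))
(cons (cons (mv 972 (cons (fin 1039 3 972)
(mv 970 (cons (fin 971 0 970)
(mv 1102 (cons (cons (mv 909 (cons (fin 845 4 845)
(mv 1166 (cons (fin 974 7 909)
(fin 1230 7 973)))))
(mv 1166 (cons (fin 1230 7 973)
(mv 974 (cons (mv 911 (cons (fin 975 6 910)
(mv 910 (cons (fin 847 6 846)
(mv 846 (cons (fin 782 5 781)
(fin 1101 5 845)))))))
(cons (mv 1167 (cons (fin 1231 4 974)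
(mv 910 (cons (fin 1103 4 910)
(mv 846 (cons (fin 782 5 781)
(fin 1101 5 845)))))))
(mv 975 (cons (fin 911 6 910)
(mv 976 (cons (fin 1036 1 972)
(fin 977 1 973)))))))))))
(cons (mv 909 (cons (fin 845 4 845)
(mv 908 (cons (mv 844 (cons (fin 1101 7 844)
(fin 780 4 780)))
(cons (mv 910 (cons (mv 846 (cons (fin 1101 6 845)
(mv 782 (cons (fin 718 5 717)
(fin 974 5 781)))))
(cons (mv 911 (cons (fin 912 1 908)
(mv 847 (cons (fin 848 2 844)
(fin 974 6 846)))))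
(mv 846 (cons (fin 1101 6 845)
(mv 718 (cons (fin 782 5 717)
(mv 847 (cons (fin 907 2 843)
(mv 848 (cons (fin 849 1 845)
(fin 911 2 844))))))))))))
(mv 844 (cons (fin 780 4 780)
(mv 1036 (cons (mv 1035 (cons (fin 1103 0 1035)
(fin 1099 5 843)))
(mv 843 (cons (fin 779 7 779)
(mv 842 (cons (fin 841 0 841)
(mv 910 (cons (fin 907 3 842)
(fin 911 3 843))))))))))))))))
(mv 909 (cons (fin 845 4 845)
(mv 1166 (cons (fin 1230 7 973)
(fin 1101 4 909))))))))))))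
(mv 972 (cons (fin 1039 3 972)
(mv 970 (cons (fin 971 0 970)
(mv 1102 (cons (cons (mv 909 (cons (fin 845 4 845)
(mv 1166 (cons (fin 974 7 909)
(fin 1230 7 973)))))
(mv 1166 (cons (fin 1230 7 973)
(mv 974 (cons (cons (mv 911 (cons (fin 975 6 910)
(mv 910 (cons (fin 847 6 846)
(mv 846 (cons (fin 782 5 781)
(fin 1101 5 845)))))))
(mv 1167 (cons (fin 1231 4 974)
(mv 910 (cons (fin 1103 4 910)
(mv 846 (cons (fin 782 5 781)
(fin 1101 5 845))))))))
(cons (mv 975 (cons (fin 911 6 910)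
(mv 908 (cons (fin 907 3 907)
(mv 844 (cons (fin 780 4 780)
(mv 1036 (cons (fin 1035 1 971)
(fin 1101 4 844)))))))))
(mv 911 (cons (fin 975 6 910)
(mv 910 (cons (fin 847 6 846)
(mv 1167 (cons (fin 1103 4 910)
(fin 1231 4 974)))))))))))))
(cons (mv 909 (cons (fin 845 4 845)
(mv 1101 (cons (cons (mv 844 (cons (fin 908 7 844)
(mv 846 (cons (fin 910 6 845)
(mv 1100 (cons (fin 1164 5 908)
(mv 1099 (cons (fin 1098 2 1034)
(mv 1035 (cons (fin 1034 3 1034)
(mv 1036 (cons (fin 1103 3 1035)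
(mv 1163 (cons (fin 1162 1 1098)
(fin 1227 6 971)))))))))))))))
(mv 908 (cons (fin 844 7 844)
(mv 910 (cons (fin 846 6 845)
(mv 911 (cons (fin 912 1 908)
(mv 847 (cons (fin 848 2 844)
(fin 974 6 846))))))))))
(cons (mv 846 (cons (fin 910 6 845)
(mv 1100 (cons (fin 1164 5 908)
(mv 1099 (cons (fin 1098 2 1034)
(mv 1035 (cons (fin 1034 3 1034)
(mv 1036 (cons (fin 1103 3 1035)
(mv 1163 (cons (fin 1162 1 1098)
(fin 1227 6 971)))))))))))))
(mv 844 (cons (fin 908 7 844)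
(mv 1100 (cons (fin 1164 5 908)
(mv 1099 (cons (fin 1098 2 1034)
(mv 1035 (cons (fin 1034 3 1034)
(mv 1036 (cons (fin 1103 3 1035)
(mv 1163 (cons (fin 1162 1 1098)
(fin 1227 6 971))))))))))))))))))
(mv 909 (cons (fin 845 4 845)
(mv 1166 (cons (fin 1230 7 973)
(fin 1101 4 909)))))))))))))
(cons (mv 972 (cons (fin 1039 3 972)
(mv 970 (cons (fin 971 0 970)
(mv 909 (cons (cons (mv 845 (cons (fin 1102 4 845)
(mv 780 (cons (fin 844 7 780)
(mv 781 (cons (fin 716 7 716)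
(fin 974 4 781)))))))
(mv 910 (cons (cons (mv 846 (cons (fin 1101 6 845)
(mv 782 (cons (fin 718 5 717)
(fin 974 5 781)))))
(mv 911 (cons (fin 912 1 908)
(mv 908 (cons (mv 844 (cons (fin 843 3 843)
(fin 780 4 780)))
(mv 847 (cons (fin 848 2 844)
(mv 846 (cons (fin 907 2 843)
(mv 782 (cons (fin 718 5 717)
(fin 974 5 781))))))))))))
(cons (mv 911 (cons (fin 912 1 908)
(mv 908 (cons (mv 844 (cons (fin 843 3 843)
(fin 1101 7 844)))
(mv 847 (cons (fin 848 2 844)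
(mv 974 (cons (fin 1102 6 846)
(mv 783 (cons (fin 719 5 718)
(fin 975 5 782)))))))))))
(mv 846 (cons (fin 1101 6 845)
(mv 718 (cons (fin 782 5 717)
(mv 911 (cons (fin 912 1 908)
(mv 908 (cons (mv 844 (cons (fin 843 3 843)
(fin 780 4 780)))
(mv 847 (cons (fin 907 2 843)
(fin 848 2 844)))))))))))))))
(cons (mv 845 (cons (mv 780 (cons (fin 844 7 780)
(mv 781 (cons (fin 716 7 716)
(fin 974 4 781)))))
(cons (mv 844 (cons (fin 780 7 780)
(mv 846 (cons (fin 782 6 781)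
(mv 1101 (cons (fin 908 7 844)
(fin 910 6 845)))))))
(mv 781 (cons (fin 974 4 781)
(mv 782 (cons (fin 718 6 717)
(fin 846 6 781))))))))
(cons (mv 845 (cons (fin 1102 4 845)
(mv 781 (cons (fin 974 4 781)
(mv 782 (cons (fin 718 6 717)
(fin 846 6 781)))))))
(mv 845 (cons (fin 1102 4 845)
(mv 780 (cons (fin 844 7 780)
(mv 781 (cons (fin 716 7 716)
(mv 782 (cons (fin 718 6 717)
(fin 846 6 781)))))))))))))))))
(mv 972 (cons (fin 1039 3 972)
(mv 970 (cons (fin 971 0 970)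
(mv 909 (cons (cons (mv 845 (cons (fin 1102 4 845)
(mv 781 (cons (fin 1036 5 780)
(fin 974 4 781)))))
(mv 1101 (cons (cons (mv 844 (cons (fin 908 7 844)
(mv 846 (cons (fin 910 6 845)
(mv 1100 (cons (fin 1164 5 908)
(mv 1099 (cons (fin 1098 2 1034)
(mv 1102 (cons (fin 1166 4 909)
(mv 1035 (cons (fin 1034 3 1034)
(mv 1036 (cons (fin 1103 3 1035)
(mv 1163 (cons (fin 1162 1 1098)
(fin 1227 6 971)))))))))))))))))
(mv 846 (cons (fin 910 6 845)
(mv 1100 (cons (fin 1164 5 908)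
(mv 1099 (cons (fin 1098 2 1034)
(mv 1102 (cons (fin 1166 4 909)
(mv 1035 (cons (fin 1034 3 1034)
(mv 1036 (cons (fin 1103 3 1035)
(mv 1163 (cons (fin 1162 1 1098)
(fin 1227 6 971))))))))))))))))
(cons (mv 846 (cons (fin 910 6 845)
(mv 908 (cons (fin 844 7 844)
(mv 1100 (cons (fin 1164 5 908)
(mv 1099 (cons (fin 1098 2 1034)
(mv 1036 (cons (fin 1163 5 907)
(mv 907 (cons (fin 843 7 843)
(mv 906 (cons (fin 969 1 905)
(fin 905 0 905)))))))))))))))
(cons (mv 908 (cons (fin 844 7 844)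
(mv 910 (cons (fin 846 6 845)
(mv 911 (cons (fin 912 1 908)
(mv 847 (cons (fin 848 2 844)
(mv 1102 (cons (fin 974 6 846)
(fin 1166 4 909)))))))))))
(mv 844 (cons (fin 908 7 844)
(mv 1100 (cons (fin 1164 5 908)
(mv 1099 (cons (fin 1098 2 1034)
(mv 1102 (cons (fin 1166 4 909)
(mv 1035 (cons (fin 1034 3 1034)
(mv 1036 (cons (fin 1103 3 1035)
(mv 1163 (cons (fin 1162 1 1098)
(fin 1227 6 971))))))))))))))))))))
(cons (mv 845 (cons (mv 781 (cons (fin 1036 5 780)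
(fin 974 4 781)))
(cons (mv 780 (cons (fin 844 7 780)
(mv 846 (cons (fin 782 6 781)
(mv 1100 (cons (fin 1036 5 844)
(mv 1101 (cons (fin 1164 5 908)
(fin 910 6 845)))))))))
(mv 780 (cons (fin 844 7 780)
(mv 781 (cons (fin 716 7 716)
(fin 974 4 781))))))))
(cons (mv 845 (cons (fin 1102 4 845)
(mv 780 (cons (fin 844 7 780)
(mv 781 (cons (fin 716 7 716)
(fin 974 4 781)))))))
(mv 845 (cons (fin 1102 4 845)
(mv 1036 (cons (fin 781 5 780)
(fin 1100 5 844)))))))))))))))))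
(mv 1038 (cons (cons (mv 1039 (cons (fin 972 3 972)
(mv 976 (cons (fin 977 2 973)
(mv 975 (cons (fin 1036 2 972)
(mv 1100 (cons (fin 1101 1 1036)
(mv 1104 (cons (fin 1105 0 1037)
(mv 911 (cons (fin 1168 7 911)
(fin 847 4 847)))))))))))))
(cons (mv 909 (cons (cons (mv 845 (cons (fin 1102 4 845)
(mv 780 (cons (fin 844 7 780)
(mv 781 (cons (fin 716 7 716)
(fin 974 4 781)))))))
(mv 1101 (cons (cons (mv 846 (cons (fin 910 6 845)
(mv 908 (cons (fin 844 7 844)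
(mv 1100 (cons (fin 1164 5 908)
(mv 1099 (cons (fin 1098 2 1034)
(mv 1102 (cons (fin 1166 4 909)
(mv 1035 (cons (fin 1034 3 1034)
(mv 1163 (cons (fin 1162 1 1098)
(mv 972 (cons (fin 1036 5 907)
(fin 971 6 907)))))))))))))))))
(cons (mv 908 (cons (fin 844 7 844)
(mv 910 (cons (fin 846 6 845)
(mv 1100 (cons (fin 1164 5 908)
(mv 1098 (cons (fin 1099 2 1034)
(mv 907 (cons (cons (mv 974 (cons (fin 906 0 906)
(fin 975 0 907)))
(mv 842 (cons (fin 843 3 842)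
(mv 841 (cons (fin 906 3 841)
(mv 971 (cons (fin 970 1 906)
(mv 911 (cons (fin 972 1 907)
(mv 847 (cons (fin 848 2 844)
(mv 976 (cons (fin 975 0 908)
(mv 912 (cons (fin 977 0 909)
(fin 1104 7 847))))))))))))))))
(cons (mv 842 (cons (fin 843 3 842)
(mv 970 (cons (fin 971 1 906)
(mv 975 (cons (fin 974 0 907)
(mv 911 (cons (fin 976 0 908)
(mv 848 (cons (fin 847 2 844)
(mv 912 (cons (fin 972 1 908)
(fin 849 2 845)))))))))))))
(mv 842 (cons (fin 843 3 842)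
(mv 906 (cons (fin 841 3 841)
(fin 974 0 906))))))))))))))))
(mv 908 (cons (fin 844 7 844)
(mv 1100 (cons (fin 1164 5 908)
(mv 1099 (cons (fin 1098 2 1034)
(mv 1102 (cons (fin 1166 4 909)
(mv 1035 (cons (fin 1034 3 1034)
(mv 1163 (cons (fin 1162 1 1098)
(mv 972 (cons (fin 1036 5 907)
(fin 971 6 907)))))))))))))))))
(cons (cons (mv 908 (cons (fin 844 7 844)
(mv 910 (cons (fin 846 6 845)
(mv 1102 (cons (fin 1166 4 909)
(mv 911 (cons (mv 847 (cons (fin 848 2 844)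
(fin 974 6 846)))
(mv 972 (cons (fin 971 1 907)
(fin 912 1 908)))))))))))
(mv 910 (cons (fin 846 6 845)
(mv 1100 (cons (fin 1164 5 908)
(mv 1099 (cons (fin 1098 2 1034)
(mv 1102 (cons (fin 1166 4 909)
(mv 1035 (cons (fin 1034 3 1034)
(mv 1163 (cons (fin 1162 1 1098)
(mv 1227 (cons (mv 1036 (cons (fin 972 6 971)
(fin 1291 6 1035)))
(cons (mv 1290 (cons (fin 1226 5 1034)
(mv 1291 (cons (fin 1354 5 1098)
(mv 1292 (cons (fin 1228 4 1035)
(fin 1356 4 1099)))))))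
(mv 972 (cons (fin 1036 6 971)
(mv 911 (cons (fin 912 1 908)
(mv 971 (cons (fin 970 2 906)
(fin 974 2 907)))))))))))))))))))))))
(cons (mv 908 (cons (fin 844 7 844)
(mv 910 (cons (fin 846 6 845)
(mv 1100 (cons (fin 1164 5 908)
(mv 1098 (cons (fin 1099 2 1034)
(mv 1102 (cons (fin 1166 4 909)
(mv 974 (cons (mv 907 (cons (fin 906 0 906)
(fin 975 0 907)))
(cons (mv 847 (cons (fin 911 6 846)
(mv 907 (cons (fin 906 0 906)
(mv 843 (cons (fin 842 3 842)
(mv 971 (cons (fin 970 1 906)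
(mv 1035 (cons (fin 1034 5 842)
(fin 1036 4 843)))))))))))
(mv 911 (cons (fin 847 6 846)
(mv 912 (cons (fin 913 1 909)
(mv 976 (cons (fin 975 3 908)
(fin 977 0 909))))))))))))))))))))
(mv 908 (cons (fin 844 7 844)
(mv 910 (cons (fin 846 6 845)
(mv 1100 (cons (fin 1164 5 908)
(mv 1099 (cons (fin 1098 2 1034)
(mv 1102 (cons (fin 1166 4 909)
(mv 1034 (cons (fin 1035 3 1034)
(mv 1163 (cons (fin 1162 1 1098)
(mv 972 (cons (fin 1036 5 907)
(mv 911 (cons (fin 912 1 908)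
(mv 847 (cons (fin 848 2 844)
(fin 974 6 846))))))))))))))))))))))))))
(cons (mv 845 (cons (mv 780 (cons (fin 844 7 780)
(mv 781 (cons (fin 716 7 716)
(fin 974 4 781)))))
(cons (mv 780 (cons (fin 844 7 780)
(mv 846 (cons (fin 782 6 781)
(mv 1100 (cons (fin 1036 5 844)
(mv 1101 (cons (fin 1164 5 908)
(fin 910 6 845)))))))))
(mv 781 (cons (fin 974 4 781)
(mv 782 (cons (fin 718 6 717)
(fin 846 6 781))))))))
(cons (mv 845 (cons (fin 1102 4 845)
(mv 780 (cons (fin 844 7 780)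
(mv 716 (cons (fin 781 7 716)
(mv 846 (cons (fin 782 6 781)
(mv 1100 (cons (fin 1036 5 844)
(mv 1101 (cons (fin 1164 5 908)
(fin 910 6 845)))))))))))))
(mv 845 (cons (fin 1102 4 845)
(mv 781 (cons (fin 974 4 781)
(mv 782 (cons (fin 718 6 717)
(fin 846 6 781)))))))))))
(mv 909 (cons (cons (mv 845 (cons (fin 1102 4 845)
(mv 780 (cons (fin 844 7 780)
(mv 781 (cons (fin 716 7 716)
(fin 974 4 781)))))))
(mv 1101 (cons (mv 1100 (cons (fin 1039 1 1036)
(fin 1164 5 908)))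
(cons (mv 908 (cons (fin 844 7 844)
(mv 910 (cons (fin 846 6 845)
(mv 1102 (cons (fin 1166 4 909)
(mv 907 (cons (mv 974 (cons (fin 906 0 906)
(fin 975 0 907)))
(cons (mv 842 (cons (fin 843 3 842)
(mv 906 (cons (fin 841 3 841)
(mv 970 (cons (fin 969 1 905)
(fin 971 1 906)))))))
(mv 842 (cons (fin 843 3 842)
(mv 970 (cons (fin 971 1 906)
(mv 975 (cons (fin 974 0 907)
(mv 911 (cons (fin 976 0 908)
(mv 847 (cons (fin 848 2 844)
(fin 1039 5 846))))))))))))))))))))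
(mv 908 (cons (fin 844 7 844)
(mv 910 (cons (fin 846 6 845)
(mv 1100 (cons (fin 1164 5 908)
(mv 1098 (cons (fin 1099 2 1034)
(mv 1102 (cons (fin 1166 4 909)
(mv 974 (cons (mv 907 (cons (fin 906 0 906)
(fin 975 0 907)))
(cons (mv 847 (cons (fin 911 6 846)
(mv 907 (cons (fin 906 0 906)
(mv 843 (cons (fin 842 3 842)
(mv 971 (cons (fin 970 1 906)
(mv 1035 (cons (fin 1034 5 842)
(fin 1036 4 843)))))))))))
(mv 911 (cons (fin 847 6 846)
(mv 912 (cons (fin 913 1 909)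
(mv 976 (cons (fin 975 3 908)
(fin 977 0 909))))))))))))))))))))))))
(cons (mv 845 (cons (mv 780 (cons (fin 844 7 780)
(mv 781 (cons (fin 716 7 716)
(fin 974 4 781)))))
(cons (mv 780 (cons (fin 844 7 780)
(mv 782 (cons (fin 846 6 781)
(mv 1100 (cons (fin 1036 5 844)
(mv 1101 (cons (fin 1039 1 1036)
(fin 1164 5 908)))))))))
(mv 781 (cons (fin 974 4 781)
(mv 782 (cons (fin 718 6 717)
(fin 846 6 781))))))))
(cons (mv 845 (cons (fin 1102 4 845)
(mv 780 (cons (fin 844 7 780)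
(mv 716 (cons (fin 781 7 716)
(mv 782 (cons (fin 846 6 781)
(mv 1100 (cons (fin 1036 5 844)
(mv 1101 (cons (fin 1039 1 1036)
(fin 1164 5 908)))))))))))))
(mv 845 (cons (fin 1102 4 845)
(mv 781 (cons (fin 974 4 781)
(mv 782 (cons (fin 718 6 717)
(fin 846 6 781)))))))))))))
(cons (cons (mv 1039 (cons (fin 972 3 972)
(mv 976 (cons (fin 977 2 973)
(mv 975 (cons (fin 1036 2 972)
(mv 1104 (cons (fin 1105 0 1037)
(mv 911 (cons (fin 1168 7 911)
(fin 847 4 847)))))))))))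
(mv 972 (cons (fin 1039 3 972)
(mv 970 (cons (fin 971 0 970)
(mv 909 (cons (cons (mv 845 (cons (fin 1102 4 845)
(mv 781 (cons (fin 1036 5 780)
(fin 974 4 781)))))
(mv 1101 (cons (cons (mv 844 (cons (fin 908 7 844)
(mv 846 (cons (fin 910 6 845)
(mv 1100 (cons (fin 1164 5 908)
(mv 1099 (cons (fin 1098 2 1034)
(mv 1102 (cons (fin 1166 4 909)
(mv 1035 (cons (fin 1034 3 1034)
(mv 1163 (cons (fin 1162 1 1098)
(mv 1227 (cons (fin 1036 6 971)
(mv 1290 (cons (fin 1226 5 1034)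
(mv 1291 (cons (fin 1354 5 1098)
(mv 1292 (cons (fin 1228 4 1035)
(fin 1356 4 1099)))))))))))))))))))))))
(mv 846 (cons (fin 910 6 845)
(mv 1100 (cons (fin 1164 5 908)
(mv 1099 (cons (fin 1098 2 1034)
(mv 1102 (cons (fin 1166 4 909)
(mv 1035 (cons (fin 1034 3 1034)
(mv 1163 (cons (fin 1162 1 1098)
(mv 1227 (cons (fin 1036 6 971)
(mv 1290 (cons (fin 1226 5 1034)
(mv 1291 (cons (fin 1354 5 1098)
(mv 1292 (cons (fin 1228 4 1035)
(fin 1356 4 1099))))))))))))))))))))))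
(cons (mv 908 (cons (fin 844 7 844)
(mv 910 (cons (fin 846 6 845)
(mv 911 (cons (fin 912 1 908)
(mv 847 (cons (fin 848 2 844)
(mv 1102 (cons (fin 974 6 846)
(fin 1166 4 909)))))))))))
(cons (mv 844 (cons (fin 908 7 844)
(mv 1100 (cons (fin 1164 5 908)
(mv 1099 (cons (fin 1098 2 1034)
(mv 1102 (cons (fin 1166 4 909)
(mv 1035 (cons (fin 1034 3 1034)
(mv 1163 (cons (fin 1162 1 1098)
(mv 1227 (cons (fin 1036 6 971)
(mv 1290 (cons (fin 1226 5 1034)
(mv 1291 (cons (fin 1354 5 1098)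
(mv 1292 (cons (fin 1228 4 1035)
(fin 1356 4 1099)))))))))))))))))))))
(mv 846 (cons (fin 910 6 845)
(mv 908 (cons (fin 844 7 844)
(mv 1100 (cons (fin 1164 5 908)
(mv 1099 (cons (fin 1098 2 1034)
(mv 1036 (cons (fin 1163 5 907)
(mv 907 (cons (fin 843 7 843)
(mv 906 (cons (fin 969 1 905)
(fin 905 0 905))))))))))))))))))))
(cons (mv 845 (cons (mv 781 (cons (fin 1036 5 780)
(fin 974 4 781)))
(cons (mv 780 (cons (fin 844 7 780)
(mv 846 (cons (fin 782 6 781)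
(mv 1100 (cons (fin 1036 5 844)
(mv 1101 (cons (fin 1164 5 908)
(fin 910 6 845)))))))))
(mv 780 (cons (fin 844 7 780)
(mv 781 (cons (fin 716 7 716)
(fin 974 4 781))))))))
(cons (mv 845 (cons (fin 1102 4 845)
(mv 780 (cons (fin 844 7 780)
(mv 781 (cons (fin 716 7 716)
(fin 974 4 781)))))))
(mv 845 (cons (fin 1102 4 845)
(mv 1036 (cons (fin 781 5 780)
(fin 1100 5 844))))))))))))))
(cons (mv 972 (cons (fin 1039 3 972)
(mv 970 (cons (fin 971 0 970)
(mv 909 (cons (cons (mv 845 (cons (fin 1102 4 845)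
(mv 780 (cons (fin 844 7 780)
(mv 781 (cons (fin 716 7 716)
(fin 974 4 781)))))))
(mv 910 (cons (cons (mv 846 (cons (fin 1101 6 845)
(mv 782 (cons (fin 718 5 717)
(fin 974 5 781)))))
(mv 911 (cons (fin 912 1 908)
(mv 908 (cons (mv 844 (cons (fin 843 3 843)
(fin 780 4 780)))
(mv 847 (cons (fin 848 2 844)
(mv 846 (cons (fin 907 2 843)
(mv 782 (cons (fin 718 5 717)
(fin 974 5 781))))))))))))
(cons (mv 911 (cons (fin 912 1 908)
(mv 908 (cons (mv 844 (cons (fin 843 3 843)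
(fin 1101 7 844)))
(mv 847 (cons (fin 848 2 844)
(mv 974 (cons (fin 1102 6 846)
(mv 783 (cons (fin 719 5 718)
(fin 975 5 782)))))))))))
(mv 846 (cons (fin 1101 6 845)
(mv 718 (cons (fin 782 5 717)
(mv 911 (cons (fin 912 1 908)
(mv 908 (cons (mv 844 (cons (fin 843 3 843)
(fin 780 4 780)))
(mv 847 (cons (fin 907 2 843)
(fin 848 2 844)))))))))))))))
(cons (mv 845 (cons (mv 780 (cons (fin 844 7 780)
(mv 781 (cons (fin 716 7 716)
(fin 974 4 781)))))
(cons (mv 844 (cons (fin 780 7 780)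
(mv 846 (cons (fin 782 6 781)
(mv 1101 (cons (fin 908 7 844)
(fin 910 6 845)))))))
(mv 781 (cons (fin 974 4 781)
(mv 782 (cons (fin 718 6 717)
(fin 846 6 781))))))))
(cons (mv 845 (cons (fin 1102 4 845)
(mv 781 (cons (fin 974 4 781)
(mv 782 (cons (fin 718 6 717)
(fin 846 6 781)))))))
(mv 845 (cons (fin 1102 4 845)
(mv 780 (cons (fin 844 7 780)
(mv 781 (cons (fin 716 7 716)
(mv 782 (cons (fin 718 6 717)
(fin 846 6 781)))))))))))))))))
(mv 1039 (cons (fin 972 3 972)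
(mv 976 (cons (fin 977 2 973)
(mv 975 (cons (fin 1036 2 972)
(mv 1101 (cons (fin 1100 1 1036)
(mv 1104 (cons (fin 1105 0 1037)
(mv 1168 (cons (fin 1232 7 975)
(mv 1167 (cons (fin 1231 5 975)
(mv 1169 (cons (fin 1233 4 976)
(mv 1102 (cons (fin 1166 3 1101)
(mv 909 (cons (fin 845 4 845)
(mv 908 (cons (fin 974 3 908)
(fin 844 7 844))))))))))))))))))))))))))))
(cons (mv 1038 (cons (cons (mv 972 (cons (fin 1039 3 972)
(mv 971 (cons (fin 970 0 970)
(mv 974 (cons (cons (mv 906 (cons (fin 907 3 906)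
(mv 1035 (cons (fin 1034 1 970)
(mv 975 (cons (fin 1036 1 971)
(mv 976 (cons (fin 977 1 973)
(mv 909 (cons (fin 908 3 908)
(mv 845 (cons (fin 781 4 781)
(fin 1102 4 845)))))))))))))
(cons (mv 907 (cons (fin 906 3 906)
(mv 908 (cons (fin 975 3 907)
(mv 844 (cons (fin 780 4 780)
(mv 1101 (cons (fin 909 7 844)
(fin 1036 4 844)))))))))
(mv 1035 (cons (fin 1034 1 970)
(mv 975 (cons (fin 1036 1 971)
(mv 976 (cons (fin 977 1 973)
(mv 909 (cons (fin 908 3 908)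
(mv 845 (cons (fin 781 4 781)
(fin 1102 4 845)))))))))))))
(cons (mv 906 (cons (fin 907 3 906)
(mv 1035 (cons (fin 1034 1 970)
(mv 1102 (cons (mv 909 (cons (fin 1166 7 909)
(fin 845 4 845)))
(mv 1036 (cons (fin 1103 0 1035)
(mv 1099 (cons (fin 1098 1 1034)
(mv 908 (cons (fin 844 5 843)
(fin 1163 6 907)))))))))))))
(cons (mv 907 (cons (fin 906 3 906)
(mv 908 (cons (fin 975 3 907)
(mv 780 (cons (fin 844 4 780)
(mv 1035 (cons (fin 1034 1 970)
(mv 1099 (cons (fin 1163 6 907)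
(mv 1098 (cons (fin 1162 5 906)
(mv 1100 (cons (fin 1101 2 1034)
(fin 1164 4 907)))))))))))))))
(mv 906 (cons (fin 907 3 906)
(mv 1035 (cons (fin 1034 1 970)
(mv 1036 (cons (fin 975 1 971)
(mv 1098 (cons (fin 1099 1 1034)
(mv 1102 (cons (fin 1103 0 1035)
(mv 909 (cons (fin 1166 7 909)
(fin 845 4 845)))))))))))))))))))))
(cons (mv 909 (cons (cons (mv 845 (cons (fin 1102 4 845)
(mv 780 (cons (fin 844 7 780)
(mv 781 (cons (fin 716 7 716)
(fin 974 4 781)))))))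
(mv 1101 (cons (cons (cons (mv 844 (cons (fin 908 7 844)
(mv 846 (cons (fin 910 6 845)
(mv 1100 (cons (fin 1164 5 908)
(mv 1099 (cons (fin 1098 2 1034)
(mv 1102 (cons (fin 1166 4 909)
(mv 1035 (cons (fin 1034 3 1034)
(mv 1036 (cons (fin 1103 3 1035)
(mv 970 (cons (fin 971 3 970)
(mv 974 (cons (fin 975 2 971)
(mv 1163 (cons (fin 1162 1 1098)
(mv 1227 (cons (fin 972 6 971)
(fin 1291 6 1035)))))))))))))))))))))))
(mv 908 (cons (fin 844 7 844)
(mv 910 (cons (fin 846 6 845)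
(mv 1100 (cons (fin 1164 5 908)
(mv 1098 (cons (fin 1099 2 1034)
(mv 907 (cons (mv 974 (cons (fin 906 0 906)
(fin 975 0 907)))
(cons (mv 842 (cons (fin 843 3 842)
(mv 906 (cons (fin 841 3 841)
(mv 970 (cons (fin 969 1 905)
(fin 971 1 906)))))))
(mv 843 (cons (fin 842 3 842)
(mv 971 (cons (fin 970 1 906)
(mv 1035 (cons (fin 1034 5 842)
(fin 1036 4 843)))))))))))))))))))
(cons (mv 908 (cons (fin 844 7 844)
(mv 910 (cons (fin 846 6 845)
(mv 1102 (cons (fin 1166 4 909)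
(mv 974 (cons (mv 907 (cons (fin 906 0 906)
(fin 975 0 907)))
(cons (mv 906 (cons (fin 907 0 906)
(mv 1103 (cons (fin 1167 4 910)
(mv 1036 (cons (fin 1104 3 1036)
(fin 1035 0 1035)))))))
(mv 975 (cons (fin 976 3 908)
(mv 1036 (cons (fin 1035 2 971)
(mv 1103 (cons (fin 1104 3 1036)
(fin 1167 4 910))))))))))))))))
(mv 844 (cons (fin 908 7 844)
(mv 1100 (cons (fin 1164 5 908)
(mv 1099 (cons (fin 1098 2 1034)
(mv 1102 (cons (fin 1166 4 909)
(mv 1035 (cons (fin 1034 3 1034)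
(mv 1036 (cons (fin 1103 3 1035)
(mv 970 (cons (fin 971 3 970)
(mv 974 (cons (fin 975 2 971)
(mv 1163 (cons (fin 1162 1 1098)
(mv 1227 (cons (fin 972 6 971)
(fin 1291 6 1035)))))))))))))))))))))))
(cons (cons (mv 846 (cons (fin 910 6 845)
(mv 1100 (cons (fin 1164 5 908)
(mv 1099 (cons (fin 1098 2 1034)
(mv 1102 (cons (fin 1166 4 909)
(mv 1035 (cons (fin 1034 3 1034)
(mv 1036 (cons (fin 1103 3 1035)
(mv 970 (cons (fin 971 3 970)
(mv 974 (cons (fin 975 2 971)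
(mv 1163 (cons (fin 1162 1 1098)
(mv 1227 (cons (fin 972 6 971)
(fin 1291 6 1035)))))))))))))))))))))
(mv 844 (cons (fin 908 7 844)
(mv 846 (cons (fin 910 6 845)
(mv 1100 (cons (fin 1164 5 908)
(mv 1099 (cons (fin 1098 2 1034)
(mv 1102 (cons (fin 1166 4 909)
(mv 1035 (cons (fin 1034 3 1034)
(mv 1036 (cons (fin 1103 3 1035)
(mv 970 (cons (fin 971 3 970)
(mv 1163 (cons (fin 1162 1 1098)
(mv 1227 (cons (fin 972 6 971)
(fin 1291 6 1035))))))))))))))))))))))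
(cons (mv 846 (cons (fin 910 6 845)
(mv 908 (cons (fin 844 7 844)
(mv 1100 (cons (fin 1164 5 908)
(mv 1099 (cons (fin 1098 2 1034)
(mv 1102 (cons (fin 1166 4 909)
(mv 1035 (cons (fin 1034 3 1034)
(mv 1163 (cons (fin 1162 1 1098)
(mv 971 (cons (fin 972 6 907)
(mv 906 (cons (fin 970 7 906)
(mv 907 (cons (fin 974 0 906)
(fin 842 7 842)))))))))))))))))))))
(mv 908 (cons (fin 844 7 844)
(mv 910 (cons (fin 846 6 845)
(mv 1100 (cons (fin 1164 5 908)
(mv 1099 (cons (fin 1098 2 1034)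
(mv 1102 (cons (fin 1166 4 909)
(mv 1163 (cons (fin 1162 1 1098)
(mv 1036 (cons (fin 972 5 907)
(mv 1103 (cons (fin 1104 3 1036)
(mv 1167 (cons (fin 1168 0 1100)
(fin 974 4 910))))))))))))))))))))))))
(cons (mv 845 (cons (mv 780 (cons (fin 844 7 780)
(mv 781 (cons (fin 716 7 716)
(fin 974 4 781)))))
(cons (mv 780 (cons (fin 844 7 780)
(mv 846 (cons (fin 782 6 781)
(mv 1100 (cons (fin 1036 5 844)
(mv 1101 (cons (fin 1164 5 908)
(fin 910 6 845)))))))))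
(mv 781 (cons (fin 974 4 781)
(mv 782 (cons (fin 718 6 717)
(fin 846 6 781))))))))
(cons (mv 845 (cons (fin 1102 4 845)
(mv 780 (cons (fin 844 7 780)
(mv 716 (cons (fin 781 7 716)
(mv 846 (cons (fin 782 6 781)
(mv 1100 (cons (fin 1036 5 844)
(mv 1101 (cons (fin 1164 5 908)
(fin 910 6 845)))))))))))))
(mv 845 (cons (fin 1102 4 845)
(mv 781 (cons (fin 974 4 781)
(mv 782 (cons (fin 718 6 717)
(fin 846 6 781)))))))))))
(mv 1039 (cons (cons (mv 976 (cons (fin 977 2 973)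
(mv 975 (cons (fin 1036 2 972)
(mv 1100 (cons (fin 1101 1 1036)
(mv 1104 (cons (fin 1105 0 1037)
(mv 1168 (cons (fin 1232 7 975)
(mv 1167 (cons (fin 1231 5 975)
(mv 912 (cons (fin 1103 5 911)
(mv 913 (cons (fin 974 2 909)
(fin 849 6 848)))))))))))))))))
(mv 1100 (cons (fin 1101 1 1036)
(mv 1036 (cons (fin 1099 1 1035)
(mv 1104 (cons (fin 1103 0 1036)
(fin 1105 0 1037))))))))
(cons (mv 976 (cons (fin 977 2 973)
(mv 975 (cons (fin 1036 2 972)
(mv 1104 (cons (fin 1105 0 1037)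
(mv 1168 (cons (fin 1232 7 975)
(mv 1167 (cons (fin 1231 5 975)
(mv 912 (cons (fin 1103 5 911)
(mv 913 (cons (fin 974 2 909)
(fin 849 6 848)))))))))))))))
(cons (mv 976 (cons (fin 977 2 973)
(mv 1036 (cons (fin 975 2 972)
(mv 1100 (cons (fin 1099 1 1035)
(fin 1101 1 1036)))))))
(mv 976 (cons (fin 977 2 973)
(mv 1100 (cons (fin 1101 1 1036)
(mv 1104 (cons (fin 1105 0 1037)
(mv 912 (cons (mv 1103 (cons (fin 848 5 847)
(fin 1167 5 911)))
(cons (mv 849 (cons (fin 913 6 848)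
(mv 848 (cons (fin 785 6 784)
(mv 783 (cons (fin 847 7 783)
(mv 784 (cons (fin 719 7 719)
(fin 975 5 783)))))))))
(mv 849 (cons (fin 913 6 848)
(mv 1167 (cons (fin 1103 5 911)
(mv 1168 (cons (fin 1231 5 975)
(mv 1232 (cons (fin 975 7 975)
(mv 1233 (cons (fin 1169 4 976)
(fin 1297 4 1040))))))))))))))))))))))))))
(cons (cons (mv 1039 (cons (fin 972 3 972)
(mv 976 (cons (fin 977 2 973)
(mv 975 (cons (fin 1036 2 972)
(mv 1104 (cons (fin 1105 0 1037)
(mv 1168 (cons (fin 1232 7 975)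
(mv 1167 (cons (fin 1231 5 975)
(mv 912 (cons (fin 1103 5 911)
(mv 913 (cons (fin 974 2 909)
(fin 849 6 848)))))))))))))))))
(mv 1039 (cons (fin 972 3 972)
(mv 1100 (cons (fin 1101 1 1036)
(mv 1036 (cons (fin 1099 1 1035)
(mv 1104 (cons (fin 1103 0 1036)
(fin 1105 0 1037))))))))))
(cons (mv 1039 (cons (fin 972 3 972)
(mv 976 (cons (fin 977 2 973)
(mv 1100 (cons (fin 1101 1 1036)
(mv 1104 (cons (fin 1105 0 1037)
(mv 912 (cons (mv 1103 (cons (fin 848 5 847)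
(fin 1167 5 911)))
(cons (mv 849 (cons (fin 913 6 848)
(mv 848 (cons (fin 785 6 784)
(mv 783 (cons (fin 847 7 783)
(mv 784 (cons (fin 719 7 719)
(fin 975 5 783)))))))))
(mv 849 (cons (fin 913 6 848)
(mv 1167 (cons (fin 1103 5 911)
(mv 1168 (cons (fin 1231 5 975)
(mv 1232 (cons (fin 975 7 975)
(mv 1233 (cons (fin 1169 4 976)
(fin 1297 4 1040))))))))))))))))))))))
(mv 1039 (cons (fin 972 3 972)
(mv 976 (cons (fin 977 2 973)
(mv 975 (cons (fin 1036 2 972)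
(mv 1101 (cons (fin 1100 1 1036)
(mv 1104 (cons (fin 1105 0 1037)
(mv 1168 (cons (fin 1232 7 975)
(mv 1167 (cons (fin 1231 5 975)
(mv 1169 (cons (fin 1233 4 976)
(mv 1102 (cons (fin 1166 3 1101)
(mv 909 (cons (fin 845 4 845)
(mv 908 (cons (fin 974 3 908)
(fin 844 7 844)))))))))))))))))))))))))))
(cons (mv 1038 (cons (cons (mv 1039 (cons (fin 972 3 972)
(mv 976 (cons (fin 977 2 973)
(mv 975 (cons (fin 1036 2 972)
(mv 1100 (cons (fin 1101 1 1036)
(mv 1104 (cons (fin 1105 0 1037)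
(mv 1168 (cons (fin 911 7 911)
(fin 1232 7 975)))))))))))))
(cons (mv 1102 (cons (cons (mv 909 (cons (fin 845 4 845)
(mv 1166 (cons (fin 974 7 909)
(fin 1230 7 973)))))
(mv 1166 (cons (fin 1230 7 973)
(mv 974 (cons (mv 911 (cons (fin 975 6 910)
(mv 1167 (cons (fin 1231 4 974)
(mv 910 (cons (fin 1103 4 910)
(mv 846 (cons (fin 782 5 781)
(fin 1101 5 845)))))))))
(cons (mv 1167 (cons (fin 1231 4 974)
(mv 910 (cons (fin 1103 4 910)
(mv 846 (cons (fin 782 5 781)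
(fin 1101 5 845)))))))
(mv 975 (cons (fin 911 6 910)
(mv 976 (cons (fin 1036 1 972)
(fin 977 1 973)))))))))))
(cons (mv 909 (cons (fin 845 4 845)
(mv 1101 (cons (cons (mv 844 (cons (fin 908 7 844)
(mv 846 (cons (fin 910 6 845)
(mv 1100 (cons (fin 1164 5 908)
(mv 1099 (cons (fin 1098 2 1034)
(mv 1035 (cons (fin 1034 3 1034)
(mv 1036 (cons (fin 1103 3 1035)
(mv 970 (cons (fin 971 3 970)
(mv 974 (cons (fin 975 2 971)
(mv 1163 (cons (fin 1162 1 1098)
(mv 1227 (cons (fin 972 6 971)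
(fin 1291 6 1035)))))))))))))))))))))
(cons (mv 908 (cons (fin 844 7 844)
(mv 910 (cons (fin 846 6 845)
(mv 974 (cons (mv 907 (cons (fin 906 0 906)
(fin 975 0 907)))
(cons (mv 906 (cons (fin 907 0 906)
(mv 1103 (cons (fin 1167 4 910)
(mv 1036 (cons (fin 1104 3 1036)
(fin 1035 0 1035)))))))
(mv 975 (cons (fin 976 3 908)
(mv 1036 (cons (fin 1035 2 971)
(mv 1103 (cons (fin 1104 3 1036)
(fin 1167 4 910))))))))))))))
(mv 844 (cons (fin 908 7 844)
(mv 1100 (cons (fin 1164 5 908)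
(mv 1099 (cons (fin 1098 2 1034)
(mv 1035 (cons (fin 1034 3 1034)
(mv 1036 (cons (fin 1103 3 1035)
(mv 970 (cons (fin 971 3 970)
(mv 974 (cons (fin 975 2 971)
(mv 1163 (cons (fin 1162 1 1098)
(mv 1227 (cons (fin 972 6 971)
(fin 1291 6 1035)))))))))))))))))))))
(cons (mv 846 (cons (fin 910 6 845)
(mv 1100 (cons (fin 1164 5 908)
(mv 1099 (cons (fin 1098 2 1034)
(mv 1035 (cons (fin 1034 3 1034)
(mv 1036 (cons (fin 1103 3 1035)
(mv 970 (cons (fin 971 3 970)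
(mv 974 (cons (fin 975 2 971)
(mv 1163 (cons (fin 1162 1 1098)
(mv 1227 (cons (fin 972 6 971)
(fin 1291 6 1035)))))))))))))))))))
(cons (mv 846 (cons (fin 910 6 845)
(mv 908 (cons (fin 844 7 844)
(mv 1100 (cons (fin 1164 5 908)
(mv 1099 (cons (fin 1098 2 1034)
(mv 1035 (cons (fin 1034 3 1034)
(mv 1163 (cons (fin 1162 1 1098)
(mv 971 (cons (fin 972 6 907)
(mv 906 (cons (fin 970 7 906)
(mv 907 (cons (fin 974 0 906)
(fin 842 7 842)))))))))))))))))))
(mv 908 (cons (fin 844 7 844)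
(mv 910 (cons (fin 846 6 845)
(mv 1100 (cons (fin 1164 5 908)
(mv 1099 (cons (fin 1098 2 1034)
(mv 1163 (cons (fin 1162 1 1098)
(mv 972 (cons (fin 1036 5 907)
(mv 911 (cons (fin 971 1 907)
(fin 912 1 908)))))))))))))))))))))
(mv 909 (cons (fin 845 4 845)
(mv 1166 (cons (fin 1230 7 973)
(fin 1101 4 909))))))))
(mv 1039 (cons (cons (mv 976 (cons (fin 977 2 973)
(mv 975 (cons (fin 1036 2 972)
(mv 1100 (cons (fin 1101 1 1036)
(mv 1104 (cons (fin 1105 0 1037)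
(mv 1168 (cons (fin 911 7 911)
(fin 1232 7 975)))))))))))
(mv 1100 (cons (fin 1101 1 1036)
(mv 1036 (cons (fin 1099 1 1035)
(mv 1104 (cons (fin 1103 0 1036)
(fin 1105 0 1037))))))))
(cons (mv 976 (cons (fin 977 2 973)
(mv 975 (cons (fin 1036 2 972)
(mv 1104 (cons (fin 1105 0 1037)
(mv 1168 (cons (fin 911 7 911)
(fin 1232 7 975)))))))))
(cons (mv 976 (cons (fin 977 2 973)
(mv 1036 (cons (fin 975 2 972)
(mv 1100 (cons (fin 1099 1 1035)
(fin 1101 1 1036)))))))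
(mv 976 (cons (fin 977 2 973)
(mv 1100 (cons (fin 1101 1 1036)
(mv 1104 (cons (fin 1105 0 1037)
(mv 1168 (cons (mv 975 (cons (fin 911 7 911)
(fin 1232 7 975)))
(mv 1167 (cons (fin 1231 5 975)
(mv 1103 (cons (fin 912 5 911)
(mv 1169 (cons (fin 1233 4 976)
(mv 1170 (cons (fin 1102 3 1102)
(fin 1171 3 1103)))))))))))))))))))))))
(cons (cons (mv 1039 (cons (fin 972 3 972)
(mv 976 (cons (fin 977 2 973)
(mv 975 (cons (fin 1036 2 972)
(mv 1104 (cons (fin 1105 0 1037)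
(mv 1168 (cons (fin 911 7 911)
(fin 1232 7 975)))))))))))
(mv 1039 (cons (fin 972 3 972)
(mv 1100 (cons (fin 1101 1 1036)
(mv 1036 (cons (fin 1099 1 1035)
(mv 1104 (cons (fin 1103 0 1036)
(fin 1105 0 1037))))))))))
(cons (mv 1039 (cons (fin 972 3 972)
(mv 976 (cons (fin 977 2 973)
(mv 1036 (cons (fin 975 2 972)
(mv 1100 (cons (fin 1099 1 1035)
(fin 1101 1 1036)))))))))
(mv 972 (cons (fin 1039 3 972)
(mv 971 (cons (fin 970 0 970)
(mv 974 (cons (cons (mv 906 (cons (fin 907 3 906)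
(mv 910 (cons (fin 911 2 907)
(mv 846 (cons (fin 782 5 781)
(fin 1101 5 845)))))))
(mv 907 (cons (fin 906 3 906)
(mv 908 (cons (fin 975 3 907)
(mv 780 (cons (fin 844 4 780)
(mv 1035 (cons (fin 1034 1 970)
(mv 1099 (cons (fin 1163 6 907)
(mv 1098 (cons (fin 1162 5 906)
(mv 1100 (cons (fin 1101 2 1034)
(fin 1164 4 907))))))))))))))))
(cons (mv 910 (cons (fin 911 2 907)
(mv 846 (cons (fin 782 5 781)
(fin 1101 5 845)))))
(mv 906 (cons (fin 907 3 906)
(mv 910 (cons (fin 911 2 907)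
(mv 846 (cons (fin 782 5 781)
(mv 845 (cons (fin 781 7 781)
(mv 1034 (cons (fin 1035 1 970)
(mv 1102 (cons (fin 909 7 845)
(mv 1166 (cons (fin 1230 7 973)
(mv 1167 (cons (fin 1103 4 910)
(fin 1231 4 974))))))))))))))))))))))))))))
(mv 1038 (cons (cons (cons (mv 1039 (cons (fin 972 3 972)
(mv 976 (cons (fin 977 2 973)
(mv 975 (cons (fin 1036 2 972)
(mv 1100 (cons (fin 1101 1 1036)
(mv 1104 (cons (fin 1105 0 1037)
(mv 911 (cons (fin 1168 7 911)
(fin 847 4 847)))))))))))))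
(mv 1102 (cons (cons (mv 909 (cons (fin 845 4 845)
(mv 1166 (cons (fin 974 7 909)
(fin 1230 7 973)))))
(mv 1166 (cons (fin 1230 7 973)
(mv 974 (cons (mv 911 (cons (fin 975 6 910)
(mv 910 (cons (fin 847 6 846)
(mv 846 (cons (fin 782 5 781)
(fin 1101 5 845)))))))
(cons (mv 1167 (cons (fin 1231 4 974)
(mv 910 (cons (fin 1103 4 910)
(mv 846 (cons (fin 782 5 781)
(fin 1101 5 845)))))))
(mv 975 (cons (fin 911 6 910)
(mv 976 (cons (fin 1036 1 972)
(fin 977 1 973)))))))))))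
(cons (mv 909 (cons (fin 845 4 845)
(mv 910 (cons (cons (mv 846 (cons (fin 1101 6 845)
(mv 782 (cons (fin 718 5 717)
(fin 974 5 781)))))
(mv 1103 (cons (mv 974 (cons (fin 1167 4 910)
(mv 847 (cons (fin 911 6 846)
(mv 1036 (cons (fin 1035 0 1035)
(mv 1104 (cons (fin 1101 3 1036)
(fin 1105 3 1037)))))))))
(cons (mv 1036 (cons (fin 1035 0 1035)
(mv 1104 (cons (fin 1101 3 1036)
(fin 1105 3 1037)))))
(mv 974 (cons (fin 1167 4 910)
(mv 911 (cons (fin 847 6 846)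
(mv 912 (cons (fin 972 1 908)
(fin 913 1 909)))))))))))
(cons (mv 911 (cons (cons (mv 847 (cons (fin 974 6 846)
(mv 848 (cons (fin 908 2 844)
(mv 849 (cons (fin 846 1 845)
(fin 850 1 846)))))))
(mv 912 (cons (fin 972 1 908)
(mv 848 (cons (fin 849 2 845)
(mv 847 (cons (fin 908 2 844)
(mv 976 (cons (fin 977 0 909)
(fin 783 7 783))))))))))
(cons (mv 912 (cons (fin 972 1 908)
(mv 848 (cons (fin 849 2 845)
(mv 913 (cons (fin 974 1 909)
(mv 977 (cons (fin 976 0 909)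
(fin 978 0 910)))))))))
(mv 847 (cons (fin 974 6 846)
(mv 912 (cons (fin 972 1 908)
(mv 976 (cons (fin 977 0 909)
(fin 1104 7 847))))))))))
(mv 1101 (cons (fin 846 6 845)
(mv 908 (cons (fin 844 7 844)
(mv 1100 (cons (fin 1164 5 908)
(mv 907 (cons (cons (mv 842 (cons (fin 843 3 842)
(mv 841 (cons (fin 906 3 841)
(mv 971 (cons (fin 970 1 906)
(mv 911 (cons (fin 972 1 907)
(mv 847 (cons (fin 848 2 844)
(mv 976 (cons (fin 975 0 908)
(mv 912 (cons (fin 977 0 909)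
(fin 1104 7 847)))))))))))))))
(cons (mv 842 (cons (fin 843 3 842)
(mv 906 (cons (fin 841 3 841)
(mv 905 (cons (fin 972 0 905)
(mv 969 (cons (fin 968 1 904)
(fin 970 1 905)))))))))
(mv 842 (cons (fin 843 3 842)
(mv 906 (cons (fin 841 3 841)
(mv 972 (cons (fin 905 0 905)
(mv 911 (cons (fin 971 1 907)
(fin 912 1 908)))))))))))
(cons (cons (mv 970 (cons (fin 971 1 906)
(mv 906 (cons (fin 969 1 905)
(mv 841 (cons (fin 842 3 841)
(mv 905 (cons (fin 840 3 840)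
(fin 972 0 905)))))))))
(mv 970 (cons (fin 971 1 906)
(mv 906 (cons (fin 969 1 905)
(mv 972 (cons (fin 905 0 905)
(mv 911 (cons (fin 912 1 908)
(mv 847 (cons (fin 848 2 844)
(mv 975 (cons (fin 976 0 908)
(mv 1036 (cons (fin 843 7 843)
(mv 1035 (cons (fin 1103 3 1035)
(fin 1034 0 1034))))))))))))))))))
(cons (mv 842 (cons (fin 843 3 842)
(mv 906 (cons (fin 841 3 841)
(mv 970 (cons (fin 969 1 905)
(fin 971 1 906)))))))
(mv 842 (cons (fin 843 3 842)
(mv 971 (cons (fin 970 1 906)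
(mv 911 (cons (fin 972 1 907)
(mv 847 (cons (fin 848 2 844)
(mv 976 (cons (fin 975 0 908)
(mv 912 (cons (fin 977 0 909)
(fin 1104 7 847))))))))))))))))))))))))))))
(mv 909 (cons (fin 845 4 845)
(mv 1166 (cons (fin 1230 7 973)
(fin 1101 4 909)))))))))
(cons (mv 1039 (cons (cons (mv 976 (cons (fin 977 2 973)
(mv 975 (cons (fin 1036 2 972)
(mv 1100 (cons (fin 1101 1 1036)
(mv 1104 (cons (fin 1105 0 1037)
(mv 911 (cons (fin 1168 7 911)
(fin 847 4 847)))))))))))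
(cons (mv 1100 (cons (fin 1101 1 1036)
(mv 1104 (cons (fin 1105 0 1037)
(mv 909 (cons (cons (mv 845 (cons (fin 1036 5 844)
(fin 1102 4 845)))
(mv 1103 (cons (fin 1036 0 1036)
(mv 974 (cons (cons (mv 846 (cons (fin 910 4 846)
(mv 1166 (cons (fin 1102 7 909)
(mv 1167 (cons (fin 1231 7 974)
(mv 975 (cons (fin 1230 5 974)
(mv 911 (cons (fin 847 4 847)
(fin 1168 4 911)))))))))))
(mv 1166 (cons (fin 1102 7 909)
(mv 1167 (cons (fin 1231 7 974)
(mv 975 (cons (fin 1230 5 974)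
(mv 911 (cons (fin 847 4 847)
(fin 1168 4 911))))))))))
(cons (mv 910 (cons (fin 846 4 846)
(mv 1102 (cons (fin 1166 7 909)
(mv 911 (cons (fin 847 6 846)
(mv 912 (cons (fin 913 1 909)
(mv 848 (cons (fin 849 2 845)
(fin 975 6 847)))))))))))
(cons (mv 910 (cons (fin 846 4 846)
(mv 1167 (cons (fin 975 7 910)
(fin 1231 7 974)))))
(mv 910 (cons (fin 846 4 846)
(mv 1102 (cons (fin 1166 7 909)
(fin 1167 4 910))))))))))))
(cons (mv 845 (cons (fin 1102 4 845)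
(mv 780 (cons (fin 844 7 780)
(mv 781 (cons (fin 716 7 716)
(fin 974 4 781)))))))
(mv 1036 (cons (fin 1103 0 1036)
(fin 845 5 844))))))))))
(mv 976 (cons (fin 977 2 973)
(mv 1036 (cons (fin 975 2 972)
(mv 1100 (cons (fin 1101 1 1036)
(mv 909 (cons (fin 845 5 844)
(mv 1228 (cons (fin 1164 6 972)
(mv 1102 (cons (mv 1166 (cons (fin 974 7 909)
(fin 1230 7 973)))
(cons (mv 1035 (cons (fin 1103 0 1035)
(mv 970 (cons (fin 971 3 970)
(mv 1034 (cons (fin 969 3 969)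
(fin 974 2 970)))))))
(mv 1103 (cons (fin 1035 0 1035)
(mv 1230 (cons (fin 1166 7 973)
(mv 1231 (cons (fin 1167 6 975)
(mv 1229 (cons (cons (mv 848 (cons (fin 912 5 847)
(mv 1291 (cons (fin 1292 1 1227)
(mv 1227 (cons (fin 1290 1 1226)
(mv 1295 (cons (fin 1294 0 1227)
(fin 1296 0 1228)))))))))
(mv 1295 (cons (fin 1296 0 1228)
(mv 1227 (cons (fin 1294 0 1227)
(mv 1162 (cons (fin 1163 3 1162)
(mv 1226 (cons (fin 1161 3 1161)
(mv 1290 (cons (fin 1289 1 1225)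
(fin 1291 1 1226))))))))))))
(cons (mv 1292 (cons (fin 1291 1 1227)
(mv 1232 (cons (fin 1293 1 1228)
(mv 1169 (cons (fin 1168 2 1165)
(mv 1233 (cons (fin 1170 2 1166)
(mv 1297 (cons (fin 1296 0 1229)
(fin 1298 0 1230)))))))))))
(cons (mv 1296 (cons (fin 1295 0 1228)
(mv 1232 (cons (fin 1297 0 1229)
(mv 1169 (cons (fin 1168 2 1165)
(mv 1233 (cons (fin 1170 2 1166)
(mv 1293 (cons (fin 1292 1 1228)
(fin 1294 1 1229)))))))))))
(mv 1291 (cons (fin 1292 1 1227)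
(mv 1227 (cons (fin 1290 1 1226)
(mv 1162 (cons (fin 1163 3 1162)
(mv 1226 (cons (fin 1161 3 1161)
(mv 1294 (cons (fin 1293 0 1226)
(fin 1295 0 1227))))))))))))))))))))))))))))))))))))
(cons (mv 976 (cons (fin 977 2 973)
(mv 975 (cons (fin 1036 2 972)
(mv 1104 (cons (fin 1105 0 1037)
(mv 911 (cons (fin 1168 7 911)
(fin 847 4 847)))))))))
(cons (mv 976 (cons (fin 977 2 973)
(mv 1100 (cons (fin 1101 1 1036)
(mv 1104 (cons (fin 1105 0 1037)
(mv 912 (cons (mv 1103 (cons (fin 848 5 847)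
(fin 1167 5 911)))
(cons (mv 847 (cons (fin 911 7 847)
(mv 848 (cons (fin 783 7 783)
(mv 849 (cons (fin 785 6 784)
(fin 913 6 848)))))))
(mv 847 (cons (fin 911 7 847)
(mv 849 (cons (fin 913 6 848)
(mv 1167 (cons (fin 1103 5 911)
(mv 1168 (cons (fin 1231 5 975)
(mv 1232 (cons (fin 975 7 975)
(mv 1233 (cons (fin 1169 4 976)
(fin 1297 4 1040))))))))))))))))))))))
(mv 976 (cons (fin 977 2 973)
(mv 1100 (cons (fin 1101 1 1036)
(mv 1104 (cons (fin 1105 0 1037)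
(mv 1103 (cons (fin 1036 0 1036)
(mv 912 (cons (fin 848 5 847)
(fin 1167 5 911)))))))))))))))
(mv 1039 (cons (fin 972 3 972)
(mv 976 (cons (fin 977 2 973)
(mv 975 (cons (fin 1036 2 972)
(mv 1104 (cons (fin 1105 0 1037)
(mv 911 (cons (fin 1168 7 911)
(fin 847 4 847)))))))))))))
(cons (cons (mv 1039 (cons (fin 972 3 972)
(mv 1100 (cons (fin 1101 1 1036)
(mv 1104 (cons (fin 1105 0 1037)
(mv 909 (cons (cons (mv 845 (cons (fin 1036 5 844)
(fin 1102 4 845)))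
(mv 1103 (cons (fin 1036 0 1036)
(mv 974 (cons (cons (mv 846 (cons (fin 910 4 846)
(mv 1166 (cons (fin 1102 7 909)
(mv 1167 (cons (fin 1231 7 974)
(mv 975 (cons (fin 1230 5 974)
(mv 911 (cons (fin 847 4 847)
(fin 1168 4 911)))))))))))
(mv 1166 (cons (fin 1102 7 909)
(mv 1167 (cons (fin 1231 7 974)
(mv 975 (cons (fin 1230 5 974)
(mv 911 (cons (fin 847 4 847)
(fin 1168 4 911))))))))))
(cons (mv 910 (cons (fin 846 4 846)
(mv 1102 (cons (fin 1166 7 909)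
(mv 911 (cons (fin 847 6 846)
(mv 912 (cons (fin 913 1 909)
(mv 848 (cons (fin 849 2 845)
(fin 975 6 847)))))))))))
(cons (mv 910 (cons (fin 846 4 846)
(mv 1167 (cons (fin 975 7 910)
(fin 1231 7 974)))))
(mv 910 (cons (fin 846 4 846)
(mv 1102 (cons (fin 1166 7 909)
(fin 1167 4 910))))))))))))
(cons (mv 845 (cons (fin 1102 4 845)
(mv 780 (cons (fin 844 7 780)
(mv 781 (cons (fin 716 7 716)
(fin 974 4 781)))))))
(mv 1036 (cons (fin 1103 0 1036)
(fin 845 5 844))))))))))))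
(mv 1039 (cons (fin 972 3 972)
(mv 976 (cons (fin 977 2 973)
(mv 1036 (cons (fin 975 2 972)
(mv 1100 (cons (fin 1101 1 1036)
(mv 909 (cons (fin 845 5 844)
(mv 1228 (cons (fin 1164 6 972)
(mv 1102 (cons (mv 1166 (cons (fin 974 7 909)
(fin 1230 7 973)))
(cons (mv 1035 (cons (fin 1103 0 1035)
(mv 970 (cons (fin 971 3 970)
(mv 1034 (cons (fin 969 3 969)
(fin 974 2 970)))))))
(mv 1103 (cons (fin 1035 0 1035)
(mv 1230 (cons (fin 1166 7 973)
(mv 1231 (cons (fin 1167 6 975)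
(mv 1229 (cons (cons (mv 848 (cons (fin 912 5 847)
(mv 1291 (cons (fin 1292 1 1227)
(mv 1227 (cons (fin 1290 1 1226)
(mv 1295 (cons (fin 1294 0 1227)
(fin 1296 0 1228)))))))))
(mv 1295 (cons (fin 1296 0 1228)
(mv 1227 (cons (fin 1294 0 1227)
(mv 1162 (cons (fin 1163 3 1162)
(mv 1226 (cons (fin 1161 3 1161)
(mv 1290 (cons (fin 1289 1 1225)
(fin 1291 1 1226))))))))))))
(cons (mv 1292 (cons (fin 1291 1 1227)
(mv 1232 (cons (fin 1293 1 1228)
(mv 1169 (cons (fin 1168 2 1165)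
(mv 1233 (cons (fin 1170 2 1166)
(mv 1297 (cons (fin 1296 0 1229)
(fin 1298 0 1230)))))))))))
(cons (mv 1296 (cons (fin 1295 0 1228)
(mv 1232 (cons (fin 1297 0 1229)
(mv 1169 (cons (fin 1168 2 1165)
(mv 1233 (cons (fin 1170 2 1166)
(mv 1293 (cons (fin 1292 1 1228)
(fin 1294 1 1229)))))))))))
(mv 1291 (cons (fin 1292 1 1227)
(mv 1227 (cons (fin 1290 1 1226)
(mv 1162 (cons (fin 1163 3 1162)
(mv 1226 (cons (fin 1161 3 1161)
(mv 1294 (cons (fin 1293 0 1226)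
(fin 1295 0 1227)))))))))))))))))))))))))))))))))))))
(cons (mv 1039 (cons (fin 972 3 972)
(mv 976 (cons (fin 977 2 973)
(mv 1100 (cons (fin 1101 1 1036)
(mv 1104 (cons (fin 1105 0 1037)
(mv 912 (cons (mv 1103 (cons (fin 848 5 847)
(fin 1167 5 911)))
(cons (mv 847 (cons (fin 911 7 847)
(mv 848 (cons (fin 783 7 783)
(mv 849 (cons (fin 785 6 784)
(fin 913 6 848)))))))
(mv 847 (cons (fin 911 7 847)
(mv 849 (cons (fin 913 6 848)
(mv 1167 (cons (fin 1103 5 911)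
(mv 1168 (cons (fin 1231 5 975)
(mv 1232 (cons (fin 975 7 975)
(mv 1233 (cons (fin 1169 4 976)
(fin 1297 4 1040))))))))))))))))))))))))
(mv 1039 (cons (fin 972 3 972)
(mv 976 (cons (fin 977 2 973)
(mv 1100 (cons (fin 1101 1 1036)
(mv 1104 (cons (fin 1105 0 1037)
(mv 1103 (cons (fin 1036 0 1036)
(mv 912 (cons (fin 848 5 847)
(fin 1167 5 911)))))))))))))))))))))))
def l109 : Lem := ⟨13254031944712882724506621310649321556018620670345837899455453023597314721787975009848330616026462815765143756135158089473467252075149308743152655366187148242124071246428482498451210046760672027239036899891323305324899173507745103325308665813954110541579506451753178596634830548552232523722901151470534797188661248, 39713256682866957242522773248758359356988673554194610921477791945390285088349598891527680916166251026079061097686264761818977046878869196626290046088502042047919503426510338304344409273074952395029175877328159193437947910151259422122234254505954833675999759276520019697750979724225208823562463471799285684500100355460873890556176827366720498410334311553376304726124661188276671518720932137264899485144274960384,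 39713256682866957242522773248758359356988673554194610921477791945390285088349598891527680916166251026079061097686264761818977046878869196626290046088502042047919503426510338304344409273074952395029175877328159193437947910151259422122234254505954833675999759276520019697750979724225208823562463471799285684500100355460873890556176827366720498410334311553376304726124661188276671518720932137264899485144274960384, 19, 33⟩
theorem l109_valid : l109.Valid :=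
  Lem.valid_of_chk t109 t109_valid [1037, 1040] c109 l109 (by decide +kernel)
end Crest.Agent.SnakyAux
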