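import Crest.Agent.S0047_aux.Checker

set_option autoImplicit false
set_option maxRecDepth 100000
namespace Crest.Agent.SnakyAux
open Cert
def t11 : Tbl := Tbl.nil
theorem t11_valid : t11.Valid := Tbl.valid_nil
def c11 : Cert :=
(mv 1037 (cons (cons (cons (mv 1038 (cons (cons (mv 972 (cons (fin 973 3 972)
(mv 976 (cons (fin 977 2 973)
(mv 1036 (cons (fin 971 3 971)
(fin 975 2 972)))))))
(mv 972 (cons (fin 973 3 972)
(mv 1036 (cons (fin 971 3 971)
(mv 1100 (cons (fin 1099 1 1035)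
(fin 1101 1 1036))))))))
(cons (mv 976 (cons (fin 977 2 973)
(mv 975 (cons (fin 1036 2 972)
(mv 1100 (cons (fin 1101 1 1036)
(mv 1104 (cons (fin 1105 0 1037)
(mv 911 (cons (fin 1168 7 911)
(fin 847 4 847)))))))))))
(mv 972 (cons (fin 973 3 972)
(mv 976 (cons (fin 977 2 973)
(mv 1100 (cons (fin 1101 1 1036)
(mv 1104 (cons (fin 1105 0 1037)
(mv 912 (cons (mv 1103 (cons (fin 848 5 847)
(fin 1167 5 911)))
(cons (mv 847 (cons (fin 911 7 847)
(mv 848 (cons (fin 783 7 783)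
(mv 849 (cons (fin 785 6 784)
(fin 913 6 848)))))))
(mv 847 (cons (fin 911 7 847)
(mv 849 (cons (fin 913 6 848)
(mv 1167 (cons (fin 1103 5 911)
(mv 1168 (cons (fin 1231 5 975)
(mv 1232 (cons (fin 975 7 975)
(mv 1233 (cons (fin 1169 4 976)
(fin 1297 4 1040)))))))))))))))))))))))))))
(mv 973 (cons (cons (cons (mv 974 (cons (cons (mv 975 (cons (fin 972 0 972)
(mv 976 (cons (fin 1036 1 972)
(mv 908 (cons (fin 909 3 908)
(mv 912 (cons (fin 913 2 909)
(mv 848 (cons (fin 784 5 783)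
(fin 1103 5 847)))))))))))
(mv 1101 (cons (cons (mv 910 (cons (fin 1165 6 909)
(mv 846 (cons (fin 782 5 781)
(fin 909 6 845)))))
(mv 909 (cons (cons (mv 844 (cons (fin 908 7 844)
(mv 780 (cons (fin 845 7 780)
(mv 846 (cons (fin 910 6 845)
(mv 1100 (cons (fin 1164 5 908)
(mv 1102 (cons (fin 1103 2 1036)
(fin 1166 4 909)))))))))))
(mv 844 (cons (fin 908 7 844)
(mv 845 (cons (fin 780 7 780)
(mv 846 (cons (fin 782 6 781)
(fin 910 6 845))))))))
(cons (mv 844 (cons (fin 908 7 844)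
(mv 780 (cons (fin 845 7 780)
(mv 1100 (cons (fin 1164 5 908)
(mv 1102 (cons (fin 1103 2 1036)
(fin 1166 4 909)))))))))
(cons (mv 846 (cons (fin 910 6 845)
(mv 782 (cons (fin 845 6 781)
(mv 1100 (cons (fin 1164 5 908)
(mv 1102 (cons (fin 1103 2 1036)
(fin 1166 4 909)))))))))
(mv 844 (cons (fin 908 7 844)
(mv 846 (cons (fin 910 6 845)
(mv 1100 (cons (fin 1164 5 908)
(mv 1102 (cons (fin 1103 2 1036)
(fin 1166 4 909))))))))))))))
(cons (mv 909 (cons (cons (mv 844 (cons (fin 908 7 844)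
(mv 780 (cons (fin 845 7 780)
(mv 1100 (cons (fin 1164 5 908)
(mv 1102 (cons (fin 1103 2 1036)
(fin 1166 4 909)))))))))
(mv 908 (cons (fin 844 7 844)
(mv 906 (cons (fin 907 0 906)
(mv 1165 (cons (fin 972 7 908)
(mv 1166 (cons (fin 1102 4 909)
(fin 1230 4 973))))))))))
(cons (mv 1100 (cons (fin 1164 5 908)
(mv 1102 (cons (fin 1103 2 1036)
(fin 1166 4 909)))))
(mv 844 (cons (fin 908 7 844)
(mv 845 (cons (fin 780 7 780)
(mv 1100 (cons (fin 1036 5 844)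
(fin 1164 5 908))))))))))
(mv 1165 (cons (fin 910 6 909)
(mv 908 (cons (fin 972 7 908)
(mv 1228 (cons (fin 1164 5 972)
(mv 1229 (cons (fin 1292 5 1036)
(mv 1230 (cons (fin 1166 4 973)
(fin 1294 4 1037)))))))))))))))
(cons (mv 910 (cons (cons (mv 846 (cons (fin 782 5 781)
(mv 1101 (cons (fin 909 6 845)
(fin 1165 6 909)))))
(mv 1101 (cons (fin 1165 6 909)
(mv 909 (cons (mv 844 (cons (fin 908 7 844)
(mv 780 (cons (fin 845 7 780)
(mv 1100 (cons (fin 1164 5 908)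
(mv 1102 (cons (fin 1103 2 1036)
(fin 1166 4 909)))))))))
(cons (mv 1100 (cons (fin 1164 5 908)
(mv 1102 (cons (fin 1103 2 1036)
(fin 1166 4 909)))))
(mv 844 (cons (fin 908 7 844)
(mv 845 (cons (fin 780 7 780)
(mv 781 (cons (fin 717 4 717)
(mv 782 (cons (fin 718 6 717)
(mv 783 (cons (fin 784 1 780)
(mv 842 (cons (fin 843 2 778)
(mv 911 (cons (fin 912 3 844)
(mv 847 (cons (fin 719 5 718)
(mv 975 (cons (fin 976 4 783)
(fin 1104 4 847)))))))))))))))))))))))))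
(cons (mv 846 (cons (fin 782 5 781)
(mv 975 (cons (mv 1103 (cons (fin 911 7 846)
(fin 1167 7 910)))
(mv 976 (cons (fin 1036 1 972)
(mv 909 (cons (fin 908 3 908)
(fin 977 3 909)))))))))
(cons (mv 1101 (cons (fin 1165 6 909)
(mv 909 (cons (fin 846 6 845)
(mv 844 (cons (fin 908 7 844)
(mv 780 (cons (fin 845 7 780)
(mv 1100 (cons (fin 1164 5 908)
(mv 1102 (cons (fin 1103 2 1036)
(fin 1166 4 909)))))))))))))
(mv 782 (cons (fin 846 5 781)
(mv 1101 (cons (fin 1165 6 909)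
(mv 1103 (cons (cons (mv 975 (cons (fin 1167 7 910)
(mv 976 (cons (fin 1036 1 972)
(mv 912 (cons (fin 913 2 909)
(fin 848 5 847)))))))
(mv 1102 (cons (fin 1100 2 1036)
(mv 1104 (cons (fin 1036 3 1036)
(mv 1168 (cons (fin 1169 0 1101)
(mv 1232 (cons (fin 1296 7 1039)
(mv 1231 (cons (fin 1295 5 1039)
(mv 976 (cons (fin 1167 5 975)
(mv 912 (cons (fin 848 5 847)
(mv 911 (cons (fin 913 1 909)
(fin 847 7 847))))))))))))))))))
(cons (mv 1102 (cons (fin 1100 2 1036)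
(mv 1036 (cons (fin 1104 3 1036)
(mv 975 (cons (fin 976 1 972)
(mv 911 (cons (fin 1166 5 910)
(mv 912 (cons (fin 913 1 909)
(fin 848 6 847)))))))))))
(cons (mv 975 (cons (fin 1167 7 910)
(mv 1102 (cons (fin 1100 2 1036)
(mv 911 (cons (fin 1166 5 910)
(mv 912 (cons (fin 913 1 909)
(fin 848 6 847)))))))))
(mv 975 (cons (fin 1167 7 910)
(mv 976 (cons (fin 1036 1 972)
(mv 1102 (cons (fin 1100 2 1036)
(mv 911 (cons (fin 1166 5 910)
(mv 847 (cons (fin 783 4 783)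
(fin 1104 4 847)))))))))))))))))))))))
(cons (mv 972 (cons (fin 975 0 972)
(mv 910 (cons (cons (mv 782 (cons (fin 846 5 781)
(mv 911 (cons (fin 971 2 907)
(mv 912 (cons (fin 909 1 908)
(fin 913 1 909)))))))
(mv 846 (cons (fin 782 5 781)
(mv 1101 (cons (fin 909 6 845)
(fin 1165 6 909))))))
(cons (mv 911 (cons (fin 971 2 907)
(mv 912 (cons (fin 909 1 908)
(fin 913 1 909)))))
(mv 782 (cons (fin 846 5 781)
(mv 971 (cons (fin 911 2 907)
(mv 906 (cons (fin 907 3 906)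
(mv 970 (cons (fin 905 3 905)
(mv 1034 (cons (fin 1033 1 969)
(fin 1035 1 970))))))))))))))))
(mv 975 (cons (fin 972 0 972)
(mv 976 (cons (fin 1036 1 972)
(mv 912 (cons (fin 913 2 909)
(mv 848 (cons (fin 784 5 783)
(fin 1103 5 847)))))))))))))
(cons (mv 1101 (cons (cons (mv 909 (cons (cons (mv 844 (cons (fin 908 7 844)
(mv 780 (cons (fin 845 7 780)
(mv 846 (cons (fin 910 6 845)
(mv 1100 (cons (fin 1164 5 908)
(mv 1102 (cons (fin 1103 2 1036)
(fin 1166 4 909)))))))))))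
(mv 844 (cons (fin 908 7 844)
(mv 845 (cons (fin 780 7 780)
(mv 846 (cons (fin 782 6 781)
(fin 910 6 845))))))))
(cons (mv 846 (cons (fin 910 6 845)
(mv 782 (cons (fin 845 6 781)
(mv 1100 (cons (fin 1164 5 908)
(mv 1102 (cons (fin 1103 2 1036)
(fin 1166 4 909)))))))))
(cons (mv 844 (cons (fin 908 7 844)
(mv 780 (cons (fin 845 7 780)
(mv 1100 (cons (fin 1164 5 908)
(mv 1102 (cons (fin 1103 2 1036)
(fin 1166 4 909)))))))))
(mv 844 (cons (fin 908 7 844)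
(mv 846 (cons (fin 910 6 845)
(mv 1100 (cons (fin 1164 5 908)
(mv 1102 (cons (fin 1103 2 1036)
(fin 1166 4 909)))))))))))))
(cons (mv 1165 (cons (cons (mv 908 (cons (fin 972 7 908)
(mv 1228 (cons (fin 1164 5 972)
(mv 1229 (cons (fin 1292 5 1036)
(mv 1230 (cons (fin 1166 4 973)
(fin 1294 4 1037)))))))))
(mv 1228 (cons (fin 1164 5 972)
(mv 1229 (cons (fin 1292 5 1036)
(mv 1230 (cons (fin 1166 4 973)
(fin 1294 4 1037))))))))
(cons (mv 972 (cons (fin 908 7 908)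
(mv 1229 (cons (fin 1036 7 972)
(mv 1230 (cons (fin 1166 4 973)
(fin 1294 4 1037)))))))
(cons (mv 972 (cons (fin 908 7 908)
(mv 1228 (cons (fin 1164 5 972)
(mv 1229 (cons (fin 1036 7 972)
(fin 1292 5 1036)))))))
(mv 908 (cons (fin 972 7 908)
(mv 1164 (cons (fin 1228 5 972)
(mv 1166 (cons (fin 1230 4 973)
(mv 1102 (cons (mv 1103 (cons (fin 1104 1 1100)
(fin 1100 2 1036)))
(cons (mv 1163 (cons (fin 1162 2 1098)
(mv 1099 (cons (fin 1098 3 1098)
(mv 1100 (cons (fin 1167 3 1099)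
(mv 1034 (cons (fin 1035 3 1034)
(mv 1227 (cons (fin 1226 1 1162)
(mv 1291 (cons (fin 1036 6 1035)
(fin 1355 6 1099)))))))))))))
(mv 1103 (cons (fin 1104 1 1100)
(fin 1163 2 1099))))))))))))))))
(mv 1165 (cons (cons (mv 908 (cons (fin 972 7 908)
(mv 844 (cons (fin 909 7 844)
(mv 1228 (cons (fin 1164 5 972)
(mv 1229 (cons (fin 1292 5 1036)
(mv 1230 (cons (fin 1166 4 973)
(fin 1294 4 1037)))))))))))
(mv 972 (cons (fin 908 7 908)
(mv 1228 (cons (fin 1164 5 972)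
(mv 1229 (cons (fin 1036 7 972)
(fin 1292 5 1036))))))))
(cons (mv 1164 (cons (fin 1228 5 972)
(mv 1166 (cons (fin 1230 4 973)
(mv 909 (cons (fin 1102 4 909)
(mv 844 (cons (fin 908 7 844)
(mv 845 (cons (fin 780 7 780)
(mv 846 (cons (fin 782 6 781)
(fin 910 6 845)))))))))))))
(cons (mv 1164 (cons (fin 1228 5 972)
(mv 1166 (cons (fin 1230 4 973)
(mv 1102 (cons (fin 909 4 909)
(mv 1103 (cons (fin 1104 1 1100)
(fin 1163 2 1099)))))))))
(mv 908 (cons (fin 972 7 908)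
(mv 909 (cons (fin 844 7 844)
(mv 1166 (cons (fin 1102 4 909)
(fin 1230 4 973)))))))))))))
(cons (cons (mv 909 (cons (cons (mv 844 (cons (fin 908 7 844)
(mv 845 (cons (fin 780 7 780)
(mv 846 (cons (fin 782 6 781)
(fin 910 6 845)))))))
(mv 846 (cons (fin 910 6 845)
(mv 845 (cons (fin 782 6 781)
(mv 1100 (cons (fin 1036 5 844)
(fin 1164 5 908))))))))
(cons (mv 844 (cons (fin 908 7 844)
(mv 845 (cons (fin 780 7 780)
(mv 1100 (cons (fin 1036 5 844)
(fin 1164 5 908)))))))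
(mv 846 (cons (fin 910 6 845)
(mv 908 (cons (fin 844 7 844)
(mv 1100 (cons (fin 1164 5 908)
(mv 1165 (cons (fin 972 7 908)
(mv 1230 (cons (fin 1166 4 973)
(mv 1229 (cons (fin 1294 4 1037)
(mv 1292 (cons (fin 1228 5 1036)
(mv 1293 (cons (fin 1036 7 1036)
(fin 1356 5 1100))))))))))))))))))))
(mv 909 (cons (cons (mv 844 (cons (fin 908 7 844)
(mv 780 (cons (fin 845 7 780)
(mv 846 (cons (fin 910 6 845)
(mv 1102 (cons (fin 1166 4 909)
(mv 1103 (cons (fin 1100 2 1036)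
(mv 1104 (cons (fin 1036 3 1036)
(mv 1168 (cons (fin 1169 0 1101)
(mv 975 (cons (fin 1232 7 975)
(fin 911 4 911)))))))))))))))))
(mv 846 (cons (fin 910 6 845)
(mv 782 (cons (fin 845 6 781)
(mv 1102 (cons (fin 1166 4 909)
(mv 1103 (cons (fin 1100 2 1036)
(mv 1104 (cons (fin 1036 3 1036)
(mv 1168 (cons (fin 1169 0 1101)
(mv 975 (cons (fin 1232 7 975)
(fin 911 4 911))))))))))))))))
(cons (mv 844 (cons (fin 908 7 844)
(mv 845 (cons (fin 780 7 780)
(mv 846 (cons (fin 782 6 781)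
(fin 910 6 845)))))))
(cons (mv 844 (cons (fin 908 7 844)
(mv 780 (cons (fin 845 7 780)
(mv 1102 (cons (fin 1166 4 909)
(mv 1103 (cons (fin 1100 2 1036)
(mv 1104 (cons (fin 1036 3 1036)
(mv 1168 (cons (fin 1169 0 1101)
(mv 975 (cons (fin 1232 7 975)
(fin 911 4 911)))))))))))))))
(mv 844 (cons (fin 908 7 844)
(mv 846 (cons (fin 910 6 845)
(mv 1102 (cons (fin 1166 4 909)
(mv 1103 (cons (fin 1100 2 1036)
(mv 1104 (cons (fin 1036 3 1036)
(mv 1168 (cons (fin 1169 0 1101)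
(mv 975 (cons (fin 1232 7 975)
(fin 911 4 911))))))))))))))))))))
(cons (mv 1100 (cons (cons (mv 909 (cons (fin 1164 5 908)
(mv 1102 (cons (fin 1103 2 1036)
(fin 1166 4 909)))))
(mv 1102 (cons (fin 1103 2 1036)
(mv 909 (cons (fin 1166 4 909)
(mv 845 (cons (fin 1036 5 844)
(mv 846 (cons (fin 782 6 781)
(fin 910 6 845))))))))))
(cons (mv 1102 (cons (fin 1103 2 1036)
(mv 1099 (cons (cons (mv 1034 (cons (fin 1035 3 1034)
(mv 1033 (cons (fin 1098 3 1033)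
(mv 1162 (cons (fin 1163 1 1098)
(mv 1166 (cons (fin 1167 0 1099)
(mv 1230 (cons (fin 1294 7 1037)
(fin 1165 4 973)))))))))))
(mv 1034 (cons (fin 1035 3 1034)
(mv 1098 (cons (fin 1033 3 1033)
(mv 1162 (cons (fin 1161 1 1097)
(fin 1163 1 1098))))))))
(cons (mv 1162 (cons (fin 1163 1 1098)
(mv 1098 (cons (fin 1161 1 1097)
(mv 1166 (cons (fin 1165 0 1098)
(fin 1167 0 1099)))))))
(cons (mv 1034 (cons (fin 1035 3 1034)
(mv 1033 (cons (fin 1098 3 1033)
(mv 1166 (cons (fin 1167 0 1099)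
(mv 1230 (cons (fin 1294 7 1037)
(fin 1165 4 973)))))))))
(mv 1034 (cons (fin 1035 3 1034)
(mv 1162 (cons (fin 1163 1 1098)
(mv 1166 (cons (fin 1167 0 1099)
(mv 1230 (cons (fin 1294 7 1037)
(fin 1165 4 973)))))))))))))))
(mv 909 (cons (fin 1164 5 908)
(mv 845 (cons (fin 1036 5 844)
(mv 846 (cons (fin 782 6 781)
(fin 910 6 845))))))))))
(mv 909 (cons (cons (mv 844 (cons (fin 908 7 844)
(mv 845 (cons (fin 780 7 780)
(mv 846 (cons (fin 782 6 781)
(fin 910 6 845)))))))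
(mv 846 (cons (fin 910 6 845)
(mv 845 (cons (fin 782 6 781)
(mv 1100 (cons (fin 1036 5 844)
(fin 1164 5 908))))))))
(cons (mv 844 (cons (fin 908 7 844)
(mv 845 (cons (fin 780 7 780)
(mv 1100 (cons (fin 1036 5 844)
(fin 1164 5 908)))))))
(mv 846 (cons (fin 910 6 845)
(mv 908 (cons (fin 844 7 844)
(mv 1164 (cons (fin 1100 5 908)
(mv 1165 (cons (fin 972 7 908)
(fin 1228 5 972))))))))))))))))
(mv 1101 (cons (cons (cons (mv 1165 (cons (cons (mv 908 (cons (fin 972 7 908)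
(mv 844 (cons (fin 909 7 844)
(mv 910 (cons (fin 974 6 909)
(mv 1228 (cons (fin 1164 5 972)
(mv 1229 (cons (fin 1292 5 1036)
(mv 1230 (cons (fin 1166 4 973)
(fin 1294 4 1037)))))))))))))
(mv 908 (cons (fin 972 7 908)
(mv 844 (cons (fin 909 7 844)
(mv 1230 (cons (fin 1166 4 973)
(mv 1229 (cons (fin 1294 4 1037)
(mv 1292 (cons (fin 1228 5 1036)
(mv 1293 (cons (fin 1356 5 1100)
(mv 1100 (cons (fin 1036 7 1036)
(mv 1103 (cons (fin 1102 2 1036)
(mv 1231 (cons (fin 1232 1 1228)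
(mv 1167 (cons (fin 976 6 975)
(mv 1295 (cons (fin 1104 6 1039)
(mv 1360 (cons (fin 1296 4 1103)
(mv 1359 (cons (fin 1424 4 1167)
(mv 1358 (cons (fin 1357 3 1292)
(fin 1422 5 1166))))))))))))))))))))))))))))))
(cons (mv 908 (cons (fin 972 7 908)
(mv 909 (cons (fin 844 7 844)
(mv 910 (cons (fin 846 6 845)
(fin 974 6 909)))))))
(cons (mv 910 (cons (fin 974 6 909)
(mv 846 (cons (fin 909 6 845)
(mv 1228 (cons (fin 1164 5 972)
(mv 1229 (cons (fin 1292 5 1036)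
(mv 1230 (cons (fin 1166 4 973)
(fin 1294 4 1037)))))))))))
(mv 908 (cons (fin 972 7 908)
(mv 910 (cons (fin 974 6 909)
(mv 1228 (cons (fin 1164 5 972)
(mv 1229 (cons (fin 1292 5 1036)
(mv 1230 (cons (fin 1166 4 973)
(fin 1294 4 1037)))))))))))))))
(mv 909 (cons (cons (mv 844 (cons (fin 908 7 844)
(mv 780 (cons (fin 845 7 780)
(mv 846 (cons (fin 910 6 845)
(mv 1100 (cons (fin 1164 5 908)
(mv 1102 (cons (fin 1103 2 1036)
(fin 1166 4 909)))))))))))
(mv 844 (cons (fin 908 7 844)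
(mv 845 (cons (fin 780 7 780)
(mv 846 (cons (fin 782 6 781)
(fin 910 6 845))))))))
(cons (mv 846 (cons (fin 910 6 845)
(mv 782 (cons (fin 845 6 781)
(mv 1100 (cons (fin 1164 5 908)
(mv 1102 (cons (fin 1103 2 1036)
(fin 1166 4 909)))))))))
(cons (mv 844 (cons (fin 908 7 844)
(mv 780 (cons (fin 845 7 780)
(mv 1100 (cons (fin 1164 5 908)
(mv 1102 (cons (fin 1103 2 1036)
(fin 1166 4 909)))))))))
(mv 844 (cons (fin 908 7 844)
(mv 846 (cons (fin 910 6 845)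
(mv 1100 (cons (fin 1164 5 908)
(mv 1102 (cons (fin 1103 2 1036)
(fin 1166 4 909))))))))))))))
(cons (mv 1165 (cons (cons (mv 908 (cons (fin 972 7 908)
(mv 910 (cons (fin 974 6 909)
(mv 1228 (cons (fin 1164 5 972)
(mv 1229 (cons (fin 1292 5 1036)
(mv 1230 (cons (fin 1166 4 973)
(fin 1294 4 1037)))))))))))
(cons (mv 910 (cons (fin 974 6 909)
(mv 1228 (cons (fin 1164 5 972)
(mv 1229 (cons (fin 1292 5 1036)
(mv 1230 (cons (fin 1166 4 973)
(fin 1294 4 1037)))))))))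
(mv 910 (cons (fin 974 6 909)
(mv 972 (cons (fin 908 7 908)
(mv 1229 (cons (fin 1036 7 972)
(mv 1230 (cons (fin 1166 4 973)
(fin 1294 4 1037)))))))))))
(cons (mv 910 (cons (fin 974 6 909)
(mv 972 (cons (fin 908 7 908)
(mv 1228 (cons (fin 1164 5 972)
(mv 1229 (cons (fin 1036 7 972)
(fin 1292 5 1036)))))))))
(cons (mv 908 (cons (fin 972 7 908)
(mv 1228 (cons (fin 1164 5 972)
(mv 1229 (cons (fin 1292 5 1036)
(mv 1230 (cons (fin 1166 4 973)
(fin 1294 4 1037)))))))))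
(mv 908 (cons (fin 972 7 908)
(mv 910 (cons (fin 974 6 909)
(mv 1164 (cons (fin 1228 5 972)
(mv 1166 (cons (fin 1230 4 973)
(mv 1102 (cons (mv 1103 (cons (fin 1104 1 1100)
(fin 1100 2 1036)))
(cons (mv 1163 (cons (fin 1162 2 1098)
(mv 1099 (cons (fin 1098 3 1098)
(mv 1100 (cons (fin 1167 3 1099)
(mv 1034 (cons (fin 1035 3 1034)
(mv 1227 (cons (fin 1226 1 1162)
(mv 1291 (cons (fin 1036 6 1035)
(fin 1355 6 1099)))))))))))))
(mv 1103 (cons (fin 1104 1 1100)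
(fin 1163 2 1099))))))))))))))))))
(mv 1165 (cons (cons (mv 908 (cons (fin 972 7 908)
(mv 844 (cons (fin 909 7 844)
(mv 910 (cons (fin 974 6 909)
(mv 1228 (cons (fin 1164 5 972)
(mv 1229 (cons (fin 1292 5 1036)
(mv 1230 (cons (fin 1166 4 973)
(fin 1294 4 1037)))))))))))))
(mv 908 (cons (fin 972 7 908)
(mv 909 (cons (fin 844 7 844)
(mv 910 (cons (fin 846 6 845)
(fin 974 6 909))))))))
(cons (mv 910 (cons (fin 974 6 909)
(mv 846 (cons (fin 909 6 845)
(mv 1228 (cons (fin 1164 5 972)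
(mv 1229 (cons (fin 1292 5 1036)
(mv 1230 (cons (fin 1166 4 973)
(fin 1294 4 1037)))))))))))
(cons (mv 908 (cons (fin 972 7 908)
(mv 844 (cons (fin 909 7 844)
(mv 1228 (cons (fin 1164 5 972)
(mv 1229 (cons (fin 1292 5 1036)
(mv 1230 (cons (fin 1166 4 973)
(fin 1294 4 1037)))))))))))
(mv 908 (cons (fin 972 7 908)
(mv 910 (cons (fin 974 6 909)
(mv 1228 (cons (fin 1164 5 972)
(mv 1229 (cons (fin 1292 5 1036)
(mv 1230 (cons (fin 1166 4 973)
(fin 1294 4 1037)))))))))))))))))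
(cons (cons (mv 909 (cons (cons (mv 844 (cons (fin 908 7 844)
(mv 780 (cons (fin 845 7 780)
(mv 846 (cons (fin 910 6 845)
(mv 1102 (cons (fin 1166 4 909)
(mv 1103 (cons (fin 1100 2 1036)
(mv 1104 (cons (fin 1036 3 1036)
(mv 1168 (cons (fin 1169 0 1101)
(mv 1232 (cons (fin 1296 7 1039)
(mv 1231 (cons (fin 1295 5 1039)
(mv 976 (cons (fin 1167 5 975)
(mv 912 (cons (fin 848 5 847)
(mv 913 (cons (fin 849 6 848)
(fin 977 6 912)))))))))))))))))))))))))
(cons (mv 846 (cons (fin 910 6 845)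
(mv 782 (cons (fin 845 6 781)
(mv 1102 (cons (fin 1166 4 909)
(mv 1103 (cons (fin 1100 2 1036)
(mv 1104 (cons (fin 1036 3 1036)
(mv 1168 (cons (fin 1169 0 1101)
(mv 1232 (cons (fin 1296 7 1039)
(mv 1231 (cons (fin 1295 5 1039)
(mv 976 (cons (fin 1167 5 975)
(mv 912 (cons (fin 848 5 847)
(mv 913 (cons (fin 849 6 848)
(fin 977 6 912)))))))))))))))))))))))
(mv 844 (cons (fin 908 7 844)
(mv 780 (cons (fin 845 7 780)
(mv 1102 (cons (fin 1166 4 909)
(mv 1103 (cons (fin 1100 2 1036)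
(mv 1104 (cons (fin 1036 3 1036)
(mv 1168 (cons (fin 1169 0 1101)
(mv 1232 (cons (fin 1296 7 1039)
(mv 1231 (cons (fin 1295 5 1039)
(mv 976 (cons (fin 1167 5 975)
(mv 912 (cons (fin 848 5 847)
(mv 913 (cons (fin 849 6 848)
(fin 977 6 912)))))))))))))))))))))))))
(cons (mv 844 (cons (fin 908 7 844)
(mv 780 (cons (fin 845 7 780)
(mv 910 (cons (fin 846 6 845)
(mv 1165 (cons (fin 974 6 909)
(mv 1230 (cons (fin 1166 4 973)
(mv 1229 (cons (fin 1294 4 1037)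
(mv 1036 (cons (fin 972 7 972)
(mv 1292 (cons (fin 1228 5 1036)
(mv 1293 (cons (fin 1100 7 1036)
(fin 1356 5 1100)))))))))))))))))))
(cons (mv 844 (cons (fin 908 7 844)
(mv 845 (cons (fin 780 7 780)
(mv 846 (cons (fin 782 6 781)
(fin 910 6 845)))))))
(mv 844 (cons (fin 908 7 844)
(mv 846 (cons (fin 910 6 845)
(mv 1102 (cons (fin 1166 4 909)
(mv 1103 (cons (fin 1100 2 1036)
(mv 1104 (cons (fin 1036 3 1036)
(mv 1168 (cons (fin 1169 0 1101)
(mv 1232 (cons (fin 1296 7 1039)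
(mv 1231 (cons (fin 1295 5 1039)
(mv 976 (cons (fin 1167 5 975)
(mv 912 (cons (fin 848 5 847)
(mv 913 (cons (fin 849 6 848)
(fin 977 6 912)))))))))))))))))))))))))))
(mv 1165 (cons (cons (mv 910 (cons (fin 974 6 909)
(mv 846 (cons (fin 909 6 845)
(mv 1166 (cons (fin 1230 4 973)
(mv 1228 (cons (fin 1164 5 972)
(mv 1229 (cons (fin 1292 5 1036)
(mv 1036 (cons (fin 972 7 972)
(mv 1100 (cons (fin 1293 7 1036)
(mv 1098 (cons (fin 1099 0 1098)
(mv 1103 (cons (fin 1102 2 1036)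
(mv 1167 (cons (fin 1168 3 1100)
(mv 976 (cons (fin 1231 6 975)
(mv 912 (cons (fin 848 5 847)
(fin 1104 5 911)))))))))))))))))))))))))
(cons (mv 910 (cons (fin 974 6 909)
(mv 846 (cons (fin 909 6 845)
(mv 1230 (cons (fin 1166 4 973)
(mv 1229 (cons (fin 1294 4 1037)
(mv 1036 (cons (fin 972 7 972)
(mv 1292 (cons (fin 1228 5 1036)
(mv 1293 (cons (fin 1100 7 1036)
(fin 1356 5 1100)))))))))))))))
(mv 910 (cons (fin 974 6 909)
(mv 846 (cons (fin 909 6 845)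
(mv 1228 (cons (fin 1164 5 972)
(mv 1229 (cons (fin 1292 5 1036)
(mv 1036 (cons (fin 972 7 972)
(mv 1293 (cons (fin 1100 7 1036)
(mv 1294 (cons (fin 1230 4 1037)
(fin 1358 4 1101)))))))))))))))))
(cons (cons (mv 910 (cons (fin 974 6 909)
(mv 909 (cons (fin 846 6 845)
(mv 1166 (cons (fin 1102 4 909)
(fin 1230 4 973)))))))
(mv 910 (cons (fin 974 6 909)
(mv 909 (cons (fin 846 6 845)
(mv 1164 (cons (fin 1100 5 908)
(fin 1228 5 972))))))))
(cons (mv 1164 (cons (fin 1228 5 972)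
(mv 909 (cons (fin 1100 5 908)
(mv 1166 (cons (fin 1102 4 909)
(fin 1230 4 973)))))))
(mv 910 (cons (fin 974 6 909)
(mv 1166 (cons (fin 1230 4 973)
(mv 1228 (cons (fin 1164 5 972)
(mv 1229 (cons (fin 1292 5 1036)
(mv 1036 (cons (fin 972 7 972)
(mv 1100 (cons (fin 1293 7 1036)
(mv 1098 (cons (fin 1099 0 1098)
(mv 1103 (cons (fin 1102 2 1036)
(mv 1167 (cons (fin 1168 3 1100)
(mv 976 (cons (fin 1231 6 975)
(mv 912 (cons (fin 848 5 847)
(fin 1104 5 911))))))))))))))))))))))))))))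
(cons (mv 909 (cons (cons (mv 844 (cons (fin 908 7 844)
(mv 780 (cons (fin 845 7 780)
(mv 910 (cons (fin 846 6 845)
(mv 1164 (cons (fin 1100 5 908)
(mv 1165 (cons (fin 1228 5 972)
(fin 974 6 909)))))))))))
(mv 844 (cons (fin 908 7 844)
(mv 845 (cons (fin 780 7 780)
(mv 846 (cons (fin 782 6 781)
(fin 910 6 845))))))))
(cons (mv 846 (cons (fin 910 6 845)
(mv 845 (cons (fin 782 6 781)
(mv 1100 (cons (fin 1036 5 844)
(fin 1164 5 908)))))))
(cons (mv 844 (cons (fin 908 7 844)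
(mv 845 (cons (fin 780 7 780)
(mv 1100 (cons (fin 1036 5 844)
(fin 1164 5 908)))))))
(mv 844 (cons (fin 908 7 844)
(mv 910 (cons (fin 846 6 845)
(mv 1164 (cons (fin 1100 5 908)
(mv 1165 (cons (fin 1228 5 972)
(fin 974 6 909)))))))))))))
(mv 1165 (cons (cons (mv 908 (cons (fin 972 7 908)
(mv 844 (cons (fin 909 7 844)
(mv 1228 (cons (fin 1164 5 972)
(mv 1229 (cons (fin 1292 5 1036)
(mv 1230 (cons (fin 1166 4 973)
(fin 1294 4 1037)))))))))))
(cons (mv 908 (cons (fin 972 7 908)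
(mv 844 (cons (fin 909 7 844)
(mv 1230 (cons (fin 1166 4 973)
(mv 1229 (cons (fin 1294 4 1037)
(mv 1292 (cons (fin 1228 5 1036)
(mv 1293 (cons (fin 1356 5 1100)
(mv 1100 (cons (fin 1036 7 1036)
(mv 1103 (cons (fin 1102 2 1036)
(mv 1231 (cons (fin 1232 1 1228)
(mv 1167 (cons (fin 976 6 975)
(mv 1295 (cons (fin 1104 6 1039)
(mv 1360 (cons (fin 1296 4 1103)
(mv 1359 (cons (fin 1424 4 1167)
(mv 1358 (cons (fin 1357 3 1292)
(fin 1422 5 1166)))))))))))))))))))))))))))))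
(mv 908 (cons (fin 972 7 908)
(mv 909 (cons (fin 844 7 844)
(mv 1164 (cons (fin 1100 5 908)
(fin 1228 5 972)))))))))
(cons (mv 1164 (cons (fin 1228 5 972)
(mv 909 (cons (fin 1100 5 908)
(mv 1166 (cons (fin 1102 4 909)
(fin 1230 4 973)))))))
(cons (mv 908 (cons (fin 972 7 908)
(mv 909 (cons (fin 844 7 844)
(mv 1166 (cons (fin 1102 4 909)
(fin 1230 4 973)))))))
(mv 908 (cons (fin 972 7 908)
(mv 1228 (cons (fin 1164 5 972)
(mv 1229 (cons (fin 1292 5 1036)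
(mv 1230 (cons (fin 1166 4 973)
(fin 1294 4 1037)))))))))))))))))))
(cons (cons (mv 975 (cons (cons (cons (mv 1104 (cons (cons (mv 911 (cons (fin 847 4 847)
(mv 1168 (cons (fin 976 7 911)
(fin 1232 7 975)))))
(mv 911 (cons (fin 847 4 847)
(mv 1103 (cons (cons (mv 846 (cons (fin 910 7 846)
(mv 848 (cons (fin 912 6 847)
(mv 1102 (cons (fin 1166 5 910)
(mv 1101 (cons (fin 1036 3 1036)
(fin 1100 2 1036)))))))))
(mv 846 (cons (fin 910 7 846)
(mv 1102 (cons (fin 1166 5 910)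
(mv 1101 (cons (fin 1036 3 1036)
(fin 1100 2 1036))))))))
(cons (mv 846 (cons (fin 910 7 846)
(mv 912 (cons (fin 848 6 847)
(mv 976 (cons (fin 1167 5 911)
(mv 913 (cons (fin 974 2 909)
(fin 849 6 848)))))))))
(mv 848 (cons (fin 912 6 847)
(mv 1102 (cons (fin 1166 5 910)
(mv 1101 (cons (fin 1036 3 1036)
(fin 1100 2 1036)))))))))))))
(cons (mv 1168 (cons (fin 1232 7 975)
(mv 976 (cons (cons (mv 913 (cons (fin 977 6 912)
(mv 912 (cons (fin 974 2 909)
(fin 849 6 848)))))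
(mv 913 (cons (fin 977 6 912)
(mv 912 (cons (fin 849 6 848)
(mv 848 (cons (fin 784 5 783)
(fin 1103 5 847))))))))
(cons (mv 974 (cons (fin 1036 1 972)
(mv 908 (cons (fin 909 3 908)
(mv 1167 (cons (fin 1231 5 975)
(mv 1103 (cons (fin 910 7 910)
(fin 912 5 911)))))))))
(mv 913 (cons (fin 977 6 912)
(mv 974 (cons (fin 1036 1 972)
(mv 908 (cons (fin 909 3 908)
(mv 1167 (cons (fin 1231 5 975)
(mv 910 (cons (fin 1103 7 910)
(mv 782 (cons (fin 846 5 781)
(mv 1165 (cons (fin 1101 6 909)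
(mv 1166 (cons (fin 1105 2 1101)
(mv 1169 (cons (fin 1233 4 976)
(mv 1229 (cons (fin 1228 1 1164)
(fin 1230 1 1165))))))))))))))))))))))))))
(mv 911 (cons (fin 847 4 847)
(mv 1168 (cons (fin 1232 7 975)
(fin 1103 4 911))))))))
(cons (mv 974 (cons (cons (mv 976 (cons (fin 1036 1 972)
(mv 908 (cons (fin 909 3 908)
(mv 912 (cons (fin 913 2 909)
(mv 848 (cons (fin 784 5 783)
(fin 1103 5 847)))))))))
(mv 910 (cons (cons (mv 782 (cons (fin 846 5 781)
(mv 1101 (cons (fin 1165 6 909)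
(mv 1103 (cons (fin 1167 7 910)
(mv 1100 (cons (fin 1102 2 1036)
(mv 909 (cons (fin 1164 5 908)
(mv 908 (cons (fin 907 0 907)
(fin 844 7 844)))))))))))))
(mv 1101 (cons (fin 1165 6 909)
(mv 1103 (cons (fin 1167 7 910)
(mv 1100 (cons (fin 1102 2 1036)
(mv 909 (cons (fin 1164 5 908)
(mv 908 (cons (fin 907 0 907)
(fin 844 7 844))))))))))))
(cons (mv 846 (cons (fin 782 5 781)
(mv 1103 (cons (fin 911 7 846)
(fin 1167 7 910)))))
(mv 846 (cons (fin 782 5 781)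
(mv 1101 (cons (fin 909 6 845)
(fin 1165 6 909)))))))))
(cons (mv 976 (cons (fin 1036 1 972)
(mv 912 (cons (fin 913 2 909)
(mv 848 (cons (fin 784 5 783)
(fin 1103 5 847)))))))
(mv 976 (cons (fin 1036 1 972)
(mv 909 (cons (fin 908 3 908)
(mv 910 (cons (fin 977 3 909)
(mv 846 (cons (fin 782 5 781)
(fin 1101 6 845))))))))))))
(mv 911 (cons (cons (mv 847 (cons (fin 1104 4 847)
(mv 782 (cons (fin 846 7 782)
(mv 718 (cons (fin 783 7 718)
(mv 848 (cons (fin 784 6 783)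
(mv 1103 (cons (fin 912 6 847)
(mv 1166 (cons (fin 1102 5 910)
(mv 1167 (cons (fin 1230 5 974)
(mv 910 (cons (fin 974 7 910)
(mv 849 (cons (fin 850 1 846)
(mv 909 (cons (fin 908 2 844)
(mv 845 (cons (fin 781 6 717)
(mv 1100 (cons (fin 1036 5 844)
(mv 1101 (cons (fin 1164 5 908)
(mv 1168 (cons (fin 1165 3 1100)
(fin 1232 4 975)))))))))))))))))))))))))))))
(cons (mv 1103 (cons (cons (mv 846 (cons (fin 910 7 846)
(mv 848 (cons (fin 912 6 847)
(mv 1102 (cons (fin 1166 5 910)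
(mv 1101 (cons (fin 1100 2 1036)
(mv 1104 (cons (fin 1036 3 1036)
(fin 1168 4 911)))))))))))
(cons (mv 848 (cons (fin 912 6 847)
(mv 910 (cons (fin 846 7 846)
(mv 974 (cons (fin 1167 7 910)
(mv 1101 (cons (fin 1165 6 909)
(mv 1102 (cons (fin 1100 2 1036)
(fin 1166 5 910)))))))))))
(mv 848 (cons (fin 912 6 847)
(mv 1102 (cons (fin 1166 5 910)
(mv 1101 (cons (fin 1100 2 1036)
(mv 1104 (cons (fin 1036 3 1036)
(fin 1168 4 911)))))))))))
(cons (mv 848 (cons (fin 912 6 847)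
(mv 910 (cons (fin 846 7 846)
(mv 1104 (cons (fin 1168 4 911)
(mv 1167 (cons (fin 974 7 910)
(mv 1230 (cons (fin 1166 5 974)
(mv 1231 (cons (fin 1294 5 1038)
(fin 1295 6 1039)))))))))))))
(cons (mv 848 (cons (fin 912 6 847)
(mv 910 (cons (fin 846 7 846)
(mv 974 (cons (fin 1167 7 910)
(mv 1101 (cons (fin 1165 6 909)
(mv 1100 (cons (fin 1102 2 1036)
(mv 909 (cons (fin 1164 5 908)
(mv 908 (cons (fin 907 0 907)
(fin 844 7 844)))))))))))))))
(mv 846 (cons (fin 910 7 846)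
(mv 1102 (cons (fin 1166 5 910)
(mv 1101 (cons (fin 1100 2 1036)
(mv 1104 (cons (fin 1036 3 1036)
(fin 1168 4 911)))))))))))))
(mv 846 (cons (cons (mv 782 (cons (fin 847 7 782)
(mv 910 (cons (fin 1103 7 846)
(fin 974 5 781)))))
(mv 847 (cons (fin 782 7 782)
(mv 848 (cons (fin 784 6 783)
(mv 912 (cons (fin 1103 6 847)
(mv 845 (cons (fin 844 0 844)
(fin 913 0 845))))))))))
(cons (mv 910 (cons (fin 1103 7 846)
(mv 1101 (cons (fin 909 6 845)
(mv 1165 (cons (fin 974 6 909)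
(mv 1228 (cons (fin 1164 5 972)
(mv 1229 (cons (fin 1292 5 1036)
(mv 1230 (cons (fin 1166 4 973)
(fin 1294 4 1037)))))))))))))
(mv 782 (cons (fin 847 7 782)
(mv 910 (cons (fin 974 5 781)
(fin 718 4 718))))))))))
(cons (mv 847 (cons (fin 1104 4 847)
(mv 782 (cons (fin 846 7 782)
(mv 783 (cons (fin 718 7 718)
(mv 784 (cons (fin 720 6 719)
(fin 848 6 783)))))))))
(cons (mv 847 (cons (fin 1104 4 847)
(mv 848 (cons (fin 784 6 783)
(mv 1103 (cons (fin 912 6 847)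
(mv 1166 (cons (fin 1102 5 910)
(mv 1167 (cons (fin 1230 5 974)
(mv 910 (cons (fin 974 7 910)
(mv 849 (cons (fin 850 1 846)
(mv 909 (cons (fin 908 2 844)
(mv 1232 (cons (fin 1168 4 975)
(mv 1231 (cons (fin 1296 4 1039)
(mv 1164 (cons (fin 1165 0 1164)
(mv 1100 (cons (fin 1101 5 908)
(mv 1036 (cons (fin 845 5 844)
(fin 1228 6 972)))))))))))))))))))))))))))
(mv 847 (cons (fin 1104 4 847)
(mv 846 (cons (fin 782 7 782)
(mv 910 (cons (fin 1103 7 846)
(mv 909 (cons (fin 1101 6 845)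
(mv 908 (cons (fin 907 2 843)
(mv 844 (cons (fin 843 3 843)
(mv 780 (cons (fin 845 7 780)
(fin 716 4 716)))))))))))))))))))))
(cons (cons (mv 1101 (cons (cons (cons (mv 909 (cons (cons (mv 844 (cons (fin 908 7 844)
(mv 780 (cons (fin 845 7 780)
(mv 846 (cons (fin 910 6 845)
(mv 1100 (cons (fin 1164 5 908)
(mv 1102 (cons (fin 1103 2 1036)
(fin 1166 4 909)))))))))))
(mv 844 (cons (fin 908 7 844)
(mv 780 (cons (fin 845 7 780)
(mv 910 (cons (fin 846 6 845)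
(mv 974 (cons (fin 1165 6 909)
(mv 976 (cons (fin 977 3 909)
(fin 1036 1 972))))))))))))
(cons (mv 844 (cons (fin 908 7 844)
(mv 780 (cons (fin 845 7 780)
(mv 1100 (cons (fin 1164 5 908)
(mv 1102 (cons (fin 1103 2 1036)
(fin 1166 4 909)))))))))
(cons (mv 846 (cons (fin 910 6 845)
(mv 782 (cons (fin 845 6 781)
(mv 1100 (cons (fin 1164 5 908)
(mv 1102 (cons (fin 1103 2 1036)
(fin 1166 4 909)))))))))
(mv 844 (cons (fin 908 7 844)
(mv 846 (cons (fin 910 6 845)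
(mv 1100 (cons (fin 1164 5 908)
(mv 1102 (cons (fin 1103 2 1036)
(fin 1166 4 909)))))))))))))
(mv 1165 (cons (cons (mv 910 (cons (fin 974 6 909)
(mv 1164 (cons (fin 1228 5 972)
(mv 1230 (cons (fin 1166 4 973)
(mv 1229 (cons (fin 1294 4 1037)
(mv 1162 (cons (fin 1163 0 1162)
(mv 1232 (cons (fin 1231 3 1164)
(mv 1168 (cons (fin 1104 7 975)
(mv 1103 (cons (fin 1167 4 975)
(mv 1100 (cons (fin 1102 2 1036)
(mv 1293 (cons (fin 1036 7 1036)
(fin 1357 7 1100)))))))))))))))))))))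
(mv 1164 (cons (fin 1228 5 972)
(mv 1230 (cons (fin 1166 4 973)
(mv 1229 (cons (fin 1294 4 1037)
(mv 1162 (cons (fin 1163 0 1162)
(mv 1232 (cons (fin 1231 3 1164)
(mv 1168 (cons (fin 1104 7 975)
(mv 1103 (cons (fin 1167 4 975)
(mv 1100 (cons (fin 1102 2 1036)
(mv 1293 (cons (fin 1036 7 1036)
(fin 1357 7 1100))))))))))))))))))))
(cons (mv 974 (cons (fin 910 6 909)
(mv 976 (cons (fin 1036 1 972)
(mv 912 (cons (fin 913 2 909)
(mv 848 (cons (fin 784 5 783)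
(fin 1103 5 847)))))))))
(mv 910 (cons (fin 974 6 909)
(mv 1228 (cons (fin 1164 5 972)
(mv 1229 (cons (fin 1292 5 1036)
(mv 1230 (cons (fin 1166 4 973)
(fin 1294 4 1037)))))))))))))
(cons (mv 909 (cons (cons (mv 844 (cons (fin 908 7 844)
(mv 780 (cons (fin 845 7 780)
(mv 846 (cons (fin 910 6 845)
(mv 1100 (cons (fin 1164 5 908)
(mv 1102 (cons (fin 1103 2 1036)
(fin 1166 4 909)))))))))))
(mv 844 (cons (fin 908 7 844)
(mv 845 (cons (fin 780 7 780)
(mv 846 (cons (fin 782 6 781)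
(fin 910 6 845))))))))
(cons (mv 846 (cons (fin 910 6 845)
(mv 782 (cons (fin 845 6 781)
(mv 1100 (cons (fin 1164 5 908)
(mv 1102 (cons (fin 1103 2 1036)
(fin 1166 4 909)))))))))
(cons (mv 844 (cons (fin 908 7 844)
(mv 780 (cons (fin 845 7 780)
(mv 1100 (cons (fin 1164 5 908)
(mv 1102 (cons (fin 1103 2 1036)
(fin 1166 4 909)))))))))
(mv 844 (cons (fin 908 7 844)
(mv 846 (cons (fin 910 6 845)
(mv 1100 (cons (fin 1164 5 908)
(mv 1102 (cons (fin 1103 2 1036)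
(fin 1166 4 909)))))))))))))
(mv 909 (cons (cons (mv 844 (cons (fin 908 7 844)
(mv 780 (cons (fin 845 7 780)
(mv 910 (cons (fin 846 6 845)
(mv 974 (cons (fin 1165 6 909)
(mv 976 (cons (fin 977 3 909)
(fin 1036 1 972)))))))))))
(mv 908 (cons (fin 844 7 844)
(mv 976 (cons (fin 974 3 908)
(mv 1166 (cons (fin 1102 4 909)
(mv 1165 (cons (fin 1230 4 973)
(mv 1228 (cons (fin 1164 5 972)
(mv 1229 (cons (fin 1292 5 1036)
(mv 1167 (cons (fin 1168 1 1164)
(mv 1103 (cons (fin 912 6 911)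
(fin 1231 6 975))))))))))))))))))
(cons (mv 910 (cons (fin 846 6 845)
(mv 974 (cons (fin 1165 6 909)
(mv 976 (cons (fin 977 3 909)
(fin 1036 1 972)))))))
(mv 844 (cons (fin 908 7 844)
(mv 845 (cons (fin 780 7 780)
(mv 846 (cons (fin 782 6 781)
(fin 910 6 845))))))))))))
(cons (cons (mv 909 (cons (cons (mv 844 (cons (fin 908 7 844)
(mv 780 (cons (fin 845 7 780)
(mv 910 (cons (fin 846 6 845)
(mv 974 (cons (fin 1165 6 909)
(mv 976 (cons (fin 977 3 909)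
(fin 1036 1 972)))))))))))
(mv 844 (cons (fin 908 7 844)
(mv 845 (cons (fin 780 7 780)
(mv 1100 (cons (fin 1036 5 844)
(fin 1164 5 908))))))))
(cons (mv 846 (cons (fin 910 6 845)
(mv 845 (cons (fin 782 6 781)
(mv 1100 (cons (fin 1036 5 844)
(fin 1164 5 908)))))))
(cons (mv 844 (cons (fin 908 7 844)
(mv 910 (cons (fin 846 6 845)
(mv 974 (cons (fin 1165 6 909)
(mv 976 (cons (fin 977 3 909)
(fin 1036 1 972)))))))))
(mv 844 (cons (fin 908 7 844)
(mv 780 (cons (fin 845 7 780)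
(mv 910 (cons (fin 846 6 845)
(mv 974 (cons (fin 1165 6 909)
(mv 976 (cons (fin 977 3 909)
(mv 912 (cons (fin 913 2 909)
(mv 848 (cons (fin 784 5 783)
(fin 1103 5 847)))))))))))))))))))
(mv 909 (cons (cons (mv 844 (cons (fin 908 7 844)
(mv 780 (cons (fin 845 7 780)
(mv 1100 (cons (fin 1164 5 908)
(mv 1102 (cons (fin 1103 2 1036)
(fin 1166 4 909)))))))))
(mv 908 (cons (fin 844 7 844)
(mv 976 (cons (fin 974 3 908)
(mv 1166 (cons (fin 1102 4 909)
(mv 1165 (cons (fin 1230 4 973)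
(mv 1228 (cons (fin 1164 5 972)
(mv 1229 (cons (fin 1292 5 1036)
(mv 1167 (cons (fin 1168 1 1164)
(mv 1103 (cons (fin 912 6 911)
(fin 1231 6 975))))))))))))))))))
(cons (mv 844 (cons (fin 908 7 844)
(mv 845 (cons (fin 780 7 780)
(mv 1100 (cons (fin 1036 5 844)
(fin 1164 5 908)))))))
(cons (mv 844 (cons (fin 908 7 844)
(mv 780 (cons (fin 845 7 780)
(mv 1102 (cons (fin 1166 4 909)
(mv 1103 (cons (fin 1100 2 1036)
(mv 1036 (cons (fin 1104 3 1036)
(mv 976 (cons (fin 974 1 972)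
(mv 912 (cons (fin 848 5 847)
(fin 1167 6 911)))))))))))))))
(mv 1100 (cons (fin 1164 5 908)
(mv 1102 (cons (fin 1103 2 1036)
(fin 1166 4 909))))))))))
(cons (mv 909 (cons (cons (mv 844 (cons (fin 908 7 844)
(mv 780 (cons (fin 845 7 780)
(mv 846 (cons (fin 910 6 845)
(mv 1102 (cons (fin 1166 4 909)
(mv 1103 (cons (fin 1100 2 1036)
(mv 1036 (cons (fin 1104 3 1036)
(mv 976 (cons (fin 974 1 972)
(mv 912 (cons (fin 848 5 847)
(fin 1167 6 911)))))))))))))))))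
(cons (mv 844 (cons (fin 908 7 844)
(mv 780 (cons (fin 845 7 780)
(mv 1102 (cons (fin 1166 4 909)
(mv 1103 (cons (fin 1100 2 1036)
(mv 1036 (cons (fin 1104 3 1036)
(mv 976 (cons (fin 974 1 972)
(mv 912 (cons (fin 848 5 847)
(fin 1167 6 911)))))))))))))))
(mv 846 (cons (fin 910 6 845)
(mv 782 (cons (fin 845 6 781)
(mv 1102 (cons (fin 1166 4 909)
(mv 1103 (cons (fin 1100 2 1036)
(mv 1036 (cons (fin 1104 3 1036)
(mv 976 (cons (fin 974 1 972)
(mv 912 (cons (fin 848 5 847)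
(fin 1167 6 911)))))))))))))))))
(cons (cons (mv 844 (cons (fin 908 7 844)
(mv 780 (cons (fin 845 7 780)
(mv 910 (cons (fin 846 6 845)
(mv 974 (cons (fin 1165 6 909)
(mv 976 (cons (fin 977 3 909)
(fin 1036 1 972)))))))))))
(mv 844 (cons (fin 908 7 844)
(mv 780 (cons (fin 845 7 780)
(mv 846 (cons (fin 910 6 845)
(mv 1102 (cons (fin 1166 4 909)
(mv 1103 (cons (fin 1100 2 1036)
(mv 1104 (cons (fin 1036 3 1036)
(mv 1168 (cons (fin 1169 0 1101)
(fin 1232 7 975))))))))))))))))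
(cons (mv 844 (cons (fin 908 7 844)
(mv 846 (cons (fin 910 6 845)
(mv 1102 (cons (fin 1166 4 909)
(mv 1103 (cons (fin 1100 2 1036)
(mv 1036 (cons (fin 1104 3 1036)
(mv 976 (cons (fin 974 1 972)
(mv 912 (cons (fin 848 5 847)
(fin 1167 6 911)))))))))))))))
(mv 844 (cons (fin 908 7 844)
(mv 780 (cons (fin 845 7 780)
(mv 910 (cons (fin 846 6 845)
(mv 974 (cons (fin 1165 6 909)
(mv 976 (cons (fin 977 3 909)
(mv 912 (cons (fin 913 2 909)
(mv 848 (cons (fin 784 5 783)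
(fin 1103 5 847)))))))))))))))))))
(mv 909 (cons (cons (mv 844 (cons (fin 908 7 844)
(mv 780 (cons (fin 845 7 780)
(mv 846 (cons (fin 910 6 845)
(mv 1164 (cons (fin 1100 5 908)
(mv 1165 (cons (fin 1228 5 972)
(mv 1166 (cons (fin 1102 4 909)
(fin 1230 4 973)))))))))))))
(cons (mv 844 (cons (fin 908 7 844)
(mv 780 (cons (fin 845 7 780)
(mv 1164 (cons (fin 1100 5 908)
(mv 1165 (cons (fin 1228 5 972)
(mv 1166 (cons (fin 1102 4 909)
(fin 1230 4 973)))))))))))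
(mv 846 (cons (fin 910 6 845)
(mv 782 (cons (fin 845 6 781)
(mv 1164 (cons (fin 1100 5 908)
(mv 1165 (cons (fin 1228 5 972)
(mv 1166 (cons (fin 1102 4 909)
(fin 1230 4 973)))))))))))))
(cons (mv 844 (cons (fin 908 7 844)
(mv 780 (cons (fin 845 7 780)
(mv 910 (cons (fin 846 6 845)
(mv 974 (cons (fin 1165 6 909)
(mv 976 (cons (fin 977 3 909)
(fin 1036 1 972)))))))))))
(cons (mv 844 (cons (fin 908 7 844)
(mv 846 (cons (fin 910 6 845)
(mv 1164 (cons (fin 1100 5 908)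
(mv 1165 (cons (fin 1228 5 972)
(mv 1166 (cons (fin 1102 4 909)
(fin 1230 4 973)))))))))))
(mv 844 (cons (fin 908 7 844)
(mv 845 (cons (fin 780 7 780)
(mv 846 (cons (fin 782 6 781)
(fin 910 6 845)))))))))))))))
(mv 911 (cons (cons (mv 847 (cons (fin 1104 4 847)
(mv 782 (cons (fin 846 7 782)
(mv 783 (cons (fin 718 7 718)
(fin 976 4 783)))))))
(mv 1103 (cons (cons (mv 846 (cons (fin 910 7 846)
(mv 848 (cons (fin 912 6 847)
(mv 1102 (cons (fin 1166 5 910)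
(mv 1101 (cons (fin 1100 2 1036)
(mv 1104 (cons (fin 1036 3 1036)
(fin 1168 4 911)))))))))))
(cons (mv 846 (cons (fin 910 7 846)
(mv 848 (cons (fin 912 6 847)
(mv 1166 (cons (fin 1102 5 910)
(mv 1167 (cons (fin 1230 5 974)
(mv 1231 (cons (fin 976 6 975)
(mv 1295 (cons (fin 1104 6 1039)
(mv 1296 (cons (fin 1232 4 1039)
(fin 1360 4 1103)))))))))))))))
(mv 846 (cons (fin 910 7 846)
(mv 848 (cons (fin 912 6 847)
(mv 1166 (cons (fin 1102 5 910)
(mv 1167 (cons (fin 1230 5 974)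
(mv 1231 (cons (fin 976 6 975)
(mv 1232 (cons (fin 1168 4 975)
(fin 1296 4 1039)))))))))))))))
(cons (cons (mv 846 (cons (fin 910 7 846)
(mv 1102 (cons (fin 1166 5 910)
(mv 1101 (cons (fin 1100 2 1036)
(mv 1104 (cons (fin 1036 3 1036)
(fin 1168 4 911)))))))))
(mv 846 (cons (fin 910 7 846)
(mv 848 (cons (fin 912 6 847)
(mv 1168 (cons (fin 1104 4 911)
(mv 1167 (cons (fin 1232 4 975)
(mv 1230 (cons (fin 1166 5 974)
(mv 1231 (cons (fin 1294 5 1038)
(fin 976 6 975))))))))))))))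
(cons (mv 846 (cons (fin 910 7 846)
(mv 912 (cons (fin 848 6 847)
(mv 1167 (cons (fin 976 6 911)
(mv 1168 (cons (fin 1104 4 911)
(fin 1232 4 975)))))))))
(mv 848 (cons (fin 912 6 847)
(mv 1102 (cons (fin 1166 5 910)
(mv 1101 (cons (fin 1100 2 1036)
(mv 1104 (cons (fin 1036 3 1036)
(fin 1168 4 911))))))))))))))
(cons (mv 1103 (cons (cons (mv 846 (cons (fin 910 7 846)
(mv 782 (cons (fin 847 7 782)
(mv 845 (cons (fin 909 6 781)
(mv 848 (cons (fin 912 6 847)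
(mv 1166 (cons (fin 1102 5 910)
(mv 1167 (cons (fin 1230 5 974)
(mv 1231 (cons (fin 976 6 975)
(mv 1232 (cons (fin 1168 4 975)
(fin 1296 4 1039)))))))))))))))))
(mv 846 (cons (fin 910 7 846)
(mv 782 (cons (fin 847 7 782)
(mv 845 (cons (fin 909 6 781)
(mv 1166 (cons (fin 1102 5 910)
(mv 1167 (cons (fin 1230 5 974)
(mv 1231 (cons (fin 976 6 975)
(mv 1232 (cons (fin 1168 4 975)
(fin 1296 4 1039))))))))))))))))
(cons (mv 848 (cons (fin 912 6 847)
(mv 784 (cons (fin 847 6 783)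
(mv 1166 (cons (fin 1102 5 910)
(mv 1167 (cons (fin 1230 5 974)
(mv 1231 (cons (fin 976 6 975)
(mv 1232 (cons (fin 1168 4 975)
(fin 1296 4 1039)))))))))))))
(cons (mv 846 (cons (fin 910 7 846)
(mv 847 (cons (fin 782 7 782)
(mv 848 (cons (fin 784 6 783)
(fin 912 6 847)))))))
(mv 846 (cons (fin 910 7 846)
(mv 848 (cons (fin 912 6 847)
(mv 1166 (cons (fin 1102 5 910)
(mv 1167 (cons (fin 1230 5 974)
(mv 1231 (cons (fin 976 6 975)
(mv 1232 (cons (fin 1168 4 975)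
(fin 1296 4 1039)))))))))))))))))
(cons (mv 847 (cons (fin 1104 4 847)
(mv 782 (cons (fin 846 7 782)
(mv 783 (cons (fin 718 7 718)
(mv 784 (cons (fin 720 6 719)
(fin 848 6 783)))))))))
(mv 847 (cons (fin 1104 4 847)
(mv 783 (cons (fin 976 4 783)
(mv 784 (cons (fin 720 6 719)
(fin 848 6 783))))))))))))
(cons (mv 911 (cons (cons (mv 847 (cons (fin 1104 4 847)
(mv 782 (cons (fin 846 7 782)
(mv 783 (cons (fin 718 7 718)
(fin 976 4 783)))))))
(mv 1103 (cons (cons (mv 846 (cons (fin 910 7 846)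
(mv 848 (cons (fin 912 6 847)
(mv 1104 (cons (fin 1168 4 911)
(mv 1166 (cons (fin 1102 5 910)
(mv 1167 (cons (fin 1230 5 974)
(mv 1231 (cons (fin 976 6 975)
(fin 1295 6 1039)))))))))))))
(cons (mv 846 (cons (fin 910 7 846)
(mv 848 (cons (fin 912 6 847)
(mv 1166 (cons (fin 1102 5 910)
(mv 1167 (cons (fin 1230 5 974)
(mv 1231 (cons (fin 976 6 975)
(mv 1295 (cons (fin 1104 6 1039)
(mv 1296 (cons (fin 1232 4 1039)
(fin 1360 4 1103)))))))))))))))
(mv 846 (cons (fin 910 7 846)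
(mv 1104 (cons (fin 1168 4 911)
(mv 1166 (cons (fin 1102 5 910)
(mv 1167 (cons (fin 1230 5 974)
(mv 1231 (cons (fin 976 6 975)
(fin 1295 6 1039)))))))))))))
(cons (cons (mv 846 (cons (fin 910 7 846)
(mv 848 (cons (fin 912 6 847)
(mv 1166 (cons (fin 1102 5 910)
(mv 1167 (cons (fin 1230 5 974)
(mv 1231 (cons (fin 976 6 975)
(mv 1232 (cons (fin 1168 4 975)
(fin 1296 4 1039)))))))))))))
(mv 848 (cons (fin 912 6 847)
(mv 1104 (cons (fin 1168 4 911)
(mv 1166 (cons (fin 1102 5 910)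
(mv 1167 (cons (fin 1230 5 974)
(mv 1231 (cons (fin 976 6 975)
(fin 1295 6 1039))))))))))))
(cons (mv 846 (cons (fin 910 7 846)
(mv 912 (cons (fin 848 6 847)
(mv 976 (cons (fin 1167 6 911)
(mv 913 (cons (fin 974 2 909)
(mv 1104 (cons (fin 1168 7 911)
(fin 849 6 848)))))))))))
(mv 848 (cons (fin 912 6 847)
(mv 910 (cons (fin 846 7 846)
(mv 1102 (cons (fin 1166 5 910)
(mv 1101 (cons (fin 1100 2 1036)
(mv 1104 (cons (fin 1168 4 911)
(mv 1165 (cons (fin 1164 1 1100)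
(fin 974 6 909))))))))))))))))))
(cons (mv 1103 (cons (cons (mv 846 (cons (fin 910 7 846)
(mv 782 (cons (fin 847 7 782)
(mv 845 (cons (fin 909 6 781)
(mv 848 (cons (fin 912 6 847)
(mv 1166 (cons (fin 1102 5 910)
(mv 1167 (cons (fin 1230 5 974)
(mv 1231 (cons (fin 976 6 975)
(mv 1232 (cons (fin 1168 4 975)
(fin 1296 4 1039)))))))))))))))))
(cons (mv 846 (cons (fin 910 7 846)
(mv 782 (cons (fin 847 7 782)
(mv 845 (cons (fin 909 6 781)
(mv 1166 (cons (fin 1102 5 910)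
(mv 1167 (cons (fin 1230 5 974)
(mv 1231 (cons (fin 976 6 975)
(mv 1232 (cons (fin 1168 4 975)
(fin 1296 4 1039)))))))))))))))
(mv 848 (cons (fin 912 6 847)
(mv 784 (cons (fin 847 6 783)
(mv 1166 (cons (fin 1102 5 910)
(mv 1167 (cons (fin 1230 5 974)
(mv 1231 (cons (fin 976 6 975)
(mv 1232 (cons (fin 1168 4 975)
(fin 1296 4 1039)))))))))))))))
(cons (mv 846 (cons (fin 910 7 846)
(mv 782 (cons (fin 847 7 782)
(mv 909 (cons (fin 845 6 781)
(mv 912 (cons (fin 848 6 847)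
(mv 976 (cons (fin 1167 6 911)
(mv 974 (cons (fin 908 3 908)
(fin 913 2 909)))))))))))))
(cons (mv 846 (cons (fin 910 7 846)
(mv 847 (cons (fin 782 7 782)
(mv 848 (cons (fin 784 6 783)
(fin 912 6 847)))))))
(mv 846 (cons (fin 910 7 846)
(mv 848 (cons (fin 912 6 847)
(mv 1166 (cons (fin 1102 5 910)
(mv 1167 (cons (fin 1230 5 974)
(mv 1231 (cons (fin 976 6 975)
(mv 1232 (cons (fin 1168 4 975)
(fin 1296 4 1039)))))))))))))))))
(cons (mv 847 (cons (fin 1104 4 847)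
(mv 782 (cons (fin 846 7 782)
(mv 783 (cons (fin 718 7 718)
(mv 784 (cons (fin 720 6 719)
(fin 848 6 783)))))))))
(mv 847 (cons (fin 1104 4 847)
(mv 783 (cons (fin 976 4 783)
(mv 784 (cons (fin 720 6 719)
(fin 848 6 783)))))))))))
(mv 1101 (cons (cons (mv 909 (cons (cons (mv 844 (cons (fin 908 7 844)
(mv 780 (cons (fin 845 7 780)
(mv 846 (cons (fin 910 6 845)
(mv 1100 (cons (fin 1164 5 908)
(mv 1166 (cons (fin 1102 4 909)
(mv 1165 (cons (fin 1230 4 973)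
(mv 1098 (cons (fin 1099 0 1098)
(mv 1168 (cons (fin 1167 3 1100)
(mv 1104 (cons (fin 1232 7 975)
(mv 911 (cons (fin 976 7 911)
(fin 847 4 847)))))))))))))))))))))
(cons (mv 844 (cons (fin 908 7 844)
(mv 780 (cons (fin 845 7 780)
(mv 1100 (cons (fin 1164 5 908)
(mv 1166 (cons (fin 1102 4 909)
(mv 1165 (cons (fin 1230 4 973)
(mv 1098 (cons (fin 1099 0 1098)
(mv 1168 (cons (fin 1167 3 1100)
(mv 1104 (cons (fin 1232 7 975)
(mv 911 (cons (fin 976 7 911)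
(fin 847 4 847)))))))))))))))))))
(mv 846 (cons (fin 910 6 845)
(mv 782 (cons (fin 845 6 781)
(mv 847 (cons (fin 911 7 782)
(mv 1164 (cons (fin 1100 5 908)
(mv 1165 (cons (fin 1228 5 972)
(mv 1166 (cons (fin 1102 4 909)
(fin 1230 4 973)))))))))))))))
(cons (cons (mv 844 (cons (fin 908 7 844)
(mv 780 (cons (fin 845 7 780)
(mv 846 (cons (fin 910 6 845)
(mv 1166 (cons (fin 1102 4 909)
(mv 1165 (cons (fin 1230 4 973)
(mv 1228 (cons (fin 1164 5 972)
(mv 1229 (cons (fin 1292 5 1036)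
(mv 1168 (cons (fin 1167 1 1164)
(mv 1104 (cons (fin 1232 7 975)
(mv 911 (cons (fin 976 7 911)
(fin 847 4 847)))))))))))))))))))))
(mv 844 (cons (fin 908 7 844)
(mv 780 (cons (fin 845 7 780)
(mv 910 (cons (fin 846 6 845)
(mv 974 (cons (fin 1165 6 909)
(mv 976 (cons (fin 977 3 909)
(fin 1036 1 972))))))))))))
(cons (mv 844 (cons (fin 908 7 844)
(mv 846 (cons (fin 910 6 845)
(mv 1100 (cons (fin 1164 5 908)
(mv 1166 (cons (fin 1102 4 909)
(mv 1165 (cons (fin 1230 4 973)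
(mv 1098 (cons (fin 1099 0 1098)
(mv 1168 (cons (fin 1167 3 1100)
(mv 1104 (cons (fin 1232 7 975)
(mv 911 (cons (fin 976 7 911)
(fin 847 4 847)))))))))))))))))))
(mv 844 (cons (fin 908 7 844)
(mv 845 (cons (fin 780 7 780)
(mv 846 (cons (fin 782 6 781)
(fin 910 6 845)))))))))))
(cons (mv 1165 (cons (cons (mv 910 (cons (fin 974 6 909)
(mv 1166 (cons (fin 1230 4 973)
(mv 1228 (cons (fin 1164 5 972)
(mv 1229 (cons (fin 1292 5 1036)
(mv 1168 (cons (fin 1167 1 1164)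
(mv 1104 (cons (fin 1232 7 975)
(mv 911 (cons (fin 976 7 911)
(fin 847 4 847)))))))))))))))
(cons (mv 1166 (cons (fin 1230 4 973)
(mv 1228 (cons (fin 1164 5 972)
(mv 1229 (cons (fin 1292 5 1036)
(mv 1168 (cons (fin 1167 1 1164)
(mv 1104 (cons (fin 1232 7 975)
(mv 911 (cons (fin 976 7 911)
(fin 847 4 847)))))))))))))
(mv 974 (cons (fin 910 6 909)
(mv 976 (cons (fin 1036 1 972)
(mv 912 (cons (fin 913 2 909)
(mv 848 (cons (fin 784 5 783)
(mv 785 (cons (fin 849 6 784)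
(mv 847 (cons (fin 783 7 783)
(mv 1104 (cons (fin 911 7 847)
(mv 1105 (cons (fin 1169 4 912)
(mv 1106 (cons (fin 1107 3 1039)
(mv 1166 (cons (fin 1230 4 973)
(mv 1168 (cons (fin 1167 2 1101)
(fin 1232 7 975)))))))))))))))))))))))))
(cons (mv 974 (cons (fin 910 6 909)
(mv 976 (cons (fin 1036 1 972)
(mv 912 (cons (fin 913 2 909)
(mv 848 (cons (fin 784 5 783)
(mv 785 (cons (fin 849 6 784)
(mv 847 (cons (fin 783 7 783)
(mv 1104 (cons (fin 911 7 847)
(mv 1105 (cons (fin 1169 4 912)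
(mv 1106 (cons (fin 1107 3 1039)
(mv 1164 (cons (fin 1228 5 972)
(mv 1168 (cons (fin 1232 7 975)
(mv 1167 (cons (fin 1166 2 1101)
(fin 1231 5 975)))))))))))))))))))))))))
(cons (mv 974 (cons (fin 910 6 909)
(mv 976 (cons (fin 1036 1 972)
(mv 912 (cons (fin 913 2 909)
(mv 848 (cons (fin 784 5 783)
(mv 785 (cons (fin 849 6 784)
(mv 847 (cons (fin 783 7 783)
(mv 1104 (cons (fin 911 7 847)
(mv 1164 (cons (fin 1228 5 972)
(mv 1168 (cons (fin 1232 7 975)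
(mv 1169 (cons (fin 1105 4 912)
(fin 1233 4 976)))))))))))))))))))))
(mv 910 (cons (fin 974 6 909)
(mv 1228 (cons (fin 1164 5 972)
(mv 1229 (cons (fin 1292 5 1036)
(mv 1230 (cons (fin 1166 4 973)
(fin 1294 4 1037)))))))))))))
(mv 909 (cons (cons (mv 844 (cons (fin 908 7 844)
(mv 845 (cons (fin 780 7 780)
(mv 846 (cons (fin 782 6 781)
(fin 910 6 845)))))))
(mv 846 (cons (fin 910 6 845)
(mv 845 (cons (fin 782 6 781)
(mv 1100 (cons (fin 1036 5 844)
(fin 1164 5 908))))))))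
(cons (mv 844 (cons (fin 908 7 844)
(mv 845 (cons (fin 780 7 780)
(mv 1100 (cons (fin 1036 5 844)
(fin 1164 5 908)))))))
(mv 908 (cons (fin 844 7 844)
(mv 910 (cons (fin 846 6 845)
(mv 974 (cons (fin 976 3 908)
(fin 907 0 907))))))))))))
(cons (cons (mv 909 (cons (cons (mv 844 (cons (fin 908 7 844)
(mv 780 (cons (fin 845 7 780)
(mv 846 (cons (fin 910 6 845)
(mv 1100 (cons (fin 1164 5 908)
(mv 1166 (cons (fin 1102 4 909)
(mv 1165 (cons (fin 1230 4 973)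
(mv 1098 (cons (fin 1099 0 1098)
(mv 1168 (cons (fin 1167 3 1100)
(mv 1104 (cons (fin 1232 7 975)
(mv 911 (cons (fin 976 7 911)
(fin 847 4 847)))))))))))))))))))))
(cons (mv 844 (cons (fin 908 7 844)
(mv 780 (cons (fin 845 7 780)
(mv 846 (cons (fin 910 6 845)
(mv 1166 (cons (fin 1102 4 909)
(mv 1165 (cons (fin 1230 4 973)
(mv 1228 (cons (fin 1164 5 972)
(mv 1229 (cons (fin 1292 5 1036)
(mv 1168 (cons (fin 1167 1 1164)
(mv 1104 (cons (fin 1232 7 975)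
(mv 911 (cons (fin 976 7 911)
(fin 847 4 847)))))))))))))))))))))
(mv 844 (cons (fin 908 7 844)
(mv 780 (cons (fin 845 7 780)
(mv 1100 (cons (fin 1164 5 908)
(mv 1166 (cons (fin 1102 4 909)
(mv 1165 (cons (fin 1230 4 973)
(mv 1098 (cons (fin 1099 0 1098)
(mv 1168 (cons (fin 1167 3 1100)
(mv 1104 (cons (fin 1232 7 975)
(mv 911 (cons (fin 976 7 911)
(fin 847 4 847)))))))))))))))))))))
(cons (mv 844 (cons (fin 908 7 844)
(mv 845 (cons (fin 780 7 780)
(mv 846 (cons (fin 782 6 781)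
(fin 910 6 845)))))))
(cons (mv 846 (cons (fin 910 6 845)
(mv 782 (cons (fin 845 6 781)
(mv 847 (cons (fin 911 7 782)
(mv 1164 (cons (fin 1100 5 908)
(mv 1165 (cons (fin 1228 5 972)
(mv 1166 (cons (fin 1102 4 909)
(fin 1230 4 973)))))))))))))
(mv 844 (cons (fin 908 7 844)
(mv 846 (cons (fin 910 6 845)
(mv 1100 (cons (fin 1164 5 908)
(mv 1166 (cons (fin 1102 4 909)
(mv 1165 (cons (fin 1230 4 973)
(mv 1098 (cons (fin 1099 0 1098)
(mv 1168 (cons (fin 1167 3 1100)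
(mv 1104 (cons (fin 1232 7 975)
(mv 911 (cons (fin 976 7 911)
(fin 847 4 847)))))))))))))))))))))))
(mv 909 (cons (cons (mv 844 (cons (fin 908 7 844)
(mv 780 (cons (fin 845 7 780)
(mv 1100 (cons (fin 1164 5 908)
(mv 1166 (cons (fin 1102 4 909)
(mv 1165 (cons (fin 1230 4 973)
(mv 1098 (cons (fin 1099 0 1098)
(mv 1168 (cons (fin 1167 3 1100)
(mv 1104 (cons (fin 1232 7 975)
(mv 911 (cons (fin 976 7 911)
(fin 847 4 847)))))))))))))))))))
(cons (mv 844 (cons (fin 908 7 844)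
(mv 780 (cons (fin 845 7 780)
(mv 1166 (cons (fin 1102 4 909)
(mv 1165 (cons (fin 1230 4 973)
(mv 1228 (cons (fin 1164 5 972)
(mv 1229 (cons (fin 1292 5 1036)
(mv 1168 (cons (fin 1167 1 1164)
(mv 1104 (cons (fin 1232 7 975)
(mv 911 (cons (fin 976 7 911)
(fin 847 4 847)))))))))))))))))))
(mv 1100 (cons (fin 1164 5 908)
(mv 845 (cons (fin 1036 5 844)
(mv 780 (cons (fin 844 7 780)
(mv 716 (cons (fin 781 7 716)
(mv 782 (cons (fin 846 6 781)
(mv 1166 (cons (fin 1102 4 909)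
(mv 1165 (cons (fin 1230 4 973)
(mv 1098 (cons (fin 1099 0 1098)
(mv 1168 (cons (fin 1167 3 1100)
(mv 1104 (cons (fin 1232 7 975)
(mv 911 (cons (fin 976 7 911)
(fin 847 4 847)))))))))))))))))))))))))
(cons (cons (mv 844 (cons (fin 908 7 844)
(mv 845 (cons (fin 780 7 780)
(mv 782 (cons (fin 846 6 781)
(mv 718 (cons (fin 781 6 717)
(mv 1100 (cons (fin 1036 5 844)
(mv 1166 (cons (fin 1102 4 909)
(mv 1165 (cons (fin 1230 4 973)
(mv 1098 (cons (fin 1099 0 1098)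
(mv 1168 (cons (fin 1167 3 1100)
(mv 1104 (cons (fin 1232 7 975)
(mv 911 (cons (fin 976 7 911)
(fin 847 4 847)))))))))))))))))))))))
(mv 844 (cons (fin 908 7 844)
(mv 845 (cons (fin 780 7 780)
(mv 1100 (cons (fin 1036 5 844)
(fin 1164 5 908))))))))
(cons (mv 1100 (cons (fin 1164 5 908)
(mv 845 (cons (fin 1036 5 844)
(mv 782 (cons (fin 846 6 781)
(mv 718 (cons (fin 781 6 717)
(mv 1166 (cons (fin 1102 4 909)
(mv 1165 (cons (fin 1230 4 973)
(mv 1098 (cons (fin 1099 0 1098)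
(mv 1168 (cons (fin 1167 3 1100)
(mv 1104 (cons (fin 1232 7 975)
(mv 911 (cons (fin 976 7 911)
(fin 847 4 847)))))))))))))))))))))
(mv 844 (cons (fin 908 7 844)
(mv 1100 (cons (fin 1164 5 908)
(mv 1166 (cons (fin 1102 4 909)
(mv 1165 (cons (fin 1230 4 973)
(mv 1098 (cons (fin 1099 0 1098)
(mv 1168 (cons (fin 1167 3 1100)
(mv 1104 (cons (fin 1232 7 975)
(mv 911 (cons (fin 976 7 911)
(fin 847 4 847))))))))))))))))))))))
(cons (mv 909 (cons (cons (cons (mv 844 (cons (fin 908 7 844)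
(mv 780 (cons (fin 845 7 780)
(mv 910 (cons (fin 846 6 845)
(mv 974 (cons (fin 1165 6 909)
(mv 976 (cons (fin 977 3 909)
(fin 1036 1 972)))))))))))
(mv 844 (cons (fin 908 7 844)
(mv 845 (cons (fin 780 7 780)
(mv 782 (cons (fin 846 6 781)
(mv 718 (cons (fin 781 6 717)
(mv 1100 (cons (fin 1036 5 844)
(mv 1166 (cons (fin 1102 4 909)
(mv 1165 (cons (fin 1230 4 973)
(mv 1098 (cons (fin 1099 0 1098)
(mv 1168 (cons (fin 1167 3 1100)
(mv 1104 (cons (fin 1232 7 975)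
(mv 911 (cons (fin 976 7 911)
(fin 847 4 847))))))))))))))))))))))))
(cons (mv 846 (cons (fin 910 6 845)
(mv 845 (cons (fin 782 6 781)
(mv 780 (cons (fin 844 7 780)
(mv 716 (cons (fin 781 7 716)
(mv 1100 (cons (fin 1036 5 844)
(mv 1166 (cons (fin 1102 4 909)
(mv 1165 (cons (fin 1230 4 973)
(mv 1098 (cons (fin 1099 0 1098)
(mv 1168 (cons (fin 1167 3 1100)
(mv 1104 (cons (fin 1232 7 975)
(mv 911 (cons (fin 976 7 911)
(fin 847 4 847)))))))))))))))))))))))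
(mv 844 (cons (fin 908 7 844)
(mv 780 (cons (fin 845 7 780)
(mv 1166 (cons (fin 1102 4 909)
(mv 1165 (cons (fin 1230 4 973)
(mv 974 (cons (fin 910 6 909)
(mv 976 (cons (fin 1036 1 972)
(mv 912 (cons (fin 913 2 909)
(mv 848 (cons (fin 784 5 783)
(mv 785 (cons (fin 849 6 784)
(mv 847 (cons (fin 783 7 783)
(mv 1104 (cons (fin 911 7 847)
(mv 1105 (cons (fin 1169 4 912)
(mv 1168 (cons (fin 1167 2 1101)
(fin 1232 7 975)))))))))))))))))))))))))))))
(cons (cons (mv 846 (cons (fin 910 6 845)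
(mv 845 (cons (fin 782 6 781)
(mv 1100 (cons (fin 1036 5 844)
(mv 1166 (cons (fin 1102 4 909)
(mv 1165 (cons (fin 1230 4 973)
(mv 1098 (cons (fin 1099 0 1098)
(mv 1168 (cons (fin 1167 3 1100)
(mv 1104 (cons (fin 1232 7 975)
(mv 911 (cons (fin 976 7 911)
(fin 847 4 847)))))))))))))))))))
(mv 844 (cons (fin 908 7 844)
(mv 910 (cons (fin 846 6 845)
(mv 974 (cons (fin 1165 6 909)
(mv 976 (cons (fin 977 3 909)
(fin 1036 1 972))))))))))
(cons (mv 844 (cons (fin 908 7 844)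
(mv 780 (cons (fin 845 7 780)
(mv 910 (cons (fin 846 6 845)
(mv 1165 (cons (fin 974 6 909)
(mv 1166 (cons (fin 1102 4 909)
(fin 1230 4 973)))))))))))
(mv 844 (cons (fin 908 7 844)
(mv 845 (cons (fin 780 7 780)
(mv 846 (cons (fin 782 6 781)
(fin 910 6 845)))))))))))
(mv 909 (cons (cons (mv 844 (cons (fin 908 7 844)
(mv 780 (cons (fin 845 7 780)
(mv 846 (cons (fin 910 6 845)
(mv 1164 (cons (fin 1100 5 908)
(mv 1165 (cons (fin 1228 5 972)
(mv 1166 (cons (fin 1102 4 909)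
(fin 1230 4 973)))))))))))))
(cons (mv 844 (cons (fin 908 7 844)
(mv 780 (cons (fin 845 7 780)
(mv 1164 (cons (fin 1100 5 908)
(mv 1165 (cons (fin 1228 5 972)
(mv 1166 (cons (fin 1102 4 909)
(fin 1230 4 973)))))))))))
(mv 844 (cons (fin 908 7 844)
(mv 780 (cons (fin 845 7 780)
(mv 910 (cons (fin 846 6 845)
(mv 1165 (cons (fin 974 6 909)
(mv 1166 (cons (fin 1102 4 909)
(fin 1230 4 973)))))))))))))
(cons (cons (mv 846 (cons (fin 910 6 845)
(mv 782 (cons (fin 845 6 781)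
(mv 847 (cons (fin 911 7 782)
(mv 1164 (cons (fin 1100 5 908)
(mv 1165 (cons (fin 1228 5 972)
(mv 1166 (cons (fin 1102 4 909)
(fin 1230 4 973)))))))))))))
(mv 844 (cons (fin 908 7 844)
(mv 780 (cons (fin 845 7 780)
(mv 910 (cons (fin 846 6 845)
(mv 1164 (cons (fin 1100 5 908)
(mv 1165 (cons (fin 1228 5 972)
(fin 974 6 909))))))))))))
(cons (mv 844 (cons (fin 908 7 844)
(mv 846 (cons (fin 910 6 845)
(mv 1164 (cons (fin 1100 5 908)
(mv 1165 (cons (fin 1228 5 972)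
(mv 1166 (cons (fin 1102 4 909)
(fin 1230 4 973)))))))))))
(mv 844 (cons (fin 908 7 844)
(mv 845 (cons (fin 780 7 780)
(mv 846 (cons (fin 782 6 781)
(fin 910 6 845))))))))))))))))))
(cons (cons (cons (mv 1104 (cons (cons (mv 911 (cons (fin 847 4 847)
(mv 1168 (cons (fin 976 7 911)
(fin 1232 7 975)))))
(mv 911 (cons (fin 847 4 847)
(mv 1103 (cons (cons (mv 846 (cons (fin 910 7 846)
(mv 848 (cons (fin 912 6 847)
(mv 1102 (cons (fin 1166 5 910)
(mv 1101 (cons (fin 1036 3 1036)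
(fin 1100 2 1036)))))))))
(mv 846 (cons (fin 910 7 846)
(mv 1102 (cons (fin 1166 5 910)
(mv 1101 (cons (fin 1036 3 1036)
(fin 1100 2 1036))))))))
(cons (mv 846 (cons (fin 910 7 846)
(mv 912 (cons (fin 848 6 847)
(mv 976 (cons (fin 1167 5 911)
(mv 913 (cons (fin 974 2 909)
(fin 849 6 848)))))))))
(mv 848 (cons (fin 912 6 847)
(mv 1102 (cons (fin 1166 5 910)
(mv 1101 (cons (fin 1036 3 1036)
(fin 1100 2 1036)))))))))))))
(cons (mv 1168 (cons (fin 1232 7 975)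
(mv 976 (cons (cons (mv 913 (cons (fin 977 6 912)
(mv 912 (cons (fin 974 2 909)
(fin 849 6 848)))))
(mv 974 (cons (fin 1036 1 972)
(mv 1167 (cons (fin 1231 5 975)
(mv 1103 (cons (fin 910 7 910)
(fin 912 5 911))))))))
(cons (mv 913 (cons (fin 977 6 912)
(mv 912 (cons (fin 849 6 848)
(mv 848 (cons (fin 784 5 783)
(fin 1103 5 847)))))))
(mv 913 (cons (fin 977 6 912)
(mv 974 (cons (fin 1036 1 972)
(mv 1167 (cons (fin 1231 5 975)
(mv 910 (cons (fin 1103 7 910)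
(mv 782 (cons (fin 846 5 781)
(mv 1165 (cons (fin 1101 6 909)
(mv 1166 (cons (fin 1105 2 1101)
(mv 1169 (cons (fin 1233 4 976)
(mv 1229 (cons (fin 1228 1 1164)
(fin 1230 1 1165))))))))))))))))))))))))
(mv 911 (cons (fin 847 4 847)
(mv 1168 (cons (fin 1232 7 975)
(fin 1103 4 911))))))))
(mv 1104 (cons (cons (mv 911 (cons (fin 847 4 847)
(mv 1168 (cons (fin 976 7 911)
(fin 1232 7 975)))))
(mv 1168 (cons (fin 1232 7 975)
(mv 976 (cons (cons (mv 913 (cons (fin 977 6 912)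
(mv 912 (cons (fin 974 2 909)
(fin 849 6 848)))))
(mv 913 (cons (fin 977 6 912)
(mv 912 (cons (fin 849 6 848)
(mv 848 (cons (fin 784 5 783)
(fin 1103 5 847))))))))
(cons (mv 974 (cons (fin 1036 1 972)
(mv 908 (cons (fin 909 3 908)
(mv 1167 (cons (fin 1231 5 975)
(mv 1103 (cons (fin 910 7 910)
(fin 912 5 911)))))))))
(mv 913 (cons (fin 977 6 912)
(mv 974 (cons (fin 1036 1 972)
(mv 908 (cons (fin 909 3 908)
(mv 1167 (cons (fin 1231 5 975)
(mv 1103 (cons (fin 910 7 910)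
(mv 1166 (cons (fin 1230 5 974)
(mv 1105 (cons (fin 1106 1 1102)
(fin 1165 2 1101)))))))))))))))))))))
(cons (mv 911 (cons (fin 847 4 847)
(mv 1103 (cons (cons (mv 846 (cons (fin 910 7 846)
(mv 848 (cons (fin 912 6 847)
(mv 1166 (cons (fin 1102 5 910)
(mv 1167 (cons (fin 1230 5 974)
(mv 1231 (cons (fin 976 6 975)
(fin 1295 6 1039)))))))))))
(cons (mv 846 (cons (fin 910 7 846)
(mv 1166 (cons (fin 1102 5 910)
(mv 1167 (cons (fin 1230 5 974)
(mv 1231 (cons (fin 976 6 975)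
(fin 1295 6 1039)))))))))
(mv 848 (cons (fin 912 6 847)
(mv 1166 (cons (fin 1102 5 910)
(mv 1167 (cons (fin 1230 5 974)
(mv 1231 (cons (fin 976 6 975)
(fin 1295 6 1039)))))))))))
(cons (mv 846 (cons (fin 910 7 846)
(mv 912 (cons (fin 848 6 847)
(mv 976 (cons (fin 1167 5 911)
(mv 913 (cons (fin 974 2 909)
(fin 849 6 848)))))))))
(cons (mv 910 (cons (fin 846 7 846)
(mv 912 (cons (fin 848 6 847)
(mv 913 (cons (fin 974 1 909)
(mv 849 (cons (fin 850 2 846)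
(fin 976 6 848)))))))))
(mv 848 (cons (fin 912 6 847)
(mv 910 (cons (fin 846 7 846)
(mv 1166 (cons (fin 1102 5 910)
(mv 1167 (cons (fin 974 7 910)
(fin 1230 5 974)))))))))))))))
(mv 911 (cons (fin 847 4 847)
(mv 1168 (cons (fin 1232 7 975)
(fin 1103 4 911)))))))))
(cons (mv 911 (cons (cons (mv 847 (cons (fin 1104 4 847)
(mv 782 (cons (fin 846 7 782)
(mv 783 (cons (fin 718 7 718)
(fin 976 4 783)))))))
(mv 1103 (cons (cons (mv 848 (cons (fin 912 6 847)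
(mv 1102 (cons (fin 1166 5 910)
(mv 1101 (cons (fin 1100 2 1036)
(mv 1104 (cons (fin 1036 3 1036)
(fin 1168 4 911)))))))))
(cons (mv 848 (cons (fin 912 6 847)
(mv 1166 (cons (fin 1102 5 910)
(mv 1167 (cons (fin 1230 5 974)
(mv 1231 (cons (fin 976 6 975)
(mv 1295 (cons (fin 1104 6 1039)
(mv 1296 (cons (fin 1232 4 1039)
(fin 1360 4 1103)))))))))))))
(mv 848 (cons (fin 912 6 847)
(mv 1166 (cons (fin 1102 5 910)
(mv 1167 (cons (fin 1230 5 974)
(mv 1231 (cons (fin 976 6 975)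
(mv 1232 (cons (fin 1168 4 975)
(fin 1296 4 1039)))))))))))))
(cons (mv 1102 (cons (fin 1166 5 910)
(mv 1101 (cons (fin 1100 2 1036)
(mv 1104 (cons (fin 1036 3 1036)
(fin 1168 4 911)))))))
(cons (mv 848 (cons (fin 912 6 847)
(mv 1168 (cons (fin 1104 4 911)
(mv 1167 (cons (fin 1232 4 975)
(mv 1230 (cons (fin 1166 5 974)
(mv 1231 (cons (fin 1294 5 1038)
(fin 976 6 975)))))))))))
(mv 912 (cons (fin 848 6 847)
(mv 976 (cons (fin 1167 6 911)
(mv 974 (cons (fin 1036 1 972)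
(fin 913 2 909))))))))))))
(cons (mv 847 (cons (cons (mv 782 (cons (fin 846 7 782)
(mv 783 (cons (fin 718 7 718)
(fin 976 4 783)))))
(mv 782 (cons (fin 846 7 782)
(mv 848 (cons (fin 784 6 783)
(mv 1103 (cons (fin 912 6 847)
(mv 1166 (cons (fin 1102 5 910)
(mv 1167 (cons (fin 1230 5 974)
(mv 1231 (cons (fin 976 6 975)
(mv 1232 (cons (fin 1168 4 975)
(fin 1296 4 1039))))))))))))))))
(cons (mv 782 (cons (fin 846 7 782)
(mv 783 (cons (fin 718 7 718)
(mv 784 (cons (fin 720 6 719)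
(fin 848 6 783)))))))
(mv 783 (cons (fin 976 4 783)
(mv 784 (cons (fin 720 6 719)
(fin 848 6 783))))))))
(mv 847 (cons (fin 1104 4 847)
(mv 782 (cons (fin 846 7 782)
(mv 783 (cons (fin 718 7 718)
(mv 784 (cons (fin 720 6 719)
(fin 848 6 783))))))))))))
(mv 1104 (cons (cons (mv 911 (cons (fin 847 4 847)
(mv 1168 (cons (fin 976 7 911)
(fin 1232 7 975)))))
(mv 911 (cons (fin 847 4 847)
(mv 1103 (cons (mv 848 (cons (fin 912 6 847)
(mv 1102 (cons (fin 1166 5 910)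
(mv 1101 (cons (fin 1036 3 1036)
(fin 1100 2 1036)))))))
(cons (mv 1102 (cons (fin 1166 5 910)
(mv 1101 (cons (fin 1036 3 1036)
(fin 1100 2 1036)))))
(mv 912 (cons (fin 848 6 847)
(mv 976 (cons (fin 1167 5 911)
(mv 913 (cons (fin 974 2 909)
(fin 849 6 848)))))))))))))
(cons (mv 1168 (cons (fin 1232 7 975)
(mv 976 (cons (cons (mv 913 (cons (fin 977 6 912)
(mv 912 (cons (fin 974 2 909)
(fin 849 6 848)))))
(mv 913 (cons (fin 977 6 912)
(mv 912 (cons (fin 849 6 848)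
(mv 848 (cons (fin 784 5 783)
(fin 1103 5 847))))))))
(cons (mv 974 (cons (fin 1036 1 972)
(mv 908 (cons (fin 909 3 908)
(mv 1167 (cons (fin 1231 5 975)
(mv 1103 (cons (fin 910 7 910)
(fin 912 5 911)))))))))
(mv 913 (cons (fin 977 6 912)
(mv 974 (cons (fin 1036 1 972)
(mv 908 (cons (fin 909 3 908)
(mv 1167 (cons (fin 1231 5 975)
(mv 910 (cons (fin 1103 7 910)
(mv 1165 (cons (fin 1101 6 909)
(mv 1166 (cons (fin 1105 2 1101)
(mv 1169 (cons (fin 1233 4 976)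
(mv 1229 (cons (fin 1228 1 1164)
(fin 1230 1 1165))))))))))))))))))))))))
(mv 911 (cons (fin 847 4 847)
(mv 1168 (cons (fin 1232 7 975)
(fin 1103 4 911))))))))))
(cons (cons (mv 911 (cons (cons (mv 847 (cons (fin 1104 4 847)
(mv 782 (cons (fin 846 7 782)
(mv 783 (cons (fin 718 7 718)
(fin 976 4 783)))))))
(mv 1103 (cons (cons (mv 846 (cons (fin 910 7 846)
(mv 1102 (cons (fin 1166 5 910)
(mv 1101 (cons (fin 1100 2 1036)
(mv 1104 (cons (fin 1036 3 1036)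
(fin 1168 4 911)))))))))
(cons (mv 846 (cons (fin 910 7 846)
(mv 1166 (cons (fin 1102 5 910)
(mv 1167 (cons (fin 1230 5 974)
(mv 1231 (cons (fin 976 6 975)
(mv 1295 (cons (fin 1104 6 1039)
(mv 1296 (cons (fin 1232 4 1039)
(fin 1360 4 1103)))))))))))))
(mv 846 (cons (fin 910 7 846)
(mv 1166 (cons (fin 1102 5 910)
(mv 1167 (cons (fin 1230 5 974)
(mv 1231 (cons (fin 976 6 975)
(mv 1232 (cons (fin 1168 4 975)
(fin 1296 4 1039)))))))))))))
(cons (mv 1102 (cons (fin 1166 5 910)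
(mv 1101 (cons (fin 1100 2 1036)
(mv 1104 (cons (fin 1036 3 1036)
(fin 1168 4 911)))))))
(cons (mv 846 (cons (fin 910 7 846)
(mv 1168 (cons (fin 1104 4 911)
(mv 1167 (cons (fin 1232 4 975)
(mv 1230 (cons (fin 1166 5 974)
(mv 1231 (cons (fin 1294 5 1038)
(fin 976 6 975)))))))))))
(mv 910 (cons (fin 846 7 846)
(mv 974 (cons (fin 1167 7 910)
(mv 976 (cons (fin 1036 1 972)
(mv 909 (cons (fin 908 3 908)
(fin 977 3 909))))))))))))))
(cons (mv 847 (cons (cons (mv 782 (cons (fin 846 7 782)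
(mv 783 (cons (fin 718 7 718)
(fin 976 4 783)))))
(mv 784 (cons (fin 848 6 783)
(mv 846 (cons (fin 782 7 782)
(mv 910 (cons (fin 1103 7 846)
(mv 909 (cons (fin 1101 6 845)
(mv 908 (cons (fin 907 2 843)
(fin 976 0 908))))))))))))
(cons (mv 783 (cons (fin 976 4 783)
(mv 784 (cons (fin 720 6 719)
(fin 848 6 783)))))
(mv 782 (cons (fin 846 7 782)
(mv 783 (cons (fin 718 7 718)
(mv 784 (cons (fin 720 6 719)
(fin 848 6 783))))))))))
(cons (mv 847 (cons (fin 1104 4 847)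
(mv 782 (cons (fin 846 7 782)
(mv 783 (cons (fin 718 7 718)
(mv 784 (cons (fin 720 6 719)
(fin 848 6 783)))))))))
(mv 847 (cons (fin 1104 4 847)
(mv 783 (cons (fin 976 4 783)
(mv 784 (cons (fin 720 6 719)
(fin 848 6 783)))))))))))
(mv 1104 (cons (cons (mv 911 (cons (fin 847 4 847)
(mv 1168 (cons (fin 976 7 911)
(fin 1232 7 975)))))
(mv 1168 (cons (fin 1232 7 975)
(mv 976 (cons (cons (mv 913 (cons (fin 977 6 912)
(mv 912 (cons (fin 974 2 909)
(fin 849 6 848)))))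
(mv 913 (cons (fin 977 6 912)
(mv 912 (cons (fin 849 6 848)
(mv 848 (cons (fin 784 5 783)
(fin 1103 5 847))))))))
(cons (mv 974 (cons (fin 1036 1 972)
(mv 908 (cons (fin 909 3 908)
(mv 1169 (cons (fin 1233 4 976)
(mv 912 (cons (fin 1105 4 912)
(mv 848 (cons (fin 784 5 783)
(fin 1103 5 847)))))))))))
(mv 974 (cons (fin 1036 1 972)
(mv 909 (cons (fin 908 3 908)
(mv 977 (cons (fin 910 3 909)
(fin 913 6 912)))))))))))))
(cons (mv 911 (cons (fin 847 4 847)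
(mv 1103 (cons (cons (mv 846 (cons (fin 910 7 846)
(mv 848 (cons (fin 912 6 847)
(mv 1102 (cons (fin 1166 5 910)
(mv 1101 (cons (fin 1036 3 1036)
(fin 1100 2 1036)))))))))
(mv 910 (cons (fin 846 7 846)
(mv 912 (cons (fin 848 6 847)
(mv 913 (cons (fin 974 1 909)
(mv 849 (cons (fin 850 2 846)
(fin 976 6 848))))))))))
(cons (mv 846 (cons (fin 910 7 846)
(mv 1102 (cons (fin 1166 5 910)
(mv 1101 (cons (fin 1036 3 1036)
(fin 1100 2 1036)))))))
(mv 848 (cons (fin 912 6 847)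
(mv 1102 (cons (fin 1166 5 910)
(mv 1101 (cons (fin 1036 3 1036)
(fin 1100 2 1036))))))))))))
(mv 911 (cons (fin 847 4 847)
(mv 1168 (cons (fin 1232 7 975)
(fin 1103 4 911)))))))))
(cons (mv 1104 (cons (cons (mv 911 (cons (fin 847 4 847)
(mv 1168 (cons (fin 976 7 911)
(fin 1232 7 975)))))
(mv 911 (cons (fin 847 4 847)
(mv 1103 (cons (cons (mv 846 (cons (fin 910 7 846)
(mv 1102 (cons (fin 1166 5 910)
(mv 1101 (cons (fin 1036 3 1036)
(fin 1100 2 1036)))))))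
(mv 910 (cons (fin 846 7 846)
(mv 974 (cons (fin 1167 7 910)
(mv 912 (cons (fin 913 1 909)
(mv 976 (cons (fin 1036 1 972)
(mv 909 (cons (fin 908 3 908)
(fin 977 3 909))))))))))))
(cons (mv 1102 (cons (fin 1166 5 910)
(mv 1101 (cons (fin 1036 3 1036)
(fin 1100 2 1036)))))
(mv 846 (cons (fin 910 7 846)
(mv 1166 (cons (fin 1102 5 910)
(mv 1167 (cons (fin 1230 5 974)
(mv 976 (cons (fin 912 5 911)
(fin 1231 6 975)))))))))))))))
(cons (mv 1168 (cons (fin 1232 7 975)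
(mv 976 (cons (cons (mv 913 (cons (fin 977 6 912)
(mv 912 (cons (fin 974 2 909)
(fin 849 6 848)))))
(mv 913 (cons (fin 977 6 912)
(mv 912 (cons (fin 849 6 848)
(mv 1167 (cons (fin 1103 5 911)
(fin 1231 5 975))))))))
(cons (mv 974 (cons (fin 1036 1 972)
(mv 908 (cons (fin 909 3 908)
(mv 1167 (cons (fin 1231 5 975)
(mv 1103 (cons (fin 910 7 910)
(fin 912 5 911)))))))))
(mv 913 (cons (fin 977 6 912)
(mv 974 (cons (fin 1036 1 972)
(mv 908 (cons (fin 909 3 908)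
(mv 1167 (cons (fin 1231 5 975)
(mv 910 (cons (fin 1103 7 910)
(mv 782 (cons (fin 846 5 781)
(mv 1165 (cons (fin 1101 6 909)
(mv 1166 (cons (fin 1105 2 1101)
(mv 1169 (cons (fin 1233 4 976)
(mv 1229 (cons (fin 1228 1 1164)
(fin 1230 1 1165))))))))))))))))))))))))))
(mv 911 (cons (fin 847 4 847)
(mv 1168 (cons (fin 1232 7 975)
(fin 1103 4 911))))))))
(mv 1104 (cons (cons (mv 911 (cons (fin 847 4 847)
(mv 1168 (cons (fin 976 7 911)
(fin 1232 7 975)))))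
(mv 911 (cons (fin 847 4 847)
(mv 1103 (cons (cons (mv 846 (cons (fin 910 7 846)
(mv 912 (cons (fin 848 6 847)
(mv 976 (cons (fin 1167 5 911)
(mv 913 (cons (fin 974 2 909)
(fin 849 6 848)))))))))
(cons (mv 910 (cons (fin 846 7 846)
(mv 974 (cons (fin 1167 7 910)
(mv 976 (cons (fin 1036 1 972)
(mv 909 (cons (fin 908 3 908)
(fin 977 3 909)))))))))
(mv 912 (cons (fin 848 6 847)
(mv 976 (cons (fin 1167 5 911)
(mv 913 (cons (fin 974 2 909)
(fin 849 6 848)))))))))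
(cons (mv 910 (cons (fin 846 7 846)
(mv 912 (cons (fin 848 6 847)
(mv 913 (cons (fin 974 1 909)
(mv 849 (cons (fin 850 2 846)
(fin 976 6 848)))))))))
(cons (mv 848 (cons (fin 912 6 847)
(mv 910 (cons (fin 846 7 846)
(mv 1167 (cons (fin 974 7 910)
(mv 1230 (cons (fin 1166 5 974)
(mv 1231 (cons (fin 1294 5 1038)
(fin 1295 6 1039)))))))))))
(mv 846 (cons (fin 910 7 846)
(mv 912 (cons (fin 848 6 847)
(mv 1167 (cons (fin 976 5 911)
(mv 1230 (cons (fin 1166 5 974)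
(mv 1231 (cons (fin 1294 5 1038)
(fin 1295 6 1039))))))))))))))))))
(cons (mv 1168 (cons (fin 1232 7 975)
(mv 976 (cons (cons (mv 913 (cons (fin 977 6 912)
(mv 912 (cons (fin 974 2 909)
(fin 849 6 848)))))
(mv 913 (cons (fin 977 6 912)
(mv 912 (cons (fin 849 6 848)
(mv 848 (cons (fin 784 5 783)
(fin 1103 5 847))))))))
(cons (mv 974 (cons (fin 1036 1 972)
(mv 908 (cons (fin 909 3 908)
(mv 1167 (cons (fin 1231 5 975)
(mv 1103 (cons (fin 910 7 910)
(fin 912 5 911)))))))))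
(mv 913 (cons (fin 977 6 912)
(mv 974 (cons (fin 1036 1 972)
(mv 908 (cons (fin 909 3 908)
(mv 1167 (cons (fin 1231 5 975)
(mv 910 (cons (fin 1103 7 910)
(mv 782 (cons (fin 846 5 781)
(mv 1165 (cons (fin 1101 6 909)
(mv 1166 (cons (fin 1105 2 1101)
(mv 1169 (cons (fin 1233 4 976)
(mv 1229 (cons (fin 1228 1 1164)
(fin 1230 1 1165))))))))))))))))))))))))))
(mv 911 (cons (fin 847 4 847)
(mv 1168 (cons (fin 1232 7 975)
(fin 1103 4 911)))))))))))))
(mv 975 (cons (cons (mv 974 (cons (fin 972 0 972)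
(mv 976 (cons (fin 1036 1 972)
(mv 908 (cons (fin 909 3 908)
(mv 912 (cons (fin 913 2 909)
(mv 848 (cons (fin 784 5 783)
(fin 1103 5 847)))))))))))
(cons (mv 911 (cons (cons (mv 847 (cons (fin 1104 4 847)
(mv 782 (cons (fin 846 7 782)
(mv 783 (cons (fin 718 7 718)
(fin 976 4 783)))))))
(mv 1103 (cons (cons (cons (mv 846 (cons (fin 910 7 846)
(mv 848 (cons (fin 912 6 847)
(mv 1104 (cons (fin 1168 4 911)
(mv 1166 (cons (fin 1102 5 910)
(mv 1167 (cons (fin 1230 5 974)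
(mv 1231 (cons (fin 976 6 975)
(fin 1295 6 1039)))))))))))))
(mv 846 (cons (fin 910 7 846)
(mv 848 (cons (fin 912 6 847)
(mv 1166 (cons (fin 1102 5 910)
(mv 1167 (cons (fin 1230 5 974)
(mv 1231 (cons (fin 976 6 975)
(mv 1295 (cons (fin 1104 6 1039)
(mv 1296 (cons (fin 1232 4 1039)
(fin 1360 4 1103))))))))))))))))
(cons (mv 846 (cons (fin 910 7 846)
(mv 1104 (cons (fin 1168 4 911)
(mv 1166 (cons (fin 1102 5 910)
(mv 1167 (cons (fin 1230 5 974)
(mv 1231 (cons (fin 976 6 975)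
(fin 1295 6 1039)))))))))))
(mv 846 (cons (fin 910 7 846)
(mv 848 (cons (fin 912 6 847)
(mv 1166 (cons (fin 1102 5 910)
(mv 1167 (cons (fin 1230 5 974)
(mv 1231 (cons (fin 976 6 975)
(mv 1232 (cons (fin 1168 4 975)
(fin 1296 4 1039)))))))))))))))
(cons (cons (mv 846 (cons (fin 910 7 846)
(mv 912 (cons (fin 848 6 847)
(mv 1167 (cons (fin 976 6 911)
(mv 1168 (cons (fin 1104 4 911)
(fin 1232 4 975)))))))))
(mv 848 (cons (fin 912 6 847)
(mv 1104 (cons (fin 1168 4 911)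
(mv 1166 (cons (fin 1102 5 910)
(mv 1167 (cons (fin 1230 5 974)
(mv 1231 (cons (fin 976 6 975)
(fin 1295 6 1039))))))))))))
(cons (mv 846 (cons (fin 910 7 846)
(mv 848 (cons (fin 912 6 847)
(mv 1166 (cons (fin 1102 5 910)
(mv 1167 (cons (fin 1230 5 974)
(mv 1168 (cons (fin 1104 4 911)
(fin 1232 4 975)))))))))))
(mv 910 (cons (fin 846 7 846)
(mv 912 (cons (fin 848 6 847)
(mv 909 (cons (fin 972 1 908)
(mv 976 (cons (fin 908 0 908)
(fin 977 0 909))))))))))))))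
(cons (mv 1103 (cons (cons (mv 846 (cons (fin 910 7 846)
(mv 782 (cons (fin 847 7 782)
(mv 845 (cons (fin 909 6 781)
(mv 848 (cons (fin 912 6 847)
(mv 1166 (cons (fin 1102 5 910)
(mv 1167 (cons (fin 1230 5 974)
(mv 1231 (cons (fin 976 6 975)
(mv 1232 (cons (fin 1168 4 975)
(fin 1296 4 1039)))))))))))))))))
(mv 846 (cons (fin 910 7 846)
(mv 782 (cons (fin 847 7 782)
(mv 845 (cons (fin 909 6 781)
(mv 1166 (cons (fin 1102 5 910)
(mv 1167 (cons (fin 1230 5 974)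
(mv 1231 (cons (fin 976 6 975)
(mv 1232 (cons (fin 1168 4 975)
(fin 1296 4 1039))))))))))))))))
(cons (mv 848 (cons (fin 912 6 847)
(mv 784 (cons (fin 847 6 783)
(mv 1166 (cons (fin 1102 5 910)
(mv 1167 (cons (fin 1230 5 974)
(mv 1231 (cons (fin 976 6 975)
(mv 1232 (cons (fin 1168 4 975)
(fin 1296 4 1039)))))))))))))
(cons (mv 846 (cons (fin 910 7 846)
(mv 847 (cons (fin 782 7 782)
(mv 848 (cons (fin 784 6 783)
(fin 912 6 847)))))))
(mv 846 (cons (fin 910 7 846)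
(mv 848 (cons (fin 912 6 847)
(mv 1166 (cons (fin 1102 5 910)
(mv 1167 (cons (fin 1230 5 974)
(mv 1231 (cons (fin 976 6 975)
(mv 1232 (cons (fin 1168 4 975)
(fin 1296 4 1039)))))))))))))))))
(cons (mv 847 (cons (fin 1104 4 847)
(mv 782 (cons (fin 846 7 782)
(mv 783 (cons (fin 718 7 718)
(mv 784 (cons (fin 720 6 719)
(fin 848 6 783)))))))))
(mv 847 (cons (fin 1104 4 847)
(mv 783 (cons (fin 976 4 783)
(mv 784 (cons (fin 720 6 719)
(fin 848 6 783)))))))))))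
(mv 1104 (cons (cons (mv 911 (cons (fin 847 4 847)
(mv 1168 (cons (fin 976 7 911)
(fin 1232 7 975)))))
(mv 1168 (cons (fin 1232 7 975)
(mv 976 (cons (cons (mv 913 (cons (fin 977 6 912)
(mv 912 (cons (fin 974 2 909)
(fin 849 6 848)))))
(mv 913 (cons (fin 977 6 912)
(mv 912 (cons (fin 849 6 848)
(mv 848 (cons (fin 784 5 783)
(fin 1103 5 847))))))))
(cons (mv 974 (cons (fin 1036 1 972)
(mv 908 (cons (fin 909 3 908)
(mv 1167 (cons (fin 1231 5 975)
(mv 1103 (cons (fin 910 7 910)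
(fin 912 5 911)))))))))
(mv 913 (cons (fin 977 6 912)
(mv 974 (cons (fin 1036 1 972)
(mv 908 (cons (fin 909 3 908)
(mv 1167 (cons (fin 1231 5 975)
(mv 1103 (cons (fin 910 7 910)
(mv 1166 (cons (fin 1230 5 974)
(mv 1105 (cons (fin 1106 1 1102)
(fin 1165 2 1101)))))))))))))))))))))
(cons (mv 911 (cons (fin 847 4 847)
(mv 1103 (cons (cons (mv 846 (cons (fin 910 7 846)
(mv 848 (cons (fin 912 6 847)
(mv 1166 (cons (fin 1102 5 910)
(mv 1167 (cons (fin 1230 5 974)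
(mv 1231 (cons (fin 976 6 975)
(fin 1295 6 1039)))))))))))
(cons (mv 846 (cons (fin 910 7 846)
(mv 1166 (cons (fin 1102 5 910)
(mv 1167 (cons (fin 1230 5 974)
(mv 1231 (cons (fin 976 6 975)
(fin 1295 6 1039)))))))))
(mv 848 (cons (fin 912 6 847)
(mv 1166 (cons (fin 1102 5 910)
(mv 1167 (cons (fin 1230 5 974)
(mv 1231 (cons (fin 976 6 975)
(fin 1295 6 1039)))))))))))
(cons (mv 846 (cons (fin 910 7 846)
(mv 912 (cons (fin 848 6 847)
(mv 976 (cons (fin 1167 5 911)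
(mv 913 (cons (fin 974 2 909)
(fin 849 6 848)))))))))
(cons (mv 910 (cons (fin 846 7 846)
(mv 912 (cons (fin 848 6 847)
(mv 913 (cons (fin 974 1 909)
(mv 849 (cons (fin 850 2 846)
(fin 976 6 848)))))))))
(mv 848 (cons (fin 912 6 847)
(mv 910 (cons (fin 846 7 846)
(mv 1166 (cons (fin 1102 5 910)
(mv 1167 (cons (fin 974 7 910)
(fin 1230 5 974)))))))))))))))
(mv 911 (cons (fin 847 4 847)
(mv 1168 (cons (fin 1232 7 975)
(fin 1103 4 911))))))))))
(cons (cons (mv 972 (cons (fin 974 0 972)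
(mv 911 (cons (cons (mv 847 (cons (fin 1104 4 847)
(mv 782 (cons (fin 846 7 782)
(mv 783 (cons (fin 718 7 718)
(mv 784 (cons (fin 720 6 719)
(fin 848 6 783)))))))))
(mv 1103 (cons (cons (mv 846 (cons (fin 910 7 846)
(mv 848 (cons (fin 912 6 847)
(mv 1166 (cons (fin 1102 5 910)
(mv 1167 (cons (fin 1230 5 974)
(mv 1168 (cons (fin 1104 4 911)
(fin 1232 4 975)))))))))))
(mv 910 (cons (fin 846 7 846)
(mv 912 (cons (fin 909 1 908)
(fin 848 6 847))))))
(cons (mv 848 (cons (fin 912 6 847)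
(mv 1166 (cons (fin 1102 5 910)
(mv 1167 (cons (fin 1230 5 974)
(mv 1168 (cons (fin 1104 4 911)
(fin 1232 4 975)))))))))
(mv 846 (cons (fin 910 7 846)
(mv 1166 (cons (fin 1102 5 910)
(mv 1167 (cons (fin 1230 5 974)
(mv 1168 (cons (fin 1104 4 911)
(fin 1232 4 975)))))))))))))
(cons (mv 910 (cons (mv 846 (cons (fin 1103 7 846)
(mv 782 (cons (fin 847 7 782)
(fin 718 4 718)))))
(mv 909 (cons (fin 912 1 908)
(mv 971 (cons (fin 908 1 907)
(fin 970 2 906)))))))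
(mv 1104 (cons (fin 847 4 847)
(mv 1168 (cons (fin 1232 7 975)
(fin 1103 4 911))))))))))
(mv 974 (cons (fin 972 0 972)
(mv 976 (cons (fin 1036 1 972)
(mv 908 (cons (fin 909 3 908)
(mv 912 (cons (fin 913 2 909)
(mv 848 (cons (fin 784 5 783)
(mv 785 (cons (fin 849 6 784)
(mv 847 (cons (fin 783 7 783)
(mv 1104 (cons (fin 911 7 847)
(mv 1168 (cons (fin 1232 7 975)
(mv 1169 (cons (fin 1105 4 912)
(fin 1233 4 976))))))))))))))))))))))
(cons (mv 974 (cons (fin 972 0 972)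
(mv 976 (cons (fin 1036 1 972)
(mv 909 (cons (fin 908 3 908)
(mv 910 (cons (fin 977 3 909)
(mv 846 (cons (fin 782 5 781)
(mv 1103 (cons (fin 911 7 846)
(fin 1167 7 910)))))))))))))
(mv 974 (cons (fin 972 0 972)
(mv 976 (cons (fin 1036 1 972)
(mv 912 (cons (fin 913 2 909)
(mv 848 (cons (fin 784 5 783)
(fin 1103 5 847))))))))))))))
(cons (mv 975 (cons (cons (mv 974 (cons (fin 972 0 972)
(mv 976 (cons (fin 1036 1 972)
(mv 912 (cons (fin 913 2 909)
(mv 848 (cons (fin 784 5 783)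
(fin 1103 5 847)))))))))
(cons (mv 911 (cons (cons (mv 847 (cons (fin 1104 4 847)
(mv 782 (cons (fin 846 7 782)
(mv 783 (cons (fin 718 7 718)
(fin 976 4 783)))))))
(mv 1103 (cons (cons (mv 846 (cons (fin 910 7 846)
(mv 848 (cons (fin 912 6 847)
(mv 1102 (cons (fin 1166 5 910)
(mv 1101 (cons (fin 1100 2 1036)
(mv 1104 (cons (fin 1036 3 1036)
(fin 1168 4 911)))))))))))
(cons (mv 846 (cons (fin 910 7 846)
(mv 848 (cons (fin 912 6 847)
(mv 1166 (cons (fin 1102 5 910)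
(mv 1167 (cons (fin 1230 5 974)
(mv 1231 (cons (fin 976 6 975)
(mv 1295 (cons (fin 1104 6 1039)
(mv 1296 (cons (fin 1232 4 1039)
(fin 1360 4 1103)))))))))))))))
(mv 846 (cons (fin 910 7 846)
(mv 848 (cons (fin 912 6 847)
(mv 1166 (cons (fin 1102 5 910)
(mv 1167 (cons (fin 1230 5 974)
(mv 1231 (cons (fin 976 6 975)
(mv 1232 (cons (fin 1168 4 975)
(fin 1296 4 1039)))))))))))))))
(cons (cons (mv 846 (cons (fin 910 7 846)
(mv 1102 (cons (fin 1166 5 910)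
(mv 1101 (cons (fin 1100 2 1036)
(mv 1104 (cons (fin 1036 3 1036)
(fin 1168 4 911)))))))))
(mv 846 (cons (fin 910 7 846)
(mv 848 (cons (fin 912 6 847)
(mv 1168 (cons (fin 1104 4 911)
(mv 1167 (cons (fin 1232 4 975)
(mv 1230 (cons (fin 1166 5 974)
(mv 1231 (cons (fin 1294 5 1038)
(fin 976 6 975))))))))))))))
(cons (mv 846 (cons (fin 910 7 846)
(mv 912 (cons (fin 848 6 847)
(mv 1167 (cons (fin 976 6 911)
(mv 1168 (cons (fin 1104 4 911)
(fin 1232 4 975)))))))))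
(mv 848 (cons (fin 912 6 847)
(mv 1102 (cons (fin 1166 5 910)
(mv 1101 (cons (fin 1100 2 1036)
(mv 1104 (cons (fin 1036 3 1036)
(fin 1168 4 911))))))))))))))
(cons (mv 1103 (cons (cons (mv 846 (cons (fin 910 7 846)
(mv 782 (cons (fin 847 7 782)
(mv 848 (cons (fin 912 6 847)
(mv 1166 (cons (fin 1102 5 910)
(mv 1167 (cons (fin 1230 5 974)
(mv 1231 (cons (fin 976 6 975)
(mv 1232 (cons (fin 1168 4 975)
(fin 1296 4 1039)))))))))))))))
(mv 846 (cons (fin 910 7 846)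
(mv 782 (cons (fin 847 7 782)
(mv 1166 (cons (fin 1102 5 910)
(mv 1167 (cons (fin 1230 5 974)
(mv 1231 (cons (fin 976 6 975)
(mv 1232 (cons (fin 1168 4 975)
(fin 1296 4 1039))))))))))))))
(cons (mv 846 (cons (fin 910 7 846)
(mv 847 (cons (fin 782 7 782)
(mv 848 (cons (fin 784 6 783)
(fin 912 6 847)))))))
(cons (mv 848 (cons (fin 912 6 847)
(mv 784 (cons (fin 847 6 783)
(mv 1166 (cons (fin 1102 5 910)
(mv 1167 (cons (fin 1230 5 974)
(mv 1231 (cons (fin 976 6 975)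
(mv 1232 (cons (fin 1168 4 975)
(fin 1296 4 1039)))))))))))))
(mv 846 (cons (fin 910 7 846)
(mv 848 (cons (fin 912 6 847)
(mv 1166 (cons (fin 1102 5 910)
(mv 1167 (cons (fin 1230 5 974)
(mv 1231 (cons (fin 976 6 975)
(mv 1232 (cons (fin 1168 4 975)
(fin 1296 4 1039)))))))))))))))))
(cons (mv 847 (cons (fin 1104 4 847)
(mv 782 (cons (fin 846 7 782)
(mv 783 (cons (fin 718 7 718)
(mv 784 (cons (fin 720 6 719)
(fin 848 6 783)))))))))
(mv 847 (cons (fin 1104 4 847)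
(mv 783 (cons (fin 976 4 783)
(mv 784 (cons (fin 720 6 719)
(fin 848 6 783)))))))))))
(mv 974 (cons (fin 972 0 972)
(mv 911 (cons (cons (mv 847 (cons (fin 1104 4 847)
(mv 782 (cons (fin 846 7 782)
(mv 718 (cons (fin 783 7 718)
(mv 848 (cons (fin 784 6 783)
(mv 912 (cons (fin 1103 6 847)
(mv 913 (cons (fin 910 1 909)
(fin 914 1 910)))))))))))))
(mv 1103 (cons (mv 910 (cons (fin 846 7 846)
(fin 1167 7 910)))
(mv 848 (cons (fin 912 6 847)
(mv 1102 (cons (fin 1166 5 910)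
(mv 1101 (cons (fin 1100 2 1036)
(mv 1104 (cons (fin 1036 3 1036)
(fin 1168 4 911))))))))))))
(cons (mv 912 (cons (mv 913 (cons (fin 910 1 909)
(fin 914 1 910)))
(mv 848 (cons (fin 1103 6 847)
(mv 784 (cons (fin 720 5 719)
(fin 847 6 783)))))))
(cons (mv 847 (cons (fin 1104 4 847)
(mv 782 (cons (fin 846 7 782)
(mv 783 (cons (fin 718 7 718)
(mv 784 (cons (fin 720 6 719)
(fin 848 6 783)))))))))
(mv 847 (cons (fin 1104 4 847)
(mv 782 (cons (fin 846 7 782)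
(mv 783 (cons (fin 718 7 718)
(mv 719 (cons (fin 910 5 718)
(mv 720 (cons (fin 656 6 655)
(fin 784 6 719)))))))))))))))))))
(cons (cons (mv 972 (cons (fin 974 0 972)
(mv 911 (cons (cons (mv 847 (cons (fin 1104 4 847)
(mv 782 (cons (fin 846 7 782)
(mv 783 (cons (fin 718 7 718)
(fin 976 4 783)))))))
(mv 1103 (cons (cons (mv 846 (cons (fin 910 7 846)
(mv 848 (cons (fin 912 6 847)
(mv 1102 (cons (fin 1166 5 910)
(mv 1101 (cons (fin 1100 2 1036)
(mv 1104 (cons (fin 1168 4 911)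
(mv 1165 (cons (fin 1164 1 1100)
(fin 908 7 908)))))))))))))
(cons (mv 846 (cons (fin 910 7 846)
(mv 848 (cons (fin 912 6 847)
(mv 1102 (cons (fin 1166 5 910)
(mv 1101 (cons (fin 1100 2 1036)
(mv 1165 (cons (fin 908 7 908)
(mv 1164 (cons (fin 1104 1 1100)
(fin 1228 5 972)))))))))))))
(mv 846 (cons (fin 910 7 846)
(mv 848 (cons (fin 912 6 847)
(mv 1166 (cons (fin 1102 5 910)
(mv 1167 (cons (fin 1230 5 974)
(mv 1231 (cons (fin 976 6 975)
(mv 1232 (cons (fin 1168 4 975)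
(fin 1296 4 1039)))))))))))))))
(cons (mv 846 (cons (fin 910 7 846)
(mv 1102 (cons (fin 1166 5 910)
(mv 1101 (cons (fin 1100 2 1036)
(mv 1104 (cons (fin 1168 4 911)
(mv 1165 (cons (fin 1164 1 1100)
(fin 908 7 908)))))))))))
(cons (mv 846 (cons (fin 910 7 846)
(mv 912 (cons (fin 848 6 847)
(mv 1167 (cons (fin 976 6 911)
(mv 1168 (cons (fin 1104 4 911)
(fin 1232 4 975)))))))))
(mv 848 (cons (fin 912 6 847)
(mv 1102 (cons (fin 1166 5 910)
(mv 1101 (cons (fin 1100 2 1036)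
(mv 1104 (cons (fin 1168 4 911)
(mv 1165 (cons (fin 1164 1 1100)
(fin 908 7 908))))))))))))))))
(cons (mv 1103 (cons (cons (mv 846 (cons (fin 910 7 846)
(mv 782 (cons (fin 847 7 782)
(mv 848 (cons (fin 912 6 847)
(mv 1166 (cons (fin 1102 5 910)
(mv 1167 (cons (fin 1230 5 974)
(mv 1231 (cons (fin 976 6 975)
(mv 1232 (cons (fin 1168 4 975)
(fin 1296 4 1039)))))))))))))))
(mv 846 (cons (fin 910 7 846)
(mv 782 (cons (fin 847 7 782)
(mv 1166 (cons (fin 1102 5 910)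
(mv 1167 (cons (fin 1230 5 974)
(mv 1231 (cons (fin 976 6 975)
(mv 1232 (cons (fin 1168 4 975)
(fin 1296 4 1039))))))))))))))
(cons (mv 846 (cons (fin 910 7 846)
(mv 847 (cons (fin 782 7 782)
(mv 848 (cons (fin 784 6 783)
(fin 912 6 847)))))))
(cons (mv 848 (cons (fin 912 6 847)
(mv 784 (cons (fin 847 6 783)
(mv 1166 (cons (fin 1102 5 910)
(mv 1167 (cons (fin 1230 5 974)
(mv 1231 (cons (fin 976 6 975)
(mv 1232 (cons (fin 1168 4 975)
(fin 1296 4 1039)))))))))))))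
(mv 846 (cons (fin 910 7 846)
(mv 848 (cons (fin 912 6 847)
(mv 1166 (cons (fin 1102 5 910)
(mv 1167 (cons (fin 1230 5 974)
(mv 1231 (cons (fin 976 6 975)
(mv 1232 (cons (fin 1168 4 975)
(fin 1296 4 1039)))))))))))))))))
(cons (mv 847 (cons (fin 1104 4 847)
(mv 782 (cons (fin 846 7 782)
(mv 783 (cons (fin 718 7 718)
(mv 784 (cons (fin 720 6 719)
(fin 848 6 783)))))))))
(mv 847 (cons (fin 1104 4 847)
(mv 783 (cons (fin 976 4 783)
(mv 784 (cons (fin 720 6 719)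
(fin 848 6 783)))))))))))))
(mv 974 (cons (fin 972 0 972)
(mv 976 (cons (fin 1036 1 972)
(mv 912 (cons (fin 913 2 909)
(mv 848 (cons (fin 784 5 783)
(mv 785 (cons (fin 849 6 784)
(mv 847 (cons (fin 783 7 783)
(mv 1104 (cons (fin 911 7 847)
(mv 1168 (cons (fin 1232 7 975)
(mv 1169 (cons (fin 1105 4 912)
(fin 1233 4 976))))))))))))))))))))
(cons (mv 974 (cons (fin 972 0 972)
(mv 976 (cons (fin 1036 1 972)
(mv 911 (cons (mv 847 (cons (fin 783 4 783)
(fin 1104 4 847)))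
(cons (mv 847 (cons (fin 783 4 783)
(mv 784 (cons (fin 848 6 783)
(mv 846 (cons (fin 782 7 782)
(mv 1103 (cons (fin 910 7 846)
(mv 1166 (cons (fin 1102 5 910)
(mv 1167 (cons (fin 1230 5 974)
(fin 1231 6 975)))))))))))))
(mv 1104 (cons (fin 1168 7 911)
(mv 1103 (cons (mv 910 (cons (fin 846 7 846)
(fin 1167 7 910)))
(cons (mv 1166 (cons (fin 1102 5 910)
(mv 1167 (cons (fin 1230 5 974)
(fin 1231 6 975)))))
(mv 910 (cons (fin 846 7 846)
(mv 977 (cons (fin 978 3 910)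
(mv 913 (cons (fin 914 2 910)
(mv 785 (cons (fin 849 5 784)
(mv 1101 (cons (fin 1165 6 909)
(mv 1102 (cons (fin 1100 2 1036)
(fin 1166 5 910)))))))))))))))))))))))))
(mv 974 (cons (fin 972 0 972)
(mv 976 (cons (fin 1036 1 972)
(mv 913 (cons (fin 912 2 909)
(mv 977 (cons (fin 914 2 910)
(mv 785 (cons (fin 849 5 784)
(mv 978 (cons (fin 979 1 975)
(mv 911 (cons (fin 910 3 910)
(mv 847 (cons (fin 783 4 783)
(fin 1104 4 847)))))))))))))))))))))
(mv 974 (cons (cons (mv 972 (cons (fin 975 0 972)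
(mv 910 (cons (cons (mv 782 (cons (fin 846 5 781)
(mv 911 (cons (fin 971 2 907)
(mv 912 (cons (fin 909 1 908)
(fin 913 1 909)))))))
(mv 846 (cons (fin 782 5 781)
(mv 1101 (cons (fin 909 6 845)
(fin 1165 6 909))))))
(cons (mv 911 (cons (fin 971 2 907)
(mv 912 (cons (fin 909 1 908)
(fin 913 1 909)))))
(mv 782 (cons (fin 846 5 781)
(mv 971 (cons (fin 911 2 907)
(mv 906 (cons (fin 907 3 906)
(mv 970 (cons (fin 905 3 905)
(mv 1034 (cons (fin 1033 1 969)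
(fin 1035 1 970))))))))))))))))
(mv 1101 (cons (cons (mv 910 (cons (fin 1165 6 909)
(mv 846 (cons (fin 782 5 781)
(fin 909 6 845)))))
(mv 909 (cons (cons (mv 844 (cons (fin 908 7 844)
(mv 780 (cons (fin 845 7 780)
(mv 846 (cons (fin 910 6 845)
(mv 1100 (cons (fin 1164 5 908)
(mv 1102 (cons (fin 1103 2 1036)
(fin 1166 4 909)))))))))))
(mv 844 (cons (fin 908 7 844)
(mv 780 (cons (fin 845 7 780)
(mv 1100 (cons (fin 1164 5 908)
(mv 1102 (cons (fin 1103 2 1036)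
(fin 1166 4 909))))))))))
(cons (mv 846 (cons (fin 910 6 845)
(mv 782 (cons (fin 845 6 781)
(mv 1100 (cons (fin 1164 5 908)
(mv 1102 (cons (fin 1103 2 1036)
(fin 1166 4 909)))))))))
(cons (mv 844 (cons (fin 908 7 844)
(mv 845 (cons (fin 780 7 780)
(mv 846 (cons (fin 782 6 781)
(fin 910 6 845)))))))
(mv 844 (cons (fin 908 7 844)
(mv 846 (cons (fin 910 6 845)
(mv 1100 (cons (fin 1164 5 908)
(mv 1102 (cons (fin 1103 2 1036)
(fin 1166 4 909))))))))))))))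
(cons (mv 909 (cons (cons (mv 844 (cons (fin 908 7 844)
(mv 780 (cons (fin 845 7 780)
(mv 1100 (cons (fin 1164 5 908)
(mv 1102 (cons (fin 1103 2 1036)
(fin 1166 4 909)))))))))
(mv 1100 (cons (fin 1164 5 908)
(mv 1102 (cons (fin 1103 2 1036)
(fin 1166 4 909))))))
(cons (mv 908 (cons (fin 844 7 844)
(mv 906 (cons (fin 907 0 906)
(mv 1165 (cons (fin 972 7 908)
(mv 1166 (cons (fin 1102 4 909)
(fin 1230 4 973)))))))))
(mv 908 (cons (fin 844 7 844)
(mv 906 (cons (fin 907 0 906)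
(mv 1164 (cons (fin 1100 5 908)
(mv 1165 (cons (fin 972 7 908)
(fin 1228 5 972))))))))))))
(mv 1165 (cons (fin 910 6 909)
(mv 908 (cons (fin 972 7 908)
(mv 1228 (cons (fin 1164 5 972)
(mv 1229 (cons (fin 1292 5 1036)
(mv 1230 (cons (fin 1166 4 973)
(fin 1294 4 1037)))))))))))))))
(cons (mv 1101 (cons (cons (mv 910 (cons (fin 1165 6 909)
(mv 846 (cons (fin 782 5 781)
(fin 909 6 845)))))
(mv 1166 (cons (cons (mv 909 (cons (fin 1102 4 909)
(mv 844 (cons (fin 908 7 844)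
(mv 780 (cons (fin 845 7 780)
(mv 1164 (cons (fin 1100 5 908)
(mv 1165 (cons (fin 1228 5 972)
(fin 1230 4 973)))))))))))
(mv 1165 (cons (fin 1230 4 973)
(mv 1164 (cons (fin 1228 5 972)
(mv 1100 (cons (fin 909 5 908)
(mv 1099 (cons (fin 1167 3 1099)
(fin 1098 0 1098))))))))))
(cons (mv 1230 (cons (fin 1165 4 973)
(mv 1102 (cons (fin 1294 7 1037)
(mv 1100 (cons (fin 1103 2 1036)
(mv 1099 (cons (fin 1167 0 1099)
(mv 1034 (cons (fin 1035 3 1034)
(mv 1098 (cons (fin 1033 3 1033)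
(mv 1162 (cons (fin 1161 1 1097)
(fin 1163 1 1098)))))))))))))))
(cons (mv 1102 (cons (fin 909 4 909)
(mv 1100 (cons (fin 1103 2 1036)
(mv 1099 (cons (fin 1167 0 1099)
(mv 1034 (cons (fin 1035 3 1034)
(mv 1098 (cons (fin 1033 3 1033)
(mv 1162 (cons (fin 1161 1 1097)
(fin 1163 1 1098)))))))))))))
(mv 909 (cons (fin 1102 4 909)
(mv 908 (cons (fin 844 7 844)
(mv 906 (cons (fin 907 0 906)
(mv 975 (cons (fin 976 3 908)
(mv 1165 (cons (fin 1230 4 973)
(mv 1228 (cons (fin 1164 5 972)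
(mv 1229 (cons (fin 1292 5 1036)
(mv 1168 (cons (fin 1167 1 1164)
(mv 1104 (cons (fin 1232 7 975)
(mv 911 (cons (fin 847 4 847)
(fin 1103 4 911))))))))))))))))))))))))))
(cons (mv 909 (cons (cons (mv 844 (cons (fin 908 7 844)
(mv 780 (cons (fin 845 7 780)
(mv 846 (cons (fin 910 6 845)
(mv 1100 (cons (fin 1164 5 908)
(mv 1102 (cons (fin 1103 2 1036)
(fin 1166 4 909)))))))))))
(mv 846 (cons (fin 910 6 845)
(mv 782 (cons (fin 845 6 781)
(mv 1100 (cons (fin 1164 5 908)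
(mv 1102 (cons (fin 1103 2 1036)
(fin 1166 4 909))))))))))
(cons (mv 844 (cons (fin 908 7 844)
(mv 780 (cons (fin 845 7 780)
(mv 1100 (cons (fin 1164 5 908)
(mv 1102 (cons (fin 1103 2 1036)
(fin 1166 4 909)))))))))
(cons (mv 844 (cons (fin 908 7 844)
(mv 845 (cons (fin 780 7 780)
(mv 846 (cons (fin 782 6 781)
(fin 910 6 845)))))))
(mv 844 (cons (fin 908 7 844)
(mv 846 (cons (fin 910 6 845)
(mv 1100 (cons (fin 1164 5 908)
(mv 1102 (cons (fin 1103 2 1036)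
(fin 1166 4 909)))))))))))))
(mv 1165 (cons (fin 910 6 909)
(mv 1228 (cons (fin 1164 5 972)
(mv 1229 (cons (fin 1292 5 1036)
(mv 1230 (cons (fin 1166 4 973)
(fin 1294 4 1037))))))))))))
(cons (mv 975 (cons (fin 972 0 972)
(mv 911 (cons (cons (mv 847 (cons (fin 1104 4 847)
(mv 782 (cons (fin 846 7 782)
(mv 783 (cons (fin 718 7 718)
(fin 976 4 783)))))))
(mv 1103 (cons (cons (mv 848 (cons (fin 912 6 847)
(mv 1104 (cons (fin 1168 4 911)
(mv 1166 (cons (fin 1102 5 910)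
(mv 1167 (cons (fin 1230 5 974)
(mv 1231 (cons (fin 976 6 975)
(fin 1295 6 1039)))))))))))
(cons (mv 1104 (cons (fin 1168 4 911)
(mv 1166 (cons (fin 1102 5 910)
(mv 1167 (cons (fin 1230 5 974)
(mv 1231 (cons (fin 976 6 975)
(fin 1295 6 1039)))))))))
(mv 848 (cons (fin 912 6 847)
(mv 1166 (cons (fin 1102 5 910)
(mv 1167 (cons (fin 1230 5 974)
(mv 1231 (cons (fin 976 6 975)
(mv 1295 (cons (fin 1104 6 1039)
(mv 1296 (cons (fin 1232 4 1039)
(fin 1360 4 1103)))))))))))))))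
(cons (mv 848 (cons (fin 912 6 847)
(mv 1166 (cons (fin 1102 5 910)
(mv 1167 (cons (fin 1230 5 974)
(mv 1231 (cons (fin 976 6 975)
(mv 1232 (cons (fin 1168 4 975)
(fin 1296 4 1039)))))))))))
(cons (mv 912 (cons (fin 848 6 847)
(mv 913 (cons (fin 914 1 910)
(fin 976 2 909)))))
(mv 848 (cons (fin 912 6 847)
(mv 1166 (cons (fin 1102 5 910)
(mv 1167 (cons (fin 1230 5 974)
(mv 1168 (cons (fin 1104 4 911)
(fin 1232 4 975))))))))))))))
(cons (mv 912 (cons (mv 913 (cons (fin 914 1 910)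
(fin 976 2 909)))
(cons (mv 848 (cons (fin 1103 6 847)
(mv 784 (cons (fin 720 5 719)
(fin 976 5 783)))))
(mv 848 (cons (fin 1103 6 847)
(mv 784 (cons (fin 720 5 719)
(fin 847 6 783))))))))
(mv 847 (cons (fin 1104 4 847)
(mv 782 (cons (fin 846 7 782)
(mv 783 (cons (fin 718 7 718)
(mv 784 (cons (fin 720 6 719)
(fin 848 6 783))))))))))))))
(mv 972 (cons (fin 975 0 972)
(mv 971 (cons (cons (mv 906 (cons (fin 907 3 906)
(mv 910 (cons (fin 911 2 907)
(mv 970 (cons (fin 905 3 905)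
(fin 909 2 906)))))))
(mv 906 (cons (fin 907 3 906)
(mv 970 (cons (fin 905 3 905)
(mv 1034 (cons (fin 1033 1 969)
(fin 1035 1 970))))))))
(cons (mv 910 (cons (fin 911 2 907)
(mv 909 (cons (fin 970 2 906)
(mv 1034 (cons (fin 1035 1 970)
(mv 1101 (cons (fin 1165 6 909)
(mv 844 (cons (fin 908 7 844)
(mv 780 (cons (fin 845 7 780)
(mv 1100 (cons (fin 1164 5 908)
(mv 1102 (cons (fin 1103 2 1036)
(fin 1166 4 909)))))))))))))))))
(mv 907 (cons (fin 906 3 906)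
(mv 910 (cons (fin 911 2 907)
(mv 1035 (cons (fin 1034 1 970)
(mv 1101 (cons (fin 1165 6 909)
(mv 908 (cons (mv 844 (cons (fin 909 7 844)
(fin 780 5 779)))
(cons (mv 1099 (cons (fin 1163 6 907)
(mv 1098 (cons (fin 1162 5 906)
(mv 1100 (cons (fin 1164 4 907)
(mv 1102 (cons (fin 1103 2 1036)
(mv 1166 (cons (fin 1167 0 1099)
(fin 909 4 909)))))))))))
(mv 844 (cons (fin 780 5 779)
(fin 1099 6 843))))))))))))))))))))))))))
(cons (cons (mv 975 (cons (cons (mv 974 (cons (fin 972 0 972)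
(mv 976 (cons (fin 1036 1 972)
(mv 908 (cons (fin 909 3 908)
(mv 912 (cons (fin 913 2 909)
(mv 848 (cons (fin 784 5 783)
(fin 1103 5 847)))))))))))
(cons (mv 911 (cons (cons (mv 847 (cons (fin 1104 4 847)
(mv 782 (cons (fin 846 7 782)
(mv 783 (cons (fin 718 7 718)
(fin 976 4 783)))))))
(mv 1103 (cons (cons (mv 846 (cons (fin 910 7 846)
(mv 848 (cons (fin 912 6 847)
(mv 1102 (cons (fin 1166 5 910)
(mv 1101 (cons (fin 1100 2 1036)
(mv 1104 (cons (fin 1036 3 1036)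
(fin 1168 4 911)))))))))))
(cons (mv 846 (cons (fin 910 7 846)
(mv 848 (cons (fin 912 6 847)
(mv 1166 (cons (fin 1102 5 910)
(mv 1167 (cons (fin 1230 5 974)
(mv 1231 (cons (fin 976 6 975)
(mv 1295 (cons (fin 1104 6 1039)
(mv 1296 (cons (fin 1232 4 1039)
(fin 1360 4 1103)))))))))))))))
(mv 846 (cons (fin 910 7 846)
(mv 848 (cons (fin 912 6 847)
(mv 1166 (cons (fin 1102 5 910)
(mv 1167 (cons (fin 1230 5 974)
(mv 1231 (cons (fin 976 6 975)
(mv 1232 (cons (fin 1168 4 975)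
(fin 1296 4 1039)))))))))))))))
(cons (cons (mv 846 (cons (fin 910 7 846)
(mv 1102 (cons (fin 1166 5 910)
(mv 1101 (cons (fin 1100 2 1036)
(mv 1104 (cons (fin 1036 3 1036)
(fin 1168 4 911)))))))))
(mv 846 (cons (fin 910 7 846)
(mv 848 (cons (fin 912 6 847)
(mv 1168 (cons (fin 1104 4 911)
(mv 1167 (cons (fin 1232 4 975)
(mv 1230 (cons (fin 1166 5 974)
(mv 1231 (cons (fin 1294 5 1038)
(fin 976 6 975))))))))))))))
(cons (mv 846 (cons (fin 910 7 846)
(mv 912 (cons (fin 848 6 847)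
(mv 1167 (cons (fin 976 6 911)
(mv 1168 (cons (fin 1104 4 911)
(fin 1232 4 975)))))))))
(mv 848 (cons (fin 912 6 847)
(mv 1102 (cons (fin 1166 5 910)
(mv 1101 (cons (fin 1100 2 1036)
(mv 1104 (cons (fin 1036 3 1036)
(fin 1168 4 911))))))))))))))
(cons (mv 1103 (cons (cons (mv 846 (cons (fin 910 7 846)
(mv 782 (cons (fin 847 7 782)
(mv 845 (cons (fin 909 6 781)
(mv 848 (cons (fin 912 6 847)
(mv 1166 (cons (fin 1102 5 910)
(mv 1167 (cons (fin 1230 5 974)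
(mv 1231 (cons (fin 976 6 975)
(mv 1232 (cons (fin 1168 4 975)
(fin 1296 4 1039)))))))))))))))))
(cons (mv 846 (cons (fin 910 7 846)
(mv 782 (cons (fin 847 7 782)
(mv 845 (cons (fin 909 6 781)
(mv 1166 (cons (fin 1102 5 910)
(mv 1167 (cons (fin 1230 5 974)
(mv 1231 (cons (fin 976 6 975)
(mv 1232 (cons (fin 1168 4 975)
(fin 1296 4 1039)))))))))))))))
(mv 848 (cons (fin 912 6 847)
(mv 784 (cons (fin 847 6 783)
(mv 1166 (cons (fin 1102 5 910)
(mv 1167 (cons (fin 1230 5 974)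
(mv 1231 (cons (fin 976 6 975)
(mv 1232 (cons (fin 1168 4 975)
(fin 1296 4 1039)))))))))))))))
(cons (mv 846 (cons (fin 910 7 846)
(mv 782 (cons (fin 847 7 782)
(mv 845 (cons (fin 909 6 781)
(mv 912 (cons (fin 848 6 847)
(mv 1167 (cons (fin 976 6 911)
(mv 1230 (cons (fin 1166 5 974)
(mv 1231 (cons (fin 1294 5 1038)
(mv 1232 (cons (fin 1168 4 975)
(fin 1296 4 1039)))))))))))))))))
(cons (mv 846 (cons (fin 910 7 846)
(mv 847 (cons (fin 782 7 782)
(mv 848 (cons (fin 784 6 783)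
(fin 912 6 847)))))))
(mv 846 (cons (fin 910 7 846)
(mv 848 (cons (fin 912 6 847)
(mv 1166 (cons (fin 1102 5 910)
(mv 1167 (cons (fin 1230 5 974)
(mv 1231 (cons (fin 976 6 975)
(mv 1232 (cons (fin 1168 4 975)
(fin 1296 4 1039)))))))))))))))))
(cons (mv 847 (cons (fin 1104 4 847)
(mv 782 (cons (fin 846 7 782)
(mv 783 (cons (fin 718 7 718)
(mv 784 (cons (fin 720 6 719)
(fin 848 6 783)))))))))
(mv 847 (cons (fin 1104 4 847)
(mv 783 (cons (fin 976 4 783)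
(mv 784 (cons (fin 720 6 719)
(fin 848 6 783)))))))))))
(mv 972 (cons (fin 974 0 972)
(mv 911 (cons (cons (mv 847 (cons (fin 1104 4 847)
(mv 782 (cons (fin 846 7 782)
(mv 718 (cons (fin 783 7 718)
(mv 848 (cons (fin 784 6 783)
(mv 912 (cons (fin 1103 6 847)
(mv 909 (cons (fin 910 1 908)
(mv 845 (cons (fin 781 6 717)
(mv 844 (cons (fin 780 7 780)
(mv 1100 (cons (fin 1036 5 844)
(mv 1101 (cons (fin 908 7 844)
(fin 1164 5 908)))))))))))))))))))))
(mv 1103 (cons (cons (mv 846 (cons (fin 910 7 846)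
(mv 848 (cons (fin 912 6 847)
(mv 1102 (cons (fin 1166 5 910)
(mv 1101 (cons (fin 1100 2 1036)
(mv 1104 (cons (fin 1036 3 1036)
(fin 1168 4 911)))))))))))
(mv 848 (cons (fin 912 6 847)
(mv 910 (cons (fin 846 7 846)
(mv 1102 (cons (fin 1166 5 910)
(mv 1101 (cons (fin 1100 2 1036)
(mv 1036 (cons (fin 1104 3 1036)
(mv 908 (cons (fin 844 4 844)
(mv 971 (cons (fin 909 1 907)
(mv 970 (cons (fin 969 0 969)
(mv 1034 (cons (fin 1033 1 969)
(fin 1035 0 1034))))))))))))))))))))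
(cons (mv 910 (cons (fin 846 7 846)
(mv 912 (cons (fin 909 1 908)
(fin 848 6 847)))))
(cons (mv 848 (cons (fin 912 6 847)
(mv 1102 (cons (fin 1166 5 910)
(mv 1101 (cons (fin 1100 2 1036)
(mv 1104 (cons (fin 1036 3 1036)
(fin 1168 4 911)))))))))
(mv 846 (cons (fin 910 7 846)
(mv 1102 (cons (fin 1166 5 910)
(mv 1101 (cons (fin 1100 2 1036)
(mv 1104 (cons (fin 1036 3 1036)
(fin 1168 4 911))))))))))))))
(cons (mv 910 (cons (mv 846 (cons (fin 1103 7 846)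
(mv 782 (cons (fin 847 7 782)
(fin 718 4 718)))))
(mv 909 (cons (fin 912 1 908)
(mv 971 (cons (fin 908 1 907)
(fin 970 2 906)))))))
(cons (mv 847 (cons (fin 1104 4 847)
(mv 782 (cons (fin 846 7 782)
(mv 783 (cons (fin 718 7 718)
(mv 784 (cons (fin 720 6 719)
(fin 848 6 783)))))))))
(mv 1104 (cons (fin 847 4 847)
(mv 1168 (cons (fin 1232 7 975)
(fin 1103 4 911)))))))))))))
(cons (cons (mv 972 (cons (fin 974 0 972)
(mv 911 (cons (cons (mv 847 (cons (fin 1104 4 847)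
(mv 782 (cons (fin 846 7 782)
(mv 783 (cons (fin 718 7 718)
(fin 976 4 783)))))))
(mv 1103 (cons (cons (cons (mv 846 (cons (fin 910 7 846)
(mv 848 (cons (fin 912 6 847)
(mv 1104 (cons (fin 1168 4 911)
(mv 1166 (cons (fin 1102 5 910)
(mv 1167 (cons (fin 1230 5 974)
(mv 1231 (cons (fin 976 6 975)
(fin 1295 6 1039)))))))))))))
(mv 846 (cons (fin 910 7 846)
(mv 1104 (cons (fin 1168 4 911)
(mv 1166 (cons (fin 1102 5 910)
(mv 1167 (cons (fin 1230 5 974)
(mv 1231 (cons (fin 976 6 975)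
(fin 1295 6 1039))))))))))))
(cons (mv 846 (cons (fin 910 7 846)
(mv 848 (cons (fin 912 6 847)
(mv 1166 (cons (fin 1102 5 910)
(mv 1167 (cons (fin 1230 5 974)
(mv 1231 (cons (fin 976 6 975)
(mv 1295 (cons (fin 1104 6 1039)
(mv 1296 (cons (fin 1232 4 1039)
(fin 1360 4 1103)))))))))))))))
(mv 846 (cons (fin 910 7 846)
(mv 848 (cons (fin 912 6 847)
(mv 1166 (cons (fin 1102 5 910)
(mv 1167 (cons (fin 1230 5 974)
(mv 1231 (cons (fin 976 6 975)
(mv 1232 (cons (fin 1168 4 975)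
(fin 1296 4 1039)))))))))))))))
(cons (cons (mv 848 (cons (fin 912 6 847)
(mv 1104 (cons (fin 1168 4 911)
(mv 1166 (cons (fin 1102 5 910)
(mv 1167 (cons (fin 1230 5 974)
(mv 1231 (cons (fin 976 6 975)
(fin 1295 6 1039)))))))))))
(mv 846 (cons (fin 910 7 846)
(mv 848 (cons (fin 912 6 847)
(mv 1168 (cons (fin 1104 4 911)
(mv 1167 (cons (fin 1232 4 975)
(mv 1230 (cons (fin 1166 5 974)
(mv 1231 (cons (fin 1294 5 1038)
(fin 976 6 975))))))))))))))
(cons (mv 846 (cons (fin 910 7 846)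
(mv 912 (cons (fin 848 6 847)
(mv 1167 (cons (fin 976 6 911)
(mv 1168 (cons (fin 1104 4 911)
(fin 1232 4 975)))))))))
(cons (mv 846 (cons (fin 910 7 846)
(mv 848 (cons (fin 912 6 847)
(mv 1166 (cons (fin 1102 5 910)
(mv 1167 (cons (fin 1230 5 974)
(mv 1168 (cons (fin 1104 4 911)
(fin 1232 4 975)))))))))))
(mv 910 (cons (fin 846 7 846)
(mv 912 (cons (fin 909 1 908)
(fin 848 6 847)))))))))))
(cons (mv 1103 (cons (cons (mv 846 (cons (fin 910 7 846)
(mv 782 (cons (fin 847 7 782)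
(mv 845 (cons (fin 909 6 781)
(mv 848 (cons (fin 912 6 847)
(mv 1166 (cons (fin 1102 5 910)
(mv 1167 (cons (fin 1230 5 974)
(mv 1231 (cons (fin 976 6 975)
(mv 1232 (cons (fin 1168 4 975)
(fin 1296 4 1039)))))))))))))))))
(cons (mv 846 (cons (fin 910 7 846)
(mv 782 (cons (fin 847 7 782)
(mv 845 (cons (fin 909 6 781)
(mv 1166 (cons (fin 1102 5 910)
(mv 1167 (cons (fin 1230 5 974)
(mv 1231 (cons (fin 976 6 975)
(mv 1232 (cons (fin 1168 4 975)
(fin 1296 4 1039)))))))))))))))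
(mv 848 (cons (fin 912 6 847)
(mv 784 (cons (fin 847 6 783)
(mv 1166 (cons (fin 1102 5 910)
(mv 1167 (cons (fin 1230 5 974)
(mv 1231 (cons (fin 976 6 975)
(mv 1232 (cons (fin 1168 4 975)
(fin 1296 4 1039)))))))))))))))
(cons (mv 846 (cons (fin 910 7 846)
(mv 782 (cons (fin 847 7 782)
(mv 845 (cons (fin 909 6 781)
(mv 912 (cons (fin 848 6 847)
(mv 1167 (cons (fin 976 6 911)
(mv 1230 (cons (fin 1166 5 974)
(mv 1231 (cons (fin 1294 5 1038)
(mv 1232 (cons (fin 1168 4 975)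
(fin 1296 4 1039)))))))))))))))))
(cons (mv 846 (cons (fin 910 7 846)
(mv 847 (cons (fin 782 7 782)
(mv 848 (cons (fin 784 6 783)
(fin 912 6 847)))))))
(mv 846 (cons (fin 910 7 846)
(mv 848 (cons (fin 912 6 847)
(mv 1166 (cons (fin 1102 5 910)
(mv 1167 (cons (fin 1230 5 974)
(mv 1231 (cons (fin 976 6 975)
(mv 1232 (cons (fin 1168 4 975)
(fin 1296 4 1039)))))))))))))))))
(cons (mv 847 (cons (fin 1104 4 847)
(mv 782 (cons (fin 846 7 782)
(mv 783 (cons (fin 718 7 718)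
(mv 784 (cons (fin 720 6 719)
(fin 848 6 783)))))))))
(mv 847 (cons (fin 1104 4 847)
(mv 783 (cons (fin 976 4 783)
(mv 784 (cons (fin 720 6 719)
(fin 848 6 783)))))))))))))
(mv 974 (cons (fin 972 0 972)
(mv 976 (cons (fin 1036 1 972)
(mv 908 (cons (fin 909 3 908)
(mv 912 (cons (fin 913 2 909)
(mv 848 (cons (fin 784 5 783)
(mv 785 (cons (fin 849 6 784)
(mv 847 (cons (fin 783 7 783)
(mv 1104 (cons (fin 911 7 847)
(mv 1168 (cons (fin 1232 7 975)
(mv 1169 (cons (fin 1105 4 912)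
(fin 1233 4 976))))))))))))))))))))))
(cons (mv 974 (cons (fin 972 0 972)
(mv 976 (cons (fin 1036 1 972)
(mv 912 (cons (fin 913 2 909)
(mv 848 (cons (fin 784 5 783)
(fin 1103 5 847)))))))))
(mv 974 (cons (fin 972 0 972)
(mv 976 (cons (fin 1036 1 972)
(mv 909 (cons (fin 908 3 908)
(mv 910 (cons (fin 977 3 909)
(mv 846 (cons (fin 782 5 781)
(fin 1101 6 845)))))))))))))))
(cons (mv 972 (cons (cons (cons (mv 975 (cons (fin 974 0 972)
(mv 908 (cons (cons (mv 844 (cons (fin 780 4 780)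
(mv 1101 (cons (fin 909 7 844)
(fin 1165 7 908)))))
(mv 1101 (cons (fin 1165 7 908)
(mv 909 (cons (cons (mv 846 (cons (fin 910 6 845)
(mv 845 (cons (fin 782 6 781)
(mv 781 (cons (fin 717 5 716)
(fin 1036 5 780)))))))
(mv 1100 (cons (fin 1164 5 908)
(mv 845 (cons (fin 1036 5 844)
(mv 781 (cons (fin 717 5 716)
(mv 782 (cons (fin 718 6 717)
(fin 846 6 781))))))))))
(cons (mv 1100 (cons (fin 1164 5 908)
(mv 1036 (cons (fin 845 5 844)
(mv 843 (cons (fin 907 7 843)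
(mv 1099 (cons (fin 1163 5 907)
(mv 1098 (cons (fin 1097 2 1033)
(mv 1034 (cons (fin 1033 3 1033)
(mv 1102 (cons (fin 1035 3 1034)
(fin 1166 4 909)))))))))))))))
(mv 910 (cons (fin 846 6 845)
(mv 911 (cons (fin 971 1 907)
(fin 912 1 908)))))))))))
(cons (mv 844 (cons (fin 780 4 780)
(mv 1036 (cons (cons (mv 779 (cons (fin 843 7 779)
(mv 781 (cons (fin 845 6 780)
(mv 1099 (cons (fin 1035 5 843)
(mv 1100 (cons (fin 1163 5 907)
(mv 1164 (cons (fin 909 6 908)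
(fin 1228 6 972)))))))))))
(mv 779 (cons (fin 843 7 779)
(mv 1099 (cons (fin 1035 5 843)
(mv 1100 (cons (fin 1163 5 907)
(mv 1164 (cons (fin 909 6 908)
(fin 1228 6 972))))))))))
(cons (mv 781 (cons (fin 845 6 780)
(mv 1099 (cons (fin 1035 5 843)
(mv 1100 (cons (fin 1163 5 907)
(mv 1164 (cons (fin 909 6 908)
(fin 1228 6 972)))))))))
(cons (mv 779 (cons (fin 843 7 779)
(mv 845 (cons (fin 781 6 780)
(mv 909 (cons (fin 1100 5 844)
(mv 846 (cons (fin 782 6 781)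
(mv 847 (cons (fin 907 1 843)
(fin 848 1 844)))))))))))
(mv 781 (cons (fin 845 6 780)
(mv 843 (cons (fin 779 7 779)
(mv 1035 (cons (fin 1099 5 843)
(mv 1034 (cons (fin 1033 2 969)
(mv 970 (cons (fin 969 3 969)
(mv 1098 (cons (fin 1097 1 1033)
(mv 907 (cons (fin 971 5 842)
(fin 906 6 842)))))))))))))))))))))
(mv 844 (cons (fin 780 4 780)
(mv 1101 (cons (fin 1165 7 908)
(fin 1036 4 844))))))))))
(cons (mv 908 (cons (cons (mv 844 (cons (fin 780 4 780)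
(mv 1101 (cons (fin 909 7 844)
(fin 1165 7 908)))))
(mv 1101 (cons (fin 1165 7 908)
(mv 909 (cons (cons (mv 846 (cons (fin 910 6 845)
(mv 845 (cons (fin 782 6 781)
(mv 781 (cons (fin 717 5 716)
(fin 1036 5 780)))))))
(mv 1100 (cons (fin 1164 5 908)
(mv 845 (cons (fin 1036 5 844)
(mv 781 (cons (fin 717 5 716)
(mv 782 (cons (fin 718 6 717)
(fin 846 6 781))))))))))
(cons (mv 1100 (cons (fin 1164 5 908)
(mv 1036 (cons (fin 845 5 844)
(mv 843 (cons (fin 907 7 843)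
(mv 1099 (cons (fin 1163 5 907)
(mv 1098 (cons (fin 1097 2 1033)
(mv 1034 (cons (fin 1033 3 1033)
(mv 1102 (cons (fin 1035 3 1034)
(fin 1166 4 909)))))))))))))))
(mv 910 (cons (fin 846 6 845)
(mv 911 (cons (fin 971 1 907)
(fin 912 1 908)))))))))))
(cons (mv 844 (cons (fin 780 4 780)
(mv 1036 (cons (cons (mv 779 (cons (fin 843 7 779)
(mv 781 (cons (fin 845 6 780)
(mv 1099 (cons (fin 1035 5 843)
(mv 1100 (cons (fin 1163 5 907)
(mv 1164 (cons (fin 909 6 908)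
(fin 1228 6 972)))))))))))
(mv 779 (cons (fin 843 7 779)
(mv 1099 (cons (fin 1035 5 843)
(mv 1100 (cons (fin 1163 5 907)
(mv 1164 (cons (fin 909 6 908)
(fin 1228 6 972))))))))))
(cons (mv 781 (cons (fin 845 6 780)
(mv 1099 (cons (fin 1035 5 843)
(mv 1100 (cons (fin 1163 5 907)
(mv 1164 (cons (fin 909 6 908)
(fin 1228 6 972)))))))))
(cons (mv 779 (cons (fin 843 7 779)
(mv 845 (cons (fin 781 6 780)
(mv 909 (cons (fin 1100 5 844)
(mv 846 (cons (fin 782 6 781)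
(mv 847 (cons (fin 907 1 843)
(fin 848 1 844)))))))))))
(mv 781 (cons (fin 845 6 780)
(mv 843 (cons (fin 779 7 779)
(mv 1035 (cons (fin 1099 5 843)
(mv 1034 (cons (fin 1033 2 969)
(mv 970 (cons (fin 969 3 969)
(mv 1098 (cons (fin 1097 1 1033)
(mv 907 (cons (fin 971 5 842)
(fin 906 6 842)))))))))))))))))))))
(mv 844 (cons (fin 780 4 780)
(mv 1101 (cons (fin 1165 7 908)
(fin 1036 4 844))))))))
(mv 974 (cons (fin 975 0 972)
(mv 971 (cons (cons (mv 906 (cons (fin 907 3 906)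
(mv 905 (cons (fin 970 3 905)
(mv 910 (cons (fin 911 2 907)
(mv 846 (cons (fin 782 5 781)
(mv 1101 (cons (fin 909 6 845)
(fin 1165 6 909)))))))))))
(mv 906 (cons (fin 907 3 906)
(mv 970 (cons (fin 905 3 905)
(mv 1034 (cons (fin 1033 1 969)
(fin 1035 1 970))))))))
(cons (mv 910 (cons (fin 911 2 907)
(mv 782 (cons (fin 846 5 781)
(mv 909 (cons (fin 970 2 906)
(mv 1034 (cons (fin 1035 1 970)
(mv 1101 (cons (fin 1165 6 909)
(mv 1100 (cons (fin 1164 5 908)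
(mv 845 (cons (fin 1036 5 844)
(mv 781 (cons (fin 718 6 717)
(fin 717 4 717)))))))))))))))))
(mv 906 (cons (fin 907 3 906)
(mv 910 (cons (fin 911 2 907)
(mv 846 (cons (fin 782 5 781)
(mv 1101 (cons (fin 909 6 845)
(fin 1165 6 909))))))))))))))))
(cons (mv 974 (cons (fin 975 0 972)
(mv 971 (cons (cons (mv 906 (cons (fin 907 3 906)
(mv 910 (cons (fin 911 2 907)
(mv 970 (cons (fin 905 3 905)
(fin 909 2 906)))))))
(mv 906 (cons (fin 907 3 906)
(mv 970 (cons (fin 905 3 905)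
(mv 1034 (cons (fin 1033 1 969)
(fin 1035 1 970))))))))
(cons (mv 910 (cons (fin 911 2 907)
(mv 782 (cons (fin 846 5 781)
(mv 970 (cons (fin 909 2 906)
(mv 1034 (cons (fin 1033 1 969)
(fin 1035 1 970)))))))))
(mv 907 (cons (fin 906 3 906)
(mv 910 (cons (fin 911 2 907)
(mv 782 (cons (fin 846 5 781)
(mv 1035 (cons (fin 1034 1 970)
(mv 843 (cons (cons (mv 1036 (cons (fin 779 4 779)
(fin 1100 4 843)))
(mv 778 (cons (fin 842 7 778)
(mv 714 (cons (fin 779 7 714)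
(mv 844 (cons (fin 780 6 779)
(mv 1099 (cons (fin 908 6 843)
(mv 1162 (cons (fin 1098 5 906)
(mv 1163 (cons (fin 1226 5 970)
(mv 1164 (cons (fin 1100 4 907)
(fin 1228 4 971))))))))))))))))
(cons (mv 778 (cons (fin 842 7 778)
(mv 780 (cons (fin 844 6 779)
(mv 1100 (cons (fin 1036 4 843)
(mv 1099 (cons (fin 1164 4 907)
(mv 1162 (cons (fin 1098 5 906)
(mv 1163 (cons (fin 1226 5 970)
(fin 908 6 907)))))))))))))
(mv 778 (cons (fin 842 7 778)
(mv 779 (cons (fin 714 7 714)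
(fin 1036 4 779)))))))))))))))))))))
(cons (mv 974 (cons (fin 975 0 972)
(mv 910 (cons (cons (mv 782 (cons (fin 846 5 781)
(mv 911 (cons (fin 971 2 907)
(mv 912 (cons (fin 909 1 908)
(fin 913 1 909)))))))
(mv 846 (cons (fin 782 5 781)
(mv 1101 (cons (fin 909 6 845)
(fin 1165 6 909))))))
(cons (mv 911 (cons (fin 971 2 907)
(mv 912 (cons (fin 909 1 908)
(fin 913 1 909)))))
(mv 782 (cons (fin 846 5 781)
(mv 971 (cons (fin 911 2 907)
(mv 906 (cons (fin 907 3 906)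
(mv 970 (cons (fin 905 3 905)
(mv 1034 (cons (fin 1033 1 969)
(fin 1035 1 970))))))))))))))))
(mv 974 (cons (fin 975 0 972)
(mv 971 (cons (cons (mv 906 (cons (fin 907 3 906)
(mv 910 (cons (fin 911 2 907)
(mv 782 (cons (fin 846 5 781)
(mv 970 (cons (fin 905 3 905)
(mv 1034 (cons (fin 1033 1 969)
(fin 1035 1 970)))))))))))
(cons (mv 907 (cons (fin 906 3 906)
(mv 910 (cons (fin 911 2 907)
(mv 782 (cons (fin 846 5 781)
(mv 1101 (cons (fin 1165 6 909)
(mv 1036 (cons (cons (mv 779 (cons (fin 843 4 779)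
(mv 908 (cons (fin 844 4 844)
(mv 969 (cons (fin 970 0 969)
(mv 1100 (cons (fin 1164 7 907)
(mv 1099 (cons (fin 1163 5 907)
(mv 1098 (cons (fin 1097 2 1033)
(mv 1162 (cons (fin 1161 1 1097)
(fin 1035 5 906)))))))))))))))
(mv 843 (cons (fin 779 4 779)
(mv 844 (cons (fin 908 4 844)
(mv 780 (cons (fin 1035 6 779)
(mv 652 (cons (fin 716 5 651)
(mv 781 (cons (fin 783 1 779)
(mv 842 (cons (fin 841 2 777)
(fin 845 2 778))))))))))))))
(cons (mv 843 (cons (fin 779 4 779)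
(mv 1100 (cons (fin 1164 7 907)
(fin 1035 4 843)))))
(cons (mv 908 (cons (fin 844 4 844)
(mv 969 (cons (fin 970 0 969)
(mv 1100 (cons (fin 1164 7 907)
(mv 1099 (cons (fin 1163 5 907)
(mv 1098 (cons (fin 1097 2 1033)
(mv 1162 (cons (fin 1161 1 1097)
(fin 1035 5 906)))))))))))))
(mv 843 (cons (fin 779 4 779)
(mv 908 (cons (fin 1100 7 843)
(fin 844 4 844)))))))))))))))))
(mv 906 (cons (fin 907 3 906)
(mv 970 (cons (fin 905 3 905)
(mv 1034 (cons (fin 1033 1 969)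
(fin 1035 1 970)))))))))
(cons (cons (mv 906 (cons (fin 907 3 906)
(mv 910 (cons (fin 911 2 907)
(mv 782 (cons (fin 846 5 781)
(mv 970 (cons (fin 905 3 905)
(mv 969 (cons (fin 1036 0 969)
(mv 1033 (cons (fin 1032 1 968)
(fin 1034 1 969)))))))))))))
(mv 910 (cons (fin 911 2 907)
(mv 782 (cons (fin 846 5 781)
(mv 1034 (cons (fin 1035 1 970)
(mv 970 (cons (fin 1033 1 969)
(mv 1036 (cons (fin 969 0 969)
(mv 1101 (cons (fin 1165 6 909)
(mv 908 (cons (fin 844 4 844)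
(mv 1100 (cons (mv 907 (cons (fin 843 7 843)
(fin 1164 7 907)))
(cons (mv 1163 (cons (fin 1099 5 907)
(mv 1164 (cons (fin 1227 5 971)
(fin 1228 6 972)))))
(mv 907 (cons (fin 843 7 843)
(mv 1098 (cons (fin 1162 6 906)
(mv 1099 (cons (fin 1097 2 1033)
(fin 1163 5 907)))))))))))))))))))))))))
(cons (mv 910 (cons (fin 911 2 907)
(mv 782 (cons (fin 846 5 781)
(mv 1034 (cons (fin 1035 1 970)
(mv 970 (cons (fin 1033 1 969)
(mv 905 (cons (fin 906 3 905)
(mv 969 (cons (fin 904 3 904)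
(fin 1036 0 969)))))))))))))
(mv 907 (cons (fin 906 3 906)
(mv 910 (cons (fin 911 2 907)
(mv 782 (cons (fin 846 5 781)
(mv 1035 (cons (fin 1034 1 970)
(mv 1101 (cons (fin 1165 6 909)
(mv 908 (cons (mv 844 (cons (fin 780 5 779)
(fin 1099 6 843)))
(cons (mv 1099 (cons (fin 1163 6 907)
(mv 1098 (cons (fin 1162 5 906)
(mv 1100 (cons (fin 1164 4 907)
(mv 1036 (cons (fin 1097 2 1033)
(fin 843 7 843)))))))))
(mv 844 (cons (fin 780 5 779)
(fin 1036 4 844)))))))))))))))))))))))))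
(cons (cons (mv 974 (cons (fin 975 0 972)
(mv 1101 (cons (cons (mv 1165 (cons (fin 908 7 908)
(fin 910 6 909)))
(mv 909 (cons (cons (mv 844 (cons (fin 908 7 844)
(mv 845 (cons (fin 780 7 780)
(mv 846 (cons (fin 782 6 781)
(fin 910 6 845)))))))
(mv 846 (cons (fin 910 6 845)
(mv 845 (cons (fin 782 6 781)
(mv 1036 (cons (fin 781 5 780)
(fin 1100 5 844))))))))
(cons (mv 844 (cons (fin 908 7 844)
(mv 845 (cons (fin 780 7 780)
(mv 1036 (cons (fin 781 5 780)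
(fin 1100 5 844)))))))
(mv 846 (cons (fin 910 6 845)
(mv 908 (cons (fin 844 7 844)
(mv 907 (cons (fin 906 0 906)
(mv 1100 (cons (fin 1164 5 908)
(mv 1036 (cons (fin 843 7 843)
(mv 1034 (cons (fin 1035 2 970)
(mv 1099 (cons (fin 1163 5 907)
(mv 1098 (cons (fin 1033 3 1033)
(fin 1097 2 1033)))))))))))))))))))))
(cons (mv 910 (cons (fin 1165 6 909)
(mv 846 (cons (fin 782 5 781)
(fin 909 6 845)))))
(mv 908 (cons (fin 1165 7 908)
(mv 844 (cons (fin 909 7 844)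
(fin 780 4 780))))))))))
(cons (mv 974 (cons (fin 975 0 972)
(mv 908 (cons (cons (mv 844 (cons (fin 780 4 780)
(mv 1101 (cons (fin 909 7 844)
(fin 1165 7 908)))))
(mv 1101 (cons (fin 1165 7 908)
(mv 971 (cons (cons (mv 906 (cons (fin 907 3 906)
(mv 970 (cons (fin 905 3 905)
(mv 969 (cons (fin 909 2 905)
(fin 1036 0 969)))))))
(mv 1034 (cons (fin 1035 1 970)
(mv 970 (cons (fin 1033 1 969)
(mv 969 (cons (fin 909 2 905)
(fin 1036 0 969))))))))
(cons (mv 906 (cons (fin 907 3 906)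
(mv 970 (cons (fin 905 3 905)
(mv 1034 (cons (fin 1033 1 969)
(fin 1035 1 970)))))))
(mv 907 (cons (fin 906 3 906)
(mv 1035 (cons (fin 1034 1 970)
(mv 1099 (cons (fin 1163 6 907)
(mv 1098 (cons (fin 1162 5 906)
(mv 1100 (cons (fin 1164 4 907)
(mv 1036 (cons (fin 1097 2 1033)
(fin 843 7 843)))))))))))))))))))
(cons (mv 780 (cons (fin 844 4 780)
(mv 971 (cons (cons (mv 906 (cons (fin 907 3 906)
(mv 970 (cons (fin 905 3 905)
(mv 969 (cons (fin 909 2 905)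
(fin 1036 0 969)))))))
(mv 1034 (cons (fin 1035 1 970)
(mv 970 (cons (fin 1033 1 969)
(mv 969 (cons (fin 909 2 905)
(fin 1036 0 969))))))))
(cons (mv 907 (cons (fin 906 3 906)
(mv 1035 (cons (fin 1034 1 970)
(mv 1099 (cons (fin 1163 6 907)
(mv 1098 (cons (fin 1162 5 906)
(mv 1100 (cons (fin 1164 4 907)
(mv 1036 (cons (fin 1097 2 1033)
(fin 843 7 843)))))))))))))
(mv 906 (cons (fin 907 3 906)
(mv 970 (cons (fin 905 3 905)
(mv 1034 (cons (fin 1033 1 969)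
(fin 1035 1 970))))))))))))
(mv 844 (cons (fin 780 4 780)
(mv 1101 (cons (fin 1165 7 908)
(fin 1036 4 844))))))))))
(mv 974 (cons (fin 975 0 972)
(mv 910 (cons (cons (mv 782 (cons (fin 846 5 781)
(mv 911 (cons (fin 971 2 907)
(mv 912 (cons (fin 909 1 908)
(fin 913 1 909)))))))
(mv 846 (cons (fin 782 5 781)
(mv 1101 (cons (fin 909 6 845)
(fin 1165 6 909))))))
(cons (mv 911 (cons (fin 971 2 907)
(mv 912 (cons (fin 909 1 908)
(fin 913 1 909)))))
(mv 782 (cons (fin 846 5 781)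
(mv 971 (cons (fin 911 2 907)
(mv 906 (cons (fin 907 3 906)
(mv 970 (cons (fin 905 3 905)
(mv 969 (cons (fin 1036 0 969)
(mv 1033 (cons (fin 1032 1 968)
(fin 1034 1 969))))))))))))))))))))
(cons (mv 974 (cons (fin 975 0 972)
(mv 910 (cons (cons (mv 782 (cons (fin 846 5 781)
(mv 911 (cons (fin 971 2 907)
(mv 912 (cons (fin 909 1 908)
(fin 913 1 909)))))))
(mv 846 (cons (fin 782 5 781)
(mv 1101 (cons (fin 909 6 845)
(fin 1165 6 909))))))
(cons (mv 911 (cons (fin 971 2 907)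
(mv 912 (cons (fin 909 1 908)
(fin 913 1 909)))))
(mv 782 (cons (fin 846 5 781)
(mv 971 (cons (fin 911 2 907)
(mv 907 (cons (fin 906 3 906)
(mv 1101 (cons (fin 1165 6 909)
(mv 1036 (cons (cons (mv 779 (cons (fin 843 4 779)
(mv 908 (cons (fin 844 4 844)
(mv 969 (cons (fin 970 0 969)
(mv 1100 (cons (fin 1164 7 907)
(mv 1099 (cons (fin 1163 5 907)
(mv 1098 (cons (fin 1097 2 1033)
(mv 1162 (cons (fin 1161 1 1097)
(fin 1035 5 906)))))))))))))))
(mv 843 (cons (fin 779 4 779)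
(mv 844 (cons (fin 908 4 844)
(mv 780 (cons (fin 1035 6 779)
(mv 652 (cons (fin 716 5 651)
(mv 781 (cons (fin 783 1 779)
(mv 842 (cons (fin 841 2 777)
(fin 845 2 778))))))))))))))
(cons (mv 843 (cons (fin 779 4 779)
(mv 1100 (cons (fin 1164 7 907)
(fin 1035 4 843)))))
(cons (mv 908 (cons (fin 844 4 844)
(mv 969 (cons (fin 970 0 969)
(mv 1100 (cons (fin 1164 7 907)
(mv 1099 (cons (fin 1163 5 907)
(mv 1098 (cons (fin 1097 2 1033)
(mv 1162 (cons (fin 1161 1 1097)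
(fin 1035 5 906)))))))))))))
(mv 843 (cons (fin 779 4 779)
(mv 908 (cons (fin 1100 7 843)
(fin 844 4 844))))))))))))))))))))))
(cons (mv 974 (cons (fin 975 0 972)
(mv 910 (cons (cons (mv 782 (cons (fin 846 5 781)
(mv 911 (cons (fin 971 2 907)
(mv 912 (cons (fin 909 1 908)
(fin 913 1 909)))))))
(mv 846 (cons (fin 782 5 781)
(mv 1101 (cons (fin 909 6 845)
(fin 1165 6 909))))))
(cons (mv 911 (cons (fin 971 2 907)
(mv 912 (cons (fin 909 1 908)
(fin 913 1 909)))))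
(mv 782 (cons (fin 846 5 781)
(mv 971 (cons (fin 911 2 907)
(mv 1034 (cons (fin 1035 1 970)
(mv 970 (cons (fin 1033 1 969)
(mv 905 (cons (fin 906 3 905)
(mv 969 (cons (fin 904 3 904)
(fin 1036 0 969))))))))))))))))))
(mv 974 (cons (fin 975 0 972)
(mv 910 (cons (cons (mv 782 (cons (fin 846 5 781)
(mv 911 (cons (fin 971 2 907)
(mv 912 (cons (fin 909 1 908)
(fin 913 1 909)))))))
(mv 846 (cons (fin 782 5 781)
(mv 1101 (cons (fin 909 6 845)
(fin 1165 6 909))))))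
(cons (mv 911 (cons (fin 971 2 907)
(mv 912 (cons (fin 909 1 908)
(fin 913 1 909)))))
(mv 782 (cons (fin 846 5 781)
(mv 971 (cons (fin 911 2 907)
(mv 1034 (cons (fin 1035 1 970)
(mv 970 (cons (fin 1033 1 969)
(mv 1036 (cons (fin 969 0 969)
(mv 1101 (cons (fin 1165 6 909)
(mv 908 (cons (fin 844 4 844)
(mv 1100 (cons (mv 907 (cons (fin 843 7 843)
(fin 1164 7 907)))
(cons (mv 1163 (cons (fin 1099 5 907)
(mv 1164 (cons (fin 1227 5 971)
(fin 1228 6 972)))))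
(mv 907 (cons (fin 843 7 843)
(mv 1098 (cons (fin 1162 6 906)
(mv 1099 (cons (fin 1097 2 1033)
(fin 1163 5 907))))))))))))))))))))))))))))))))))
(mv 975 (cons (cons (mv 974 (cons (fin 972 0 972)
(mv 976 (cons (fin 1036 1 972)
(mv 908 (cons (fin 909 3 908)
(mv 912 (cons (fin 913 2 909)
(mv 848 (cons (fin 784 5 783)
(fin 1103 5 847)))))))))))
(cons (mv 911 (cons (cons (mv 847 (cons (fin 1104 4 847)
(mv 782 (cons (fin 846 7 782)
(mv 783 (cons (fin 718 7 718)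
(fin 976 4 783)))))))
(mv 1103 (cons (cons (mv 848 (cons (fin 912 6 847)
(mv 1102 (cons (fin 1166 5 910)
(mv 1101 (cons (fin 1100 2 1036)
(mv 1104 (cons (fin 1036 3 1036)
(fin 1168 4 911)))))))))
(cons (mv 848 (cons (fin 912 6 847)
(mv 1166 (cons (fin 1102 5 910)
(mv 1167 (cons (fin 1230 5 974)
(mv 1231 (cons (fin 976 6 975)
(mv 1295 (cons (fin 1104 6 1039)
(mv 1296 (cons (fin 1232 4 1039)
(fin 1360 4 1103)))))))))))))
(mv 848 (cons (fin 912 6 847)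
(mv 1166 (cons (fin 1102 5 910)
(mv 1167 (cons (fin 1230 5 974)
(mv 1231 (cons (fin 976 6 975)
(mv 1232 (cons (fin 1168 4 975)
(fin 1296 4 1039)))))))))))))
(cons (mv 1102 (cons (fin 1166 5 910)
(mv 1101 (cons (fin 1100 2 1036)
(mv 1104 (cons (fin 1036 3 1036)
(fin 1168 4 911)))))))
(cons (mv 848 (cons (fin 912 6 847)
(mv 1168 (cons (fin 1104 4 911)
(mv 1167 (cons (fin 1232 4 975)
(mv 1230 (cons (fin 1166 5 974)
(mv 1231 (cons (fin 1294 5 1038)
(fin 976 6 975)))))))))))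
(mv 912 (cons (fin 848 6 847)
(mv 1167 (cons (fin 976 6 911)
(mv 1168 (cons (fin 1104 4 911)
(fin 1232 4 975))))))))))))
(cons (mv 847 (cons (cons (mv 782 (cons (fin 846 7 782)
(mv 783 (cons (fin 718 7 718)
(fin 976 4 783)))))
(mv 782 (cons (fin 846 7 782)
(mv 848 (cons (fin 784 6 783)
(mv 1103 (cons (fin 912 6 847)
(mv 1166 (cons (fin 1102 5 910)
(mv 1167 (cons (fin 1230 5 974)
(mv 1231 (cons (fin 976 6 975)
(mv 1232 (cons (fin 1168 4 975)
(fin 1296 4 1039))))))))))))))))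
(cons (mv 783 (cons (fin 976 4 783)
(mv 784 (cons (fin 720 6 719)
(fin 848 6 783)))))
(mv 782 (cons (fin 846 7 782)
(mv 783 (cons (fin 718 7 718)
(mv 784 (cons (fin 720 6 719)
(fin 848 6 783))))))))))
(mv 847 (cons (fin 1104 4 847)
(mv 782 (cons (fin 846 7 782)
(mv 783 (cons (fin 718 7 718)
(mv 784 (cons (fin 720 6 719)
(fin 848 6 783))))))))))))
(mv 972 (cons (fin 974 0 972)
(mv 908 (cons (cons (mv 844 (cons (fin 780 4 780)
(mv 1101 (cons (fin 909 7 844)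
(fin 1165 7 908)))))
(mv 1101 (cons (fin 1165 7 908)
(mv 1102 (cons (cons (mv 909 (cons (fin 1166 4 909)
(mv 1100 (cons (fin 1103 2 1036)
(fin 1164 5 908)))))
(mv 909 (cons (fin 1166 4 909)
(mv 1100 (cons (fin 1164 5 908)
(mv 845 (cons (fin 1036 5 844)
(mv 781 (cons (fin 717 5 716)
(mv 782 (cons (fin 718 6 717)
(fin 846 6 781))))))))))))
(cons (mv 1100 (cons (fin 1103 2 1036)
(mv 909 (cons (fin 1164 5 908)
(mv 845 (cons (fin 1036 5 844)
(mv 781 (cons (fin 717 5 716)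
(mv 782 (cons (fin 718 6 717)
(fin 846 6 781)))))))))))
(cons (mv 1166 (cons (fin 909 4 909)
(mv 911 (cons (fin 1103 5 910)
(mv 847 (cons (fin 1104 4 847)
(mv 782 (cons (fin 846 7 782)
(mv 783 (cons (fin 718 7 718)
(mv 784 (cons (fin 720 6 719)
(fin 848 6 783)))))))))))))
(mv 1103 (cons (fin 1100 2 1036)
(mv 911 (cons (fin 1166 5 910)
(mv 1104 (cons (fin 1036 3 1036)
(fin 847 4 847))))))))))))))
(cons (mv 844 (cons (fin 780 4 780)
(mv 1036 (cons (cons (mv 779 (cons (fin 843 7 779)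
(mv 781 (cons (fin 845 6 780)
(mv 1099 (cons (fin 1035 5 843)
(mv 1100 (cons (fin 1163 5 907)
(mv 1164 (cons (fin 909 6 908)
(fin 1228 6 972)))))))))))
(mv 779 (cons (fin 843 7 779)
(mv 1099 (cons (fin 1035 5 843)
(mv 1100 (cons (fin 1163 5 907)
(mv 1164 (cons (fin 909 6 908)
(fin 1228 6 972))))))))))
(cons (mv 779 (cons (fin 843 7 779)
(mv 845 (cons (fin 781 6 780)
(mv 909 (cons (fin 1100 5 844)
(mv 846 (cons (fin 782 6 781)
(mv 847 (cons (fin 907 1 843)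
(fin 848 1 844)))))))))))
(cons (mv 781 (cons (fin 845 6 780)
(mv 1099 (cons (fin 1035 5 843)
(mv 1100 (cons (fin 1163 5 907)
(mv 1164 (cons (fin 909 6 908)
(fin 1228 6 972)))))))))
(mv 781 (cons (fin 845 6 780)
(mv 843 (cons (fin 779 7 779)
(mv 1035 (cons (fin 1099 5 843)
(mv 1034 (cons (fin 1033 2 969)
(mv 970 (cons (fin 969 3 969)
(mv 1098 (cons (fin 1097 1 1033)
(mv 907 (cons (fin 971 5 842)
(fin 906 6 842)))))))))))))))))))))
(mv 844 (cons (fin 780 4 780)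
(mv 1101 (cons (fin 1165 7 908)
(fin 1036 4 844))))))))))))
(cons (mv 974 (cons (fin 972 0 972)
(mv 911 (cons (cons (mv 847 (cons (fin 1104 4 847)
(mv 782 (cons (fin 846 7 782)
(mv 783 (cons (fin 718 7 718)
(fin 976 4 783)))))))
(mv 1103 (cons (cons (mv 848 (cons (fin 912 6 847)
(mv 1104 (cons (fin 1168 4 911)
(mv 1166 (cons (fin 1102 5 910)
(mv 1167 (cons (fin 1230 5 974)
(mv 1231 (cons (fin 976 6 975)
(fin 1295 6 1039)))))))))))
(cons (mv 1104 (cons (fin 1168 4 911)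
(mv 1166 (cons (fin 1102 5 910)
(mv 1167 (cons (fin 1230 5 974)
(mv 1231 (cons (fin 976 6 975)
(fin 1295 6 1039)))))))))
(mv 848 (cons (fin 912 6 847)
(mv 1166 (cons (fin 1102 5 910)
(mv 1167 (cons (fin 1230 5 974)
(mv 1231 (cons (fin 976 6 975)
(mv 1295 (cons (fin 1104 6 1039)
(mv 1296 (cons (fin 1232 4 1039)
(fin 1360 4 1103)))))))))))))))
(cons (mv 848 (cons (fin 912 6 847)
(mv 1166 (cons (fin 1102 5 910)
(mv 1167 (cons (fin 1230 5 974)
(mv 1231 (cons (fin 976 6 975)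
(mv 1232 (cons (fin 1168 4 975)
(fin 1296 4 1039)))))))))))
(cons (mv 912 (cons (fin 848 6 847)
(mv 913 (cons (fin 914 1 910)
(fin 976 2 909)))))
(mv 848 (cons (fin 912 6 847)
(mv 1166 (cons (fin 1102 5 910)
(mv 1167 (cons (fin 1230 5 974)
(mv 1168 (cons (fin 1104 4 911)
(fin 1232 4 975))))))))))))))
(cons (mv 912 (cons (mv 913 (cons (fin 914 1 910)
(fin 976 2 909)))
(cons (mv 848 (cons (fin 1103 6 847)
(mv 784 (cons (fin 720 5 719)
(fin 976 5 783)))))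
(mv 848 (cons (fin 1103 6 847)
(mv 784 (cons (fin 720 5 719)
(fin 847 6 783))))))))
(mv 847 (cons (fin 1104 4 847)
(mv 782 (cons (fin 846 7 782)
(mv 783 (cons (fin 718 7 718)
(mv 784 (cons (fin 720 6 719)
(fin 848 6 783))))))))))))))
(cons (mv 974 (cons (fin 972 0 972)
(mv 976 (cons (fin 1036 1 972)
(mv 908 (cons (fin 909 3 908)
(mv 912 (cons (fin 913 2 909)
(mv 848 (cons (fin 784 5 783)
(mv 785 (cons (fin 849 6 784)
(mv 847 (cons (fin 783 7 783)
(mv 1104 (cons (fin 911 7 847)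
(mv 1168 (cons (fin 1232 7 975)
(mv 1169 (cons (fin 1105 4 912)
(fin 1233 4 976)))))))))))))))))))))
(mv 972 (cons (fin 974 0 972)
(mv 908 (cons (cons (mv 844 (cons (fin 780 4 780)
(mv 1101 (cons (fin 909 7 844)
(fin 1165 7 908)))))
(mv 1101 (cons (fin 1165 7 908)
(mv 1102 (cons (cons (mv 909 (cons (fin 1166 4 909)
(mv 1100 (cons (fin 1103 2 1036)
(fin 1164 5 908)))))
(mv 909 (cons (fin 1166 4 909)
(mv 1100 (cons (fin 1164 5 908)
(mv 845 (cons (fin 1036 5 844)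
(mv 781 (cons (fin 717 5 716)
(mv 782 (cons (fin 718 6 717)
(fin 846 6 781))))))))))))
(cons (mv 1100 (cons (fin 1103 2 1036)
(mv 909 (cons (fin 1164 5 908)
(mv 845 (cons (fin 1036 5 844)
(mv 781 (cons (fin 717 5 716)
(mv 782 (cons (fin 718 6 717)
(fin 846 6 781)))))))))))
(cons (mv 1166 (cons (fin 909 4 909)
(mv 911 (cons (fin 1103 5 910)
(mv 847 (cons (fin 1104 4 847)
(mv 782 (cons (fin 846 7 782)
(mv 783 (cons (fin 718 7 718)
(fin 976 4 783)))))))))))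
(mv 1103 (cons (fin 1100 2 1036)
(mv 911 (cons (fin 1166 5 910)
(mv 1104 (cons (fin 1036 3 1036)
(fin 847 4 847))))))))))))))
(cons (mv 844 (cons (fin 780 4 780)
(mv 1036 (cons (cons (mv 779 (cons (fin 843 7 779)
(mv 781 (cons (fin 845 6 780)
(mv 1099 (cons (fin 1035 5 843)
(mv 1100 (cons (fin 1163 5 907)
(mv 1164 (cons (fin 909 6 908)
(fin 1228 6 972)))))))))))
(mv 779 (cons (fin 843 7 779)
(mv 1099 (cons (fin 1035 5 843)
(mv 1100 (cons (fin 1163 5 907)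
(mv 1164 (cons (fin 909 6 908)
(fin 1228 6 972))))))))))
(cons (mv 779 (cons (fin 843 7 779)
(mv 845 (cons (fin 781 6 780)
(mv 909 (cons (fin 1100 5 844)
(mv 846 (cons (fin 782 6 781)
(mv 907 (cons (fin 847 1 843)
(fin 906 2 842)))))))))))
(cons (mv 781 (cons (fin 845 6 780)
(mv 1099 (cons (fin 1035 5 843)
(mv 1100 (cons (fin 1163 5 907)
(mv 1164 (cons (fin 909 6 908)
(fin 1228 6 972)))))))))
(mv 781 (cons (fin 845 6 780)
(mv 843 (cons (fin 779 7 779)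
(mv 1035 (cons (fin 1099 5 843)
(mv 1034 (cons (fin 1033 2 969)
(mv 970 (cons (fin 969 3 969)
(mv 1098 (cons (fin 1097 1 1033)
(mv 907 (cons (fin 971 5 842)
(fin 906 6 842)))))))))))))))))))))
(mv 844 (cons (fin 780 4 780)
(mv 1101 (cons (fin 1165 7 908)
(fin 1036 4 844))))))))))))))))
(cons (cons (mv 975 (cons (cons (mv 974 (cons (fin 972 0 972)
(mv 976 (cons (fin 1036 1 972)
(mv 912 (cons (fin 913 2 909)
(mv 848 (cons (fin 784 5 783)
(fin 1103 5 847)))))))))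
(cons (mv 911 (cons (cons (mv 847 (cons (fin 1104 4 847)
(mv 782 (cons (fin 846 7 782)
(mv 783 (cons (fin 718 7 718)
(fin 976 4 783)))))))
(mv 1103 (cons (cons (mv 846 (cons (fin 910 7 846)
(mv 848 (cons (fin 912 6 847)
(mv 1102 (cons (fin 1166 5 910)
(mv 1101 (cons (fin 1100 2 1036)
(mv 1104 (cons (fin 1036 3 1036)
(fin 1168 4 911)))))))))))
(cons (mv 846 (cons (fin 910 7 846)
(mv 848 (cons (fin 912 6 847)
(mv 1166 (cons (fin 1102 5 910)
(mv 1167 (cons (fin 1230 5 974)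
(mv 1231 (cons (fin 976 6 975)
(mv 1295 (cons (fin 1104 6 1039)
(mv 1296 (cons (fin 1232 4 1039)
(fin 1360 4 1103)))))))))))))))
(mv 846 (cons (fin 910 7 846)
(mv 848 (cons (fin 912 6 847)
(mv 1166 (cons (fin 1102 5 910)
(mv 1167 (cons (fin 1230 5 974)
(mv 1231 (cons (fin 976 6 975)
(mv 1232 (cons (fin 1168 4 975)
(fin 1296 4 1039)))))))))))))))
(cons (cons (mv 846 (cons (fin 910 7 846)
(mv 1102 (cons (fin 1166 5 910)
(mv 1101 (cons (fin 1100 2 1036)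
(mv 1104 (cons (fin 1036 3 1036)
(fin 1168 4 911)))))))))
(mv 846 (cons (fin 910 7 846)
(mv 848 (cons (fin 912 6 847)
(mv 1168 (cons (fin 1104 4 911)
(mv 1167 (cons (fin 1232 4 975)
(mv 1230 (cons (fin 1166 5 974)
(mv 1231 (cons (fin 1294 5 1038)
(fin 976 6 975))))))))))))))
(cons (mv 846 (cons (fin 910 7 846)
(mv 912 (cons (fin 848 6 847)
(mv 1167 (cons (fin 976 6 911)
(mv 1168 (cons (fin 1104 4 911)
(fin 1232 4 975)))))))))
(mv 848 (cons (fin 912 6 847)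
(mv 1102 (cons (fin 1166 5 910)
(mv 1101 (cons (fin 1100 2 1036)
(mv 1104 (cons (fin 1036 3 1036)
(fin 1168 4 911))))))))))))))
(cons (mv 1103 (cons (cons (mv 846 (cons (fin 910 7 846)
(mv 782 (cons (fin 847 7 782)
(mv 845 (cons (fin 909 6 781)
(mv 848 (cons (fin 912 6 847)
(mv 1166 (cons (fin 1102 5 910)
(mv 1167 (cons (fin 1230 5 974)
(mv 1231 (cons (fin 976 6 975)
(mv 1232 (cons (fin 1168 4 975)
(fin 1296 4 1039)))))))))))))))))
(mv 846 (cons (fin 910 7 846)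
(mv 782 (cons (fin 847 7 782)
(mv 845 (cons (fin 909 6 781)
(mv 1166 (cons (fin 1102 5 910)
(mv 1167 (cons (fin 1230 5 974)
(mv 1231 (cons (fin 976 6 975)
(mv 1232 (cons (fin 1168 4 975)
(fin 1296 4 1039))))))))))))))))
(cons (mv 848 (cons (fin 912 6 847)
(mv 784 (cons (fin 847 6 783)
(mv 1166 (cons (fin 1102 5 910)
(mv 1167 (cons (fin 1230 5 974)
(mv 1231 (cons (fin 976 6 975)
(mv 1232 (cons (fin 1168 4 975)
(fin 1296 4 1039)))))))))))))
(cons (mv 846 (cons (fin 910 7 846)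
(mv 847 (cons (fin 782 7 782)
(mv 848 (cons (fin 784 6 783)
(fin 912 6 847)))))))
(mv 846 (cons (fin 910 7 846)
(mv 848 (cons (fin 912 6 847)
(mv 1166 (cons (fin 1102 5 910)
(mv 1167 (cons (fin 1230 5 974)
(mv 1231 (cons (fin 976 6 975)
(mv 1232 (cons (fin 1168 4 975)
(fin 1296 4 1039)))))))))))))))))
(cons (mv 847 (cons (fin 1104 4 847)
(mv 782 (cons (fin 846 7 782)
(mv 783 (cons (fin 718 7 718)
(mv 784 (cons (fin 720 6 719)
(fin 848 6 783)))))))))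
(mv 847 (cons (fin 1104 4 847)
(mv 783 (cons (fin 976 4 783)
(mv 784 (cons (fin 720 6 719)
(fin 848 6 783)))))))))))
(mv 972 (cons (fin 974 0 972)
(mv 911 (cons (cons (mv 847 (cons (fin 1104 4 847)
(mv 782 (cons (fin 846 7 782)
(mv 783 (cons (fin 718 7 718)
(mv 784 (cons (fin 720 6 719)
(fin 848 6 783)))))))))
(mv 1103 (cons (cons (mv 846 (cons (fin 910 7 846)
(mv 848 (cons (fin 912 6 847)
(mv 1102 (cons (fin 1166 5 910)
(mv 1101 (cons (fin 1100 2 1036)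
(mv 1104 (cons (fin 1036 3 1036)
(fin 1168 4 911)))))))))))
(mv 910 (cons (fin 846 7 846)
(mv 912 (cons (fin 909 1 908)
(fin 848 6 847))))))
(cons (mv 848 (cons (fin 912 6 847)
(mv 1102 (cons (fin 1166 5 910)
(mv 1101 (cons (fin 1100 2 1036)
(mv 1104 (cons (fin 1036 3 1036)
(fin 1168 4 911)))))))))
(mv 846 (cons (fin 910 7 846)
(mv 1102 (cons (fin 1166 5 910)
(mv 1101 (cons (fin 1100 2 1036)
(mv 1104 (cons (fin 1036 3 1036)
(fin 1168 4 911)))))))))))))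
(cons (mv 910 (cons (cons (mv 846 (cons (fin 1103 7 846)
(mv 782 (cons (fin 847 7 782)
(fin 718 4 718)))))
(mv 912 (cons (fin 909 1 908)
(mv 848 (cons (fin 1103 6 847)
(mv 784 (cons (fin 720 5 719)
(fin 847 6 783))))))))
(cons (mv 909 (cons (fin 912 1 908)
(mv 846 (cons (fin 1101 6 845)
(mv 782 (cons (fin 847 7 782)
(fin 718 5 717)))))))
(mv 846 (cons (fin 1103 7 846)
(mv 909 (cons (fin 912 1 908)
(fin 1101 6 845))))))))
(mv 1104 (cons (fin 847 4 847)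
(mv 1168 (cons (fin 1232 7 975)
(fin 1103 4 911))))))))))))
(cons (mv 972 (cons (fin 974 0 972)
(mv 911 (cons (cons (mv 847 (cons (fin 1104 4 847)
(mv 782 (cons (fin 846 7 782)
(mv 783 (cons (fin 718 7 718)
(fin 976 4 783)))))))
(mv 1103 (cons (cons (cons (mv 846 (cons (fin 910 7 846)
(mv 848 (cons (fin 912 6 847)
(mv 1104 (cons (fin 1168 4 911)
(mv 1166 (cons (fin 1102 5 910)
(mv 1167 (cons (fin 1230 5 974)
(mv 1231 (cons (fin 976 6 975)
(fin 1295 6 1039)))))))))))))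
(mv 846 (cons (fin 910 7 846)
(mv 1104 (cons (fin 1168 4 911)
(mv 1166 (cons (fin 1102 5 910)
(mv 1167 (cons (fin 1230 5 974)
(mv 1231 (cons (fin 976 6 975)
(fin 1295 6 1039))))))))))))
(cons (mv 846 (cons (fin 910 7 846)
(mv 848 (cons (fin 912 6 847)
(mv 1166 (cons (fin 1102 5 910)
(mv 1167 (cons (fin 1230 5 974)
(mv 1231 (cons (fin 976 6 975)
(mv 1295 (cons (fin 1104 6 1039)
(mv 1296 (cons (fin 1232 4 1039)
(fin 1360 4 1103)))))))))))))))
(mv 846 (cons (fin 910 7 846)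
(mv 848 (cons (fin 912 6 847)
(mv 1166 (cons (fin 1102 5 910)
(mv 1167 (cons (fin 1230 5 974)
(mv 1231 (cons (fin 976 6 975)
(mv 1232 (cons (fin 1168 4 975)
(fin 1296 4 1039)))))))))))))))
(cons (cons (mv 848 (cons (fin 912 6 847)
(mv 1104 (cons (fin 1168 4 911)
(mv 1166 (cons (fin 1102 5 910)
(mv 1167 (cons (fin 1230 5 974)
(mv 1231 (cons (fin 976 6 975)
(fin 1295 6 1039)))))))))))
(mv 846 (cons (fin 910 7 846)
(mv 912 (cons (fin 848 6 847)
(mv 1167 (cons (fin 976 6 911)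
(mv 1168 (cons (fin 1104 4 911)
(fin 1232 4 975))))))))))
(cons (mv 846 (cons (fin 910 7 846)
(mv 848 (cons (fin 912 6 847)
(mv 1166 (cons (fin 1102 5 910)
(mv 1167 (cons (fin 1230 5 974)
(mv 1168 (cons (fin 1104 4 911)
(fin 1232 4 975)))))))))))
(mv 910 (cons (fin 846 7 846)
(mv 912 (cons (fin 909 1 908)
(fin 848 6 847))))))))))
(cons (mv 1103 (cons (cons (mv 846 (cons (fin 910 7 846)
(mv 782 (cons (fin 847 7 782)
(mv 845 (cons (fin 909 6 781)
(mv 848 (cons (fin 912 6 847)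
(mv 1166 (cons (fin 1102 5 910)
(mv 1167 (cons (fin 1230 5 974)
(mv 1231 (cons (fin 976 6 975)
(mv 1232 (cons (fin 1168 4 975)
(fin 1296 4 1039)))))))))))))))))
(mv 846 (cons (fin 910 7 846)
(mv 782 (cons (fin 847 7 782)
(mv 845 (cons (fin 909 6 781)
(mv 1166 (cons (fin 1102 5 910)
(mv 1167 (cons (fin 1230 5 974)
(mv 1231 (cons (fin 976 6 975)
(mv 1232 (cons (fin 1168 4 975)
(fin 1296 4 1039))))))))))))))))
(cons (mv 848 (cons (fin 912 6 847)
(mv 784 (cons (fin 847 6 783)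
(mv 1166 (cons (fin 1102 5 910)
(mv 1167 (cons (fin 1230 5 974)
(mv 1231 (cons (fin 976 6 975)
(mv 1232 (cons (fin 1168 4 975)
(fin 1296 4 1039)))))))))))))
(cons (mv 846 (cons (fin 910 7 846)
(mv 847 (cons (fin 782 7 782)
(mv 848 (cons (fin 784 6 783)
(fin 912 6 847)))))))
(mv 846 (cons (fin 910 7 846)
(mv 848 (cons (fin 912 6 847)
(mv 1166 (cons (fin 1102 5 910)
(mv 1167 (cons (fin 1230 5 974)
(mv 1231 (cons (fin 976 6 975)
(mv 1232 (cons (fin 1168 4 975)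
(fin 1296 4 1039)))))))))))))))))
(cons (mv 847 (cons (fin 1104 4 847)
(mv 782 (cons (fin 846 7 782)
(mv 783 (cons (fin 718 7 718)
(mv 784 (cons (fin 720 6 719)
(fin 848 6 783)))))))))
(mv 847 (cons (fin 1104 4 847)
(mv 783 (cons (fin 976 4 783)
(mv 784 (cons (fin 720 6 719)
(fin 848 6 783)))))))))))))
(cons (mv 974 (cons (fin 972 0 972)
(mv 976 (cons (fin 1036 1 972)
(mv 912 (cons (fin 913 2 909)
(mv 848 (cons (fin 784 5 783)
(mv 785 (cons (fin 849 6 784)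
(mv 847 (cons (fin 783 7 783)
(mv 1104 (cons (fin 911 7 847)
(mv 1168 (cons (fin 1232 7 975)
(mv 1169 (cons (fin 1105 4 912)
(fin 1233 4 976)))))))))))))))))))
(mv 974 (cons (fin 972 0 972)
(mv 976 (cons (fin 1036 1 972)
(mv 910 (cons (cons (mv 782 (cons (fin 846 5 781)
(mv 909 (cons (fin 977 3 909)
(mv 1101 (cons (fin 1165 6 909)
(mv 1100 (cons (fin 1164 5 908)
(mv 1102 (cons (fin 1103 2 1036)
(fin 1166 4 909)))))))))))
(mv 909 (cons (fin 977 3 909)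
(mv 1101 (cons (fin 1165 6 909)
(mv 1100 (cons (fin 1164 5 908)
(mv 1102 (cons (fin 1103 2 1036)
(fin 1166 4 909))))))))))
(cons (mv 782 (cons (fin 846 5 781)
(mv 1101 (cons (fin 1165 6 909)
(mv 1103 (cons (fin 1167 7 910)
(mv 1102 (cons (fin 1100 2 1036)
(mv 1166 (cons (fin 911 5 910)
(fin 909 4 909)))))))))))
(cons (mv 782 (cons (fin 846 5 781)
(mv 977 (cons (fin 909 3 909)
(mv 978 (cons (fin 911 3 910)
(fin 979 1 975)))))))
(mv 782 (cons (fin 846 5 781)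
(mv 1101 (cons (fin 1165 6 909)
(mv 1103 (cons (fin 1167 7 910)
(mv 1102 (cons (fin 1100 2 1036)
(mv 911 (cons (fin 1166 5 910)
(mv 847 (cons (fin 783 4 783)
(fin 1104 4 847)))))))))))))))))))))))))
(mv 1101 (cons (cons (cons (mv 1165 (cons (cons (mv 908 (cons (fin 972 7 908)
(mv 844 (cons (fin 909 7 844)
(mv 910 (cons (fin 974 6 909)
(mv 1228 (cons (fin 1164 5 972)
(mv 1229 (cons (fin 1292 5 1036)
(mv 1230 (cons (fin 1166 4 973)
(fin 1294 4 1037)))))))))))))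
(cons (mv 910 (cons (fin 974 6 909)
(mv 1164 (cons (fin 1228 5 972)
(mv 909 (cons (fin 1100 5 908)
(mv 1166 (cons (fin 1102 4 909)
(fin 1230 4 973)))))))))
(mv 908 (cons (fin 972 7 908)
(mv 844 (cons (fin 909 7 844)
(mv 1230 (cons (fin 1166 4 973)
(mv 1229 (cons (fin 1294 4 1037)
(mv 1292 (cons (fin 1228 5 1036)
(mv 1293 (cons (fin 1356 5 1100)
(mv 1100 (cons (fin 1036 7 1036)
(mv 1103 (cons (fin 1102 2 1036)
(mv 1231 (cons (fin 1232 1 1228)
(mv 1167 (cons (fin 976 6 975)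
(mv 1295 (cons (fin 1104 6 1039)
(mv 1360 (cons (fin 1296 4 1103)
(mv 1359 (cons (fin 1424 4 1167)
(mv 1358 (cons (fin 1357 3 1292)
(fin 1422 5 1166)))))))))))))))))))))))))))))))
(cons (mv 908 (cons (fin 972 7 908)
(mv 909 (cons (fin 844 7 844)
(mv 1164 (cons (fin 1100 5 908)
(fin 1228 5 972)))))))
(cons (mv 908 (cons (fin 972 7 908)
(mv 909 (cons (fin 844 7 844)
(mv 1166 (cons (fin 1102 4 909)
(fin 1230 4 973)))))))
(mv 908 (cons (fin 972 7 908)
(mv 910 (cons (fin 974 6 909)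
(mv 1228 (cons (fin 1164 5 972)
(mv 1229 (cons (fin 1292 5 1036)
(mv 1230 (cons (fin 1166 4 973)
(fin 1294 4 1037)))))))))))))))
(mv 1102 (cons (cons (mv 909 (cons (fin 1166 4 909)
(mv 1100 (cons (fin 1103 2 1036)
(fin 1164 5 908)))))
(mv 1103 (cons (fin 1100 2 1036)
(mv 1104 (cons (fin 1036 3 1036)
(mv 1168 (cons (fin 1169 0 1101)
(mv 975 (cons (fin 1232 7 975)
(fin 911 4 911))))))))))
(cons (mv 1166 (cons (fin 909 4 909)
(mv 1230 (cons (fin 1294 7 1037)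
(mv 975 (cons (cons (mv 1103 (cons (fin 911 5 910)
(fin 1167 5 974)))
(mv 974 (cons (fin 972 0 972)
(mv 976 (cons (fin 1036 1 972)
(mv 912 (cons (fin 913 2 909)
(mv 848 (cons (fin 784 5 783)
(mv 785 (cons (fin 849 6 784)
(mv 847 (cons (fin 783 7 783)
(mv 1104 (cons (fin 911 7 847)
(mv 1168 (cons (fin 1232 7 975)
(mv 1167 (cons (fin 1169 3 1101)
(fin 1231 5 975))))))))))))))))))))
(cons (mv 911 (cons (fin 1103 5 910)
(mv 847 (cons (fin 1104 4 847)
(mv 783 (cons (fin 976 4 783)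
(mv 784 (cons (fin 720 6 719)
(fin 848 6 783)))))))))
(mv 972 (cons (fin 974 0 972)
(mv 1103 (cons (fin 1167 5 974)
(mv 1104 (cons (fin 1036 3 1036)
(mv 1168 (cons (fin 1169 0 1101)
(fin 1232 7 975))))))))))))))))
(mv 909 (cons (fin 1166 4 909)
(mv 844 (cons (fin 908 7 844)
(mv 845 (cons (fin 780 7 780)
(mv 1100 (cons (fin 1036 5 844)
(fin 1164 5 908)))))))))))))
(cons (mv 1165 (cons (cons (mv 908 (cons (fin 972 7 908)
(mv 910 (cons (fin 974 6 909)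
(mv 1228 (cons (fin 1164 5 972)
(mv 1229 (cons (fin 1292 5 1036)
(mv 1230 (cons (fin 1166 4 973)
(fin 1294 4 1037)))))))))))
(cons (mv 910 (cons (fin 974 6 909)
(mv 1228 (cons (fin 1164 5 972)
(mv 1229 (cons (fin 1292 5 1036)
(mv 1230 (cons (fin 1166 4 973)
(fin 1294 4 1037)))))))))
(mv 910 (cons (fin 974 6 909)
(mv 972 (cons (fin 908 7 908)
(mv 1229 (cons (fin 1036 7 972)
(mv 1230 (cons (fin 1166 4 973)
(fin 1294 4 1037)))))))))))
(cons (mv 908 (cons (fin 972 7 908)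
(mv 1228 (cons (fin 1164 5 972)
(mv 1229 (cons (fin 1292 5 1036)
(mv 1230 (cons (fin 1166 4 973)
(fin 1294 4 1037)))))))))
(cons (mv 910 (cons (fin 974 6 909)
(mv 972 (cons (fin 908 7 908)
(mv 1228 (cons (fin 1164 5 972)
(mv 1229 (cons (fin 1036 7 972)
(fin 1292 5 1036)))))))))
(mv 972 (cons (fin 908 7 908)
(mv 974 (cons (fin 975 0 972)
(fin 910 6 909)))))))))
(cons (mv 1165 (cons (cons (mv 910 (cons (fin 974 6 909)
(mv 1164 (cons (fin 1228 5 972)
(mv 909 (cons (fin 1100 5 908)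
(mv 1166 (cons (fin 1102 4 909)
(fin 1230 4 973)))))))))
(cons (mv 910 (cons (fin 974 6 909)
(mv 1166 (cons (fin 1230 4 973)
(mv 1102 (cons (fin 909 4 909)
(mv 1100 (cons (fin 1103 2 1036)
(mv 1099 (cons (fin 1098 0 1098)
(fin 1167 0 1099)))))))))))
(mv 910 (cons (fin 974 6 909)
(mv 1229 (cons (mv 1228 (cons (fin 1164 5 972)
(fin 1292 5 1036)))
(cons (mv 1294 (cons (fin 1230 4 1037)
(mv 1293 (cons (fin 1358 4 1101)
(mv 1100 (cons (fin 1036 7 1036)
(mv 1164 (cons (fin 1357 7 1100)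
(fin 909 5 908)))))))))
(mv 1230 (cons (fin 1294 4 1037)
(mv 1292 (cons (fin 1228 5 1036)
(mv 1293 (cons (fin 1356 5 1100)
(mv 1100 (cons (fin 1036 7 1036)
(mv 1103 (cons (fin 1102 2 1036)
(mv 1231 (cons (fin 1232 1 1228)
(mv 1167 (cons (fin 976 6 975)
(mv 1290 (cons (fin 1291 2 1226)
(mv 1295 (cons (fin 1104 6 1039)
(mv 1360 (cons (fin 1296 4 1103)
(mv 1359 (cons (fin 1424 4 1167)
(mv 1358 (cons (fin 1357 3 1292)
(fin 1422 5 1166))))))))))))))))))))))))))))))))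
(cons (mv 910 (cons (fin 974 6 909)
(mv 1164 (cons (fin 1228 5 972)
(mv 909 (cons (fin 1100 5 908)
(mv 844 (cons (fin 908 7 844)
(mv 845 (cons (fin 780 7 780)
(mv 842 (cons (fin 843 0 842)
(mv 911 (cons (fin 912 3 844)
(mv 1102 (cons (fin 1166 4 909)
(mv 1104 (cons (fin 1103 1 1100)
(mv 975 (cons (fin 847 4 847)
(mv 1168 (cons (fin 976 7 911)
(fin 1232 7 975)))))))))))))))))))))))
(cons (mv 1164 (cons (fin 1228 5 972)
(mv 909 (cons (fin 1100 5 908)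
(mv 1166 (cons (fin 1102 4 909)
(fin 1230 4 973)))))))
(mv 910 (cons (fin 974 6 909)
(mv 1228 (cons (fin 1164 5 972)
(mv 1229 (cons (fin 1292 5 1036)
(mv 1230 (cons (fin 1166 4 973)
(fin 1294 4 1037)))))))))))))
(mv 1165 (cons (cons (mv 908 (cons (fin 972 7 908)
(mv 844 (cons (fin 909 7 844)
(mv 1228 (cons (fin 1164 5 972)
(mv 1229 (cons (fin 1292 5 1036)
(mv 1230 (cons (fin 1166 4 973)
(fin 1294 4 1037)))))))))))
(cons (mv 908 (cons (fin 972 7 908)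
(mv 844 (cons (fin 909 7 844)
(mv 1230 (cons (fin 1166 4 973)
(mv 1229 (cons (fin 1294 4 1037)
(mv 1292 (cons (fin 1228 5 1036)
(mv 1293 (cons (fin 1356 5 1100)
(mv 1100 (cons (fin 1036 7 1036)
(mv 1103 (cons (fin 1102 2 1036)
(mv 1231 (cons (fin 1232 1 1228)
(mv 1167 (cons (fin 976 6 975)
(mv 1295 (cons (fin 1104 6 1039)
(mv 1360 (cons (fin 1296 4 1103)
(mv 1359 (cons (fin 1424 4 1167)
(mv 1358 (cons (fin 1357 3 1292)
(fin 1422 5 1166)))))))))))))))))))))))))))))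
(mv 908 (cons (fin 972 7 908)
(mv 909 (cons (fin 844 7 844)
(mv 1164 (cons (fin 1100 5 908)
(fin 1228 5 972)))))))))
(cons (mv 1164 (cons (fin 1228 5 972)
(mv 909 (cons (fin 1100 5 908)
(mv 1166 (cons (fin 1102 4 909)
(fin 1230 4 973)))))))
(cons (mv 908 (cons (fin 972 7 908)
(mv 909 (cons (fin 844 7 844)
(mv 1166 (cons (fin 1102 4 909)
(fin 1230 4 973)))))))
(mv 908 (cons (fin 972 7 908)
(mv 1228 (cons (fin 1164 5 972)
(mv 1229 (cons (fin 1292 5 1036)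
(mv 1230 (cons (fin 1166 4 973)
(fin 1294 4 1037))))))))))))))))
(cons (cons (mv 1165 (cons (cons (mv 908 (cons (fin 972 7 908)
(mv 844 (cons (fin 909 7 844)
(mv 1230 (cons (fin 1166 4 973)
(mv 1229 (cons (fin 1294 4 1037)
(mv 1292 (cons (fin 1228 5 1036)
(mv 1293 (cons (fin 1356 5 1100)
(mv 1100 (cons (fin 1036 7 1036)
(mv 1103 (cons (fin 1102 2 1036)
(mv 1231 (cons (fin 1232 1 1228)
(mv 1167 (cons (fin 976 6 975)
(mv 1295 (cons (fin 1104 6 1039)
(mv 1360 (cons (fin 1296 4 1103)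
(mv 1359 (cons (fin 1424 4 1167)
(mv 1358 (cons (fin 1357 3 1292)
(fin 1422 5 1166)))))))))))))))))))))))))))))
(mv 910 (cons (fin 974 6 909)
(mv 1166 (cons (fin 1230 4 973)
(mv 1102 (cons (fin 909 4 909)
(mv 1100 (cons (fin 1103 2 1036)
(mv 1099 (cons (fin 1098 0 1098)
(fin 1167 0 1099))))))))))))
(cons (mv 910 (cons (fin 974 6 909)
(mv 972 (cons (fin 908 7 908)
(mv 1229 (cons (fin 1036 7 972)
(mv 1292 (cons (fin 1228 5 1036)
(mv 1293 (cons (fin 1356 5 1100)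
(mv 1294 (cons (fin 1230 4 1037)
(fin 1358 4 1101)))))))))))))
(mv 908 (cons (fin 972 7 908)
(mv 909 (cons (fin 844 7 844)
(mv 910 (cons (fin 974 6 909)
(mv 1102 (cons (fin 1166 4 909)
(mv 1103 (cons (fin 1100 2 1036)
(mv 1104 (cons (fin 1036 3 1036)
(mv 1168 (cons (fin 1169 0 1101)
(mv 975 (cons (fin 1232 7 975)
(fin 911 4 911))))))))))))))))))))
(mv 1165 (cons (cons (mv 910 (cons (fin 974 6 909)
(mv 1164 (cons (fin 1228 5 972)
(mv 909 (cons (fin 1100 5 908)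
(mv 1166 (cons (fin 1102 4 909)
(fin 1230 4 973)))))))))
(cons (mv 910 (cons (fin 974 6 909)
(mv 1166 (cons (fin 1230 4 973)
(mv 1102 (cons (fin 909 4 909)
(mv 1100 (cons (fin 1103 2 1036)
(mv 1099 (cons (fin 1098 0 1098)
(fin 1167 0 1099)))))))))))
(mv 910 (cons (fin 974 6 909)
(mv 1228 (cons (fin 1164 5 972)
(mv 1229 (cons (fin 1292 5 1036)
(mv 1036 (cons (fin 972 7 972)
(mv 1293 (cons (fin 1100 7 1036)
(mv 1294 (cons (fin 1230 4 1037)
(fin 1358 4 1101)))))))))))))))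
(cons (mv 910 (cons (fin 974 6 909)
(mv 1228 (cons (fin 1164 5 972)
(mv 1229 (cons (fin 1292 5 1036)
(mv 1036 (cons (fin 972 7 972)
(mv 1100 (cons (fin 1293 7 1036)
(mv 909 (cons (fin 845 5 844)
(mv 1102 (cons (fin 1103 2 1036)
(fin 1166 4 909)))))))))))))))
(cons (mv 1164 (cons (fin 1228 5 972)
(mv 909 (cons (fin 1100 5 908)
(mv 1166 (cons (fin 1102 4 909)
(fin 1230 4 973)))))))
(mv 910 (cons (fin 974 6 909)
(mv 1164 (cons (fin 1228 5 972)
(mv 1166 (cons (fin 1230 4 973)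
(mv 1102 (cons (fin 909 4 909)
(mv 1103 (cons (fin 1104 1 1100)
(fin 1163 2 1099))))))))))))))))
(cons (mv 1165 (cons (cons (mv 908 (cons (fin 972 7 908)
(mv 909 (cons (fin 844 7 844)
(mv 1164 (cons (fin 1100 5 908)
(fin 1228 5 972)))))))
(mv 910 (cons (fin 974 6 909)
(mv 1229 (cons (mv 1228 (cons (fin 1164 5 972)
(fin 1292 5 1036)))
(cons (mv 1294 (cons (fin 1230 4 1037)
(mv 1293 (cons (fin 1358 4 1101)
(mv 1100 (cons (fin 1036 7 1036)
(mv 1164 (cons (fin 1357 7 1100)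
(fin 909 5 908)))))))))
(mv 1230 (cons (fin 1294 4 1037)
(mv 1292 (cons (fin 1228 5 1036)
(mv 1293 (cons (fin 1356 5 1100)
(mv 1100 (cons (fin 1036 7 1036)
(mv 1103 (cons (fin 1102 2 1036)
(mv 1231 (cons (fin 1232 1 1228)
(mv 1167 (cons (fin 976 6 975)
(mv 1290 (cons (fin 1291 2 1226)
(mv 1295 (cons (fin 1104 6 1039)
(mv 1360 (cons (fin 1296 4 1103)
(mv 1359 (cons (fin 1424 4 1167)
(mv 1358 (cons (fin 1357 3 1292)
(fin 1422 5 1166)))))))))))))))))))))))))))))))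
(cons (mv 910 (cons (fin 974 6 909)
(mv 972 (cons (fin 908 7 908)
(mv 1229 (cons (fin 1036 7 972)
(mv 1292 (cons (fin 1228 5 1036)
(mv 1293 (cons (fin 1356 5 1100)
(mv 1294 (cons (fin 1230 4 1037)
(fin 1358 4 1101)))))))))))))
(mv 908 (cons (fin 972 7 908)
(mv 909 (cons (fin 844 7 844)
(mv 974 (cons (fin 910 6 909)
(mv 906 (cons (fin 907 0 906)
(mv 976 (cons (fin 975 3 908)
(mv 1100 (cons (fin 1164 5 908)
(mv 845 (cons (fin 1036 5 844)
(mv 1103 (cons (fin 1102 2 1036)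
(mv 912 (cons (fin 848 5 847)
(mv 1167 (cons (fin 1104 5 911)
(fin 1231 6 975))))))))))))))))))))))))
(cons (mv 909 (cons (cons (mv 844 (cons (fin 908 7 844)
(mv 780 (cons (fin 845 7 780)
(mv 1100 (cons (fin 1164 5 908)
(mv 1102 (cons (fin 1103 2 1036)
(fin 1166 4 909)))))))))
(cons (mv 908 (cons (fin 844 7 844)
(mv 1165 (cons (fin 972 7 908)
(mv 974 (cons (fin 910 6 909)
(mv 906 (cons (fin 907 0 906)
(mv 975 (cons (fin 976 3 908)
(mv 1166 (cons (fin 1102 4 909)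
(mv 1228 (cons (fin 1164 5 972)
(mv 1229 (cons (fin 1292 5 1036)
(mv 1168 (cons (fin 1167 1 1164)
(mv 1104 (cons (fin 1232 7 975)
(mv 911 (cons (fin 847 4 847)
(fin 1103 4 911)))))))))))))))))))))))
(mv 1100 (cons (fin 1164 5 908)
(mv 1102 (cons (fin 1103 2 1036)
(fin 1166 4 909)))))))
(cons (mv 844 (cons (fin 908 7 844)
(mv 780 (cons (fin 845 7 780)
(mv 1102 (cons (fin 1166 4 909)
(mv 1103 (cons (fin 1100 2 1036)
(mv 1104 (cons (fin 1036 3 1036)
(mv 1168 (cons (fin 1169 0 1101)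
(mv 975 (cons (fin 1232 7 975)
(fin 911 4 911)))))))))))))))
(cons (mv 844 (cons (fin 908 7 844)
(mv 780 (cons (fin 845 7 780)
(mv 1164 (cons (fin 1100 5 908)
(mv 1165 (cons (fin 1228 5 972)
(mv 974 (cons (fin 910 6 909)
(mv 975 (cons (fin 972 0 972)
(mv 976 (cons (fin 1036 1 972)
(mv 912 (cons (fin 913 2 909)
(mv 848 (cons (fin 784 5 783)
(fin 1103 5 847)))))))))))))))))))
(mv 844 (cons (fin 908 7 844)
(mv 780 (cons (fin 845 7 780)
(mv 1102 (cons (fin 1166 4 909)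
(mv 1164 (cons (fin 1100 5 908)
(mv 1165 (cons (fin 1228 5 972)
(mv 974 (cons (fin 910 6 909)
(mv 975 (cons (fin 972 0 972)
(mv 976 (cons (fin 1036 1 972)
(mv 912 (cons (fin 913 2 909)
(mv 848 (cons (fin 784 5 783)
(mv 847 (cons (fin 783 7 783)
(mv 1104 (cons (fin 911 7 847)
(mv 1168 (cons (fin 1232 7 975)
(mv 1169 (cons (fin 1105 4 912)
(fin 1233 4 976)))))))))))))))))))))))))))))))))
(mv 1165 (cons (cons (mv 908 (cons (fin 972 7 908)
(mv 844 (cons (fin 909 7 844)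
(mv 910 (cons (fin 974 6 909)
(mv 1228 (cons (fin 1164 5 972)
(mv 1229 (cons (fin 1292 5 1036)
(mv 1230 (cons (fin 1166 4 973)
(fin 1294 4 1037)))))))))))))
(mv 908 (cons (fin 972 7 908)
(mv 909 (cons (fin 844 7 844)
(mv 1164 (cons (fin 1100 5 908)
(fin 1228 5 972))))))))
(cons (mv 908 (cons (fin 972 7 908)
(mv 909 (cons (fin 844 7 844)
(mv 1166 (cons (fin 1102 4 909)
(fin 1230 4 973)))))))
(cons (mv 910 (cons (fin 974 6 909)
(mv 1164 (cons (fin 1228 5 972)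
(mv 909 (cons (fin 1100 5 908)
(mv 1166 (cons (fin 1102 4 909)
(fin 1230 4 973)))))))))
(mv 908 (cons (fin 972 7 908)
(mv 910 (cons (fin 974 6 909)
(mv 1228 (cons (fin 1164 5 972)
(mv 1229 (cons (fin 1292 5 1036)
(mv 1230 (cons (fin 1166 4 973)
(fin 1294 4 1037)))))))))))))))))))))
(cons (mv 975 (cons (cons (mv 974 (cons (fin 972 0 972)
(mv 976 (cons (fin 1036 1 972)
(mv 908 (cons (fin 909 3 908)
(mv 912 (cons (fin 913 2 909)
(mv 848 (cons (fin 784 5 783)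
(fin 1103 5 847)))))))))))
(cons (mv 911 (cons (cons (mv 847 (cons (fin 1104 4 847)
(mv 782 (cons (fin 846 7 782)
(mv 783 (cons (fin 718 7 718)
(fin 976 4 783)))))))
(mv 1103 (cons (cons (mv 846 (cons (fin 910 7 846)
(mv 848 (cons (fin 912 6 847)
(mv 1168 (cons (fin 1104 4 911)
(mv 1167 (cons (fin 1232 4 975)
(mv 1230 (cons (fin 1166 5 974)
(mv 1231 (cons (fin 1294 5 1038)
(fin 976 6 975)))))))))))))
(cons (mv 846 (cons (fin 910 7 846)
(mv 912 (cons (fin 848 6 847)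
(mv 1167 (cons (fin 976 6 911)
(mv 1230 (cons (fin 1166 5 974)
(mv 1231 (cons (fin 1294 5 1038)
(mv 1295 (cons (fin 1104 6 1039)
(mv 1296 (cons (fin 1232 4 1039)
(fin 1360 4 1103)))))))))))))))
(mv 846 (cons (fin 910 7 846)
(mv 1168 (cons (fin 1104 4 911)
(mv 1167 (cons (fin 1232 4 975)
(mv 1230 (cons (fin 1166 5 974)
(mv 1231 (cons (fin 1294 5 1038)
(fin 976 6 975)))))))))))))
(cons (mv 846 (cons (fin 910 7 846)
(mv 912 (cons (fin 848 6 847)
(mv 1167 (cons (fin 976 6 911)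
(mv 1230 (cons (fin 1166 5 974)
(mv 1231 (cons (fin 1294 5 1038)
(mv 1232 (cons (fin 1168 4 975)
(fin 1296 4 1039)))))))))))))
(cons (mv 848 (cons (fin 912 6 847)
(mv 1168 (cons (fin 1104 4 911)
(mv 1167 (cons (fin 1232 4 975)
(mv 1230 (cons (fin 1166 5 974)
(mv 1231 (cons (fin 1294 5 1038)
(fin 976 6 975)))))))))))
(mv 910 (cons (fin 846 7 846)
(mv 912 (cons (fin 848 6 847)
(mv 909 (cons (fin 972 1 908)
(mv 844 (cons (fin 845 3 844)
(mv 908 (cons (fin 843 3 843)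
(fin 1101 7 844))))))))))))))))
(cons (mv 847 (cons (cons (mv 782 (cons (fin 846 7 782)
(mv 783 (cons (fin 718 7 718)
(fin 976 4 783)))))
(mv 784 (cons (fin 848 6 783)
(mv 846 (cons (fin 782 7 782)
(mv 910 (cons (fin 1103 7 846)
(mv 909 (cons (fin 1101 6 845)
(mv 908 (cons (fin 907 2 843)
(fin 976 0 908))))))))))))
(cons (mv 783 (cons (fin 976 4 783)
(mv 784 (cons (fin 720 6 719)
(fin 848 6 783)))))
(mv 782 (cons (fin 846 7 782)
(mv 783 (cons (fin 718 7 718)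
(mv 784 (cons (fin 720 6 719)
(fin 848 6 783))))))))))
(cons (mv 847 (cons (fin 1104 4 847)
(mv 782 (cons (fin 846 7 782)
(mv 783 (cons (fin 718 7 718)
(mv 784 (cons (fin 720 6 719)
(fin 848 6 783)))))))))
(mv 847 (cons (fin 1104 4 847)
(mv 783 (cons (fin 976 4 783)
(mv 784 (cons (fin 720 6 719)
(fin 848 6 783)))))))))))
(mv 1104 (cons (cons (mv 911 (cons (fin 847 4 847)
(mv 1168 (cons (fin 976 7 911)
(fin 1232 7 975)))))
(mv 911 (cons (fin 847 4 847)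
(mv 1103 (cons (cons (mv 846 (cons (fin 910 7 846)
(mv 912 (cons (fin 848 6 847)
(mv 976 (cons (fin 1167 5 911)
(mv 913 (cons (fin 974 2 909)
(fin 849 6 848)))))))))
(cons (mv 910 (cons (fin 846 7 846)
(mv 974 (cons (fin 1167 7 910)
(mv 976 (cons (fin 1036 1 972)
(mv 909 (cons (fin 908 3 908)
(fin 977 3 909)))))))))
(mv 912 (cons (fin 848 6 847)
(mv 976 (cons (fin 1167 5 911)
(mv 913 (cons (fin 974 2 909)
(fin 849 6 848)))))))))
(cons (mv 910 (cons (fin 846 7 846)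
(mv 912 (cons (fin 848 6 847)
(mv 913 (cons (fin 974 1 909)
(mv 849 (cons (fin 850 2 846)
(fin 976 6 848)))))))))
(cons (mv 848 (cons (fin 912 6 847)
(mv 910 (cons (fin 846 7 846)
(mv 1167 (cons (fin 974 7 910)
(mv 1230 (cons (fin 1166 5 974)
(mv 1231 (cons (fin 1294 5 1038)
(fin 1295 6 1039)))))))))))
(mv 846 (cons (fin 910 7 846)
(mv 912 (cons (fin 848 6 847)
(mv 1167 (cons (fin 976 5 911)
(mv 1230 (cons (fin 1166 5 974)
(mv 1231 (cons (fin 1294 5 1038)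
(fin 1295 6 1039))))))))))))))))))
(cons (mv 1168 (cons (fin 1232 7 975)
(mv 976 (cons (cons (mv 913 (cons (fin 977 6 912)
(mv 912 (cons (fin 974 2 909)
(fin 849 6 848)))))
(mv 913 (cons (fin 977 6 912)
(mv 912 (cons (fin 849 6 848)
(mv 848 (cons (fin 784 5 783)
(fin 1103 5 847))))))))
(cons (mv 974 (cons (fin 1036 1 972)
(mv 908 (cons (fin 909 3 908)
(mv 1167 (cons (fin 1231 5 975)
(mv 1103 (cons (fin 910 7 910)
(fin 912 5 911)))))))))
(mv 913 (cons (fin 977 6 912)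
(mv 974 (cons (fin 1036 1 972)
(mv 908 (cons (fin 909 3 908)
(mv 1167 (cons (fin 1231 5 975)
(mv 910 (cons (fin 1103 7 910)
(mv 782 (cons (fin 846 5 781)
(mv 1165 (cons (fin 1101 6 909)
(mv 1166 (cons (fin 1105 2 1101)
(mv 1169 (cons (fin 1233 4 976)
(mv 1229 (cons (fin 1228 1 1164)
(fin 1230 1 1165))))))))))))))))))))))))))
(mv 911 (cons (fin 847 4 847)
(mv 1168 (cons (fin 1232 7 975)
(fin 1103 4 911))))))))))
(cons (mv 972 (cons (fin 974 0 972)
(mv 908 (cons (cons (mv 844 (cons (fin 780 4 780)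
(mv 1101 (cons (fin 909 7 844)
(fin 1165 7 908)))))
(mv 1101 (cons (fin 1165 7 908)
(mv 909 (cons (cons (mv 846 (cons (fin 910 6 845)
(mv 845 (cons (fin 782 6 781)
(mv 781 (cons (fin 717 5 716)
(fin 1036 5 780)))))))
(mv 1100 (cons (fin 1164 5 908)
(mv 845 (cons (fin 1036 5 844)
(mv 781 (cons (fin 717 5 716)
(mv 782 (cons (fin 718 6 717)
(fin 846 6 781))))))))))
(cons (mv 1100 (cons (fin 1164 5 908)
(mv 1036 (cons (fin 845 5 844)
(mv 907 (cons (fin 843 7 843)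
(mv 905 (cons (fin 906 0 905)
(mv 1099 (cons (fin 1163 5 907)
(mv 1098 (cons (fin 1097 2 1033)
(mv 1033 (cons (fin 1034 3 1033)
(mv 1162 (cons (fin 1161 1 1097)
(mv 971 (cons (fin 1035 5 906)
(mv 910 (cons (fin 970 1 906)
(fin 911 1 907)))))))))))))))))))))
(mv 910 (cons (fin 846 6 845)
(mv 911 (cons (fin 971 1 907)
(fin 912 1 908)))))))))))
(cons (mv 844 (cons (fin 780 4 780)
(mv 1036 (cons (cons (mv 779 (cons (fin 843 7 779)
(mv 781 (cons (fin 845 6 780)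
(mv 1099 (cons (fin 1035 5 843)
(mv 1100 (cons (fin 1163 5 907)
(mv 1164 (cons (fin 909 6 908)
(fin 1228 6 972)))))))))))
(mv 779 (cons (fin 843 7 779)
(mv 1099 (cons (fin 1035 5 843)
(mv 1100 (cons (fin 1163 5 907)
(mv 1164 (cons (fin 909 6 908)
(fin 1228 6 972))))))))))
(cons (mv 781 (cons (fin 845 6 780)
(mv 1099 (cons (fin 1035 5 843)
(mv 1100 (cons (fin 1163 5 907)
(mv 1164 (cons (fin 909 6 908)
(fin 1228 6 972)))))))))
(cons (mv 779 (cons (fin 843 7 779)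
(mv 845 (cons (fin 781 6 780)
(mv 909 (cons (fin 1100 5 844)
(mv 846 (cons (fin 782 6 781)
(mv 847 (cons (fin 907 1 843)
(fin 848 1 844)))))))))))
(mv 781 (cons (fin 845 6 780)
(mv 843 (cons (fin 779 7 779)
(mv 1035 (cons (fin 1099 5 843)
(mv 1034 (cons (fin 1033 2 969)
(mv 970 (cons (fin 969 3 969)
(mv 1098 (cons (fin 1097 1 1033)
(mv 907 (cons (fin 971 5 842)
(fin 906 6 842)))))))))))))))))))))
(mv 844 (cons (fin 780 4 780)
(mv 1101 (cons (fin 1165 7 908)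
(fin 1036 4 844))))))))))
(cons (mv 974 (cons (fin 972 0 972)
(mv 976 (cons (fin 1036 1 972)
(mv 912 (cons (fin 913 2 909)
(mv 848 (cons (fin 784 5 783)
(fin 1103 5 847)))))))))
(mv 974 (cons (fin 972 0 972)
(mv 976 (cons (fin 1036 1 972)
(mv 909 (cons (fin 908 3 908)
(mv 910 (cons (fin 977 3 909)
(mv 846 (cons (fin 782 5 781)
(fin 1101 6 845)))))))))))))))
(mv 972 (cons (cons (cons (mv 974 (cons (fin 975 0 972)
(mv 971 (cons (cons (mv 906 (cons (fin 907 3 906)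
(mv 905 (cons (fin 970 3 905)
(mv 910 (cons (fin 911 2 907)
(mv 846 (cons (fin 782 5 781)
(mv 1101 (cons (fin 909 6 845)
(fin 1165 6 909)))))))))))
(mv 906 (cons (fin 907 3 906)
(mv 970 (cons (fin 905 3 905)
(mv 1034 (cons (fin 1033 1 969)
(fin 1035 1 970))))))))
(cons (mv 910 (cons (fin 911 2 907)
(mv 782 (cons (fin 846 5 781)
(mv 909 (cons (fin 970 2 906)
(mv 1034 (cons (fin 1035 1 970)
(mv 1101 (cons (fin 1165 6 909)
(mv 844 (cons (fin 908 7 844)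
(mv 845 (cons (fin 780 7 780)
(mv 781 (cons (fin 1036 5 780)
(fin 718 6 717)))))))))))))))))
(mv 906 (cons (fin 907 3 906)
(mv 910 (cons (fin 911 2 907)
(mv 846 (cons (fin 782 5 781)
(mv 1101 (cons (fin 909 6 845)
(fin 1165 6 909))))))))))))))
(mv 908 (cons (cons (mv 844 (cons (fin 780 4 780)
(mv 1101 (cons (fin 909 7 844)
(fin 1165 7 908)))))
(mv 1101 (cons (fin 1165 7 908)
(mv 909 (cons (cons (mv 846 (cons (fin 910 6 845)
(mv 845 (cons (fin 782 6 781)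
(mv 781 (cons (fin 717 5 716)
(fin 1036 5 780)))))))
(mv 1100 (cons (fin 1164 5 908)
(mv 845 (cons (fin 1036 5 844)
(mv 781 (cons (fin 717 5 716)
(mv 782 (cons (fin 718 6 717)
(fin 846 6 781))))))))))
(cons (mv 1100 (cons (fin 1164 5 908)
(mv 1036 (cons (fin 845 5 844)
(mv 843 (cons (fin 907 7 843)
(mv 1099 (cons (fin 1163 5 907)
(mv 1098 (cons (fin 1097 2 1033)
(mv 1034 (cons (fin 1033 3 1033)
(mv 1102 (cons (fin 1035 3 1034)
(fin 1103 2 1036)))))))))))))))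
(mv 910 (cons (fin 846 6 845)
(mv 911 (cons (fin 971 1 907)
(fin 912 1 908)))))))))))
(cons (mv 844 (cons (fin 780 4 780)
(mv 1036 (cons (cons (mv 779 (cons (fin 843 7 779)
(mv 781 (cons (fin 845 6 780)
(mv 1099 (cons (fin 1035 5 843)
(mv 1100 (cons (fin 1163 5 907)
(mv 1164 (cons (fin 909 6 908)
(fin 1228 6 972)))))))))))
(mv 779 (cons (fin 843 7 779)
(mv 1099 (cons (fin 1035 5 843)
(mv 1100 (cons (fin 1163 5 907)
(mv 1164 (cons (fin 909 6 908)
(fin 1228 6 972))))))))))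
(cons (mv 781 (cons (fin 845 6 780)
(mv 1099 (cons (fin 1035 5 843)
(mv 1100 (cons (fin 1163 5 907)
(mv 1164 (cons (fin 909 6 908)
(fin 1228 6 972)))))))))
(cons (mv 779 (cons (fin 843 7 779)
(mv 845 (cons (fin 781 6 780)
(mv 909 (cons (fin 1100 5 844)
(mv 846 (cons (fin 782 6 781)
(mv 847 (cons (fin 907 1 843)
(fin 848 1 844)))))))))))
(mv 781 (cons (fin 845 6 780)
(mv 843 (cons (fin 779 7 779)
(mv 1035 (cons (fin 1099 5 843)
(mv 1034 (cons (fin 1033 2 969)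
(mv 970 (cons (fin 969 3 969)
(mv 1098 (cons (fin 1097 1 1033)
(mv 907 (cons (fin 971 5 842)
(fin 906 6 842)))))))))))))))))))))
(mv 844 (cons (fin 780 4 780)
(mv 1101 (cons (fin 1165 7 908)
(fin 1036 4 844)))))))))
(cons (mv 974 (cons (fin 975 0 972)
(mv 971 (cons (cons (mv 906 (cons (fin 907 3 906)
(mv 905 (cons (fin 970 3 905)
(mv 910 (cons (fin 911 2 907)
(mv 846 (cons (fin 782 5 781)
(mv 1101 (cons (fin 909 6 845)
(fin 1165 6 909)))))))))))
(mv 906 (cons (fin 907 3 906)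
(mv 970 (cons (fin 905 3 905)
(mv 1034 (cons (fin 1033 1 969)
(fin 1035 1 970))))))))
(cons (mv 910 (cons (fin 911 2 907)
(mv 782 (cons (fin 846 5 781)
(mv 909 (cons (fin 970 2 906)
(mv 1034 (cons (fin 1035 1 970)
(mv 1101 (cons (fin 1165 6 909)
(mv 1100 (cons (fin 1164 5 908)
(mv 845 (cons (fin 1036 5 844)
(mv 781 (cons (fin 718 6 717)
(fin 717 4 717)))))))))))))))))
(mv 906 (cons (fin 907 3 906)
(mv 910 (cons (fin 911 2 907)
(mv 846 (cons (fin 782 5 781)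
(mv 1101 (cons (fin 909 6 845)
(fin 1165 6 909))))))))))))))
(mv 974 (cons (fin 975 0 972)
(mv 971 (cons (cons (mv 906 (cons (fin 907 3 906)
(mv 910 (cons (fin 911 2 907)
(mv 970 (cons (fin 905 3 905)
(fin 909 2 906)))))))
(mv 906 (cons (fin 907 3 906)
(mv 970 (cons (fin 905 3 905)
(mv 1034 (cons (fin 1033 1 969)
(fin 1035 1 970))))))))
(cons (mv 910 (cons (fin 911 2 907)
(mv 782 (cons (fin 846 5 781)
(mv 970 (cons (fin 909 2 906)
(mv 1034 (cons (fin 1033 1 969)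
(fin 1035 1 970)))))))))
(mv 907 (cons (fin 906 3 906)
(mv 910 (cons (fin 911 2 907)
(mv 782 (cons (fin 846 5 781)
(mv 1035 (cons (fin 1034 1 970)
(mv 843 (cons (cons (mv 1036 (cons (fin 779 4 779)
(fin 1100 4 843)))
(mv 778 (cons (fin 842 7 778)
(mv 714 (cons (fin 779 7 714)
(mv 844 (cons (fin 780 6 779)
(mv 1099 (cons (fin 908 6 843)
(mv 1162 (cons (fin 1098 5 906)
(mv 1163 (cons (fin 1226 5 970)
(mv 1164 (cons (fin 1100 4 907)
(fin 1228 4 971))))))))))))))))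
(cons (mv 778 (cons (fin 842 7 778)
(mv 780 (cons (fin 844 6 779)
(mv 1100 (cons (fin 1036 4 843)
(mv 1099 (cons (fin 1164 4 907)
(mv 1162 (cons (fin 1098 5 906)
(mv 1163 (cons (fin 1226 5 970)
(fin 908 6 907)))))))))))))
(mv 778 (cons (fin 842 7 778)
(mv 779 (cons (fin 714 7 714)
(fin 1036 4 779)))))))))))))))))))))))
(cons (cons (mv 974 (cons (fin 975 0 972)
(mv 910 (cons (cons (mv 782 (cons (fin 846 5 781)
(mv 911 (cons (fin 971 2 907)
(mv 912 (cons (fin 909 1 908)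
(fin 913 1 909)))))))
(mv 846 (cons (fin 782 5 781)
(mv 1101 (cons (fin 909 6 845)
(fin 1165 6 909))))))
(cons (mv 911 (cons (fin 971 2 907)
(mv 912 (cons (fin 909 1 908)
(fin 913 1 909)))))
(mv 782 (cons (fin 846 5 781)
(mv 971 (cons (fin 911 2 907)
(mv 906 (cons (fin 907 3 906)
(mv 970 (cons (fin 905 3 905)
(mv 1034 (cons (fin 1033 1 969)
(fin 1035 1 970))))))))))))))))
(mv 974 (cons (fin 975 0 972)
(mv 971 (cons (cons (mv 906 (cons (fin 907 3 906)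
(mv 910 (cons (fin 911 2 907)
(mv 782 (cons (fin 846 5 781)
(mv 970 (cons (fin 905 3 905)
(mv 1034 (cons (fin 1033 1 969)
(fin 1035 1 970)))))))))))
(cons (mv 907 (cons (fin 906 3 906)
(mv 910 (cons (fin 911 2 907)
(mv 782 (cons (fin 846 5 781)
(mv 1101 (cons (fin 1165 6 909)
(mv 1036 (cons (cons (mv 779 (cons (fin 843 4 779)
(mv 908 (cons (fin 844 4 844)
(mv 969 (cons (fin 970 0 969)
(mv 1100 (cons (fin 1164 7 907)
(mv 1099 (cons (fin 1163 5 907)
(mv 1098 (cons (fin 1097 2 1033)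
(mv 1162 (cons (fin 1161 1 1097)
(fin 1035 5 906)))))))))))))))
(mv 843 (cons (fin 779 4 779)
(mv 844 (cons (fin 908 4 844)
(mv 780 (cons (fin 1035 6 779)
(mv 652 (cons (fin 716 5 651)
(mv 781 (cons (fin 783 1 779)
(mv 842 (cons (fin 841 2 777)
(fin 845 2 778))))))))))))))
(cons (mv 843 (cons (fin 779 4 779)
(mv 1100 (cons (fin 1164 7 907)
(fin 1035 4 843)))))
(cons (mv 908 (cons (fin 844 4 844)
(mv 969 (cons (fin 970 0 969)
(mv 1100 (cons (fin 1164 7 907)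
(mv 1099 (cons (fin 1163 5 907)
(mv 1098 (cons (fin 1097 2 1033)
(mv 1162 (cons (fin 1161 1 1097)
(fin 1035 5 906)))))))))))))
(mv 843 (cons (fin 779 4 779)
(mv 908 (cons (fin 1100 7 843)
(fin 844 4 844)))))))))))))))))
(mv 906 (cons (fin 907 3 906)
(mv 970 (cons (fin 905 3 905)
(mv 1034 (cons (fin 1033 1 969)
(fin 1035 1 970)))))))))
(cons (cons (mv 906 (cons (fin 907 3 906)
(mv 910 (cons (fin 911 2 907)
(mv 782 (cons (fin 846 5 781)
(mv 970 (cons (fin 905 3 905)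
(mv 969 (cons (fin 1036 0 969)
(mv 1033 (cons (fin 1032 1 968)
(fin 1034 1 969)))))))))))))
(mv 910 (cons (fin 911 2 907)
(mv 782 (cons (fin 846 5 781)
(mv 1034 (cons (fin 1035 1 970)
(mv 970 (cons (fin 1033 1 969)
(mv 1036 (cons (fin 969 0 969)
(mv 1101 (cons (fin 1165 6 909)
(mv 908 (cons (fin 844 4 844)
(mv 1100 (cons (mv 907 (cons (fin 843 7 843)
(fin 1164 7 907)))
(cons (mv 1102 (cons (fin 1103 2 1036)
(mv 1163 (cons (fin 1099 5 907)
(mv 1164 (cons (fin 1227 5 971)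
(fin 1228 6 972)))))))
(mv 907 (cons (fin 843 7 843)
(mv 1098 (cons (fin 1162 6 906)
(mv 1099 (cons (fin 1097 2 1033)
(fin 1163 5 907)))))))))))))))))))))))))
(cons (mv 910 (cons (fin 911 2 907)
(mv 782 (cons (fin 846 5 781)
(mv 1034 (cons (fin 1035 1 970)
(mv 970 (cons (fin 1033 1 969)
(mv 905 (cons (fin 906 3 905)
(mv 969 (cons (fin 904 3 904)
(fin 1036 0 969)))))))))))))
(mv 907 (cons (fin 906 3 906)
(mv 910 (cons (fin 911 2 907)
(mv 782 (cons (fin 846 5 781)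
(mv 1035 (cons (fin 1034 1 970)
(mv 1101 (cons (fin 1165 6 909)
(mv 908 (cons (mv 844 (cons (fin 780 5 779)
(fin 1099 6 843)))
(cons (mv 1099 (cons (fin 1163 6 907)
(mv 1098 (cons (fin 1162 5 906)
(mv 1100 (cons (fin 1164 4 907)
(mv 1036 (cons (fin 1097 2 1033)
(fin 843 7 843)))))))))
(mv 844 (cons (fin 780 5 779)
(fin 1036 4 844)))))))))))))))))))))))
(cons (mv 974 (cons (fin 975 0 972)
(mv 1101 (cons (cons (mv 1165 (cons (fin 908 7 908)
(fin 910 6 909)))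
(mv 909 (cons (cons (mv 844 (cons (fin 908 7 844)
(mv 780 (cons (fin 845 7 780)
(mv 910 (cons (fin 846 6 845)
(mv 912 (cons (fin 911 1 908)
(mv 1100 (cons (fin 1164 5 908)
(mv 1103 (cons (fin 1102 2 1036)
(mv 976 (cons (fin 848 5 847)
(mv 1167 (cons (fin 1104 5 911)
(fin 1231 6 975)))))))))))))))))
(mv 846 (cons (fin 910 6 845)
(mv 845 (cons (fin 782 6 781)
(mv 1036 (cons (fin 781 5 780)
(fin 1100 5 844))))))))
(cons (mv 844 (cons (fin 908 7 844)
(mv 845 (cons (fin 780 7 780)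
(mv 846 (cons (fin 782 6 781)
(fin 910 6 845)))))))
(cons (mv 844 (cons (fin 908 7 844)
(mv 845 (cons (fin 780 7 780)
(mv 1036 (cons (fin 781 5 780)
(fin 1100 5 844)))))))
(mv 844 (cons (fin 908 7 844)
(mv 910 (cons (fin 846 6 845)
(mv 912 (cons (fin 911 1 908)
(mv 1100 (cons (fin 1164 5 908)
(mv 1103 (cons (fin 1102 2 1036)
(mv 976 (cons (fin 848 5 847)
(mv 1167 (cons (fin 1104 5 911)
(fin 1231 6 975))))))))))))))))))))
(cons (mv 910 (cons (fin 1165 6 909)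
(mv 846 (cons (fin 782 5 781)
(fin 909 6 845)))))
(mv 908 (cons (fin 1165 7 908)
(mv 844 (cons (fin 909 7 844)
(fin 780 4 780))))))))))
(mv 974 (cons (fin 975 0 972)
(mv 908 (cons (cons (mv 844 (cons (fin 780 4 780)
(mv 1101 (cons (fin 909 7 844)
(fin 1165 7 908)))))
(mv 1101 (cons (fin 1165 7 908)
(mv 971 (cons (cons (mv 906 (cons (fin 907 3 906)
(mv 970 (cons (fin 905 3 905)
(mv 969 (cons (fin 909 2 905)
(fin 1036 0 969)))))))
(mv 1034 (cons (fin 1035 1 970)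
(mv 970 (cons (fin 1033 1 969)
(mv 969 (cons (fin 909 2 905)
(fin 1036 0 969))))))))
(cons (mv 907 (cons (fin 906 3 906)
(mv 1035 (cons (fin 1034 1 970)
(mv 1099 (cons (fin 1163 6 907)
(mv 1098 (cons (fin 1162 5 906)
(mv 1100 (cons (fin 1164 4 907)
(mv 1036 (cons (fin 1097 2 1033)
(fin 843 7 843)))))))))))))
(mv 906 (cons (fin 907 3 906)
(mv 970 (cons (fin 905 3 905)
(mv 1034 (cons (fin 1033 1 969)
(fin 1035 1 970)))))))))))))
(cons (mv 780 (cons (fin 844 4 780)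
(mv 971 (cons (cons (mv 906 (cons (fin 907 3 906)
(mv 970 (cons (fin 905 3 905)
(mv 969 (cons (fin 909 2 905)
(fin 1036 0 969)))))))
(mv 1034 (cons (fin 1035 1 970)
(mv 970 (cons (fin 1033 1 969)
(mv 969 (cons (fin 909 2 905)
(fin 1036 0 969))))))))
(cons (mv 907 (cons (fin 906 3 906)
(mv 1035 (cons (fin 1034 1 970)
(mv 1099 (cons (fin 1163 6 907)
(mv 1098 (cons (fin 1162 5 906)
(mv 1100 (cons (fin 1164 4 907)
(mv 1036 (cons (fin 1097 2 1033)
(fin 843 7 843)))))))))))))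
(mv 906 (cons (fin 907 3 906)
(mv 970 (cons (fin 905 3 905)
(mv 1034 (cons (fin 1033 1 969)
(fin 1035 1 970))))))))))))
(mv 844 (cons (fin 780 4 780)
(mv 1101 (cons (fin 1165 7 908)
(fin 1036 4 844))))))))))))))))))))
(cons (mv 1038 (cons (cons (mv 972 (cons (fin 973 3 972)
(mv 1036 (cons (fin 971 3 971)
(mv 1100 (cons (fin 1099 1 1035)
(fin 1101 1 1036)))))))
(mv 1100 (cons (fin 1101 1 1036)
(mv 1036 (cons (fin 1099 1 1035)
(mv 1104 (cons (fin 1103 0 1036)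
(fin 1105 0 1037))))))))
(cons (mv 972 (cons (fin 973 3 972)
(mv 1036 (cons (fin 971 3 971)
(mv 1104 (cons (fin 1103 0 1036)
(fin 1105 0 1037)))))))
(mv 972 (cons (fin 973 3 972)
(mv 1101 (cons (fin 1100 1 1036)
(mv 1104 (cons (fin 1105 0 1037)
(mv 1165 (cons (cons (mv 974 (cons (fin 1229 6 973)
(mv 910 (cons (fin 846 5 845)
(fin 1102 5 909)))))
(mv 1102 (cons (cons (mv 910 (cons (fin 974 5 909)
(mv 1103 (cons (fin 1164 1 1100)
(mv 1168 (cons (fin 1169 0 1101)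
(mv 975 (cons (fin 1232 7 975)
(fin 911 4 911)))))))))
(mv 974 (cons (fin 910 5 909)
(mv 1166 (cons (mv 975 (cons (fin 911 6 910)
(fin 1230 6 974)))
(cons (mv 1230 (cons (fin 1294 7 1037)
(mv 1231 (cons (fin 1167 4 974)
(fin 1295 4 1038)))))
(mv 975 (cons (fin 911 6 910)
(mv 1167 (cons (fin 1231 4 974)
(mv 1168 (cons (fin 1169 3 1101)
(fin 1232 7 975)))))))))))))
(cons (mv 1103 (cons (fin 1164 1 1100)
(mv 1168 (cons (fin 1169 0 1101)
(mv 975 (cons (fin 1232 7 975)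
(fin 911 4 911)))))))
(cons (mv 910 (cons (fin 974 5 909)
(mv 1103 (cons (fin 1164 1 1100)
(mv 1168 (cons (fin 1169 0 1101)
(mv 1232 (cons (fin 1296 7 1039)
(mv 1231 (cons (fin 1295 5 1039)
(mv 1233 (cons (fin 1297 4 1040)
(mv 1166 (cons (fin 1230 3 1165)
(fin 1167 0 1165)))))))))))))))
(mv 910 (cons (fin 974 5 909)
(mv 1164 (cons (fin 1103 1 1100)
(mv 1163 (cons (fin 1162 2 1098)
(mv 1166 (cons (mv 1230 (cons (fin 1231 0 1163)
(fin 1294 7 1037)))
(mv 1099 (cons (fin 1098 3 1098)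
(mv 1227 (cons (fin 1226 1 1162)
(mv 1228 (cons (fin 1167 1 1163)
(mv 1035 (cons (fin 971 4 971)
(fin 1292 4 1035))))))))))))))))))))))
(cons (mv 1229 (cons (cons (mv 1102 (cons (fin 1293 6 1037)
(mv 1103 (cons (fin 1164 1 1100)
(mv 1168 (cons (fin 1169 0 1101)
(mv 975 (cons (fin 1232 7 975)
(fin 911 4 911)))))))))
(mv 1228 (cons (fin 1292 5 1036)
(mv 1230 (cons (fin 1294 4 1037)
(mv 1231 (cons (mv 1164 (cons (fin 1163 3 1163)
(fin 1232 3 1164)))
(mv 1167 (cons (fin 1168 2 1164)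
(mv 1295 (cons (fin 1296 0 1228)
(fin 1103 6 1039))))))))))))
(cons (mv 1102 (cons (fin 1293 6 1037)
(mv 1103 (cons (fin 1164 1 1100)
(mv 1228 (cons (fin 1292 5 1036)
(mv 1230 (cons (fin 1294 4 1037)
(mv 1166 (cons (fin 975 6 974)
(mv 1227 (cons (fin 1226 2 1162)
(fin 1167 2 1163)))))))))))))
(cons (mv 1102 (cons (fin 1293 6 1037)
(mv 1228 (cons (fin 1292 5 1036)
(mv 1230 (cons (fin 1294 4 1037)
(mv 975 (cons (fin 1166 6 974)
(mv 911 (cons (fin 847 5 846)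
(mv 1168 (cons (fin 1232 7 975)
(fin 1103 4 911)))))))))))))
(mv 1102 (cons (fin 1293 6 1037)
(mv 1228 (cons (fin 1292 5 1036)
(mv 1230 (cons (fin 1294 4 1037)
(mv 975 (cons (fin 1166 6 974)
(mv 847 (cons (fin 911 5 846)
(mv 1232 (cons (fin 1168 7 975)
(mv 1231 (cons (fin 1164 3 1164)
(mv 1296 (cons (fin 1295 0 1228)
(fin 1297 0 1229)))))))))))))))))))))
(mv 1229 (cons (fin 974 6 973)
(mv 1230 (cons (fin 1294 4 1037)
(mv 1292 (cons (fin 1228 5 1036)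
(mv 1293 (cons (fin 1356 5 1100)
(mv 1232 (cons (fin 1231 1 1228)
(mv 1168 (cons (fin 975 7 975)
(mv 1233 (cons (fin 1297 4 1040)
(mv 1166 (cons (fin 1167 0 1165)
(mv 1296 (cons (fin 1103 7 1039)
(mv 1357 (cons (fin 1421 6 1165)
(mv 1358 (cons (fin 1422 4 1165)
(mv 1359 (cons (fin 1360 3 1292)
(fin 1295 5 1103)))))))))))))))))))))))))))))))))))))
(cons (mv 1038 (cons (cons (mv 972 (cons (fin 973 3 972)
(mv 976 (cons (fin 977 2 973)
(mv 1036 (cons (fin 971 3 971)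
(fin 975 2 972)))))))
(mv 972 (cons (fin 973 3 972)
(mv 1036 (cons (fin 971 3 971)
(mv 1100 (cons (fin 1099 1 1035)
(fin 1101 1 1036))))))))
(cons (mv 976 (cons (fin 977 2 973)
(mv 1036 (cons (fin 975 2 972)
(mv 1100 (cons (fin 1099 1 1035)
(fin 1101 1 1036)))))))
(mv 973 (cons (fin 972 3 972)
(mv 976 (cons (fin 977 2 973)
(mv 1100 (cons (fin 1101 1 1036)
(mv 909 (cons (cons (mv 845 (cons (fin 1102 4 845)
(mv 780 (cons (fin 844 7 780)
(mv 781 (cons (fin 716 7 716)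
(fin 974 4 781)))))))
(mv 974 (cons (cons (mv 975 (cons (fin 908 3 908)
(mv 912 (cons (fin 913 2 909)
(mv 848 (cons (fin 784 5 783)
(fin 1103 5 847)))))))
(mv 1102 (cons (fin 1166 7 909)
(mv 910 (cons (mv 846 (cons (fin 782 5 781)
(fin 1103 4 846)))
(cons (mv 846 (cons (fin 782 5 781)
(mv 847 (cons (fin 783 6 782)
(fin 911 6 846)))))
(mv 911 (cons (fin 847 6 846)
(mv 912 (cons (fin 913 1 909)
(mv 848 (cons (fin 849 2 845)
(fin 1103 5 847)))))))))))))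
(cons (mv 975 (cons (fin 908 3 908)
(mv 912 (cons (fin 913 2 909)
(mv 848 (cons (fin 784 5 783)
(mv 785 (cons (fin 849 6 784)
(mv 847 (cons (fin 783 7 783)
(mv 1102 (cons (fin 1166 7 909)
(fin 911 5 846)))))))))))))
(mv 908 (cons (fin 975 3 908)
(mv 907 (cons (fin 906 0 906)
(mv 1102 (cons (fin 1166 7 909)
(mv 910 (cons (mv 846 (cons (fin 847 2 843)
(fin 782 5 781)))
(cons (mv 843 (cons (fin 842 3 842)
(mv 911 (cons (fin 844 3 843)
(fin 847 6 846)))))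
(mv 846 (cons (fin 782 5 781)
(fin 1103 4 846))))))))))))))))
(cons (mv 845 (cons (mv 780 (cons (fin 844 7 780)
(mv 781 (cons (fin 716 7 716)
(fin 974 4 781)))))
(cons (mv 780 (cons (fin 844 7 780)
(mv 846 (cons (fin 782 6 781)
(mv 848 (cons (mv 847 (cons (fin 908 1 844)
(mv 912 (cons (fin 913 0 845)
(fin 783 7 783)))))
(cons (mv 912 (cons (fin 1103 5 847)
(mv 784 (cons (fin 975 5 783)
(mv 785 (cons (fin 721 6 720)
(fin 849 6 784)))))))
(mv 847 (cons (fin 908 1 844)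
(mv 784 (cons (fin 785 2 781)
(mv 849 (cons (fin 910 1 845)
(mv 911 (cons (fin 975 6 783)
(mv 914 (cons (fin 913 0 846)
(mv 850 (cons (fin 915 0 847)
(mv 787 (cons (fin 786 2 783)
(mv 851 (cons (fin 783 3 783)
(fin 788 2 784))))))))))))))))))))))))
(mv 781 (cons (fin 974 4 781)
(mv 782 (cons (fin 718 6 717)
(fin 846 6 781))))))))
(cons (mv 845 (cons (fin 1102 4 845)
(mv 780 (cons (fin 844 7 780)
(mv 781 (cons (fin 716 7 716)
(mv 782 (cons (fin 718 6 717)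
(fin 846 6 781)))))))))
(mv 845 (cons (fin 1102 4 845)
(mv 781 (cons (fin 974 4 781)
(mv 782 (cons (fin 718 6 717)
(fin 846 6 781))))))))))))))))))))
(mv 1038 (cons (cons (mv 976 (cons (fin 977 2 973)
(mv 975 (cons (fin 1036 2 972)
(mv 1100 (cons (fin 1101 1 1036)
(mv 1104 (cons (fin 1105 0 1037)
(mv 911 (cons (fin 1168 7 911)
(fin 847 4 847)))))))))))
(mv 1100 (cons (fin 1101 1 1036)
(mv 1036 (cons (fin 1099 1 1035)
(mv 1104 (cons (fin 1103 0 1036)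
(fin 1105 0 1037))))))))
(cons (mv 976 (cons (fin 977 2 973)
(mv 1036 (cons (fin 975 2 972)
(mv 1100 (cons (fin 1099 1 1035)
(fin 1101 1 1036)))))))
(cons (mv 976 (cons (fin 977 2 973)
(mv 975 (cons (fin 1036 2 972)
(mv 1104 (cons (fin 1105 0 1037)
(mv 911 (cons (fin 1168 7 911)
(fin 847 4 847)))))))))
(mv 976 (cons (fin 977 2 973)
(mv 1100 (cons (fin 1101 1 1036)
(mv 1104 (cons (fin 1105 0 1037)
(mv 912 (cons (mv 1103 (cons (fin 848 5 847)
(fin 1167 5 911)))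
(cons (mv 847 (cons (fin 911 7 847)
(mv 848 (cons (fin 783 7 783)
(mv 849 (cons (fin 785 6 784)
(fin 913 6 848)))))))
(mv 847 (cons (fin 911 7 847)
(mv 849 (cons (fin 913 6 848)
(mv 1167 (cons (fin 1103 5 911)
(mv 1168 (cons (fin 1231 5 975)
(mv 1232 (cons (fin 975 7 975)
(mv 1233 (cons (fin 1169 4 976)
(fin 1297 4 1040)))))))))))))))))))))))))))))
(cons (cons (mv 1038 (cons (cons (mv 972 (cons (fin 973 3 972)
(mv 976 (cons (fin 977 2 973)
(mv 1036 (cons (fin 971 3 971)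
(fin 975 2 972)))))))
(mv 972 (cons (fin 973 3 972)
(mv 1036 (cons (fin 971 3 971)
(mv 1104 (cons (fin 1103 0 1036)
(fin 1105 0 1037))))))))
(cons (mv 976 (cons (fin 977 2 973)
(mv 975 (cons (fin 1036 2 972)
(mv 1104 (cons (fin 1105 0 1037)
(mv 911 (cons (fin 1168 7 911)
(fin 847 4 847)))))))))
(mv 972 (cons (fin 973 3 972)
(mv 976 (cons (fin 977 2 973)
(mv 1104 (cons (fin 1105 0 1037)
(mv 1168 (cons (mv 975 (cons (fin 911 7 911)
(fin 1232 7 975)))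
(cons (mv 1167 (cons (fin 1231 5 975)
(mv 912 (cons (fin 1103 5 911)
(mv 847 (cons (fin 911 7 847)
(mv 848 (cons (fin 783 7 783)
(mv 849 (cons (fin 785 6 784)
(fin 913 6 848)))))))))))
(mv 975 (cons (fin 1232 7 975)
(mv 1167 (cons (fin 1231 5 975)
(mv 912 (cons (fin 1103 5 911)
(mv 848 (cons (fin 784 5 783)
(mv 849 (cons (fin 785 6 784)
(fin 913 6 848)))))))))))))))))))))))
(cons (mv 1038 (cons (cons (mv 972 (cons (fin 973 3 972)
(mv 976 (cons (fin 977 2 973)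
(mv 1036 (cons (fin 971 3 971)
(mv 1100 (cons (fin 1099 1 1035)
(fin 1101 1 1036)))))))))
(mv 972 (cons (fin 973 3 972)
(mv 976 (cons (fin 977 2 973)
(mv 1036 (cons (fin 971 3 971)
(mv 1104 (cons (fin 1103 0 1036)
(fin 1105 0 1037))))))))))
(cons (mv 976 (cons (fin 977 2 973)
(mv 1100 (cons (fin 1101 1 1036)
(mv 1036 (cons (fin 1099 1 1035)
(mv 1104 (cons (fin 1103 0 1036)
(fin 1105 0 1037)))))))))
(cons (mv 972 (cons (fin 973 3 972)
(mv 1036 (cons (fin 971 3 971)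
(mv 1100 (cons (fin 1099 1 1035)
(fin 1101 1 1036)))))))
(mv 972 (cons (fin 973 3 972)
(mv 976 (cons (fin 977 2 973)
(mv 1100 (cons (fin 1101 1 1036)
(mv 1104 (cons (fin 1105 0 1037)
(mv 912 (cons (mv 1103 (cons (fin 848 5 847)
(fin 1167 5 911)))
(cons (mv 847 (cons (fin 911 7 847)
(mv 848 (cons (fin 783 7 783)
(mv 849 (cons (fin 785 6 784)
(fin 913 6 848)))))))
(mv 847 (cons (fin 911 7 847)
(mv 849 (cons (fin 913 6 848)
(mv 1168 (cons (cons (mv 1167 (cons (fin 1103 5 911)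
(fin 1231 5 975)))
(mv 1233 (cons (fin 1169 4 976)
(mv 1232 (cons (fin 1297 4 1040)
(mv 1295 (cons (fin 1231 5 1039)
(mv 1296 (cons (fin 1103 7 1039)
(fin 1359 5 1103))))))))))
(cons (mv 1231 (cons (fin 1167 5 975)
(mv 1232 (cons (fin 1295 5 1039)
(mv 1233 (cons (fin 1169 4 976)
(fin 1297 4 1040)))))))
(mv 1103 (cons (fin 1167 5 911)
(mv 1232 (cons (fin 1296 7 1039)
(mv 1233 (cons (fin 1169 4 976)
(fin 1297 4 1040)))))))))))))))))))))))))))))
(mv 1038 (cons (cons (mv 972 (cons (fin 973 3 972)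
(mv 976 (cons (fin 977 2 973)
(mv 1036 (cons (fin 971 3 971)
(fin 975 2 972)))))))
(mv 972 (cons (fin 973 3 972)
(mv 1036 (cons (fin 971 3 971)
(mv 1100 (cons (fin 1099 1 1035)
(fin 1101 1 1036))))))))
(cons (mv 976 (cons (fin 977 2 973)
(mv 975 (cons (fin 1036 2 972)
(mv 1100 (cons (fin 1101 1 1036)
(mv 1104 (cons (fin 1105 0 1037)
(mv 911 (cons (fin 1168 7 911)
(fin 847 4 847)))))))))))
(mv 972 (cons (fin 973 3 972)
(mv 976 (cons (fin 977 2 973)
(mv 1100 (cons (fin 1101 1 1036)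
(mv 1104 (cons (fin 1105 0 1037)
(mv 1168 (cons (mv 975 (cons (fin 911 7 911)
(fin 1232 7 975)))
(cons (mv 1231 (cons (fin 1167 5 975)
(mv 1232 (cons (fin 1295 5 1039)
(mv 1233 (cons (fin 1169 4 976)
(fin 1297 4 1040)))))))
(mv 1167 (cons (fin 1231 5 975)
(mv 1169 (cons (fin 1233 4 976)
(mv 912 (cons (cons (mv 911 (cons (fin 847 7 847)
(fin 975 7 911)))
(mv 849 (cons (fin 913 6 848)
(mv 848 (cons (fin 785 6 784)
(mv 783 (cons (fin 847 7 783)
(mv 784 (cons (fin 719 7 719)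
(fin 975 5 783))))))))))
(cons (mv 847 (cons (fin 911 7 847)
(mv 848 (cons (fin 783 7 783)
(mv 849 (cons (fin 785 6 784)
(fin 913 6 848)))))))
(mv 849 (cons (fin 913 6 848)
(mv 848 (cons (fin 785 6 784)
(mv 975 (cons (fin 911 7 911)
(fin 784 5 783))))))))))))))))))))))))))))))
(cons (mv 1038 (cons (cons (cons (mv 972 (cons (fin 973 3 972)
(mv 976 (cons (fin 977 2 973)
(mv 1100 (cons (fin 1101 1 1036)
(mv 1104 (cons (fin 1105 0 1037)
(mv 912 (cons (mv 1103 (cons (fin 848 5 847)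
(fin 1167 5 911)))
(cons (mv 847 (cons (fin 911 7 847)
(mv 848 (cons (fin 783 7 783)
(mv 849 (cons (fin 785 6 784)
(fin 913 6 848)))))))
(mv 847 (cons (fin 911 7 847)
(mv 849 (cons (fin 913 6 848)
(mv 1167 (cons (fin 1103 5 911)
(mv 1168 (cons (fin 1231 5 975)
(mv 1232 (cons (fin 975 7 975)
(mv 1233 (cons (fin 1169 4 976)
(fin 1297 4 1040))))))))))))))))))))))))
(mv 976 (cons (fin 977 2 973)
(mv 1100 (cons (fin 1101 1 1036)
(mv 1104 (cons (fin 1105 0 1037)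
(mv 912 (cons (mv 1103 (cons (fin 848 5 847)
(fin 1167 5 911)))
(cons (mv 847 (cons (fin 911 7 847)
(mv 848 (cons (fin 783 7 783)
(mv 849 (cons (fin 785 6 784)
(fin 913 6 848)))))))
(mv 847 (cons (fin 911 7 847)
(mv 849 (cons (fin 913 6 848)
(mv 1167 (cons (fin 1103 5 911)
(mv 1168 (cons (fin 1231 5 975)
(mv 1232 (cons (fin 975 7 975)
(mv 1233 (cons (fin 1169 4 976)
(fin 1297 4 1040)))))))))))))))))))))))
(cons (mv 972 (cons (fin 973 3 972)
(mv 976 (cons (fin 977 2 973)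
(mv 1104 (cons (fin 1105 0 1037)
(mv 912 (cons (mv 1103 (cons (fin 848 5 847)
(fin 1167 5 911)))
(cons (mv 847 (cons (fin 911 7 847)
(mv 848 (cons (fin 783 7 783)
(mv 849 (cons (fin 785 6 784)
(fin 913 6 848)))))))
(mv 847 (cons (fin 911 7 847)
(mv 849 (cons (fin 913 6 848)
(mv 1167 (cons (fin 1103 5 911)
(mv 1168 (cons (fin 1231 5 975)
(mv 1232 (cons (fin 975 7 975)
(mv 1233 (cons (fin 1169 4 976)
(fin 1297 4 1040))))))))))))))))))))))
(mv 972 (cons (fin 973 3 972)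
(mv 1101 (cons (fin 1100 1 1036)
(mv 1104 (cons (fin 1105 0 1037)
(mv 1165 (cons (cons (mv 974 (cons (fin 1229 6 973)
(mv 910 (cons (fin 846 5 845)
(fin 1102 5 909)))))
(mv 1102 (cons (cons (mv 910 (cons (fin 974 5 909)
(mv 1103 (cons (fin 1164 1 1100)
(mv 1168 (cons (fin 1169 0 1101)
(mv 975 (cons (fin 1232 7 975)
(fin 911 4 911)))))))))
(mv 974 (cons (fin 910 5 909)
(mv 1166 (cons (mv 975 (cons (fin 911 6 910)
(fin 1230 6 974)))
(cons (mv 1230 (cons (fin 1294 7 1037)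
(mv 1231 (cons (fin 1167 4 974)
(fin 1295 4 1038)))))
(mv 975 (cons (fin 911 6 910)
(mv 1167 (cons (fin 1231 4 974)
(mv 1168 (cons (fin 1169 3 1101)
(fin 1232 7 975)))))))))))))
(cons (mv 1103 (cons (fin 1164 1 1100)
(mv 1168 (cons (fin 1169 0 1101)
(mv 975 (cons (fin 1232 7 975)
(fin 911 4 911)))))))
(cons (mv 910 (cons (fin 974 5 909)
(mv 1103 (cons (fin 1164 1 1100)
(mv 1168 (cons (fin 1169 0 1101)
(mv 1232 (cons (fin 1296 7 1039)
(mv 1231 (cons (fin 1295 5 1039)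
(mv 1233 (cons (fin 1297 4 1040)
(mv 1166 (cons (fin 1230 3 1165)
(fin 1167 0 1165)))))))))))))))
(mv 910 (cons (fin 974 5 909)
(mv 1164 (cons (fin 1103 1 1100)
(mv 1163 (cons (fin 1162 2 1098)
(mv 1166 (cons (mv 1230 (cons (fin 1231 0 1163)
(fin 1294 7 1037)))
(mv 1099 (cons (fin 1098 3 1098)
(mv 1227 (cons (fin 1226 1 1162)
(mv 1228 (cons (fin 1167 1 1163)
(mv 1035 (cons (fin 971 4 971)
(fin 1292 4 1035))))))))))))))))))))))
(cons (mv 1229 (cons (cons (mv 1102 (cons (fin 1293 6 1037)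
(mv 1103 (cons (fin 1164 1 1100)
(mv 1168 (cons (fin 1169 0 1101)
(mv 975 (cons (fin 1232 7 975)
(fin 911 4 911)))))))))
(mv 1228 (cons (fin 1292 5 1036)
(mv 1230 (cons (fin 1294 4 1037)
(mv 1231 (cons (mv 1164 (cons (fin 1163 3 1163)
(fin 1232 3 1164)))
(mv 1167 (cons (fin 1168 2 1164)
(mv 1295 (cons (fin 1296 0 1228)
(fin 1103 6 1039))))))))))))
(cons (mv 1102 (cons (fin 1293 6 1037)
(mv 1103 (cons (fin 1164 1 1100)
(mv 1228 (cons (fin 1292 5 1036)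
(mv 1230 (cons (fin 1294 4 1037)
(mv 1166 (cons (fin 975 6 974)
(mv 1227 (cons (fin 1226 2 1162)
(fin 1167 2 1163)))))))))))))
(cons (mv 1102 (cons (fin 1293 6 1037)
(mv 1228 (cons (fin 1292 5 1036)
(mv 1230 (cons (fin 1294 4 1037)
(mv 975 (cons (fin 1166 6 974)
(mv 911 (cons (fin 847 5 846)
(mv 1168 (cons (fin 1232 7 975)
(fin 1103 4 911)))))))))))))
(mv 1102 (cons (fin 1293 6 1037)
(mv 1228 (cons (fin 1292 5 1036)
(mv 1230 (cons (fin 1294 4 1037)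
(mv 975 (cons (fin 1166 6 974)
(mv 847 (cons (fin 911 5 846)
(mv 1232 (cons (fin 1168 7 975)
(mv 1231 (cons (fin 1164 3 1164)
(mv 1296 (cons (fin 1295 0 1228)
(fin 1297 0 1229)))))))))))))))))))))
(mv 1229 (cons (fin 974 6 973)
(mv 1230 (cons (fin 1294 4 1037)
(mv 1292 (cons (fin 1228 5 1036)
(mv 1293 (cons (fin 1356 5 1100)
(mv 1232 (cons (fin 1231 1 1228)
(mv 1168 (cons (fin 975 7 975)
(mv 1233 (cons (fin 1297 4 1040)
(mv 1166 (cons (fin 1167 0 1165)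
(mv 1296 (cons (fin 1103 7 1039)
(mv 1357 (cons (fin 1421 6 1165)
(mv 1358 (cons (fin 1422 4 1165)
(mv 1359 (cons (fin 1360 3 1292)
(fin 1295 5 1103))))))))))))))))))))))))))))))))))))
(cons (cons (mv 973 (cons (fin 972 3 972)
(mv 976 (cons (fin 977 2 973)
(mv 1100 (cons (fin 1101 1 1036)
(mv 909 (cons (cons (mv 845 (cons (fin 1102 4 845)
(mv 780 (cons (fin 844 7 780)
(mv 781 (cons (fin 716 7 716)
(fin 974 4 781)))))))
(mv 974 (cons (cons (mv 975 (cons (fin 908 3 908)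
(mv 912 (cons (fin 913 2 909)
(mv 848 (cons (fin 784 5 783)
(fin 1103 5 847)))))))
(mv 1102 (cons (fin 1166 7 909)
(mv 910 (cons (mv 846 (cons (fin 782 5 781)
(fin 1103 4 846)))
(cons (mv 846 (cons (fin 782 5 781)
(mv 847 (cons (fin 783 6 782)
(fin 911 6 846)))))
(mv 911 (cons (fin 847 6 846)
(mv 912 (cons (fin 913 1 909)
(mv 848 (cons (fin 849 2 845)
(fin 1103 5 847)))))))))))))
(cons (mv 975 (cons (fin 908 3 908)
(mv 912 (cons (fin 913 2 909)
(mv 848 (cons (fin 784 5 783)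
(mv 785 (cons (fin 849 6 784)
(mv 847 (cons (fin 783 7 783)
(mv 1102 (cons (fin 1166 7 909)
(fin 911 5 846)))))))))))))
(mv 908 (cons (fin 975 3 908)
(mv 907 (cons (fin 906 0 906)
(mv 1102 (cons (fin 1166 7 909)
(mv 910 (cons (mv 846 (cons (fin 847 2 843)
(fin 782 5 781)))
(cons (mv 843 (cons (fin 842 3 842)
(mv 911 (cons (fin 844 3 843)
(fin 847 6 846)))))
(mv 846 (cons (fin 782 5 781)
(fin 1103 4 846))))))))))))))))
(cons (mv 845 (cons (mv 780 (cons (fin 844 7 780)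
(mv 781 (cons (fin 716 7 716)
(fin 974 4 781)))))
(cons (mv 780 (cons (fin 844 7 780)
(mv 846 (cons (fin 782 6 781)
(mv 848 (cons (mv 847 (cons (fin 908 1 844)
(mv 912 (cons (fin 913 0 845)
(fin 783 7 783)))))
(cons (mv 912 (cons (fin 1103 5 847)
(mv 784 (cons (fin 975 5 783)
(mv 785 (cons (fin 721 6 720)
(fin 849 6 784)))))))
(mv 847 (cons (fin 908 1 844)
(mv 784 (cons (fin 785 2 781)
(mv 849 (cons (fin 910 1 845)
(mv 911 (cons (fin 975 6 783)
(mv 914 (cons (fin 913 0 846)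
(mv 850 (cons (fin 915 0 847)
(mv 787 (cons (fin 786 2 783)
(mv 851 (cons (fin 783 3 783)
(fin 788 2 784))))))))))))))))))))))))
(mv 781 (cons (fin 974 4 781)
(mv 782 (cons (fin 718 6 717)
(fin 846 6 781))))))))
(cons (mv 845 (cons (fin 1102 4 845)
(mv 780 (cons (fin 844 7 780)
(mv 781 (cons (fin 716 7 716)
(mv 782 (cons (fin 718 6 717)
(fin 846 6 781)))))))))
(mv 845 (cons (fin 1102 4 845)
(mv 781 (cons (fin 974 4 781)
(mv 782 (cons (fin 718 6 717)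
(fin 846 6 781)))))))))))))))))
(mv 972 (cons (fin 973 3 972)
(mv 976 (cons (fin 977 2 973)
(mv 1100 (cons (fin 1101 1 1036)
(mv 1104 (cons (fin 1105 0 1037)
(mv 912 (cons (mv 1103 (cons (fin 848 5 847)
(fin 1167 5 911)))
(cons (mv 847 (cons (fin 911 7 847)
(mv 848 (cons (fin 783 7 783)
(mv 849 (cons (fin 785 6 784)
(fin 913 6 848)))))))
(mv 847 (cons (fin 911 7 847)
(mv 849 (cons (fin 913 6 848)
(mv 1168 (cons (cons (mv 1167 (cons (fin 1103 5 911)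
(fin 1231 5 975)))
(mv 1233 (cons (fin 1169 4 976)
(mv 1232 (cons (fin 1297 4 1040)
(mv 1295 (cons (fin 1231 5 1039)
(mv 1296 (cons (fin 1103 7 1039)
(fin 1359 5 1103))))))))))
(cons (mv 1231 (cons (fin 1167 5 975)
(mv 1232 (cons (fin 1295 5 1039)
(mv 1233 (cons (fin 1169 4 976)
(fin 1297 4 1040)))))))
(mv 1103 (cons (fin 1167 5 911)
(mv 1232 (cons (fin 1296 7 1039)
(mv 1233 (cons (fin 1169 4 976)
(fin 1297 4 1040))))))))))))))))))))))))))
(cons (mv 972 (cons (fin 973 3 972)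
(mv 976 (cons (fin 977 2 973)
(mv 1100 (cons (fin 1101 1 1036)
(mv 1104 (cons (fin 1105 0 1037)
(mv 1168 (cons (mv 975 (cons (fin 911 7 911)
(fin 1232 7 975)))
(cons (mv 1231 (cons (fin 1167 5 975)
(mv 1232 (cons (fin 1295 5 1039)
(mv 1233 (cons (fin 1169 4 976)
(fin 1297 4 1040)))))))
(mv 1167 (cons (fin 1231 5 975)
(mv 1169 (cons (fin 1233 4 976)
(mv 912 (cons (cons (mv 911 (cons (fin 847 7 847)
(fin 975 7 911)))
(mv 849 (cons (fin 913 6 848)
(mv 848 (cons (fin 785 6 784)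
(mv 783 (cons (fin 847 7 783)
(mv 784 (cons (fin 719 7 719)
(fin 975 5 783))))))))))
(cons (mv 847 (cons (fin 911 7 847)
(mv 848 (cons (fin 783 7 783)
(mv 849 (cons (fin 785 6 784)
(fin 913 6 848)))))))
(mv 849 (cons (fin 913 6 848)
(mv 848 (cons (fin 785 6 784)
(mv 975 (cons (fin 911 7 911)
(fin 784 5 783)))))))))))))))))))))))))
(cons (mv 972 (cons (fin 973 3 972)
(mv 976 (cons (fin 977 2 973)
(mv 1100 (cons (fin 1101 1 1036)
(mv 1104 (cons (fin 1105 0 1037)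
(mv 912 (cons (mv 1103 (cons (fin 848 5 847)
(fin 1167 5 911)))
(cons (mv 849 (cons (fin 913 6 848)
(mv 848 (cons (fin 785 6 784)
(mv 783 (cons (fin 847 7 783)
(mv 784 (cons (fin 719 7 719)
(fin 975 5 783)))))))))
(mv 849 (cons (fin 913 6 848)
(mv 1167 (cons (fin 1103 5 911)
(mv 1168 (cons (fin 1231 5 975)
(mv 1232 (cons (fin 975 7 975)
(mv 1233 (cons (fin 1169 4 976)
(fin 1297 4 1040))))))))))))))))))))))
(mv 972 (cons (fin 973 3 972)
(mv 976 (cons (fin 977 2 973)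
(mv 1100 (cons (fin 1101 1 1036)
(mv 1104 (cons (fin 1105 0 1037)
(mv 1168 (cons (mv 975 (cons (fin 911 7 911)
(fin 1232 7 975)))
(mv 1167 (cons (fin 1231 5 975)
(mv 1103 (cons (fin 912 5 911)
(mv 1169 (cons (fin 1233 4 976)
(mv 1170 (cons (fin 1102 3 1102)
(fin 1171 3 1103))))))))))))))))))))))))
(cons (mv 1038 (cons (cons (mv 972 (cons (fin 973 3 972)
(mv 976 (cons (fin 977 2 973)
(mv 1036 (cons (fin 971 3 971)
(fin 975 2 972)))))))
(mv 972 (cons (fin 973 3 972)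
(mv 1036 (cons (fin 971 3 971)
(mv 1100 (cons (fin 1099 1 1035)
(fin 1101 1 1036))))))))
(cons (mv 976 (cons (fin 977 2 973)
(mv 975 (cons (fin 1036 2 972)
(mv 1100 (cons (fin 1101 1 1036)
(mv 1104 (cons (fin 1105 0 1037)
(mv 1168 (cons (fin 1232 7 975)
(mv 1167 (cons (fin 1231 5 975)
(mv 912 (cons (fin 1103 5 911)
(mv 848 (cons (fin 784 5 783)
(mv 849 (cons (fin 785 6 784)
(fin 913 6 848)))))))))))))))))))
(mv 972 (cons (fin 973 3 972)
(mv 976 (cons (fin 977 2 973)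
(mv 1100 (cons (fin 1101 1 1036)
(mv 1104 (cons (fin 1105 0 1037)
(mv 912 (cons (mv 1103 (cons (fin 848 5 847)
(fin 1167 5 911)))
(cons (mv 849 (cons (fin 913 6 848)
(mv 848 (cons (fin 785 6 784)
(mv 783 (cons (fin 847 7 783)
(mv 784 (cons (fin 719 7 719)
(fin 975 5 783)))))))))
(mv 849 (cons (fin 913 6 848)
(mv 1167 (cons (fin 1103 5 911)
(mv 1168 (cons (fin 1231 5 975)
(mv 1232 (cons (fin 975 7 975)
(mv 1233 (cons (fin 1169 4 976)
(fin 1297 4 1040)))))))))))))))))))))))))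
(mv 1038 (cons (cons (mv 972 (cons (fin 973 3 972)
(mv 976 (cons (fin 977 2 973)
(mv 1036 (cons (fin 971 3 971)
(fin 975 2 972)))))))
(mv 972 (cons (fin 973 3 972)
(mv 1036 (cons (fin 971 3 971)
(mv 1100 (cons (fin 1099 1 1035)
(fin 1101 1 1036))))))))
(cons (mv 976 (cons (fin 977 2 973)
(mv 975 (cons (fin 1036 2 972)
(mv 1100 (cons (fin 1101 1 1036)
(mv 1104 (cons (fin 1105 0 1037)
(mv 1168 (cons (fin 911 7 911)
(fin 1232 7 975)))))))))))
(mv 972 (cons (fin 973 3 972)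
(mv 976 (cons (fin 977 2 973)
(mv 1100 (cons (fin 1101 1 1036)
(mv 1104 (cons (fin 1105 0 1037)
(mv 1168 (cons (mv 975 (cons (fin 911 7 911)
(fin 1232 7 975)))
(mv 1167 (cons (fin 1231 5 975)
(mv 1103 (cons (fin 912 5 911)
(mv 1169 (cons (fin 1233 4 976)
(mv 1170 (cons (fin 1102 3 1102)
(fin 1171 3 1103)))))))))))))))))))))))))))
def l11 : Lem := ⟨17672042592950510299342161747532428741358160893794450532607270698129752962383966679797774154701950421020191674846877452631289669433532411657536873821582864322832094995237976664601613395680896036318715866521764407099865564676993471100411554418605480722106008602337571462179774064736310031630534868627379729584881664, 638287770771184569045557835665258977442303242144013838582436157581900453823026003971607442832522074085855238775155780737708024798476267828196610472258318637243282553190846293309552422513289853012448142339904390708157346613998133875955866852224678128356395980715843408081925937847584377844695390759045236268822673231940887014529580977613989503686418154885388493925377530387895526008226526936028772153582592754405919183038469636096,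 638287770771184569045557835665258977442303242144013838582436157581900453823026003971607442832522074085855238775155780737708024798476267828196610472258318637243282553190846293309552422513289853012448142339904390708157346613998133875955866852224678128356395980715843408081925937847584377844695390759045236268822673231940887014529580977613989503686418154885388493925377530387895526008226526936028772153582592754405919183038469636096, 19, 33⟩
theorem l11_valid : l11.Valid :=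
  Lem.valid_of_chk t11 t11_valid [1039, 1040] c11 l11 (by decide +kernel)
end Crest.Agent.SnakyAux
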