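import Crest.Agent.S0047_aux.Checker

set_option autoImplicit false
set_option maxRecDepth 100000
namespace Crest.Agent.SnakyAux
open Cert
def t110 : Tbl := Tbl.nil
theorem t110_valid : t110.Valid := Tbl.valid_nil
def c110 : Cert :=
(mv 973 (cons (cons (cons (cons (mv 1038 (cons (cons (mv 1039 (cons (fin 972 3 972)
(mv 976 (cons (fin 977 2 973)
(mv 975 (cons (fin 1036 2 972)
(mv 1100 (cons (fin 1101 1 1036)
(mv 1104 (cons (fin 1105 0 1037)
(mv 911 (cons (fin 1168 7 911)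
(fin 847 4 847)))))))))))))
(cons (mv 1102 (cons (cons (mv 909 (cons (fin 845 4 845)
(mv 1166 (cons (fin 974 7 909)
(fin 1230 7 973)))))
(mv 1166 (cons (fin 1230 7 973)
(mv 974 (cons (mv 911 (cons (fin 975 6 910)
(mv 910 (cons (fin 847 6 846)
(mv 846 (cons (fin 782 5 781)
(fin 1101 5 845)))))))
(cons (mv 1165 (cons (fin 1229 5 973)
(mv 910 (cons (fin 1101 5 909)
(mv 1167 (cons (fin 1103 4 910)
(fin 1231 4 974)))))))
(mv 975 (cons (fin 911 6 910)
(mv 976 (cons (fin 1036 1 972)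
(fin 977 1 973)))))))))))
(cons (mv 909 (cons (fin 845 4 845)
(mv 1101 (cons (cons (mv 844 (cons (fin 908 7 844)
(mv 846 (cons (fin 910 6 845)
(mv 1100 (cons (fin 1164 5 908)
(mv 1099 (cons (fin 1098 2 1034)
(mv 1035 (cons (fin 1034 3 1034)
(mv 1036 (cons (fin 1103 3 1035)
(mv 970 (cons (fin 971 3 970)
(mv 974 (cons (fin 975 2 971)
(mv 1163 (cons (fin 1162 1 1098)
(mv 1227 (cons (fin 972 6 971)
(fin 1291 6 1035)))))))))))))))))))))
(cons (mv 844 (cons (fin 908 7 844)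
(mv 1100 (cons (fin 1164 5 908)
(mv 1099 (cons (fin 1098 2 1034)
(mv 1035 (cons (fin 1034 3 1034)
(mv 1036 (cons (fin 1103 3 1035)
(mv 970 (cons (fin 971 3 970)
(mv 974 (cons (fin 975 2 971)
(mv 1163 (cons (fin 1162 1 1098)
(mv 1227 (cons (fin 972 6 971)
(fin 1291 6 1035)))))))))))))))))))
(mv 844 (cons (fin 908 7 844)
(mv 910 (cons (fin 846 6 845)
(mv 974 (cons (fin 1165 5 909)
(mv 847 (cons (fin 911 6 846)
(mv 1103 (cons (fin 1167 4 910)
(mv 1036 (cons (fin 1104 3 1036)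
(fin 1035 0 1035)))))))))))))))
(cons (mv 846 (cons (fin 910 6 845)
(mv 1100 (cons (fin 1164 5 908)
(mv 1099 (cons (fin 1098 2 1034)
(mv 1035 (cons (fin 1034 3 1034)
(mv 1036 (cons (fin 1103 3 1035)
(mv 970 (cons (fin 971 3 970)
(mv 974 (cons (fin 975 2 971)
(mv 1163 (cons (fin 1162 1 1098)
(mv 1227 (cons (fin 972 6 971)
(fin 1291 6 1035)))))))))))))))))))
(cons (mv 844 (cons (fin 908 7 844)
(mv 846 (cons (fin 910 6 845)
(mv 1100 (cons (fin 1164 5 908)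
(mv 1099 (cons (fin 1098 2 1034)
(mv 1035 (cons (fin 1034 3 1034)
(mv 1036 (cons (fin 1103 3 1035)
(mv 970 (cons (fin 971 3 970)
(mv 1163 (cons (fin 1162 1 1098)
(mv 1227 (cons (fin 972 6 971)
(fin 1291 6 1035)))))))))))))))))))
(mv 844 (cons (fin 908 7 844)
(mv 846 (cons (fin 910 6 845)
(mv 1164 (cons (fin 1100 5 908)
(mv 1165 (cons (fin 1228 5 972)
(mv 1229 (cons (fin 974 6 973)
(fin 1293 6 1037)))))))))))))))))
(mv 909 (cons (fin 845 4 845)
(mv 1166 (cons (fin 1230 7 973)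
(fin 1101 4 909))))))))
(mv 1039 (cons (cons (mv 976 (cons (fin 977 2 973)
(mv 975 (cons (fin 1036 2 972)
(mv 1100 (cons (fin 1101 1 1036)
(mv 1104 (cons (fin 1105 0 1037)
(mv 911 (cons (fin 1168 7 911)
(fin 847 4 847)))))))))))
(mv 976 (cons (fin 977 2 973)
(mv 975 (cons (fin 1036 2 972)
(mv 1104 (cons (fin 1105 0 1037)
(mv 911 (cons (fin 1168 7 911)
(fin 847 4 847))))))))))
(cons (mv 976 (cons (fin 977 2 973)
(mv 1036 (cons (fin 975 2 972)
(mv 1100 (cons (fin 1099 1 1035)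
(fin 1101 1 1036)))))))
(cons (mv 1100 (cons (fin 1101 1 1036)
(mv 1036 (cons (fin 1099 1 1035)
(mv 1104 (cons (fin 1103 0 1036)
(fin 1105 0 1037)))))))
(mv 976 (cons (fin 977 2 973)
(mv 1100 (cons (fin 1101 1 1036)
(mv 1104 (cons (fin 1105 0 1037)
(mv 1168 (cons (cons (mv 975 (cons (fin 911 7 911)
(fin 1232 7 975)))
(mv 1167 (cons (fin 1231 5 975)
(mv 912 (cons (fin 1103 5 911)
(mv 847 (cons (fin 911 7 847)
(mv 849 (cons (fin 913 6 848)
(mv 1233 (cons (fin 1169 4 976)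
(mv 1232 (cons (fin 1297 4 1040)
(mv 1166 (cons (fin 1165 0 1165)
(mv 1102 (cons (fin 1230 7 973)
(mv 909 (cons (fin 974 7 909)
(fin 845 4 845))))))))))))))))))))
(cons (mv 911 (cons (fin 975 7 911)
(mv 912 (cons (fin 847 7 847)
(mv 1167 (cons (fin 1103 5 911)
(fin 1231 5 975)))))))
(mv 975 (cons (fin 1232 7 975)
(mv 1167 (cons (fin 1231 5 975)
(mv 912 (cons (fin 1103 5 911)
(mv 913 (cons (fin 974 2 909)
(fin 849 6 848))))))))))))))))))))))))
(cons (cons (mv 1039 (cons (fin 972 3 972)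
(mv 976 (cons (fin 977 2 973)
(mv 975 (cons (fin 1036 2 972)
(mv 1104 (cons (fin 1105 0 1037)
(mv 911 (cons (fin 1168 7 911)
(fin 847 4 847)))))))))))
(mv 1039 (cons (fin 972 3 972)
(mv 1100 (cons (fin 1101 1 1036)
(mv 1036 (cons (fin 1099 1 1035)
(mv 1104 (cons (fin 1103 0 1036)
(fin 1105 0 1037))))))))))
(cons (mv 1039 (cons (fin 972 3 972)
(mv 976 (cons (fin 977 2 973)
(mv 1036 (cons (fin 975 2 972)
(mv 1100 (cons (fin 1099 1 1035)
(fin 1101 1 1036)))))))))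
(mv 1039 (cons (fin 972 3 972)
(mv 976 (cons (fin 977 2 973)
(mv 1100 (cons (fin 1101 1 1036)
(mv 1104 (cons (fin 1105 0 1037)
(mv 1168 (cons (cons (mv 975 (cons (fin 911 7 911)
(fin 1232 7 975)))
(mv 1167 (cons (fin 1231 5 975)
(mv 912 (cons (fin 1103 5 911)
(mv 847 (cons (fin 911 7 847)
(mv 849 (cons (fin 913 6 848)
(mv 1233 (cons (fin 1169 4 976)
(mv 1232 (cons (fin 1297 4 1040)
(mv 1166 (cons (fin 1165 0 1165)
(mv 1102 (cons (fin 1230 7 973)
(mv 909 (cons (fin 974 7 909)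
(fin 845 4 845))))))))))))))))))))
(cons (mv 911 (cons (fin 975 7 911)
(mv 912 (cons (fin 847 7 847)
(mv 1167 (cons (fin 1103 5 911)
(fin 1231 5 975)))))))
(mv 975 (cons (fin 1232 7 975)
(mv 1167 (cons (fin 1231 5 975)
(mv 912 (cons (fin 1103 5 911)
(mv 913 (cons (fin 974 2 909)
(fin 849 6 848))))))))))))))))))))))))
(mv 1101 (cons (cons (mv 1165 (cons (cons (mv 908 (cons (fin 972 7 908)
(mv 844 (cons (fin 909 7 844)
(mv 910 (cons (fin 974 6 909)
(mv 1228 (cons (fin 1164 5 972)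
(mv 1229 (cons (fin 1292 5 1036)
(mv 1230 (cons (fin 1166 4 973)
(fin 1294 4 1037)))))))))))))
(mv 908 (cons (fin 972 7 908)
(mv 909 (cons (fin 844 7 844)
(mv 910 (cons (fin 846 6 845)
(fin 974 6 909))))))))
(cons (mv 910 (cons (fin 974 6 909)
(mv 846 (cons (fin 909 6 845)
(mv 1228 (cons (fin 1164 5 972)
(mv 1229 (cons (fin 1292 5 1036)
(mv 1230 (cons (fin 1166 4 973)
(fin 1294 4 1037)))))))))))
(cons (mv 908 (cons (fin 972 7 908)
(mv 844 (cons (fin 909 7 844)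
(mv 1228 (cons (fin 1164 5 972)
(mv 1229 (cons (fin 1292 5 1036)
(mv 1230 (cons (fin 1166 4 973)
(fin 1294 4 1037)))))))))))
(mv 908 (cons (fin 972 7 908)
(mv 910 (cons (fin 974 6 909)
(mv 1228 (cons (fin 1164 5 972)
(mv 1229 (cons (fin 1292 5 1036)
(mv 1230 (cons (fin 1166 4 973)
(fin 1294 4 1037)))))))))))))))
(cons (mv 909 (cons (cons (mv 844 (cons (fin 908 7 844)
(mv 780 (cons (fin 845 7 780)
(mv 846 (cons (fin 910 6 845)
(mv 1100 (cons (fin 1164 5 908)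
(mv 1102 (cons (fin 1166 4 909)
(mv 1103 (cons (fin 1039 2 1036)
(mv 1036 (cons (fin 1035 3 1035)
(fin 1104 3 1036)))))))))))))))
(mv 844 (cons (fin 908 7 844)
(mv 845 (cons (fin 780 7 780)
(mv 846 (cons (fin 782 6 781)
(fin 910 6 845))))))))
(cons (mv 846 (cons (fin 910 6 845)
(mv 782 (cons (fin 845 6 781)
(mv 1100 (cons (fin 1164 5 908)
(mv 1102 (cons (fin 1166 4 909)
(mv 1103 (cons (fin 1039 2 1036)
(mv 1036 (cons (fin 1035 3 1035)
(fin 1104 3 1036)))))))))))))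
(cons (mv 844 (cons (fin 908 7 844)
(mv 780 (cons (fin 845 7 780)
(mv 1100 (cons (fin 1164 5 908)
(mv 1102 (cons (fin 1166 4 909)
(mv 1103 (cons (fin 1039 2 1036)
(mv 1036 (cons (fin 1035 3 1035)
(fin 1104 3 1036)))))))))))))
(mv 844 (cons (fin 908 7 844)
(mv 846 (cons (fin 910 6 845)
(mv 1100 (cons (fin 1164 5 908)
(mv 1102 (cons (fin 1166 4 909)
(mv 1103 (cons (fin 1039 2 1036)
(mv 1036 (cons (fin 1035 3 1035)
(fin 1104 3 1036)))))))))))))))))
(mv 1165 (cons (cons (mv 908 (cons (fin 972 7 908)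
(mv 910 (cons (fin 974 6 909)
(mv 1228 (cons (fin 1164 5 972)
(mv 1229 (cons (fin 1292 5 1036)
(mv 1230 (cons (fin 1166 4 973)
(fin 1294 4 1037)))))))))))
(cons (mv 910 (cons (fin 974 6 909)
(mv 1228 (cons (fin 1164 5 972)
(mv 1229 (cons (fin 1292 5 1036)
(mv 1230 (cons (fin 1166 4 973)
(fin 1294 4 1037)))))))))
(mv 910 (cons (fin 974 6 909)
(mv 972 (cons (fin 908 7 908)
(mv 1229 (cons (fin 1036 7 972)
(mv 1230 (cons (fin 1166 4 973)
(fin 1294 4 1037)))))))))))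
(cons (mv 910 (cons (fin 974 6 909)
(mv 972 (cons (fin 908 7 908)
(mv 1228 (cons (fin 1164 5 972)
(mv 1229 (cons (fin 1036 7 972)
(fin 1292 5 1036)))))))))
(cons (mv 908 (cons (fin 972 7 908)
(mv 1228 (cons (fin 1164 5 972)
(mv 1229 (cons (fin 1292 5 1036)
(mv 1230 (cons (fin 1166 4 973)
(fin 1294 4 1037)))))))))
(mv 972 (cons (fin 908 7 908)
(mv 974 (cons (fin 910 6 909)
(mv 975 (cons (fin 1039 0 972)
(mv 1036 (cons (fin 1035 1 971)
(fin 976 1 972)))))))))))))))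
(cons (cons (mv 909 (cons (cons (mv 844 (cons (fin 908 7 844)
(mv 780 (cons (fin 845 7 780)
(mv 910 (cons (fin 846 6 845)
(mv 1165 (cons (fin 974 6 909)
(mv 1166 (cons (fin 1102 4 909)
(fin 1230 4 973)))))))))))
(cons (mv 846 (cons (fin 910 6 845)
(mv 845 (cons (fin 782 6 781)
(mv 780 (cons (fin 844 7 780)
(mv 781 (cons (fin 716 7 716)
(mv 1036 (cons (fin 972 5 780)
(fin 1100 5 844)))))))))))
(mv 844 (cons (fin 908 7 844)
(mv 845 (cons (fin 780 7 780)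
(mv 782 (cons (fin 846 6 781)
(mv 781 (cons (fin 718 6 717)
(mv 1036 (cons (fin 972 5 780)
(fin 1100 5 844)))))))))))))
(cons (mv 846 (cons (fin 910 6 845)
(mv 845 (cons (fin 782 6 781)
(mv 1036 (cons (fin 1100 5 844)
(mv 972 (cons (fin 781 5 780)
(mv 1165 (cons (fin 908 7 908)
(fin 1229 7 972)))))))))))
(cons (mv 844 (cons (fin 908 7 844)
(mv 845 (cons (fin 780 7 780)
(mv 1036 (cons (fin 1100 5 844)
(mv 972 (cons (fin 781 5 780)
(mv 1102 (cons (fin 1166 4 909)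
(mv 1034 (cons (fin 1035 0 1034)
(mv 1103 (cons (fin 1104 3 1036)
(mv 1165 (cons (fin 1229 7 972)
(mv 974 (cons (fin 910 6 909)
(mv 975 (cons (fin 976 1 972)
(fin 1039 0 972)))))))))))))))))))))
(mv 844 (cons (fin 908 7 844)
(mv 910 (cons (fin 846 6 845)
(mv 1165 (cons (fin 974 6 909)
(mv 1166 (cons (fin 1102 4 909)
(fin 1230 4 973)))))))))))))
(mv 1165 (cons (cons (mv 910 (cons (fin 974 6 909)
(mv 846 (cons (fin 909 6 845)
(mv 1166 (cons (fin 1230 4 973)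
(mv 1228 (cons (fin 1164 5 972)
(mv 1229 (cons (fin 1292 5 1036)
(mv 1036 (cons (fin 972 7 972)
(mv 1100 (cons (fin 1293 7 1036)
(mv 1099 (cons (fin 1098 0 1098)
(mv 1167 (cons (fin 1168 3 1100)
(fin 1102 0 1099)))))))))))))))))))
(cons (mv 910 (cons (fin 974 6 909)
(mv 846 (cons (fin 909 6 845)
(mv 1230 (cons (fin 1166 4 973)
(mv 1229 (cons (fin 1294 4 1037)
(mv 1036 (cons (fin 972 7 972)
(mv 1292 (cons (fin 1228 5 1036)
(mv 1293 (cons (fin 1100 7 1036)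
(fin 1356 5 1100)))))))))))))))
(mv 910 (cons (fin 974 6 909)
(mv 846 (cons (fin 909 6 845)
(mv 1228 (cons (fin 1164 5 972)
(mv 1229 (cons (fin 1292 5 1036)
(mv 1036 (cons (fin 972 7 972)
(mv 1293 (cons (fin 1100 7 1036)
(mv 1294 (cons (fin 1230 4 1037)
(fin 1358 4 1101)))))))))))))))))
(cons (cons (mv 910 (cons (fin 974 6 909)
(mv 909 (cons (fin 846 6 845)
(mv 1166 (cons (fin 1102 4 909)
(fin 1230 4 973)))))))
(mv 910 (cons (fin 974 6 909)
(mv 909 (cons (fin 846 6 845)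
(mv 1164 (cons (fin 1100 5 908)
(fin 1228 5 972))))))))
(cons (mv 1164 (cons (fin 1228 5 972)
(mv 909 (cons (fin 1100 5 908)
(mv 1166 (cons (fin 1102 4 909)
(fin 1230 4 973)))))))
(mv 910 (cons (fin 974 6 909)
(mv 1166 (cons (fin 1230 4 973)
(mv 1228 (cons (fin 1164 5 972)
(mv 1229 (cons (fin 1292 5 1036)
(mv 1036 (cons (fin 972 7 972)
(mv 1100 (cons (fin 1293 7 1036)
(mv 1099 (cons (fin 1098 0 1098)
(mv 1167 (cons (fin 1168 3 1100)
(fin 1102 0 1099))))))))))))))))))))))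
(cons (mv 909 (cons (cons (mv 844 (cons (fin 908 7 844)
(mv 780 (cons (fin 845 7 780)
(mv 910 (cons (fin 846 6 845)
(mv 1164 (cons (fin 1100 5 908)
(mv 1165 (cons (fin 1228 5 972)
(fin 974 6 909)))))))))))
(mv 846 (cons (fin 910 6 845)
(mv 845 (cons (fin 782 6 781)
(mv 1100 (cons (fin 1036 5 844)
(fin 1164 5 908))))))))
(cons (mv 844 (cons (fin 908 7 844)
(mv 845 (cons (fin 780 7 780)
(mv 1100 (cons (fin 1036 5 844)
(fin 1164 5 908)))))))
(cons (mv 844 (cons (fin 908 7 844)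
(mv 845 (cons (fin 780 7 780)
(mv 846 (cons (fin 782 6 781)
(fin 910 6 845)))))))
(mv 844 (cons (fin 908 7 844)
(mv 910 (cons (fin 846 6 845)
(mv 1164 (cons (fin 1100 5 908)
(mv 1165 (cons (fin 1228 5 972)
(fin 974 6 909)))))))))))))
(mv 1165 (cons (cons (mv 908 (cons (fin 972 7 908)
(mv 844 (cons (fin 909 7 844)
(mv 1228 (cons (fin 1164 5 972)
(mv 1229 (cons (fin 1292 5 1036)
(mv 1230 (cons (fin 1166 4 973)
(fin 1294 4 1037)))))))))))
(mv 908 (cons (fin 972 7 908)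
(mv 909 (cons (fin 844 7 844)
(mv 1166 (cons (fin 1102 4 909)
(fin 1230 4 973))))))))
(cons (mv 908 (cons (fin 972 7 908)
(mv 909 (cons (fin 844 7 844)
(mv 1164 (cons (fin 1100 5 908)
(fin 1228 5 972)))))))
(cons (mv 1164 (cons (fin 1228 5 972)
(mv 909 (cons (fin 1100 5 908)
(mv 1166 (cons (fin 1102 4 909)
(fin 1230 4 973)))))))
(mv 908 (cons (fin 972 7 908)
(mv 1228 (cons (fin 1164 5 972)
(mv 1229 (cons (fin 1292 5 1036)
(mv 1230 (cons (fin 1166 4 973)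
(fin 1294 4 1037))))))))))))))))))
(cons (mv 1101 (cons (cons (cons (mv 909 (cons (cons (cons (mv 844 (cons (fin 908 7 844)
(mv 780 (cons (fin 845 7 780)
(mv 846 (cons (fin 910 6 845)
(mv 1100 (cons (fin 1164 5 908)
(mv 1038 (cons (fin 1039 1 1036)
(mv 1098 (cons (fin 1099 2 1034)
(mv 1166 (cons (fin 1102 4 909)
(mv 1165 (cons (fin 1230 4 973)
(mv 1167 (cons (fin 1168 3 1100)
(mv 1229 (cons (fin 974 6 973)
(mv 1292 (cons (fin 1228 5 1036)
(mv 1293 (cons (fin 1036 7 1036)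
(fin 1356 5 1100)))))))))))))))))))))))))
(mv 844 (cons (fin 908 7 844)
(mv 780 (cons (fin 845 7 780)
(mv 910 (cons (fin 846 6 845)
(mv 1102 (cons (fin 1166 4 909)
(mv 1165 (cons (fin 974 6 909)
(mv 1228 (cons (fin 1164 5 972)
(mv 1229 (cons (fin 1292 5 1036)
(mv 1293 (cons (fin 1038 6 1037)
(mv 1294 (cons (fin 1230 4 1037)
(fin 1358 4 1101))))))))))))))))))))
(cons (mv 844 (cons (fin 908 7 844)
(mv 780 (cons (fin 845 7 780)
(mv 910 (cons (fin 846 6 845)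
(mv 1100 (cons (fin 1164 5 908)
(mv 1038 (cons (fin 1039 1 1036)
(mv 1098 (cons (fin 1099 2 1034)
(mv 1165 (cons (fin 974 6 909)
(mv 1230 (cons (fin 1166 4 973)
(mv 1229 (cons (fin 1294 4 1037)
(mv 1292 (cons (fin 1228 5 1036)
(mv 1293 (cons (fin 1036 7 1036)
(fin 1356 5 1100)))))))))))))))))))))))
(mv 844 (cons (fin 908 7 844)
(mv 780 (cons (fin 845 7 780)
(mv 1100 (cons (fin 1164 5 908)
(mv 1038 (cons (fin 1039 1 1036)
(mv 1098 (cons (fin 1099 2 1034)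
(mv 1166 (cons (fin 1102 4 909)
(mv 1165 (cons (fin 1230 4 973)
(mv 1167 (cons (fin 1168 3 1100)
(mv 1229 (cons (fin 974 6 973)
(mv 1292 (cons (fin 1228 5 1036)
(mv 1293 (cons (fin 1036 7 1036)
(fin 1356 5 1100)))))))))))))))))))))))))
(cons (cons (mv 844 (cons (fin 908 7 844)
(mv 780 (cons (fin 845 7 780)
(mv 910 (cons (fin 846 6 845)
(mv 974 (cons (fin 1165 6 909)
(mv 1100 (cons (fin 1164 5 908)
(mv 1039 (cons (fin 1038 1 1036)
(mv 1103 (cons (fin 1102 2 1036)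
(mv 975 (cons (fin 1167 7 910)
(mv 976 (cons (fin 977 3 909)
(fin 1036 1 972)))))))))))))))))))
(mv 844 (cons (fin 908 7 844)
(mv 780 (cons (fin 845 7 780)
(mv 910 (cons (fin 846 6 845)
(mv 1165 (cons (fin 974 6 909)
(mv 1166 (cons (fin 1102 4 909)
(fin 1230 4 973))))))))))))
(cons (mv 846 (cons (fin 910 6 845)
(mv 782 (cons (fin 845 6 781)
(mv 1100 (cons (fin 1164 5 908)
(mv 1038 (cons (fin 1039 1 1036)
(mv 1098 (cons (fin 1099 2 1034)
(mv 1166 (cons (fin 1102 4 909)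
(mv 1165 (cons (fin 1230 4 973)
(mv 1167 (cons (fin 1168 3 1100)
(mv 1229 (cons (fin 974 6 973)
(mv 1292 (cons (fin 1228 5 1036)
(mv 1293 (cons (fin 1036 7 1036)
(fin 1356 5 1100)))))))))))))))))))))))
(cons (mv 844 (cons (fin 908 7 844)
(mv 846 (cons (fin 910 6 845)
(mv 1100 (cons (fin 1164 5 908)
(mv 1038 (cons (fin 1039 1 1036)
(mv 1098 (cons (fin 1099 2 1034)
(mv 1166 (cons (fin 1102 4 909)
(mv 1165 (cons (fin 1230 4 973)
(mv 1167 (cons (fin 1168 3 1100)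
(mv 1229 (cons (fin 974 6 973)
(mv 1292 (cons (fin 1228 5 1036)
(mv 1293 (cons (fin 1036 7 1036)
(fin 1356 5 1100)))))))))))))))))))))))
(mv 844 (cons (fin 908 7 844)
(mv 780 (cons (fin 845 7 780)
(mv 846 (cons (fin 910 6 845)
(mv 1100 (cons (fin 1164 5 908)
(mv 1038 (cons (fin 1039 1 1036)
(mv 1099 (cons (fin 1098 2 1034)
(mv 1102 (cons (fin 1166 4 909)
(mv 1035 (cons (fin 1034 3 1034)
(mv 1103 (cons (fin 1036 3 1035)
(mv 1104 (cons (fin 1105 3 1037)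
(mv 1168 (cons (fin 1167 0 1100)
(fin 1169 0 1101))))))))))))))))))))))))))))
(mv 1165 (cons (cons (mv 910 (cons (fin 974 6 909)
(mv 1228 (cons (fin 1164 5 972)
(mv 1229 (cons (fin 1292 5 1036)
(mv 1230 (cons (fin 1166 4 973)
(fin 1294 4 1037)))))))))
(mv 1228 (cons (fin 1164 5 972)
(mv 1229 (cons (fin 1292 5 1036)
(mv 1230 (cons (fin 1166 4 973)
(fin 1294 4 1037))))))))
(cons (mv 974 (cons (fin 910 6 909)
(mv 1038 (cons (fin 1229 6 973)
(mv 1039 (cons (fin 1100 1 1036)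
(mv 976 (cons (fin 977 2 973)
(mv 975 (cons (fin 1036 1 972)
(mv 912 (cons (fin 913 2 909)
(mv 1103 (cons (fin 1167 6 911)
(mv 1104 (cons (fin 1105 0 1037)
(mv 911 (cons (fin 847 7 847)
(fin 1168 7 911)))))))))))))))))))
(mv 910 (cons (fin 974 6 909)
(mv 1164 (cons (fin 1228 5 972)
(mv 1166 (cons (fin 1230 4 973)
(mv 1100 (cons (mv 1099 (cons (fin 1167 3 1099)
(fin 1098 0 1098)))
(cons (mv 1038 (cons (fin 1039 1 1036)
(mv 1167 (cons (fin 1168 3 1100)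
(mv 1103 (cons (fin 1104 2 1100)
(mv 1102 (cons (fin 1163 1 1099)
(mv 1231 (cons (fin 1232 0 1164)
(fin 1295 7 1038)))))))))))
(mv 1039 (cons (fin 1038 1 1036)
(mv 1099 (cons (fin 1098 0 1098)
(mv 1102 (cons (fin 1103 2 1036)
(mv 1034 (cons (fin 1035 3 1034)
(mv 1163 (cons (fin 1162 1 1098)
(mv 1227 (cons (fin 1226 1 1162)
(mv 1291 (cons (fin 1036 6 1035)
(fin 1355 6 1099))))))))))))))))))))))))))))
(cons (mv 909 (cons (cons (mv 844 (cons (fin 908 7 844)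
(mv 780 (cons (fin 845 7 780)
(mv 846 (cons (fin 910 6 845)
(mv 1100 (cons (fin 1164 5 908)
(mv 1038 (cons (fin 1039 1 1036)
(mv 1099 (cons (fin 1098 2 1034)
(mv 1102 (cons (fin 1166 4 909)
(mv 1035 (cons (fin 1034 3 1034)
(mv 1103 (cons (fin 1036 3 1035)
(mv 1104 (cons (fin 1105 3 1037)
(mv 1168 (cons (fin 1167 0 1100)
(fin 1169 0 1101)))))))))))))))))))))))
(cons (mv 844 (cons (fin 908 7 844)
(mv 845 (cons (fin 780 7 780)
(mv 846 (cons (fin 782 6 781)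
(fin 910 6 845)))))))
(mv 844 (cons (fin 908 7 844)
(mv 780 (cons (fin 845 7 780)
(mv 1100 (cons (fin 1164 5 908)
(mv 1038 (cons (fin 1039 1 1036)
(mv 1099 (cons (fin 1098 2 1034)
(mv 1102 (cons (fin 1166 4 909)
(mv 1035 (cons (fin 1034 3 1034)
(mv 1103 (cons (fin 1036 3 1035)
(mv 1104 (cons (fin 1105 3 1037)
(mv 1168 (cons (fin 1167 0 1100)
(fin 1169 0 1101)))))))))))))))))))))))
(cons (mv 846 (cons (fin 910 6 845)
(mv 782 (cons (fin 845 6 781)
(mv 1100 (cons (fin 1164 5 908)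
(mv 1038 (cons (fin 1039 1 1036)
(mv 1099 (cons (fin 1098 2 1034)
(mv 1102 (cons (fin 1166 4 909)
(mv 1035 (cons (fin 1034 3 1034)
(mv 1036 (cons (fin 1103 3 1035)
(mv 971 (cons (fin 970 3 970)
(mv 907 (cons (fin 843 4 843)
(mv 906 (cons (fin 842 7 842)
(mv 974 (cons (fin 975 2 971)
(fin 908 0 906)))))))))))))))))))))))))
(cons (mv 846 (cons (fin 910 6 845)
(mv 782 (cons (fin 845 6 781)
(mv 1100 (cons (fin 1164 5 908)
(mv 1038 (cons (fin 1039 1 1036)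
(mv 1099 (cons (fin 1098 2 1034)
(mv 1102 (cons (fin 1166 4 909)
(mv 1035 (cons (fin 1034 3 1034)
(mv 1103 (cons (fin 1036 3 1035)
(mv 1104 (cons (fin 1105 3 1037)
(mv 1168 (cons (fin 1167 0 1100)
(fin 1169 0 1101)))))))))))))))))))))
(mv 844 (cons (fin 908 7 844)
(mv 846 (cons (fin 910 6 845)
(mv 1100 (cons (fin 1164 5 908)
(mv 1038 (cons (fin 1039 1 1036)
(mv 1099 (cons (fin 1098 2 1034)
(mv 1102 (cons (fin 1166 4 909)
(mv 1035 (cons (fin 1034 3 1034)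
(mv 1103 (cons (fin 1036 3 1035)
(mv 1104 (cons (fin 1105 3 1037)
(mv 1168 (cons (fin 1167 0 1100)
(fin 1169 0 1101)))))))))))))))))))))))))
(cons (mv 1165 (cons (cons (mv 910 (cons (fin 974 6 909)
(mv 846 (cons (fin 909 6 845)
(mv 1228 (cons (fin 1164 5 972)
(mv 1229 (cons (fin 1292 5 1036)
(mv 1230 (cons (fin 1166 4 973)
(fin 1294 4 1037)))))))))))
(mv 1164 (cons (fin 1228 5 972)
(mv 1166 (cons (fin 1230 4 973)
(mv 909 (cons (fin 1102 4 909)
(mv 844 (cons (fin 908 7 844)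
(mv 845 (cons (fin 780 7 780)
(mv 846 (cons (fin 782 6 781)
(fin 910 6 845))))))))))))))
(cons (mv 974 (cons (fin 910 6 909)
(mv 1228 (cons (fin 1164 5 972)
(mv 1229 (cons (fin 1292 5 1036)
(fin 1038 6 973)))))))
(cons (mv 1164 (cons (fin 1228 5 972)
(mv 1166 (cons (fin 1230 4 973)
(mv 1102 (cons (fin 909 4 909)
(mv 1103 (cons (fin 1104 1 1100)
(fin 1163 2 1099)))))))))
(mv 910 (cons (fin 974 6 909)
(mv 909 (cons (fin 846 6 845)
(mv 1166 (cons (fin 1102 4 909)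
(fin 1230 4 973)))))))))))
(mv 909 (cons (cons (mv 844 (cons (fin 908 7 844)
(mv 780 (cons (fin 845 7 780)
(mv 910 (cons (fin 846 6 845)
(mv 974 (cons (fin 1165 6 909)
(mv 1100 (cons (fin 1164 5 908)
(mv 1039 (cons (fin 1038 1 1036)
(mv 1103 (cons (fin 1102 2 1036)
(mv 975 (cons (fin 1167 7 910)
(mv 976 (cons (fin 977 3 909)
(fin 1036 1 972)))))))))))))))))))
(mv 844 (cons (fin 908 7 844)
(mv 845 (cons (fin 780 7 780)
(mv 846 (cons (fin 782 6 781)
(fin 910 6 845))))))))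
(cons (mv 844 (cons (fin 908 7 844)
(mv 845 (cons (fin 780 7 780)
(mv 1100 (cons (fin 1036 5 844)
(fin 1164 5 908)))))))
(cons (mv 846 (cons (fin 910 6 845)
(mv 845 (cons (fin 782 6 781)
(mv 1100 (cons (fin 1036 5 844)
(fin 1164 5 908)))))))
(mv 844 (cons (fin 908 7 844)
(mv 910 (cons (fin 846 6 845)
(mv 974 (cons (fin 1165 6 909)
(mv 1100 (cons (fin 1164 5 908)
(mv 1039 (cons (fin 1038 1 1036)
(mv 1103 (cons (fin 1102 2 1036)
(mv 975 (cons (fin 1167 7 910)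
(mv 976 (cons (fin 977 3 909)
(fin 1036 1 972))))))))))))))))))))))))
(cons (cons (mv 909 (cons (cons (mv 844 (cons (fin 908 7 844)
(mv 780 (cons (fin 845 7 780)
(mv 910 (cons (fin 846 6 845)
(mv 1165 (cons (fin 974 6 909)
(mv 1166 (cons (fin 1102 4 909)
(fin 1230 4 973)))))))))))
(mv 844 (cons (fin 908 7 844)
(mv 845 (cons (fin 780 7 780)
(mv 846 (cons (fin 782 6 781)
(fin 910 6 845))))))))
(cons (mv 844 (cons (fin 908 7 844)
(mv 845 (cons (fin 780 7 780)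
(mv 1102 (cons (fin 1038 4 845)
(fin 1166 4 909)))))))
(cons (mv 846 (cons (fin 910 6 845)
(mv 845 (cons (fin 782 6 781)
(mv 1102 (cons (fin 1038 4 845)
(fin 1166 4 909)))))))
(mv 844 (cons (fin 908 7 844)
(mv 910 (cons (fin 846 6 845)
(mv 1165 (cons (fin 974 6 909)
(mv 1166 (cons (fin 1102 4 909)
(fin 1230 4 973)))))))))))))
(mv 909 (cons (cons (mv 844 (cons (fin 908 7 844)
(mv 780 (cons (fin 845 7 780)
(mv 1100 (cons (fin 1164 5 908)
(mv 1038 (cons (fin 1039 1 1036)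
(mv 1098 (cons (fin 1099 2 1034)
(mv 1166 (cons (fin 1102 4 909)
(mv 1165 (cons (fin 1230 4 973)
(mv 1167 (cons (fin 1168 3 1100)
(mv 1229 (cons (fin 974 6 973)
(mv 1292 (cons (fin 1228 5 1036)
(mv 1293 (cons (fin 1036 7 1036)
(fin 1356 5 1100)))))))))))))))))))))))
(mv 844 (cons (fin 908 7 844)
(mv 845 (cons (fin 780 7 780)
(mv 1102 (cons (fin 1038 4 845)
(fin 1166 4 909))))))))
(cons (mv 844 (cons (fin 908 7 844)
(mv 845 (cons (fin 780 7 780)
(mv 1100 (cons (fin 1036 5 844)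
(fin 1164 5 908)))))))
(cons (mv 1100 (cons (fin 1164 5 908)
(mv 845 (cons (fin 1036 5 844)
(mv 1038 (cons (fin 1039 1 1036)
(fin 1102 4 845)))))))
(mv 844 (cons (fin 908 7 844)
(mv 1100 (cons (fin 1164 5 908)
(mv 1038 (cons (fin 1039 1 1036)
(mv 1098 (cons (fin 1099 2 1034)
(mv 1166 (cons (fin 1102 4 909)
(mv 1165 (cons (fin 1230 4 973)
(mv 1167 (cons (fin 1168 3 1100)
(mv 1229 (cons (fin 974 6 973)
(mv 1292 (cons (fin 1228 5 1036)
(mv 1293 (cons (fin 1036 7 1036)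
(fin 1356 5 1100))))))))))))))))))))))))))
(cons (mv 909 (cons (cons (mv 844 (cons (fin 908 7 844)
(mv 780 (cons (fin 845 7 780)
(mv 846 (cons (fin 910 6 845)
(mv 1100 (cons (fin 1164 5 908)
(mv 1102 (cons (fin 1166 4 909)
(mv 1103 (cons (fin 1039 2 1036)
(mv 1036 (cons (fin 1035 3 1035)
(fin 1104 3 1036)))))))))))))))
(cons (mv 844 (cons (fin 908 7 844)
(mv 780 (cons (fin 845 7 780)
(mv 910 (cons (fin 846 6 845)
(mv 1165 (cons (fin 974 6 909)
(mv 1166 (cons (fin 1102 4 909)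
(fin 1230 4 973)))))))))))
(mv 844 (cons (fin 908 7 844)
(mv 780 (cons (fin 845 7 780)
(mv 1100 (cons (fin 1164 5 908)
(mv 1102 (cons (fin 1166 4 909)
(mv 1103 (cons (fin 1039 2 1036)
(mv 1036 (cons (fin 1035 3 1035)
(fin 1104 3 1036)))))))))))))))
(cons (mv 846 (cons (fin 910 6 845)
(mv 782 (cons (fin 845 6 781)
(mv 1100 (cons (fin 1164 5 908)
(mv 1102 (cons (fin 1166 4 909)
(mv 1103 (cons (fin 1039 2 1036)
(mv 1036 (cons (fin 1035 3 1035)
(fin 1104 3 1036)))))))))))))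
(cons (mv 844 (cons (fin 908 7 844)
(mv 780 (cons (fin 845 7 780)
(mv 910 (cons (fin 846 6 845)
(mv 1164 (cons (fin 1100 5 908)
(mv 1165 (cons (fin 1228 5 972)
(fin 974 6 909)))))))))))
(mv 844 (cons (fin 908 7 844)
(mv 846 (cons (fin 910 6 845)
(mv 1100 (cons (fin 1164 5 908)
(mv 1102 (cons (fin 1166 4 909)
(mv 1103 (cons (fin 1039 2 1036)
(mv 1036 (cons (fin 1035 3 1035)
(fin 1104 3 1036)))))))))))))))))
(cons (mv 1165 (cons (cons (mv 910 (cons (fin 974 6 909)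
(mv 846 (cons (fin 909 6 845)
(mv 1228 (cons (fin 1164 5 972)
(mv 1229 (cons (fin 1292 5 1036)
(mv 1230 (cons (fin 1166 4 973)
(fin 1294 4 1037)))))))))))
(mv 1164 (cons (fin 1228 5 972)
(mv 909 (cons (fin 1100 5 908)
(mv 844 (cons (fin 908 7 844)
(mv 845 (cons (fin 780 7 780)
(mv 846 (cons (fin 782 6 781)
(fin 910 6 845))))))))))))
(cons (mv 974 (cons (fin 910 6 909)
(mv 1038 (cons (fin 1229 6 973)
(mv 1039 (cons (fin 1100 1 1036)
(mv 976 (cons (fin 977 2 973)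
(mv 975 (cons (fin 1036 1 972)
(mv 908 (cons (fin 909 3 908)
(mv 912 (cons (fin 913 2 909)
(mv 1103 (cons (fin 1167 6 911)
(mv 1104 (cons (fin 1105 0 1037)
(mv 911 (cons (fin 847 7 847)
(fin 1168 7 911)))))))))))))))))))))
(cons (mv 1164 (cons (fin 1228 5 972)
(mv 1100 (cons (fin 909 5 908)
(mv 1038 (cons (fin 1039 1 1036)
(mv 974 (cons (fin 1229 6 973)
(mv 1099 (cons (fin 1098 2 1034)
(mv 1166 (cons (fin 1167 3 1099)
(fin 1230 4 973)))))))))))))
(mv 910 (cons (fin 974 6 909)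
(mv 1228 (cons (fin 1164 5 972)
(mv 1229 (cons (fin 1292 5 1036)
(mv 1230 (cons (fin 1166 4 973)
(fin 1294 4 1037)))))))))))))
(mv 909 (cons (cons (mv 844 (cons (fin 908 7 844)
(mv 780 (cons (fin 845 7 780)
(mv 846 (cons (fin 910 6 845)
(mv 1100 (cons (fin 1164 5 908)
(mv 1038 (cons (fin 1039 1 1036)
(mv 1099 (cons (fin 1098 2 1034)
(mv 1102 (cons (fin 1166 4 909)
(mv 1035 (cons (fin 1034 3 1034)
(mv 1103 (cons (fin 1036 3 1035)
(mv 1104 (cons (fin 1105 3 1037)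
(mv 1168 (cons (fin 1167 0 1100)
(fin 1169 0 1101)))))))))))))))))))))))
(mv 844 (cons (fin 908 7 844)
(mv 845 (cons (fin 780 7 780)
(mv 846 (cons (fin 782 6 781)
(fin 910 6 845))))))))
(cons (mv 846 (cons (fin 910 6 845)
(mv 782 (cons (fin 845 6 781)
(mv 1100 (cons (fin 1164 5 908)
(mv 1038 (cons (fin 1039 1 1036)
(mv 1099 (cons (fin 1098 2 1034)
(mv 1102 (cons (fin 1166 4 909)
(mv 1035 (cons (fin 1034 3 1034)
(mv 1103 (cons (fin 1036 3 1035)
(mv 1104 (cons (fin 1105 3 1037)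
(mv 1168 (cons (fin 1167 0 1100)
(fin 1169 0 1101)))))))))))))))))))))
(cons (mv 844 (cons (fin 908 7 844)
(mv 780 (cons (fin 845 7 780)
(mv 1100 (cons (fin 1164 5 908)
(mv 1038 (cons (fin 1039 1 1036)
(mv 1099 (cons (fin 1098 2 1034)
(mv 1102 (cons (fin 1166 4 909)
(mv 1035 (cons (fin 1034 3 1034)
(mv 1103 (cons (fin 1036 3 1035)
(mv 1104 (cons (fin 1105 3 1037)
(mv 1168 (cons (fin 1167 0 1100)
(fin 1169 0 1101)))))))))))))))))))))
(mv 844 (cons (fin 908 7 844)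
(mv 846 (cons (fin 910 6 845)
(mv 1100 (cons (fin 1164 5 908)
(mv 1038 (cons (fin 1039 1 1036)
(mv 1099 (cons (fin 1098 2 1034)
(mv 1102 (cons (fin 1166 4 909)
(mv 1035 (cons (fin 1034 3 1034)
(mv 1103 (cons (fin 1036 3 1035)
(mv 1104 (cons (fin 1105 3 1037)
(mv 1168 (cons (fin 1167 0 1100)
(fin 1169 0 1101))))))))))))))))))))))))))))))
(cons (mv 909 (cons (cons (cons (mv 845 (cons (cons (cons (mv 780 (cons (fin 844 7 780)
(mv 716 (cons (fin 781 7 716)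
(mv 782 (cons (fin 846 6 781)
(mv 1100 (cons (fin 1036 5 844)
(mv 1101 (cons (fin 1164 5 908)
(mv 1102 (cons (fin 1038 4 845)
(fin 1166 4 909)))))))))))))
(mv 782 (cons (fin 846 6 781)
(mv 718 (cons (fin 781 6 717)
(mv 1100 (cons (fin 1036 5 844)
(mv 1101 (cons (fin 1164 5 908)
(mv 1102 (cons (fin 1038 4 845)
(fin 1166 4 909))))))))))))
(cons (mv 780 (cons (fin 844 7 780)
(mv 716 (cons (fin 781 7 716)
(mv 846 (cons (fin 782 6 781)
(mv 1038 (cons (fin 1102 4 845)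
(mv 1101 (cons (fin 910 6 845)
(mv 1164 (cons (fin 1100 5 908)
(mv 1165 (cons (fin 1228 5 972)
(mv 908 (cons (fin 972 7 908)
(mv 906 (cons (fin 907 2 842)
(mv 1229 (cons (fin 974 6 973)
(mv 1230 (cons (fin 1166 4 973)
(fin 1294 4 1037)))))))))))))))))))))))
(mv 780 (cons (fin 844 7 780)
(mv 716 (cons (fin 781 7 716)
(mv 1100 (cons (fin 1036 5 844)
(mv 1101 (cons (fin 1164 5 908)
(mv 1102 (cons (fin 1038 4 845)
(fin 1166 4 909)))))))))))))
(cons (cons (mv 780 (cons (fin 844 7 780)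
(mv 716 (cons (fin 781 7 716)
(mv 846 (cons (fin 782 6 781)
(mv 1036 (cons (fin 1100 5 844)
(mv 1101 (cons (fin 910 6 845)
(mv 1166 (cons (fin 1102 4 909)
(mv 1165 (cons (fin 1230 4 973)
(mv 972 (cons (fin 908 7 908)
(fin 1229 7 972)))))))))))))))))
(mv 780 (cons (fin 844 7 780)
(mv 716 (cons (fin 781 7 716)
(mv 846 (cons (fin 782 6 781)
(mv 1100 (cons (fin 1036 5 844)
(mv 1101 (cons (fin 1164 5 908)
(fin 910 6 845))))))))))))
(cons (mv 780 (cons (fin 844 7 780)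
(mv 716 (cons (fin 781 7 716)
(mv 846 (cons (fin 782 6 781)
(mv 1101 (cons (fin 910 6 845)
(mv 1102 (cons (fin 1038 4 845)
(fin 1166 4 909)))))))))))
(cons (mv 780 (cons (fin 844 7 780)
(mv 782 (cons (fin 846 6 781)
(mv 1100 (cons (fin 1036 5 844)
(mv 1101 (cons (fin 1164 5 908)
(mv 1102 (cons (fin 1038 4 845)
(fin 1166 4 909)))))))))))
(mv 780 (cons (fin 844 7 780)
(mv 781 (cons (fin 716 7 716)
(mv 782 (cons (fin 718 6 717)
(fin 846 6 781))))))))))))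
(mv 1101 (cons (cons (mv 844 (cons (fin 908 7 844)
(mv 846 (cons (fin 910 6 845)
(mv 1164 (cons (fin 1100 5 908)
(mv 1165 (cons (fin 1228 5 972)
(mv 1166 (cons (fin 1102 4 909)
(fin 1230 4 973)))))))))))
(cons (mv 846 (cons (fin 910 6 845)
(mv 1164 (cons (fin 1100 5 908)
(mv 1165 (cons (fin 1228 5 972)
(mv 1166 (cons (fin 1102 4 909)
(fin 1230 4 973)))))))))
(mv 844 (cons (fin 908 7 844)
(mv 1164 (cons (fin 1100 5 908)
(mv 1165 (cons (fin 1228 5 972)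
(mv 1166 (cons (fin 1102 4 909)
(fin 1230 4 973)))))))))))
(cons (mv 844 (cons (fin 908 7 844)
(mv 910 (cons (fin 846 6 845)
(mv 1165 (cons (fin 974 6 909)
(mv 1166 (cons (fin 1102 4 909)
(fin 1230 4 973)))))))))
(cons (mv 844 (cons (fin 908 7 844)
(mv 910 (cons (fin 846 6 845)
(mv 1164 (cons (fin 1100 5 908)
(mv 1165 (cons (fin 1228 5 972)
(fin 974 6 909)))))))))
(mv 844 (cons (fin 908 7 844)
(mv 846 (cons (fin 910 6 845)
(mv 1100 (cons (fin 1164 5 908)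
(mv 1102 (cons (fin 1166 4 909)
(mv 1099 (cons (mv 1034 (cons (fin 1035 3 1034)
(mv 1098 (cons (fin 1033 3 1033)
(fin 1038 2 1034)))))
(cons (mv 1035 (cons (fin 1034 3 1034)
(mv 1036 (cons (fin 1103 3 1035)
(mv 1163 (cons (fin 1162 1 1098)
(mv 1227 (cons (fin 972 6 971)
(fin 1291 6 1035)))))))))
(mv 1098 (cons (fin 1038 2 1034)
(mv 1162 (cons (fin 1161 1 1097)
(fin 1163 1 1098)))))))))))))))))))))
(cons (mv 845 (cons (cons (mv 780 (cons (fin 844 7 780)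
(mv 781 (cons (fin 716 7 716)
(mv 782 (cons (fin 718 6 717)
(fin 846 6 781)))))))
(mv 780 (cons (fin 844 7 780)
(mv 781 (cons (fin 716 7 716)
(mv 1036 (cons (fin 972 5 780)
(fin 1100 5 844))))))))
(cons (mv 782 (cons (fin 846 6 781)
(mv 781 (cons (fin 718 6 717)
(mv 1036 (cons (fin 972 5 780)
(fin 1100 5 844)))))))
(mv 782 (cons (fin 846 6 781)
(mv 844 (cons (fin 780 7 780)
(mv 1036 (cons (fin 1100 5 844)
(mv 1038 (cons (fin 1102 4 845)
(mv 1035 (cons (mv 974 (cons (fin 1034 2 970)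
(fin 975 2 971)))
(cons (mv 970 (cons (fin 971 3 970)
(mv 1034 (cons (fin 969 3 969)
(mv 1098 (cons (fin 1097 1 1033)
(fin 1099 1 1034)))))))
(mv 971 (cons (fin 970 3 970)
(mv 974 (cons (fin 975 2 971)
(mv 1099 (cons (fin 1098 1 1034)
(mv 908 (cons (fin 972 5 843)
(fin 907 6 843)))))))))))))))))))))))
(mv 1101 (cons (cons (mv 846 (cons (fin 910 6 845)
(mv 782 (cons (fin 845 6 781)
(mv 1102 (cons (fin 1166 4 909)
(mv 1164 (cons (fin 1100 5 908)
(mv 1165 (cons (fin 1228 5 972)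
(mv 972 (cons (fin 908 7 908)
(mv 1036 (cons (fin 1229 7 972)
(mv 1035 (cons (fin 1034 0 1034)
(mv 1103 (cons (fin 1104 3 1036)
(fin 1038 0 1035)))))))))))))))))))
(cons (mv 846 (cons (fin 910 6 845)
(mv 782 (cons (fin 845 6 781)
(mv 1164 (cons (fin 1100 5 908)
(mv 1165 (cons (fin 1228 5 972)
(mv 972 (cons (fin 908 7 908)
(mv 1229 (cons (fin 1036 7 972)
(mv 1230 (cons (fin 1166 4 973)
(fin 1294 4 1037)))))))))))))))
(mv 1100 (cons (fin 1164 5 908)
(mv 845 (cons (fin 1036 5 844)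
(mv 1102 (cons (fin 1038 4 845)
(fin 1166 4 909)))))))))
(cons (cons (mv 846 (cons (fin 910 6 845)
(mv 782 (cons (fin 845 6 781)
(mv 1166 (cons (fin 1102 4 909)
(mv 1165 (cons (fin 1230 4 973)
(mv 972 (cons (fin 908 7 908)
(mv 1228 (cons (fin 1164 5 972)
(mv 1229 (cons (fin 1036 7 972)
(fin 1292 5 1036)))))))))))))))
(mv 846 (cons (fin 910 6 845)
(mv 845 (cons (fin 782 6 781)
(mv 1102 (cons (fin 1038 4 845)
(fin 1166 4 909))))))))
(cons (mv 846 (cons (fin 910 6 845)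
(mv 782 (cons (fin 845 6 781)
(mv 1164 (cons (fin 1100 5 908)
(mv 1165 (cons (fin 1228 5 972)
(mv 972 (cons (fin 908 7 908)
(mv 1229 (cons (fin 1036 7 972)
(mv 1038 (cons (fin 974 6 973)
(mv 970 (cons (fin 971 0 970)
(mv 1293 (cons (fin 1102 6 1037)
(mv 1294 (cons (fin 1230 4 1037)
(fin 1358 4 1101)))))))))))))))))))))
(mv 846 (cons (fin 910 6 845)
(mv 1102 (cons (fin 1166 4 909)
(mv 1164 (cons (fin 1100 5 908)
(mv 1165 (cons (fin 1228 5 972)
(mv 972 (cons (fin 908 7 908)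
(mv 1036 (cons (fin 1229 7 972)
(mv 1035 (cons (fin 1034 0 1034)
(mv 1103 (cons (fin 1104 3 1036)
(fin 1038 0 1035)))))))))))))))))))))))
(cons (cons (mv 845 (cons (cons (mv 780 (cons (fin 844 7 780)
(mv 716 (cons (fin 781 7 716)
(mv 846 (cons (fin 782 6 781)
(mv 1100 (cons (fin 1036 5 844)
(mv 1101 (cons (fin 1164 5 908)
(fin 910 6 845)))))))))))
(mv 782 (cons (fin 846 6 781)
(mv 781 (cons (fin 718 6 717)
(mv 1036 (cons (fin 972 5 780)
(fin 1100 5 844))))))))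
(cons (mv 780 (cons (fin 844 7 780)
(mv 781 (cons (fin 716 7 716)
(mv 782 (cons (fin 718 6 717)
(fin 846 6 781)))))))
(cons (mv 780 (cons (fin 844 7 780)
(mv 781 (cons (fin 716 7 716)
(mv 1036 (cons (fin 972 5 780)
(fin 1100 5 844)))))))
(mv 780 (cons (fin 844 7 780)
(mv 846 (cons (fin 782 6 781)
(mv 1100 (cons (fin 1036 5 844)
(mv 1101 (cons (fin 1164 5 908)
(fin 910 6 845)))))))))))))
(mv 845 (cons (cons (mv 780 (cons (fin 844 7 780)
(mv 716 (cons (fin 781 7 716)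
(mv 846 (cons (fin 782 6 781)
(mv 1101 (cons (fin 910 6 845)
(mv 1102 (cons (fin 1038 4 845)
(fin 1166 4 909)))))))))))
(cons (mv 782 (cons (fin 846 6 781)
(mv 781 (cons (fin 718 6 717)
(mv 1038 (cons (fin 974 4 781)
(fin 1102 4 845)))))))
(mv 780 (cons (fin 844 7 780)
(mv 781 (cons (fin 716 7 716)
(mv 1038 (cons (fin 974 4 781)
(fin 1102 4 845)))))))))
(cons (mv 780 (cons (fin 844 7 780)
(mv 716 (cons (fin 781 7 716)
(mv 846 (cons (fin 782 6 781)
(mv 1101 (cons (fin 910 6 845)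
(mv 1166 (cons (fin 1102 4 909)
(mv 1165 (cons (fin 1230 4 973)
(mv 972 (cons (fin 908 7 908)
(mv 1228 (cons (fin 1164 5 972)
(mv 1229 (cons (fin 1036 7 972)
(fin 1292 5 1036)))))))))))))))))))
(cons (mv 780 (cons (fin 844 7 780)
(mv 781 (cons (fin 716 7 716)
(mv 782 (cons (fin 718 6 717)
(fin 846 6 781)))))))
(mv 780 (cons (fin 844 7 780)
(mv 846 (cons (fin 782 6 781)
(mv 1101 (cons (fin 910 6 845)
(mv 1102 (cons (fin 1038 4 845)
(fin 1166 4 909))))))))))))))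
(cons (mv 1101 (cons (cons (mv 844 (cons (fin 908 7 844)
(mv 780 (cons (fin 845 7 780)
(mv 1100 (cons (fin 1164 5 908)
(mv 1166 (cons (fin 1102 4 909)
(mv 1165 (cons (fin 1230 4 973)
(mv 974 (cons (fin 910 6 909)
(mv 1098 (cons (fin 1099 0 1098)
(mv 1167 (cons (fin 1168 3 1100)
(mv 1229 (cons (fin 1038 6 973)
(mv 1036 (cons (fin 972 7 972)
(fin 1293 7 1036)))))))))))))))))))))
(cons (mv 1100 (cons (fin 1164 5 908)
(mv 845 (cons (fin 1036 5 844)
(mv 1102 (cons (fin 1038 4 845)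
(fin 1166 4 909)))))))
(mv 844 (cons (fin 908 7 844)
(mv 780 (cons (fin 845 7 780)
(mv 1164 (cons (fin 1100 5 908)
(mv 1165 (cons (fin 1228 5 972)
(mv 974 (cons (fin 910 6 909)
(mv 1229 (cons (fin 1038 6 973)
(mv 1230 (cons (fin 1166 4 973)
(fin 1294 4 1037)))))))))))))))))
(cons (cons (mv 844 (cons (fin 908 7 844)
(mv 780 (cons (fin 845 7 780)
(mv 1166 (cons (fin 1102 4 909)
(mv 1165 (cons (fin 1230 4 973)
(mv 974 (cons (fin 910 6 909)
(mv 1228 (cons (fin 1164 5 972)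
(mv 1229 (cons (fin 1292 5 1036)
(fin 1038 6 973)))))))))))))))
(mv 844 (cons (fin 908 7 844)
(mv 780 (cons (fin 845 7 780)
(mv 1166 (cons (fin 1102 4 909)
(mv 1165 (cons (fin 1230 4 973)
(mv 974 (cons (fin 910 6 909)
(mv 1229 (cons (fin 1038 6 973)
(mv 1036 (cons (fin 972 7 972)
(mv 975 (cons (fin 976 1 972)
(mv 1034 (cons (fin 1035 2 970)
(mv 1292 (cons (fin 1228 5 1036)
(mv 1293 (cons (fin 1100 7 1036)
(fin 1356 5 1100))))))))))))))))))))))))
(cons (mv 844 (cons (fin 908 7 844)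
(mv 845 (cons (fin 780 7 780)
(mv 1100 (cons (fin 1036 5 844)
(fin 1164 5 908)))))))
(mv 844 (cons (fin 908 7 844)
(mv 1100 (cons (fin 1164 5 908)
(mv 1166 (cons (fin 1102 4 909)
(mv 1165 (cons (fin 1230 4 973)
(mv 974 (cons (fin 910 6 909)
(mv 1098 (cons (fin 1099 0 1098)
(mv 1167 (cons (fin 1168 3 1100)
(mv 1229 (cons (fin 1038 6 973)
(mv 1036 (cons (fin 972 7 972)
(fin 1293 7 1036)))))))))))))))))))))))
(mv 1101 (cons (cons (mv 844 (cons (fin 908 7 844)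
(mv 780 (cons (fin 845 7 780)
(mv 846 (cons (fin 910 6 845)
(mv 1164 (cons (fin 1100 5 908)
(mv 1165 (cons (fin 1228 5 972)
(mv 1166 (cons (fin 1102 4 909)
(fin 1230 4 973)))))))))))))
(cons (mv 844 (cons (fin 908 7 844)
(mv 780 (cons (fin 845 7 780)
(mv 1164 (cons (fin 1100 5 908)
(mv 1165 (cons (fin 1228 5 972)
(mv 1166 (cons (fin 1102 4 909)
(fin 1230 4 973)))))))))))
(mv 846 (cons (fin 910 6 845)
(mv 782 (cons (fin 845 6 781)
(mv 1164 (cons (fin 1100 5 908)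
(mv 1165 (cons (fin 1228 5 972)
(mv 1166 (cons (fin 1102 4 909)
(fin 1230 4 973)))))))))))))
(cons (cons (mv 844 (cons (fin 908 7 844)
(mv 780 (cons (fin 845 7 780)
(mv 910 (cons (fin 846 6 845)
(mv 1164 (cons (fin 1100 5 908)
(mv 1165 (cons (fin 1228 5 972)
(fin 974 6 909)))))))))))
(mv 844 (cons (fin 908 7 844)
(mv 780 (cons (fin 845 7 780)
(mv 910 (cons (fin 846 6 845)
(mv 1165 (cons (fin 974 6 909)
(mv 1166 (cons (fin 1102 4 909)
(fin 1230 4 973))))))))))))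
(cons (mv 844 (cons (fin 908 7 844)
(mv 845 (cons (fin 780 7 780)
(mv 846 (cons (fin 782 6 781)
(fin 910 6 845)))))))
(mv 844 (cons (fin 908 7 844)
(mv 846 (cons (fin 910 6 845)
(mv 1164 (cons (fin 1100 5 908)
(mv 1165 (cons (fin 1228 5 972)
(mv 1166 (cons (fin 1102 4 909)
(fin 1230 4 973)))))))))))))))))))
(mv 972 (cons (cons (cons (mv 1038 (cons (fin 1039 3 972)
(mv 971 (cons (fin 970 0 970)
(mv 974 (cons (cons (mv 906 (cons (fin 907 3 906)
(mv 910 (cons (fin 911 2 907)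
(mv 782 (cons (fin 846 5 781)
(mv 1035 (cons (fin 1034 1 970)
(mv 975 (cons (fin 1036 1 971)
(mv 976 (cons (fin 977 1 973)
(mv 909 (cons (fin 908 3 908)
(mv 845 (cons (fin 1102 7 845)
(fin 781 4 781)))))))))))))))))
(cons (mv 906 (cons (fin 907 3 906)
(mv 910 (cons (fin 911 2 907)
(mv 846 (cons (fin 782 5 781)
(mv 783 (cons (fin 847 6 782)
(mv 845 (cons (fin 781 7 781)
(mv 909 (cons (fin 1102 7 845)
(mv 844 (cons (fin 780 7 780)
(mv 843 (cons (fin 842 0 842)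
(mv 779 (cons (fin 778 3 778)
(mv 1036 (cons (fin 908 7 779)
(fin 1100 5 844)))))))))))))))))))))
(mv 906 (cons (fin 907 3 906)
(mv 1035 (cons (fin 1034 1 970)
(mv 975 (cons (fin 1036 1 971)
(mv 911 (cons (fin 912 2 908)
(mv 783 (cons (fin 847 5 782)
(mv 976 (cons (fin 977 1 973)
(mv 909 (cons (fin 908 3 908)
(mv 845 (cons (fin 781 4 781)
(fin 1102 4 845)))))))))))))))))))
(cons (cons (mv 906 (cons (fin 907 3 906)
(mv 1035 (cons (fin 1034 1 970)
(mv 975 (cons (fin 1036 1 971)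
(mv 976 (cons (fin 977 1 973)
(mv 909 (cons (fin 908 3 908)
(mv 845 (cons (fin 781 4 781)
(fin 1102 4 845)))))))))))))
(mv 910 (cons (fin 911 2 907)
(mv 782 (cons (fin 846 5 781)
(mv 1035 (cons (fin 1034 1 970)
(mv 975 (cons (fin 1036 1 971)
(mv 976 (cons (fin 977 1 973)
(mv 909 (cons (fin 908 3 908)
(mv 845 (cons (fin 1102 7 845)
(fin 781 4 781))))))))))))))))
(cons (mv 906 (cons (fin 907 3 906)
(mv 910 (cons (fin 911 2 907)
(mv 846 (cons (fin 782 5 781)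
(mv 783 (cons (fin 847 6 782)
(mv 845 (cons (fin 781 7 781)
(mv 1034 (cons (fin 1035 1 970)
(mv 1102 (cons (fin 909 7 845)
(mv 1166 (cons (fin 1230 7 973)
(mv 1167 (cons (fin 1103 4 910)
(fin 1231 4 974)))))))))))))))))))
(mv 906 (cons (fin 907 3 906)
(mv 910 (cons (fin 911 2 907)
(mv 782 (cons (fin 846 5 781)
(mv 1035 (cons (fin 1034 1 970)
(mv 1036 (cons (fin 975 1 971)
(mv 1099 (cons (fin 1098 1 1034)
(mv 908 (cons (fin 844 5 843)
(fin 1163 6 907)))))))))))))))))))))))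
(mv 974 (cons (mv 975 (cons (fin 1039 0 972)
(mv 1036 (cons (fin 1035 1 971)
(fin 976 1 972)))))
(cons (mv 971 (cons (cons (mv 906 (cons (fin 907 3 906)
(mv 910 (cons (fin 911 2 907)
(mv 970 (cons (fin 905 3 905)
(fin 909 2 906)))))))
(mv 906 (cons (fin 907 3 906)
(mv 970 (cons (fin 905 3 905)
(mv 1034 (cons (fin 1033 1 969)
(fin 1035 1 970))))))))
(cons (mv 910 (cons (fin 911 2 907)
(mv 782 (cons (fin 846 5 781)
(mv 970 (cons (fin 909 2 906)
(mv 1034 (cons (fin 1033 1 969)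
(fin 1035 1 970)))))))))
(mv 907 (cons (fin 906 3 906)
(mv 910 (cons (fin 911 2 907)
(mv 782 (cons (fin 846 5 781)
(mv 1035 (cons (fin 1034 1 970)
(mv 843 (cons (cons (mv 1036 (cons (fin 779 4 779)
(fin 1100 4 843)))
(mv 778 (cons (fin 842 7 778)
(mv 714 (cons (fin 779 7 714)
(mv 844 (cons (fin 780 6 779)
(mv 1099 (cons (fin 908 6 843)
(mv 1162 (cons (fin 1098 5 906)
(mv 1163 (cons (fin 1226 5 970)
(mv 1164 (cons (fin 1100 4 907)
(fin 1228 4 971))))))))))))))))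
(cons (mv 778 (cons (fin 842 7 778)
(mv 780 (cons (fin 844 6 779)
(mv 1100 (cons (fin 1036 4 843)
(mv 1099 (cons (fin 1164 4 907)
(mv 1162 (cons (fin 1098 5 906)
(mv 1163 (cons (fin 1226 5 970)
(fin 908 6 907)))))))))))))
(mv 778 (cons (fin 842 7 778)
(mv 779 (cons (fin 714 7 714)
(fin 1036 4 779)))))))))))))))))))
(mv 975 (cons (fin 1039 0 972)
(mv 907 (cons (fin 908 3 907)
(mv 911 (cons (fin 912 2 908)
(mv 971 (cons (fin 906 3 906)
(fin 910 2 907)))))))))))))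
(cons (mv 971 (cons (cons (mv 970 (cons (fin 1038 0 970)
(mv 905 (cons (fin 906 3 905)
(mv 969 (cons (fin 904 3 904)
(fin 1036 0 969)))))))
(mv 974 (cons (cons (mv 906 (cons (fin 907 3 906)
(mv 911 (cons (fin 910 2 907)
(mv 975 (cons (fin 912 2 908)
(mv 1035 (cons (fin 1034 1 970)
(fin 1036 1 971)))))))))
(cons (mv 906 (cons (fin 907 3 906)
(mv 911 (cons (fin 910 2 907)
(mv 975 (cons (fin 912 2 908)
(mv 976 (cons (fin 1036 1 972)
(mv 783 (cons (fin 847 4 783)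
(mv 909 (cons (fin 908 3 908)
(mv 1038 (cons (fin 977 1 973)
(mv 845 (cons (fin 781 4 781)
(fin 1102 4 845)))))))))))))))))
(mv 911 (cons (fin 910 2 907)
(mv 975 (cons (fin 912 2 908)
(mv 1035 (cons (fin 1034 1 970)
(fin 1036 1 971)))))))))
(cons (cons (mv 906 (cons (fin 907 3 906)
(mv 1035 (cons (fin 1034 1 970)
(mv 975 (cons (fin 1036 1 971)
(mv 912 (cons (fin 911 2 908)
(mv 976 (cons (fin 913 2 909)
(mv 909 (cons (fin 908 3 908)
(mv 1038 (cons (fin 977 1 973)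
(mv 845 (cons (fin 781 4 781)
(fin 1102 4 845)))))))))))))))))
(mv 907 (cons (fin 906 3 906)
(mv 908 (cons (fin 975 3 907)
(mv 780 (cons (fin 844 4 780)
(mv 1035 (cons (fin 1034 1 970)
(mv 1099 (cons (fin 1163 6 907)
(mv 1098 (cons (fin 1162 5 906)
(mv 1036 (cons (fin 1038 1 1034)
(mv 843 (cons (fin 1100 7 843)
(fin 779 4 779))))))))))))))))))
(cons (mv 907 (cons (fin 906 3 906)
(mv 910 (cons (fin 911 2 907)
(mv 782 (cons (fin 846 5 781)
(mv 1035 (cons (fin 1034 1 970)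
(mv 843 (cons (cons (mv 1036 (cons (fin 779 4 779)
(fin 1100 4 843)))
(mv 778 (cons (fin 842 7 778)
(mv 714 (cons (fin 779 7 714)
(mv 844 (cons (fin 780 6 779)
(mv 1099 (cons (fin 908 6 843)
(mv 1162 (cons (fin 1098 5 906)
(mv 1163 (cons (fin 1226 5 970)
(mv 1164 (cons (fin 1100 4 907)
(fin 1228 4 971))))))))))))))))
(cons (mv 778 (cons (fin 842 7 778)
(mv 780 (cons (fin 844 6 779)
(mv 1100 (cons (fin 1036 4 843)
(mv 1099 (cons (fin 1164 4 907)
(mv 1162 (cons (fin 1098 5 906)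
(mv 1163 (cons (fin 1226 5 970)
(fin 908 6 907)))))))))))))
(mv 778 (cons (fin 842 7 778)
(mv 779 (cons (fin 714 7 714)
(fin 1036 4 779))))))))))))))))
(mv 907 (cons (fin 906 3 906)
(mv 908 (cons (fin 975 3 907)
(mv 780 (cons (fin 844 4 780)
(mv 910 (cons (fin 911 2 907)
(mv 846 (cons (fin 782 5 781)
(mv 909 (cons (fin 847 2 843)
(mv 843 (cons (fin 842 3 842)
(mv 779 (cons (fin 716 6 715)
(fin 715 4 715))))))))))))))))))))))
(cons (mv 970 (cons (mv 905 (cons (fin 906 3 905)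
(mv 969 (cons (fin 904 3 904)
(fin 1036 0 969)))))
(cons (mv 905 (cons (fin 906 3 905)
(mv 910 (cons (fin 909 2 906)
(mv 974 (cons (fin 911 2 907)
(mv 1034 (cons (fin 1033 1 969)
(fin 1035 1 970)))))))))
(mv 909 (cons (fin 910 2 906)
(mv 969 (cons (fin 908 2 905)
(fin 1036 0 969))))))))
(cons (mv 970 (cons (fin 1038 0 970)
(mv 909 (cons (fin 910 2 906)
(mv 969 (cons (fin 908 2 905)
(fin 1036 0 969)))))))
(mv 970 (cons (fin 1038 0 970)
(mv 905 (cons (fin 906 3 905)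
(mv 904 (cons (fin 969 3 904)
(mv 910 (cons (fin 909 2 906)
(mv 974 (cons (fin 911 2 907)
(mv 1034 (cons (fin 1033 1 969)
(fin 1035 1 970)))))))))))))))))
(mv 1038 (cons (fin 1039 3 972)
(mv 1036 (cons (cons (cons (mv 970 (cons (fin 971 0 970)
(mv 1035 (cons (mv 1034 (cons (fin 969 3 969)
(fin 1033 2 969)))
(mv 1099 (cons (fin 1098 1 1034)
(mv 908 (cons (fin 844 5 843)
(mv 1163 (cons (fin 1100 5 907)
(fin 1227 6 971)))))))))))
(mv 909 (cons (mv 845 (cons (fin 781 5 780)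
(fin 1100 5 844)))
(cons (mv 1100 (cons (fin 1164 6 908)
(mv 908 (cons (cons (mv 780 (cons (fin 844 4 780)
(mv 843 (cons (fin 907 7 843)
(mv 1099 (cons (fin 1163 5 907)
(mv 1098 (cons (fin 1035 1 1034)
(fin 1097 2 1033)))))))))
(mv 843 (cons (fin 907 7 843)
(mv 1099 (cons (fin 1163 5 907)
(mv 1098 (cons (fin 1035 1 1034)
(fin 1097 2 1033))))))))
(cons (mv 843 (cons (fin 907 7 843)
(mv 844 (cons (fin 779 7 779)
(fin 780 4 780)))))
(mv 780 (cons (fin 844 4 780)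
(mv 1099 (cons (fin 1163 5 907)
(mv 1098 (cons (fin 1035 1 1034)
(fin 1097 2 1033))))))))))))
(mv 845 (cons (fin 781 5 780)
(fin 1102 4 845)))))))
(cons (mv 970 (cons (fin 971 0 970)
(mv 1100 (cons (mv 909 (cons (fin 845 5 844)
(fin 1164 6 908)))
(cons (mv 1164 (cons (fin 1228 6 972)
(mv 1163 (cons (fin 1227 5 971)
(mv 908 (cons (fin 1099 5 907)
(mv 843 (cons (fin 907 7 843)
(mv 844 (cons (fin 779 7 779)
(fin 780 4 780)))))))))))
(mv 908 (cons (cons (mv 780 (cons (fin 844 4 780)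
(mv 907 (cons (fin 843 7 843)
(mv 906 (cons (fin 905 0 905)
(mv 909 (cons (fin 969 1 905)
(fin 845 5 844)))))))))
(mv 780 (cons (fin 844 4 780)
(mv 907 (cons (fin 843 7 843)
(mv 906 (cons (fin 905 0 905)
(mv 969 (cons (fin 909 1 905)
(mv 967 (cons (fin 968 2 903)
(mv 1099 (cons (fin 1163 5 907)
(mv 1097 (cons (fin 1098 2 1033)
(mv 1033 (cons (fin 1161 6 905)
(mv 842 (cons (fin 778 5 777)
(fin 1034 5 841))))))))))))))))))))
(cons (mv 843 (cons (fin 907 7 843)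
(mv 844 (cons (fin 779 7 779)
(fin 780 4 780)))))
(cons (mv 907 (cons (fin 843 7 843)
(mv 906 (cons (fin 905 0 905)
(mv 909 (cons (fin 969 1 905)
(fin 845 5 844)))))))
(mv 844 (cons (fin 780 4 780)
(mv 845 (cons (fin 909 5 844)
(fin 781 6 780))))))))))))))
(mv 1035 (cons (cons (mv 970 (cons (fin 971 3 970)
(mv 1034 (cons (fin 969 3 969)
(fin 1033 2 969)))))
(mv 1033 (cons (fin 1034 2 969)
(mv 1099 (cons (fin 1098 1 1034)
(mv 908 (cons (fin 844 5 843)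
(mv 1163 (cons (fin 971 6 907)
(fin 1227 6 971))))))))))
(cons (mv 1034 (cons (fin 1033 2 969)
(mv 1098 (cons (fin 1097 1 1033)
(fin 1099 1 1034)))))
(mv 971 (cons (fin 970 3 970)
(mv 1099 (cons (fin 1098 1 1034)
(mv 908 (cons (fin 844 5 843)
(fin 1163 6 907))))))))))))
(cons (cons (mv 909 (cons (mv 845 (cons (fin 781 5 780)
(fin 1100 5 844)))
(cons (mv 1164 (cons (fin 1100 6 908)
(mv 1035 (cons (cons (mv 970 (cons (fin 971 3 970)
(mv 1034 (cons (fin 969 3 969)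
(fin 1033 2 969)))))
(mv 1033 (cons (fin 1034 2 969)
(mv 1099 (cons (fin 1098 1 1034)
(mv 1102 (cons (fin 1103 0 1035)
(mv 1163 (cons (fin 1227 6 971)
(mv 1228 (cons (fin 971 4 971)
(mv 1230 (cons (fin 1166 7 973)
(mv 1229 (cons (fin 1231 3 1163)
(mv 1162 (cons (fin 1161 0 1161)
(fin 1165 0 1162))))))))))))))))))
(cons (mv 1034 (cons (fin 1033 2 969)
(mv 1098 (cons (fin 1097 1 1033)
(fin 1099 1 1034)))))
(mv 971 (cons (fin 970 3 970)
(mv 1099 (cons (fin 1098 1 1034)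
(mv 1163 (cons (fin 1227 6 971)
(fin 1228 4 971))))))))))))
(mv 845 (cons (fin 781 5 780)
(fin 1102 4 845))))))
(mv 970 (cons (fin 971 0 970)
(mv 1102 (cons (cons (mv 845 (cons (fin 909 4 845)
(mv 1035 (cons (fin 1103 0 1035)
(mv 1034 (cons (fin 969 3 969)
(fin 1033 2 969)))))))
(mv 1035 (cons (fin 1103 0 1035)
(mv 1034 (cons (fin 969 3 969)
(fin 1033 2 969))))))
(cons (mv 1166 (cons (fin 1230 7 973)
(mv 908 (cons (cons (mv 780 (cons (fin 844 4 780)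
(mv 909 (cons (fin 845 4 845)
(mv 1100 (cons (fin 1164 6 908)
(mv 907 (cons (fin 843 7 843)
(mv 906 (cons (fin 969 1 905)
(fin 905 0 905)))))))))))
(mv 844 (cons (fin 780 4 780)
(mv 781 (cons (fin 845 6 780)
(mv 843 (cons (fin 779 7 779)
(mv 1100 (cons (fin 907 7 843)
(mv 1164 (cons (fin 1228 6 972)
(mv 1163 (cons (fin 1227 5 971)
(mv 1165 (cons (fin 1103 2 1099)
(fin 1229 4 972))))))))))))))))
(cons (mv 844 (cons (fin 780 4 780)
(mv 843 (cons (fin 779 7 779)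
(mv 907 (cons (fin 1100 7 843)
(mv 906 (cons (fin 905 0 905)
(mv 909 (cons (fin 969 1 905)
(mv 842 (cons (fin 841 3 841)
(fin 910 3 842)))))))))))))
(cons (mv 909 (cons (fin 845 4 845)
(mv 1100 (cons (fin 1164 6 908)
(mv 907 (cons (fin 843 7 843)
(mv 906 (cons (fin 969 1 905)
(fin 905 0 905)))))))))
(mv 844 (cons (fin 780 4 780)
(mv 845 (cons (fin 781 6 780)
(fin 909 4 845)))))))))))
(cons (mv 1166 (cons (fin 1230 7 973)
(mv 908 (cons (cons (mv 780 (cons (fin 844 4 780)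
(mv 909 (cons (fin 845 4 845)
(mv 1100 (cons (fin 1164 6 908)
(mv 907 (cons (fin 843 7 843)
(mv 906 (cons (fin 969 1 905)
(fin 905 0 905)))))))))))
(mv 844 (cons (fin 780 4 780)
(mv 781 (cons (fin 845 6 780)
(mv 843 (cons (fin 779 7 779)
(mv 907 (cons (fin 1100 7 843)
(mv 906 (cons (fin 905 0 905)
(mv 1034 (cons (fin 1098 6 842)
(mv 1035 (cons (fin 969 3 969)
(fin 1033 2 969))))))))))))))))
(cons (mv 844 (cons (fin 780 4 780)
(mv 843 (cons (fin 779 7 779)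
(mv 907 (cons (fin 1100 7 843)
(mv 906 (cons (fin 905 0 905)
(mv 909 (cons (fin 969 1 905)
(mv 842 (cons (fin 841 3 841)
(fin 910 3 842)))))))))))))
(cons (mv 909 (cons (fin 845 4 845)
(mv 1100 (cons (fin 1164 6 908)
(mv 907 (cons (fin 843 7 843)
(mv 906 (cons (fin 969 1 905)
(fin 905 0 905)))))))))
(mv 844 (cons (fin 780 4 780)
(mv 845 (cons (fin 781 6 780)
(fin 909 4 845)))))))))))
(mv 909 (cons (fin 845 4 845)
(mv 1103 (cons (fin 1035 0 1035)
(mv 1104 (cons (fin 1105 3 1037)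
(mv 1164 (cons (fin 1100 6 908)
(mv 1166 (cons (fin 1230 7 973)
(mv 1165 (cons (fin 1163 2 1099)
(fin 1167 2 1100))))))))))))))))))))
(cons (mv 970 (cons (fin 971 0 970)
(mv 909 (cons (mv 845 (cons (fin 781 5 780)
(fin 1100 5 844)))
(cons (mv 1100 (cons (fin 1164 6 908)
(mv 908 (cons (mv 780 (cons (fin 844 4 780)
(mv 907 (cons (fin 843 7 843)
(mv 906 (cons (fin 969 1 905)
(fin 905 0 905)))))))
(cons (mv 907 (cons (fin 843 7 843)
(mv 906 (cons (fin 969 1 905)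
(fin 905 0 905)))))
(mv 844 (cons (fin 780 4 780)
(mv 1099 (cons (fin 1035 5 843)
(fin 1163 5 907))))))))))
(mv 845 (cons (fin 781 5 780)
(fin 1102 4 845))))))))
(mv 970 (cons (fin 971 0 970)
(mv 909 (cons (mv 845 (cons (fin 781 5 780)
(fin 1100 5 844)))
(cons (mv 1100 (cons (fin 1164 6 908)
(mv 1035 (cons (mv 1034 (cons (fin 969 3 969)
(fin 1033 2 969)))
(cons (mv 1099 (cons (fin 1098 1 1034)
(mv 908 (cons (fin 844 5 843)
(mv 907 (cons (fin 843 7 843)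
(mv 906 (cons (fin 969 1 905)
(fin 905 0 905)))))))))
(mv 1034 (cons (fin 1033 2 969)
(mv 1098 (cons (fin 1097 1 1033)
(fin 1099 1 1034))))))))))
(mv 845 (cons (fin 781 5 780)
(fin 1102 4 845))))))))))))))))
(cons (cons (mv 1039 (cons (fin 1038 3 972)
(mv 975 (cons (fin 974 0 972)
(mv 1104 (cons (cons (mv 911 (cons (fin 847 4 847)
(mv 1168 (cons (fin 976 7 911)
(fin 1232 7 975)))))
(mv 911 (cons (fin 847 4 847)
(mv 1103 (cons (cons (mv 846 (cons (fin 910 7 846)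
(mv 1166 (cons (fin 1102 5 910)
(mv 1167 (cons (fin 1230 5 974)
(mv 976 (cons (fin 912 5 911)
(fin 1231 6 975)))))))))
(mv 910 (cons (fin 846 7 846)
(mv 909 (cons (fin 912 1 908)
(mv 908 (cons (fin 976 0 908)
(mv 844 (cons (fin 843 3 843)
(fin 780 4 780))))))))))
(cons (mv 1166 (cons (fin 1102 5 910)
(mv 1167 (cons (fin 1230 5 974)
(mv 976 (cons (fin 912 5 911)
(fin 1231 6 975)))))))
(cons (mv 910 (cons (fin 846 7 846)
(mv 909 (cons (fin 912 1 908)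
(mv 1166 (cons (fin 1102 5 910)
(mv 1167 (cons (fin 1230 5 974)
(mv 1105 (cons (fin 1106 1 1102)
(mv 1164 (cons (fin 1165 2 1100)
(mv 1036 (cons (fin 1100 6 908)
(mv 845 (cons (fin 781 5 780)
(mv 844 (cons (fin 780 7 780)
(mv 843 (cons (fin 908 3 843)
(fin 842 0 842)))))))))))))))))))))
(mv 846 (cons (fin 910 7 846)
(mv 1166 (cons (fin 1102 5 910)
(mv 1167 (cons (fin 1230 5 974)
(mv 1231 (cons (fin 976 6 975)
(fin 1295 6 1039))))))))))))))))
(cons (mv 1168 (cons (fin 1232 7 975)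
(mv 976 (cons (cons (mv 913 (cons (fin 977 6 912)
(mv 912 (cons (fin 849 6 848)
(mv 1167 (cons (fin 1103 5 911)
(fin 1231 5 975)))))))
(mv 913 (cons (fin 977 6 912)
(mv 912 (cons (fin 849 6 848)
(mv 1169 (cons (fin 1105 4 912)
(fin 1233 4 976))))))))
(cons (mv 1167 (cons (fin 1231 5 975)
(mv 912 (cons (fin 1103 5 911)
(mv 1169 (cons (fin 1105 4 912)
(fin 1233 4 976)))))))
(mv 977 (cons (fin 913 6 912)
(mv 978 (cons (fin 979 1 975)
(mv 914 (cons (fin 915 2 911)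
(mv 1042 (cons (fin 1043 0 975)
(mv 1167 (cons (fin 1231 5 975)
(mv 1169 (cons (fin 1233 4 976)
(mv 1105 (cons (fin 1106 5 913)
(mv 1166 (cons (fin 1165 2 1101)
(mv 1230 (cons (fin 1229 1 1165)
(fin 1103 5 974))))))))))))))))))))))))
(mv 911 (cons (fin 847 4 847)
(mv 1168 (cons (fin 1232 7 975)
(fin 1103 4 911))))))))))))
(mv 1038 (cons (fin 1039 3 972)
(mv 971 (cons (fin 970 0 970)
(mv 974 (cons (cons (mv 906 (cons (fin 907 3 906)
(mv 910 (cons (fin 911 2 907)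
(mv 782 (cons (fin 846 5 781)
(mv 1035 (cons (fin 1034 1 970)
(mv 1036 (cons (fin 975 1 971)
(mv 1098 (cons (fin 1099 1 1034)
(mv 1102 (cons (fin 1103 0 1035)
(mv 909 (cons (fin 845 7 845)
(fin 1166 7 909)))))))))))))))))
(mv 906 (cons (fin 907 3 906)
(mv 910 (cons (fin 911 2 907)
(mv 846 (cons (fin 782 5 781)
(mv 783 (cons (fin 847 6 782)
(mv 845 (cons (fin 781 7 781)
(mv 1102 (cons (fin 909 7 845)
(mv 1166 (cons (fin 1230 7 973)
(mv 1167 (cons (fin 1103 4 910)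
(fin 1231 4 974))))))))))))))))))
(cons (mv 906 (cons (fin 907 3 906)
(mv 1035 (cons (fin 1034 1 970)
(mv 975 (cons (fin 1036 1 971)
(mv 912 (cons (fin 911 2 908)
(mv 976 (cons (fin 977 1 973)
(fin 913 2 909)))))))))))
(cons (mv 906 (cons (fin 907 3 906)
(mv 1035 (cons (fin 1034 1 970)
(mv 1036 (cons (fin 975 1 971)
(mv 1098 (cons (fin 1099 1 1034)
(mv 1102 (cons (fin 1103 0 1035)
(mv 909 (cons (fin 1166 7 909)
(fin 845 4 845)))))))))))))
(mv 910 (cons (fin 911 2 907)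
(mv 782 (cons (fin 846 5 781)
(mv 1035 (cons (fin 1034 1 970)
(mv 1036 (cons (fin 975 1 971)
(mv 1098 (cons (fin 1099 1 1034)
(mv 1102 (cons (fin 1103 0 1035)
(mv 909 (cons (fin 845 7 845)
(fin 1166 7 909))))))))))))))))))))))))
(cons (mv 1038 (cons (fin 1039 3 972)
(mv 971 (cons (fin 970 0 970)
(mv 974 (cons (cons (mv 906 (cons (fin 907 3 906)
(mv 910 (cons (fin 911 2 907)
(mv 846 (cons (fin 782 5 781)
(mv 783 (cons (fin 847 6 782)
(mv 845 (cons (fin 781 7 781)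
(mv 1034 (cons (fin 1035 1 970)
(mv 1102 (cons (fin 909 7 845)
(mv 1166 (cons (fin 1230 7 973)
(mv 1167 (cons (fin 1103 4 910)
(fin 1231 4 974)))))))))))))))))))
(mv 907 (cons (fin 906 3 906)
(mv 908 (cons (fin 975 3 907)
(mv 844 (cons (fin 780 4 780)
(mv 1035 (cons (fin 1034 1 970)
(fin 1099 6 843))))))))))
(cons (mv 910 (cons (fin 911 2 907)
(mv 846 (cons (fin 782 5 781)
(mv 783 (cons (fin 847 6 782)
(mv 845 (cons (fin 781 7 781)
(mv 1034 (cons (fin 1035 1 970)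
(mv 1102 (cons (fin 909 7 845)
(mv 1166 (cons (fin 1230 7 973)
(mv 1167 (cons (fin 1103 4 910)
(fin 1231 4 974)))))))))))))))))
(mv 906 (cons (fin 907 3 906)
(mv 910 (cons (fin 911 2 907)
(mv 846 (cons (fin 782 5 781)
(mv 783 (cons (fin 847 6 782)
(mv 845 (cons (fin 781 7 781)
(mv 1102 (cons (fin 909 7 845)
(mv 1166 (cons (fin 1230 7 973)
(mv 1167 (cons (fin 1103 4 910)
(fin 1231 4 974))))))))))))))))))))))))
(cons (mv 1038 (cons (fin 1039 3 972)
(mv 971 (cons (fin 970 0 970)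
(mv 974 (cons (cons (mv 906 (cons (fin 907 3 906)
(mv 910 (cons (fin 911 2 907)
(mv 782 (cons (fin 846 5 781)
(mv 1035 (cons (fin 1034 1 970)
(mv 1036 (cons (fin 975 1 971)
(mv 1099 (cons (fin 1098 1 1034)
(mv 908 (cons (fin 844 5 843)
(fin 1163 6 907)))))))))))))))
(cons (mv 906 (cons (fin 907 3 906)
(mv 911 (cons (fin 910 2 907)
(mv 975 (cons (fin 912 2 908)
(mv 976 (cons (fin 1036 1 972)
(fin 977 1 973)))))))))
(mv 906 (cons (fin 907 3 906)
(mv 1035 (cons (fin 1034 1 970)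
(mv 975 (cons (fin 1036 1 971)
(mv 912 (cons (fin 911 2 908)
(mv 976 (cons (fin 977 1 973)
(fin 913 2 909)))))))))))))
(cons (cons (mv 910 (cons (fin 911 2 907)
(mv 782 (cons (fin 846 5 781)
(mv 1035 (cons (fin 1034 1 970)
(mv 1036 (cons (fin 975 1 971)
(mv 1099 (cons (fin 1098 1 1034)
(mv 908 (cons (fin 844 5 843)
(fin 1163 6 907)))))))))))))
(mv 906 (cons (fin 907 3 906)
(mv 1035 (cons (fin 1034 1 970)
(mv 1036 (cons (fin 975 1 971)
(mv 1099 (cons (fin 1098 1 1034)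
(mv 908 (cons (fin 844 5 843)
(fin 1163 6 907))))))))))))
(cons (mv 907 (cons (fin 906 3 906)
(mv 910 (cons (fin 911 2 907)
(mv 846 (cons (fin 782 5 781)
(mv 845 (cons (fin 781 7 781)
(mv 847 (cons (fin 783 6 782)
(mv 844 (cons (fin 908 1 843)
(mv 779 (cons (fin 780 3 779)
(mv 843 (cons (fin 778 3 778)
(fin 1036 4 779)))))))))))))))))
(mv 907 (cons (fin 906 3 906)
(mv 908 (cons (fin 975 3 907)
(mv 844 (cons (fin 780 4 780)
(mv 1035 (cons (fin 1034 1 970)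
(fin 1099 6 843)))))))))))))))))
(mv 1038 (cons (fin 1039 3 972)
(mv 970 (cons (fin 971 0 970)
(mv 1102 (cons (cons (mv 909 (cons (fin 845 4 845)
(mv 1166 (cons (fin 974 7 909)
(fin 1230 7 973)))))
(mv 1166 (cons (fin 1230 7 973)
(mv 974 (cons (mv 975 (cons (fin 911 6 910)
(mv 976 (cons (fin 1036 1 972)
(fin 977 1 973)))))
(cons (mv 1165 (cons (fin 1229 5 973)
(mv 1167 (cons (fin 1231 4 974)
(mv 1164 (cons (mv 1103 (cons (fin 1163 2 1099)
(fin 1104 2 1100)))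
(cons (mv 1099 (cons (fin 1100 3 1099)
(mv 1163 (cons (fin 1098 3 1098)
(mv 1227 (cons (fin 1226 1 1162)
(fin 1228 1 1163)))))))
(mv 1099 (cons (fin 1100 3 1099)
(mv 1104 (cons (fin 1103 2 1100)
(mv 1168 (cons (fin 1105 2 1101)
(mv 1227 (cons (fin 1228 1 1163)
(mv 1233 (cons (fin 1232 0 1165)
(mv 1169 (cons (fin 1234 0 1166)
(fin 976 4 976))))))))))))))))))))
(mv 911 (cons (fin 975 6 910)
(mv 1165 (cons (fin 1229 5 973)
(mv 1167 (cons (fin 1231 4 974)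
(mv 1164 (cons (mv 1103 (cons (fin 1163 2 1099)
(fin 1104 2 1100)))
(cons (mv 1099 (cons (fin 1100 3 1099)
(mv 1163 (cons (fin 1098 3 1098)
(mv 1227 (cons (fin 1226 1 1162)
(fin 1228 1 1163)))))))
(mv 1100 (cons (fin 1099 3 1099)
(mv 1228 (cons (fin 1227 1 1163)
(fin 1036 6 972))))))))))))))))))))
(cons (mv 1036 (cons (cons (mv 845 (cons (fin 909 4 845)
(mv 1035 (cons (fin 1103 0 1035)
(mv 974 (cons (fin 975 1 971)
(fin 1034 2 970)))))))
(mv 908 (cons (cons (mv 780 (cons (fin 844 4 780)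
(mv 909 (cons (fin 845 4 845)
(mv 1100 (cons (fin 1164 6 908)
(mv 907 (cons (fin 843 7 843)
(mv 906 (cons (fin 969 1 905)
(fin 905 0 905)))))))))))
(mv 844 (cons (fin 780 4 780)
(mv 781 (cons (fin 845 6 780)
(mv 843 (cons (fin 779 7 779)
(mv 1100 (cons (fin 907 7 843)
(mv 1163 (cons (fin 1099 5 907)
(mv 1164 (cons (fin 1227 5 971)
(fin 1228 6 972))))))))))))))
(cons (mv 844 (cons (fin 780 4 780)
(mv 843 (cons (fin 779 7 779)
(mv 907 (cons (fin 1100 7 843)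
(mv 906 (cons (fin 905 0 905)
(mv 909 (cons (fin 969 1 905)
(fin 974 0 906)))))))))))
(cons (mv 909 (cons (fin 845 4 845)
(mv 1100 (cons (fin 1164 6 908)
(mv 907 (cons (fin 843 7 843)
(mv 906 (cons (fin 969 1 905)
(fin 905 0 905)))))))))
(mv 844 (cons (fin 780 4 780)
(mv 845 (cons (fin 781 6 780)
(fin 909 4 845))))))))))
(cons (mv 1035 (cons (fin 1103 0 1035)
(mv 974 (cons (fin 975 1 971)
(fin 1034 2 970)))))
(mv 845 (cons (fin 909 4 845)
(mv 1035 (cons (fin 1103 0 1035)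
(mv 1034 (cons (fin 969 3 969)
(fin 1033 2 969))))))))))
(mv 1166 (cons (fin 1230 7 973)
(mv 1036 (cons (cons (mv 845 (cons (fin 909 4 845)
(mv 1035 (cons (fin 1103 0 1035)
(mv 1034 (cons (fin 969 3 969)
(fin 1033 2 969)))))))
(mv 908 (cons (cons (mv 780 (cons (fin 844 4 780)
(mv 909 (cons (fin 845 4 845)
(mv 1100 (cons (fin 1164 6 908)
(mv 907 (cons (fin 843 7 843)
(mv 906 (cons (fin 969 1 905)
(fin 905 0 905)))))))))))
(mv 844 (cons (fin 780 4 780)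
(mv 781 (cons (fin 845 6 780)
(mv 843 (cons (fin 779 7 779)
(mv 1100 (cons (fin 907 7 843)
(mv 1099 (cons (fin 1163 5 907)
(mv 1097 (cons (fin 1098 2 1033)
(mv 1164 (cons (fin 1228 6 972)
(mv 1165 (cons (fin 1167 3 1099)
(fin 1229 4 972))))))))))))))))))
(cons (mv 844 (cons (fin 780 4 780)
(mv 843 (cons (fin 779 7 779)
(mv 1100 (cons (fin 907 7 843)
(mv 1164 (cons (fin 909 6 908)
(fin 1228 6 972)))))))))
(cons (mv 909 (cons (fin 845 4 845)
(mv 1100 (cons (fin 1164 6 908)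
(mv 907 (cons (fin 843 7 843)
(mv 906 (cons (fin 969 1 905)
(fin 905 0 905)))))))))
(mv 844 (cons (fin 780 4 780)
(mv 845 (cons (fin 781 6 780)
(fin 909 4 845))))))))))
(cons (mv 1035 (cons (fin 1103 0 1035)
(mv 1034 (cons (fin 969 3 969)
(fin 1033 2 969)))))
(mv 845 (cons (fin 909 4 845)
(mv 1035 (cons (fin 1103 0 1035)
(mv 1033 (cons (fin 1034 2 969)
(mv 1099 (cons (fin 1098 1 1034)
(mv 908 (cons (fin 844 5 843)
(mv 1163 (cons (fin 1100 5 907)
(fin 1227 6 971)))))))))))))))))))))))))))))))))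
(cons (cons (mv 972 (cons (cons (cons (mv 1038 (cons (fin 1039 3 972)
(mv 971 (cons (fin 970 0 970)
(mv 974 (cons (cons (mv 906 (cons (fin 907 3 906)
(mv 910 (cons (fin 911 2 907)
(mv 846 (cons (fin 782 5 781)
(fin 1101 5 845)))))))
(mv 906 (cons (fin 907 3 906)
(mv 1035 (cons (fin 1034 1 970)
(mv 975 (cons (fin 1036 1 971)
(mv 912 (cons (fin 911 2 908)
(mv 976 (cons (fin 977 1 973)
(fin 913 2 909))))))))))))
(cons (mv 910 (cons (fin 911 2 907)
(mv 846 (cons (fin 782 5 781)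
(fin 1101 5 845)))))
(mv 906 (cons (fin 907 3 906)
(mv 1035 (cons (fin 1034 1 970)
(mv 1036 (cons (fin 975 1 971)
(mv 1098 (cons (fin 1099 1 1034)
(mv 1102 (cons (fin 1103 0 1035)
(mv 1166 (cons (fin 1230 7 973)
(mv 1165 (cons (fin 1229 5 973)
(mv 1101 (cons (fin 908 7 908)
(fin 910 5 909))))))))))))))))))))))))
(mv 974 (cons (mv 975 (cons (fin 1039 0 972)
(mv 1036 (cons (fin 1035 1 971)
(fin 976 1 972)))))
(cons (mv 971 (cons (cons (mv 906 (cons (fin 907 3 906)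
(mv 910 (cons (fin 911 2 907)
(mv 782 (cons (fin 846 5 781)
(mv 970 (cons (fin 905 3 905)
(mv 1034 (cons (fin 1033 1 969)
(fin 1035 1 970)))))))))))
(cons (mv 907 (cons (fin 906 3 906)
(mv 910 (cons (fin 911 2 907)
(mv 782 (cons (fin 846 5 781)
(mv 1101 (cons (fin 1165 6 909)
(mv 1036 (cons (cons (mv 779 (cons (fin 843 4 779)
(mv 908 (cons (fin 844 4 844)
(mv 969 (cons (fin 970 0 969)
(mv 1100 (cons (fin 1164 7 907)
(mv 1099 (cons (fin 1163 5 907)
(mv 1098 (cons (fin 1097 2 1033)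
(mv 1162 (cons (fin 1161 1 1097)
(fin 1035 5 906)))))))))))))))
(mv 843 (cons (fin 779 4 779)
(mv 844 (cons (fin 908 4 844)
(mv 780 (cons (fin 1035 6 779)
(mv 652 (cons (fin 716 5 651)
(mv 781 (cons (fin 783 1 779)
(mv 842 (cons (fin 841 2 777)
(fin 845 2 778))))))))))))))
(cons (mv 843 (cons (fin 779 4 779)
(mv 1100 (cons (fin 1164 7 907)
(fin 1035 4 843)))))
(cons (mv 908 (cons (fin 844 4 844)
(mv 969 (cons (fin 970 0 969)
(mv 1100 (cons (fin 1164 7 907)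
(mv 1099 (cons (fin 1163 5 907)
(mv 1098 (cons (fin 1097 2 1033)
(mv 1162 (cons (fin 1161 1 1097)
(fin 1035 5 906)))))))))))))
(mv 843 (cons (fin 779 4 779)
(mv 908 (cons (fin 1100 7 843)
(fin 844 4 844)))))))))))))))))
(mv 906 (cons (fin 907 3 906)
(mv 970 (cons (fin 905 3 905)
(mv 1034 (cons (fin 1033 1 969)
(fin 1035 1 970)))))))))
(cons (cons (mv 906 (cons (fin 907 3 906)
(mv 910 (cons (fin 911 2 907)
(mv 782 (cons (fin 846 5 781)
(mv 970 (cons (fin 905 3 905)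
(mv 969 (cons (fin 1036 0 969)
(mv 1033 (cons (fin 1032 1 968)
(fin 1034 1 969)))))))))))))
(mv 910 (cons (fin 911 2 907)
(mv 782 (cons (fin 846 5 781)
(mv 1034 (cons (fin 1035 1 970)
(mv 970 (cons (fin 1033 1 969)
(mv 1036 (cons (fin 969 0 969)
(mv 1101 (cons (fin 1165 6 909)
(mv 908 (cons (fin 844 4 844)
(mv 1100 (cons (mv 907 (cons (fin 843 7 843)
(fin 1164 7 907)))
(cons (mv 1163 (cons (fin 1099 5 907)
(mv 1164 (cons (fin 1227 5 971)
(fin 1228 6 972)))))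
(mv 907 (cons (fin 843 7 843)
(mv 1098 (cons (fin 1162 6 906)
(mv 1099 (cons (fin 1097 2 1033)
(fin 1163 5 907)))))))))))))))))))))))))
(cons (mv 910 (cons (fin 911 2 907)
(mv 782 (cons (fin 846 5 781)
(mv 1034 (cons (fin 1035 1 970)
(mv 970 (cons (fin 1033 1 969)
(mv 905 (cons (fin 906 3 905)
(mv 969 (cons (fin 904 3 904)
(fin 1036 0 969)))))))))))))
(mv 907 (cons (fin 906 3 906)
(mv 910 (cons (fin 911 2 907)
(mv 782 (cons (fin 846 5 781)
(mv 1035 (cons (fin 1034 1 970)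
(mv 1101 (cons (fin 1165 6 909)
(mv 908 (cons (mv 844 (cons (fin 780 5 779)
(fin 1099 6 843)))
(cons (mv 1099 (cons (fin 1163 6 907)
(mv 1098 (cons (fin 1162 5 906)
(mv 1100 (cons (fin 1164 4 907)
(mv 1036 (cons (fin 1097 2 1033)
(fin 843 7 843)))))))))
(mv 844 (cons (fin 780 5 779)
(fin 1036 4 844))))))))))))))))))))
(mv 975 (cons (fin 1039 0 972)
(mv 907 (cons (fin 908 3 907)
(mv 911 (cons (fin 912 2 908)
(mv 971 (cons (fin 906 3 906)
(fin 910 2 907)))))))))))))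
(cons (mv 908 (cons (cons (mv 844 (cons (fin 780 4 780)
(mv 1101 (cons (fin 1165 7 908)
(fin 1036 4 844)))))
(mv 1101 (cons (fin 1165 7 908)
(mv 974 (cons (cons (mv 907 (cons (fin 975 3 907)
(mv 906 (cons (fin 971 3 906)
(fin 905 0 905)))))
(mv 971 (cons (cons (mv 906 (cons (fin 907 3 906)
(mv 970 (cons (fin 905 3 905)
(fin 1038 0 970)))))
(mv 906 (cons (fin 907 3 906)
(mv 910 (cons (fin 911 2 907)
(mv 846 (cons (fin 782 5 781)
(fin 1038 5 845))))))))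
(cons (mv 910 (cons (fin 911 2 907)
(mv 846 (cons (fin 782 5 781)
(fin 1038 5 845)))))
(mv 906 (cons (fin 907 3 906)
(mv 910 (cons (fin 911 2 907)
(mv 782 (cons (fin 846 5 781)
(mv 970 (cons (fin 905 3 905)
(mv 1034 (cons (fin 1033 1 969)
(fin 1035 1 970)))))))))))))))
(cons (mv 1035 (cons (cons (mv 1034 (cons (fin 971 1 970)
(fin 1036 2 970)))
(mv 971 (cons (fin 1034 1 970)
(mv 910 (cons (fin 911 2 907)
(mv 846 (cons (fin 782 5 781)
(fin 1038 5 845))))))))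
(cons (mv 975 (cons (fin 1036 1 971)
(mv 911 (cons (fin 912 2 908)
(mv 910 (cons (fin 971 2 907)
(mv 846 (cons (fin 782 5 781)
(fin 1038 5 845)))))))))
(mv 1036 (cons (fin 975 1 971)
(fin 1034 2 970))))))
(mv 975 (cons (fin 907 3 907)
(mv 1036 (cons (fin 1035 1 971)
(fin 976 1 972)))))))))))
(cons (mv 780 (cons (fin 844 4 780)
(mv 974 (cons (cons (mv 907 (cons (fin 975 3 907)
(mv 906 (cons (fin 971 3 906)
(fin 905 0 905)))))
(mv 971 (cons (cons (mv 906 (cons (fin 907 3 906)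
(mv 970 (cons (fin 905 3 905)
(fin 1038 0 970)))))
(mv 907 (cons (fin 906 3 906)
(mv 910 (cons (fin 911 2 907)
(mv 782 (cons (fin 846 5 781)
(mv 1035 (cons (fin 1034 1 970)
(mv 1099 (cons (fin 1163 6 907)
(mv 1098 (cons (fin 1162 5 906)
(mv 1036 (cons (fin 1038 1 1034)
(mv 843 (cons (fin 1100 7 843)
(fin 779 4 779))))))))))))))))))
(cons (mv 910 (cons (fin 911 2 907)
(mv 782 (cons (fin 846 5 781)
(mv 970 (cons (fin 1038 0 970)
(mv 1034 (cons (fin 1033 1 969)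
(fin 1035 1 970)))))))))
(mv 906 (cons (fin 907 3 906)
(mv 910 (cons (fin 911 2 907)
(mv 782 (cons (fin 846 5 781)
(mv 970 (cons (fin 905 3 905)
(mv 1034 (cons (fin 1033 1 969)
(fin 1035 1 970)))))))))))))))
(cons (mv 971 (cons (cons (mv 910 (cons (fin 911 2 907)
(mv 782 (cons (fin 846 5 781)
(mv 970 (cons (fin 1038 0 970)
(mv 1034 (cons (fin 1033 1 969)
(fin 1035 1 970)))))))))
(mv 910 (cons (fin 911 2 907)
(mv 782 (cons (fin 846 5 781)
(mv 970 (cons (fin 1038 0 970)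
(mv 905 (cons (fin 906 3 905)
(mv 969 (cons (fin 904 3 904)
(fin 1036 0 969))))))))))))
(cons (mv 910 (cons (fin 911 2 907)
(mv 782 (cons (fin 846 5 781)
(mv 1035 (cons (fin 1034 1 970)
(mv 1036 (cons (fin 975 1 971)
(mv 1099 (cons (fin 1163 6 907)
(mv 1098 (cons (fin 1038 1 1034)
(mv 1097 (cons (fin 1096 2 1032)
(fin 1100 2 1033)))))))))))))))
(cons (mv 970 (cons (fin 1038 0 970)
(mv 1034 (cons (fin 1033 1 969)
(fin 1035 1 970)))))
(mv 910 (cons (fin 911 2 907)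
(mv 782 (cons (fin 846 5 781)
(mv 1034 (cons (fin 1035 1 970)
(mv 970 (cons (fin 1033 1 969)
(mv 905 (cons (fin 906 3 905)
(mv 969 (cons (fin 904 3 904)
(fin 1036 0 969)))))))))))))))))
(mv 975 (cons (fin 907 3 907)
(mv 1036 (cons (fin 1035 1 971)
(fin 976 1 972))))))))))
(mv 780 (cons (fin 844 4 780)
(mv 1101 (cons (fin 1165 7 908)
(mv 971 (cons (cons (mv 970 (cons (fin 1038 0 970)
(mv 905 (cons (fin 906 3 905)
(mv 904 (cons (fin 969 3 904)
(mv 1034 (cons (fin 1033 1 969)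
(mv 974 (cons (fin 1035 1 970)
(mv 911 (cons (fin 910 2 907)
(mv 975 (cons (fin 907 3 907)
(fin 912 2 908)))))))))))))))
(mv 974 (cons (mv 907 (cons (fin 906 3 906)
(fin 975 3 907)))
(mv 910 (cons (fin 911 2 907)
(mv 846 (cons (fin 782 5 781)
(fin 1038 5 845))))))))
(cons (mv 1034 (cons (cons (mv 970 (cons (fin 1033 1 969)
(mv 905 (cons (fin 906 3 905)
(mv 904 (cons (fin 969 3 904)
(mv 974 (cons (fin 1035 1 970)
(mv 911 (cons (fin 910 2 907)
(mv 975 (cons (fin 907 3 907)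
(fin 912 2 908)))))))))))))
(cons (mv 970 (cons (fin 1033 1 969)
(mv 905 (cons (fin 906 3 905)
(mv 969 (cons (fin 904 3 904)
(mv 777 (cons (fin 841 4 777)
(mv 907 (cons (fin 968 2 904)
(mv 843 (cons (fin 779 5 778)
(mv 1098 (cons (fin 1162 7 905)
(fin 1035 5 842)))))))))))))))
(mv 970 (cons (fin 1033 1 969)
(mv 906 (cons (fin 905 3 905)
(mv 907 (cons (fin 974 3 906)
(mv 843 (cons (fin 779 5 778)
(fin 1098 6 842)))))))))))
(cons (mv 974 (cons (fin 1035 1 970)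
(mv 907 (cons (fin 906 3 906)
(fin 975 3 907)))))
(cons (mv 970 (cons (fin 1033 1 969)
(mv 906 (cons (fin 905 3 905)
(mv 1035 (cons (fin 974 1 970)
(mv 842 (cons (fin 778 4 778)
(fin 1099 4 842)))))))))
(mv 970 (cons (fin 1033 1 969)
(mv 974 (cons (fin 1035 1 970)
(mv 911 (cons (fin 910 2 907)
(mv 975 (cons (fin 907 3 907)
(fin 912 2 908)))))))))))))
(cons (mv 970 (cons (fin 1038 0 970)
(mv 905 (cons (fin 906 3 905)
(mv 969 (cons (fin 904 3 904)
(mv 1033 (cons (fin 1032 1 968)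
(fin 1034 1 969)))))))))
(mv 970 (cons (fin 1038 0 970)
(mv 1033 (cons (fin 1034 1 969)
(mv 969 (cons (fin 1032 1 968)
(mv 904 (cons (fin 905 3 904)
(mv 968 (cons (fin 903 3 903)
(fin 907 2 904))))))))))))))))))))))
(cons (mv 1038 (cons (fin 1039 3 972)
(mv 971 (cons (fin 970 0 970)
(mv 974 (cons (cons (mv 906 (cons (fin 907 3 906)
(mv 910 (cons (fin 911 2 907)
(mv 846 (cons (fin 782 5 781)
(fin 1101 5 845)))))))
(mv 906 (cons (fin 907 3 906)
(mv 1035 (cons (fin 1034 1 970)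
(mv 975 (cons (fin 1036 1 971)
(mv 912 (cons (fin 911 2 908)
(mv 976 (cons (fin 977 1 973)
(fin 913 2 909))))))))))))
(cons (mv 906 (cons (fin 907 3 906)
(mv 1035 (cons (fin 1034 1 970)
(mv 1036 (cons (fin 975 1 971)
(mv 1098 (cons (fin 1099 1 1034)
(mv 1102 (cons (fin 1103 0 1035)
(mv 1166 (cons (fin 1230 7 973)
(mv 1165 (cons (fin 1229 5 973)
(mv 1101 (cons (fin 910 5 909)
(mv 1164 (cons (fin 1228 5 972)
(mv 1162 (cons (fin 1163 2 1098)
(mv 1167 (cons (fin 1231 4 974)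
(mv 1168 (cons (fin 1100 3 1100)
(fin 1169 3 1101)))))))))))))))))))))))))
(mv 910 (cons (fin 911 2 907)
(mv 846 (cons (fin 782 5 781)
(fin 1101 5 845))))))))))))
(mv 1038 (cons (fin 1039 3 972)
(mv 971 (cons (fin 970 0 970)
(mv 1101 (cons (cons (mv 908 (cons (fin 1165 7 908)
(mv 844 (cons (fin 780 4 780)
(fin 1036 4 844)))))
(mv 1099 (cons (cons (mv 1098 (cons (fin 1100 2 1034)
(mv 1035 (cons (fin 1036 1 1034)
(mv 907 (cons (fin 1162 5 906)
(mv 908 (cons (fin 844 6 843)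
(fin 1163 6 907)))))))))
(cons (mv 908 (cons (mv 844 (cons (fin 780 4 780)
(fin 1036 4 844)))
(cons (mv 1163 (cons (fin 1035 6 907)
(mv 1100 (cons (fin 1036 5 907)
(mv 1102 (cons (fin 1162 1 1098)
(mv 1166 (cons (fin 1167 0 1099)
(fin 1230 7 973)))))))))
(mv 844 (cons (fin 780 4 780)
(mv 1035 (cons (fin 907 6 843)
(fin 1163 6 907))))))))
(mv 908 (cons (mv 844 (cons (fin 780 4 780)
(fin 1036 4 844)))
(cons (mv 1035 (cons (fin 1163 6 907)
(mv 1036 (cons (fin 1098 1 1034)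
(mv 1034 (cons (fin 1033 2 969)
(fin 1102 0 1034)))))))
(mv 844 (cons (fin 780 4 780)
(mv 1035 (cons (fin 907 6 843)
(fin 1163 6 907))))))))))
(cons (cons (mv 1098 (cons (fin 1100 2 1034)
(mv 1035 (cons (fin 1036 1 1034)
(mv 907 (cons (fin 1162 5 906)
(mv 842 (cons (fin 906 7 842)
(mv 843 (cons (fin 778 7 778)
(fin 1034 5 842)))))))))))
(mv 1100 (cons (fin 1098 2 1034)
(mv 1036 (cons (mv 908 (cons (fin 1163 5 907)
(fin 844 4 844)))
(mv 1164 (cons (fin 907 7 907)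
(fin 1228 6 972))))))))
(cons (mv 1098 (cons (fin 1100 2 1034)
(mv 1035 (cons (cons (mv 907 (cons (fin 1162 5 906)
(mv 908 (cons (fin 844 6 843)
(fin 1163 6 907)))))
(mv 1163 (cons (fin 908 6 907)
(mv 1162 (cons (fin 1226 5 970)
(mv 1228 (cons (fin 1164 4 971)
(mv 1227 (cons (fin 1292 4 1035)
(mv 1291 (cons (fin 1034 7 1034)
(fin 1355 7 1098))))))))))))
(cons (mv 908 (cons (fin 1163 6 907)
(mv 844 (cons (fin 780 5 779)
(fin 907 6 843)))))
(mv 907 (cons (fin 1162 5 906)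
(mv 842 (cons (fin 906 7 842)
(mv 843 (cons (fin 778 7 778)
(fin 1034 5 842))))))))))))
(mv 1098 (cons (fin 1100 2 1034)
(mv 1035 (cons (fin 1036 1 1034)
(mv 1163 (cons (fin 908 6 907)
(mv 1162 (cons (fin 1226 5 970)
(mv 1228 (cons (fin 1164 4 971)
(mv 1227 (cons (fin 1292 4 1035)
(mv 1291 (cons (fin 1034 7 1034)
(fin 1355 7 1098))))))))))))))))))))
(cons (mv 1165 (cons (cons (mv 1036 (cons (fin 1229 7 972)
(mv 1164 (cons (fin 1228 5 972)
(mv 1100 (cons (fin 907 7 907)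
(mv 1098 (cons (fin 1099 2 1034)
(mv 1163 (cons (fin 1227 5 971)
(mv 1102 (cons (fin 1103 1 1099)
(fin 1162 2 1098)))))))))))))
(mv 1164 (cons (fin 1228 5 972)
(mv 1166 (cons (fin 1230 4 973)
(mv 1100 (cons (mv 1099 (cons (fin 1167 3 1099)
(fin 1098 2 1034)))
(cons (mv 907 (cons (fin 1036 7 907)
(mv 1167 (cons (fin 1168 3 1100)
(mv 1103 (cons (fin 1104 2 1100)
(mv 1102 (cons (fin 1163 1 1099)
(mv 1231 (cons (fin 1232 0 1164)
(fin 1295 7 1038)))))))))))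
(mv 907 (cons (fin 1036 7 907)
(mv 1099 (cons (fin 1098 2 1034)
(fin 1035 4 907)))))))))))))
(cons (mv 1166 (cons (fin 1230 4 973)
(mv 1229 (cons (fin 1036 7 972)
(mv 1293 (cons (fin 1102 6 1037)
(mv 1356 (cons (fin 1292 5 1100)
(mv 1357 (cons (fin 1420 5 1164)
(mv 1358 (cons (fin 1294 4 1101)
(fin 1422 4 1165)))))))))))))
(cons (mv 1164 (cons (fin 1228 5 972)
(mv 1230 (cons (fin 1166 4 973)
(mv 1229 (cons (fin 1294 4 1037)
(mv 1102 (cons (fin 1293 6 1037)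
(mv 1103 (cons (fin 1104 1 1100)
(mv 1163 (cons (fin 1100 1 1099)
(fin 1162 2 1098)))))))))))))
(mv 1036 (cons (fin 1229 7 972)
(mv 1164 (cons (fin 1228 5 972)
(mv 1100 (cons (fin 907 7 907)
(mv 1098 (cons (fin 1099 2 1034)
(mv 1163 (cons (fin 1227 5 971)
(mv 1162 (cons (fin 1097 3 1097)
(fin 1161 2 1097)))))))))))))))))
(mv 1165 (cons (fin 908 7 908)
(mv 1164 (cons (fin 1228 5 972)
(mv 1230 (cons (fin 1166 4 973)
(mv 1229 (cons (fin 1294 4 1037)
(mv 1102 (cons (fin 1293 6 1037)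
(mv 1103 (cons (fin 1104 1 1100)
(mv 1163 (cons (fin 1100 1 1099)
(fin 1162 2 1098)))))))))))))))))))))))))
(cons (cons (mv 1039 (cons (fin 1038 3 972)
(mv 975 (cons (fin 974 0 972)
(mv 908 (cons (cons (mv 844 (cons (fin 780 4 780)
(mv 1101 (cons (fin 1165 7 908)
(fin 1036 4 844)))))
(mv 1101 (cons (fin 1165 7 908)
(mv 1103 (cons (cons (mv 1102 (cons (fin 1100 2 1036)
(mv 911 (cons (fin 1166 5 910)
(mv 1104 (cons (fin 1036 3 1036)
(fin 847 4 847)))))))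
(mv 1167 (cons (mv 976 (cons (fin 912 6 911)
(fin 1231 6 975)))
(cons (mv 1168 (cons (fin 1232 4 975)
(mv 1104 (cons (fin 911 4 911)
(mv 1230 (cons (fin 1166 5 974)
(mv 1231 (cons (fin 1294 5 1038)
(fin 1295 6 1039)))))))))
(mv 976 (cons (fin 912 6 911)
(mv 1166 (cons (fin 1230 5 974)
(mv 1168 (cons (fin 1232 4 975)
(mv 911 (cons (fin 1104 7 911)
(mv 846 (cons (fin 910 7 846)
(mv 847 (cons (fin 782 7 782)
(fin 783 4 783)))))))))))))))))
(cons (mv 1102 (cons (fin 1100 2 1036)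
(mv 911 (cons (fin 1166 5 910)
(mv 846 (cons (fin 910 7 846)
(mv 847 (cons (fin 782 7 782)
(mv 976 (cons (fin 783 4 783)
(mv 1167 (cons (fin 912 6 911)
(fin 1231 6 975)))))))))))))
(mv 1102 (cons (fin 1100 2 1036)
(mv 1104 (cons (fin 1036 3 1036)
(mv 1168 (cons (fin 1169 0 1101)
(fin 1232 7 975)))))))))))))
(cons (mv 844 (cons (fin 780 4 780)
(mv 1036 (cons (cons (mv 781 (cons (fin 845 6 780)
(mv 843 (cons (fin 779 7 779)
(mv 907 (cons (fin 1100 7 843)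
(mv 906 (cons (fin 905 0 905)
(mv 1035 (cons (fin 1099 5 843)
(mv 1034 (cons (fin 1033 2 969)
(mv 970 (cons (fin 969 3 969)
(fin 1098 6 842)))))))))))))))
(cons (mv 781 (cons (fin 845 6 780)
(mv 843 (cons (fin 779 7 779)
(mv 1100 (cons (fin 907 7 843)
(mv 1163 (cons (fin 1099 5 907)
(mv 1164 (cons (fin 1227 5 971)
(fin 1228 6 972)))))))))))
(mv 845 (cons (fin 781 6 780)
(mv 1099 (cons (fin 1035 5 843)
(mv 1100 (cons (fin 1163 5 907)
(mv 1164 (cons (fin 1228 6 972)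
(mv 1165 (cons (fin 1229 4 972)
(mv 1167 (cons (fin 1166 3 1099)
(mv 1103 (cons (mv 976 (cons (fin 912 6 911)
(fin 1231 6 975)))
(cons (mv 1168 (cons (fin 1232 4 975)
(mv 911 (cons (fin 1104 4 911)
(mv 846 (cons (fin 910 7 846)
(mv 847 (cons (fin 907 1 843)
(fin 912 0 844)))))))))
(mv 1097 (cons (fin 1098 2 1033)
(mv 1168 (cons (fin 1232 4 975)
(mv 1104 (cons (fin 911 4 911)
(mv 1231 (cons (fin 976 5 975)
(fin 1295 6 1039))))))))))))))))))))))))))
(cons (cons (mv 843 (cons (fin 779 7 779)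
(mv 845 (cons (fin 781 6 780)
(mv 907 (cons (fin 1100 7 843)
(mv 846 (cons (fin 906 1 842)
(fin 847 1 843)))))))))
(mv 843 (cons (fin 779 7 779)
(mv 907 (cons (fin 1100 7 843)
(mv 906 (cons (fin 905 0 905)
(mv 1035 (cons (fin 1099 5 843)
(mv 1034 (cons (fin 1033 2 969)
(mv 970 (cons (fin 969 3 969)
(fin 1098 6 842))))))))))))))
(cons (mv 843 (cons (fin 779 7 779)
(mv 845 (cons (fin 781 6 780)
(mv 1035 (cons (fin 1099 5 843)
(mv 1034 (cons (fin 1033 2 969)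
(mv 970 (cons (fin 969 3 969)
(mv 1098 (cons (fin 1097 1 1033)
(mv 906 (cons (fin 907 6 842)
(mv 905 (cons (fin 842 1 841)
(fin 841 7 841)))))))))))))))))
(mv 845 (cons (fin 781 6 780)
(mv 1099 (cons (fin 1035 5 843)
(mv 1100 (cons (fin 1163 5 907)
(mv 1164 (cons (fin 1228 6 972)
(mv 1165 (cons (fin 1229 4 972)
(mv 1167 (cons (fin 1166 3 1099)
(mv 1103 (cons (mv 976 (cons (fin 912 6 911)
(fin 1231 6 975)))
(cons (mv 1168 (cons (fin 1232 4 975)
(mv 911 (cons (fin 1104 4 911)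
(mv 846 (cons (fin 910 7 846)
(mv 847 (cons (fin 912 0 844)
(fin 782 7 782)))))))))
(mv 779 (cons (fin 843 7 779)
(mv 1097 (cons (fin 1098 2 1033)
(mv 1231 (cons (fin 976 6 975)
(mv 1232 (cons (fin 1168 4 975)
(fin 1296 4 1039))))))))))))))))))))))))))))))
(cons (mv 844 (cons (fin 780 4 780)
(mv 1036 (cons (fin 1101 4 844)
(mv 781 (cons (fin 845 6 780)
(mv 843 (cons (fin 779 7 779)
(mv 907 (cons (fin 1100 7 843)
(mv 906 (cons (fin 905 0 905)
(mv 1035 (cons (fin 1099 5 843)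
(mv 1034 (cons (fin 1033 2 969)
(mv 970 (cons (fin 969 3 969)
(fin 1098 6 842)))))))))))))))))))
(mv 780 (cons (fin 844 4 780)
(mv 1101 (cons (fin 1165 7 908)
(mv 1103 (cons (cons (mv 1102 (cons (fin 1100 2 1036)
(mv 911 (cons (fin 1166 5 910)
(mv 1104 (cons (fin 847 4 847)
(fin 1168 4 911)))))))
(mv 1167 (cons (mv 976 (cons (fin 912 6 911)
(fin 1231 6 975)))
(cons (mv 1168 (cons (fin 1232 4 975)
(mv 1104 (cons (fin 911 4 911)
(mv 1230 (cons (fin 1166 5 974)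
(mv 1231 (cons (fin 1294 5 1038)
(fin 1295 6 1039)))))))))
(mv 976 (cons (fin 912 6 911)
(mv 1166 (cons (fin 1230 5 974)
(mv 1168 (cons (fin 1232 4 975)
(mv 911 (cons (fin 1104 7 911)
(mv 846 (cons (fin 910 7 846)
(mv 847 (cons (fin 782 7 782)
(fin 783 4 783)))))))))))))))))
(cons (mv 1102 (cons (fin 1100 2 1036)
(mv 1167 (cons (mv 976 (cons (fin 912 6 911)
(fin 1231 6 975)))
(mv 1166 (cons (fin 1230 5 974)
(mv 1168 (cons (fin 1169 3 1101)
(fin 1232 4 975)))))))))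
(cons (mv 1102 (cons (fin 1100 2 1036)
(mv 911 (cons (fin 1166 5 910)
(mv 846 (cons (fin 910 7 846)
(mv 847 (cons (fin 782 7 782)
(fin 1104 4 847)))))))))
(mv 1100 (cons (fin 1102 2 1036)
(mv 1167 (cons (mv 976 (cons (fin 912 6 911)
(fin 1231 6 975)))
(cons (mv 1232 (cons (fin 1168 4 975)
(mv 1231 (cons (fin 1296 4 1039)
(mv 1294 (cons (fin 1230 5 1038)
(mv 1295 (cons (fin 1358 5 1102)
(fin 1104 6 1039)))))))))
(mv 976 (cons (fin 912 6 911)
(mv 1168 (cons (fin 1232 4 975)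
(mv 911 (cons (fin 1104 7 911)
(mv 846 (cons (fin 910 7 846)
(mv 847 (cons (fin 782 7 782)
(fin 783 4 783))))))))))))))))))))))))))))))))
(cons (mv 1038 (cons (fin 1039 3 972)
(mv 971 (cons (fin 970 0 970)
(mv 974 (cons (cons (mv 906 (cons (fin 907 3 906)
(mv 910 (cons (fin 911 2 907)
(mv 782 (cons (fin 846 5 781)
(mv 1035 (cons (fin 1034 1 970)
(mv 1036 (cons (fin 975 1 971)
(mv 1099 (cons (fin 1098 1 1034)
(mv 908 (cons (fin 844 5 843)
(fin 1163 6 907)))))))))))))))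
(cons (mv 906 (cons (fin 907 3 906)
(mv 911 (cons (fin 910 2 907)
(mv 975 (cons (fin 912 2 908)
(mv 976 (cons (fin 1036 1 972)
(fin 977 1 973)))))))))
(mv 906 (cons (fin 907 3 906)
(mv 1035 (cons (fin 1034 1 970)
(mv 975 (cons (fin 1036 1 971)
(mv 912 (cons (fin 911 2 908)
(mv 976 (cons (fin 977 1 973)
(fin 913 2 909)))))))))))))
(cons (cons (mv 910 (cons (fin 911 2 907)
(mv 782 (cons (fin 846 5 781)
(mv 1035 (cons (fin 1034 1 970)
(mv 1036 (cons (fin 975 1 971)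
(mv 1099 (cons (fin 1098 1 1034)
(mv 908 (cons (fin 844 5 843)
(fin 1163 6 907)))))))))))))
(mv 906 (cons (fin 907 3 906)
(mv 1035 (cons (fin 1034 1 970)
(mv 1036 (cons (fin 975 1 971)
(mv 1099 (cons (fin 1098 1 1034)
(mv 908 (cons (fin 844 5 843)
(fin 1163 6 907))))))))))))
(cons (mv 907 (cons (fin 906 3 906)
(mv 910 (cons (fin 911 2 907)
(mv 846 (cons (fin 782 5 781)
(mv 845 (cons (fin 781 7 781)
(mv 847 (cons (fin 783 6 782)
(mv 844 (cons (fin 908 1 843)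
(mv 779 (cons (fin 780 3 779)
(mv 843 (cons (fin 778 3 778)
(fin 1036 4 779)))))))))))))))))
(mv 907 (cons (fin 906 3 906)
(mv 908 (cons (fin 975 3 907)
(mv 844 (cons (fin 780 4 780)
(mv 1035 (cons (fin 1034 1 970)
(fin 1099 6 843)))))))))))))))))
(mv 1038 (cons (fin 1039 3 972)
(mv 908 (cons (cons (mv 844 (cons (fin 780 4 780)
(mv 1101 (cons (fin 1165 7 908)
(fin 1036 4 844)))))
(mv 844 (cons (fin 780 4 780)
(mv 1036 (cons (cons (mv 779 (cons (fin 843 7 779)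
(mv 781 (cons (fin 845 6 780)
(mv 1035 (cons (fin 1099 5 843)
(mv 974 (cons (fin 975 1 971)
(fin 1034 2 970)))))))))
(mv 781 (cons (fin 845 6 780)
(mv 843 (cons (fin 779 7 779)
(mv 907 (cons (fin 1100 7 843)
(mv 906 (cons (fin 905 0 905)
(mv 974 (cons (fin 971 3 906)
(fin 975 3 907))))))))))))
(cons (mv 781 (cons (fin 845 6 780)
(mv 1035 (cons (fin 1099 5 843)
(mv 974 (cons (fin 975 1 971)
(fin 1034 2 970)))))))
(cons (mv 779 (cons (fin 843 7 779)
(mv 1035 (cons (fin 1099 5 843)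
(mv 974 (cons (fin 975 1 971)
(fin 1034 2 970)))))))
(mv 781 (cons (fin 845 6 780)
(mv 843 (cons (fin 779 7 779)
(mv 907 (cons (fin 1100 7 843)
(mv 905 (cons (fin 906 0 905)
(mv 1035 (cons (fin 1099 5 843)
(mv 1034 (cons (fin 1033 2 969)
(mv 1098 (cons (fin 1097 1 1033)
(fin 971 5 842))))))))))))))))))))))
(cons (mv 1101 (cons (fin 1165 7 908)
(mv 974 (cons (cons (mv 846 (cons (fin 910 5 845)
(mv 907 (cons (fin 975 3 907)
(mv 906 (cons (fin 971 3 906)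
(fin 905 0 905)))))))
(mv 910 (cons (fin 846 5 845)
(mv 911 (cons (fin 971 2 907)
(mv 912 (cons (fin 913 1 909)
(mv 1102 (cons (fin 847 6 846)
(mv 1103 (cons (fin 1167 4 910)
(mv 1036 (cons (fin 1104 3 1036)
(fin 1035 0 1035))))))))))))))
(cons (mv 907 (cons (fin 975 3 907)
(mv 906 (cons (fin 971 3 906)
(fin 905 0 905)))))
(mv 846 (cons (fin 910 5 845)
(mv 975 (cons (fin 907 3 907)
(mv 976 (cons (fin 1036 1 972)
(fin 977 1 973))))))))))))
(mv 780 (cons (fin 844 4 780)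
(mv 1101 (cons (fin 1165 7 908)
(mv 974 (cons (cons (mv 846 (cons (fin 910 5 845)
(mv 907 (cons (fin 975 3 907)
(mv 906 (cons (fin 971 3 906)
(fin 905 0 905)))))))
(mv 907 (cons (fin 975 3 907)
(mv 906 (cons (fin 971 3 906)
(fin 905 0 905))))))
(cons (mv 910 (cons (fin 846 5 845)
(mv 911 (cons (fin 971 2 907)
(mv 912 (cons (fin 913 1 909)
(mv 1102 (cons (fin 847 6 846)
(mv 1166 (cons (fin 1230 7 973)
(mv 1167 (cons (fin 1103 4 910)
(fin 1231 4 974)))))))))))))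
(mv 846 (cons (fin 910 5 845)
(mv 975 (cons (fin 907 3 907)
(mv 912 (cons (fin 911 2 908)
(mv 976 (cons (fin 977 1 973)
(fin 913 2 909)))))))))))))))))))))))
(cons (mv 1038 (cons (fin 1039 3 972)
(mv 971 (cons (fin 970 0 970)
(mv 974 (cons (cons (mv 906 (cons (fin 907 3 906)
(mv 910 (cons (fin 911 2 907)
(mv 846 (cons (fin 782 5 781)
(fin 1101 5 845)))))))
(mv 907 (cons (fin 906 3 906)
(mv 908 (cons (fin 975 3 907)
(mv 780 (cons (fin 844 4 780)
(mv 1035 (cons (fin 1034 1 970)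
(mv 1099 (cons (fin 1163 6 907)
(mv 1098 (cons (fin 1162 5 906)
(mv 1100 (cons (fin 1101 2 1034)
(fin 1164 4 907))))))))))))))))
(cons (mv 910 (cons (fin 911 2 907)
(mv 846 (cons (fin 782 5 781)
(fin 1101 5 845)))))
(mv 907 (cons (fin 906 3 906)
(mv 908 (cons (fin 975 3 907)
(mv 844 (cons (fin 780 4 780)
(mv 1035 (cons (fin 1034 1 970)
(fin 1099 6 843))))))))))))))))
(cons (mv 1038 (cons (fin 1039 3 972)
(mv 971 (cons (fin 970 0 970)
(mv 974 (cons (cons (mv 906 (cons (fin 907 3 906)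
(mv 910 (cons (fin 911 2 907)
(mv 846 (cons (fin 782 5 781)
(fin 1101 5 845)))))))
(mv 907 (cons (fin 906 3 906)
(mv 908 (cons (fin 975 3 907)
(mv 844 (cons (fin 780 4 780)
(mv 1101 (cons (fin 1165 7 908)
(fin 1036 4 844))))))))))
(cons (mv 910 (cons (fin 911 2 907)
(mv 846 (cons (fin 782 5 781)
(fin 1101 5 845)))))
(mv 906 (cons (fin 907 3 906)
(mv 911 (cons (fin 910 2 907)
(mv 975 (cons (fin 912 2 908)
(mv 976 (cons (fin 1036 1 972)
(fin 977 1 973))))))))))))))))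
(mv 1038 (cons (fin 1039 3 972)
(mv 971 (cons (fin 970 0 970)
(mv 974 (cons (mv 910 (cons (fin 911 2 907)
(mv 846 (cons (fin 782 5 781)
(fin 1101 5 845)))))
(cons (mv 1035 (cons (fin 1034 1 970)
(mv 975 (cons (fin 1036 1 971)
(mv 912 (cons (fin 911 2 908)
(mv 976 (cons (fin 977 1 973)
(fin 913 2 909)))))))))
(mv 1035 (cons (fin 1034 1 970)
(mv 1036 (cons (fin 975 1 971)
(mv 1098 (cons (fin 1099 1 1034)
(mv 1102 (cons (fin 1103 0 1035)
(mv 1166 (cons (fin 1230 7 973)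
(mv 1165 (cons (fin 1229 5 973)
(mv 1101 (cons (fin 908 7 908)
(fin 910 5 909)))))))))))))))))))))))))))
(mv 1038 (cons (cons (mv 1039 (cons (fin 972 3 972)
(mv 976 (cons (fin 977 2 973)
(mv 975 (cons (fin 1036 2 972)
(mv 1100 (cons (fin 1101 1 1036)
(mv 1104 (cons (fin 1105 0 1037)
(mv 911 (cons (fin 1168 7 911)
(fin 847 4 847)))))))))))))
(cons (mv 909 (cons (cons (mv 845 (cons (fin 1102 4 845)
(mv 780 (cons (fin 844 7 780)
(mv 716 (cons (fin 781 7 716)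
(mv 846 (cons (fin 782 6 781)
(mv 1100 (cons (fin 1036 5 844)
(mv 1101 (cons (fin 1164 5 908)
(fin 910 6 845)))))))))))))
(cons (mv 1101 (cons (cons (mv 844 (cons (fin 908 7 844)
(mv 846 (cons (fin 910 6 845)
(mv 1100 (cons (fin 1164 5 908)
(mv 1099 (cons (fin 1098 2 1034)
(mv 1102 (cons (fin 1166 4 909)
(mv 1035 (cons (fin 1034 3 1034)
(mv 1036 (cons (fin 1103 3 1035)
(mv 970 (cons (fin 971 3 970)
(mv 1163 (cons (fin 1162 1 1098)
(mv 1227 (cons (fin 972 6 971)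
(fin 1291 6 1035)))))))))))))))))))))
(cons (mv 846 (cons (fin 910 6 845)
(mv 908 (cons (fin 844 7 844)
(mv 972 (cons (fin 1165 7 908)
(mv 970 (cons (fin 971 0 970)
(mv 1100 (cons (fin 1164 5 908)
(mv 1099 (cons (fin 1098 2 1034)
(mv 1036 (cons (fin 1163 5 907)
(mv 907 (cons (fin 843 7 843)
(mv 906 (cons (fin 969 1 905)
(fin 905 0 905)))))))))))))))))))
(mv 846 (cons (fin 910 6 845)
(mv 908 (cons (fin 844 7 844)
(mv 1102 (cons (fin 1166 4 909)
(mv 1165 (cons (fin 972 7 908)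
(mv 1228 (cons (fin 1164 5 972)
(mv 1229 (cons (fin 1292 5 1036)
(fin 1293 6 1037)))))))))))))))
(cons (cons (mv 846 (cons (fin 910 6 845)
(mv 1100 (cons (fin 1164 5 908)
(mv 1099 (cons (fin 1098 2 1034)
(mv 1102 (cons (fin 1166 4 909)
(mv 1035 (cons (fin 1034 3 1034)
(mv 1036 (cons (fin 1103 3 1035)
(mv 970 (cons (fin 971 3 970)
(mv 1163 (cons (fin 1162 1 1098)
(mv 1227 (cons (fin 972 6 971)
(fin 1291 6 1035)))))))))))))))))))
(mv 846 (cons (fin 910 6 845)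
(mv 908 (cons (fin 844 7 844)
(mv 1165 (cons (fin 972 7 908)
(mv 1166 (cons (fin 1102 4 909)
(fin 1230 4 973))))))))))
(cons (mv 844 (cons (fin 908 7 844)
(mv 1100 (cons (fin 1164 5 908)
(mv 1099 (cons (fin 1098 2 1034)
(mv 1102 (cons (fin 1166 4 909)
(mv 1035 (cons (fin 1034 3 1034)
(mv 1036 (cons (fin 1103 3 1035)
(mv 970 (cons (fin 971 3 970)
(mv 1163 (cons (fin 1162 1 1098)
(mv 1227 (cons (fin 972 6 971)
(fin 1291 6 1035)))))))))))))))))))
(mv 844 (cons (fin 908 7 844)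
(mv 846 (cons (fin 910 6 845)
(mv 1100 (cons (fin 1164 5 908)
(mv 1099 (cons (fin 1098 2 1034)
(mv 1102 (cons (fin 1166 4 909)
(mv 1035 (cons (fin 1034 3 1034)
(mv 1103 (cons (fin 1036 3 1035)
(mv 1104 (cons (fin 1105 3 1037)
(mv 1168 (cons (fin 1167 0 1100)
(fin 1169 0 1101)))))))))))))))))))))))
(mv 1101 (cons (cons (mv 844 (cons (fin 908 7 844)
(mv 845 (cons (fin 780 7 780)
(mv 846 (cons (fin 782 6 781)
(fin 910 6 845)))))))
(mv 846 (cons (fin 910 6 845)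
(mv 845 (cons (fin 782 6 781)
(mv 1100 (cons (fin 1036 5 844)
(fin 1164 5 908))))))))
(cons (mv 844 (cons (fin 908 7 844)
(mv 845 (cons (fin 780 7 780)
(mv 1100 (cons (fin 1036 5 844)
(fin 1164 5 908)))))))
(mv 846 (cons (fin 910 6 845)
(mv 908 (cons (fin 844 7 844)
(mv 972 (cons (fin 1165 7 908)
(mv 970 (cons (fin 971 0 970)
(mv 1100 (cons (fin 1164 5 908)
(mv 1099 (cons (fin 1098 2 1034)
(mv 1036 (cons (fin 1163 5 907)
(mv 907 (cons (fin 843 7 843)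
(mv 906 (cons (fin 969 1 905)
(fin 905 0 905))))))))))))))))))))))))
(cons (mv 845 (cons (fin 1102 4 845)
(mv 780 (cons (fin 844 7 780)
(mv 781 (cons (fin 716 7 716)
(mv 782 (cons (fin 718 6 717)
(fin 846 6 781)))))))))
(cons (mv 845 (cons (fin 1102 4 845)
(mv 782 (cons (fin 846 6 781)
(mv 781 (cons (fin 718 6 717)
(mv 1036 (cons (fin 972 5 780)
(fin 1100 5 844)))))))))
(mv 845 (cons (fin 1102 4 845)
(mv 780 (cons (fin 844 7 780)
(mv 781 (cons (fin 716 7 716)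
(mv 1036 (cons (fin 972 5 780)
(fin 1100 5 844)))))))))))))
(mv 1039 (cons (cons (mv 976 (cons (fin 977 2 973)
(mv 975 (cons (fin 1036 2 972)
(mv 1100 (cons (fin 1101 1 1036)
(mv 1104 (cons (fin 1105 0 1037)
(mv 911 (cons (fin 1168 7 911)
(fin 847 4 847)))))))))))
(mv 976 (cons (fin 977 2 973)
(mv 975 (cons (fin 1036 2 972)
(mv 1104 (cons (fin 1105 0 1037)
(mv 911 (cons (fin 1168 7 911)
(fin 847 4 847))))))))))
(cons (mv 976 (cons (fin 977 2 973)
(mv 1036 (cons (fin 975 2 972)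
(mv 1100 (cons (fin 1099 1 1035)
(fin 1101 1 1036)))))))
(cons (mv 1100 (cons (fin 1101 1 1036)
(mv 1036 (cons (fin 1099 1 1035)
(mv 1104 (cons (fin 1103 0 1036)
(fin 1105 0 1037)))))))
(mv 976 (cons (fin 977 2 973)
(mv 1100 (cons (fin 1101 1 1036)
(mv 1104 (cons (fin 1105 0 1037)
(mv 1168 (cons (mv 975 (cons (fin 911 7 911)
(fin 1232 7 975)))
(mv 1167 (cons (fin 1231 5 975)
(mv 1103 (cons (fin 912 5 911)
(mv 1169 (cons (fin 1233 4 976)
(mv 1170 (cons (fin 1102 3 1102)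
(fin 1171 3 1103)))))))))))))))))))))))
(cons (cons (mv 972 (cons (fin 1039 3 972)
(mv 1036 (cons (cons (cons (mv 970 (cons (fin 971 0 970)
(mv 1035 (cons (mv 1034 (cons (fin 969 3 969)
(fin 1033 2 969)))
(mv 1099 (cons (fin 1098 1 1034)
(mv 908 (cons (fin 844 5 843)
(mv 1163 (cons (fin 1100 5 907)
(fin 1227 6 971)))))))))))
(mv 909 (cons (mv 845 (cons (fin 781 5 780)
(fin 1100 5 844)))
(cons (mv 1100 (cons (fin 1164 6 908)
(mv 908 (cons (cons (mv 780 (cons (fin 844 4 780)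
(mv 843 (cons (fin 907 7 843)
(mv 1099 (cons (fin 1163 5 907)
(mv 1098 (cons (fin 1035 1 1034)
(fin 1097 2 1033)))))))))
(mv 843 (cons (fin 907 7 843)
(mv 1099 (cons (fin 1163 5 907)
(mv 1098 (cons (fin 1035 1 1034)
(fin 1097 2 1033))))))))
(cons (mv 843 (cons (fin 907 7 843)
(mv 844 (cons (fin 779 7 779)
(fin 780 4 780)))))
(mv 780 (cons (fin 844 4 780)
(mv 1099 (cons (fin 1163 5 907)
(mv 1098 (cons (fin 1035 1 1034)
(fin 1097 2 1033))))))))))))
(mv 845 (cons (fin 781 5 780)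
(fin 1102 4 845)))))))
(cons (mv 970 (cons (fin 971 0 970)
(mv 1100 (cons (mv 909 (cons (fin 845 5 844)
(fin 1164 6 908)))
(cons (mv 1164 (cons (fin 1228 6 972)
(mv 1163 (cons (fin 1227 5 971)
(mv 908 (cons (fin 1099 5 907)
(mv 843 (cons (fin 907 7 843)
(mv 844 (cons (fin 779 7 779)
(fin 780 4 780)))))))))))
(mv 908 (cons (cons (mv 780 (cons (fin 844 4 780)
(mv 907 (cons (fin 843 7 843)
(mv 906 (cons (fin 905 0 905)
(mv 909 (cons (fin 969 1 905)
(fin 845 5 844)))))))))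
(mv 780 (cons (fin 844 4 780)
(mv 907 (cons (fin 843 7 843)
(mv 906 (cons (fin 905 0 905)
(mv 969 (cons (fin 909 1 905)
(mv 967 (cons (fin 968 2 903)
(mv 1099 (cons (fin 1163 5 907)
(mv 1097 (cons (fin 1098 2 1033)
(mv 1033 (cons (fin 1161 6 905)
(mv 842 (cons (fin 778 5 777)
(fin 1034 5 841))))))))))))))))))))
(cons (mv 843 (cons (fin 907 7 843)
(mv 844 (cons (fin 779 7 779)
(fin 780 4 780)))))
(cons (mv 907 (cons (fin 843 7 843)
(mv 906 (cons (fin 905 0 905)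
(mv 909 (cons (fin 969 1 905)
(fin 845 5 844)))))))
(mv 844 (cons (fin 780 4 780)
(mv 845 (cons (fin 909 5 844)
(fin 781 6 780))))))))))))))
(mv 1035 (cons (cons (mv 970 (cons (fin 971 3 970)
(mv 1034 (cons (fin 969 3 969)
(fin 1033 2 969)))))
(mv 1033 (cons (fin 1034 2 969)
(mv 1099 (cons (fin 1098 1 1034)
(mv 908 (cons (fin 844 5 843)
(mv 1163 (cons (fin 971 6 907)
(fin 1227 6 971))))))))))
(cons (mv 1034 (cons (fin 1033 2 969)
(mv 1098 (cons (fin 1097 1 1033)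
(fin 1099 1 1034)))))
(mv 971 (cons (fin 970 3 970)
(mv 1099 (cons (fin 1098 1 1034)
(mv 908 (cons (fin 844 5 843)
(fin 1163 6 907))))))))))))
(cons (cons (mv 909 (cons (mv 845 (cons (fin 781 5 780)
(fin 1100 5 844)))
(cons (mv 1164 (cons (fin 1100 6 908)
(mv 1035 (cons (cons (mv 970 (cons (fin 971 3 970)
(mv 1034 (cons (fin 969 3 969)
(fin 1033 2 969)))))
(mv 1033 (cons (fin 1034 2 969)
(mv 1099 (cons (fin 1098 1 1034)
(mv 1102 (cons (fin 1103 0 1035)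
(mv 1163 (cons (fin 1227 6 971)
(mv 1228 (cons (fin 971 4 971)
(mv 1230 (cons (fin 1166 7 973)
(mv 1229 (cons (fin 1231 3 1163)
(mv 1162 (cons (fin 1161 0 1161)
(fin 1165 0 1162))))))))))))))))))
(cons (mv 1034 (cons (fin 1033 2 969)
(mv 1098 (cons (fin 1097 1 1033)
(fin 1099 1 1034)))))
(mv 971 (cons (fin 970 3 970)
(mv 1099 (cons (fin 1098 1 1034)
(mv 1163 (cons (fin 1227 6 971)
(fin 1228 4 971))))))))))))
(mv 845 (cons (fin 781 5 780)
(fin 1102 4 845))))))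
(mv 970 (cons (fin 971 0 970)
(mv 1102 (cons (cons (mv 845 (cons (fin 909 4 845)
(mv 1035 (cons (fin 1103 0 1035)
(mv 1034 (cons (fin 969 3 969)
(fin 1033 2 969)))))))
(mv 1035 (cons (fin 1103 0 1035)
(mv 1034 (cons (fin 969 3 969)
(fin 1033 2 969))))))
(cons (mv 1166 (cons (fin 1230 7 973)
(mv 908 (cons (cons (mv 780 (cons (fin 844 4 780)
(mv 909 (cons (fin 845 4 845)
(mv 1100 (cons (fin 1164 6 908)
(mv 907 (cons (fin 843 7 843)
(mv 906 (cons (fin 969 1 905)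
(fin 905 0 905)))))))))))
(mv 844 (cons (fin 780 4 780)
(mv 781 (cons (fin 845 6 780)
(mv 843 (cons (fin 779 7 779)
(mv 1100 (cons (fin 907 7 843)
(mv 1164 (cons (fin 1228 6 972)
(mv 1163 (cons (fin 1227 5 971)
(mv 1165 (cons (fin 1103 2 1099)
(fin 1229 4 972))))))))))))))))
(cons (mv 844 (cons (fin 780 4 780)
(mv 843 (cons (fin 779 7 779)
(mv 907 (cons (fin 1100 7 843)
(mv 906 (cons (fin 905 0 905)
(mv 909 (cons (fin 969 1 905)
(mv 842 (cons (fin 841 3 841)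
(fin 910 3 842)))))))))))))
(cons (mv 909 (cons (fin 845 4 845)
(mv 1100 (cons (fin 1164 6 908)
(mv 907 (cons (fin 843 7 843)
(mv 906 (cons (fin 969 1 905)
(fin 905 0 905)))))))))
(mv 844 (cons (fin 780 4 780)
(mv 845 (cons (fin 781 6 780)
(fin 909 4 845)))))))))))
(cons (mv 1166 (cons (fin 1230 7 973)
(mv 908 (cons (cons (mv 780 (cons (fin 844 4 780)
(mv 909 (cons (fin 845 4 845)
(mv 1100 (cons (fin 1164 6 908)
(mv 907 (cons (fin 843 7 843)
(mv 906 (cons (fin 969 1 905)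
(fin 905 0 905)))))))))))
(mv 844 (cons (fin 780 4 780)
(mv 781 (cons (fin 845 6 780)
(mv 843 (cons (fin 779 7 779)
(mv 907 (cons (fin 1100 7 843)
(mv 906 (cons (fin 905 0 905)
(mv 1034 (cons (fin 1098 6 842)
(mv 1035 (cons (fin 969 3 969)
(fin 1033 2 969))))))))))))))))
(cons (mv 844 (cons (fin 780 4 780)
(mv 843 (cons (fin 779 7 779)
(mv 907 (cons (fin 1100 7 843)
(mv 906 (cons (fin 905 0 905)
(mv 909 (cons (fin 969 1 905)
(mv 842 (cons (fin 841 3 841)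
(fin 910 3 842)))))))))))))
(cons (mv 909 (cons (fin 845 4 845)
(mv 1100 (cons (fin 1164 6 908)
(mv 907 (cons (fin 843 7 843)
(mv 906 (cons (fin 969 1 905)
(fin 905 0 905)))))))))
(mv 844 (cons (fin 780 4 780)
(mv 845 (cons (fin 781 6 780)
(fin 909 4 845)))))))))))
(mv 909 (cons (fin 845 4 845)
(mv 1103 (cons (fin 1035 0 1035)
(mv 1104 (cons (fin 1105 3 1037)
(mv 1164 (cons (fin 1100 6 908)
(mv 1166 (cons (fin 1230 7 973)
(mv 1165 (cons (fin 1163 2 1099)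
(fin 1167 2 1100))))))))))))))))))))
(cons (mv 970 (cons (fin 971 0 970)
(mv 909 (cons (mv 845 (cons (fin 781 5 780)
(fin 1100 5 844)))
(cons (mv 1100 (cons (fin 1164 6 908)
(mv 908 (cons (mv 780 (cons (fin 844 4 780)
(mv 907 (cons (fin 843 7 843)
(mv 906 (cons (fin 969 1 905)
(fin 905 0 905)))))))
(cons (mv 907 (cons (fin 843 7 843)
(mv 906 (cons (fin 969 1 905)
(fin 905 0 905)))))
(mv 844 (cons (fin 780 4 780)
(mv 1099 (cons (fin 1035 5 843)
(fin 1163 5 907))))))))))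
(mv 845 (cons (fin 781 5 780)
(fin 1102 4 845))))))))
(mv 970 (cons (fin 971 0 970)
(mv 909 (cons (mv 845 (cons (fin 781 5 780)
(fin 1100 5 844)))
(cons (mv 1100 (cons (fin 1164 6 908)
(mv 1035 (cons (mv 1034 (cons (fin 969 3 969)
(fin 1033 2 969)))
(cons (mv 1099 (cons (fin 1098 1 1034)
(mv 908 (cons (fin 844 5 843)
(mv 907 (cons (fin 843 7 843)
(mv 906 (cons (fin 969 1 905)
(fin 905 0 905)))))))))
(mv 1034 (cons (fin 1033 2 969)
(mv 1098 (cons (fin 1097 1 1033)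
(fin 1099 1 1034))))))))))
(mv 845 (cons (fin 781 5 780)
(fin 1102 4 845))))))))))))))
(mv 1039 (cons (fin 972 3 972)
(mv 976 (cons (fin 977 2 973)
(mv 975 (cons (fin 1036 2 972)
(mv 1104 (cons (fin 1105 0 1037)
(mv 911 (cons (fin 1168 7 911)
(fin 847 4 847))))))))))))
(cons (mv 1039 (cons (fin 972 3 972)
(mv 976 (cons (fin 977 2 973)
(mv 1036 (cons (fin 975 2 972)
(mv 1100 (cons (fin 1099 1 1035)
(fin 1101 1 1036)))))))))
(mv 1039 (cons (fin 972 3 972)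
(mv 976 (cons (fin 977 2 973)
(mv 1100 (cons (fin 1101 1 1036)
(mv 1104 (cons (fin 1105 0 1037)
(mv 1168 (cons (mv 975 (cons (fin 911 7 911)
(fin 1232 7 975)))
(mv 1167 (cons (fin 1231 5 975)
(mv 1103 (cons (fin 912 5 911)
(mv 1169 (cons (fin 1233 4 976)
(mv 1170 (cons (fin 1102 3 1102)
(fin 1171 3 1103))))))))))))))))))))))))
(cons (mv 1038 (cons (cons (cons (mv 1039 (cons (fin 972 3 972)
(mv 976 (cons (fin 977 2 973)
(mv 1100 (cons (fin 1101 1 1036)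
(mv 1104 (cons (fin 1105 0 1037)
(mv 1168 (cons (cons (mv 975 (cons (fin 911 7 911)
(fin 1232 7 975)))
(mv 1167 (cons (fin 1231 5 975)
(mv 912 (cons (fin 1103 5 911)
(mv 847 (cons (fin 911 7 847)
(mv 849 (cons (fin 913 6 848)
(mv 1233 (cons (fin 1169 4 976)
(mv 1232 (cons (fin 1297 4 1040)
(mv 1166 (cons (fin 1165 0 1165)
(mv 1102 (cons (fin 1230 7 973)
(mv 909 (cons (fin 974 7 909)
(fin 845 4 845))))))))))))))))))))
(cons (mv 911 (cons (fin 975 7 911)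
(mv 912 (cons (fin 847 7 847)
(mv 1167 (cons (fin 1103 5 911)
(fin 1231 5 975)))))))
(mv 975 (cons (fin 1232 7 975)
(mv 1167 (cons (fin 1231 5 975)
(mv 912 (cons (fin 1103 5 911)
(mv 913 (cons (fin 974 2 909)
(fin 849 6 848))))))))))))))))))))
(mv 1102 (cons (cons (mv 909 (cons (fin 845 4 845)
(mv 1166 (cons (fin 974 7 909)
(fin 1230 7 973)))))
(mv 909 (cons (fin 845 4 845)
(mv 1101 (cons (cons (mv 844 (cons (fin 908 7 844)
(mv 846 (cons (fin 910 6 845)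
(mv 1164 (cons (fin 1100 5 908)
(mv 1165 (cons (fin 1228 5 972)
(mv 1229 (cons (fin 974 6 973)
(fin 1293 6 1037)))))))))))
(cons (mv 844 (cons (fin 908 7 844)
(mv 1164 (cons (fin 1100 5 908)
(mv 1165 (cons (fin 1228 5 972)
(mv 1229 (cons (fin 974 6 973)
(fin 1293 6 1037)))))))))
(mv 844 (cons (fin 908 7 844)
(mv 910 (cons (fin 846 6 845)
(mv 974 (cons (fin 1165 5 909)
(mv 911 (cons (fin 847 6 846)
(mv 912 (cons (fin 972 1 908)
(fin 913 1 909)))))))))))))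
(cons (mv 846 (cons (fin 910 6 845)
(mv 1164 (cons (fin 1100 5 908)
(mv 1165 (cons (fin 1228 5 972)
(mv 1229 (cons (fin 974 6 973)
(fin 1293 6 1037)))))))))
(cons (mv 846 (cons (fin 910 6 845)
(mv 908 (cons (fin 844 7 844)
(mv 1100 (cons (fin 1164 5 908)
(mv 1099 (cons (fin 1098 2 1034)
(mv 1035 (cons (fin 1034 3 1034)
(mv 1163 (cons (fin 1162 1 1098)
(mv 971 (cons (fin 972 6 907)
(mv 906 (cons (fin 970 7 906)
(mv 907 (cons (fin 974 0 906)
(fin 842 7 842)))))))))))))))))))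
(mv 846 (cons (fin 910 6 845)
(mv 908 (cons (fin 844 7 844)
(mv 972 (cons (fin 1165 7 908)
(mv 971 (cons (fin 970 0 970)
(mv 1100 (cons (fin 1164 5 908)
(mv 1099 (cons (fin 1098 2 1034)
(mv 1035 (cons (fin 1034 3 1034)
(fin 1163 6 907))))))))))))))))))))))
(cons (mv 1166 (cons (fin 1230 7 973)
(mv 974 (cons (cons (mv 911 (cons (fin 975 6 910)
(mv 910 (cons (fin 847 6 846)
(mv 846 (cons (fin 782 5 781)
(fin 1101 5 845)))))))
(mv 1165 (cons (fin 1229 5 973)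
(mv 910 (cons (fin 1101 5 909)
(mv 1167 (cons (fin 1103 4 910)
(fin 1231 4 974))))))))
(cons (mv 975 (cons (fin 911 6 910)
(mv 976 (cons (fin 977 1 973)
(mv 912 (cons (fin 913 2 909)
(mv 1165 (cons (fin 1229 5 973)
(mv 1167 (cons (fin 1231 4 974)
(mv 1103 (cons (fin 1104 5 911)
(mv 1164 (cons (fin 1163 2 1099)
(mv 1228 (cons (fin 1227 1 1163)
(fin 1101 5 972)))))))))))))))))
(mv 911 (cons (fin 975 6 910)
(mv 910 (cons (fin 847 6 846)
(mv 1167 (cons (fin 1103 4 910)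
(fin 1231 4 974))))))))))))
(mv 909 (cons (fin 845 4 845)
(mv 1166 (cons (fin 1230 7 973)
(fin 1101 4 909)))))))))
(cons (mv 1039 (cons (cons (mv 976 (cons (fin 977 2 973)
(mv 1100 (cons (fin 1101 1 1036)
(mv 1104 (cons (fin 1105 0 1037)
(mv 1168 (cons (cons (mv 975 (cons (fin 911 7 911)
(fin 1232 7 975)))
(mv 1167 (cons (fin 1231 5 975)
(mv 912 (cons (fin 1103 5 911)
(mv 847 (cons (fin 911 7 847)
(mv 849 (cons (fin 913 6 848)
(mv 1233 (cons (fin 1169 4 976)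
(mv 1232 (cons (fin 1297 4 1040)
(mv 1166 (cons (fin 1165 0 1165)
(mv 1102 (cons (fin 1230 7 973)
(mv 909 (cons (fin 974 7 909)
(fin 845 4 845))))))))))))))))))))
(cons (mv 911 (cons (fin 975 7 911)
(mv 912 (cons (fin 847 7 847)
(mv 1167 (cons (fin 1103 5 911)
(fin 1231 5 975)))))))
(mv 975 (cons (fin 1232 7 975)
(mv 1167 (cons (fin 1231 5 975)
(mv 912 (cons (fin 1103 5 911)
(mv 913 (cons (fin 974 2 909)
(fin 849 6 848))))))))))))))))))
(mv 976 (cons (fin 977 2 973)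
(mv 1104 (cons (fin 1105 0 1037)
(mv 1168 (cons (cons (mv 975 (cons (fin 911 7 911)
(fin 1232 7 975)))
(mv 1167 (cons (fin 1231 5 975)
(mv 912 (cons (fin 1103 5 911)
(mv 847 (cons (fin 911 7 847)
(mv 849 (cons (fin 913 6 848)
(mv 1233 (cons (fin 1169 4 976)
(mv 1232 (cons (fin 1297 4 1040)
(mv 1166 (cons (fin 1165 0 1165)
(mv 1102 (cons (fin 1230 7 973)
(mv 909 (cons (fin 974 7 909)
(fin 845 4 845))))))))))))))))))))
(cons (mv 911 (cons (fin 975 7 911)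
(mv 912 (cons (fin 847 7 847)
(mv 1167 (cons (fin 1103 5 911)
(fin 1231 5 975)))))))
(mv 975 (cons (fin 1232 7 975)
(mv 1167 (cons (fin 1231 5 975)
(mv 912 (cons (fin 1103 5 911)
(mv 913 (cons (fin 974 2 909)
(fin 849 6 848)))))))))))))))))
(cons (mv 976 (cons (fin 977 2 973)
(mv 1101 (cons (fin 1100 1 1036)
(mv 909 (cons (cons (mv 1102 (cons (fin 845 4 845)
(fin 1166 4 909)))
(mv 844 (cons (fin 908 7 844)
(mv 780 (cons (fin 845 7 780)
(mv 910 (cons (fin 846 6 845)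
(mv 1165 (cons (fin 974 6 909)
(mv 1228 (cons (fin 1164 5 972)
(mv 1229 (cons (fin 1292 5 1036)
(mv 1230 (cons (fin 1166 4 973)
(fin 1294 4 1037))))))))))))))))
(cons (mv 844 (cons (fin 908 7 844)
(mv 846 (cons (fin 910 6 845)
(mv 1166 (cons (fin 1102 4 909)
(mv 1165 (cons (fin 1230 4 973)
(mv 1228 (cons (fin 1164 5 972)
(mv 1229 (cons (fin 1292 5 1036)
(fin 974 6 973)))))))))))))
(mv 844 (cons (fin 908 7 844)
(mv 845 (cons (fin 780 7 780)
(fin 1102 4 845))))))))))))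
(cons (mv 1101 (cons (fin 1100 1 1036)
(mv 1104 (cons (fin 1105 0 1037)
(mv 1165 (cons (mv 974 (cons (fin 910 6 909)
(fin 1229 6 973)))
(mv 1164 (cons (fin 1228 5 972)
(mv 1102 (cons (fin 1103 1 1100)
(mv 909 (cons (fin 845 4 845)
(fin 1166 4 909)))))))))))))
(mv 976 (cons (fin 977 2 973)
(mv 1100 (cons (fin 1101 1 1036)
(mv 1104 (cons (fin 1105 0 1037)
(mv 1168 (cons (mv 975 (cons (fin 911 7 911)
(fin 1232 7 975)))
(cons (mv 1167 (cons (fin 1231 5 975)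
(mv 1103 (cons (fin 912 5 911)
(mv 1232 (cons (fin 1296 7 1039)
(mv 1233 (cons (fin 1169 4 976)
(fin 1297 4 1040)))))))))
(mv 911 (cons (fin 975 7 911)
(mv 912 (cons (fin 847 7 847)
(mv 1167 (cons (fin 1103 5 911)
(fin 1231 5 975))))))))))))))))))))
(mv 972 (cons (fin 1039 3 972)
(mv 971 (cons (fin 970 0 970)
(mv 974 (cons (cons (mv 906 (cons (fin 907 3 906)
(mv 910 (cons (fin 911 2 907)
(mv 846 (cons (fin 782 5 781)
(fin 1101 5 845)))))))
(mv 907 (cons (fin 906 3 906)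
(mv 908 (cons (fin 975 3 907)
(mv 780 (cons (fin 844 4 780)
(mv 1035 (cons (fin 1034 1 970)
(mv 1099 (cons (fin 1163 6 907)
(mv 1098 (cons (fin 1162 5 906)
(mv 1100 (cons (fin 1101 2 1034)
(fin 1164 4 907))))))))))))))))
(cons (mv 910 (cons (fin 911 2 907)
(mv 846 (cons (fin 782 5 781)
(fin 1101 5 845)))))
(mv 907 (cons (fin 906 3 906)
(mv 908 (cons (fin 975 3 907)
(mv 780 (cons (fin 844 4 780)
(mv 910 (cons (fin 911 2 907)
(mv 846 (cons (fin 782 5 781)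
(mv 847 (cons (fin 909 2 843)
(fin 783 6 782))))))))))))))))))))))
(cons (cons (mv 972 (cons (fin 1039 3 972)
(mv 971 (cons (fin 970 0 970)
(mv 974 (cons (cons (mv 906 (cons (fin 907 3 906)
(mv 910 (cons (fin 911 2 907)
(mv 846 (cons (fin 782 5 781)
(mv 783 (cons (fin 847 6 782)
(mv 845 (cons (fin 781 7 781)
(mv 1034 (cons (fin 1035 1 970)
(mv 1102 (cons (fin 909 7 845)
(mv 1166 (cons (fin 1230 7 973)
(mv 1167 (cons (fin 1103 4 910)
(fin 1231 4 974)))))))))))))))))))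
(mv 907 (cons (fin 906 3 906)
(mv 908 (cons (fin 975 3 907)
(mv 844 (cons (fin 780 4 780)
(mv 1035 (cons (fin 1034 1 970)
(fin 1099 6 843))))))))))
(cons (mv 910 (cons (fin 911 2 907)
(mv 846 (cons (fin 782 5 781)
(mv 783 (cons (fin 847 6 782)
(mv 845 (cons (fin 781 7 781)
(mv 1034 (cons (fin 1035 1 970)
(mv 1102 (cons (fin 909 7 845)
(mv 1166 (cons (fin 1230 7 973)
(mv 1167 (cons (fin 1103 4 910)
(fin 1231 4 974)))))))))))))))))
(mv 906 (cons (fin 907 3 906)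
(mv 910 (cons (fin 911 2 907)
(mv 846 (cons (fin 782 5 781)
(mv 783 (cons (fin 847 6 782)
(mv 845 (cons (fin 781 7 781)
(mv 1102 (cons (fin 909 7 845)
(mv 1166 (cons (fin 1230 7 973)
(mv 1167 (cons (fin 1103 4 910)
(fin 1231 4 974))))))))))))))))))))))))
(mv 972 (cons (fin 1039 3 972)
(mv 971 (cons (fin 970 0 970)
(mv 974 (cons (cons (mv 906 (cons (fin 907 3 906)
(mv 910 (cons (fin 911 2 907)
(mv 846 (cons (fin 782 5 781)
(fin 1101 5 845)))))))
(mv 907 (cons (fin 906 3 906)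
(mv 908 (cons (fin 975 3 907)
(mv 780 (cons (fin 844 4 780)
(mv 1035 (cons (fin 1034 1 970)
(mv 1099 (cons (fin 1163 6 907)
(mv 1098 (cons (fin 1162 5 906)
(mv 1100 (cons (fin 1101 2 1034)
(fin 1164 4 907))))))))))))))))
(cons (mv 910 (cons (fin 911 2 907)
(mv 846 (cons (fin 782 5 781)
(fin 1101 5 845)))))
(mv 907 (cons (fin 906 3 906)
(mv 908 (cons (fin 975 3 907)
(mv 844 (cons (fin 780 4 780)
(mv 1035 (cons (fin 1034 1 970)
(fin 1099 6 843)))))))))))))))))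
(cons (mv 1039 (cons (fin 972 3 972)
(mv 976 (cons (fin 977 2 973)
(mv 1100 (cons (fin 1101 1 1036)
(mv 1104 (cons (fin 1105 0 1037)
(mv 1168 (cons (mv 975 (cons (fin 911 7 911)
(fin 1232 7 975)))
(mv 1167 (cons (fin 1231 5 975)
(mv 1103 (cons (fin 912 5 911)
(mv 1169 (cons (fin 1233 4 976)
(mv 1170 (cons (fin 1102 3 1102)
(fin 1171 3 1103)))))))))))))))))))
(cons (mv 972 (cons (fin 1039 3 972)
(mv 971 (cons (fin 970 0 970)
(mv 974 (cons (cons (mv 906 (cons (fin 907 3 906)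
(mv 910 (cons (fin 911 2 907)
(mv 846 (cons (fin 782 5 781)
(fin 1101 5 845)))))))
(mv 906 (cons (fin 907 3 906)
(mv 1035 (cons (fin 1034 1 970)
(mv 909 (cons (mv 845 (cons (fin 781 4 781)
(fin 1102 4 845)))
(cons (mv 1102 (cons (fin 1166 7 909)
(mv 1101 (cons (mv 908 (cons (fin 844 7 844)
(fin 1165 7 908)))
(cons (mv 1164 (cons (fin 1100 5 908)
(mv 1165 (cons (fin 1228 5 972)
(fin 1229 6 973)))))
(mv 908 (cons (fin 844 7 844)
(mv 1099 (cons (fin 1163 6 907)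
(mv 1100 (cons (fin 1098 2 1034)
(fin 1164 5 908))))))))))))
(mv 845 (cons (fin 781 4 781)
(mv 782 (cons (fin 846 6 781)
(mv 844 (cons (fin 780 7 780)
(mv 1101 (cons (fin 908 7 844)
(mv 1164 (cons (fin 1100 5 908)
(mv 1165 (cons (fin 1228 5 972)
(fin 1229 6 973)))))))))))))))))))))
(cons (mv 910 (cons (fin 911 2 907)
(mv 846 (cons (fin 782 5 781)
(fin 1101 5 845)))))
(cons (mv 906 (cons (fin 907 3 906)
(mv 910 (cons (fin 911 2 907)
(mv 846 (cons (fin 782 5 781)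
(mv 783 (cons (fin 847 6 782)
(mv 845 (cons (fin 781 7 781)
(mv 1034 (cons (fin 1035 1 970)
(mv 1102 (cons (fin 909 7 845)
(mv 1166 (cons (fin 1230 7 973)
(mv 1167 (cons (fin 1103 4 910)
(fin 1231 4 974)))))))))))))))))))
(mv 906 (cons (fin 907 3 906)
(mv 910 (cons (fin 911 2 907)
(mv 1035 (cons (fin 1034 1 970)
(mv 1101 (cons (fin 1165 6 909)
(mv 909 (cons (mv 845 (cons (fin 1102 7 845)
(fin 781 4 781)))
(cons (mv 781 (cons (fin 845 4 781)
(mv 908 (cons (fin 844 7 844)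
(mv 1099 (cons (fin 1163 6 907)
(mv 1100 (cons (fin 1098 2 1034)
(fin 1164 5 908)))))))))
(mv 908 (cons (fin 844 7 844)
(mv 1099 (cons (fin 1163 6 907)
(mv 1100 (cons (fin 1098 2 1034)
(fin 1164 5 908))))))))))))))))))))))))))
(mv 972 (cons (fin 1039 3 972)
(mv 971 (cons (fin 970 0 970)
(mv 974 (cons (cons (mv 907 (cons (fin 906 3 906)
(mv 908 (cons (fin 975 3 907)
(mv 780 (cons (fin 844 4 780)
(mv 1035 (cons (fin 1034 1 970)
(mv 1099 (cons (fin 1163 6 907)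
(mv 1098 (cons (fin 1162 5 906)
(mv 1100 (cons (fin 1101 2 1034)
(fin 1164 4 907)))))))))))))))
(mv 1035 (cons (fin 1034 1 970)
(mv 1101 (cons (mv 910 (cons (fin 846 5 845)
(fin 1165 6 909)))
(cons (mv 846 (cons (fin 910 5 845)
(mv 909 (cons (mv 845 (cons (fin 782 6 781)
(fin 781 4 781)))
(mv 908 (cons (fin 844 7 844)
(mv 975 (cons (fin 976 3 908)
(mv 1099 (cons (fin 1163 6 907)
(mv 1100 (cons (fin 1098 2 1034)
(fin 1164 5 908)))))))))))))
(mv 1165 (cons (fin 908 7 908)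
(fin 1229 6 973)))))))))
(cons (mv 907 (cons (fin 906 3 906)
(mv 908 (cons (fin 975 3 907)
(mv 844 (cons (fin 780 4 780)
(mv 1101 (cons (fin 909 7 844)
(fin 1165 7 908)))))))))
(cons (mv 907 (cons (fin 906 3 906)
(mv 908 (cons (fin 975 3 907)
(mv 844 (cons (fin 780 4 780)
(mv 1035 (cons (fin 1034 1 970)
(fin 1099 6 843)))))))))
(mv 907 (cons (fin 906 3 906)
(mv 1035 (cons (fin 1034 1 970)
(mv 910 (cons (mv 846 (cons (fin 782 5 781)
(fin 1101 5 845)))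
(cons (mv 846 (cons (fin 782 5 781)
(mv 783 (cons (fin 847 6 782)
(mv 845 (cons (fin 781 7 781)
(mv 1102 (cons (fin 909 7 845)
(mv 1166 (cons (fin 1230 7 973)
(mv 1167 (cons (fin 1103 4 910)
(fin 1231 4 974)))))))))))))
(mv 1099 (cons (cons (mv 1098 (cons (fin 1162 5 906)
(mv 1100 (cons (fin 1101 2 1034)
(fin 1164 4 907)))))
(cons (mv 1098 (cons (fin 1162 5 906)
(mv 1164 (cons (fin 1100 4 907)
(mv 1163 (cons (fin 1228 4 971)
(mv 1096 (cons (fin 1097 0 1096)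
(mv 1166 (cons (fin 1165 3 1098)
(mv 1102 (cons (fin 909 7 909)
(fin 1230 7 973)))))))))))))
(mv 1098 (cons (fin 1162 5 906)
(mv 1101 (cons (fin 1100 2 1034)
(fin 1165 6 909)))))))
(cons (mv 1162 (cons (fin 1098 5 906)
(mv 1163 (cons (fin 1226 5 970)
(mv 1164 (cons (fin 1228 4 971)
(mv 1165 (cons (fin 1101 6 909)
(mv 1230 (cons (fin 1229 0 1162)
(mv 1166 (cons (fin 1231 0 1163)
(fin 1102 7 973)))))))))))))
(cons (mv 1164 (cons (fin 1100 4 907)
(mv 1163 (cons (fin 1228 4 971)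
(mv 1162 (cons (fin 1226 5 970)
(mv 1165 (cons (fin 1101 6 909)
(mv 1230 (cons (fin 1229 0 1162)
(mv 1166 (cons (fin 1231 0 1163)
(fin 1102 7 973)))))))))))))
(mv 1100 (cons (fin 1164 4 907)
(mv 1101 (cons (fin 1098 2 1034)
(fin 1165 6 909)))))))))))))))))))))))))))))
(cons (mv 1038 (cons (cons (mv 1039 (cons (fin 972 3 972)
(mv 976 (cons (fin 977 2 973)
(mv 975 (cons (fin 1036 2 972)
(mv 1104 (cons (fin 1105 0 1037)
(mv 911 (cons (fin 1168 7 911)
(fin 847 4 847)))))))))))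
(cons (mv 1102 (cons (cons (mv 909 (cons (fin 845 4 845)
(mv 1166 (cons (fin 974 7 909)
(fin 1230 7 973)))))
(mv 909 (cons (fin 845 4 845)
(mv 1101 (cons (cons (mv 844 (cons (fin 908 7 844)
(mv 910 (cons (fin 846 6 845)
(mv 974 (cons (fin 1165 5 909)
(mv 847 (cons (fin 911 6 846)
(mv 1103 (cons (fin 1167 4 910)
(mv 1036 (cons (fin 1104 3 1036)
(fin 1035 0 1035)))))))))))))
(mv 908 (cons (fin 844 7 844)
(mv 1165 (cons (fin 972 7 908)
(mv 1229 (cons (fin 974 6 973)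
(fin 1293 6 1037))))))))
(cons (mv 910 (cons (fin 846 6 845)
(mv 974 (cons (fin 1165 5 909)
(mv 847 (cons (fin 911 6 846)
(mv 1103 (cons (fin 1167 4 910)
(mv 1036 (cons (fin 1104 3 1036)
(fin 1035 0 1035)))))))))))
(cons (mv 844 (cons (fin 908 7 844)
(mv 910 (cons (fin 846 6 845)
(mv 1103 (cons (mv 1036 (cons (fin 1104 3 1036)
(fin 1035 0 1035)))
(mv 974 (cons (fin 1167 4 910)
(mv 911 (cons (fin 847 6 846)
(mv 912 (cons (fin 972 1 908)
(fin 913 1 909)))))))))))))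
(mv 846 (cons (fin 910 6 845)
(mv 908 (cons (fin 844 7 844)
(mv 1165 (cons (fin 972 7 908)
(mv 1228 (cons (fin 1164 5 972)
(mv 1229 (cons (fin 1292 5 1036)
(fin 1293 6 1037))))))))))))))))))
(cons (mv 1166 (cons (fin 1230 7 973)
(mv 974 (cons (mv 911 (cons (fin 975 6 910)
(mv 910 (cons (fin 847 6 846)
(mv 846 (cons (fin 782 5 781)
(fin 1101 5 845)))))))
(cons (mv 1165 (cons (fin 1229 5 973)
(mv 910 (cons (fin 1101 5 909)
(mv 1167 (cons (fin 1103 4 910)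
(fin 1231 4 974)))))))
(mv 975 (cons (fin 911 6 910)
(mv 976 (cons (fin 1036 1 972)
(fin 977 1 973))))))))))
(mv 909 (cons (fin 845 4 845)
(mv 1166 (cons (fin 1230 7 973)
(fin 1101 4 909))))))))
(mv 1102 (cons (cons (mv 909 (cons (fin 845 4 845)
(mv 1166 (cons (fin 974 7 909)
(fin 1230 7 973)))))
(mv 845 (cons (fin 909 4 845)
(mv 1039 (cons (cons (mv 976 (cons (fin 977 2 973)
(mv 975 (cons (fin 1036 2 972)
(mv 847 (cons (fin 911 5 846)
(mv 1104 (cons (fin 1105 0 1037)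
(mv 1168 (cons (fin 1232 7 975)
(mv 1167 (cons (fin 1231 5 975)
(mv 912 (cons (fin 1103 5 911)
(mv 913 (cons (fin 974 2 909)
(fin 849 6 848)))))))))))))))))
(cons (mv 976 (cons (fin 977 2 973)
(mv 1036 (cons (fin 975 2 972)
(mv 1035 (cons (fin 1103 0 1035)
(mv 1034 (cons (fin 974 2 970)
(fin 1101 0 1034)))))))))
(mv 1104 (cons (fin 1105 0 1037)
(mv 1103 (cons (fin 1036 0 1036)
(mv 1168 (cons (mv 975 (cons (fin 1232 7 975)
(fin 911 4 911)))
(cons (mv 911 (cons (fin 975 4 911)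
(mv 1101 (cons (fin 1169 0 1101)
(mv 1165 (cons (fin 1164 1 1100)
(mv 974 (cons (fin 910 5 909)
(fin 1229 6 973)))))))))
(mv 1101 (cons (fin 1169 0 1101)
(mv 1165 (cons (fin 1164 1 1100)
(mv 974 (cons (fin 910 5 909)
(fin 1229 6 973))))))))))))))))
(cons (mv 976 (cons (fin 977 2 973)
(mv 975 (cons (fin 1036 2 972)
(mv 911 (cons (fin 847 5 846)
(mv 1104 (cons (fin 1105 0 1037)
(fin 1168 7 911)))))))))
(cons (mv 976 (cons (fin 977 2 973)
(mv 1104 (cons (fin 1105 0 1037)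
(mv 1168 (cons (mv 975 (cons (fin 911 7 911)
(fin 1232 7 975)))
(cons (mv 1167 (cons (fin 1231 5 975)
(mv 912 (cons (fin 1103 5 911)
(mv 911 (cons (fin 847 7 847)
(mv 913 (cons (fin 849 6 848)
(mv 910 (cons (fin 846 3 845)
(fin 974 1 909)))))))))))
(mv 975 (cons (fin 1232 7 975)
(mv 1167 (cons (fin 1231 5 975)
(mv 912 (cons (fin 1103 5 911)
(mv 913 (cons (fin 974 2 909)
(fin 849 6 848))))))))))))))))
(mv 976 (cons (fin 977 2 973)
(mv 1104 (cons (fin 1105 0 1037)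
(mv 1103 (cons (fin 1036 0 1036)
(mv 1167 (cons (fin 912 5 911)
(fin 1231 6 975))))))))))))))))
(cons (mv 1166 (cons (fin 1230 7 973)
(mv 974 (cons (mv 911 (cons (fin 975 6 910)
(mv 910 (cons (fin 847 6 846)
(mv 846 (cons (fin 782 5 781)
(fin 1101 5 845)))))))
(cons (mv 1165 (cons (fin 1229 5 973)
(mv 910 (cons (fin 1101 5 909)
(mv 1167 (cons (fin 1103 4 910)
(fin 1231 4 974)))))))
(mv 975 (cons (fin 911 6 910)
(mv 976 (cons (fin 1036 1 972)
(fin 977 1 973))))))))))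
(mv 909 (cons (fin 845 4 845)
(mv 1166 (cons (fin 1230 7 973)
(fin 1101 4 909))))))))))
(cons (cons (mv 972 (cons (fin 1039 3 972)
(mv 970 (cons (fin 971 0 970)
(mv 1102 (cons (cons (mv 909 (cons (fin 845 4 845)
(mv 1166 (cons (fin 974 7 909)
(fin 1230 7 973)))))
(mv 1166 (cons (fin 1230 7 973)
(mv 974 (cons (cons (mv 911 (cons (fin 975 6 910)
(mv 847 (cons (fin 910 6 846)
(mv 1165 (cons (fin 1229 5 973)
(mv 1101 (cons (fin 908 7 908)
(mv 1164 (cons (fin 1228 5 972)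
(mv 1103 (cons (fin 1104 1 1100)
(fin 1163 2 1099)))))))))))))
(mv 911 (cons (fin 975 6 910)
(mv 910 (cons (fin 847 6 846)
(mv 846 (cons (fin 782 5 781)
(fin 1101 5 845))))))))
(cons (mv 1165 (cons (fin 1229 5 973)
(mv 1101 (cons (fin 908 7 908)
(fin 910 5 909)))))
(cons (mv 911 (cons (fin 975 6 910)
(mv 1165 (cons (fin 1229 5 973)
(mv 1101 (cons (fin 908 7 908)
(mv 1164 (cons (fin 1228 5 972)
(mv 1103 (cons (fin 1104 1 1100)
(fin 1163 2 1099)))))))))))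
(mv 911 (cons (fin 975 6 910)
(mv 910 (cons (fin 847 6 846)
(mv 1167 (cons (fin 1103 4 910)
(fin 1231 4 974))))))))))))))
(cons (mv 909 (cons (fin 845 4 845)
(mv 1101 (cons (mv 908 (cons (fin 844 7 844)
(fin 1165 7 908)))
(cons (mv 910 (cons (fin 846 6 845)
(mv 911 (cons (fin 912 1 908)
(mv 974 (cons (fin 1165 5 909)
(fin 847 6 846)))))))
(mv 844 (cons (fin 908 7 844)
(mv 910 (cons (fin 846 6 845)
(mv 911 (cons (fin 912 1 908)
(mv 974 (cons (fin 847 6 846)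
(mv 1103 (cons (fin 1167 4 910)
(mv 1036 (cons (fin 1104 3 1036)
(fin 1035 0 1035))))))))))))))))))
(mv 909 (cons (fin 845 4 845)
(mv 1166 (cons (fin 1230 7 973)
(fin 1101 4 909))))))))))))
(mv 1039 (cons (fin 972 3 972)
(mv 976 (cons (fin 977 2 973)
(mv 975 (cons (fin 1036 2 972)
(mv 1102 (cons (cons (mv 845 (cons (fin 909 4 845)
(mv 911 (cons (fin 847 5 846)
(mv 1166 (cons (fin 1230 7 973)
(fin 1103 5 910)))))))
(mv 909 (cons (fin 845 4 845)
(mv 908 (cons (fin 974 3 908)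
(mv 911 (cons (fin 910 0 908)
(fin 847 5 846))))))))
(cons (mv 911 (cons (fin 847 5 846)
(mv 1166 (cons (fin 1230 7 973)
(fin 1103 5 910)))))
(mv 909 (cons (fin 845 4 845)
(mv 974 (cons (fin 908 3 908)
(fin 1166 7 909)))))))))))))))
(cons (mv 972 (cons (fin 1039 3 972)
(mv 970 (cons (fin 971 0 970)
(mv 1102 (cons (cons (mv 909 (cons (fin 845 4 845)
(mv 1166 (cons (fin 974 7 909)
(fin 1230 7 973)))))
(mv 1166 (cons (fin 1230 7 973)
(mv 974 (cons (cons (mv 911 (cons (fin 975 6 910)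
(mv 847 (cons (fin 910 6 846)
(mv 1165 (cons (fin 1229 5 973)
(mv 1101 (cons (fin 908 7 908)
(mv 1164 (cons (fin 1228 5 972)
(mv 1103 (cons (fin 1104 1 1100)
(fin 1163 2 1099)))))))))))))
(mv 911 (cons (fin 975 6 910)
(mv 910 (cons (fin 847 6 846)
(mv 846 (cons (fin 782 5 781)
(fin 1101 5 845))))))))
(cons (mv 1165 (cons (fin 1229 5 973)
(mv 1101 (cons (fin 908 7 908)
(fin 910 5 909)))))
(cons (mv 911 (cons (fin 975 6 910)
(mv 1165 (cons (fin 1229 5 973)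
(mv 1101 (cons (fin 908 7 908)
(mv 1164 (cons (fin 1228 5 972)
(mv 1103 (cons (fin 1104 1 1100)
(fin 1163 2 1099)))))))))))
(mv 911 (cons (fin 975 6 910)
(mv 910 (cons (fin 847 6 846)
(mv 1167 (cons (fin 1103 4 910)
(fin 1231 4 974))))))))))))))
(cons (mv 909 (cons (fin 845 4 845)
(mv 1101 (cons (mv 908 (cons (fin 844 7 844)
(fin 1165 7 908)))
(cons (mv 910 (cons (fin 846 6 845)
(mv 911 (cons (fin 912 1 908)
(mv 974 (cons (fin 1165 5 909)
(fin 847 6 846)))))))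
(mv 908 (cons (fin 844 7 844)
(mv 910 (cons (fin 846 6 845)
(mv 911 (cons (fin 912 1 908)
(mv 974 (cons (fin 847 6 846)
(mv 907 (cons (fin 975 3 907)
(fin 906 0 906))))))))))))))))
(mv 909 (cons (fin 845 4 845)
(mv 1166 (cons (fin 1230 7 973)
(fin 1101 4 909))))))))))))
(mv 1039 (cons (fin 972 3 972)
(mv 976 (cons (fin 977 2 973)
(mv 1104 (cons (fin 1105 0 1037)
(mv 1103 (cons (fin 1036 0 1036)
(mv 1167 (cons (fin 912 5 911)
(fin 1231 6 975)))))))))))))))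
(mv 1038 (cons (cons (mv 1039 (cons (fin 972 3 972)
(mv 976 (cons (fin 977 2 973)
(mv 975 (cons (fin 1036 2 972)
(mv 1100 (cons (fin 1101 1 1036)
(mv 1104 (cons (fin 1105 0 1037)
(mv 911 (cons (fin 1168 7 911)
(fin 847 4 847)))))))))))))
(cons (mv 1102 (cons (cons (mv 909 (cons (fin 845 4 845)
(mv 1166 (cons (fin 974 7 909)
(fin 1230 7 973)))))
(mv 1166 (cons (fin 1230 7 973)
(mv 974 (cons (mv 911 (cons (fin 975 6 910)
(mv 910 (cons (fin 847 6 846)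
(mv 846 (cons (fin 782 5 781)
(fin 1101 5 845)))))))
(cons (mv 1167 (cons (fin 1231 4 974)
(mv 910 (cons (fin 1103 4 910)
(mv 846 (cons (fin 782 5 781)
(fin 1101 5 845)))))))
(mv 975 (cons (fin 911 6 910)
(mv 976 (cons (fin 1036 1 972)
(fin 977 1 973)))))))))))
(cons (mv 909 (cons (fin 845 4 845)
(mv 1101 (cons (cons (mv 844 (cons (fin 908 7 844)
(mv 846 (cons (fin 910 6 845)
(mv 1100 (cons (fin 1164 5 908)
(mv 1099 (cons (fin 1098 2 1034)
(mv 1035 (cons (fin 1034 3 1034)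
(mv 1036 (cons (fin 1103 3 1035)
(mv 970 (cons (fin 971 3 970)
(mv 974 (cons (fin 975 2 971)
(mv 1163 (cons (fin 1162 1 1098)
(mv 1227 (cons (fin 972 6 971)
(fin 1291 6 1035)))))))))))))))))))))
(cons (mv 844 (cons (fin 908 7 844)
(mv 910 (cons (fin 846 6 845)
(mv 1103 (cons (mv 1036 (cons (fin 1104 3 1036)
(fin 1035 0 1035)))
(mv 974 (cons (fin 1167 4 910)
(mv 911 (cons (fin 847 6 846)
(mv 912 (cons (fin 972 1 908)
(fin 913 1 909)))))))))))))
(mv 844 (cons (fin 908 7 844)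
(mv 1100 (cons (fin 1164 5 908)
(mv 1099 (cons (fin 1098 2 1034)
(mv 1035 (cons (fin 1034 3 1034)
(mv 1036 (cons (fin 1103 3 1035)
(mv 970 (cons (fin 971 3 970)
(mv 974 (cons (fin 975 2 971)
(mv 1163 (cons (fin 1162 1 1098)
(mv 1227 (cons (fin 972 6 971)
(fin 1291 6 1035)))))))))))))))))))))
(cons (cons (mv 846 (cons (fin 910 6 845)
(mv 1100 (cons (fin 1164 5 908)
(mv 1099 (cons (fin 1098 2 1034)
(mv 1035 (cons (fin 1034 3 1034)
(mv 1036 (cons (fin 1103 3 1035)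
(mv 970 (cons (fin 971 3 970)
(mv 974 (cons (fin 975 2 971)
(mv 1163 (cons (fin 1162 1 1098)
(mv 1227 (cons (fin 972 6 971)
(fin 1291 6 1035)))))))))))))))))))
(mv 846 (cons (fin 910 6 845)
(mv 908 (cons (fin 844 7 844)
(mv 1100 (cons (fin 1164 5 908)
(mv 1099 (cons (fin 1098 2 1034)
(mv 1035 (cons (fin 1034 3 1034)
(mv 1163 (cons (fin 1162 1 1098)
(mv 971 (cons (fin 972 6 907)
(mv 906 (cons (fin 970 7 906)
(mv 907 (cons (fin 974 0 906)
(fin 842 7 842))))))))))))))))))))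
(cons (mv 908 (cons (fin 844 7 844)
(mv 910 (cons (fin 846 6 845)
(mv 1100 (cons (fin 1164 5 908)
(mv 1099 (cons (fin 1098 2 1034)
(mv 1163 (cons (fin 1162 1 1098)
(mv 972 (cons (fin 1036 5 907)
(mv 911 (cons (fin 971 1 907)
(fin 912 1 908)))))))))))))))
(mv 844 (cons (fin 908 7 844)
(mv 846 (cons (fin 910 6 845)
(mv 1100 (cons (fin 1164 5 908)
(mv 1099 (cons (fin 1098 2 1034)
(mv 1035 (cons (fin 1034 3 1034)
(mv 1103 (cons (fin 1036 3 1035)
(mv 1104 (cons (fin 1105 3 1037)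
(mv 1168 (cons (fin 1167 0 1100)
(fin 1169 0 1101)))))))))))))))))))))))
(mv 909 (cons (fin 845 4 845)
(mv 1166 (cons (fin 1230 7 973)
(fin 1101 4 909))))))))
(mv 1039 (cons (cons (mv 976 (cons (fin 977 2 973)
(mv 975 (cons (fin 1036 2 972)
(mv 1100 (cons (fin 1101 1 1036)
(mv 1104 (cons (fin 1105 0 1037)
(mv 911 (cons (fin 1168 7 911)
(fin 847 4 847)))))))))))
(mv 976 (cons (fin 977 2 973)
(mv 975 (cons (fin 1036 2 972)
(mv 1104 (cons (fin 1105 0 1037)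
(mv 911 (cons (fin 1168 7 911)
(fin 847 4 847))))))))))
(cons (mv 976 (cons (fin 977 2 973)
(mv 1036 (cons (fin 975 2 972)
(mv 1100 (cons (fin 1099 1 1035)
(fin 1101 1 1036)))))))
(cons (mv 1100 (cons (fin 1101 1 1036)
(mv 1036 (cons (fin 1099 1 1035)
(mv 1104 (cons (fin 1103 0 1036)
(fin 1105 0 1037)))))))
(mv 976 (cons (fin 977 2 973)
(mv 1100 (cons (fin 1101 1 1036)
(mv 1104 (cons (fin 1105 0 1037)
(mv 1168 (cons (mv 975 (cons (fin 911 7 911)
(fin 1232 7 975)))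
(cons (mv 1167 (cons (fin 1231 5 975)
(mv 912 (cons (fin 1103 5 911)
(mv 911 (cons (fin 847 7 847)
(mv 913 (cons (fin 849 6 848)
(mv 910 (cons (fin 974 1 909)
(mv 845 (cons (fin 846 3 845)
(mv 909 (cons (fin 844 3 844)
(fin 1102 4 845)))))))))))))))
(mv 975 (cons (fin 1232 7 975)
(mv 1167 (cons (fin 1231 5 975)
(mv 912 (cons (fin 1103 5 911)
(mv 913 (cons (fin 974 2 909)
(fin 849 6 848))))))))))))))))))))))))
(cons (cons (mv 1039 (cons (fin 972 3 972)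
(mv 976 (cons (fin 977 2 973)
(mv 975 (cons (fin 1036 2 972)
(mv 1104 (cons (fin 1105 0 1037)
(mv 911 (cons (fin 1168 7 911)
(fin 847 4 847)))))))))))
(mv 1039 (cons (fin 972 3 972)
(mv 1100 (cons (fin 1101 1 1036)
(mv 1036 (cons (fin 1099 1 1035)
(mv 1104 (cons (fin 1103 0 1036)
(fin 1105 0 1037))))))))))
(cons (mv 1039 (cons (fin 972 3 972)
(mv 976 (cons (fin 977 2 973)
(mv 1036 (cons (fin 975 2 972)
(mv 1100 (cons (fin 1099 1 1035)
(fin 1101 1 1036)))))))))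
(mv 1039 (cons (fin 972 3 972)
(mv 976 (cons (fin 977 2 973)
(mv 1100 (cons (fin 1101 1 1036)
(mv 1104 (cons (fin 1105 0 1037)
(mv 1168 (cons (mv 975 (cons (fin 911 7 911)
(fin 1232 7 975)))
(cons (mv 1167 (cons (fin 1231 5 975)
(mv 912 (cons (fin 1103 5 911)
(mv 911 (cons (fin 847 7 847)
(mv 913 (cons (fin 849 6 848)
(mv 910 (cons (fin 974 1 909)
(mv 845 (cons (fin 846 3 845)
(mv 909 (cons (fin 844 3 844)
(fin 1102 4 845)))))))))))))))
(mv 975 (cons (fin 1232 7 975)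
(mv 1167 (cons (fin 1231 5 975)
(mv 912 (cons (fin 1103 5 911)
(mv 913 (cons (fin 974 2 909)
(fin 849 6 848))))))))))))))))))))))))))))
(cons (cons (cons (mv 1039 (cons (cons (cons (mv 1038 (cons (fin 972 3 972)
(mv 976 (cons (fin 977 2 973)
(mv 975 (cons (fin 1036 2 972)
(mv 1100 (cons (fin 1101 1 1036)
(mv 1104 (cons (fin 1105 0 1037)
(mv 911 (cons (fin 1168 7 911)
(fin 847 4 847)))))))))))))
(mv 974 (cons (cons (mv 975 (cons (fin 972 0 972)
(mv 976 (cons (fin 1036 1 972)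
(mv 908 (cons (fin 909 3 908)
(mv 913 (cons (fin 912 2 909)
(mv 977 (cons (fin 914 2 910)
(mv 785 (cons (fin 849 5 784)
(mv 978 (cons (fin 979 1 975)
(mv 911 (cons (fin 910 3 910)
(mv 847 (cons (fin 783 4 783)
(fin 1104 4 847)))))))))))))))))))
(cons (mv 1101 (cons (cons (mv 910 (cons (fin 1165 6 909)
(mv 846 (cons (fin 782 5 781)
(fin 909 6 845)))))
(mv 909 (cons (cons (mv 844 (cons (fin 908 7 844)
(mv 846 (cons (fin 910 6 845)
(mv 1100 (cons (fin 1164 5 908)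
(mv 1102 (cons (fin 1103 2 1036)
(fin 1166 4 909)))))))))
(cons (mv 844 (cons (fin 908 7 844)
(mv 1100 (cons (fin 1164 5 908)
(mv 1102 (cons (fin 1103 2 1036)
(fin 1166 4 909)))))))
(mv 908 (cons (fin 844 7 844)
(mv 907 (cons (fin 906 0 906)
(mv 910 (cons (fin 846 6 845)
(mv 842 (cons (fin 843 3 842)
(mv 971 (cons (fin 970 1 906)
(mv 911 (cons (fin 972 1 907)
(mv 912 (cons (fin 913 1 909)
(mv 976 (cons (fin 977 0 909)
(mv 1102 (cons (fin 1166 4 909)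
(mv 1104 (cons (fin 847 7 847)
(mv 1103 (cons (fin 1036 3 1036)
(fin 1167 5 911)))))))))))))))))))))))))
(cons (mv 846 (cons (fin 910 6 845)
(mv 1100 (cons (fin 1164 5 908)
(mv 1102 (cons (fin 1103 2 1036)
(fin 1166 4 909)))))))
(cons (mv 908 (cons (fin 844 7 844)
(mv 907 (cons (fin 906 0 906)
(mv 910 (cons (fin 846 6 845)
(mv 842 (cons (fin 843 3 842)
(mv 971 (cons (fin 970 1 906)
(mv 911 (cons (fin 972 1 907)
(mv 912 (cons (fin 913 1 909)
(mv 976 (cons (fin 977 0 909)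
(mv 1100 (cons (fin 1164 5 908)
(mv 1104 (cons (fin 847 7 847)
(mv 1167 (cons (fin 1103 5 911)
(mv 1168 (cons (fin 1231 5 975)
(mv 1169 (cons (fin 1105 4 912)
(fin 1233 4 976)))))))))))))))))))))))))))
(mv 908 (cons (fin 844 7 844)
(mv 907 (cons (fin 906 0 906)
(mv 910 (cons (fin 846 6 845)
(mv 843 (cons (fin 842 3 842)
(mv 971 (cons (fin 970 1 906)
(mv 911 (cons (fin 972 1 907)
(mv 912 (cons (fin 913 1 909)
(mv 976 (cons (fin 977 0 909)
(mv 847 (cons (fin 1104 7 847)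
(mv 1100 (cons (fin 1164 5 908)
(mv 1035 (cons (fin 1036 4 843)
(mv 1034 (cons (fin 1098 5 842)
(mv 1102 (cons (fin 1099 3 1034)
(fin 1166 4 909))))))))))))))))))))))))))))))))
(cons (mv 1165 (cons (cons (mv 908 (cons (fin 972 7 908)
(mv 844 (cons (fin 909 7 844)
(mv 1228 (cons (fin 1164 5 972)
(mv 1229 (cons (fin 1292 5 1036)
(mv 1230 (cons (fin 1166 4 973)
(fin 1294 4 1037)))))))))))
(mv 908 (cons (fin 972 7 908)
(mv 909 (cons (fin 844 7 844)
(mv 1166 (cons (fin 1102 4 909)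
(fin 1230 4 973))))))))
(cons (mv 1164 (cons (fin 1228 5 972)
(mv 909 (cons (fin 1100 5 908)
(mv 1166 (cons (fin 1102 4 909)
(fin 1230 4 973)))))))
(cons (mv 908 (cons (fin 972 7 908)
(mv 909 (cons (fin 844 7 844)
(mv 1164 (cons (fin 1100 5 908)
(fin 1228 5 972)))))))
(mv 908 (cons (fin 972 7 908)
(mv 1228 (cons (fin 1164 5 972)
(mv 1229 (cons (fin 1292 5 1036)
(mv 1230 (cons (fin 1166 4 973)
(fin 1294 4 1037)))))))))))))
(mv 1165 (cons (fin 910 6 909)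
(mv 908 (cons (fin 972 7 908)
(mv 1228 (cons (fin 1164 5 972)
(mv 1229 (cons (fin 1292 5 1036)
(mv 1230 (cons (fin 1166 4 973)
(fin 1294 4 1037))))))))))))))
(mv 910 (cons (cons (mv 846 (cons (fin 782 5 781)
(mv 1101 (cons (fin 909 6 845)
(fin 1165 6 909)))))
(mv 1101 (cons (fin 1165 6 909)
(mv 909 (cons (mv 844 (cons (fin 908 7 844)
(mv 1100 (cons (fin 1164 5 908)
(mv 1102 (cons (fin 1103 2 1036)
(fin 1166 4 909)))))))
(cons (mv 1100 (cons (fin 1164 5 908)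
(mv 1102 (cons (fin 1103 2 1036)
(fin 1166 4 909)))))
(mv 908 (cons (fin 844 7 844)
(mv 907 (cons (fin 906 0 906)
(fin 975 0 907)))))))))))
(cons (mv 846 (cons (fin 782 5 781)
(mv 975 (cons (mv 1103 (cons (fin 911 7 846)
(fin 1167 7 910)))
(mv 976 (cons (fin 1036 1 972)
(mv 909 (cons (fin 908 3 908)
(fin 977 3 909)))))))))
(mv 782 (cons (fin 846 5 781)
(mv 1101 (cons (fin 1165 6 909)
(mv 975 (cons (cons (mv 976 (cons (fin 1036 1 972)
(mv 912 (cons (fin 913 2 909)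
(mv 1103 (cons (fin 1167 7 910)
(mv 1102 (cons (fin 1100 2 1036)
(mv 911 (cons (fin 1166 5 910)
(mv 847 (cons (fin 1104 7 847)
(fin 783 4 783)))))))))))))
(mv 1103 (cons (fin 1167 7 910)
(mv 1102 (cons (fin 1100 2 1036)
(mv 911 (cons (fin 1166 5 910)
(mv 1104 (cons (fin 1036 3 1036)
(fin 847 4 847))))))))))
(cons (mv 976 (cons (fin 1036 1 972)
(mv 913 (cons (fin 912 2 909)
(mv 977 (cons (fin 914 2 910)
(mv 978 (cons (fin 911 3 910)
(fin 979 1 975)))))))))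
(cons (mv 1103 (cons (fin 1167 7 910)
(mv 1102 (cons (fin 1100 2 1036)
(mv 911 (cons (fin 1166 5 910)
(mv 1104 (cons (fin 847 4 847)
(fin 1168 4 911)))))))))
(mv 1036 (cons (fin 976 1 972)
(mv 1034 (cons (fin 1035 2 970)
(mv 1103 (cons (fin 1167 7 910)
(mv 1102 (cons (fin 1104 3 1036)
(fin 1100 2 1036))))))))))))))))))))))
(cons (mv 972 (cons (fin 975 0 972)
(mv 908 (cons (cons (mv 844 (cons (fin 780 4 780)
(mv 1101 (cons (fin 909 7 844)
(fin 1165 7 908)))))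
(mv 780 (cons (fin 844 4 780)
(mv 971 (cons (cons (mv 906 (cons (fin 907 3 906)
(mv 970 (cons (fin 905 3 905)
(mv 969 (cons (fin 909 2 905)
(fin 1036 0 969)))))))
(mv 1034 (cons (fin 1035 1 970)
(mv 970 (cons (fin 1033 1 969)
(mv 969 (cons (fin 909 2 905)
(fin 1036 0 969))))))))
(cons (mv 907 (cons (fin 906 3 906)
(mv 1035 (cons (fin 1034 1 970)
(mv 1099 (cons (fin 1163 6 907)
(mv 1098 (cons (fin 1162 5 906)
(mv 1100 (cons (fin 1164 4 907)
(mv 1036 (cons (fin 1097 2 1033)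
(fin 843 7 843)))))))))))))
(mv 906 (cons (fin 907 3 906)
(mv 970 (cons (fin 905 3 905)
(mv 1034 (cons (fin 1033 1 969)
(fin 1035 1 970)))))))))))))
(cons (mv 1101 (cons (fin 1165 7 908)
(mv 971 (cons (cons (mv 906 (cons (fin 907 3 906)
(mv 970 (cons (fin 905 3 905)
(mv 969 (cons (fin 909 2 905)
(fin 1036 0 969)))))))
(mv 1034 (cons (fin 1035 1 970)
(mv 970 (cons (fin 1033 1 969)
(mv 969 (cons (fin 909 2 905)
(fin 1036 0 969))))))))
(cons (mv 907 (cons (fin 906 3 906)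
(mv 1035 (cons (fin 1034 1 970)
(mv 1099 (cons (fin 1163 6 907)
(mv 1098 (cons (fin 1162 5 906)
(mv 1100 (cons (fin 1164 4 907)
(mv 1036 (cons (fin 1097 2 1033)
(fin 843 7 843)))))))))))))
(mv 906 (cons (fin 907 3 906)
(mv 970 (cons (fin 905 3 905)
(mv 1034 (cons (fin 1033 1 969)
(fin 1035 1 970))))))))))))
(mv 844 (cons (fin 780 4 780)
(mv 1101 (cons (fin 1165 7 908)
(fin 1036 4 844))))))))))
(cons (mv 972 (cons (fin 975 0 972)
(mv 910 (cons (cons (mv 782 (cons (fin 846 5 781)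
(mv 911 (cons (fin 971 2 907)
(mv 912 (cons (fin 909 1 908)
(fin 913 1 909)))))))
(mv 846 (cons (fin 782 5 781)
(mv 1101 (cons (fin 909 6 845)
(fin 1165 6 909))))))
(cons (mv 911 (cons (fin 971 2 907)
(mv 912 (cons (fin 909 1 908)
(fin 913 1 909)))))
(mv 782 (cons (fin 846 5 781)
(mv 971 (cons (fin 911 2 907)
(mv 906 (cons (fin 907 3 906)
(mv 970 (cons (fin 905 3 905)
(mv 1034 (cons (fin 1033 1 969)
(fin 1035 1 970))))))))))))))))
(mv 975 (cons (fin 972 0 972)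
(mv 976 (cons (fin 1036 1 972)
(mv 913 (cons (fin 912 2 909)
(mv 977 (cons (fin 914 2 910)
(mv 785 (cons (fin 849 5 784)
(mv 978 (cons (fin 979 1 975)
(mv 911 (cons (fin 910 3 910)
(mv 847 (cons (fin 783 4 783)
(fin 1104 4 847))))))))))))))))))))))
(cons (mv 1038 (cons (cons (mv 976 (cons (fin 977 2 973)
(mv 975 (cons (fin 1036 2 972)
(mv 1100 (cons (fin 1101 1 1036)
(mv 1104 (cons (fin 1105 0 1037)
(mv 911 (cons (fin 1168 7 911)
(fin 847 4 847)))))))))))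
(mv 976 (cons (fin 977 2 973)
(mv 1036 (cons (fin 975 2 972)
(mv 1100 (cons (fin 1099 1 1035)
(fin 1101 1 1036))))))))
(cons (mv 1100 (cons (fin 1101 1 1036)
(mv 1036 (cons (fin 1099 1 1035)
(mv 1104 (cons (fin 1103 0 1036)
(fin 1105 0 1037)))))))
(cons (mv 976 (cons (fin 977 2 973)
(mv 975 (cons (fin 1036 2 972)
(mv 1104 (cons (fin 1105 0 1037)
(mv 911 (cons (fin 1168 7 911)
(fin 847 4 847)))))))))
(mv 976 (cons (fin 977 2 973)
(mv 1100 (cons (fin 1101 1 1036)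
(mv 1104 (cons (fin 1105 0 1037)
(mv 1168 (cons (cons (mv 975 (cons (fin 911 7 911)
(fin 1232 7 975)))
(mv 1167 (cons (fin 1231 5 975)
(mv 912 (cons (fin 1103 5 911)
(mv 911 (cons (fin 847 7 847)
(mv 913 (cons (fin 849 6 848)
(mv 974 (cons (fin 910 1 909)
(mv 1233 (cons (fin 1169 4 976)
(mv 1232 (cons (fin 1297 4 1040)
(mv 1166 (cons (fin 1165 0 1165)
(mv 1102 (cons (fin 909 7 909)
(fin 1230 7 973))))))))))))))))))))
(cons (mv 911 (cons (fin 975 7 911)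
(mv 912 (cons (fin 847 7 847)
(mv 1167 (cons (fin 1103 5 911)
(fin 1231 5 975)))))))
(mv 975 (cons (fin 1232 7 975)
(mv 1167 (cons (fin 1231 5 975)
(mv 912 (cons (fin 1103 5 911)
(mv 913 (cons (fin 974 2 909)
(fin 849 6 848))))))))))))))))))))))
(mv 1038 (cons (fin 972 3 972)
(mv 976 (cons (fin 977 2 973)
(mv 975 (cons (fin 1036 2 972)
(mv 1104 (cons (fin 1105 0 1037)
(mv 911 (cons (fin 1168 7 911)
(fin 847 4 847)))))))))))))
(cons (cons (mv 1038 (cons (fin 972 3 972)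
(mv 976 (cons (fin 977 2 973)
(mv 1100 (cons (fin 1101 1 1036)
(mv 1036 (cons (fin 1099 1 1035)
(mv 1104 (cons (fin 1103 0 1036)
(fin 1105 0 1037)))))))))))
(mv 1038 (cons (fin 972 3 972)
(mv 976 (cons (fin 977 2 973)
(mv 1036 (cons (fin 975 2 972)
(mv 1100 (cons (fin 1099 1 1035)
(fin 1101 1 1036))))))))))
(cons (mv 1038 (cons (fin 972 3 972)
(mv 1100 (cons (fin 1101 1 1036)
(mv 1036 (cons (fin 1099 1 1035)
(mv 1104 (cons (fin 1103 0 1036)
(fin 1105 0 1037)))))))))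
(mv 972 (cons (fin 1038 3 972)
(mv 974 (cons (fin 975 0 972)
(mv 910 (cons (cons (mv 782 (cons (fin 846 5 781)
(mv 911 (cons (fin 971 2 907)
(mv 912 (cons (fin 909 1 908)
(fin 913 1 909)))))))
(mv 846 (cons (fin 782 5 781)
(mv 1101 (cons (fin 909 6 845)
(fin 1165 6 909))))))
(cons (mv 911 (cons (fin 971 2 907)
(mv 912 (cons (fin 909 1 908)
(fin 913 1 909)))))
(mv 782 (cons (fin 846 5 781)
(mv 971 (cons (fin 911 2 907)
(mv 906 (cons (fin 907 3 906)
(mv 970 (cons (fin 905 3 905)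
(mv 1034 (cons (fin 1033 1 969)
(fin 1035 1 970))))))))))))))))))))))
(mv 972 (cons (cons (cons (mv 1038 (cons (fin 1039 3 972)
(mv 971 (cons (fin 970 0 970)
(mv 974 (cons (cons (mv 906 (cons (fin 907 3 906)
(mv 910 (cons (fin 911 2 907)
(mv 846 (cons (fin 782 5 781)
(fin 1101 5 845)))))))
(mv 906 (cons (fin 907 3 906)
(mv 1035 (cons (fin 1034 1 970)
(mv 975 (cons (fin 1036 1 971)
(mv 912 (cons (fin 911 2 908)
(mv 976 (cons (fin 977 1 973)
(fin 913 2 909))))))))))))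
(cons (mv 910 (cons (fin 911 2 907)
(mv 846 (cons (fin 782 5 781)
(fin 1101 5 845)))))
(mv 906 (cons (fin 907 3 906)
(mv 1035 (cons (fin 1034 1 970)
(mv 975 (cons (fin 1036 1 971)
(mv 976 (cons (fin 977 1 973)
(mv 909 (cons (fin 908 3 908)
(mv 845 (cons (fin 781 4 781)
(mv 780 (cons (fin 844 7 780)
(mv 846 (cons (fin 782 6 781)
(mv 912 (cons (fin 913 2 909)
(mv 1101 (cons (fin 910 5 845)
(mv 1164 (cons (fin 1100 5 908)
(mv 1165 (cons (fin 1228 5 972)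
(fin 1229 6 973))))))))))))))))))))))))))))))))
(cons (mv 908 (cons (cons (mv 844 (cons (fin 780 4 780)
(mv 1101 (cons (fin 909 7 844)
(fin 1165 7 908)))))
(mv 1101 (cons (fin 1165 7 908)
(mv 909 (cons (cons (mv 846 (cons (fin 910 6 845)
(mv 845 (cons (fin 782 6 781)
(mv 781 (cons (fin 717 5 716)
(fin 1036 5 780)))))))
(mv 1100 (cons (fin 1164 5 908)
(mv 845 (cons (fin 1036 5 844)
(mv 781 (cons (fin 717 5 716)
(mv 782 (cons (fin 718 6 717)
(fin 846 6 781))))))))))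
(cons (mv 1100 (cons (fin 1164 5 908)
(mv 1036 (cons (fin 845 5 844)
(mv 843 (cons (fin 907 7 843)
(mv 1099 (cons (fin 1163 5 907)
(mv 1098 (cons (fin 1097 2 1033)
(mv 1034 (cons (fin 1033 3 1033)
(mv 974 (cons (fin 1035 2 970)
(mv 975 (cons (fin 976 3 908)
(fin 1039 0 972)))))))))))))))))
(mv 910 (cons (fin 846 6 845)
(mv 911 (cons (fin 971 1 907)
(fin 912 1 908)))))))))))
(cons (mv 780 (cons (fin 844 4 780)
(mv 974 (cons (mv 975 (cons (fin 907 3 907)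
(fin 1039 0 972)))
(cons (mv 971 (cons (cons (mv 906 (cons (fin 907 3 906)
(mv 910 (cons (fin 911 2 907)
(mv 970 (cons (fin 905 3 905)
(fin 909 2 906)))))))
(mv 906 (cons (fin 907 3 906)
(mv 970 (cons (fin 905 3 905)
(mv 969 (cons (fin 909 2 905)
(fin 1036 0 969))))))))
(cons (mv 910 (cons (fin 911 2 907)
(mv 782 (cons (fin 846 5 781)
(mv 970 (cons (fin 909 2 906)
(mv 1034 (cons (fin 1033 1 969)
(fin 1035 1 970)))))))))
(mv 907 (cons (fin 906 3 906)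
(mv 910 (cons (fin 911 2 907)
(mv 782 (cons (fin 846 5 781)
(mv 1035 (cons (fin 1034 1 970)
(mv 1099 (cons (fin 1163 6 907)
(mv 1098 (cons (fin 1162 5 906)
(mv 1100 (cons (fin 1164 4 907)
(mv 1036 (cons (fin 1097 2 1033)
(fin 843 7 843))))))))))))))))))))
(mv 975 (cons (fin 1039 0 972)
(mv 976 (cons (fin 909 3 908)
(fin 1036 1 972))))))))))
(mv 844 (cons (fin 780 4 780)
(mv 1101 (cons (fin 1165 7 908)
(fin 1036 4 844))))))))
(mv 908 (cons (cons (mv 844 (cons (fin 780 4 780)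
(mv 1101 (cons (fin 909 7 844)
(fin 1165 7 908)))))
(mv 1101 (cons (fin 1165 7 908)
(mv 909 (cons (cons (mv 846 (cons (fin 910 6 845)
(mv 845 (cons (fin 782 6 781)
(mv 781 (cons (fin 717 5 716)
(fin 1036 5 780)))))))
(mv 1100 (cons (fin 1164 5 908)
(mv 845 (cons (fin 1036 5 844)
(mv 781 (cons (fin 717 5 716)
(mv 782 (cons (fin 718 6 717)
(fin 846 6 781))))))))))
(cons (mv 1100 (cons (fin 1164 5 908)
(mv 845 (cons (fin 1036 5 844)
(mv 781 (cons (fin 717 5 716)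
(mv 716 (cons (fin 780 7 716)
(mv 718 (cons (fin 782 6 717)
(mv 974 (cons (fin 1038 4 781)
(mv 907 (cons (fin 975 3 907)
(fin 906 0 906)))))))))))))))
(mv 910 (cons (fin 846 6 845)
(mv 911 (cons (fin 971 1 907)
(fin 912 1 908)))))))))))
(cons (mv 780 (cons (fin 844 4 780)
(mv 907 (cons (cons (mv 906 (cons (fin 905 0 905)
(mv 974 (cons (fin 971 3 906)
(fin 975 3 907)))))
(mv 906 (cons (fin 905 0 905)
(mv 909 (cons (mv 841 (cons (fin 842 3 841)
(mv 845 (cons (fin 846 2 842)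
(mv 781 (cons (fin 716 7 716)
(fin 717 5 716)))))))
(cons (mv 841 (cons (fin 842 3 841)
(mv 970 (cons (fin 969 1 905)
(mv 971 (cons (fin 910 1 906)
(fin 1038 0 970)))))))
(mv 845 (cons (fin 846 2 842)
(mv 781 (cons (fin 716 7 716)
(fin 717 5 716)))))))))))
(cons (mv 974 (cons (fin 975 3 907)
(mv 971 (cons (cons (mv 910 (cons (fin 911 2 907)
(mv 970 (cons (fin 909 1 906)
(fin 1038 0 970)))))
(mv 910 (cons (fin 911 2 907)
(mv 782 (cons (fin 846 5 781)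
(mv 1035 (cons (fin 1034 1 970)
(mv 1099 (cons (fin 1163 6 907)
(mv 1098 (cons (fin 1162 5 906)
(mv 1036 (cons (fin 1038 1 1034)
(mv 843 (cons (fin 1100 7 843)
(fin 779 4 779))))))))))))))))
(cons (mv 970 (cons (fin 1038 0 970)
(mv 969 (cons (fin 968 2 904)
(fin 909 2 905)))))
(mv 910 (cons (fin 911 2 907)
(mv 782 (cons (fin 846 5 781)
(mv 909 (cons (fin 970 1 906)
(mv 842 (cons (fin 843 3 842)
(mv 1035 (cons (fin 1034 1 970)
(mv 1099 (cons (fin 1163 6 907)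
(mv 1098 (cons (fin 1162 5 906)
(mv 1100 (cons (fin 1164 4 907)
(mv 1036 (cons (fin 1097 2 1033)
(fin 845 5 844))))))))))))))))))))))))
(mv 906 (cons (fin 905 0 905)
(mv 974 (cons (fin 975 3 907)
(fin 909 0 906))))))))))
(cons (mv 1101 (cons (fin 1165 7 908)
(mv 844 (cons (fin 909 7 844)
(fin 1036 4 844)))))
(mv 844 (cons (fin 780 4 780)
(mv 1101 (cons (fin 1165 7 908)
(fin 1036 4 844)))))))))))
(cons (mv 1038 (cons (fin 1039 3 972)
(mv 971 (cons (fin 970 0 970)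
(mv 974 (cons (cons (mv 906 (cons (fin 907 3 906)
(mv 910 (cons (fin 911 2 907)
(mv 846 (cons (fin 782 5 781)
(fin 1101 5 845)))))))
(mv 906 (cons (fin 907 3 906)
(mv 1035 (cons (fin 1034 1 970)
(mv 975 (cons (fin 1036 1 971)
(mv 912 (cons (fin 911 2 908)
(mv 976 (cons (fin 977 1 973)
(fin 913 2 909))))))))))))
(cons (mv 906 (cons (fin 907 3 906)
(mv 1035 (cons (fin 1034 1 970)
(mv 1036 (cons (fin 975 1 971)
(mv 1099 (cons (fin 1098 1 1034)
(mv 1163 (cons (fin 1227 6 971)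
(mv 1162 (cons (fin 1226 5 970)
(mv 1164 (cons (fin 1228 4 971)
(mv 1100 (cons (fin 909 6 908)
(mv 1161 (cons (fin 1160 2 1096)
(fin 1101 2 1097)))))))))))))))))))
(mv 910 (cons (fin 911 2 907)
(mv 846 (cons (fin 782 5 781)
(fin 1101 5 845))))))))))))
(cons (mv 1038 (cons (fin 1039 3 972)
(mv 970 (cons (fin 971 0 970)
(mv 1101 (cons (cons (mv 908 (cons (fin 1165 7 908)
(mv 844 (cons (fin 909 7 844)
(fin 780 4 780)))))
(mv 909 (cons (cons (mv 844 (cons (fin 908 7 844)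
(mv 845 (cons (fin 780 7 780)
(mv 846 (cons (fin 782 6 781)
(fin 910 6 845)))))))
(mv 846 (cons (fin 910 6 845)
(mv 845 (cons (fin 782 6 781)
(mv 1036 (cons (fin 781 5 780)
(fin 1100 5 844))))))))
(cons (mv 844 (cons (fin 908 7 844)
(mv 845 (cons (fin 780 7 780)
(mv 1036 (cons (fin 781 5 780)
(fin 1100 5 844)))))))
(mv 846 (cons (fin 910 6 845)
(mv 908 (cons (fin 844 7 844)
(mv 1100 (cons (fin 1164 5 908)
(mv 1099 (cons (fin 1098 2 1034)
(mv 1036 (cons (fin 1163 5 907)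
(mv 907 (cons (fin 843 7 843)
(mv 906 (cons (fin 969 1 905)
(fin 905 0 905)))))))))))))))))))
(cons (mv 1165 (cons (cons (mv 1036 (cons (fin 1229 7 972)
(mv 1164 (cons (fin 1228 5 972)
(mv 909 (cons (fin 1100 5 908)
(mv 845 (cons (fin 781 5 780)
(mv 846 (cons (fin 782 6 781)
(fin 910 6 845)))))))))))
(mv 1164 (cons (fin 1228 5 972)
(mv 909 (cons (fin 1100 5 908)
(mv 846 (cons (fin 910 6 845)
(mv 845 (cons (fin 782 6 781)
(mv 780 (cons (fin 844 7 780)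
(mv 781 (cons (fin 716 7 716)
(fin 1036 5 780))))))))))))))
(cons (mv 1229 (cons (fin 1036 7 972)
(mv 1230 (cons (fin 1166 4 973)
(fin 1294 4 1037)))))
(mv 1164 (cons (fin 1228 5 972)
(mv 1100 (cons (fin 909 5 908)
(mv 1099 (cons (fin 1098 2 1034)
(mv 1166 (cons (fin 1167 3 1099)
(fin 1230 4 973))))))))))))
(cons (mv 908 (cons (fin 1165 7 908)
(mv 844 (cons (fin 780 4 780)
(fin 1036 4 844)))))
(mv 1165 (cons (fin 908 7 908)
(mv 1036 (cons (fin 1229 7 972)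
(mv 1164 (cons (fin 1228 5 972)
(mv 909 (cons (fin 1100 5 908)
(mv 845 (cons (fin 781 5 780)
(mv 846 (cons (fin 782 6 781)
(fin 910 6 845)))))))))))))))))))))
(mv 1038 (cons (fin 1039 3 972)
(mv 908 (cons (cons (mv 844 (cons (fin 780 4 780)
(mv 1101 (cons (fin 909 7 844)
(fin 1165 7 908)))))
(mv 844 (cons (fin 780 4 780)
(mv 1036 (cons (cons (mv 779 (cons (fin 843 7 779)
(mv 781 (cons (fin 845 6 780)
(mv 1035 (cons (fin 1099 5 843)
(mv 974 (cons (fin 975 1 971)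
(fin 1034 2 970)))))))))
(mv 779 (cons (fin 843 7 779)
(mv 845 (cons (fin 781 6 780)
(mv 909 (cons (fin 1100 5 844)
(mv 846 (cons (fin 782 6 781)
(mv 907 (cons (fin 847 1 843)
(fin 906 2 842))))))))))))
(cons (mv 779 (cons (fin 843 7 779)
(mv 1035 (cons (fin 1099 5 843)
(mv 974 (cons (fin 975 1 971)
(fin 1034 2 970)))))))
(mv 781 (cons (fin 845 6 780)
(mv 1035 (cons (fin 1099 5 843)
(mv 974 (cons (fin 975 1 971)
(fin 1034 2 970)))))))))))))
(cons (mv 1101 (cons (fin 1165 7 908)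
(mv 909 (cons (cons (mv 846 (cons (fin 910 6 845)
(mv 782 (cons (fin 845 6 781)
(mv 1100 (cons (fin 1164 5 908)
(mv 1099 (cons (fin 1098 2 1034)
(mv 1036 (cons (fin 1163 5 907)
(mv 907 (cons (fin 843 7 843)
(mv 906 (cons (fin 905 0 905)
(fin 974 0 906)))))))))))))))
(mv 846 (cons (fin 910 6 845)
(mv 845 (cons (fin 782 6 781)
(mv 781 (cons (fin 717 5 716)
(fin 1036 5 780))))))))
(cons (mv 1100 (cons (fin 1164 5 908)
(mv 845 (cons (fin 1036 5 844)
(mv 781 (cons (fin 717 5 716)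
(fin 974 4 781)))))))
(cons (mv 846 (cons (fin 910 6 845)
(mv 1100 (cons (fin 1164 5 908)
(mv 1099 (cons (fin 1098 2 1034)
(mv 1036 (cons (fin 1163 5 907)
(mv 907 (cons (fin 843 7 843)
(mv 906 (cons (fin 905 0 905)
(fin 974 0 906)))))))))))))
(mv 846 (cons (fin 910 6 845)
(mv 845 (cons (fin 782 6 781)
(mv 781 (cons (fin 717 5 716)
(fin 974 4 781)))))))))))))
(mv 844 (cons (fin 780 4 780)
(mv 1101 (cons (fin 1165 7 908)
(fin 1036 4 844)))))))))))))
(cons (cons (mv 1038 (cons (fin 1039 3 972)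
(mv 971 (cons (fin 970 0 970)
(mv 974 (cons (cons (mv 906 (cons (fin 907 3 906)
(mv 910 (cons (fin 911 2 907)
(mv 782 (cons (fin 846 5 781)
(mv 1035 (cons (fin 1034 1 970)
(mv 1036 (cons (fin 975 1 971)
(mv 1099 (cons (fin 1098 1 1034)
(mv 908 (cons (fin 844 5 843)
(fin 1163 6 907)))))))))))))))
(cons (mv 906 (cons (fin 907 3 906)
(mv 911 (cons (fin 910 2 907)
(mv 975 (cons (fin 912 2 908)
(mv 976 (cons (fin 1036 1 972)
(fin 977 1 973)))))))))
(mv 910 (cons (fin 911 2 907)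
(mv 782 (cons (fin 846 5 781)
(mv 1035 (cons (fin 1034 1 970)
(mv 1036 (cons (fin 975 1 971)
(mv 1099 (cons (fin 1098 1 1034)
(mv 908 (cons (fin 844 5 843)
(fin 1163 6 907)))))))))))))))
(cons (cons (mv 906 (cons (fin 907 3 906)
(mv 1035 (cons (fin 1034 1 970)
(mv 975 (cons (fin 1036 1 971)
(mv 912 (cons (fin 911 2 908)
(mv 976 (cons (fin 977 1 973)
(fin 913 2 909)))))))))))
(mv 906 (cons (fin 907 3 906)
(mv 1035 (cons (fin 1034 1 970)
(mv 1036 (cons (fin 975 1 971)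
(mv 1099 (cons (fin 1098 1 1034)
(mv 908 (cons (fin 844 5 843)
(fin 1163 6 907))))))))))))
(cons (mv 907 (cons (fin 906 3 906)
(mv 910 (cons (fin 911 2 907)
(mv 846 (cons (fin 782 5 781)
(mv 781 (cons (fin 845 7 781)
(mv 847 (cons (fin 783 6 782)
(mv 908 (cons (fin 909 2 843)
(mv 780 (cons (fin 844 4 780)
(mv 1035 (cons (fin 1034 1 970)
(mv 1099 (cons (fin 1163 6 907)
(mv 1098 (cons (fin 1036 1 1034)
(fin 1162 5 906)))))))))))))))))))))
(mv 907 (cons (fin 906 3 906)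
(mv 908 (cons (fin 975 3 907)
(mv 780 (cons (fin 844 4 780)
(mv 910 (cons (fin 911 2 907)
(mv 846 (cons (fin 782 5 781)
(mv 847 (cons (fin 909 2 843)
(fin 783 6 782)))))))))))))))))))))
(cons (mv 1038 (cons (fin 1039 3 972)
(mv 971 (cons (fin 970 0 970)
(mv 974 (cons (cons (mv 906 (cons (fin 907 3 906)
(mv 910 (cons (fin 911 2 907)
(mv 846 (cons (fin 782 5 781)
(fin 1101 5 845)))))))
(mv 907 (cons (fin 906 3 906)
(mv 908 (cons (fin 975 3 907)
(mv 780 (cons (fin 844 4 780)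
(mv 1035 (cons (fin 1034 1 970)
(mv 1099 (cons (fin 1163 6 907)
(mv 1098 (cons (fin 1162 5 906)
(mv 1100 (cons (fin 1101 2 1034)
(fin 1164 4 907))))))))))))))))
(cons (mv 910 (cons (fin 911 2 907)
(mv 846 (cons (fin 782 5 781)
(fin 1101 5 845)))))
(mv 907 (cons (fin 906 3 906)
(mv 908 (cons (fin 975 3 907)
(mv 780 (cons (fin 844 4 780)
(mv 910 (cons (fin 911 2 907)
(mv 846 (cons (fin 782 5 781)
(mv 847 (cons (fin 909 2 843)
(fin 783 6 782))))))))))))))))))))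
(mv 1038 (cons (fin 1039 3 972)
(mv 971 (cons (fin 970 0 970)
(mv 974 (cons (cons (mv 906 (cons (fin 907 3 906)
(mv 910 (cons (fin 911 2 907)
(mv 846 (cons (fin 782 5 781)
(fin 1101 5 845)))))))
(mv 906 (cons (fin 907 3 906)
(mv 1035 (cons (fin 1034 1 970)
(mv 975 (cons (fin 1036 1 971)
(mv 912 (cons (fin 911 2 908)
(mv 976 (cons (fin 977 1 973)
(fin 913 2 909))))))))))))
(cons (mv 910 (cons (fin 911 2 907)
(mv 846 (cons (fin 782 5 781)
(fin 1101 5 845)))))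
(mv 906 (cons (fin 907 3 906)
(mv 1035 (cons (fin 1034 1 970)
(mv 1036 (cons (fin 975 1 971)
(mv 1099 (cons (fin 1098 1 1034)
(mv 908 (cons (fin 844 5 843)
(fin 1163 6 907))))))))))))))))))))
(cons (mv 1038 (cons (fin 1039 3 972)
(mv 970 (cons (fin 971 0 970)
(mv 1101 (cons (cons (mv 908 (cons (fin 1165 7 908)
(mv 844 (cons (fin 909 7 844)
(fin 780 4 780)))))
(mv 909 (cons (cons (mv 844 (cons (fin 908 7 844)
(mv 845 (cons (fin 780 7 780)
(mv 781 (cons (fin 1036 5 780)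
(fin 974 4 781)))))))
(mv 1100 (cons (fin 1164 5 908)
(mv 845 (cons (fin 1036 5 844)
(mv 781 (cons (fin 974 4 781)
(mv 782 (cons (fin 718 6 717)
(fin 846 6 781))))))))))
(cons (mv 908 (cons (fin 844 7 844)
(mv 1100 (cons (fin 1164 5 908)
(mv 1099 (cons (fin 1098 2 1034)
(mv 1036 (cons (fin 1163 5 907)
(mv 907 (cons (fin 843 7 843)
(mv 906 (cons (fin 969 1 905)
(fin 905 0 905)))))))))))))
(mv 844 (cons (fin 908 7 844)
(mv 845 (cons (fin 780 7 780)
(mv 781 (cons (fin 974 4 781)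
(mv 782 (cons (fin 718 6 717)
(fin 846 6 781)))))))))))))
(cons (mv 1165 (cons (mv 1229 (cons (fin 1036 7 972)
(fin 974 6 973)))
(mv 1164 (cons (fin 1228 5 972)
(mv 1100 (cons (fin 909 5 908)
(mv 1099 (cons (fin 1098 2 1034)
(mv 1166 (cons (fin 1167 3 1099)
(fin 1230 4 973)))))))))))
(mv 908 (cons (fin 1165 7 908)
(mv 844 (cons (fin 780 4 780)
(fin 1036 4 844))))))))))))
(cons (mv 1038 (cons (fin 1039 3 972)
(mv 970 (cons (fin 971 0 970)
(mv 908 (cons (cons (mv 844 (cons (fin 780 4 780)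
(mv 1101 (cons (fin 909 7 844)
(fin 1165 7 908)))))
(mv 844 (cons (fin 780 4 780)
(mv 1036 (cons (cons (mv 779 (cons (fin 843 7 779)
(mv 781 (cons (fin 845 6 780)
(mv 1035 (cons (fin 1099 5 843)
(mv 974 (cons (fin 975 1 971)
(fin 1034 2 970)))))))))
(mv 779 (cons (fin 843 7 779)
(mv 845 (cons (fin 781 6 780)
(mv 1100 (cons (fin 909 5 844)
(mv 1163 (cons (fin 1099 5 907)
(mv 1164 (cons (fin 1227 5 971)
(fin 1228 6 972))))))))))))
(cons (mv 779 (cons (fin 843 7 779)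
(mv 1035 (cons (fin 1099 5 843)
(mv 974 (cons (fin 975 1 971)
(fin 1034 2 970)))))))
(cons (mv 843 (cons (fin 779 7 779)
(mv 845 (cons (fin 781 6 780)
(mv 909 (cons (fin 1100 5 844)
(mv 842 (cons (fin 841 0 841)
(fin 910 0 842)))))))))
(mv 781 (cons (fin 845 6 780)
(mv 1035 (cons (fin 1099 5 843)
(mv 974 (cons (fin 975 1 971)
(fin 1034 2 970))))))))))))))
(cons (mv 1101 (cons (fin 1165 7 908)
(mv 909 (cons (cons (mv 846 (cons (fin 910 6 845)
(mv 845 (cons (fin 782 6 781)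
(mv 781 (cons (fin 717 5 716)
(fin 1036 5 780)))))))
(mv 1100 (cons (fin 1164 5 908)
(mv 845 (cons (fin 1036 5 844)
(mv 781 (cons (fin 717 5 716)
(fin 974 4 781))))))))
(cons (mv 910 (cons (fin 846 6 845)
(mv 911 (cons (fin 912 1 908)
(mv 975 (cons (fin 976 0 908)
(mv 1100 (cons (fin 1164 5 908)
(mv 1099 (cons (fin 1098 2 1034)
(mv 1036 (cons (fin 1163 5 907)
(mv 1035 (cons (fin 974 1 971)
(mv 1034 (cons (fin 969 3 969)
(fin 1033 2 969)))))))))))))))))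
(mv 846 (cons (fin 910 6 845)
(mv 845 (cons (fin 782 6 781)
(mv 781 (cons (fin 717 5 716)
(fin 974 4 781))))))))))))
(mv 844 (cons (fin 780 4 780)
(mv 1101 (cons (fin 1165 7 908)
(fin 1036 4 844))))))))))))
(mv 1038 (cons (fin 1039 3 972)
(mv 971 (cons (fin 970 0 970)
(mv 974 (cons (cons (mv 906 (cons (fin 907 3 906)
(mv 910 (cons (fin 911 2 907)
(mv 1035 (cons (fin 1034 1 970)
(mv 1036 (cons (fin 975 1 971)
(mv 1099 (cons (fin 1098 1 1034)
(mv 908 (cons (fin 844 5 843)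
(fin 1163 6 907)))))))))))))
(cons (mv 906 (cons (fin 907 3 906)
(mv 911 (cons (fin 910 2 907)
(mv 975 (cons (fin 912 2 908)
(mv 976 (cons (fin 1036 1 972)
(fin 977 1 973)))))))))
(mv 910 (cons (fin 911 2 907)
(mv 1035 (cons (fin 1034 1 970)
(mv 1036 (cons (fin 975 1 971)
(mv 1099 (cons (fin 1098 1 1034)
(mv 908 (cons (fin 844 5 843)
(fin 1163 6 907)))))))))))))
(cons (mv 906 (cons (fin 907 3 906)
(mv 1035 (cons (fin 1034 1 970)
(mv 1036 (cons (fin 975 1 971)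
(mv 1099 (cons (fin 1098 1 1034)
(mv 908 (cons (fin 844 5 843)
(fin 1163 6 907)))))))))))
(cons (mv 906 (cons (fin 907 3 906)
(mv 910 (cons (fin 911 2 907)
(mv 1035 (cons (fin 1034 1 970)
(mv 1101 (cons (fin 1165 6 909)
(mv 908 (cons (mv 844 (cons (fin 909 7 844)
(fin 780 5 779)))
(mv 1099 (cons (fin 1163 6 907)
(mv 1098 (cons (fin 1036 1 1034)
(fin 1100 2 1034)))))))))))))))
(mv 907 (cons (fin 906 3 906)
(mv 908 (cons (fin 975 3 907)
(mv 780 (cons (fin 844 4 780)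
(mv 910 (cons (fin 911 2 907)
(mv 1035 (cons (fin 1034 1 970)
(mv 1099 (cons (fin 1163 6 907)
(mv 1098 (cons (fin 1162 5 906)
(mv 1100 (cons (fin 1101 2 1034)
(fin 1164 4 907)))))))))))))))))))))))))))))))
(cons (mv 1038 (cons (cons (mv 1039 (cons (fin 972 3 972)
(mv 976 (cons (fin 977 2 973)
(mv 975 (cons (fin 1036 2 972)
(mv 1100 (cons (fin 1101 1 1036)
(mv 1104 (cons (fin 1105 0 1037)
(mv 911 (cons (fin 1168 7 911)
(fin 847 4 847)))))))))))))
(cons (mv 1102 (cons (cons (mv 909 (cons (fin 845 4 845)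
(mv 1166 (cons (fin 974 7 909)
(fin 1230 7 973)))))
(mv 909 (cons (fin 845 4 845)
(mv 1101 (cons (cons (mv 846 (cons (fin 910 6 845)
(mv 1100 (cons (fin 1164 5 908)
(mv 1099 (cons (fin 1098 2 1034)
(mv 1035 (cons (fin 1034 3 1034)
(mv 1036 (cons (fin 1103 3 1035)
(mv 970 (cons (fin 971 3 970)
(mv 974 (cons (fin 975 2 971)
(mv 1163 (cons (fin 1162 1 1098)
(mv 1227 (cons (fin 972 6 971)
(fin 1291 6 1035)))))))))))))))))))
(mv 1100 (cons (fin 1164 5 908)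
(mv 1099 (cons (fin 1098 2 1034)
(mv 1035 (cons (fin 1034 3 1034)
(mv 1036 (cons (fin 1103 3 1035)
(mv 970 (cons (fin 971 3 970)
(mv 974 (cons (fin 975 2 971)
(mv 1163 (cons (fin 1162 1 1098)
(mv 1227 (cons (fin 972 6 971)
(fin 1291 6 1035))))))))))))))))))
(cons (mv 910 (cons (fin 846 6 845)
(mv 974 (cons (fin 1165 5 909)
(mv 847 (cons (fin 911 6 846)
(mv 1103 (cons (fin 1167 4 910)
(mv 1036 (cons (fin 1104 3 1036)
(fin 1035 0 1035)))))))))))
(cons (mv 846 (cons (fin 910 6 845)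
(mv 1100 (cons (fin 1164 5 908)
(mv 1099 (cons (fin 1098 2 1034)
(mv 1035 (cons (fin 1034 3 1034)
(mv 1036 (cons (fin 1103 3 1035)
(mv 970 (cons (fin 971 3 970)
(mv 1163 (cons (fin 1162 1 1098)
(mv 1227 (cons (fin 972 6 971)
(fin 1291 6 1035)))))))))))))))))
(mv 846 (cons (fin 910 6 845)
(mv 1164 (cons (fin 1100 5 908)
(mv 1165 (cons (fin 1228 5 972)
(mv 1229 (cons (fin 974 6 973)
(fin 1293 6 1037))))))))))))))))
(cons (mv 1166 (cons (fin 1230 7 973)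
(mv 974 (cons (mv 911 (cons (fin 975 6 910)
(mv 910 (cons (fin 847 6 846)
(mv 846 (cons (fin 782 5 781)
(fin 1101 5 845)))))))
(cons (mv 1165 (cons (fin 1229 5 973)
(mv 910 (cons (fin 1101 5 909)
(mv 1167 (cons (fin 1103 4 910)
(fin 1231 4 974)))))))
(mv 975 (cons (fin 911 6 910)
(mv 976 (cons (fin 1036 1 972)
(fin 977 1 973))))))))))
(mv 909 (cons (fin 845 4 845)
(mv 1166 (cons (fin 1230 7 973)
(fin 1101 4 909))))))))
(mv 1039 (cons (cons (mv 976 (cons (fin 977 2 973)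
(mv 975 (cons (fin 1036 2 972)
(mv 1100 (cons (fin 1101 1 1036)
(mv 1104 (cons (fin 1105 0 1037)
(mv 911 (cons (fin 1168 7 911)
(fin 847 4 847)))))))))))
(mv 976 (cons (fin 977 2 973)
(mv 975 (cons (fin 1036 2 972)
(mv 1104 (cons (fin 1105 0 1037)
(mv 911 (cons (fin 1168 7 911)
(fin 847 4 847))))))))))
(cons (mv 976 (cons (fin 977 2 973)
(mv 1036 (cons (fin 975 2 972)
(mv 1100 (cons (fin 1099 1 1035)
(fin 1101 1 1036)))))))
(cons (mv 1100 (cons (fin 1101 1 1036)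
(mv 1036 (cons (fin 1099 1 1035)
(mv 1104 (cons (fin 1103 0 1036)
(fin 1105 0 1037)))))))
(mv 976 (cons (fin 977 2 973)
(mv 1100 (cons (fin 1101 1 1036)
(mv 1104 (cons (fin 1105 0 1037)
(mv 1168 (cons (cons (mv 975 (cons (fin 911 7 911)
(fin 1232 7 975)))
(mv 1167 (cons (fin 1231 5 975)
(mv 912 (cons (fin 1103 5 911)
(mv 847 (cons (fin 911 7 847)
(mv 849 (cons (fin 913 6 848)
(mv 1233 (cons (fin 1169 4 976)
(mv 1232 (cons (fin 1297 4 1040)
(mv 1166 (cons (fin 1165 0 1165)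
(mv 1102 (cons (fin 1230 7 973)
(mv 909 (cons (fin 974 7 909)
(fin 845 4 845))))))))))))))))))))
(cons (mv 911 (cons (fin 975 7 911)
(mv 912 (cons (fin 847 7 847)
(mv 1167 (cons (fin 1103 5 911)
(fin 1231 5 975)))))))
(mv 975 (cons (fin 1232 7 975)
(mv 1167 (cons (fin 1231 5 975)
(mv 912 (cons (fin 1103 5 911)
(mv 913 (cons (fin 974 2 909)
(fin 849 6 848))))))))))))))))))))))))
(cons (mv 972 (cons (fin 1039 3 972)
(mv 971 (cons (fin 970 0 970)
(mv 974 (cons (cons (mv 906 (cons (fin 907 3 906)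
(mv 910 (cons (fin 911 2 907)
(mv 782 (cons (fin 846 5 781)
(mv 1035 (cons (fin 1034 1 970)
(mv 1036 (cons (fin 975 1 971)
(mv 1098 (cons (fin 1099 1 1034)
(mv 1102 (cons (fin 1103 0 1035)
(mv 909 (cons (fin 845 7 845)
(fin 1166 7 909)))))))))))))))))
(mv 906 (cons (fin 907 3 906)
(mv 910 (cons (fin 911 2 907)
(mv 846 (cons (fin 782 5 781)
(mv 783 (cons (fin 847 6 782)
(mv 845 (cons (fin 781 7 781)
(mv 1102 (cons (fin 909 7 845)
(mv 1166 (cons (fin 1230 7 973)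
(mv 1167 (cons (fin 1103 4 910)
(fin 1231 4 974))))))))))))))))))
(cons (mv 906 (cons (fin 907 3 906)
(mv 1035 (cons (fin 1034 1 970)
(mv 975 (cons (fin 1036 1 971)
(mv 912 (cons (fin 911 2 908)
(mv 976 (cons (fin 977 1 973)
(fin 913 2 909)))))))))))
(cons (mv 906 (cons (fin 907 3 906)
(mv 1035 (cons (fin 1034 1 970)
(mv 1036 (cons (fin 975 1 971)
(mv 1098 (cons (fin 1099 1 1034)
(mv 1102 (cons (fin 1103 0 1035)
(mv 909 (cons (fin 1166 7 909)
(fin 845 4 845)))))))))))))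
(mv 910 (cons (fin 911 2 907)
(mv 782 (cons (fin 846 5 781)
(mv 1035 (cons (fin 1034 1 970)
(mv 1036 (cons (fin 975 1 971)
(mv 1098 (cons (fin 1099 1 1034)
(mv 1102 (cons (fin 1103 0 1035)
(mv 909 (cons (fin 845 7 845)
(fin 1166 7 909)))))))))))))))))))))))
(cons (mv 1039 (cons (fin 972 3 972)
(mv 1100 (cons (fin 1101 1 1036)
(mv 1036 (cons (fin 1099 1 1035)
(mv 1104 (cons (fin 1103 0 1036)
(fin 1105 0 1037)))))))))
(mv 1039 (cons (fin 972 3 972)
(mv 976 (cons (fin 977 2 973)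
(mv 1100 (cons (fin 1101 1 1036)
(mv 1104 (cons (fin 1105 0 1037)
(mv 1168 (cons (cons (mv 975 (cons (fin 911 7 911)
(fin 1232 7 975)))
(mv 1167 (cons (fin 1231 5 975)
(mv 912 (cons (fin 1103 5 911)
(mv 847 (cons (fin 911 7 847)
(mv 849 (cons (fin 913 6 848)
(mv 1233 (cons (fin 1169 4 976)
(mv 1232 (cons (fin 1297 4 1040)
(mv 1166 (cons (fin 1165 0 1165)
(mv 1102 (cons (fin 1230 7 973)
(mv 909 (cons (fin 974 7 909)
(fin 845 4 845))))))))))))))))))))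
(cons (mv 911 (cons (fin 975 7 911)
(mv 912 (cons (fin 847 7 847)
(mv 1167 (cons (fin 1103 5 911)
(fin 1231 5 975)))))))
(mv 975 (cons (fin 1232 7 975)
(mv 1167 (cons (fin 1231 5 975)
(mv 912 (cons (fin 1103 5 911)
(mv 913 (cons (fin 974 2 909)
(fin 849 6 848))))))))))))))))))))))))
(cons (mv 1038 (cons (cons (cons (mv 1039 (cons (fin 972 3 972)
(mv 976 (cons (fin 977 2 973)
(mv 975 (cons (fin 1036 2 972)
(mv 1100 (cons (fin 1101 1 1036)
(mv 1104 (cons (fin 1105 0 1037)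
(mv 911 (cons (fin 1168 7 911)
(fin 847 4 847)))))))))))))
(mv 1102 (cons (cons (mv 909 (cons (fin 845 4 845)
(mv 1166 (cons (fin 974 7 909)
(fin 1230 7 973)))))
(mv 909 (cons (fin 845 4 845)
(mv 1101 (cons (cons (mv 844 (cons (fin 908 7 844)
(mv 1100 (cons (fin 1164 5 908)
(mv 1099 (cons (fin 1098 2 1034)
(mv 1035 (cons (fin 1034 3 1034)
(mv 1036 (cons (fin 1103 3 1035)
(mv 970 (cons (fin 971 3 970)
(mv 974 (cons (fin 975 2 971)
(mv 1163 (cons (fin 1162 1 1098)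
(mv 1227 (cons (fin 972 6 971)
(fin 1291 6 1035)))))))))))))))))))
(mv 908 (cons (fin 844 7 844)
(mv 1165 (cons (fin 972 7 908)
(mv 1229 (cons (fin 974 6 973)
(fin 1293 6 1037))))))))
(cons (mv 1100 (cons (fin 1164 5 908)
(mv 1099 (cons (fin 1098 2 1034)
(mv 1035 (cons (fin 1034 3 1034)
(mv 1036 (cons (fin 1103 3 1035)
(mv 970 (cons (fin 971 3 970)
(mv 974 (cons (fin 975 2 971)
(mv 1163 (cons (fin 1162 1 1098)
(mv 1227 (cons (fin 972 6 971)
(fin 1291 6 1035)))))))))))))))))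
(mv 844 (cons (fin 908 7 844)
(mv 1100 (cons (fin 1164 5 908)
(mv 1099 (cons (fin 1098 2 1034)
(mv 1035 (cons (fin 1034 3 1034)
(mv 1103 (cons (fin 1036 3 1035)
(mv 1104 (cons (fin 1105 3 1037)
(mv 1168 (cons (fin 1167 0 1100)
(fin 1169 0 1101)))))))))))))))))))))
(cons (mv 1166 (cons (fin 1230 7 973)
(mv 974 (cons (mv 975 (cons (fin 911 6 910)
(mv 976 (cons (fin 1036 1 972)
(fin 977 1 973)))))
(mv 1165 (cons (fin 1229 5 973)
(mv 1167 (cons (fin 1231 4 974)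
(mv 1101 (cons (mv 1100 (cons (fin 1168 3 1100)
(fin 1099 0 1099)))
(mv 908 (cons (fin 972 7 908)
(mv 1164 (cons (fin 1228 5 972)
(mv 1103 (cons (fin 1104 1 1100)
(fin 1163 2 1099)))))))))))))))))
(mv 909 (cons (fin 845 4 845)
(mv 1166 (cons (fin 1230 7 973)
(fin 1101 4 909)))))))))
(cons (mv 1039 (cons (cons (mv 976 (cons (fin 977 2 973)
(mv 975 (cons (fin 1036 2 972)
(mv 1100 (cons (fin 1101 1 1036)
(mv 1104 (cons (fin 1105 0 1037)
(mv 911 (cons (fin 1168 7 911)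
(fin 847 4 847)))))))))))
(mv 976 (cons (fin 977 2 973)
(mv 975 (cons (fin 1036 2 972)
(mv 1104 (cons (fin 1105 0 1037)
(mv 911 (cons (fin 1168 7 911)
(fin 847 4 847))))))))))
(cons (mv 976 (cons (fin 977 2 973)
(mv 1036 (cons (fin 975 2 972)
(mv 1100 (cons (fin 1099 1 1035)
(fin 1101 1 1036)))))))
(cons (mv 1100 (cons (fin 1101 1 1036)
(mv 1036 (cons (fin 1099 1 1035)
(mv 1104 (cons (fin 1103 0 1036)
(fin 1105 0 1037)))))))
(mv 976 (cons (fin 977 2 973)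
(mv 1100 (cons (fin 1101 1 1036)
(mv 1104 (cons (fin 1105 0 1037)
(mv 1168 (cons (cons (mv 975 (cons (fin 911 7 911)
(fin 1232 7 975)))
(mv 1167 (cons (fin 1231 5 975)
(mv 912 (cons (fin 1103 5 911)
(mv 847 (cons (fin 911 7 847)
(mv 849 (cons (fin 913 6 848)
(mv 1233 (cons (fin 1169 4 976)
(mv 1232 (cons (fin 1297 4 1040)
(mv 1166 (cons (fin 1165 0 1165)
(mv 1102 (cons (fin 1230 7 973)
(mv 909 (cons (fin 974 7 909)
(fin 845 4 845))))))))))))))))))))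
(cons (mv 911 (cons (fin 975 7 911)
(mv 912 (cons (fin 847 7 847)
(mv 1167 (cons (fin 1103 5 911)
(fin 1231 5 975)))))))
(mv 975 (cons (fin 1232 7 975)
(mv 1167 (cons (fin 1231 5 975)
(mv 912 (cons (fin 1103 5 911)
(mv 913 (cons (fin 974 2 909)
(fin 849 6 848))))))))))))))))))))))
(mv 972 (cons (fin 1039 3 972)
(mv 970 (cons (fin 971 0 970)
(mv 1102 (cons (cons (mv 909 (cons (fin 845 4 845)
(mv 1166 (cons (fin 974 7 909)
(fin 1230 7 973)))))
(mv 1166 (cons (fin 1230 7 973)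
(mv 974 (cons (mv 975 (cons (fin 911 6 910)
(mv 976 (cons (fin 1036 1 972)
(fin 977 1 973)))))
(cons (mv 1165 (cons (fin 1229 5 973)
(mv 1167 (cons (fin 1231 4 974)
(mv 1164 (cons (mv 1103 (cons (fin 1163 2 1099)
(fin 1104 2 1100)))
(cons (mv 1099 (cons (fin 1100 3 1099)
(mv 1163 (cons (fin 1098 3 1098)
(mv 1227 (cons (fin 1226 1 1162)
(fin 1228 1 1163)))))))
(mv 1099 (cons (fin 1100 3 1099)
(mv 1104 (cons (fin 1103 2 1100)
(mv 1168 (cons (fin 1105 2 1101)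
(mv 1227 (cons (fin 1228 1 1163)
(mv 1233 (cons (fin 1232 0 1165)
(mv 1169 (cons (fin 1234 0 1166)
(fin 976 4 976))))))))))))))))))))
(mv 911 (cons (fin 975 6 910)
(mv 1165 (cons (fin 1229 5 973)
(mv 1167 (cons (fin 1231 4 974)
(mv 1164 (cons (mv 1103 (cons (fin 1163 2 1099)
(fin 1104 2 1100)))
(cons (mv 1099 (cons (fin 1100 3 1099)
(mv 1163 (cons (fin 1098 3 1098)
(mv 1227 (cons (fin 1226 1 1162)
(fin 1228 1 1163)))))))
(mv 1100 (cons (fin 1099 3 1099)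
(mv 1228 (cons (fin 1227 1 1163)
(fin 1036 6 972))))))))))))))))))))
(cons (mv 1036 (cons (cons (mv 845 (cons (fin 909 4 845)
(mv 1035 (cons (fin 1103 0 1035)
(mv 974 (cons (fin 975 1 971)
(fin 1034 2 970)))))))
(mv 908 (cons (cons (mv 780 (cons (fin 844 4 780)
(mv 909 (cons (fin 845 4 845)
(mv 1100 (cons (fin 1164 6 908)
(mv 907 (cons (fin 843 7 843)
(mv 906 (cons (fin 969 1 905)
(fin 905 0 905)))))))))))
(mv 844 (cons (fin 780 4 780)
(mv 781 (cons (fin 845 6 780)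
(mv 843 (cons (fin 779 7 779)
(mv 1100 (cons (fin 907 7 843)
(mv 1163 (cons (fin 1099 5 907)
(mv 1164 (cons (fin 1227 5 971)
(fin 1228 6 972))))))))))))))
(cons (mv 844 (cons (fin 780 4 780)
(mv 843 (cons (fin 779 7 779)
(mv 907 (cons (fin 1100 7 843)
(mv 906 (cons (fin 905 0 905)
(mv 909 (cons (fin 969 1 905)
(fin 974 0 906)))))))))))
(cons (mv 909 (cons (fin 845 4 845)
(mv 1100 (cons (fin 1164 6 908)
(mv 907 (cons (fin 843 7 843)
(mv 906 (cons (fin 969 1 905)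
(fin 905 0 905)))))))))
(mv 844 (cons (fin 780 4 780)
(mv 845 (cons (fin 781 6 780)
(fin 909 4 845))))))))))
(cons (mv 1035 (cons (fin 1103 0 1035)
(mv 974 (cons (fin 975 1 971)
(fin 1034 2 970)))))
(mv 845 (cons (fin 909 4 845)
(mv 1035 (cons (fin 1103 0 1035)
(mv 1034 (cons (fin 969 3 969)
(fin 1033 2 969))))))))))
(mv 1166 (cons (fin 1230 7 973)
(mv 1036 (cons (cons (mv 845 (cons (fin 909 4 845)
(mv 1035 (cons (fin 1103 0 1035)
(mv 1034 (cons (fin 969 3 969)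
(fin 1033 2 969)))))))
(mv 908 (cons (cons (mv 780 (cons (fin 844 4 780)
(mv 909 (cons (fin 845 4 845)
(mv 1100 (cons (fin 1164 6 908)
(mv 907 (cons (fin 843 7 843)
(mv 906 (cons (fin 969 1 905)
(fin 905 0 905)))))))))))
(mv 844 (cons (fin 780 4 780)
(mv 781 (cons (fin 845 6 780)
(mv 843 (cons (fin 779 7 779)
(mv 1100 (cons (fin 907 7 843)
(mv 1099 (cons (fin 1163 5 907)
(mv 1097 (cons (fin 1098 2 1033)
(mv 1164 (cons (fin 1228 6 972)
(mv 1165 (cons (fin 1167 3 1099)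
(fin 1229 4 972))))))))))))))))))
(cons (mv 844 (cons (fin 780 4 780)
(mv 843 (cons (fin 779 7 779)
(mv 1100 (cons (fin 907 7 843)
(mv 1164 (cons (fin 909 6 908)
(fin 1228 6 972)))))))))
(cons (mv 909 (cons (fin 845 4 845)
(mv 1100 (cons (fin 1164 6 908)
(mv 907 (cons (fin 843 7 843)
(mv 906 (cons (fin 969 1 905)
(fin 905 0 905)))))))))
(mv 844 (cons (fin 780 4 780)
(mv 845 (cons (fin 781 6 780)
(fin 909 4 845))))))))))
(cons (mv 1035 (cons (fin 1103 0 1035)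
(mv 1034 (cons (fin 969 3 969)
(fin 1033 2 969)))))
(mv 845 (cons (fin 909 4 845)
(mv 1035 (cons (fin 1103 0 1035)
(mv 1033 (cons (fin 1034 2 969)
(mv 1099 (cons (fin 1098 1 1034)
(mv 908 (cons (fin 844 5 843)
(mv 1163 (cons (fin 1100 5 907)
(fin 1227 6 971)))))))))))))))))))))))))))
(cons (cons (mv 1039 (cons (fin 972 3 972)
(mv 976 (cons (fin 977 2 973)
(mv 975 (cons (fin 1036 2 972)
(mv 1104 (cons (fin 1105 0 1037)
(mv 911 (cons (fin 1168 7 911)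
(fin 847 4 847)))))))))))
(mv 1039 (cons (fin 972 3 972)
(mv 1100 (cons (fin 1101 1 1036)
(mv 1036 (cons (fin 1099 1 1035)
(mv 1104 (cons (fin 1103 0 1036)
(fin 1105 0 1037))))))))))
(cons (mv 1039 (cons (fin 972 3 972)
(mv 976 (cons (fin 977 2 973)
(mv 1036 (cons (fin 975 2 972)
(mv 1100 (cons (fin 1099 1 1035)
(fin 1101 1 1036)))))))))
(mv 1039 (cons (fin 972 3 972)
(mv 976 (cons (fin 977 2 973)
(mv 1100 (cons (fin 1101 1 1036)
(mv 1104 (cons (fin 1105 0 1037)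
(mv 1168 (cons (cons (mv 975 (cons (fin 911 7 911)
(fin 1232 7 975)))
(mv 1167 (cons (fin 1231 5 975)
(mv 912 (cons (fin 1103 5 911)
(mv 847 (cons (fin 911 7 847)
(mv 849 (cons (fin 913 6 848)
(mv 1233 (cons (fin 1169 4 976)
(mv 1232 (cons (fin 1297 4 1040)
(mv 1166 (cons (fin 1165 0 1165)
(mv 1102 (cons (fin 1230 7 973)
(mv 909 (cons (fin 974 7 909)
(fin 845 4 845))))))))))))))))))))
(cons (mv 911 (cons (fin 975 7 911)
(mv 912 (cons (fin 847 7 847)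
(mv 1167 (cons (fin 1103 5 911)
(fin 1231 5 975)))))))
(mv 975 (cons (fin 1232 7 975)
(mv 1167 (cons (fin 1231 5 975)
(mv 912 (cons (fin 1103 5 911)
(mv 913 (cons (fin 974 2 909)
(fin 849 6 848))))))))))))))))))))))))
(mv 1038 (cons (cons (mv 1039 (cons (fin 972 3 972)
(mv 976 (cons (fin 977 2 973)
(mv 975 (cons (fin 1036 2 972)
(mv 1100 (cons (fin 1101 1 1036)
(mv 1104 (cons (fin 1105 0 1037)
(mv 911 (cons (fin 1168 7 911)
(fin 847 4 847)))))))))))))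
(cons (mv 1102 (cons (cons (mv 909 (cons (fin 845 4 845)
(mv 1166 (cons (fin 974 7 909)
(fin 1230 7 973)))))
(mv 1166 (cons (fin 1230 7 973)
(mv 974 (cons (mv 911 (cons (fin 975 6 910)
(mv 910 (cons (fin 847 6 846)
(mv 846 (cons (fin 782 5 781)
(fin 1101 5 845)))))))
(cons (mv 1165 (cons (fin 1229 5 973)
(mv 910 (cons (fin 1101 5 909)
(mv 1167 (cons (fin 1103 4 910)
(fin 1231 4 974)))))))
(mv 975 (cons (fin 911 6 910)
(mv 976 (cons (fin 1036 1 972)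
(fin 977 1 973)))))))))))
(cons (mv 909 (cons (fin 845 4 845)
(mv 1101 (cons (cons (mv 844 (cons (fin 908 7 844)
(mv 910 (cons (fin 846 6 845)
(mv 974 (cons (fin 1165 5 909)
(mv 847 (cons (fin 911 6 846)
(mv 1103 (cons (fin 1167 4 910)
(mv 1036 (cons (fin 1104 3 1036)
(fin 1035 0 1035)))))))))))))
(mv 908 (cons (fin 844 7 844)
(mv 1165 (cons (fin 972 7 908)
(mv 1229 (cons (fin 974 6 973)
(fin 1293 6 1037))))))))
(cons (mv 910 (cons (fin 846 6 845)
(mv 974 (cons (fin 1165 5 909)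
(mv 847 (cons (fin 911 6 846)
(mv 1103 (cons (fin 1167 4 910)
(mv 1036 (cons (fin 1104 3 1036)
(fin 1035 0 1035)))))))))))
(cons (mv 844 (cons (fin 908 7 844)
(mv 910 (cons (fin 846 6 845)
(mv 1103 (cons (mv 1036 (cons (fin 1104 3 1036)
(fin 1035 0 1035)))
(mv 974 (cons (fin 1167 4 910)
(mv 911 (cons (fin 847 6 846)
(mv 912 (cons (fin 972 1 908)
(fin 913 1 909)))))))))))))
(mv 908 (cons (fin 844 7 844)
(mv 910 (cons (fin 846 6 845)
(mv 972 (cons (fin 1165 7 908)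
(mv 911 (cons (fin 971 1 907)
(fin 912 1 908)))))))))))))))
(mv 909 (cons (fin 845 4 845)
(mv 1166 (cons (fin 1230 7 973)
(fin 1101 4 909))))))))
(mv 1039 (cons (cons (mv 976 (cons (fin 977 2 973)
(mv 975 (cons (fin 1036 2 972)
(mv 1100 (cons (fin 1101 1 1036)
(mv 1104 (cons (fin 1105 0 1037)
(mv 911 (cons (fin 1168 7 911)
(fin 847 4 847)))))))))))
(mv 976 (cons (fin 977 2 973)
(mv 1036 (cons (fin 975 2 972)
(mv 1100 (cons (fin 1099 1 1035)
(fin 1101 1 1036))))))))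
(cons (mv 1100 (cons (fin 1101 1 1036)
(mv 1036 (cons (fin 1099 1 1035)
(mv 1104 (cons (fin 1103 0 1036)
(fin 1105 0 1037)))))))
(cons (mv 976 (cons (fin 977 2 973)
(mv 975 (cons (fin 1036 2 972)
(mv 1104 (cons (fin 1105 0 1037)
(mv 911 (cons (fin 1168 7 911)
(fin 847 4 847)))))))))
(mv 976 (cons (fin 977 2 973)
(mv 1100 (cons (fin 1101 1 1036)
(mv 1104 (cons (fin 1105 0 1037)
(mv 1168 (cons (cons (mv 975 (cons (fin 911 7 911)
(fin 1232 7 975)))
(mv 1167 (cons (fin 1231 5 975)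
(mv 912 (cons (fin 1103 5 911)
(mv 847 (cons (fin 911 7 847)
(mv 849 (cons (fin 913 6 848)
(mv 1233 (cons (fin 1169 4 976)
(mv 1232 (cons (fin 1297 4 1040)
(mv 1166 (cons (fin 1165 0 1165)
(mv 1102 (cons (fin 1230 7 973)
(mv 909 (cons (fin 974 7 909)
(fin 845 4 845))))))))))))))))))))
(cons (mv 911 (cons (fin 975 7 911)
(mv 912 (cons (fin 847 7 847)
(mv 1167 (cons (fin 1103 5 911)
(fin 1231 5 975)))))))
(mv 975 (cons (fin 1232 7 975)
(mv 1167 (cons (fin 1231 5 975)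
(mv 912 (cons (fin 1103 5 911)
(mv 913 (cons (fin 974 2 909)
(fin 849 6 848))))))))))))))))))))))))
(cons (cons (mv 1039 (cons (fin 972 3 972)
(mv 976 (cons (fin 977 2 973)
(mv 975 (cons (fin 1036 2 972)
(mv 1104 (cons (fin 1105 0 1037)
(mv 911 (cons (fin 1168 7 911)
(fin 847 4 847)))))))))))
(mv 1039 (cons (fin 972 3 972)
(mv 1100 (cons (fin 1101 1 1036)
(mv 1036 (cons (fin 1099 1 1035)
(mv 1104 (cons (fin 1103 0 1036)
(fin 1105 0 1037))))))))))
(cons (mv 1039 (cons (fin 972 3 972)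
(mv 976 (cons (fin 977 2 973)
(mv 1036 (cons (fin 975 2 972)
(mv 1100 (cons (fin 1099 1 1035)
(fin 1101 1 1036)))))))))
(mv 1039 (cons (fin 972 3 972)
(mv 976 (cons (fin 977 2 973)
(mv 1100 (cons (fin 1101 1 1036)
(mv 1104 (cons (fin 1105 0 1037)
(mv 1168 (cons (cons (mv 975 (cons (fin 911 7 911)
(fin 1232 7 975)))
(mv 1167 (cons (fin 1231 5 975)
(mv 912 (cons (fin 1103 5 911)
(mv 847 (cons (fin 911 7 847)
(mv 849 (cons (fin 913 6 848)
(mv 1233 (cons (fin 1169 4 976)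
(mv 1232 (cons (fin 1297 4 1040)
(mv 1166 (cons (fin 1165 0 1165)
(mv 1102 (cons (fin 1230 7 973)
(mv 909 (cons (fin 974 7 909)
(fin 845 4 845))))))))))))))))))))
(cons (mv 911 (cons (fin 975 7 911)
(mv 912 (cons (fin 847 7 847)
(mv 1167 (cons (fin 1103 5 911)
(fin 1231 5 975)))))))
(mv 975 (cons (fin 1232 7 975)
(mv 1167 (cons (fin 1231 5 975)
(mv 912 (cons (fin 1103 5 911)
(mv 913 (cons (fin 974 2 909)
(fin 849 6 848)))))))))))))))))))))))))))
(cons (cons (mv 1038 (cons (cons (mv 1039 (cons (fin 972 3 972)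
(mv 976 (cons (fin 977 2 973)
(mv 975 (cons (fin 1036 2 972)
(mv 1100 (cons (fin 1101 1 1036)
(mv 1104 (cons (fin 1105 0 1037)
(mv 911 (cons (fin 1168 7 911)
(fin 847 4 847)))))))))))))
(cons (mv 909 (cons (cons (mv 845 (cons (fin 1102 4 845)
(mv 780 (cons (fin 844 7 780)
(mv 781 (cons (fin 716 7 716)
(fin 974 4 781)))))))
(mv 1101 (cons (cons (cons (mv 844 (cons (fin 908 7 844)
(mv 846 (cons (fin 910 6 845)
(mv 1164 (cons (fin 1100 5 908)
(mv 1165 (cons (fin 1228 5 972)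
(mv 1229 (cons (fin 974 6 973)
(mv 972 (cons (fin 1036 7 972)
(mv 970 (cons (fin 971 0 970)
(mv 1293 (cons (fin 1102 6 1037)
(mv 1294 (cons (fin 1230 4 1037)
(fin 1358 4 1101)))))))))))))))))))
(mv 844 (cons (fin 908 7 844)
(mv 1164 (cons (fin 1100 5 908)
(mv 1165 (cons (fin 1228 5 972)
(mv 1229 (cons (fin 974 6 973)
(mv 972 (cons (fin 1036 7 972)
(mv 970 (cons (fin 971 0 970)
(mv 1293 (cons (fin 1102 6 1037)
(mv 1294 (cons (fin 1230 4 1037)
(fin 1358 4 1101))))))))))))))))))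
(cons (mv 846 (cons (fin 910 6 845)
(mv 1164 (cons (fin 1100 5 908)
(mv 1165 (cons (fin 1228 5 972)
(mv 1229 (cons (fin 974 6 973)
(mv 972 (cons (fin 1036 7 972)
(mv 970 (cons (fin 971 0 970)
(mv 1293 (cons (fin 1102 6 1037)
(mv 1294 (cons (fin 1230 4 1037)
(fin 1358 4 1101)))))))))))))))))
(mv 844 (cons (fin 908 7 844)
(mv 910 (cons (fin 846 6 845)
(mv 1165 (cons (fin 974 6 909)
(mv 1228 (cons (fin 1164 5 972)
(mv 1229 (cons (fin 1292 5 1036)
(mv 972 (cons (fin 1036 7 972)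
(mv 911 (cons (fin 912 1 908)
(mv 970 (cons (fin 971 2 906)
(mv 1293 (cons (fin 1102 6 1037)
(mv 1294 (cons (fin 1230 4 1037)
(fin 1358 4 1101)))))))))))))))))))))))
(cons (cons (mv 846 (cons (fin 910 6 845)
(mv 908 (cons (fin 844 7 844)
(mv 1165 (cons (fin 972 7 908)
(mv 1229 (cons (fin 974 6 973)
(mv 1228 (cons (fin 1292 5 1036)
(mv 1293 (cons (fin 1102 6 1037)
(mv 1294 (cons (fin 1230 4 1037)
(fin 1358 4 1101)))))))))))))))
(mv 908 (cons (fin 844 7 844)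
(mv 910 (cons (fin 846 6 845)
(mv 1100 (cons (fin 1164 5 908)
(mv 1098 (cons (fin 1099 2 1034)
(mv 907 (cons (cons (mv 974 (cons (fin 906 0 906)
(fin 975 0 907)))
(mv 842 (cons (fin 843 3 842)
(mv 841 (cons (fin 906 3 841)
(mv 971 (cons (fin 970 1 906)
(mv 911 (cons (fin 972 1 907)
(mv 976 (cons (fin 975 0 908)
(mv 912 (cons (fin 977 0 909)
(mv 1104 (cons (fin 847 7 847)
(mv 1103 (cons (fin 1167 5 911)
(mv 1102 (cons (fin 1036 3 1036)
(fin 1105 3 1037))))))))))))))))))))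
(cons (mv 842 (cons (fin 843 3 842)
(mv 971 (cons (fin 970 1 906)
(mv 911 (cons (fin 972 1 907)
(mv 975 (cons (fin 974 0 907)
(fin 976 0 908)))))))))
(mv 842 (cons (fin 843 3 842)
(mv 906 (cons (fin 841 3 841)
(fin 974 0 906)))))))))))))))))
(cons (mv 846 (cons (fin 910 6 845)
(mv 908 (cons (fin 844 7 844)
(mv 972 (cons (fin 1165 7 908)
(mv 970 (cons (fin 971 0 970)
(mv 1100 (cons (fin 1164 5 908)
(mv 1099 (cons (fin 1098 2 1034)
(mv 1036 (cons (fin 1163 5 907)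
(mv 907 (cons (fin 843 7 843)
(mv 906 (cons (fin 969 1 905)
(fin 905 0 905)))))))))))))))))))
(mv 844 (cons (fin 908 7 844)
(mv 846 (cons (fin 910 6 845)
(mv 1164 (cons (fin 1100 5 908)
(mv 1165 (cons (fin 1228 5 972)
(mv 1229 (cons (fin 974 6 973)
(mv 1293 (cons (fin 1102 6 1037)
(mv 1294 (cons (fin 1230 4 1037)
(fin 1358 4 1101))))))))))))))))))))
(cons (mv 845 (cons (mv 780 (cons (fin 844 7 780)
(mv 781 (cons (fin 716 7 716)
(fin 974 4 781)))))
(cons (mv 780 (cons (fin 844 7 780)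
(mv 846 (cons (fin 782 6 781)
(mv 1100 (cons (fin 1036 5 844)
(mv 1101 (cons (fin 1164 5 908)
(fin 910 6 845)))))))))
(mv 781 (cons (fin 974 4 781)
(mv 782 (cons (fin 718 6 717)
(fin 846 6 781))))))))
(cons (mv 845 (cons (fin 1102 4 845)
(mv 781 (cons (fin 974 4 781)
(mv 782 (cons (fin 718 6 717)
(fin 846 6 781)))))))
(mv 845 (cons (fin 1102 4 845)
(mv 780 (cons (fin 844 7 780)
(mv 716 (cons (fin 781 7 716)
(mv 846 (cons (fin 782 6 781)
(mv 1100 (cons (fin 1036 5 844)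
(mv 1101 (cons (fin 1164 5 908)
(fin 910 6 845)))))))))))))))))
(mv 1039 (cons (cons (mv 976 (cons (fin 977 2 973)
(mv 975 (cons (fin 1036 2 972)
(mv 1100 (cons (fin 1101 1 1036)
(mv 1104 (cons (fin 1105 0 1037)
(mv 911 (cons (fin 1168 7 911)
(fin 847 4 847)))))))))))
(mv 976 (cons (fin 977 2 973)
(mv 975 (cons (fin 1036 2 972)
(mv 1104 (cons (fin 1105 0 1037)
(mv 911 (cons (fin 1168 7 911)
(fin 847 4 847))))))))))
(cons (mv 976 (cons (fin 977 2 973)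
(mv 1036 (cons (fin 975 2 972)
(mv 1100 (cons (fin 1099 1 1035)
(fin 1101 1 1036)))))))
(cons (mv 1100 (cons (fin 1101 1 1036)
(mv 1036 (cons (fin 1099 1 1035)
(mv 1104 (cons (fin 1103 0 1036)
(fin 1105 0 1037)))))))
(mv 976 (cons (fin 977 2 973)
(mv 1100 (cons (fin 1101 1 1036)
(mv 1104 (cons (fin 1105 0 1037)
(mv 1168 (cons (mv 975 (cons (fin 911 7 911)
(fin 1232 7 975)))
(cons (mv 1167 (cons (fin 1231 5 975)
(mv 912 (cons (fin 1103 5 911)
(mv 911 (cons (fin 847 7 847)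
(mv 913 (cons (fin 849 6 848)
(mv 910 (cons (fin 974 1 909)
(mv 845 (cons (fin 846 3 845)
(mv 909 (cons (fin 844 3 844)
(fin 1102 4 845)))))))))))))))
(mv 975 (cons (fin 1232 7 975)
(mv 1167 (cons (fin 1231 5 975)
(mv 912 (cons (fin 1103 5 911)
(mv 913 (cons (fin 974 2 909)
(fin 849 6 848))))))))))))))))))))))))
(cons (cons (mv 1039 (cons (fin 972 3 972)
(mv 976 (cons (fin 977 2 973)
(mv 975 (cons (fin 1036 2 972)
(mv 1104 (cons (fin 1105 0 1037)
(mv 911 (cons (fin 1168 7 911)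
(fin 847 4 847)))))))))))
(mv 1039 (cons (fin 972 3 972)
(mv 1100 (cons (fin 1101 1 1036)
(mv 1036 (cons (fin 1099 1 1035)
(mv 1104 (cons (fin 1103 0 1036)
(fin 1105 0 1037))))))))))
(cons (mv 1039 (cons (fin 972 3 972)
(mv 976 (cons (fin 977 2 973)
(mv 1036 (cons (fin 975 2 972)
(mv 1100 (cons (fin 1099 1 1035)
(fin 1101 1 1036)))))))))
(mv 1039 (cons (fin 972 3 972)
(mv 976 (cons (fin 977 2 973)
(mv 1100 (cons (fin 1101 1 1036)
(mv 1104 (cons (fin 1105 0 1037)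
(mv 1168 (cons (mv 975 (cons (fin 911 7 911)
(fin 1232 7 975)))
(cons (mv 1167 (cons (fin 1231 5 975)
(mv 912 (cons (fin 1103 5 911)
(mv 911 (cons (fin 847 7 847)
(mv 913 (cons (fin 849 6 848)
(mv 910 (cons (fin 974 1 909)
(mv 845 (cons (fin 846 3 845)
(mv 909 (cons (fin 844 3 844)
(fin 1102 4 845)))))))))))))))
(mv 975 (cons (fin 1232 7 975)
(mv 1167 (cons (fin 1231 5 975)
(mv 912 (cons (fin 1103 5 911)
(mv 913 (cons (fin 974 2 909)
(fin 849 6 848))))))))))))))))))))))))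
(mv 1038 (cons (cons (cons (mv 1039 (cons (fin 972 3 972)
(mv 1100 (cons (fin 1101 1 1036)
(mv 1036 (cons (fin 1099 1 1035)
(mv 1104 (cons (fin 1103 0 1036)
(fin 1105 0 1037)))))))))
(mv 1102 (cons (cons (mv 909 (cons (fin 845 4 845)
(mv 1166 (cons (fin 974 7 909)
(fin 1230 7 973)))))
(mv 1166 (cons (fin 1230 7 973)
(mv 974 (cons (cons (mv 911 (cons (fin 975 6 910)
(mv 910 (cons (fin 847 6 846)
(mv 846 (cons (fin 782 5 781)
(fin 1101 5 845)))))))
(mv 1165 (cons (fin 1229 5 973)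
(mv 910 (cons (fin 1101 5 909)
(mv 1167 (cons (fin 1103 4 910)
(fin 1231 4 974))))))))
(cons (mv 911 (cons (fin 975 6 910)
(mv 1165 (cons (fin 1229 5 973)
(mv 1167 (cons (fin 1231 4 974)
(mv 1101 (cons (mv 1100 (cons (fin 1168 3 1100)
(fin 1099 0 1099)))
(mv 908 (cons (fin 972 7 908)
(mv 1164 (cons (fin 1228 5 972)
(mv 1103 (cons (fin 1104 1 1100)
(fin 1163 2 1099)))))))))))))))
(mv 911 (cons (fin 975 6 910)
(mv 910 (cons (fin 847 6 846)
(mv 1167 (cons (fin 1103 4 910)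
(fin 1231 4 974)))))))))))))
(cons (mv 909 (cons (fin 845 4 845)
(mv 1101 (cons (cons (mv 844 (cons (fin 908 7 844)
(mv 846 (cons (fin 910 6 845)
(mv 1100 (cons (fin 1164 5 908)
(mv 1099 (cons (fin 1098 2 1034)
(mv 1035 (cons (fin 1034 3 1034)
(mv 1036 (cons (fin 1103 3 1035)
(mv 970 (cons (fin 971 3 970)
(mv 974 (cons (fin 975 2 971)
(mv 1163 (cons (fin 1162 1 1098)
(mv 1227 (cons (fin 972 6 971)
(fin 1291 6 1035)))))))))))))))))))))
(cons (mv 844 (cons (fin 908 7 844)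
(mv 1100 (cons (fin 1164 5 908)
(mv 1099 (cons (fin 1098 2 1034)
(mv 1035 (cons (fin 1034 3 1034)
(mv 1036 (cons (fin 1103 3 1035)
(mv 970 (cons (fin 971 3 970)
(mv 974 (cons (fin 975 2 971)
(mv 1163 (cons (fin 1162 1 1098)
(mv 1227 (cons (fin 972 6 971)
(fin 1291 6 1035)))))))))))))))))))
(mv 844 (cons (fin 908 7 844)
(mv 910 (cons (fin 846 6 845)
(mv 974 (cons (fin 1165 5 909)
(mv 847 (cons (fin 911 6 846)
(mv 1103 (cons (fin 1167 4 910)
(mv 1036 (cons (fin 1104 3 1036)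
(fin 1035 0 1035)))))))))))))))
(cons (mv 846 (cons (fin 910 6 845)
(mv 1100 (cons (fin 1164 5 908)
(mv 1099 (cons (fin 1098 2 1034)
(mv 1035 (cons (fin 1034 3 1034)
(mv 1036 (cons (fin 1103 3 1035)
(mv 970 (cons (fin 971 3 970)
(mv 974 (cons (fin 975 2 971)
(mv 1163 (cons (fin 1162 1 1098)
(mv 1227 (cons (fin 972 6 971)
(fin 1291 6 1035)))))))))))))))))))
(cons (mv 844 (cons (fin 908 7 844)
(mv 846 (cons (fin 910 6 845)
(mv 1100 (cons (fin 1164 5 908)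
(mv 1099 (cons (fin 1098 2 1034)
(mv 1035 (cons (fin 1034 3 1034)
(mv 1036 (cons (fin 1103 3 1035)
(mv 970 (cons (fin 971 3 970)
(mv 1163 (cons (fin 1162 1 1098)
(mv 1227 (cons (fin 972 6 971)
(fin 1291 6 1035)))))))))))))))))))
(mv 844 (cons (fin 908 7 844)
(mv 846 (cons (fin 910 6 845)
(mv 1164 (cons (fin 1100 5 908)
(mv 1165 (cons (fin 1228 5 972)
(mv 1229 (cons (fin 974 6 973)
(fin 1293 6 1037)))))))))))))))))
(mv 909 (cons (fin 845 4 845)
(mv 1166 (cons (fin 1230 7 973)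
(fin 1101 4 909)))))))))
(cons (mv 1102 (cons (cons (mv 909 (cons (fin 845 4 845)
(mv 1166 (cons (fin 974 7 909)
(fin 1230 7 973)))))
(mv 845 (cons (fin 909 4 845)
(mv 1036 (cons (mv 1035 (cons (fin 1103 0 1035)
(mv 974 (cons (fin 1034 2 970)
(fin 975 2 971)))))
(cons (mv 1039 (cons (mv 1100 (cons (fin 1099 1 1035)
(fin 1101 1 1036)))
(mv 1104 (cons (fin 1103 0 1036)
(fin 1105 0 1037)))))
(mv 1035 (cons (mv 974 (cons (fin 1034 2 970)
(fin 975 2 971)))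
(cons (mv 971 (cons (fin 970 3 970)
(mv 974 (cons (fin 975 2 971)
(mv 1099 (cons (fin 1098 1 1034)
(mv 1100 (cons (fin 1039 1 1035)
(mv 907 (cons (fin 843 4 843)
(fin 1164 4 907)))))))))))
(mv 970 (cons (fin 971 3 970)
(mv 1034 (cons (fin 969 3 969)
(fin 1101 0 1034))))))))))))))
(cons (mv 1166 (cons (fin 1230 7 973)
(mv 974 (cons (cons (mv 911 (cons (fin 975 6 910)
(mv 910 (cons (fin 847 6 846)
(mv 846 (cons (fin 782 5 781)
(fin 1101 5 845)))))))
(mv 1165 (cons (fin 1229 5 973)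
(mv 910 (cons (fin 1101 5 909)
(mv 1167 (cons (fin 1103 4 910)
(fin 1231 4 974))))))))
(cons (mv 911 (cons (fin 975 6 910)
(mv 1165 (cons (fin 1229 5 973)
(mv 1167 (cons (fin 1231 4 974)
(mv 1101 (cons (mv 1100 (cons (fin 1168 3 1100)
(fin 1039 1 1036)))
(mv 1164 (cons (fin 1228 5 972)
(mv 1103 (cons (fin 1104 1 1100)
(fin 1163 2 1099)))))))))))))
(mv 911 (cons (fin 975 6 910)
(mv 910 (cons (fin 847 6 846)
(mv 1167 (cons (fin 1103 4 910)
(fin 1231 4 974))))))))))))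
(mv 909 (cons (fin 845 4 845)
(mv 1166 (cons (fin 1230 7 973)
(fin 1101 4 909))))))))
(mv 1039 (cons (fin 972 3 972)
(mv 1104 (cons (fin 1105 0 1037)
(mv 1036 (cons (fin 1103 0 1036)
(mv 1099 (cons (fin 1100 1 1035)
(mv 1035 (cons (fin 1098 1 1034)
(mv 974 (cons (fin 1034 2 970)
(fin 975 2 971)))))))))))))))
(cons (cons (mv 972 (cons (fin 1039 3 972)
(mv 970 (cons (fin 971 0 970)
(mv 1102 (cons (cons (mv 909 (cons (fin 845 4 845)
(mv 1166 (cons (fin 974 7 909)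
(fin 1230 7 973)))))
(mv 1166 (cons (fin 1230 7 973)
(mv 974 (cons (cons (mv 911 (cons (fin 975 6 910)
(mv 847 (cons (fin 910 6 846)
(mv 1165 (cons (fin 1229 5 973)
(mv 1101 (cons (fin 908 7 908)
(mv 1164 (cons (fin 1228 5 972)
(mv 1103 (cons (fin 1104 1 1100)
(fin 1163 2 1099)))))))))))))
(mv 911 (cons (fin 975 6 910)
(mv 910 (cons (fin 847 6 846)
(mv 846 (cons (fin 782 5 781)
(fin 1101 5 845))))))))
(cons (mv 1165 (cons (fin 1229 5 973)
(mv 1101 (cons (fin 908 7 908)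
(fin 910 5 909)))))
(cons (mv 911 (cons (fin 975 6 910)
(mv 1165 (cons (fin 1229 5 973)
(mv 1101 (cons (fin 908 7 908)
(mv 1164 (cons (fin 1228 5 972)
(mv 1103 (cons (fin 1104 1 1100)
(fin 1163 2 1099)))))))))))
(mv 911 (cons (fin 975 6 910)
(mv 910 (cons (fin 847 6 846)
(mv 1167 (cons (fin 1103 4 910)
(fin 1231 4 974))))))))))))))
(cons (mv 909 (cons (fin 845 4 845)
(mv 1101 (cons (mv 908 (cons (fin 844 7 844)
(fin 1165 7 908)))
(cons (mv 910 (cons (fin 846 6 845)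
(mv 911 (cons (fin 912 1 908)
(mv 974 (cons (fin 1165 5 909)
(fin 847 6 846)))))))
(mv 844 (cons (fin 908 7 844)
(mv 910 (cons (fin 846 6 845)
(mv 911 (cons (fin 912 1 908)
(mv 974 (cons (fin 847 6 846)
(mv 1103 (cons (fin 1167 4 910)
(mv 1036 (cons (fin 1104 3 1036)
(fin 1035 0 1035))))))))))))))))))
(mv 909 (cons (fin 845 4 845)
(mv 1166 (cons (fin 1230 7 973)
(fin 1101 4 909))))))))))))
(mv 972 (cons (fin 1039 3 972)
(mv 970 (cons (fin 971 0 970)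
(mv 908 (cons (cons (mv 844 (cons (fin 780 4 780)
(mv 1101 (cons (fin 909 7 844)
(fin 1165 7 908)))))
(mv 780 (cons (fin 844 4 780)
(mv 907 (cons (cons (mv 906 (cons (fin 905 0 905)
(mv 909 (cons (fin 969 1 905)
(fin 974 0 906)))))
(mv 974 (cons (fin 975 3 907)
(mv 1036 (cons (cons (mv 843 (cons (fin 1100 7 843)
(mv 715 (cons (fin 779 4 715)
(mv 1035 (cons (fin 1034 2 970)
(mv 1098 (cons (fin 1099 1 1034)
(mv 1102 (cons (fin 1103 0 1035)
(mv 909 (cons (fin 1166 7 909)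
(fin 845 4 845)))))))))))))
(mv 1035 (cons (fin 1034 2 970)
(mv 1098 (cons (fin 1099 1 1034)
(mv 1102 (cons (fin 1103 0 1035)
(mv 909 (cons (fin 1166 7 909)
(fin 845 4 845))))))))))
(cons (mv 1100 (cons (fin 843 7 843)
(mv 909 (cons (fin 845 5 844)
(fin 1164 6 908)))))
(mv 1034 (cons (fin 1035 2 970)
(mv 1100 (cons (fin 843 7 843)
(mv 1163 (cons (fin 1099 5 907)
(mv 1164 (cons (fin 1227 5 971)
(fin 1228 6 972)))))))))))))))
(cons (mv 906 (cons (fin 905 0 905)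
(mv 909 (cons (fin 969 1 905)
(mv 845 (cons (fin 846 2 842)
(fin 1102 4 845)))))))
(mv 906 (cons (fin 905 0 905)
(mv 974 (cons (fin 975 3 907)
(mv 1034 (cons (mv 843 (cons (fin 1098 6 842)
(mv 779 (cons (fin 715 5 714)
(fin 842 6 778)))))
(cons (mv 1035 (cons (fin 1036 2 970)
(mv 842 (cons (fin 1099 4 842)
(mv 777 (cons (fin 841 7 777)
(mv 778 (cons (fin 713 7 713)
(mv 1033 (cons (fin 969 5 777)
(fin 1097 5 841)))))))))))
(mv 843 (cons (fin 1098 6 842)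
(mv 1036 (cons (fin 1035 2 970)
(fin 1100 7 843))))))))))))))))))
(cons (mv 1101 (cons (fin 1165 7 908)
(mv 909 (cons (mv 1102 (cons (fin 845 4 845)
(fin 1166 4 909)))
(cons (mv 846 (cons (fin 910 6 845)
(mv 782 (cons (fin 845 6 781)
(mv 1100 (cons (fin 1164 5 908)
(mv 1099 (cons (fin 1098 2 1034)
(mv 1036 (cons (fin 1163 5 907)
(mv 907 (cons (fin 843 7 843)
(mv 906 (cons (fin 969 1 905)
(fin 905 0 905)))))))))))))))
(mv 846 (cons (fin 910 6 845)
(mv 1100 (cons (fin 1164 5 908)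
(mv 1099 (cons (fin 1098 2 1034)
(mv 1036 (cons (fin 1163 5 907)
(mv 843 (cons (fin 907 7 843)
(mv 1102 (cons (fin 1166 4 909)
(mv 1035 (cons (fin 1034 3 1034)
(fin 1103 3 1035))))))))))))))))))))
(mv 844 (cons (fin 780 4 780)
(mv 1101 (cons (fin 1165 7 908)
(fin 1036 4 844)))))))))))))
(cons (mv 1039 (cons (fin 972 3 972)
(mv 1101 (cons (fin 1100 1 1036)
(mv 1104 (cons (fin 1105 0 1037)
(mv 1165 (cons (mv 974 (cons (fin 910 6 909)
(fin 1229 6 973)))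
(mv 1164 (cons (fin 1228 5 972)
(mv 1102 (cons (fin 1103 1 1100)
(mv 909 (cons (fin 845 4 845)
(fin 1166 4 909)))))))))))))))
(mv 972 (cons (fin 1039 3 972)
(mv 970 (cons (fin 971 0 970)
(mv 908 (cons (cons (mv 844 (cons (fin 780 4 780)
(mv 1101 (cons (fin 909 7 844)
(fin 1165 7 908)))))
(mv 844 (cons (fin 780 4 780)
(mv 1036 (cons (cons (mv 779 (cons (fin 843 7 779)
(mv 781 (cons (fin 845 6 780)
(mv 1035 (cons (fin 1099 5 843)
(mv 974 (cons (fin 975 1 971)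
(fin 1034 2 970)))))))))
(mv 779 (cons (fin 843 7 779)
(mv 845 (cons (fin 781 6 780)
(mv 909 (cons (fin 1100 5 844)
(fin 1102 4 845))))))))
(cons (mv 779 (cons (fin 843 7 779)
(mv 1035 (cons (fin 1099 5 843)
(mv 974 (cons (fin 975 1 971)
(fin 1034 2 970)))))))
(mv 781 (cons (fin 845 6 780)
(mv 1035 (cons (fin 1099 5 843)
(mv 974 (cons (fin 975 1 971)
(fin 1034 2 970)))))))))))))
(cons (mv 1101 (cons (fin 1165 7 908)
(mv 909 (cons (mv 1102 (cons (fin 845 4 845)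
(fin 1166 4 909)))
(cons (mv 846 (cons (fin 910 6 845)
(mv 782 (cons (fin 845 6 781)
(mv 1100 (cons (fin 1164 5 908)
(mv 1099 (cons (fin 1098 2 1034)
(mv 1036 (cons (fin 1163 5 907)
(mv 907 (cons (fin 843 7 843)
(mv 906 (cons (fin 969 1 905)
(fin 905 0 905)))))))))))))))
(mv 846 (cons (fin 910 6 845)
(mv 1100 (cons (fin 1164 5 908)
(mv 1099 (cons (fin 1098 2 1034)
(mv 1036 (cons (fin 1163 5 907)
(mv 907 (cons (fin 843 7 843)
(mv 906 (cons (fin 969 1 905)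
(fin 905 0 905))))))))))))))))))
(mv 844 (cons (fin 780 4 780)
(mv 1101 (cons (fin 1165 7 908)
(fin 1036 4 844)))))))))))))))))
(cons (mv 1038 (cons (cons (cons (mv 1039 (cons (fin 972 3 972)
(mv 976 (cons (fin 977 2 973)
(mv 1100 (cons (fin 1101 1 1036)
(mv 1036 (cons (fin 1099 1 1035)
(mv 1104 (cons (fin 1103 0 1036)
(fin 1105 0 1037)))))))))))
(mv 1102 (cons (cons (mv 909 (cons (fin 845 4 845)
(mv 1166 (cons (fin 974 7 909)
(fin 1230 7 973)))))
(mv 1166 (cons (fin 1230 7 973)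
(mv 974 (cons (cons (mv 1165 (cons (fin 1229 5 973)
(mv 910 (cons (fin 1101 5 909)
(mv 1167 (cons (fin 1103 4 910)
(fin 1231 4 974)))))))
(mv 1167 (cons (fin 1231 4 974)
(mv 910 (cons (fin 1103 4 910)
(mv 846 (cons (fin 782 5 781)
(fin 1101 5 845))))))))
(cons (mv 1165 (cons (fin 1229 5 973)
(mv 910 (cons (fin 1101 5 909)
(mv 846 (cons (fin 782 5 781)
(mv 847 (cons (fin 783 6 782)
(fin 911 6 846)))))))))
(cons (mv 1165 (cons (fin 1229 5 973)
(mv 1167 (cons (fin 1231 4 974)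
(mv 1101 (cons (mv 1100 (cons (fin 1168 3 1100)
(fin 1099 0 1099)))
(mv 908 (cons (fin 972 7 908)
(mv 1164 (cons (fin 1228 5 972)
(mv 1103 (cons (fin 1104 1 1100)
(fin 1163 2 1099)))))))))))))
(mv 1165 (cons (fin 1229 5 973)
(mv 1167 (cons (fin 1231 4 974)
(mv 910 (cons (fin 1103 4 910)
(mv 846 (cons (fin 782 5 781)
(mv 847 (cons (fin 783 6 782)
(fin 911 6 846))))))))))))))))))
(cons (mv 909 (cons (fin 845 4 845)
(mv 1101 (cons (cons (mv 844 (cons (fin 908 7 844)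
(mv 846 (cons (fin 910 6 845)
(mv 1100 (cons (fin 1164 5 908)
(mv 1099 (cons (fin 1098 2 1034)
(mv 1035 (cons (fin 1034 3 1034)
(mv 1036 (cons (fin 1103 3 1035)
(mv 970 (cons (fin 971 3 970)
(mv 1163 (cons (fin 1162 1 1098)
(mv 1227 (cons (fin 972 6 971)
(fin 1291 6 1035)))))))))))))))))))
(mv 844 (cons (fin 908 7 844)
(mv 1100 (cons (fin 1164 5 908)
(mv 1099 (cons (fin 1098 2 1034)
(mv 1035 (cons (fin 1034 3 1034)
(mv 1036 (cons (fin 1103 3 1035)
(mv 970 (cons (fin 971 3 970)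
(mv 1163 (cons (fin 1162 1 1098)
(mv 1227 (cons (fin 972 6 971)
(fin 1291 6 1035))))))))))))))))))
(cons (mv 844 (cons (fin 908 7 844)
(mv 910 (cons (fin 846 6 845)
(mv 974 (cons (fin 1165 5 909)
(mv 847 (cons (fin 911 6 846)
(mv 1103 (cons (fin 1167 4 910)
(mv 1036 (cons (fin 1104 3 1036)
(fin 1035 0 1035)))))))))))))
(cons (mv 846 (cons (fin 910 6 845)
(mv 1100 (cons (fin 1164 5 908)
(mv 1099 (cons (fin 1098 2 1034)
(mv 1035 (cons (fin 1034 3 1034)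
(mv 1036 (cons (fin 1103 3 1035)
(mv 970 (cons (fin 971 3 970)
(mv 1163 (cons (fin 1162 1 1098)
(mv 1227 (cons (fin 972 6 971)
(fin 1291 6 1035)))))))))))))))))
(mv 844 (cons (fin 908 7 844)
(mv 846 (cons (fin 910 6 845)
(mv 1164 (cons (fin 1100 5 908)
(mv 1165 (cons (fin 1228 5 972)
(mv 1229 (cons (fin 974 6 973)
(fin 1293 6 1037)))))))))))))))))
(mv 909 (cons (fin 845 4 845)
(mv 1166 (cons (fin 1230 7 973)
(fin 1101 4 909)))))))))
(cons (mv 1039 (cons (cons (mv 976 (cons (fin 977 2 973)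
(mv 1100 (cons (fin 1101 1 1036)
(mv 1036 (cons (fin 1099 1 1035)
(mv 1104 (cons (fin 1103 0 1036)
(fin 1105 0 1037)))))))))
(cons (mv 976 (cons (fin 977 2 973)
(mv 1104 (cons (fin 1105 0 1037)
(mv 1103 (cons (fin 1036 0 1036)
(mv 1167 (cons (fin 912 5 911)
(fin 1231 6 975)))))))))
(mv 976 (cons (fin 977 2 973)
(mv 1100 (cons (fin 1101 1 1036)
(mv 1036 (cons (fin 1099 1 1035)
(mv 909 (cons (fin 845 5 844)
(mv 1228 (cons (fin 1164 6 972)
(mv 1102 (cons (mv 1166 (cons (fin 974 7 909)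
(fin 1230 7 973)))
(cons (mv 1035 (cons (fin 1103 0 1035)
(mv 970 (cons (fin 971 3 970)
(mv 1034 (cons (fin 969 3 969)
(fin 974 2 970)))))))
(mv 1103 (cons (fin 1035 0 1035)
(mv 1230 (cons (fin 1166 7 973)
(mv 1231 (cons (fin 1167 6 975)
(mv 1229 (cons (cons (mv 1291 (cons (fin 1292 1 1227)
(mv 1227 (cons (fin 1290 1 1226)
(mv 1295 (cons (fin 1294 0 1227)
(fin 1296 0 1228)))))))
(mv 1295 (cons (fin 1296 0 1228)
(mv 1227 (cons (fin 1294 0 1227)
(mv 1162 (cons (fin 1163 3 1162)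
(mv 1226 (cons (fin 1161 3 1161)
(mv 1290 (cons (fin 1289 1 1225)
(fin 1291 1 1226))))))))))))
(cons (mv 1292 (cons (fin 1291 1 1227)
(mv 1232 (cons (fin 1293 1 1228)
(mv 1169 (cons (fin 1168 2 1165)
(mv 1233 (cons (fin 1170 2 1166)
(mv 1297 (cons (fin 1296 0 1229)
(fin 1298 0 1230)))))))))))
(cons (mv 1296 (cons (fin 1295 0 1228)
(mv 1232 (cons (fin 1297 0 1229)
(mv 1169 (cons (fin 1168 2 1165)
(mv 1233 (cons (fin 1170 2 1166)
(mv 1293 (cons (fin 1292 1 1228)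
(fin 1294 1 1229)))))))))))
(mv 1291 (cons (fin 1292 1 1227)
(mv 1227 (cons (fin 1290 1 1226)
(mv 1162 (cons (fin 1163 3 1162)
(mv 1226 (cons (fin 1161 3 1161)
(mv 1294 (cons (fin 1293 0 1226)
(fin 1295 0 1227))))))))))))))))))))))))))))))))))))
(cons (mv 1100 (cons (fin 1101 1 1036)
(mv 1036 (cons (fin 1099 1 1035)
(mv 1104 (cons (fin 1103 0 1036)
(fin 1105 0 1037)))))))
(cons (mv 976 (cons (fin 977 2 973)
(mv 1100 (cons (fin 1101 1 1036)
(mv 1104 (cons (fin 1105 0 1037)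
(mv 1167 (cons (mv 1103 (cons (fin 912 5 911)
(fin 1231 6 975)))
(cons (mv 1168 (cons (fin 1231 5 975)
(mv 1233 (cons (fin 1169 4 976)
(mv 1232 (cons (fin 1297 4 1040)
(mv 1166 (cons (fin 1165 0 1165)
(mv 1102 (cons (fin 1230 7 973)
(mv 909 (cons (fin 974 7 909)
(fin 845 4 845)))))))))))))
(mv 912 (cons (fin 1103 5 911)
(mv 911 (cons (fin 847 7 847)
(mv 913 (cons (fin 849 6 848)
(mv 910 (cons (fin 974 1 909)
(mv 845 (cons (fin 846 3 845)
(mv 909 (cons (fin 844 3 844)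
(fin 1102 4 845))))))))))))))))))))))
(mv 976 (cons (fin 977 2 973)
(mv 1101 (cons (fin 1100 1 1036)
(mv 1104 (cons (fin 1105 0 1037)
(mv 1165 (cons (mv 974 (cons (fin 910 6 909)
(fin 1229 6 973)))
(cons (mv 1164 (cons (fin 1228 5 972)
(mv 1166 (cons (fin 1230 4 973)
(mv 909 (cons (fin 1102 4 909)
(mv 844 (cons (fin 908 7 844)
(mv 845 (cons (fin 780 7 780)
(mv 846 (cons (fin 782 6 781)
(fin 910 6 845)))))))))))))
(mv 974 (cons (fin 1229 6 973)
(mv 1164 (cons (fin 1228 5 972)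
(mv 1166 (cons (fin 1230 4 973)
(mv 909 (cons (fin 1102 7 909)
(mv 844 (cons (fin 908 7 844)
(mv 845 (cons (fin 780 7 780)
(fin 781 4 781))))))))))))))))))))))))))
(mv 1039 (cons (fin 972 3 972)
(mv 976 (cons (fin 977 2 973)
(mv 1104 (cons (fin 1105 0 1037)
(mv 1036 (cons (fin 1103 0 1036)
(mv 1099 (cons (fin 1100 1 1035)
(mv 1035 (cons (fin 1098 1 1034)
(mv 970 (cons (fin 971 3 970)
(mv 1034 (cons (fin 969 3 969)
(fin 974 2 970)))))))))))))))))))
(cons (cons (mv 1039 (cons (fin 972 3 972)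
(mv 976 (cons (fin 977 2 973)
(mv 1104 (cons (fin 1105 0 1037)
(mv 1103 (cons (fin 1036 0 1036)
(mv 1167 (cons (fin 912 5 911)
(fin 1231 6 975)))))))))))
(mv 1039 (cons (fin 972 3 972)
(mv 976 (cons (fin 977 2 973)
(mv 1100 (cons (fin 1101 1 1036)
(mv 1036 (cons (fin 1099 1 1035)
(mv 909 (cons (fin 845 5 844)
(mv 1228 (cons (fin 1164 6 972)
(mv 1102 (cons (mv 1166 (cons (fin 974 7 909)
(fin 1230 7 973)))
(cons (mv 1035 (cons (fin 1103 0 1035)
(mv 970 (cons (fin 971 3 970)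
(mv 1034 (cons (fin 969 3 969)
(fin 974 2 970)))))))
(mv 1103 (cons (fin 1035 0 1035)
(mv 1230 (cons (fin 1166 7 973)
(mv 1231 (cons (fin 1167 6 975)
(mv 1229 (cons (cons (mv 1291 (cons (fin 1292 1 1227)
(mv 1227 (cons (fin 1290 1 1226)
(mv 1295 (cons (fin 1294 0 1227)
(fin 1296 0 1228)))))))
(mv 1295 (cons (fin 1296 0 1228)
(mv 1227 (cons (fin 1294 0 1227)
(mv 1162 (cons (fin 1163 3 1162)
(mv 1226 (cons (fin 1161 3 1161)
(mv 1290 (cons (fin 1289 1 1225)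
(fin 1291 1 1226))))))))))))
(cons (mv 1292 (cons (fin 1291 1 1227)
(mv 1232 (cons (fin 1293 1 1228)
(mv 1169 (cons (fin 1168 2 1165)
(mv 1233 (cons (fin 1170 2 1166)
(mv 1297 (cons (fin 1296 0 1229)
(fin 1298 0 1230)))))))))))
(cons (mv 1296 (cons (fin 1295 0 1228)
(mv 1232 (cons (fin 1297 0 1229)
(mv 1169 (cons (fin 1168 2 1165)
(mv 1233 (cons (fin 1170 2 1166)
(mv 1293 (cons (fin 1292 1 1228)
(fin 1294 1 1229)))))))))))
(mv 1291 (cons (fin 1292 1 1227)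
(mv 1227 (cons (fin 1290 1 1226)
(mv 1162 (cons (fin 1163 3 1162)
(mv 1226 (cons (fin 1161 3 1161)
(mv 1294 (cons (fin 1293 0 1226)
(fin 1295 0 1227)))))))))))))))))))))))))))))))))))))
(cons (mv 972 (cons (fin 1039 3 972)
(mv 971 (cons (fin 970 0 970)
(mv 974 (cons (cons (mv 906 (cons (fin 907 3 906)
(mv 910 (cons (fin 911 2 907)
(mv 846 (cons (fin 782 5 781)
(fin 1101 5 845)))))))
(mv 906 (cons (fin 907 3 906)
(mv 1035 (cons (fin 1034 1 970)
(mv 909 (cons (mv 845 (cons (fin 781 4 781)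
(fin 1102 4 845)))
(cons (mv 1102 (cons (fin 1166 7 909)
(mv 1101 (cons (mv 908 (cons (fin 844 7 844)
(fin 1165 7 908)))
(cons (mv 1164 (cons (fin 1100 5 908)
(mv 1165 (cons (fin 1228 5 972)
(fin 1229 6 973)))))
(mv 908 (cons (fin 844 7 844)
(mv 1099 (cons (fin 1163 6 907)
(mv 1100 (cons (fin 1098 2 1034)
(fin 1164 5 908))))))))))))
(mv 845 (cons (fin 781 4 781)
(mv 782 (cons (fin 846 6 781)
(mv 844 (cons (fin 780 7 780)
(mv 1101 (cons (fin 908 7 844)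
(mv 1164 (cons (fin 1100 5 908)
(mv 1165 (cons (fin 1228 5 972)
(fin 1229 6 973)))))))))))))))))))))
(cons (mv 910 (cons (fin 911 2 907)
(mv 846 (cons (fin 782 5 781)
(fin 1101 5 845)))))
(cons (mv 906 (cons (fin 907 3 906)
(mv 910 (cons (fin 911 2 907)
(mv 846 (cons (fin 782 5 781)
(mv 783 (cons (fin 847 6 782)
(mv 845 (cons (fin 781 7 781)
(mv 1034 (cons (fin 1035 1 970)
(mv 1102 (cons (fin 909 7 845)
(mv 1166 (cons (fin 1230 7 973)
(mv 1167 (cons (fin 1103 4 910)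
(fin 1231 4 974)))))))))))))))))))
(mv 906 (cons (fin 907 3 906)
(mv 910 (cons (fin 911 2 907)
(mv 1035 (cons (fin 1034 1 970)
(mv 1101 (cons (fin 1165 6 909)
(mv 909 (cons (mv 845 (cons (fin 1102 7 845)
(fin 781 4 781)))
(cons (mv 781 (cons (fin 845 4 781)
(mv 908 (cons (fin 844 7 844)
(mv 1099 (cons (fin 1163 6 907)
(mv 1100 (cons (fin 1098 2 1034)
(fin 1164 5 908)))))))))
(mv 908 (cons (fin 844 7 844)
(mv 1099 (cons (fin 1163 6 907)
(mv 1100 (cons (fin 1098 2 1034)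
(fin 1164 5 908))))))))))))))))))))))))))
(mv 1039 (cons (fin 972 3 972)
(mv 976 (cons (fin 977 2 973)
(mv 1101 (cons (fin 1100 1 1036)
(mv 1104 (cons (fin 1105 0 1037)
(mv 1165 (cons (mv 974 (cons (fin 910 6 909)
(fin 1229 6 973)))
(cons (mv 1164 (cons (fin 1228 5 972)
(mv 1166 (cons (fin 1230 4 973)
(mv 909 (cons (fin 1102 4 909)
(mv 844 (cons (fin 908 7 844)
(mv 845 (cons (fin 780 7 780)
(mv 846 (cons (fin 782 6 781)
(fin 910 6 845)))))))))))))
(mv 974 (cons (fin 1229 6 973)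
(mv 1164 (cons (fin 1228 5 972)
(mv 1166 (cons (fin 1230 4 973)
(mv 909 (cons (fin 1102 7 909)
(mv 844 (cons (fin 908 7 844)
(mv 845 (cons (fin 780 7 780)
(fin 781 4 781))))))))))))))))))))))))))))
(cons (mv 1038 (cons (cons (mv 1039 (cons (fin 972 3 972)
(mv 976 (cons (fin 977 2 973)
(mv 975 (cons (fin 1036 2 972)
(mv 1100 (cons (fin 1101 1 1036)
(mv 1104 (cons (fin 1105 0 1037)
(mv 911 (cons (fin 1168 7 911)
(fin 847 4 847)))))))))))))
(cons (mv 909 (cons (cons (mv 845 (cons (fin 1102 4 845)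
(mv 780 (cons (fin 844 7 780)
(mv 781 (cons (fin 716 7 716)
(fin 974 4 781)))))))
(mv 1101 (cons (cons (mv 844 (cons (fin 908 7 844)
(mv 846 (cons (fin 910 6 845)
(mv 1100 (cons (fin 1164 5 908)
(mv 1099 (cons (fin 1098 2 1034)
(mv 1102 (cons (fin 1166 4 909)
(mv 1035 (cons (fin 1034 3 1034)
(mv 1036 (cons (fin 1103 3 1035)
(mv 970 (cons (fin 971 3 970)
(mv 974 (cons (fin 975 2 971)
(mv 1163 (cons (fin 1162 1 1098)
(mv 1227 (cons (fin 972 6 971)
(fin 1291 6 1035)))))))))))))))))))))))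
(cons (mv 844 (cons (fin 908 7 844)
(mv 1100 (cons (fin 1164 5 908)
(mv 1099 (cons (fin 1098 2 1034)
(mv 1102 (cons (fin 1166 4 909)
(mv 1035 (cons (fin 1034 3 1034)
(mv 1036 (cons (fin 1103 3 1035)
(mv 970 (cons (fin 971 3 970)
(mv 974 (cons (fin 975 2 971)
(mv 1163 (cons (fin 1162 1 1098)
(mv 1227 (cons (fin 972 6 971)
(fin 1291 6 1035)))))))))))))))))))))
(mv 844 (cons (fin 908 7 844)
(mv 910 (cons (fin 846 6 845)
(mv 1164 (cons (fin 1100 5 908)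
(mv 1165 (cons (fin 1228 5 972)
(fin 974 6 909)))))))))))
(cons (mv 846 (cons (fin 910 6 845)
(mv 1100 (cons (fin 1164 5 908)
(mv 1099 (cons (fin 1098 2 1034)
(mv 1102 (cons (fin 1166 4 909)
(mv 1035 (cons (fin 1034 3 1034)
(mv 1036 (cons (fin 1103 3 1035)
(mv 970 (cons (fin 971 3 970)
(mv 974 (cons (fin 975 2 971)
(mv 1163 (cons (fin 1162 1 1098)
(mv 1227 (cons (fin 972 6 971)
(fin 1291 6 1035)))))))))))))))))))))
(cons (mv 844 (cons (fin 908 7 844)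
(mv 910 (cons (fin 846 6 845)
(mv 974 (cons (fin 1165 6 909)
(mv 1102 (cons (fin 1166 7 909)
(mv 847 (cons (fin 911 6 846)
(mv 1103 (cons (fin 1167 4 910)
(mv 1036 (cons (fin 1104 3 1036)
(fin 1035 0 1035)))))))))))))))
(mv 844 (cons (fin 908 7 844)
(mv 846 (cons (fin 910 6 845)
(mv 1100 (cons (fin 1164 5 908)
(mv 1099 (cons (fin 1098 2 1034)
(mv 1102 (cons (fin 1166 4 909)
(mv 1035 (cons (fin 1034 3 1034)
(mv 1036 (cons (fin 1103 3 1035)
(mv 970 (cons (fin 971 3 970)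
(mv 1163 (cons (fin 1162 1 1098)
(mv 1227 (cons (fin 972 6 971)
(fin 1291 6 1035))))))))))))))))))))))))))
(cons (mv 845 (cons (mv 780 (cons (fin 844 7 780)
(mv 781 (cons (fin 716 7 716)
(fin 974 4 781)))))
(cons (mv 780 (cons (fin 844 7 780)
(mv 846 (cons (fin 782 6 781)
(mv 1100 (cons (fin 1036 5 844)
(mv 1101 (cons (fin 1164 5 908)
(fin 910 6 845)))))))))
(mv 781 (cons (fin 974 4 781)
(mv 782 (cons (fin 718 6 717)
(fin 846 6 781))))))))
(cons (mv 845 (cons (fin 1102 4 845)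
(mv 780 (cons (fin 844 7 780)
(mv 716 (cons (fin 781 7 716)
(mv 846 (cons (fin 782 6 781)
(mv 1100 (cons (fin 1036 5 844)
(mv 1101 (cons (fin 1164 5 908)
(fin 910 6 845)))))))))))))
(mv 845 (cons (fin 1102 4 845)
(mv 781 (cons (fin 974 4 781)
(mv 782 (cons (fin 718 6 717)
(fin 846 6 781)))))))))))
(mv 1039 (cons (cons (mv 976 (cons (fin 977 2 973)
(mv 975 (cons (fin 1036 2 972)
(mv 1100 (cons (fin 1101 1 1036)
(mv 1104 (cons (fin 1105 0 1037)
(mv 911 (cons (fin 1168 7 911)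
(fin 847 4 847)))))))))))
(mv 976 (cons (fin 977 2 973)
(mv 975 (cons (fin 1036 2 972)
(mv 1104 (cons (fin 1105 0 1037)
(mv 911 (cons (fin 1168 7 911)
(fin 847 4 847))))))))))
(cons (mv 976 (cons (fin 977 2 973)
(mv 1036 (cons (fin 975 2 972)
(mv 1100 (cons (fin 1099 1 1035)
(fin 1101 1 1036)))))))
(cons (mv 1100 (cons (fin 1101 1 1036)
(mv 1036 (cons (fin 1099 1 1035)
(mv 1104 (cons (fin 1103 0 1036)
(fin 1105 0 1037)))))))
(mv 976 (cons (fin 977 2 973)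
(mv 1100 (cons (fin 1101 1 1036)
(mv 1104 (cons (fin 1105 0 1037)
(mv 1168 (cons (mv 975 (cons (fin 911 7 911)
(fin 1232 7 975)))
(cons (mv 1167 (cons (fin 1231 5 975)
(mv 912 (cons (fin 1103 5 911)
(mv 911 (cons (fin 847 7 847)
(mv 913 (cons (fin 849 6 848)
(mv 910 (cons (fin 974 1 909)
(mv 845 (cons (fin 846 3 845)
(mv 909 (cons (fin 844 3 844)
(fin 1102 4 845)))))))))))))))
(mv 975 (cons (fin 1232 7 975)
(mv 1167 (cons (fin 1231 5 975)
(mv 912 (cons (fin 1103 5 911)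
(mv 913 (cons (fin 974 2 909)
(fin 849 6 848))))))))))))))))))))))))
(cons (cons (mv 1039 (cons (fin 972 3 972)
(mv 976 (cons (fin 977 2 973)
(mv 975 (cons (fin 1036 2 972)
(mv 1104 (cons (fin 1105 0 1037)
(mv 911 (cons (fin 1168 7 911)
(fin 847 4 847)))))))))))
(mv 1039 (cons (fin 972 3 972)
(mv 976 (cons (fin 977 2 973)
(mv 1036 (cons (fin 975 2 972)
(mv 1100 (cons (fin 1099 1 1035)
(fin 1101 1 1036))))))))))
(cons (mv 1039 (cons (fin 972 3 972)
(mv 976 (cons (fin 977 2 973)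
(mv 1100 (cons (fin 1101 1 1036)
(mv 1104 (cons (fin 1105 0 1037)
(mv 1168 (cons (mv 975 (cons (fin 911 7 911)
(fin 1232 7 975)))
(cons (mv 1167 (cons (fin 1231 5 975)
(mv 912 (cons (fin 1103 5 911)
(mv 911 (cons (fin 847 7 847)
(mv 913 (cons (fin 849 6 848)
(mv 910 (cons (fin 974 1 909)
(mv 845 (cons (fin 846 3 845)
(mv 909 (cons (fin 844 3 844)
(fin 1102 4 845)))))))))))))))
(mv 975 (cons (fin 1232 7 975)
(mv 1167 (cons (fin 1231 5 975)
(mv 912 (cons (fin 1103 5 911)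
(mv 913 (cons (fin 974 2 909)
(fin 849 6 848))))))))))))))))))))
(mv 1039 (cons (fin 972 3 972)
(mv 976 (cons (fin 977 2 973)
(mv 1100 (cons (fin 1101 1 1036)
(mv 1036 (cons (fin 1099 1 1035)
(mv 1104 (cons (fin 1103 0 1036)
(fin 1105 0 1037)))))))))))))))
(mv 1038 (cons (cons (mv 1039 (cons (fin 972 3 972)
(mv 976 (cons (fin 977 2 973)
(mv 975 (cons (fin 1036 2 972)
(mv 1100 (cons (fin 1101 1 1036)
(mv 1104 (cons (fin 1105 0 1037)
(mv 911 (cons (fin 1168 7 911)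
(fin 847 4 847)))))))))))))
(cons (mv 1102 (cons (cons (mv 909 (cons (fin 845 4 845)
(mv 1166 (cons (fin 974 7 909)
(fin 1230 7 973)))))
(mv 1166 (cons (fin 1230 7 973)
(mv 974 (cons (cons (mv 911 (cons (fin 975 6 910)
(mv 910 (cons (fin 847 6 846)
(mv 846 (cons (fin 782 5 781)
(fin 1101 5 845)))))))
(mv 1165 (cons (fin 1229 5 973)
(mv 910 (cons (fin 1101 5 909)
(mv 846 (cons (fin 782 5 781)
(mv 847 (cons (fin 783 6 782)
(fin 911 6 846))))))))))
(cons (mv 1165 (cons (fin 1229 5 973)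
(mv 1101 (cons (fin 910 5 909)
(mv 908 (cons (fin 972 7 908)
(mv 1164 (cons (fin 1228 5 972)
(mv 1103 (cons (fin 1104 1 1100)
(fin 1163 2 1099)))))))))))
(mv 975 (cons (fin 911 6 910)
(mv 976 (cons (fin 1036 1 972)
(fin 977 1 973)))))))))))
(cons (mv 909 (cons (fin 845 4 845)
(mv 1101 (cons (cons (mv 844 (cons (fin 908 7 844)
(mv 846 (cons (fin 910 6 845)
(mv 1100 (cons (fin 1164 5 908)
(mv 1099 (cons (fin 1098 2 1034)
(mv 1035 (cons (fin 1034 3 1034)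
(mv 1036 (cons (fin 1103 3 1035)
(mv 970 (cons (fin 971 3 970)
(mv 974 (cons (fin 975 2 971)
(mv 1163 (cons (fin 1162 1 1098)
(mv 1227 (cons (fin 972 6 971)
(fin 1291 6 1035)))))))))))))))))))))
(cons (mv 844 (cons (fin 908 7 844)
(mv 1100 (cons (fin 1164 5 908)
(mv 1099 (cons (fin 1098 2 1034)
(mv 1035 (cons (fin 1034 3 1034)
(mv 1036 (cons (fin 1103 3 1035)
(mv 970 (cons (fin 971 3 970)
(mv 974 (cons (fin 975 2 971)
(mv 1163 (cons (fin 1162 1 1098)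
(mv 1227 (cons (fin 972 6 971)
(fin 1291 6 1035)))))))))))))))))))
(mv 844 (cons (fin 908 7 844)
(mv 910 (cons (fin 846 6 845)
(mv 974 (cons (fin 1165 5 909)
(mv 911 (cons (fin 847 6 846)
(mv 912 (cons (fin 972 1 908)
(fin 913 1 909)))))))))))))
(cons (mv 846 (cons (fin 910 6 845)
(mv 1100 (cons (fin 1164 5 908)
(mv 1099 (cons (fin 1098 2 1034)
(mv 1035 (cons (fin 1034 3 1034)
(mv 1036 (cons (fin 1103 3 1035)
(mv 970 (cons (fin 971 3 970)
(mv 974 (cons (fin 975 2 971)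
(mv 1163 (cons (fin 1162 1 1098)
(mv 1227 (cons (fin 972 6 971)
(fin 1291 6 1035)))))))))))))))))))
(cons (mv 844 (cons (fin 908 7 844)
(mv 846 (cons (fin 910 6 845)
(mv 1100 (cons (fin 1164 5 908)
(mv 1099 (cons (fin 1098 2 1034)
(mv 1035 (cons (fin 1034 3 1034)
(mv 1036 (cons (fin 1103 3 1035)
(mv 970 (cons (fin 971 3 970)
(mv 1163 (cons (fin 1162 1 1098)
(mv 1227 (cons (fin 972 6 971)
(fin 1291 6 1035)))))))))))))))))))
(mv 844 (cons (fin 908 7 844)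
(mv 846 (cons (fin 910 6 845)
(mv 1164 (cons (fin 1100 5 908)
(mv 1165 (cons (fin 1228 5 972)
(mv 1229 (cons (fin 974 6 973)
(fin 1293 6 1037)))))))))))))))))
(mv 909 (cons (fin 845 4 845)
(mv 1166 (cons (fin 1230 7 973)
(fin 1101 4 909))))))))
(mv 1039 (cons (cons (mv 976 (cons (fin 977 2 973)
(mv 975 (cons (fin 1036 2 972)
(mv 1100 (cons (fin 1101 1 1036)
(mv 1104 (cons (fin 1105 0 1037)
(mv 911 (cons (fin 1168 7 911)
(fin 847 4 847)))))))))))
(mv 976 (cons (fin 977 2 973)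
(mv 975 (cons (fin 1036 2 972)
(mv 1104 (cons (fin 1105 0 1037)
(mv 911 (cons (fin 1168 7 911)
(fin 847 4 847))))))))))
(cons (mv 976 (cons (fin 977 2 973)
(mv 1036 (cons (fin 975 2 972)
(mv 1100 (cons (fin 1099 1 1035)
(fin 1101 1 1036)))))))
(cons (mv 1100 (cons (fin 1101 1 1036)
(mv 1036 (cons (fin 1099 1 1035)
(mv 1104 (cons (fin 1103 0 1036)
(fin 1105 0 1037)))))))
(mv 976 (cons (fin 977 2 973)
(mv 1100 (cons (fin 1101 1 1036)
(mv 1104 (cons (fin 1105 0 1037)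
(mv 1168 (cons (mv 975 (cons (fin 911 7 911)
(fin 1232 7 975)))
(cons (mv 1233 (cons (fin 1169 4 976)
(mv 1232 (cons (fin 1297 4 1040)
(mv 1295 (cons (fin 1231 5 1039)
(mv 1296 (cons (fin 1103 7 1039)
(fin 1359 5 1103)))))))))
(mv 911 (cons (fin 975 7 911)
(mv 912 (cons (fin 847 7 847)
(mv 913 (cons (fin 849 6 848)
(mv 910 (cons (fin 974 1 909)
(mv 845 (cons (fin 846 3 845)
(mv 909 (cons (fin 844 3 844)
(fin 1102 4 845))))))))))))))))))))))))))))
(cons (cons (mv 1039 (cons (fin 972 3 972)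
(mv 976 (cons (fin 977 2 973)
(mv 975 (cons (fin 1036 2 972)
(mv 1104 (cons (fin 1105 0 1037)
(mv 911 (cons (fin 1168 7 911)
(fin 847 4 847)))))))))))
(mv 1039 (cons (fin 972 3 972)
(mv 1100 (cons (fin 1101 1 1036)
(mv 1036 (cons (fin 1099 1 1035)
(mv 1104 (cons (fin 1103 0 1036)
(fin 1105 0 1037))))))))))
(cons (mv 1039 (cons (fin 972 3 972)
(mv 976 (cons (fin 977 2 973)
(mv 1036 (cons (fin 975 2 972)
(mv 1100 (cons (fin 1099 1 1035)
(fin 1101 1 1036)))))))))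
(mv 1039 (cons (fin 972 3 972)
(mv 976 (cons (fin 977 2 973)
(mv 1100 (cons (fin 1101 1 1036)
(mv 1104 (cons (fin 1105 0 1037)
(mv 1168 (cons (mv 975 (cons (fin 911 7 911)
(fin 1232 7 975)))
(cons (mv 1233 (cons (fin 1169 4 976)
(mv 1232 (cons (fin 1297 4 1040)
(mv 1295 (cons (fin 1231 5 1039)
(mv 1296 (cons (fin 1103 7 1039)
(fin 1359 5 1103)))))))))
(mv 911 (cons (fin 975 7 911)
(mv 912 (cons (fin 847 7 847)
(mv 913 (cons (fin 849 6 848)
(mv 910 (cons (fin 974 1 909)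
(mv 845 (cons (fin 846 3 845)
(mv 909 (cons (fin 844 3 844)
(fin 1102 4 845))))))))))))))))))))))))))))))))))
def l110 : Lem := ⟨13254031944712882724506621310649321556018620670345837899455453023597314721787975009848330616026462815765143756135158089473467252075149308743152655366187148242124071246428482498451210046760672027239036899891323305324899173507745103325308665813954110541579506451753178596634830548552232523722901151470534797188661248, 145065402447996492978018108648145873194353464211268743744056397089914713731122078797282022233444955414746410561299537535217572132026833591414219548758009028688004960380226569973440563890520655380307006208943023701710138232473655166885475142573537856801591827154742314338744823926856840064152194489171680288835554674224407433198164394105600631203758685633171407618450267004449465089134279592057571665706317456647411105099688181760, 145065402447996492978018108648145873194353464211268743744056397089914713731122078797282022233444955414746410561299537535217572132026833591414219548758009028688004960380226569973440563890520655380307006208943023701710138232473655166885475142573537856801591827154742314338744823926856840064152194489171680288835554674224407433198164394105600631203758685633171407618450267004449465089134279592057571665706317456647411105099688181760,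 19, 33⟩
theorem l110_valid : l110.Valid :=
  Lem.valid_of_chk t110 t110_valid [1037, 1040] c110 l110 (by decide +kernel)
end Crest.Agent.SnakyAux
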