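import Crest.Agent.S0047_aux.Checker

set_option autoImplicit false
set_option maxRecDepth 100000
namespace Crest.Agent.SnakyAux
open Cert
def t111 : Tbl := Tbl.nil
theorem t111_valid : t111.Valid := Tbl.valid_nil
def c111 : Cert :=
(mv 1101 (cons (cons (cons (cons (mv 1038 (cons (cons (mv 1039 (cons (fin 1100 1 1036)
(mv 1104 (cons (fin 1105 0 1037)
(mv 1103 (cons (fin 1036 0 1036)
(mv 972 (cons (fin 973 3 972)
(mv 976 (cons (fin 977 2 973)
(mv 1167 (cons (fin 912 5 911)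
(fin 1231 6 975)))))))))))))
(cons (mv 974 (cons (cons (mv 1165 (cons (fin 1229 6 973)
(mv 910 (cons (fin 1102 5 909)
(fin 846 5 845)))))
(mv 910 (cons (fin 846 5 845)
(mv 1102 (cons (mv 1167 (cons (fin 1103 4 910)
(mv 1166 (cons (fin 1231 4 974)
(mv 1230 (cons (fin 1294 7 1037)
(fin 973 7 973)))))))
(cons (mv 909 (cons (fin 845 7 845)
(mv 1166 (cons (fin 973 7 909)
(mv 911 (cons (fin 975 6 910)
(fin 847 6 846)))))))
(mv 1103 (cons (fin 1167 4 910)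
(mv 1104 (cons (fin 1036 3 1036)
(fin 1105 3 1037)))))))))))
(cons (mv 1165 (cons (fin 1229 6 973)
(mv 973 (cons (cons (mv 1228 (cons (fin 1164 5 972)
(mv 1230 (cons (fin 1166 4 973)
(mv 972 (cons (fin 908 7 908)
(mv 971 (cons (fin 970 0 970)
(mv 1035 (cons (fin 1034 1 970)
(mv 1036 (cons (fin 975 1 971)
(mv 1098 (cons (fin 1099 1 1034)
(mv 1102 (cons (fin 1103 0 1035)
(mv 907 (cons (fin 906 3 906)
(mv 843 (cons (fin 1100 4 843)
(fin 779 4 779)))))))))))))))))))))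
(cons (mv 1228 (cons (fin 1164 5 972)
(mv 972 (cons (fin 908 7 908)
(mv 971 (cons (fin 970 0 970)
(mv 1035 (cons (fin 1034 1 970)
(mv 1036 (cons (fin 975 1 971)
(mv 1098 (cons (fin 1099 1 1034)
(mv 1102 (cons (fin 1103 0 1035)
(mv 907 (cons (fin 906 3 906)
(mv 843 (cons (fin 1100 4 843)
(fin 779 4 779)))))))))))))))))))
(mv 1228 (cons (fin 1164 5 972)
(mv 1166 (cons (fin 1230 4 973)
(mv 1102 (cons (fin 909 7 909)
(mv 1231 (cons (fin 1167 4 974)
(mv 975 (cons (fin 911 6 910)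
(mv 1036 (cons (fin 976 1 972)
(fin 1035 2 971)))))))))))))))
(cons (mv 1230 (cons (fin 1166 4 973)
(mv 972 (cons (fin 908 7 908)
(mv 971 (cons (fin 970 0 970)
(mv 1035 (cons (fin 1034 1 970)
(mv 1036 (cons (fin 975 1 971)
(mv 1098 (cons (fin 1099 1 1034)
(mv 1102 (cons (fin 1103 0 1035)
(mv 907 (cons (fin 906 3 906)
(mv 843 (cons (fin 1100 4 843)
(fin 779 4 779)))))))))))))))))))
(cons (mv 1228 (cons (fin 1164 5 972)
(mv 1230 (cons (fin 1166 4 973)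
(mv 972 (cons (fin 908 7 908)
(mv 971 (cons (fin 970 0 970)
(mv 1035 (cons (fin 1034 1 970)
(mv 1036 (cons (fin 975 1 971)
(mv 1098 (cons (fin 1099 1 1034)
(mv 907 (cons (fin 906 3 906)
(mv 843 (cons (fin 1100 4 843)
(fin 779 4 779)))))))))))))))))))
(mv 1228 (cons (fin 1164 5 972)
(mv 1230 (cons (fin 1166 4 973)
(mv 908 (cons (fin 972 7 908)
(mv 909 (cons (fin 844 7 844)
(mv 845 (cons (fin 1102 4 845)
(fin 781 4 781)))))))))))))))))
(mv 1165 (cons (fin 1229 6 973)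
(mv 910 (cons (fin 846 5 845)
(fin 973 6 909))))))))
(mv 1039 (cons (cons (mv 1104 (cons (fin 1105 0 1037)
(mv 1103 (cons (fin 1036 0 1036)
(mv 972 (cons (fin 973 3 972)
(mv 976 (cons (fin 977 2 973)
(mv 1167 (cons (fin 912 5 911)
(fin 1231 6 975)))))))))))
(mv 1104 (cons (fin 1105 0 1037)
(mv 1103 (cons (fin 1036 0 1036)
(mv 976 (cons (fin 977 2 973)
(mv 1167 (cons (fin 912 5 911)
(fin 1231 6 975))))))))))
(cons (mv 1104 (cons (fin 1105 0 1037)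
(mv 1036 (cons (fin 1103 0 1036)
(mv 972 (cons (fin 971 3 971)
(fin 973 3 972)))))))
(cons (mv 972 (cons (fin 973 3 972)
(mv 1036 (cons (fin 971 3 971)
(mv 976 (cons (fin 975 2 972)
(fin 977 2 973)))))))
(mv 1104 (cons (fin 1105 0 1037)
(mv 972 (cons (fin 973 3 972)
(mv 976 (cons (fin 977 2 973)
(mv 912 (cons (cons (mv 1103 (cons (fin 1167 5 911)
(fin 848 5 847)))
(mv 911 (cons (fin 847 7 847)
(mv 1168 (cons (fin 975 7 911)
(mv 1231 (cons (fin 1167 5 975)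
(mv 1233 (cons (fin 1169 4 976)
(mv 849 (cons (fin 913 6 848)
(mv 848 (cons (fin 785 6 784)
(mv 910 (cons (fin 909 2 845)
(mv 974 (cons (fin 846 5 845)
(mv 1165 (cons (fin 1102 5 909)
(fin 1229 6 973))))))))))))))))))))
(cons (mv 1167 (cons (fin 1103 5 911)
(mv 1168 (cons (fin 1231 5 975)
(mv 911 (cons (fin 975 7 911)
(fin 847 7 847)))))))
(mv 1103 (cons (fin 848 5 847)
(mv 911 (cons (fin 847 7 847)
(mv 1168 (cons (fin 975 7 911)
(mv 1169 (cons (fin 1102 0 1101)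
(fin 1233 4 976))))))))))))))))))))))))
(cons (cons (mv 1039 (cons (fin 1100 1 1036)
(mv 1104 (cons (fin 1105 0 1037)
(mv 1103 (cons (fin 1036 0 1036)
(mv 976 (cons (fin 977 2 973)
(mv 1167 (cons (fin 912 5 911)
(fin 1231 6 975)))))))))))
(mv 1039 (cons (fin 1100 1 1036)
(mv 972 (cons (fin 973 3 972)
(mv 1036 (cons (fin 971 3 971)
(mv 976 (cons (fin 975 2 972)
(fin 977 2 973))))))))))
(cons (mv 1039 (cons (fin 1100 1 1036)
(mv 1104 (cons (fin 1105 0 1037)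
(mv 1036 (cons (fin 1103 0 1036)
(mv 972 (cons (fin 971 3 971)
(fin 973 3 972)))))))))
(mv 1039 (cons (fin 1100 1 1036)
(mv 1104 (cons (fin 1105 0 1037)
(mv 972 (cons (fin 973 3 972)
(mv 976 (cons (fin 977 2 973)
(mv 912 (cons (cons (mv 1103 (cons (fin 1167 5 911)
(fin 848 5 847)))
(mv 911 (cons (fin 847 7 847)
(mv 1168 (cons (fin 975 7 911)
(mv 1231 (cons (fin 1167 5 975)
(mv 1233 (cons (fin 1169 4 976)
(mv 849 (cons (fin 913 6 848)
(mv 848 (cons (fin 785 6 784)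
(mv 910 (cons (fin 909 2 845)
(mv 974 (cons (fin 846 5 845)
(mv 1165 (cons (fin 1102 5 909)
(fin 1229 6 973))))))))))))))))))))
(cons (mv 1167 (cons (fin 1103 5 911)
(mv 1168 (cons (fin 1231 5 975)
(mv 911 (cons (fin 975 7 911)
(fin 847 7 847)))))))
(mv 1103 (cons (fin 848 5 847)
(mv 911 (cons (fin 847 7 847)
(mv 1168 (cons (fin 975 7 911)
(mv 1169 (cons (fin 1102 0 1101)
(fin 1233 4 976))))))))))))))))))))))))
(mv 973 (cons (cons (mv 909 (cons (cons (mv 1164 (cons (fin 1100 5 908)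
(mv 1228 (cons (fin 1165 5 972)
(mv 1166 (cons (fin 1102 4 909)
(mv 844 (cons (fin 908 7 844)
(mv 845 (cons (fin 780 7 780)
(mv 846 (cons (fin 910 6 845)
(fin 782 6 781)))))))))))))
(mv 1164 (cons (fin 1100 5 908)
(mv 1165 (cons (fin 1228 5 972)
(mv 1166 (cons (fin 1230 4 973)
(fin 1102 4 909))))))))
(cons (mv 1166 (cons (fin 1102 4 909)
(mv 1230 (cons (fin 1165 4 973)
(mv 844 (cons (fin 908 7 844)
(mv 845 (cons (fin 780 7 780)
(mv 846 (cons (fin 910 6 845)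
(fin 782 6 781)))))))))))
(cons (mv 1164 (cons (fin 1100 5 908)
(mv 1228 (cons (fin 1165 5 972)
(mv 844 (cons (fin 908 7 844)
(mv 845 (cons (fin 780 7 780)
(mv 846 (cons (fin 910 6 845)
(fin 782 6 781)))))))))))
(mv 1164 (cons (fin 1100 5 908)
(mv 1166 (cons (fin 1102 4 909)
(mv 844 (cons (fin 908 7 844)
(mv 845 (cons (fin 780 7 780)
(mv 846 (cons (fin 910 6 845)
(fin 782 6 781)))))))))))))))
(cons (mv 1165 (cons (cons (mv 1228 (cons (fin 1164 5 972)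
(mv 1292 (cons (fin 1229 5 1036)
(mv 1230 (cons (fin 1166 4 973)
(mv 972 (cons (fin 908 7 908)
(mv 974 (cons (fin 910 6 909)
(mv 975 (cons (fin 1039 0 972)
(mv 1036 (cons (fin 1035 1 971)
(fin 976 1 972)))))))))))))))
(mv 1228 (cons (fin 1164 5 972)
(mv 1229 (cons (fin 1292 5 1036)
(mv 1230 (cons (fin 1294 4 1037)
(fin 1166 4 973))))))))
(cons (mv 1230 (cons (fin 1166 4 973)
(mv 1294 (cons (fin 1229 4 1037)
(mv 972 (cons (fin 908 7 908)
(mv 974 (cons (fin 910 6 909)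
(mv 975 (cons (fin 1039 0 972)
(mv 1036 (cons (fin 1035 1 971)
(fin 976 1 972)))))))))))))
(cons (mv 1228 (cons (fin 1164 5 972)
(mv 1292 (cons (fin 1229 5 1036)
(mv 972 (cons (fin 908 7 908)
(mv 974 (cons (fin 910 6 909)
(mv 975 (cons (fin 1039 0 972)
(mv 1036 (cons (fin 1035 1 971)
(fin 976 1 972)))))))))))))
(mv 1228 (cons (fin 1164 5 972)
(mv 1230 (cons (fin 1166 4 973)
(mv 972 (cons (fin 908 7 908)
(mv 974 (cons (fin 910 6 909)
(mv 975 (cons (fin 1039 0 972)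
(mv 1036 (cons (fin 1035 1 971)
(fin 976 1 972)))))))))))))))))
(mv 909 (cons (cons (mv 1164 (cons (fin 1100 5 908)
(mv 1166 (cons (fin 1102 4 909)
(mv 844 (cons (fin 908 7 844)
(mv 845 (cons (fin 780 7 780)
(mv 846 (cons (fin 910 6 845)
(fin 782 6 781)))))))))))
(cons (mv 1166 (cons (fin 1102 4 909)
(mv 844 (cons (fin 908 7 844)
(mv 845 (cons (fin 780 7 780)
(mv 846 (cons (fin 910 6 845)
(fin 782 6 781)))))))))
(mv 1166 (cons (fin 1102 4 909)
(mv 1100 (cons (fin 1164 5 908)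
(mv 845 (cons (fin 1036 5 844)
(mv 846 (cons (fin 910 6 845)
(fin 782 6 781)))))))))))
(cons (mv 1166 (cons (fin 1102 4 909)
(mv 1100 (cons (fin 1164 5 908)
(mv 844 (cons (fin 908 7 844)
(mv 845 (cons (fin 1036 5 844)
(fin 780 7 780)))))))))
(cons (mv 1164 (cons (fin 1100 5 908)
(mv 844 (cons (fin 908 7 844)
(mv 845 (cons (fin 780 7 780)
(mv 846 (cons (fin 910 6 845)
(fin 782 6 781)))))))))
(mv 1100 (cons (fin 1164 5 908)
(mv 1102 (cons (fin 1166 4 909)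
(mv 1103 (cons (fin 1039 2 1036)
(mv 1036 (cons (fin 1035 3 1035)
(fin 1104 3 1036)))))))))))))))
(cons (cons (mv 1165 (cons (cons (mv 1228 (cons (fin 1164 5 972)
(mv 1292 (cons (fin 1229 5 1036)
(mv 1166 (cons (fin 1230 4 973)
(mv 909 (cons (fin 1102 4 909)
(mv 910 (cons (fin 974 6 909)
(fin 846 6 845)))))))))))
(cons (mv 1230 (cons (fin 1166 4 973)
(mv 1229 (cons (fin 1294 4 1037)
(mv 1292 (cons (fin 1228 5 1036)
(mv 1293 (cons (fin 1356 5 1100)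
(mv 1036 (cons (fin 1100 7 1036)
(fin 972 7 972)))))))))))
(mv 1228 (cons (fin 1164 5 972)
(mv 1229 (cons (fin 1292 5 1036)
(mv 1294 (cons (fin 1230 4 1037)
(mv 1293 (cons (fin 1358 4 1101)
(mv 1036 (cons (fin 1100 7 1036)
(fin 972 7 972)))))))))))))
(cons (mv 1230 (cons (fin 1166 4 973)
(mv 1229 (cons (fin 1294 4 1037)
(mv 1036 (cons (fin 972 7 972)
(mv 1100 (cons (fin 1293 7 1036)
(mv 909 (cons (fin 1164 5 908)
(fin 845 5 844)))))))))))
(cons (mv 1228 (cons (fin 1164 5 972)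
(mv 1229 (cons (fin 1292 5 1036)
(mv 1036 (cons (fin 972 7 972)
(mv 1100 (cons (fin 1293 7 1036)
(mv 974 (cons (fin 910 6 909)
(mv 1034 (cons (fin 1035 2 970)
(mv 975 (cons (fin 976 1 972)
(mv 909 (cons (fin 845 5 844)
(mv 1102 (cons (fin 1166 4 909)
(mv 1103 (cons (fin 1104 3 1036)
(fin 1039 2 1036)))))))))))))))))))))
(mv 1228 (cons (fin 1164 5 972)
(mv 1166 (cons (fin 1230 4 973)
(mv 909 (cons (fin 1102 4 909)
(mv 910 (cons (fin 974 6 909)
(fin 846 6 845)))))))))))))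
(mv 909 (cons (cons (mv 1166 (cons (fin 1102 4 909)
(mv 1230 (cons (fin 1165 4 973)
(mv 910 (cons (fin 846 6 845)
(mv 844 (cons (fin 908 7 844)
(mv 845 (cons (fin 780 7 780)
(mv 1036 (cons (fin 1100 5 844)
(mv 972 (cons (fin 781 5 780)
(mv 971 (cons (fin 970 2 906)
(mv 911 (cons (fin 912 1 908)
(fin 974 2 907)))))))))))))))))))
(cons (mv 1166 (cons (fin 1102 4 909)
(mv 1230 (cons (fin 1165 4 973)
(mv 846 (cons (fin 910 6 845)
(mv 845 (cons (fin 782 6 781)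
(mv 1036 (cons (fin 1100 5 844)
(mv 780 (cons (fin 844 7 780)
(mv 781 (cons (fin 972 5 780)
(fin 716 7 716)))))))))))))))
(mv 1166 (cons (fin 1102 4 909)
(mv 1230 (cons (fin 1165 4 973)
(mv 844 (cons (fin 908 7 844)
(mv 845 (cons (fin 780 7 780)
(mv 1036 (cons (fin 1100 5 844)
(mv 781 (cons (fin 972 5 780)
(mv 782 (cons (fin 846 6 781)
(fin 718 6 717)))))))))))))))))
(cons (cons (mv 1166 (cons (fin 1102 4 909)
(mv 1165 (cons (fin 1230 4 973)
(mv 910 (cons (fin 974 6 909)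
(fin 846 6 845)))))))
(mv 1166 (cons (fin 1102 4 909)
(mv 1165 (cons (fin 1230 4 973)
(mv 908 (cons (fin 972 7 908)
(fin 844 7 844))))))))
(cons (mv 908 (cons (fin 844 7 844)
(mv 1165 (cons (fin 972 7 908)
(mv 910 (cons (fin 974 6 909)
(fin 846 6 845)))))))
(mv 1166 (cons (fin 1102 4 909)
(mv 910 (cons (fin 846 6 845)
(mv 844 (cons (fin 908 7 844)
(mv 845 (cons (fin 780 7 780)
(mv 1036 (cons (fin 1100 5 844)
(mv 972 (cons (fin 781 5 780)
(mv 971 (cons (fin 970 2 906)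
(mv 911 (cons (fin 912 1 908)
(fin 974 2 907))))))))))))))))))))))
(cons (mv 1165 (cons (cons (mv 1228 (cons (fin 1164 5 972)
(mv 1292 (cons (fin 1229 5 1036)
(mv 1166 (cons (fin 1230 4 973)
(mv 908 (cons (fin 972 7 908)
(mv 909 (cons (fin 844 7 844)
(fin 1102 4 909)))))))))))
(mv 1230 (cons (fin 1166 4 973)
(mv 1229 (cons (fin 1294 4 1037)
(mv 972 (cons (fin 1036 7 972)
(fin 908 7 908))))))))
(cons (mv 1228 (cons (fin 1164 5 972)
(mv 1229 (cons (fin 1292 5 1036)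
(mv 972 (cons (fin 1036 7 972)
(fin 908 7 908)))))))
(cons (mv 1228 (cons (fin 1164 5 972)
(mv 1229 (cons (fin 1292 5 1036)
(mv 1230 (cons (fin 1294 4 1037)
(fin 1166 4 973)))))))
(mv 1228 (cons (fin 1164 5 972)
(mv 1166 (cons (fin 1230 4 973)
(mv 908 (cons (fin 972 7 908)
(mv 909 (cons (fin 844 7 844)
(fin 1102 4 909)))))))))))))
(mv 909 (cons (cons (mv 1164 (cons (fin 1100 5 908)
(mv 1228 (cons (fin 1165 5 972)
(mv 844 (cons (fin 908 7 844)
(mv 845 (cons (fin 780 7 780)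
(mv 846 (cons (fin 910 6 845)
(fin 782 6 781)))))))))))
(mv 1164 (cons (fin 1100 5 908)
(mv 1165 (cons (fin 1228 5 972)
(mv 910 (cons (fin 974 6 909)
(fin 846 6 845))))))))
(cons (mv 1164 (cons (fin 1100 5 908)
(mv 1165 (cons (fin 1228 5 972)
(mv 908 (cons (fin 972 7 908)
(fin 844 7 844)))))))
(cons (mv 908 (cons (fin 844 7 844)
(mv 1165 (cons (fin 972 7 908)
(mv 910 (cons (fin 974 6 909)
(fin 846 6 845)))))))
(mv 1164 (cons (fin 1100 5 908)
(mv 844 (cons (fin 908 7 844)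
(mv 845 (cons (fin 780 7 780)
(mv 846 (cons (fin 910 6 845)
(fin 782 6 781))))))))))))))))))
(cons (mv 973 (cons (cons (cons (mv 1165 (cons (cons (cons (mv 1228 (cons (fin 1164 5 972)
(mv 1292 (cons (fin 1229 5 1036)
(mv 1230 (cons (fin 1166 4 973)
(mv 972 (cons (fin 908 7 908)
(mv 1038 (cons (fin 1039 3 972)
(mv 970 (cons (fin 971 0 970)
(mv 910 (cons (fin 974 6 909)
(mv 909 (cons (fin 846 6 845)
(mv 911 (cons (fin 912 1 908)
(mv 845 (cons (fin 1102 4 845)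
(mv 780 (cons (fin 844 7 780)
(mv 781 (cons (fin 1036 5 780)
(fin 716 7 716)))))))))))))))))))))))))
(mv 1228 (cons (fin 1164 5 972)
(mv 1292 (cons (fin 1229 5 1036)
(mv 1166 (cons (fin 1230 4 973)
(mv 974 (cons (fin 910 6 909)
(mv 909 (cons (fin 1102 4 909)
(mv 844 (cons (fin 908 7 844)
(mv 845 (cons (fin 780 7 780)
(mv 781 (cons (fin 1038 4 781)
(mv 782 (cons (fin 846 6 781)
(fin 718 6 717))))))))))))))))))))
(cons (mv 1228 (cons (fin 1164 5 972)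
(mv 1292 (cons (fin 1229 5 1036)
(mv 1166 (cons (fin 1230 4 973)
(mv 972 (cons (fin 908 7 908)
(mv 1038 (cons (fin 1039 3 972)
(mv 970 (cons (fin 971 0 970)
(mv 909 (cons (fin 1102 4 909)
(mv 846 (cons (fin 910 6 845)
(mv 845 (cons (fin 782 6 781)
(mv 780 (cons (fin 844 7 780)
(mv 781 (cons (fin 1036 5 780)
(fin 716 7 716)))))))))))))))))))))))
(mv 1228 (cons (fin 1164 5 972)
(mv 1292 (cons (fin 1229 5 1036)
(mv 972 (cons (fin 908 7 908)
(mv 1038 (cons (fin 1039 3 972)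
(mv 970 (cons (fin 971 0 970)
(mv 910 (cons (fin 974 6 909)
(mv 909 (cons (fin 846 6 845)
(mv 911 (cons (fin 912 1 908)
(mv 845 (cons (fin 1102 4 845)
(mv 780 (cons (fin 844 7 780)
(mv 781 (cons (fin 1036 5 780)
(fin 716 7 716)))))))))))))))))))))))))
(cons (cons (mv 1228 (cons (fin 1164 5 972)
(mv 1292 (cons (fin 1229 5 1036)
(mv 1166 (cons (fin 1230 4 973)
(mv 1102 (cons (fin 909 4 909)
(mv 972 (cons (fin 908 7 908)
(mv 1039 (cons (fin 1038 3 972)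
(mv 975 (cons (fin 974 0 972)
(mv 1103 (cons (fin 911 5 910)
(mv 1104 (cons (fin 1105 1 1101)
(fin 1036 3 1036)))))))))))))))))))
(mv 1228 (cons (fin 1164 5 972)
(mv 1292 (cons (fin 1229 5 1036)
(mv 1166 (cons (fin 1230 4 973)
(mv 909 (cons (fin 1102 4 909)
(mv 910 (cons (fin 974 6 909)
(fin 846 6 845))))))))))))
(cons (mv 1230 (cons (fin 1166 4 973)
(mv 1294 (cons (fin 1229 4 1037)
(mv 972 (cons (fin 908 7 908)
(mv 1038 (cons (fin 1039 3 972)
(mv 970 (cons (fin 971 0 970)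
(mv 910 (cons (fin 974 6 909)
(mv 909 (cons (fin 846 6 845)
(mv 911 (cons (fin 912 1 908)
(mv 845 (cons (fin 1102 4 845)
(mv 780 (cons (fin 844 7 780)
(mv 781 (cons (fin 1036 5 780)
(fin 716 7 716)))))))))))))))))))))))
(cons (mv 1228 (cons (fin 1164 5 972)
(mv 1230 (cons (fin 1166 4 973)
(mv 972 (cons (fin 908 7 908)
(mv 1038 (cons (fin 1039 3 972)
(mv 970 (cons (fin 971 0 970)
(mv 910 (cons (fin 974 6 909)
(mv 909 (cons (fin 846 6 845)
(mv 911 (cons (fin 912 1 908)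
(mv 845 (cons (fin 1102 4 845)
(mv 780 (cons (fin 844 7 780)
(mv 781 (cons (fin 1036 5 780)
(fin 716 7 716)))))))))))))))))))))))
(mv 1228 (cons (fin 1164 5 972)
(mv 1292 (cons (fin 1229 5 1036)
(mv 1230 (cons (fin 1166 4 973)
(mv 972 (cons (fin 908 7 908)
(mv 1038 (cons (fin 1039 3 972)
(mv 971 (cons (fin 970 0 970)
(mv 974 (cons (fin 910 6 909)
(mv 1035 (cons (fin 1034 1 970)
(mv 975 (cons (fin 1036 1 971)
(mv 976 (cons (fin 977 1 973)
(mv 912 (cons (fin 911 2 908)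
(fin 913 2 909))))))))))))))))))))))))))))
(mv 909 (cons (cons (mv 1166 (cons (fin 1102 4 909)
(mv 844 (cons (fin 908 7 844)
(mv 845 (cons (fin 780 7 780)
(mv 846 (cons (fin 910 6 845)
(fin 782 6 781)))))))))
(mv 844 (cons (fin 908 7 844)
(mv 845 (cons (fin 780 7 780)
(mv 846 (cons (fin 910 6 845)
(fin 782 6 781))))))))
(cons (mv 1102 (cons (fin 1166 4 909)
(mv 1038 (cons (fin 845 4 845)
(mv 1039 (cons (fin 972 3 972)
(mv 1104 (cons (fin 1105 0 1037)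
(mv 1103 (cons (fin 1036 3 1036)
(mv 1168 (cons (fin 1169 0 1101)
(mv 975 (cons (fin 911 4 911)
(mv 976 (cons (fin 977 2 973)
(mv 1167 (cons (fin 1231 5 975)
(fin 912 5 911)))))))))))))))))))
(mv 1166 (cons (fin 1102 4 909)
(mv 908 (cons (fin 844 7 844)
(mv 910 (cons (fin 846 6 845)
(mv 972 (cons (mv 971 (cons (fin 911 1 907)
(fin 970 2 906)))
(cons (mv 1038 (cons (fin 1039 3 972)
(mv 911 (cons (fin 912 1 908)
(mv 975 (cons (fin 976 0 908)
(mv 974 (cons (fin 907 3 907)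
(mv 847 (cons (fin 848 2 844)
(fin 783 5 782)))))))))))
(mv 1039 (cons (fin 1038 3 972)
(mv 971 (cons (fin 970 2 906)
(mv 974 (cons (fin 975 0 972)
(mv 1034 (cons (fin 1035 1 970)
(mv 907 (cons (fin 906 3 906)
(mv 843 (cons (fin 842 3 842)
(mv 779 (cons (fin 1036 4 779)
(fin 715 4 715))))))))))))))))))))))))))))
(cons (mv 1165 (cons (cons (mv 1228 (cons (fin 1164 5 972)
(mv 1292 (cons (fin 1229 5 1036)
(mv 1230 (cons (fin 1166 4 973)
(mv 972 (cons (fin 908 7 908)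
(mv 1038 (cons (fin 1039 3 972)
(mv 971 (cons (fin 970 0 970)
(mv 974 (cons (fin 910 6 909)
(mv 1035 (cons (fin 1034 1 970)
(mv 975 (cons (fin 1036 1 971)
(mv 976 (cons (fin 977 1 973)
(mv 912 (cons (fin 911 2 908)
(fin 913 2 909)))))))))))))))))))))))
(cons (mv 1228 (cons (fin 1164 5 972)
(mv 1229 (cons (fin 1292 5 1036)
(mv 1230 (cons (fin 1294 4 1037)
(fin 1166 4 973)))))))
(mv 1228 (cons (fin 1164 5 972)
(mv 1292 (cons (fin 1229 5 1036)
(mv 972 (cons (fin 908 7 908)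
(mv 1038 (cons (fin 1039 3 972)
(mv 971 (cons (fin 970 0 970)
(mv 974 (cons (fin 910 6 909)
(mv 1035 (cons (fin 1034 1 970)
(mv 975 (cons (fin 1036 1 971)
(mv 976 (cons (fin 977 1 973)
(mv 912 (cons (fin 911 2 908)
(fin 913 2 909)))))))))))))))))))))))
(cons (mv 1230 (cons (fin 1166 4 973)
(mv 1294 (cons (fin 1229 4 1037)
(mv 972 (cons (fin 908 7 908)
(mv 1038 (cons (fin 1039 3 972)
(mv 971 (cons (fin 970 0 970)
(mv 974 (cons (fin 910 6 909)
(mv 1035 (cons (fin 1034 1 970)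
(mv 1036 (cons (fin 975 1 971)
(mv 1099 (cons (fin 1098 1 1034)
(mv 1163 (cons (fin 1227 6 971)
(mv 1162 (cons (fin 1226 5 970)
(mv 1102 (cons (fin 1103 0 1035)
(fin 1164 2 1098)))))))))))))))))))))))))
(cons (mv 1230 (cons (fin 1166 4 973)
(mv 1294 (cons (fin 1229 4 1037)
(mv 972 (cons (fin 908 7 908)
(mv 1038 (cons (fin 1039 3 972)
(mv 971 (cons (fin 970 0 970)
(mv 974 (cons (fin 910 6 909)
(mv 1035 (cons (fin 1034 1 970)
(mv 975 (cons (fin 1036 1 971)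
(mv 976 (cons (fin 977 1 973)
(mv 912 (cons (fin 911 2 908)
(fin 913 2 909)))))))))))))))))))))
(mv 1228 (cons (fin 1164 5 972)
(mv 1230 (cons (fin 1166 4 973)
(mv 972 (cons (fin 908 7 908)
(mv 1038 (cons (fin 1039 3 972)
(mv 971 (cons (fin 970 0 970)
(mv 974 (cons (fin 910 6 909)
(mv 1035 (cons (fin 1034 1 970)
(mv 975 (cons (fin 1036 1 971)
(mv 976 (cons (fin 977 1 973)
(mv 912 (cons (fin 911 2 908)
(fin 913 2 909)))))))))))))))))))))))))
(cons (mv 909 (cons (cons (mv 1166 (cons (fin 1102 4 909)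
(mv 1230 (cons (fin 1165 4 973)
(mv 844 (cons (fin 908 7 844)
(mv 845 (cons (fin 780 7 780)
(mv 846 (cons (fin 910 6 845)
(fin 782 6 781)))))))))))
(mv 908 (cons (fin 844 7 844)
(mv 910 (cons (fin 846 6 845)
(mv 1165 (cons (fin 974 6 909)
(mv 1228 (cons (fin 1164 5 972)
(mv 1229 (cons (fin 1292 5 1036)
(mv 1230 (cons (fin 1294 4 1037)
(fin 1166 4 973))))))))))))))
(cons (mv 1102 (cons (fin 1166 4 909)
(mv 844 (cons (fin 908 7 844)
(mv 845 (cons (fin 780 7 780)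
(fin 1038 4 845)))))))
(cons (mv 908 (cons (fin 844 7 844)
(mv 910 (cons (fin 846 6 845)
(mv 974 (cons (fin 1165 6 909)
(mv 975 (cons (fin 976 3 908)
(fin 907 0 907)))))))))
(mv 1166 (cons (fin 1102 4 909)
(mv 1165 (cons (fin 1230 4 973)
(mv 910 (cons (fin 974 6 909)
(fin 846 6 845)))))))))))
(mv 1165 (cons (cons (mv 1228 (cons (fin 1164 5 972)
(mv 1292 (cons (fin 1229 5 1036)
(mv 1166 (cons (fin 1230 4 973)
(mv 1102 (cons (fin 909 4 909)
(mv 972 (cons (fin 908 7 908)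
(mv 1039 (cons (fin 1038 3 972)
(mv 975 (cons (fin 974 0 972)
(mv 1103 (cons (fin 911 5 910)
(mv 1104 (cons (fin 1105 1 1101)
(fin 1036 3 1036)))))))))))))))))))
(mv 1228 (cons (fin 1164 5 972)
(mv 1229 (cons (fin 1292 5 1036)
(mv 1230 (cons (fin 1294 4 1037)
(fin 1166 4 973))))))))
(cons (mv 1228 (cons (fin 1164 5 972)
(mv 1229 (cons (fin 1292 5 1036)
(mv 972 (cons (fin 1036 7 972)
(fin 908 7 908)))))))
(cons (mv 1230 (cons (fin 1166 4 973)
(mv 1229 (cons (fin 1294 4 1037)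
(mv 972 (cons (fin 1036 7 972)
(fin 908 7 908)))))))
(mv 1228 (cons (fin 1164 5 972)
(mv 1166 (cons (fin 1230 4 973)
(mv 1102 (cons (fin 909 4 909)
(mv 972 (cons (fin 908 7 908)
(mv 1039 (cons (fin 1038 3 972)
(mv 975 (cons (fin 974 0 972)
(mv 1103 (cons (fin 911 5 910)
(mv 1104 (cons (fin 1105 1 1101)
(fin 1036 3 1036))))))))))))))))))))))))
(cons (cons (mv 1165 (cons (cons (mv 1228 (cons (fin 1164 5 972)
(mv 1292 (cons (fin 1229 5 1036)
(mv 1166 (cons (fin 1230 4 973)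
(mv 909 (cons (fin 1102 4 909)
(mv 910 (cons (fin 974 6 909)
(fin 846 6 845)))))))))))
(mv 1228 (cons (fin 1164 5 972)
(mv 1229 (cons (fin 1292 5 1036)
(mv 1230 (cons (fin 1294 4 1037)
(fin 1166 4 973))))))))
(cons (mv 1228 (cons (fin 1164 5 972)
(mv 1229 (cons (fin 1292 5 1036)
(mv 974 (cons (fin 1038 6 973)
(fin 910 6 909)))))))
(cons (mv 1230 (cons (fin 1166 4 973)
(mv 1229 (cons (fin 1294 4 1037)
(mv 974 (cons (fin 1038 6 973)
(fin 910 6 909)))))))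
(mv 1228 (cons (fin 1164 5 972)
(mv 1166 (cons (fin 1230 4 973)
(mv 909 (cons (fin 1102 4 909)
(mv 910 (cons (fin 974 6 909)
(fin 846 6 845)))))))))))))
(mv 1165 (cons (cons (mv 1228 (cons (fin 1164 5 972)
(mv 1292 (cons (fin 1229 5 1036)
(mv 972 (cons (fin 908 7 908)
(mv 1038 (cons (fin 1039 3 972)
(mv 970 (cons (fin 971 0 970)
(mv 910 (cons (fin 974 6 909)
(mv 909 (cons (fin 846 6 845)
(mv 911 (cons (fin 912 1 908)
(mv 845 (cons (fin 1102 4 845)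
(mv 780 (cons (fin 844 7 780)
(mv 781 (cons (fin 1036 5 780)
(fin 716 7 716)))))))))))))))))))))))
(mv 1228 (cons (fin 1164 5 972)
(mv 1229 (cons (fin 1292 5 1036)
(mv 974 (cons (fin 1038 6 973)
(fin 910 6 909))))))))
(cons (mv 1228 (cons (fin 1164 5 972)
(mv 1229 (cons (fin 1292 5 1036)
(mv 972 (cons (fin 1036 7 972)
(fin 908 7 908)))))))
(cons (mv 972 (cons (fin 908 7 908)
(mv 1229 (cons (fin 1036 7 972)
(mv 1038 (cons (fin 1039 3 972)
(fin 974 6 973)))))))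
(mv 1228 (cons (fin 1164 5 972)
(mv 972 (cons (fin 908 7 908)
(mv 1038 (cons (fin 1039 3 972)
(mv 970 (cons (fin 971 0 970)
(mv 910 (cons (fin 974 6 909)
(mv 909 (cons (fin 846 6 845)
(mv 911 (cons (fin 912 1 908)
(mv 845 (cons (fin 1102 4 845)
(mv 780 (cons (fin 844 7 780)
(mv 781 (cons (fin 1036 5 780)
(fin 716 7 716))))))))))))))))))))))))))
(cons (mv 1165 (cons (cons (mv 1228 (cons (fin 1164 5 972)
(mv 1292 (cons (fin 1229 5 1036)
(mv 1230 (cons (fin 1166 4 973)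
(mv 972 (cons (fin 908 7 908)
(mv 974 (cons (fin 910 6 909)
(mv 975 (cons (fin 1039 0 972)
(mv 1036 (cons (fin 1035 1 971)
(fin 976 1 972)))))))))))))))
(cons (mv 1228 (cons (fin 1164 5 972)
(mv 1292 (cons (fin 1229 5 1036)
(mv 1166 (cons (fin 1230 4 973)
(mv 909 (cons (fin 1102 4 909)
(mv 910 (cons (fin 974 6 909)
(fin 846 6 845)))))))))))
(mv 1228 (cons (fin 1164 5 972)
(mv 1292 (cons (fin 1229 5 1036)
(mv 972 (cons (fin 908 7 908)
(mv 974 (cons (fin 910 6 909)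
(mv 975 (cons (fin 1039 0 972)
(mv 1036 (cons (fin 1035 1 971)
(fin 976 1 972)))))))))))))))
(cons (mv 1230 (cons (fin 1166 4 973)
(mv 1294 (cons (fin 1229 4 1037)
(mv 972 (cons (fin 908 7 908)
(mv 974 (cons (fin 910 6 909)
(mv 975 (cons (fin 1039 0 972)
(mv 1036 (cons (fin 1035 1 971)
(fin 976 1 972)))))))))))))
(cons (mv 1228 (cons (fin 1164 5 972)
(mv 1292 (cons (fin 1229 5 1036)
(mv 1166 (cons (fin 1230 4 973)
(mv 908 (cons (fin 972 7 908)
(mv 909 (cons (fin 844 7 844)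
(fin 1102 4 909)))))))))))
(mv 1228 (cons (fin 1164 5 972)
(mv 1230 (cons (fin 1166 4 973)
(mv 972 (cons (fin 908 7 908)
(mv 974 (cons (fin 910 6 909)
(mv 975 (cons (fin 1039 0 972)
(mv 1036 (cons (fin 1035 1 971)
(fin 976 1 972)))))))))))))))))
(cons (mv 909 (cons (cons (mv 1166 (cons (fin 1102 4 909)
(mv 1230 (cons (fin 1165 4 973)
(mv 844 (cons (fin 908 7 844)
(mv 845 (cons (fin 780 7 780)
(mv 846 (cons (fin 910 6 845)
(fin 782 6 781)))))))))))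
(mv 908 (cons (fin 844 7 844)
(mv 1165 (cons (fin 972 7 908)
(mv 1228 (cons (fin 1164 5 972)
(mv 1229 (cons (fin 1292 5 1036)
(mv 1230 (cons (fin 1294 4 1037)
(fin 1166 4 973))))))))))))
(cons (mv 1102 (cons (fin 1166 4 909)
(mv 1038 (cons (fin 845 4 845)
(mv 1039 (cons (fin 972 3 972)
(mv 1104 (cons (fin 1105 0 1037)
(mv 1103 (cons (fin 1036 3 1036)
(mv 1164 (cons (fin 1165 1 1100)
(mv 1168 (cons (fin 1169 0 1101)
(mv 975 (cons (fin 911 4 911)
(mv 976 (cons (fin 977 2 973)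
(mv 1167 (cons (fin 1231 5 975)
(fin 912 5 911)))))))))))))))))))))
(cons (mv 908 (cons (fin 844 7 844)
(mv 972 (cons (fin 1165 7 908)
(mv 1038 (cons (fin 1039 3 972)
(mv 1102 (cons (fin 845 4 845)
(mv 971 (cons (fin 970 0 970)
(mv 910 (cons (fin 911 1 907)
(fin 846 6 845)))))))))))))
(mv 1166 (cons (fin 1102 4 909)
(mv 844 (cons (fin 908 7 844)
(mv 845 (cons (fin 780 7 780)
(mv 846 (cons (fin 910 6 845)
(fin 782 6 781)))))))))))))
(mv 1165 (cons (cons (mv 1228 (cons (fin 1164 5 972)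
(mv 1292 (cons (fin 1229 5 1036)
(mv 1230 (cons (fin 1166 4 973)
(mv 972 (cons (fin 908 7 908)
(mv 1038 (cons (fin 1039 3 972)
(mv 971 (cons (fin 970 0 970)
(mv 974 (cons (fin 910 6 909)
(mv 1035 (cons (fin 1034 1 970)
(mv 975 (cons (fin 1036 1 971)
(mv 976 (cons (fin 977 1 973)
(mv 912 (cons (fin 911 2 908)
(fin 913 2 909)))))))))))))))))))))))
(mv 1228 (cons (fin 1164 5 972)
(mv 1229 (cons (fin 1292 5 1036)
(mv 1230 (cons (fin 1294 4 1037)
(fin 1166 4 973))))))))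
(cons (mv 1230 (cons (fin 1166 4 973)
(mv 1294 (cons (fin 1229 4 1037)
(mv 972 (cons (fin 908 7 908)
(mv 1038 (cons (fin 1039 3 972)
(mv 971 (cons (fin 970 0 970)
(mv 974 (cons (fin 910 6 909)
(mv 1035 (cons (fin 1034 1 970)
(mv 975 (cons (fin 1036 1 971)
(mv 976 (cons (fin 977 1 973)
(mv 912 (cons (fin 911 2 908)
(fin 913 2 909)))))))))))))))))))))
(cons (mv 1228 (cons (fin 1164 5 972)
(mv 1292 (cons (fin 1229 5 1036)
(mv 972 (cons (fin 908 7 908)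
(mv 1038 (cons (fin 1039 3 972)
(mv 971 (cons (fin 970 0 970)
(mv 974 (cons (fin 910 6 909)
(mv 1035 (cons (fin 1034 1 970)
(mv 975 (cons (fin 1036 1 971)
(mv 976 (cons (fin 977 1 973)
(mv 912 (cons (fin 911 2 908)
(fin 913 2 909)))))))))))))))))))))
(mv 1228 (cons (fin 1164 5 972)
(mv 1230 (cons (fin 1166 4 973)
(mv 972 (cons (fin 908 7 908)
(mv 1038 (cons (fin 1039 3 972)
(mv 971 (cons (fin 970 0 970)
(mv 974 (cons (fin 910 6 909)
(mv 1035 (cons (fin 1034 1 970)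
(mv 975 (cons (fin 1036 1 971)
(mv 976 (cons (fin 977 1 973)
(mv 912 (cons (fin 911 2 908)
(fin 913 2 909))))))))))))))))))))))))))))))
(cons (mv 1165 (cons (cons (cons (mv 1229 (cons (cons (cons (mv 1292 (cons (fin 1228 5 1036)
(mv 1356 (cons (fin 1293 5 1100)
(mv 1294 (cons (fin 1230 4 1037)
(mv 972 (cons (fin 1036 7 972)
(mv 973 (cons (fin 908 7 908)
(mv 974 (cons (fin 1038 6 973)
(fin 910 6 909)))))))))))))
(mv 1294 (cons (fin 1230 4 1037)
(mv 1358 (cons (fin 1293 4 1101)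
(mv 972 (cons (fin 1036 7 972)
(mv 973 (cons (fin 908 7 908)
(mv 974 (cons (fin 1038 6 973)
(fin 910 6 909))))))))))))
(cons (mv 1292 (cons (fin 1228 5 1036)
(mv 1356 (cons (fin 1293 5 1100)
(mv 1230 (cons (fin 1294 4 1037)
(mv 1038 (cons (fin 974 6 973)
(mv 973 (cons (fin 1166 4 973)
(mv 908 (cons (fin 972 7 908)
(mv 909 (cons (fin 844 7 844)
(mv 1164 (cons (fin 1100 5 908)
(mv 1162 (cons (fin 1163 0 1162)
(mv 845 (cons (fin 1102 4 845)
(mv 846 (cons (fin 910 6 845)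
(fin 782 6 781)))))))))))))))))))))))
(mv 1292 (cons (fin 1228 5 1036)
(mv 1356 (cons (fin 1293 5 1100)
(mv 972 (cons (fin 1036 7 972)
(mv 973 (cons (fin 908 7 908)
(mv 974 (cons (fin 1038 6 973)
(fin 910 6 909)))))))))))))
(cons (cons (mv 1292 (cons (fin 1228 5 1036)
(mv 1356 (cons (fin 1293 5 1100)
(mv 1230 (cons (fin 1294 4 1037)
(mv 1036 (cons (fin 972 7 972)
(mv 973 (cons (fin 1166 4 973)
(mv 910 (cons (fin 974 6 909)
(mv 909 (cons (fin 846 6 845)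
(mv 1100 (cons (fin 1164 5 908)
(fin 845 5 844)))))))))))))))))
(mv 1292 (cons (fin 1228 5 1036)
(mv 1356 (cons (fin 1293 5 1100)
(mv 1230 (cons (fin 1294 4 1037)
(mv 972 (cons (fin 1036 7 972)
(mv 973 (cons (fin 908 7 908)
(fin 1166 4 973))))))))))))
(cons (mv 1292 (cons (fin 1228 5 1036)
(mv 1356 (cons (fin 1293 5 1100)
(mv 1230 (cons (fin 1294 4 1037)
(mv 973 (cons (fin 1166 4 973)
(mv 974 (cons (fin 1038 6 973)
(fin 910 6 909)))))))))))
(cons (mv 1292 (cons (fin 1228 5 1036)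
(mv 1294 (cons (fin 1230 4 1037)
(mv 972 (cons (fin 1036 7 972)
(mv 973 (cons (fin 908 7 908)
(mv 974 (cons (fin 1038 6 973)
(fin 910 6 909)))))))))))
(mv 1292 (cons (fin 1228 5 1036)
(mv 1293 (cons (fin 1356 5 1100)
(mv 1294 (cons (fin 1358 4 1101)
(fin 1230 4 1037))))))))))))
(mv 973 (cons (cons (mv 1228 (cons (fin 1164 5 972)
(mv 1230 (cons (fin 1166 4 973)
(mv 908 (cons (fin 972 7 908)
(mv 909 (cons (fin 844 7 844)
(mv 910 (cons (fin 974 6 909)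
(fin 846 6 845)))))))))))
(cons (mv 1230 (cons (fin 1166 4 973)
(mv 908 (cons (fin 972 7 908)
(mv 909 (cons (fin 844 7 844)
(mv 910 (cons (fin 974 6 909)
(fin 846 6 845)))))))))
(mv 1228 (cons (fin 1164 5 972)
(mv 908 (cons (fin 972 7 908)
(mv 909 (cons (fin 844 7 844)
(mv 910 (cons (fin 974 6 909)
(fin 846 6 845)))))))))))
(cons (mv 1228 (cons (fin 1164 5 972)
(mv 1166 (cons (fin 1230 4 973)
(mv 909 (cons (fin 1102 4 909)
(mv 910 (cons (fin 974 6 909)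
(fin 846 6 845)))))))))
(cons (mv 1228 (cons (fin 1164 5 972)
(mv 1166 (cons (fin 1230 4 973)
(mv 908 (cons (fin 972 7 908)
(mv 909 (cons (fin 844 7 844)
(fin 1102 4 909)))))))))
(mv 1228 (cons (fin 1164 5 972)
(mv 1230 (cons (fin 1166 4 973)
(mv 972 (cons (fin 908 7 908)
(mv 974 (cons (fin 910 6 909)
(mv 971 (cons (mv 1034 (cons (fin 1035 1 970)
(mv 970 (cons (fin 1033 1 969)
(fin 1038 0 970)))))
(cons (mv 1035 (cons (fin 1034 1 970)
(mv 1036 (cons (fin 975 1 971)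
(mv 907 (cons (fin 906 3 906)
(mv 843 (cons (fin 1100 4 843)
(fin 779 4 779)))))))))
(mv 970 (cons (fin 1038 0 970)
(mv 906 (cons (fin 905 3 905)
(fin 907 3 906)))))))))))))))))))))
(cons (mv 1229 (cons (cons (mv 1292 (cons (fin 1228 5 1036)
(mv 1293 (cons (fin 1356 5 1100)
(mv 1294 (cons (fin 1358 4 1101)
(fin 1230 4 1037)))))))
(mv 1292 (cons (fin 1228 5 1036)
(mv 1293 (cons (fin 1356 5 1100)
(mv 1036 (cons (fin 1100 7 1036)
(fin 972 7 972))))))))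
(cons (mv 1294 (cons (fin 1230 4 1037)
(mv 1293 (cons (fin 1358 4 1101)
(mv 1036 (cons (fin 1100 7 1036)
(fin 972 7 972)))))))
(mv 1294 (cons (fin 1230 4 1037)
(mv 1228 (cons (fin 1292 5 1036)
(mv 1036 (cons (fin 972 7 972)
(mv 1038 (cons (fin 974 6 973)
(mv 1035 (cons (mv 1102 (cons (fin 1034 0 1034)
(fin 1103 0 1035)))
(cons (mv 1098 (cons (fin 1099 1 1034)
(mv 1034 (cons (fin 1097 1 1033)
(mv 970 (cons (fin 969 3 969)
(fin 971 3 970)))))))
(mv 1099 (cons (fin 1098 1 1034)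
(mv 1102 (cons (fin 1103 0 1035)
(mv 971 (cons (fin 970 3 970)
(mv 1164 (cons (fin 1100 7 971)
(fin 1163 4 971)))))))))))))))))))))))
(mv 973 (cons (cons (mv 1230 (cons (fin 1166 4 973)
(mv 1294 (cons (fin 1229 4 1037)
(mv 974 (cons (fin 910 6 909)
(mv 908 (cons (fin 972 7 908)
(mv 909 (cons (fin 844 7 844)
(mv 1100 (cons (fin 1164 5 908)
(mv 1036 (cons (fin 845 5 844)
(mv 1035 (cons (fin 1034 2 970)
(mv 975 (cons (fin 976 1 972)
(fin 1038 2 971)))))))))))))))))))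
(cons (mv 1230 (cons (fin 1166 4 973)
(mv 1294 (cons (fin 1229 4 1037)
(mv 908 (cons (fin 972 7 908)
(mv 909 (cons (fin 844 7 844)
(mv 1100 (cons (fin 1164 5 908)
(mv 845 (cons (fin 1036 5 844)
(mv 846 (cons (fin 910 6 845)
(fin 782 6 781)))))))))))))))
(mv 972 (cons (fin 908 7 908)
(mv 1229 (cons (fin 1036 7 972)
(mv 974 (cons (fin 1038 6 973)
(fin 910 6 909)))))))))
(cons (cons (mv 1230 (cons (fin 1166 4 973)
(mv 1294 (cons (fin 1229 4 1037)
(mv 910 (cons (fin 974 6 909)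
(mv 909 (cons (fin 846 6 845)
(mv 1100 (cons (fin 1164 5 908)
(mv 844 (cons (fin 908 7 844)
(mv 845 (cons (fin 1036 5 844)
(fin 780 7 780)))))))))))))))
(mv 1230 (cons (fin 1166 4 973)
(mv 1229 (cons (fin 1294 4 1037)
(mv 974 (cons (fin 1038 6 973)
(fin 910 6 909))))))))
(cons (mv 1230 (cons (fin 1166 4 973)
(mv 1294 (cons (fin 1229 4 1037)
(mv 908 (cons (fin 972 7 908)
(mv 909 (cons (fin 844 7 844)
(mv 1100 (cons (fin 1164 5 908)
(mv 845 (cons (fin 1036 5 844)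
(mv 1038 (cons (fin 1102 4 845)
(mv 1098 (cons (fin 1099 2 1034)
(mv 781 (cons (fin 974 4 781)
(mv 782 (cons (fin 846 6 781)
(fin 718 6 717)))))))))))))))))))))
(mv 1230 (cons (fin 1166 4 973)
(mv 974 (cons (fin 910 6 909)
(mv 908 (cons (fin 972 7 908)
(mv 909 (cons (fin 844 7 844)
(mv 1100 (cons (fin 1164 5 908)
(mv 1036 (cons (fin 845 5 844)
(mv 1035 (cons (fin 1034 2 970)
(mv 975 (cons (fin 976 1 972)
(fin 1038 2 971)))))))))))))))))))))))
(cons (cons (mv 1229 (cons (cons (mv 1292 (cons (fin 1228 5 1036)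
(mv 1356 (cons (fin 1293 5 1100)
(mv 1230 (cons (fin 1294 4 1037)
(mv 972 (cons (fin 1036 7 972)
(mv 973 (cons (fin 908 7 908)
(fin 1166 4 973)))))))))))
(mv 1294 (cons (fin 1230 4 1037)
(mv 1293 (cons (fin 1358 4 1101)
(mv 1036 (cons (fin 1100 7 1036)
(fin 972 7 972))))))))
(cons (mv 1292 (cons (fin 1228 5 1036)
(mv 1293 (cons (fin 1356 5 1100)
(mv 1294 (cons (fin 1358 4 1101)
(fin 1230 4 1037)))))))
(cons (mv 1292 (cons (fin 1228 5 1036)
(mv 1293 (cons (fin 1356 5 1100)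
(mv 1036 (cons (fin 1100 7 1036)
(fin 972 7 972)))))))
(mv 1292 (cons (fin 1228 5 1036)
(mv 1230 (cons (fin 1294 4 1037)
(mv 972 (cons (fin 1036 7 972)
(mv 973 (cons (fin 908 7 908)
(fin 1166 4 973)))))))))))))
(mv 1229 (cons (cons (mv 1292 (cons (fin 1228 5 1036)
(mv 1356 (cons (fin 1293 5 1100)
(mv 1230 (cons (fin 1294 4 1037)
(mv 973 (cons (fin 1166 4 973)
(mv 974 (cons (fin 1038 6 973)
(fin 910 6 909)))))))))))
(cons (mv 1294 (cons (fin 1230 4 1037)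
(mv 1293 (cons (fin 1358 4 1101)
(mv 1038 (cons (fin 1102 6 1037)
(fin 974 6 973)))))))
(mv 1292 (cons (fin 1228 5 1036)
(mv 1293 (cons (fin 1356 5 1100)
(mv 1038 (cons (fin 1102 6 1037)
(fin 974 6 973)))))))))
(cons (mv 1292 (cons (fin 1228 5 1036)
(mv 1356 (cons (fin 1293 5 1100)
(mv 1230 (cons (fin 1294 4 1037)
(mv 973 (cons (fin 1166 4 973)
(mv 910 (cons (fin 974 6 909)
(mv 909 (cons (fin 846 6 845)
(mv 1100 (cons (fin 1164 5 908)
(mv 844 (cons (fin 908 7 844)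
(mv 845 (cons (fin 1036 5 844)
(fin 780 7 780)))))))))))))))))))
(cons (mv 1292 (cons (fin 1228 5 1036)
(mv 1293 (cons (fin 1356 5 1100)
(mv 1294 (cons (fin 1358 4 1101)
(fin 1230 4 1037)))))))
(mv 1292 (cons (fin 1228 5 1036)
(mv 1230 (cons (fin 1294 4 1037)
(mv 973 (cons (fin 1166 4 973)
(mv 974 (cons (fin 1038 6 973)
(fin 910 6 909))))))))))))))
(cons (mv 973 (cons (cons (mv 1228 (cons (fin 1164 5 972)
(mv 1292 (cons (fin 1229 5 1036)
(mv 972 (cons (fin 908 7 908)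
(mv 910 (cons (fin 974 6 909)
(mv 909 (cons (fin 846 6 845)
(mv 1102 (cons (fin 1166 4 909)
(mv 970 (cons (fin 971 2 906)
(mv 911 (cons (fin 912 1 908)
(mv 845 (cons (fin 1038 4 845)
(mv 1036 (cons (fin 1100 5 844)
(fin 781 5 780)))))))))))))))))))))
(cons (mv 972 (cons (fin 908 7 908)
(mv 1229 (cons (fin 1036 7 972)
(mv 974 (cons (fin 1038 6 973)
(fin 910 6 909)))))))
(mv 1228 (cons (fin 1164 5 972)
(mv 1292 (cons (fin 1229 5 1036)
(mv 908 (cons (fin 972 7 908)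
(mv 909 (cons (fin 844 7 844)
(mv 1102 (cons (fin 1166 4 909)
(mv 845 (cons (fin 1038 4 845)
(mv 846 (cons (fin 910 6 845)
(fin 782 6 781)))))))))))))))))
(cons (cons (mv 1228 (cons (fin 1164 5 972)
(mv 1292 (cons (fin 1229 5 1036)
(mv 910 (cons (fin 974 6 909)
(mv 909 (cons (fin 846 6 845)
(mv 1102 (cons (fin 1166 4 909)
(mv 844 (cons (fin 908 7 844)
(mv 845 (cons (fin 780 7 780)
(fin 1038 4 845)))))))))))))))
(mv 1228 (cons (fin 1164 5 972)
(mv 1292 (cons (fin 1229 5 1036)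
(mv 910 (cons (fin 974 6 909)
(mv 909 (cons (fin 846 6 845)
(mv 1102 (cons (fin 1166 4 909)
(mv 845 (cons (fin 1038 4 845)
(mv 1036 (cons (fin 1100 5 844)
(mv 1103 (cons (fin 1104 3 1036)
(mv 1034 (cons (fin 1035 0 1034)
(mv 780 (cons (fin 844 7 780)
(mv 781 (cons (fin 972 5 780)
(fin 716 7 716))))))))))))))))))))))))
(cons (mv 1228 (cons (fin 1164 5 972)
(mv 1229 (cons (fin 1292 5 1036)
(mv 972 (cons (fin 1036 7 972)
(fin 908 7 908)))))))
(mv 1228 (cons (fin 1164 5 972)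
(mv 972 (cons (fin 908 7 908)
(mv 910 (cons (fin 974 6 909)
(mv 909 (cons (fin 846 6 845)
(mv 1102 (cons (fin 1166 4 909)
(mv 970 (cons (fin 971 2 906)
(mv 911 (cons (fin 912 1 908)
(mv 845 (cons (fin 1038 4 845)
(mv 1036 (cons (fin 1100 5 844)
(fin 781 5 780)))))))))))))))))))))))
(mv 973 (cons (cons (mv 1228 (cons (fin 1164 5 972)
(mv 1292 (cons (fin 1229 5 1036)
(mv 1230 (cons (fin 1166 4 973)
(mv 908 (cons (fin 972 7 908)
(mv 909 (cons (fin 844 7 844)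
(mv 910 (cons (fin 974 6 909)
(fin 846 6 845)))))))))))))
(cons (mv 1228 (cons (fin 1164 5 972)
(mv 1292 (cons (fin 1229 5 1036)
(mv 908 (cons (fin 972 7 908)
(mv 909 (cons (fin 844 7 844)
(mv 910 (cons (fin 974 6 909)
(fin 846 6 845)))))))))))
(mv 1230 (cons (fin 1166 4 973)
(mv 1294 (cons (fin 1229 4 1037)
(mv 908 (cons (fin 972 7 908)
(mv 909 (cons (fin 844 7 844)
(mv 910 (cons (fin 974 6 909)
(fin 846 6 845)))))))))))))
(cons (cons (mv 1228 (cons (fin 1164 5 972)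
(mv 1292 (cons (fin 1229 5 1036)
(mv 1166 (cons (fin 1230 4 973)
(mv 908 (cons (fin 972 7 908)
(mv 909 (cons (fin 844 7 844)
(fin 1102 4 909)))))))))))
(mv 1228 (cons (fin 1164 5 972)
(mv 1292 (cons (fin 1229 5 1036)
(mv 1166 (cons (fin 1230 4 973)
(mv 909 (cons (fin 1102 4 909)
(mv 910 (cons (fin 974 6 909)
(fin 846 6 845))))))))))))
(cons (mv 1228 (cons (fin 1164 5 972)
(mv 1229 (cons (fin 1292 5 1036)
(mv 1230 (cons (fin 1294 4 1037)
(fin 1166 4 973)))))))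
(mv 1228 (cons (fin 1164 5 972)
(mv 1230 (cons (fin 1166 4 973)
(mv 908 (cons (fin 972 7 908)
(mv 909 (cons (fin 844 7 844)
(mv 910 (cons (fin 974 6 909)
(fin 846 6 845)))))))))))))))))))
(mv 1100 (cons (cons (cons (mv 1038 (cons (fin 1039 1 1036)
(mv 1099 (cons (fin 1098 2 1034)
(mv 1102 (cons (cons (mv 1162 (cons (fin 1163 1 1098)
(mv 1166 (cons (fin 1167 0 1099)
(mv 1294 (cons (fin 1230 7 1037)
(mv 1035 (cons (fin 1034 3 1034)
(mv 1103 (cons (fin 1036 3 1035)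
(mv 1104 (cons (fin 1105 3 1037)
(mv 1165 (cons (fin 1164 1 1100)
(mv 1229 (cons (fin 974 5 973)
(fin 1293 6 1037)))))))))))))))))
(cons (mv 1162 (cons (fin 1163 1 1098)
(mv 1166 (cons (fin 1167 0 1099)
(mv 1230 (cons (fin 1294 7 1037)
(mv 1295 (cons (fin 1231 4 1038)
(mv 1229 (cons (fin 1293 5 1037)
(mv 1165 (cons (fin 974 5 973)
(mv 1228 (cons (fin 1292 5 1036)
(mv 1227 (cons (fin 1226 2 1162)
(mv 1291 (cons (fin 1290 1 1226)
(mv 1036 (cons (fin 1164 5 1035)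
(fin 972 7 972)))))))))))))))))))))
(mv 1162 (cons (fin 1163 1 1098)
(mv 1035 (cons (fin 1034 3 1034)
(mv 1103 (cons (fin 1036 3 1035)
(mv 1167 (cons (fin 1168 0 1100)
(mv 1295 (cons (fin 1231 7 1038)
(mv 1104 (cons (fin 1105 3 1037)
(mv 1165 (cons (fin 1164 1 1100)
(mv 1229 (cons (fin 1293 6 1037)
(fin 974 6 973)))))))))))))))))))
(cons (cons (mv 1162 (cons (fin 1163 1 1098)
(mv 1035 (cons (fin 1034 3 1034)
(mv 1103 (cons (fin 1036 3 1035)
(mv 1104 (cons (fin 1105 3 1037)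
(mv 1165 (cons (fin 1164 1 1100)
(mv 1229 (cons (fin 1293 6 1037)
(fin 974 6 973)))))))))))))
(mv 1166 (cons (fin 1167 0 1099)
(mv 1294 (cons (fin 1230 7 1037)
(mv 1035 (cons (fin 1034 3 1034)
(mv 1103 (cons (fin 1036 3 1035)
(mv 1104 (cons (fin 1105 3 1037)
(mv 1165 (cons (fin 1164 1 1100)
(mv 1229 (cons (fin 974 5 973)
(fin 1293 6 1037))))))))))))))))
(cons (mv 1162 (cons (fin 1163 1 1098)
(mv 1166 (cons (fin 1167 0 1099)
(mv 1230 (cons (fin 1294 7 1037)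
(mv 1295 (cons (fin 1231 4 1038)
(mv 1229 (cons (fin 1293 5 1037)
(mv 1034 (cons (fin 1035 3 1034)
(mv 974 (cons (fin 1165 5 973)
(mv 910 (cons (fin 846 5 845)
(mv 911 (cons (fin 975 6 910)
(fin 847 6 846)))))))))))))))))))
(mv 1162 (cons (fin 1163 1 1098)
(mv 1166 (cons (fin 1167 0 1099)
(mv 1294 (cons (fin 1230 7 1037)
(mv 1035 (cons (fin 1034 3 1034)
(mv 1036 (cons (fin 1103 3 1035)
(mv 971 (cons (fin 970 3 970)
(mv 1164 (cons (fin 1228 7 971)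
(fin 907 4 907)))))))))))))))))))))))
(mv 1102 (cons (mv 1103 (cons (fin 1039 2 1036)
(mv 1036 (cons (fin 1035 3 1035)
(fin 1104 3 1036)))))
(cons (mv 1099 (cons (cons (mv 1162 (cons (fin 1163 1 1098)
(mv 1166 (cons (fin 1167 0 1099)
(mv 1098 (cons (fin 1161 1 1097)
(fin 1165 0 1098)))))))
(mv 1162 (cons (fin 1163 1 1098)
(mv 1098 (cons (fin 1161 1 1097)
(mv 1034 (cons (fin 1033 3 1033)
(fin 1035 3 1034))))))))
(cons (mv 1166 (cons (fin 1167 0 1099)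
(mv 1294 (cons (fin 1230 7 1037)
(mv 1098 (cons (fin 1165 0 1098)
(mv 1034 (cons (fin 1033 3 1033)
(fin 1035 3 1034)))))))))
(mv 1163 (cons (fin 1162 1 1098)
(mv 1166 (cons (fin 1167 0 1099)
(mv 1294 (cons (fin 1230 7 1037)
(mv 1035 (cons (fin 1034 3 1034)
(mv 1227 (cons (cons (mv 1036 (cons (fin 1291 6 1035)
(fin 972 6 971)))
(mv 1290 (cons (fin 1226 5 1034)
(mv 1354 (cons (fin 1291 5 1098)
(mv 1228 (cons (fin 1292 4 1035)
(mv 971 (cons (fin 1164 4 971)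
(mv 906 (cons (fin 970 7 906)
(mv 907 (cons (fin 842 7 842)
(mv 908 (cons (fin 972 6 907)
(fin 844 6 843))))))))))))))))
(cons (mv 1290 (cons (fin 1226 5 1034)
(mv 1292 (cons (fin 1228 4 1035)
(mv 972 (cons (fin 1036 6 971)
(mv 971 (cons (fin 908 6 907)
(mv 906 (cons (fin 970 7 906)
(mv 907 (cons (fin 842 7 842)
(fin 1164 4 907)))))))))))))
(mv 1290 (cons (fin 1226 5 1034)
(mv 1291 (cons (fin 1354 5 1098)
(fin 1036 6 1035)))))))))))))))))))
(mv 1103 (cons (fin 1039 2 1036)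
(mv 1163 (cons (fin 1164 1 1099)
(mv 1167 (cons (fin 1168 0 1100)
(mv 1099 (cons (fin 1162 1 1098)
(fin 1166 0 1099)))))))))))))
(cons (mv 1099 (cons (cons (mv 1098 (cons (fin 1038 2 1034)
(mv 1161 (cons (fin 1162 1 1097)
(mv 1097 (cons (fin 1160 1 1096)
(fin 1036 2 1033)))))))
(mv 1102 (cons (cons (mv 1162 (cons (fin 1163 1 1098)
(mv 1167 (cons (fin 1166 0 1099)
(mv 1103 (cons (fin 1168 0 1100)
(mv 1035 (cons (fin 1034 3 1034)
(fin 1036 3 1035)))))))))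
(cons (mv 1162 (cons (fin 1163 1 1098)
(mv 1167 (cons (fin 1166 0 1099)
(mv 1103 (cons (fin 1168 0 1100)
(mv 1104 (cons (fin 1036 3 1036)
(mv 1295 (cons (fin 1231 6 1039)
(mv 1165 (cons (fin 1164 1 1100)
(mv 1038 (cons (fin 1105 3 1037)
(mv 1229 (cons (fin 1293 6 1037)
(fin 974 6 973)))))))))))))))))
(mv 1167 (cons (fin 1166 0 1099)
(mv 1103 (cons (fin 1168 0 1100)
(mv 1035 (cons (fin 1034 3 1034)
(fin 1036 3 1035)))))))))
(cons (cons (mv 1162 (cons (fin 1163 1 1098)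
(mv 1035 (cons (fin 1034 3 1034)
(mv 1103 (cons (fin 1036 3 1035)
(mv 1168 (cons (fin 1167 0 1100)
(mv 1104 (cons (fin 1169 0 1101)
(mv 1165 (cons (fin 1164 1 1100)
(mv 1038 (cons (fin 1105 3 1037)
(mv 1229 (cons (fin 1293 6 1037)
(fin 974 6 973)))))))))))))))))
(mv 1163 (cons (fin 1162 1 1098)
(mv 1164 (cons (fin 1103 1 1099)
(mv 1292 (cons (fin 1228 6 1036)
(mv 1035 (cons (fin 1034 3 1034)
(mv 971 (cons (fin 907 4 907)
(mv 970 (cons (fin 906 7 906)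
(mv 1036 (cons (fin 1038 3 970)
(mv 1227 (cons (fin 972 5 971)
(fin 1291 6 1035))))))))))))))))))
(cons (mv 1163 (cons (fin 1162 1 1098)
(mv 1166 (cons (fin 1167 0 1099)
(mv 1294 (cons (fin 1230 7 1037)
(mv 1035 (cons (fin 1034 3 1034)
(mv 1227 (cons (cons (mv 1036 (cons (fin 1291 6 1035)
(fin 972 6 971)))
(mv 1290 (cons (fin 1226 5 1034)
(mv 1354 (cons (fin 1291 5 1098)
(mv 1228 (cons (fin 1292 4 1035)
(mv 971 (cons (fin 1164 4 971)
(mv 906 (cons (fin 970 7 906)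
(mv 907 (cons (fin 842 7 842)
(mv 908 (cons (fin 972 6 907)
(fin 844 6 843))))))))))))))))
(cons (mv 1290 (cons (fin 1226 5 1034)
(mv 1292 (cons (fin 1228 4 1035)
(mv 972 (cons (fin 1036 6 971)
(mv 971 (cons (fin 908 6 907)
(mv 906 (cons (fin 970 7 906)
(mv 907 (cons (fin 842 7 842)
(fin 1164 4 907)))))))))))))
(mv 1290 (cons (fin 1226 5 1034)
(mv 1291 (cons (fin 1354 5 1098)
(fin 1036 6 1035))))))))))))))))
(mv 1163 (cons (fin 1162 1 1098)
(mv 1164 (cons (fin 1103 1 1099)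
(mv 1292 (cons (fin 1228 6 1036)
(mv 1166 (cons (fin 1167 0 1099)
(mv 1230 (cons (fin 1294 7 1037)
(mv 1165 (cons (fin 1231 0 1163)
(mv 1227 (cons (fin 1226 1 1162)
(mv 1291 (cons (fin 1356 4 1099)
(fin 1355 6 1099))))))))))))))))))))))
(cons (mv 1098 (cons (mv 1161 (cons (fin 1162 1 1097)
(mv 1097 (cons (fin 1160 1 1096)
(fin 1036 2 1033)))))
(cons (mv 1161 (cons (fin 1162 1 1097)
(mv 1166 (cons (fin 1165 0 1098)
(mv 1102 (cons (fin 1167 0 1099)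
(mv 1034 (cons (fin 1033 3 1033)
(fin 1035 3 1034)))))))))
(mv 1165 (cons (fin 1166 0 1098)
(mv 1097 (cons (fin 1164 0 1097)
(fin 1036 2 1033))))))))
(cons (mv 1098 (cons (fin 1038 2 1034)
(mv 1165 (cons (fin 1166 0 1098)
(mv 1097 (cons (fin 1164 0 1097)
(fin 1036 2 1033)))))))
(mv 1098 (cons (fin 1038 2 1034)
(mv 1161 (cons (fin 1162 1 1097)
(mv 1160 (cons (fin 1097 1 1096)
(mv 1166 (cons (fin 1165 0 1098)
(mv 1102 (cons (fin 1167 0 1099)
(mv 1034 (cons (fin 1033 3 1033)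
(fin 1035 3 1034)))))))))))))))))
(mv 1038 (cons (fin 1039 1 1036)
(mv 1036 (cons (cons (cons (mv 1098 (cons (fin 1099 2 1034)
(mv 1035 (cons (mv 1034 (cons (fin 1097 1 1033)
(fin 1033 0 1033)))
(mv 971 (cons (fin 970 3 970)
(mv 1164 (cons (fin 1228 7 971)
(mv 907 (cons (fin 972 7 907)
(fin 843 4 843)))))))))))
(mv 1165 (cons (mv 1229 (cons (fin 1293 7 1036)
(fin 972 7 972)))
(cons (mv 972 (cons (fin 908 4 908)
(mv 1164 (cons (cons (mv 1292 (cons (fin 1228 6 1036)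
(mv 1227 (cons (fin 1163 5 971)
(mv 971 (cons (fin 907 7 907)
(mv 970 (cons (fin 1035 3 970)
(fin 969 0 969)))))))))
(mv 1227 (cons (fin 1163 5 971)
(mv 971 (cons (fin 907 7 907)
(mv 970 (cons (fin 1035 3 970)
(fin 969 0 969))))))))
(cons (mv 1227 (cons (fin 1163 5 971)
(mv 1228 (cons (fin 1291 5 1035)
(fin 1292 6 1036)))))
(mv 1292 (cons (fin 1228 6 1036)
(mv 971 (cons (fin 907 7 907)
(mv 970 (cons (fin 1035 3 970)
(fin 969 0 969))))))))))))
(mv 1229 (cons (fin 1293 7 1036)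
(fin 974 6 973)))))))
(cons (mv 1098 (cons (fin 1099 2 1034)
(mv 972 (cons (mv 1165 (cons (fin 1229 7 972)
(fin 908 4 908)))
(cons (mv 908 (cons (fin 844 4 844)
(mv 907 (cons (fin 843 7 843)
(mv 1164 (cons (fin 971 7 907)
(mv 1227 (cons (fin 1163 5 971)
(mv 1228 (cons (fin 1291 5 1035)
(fin 1292 6 1036)))))))))))
(mv 1164 (cons (cons (mv 1292 (cons (fin 1228 6 1036)
(mv 1163 (cons (fin 1227 5 971)
(mv 1162 (cons (fin 1161 2 1097)
(mv 1165 (cons (fin 1097 3 1097)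
(fin 1229 7 972)))))))))
(mv 1292 (cons (fin 1228 6 1036)
(mv 1163 (cons (fin 1227 5 971)
(mv 1162 (cons (fin 1161 2 1097)
(mv 1097 (cons (fin 1165 3 1097)
(mv 1095 (cons (fin 1096 0 1095)
(mv 971 (cons (fin 907 7 907)
(mv 969 (cons (fin 970 0 969)
(mv 1033 (cons (fin 905 4 905)
(mv 1226 (cons (fin 1290 7 1033)
(fin 1034 7 969))))))))))))))))))))
(cons (mv 1227 (cons (fin 1163 5 971)
(mv 1228 (cons (fin 1291 5 1035)
(fin 1292 6 1036)))))
(cons (mv 1163 (cons (fin 1227 5 971)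
(mv 1162 (cons (fin 1161 2 1097)
(mv 1165 (cons (fin 1097 3 1097)
(fin 1229 7 972)))))))
(mv 1228 (cons (fin 1292 6 1036)
(mv 1229 (cons (fin 1165 7 972)
(fin 1293 4 1036))))))))))))))
(mv 1035 (cons (cons (mv 1098 (cons (fin 1099 1 1034)
(mv 1034 (cons (fin 1097 1 1033)
(fin 1033 0 1033)))))
(mv 1033 (cons (fin 1034 0 1033)
(mv 971 (cons (fin 970 3 970)
(mv 1164 (cons (fin 1228 7 971)
(mv 907 (cons (fin 1099 4 907)
(fin 843 4 843))))))))))
(cons (mv 1034 (cons (fin 1033 0 1033)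
(mv 970 (cons (fin 969 3 969)
(fin 971 3 970)))))
(mv 1099 (cons (fin 1098 1 1034)
(mv 971 (cons (fin 970 3 970)
(mv 1164 (cons (fin 1228 7 971)
(fin 907 4 907))))))))))))
(cons (cons (mv 1165 (cons (mv 1229 (cons (fin 1293 7 1036)
(fin 972 7 972)))
(cons (mv 908 (cons (fin 972 4 908)
(mv 1035 (cons (cons (mv 1098 (cons (fin 1099 1 1034)
(mv 1034 (cons (fin 1097 1 1033)
(fin 1033 0 1033)))))
(mv 1033 (cons (fin 1034 0 1033)
(mv 971 (cons (fin 970 3 970)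
(mv 974 (cons (fin 975 2 971)
(mv 907 (cons (fin 843 4 843)
(mv 844 (cons (fin 1099 6 843)
(mv 846 (cons (fin 910 5 845)
(mv 845 (cons (fin 847 1 843)
(mv 906 (cons (fin 905 2 841)
(fin 909 2 842))))))))))))))))))
(cons (mv 1034 (cons (fin 1033 0 1033)
(mv 970 (cons (fin 969 3 969)
(fin 971 3 970)))))
(mv 1099 (cons (fin 1098 1 1034)
(mv 971 (cons (fin 970 3 970)
(mv 907 (cons (fin 843 4 843)
(fin 844 6 843))))))))))))
(mv 1229 (cons (fin 1293 7 1036)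
(fin 974 6 973))))))
(mv 1098 (cons (fin 1099 2 1034)
(mv 974 (cons (cons (mv 1229 (cons (fin 1165 6 973)
(mv 1035 (cons (fin 975 2 971)
(mv 1034 (cons (fin 1097 1 1033)
(fin 1033 0 1033)))))))
(mv 1035 (cons (fin 975 2 971)
(mv 1034 (cons (fin 1097 1 1033)
(fin 1033 0 1033))))))
(cons (mv 910 (cons (fin 846 5 845)
(mv 1164 (cons (cons (mv 1292 (cons (fin 1228 6 1036)
(mv 1165 (cons (fin 1229 6 973)
(mv 972 (cons (fin 908 4 908)
(mv 1163 (cons (fin 1227 5 971)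
(mv 1162 (cons (fin 1097 3 1097)
(fin 1161 2 1097)))))))))))
(mv 1228 (cons (fin 1292 6 1036)
(mv 1293 (cons (fin 1229 4 1036)
(mv 1227 (cons (fin 1291 5 1035)
(mv 972 (cons (fin 1163 5 971)
(mv 908 (cons (fin 844 4 844)
(mv 907 (cons (fin 843 7 843)
(mv 909 (cons (fin 975 0 907)
(fin 845 6 844))))))))))))))))
(cons (mv 1228 (cons (fin 1292 6 1036)
(mv 1227 (cons (fin 1291 5 1035)
(mv 1163 (cons (fin 972 5 971)
(mv 1162 (cons (fin 1161 2 1097)
(mv 1165 (cons (fin 1097 3 1097)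
(mv 1226 (cons (fin 1225 1 1161)
(fin 1166 1 1162)))))))))))))
(cons (mv 1165 (cons (fin 1229 6 973)
(mv 972 (cons (fin 908 4 908)
(mv 1163 (cons (fin 1227 5 971)
(mv 1162 (cons (fin 1097 3 1097)
(fin 1161 2 1097)))))))))
(mv 1228 (cons (fin 1292 6 1036)
(mv 1229 (cons (fin 1293 4 1036)
(fin 1165 6 973)))))))))))
(cons (mv 910 (cons (fin 846 5 845)
(mv 1164 (cons (cons (mv 1292 (cons (fin 1228 6 1036)
(mv 1165 (cons (fin 1229 6 973)
(mv 972 (cons (fin 908 4 908)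
(mv 1163 (cons (fin 1227 5 971)
(mv 1162 (cons (fin 1097 3 1097)
(fin 1161 2 1097)))))))))))
(mv 1228 (cons (fin 1292 6 1036)
(mv 1293 (cons (fin 1229 4 1036)
(mv 1227 (cons (fin 1291 5 1035)
(mv 1163 (cons (fin 972 5 971)
(mv 1162 (cons (fin 1161 2 1097)
(mv 1034 (cons (fin 970 4 970)
(mv 1035 (cons (fin 1097 1 1033)
(fin 1033 0 1033))))))))))))))))
(cons (mv 1228 (cons (fin 1292 6 1036)
(mv 1227 (cons (fin 1291 5 1035)
(mv 1163 (cons (fin 972 5 971)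
(mv 1162 (cons (fin 1161 2 1097)
(mv 1165 (cons (fin 1097 3 1097)
(mv 1226 (cons (fin 1225 1 1161)
(fin 1166 1 1162)))))))))))))
(cons (mv 1165 (cons (fin 1229 6 973)
(mv 972 (cons (fin 908 4 908)
(mv 1163 (cons (fin 1227 5 971)
(mv 1162 (cons (fin 1097 3 1097)
(fin 1161 2 1097)))))))))
(mv 1228 (cons (fin 1292 6 1036)
(mv 1229 (cons (fin 1293 4 1036)
(fin 1165 6 973)))))))))))
(mv 1165 (cons (fin 1229 6 973)
(mv 975 (cons (fin 1035 2 971)
(mv 976 (cons (fin 977 1 973)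
(mv 908 (cons (fin 972 4 908)
(mv 910 (cons (fin 846 5 845)
(mv 909 (cons (fin 907 0 907)
(fin 911 0 908))))))))))))))))))))
(cons (mv 1098 (cons (fin 1099 2 1034)
(mv 1165 (cons (mv 1229 (cons (fin 1293 7 1036)
(fin 972 7 972)))
(cons (mv 972 (cons (fin 908 4 908)
(mv 1164 (cons (mv 1292 (cons (fin 1228 6 1036)
(mv 1163 (cons (fin 1227 5 971)
(mv 1162 (cons (fin 1097 3 1097)
(fin 1161 2 1097)))))))
(cons (mv 1163 (cons (fin 1227 5 971)
(mv 1162 (cons (fin 1097 3 1097)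
(fin 1161 2 1097)))))
(mv 1228 (cons (fin 1292 6 1036)
(mv 971 (cons (fin 1035 7 971)
(fin 907 7 907))))))))))
(mv 1229 (cons (fin 1293 7 1036)
(fin 974 6 973))))))))
(mv 1098 (cons (fin 1099 2 1034)
(mv 1165 (cons (mv 1229 (cons (fin 1293 7 1036)
(fin 972 7 972)))
(cons (mv 972 (cons (fin 908 4 908)
(mv 1035 (cons (mv 1034 (cons (fin 1097 1 1033)
(fin 1033 0 1033)))
(cons (mv 971 (cons (fin 970 3 970)
(mv 1164 (cons (fin 1228 7 971)
(mv 1163 (cons (fin 1227 5 971)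
(mv 1162 (cons (fin 1097 3 1097)
(fin 1161 2 1097)))))))))
(mv 1034 (cons (fin 1033 0 1033)
(mv 970 (cons (fin 969 3 969)
(fin 971 3 970))))))))))
(mv 1229 (cons (fin 1293 7 1036)
(fin 974 6 973))))))))))))))))
(cons (cons (mv 1039 (cons (fin 1038 1 1036)
(mv 1103 (cons (fin 1102 2 1036)
(mv 976 (cons (cons (mv 1167 (cons (fin 1231 6 975)
(mv 912 (cons (fin 1104 5 911)
(fin 848 5 847)))))
(mv 1167 (cons (fin 1231 6 975)
(mv 975 (cons (cons (mv 1230 (cons (fin 1166 5 974)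
(mv 910 (cons (fin 974 7 910)
(mv 911 (cons (fin 846 7 846)
(mv 1104 (cons (fin 1168 7 911)
(fin 847 4 847)))))))))
(mv 1166 (cons (fin 1230 5 974)
(mv 1165 (cons (fin 1168 3 1100)
(mv 1164 (cons (fin 1104 2 1100)
(mv 1228 (cons (fin 1227 1 1163)
(fin 1292 6 1036))))))))))
(cons (mv 910 (cons (fin 974 7 910)
(mv 911 (cons (fin 846 7 846)
(mv 1104 (cons (fin 1168 7 911)
(fin 847 4 847)))))))
(cons (mv 1166 (cons (fin 1230 5 974)
(mv 1165 (cons (fin 1168 3 1100)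
(mv 910 (cons (fin 974 7 910)
(mv 911 (cons (fin 846 7 846)
(mv 977 (cons (fin 978 3 910)
(mv 908 (cons (fin 909 0 908)
(mv 1036 (cons (fin 972 4 908)
(mv 1229 (cons (fin 1293 7 1036)
(mv 1228 (cons (fin 1292 5 1036)
(mv 1227 (cons (fin 1164 1 1163)
(fin 1226 2 1162)))))))))))))))))))))
(mv 1230 (cons (fin 1166 5 974)
(mv 910 (cons (fin 974 7 910)
(mv 911 (cons (fin 846 7 846)
(mv 847 (cons (fin 1104 4 847)
(fin 783 4 783))))))))))))))))
(cons (mv 912 (cons (fin 848 5 847)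
(mv 1104 (cons (cons (mv 1169 (cons (fin 1105 4 912)
(mv 1168 (cons (fin 1233 4 976)
(mv 911 (cons (fin 975 7 911)
(fin 847 7 847)))))))
(mv 1169 (cons (fin 1105 4 912)
(mv 1168 (cons (fin 1233 4 976)
(mv 913 (cons (fin 977 6 912)
(fin 849 6 848))))))))
(cons (mv 911 (cons (fin 847 7 847)
(mv 1168 (cons (fin 975 7 911)
(mv 913 (cons (fin 977 6 912)
(fin 849 6 848)))))))
(mv 1105 (cons (fin 1169 4 912)
(mv 1106 (cons (fin 1107 3 1039)
(mv 1170 (cons (fin 1171 0 1103)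
(mv 1042 (cons (fin 1043 2 1039)
(mv 911 (cons (fin 847 7 847)
(mv 913 (cons (fin 849 6 848)
(mv 977 (cons (fin 978 7 913)
(mv 910 (cons (fin 909 0 909)
(mv 846 (cons (fin 845 3 845)
(fin 975 7 846))))))))))))))))))))))))
(mv 1167 (cons (fin 1231 6 975)
(mv 912 (cons (fin 848 5 847)
(fin 975 6 911))))))))))))
(mv 1038 (cons (fin 1039 1 1036)
(mv 1099 (cons (fin 1098 2 1034)
(mv 1102 (cons (cons (mv 1162 (cons (fin 1163 1 1098)
(mv 1166 (cons (fin 1167 0 1099)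
(mv 1294 (cons (fin 1230 7 1037)
(mv 1035 (cons (fin 1034 3 1034)
(mv 1036 (cons (fin 1103 3 1035)
(mv 970 (cons (fin 971 3 970)
(mv 974 (cons (fin 975 2 971)
(mv 1165 (cons (fin 1229 5 973)
(fin 910 5 909)))))))))))))))))
(mv 1162 (cons (fin 1163 1 1098)
(mv 1166 (cons (fin 1167 0 1099)
(mv 1230 (cons (fin 1294 7 1037)
(mv 1295 (cons (fin 1231 4 1038)
(mv 1229 (cons (fin 1293 5 1037)
(mv 974 (cons (fin 1165 5 973)
(mv 910 (cons (fin 846 5 845)
(mv 911 (cons (fin 975 6 910)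
(fin 847 6 846))))))))))))))))))
(cons (mv 1162 (cons (fin 1163 1 1098)
(mv 1035 (cons (fin 1034 3 1034)
(mv 1103 (cons (fin 1036 3 1035)
(mv 1168 (cons (fin 1167 0 1100)
(mv 1104 (cons (fin 1105 3 1037)
(fin 1169 0 1101)))))))))))
(cons (mv 1162 (cons (fin 1163 1 1098)
(mv 1035 (cons (fin 1034 3 1034)
(mv 1036 (cons (fin 1103 3 1035)
(mv 970 (cons (fin 971 3 970)
(mv 974 (cons (fin 975 2 971)
(mv 1165 (cons (fin 910 5 909)
(fin 1229 6 973)))))))))))))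
(mv 1166 (cons (fin 1167 0 1099)
(mv 1294 (cons (fin 1230 7 1037)
(mv 1035 (cons (fin 1034 3 1034)
(mv 1036 (cons (fin 1103 3 1035)
(mv 970 (cons (fin 971 3 970)
(mv 974 (cons (fin 975 2 971)
(mv 1165 (cons (fin 1229 5 973)
(fin 910 5 909))))))))))))))))))))))))
(cons (mv 1038 (cons (fin 1039 1 1036)
(mv 1099 (cons (fin 1098 2 1034)
(mv 1102 (cons (cons (mv 1162 (cons (fin 1163 1 1098)
(mv 1166 (cons (fin 1167 0 1099)
(mv 1230 (cons (fin 1294 7 1037)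
(mv 1295 (cons (fin 1231 4 1038)
(mv 1229 (cons (fin 1293 5 1037)
(mv 1034 (cons (fin 1035 3 1034)
(mv 974 (cons (fin 1165 5 973)
(mv 910 (cons (fin 846 5 845)
(mv 911 (cons (fin 975 6 910)
(fin 847 6 846)))))))))))))))))))
(mv 1163 (cons (fin 1162 1 1098)
(mv 1164 (cons (fin 1103 1 1099)
(mv 1228 (cons (fin 1292 6 1036)
(mv 1035 (cons (fin 1034 3 1034)
(fin 971 4 971))))))))))
(cons (mv 1166 (cons (fin 1167 0 1099)
(mv 1230 (cons (fin 1294 7 1037)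
(mv 1295 (cons (fin 1231 4 1038)
(mv 1229 (cons (fin 1293 5 1037)
(mv 1034 (cons (fin 1035 3 1034)
(mv 974 (cons (fin 1165 5 973)
(mv 910 (cons (fin 846 5 845)
(mv 911 (cons (fin 975 6 910)
(fin 847 6 846)))))))))))))))))
(mv 1162 (cons (fin 1163 1 1098)
(mv 1166 (cons (fin 1167 0 1099)
(mv 1230 (cons (fin 1294 7 1037)
(mv 1295 (cons (fin 1231 4 1038)
(mv 1229 (cons (fin 1293 5 1037)
(mv 974 (cons (fin 1165 5 973)
(mv 910 (cons (fin 846 5 845)
(mv 911 (cons (fin 975 6 910)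
(fin 847 6 846))))))))))))))))))))))))
(cons (mv 1038 (cons (fin 1039 1 1036)
(mv 1099 (cons (fin 1098 2 1034)
(mv 1102 (cons (cons (mv 1162 (cons (fin 1163 1 1098)
(mv 1166 (cons (fin 1167 0 1099)
(mv 1294 (cons (fin 1230 7 1037)
(mv 1035 (cons (fin 1034 3 1034)
(mv 1036 (cons (fin 1103 3 1035)
(mv 971 (cons (fin 970 3 970)
(mv 1164 (cons (fin 1228 7 971)
(fin 907 4 907)))))))))))))))
(cons (mv 1162 (cons (fin 1163 1 1098)
(mv 1167 (cons (fin 1166 0 1099)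
(mv 1103 (cons (fin 1168 0 1100)
(mv 1104 (cons (fin 1036 3 1036)
(fin 1105 3 1037)))))))))
(mv 1162 (cons (fin 1163 1 1098)
(mv 1035 (cons (fin 1034 3 1034)
(mv 1103 (cons (fin 1036 3 1035)
(mv 1168 (cons (fin 1167 0 1100)
(mv 1104 (cons (fin 1105 3 1037)
(fin 1169 0 1101)))))))))))))
(cons (cons (mv 1166 (cons (fin 1167 0 1099)
(mv 1294 (cons (fin 1230 7 1037)
(mv 1035 (cons (fin 1034 3 1034)
(mv 1036 (cons (fin 1103 3 1035)
(mv 971 (cons (fin 970 3 970)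
(mv 1164 (cons (fin 1228 7 971)
(fin 907 4 907)))))))))))))
(mv 1162 (cons (fin 1163 1 1098)
(mv 1035 (cons (fin 1034 3 1034)
(mv 1036 (cons (fin 1103 3 1035)
(mv 971 (cons (fin 970 3 970)
(mv 1164 (cons (fin 1228 7 971)
(fin 907 4 907))))))))))))
(cons (mv 1163 (cons (fin 1162 1 1098)
(mv 1166 (cons (fin 1167 0 1099)
(mv 1230 (cons (fin 1294 7 1037)
(mv 1229 (cons (fin 1293 5 1037)
(mv 1231 (cons (fin 1295 4 1038)
(mv 1228 (cons (fin 1164 3 1163)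
(mv 1291 (cons (fin 1292 1 1227)
(mv 1227 (cons (fin 1290 1 1226)
(fin 1036 6 1035)))))))))))))))))
(mv 1163 (cons (fin 1162 1 1098)
(mv 1164 (cons (fin 1103 1 1099)
(mv 1228 (cons (fin 1292 6 1036)
(mv 1035 (cons (fin 1034 3 1034)
(fin 971 4 971)))))))))))))))))
(mv 1038 (cons (fin 1039 1 1036)
(mv 1098 (cons (fin 1099 2 1034)
(mv 974 (cons (cons (mv 1165 (cons (fin 1229 6 973)
(mv 910 (cons (fin 1102 5 909)
(fin 846 5 845)))))
(mv 910 (cons (fin 846 5 845)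
(mv 1102 (cons (mv 1103 (cons (fin 1167 4 910)
(mv 1104 (cons (fin 1036 3 1036)
(fin 1105 3 1037)))))
(cons (mv 909 (cons (fin 845 7 845)
(mv 911 (cons (fin 847 6 846)
(mv 908 (cons (mv 975 (cons (fin 907 0 907)
(fin 976 0 908)))
(cons (mv 971 (cons (fin 972 1 907)
(mv 907 (cons (fin 970 1 906)
(mv 843 (cons (fin 842 3 842)
(fin 844 3 843)))))))
(mv 971 (cons (fin 972 1 907)
(mv 976 (cons (fin 975 0 908)
(mv 912 (cons (fin 977 0 909)
(mv 843 (cons (fin 844 3 843)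
(mv 849 (cons (fin 848 2 845)
(mv 913 (cons (fin 850 2 846)
(fin 1104 6 848))))))))))))))))))))
(mv 1167 (cons (fin 1103 4 910)
(mv 909 (cons (fin 845 7 845)
(mv 911 (cons (fin 847 6 846)
(mv 908 (cons (mv 975 (cons (fin 907 0 907)
(fin 976 0 908)))
(cons (mv 971 (cons (fin 972 1 907)
(mv 907 (cons (fin 970 1 906)
(mv 843 (cons (fin 842 3 842)
(fin 844 3 843)))))))
(mv 972 (cons (fin 971 1 907)
(mv 844 (cons (fin 843 3 843)
(fin 1036 4 844))))))))))))))))))))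
(cons (mv 1036 (cons (cons (mv 1229 (cons (fin 1165 6 973)
(mv 1035 (cons (fin 975 2 971)
(mv 1102 (cons (fin 1103 3 1035)
(fin 1034 0 1034)))))))
(mv 1164 (cons (cons (mv 1292 (cons (fin 1228 6 1036)
(mv 1165 (cons (fin 1229 6 973)
(mv 972 (cons (fin 908 4 908)
(mv 1163 (cons (fin 1227 5 971)
(mv 1162 (cons (fin 1097 3 1097)
(fin 1161 2 1097)))))))))))
(mv 1228 (cons (fin 1292 6 1036)
(mv 1293 (cons (fin 1229 4 1036)
(mv 1227 (cons (fin 1291 5 1035)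
(mv 972 (cons (fin 1163 5 971)
(mv 907 (cons (fin 971 7 907)
(mv 908 (cons (fin 843 7 843)
(fin 844 4 844))))))))))))))
(cons (mv 1228 (cons (fin 1292 6 1036)
(mv 1227 (cons (fin 1291 5 1035)
(mv 1163 (cons (fin 972 5 971)
(mv 1162 (cons (fin 1161 2 1097)
(mv 1165 (cons (fin 1097 3 1097)
(fin 1102 2 1098)))))))))))
(cons (mv 1165 (cons (fin 1229 6 973)
(mv 972 (cons (fin 908 4 908)
(mv 1163 (cons (fin 1227 5 971)
(mv 1162 (cons (fin 1097 3 1097)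
(fin 1161 2 1097)))))))))
(mv 1228 (cons (fin 1292 6 1036)
(mv 1229 (cons (fin 1293 4 1036)
(fin 1165 6 973))))))))))
(cons (mv 1035 (cons (fin 975 2 971)
(mv 1102 (cons (fin 1103 3 1035)
(fin 1034 0 1034)))))
(mv 1229 (cons (fin 1165 6 973)
(mv 1035 (cons (fin 975 2 971)
(mv 1034 (cons (fin 1097 1 1033)
(fin 1033 0 1033))))))))))
(mv 910 (cons (fin 846 5 845)
(mv 1036 (cons (cons (mv 1229 (cons (fin 1165 6 973)
(mv 1035 (cons (fin 975 2 971)
(mv 1034 (cons (fin 1097 1 1033)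
(fin 1033 0 1033)))))))
(mv 1164 (cons (cons (mv 1292 (cons (fin 1228 6 1036)
(mv 1165 (cons (fin 1229 6 973)
(mv 972 (cons (fin 908 4 908)
(mv 1163 (cons (fin 1227 5 971)
(mv 1162 (cons (fin 1097 3 1097)
(fin 1161 2 1097)))))))))))
(mv 1228 (cons (fin 1292 6 1036)
(mv 1293 (cons (fin 1229 4 1036)
(mv 1227 (cons (fin 1291 5 1035)
(mv 972 (cons (fin 1163 5 971)
(mv 971 (cons (fin 907 7 907)
(mv 969 (cons (fin 970 0 969)
(mv 908 (cons (fin 844 4 844)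
(mv 909 (cons (fin 911 1 907)
(fin 845 6 844))))))))))))))))))
(cons (mv 1228 (cons (fin 1292 6 1036)
(mv 1227 (cons (fin 1291 5 1035)
(mv 972 (cons (fin 1163 5 971)
(mv 908 (cons (fin 1165 4 908)
(fin 844 4 844)))))))))
(cons (mv 1165 (cons (fin 1229 6 973)
(mv 972 (cons (fin 908 4 908)
(mv 1163 (cons (fin 1227 5 971)
(mv 1162 (cons (fin 1097 3 1097)
(fin 1161 2 1097)))))))))
(mv 1228 (cons (fin 1292 6 1036)
(mv 1229 (cons (fin 1293 4 1036)
(fin 1165 6 973))))))))))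
(cons (mv 1035 (cons (fin 975 2 971)
(mv 1034 (cons (fin 1097 1 1033)
(fin 1033 0 1033)))))
(mv 1229 (cons (fin 1165 6 973)
(mv 1035 (cons (fin 975 2 971)
(mv 1033 (cons (fin 1034 0 1033)
(mv 971 (cons (fin 970 3 970)
(mv 1164 (cons (fin 1228 7 971)
(mv 907 (cons (fin 972 7 907)
(fin 843 4 843)))))))))))))))))))))))))))))))))
(cons (cons (mv 1100 (cons (cons (cons (mv 1038 (cons (fin 1039 1 1036)
(mv 1099 (cons (fin 1098 2 1034)
(mv 1102 (cons (cons (mv 1162 (cons (fin 1163 1 1098)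
(mv 1166 (cons (fin 1167 0 1099)
(mv 1230 (cons (fin 1294 7 1037)
(fin 973 7 973)))))))
(mv 1162 (cons (fin 1163 1 1098)
(mv 1035 (cons (fin 1034 3 1034)
(mv 1103 (cons (fin 1036 3 1035)
(mv 1168 (cons (fin 1167 0 1100)
(mv 1104 (cons (fin 1105 3 1037)
(fin 1169 0 1101))))))))))))
(cons (mv 1166 (cons (fin 1167 0 1099)
(mv 1230 (cons (fin 1294 7 1037)
(fin 973 7 973)))))
(mv 1162 (cons (fin 1163 1 1098)
(mv 1035 (cons (fin 1034 3 1034)
(mv 1036 (cons (fin 1103 3 1035)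
(mv 970 (cons (fin 971 3 970)
(mv 974 (cons (fin 975 2 971)
(mv 910 (cons (fin 846 5 845)
(mv 909 (cons (fin 845 7 845)
(mv 973 (cons (fin 1164 5 908)
(fin 1166 7 909))))))))))))))))))))))))
(mv 1102 (cons (mv 1103 (cons (fin 1039 2 1036)
(mv 1036 (cons (fin 1035 3 1035)
(fin 1104 3 1036)))))
(cons (mv 1099 (cons (cons (mv 1162 (cons (fin 1163 1 1098)
(mv 1166 (cons (fin 1167 0 1099)
(mv 1294 (cons (fin 1230 7 1037)
(mv 1098 (cons (fin 1161 1 1097)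
(mv 1034 (cons (fin 1033 3 1033)
(fin 1035 3 1034)))))))))))
(cons (mv 1163 (cons (fin 1162 1 1098)
(mv 1166 (cons (fin 1167 0 1099)
(mv 1294 (cons (fin 1230 7 1037)
(mv 973 (cons (fin 909 4 909)
(mv 1036 (cons (cons (mv 1291 (cons (fin 1227 6 1035)
(mv 1164 (cons (fin 1228 6 972)
(mv 1097 (cons (fin 1098 2 1033)
(mv 972 (cons (fin 908 5 907)
(mv 971 (cons (fin 907 7 907)
(mv 970 (cons (fin 969 0 969)
(mv 906 (cons (fin 905 3 905)
(fin 1035 7 906)))))))))))))))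
(mv 1227 (cons (fin 1291 6 1035)
(mv 1228 (cons (fin 1164 6 972)
(mv 1292 (cons (fin 1035 4 1035)
(mv 1420 (cons (fin 1356 7 1163)
(mv 1293 (cons (fin 1295 3 1227)
(mv 1226 (cons (fin 1225 0 1225)
(fin 1229 0 1226))))))))))))))
(cons (mv 1227 (cons (fin 1291 6 1035)
(mv 972 (cons (fin 908 5 907)
(fin 1035 6 971)))))
(cons (mv 1164 (cons (fin 1228 6 972)
(mv 1097 (cons (fin 1098 2 1033)
(mv 972 (cons (fin 908 5 907)
(mv 971 (cons (fin 907 7 907)
(mv 970 (cons (fin 969 0 969)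
(mv 906 (cons (fin 905 3 905)
(fin 1035 7 906)))))))))))))
(mv 1227 (cons (fin 1291 6 1035)
(mv 1164 (cons (fin 972 5 971)
(fin 1228 6 972)))))))))))))))))
(mv 1162 (cons (fin 1163 1 1098)
(mv 1098 (cons (fin 1161 1 1097)
(mv 1034 (cons (fin 1033 3 1033)
(fin 1035 3 1034)))))))))
(cons (cons (mv 1162 (cons (fin 1163 1 1098)
(mv 1166 (cons (fin 1167 0 1099)
(mv 1294 (cons (fin 1230 7 1037)
(mv 1098 (cons (fin 1161 1 1097)
(mv 1097 (cons (fin 1036 2 1033)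
(mv 1033 (cons (fin 1032 3 1032)
(fin 1034 3 1033)))))))))))))
(mv 1166 (cons (fin 1167 0 1099)
(mv 1294 (cons (fin 1230 7 1037)
(mv 1034 (cons (fin 1035 3 1034)
(mv 1098 (cons (fin 1033 3 1033)
(mv 1036 (cons (fin 1097 2 1033)
(mv 973 (cons (fin 909 4 909)
(mv 1164 (cons (fin 1228 6 972)
(mv 972 (cons (mv 1163 (cons (fin 1227 5 971)
(fin 908 5 907)))
(cons (mv 907 (cons (fin 971 7 907)
(mv 908 (cons (fin 843 7 843)
(fin 844 4 844)))))
(mv 1163 (cons (fin 1227 5 971)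
(mv 970 (cons (fin 906 4 906)
(mv 971 (cons (fin 969 0 969)
(fin 907 7 907)))))))))))))))))))))))))
(cons (mv 1166 (cons (fin 1167 0 1099)
(mv 1294 (cons (fin 1230 7 1037)
(mv 1034 (cons (fin 1035 3 1034)
(mv 1098 (cons (fin 1033 3 1033)
(mv 1161 (cons (fin 1162 1 1097)
(mv 1097 (cons (fin 1160 1 1096)
(fin 1036 2 1033)))))))))))))
(mv 1163 (cons (fin 1162 1 1098)
(mv 1166 (cons (fin 1167 0 1099)
(mv 1294 (cons (fin 1230 7 1037)
(mv 1035 (cons (fin 1034 3 1034)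
(mv 973 (cons (fin 909 4 909)
(mv 1164 (cons (mv 1228 (cons (fin 1292 7 1035)
(fin 971 4 971)))
(cons (mv 971 (cons (fin 907 4 907)
(mv 970 (cons (fin 906 7 906)
(mv 972 (cons (fin 908 6 907)
(mv 1036 (cons (fin 969 0 969)
(fin 1227 5 971)))))))))
(mv 1228 (cons (fin 1292 7 1035)
(fin 1036 6 972))))))))))))))))))))
(mv 1103 (cons (fin 1039 2 1036)
(mv 1163 (cons (fin 1164 1 1099)
(mv 1167 (cons (fin 1168 0 1100)
(mv 1099 (cons (fin 1162 1 1098)
(fin 1166 0 1099)))))))))))))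
(cons (mv 1164 (cons (cons (mv 1228 (cons (fin 1292 6 1036)
(mv 973 (cons (fin 909 5 908)
(fin 1036 6 972)))))
(mv 973 (cons (fin 909 5 908)
(mv 1102 (cons (cons (mv 1163 (cons (fin 1103 1 1099)
(mv 1162 (cons (fin 1099 1 1098)
(fin 1161 2 1097)))))
(mv 1099 (cons (cons (mv 1162 (cons (fin 1163 1 1098)
(mv 1098 (cons (fin 1161 1 1097)
(fin 1038 2 1034)))))
(mv 1162 (cons (fin 1163 1 1098)
(mv 1166 (cons (fin 1167 0 1099)
(mv 1230 (cons (fin 1294 7 1037)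
(fin 1038 7 973))))))))
(cons (mv 1166 (cons (fin 1167 0 1099)
(mv 1230 (cons (fin 1294 7 1037)
(fin 1038 7 973)))))
(mv 1162 (cons (fin 1163 1 1098)
(mv 1166 (cons (fin 1167 0 1099)
(mv 1294 (cons (fin 1230 7 1037)
(mv 1098 (cons (fin 1161 1 1097)
(mv 1034 (cons (fin 1033 3 1033)
(fin 1035 3 1034)))))))))))))))
(cons (mv 1035 (cons (cons (mv 1034 (cons (fin 1099 3 1034)
(fin 1036 0 1034)))
(mv 1099 (cons (fin 1034 3 1034)
(mv 1166 (cons (fin 1167 0 1099)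
(mv 1230 (cons (fin 1294 7 1037)
(fin 1038 7 973))))))))
(cons (mv 1103 (cons (fin 1036 3 1035)
(mv 1167 (cons (fin 1168 0 1100)
(mv 1166 (cons (fin 1099 0 1099)
(mv 1230 (cons (fin 1294 7 1037)
(fin 1038 7 973)))))))))
(mv 1036 (cons (fin 1103 3 1035)
(fin 1034 0 1034))))))
(mv 1103 (cons (fin 1163 1 1099)
(mv 1036 (cons (fin 1035 3 1035)
(fin 1104 3 1036)))))))))))
(cons (mv 1292 (cons (fin 1228 6 1036)
(mv 1102 (cons (cons (mv 1163 (cons (fin 1103 1 1099)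
(mv 1162 (cons (fin 1099 1 1098)
(fin 1161 2 1097)))))
(mv 1099 (cons (cons (mv 1162 (cons (fin 1163 1 1098)
(mv 1098 (cons (fin 1161 1 1097)
(fin 1038 2 1034)))))
(mv 1163 (cons (fin 1162 1 1098)
(mv 1166 (cons (fin 1167 0 1099)
(mv 1294 (cons (fin 1230 7 1037)
(mv 1035 (cons (fin 1034 3 1034)
(mv 971 (cons (fin 907 4 907)
(mv 970 (cons (fin 906 7 906)
(mv 1036 (cons (fin 1038 3 970)
(mv 1227 (cons (fin 972 5 971)
(fin 1291 6 1035))))))))))))))))))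
(cons (mv 1166 (cons (fin 1167 0 1099)
(mv 1294 (cons (fin 1230 7 1037)
(mv 1098 (cons (fin 1038 2 1034)
(mv 1034 (cons (fin 1033 3 1033)
(fin 1035 3 1034)))))))))
(mv 1162 (cons (fin 1163 1 1098)
(mv 1166 (cons (fin 1167 0 1099)
(mv 1294 (cons (fin 1230 7 1037)
(mv 1098 (cons (fin 1161 1 1097)
(mv 1034 (cons (fin 1033 3 1033)
(fin 1035 3 1034)))))))))))))))
(cons (mv 1099 (cons (cons (mv 1166 (cons (fin 1167 0 1099)
(mv 1294 (cons (fin 1230 7 1037)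
(mv 1098 (cons (fin 1038 2 1034)
(mv 1034 (cons (fin 1033 3 1033)
(fin 1035 3 1034)))))))))
(mv 1166 (cons (fin 1167 0 1099)
(mv 1294 (cons (fin 1230 7 1037)
(mv 1098 (cons (fin 1038 2 1034)
(mv 1161 (cons (fin 1162 1 1097)
(mv 1097 (cons (fin 1160 1 1096)
(fin 1036 2 1033))))))))))))
(cons (mv 1166 (cons (fin 1167 0 1099)
(mv 1294 (cons (fin 1230 7 1037)
(mv 1035 (cons (fin 1034 3 1034)
(mv 1036 (cons (fin 1103 3 1035)
(mv 971 (cons (fin 907 4 907)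
(mv 970 (cons (fin 1038 3 970)
(mv 969 (cons (fin 968 0 968)
(fin 972 0 969)))))))))))))))
(cons (mv 1098 (cons (fin 1038 2 1034)
(mv 1034 (cons (fin 1033 3 1033)
(fin 1035 3 1034)))))
(mv 1166 (cons (fin 1167 0 1099)
(mv 1294 (cons (fin 1230 7 1037)
(mv 1034 (cons (fin 1035 3 1034)
(mv 1098 (cons (fin 1033 3 1033)
(mv 1161 (cons (fin 1162 1 1097)
(mv 1097 (cons (fin 1160 1 1096)
(fin 1036 2 1033)))))))))))))))))
(mv 1103 (cons (fin 1163 1 1099)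
(mv 1036 (cons (fin 1035 3 1035)
(fin 1104 3 1036))))))))))
(mv 1292 (cons (fin 1228 6 1036)
(mv 973 (cons (fin 909 5 908)
(mv 1099 (cons (cons (mv 1098 (cons (fin 1038 2 1034)
(mv 1161 (cons (fin 1162 1 1097)
(mv 1160 (cons (fin 1097 1 1096)
(mv 1034 (cons (fin 1033 3 1033)
(mv 1102 (cons (fin 1035 3 1034)
(mv 1167 (cons (fin 1166 0 1099)
(mv 1103 (cons (fin 1163 1 1099)
(fin 1168 0 1100)))))))))))))))
(mv 1102 (cons (mv 1163 (cons (fin 1162 1 1098)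
(fin 1103 1 1099)))
(mv 1166 (cons (fin 1167 0 1099)
(mv 1230 (cons (fin 1294 7 1037)
(fin 1038 7 973))))))))
(cons (mv 1034 (cons (cons (mv 1098 (cons (fin 1033 3 1033)
(mv 1161 (cons (fin 1162 1 1097)
(mv 1160 (cons (fin 1097 1 1096)
(mv 1102 (cons (fin 1035 3 1034)
(mv 1167 (cons (fin 1166 0 1099)
(mv 1103 (cons (fin 1163 1 1099)
(fin 1168 0 1100)))))))))))))
(cons (mv 1098 (cons (fin 1033 3 1033)
(mv 1161 (cons (fin 1162 1 1097)
(mv 1097 (cons (fin 1160 1 1096)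
(mv 1289 (cons (fin 1225 6 1033)
(mv 1163 (cons (fin 1096 0 1096)
(mv 1227 (cons (fin 1291 7 1034)
(mv 970 (cons (fin 906 5 905)
(fin 1035 7 970)))))))))))))))
(mv 1098 (cons (fin 1033 3 1033)
(mv 1162 (cons (fin 1161 1 1097)
(mv 1163 (cons (fin 1102 1 1098)
(mv 1227 (cons (fin 1291 7 1034)
(fin 970 4 970)))))))))))
(cons (mv 1102 (cons (fin 1035 3 1034)
(mv 1163 (cons (fin 1162 1 1098)
(fin 1103 1 1099)))))
(cons (mv 1098 (cons (fin 1033 3 1033)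
(mv 1162 (cons (fin 1161 1 1097)
(mv 1035 (cons (fin 1102 3 1034)
(mv 1226 (cons (fin 1290 6 1034)
(fin 971 6 970)))))))))
(mv 1098 (cons (fin 1033 3 1033)
(mv 1102 (cons (fin 1035 3 1034)
(mv 1167 (cons (fin 1166 0 1099)
(mv 1103 (cons (fin 1163 1 1099)
(fin 1168 0 1100)))))))))))))
(cons (mv 1098 (cons (fin 1038 2 1034)
(mv 1161 (cons (fin 1162 1 1097)
(mv 1097 (cons (fin 1160 1 1096)
(mv 1033 (cons (fin 1032 3 1032)
(fin 1034 3 1033)))))))))
(mv 1098 (cons (fin 1038 2 1034)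
(mv 1033 (cons (fin 1034 3 1033)
(mv 1097 (cons (fin 1032 3 1032)
(mv 1160 (cons (fin 1161 1 1096)
(mv 1096 (cons (fin 1159 1 1095)
(fin 1163 0 1096))))))))))))))))))))))
(cons (mv 1038 (cons (fin 1039 1 1036)
(mv 1099 (cons (fin 1098 2 1034)
(mv 1102 (cons (cons (mv 1162 (cons (fin 1163 1 1098)
(mv 1166 (cons (fin 1167 0 1099)
(mv 1230 (cons (fin 1294 7 1037)
(fin 973 7 973)))))))
(mv 1162 (cons (fin 1163 1 1098)
(mv 1035 (cons (fin 1034 3 1034)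
(mv 1103 (cons (fin 1036 3 1035)
(mv 1168 (cons (fin 1167 0 1100)
(mv 1104 (cons (fin 1105 3 1037)
(fin 1169 0 1101))))))))))))
(cons (mv 1162 (cons (fin 1163 1 1098)
(mv 1035 (cons (fin 1034 3 1034)
(mv 1036 (cons (fin 1103 3 1035)
(mv 970 (cons (fin 971 3 970)
(mv 974 (cons (fin 975 2 971)
(mv 910 (cons (fin 846 5 845)
(mv 909 (cons (fin 845 7 845)
(mv 973 (cons (fin 1166 7 909)
(mv 908 (cons (fin 844 7 844)
(mv 906 (cons (fin 907 0 906)
(mv 911 (cons (fin 847 6 846)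
(mv 912 (cons (fin 972 1 908)
(fin 913 1 909)))))))))))))))))))))))))
(mv 1166 (cons (fin 1167 0 1099)
(mv 1230 (cons (fin 1294 7 1037)
(fin 973 7 973))))))))))))
(mv 1038 (cons (fin 1039 1 1036)
(mv 1099 (cons (fin 1098 2 1034)
(mv 973 (cons (cons (mv 1164 (cons (fin 909 5 908)
(mv 1228 (cons (fin 1292 6 1036)
(fin 1036 6 972)))))
(mv 971 (cons (cons (mv 970 (cons (fin 972 0 970)
(mv 1035 (cons (fin 1036 3 970)
(mv 1163 (cons (fin 906 7 906)
(mv 1164 (cons (fin 1228 4 971)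
(fin 907 4 907)))))))))
(cons (mv 1164 (cons (mv 1228 (cons (fin 1292 6 1036)
(fin 1036 6 972)))
(cons (mv 907 (cons (fin 1035 4 907)
(mv 972 (cons (fin 1036 7 907)
(mv 974 (cons (fin 906 3 906)
(mv 910 (cons (fin 911 2 907)
(fin 846 5 845)))))))))
(mv 1228 (cons (fin 1292 6 1036)
(mv 1035 (cons (fin 1163 4 971)
(fin 907 4 907))))))))
(mv 1164 (cons (mv 1228 (cons (fin 1292 6 1036)
(fin 1036 6 972)))
(cons (mv 1035 (cons (fin 907 4 907)
(mv 1036 (cons (fin 970 3 970)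
(mv 1034 (cons (fin 1033 0 1033)
(fin 974 2 970)))))))
(mv 1228 (cons (fin 1292 6 1036)
(mv 1035 (cons (fin 1163 4 971)
(fin 907 4 907))))))))))
(cons (cons (mv 970 (cons (fin 972 0 970)
(mv 1035 (cons (fin 1036 3 970)
(mv 1163 (cons (fin 906 7 906)
(mv 1226 (cons (fin 1162 5 970)
(mv 1227 (cons (fin 1290 5 1034)
(fin 1034 7 970)))))))))))
(mv 972 (cons (fin 970 0 970)
(mv 1036 (cons (mv 1164 (cons (fin 907 7 907)
(fin 1228 6 972)))
(mv 908 (cons (fin 1163 5 907)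
(fin 844 4 844))))))))
(cons (mv 970 (cons (fin 972 0 970)
(mv 1035 (cons (cons (mv 1163 (cons (fin 906 7 906)
(mv 1164 (cons (fin 1228 4 971)
(fin 907 4 907)))))
(mv 907 (cons (fin 1164 4 907)
(mv 906 (cons (fin 842 7 842)
(mv 844 (cons (fin 908 6 843)
(mv 843 (cons (fin 780 6 779)
(mv 779 (cons (fin 1034 5 778)
(fin 715 5 714))))))))))))
(cons (mv 1164 (cons (fin 907 4 907)
(mv 1228 (cons (fin 1292 7 1035)
(fin 1163 4 971)))))
(mv 1163 (cons (fin 906 7 906)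
(mv 1226 (cons (fin 1162 5 970)
(mv 1227 (cons (fin 1290 5 1034)
(fin 1034 7 970))))))))))))
(mv 970 (cons (fin 972 0 970)
(mv 1035 (cons (fin 1036 3 970)
(mv 907 (cons (fin 1164 4 907)
(mv 906 (cons (fin 842 7 842)
(mv 844 (cons (fin 908 6 843)
(mv 843 (cons (fin 780 6 779)
(mv 779 (cons (fin 1034 5 778)
(fin 715 5 714))))))))))))))))))))
(cons (mv 909 (cons (cons (mv 1036 (cons (fin 845 5 844)
(mv 908 (cons (fin 844 7 844)
(mv 972 (cons (fin 1163 5 907)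
(mv 970 (cons (fin 971 0 970)
(mv 907 (cons (fin 843 7 843)
(mv 974 (cons (fin 975 3 907)
(fin 906 0 906)))))))))))))
(mv 908 (cons (fin 844 7 844)
(mv 910 (cons (fin 846 6 845)
(mv 972 (cons (mv 971 (cons (fin 911 1 907)
(fin 970 0 970)))
(cons (mv 1163 (cons (fin 1036 5 907)
(mv 911 (cons (fin 912 1 908)
(mv 975 (cons (fin 976 0 908)
(mv 974 (cons (fin 907 3 907)
(mv 847 (cons (fin 848 2 844)
(fin 783 5 782)))))))))))
(mv 1163 (cons (fin 1036 5 907)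
(mv 971 (cons (fin 970 0 970)
(fin 1035 6 907)))))))))))))
(cons (mv 910 (cons (fin 846 6 845)
(mv 845 (cons (fin 1036 5 844)
(mv 781 (cons (fin 974 4 781)
(mv 716 (cons (fin 780 7 716)
(mv 717 (cons (fin 652 7 652)
(mv 718 (cons (fin 782 6 717)
(fin 654 6 653)))))))))))))
(cons (mv 908 (cons (fin 844 7 844)
(mv 846 (cons (fin 910 6 845)
(mv 845 (cons (fin 782 6 781)
(mv 974 (cons (fin 781 4 781)
(mv 975 (cons (fin 976 3 908)
(mv 907 (cons (fin 972 3 907)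
(fin 906 0 906)))))))))))))
(mv 1036 (cons (fin 845 5 844)
(mv 908 (cons (fin 844 7 844)
(mv 972 (cons (fin 1163 5 907)
(mv 970 (cons (fin 971 0 970)
(mv 907 (cons (fin 843 7 843)
(mv 906 (cons (fin 969 1 905)
(fin 905 0 905)))))))))))))))))
(mv 909 (cons (fin 1164 5 908)
(mv 908 (cons (fin 844 7 844)
(mv 846 (cons (fin 910 6 845)
(mv 845 (cons (fin 782 6 781)
(mv 974 (cons (fin 781 4 781)
(mv 975 (cons (fin 976 3 908)
(mv 907 (cons (fin 972 3 907)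
(fin 906 0 906)))))))))))))))))))))))))
(cons (cons (mv 1039 (cons (fin 1038 1 1036)
(mv 1103 (cons (fin 1102 2 1036)
(mv 1164 (cons (cons (mv 1228 (cons (fin 1292 6 1036)
(mv 973 (cons (fin 909 5 908)
(fin 1036 6 972)))))
(mv 973 (cons (fin 909 5 908)
(mv 975 (cons (cons (mv 974 (cons (fin 972 0 972)
(mv 1167 (cons (fin 910 7 910)
(mv 976 (cons (fin 1036 1 972)
(fin 1231 6 975)))))))
(mv 911 (cons (mv 1104 (cons (fin 1168 4 911)
(fin 847 4 847)))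
(cons (mv 912 (cons (fin 848 6 847)
(mv 976 (cons (fin 1167 6 911)
(mv 846 (cons (fin 910 7 846)
(mv 847 (cons (fin 782 7 782)
(fin 783 4 783)))))))))
(mv 1104 (cons (fin 1168 4 911)
(mv 910 (cons (fin 846 7 846)
(mv 912 (cons (fin 848 6 847)
(mv 1167 (cons (fin 976 5 911)
(mv 1230 (cons (fin 1166 5 974)
(mv 1231 (cons (fin 1294 5 1038)
(fin 1295 6 1039)))))))))))))))))
(cons (mv 974 (cons (fin 972 0 972)
(mv 1167 (cons (fin 910 7 910)
(mv 1230 (cons (fin 1166 5 974)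
(mv 1231 (cons (fin 1294 5 1038)
(mv 1104 (cons (fin 1295 6 1039)
(mv 911 (cons (fin 1168 4 911)
(fin 847 4 847)))))))))))))
(mv 974 (cons (fin 972 0 972)
(mv 976 (cons (fin 1036 1 972)
(mv 912 (cons (fin 913 2 909)
(fin 848 5 847)))))))))))))
(cons (mv 1228 (cons (fin 1292 6 1036)
(mv 1036 (cons (cons (mv 1293 (cons (fin 1229 4 1036)
(mv 1227 (cons (fin 1291 5 1035)
(mv 1163 (cons (fin 972 5 971)
(mv 1162 (cons (fin 1161 2 1097)
(mv 1035 (cons (fin 971 7 971)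
(mv 1034 (cons (fin 1033 0 1033)
(mv 1098 (cons (fin 1097 1 1033)
(fin 970 4 970)))))))))))))))
(cons (mv 1293 (cons (fin 1229 4 1036)
(mv 1227 (cons (fin 1291 5 1035)
(mv 972 (cons (fin 1163 5 971)
(mv 907 (cons (fin 971 7 907)
(mv 908 (cons (fin 843 7 843)
(fin 844 4 844)))))))))))
(mv 1229 (cons (fin 1293 4 1036)
(mv 971 (cons (fin 1035 7 971)
(mv 972 (cons (fin 907 7 907)
(mv 908 (cons (fin 844 4 844)
(mv 909 (cons (fin 845 6 844)
(mv 911 (cons (fin 910 1 907)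
(mv 975 (cons (mv 1104 (cons (fin 1168 4 911)
(fin 847 4 847)))
(cons (mv 912 (cons (fin 848 6 847)
(mv 1167 (cons (fin 976 6 911)
(mv 1230 (cons (fin 1166 5 974)
(mv 1231 (cons (fin 1163 3 1163)
(fin 1168 2 1164)))))))))
(mv 969 (cons (fin 970 0 969)
(mv 912 (cons (fin 848 6 847)
(mv 976 (cons (fin 1167 6 911)
(mv 847 (cons (fin 1104 7 847)
(fin 783 4 783))))))))))))))))))))))))))
(cons (cons (mv 1227 (cons (fin 1291 5 1035)
(mv 1229 (cons (fin 1293 4 1036)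
(mv 1163 (cons (fin 972 5 971)
(mv 1230 (cons (fin 1162 3 1162)
(fin 1231 3 1163)))))))))
(mv 1227 (cons (fin 1291 5 1035)
(mv 1163 (cons (fin 972 5 971)
(mv 1162 (cons (fin 1161 2 1097)
(mv 1035 (cons (fin 971 7 971)
(mv 1034 (cons (fin 1033 0 1033)
(mv 1098 (cons (fin 1097 1 1033)
(fin 970 4 970))))))))))))))
(cons (mv 1227 (cons (fin 1291 5 1035)
(mv 1229 (cons (fin 1293 4 1036)
(mv 1035 (cons (fin 971 7 971)
(mv 1034 (cons (fin 1033 0 1033)
(mv 1098 (cons (fin 1097 1 1033)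
(mv 970 (cons (fin 969 3 969)
(mv 1162 (cons (fin 1163 4 970)
(mv 1161 (cons (fin 1226 3 1161)
(fin 1225 5 969)))))))))))))))))
(mv 1229 (cons (fin 1293 4 1036)
(mv 971 (cons (fin 1035 7 971)
(mv 972 (cons (fin 907 7 907)
(mv 908 (cons (fin 844 4 844)
(mv 909 (cons (fin 845 6 844)
(mv 911 (cons (fin 910 1 907)
(mv 975 (cons (mv 1104 (cons (fin 1168 4 911)
(fin 847 4 847)))
(cons (mv 912 (cons (fin 848 6 847)
(mv 1167 (cons (fin 976 6 911)
(mv 1230 (cons (fin 1166 5 974)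
(mv 1231 (cons (fin 1168 2 1164)
(fin 1294 5 1038)))))))))
(mv 1291 (cons (fin 1227 5 1035)
(mv 969 (cons (fin 970 0 969)
(mv 847 (cons (fin 1104 4 847)
(mv 848 (cons (fin 912 6 847)
(fin 784 6 783))))))))))))))))))))))))))))))
(cons (mv 1228 (cons (fin 1292 6 1036)
(mv 1036 (cons (fin 973 6 972)
(mv 1293 (cons (fin 1229 4 1036)
(mv 1227 (cons (fin 1291 5 1035)
(mv 1163 (cons (fin 972 5 971)
(mv 1162 (cons (fin 1161 2 1097)
(mv 1035 (cons (fin 971 7 971)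
(mv 1034 (cons (fin 1033 0 1033)
(mv 1098 (cons (fin 1097 1 1033)
(fin 970 4 970)))))))))))))))))))
(mv 1292 (cons (fin 1228 6 1036)
(mv 973 (cons (fin 909 5 908)
(mv 975 (cons (cons (mv 974 (cons (fin 972 0 972)
(mv 1167 (cons (fin 910 7 910)
(mv 976 (cons (fin 1231 6 975)
(fin 912 6 911)))))))
(mv 911 (cons (mv 1104 (cons (fin 1168 4 911)
(fin 847 4 847)))
(cons (mv 912 (cons (fin 848 6 847)
(mv 976 (cons (fin 1167 6 911)
(mv 846 (cons (fin 910 7 846)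
(mv 847 (cons (fin 782 7 782)
(fin 783 4 783)))))))))
(mv 1104 (cons (fin 1168 4 911)
(mv 910 (cons (fin 846 7 846)
(mv 912 (cons (fin 848 6 847)
(mv 1167 (cons (fin 976 5 911)
(mv 1230 (cons (fin 1166 5 974)
(mv 1231 (cons (fin 1294 5 1038)
(fin 1295 6 1039)))))))))))))))))
(cons (mv 974 (cons (fin 972 0 972)
(mv 911 (cons (mv 1104 (cons (fin 1168 4 911)
(fin 847 4 847)))
(mv 910 (cons (fin 846 7 846)
(mv 912 (cons (fin 913 1 909)
(fin 848 6 847)))))))))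
(cons (mv 974 (cons (fin 972 0 972)
(mv 1167 (cons (fin 910 7 910)
(mv 1230 (cons (fin 1166 5 974)
(mv 1231 (cons (fin 1294 5 1038)
(fin 976 6 975)))))))))
(mv 972 (cons (fin 974 0 972)
(mv 911 (cons (mv 1104 (cons (fin 1168 4 911)
(fin 847 4 847)))
(cons (mv 848 (cons (fin 912 6 847)
(mv 847 (cons (fin 784 6 783)
(mv 782 (cons (fin 846 7 782)
(mv 783 (cons (fin 718 7 718)
(fin 976 4 783)))))))))
(mv 1104 (cons (fin 1168 4 911)
(mv 912 (cons (fin 848 6 847)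
(mv 1167 (cons (fin 976 5 911)
(mv 1230 (cons (fin 1166 5 974)
(mv 1231 (cons (fin 1294 5 1038)
(fin 1295 6 1039))))))))))))))))))))))))))))))))
(cons (mv 1038 (cons (fin 1039 1 1036)
(mv 1099 (cons (fin 1098 2 1034)
(mv 1102 (cons (cons (mv 1162 (cons (fin 1163 1 1098)
(mv 1166 (cons (fin 1167 0 1099)
(mv 1294 (cons (fin 1230 7 1037)
(mv 1035 (cons (fin 1034 3 1034)
(mv 1036 (cons (fin 1103 3 1035)
(mv 971 (cons (fin 970 3 970)
(mv 1164 (cons (fin 1228 7 971)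
(fin 907 4 907)))))))))))))))
(cons (mv 1162 (cons (fin 1163 1 1098)
(mv 1167 (cons (fin 1166 0 1099)
(mv 1103 (cons (fin 1168 0 1100)
(mv 1104 (cons (fin 1036 3 1036)
(fin 1105 3 1037)))))))))
(mv 1162 (cons (fin 1163 1 1098)
(mv 1035 (cons (fin 1034 3 1034)
(mv 1103 (cons (fin 1036 3 1035)
(mv 1168 (cons (fin 1167 0 1100)
(mv 1104 (cons (fin 1105 3 1037)
(fin 1169 0 1101)))))))))))))
(cons (cons (mv 1166 (cons (fin 1167 0 1099)
(mv 1294 (cons (fin 1230 7 1037)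
(mv 1035 (cons (fin 1034 3 1034)
(mv 1036 (cons (fin 1103 3 1035)
(mv 971 (cons (fin 970 3 970)
(mv 1164 (cons (fin 1228 7 971)
(fin 907 4 907)))))))))))))
(mv 1162 (cons (fin 1163 1 1098)
(mv 1035 (cons (fin 1034 3 1034)
(mv 1036 (cons (fin 1103 3 1035)
(mv 971 (cons (fin 970 3 970)
(mv 1164 (cons (fin 1228 7 971)
(fin 907 4 907))))))))))))
(cons (mv 1163 (cons (fin 1162 1 1098)
(mv 1166 (cons (fin 1167 0 1099)
(mv 1230 (cons (fin 1294 7 1037)
(mv 1229 (cons (fin 1293 5 1037)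
(mv 1231 (cons (fin 1295 4 1038)
(mv 1228 (cons (fin 1164 3 1163)
(mv 1291 (cons (fin 1292 1 1227)
(mv 1227 (cons (fin 1290 1 1226)
(fin 1036 6 1035)))))))))))))))))
(mv 1163 (cons (fin 1162 1 1098)
(mv 1164 (cons (fin 1103 1 1099)
(mv 1228 (cons (fin 1292 6 1036)
(mv 1035 (cons (fin 1034 3 1034)
(fin 971 4 971)))))))))))))))))
(mv 1038 (cons (fin 1039 1 1036)
(mv 1164 (cons (cons (mv 1228 (cons (fin 1292 6 1036)
(mv 973 (cons (fin 909 5 908)
(fin 1036 6 972)))))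
(mv 1228 (cons (fin 1292 6 1036)
(mv 1036 (cons (cons (mv 1291 (cons (fin 1227 5 1035)
(mv 1293 (cons (fin 1229 4 1036)
(mv 1035 (cons (fin 971 7 971)
(mv 1102 (cons (fin 1103 3 1035)
(fin 1034 0 1034)))))))))
(mv 1293 (cons (fin 1229 4 1036)
(mv 1227 (cons (fin 1291 5 1035)
(mv 1163 (cons (fin 972 5 971)
(mv 1162 (cons (fin 1161 2 1097)
(mv 1102 (cons (fin 1099 1 1098)
(fin 1103 1 1099))))))))))))
(cons (mv 1293 (cons (fin 1229 4 1036)
(mv 1035 (cons (fin 971 7 971)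
(mv 1102 (cons (fin 1103 3 1035)
(fin 1034 0 1034)))))))
(cons (mv 1291 (cons (fin 1227 5 1035)
(mv 1035 (cons (fin 971 7 971)
(mv 1102 (cons (fin 1103 3 1035)
(fin 1034 0 1034)))))))
(mv 1293 (cons (fin 1229 4 1036)
(mv 1227 (cons (fin 1291 5 1035)
(mv 1163 (cons (fin 972 5 971)
(mv 1161 (cons (fin 1162 2 1097)
(mv 1035 (cons (fin 971 7 971)
(mv 1034 (cons (fin 1033 0 1033)
(mv 970 (cons (fin 969 3 969)
(fin 1099 7 970))))))))))))))))))))))
(cons (mv 973 (cons (fin 909 5 908)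
(mv 1102 (cons (cons (mv 1230 (cons (fin 1166 7 973)
(mv 1163 (cons (fin 1103 1 1099)
(mv 1162 (cons (fin 1099 1 1098)
(fin 1161 2 1097)))))))
(mv 1166 (cons (fin 1230 7 973)
(mv 1167 (cons (fin 1099 0 1099)
(mv 1168 (cons (fin 1169 3 1101)
(mv 974 (cons (fin 1231 4 974)
(mv 975 (cons (fin 911 6 910)
(mv 1036 (cons (fin 976 1 972)
(fin 1035 2 971))))))))))))))
(cons (mv 1163 (cons (fin 1103 1 1099)
(mv 1162 (cons (fin 1099 1 1098)
(fin 1161 2 1097)))))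
(mv 1230 (cons (fin 1166 7 973)
(mv 1103 (cons (fin 1163 1 1099)
(mv 1104 (cons (fin 1036 3 1036)
(fin 1105 3 1037))))))))))))
(mv 1292 (cons (fin 1228 6 1036)
(mv 973 (cons (fin 909 5 908)
(mv 1102 (cons (cons (mv 1230 (cons (fin 1166 7 973)
(mv 1163 (cons (fin 1103 1 1099)
(mv 1162 (cons (fin 1099 1 1098)
(fin 1161 2 1097)))))))
(mv 1163 (cons (fin 1103 1 1099)
(mv 1162 (cons (fin 1099 1 1098)
(fin 1161 2 1097))))))
(cons (mv 1166 (cons (fin 1230 7 973)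
(mv 1167 (cons (fin 1099 0 1099)
(mv 1168 (cons (fin 1169 3 1101)
(mv 974 (cons (fin 1231 4 974)
(mv 910 (cons (fin 846 5 845)
(mv 911 (cons (fin 975 6 910)
(fin 847 6 846)))))))))))))
(mv 1230 (cons (fin 1166 7 973)
(mv 1103 (cons (fin 1163 1 1099)
(mv 1168 (cons (fin 1167 0 1100)
(mv 1104 (cons (fin 1105 3 1037)
(fin 1169 0 1101)))))))))))))))))))))))
(cons (mv 1038 (cons (fin 1039 1 1036)
(mv 1099 (cons (fin 1098 2 1034)
(mv 1102 (cons (cons (mv 1162 (cons (fin 1163 1 1098)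
(mv 1166 (cons (fin 1167 0 1099)
(mv 1230 (cons (fin 1294 7 1037)
(fin 973 7 973)))))))
(mv 1163 (cons (fin 1162 1 1098)
(mv 1164 (cons (fin 1103 1 1099)
(mv 1292 (cons (fin 1228 6 1036)
(mv 1035 (cons (fin 1034 3 1034)
(mv 971 (cons (fin 907 4 907)
(mv 970 (cons (fin 906 7 906)
(mv 972 (cons (fin 973 0 970)
(fin 908 6 907))))))))))))))))
(cons (mv 1166 (cons (fin 1167 0 1099)
(mv 1230 (cons (fin 1294 7 1037)
(fin 973 7 973)))))
(mv 1163 (cons (fin 1162 1 1098)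
(mv 1164 (cons (fin 1103 1 1099)
(mv 1228 (cons (fin 1292 6 1036)
(mv 1035 (cons (fin 1034 3 1034)
(fin 971 4 971))))))))))))))))
(cons (mv 1038 (cons (fin 1039 1 1036)
(mv 1099 (cons (fin 1098 2 1034)
(mv 1102 (cons (cons (mv 1162 (cons (fin 1163 1 1098)
(mv 1166 (cons (fin 1167 0 1099)
(mv 1230 (cons (fin 1294 7 1037)
(fin 973 7 973)))))))
(mv 1163 (cons (fin 1162 1 1098)
(mv 1164 (cons (fin 1103 1 1099)
(mv 1228 (cons (fin 1292 6 1036)
(mv 973 (cons (fin 909 5 908)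
(fin 1036 6 972))))))))))
(cons (mv 1166 (cons (fin 1167 0 1099)
(mv 1230 (cons (fin 1294 7 1037)
(fin 973 7 973)))))
(mv 1162 (cons (fin 1163 1 1098)
(mv 1167 (cons (fin 1166 0 1099)
(mv 1103 (cons (fin 1168 0 1100)
(mv 1104 (cons (fin 1036 3 1036)
(fin 1105 3 1037))))))))))))))))
(mv 1038 (cons (fin 1039 1 1036)
(mv 1099 (cons (fin 1098 2 1034)
(mv 1102 (cons (mv 1166 (cons (fin 1167 0 1099)
(mv 1230 (cons (fin 1294 7 1037)
(fin 973 7 973)))))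
(cons (mv 1035 (cons (fin 1034 3 1034)
(mv 1103 (cons (fin 1036 3 1035)
(mv 1168 (cons (fin 1167 0 1100)
(mv 1104 (cons (fin 1105 3 1037)
(fin 1169 0 1101)))))))))
(mv 1035 (cons (fin 1034 3 1034)
(mv 1036 (cons (fin 1103 3 1035)
(mv 970 (cons (fin 971 3 970)
(mv 974 (cons (fin 975 2 971)
(mv 910 (cons (fin 846 5 845)
(mv 909 (cons (fin 845 7 845)
(mv 973 (cons (fin 1164 5 908)
(fin 1166 7 909)))))))))))))))))))))))))))
(mv 1038 (cons (cons (mv 1039 (cons (fin 1100 1 1036)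
(mv 1104 (cons (fin 1105 0 1037)
(mv 1103 (cons (fin 1036 0 1036)
(mv 972 (cons (fin 973 3 972)
(mv 976 (cons (fin 977 2 973)
(mv 1167 (cons (fin 912 5 911)
(fin 1231 6 975)))))))))))))
(cons (mv 1165 (cons (cons (mv 1229 (cons (fin 974 6 973)
(mv 1292 (cons (fin 1228 5 1036)
(mv 1356 (cons (fin 1293 5 1100)
(mv 1230 (cons (fin 1294 4 1037)
(mv 972 (cons (fin 1036 7 972)
(mv 973 (cons (fin 908 7 908)
(fin 1166 4 973)))))))))))))
(cons (mv 973 (cons (cons (mv 1228 (cons (fin 1164 5 972)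
(mv 1230 (cons (fin 1166 4 973)
(mv 972 (cons (fin 908 7 908)
(mv 971 (cons (fin 970 0 970)
(mv 974 (cons (fin 910 6 909)
(mv 1035 (cons (fin 1034 1 970)
(mv 1036 (cons (fin 975 1 971)
(mv 1098 (cons (fin 1099 1 1034)
(mv 907 (cons (fin 906 3 906)
(mv 843 (cons (fin 1100 4 843)
(fin 779 4 779)))))))))))))))))))))
(cons (mv 1230 (cons (fin 1166 4 973)
(mv 1164 (cons (fin 1228 5 972)
(mv 1100 (cons (fin 909 5 908)
(mv 1098 (cons (fin 1099 2 1034)
(mv 972 (cons (fin 908 7 908)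
(mv 971 (cons (fin 970 0 970)
(mv 1036 (cons (fin 907 7 907)
(mv 1163 (cons (fin 1227 5 971)
(mv 1162 (cons (fin 1097 3 1097)
(fin 1161 2 1097)))))))))))))))))))
(mv 1230 (cons (fin 1166 4 973)
(mv 1164 (cons (fin 1228 5 972)
(mv 974 (cons (fin 910 6 909)
(mv 909 (cons (fin 1100 5 908)
(mv 844 (cons (fin 908 7 844)
(mv 845 (cons (fin 780 7 780)
(fin 781 4 781)))))))))))))))
(cons (cons (mv 1230 (cons (fin 1166 4 973)
(mv 972 (cons (fin 908 7 908)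
(mv 971 (cons (fin 970 0 970)
(mv 974 (cons (fin 910 6 909)
(mv 1035 (cons (fin 1034 1 970)
(mv 1036 (cons (fin 975 1 971)
(mv 1098 (cons (fin 1099 1 1034)
(mv 907 (cons (fin 906 3 906)
(mv 843 (cons (fin 1100 4 843)
(fin 779 4 779)))))))))))))))))))
(mv 1230 (cons (fin 1166 4 973)
(mv 1164 (cons (fin 1228 5 972)
(mv 909 (cons (fin 1100 5 908)
(mv 910 (cons (fin 974 6 909)
(fin 846 6 845))))))))))
(cons (mv 1228 (cons (fin 1164 5 972)
(mv 972 (cons (fin 908 7 908)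
(mv 971 (cons (fin 970 0 970)
(mv 974 (cons (fin 910 6 909)
(mv 1035 (cons (fin 1034 1 970)
(mv 1036 (cons (fin 975 1 971)
(mv 1098 (cons (fin 1099 1 1034)
(mv 907 (cons (fin 906 3 906)
(mv 843 (cons (fin 1100 4 843)
(fin 779 4 779)))))))))))))))))))
(mv 1228 (cons (fin 1164 5 972)
(mv 1230 (cons (fin 1166 4 973)
(mv 972 (cons (fin 908 7 908)
(mv 971 (cons (fin 970 0 970)
(mv 974 (cons (fin 910 6 909)
(mv 1035 (cons (fin 1034 1 970)
(mv 975 (cons (fin 1036 1 971)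
(mv 976 (cons (fin 977 1 973)
(mv 912 (cons (fin 911 2 908)
(fin 913 2 909)))))))))))))))))))))))
(mv 973 (cons (cons (mv 1228 (cons (fin 1164 5 972)
(mv 1229 (cons (fin 1292 5 1036)
(mv 1230 (cons (fin 1294 4 1037)
(fin 1166 4 973)))))))
(mv 1230 (cons (fin 1166 4 973)
(mv 1229 (cons (fin 1294 4 1037)
(mv 972 (cons (fin 1036 7 972)
(fin 908 7 908))))))))
(cons (mv 1228 (cons (fin 1164 5 972)
(mv 1229 (cons (fin 1292 5 1036)
(mv 972 (cons (fin 1036 7 972)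
(fin 908 7 908)))))))
(mv 1230 (cons (fin 1166 4 973)
(mv 1164 (cons (fin 1228 5 972)
(mv 1100 (cons (fin 909 5 908)
(mv 1098 (cons (fin 1099 2 1034)
(mv 972 (cons (fin 908 7 908)
(mv 971 (cons (fin 970 0 970)
(mv 1036 (cons (fin 907 7 907)
(mv 1163 (cons (fin 1227 5 971)
(mv 1162 (cons (fin 1097 3 1097)
(fin 1161 2 1097))))))))))))))))))))))))
(cons (mv 1229 (cons (fin 974 6 973)
(mv 1292 (cons (fin 1228 5 1036)
(mv 1293 (cons (fin 1356 5 1100)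
(mv 1294 (cons (fin 1358 4 1101)
(fin 1230 4 1037)))))))))
(cons (mv 1229 (cons (fin 974 6 973)
(mv 1294 (cons (fin 1230 4 1037)
(mv 1293 (cons (fin 1358 4 1101)
(mv 1036 (cons (fin 1100 7 1036)
(fin 972 7 972)))))))))
(mv 1229 (cons (fin 974 6 973)
(mv 1292 (cons (fin 1228 5 1036)
(mv 1293 (cons (fin 1356 5 1100)
(mv 1036 (cons (fin 1100 7 1036)
(fin 972 7 972)))))))))))))
(mv 1039 (cons (cons (mv 1104 (cons (fin 1105 0 1037)
(mv 1103 (cons (fin 1036 0 1036)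
(mv 972 (cons (fin 973 3 972)
(mv 976 (cons (fin 977 2 973)
(mv 1167 (cons (fin 912 5 911)
(fin 1231 6 975)))))))))))
(mv 1104 (cons (fin 1105 0 1037)
(mv 1103 (cons (fin 1036 0 1036)
(mv 976 (cons (fin 977 2 973)
(mv 1167 (cons (fin 912 5 911)
(fin 1231 6 975))))))))))
(cons (mv 1104 (cons (fin 1105 0 1037)
(mv 1036 (cons (fin 1103 0 1036)
(mv 972 (cons (fin 971 3 971)
(fin 973 3 972)))))))
(cons (mv 972 (cons (fin 973 3 972)
(mv 1036 (cons (fin 971 3 971)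
(mv 976 (cons (fin 975 2 972)
(fin 977 2 973)))))))
(mv 1104 (cons (fin 1105 0 1037)
(mv 972 (cons (fin 973 3 972)
(mv 976 (cons (fin 977 2 973)
(mv 912 (cons (mv 1103 (cons (fin 1167 5 911)
(fin 848 5 847)))
(mv 911 (cons (fin 847 7 847)
(mv 975 (cons (fin 1168 7 911)
(mv 913 (cons (fin 849 6 848)
(mv 914 (cons (fin 974 1 910)
(fin 915 1 911)))))))))))))))))))))))
(cons (cons (mv 1100 (cons (fin 1039 1 1036)
(mv 1036 (cons (cons (cons (mv 1098 (cons (fin 1099 2 1034)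
(mv 1035 (cons (mv 1034 (cons (fin 1097 1 1033)
(fin 1033 0 1033)))
(mv 971 (cons (fin 970 3 970)
(mv 1164 (cons (fin 1228 7 971)
(mv 907 (cons (fin 972 7 907)
(fin 843 4 843)))))))))))
(mv 1165 (cons (mv 1229 (cons (fin 1293 7 1036)
(fin 972 7 972)))
(cons (mv 972 (cons (fin 908 4 908)
(mv 1164 (cons (cons (mv 1292 (cons (fin 1228 6 1036)
(mv 1227 (cons (fin 1163 5 971)
(mv 971 (cons (fin 907 7 907)
(mv 970 (cons (fin 1035 3 970)
(fin 969 0 969)))))))))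
(mv 1227 (cons (fin 1163 5 971)
(mv 971 (cons (fin 907 7 907)
(mv 970 (cons (fin 1035 3 970)
(fin 969 0 969))))))))
(cons (mv 1227 (cons (fin 1163 5 971)
(mv 1228 (cons (fin 1291 5 1035)
(fin 1292 6 1036)))))
(mv 1292 (cons (fin 1228 6 1036)
(mv 971 (cons (fin 907 7 907)
(mv 970 (cons (fin 1035 3 970)
(fin 969 0 969))))))))))))
(mv 1229 (cons (fin 1293 7 1036)
(fin 974 6 973)))))))
(cons (mv 1098 (cons (fin 1099 2 1034)
(mv 972 (cons (mv 1165 (cons (fin 1229 7 972)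
(fin 908 4 908)))
(cons (mv 908 (cons (fin 844 4 844)
(mv 907 (cons (fin 843 7 843)
(mv 1164 (cons (fin 971 7 907)
(mv 1227 (cons (fin 1163 5 971)
(mv 1228 (cons (fin 1291 5 1035)
(fin 1292 6 1036)))))))))))
(mv 1164 (cons (cons (mv 1292 (cons (fin 1228 6 1036)
(mv 1163 (cons (fin 1227 5 971)
(mv 1162 (cons (fin 1161 2 1097)
(mv 1165 (cons (fin 1097 3 1097)
(fin 1229 7 972)))))))))
(mv 1292 (cons (fin 1228 6 1036)
(mv 1163 (cons (fin 1227 5 971)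
(mv 1162 (cons (fin 1161 2 1097)
(mv 1097 (cons (fin 1165 3 1097)
(mv 1095 (cons (fin 1096 0 1095)
(mv 971 (cons (fin 907 7 907)
(mv 969 (cons (fin 970 0 969)
(mv 1033 (cons (fin 905 4 905)
(mv 1226 (cons (fin 1290 7 1033)
(fin 1034 7 969))))))))))))))))))))
(cons (mv 1227 (cons (fin 1163 5 971)
(mv 1228 (cons (fin 1291 5 1035)
(fin 1292 6 1036)))))
(cons (mv 1163 (cons (fin 1227 5 971)
(mv 1162 (cons (fin 1161 2 1097)
(mv 1165 (cons (fin 1097 3 1097)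
(fin 1229 7 972)))))))
(mv 1228 (cons (fin 1292 6 1036)
(mv 1229 (cons (fin 1165 7 972)
(fin 1293 4 1036))))))))))))))
(mv 1035 (cons (cons (mv 1098 (cons (fin 1099 1 1034)
(mv 1034 (cons (fin 1097 1 1033)
(fin 1033 0 1033)))))
(mv 1033 (cons (fin 1034 0 1033)
(mv 971 (cons (fin 970 3 970)
(mv 1164 (cons (fin 1228 7 971)
(mv 907 (cons (fin 1099 4 907)
(fin 843 4 843))))))))))
(cons (mv 1034 (cons (fin 1033 0 1033)
(mv 970 (cons (fin 969 3 969)
(fin 971 3 970)))))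
(mv 1099 (cons (fin 1098 1 1034)
(mv 971 (cons (fin 970 3 970)
(mv 1164 (cons (fin 1228 7 971)
(fin 907 4 907))))))))))))
(cons (cons (mv 1165 (cons (mv 1229 (cons (fin 1293 7 1036)
(fin 972 7 972)))
(cons (mv 908 (cons (fin 972 4 908)
(mv 1035 (cons (cons (mv 1098 (cons (fin 1099 1 1034)
(mv 1034 (cons (fin 1097 1 1033)
(fin 1033 0 1033)))))
(mv 1033 (cons (fin 1034 0 1033)
(mv 971 (cons (fin 970 3 970)
(mv 974 (cons (fin 975 2 971)
(mv 907 (cons (fin 843 4 843)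
(mv 844 (cons (fin 1099 6 843)
(mv 846 (cons (fin 910 5 845)
(mv 845 (cons (fin 847 1 843)
(mv 906 (cons (fin 905 2 841)
(fin 909 2 842))))))))))))))))))
(cons (mv 1034 (cons (fin 1033 0 1033)
(mv 970 (cons (fin 969 3 969)
(fin 971 3 970)))))
(mv 1099 (cons (fin 1098 1 1034)
(mv 971 (cons (fin 970 3 970)
(mv 907 (cons (fin 843 4 843)
(fin 844 6 843))))))))))))
(mv 1229 (cons (fin 1293 7 1036)
(fin 974 6 973))))))
(mv 1098 (cons (fin 1099 2 1034)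
(mv 974 (cons (cons (mv 1229 (cons (fin 1165 6 973)
(mv 1035 (cons (fin 975 2 971)
(mv 1034 (cons (fin 1097 1 1033)
(fin 1033 0 1033)))))))
(mv 1035 (cons (fin 975 2 971)
(mv 1034 (cons (fin 1097 1 1033)
(fin 1033 0 1033))))))
(cons (mv 910 (cons (fin 846 5 845)
(mv 1164 (cons (cons (mv 1292 (cons (fin 1228 6 1036)
(mv 1165 (cons (fin 1229 6 973)
(mv 972 (cons (fin 908 4 908)
(mv 1163 (cons (fin 1227 5 971)
(mv 1162 (cons (fin 1097 3 1097)
(fin 1161 2 1097)))))))))))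
(mv 1228 (cons (fin 1292 6 1036)
(mv 1293 (cons (fin 1229 4 1036)
(mv 1227 (cons (fin 1291 5 1035)
(mv 972 (cons (fin 1163 5 971)
(mv 908 (cons (fin 844 4 844)
(mv 907 (cons (fin 843 7 843)
(mv 909 (cons (fin 975 0 907)
(fin 845 6 844))))))))))))))))
(cons (mv 1228 (cons (fin 1292 6 1036)
(mv 1227 (cons (fin 1291 5 1035)
(mv 1163 (cons (fin 972 5 971)
(mv 1162 (cons (fin 1161 2 1097)
(mv 1165 (cons (fin 1097 3 1097)
(mv 1226 (cons (fin 1225 1 1161)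
(fin 1166 1 1162)))))))))))))
(cons (mv 1165 (cons (fin 1229 6 973)
(mv 972 (cons (fin 908 4 908)
(mv 1163 (cons (fin 1227 5 971)
(mv 1162 (cons (fin 1097 3 1097)
(fin 1161 2 1097)))))))))
(mv 1228 (cons (fin 1292 6 1036)
(mv 1229 (cons (fin 1293 4 1036)
(fin 1165 6 973)))))))))))
(cons (mv 910 (cons (fin 846 5 845)
(mv 1164 (cons (cons (mv 1292 (cons (fin 1228 6 1036)
(mv 1165 (cons (fin 1229 6 973)
(mv 972 (cons (fin 908 4 908)
(mv 1163 (cons (fin 1227 5 971)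
(mv 1162 (cons (fin 1097 3 1097)
(fin 1161 2 1097)))))))))))
(mv 1228 (cons (fin 1292 6 1036)
(mv 1293 (cons (fin 1229 4 1036)
(mv 1227 (cons (fin 1291 5 1035)
(mv 1163 (cons (fin 972 5 971)
(mv 1162 (cons (fin 1161 2 1097)
(mv 1034 (cons (fin 970 4 970)
(mv 1035 (cons (fin 1097 1 1033)
(fin 1033 0 1033))))))))))))))))
(cons (mv 1228 (cons (fin 1292 6 1036)
(mv 1227 (cons (fin 1291 5 1035)
(mv 1163 (cons (fin 972 5 971)
(mv 1162 (cons (fin 1161 2 1097)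
(mv 1165 (cons (fin 1097 3 1097)
(mv 1226 (cons (fin 1225 1 1161)
(fin 1166 1 1162)))))))))))))
(cons (mv 1165 (cons (fin 1229 6 973)
(mv 972 (cons (fin 908 4 908)
(mv 1163 (cons (fin 1227 5 971)
(mv 1162 (cons (fin 1097 3 1097)
(fin 1161 2 1097)))))))))
(mv 1228 (cons (fin 1292 6 1036)
(mv 1229 (cons (fin 1293 4 1036)
(fin 1165 6 973)))))))))))
(mv 1165 (cons (fin 1229 6 973)
(mv 975 (cons (fin 1035 2 971)
(mv 976 (cons (fin 977 1 973)
(mv 908 (cons (fin 972 4 908)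
(mv 910 (cons (fin 846 5 845)
(mv 909 (cons (fin 907 0 907)
(fin 911 0 908))))))))))))))))))))
(cons (mv 1098 (cons (fin 1099 2 1034)
(mv 1165 (cons (mv 1229 (cons (fin 1293 7 1036)
(fin 972 7 972)))
(cons (mv 972 (cons (fin 908 4 908)
(mv 1164 (cons (mv 1292 (cons (fin 1228 6 1036)
(mv 1163 (cons (fin 1227 5 971)
(mv 1162 (cons (fin 1097 3 1097)
(fin 1161 2 1097)))))))
(cons (mv 1163 (cons (fin 1227 5 971)
(mv 1162 (cons (fin 1097 3 1097)
(fin 1161 2 1097)))))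
(mv 1228 (cons (fin 1292 6 1036)
(mv 971 (cons (fin 1035 7 971)
(fin 907 7 907))))))))))
(mv 1229 (cons (fin 1293 7 1036)
(fin 974 6 973))))))))
(mv 1098 (cons (fin 1099 2 1034)
(mv 1165 (cons (mv 1229 (cons (fin 1293 7 1036)
(fin 972 7 972)))
(cons (mv 972 (cons (fin 908 4 908)
(mv 1035 (cons (mv 1034 (cons (fin 1097 1 1033)
(fin 1033 0 1033)))
(cons (mv 971 (cons (fin 970 3 970)
(mv 1164 (cons (fin 1228 7 971)
(mv 1163 (cons (fin 1227 5 971)
(mv 1162 (cons (fin 1097 3 1097)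
(fin 1161 2 1097)))))))))
(mv 1034 (cons (fin 1033 0 1033)
(mv 970 (cons (fin 969 3 969)
(fin 971 3 970))))))))))
(mv 1229 (cons (fin 1293 7 1036)
(fin 974 6 973))))))))))))))
(mv 1039 (cons (fin 1100 1 1036)
(mv 1104 (cons (fin 1105 0 1037)
(mv 1103 (cons (fin 1036 0 1036)
(mv 976 (cons (fin 977 2 973)
(mv 1167 (cons (fin 912 5 911)
(fin 1231 6 975))))))))))))
(cons (mv 1039 (cons (fin 1100 1 1036)
(mv 1104 (cons (fin 1105 0 1037)
(mv 1036 (cons (fin 1103 0 1036)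
(mv 972 (cons (fin 971 3 971)
(fin 973 3 972)))))))))
(mv 1039 (cons (fin 1100 1 1036)
(mv 1104 (cons (fin 1105 0 1037)
(mv 972 (cons (fin 973 3 972)
(mv 976 (cons (fin 977 2 973)
(mv 912 (cons (mv 1103 (cons (fin 1167 5 911)
(fin 848 5 847)))
(mv 911 (cons (fin 847 7 847)
(mv 975 (cons (fin 1168 7 911)
(mv 913 (cons (fin 849 6 848)
(mv 914 (cons (fin 974 1 910)
(fin 915 1 911))))))))))))))))))))))))
(cons (mv 1038 (cons (cons (cons (mv 1039 (cons (fin 1100 1 1036)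
(mv 1104 (cons (fin 1105 0 1037)
(mv 972 (cons (fin 973 3 972)
(mv 976 (cons (fin 977 2 973)
(mv 912 (cons (cons (mv 1103 (cons (fin 1167 5 911)
(fin 848 5 847)))
(mv 911 (cons (fin 847 7 847)
(mv 1168 (cons (fin 975 7 911)
(mv 1231 (cons (fin 1167 5 975)
(mv 1233 (cons (fin 1169 4 976)
(mv 849 (cons (fin 913 6 848)
(mv 848 (cons (fin 785 6 784)
(mv 910 (cons (fin 909 2 845)
(mv 974 (cons (fin 846 5 845)
(mv 1165 (cons (fin 1102 5 909)
(fin 1229 6 973))))))))))))))))))))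
(cons (mv 1167 (cons (fin 1103 5 911)
(mv 1168 (cons (fin 1231 5 975)
(mv 911 (cons (fin 975 7 911)
(fin 847 7 847)))))))
(mv 1103 (cons (fin 848 5 847)
(mv 911 (cons (fin 847 7 847)
(mv 1168 (cons (fin 975 7 911)
(mv 1169 (cons (fin 1102 0 1101)
(fin 1233 4 976))))))))))))))))))))
(mv 974 (cons (cons (mv 1165 (cons (fin 1229 6 973)
(mv 910 (cons (fin 1102 5 909)
(fin 846 5 845)))))
(mv 1165 (cons (fin 1229 6 973)
(mv 973 (cons (cons (mv 1228 (cons (fin 1164 5 972)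
(mv 1230 (cons (fin 1166 4 973)
(mv 908 (cons (fin 972 7 908)
(mv 909 (cons (fin 844 7 844)
(mv 845 (cons (fin 1102 4 845)
(fin 781 4 781)))))))))))
(cons (mv 1228 (cons (fin 1164 5 972)
(mv 908 (cons (fin 972 7 908)
(mv 909 (cons (fin 844 7 844)
(mv 845 (cons (fin 1102 4 845)
(fin 781 4 781)))))))))
(mv 1228 (cons (fin 1164 5 972)
(mv 1166 (cons (fin 1230 4 973)
(mv 1102 (cons (fin 909 7 909)
(mv 1167 (cons (fin 1231 4 974)
(mv 1168 (cons (fin 1100 3 1100)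
(fin 1169 3 1101)))))))))))))
(cons (mv 1230 (cons (fin 1166 4 973)
(mv 908 (cons (fin 972 7 908)
(mv 909 (cons (fin 844 7 844)
(mv 845 (cons (fin 1102 4 845)
(fin 781 4 781)))))))))
(cons (mv 1230 (cons (fin 1166 4 973)
(mv 1164 (cons (fin 1228 5 972)
(mv 972 (cons (fin 908 7 908)
(mv 971 (cons (fin 970 0 970)
(mv 1035 (cons (fin 1034 1 970)
(mv 907 (cons (fin 906 3 906)
(mv 1099 (cons (fin 1100 4 907)
(mv 1162 (cons (fin 1098 5 906)
(mv 1163 (cons (fin 1102 2 1098)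
(fin 1226 5 970)))))))))))))))))))
(mv 1230 (cons (fin 1166 4 973)
(mv 1164 (cons (fin 1228 5 972)
(mv 1100 (cons (fin 909 5 908)
(mv 1099 (cons (fin 1098 2 1034)
(mv 972 (cons (fin 908 7 908)
(mv 971 (cons (fin 970 0 970)
(mv 1035 (cons (fin 1034 1 970)
(fin 907 4 907))))))))))))))))))))))
(cons (mv 910 (cons (fin 846 5 845)
(mv 1102 (cons (cons (mv 1167 (cons (fin 1103 4 910)
(mv 1166 (cons (fin 1231 4 974)
(mv 1230 (cons (fin 1294 7 1037)
(fin 973 7 973)))))))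
(mv 909 (cons (fin 845 7 845)
(mv 1166 (cons (fin 973 7 909)
(mv 911 (cons (fin 975 6 910)
(fin 847 6 846))))))))
(cons (mv 1103 (cons (fin 1167 4 910)
(mv 1104 (cons (fin 1105 3 1037)
(mv 1168 (cons (fin 1169 0 1101)
(mv 909 (cons (fin 845 7 845)
(mv 911 (cons (fin 847 6 846)
(mv 975 (cons (fin 976 7 911)
(mv 908 (cons (fin 907 0 907)
(mv 844 (cons (fin 843 3 843)
(fin 973 7 844)))))))))))))))))
(mv 1167 (cons (fin 1103 4 910)
(mv 1166 (cons (fin 1231 4 974)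
(mv 911 (cons (fin 975 6 910)
(fin 847 6 846))))))))))))
(mv 1165 (cons (fin 1229 6 973)
(mv 910 (cons (fin 846 5 845)
(fin 973 6 909)))))))))
(cons (mv 1039 (cons (cons (mv 1104 (cons (fin 1105 0 1037)
(mv 972 (cons (fin 973 3 972)
(mv 976 (cons (fin 977 2 973)
(mv 912 (cons (cons (mv 1103 (cons (fin 1167 5 911)
(fin 848 5 847)))
(mv 911 (cons (fin 847 7 847)
(mv 1168 (cons (fin 975 7 911)
(mv 1231 (cons (fin 1167 5 975)
(mv 1233 (cons (fin 1169 4 976)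
(mv 849 (cons (fin 913 6 848)
(mv 848 (cons (fin 785 6 784)
(mv 910 (cons (fin 909 2 845)
(mv 974 (cons (fin 846 5 845)
(mv 1165 (cons (fin 1102 5 909)
(fin 1229 6 973))))))))))))))))))))
(cons (mv 1167 (cons (fin 1103 5 911)
(mv 1168 (cons (fin 1231 5 975)
(mv 911 (cons (fin 975 7 911)
(fin 847 7 847)))))))
(mv 1103 (cons (fin 848 5 847)
(mv 911 (cons (fin 847 7 847)
(mv 1168 (cons (fin 975 7 911)
(mv 1169 (cons (fin 1102 0 1101)
(fin 1233 4 976))))))))))))))))))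
(mv 1104 (cons (fin 1105 0 1037)
(mv 976 (cons (fin 977 2 973)
(mv 912 (cons (cons (mv 1103 (cons (fin 1167 5 911)
(fin 848 5 847)))
(mv 911 (cons (fin 847 7 847)
(mv 1168 (cons (fin 975 7 911)
(mv 1231 (cons (fin 1167 5 975)
(mv 1233 (cons (fin 1169 4 976)
(mv 849 (cons (fin 913 6 848)
(mv 848 (cons (fin 785 6 784)
(mv 910 (cons (fin 909 2 845)
(mv 974 (cons (fin 846 5 845)
(mv 1165 (cons (fin 1102 5 909)
(fin 1229 6 973))))))))))))))))))))
(cons (mv 1167 (cons (fin 1103 5 911)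
(mv 1168 (cons (fin 1231 5 975)
(mv 911 (cons (fin 975 7 911)
(fin 847 7 847)))))))
(mv 1103 (cons (fin 848 5 847)
(mv 911 (cons (fin 847 7 847)
(mv 1168 (cons (fin 975 7 911)
(mv 1169 (cons (fin 1102 0 1101)
(fin 1233 4 976)))))))))))))))))
(cons (mv 1104 (cons (fin 1105 0 1037)
(mv 973 (cons (fin 972 3 972)
(mv 1165 (cons (cons (mv 974 (cons (fin 1229 6 973)
(fin 910 6 909)))
(mv 1228 (cons (fin 1164 5 972)
(mv 1292 (cons (fin 1229 5 1036)
(mv 1166 (cons (fin 1230 4 973)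
(mv 909 (cons (fin 1102 4 909)
(mv 844 (cons (fin 908 7 844)
(mv 845 (cons (fin 780 7 780)
(mv 846 (cons (fin 910 6 845)
(fin 782 6 781))))))))))))))))
(cons (mv 1228 (cons (fin 1164 5 972)
(mv 1230 (cons (fin 1166 4 973)
(mv 910 (cons (fin 974 6 909)
(mv 909 (cons (fin 846 6 845)
(mv 844 (cons (fin 908 7 844)
(mv 845 (cons (fin 780 7 780)
(fin 1102 4 845)))))))))))))
(mv 1228 (cons (fin 1164 5 972)
(mv 1229 (cons (fin 1292 5 1036)
(fin 974 6 973))))))))))))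
(cons (mv 973 (cons (fin 972 3 972)
(mv 976 (cons (fin 977 2 973)
(mv 909 (cons (mv 1102 (cons (fin 1166 4 909)
(fin 845 4 845)))
(mv 908 (cons (fin 844 7 844)
(mv 974 (cons (fin 975 3 908)
(mv 1165 (cons (fin 1229 6 973)
(fin 910 6 909)))))))))))))
(mv 1104 (cons (fin 1105 0 1037)
(mv 972 (cons (fin 973 3 972)
(mv 976 (cons (fin 977 2 973)
(mv 912 (cons (mv 1103 (cons (fin 1167 5 911)
(fin 848 5 847)))
(cons (mv 911 (cons (fin 847 7 847)
(mv 975 (cons (fin 1168 7 911)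
(mv 848 (cons (fin 784 5 783)
(mv 849 (cons (fin 913 6 848)
(fin 785 6 784)))))))))
(mv 1167 (cons (fin 1103 5 911)
(mv 1168 (cons (fin 1231 5 975)
(mv 911 (cons (fin 975 7 911)
(fin 847 7 847))))))))))))))))))))
(mv 1100 (cons (fin 1039 1 1036)
(mv 1099 (cons (fin 1098 2 1034)
(mv 1102 (cons (cons (mv 1162 (cons (fin 1163 1 1098)
(mv 1166 (cons (fin 1167 0 1099)
(mv 1230 (cons (fin 1294 7 1037)
(fin 973 7 973)))))))
(mv 1163 (cons (fin 1162 1 1098)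
(mv 1164 (cons (fin 1103 1 1099)
(mv 1292 (cons (fin 1228 6 1036)
(mv 1035 (cons (fin 1034 3 1034)
(mv 971 (cons (fin 907 4 907)
(mv 970 (cons (fin 906 7 906)
(mv 972 (cons (fin 973 0 970)
(fin 908 6 907))))))))))))))))
(cons (mv 1166 (cons (fin 1167 0 1099)
(mv 1230 (cons (fin 1294 7 1037)
(fin 973 7 973)))))
(mv 1163 (cons (fin 1162 1 1098)
(mv 1164 (cons (fin 1103 1 1099)
(mv 1292 (cons (fin 1228 6 1036)
(mv 1166 (cons (fin 1167 0 1099)
(mv 1230 (cons (fin 1294 7 1037)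
(mv 1231 (cons (fin 1165 0 1163)
(fin 1295 4 1038))))))))))))))))))))))
(cons (cons (mv 1100 (cons (fin 1039 1 1036)
(mv 1099 (cons (fin 1098 2 1034)
(mv 1102 (cons (cons (mv 1162 (cons (fin 1163 1 1098)
(mv 1166 (cons (fin 1167 0 1099)
(mv 1230 (cons (fin 1294 7 1037)
(mv 1295 (cons (fin 1231 4 1038)
(mv 1229 (cons (fin 1293 5 1037)
(mv 1034 (cons (fin 1035 3 1034)
(mv 974 (cons (fin 1165 5 973)
(mv 910 (cons (fin 846 5 845)
(mv 911 (cons (fin 975 6 910)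
(fin 847 6 846)))))))))))))))))))
(mv 1163 (cons (fin 1162 1 1098)
(mv 1164 (cons (fin 1103 1 1099)
(mv 1228 (cons (fin 1292 6 1036)
(mv 1035 (cons (fin 1034 3 1034)
(fin 971 4 971))))))))))
(cons (mv 1166 (cons (fin 1167 0 1099)
(mv 1230 (cons (fin 1294 7 1037)
(mv 1295 (cons (fin 1231 4 1038)
(mv 1229 (cons (fin 1293 5 1037)
(mv 1034 (cons (fin 1035 3 1034)
(mv 974 (cons (fin 1165 5 973)
(mv 910 (cons (fin 846 5 845)
(mv 911 (cons (fin 975 6 910)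
(fin 847 6 846)))))))))))))))))
(mv 1162 (cons (fin 1163 1 1098)
(mv 1166 (cons (fin 1167 0 1099)
(mv 1230 (cons (fin 1294 7 1037)
(mv 1295 (cons (fin 1231 4 1038)
(mv 1229 (cons (fin 1293 5 1037)
(mv 974 (cons (fin 1165 5 973)
(mv 910 (cons (fin 846 5 845)
(mv 911 (cons (fin 975 6 910)
(fin 847 6 846))))))))))))))))))))))))
(mv 1100 (cons (fin 1039 1 1036)
(mv 1099 (cons (fin 1098 2 1034)
(mv 1102 (cons (cons (mv 1162 (cons (fin 1163 1 1098)
(mv 1166 (cons (fin 1167 0 1099)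
(mv 1230 (cons (fin 1294 7 1037)
(fin 973 7 973)))))))
(mv 1163 (cons (fin 1162 1 1098)
(mv 1164 (cons (fin 1103 1 1099)
(mv 1292 (cons (fin 1228 6 1036)
(mv 1035 (cons (fin 1034 3 1034)
(mv 971 (cons (fin 907 4 907)
(mv 970 (cons (fin 906 7 906)
(mv 972 (cons (fin 973 0 970)
(fin 908 6 907))))))))))))))))
(cons (mv 1166 (cons (fin 1167 0 1099)
(mv 1230 (cons (fin 1294 7 1037)
(fin 973 7 973)))))
(mv 1163 (cons (fin 1162 1 1098)
(mv 1164 (cons (fin 1103 1 1099)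
(mv 1228 (cons (fin 1292 6 1036)
(mv 1035 (cons (fin 1034 3 1034)
(fin 971 4 971)))))))))))))))))
(cons (mv 1039 (cons (fin 1100 1 1036)
(mv 1104 (cons (fin 1105 0 1037)
(mv 972 (cons (fin 973 3 972)
(mv 976 (cons (fin 977 2 973)
(mv 912 (cons (mv 1103 (cons (fin 1167 5 911)
(fin 848 5 847)))
(mv 911 (cons (fin 847 7 847)
(mv 975 (cons (fin 1168 7 911)
(mv 913 (cons (fin 849 6 848)
(mv 914 (cons (fin 974 1 910)
(fin 915 1 911)))))))))))))))))))
(cons (mv 1100 (cons (fin 1039 1 1036)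
(mv 1099 (cons (fin 1098 2 1034)
(mv 1102 (cons (cons (mv 1162 (cons (fin 1163 1 1098)
(mv 1166 (cons (fin 1167 0 1099)
(mv 1230 (cons (fin 1294 7 1037)
(fin 973 7 973)))))))
(mv 1162 (cons (fin 1163 1 1098)
(mv 1035 (cons (fin 1034 3 1034)
(mv 1165 (cons (mv 1229 (cons (fin 1293 6 1037)
(fin 974 6 973)))
(cons (mv 974 (cons (fin 910 5 909)
(mv 973 (cons (mv 1164 (cons (fin 1228 5 972)
(fin 909 5 908)))
(cons (mv 908 (cons (fin 972 7 908)
(mv 909 (cons (fin 844 7 844)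
(fin 845 4 845)))))
(mv 1164 (cons (fin 1228 5 972)
(mv 971 (cons (fin 907 4 907)
(mv 972 (cons (fin 970 0 970)
(fin 908 7 908))))))))))))
(mv 1229 (cons (fin 1293 6 1037)
(mv 1294 (cons (fin 1230 4 1037)
(mv 1228 (cons (fin 1292 5 1036)
(mv 973 (cons (fin 1164 5 972)
(mv 908 (cons (fin 972 7 908)
(mv 909 (cons (fin 844 7 844)
(fin 845 4 845)))))))))))))))))))))
(cons (mv 1166 (cons (fin 1167 0 1099)
(mv 1230 (cons (fin 1294 7 1037)
(fin 973 7 973)))))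
(cons (mv 1162 (cons (fin 1163 1 1098)
(mv 1166 (cons (fin 1167 0 1099)
(mv 1230 (cons (fin 1294 7 1037)
(mv 1295 (cons (fin 1231 4 1038)
(mv 1229 (cons (fin 1293 5 1037)
(mv 1034 (cons (fin 1035 3 1034)
(mv 974 (cons (fin 1165 5 973)
(mv 910 (cons (fin 846 5 845)
(mv 911 (cons (fin 975 6 910)
(fin 847 6 846)))))))))))))))))))
(mv 1162 (cons (fin 1163 1 1098)
(mv 1166 (cons (fin 1167 0 1099)
(mv 1035 (cons (fin 1034 3 1034)
(mv 973 (cons (fin 909 4 909)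
(mv 1165 (cons (mv 1229 (cons (fin 974 5 973)
(fin 1293 6 1037)))
(cons (mv 1293 (cons (fin 1229 6 1037)
(mv 1164 (cons (fin 1228 5 972)
(mv 971 (cons (fin 907 4 907)
(mv 972 (cons (fin 970 0 970)
(fin 908 7 908)))))))))
(mv 1164 (cons (fin 1228 5 972)
(mv 971 (cons (fin 907 4 907)
(mv 972 (cons (fin 970 0 970)
(fin 908 7 908))))))))))))))))))))))))))
(mv 1100 (cons (fin 1039 1 1036)
(mv 1099 (cons (fin 1098 2 1034)
(mv 1102 (cons (cons (mv 1163 (cons (fin 1162 1 1098)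
(mv 1164 (cons (fin 1103 1 1099)
(mv 1292 (cons (fin 1228 6 1036)
(mv 1035 (cons (fin 1034 3 1034)
(mv 971 (cons (fin 907 4 907)
(mv 970 (cons (fin 906 7 906)
(mv 972 (cons (fin 973 0 970)
(fin 908 6 907)))))))))))))))
(mv 1035 (cons (fin 1034 3 1034)
(mv 973 (cons (mv 1166 (cons (fin 1230 7 973)
(fin 909 4 909)))
(cons (mv 1230 (cons (fin 1166 7 973)
(mv 1165 (cons (mv 1229 (cons (fin 1294 4 1037)
(fin 1293 6 1037)))
(mv 1164 (cons (fin 1228 5 972)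
(mv 1103 (cons (fin 1104 1 1100)
(mv 971 (cons (fin 907 4 907)
(mv 972 (cons (fin 970 0 970)
(fin 908 7 908)))))))))))))
(mv 909 (cons (fin 1164 5 908)
(fin 845 4 845)))))))))
(cons (mv 1163 (cons (fin 1162 1 1098)
(mv 1164 (cons (fin 1103 1 1099)
(mv 1228 (cons (fin 1292 6 1036)
(mv 973 (cons (fin 1165 5 972)
(fin 909 5 908)))))))))
(cons (mv 1163 (cons (fin 1162 1 1098)
(mv 1164 (cons (fin 1103 1 1099)
(mv 1228 (cons (fin 1292 6 1036)
(mv 1035 (cons (fin 1034 3 1034)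
(fin 971 4 971)))))))))
(mv 1163 (cons (fin 1162 1 1098)
(mv 1035 (cons (fin 1034 3 1034)
(mv 1166 (cons (mv 1230 (cons (fin 1294 7 1037)
(fin 973 7 973)))
(cons (mv 1230 (cons (fin 1294 7 1037)
(mv 1295 (cons (fin 1231 4 1038)
(mv 1229 (cons (fin 1293 5 1037)
(mv 974 (cons (fin 1165 5 973)
(mv 910 (cons (fin 846 5 845)
(mv 911 (cons (fin 975 6 910)
(fin 847 6 846)))))))))))))
(mv 971 (cons (cons (mv 970 (cons (fin 906 7 906)
(mv 972 (cons (fin 973 0 970)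
(fin 908 6 907)))))
(cons (mv 970 (cons (fin 906 7 906)
(mv 908 (cons (fin 972 6 907)
(mv 907 (cons (fin 844 6 843)
(mv 968 (cons (fin 969 2 904)
(mv 910 (cons (fin 909 1 906)
(mv 974 (cons (fin 1165 5 909)
(fin 846 5 845)))))))))))))
(mv 970 (cons (fin 906 7 906)
(mv 973 (cons (fin 972 0 970)
(fin 909 4 909)))))))
(cons (mv 906 (cons (fin 970 7 906)
(mv 907 (cons (fin 842 7 842)
(mv 908 (cons (fin 844 6 843)
(mv 909 (cons (fin 973 4 909)
(mv 846 (cons (fin 845 2 842)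
(mv 910 (cons (fin 847 2 843)
(fin 974 5 845)))))))))))))
(cons (mv 908 (cons (fin 972 6 907)
(mv 907 (cons (fin 844 6 843)
(mv 906 (cons (fin 842 7 842)
(mv 909 (cons (fin 973 4 909)
(mv 846 (cons (fin 845 2 842)
(mv 910 (cons (fin 847 2 843)
(fin 974 5 845)))))))))))))
(mv 972 (cons (fin 908 6 907)
(mv 973 (cons (fin 970 0 970)
(fin 909 4 909)))))))))))))))))))))))))))))
(cons (mv 1038 (cons (cons (mv 1039 (cons (fin 1100 1 1036)
(mv 1104 (cons (fin 1105 0 1037)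
(mv 1103 (cons (fin 1036 0 1036)
(mv 976 (cons (fin 977 2 973)
(mv 1167 (cons (fin 912 5 911)
(fin 1231 6 975)))))))))))
(cons (mv 974 (cons (cons (mv 1165 (cons (fin 1229 6 973)
(mv 910 (cons (fin 1102 5 909)
(fin 846 5 845)))))
(mv 1165 (cons (fin 1229 6 973)
(mv 973 (cons (cons (mv 1228 (cons (fin 1164 5 972)
(mv 1166 (cons (fin 1230 4 973)
(mv 1102 (cons (fin 909 7 909)
(mv 1231 (cons (fin 1167 4 974)
(mv 975 (cons (fin 911 6 910)
(mv 1036 (cons (fin 976 1 972)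
(fin 1035 2 971)))))))))))))
(mv 1164 (cons (fin 1228 5 972)
(mv 909 (cons (fin 1100 5 908)
(mv 845 (cons (fin 1102 4 845)
(fin 781 4 781))))))))
(cons (mv 1166 (cons (fin 1230 4 973)
(mv 1102 (cons (fin 909 7 909)
(mv 1231 (cons (fin 1167 4 974)
(mv 975 (cons (fin 911 6 910)
(mv 1036 (cons (fin 976 1 972)
(fin 1035 2 971)))))))))))
(cons (mv 1228 (cons (fin 1164 5 972)
(mv 1166 (cons (fin 1230 4 973)
(mv 975 (cons (mv 1036 (cons (fin 976 1 972)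
(fin 1035 2 971)))
(mv 1102 (cons (fin 911 6 910)
(mv 1167 (cons (fin 1231 4 974)
(mv 1168 (cons (fin 1100 3 1100)
(fin 1169 3 1101)))))))))))))
(mv 1230 (cons (fin 1166 4 973)
(mv 1164 (cons (fin 1228 5 972)
(mv 909 (cons (fin 1100 5 908)
(mv 844 (cons (fin 908 7 844)
(mv 845 (cons (fin 780 7 780)
(fin 781 4 781))))))))))))))))))
(cons (mv 910 (cons (fin 846 5 845)
(mv 1102 (cons (mv 1167 (cons (fin 1103 4 910)
(mv 1166 (cons (fin 1231 4 974)
(mv 1230 (cons (fin 1294 7 1037)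
(fin 973 7 973)))))))
(cons (mv 909 (cons (fin 845 7 845)
(mv 1166 (cons (fin 973 7 909)
(mv 911 (cons (fin 975 6 910)
(fin 847 6 846)))))))
(mv 1103 (cons (fin 1167 4 910)
(mv 1104 (cons (fin 1036 3 1036)
(fin 1105 3 1037))))))))))
(mv 1165 (cons (fin 1229 6 973)
(mv 910 (cons (fin 846 5 845)
(fin 973 6 909))))))))
(mv 974 (cons (cons (mv 1165 (cons (fin 1229 6 973)
(mv 910 (cons (fin 1102 5 909)
(fin 846 5 845)))))
(mv 1229 (cons (fin 1165 6 973)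
(mv 1039 (cons (cons (mv 1104 (cons (fin 1105 0 1037)
(mv 1103 (cons (fin 1036 0 1036)
(mv 1231 (cons (fin 1167 7 974)
(mv 976 (cons (fin 977 2 973)
(mv 912 (cons (fin 848 5 847)
(mv 911 (cons (fin 847 7 847)
(mv 1168 (cons (fin 975 7 911)
(mv 1169 (cons (fin 1102 0 1101)
(fin 1233 4 976)))))))))))))))))
(cons (mv 1104 (cons (fin 1105 0 1037)
(mv 1036 (cons (fin 1103 0 1036)
(mv 1035 (cons (fin 975 2 971)
(mv 1034 (cons (fin 1102 0 1034)
(fin 973 2 970)))))))))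
(mv 976 (cons (fin 977 2 973)
(mv 975 (cons (fin 1036 2 972)
(mv 912 (cons (mv 1103 (cons (fin 848 5 847)
(fin 1167 6 911)))
(cons (mv 1167 (cons (fin 1103 6 911)
(mv 973 (cons (fin 913 2 909)
(mv 909 (cons (fin 908 3 908)
(mv 1102 (cons (fin 1166 7 909)
(fin 845 4 845)))))))))
(mv 973 (cons (fin 913 2 909)
(mv 909 (cons (fin 908 3 908)
(mv 1102 (cons (fin 1166 7 909)
(fin 845 4 845))))))))))))))))
(cons (mv 1104 (cons (fin 1105 0 1037)
(mv 1103 (cons (fin 1036 0 1036)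
(mv 1167 (cons (fin 1231 7 974)
(mv 976 (cons (fin 977 2 973)
(fin 912 5 911)))))))))
(cons (mv 1104 (cons (fin 1105 0 1037)
(mv 976 (cons (fin 977 2 973)
(mv 912 (cons (mv 1103 (cons (fin 1167 5 911)
(fin 848 5 847)))
(cons (mv 911 (cons (fin 847 7 847)
(mv 1168 (cons (fin 975 7 911)
(mv 1167 (cons (fin 1231 5 975)
(mv 1169 (cons (fin 1233 4 976)
(mv 1166 (cons (fin 1230 1 1165)
(fin 1102 3 1101)))))))))))
(mv 1103 (cons (fin 848 5 847)
(mv 911 (cons (fin 847 7 847)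
(mv 1168 (cons (fin 975 7 911)
(mv 1169 (cons (fin 1102 0 1101)
(fin 1233 4 976))))))))))))))))
(mv 1104 (cons (fin 1105 0 1037)
(mv 976 (cons (fin 977 2 973)
(mv 975 (cons (fin 1036 2 972)
(mv 911 (cons (fin 1168 7 911)
(fin 847 4 847))))))))))))))))
(cons (mv 910 (cons (fin 846 5 845)
(mv 1102 (cons (mv 1167 (cons (fin 1103 4 910)
(mv 1166 (cons (fin 1231 4 974)
(mv 1230 (cons (fin 1294 7 1037)
(fin 973 7 973)))))))
(cons (mv 909 (cons (fin 845 7 845)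
(mv 1166 (cons (fin 973 7 909)
(mv 911 (cons (fin 975 6 910)
(fin 847 6 846)))))))
(mv 1103 (cons (fin 1167 4 910)
(mv 1104 (cons (fin 1036 3 1036)
(fin 1105 3 1037))))))))))
(mv 1165 (cons (fin 1229 6 973)
(mv 910 (cons (fin 846 5 845)
(fin 973 6 909))))))))))
(cons (cons (mv 1100 (cons (fin 1039 1 1036)
(mv 1098 (cons (fin 1099 2 1034)
(mv 974 (cons (cons (mv 1165 (cons (fin 1229 6 973)
(mv 910 (cons (fin 1102 5 909)
(fin 846 5 845)))))
(mv 910 (cons (fin 846 5 845)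
(mv 1102 (cons (cons (mv 1167 (cons (fin 1103 4 910)
(mv 1231 (cons (fin 1166 4 974)
(mv 909 (cons (fin 845 7 845)
(mv 973 (cons (fin 1164 5 908)
(mv 908 (cons (fin 844 7 844)
(mv 975 (cons (fin 976 3 908)
(fin 907 0 907)))))))))))))
(mv 1167 (cons (fin 1103 4 910)
(mv 1166 (cons (fin 1231 4 974)
(mv 1230 (cons (fin 1294 7 1037)
(fin 973 7 973))))))))
(cons (mv 909 (cons (fin 845 7 845)
(mv 973 (cons (fin 1164 5 908)
(fin 1166 7 909)))))
(cons (mv 1167 (cons (fin 1103 4 910)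
(mv 909 (cons (fin 845 7 845)
(mv 973 (cons (fin 1164 5 908)
(mv 908 (cons (fin 844 7 844)
(mv 975 (cons (fin 976 3 908)
(fin 907 0 907)))))))))))
(mv 1167 (cons (fin 1103 4 910)
(mv 1166 (cons (fin 1231 4 974)
(mv 911 (cons (fin 975 6 910)
(fin 847 6 846))))))))))))))
(cons (mv 1165 (cons (fin 1229 6 973)
(mv 973 (cons (mv 1164 (cons (fin 1228 5 972)
(fin 909 5 908)))
(cons (mv 1166 (cons (fin 1230 4 973)
(mv 1167 (cons (fin 1168 3 1100)
(mv 1102 (cons (fin 909 7 909)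
(fin 1231 4 974)))))))
(mv 1228 (cons (fin 1164 5 972)
(mv 1166 (cons (fin 1230 4 973)
(mv 1167 (cons (fin 1168 3 1100)
(mv 1102 (cons (fin 1231 4 974)
(mv 975 (cons (fin 911 6 910)
(mv 1036 (cons (fin 976 1 972)
(fin 1035 2 971))))))))))))))))))
(mv 1165 (cons (fin 1229 6 973)
(mv 910 (cons (fin 846 5 845)
(fin 973 6 909))))))))))))
(mv 1039 (cons (fin 1100 1 1036)
(mv 1104 (cons (fin 1105 0 1037)
(mv 1103 (cons (fin 1036 0 1036)
(mv 974 (cons (cons (mv 1229 (cons (fin 1165 6 973)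
(mv 1167 (cons (fin 1231 7 974)
(mv 910 (cons (fin 846 5 845)
(fin 975 7 910)))))))
(mv 1165 (cons (fin 1229 6 973)
(mv 1164 (cons (fin 1102 1 1100)
(mv 1167 (cons (fin 1166 2 1100)
(fin 1231 7 974))))))))
(cons (mv 1167 (cons (fin 1231 7 974)
(mv 910 (cons (fin 846 5 845)
(fin 975 7 910)))))
(mv 1165 (cons (fin 1229 6 973)
(mv 1102 (cons (fin 1164 1 1100)
(fin 910 5 909)))))))))))))))
(cons (mv 1100 (cons (fin 1039 1 1036)
(mv 1098 (cons (fin 1099 2 1034)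
(mv 974 (cons (cons (mv 1165 (cons (fin 1229 6 973)
(mv 910 (cons (fin 1102 5 909)
(fin 846 5 845)))))
(mv 910 (cons (fin 846 5 845)
(mv 1102 (cons (cons (mv 1167 (cons (fin 1103 4 910)
(mv 1231 (cons (fin 1166 4 974)
(mv 909 (cons (fin 845 7 845)
(mv 973 (cons (fin 1164 5 908)
(mv 908 (cons (fin 844 7 844)
(mv 975 (cons (fin 976 3 908)
(fin 907 0 907)))))))))))))
(mv 1167 (cons (fin 1103 4 910)
(mv 1166 (cons (fin 1231 4 974)
(mv 1230 (cons (fin 1294 7 1037)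
(fin 973 7 973))))))))
(cons (mv 909 (cons (fin 845 7 845)
(mv 973 (cons (fin 1164 5 908)
(fin 1166 7 909)))))
(cons (mv 1167 (cons (fin 1103 4 910)
(mv 909 (cons (fin 845 7 845)
(mv 973 (cons (fin 1164 5 908)
(mv 908 (cons (fin 844 7 844)
(mv 975 (cons (fin 976 3 908)
(fin 907 0 907)))))))))))
(mv 1167 (cons (fin 1103 4 910)
(mv 1166 (cons (fin 1231 4 974)
(mv 911 (cons (fin 975 6 910)
(fin 847 6 846))))))))))))))
(cons (mv 1165 (cons (fin 1229 6 973)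
(mv 973 (cons (mv 1164 (cons (fin 1228 5 972)
(fin 909 5 908)))
(cons (mv 1166 (cons (fin 1230 4 973)
(mv 1167 (cons (fin 1168 3 1100)
(mv 1102 (cons (fin 909 7 909)
(fin 1231 4 974)))))))
(mv 1164 (cons (fin 1228 5 972)
(mv 1166 (cons (fin 1230 4 973)
(mv 1167 (cons (fin 1168 3 1100)
(mv 1102 (cons (fin 1231 4 974)
(mv 1163 (cons (fin 1103 1 1099)
(fin 1162 2 1098))))))))))))))))
(mv 1165 (cons (fin 1229 6 973)
(mv 910 (cons (fin 846 5 845)
(fin 973 6 909))))))))))))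
(mv 1039 (cons (fin 1100 1 1036)
(mv 1104 (cons (fin 1105 0 1037)
(mv 976 (cons (fin 977 2 973)
(mv 975 (cons (fin 1036 2 972)
(mv 911 (cons (fin 1168 7 911)
(fin 847 4 847)))))))))))))))
(mv 1038 (cons (cons (mv 1039 (cons (fin 1100 1 1036)
(mv 1104 (cons (fin 1105 0 1037)
(mv 1103 (cons (fin 1036 0 1036)
(mv 972 (cons (fin 973 3 972)
(mv 976 (cons (fin 977 2 973)
(mv 1167 (cons (fin 912 5 911)
(fin 1231 6 975)))))))))))))
(cons (mv 974 (cons (cons (mv 1165 (cons (fin 1229 6 973)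
(mv 910 (cons (fin 1102 5 909)
(fin 846 5 845)))))
(mv 910 (cons (fin 846 5 845)
(mv 1102 (cons (mv 1167 (cons (fin 1103 4 910)
(mv 1166 (cons (fin 1231 4 974)
(mv 1230 (cons (fin 1294 7 1037)
(fin 973 7 973)))))))
(cons (mv 911 (cons (fin 847 6 846)
(mv 1166 (cons (fin 975 6 910)
(mv 1230 (cons (fin 1294 7 1037)
(fin 973 7 973)))))))
(mv 1103 (cons (fin 1167 4 910)
(mv 1104 (cons (fin 1036 3 1036)
(fin 1105 3 1037)))))))))))
(cons (mv 1165 (cons (fin 1229 6 973)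
(mv 973 (cons (cons (mv 1228 (cons (fin 1164 5 972)
(mv 1230 (cons (fin 1166 4 973)
(mv 972 (cons (fin 908 7 908)
(mv 971 (cons (fin 970 0 970)
(mv 1035 (cons (fin 1034 1 970)
(mv 1036 (cons (fin 975 1 971)
(mv 1098 (cons (fin 1099 1 1034)
(mv 1102 (cons (fin 1103 0 1035)
(mv 907 (cons (fin 906 3 906)
(mv 843 (cons (fin 1100 4 843)
(fin 779 4 779)))))))))))))))))))))
(cons (mv 1228 (cons (fin 1164 5 972)
(mv 1166 (cons (fin 1230 4 973)
(mv 975 (cons (mv 1036 (cons (fin 976 1 972)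
(fin 1035 2 971)))
(mv 1102 (cons (fin 911 6 910)
(mv 1167 (cons (fin 1231 4 974)
(mv 1168 (cons (fin 1100 3 1100)
(fin 1169 3 1101)))))))))))))
(mv 1228 (cons (fin 1164 5 972)
(mv 972 (cons (fin 908 7 908)
(mv 971 (cons (fin 970 0 970)
(mv 1035 (cons (fin 1034 1 970)
(mv 1036 (cons (fin 975 1 971)
(mv 1098 (cons (fin 1099 1 1034)
(mv 1102 (cons (fin 1103 0 1035)
(mv 907 (cons (fin 906 3 906)
(mv 843 (cons (fin 1100 4 843)
(fin 779 4 779)))))))))))))))))))))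
(cons (cons (mv 1230 (cons (fin 1166 4 973)
(mv 972 (cons (fin 908 7 908)
(mv 971 (cons (fin 970 0 970)
(mv 1035 (cons (fin 1034 1 970)
(mv 1036 (cons (fin 975 1 971)
(mv 1098 (cons (fin 1099 1 1034)
(mv 1102 (cons (fin 1103 0 1035)
(mv 907 (cons (fin 906 3 906)
(mv 843 (cons (fin 1100 4 843)
(fin 779 4 779)))))))))))))))))))
(mv 1230 (cons (fin 1166 4 973)
(mv 1164 (cons (fin 1228 5 972)
(mv 972 (cons (fin 908 7 908)
(mv 971 (cons (fin 970 0 970)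
(mv 1035 (cons (fin 1034 1 970)
(mv 907 (cons (fin 906 3 906)
(mv 1099 (cons (fin 1100 4 907)
(mv 1162 (cons (fin 1098 5 906)
(mv 1163 (cons (fin 1102 2 1098)
(fin 1226 5 970))))))))))))))))))))
(cons (mv 1164 (cons (fin 1228 5 972)
(mv 1166 (cons (fin 1230 4 973)
(mv 972 (cons (fin 908 7 908)
(mv 971 (cons (fin 970 0 970)
(mv 907 (cons (fin 906 3 906)
(mv 1100 (cons (fin 1036 7 907)
(mv 1167 (cons (fin 1099 3 1099)
(fin 1168 3 1100)))))))))))))))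
(mv 1228 (cons (fin 1164 5 972)
(mv 1230 (cons (fin 1166 4 973)
(mv 972 (cons (fin 908 7 908)
(mv 971 (cons (fin 970 0 970)
(mv 1035 (cons (fin 1034 1 970)
(mv 975 (cons (fin 1036 1 971)
(mv 976 (cons (fin 977 1 973)
(mv 912 (cons (fin 911 2 908)
(fin 913 2 909)))))))))))))))))))))))
(mv 1165 (cons (fin 1229 6 973)
(mv 910 (cons (fin 846 5 845)
(fin 973 6 909))))))))
(mv 1039 (cons (cons (mv 1104 (cons (fin 1105 0 1037)
(mv 1103 (cons (fin 1036 0 1036)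
(mv 972 (cons (fin 973 3 972)
(mv 976 (cons (fin 977 2 973)
(mv 1167 (cons (fin 912 5 911)
(fin 1231 6 975)))))))))))
(mv 1104 (cons (fin 1105 0 1037)
(mv 1103 (cons (fin 1036 0 1036)
(mv 976 (cons (fin 977 2 973)
(mv 1167 (cons (fin 912 5 911)
(fin 1231 6 975))))))))))
(cons (mv 1104 (cons (fin 1105 0 1037)
(mv 1036 (cons (fin 1103 0 1036)
(mv 972 (cons (fin 971 3 971)
(fin 973 3 972)))))))
(cons (mv 972 (cons (fin 973 3 972)
(mv 1036 (cons (fin 971 3 971)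
(mv 976 (cons (fin 975 2 972)
(fin 977 2 973)))))))
(mv 1104 (cons (fin 1105 0 1037)
(mv 972 (cons (fin 973 3 972)
(mv 976 (cons (fin 977 2 973)
(mv 912 (cons (mv 1103 (cons (fin 1167 5 911)
(fin 848 5 847)))
(cons (mv 911 (cons (fin 847 7 847)
(mv 1168 (cons (fin 975 7 911)
(mv 1167 (cons (fin 1231 5 975)
(mv 1169 (cons (fin 1233 4 976)
(mv 1166 (cons (fin 1102 3 1101)
(mv 1229 (cons (fin 1230 1 1165)
(mv 1165 (cons (fin 1228 1 1164)
(fin 974 6 973)))))))))))))))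
(mv 1103 (cons (fin 848 5 847)
(mv 911 (cons (fin 847 7 847)
(mv 1168 (cons (fin 975 7 911)
(mv 1169 (cons (fin 1102 0 1101)
(fin 1233 4 976))))))))))))))))))))))))
(cons (cons (mv 1039 (cons (fin 1100 1 1036)
(mv 1104 (cons (fin 1105 0 1037)
(mv 1103 (cons (fin 1036 0 1036)
(mv 976 (cons (fin 977 2 973)
(mv 1167 (cons (fin 912 5 911)
(fin 1231 6 975)))))))))))
(mv 1039 (cons (fin 1100 1 1036)
(mv 972 (cons (fin 973 3 972)
(mv 1036 (cons (fin 971 3 971)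
(mv 976 (cons (fin 975 2 972)
(fin 977 2 973))))))))))
(cons (mv 1039 (cons (fin 1100 1 1036)
(mv 1104 (cons (fin 1105 0 1037)
(mv 1036 (cons (fin 1103 0 1036)
(mv 972 (cons (fin 971 3 971)
(fin 973 3 972)))))))))
(mv 1039 (cons (fin 1100 1 1036)
(mv 1104 (cons (fin 1105 0 1037)
(mv 972 (cons (fin 973 3 972)
(mv 976 (cons (fin 977 2 973)
(mv 912 (cons (mv 1103 (cons (fin 1167 5 911)
(fin 848 5 847)))
(cons (mv 911 (cons (fin 847 7 847)
(mv 1168 (cons (fin 975 7 911)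
(mv 1167 (cons (fin 1231 5 975)
(mv 1169 (cons (fin 1233 4 976)
(mv 1166 (cons (fin 1102 3 1101)
(mv 1229 (cons (fin 1230 1 1165)
(mv 1165 (cons (fin 1228 1 1164)
(fin 974 6 973)))))))))))))))
(mv 1103 (cons (fin 848 5 847)
(mv 911 (cons (fin 847 7 847)
(mv 1168 (cons (fin 975 7 911)
(mv 1169 (cons (fin 1102 0 1101)
(fin 1233 4 976))))))))))))))))))))))))))))
(cons (cons (cons (mv 1039 (cons (cons (cons (mv 1038 (cons (fin 1100 1 1036)
(mv 1104 (cons (fin 1105 0 1037)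
(mv 1103 (cons (fin 1036 0 1036)
(mv 972 (cons (fin 973 3 972)
(mv 976 (cons (fin 977 2 973)
(mv 1167 (cons (fin 912 5 911)
(fin 1231 6 975)))))))))))))
(mv 1102 (cons (cons (mv 1103 (cons (fin 1100 2 1036)
(mv 1104 (cons (fin 1036 3 1036)
(mv 1164 (cons (fin 1165 1 1100)
(mv 1169 (cons (fin 1168 0 1101)
(mv 1105 (cons (fin 1170 0 1102)
(mv 1297 (cons (fin 1233 7 1040)
(mv 1106 (cons (fin 1107 3 1039)
(mv 1167 (cons (fin 1166 1 1102)
(mv 1231 (cons (fin 1295 6 1039)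
(fin 976 6 975)))))))))))))))))))
(cons (mv 973 (cons (cons (mv 1166 (cons (fin 909 4 909)
(mv 1230 (cons (fin 1294 7 1037)
(fin 1165 4 973)))))
(mv 1165 (cons (cons (mv 1228 (cons (fin 1164 5 972)
(mv 1230 (cons (fin 1166 4 973)
(mv 972 (cons (fin 908 7 908)
(mv 974 (cons (fin 975 0 972)
(fin 910 6 909)))))))))
(cons (mv 1228 (cons (fin 1164 5 972)
(mv 972 (cons (fin 908 7 908)
(mv 974 (cons (fin 975 0 972)
(fin 910 6 909)))))))
(mv 1164 (cons (fin 1228 5 972)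
(mv 1163 (cons (fin 1162 2 1098)
(mv 1166 (cons (fin 1230 4 973)
(mv 1226 (cons (fin 1227 1 1162)
(mv 1099 (cons (fin 1098 3 1098)
(mv 1167 (cons (fin 1100 3 1099)
(mv 1168 (cons (fin 1169 3 1101)
(mv 1104 (cons (fin 1105 2 1101)
(mv 974 (cons (fin 910 6 909)
(mv 976 (cons (fin 1231 5 975)
(mv 975 (cons (fin 1036 1 972)
(fin 911 7 911)))))))))))))))))))))))))
(cons (mv 1230 (cons (fin 1166 4 973)
(mv 972 (cons (fin 908 7 908)
(mv 974 (cons (fin 975 0 972)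
(fin 910 6 909)))))))
(cons (mv 1164 (cons (fin 1228 5 972)
(mv 1163 (cons (fin 1162 2 1098)
(mv 1166 (cons (fin 1230 4 973)
(mv 1226 (cons (fin 1227 1 1162)
(mv 1099 (cons (fin 1098 3 1098)
(mv 1167 (cons (fin 1100 3 1099)
(mv 1168 (cons (fin 1169 3 1101)
(mv 1104 (cons (fin 1105 2 1101)
(mv 972 (cons (fin 908 7 908)
(mv 976 (cons (fin 1231 5 975)
(mv 911 (cons (fin 975 7 911)
(mv 912 (cons (fin 847 7 847)
(mv 913 (cons (fin 977 6 912)
(fin 849 6 848)))))))))))))))))))))))))))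
(mv 1164 (cons (fin 1228 5 972)
(mv 1163 (cons (fin 1162 2 1098)
(mv 1166 (cons (fin 1230 4 973)
(mv 1227 (cons (fin 1226 1 1162)
(mv 1099 (cons (fin 1098 3 1098)
(mv 1167 (cons (fin 1100 3 1099)
(mv 1168 (cons (fin 1169 3 1101)
(mv 1104 (cons (fin 1105 2 1101)
(mv 1231 (cons (fin 976 5 975)
(mv 972 (cons (fin 908 7 908)
(mv 1035 (cons (fin 1036 6 971)
(mv 1034 (cons (fin 970 7 970)
(mv 974 (cons (fin 971 1 970)
(fin 910 6 909))))))))))))))))))))))))))))))))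
(cons (mv 909 (cons (cons (mv 1164 (cons (fin 1100 5 908)
(mv 1228 (cons (fin 1165 5 972)
(mv 844 (cons (fin 908 7 844)
(mv 845 (cons (fin 780 7 780)
(mv 846 (cons (fin 910 6 845)
(fin 782 6 781)))))))))))
(mv 1164 (cons (fin 1100 5 908)
(mv 1165 (cons (fin 1228 5 972)
(mv 910 (cons (fin 974 6 909)
(fin 846 6 845))))))))
(cons (mv 908 (cons (fin 844 7 844)
(mv 1165 (cons (fin 972 7 908)
(mv 910 (cons (fin 974 6 909)
(fin 846 6 845)))))))
(cons (mv 1164 (cons (fin 1100 5 908)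
(mv 1165 (cons (fin 1228 5 972)
(mv 908 (cons (fin 972 7 908)
(fin 844 7 844)))))))
(mv 1164 (cons (fin 1100 5 908)
(mv 844 (cons (fin 908 7 844)
(mv 845 (cons (fin 780 7 780)
(mv 846 (cons (fin 910 6 845)
(fin 782 6 781)))))))))))))
(mv 909 (cons (fin 1166 4 909)
(mv 1164 (cons (fin 1100 5 908)
(mv 844 (cons (fin 908 7 844)
(mv 845 (cons (fin 780 7 780)
(mv 846 (cons (fin 910 6 845)
(fin 782 6 781))))))))))))))
(mv 1166 (cons (cons (mv 1230 (cons (fin 1294 7 1037)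
(mv 973 (cons (fin 1165 4 973)
(fin 909 4 909)))))
(mv 973 (cons (fin 909 4 909)
(mv 1165 (cons (mv 1228 (cons (fin 1164 5 972)
(mv 972 (cons (fin 908 7 908)
(mv 974 (cons (fin 975 0 972)
(fin 910 6 909)))))))
(cons (mv 972 (cons (fin 908 7 908)
(mv 974 (cons (fin 975 0 972)
(fin 910 6 909)))))
(mv 1164 (cons (fin 1228 5 972)
(mv 1163 (cons (fin 1162 2 1098)
(fin 1103 2 1099)))))))))))
(cons (mv 1230 (cons (fin 1294 7 1037)
(mv 1103 (cons (mv 975 (cons (fin 1167 5 974)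
(fin 911 5 910)))
(mv 1104 (cons (fin 1036 3 1036)
(mv 1165 (cons (fin 1164 1 1100)
(fin 1105 1 1101)))))))))
(mv 1294 (cons (fin 1230 7 1037)
(mv 973 (cons (fin 909 4 909)
(mv 1103 (cons (cons (mv 1104 (cons (fin 1036 3 1036)
(mv 1168 (cons (fin 1169 0 1101)
(mv 975 (cons (fin 911 5 910)
(mv 974 (cons (fin 972 0 972)
(mv 1167 (cons (fin 910 7 910)
(mv 1231 (cons (fin 976 5 975)
(fin 1295 6 1039)))))))))))))
(mv 975 (cons (fin 911 5 910)
(mv 974 (cons (fin 972 0 972)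
(mv 1167 (cons (fin 910 7 910)
(mv 976 (cons (fin 1036 1 972)
(fin 1231 6 975))))))))))
(cons (mv 1104 (cons (fin 1036 3 1036)
(mv 1169 (cons (fin 1168 0 1101)
(mv 1105 (cons (fin 1170 0 1102)
(mv 1106 (cons (fin 1167 1 1102)
(fin 1107 3 1039)))))))))
(cons (mv 975 (cons (fin 911 5 910)
(mv 974 (cons (fin 972 0 972)
(mv 1167 (cons (fin 910 7 910)
(mv 976 (cons (fin 1231 6 975)
(fin 912 6 911)))))))))
(mv 1036 (cons (fin 1104 3 1036)
(mv 1034 (cons (fin 1035 0 1034)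
(mv 975 (cons (fin 911 5 910)
(mv 974 (cons (fin 976 1 972)
(fin 972 0 972))))))))))))))))))))))
(cons (mv 1100 (cons (fin 1103 2 1036)
(mv 1164 (cons (cons (mv 1228 (cons (fin 1292 6 1036)
(mv 973 (cons (fin 1165 5 972)
(fin 909 5 908)))))
(mv 1292 (cons (fin 1228 6 1036)
(mv 1099 (cons (cons (mv 1162 (cons (fin 1163 1 1098)
(mv 1098 (cons (fin 1161 1 1097)
(mv 1097 (cons (fin 1165 0 1097)
(fin 1036 2 1033)))))))
(mv 1034 (cons (fin 1035 3 1034)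
(mv 1098 (cons (fin 1033 3 1033)
(mv 1097 (cons (fin 1165 0 1097)
(fin 1036 2 1033))))))))
(cons (mv 1163 (cons (fin 1162 1 1098)
(mv 1035 (cons (fin 1034 3 1034)
(mv 971 (cons (fin 907 4 907)
(mv 970 (cons (fin 906 7 906)
(mv 972 (cons (fin 908 6 907)
(mv 1036 (cons (fin 969 0 969)
(fin 1227 5 971)))))))))))))
(mv 1162 (cons (fin 1163 1 1098)
(mv 1098 (cons (fin 1161 1 1097)
(mv 1034 (cons (fin 1033 3 1033)
(fin 1035 3 1034)))))))))))))
(cons (mv 973 (cons (fin 909 5 908)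
(mv 1099 (cons (cons (mv 1162 (cons (fin 1163 1 1098)
(mv 1098 (cons (fin 1161 1 1097)
(mv 1097 (cons (fin 1165 0 1097)
(fin 1036 2 1033)))))))
(mv 1034 (cons (fin 1035 3 1034)
(mv 1098 (cons (fin 1033 3 1033)
(mv 1097 (cons (fin 1165 0 1097)
(fin 1036 2 1033))))))))
(cons (mv 1163 (cons (fin 1162 1 1098)
(mv 1035 (cons (fin 1034 3 1034)
(mv 971 (cons (fin 907 4 907)
(mv 970 (cons (fin 906 7 906)
(mv 972 (cons (fin 908 6 907)
(mv 1036 (cons (fin 969 0 969)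
(fin 1227 5 971)))))))))))))
(mv 1162 (cons (fin 1163 1 1098)
(mv 1098 (cons (fin 1161 1 1097)
(mv 1034 (cons (fin 1033 3 1033)
(fin 1035 3 1034))))))))))))
(mv 1228 (cons (fin 1292 6 1036)
(mv 973 (cons (fin 909 5 908)
(fin 1036 6 972))))))))))
(cons (mv 1100 (cons (fin 1103 2 1036)
(mv 1166 (cons (cons (mv 1294 (cons (fin 1230 7 1037)
(mv 1167 (cons (fin 1099 0 1099)
(mv 1168 (cons (fin 1165 3 1100)
(fin 1169 3 1101)))))))
(mv 1230 (cons (fin 1294 7 1037)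
(mv 973 (cons (fin 1165 4 973)
(fin 909 4 909))))))
(cons (mv 1167 (cons (fin 1099 0 1099)
(mv 1168 (cons (fin 1165 3 1100)
(fin 1169 3 1101)))))
(mv 1294 (cons (fin 1230 7 1037)
(mv 1099 (cons (fin 1167 0 1099)
(mv 1162 (cons (fin 1163 1 1098)
(mv 1098 (cons (fin 1161 1 1097)
(mv 1034 (cons (fin 1033 3 1033)
(fin 1035 3 1034))))))))))))))))
(mv 1103 (cons (fin 1100 2 1036)
(mv 1104 (cons (fin 1036 3 1036)
(mv 1169 (cons (fin 1168 0 1101)
(mv 1105 (cons (fin 1170 0 1102)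
(mv 1297 (cons (fin 1233 7 1040)
(mv 1106 (cons (fin 1107 3 1039)
(mv 1167 (cons (fin 1166 1 1102)
(mv 1231 (cons (fin 1295 6 1039)
(fin 976 6 975))))))))))))))))))))))
(cons (mv 1038 (cons (cons (mv 1104 (cons (fin 1105 0 1037)
(mv 1103 (cons (fin 1036 0 1036)
(mv 972 (cons (fin 973 3 972)
(mv 976 (cons (fin 977 2 973)
(mv 1167 (cons (fin 912 5 911)
(fin 1231 6 975)))))))))))
(mv 1104 (cons (fin 1105 0 1037)
(mv 1036 (cons (fin 1103 0 1036)
(mv 972 (cons (fin 971 3 971)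
(fin 973 3 972))))))))
(cons (mv 972 (cons (fin 973 3 972)
(mv 1036 (cons (fin 971 3 971)
(mv 976 (cons (fin 975 2 972)
(fin 977 2 973)))))))
(cons (mv 1104 (cons (fin 1105 0 1037)
(mv 1103 (cons (fin 1036 0 1036)
(mv 976 (cons (fin 977 2 973)
(mv 1167 (cons (fin 912 5 911)
(fin 1231 6 975)))))))))
(mv 1104 (cons (fin 1105 0 1037)
(mv 972 (cons (fin 973 3 972)
(mv 976 (cons (fin 977 2 973)
(mv 912 (cons (cons (mv 1103 (cons (fin 1167 5 911)
(fin 848 5 847)))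
(mv 911 (cons (fin 847 7 847)
(mv 1168 (cons (fin 975 7 911)
(mv 1167 (cons (fin 1231 5 975)
(mv 1169 (cons (fin 1233 4 976)
(mv 1102 (cons (fin 1166 3 1101)
(mv 849 (cons (fin 913 6 848)
(mv 848 (cons (fin 785 6 784)
(mv 910 (cons (fin 909 2 845)
(mv 974 (cons (fin 1165 5 909)
(fin 846 5 845))))))))))))))))))))
(cons (mv 1167 (cons (fin 1103 5 911)
(mv 1168 (cons (fin 1231 5 975)
(mv 911 (cons (fin 975 7 911)
(fin 847 7 847)))))))
(mv 1103 (cons (fin 848 5 847)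
(mv 911 (cons (fin 847 7 847)
(mv 1168 (cons (fin 975 7 911)
(mv 1169 (cons (fin 1102 0 1101)
(fin 1233 4 976))))))))))))))))))))))
(mv 1038 (cons (fin 1100 1 1036)
(mv 1104 (cons (fin 1105 0 1037)
(mv 1103 (cons (fin 1036 0 1036)
(mv 976 (cons (fin 977 2 973)
(mv 1167 (cons (fin 912 5 911)
(fin 1231 6 975)))))))))))))
(cons (cons (mv 1038 (cons (fin 1100 1 1036)
(mv 1104 (cons (fin 1105 0 1037)
(mv 972 (cons (fin 973 3 972)
(mv 1036 (cons (fin 971 3 971)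
(mv 976 (cons (fin 975 2 972)
(fin 977 2 973)))))))))))
(mv 1038 (cons (fin 1100 1 1036)
(mv 1104 (cons (fin 1105 0 1037)
(mv 1036 (cons (fin 1103 0 1036)
(mv 972 (cons (fin 971 3 971)
(fin 973 3 972))))))))))
(cons (mv 1038 (cons (fin 1100 1 1036)
(mv 972 (cons (fin 973 3 972)
(mv 1036 (cons (fin 971 3 971)
(mv 976 (cons (fin 975 2 972)
(fin 977 2 973)))))))))
(mv 1100 (cons (fin 1038 1 1036)
(mv 1102 (cons (fin 1103 2 1036)
(mv 1166 (cons (cons (mv 1294 (cons (fin 1230 7 1037)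
(mv 1167 (cons (fin 1099 0 1099)
(mv 1168 (cons (fin 1165 3 1100)
(fin 1169 3 1101)))))))
(mv 1230 (cons (fin 1294 7 1037)
(mv 973 (cons (fin 1165 4 973)
(fin 909 4 909))))))
(cons (mv 1167 (cons (fin 1099 0 1099)
(mv 1168 (cons (fin 1165 3 1100)
(fin 1169 3 1101)))))
(mv 1294 (cons (fin 1230 7 1037)
(mv 1099 (cons (fin 1167 0 1099)
(mv 1162 (cons (fin 1163 1 1098)
(mv 1098 (cons (fin 1161 1 1097)
(mv 1034 (cons (fin 1033 3 1033)
(fin 1035 3 1034))))))))))))))))))))))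
(mv 1100 (cons (cons (cons (mv 1038 (cons (fin 1039 1 1036)
(mv 1099 (cons (fin 1098 2 1034)
(mv 1102 (cons (cons (mv 1162 (cons (fin 1163 1 1098)
(mv 1166 (cons (fin 1167 0 1099)
(mv 1230 (cons (fin 1294 7 1037)
(fin 973 7 973)))))))
(mv 1162 (cons (fin 1163 1 1098)
(mv 1035 (cons (fin 1034 3 1034)
(mv 1103 (cons (fin 1036 3 1035)
(mv 1168 (cons (fin 1167 0 1100)
(mv 1104 (cons (fin 1105 3 1037)
(fin 1169 0 1101))))))))))))
(cons (mv 1166 (cons (fin 1167 0 1099)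
(mv 1230 (cons (fin 1294 7 1037)
(fin 973 7 973)))))
(mv 1162 (cons (fin 1163 1 1098)
(mv 1035 (cons (fin 1034 3 1034)
(mv 1103 (cons (fin 1036 3 1035)
(mv 1104 (cons (fin 1105 3 1037)
(mv 1165 (cons (fin 1164 1 1100)
(mv 1229 (cons (fin 1293 6 1037)
(mv 1292 (cons (fin 1228 5 1036)
(mv 1230 (cons (fin 1294 4 1037)
(mv 1168 (cons (fin 1169 0 1101)
(mv 973 (cons (fin 1166 7 973)
(mv 908 (cons (fin 972 7 908)
(mv 909 (cons (fin 844 7 844)
(fin 845 4 845))))))))))))))))))))))))))))))))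
(cons (mv 1164 (cons (cons (mv 1228 (cons (fin 1292 6 1036)
(mv 973 (cons (fin 1165 5 972)
(fin 909 5 908)))))
(mv 973 (cons (fin 909 5 908)
(mv 1165 (cons (cons (mv 1230 (cons (fin 1166 4 973)
(mv 1229 (cons (fin 1294 4 1037)
(mv 1293 (cons (fin 1357 7 1100)
(fin 1036 7 1036)))))))
(mv 972 (cons (fin 908 7 908)
(mv 1229 (cons (fin 1036 7 972)
(mv 1293 (cons (fin 1357 7 1100)
(mv 1294 (cons (fin 1358 4 1101)
(fin 1230 4 1037))))))))))
(cons (mv 972 (cons (fin 908 7 908)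
(mv 1036 (cons (fin 1229 7 972)
(mv 1227 (cons (fin 1163 5 971)
(mv 971 (cons (fin 907 7 907)
(mv 970 (cons (fin 969 0 969)
(mv 1034 (cons (fin 1033 1 969)
(mv 1102 (cons (fin 1035 0 1034)
(mv 1103 (cons (fin 1104 1 1100)
(fin 1039 2 1036)))))))))))))))))
(mv 1166 (cons (fin 1230 4 973)
(mv 1167 (cons (fin 1099 3 1099)
(fin 1168 3 1100)))))))))))
(cons (mv 1292 (cons (fin 1228 6 1036)
(mv 1102 (cons (mv 1103 (cons (fin 1163 1 1099)
(fin 1039 2 1036)))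
(cons (mv 1099 (cons (cons (mv 1162 (cons (fin 1163 1 1098)
(mv 1166 (cons (fin 1167 0 1099)
(mv 1098 (cons (fin 1161 1 1097)
(fin 1165 0 1098)))))))
(mv 1162 (cons (fin 1163 1 1098)
(mv 1098 (cons (fin 1161 1 1097)
(mv 1097 (cons (fin 1165 0 1097)
(fin 1036 2 1033))))))))
(cons (mv 1166 (cons (fin 1167 0 1099)
(mv 1294 (cons (fin 1230 7 1037)
(mv 1098 (cons (fin 1165 0 1098)
(mv 1034 (cons (fin 1033 3 1033)
(fin 1035 3 1034)))))))))
(mv 1163 (cons (fin 1162 1 1098)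
(mv 1166 (cons (fin 1167 0 1099)
(mv 1294 (cons (fin 1230 7 1037)
(mv 1035 (cons (fin 1034 3 1034)
(mv 971 (cons (fin 907 4 907)
(mv 970 (cons (fin 906 7 906)
(mv 972 (cons (fin 908 6 907)
(mv 1036 (cons (fin 969 0 969)
(fin 1227 5 971))))))))))))))))))))
(mv 1103 (cons (fin 1039 2 1036)
(mv 1104 (cons (fin 1165 1 1100)
(fin 1036 3 1036))))))))))
(mv 1228 (cons (fin 1292 6 1036)
(mv 973 (cons (fin 909 5 908)
(fin 1036 6 972))))))))
(mv 1164 (cons (cons (mv 1228 (cons (fin 1292 6 1036)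
(mv 973 (cons (fin 1165 5 972)
(fin 909 5 908)))))
(mv 973 (cons (fin 909 5 908)
(mv 1165 (cons (cons (mv 1230 (cons (fin 1166 4 973)
(mv 1229 (cons (fin 1294 4 1037)
(mv 1293 (cons (fin 1357 7 1100)
(fin 1036 7 1036)))))))
(mv 972 (cons (fin 908 7 908)
(mv 1229 (cons (fin 1036 7 972)
(mv 1293 (cons (fin 1357 7 1100)
(mv 1294 (cons (fin 1358 4 1101)
(fin 1230 4 1037))))))))))
(cons (mv 972 (cons (fin 908 7 908)
(mv 1229 (cons (fin 1036 7 972)
(mv 1293 (cons (fin 1357 7 1100)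
(mv 1356 (cons (fin 1292 5 1100)
(mv 1358 (cons (fin 1294 4 1101)
(mv 1102 (cons (fin 1038 6 1037)
(mv 1163 (cons (fin 1103 1 1099)
(fin 1162 2 1098)))))))))))))))
(mv 1166 (cons (fin 1230 4 973)
(mv 1167 (cons (fin 1099 3 1099)
(fin 1168 3 1100)))))))))))
(cons (mv 1292 (cons (fin 1228 6 1036)
(mv 1163 (cons (cons (mv 1162 (cons (fin 1161 2 1097)
(mv 1102 (cons (fin 1099 1 1098)
(fin 1103 1 1099)))))
(mv 1162 (cons (fin 1161 2 1097)
(mv 1165 (cons (mv 1225 (cons (fin 1226 1 1161)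
(mv 1229 (cons (fin 1230 0 1162)
(mv 1293 (cons (fin 1356 5 1100)
(fin 1357 7 1100)))))))
(cons (mv 1225 (cons (fin 1226 1 1161)
(mv 1098 (cons (fin 1097 3 1097)
(mv 1099 (cons (fin 1166 3 1098)
(fin 1038 2 1034)))))))
(mv 1229 (cons (fin 1230 0 1162)
(mv 1293 (cons (fin 1356 5 1100)
(fin 1357 7 1100)))))))))))
(cons (mv 1102 (cons (fin 1103 1 1099)
(mv 1099 (cons (cons (mv 1166 (cons (fin 1167 0 1099)
(mv 1098 (cons (fin 1165 3 1098)
(fin 1038 2 1034)))))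
(mv 1166 (cons (fin 1167 0 1099)
(mv 1294 (cons (fin 1230 7 1037)
(mv 1035 (cons (fin 1034 3 1034)
(mv 971 (cons (fin 907 4 907)
(mv 970 (cons (fin 906 7 906)
(mv 1036 (cons (fin 1038 3 970)
(mv 1227 (cons (fin 972 5 971)
(fin 1291 6 1035))))))))))))))))
(cons (mv 1098 (cons (fin 1038 2 1034)
(mv 1097 (cons (fin 1096 0 1096)
(fin 1165 0 1097)))))
(mv 1166 (cons (fin 1167 0 1099)
(mv 1294 (cons (fin 1230 7 1037)
(mv 1165 (cons (fin 1098 3 1098)
(mv 1226 (cons (fin 1227 1 1162)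
(mv 1035 (cons (fin 1034 3 1034)
(mv 971 (cons (fin 907 4 907)
(mv 970 (cons (fin 906 7 906)
(mv 972 (cons (fin 908 6 907)
(mv 1036 (cons (fin 969 0 969)
(fin 1229 7 972))))))))))))))))))))))))
(mv 1162 (cons (fin 1161 2 1097)
(mv 1102 (cons (fin 1103 1 1099)
(fin 1165 2 1098))))))))))
(cons (mv 973 (cons (fin 909 5 908)
(mv 1228 (cons (fin 1165 5 972)
(fin 1036 6 972)))))
(mv 1228 (cons (fin 1292 6 1036)
(mv 973 (cons (fin 909 5 908)
(fin 1036 6 972)))))))))))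
(cons (mv 1038 (cons (fin 1039 1 1036)
(mv 1099 (cons (fin 1098 2 1034)
(mv 1102 (cons (cons (mv 1162 (cons (fin 1163 1 1098)
(mv 1166 (cons (fin 1167 0 1099)
(mv 1230 (cons (fin 1294 7 1037)
(fin 973 7 973)))))))
(mv 1162 (cons (fin 1163 1 1098)
(mv 1035 (cons (fin 1034 3 1034)
(mv 1103 (cons (fin 1036 3 1035)
(mv 1168 (cons (fin 1167 0 1100)
(mv 1104 (cons (fin 1105 3 1037)
(fin 1169 0 1101))))))))))))
(cons (mv 1162 (cons (fin 1163 1 1098)
(mv 1035 (cons (fin 1034 3 1034)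
(mv 1036 (cons (fin 1103 3 1035)
(mv 971 (cons (fin 970 3 970)
(mv 907 (cons (fin 843 4 843)
(mv 906 (cons (fin 842 7 842)
(mv 908 (cons (fin 844 6 843)
(mv 972 (cons (fin 1165 4 908)
(mv 905 (cons (fin 904 0 904)
(fin 973 0 905)))))))))))))))))))
(mv 1166 (cons (fin 1167 0 1099)
(mv 1230 (cons (fin 1294 7 1037)
(fin 973 7 973))))))))))))
(cons (mv 1038 (cons (fin 1039 1 1036)
(mv 1098 (cons (fin 1099 2 1034)
(mv 973 (cons (cons (mv 1164 (cons (fin 909 5 908)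
(mv 1228 (cons (fin 1165 5 972)
(fin 1292 6 1036)))))
(mv 1165 (cons (cons (mv 1228 (cons (fin 1164 5 972)
(mv 1229 (cons (fin 1292 5 1036)
(mv 1230 (cons (fin 1294 4 1037)
(fin 1166 4 973)))))))
(mv 1230 (cons (fin 1166 4 973)
(mv 1229 (cons (fin 1294 4 1037)
(mv 1036 (cons (fin 1293 7 1036)
(fin 972 7 972))))))))
(cons (mv 1228 (cons (fin 1164 5 972)
(mv 1229 (cons (fin 1292 5 1036)
(mv 1036 (cons (fin 1293 7 1036)
(fin 972 7 972)))))))
(mv 1230 (cons (fin 1166 4 973)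
(mv 1164 (cons (fin 1228 5 972)
(mv 972 (cons (fin 908 7 908)
(mv 971 (cons (fin 970 0 970)
(mv 1036 (cons (fin 907 7 907)
(mv 1163 (cons (fin 1227 5 971)
(mv 1162 (cons (fin 1097 3 1097)
(fin 1161 2 1097)))))))))))))))))))
(cons (mv 909 (cons (cons (mv 1036 (cons (fin 845 5 844)
(mv 908 (cons (fin 844 7 844)
(mv 1165 (cons (fin 972 7 908)
(mv 1229 (cons (fin 1293 7 1036)
(mv 1230 (cons (fin 1294 4 1037)
(fin 1166 4 973)))))))))))
(mv 908 (cons (fin 844 7 844)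
(mv 1165 (cons (fin 972 7 908)
(mv 1230 (cons (fin 1166 4 973)
(mv 1229 (cons (fin 1294 4 1037)
(mv 1292 (cons (fin 1228 5 1036)
(mv 1293 (cons (fin 1356 5 1100)
(fin 1036 7 1036))))))))))))))
(cons (mv 845 (cons (fin 1036 5 844)
(mv 846 (cons (fin 910 6 845)
(fin 782 6 781)))))
(mv 908 (cons (fin 844 7 844)
(mv 972 (cons (fin 1165 7 908)
(mv 971 (cons (fin 970 0 970)
(mv 910 (cons (fin 911 1 907)
(fin 846 6 845))))))))))))
(cons (mv 1164 (cons (fin 909 5 908)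
(mv 1228 (cons (fin 1292 6 1036)
(fin 1036 6 972)))))
(mv 909 (cons (fin 1164 5 908)
(mv 1036 (cons (fin 845 5 844)
(mv 908 (cons (fin 844 7 844)
(mv 1165 (cons (fin 972 7 908)
(mv 1229 (cons (fin 1293 7 1036)
(mv 1230 (cons (fin 1294 4 1037)
(fin 1166 4 973)))))))))))))))))))))
(mv 1038 (cons (fin 1039 1 1036)
(mv 1164 (cons (cons (mv 1228 (cons (fin 1292 6 1036)
(mv 973 (cons (fin 1165 5 972)
(fin 909 5 908)))))
(mv 1228 (cons (fin 1292 6 1036)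
(mv 1036 (cons (cons (mv 1291 (cons (fin 1227 5 1035)
(mv 1293 (cons (fin 1229 4 1036)
(mv 1035 (cons (fin 971 7 971)
(mv 1102 (cons (fin 1103 3 1035)
(fin 1034 0 1034)))))))))
(mv 1291 (cons (fin 1227 5 1035)
(mv 1229 (cons (fin 1293 4 1036)
(mv 1165 (cons (fin 972 7 972)
(mv 1230 (cons (fin 1294 4 1037)
(mv 1163 (cons (fin 1231 3 1163)
(fin 1162 0 1162))))))))))))
(cons (mv 1291 (cons (fin 1227 5 1035)
(mv 1035 (cons (fin 971 7 971)
(mv 1102 (cons (fin 1103 3 1035)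
(fin 1034 0 1034)))))))
(mv 1293 (cons (fin 1229 4 1036)
(mv 1035 (cons (fin 971 7 971)
(mv 1102 (cons (fin 1103 3 1035)
(fin 1034 0 1034)))))))))))))
(cons (mv 973 (cons (fin 909 5 908)
(mv 1165 (cons (cons (mv 1230 (cons (fin 1166 4 973)
(mv 1294 (cons (fin 1229 4 1037)
(mv 972 (cons (fin 908 7 908)
(mv 971 (cons (fin 970 0 970)
(mv 1036 (cons (fin 907 7 907)
(mv 1163 (cons (fin 1227 5 971)
(mv 1162 (cons (fin 1161 2 1097)
(fin 1102 2 1098)))))))))))))))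
(mv 1230 (cons (fin 1166 4 973)
(mv 1229 (cons (fin 1294 4 1037)
(mv 1293 (cons (fin 1357 7 1100)
(fin 1036 7 1036))))))))
(cons (mv 972 (cons (fin 908 7 908)
(mv 1229 (cons (fin 1036 7 972)
(mv 1293 (cons (fin 1357 7 1100)
(fin 1102 6 1037)))))))
(cons (mv 1230 (cons (fin 1166 4 973)
(mv 972 (cons (fin 908 7 908)
(mv 971 (cons (fin 970 0 970)
(mv 1036 (cons (fin 907 7 907)
(mv 1163 (cons (fin 1227 5 971)
(mv 1162 (cons (fin 1161 2 1097)
(fin 1102 2 1098)))))))))))))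
(mv 1230 (cons (fin 1166 4 973)
(mv 1229 (cons (fin 1294 4 1037)
(mv 1293 (cons (fin 1357 7 1100)
(fin 1102 6 1037)))))))))))))
(mv 1228 (cons (fin 1292 6 1036)
(mv 973 (cons (fin 909 5 908)
(fin 1036 6 972)))))))))))))
(cons (cons (mv 1038 (cons (fin 1039 1 1036)
(mv 1099 (cons (fin 1098 2 1034)
(mv 1102 (cons (cons (mv 1162 (cons (fin 1163 1 1098)
(mv 1166 (cons (fin 1167 0 1099)
(mv 1294 (cons (fin 1230 7 1037)
(mv 1035 (cons (fin 1034 3 1034)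
(mv 1036 (cons (fin 1103 3 1035)
(mv 971 (cons (fin 970 3 970)
(mv 1164 (cons (fin 1228 7 971)
(fin 907 4 907)))))))))))))))
(cons (mv 1162 (cons (fin 1163 1 1098)
(mv 1167 (cons (fin 1166 0 1099)
(mv 1103 (cons (fin 1168 0 1100)
(mv 1104 (cons (fin 1036 3 1036)
(fin 1105 3 1037)))))))))
(mv 1166 (cons (fin 1167 0 1099)
(mv 1294 (cons (fin 1230 7 1037)
(mv 1035 (cons (fin 1034 3 1034)
(mv 1036 (cons (fin 1103 3 1035)
(mv 971 (cons (fin 970 3 970)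
(mv 1164 (cons (fin 1228 7 971)
(fin 907 4 907)))))))))))))))
(cons (cons (mv 1162 (cons (fin 1163 1 1098)
(mv 1035 (cons (fin 1034 3 1034)
(mv 1103 (cons (fin 1036 3 1035)
(mv 1168 (cons (fin 1167 0 1100)
(mv 1104 (cons (fin 1105 3 1037)
(fin 1169 0 1101)))))))))))
(mv 1162 (cons (fin 1163 1 1098)
(mv 1035 (cons (fin 1034 3 1034)
(mv 1036 (cons (fin 1103 3 1035)
(mv 971 (cons (fin 970 3 970)
(mv 1164 (cons (fin 1228 7 971)
(fin 907 4 907))))))))))))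
(cons (mv 1163 (cons (fin 1162 1 1098)
(mv 1166 (cons (fin 1167 0 1099)
(mv 1230 (cons (fin 1294 7 1037)
(mv 1293 (cons (fin 1229 5 1037)
(mv 1231 (cons (fin 1295 4 1038)
(mv 1164 (cons (fin 1165 0 1163)
(mv 1292 (cons (fin 1228 6 1036)
(mv 1035 (cons (fin 1034 3 1034)
(mv 971 (cons (fin 907 4 907)
(mv 970 (cons (fin 1036 3 970)
(fin 906 7 906)))))))))))))))))))))
(mv 1163 (cons (fin 1162 1 1098)
(mv 1164 (cons (fin 1103 1 1099)
(mv 1292 (cons (fin 1228 6 1036)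
(mv 1166 (cons (fin 1167 0 1099)
(mv 1230 (cons (fin 1294 7 1037)
(mv 1231 (cons (fin 1165 0 1163)
(fin 1295 4 1038)))))))))))))))))))))
(cons (mv 1038 (cons (fin 1039 1 1036)
(mv 1099 (cons (fin 1098 2 1034)
(mv 1102 (cons (cons (mv 1162 (cons (fin 1163 1 1098)
(mv 1166 (cons (fin 1167 0 1099)
(mv 1230 (cons (fin 1294 7 1037)
(fin 973 7 973)))))))
(mv 1163 (cons (fin 1162 1 1098)
(mv 1164 (cons (fin 1103 1 1099)
(mv 1292 (cons (fin 1228 6 1036)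
(mv 1035 (cons (fin 1034 3 1034)
(mv 971 (cons (fin 907 4 907)
(mv 970 (cons (fin 906 7 906)
(mv 972 (cons (fin 973 0 970)
(fin 908 6 907))))))))))))))))
(cons (mv 1166 (cons (fin 1167 0 1099)
(mv 1230 (cons (fin 1294 7 1037)
(fin 973 7 973)))))
(mv 1163 (cons (fin 1162 1 1098)
(mv 1164 (cons (fin 1103 1 1099)
(mv 1292 (cons (fin 1228 6 1036)
(mv 1166 (cons (fin 1167 0 1099)
(mv 1230 (cons (fin 1294 7 1037)
(mv 1231 (cons (fin 1165 0 1163)
(fin 1295 4 1038))))))))))))))))))))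
(mv 1038 (cons (fin 1039 1 1036)
(mv 1099 (cons (fin 1098 2 1034)
(mv 1102 (cons (cons (mv 1162 (cons (fin 1163 1 1098)
(mv 1166 (cons (fin 1167 0 1099)
(mv 1230 (cons (fin 1294 7 1037)
(fin 973 7 973)))))))
(mv 1162 (cons (fin 1163 1 1098)
(mv 1035 (cons (fin 1034 3 1034)
(mv 1103 (cons (fin 1036 3 1035)
(mv 1168 (cons (fin 1167 0 1100)
(mv 1104 (cons (fin 1105 3 1037)
(fin 1169 0 1101))))))))))))
(cons (mv 1166 (cons (fin 1167 0 1099)
(mv 1230 (cons (fin 1294 7 1037)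
(fin 973 7 973)))))
(mv 1162 (cons (fin 1163 1 1098)
(mv 1035 (cons (fin 1034 3 1034)
(mv 1036 (cons (fin 1103 3 1035)
(mv 971 (cons (fin 970 3 970)
(mv 1164 (cons (fin 1228 7 971)
(fin 907 4 907))))))))))))))))))))
(cons (mv 1038 (cons (fin 1039 1 1036)
(mv 1098 (cons (fin 1099 2 1034)
(mv 973 (cons (cons (mv 1164 (cons (fin 909 5 908)
(mv 1228 (cons (fin 1165 5 972)
(fin 1292 6 1036)))))
(mv 1165 (cons (cons (mv 1228 (cons (fin 1164 5 972)
(mv 1229 (cons (fin 1292 5 1036)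
(mv 1293 (cons (fin 1036 7 1036)
(fin 1102 6 1037)))))))
(mv 972 (cons (fin 908 7 908)
(mv 1229 (cons (fin 1036 7 972)
(mv 1293 (cons (fin 1102 6 1037)
(mv 1294 (cons (fin 1358 4 1101)
(fin 1230 4 1037))))))))))
(cons (mv 1164 (cons (fin 1228 5 972)
(mv 972 (cons (fin 908 7 908)
(mv 971 (cons (fin 970 0 970)
(mv 1036 (cons (fin 907 7 907)
(mv 1163 (cons (fin 1227 5 971)
(mv 1162 (cons (fin 1097 3 1097)
(fin 1161 2 1097)))))))))))))
(mv 1228 (cons (fin 1164 5 972)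
(mv 1229 (cons (fin 1292 5 1036)
(mv 1293 (cons (fin 1102 6 1037)
(mv 1294 (cons (fin 1358 4 1101)
(fin 1230 4 1037)))))))))))))
(cons (mv 909 (cons (mv 845 (cons (fin 1036 5 844)
(fin 1102 4 845)))
(mv 908 (cons (fin 844 7 844)
(mv 972 (cons (fin 1165 7 908)
(mv 971 (cons (fin 970 0 970)
(mv 910 (cons (fin 911 1 907)
(fin 846 6 845)))))))))))
(mv 1164 (cons (fin 909 5 908)
(mv 1228 (cons (fin 1292 6 1036)
(fin 1036 6 972))))))))))))
(cons (mv 1038 (cons (fin 1039 1 1036)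
(mv 1098 (cons (fin 1099 2 1034)
(mv 1164 (cons (cons (mv 1228 (cons (fin 1292 6 1036)
(mv 973 (cons (fin 1165 5 972)
(fin 909 5 908)))))
(mv 1228 (cons (fin 1292 6 1036)
(mv 1036 (cons (cons (mv 1291 (cons (fin 1227 5 1035)
(mv 1293 (cons (fin 1229 4 1036)
(mv 1035 (cons (fin 971 7 971)
(mv 1102 (cons (fin 1103 3 1035)
(fin 1034 0 1034)))))))))
(mv 1291 (cons (fin 1227 5 1035)
(mv 1229 (cons (fin 1293 4 1036)
(mv 972 (cons (fin 1165 7 972)
(mv 907 (cons (fin 971 7 907)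
(mv 908 (cons (fin 843 7 843)
(fin 844 4 844))))))))))))
(cons (mv 1291 (cons (fin 1227 5 1035)
(mv 1035 (cons (fin 971 7 971)
(mv 1102 (cons (fin 1103 3 1035)
(fin 1034 0 1034)))))))
(cons (mv 1227 (cons (fin 1291 5 1035)
(mv 1229 (cons (fin 1293 4 1036)
(mv 1165 (cons (fin 972 7 972)
(mv 1226 (cons (fin 1225 2 1161)
(fin 1166 2 1162)))))))))
(mv 1293 (cons (fin 1229 4 1036)
(mv 1035 (cons (fin 971 7 971)
(mv 1102 (cons (fin 1103 3 1035)
(fin 1034 0 1034))))))))))))))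
(cons (mv 973 (cons (fin 909 5 908)
(mv 1165 (cons (cons (mv 1230 (cons (fin 1166 4 973)
(mv 1229 (cons (fin 1294 4 1037)
(mv 1293 (cons (fin 1357 7 1100)
(fin 1036 7 1036)))))))
(mv 972 (cons (fin 908 7 908)
(mv 1229 (cons (fin 1036 7 972)
(mv 1293 (cons (fin 1357 7 1100)
(fin 1102 6 1037))))))))
(cons (mv 1166 (cons (fin 1230 4 973)
(mv 1167 (cons (fin 1168 3 1100)
(mv 1103 (cons (fin 1104 2 1100)
(mv 972 (cons (fin 908 7 908)
(mv 971 (cons (fin 970 0 970)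
(mv 1036 (cons (fin 907 7 907)
(mv 1035 (cons (fin 1102 3 1035)
(mv 1034 (cons (fin 1097 1 1033)
(fin 1033 0 1033)))))))))))))))))
(mv 1230 (cons (fin 1166 4 973)
(mv 1229 (cons (fin 1294 4 1037)
(mv 1293 (cons (fin 1357 7 1100)
(fin 1102 6 1037))))))))))))
(mv 1228 (cons (fin 1292 6 1036)
(mv 973 (cons (fin 909 5 908)
(fin 1036 6 972))))))))))))
(mv 1038 (cons (fin 1039 1 1036)
(mv 1099 (cons (fin 1098 2 1034)
(mv 1102 (cons (cons (mv 1162 (cons (fin 1163 1 1098)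
(mv 1166 (cons (fin 1167 0 1099)
(mv 1035 (cons (fin 1034 3 1034)
(mv 1036 (cons (fin 1103 3 1035)
(mv 971 (cons (fin 970 3 970)
(mv 1164 (cons (fin 1228 7 971)
(fin 907 4 907)))))))))))))
(cons (mv 1162 (cons (fin 1163 1 1098)
(mv 1167 (cons (fin 1166 0 1099)
(mv 1103 (cons (fin 1168 0 1100)
(mv 1104 (cons (fin 1036 3 1036)
(fin 1105 3 1037)))))))))
(mv 1166 (cons (fin 1167 0 1099)
(mv 1035 (cons (fin 1034 3 1034)
(mv 1036 (cons (fin 1103 3 1035)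
(mv 971 (cons (fin 970 3 970)
(mv 1164 (cons (fin 1228 7 971)
(fin 907 4 907)))))))))))))
(cons (mv 1162 (cons (fin 1163 1 1098)
(mv 1035 (cons (fin 1034 3 1034)
(mv 1036 (cons (fin 1103 3 1035)
(mv 971 (cons (fin 970 3 970)
(mv 1164 (cons (fin 1228 7 971)
(fin 907 4 907)))))))))))
(cons (mv 1162 (cons (fin 1163 1 1098)
(mv 1166 (cons (fin 1167 0 1099)
(mv 1035 (cons (fin 1034 3 1034)
(mv 973 (cons (fin 909 4 909)
(mv 1164 (cons (mv 1228 (cons (fin 1165 5 972)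
(fin 1292 7 1035)))
(mv 971 (cons (fin 907 4 907)
(mv 970 (cons (fin 1036 3 970)
(fin 972 0 970)))))))))))))))
(mv 1163 (cons (fin 1162 1 1098)
(mv 1164 (cons (fin 1103 1 1099)
(mv 1292 (cons (fin 1228 6 1036)
(mv 1166 (cons (fin 1167 0 1099)
(mv 1035 (cons (fin 1034 3 1034)
(mv 971 (cons (fin 907 4 907)
(mv 970 (cons (fin 906 7 906)
(mv 972 (cons (fin 973 0 970)
(fin 908 6 907)))))))))))))))))))))))))))))))
(cons (mv 1038 (cons (cons (mv 1039 (cons (fin 1100 1 1036)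
(mv 1104 (cons (fin 1105 0 1037)
(mv 1103 (cons (fin 1036 0 1036)
(mv 972 (cons (fin 973 3 972)
(mv 976 (cons (fin 977 2 973)
(mv 1167 (cons (fin 912 5 911)
(fin 1231 6 975)))))))))))))
(cons (mv 974 (cons (cons (mv 1165 (cons (fin 1229 6 973)
(mv 910 (cons (fin 1102 5 909)
(fin 846 5 845)))))
(mv 1165 (cons (fin 1229 6 973)
(mv 973 (cons (cons (mv 1230 (cons (fin 1166 4 973)
(mv 972 (cons (fin 908 7 908)
(mv 971 (cons (fin 970 0 970)
(mv 1035 (cons (fin 1034 1 970)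
(mv 1036 (cons (fin 975 1 971)
(mv 1098 (cons (fin 1099 1 1034)
(mv 1102 (cons (fin 1103 0 1035)
(mv 907 (cons (fin 906 3 906)
(mv 843 (cons (fin 1100 4 843)
(fin 779 4 779)))))))))))))))))))
(mv 972 (cons (fin 908 7 908)
(mv 971 (cons (fin 970 0 970)
(mv 1035 (cons (fin 1034 1 970)
(mv 1036 (cons (fin 975 1 971)
(mv 1098 (cons (fin 1099 1 1034)
(mv 1102 (cons (fin 1103 0 1035)
(mv 907 (cons (fin 906 3 906)
(mv 843 (cons (fin 1100 4 843)
(fin 779 4 779))))))))))))))))))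
(cons (mv 1166 (cons (fin 1230 4 973)
(mv 1102 (cons (fin 909 7 909)
(mv 1231 (cons (fin 1167 4 974)
(mv 975 (cons (fin 911 6 910)
(mv 1036 (cons (fin 976 1 972)
(fin 1035 2 971)))))))))))
(cons (mv 1230 (cons (fin 1166 4 973)
(mv 972 (cons (fin 908 7 908)
(mv 971 (cons (fin 970 0 970)
(mv 1035 (cons (fin 1034 1 970)
(mv 1036 (cons (fin 975 1 971)
(mv 1098 (cons (fin 1099 1 1034)
(mv 907 (cons (fin 906 3 906)
(mv 843 (cons (fin 1100 4 843)
(fin 779 4 779)))))))))))))))))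
(mv 1230 (cons (fin 1166 4 973)
(mv 908 (cons (fin 972 7 908)
(mv 909 (cons (fin 844 7 844)
(mv 845 (cons (fin 1102 4 845)
(fin 781 4 781))))))))))))))))
(cons (mv 910 (cons (fin 846 5 845)
(mv 1102 (cons (mv 1167 (cons (fin 1103 4 910)
(mv 1166 (cons (fin 1231 4 974)
(mv 1230 (cons (fin 1294 7 1037)
(fin 973 7 973)))))))
(cons (mv 909 (cons (fin 845 7 845)
(mv 1166 (cons (fin 973 7 909)
(mv 911 (cons (fin 975 6 910)
(fin 847 6 846)))))))
(mv 1103 (cons (fin 1167 4 910)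
(mv 1104 (cons (fin 1036 3 1036)
(fin 1105 3 1037))))))))))
(mv 1165 (cons (fin 1229 6 973)
(mv 910 (cons (fin 846 5 845)
(fin 973 6 909))))))))
(mv 1039 (cons (cons (mv 1104 (cons (fin 1105 0 1037)
(mv 1103 (cons (fin 1036 0 1036)
(mv 972 (cons (fin 973 3 972)
(mv 976 (cons (fin 977 2 973)
(mv 1167 (cons (fin 912 5 911)
(fin 1231 6 975)))))))))))
(mv 1104 (cons (fin 1105 0 1037)
(mv 1103 (cons (fin 1036 0 1036)
(mv 976 (cons (fin 977 2 973)
(mv 1167 (cons (fin 912 5 911)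
(fin 1231 6 975))))))))))
(cons (mv 1104 (cons (fin 1105 0 1037)
(mv 1036 (cons (fin 1103 0 1036)
(mv 972 (cons (fin 971 3 971)
(fin 973 3 972)))))))
(cons (mv 972 (cons (fin 973 3 972)
(mv 1036 (cons (fin 971 3 971)
(mv 976 (cons (fin 975 2 972)
(fin 977 2 973)))))))
(mv 1104 (cons (fin 1105 0 1037)
(mv 972 (cons (fin 973 3 972)
(mv 976 (cons (fin 977 2 973)
(mv 912 (cons (cons (mv 1103 (cons (fin 1167 5 911)
(fin 848 5 847)))
(mv 911 (cons (fin 847 7 847)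
(mv 1168 (cons (fin 975 7 911)
(mv 1231 (cons (fin 1167 5 975)
(mv 1233 (cons (fin 1169 4 976)
(mv 849 (cons (fin 913 6 848)
(mv 848 (cons (fin 785 6 784)
(mv 910 (cons (fin 909 2 845)
(mv 974 (cons (fin 846 5 845)
(mv 1165 (cons (fin 1102 5 909)
(fin 1229 6 973))))))))))))))))))))
(cons (mv 1167 (cons (fin 1103 5 911)
(mv 1168 (cons (fin 1231 5 975)
(mv 911 (cons (fin 975 7 911)
(fin 847 7 847)))))))
(mv 1103 (cons (fin 848 5 847)
(mv 911 (cons (fin 847 7 847)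
(mv 1168 (cons (fin 975 7 911)
(mv 1169 (cons (fin 1102 0 1101)
(fin 1233 4 976))))))))))))))))))))))))
(cons (mv 1100 (cons (fin 1039 1 1036)
(mv 1099 (cons (fin 1098 2 1034)
(mv 1102 (cons (cons (mv 1162 (cons (fin 1163 1 1098)
(mv 1166 (cons (fin 1167 0 1099)
(mv 1294 (cons (fin 1230 7 1037)
(mv 1035 (cons (fin 1034 3 1034)
(mv 1036 (cons (fin 1103 3 1035)
(mv 970 (cons (fin 971 3 970)
(mv 974 (cons (fin 975 2 971)
(mv 1165 (cons (fin 1229 5 973)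
(fin 910 5 909)))))))))))))))))
(mv 1162 (cons (fin 1163 1 1098)
(mv 1166 (cons (fin 1167 0 1099)
(mv 1230 (cons (fin 1294 7 1037)
(mv 1295 (cons (fin 1231 4 1038)
(mv 1229 (cons (fin 1293 5 1037)
(mv 974 (cons (fin 1165 5 973)
(mv 910 (cons (fin 846 5 845)
(mv 911 (cons (fin 975 6 910)
(fin 847 6 846))))))))))))))))))
(cons (mv 1162 (cons (fin 1163 1 1098)
(mv 1035 (cons (fin 1034 3 1034)
(mv 1103 (cons (fin 1036 3 1035)
(mv 1168 (cons (fin 1167 0 1100)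
(mv 1104 (cons (fin 1105 3 1037)
(fin 1169 0 1101)))))))))))
(cons (mv 1162 (cons (fin 1163 1 1098)
(mv 1035 (cons (fin 1034 3 1034)
(mv 1036 (cons (fin 1103 3 1035)
(mv 970 (cons (fin 971 3 970)
(mv 974 (cons (fin 975 2 971)
(mv 1165 (cons (fin 910 5 909)
(fin 1229 6 973)))))))))))))
(mv 1166 (cons (fin 1167 0 1099)
(mv 1294 (cons (fin 1230 7 1037)
(mv 1035 (cons (fin 1034 3 1034)
(mv 1036 (cons (fin 1103 3 1035)
(mv 970 (cons (fin 971 3 970)
(mv 974 (cons (fin 975 2 971)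
(mv 1165 (cons (fin 1229 5 973)
(fin 910 5 909)))))))))))))))))))))))
(cons (mv 1039 (cons (fin 1100 1 1036)
(mv 972 (cons (fin 973 3 972)
(mv 1036 (cons (fin 971 3 971)
(mv 976 (cons (fin 975 2 972)
(fin 977 2 973)))))))))
(mv 1039 (cons (fin 1100 1 1036)
(mv 1104 (cons (fin 1105 0 1037)
(mv 972 (cons (fin 973 3 972)
(mv 976 (cons (fin 977 2 973)
(mv 912 (cons (cons (mv 1103 (cons (fin 1167 5 911)
(fin 848 5 847)))
(mv 911 (cons (fin 847 7 847)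
(mv 1168 (cons (fin 975 7 911)
(mv 1231 (cons (fin 1167 5 975)
(mv 1233 (cons (fin 1169 4 976)
(mv 849 (cons (fin 913 6 848)
(mv 848 (cons (fin 785 6 784)
(mv 910 (cons (fin 909 2 845)
(mv 974 (cons (fin 846 5 845)
(mv 1165 (cons (fin 1102 5 909)
(fin 1229 6 973))))))))))))))))))))
(cons (mv 1167 (cons (fin 1103 5 911)
(mv 1168 (cons (fin 1231 5 975)
(mv 911 (cons (fin 975 7 911)
(fin 847 7 847)))))))
(mv 1103 (cons (fin 848 5 847)
(mv 911 (cons (fin 847 7 847)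
(mv 1168 (cons (fin 975 7 911)
(mv 1169 (cons (fin 1102 0 1101)
(fin 1233 4 976))))))))))))))))))))))))
(cons (mv 1038 (cons (cons (cons (mv 1039 (cons (fin 1100 1 1036)
(mv 1104 (cons (fin 1105 0 1037)
(mv 1103 (cons (fin 1036 0 1036)
(mv 972 (cons (fin 973 3 972)
(mv 976 (cons (fin 977 2 973)
(mv 1167 (cons (fin 912 5 911)
(fin 1231 6 975)))))))))))))
(mv 974 (cons (cons (mv 1165 (cons (fin 1229 6 973)
(mv 910 (cons (fin 1102 5 909)
(fin 846 5 845)))))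
(mv 1165 (cons (fin 1229 6 973)
(mv 973 (cons (cons (mv 1228 (cons (fin 1164 5 972)
(mv 972 (cons (fin 908 7 908)
(mv 971 (cons (fin 970 0 970)
(mv 1035 (cons (fin 1034 1 970)
(mv 1036 (cons (fin 975 1 971)
(mv 1098 (cons (fin 1099 1 1034)
(mv 1102 (cons (fin 1103 0 1035)
(mv 907 (cons (fin 906 3 906)
(mv 843 (cons (fin 1100 4 843)
(fin 779 4 779)))))))))))))))))))
(mv 1164 (cons (fin 1228 5 972)
(mv 909 (cons (fin 1100 5 908)
(mv 845 (cons (fin 1102 4 845)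
(fin 781 4 781))))))))
(cons (mv 972 (cons (fin 908 7 908)
(mv 971 (cons (fin 970 0 970)
(mv 1035 (cons (fin 1034 1 970)
(mv 1036 (cons (fin 975 1 971)
(mv 1098 (cons (fin 1099 1 1034)
(mv 1102 (cons (fin 1103 0 1035)
(mv 907 (cons (fin 906 3 906)
(mv 843 (cons (fin 1100 4 843)
(fin 779 4 779)))))))))))))))))
(mv 1228 (cons (fin 1164 5 972)
(mv 972 (cons (fin 908 7 908)
(mv 971 (cons (fin 970 0 970)
(mv 1035 (cons (fin 1034 1 970)
(mv 975 (cons (fin 1036 1 971)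
(mv 976 (cons (fin 977 1 973)
(mv 912 (cons (fin 911 2 908)
(fin 913 2 909)))))))))))))))))))))
(cons (mv 910 (cons (fin 846 5 845)
(mv 1102 (cons (mv 1103 (cons (fin 1167 4 910)
(mv 1104 (cons (fin 1036 3 1036)
(fin 1105 3 1037)))))
(mv 909 (cons (fin 845 7 845)
(mv 911 (cons (fin 847 6 846)
(mv 973 (cons (mv 972 (cons (fin 912 1 908)
(fin 971 2 907)))
(mv 1164 (cons (fin 1100 5 908)
(mv 908 (cons (fin 844 7 844)
(mv 975 (cons (fin 976 3 908)
(fin 907 0 907)))))))))))))))))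
(mv 1165 (cons (fin 1229 6 973)
(mv 910 (cons (fin 846 5 845)
(fin 973 6 909)))))))))
(cons (mv 1039 (cons (cons (mv 1104 (cons (fin 1105 0 1037)
(mv 1103 (cons (fin 1036 0 1036)
(mv 972 (cons (fin 973 3 972)
(mv 976 (cons (fin 977 2 973)
(mv 1167 (cons (fin 912 5 911)
(fin 1231 6 975)))))))))))
(mv 1104 (cons (fin 1105 0 1037)
(mv 1103 (cons (fin 1036 0 1036)
(mv 976 (cons (fin 977 2 973)
(mv 1167 (cons (fin 912 5 911)
(fin 1231 6 975))))))))))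
(cons (mv 1104 (cons (fin 1105 0 1037)
(mv 1036 (cons (fin 1103 0 1036)
(mv 972 (cons (fin 971 3 971)
(fin 973 3 972)))))))
(cons (mv 972 (cons (fin 973 3 972)
(mv 1036 (cons (fin 971 3 971)
(mv 976 (cons (fin 975 2 972)
(fin 977 2 973)))))))
(mv 1104 (cons (fin 1105 0 1037)
(mv 972 (cons (fin 973 3 972)
(mv 976 (cons (fin 977 2 973)
(mv 912 (cons (cons (mv 1103 (cons (fin 1167 5 911)
(fin 848 5 847)))
(mv 911 (cons (fin 847 7 847)
(mv 1168 (cons (fin 975 7 911)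
(mv 1231 (cons (fin 1167 5 975)
(mv 1233 (cons (fin 1169 4 976)
(mv 849 (cons (fin 913 6 848)
(mv 848 (cons (fin 785 6 784)
(mv 910 (cons (fin 909 2 845)
(mv 974 (cons (fin 846 5 845)
(mv 1165 (cons (fin 1102 5 909)
(fin 1229 6 973))))))))))))))))))))
(cons (mv 1167 (cons (fin 1103 5 911)
(mv 1168 (cons (fin 1231 5 975)
(mv 911 (cons (fin 975 7 911)
(fin 847 7 847)))))))
(mv 1103 (cons (fin 848 5 847)
(mv 911 (cons (fin 847 7 847)
(mv 1168 (cons (fin 975 7 911)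
(mv 1169 (cons (fin 1102 0 1101)
(fin 1233 4 976))))))))))))))))))))))
(mv 1100 (cons (fin 1039 1 1036)
(mv 1098 (cons (fin 1099 2 1034)
(mv 974 (cons (cons (mv 1165 (cons (fin 1229 6 973)
(mv 910 (cons (fin 1102 5 909)
(fin 846 5 845)))))
(mv 910 (cons (fin 846 5 845)
(mv 1102 (cons (mv 1103 (cons (fin 1167 4 910)
(mv 1104 (cons (fin 1036 3 1036)
(fin 1105 3 1037)))))
(cons (mv 909 (cons (fin 845 7 845)
(mv 911 (cons (fin 847 6 846)
(mv 908 (cons (mv 975 (cons (fin 907 0 907)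
(fin 976 0 908)))
(cons (mv 971 (cons (fin 972 1 907)
(mv 907 (cons (fin 970 1 906)
(mv 843 (cons (fin 842 3 842)
(fin 844 3 843)))))))
(mv 971 (cons (fin 972 1 907)
(mv 976 (cons (fin 975 0 908)
(mv 912 (cons (fin 977 0 909)
(mv 843 (cons (fin 844 3 843)
(mv 849 (cons (fin 848 2 845)
(mv 913 (cons (fin 850 2 846)
(fin 1104 6 848))))))))))))))))))))
(mv 1167 (cons (fin 1103 4 910)
(mv 909 (cons (fin 845 7 845)
(mv 911 (cons (fin 847 6 846)
(mv 908 (cons (mv 975 (cons (fin 907 0 907)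
(fin 976 0 908)))
(cons (mv 971 (cons (fin 972 1 907)
(mv 907 (cons (fin 970 1 906)
(mv 843 (cons (fin 842 3 842)
(fin 844 3 843)))))))
(mv 972 (cons (fin 971 1 907)
(mv 844 (cons (fin 843 3 843)
(fin 1036 4 844))))))))))))))))))))
(cons (mv 1036 (cons (cons (mv 1229 (cons (fin 1165 6 973)
(mv 1035 (cons (fin 975 2 971)
(mv 1102 (cons (fin 1103 3 1035)
(fin 1034 0 1034)))))))
(mv 1164 (cons (cons (mv 1292 (cons (fin 1228 6 1036)
(mv 1165 (cons (fin 1229 6 973)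
(mv 972 (cons (fin 908 4 908)
(mv 1163 (cons (fin 1227 5 971)
(mv 1162 (cons (fin 1097 3 1097)
(fin 1161 2 1097)))))))))))
(mv 1228 (cons (fin 1292 6 1036)
(mv 1293 (cons (fin 1229 4 1036)
(mv 1227 (cons (fin 1291 5 1035)
(mv 972 (cons (fin 1163 5 971)
(mv 907 (cons (fin 971 7 907)
(mv 908 (cons (fin 843 7 843)
(fin 844 4 844))))))))))))))
(cons (mv 1228 (cons (fin 1292 6 1036)
(mv 1227 (cons (fin 1291 5 1035)
(mv 1163 (cons (fin 972 5 971)
(mv 1162 (cons (fin 1161 2 1097)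
(mv 1165 (cons (fin 1097 3 1097)
(fin 1102 2 1098)))))))))))
(cons (mv 1165 (cons (fin 1229 6 973)
(mv 972 (cons (fin 908 4 908)
(mv 1163 (cons (fin 1227 5 971)
(mv 1162 (cons (fin 1097 3 1097)
(fin 1161 2 1097)))))))))
(mv 1228 (cons (fin 1292 6 1036)
(mv 1229 (cons (fin 1293 4 1036)
(fin 1165 6 973))))))))))
(cons (mv 1035 (cons (fin 975 2 971)
(mv 1102 (cons (fin 1103 3 1035)
(fin 1034 0 1034)))))
(mv 1229 (cons (fin 1165 6 973)
(mv 1035 (cons (fin 975 2 971)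
(mv 1034 (cons (fin 1097 1 1033)
(fin 1033 0 1033))))))))))
(mv 910 (cons (fin 846 5 845)
(mv 1036 (cons (cons (mv 1229 (cons (fin 1165 6 973)
(mv 1035 (cons (fin 975 2 971)
(mv 1034 (cons (fin 1097 1 1033)
(fin 1033 0 1033)))))))
(mv 1164 (cons (cons (mv 1292 (cons (fin 1228 6 1036)
(mv 1165 (cons (fin 1229 6 973)
(mv 972 (cons (fin 908 4 908)
(mv 1163 (cons (fin 1227 5 971)
(mv 1162 (cons (fin 1097 3 1097)
(fin 1161 2 1097)))))))))))
(mv 1228 (cons (fin 1292 6 1036)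
(mv 1293 (cons (fin 1229 4 1036)
(mv 1227 (cons (fin 1291 5 1035)
(mv 972 (cons (fin 1163 5 971)
(mv 971 (cons (fin 907 7 907)
(mv 969 (cons (fin 970 0 969)
(mv 908 (cons (fin 844 4 844)
(mv 909 (cons (fin 911 1 907)
(fin 845 6 844))))))))))))))))))
(cons (mv 1228 (cons (fin 1292 6 1036)
(mv 1227 (cons (fin 1291 5 1035)
(mv 972 (cons (fin 1163 5 971)
(mv 908 (cons (fin 1165 4 908)
(fin 844 4 844)))))))))
(cons (mv 1165 (cons (fin 1229 6 973)
(mv 972 (cons (fin 908 4 908)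
(mv 1163 (cons (fin 1227 5 971)
(mv 1162 (cons (fin 1097 3 1097)
(fin 1161 2 1097)))))))))
(mv 1228 (cons (fin 1292 6 1036)
(mv 1229 (cons (fin 1293 4 1036)
(fin 1165 6 973))))))))))
(cons (mv 1035 (cons (fin 975 2 971)
(mv 1034 (cons (fin 1097 1 1033)
(fin 1033 0 1033)))))
(mv 1229 (cons (fin 1165 6 973)
(mv 1035 (cons (fin 975 2 971)
(mv 1033 (cons (fin 1034 0 1033)
(mv 971 (cons (fin 970 3 970)
(mv 1164 (cons (fin 1228 7 971)
(mv 907 (cons (fin 972 7 907)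
(fin 843 4 843)))))))))))))))))))))))))))
(cons (cons (mv 1039 (cons (fin 1100 1 1036)
(mv 1104 (cons (fin 1105 0 1037)
(mv 1103 (cons (fin 1036 0 1036)
(mv 976 (cons (fin 977 2 973)
(mv 1167 (cons (fin 912 5 911)
(fin 1231 6 975)))))))))))
(mv 1039 (cons (fin 1100 1 1036)
(mv 972 (cons (fin 973 3 972)
(mv 1036 (cons (fin 971 3 971)
(mv 976 (cons (fin 975 2 972)
(fin 977 2 973))))))))))
(cons (mv 1039 (cons (fin 1100 1 1036)
(mv 1104 (cons (fin 1105 0 1037)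
(mv 1036 (cons (fin 1103 0 1036)
(mv 972 (cons (fin 971 3 971)
(fin 973 3 972)))))))))
(mv 1039 (cons (fin 1100 1 1036)
(mv 1104 (cons (fin 1105 0 1037)
(mv 972 (cons (fin 973 3 972)
(mv 976 (cons (fin 977 2 973)
(mv 912 (cons (cons (mv 1103 (cons (fin 1167 5 911)
(fin 848 5 847)))
(mv 911 (cons (fin 847 7 847)
(mv 1168 (cons (fin 975 7 911)
(mv 1231 (cons (fin 1167 5 975)
(mv 1233 (cons (fin 1169 4 976)
(mv 849 (cons (fin 913 6 848)
(mv 848 (cons (fin 785 6 784)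
(mv 910 (cons (fin 909 2 845)
(mv 974 (cons (fin 846 5 845)
(mv 1165 (cons (fin 1102 5 909)
(fin 1229 6 973))))))))))))))))))))
(cons (mv 1167 (cons (fin 1103 5 911)
(mv 1168 (cons (fin 1231 5 975)
(mv 911 (cons (fin 975 7 911)
(fin 847 7 847)))))))
(mv 1103 (cons (fin 848 5 847)
(mv 911 (cons (fin 847 7 847)
(mv 1168 (cons (fin 975 7 911)
(mv 1169 (cons (fin 1102 0 1101)
(fin 1233 4 976))))))))))))))))))))))))
(mv 1038 (cons (cons (mv 1039 (cons (fin 1100 1 1036)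
(mv 1104 (cons (fin 1105 0 1037)
(mv 1103 (cons (fin 1036 0 1036)
(mv 972 (cons (fin 973 3 972)
(mv 976 (cons (fin 977 2 973)
(mv 1167 (cons (fin 912 5 911)
(fin 1231 6 975)))))))))))))
(cons (mv 974 (cons (cons (mv 1165 (cons (fin 1229 6 973)
(mv 910 (cons (fin 1102 5 909)
(fin 846 5 845)))))
(mv 910 (cons (fin 846 5 845)
(mv 1102 (cons (mv 1167 (cons (fin 1103 4 910)
(mv 1166 (cons (fin 1231 4 974)
(mv 1230 (cons (fin 1294 7 1037)
(fin 973 7 973)))))))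
(cons (mv 909 (cons (fin 845 7 845)
(mv 1166 (cons (fin 973 7 909)
(mv 911 (cons (fin 975 6 910)
(fin 847 6 846)))))))
(mv 1103 (cons (fin 1167 4 910)
(mv 1104 (cons (fin 1036 3 1036)
(fin 1105 3 1037)))))))))))
(cons (mv 1165 (cons (fin 1229 6 973)
(mv 973 (cons (cons (mv 1228 (cons (fin 1164 5 972)
(mv 1166 (cons (fin 1230 4 973)
(mv 1102 (cons (fin 909 7 909)
(mv 1231 (cons (fin 1167 4 974)
(mv 975 (cons (fin 911 6 910)
(mv 1036 (cons (fin 976 1 972)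
(fin 1035 2 971)))))))))))))
(mv 1164 (cons (fin 1228 5 972)
(mv 909 (cons (fin 1100 5 908)
(mv 845 (cons (fin 1102 4 845)
(fin 781 4 781))))))))
(cons (mv 1166 (cons (fin 1230 4 973)
(mv 1102 (cons (fin 909 7 909)
(mv 1231 (cons (fin 1167 4 974)
(mv 975 (cons (fin 911 6 910)
(mv 1036 (cons (fin 976 1 972)
(fin 1035 2 971)))))))))))
(cons (mv 1228 (cons (fin 1164 5 972)
(mv 1166 (cons (fin 1230 4 973)
(mv 975 (cons (mv 1036 (cons (fin 976 1 972)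
(fin 1035 2 971)))
(mv 1102 (cons (fin 911 6 910)
(mv 1167 (cons (fin 1231 4 974)
(mv 1168 (cons (fin 1100 3 1100)
(fin 1169 3 1101)))))))))))))
(mv 1164 (cons (fin 1228 5 972)
(mv 1166 (cons (fin 1230 4 973)
(mv 1100 (cons (fin 909 5 908)
(mv 1167 (cons (fin 1099 3 1099)
(fin 1168 3 1100)))))))))))))))
(mv 1165 (cons (fin 1229 6 973)
(mv 910 (cons (fin 846 5 845)
(fin 973 6 909))))))))
(mv 1039 (cons (cons (mv 1104 (cons (fin 1105 0 1037)
(mv 1103 (cons (fin 1036 0 1036)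
(mv 972 (cons (fin 973 3 972)
(mv 976 (cons (fin 977 2 973)
(mv 1167 (cons (fin 912 5 911)
(fin 1231 6 975)))))))))))
(mv 1104 (cons (fin 1105 0 1037)
(mv 1036 (cons (fin 1103 0 1036)
(mv 972 (cons (fin 971 3 971)
(fin 973 3 972))))))))
(cons (mv 972 (cons (fin 973 3 972)
(mv 1036 (cons (fin 971 3 971)
(mv 976 (cons (fin 975 2 972)
(fin 977 2 973)))))))
(cons (mv 1104 (cons (fin 1105 0 1037)
(mv 1103 (cons (fin 1036 0 1036)
(mv 976 (cons (fin 977 2 973)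
(mv 1167 (cons (fin 912 5 911)
(fin 1231 6 975)))))))))
(mv 1104 (cons (fin 1105 0 1037)
(mv 972 (cons (fin 973 3 972)
(mv 976 (cons (fin 977 2 973)
(mv 912 (cons (cons (mv 1103 (cons (fin 1167 5 911)
(fin 848 5 847)))
(mv 911 (cons (fin 847 7 847)
(mv 1168 (cons (fin 975 7 911)
(mv 1231 (cons (fin 1167 5 975)
(mv 1233 (cons (fin 1169 4 976)
(mv 849 (cons (fin 913 6 848)
(mv 848 (cons (fin 785 6 784)
(mv 910 (cons (fin 909 2 845)
(mv 974 (cons (fin 846 5 845)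
(mv 1165 (cons (fin 1102 5 909)
(fin 1229 6 973))))))))))))))))))))
(cons (mv 1167 (cons (fin 1103 5 911)
(mv 1168 (cons (fin 1231 5 975)
(mv 911 (cons (fin 975 7 911)
(fin 847 7 847)))))))
(mv 1103 (cons (fin 848 5 847)
(mv 911 (cons (fin 847 7 847)
(mv 1168 (cons (fin 975 7 911)
(mv 1169 (cons (fin 1102 0 1101)
(fin 1233 4 976))))))))))))))))))))))))
(cons (cons (mv 1039 (cons (fin 1100 1 1036)
(mv 1104 (cons (fin 1105 0 1037)
(mv 1103 (cons (fin 1036 0 1036)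
(mv 976 (cons (fin 977 2 973)
(mv 1167 (cons (fin 912 5 911)
(fin 1231 6 975)))))))))))
(mv 1039 (cons (fin 1100 1 1036)
(mv 972 (cons (fin 973 3 972)
(mv 1036 (cons (fin 971 3 971)
(mv 976 (cons (fin 975 2 972)
(fin 977 2 973))))))))))
(cons (mv 1039 (cons (fin 1100 1 1036)
(mv 1104 (cons (fin 1105 0 1037)
(mv 1036 (cons (fin 1103 0 1036)
(mv 972 (cons (fin 971 3 971)
(fin 973 3 972)))))))))
(mv 1039 (cons (fin 1100 1 1036)
(mv 1104 (cons (fin 1105 0 1037)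
(mv 972 (cons (fin 973 3 972)
(mv 976 (cons (fin 977 2 973)
(mv 912 (cons (cons (mv 1103 (cons (fin 1167 5 911)
(fin 848 5 847)))
(mv 911 (cons (fin 847 7 847)
(mv 1168 (cons (fin 975 7 911)
(mv 1231 (cons (fin 1167 5 975)
(mv 1233 (cons (fin 1169 4 976)
(mv 849 (cons (fin 913 6 848)
(mv 848 (cons (fin 785 6 784)
(mv 910 (cons (fin 909 2 845)
(mv 974 (cons (fin 846 5 845)
(mv 1165 (cons (fin 1102 5 909)
(fin 1229 6 973))))))))))))))))))))
(cons (mv 1167 (cons (fin 1103 5 911)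
(mv 1168 (cons (fin 1231 5 975)
(mv 911 (cons (fin 975 7 911)
(fin 847 7 847)))))))
(mv 1103 (cons (fin 848 5 847)
(mv 911 (cons (fin 847 7 847)
(mv 1168 (cons (fin 975 7 911)
(mv 1169 (cons (fin 1102 0 1101)
(fin 1233 4 976)))))))))))))))))))))))))))
(cons (cons (mv 1038 (cons (cons (mv 1039 (cons (fin 1100 1 1036)
(mv 1104 (cons (fin 1105 0 1037)
(mv 1103 (cons (fin 1036 0 1036)
(mv 972 (cons (fin 973 3 972)
(mv 976 (cons (fin 977 2 973)
(mv 1167 (cons (fin 912 5 911)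
(fin 1231 6 975)))))))))))))
(cons (mv 1165 (cons (cons (mv 1229 (cons (fin 974 6 973)
(mv 1292 (cons (fin 1228 5 1036)
(mv 1293 (cons (fin 1356 5 1100)
(fin 1102 6 1037)))))))
(mv 973 (cons (cons (cons (mv 1228 (cons (fin 1164 5 972)
(mv 1230 (cons (fin 1166 4 973)
(mv 908 (cons (fin 972 7 908)
(mv 909 (cons (fin 844 7 844)
(mv 845 (cons (fin 1102 4 845)
(mv 1100 (cons (fin 1036 5 844)
(mv 1098 (cons (fin 1099 2 1034)
(mv 781 (cons (fin 974 4 781)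
(mv 782 (cons (fin 846 6 781)
(fin 718 6 717)))))))))))))))))))
(mv 1228 (cons (fin 1164 5 972)
(mv 908 (cons (fin 972 7 908)
(mv 909 (cons (fin 844 7 844)
(mv 845 (cons (fin 1102 4 845)
(mv 1100 (cons (fin 1036 5 844)
(mv 1098 (cons (fin 1099 2 1034)
(mv 781 (cons (fin 974 4 781)
(mv 782 (cons (fin 846 6 781)
(fin 718 6 717))))))))))))))))))
(cons (mv 1230 (cons (fin 1166 4 973)
(mv 908 (cons (fin 972 7 908)
(mv 909 (cons (fin 844 7 844)
(mv 845 (cons (fin 1102 4 845)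
(mv 1100 (cons (fin 1036 5 844)
(mv 1098 (cons (fin 1099 2 1034)
(mv 781 (cons (fin 974 4 781)
(mv 782 (cons (fin 846 6 781)
(fin 718 6 717)))))))))))))))))
(mv 1228 (cons (fin 1164 5 972)
(mv 1166 (cons (fin 1230 4 973)
(mv 909 (cons (fin 1102 4 909)
(mv 844 (cons (fin 908 7 844)
(mv 845 (cons (fin 780 7 780)
(mv 1100 (cons (fin 1036 5 844)
(mv 1167 (cons (fin 1168 3 1100)
(mv 1098 (cons (fin 1099 0 1098)
(mv 781 (cons (fin 974 4 781)
(mv 782 (cons (fin 846 6 781)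
(fin 718 6 717)))))))))))))))))))))))
(cons (cons (mv 1230 (cons (fin 1166 4 973)
(mv 1164 (cons (fin 1228 5 972)
(mv 909 (cons (fin 1100 5 908)
(mv 845 (cons (fin 1102 4 845)
(mv 844 (cons (fin 780 7 780)
(mv 781 (cons (fin 974 4 781)
(mv 782 (cons (fin 846 6 781)
(fin 718 6 717)))))))))))))))
(mv 1164 (cons (fin 1228 5 972)
(mv 1166 (cons (fin 1230 4 973)
(mv 972 (cons (fin 908 7 908)
(mv 970 (cons (fin 971 0 970)
(mv 1163 (cons (cons (mv 1102 (cons (fin 1162 2 1098)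
(fin 1103 2 1099)))
(mv 1226 (cons (fin 1227 1 1162)
(mv 1225 (cons (fin 1162 1 1161)
(mv 1099 (cons (fin 1098 3 1098)
(mv 1167 (cons (fin 1100 3 1099)
(mv 1104 (cons (fin 1103 2 1100)
(mv 1168 (cons (fin 1105 2 1101)
(mv 976 (cons (fin 1231 5 975)
(mv 975 (cons (fin 911 7 911)
(mv 974 (cons (fin 1036 1 972)
(fin 977 1 973))))))))))))))))))))
(cons (mv 1226 (cons (fin 1227 1 1162)
(mv 1099 (cons (fin 1098 3 1098)
(mv 1167 (cons (fin 1100 3 1099)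
(mv 1103 (cons (fin 1102 2 1099)
(fin 1104 2 1100)))))))))
(mv 1226 (cons (fin 1227 1 1162)
(mv 1162 (cons (fin 1225 1 1161)
(fin 1102 2 1098)))))))))))))))))
(cons (mv 1230 (cons (fin 1166 4 973)
(mv 1164 (cons (fin 1228 5 972)
(mv 1100 (cons (fin 909 5 908)
(mv 1098 (cons (fin 1099 2 1034)
(mv 972 (cons (fin 908 7 908)
(mv 971 (cons (fin 970 0 970)
(mv 1036 (cons (fin 907 7 907)
(mv 1163 (cons (fin 1227 5 971)
(mv 1162 (cons (fin 1097 3 1097)
(fin 1161 2 1097)))))))))))))))))))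
(mv 1228 (cons (fin 1164 5 972)
(mv 1230 (cons (fin 1166 4 973)
(mv 908 (cons (fin 972 7 908)
(mv 909 (cons (fin 844 7 844)
(mv 845 (cons (fin 1102 4 845)
(mv 781 (cons (fin 974 4 781)
(mv 782 (cons (fin 846 6 781)
(fin 718 6 717))))))))))))))))))))
(cons (mv 1229 (cons (mv 1292 (cons (fin 1228 5 1036)
(mv 1293 (cons (fin 1356 5 1100)
(fin 1102 6 1037)))))
(cons (mv 1292 (cons (fin 1228 5 1036)
(mv 1230 (cons (fin 1294 4 1037)
(mv 972 (cons (fin 1036 7 972)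
(mv 973 (cons (fin 908 7 908)
(fin 1166 4 973)))))))))
(mv 1293 (cons (fin 1102 6 1037)
(mv 1294 (cons (fin 1358 4 1101)
(fin 1230 4 1037))))))))
(cons (mv 1229 (cons (fin 974 6 973)
(mv 1293 (cons (fin 1102 6 1037)
(mv 1294 (cons (fin 1358 4 1101)
(fin 1230 4 1037)))))))
(mv 1229 (cons (fin 974 6 973)
(mv 1292 (cons (fin 1228 5 1036)
(mv 1356 (cons (fin 1293 5 1100)
(mv 1230 (cons (fin 1294 4 1037)
(mv 972 (cons (fin 1036 7 972)
(mv 973 (cons (fin 908 7 908)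
(fin 1166 4 973)))))))))))))))))
(mv 1039 (cons (cons (mv 1104 (cons (fin 1105 0 1037)
(mv 1103 (cons (fin 1036 0 1036)
(mv 972 (cons (fin 973 3 972)
(mv 976 (cons (fin 977 2 973)
(mv 1167 (cons (fin 912 5 911)
(fin 1231 6 975)))))))))))
(mv 1104 (cons (fin 1105 0 1037)
(mv 1103 (cons (fin 1036 0 1036)
(mv 976 (cons (fin 977 2 973)
(mv 1167 (cons (fin 912 5 911)
(fin 1231 6 975))))))))))
(cons (mv 1104 (cons (fin 1105 0 1037)
(mv 1036 (cons (fin 1103 0 1036)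
(mv 972 (cons (fin 971 3 971)
(fin 973 3 972)))))))
(cons (mv 972 (cons (fin 973 3 972)
(mv 1036 (cons (fin 971 3 971)
(mv 976 (cons (fin 975 2 972)
(fin 977 2 973)))))))
(mv 1104 (cons (fin 1105 0 1037)
(mv 972 (cons (fin 973 3 972)
(mv 976 (cons (fin 977 2 973)
(mv 912 (cons (mv 1103 (cons (fin 1167 5 911)
(fin 848 5 847)))
(cons (mv 911 (cons (fin 847 7 847)
(mv 1168 (cons (fin 975 7 911)
(mv 1167 (cons (fin 1231 5 975)
(mv 1169 (cons (fin 1233 4 976)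
(mv 1166 (cons (fin 1102 3 1101)
(mv 1229 (cons (fin 1230 1 1165)
(mv 1165 (cons (fin 1228 1 1164)
(fin 974 6 973)))))))))))))))
(mv 1103 (cons (fin 848 5 847)
(mv 911 (cons (fin 847 7 847)
(mv 1168 (cons (fin 975 7 911)
(mv 1169 (cons (fin 1102 0 1101)
(fin 1233 4 976))))))))))))))))))))))))
(cons (cons (mv 1039 (cons (fin 1100 1 1036)
(mv 1104 (cons (fin 1105 0 1037)
(mv 1103 (cons (fin 1036 0 1036)
(mv 976 (cons (fin 977 2 973)
(mv 1167 (cons (fin 912 5 911)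
(fin 1231 6 975)))))))))))
(mv 1039 (cons (fin 1100 1 1036)
(mv 972 (cons (fin 973 3 972)
(mv 1036 (cons (fin 971 3 971)
(mv 976 (cons (fin 975 2 972)
(fin 977 2 973))))))))))
(cons (mv 1039 (cons (fin 1100 1 1036)
(mv 1104 (cons (fin 1105 0 1037)
(mv 1036 (cons (fin 1103 0 1036)
(mv 972 (cons (fin 971 3 971)
(fin 973 3 972)))))))))
(mv 1039 (cons (fin 1100 1 1036)
(mv 1104 (cons (fin 1105 0 1037)
(mv 972 (cons (fin 973 3 972)
(mv 976 (cons (fin 977 2 973)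
(mv 912 (cons (mv 1103 (cons (fin 1167 5 911)
(fin 848 5 847)))
(cons (mv 911 (cons (fin 847 7 847)
(mv 1168 (cons (fin 975 7 911)
(mv 1167 (cons (fin 1231 5 975)
(mv 1169 (cons (fin 1233 4 976)
(mv 1166 (cons (fin 1102 3 1101)
(mv 1229 (cons (fin 1230 1 1165)
(mv 1165 (cons (fin 1228 1 1164)
(fin 974 6 973)))))))))))))))
(mv 1103 (cons (fin 848 5 847)
(mv 911 (cons (fin 847 7 847)
(mv 1168 (cons (fin 975 7 911)
(mv 1169 (cons (fin 1102 0 1101)
(fin 1233 4 976))))))))))))))))))))))))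
(mv 1038 (cons (cons (cons (mv 1039 (cons (fin 1100 1 1036)
(mv 972 (cons (fin 973 3 972)
(mv 1036 (cons (fin 971 3 971)
(mv 976 (cons (fin 975 2 972)
(fin 977 2 973)))))))))
(mv 974 (cons (cons (mv 1165 (cons (fin 1229 6 973)
(mv 910 (cons (fin 1102 5 909)
(fin 846 5 845)))))
(mv 910 (cons (fin 846 5 845)
(mv 1102 (cons (cons (mv 1167 (cons (fin 1103 4 910)
(mv 1166 (cons (fin 1231 4 974)
(mv 1230 (cons (fin 1294 7 1037)
(fin 973 7 973)))))))
(mv 909 (cons (fin 845 7 845)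
(mv 1166 (cons (fin 973 7 909)
(mv 911 (cons (fin 975 6 910)
(fin 847 6 846))))))))
(cons (mv 1167 (cons (fin 1103 4 910)
(mv 909 (cons (fin 845 7 845)
(mv 911 (cons (fin 847 6 846)
(mv 973 (cons (mv 972 (cons (fin 912 1 908)
(fin 971 2 907)))
(mv 1164 (cons (fin 1100 5 908)
(mv 908 (cons (fin 844 7 844)
(mv 975 (cons (fin 976 3 908)
(fin 907 0 907)))))))))))))))
(mv 1167 (cons (fin 1103 4 910)
(mv 1166 (cons (fin 1231 4 974)
(mv 911 (cons (fin 975 6 910)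
(fin 847 6 846)))))))))))))
(cons (mv 1165 (cons (fin 1229 6 973)
(mv 973 (cons (cons (mv 1228 (cons (fin 1164 5 972)
(mv 1230 (cons (fin 1166 4 973)
(mv 972 (cons (fin 908 7 908)
(mv 971 (cons (fin 970 0 970)
(mv 1035 (cons (fin 1034 1 970)
(mv 1036 (cons (fin 975 1 971)
(mv 1098 (cons (fin 1099 1 1034)
(mv 1102 (cons (fin 1103 0 1035)
(mv 907 (cons (fin 906 3 906)
(mv 843 (cons (fin 1100 4 843)
(fin 779 4 779)))))))))))))))))))))
(cons (mv 1228 (cons (fin 1164 5 972)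
(mv 972 (cons (fin 908 7 908)
(mv 971 (cons (fin 970 0 970)
(mv 1035 (cons (fin 1034 1 970)
(mv 1036 (cons (fin 975 1 971)
(mv 1098 (cons (fin 1099 1 1034)
(mv 1102 (cons (fin 1103 0 1035)
(mv 907 (cons (fin 906 3 906)
(mv 843 (cons (fin 1100 4 843)
(fin 779 4 779)))))))))))))))))))
(mv 1228 (cons (fin 1164 5 972)
(mv 1166 (cons (fin 1230 4 973)
(mv 1102 (cons (fin 909 7 909)
(mv 1231 (cons (fin 1167 4 974)
(mv 975 (cons (fin 911 6 910)
(mv 1036 (cons (fin 976 1 972)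
(fin 1035 2 971)))))))))))))))
(cons (mv 1230 (cons (fin 1166 4 973)
(mv 972 (cons (fin 908 7 908)
(mv 971 (cons (fin 970 0 970)
(mv 1035 (cons (fin 1034 1 970)
(mv 1036 (cons (fin 975 1 971)
(mv 1098 (cons (fin 1099 1 1034)
(mv 1102 (cons (fin 1103 0 1035)
(mv 907 (cons (fin 906 3 906)
(mv 843 (cons (fin 1100 4 843)
(fin 779 4 779)))))))))))))))))))
(cons (mv 1228 (cons (fin 1164 5 972)
(mv 1230 (cons (fin 1166 4 973)
(mv 972 (cons (fin 908 7 908)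
(mv 971 (cons (fin 970 0 970)
(mv 1035 (cons (fin 1034 1 970)
(mv 1036 (cons (fin 975 1 971)
(mv 1098 (cons (fin 1099 1 1034)
(mv 907 (cons (fin 906 3 906)
(mv 843 (cons (fin 1100 4 843)
(fin 779 4 779)))))))))))))))))))
(mv 1228 (cons (fin 1164 5 972)
(mv 1230 (cons (fin 1166 4 973)
(mv 908 (cons (fin 972 7 908)
(mv 909 (cons (fin 844 7 844)
(mv 845 (cons (fin 1102 4 845)
(fin 781 4 781)))))))))))))))))
(mv 1165 (cons (fin 1229 6 973)
(mv 910 (cons (fin 846 5 845)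
(fin 973 6 909)))))))))
(cons (mv 974 (cons (cons (mv 1165 (cons (fin 1229 6 973)
(mv 910 (cons (fin 1102 5 909)
(fin 846 5 845)))))
(mv 1229 (cons (fin 1165 6 973)
(mv 1036 (cons (mv 1035 (cons (fin 975 2 971)
(mv 1102 (cons (fin 1034 0 1034)
(fin 1103 0 1035)))))
(cons (mv 1039 (cons (mv 972 (cons (fin 971 3 971)
(fin 973 3 972)))
(mv 976 (cons (fin 975 2 972)
(fin 977 2 973)))))
(mv 1035 (cons (mv 1102 (cons (fin 1034 0 1034)
(fin 1103 0 1035)))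
(cons (mv 1099 (cons (fin 1098 1 1034)
(mv 1102 (cons (fin 1103 0 1035)
(mv 971 (cons (fin 970 3 970)
(mv 972 (cons (fin 1039 3 971)
(mv 1163 (cons (fin 1227 6 971)
(fin 908 6 907)))))))))))
(mv 1098 (cons (fin 1099 1 1034)
(mv 1034 (cons (fin 1097 1 1033)
(fin 973 2 970))))))))))))))
(cons (mv 910 (cons (fin 846 5 845)
(mv 1102 (cons (cons (mv 1167 (cons (fin 1103 4 910)
(mv 1166 (cons (fin 1231 4 974)
(mv 1230 (cons (fin 1294 7 1037)
(fin 973 7 973)))))))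
(mv 909 (cons (fin 845 7 845)
(mv 1166 (cons (fin 973 7 909)
(mv 911 (cons (fin 975 6 910)
(fin 847 6 846))))))))
(cons (mv 1167 (cons (fin 1103 4 910)
(mv 909 (cons (fin 845 7 845)
(mv 911 (cons (fin 847 6 846)
(mv 973 (cons (mv 972 (cons (fin 912 1 908)
(fin 1039 3 972)))
(mv 908 (cons (fin 844 7 844)
(mv 975 (cons (fin 976 3 908)
(fin 907 0 907)))))))))))))
(mv 1167 (cons (fin 1103 4 910)
(mv 1166 (cons (fin 1231 4 974)
(mv 911 (cons (fin 975 6 910)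
(fin 847 6 846))))))))))))
(mv 1165 (cons (fin 1229 6 973)
(mv 910 (cons (fin 846 5 845)
(fin 973 6 909))))))))
(mv 1039 (cons (fin 1100 1 1036)
(mv 976 (cons (fin 977 2 973)
(mv 1036 (cons (fin 975 2 972)
(mv 971 (cons (fin 972 3 971)
(mv 1035 (cons (fin 970 3 970)
(mv 1102 (cons (fin 1034 0 1034)
(fin 1103 0 1035)))))))))))))))
(cons (cons (mv 1100 (cons (fin 1039 1 1036)
(mv 1098 (cons (fin 1099 2 1034)
(mv 974 (cons (cons (mv 1165 (cons (fin 1229 6 973)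
(mv 910 (cons (fin 1102 5 909)
(fin 846 5 845)))))
(mv 910 (cons (fin 846 5 845)
(mv 1102 (cons (cons (mv 1167 (cons (fin 1103 4 910)
(mv 1231 (cons (fin 1166 4 974)
(mv 909 (cons (fin 845 7 845)
(mv 973 (cons (fin 1164 5 908)
(mv 908 (cons (fin 844 7 844)
(mv 975 (cons (fin 976 3 908)
(fin 907 0 907)))))))))))))
(mv 1167 (cons (fin 1103 4 910)
(mv 1166 (cons (fin 1231 4 974)
(mv 1230 (cons (fin 1294 7 1037)
(fin 973 7 973))))))))
(cons (mv 909 (cons (fin 845 7 845)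
(mv 973 (cons (fin 1164 5 908)
(fin 1166 7 909)))))
(cons (mv 1167 (cons (fin 1103 4 910)
(mv 909 (cons (fin 845 7 845)
(mv 973 (cons (fin 1164 5 908)
(mv 908 (cons (fin 844 7 844)
(mv 975 (cons (fin 976 3 908)
(fin 907 0 907)))))))))))
(mv 1167 (cons (fin 1103 4 910)
(mv 1166 (cons (fin 1231 4 974)
(mv 911 (cons (fin 975 6 910)
(fin 847 6 846))))))))))))))
(cons (mv 1165 (cons (fin 1229 6 973)
(mv 973 (cons (mv 1164 (cons (fin 1228 5 972)
(fin 909 5 908)))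
(cons (mv 1166 (cons (fin 1230 4 973)
(mv 1167 (cons (fin 1168 3 1100)
(mv 1102 (cons (fin 909 7 909)
(fin 1231 4 974)))))))
(mv 1228 (cons (fin 1164 5 972)
(mv 1166 (cons (fin 1230 4 973)
(mv 1167 (cons (fin 1168 3 1100)
(mv 1102 (cons (fin 1231 4 974)
(mv 975 (cons (fin 911 6 910)
(mv 1036 (cons (fin 976 1 972)
(fin 1035 2 971))))))))))))))))))
(mv 1165 (cons (fin 1229 6 973)
(mv 910 (cons (fin 846 5 845)
(fin 973 6 909))))))))))))
(mv 1100 (cons (fin 1039 1 1036)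
(mv 1098 (cons (fin 1099 2 1034)
(mv 1164 (cons (cons (mv 1228 (cons (fin 1292 6 1036)
(mv 973 (cons (fin 1165 5 972)
(fin 909 5 908)))))
(mv 1292 (cons (fin 1228 6 1036)
(mv 1163 (cons (cons (mv 1162 (cons (fin 1161 2 1097)
(mv 1165 (cons (fin 1097 3 1097)
(fin 1102 2 1098)))))
(mv 1102 (cons (fin 1103 1 1099)
(mv 1036 (cons (cons (mv 1227 (cons (fin 972 5 971)
(mv 1355 (cons (fin 1291 6 1099)
(mv 1035 (cons (fin 1034 0 1034)
(mv 970 (cons (fin 971 3 970)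
(mv 974 (cons (fin 975 2 971)
(mv 1165 (cons (fin 910 5 909)
(fin 1229 6 973)))))))))))))
(mv 1035 (cons (fin 1034 0 1034)
(mv 970 (cons (fin 971 3 970)
(mv 974 (cons (fin 975 2 971)
(mv 1165 (cons (fin 910 5 909)
(fin 1229 6 973))))))))))
(cons (mv 972 (cons (fin 1227 5 971)
(mv 1165 (cons (fin 1229 7 972)
(fin 908 4 908)))))
(mv 1034 (cons (fin 1035 0 1034)
(mv 972 (cons (fin 1227 5 971)
(mv 907 (cons (fin 971 7 907)
(mv 908 (cons (fin 843 7 843)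
(fin 844 4 844)))))))))))))))
(cons (mv 1162 (cons (fin 1161 2 1097)
(mv 1165 (cons (fin 1097 3 1097)
(mv 1229 (cons (fin 1230 0 1162)
(fin 974 6 973)))))))
(mv 1162 (cons (fin 1161 2 1097)
(mv 1102 (cons (fin 1103 1 1099)
(mv 1034 (cons (mv 1227 (cons (fin 970 4 970)
(mv 1291 (cons (fin 1355 7 1098)
(fin 1226 4 1034)))))
(cons (mv 1035 (cons (fin 1036 0 1034)
(mv 1226 (cons (fin 971 6 970)
(mv 1289 (cons (fin 1225 5 1033)
(mv 1290 (cons (fin 1353 5 1097)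
(mv 1033 (cons (fin 1097 7 1033)
(fin 969 7 969)))))))))))
(mv 1227 (cons (fin 970 4 970)
(mv 1036 (cons (fin 1035 0 1034)
(fin 972 5 971))))))))))))))))))
(cons (mv 973 (cons (fin 909 5 908)
(mv 1165 (cons (mv 974 (cons (fin 1229 6 973)
(fin 910 6 909)))
(cons (mv 1230 (cons (fin 1166 4 973)
(mv 1294 (cons (fin 1229 4 1037)
(mv 972 (cons (fin 908 7 908)
(mv 971 (cons (fin 970 0 970)
(mv 1036 (cons (fin 907 7 907)
(mv 1163 (cons (fin 1227 5 971)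
(mv 1162 (cons (fin 1097 3 1097)
(fin 1161 2 1097)))))))))))))))
(mv 1230 (cons (fin 1166 4 973)
(mv 972 (cons (fin 908 7 908)
(mv 971 (cons (fin 970 0 970)
(mv 1036 (cons (fin 907 7 907)
(mv 1227 (cons (fin 1163 5 971)
(mv 974 (cons (fin 910 6 909)
(mv 1035 (cons (fin 1034 1 970)
(fin 975 1 971))))))))))))))))))))
(mv 1228 (cons (fin 1292 6 1036)
(mv 973 (cons (fin 909 5 908)
(fin 1036 6 972)))))))))))))
(cons (mv 1039 (cons (fin 1100 1 1036)
(mv 973 (cons (fin 972 3 972)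
(mv 976 (cons (fin 977 2 973)
(mv 909 (cons (mv 1102 (cons (fin 1166 4 909)
(fin 845 4 845)))
(mv 908 (cons (fin 844 7 844)
(mv 974 (cons (fin 975 3 908)
(mv 1165 (cons (fin 1229 6 973)
(fin 910 6 909)))))))))))))))
(mv 1100 (cons (fin 1039 1 1036)
(mv 1098 (cons (fin 1099 2 1034)
(mv 1164 (cons (cons (mv 1228 (cons (fin 1292 6 1036)
(mv 973 (cons (fin 1165 5 972)
(fin 909 5 908)))))
(mv 1228 (cons (fin 1292 6 1036)
(mv 1036 (cons (cons (mv 1291 (cons (fin 1227 5 1035)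
(mv 1293 (cons (fin 1229 4 1036)
(mv 1035 (cons (fin 971 7 971)
(mv 1102 (cons (fin 1103 3 1035)
(fin 1034 0 1034)))))))))
(mv 1291 (cons (fin 1227 5 1035)
(mv 1229 (cons (fin 1293 4 1036)
(mv 1165 (cons (fin 972 7 972)
(fin 974 6 973))))))))
(cons (mv 1291 (cons (fin 1227 5 1035)
(mv 1035 (cons (fin 971 7 971)
(mv 1102 (cons (fin 1103 3 1035)
(fin 1034 0 1034)))))))
(mv 1293 (cons (fin 1229 4 1036)
(mv 1035 (cons (fin 971 7 971)
(mv 1102 (cons (fin 1103 3 1035)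
(fin 1034 0 1034)))))))))))))
(cons (mv 973 (cons (fin 909 5 908)
(mv 1165 (cons (mv 974 (cons (fin 1229 6 973)
(fin 910 6 909)))
(cons (mv 1230 (cons (fin 1166 4 973)
(mv 1294 (cons (fin 1229 4 1037)
(mv 972 (cons (fin 908 7 908)
(mv 971 (cons (fin 970 0 970)
(mv 1036 (cons (fin 907 7 907)
(mv 1163 (cons (fin 1227 5 971)
(mv 1162 (cons (fin 1097 3 1097)
(fin 1161 2 1097)))))))))))))))
(mv 1230 (cons (fin 1166 4 973)
(mv 972 (cons (fin 908 7 908)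
(mv 971 (cons (fin 970 0 970)
(mv 1036 (cons (fin 907 7 907)
(mv 1163 (cons (fin 1227 5 971)
(mv 1162 (cons (fin 1097 3 1097)
(fin 1161 2 1097))))))))))))))))))
(mv 1228 (cons (fin 1292 6 1036)
(mv 973 (cons (fin 909 5 908)
(fin 1036 6 972)))))))))))))))))
(cons (mv 1038 (cons (cons (cons (mv 1039 (cons (fin 1100 1 1036)
(mv 1104 (cons (fin 1105 0 1037)
(mv 972 (cons (fin 973 3 972)
(mv 1036 (cons (fin 971 3 971)
(mv 976 (cons (fin 975 2 972)
(fin 977 2 973)))))))))))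
(mv 974 (cons (cons (mv 1165 (cons (fin 1229 6 973)
(mv 910 (cons (fin 1102 5 909)
(fin 846 5 845)))))
(mv 910 (cons (fin 846 5 845)
(mv 1102 (cons (cons (mv 909 (cons (fin 845 7 845)
(mv 1166 (cons (fin 973 7 909)
(mv 911 (cons (fin 975 6 910)
(fin 847 6 846)))))))
(mv 911 (cons (fin 847 6 846)
(mv 1166 (cons (fin 975 6 910)
(mv 1230 (cons (fin 1294 7 1037)
(fin 973 7 973))))))))
(cons (mv 909 (cons (fin 845 7 845)
(mv 1166 (cons (fin 973 7 909)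
(mv 1230 (cons (fin 1294 7 1037)
(mv 1231 (cons (fin 1295 4 1038)
(fin 1167 4 974)))))))))
(cons (mv 909 (cons (fin 845 7 845)
(mv 911 (cons (fin 847 6 846)
(mv 973 (cons (mv 972 (cons (fin 912 1 908)
(fin 971 2 907)))
(mv 1164 (cons (fin 1100 5 908)
(mv 908 (cons (fin 844 7 844)
(mv 975 (cons (fin 976 3 908)
(fin 907 0 907)))))))))))))
(mv 909 (cons (fin 845 7 845)
(mv 911 (cons (fin 847 6 846)
(mv 1166 (cons (fin 975 6 910)
(mv 1230 (cons (fin 1294 7 1037)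
(mv 1231 (cons (fin 1295 4 1038)
(fin 1167 4 974))))))))))))))))))
(cons (mv 1165 (cons (fin 1229 6 973)
(mv 973 (cons (cons (mv 1228 (cons (fin 1164 5 972)
(mv 1230 (cons (fin 1166 4 973)
(mv 972 (cons (fin 908 7 908)
(mv 971 (cons (fin 970 0 970)
(mv 1035 (cons (fin 1034 1 970)
(mv 1036 (cons (fin 975 1 971)
(mv 1098 (cons (fin 1099 1 1034)
(mv 907 (cons (fin 906 3 906)
(mv 843 (cons (fin 1100 4 843)
(fin 779 4 779)))))))))))))))))))
(mv 1228 (cons (fin 1164 5 972)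
(mv 972 (cons (fin 908 7 908)
(mv 971 (cons (fin 970 0 970)
(mv 1035 (cons (fin 1034 1 970)
(mv 1036 (cons (fin 975 1 971)
(mv 1098 (cons (fin 1099 1 1034)
(mv 907 (cons (fin 906 3 906)
(mv 843 (cons (fin 1100 4 843)
(fin 779 4 779))))))))))))))))))
(cons (mv 1228 (cons (fin 1164 5 972)
(mv 1166 (cons (fin 1230 4 973)
(mv 1102 (cons (fin 909 7 909)
(mv 1231 (cons (fin 1167 4 974)
(mv 975 (cons (fin 911 6 910)
(mv 1036 (cons (fin 976 1 972)
(fin 1035 2 971)))))))))))))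
(cons (mv 1230 (cons (fin 1166 4 973)
(mv 972 (cons (fin 908 7 908)
(mv 971 (cons (fin 970 0 970)
(mv 1035 (cons (fin 1034 1 970)
(mv 1036 (cons (fin 975 1 971)
(mv 1098 (cons (fin 1099 1 1034)
(mv 907 (cons (fin 906 3 906)
(mv 843 (cons (fin 1100 4 843)
(fin 779 4 779)))))))))))))))))
(mv 1228 (cons (fin 1164 5 972)
(mv 1230 (cons (fin 1166 4 973)
(mv 908 (cons (fin 972 7 908)
(mv 909 (cons (fin 844 7 844)
(mv 845 (cons (fin 1102 4 845)
(fin 781 4 781)))))))))))))))))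
(mv 1165 (cons (fin 1229 6 973)
(mv 910 (cons (fin 846 5 845)
(fin 973 6 909)))))))))
(cons (mv 1039 (cons (cons (mv 1104 (cons (fin 1105 0 1037)
(mv 972 (cons (fin 973 3 972)
(mv 1036 (cons (fin 971 3 971)
(mv 976 (cons (fin 975 2 972)
(fin 977 2 973)))))))))
(cons (mv 1104 (cons (fin 1105 0 1037)
(mv 976 (cons (fin 977 2 973)
(mv 975 (cons (fin 1036 2 972)
(mv 911 (cons (fin 1168 7 911)
(fin 847 4 847)))))))))
(mv 1104 (cons (fin 1105 0 1037)
(mv 972 (cons (fin 973 3 972)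
(mv 1036 (cons (fin 971 3 971)
(mv 1165 (cons (fin 1229 7 972)
(mv 844 (cons (fin 908 4 844)
(mv 974 (cons (mv 910 (cons (fin 1102 5 909)
(fin 846 5 845)))
(cons (mv 1035 (cons (fin 975 2 971)
(mv 1098 (cons (fin 1099 1 1034)
(mv 1034 (cons (fin 1097 1 1033)
(fin 1102 0 1034)))))))
(mv 975 (cons (fin 1035 2 971)
(mv 846 (cons (fin 910 5 845)
(mv 847 (cons (fin 911 4 847)
(mv 845 (cons (cons (mv 779 (cons (fin 780 3 779)
(mv 843 (cons (fin 778 3 778)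
(mv 783 (cons (fin 782 2 779)
(fin 784 2 780)))))))
(mv 783 (cons (fin 784 2 780)
(mv 843 (cons (fin 782 2 779)
(mv 906 (cons (fin 907 1 842)
(mv 842 (cons (fin 905 1 841)
(mv 778 (cons (fin 777 3 777)
(fin 779 3 778))))))))))))
(cons (mv 780 (cons (fin 779 3 779)
(mv 848 (cons (fin 781 3 780)
(mv 913 (cons (fin 912 0 845)
(mv 849 (cons (fin 914 0 846)
(mv 785 (cons (fin 784 2 781)
(fin 786 2 782)))))))))))
(cons (mv 784 (cons (fin 783 2 780)
(mv 848 (cons (fin 785 2 781)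
(mv 913 (cons (fin 912 0 845)
(mv 849 (cons (fin 914 0 846)
(mv 781 (cons (fin 780 3 780)
(fin 782 3 781)))))))))))
(mv 779 (cons (fin 780 3 779)
(mv 843 (cons (fin 778 3 778)
(mv 906 (cons (fin 907 1 842)
(mv 842 (cons (fin 905 1 841)
(mv 782 (cons (fin 781 2 778)
(fin 783 2 779))))))))))))))))))))))))))))))))))))
(cons (mv 972 (cons (fin 973 3 972)
(mv 1036 (cons (fin 971 3 971)
(mv 976 (cons (fin 975 2 972)
(fin 977 2 973)))))))
(cons (mv 1104 (cons (fin 1105 0 1037)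
(mv 972 (cons (fin 973 3 972)
(mv 976 (cons (fin 977 2 973)
(mv 911 (cons (mv 975 (cons (fin 1168 7 911)
(fin 847 4 847)))
(cons (mv 912 (cons (fin 847 7 847)
(mv 849 (cons (fin 913 6 848)
(mv 848 (cons (fin 785 6 784)
(mv 910 (cons (fin 909 2 845)
(mv 974 (cons (fin 846 5 845)
(mv 1165 (cons (fin 1102 5 909)
(fin 1229 6 973)))))))))))))
(mv 1168 (cons (fin 975 7 911)
(mv 1167 (cons (fin 1231 5 975)
(mv 1169 (cons (fin 1233 4 976)
(mv 1166 (cons (fin 1102 3 1101)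
(mv 1229 (cons (fin 1230 1 1165)
(mv 1165 (cons (fin 1228 1 1164)
(fin 974 6 973))))))))))))))))))))))
(mv 1104 (cons (fin 1105 0 1037)
(mv 973 (cons (fin 972 3 972)
(mv 976 (cons (fin 977 2 973)
(mv 909 (cons (mv 1102 (cons (fin 1166 4 909)
(fin 845 4 845)))
(cons (mv 908 (cons (fin 844 7 844)
(mv 910 (cons (fin 846 6 845)
(mv 1165 (cons (fin 974 6 909)
(mv 1228 (cons (fin 1164 5 972)
(mv 1229 (cons (fin 1292 5 1036)
(mv 1230 (cons (fin 1294 4 1037)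
(fin 1166 4 973)))))))))))))
(mv 1102 (cons (fin 845 4 845)
(mv 908 (cons (fin 844 7 844)
(mv 910 (cons (fin 846 6 845)
(mv 1165 (cons (fin 974 5 909)
(mv 1228 (cons (fin 1164 5 972)
(mv 1229 (cons (fin 1292 5 1036)
(fin 1293 6 1037))))))))))))))))))))))))))
(mv 1039 (cons (fin 1100 1 1036)
(mv 1104 (cons (fin 1105 0 1037)
(mv 976 (cons (fin 977 2 973)
(mv 1036 (cons (fin 975 2 972)
(mv 971 (cons (fin 972 3 971)
(mv 1035 (cons (fin 970 3 970)
(mv 1098 (cons (fin 1099 1 1034)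
(mv 1034 (cons (fin 1097 1 1033)
(fin 1102 0 1034)))))))))))))))))))
(cons (cons (mv 1039 (cons (fin 1100 1 1036)
(mv 1104 (cons (fin 1105 0 1037)
(mv 976 (cons (fin 977 2 973)
(mv 975 (cons (fin 1036 2 972)
(mv 911 (cons (fin 1168 7 911)
(fin 847 4 847)))))))))))
(mv 1039 (cons (fin 1100 1 1036)
(mv 1104 (cons (fin 1105 0 1037)
(mv 972 (cons (fin 973 3 972)
(mv 1036 (cons (fin 971 3 971)
(mv 1165 (cons (fin 1229 7 972)
(mv 844 (cons (fin 908 4 844)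
(mv 974 (cons (mv 910 (cons (fin 1102 5 909)
(fin 846 5 845)))
(cons (mv 1035 (cons (fin 975 2 971)
(mv 1098 (cons (fin 1099 1 1034)
(mv 1034 (cons (fin 1097 1 1033)
(fin 1102 0 1034)))))))
(mv 975 (cons (fin 1035 2 971)
(mv 846 (cons (fin 910 5 845)
(mv 847 (cons (fin 911 4 847)
(mv 845 (cons (cons (mv 779 (cons (fin 780 3 779)
(mv 843 (cons (fin 778 3 778)
(mv 783 (cons (fin 782 2 779)
(fin 784 2 780)))))))
(mv 783 (cons (fin 784 2 780)
(mv 843 (cons (fin 782 2 779)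
(mv 906 (cons (fin 907 1 842)
(mv 842 (cons (fin 905 1 841)
(mv 778 (cons (fin 777 3 777)
(fin 779 3 778))))))))))))
(cons (mv 780 (cons (fin 779 3 779)
(mv 848 (cons (fin 781 3 780)
(mv 913 (cons (fin 912 0 845)
(mv 849 (cons (fin 914 0 846)
(mv 785 (cons (fin 784 2 781)
(fin 786 2 782)))))))))))
(cons (mv 784 (cons (fin 783 2 780)
(mv 848 (cons (fin 785 2 781)
(mv 913 (cons (fin 912 0 845)
(mv 849 (cons (fin 914 0 846)
(mv 781 (cons (fin 780 3 780)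
(fin 782 3 781)))))))))))
(mv 779 (cons (fin 780 3 779)
(mv 843 (cons (fin 778 3 778)
(mv 906 (cons (fin 907 1 842)
(mv 842 (cons (fin 905 1 841)
(mv 782 (cons (fin 781 2 778)
(fin 783 2 779)))))))))))))))))))))))))))))))))))))
(cons (mv 1100 (cons (fin 1039 1 1036)
(mv 1099 (cons (fin 1098 2 1034)
(mv 1102 (cons (cons (mv 1162 (cons (fin 1163 1 1098)
(mv 1166 (cons (fin 1167 0 1099)
(mv 1230 (cons (fin 1294 7 1037)
(fin 973 7 973)))))))
(mv 1162 (cons (fin 1163 1 1098)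
(mv 1035 (cons (fin 1034 3 1034)
(mv 1165 (cons (mv 1229 (cons (fin 1293 6 1037)
(fin 974 6 973)))
(cons (mv 974 (cons (fin 910 5 909)
(mv 973 (cons (mv 1164 (cons (fin 1228 5 972)
(fin 909 5 908)))
(cons (mv 908 (cons (fin 972 7 908)
(mv 909 (cons (fin 844 7 844)
(fin 845 4 845)))))
(mv 1164 (cons (fin 1228 5 972)
(mv 971 (cons (fin 907 4 907)
(mv 972 (cons (fin 970 0 970)
(fin 908 7 908))))))))))))
(mv 1229 (cons (fin 1293 6 1037)
(mv 1294 (cons (fin 1230 4 1037)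
(mv 1228 (cons (fin 1292 5 1036)
(mv 973 (cons (fin 1164 5 972)
(mv 908 (cons (fin 972 7 908)
(mv 909 (cons (fin 844 7 844)
(fin 845 4 845)))))))))))))))))))))
(cons (mv 1166 (cons (fin 1167 0 1099)
(mv 1230 (cons (fin 1294 7 1037)
(fin 973 7 973)))))
(cons (mv 1162 (cons (fin 1163 1 1098)
(mv 1166 (cons (fin 1167 0 1099)
(mv 1230 (cons (fin 1294 7 1037)
(mv 1295 (cons (fin 1231 4 1038)
(mv 1229 (cons (fin 1293 5 1037)
(mv 1034 (cons (fin 1035 3 1034)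
(mv 974 (cons (fin 1165 5 973)
(mv 910 (cons (fin 846 5 845)
(mv 911 (cons (fin 975 6 910)
(fin 847 6 846)))))))))))))))))))
(mv 1162 (cons (fin 1163 1 1098)
(mv 1166 (cons (fin 1167 0 1099)
(mv 1035 (cons (fin 1034 3 1034)
(mv 973 (cons (fin 909 4 909)
(mv 1165 (cons (mv 1229 (cons (fin 974 5 973)
(fin 1293 6 1037)))
(cons (mv 1293 (cons (fin 1229 6 1037)
(mv 1164 (cons (fin 1228 5 972)
(mv 971 (cons (fin 907 4 907)
(mv 972 (cons (fin 970 0 970)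
(fin 908 7 908)))))))))
(mv 1164 (cons (fin 1228 5 972)
(mv 971 (cons (fin 907 4 907)
(mv 972 (cons (fin 970 0 970)
(fin 908 7 908))))))))))))))))))))))))))
(mv 1039 (cons (fin 1100 1 1036)
(mv 1104 (cons (fin 1105 0 1037)
(mv 973 (cons (fin 972 3 972)
(mv 976 (cons (fin 977 2 973)
(mv 909 (cons (mv 1102 (cons (fin 1166 4 909)
(fin 845 4 845)))
(cons (mv 908 (cons (fin 844 7 844)
(mv 910 (cons (fin 846 6 845)
(mv 1165 (cons (fin 974 6 909)
(mv 1228 (cons (fin 1164 5 972)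
(mv 1229 (cons (fin 1292 5 1036)
(mv 1230 (cons (fin 1294 4 1037)
(fin 1166 4 973)))))))))))))
(mv 1102 (cons (fin 845 4 845)
(mv 908 (cons (fin 844 7 844)
(mv 910 (cons (fin 846 6 845)
(mv 1165 (cons (fin 974 5 909)
(mv 1228 (cons (fin 1164 5 972)
(mv 1229 (cons (fin 1292 5 1036)
(fin 1293 6 1037))))))))))))))))))))))))))))
(cons (mv 1038 (cons (cons (mv 1039 (cons (fin 1100 1 1036)
(mv 1104 (cons (fin 1105 0 1037)
(mv 1103 (cons (fin 1036 0 1036)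
(mv 972 (cons (fin 973 3 972)
(mv 976 (cons (fin 977 2 973)
(mv 1167 (cons (fin 912 5 911)
(fin 1231 6 975)))))))))))))
(cons (mv 1165 (cons (cons (mv 1229 (cons (fin 974 6 973)
(mv 1292 (cons (fin 1228 5 1036)
(mv 1293 (cons (fin 1356 5 1100)
(fin 1102 6 1037)))))))
(mv 973 (cons (cons (mv 1228 (cons (fin 1164 5 972)
(mv 1230 (cons (fin 1166 4 973)
(mv 972 (cons (fin 908 7 908)
(mv 971 (cons (fin 970 0 970)
(mv 974 (cons (fin 910 6 909)
(mv 1035 (cons (fin 1034 1 970)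
(mv 1036 (cons (fin 975 1 971)
(mv 1098 (cons (fin 1099 1 1034)
(mv 1102 (cons (fin 1103 0 1035)
(mv 907 (cons (fin 906 3 906)
(mv 843 (cons (fin 1100 4 843)
(fin 779 4 779)))))))))))))))))))))))
(cons (mv 1228 (cons (fin 1164 5 972)
(mv 972 (cons (fin 908 7 908)
(mv 971 (cons (fin 970 0 970)
(mv 974 (cons (fin 910 6 909)
(mv 1035 (cons (fin 1034 1 970)
(mv 1036 (cons (fin 975 1 971)
(mv 1098 (cons (fin 1099 1 1034)
(mv 1102 (cons (fin 1103 0 1035)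
(mv 907 (cons (fin 906 3 906)
(mv 843 (cons (fin 1100 4 843)
(fin 779 4 779)))))))))))))))))))))
(mv 1228 (cons (fin 1164 5 972)
(mv 1166 (cons (fin 1230 4 973)
(mv 908 (cons (fin 972 7 908)
(mv 909 (cons (fin 844 7 844)
(fin 1102 4 909)))))))))))
(cons (mv 1230 (cons (fin 1166 4 973)
(mv 972 (cons (fin 908 7 908)
(mv 971 (cons (fin 970 0 970)
(mv 974 (cons (fin 910 6 909)
(mv 1035 (cons (fin 1034 1 970)
(mv 1036 (cons (fin 975 1 971)
(mv 1098 (cons (fin 1099 1 1034)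
(mv 1102 (cons (fin 1103 0 1035)
(mv 907 (cons (fin 906 3 906)
(mv 843 (cons (fin 1100 4 843)
(fin 779 4 779)))))))))))))))))))))
(cons (mv 1228 (cons (fin 1164 5 972)
(mv 1166 (cons (fin 1230 4 973)
(mv 1102 (cons (fin 909 4 909)
(mv 974 (cons (fin 910 5 909)
(mv 1231 (cons (fin 1167 4 974)
(mv 975 (cons (fin 911 6 910)
(mv 1036 (cons (fin 976 1 972)
(fin 1035 2 971)))))))))))))))
(mv 1228 (cons (fin 1164 5 972)
(mv 1230 (cons (fin 1166 4 973)
(mv 972 (cons (fin 908 7 908)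
(mv 971 (cons (fin 970 0 970)
(mv 974 (cons (fin 910 6 909)
(mv 1035 (cons (fin 1034 1 970)
(mv 1036 (cons (fin 975 1 971)
(mv 1098 (cons (fin 1099 1 1034)
(mv 907 (cons (fin 906 3 906)
(mv 843 (cons (fin 1100 4 843)
(fin 779 4 779))))))))))))))))))))))))))
(cons (mv 1229 (cons (mv 1292 (cons (fin 1228 5 1036)
(mv 1293 (cons (fin 1356 5 1100)
(fin 1102 6 1037)))))
(cons (mv 1292 (cons (fin 1228 5 1036)
(mv 1230 (cons (fin 1294 4 1037)
(mv 972 (cons (fin 1036 7 972)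
(mv 973 (cons (fin 908 7 908)
(fin 1166 4 973)))))))))
(mv 1293 (cons (fin 1102 6 1037)
(mv 1294 (cons (fin 1358 4 1101)
(fin 1230 4 1037))))))))
(cons (mv 1229 (cons (fin 974 6 973)
(mv 1292 (cons (fin 1228 5 1036)
(mv 1356 (cons (fin 1293 5 1100)
(mv 1230 (cons (fin 1294 4 1037)
(mv 972 (cons (fin 1036 7 972)
(mv 973 (cons (fin 908 7 908)
(fin 1166 4 973)))))))))))))
(mv 1229 (cons (fin 974 6 973)
(mv 1293 (cons (fin 1102 6 1037)
(mv 1294 (cons (fin 1358 4 1101)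
(fin 1230 4 1037)))))))))))
(mv 1039 (cons (cons (mv 1104 (cons (fin 1105 0 1037)
(mv 1103 (cons (fin 1036 0 1036)
(mv 972 (cons (fin 973 3 972)
(mv 976 (cons (fin 977 2 973)
(mv 1167 (cons (fin 912 5 911)
(fin 1231 6 975)))))))))))
(mv 1104 (cons (fin 1105 0 1037)
(mv 1103 (cons (fin 1036 0 1036)
(mv 976 (cons (fin 977 2 973)
(mv 1167 (cons (fin 912 5 911)
(fin 1231 6 975))))))))))
(cons (mv 1104 (cons (fin 1105 0 1037)
(mv 1036 (cons (fin 1103 0 1036)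
(mv 972 (cons (fin 971 3 971)
(fin 973 3 972)))))))
(cons (mv 972 (cons (fin 973 3 972)
(mv 1036 (cons (fin 971 3 971)
(mv 976 (cons (fin 975 2 972)
(fin 977 2 973)))))))
(mv 1104 (cons (fin 1105 0 1037)
(mv 972 (cons (fin 973 3 972)
(mv 976 (cons (fin 977 2 973)
(mv 912 (cons (mv 1103 (cons (fin 1167 5 911)
(fin 848 5 847)))
(cons (mv 911 (cons (fin 847 7 847)
(mv 1168 (cons (fin 975 7 911)
(mv 1167 (cons (fin 1231 5 975)
(mv 1169 (cons (fin 1233 4 976)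
(mv 1166 (cons (fin 1102 3 1101)
(mv 1229 (cons (fin 1230 1 1165)
(mv 1165 (cons (fin 1228 1 1164)
(fin 974 6 973)))))))))))))))
(mv 1103 (cons (fin 848 5 847)
(mv 911 (cons (fin 847 7 847)
(mv 1168 (cons (fin 975 7 911)
(mv 1169 (cons (fin 1102 0 1101)
(fin 1233 4 976))))))))))))))))))))))))
(cons (cons (mv 1039 (cons (fin 1100 1 1036)
(mv 1104 (cons (fin 1105 0 1037)
(mv 1103 (cons (fin 1036 0 1036)
(mv 976 (cons (fin 977 2 973)
(mv 1167 (cons (fin 912 5 911)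
(fin 1231 6 975)))))))))))
(mv 1039 (cons (fin 1100 1 1036)
(mv 1104 (cons (fin 1105 0 1037)
(mv 1036 (cons (fin 1103 0 1036)
(mv 972 (cons (fin 971 3 971)
(fin 973 3 972))))))))))
(cons (mv 1039 (cons (fin 1100 1 1036)
(mv 1104 (cons (fin 1105 0 1037)
(mv 972 (cons (fin 973 3 972)
(mv 976 (cons (fin 977 2 973)
(mv 912 (cons (mv 1103 (cons (fin 1167 5 911)
(fin 848 5 847)))
(cons (mv 911 (cons (fin 847 7 847)
(mv 1168 (cons (fin 975 7 911)
(mv 1167 (cons (fin 1231 5 975)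
(mv 1169 (cons (fin 1233 4 976)
(mv 1166 (cons (fin 1102 3 1101)
(mv 1229 (cons (fin 1230 1 1165)
(mv 1165 (cons (fin 1228 1 1164)
(fin 974 6 973)))))))))))))))
(mv 1103 (cons (fin 848 5 847)
(mv 911 (cons (fin 847 7 847)
(mv 1168 (cons (fin 975 7 911)
(mv 1169 (cons (fin 1102 0 1101)
(fin 1233 4 976))))))))))))))))))))
(mv 1039 (cons (fin 1100 1 1036)
(mv 1104 (cons (fin 1105 0 1037)
(mv 972 (cons (fin 973 3 972)
(mv 1036 (cons (fin 971 3 971)
(mv 976 (cons (fin 975 2 972)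
(fin 977 2 973)))))))))))))))
(mv 1038 (cons (cons (mv 1039 (cons (fin 1100 1 1036)
(mv 1104 (cons (fin 1105 0 1037)
(mv 1103 (cons (fin 1036 0 1036)
(mv 972 (cons (fin 973 3 972)
(mv 976 (cons (fin 977 2 973)
(mv 1167 (cons (fin 912 5 911)
(fin 1231 6 975)))))))))))))
(cons (mv 974 (cons (cons (mv 1165 (cons (fin 1229 6 973)
(mv 910 (cons (fin 1102 5 909)
(fin 846 5 845)))))
(mv 910 (cons (fin 846 5 845)
(mv 1102 (cons (cons (mv 1167 (cons (fin 1103 4 910)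
(mv 1166 (cons (fin 1231 4 974)
(mv 1230 (cons (fin 1294 7 1037)
(fin 973 7 973)))))))
(mv 909 (cons (fin 845 7 845)
(mv 1166 (cons (fin 973 7 909)
(mv 1230 (cons (fin 1294 7 1037)
(mv 1231 (cons (fin 1295 4 1038)
(fin 1167 4 974))))))))))
(cons (mv 909 (cons (fin 845 7 845)
(mv 973 (cons (fin 1166 7 909)
(mv 1164 (cons (fin 1100 5 908)
(mv 908 (cons (fin 844 7 844)
(mv 975 (cons (fin 976 3 908)
(fin 907 0 907)))))))))))
(mv 1103 (cons (fin 1167 4 910)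
(mv 1104 (cons (fin 1036 3 1036)
(fin 1105 3 1037)))))))))))
(cons (mv 1165 (cons (fin 1229 6 973)
(mv 973 (cons (cons (mv 1228 (cons (fin 1164 5 972)
(mv 1230 (cons (fin 1166 4 973)
(mv 972 (cons (fin 908 7 908)
(mv 971 (cons (fin 970 0 970)
(mv 1035 (cons (fin 1034 1 970)
(mv 1036 (cons (fin 975 1 971)
(mv 1098 (cons (fin 1099 1 1034)
(mv 1102 (cons (fin 1103 0 1035)
(mv 907 (cons (fin 906 3 906)
(mv 843 (cons (fin 1100 4 843)
(fin 779 4 779)))))))))))))))))))))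
(cons (mv 1228 (cons (fin 1164 5 972)
(mv 972 (cons (fin 908 7 908)
(mv 971 (cons (fin 970 0 970)
(mv 1035 (cons (fin 1034 1 970)
(mv 1036 (cons (fin 975 1 971)
(mv 1098 (cons (fin 1099 1 1034)
(mv 1102 (cons (fin 1103 0 1035)
(mv 907 (cons (fin 906 3 906)
(mv 843 (cons (fin 1100 4 843)
(fin 779 4 779)))))))))))))))))))
(mv 1228 (cons (fin 1164 5 972)
(mv 1166 (cons (fin 1230 4 973)
(mv 1102 (cons (fin 909 7 909)
(mv 1167 (cons (fin 1231 4 974)
(mv 1168 (cons (fin 1100 3 1100)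
(fin 1169 3 1101)))))))))))))
(cons (mv 1230 (cons (fin 1166 4 973)
(mv 972 (cons (fin 908 7 908)
(mv 971 (cons (fin 970 0 970)
(mv 1035 (cons (fin 1034 1 970)
(mv 1036 (cons (fin 975 1 971)
(mv 1098 (cons (fin 1099 1 1034)
(mv 1102 (cons (fin 1103 0 1035)
(mv 907 (cons (fin 906 3 906)
(mv 843 (cons (fin 1100 4 843)
(fin 779 4 779)))))))))))))))))))
(cons (mv 1228 (cons (fin 1164 5 972)
(mv 1230 (cons (fin 1166 4 973)
(mv 972 (cons (fin 908 7 908)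
(mv 971 (cons (fin 970 0 970)
(mv 1035 (cons (fin 1034 1 970)
(mv 1036 (cons (fin 975 1 971)
(mv 1098 (cons (fin 1099 1 1034)
(mv 907 (cons (fin 906 3 906)
(mv 843 (cons (fin 1100 4 843)
(fin 779 4 779)))))))))))))))))))
(mv 1228 (cons (fin 1164 5 972)
(mv 1230 (cons (fin 1166 4 973)
(mv 908 (cons (fin 972 7 908)
(mv 909 (cons (fin 844 7 844)
(mv 845 (cons (fin 1102 4 845)
(fin 781 4 781)))))))))))))))))
(mv 1165 (cons (fin 1229 6 973)
(mv 910 (cons (fin 846 5 845)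
(fin 973 6 909))))))))
(mv 1039 (cons (cons (mv 1104 (cons (fin 1105 0 1037)
(mv 1103 (cons (fin 1036 0 1036)
(mv 972 (cons (fin 973 3 972)
(mv 976 (cons (fin 977 2 973)
(mv 1167 (cons (fin 912 5 911)
(fin 1231 6 975)))))))))))
(mv 1104 (cons (fin 1105 0 1037)
(mv 1103 (cons (fin 1036 0 1036)
(mv 976 (cons (fin 977 2 973)
(mv 1167 (cons (fin 912 5 911)
(fin 1231 6 975))))))))))
(cons (mv 1104 (cons (fin 1105 0 1037)
(mv 1036 (cons (fin 1103 0 1036)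
(mv 972 (cons (fin 971 3 971)
(fin 973 3 972)))))))
(cons (mv 972 (cons (fin 973 3 972)
(mv 1036 (cons (fin 971 3 971)
(mv 976 (cons (fin 975 2 972)
(fin 977 2 973)))))))
(mv 1104 (cons (fin 1105 0 1037)
(mv 972 (cons (fin 973 3 972)
(mv 976 (cons (fin 977 2 973)
(mv 912 (cons (mv 1103 (cons (fin 1167 5 911)
(fin 848 5 847)))
(cons (mv 849 (cons (fin 913 6 848)
(mv 848 (cons (fin 785 6 784)
(mv 783 (cons (fin 847 7 783)
(mv 784 (cons (fin 975 5 783)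
(fin 719 7 719)))))))))
(mv 1167 (cons (fin 1103 5 911)
(mv 1168 (cons (fin 1231 5 975)
(mv 1169 (cons (fin 1233 4 976)
(mv 1166 (cons (fin 1102 3 1101)
(mv 1229 (cons (fin 1230 1 1165)
(mv 1165 (cons (fin 1228 1 1164)
(fin 974 6 973))))))))))))))))))))))))))))
(cons (cons (mv 1039 (cons (fin 1100 1 1036)
(mv 1104 (cons (fin 1105 0 1037)
(mv 1103 (cons (fin 1036 0 1036)
(mv 976 (cons (fin 977 2 973)
(mv 1167 (cons (fin 912 5 911)
(fin 1231 6 975)))))))))))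
(mv 1039 (cons (fin 1100 1 1036)
(mv 972 (cons (fin 973 3 972)
(mv 1036 (cons (fin 971 3 971)
(mv 976 (cons (fin 975 2 972)
(fin 977 2 973))))))))))
(cons (mv 1039 (cons (fin 1100 1 1036)
(mv 1104 (cons (fin 1105 0 1037)
(mv 1036 (cons (fin 1103 0 1036)
(mv 972 (cons (fin 971 3 971)
(fin 973 3 972)))))))))
(mv 1039 (cons (fin 1100 1 1036)
(mv 1104 (cons (fin 1105 0 1037)
(mv 972 (cons (fin 973 3 972)
(mv 976 (cons (fin 977 2 973)
(mv 912 (cons (mv 1103 (cons (fin 1167 5 911)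
(fin 848 5 847)))
(cons (mv 849 (cons (fin 913 6 848)
(mv 848 (cons (fin 785 6 784)
(mv 783 (cons (fin 847 7 783)
(mv 784 (cons (fin 975 5 783)
(fin 719 7 719)))))))))
(mv 1167 (cons (fin 1103 5 911)
(mv 1168 (cons (fin 1231 5 975)
(mv 1169 (cons (fin 1233 4 976)
(mv 1166 (cons (fin 1102 3 1101)
(mv 1229 (cons (fin 1230 1 1165)
(mv 1165 (cons (fin 1228 1 1164)
(fin 974 6 973))))))))))))))))))))))))))))))))))
def l111 : Lem := ⟨13254031944712882724506621310649321556018620670345837899455453023597314721787975009848330616026462815765143756135158089473467252075149308743152655366187148242124071246428482498451210046760672027239036899891323305324899173507745103325308665813954110541579506451753178596634830548552232523722901151470534797188661248, 29013080489599298603113752448864411107345699166992588522320178039643200494699407059128769039750104007309738694967947996645434722429430544593402340031635574959266067715250747973952022488776034773740101049202861743579330255543155708681856064629113881958860710760675345050271973963455951837598968140713502710260495626565117468593024619080659412556730204098831765068550785203908297744710120200706665956565493715656042500600606228480,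 29013080489599298603113752448864411107345699166992588522320178039643200494699407059128769039750104007309738694967947996645434722429430544593402340031635574959266067715250747973952022488776034773740101049202861743579330255543155708681856064629113881958860710760675345050271973963455951837598968140713502710260495626565117468593024619080659412556730204098831765068550785203908297744710120200706665956565493715656042500600606228480, 19, 33⟩
theorem l111_valid : l111.Valid :=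
  Lem.valid_of_chk t111 t111_valid [1037, 1040] c111 l111 (by decide +kernel)
end Crest.Agent.SnakyAux
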