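import Crest.Agent.S0047_aux.Checker

set_option autoImplicit false
set_option maxRecDepth 100000
namespace Crest.Agent.SnakyAux
open Cert
def t112 : Tbl := Tbl.nil
theorem t112_valid : t112.Valid := Tbl.valid_nil
def c112 : Cert :=
(mv 1104 (cons (cons (cons (mv 1039 (cons (cons (mv 1038 (cons (fin 1105 0 1037)
(mv 1100 (cons (fin 1101 1 1036)
(mv 1036 (cons (fin 1099 1 1035)
(fin 1103 0 1036)))))))
(cons (mv 975 (cons (cons (mv 1168 (cons (fin 1232 7 975)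
(mv 911 (cons (fin 976 7 911)
(fin 1103 4 911)))))
(mv 911 (cons (fin 847 4 847)
(mv 1103 (cons (mv 1166 (cons (fin 1102 5 910)
(mv 1167 (cons (fin 1230 5 974)
(mv 1231 (cons (fin 1295 6 1039)
(fin 976 6 975)))))))
(cons (mv 910 (cons (fin 846 7 846)
(mv 1167 (cons (fin 974 7 910)
(mv 1231 (cons (fin 1295 6 1039)
(fin 976 6 975)))))))
(mv 1102 (cons (fin 1166 5 910)
(mv 1101 (cons (fin 1036 3 1036)
(fin 1100 2 1036)))))))))))
(cons (mv 1168 (cons (fin 1232 7 975)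
(mv 976 (cons (cons (mv 1231 (cons (fin 1167 5 975)
(mv 1233 (cons (fin 1169 4 976)
(mv 913 (cons (fin 977 6 912)
(mv 912 (cons (fin 849 6 848)
(mv 848 (cons (fin 1103 5 847)
(fin 784 5 783)))))))))))
(cons (mv 1233 (cons (fin 1169 4 976)
(mv 913 (cons (fin 977 6 912)
(mv 912 (cons (fin 849 6 848)
(mv 848 (cons (fin 1103 5 847)
(fin 784 5 783)))))))))
(mv 1231 (cons (fin 1167 5 975)
(mv 1169 (cons (fin 1233 4 976)
(mv 912 (cons (fin 1105 4 912)
(mv 848 (cons (fin 1103 5 847)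
(fin 784 5 783)))))))))))
(cons (mv 1231 (cons (fin 1167 5 975)
(mv 913 (cons (fin 977 6 912)
(mv 912 (cons (fin 849 6 848)
(mv 848 (cons (fin 1103 5 847)
(fin 784 5 783)))))))))
(cons (mv 1231 (cons (fin 1167 5 975)
(mv 1169 (cons (fin 1233 4 976)
(mv 977 (cons (fin 913 6 912)
(mv 978 (cons (fin 979 1 975)
(mv 1042 (cons (fin 1043 0 975)
(mv 914 (cons (fin 915 2 911)
(mv 1106 (cons (fin 1105 5 913)
(mv 1171 (cons (fin 1107 4 914)
(mv 1170 (cons (fin 1103 3 1103)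
(fin 1235 4 978)))))))))))))))))))
(mv 1231 (cons (fin 1167 5 975)
(mv 1169 (cons (fin 1233 4 976)
(mv 1105 (cons (fin 912 4 912)
(mv 1106 (cons (fin 1107 3 1039)
(mv 977 (cons (fin 913 6 912)
(mv 978 (cons (fin 979 1 975)
(mv 1042 (cons (fin 1043 0 975)
(fin 914 5 913)))))))))))))))))))))
(cons (mv 1168 (cons (fin 1232 7 975)
(mv 911 (cons (fin 976 7 911)
(fin 847 4 847)))))
(mv 1168 (cons (fin 1232 7 975)
(mv 911 (cons (fin 1103 4 911)
(fin 847 4 847)))))))))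
(mv 1038 (cons (cons (mv 1100 (cons (fin 1101 1 1036)
(mv 1036 (cons (fin 1099 1 1035)
(fin 1103 0 1036)))))
(mv 1100 (cons (fin 1101 1 1036)
(mv 976 (cons (fin 977 2 973)
(mv 1168 (cons (mv 975 (cons (fin 1232 7 975)
(fin 911 7 911)))
(cons (mv 1231 (cons (fin 1167 5 975)
(mv 1232 (cons (fin 1295 5 1039)
(mv 1233 (cons (fin 1297 4 1040)
(fin 1169 4 976)))))))
(mv 1231 (cons (fin 1167 5 975)
(mv 1233 (cons (fin 1169 4 976)
(mv 911 (cons (fin 975 7 911)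
(mv 912 (cons (fin 847 7 847)
(mv 848 (cons (fin 1103 5 847)
(mv 849 (cons (fin 913 6 848)
(fin 785 6 784)))))))))))))))))))))
(cons (mv 1103 (cons (fin 1036 0 1036)
(mv 976 (cons (fin 977 2 973)
(mv 1167 (cons (fin 912 5 911)
(fin 1231 6 975)))))))
(mv 1100 (cons (fin 1101 1 1036)
(mv 1036 (cons (fin 1099 1 1035)
(mv 976 (cons (fin 975 2 972)
(fin 977 2 973))))))))))))
(cons (mv 1038 (cons (fin 1105 0 1037)
(mv 1100 (cons (fin 1101 1 1036)
(mv 1036 (cons (fin 1099 1 1035)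
(mv 976 (cons (fin 975 2 972)
(fin 977 2 973)))))))))
(cons (mv 1038 (cons (fin 1105 0 1037)
(mv 1100 (cons (fin 1101 1 1036)
(mv 976 (cons (fin 977 2 973)
(mv 1168 (cons (mv 975 (cons (fin 1232 7 975)
(fin 911 7 911)))
(cons (mv 1231 (cons (fin 1167 5 975)
(mv 1232 (cons (fin 1295 5 1039)
(mv 1233 (cons (fin 1297 4 1040)
(fin 1169 4 976)))))))
(mv 1231 (cons (fin 1167 5 975)
(mv 1233 (cons (fin 1169 4 976)
(mv 911 (cons (fin 975 7 911)
(mv 912 (cons (fin 847 7 847)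
(mv 848 (cons (fin 1103 5 847)
(mv 849 (cons (fin 913 6 848)
(fin 785 6 784))))))))))))))))))))))
(mv 1038 (cons (fin 1105 0 1037)
(mv 1103 (cons (fin 1036 0 1036)
(mv 976 (cons (fin 977 2 973)
(mv 1167 (cons (fin 912 5 911)
(fin 1231 6 975)))))))))))))
(cons (mv 976 (cons (cons (mv 1168 (cons (cons (mv 1231 (cons (fin 1167 5 975)
(mv 1295 (cons (fin 1232 5 1039)
(mv 1233 (cons (fin 1169 4 976)
(mv 911 (cons (fin 975 7 911)
(mv 912 (cons (fin 847 7 847)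
(mv 913 (cons (fin 977 6 912)
(fin 849 6 848)))))))))))))
(cons (mv 1233 (cons (fin 1169 4 976)
(mv 1297 (cons (fin 1232 4 1040)
(mv 911 (cons (fin 975 7 911)
(mv 912 (cons (fin 847 7 847)
(mv 913 (cons (fin 977 6 912)
(fin 849 6 848)))))))))))
(mv 1231 (cons (fin 1167 5 975)
(mv 1295 (cons (fin 1232 5 1039)
(mv 911 (cons (fin 975 7 911)
(mv 912 (cons (fin 847 7 847)
(mv 913 (cons (fin 977 6 912)
(fin 849 6 848)))))))))))))
(cons (cons (mv 1231 (cons (fin 1167 5 975)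
(mv 1295 (cons (fin 1232 5 1039)
(mv 1169 (cons (fin 1233 4 976)
(mv 912 (cons (fin 1105 4 912)
(mv 913 (cons (fin 977 6 912)
(fin 849 6 848)))))))))))
(mv 1231 (cons (fin 1167 5 975)
(mv 1295 (cons (fin 1232 5 1039)
(mv 1169 (cons (fin 1233 4 976)
(mv 911 (cons (fin 975 7 911)
(mv 912 (cons (fin 847 7 847)
(fin 1105 4 912))))))))))))
(cons (mv 1231 (cons (fin 1167 5 975)
(mv 1232 (cons (fin 1295 5 1039)
(mv 1233 (cons (fin 1297 4 1040)
(fin 1169 4 976)))))))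
(mv 1231 (cons (fin 1167 5 975)
(mv 1233 (cons (fin 1169 4 976)
(mv 911 (cons (fin 975 7 911)
(mv 912 (cons (fin 847 7 847)
(mv 913 (cons (fin 977 6 912)
(fin 849 6 848)))))))))))))))
(cons (mv 912 (cons (cons (mv 1167 (cons (fin 1103 5 911)
(mv 1169 (cons (fin 1105 4 912)
(mv 847 (cons (fin 911 7 847)
(mv 848 (cons (fin 783 7 783)
(mv 849 (cons (fin 913 6 848)
(fin 785 6 784)))))))))))
(mv 1103 (cons (fin 1167 5 911)
(mv 1105 (cons (fin 1169 4 912)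
(mv 1102 (cons (fin 1038 3 1037)
(mv 1165 (cons (fin 1166 1 1101)
(mv 1101 (cons (fin 1164 1 1100)
(fin 1036 3 1036))))))))))))
(cons (mv 1169 (cons (fin 1105 4 912)
(mv 847 (cons (fin 911 7 847)
(mv 848 (cons (fin 783 7 783)
(mv 849 (cons (fin 913 6 848)
(fin 785 6 784)))))))))
(mv 1167 (cons (fin 1103 5 911)
(mv 847 (cons (fin 911 7 847)
(mv 848 (cons (fin 783 7 783)
(mv 849 (cons (fin 913 6 848)
(fin 785 6 784))))))))))))
(mv 1168 (cons (cons (mv 1231 (cons (fin 1167 5 975)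
(mv 1232 (cons (fin 1295 5 1039)
(mv 1233 (cons (fin 1297 4 1040)
(fin 1169 4 976)))))))
(mv 975 (cons (fin 911 7 911)
(mv 977 (cons (fin 913 6 912)
(mv 1038 (cons (fin 974 1 973)
(mv 978 (cons (cons (mv 1233 (cons (fin 1169 4 976)
(mv 1297 (cons (fin 1232 4 1040)
(mv 1043 (cons (fin 1042 0 975)
(mv 979 (cons (fin 1044 0 976)
(mv 915 (cons (fin 914 2 911)
(fin 916 2 912)))))))))))
(cons (mv 1043 (cons (fin 1042 0 975)
(mv 979 (cons (fin 1044 0 976)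
(mv 915 (cons (fin 914 2 911)
(fin 916 2 912)))))))
(mv 1169 (cons (fin 1233 4 976)
(mv 915 (cons (fin 914 2 911)
(mv 979 (cons (fin 916 2 912)
(mv 1103 (cons (mv 1102 (cons (fin 1105 3 1037)
(fin 1101 0 1101)))
(cons (mv 1170 (cons (fin 1171 3 1103)
(mv 1106 (cons (fin 1042 6 914)
(mv 1167 (cons (fin 1107 2 1103)
(mv 1234 (cons (fin 1235 0 1167)
(mv 1166 (cons (fin 1105 1 1102)
(mv 1229 (cons (fin 1230 1 1165)
(mv 1165 (cons (fin 1228 1 1164)
(fin 1164 2 1100)))))))))))))))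
(mv 1170 (cons (fin 1171 3 1103)
(mv 1102 (cons (fin 1167 3 1102)
(fin 1101 0 1101))))))))))))))))
(cons (cons (mv 1043 (cons (fin 1042 0 975)
(mv 979 (cons (fin 1044 0 976)
(mv 1171 (cons (cons (mv 1233 (cons (fin 1169 4 976)
(mv 1297 (cons (fin 1232 4 1040)
(mv 1107 (cons (fin 914 7 914)
(mv 1234 (cons (fin 1170 5 978)
(mv 1235 (cons (fin 1298 5 1042)
(mv 1236 (cons (fin 1296 1 1232)
(fin 1300 4 1043)))))))))))))
(cons (mv 1169 (cons (fin 1233 4 976)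
(mv 1170 (cons (fin 1103 3 1103)
(mv 1235 (cons (fin 1236 0 1168)
(mv 1234 (cons (fin 1167 0 1167)
(mv 1172 (cons (fin 1105 3 1104)
(mv 1173 (cons (fin 1174 1 1170)
(mv 1109 (cons (fin 1108 2 1105)
(fin 1110 2 1106)))))))))))))))
(mv 1107 (cons (fin 914 7 914)
(mv 1234 (cons (fin 1170 5 978)
(mv 1235 (cons (fin 1298 5 1042)
(mv 1236 (cons (fin 1300 4 1043)
(fin 1172 4 979)))))))))))
(cons (mv 1233 (cons (fin 1169 4 976)
(mv 1297 (cons (fin 1232 4 1040)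
(mv 1107 (cons (fin 914 7 914)
(mv 1236 (cons (fin 1172 4 979)
(mv 1235 (cons (fin 1300 4 1043)
(mv 1234 (cons (fin 1296 1 1232)
(fin 1298 5 1042)))))))))))))
(cons (mv 1233 (cons (fin 1169 4 976)
(mv 1232 (cons (fin 1297 4 1040)
(mv 1107 (cons (fin 914 7 914)
(mv 1234 (cons (fin 1170 5 978)
(mv 1235 (cons (fin 1167 3 1167)
(fin 1172 2 1168)))))))))))
(mv 1169 (cons (fin 1233 4 976)
(mv 1170 (cons (fin 1103 3 1103)
(mv 1107 (cons (fin 1108 2 1104)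
(fin 914 7 914)))))))))))))))
(mv 979 (cons (mv 915 (cons (fin 914 2 911)
(fin 916 2 912)))
(cons (mv 1043 (cons (fin 1044 0 976)
(mv 1171 (cons (cons (mv 1233 (cons (fin 1169 4 976)
(mv 1297 (cons (fin 1232 4 1040)
(mv 1107 (cons (fin 914 7 914)
(mv 1234 (cons (fin 1170 5 978)
(mv 1235 (cons (fin 1298 5 1042)
(mv 1236 (cons (fin 1296 1 1232)
(fin 1300 4 1043)))))))))))))
(cons (mv 1169 (cons (fin 1233 4 976)
(mv 1170 (cons (fin 1103 3 1103)
(mv 1235 (cons (fin 1236 0 1168)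
(mv 1234 (cons (fin 1167 0 1167)
(mv 1172 (cons (fin 1105 3 1104)
(mv 1173 (cons (fin 1174 1 1170)
(mv 1109 (cons (fin 1108 2 1105)
(fin 1110 2 1106)))))))))))))))
(mv 1107 (cons (fin 914 7 914)
(mv 1234 (cons (fin 1170 5 978)
(mv 1235 (cons (fin 1298 5 1042)
(mv 1236 (cons (fin 1300 4 1043)
(fin 1172 4 979)))))))))))
(cons (mv 1233 (cons (fin 1169 4 976)
(mv 1297 (cons (fin 1232 4 1040)
(mv 1107 (cons (fin 914 7 914)
(mv 1236 (cons (fin 1172 4 979)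
(mv 1235 (cons (fin 1300 4 1043)
(mv 1234 (cons (fin 1296 1 1232)
(fin 1298 5 1042)))))))))))))
(cons (mv 1233 (cons (fin 1169 4 976)
(mv 1232 (cons (fin 1297 4 1040)
(mv 1107 (cons (fin 914 7 914)
(mv 1234 (cons (fin 1170 5 978)
(mv 1235 (cons (fin 1167 3 1167)
(fin 1172 2 1168)))))))))))
(mv 1169 (cons (fin 1233 4 976)
(mv 1170 (cons (fin 1103 3 1103)
(mv 1107 (cons (fin 1108 2 1104)
(fin 914 7 914)))))))))))))
(mv 1233 (cons (fin 1169 4 976)
(mv 1297 (cons (fin 1232 4 1040)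
(mv 1044 (cons (fin 1043 0 976)
(mv 980 (cons (fin 1045 0 977)
(mv 916 (cons (fin 915 2 912)
(fin 917 2 913)))))))))))))))
(cons (mv 1169 (cons (fin 1233 4 976)
(mv 1043 (cons (fin 1042 0 975)
(mv 979 (cons (fin 1044 0 976)
(mv 916 (cons (fin 915 2 912)
(mv 980 (cons (fin 917 2 913)
(mv 1171 (cons (fin 1107 6 915)
(mv 1170 (cons (fin 1103 3 1103)
(mv 1235 (cons (fin 1236 0 1168)
(mv 1167 (cons (fin 1234 0 1167)
(mv 1105 (cons (fin 1172 3 1104)
(mv 1166 (cons (fin 1165 2 1101)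
(fin 1106 2 1102)))))))))))))))))))))))
(mv 1169 (cons (fin 1233 4 976)
(mv 1042 (cons (fin 1043 0 975)
(mv 914 (cons (fin 915 2 911)
(mv 1106 (cons (fin 1105 5 913)
(mv 1171 (cons (fin 1107 4 914)
(mv 1170 (cons (fin 1103 3 1103)
(fin 1235 4 978))))))))))))))))))))))))
(cons (mv 1167 (cons (fin 1231 5 975)
(mv 975 (cons (fin 911 7 911)
(mv 977 (cons (fin 913 6 912)
(mv 1038 (cons (fin 974 1 973)
(mv 1105 (cons (cons (mv 1166 (cons (fin 1165 2 1101)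
(mv 1103 (cons (fin 1106 1 1102)
(fin 1102 3 1037)))))
(mv 1103 (cons (fin 1102 3 1037)
(mv 978 (cons (cons (mv 1106 (cons (fin 1107 1 1103)
(mv 1170 (cons (fin 1171 0 1103)
(mv 1042 (cons (fin 1043 0 975)
(mv 914 (cons (fin 915 2 911)
(fin 1169 5 913)))))))))
(cons (mv 1043 (cons (fin 1042 0 975)
(mv 979 (cons (fin 1044 0 976)
(mv 915 (cons (fin 914 2 911)
(fin 916 2 912)))))))
(mv 1106 (cons (fin 1107 1 1103)
(mv 1170 (cons (fin 1171 0 1103)
(mv 915 (cons (fin 914 2 911)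
(mv 979 (cons (fin 916 2 912)
(fin 1042 6 914)))))))))))
(cons (mv 1107 (cons (fin 1106 1 1103)
(mv 915 (cons (fin 914 2 911)
(mv 979 (cons (fin 916 2 912)
(mv 1043 (cons (fin 1044 0 976)
(mv 1172 (cons (fin 1108 4 915)
(mv 1171 (cons (fin 1236 4 979)
(mv 1170 (cons (fin 1169 3 1103)
(fin 1234 5 978)))))))))))))))
(cons (mv 1107 (cons (fin 1106 1 1103)
(mv 1043 (cons (fin 1042 0 975)
(mv 979 (cons (fin 1044 0 976)
(mv 1171 (cons (fin 914 7 914)
(mv 1170 (cons (fin 1169 3 1103)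
(fin 1234 5 978)))))))))))
(mv 1107 (cons (fin 1106 1 1103)
(mv 1043 (cons (fin 1042 0 975)
(mv 979 (cons (fin 1044 0 976)
(mv 915 (cons (fin 916 2 912)
(mv 1172 (cons (fin 1108 4 915)
(mv 1171 (cons (fin 1236 4 979)
(mv 1170 (cons (fin 1169 3 1103)
(fin 1234 5 978))))))))))))))))))))))
(cons (mv 1166 (cons (fin 1165 2 1101)
(mv 1102 (cons (fin 1103 3 1037)
(mv 1230 (cons (mv 1229 (cons (fin 1169 1 1165)
(fin 1293 5 1037)))
(cons (mv 1101 (cons (fin 1169 3 1101)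
(fin 1294 7 1037)))
(mv 1293 (cons (fin 1229 5 1037)
(mv 1294 (cons (fin 1357 5 1101)
(fin 1101 7 1037))))))))))))
(mv 1166 (cons (fin 1165 2 1101)
(mv 1106 (cons (fin 1107 1 1103)
(fin 1169 2 1102))))))))))))))))
(cons (mv 975 (cons (fin 911 7 911)
(mv 977 (cons (fin 913 6 912)
(mv 1038 (cons (fin 974 1 973)
(mv 1043 (cons (cons (mv 1233 (cons (fin 1169 4 976)
(mv 1297 (cons (fin 1232 4 1040)
(mv 978 (cons (fin 1042 0 975)
(mv 979 (cons (fin 1044 0 976)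
(mv 915 (cons (fin 914 2 911)
(fin 916 2 912)))))))))))
(mv 1232 (cons (cons (mv 1233 (cons (fin 1297 4 1040)
(fin 1169 4 976)))
(mv 1295 (cons (fin 1231 5 1039)
(mv 1296 (cons (fin 1359 5 1103)
(mv 1361 (cons (fin 1297 4 1104)
(mv 1360 (cons (fin 1425 4 1168)
(mv 1362 (cons (fin 1363 3 1295)
(mv 1105 (cons (fin 1169 6 1104)
(mv 1103 (cons (fin 1102 3 1037)
(mv 1106 (cons (fin 1042 2 1039)
(mv 1171 (cons (fin 1170 0 1103)
(mv 1107 (cons (fin 1172 0 1104)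
(fin 1044 2 1040))))))))))))))))))))))
(cons (mv 1295 (cons (fin 1231 5 1039)
(mv 1296 (cons (fin 1359 5 1103)
(mv 1169 (cons (fin 1233 4 976)
(mv 1105 (cons (fin 1360 6 1104)
(mv 1103 (cons (fin 1102 3 1037)
(mv 1170 (cons (fin 1171 3 1103)
(mv 1106 (cons (fin 1042 2 1039)
(mv 1107 (cons (fin 1108 1 1104)
(fin 1044 2 1040)))))))))))))))))
(mv 1295 (cons (fin 1231 5 1039)
(mv 1296 (cons (fin 1359 5 1103)
(mv 1297 (cons (fin 1361 4 1104)
(fin 1233 4 1040)))))))))))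
(cons (mv 978 (cons (fin 1042 0 975)
(mv 979 (cons (fin 1044 0 976)
(mv 915 (cons (fin 914 2 911)
(fin 916 2 912)))))))
(cons (mv 1169 (cons (fin 1233 4 976)
(mv 979 (cons (cons (mv 978 (cons (fin 1044 0 976)
(mv 915 (cons (fin 914 2 911)
(fin 916 2 912)))))
(mv 1103 (cons (mv 1102 (cons (fin 1105 3 1037)
(fin 1101 0 1101)))
(cons (mv 1171 (cons (fin 1170 3 1103)
(mv 1107 (cons (cons (mv 1236 (cons (fin 1172 4 979)
(mv 1235 (cons (fin 1300 4 1043)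
(mv 980 (cons (fin 1044 6 979)
(fin 916 6 915)))))))
(mv 980 (cons (fin 916 6 915)
(mv 1235 (cons (fin 1044 6 979)
(mv 1298 (cons (fin 1234 5 1042)
(mv 1299 (cons (fin 1362 5 1106)
(mv 1300 (cons (fin 1364 4 1107)
(fin 1236 4 1043))))))))))))
(cons (mv 1172 (cons (fin 1236 4 979)
(mv 1105 (cons (fin 1106 0 1104)
(mv 915 (cons (fin 1108 4 915)
(mv 850 (cons (fin 914 7 850)
(mv 851 (cons (fin 786 7 786)
(mv 852 (cons (fin 916 6 851)
(fin 788 6 787)))))))))))))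
(cons (mv 916 (cons (fin 980 6 915)
(mv 915 (cons (fin 852 6 851)
(mv 1108 (cons (fin 1172 4 915)
(mv 1105 (cons (fin 1106 1 1104)
(mv 850 (cons (fin 914 7 850)
(mv 851 (cons (fin 786 7 786)
(fin 1044 4 851)))))))))))))
(mv 1236 (cons (fin 1172 4 979)
(mv 1235 (cons (fin 1300 4 1043)
(mv 1298 (cons (fin 1234 5 1042)
(mv 1299 (cons (fin 1362 5 1106)
(mv 1044 (cons (fin 1108 6 1043)
(fin 980 6 979)))))))))))))))))
(mv 1171 (cons (fin 1170 3 1103)
(mv 1101 (cons (fin 1102 0 1101)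
(mv 1107 (cons (cons (mv 1236 (cons (fin 1172 4 979)
(mv 1235 (cons (fin 1300 4 1043)
(mv 980 (cons (fin 1044 6 979)
(fin 916 6 915)))))))
(mv 980 (cons (fin 916 6 915)
(mv 1235 (cons (fin 1044 6 979)
(mv 1298 (cons (fin 1234 5 1042)
(mv 1299 (cons (fin 1362 5 1106)
(mv 1300 (cons (fin 1364 4 1107)
(fin 1236 4 1043))))))))))))
(cons (mv 1172 (cons (fin 1236 4 979)
(mv 915 (cons (fin 1108 4 915)
(mv 850 (cons (fin 914 7 850)
(mv 851 (cons (fin 786 7 786)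
(mv 852 (cons (fin 916 6 851)
(fin 788 6 787)))))))))))
(cons (mv 916 (cons (fin 980 6 915)
(mv 915 (cons (fin 852 6 851)
(mv 1108 (cons (fin 1172 4 915)
(mv 850 (cons (fin 914 7 850)
(mv 851 (cons (fin 786 7 786)
(fin 1044 4 851)))))))))))
(mv 1236 (cons (fin 1172 4 979)
(mv 1235 (cons (fin 1300 4 1043)
(mv 1298 (cons (fin 1234 5 1042)
(mv 1299 (cons (fin 1362 5 1106)
(mv 1044 (cons (fin 1108 6 1043)
(fin 980 6 979)))))))))))))))))))))))
(cons (mv 1103 (cons (mv 1102 (cons (fin 1105 3 1037)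
(fin 1101 0 1101)))
(mv 1170 (cons (fin 1171 3 1103)
(mv 915 (cons (cons (mv 978 (cons (fin 914 2 911)
(fin 916 2 912)))
(mv 1107 (cons (fin 1106 5 914)
(mv 1172 (cons (fin 1108 4 915)
(mv 850 (cons (fin 914 7 850)
(mv 851 (cons (fin 786 7 786)
(mv 852 (cons (fin 916 6 851)
(fin 788 6 787))))))))))))
(cons (mv 1107 (cons (fin 1106 5 914)
(mv 914 (cons (fin 978 2 911)
(fin 850 7 850)))))
(mv 1107 (cons (fin 1106 5 914)
(mv 916 (cons (fin 978 2 912)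
(fin 852 6 851))))))))))))
(cons (mv 1044 (cons (fin 978 0 976)
(mv 1171 (cons (cons (mv 1170 (cons (fin 1103 3 1103)
(mv 1107 (cons (fin 1108 2 1104)
(fin 1234 5 978)))))
(mv 1107 (cons (mv 980 (cons (fin 1235 6 979)
(fin 916 6 915)))
(cons (mv 1236 (cons (fin 1172 4 979)
(mv 1235 (cons (fin 1300 4 1043)
(mv 1298 (cons (fin 1234 5 1042)
(mv 1299 (cons (fin 1362 5 1106)
(fin 1108 6 1043)))))))))
(mv 1172 (cons (fin 1236 4 979)
(mv 1106 (cons (fin 1105 0 1104)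
(mv 1173 (cons (fin 1174 3 1106)
(mv 1045 (cons (fin 1046 1 1042)
(mv 980 (cons (fin 916 6 915)
(mv 1237 (cons (fin 1109 7 980)
(fin 1108 4 980)))))))))))))))))
(cons (mv 1170 (cons (fin 1103 3 1103)
(mv 1231 (cons (fin 1232 1 1167)
(mv 1235 (cons (fin 1236 0 1168)
(mv 1172 (cons (fin 1105 3 1104)
(mv 1108 (cons (fin 1109 2 1105)
(fin 980 5 979)))))))))))
(mv 1170 (cons (fin 1103 3 1103)
(mv 1231 (cons (fin 1232 1 1167)
(mv 1234 (cons (fin 1107 5 978)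
(mv 1236 (cons (fin 1235 0 1168)
(mv 1172 (cons (fin 1105 3 1104)
(fin 1237 0 1169))))))))))))))))
(mv 978 (cons (fin 1044 0 976)
(mv 914 (cons (fin 915 2 911)
(mv 1171 (cons (fin 1107 7 914)
(mv 1170 (cons (fin 1103 3 1103)
(mv 1231 (cons (fin 1232 1 1167)
(mv 1236 (cons (fin 1235 0 1168)
(mv 1172 (cons (fin 1105 3 1104)
(fin 1237 0 1169)))))))))))))))))))))
(mv 1042 (cons (fin 978 0 975)
(mv 1232 (cons (cons (mv 1233 (cons (fin 1297 4 1040)
(fin 1169 4 976)))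
(mv 1295 (cons (fin 1231 5 1039)
(mv 1296 (cons (fin 1359 5 1103)
(mv 1361 (cons (fin 1297 4 1104)
(mv 1360 (cons (fin 1425 4 1168)
(mv 1362 (cons (fin 1363 3 1295)
(mv 1293 (cons (fin 1294 0 1293)
(mv 1105 (cons (fin 1169 6 1104)
(mv 1103 (cons (fin 1102 3 1037)
(fin 1106 2 1039))))))))))))))))))
(cons (mv 1295 (cons (fin 1231 5 1039)
(mv 1296 (cons (fin 1359 5 1103)
(mv 1169 (cons (fin 1233 4 976)
(mv 1105 (cons (fin 1360 6 1104)
(mv 1103 (cons (fin 1102 3 1037)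
(fin 1106 2 1039)))))))))))
(mv 1295 (cons (fin 1231 5 1039)
(mv 1296 (cons (fin 1359 5 1103)
(mv 1297 (cons (fin 1361 4 1104)
(fin 1233 4 1040))))))))))))))))))))))
(mv 975 (cons (fin 911 7 911)
(mv 977 (cons (fin 913 6 912)
(mv 1038 (cons (fin 974 1 973)
(mv 1232 (cons (cons (mv 1231 (cons (fin 1295 5 1039)
(fin 1167 5 975)))
(mv 1297 (cons (fin 1233 4 1040)
(mv 1296 (cons (fin 1361 4 1104)
(mv 1359 (cons (fin 1295 5 1103)
(mv 1360 (cons (fin 1423 5 1167)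
(mv 1357 (cons (fin 1358 2 1293)
(mv 1298 (cons (fin 1299 1 1295)
(mv 1103 (cons (fin 1167 7 1103)
(mv 1102 (cons (fin 1105 3 1037)
(mv 1036 (cons (fin 1101 3 1036)
(fin 1035 0 1035))))))))))))))))))))
(cons (mv 1297 (cons (fin 1233 4 1040)
(mv 1296 (cons (fin 1361 4 1104)
(mv 1167 (cons (fin 1231 5 975)
(mv 1103 (cons (fin 1360 7 1103)
(mv 1102 (cons (fin 1105 3 1037)
(mv 1101 (cons (fin 1036 3 1036)
(fin 1100 0 1100)))))))))))))
(mv 1295 (cons (fin 1231 5 1039)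
(mv 1296 (cons (fin 1359 5 1103)
(mv 1297 (cons (fin 1361 4 1104)
(fin 1233 4 1040))))))))))))))))))))))
(cons (cons (mv 912 (cons (cons (mv 1169 (cons (fin 1105 4 912)
(mv 1233 (cons (fin 1168 4 976)
(mv 847 (cons (fin 911 7 847)
(mv 848 (cons (fin 783 7 783)
(mv 849 (cons (fin 913 6 848)
(fin 785 6 784)))))))))))
(mv 1169 (cons (fin 1105 4 912)
(mv 1168 (cons (fin 1233 4 976)
(mv 913 (cons (fin 977 6 912)
(fin 849 6 848))))))))
(cons (mv 1169 (cons (fin 1105 4 912)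
(mv 1168 (cons (fin 1233 4 976)
(mv 911 (cons (fin 975 7 911)
(fin 847 7 847)))))))
(cons (mv 911 (cons (fin 847 7 847)
(mv 1168 (cons (fin 975 7 911)
(mv 913 (cons (fin 977 6 912)
(fin 849 6 848)))))))
(mv 1169 (cons (fin 1105 4 912)
(mv 847 (cons (fin 911 7 847)
(mv 848 (cons (fin 783 7 783)
(mv 849 (cons (fin 913 6 848)
(fin 785 6 784)))))))))))))
(mv 912 (cons (cons (mv 1167 (cons (fin 1103 5 911)
(mv 1231 (cons (fin 1168 5 975)
(mv 847 (cons (fin 911 7 847)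
(mv 848 (cons (fin 783 7 783)
(mv 849 (cons (fin 913 6 848)
(fin 785 6 784)))))))))))
(mv 1167 (cons (fin 1103 5 911)
(mv 1168 (cons (fin 1231 5 975)
(mv 913 (cons (fin 977 6 912)
(fin 849 6 848))))))))
(cons (mv 1167 (cons (fin 1103 5 911)
(mv 1168 (cons (fin 1231 5 975)
(mv 911 (cons (fin 975 7 911)
(fin 847 7 847)))))))
(cons (mv 911 (cons (fin 847 7 847)
(mv 1168 (cons (fin 975 7 911)
(mv 913 (cons (fin 977 6 912)
(fin 849 6 848)))))))
(mv 1167 (cons (fin 1103 5 911)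
(mv 847 (cons (fin 911 7 847)
(mv 848 (cons (fin 783 7 783)
(mv 849 (cons (fin 913 6 848)
(fin 785 6 784))))))))))))))
(cons (mv 1168 (cons (cons (mv 1231 (cons (fin 1167 5 975)
(mv 1295 (cons (fin 1232 5 1039)
(mv 1169 (cons (fin 1233 4 976)
(mv 912 (cons (fin 1105 4 912)
(mv 913 (cons (fin 977 6 912)
(fin 849 6 848)))))))))))
(mv 1169 (cons (fin 1233 4 976)
(mv 912 (cons (fin 1105 4 912)
(mv 913 (cons (fin 977 6 912)
(fin 849 6 848))))))))
(cons (mv 1167 (cons (fin 1231 5 975)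
(mv 912 (cons (fin 1103 5 911)
(mv 913 (cons (fin 977 6 912)
(fin 849 6 848)))))))
(mv 1231 (cons (fin 1167 5 975)
(mv 1232 (cons (fin 1295 5 1039)
(mv 1233 (cons (fin 1297 4 1040)
(fin 1169 4 976))))))))))
(mv 1168 (cons (cons (mv 1231 (cons (fin 1167 5 975)
(mv 1295 (cons (fin 1232 5 1039)
(mv 1169 (cons (fin 1233 4 976)
(mv 911 (cons (fin 975 7 911)
(mv 912 (cons (fin 847 7 847)
(fin 1105 4 912)))))))))))
(mv 1169 (cons (fin 1233 4 976)
(mv 911 (cons (fin 975 7 911)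
(mv 912 (cons (fin 847 7 847)
(fin 1105 4 912))))))))
(cons (mv 1167 (cons (fin 1231 5 975)
(mv 911 (cons (fin 975 7 911)
(mv 912 (cons (fin 1103 5 911)
(fin 847 7 847)))))))
(mv 1231 (cons (fin 1167 5 975)
(mv 1232 (cons (fin 1295 5 1039)
(mv 1233 (cons (fin 1297 4 1040)
(fin 1169 4 976))))))))))))))
(mv 976 (cons (cons (cons (mv 1168 (cons (cons (mv 1231 (cons (fin 1167 5 975)
(mv 1295 (cons (fin 1232 5 1039)
(mv 1233 (cons (fin 1169 4 976)
(mv 911 (cons (fin 975 7 911)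
(mv 912 (cons (fin 847 7 847)
(mv 913 (cons (fin 977 6 912)
(fin 849 6 848)))))))))))))
(cons (mv 1233 (cons (fin 1169 4 976)
(mv 1297 (cons (fin 1232 4 1040)
(mv 911 (cons (fin 975 7 911)
(mv 912 (cons (fin 847 7 847)
(mv 913 (cons (fin 977 6 912)
(fin 849 6 848)))))))))))
(mv 1231 (cons (fin 1167 5 975)
(mv 1295 (cons (fin 1232 5 1039)
(mv 911 (cons (fin 975 7 911)
(mv 912 (cons (fin 847 7 847)
(mv 913 (cons (fin 977 6 912)
(fin 849 6 848)))))))))))))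
(cons (cons (mv 1231 (cons (fin 1167 5 975)
(mv 1295 (cons (fin 1232 5 1039)
(mv 1169 (cons (fin 1233 4 976)
(mv 912 (cons (fin 1105 4 912)
(mv 913 (cons (fin 977 6 912)
(fin 849 6 848)))))))))))
(mv 1231 (cons (fin 1167 5 975)
(mv 1295 (cons (fin 1232 5 1039)
(mv 1169 (cons (fin 1233 4 976)
(mv 911 (cons (fin 975 7 911)
(mv 912 (cons (fin 847 7 847)
(fin 1105 4 912))))))))))))
(cons (mv 1231 (cons (fin 1167 5 975)
(mv 1232 (cons (fin 1295 5 1039)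
(mv 1233 (cons (fin 1297 4 1040)
(fin 1169 4 976)))))))
(mv 1231 (cons (fin 1167 5 975)
(mv 1233 (cons (fin 1169 4 976)
(mv 911 (cons (fin 975 7 911)
(mv 912 (cons (fin 847 7 847)
(mv 913 (cons (fin 977 6 912)
(fin 849 6 848)))))))))))))))
(mv 912 (cons (cons (mv 1167 (cons (fin 1103 5 911)
(mv 1169 (cons (fin 1105 4 912)
(mv 847 (cons (fin 911 7 847)
(mv 848 (cons (fin 783 7 783)
(mv 849 (cons (fin 913 6 848)
(fin 785 6 784)))))))))))
(cons (mv 1169 (cons (fin 1105 4 912)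
(mv 847 (cons (fin 911 7 847)
(mv 848 (cons (fin 783 7 783)
(mv 849 (cons (fin 913 6 848)
(fin 785 6 784)))))))))
(mv 1169 (cons (fin 1105 4 912)
(mv 1103 (cons (fin 1167 5 911)
(mv 848 (cons (fin 1039 5 847)
(mv 849 (cons (fin 913 6 848)
(fin 785 6 784)))))))))))
(cons (mv 1169 (cons (fin 1105 4 912)
(mv 1103 (cons (fin 1167 5 911)
(mv 847 (cons (fin 911 7 847)
(mv 848 (cons (fin 1039 5 847)
(fin 783 7 783)))))))))
(cons (mv 1167 (cons (fin 1103 5 911)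
(mv 847 (cons (fin 911 7 847)
(mv 848 (cons (fin 783 7 783)
(mv 849 (cons (fin 913 6 848)
(fin 785 6 784)))))))))
(mv 1167 (cons (fin 1103 5 911)
(mv 1169 (cons (fin 1105 4 912)
(mv 911 (cons (fin 847 7 847)
(mv 913 (cons (fin 849 6 848)
(mv 914 (cons (mv 975 (cons (fin 974 1 910)
(fin 915 1 911)))
(cons (mv 978 (cons (fin 979 0 911)
(mv 977 (cons (fin 910 0 910)
(mv 915 (cons (fin 916 1 912)
(mv 851 (cons (fin 850 2 847)
(fin 852 2 848)))))))))
(mv 975 (cons (fin 974 1 910)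
(mv 978 (cons (fin 979 0 911)
(mv 910 (cons (fin 977 3 910)
(mv 909 (cons (fin 908 0 908)
(mv 845 (cons (fin 844 3 844)
(fin 846 3 845)))))))))))))))))))))))))))
(cons (mv 1168 (cons (cons (mv 1231 (cons (fin 1167 5 975)
(mv 1232 (cons (fin 1295 5 1039)
(mv 1233 (cons (fin 1297 4 1040)
(fin 1169 4 976)))))))
(mv 1233 (cons (fin 1169 4 976)
(mv 1232 (cons (fin 1297 4 1040)
(mv 975 (cons (fin 1039 7 975)
(fin 911 7 911))))))))
(cons (mv 1231 (cons (fin 1167 5 975)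
(mv 1232 (cons (fin 1295 5 1039)
(mv 975 (cons (fin 1039 7 975)
(fin 911 7 911)))))))
(mv 1231 (cons (fin 1167 5 975)
(mv 1169 (cons (fin 1233 4 976)
(mv 975 (cons (fin 911 7 911)
(mv 977 (cons (fin 913 6 912)
(mv 978 (cons (cons (mv 1039 (cons (fin 979 1 975)
(mv 1042 (cons (fin 1043 0 975)
(mv 914 (cons (fin 915 2 911)
(mv 1106 (cons (fin 1105 5 913)
(mv 1171 (cons (fin 1107 4 914)
(mv 1170 (cons (fin 1103 3 1103)
(fin 1235 4 978)))))))))))))
(mv 1042 (cons (fin 1043 0 975)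
(mv 914 (cons (fin 915 2 911)
(mv 1106 (cons (fin 1105 5 913)
(mv 1171 (cons (fin 1107 4 914)
(mv 1170 (cons (fin 1103 3 1103)
(fin 1235 4 978))))))))))))
(cons (mv 979 (cons (fin 1039 1 975)
(mv 915 (cons (fin 914 2 911)
(fin 916 2 912)))))
(mv 1043 (cons (fin 1042 0 975)
(mv 979 (cons (fin 1039 1 975)
(fin 1044 0 976)))))))))))))))))))
(mv 912 (cons (cons (mv 1169 (cons (fin 1105 4 912)
(mv 1233 (cons (fin 1168 4 976)
(mv 913 (cons (fin 849 6 848)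
(mv 847 (cons (fin 911 7 847)
(mv 848 (cons (fin 783 7 783)
(mv 1039 (cons (fin 1103 5 847)
(mv 914 (cons (fin 915 3 847)
(mv 845 (cons (fin 846 0 845)
(mv 784 (cons (fin 975 5 783)
(mv 720 (cons (fin 977 4 720)
(mv 721 (cons (fin 785 6 720)
(fin 657 6 656)))))))))))))))))))))))
(cons (mv 1169 (cons (fin 1105 4 912)
(mv 1233 (cons (fin 1168 4 976)
(mv 849 (cons (fin 913 6 848)
(mv 848 (cons (fin 785 6 784)
(mv 1039 (cons (fin 1103 5 847)
(mv 783 (cons (fin 847 7 783)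
(mv 784 (cons (fin 975 5 783)
(fin 719 7 719)))))))))))))))
(mv 1169 (cons (fin 1105 4 912)
(mv 1233 (cons (fin 1168 4 976)
(mv 847 (cons (fin 911 7 847)
(mv 848 (cons (fin 783 7 783)
(mv 1039 (cons (fin 1103 5 847)
(mv 784 (cons (fin 975 5 783)
(mv 785 (cons (fin 849 6 784)
(fin 721 6 720)))))))))))))))))
(cons (cons (mv 1169 (cons (fin 1105 4 912)
(mv 1168 (cons (fin 1233 4 976)
(mv 913 (cons (fin 977 6 912)
(fin 849 6 848)))))))
(mv 1169 (cons (fin 1105 4 912)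
(mv 1168 (cons (fin 1233 4 976)
(mv 911 (cons (fin 975 7 911)
(fin 847 7 847))))))))
(cons (mv 911 (cons (fin 847 7 847)
(mv 1168 (cons (fin 975 7 911)
(mv 913 (cons (fin 977 6 912)
(fin 849 6 848)))))))
(mv 1169 (cons (fin 1105 4 912)
(mv 913 (cons (fin 849 6 848)
(mv 847 (cons (fin 911 7 847)
(mv 848 (cons (fin 783 7 783)
(mv 1039 (cons (fin 1103 5 847)
(mv 914 (cons (fin 915 3 847)
(mv 845 (cons (fin 846 0 845)
(mv 784 (cons (fin 975 5 783)
(mv 720 (cons (fin 977 4 720)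
(mv 721 (cons (fin 785 6 720)
(fin 657 6 656)))))))))))))))))))))))))))
(cons (cons (mv 1168 (cons (cons (mv 1231 (cons (fin 1167 5 975)
(mv 1295 (cons (fin 1232 5 1039)
(mv 1169 (cons (fin 1233 4 976)
(mv 912 (cons (fin 1105 4 912)
(mv 913 (cons (fin 977 6 912)
(fin 849 6 848)))))))))))
(cons (mv 1233 (cons (fin 1169 4 976)
(mv 1232 (cons (fin 1297 4 1040)
(mv 1295 (cons (fin 1231 5 1039)
(mv 1296 (cons (fin 1359 5 1103)
(mv 1039 (cons (fin 1103 7 1039)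
(fin 975 7 975)))))))))))
(mv 1231 (cons (fin 1167 5 975)
(mv 1232 (cons (fin 1295 5 1039)
(mv 1297 (cons (fin 1233 4 1040)
(mv 1296 (cons (fin 1361 4 1104)
(mv 1039 (cons (fin 1103 7 1039)
(fin 975 7 975)))))))))))))
(cons (mv 1233 (cons (fin 1169 4 976)
(mv 1232 (cons (fin 1297 4 1040)
(mv 1039 (cons (fin 975 7 975)
(mv 1103 (cons (fin 1296 7 1039)
(mv 912 (cons (fin 1167 5 911)
(fin 848 5 847)))))))))))
(cons (mv 1231 (cons (fin 1167 5 975)
(mv 1232 (cons (fin 1295 5 1039)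
(mv 1039 (cons (fin 975 7 975)
(mv 1103 (cons (fin 1296 7 1039)
(mv 912 (cons (fin 848 5 847)
(mv 913 (cons (fin 977 6 912)
(fin 849 6 848)))))))))))))
(mv 1231 (cons (fin 1167 5 975)
(mv 1169 (cons (fin 1233 4 976)
(mv 912 (cons (fin 1105 4 912)
(mv 913 (cons (fin 977 6 912)
(fin 849 6 848)))))))))))))
(mv 912 (cons (cons (mv 1167 (cons (fin 1103 5 911)
(mv 1231 (cons (fin 1168 5 975)
(mv 847 (cons (fin 911 7 847)
(mv 848 (cons (fin 783 7 783)
(mv 849 (cons (fin 913 6 848)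
(fin 785 6 784)))))))))))
(mv 1167 (cons (fin 1103 5 911)
(mv 1168 (cons (fin 1231 5 975)
(mv 913 (cons (fin 977 6 912)
(fin 849 6 848))))))))
(cons (mv 911 (cons (fin 847 7 847)
(mv 1168 (cons (fin 975 7 911)
(mv 913 (cons (fin 977 6 912)
(fin 849 6 848)))))))
(cons (mv 1167 (cons (fin 1103 5 911)
(mv 1168 (cons (fin 1231 5 975)
(mv 911 (cons (fin 975 7 911)
(fin 847 7 847)))))))
(mv 1167 (cons (fin 1103 5 911)
(mv 847 (cons (fin 911 7 847)
(mv 848 (cons (fin 783 7 783)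
(mv 849 (cons (fin 913 6 848)
(fin 785 6 784))))))))))))))
(cons (mv 1168 (cons (cons (mv 1231 (cons (fin 1167 5 975)
(mv 1295 (cons (fin 1232 5 1039)
(mv 1169 (cons (fin 1233 4 976)
(mv 911 (cons (fin 975 7 911)
(mv 912 (cons (fin 847 7 847)
(fin 1105 4 912)))))))))))
(mv 1233 (cons (fin 1169 4 976)
(mv 1232 (cons (fin 1297 4 1040)
(mv 975 (cons (fin 1039 7 975)
(fin 911 7 911))))))))
(cons (mv 1231 (cons (fin 1167 5 975)
(mv 1232 (cons (fin 1295 5 1039)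
(mv 975 (cons (fin 1039 7 975)
(fin 911 7 911)))))))
(cons (mv 1231 (cons (fin 1167 5 975)
(mv 1232 (cons (fin 1295 5 1039)
(mv 1233 (cons (fin 1297 4 1040)
(fin 1169 4 976)))))))
(mv 1231 (cons (fin 1167 5 975)
(mv 1169 (cons (fin 1233 4 976)
(mv 911 (cons (fin 975 7 911)
(mv 912 (cons (fin 847 7 847)
(fin 1105 4 912)))))))))))))
(mv 912 (cons (cons (mv 1167 (cons (fin 1103 5 911)
(mv 1231 (cons (fin 1168 5 975)
(mv 1169 (cons (fin 1105 4 912)
(mv 847 (cons (fin 911 7 847)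
(mv 848 (cons (fin 783 7 783)
(mv 849 (cons (fin 913 6 848)
(fin 785 6 784)))))))))))))
(mv 1169 (cons (fin 1105 4 912)
(mv 1233 (cons (fin 1168 4 976)
(mv 847 (cons (fin 911 7 847)
(mv 848 (cons (fin 783 7 783)
(mv 849 (cons (fin 913 6 848)
(fin 785 6 784))))))))))))
(cons (mv 1167 (cons (fin 1103 5 911)
(mv 1168 (cons (fin 1231 5 975)
(mv 1169 (cons (fin 1233 4 976)
(fin 1105 4 912)))))))
(cons (mv 1167 (cons (fin 1103 5 911)
(mv 1231 (cons (fin 1168 5 975)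
(mv 847 (cons (fin 911 7 847)
(mv 848 (cons (fin 783 7 783)
(mv 849 (cons (fin 913 6 848)
(fin 785 6 784)))))))))))
(mv 1167 (cons (fin 1103 5 911)
(mv 1169 (cons (fin 1105 4 912)
(mv 847 (cons (fin 911 7 847)
(mv 848 (cons (fin 783 7 783)
(mv 849 (cons (fin 913 6 848)
(fin 785 6 784)))))))))))))))))))))
(cons (cons (mv 976 (cons (cons (cons (mv 1168 (cons (cons (mv 1231 (cons (fin 1167 5 975)
(mv 1295 (cons (fin 1232 5 1039)
(mv 1233 (cons (fin 1169 4 976)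
(mv 975 (cons (fin 911 7 911)
(mv 977 (cons (fin 913 6 912)
(mv 1038 (cons (fin 974 1 973)
(fin 1039 2 973)))))))))))))
(mv 1231 (cons (fin 1167 5 975)
(mv 1232 (cons (fin 1295 5 1039)
(mv 1233 (cons (fin 1297 4 1040)
(fin 1169 4 976))))))))
(cons (mv 1233 (cons (fin 1169 4 976)
(mv 1297 (cons (fin 1232 4 1040)
(mv 975 (cons (fin 911 7 911)
(mv 977 (cons (fin 913 6 912)
(mv 1038 (cons (fin 974 1 973)
(fin 1039 2 973)))))))))))
(cons (mv 1231 (cons (fin 1167 5 975)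
(mv 1295 (cons (fin 1232 5 1039)
(mv 975 (cons (fin 911 7 911)
(mv 977 (cons (fin 913 6 912)
(mv 1038 (cons (fin 974 1 973)
(fin 1039 2 973)))))))))))
(mv 1231 (cons (fin 1167 5 975)
(mv 1233 (cons (fin 1169 4 976)
(mv 975 (cons (fin 911 7 911)
(mv 977 (cons (fin 913 6 912)
(mv 1038 (cons (fin 974 1 973)
(fin 1039 2 973)))))))))))))))
(mv 912 (cons (cons (mv 1167 (cons (fin 1103 5 911)
(mv 847 (cons (fin 911 7 847)
(mv 848 (cons (fin 783 7 783)
(mv 849 (cons (fin 913 6 848)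
(fin 785 6 784)))))))))
(mv 847 (cons (fin 911 7 847)
(mv 848 (cons (fin 783 7 783)
(mv 849 (cons (fin 913 6 848)
(fin 785 6 784))))))))
(cons (mv 1103 (cons (fin 1167 5 911)
(mv 1039 (cons (fin 848 5 847)
(mv 1038 (cons (fin 1036 0 1036)
(fin 977 2 973)))))))
(mv 1167 (cons (fin 1103 5 911)
(mv 911 (cons (fin 847 7 847)
(mv 913 (cons (fin 849 6 848)
(mv 914 (cons (mv 975 (cons (fin 974 1 910)
(fin 915 1 911)))
(cons (mv 978 (cons (fin 979 0 911)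
(mv 977 (cons (fin 910 0 910)
(mv 1038 (cons (fin 1039 2 973)
(mv 915 (cons (fin 916 1 912)
(mv 851 (cons (fin 850 2 847)
(fin 852 2 848)))))))))))
(mv 975 (cons (fin 974 1 910)
(mv 978 (cons (fin 979 0 911)
(mv 910 (cons (fin 977 3 910)
(mv 909 (cons (fin 908 0 908)
(mv 845 (cons (fin 844 3 844)
(fin 846 3 845))))))))))))))))))))))))
(cons (mv 1168 (cons (cons (mv 1231 (cons (fin 1167 5 975)
(mv 1232 (cons (fin 1295 5 1039)
(mv 1233 (cons (fin 1297 4 1040)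
(fin 1169 4 976)))))))
(mv 1233 (cons (fin 1169 4 976)
(mv 1232 (cons (fin 1297 4 1040)
(mv 975 (cons (fin 1039 7 975)
(fin 911 7 911))))))))
(cons (mv 1231 (cons (fin 1167 5 975)
(mv 1232 (cons (fin 1295 5 1039)
(mv 975 (cons (fin 1039 7 975)
(fin 911 7 911)))))))
(mv 1233 (cons (fin 1169 4 976)
(mv 1167 (cons (fin 1231 5 975)
(mv 975 (cons (fin 911 7 911)
(mv 912 (cons (fin 1103 5 911)
(mv 849 (cons (fin 913 6 848)
(mv 848 (cons (fin 785 6 784)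
(mv 783 (cons (fin 847 7 783)
(mv 784 (cons (fin 1039 5 783)
(fin 719 7 719))))))))))))))))))))
(mv 1168 (cons (cons (mv 1231 (cons (fin 1167 5 975)
(mv 1232 (cons (fin 1295 5 1039)
(mv 1233 (cons (fin 1297 4 1040)
(fin 1169 4 976)))))))
(mv 1233 (cons (fin 1169 4 976)
(mv 1232 (cons (fin 1297 4 1040)
(mv 1295 (cons (fin 1231 5 1039)
(mv 1359 (cons (fin 1296 5 1103)
(mv 1039 (cons (fin 975 7 975)
(mv 977 (cons (fin 1038 2 973)
(fin 913 6 912))))))))))))))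
(cons (mv 1233 (cons (fin 1169 4 976)
(mv 1232 (cons (fin 1297 4 1040)
(mv 1039 (cons (fin 975 7 975)
(mv 977 (cons (fin 1038 2 973)
(fin 913 6 912)))))))))
(cons (mv 1231 (cons (fin 1167 5 975)
(mv 1232 (cons (fin 1295 5 1039)
(mv 1039 (cons (fin 975 7 975)
(mv 977 (cons (fin 1038 2 973)
(fin 913 6 912)))))))))
(mv 1233 (cons (fin 1169 4 976)
(mv 1167 (cons (fin 1231 5 975)
(mv 1103 (cons (fin 912 5 911)
(mv 977 (cons (fin 913 6 912)
(mv 1038 (cons (fin 1039 2 973)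
(mv 974 (cons (fin 975 1 973)
(mv 1102 (cons (fin 910 4 910)
(mv 1101 (cons (fin 1036 3 1036)
(fin 1100 0 1100)))))))))))))))))))))))
(cons (cons (mv 1168 (cons (cons (mv 1233 (cons (fin 1169 4 976)
(mv 1297 (cons (fin 1232 4 1040)
(mv 975 (cons (fin 911 7 911)
(mv 977 (cons (fin 913 6 912)
(mv 1038 (cons (fin 974 1 973)
(fin 1039 2 973)))))))))))
(cons (mv 1233 (cons (fin 1169 4 976)
(mv 1232 (cons (fin 1297 4 1040)
(mv 1295 (cons (fin 1231 5 1039)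
(mv 1296 (cons (fin 1359 5 1103)
(mv 1293 (cons (fin 1294 2 1229)
(mv 1234 (cons (fin 1235 1 1231)
(mv 1039 (cons (fin 1103 7 1039)
(mv 977 (cons (fin 1038 2 973)
(fin 913 6 912)))))))))))))))))
(mv 1233 (cons (fin 1169 4 976)
(mv 1232 (cons (fin 1297 4 1040)
(mv 975 (cons (fin 1039 7 975)
(fin 911 7 911)))))))))
(cons (mv 975 (cons (fin 911 7 911)
(mv 1039 (cons (fin 1232 7 975)
(mv 1038 (cons (fin 1036 2 972)
(fin 977 2 973)))))))
(cons (mv 1233 (cons (fin 1169 4 976)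
(mv 975 (cons (fin 911 7 911)
(mv 977 (cons (fin 913 6 912)
(mv 1038 (cons (fin 974 1 973)
(fin 1039 2 973)))))))))
(mv 1233 (cons (fin 1169 4 976)
(mv 1297 (cons (fin 1232 4 1040)
(mv 911 (cons (fin 975 7 911)
(mv 912 (cons (fin 847 7 847)
(mv 913 (cons (fin 977 6 912)
(fin 849 6 848)))))))))))))))
(mv 1168 (cons (cons (mv 1231 (cons (fin 1167 5 975)
(mv 1232 (cons (fin 1295 5 1039)
(mv 1233 (cons (fin 1297 4 1040)
(fin 1169 4 976)))))))
(mv 1233 (cons (fin 1169 4 976)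
(mv 1232 (cons (fin 1297 4 1040)
(mv 975 (cons (fin 1039 7 975)
(fin 911 7 911))))))))
(cons (mv 1231 (cons (fin 1167 5 975)
(mv 1232 (cons (fin 1295 5 1039)
(mv 975 (cons (fin 1039 7 975)
(fin 911 7 911)))))))
(mv 1233 (cons (fin 1169 4 976)
(mv 1167 (cons (fin 1231 5 975)
(mv 911 (cons (fin 975 7 911)
(mv 912 (cons (fin 1103 5 911)
(fin 847 7 847)))))))))))))
(cons (mv 1168 (cons (cons (mv 1231 (cons (fin 1167 5 975)
(mv 1295 (cons (fin 1232 5 1039)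
(mv 1233 (cons (fin 1169 4 976)
(mv 911 (cons (fin 975 7 911)
(mv 912 (cons (fin 847 7 847)
(mv 913 (cons (fin 977 6 912)
(fin 849 6 848)))))))))))))
(mv 1233 (cons (fin 1169 4 976)
(mv 1297 (cons (fin 1232 4 1040)
(mv 911 (cons (fin 975 7 911)
(mv 912 (cons (fin 847 7 847)
(mv 913 (cons (fin 977 6 912)
(fin 849 6 848))))))))))))
(cons (mv 1231 (cons (fin 1167 5 975)
(mv 1295 (cons (fin 1232 5 1039)
(mv 911 (cons (fin 975 7 911)
(mv 912 (cons (fin 847 7 847)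
(mv 913 (cons (fin 977 6 912)
(fin 849 6 848)))))))))))
(cons (mv 1231 (cons (fin 1167 5 975)
(mv 1232 (cons (fin 1295 5 1039)
(mv 1233 (cons (fin 1297 4 1040)
(fin 1169 4 976)))))))
(mv 1231 (cons (fin 1167 5 975)
(mv 1233 (cons (fin 1169 4 976)
(mv 911 (cons (fin 975 7 911)
(mv 912 (cons (fin 847 7 847)
(mv 913 (cons (fin 977 6 912)
(fin 849 6 848)))))))))))))))
(mv 912 (cons (cons (mv 1167 (cons (fin 1103 5 911)
(mv 1231 (cons (fin 1168 5 975)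
(mv 847 (cons (fin 911 7 847)
(mv 848 (cons (fin 783 7 783)
(mv 849 (cons (fin 913 6 848)
(fin 785 6 784)))))))))))
(mv 911 (cons (fin 847 7 847)
(mv 913 (cons (fin 849 6 848)
(mv 1168 (cons (fin 977 6 912)
(mv 1231 (cons (fin 1167 5 975)
(mv 1232 (cons (fin 1295 5 1039)
(mv 1233 (cons (fin 1297 4 1040)
(fin 1169 4 976))))))))))))))
(cons (mv 1103 (cons (fin 1167 5 911)
(mv 1039 (cons (fin 848 5 847)
(mv 1038 (cons (fin 1036 0 1036)
(fin 977 2 973)))))))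
(mv 911 (cons (fin 847 7 847)
(mv 913 (cons (fin 849 6 848)
(mv 977 (cons (fin 1168 6 912)
(mv 978 (cons (fin 979 3 911)
(fin 910 0 910))))))))))))))))
(mv 1103 (cons (cons (mv 1038 (cons (cons (mv 1105 (cons (fin 1102 3 1037)
(fin 1039 0 1037)))
(mv 1102 (cons (fin 1105 3 1037)
(mv 1036 (cons (fin 1101 3 1036)
(fin 1035 0 1035))))))
(cons (mv 1036 (cons (fin 1039 0 1036)
(mv 1102 (cons (fin 1101 3 1036)
(fin 1035 0 1035)))))
(mv 1039 (cons (fin 1036 0 1036)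
(fin 1105 0 1037))))))
(cons (mv 1102 (cons (cons (mv 1101 (cons (fin 1036 3 1036)
(mv 1164 (cons (fin 1165 1 1100)
(mv 1100 (cons (fin 1163 1 1099)
(fin 1039 2 1036)))))))
(mv 1105 (cons (cons (mv 1165 (cons (fin 1166 1 1101)
(mv 1170 (cons (fin 1169 0 1102)
(mv 1106 (cons (fin 1171 0 1103)
(mv 1107 (cons (fin 1039 3 1039)
(mv 1043 (cons (fin 1042 2 1039)
(fin 1044 2 1040)))))))))))
(cons (mv 1170 (cons (fin 1169 0 1102)
(mv 1106 (cons (fin 1171 0 1103)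
(mv 1107 (cons (fin 1039 3 1039)
(mv 1043 (cons (fin 1042 2 1039)
(fin 1044 2 1040)))))))))
(mv 1166 (cons (fin 1165 1 1101)
(mv 1106 (cons (fin 1167 1 1102)
(mv 1170 (cons (fin 1171 0 1103)
(mv 1107 (cons (fin 1039 3 1039)
(mv 1043 (cons (fin 1042 2 1039)
(fin 1044 2 1040)))))))))))))
(cons (mv 1166 (cons (fin 1165 1 1101)
(mv 1106 (cons (fin 1167 1 1102)
(mv 1107 (cons (fin 1039 3 1039)
(mv 1043 (cons (fin 1042 2 1039)
(fin 1044 2 1040)))))))))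
(cons (mv 1166 (cons (fin 1165 1 1101)
(mv 1169 (cons (fin 1170 0 1102)
(mv 1233 (cons (fin 1297 7 1040)
(mv 1167 (cons (cons (mv 1295 (cons (fin 1231 6 1039)
(mv 1168 (cons (fin 1234 0 1166)
(mv 1230 (cons (fin 1229 1 1165)
(mv 1294 (cons (fin 1359 4 1102)
(fin 1358 6 1102)))))))))
(mv 1168 (cons (fin 1234 0 1166)
(mv 1230 (cons (fin 1229 1 1165)
(mv 1294 (cons (fin 1358 6 1102)
(fin 1039 6 1038))))))))
(cons (mv 1231 (cons (fin 1295 6 1039)
(mv 1232 (cons (fin 1234 3 1166)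
(mv 1039 (cons (fin 1296 4 1039)
(mv 1230 (cons (fin 1294 5 1038)
(fin 975 5 974)))))))))
(cons (mv 1231 (cons (fin 1295 6 1039)
(mv 1230 (cons (mv 1294 (cons (fin 1039 5 1038)
(fin 1358 6 1102)))
(mv 1229 (cons (fin 1168 1 1165)
(mv 1228 (cons (fin 1227 2 1163)
(mv 1292 (cons (fin 1291 1 1227)
(mv 1293 (cons (fin 1232 1 1228)
(mv 1357 (cons (fin 1421 6 1165)
(mv 1164 (cons (fin 1163 3 1163)
(fin 1100 4 1100)))))))))))))))))
(mv 1231 (cons (fin 1295 6 1039)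
(mv 1234 (cons (fin 1232 3 1166)
(fin 1168 0 1166)))))))))))))))
(mv 1166 (cons (fin 1165 1 1101)
(mv 1167 (cons (fin 1106 1 1102)
(mv 1295 (cons (fin 1231 6 1039)
(mv 1169 (cons (fin 1170 0 1102)
(mv 1233 (cons (fin 1297 7 1040)
(mv 1168 (cons (fin 1234 0 1166)
(mv 1230 (cons (fin 1229 1 1165)
(mv 1294 (cons (fin 1359 4 1102)
(fin 1358 6 1102))))))))))))))))))))))
(cons (mv 1101 (cons (fin 1036 3 1036)
(mv 1168 (cons (fin 1169 0 1101)
(mv 1100 (cons (fin 1167 0 1100)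
(fin 1039 2 1036)))))))
(cons (mv 1101 (cons (fin 1036 3 1036)
(mv 1164 (cons (fin 1165 1 1100)
(mv 1168 (cons (fin 1169 0 1101)
(mv 1100 (cons (fin 1163 1 1099)
(fin 1167 0 1100)))))))))
(mv 1101 (cons (fin 1036 3 1036)
(mv 1165 (cons (fin 1164 1 1100)
(mv 1169 (cons (fin 1168 0 1101)
(mv 1105 (cons (fin 1166 1 1101)
(fin 1170 0 1102)))))))))))))
(mv 1102 (cons (cons (mv 1101 (cons (fin 1036 3 1036)
(mv 1164 (cons (fin 1165 1 1100)
(mv 1163 (cons (fin 1100 1 1099)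
(mv 1169 (cons (fin 1168 0 1101)
(mv 1105 (cons (fin 1038 3 1037)
(fin 1170 0 1102)))))))))))
(cons (mv 1105 (cons (fin 1038 3 1037)
(mv 1166 (cons (fin 1165 1 1101)
(mv 1167 (cons (fin 1106 1 1102)
(mv 1295 (cons (fin 1231 6 1039)
(mv 1169 (cons (fin 1170 0 1102)
(mv 1233 (cons (fin 1297 7 1040)
(mv 1168 (cons (fin 1234 0 1166)
(mv 1230 (cons (fin 1229 1 1165)
(mv 1294 (cons (fin 1359 4 1102)
(fin 1358 6 1102)))))))))))))))))))
(mv 1101 (cons (fin 1036 3 1036)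
(mv 1164 (cons (fin 1165 1 1100)
(mv 1168 (cons (fin 1169 0 1101)
(mv 1100 (cons (fin 1163 1 1099)
(fin 1167 0 1100)))))))))))
(cons (mv 1101 (cons (fin 1036 3 1036)
(mv 1164 (cons (fin 1165 1 1100)
(mv 1100 (cons (fin 1163 1 1099)
(mv 1292 (cons (fin 1228 6 1036)
(mv 1167 (cons (fin 1168 0 1100)
(mv 1295 (cons (fin 1231 6 1039)
(mv 1166 (cons (fin 1099 0 1099)
(mv 1105 (cons (fin 1106 1 1102)
(fin 1038 3 1037)))))))))))))))))
(cons (mv 1101 (cons (fin 1036 3 1036)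
(mv 1168 (cons (fin 1169 0 1101)
(mv 1167 (cons (fin 1100 0 1100)
(mv 1295 (cons (fin 1231 6 1039)
(mv 1105 (cons (fin 1038 3 1037)
(mv 1106 (cons (fin 1166 1 1102)
(fin 1107 1 1103)))))))))))))
(mv 1101 (cons (fin 1036 3 1036)
(mv 1165 (cons (fin 1164 1 1100)
(mv 1105 (cons (fin 1166 1 1101)
(fin 1038 3 1037)))))))))))))
(cons (cons (mv 1101 (cons (cons (mv 1102 (cons (fin 1036 3 1036)
(mv 1164 (cons (fin 1165 1 1100)
(mv 1100 (cons (fin 1163 1 1099)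
(fin 1039 2 1036)))))))
(cons (mv 1039 (cons (mv 1038 (cons (fin 1100 1 1036)
(fin 1036 0 1036)))
(cons (mv 975 (cons (mv 1168 (cons (fin 1232 7 975)
(fin 911 4 911)))
(cons (mv 911 (cons (fin 847 4 847)
(mv 910 (cons (fin 846 7 846)
(mv 1167 (cons (fin 974 7 910)
(mv 1230 (cons (fin 1166 5 974)
(mv 1231 (cons (fin 1294 5 1038)
(fin 1295 6 1039)))))))))))
(mv 1167 (cons (cons (mv 1295 (cons (fin 1231 6 1039)
(mv 1166 (cons (fin 1230 5 974)
(mv 1165 (cons (fin 1164 2 1100)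
(mv 1168 (cons (fin 1100 3 1100)
(fin 1232 7 975)))))))))
(mv 1230 (cons (fin 1166 5 974)
(mv 1231 (cons (fin 1294 5 1038)
(fin 1295 6 1039))))))
(cons (mv 1166 (cons (fin 1230 5 974)
(mv 1165 (cons (fin 1164 2 1100)
(mv 1168 (cons (fin 1100 3 1100)
(fin 1232 7 975)))))))
(mv 1231 (cons (fin 1295 6 1039)
(mv 1232 (cons (fin 1168 7 975)
(fin 1296 4 1039)))))))))))
(mv 1036 (cons (fin 1038 0 1036)
(mv 975 (cons (mv 1168 (cons (fin 1232 7 975)
(fin 911 4 911)))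
(cons (mv 911 (cons (fin 847 4 847)
(mv 910 (cons (fin 846 7 846)
(mv 1167 (cons (fin 974 7 910)
(mv 1230 (cons (fin 1166 5 974)
(mv 1231 (cons (fin 1294 5 1038)
(fin 1295 6 1039)))))))))))
(mv 1167 (cons (cons (mv 1295 (cons (fin 1231 6 1039)
(mv 1232 (cons (fin 1168 7 975)
(mv 1166 (cons (fin 1230 5 974)
(mv 1165 (cons (fin 1164 2 1100)
(mv 1229 (cons (fin 972 7 972)
(mv 1292 (cons (fin 1228 5 1036)
(mv 1293 (cons (fin 1356 5 1100)
(mv 1294 (cons (fin 1358 4 1101)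
(mv 1360 (cons (fin 1359 0 1292)
(mv 1296 (cons (fin 1361 0 1293)
(fin 1233 2 1229)))))))))))))))))))))
(mv 1295 (cons (fin 1231 6 1039)
(mv 1166 (cons (fin 1230 5 974)
(mv 1165 (cons (fin 1164 2 1100)
(mv 1229 (cons (fin 972 7 972)
(mv 1228 (cons (fin 1168 1 1164)
(fin 1292 5 1036))))))))))))
(cons (mv 1230 (cons (fin 1166 5 974)
(mv 1231 (cons (fin 1294 5 1038)
(fin 1295 6 1039)))))
(cons (mv 1166 (cons (fin 1230 5 974)
(mv 1165 (cons (fin 1164 2 1100)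
(mv 1229 (cons (fin 972 7 972)
(mv 1228 (cons (fin 1168 1 1164)
(fin 1292 5 1036)))))))))
(mv 1231 (cons (fin 1295 6 1039)
(mv 1232 (cons (fin 1168 7 975)
(fin 1296 4 1039)))))))))))))))))
(mv 1102 (cons (mv 1164 (cons (fin 1165 1 1100)
(mv 1100 (cons (fin 1163 1 1099)
(fin 1039 2 1036)))))
(cons (mv 1165 (cons (fin 1164 1 1100)
(mv 1168 (cons (fin 1169 0 1101)
(mv 1229 (cons (mv 1038 (cons (fin 1293 6 1037)
(fin 974 6 973)))
(cons (mv 1292 (cons (fin 1228 5 1036)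
(mv 1293 (cons (fin 1356 5 1100)
(mv 1294 (cons (fin 1358 4 1101)
(fin 1230 4 1037)))))))
(mv 1228 (cons (fin 1292 5 1036)
(mv 1230 (cons (fin 1294 4 1037)
(mv 1167 (cons (fin 1166 1 1164)
(fin 1231 2 1164))))))))))))))
(mv 1168 (cons (fin 1169 0 1101)
(mv 1100 (cons (fin 1167 0 1100)
(fin 1039 2 1036))))))))))
(cons (mv 1102 (cons (fin 1036 3 1036)
(mv 1164 (cons (fin 1165 1 1100)
(mv 1168 (cons (fin 1169 0 1101)
(mv 1100 (cons (fin 1163 1 1099)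
(fin 1167 0 1100)))))))))
(cons (mv 1102 (cons (fin 1036 3 1036)
(mv 1165 (cons (fin 1164 1 1100)
(mv 1168 (cons (fin 1169 0 1101)
(mv 1229 (cons (mv 1038 (cons (fin 1293 6 1037)
(fin 974 6 973)))
(cons (mv 1292 (cons (fin 1228 5 1036)
(mv 1293 (cons (fin 1356 5 1100)
(mv 1294 (cons (fin 1358 4 1101)
(fin 1230 4 1037)))))))
(mv 1228 (cons (fin 1292 5 1036)
(mv 1230 (cons (fin 1294 4 1037)
(mv 1167 (cons (fin 1166 1 1164)
(fin 1231 2 1164))))))))))))))))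
(mv 1102 (cons (fin 1036 3 1036)
(mv 1168 (cons (fin 1169 0 1101)
(mv 1100 (cons (fin 1167 0 1100)
(fin 1039 2 1036)))))))))))
(mv 1039 (cons (mv 1038 (cons (fin 1036 0 1036)
(fin 1105 0 1037)))
(cons (mv 975 (cons (mv 1168 (cons (fin 1232 7 975)
(fin 911 4 911)))
(cons (mv 911 (cons (fin 847 4 847)
(mv 910 (cons (fin 846 7 846)
(mv 1167 (cons (fin 974 7 910)
(mv 1230 (cons (fin 1166 5 974)
(mv 1231 (cons (fin 1294 5 1038)
(fin 1295 6 1039)))))))))))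
(mv 1167 (cons (cons (mv 1295 (cons (fin 1231 6 1039)
(mv 1166 (cons (fin 1230 5 974)
(mv 1165 (cons (fin 1164 2 1100)
(mv 1168 (cons (fin 1105 2 1101)
(fin 1232 7 975)))))))))
(mv 1295 (cons (fin 1231 6 1039)
(mv 1166 (cons (fin 1230 5 974)
(mv 1165 (cons (fin 1164 2 1100)
(mv 1105 (cons (fin 1106 1 1102)
(fin 1168 2 1101))))))))))
(cons (mv 1230 (cons (fin 1166 5 974)
(mv 1231 (cons (fin 1294 5 1038)
(fin 1295 6 1039)))))
(cons (mv 1166 (cons (fin 1230 5 974)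
(mv 1165 (cons (fin 1164 2 1100)
(mv 1168 (cons (fin 1105 2 1101)
(fin 1232 7 975)))))))
(mv 1231 (cons (fin 1295 6 1039)
(mv 1232 (cons (fin 1168 7 975)
(fin 1296 4 1039))))))))))))
(mv 1036 (cons (fin 1038 0 1036)
(mv 975 (cons (mv 1168 (cons (fin 1232 7 975)
(fin 911 4 911)))
(cons (mv 911 (cons (fin 847 4 847)
(mv 910 (cons (fin 846 7 846)
(mv 1167 (cons (fin 974 7 910)
(mv 1230 (cons (fin 1166 5 974)
(mv 1231 (cons (fin 1294 5 1038)
(fin 1295 6 1039)))))))))))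
(mv 1167 (cons (cons (mv 1295 (cons (fin 1231 6 1039)
(mv 1166 (cons (fin 1230 5 974)
(mv 1165 (cons (fin 1164 2 1100)
(mv 1168 (cons (fin 1232 7 975)
(mv 1229 (cons (fin 1228 1 1164)
(mv 1101 (cons (fin 1100 3 1100)
(fin 972 7 972)))))))))))))
(mv 1230 (cons (fin 1166 5 974)
(mv 1231 (cons (fin 1294 5 1038)
(fin 1295 6 1039))))))
(cons (mv 1166 (cons (fin 1230 5 974)
(mv 1165 (cons (fin 1164 2 1100)
(mv 1168 (cons (fin 1232 7 975)
(mv 1229 (cons (fin 1228 1 1164)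
(mv 1101 (cons (fin 1100 3 1100)
(fin 972 7 972)))))))))))
(mv 1231 (cons (fin 1295 6 1039)
(mv 1232 (cons (fin 1168 7 975)
(fin 1296 4 1039)))))))))))))))))
(cons (mv 1105 (cons (cons (mv 1038 (cons (fin 1102 3 1037)
(fin 1039 0 1037)))
(mv 1106 (cons (cons (mv 1166 (cons (fin 1167 1 1102)
(mv 1165 (cons (fin 1102 1 1101)
(mv 1170 (cons (fin 1171 0 1103)
(mv 1107 (cons (fin 1039 3 1039)
(mv 1043 (cons (fin 1042 2 1039)
(fin 1044 2 1040)))))))))))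
(mv 1166 (cons (fin 1167 1 1102)
(mv 1170 (cons (fin 1171 0 1103)
(mv 1102 (cons (fin 1165 1 1101)
(fin 1169 0 1102))))))))
(cons (mv 1170 (cons (fin 1171 0 1103)
(mv 1169 (cons (fin 1102 0 1102)
(mv 1297 (cons (fin 1233 7 1040)
(mv 1107 (cons (fin 1039 3 1039)
(mv 1108 (cons (fin 1168 1 1104)
(fin 1109 1 1105)))))))))))
(cons (mv 1166 (cons (fin 1167 1 1102)
(mv 1165 (cons (fin 1102 1 1101)
(mv 1107 (cons (fin 1039 3 1039)
(mv 1043 (cons (fin 1042 2 1039)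
(fin 1044 2 1040)))))))))
(mv 1166 (cons (fin 1167 1 1102)
(mv 1170 (cons (fin 1171 0 1103)
(mv 1107 (cons (fin 1039 3 1039)
(mv 1043 (cons (fin 1042 2 1039)
(fin 1044 2 1040))))))))))))))
(cons (mv 1102 (cons (fin 1038 3 1037)
(mv 1165 (cons (fin 1166 1 1101)
(mv 1169 (cons (fin 1170 0 1102)
(mv 1101 (cons (fin 1164 1 1100)
(fin 1168 0 1101)))))))))
(mv 1039 (cons (fin 1038 0 1037)
(mv 1106 (cons (fin 1107 3 1039)
(mv 1167 (cons (fin 1166 1 1102)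
(mv 1231 (cons (fin 1295 6 1039)
(mv 1294 (cons (fin 1230 5 1038)
(mv 1232 (cons (fin 1296 4 1039)
(mv 1168 (cons (fin 975 7 975)
(mv 1233 (cons (fin 1297 4 1040)
(mv 1234 (cons (fin 1235 3 1167)
(mv 1298 (cons (fin 1299 0 1231)
(mv 1170 (cons (fin 1171 0 1103)
(mv 1362 (cons (fin 1169 7 1105)
(mv 1425 (cons (fin 1361 5 1169)
(mv 1426 (cons (fin 1489 5 1233)
(mv 1427 (cons (fin 1491 4 1234)
(fin 1363 4 1170))))))))))))))))))))))))))))))))))
(mv 1038 (cons (cons (mv 1105 (cons (fin 1102 3 1037)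
(fin 1039 0 1037)))
(mv 1105 (cons (fin 1102 3 1037)
(mv 1106 (cons (cons (mv 1166 (cons (fin 1167 1 1102)
(mv 1171 (cons (fin 1170 0 1103)
(mv 1107 (cons (fin 1172 0 1104)
(mv 1043 (cons (fin 1042 2 1039)
(fin 1044 2 1040)))))))))
(mv 1171 (cons (fin 1170 0 1103)
(mv 1107 (cons (fin 1172 0 1104)
(mv 1043 (cons (fin 1042 2 1039)
(fin 1044 2 1040))))))))
(cons (mv 1167 (cons (fin 1166 1 1102)
(mv 1295 (cons (fin 1231 6 1039)
(mv 1107 (cons (fin 1168 1 1103)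
(mv 1043 (cons (fin 1042 2 1039)
(fin 1044 2 1040)))))))))
(cons (mv 1167 (cons (fin 1166 1 1102)
(mv 1295 (cons (fin 1231 6 1039)
(mv 1171 (cons (fin 1170 0 1103)
(mv 1107 (cons (fin 1168 1 1103)
(fin 1172 0 1104)))))))))
(mv 1166 (cons (fin 1167 1 1102)
(mv 1170 (cons (fin 1171 0 1103)
(mv 1042 (cons (fin 1043 2 1039)
(mv 978 (cons (mv 1169 (cons (fin 1233 5 977)
(fin 914 5 913)))
(cons (mv 913 (cons (fin 977 7 913)
(mv 914 (cons (fin 849 7 849)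
(mv 915 (cons (fin 979 6 914)
(fin 851 6 850)))))))
(mv 977 (cons (fin 913 7 913)
(mv 979 (cons (fin 915 6 914)
(mv 1234 (cons (cons (mv 1233 (cons (fin 1297 5 1041)
(fin 1169 5 977)))
(mv 1299 (cons (fin 1235 4 1042)
(mv 1298 (cons (fin 1363 4 1106)
(mv 1361 (cons (fin 1297 5 1105)
(mv 1362 (cons (fin 1425 5 1169)
(fin 1169 7 1105))))))))))
(cons (mv 1299 (cons (fin 1235 4 1042)
(mv 1298 (cons (fin 1363 4 1106)
(mv 1169 (cons (fin 1233 5 977)
(fin 1362 7 1105)))))))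
(mv 1297 (cons (fin 1233 5 1041)
(mv 1298 (cons (fin 1361 5 1105)
(mv 1299 (cons (fin 1363 4 1106)
(fin 1235 4 1042))))))))))))))))))))))))))))))
(cons (mv 1036 (cons (fin 1039 0 1036)
(mv 1035 (cons (fin 1102 0 1035)
(mv 1098 (cons (fin 1099 1 1034)
(mv 1034 (cons (fin 1097 1 1033)
(mv 970 (cons (fin 969 3 969)
(fin 971 3 970)))))))))))
(mv 1039 (cons (fin 1036 0 1036)
(fin 1105 0 1037)))))))))))
(cons (mv 976 (cons (cons (cons (mv 912 (cons (cons (mv 1167 (cons (fin 1103 5 911)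
(mv 1169 (cons (fin 1105 4 912)
(mv 847 (cons (fin 911 7 847)
(mv 848 (cons (fin 783 7 783)
(mv 849 (cons (fin 913 6 848)
(fin 785 6 784)))))))))))
(mv 1169 (cons (fin 1105 4 912)
(mv 847 (cons (fin 911 7 847)
(mv 848 (cons (fin 783 7 783)
(mv 849 (cons (fin 913 6 848)
(fin 785 6 784))))))))))
(cons (mv 1167 (cons (fin 1103 5 911)
(mv 847 (cons (fin 911 7 847)
(mv 848 (cons (fin 783 7 783)
(mv 849 (cons (fin 913 6 848)
(fin 785 6 784)))))))))
(cons (mv 1169 (cons (fin 1105 4 912)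
(mv 1103 (cons (fin 1167 5 911)
(mv 1039 (cons (fin 848 5 847)
(mv 1038 (cons (fin 1036 0 1036)
(fin 977 2 973)))))))))
(mv 1103 (cons (fin 1167 5 911)
(mv 1105 (cons (fin 1169 4 912)
(mv 1038 (cons (fin 1102 3 1037)
(fin 1039 0 1037)))))))))))
(mv 1038 (cons (cons (mv 1039 (cons (fin 1105 0 1037)
(fin 977 2 973)))
(mv 1102 (cons (cons (mv 1103 (cons (fin 1105 3 1037)
(mv 1036 (cons (fin 1101 3 1036)
(fin 1035 0 1035)))))
(mv 974 (cons (cons (mv 975 (cons (fin 977 1 973)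
(mv 1166 (cons (fin 911 6 910)
(mv 1229 (cons (fin 1165 5 973)
(mv 1230 (cons (fin 1293 5 1037)
(mv 1231 (cons (fin 1295 4 1038)
(fin 1167 4 974)))))))))))
(mv 910 (cons (mv 1101 (cons (fin 1165 5 909)
(fin 846 5 845)))
(cons (mv 845 (cons (fin 909 7 845)
(mv 846 (cons (fin 781 7 781)
(mv 847 (cons (fin 911 6 846)
(fin 783 6 782)))))))
(mv 909 (cons (fin 845 7 845)
(mv 911 (cons (fin 847 6 846)
(mv 1166 (cons (cons (mv 1165 (cons (fin 1229 5 973)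
(fin 1101 5 909)))
(mv 1231 (cons (fin 1167 4 974)
(mv 1230 (cons (fin 1295 4 1038)
(mv 1293 (cons (fin 1229 5 1037)
(mv 1294 (cons (fin 1357 5 1101)
(fin 1101 7 1037))))))))))
(cons (mv 1229 (cons (fin 1165 5 973)
(mv 1230 (cons (fin 1293 5 1037)
(mv 1231 (cons (fin 1295 4 1038)
(fin 1167 4 974)))))))
(mv 1231 (cons (fin 1167 4 974)
(mv 1230 (cons (fin 1295 4 1038)
(mv 1101 (cons (fin 1165 5 909)
(fin 1294 7 1037))))))))))))))))))
(cons (mv 975 (cons (fin 977 1 973)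
(mv 1035 (cons (fin 1036 2 971)
(mv 910 (cons (mv 1101 (cons (fin 1165 5 909)
(fin 846 5 845)))
(mv 909 (cons (fin 845 7 845)
(mv 908 (cons (fin 907 0 907)
(fin 911 0 908)))))))))))
(cons (mv 975 (cons (fin 977 1 973)
(mv 1166 (cons (fin 911 6 910)
(mv 1231 (cons (fin 1167 4 974)
(mv 1230 (cons (fin 1295 4 1038)
(mv 1293 (cons (fin 1229 5 1037)
(mv 1294 (cons (fin 1357 5 1101)
(fin 1101 7 1037)))))))))))))
(mv 975 (cons (fin 977 1 973)
(mv 1035 (cons (fin 1036 2 971)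
(mv 1166 (cons (cons (mv 1229 (cons (fin 1165 5 973)
(mv 1230 (cons (fin 1293 5 1037)
(mv 1231 (cons (fin 1295 4 1038)
(fin 1167 4 974)))))))
(mv 1231 (cons (fin 1167 4 974)
(mv 1230 (cons (fin 1295 4 1038)
(mv 1293 (cons (fin 1229 5 1037)
(mv 1294 (cons (fin 1357 5 1101)
(fin 1101 7 1037))))))))))
(cons (mv 1231 (cons (fin 1167 4 974)
(mv 1230 (cons (fin 1295 4 1038)
(mv 1101 (cons (fin 1294 7 1037)
(mv 910 (cons (fin 1165 5 909)
(fin 846 5 845)))))))))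
(cons (mv 1230 (cons (mv 1229 (cons (fin 1293 5 1037)
(fin 1165 5 973)))
(cons (mv 1294 (cons (fin 1101 7 1037)
(mv 1357 (cons (fin 1293 5 1101)
(mv 1358 (cons (fin 1421 5 1165)
(mv 1359 (cons (fin 1423 4 1166)
(fin 1295 4 1102)))))))))
(mv 1165 (cons (fin 1229 5 973)
(mv 1101 (cons (fin 910 5 909)
(fin 1294 7 1037))))))))
(mv 1165 (cons (fin 1229 5 973)
(mv 1167 (cons (fin 1231 4 974)
(mv 1101 (cons (fin 910 5 909)
(mv 1164 (cons (mv 1227 (cons (fin 1228 1 1163)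
(mv 1163 (cons (fin 1226 1 1162)
(fin 1162 2 1098)))))
(cons (mv 1228 (cons (fin 1227 1 1163)
(mv 1292 (cons (fin 1356 6 1100)
(fin 1100 6 1036)))))
(mv 1163 (cons (fin 1162 2 1098)
(mv 1099 (cons (fin 1098 3 1098)
(fin 1100 3 1099)))))))))))))))))))))))))))
(cons (mv 1103 (cons (fin 1105 3 1037)
(mv 974 (cons (cons (mv 1167 (cons (fin 910 4 910)
(mv 1231 (cons (fin 1295 7 1038)
(fin 1166 4 974)))))
(mv 975 (cons (fin 977 1 973)
(mv 1166 (cons (fin 911 6 910)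
(mv 1229 (cons (fin 1165 5 973)
(mv 1230 (cons (fin 1293 5 1037)
(mv 1231 (cons (fin 1295 4 1038)
(fin 1167 4 974))))))))))))
(cons (mv 975 (cons (fin 977 1 973)
(mv 1166 (cons (fin 911 6 910)
(mv 1229 (cons (fin 1165 5 973)
(mv 1230 (cons (fin 1293 5 1037)
(mv 1294 (cons (fin 1101 7 1037)
(mv 1295 (cons (fin 1359 4 1102)
(fin 1231 4 1038)))))))))))))
(mv 975 (cons (fin 977 1 973)
(mv 910 (cons (fin 1167 4 910)
(mv 1101 (cons (fin 1165 5 909)
(fin 846 5 845))))))))))))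
(mv 1103 (cons (fin 1105 3 1037)
(mv 1036 (cons (fin 1035 0 1035)
(mv 974 (cons (cons (mv 1167 (cons (fin 910 4 910)
(mv 1231 (cons (fin 1295 7 1038)
(fin 1166 4 974)))))
(mv 975 (cons (fin 977 1 973)
(mv 911 (cons (fin 1166 6 910)
(mv 847 (cons (fin 783 5 782)
(fin 910 6 846))))))))
(cons (mv 975 (cons (fin 977 1 973)
(mv 1166 (cons (fin 911 6 910)
(mv 1229 (cons (fin 1165 5 973)
(mv 1230 (cons (fin 1293 5 1037)
(mv 1231 (cons (fin 1295 4 1038)
(fin 1167 4 974)))))))))))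
(mv 975 (cons (fin 977 1 973)
(mv 910 (cons (fin 1167 4 910)
(mv 909 (cons (fin 845 7 845)
(mv 908 (cons (fin 907 0 907)
(fin 911 0 908))))))))))))))))))))
(cons (mv 1039 (cons (fin 977 2 973)
(mv 1036 (cons (fin 1103 0 1036)
(fin 975 2 972)))))
(mv 1039 (cons (fin 1105 0 1037)
(mv 1036 (cons (fin 1103 0 1036)
(fin 975 2 972)))))))))
(cons (mv 912 (cons (cons (mv 1167 (cons (fin 1103 5 911)
(mv 1169 (cons (fin 1105 4 912)
(mv 847 (cons (fin 911 7 847)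
(mv 848 (cons (fin 783 7 783)
(mv 849 (cons (fin 913 6 848)
(fin 785 6 784)))))))))))
(mv 1103 (cons (fin 1167 5 911)
(mv 1105 (cons (fin 1169 4 912)
(mv 1102 (cons (fin 1038 3 1037)
(mv 1165 (cons (fin 1166 1 1101)
(mv 1101 (cons (fin 1164 1 1100)
(fin 1036 3 1036))))))))))))
(cons (mv 1169 (cons (fin 1105 4 912)
(mv 847 (cons (fin 911 7 847)
(mv 848 (cons (fin 783 7 783)
(mv 849 (cons (fin 913 6 848)
(fin 785 6 784)))))))))
(mv 1167 (cons (fin 1103 5 911)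
(mv 847 (cons (fin 911 7 847)
(mv 848 (cons (fin 783 7 783)
(mv 849 (cons (fin 913 6 848)
(fin 785 6 784))))))))))))
(mv 912 (cons (cons (mv 1167 (cons (fin 1103 5 911)
(mv 1169 (cons (fin 1105 4 912)
(mv 847 (cons (fin 911 7 847)
(mv 848 (cons (fin 783 7 783)
(mv 849 (cons (fin 913 6 848)
(fin 785 6 784)))))))))))
(cons (mv 1169 (cons (fin 1105 4 912)
(mv 847 (cons (fin 911 7 847)
(mv 848 (cons (fin 783 7 783)
(mv 849 (cons (fin 913 6 848)
(fin 785 6 784)))))))))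
(mv 1169 (cons (fin 1105 4 912)
(mv 1103 (cons (fin 1167 5 911)
(mv 848 (cons (fin 1039 5 847)
(mv 849 (cons (fin 913 6 848)
(fin 785 6 784)))))))))))
(cons (mv 1169 (cons (fin 1105 4 912)
(mv 1103 (cons (fin 1167 5 911)
(mv 847 (cons (fin 911 7 847)
(mv 848 (cons (fin 1039 5 847)
(fin 783 7 783)))))))))
(cons (mv 1167 (cons (fin 1103 5 911)
(mv 847 (cons (fin 911 7 847)
(mv 848 (cons (fin 783 7 783)
(mv 849 (cons (fin 913 6 848)
(fin 785 6 784)))))))))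
(mv 1167 (cons (fin 1103 5 911)
(mv 1169 (cons (fin 1105 4 912)
(mv 911 (cons (fin 847 7 847)
(mv 913 (cons (fin 849 6 848)
(mv 914 (cons (mv 975 (cons (fin 974 1 910)
(fin 915 1 911)))
(cons (mv 978 (cons (fin 979 0 911)
(mv 977 (cons (fin 910 0 910)
(mv 915 (cons (fin 916 1 912)
(mv 851 (cons (fin 850 2 847)
(fin 852 2 848)))))))))
(mv 975 (cons (fin 974 1 910)
(mv 978 (cons (fin 979 0 911)
(mv 910 (cons (fin 977 3 910)
(mv 909 (cons (fin 908 0 908)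
(mv 845 (cons (fin 844 3 844)
(fin 846 3 845))))))))))))))))))))))))))))
(cons (cons (mv 912 (cons (cons (mv 1167 (cons (fin 1103 5 911)
(mv 847 (cons (fin 911 7 847)
(mv 848 (cons (fin 783 7 783)
(mv 849 (cons (fin 913 6 848)
(fin 785 6 784)))))))))
(mv 847 (cons (fin 911 7 847)
(mv 848 (cons (fin 783 7 783)
(mv 849 (cons (fin 913 6 848)
(fin 785 6 784))))))))
(cons (mv 1103 (cons (fin 1167 5 911)
(mv 1039 (cons (fin 848 5 847)
(mv 1038 (cons (fin 1036 0 1036)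
(fin 977 2 973)))))))
(mv 1167 (cons (fin 1103 5 911)
(mv 911 (cons (fin 847 7 847)
(mv 913 (cons (fin 849 6 848)
(mv 914 (cons (mv 975 (cons (fin 974 1 910)
(fin 915 1 911)))
(cons (mv 978 (cons (fin 979 0 911)
(mv 977 (cons (fin 910 0 910)
(mv 1038 (cons (fin 1039 2 973)
(mv 915 (cons (fin 916 1 912)
(mv 851 (cons (fin 850 2 847)
(fin 852 2 848)))))))))))
(mv 975 (cons (fin 974 1 910)
(mv 978 (cons (fin 979 0 911)
(mv 910 (cons (fin 977 3 910)
(mv 909 (cons (fin 908 0 908)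
(mv 845 (cons (fin 844 3 844)
(fin 846 3 845)))))))))))))))))))))))
(mv 912 (cons (cons (mv 1169 (cons (fin 1105 4 912)
(mv 847 (cons (fin 911 7 847)
(mv 848 (cons (fin 783 7 783)
(mv 849 (cons (fin 913 6 848)
(fin 785 6 784)))))))))
(cons (mv 1105 (cons (fin 1169 4 912)
(mv 1039 (cons (fin 1038 0 1037)
(mv 1106 (cons (fin 1107 3 1039)
(mv 848 (cons (mv 849 (cons (fin 913 6 848)
(fin 785 6 784)))
(cons (mv 784 (cons (fin 975 5 783)
(mv 719 (cons (fin 783 7 719)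
(mv 720 (cons (fin 655 7 655)
(mv 721 (cons (fin 785 6 720)
(fin 657 6 656)))))))))
(mv 975 (cons (fin 784 5 783)
(mv 913 (cons (fin 849 6 848)
(mv 914 (cons (fin 915 1 911)
(mv 974 (cons (fin 911 1 910)
(fin 977 2 910))))))))))))))))))
(mv 1169 (cons (fin 1105 4 912)
(mv 1038 (cons (cons (mv 1039 (cons (fin 977 2 973)
(mv 1100 (cons (fin 1101 1 1036)
(mv 1036 (cons (fin 1099 1 1035)
(fin 975 2 972)))))))
(mv 911 (cons (fin 847 7 847)
(mv 910 (cons (cons (mv 977 (cons (fin 909 0 909)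
(mv 975 (cons (fin 974 1 973)
(fin 978 3 910)))))
(mv 974 (cons (mv 1101 (cons (fin 846 5 845)
(mv 1165 (cons (fin 1102 5 909)
(fin 1229 6 973)))))
(cons (mv 909 (cons (mv 845 (cons (fin 844 3 844)
(fin 1102 7 845)))
(cons (mv 908 (cons (fin 975 0 908)
(mv 971 (cons (fin 972 1 907)
(mv 907 (cons (fin 970 1 906)
(mv 843 (cons (fin 842 3 842)
(fin 844 3 843)))))))))
(mv 1102 (cons (fin 845 7 845)
(mv 975 (cons (fin 908 0 908)
(fin 1166 6 910))))))))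
(mv 846 (cons (fin 1101 5 845)
(mv 845 (cons (fin 913 3 845)
(fin 781 7 781)))))))))
(cons (mv 977 (cons (mv 975 (cons (fin 974 1 973)
(fin 978 3 910)))
(cons (mv 974 (cons (fin 975 1 973)
(mv 1101 (cons (fin 846 5 845)
(mv 1165 (cons (fin 1102 5 909)
(fin 1229 6 973)))))))
(mv 978 (cons (fin 979 3 911)
(fin 913 0 910))))))
(mv 977 (cons (fin 909 0 909)
(mv 978 (cons (fin 979 3 911)
(fin 913 0 910)))))))))))
(cons (mv 847 (cons (fin 911 7 847)
(mv 848 (cons (fin 783 7 783)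
(mv 1036 (cons (cons (mv 1039 (cons (fin 975 2 972)
(mv 1100 (cons (fin 1099 1 1035)
(fin 1101 1 1036)))))
(mv 1035 (cons (cons (mv 1098 (cons (fin 1099 1 1034)
(mv 1034 (cons (fin 1097 1 1033)
(mv 970 (cons (fin 969 3 969)
(fin 971 3 970)))))))
(mv 970 (cons (fin 971 3 970)
(mv 1034 (cons (fin 969 3 969)
(mv 1101 (cons (fin 1102 0 1034)
(mv 1100 (cons (fin 1033 0 1033)
(mv 974 (cons (fin 975 2 971)
(mv 1165 (cons (fin 1229 6 973)
(mv 908 (cons (fin 972 4 908)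
(mv 846 (cons (fin 910 5 845)
(mv 845 (cons (fin 909 1 844)
(fin 913 0 845))))))))))))))))))))
(cons (mv 1098 (cons (fin 1099 1 1034)
(mv 1034 (cons (fin 1097 1 1033)
(mv 1101 (cons (fin 1102 0 1034)
(mv 1100 (cons (fin 1033 0 1033)
(mv 974 (cons (fin 975 2 971)
(mv 1165 (cons (fin 1229 6 973)
(mv 908 (cons (fin 972 4 908)
(mv 846 (cons (fin 910 5 845)
(mv 845 (cons (fin 909 1 844)
(fin 913 0 845)))))))))))))))))))
(mv 1099 (cons (fin 1098 1 1034)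
(mv 971 (cons (fin 970 3 970)
(mv 974 (cons (fin 975 2 971)
(mv 907 (cons (mv 1100 (cons (fin 1164 4 907)
(fin 843 4 843)))
(cons (mv 908 (cons (fin 844 6 843)
(mv 1163 (cons (fin 972 6 907)
(mv 1226 (cons (fin 1162 5 970)
(mv 1227 (cons (fin 1290 5 1034)
(mv 1228 (cons (fin 1292 4 1035)
(fin 1164 4 971)))))))))))
(mv 1100 (cons (fin 843 4 843)
(mv 908 (cons (fin 844 6 843)
(mv 1163 (cons (fin 972 5 907)
(mv 1226 (cons (fin 1162 5 970)
(mv 1227 (cons (fin 1290 5 1034)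
(fin 1291 6 1035))))))))))))))))))))))))
(cons (mv 1035 (cons (cons (mv 1098 (cons (fin 1099 1 1034)
(mv 1034 (cons (fin 1097 1 1033)
(mv 970 (cons (fin 969 3 969)
(fin 971 3 970)))))))
(mv 970 (cons (fin 971 3 970)
(mv 1034 (cons (fin 969 3 969)
(mv 1097 (cons (fin 1098 1 1033)
(mv 1101 (cons (fin 1102 0 1034)
(mv 1100 (cons (fin 1039 1 1036)
(fin 1033 0 1033))))))))))))
(cons (mv 1098 (cons (fin 1099 1 1034)
(mv 1034 (cons (fin 1097 1 1033)
(mv 1101 (cons (fin 1102 0 1034)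
(mv 1100 (cons (fin 1039 1 1036)
(fin 1033 0 1033)))))))))
(cons (mv 970 (cons (fin 971 3 970)
(mv 1034 (cons (fin 969 3 969)
(mv 1101 (cons (fin 1102 0 1034)
(mv 1100 (cons (fin 1039 1 1036)
(fin 1033 0 1033)))))))))
(mv 1099 (cons (fin 1098 1 1034)
(mv 1100 (cons (fin 1039 1 1035)
(mv 971 (cons (fin 970 3 970)
(mv 1164 (cons (fin 1228 7 971)
(fin 907 4 907)))))))))))))
(cons (mv 975 (cons (fin 1039 2 972)
(mv 1035 (cons (fin 974 2 971)
(mv 1098 (cons (fin 1099 1 1034)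
(mv 1034 (cons (fin 1097 1 1033)
(mv 970 (cons (fin 969 3 969)
(fin 971 3 970)))))))))))
(mv 975 (cons (fin 1039 2 972)
(mv 1035 (cons (fin 974 2 971)
(mv 970 (cons (fin 971 3 970)
(mv 1034 (cons (fin 969 3 969)
(mv 1097 (cons (fin 1098 1 1033)
(mv 1101 (cons (fin 1102 0 1034)
(mv 1033 (cons (fin 1096 1 1032)
(fin 1100 0 1033)))))))))))))))))))))))
(mv 977 (cons (fin 1039 2 973)
(mv 911 (cons (fin 847 7 847)
(mv 978 (cons (fin 979 3 911)
(mv 910 (cons (fin 909 0 909)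
(fin 913 0 910))))))))))))))))
(cons (cons (mv 847 (cons (fin 911 7 847)
(mv 848 (cons (fin 783 7 783)
(mv 849 (cons (fin 913 6 848)
(fin 785 6 784)))))))
(mv 1105 (cons (fin 1169 4 912)
(mv 1039 (cons (fin 1038 0 1037)
(mv 1106 (cons (fin 1107 3 1039)
(mv 849 (cons (fin 913 6 848)
(mv 848 (cons (fin 785 6 784)
(mv 783 (cons (fin 847 7 783)
(mv 784 (cons (fin 975 5 783)
(fin 719 7 719))))))))))))))))
(cons (mv 1169 (cons (fin 1105 4 912)
(mv 847 (cons (fin 911 7 847)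
(mv 848 (cons (fin 783 7 783)
(mv 785 (cons (fin 849 6 784)
(mv 784 (cons (fin 721 6 720)
(mv 1039 (cons (fin 975 5 783)
(mv 1038 (cons (fin 977 2 973)
(mv 1100 (cons (fin 1101 1 1036)
(mv 1036 (cons (fin 1099 1 1035)
(mv 972 (cons (fin 971 3 971)
(mv 845 (cons (fin 846 2 781)
(mv 908 (cons (fin 909 6 844)
(mv 843 (cons (fin 907 7 843)
(mv 844 (cons (fin 779 7 779)
(fin 781 6 780)))))))))))))))))))))))))))))
(mv 1169 (cons (fin 1105 4 912)
(mv 911 (cons (fin 847 7 847)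
(mv 913 (cons (fin 849 6 848)
(mv 914 (cons (mv 975 (cons (fin 974 1 910)
(fin 915 1 911)))
(cons (mv 978 (cons (fin 979 0 911)
(mv 977 (cons (fin 910 0 910)
(mv 1038 (cons (fin 1039 2 973)
(mv 915 (cons (fin 916 1 912)
(mv 851 (cons (fin 850 2 847)
(fin 852 2 848)))))))))))
(mv 975 (cons (fin 974 1 910)
(mv 978 (cons (fin 979 0 911)
(mv 910 (cons (fin 977 3 910)
(mv 909 (cons (fin 908 0 908)
(mv 845 (cons (fin 844 3 844)
(fin 846 3 845)))))))))))))))))))))))))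
(cons (mv 912 (cons (cons (mv 1169 (cons (fin 1105 4 912)
(mv 1103 (cons (fin 1167 5 911)
(mv 1039 (cons (fin 848 5 847)
(mv 1038 (cons (fin 1036 0 1036)
(fin 977 2 973)))))))))
(mv 1105 (cons (fin 1169 4 912)
(mv 1039 (cons (fin 1038 0 1037)
(mv 1106 (cons (fin 1107 3 1039)
(mv 848 (cons (mv 849 (cons (fin 913 6 848)
(fin 785 6 784)))
(cons (mv 784 (cons (fin 975 5 783)
(mv 719 (cons (fin 783 7 719)
(mv 720 (cons (fin 655 7 655)
(mv 721 (cons (fin 785 6 720)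
(fin 657 6 656)))))))))
(mv 975 (cons (fin 784 5 783)
(mv 913 (cons (fin 849 6 848)
(mv 914 (cons (fin 915 1 911)
(mv 974 (cons (fin 911 1 910)
(fin 977 2 910)))))))))))))))))))
(cons (mv 1103 (cons (fin 1167 5 911)
(mv 1039 (cons (fin 848 5 847)
(mv 1038 (cons (fin 1036 0 1036)
(fin 977 2 973)))))))
(cons (mv 1103 (cons (fin 1167 5 911)
(mv 1105 (cons (fin 1169 4 912)
(mv 1102 (cons (fin 1038 3 1037)
(mv 1165 (cons (fin 1166 1 1101)
(mv 1101 (cons (fin 1164 1 1100)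
(fin 1036 3 1036)))))))))))
(mv 1169 (cons (fin 1105 4 912)
(mv 1103 (cons (fin 1167 5 911)
(mv 848 (cons (fin 1039 5 847)
(mv 849 (cons (fin 913 6 848)
(fin 785 6 784)))))))))))))
(cons (mv 912 (cons (cons (mv 1167 (cons (fin 1103 5 911)
(mv 1105 (cons (fin 1169 4 912)
(mv 1039 (cons (fin 1038 0 1037)
(mv 1106 (cons (fin 1107 3 1039)
(mv 849 (cons (fin 913 6 848)
(mv 848 (cons (fin 785 6 784)
(mv 783 (cons (fin 847 7 783)
(mv 784 (cons (fin 975 5 783)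
(fin 719 7 719)))))))))))))))))
(mv 1105 (cons (fin 1169 4 912)
(mv 1039 (cons (fin 1038 0 1037)
(mv 1106 (cons (fin 1107 3 1039)
(mv 849 (cons (fin 913 6 848)
(mv 848 (cons (fin 785 6 784)
(mv 783 (cons (fin 847 7 783)
(mv 784 (cons (fin 975 5 783)
(fin 719 7 719))))))))))))))))
(cons (mv 1103 (cons (fin 1167 5 911)
(mv 1039 (cons (fin 848 5 847)
(mv 1038 (cons (fin 1036 0 1036)
(fin 977 2 973)))))))
(cons (mv 1103 (cons (fin 1167 5 911)
(mv 1105 (cons (fin 1169 4 912)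
(mv 1102 (cons (fin 1038 3 1037)
(mv 1165 (cons (fin 1166 1 1101)
(mv 1101 (cons (fin 1164 1 1100)
(fin 1036 3 1036)))))))))))
(mv 1169 (cons (fin 1105 4 912)
(mv 1103 (cons (fin 1167 5 911)
(mv 913 (cons (fin 849 6 848)
(mv 848 (cons (fin 1039 5 847)
(mv 783 (cons (fin 847 7 783)
(mv 784 (cons (fin 719 7 719)
(mv 720 (cons (fin 977 4 720)
(mv 721 (cons (fin 785 6 720)
(fin 657 6 656)))))))))))))))))))))
(mv 912 (cons (cons (mv 1169 (cons (fin 1105 4 912)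
(mv 1103 (cons (fin 1167 5 911)
(mv 1039 (cons (fin 848 5 847)
(mv 1038 (cons (fin 1036 0 1036)
(fin 977 2 973)))))))))
(mv 1169 (cons (fin 1105 4 912)
(mv 911 (cons (fin 847 7 847)
(mv 913 (cons (fin 849 6 848)
(mv 914 (cons (mv 975 (cons (fin 974 1 910)
(fin 915 1 911)))
(cons (mv 978 (cons (fin 979 0 911)
(mv 977 (cons (fin 910 0 910)
(mv 1038 (cons (fin 1039 2 973)
(mv 915 (cons (fin 916 1 912)
(mv 851 (cons (fin 850 2 847)
(fin 852 2 848)))))))))))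
(mv 975 (cons (fin 974 1 910)
(mv 978 (cons (fin 979 0 911)
(mv 910 (cons (fin 977 3 910)
(mv 909 (cons (fin 908 0 908)
(mv 845 (cons (fin 844 3 844)
(fin 846 3 845)))))))))))))))))))))
(cons (mv 1103 (cons (fin 1167 5 911)
(mv 1039 (cons (fin 848 5 847)
(mv 1038 (cons (fin 1036 0 1036)
(fin 977 2 973)))))))
(cons (mv 1103 (cons (fin 1167 5 911)
(mv 1105 (cons (fin 1169 4 912)
(mv 1102 (cons (fin 1038 3 1037)
(mv 1165 (cons (fin 1166 1 1101)
(mv 1101 (cons (fin 1164 1 1100)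
(fin 1036 3 1036)))))))))))
(mv 1169 (cons (fin 1105 4 912)
(mv 1103 (cons (fin 1167 5 911)
(mv 911 (cons (fin 847 7 847)
(mv 848 (cons (fin 1039 5 847)
(mv 849 (cons (fin 913 6 848)
(fin 785 6 784))))))))))))))))))))
(mv 1039 (cons (cons (mv 1038 (cons (fin 1105 0 1037)
(mv 1100 (cons (fin 1101 1 1036)
(mv 1036 (cons (fin 1099 1 1035)
(mv 976 (cons (fin 975 2 972)
(fin 977 2 973)))))))))
(mv 1168 (cons (cons (mv 1232 (cons (fin 975 7 975)
(mv 1295 (cons (fin 1231 5 1039)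
(mv 1296 (cons (fin 1359 5 1103)
(mv 1297 (cons (fin 1361 4 1104)
(fin 1233 4 1040)))))))))
(mv 976 (cons (cons (mv 1231 (cons (fin 1167 5 975)
(mv 1233 (cons (fin 1169 4 976)
(mv 911 (cons (fin 975 7 911)
(mv 912 (cons (fin 847 7 847)
(mv 913 (cons (fin 977 6 912)
(fin 849 6 848)))))))))))
(cons (mv 1231 (cons (fin 1167 5 975)
(mv 1169 (cons (fin 1233 4 976)
(mv 912 (cons (fin 1105 4 912)
(mv 913 (cons (fin 977 6 912)
(fin 849 6 848)))))))))
(mv 1231 (cons (fin 1167 5 975)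
(mv 911 (cons (fin 975 7 911)
(mv 912 (cons (fin 847 7 847)
(mv 913 (cons (fin 977 6 912)
(fin 849 6 848)))))))))))
(cons (cons (mv 1231 (cons (fin 1167 5 975)
(mv 1169 (cons (fin 1233 4 976)
(mv 975 (cons (fin 911 7 911)
(mv 912 (cons (fin 1105 4 912)
(mv 848 (cons (fin 784 5 783)
(mv 849 (cons (fin 913 6 848)
(fin 785 6 784)))))))))))))
(mv 1231 (cons (fin 1167 5 975)
(mv 1169 (cons (fin 1233 4 976)
(mv 911 (cons (fin 975 7 911)
(mv 912 (cons (fin 847 7 847)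
(fin 1105 4 912))))))))))
(cons (mv 1233 (cons (fin 1169 4 976)
(mv 911 (cons (fin 975 7 911)
(mv 912 (cons (fin 847 7 847)
(mv 913 (cons (fin 977 6 912)
(fin 849 6 848)))))))))
(mv 1167 (cons (fin 1231 5 975)
(mv 1169 (cons (fin 1233 4 976)
(mv 975 (cons (fin 911 7 911)
(mv 977 (cons (fin 913 6 912)
(mv 978 (cons (fin 979 1 975)
(mv 1042 (cons (fin 1043 0 975)
(mv 914 (cons (fin 915 2 911)
(mv 1106 (cons (fin 1105 5 913)
(mv 1107 (cons (fin 1170 2 1103)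
(fin 1171 4 914))))))))))))))))))))))))
(cons (mv 1233 (cons (cons (mv 1297 (cons (fin 1232 4 1040)
(mv 1169 (cons (fin 1361 7 1104)
(fin 1105 7 1040)))))
(mv 1232 (cons (fin 1297 4 1040)
(mv 1231 (cons (fin 1295 5 1039)
(mv 1167 (cons (fin 976 5 975)
(mv 1234 (cons (fin 1166 3 1166)
(fin 1235 3 1167))))))))))
(cons (mv 1169 (cons (fin 976 4 976)
(mv 1234 (cons (cons (mv 1235 (cons (fin 1236 3 1168)
(mv 1167 (cons (fin 1232 3 1167)
(fin 1166 0 1166)))))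
(mv 1235 (cons (fin 1236 3 1168)
(mv 1232 (cons (mv 1295 (cons (fin 1296 1 1231)
(fin 1231 5 1039)))
(cons (mv 1299 (cons (fin 1300 0 1232)
(mv 1298 (cons (fin 1231 0 1231)
(mv 1426 (cons (fin 1362 7 1169)
(mv 1171 (cons (fin 1172 2 1168)
(mv 1107 (cons (fin 1043 5 1042)
(mv 1106 (cons (fin 1105 3 1039)
(fin 1042 7 1042)))))))))))))
(mv 1296 (cons (fin 1295 1 1231)
(mv 1360 (cons (fin 1424 6 1168)
(fin 1105 6 1104)))))))))))
(cons (mv 1167 (cons (fin 1166 0 1166)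
(mv 1231 (cons (mv 1295 (cons (fin 1232 5 1039)
(fin 1359 6 1103)))
(cons (mv 1230 (cons (fin 1170 1 1166)
(mv 1229 (cons (fin 1228 2 1164)
(fin 1232 2 1165)))))
(mv 1359 (cons (fin 1295 6 1103)
(mv 1170 (cons (fin 1230 1 1166)
(mv 1107 (cons (fin 1106 2 1103)
(mv 1171 (cons (fin 1108 2 1104)
(mv 1172 (cons (fin 1173 1 1169)
(fin 1105 3 1104))))))))))))))))
(mv 1235 (cons (fin 1236 3 1168)
(mv 1167 (cons (fin 1166 0 1166)
(fin 1170 0 1167))))))))))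
(mv 1169 (cons (fin 976 4 976)
(mv 1297 (cons (fin 1361 7 1104)
(fin 1105 7 1040))))))))
(mv 975 (cons (fin 1232 7 975)
(mv 911 (cons (fin 976 7 911)
(fin 847 4 847)))))))))
(cons (mv 976 (cons (cons (mv 1038 (cons (fin 977 2 973)
(mv 1100 (cons (fin 1101 1 1036)
(mv 1036 (cons (fin 1099 1 1035)
(fin 975 2 972)))))))
(mv 1168 (cons (mv 975 (cons (fin 1232 7 975)
(fin 911 7 911)))
(cons (mv 1231 (cons (fin 1167 5 975)
(mv 1232 (cons (fin 1295 5 1039)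
(mv 1233 (cons (fin 1297 4 1040)
(fin 1169 4 976)))))))
(mv 1231 (cons (fin 1167 5 975)
(mv 1233 (cons (fin 1169 4 976)
(mv 911 (cons (fin 975 7 911)
(mv 912 (cons (fin 847 7 847)
(mv 913 (cons (fin 977 6 912)
(fin 849 6 848)))))))))))))))
(cons (mv 975 (cons (mv 1168 (cons (fin 1232 7 975)
(fin 911 7 911)))
(cons (mv 1168 (cons (fin 1232 7 975)
(mv 1167 (cons (fin 1231 5 975)
(mv 1169 (cons (fin 1233 4 976)
(mv 1038 (cons (fin 1036 2 972)
(mv 1101 (cons (fin 1100 1 1036)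
(mv 1166 (cons (fin 1102 3 1101)
(mv 1229 (cons (fin 1230 1 1165)
(mv 1165 (cons (fin 1228 1 1164)
(fin 974 6 973)))))))))))))))))
(mv 1038 (cons (fin 1036 2 972)
(mv 1101 (cons (fin 1100 1 1036)
(mv 847 (cons (fin 911 4 847)
(mv 848 (cons (cons (mv 912 (cons (fin 784 5 783)
(fin 783 7 783)))
(mv 846 (cons (cons (mv 910 (cons (fin 974 5 845)
(mv 909 (cons (fin 849 1 845)
(mv 908 (cons (fin 845 1 844)
(fin 907 2 843)))))))
(mv 849 (cons (cons (mv 913 (cons (fin 914 0 846)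
(mv 781 (cons (fin 782 3 781)
(mv 845 (cons (fin 780 3 780)
(mv 785 (cons (fin 784 2 781)
(fin 786 2 782)))))))))
(mv 914 (cons (fin 913 0 846)
(mv 850 (cons (fin 915 0 847)
(mv 782 (cons (fin 781 3 781)
(fin 783 3 782))))))))
(cons (mv 913 (cons (fin 914 0 846)
(mv 785 (cons (fin 786 2 782)
(mv 845 (cons (fin 784 2 781)
(mv 908 (cons (fin 909 1 844)
(mv 844 (cons (fin 907 1 843)
(mv 780 (cons (fin 779 3 779)
(fin 781 3 780)))))))))))))
(cons (mv 914 (cons (fin 913 0 846)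
(mv 850 (cons (fin 915 0 847)
(mv 786 (cons (fin 785 2 782)
(fin 787 2 783)))))))
(mv 781 (cons (fin 782 3 781)
(mv 845 (cons (fin 780 3 780)
(mv 785 (cons (fin 784 2 781)
(fin 786 2 782))))))))))))
(cons (mv 910 (cons (fin 974 5 845)
(mv 845 (cons (cons (mv 908 (cons (fin 909 1 844)
(mv 844 (cons (fin 907 1 843)
(mv 780 (cons (fin 779 3 779)
(fin 781 3 780)))))))
(mv 780 (cons (fin 781 3 780)
(mv 844 (cons (fin 779 3 779)
(mv 784 (cons (fin 783 2 780)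
(fin 785 2 781))))))))
(cons (mv 908 (cons (fin 909 1 844)
(mv 844 (cons (fin 907 1 843)
(mv 784 (cons (fin 783 2 780)
(fin 785 2 781)))))))
(mv 909 (cons (fin 908 1 844)
(mv 781 (cons (fin 780 3 780)
(mv 784 (cons (fin 785 2 781)
(mv 717 (cons (fin 653 4 653)
(mv 716 (cons (fin 652 7 652)
(mv 783 (cons (fin 782 3 716)
(mv 718 (cons (fin 719 0 716)
(fin 654 6 653))))))))))))))))))))
(cons (mv 910 (cons (fin 974 5 845)
(mv 849 (cons (fin 909 1 845)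
(mv 913 (cons (fin 914 0 846)
(mv 782 (cons (fin 781 3 781)
(mv 850 (cons (fin 783 3 782)
(mv 786 (cons (fin 785 2 782)
(fin 787 2 783)))))))))))))
(mv 974 (cons (fin 910 5 845)
(mv 1229 (cons (fin 1165 6 973)
(mv 849 (cons (cons (mv 913 (cons (fin 914 0 846)
(mv 781 (cons (fin 782 3 781)
(mv 845 (cons (fin 780 3 780)
(mv 785 (cons (fin 784 2 781)
(fin 786 2 782)))))))))
(mv 914 (cons (fin 913 0 846)
(mv 850 (cons (fin 915 0 847)
(mv 782 (cons (fin 781 3 781)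
(fin 783 3 782))))))))
(cons (mv 914 (cons (fin 913 0 846)
(mv 850 (cons (fin 915 0 847)
(mv 786 (cons (fin 785 2 782)
(fin 787 2 783)))))))
(mv 781 (cons (fin 782 3 781)
(mv 845 (cons (fin 780 3 780)
(mv 785 (cons (fin 784 2 781)
(fin 786 2 782)))))))))))))))))))
(cons (mv 912 (cons (fin 784 5 783)
(mv 849 (cons (fin 913 6 848)
(fin 785 6 784)))))
(mv 912 (cons (fin 783 7 783)
(mv 849 (cons (fin 913 6 848)
(fin 785 6 784)))))))))))))))))
(mv 977 (cons (fin 1038 2 973)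
(mv 1168 (cons (fin 913 6 912)
(mv 1231 (cons (fin 1167 5 975)
(mv 1232 (cons (fin 1295 5 1039)
(mv 1233 (cons (fin 1297 4 1040)
(fin 1169 4 976))))))))))))))
(cons (mv 1038 (cons (fin 1105 0 1037)
(mv 976 (cons (fin 977 2 973)
(mv 847 (cons (cons (mv 1100 (cons (fin 1101 1 1036)
(mv 1099 (cons (fin 1036 1 1035)
(mv 912 (cons (fin 911 7 847)
(mv 848 (cons (fin 783 7 783)
(mv 849 (cons (fin 913 6 848)
(fin 785 6 784)))))))))))
(mv 1231 (cons (cons (mv 1168 (cons (fin 1167 5 975)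
(mv 1232 (cons (fin 1295 5 1039)
(mv 1233 (cons (fin 1297 4 1040)
(fin 1169 4 976)))))))
(mv 1036 (cons (cons (mv 1100 (cons (fin 1099 1 1035)
(fin 1101 1 1036)))
(mv 971 (cons (fin 972 3 971)
(mv 1035 (cons (fin 970 3 970)
(mv 1098 (cons (fin 1099 1 1034)
(mv 1034 (cons (fin 1097 1 1033)
(mv 1226 (cons (fin 1162 6 970)
(mv 1102 (cons (fin 1101 0 1034)
(mv 907 (cons (fin 843 5 842)
(mv 974 (cons (mv 1166 (cons (fin 1167 4 974)
(mv 1229 (cons (fin 1165 5 973)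
(mv 1230 (cons (fin 1293 5 1037)
(fin 1295 4 1038)))))))
(mv 910 (cons (fin 911 6 846)
(mv 909 (cons (fin 845 7 845)
(mv 846 (cons (fin 908 2 843)
(fin 783 6 782))))))))))))))))))))))))
(cons (mv 1101 (cons (fin 1100 1 1036)
(mv 971 (cons (fin 972 3 971)
(mv 1035 (cons (fin 970 3 970)
(mv 1102 (cons (fin 1034 0 1034)
(mv 974 (cons (mv 1165 (cons (fin 910 5 909)
(fin 1229 6 973)))
(cons (mv 1229 (cons (fin 1165 6 973)
(mv 1166 (cons (fin 1167 4 974)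
(mv 1230 (cons (fin 1293 5 1037)
(fin 1294 7 1037)))))))
(mv 910 (cons (fin 846 5 845)
(fin 911 6 846))))))))))))))
(mv 1099 (cons (fin 1100 1 1035)
(mv 1035 (cons (fin 1098 1 1034)
(mv 971 (cons (fin 970 3 970)
(fin 972 3 971)))))))))))
(cons (mv 1101 (cons (fin 1100 1 1036)
(mv 1232 (cons (cons (mv 1168 (cons (fin 1295 5 1039)
(mv 1233 (cons (fin 1297 4 1040)
(fin 1169 4 976)))))
(mv 1229 (cons (mv 1165 (cons (fin 974 6 973)
(mv 1230 (cons (fin 1164 3 1164)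
(fin 1294 4 1037)))))
(cons (mv 1230 (cons (cons (mv 1292 (cons (fin 1293 1 1228)
(mv 1296 (cons (fin 1297 0 1229)
(mv 1228 (cons (fin 1291 1 1227)
(fin 1295 0 1228)))))))
(mv 1296 (cons (fin 1297 0 1229)
(mv 1228 (cons (fin 1295 0 1228)
(mv 1291 (cons (fin 1292 1 1227)
(mv 1227 (cons (fin 1290 1 1226)
(mv 1163 (cons (fin 1162 3 1162)
(fin 1164 3 1163))))))))))))
(cons (mv 1293 (cons (fin 1292 1 1228)
(mv 1233 (cons (fin 1294 1 1229)
(mv 1298 (cons (fin 1297 0 1230)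
(mv 1234 (cons (fin 1299 0 1231)
(mv 1170 (cons (fin 1169 2 1166)
(fin 1171 2 1167)))))))))))
(cons (mv 1297 (cons (fin 1296 0 1229)
(mv 1233 (cons (fin 1298 0 1230)
(mv 1294 (cons (fin 1293 1 1229)
(mv 1234 (cons (fin 1295 1 1230)
(mv 1170 (cons (fin 1169 2 1166)
(fin 1171 2 1167)))))))))))
(mv 1292 (cons (fin 1293 1 1228)
(mv 1228 (cons (fin 1291 1 1227)
(mv 1295 (cons (fin 1296 0 1228)
(mv 1227 (cons (fin 1294 0 1227)
(mv 1163 (cons (fin 1162 3 1162)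
(fin 1164 3 1163)))))))))))))))
(mv 1165 (cons (fin 974 6 973)
(mv 1292 (cons (fin 1228 5 1036)
(mv 1293 (cons (fin 1356 5 1100)
(fin 1102 6 1037)))))))))))
(cons (mv 1233 (cons (cons (mv 1168 (cons (fin 1297 4 1040)
(fin 1169 4 976)))
(mv 1230 (cons (cons (mv 1293 (cons (fin 1294 1 1229)
(mv 1292 (cons (fin 1229 1 1228)
(mv 1298 (cons (fin 1297 0 1230)
(mv 1234 (cons (fin 1299 0 1231)
(mv 1170 (cons (fin 1169 2 1166)
(fin 1171 2 1167)))))))))))
(mv 1297 (cons (fin 1298 0 1230)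
(mv 1229 (cons (fin 1296 0 1229)
(mv 1165 (cons (fin 1164 3 1164)
(fin 1166 3 1165))))))))
(cons (mv 1293 (cons (fin 1294 1 1229)
(mv 1229 (cons (fin 1292 1 1228)
(mv 1165 (cons (fin 1164 3 1164)
(fin 1166 3 1165)))))))
(mv 1293 (cons (fin 1294 1 1229)
(mv 1298 (cons (fin 1297 0 1230)
(mv 1234 (cons (fin 1299 0 1231)
(mv 1170 (cons (fin 1169 2 1166)
(fin 1171 2 1167)))))))))))))
(cons (mv 1169 (cons (fin 1168 4 976)
(mv 1230 (cons (fin 1170 2 1166)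
(mv 1293 (cons (fin 1294 1 1229)
(mv 1229 (cons (fin 1292 1 1228)
(mv 1165 (cons (fin 1164 3 1164)
(fin 1166 3 1165)))))))))))
(mv 1297 (cons (fin 1168 4 1040)
(mv 1298 (cons (fin 1230 0 1230)
(mv 1299 (cons (fin 1296 3 1231)
(fin 1300 3 1232))))))))))
(cons (mv 1295 (cons (fin 1168 5 1039)
(mv 1229 (cons (cons (mv 1165 (cons (fin 974 6 973)
(mv 1230 (cons (fin 1164 3 1164)
(fin 1294 4 1037)))))
(mv 1230 (cons (mv 1296 (cons (fin 1228 0 1228)
(fin 1297 0 1229)))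
(cons (mv 1292 (cons (fin 1293 1 1228)
(mv 1228 (cons (fin 1291 1 1227)
(mv 1227 (cons (fin 1294 0 1227)
(mv 1163 (cons (fin 1162 3 1162)
(fin 1164 3 1163)))))))))
(mv 1293 (cons (fin 1292 1 1228)
(mv 1296 (cons (fin 1297 0 1229)
(mv 1166 (cons (fin 1102 5 1037)
(mv 1357 (cons (fin 1421 6 1165)
(mv 1356 (cons (fin 1294 1 1292)
(mv 1359 (cons (fin 1358 2 1292)
(fin 1423 7 1166)))))))))))))))))
(cons (mv 1165 (cons (fin 974 6 973)
(mv 1292 (cons (fin 1228 5 1036)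
(mv 1293 (cons (fin 1294 2 1228)
(fin 1356 5 1100)))))))
(mv 1165 (cons (fin 974 6 973)
(mv 1292 (cons (fin 1228 5 1036)
(mv 1293 (cons (fin 1230 1 1228)
(fin 1356 5 1100))))))))))))
(mv 1168 (cons (fin 1295 5 1039)
(mv 1169 (cons (fin 1233 4 976)
(mv 1229 (cons (fin 1230 2 1165)
(mv 1165 (cons (fin 974 6 973)
(mv 1292 (cons (fin 1228 5 1036)
(mv 1293 (cons (fin 1356 5 1100)
(fin 1102 6 1037)))))))))))))))))))
(mv 1167 (cons (fin 1168 5 975)
(mv 1036 (cons (cons (mv 1100 (cons (fin 1099 1 1035)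
(fin 1101 1 1036)))
(mv 971 (cons (fin 972 3 971)
(mv 1035 (cons (fin 970 3 970)
(mv 1098 (cons (fin 1099 1 1034)
(mv 1034 (cons (fin 1097 1 1033)
(mv 1226 (cons (fin 1162 6 970)
(mv 1102 (cons (fin 1101 0 1034)
(mv 974 (cons (fin 1166 4 974)
(mv 910 (cons (fin 911 6 846)
(mv 845 (cons (fin 909 7 845)
(mv 846 (cons (fin 781 7 781)
(fin 783 6 782))))))))))))))))))))))
(cons (mv 1101 (cons (fin 1100 1 1036)
(mv 971 (cons (fin 972 3 971)
(mv 1035 (cons (fin 970 3 970)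
(mv 1102 (cons (fin 1034 0 1034)
(mv 1166 (cons (fin 974 4 974)
(mv 1230 (cons (fin 1294 7 1037)
(mv 1229 (cons (fin 1293 5 1037)
(mv 1228 (cons (fin 1227 2 1163)
(mv 1292 (cons (fin 1291 1 1227)
(fin 1165 5 1036)))))))))))))))))))
(mv 1099 (cons (fin 1100 1 1035)
(mv 1035 (cons (fin 1098 1 1034)
(mv 971 (cons (fin 970 3 970)
(fin 972 3 971))))))))))))))))
(cons (mv 912 (cons (fin 911 7 847)
(mv 848 (cons (fin 783 7 783)
(mv 849 (cons (fin 913 6 848)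
(fin 785 6 784)))))))
(cons (mv 1100 (cons (fin 1101 1 1036)
(mv 1036 (cons (fin 1099 1 1035)
(mv 848 (cons (cons (mv 971 (cons (fin 972 3 971)
(mv 1035 (cons (fin 970 3 970)
(mv 1228 (cons (fin 1164 7 971)
(mv 907 (cons (fin 843 4 843)
(mv 912 (cons (fin 783 7 783)
(mv 849 (cons (fin 913 6 848)
(fin 785 6 784)))))))))))))
(cons (mv 972 (cons (fin 971 3 971)
(mv 845 (cons (cons (mv 908 (cons (fin 909 6 844)
(mv 907 (cons (fin 843 7 843)
(mv 844 (cons (fin 846 1 843)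
(fin 781 6 780)))))))
(cons (mv 846 (cons (cons (mv 780 (cons (fin 781 3 780)
(mv 844 (cons (fin 779 3 779)
(mv 784 (cons (fin 783 2 780)
(fin 785 2 781)))))))
(mv 784 (cons (fin 785 2 781)
(mv 783 (cons (fin 844 2 780)
(mv 910 (cons (fin 974 6 782)
(mv 849 (cons (fin 909 1 845)
(mv 850 (cons (fin 782 3 782)
(fin 851 3 783))))))))))))
(cons (mv 781 (cons (fin 780 3 780)
(mv 974 (cons (fin 910 7 781)
(mv 849 (cons (fin 782 3 781)
(mv 914 (cons (fin 913 0 846)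
(mv 850 (cons (fin 915 0 847)
(mv 786 (cons (fin 785 2 782)
(fin 787 2 783)))))))))))))
(mv 780 (cons (fin 781 3 780)
(mv 844 (cons (fin 779 3 779)
(mv 783 (cons (fin 784 2 780)
(mv 910 (cons (fin 974 6 782)
(mv 909 (cons (fin 849 1 845)
(mv 843 (cons (fin 842 0 842)
(fin 782 2 779))))))))))))))))
(mv 846 (cons (cons (mv 780 (cons (fin 781 3 780)
(mv 844 (cons (fin 779 3 779)
(mv 784 (cons (fin 783 2 780)
(fin 785 2 781)))))))
(cons (mv 784 (cons (fin 785 2 781)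
(mv 844 (cons (fin 783 2 780)
(mv 907 (cons (fin 908 1 843)
(mv 843 (cons (fin 906 1 842)
(mv 779 (cons (fin 778 3 778)
(fin 780 3 779)))))))))))
(mv 781 (cons (fin 780 3 780)
(mv 974 (cons (fin 910 7 781)
(mv 908 (cons (fin 844 6 780)
(mv 849 (cons (fin 782 3 781)
(mv 914 (cons (fin 913 0 846)
(mv 850 (cons (fin 915 0 847)
(mv 786 (cons (fin 785 2 782)
(fin 787 2 783)))))))))))))))))
(cons (mv 784 (cons (fin 785 2 781)
(mv 844 (cons (fin 783 2 780)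
(mv 908 (cons (fin 907 1 843)
(fin 781 6 780)))))))
(cons (mv 780 (cons (fin 781 3 780)
(mv 844 (cons (fin 779 3 779)
(mv 907 (cons (fin 908 1 843)
(mv 843 (cons (fin 906 1 842)
(mv 783 (cons (fin 782 2 779)
(fin 784 2 780)))))))))))
(mv 781 (cons (fin 780 3 780)
(mv 974 (cons (fin 910 7 781)
(mv 849 (cons (fin 782 3 781)
(mv 785 (cons (fin 784 2 781)
(fin 786 2 782)))))))))))))))
(cons (mv 908 (cons (fin 909 6 844)
(mv 843 (cons (fin 907 7 843)
(mv 844 (cons (fin 779 7 779)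
(fin 781 6 780)))))))
(cons (mv 908 (cons (fin 909 6 844)
(mv 907 (cons (fin 843 7 843)
(mv 846 (cons (fin 844 1 843)
(mv 849 (cons (cons (mv 785 (cons (fin 784 2 781)
(fin 786 2 782)))
(mv 914 (cons (fin 913 0 846)
(mv 850 (cons (fin 915 0 847)
(mv 851 (cons (mv 783 (cons (fin 782 3 782)
(fin 784 3 783)))
(mv 787 (cons (fin 786 2 783)
(fin 788 2 784))))))))))
(cons (mv 914 (cons (fin 913 0 846)
(mv 850 (cons (fin 915 0 847)
(mv 783 (cons (fin 782 3 782)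
(mv 784 (cons (fin 851 3 783)
(fin 785 2 781)))))))))
(mv 914 (cons (fin 913 0 846)
(mv 850 (cons (fin 915 0 847)
(mv 786 (cons (fin 785 2 782)
(fin 787 2 783))))))))))))))))
(mv 909 (cons (fin 908 6 844)
(mv 846 (cons (cons (mv 910 (cons (fin 849 1 845)
(mv 974 (cons (fin 1102 7 845)
(fin 781 7 781)))))
(mv 781 (cons (fin 780 3 780)
(mv 784 (cons (fin 785 2 781)
(mv 717 (cons (mv 910 (cons (fin 974 7 781)
(fin 653 4 653)))
(mv 716 (cons (fin 652 7 652)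
(mv 783 (cons (fin 782 3 716)
(mv 718 (cons (fin 719 0 716)
(fin 654 6 653))))))))))))))
(cons (mv 781 (cons (fin 780 3 780)
(mv 849 (cons (fin 782 3 781)
(mv 785 (cons (fin 784 2 781)
(fin 786 2 782)))))))
(mv 910 (cons (fin 849 1 845)
(mv 974 (cons (fin 1102 7 845)
(fin 783 6 782))))))))))))))))
(mv 912 (cons (fin 783 7 783)
(mv 849 (cons (fin 913 6 848)
(fin 785 6 784)))))))
(cons (mv 972 (cons (fin 971 3 971)
(mv 849 (cons (cons (mv 912 (cons (fin 913 6 848)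
(fin 785 6 784)))
(mv 846 (cons (cons (mv 909 (cons (fin 910 1 845)
(mv 908 (cons (fin 845 1 844)
(mv 907 (cons (fin 843 7 843)
(mv 914 (cons (fin 913 0 846)
(mv 850 (cons (fin 915 0 847)
(mv 786 (cons (fin 785 2 782)
(fin 787 2 783)))))))))))))
(mv 913 (cons (fin 914 0 846)
(mv 781 (cons (fin 782 3 781)
(mv 845 (cons (fin 780 3 780)
(mv 785 (cons (fin 784 2 781)
(fin 786 2 782))))))))))
(cons (mv 909 (cons (fin 910 1 845)
(mv 913 (cons (fin 914 0 846)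
(mv 845 (cons (fin 908 1 844)
(mv 781 (cons (fin 780 3 780)
(fin 782 3 781)))))))))
(cons (mv 909 (cons (fin 910 1 845)
(mv 845 (cons (fin 908 1 844)
(mv 781 (cons (fin 780 3 780)
(fin 782 3 781)))))))
(mv 909 (cons (fin 910 1 845)
(mv 914 (cons (fin 913 0 846)
(mv 850 (cons (fin 915 0 847)
(mv 786 (cons (fin 785 2 782)
(fin 787 2 783))))))))))))))
(cons (mv 913 (cons (fin 912 6 848)
(mv 914 (cons (fin 846 0 846)
(mv 915 (cons (fin 916 3 848)
(fin 850 0 847)))))))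
(mv 785 (cons (fin 912 6 784)
(mv 846 (cons (fin 786 2 782)
(mv 909 (cons (fin 910 1 845)
(mv 845 (cons (fin 908 1 844)
(fin 784 2 781))))))))))))))
(cons (mv 783 (cons (fin 912 7 783)
(mv 781 (cons (cons (mv 972 (cons (fin 971 3 971)
(mv 780 (cons (fin 782 0 780)
(mv 845 (cons (fin 846 3 780)
(mv 908 (cons (fin 909 6 844)
(fin 844 6 780)))))))))
(cons (mv 972 (cons (fin 971 3 971)
(mv 845 (cons (mv 908 (cons (fin 909 6 844)
(fin 844 6 780)))
(cons (mv 784 (cons (cons (mv 844 (cons (fin 782 1 780)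
(fin 846 2 780)))
(mv 782 (cons (fin 844 1 780)
(mv 717 (cons (fin 716 3 716)
(mv 785 (cons (fin 718 3 717)
(mv 721 (cons (fin 720 2 717)
(fin 722 2 718))))))))))
(cons (mv 846 (cons (fin 785 2 781)
(mv 910 (cons (fin 974 7 781)
(mv 717 (cons (fin 653 4 653)
(mv 716 (cons (fin 782 3 716)
(mv 719 (cons (fin 718 0 716)
(fin 655 5 654)))))))))))
(mv 846 (cons (fin 844 2 780)
(fin 785 2 781))))))
(mv 909 (cons (fin 908 6 844)
(mv 717 (cons (cons (mv 974 (cons (fin 910 4 717)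
(mv 716 (cons (fin 652 7 652)
(mv 782 (cons (fin 784 3 716)
(mv 715 (cons (fin 714 0 714)
(fin 718 0 715)))))))))
(mv 716 (cons (fin 652 7 652)
(mv 782 (cons (fin 784 3 716)
(mv 715 (cons (fin 714 0 714)
(fin 718 0 715))))))))
(cons (mv 910 (cons (fin 974 4 717)
(mv 653 (cons (fin 846 4 653)
(mv 654 (cons (fin 718 6 653)
(fin 590 6 589)))))))
(mv 910 (cons (fin 974 4 717)
(mv 846 (cons (fin 653 4 653)
(mv 784 (cons (fin 785 2 781)
(mv 716 (cons (fin 782 3 716)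
(fin 652 7 652)))))))))))))))))))
(mv 782 (cons (fin 780 0 780)
(mv 784 (cons (cons (mv 844 (cons (fin 845 1 780)
(mv 716 (cons (fin 717 3 716)
(mv 721 (cons (fin 720 2 717)
(mv 785 (cons (fin 722 2 718)
(mv 786 (cons (fin 846 1 782)
(fin 787 1 783)))))))))))
(mv 716 (cons (fin 717 3 716)
(mv 721 (cons (fin 720 2 717)
(mv 785 (cons (fin 722 2 718)
(mv 786 (cons (fin 846 1 782)
(fin 787 1 783))))))))))
(cons (mv 844 (cons (fin 845 1 780)
(mv 721 (cons (fin 720 2 717)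
(mv 785 (cons (fin 722 2 718)
(mv 786 (cons (fin 846 1 782)
(fin 787 1 783)))))))))
(cons (mv 844 (cons (fin 845 1 780)
(mv 717 (cons (fin 716 3 716)
(mv 785 (cons (fin 718 3 717)
(mv 786 (cons (fin 846 1 782)
(fin 787 1 783)))))))))
(mv 717 (cons (fin 716 3 716)
(mv 720 (cons (fin 721 2 717)
(mv 656 (cons (fin 592 5 591)
(mv 655 (cons (fin 591 7 591)
(mv 657 (cons (fin 593 6 592)
(mv 718 (cons (fin 654 1 653)
(fin 719 2 653)))))))))))))))))))))
(cons (mv 972 (cons (fin 971 3 971)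
(mv 845 (cons (mv 908 (cons (fin 909 6 844)
(fin 844 6 780)))
(cons (mv 846 (cons (fin 780 3 780)
(mv 784 (cons (fin 844 2 780)
(fin 785 2 781)))))
(mv 909 (cons (fin 908 6 844)
(mv 846 (cons (fin 780 3 780)
(mv 784 (cons (fin 785 2 781)
(mv 717 (cons (mv 910 (cons (fin 974 7 781)
(fin 653 4 653)))
(mv 716 (cons (fin 652 7 652)
(mv 718 (cons (fin 719 0 716)
(fin 654 6 653))))))))))))))))))
(cons (mv 972 (cons (fin 971 3 971)
(mv 1164 (cons (cons (mv 1227 (cons (fin 1163 5 971)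
(mv 1228 (cons (fin 1291 5 1035)
(mv 1229 (cons (fin 1293 4 1036)
(fin 1165 4 972)))))))
(mv 844 (cons (mv 1227 (cons (fin 1163 5 971)
(mv 1291 (cons (fin 1228 5 1035)
(mv 908 (cons (fin 845 6 780)
(mv 843 (cons (fin 907 7 843)
(fin 779 7 779)))))))))
(cons (mv 782 (cons (fin 780 0 780)
(mv 784 (cons (fin 845 1 780)
(mv 717 (cons (fin 716 3 716)
(mv 785 (cons (fin 718 3 717)
(mv 721 (cons (fin 720 2 717)
(fin 722 2 718)))))))))))
(mv 1227 (cons (fin 1163 5 971)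
(mv 1291 (cons (fin 1228 5 1035)
(mv 780 (cons (fin 782 0 780)
(mv 908 (cons (fin 717 6 716)
(mv 843 (cons (fin 907 7 843)
(fin 779 7 779)))))))))))))))
(cons (mv 844 (cons (mv 1229 (cons (fin 1165 4 972)
(mv 1293 (cons (fin 1228 4 1036)
(mv 908 (cons (fin 845 6 780)
(mv 843 (cons (fin 907 7 843)
(fin 779 7 779)))))))))
(cons (mv 782 (cons (fin 780 0 780)
(mv 784 (cons (fin 845 1 780)
(mv 717 (cons (fin 716 3 716)
(mv 785 (cons (fin 718 3 717)
(mv 721 (cons (fin 720 2 717)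
(fin 722 2 718)))))))))))
(mv 1229 (cons (fin 1165 4 972)
(mv 1293 (cons (fin 1228 4 1036)
(mv 780 (cons (fin 782 0 780)
(mv 908 (cons (fin 717 6 716)
(mv 843 (cons (fin 907 7 843)
(fin 779 7 779))))))))))))))
(mv 844 (cons (mv 1227 (cons (fin 1163 5 971)
(mv 1229 (cons (fin 1165 4 972)
(mv 908 (cons (fin 845 6 780)
(mv 843 (cons (fin 907 7 843)
(fin 779 7 779)))))))))
(cons (mv 782 (cons (fin 780 0 780)
(mv 784 (cons (fin 845 1 780)
(mv 717 (cons (fin 716 3 716)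
(mv 785 (cons (fin 718 3 717)
(mv 721 (cons (fin 720 2 717)
(fin 722 2 718)))))))))))
(mv 1227 (cons (fin 1163 5 971)
(mv 1229 (cons (fin 1165 4 972)
(mv 780 (cons (fin 782 0 780)
(mv 908 (cons (fin 717 6 716)
(mv 843 (cons (fin 907 7 843)
(fin 779 7 779)))))))))))))))))))
(mv 782 (cons (fin 780 0 780)
(mv 784 (cons (cons (mv 971 (cons (fin 972 3 971)
(mv 1035 (cons (fin 970 3 970)
(mv 1228 (cons (fin 1164 7 971)
(mv 717 (cons (fin 716 3 716)
(mv 785 (cons (fin 718 3 717)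
(mv 786 (cons (fin 846 1 782)
(fin 787 1 783)))))))))))))
(mv 971 (cons (fin 972 3 971)
(mv 1035 (cons (fin 970 3 970)
(mv 1228 (cons (fin 1164 7 971)
(mv 721 (cons (fin 720 2 717)
(mv 785 (cons (fin 722 2 718)
(mv 786 (cons (fin 846 1 782)
(fin 787 1 783))))))))))))))
(cons (mv 716 (cons (fin 717 3 716)
(mv 721 (cons (fin 720 2 717)
(mv 785 (cons (fin 722 2 718)
(mv 786 (cons (fin 846 1 782)
(fin 787 1 783)))))))))
(mv 717 (cons (fin 716 3 716)
(mv 720 (cons (fin 721 2 717)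
(mv 656 (cons (fin 592 5 591)
(mv 655 (cons (fin 591 7 591)
(mv 657 (cons (fin 593 6 592)
(mv 718 (cons (fin 654 1 653)
(fin 719 2 653))))))))))))))))))))))))
(mv 972 (cons (fin 971 3 971)
(mv 912 (cons (fin 783 7 783)
(mv 913 (cons (fin 849 6 848)
(mv 914 (cons (fin 915 3 847)
(mv 845 (cons (fin 846 0 845)
(mv 908 (cons (fin 909 6 844)
(mv 843 (cons (fin 907 7 843)
(mv 844 (cons (fin 779 7 779)
(fin 781 6 780)))))))))))))))))))))))))
(mv 1101 (cons (fin 1100 1 1036)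
(mv 910 (cons (mv 974 (cons (fin 846 5 845)
(mv 1165 (cons (fin 1102 5 909)
(fin 1229 6 973)))))
(cons (mv 1168 (cons (cons (mv 1231 (cons (fin 1167 5 975)
(mv 1232 (cons (fin 1295 5 1039)
(mv 1233 (cons (fin 1297 4 1040)
(fin 1169 4 976)))))))
(mv 1233 (cons (fin 1169 4 976)
(mv 1297 (cons (fin 1232 4 1040)
(mv 849 (cons (cons (mv 912 (cons (fin 911 7 847)
(fin 913 6 848)))
(mv 848 (cons (mv 909 (cons (fin 846 1 845)
(mv 911 (cons (fin 850 1 846)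
(fin 908 2 844)))))
(cons (mv 850 (cons (fin 911 1 846)
(mv 915 (cons (fin 914 0 847)
(mv 851 (cons (fin 916 0 848)
(mv 787 (cons (fin 786 2 783)
(fin 788 2 784)))))))))
(mv 846 (cons (fin 909 1 845)
(mv 913 (cons (fin 914 0 846)
(mv 781 (cons (fin 782 3 781)
(mv 845 (cons (fin 780 3 780)
(mv 785 (cons (fin 784 2 781)
(fin 786 2 782)))))))))))))))
(cons (mv 848 (cons (cons (mv 912 (cons (fin 913 6 848)
(fin 785 6 784)))
(mv 846 (cons (fin 909 1 845)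
(mv 913 (cons (fin 914 0 846)
(mv 781 (cons (fin 782 3 781)
(mv 845 (cons (fin 780 3 780)
(mv 785 (cons (fin 784 2 781)
(fin 786 2 782))))))))))))
(cons (mv 913 (cons (fin 912 6 848)
(mv 846 (cons (fin 909 1 845)
(fin 914 0 846)))))
(mv 846 (cons (fin 909 1 845)
(mv 785 (cons (fin 786 2 782)
(fin 912 6 784))))))))
(mv 911 (cons (fin 912 7 847)
(mv 848 (cons (fin 850 1 846)
(mv 909 (cons (fin 846 1 845)
(fin 908 2 844)))))))))))))))
(cons (mv 1231 (cons (fin 1167 5 975)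
(mv 1295 (cons (fin 1232 5 1039)
(mv 849 (cons (cons (mv 912 (cons (fin 911 7 847)
(fin 913 6 848)))
(mv 848 (cons (mv 909 (cons (fin 846 1 845)
(mv 911 (cons (fin 850 1 846)
(fin 908 2 844)))))
(cons (mv 850 (cons (fin 911 1 846)
(mv 915 (cons (fin 914 0 847)
(mv 851 (cons (fin 916 0 848)
(mv 787 (cons (fin 786 2 783)
(fin 788 2 784)))))))))
(mv 846 (cons (fin 909 1 845)
(mv 913 (cons (fin 914 0 846)
(mv 781 (cons (fin 782 3 781)
(mv 845 (cons (fin 780 3 780)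
(mv 785 (cons (fin 784 2 781)
(fin 786 2 782)))))))))))))))
(cons (mv 848 (cons (cons (mv 912 (cons (fin 913 6 848)
(fin 785 6 784)))
(mv 846 (cons (fin 909 1 845)
(mv 913 (cons (fin 914 0 846)
(mv 781 (cons (fin 782 3 781)
(mv 845 (cons (fin 780 3 780)
(mv 785 (cons (fin 784 2 781)
(fin 786 2 782))))))))))))
(cons (mv 913 (cons (fin 912 6 848)
(mv 846 (cons (fin 909 1 845)
(fin 914 0 846)))))
(mv 846 (cons (fin 909 1 845)
(mv 785 (cons (fin 786 2 782)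
(fin 912 6 784))))))))
(mv 911 (cons (fin 912 7 847)
(mv 848 (cons (fin 850 1 846)
(mv 909 (cons (fin 846 1 845)
(fin 908 2 844))))))))))))))
(mv 1231 (cons (fin 1167 5 975)
(mv 1233 (cons (fin 1169 4 976)
(mv 849 (cons (cons (mv 912 (cons (fin 911 7 847)
(fin 913 6 848)))
(mv 848 (cons (mv 909 (cons (fin 846 1 845)
(mv 911 (cons (fin 850 1 846)
(fin 908 2 844)))))
(cons (mv 850 (cons (fin 911 1 846)
(mv 915 (cons (fin 914 0 847)
(mv 851 (cons (fin 916 0 848)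
(mv 787 (cons (fin 786 2 783)
(fin 788 2 784)))))))))
(mv 846 (cons (fin 909 1 845)
(mv 913 (cons (fin 914 0 846)
(mv 781 (cons (fin 782 3 781)
(mv 845 (cons (fin 780 3 780)
(mv 785 (cons (fin 784 2 781)
(fin 786 2 782)))))))))))))))
(cons (mv 848 (cons (cons (mv 912 (cons (fin 913 6 848)
(fin 785 6 784)))
(mv 846 (cons (fin 909 1 845)
(mv 913 (cons (fin 914 0 846)
(mv 781 (cons (fin 782 3 781)
(mv 845 (cons (fin 780 3 780)
(mv 785 (cons (fin 784 2 781)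
(fin 786 2 782))))))))))))
(cons (mv 913 (cons (fin 912 6 848)
(mv 846 (cons (fin 909 1 845)
(fin 914 0 846)))))
(mv 846 (cons (fin 909 1 845)
(mv 785 (cons (fin 786 2 782)
(fin 912 6 784))))))))
(mv 911 (cons (fin 912 7 847)
(mv 848 (cons (fin 850 1 846)
(mv 909 (cons (fin 846 1 845)
(fin 908 2 844)))))))))))))))))
(mv 911 (cons (fin 912 7 847)
(mv 1229 (cons (cons (mv 974 (cons (fin 1165 6 973)
(fin 1102 6 846)))
(mv 1165 (cons (mv 1292 (cons (fin 1228 5 1036)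
(mv 1293 (cons (fin 1356 5 1100)
(fin 1102 6 1037)))))
(cons (mv 1228 (cons (fin 1292 5 1036)
(mv 1230 (cons (fin 1294 4 1037)
(mv 1036 (cons (fin 972 7 972)
(mv 1231 (cons (mv 1164 (cons (fin 1163 3 1163)
(fin 1232 3 1164)))
(cons (mv 1295 (cons (fin 1296 0 1228)
(mv 1168 (cons (fin 1167 2 1164)
(fin 1232 5 1039)))))
(mv 1295 (cons (fin 1296 0 1228)
(mv 1163 (cons (fin 1164 3 1163)
(mv 1227 (cons (fin 1162 3 1162)
(mv 1166 (cons (fin 1226 2 1162)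
(fin 1167 2 1163))))))))))))))))))
(mv 1293 (cons (fin 1102 6 1037)
(mv 1294 (cons (fin 1358 4 1101)
(fin 1230 4 1037)))))))))
(cons (mv 1102 (cons (fin 974 6 846)
(mv 1168 (cons (cons (mv 1231 (cons (fin 1167 5 975)
(mv 1295 (cons (fin 1232 5 1039)
(mv 1230 (cons (fin 1166 4 1038)
(mv 1296 (cons (fin 1228 0 1228)
(mv 1297 (cons (fin 1294 3 1229)
(fin 1298 3 1230)))))))))))
(mv 1169 (cons (fin 1233 4 976)
(mv 1166 (cons (fin 1167 3 1101)
(mv 1230 (cons (fin 1293 5 1037)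
(fin 1294 7 1037))))))))
(cons (mv 1232 (cons (mv 1233 (cons (fin 1297 4 1040)
(fin 1169 4 976)))
(cons (mv 1295 (cons (fin 1231 5 1039)
(mv 1296 (cons (fin 1359 5 1103)
(mv 1297 (cons (fin 1361 4 1104)
(mv 1294 (cons (fin 1230 3 1229)
(mv 1357 (cons (fin 1358 1 1293)
(mv 1293 (cons (fin 1356 1 1292)
(fin 1228 3 1228)))))))))))))
(mv 1231 (cons (fin 1295 5 1039)
(mv 1169 (cons (fin 1230 2 1165)
(fin 1233 4 976))))))))
(mv 1231 (cons (fin 1167 5 975)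
(mv 1232 (cons (fin 1295 5 1039)
(mv 1233 (cons (fin 1297 4 1040)
(fin 1169 4 976))))))))))))
(mv 1165 (cons (fin 974 6 973)
(mv 1292 (cons (fin 1228 5 1036)
(mv 1293 (cons (fin 1356 5 1100)
(mv 1294 (cons (fin 1358 4 1101)
(fin 1230 4 1037)))))))))))))))))))))))))))
(mv 1038 (cons (fin 1105 0 1037)
(mv 1036 (cons (cons (mv 1100 (cons (fin 1099 1 1035)
(fin 1101 1 1036)))
(mv 971 (cons (fin 972 3 971)
(mv 1035 (cons (fin 970 3 970)
(mv 975 (cons (fin 974 2 971)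
(mv 1232 (cons (fin 1168 7 975)
(mv 1230 (cons (cons (mv 1098 (cons (fin 1099 1 1034)
(mv 1102 (cons (fin 1166 6 974)
(mv 1034 (cons (fin 1097 1 1033)
(fin 1101 0 1034)))))))
(cons (mv 1231 (cons (cons (cons (mv 1098 (cons (fin 1099 1 1034)
(mv 1097 (cons (fin 1034 1 1033)
(mv 911 (cons (fin 847 4 847)
(mv 1233 (cons (cons (mv 1293 (cons (fin 1294 1 1229)
(mv 1297 (cons (fin 1298 0 1230)
(mv 1229 (cons (fin 1292 1 1228)
(fin 1296 0 1229)))))))
(mv 1297 (cons (fin 1298 0 1230)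
(mv 1229 (cons (fin 1296 0 1229)
(mv 1165 (cons (fin 1164 3 1164)
(fin 1166 3 1165))))))))
(cons (mv 1293 (cons (fin 1294 1 1229)
(mv 1229 (cons (fin 1292 1 1228)
(mv 1165 (cons (fin 1164 3 1164)
(fin 1166 3 1165)))))))
(mv 1293 (cons (fin 1294 1 1229)
(mv 1298 (cons (fin 1297 0 1230)
(mv 1234 (cons (fin 1299 0 1231)
(mv 1166 (cons (fin 1165 3 1165)
(fin 1167 3 1166))))))))))))))))))
(mv 911 (cons (fin 847 4 847)
(mv 1233 (cons (cons (mv 1293 (cons (fin 1294 1 1229)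
(mv 1292 (cons (fin 1229 1 1228)
(mv 1297 (cons (fin 1298 0 1230)
(mv 1166 (cons (fin 1165 3 1165)
(mv 1234 (cons (fin 1167 3 1166)
(mv 1170 (cons (fin 1169 2 1166)
(fin 1171 2 1167)))))))))))))
(cons (mv 1297 (cons (fin 1298 0 1230)
(mv 1296 (cons (fin 1229 0 1229)
(mv 1165 (cons (fin 1166 3 1165)
(mv 1170 (cons (fin 1169 2 1166)
(mv 1234 (cons (fin 1171 2 1167)
(mv 1235 (cons (fin 1295 1 1231)
(fin 1236 1 1232)))))))))))))
(mv 1293 (cons (fin 1294 1 1229)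
(mv 1292 (cons (fin 1229 1 1228)
(mv 1166 (cons (fin 1165 3 1165)
(mv 1234 (cons (fin 1167 3 1166)
(mv 1170 (cons (fin 1169 2 1166)
(fin 1171 2 1167)))))))))))))
(cons (cons (mv 1293 (cons (fin 1294 1 1229)
(mv 1292 (cons (fin 1229 1 1228)
(mv 1298 (cons (fin 1297 0 1230)
(mv 1234 (cons (fin 1299 0 1231)
(mv 1170 (cons (fin 1169 2 1166)
(fin 1171 2 1167)))))))))))
(mv 1293 (cons (fin 1294 1 1229)
(mv 1292 (cons (fin 1229 1 1228)
(mv 1298 (cons (fin 1297 0 1230)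
(mv 1234 (cons (fin 1299 0 1231)
(mv 1166 (cons (fin 1165 3 1165)
(fin 1167 3 1166))))))))))))
(cons (mv 1293 (cons (fin 1294 1 1229)
(mv 1297 (cons (fin 1298 0 1230)
(mv 1229 (cons (fin 1292 1 1228)
(fin 1296 0 1229)))))))
(mv 1293 (cons (fin 1294 1 1229)
(mv 1297 (cons (fin 1298 0 1230)
(mv 1166 (cons (fin 1165 3 1165)
(mv 1234 (cons (fin 1167 3 1166)
(mv 1170 (cons (fin 1169 2 1166)
(fin 1171 2 1167))))))))))))))))))
(cons (mv 1098 (cons (fin 1099 1 1034)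
(mv 1097 (cons (fin 1034 1 1033)
(mv 1233 (cons (cons (mv 1293 (cons (fin 1294 1 1229)
(mv 1292 (cons (fin 1229 1 1228)
(mv 1298 (cons (fin 1297 0 1230)
(mv 1234 (cons (fin 1299 0 1231)
(mv 1166 (cons (fin 1165 3 1165)
(fin 1167 3 1166)))))))))))
(cons (mv 1297 (cons (fin 1298 0 1230)
(mv 1296 (cons (fin 1229 0 1229)
(mv 1166 (cons (fin 1165 3 1165)
(mv 1234 (cons (fin 1167 3 1166)
(mv 1235 (cons (fin 1295 1 1231)
(fin 1236 1 1232)))))))))))
(mv 1293 (cons (fin 1294 1 1229)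
(mv 1292 (cons (fin 1229 1 1228)
(mv 1298 (cons (fin 1297 0 1230)
(mv 1234 (cons (fin 1299 0 1231)
(mv 1170 (cons (fin 1169 2 1166)
(fin 1171 2 1167)))))))))))))
(cons (mv 1293 (cons (fin 1294 1 1229)
(mv 1292 (cons (fin 1229 1 1228)
(mv 1166 (cons (fin 1165 3 1165)
(mv 1234 (cons (fin 1167 3 1166)
(mv 1170 (cons (fin 1169 2 1166)
(fin 1171 2 1167)))))))))))
(cons (mv 1293 (cons (fin 1294 1 1229)
(mv 1297 (cons (fin 1298 0 1230)
(mv 1229 (cons (fin 1292 1 1228)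
(fin 1296 0 1229)))))))
(mv 1293 (cons (fin 1294 1 1229)
(mv 1297 (cons (fin 1298 0 1230)
(mv 1166 (cons (fin 1165 3 1165)
(mv 1234 (cons (fin 1167 3 1166)
(mv 1170 (cons (fin 1169 2 1166)
(fin 1171 2 1167)))))))))))))))))))
(mv 1098 (cons (fin 1099 1 1034)
(mv 1229 (cons (cons (mv 1292 (cons (fin 1293 1 1228)
(mv 1296 (cons (fin 1297 0 1229)
(mv 1228 (cons (fin 1291 1 1227)
(fin 1295 0 1228)))))))
(mv 1292 (cons (fin 1293 1 1228)
(mv 1228 (cons (fin 1291 1 1227)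
(mv 1164 (cons (fin 1163 3 1163)
(fin 1165 3 1164))))))))
(cons (mv 1296 (cons (fin 1297 0 1229)
(mv 1228 (cons (fin 1295 0 1228)
(mv 1164 (cons (fin 1163 3 1163)
(fin 1165 3 1164)))))))
(mv 1293 (cons (fin 1292 1 1228)
(mv 1296 (cons (fin 1297 0 1229)
(mv 1165 (cons (fin 1164 3 1164)
(mv 1294 (cons (fin 1101 4 1037)
(mv 1357 (cons (mv 1421 (cons (fin 1485 6 1229)
(fin 1166 6 1165)))
(mv 1356 (cons (fin 1295 1 1292)
(fin 1420 5 1164))))))))))))))))))))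
(cons (cons (mv 1233 (cons (cons (mv 1293 (cons (fin 1294 1 1229)
(mv 1297 (cons (fin 1298 0 1230)
(mv 1166 (cons (fin 1165 3 1165)
(mv 1234 (cons (fin 1167 3 1166)
(mv 1170 (cons (fin 1169 2 1166)
(fin 1171 2 1167)))))))))))
(cons (mv 1297 (cons (fin 1298 0 1230)
(mv 1166 (cons (fin 1165 3 1165)
(mv 1234 (cons (fin 1167 3 1166)
(mv 1170 (cons (fin 1169 2 1166)
(fin 1171 2 1167)))))))))
(mv 1293 (cons (fin 1294 1 1229)
(mv 1166 (cons (fin 1165 3 1165)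
(mv 1234 (cons (fin 1167 3 1166)
(mv 1170 (cons (fin 1169 2 1166)
(fin 1171 2 1167)))))))))))
(cons (mv 1293 (cons (fin 1294 1 1229)
(mv 1298 (cons (fin 1297 0 1230)
(mv 1234 (cons (fin 1299 0 1231)
(mv 1170 (cons (fin 1169 2 1166)
(fin 1171 2 1167)))))))))
(cons (mv 1293 (cons (fin 1294 1 1229)
(mv 1298 (cons (fin 1297 0 1230)
(mv 1234 (cons (fin 1299 0 1231)
(mv 1166 (cons (fin 1165 3 1165)
(fin 1167 3 1166)))))))))
(mv 1294 (cons (fin 1293 1 1229)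
(mv 1297 (cons (fin 1298 0 1230)
(mv 1166 (cons (fin 1165 3 1165)
(mv 1358 (cons (mv 1421 (cons (fin 1357 5 1165)
(mv 1422 (cons (fin 1485 5 1229)
(fin 1167 6 1166)))))
(cons (mv 1357 (cons (fin 1421 5 1165)
(mv 1359 (cons (fin 1423 4 1166)
(mv 1296 (cons (fin 1295 1 1293)
(fin 1360 2 1293)))))))
(mv 1422 (cons (fin 1167 6 1166)
(mv 1423 (cons (fin 1487 4 1230)
(fin 1359 4 1166))))))))))))))))))
(mv 1098 (cons (fin 1099 1 1034)
(mv 1097 (cons (fin 1034 1 1033)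
(mv 911 (cons (fin 847 4 847)
(mv 1233 (cons (mv 1293 (cons (fin 1294 1 1229)
(mv 1297 (cons (fin 1298 0 1230)
(mv 1229 (cons (fin 1292 1 1228)
(fin 1296 0 1229)))))))
(cons (mv 1298 (cons (fin 1297 0 1230)
(mv 1234 (cons (fin 1299 0 1231)
(mv 1170 (cons (fin 1169 2 1166)
(fin 1171 2 1167)))))))
(mv 1294 (cons (fin 1293 1 1229)
(mv 1234 (cons (fin 1295 1 1230)
(mv 1170 (cons (fin 1169 2 1166)
(fin 1171 2 1167)))))))))))))))))
(cons (mv 1098 (cons (fin 1099 1 1034)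
(mv 1097 (cons (fin 1034 1 1033)
(mv 911 (cons (fin 847 4 847)
(mv 1233 (cons (mv 1297 (cons (fin 1298 0 1230)
(mv 1229 (cons (fin 1296 0 1229)
(mv 1165 (cons (fin 1164 3 1164)
(fin 1166 3 1165)))))))
(cons (mv 1298 (cons (fin 1297 0 1230)
(mv 1234 (cons (fin 1299 0 1231)
(mv 1170 (cons (fin 1169 2 1166)
(fin 1171 2 1167)))))))
(mv 1166 (cons (fin 1165 3 1165)
(mv 1234 (cons (fin 1167 3 1166)
(mv 1170 (cons (fin 1169 2 1166)
(fin 1171 2 1167))))))))))))))))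
(mv 1098 (cons (fin 1099 1 1034)
(mv 1097 (cons (fin 1034 1 1033)
(mv 911 (cons (fin 847 4 847)
(mv 1233 (cons (cons (mv 1293 (cons (fin 1294 1 1229)
(mv 1229 (cons (fin 1292 1 1228)
(mv 1165 (cons (fin 1164 3 1164)
(fin 1166 3 1165)))))))
(mv 1165 (cons (fin 1166 3 1165)
(mv 1229 (cons (fin 1164 3 1164)
(mv 1292 (cons (fin 1293 1 1228)
(mv 1228 (cons (fin 1291 1 1227)
(fin 1101 5 1036))))))))))
(cons (mv 1294 (cons (fin 1293 1 1229)
(mv 1234 (cons (fin 1295 1 1230)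
(mv 1170 (cons (fin 1169 2 1166)
(fin 1171 2 1167)))))))
(mv 1166 (cons (fin 1165 3 1165)
(mv 1234 (cons (fin 1167 3 1166)
(mv 1170 (cons (fin 1169 2 1166)
(fin 1171 2 1167))))))))))))))))))))
(mv 1102 (cons (fin 1166 6 974)
(mv 1101 (cons (fin 1034 0 1034)
(mv 911 (cons (fin 847 5 846)
(mv 1229 (cons (cons (mv 1165 (cons (fin 1294 4 1037)
(fin 1293 6 1037)))
(mv 1231 (cons (cons (mv 1292 (cons (fin 1293 1 1228)
(mv 1296 (cons (fin 1297 0 1229)
(mv 1228 (cons (fin 1291 1 1227)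
(fin 1295 0 1228)))))))
(mv 1292 (cons (fin 1293 1 1228)
(mv 1228 (cons (fin 1291 1 1227)
(mv 1163 (cons (fin 1164 3 1163)
(mv 1227 (cons (fin 1162 3 1162)
(fin 1099 4 1035))))))))))
(cons (mv 1296 (cons (fin 1297 0 1229)
(mv 1228 (cons (fin 1295 0 1228)
(mv 1227 (cons (mv 1291 (cons (fin 1290 1 1226)
(fin 1292 1 1227)))
(mv 1163 (cons (fin 1162 3 1162)
(fin 1164 3 1163)))))))))
(mv 1297 (cons (fin 1296 0 1229)
(mv 1233 (cons (fin 1298 0 1230)
(mv 1234 (cons (mv 1294 (cons (fin 1293 1 1229)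
(fin 1295 1 1230)))
(mv 1170 (cons (fin 1169 2 1166)
(fin 1171 2 1167)))))))))))))
(cons (mv 1165 (cons (fin 1294 4 1037)
(mv 1228 (cons (fin 1292 5 1036)
(mv 1231 (cons (fin 1164 3 1164)
(mv 1296 (cons (fin 1295 0 1228)
(fin 1297 0 1229)))))))))
(mv 1165 (cons (fin 1293 6 1037)
(mv 1228 (cons (fin 1292 5 1036)
(mv 1231 (cons (fin 1164 3 1164)
(mv 1296 (cons (fin 1295 0 1228)
(fin 1297 0 1229))))))))))))))))))))
(cons (cons (mv 1102 (cons (fin 1166 6 974)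
(mv 1101 (cons (fin 1034 0 1034)
(mv 911 (cons (fin 847 5 846)
(mv 1229 (cons (cons (mv 1165 (cons (fin 1294 4 1037)
(fin 1293 6 1037)))
(mv 1231 (cons (cons (mv 1292 (cons (fin 1293 1 1228)
(mv 1296 (cons (fin 1297 0 1229)
(mv 1228 (cons (fin 1291 1 1227)
(fin 1295 0 1228)))))))
(mv 1293 (cons (fin 1292 1 1228)
(mv 1233 (cons (fin 1294 1 1229)
(mv 1234 (cons (mv 1298 (cons (fin 1297 0 1230)
(fin 1299 0 1231)))
(mv 1170 (cons (fin 1169 2 1166)
(fin 1171 2 1167))))))))))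
(cons (mv 1296 (cons (fin 1297 0 1229)
(mv 1228 (cons (fin 1295 0 1228)
(mv 1227 (cons (mv 1291 (cons (fin 1290 1 1226)
(fin 1292 1 1227)))
(mv 1163 (cons (fin 1162 3 1162)
(fin 1164 3 1163)))))))))
(cons (mv 1292 (cons (fin 1293 1 1228)
(mv 1228 (cons (fin 1291 1 1227)
(mv 1227 (cons (mv 1295 (cons (fin 1294 0 1227)
(fin 1296 0 1228)))
(mv 1163 (cons (fin 1162 3 1162)
(fin 1164 3 1163)))))))))
(mv 1297 (cons (fin 1296 0 1229)
(mv 1233 (cons (fin 1298 0 1230)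
(mv 1234 (cons (mv 1294 (cons (fin 1293 1 1229)
(fin 1295 1 1230)))
(mv 1170 (cons (fin 1169 2 1166)
(fin 1171 2 1167))))))))))))))
(cons (mv 1165 (cons (fin 1294 4 1037)
(mv 1228 (cons (fin 1292 5 1036)
(mv 1231 (cons (fin 1164 3 1164)
(mv 1296 (cons (fin 1295 0 1228)
(fin 1297 0 1229)))))))))
(mv 1165 (cons (fin 1293 6 1037)
(mv 1228 (cons (fin 1292 5 1036)
(mv 1231 (cons (fin 1164 3 1164)
(mv 1296 (cons (fin 1295 0 1228)
(fin 1297 0 1229))))))))))))))))))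
(mv 1098 (cons (fin 1099 1 1034)
(mv 1034 (cons (fin 1097 1 1033)
(mv 1162 (cons (fin 1226 6 970)
(mv 1101 (cons (fin 1102 0 1034)
(mv 1229 (cons (cons (mv 1165 (cons (fin 1294 4 1037)
(mv 1164 (cons (fin 1231 3 1164)
(fin 1163 0 1162)))))
(mv 1231 (cons (cons (mv 1292 (cons (fin 1293 1 1228)
(mv 1296 (cons (fin 1297 0 1229)
(mv 1228 (cons (fin 1291 1 1227)
(fin 1295 0 1228)))))))
(mv 1292 (cons (fin 1293 1 1228)
(mv 1228 (cons (fin 1291 1 1227)
(mv 1163 (cons (fin 1227 3 1162)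
(fin 1164 3 1163))))))))
(cons (mv 1296 (cons (fin 1297 0 1229)
(mv 1228 (cons (fin 1295 0 1228)
(mv 1163 (cons (fin 1227 3 1162)
(fin 1164 3 1163)))))))
(mv 1293 (cons (fin 1292 1 1228)
(mv 1297 (cons (fin 1296 0 1229)
(mv 1233 (cons (fin 1294 1 1229)
(fin 1298 0 1230)))))))))))
(cons (mv 907 (cons (fin 843 5 842)
(mv 1165 (cons (mv 1164 (cons (fin 1231 3 1164)
(fin 1163 0 1162)))
(cons (mv 1292 (cons (fin 1228 5 1036)
(mv 1293 (cons (fin 1231 1 1228)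
(fin 1356 5 1100)))))
(mv 1228 (cons (fin 1292 5 1036)
(mv 1163 (cons (fin 1227 3 1162)
(fin 1164 0 1162))))))))))
(cons (mv 1165 (cons (fin 1294 4 1037)
(mv 1228 (cons (fin 1292 5 1036)
(mv 1163 (cons (fin 1227 3 1162)
(fin 1164 0 1162)))))))
(mv 1165 (cons (fin 1294 4 1037)
(mv 1292 (cons (fin 1228 5 1036)
(mv 1293 (cons (fin 1231 1 1228)
(fin 1356 5 1100))))))))))))))))))))
(cons (mv 1098 (cons (fin 1099 1 1034)
(mv 911 (cons (fin 847 4 847)
(mv 1231 (cons (cons (cons (mv 1166 (cons (fin 1102 6 974)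
(mv 1233 (cons (fin 1165 3 1165)
(mv 1293 (cons (fin 1294 1 1229)
(mv 1292 (cons (fin 1229 1 1228)
(mv 1298 (cons (fin 1297 0 1230)
(mv 1234 (cons (fin 1167 3 1166)
(fin 1299 0 1231)))))))))))))
(mv 1229 (cons (cons (mv 1292 (cons (fin 1293 1 1228)
(mv 1296 (cons (fin 1297 0 1229)
(mv 1228 (cons (fin 1291 1 1227)
(fin 1295 0 1228)))))))
(mv 1296 (cons (fin 1297 0 1229)
(mv 1228 (cons (fin 1295 0 1228)
(mv 1164 (cons (fin 1163 3 1163)
(fin 1165 3 1164))))))))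
(cons (mv 1292 (cons (fin 1293 1 1228)
(mv 1228 (cons (fin 1291 1 1227)
(mv 1164 (cons (fin 1163 3 1163)
(fin 1165 3 1164)))))))
(mv 1293 (cons (fin 1292 1 1228)
(mv 1294 (cons (fin 1233 1 1229)
(mv 1165 (cons (fin 1164 3 1164)
(fin 1101 4 1037)))))))))))
(cons (mv 1102 (cons (fin 1166 6 974)
(mv 1229 (cons (cons (mv 1292 (cons (fin 1293 1 1228)
(mv 1296 (cons (fin 1297 0 1229)
(mv 1228 (cons (fin 1291 1 1227)
(fin 1295 0 1228)))))))
(mv 1292 (cons (fin 1293 1 1228)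
(mv 1228 (cons (fin 1291 1 1227)
(mv 1164 (cons (fin 1163 3 1163)
(fin 1165 3 1164))))))))
(cons (mv 1296 (cons (fin 1297 0 1229)
(mv 1295 (cons (fin 1228 0 1228)
(mv 1165 (cons (fin 1164 3 1164)
(mv 1101 (cons (fin 1294 4 1037)
(fin 1293 6 1037)))))))))
(cons (mv 1296 (cons (fin 1297 0 1229)
(mv 1228 (cons (fin 1295 0 1228)
(mv 1164 (cons (fin 1163 3 1163)
(fin 1165 3 1164)))))))
(mv 1293 (cons (fin 1292 1 1228)
(mv 1165 (cons (fin 1164 3 1164)
(fin 1101 6 1037)))))))))))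
(mv 1166 (cons (fin 1102 6 974)
(mv 1233 (cons (fin 1165 3 1165)
(mv 1293 (cons (fin 1294 1 1229)
(mv 1297 (cons (fin 1298 0 1230)
(mv 1234 (cons (fin 1167 3 1166)
(mv 1170 (cons (fin 1169 2 1166)
(fin 1171 2 1167)))))))))))))))
(cons (cons (mv 1166 (cons (fin 1102 6 974)
(mv 1233 (cons (fin 1165 3 1165)
(mv 1297 (cons (fin 1298 0 1230)
(mv 1296 (cons (fin 1229 0 1229)
(mv 1234 (cons (fin 1167 3 1166)
(mv 1295 (cons (fin 1294 1 1230)
(fin 1235 1 1231)))))))))))))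
(mv 1166 (cons (fin 1102 6 974)
(mv 1233 (cons (cons (mv 1293 (cons (fin 1294 1 1229)
(mv 1292 (cons (fin 1229 1 1228)
(mv 1298 (cons (fin 1297 0 1230)
(mv 1234 (cons (fin 1167 3 1166)
(fin 1299 0 1231)))))))))
(mv 1293 (cons (fin 1294 1 1229)
(mv 1297 (cons (fin 1298 0 1230)
(mv 1229 (cons (fin 1292 1 1228)
(fin 1296 0 1229))))))))
(cons (mv 1297 (cons (fin 1298 0 1230)
(mv 1296 (cons (fin 1229 0 1229)
(mv 1234 (cons (fin 1167 3 1166)
(mv 1235 (cons (fin 1295 1 1231)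
(fin 1236 1 1232)))))))))
(cons (mv 1293 (cons (fin 1294 1 1229)
(mv 1292 (cons (fin 1229 1 1228)
(mv 1234 (cons (fin 1167 3 1166)
(mv 1170 (cons (fin 1169 2 1166)
(fin 1171 2 1167)))))))))
(mv 1293 (cons (fin 1294 1 1229)
(mv 1297 (cons (fin 1298 0 1230)
(mv 1234 (cons (fin 1167 3 1166)
(mv 1170 (cons (fin 1169 2 1166)
(fin 1171 2 1167))))))))))))))))
(cons (mv 1166 (cons (fin 1102 6 974)
(mv 1233 (cons (fin 1165 3 1165)
(mv 1293 (cons (fin 1294 1 1229)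
(mv 1292 (cons (fin 1229 1 1228)
(mv 1234 (cons (fin 1167 3 1166)
(mv 1170 (cons (fin 1169 2 1166)
(fin 1171 2 1167)))))))))))))
(mv 1166 (cons (fin 1102 6 974)
(mv 1233 (cons (fin 1165 3 1165)
(mv 1297 (cons (fin 1298 0 1230)
(mv 1296 (cons (fin 1229 0 1229)
(mv 1234 (cons (fin 1167 3 1166)
(mv 1235 (cons (fin 1295 1 1231)
(fin 1236 1 1232)))))))))))))))))))))
(mv 1166 (cons (fin 1102 6 974)
(mv 1099 (cons (fin 1098 1 1034)
(mv 911 (cons (fin 847 4 847)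
(mv 1231 (cons (cons (mv 1233 (cons (fin 1165 3 1165)
(mv 1293 (cons (fin 1294 1 1229)
(mv 1292 (cons (fin 1229 1 1228)
(mv 1298 (cons (fin 1297 0 1230)
(mv 1234 (cons (fin 1167 3 1166)
(fin 1299 0 1231)))))))))))
(cons (mv 1164 (cons (mv 1163 (cons (fin 1165 0 1163)
(fin 1228 4 971)))
(cons (mv 1228 (cons (fin 1163 4 971)
(mv 1229 (cons (mv 1292 (cons (fin 1291 1 1227)
(fin 1293 1 1228)))
(mv 1296 (cons (fin 1295 0 1228)
(fin 1297 0 1229)))))))
(mv 1165 (cons (fin 1229 3 1164)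
(fin 1167 0 1164))))))
(mv 1233 (cons (cons (mv 1293 (cons (fin 1294 1 1229)
(mv 1292 (cons (fin 1229 1 1228)
(mv 1298 (cons (fin 1297 0 1230)
(mv 1234 (cons (fin 1167 3 1166)
(fin 1299 0 1231)))))))))
(mv 1293 (cons (fin 1294 1 1229)
(mv 1297 (cons (fin 1298 0 1230)
(mv 1229 (cons (fin 1292 1 1228)
(fin 1296 0 1229))))))))
(cons (mv 1297 (cons (fin 1298 0 1230)
(mv 1296 (cons (fin 1229 0 1229)
(mv 1234 (cons (fin 1167 3 1166)
(mv 1235 (cons (fin 1295 1 1231)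
(fin 1236 1 1232)))))))))
(cons (mv 1293 (cons (fin 1294 1 1229)
(mv 1292 (cons (fin 1229 1 1228)
(mv 1234 (cons (fin 1167 3 1166)
(mv 1170 (cons (fin 1169 2 1166)
(fin 1171 2 1167)))))))))
(mv 1293 (cons (fin 1294 1 1229)
(mv 1297 (cons (fin 1298 0 1230)
(mv 1234 (cons (fin 1167 3 1166)
(mv 1170 (cons (fin 1169 2 1166)
(fin 1171 2 1167)))))))))))))))
(cons (cons (mv 1233 (cons (fin 1165 3 1165)
(mv 1293 (cons (fin 1294 1 1229)
(mv 1297 (cons (fin 1298 0 1230)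
(mv 1234 (cons (fin 1167 3 1166)
(mv 1170 (cons (fin 1169 2 1166)
(fin 1171 2 1167)))))))))))
(mv 1233 (cons (fin 1165 3 1165)
(mv 1297 (cons (fin 1298 0 1230)
(mv 1296 (cons (fin 1229 0 1229)
(mv 1234 (cons (fin 1167 3 1166)
(mv 1295 (cons (fin 1294 1 1230)
(fin 1235 1 1231))))))))))))
(cons (mv 1233 (cons (fin 1165 3 1165)
(mv 1293 (cons (fin 1294 1 1229)
(mv 1297 (cons (fin 1298 0 1230)
(mv 1229 (cons (fin 1292 1 1228)
(fin 1296 0 1229)))))))))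
(mv 1233 (cons (fin 1165 3 1165)
(mv 1293 (cons (fin 1294 1 1229)
(mv 1292 (cons (fin 1229 1 1228)
(mv 1234 (cons (fin 1167 3 1166)
(mv 1170 (cons (fin 1169 2 1166)
(fin 1171 2 1167))))))))))))))))))))))))))))))))))
(cons (mv 1101 (cons (fin 1100 1 1036)
(mv 971 (cons (fin 972 3 971)
(mv 1035 (cons (fin 970 3 970)
(mv 1102 (cons (fin 1034 0 1034)
(mv 974 (cons (fin 975 2 971)
(mv 1165 (cons (fin 910 5 909)
(fin 1229 6 973)))))))))))))
(mv 1099 (cons (fin 1100 1 1035)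
(mv 1035 (cons (fin 1098 1 1034)
(mv 971 (cons (fin 970 3 970)
(fin 972 3 971)))))))))))))))))))
(cons (cons (cons (mv 1039 (cons (cons (mv 1105 (cons (fin 1038 0 1037)
(mv 1106 (cons (fin 1107 3 1039)
(mv 975 (cons (cons (mv 1168 (cons (fin 1232 7 975)
(mv 911 (cons (fin 976 7 911)
(fin 1103 4 911)))))
(mv 1168 (cons (fin 1232 7 975)
(mv 976 (cons (mv 1169 (cons (fin 1233 4 976)
(fin 912 4 912)))
(cons (mv 913 (cons (fin 977 6 912)
(mv 912 (cons (fin 849 6 848)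
(mv 848 (cons (fin 1103 5 847)
(fin 784 5 783)))))))
(mv 1169 (cons (fin 1233 4 976)
(mv 977 (cons (fin 913 6 912)
(mv 978 (cons (fin 979 1 975)
(mv 1042 (cons (fin 1043 0 975)
(fin 914 5 913)))))))))))))))
(cons (mv 911 (cons (fin 847 4 847)
(mv 1103 (cons (cons (mv 1166 (cons (fin 1102 5 910)
(mv 1170 (cons (fin 1171 0 1103)
(mv 1042 (cons (fin 1043 2 1039)
(mv 910 (cons (fin 846 7 846)
(mv 912 (cons (fin 848 6 847)
(mv 1169 (cons (fin 976 4 912)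
(mv 1233 (cons (fin 978 5 977)
(fin 1297 7 1040)))))))))))))))
(mv 1170 (cons (fin 1171 0 1103)
(mv 1042 (cons (fin 1043 2 1039)
(mv 910 (cons (fin 846 7 846)
(mv 912 (cons (fin 848 6 847)
(mv 1169 (cons (fin 976 4 912)
(mv 1233 (cons (fin 978 5 977)
(fin 1297 7 1040))))))))))))))
(cons (mv 1170 (cons (fin 1171 0 1103)
(mv 1102 (cons (fin 1169 0 1102)
(fin 1166 5 910)))))
(cons (mv 1166 (cons (fin 1102 5 910)
(mv 1042 (cons (fin 1043 2 1039)
(mv 910 (cons (fin 846 7 846)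
(mv 912 (cons (fin 848 6 847)
(mv 1169 (cons (fin 976 4 912)
(mv 1297 (cons (fin 1233 7 1040)
(mv 914 (cons (fin 978 5 913)
(mv 913 (cons (fin 974 1 910)
(mv 850 (cons (fin 849 2 846)
(fin 851 2 847)))))))))))))))))))
(mv 1170 (cons (fin 1171 0 1103)
(mv 1102 (cons (fin 1166 5 910)
(mv 1101 (cons (fin 1036 3 1036)
(fin 1100 2 1036)))))))))))))
(cons (mv 1168 (cons (fin 1232 7 975)
(mv 911 (cons (fin 976 7 911)
(fin 847 4 847)))))
(mv 1168 (cons (fin 1232 7 975)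
(mv 911 (cons (fin 1103 4 911)
(fin 847 4 847)))))))))))))
(cons (mv 975 (cons (cons (mv 1168 (cons (fin 1232 7 975)
(mv 911 (cons (fin 976 7 911)
(fin 1103 4 911)))))
(mv 1168 (cons (fin 1232 7 975)
(mv 976 (cons (cons (mv 1233 (cons (fin 1169 4 976)
(mv 913 (cons (fin 977 6 912)
(mv 912 (cons (fin 849 6 848)
(mv 848 (cons (fin 1103 5 847)
(fin 784 5 783)))))))))
(mv 1169 (cons (fin 1233 4 976)
(mv 912 (cons (fin 1105 4 912)
(mv 848 (cons (fin 1103 5 847)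
(fin 784 5 783))))))))
(cons (mv 913 (cons (fin 977 6 912)
(mv 912 (cons (fin 849 6 848)
(mv 848 (cons (fin 1103 5 847)
(fin 784 5 783)))))))
(cons (mv 1169 (cons (fin 1233 4 976)
(mv 977 (cons (fin 913 6 912)
(mv 978 (cons (fin 979 1 975)
(mv 1042 (cons (fin 1043 0 975)
(mv 914 (cons (fin 915 2 911)
(mv 1106 (cons (fin 1105 5 913)
(mv 1171 (cons (fin 1107 4 914)
(mv 1170 (cons (fin 1103 3 1103)
(fin 1235 4 978)))))))))))))))))
(mv 1169 (cons (fin 1233 4 976)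
(mv 1105 (cons (fin 912 4 912)
(mv 1106 (cons (fin 1107 3 1039)
(mv 977 (cons (fin 913 6 912)
(mv 978 (cons (fin 979 1 975)
(mv 1042 (cons (fin 1043 0 975)
(fin 914 5 913))))))))))))))))))))
(cons (mv 911 (cons (fin 847 4 847)
(mv 1103 (cons (mv 1102 (cons (fin 1166 5 910)
(mv 1101 (cons (fin 1036 3 1036)
(fin 1100 2 1036)))))
(mv 910 (cons (fin 846 7 846)
(mv 912 (cons (fin 848 6 847)
(mv 976 (cons (mv 977 (cons (fin 978 3 910)
(fin 909 0 909)))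
(cons (mv 1169 (cons (fin 1105 4 912)
(mv 908 (cons (fin 909 0 908)
(mv 913 (cons (fin 849 6 848)
(mv 914 (cons (fin 974 1 910)
(fin 915 1 911)))))))))
(mv 1169 (cons (fin 1105 4 912)
(mv 977 (cons (fin 978 3 910)
(mv 913 (cons (fin 849 6 848)
(mv 914 (cons (fin 974 1 910)
(fin 915 1 911))))))))))))))))))))
(cons (mv 1168 (cons (fin 1232 7 975)
(mv 911 (cons (fin 1103 4 911)
(fin 847 4 847)))))
(mv 1168 (cons (fin 1232 7 975)
(mv 911 (cons (fin 976 7 911)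
(fin 847 4 847)))))))))
(mv 1038 (cons (cons (mv 1100 (cons (fin 1101 1 1036)
(mv 1036 (cons (fin 1099 1 1035)
(fin 1103 0 1036)))))
(mv 1100 (cons (fin 1101 1 1036)
(mv 976 (cons (fin 977 2 973)
(mv 1168 (cons (mv 975 (cons (fin 1232 7 975)
(fin 911 7 911)))
(cons (mv 1233 (cons (fin 1169 4 976)
(mv 1232 (cons (fin 1297 4 1040)
(mv 1295 (cons (fin 1231 5 1039)
(mv 1296 (cons (fin 1359 5 1103)
(fin 1103 7 1039)))))))))
(mv 1233 (cons (fin 1169 4 976)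
(mv 911 (cons (fin 975 7 911)
(mv 912 (cons (fin 847 7 847)
(mv 848 (cons (fin 1103 5 847)
(mv 849 (cons (fin 913 6 848)
(fin 785 6 784)))))))))))))))))))
(cons (mv 1103 (cons (fin 1036 0 1036)
(mv 976 (cons (fin 977 2 973)
(mv 912 (cons (fin 848 5 847)
(mv 911 (cons (fin 847 7 847)
(mv 1168 (cons (fin 975 7 911)
(mv 1232 (cons (fin 1296 7 1039)
(mv 1233 (cons (fin 1297 4 1040)
(fin 1169 4 976)))))))))))))))
(mv 1100 (cons (fin 1101 1 1036)
(mv 1036 (cons (fin 1099 1 1035)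
(mv 976 (cons (fin 975 2 972)
(fin 977 2 973))))))))))))
(cons (cons (mv 1038 (cons (fin 1105 0 1037)
(mv 1100 (cons (fin 1101 1 1036)
(mv 1036 (cons (fin 1099 1 1035)
(fin 1103 0 1036)))))))
(mv 1038 (cons (fin 1105 0 1037)
(mv 1100 (cons (fin 1101 1 1036)
(mv 1036 (cons (fin 1099 1 1035)
(mv 976 (cons (fin 975 2 972)
(fin 977 2 973))))))))))
(cons (mv 1038 (cons (fin 1105 0 1037)
(mv 1100 (cons (fin 1101 1 1036)
(mv 976 (cons (fin 977 2 973)
(mv 1168 (cons (mv 975 (cons (fin 1232 7 975)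
(fin 911 7 911)))
(cons (mv 1233 (cons (fin 1169 4 976)
(mv 1232 (cons (fin 1297 4 1040)
(mv 1295 (cons (fin 1231 5 1039)
(mv 1296 (cons (fin 1359 5 1103)
(fin 1103 7 1039)))))))))
(mv 1233 (cons (fin 1169 4 976)
(mv 911 (cons (fin 975 7 911)
(mv 912 (cons (fin 847 7 847)
(mv 848 (cons (fin 1103 5 847)
(mv 849 (cons (fin 913 6 848)
(fin 785 6 784))))))))))))))))))))
(mv 1038 (cons (fin 1105 0 1037)
(mv 1103 (cons (fin 1036 0 1036)
(mv 976 (cons (fin 977 2 973)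
(mv 912 (cons (fin 848 5 847)
(mv 911 (cons (fin 847 7 847)
(mv 1168 (cons (fin 975 7 911)
(mv 1232 (cons (fin 1296 7 1039)
(mv 1233 (cons (fin 1297 4 1040)
(fin 1169 4 976)))))))))))))))))))))
(mv 1038 (cons (cons (mv 1105 (cons (fin 1039 0 1037)
(mv 1103 (cons (fin 1102 3 1037)
(mv 1167 (cons (cons (mv 1295 (cons (fin 1231 6 1039)
(mv 1166 (cons (fin 1106 1 1102)
(mv 1165 (cons (fin 1164 2 1100)
(fin 1168 2 1101)))))))
(mv 1231 (cons (fin 1295 6 1039)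
(mv 976 (cons (fin 1168 5 975)
(fin 912 5 911))))))
(cons (mv 1166 (cons (fin 1106 1 1102)
(mv 1165 (cons (fin 1164 2 1100)
(fin 1168 2 1101)))))
(mv 1295 (cons (fin 1231 6 1039)
(mv 1106 (cons (fin 1166 1 1102)
(mv 1171 (cons (fin 1170 0 1103)
(mv 1107 (cons (fin 1172 0 1104)
(mv 1043 (cons (fin 1042 2 1039)
(fin 1044 2 1040))))))))))))))))))
(mv 1103 (cons (mv 1102 (cons (fin 1105 3 1037)
(mv 1036 (cons (fin 1101 3 1036)
(fin 1035 0 1035)))))
(cons (mv 976 (cons (cons (mv 1167 (cons (fin 912 5 911)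
(mv 1231 (cons (fin 1168 5 975)
(fin 1295 6 1039)))))
(mv 1168 (cons (cons (mv 1231 (cons (fin 1167 5 975)
(mv 1295 (cons (fin 1232 5 1039)
(mv 975 (cons (fin 911 7 911)
(mv 977 (cons (fin 974 1 973)
(fin 913 6 912)))))))))
(mv 975 (cons (fin 911 7 911)
(mv 977 (cons (fin 974 1 973)
(fin 913 6 912))))))
(cons (mv 977 (cons (fin 913 6 912)
(mv 1232 (cons (cons (mv 1231 (cons (fin 1295 5 1039)
(fin 1167 5 975)))
(mv 1297 (cons (fin 1233 4 1040)
(mv 1296 (cons (fin 1361 4 1104)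
(mv 1359 (cons (fin 1295 5 1103)
(mv 1360 (cons (fin 1423 5 1167)
(fin 1167 7 1103))))))))))
(cons (mv 1295 (cons (fin 1231 5 1039)
(mv 1296 (cons (fin 1359 5 1103)
(mv 1297 (cons (fin 1361 4 1104)
(fin 1233 4 1040)))))))
(mv 1297 (cons (fin 1233 4 1040)
(mv 1296 (cons (fin 1361 4 1104)
(mv 1167 (cons (fin 1231 5 975)
(fin 1360 7 1103))))))))))))
(mv 975 (cons (fin 911 7 911)
(mv 1232 (cons (cons (mv 1231 (cons (fin 1295 5 1039)
(fin 1167 5 975)))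
(mv 1297 (cons (fin 1233 4 1040)
(mv 1296 (cons (fin 1361 4 1104)
(mv 1359 (cons (fin 1295 5 1103)
(mv 1360 (cons (fin 1423 5 1167)
(fin 1167 7 1103))))))))))
(cons (mv 1295 (cons (fin 1231 5 1039)
(mv 1296 (cons (fin 1359 5 1103)
(mv 1297 (cons (fin 1361 4 1104)
(fin 1233 4 1040)))))))
(mv 1297 (cons (fin 1233 4 1040)
(mv 1296 (cons (fin 1361 4 1104)
(mv 1167 (cons (fin 1231 5 975)
(fin 1360 7 1103))))))))))))))))
(cons (mv 975 (cons (cons (mv 1168 (cons (fin 911 7 911)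
(mv 977 (cons (fin 974 1 973)
(fin 913 6 912)))))
(mv 977 (cons (fin 974 1 973)
(mv 913 (cons (fin 1168 6 912)
(mv 849 (cons (fin 785 5 784)
(fin 912 6 848))))))))
(cons (mv 911 (cons (fin 1168 7 911)
(mv 847 (cons (fin 912 7 847)
(fin 783 4 783)))))
(mv 974 (cons (fin 977 1 973)
(mv 1036 (cons (fin 1035 2 971)
(mv 912 (cons (cons (mv 911 (cons (fin 847 7 847)
(mv 913 (cons (fin 914 1 910)
(fin 849 6 848)))))
(mv 849 (cons (fin 913 6 848)
(mv 848 (cons (fin 785 6 784)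
(mv 847 (cons (fin 783 7 783)
(mv 846 (cons (mv 910 (cons (fin 909 1 845)
(fin 1101 5 845)))
(cons (mv 781 (cons (fin 782 3 781)
(mv 845 (cons (fin 780 3 780)
(mv 908 (cons (fin 909 1 844)
(mv 844 (cons (fin 907 1 843)
(fin 972 6 780)))))))))
(mv 910 (cons (fin 1101 5 845)
(mv 781 (cons (fin 782 3 781)
(fin 845 7 781)))))))))))))))
(cons (mv 913 (cons (fin 849 6 848)
(mv 914 (cons (fin 911 1 910)
(fin 915 1 911)))))
(cons (mv 847 (cons (fin 911 7 847)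
(mv 848 (cons (fin 783 7 783)
(mv 849 (cons (fin 785 6 784)
(mv 846 (cons (mv 910 (cons (fin 909 1 845)
(fin 1101 5 845)))
(cons (mv 781 (cons (fin 782 3 781)
(mv 845 (cons (fin 780 3 780)
(mv 908 (cons (fin 909 1 844)
(mv 844 (cons (fin 907 1 843)
(fin 972 6 780)))))))))
(mv 910 (cons (fin 1101 5 845)
(mv 781 (cons (fin 782 3 781)
(fin 845 7 781))))))))))))))
(mv 847 (cons (fin 911 7 847)
(mv 846 (cons (cons (mv 910 (cons (fin 1101 5 845)
(fin 783 6 782)))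
(mv 848 (cons (fin 783 7 783)
(mv 845 (cons (fin 913 0 845)
(mv 908 (cons (fin 909 1 844)
(mv 844 (cons (fin 907 1 843)
(mv 972 (cons (fin 1101 4 844)
(fin 781 6 780))))))))))))
(cons (mv 910 (cons (fin 1101 5 845)
(mv 845 (cons (fin 781 7 781)
(mv 848 (cons (fin 913 0 845)
(mv 908 (cons (fin 909 1 844)
(mv 844 (cons (fin 907 1 843)
(mv 779 (cons (fin 780 3 779)
(mv 843 (cons (fin 778 3 778)
(fin 972 7 779)))))))))))))))
(mv 783 (cons (fin 848 7 783)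
(fin 910 6 782)))))))))))))))))))
(mv 912 (cons (fin 1167 5 911)
(mv 847 (cons (fin 911 7 847)
(mv 848 (cons (fin 783 7 783)
(mv 849 (cons (fin 913 6 848)
(fin 785 6 784))))))))))))
(mv 1102 (cons (fin 1105 3 1037)
(mv 1167 (cons (cons (mv 1295 (cons (fin 1231 7 1038)
(mv 974 (cons (fin 910 4 910)
(mv 976 (cons (fin 912 5 911)
(mv 975 (cons (fin 977 1 973)
(mv 911 (cons (fin 1168 7 911)
(fin 1166 6 910)))))))))))
(mv 974 (cons (fin 910 4 910)
(mv 976 (cons (fin 912 5 911)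
(mv 975 (cons (fin 977 1 973)
(mv 911 (cons (fin 1168 7 911)
(fin 1166 6 910))))))))))
(cons (mv 1231 (cons (fin 1295 7 1038)
(mv 976 (cons (fin 1168 5 975)
(fin 912 5 911)))))
(mv 1231 (cons (fin 1295 7 1038)
(mv 974 (cons (fin 1166 4 974)
(fin 910 4 910))))))))))))))
(cons (mv 1039 (cons (cons (mv 1100 (cons (fin 1101 1 1036)
(mv 1036 (cons (fin 1099 1 1035)
(fin 1103 0 1036)))))
(mv 1100 (cons (fin 1101 1 1036)
(mv 976 (cons (fin 977 2 973)
(mv 912 (cons (mv 1103 (cons (fin 1167 5 911)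
(fin 848 5 847)))
(mv 911 (cons (fin 847 7 847)
(mv 975 (cons (fin 1168 7 911)
(mv 913 (cons (fin 849 6 848)
(mv 914 (cons (fin 974 1 910)
(fin 915 1 911))))))))))))))))
(cons (mv 1103 (cons (fin 1036 0 1036)
(mv 976 (cons (fin 977 2 973)
(mv 1167 (cons (fin 912 5 911)
(fin 1231 6 975)))))))
(mv 1100 (cons (fin 1101 1 1036)
(mv 1036 (cons (fin 1099 1 1035)
(mv 976 (cons (fin 975 2 972)
(fin 977 2 973))))))))))
(cons (mv 1039 (cons (fin 1105 0 1037)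
(mv 1100 (cons (fin 1101 1 1036)
(mv 1036 (cons (fin 1099 1 1035)
(mv 976 (cons (fin 975 2 972)
(fin 977 2 973)))))))))
(mv 1039 (cons (fin 1105 0 1037)
(mv 1100 (cons (fin 1101 1 1036)
(mv 1036 (cons (fin 1099 1 1035)
(fin 1103 0 1036))))))))))))
(cons (mv 1039 (cons (cons (mv 1105 (cons (fin 1038 0 1037)
(mv 1106 (cons (fin 1107 3 1039)
(mv 1103 (cons (cons (mv 1166 (cons (fin 1167 1 1102)
(mv 1170 (cons (fin 1171 0 1103)
(mv 1102 (cons (fin 1165 1 1101)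
(fin 1169 0 1102)))))))
(mv 1170 (cons (fin 1171 0 1103)
(mv 1169 (cons (fin 1102 0 1102)
(mv 1297 (cons (fin 1233 7 1040)
(mv 1042 (cons (fin 1043 2 1039)
(mv 976 (cons (fin 912 4 912)
(mv 978 (cons (fin 914 5 913)
(mv 977 (cons (fin 979 1 975)
(fin 913 7 913))))))))))))))))
(cons (mv 1166 (cons (fin 1167 1 1102)
(mv 1102 (cons (fin 1165 1 1101)
(mv 1101 (cons (fin 1036 3 1036)
(fin 1100 2 1036)))))))
(mv 1167 (cons (fin 1166 1 1102)
(mv 1231 (cons (fin 1295 6 1039)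
(fin 976 6 975))))))))))))
(cons (mv 1168 (cons (cons (cons (mv 976 (cons (cons (mv 1231 (cons (fin 1167 5 975)
(mv 1295 (cons (fin 1232 5 1039)
(mv 1233 (cons (fin 1169 4 976)
(mv 913 (cons (fin 977 6 912)
(mv 912 (cons (fin 849 6 848)
(mv 847 (cons (fin 911 7 847)
(mv 848 (cons (fin 1103 5 847)
(fin 783 7 783)))))))))))))))
(cons (mv 1233 (cons (fin 1169 4 976)
(mv 1297 (cons (fin 1232 4 1040)
(mv 913 (cons (fin 977 6 912)
(mv 912 (cons (fin 849 6 848)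
(mv 847 (cons (fin 911 7 847)
(mv 848 (cons (fin 1103 5 847)
(fin 783 7 783)))))))))))))
(mv 1231 (cons (fin 1167 5 975)
(mv 1295 (cons (fin 1232 5 1039)
(mv 913 (cons (fin 977 6 912)
(mv 912 (cons (fin 849 6 848)
(mv 847 (cons (fin 911 7 847)
(mv 848 (cons (fin 1103 5 847)
(fin 783 7 783)))))))))))))))
(cons (cons (mv 1231 (cons (fin 1167 5 975)
(mv 1295 (cons (fin 1232 5 1039)
(mv 1169 (cons (fin 1233 4 976)
(mv 912 (cons (fin 1105 4 912)
(mv 911 (cons (fin 847 7 847)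
(mv 848 (cons (fin 1103 5 847)
(mv 849 (cons (fin 913 6 848)
(fin 785 6 784)))))))))))))))
(mv 1231 (cons (fin 1167 5 975)
(mv 1295 (cons (fin 1232 5 1039)
(mv 1169 (cons (fin 1233 4 976)
(mv 912 (cons (fin 1105 4 912)
(mv 847 (cons (fin 911 7 847)
(mv 848 (cons (fin 1103 5 847)
(fin 783 7 783))))))))))))))
(cons (mv 1231 (cons (fin 1167 5 975)
(mv 1232 (cons (fin 1295 5 1039)
(mv 1233 (cons (fin 1297 4 1040)
(fin 1169 4 976)))))))
(mv 1231 (cons (fin 1167 5 975)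
(mv 1233 (cons (fin 1169 4 976)
(mv 913 (cons (fin 977 6 912)
(mv 912 (cons (fin 849 6 848)
(mv 847 (cons (fin 911 7 847)
(mv 848 (cons (fin 1103 5 847)
(fin 783 7 783)))))))))))))))))
(mv 1232 (cons (mv 1295 (cons (fin 1231 5 1039)
(mv 1296 (cons (fin 1359 5 1103)
(fin 1103 7 1039)))))
(cons (mv 1231 (cons (fin 1295 5 1039)
(mv 1233 (cons (fin 1297 4 1040)
(mv 1230 (cons (cons (mv 1169 (cons (fin 1229 2 1165)
(fin 1170 2 1166)))
(mv 1293 (cons (fin 1294 1 1229)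
(mv 1292 (cons (fin 1229 1 1228)
(mv 1166 (cons (fin 1165 3 1165)
(mv 1234 (cons (fin 1167 3 1166)
(mv 1299 (cons (fin 1298 0 1231)
(mv 1235 (cons (fin 1300 0 1232)
(mv 1171 (cons (fin 1170 2 1167)
(fin 1172 2 1168))))))))))))))))
(cons (mv 1293 (cons (fin 1294 1 1229)
(mv 1165 (cons (fin 1166 3 1165)
(mv 1170 (cons (fin 1169 2 1166)
(mv 1234 (cons (fin 1171 2 1167)
(mv 1299 (cons (fin 1298 0 1231)
(mv 1235 (cons (fin 1167 3 1167)
(fin 1300 0 1232)))))))))))))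
(mv 1293 (cons (fin 1294 1 1229)
(mv 1229 (cons (fin 1292 1 1228)
(fin 1169 2 1165))))))))))))
(mv 1296 (cons (fin 1103 7 1039)
(mv 1297 (cons (fin 1361 4 1104)
(fin 1233 4 1040)))))))))
(cons (mv 976 (cons (cons (mv 1231 (cons (fin 1167 5 975)
(mv 1233 (cons (fin 1169 4 976)
(mv 913 (cons (fin 977 6 912)
(mv 912 (cons (fin 849 6 848)
(mv 847 (cons (fin 911 7 847)
(mv 848 (cons (fin 1103 5 847)
(fin 783 7 783)))))))))))))
(cons (mv 1233 (cons (fin 1169 4 976)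
(mv 913 (cons (fin 977 6 912)
(mv 912 (cons (fin 849 6 848)
(mv 847 (cons (fin 911 7 847)
(mv 848 (cons (fin 1103 5 847)
(fin 783 7 783)))))))))))
(mv 1231 (cons (fin 1167 5 975)
(mv 913 (cons (fin 977 6 912)
(mv 912 (cons (fin 849 6 848)
(mv 847 (cons (fin 911 7 847)
(mv 848 (cons (fin 1103 5 847)
(fin 783 7 783)))))))))))))
(cons (cons (mv 1231 (cons (fin 1167 5 975)
(mv 1169 (cons (fin 1233 4 976)
(mv 912 (cons (fin 1105 4 912)
(mv 911 (cons (fin 847 7 847)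
(mv 848 (cons (fin 1103 5 847)
(mv 849 (cons (fin 913 6 848)
(fin 785 6 784)))))))))))))
(mv 1231 (cons (fin 1167 5 975)
(mv 1169 (cons (fin 1233 4 976)
(mv 912 (cons (fin 1105 4 912)
(mv 847 (cons (fin 911 7 847)
(mv 848 (cons (fin 1103 5 847)
(fin 783 7 783))))))))))))
(cons (mv 1167 (cons (fin 1231 5 975)
(mv 1169 (cons (fin 1233 4 976)
(mv 977 (cons (fin 913 6 912)
(mv 978 (cons (fin 979 1 975)
(mv 1105 (cons (mv 1166 (cons (fin 1165 2 1101)
(fin 1106 2 1102)))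
(cons (mv 1166 (cons (fin 1165 2 1101)
(mv 1229 (cons (fin 1230 1 1165)
(mv 1102 (cons (fin 1101 3 1101)
(mv 1170 (cons (fin 1103 3 1102)
(mv 1235 (cons (fin 1234 0 1167)
(mv 1171 (cons (fin 1172 3 1104)
(fin 1236 0 1168)))))))))))))
(mv 1106 (cons (fin 1107 1 1103)
(mv 1042 (cons (fin 914 5 913)
(mv 1103 (cons (fin 1043 2 1039)
(mv 1170 (cons (fin 1102 3 1102)
(fin 1171 3 1103))))))))))))))))))))
(mv 1231 (cons (fin 1167 5 975)
(mv 1169 (cons (fin 1233 4 976)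
(mv 912 (cons (fin 1105 4 912)
(mv 913 (cons (fin 977 6 912)
(fin 849 6 848)))))))))))))
(mv 976 (cons (cons (mv 1233 (cons (fin 1169 4 976)
(mv 1297 (cons (fin 1232 4 1040)
(mv 913 (cons (fin 977 6 912)
(mv 912 (cons (fin 849 6 848)
(mv 1103 (cons (fin 1167 5 911)
(fin 848 5 847)))))))))))
(mv 913 (cons (fin 977 6 912)
(mv 912 (cons (fin 849 6 848)
(mv 1103 (cons (fin 1167 5 911)
(fin 848 5 847))))))))
(cons (mv 1233 (cons (fin 1169 4 976)
(mv 1232 (cons (fin 1297 4 1040)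
(mv 1103 (cons (fin 1296 7 1039)
(mv 912 (cons (fin 1167 5 911)
(fin 848 5 847)))))))))
(cons (mv 977 (cons (fin 913 6 912)
(mv 978 (cons (fin 979 1 975)
(mv 1232 (cons (mv 1233 (cons (fin 1297 4 1040)
(fin 1169 4 976)))
(cons (mv 1296 (cons (fin 1103 7 1039)
(mv 1359 (cons (fin 1295 5 1103)
(mv 1360 (cons (fin 1423 5 1167)
(mv 1361 (cons (fin 1425 4 1168)
(fin 1297 4 1104)))))))))
(mv 1296 (cons (fin 1103 7 1039)
(mv 1359 (cons (fin 1295 5 1103)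
(mv 1360 (cons (fin 1423 5 1167)
(mv 1169 (cons (fin 1233 4 976)
(fin 1105 6 1104))))))))))))))))
(mv 1169 (cons (fin 1233 4 976)
(mv 912 (cons (fin 1105 4 912)
(mv 913 (cons (fin 977 6 912)
(fin 849 6 848)))))))))))))
(cons (cons (mv 1231 (cons (cons (mv 1295 (cons (fin 1232 5 1039)
(mv 1167 (cons (fin 976 5 975)
(fin 1359 6 1103)))))
(mv 1232 (cons (fin 1295 5 1039)
(mv 1103 (cons (fin 1296 7 1039)
(mv 1102 (cons (mv 1101 (cons (fin 1036 3 1036)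
(fin 1169 0 1101)))
(cons (mv 1230 (cons (cons (mv 1294 (cons (fin 1166 6 1038)
(mv 1229 (cons (fin 1169 2 1165)
(mv 1292 (cons (fin 1293 1 1228)
(mv 1228 (cons (fin 1291 1 1227)
(mv 1164 (cons (fin 1163 3 1163)
(fin 1165 3 1164)))))))))))
(mv 1166 (cons (fin 1294 6 1038)
(mv 1165 (cons (fin 1105 1 1101)
(mv 1164 (cons (fin 1229 3 1164)
(fin 1163 0 1163))))))))
(cons (mv 1166 (cons (fin 1294 6 1038)
(mv 1105 (cons (fin 1165 1 1101)
(mv 1169 (cons (fin 1170 0 1102)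
(mv 1106 (cons (fin 1107 3 1039)
(mv 1042 (cons (fin 1043 2 1039)
(mv 976 (cons (fin 912 4 912)
(mv 977 (cons (fin 913 6 912)
(mv 978 (cons (fin 979 1 975)
(fin 914 5 913)))))))))))))))))
(cons (mv 1229 (cons (fin 1169 2 1165)
(mv 1292 (cons (fin 1293 1 1228)
(mv 1228 (cons (fin 1291 1 1227)
(mv 1164 (cons (fin 1163 3 1163)
(fin 1165 3 1164)))))))))
(mv 1294 (cons (fin 1166 6 1038)
(mv 1169 (cons (fin 1229 2 1165)
(mv 1170 (cons (fin 1171 1 1167)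
(fin 1105 0 1102)))))))))))
(mv 1101 (cons (fin 1036 3 1036)
(fin 1100 2 1036)))))))))))
(cons (mv 1295 (cons (fin 1232 5 1039)
(mv 1167 (cons (fin 1359 6 1103)
(fin 1103 6 1039)))))
(mv 976 (cons (fin 1167 5 975)
(mv 913 (cons (fin 977 6 912)
(mv 912 (cons (fin 849 6 848)
(mv 1169 (cons (fin 1105 4 912)
(mv 847 (cons (fin 911 7 847)
(mv 848 (cons (fin 1103 5 847)
(fin 783 7 783))))))))))))))))
(mv 1233 (cons (cons (mv 1297 (cons (fin 1232 4 1040)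
(mv 1169 (cons (fin 1361 7 1104)
(fin 1105 7 1040)))))
(mv 1232 (cons (fin 1297 4 1040)
(mv 1231 (cons (fin 1295 5 1039)
(mv 1167 (cons (fin 976 5 975)
(mv 1234 (cons (fin 1166 3 1166)
(fin 1235 3 1167))))))))))
(cons (mv 1169 (cons (fin 976 4 976)
(mv 1234 (cons (cons (mv 1235 (cons (fin 1236 3 1168)
(mv 1167 (cons (fin 1232 3 1167)
(fin 1166 0 1166)))))
(mv 1235 (cons (fin 1236 3 1168)
(mv 1232 (cons (mv 1295 (cons (fin 1296 1 1231)
(fin 1231 5 1039)))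
(cons (mv 1299 (cons (fin 1300 0 1232)
(mv 1298 (cons (fin 1231 0 1231)
(mv 1426 (cons (fin 1362 7 1169)
(mv 1171 (cons (fin 1172 2 1168)
(mv 1107 (cons (fin 1043 5 1042)
(mv 1106 (cons (fin 1105 3 1039)
(fin 1042 7 1042)))))))))))))
(mv 1296 (cons (fin 1295 1 1231)
(mv 1360 (cons (fin 1424 6 1168)
(fin 1105 6 1104)))))))))))
(cons (mv 1167 (cons (fin 1166 0 1166)
(mv 1231 (cons (mv 1295 (cons (fin 1232 5 1039)
(fin 1359 6 1103)))
(cons (mv 1230 (cons (fin 1170 1 1166)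
(mv 1229 (cons (fin 1228 2 1164)
(fin 1232 2 1165)))))
(mv 1359 (cons (fin 1295 6 1103)
(mv 1170 (cons (fin 1230 1 1166)
(mv 1107 (cons (fin 1106 2 1103)
(mv 1171 (cons (fin 1108 2 1104)
(mv 1172 (cons (fin 1173 1 1169)
(fin 1105 3 1104))))))))))))))))
(mv 1235 (cons (fin 1236 3 1168)
(mv 1167 (cons (fin 1166 0 1166)
(fin 1170 0 1167))))))))))
(mv 1169 (cons (fin 976 4 976)
(mv 1297 (cons (fin 1361 7 1104)
(fin 1105 7 1040)))))))))
(cons (mv 1232 (cons (cons (mv 1295 (cons (fin 1231 5 1039)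
(mv 1296 (cons (fin 1359 5 1103)
(fin 1103 7 1039)))))
(mv 1295 (cons (fin 1231 5 1039)
(mv 1233 (cons (fin 1297 4 1040)
(mv 976 (cons (fin 1169 4 976)
(mv 913 (cons (fin 977 6 912)
(mv 912 (cons (fin 849 6 848)
(mv 847 (cons (fin 911 7 847)
(mv 848 (cons (fin 1103 5 847)
(fin 783 7 783))))))))))))))))
(cons (mv 1296 (cons (fin 1103 7 1039)
(mv 1297 (cons (fin 1361 4 1104)
(fin 1233 4 1040)))))
(mv 1295 (cons (fin 1231 5 1039)
(mv 1296 (cons (fin 1359 5 1103)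
(mv 1297 (cons (fin 1361 4 1104)
(fin 1233 4 1040))))))))))
(mv 1232 (cons (cons (mv 1295 (cons (fin 1231 5 1039)
(mv 1296 (cons (fin 1359 5 1103)
(fin 1103 7 1039)))))
(mv 1297 (cons (fin 1233 4 1040)
(mv 1231 (cons (fin 1295 5 1039)
(mv 976 (cons (fin 1167 5 975)
(mv 913 (cons (fin 977 6 912)
(mv 912 (cons (fin 849 6 848)
(mv 847 (cons (fin 911 7 847)
(mv 848 (cons (fin 1103 5 847)
(fin 783 7 783))))))))))))))))
(cons (mv 1296 (cons (fin 1103 7 1039)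
(mv 1297 (cons (fin 1361 4 1104)
(fin 1233 4 1040)))))
(mv 1295 (cons (fin 1231 5 1039)
(mv 1296 (cons (fin 1359 5 1103)
(mv 1297 (cons (fin 1361 4 1104)
(fin 1233 4 1040))))))))))))))
(mv 1038 (cons (cons (mv 1100 (cons (fin 1101 1 1036)
(mv 1036 (cons (fin 1099 1 1035)
(fin 1103 0 1036)))))
(mv 1100 (cons (fin 1101 1 1036)
(mv 976 (cons (fin 977 2 973)
(mv 912 (cons (mv 1103 (cons (fin 1167 5 911)
(fin 848 5 847)))
(cons (mv 847 (cons (fin 911 7 847)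
(mv 848 (cons (fin 783 7 783)
(mv 849 (cons (fin 913 6 848)
(fin 785 6 784)))))))
(mv 911 (cons (fin 847 7 847)
(mv 913 (cons (fin 849 6 848)
(mv 1168 (cons (cons (mv 1167 (cons (fin 1231 5 975)
(fin 1103 5 911)))
(mv 1233 (cons (fin 1169 4 976)
(mv 1232 (cons (fin 1297 4 1040)
(mv 1295 (cons (fin 1231 5 1039)
(mv 1296 (cons (fin 1359 5 1103)
(fin 1103 7 1039))))))))))
(cons (mv 1231 (cons (fin 1167 5 975)
(mv 1232 (cons (fin 1295 5 1039)
(mv 1233 (cons (fin 1297 4 1040)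
(fin 1169 4 976)))))))
(mv 1233 (cons (fin 1169 4 976)
(mv 1232 (cons (fin 1297 4 1040)
(mv 1103 (cons (fin 1167 5 911)
(fin 1296 7 1039))))))))))))))))))))))
(cons (mv 1103 (cons (fin 1036 0 1036)
(mv 976 (cons (fin 977 2 973)
(mv 1167 (cons (fin 912 5 911)
(fin 1231 6 975)))))))
(mv 976 (cons (fin 977 2 973)
(mv 847 (cons (cons (mv 1100 (cons (fin 1101 1 1036)
(mv 1099 (cons (fin 1036 1 1035)
(mv 912 (cons (fin 911 7 847)
(mv 848 (cons (fin 783 7 783)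
(mv 849 (cons (fin 913 6 848)
(fin 785 6 784)))))))))))
(mv 1231 (cons (cons (mv 1168 (cons (fin 1167 5 975)
(mv 1232 (cons (fin 1295 5 1039)
(mv 1233 (cons (fin 1297 4 1040)
(fin 1169 4 976)))))))
(mv 1036 (cons (cons (mv 1100 (cons (fin 1099 1 1035)
(fin 1101 1 1036)))
(mv 971 (cons (fin 972 3 971)
(mv 1035 (cons (fin 970 3 970)
(mv 1098 (cons (fin 1099 1 1034)
(mv 1034 (cons (fin 1097 1 1033)
(mv 1226 (cons (fin 1162 6 970)
(mv 1102 (cons (fin 1101 0 1034)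
(mv 907 (cons (fin 843 5 842)
(mv 974 (cons (mv 1166 (cons (fin 1167 4 974)
(mv 1229 (cons (fin 1165 5 973)
(mv 1230 (cons (fin 1293 5 1037)
(fin 1295 4 1038)))))))
(mv 910 (cons (fin 911 6 846)
(mv 909 (cons (fin 845 7 845)
(mv 846 (cons (fin 908 2 843)
(fin 783 6 782))))))))))))))))))))))))
(cons (mv 1101 (cons (fin 1100 1 1036)
(mv 971 (cons (fin 972 3 971)
(mv 1035 (cons (fin 970 3 970)
(mv 1102 (cons (fin 1034 0 1034)
(mv 974 (cons (mv 1165 (cons (fin 910 5 909)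
(fin 1229 6 973)))
(cons (mv 1229 (cons (fin 1165 6 973)
(mv 1166 (cons (fin 1167 4 974)
(mv 1230 (cons (fin 1293 5 1037)
(fin 1294 7 1037)))))))
(mv 910 (cons (fin 846 5 845)
(fin 911 6 846))))))))))))))
(mv 1099 (cons (fin 1100 1 1035)
(mv 1035 (cons (fin 1098 1 1034)
(mv 971 (cons (fin 970 3 970)
(fin 972 3 971)))))))))))
(cons (mv 1101 (cons (fin 1100 1 1036)
(mv 1232 (cons (cons (mv 1168 (cons (fin 1295 5 1039)
(mv 1233 (cons (fin 1297 4 1040)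
(fin 1169 4 976)))))
(mv 1229 (cons (mv 1165 (cons (fin 974 6 973)
(mv 1230 (cons (fin 1164 3 1164)
(fin 1294 4 1037)))))
(cons (mv 1230 (cons (cons (mv 1292 (cons (fin 1293 1 1228)
(mv 1296 (cons (fin 1297 0 1229)
(mv 1228 (cons (fin 1291 1 1227)
(fin 1295 0 1228)))))))
(mv 1296 (cons (fin 1297 0 1229)
(mv 1228 (cons (fin 1295 0 1228)
(mv 1291 (cons (fin 1292 1 1227)
(mv 1227 (cons (fin 1290 1 1226)
(mv 1163 (cons (fin 1162 3 1162)
(fin 1164 3 1163))))))))))))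
(cons (mv 1293 (cons (fin 1292 1 1228)
(mv 1233 (cons (fin 1294 1 1229)
(mv 1298 (cons (fin 1297 0 1230)
(mv 1234 (cons (fin 1299 0 1231)
(mv 1170 (cons (fin 1169 2 1166)
(fin 1171 2 1167)))))))))))
(cons (mv 1297 (cons (fin 1296 0 1229)
(mv 1233 (cons (fin 1298 0 1230)
(mv 1294 (cons (fin 1293 1 1229)
(mv 1234 (cons (fin 1295 1 1230)
(mv 1170 (cons (fin 1169 2 1166)
(fin 1171 2 1167)))))))))))
(mv 1292 (cons (fin 1293 1 1228)
(mv 1228 (cons (fin 1291 1 1227)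
(mv 1295 (cons (fin 1296 0 1228)
(mv 1227 (cons (fin 1294 0 1227)
(mv 1163 (cons (fin 1162 3 1162)
(fin 1164 3 1163)))))))))))))))
(mv 1165 (cons (fin 974 6 973)
(mv 1292 (cons (fin 1228 5 1036)
(mv 1293 (cons (fin 1356 5 1100)
(fin 1102 6 1037)))))))))))
(cons (mv 1233 (cons (cons (mv 1168 (cons (fin 1297 4 1040)
(fin 1169 4 976)))
(mv 1230 (cons (cons (mv 1293 (cons (fin 1294 1 1229)
(mv 1292 (cons (fin 1229 1 1228)
(mv 1298 (cons (fin 1297 0 1230)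
(mv 1234 (cons (fin 1299 0 1231)
(mv 1170 (cons (fin 1169 2 1166)
(fin 1171 2 1167)))))))))))
(mv 1297 (cons (fin 1298 0 1230)
(mv 1229 (cons (fin 1296 0 1229)
(mv 1165 (cons (fin 1164 3 1164)
(fin 1166 3 1165))))))))
(cons (mv 1293 (cons (fin 1294 1 1229)
(mv 1229 (cons (fin 1292 1 1228)
(mv 1165 (cons (fin 1164 3 1164)
(fin 1166 3 1165)))))))
(mv 1293 (cons (fin 1294 1 1229)
(mv 1298 (cons (fin 1297 0 1230)
(mv 1234 (cons (fin 1299 0 1231)
(mv 1170 (cons (fin 1169 2 1166)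
(fin 1171 2 1167)))))))))))))
(cons (mv 1169 (cons (fin 1168 4 976)
(mv 1230 (cons (fin 1170 2 1166)
(mv 1293 (cons (fin 1294 1 1229)
(mv 1229 (cons (fin 1292 1 1228)
(mv 1165 (cons (fin 1164 3 1164)
(fin 1166 3 1165)))))))))))
(mv 1297 (cons (fin 1168 4 1040)
(mv 1298 (cons (fin 1230 0 1230)
(mv 1299 (cons (fin 1296 3 1231)
(fin 1300 3 1232))))))))))
(cons (mv 1295 (cons (fin 1168 5 1039)
(mv 1229 (cons (cons (mv 1165 (cons (fin 974 6 973)
(mv 1230 (cons (fin 1164 3 1164)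
(fin 1294 4 1037)))))
(mv 1230 (cons (mv 1296 (cons (fin 1228 0 1228)
(fin 1297 0 1229)))
(cons (mv 1292 (cons (fin 1293 1 1228)
(mv 1228 (cons (fin 1291 1 1227)
(mv 1227 (cons (fin 1294 0 1227)
(mv 1163 (cons (fin 1162 3 1162)
(fin 1164 3 1163)))))))))
(mv 1293 (cons (fin 1292 1 1228)
(mv 1296 (cons (fin 1297 0 1229)
(mv 1166 (cons (fin 1102 5 1037)
(mv 1357 (cons (fin 1421 6 1165)
(mv 1356 (cons (fin 1294 1 1292)
(mv 1359 (cons (fin 1358 2 1292)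
(fin 1423 7 1166)))))))))))))))))
(cons (mv 1165 (cons (fin 974 6 973)
(mv 1292 (cons (fin 1228 5 1036)
(mv 1293 (cons (fin 1294 2 1228)
(fin 1356 5 1100)))))))
(mv 1165 (cons (fin 974 6 973)
(mv 1292 (cons (fin 1228 5 1036)
(mv 1293 (cons (fin 1230 1 1228)
(fin 1356 5 1100))))))))))))
(mv 1168 (cons (fin 1295 5 1039)
(mv 1169 (cons (fin 1233 4 976)
(mv 1229 (cons (fin 1230 2 1165)
(mv 1165 (cons (fin 974 6 973)
(mv 1292 (cons (fin 1228 5 1036)
(mv 1293 (cons (fin 1356 5 1100)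
(fin 1102 6 1037)))))))))))))))))))
(mv 1167 (cons (fin 1168 5 975)
(mv 1036 (cons (cons (mv 1100 (cons (fin 1099 1 1035)
(fin 1101 1 1036)))
(mv 971 (cons (fin 972 3 971)
(mv 1035 (cons (fin 970 3 970)
(mv 1098 (cons (fin 1099 1 1034)
(mv 1034 (cons (fin 1097 1 1033)
(mv 1226 (cons (fin 1162 6 970)
(mv 1102 (cons (fin 1101 0 1034)
(mv 974 (cons (fin 1166 4 974)
(mv 910 (cons (fin 911 6 846)
(mv 845 (cons (fin 909 7 845)
(mv 846 (cons (fin 781 7 781)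
(fin 783 6 782))))))))))))))))))))))
(cons (mv 1101 (cons (fin 1100 1 1036)
(mv 971 (cons (fin 972 3 971)
(mv 1035 (cons (fin 970 3 970)
(mv 1102 (cons (fin 1034 0 1034)
(mv 1166 (cons (fin 974 4 974)
(mv 1230 (cons (fin 1294 7 1037)
(mv 1229 (cons (fin 1293 5 1037)
(mv 1228 (cons (fin 1227 2 1163)
(mv 1292 (cons (fin 1291 1 1227)
(fin 1165 5 1036)))))))))))))))))))
(mv 1099 (cons (fin 1100 1 1035)
(mv 1035 (cons (fin 1098 1 1034)
(mv 971 (cons (fin 970 3 970)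
(fin 972 3 971))))))))))))))))
(cons (mv 912 (cons (fin 911 7 847)
(mv 848 (cons (fin 783 7 783)
(mv 849 (cons (fin 913 6 848)
(fin 785 6 784)))))))
(cons (mv 1100 (cons (fin 1101 1 1036)
(mv 1036 (cons (fin 1099 1 1035)
(mv 848 (cons (cons (mv 971 (cons (fin 972 3 971)
(mv 1035 (cons (fin 970 3 970)
(mv 1228 (cons (fin 1164 7 971)
(mv 907 (cons (fin 843 4 843)
(mv 912 (cons (fin 783 7 783)
(mv 849 (cons (fin 913 6 848)
(fin 785 6 784)))))))))))))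
(cons (mv 972 (cons (fin 971 3 971)
(mv 845 (cons (cons (mv 908 (cons (fin 909 6 844)
(mv 907 (cons (fin 843 7 843)
(mv 844 (cons (fin 846 1 843)
(fin 781 6 780)))))))
(cons (mv 846 (cons (cons (mv 780 (cons (fin 781 3 780)
(mv 844 (cons (fin 779 3 779)
(mv 784 (cons (fin 783 2 780)
(fin 785 2 781)))))))
(mv 784 (cons (fin 785 2 781)
(mv 783 (cons (fin 844 2 780)
(mv 910 (cons (fin 974 6 782)
(mv 849 (cons (fin 909 1 845)
(mv 850 (cons (fin 782 3 782)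
(fin 851 3 783))))))))))))
(cons (mv 781 (cons (fin 780 3 780)
(mv 974 (cons (fin 910 7 781)
(mv 849 (cons (fin 782 3 781)
(mv 914 (cons (fin 913 0 846)
(mv 850 (cons (fin 915 0 847)
(mv 786 (cons (fin 785 2 782)
(fin 787 2 783)))))))))))))
(mv 780 (cons (fin 781 3 780)
(mv 844 (cons (fin 779 3 779)
(mv 783 (cons (fin 784 2 780)
(mv 910 (cons (fin 974 6 782)
(mv 909 (cons (fin 849 1 845)
(mv 843 (cons (fin 842 0 842)
(fin 782 2 779))))))))))))))))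
(mv 846 (cons (cons (mv 780 (cons (fin 781 3 780)
(mv 844 (cons (fin 779 3 779)
(mv 784 (cons (fin 783 2 780)
(fin 785 2 781)))))))
(cons (mv 784 (cons (fin 785 2 781)
(mv 844 (cons (fin 783 2 780)
(mv 907 (cons (fin 908 1 843)
(mv 843 (cons (fin 906 1 842)
(mv 779 (cons (fin 778 3 778)
(fin 780 3 779)))))))))))
(mv 781 (cons (fin 780 3 780)
(mv 974 (cons (fin 910 7 781)
(mv 908 (cons (fin 844 6 780)
(mv 849 (cons (fin 782 3 781)
(mv 914 (cons (fin 913 0 846)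
(mv 850 (cons (fin 915 0 847)
(mv 786 (cons (fin 785 2 782)
(fin 787 2 783)))))))))))))))))
(cons (mv 784 (cons (fin 785 2 781)
(mv 844 (cons (fin 783 2 780)
(mv 908 (cons (fin 907 1 843)
(fin 781 6 780)))))))
(cons (mv 780 (cons (fin 781 3 780)
(mv 844 (cons (fin 779 3 779)
(mv 907 (cons (fin 908 1 843)
(mv 843 (cons (fin 906 1 842)
(mv 783 (cons (fin 782 2 779)
(fin 784 2 780)))))))))))
(mv 781 (cons (fin 780 3 780)
(mv 974 (cons (fin 910 7 781)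
(mv 849 (cons (fin 782 3 781)
(mv 785 (cons (fin 784 2 781)
(fin 786 2 782)))))))))))))))
(cons (mv 908 (cons (fin 909 6 844)
(mv 843 (cons (fin 907 7 843)
(mv 844 (cons (fin 779 7 779)
(fin 781 6 780)))))))
(cons (mv 908 (cons (fin 909 6 844)
(mv 907 (cons (fin 843 7 843)
(mv 846 (cons (fin 844 1 843)
(mv 849 (cons (cons (mv 785 (cons (fin 784 2 781)
(fin 786 2 782)))
(mv 914 (cons (fin 913 0 846)
(mv 850 (cons (fin 915 0 847)
(mv 851 (cons (mv 783 (cons (fin 782 3 782)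
(fin 784 3 783)))
(mv 787 (cons (fin 786 2 783)
(fin 788 2 784))))))))))
(cons (mv 914 (cons (fin 913 0 846)
(mv 850 (cons (fin 915 0 847)
(mv 783 (cons (fin 782 3 782)
(mv 784 (cons (fin 851 3 783)
(fin 785 2 781)))))))))
(mv 914 (cons (fin 913 0 846)
(mv 850 (cons (fin 915 0 847)
(mv 786 (cons (fin 785 2 782)
(fin 787 2 783))))))))))))))))
(mv 909 (cons (fin 908 6 844)
(mv 846 (cons (cons (mv 910 (cons (fin 849 1 845)
(mv 974 (cons (fin 1102 7 845)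
(fin 781 7 781)))))
(mv 781 (cons (fin 780 3 780)
(mv 784 (cons (fin 785 2 781)
(mv 717 (cons (mv 910 (cons (fin 974 7 781)
(fin 653 4 653)))
(mv 716 (cons (fin 652 7 652)
(mv 783 (cons (fin 782 3 716)
(mv 718 (cons (fin 719 0 716)
(fin 654 6 653))))))))))))))
(cons (mv 781 (cons (fin 780 3 780)
(mv 849 (cons (fin 782 3 781)
(mv 785 (cons (fin 784 2 781)
(fin 786 2 782)))))))
(mv 910 (cons (fin 849 1 845)
(mv 974 (cons (fin 1102 7 845)
(fin 783 6 782))))))))))))))))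
(mv 912 (cons (fin 783 7 783)
(mv 849 (cons (fin 913 6 848)
(fin 785 6 784)))))))
(cons (mv 972 (cons (fin 971 3 971)
(mv 849 (cons (cons (mv 912 (cons (fin 913 6 848)
(fin 785 6 784)))
(mv 846 (cons (cons (mv 909 (cons (fin 910 1 845)
(mv 908 (cons (fin 845 1 844)
(mv 907 (cons (fin 843 7 843)
(mv 914 (cons (fin 913 0 846)
(mv 850 (cons (fin 915 0 847)
(mv 786 (cons (fin 785 2 782)
(fin 787 2 783)))))))))))))
(mv 913 (cons (fin 914 0 846)
(mv 781 (cons (fin 782 3 781)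
(mv 845 (cons (fin 780 3 780)
(mv 785 (cons (fin 784 2 781)
(fin 786 2 782))))))))))
(cons (mv 909 (cons (fin 910 1 845)
(mv 913 (cons (fin 914 0 846)
(mv 845 (cons (fin 908 1 844)
(mv 781 (cons (fin 780 3 780)
(fin 782 3 781)))))))))
(cons (mv 909 (cons (fin 910 1 845)
(mv 845 (cons (fin 908 1 844)
(mv 781 (cons (fin 780 3 780)
(fin 782 3 781)))))))
(mv 909 (cons (fin 910 1 845)
(mv 914 (cons (fin 913 0 846)
(mv 850 (cons (fin 915 0 847)
(mv 786 (cons (fin 785 2 782)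
(fin 787 2 783))))))))))))))
(cons (mv 913 (cons (fin 912 6 848)
(mv 914 (cons (fin 846 0 846)
(mv 915 (cons (fin 916 3 848)
(fin 850 0 847)))))))
(mv 785 (cons (fin 912 6 784)
(mv 846 (cons (fin 786 2 782)
(mv 909 (cons (fin 910 1 845)
(mv 845 (cons (fin 908 1 844)
(fin 784 2 781))))))))))))))
(cons (mv 783 (cons (fin 912 7 783)
(mv 781 (cons (cons (mv 972 (cons (fin 971 3 971)
(mv 780 (cons (fin 782 0 780)
(mv 845 (cons (fin 846 3 780)
(mv 908 (cons (fin 909 6 844)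
(fin 844 6 780)))))))))
(cons (mv 972 (cons (fin 971 3 971)
(mv 845 (cons (mv 908 (cons (fin 909 6 844)
(fin 844 6 780)))
(cons (mv 784 (cons (cons (mv 844 (cons (fin 782 1 780)
(fin 846 2 780)))
(mv 782 (cons (fin 844 1 780)
(mv 717 (cons (fin 716 3 716)
(mv 785 (cons (fin 718 3 717)
(mv 721 (cons (fin 720 2 717)
(fin 722 2 718))))))))))
(cons (mv 846 (cons (fin 785 2 781)
(mv 910 (cons (fin 974 7 781)
(mv 717 (cons (fin 653 4 653)
(mv 716 (cons (fin 782 3 716)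
(mv 719 (cons (fin 718 0 716)
(fin 655 5 654)))))))))))
(mv 846 (cons (fin 844 2 780)
(fin 785 2 781))))))
(mv 909 (cons (fin 908 6 844)
(mv 717 (cons (cons (mv 974 (cons (fin 910 4 717)
(mv 716 (cons (fin 652 7 652)
(mv 782 (cons (fin 784 3 716)
(mv 715 (cons (fin 714 0 714)
(fin 718 0 715)))))))))
(mv 716 (cons (fin 652 7 652)
(mv 782 (cons (fin 784 3 716)
(mv 715 (cons (fin 714 0 714)
(fin 718 0 715))))))))
(cons (mv 910 (cons (fin 974 4 717)
(mv 653 (cons (fin 846 4 653)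
(mv 654 (cons (fin 718 6 653)
(fin 590 6 589)))))))
(mv 910 (cons (fin 974 4 717)
(mv 846 (cons (fin 653 4 653)
(mv 784 (cons (fin 785 2 781)
(mv 716 (cons (fin 782 3 716)
(fin 652 7 652)))))))))))))))))))
(mv 782 (cons (fin 780 0 780)
(mv 784 (cons (cons (mv 844 (cons (fin 845 1 780)
(mv 716 (cons (fin 717 3 716)
(mv 721 (cons (fin 720 2 717)
(mv 785 (cons (fin 722 2 718)
(mv 786 (cons (fin 846 1 782)
(fin 787 1 783)))))))))))
(mv 716 (cons (fin 717 3 716)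
(mv 721 (cons (fin 720 2 717)
(mv 785 (cons (fin 722 2 718)
(mv 786 (cons (fin 846 1 782)
(fin 787 1 783))))))))))
(cons (mv 844 (cons (fin 845 1 780)
(mv 721 (cons (fin 720 2 717)
(mv 785 (cons (fin 722 2 718)
(mv 786 (cons (fin 846 1 782)
(fin 787 1 783)))))))))
(cons (mv 844 (cons (fin 845 1 780)
(mv 717 (cons (fin 716 3 716)
(mv 785 (cons (fin 718 3 717)
(mv 786 (cons (fin 846 1 782)
(fin 787 1 783)))))))))
(mv 717 (cons (fin 716 3 716)
(mv 720 (cons (fin 721 2 717)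
(mv 656 (cons (fin 592 5 591)
(mv 655 (cons (fin 591 7 591)
(mv 657 (cons (fin 593 6 592)
(mv 718 (cons (fin 654 1 653)
(fin 719 2 653)))))))))))))))))))))
(cons (mv 972 (cons (fin 971 3 971)
(mv 845 (cons (mv 908 (cons (fin 909 6 844)
(fin 844 6 780)))
(cons (mv 846 (cons (fin 780 3 780)
(mv 784 (cons (fin 844 2 780)
(fin 785 2 781)))))
(mv 909 (cons (fin 908 6 844)
(mv 846 (cons (fin 780 3 780)
(mv 784 (cons (fin 785 2 781)
(mv 717 (cons (mv 910 (cons (fin 974 7 781)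
(fin 653 4 653)))
(mv 716 (cons (fin 652 7 652)
(mv 718 (cons (fin 719 0 716)
(fin 654 6 653))))))))))))))))))
(cons (mv 972 (cons (fin 971 3 971)
(mv 1164 (cons (cons (mv 1227 (cons (fin 1163 5 971)
(mv 1228 (cons (fin 1291 5 1035)
(mv 1229 (cons (fin 1293 4 1036)
(fin 1165 4 972)))))))
(mv 844 (cons (mv 1227 (cons (fin 1163 5 971)
(mv 1291 (cons (fin 1228 5 1035)
(mv 908 (cons (fin 845 6 780)
(mv 843 (cons (fin 907 7 843)
(fin 779 7 779)))))))))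
(cons (mv 782 (cons (fin 780 0 780)
(mv 784 (cons (fin 845 1 780)
(mv 717 (cons (fin 716 3 716)
(mv 785 (cons (fin 718 3 717)
(mv 721 (cons (fin 720 2 717)
(fin 722 2 718)))))))))))
(mv 1227 (cons (fin 1163 5 971)
(mv 1291 (cons (fin 1228 5 1035)
(mv 780 (cons (fin 782 0 780)
(mv 908 (cons (fin 717 6 716)
(mv 843 (cons (fin 907 7 843)
(fin 779 7 779)))))))))))))))
(cons (mv 844 (cons (mv 1229 (cons (fin 1165 4 972)
(mv 1293 (cons (fin 1228 4 1036)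
(mv 908 (cons (fin 845 6 780)
(mv 843 (cons (fin 907 7 843)
(fin 779 7 779)))))))))
(cons (mv 782 (cons (fin 780 0 780)
(mv 784 (cons (fin 845 1 780)
(mv 717 (cons (fin 716 3 716)
(mv 785 (cons (fin 718 3 717)
(mv 721 (cons (fin 720 2 717)
(fin 722 2 718)))))))))))
(mv 1229 (cons (fin 1165 4 972)
(mv 1293 (cons (fin 1228 4 1036)
(mv 780 (cons (fin 782 0 780)
(mv 908 (cons (fin 717 6 716)
(mv 843 (cons (fin 907 7 843)
(fin 779 7 779))))))))))))))
(mv 844 (cons (mv 1227 (cons (fin 1163 5 971)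
(mv 1229 (cons (fin 1165 4 972)
(mv 908 (cons (fin 845 6 780)
(mv 843 (cons (fin 907 7 843)
(fin 779 7 779)))))))))
(cons (mv 782 (cons (fin 780 0 780)
(mv 784 (cons (fin 845 1 780)
(mv 717 (cons (fin 716 3 716)
(mv 785 (cons (fin 718 3 717)
(mv 721 (cons (fin 720 2 717)
(fin 722 2 718)))))))))))
(mv 1227 (cons (fin 1163 5 971)
(mv 1229 (cons (fin 1165 4 972)
(mv 780 (cons (fin 782 0 780)
(mv 908 (cons (fin 717 6 716)
(mv 843 (cons (fin 907 7 843)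
(fin 779 7 779)))))))))))))))))))
(mv 782 (cons (fin 780 0 780)
(mv 784 (cons (cons (mv 971 (cons (fin 972 3 971)
(mv 1035 (cons (fin 970 3 970)
(mv 1228 (cons (fin 1164 7 971)
(mv 717 (cons (fin 716 3 716)
(mv 785 (cons (fin 718 3 717)
(mv 786 (cons (fin 846 1 782)
(fin 787 1 783)))))))))))))
(mv 971 (cons (fin 972 3 971)
(mv 1035 (cons (fin 970 3 970)
(mv 1228 (cons (fin 1164 7 971)
(mv 721 (cons (fin 720 2 717)
(mv 785 (cons (fin 722 2 718)
(mv 786 (cons (fin 846 1 782)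
(fin 787 1 783))))))))))))))
(cons (mv 716 (cons (fin 717 3 716)
(mv 721 (cons (fin 720 2 717)
(mv 785 (cons (fin 722 2 718)
(mv 786 (cons (fin 846 1 782)
(fin 787 1 783)))))))))
(mv 717 (cons (fin 716 3 716)
(mv 720 (cons (fin 721 2 717)
(mv 656 (cons (fin 592 5 591)
(mv 655 (cons (fin 591 7 591)
(mv 657 (cons (fin 593 6 592)
(mv 718 (cons (fin 654 1 653)
(fin 719 2 653))))))))))))))))))))))))
(mv 972 (cons (fin 971 3 971)
(mv 912 (cons (fin 783 7 783)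
(mv 913 (cons (fin 849 6 848)
(mv 914 (cons (fin 915 3 847)
(mv 845 (cons (fin 846 0 845)
(mv 908 (cons (fin 909 6 844)
(mv 843 (cons (fin 907 7 843)
(mv 844 (cons (fin 779 7 779)
(fin 781 6 780)))))))))))))))))))))))))
(mv 1101 (cons (fin 1100 1 1036)
(mv 910 (cons (mv 974 (cons (fin 846 5 845)
(mv 1165 (cons (fin 1102 5 909)
(fin 1229 6 973)))))
(cons (mv 1168 (cons (cons (mv 1231 (cons (fin 1167 5 975)
(mv 1232 (cons (fin 1295 5 1039)
(mv 1233 (cons (fin 1297 4 1040)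
(fin 1169 4 976)))))))
(mv 1233 (cons (fin 1169 4 976)
(mv 1297 (cons (fin 1232 4 1040)
(mv 849 (cons (cons (mv 912 (cons (fin 911 7 847)
(fin 913 6 848)))
(mv 848 (cons (mv 909 (cons (fin 846 1 845)
(mv 911 (cons (fin 850 1 846)
(fin 908 2 844)))))
(cons (mv 850 (cons (fin 911 1 846)
(mv 915 (cons (fin 914 0 847)
(mv 851 (cons (fin 916 0 848)
(mv 787 (cons (fin 786 2 783)
(fin 788 2 784)))))))))
(mv 846 (cons (fin 909 1 845)
(mv 913 (cons (fin 914 0 846)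
(mv 781 (cons (fin 782 3 781)
(mv 845 (cons (fin 780 3 780)
(mv 785 (cons (fin 784 2 781)
(fin 786 2 782)))))))))))))))
(cons (mv 848 (cons (cons (mv 912 (cons (fin 913 6 848)
(fin 785 6 784)))
(mv 846 (cons (fin 909 1 845)
(mv 913 (cons (fin 914 0 846)
(mv 781 (cons (fin 782 3 781)
(mv 845 (cons (fin 780 3 780)
(mv 785 (cons (fin 784 2 781)
(fin 786 2 782))))))))))))
(cons (mv 913 (cons (fin 912 6 848)
(mv 846 (cons (fin 909 1 845)
(fin 914 0 846)))))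
(mv 846 (cons (fin 909 1 845)
(mv 785 (cons (fin 786 2 782)
(fin 912 6 784))))))))
(mv 911 (cons (fin 912 7 847)
(mv 848 (cons (fin 850 1 846)
(mv 909 (cons (fin 846 1 845)
(fin 908 2 844)))))))))))))))
(cons (mv 1231 (cons (fin 1167 5 975)
(mv 1295 (cons (fin 1232 5 1039)
(mv 849 (cons (cons (mv 912 (cons (fin 911 7 847)
(fin 913 6 848)))
(mv 848 (cons (mv 909 (cons (fin 846 1 845)
(mv 911 (cons (fin 850 1 846)
(fin 908 2 844)))))
(cons (mv 850 (cons (fin 911 1 846)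
(mv 915 (cons (fin 914 0 847)
(mv 851 (cons (fin 916 0 848)
(mv 787 (cons (fin 786 2 783)
(fin 788 2 784)))))))))
(mv 846 (cons (fin 909 1 845)
(mv 913 (cons (fin 914 0 846)
(mv 781 (cons (fin 782 3 781)
(mv 845 (cons (fin 780 3 780)
(mv 785 (cons (fin 784 2 781)
(fin 786 2 782)))))))))))))))
(cons (mv 848 (cons (cons (mv 912 (cons (fin 913 6 848)
(fin 785 6 784)))
(mv 846 (cons (fin 909 1 845)
(mv 913 (cons (fin 914 0 846)
(mv 781 (cons (fin 782 3 781)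
(mv 845 (cons (fin 780 3 780)
(mv 785 (cons (fin 784 2 781)
(fin 786 2 782))))))))))))
(cons (mv 913 (cons (fin 912 6 848)
(mv 846 (cons (fin 909 1 845)
(fin 914 0 846)))))
(mv 846 (cons (fin 909 1 845)
(mv 785 (cons (fin 786 2 782)
(fin 912 6 784))))))))
(mv 911 (cons (fin 912 7 847)
(mv 848 (cons (fin 850 1 846)
(mv 909 (cons (fin 846 1 845)
(fin 908 2 844))))))))))))))
(mv 1231 (cons (fin 1167 5 975)
(mv 1233 (cons (fin 1169 4 976)
(mv 849 (cons (cons (mv 912 (cons (fin 911 7 847)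
(fin 913 6 848)))
(mv 848 (cons (mv 909 (cons (fin 846 1 845)
(mv 911 (cons (fin 850 1 846)
(fin 908 2 844)))))
(cons (mv 850 (cons (fin 911 1 846)
(mv 915 (cons (fin 914 0 847)
(mv 851 (cons (fin 916 0 848)
(mv 787 (cons (fin 786 2 783)
(fin 788 2 784)))))))))
(mv 846 (cons (fin 909 1 845)
(mv 913 (cons (fin 914 0 846)
(mv 781 (cons (fin 782 3 781)
(mv 845 (cons (fin 780 3 780)
(mv 785 (cons (fin 784 2 781)
(fin 786 2 782)))))))))))))))
(cons (mv 848 (cons (cons (mv 912 (cons (fin 913 6 848)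
(fin 785 6 784)))
(mv 846 (cons (fin 909 1 845)
(mv 913 (cons (fin 914 0 846)
(mv 781 (cons (fin 782 3 781)
(mv 845 (cons (fin 780 3 780)
(mv 785 (cons (fin 784 2 781)
(fin 786 2 782))))))))))))
(cons (mv 913 (cons (fin 912 6 848)
(mv 846 (cons (fin 909 1 845)
(fin 914 0 846)))))
(mv 846 (cons (fin 909 1 845)
(mv 785 (cons (fin 786 2 782)
(fin 912 6 784))))))))
(mv 911 (cons (fin 912 7 847)
(mv 848 (cons (fin 850 1 846)
(mv 909 (cons (fin 846 1 845)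
(fin 908 2 844)))))))))))))))))
(mv 911 (cons (fin 912 7 847)
(mv 1229 (cons (cons (mv 974 (cons (fin 1165 6 973)
(fin 1102 6 846)))
(mv 1165 (cons (mv 1292 (cons (fin 1228 5 1036)
(mv 1293 (cons (fin 1356 5 1100)
(fin 1102 6 1037)))))
(cons (mv 1228 (cons (fin 1292 5 1036)
(mv 1230 (cons (fin 1294 4 1037)
(mv 1036 (cons (fin 972 7 972)
(mv 1231 (cons (mv 1164 (cons (fin 1163 3 1163)
(fin 1232 3 1164)))
(cons (mv 1295 (cons (fin 1296 0 1228)
(mv 1168 (cons (fin 1167 2 1164)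
(fin 1232 5 1039)))))
(mv 1295 (cons (fin 1296 0 1228)
(mv 1163 (cons (fin 1164 3 1163)
(mv 1227 (cons (fin 1162 3 1162)
(mv 1166 (cons (fin 1226 2 1162)
(fin 1167 2 1163))))))))))))))))))
(mv 1293 (cons (fin 1102 6 1037)
(mv 1294 (cons (fin 1358 4 1101)
(fin 1230 4 1037)))))))))
(cons (mv 1102 (cons (fin 974 6 846)
(mv 1168 (cons (cons (mv 1231 (cons (fin 1167 5 975)
(mv 1295 (cons (fin 1232 5 1039)
(mv 1230 (cons (fin 1166 4 1038)
(mv 1296 (cons (fin 1228 0 1228)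
(mv 1297 (cons (fin 1294 3 1229)
(fin 1298 3 1230)))))))))))
(mv 1169 (cons (fin 1233 4 976)
(mv 1166 (cons (fin 1167 3 1101)
(mv 1230 (cons (fin 1293 5 1037)
(fin 1294 7 1037))))))))
(cons (mv 1232 (cons (mv 1233 (cons (fin 1297 4 1040)
(fin 1169 4 976)))
(cons (mv 1295 (cons (fin 1231 5 1039)
(mv 1296 (cons (fin 1359 5 1103)
(mv 1297 (cons (fin 1361 4 1104)
(mv 1294 (cons (fin 1230 3 1229)
(mv 1357 (cons (fin 1358 1 1293)
(mv 1293 (cons (fin 1356 1 1292)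
(fin 1228 3 1228)))))))))))))
(mv 1231 (cons (fin 1295 5 1039)
(mv 1169 (cons (fin 1230 2 1165)
(fin 1233 4 976))))))))
(mv 1231 (cons (fin 1167 5 975)
(mv 1232 (cons (fin 1295 5 1039)
(mv 1233 (cons (fin 1297 4 1040)
(fin 1169 4 976))))))))))))
(mv 1165 (cons (fin 974 6 973)
(mv 1292 (cons (fin 1228 5 1036)
(mv 1293 (cons (fin 1356 5 1100)
(mv 1294 (cons (fin 1358 4 1101)
(fin 1230 4 1037))))))))))))))))))))))))))))))
(cons (cons (mv 1038 (cons (fin 1105 0 1037)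
(mv 1100 (cons (fin 1101 1 1036)
(mv 1036 (cons (fin 1099 1 1035)
(fin 1103 0 1036)))))))
(mv 1038 (cons (fin 1105 0 1037)
(mv 976 (cons (fin 977 2 973)
(mv 847 (cons (cons (mv 1100 (cons (fin 1101 1 1036)
(mv 1099 (cons (fin 1036 1 1035)
(mv 912 (cons (fin 911 7 847)
(mv 848 (cons (fin 783 7 783)
(mv 849 (cons (fin 913 6 848)
(fin 785 6 784)))))))))))
(mv 1231 (cons (cons (mv 1168 (cons (fin 1167 5 975)
(mv 1232 (cons (fin 1295 5 1039)
(mv 1233 (cons (fin 1297 4 1040)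
(fin 1169 4 976)))))))
(mv 1036 (cons (cons (mv 1100 (cons (fin 1099 1 1035)
(fin 1101 1 1036)))
(mv 971 (cons (fin 972 3 971)
(mv 1035 (cons (fin 970 3 970)
(mv 1098 (cons (fin 1099 1 1034)
(mv 1034 (cons (fin 1097 1 1033)
(mv 1226 (cons (fin 1162 6 970)
(mv 1102 (cons (fin 1101 0 1034)
(mv 907 (cons (fin 843 5 842)
(mv 974 (cons (mv 1166 (cons (fin 1167 4 974)
(mv 1229 (cons (fin 1165 5 973)
(mv 1230 (cons (fin 1293 5 1037)
(fin 1295 4 1038)))))))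
(mv 910 (cons (fin 911 6 846)
(mv 909 (cons (fin 845 7 845)
(mv 846 (cons (fin 908 2 843)
(fin 783 6 782))))))))))))))))))))))))
(cons (mv 1101 (cons (fin 1100 1 1036)
(mv 971 (cons (fin 972 3 971)
(mv 1035 (cons (fin 970 3 970)
(mv 1102 (cons (fin 1034 0 1034)
(mv 974 (cons (mv 1165 (cons (fin 910 5 909)
(fin 1229 6 973)))
(cons (mv 1229 (cons (fin 1165 6 973)
(mv 1166 (cons (fin 1167 4 974)
(mv 1230 (cons (fin 1293 5 1037)
(fin 1294 7 1037)))))))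
(mv 910 (cons (fin 846 5 845)
(fin 911 6 846))))))))))))))
(mv 1099 (cons (fin 1100 1 1035)
(mv 1035 (cons (fin 1098 1 1034)
(mv 971 (cons (fin 970 3 970)
(fin 972 3 971)))))))))))
(cons (mv 1101 (cons (fin 1100 1 1036)
(mv 1232 (cons (cons (mv 1168 (cons (fin 1295 5 1039)
(mv 1233 (cons (fin 1297 4 1040)
(fin 1169 4 976)))))
(mv 1229 (cons (mv 1165 (cons (fin 974 6 973)
(mv 1230 (cons (fin 1164 3 1164)
(fin 1294 4 1037)))))
(cons (mv 1230 (cons (cons (mv 1292 (cons (fin 1293 1 1228)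
(mv 1296 (cons (fin 1297 0 1229)
(mv 1228 (cons (fin 1291 1 1227)
(fin 1295 0 1228)))))))
(mv 1296 (cons (fin 1297 0 1229)
(mv 1228 (cons (fin 1295 0 1228)
(mv 1291 (cons (fin 1292 1 1227)
(mv 1227 (cons (fin 1290 1 1226)
(mv 1163 (cons (fin 1162 3 1162)
(fin 1164 3 1163))))))))))))
(cons (mv 1293 (cons (fin 1292 1 1228)
(mv 1233 (cons (fin 1294 1 1229)
(mv 1298 (cons (fin 1297 0 1230)
(mv 1234 (cons (fin 1299 0 1231)
(mv 1170 (cons (fin 1169 2 1166)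
(fin 1171 2 1167)))))))))))
(cons (mv 1297 (cons (fin 1296 0 1229)
(mv 1233 (cons (fin 1298 0 1230)
(mv 1294 (cons (fin 1293 1 1229)
(mv 1234 (cons (fin 1295 1 1230)
(mv 1170 (cons (fin 1169 2 1166)
(fin 1171 2 1167)))))))))))
(mv 1292 (cons (fin 1293 1 1228)
(mv 1228 (cons (fin 1291 1 1227)
(mv 1295 (cons (fin 1296 0 1228)
(mv 1227 (cons (fin 1294 0 1227)
(mv 1163 (cons (fin 1162 3 1162)
(fin 1164 3 1163)))))))))))))))
(mv 1165 (cons (fin 974 6 973)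
(mv 1292 (cons (fin 1228 5 1036)
(mv 1293 (cons (fin 1356 5 1100)
(fin 1102 6 1037)))))))))))
(cons (mv 1233 (cons (cons (mv 1168 (cons (fin 1297 4 1040)
(fin 1169 4 976)))
(mv 1230 (cons (cons (mv 1293 (cons (fin 1294 1 1229)
(mv 1292 (cons (fin 1229 1 1228)
(mv 1298 (cons (fin 1297 0 1230)
(mv 1234 (cons (fin 1299 0 1231)
(mv 1170 (cons (fin 1169 2 1166)
(fin 1171 2 1167)))))))))))
(mv 1297 (cons (fin 1298 0 1230)
(mv 1229 (cons (fin 1296 0 1229)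
(mv 1165 (cons (fin 1164 3 1164)
(fin 1166 3 1165))))))))
(cons (mv 1293 (cons (fin 1294 1 1229)
(mv 1229 (cons (fin 1292 1 1228)
(mv 1165 (cons (fin 1164 3 1164)
(fin 1166 3 1165)))))))
(mv 1293 (cons (fin 1294 1 1229)
(mv 1298 (cons (fin 1297 0 1230)
(mv 1234 (cons (fin 1299 0 1231)
(mv 1170 (cons (fin 1169 2 1166)
(fin 1171 2 1167)))))))))))))
(cons (mv 1169 (cons (fin 1168 4 976)
(mv 1230 (cons (fin 1170 2 1166)
(mv 1293 (cons (fin 1294 1 1229)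
(mv 1229 (cons (fin 1292 1 1228)
(mv 1165 (cons (fin 1164 3 1164)
(fin 1166 3 1165)))))))))))
(mv 1297 (cons (fin 1168 4 1040)
(mv 1298 (cons (fin 1230 0 1230)
(mv 1299 (cons (fin 1296 3 1231)
(fin 1300 3 1232))))))))))
(cons (mv 1295 (cons (fin 1168 5 1039)
(mv 1229 (cons (cons (mv 1165 (cons (fin 974 6 973)
(mv 1230 (cons (fin 1164 3 1164)
(fin 1294 4 1037)))))
(mv 1230 (cons (mv 1296 (cons (fin 1228 0 1228)
(fin 1297 0 1229)))
(cons (mv 1292 (cons (fin 1293 1 1228)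
(mv 1228 (cons (fin 1291 1 1227)
(mv 1227 (cons (fin 1294 0 1227)
(mv 1163 (cons (fin 1162 3 1162)
(fin 1164 3 1163)))))))))
(mv 1293 (cons (fin 1292 1 1228)
(mv 1296 (cons (fin 1297 0 1229)
(mv 1166 (cons (fin 1102 5 1037)
(mv 1357 (cons (fin 1421 6 1165)
(mv 1356 (cons (fin 1294 1 1292)
(mv 1359 (cons (fin 1358 2 1292)
(fin 1423 7 1166)))))))))))))))))
(cons (mv 1165 (cons (fin 974 6 973)
(mv 1292 (cons (fin 1228 5 1036)
(mv 1293 (cons (fin 1294 2 1228)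
(fin 1356 5 1100)))))))
(mv 1165 (cons (fin 974 6 973)
(mv 1292 (cons (fin 1228 5 1036)
(mv 1293 (cons (fin 1230 1 1228)
(fin 1356 5 1100))))))))))))
(mv 1168 (cons (fin 1295 5 1039)
(mv 1169 (cons (fin 1233 4 976)
(mv 1229 (cons (fin 1230 2 1165)
(mv 1165 (cons (fin 974 6 973)
(mv 1292 (cons (fin 1228 5 1036)
(mv 1293 (cons (fin 1356 5 1100)
(fin 1102 6 1037)))))))))))))))))))
(mv 1167 (cons (fin 1168 5 975)
(mv 1036 (cons (cons (mv 1100 (cons (fin 1099 1 1035)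
(fin 1101 1 1036)))
(mv 971 (cons (fin 972 3 971)
(mv 1035 (cons (fin 970 3 970)
(mv 1098 (cons (fin 1099 1 1034)
(mv 1034 (cons (fin 1097 1 1033)
(mv 1226 (cons (fin 1162 6 970)
(mv 1102 (cons (fin 1101 0 1034)
(mv 974 (cons (fin 1166 4 974)
(mv 910 (cons (fin 911 6 846)
(mv 845 (cons (fin 909 7 845)
(mv 846 (cons (fin 781 7 781)
(fin 783 6 782))))))))))))))))))))))
(cons (mv 1101 (cons (fin 1100 1 1036)
(mv 971 (cons (fin 972 3 971)
(mv 1035 (cons (fin 970 3 970)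
(mv 1102 (cons (fin 1034 0 1034)
(mv 1166 (cons (fin 974 4 974)
(mv 1230 (cons (fin 1294 7 1037)
(mv 1229 (cons (fin 1293 5 1037)
(mv 1228 (cons (fin 1227 2 1163)
(mv 1292 (cons (fin 1291 1 1227)
(fin 1165 5 1036)))))))))))))))))))
(mv 1099 (cons (fin 1100 1 1035)
(mv 1035 (cons (fin 1098 1 1034)
(mv 971 (cons (fin 970 3 970)
(fin 972 3 971))))))))))))))))
(cons (mv 912 (cons (fin 911 7 847)
(mv 848 (cons (fin 783 7 783)
(mv 849 (cons (fin 913 6 848)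
(fin 785 6 784)))))))
(cons (mv 1100 (cons (fin 1101 1 1036)
(mv 1036 (cons (fin 1099 1 1035)
(mv 848 (cons (cons (mv 971 (cons (fin 972 3 971)
(mv 1035 (cons (fin 970 3 970)
(mv 1228 (cons (fin 1164 7 971)
(mv 907 (cons (fin 843 4 843)
(mv 912 (cons (fin 783 7 783)
(mv 849 (cons (fin 913 6 848)
(fin 785 6 784)))))))))))))
(cons (mv 972 (cons (fin 971 3 971)
(mv 845 (cons (cons (mv 908 (cons (fin 909 6 844)
(mv 907 (cons (fin 843 7 843)
(mv 844 (cons (fin 846 1 843)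
(fin 781 6 780)))))))
(cons (mv 846 (cons (cons (mv 780 (cons (fin 781 3 780)
(mv 844 (cons (fin 779 3 779)
(mv 784 (cons (fin 783 2 780)
(fin 785 2 781)))))))
(mv 784 (cons (fin 785 2 781)
(mv 783 (cons (fin 844 2 780)
(mv 910 (cons (fin 974 6 782)
(mv 849 (cons (fin 909 1 845)
(mv 850 (cons (fin 782 3 782)
(fin 851 3 783))))))))))))
(cons (mv 781 (cons (fin 780 3 780)
(mv 974 (cons (fin 910 7 781)
(mv 849 (cons (fin 782 3 781)
(mv 914 (cons (fin 913 0 846)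
(mv 850 (cons (fin 915 0 847)
(mv 786 (cons (fin 785 2 782)
(fin 787 2 783)))))))))))))
(mv 780 (cons (fin 781 3 780)
(mv 844 (cons (fin 779 3 779)
(mv 783 (cons (fin 784 2 780)
(mv 910 (cons (fin 974 6 782)
(mv 909 (cons (fin 849 1 845)
(mv 843 (cons (fin 842 0 842)
(fin 782 2 779))))))))))))))))
(mv 846 (cons (cons (mv 780 (cons (fin 781 3 780)
(mv 844 (cons (fin 779 3 779)
(mv 784 (cons (fin 783 2 780)
(fin 785 2 781)))))))
(cons (mv 784 (cons (fin 785 2 781)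
(mv 844 (cons (fin 783 2 780)
(mv 907 (cons (fin 908 1 843)
(mv 843 (cons (fin 906 1 842)
(mv 779 (cons (fin 778 3 778)
(fin 780 3 779)))))))))))
(mv 781 (cons (fin 780 3 780)
(mv 974 (cons (fin 910 7 781)
(mv 908 (cons (fin 844 6 780)
(mv 849 (cons (fin 782 3 781)
(mv 914 (cons (fin 913 0 846)
(mv 850 (cons (fin 915 0 847)
(mv 786 (cons (fin 785 2 782)
(fin 787 2 783)))))))))))))))))
(cons (mv 784 (cons (fin 785 2 781)
(mv 844 (cons (fin 783 2 780)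
(mv 908 (cons (fin 907 1 843)
(fin 781 6 780)))))))
(cons (mv 780 (cons (fin 781 3 780)
(mv 844 (cons (fin 779 3 779)
(mv 907 (cons (fin 908 1 843)
(mv 843 (cons (fin 906 1 842)
(mv 783 (cons (fin 782 2 779)
(fin 784 2 780)))))))))))
(mv 781 (cons (fin 780 3 780)
(mv 974 (cons (fin 910 7 781)
(mv 849 (cons (fin 782 3 781)
(mv 785 (cons (fin 784 2 781)
(fin 786 2 782)))))))))))))))
(cons (mv 908 (cons (fin 909 6 844)
(mv 843 (cons (fin 907 7 843)
(mv 844 (cons (fin 779 7 779)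
(fin 781 6 780)))))))
(cons (mv 908 (cons (fin 909 6 844)
(mv 907 (cons (fin 843 7 843)
(mv 846 (cons (fin 844 1 843)
(mv 849 (cons (cons (mv 785 (cons (fin 784 2 781)
(fin 786 2 782)))
(mv 914 (cons (fin 913 0 846)
(mv 850 (cons (fin 915 0 847)
(mv 851 (cons (mv 783 (cons (fin 782 3 782)
(fin 784 3 783)))
(mv 787 (cons (fin 786 2 783)
(fin 788 2 784))))))))))
(cons (mv 914 (cons (fin 913 0 846)
(mv 850 (cons (fin 915 0 847)
(mv 783 (cons (fin 782 3 782)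
(mv 784 (cons (fin 851 3 783)
(fin 785 2 781)))))))))
(mv 914 (cons (fin 913 0 846)
(mv 850 (cons (fin 915 0 847)
(mv 786 (cons (fin 785 2 782)
(fin 787 2 783))))))))))))))))
(mv 909 (cons (fin 908 6 844)
(mv 846 (cons (cons (mv 910 (cons (fin 849 1 845)
(mv 974 (cons (fin 1102 7 845)
(fin 781 7 781)))))
(mv 781 (cons (fin 780 3 780)
(mv 784 (cons (fin 785 2 781)
(mv 717 (cons (mv 910 (cons (fin 974 7 781)
(fin 653 4 653)))
(mv 716 (cons (fin 652 7 652)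
(mv 783 (cons (fin 782 3 716)
(mv 718 (cons (fin 719 0 716)
(fin 654 6 653))))))))))))))
(cons (mv 781 (cons (fin 780 3 780)
(mv 849 (cons (fin 782 3 781)
(mv 785 (cons (fin 784 2 781)
(fin 786 2 782)))))))
(mv 910 (cons (fin 849 1 845)
(mv 974 (cons (fin 1102 7 845)
(fin 783 6 782))))))))))))))))
(mv 912 (cons (fin 783 7 783)
(mv 849 (cons (fin 913 6 848)
(fin 785 6 784)))))))
(cons (mv 972 (cons (fin 971 3 971)
(mv 849 (cons (cons (mv 912 (cons (fin 913 6 848)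
(fin 785 6 784)))
(mv 846 (cons (cons (mv 909 (cons (fin 910 1 845)
(mv 908 (cons (fin 845 1 844)
(mv 907 (cons (fin 843 7 843)
(mv 914 (cons (fin 913 0 846)
(mv 850 (cons (fin 915 0 847)
(mv 786 (cons (fin 785 2 782)
(fin 787 2 783)))))))))))))
(mv 913 (cons (fin 914 0 846)
(mv 781 (cons (fin 782 3 781)
(mv 845 (cons (fin 780 3 780)
(mv 785 (cons (fin 784 2 781)
(fin 786 2 782))))))))))
(cons (mv 909 (cons (fin 910 1 845)
(mv 913 (cons (fin 914 0 846)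
(mv 845 (cons (fin 908 1 844)
(mv 781 (cons (fin 780 3 780)
(fin 782 3 781)))))))))
(cons (mv 909 (cons (fin 910 1 845)
(mv 845 (cons (fin 908 1 844)
(mv 781 (cons (fin 780 3 780)
(fin 782 3 781)))))))
(mv 909 (cons (fin 910 1 845)
(mv 914 (cons (fin 913 0 846)
(mv 850 (cons (fin 915 0 847)
(mv 786 (cons (fin 785 2 782)
(fin 787 2 783))))))))))))))
(cons (mv 913 (cons (fin 912 6 848)
(mv 914 (cons (fin 846 0 846)
(mv 915 (cons (fin 916 3 848)
(fin 850 0 847)))))))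
(mv 785 (cons (fin 912 6 784)
(mv 846 (cons (fin 786 2 782)
(mv 909 (cons (fin 910 1 845)
(mv 845 (cons (fin 908 1 844)
(fin 784 2 781))))))))))))))
(cons (mv 783 (cons (fin 912 7 783)
(mv 781 (cons (cons (mv 972 (cons (fin 971 3 971)
(mv 780 (cons (fin 782 0 780)
(mv 845 (cons (fin 846 3 780)
(mv 908 (cons (fin 909 6 844)
(fin 844 6 780)))))))))
(cons (mv 972 (cons (fin 971 3 971)
(mv 845 (cons (mv 908 (cons (fin 909 6 844)
(fin 844 6 780)))
(cons (mv 784 (cons (cons (mv 844 (cons (fin 782 1 780)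
(fin 846 2 780)))
(mv 782 (cons (fin 844 1 780)
(mv 717 (cons (fin 716 3 716)
(mv 785 (cons (fin 718 3 717)
(mv 721 (cons (fin 720 2 717)
(fin 722 2 718))))))))))
(cons (mv 846 (cons (fin 785 2 781)
(mv 910 (cons (fin 974 7 781)
(mv 717 (cons (fin 653 4 653)
(mv 716 (cons (fin 782 3 716)
(mv 719 (cons (fin 718 0 716)
(fin 655 5 654)))))))))))
(mv 846 (cons (fin 844 2 780)
(fin 785 2 781))))))
(mv 909 (cons (fin 908 6 844)
(mv 717 (cons (cons (mv 974 (cons (fin 910 4 717)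
(mv 716 (cons (fin 652 7 652)
(mv 782 (cons (fin 784 3 716)
(mv 715 (cons (fin 714 0 714)
(fin 718 0 715)))))))))
(mv 716 (cons (fin 652 7 652)
(mv 782 (cons (fin 784 3 716)
(mv 715 (cons (fin 714 0 714)
(fin 718 0 715))))))))
(cons (mv 910 (cons (fin 974 4 717)
(mv 653 (cons (fin 846 4 653)
(mv 654 (cons (fin 718 6 653)
(fin 590 6 589)))))))
(mv 910 (cons (fin 974 4 717)
(mv 846 (cons (fin 653 4 653)
(mv 784 (cons (fin 785 2 781)
(mv 716 (cons (fin 782 3 716)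
(fin 652 7 652)))))))))))))))))))
(mv 782 (cons (fin 780 0 780)
(mv 784 (cons (cons (mv 844 (cons (fin 845 1 780)
(mv 716 (cons (fin 717 3 716)
(mv 721 (cons (fin 720 2 717)
(mv 785 (cons (fin 722 2 718)
(mv 786 (cons (fin 846 1 782)
(fin 787 1 783)))))))))))
(mv 716 (cons (fin 717 3 716)
(mv 721 (cons (fin 720 2 717)
(mv 785 (cons (fin 722 2 718)
(mv 786 (cons (fin 846 1 782)
(fin 787 1 783))))))))))
(cons (mv 844 (cons (fin 845 1 780)
(mv 721 (cons (fin 720 2 717)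
(mv 785 (cons (fin 722 2 718)
(mv 786 (cons (fin 846 1 782)
(fin 787 1 783)))))))))
(cons (mv 844 (cons (fin 845 1 780)
(mv 717 (cons (fin 716 3 716)
(mv 785 (cons (fin 718 3 717)
(mv 786 (cons (fin 846 1 782)
(fin 787 1 783)))))))))
(mv 717 (cons (fin 716 3 716)
(mv 720 (cons (fin 721 2 717)
(mv 656 (cons (fin 592 5 591)
(mv 655 (cons (fin 591 7 591)
(mv 657 (cons (fin 593 6 592)
(mv 718 (cons (fin 654 1 653)
(fin 719 2 653)))))))))))))))))))))
(cons (mv 972 (cons (fin 971 3 971)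
(mv 845 (cons (mv 908 (cons (fin 909 6 844)
(fin 844 6 780)))
(cons (mv 846 (cons (fin 780 3 780)
(mv 784 (cons (fin 844 2 780)
(fin 785 2 781)))))
(mv 909 (cons (fin 908 6 844)
(mv 846 (cons (fin 780 3 780)
(mv 784 (cons (fin 785 2 781)
(mv 717 (cons (mv 910 (cons (fin 974 7 781)
(fin 653 4 653)))
(mv 716 (cons (fin 652 7 652)
(mv 718 (cons (fin 719 0 716)
(fin 654 6 653))))))))))))))))))
(cons (mv 972 (cons (fin 971 3 971)
(mv 1164 (cons (cons (mv 1227 (cons (fin 1163 5 971)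
(mv 1228 (cons (fin 1291 5 1035)
(mv 1229 (cons (fin 1293 4 1036)
(fin 1165 4 972)))))))
(mv 844 (cons (mv 1227 (cons (fin 1163 5 971)
(mv 1291 (cons (fin 1228 5 1035)
(mv 908 (cons (fin 845 6 780)
(mv 843 (cons (fin 907 7 843)
(fin 779 7 779)))))))))
(cons (mv 782 (cons (fin 780 0 780)
(mv 784 (cons (fin 845 1 780)
(mv 717 (cons (fin 716 3 716)
(mv 785 (cons (fin 718 3 717)
(mv 721 (cons (fin 720 2 717)
(fin 722 2 718)))))))))))
(mv 1227 (cons (fin 1163 5 971)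
(mv 1291 (cons (fin 1228 5 1035)
(mv 780 (cons (fin 782 0 780)
(mv 908 (cons (fin 717 6 716)
(mv 843 (cons (fin 907 7 843)
(fin 779 7 779)))))))))))))))
(cons (mv 844 (cons (mv 1229 (cons (fin 1165 4 972)
(mv 1293 (cons (fin 1228 4 1036)
(mv 908 (cons (fin 845 6 780)
(mv 843 (cons (fin 907 7 843)
(fin 779 7 779)))))))))
(cons (mv 782 (cons (fin 780 0 780)
(mv 784 (cons (fin 845 1 780)
(mv 717 (cons (fin 716 3 716)
(mv 785 (cons (fin 718 3 717)
(mv 721 (cons (fin 720 2 717)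
(fin 722 2 718)))))))))))
(mv 1229 (cons (fin 1165 4 972)
(mv 1293 (cons (fin 1228 4 1036)
(mv 780 (cons (fin 782 0 780)
(mv 908 (cons (fin 717 6 716)
(mv 843 (cons (fin 907 7 843)
(fin 779 7 779))))))))))))))
(mv 844 (cons (mv 1227 (cons (fin 1163 5 971)
(mv 1229 (cons (fin 1165 4 972)
(mv 908 (cons (fin 845 6 780)
(mv 843 (cons (fin 907 7 843)
(fin 779 7 779)))))))))
(cons (mv 782 (cons (fin 780 0 780)
(mv 784 (cons (fin 845 1 780)
(mv 717 (cons (fin 716 3 716)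
(mv 785 (cons (fin 718 3 717)
(mv 721 (cons (fin 720 2 717)
(fin 722 2 718)))))))))))
(mv 1227 (cons (fin 1163 5 971)
(mv 1229 (cons (fin 1165 4 972)
(mv 780 (cons (fin 782 0 780)
(mv 908 (cons (fin 717 6 716)
(mv 843 (cons (fin 907 7 843)
(fin 779 7 779)))))))))))))))))))
(mv 782 (cons (fin 780 0 780)
(mv 784 (cons (cons (mv 971 (cons (fin 972 3 971)
(mv 1035 (cons (fin 970 3 970)
(mv 1228 (cons (fin 1164 7 971)
(mv 717 (cons (fin 716 3 716)
(mv 785 (cons (fin 718 3 717)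
(mv 786 (cons (fin 846 1 782)
(fin 787 1 783)))))))))))))
(mv 971 (cons (fin 972 3 971)
(mv 1035 (cons (fin 970 3 970)
(mv 1228 (cons (fin 1164 7 971)
(mv 721 (cons (fin 720 2 717)
(mv 785 (cons (fin 722 2 718)
(mv 786 (cons (fin 846 1 782)
(fin 787 1 783))))))))))))))
(cons (mv 716 (cons (fin 717 3 716)
(mv 721 (cons (fin 720 2 717)
(mv 785 (cons (fin 722 2 718)
(mv 786 (cons (fin 846 1 782)
(fin 787 1 783)))))))))
(mv 717 (cons (fin 716 3 716)
(mv 720 (cons (fin 721 2 717)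
(mv 656 (cons (fin 592 5 591)
(mv 655 (cons (fin 591 7 591)
(mv 657 (cons (fin 593 6 592)
(mv 718 (cons (fin 654 1 653)
(fin 719 2 653))))))))))))))))))))))))
(mv 972 (cons (fin 971 3 971)
(mv 912 (cons (fin 783 7 783)
(mv 913 (cons (fin 849 6 848)
(mv 914 (cons (fin 915 3 847)
(mv 845 (cons (fin 846 0 845)
(mv 908 (cons (fin 909 6 844)
(mv 843 (cons (fin 907 7 843)
(mv 844 (cons (fin 779 7 779)
(fin 781 6 780)))))))))))))))))))))))))
(mv 1101 (cons (fin 1100 1 1036)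
(mv 910 (cons (mv 974 (cons (fin 846 5 845)
(mv 1165 (cons (fin 1102 5 909)
(fin 1229 6 973)))))
(cons (mv 1168 (cons (cons (mv 1231 (cons (fin 1167 5 975)
(mv 1232 (cons (fin 1295 5 1039)
(mv 1233 (cons (fin 1297 4 1040)
(fin 1169 4 976)))))))
(mv 1233 (cons (fin 1169 4 976)
(mv 1297 (cons (fin 1232 4 1040)
(mv 849 (cons (cons (mv 912 (cons (fin 911 7 847)
(fin 913 6 848)))
(mv 848 (cons (mv 909 (cons (fin 846 1 845)
(mv 911 (cons (fin 850 1 846)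
(fin 908 2 844)))))
(cons (mv 850 (cons (fin 911 1 846)
(mv 915 (cons (fin 914 0 847)
(mv 851 (cons (fin 916 0 848)
(mv 787 (cons (fin 786 2 783)
(fin 788 2 784)))))))))
(mv 846 (cons (fin 909 1 845)
(mv 913 (cons (fin 914 0 846)
(mv 781 (cons (fin 782 3 781)
(mv 845 (cons (fin 780 3 780)
(mv 785 (cons (fin 784 2 781)
(fin 786 2 782)))))))))))))))
(cons (mv 848 (cons (cons (mv 912 (cons (fin 913 6 848)
(fin 785 6 784)))
(mv 846 (cons (fin 909 1 845)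
(mv 913 (cons (fin 914 0 846)
(mv 781 (cons (fin 782 3 781)
(mv 845 (cons (fin 780 3 780)
(mv 785 (cons (fin 784 2 781)
(fin 786 2 782))))))))))))
(cons (mv 913 (cons (fin 912 6 848)
(mv 846 (cons (fin 909 1 845)
(fin 914 0 846)))))
(mv 846 (cons (fin 909 1 845)
(mv 785 (cons (fin 786 2 782)
(fin 912 6 784))))))))
(mv 911 (cons (fin 912 7 847)
(mv 848 (cons (fin 850 1 846)
(mv 909 (cons (fin 846 1 845)
(fin 908 2 844)))))))))))))))
(cons (mv 1231 (cons (fin 1167 5 975)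
(mv 1295 (cons (fin 1232 5 1039)
(mv 849 (cons (cons (mv 912 (cons (fin 911 7 847)
(fin 913 6 848)))
(mv 848 (cons (mv 909 (cons (fin 846 1 845)
(mv 911 (cons (fin 850 1 846)
(fin 908 2 844)))))
(cons (mv 850 (cons (fin 911 1 846)
(mv 915 (cons (fin 914 0 847)
(mv 851 (cons (fin 916 0 848)
(mv 787 (cons (fin 786 2 783)
(fin 788 2 784)))))))))
(mv 846 (cons (fin 909 1 845)
(mv 913 (cons (fin 914 0 846)
(mv 781 (cons (fin 782 3 781)
(mv 845 (cons (fin 780 3 780)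
(mv 785 (cons (fin 784 2 781)
(fin 786 2 782)))))))))))))))
(cons (mv 848 (cons (cons (mv 912 (cons (fin 913 6 848)
(fin 785 6 784)))
(mv 846 (cons (fin 909 1 845)
(mv 913 (cons (fin 914 0 846)
(mv 781 (cons (fin 782 3 781)
(mv 845 (cons (fin 780 3 780)
(mv 785 (cons (fin 784 2 781)
(fin 786 2 782))))))))))))
(cons (mv 913 (cons (fin 912 6 848)
(mv 846 (cons (fin 909 1 845)
(fin 914 0 846)))))
(mv 846 (cons (fin 909 1 845)
(mv 785 (cons (fin 786 2 782)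
(fin 912 6 784))))))))
(mv 911 (cons (fin 912 7 847)
(mv 848 (cons (fin 850 1 846)
(mv 909 (cons (fin 846 1 845)
(fin 908 2 844))))))))))))))
(mv 1231 (cons (fin 1167 5 975)
(mv 1233 (cons (fin 1169 4 976)
(mv 849 (cons (cons (mv 912 (cons (fin 911 7 847)
(fin 913 6 848)))
(mv 848 (cons (mv 909 (cons (fin 846 1 845)
(mv 911 (cons (fin 850 1 846)
(fin 908 2 844)))))
(cons (mv 850 (cons (fin 911 1 846)
(mv 915 (cons (fin 914 0 847)
(mv 851 (cons (fin 916 0 848)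
(mv 787 (cons (fin 786 2 783)
(fin 788 2 784)))))))))
(mv 846 (cons (fin 909 1 845)
(mv 913 (cons (fin 914 0 846)
(mv 781 (cons (fin 782 3 781)
(mv 845 (cons (fin 780 3 780)
(mv 785 (cons (fin 784 2 781)
(fin 786 2 782)))))))))))))))
(cons (mv 848 (cons (cons (mv 912 (cons (fin 913 6 848)
(fin 785 6 784)))
(mv 846 (cons (fin 909 1 845)
(mv 913 (cons (fin 914 0 846)
(mv 781 (cons (fin 782 3 781)
(mv 845 (cons (fin 780 3 780)
(mv 785 (cons (fin 784 2 781)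
(fin 786 2 782))))))))))))
(cons (mv 913 (cons (fin 912 6 848)
(mv 846 (cons (fin 909 1 845)
(fin 914 0 846)))))
(mv 846 (cons (fin 909 1 845)
(mv 785 (cons (fin 786 2 782)
(fin 912 6 784))))))))
(mv 911 (cons (fin 912 7 847)
(mv 848 (cons (fin 850 1 846)
(mv 909 (cons (fin 846 1 845)
(fin 908 2 844)))))))))))))))))
(mv 911 (cons (fin 912 7 847)
(mv 1229 (cons (cons (mv 974 (cons (fin 1165 6 973)
(fin 1102 6 846)))
(mv 1165 (cons (mv 1292 (cons (fin 1228 5 1036)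
(mv 1293 (cons (fin 1356 5 1100)
(fin 1102 6 1037)))))
(cons (mv 1228 (cons (fin 1292 5 1036)
(mv 1230 (cons (fin 1294 4 1037)
(mv 1036 (cons (fin 972 7 972)
(mv 1231 (cons (mv 1164 (cons (fin 1163 3 1163)
(fin 1232 3 1164)))
(cons (mv 1295 (cons (fin 1296 0 1228)
(mv 1168 (cons (fin 1167 2 1164)
(fin 1232 5 1039)))))
(mv 1295 (cons (fin 1296 0 1228)
(mv 1163 (cons (fin 1164 3 1163)
(mv 1227 (cons (fin 1162 3 1162)
(mv 1166 (cons (fin 1226 2 1162)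
(fin 1167 2 1163))))))))))))))))))
(mv 1293 (cons (fin 1102 6 1037)
(mv 1294 (cons (fin 1358 4 1101)
(fin 1230 4 1037)))))))))
(cons (mv 1102 (cons (fin 974 6 846)
(mv 1168 (cons (cons (mv 1231 (cons (fin 1167 5 975)
(mv 1295 (cons (fin 1232 5 1039)
(mv 1230 (cons (fin 1166 4 1038)
(mv 1296 (cons (fin 1228 0 1228)
(mv 1297 (cons (fin 1294 3 1229)
(fin 1298 3 1230)))))))))))
(mv 1169 (cons (fin 1233 4 976)
(mv 1166 (cons (fin 1167 3 1101)
(mv 1230 (cons (fin 1293 5 1037)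
(fin 1294 7 1037))))))))
(cons (mv 1232 (cons (mv 1233 (cons (fin 1297 4 1040)
(fin 1169 4 976)))
(cons (mv 1295 (cons (fin 1231 5 1039)
(mv 1296 (cons (fin 1359 5 1103)
(mv 1297 (cons (fin 1361 4 1104)
(mv 1294 (cons (fin 1230 3 1229)
(mv 1357 (cons (fin 1358 1 1293)
(mv 1293 (cons (fin 1356 1 1292)
(fin 1228 3 1228)))))))))))))
(mv 1231 (cons (fin 1295 5 1039)
(mv 1169 (cons (fin 1230 2 1165)
(fin 1233 4 976))))))))
(mv 1231 (cons (fin 1167 5 975)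
(mv 1232 (cons (fin 1295 5 1039)
(mv 1233 (cons (fin 1297 4 1040)
(fin 1169 4 976))))))))))))
(mv 1165 (cons (fin 974 6 973)
(mv 1292 (cons (fin 1228 5 1036)
(mv 1293 (cons (fin 1356 5 1100)
(mv 1294 (cons (fin 1358 4 1101)
(fin 1230 4 1037))))))))))))))))))))))))))))
(cons (mv 1038 (cons (fin 1105 0 1037)
(mv 1100 (cons (fin 1101 1 1036)
(mv 976 (cons (fin 977 2 973)
(mv 912 (cons (mv 1103 (cons (fin 1167 5 911)
(fin 848 5 847)))
(cons (mv 847 (cons (fin 911 7 847)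
(mv 848 (cons (fin 783 7 783)
(mv 849 (cons (fin 913 6 848)
(fin 785 6 784)))))))
(mv 911 (cons (fin 847 7 847)
(mv 913 (cons (fin 849 6 848)
(mv 1168 (cons (cons (mv 1167 (cons (fin 1231 5 975)
(fin 1103 5 911)))
(mv 1233 (cons (fin 1169 4 976)
(mv 1232 (cons (fin 1297 4 1040)
(mv 1295 (cons (fin 1231 5 1039)
(mv 1296 (cons (fin 1359 5 1103)
(fin 1103 7 1039))))))))))
(cons (mv 1231 (cons (fin 1167 5 975)
(mv 1232 (cons (fin 1295 5 1039)
(mv 1233 (cons (fin 1297 4 1040)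
(fin 1169 4 976)))))))
(mv 1233 (cons (fin 1169 4 976)
(mv 1232 (cons (fin 1297 4 1040)
(mv 1103 (cons (fin 1167 5 911)
(fin 1296 7 1039)))))))))))))))))))))))
(mv 1038 (cons (fin 1105 0 1037)
(mv 1103 (cons (fin 1036 0 1036)
(mv 976 (cons (fin 977 2 973)
(mv 1167 (cons (fin 912 5 911)
(fin 1231 6 975)))))))))))))
(mv 1039 (cons (cons (mv 1038 (cons (fin 1105 0 1037)
(mv 1100 (cons (fin 1101 1 1036)
(mv 1036 (cons (fin 1099 1 1035)
(fin 1103 0 1036)))))))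
(cons (mv 975 (cons (cons (mv 1168 (cons (fin 1232 7 975)
(mv 911 (cons (fin 976 7 911)
(fin 1103 4 911)))))
(mv 1168 (cons (fin 1232 7 975)
(mv 976 (cons (cons (mv 1233 (cons (fin 1169 4 976)
(mv 913 (cons (fin 977 6 912)
(mv 912 (cons (fin 849 6 848)
(mv 1103 (cons (fin 1167 5 911)
(fin 848 5 847)))))))))
(mv 1169 (cons (fin 1233 4 976)
(mv 912 (cons (fin 1105 4 912)
(mv 1103 (cons (fin 1167 5 911)
(fin 848 5 847))))))))
(cons (mv 913 (cons (fin 977 6 912)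
(mv 912 (cons (fin 849 6 848)
(mv 1103 (cons (fin 1167 5 911)
(fin 848 5 847)))))))
(cons (mv 1169 (cons (fin 1233 4 976)
(mv 977 (cons (fin 913 6 912)
(mv 978 (cons (fin 979 1 975)
(mv 1042 (cons (fin 1043 0 975)
(mv 914 (cons (fin 915 2 911)
(mv 1106 (cons (fin 1105 5 913)
(mv 1171 (cons (fin 1107 4 914)
(mv 1170 (cons (fin 1103 3 1103)
(fin 1235 4 978)))))))))))))))))
(mv 1169 (cons (fin 1233 4 976)
(mv 1105 (cons (fin 912 4 912)
(mv 1106 (cons (fin 1107 3 1039)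
(mv 1166 (cons (fin 1167 2 1102)
(mv 977 (cons (fin 913 6 912)
(mv 978 (cons (fin 979 1 975)
(mv 1042 (cons (fin 1043 0 975)
(fin 914 5 913))))))))))))))))))))))
(cons (mv 911 (cons (fin 847 4 847)
(mv 1103 (cons (cons (mv 1166 (cons (fin 1102 5 910)
(mv 1167 (cons (fin 1230 5 974)
(mv 910 (cons (fin 974 7 910)
(fin 846 7 846)))))))
(mv 910 (cons (fin 846 7 846)
(mv 1167 (cons (fin 974 7 910)
(mv 912 (cons (fin 976 5 911)
(fin 848 6 847))))))))
(cons (mv 1166 (cons (fin 1102 5 910)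
(mv 1167 (cons (fin 1230 5 974)
(mv 912 (cons (fin 976 5 911)
(fin 848 6 847)))))))
(mv 1102 (cons (fin 1166 5 910)
(mv 1101 (cons (fin 1036 3 1036)
(fin 1100 2 1036))))))))))
(cons (mv 1168 (cons (fin 1232 7 975)
(mv 911 (cons (fin 976 7 911)
(fin 847 4 847)))))
(mv 1168 (cons (fin 1232 7 975)
(mv 911 (cons (fin 1103 4 911)
(fin 847 4 847)))))))))
(mv 1038 (cons (cons (mv 1100 (cons (fin 1101 1 1036)
(mv 1036 (cons (fin 1099 1 1035)
(fin 1103 0 1036)))))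
(mv 1100 (cons (fin 1101 1 1036)
(mv 976 (cons (fin 977 2 973)
(mv 912 (cons (mv 1103 (cons (fin 1167 5 911)
(fin 848 5 847)))
(mv 911 (cons (fin 847 7 847)
(mv 975 (cons (fin 1168 7 911)
(mv 913 (cons (fin 849 6 848)
(mv 914 (cons (fin 974 1 910)
(fin 915 1 911))))))))))))))))
(cons (mv 1103 (cons (fin 1036 0 1036)
(mv 976 (cons (fin 977 2 973)
(mv 912 (cons (fin 1167 5 911)
(fin 848 5 847)))))))
(mv 1100 (cons (fin 1101 1 1036)
(mv 1036 (cons (fin 1099 1 1035)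
(mv 976 (cons (fin 975 2 972)
(fin 977 2 973))))))))))))
(cons (mv 1038 (cons (fin 1105 0 1037)
(mv 1100 (cons (fin 1101 1 1036)
(mv 1036 (cons (fin 1099 1 1035)
(mv 976 (cons (fin 975 2 972)
(fin 977 2 973)))))))))
(cons (mv 1038 (cons (fin 1105 0 1037)
(mv 1100 (cons (fin 1101 1 1036)
(mv 976 (cons (fin 977 2 973)
(mv 912 (cons (mv 1103 (cons (fin 1167 5 911)
(fin 848 5 847)))
(mv 911 (cons (fin 847 7 847)
(mv 975 (cons (fin 1168 7 911)
(mv 913 (cons (fin 849 6 848)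
(mv 914 (cons (fin 974 1 910)
(fin 915 1 911)))))))))))))))))
(mv 1038 (cons (fin 1105 0 1037)
(mv 1103 (cons (fin 1036 0 1036)
(mv 976 (cons (fin 977 2 973)
(mv 912 (cons (fin 1167 5 911)
(fin 848 5 847)))))))))))))))
(cons (cons (mv 1039 (cons (cons (mv 1038 (cons (fin 1105 0 1037)
(mv 1100 (cons (fin 1101 1 1036)
(mv 1036 (cons (fin 1099 1 1035)
(fin 1103 0 1036)))))))
(mv 1168 (cons (cons (mv 1232 (cons (fin 975 7 975)
(mv 1295 (cons (fin 1231 5 1039)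
(mv 1296 (cons (fin 1359 5 1103)
(fin 1103 7 1039)))))))
(mv 976 (cons (cons (mv 1231 (cons (fin 1167 5 975)
(mv 1233 (cons (fin 1169 4 976)
(mv 913 (cons (fin 977 6 912)
(mv 912 (cons (fin 849 6 848)
(mv 848 (cons (fin 1103 5 847)
(mv 783 (cons (fin 847 7 783)
(mv 784 (cons (fin 975 5 783)
(fin 719 7 719)))))))))))))))
(cons (mv 1233 (cons (fin 1169 4 976)
(mv 913 (cons (fin 977 6 912)
(mv 912 (cons (fin 849 6 848)
(mv 848 (cons (fin 1103 5 847)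
(mv 783 (cons (fin 847 7 783)
(mv 784 (cons (fin 975 5 783)
(fin 719 7 719)))))))))))))
(mv 1231 (cons (fin 1167 5 975)
(mv 913 (cons (fin 977 6 912)
(mv 912 (cons (fin 849 6 848)
(mv 848 (cons (fin 1103 5 847)
(mv 783 (cons (fin 847 7 783)
(mv 784 (cons (fin 975 5 783)
(fin 719 7 719)))))))))))))))
(cons (cons (mv 1231 (cons (fin 1167 5 975)
(mv 1169 (cons (fin 1233 4 976)
(mv 912 (cons (fin 1105 4 912)
(mv 913 (cons (fin 849 6 848)
(mv 848 (cons (fin 1103 5 847)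
(mv 783 (cons (fin 847 7 783)
(mv 784 (cons (fin 975 5 783)
(fin 719 7 719)))))))))))))))
(mv 1231 (cons (fin 1167 5 975)
(mv 1169 (cons (fin 1233 4 976)
(mv 912 (cons (fin 1105 4 912)
(mv 848 (cons (fin 1103 5 847)
(mv 847 (cons (fin 783 7 783)
(mv 784 (cons (fin 975 5 783)
(mv 785 (cons (fin 849 6 784)
(fin 721 6 720))))))))))))))))
(cons (mv 1167 (cons (fin 1231 5 975)
(mv 1169 (cons (fin 1233 4 976)
(mv 977 (cons (fin 913 6 912)
(mv 978 (cons (fin 979 1 975)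
(mv 1166 (cons (cons (mv 1105 (cons (fin 1165 2 1101)
(fin 1106 2 1102)))
(mv 1229 (cons (fin 1230 1 1165)
(mv 1228 (cons (fin 1165 1 1164)
(mv 1102 (cons (fin 1101 3 1101)
(mv 1170 (cons (fin 1103 3 1102)
(mv 1235 (cons (fin 1234 0 1167)
(mv 1171 (cons (fin 1236 0 1168)
(mv 1106 (cons (fin 1107 2 1103)
(fin 1042 4 978))))))))))))))))
(cons (mv 1229 (cons (fin 1230 1 1165)
(mv 1165 (cons (fin 1228 1 1164)
(fin 1105 2 1101)))))
(mv 1229 (cons (fin 1230 1 1165)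
(mv 1101 (cons (fin 1102 3 1101)
(mv 1106 (cons (fin 1105 2 1102)
(mv 1170 (cons (fin 1107 2 1103)
(mv 1235 (cons (fin 1234 0 1167)
(mv 1171 (cons (fin 1103 3 1103)
(fin 1236 0 1168))))))))))))))))))))))))
(mv 1231 (cons (fin 1167 5 975)
(mv 1169 (cons (fin 1233 4 976)
(mv 912 (cons (fin 1105 4 912)
(mv 913 (cons (fin 977 6 912)
(fin 849 6 848))))))))))))))
(cons (mv 976 (cons (cons (mv 1231 (cons (fin 1167 5 975)
(mv 1295 (cons (fin 1232 5 1039)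
(mv 1169 (cons (fin 1233 4 976)
(mv 1105 (cons (fin 912 4 912)
(mv 1106 (cons (fin 1107 3 1039)
(mv 977 (cons (fin 913 6 912)
(mv 978 (cons (fin 979 1 975)
(mv 1042 (cons (fin 914 5 913)
(mv 1103 (cons (fin 1043 2 1039)
(mv 1170 (cons (fin 1171 3 1103)
(fin 1102 0 1102)))))))))))))))))))))
(cons (mv 1233 (cons (fin 1169 4 976)
(mv 1232 (cons (fin 1297 4 1040)
(mv 1295 (cons (fin 1231 5 1039)
(mv 1296 (cons (fin 1359 5 1103)
(fin 1103 7 1039)))))))))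
(mv 1233 (cons (fin 1169 4 976)
(mv 1297 (cons (fin 1232 4 1040)
(mv 913 (cons (fin 977 6 912)
(mv 912 (cons (fin 849 6 848)
(mv 1103 (cons (fin 1167 5 911)
(fin 848 5 847)))))))))))))
(cons (cons (mv 1231 (cons (fin 1167 5 975)
(mv 1232 (cons (fin 1295 5 1039)
(mv 1296 (cons (fin 1103 7 1039)
(mv 1297 (cons (fin 1361 4 1104)
(fin 1233 4 1040)))))))))
(mv 1231 (cons (fin 1167 5 975)
(mv 1232 (cons (fin 1295 5 1039)
(mv 1103 (cons (fin 1296 7 1039)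
(mv 912 (cons (fin 848 5 847)
(mv 913 (cons (fin 977 6 912)
(fin 849 6 848))))))))))))
(cons (mv 1231 (cons (fin 1167 5 975)
(mv 1295 (cons (fin 1232 5 1039)
(mv 1169 (cons (fin 1233 4 976)
(mv 912 (cons (fin 1105 4 912)
(mv 913 (cons (fin 977 6 912)
(fin 849 6 848)))))))))))
(mv 1231 (cons (fin 1167 5 975)
(mv 1169 (cons (fin 1233 4 976)
(mv 1105 (cons (fin 912 4 912)
(mv 1106 (cons (fin 1107 3 1039)
(mv 977 (cons (fin 913 6 912)
(mv 978 (cons (fin 979 1 975)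
(mv 1042 (cons (fin 914 5 913)
(mv 1103 (cons (fin 1043 2 1039)
(mv 1170 (cons (fin 1171 3 1103)
(fin 1102 0 1102)))))))))))))))))))))))
(cons (mv 1232 (cons (fin 975 7 975)
(mv 1296 (cons (fin 1103 7 1039)
(mv 1297 (cons (fin 1361 4 1104)
(fin 1233 4 1040)))))))
(mv 1232 (cons (fin 975 7 975)
(mv 1295 (cons (fin 1231 5 1039)
(mv 1296 (cons (fin 1359 5 1103)
(mv 1297 (cons (fin 1361 4 1104)
(fin 1233 4 1040))))))))))))))
(cons (mv 1038 (cons (cons (mv 1100 (cons (fin 1101 1 1036)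
(mv 1036 (cons (fin 1099 1 1035)
(fin 1103 0 1036)))))
(mv 1100 (cons (fin 1101 1 1036)
(mv 976 (cons (fin 977 2 973)
(mv 912 (cons (mv 1103 (cons (fin 1167 5 911)
(fin 848 5 847)))
(cons (mv 849 (cons (fin 913 6 848)
(mv 848 (cons (fin 785 6 784)
(mv 783 (cons (fin 847 7 783)
(mv 784 (cons (fin 975 5 783)
(fin 719 7 719)))))))))
(mv 1167 (cons (fin 1103 5 911)
(mv 1168 (cons (fin 1231 5 975)
(mv 1232 (cons (fin 975 7 975)
(mv 1233 (cons (fin 1297 4 1040)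
(fin 1169 4 976)))))))))))))))))
(cons (mv 1103 (cons (fin 1036 0 1036)
(mv 976 (cons (fin 977 2 973)
(mv 1167 (cons (fin 912 5 911)
(fin 1231 6 975)))))))
(mv 1100 (cons (fin 1101 1 1036)
(mv 1036 (cons (fin 1099 1 1035)
(mv 976 (cons (fin 975 2 972)
(fin 977 2 973))))))))))
(cons (mv 1038 (cons (fin 1105 0 1037)
(mv 1100 (cons (fin 1101 1 1036)
(mv 1036 (cons (fin 1099 1 1035)
(mv 976 (cons (fin 975 2 972)
(fin 977 2 973)))))))))
(mv 1038 (cons (fin 1105 0 1037)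
(mv 1103 (cons (fin 1036 0 1036)
(mv 976 (cons (fin 977 2 973)
(mv 1167 (cons (fin 912 5 911)
(fin 1231 6 975)))))))))))))
(mv 1039 (cons (cons (mv 1038 (cons (fin 1105 0 1037)
(mv 1100 (cons (fin 1101 1 1036)
(mv 1036 (cons (fin 1099 1 1035)
(fin 1103 0 1036)))))))
(cons (mv 975 (cons (cons (mv 1168 (cons (fin 1232 7 975)
(mv 911 (cons (fin 976 7 911)
(fin 1103 4 911)))))
(mv 1168 (cons (fin 1232 7 975)
(mv 976 (cons (cons (mv 1231 (cons (fin 1167 5 975)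
(mv 1169 (cons (fin 1233 4 976)
(mv 912 (cons (fin 1105 4 912)
(mv 848 (cons (fin 1103 5 847)
(fin 784 5 783)))))))))
(cons (mv 1169 (cons (fin 1233 4 976)
(mv 912 (cons (fin 1105 4 912)
(mv 848 (cons (fin 1103 5 847)
(fin 784 5 783)))))))
(mv 1167 (cons (fin 1231 5 975)
(mv 1103 (cons (fin 912 5 911)
(mv 1166 (cons (fin 1230 5 974)
(mv 1165 (cons (fin 1164 2 1100)
(fin 1105 2 1101)))))))))))
(cons (mv 1167 (cons (fin 1231 5 975)
(mv 1169 (cons (fin 1233 4 976)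
(mv 1103 (cons (mv 1170 (cons (fin 1102 3 1102)
(fin 1171 3 1103)))
(mv 1166 (cons (fin 1230 5 974)
(mv 1165 (cons (fin 1164 2 1100)
(fin 1105 2 1101)))))))))))
(cons (mv 1231 (cons (fin 1167 5 975)
(mv 1169 (cons (fin 1233 4 976)
(mv 912 (cons (fin 1105 4 912)
(mv 848 (cons (fin 784 5 783)
(mv 849 (cons (fin 913 6 848)
(fin 785 6 784)))))))))))
(mv 1233 (cons (fin 1169 4 976)
(mv 1167 (cons (fin 1231 5 975)
(mv 1103 (cons (fin 912 5 911)
(mv 1166 (cons (fin 1230 5 974)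
(mv 1165 (cons (fin 1164 2 1100)
(mv 1229 (cons (fin 1228 1 1164)
(mv 1101 (cons (fin 1100 3 1100)
(mv 1036 (cons (fin 1102 3 1036)
(fin 972 7 972))))))))))))))))))))))))
(cons (mv 911 (cons (fin 847 4 847)
(mv 1103 (cons (mv 1166 (cons (fin 1102 5 910)
(mv 1167 (cons (fin 1230 5 974)
(mv 1231 (cons (fin 1295 6 1039)
(fin 976 6 975)))))))
(cons (mv 910 (cons (fin 846 7 846)
(mv 1167 (cons (fin 974 7 910)
(mv 1231 (cons (fin 1295 6 1039)
(fin 976 6 975)))))))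
(mv 1102 (cons (fin 1166 5 910)
(mv 1101 (cons (fin 1036 3 1036)
(fin 1100 2 1036))))))))))
(cons (mv 1168 (cons (fin 1232 7 975)
(mv 911 (cons (fin 976 7 911)
(fin 847 4 847)))))
(mv 1168 (cons (fin 1232 7 975)
(mv 911 (cons (fin 1103 4 911)
(fin 847 4 847)))))))))
(mv 975 (cons (cons (mv 1168 (cons (fin 1232 7 975)
(mv 911 (cons (fin 976 7 911)
(fin 1103 4 911)))))
(mv 1168 (cons (fin 1232 7 975)
(mv 1038 (cons (cons (mv 1036 (cons (fin 1103 0 1036)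
(fin 976 2 972)))
(mv 1101 (cons (fin 1100 1 1036)
(mv 1102 (cons (cons (mv 1230 (cons (fin 1166 6 974)
(mv 1103 (cons (fin 1169 0 1101)
(mv 1165 (cons (fin 1164 1 1100)
(mv 1229 (cons (fin 1294 4 1037)
(fin 1293 6 1037)))))))))
(mv 1103 (cons (fin 1169 0 1101)
(mv 1165 (cons (fin 1164 1 1100)
(mv 1229 (cons (fin 1293 6 1037)
(fin 974 6 973))))))))
(cons (mv 1166 (cons (fin 1230 6 974)
(mv 1165 (cons (mv 1229 (cons (fin 974 5 973)
(fin 1293 6 1037)))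
(mv 1164 (cons (fin 1103 1 1100)
(mv 1163 (cons (fin 1162 2 1098)
(mv 1227 (cons (fin 1226 1 1162)
(mv 1228 (cons (fin 1167 1 1163)
(mv 1292 (cons (fin 1356 6 1100)
(mv 1099 (cons (fin 1098 3 1098)
(fin 1035 4 1035)))))))))))))))))
(mv 1166 (cons (fin 1230 6 974)
(mv 1167 (cons (fin 1169 3 1101)
(mv 1231 (cons (fin 976 5 975)
(fin 974 4 974)))))))))))))
(cons (mv 1100 (cons (fin 1101 1 1036)
(mv 1036 (cons (fin 1099 1 1035)
(fin 1103 0 1036)))))
(mv 1100 (cons (fin 1101 1 1036)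
(mv 1036 (cons (fin 1099 1 1035)
(fin 976 2 972)))))))))))
(cons (mv 911 (cons (fin 847 4 847)
(mv 1103 (cons (mv 1166 (cons (fin 1102 5 910)
(mv 1167 (cons (fin 1230 5 974)
(mv 1231 (cons (fin 1295 6 1039)
(fin 976 6 975)))))))
(cons (mv 1036 (cons (fin 1038 0 1036)
(mv 910 (cons (fin 846 7 846)
(mv 1167 (cons (fin 974 7 910)
(mv 1231 (cons (fin 1295 6 1039)
(fin 976 6 975)))))))))
(mv 1102 (cons (fin 1166 5 910)
(mv 1101 (cons (fin 1036 3 1036)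
(fin 1100 2 1036))))))))))
(cons (mv 1168 (cons (fin 1232 7 975)
(mv 911 (cons (fin 976 7 911)
(fin 847 4 847)))))
(mv 1168 (cons (fin 1232 7 975)
(mv 911 (cons (fin 1103 4 911)
(fin 847 4 847)))))))))))
(cons (cons (mv 1038 (cons (fin 1105 0 1037)
(mv 1100 (cons (fin 1101 1 1036)
(mv 1036 (cons (fin 1099 1 1035)
(mv 971 (cons (fin 972 3 971)
(mv 1035 (cons (fin 970 3 970)
(mv 975 (cons (fin 974 2 971)
(fin 976 2 972)))))))))))))
(mv 1105 (cons (fin 1038 0 1037)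
(mv 1106 (cons (fin 1107 3 1039)
(mv 1103 (cons (cons (mv 1166 (cons (fin 1167 1 1102)
(mv 1170 (cons (fin 1171 0 1103)
(mv 1102 (cons (fin 1165 1 1101)
(fin 1169 0 1102)))))))
(mv 1170 (cons (fin 1171 0 1103)
(mv 1169 (cons (fin 1102 0 1102)
(mv 1233 (cons (fin 1297 7 1040)
(mv 1042 (cons (fin 1043 2 1039)
(fin 978 5 977))))))))))
(cons (mv 1166 (cons (fin 1167 1 1102)
(mv 1102 (cons (fin 1165 1 1101)
(mv 1294 (cons (fin 1230 6 1038)
(mv 1101 (cons (fin 1100 2 1036)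
(mv 1168 (cons (fin 1169 0 1101)
(mv 1232 (cons (fin 1296 7 1039)
(fin 975 7 975)))))))))))))
(mv 1167 (cons (fin 1166 1 1102)
(mv 1231 (cons (fin 1295 6 1039)
(fin 976 6 975)))))))))))))
(cons (mv 1038 (cons (fin 1105 0 1037)
(mv 1036 (cons (fin 1103 0 1036)
(mv 1099 (cons (fin 1100 1 1035)
(mv 1035 (cons (fin 1098 1 1034)
(mv 971 (cons (fin 970 3 970)
(fin 972 3 971)))))))))))
(mv 1038 (cons (fin 1105 0 1037)
(mv 1036 (cons (fin 1103 0 1036)
(mv 971 (cons (fin 972 3 971)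
(mv 1035 (cons (fin 970 3 970)
(mv 975 (cons (fin 974 2 971)
(fin 976 2 972))))))))))))))))
(cons (mv 1039 (cons (cons (mv 1038 (cons (fin 1105 0 1037)
(mv 1100 (cons (fin 1101 1 1036)
(mv 1036 (cons (fin 1099 1 1035)
(fin 1103 0 1036)))))))
(mv 1168 (cons (cons (mv 1232 (cons (fin 975 7 975)
(mv 1295 (cons (fin 1231 5 1039)
(mv 1296 (cons (fin 1359 5 1103)
(fin 1103 7 1039)))))))
(mv 976 (cons (cons (mv 1231 (cons (fin 1167 5 975)
(mv 1233 (cons (fin 1169 4 976)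
(mv 975 (cons (fin 911 7 911)
(mv 913 (cons (fin 977 6 912)
(mv 912 (cons (fin 849 6 848)
(mv 848 (cons (fin 1103 5 847)
(fin 784 5 783)))))))))))))
(cons (mv 1233 (cons (fin 1169 4 976)
(mv 975 (cons (fin 911 7 911)
(mv 913 (cons (fin 977 6 912)
(mv 912 (cons (fin 849 6 848)
(mv 848 (cons (fin 1103 5 847)
(fin 784 5 783)))))))))))
(mv 1231 (cons (fin 1167 5 975)
(mv 975 (cons (fin 911 7 911)
(mv 913 (cons (fin 977 6 912)
(mv 912 (cons (fin 849 6 848)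
(mv 848 (cons (fin 1103 5 847)
(fin 784 5 783)))))))))))))
(cons (cons (mv 1231 (cons (fin 1167 5 975)
(mv 1169 (cons (fin 1233 4 976)
(mv 1105 (cons (fin 912 4 912)
(mv 1106 (cons (fin 1107 3 1039)
(mv 977 (cons (fin 913 6 912)
(mv 978 (cons (fin 979 1 975)
(mv 1042 (cons (fin 914 5 913)
(mv 1103 (cons (fin 1043 2 1039)
(mv 1170 (cons (fin 1171 3 1103)
(fin 1102 0 1102)))))))))))))))))))
(mv 1231 (cons (fin 1167 5 975)
(mv 1169 (cons (fin 1233 4 976)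
(mv 975 (cons (fin 911 7 911)
(mv 912 (cons (fin 1105 4 912)
(mv 848 (cons (fin 1103 5 847)
(fin 784 5 783))))))))))))
(cons (mv 1231 (cons (fin 1167 5 975)
(mv 1169 (cons (fin 1233 4 976)
(mv 1105 (cons (fin 912 4 912)
(mv 1106 (cons (fin 1107 3 1039)
(mv 975 (cons (fin 911 7 911)
(mv 977 (cons (fin 913 6 912)
(mv 978 (cons (fin 979 1 975)
(mv 1042 (cons (fin 1043 0 975)
(fin 914 5 913)))))))))))))))))
(mv 1231 (cons (fin 1167 5 975)
(mv 1169 (cons (fin 1233 4 976)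
(mv 975 (cons (fin 911 7 911)
(mv 977 (cons (fin 913 6 912)
(mv 978 (cons (fin 979 1 975)
(mv 1042 (cons (fin 1043 0 975)
(mv 914 (cons (fin 915 2 911)
(mv 1106 (cons (fin 1105 5 913)
(mv 1171 (cons (fin 1107 4 914)
(mv 1170 (cons (fin 1103 3 1103)
(fin 1235 4 978))))))))))))))))))))))))))
(cons (mv 976 (cons (cons (mv 1231 (cons (fin 1167 5 975)
(mv 1295 (cons (fin 1232 5 1039)
(mv 1169 (cons (fin 1233 4 976)
(mv 1105 (cons (fin 912 4 912)
(mv 1106 (cons (fin 1107 3 1039)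
(mv 977 (cons (fin 913 6 912)
(mv 978 (cons (fin 979 1 975)
(mv 1042 (cons (fin 914 5 913)
(mv 1103 (cons (fin 1043 2 1039)
(mv 1170 (cons (fin 1171 3 1103)
(fin 1102 0 1102)))))))))))))))))))))
(cons (mv 1233 (cons (fin 1169 4 976)
(mv 1232 (cons (fin 1297 4 1040)
(mv 1295 (cons (fin 1231 5 1039)
(mv 1296 (cons (fin 1359 5 1103)
(fin 1103 7 1039)))))))))
(mv 1233 (cons (fin 1169 4 976)
(mv 1297 (cons (fin 1232 4 1040)
(mv 913 (cons (fin 977 6 912)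
(mv 912 (cons (fin 849 6 848)
(mv 1103 (cons (fin 1167 5 911)
(fin 848 5 847)))))))))))))
(cons (cons (mv 1231 (cons (fin 1167 5 975)
(mv 1232 (cons (fin 1295 5 1039)
(mv 1296 (cons (fin 1103 7 1039)
(mv 1297 (cons (fin 1361 4 1104)
(fin 1233 4 1040)))))))))
(mv 1231 (cons (fin 1167 5 975)
(mv 1232 (cons (fin 1295 5 1039)
(mv 1103 (cons (fin 1296 7 1039)
(mv 912 (cons (fin 848 5 847)
(mv 913 (cons (fin 977 6 912)
(fin 849 6 848))))))))))))
(cons (mv 1231 (cons (fin 1167 5 975)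
(mv 1295 (cons (fin 1232 5 1039)
(mv 1169 (cons (fin 1233 4 976)
(mv 912 (cons (fin 1105 4 912)
(mv 913 (cons (fin 977 6 912)
(fin 849 6 848)))))))))))
(mv 1231 (cons (fin 1167 5 975)
(mv 1169 (cons (fin 1233 4 976)
(mv 1105 (cons (fin 912 4 912)
(mv 1106 (cons (fin 1107 3 1039)
(mv 977 (cons (fin 913 6 912)
(mv 978 (cons (fin 979 1 975)
(mv 1042 (cons (fin 914 5 913)
(mv 1103 (cons (fin 1043 2 1039)
(mv 1170 (cons (fin 1171 3 1103)
(fin 1102 0 1102)))))))))))))))))))))))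
(cons (mv 1232 (cons (fin 975 7 975)
(mv 1295 (cons (fin 1231 5 1039)
(mv 1296 (cons (fin 1359 5 1103)
(mv 1297 (cons (fin 1361 4 1104)
(fin 1233 4 1040)))))))))
(mv 1232 (cons (fin 975 7 975)
(mv 1296 (cons (fin 1103 7 1039)
(mv 1297 (cons (fin 1361 4 1104)
(fin 1233 4 1040))))))))))))
(cons (mv 1038 (cons (cons (mv 1100 (cons (fin 1101 1 1036)
(mv 1036 (cons (fin 1099 1 1035)
(fin 1103 0 1036)))))
(mv 1100 (cons (fin 1101 1 1036)
(mv 976 (cons (fin 977 2 973)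
(mv 1168 (cons (mv 975 (cons (fin 1232 7 975)
(fin 911 7 911)))
(cons (mv 1231 (cons (fin 1167 5 975)
(mv 1232 (cons (fin 1295 5 1039)
(mv 1233 (cons (fin 1297 4 1040)
(fin 1169 4 976)))))))
(mv 1233 (cons (fin 1169 4 976)
(mv 1167 (cons (fin 1231 5 975)
(mv 1103 (cons (fin 912 5 911)
(mv 975 (cons (fin 911 7 911)
(mv 1166 (cons (fin 1230 5 974)
(mv 1165 (cons (fin 1164 2 1100)
(mv 1229 (cons (fin 1228 1 1164)
(mv 974 (cons (fin 1102 5 973)
(fin 910 7 910)))))))))))))))))))))))))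
(cons (mv 1103 (cons (fin 1036 0 1036)
(mv 976 (cons (fin 977 2 973)
(mv 1167 (cons (fin 912 5 911)
(fin 1231 6 975)))))))
(mv 1100 (cons (fin 1101 1 1036)
(mv 1036 (cons (fin 1099 1 1035)
(mv 976 (cons (fin 975 2 972)
(fin 977 2 973))))))))))
(mv 1038 (cons (fin 1105 0 1037)
(mv 1100 (cons (fin 1101 1 1036)
(mv 1036 (cons (fin 1099 1 1035)
(mv 976 (cons (fin 975 2 972)
(fin 977 2 973))))))))))))
(mv 1039 (cons (cons (mv 1038 (cons (fin 1105 0 1037)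
(mv 1100 (cons (fin 1101 1 1036)
(mv 1036 (cons (fin 1099 1 1035)
(fin 1103 0 1036)))))))
(cons (mv 975 (cons (cons (mv 1168 (cons (fin 1232 7 975)
(mv 911 (cons (fin 976 7 911)
(fin 1103 4 911)))))
(mv 1168 (cons (fin 1232 7 975)
(mv 976 (cons (cons (mv 1231 (cons (fin 1167 5 975)
(mv 1169 (cons (fin 1233 4 976)
(mv 912 (cons (fin 1105 4 912)
(mv 848 (cons (fin 1103 5 847)
(fin 784 5 783)))))))))
(cons (mv 1169 (cons (fin 1233 4 976)
(mv 912 (cons (fin 1105 4 912)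
(mv 848 (cons (fin 1103 5 847)
(fin 784 5 783)))))))
(mv 1167 (cons (fin 1231 5 975)
(mv 1103 (cons (fin 912 5 911)
(mv 1166 (cons (fin 1230 5 974)
(mv 1165 (cons (fin 1164 2 1100)
(fin 1105 2 1101)))))))))))
(cons (mv 1167 (cons (fin 1231 5 975)
(mv 1169 (cons (fin 1233 4 976)
(mv 1103 (cons (mv 1170 (cons (fin 1102 3 1102)
(fin 1171 3 1103)))
(mv 1166 (cons (fin 1230 5 974)
(mv 1165 (cons (fin 1164 2 1100)
(fin 1105 2 1101)))))))))))
(cons (mv 1167 (cons (fin 1231 5 975)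
(mv 1169 (cons (fin 1233 4 976)
(mv 1105 (cons (fin 912 4 912)
(mv 1166 (cons (fin 1165 2 1101)
(fin 1106 2 1102)))))))))
(mv 1233 (cons (fin 1169 4 976)
(mv 1167 (cons (fin 1231 5 975)
(mv 1103 (cons (fin 912 5 911)
(mv 1166 (cons (fin 1230 5 974)
(mv 1165 (cons (fin 1164 2 1100)
(mv 1229 (cons (fin 1228 1 1164)
(mv 1101 (cons (fin 1100 3 1100)
(mv 1036 (cons (fin 1102 3 1036)
(fin 972 7 972))))))))))))))))))))))))
(cons (mv 911 (cons (fin 847 4 847)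
(mv 1103 (cons (mv 1166 (cons (fin 1102 5 910)
(mv 1167 (cons (fin 1230 5 974)
(mv 1231 (cons (fin 1295 6 1039)
(fin 976 6 975)))))))
(cons (mv 910 (cons (fin 846 7 846)
(mv 1167 (cons (fin 974 7 910)
(mv 1231 (cons (fin 1295 6 1039)
(fin 976 6 975)))))))
(mv 1102 (cons (fin 1166 5 910)
(mv 1101 (cons (fin 1036 3 1036)
(fin 1100 2 1036))))))))))
(cons (mv 1168 (cons (fin 1232 7 975)
(mv 911 (cons (fin 976 7 911)
(fin 847 4 847)))))
(mv 1168 (cons (fin 1232 7 975)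
(mv 911 (cons (fin 1103 4 911)
(fin 847 4 847)))))))))
(mv 1038 (cons (cons (mv 1100 (cons (fin 1101 1 1036)
(mv 1036 (cons (fin 1099 1 1035)
(fin 1103 0 1036)))))
(mv 1100 (cons (fin 1101 1 1036)
(mv 976 (cons (fin 977 2 973)
(mv 1168 (cons (mv 975 (cons (fin 1232 7 975)
(fin 911 7 911)))
(cons (mv 1231 (cons (fin 1167 5 975)
(mv 1232 (cons (fin 1295 5 1039)
(mv 1233 (cons (fin 1297 4 1040)
(fin 1169 4 976)))))))
(mv 1233 (cons (fin 1169 4 976)
(mv 1167 (cons (fin 1231 5 975)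
(mv 1103 (cons (fin 912 5 911)
(mv 975 (cons (fin 911 7 911)
(mv 1166 (cons (fin 1230 5 974)
(mv 1165 (cons (fin 1164 2 1100)
(mv 1229 (cons (fin 1228 1 1164)
(mv 974 (cons (fin 1102 5 973)
(fin 910 7 910)))))))))))))))))))))))))
(cons (mv 1103 (cons (fin 1036 0 1036)
(mv 976 (cons (fin 977 2 973)
(mv 1167 (cons (fin 912 5 911)
(fin 1231 6 975)))))))
(mv 1100 (cons (fin 1101 1 1036)
(mv 1036 (cons (fin 1099 1 1035)
(mv 976 (cons (fin 975 2 972)
(fin 977 2 973))))))))))))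
(cons (mv 1038 (cons (fin 1105 0 1037)
(mv 1100 (cons (fin 1101 1 1036)
(mv 1036 (cons (fin 1099 1 1035)
(mv 976 (cons (fin 975 2 972)
(fin 977 2 973)))))))))
(cons (mv 1038 (cons (fin 1105 0 1037)
(mv 1100 (cons (fin 1101 1 1036)
(mv 976 (cons (fin 977 2 973)
(mv 1168 (cons (mv 975 (cons (fin 1232 7 975)
(fin 911 7 911)))
(cons (mv 1231 (cons (fin 1167 5 975)
(mv 1232 (cons (fin 1295 5 1039)
(mv 1233 (cons (fin 1297 4 1040)
(fin 1169 4 976)))))))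
(mv 1233 (cons (fin 1169 4 976)
(mv 1167 (cons (fin 1231 5 975)
(mv 1103 (cons (fin 912 5 911)
(mv 975 (cons (fin 911 7 911)
(mv 1166 (cons (fin 1230 5 974)
(mv 1165 (cons (fin 1164 2 1100)
(mv 1229 (cons (fin 1228 1 1164)
(mv 974 (cons (fin 1102 5 973)
(fin 910 7 910))))))))))))))))))))))))))
(mv 1038 (cons (fin 1105 0 1037)
(mv 1103 (cons (fin 1036 0 1036)
(mv 976 (cons (fin 977 2 973)
(mv 1167 (cons (fin 912 5 911)
(fin 1231 6 975))))))))))))))))))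
def l112 : Lem := ⟨13254031944712882724506621310649321556018620670345837899455453023597314721787975009848330616026462815765143756135158089473467252075149308743152655366187148242124071246428482498451210046760672027239036899891323305324899173507745103325308665813954110541579506451753178596634830548552232523722901151470534797188661248, 90983467998867593194298511813418162005988316702413008627364953692264853251022948934639162584276040445300847295740062048562320795875657609006216525806998317310128434028632174327120745238893467946266350283713456037421772769329548654289030073414084978484351461593507589379236221189625210762160474134144308660680887793416677595205603849070219543186863462911347750321672504293365524507618151380345427223730292243407647564186579327600605420597521974034432, 90983467998867593194298511813418162005988316702413008627364953692264853251022948934639162584276040445300847295740062048562320795875657609006216525806998317310128434028632174327120745238893467946266350283713456037421772769329548654289030073414084978484351461593507589379236221189625210762160474134144308660680887793416677595205603849070219543186863462911347750321672504293365524507618151380345427223730292243407647564186579327600605420597521974034432,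 19, 33⟩
theorem l112_valid : l112.Valid :=
  Lem.valid_of_chk t112 t112_valid [1037, 1040] c112 l112 (by decide +kernel)
end Crest.Agent.SnakyAux
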