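import Crest.Agent.S0047_aux.Checker

set_option autoImplicit false
set_option maxRecDepth 100000
namespace Crest.Agent.SnakyAux
open Cert
def t113 : Tbl := Tbl.nil
theorem t113_valid : t113.Valid := Tbl.valid_nil
def c113 : Cert :=
(mv 976 (cons (cons (cons (mv 1039 (cons (cons (mv 1038 (cons (fin 977 2 973)
(mv 972 (cons (fin 973 3 972)
(mv 1036 (cons (fin 971 3 971)
(fin 975 2 972)))))))
(cons (mv 1103 (cons (cons (mv 912 (cons (fin 848 5 847)
(mv 1167 (cons (fin 1104 5 911)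
(fin 975 6 911)))))
(mv 1167 (cons (fin 1231 6 975)
(mv 975 (cons (mv 910 (cons (fin 974 7 910)
(mv 911 (cons (fin 846 7 846)
(mv 847 (cons (fin 783 4 783)
(fin 1104 4 847)))))))
(cons (mv 1166 (cons (fin 1230 5 974)
(mv 911 (cons (fin 1102 5 910)
(mv 847 (cons (fin 783 4 783)
(fin 1104 4 847)))))))
(mv 974 (cons (fin 910 7 910)
(mv 973 (cons (fin 1036 1 972)
(fin 972 0 972)))))))))))
(cons (mv 912 (cons (fin 848 5 847)
(mv 1104 (cons (cons (mv 847 (cons (fin 911 7 847)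
(mv 849 (cons (fin 913 6 848)
(mv 1169 (cons (fin 1105 4 912)
(mv 1168 (cons (fin 1233 4 976)
(mv 1232 (cons (fin 975 7 975)
(fin 1296 7 1039)))))))))))
(cons (mv 849 (cons (fin 913 6 848)
(mv 1169 (cons (fin 1105 4 912)
(mv 1168 (cons (fin 1233 4 976)
(mv 1232 (cons (fin 975 7 975)
(fin 1296 7 1039)))))))))
(mv 847 (cons (fin 911 7 847)
(mv 913 (cons (fin 849 6 848)
(mv 1168 (cons (fin 977 6 912)
(mv 1232 (cons (fin 975 7 975)
(fin 1296 7 1039)))))))))))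
(cons (mv 847 (cons (fin 911 7 847)
(mv 1169 (cons (fin 1105 4 912)
(mv 1168 (cons (fin 1233 4 976)
(mv 1232 (cons (fin 975 7 975)
(fin 1296 7 1039)))))))))
(cons (mv 847 (cons (fin 911 7 847)
(mv 913 (cons (fin 849 6 848)
(mv 1105 (cons (fin 1169 4 912)
(mv 1106 (cons (fin 1107 3 1039)
(mv 1042 (cons (fin 1043 2 1039)
(mv 1170 (cons (fin 1171 0 1103)
(mv 978 (cons (fin 977 7 913)
(mv 915 (cons (fin 979 6 914)
(mv 914 (cons (fin 975 1 911)
(fin 851 6 850)))))))))))))))))))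
(mv 847 (cons (fin 911 7 847)
(mv 913 (cons (fin 849 6 848)
(mv 977 (cons (fin 1168 6 912)
(mv 978 (cons (fin 979 1 975)
(mv 1105 (cons (fin 1169 4 912)
(mv 1106 (cons (fin 1107 3 1039)
(mv 1042 (cons (fin 1043 2 1039)
(fin 1170 7 913)))))))))))))))))))))
(cons (mv 912 (cons (fin 848 5 847)
(mv 1167 (cons (fin 1104 5 911)
(fin 1231 6 975)))))
(mv 912 (cons (fin 848 5 847)
(mv 1167 (cons (fin 975 6 911)
(fin 1231 6 975)))))))))
(mv 1038 (cons (cons (mv 972 (cons (fin 973 3 972)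
(mv 1036 (cons (fin 971 3 971)
(fin 975 2 972)))))
(mv 972 (cons (fin 973 3 972)
(mv 1104 (cons (fin 1105 0 1037)
(mv 912 (cons (mv 1103 (cons (fin 848 5 847)
(fin 1167 5 911)))
(cons (mv 847 (cons (fin 911 7 847)
(mv 848 (cons (fin 783 7 783)
(mv 849 (cons (fin 785 6 784)
(fin 913 6 848)))))))
(mv 847 (cons (fin 911 7 847)
(mv 849 (cons (fin 913 6 848)
(mv 1167 (cons (fin 1103 5 911)
(mv 1168 (cons (fin 1231 5 975)
(mv 1232 (cons (fin 975 7 975)
(mv 1233 (cons (fin 1169 4 976)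
(fin 1297 4 1040)))))))))))))))))))))
(cons (mv 975 (cons (fin 1036 2 972)
(mv 1104 (cons (fin 1105 0 1037)
(mv 911 (cons (fin 1168 7 911)
(fin 847 4 847)))))))
(mv 972 (cons (fin 973 3 972)
(mv 1036 (cons (fin 971 3 971)
(mv 1104 (cons (fin 1103 0 1036)
(fin 1105 0 1037))))))))))))
(cons (mv 1038 (cons (fin 977 2 973)
(mv 972 (cons (fin 973 3 972)
(mv 1036 (cons (fin 971 3 971)
(mv 1104 (cons (fin 1103 0 1036)
(fin 1105 0 1037)))))))))
(cons (mv 1038 (cons (fin 977 2 973)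
(mv 972 (cons (fin 973 3 972)
(mv 1104 (cons (fin 1105 0 1037)
(mv 912 (cons (mv 1103 (cons (fin 848 5 847)
(fin 1167 5 911)))
(cons (mv 847 (cons (fin 911 7 847)
(mv 848 (cons (fin 783 7 783)
(mv 849 (cons (fin 785 6 784)
(fin 913 6 848)))))))
(mv 847 (cons (fin 911 7 847)
(mv 849 (cons (fin 913 6 848)
(mv 1167 (cons (fin 1103 5 911)
(mv 1168 (cons (fin 1231 5 975)
(mv 1232 (cons (fin 975 7 975)
(mv 1233 (cons (fin 1169 4 976)
(fin 1297 4 1040))))))))))))))))))))))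
(mv 1038 (cons (fin 977 2 973)
(mv 975 (cons (fin 1036 2 972)
(mv 1104 (cons (fin 1105 0 1037)
(mv 911 (cons (fin 1168 7 911)
(fin 847 4 847)))))))))))))
(cons (mv 1104 (cons (cons (mv 912 (cons (cons (mv 847 (cons (fin 911 7 847)
(mv 783 (cons (fin 848 7 783)
(mv 849 (cons (fin 913 6 848)
(mv 1167 (cons (fin 1103 5 911)
(mv 1168 (cons (fin 1231 5 975)
(mv 1169 (cons (fin 1105 4 912)
(fin 1233 4 976)))))))))))))
(cons (mv 849 (cons (fin 913 6 848)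
(mv 785 (cons (fin 848 6 784)
(mv 1167 (cons (fin 1103 5 911)
(mv 1168 (cons (fin 1231 5 975)
(mv 1169 (cons (fin 1105 4 912)
(fin 1233 4 976)))))))))))
(mv 847 (cons (fin 911 7 847)
(mv 783 (cons (fin 848 7 783)
(mv 1167 (cons (fin 1103 5 911)
(mv 1168 (cons (fin 1231 5 975)
(mv 1169 (cons (fin 1105 4 912)
(fin 1233 4 976)))))))))))))
(cons (cons (mv 847 (cons (fin 911 7 847)
(mv 783 (cons (fin 848 7 783)
(mv 913 (cons (fin 849 6 848)
(mv 1168 (cons (fin 977 6 912)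
(mv 1169 (cons (fin 1105 4 912)
(fin 1233 4 976)))))))))))
(mv 847 (cons (fin 911 7 847)
(mv 783 (cons (fin 848 7 783)
(mv 913 (cons (fin 849 6 848)
(mv 1167 (cons (fin 1103 5 911)
(mv 1168 (cons (fin 1231 5 975)
(fin 977 6 912))))))))))))
(cons (mv 847 (cons (fin 911 7 847)
(mv 848 (cons (fin 783 7 783)
(mv 849 (cons (fin 785 6 784)
(fin 913 6 848)))))))
(mv 847 (cons (fin 911 7 847)
(mv 849 (cons (fin 913 6 848)
(mv 1167 (cons (fin 1103 5 911)
(mv 1168 (cons (fin 1231 5 975)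
(mv 1169 (cons (fin 1105 4 912)
(fin 1233 4 976)))))))))))))))
(cons (mv 1168 (cons (cons (mv 911 (cons (fin 975 7 911)
(mv 913 (cons (fin 977 6 912)
(mv 1231 (cons (fin 1167 5 975)
(mv 1232 (cons (fin 1295 5 1039)
(mv 1233 (cons (fin 1169 4 976)
(fin 1297 4 1040)))))))))))
(mv 975 (cons (fin 911 7 911)
(mv 977 (cons (fin 913 6 912)
(mv 974 (cons (fin 1038 1 973)
(mv 909 (cons (fin 910 3 909)
(mv 973 (cons (fin 908 3 908)
(fin 1036 1 972))))))))))))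
(cons (mv 913 (cons (fin 977 6 912)
(mv 1231 (cons (fin 1167 5 975)
(mv 1232 (cons (fin 1295 5 1039)
(mv 1233 (cons (fin 1169 4 976)
(fin 1297 4 1040)))))))))
(mv 911 (cons (fin 975 7 911)
(mv 1231 (cons (fin 1167 5 975)
(mv 1232 (cons (fin 1295 5 1039)
(mv 1233 (cons (fin 1169 4 976)
(fin 1297 4 1040))))))))))))
(mv 912 (cons (cons (mv 847 (cons (fin 911 7 847)
(mv 848 (cons (fin 783 7 783)
(mv 849 (cons (fin 785 6 784)
(fin 913 6 848)))))))
(mv 1103 (cons (fin 1167 5 911)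
(mv 1105 (cons (fin 1169 4 912)
(mv 1038 (cons (fin 1102 3 1037)
(mv 1106 (cons (cons (mv 849 (cons (fin 913 6 848)
(mv 785 (cons (fin 848 6 784)
(mv 1043 (cons (fin 1042 2 1039)
(mv 1107 (cons (fin 1044 2 1040)
(mv 1171 (cons (fin 1170 0 1103)
(fin 1172 0 1104)))))))))))
(cons (mv 1043 (cons (fin 1042 2 1039)
(mv 1107 (cons (fin 1044 2 1040)
(mv 1171 (cons (fin 1170 0 1103)
(fin 1172 0 1104)))))))
(mv 913 (cons (fin 849 6 848)
(mv 1171 (cons (fin 1170 0 1103)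
(mv 1107 (cons (fin 1172 0 1104)
(mv 975 (cons (mv 974 (cons (fin 977 1 973)
(fin 973 2 909)))
(cons (mv 914 (cons (fin 915 1 911)
(mv 978 (cons (fin 1042 4 914)
(mv 911 (cons (fin 979 0 911)
(mv 850 (cons (fin 851 2 847)
(mv 910 (cons (fin 977 3 910)
(mv 845 (cons (fin 846 3 845)
(mv 909 (cons (fin 844 3 844)
(fin 908 0 908)))))))))))))))
(mv 914 (cons (fin 915 1 911)
(mv 974 (cons (fin 911 1 910)
(fin 973 2 909))))))))))))))))
(cons (cons (mv 1043 (cons (fin 1042 2 1039)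
(mv 1107 (cons (fin 1044 2 1040)
(mv 915 (cons (cons (mv 849 (cons (fin 913 6 848)
(mv 785 (cons (fin 848 6 784)
(mv 979 (cons (fin 1170 5 914)
(mv 850 (cons (fin 914 7 850)
(mv 851 (cons (fin 786 7 786)
(mv 852 (cons (fin 784 3 784)
(fin 788 6 787)))))))))))))
(cons (mv 913 (cons (fin 849 6 848)
(mv 914 (cons (fin 975 1 911)
(mv 851 (cons (fin 852 2 848)
(mv 850 (cons (fin 911 2 847)
(mv 916 (cons (fin 977 1 912)
(mv 917 (cons (fin 918 3 850)
(mv 981 (cons (fin 980 0 913)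
(fin 982 0 914)))))))))))))))
(mv 979 (cons (fin 1170 5 914)
(mv 850 (cons (fin 914 7 850)
(mv 851 (cons (fin 786 7 786)
(mv 852 (cons (fin 788 6 787)
(fin 916 6 851)))))))))))
(cons (mv 849 (cons (fin 913 6 848)
(mv 785 (cons (fin 848 6 784)
(mv 979 (cons (fin 1170 5 914)
(mv 852 (cons (fin 916 6 851)
(mv 851 (cons (fin 788 6 787)
(mv 850 (cons (fin 784 3 784)
(fin 786 7 786)))))))))))))
(cons (mv 849 (cons (fin 913 6 848)
(mv 848 (cons (fin 785 6 784)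
(mv 979 (cons (fin 1170 5 914)
(mv 850 (cons (fin 914 7 850)
(mv 851 (cons (fin 911 1 847)
(fin 916 0 848)))))))))))
(mv 913 (cons (fin 849 6 848)
(mv 914 (cons (fin 975 1 911)
(mv 979 (cons (fin 980 0 912)
(fin 1170 5 914)))))))))))))))
(mv 1107 (cons (mv 1171 (cons (fin 1170 0 1103)
(fin 1172 0 1104)))
(cons (mv 1043 (cons (fin 1044 2 1040)
(mv 915 (cons (cons (mv 849 (cons (fin 913 6 848)
(mv 785 (cons (fin 848 6 784)
(mv 979 (cons (fin 1170 5 914)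
(mv 850 (cons (fin 914 7 850)
(mv 851 (cons (fin 786 7 786)
(mv 852 (cons (fin 784 3 784)
(fin 788 6 787)))))))))))))
(cons (mv 913 (cons (fin 849 6 848)
(mv 914 (cons (fin 975 1 911)
(mv 851 (cons (fin 852 2 848)
(mv 850 (cons (fin 911 2 847)
(mv 916 (cons (fin 977 1 912)
(mv 917 (cons (fin 918 3 850)
(mv 981 (cons (fin 980 0 913)
(fin 982 0 914)))))))))))))))
(mv 979 (cons (fin 1170 5 914)
(mv 850 (cons (fin 914 7 850)
(mv 851 (cons (fin 786 7 786)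
(mv 852 (cons (fin 788 6 787)
(fin 916 6 851)))))))))))
(cons (mv 849 (cons (fin 913 6 848)
(mv 785 (cons (fin 848 6 784)
(mv 979 (cons (fin 1170 5 914)
(mv 852 (cons (fin 916 6 851)
(mv 851 (cons (fin 788 6 787)
(mv 850 (cons (fin 784 3 784)
(fin 786 7 786)))))))))))))
(cons (mv 849 (cons (fin 913 6 848)
(mv 848 (cons (fin 785 6 784)
(mv 979 (cons (fin 1170 5 914)
(mv 850 (cons (fin 914 7 850)
(mv 851 (cons (fin 911 1 847)
(fin 916 0 848)))))))))))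
(mv 913 (cons (fin 849 6 848)
(mv 914 (cons (fin 975 1 911)
(mv 979 (cons (fin 980 0 912)
(fin 1170 5 914)))))))))))))
(mv 849 (cons (fin 913 6 848)
(mv 785 (cons (fin 848 6 784)
(mv 1044 (cons (fin 1043 2 1040)
(mv 1108 (cons (fin 1045 2 1041)
(mv 1172 (cons (fin 1171 0 1104)
(fin 1173 0 1105)))))))))))))))
(cons (mv 913 (cons (fin 849 6 848)
(mv 1043 (cons (fin 1042 2 1039)
(mv 1107 (cons (fin 1044 2 1040)
(mv 1172 (cons (fin 1171 0 1104)
(mv 1108 (cons (fin 1173 0 1105)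
(mv 915 (cons (fin 979 4 915)
(mv 914 (cons (fin 975 1 911)
(mv 851 (cons (fin 852 2 848)
(mv 911 (cons (fin 850 2 847)
(mv 977 (cons (fin 916 1 912)
(mv 910 (cons (fin 909 0 909)
(fin 978 0 910)))))))))))))))))))))))
(mv 913 (cons (fin 849 6 848)
(mv 1042 (cons (fin 1043 2 1039)
(mv 1170 (cons (fin 1171 0 1103)
(mv 978 (cons (fin 977 7 913)
(mv 915 (cons (fin 979 6 914)
(mv 914 (cons (fin 975 1 911)
(fin 851 6 850))))))))))))))))))))))))
(cons (mv 911 (cons (fin 847 7 847)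
(mv 1103 (cons (fin 1167 5 911)
(mv 1105 (cons (fin 1169 4 912)
(mv 1038 (cons (fin 1102 3 1037)
(mv 977 (cons (cons (mv 910 (cons (fin 909 0 909)
(mv 975 (cons (fin 978 3 910)
(fin 974 1 973)))))
(mv 975 (cons (fin 974 1 973)
(mv 1106 (cons (cons (mv 978 (cons (fin 979 3 911)
(mv 914 (cons (fin 915 2 911)
(mv 1042 (cons (fin 1043 2 1039)
(mv 1170 (cons (fin 1171 0 1103)
(fin 913 7 913)))))))))
(cons (mv 1043 (cons (fin 1042 2 1039)
(mv 1107 (cons (fin 1044 2 1040)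
(mv 1171 (cons (fin 1170 0 1103)
(fin 1172 0 1104)))))))
(mv 978 (cons (fin 979 3 911)
(mv 914 (cons (fin 915 2 911)
(mv 1171 (cons (fin 1170 0 1103)
(mv 1107 (cons (fin 1172 0 1104)
(fin 1042 4 914)))))))))))
(cons (mv 979 (cons (fin 978 3 911)
(mv 1171 (cons (fin 1170 0 1103)
(mv 1107 (cons (fin 1172 0 1104)
(mv 1043 (cons (fin 1044 2 1040)
(mv 916 (cons (fin 980 6 915)
(mv 915 (cons (fin 852 6 851)
(mv 914 (cons (fin 913 1 911)
(fin 850 7 850)))))))))))))))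
(cons (mv 979 (cons (fin 978 3 911)
(mv 1043 (cons (fin 1042 2 1039)
(mv 1107 (cons (fin 1044 2 1040)
(mv 915 (cons (fin 1170 5 914)
(mv 914 (cons (fin 913 1 911)
(fin 850 7 850)))))))))))
(mv 979 (cons (fin 978 3 911)
(mv 1043 (cons (fin 1042 2 1039)
(mv 1107 (cons (fin 1044 2 1040)
(mv 1171 (cons (fin 1172 0 1104)
(mv 916 (cons (fin 980 6 915)
(mv 915 (cons (fin 852 6 851)
(mv 914 (cons (fin 913 1 911)
(fin 850 7 850))))))))))))))))))))))
(cons (mv 910 (cons (fin 909 0 909)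
(mv 974 (cons (fin 975 1 973)
(mv 846 (cons (mv 845 (cons (fin 913 3 845)
(fin 781 7 781)))
(cons (mv 973 (cons (fin 913 1 909)
(fin 782 5 781)))
(mv 781 (cons (fin 845 7 781)
(mv 782 (cons (fin 717 7 717)
(fin 973 5 781))))))))))))
(mv 910 (cons (fin 909 0 909)
(mv 978 (cons (fin 979 3 911)
(fin 913 0 910))))))))))))))))
(cons (mv 1103 (cons (fin 1167 5 911)
(mv 1105 (cons (fin 1169 4 912)
(mv 1038 (cons (fin 1102 3 1037)
(mv 1043 (cons (cons (mv 849 (cons (fin 913 6 848)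
(mv 785 (cons (fin 848 6 784)
(mv 1106 (cons (fin 1042 2 1039)
(mv 1107 (cons (fin 1044 2 1040)
(mv 1171 (cons (fin 1170 0 1103)
(fin 1172 0 1104)))))))))))
(mv 848 (cons (cons (mv 849 (cons (fin 785 6 784)
(fin 913 6 848)))
(mv 783 (cons (fin 847 7 783)
(mv 784 (cons (fin 719 7 719)
(mv 721 (cons (fin 785 6 720)
(mv 720 (cons (fin 657 6 656)
(mv 722 (cons (fin 723 1 719)
(mv 977 (cons (fin 913 4 720)
(mv 975 (cons (fin 974 1 973)
(mv 978 (cons (fin 1042 0 975)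
(mv 915 (cons (fin 914 2 911)
(mv 979 (cons (fin 916 2 912)
(fin 1044 0 976))))))))))))))))))))))
(cons (mv 783 (cons (fin 847 7 783)
(mv 784 (cons (fin 719 7 719)
(mv 913 (cons (fin 849 6 848)
(mv 977 (cons (fin 720 4 720)
(mv 975 (cons (fin 974 1 973)
(mv 914 (cons (fin 915 1 911)
(mv 978 (cons (fin 1042 0 975)
(mv 979 (cons (fin 980 3 912)
(fin 1044 0 976)))))))))))))))))
(mv 783 (cons (fin 847 7 783)
(mv 784 (cons (fin 719 7 719)
(mv 785 (cons (fin 721 6 720)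
(fin 849 6 784)))))))))))
(cons (mv 1106 (cons (fin 1042 2 1039)
(mv 1107 (cons (fin 1044 2 1040)
(mv 1171 (cons (fin 1170 0 1103)
(fin 1172 0 1104)))))))
(cons (mv 913 (cons (fin 849 6 848)
(mv 1107 (cons (cons (mv 1106 (cons (fin 1044 2 1040)
(mv 1171 (cons (fin 1170 0 1103)
(fin 1172 0 1104)))))
(mv 975 (cons (mv 974 (cons (fin 977 1 973)
(fin 973 2 909)))
(cons (mv 915 (cons (fin 914 1 911)
(mv 979 (cons (cons (mv 852 (cons (fin 916 6 851)
(mv 851 (cons (fin 788 6 787)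
(mv 1108 (cons (fin 1044 4 851)
(fin 1172 4 915)))))))
(mv 1108 (cons (fin 1172 4 915)
(mv 851 (cons (fin 1044 4 851)
(mv 786 (cons (fin 850 7 786)
(mv 787 (cons (fin 722 7 722)
(mv 788 (cons (fin 724 6 723)
(fin 852 6 787))))))))))))
(cons (mv 916 (cons (fin 852 6 851)
(mv 977 (cons (fin 978 2 912)
(mv 1171 (cons (fin 980 6 915)
(mv 1234 (cons (fin 1170 5 978)
(mv 1235 (cons (fin 1298 5 1042)
(mv 1236 (cons (fin 1172 4 979)
(fin 1300 4 1043)))))))))))))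
(cons (mv 1172 (cons (fin 1108 4 915)
(mv 1171 (cons (fin 1236 4 979)
(mv 980 (cons (fin 916 6 915)
(mv 977 (cons (fin 978 3 912)
(mv 1234 (cons (fin 1170 5 978)
(mv 1235 (cons (fin 1298 5 1042)
(fin 1044 6 979)))))))))))))
(mv 852 (cons (fin 916 6 851)
(mv 851 (cons (fin 788 6 787)
(mv 786 (cons (fin 850 7 786)
(mv 787 (cons (fin 722 7 722)
(mv 1044 (cons (fin 980 4 787)
(fin 1108 4 851)))))))))))))))))
(mv 915 (cons (fin 914 1 911)
(mv 973 (cons (fin 974 2 909)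
(mv 979 (cons (cons (mv 852 (cons (fin 916 6 851)
(mv 851 (cons (fin 788 6 787)
(mv 1108 (cons (fin 1044 4 851)
(fin 1172 4 915)))))))
(mv 1108 (cons (fin 1172 4 915)
(mv 851 (cons (fin 1044 4 851)
(mv 786 (cons (fin 850 7 786)
(mv 787 (cons (fin 722 7 722)
(mv 788 (cons (fin 724 6 723)
(fin 852 6 787))))))))))))
(cons (mv 916 (cons (fin 852 6 851)
(mv 1171 (cons (fin 980 6 915)
(mv 1234 (cons (fin 1170 5 978)
(mv 1235 (cons (fin 1298 5 1042)
(mv 1236 (cons (fin 1172 4 979)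
(fin 1300 4 1043)))))))))))
(cons (mv 1172 (cons (fin 1108 4 915)
(mv 1171 (cons (fin 1236 4 979)
(mv 980 (cons (fin 916 6 915)
(mv 1234 (cons (fin 1170 5 978)
(mv 1235 (cons (fin 1298 5 1042)
(fin 1044 6 979)))))))))))
(mv 852 (cons (fin 916 6 851)
(mv 851 (cons (fin 788 6 787)
(mv 786 (cons (fin 850 7 786)
(mv 787 (cons (fin 722 7 722)
(mv 1044 (cons (fin 980 4 787)
(fin 1108 4 851)))))))))))))))))))))))
(cons (mv 975 (cons (mv 974 (cons (fin 977 1 973)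
(fin 973 2 909)))
(mv 914 (cons (fin 915 1 911)
(mv 1171 (cons (cons (mv 1106 (cons (fin 1170 0 1103)
(fin 1172 0 1104)))
(mv 979 (cons (fin 978 7 914)
(mv 916 (cons (fin 980 6 915)
(mv 1234 (cons (fin 1170 5 978)
(mv 1235 (cons (fin 1298 5 1042)
(mv 1236 (cons (fin 1172 4 979)
(fin 1300 4 1043))))))))))))
(cons (mv 979 (cons (fin 978 7 914)
(mv 1170 (cons (fin 1106 0 1103)
(fin 1234 5 978)))))
(mv 979 (cons (fin 978 7 914)
(mv 1172 (cons (fin 1106 0 1104)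
(fin 1236 4 979))))))))))))
(cons (mv 1044 (cons (fin 1106 2 1040)
(mv 915 (cons (cons (mv 914 (cons (fin 975 1 911)
(mv 979 (cons (fin 980 0 912)
(fin 850 7 850)))))
(mv 979 (cons (mv 1108 (cons (fin 851 4 851)
(fin 1172 4 915)))
(cons (mv 852 (cons (fin 916 6 851)
(mv 851 (cons (fin 788 6 787)
(mv 786 (cons (fin 850 7 786)
(mv 787 (cons (fin 722 7 722)
(fin 980 4 787)))))))))
(mv 916 (cons (fin 852 6 851)
(mv 978 (cons (fin 977 2 912)
(mv 917 (cons (fin 918 1 914)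
(mv 1045 (cons (fin 1046 3 978)
(mv 1108 (cons (fin 1172 4 915)
(mv 853 (cons (fin 981 5 852)
(fin 980 6 852)))))))))))))))))
(cons (mv 914 (cons (fin 975 1 911)
(mv 847 (cons (fin 848 3 847)
(mv 851 (cons (fin 852 2 848)
(mv 916 (cons (fin 977 1 912)
(mv 980 (cons (fin 981 0 913)
(fin 1108 7 851)))))))))))
(mv 914 (cons (fin 975 1 911)
(mv 847 (cons (fin 848 3 847)
(mv 850 (cons (fin 979 7 850)
(mv 852 (cons (fin 851 2 848)
(mv 916 (cons (fin 977 1 912)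
(fin 853 2 849))))))))))))))))
(mv 1106 (cons (fin 1044 2 1040)
(mv 1170 (cons (fin 1171 0 1103)
(mv 915 (cons (fin 979 5 914)
(mv 914 (cons (fin 975 1 911)
(mv 847 (cons (fin 848 3 847)
(mv 852 (cons (fin 851 2 848)
(mv 916 (cons (fin 977 1 912)
(fin 853 2 849)))))))))))))))))))))
(mv 1042 (cons (fin 1106 2 1039)
(mv 848 (cons (cons (mv 849 (cons (fin 785 6 784)
(fin 913 6 848)))
(mv 783 (cons (fin 847 7 783)
(mv 784 (cons (fin 719 7 719)
(mv 721 (cons (fin 785 6 720)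
(mv 720 (cons (fin 657 6 656)
(mv 722 (cons (fin 723 1 719)
(mv 781 (cons (fin 782 2 717)
(mv 977 (cons (fin 913 4 720)
(mv 975 (cons (fin 974 1 973)
(fin 978 0 975))))))))))))))))))
(cons (mv 783 (cons (fin 847 7 783)
(mv 784 (cons (fin 719 7 719)
(mv 913 (cons (fin 849 6 848)
(mv 977 (cons (fin 720 4 720)
(mv 975 (cons (fin 974 1 973)
(fin 978 0 975)))))))))))
(mv 783 (cons (fin 847 7 783)
(mv 784 (cons (fin 719 7 719)
(mv 785 (cons (fin 721 6 720)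
(fin 849 6 784))))))))))))))))))))))
(mv 1103 (cons (fin 1167 5 911)
(mv 1105 (cons (fin 1169 4 912)
(mv 1038 (cons (fin 1102 3 1037)
(mv 848 (cons (cons (mv 847 (cons (fin 783 7 783)
(fin 911 7 847)))
(mv 785 (cons (fin 849 6 784)
(mv 784 (cons (fin 721 6 720)
(mv 719 (cons (fin 783 7 719)
(mv 720 (cons (fin 655 7 655)
(mv 717 (cons (fin 718 0 717)
(mv 786 (cons (fin 787 3 719)
(mv 975 (cons (fin 911 5 719)
(mv 974 (cons (fin 977 1 973)
(mv 1036 (cons (fin 973 1 972)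
(fin 1035 2 971))))))))))))))))))))
(cons (mv 785 (cons (fin 849 6 784)
(mv 784 (cons (fin 721 6 720)
(mv 911 (cons (fin 847 7 847)
(mv 975 (cons (fin 720 5 719)
(mv 974 (cons (fin 977 1 973)
(mv 973 (cons (fin 1036 1 972)
(fin 972 2 908)))))))))))))
(mv 783 (cons (fin 847 7 783)
(mv 784 (cons (fin 719 7 719)
(mv 785 (cons (fin 721 6 720)
(fin 849 6 784))))))))))))))))))))))
(cons (cons (mv 1168 (cons (cons (mv 913 (cons (fin 977 6 912)
(mv 849 (cons (fin 912 6 848)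
(mv 1231 (cons (fin 1167 5 975)
(mv 1232 (cons (fin 1295 5 1039)
(mv 1233 (cons (fin 1169 4 976)
(fin 1297 4 1040)))))))))))
(mv 913 (cons (fin 977 6 912)
(mv 912 (cons (fin 849 6 848)
(mv 1169 (cons (fin 1105 4 912)
(fin 1233 4 976))))))))
(cons (mv 913 (cons (fin 977 6 912)
(mv 912 (cons (fin 849 6 848)
(mv 1167 (cons (fin 1103 5 911)
(fin 1231 5 975)))))))
(cons (mv 1167 (cons (fin 1231 5 975)
(mv 912 (cons (fin 1103 5 911)
(mv 1169 (cons (fin 1105 4 912)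
(fin 1233 4 976)))))))
(mv 913 (cons (fin 977 6 912)
(mv 1231 (cons (fin 1167 5 975)
(mv 1232 (cons (fin 1295 5 1039)
(mv 1233 (cons (fin 1169 4 976)
(fin 1297 4 1040)))))))))))))
(mv 1168 (cons (cons (mv 911 (cons (fin 975 7 911)
(mv 847 (cons (fin 912 7 847)
(mv 1231 (cons (fin 1167 5 975)
(mv 1232 (cons (fin 1295 5 1039)
(mv 1233 (cons (fin 1169 4 976)
(fin 1297 4 1040)))))))))))
(mv 911 (cons (fin 975 7 911)
(mv 912 (cons (fin 847 7 847)
(mv 1169 (cons (fin 1105 4 912)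
(fin 1233 4 976))))))))
(cons (mv 911 (cons (fin 975 7 911)
(mv 912 (cons (fin 847 7 847)
(mv 1167 (cons (fin 1103 5 911)
(fin 1231 5 975)))))))
(cons (mv 1167 (cons (fin 1231 5 975)
(mv 912 (cons (fin 1103 5 911)
(mv 1169 (cons (fin 1105 4 912)
(fin 1233 4 976)))))))
(mv 911 (cons (fin 975 7 911)
(mv 1231 (cons (fin 1167 5 975)
(mv 1232 (cons (fin 1295 5 1039)
(mv 1233 (cons (fin 1169 4 976)
(fin 1297 4 1040))))))))))))))
(cons (mv 912 (cons (cons (mv 847 (cons (fin 911 7 847)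
(mv 783 (cons (fin 848 7 783)
(mv 913 (cons (fin 849 6 848)
(mv 1168 (cons (fin 977 6 912)
(mv 1169 (cons (fin 1105 4 912)
(fin 1233 4 976)))))))))))
(mv 913 (cons (fin 849 6 848)
(mv 1168 (cons (fin 977 6 912)
(mv 1169 (cons (fin 1105 4 912)
(fin 1233 4 976))))))))
(cons (mv 911 (cons (fin 847 7 847)
(mv 1168 (cons (fin 975 7 911)
(mv 1169 (cons (fin 1105 4 912)
(fin 1233 4 976)))))))
(mv 847 (cons (fin 911 7 847)
(mv 848 (cons (fin 783 7 783)
(mv 849 (cons (fin 785 6 784)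
(fin 913 6 848))))))))))
(mv 912 (cons (cons (mv 847 (cons (fin 911 7 847)
(mv 783 (cons (fin 848 7 783)
(mv 913 (cons (fin 849 6 848)
(mv 1167 (cons (fin 1103 5 911)
(mv 1168 (cons (fin 1231 5 975)
(fin 977 6 912)))))))))))
(mv 913 (cons (fin 849 6 848)
(mv 1167 (cons (fin 1103 5 911)
(mv 1168 (cons (fin 1231 5 975)
(fin 977 6 912))))))))
(cons (mv 911 (cons (fin 847 7 847)
(mv 1167 (cons (fin 1103 5 911)
(mv 1168 (cons (fin 975 7 911)
(fin 1231 5 975)))))))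
(mv 847 (cons (fin 911 7 847)
(mv 848 (cons (fin 783 7 783)
(mv 849 (cons (fin 785 6 784)
(fin 913 6 848))))))))))))))
(mv 1104 (cons (cons (cons (mv 912 (cons (cons (mv 847 (cons (fin 911 7 847)
(mv 783 (cons (fin 848 7 783)
(mv 849 (cons (fin 913 6 848)
(mv 1167 (cons (fin 1103 5 911)
(mv 1168 (cons (fin 1231 5 975)
(mv 1169 (cons (fin 1105 4 912)
(fin 1233 4 976)))))))))))))
(cons (mv 849 (cons (fin 913 6 848)
(mv 785 (cons (fin 848 6 784)
(mv 1167 (cons (fin 1103 5 911)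
(mv 1168 (cons (fin 1231 5 975)
(mv 1169 (cons (fin 1105 4 912)
(fin 1233 4 976)))))))))))
(mv 847 (cons (fin 911 7 847)
(mv 783 (cons (fin 848 7 783)
(mv 1167 (cons (fin 1103 5 911)
(mv 1168 (cons (fin 1231 5 975)
(mv 1169 (cons (fin 1105 4 912)
(fin 1233 4 976)))))))))))))
(cons (cons (mv 847 (cons (fin 911 7 847)
(mv 783 (cons (fin 848 7 783)
(mv 913 (cons (fin 849 6 848)
(mv 1168 (cons (fin 977 6 912)
(mv 1169 (cons (fin 1105 4 912)
(fin 1233 4 976)))))))))))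
(mv 847 (cons (fin 911 7 847)
(mv 783 (cons (fin 848 7 783)
(mv 913 (cons (fin 849 6 848)
(mv 1167 (cons (fin 1103 5 911)
(mv 1168 (cons (fin 1231 5 975)
(fin 977 6 912))))))))))))
(cons (mv 847 (cons (fin 911 7 847)
(mv 848 (cons (fin 783 7 783)
(mv 849 (cons (fin 785 6 784)
(fin 913 6 848)))))))
(mv 847 (cons (fin 911 7 847)
(mv 849 (cons (fin 913 6 848)
(mv 1167 (cons (fin 1103 5 911)
(mv 1168 (cons (fin 1231 5 975)
(mv 1169 (cons (fin 1105 4 912)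
(fin 1233 4 976)))))))))))))))
(mv 1168 (cons (cons (mv 911 (cons (fin 975 7 911)
(mv 913 (cons (fin 977 6 912)
(mv 1231 (cons (fin 1167 5 975)
(mv 1232 (cons (fin 1295 5 1039)
(mv 1233 (cons (fin 1169 4 976)
(fin 1297 4 1040)))))))))))
(cons (mv 913 (cons (fin 977 6 912)
(mv 1231 (cons (fin 1167 5 975)
(mv 1232 (cons (fin 1295 5 1039)
(mv 1233 (cons (fin 1169 4 976)
(fin 1297 4 1040)))))))))
(mv 913 (cons (fin 977 6 912)
(mv 975 (cons (fin 911 7 911)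
(mv 1232 (cons (fin 1039 7 975)
(mv 1233 (cons (fin 1169 4 976)
(fin 1297 4 1040)))))))))))
(cons (mv 913 (cons (fin 977 6 912)
(mv 975 (cons (fin 911 7 911)
(mv 1231 (cons (fin 1167 5 975)
(mv 1232 (cons (fin 1039 7 975)
(fin 1295 5 1039)))))))))
(cons (mv 911 (cons (fin 975 7 911)
(mv 1231 (cons (fin 1167 5 975)
(mv 1232 (cons (fin 1295 5 1039)
(mv 1233 (cons (fin 1169 4 976)
(fin 1297 4 1040)))))))))
(mv 911 (cons (fin 975 7 911)
(mv 913 (cons (fin 977 6 912)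
(mv 1167 (cons (fin 1231 5 975)
(mv 1169 (cons (fin 1233 4 976)
(mv 1170 (cons (mv 1103 (cons (fin 1102 3 1102)
(fin 1171 3 1103)))
(cons (mv 1106 (cons (fin 1107 2 1103)
(mv 1105 (cons (fin 1166 2 1102)
(mv 1171 (cons (fin 1172 3 1104)
(mv 1235 (cons (fin 1234 0 1167)
(fin 1236 0 1168)))))))))
(mv 1103 (cons (fin 1102 3 1102)
(mv 1106 (cons (fin 1107 2 1103)
(mv 1166 (cons (fin 1105 1 1102)
(mv 1165 (cons (fin 1164 2 1100)
(mv 1229 (cons (fin 1228 1 1164)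
(fin 1230 1 1165)))))))))))))))))))))))))))
(cons (mv 912 (cons (cons (mv 847 (cons (fin 911 7 847)
(mv 848 (cons (fin 783 7 783)
(mv 849 (cons (fin 785 6 784)
(fin 913 6 848)))))))
(mv 849 (cons (fin 913 6 848)
(mv 848 (cons (fin 785 6 784)
(mv 1103 (cons (fin 1039 5 847)
(fin 1167 5 911))))))))
(cons (mv 847 (cons (fin 911 7 847)
(mv 848 (cons (fin 783 7 783)
(mv 1103 (cons (fin 1039 5 847)
(fin 1167 5 911)))))))
(mv 847 (cons (fin 911 7 847)
(mv 913 (cons (fin 849 6 848)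
(mv 1103 (cons (fin 1167 5 911)
(mv 1105 (cons (fin 1169 4 912)
(mv 1106 (cons (cons (mv 1039 (cons (fin 1107 3 1039)
(mv 1042 (cons (fin 1043 2 1039)
(mv 1170 (cons (fin 1171 0 1103)
(mv 978 (cons (fin 977 7 913)
(mv 915 (cons (fin 979 6 914)
(mv 914 (cons (fin 975 1 911)
(fin 851 6 850)))))))))))))
(mv 1042 (cons (fin 1043 2 1039)
(mv 1170 (cons (fin 1171 0 1103)
(mv 978 (cons (fin 977 7 913)
(mv 915 (cons (fin 979 6 914)
(mv 914 (cons (fin 975 1 911)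
(fin 851 6 850))))))))))))
(cons (mv 1107 (cons (fin 1039 3 1039)
(mv 1171 (cons (fin 1170 0 1103)
(fin 1172 0 1104)))))
(mv 1043 (cons (fin 1042 2 1039)
(mv 1107 (cons (fin 1039 3 1039)
(fin 1044 2 1040)))))))))))))))))))
(mv 1168 (cons (cons (mv 913 (cons (fin 977 6 912)
(mv 849 (cons (fin 912 6 848)
(mv 1169 (cons (fin 1233 4 976)
(mv 1231 (cons (fin 1167 5 975)
(mv 1232 (cons (fin 1295 5 1039)
(mv 1039 (cons (fin 975 7 975)
(mv 1170 (cons (fin 1171 1 1167)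
(mv 1229 (cons (fin 1230 2 1165)
(mv 1296 (cons (fin 1103 7 1039)
(mv 1360 (cons (fin 1105 6 1104)
(mv 1361 (cons (fin 1297 4 1104)
(fin 1425 4 1168)))))))))))))))))))))))
(cons (mv 913 (cons (fin 977 6 912)
(mv 849 (cons (fin 912 6 848)
(mv 1233 (cons (fin 1169 4 976)
(mv 1232 (cons (fin 1297 4 1040)
(mv 1039 (cons (fin 975 7 975)
(mv 1295 (cons (fin 1231 5 1039)
(mv 1296 (cons (fin 1103 7 1039)
(fin 1359 5 1103)))))))))))))))
(mv 913 (cons (fin 977 6 912)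
(mv 849 (cons (fin 912 6 848)
(mv 1231 (cons (fin 1167 5 975)
(mv 1232 (cons (fin 1295 5 1039)
(mv 1039 (cons (fin 975 7 975)
(mv 1296 (cons (fin 1103 7 1039)
(mv 1297 (cons (fin 1233 4 1040)
(fin 1361 4 1104)))))))))))))))))
(cons (cons (mv 913 (cons (fin 977 6 912)
(mv 912 (cons (fin 849 6 848)
(mv 1169 (cons (fin 1105 4 912)
(fin 1233 4 976)))))))
(mv 913 (cons (fin 977 6 912)
(mv 912 (cons (fin 849 6 848)
(mv 1167 (cons (fin 1103 5 911)
(fin 1231 5 975))))))))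
(cons (mv 1167 (cons (fin 1231 5 975)
(mv 912 (cons (fin 1103 5 911)
(mv 1169 (cons (fin 1105 4 912)
(fin 1233 4 976)))))))
(mv 913 (cons (fin 977 6 912)
(mv 1169 (cons (fin 1233 4 976)
(mv 1231 (cons (fin 1167 5 975)
(mv 1232 (cons (fin 1295 5 1039)
(mv 1039 (cons (fin 975 7 975)
(mv 1170 (cons (fin 1171 1 1167)
(mv 1229 (cons (fin 1230 2 1165)
(mv 1296 (cons (fin 1103 7 1039)
(mv 1360 (cons (fin 1105 6 1104)
(mv 1361 (cons (fin 1297 4 1104)
(fin 1425 4 1168)))))))))))))))))))))))))))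
(cons (cons (mv 912 (cons (cons (mv 847 (cons (fin 911 7 847)
(mv 783 (cons (fin 848 7 783)
(mv 913 (cons (fin 849 6 848)
(mv 1168 (cons (fin 977 6 912)
(mv 1169 (cons (fin 1105 4 912)
(fin 1233 4 976)))))))))))
(cons (mv 849 (cons (fin 913 6 848)
(mv 848 (cons (fin 785 6 784)
(mv 783 (cons (fin 847 7 783)
(mv 784 (cons (fin 719 7 719)
(mv 1039 (cons (fin 975 5 783)
(fin 1103 5 847)))))))))))
(mv 847 (cons (fin 911 7 847)
(mv 848 (cons (fin 783 7 783)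
(mv 785 (cons (fin 849 6 784)
(mv 784 (cons (fin 721 6 720)
(mv 1039 (cons (fin 975 5 783)
(fin 1103 5 847)))))))))))))
(cons (mv 849 (cons (fin 913 6 848)
(mv 848 (cons (fin 785 6 784)
(mv 1039 (cons (fin 1103 5 847)
(mv 975 (cons (fin 784 5 783)
(mv 1168 (cons (fin 911 7 911)
(fin 1232 7 975)))))))))))
(cons (mv 847 (cons (fin 911 7 847)
(mv 848 (cons (fin 783 7 783)
(mv 1039 (cons (fin 1103 5 847)
(mv 975 (cons (fin 784 5 783)
(mv 1168 (cons (fin 1232 7 975)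
(mv 1169 (cons (fin 1105 4 912)
(fin 1233 4 976)))))))))))))
(mv 847 (cons (fin 911 7 847)
(mv 913 (cons (fin 849 6 848)
(mv 1168 (cons (fin 977 6 912)
(mv 1169 (cons (fin 1105 4 912)
(fin 1233 4 976)))))))))))))
(mv 1168 (cons (cons (mv 911 (cons (fin 975 7 911)
(mv 847 (cons (fin 912 7 847)
(mv 1231 (cons (fin 1167 5 975)
(mv 1232 (cons (fin 1295 5 1039)
(mv 1233 (cons (fin 1169 4 976)
(fin 1297 4 1040)))))))))))
(mv 911 (cons (fin 975 7 911)
(mv 912 (cons (fin 847 7 847)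
(mv 1169 (cons (fin 1105 4 912)
(fin 1233 4 976))))))))
(cons (mv 1167 (cons (fin 1231 5 975)
(mv 912 (cons (fin 1103 5 911)
(mv 1169 (cons (fin 1105 4 912)
(fin 1233 4 976)))))))
(cons (mv 911 (cons (fin 975 7 911)
(mv 912 (cons (fin 847 7 847)
(mv 1167 (cons (fin 1103 5 911)
(fin 1231 5 975)))))))
(mv 911 (cons (fin 975 7 911)
(mv 1231 (cons (fin 1167 5 975)
(mv 1232 (cons (fin 1295 5 1039)
(mv 1233 (cons (fin 1169 4 976)
(fin 1297 4 1040))))))))))))))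
(cons (mv 912 (cons (cons (mv 847 (cons (fin 911 7 847)
(mv 783 (cons (fin 848 7 783)
(mv 913 (cons (fin 849 6 848)
(mv 1167 (cons (fin 1103 5 911)
(mv 1168 (cons (fin 1231 5 975)
(fin 977 6 912)))))))))))
(mv 849 (cons (fin 913 6 848)
(mv 848 (cons (fin 785 6 784)
(mv 1103 (cons (fin 1039 5 847)
(fin 1167 5 911))))))))
(cons (mv 847 (cons (fin 911 7 847)
(mv 848 (cons (fin 783 7 783)
(mv 1103 (cons (fin 1039 5 847)
(fin 1167 5 911)))))))
(cons (mv 847 (cons (fin 911 7 847)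
(mv 848 (cons (fin 783 7 783)
(mv 849 (cons (fin 785 6 784)
(fin 913 6 848)))))))
(mv 847 (cons (fin 911 7 847)
(mv 913 (cons (fin 849 6 848)
(mv 1167 (cons (fin 1103 5 911)
(mv 1168 (cons (fin 1231 5 975)
(fin 977 6 912)))))))))))))
(mv 1168 (cons (cons (mv 911 (cons (fin 975 7 911)
(mv 847 (cons (fin 912 7 847)
(mv 913 (cons (fin 977 6 912)
(mv 1231 (cons (fin 1167 5 975)
(mv 1232 (cons (fin 1295 5 1039)
(mv 1233 (cons (fin 1169 4 976)
(fin 1297 4 1040)))))))))))))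
(mv 913 (cons (fin 977 6 912)
(mv 849 (cons (fin 912 6 848)
(mv 1231 (cons (fin 1167 5 975)
(mv 1232 (cons (fin 1295 5 1039)
(mv 1233 (cons (fin 1169 4 976)
(fin 1297 4 1040))))))))))))
(cons (mv 911 (cons (fin 975 7 911)
(mv 912 (cons (fin 847 7 847)
(mv 913 (cons (fin 849 6 848)
(fin 977 6 912)))))))
(cons (mv 911 (cons (fin 975 7 911)
(mv 847 (cons (fin 912 7 847)
(mv 1231 (cons (fin 1167 5 975)
(mv 1232 (cons (fin 1295 5 1039)
(mv 1233 (cons (fin 1169 4 976)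
(fin 1297 4 1040)))))))))))
(mv 911 (cons (fin 975 7 911)
(mv 913 (cons (fin 977 6 912)
(mv 1231 (cons (fin 1167 5 975)
(mv 1232 (cons (fin 1295 5 1039)
(mv 1233 (cons (fin 1169 4 976)
(fin 1297 4 1040)))))))))))))))))))))
(cons (cons (mv 1104 (cons (cons (cons (mv 912 (cons (cons (mv 847 (cons (fin 911 7 847)
(mv 783 (cons (fin 848 7 783)
(mv 849 (cons (fin 913 6 848)
(mv 1103 (cons (fin 1167 5 911)
(mv 1105 (cons (fin 1169 4 912)
(mv 1038 (cons (fin 1102 3 1037)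
(fin 1039 0 1037)))))))))))))
(mv 847 (cons (fin 911 7 847)
(mv 848 (cons (fin 783 7 783)
(mv 849 (cons (fin 785 6 784)
(fin 913 6 848))))))))
(cons (mv 849 (cons (fin 913 6 848)
(mv 785 (cons (fin 848 6 784)
(mv 1103 (cons (fin 1167 5 911)
(mv 1105 (cons (fin 1169 4 912)
(mv 1038 (cons (fin 1102 3 1037)
(fin 1039 0 1037)))))))))))
(cons (mv 847 (cons (fin 911 7 847)
(mv 783 (cons (fin 848 7 783)
(mv 1103 (cons (fin 1167 5 911)
(mv 1105 (cons (fin 1169 4 912)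
(mv 1038 (cons (fin 1102 3 1037)
(fin 1039 0 1037)))))))))))
(mv 847 (cons (fin 911 7 847)
(mv 849 (cons (fin 913 6 848)
(mv 1103 (cons (fin 1167 5 911)
(mv 1105 (cons (fin 1169 4 912)
(mv 1038 (cons (fin 1102 3 1037)
(fin 1039 0 1037)))))))))))))))
(mv 1168 (cons (cons (mv 911 (cons (fin 975 7 911)
(mv 1231 (cons (fin 1167 5 975)
(mv 1232 (cons (fin 1295 5 1039)
(mv 1233 (cons (fin 1169 4 976)
(fin 1297 4 1040)))))))))
(mv 1231 (cons (fin 1167 5 975)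
(mv 1232 (cons (fin 1295 5 1039)
(mv 1233 (cons (fin 1169 4 976)
(fin 1297 4 1040))))))))
(cons (mv 975 (cons (fin 911 7 911)
(mv 1039 (cons (fin 1232 7 975)
(mv 1038 (cons (fin 1036 2 972)
(fin 1105 0 1037)))))))
(mv 911 (cons (fin 975 7 911)
(mv 1167 (cons (fin 1231 5 975)
(mv 1169 (cons (fin 1233 4 976)
(mv 1170 (cons (mv 1103 (cons (fin 1102 3 1102)
(fin 1171 3 1103)))
(cons (mv 1106 (cons (fin 1107 2 1103)
(mv 1105 (cons (fin 1166 2 1102)
(mv 1038 (cons (fin 1039 0 1037)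
(mv 1171 (cons (fin 1172 3 1104)
(mv 1235 (cons (fin 1234 0 1167)
(fin 1236 0 1168)))))))))))
(mv 1103 (cons (fin 1102 3 1102)
(mv 1106 (cons (fin 1107 2 1103)
(mv 1166 (cons (fin 1105 1 1102)
(mv 1165 (cons (fin 1164 2 1100)
(mv 1229 (cons (fin 1228 1 1164)
(fin 1230 1 1165))))))))))))))))))))))))
(cons (mv 912 (cons (cons (mv 847 (cons (fin 911 7 847)
(mv 848 (cons (fin 783 7 783)
(mv 849 (cons (fin 785 6 784)
(fin 913 6 848)))))))
(mv 849 (cons (fin 913 6 848)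
(mv 848 (cons (fin 785 6 784)
(mv 1103 (cons (fin 1039 5 847)
(fin 1167 5 911))))))))
(cons (mv 847 (cons (fin 911 7 847)
(mv 848 (cons (fin 783 7 783)
(mv 1103 (cons (fin 1039 5 847)
(fin 1167 5 911)))))))
(mv 849 (cons (fin 913 6 848)
(mv 911 (cons (fin 847 7 847)
(mv 1103 (cons (fin 1167 5 911)
(mv 1168 (cons (fin 975 7 911)
(mv 1233 (cons (fin 1169 4 976)
(mv 1232 (cons (fin 1297 4 1040)
(mv 1295 (cons (fin 1231 5 1039)
(mv 1296 (cons (fin 1039 7 1039)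
(fin 1359 5 1103))))))))))))))))))))
(mv 912 (cons (cons (mv 847 (cons (fin 911 7 847)
(mv 848 (cons (fin 783 7 783)
(mv 849 (cons (fin 785 6 784)
(fin 913 6 848)))))))
(mv 849 (cons (fin 913 6 848)
(mv 848 (cons (fin 785 6 784)
(mv 783 (cons (fin 847 7 783)
(mv 719 (cons (fin 784 7 719)
(mv 1039 (cons (fin 1103 5 847)
(mv 1105 (cons (fin 1038 0 1037)
(fin 1169 4 912))))))))))))))
(cons (mv 849 (cons (fin 913 6 848)
(mv 848 (cons (fin 785 6 784)
(mv 1039 (cons (fin 1103 5 847)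
(mv 1105 (cons (fin 1038 0 1037)
(fin 1169 4 912)))))))))
(cons (mv 847 (cons (fin 911 7 847)
(mv 848 (cons (fin 783 7 783)
(mv 1039 (cons (fin 1103 5 847)
(mv 1105 (cons (fin 1038 0 1037)
(fin 1169 4 912)))))))))
(mv 849 (cons (fin 913 6 848)
(mv 911 (cons (fin 847 7 847)
(mv 975 (cons (fin 1168 7 911)
(mv 1105 (cons (fin 1169 4 912)
(mv 1038 (cons (fin 1039 0 1037)
(mv 1102 (cons (fin 1103 3 1037)
(mv 974 (cons (fin 1166 6 910)
(mv 973 (cons (fin 1036 1 972)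
(fin 972 2 908)))))))))))))))))))))))
(cons (cons (mv 912 (cons (cons (mv 849 (cons (fin 913 6 848)
(mv 785 (cons (fin 848 6 784)
(mv 1103 (cons (fin 1167 5 911)
(mv 1105 (cons (fin 1169 4 912)
(mv 1038 (cons (fin 1102 3 1037)
(fin 1039 0 1037)))))))))))
(cons (mv 849 (cons (fin 913 6 848)
(mv 848 (cons (fin 785 6 784)
(mv 783 (cons (fin 847 7 783)
(mv 784 (cons (fin 719 7 719)
(mv 781 (cons (fin 782 0 781)
(mv 850 (cons (fin 851 3 783)
(mv 1039 (cons (fin 975 5 783)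
(mv 1105 (cons (fin 1038 0 1037)
(fin 1169 4 912)))))))))))))))))
(mv 849 (cons (fin 913 6 848)
(mv 848 (cons (fin 785 6 784)
(mv 1103 (cons (fin 1039 5 847)
(fin 1167 5 911)))))))))
(cons (mv 1103 (cons (fin 1167 5 911)
(mv 1039 (cons (fin 848 5 847)
(mv 1038 (cons (fin 1036 0 1036)
(fin 1105 0 1037)))))))
(cons (mv 849 (cons (fin 913 6 848)
(mv 1103 (cons (fin 1167 5 911)
(mv 1105 (cons (fin 1169 4 912)
(mv 1038 (cons (fin 1102 3 1037)
(fin 1039 0 1037)))))))))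
(mv 849 (cons (fin 913 6 848)
(mv 785 (cons (fin 848 6 784)
(mv 1167 (cons (fin 1103 5 911)
(mv 1168 (cons (fin 1231 5 975)
(mv 1169 (cons (fin 1105 4 912)
(fin 1233 4 976)))))))))))))))
(mv 912 (cons (cons (mv 847 (cons (fin 911 7 847)
(mv 848 (cons (fin 783 7 783)
(mv 849 (cons (fin 785 6 784)
(fin 913 6 848)))))))
(mv 849 (cons (fin 913 6 848)
(mv 848 (cons (fin 785 6 784)
(mv 1103 (cons (fin 1039 5 847)
(fin 1167 5 911))))))))
(cons (mv 847 (cons (fin 911 7 847)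
(mv 848 (cons (fin 783 7 783)
(mv 1103 (cons (fin 1039 5 847)
(fin 1167 5 911)))))))
(mv 849 (cons (fin 913 6 848)
(mv 911 (cons (fin 847 7 847)
(mv 1167 (cons (fin 1103 5 911)
(mv 1168 (cons (fin 975 7 911)
(fin 1231 5 975)))))))))))))
(cons (mv 912 (cons (cons (mv 847 (cons (fin 911 7 847)
(mv 783 (cons (fin 848 7 783)
(mv 849 (cons (fin 913 6 848)
(mv 1167 (cons (fin 1103 5 911)
(mv 1168 (cons (fin 1231 5 975)
(mv 1169 (cons (fin 1105 4 912)
(fin 1233 4 976)))))))))))))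
(mv 849 (cons (fin 913 6 848)
(mv 785 (cons (fin 848 6 784)
(mv 1167 (cons (fin 1103 5 911)
(mv 1168 (cons (fin 1231 5 975)
(mv 1169 (cons (fin 1105 4 912)
(fin 1233 4 976))))))))))))
(cons (mv 847 (cons (fin 911 7 847)
(mv 783 (cons (fin 848 7 783)
(mv 1167 (cons (fin 1103 5 911)
(mv 1168 (cons (fin 1231 5 975)
(mv 1169 (cons (fin 1105 4 912)
(fin 1233 4 976)))))))))))
(cons (mv 847 (cons (fin 911 7 847)
(mv 848 (cons (fin 783 7 783)
(mv 849 (cons (fin 785 6 784)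
(fin 913 6 848)))))))
(mv 847 (cons (fin 911 7 847)
(mv 849 (cons (fin 913 6 848)
(mv 1167 (cons (fin 1103 5 911)
(mv 1168 (cons (fin 1231 5 975)
(mv 1169 (cons (fin 1105 4 912)
(fin 1233 4 976)))))))))))))))
(mv 1168 (cons (cons (mv 911 (cons (fin 975 7 911)
(mv 847 (cons (fin 912 7 847)
(mv 1231 (cons (fin 1167 5 975)
(mv 1232 (cons (fin 1295 5 1039)
(mv 1233 (cons (fin 1169 4 976)
(fin 1297 4 1040)))))))))))
(mv 1167 (cons (fin 1231 5 975)
(mv 1169 (cons (fin 1233 4 976)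
(mv 912 (cons (fin 1105 4 912)
(mv 847 (cons (fin 911 7 847)
(mv 848 (cons (fin 783 7 783)
(mv 849 (cons (fin 785 6 784)
(fin 913 6 848))))))))))))))
(cons (mv 975 (cons (fin 911 7 911)
(mv 1039 (cons (fin 1232 7 975)
(mv 1038 (cons (fin 1036 2 972)
(fin 1105 0 1037)))))))
(mv 1167 (cons (fin 1231 5 975)
(mv 1169 (cons (fin 1233 4 976)
(mv 1105 (cons (fin 912 4 912)
(mv 1106 (cons (fin 1107 1 1103)
(fin 1166 2 1102))))))))))))))))
(mv 975 (cons (cons (mv 1038 (cons (cons (mv 977 (cons (fin 974 1 973)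
(fin 1039 2 973)))
(mv 974 (cons (fin 977 1 973)
(mv 1036 (cons (fin 973 1 972)
(fin 1035 2 971))))))
(cons (mv 1036 (cons (fin 1039 2 972)
(mv 974 (cons (fin 973 1 972)
(fin 1035 2 971)))))
(mv 1039 (cons (fin 1036 2 972)
(fin 977 2 973))))))
(cons (mv 974 (cons (cons (mv 973 (cons (fin 1036 1 972)
(mv 908 (cons (fin 909 3 908)
(mv 972 (cons (fin 907 3 907)
(fin 1039 0 972)))))))
(mv 977 (cons (cons (mv 909 (cons (fin 910 3 909)
(mv 914 (cons (fin 913 2 910)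
(mv 978 (cons (fin 915 2 911)
(mv 979 (cons (fin 1039 1 975)
(mv 1043 (cons (fin 1042 0 975)
(fin 1044 0 976)))))))))))
(cons (mv 914 (cons (fin 913 2 910)
(mv 978 (cons (fin 915 2 911)
(mv 979 (cons (fin 1039 1 975)
(mv 1043 (cons (fin 1042 0 975)
(fin 1044 0 976)))))))))
(mv 910 (cons (fin 909 3 909)
(mv 978 (cons (fin 911 3 910)
(mv 914 (cons (fin 915 2 911)
(mv 979 (cons (fin 1039 1 975)
(mv 1043 (cons (fin 1042 0 975)
(fin 1044 0 976)))))))))))))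
(cons (mv 910 (cons (fin 909 3 909)
(mv 978 (cons (fin 911 3 910)
(mv 979 (cons (fin 1039 1 975)
(mv 1043 (cons (fin 1042 0 975)
(fin 1044 0 976)))))))))
(cons (mv 910 (cons (fin 909 3 909)
(mv 913 (cons (fin 914 2 910)
(mv 849 (cons (fin 785 5 784)
(mv 911 (cons (cons (mv 783 (cons (fin 847 4 783)
(mv 912 (cons (fin 850 2 846)
(mv 846 (cons (fin 845 3 845)
(mv 782 (cons (fin 719 6 718)
(fin 718 4 718)))))))))
(mv 912 (cons (fin 850 2 846)
(mv 846 (cons (fin 845 3 845)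
(mv 782 (cons (fin 718 4 718)
(fin 1039 4 782))))))))
(cons (mv 847 (cons (fin 783 4 783)
(mv 848 (cons (fin 850 1 846)
(mv 1039 (cons (fin 784 6 783)
(mv 846 (cons (fin 782 7 782)
(fin 1103 7 846)))))))))
(cons (mv 847 (cons (fin 783 4 783)
(mv 846 (cons (mv 782 (cons (fin 1039 7 782)
(fin 718 4 718)))
(mv 845 (cons (fin 912 3 845)
(mv 844 (cons (fin 843 0 843)
(mv 780 (cons (fin 779 3 779)
(mv 781 (cons (fin 848 3 780)
(mv 717 (cons (fin 653 4 653)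
(mv 908 (cons (fin 907 1 843)
(fin 972 6 716)))))))))))))))))
(mv 847 (cons (fin 783 4 783)
(mv 850 (cons (fin 848 1 846)
(fin 912 2 846)))))))))))))))
(mv 910 (cons (fin 909 3 909)
(mv 911 (cons (fin 978 3 910)
(mv 783 (cons (fin 847 4 783)
(mv 913 (cons (fin 914 2 910)
(mv 849 (cons (fin 785 5 784)
(mv 912 (cons (fin 850 2 846)
(mv 846 (cons (fin 845 3 845)
(mv 782 (cons (fin 719 6 718)
(fin 718 4 718))))))))))))))))))))))
(cons (mv 973 (cons (fin 1036 1 972)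
(mv 912 (cons (fin 913 2 909)
(mv 972 (cons (fin 911 2 908)
(fin 1039 0 972)))))))
(cons (mv 973 (cons (fin 1036 1 972)
(mv 908 (cons (fin 909 3 908)
(mv 912 (cons (fin 913 2 909)
(mv 972 (cons (fin 907 3 907)
(fin 911 2 908)))))))))
(mv 973 (cons (fin 1036 1 972)
(mv 909 (cons (fin 908 3 908)
(mv 913 (cons (fin 912 2 909)
(mv 977 (cons (fin 910 3 909)
(fin 914 2 910)))))))))))))
(mv 974 (cons (cons (mv 973 (cons (fin 1036 1 972)
(mv 908 (cons (fin 909 3 908)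
(mv 907 (cons (fin 972 3 907)
(mv 913 (cons (fin 912 2 909)
(mv 977 (cons (fin 1038 1 973)
(fin 914 2 910)))))))))))
(cons (mv 977 (cons (fin 1038 1 973)
(mv 910 (cons (fin 909 3 909)
(mv 911 (cons (fin 978 3 910)
(mv 783 (cons (fin 847 4 783)
(mv 913 (cons (fin 914 2 910)
(mv 849 (cons (fin 785 5 784)
(mv 912 (cons (fin 850 2 846)
(mv 846 (cons (fin 845 3 845)
(mv 782 (cons (fin 719 6 718)
(fin 718 4 718)))))))))))))))))))
(mv 973 (cons (fin 1036 1 972)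
(mv 908 (cons (fin 909 3 908)
(mv 912 (cons (fin 913 2 909)
(mv 972 (cons (fin 907 3 907)
(fin 911 2 908)))))))))))
(cons (mv 973 (cons (fin 1036 1 972)
(mv 908 (cons (fin 909 3 908)
(mv 972 (cons (fin 907 3 907)
(mv 780 (cons (fin 844 4 780)
(mv 911 (cons (fin 912 2 908)
(mv 783 (cons (fin 847 4 783)
(mv 910 (cons (fin 971 2 907)
(mv 977 (cons (fin 978 3 910)
(fin 1038 1 973)))))))))))))))))
(cons (mv 973 (cons (fin 1036 1 972)
(mv 912 (cons (fin 913 2 909)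
(mv 911 (cons (fin 972 2 908)
(mv 783 (cons (fin 847 4 783)
(mv 977 (cons (fin 1038 1 973)
(mv 978 (cons (fin 910 3 910)
(fin 979 3 911)))))))))))))
(mv 973 (cons (fin 1036 1 972)
(mv 909 (cons (fin 908 3 908)
(mv 977 (cons (fin 910 3 909)
(fin 1038 1 973)))))))))))))
(cons (cons (mv 973 (cons (cons (mv 974 (cons (fin 1036 1 972)
(mv 908 (cons (fin 909 3 908)
(mv 972 (cons (fin 907 3 907)
(fin 1039 0 972)))))))
(cons (mv 1039 (cons (mv 1038 (cons (fin 972 3 972)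
(fin 1036 2 972)))
(cons (mv 1103 (cons (mv 912 (cons (fin 848 5 847)
(fin 1167 6 911)))
(cons (mv 1167 (cons (fin 1231 6 975)
(mv 1166 (cons (fin 1230 5 974)
(mv 911 (cons (fin 1102 5 910)
(mv 846 (cons (fin 910 7 846)
(mv 847 (cons (fin 782 7 782)
(fin 783 4 783)))))))))))
(mv 911 (cons (cons (mv 783 (cons (fin 847 4 783)
(mv 910 (cons (fin 846 7 846)
(mv 909 (cons (fin 908 0 908)
(mv 912 (cons (fin 972 1 908)
(fin 848 5 847)))))))))
(mv 846 (cons (fin 910 7 846)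
(mv 847 (cons (fin 782 7 782)
(fin 783 4 783))))))
(cons (mv 910 (cons (fin 846 7 846)
(mv 909 (cons (fin 908 0 908)
(mv 912 (cons (fin 972 1 908)
(fin 848 5 847)))))))
(mv 847 (cons (fin 783 4 783)
(mv 848 (cons (fin 912 5 847)
(fin 784 6 783)))))))))))
(mv 1036 (cons (fin 1038 2 972)
(mv 1103 (cons (mv 912 (cons (fin 848 5 847)
(fin 1167 6 911)))
(cons (mv 1167 (cons (fin 1231 6 975)
(mv 1166 (cons (fin 1230 5 974)
(mv 911 (cons (fin 1102 5 910)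
(mv 846 (cons (fin 910 7 846)
(mv 847 (cons (fin 782 7 782)
(fin 783 4 783)))))))))))
(mv 911 (cons (cons (mv 783 (cons (fin 847 4 783)
(mv 848 (cons (fin 912 5 847)
(mv 910 (cons (fin 846 7 846)
(mv 909 (cons (fin 908 0 908)
(mv 845 (cons (fin 1100 5 844)
(mv 780 (cons (fin 844 7 780)
(mv 781 (cons (fin 716 7 716)
(mv 782 (cons (fin 718 6 717)
(mv 720 (cons (fin 719 2 716)
(mv 784 (cons (fin 721 2 717)
(fin 849 0 781)))))))))))))))))))))
(mv 783 (cons (fin 847 4 783)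
(mv 910 (cons (fin 846 7 846)
(mv 909 (cons (fin 908 0 908)
(mv 845 (cons (fin 1100 5 844)
(mv 844 (cons (fin 912 3 844)
(fin 780 7 780))))))))))))
(cons (mv 846 (cons (fin 910 7 846)
(mv 847 (cons (fin 782 7 782)
(fin 783 4 783)))))
(cons (mv 910 (cons (fin 846 7 846)
(mv 909 (cons (fin 908 0 908)
(mv 845 (cons (fin 1100 5 844)
(mv 844 (cons (fin 912 3 844)
(fin 780 7 780)))))))))
(mv 847 (cons (fin 783 4 783)
(mv 848 (cons (fin 912 5 847)
(fin 784 6 783)))))))))))))))))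
(mv 974 (cons (mv 908 (cons (fin 909 3 908)
(mv 972 (cons (fin 907 3 907)
(fin 1039 0 972)))))
(cons (mv 909 (cons (fin 908 3 908)
(mv 912 (cons (fin 913 2 909)
(mv 845 (cons (mv 1038 (cons (fin 781 4 781)
(fin 1102 4 845)))
(cons (mv 780 (cons (fin 844 7 780)
(mv 781 (cons (fin 716 7 716)
(mv 782 (cons (fin 718 6 717)
(fin 846 6 781)))))))
(mv 844 (cons (fin 780 7 780)
(mv 846 (cons (fin 782 6 781)
(mv 911 (cons (fin 910 3 844)
(fin 847 0 844))))))))))))))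
(mv 912 (cons (fin 913 2 909)
(mv 972 (cons (fin 911 2 908)
(fin 1039 0 972))))))))))
(cons (mv 974 (cons (fin 1036 1 972)
(mv 908 (cons (fin 909 3 908)
(mv 912 (cons (fin 913 2 909)
(mv 972 (cons (fin 907 3 907)
(fin 911 2 908)))))))))
(cons (mv 974 (cons (fin 1036 1 972)
(mv 909 (cons (fin 908 3 908)
(mv 912 (cons (fin 913 2 909)
(mv 845 (cons (mv 1038 (cons (fin 781 4 781)
(fin 1102 4 845)))
(cons (mv 780 (cons (fin 844 7 780)
(mv 781 (cons (fin 716 7 716)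
(mv 782 (cons (fin 718 6 717)
(fin 846 6 781)))))))
(mv 844 (cons (fin 780 7 780)
(mv 846 (cons (fin 782 6 781)
(mv 911 (cons (fin 910 3 844)
(fin 847 0 844))))))))))))))))
(mv 974 (cons (fin 1036 1 972)
(mv 912 (cons (fin 913 2 909)
(mv 972 (cons (fin 911 2 908)
(fin 1039 0 972)))))))))))
(mv 1039 (cons (mv 1038 (cons (fin 1036 2 972)
(fin 977 2 973)))
(cons (mv 1103 (cons (mv 912 (cons (fin 848 5 847)
(fin 1167 6 911)))
(cons (mv 1167 (cons (fin 1231 6 975)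
(mv 1166 (cons (fin 1230 5 974)
(mv 911 (cons (fin 1102 5 910)
(mv 846 (cons (fin 910 7 846)
(mv 847 (cons (fin 782 7 782)
(fin 783 4 783)))))))))))
(mv 911 (cons (cons (mv 783 (cons (fin 847 4 783)
(mv 910 (cons (fin 846 7 846)
(mv 909 (cons (fin 908 0 908)
(mv 912 (cons (fin 977 0 909)
(fin 848 5 847)))))))))
(mv 783 (cons (fin 847 4 783)
(mv 910 (cons (fin 846 7 846)
(mv 909 (cons (fin 908 0 908)
(mv 977 (cons (fin 978 3 910)
(fin 912 0 909))))))))))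
(cons (mv 846 (cons (fin 910 7 846)
(mv 847 (cons (fin 782 7 782)
(fin 783 4 783)))))
(cons (mv 910 (cons (fin 846 7 846)
(mv 909 (cons (fin 908 0 908)
(mv 912 (cons (fin 977 0 909)
(fin 848 5 847)))))))
(mv 847 (cons (fin 783 4 783)
(mv 848 (cons (fin 912 5 847)
(fin 784 6 783))))))))))))
(mv 1036 (cons (fin 1038 2 972)
(mv 1103 (cons (mv 912 (cons (fin 848 5 847)
(fin 1167 6 911)))
(cons (mv 1167 (cons (fin 1231 6 975)
(mv 1166 (cons (fin 1230 5 974)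
(mv 911 (cons (fin 1102 5 910)
(mv 846 (cons (fin 910 7 846)
(mv 847 (cons (fin 782 7 782)
(fin 783 4 783)))))))))))
(mv 911 (cons (cons (mv 783 (cons (fin 847 4 783)
(mv 910 (cons (fin 846 7 846)
(mv 909 (cons (fin 908 0 908)
(mv 912 (cons (fin 848 5 847)
(mv 845 (cons (fin 844 3 844)
(mv 973 (cons (fin 972 1 908)
(fin 1100 5 844)))))))))))))
(mv 846 (cons (fin 910 7 846)
(mv 847 (cons (fin 782 7 782)
(fin 783 4 783))))))
(cons (mv 910 (cons (fin 846 7 846)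
(mv 909 (cons (fin 908 0 908)
(mv 912 (cons (fin 848 5 847)
(mv 845 (cons (fin 844 3 844)
(mv 973 (cons (fin 972 1 908)
(fin 1100 5 844)))))))))))
(mv 847 (cons (fin 783 4 783)
(mv 848 (cons (fin 912 5 847)
(fin 784 6 783)))))))))))))))))
(cons (mv 977 (cons (cons (mv 1038 (cons (fin 974 1 973)
(fin 1039 2 973)))
(mv 978 (cons (cons (mv 910 (cons (fin 911 3 910)
(mv 909 (cons (fin 974 3 909)
(mv 914 (cons (fin 915 2 911)
(mv 979 (cons (fin 1039 1 975)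
(mv 1043 (cons (fin 1042 0 975)
(fin 1044 0 976)))))))))))
(mv 910 (cons (fin 911 3 910)
(mv 914 (cons (fin 915 2 911)
(mv 974 (cons (fin 909 3 909)
(fin 913 2 910))))))))
(cons (mv 914 (cons (fin 915 2 911)
(mv 913 (cons (fin 974 2 910)
(mv 785 (cons (fin 849 5 784)
(mv 979 (cons (fin 1039 1 975)
(mv 980 (cons (fin 912 3 912)
(fin 981 3 913)))))))))))
(cons (mv 910 (cons (fin 911 3 910)
(mv 909 (cons (fin 974 3 909)
(mv 979 (cons (fin 1039 1 975)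
(mv 1043 (cons (fin 1042 0 975)
(fin 1044 0 976)))))))))
(mv 910 (cons (fin 911 3 910)
(mv 914 (cons (fin 915 2 911)
(mv 979 (cons (fin 1039 1 975)
(mv 1043 (cons (fin 1042 0 975)
(fin 1044 0 976))))))))))))))
(cons (mv 974 (cons (fin 1038 1 973)
(mv 909 (cons (fin 910 3 909)
(mv 913 (cons (fin 914 2 910)
(mv 973 (cons (fin 908 3 908)
(fin 912 2 909)))))))))
(mv 1039 (cons (fin 1038 2 973)
(mv 978 (cons (fin 979 1 975)
(mv 911 (cons (fin 910 3 910)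
(mv 847 (cons (fin 783 4 783)
(mv 782 (cons (fin 846 7 782)
(mv 848 (cons (fin 784 6 783)
(mv 912 (cons (fin 1103 5 847)
(mv 849 (cons (fin 785 6 784)
(mv 850 (cons (fin 851 1 847)
(mv 786 (cons (fin 787 2 783)
(mv 914 (cons (fin 915 2 911)
(mv 722 (cons (fin 913 5 721)
(mv 657 (cons (fin 721 7 657)
(mv 658 (cons (fin 593 7 593)
(mv 659 (cons (fin 595 6 594)
(fin 723 6 658))))))))))))))))))))))))))))))))))
(mv 1038 (cons (cons (mv 977 (cons (fin 974 1 973)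
(fin 1039 2 973)))
(mv 977 (cons (fin 974 1 973)
(mv 978 (cons (cons (mv 910 (cons (fin 911 3 910)
(mv 915 (cons (fin 914 2 911)
(mv 979 (cons (fin 916 2 912)
(mv 1043 (cons (fin 1042 0 975)
(fin 1044 0 976)))))))))
(mv 915 (cons (fin 914 2 911)
(mv 979 (cons (fin 916 2 912)
(mv 1043 (cons (fin 1042 0 975)
(fin 1044 0 976))))))))
(cons (mv 911 (cons (fin 910 3 910)
(mv 783 (cons (fin 847 4 783)
(mv 979 (cons (fin 912 3 911)
(mv 1043 (cons (fin 1042 0 975)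
(fin 1044 0 976)))))))))
(cons (mv 911 (cons (fin 910 3 910)
(mv 783 (cons (fin 847 4 783)
(mv 915 (cons (fin 914 2 911)
(mv 979 (cons (fin 912 3 911)
(fin 916 2 912)))))))))
(mv 910 (cons (fin 911 3 910)
(mv 914 (cons (fin 915 2 911)
(mv 1042 (cons (fin 1043 0 975)
(mv 1106 (cons (mv 913 (cons (fin 849 7 849)
(fin 1170 7 913)))
(cons (mv 1169 (cons (fin 1105 5 913)
(mv 1170 (cons (fin 1233 5 977)
(mv 1171 (cons (fin 1107 4 914)
(fin 1235 4 978)))))))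
(mv 1105 (cons (fin 1169 5 913)
(mv 1107 (cons (fin 1171 4 914)
(mv 850 (cons (cons (mv 849 (cons (fin 785 7 785)
(fin 913 7 849)))
(mv 787 (cons (fin 851 6 786)
(mv 786 (cons (fin 723 6 722)
(mv 721 (cons (fin 785 7 721)
(mv 722 (cons (fin 657 7 657)
(fin 913 5 721))))))))))
(cons (mv 787 (cons (fin 851 6 786)
(mv 786 (cons (fin 723 6 722)
(mv 913 (cons (fin 849 7 849)
(fin 722 5 721)))))))
(mv 785 (cons (fin 849 7 785)
(mv 786 (cons (fin 721 7 721)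
(mv 787 (cons (fin 723 6 722)
(fin 851 6 786))))))))))))))))))))))))))))))
(cons (mv 1036 (cons (fin 1039 2 972)
(mv 1035 (cons (fin 974 2 971)
(mv 970 (cons (fin 971 3 970)
(mv 1034 (cons (fin 969 3 969)
(mv 1098 (cons (fin 1097 1 1033)
(fin 1099 1 1034)))))))))))
(mv 1039 (cons (fin 1036 2 972)
(fin 977 2 973)))))))))))
(cons (mv 1104 (cons (cons (cons (mv 1168 (cons (cons (mv 911 (cons (fin 975 7 911)
(mv 913 (cons (fin 977 6 912)
(mv 1231 (cons (fin 1167 5 975)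
(mv 1232 (cons (fin 1295 5 1039)
(mv 1233 (cons (fin 1169 4 976)
(fin 1297 4 1040)))))))))))
(mv 913 (cons (fin 977 6 912)
(mv 1231 (cons (fin 1167 5 975)
(mv 1232 (cons (fin 1295 5 1039)
(mv 1233 (cons (fin 1169 4 976)
(fin 1297 4 1040))))))))))
(cons (mv 911 (cons (fin 975 7 911)
(mv 1231 (cons (fin 1167 5 975)
(mv 1232 (cons (fin 1295 5 1039)
(mv 1233 (cons (fin 1169 4 976)
(fin 1297 4 1040)))))))))
(cons (mv 913 (cons (fin 977 6 912)
(mv 975 (cons (fin 911 7 911)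
(mv 1039 (cons (fin 1232 7 975)
(mv 1038 (cons (fin 1036 2 972)
(fin 1105 0 1037)))))))))
(mv 975 (cons (fin 911 7 911)
(mv 977 (cons (fin 913 6 912)
(mv 1038 (cons (fin 974 1 973)
(fin 1039 2 973)))))))))))
(mv 1038 (cons (cons (mv 1039 (cons (fin 977 2 973)
(fin 1105 0 1037)))
(mv 974 (cons (cons (mv 975 (cons (fin 977 1 973)
(mv 1036 (cons (fin 973 1 972)
(fin 1035 2 971)))))
(mv 1102 (cons (cons (mv 1103 (cons (fin 1105 3 1037)
(mv 910 (cons (fin 1167 4 910)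
(mv 845 (cons (fin 909 7 845)
(mv 846 (cons (fin 781 7 781)
(mv 847 (cons (fin 783 6 782)
(fin 911 6 846)))))))))))
(mv 1166 (cons (mv 973 (cons (fin 909 7 909)
(fin 1230 7 973)))
(cons (mv 1229 (cons (fin 1165 5 973)
(mv 1230 (cons (fin 1293 5 1037)
(mv 1231 (cons (fin 1167 4 974)
(fin 1295 4 1038)))))))
(mv 1165 (cons (fin 1229 5 973)
(mv 1167 (cons (fin 1231 4 974)
(mv 910 (cons (cons (mv 909 (cons (fin 845 7 845)
(fin 973 7 909)))
(mv 847 (cons (fin 911 6 846)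
(mv 846 (cons (fin 783 6 782)
(mv 781 (cons (fin 845 7 781)
(mv 782 (cons (fin 717 7 717)
(fin 973 5 781))))))))))
(cons (mv 845 (cons (fin 909 7 845)
(mv 846 (cons (fin 781 7 781)
(mv 847 (cons (fin 783 6 782)
(fin 911 6 846)))))))
(mv 847 (cons (fin 911 6 846)
(mv 846 (cons (fin 783 6 782)
(mv 973 (cons (fin 909 7 909)
(fin 782 5 781))))))))))))))))))
(cons (mv 1103 (cons (fin 1105 3 1037)
(mv 1035 (cons (fin 1036 0 1035)
(mv 1166 (cons (mv 973 (cons (fin 909 7 909)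
(fin 1230 7 973)))
(mv 1165 (cons (fin 1229 5 973)
(mv 1164 (cons (fin 1163 2 1099)
(fin 1167 2 1100)))))))))))
(cons (mv 1103 (cons (fin 1105 3 1037)
(mv 910 (cons (fin 1167 4 910)
(mv 847 (cons (fin 911 6 846)
(mv 846 (cons (fin 783 6 782)
(mv 781 (cons (fin 845 7 781)
(mv 782 (cons (fin 717 7 717)
(fin 973 5 781)))))))))))))
(mv 1103 (cons (fin 1105 3 1037)
(mv 1035 (cons (fin 1036 0 1035)
(mv 910 (cons (cons (mv 845 (cons (fin 909 7 845)
(mv 846 (cons (fin 781 7 781)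
(mv 847 (cons (fin 783 6 782)
(fin 911 6 846)))))))
(mv 847 (cons (fin 911 6 846)
(mv 846 (cons (fin 783 6 782)
(mv 781 (cons (fin 845 7 781)
(mv 782 (cons (fin 717 7 717)
(fin 973 5 781))))))))))
(cons (mv 847 (cons (fin 911 6 846)
(mv 846 (cons (fin 783 6 782)
(mv 973 (cons (fin 782 5 781)
(mv 1166 (cons (fin 909 7 909)
(fin 1230 7 973)))))))))
(cons (mv 846 (cons (mv 845 (cons (fin 781 7 781)
(fin 909 7 845)))
(cons (mv 782 (cons (fin 973 5 781)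
(mv 717 (cons (fin 781 7 717)
(mv 718 (cons (fin 653 7 653)
(mv 719 (cons (fin 655 6 654)
(fin 783 6 718)))))))))
(mv 909 (cons (fin 845 7 845)
(mv 973 (cons (fin 1166 7 909)
(fin 782 5 781))))))))
(mv 909 (cons (fin 845 7 845)
(mv 911 (cons (fin 847 6 846)
(mv 973 (cons (fin 1166 7 909)
(mv 908 (cons (mv 843 (cons (fin 844 3 843)
(mv 907 (cons (fin 842 3 842)
(fin 906 0 906)))))
(cons (mv 844 (cons (fin 843 3 843)
(mv 780 (cons (fin 716 4 716)
(fin 972 4 780)))))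
(mv 907 (cons (fin 906 0 906)
(mv 971 (cons (fin 970 1 906)
(fin 972 1 907)))))))))))))))))))))))))))
(cons (mv 975 (cons (fin 977 1 973)
(mv 1102 (cons (cons (mv 911 (cons (fin 1166 6 910)
(mv 847 (cons (fin 783 5 782)
(fin 910 6 846)))))
(mv 1103 (cons (fin 1105 3 1037)
(mv 910 (cons (fin 1167 4 910)
(mv 845 (cons (fin 909 7 845)
(mv 846 (cons (fin 781 7 781)
(mv 847 (cons (fin 783 6 782)
(fin 911 6 846))))))))))))
(cons (mv 1103 (cons (fin 1105 3 1037)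
(mv 910 (cons (fin 1167 4 910)
(mv 845 (cons (fin 909 7 845)
(mv 846 (cons (fin 781 7 781)
(mv 782 (cons (fin 973 5 781)
(mv 783 (cons (fin 719 6 718)
(fin 847 6 782)))))))))))))
(mv 1103 (cons (fin 1105 3 1037)
(mv 1166 (cons (fin 911 6 910)
(mv 973 (cons (fin 909 7 909)
(fin 1230 7 973))))))))))))
(mv 975 (cons (fin 977 1 973)
(mv 1036 (cons (fin 1035 2 971)
(mv 1102 (cons (cons (mv 911 (cons (fin 1166 6 910)
(mv 847 (cons (fin 783 5 782)
(fin 910 6 846)))))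
(mv 1103 (cons (fin 1105 3 1037)
(mv 1167 (cons (fin 910 4 910)
(mv 1231 (cons (fin 1295 7 1038)
(fin 1166 4 974))))))))
(cons (mv 1103 (cons (fin 1105 3 1037)
(mv 910 (cons (fin 1167 4 910)
(mv 845 (cons (fin 909 7 845)
(mv 846 (cons (fin 781 7 781)
(mv 847 (cons (fin 783 6 782)
(fin 911 6 846)))))))))))
(mv 1103 (cons (fin 1105 3 1037)
(mv 1166 (cons (fin 911 6 910)
(mv 1165 (cons (fin 1229 5 973)
(mv 1164 (cons (fin 1163 2 1099)
(fin 1167 2 1100))))))))))))))))))))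
(cons (mv 1039 (cons (fin 1105 0 1037)
(mv 1036 (cons (fin 975 2 972)
(fin 1103 0 1036)))))
(mv 1039 (cons (fin 977 2 973)
(mv 1036 (cons (fin 975 2 972)
(fin 1103 0 1036)))))))))
(cons (mv 1168 (cons (cons (mv 911 (cons (fin 975 7 911)
(mv 913 (cons (fin 977 6 912)
(mv 1231 (cons (fin 1167 5 975)
(mv 1232 (cons (fin 1295 5 1039)
(mv 1233 (cons (fin 1169 4 976)
(fin 1297 4 1040)))))))))))
(mv 975 (cons (fin 911 7 911)
(mv 977 (cons (fin 913 6 912)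
(mv 974 (cons (fin 1038 1 973)
(mv 909 (cons (fin 910 3 909)
(mv 973 (cons (fin 908 3 908)
(fin 1036 1 972))))))))))))
(cons (mv 913 (cons (fin 977 6 912)
(mv 1231 (cons (fin 1167 5 975)
(mv 1232 (cons (fin 1295 5 1039)
(mv 1233 (cons (fin 1169 4 976)
(fin 1297 4 1040)))))))))
(mv 911 (cons (fin 975 7 911)
(mv 1231 (cons (fin 1167 5 975)
(mv 1232 (cons (fin 1295 5 1039)
(mv 1233 (cons (fin 1169 4 976)
(fin 1297 4 1040))))))))))))
(mv 1168 (cons (cons (mv 911 (cons (fin 975 7 911)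
(mv 913 (cons (fin 977 6 912)
(mv 1231 (cons (fin 1167 5 975)
(mv 1232 (cons (fin 1295 5 1039)
(mv 1233 (cons (fin 1169 4 976)
(fin 1297 4 1040)))))))))))
(cons (mv 913 (cons (fin 977 6 912)
(mv 1231 (cons (fin 1167 5 975)
(mv 1232 (cons (fin 1295 5 1039)
(mv 1233 (cons (fin 1169 4 976)
(fin 1297 4 1040)))))))))
(mv 913 (cons (fin 977 6 912)
(mv 975 (cons (fin 911 7 911)
(mv 1232 (cons (fin 1039 7 975)
(mv 1233 (cons (fin 1169 4 976)
(fin 1297 4 1040)))))))))))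
(cons (mv 913 (cons (fin 977 6 912)
(mv 975 (cons (fin 911 7 911)
(mv 1231 (cons (fin 1167 5 975)
(mv 1232 (cons (fin 1039 7 975)
(fin 1295 5 1039)))))))))
(cons (mv 911 (cons (fin 975 7 911)
(mv 1231 (cons (fin 1167 5 975)
(mv 1232 (cons (fin 1295 5 1039)
(mv 1233 (cons (fin 1169 4 976)
(fin 1297 4 1040)))))))))
(mv 911 (cons (fin 975 7 911)
(mv 913 (cons (fin 977 6 912)
(mv 1167 (cons (fin 1231 5 975)
(mv 1169 (cons (fin 1233 4 976)
(mv 1170 (cons (mv 1103 (cons (fin 1102 3 1102)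
(fin 1171 3 1103)))
(cons (mv 1106 (cons (fin 1107 2 1103)
(mv 1105 (cons (fin 1166 2 1102)
(mv 1171 (cons (fin 1172 3 1104)
(mv 1235 (cons (fin 1234 0 1167)
(fin 1236 0 1168)))))))))
(mv 1103 (cons (fin 1102 3 1102)
(mv 1106 (cons (fin 1107 2 1103)
(mv 1166 (cons (fin 1105 1 1102)
(mv 1165 (cons (fin 1164 2 1100)
(mv 1229 (cons (fin 1228 1 1164)
(fin 1230 1 1165))))))))))))))))))))))))))))
(cons (cons (mv 1168 (cons (cons (mv 911 (cons (fin 975 7 911)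
(mv 1231 (cons (fin 1167 5 975)
(mv 1232 (cons (fin 1295 5 1039)
(mv 1233 (cons (fin 1169 4 976)
(fin 1297 4 1040)))))))))
(mv 1231 (cons (fin 1167 5 975)
(mv 1232 (cons (fin 1295 5 1039)
(mv 1233 (cons (fin 1169 4 976)
(fin 1297 4 1040))))))))
(cons (mv 975 (cons (fin 911 7 911)
(mv 1039 (cons (fin 1232 7 975)
(mv 1038 (cons (fin 1036 2 972)
(fin 1105 0 1037)))))))
(mv 911 (cons (fin 975 7 911)
(mv 1167 (cons (fin 1231 5 975)
(mv 1169 (cons (fin 1233 4 976)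
(mv 1170 (cons (mv 1103 (cons (fin 1102 3 1102)
(fin 1171 3 1103)))
(cons (mv 1106 (cons (fin 1107 2 1103)
(mv 1105 (cons (fin 1166 2 1102)
(mv 1038 (cons (fin 1039 0 1037)
(mv 1171 (cons (fin 1172 3 1104)
(mv 1235 (cons (fin 1234 0 1167)
(fin 1236 0 1168)))))))))))
(mv 1103 (cons (fin 1102 3 1102)
(mv 1106 (cons (fin 1107 2 1103)
(mv 1166 (cons (fin 1105 1 1102)
(mv 1165 (cons (fin 1164 2 1100)
(mv 1229 (cons (fin 1228 1 1164)
(fin 1230 1 1165)))))))))))))))))))))))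
(mv 1168 (cons (cons (mv 913 (cons (fin 977 6 912)
(mv 1231 (cons (fin 1167 5 975)
(mv 1232 (cons (fin 1295 5 1039)
(mv 1233 (cons (fin 1169 4 976)
(fin 1297 4 1040)))))))))
(cons (mv 977 (cons (fin 913 6 912)
(mv 1039 (cons (fin 1038 2 973)
(mv 978 (cons (fin 979 1 975)
(mv 1232 (cons (mv 1233 (cons (fin 1169 4 976)
(fin 1297 4 1040)))
(cons (mv 1296 (cons (fin 1103 7 1039)
(mv 1359 (cons (fin 1295 5 1103)
(mv 1360 (cons (fin 1423 5 1167)
(mv 1361 (cons (fin 1297 4 1104)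
(fin 1425 4 1168)))))))))
(mv 1103 (cons (fin 1296 7 1039)
(mv 1169 (cons (fin 1233 4 976)
(mv 1170 (cons (fin 1171 3 1103)
(mv 1102 (cons (fin 1167 3 1102)
(fin 1105 0 1102))))))))))))))))))
(mv 913 (cons (fin 977 6 912)
(mv 1038 (cons (cons (mv 1039 (cons (fin 1105 0 1037)
(mv 972 (cons (fin 973 3 972)
(mv 1036 (cons (fin 971 3 971)
(fin 1103 0 1036)))))))
(mv 1167 (cons (fin 1231 5 975)
(mv 1166 (cons (cons (mv 1105 (cons (fin 1165 2 1101)
(mv 1103 (cons (fin 1102 3 1037)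
(fin 1106 1 1102)))))
(mv 1102 (cons (mv 973 (cons (fin 1230 7 973)
(mv 909 (cons (fin 974 7 909)
(fin 845 4 845)))))
(cons (mv 1165 (cons (mv 1229 (cons (fin 1228 1 1164)
(fin 974 5 973)))
(cons (mv 1164 (cons (fin 1103 2 1100)
(mv 1099 (cons (fin 1100 3 1099)
(mv 1163 (cons (fin 1098 3 1098)
(mv 1227 (cons (fin 1226 1 1162)
(fin 1228 1 1163)))))))))
(mv 974 (cons (fin 1229 5 973)
(mv 1103 (cons (fin 1164 2 1100)
(fin 910 4 910))))))))
(mv 1230 (cons (fin 973 7 973)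
(mv 1229 (cons (fin 1169 1 1165)
(fin 1293 5 1037)))))))))
(cons (mv 1105 (cons (mv 1103 (cons (fin 1102 3 1037)
(fin 1106 1 1102)))
(cons (mv 1102 (cons (fin 1103 3 1037)
(mv 973 (cons (fin 1230 7 973)
(mv 909 (cons (fin 974 7 909)
(fin 845 4 845)))))))
(mv 1106 (cons (fin 1107 1 1103)
(fin 1169 2 1102))))))
(mv 1105 (cons (fin 1165 2 1101)
(mv 1106 (cons (fin 1107 1 1103)
(fin 1169 2 1102)))))))))))
(cons (mv 1231 (cons (fin 1167 5 975)
(mv 1232 (cons (fin 1295 5 1039)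
(mv 1036 (cons (cons (mv 1039 (cons (fin 1103 0 1036)
(mv 972 (cons (fin 971 3 971)
(fin 973 3 972)))))
(mv 1035 (cons (cons (mv 970 (cons (fin 971 3 970)
(mv 1034 (cons (fin 969 3 969)
(mv 1098 (cons (fin 1097 1 1033)
(fin 1099 1 1034)))))))
(mv 1098 (cons (fin 1099 1 1034)
(mv 1034 (cons (fin 1097 1 1033)
(mv 973 (cons (fin 974 2 970)
(mv 972 (cons (fin 1033 2 969)
(mv 1102 (cons (fin 1103 0 1035)
(mv 909 (cons (fin 845 4 845)
(mv 1164 (cons (fin 1100 6 908)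
(mv 1230 (cons (fin 1166 7 973)
(mv 1229 (cons (fin 1165 3 1164)
(fin 1169 2 1165))))))))))))))))))))
(cons (mv 970 (cons (fin 971 3 970)
(mv 1034 (cons (fin 969 3 969)
(mv 973 (cons (fin 974 2 970)
(mv 972 (cons (fin 1033 2 969)
(mv 1102 (cons (fin 1103 0 1035)
(mv 909 (cons (fin 845 4 845)
(mv 1164 (cons (fin 1100 6 908)
(mv 1230 (cons (fin 1166 7 973)
(mv 1229 (cons (fin 1165 3 1164)
(fin 1169 2 1165)))))))))))))))))))
(mv 971 (cons (fin 970 3 970)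
(mv 1099 (cons (fin 1098 1 1034)
(mv 1102 (cons (fin 1103 0 1035)
(mv 1163 (cons (mv 972 (cons (fin 908 6 907)
(fin 1227 6 971)))
(cons (mv 1164 (cons (fin 1228 4 971)
(mv 907 (cons (fin 1100 4 907)
(mv 842 (cons (fin 906 7 842)
(mv 843 (cons (fin 778 7 778)
(mv 844 (cons (fin 780 6 779)
(fin 908 6 843)))))))))))
(mv 972 (cons (fin 1227 6 971)
(mv 1164 (cons (fin 1228 4 971)
(mv 907 (cons (fin 1100 7 907)
(mv 842 (cons (fin 906 7 842)
(mv 843 (cons (fin 778 7 778)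
(fin 779 4 779))))))))))))))))))))))))
(cons (mv 1035 (cons (cons (mv 970 (cons (fin 971 3 970)
(mv 1034 (cons (fin 969 3 969)
(mv 1098 (cons (fin 1097 1 1033)
(fin 1099 1 1034)))))))
(mv 1098 (cons (fin 1099 1 1034)
(mv 1034 (cons (fin 1097 1 1033)
(mv 969 (cons (fin 970 3 969)
(mv 973 (cons (fin 974 2 970)
(mv 972 (cons (fin 1039 3 972)
(fin 1033 2 969))))))))))))
(cons (mv 970 (cons (fin 971 3 970)
(mv 1034 (cons (fin 969 3 969)
(mv 973 (cons (fin 974 2 970)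
(mv 972 (cons (fin 1039 3 972)
(fin 1033 2 969)))))))))
(cons (mv 1098 (cons (fin 1099 1 1034)
(mv 1034 (cons (fin 1097 1 1033)
(mv 973 (cons (fin 974 2 970)
(mv 972 (cons (fin 1039 3 972)
(fin 1033 2 969)))))))))
(mv 971 (cons (fin 970 3 970)
(mv 972 (cons (fin 1039 3 971)
(mv 1099 (cons (fin 1098 1 1034)
(mv 908 (cons (fin 844 5 843)
(fin 1163 6 907)))))))))))))
(cons (mv 1103 (cons (fin 1039 0 1036)
(mv 1035 (cons (fin 1102 0 1035)
(mv 970 (cons (fin 971 3 970)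
(mv 1034 (cons (fin 969 3 969)
(mv 1098 (cons (fin 1097 1 1033)
(fin 1099 1 1034)))))))))))
(mv 1103 (cons (fin 1039 0 1036)
(mv 1035 (cons (fin 1102 0 1035)
(mv 1098 (cons (fin 1099 1 1034)
(mv 1034 (cons (fin 1097 1 1033)
(mv 969 (cons (fin 970 3 969)
(mv 973 (cons (fin 974 2 970)
(mv 1033 (cons (fin 968 3 968)
(fin 972 2 969)))))))))))))))))))))))
(mv 1105 (cons (fin 1039 0 1037)
(mv 1167 (cons (fin 1231 5 975)
(mv 1106 (cons (fin 1107 1 1103)
(mv 1166 (cons (fin 1165 2 1101)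
(fin 1169 2 1102))))))))))))))))
(cons (cons (mv 1231 (cons (fin 1167 5 975)
(mv 1232 (cons (fin 1295 5 1039)
(mv 1233 (cons (fin 1169 4 976)
(fin 1297 4 1040)))))))
(mv 977 (cons (fin 913 6 912)
(mv 1039 (cons (fin 1038 2 973)
(mv 978 (cons (fin 979 1 975)
(mv 1233 (cons (fin 1169 4 976)
(mv 1232 (cons (fin 1297 4 1040)
(mv 1295 (cons (fin 1231 5 1039)
(mv 1296 (cons (fin 1103 7 1039)
(fin 1359 5 1103))))))))))))))))
(cons (mv 913 (cons (fin 977 6 912)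
(mv 1231 (cons (fin 1167 5 975)
(mv 1232 (cons (fin 1295 5 1039)
(mv 1297 (cons (fin 1233 4 1040)
(mv 1296 (cons (fin 1361 4 1104)
(mv 1039 (cons (fin 1103 7 1039)
(mv 1038 (cons (fin 1105 0 1037)
(mv 972 (cons (fin 973 3 972)
(mv 1036 (cons (fin 971 3 971)
(mv 1100 (cons (fin 1099 1 1035)
(mv 1229 (cons (fin 1230 0 1229)
(mv 1164 (cons (fin 1165 4 972)
(mv 1227 (cons (fin 1163 5 971)
(mv 1228 (cons (fin 1291 5 1035)
(fin 1293 4 1036)))))))))))))))))))))))))))))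
(mv 913 (cons (fin 977 6 912)
(mv 1167 (cons (fin 1231 5 975)
(mv 1169 (cons (fin 1233 4 976)
(mv 1170 (cons (mv 1103 (cons (fin 1102 3 1102)
(fin 1171 3 1103)))
(cons (mv 1106 (cons (fin 1107 2 1103)
(mv 1105 (cons (fin 1166 2 1102)
(mv 1038 (cons (fin 1039 0 1037)
(mv 1171 (cons (fin 1172 3 1104)
(mv 1235 (cons (fin 1234 0 1167)
(fin 1236 0 1168)))))))))))
(mv 1103 (cons (fin 1102 3 1102)
(mv 1106 (cons (fin 1107 2 1103)
(mv 1166 (cons (fin 1105 1 1102)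
(mv 1165 (cons (fin 1164 2 1100)
(mv 1229 (cons (fin 1228 1 1164)
(fin 1230 1 1165)))))))))))))))))))))))))
(cons (mv 1168 (cons (cons (mv 913 (cons (fin 977 6 912)
(mv 975 (cons (fin 911 7 911)
(mv 1039 (cons (fin 1232 7 975)
(mv 1038 (cons (fin 1036 2 972)
(fin 1105 0 1037)))))))))
(mv 977 (cons (fin 913 6 912)
(mv 1039 (cons (fin 1038 2 973)
(mv 978 (cons (fin 979 1 975)
(mv 1232 (cons (mv 1233 (cons (fin 1169 4 976)
(fin 1297 4 1040)))
(cons (mv 1296 (cons (fin 1103 7 1039)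
(mv 1359 (cons (fin 1295 5 1103)
(mv 1360 (cons (fin 1423 5 1167)
(mv 1361 (cons (fin 1297 4 1104)
(fin 1425 4 1168)))))))))
(mv 1103 (cons (fin 1296 7 1039)
(mv 1169 (cons (fin 1233 4 976)
(mv 1170 (cons (fin 1171 3 1103)
(mv 1102 (cons (fin 1167 3 1102)
(fin 1105 0 1102)))))))))))))))))))
(cons (mv 975 (cons (fin 911 7 911)
(mv 1039 (cons (fin 1232 7 975)
(mv 1038 (cons (fin 1036 2 972)
(fin 1105 0 1037)))))))
(cons (mv 975 (cons (fin 911 7 911)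
(mv 977 (cons (fin 913 6 912)
(mv 974 (cons (fin 1038 1 973)
(mv 909 (cons (fin 910 3 909)
(mv 973 (cons (fin 908 3 908)
(fin 1036 1 972)))))))))))
(mv 913 (cons (fin 977 6 912)
(mv 975 (cons (fin 911 7 911)
(mv 1232 (cons (fin 1039 7 975)
(mv 1233 (cons (fin 1169 4 976)
(fin 1297 4 1040)))))))))))))
(cons (mv 1168 (cons (cons (mv 911 (cons (fin 975 7 911)
(mv 977 (cons (fin 913 6 912)
(mv 1039 (cons (fin 1038 2 973)
(mv 978 (cons (fin 979 1 975)
(mv 1233 (cons (fin 1169 4 976)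
(mv 1232 (cons (fin 1297 4 1040)
(mv 1295 (cons (fin 1231 5 1039)
(mv 1296 (cons (fin 1103 7 1039)
(fin 1359 5 1103)))))))))))))))))
(mv 977 (cons (fin 913 6 912)
(mv 1039 (cons (fin 1038 2 973)
(mv 978 (cons (fin 979 1 975)
(mv 1233 (cons (fin 1169 4 976)
(mv 1232 (cons (fin 1297 4 1040)
(mv 1295 (cons (fin 1231 5 1039)
(mv 1296 (cons (fin 1103 7 1039)
(fin 1359 5 1103))))))))))))))))
(cons (mv 975 (cons (fin 911 7 911)
(mv 1039 (cons (fin 1232 7 975)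
(mv 1038 (cons (fin 1036 2 972)
(fin 1105 0 1037)))))))
(cons (mv 975 (cons (fin 911 7 911)
(mv 977 (cons (fin 913 6 912)
(mv 974 (cons (fin 1038 1 973)
(mv 909 (cons (fin 910 3 909)
(mv 973 (cons (fin 908 3 908)
(fin 1036 1 972)))))))))))
(mv 913 (cons (fin 977 6 912)
(mv 975 (cons (fin 911 7 911)
(mv 1169 (cons (fin 1233 4 976)
(mv 1232 (cons (fin 1039 7 975)
(mv 1295 (cons (fin 1231 5 1039)
(mv 1296 (cons (fin 1359 5 1103)
(mv 1360 (cons (fin 1105 6 1104)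
(mv 1361 (cons (fin 1297 4 1104)
(fin 1425 4 1168)))))))))))))))))))))
(mv 1168 (cons (cons (mv 913 (cons (fin 977 6 912)
(mv 975 (cons (fin 911 7 911)
(mv 1039 (cons (fin 1232 7 975)
(mv 1038 (cons (fin 1036 2 972)
(fin 1105 0 1037)))))))))
(mv 913 (cons (fin 977 6 912)
(mv 1167 (cons (fin 1231 5 975)
(mv 1169 (cons (fin 1233 4 976)
(mv 1170 (cons (mv 1103 (cons (fin 1102 3 1102)
(fin 1171 3 1103)))
(cons (mv 1106 (cons (fin 1107 2 1103)
(mv 1105 (cons (fin 1166 2 1102)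
(mv 1038 (cons (fin 1039 0 1037)
(mv 1171 (cons (fin 1172 3 1104)
(mv 1235 (cons (fin 1234 0 1167)
(fin 1236 0 1168)))))))))))
(mv 1103 (cons (fin 1102 3 1102)
(mv 1106 (cons (fin 1107 2 1103)
(mv 1166 (cons (fin 1105 1 1102)
(mv 1165 (cons (fin 1164 2 1100)
(mv 1229 (cons (fin 1228 1 1164)
(fin 1230 1 1165)))))))))))))))))))))
(cons (mv 975 (cons (fin 911 7 911)
(mv 1039 (cons (fin 1232 7 975)
(mv 1038 (cons (fin 1036 2 972)
(fin 1105 0 1037)))))))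
(cons (mv 975 (cons (fin 911 7 911)
(mv 977 (cons (fin 913 6 912)
(mv 974 (cons (fin 1038 1 973)
(mv 909 (cons (fin 910 3 909)
(mv 973 (cons (fin 908 3 908)
(fin 1036 1 972)))))))))))
(mv 913 (cons (fin 977 6 912)
(mv 975 (cons (fin 911 7 911)
(mv 1167 (cons (fin 1231 5 975)
(mv 1232 (cons (fin 1039 7 975)
(mv 1233 (cons (fin 1169 4 976)
(fin 1297 4 1040))))))))))))))))))))
(mv 1039 (cons (cons (mv 1038 (cons (fin 977 2 973)
(mv 972 (cons (fin 973 3 972)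
(mv 1036 (cons (fin 971 3 971)
(mv 1104 (cons (fin 1103 0 1036)
(fin 1105 0 1037)))))))))
(mv 912 (cons (cons (mv 848 (cons (fin 1103 5 847)
(mv 783 (cons (fin 847 7 783)
(mv 784 (cons (fin 719 7 719)
(mv 785 (cons (fin 721 6 720)
(fin 849 6 784)))))))))
(mv 1104 (cons (cons (mv 847 (cons (fin 911 7 847)
(mv 849 (cons (fin 913 6 848)
(mv 1167 (cons (fin 1103 5 911)
(mv 1168 (cons (fin 1231 5 975)
(mv 1169 (cons (fin 1105 4 912)
(fin 1233 4 976)))))))))))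
(cons (mv 847 (cons (fin 911 7 847)
(mv 913 (cons (fin 849 6 848)
(mv 1168 (cons (fin 977 6 912)
(mv 1169 (cons (fin 1105 4 912)
(fin 1233 4 976)))))))))
(mv 847 (cons (fin 911 7 847)
(mv 1167 (cons (fin 1103 5 911)
(mv 1168 (cons (fin 1231 5 975)
(mv 1169 (cons (fin 1105 4 912)
(fin 1233 4 976)))))))))))
(cons (cons (mv 847 (cons (fin 911 7 847)
(mv 913 (cons (fin 849 6 848)
(mv 1103 (cons (fin 1167 5 911)
(mv 1168 (cons (fin 977 6 912)
(mv 1232 (cons (fin 1296 7 1039)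
(mv 1233 (cons (fin 1169 4 976)
(fin 1297 4 1040)))))))))))))
(mv 847 (cons (fin 911 7 847)
(mv 913 (cons (fin 849 6 848)
(mv 1167 (cons (fin 1103 5 911)
(mv 1168 (cons (fin 1231 5 975)
(fin 977 6 912))))))))))
(cons (mv 849 (cons (fin 913 6 848)
(mv 1167 (cons (fin 1103 5 911)
(mv 1168 (cons (fin 1231 5 975)
(mv 1169 (cons (fin 1105 4 912)
(fin 1233 4 976)))))))))
(mv 911 (cons (fin 847 7 847)
(mv 913 (cons (fin 849 6 848)
(mv 1103 (cons (fin 1167 5 911)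
(mv 1105 (cons (fin 1169 4 912)
(mv 1106 (cons (fin 1107 3 1039)
(mv 1042 (cons (fin 1043 2 1039)
(mv 1170 (cons (fin 1171 0 1103)
(mv 978 (cons (fin 977 7 913)
(mv 979 (cons (fin 914 0 911)
(fin 915 6 914))))))))))))))))))))))))
(cons (mv 849 (cons (cons (mv 785 (cons (fin 848 6 784)
(mv 913 (cons (fin 721 5 720)
(fin 977 5 784)))))
(mv 848 (cons (fin 785 6 784)
(mv 847 (cons (fin 783 7 783)
(mv 911 (cons (fin 1104 7 847)
(mv 850 (cons (fin 910 1 846)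
(fin 851 1 847))))))))))
(cons (mv 913 (cons (fin 1104 6 848)
(mv 850 (cons (cons (mv 851 (cons (fin 852 1 848)
(mv 911 (cons (fin 848 1 847)
(fin 910 2 846)))))
(mv 851 (cons (fin 852 1 848)
(mv 848 (cons (mv 783 (cons (fin 784 3 783)
(fin 847 7 783)))
(cons (mv 787 (cons (fin 788 2 784)
(mv 786 (cons (fin 847 2 783)
(mv 658 (cons (fin 722 5 657)
(mv 915 (cons (fin 916 0 848)
(mv 979 (cons (fin 1043 7 786)
(mv 978 (cons (fin 977 1 975)
(fin 1042 5 786)))))))))))))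
(mv 784 (cons (fin 783 3 783)
(mv 720 (cons (fin 656 4 656)
(fin 977 4 720)))))))))))
(cons (mv 911 (cons (fin 910 2 846)
(mv 847 (cons (mv 783 (cons (fin 848 7 783)
(fin 719 4 719)))
(cons (mv 846 (cons (fin 914 3 846)
(mv 845 (cons (fin 844 0 844)
(fin 848 0 845)))))
(mv 719 (cons (fin 783 4 719)
(mv 914 (cons (fin 846 3 846)
(mv 979 (cons (fin 978 0 911)
(mv 915 (cons (fin 980 0 912)
(mv 916 (cons (fin 917 3 849)
(fin 977 1 912))))))))))))))))
(mv 851 (cons (fin 852 1 848)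
(mv 911 (cons (fin 910 2 846)
(fin 914 2 847))))))))))
(mv 913 (cons (fin 1104 6 848)
(mv 785 (cons (fin 721 5 720)
(fin 977 5 784))))))))
(mv 1103 (cons (fin 848 5 847)
(mv 1167 (cons (fin 1104 5 911)
(fin 1231 6 975)))))))))
(cons (mv 1104 (cons (cons (mv 1038 (cons (fin 1105 0 1037)
(mv 972 (cons (fin 973 3 972)
(mv 1036 (cons (fin 971 3 971)
(fin 1103 0 1036)))))))
(mv 912 (cons (mv 1103 (cons (fin 848 5 847)
(fin 1167 5 911)))
(cons (mv 847 (cons (fin 911 7 847)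
(mv 848 (cons (fin 783 7 783)
(mv 849 (cons (fin 785 6 784)
(fin 913 6 848)))))))
(mv 847 (cons (fin 911 7 847)
(mv 849 (cons (fin 913 6 848)
(mv 1167 (cons (fin 1103 5 911)
(mv 1168 (cons (fin 1231 5 975)
(mv 1169 (cons (fin 1105 4 912)
(fin 1233 4 976)))))))))))))))
(cons (mv 1103 (cons (mv 912 (cons (fin 848 5 847)
(fin 1167 5 911)))
(cons (mv 912 (cons (fin 848 5 847)
(mv 911 (cons (fin 847 7 847)
(mv 913 (cons (fin 849 6 848)
(mv 1038 (cons (fin 1036 0 1036)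
(mv 973 (cons (fin 972 3 972)
(mv 910 (cons (fin 974 1 909)
(mv 845 (cons (fin 846 3 845)
(mv 909 (cons (fin 844 3 844)
(fin 1102 4 845)))))))))))))))))
(mv 1038 (cons (fin 1036 0 1036)
(mv 973 (cons (fin 972 3 972)
(mv 1231 (cons (fin 1167 6 975)
(mv 1232 (cons (cons (mv 1168 (cons (fin 1296 7 1039)
(fin 1295 5 1039)))
(mv 1230 (cons (cons (mv 1166 (cons (fin 1102 7 973)
(mv 1165 (cons (fin 1233 3 1165)
(mv 1164 (cons (fin 1229 3 1164)
(fin 1163 0 1163)))))))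
(mv 1233 (cons (cons (mv 1169 (cons (fin 1170 2 1166)
(mv 1293 (cons (fin 1294 1 1229)
(mv 1229 (cons (fin 1292 1 1228)
(mv 1297 (cons (fin 1296 0 1229)
(fin 1298 0 1230)))))))))
(mv 1170 (cons (fin 1169 2 1166)
(mv 1234 (cons (fin 1171 2 1167)
(mv 1294 (cons (fin 1293 1 1229)
(fin 1295 1 1230))))))))
(cons (mv 1169 (cons (fin 1170 2 1166)
(mv 1297 (cons (fin 1298 0 1230)
(mv 1229 (cons (fin 1296 0 1229)
(mv 1164 (cons (fin 1165 3 1164)
(mv 1228 (cons (fin 1163 3 1163)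
(mv 1292 (cons (fin 1291 1 1227)
(fin 1293 1 1228)))))))))))))
(cons (mv 1170 (cons (fin 1169 2 1166)
(mv 1234 (cons (fin 1171 2 1167)
(mv 1298 (cons (fin 1297 0 1230)
(fin 1299 0 1231)))))))
(mv 1293 (cons (fin 1294 1 1229)
(mv 1229 (cons (fin 1292 1 1228)
(mv 1297 (cons (fin 1296 0 1229)
(fin 1298 0 1230))))))))))))
(cons (mv 1166 (cons (fin 1102 7 973)
(mv 1229 (cons (cons (mv 1164 (cons (fin 1165 3 1164)
(mv 1228 (cons (fin 1163 3 1163)
(mv 1292 (cons (fin 1291 1 1227)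
(fin 1293 1 1228)))))))
(mv 1292 (cons (fin 1293 1 1228)
(mv 1228 (cons (fin 1291 1 1227)
(mv 1296 (cons (fin 1295 0 1228)
(fin 1297 0 1229))))))))
(cons (mv 1164 (cons (fin 1165 3 1164)
(mv 1228 (cons (fin 1163 3 1163)
(mv 1296 (cons (fin 1295 0 1228)
(fin 1297 0 1229)))))))
(mv 1165 (cons (fin 1164 3 1164)
(mv 1293 (cons (fin 1292 1 1228)
(mv 1296 (cons (fin 1297 0 1229)
(mv 1357 (cons (fin 1421 6 1165)
(mv 1356 (cons (fin 1420 5 1164)
(mv 1295 (cons (fin 1294 1 1292)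
(mv 1358 (cons (fin 1359 2 1292)
(fin 1422 4 1165))))))))))))))))))))
(cons (mv 1166 (cons (fin 1102 7 973)
(mv 1233 (cons (fin 1165 3 1165)
(mv 1169 (cons (fin 1170 2 1166)
(mv 1294 (cons (fin 1293 1 1229)
(mv 1234 (cons (fin 1295 1 1230)
(mv 1298 (cons (fin 1297 0 1230)
(fin 1299 0 1231)))))))))))))
(mv 1102 (cons (fin 1166 7 973)
(mv 845 (cons (fin 909 4 845)
(mv 1233 (cons (cons (mv 1169 (cons (fin 1170 2 1166)
(mv 1293 (cons (fin 1294 1 1229)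
(mv 1229 (cons (fin 1292 1 1228)
(mv 1297 (cons (fin 1296 0 1229)
(fin 1298 0 1230)))))))))
(mv 1170 (cons (fin 1169 2 1166)
(mv 1234 (cons (fin 1171 2 1167)
(mv 1294 (cons (fin 1293 1 1229)
(fin 1295 1 1230))))))))
(cons (mv 1170 (cons (fin 1169 2 1166)
(mv 1234 (cons (fin 1171 2 1167)
(mv 1298 (cons (fin 1297 0 1230)
(fin 1299 0 1231)))))))
(mv 1293 (cons (fin 1294 1 1229)
(mv 1229 (cons (fin 1292 1 1228)
(mv 1297 (cons (fin 1296 0 1229)
(fin 1298 0 1230)))))))))))))))))))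
(cons (mv 1168 (cons (fin 1296 7 1039)
(mv 1233 (cons (fin 1169 4 976)
(fin 1297 4 1040)))))
(mv 1168 (cons (fin 1295 5 1039)
(mv 1233 (cons (fin 1169 4 976)
(fin 1297 4 1040)))))))))))))))))
(mv 1105 (cons (fin 1038 0 1037)
(mv 912 (cons (fin 1169 4 912)
(mv 847 (cons (fin 911 7 847)
(mv 848 (cons (fin 783 7 783)
(mv 849 (cons (fin 785 6 784)
(fin 913 6 848))))))))))))))
(cons (mv 1038 (cons (fin 977 2 973)
(mv 1104 (cons (fin 1105 0 1037)
(mv 1231 (cons (cons (mv 972 (cons (fin 973 3 972)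
(mv 971 (cons (fin 1036 3 971)
(mv 1168 (cons (fin 1167 5 975)
(mv 1232 (cons (fin 1295 5 1039)
(mv 1233 (cons (fin 1169 4 976)
(fin 1297 4 1040)))))))))))
(mv 847 (cons (cons (mv 912 (cons (fin 911 7 847)
(mv 848 (cons (fin 783 7 783)
(mv 849 (cons (fin 785 6 784)
(fin 913 6 848)))))))
(mv 1036 (cons (cons (mv 972 (cons (fin 971 3 971)
(fin 973 3 972)))
(mv 1099 (cons (fin 1100 1 1035)
(mv 1035 (cons (fin 1098 1 1034)
(mv 970 (cons (fin 971 3 970)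
(mv 1034 (cons (fin 969 3 969)
(mv 842 (cons (fin 906 4 842)
(mv 974 (cons (fin 973 2 970)
(mv 1163 (cons (fin 1227 7 970)
(mv 1102 (cons (mv 910 (cons (fin 911 6 846)
(mv 845 (cons (fin 909 7 845)
(mv 846 (cons (fin 781 7 781)
(fin 783 6 782)))))))
(mv 1166 (cons (fin 1167 4 974)
(mv 1165 (cons (fin 1229 5 973)
(mv 1230 (cons (fin 1164 0 1163)
(fin 1295 4 1038))))))))))))))))))))))))
(cons (mv 973 (cons (fin 972 3 972)
(mv 1099 (cons (fin 1100 1 1035)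
(mv 1035 (cons (fin 1098 1 1034)
(mv 974 (cons (fin 1034 2 970)
(mv 1102 (cons (mv 909 (cons (fin 1166 7 909)
(fin 845 4 845)))
(cons (mv 845 (cons (fin 909 4 845)
(mv 910 (cons (fin 911 6 846)
(mv 846 (cons (fin 781 7 781)
(fin 782 5 781)))))))
(mv 1166 (cons (fin 1230 7 973)
(fin 1167 4 974))))))))))))))
(mv 971 (cons (fin 972 3 971)
(mv 1035 (cons (fin 970 3 970)
(mv 1099 (cons (fin 1098 1 1034)
(fin 1100 1 1035)))))))))))
(cons (mv 973 (cons (fin 972 3 972)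
(mv 848 (cons (cons (mv 912 (cons (fin 783 7 783)
(mv 849 (cons (fin 785 6 784)
(fin 913 6 848)))))
(mv 845 (cons (mv 909 (cons (fin 1102 4 845)
(mv 846 (cons (fin 908 1 844)
(fin 782 6 781)))))
(cons (mv 846 (cons (cons (mv 780 (cons (fin 781 3 780)
(mv 784 (cons (fin 785 2 781)
(mv 844 (cons (fin 779 3 779)
(fin 783 2 780)))))))
(mv 784 (cons (fin 785 2 781)
(mv 844 (cons (fin 783 2 780)
(mv 779 (cons (fin 780 3 779)
(mv 843 (cons (fin 778 3 778)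
(mv 907 (cons (fin 906 1 842)
(fin 908 1 843))))))))))))
(cons (mv 781 (cons (fin 780 3 780)
(mv 849 (cons (fin 782 3 781)
(mv 786 (cons (fin 785 2 782)
(mv 850 (cons (fin 787 2 783)
(mv 914 (cons (fin 913 0 846)
(fin 915 0 847)))))))))))
(cons (mv 785 (cons (fin 784 2 781)
(mv 849 (cons (fin 786 2 782)
(mv 782 (cons (fin 781 3 781)
(mv 850 (cons (fin 783 3 782)
(mv 914 (cons (fin 913 0 846)
(fin 915 0 847)))))))))))
(mv 780 (cons (fin 781 3 780)
(mv 844 (cons (fin 779 3 779)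
(mv 783 (cons (fin 784 2 780)
(mv 843 (cons (fin 782 2 779)
(mv 907 (cons (fin 906 1 842)
(fin 908 1 843)))))))))))))))
(mv 909 (cons (fin 1102 4 845)
(mv 780 (cons (fin 844 7 780)
(mv 781 (cons (fin 716 7 716)
(fin 974 4 781)))))))))))
(cons (mv 849 (cons (cons (mv 912 (cons (fin 785 6 784)
(fin 913 6 848)))
(mv 846 (cons (cons (mv 781 (cons (fin 782 3 781)
(mv 780 (cons (fin 845 3 780)
(mv 786 (cons (fin 785 2 782)
(mv 850 (cons (fin 787 2 783)
(mv 914 (cons (fin 913 0 846)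
(fin 915 0 847)))))))))))
(mv 785 (cons (fin 786 2 782)
(mv 845 (cons (fin 784 2 781)
(mv 909 (cons (fin 908 1 844)
(fin 910 1 845))))))))
(cons (mv 781 (cons (fin 782 3 781)
(mv 845 (cons (fin 780 3 780)
(mv 909 (cons (fin 908 1 844)
(fin 910 1 845)))))))
(mv 781 (cons (fin 782 3 781)
(mv 786 (cons (fin 785 2 782)
(mv 850 (cons (fin 787 2 783)
(mv 914 (cons (fin 913 0 846)
(fin 915 0 847)))))))))))))
(cons (mv 913 (cons (fin 912 6 848)
(mv 846 (cons (fin 914 0 846)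
(mv 781 (cons (fin 782 3 781)
(mv 845 (cons (fin 780 3 780)
(mv 909 (cons (fin 908 1 844)
(fin 910 1 845)))))))))))
(mv 785 (cons (fin 912 6 784)
(mv 786 (cons (fin 846 2 782)
(mv 787 (cons (fin 784 1 783)
(fin 788 1 784))))))))))
(cons (mv 783 (cons (fin 912 7 783)
(mv 845 (cons (cons (mv 909 (cons (fin 1102 4 845)
(mv 846 (cons (fin 908 1 844)
(fin 782 6 781)))))
(mv 846 (cons (mv 784 (cons (fin 844 2 780)
(fin 785 2 781)))
(cons (mv 780 (cons (fin 781 3 780)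
(mv 844 (cons (fin 779 3 779)
(mv 843 (cons (fin 782 2 779)
(mv 907 (cons (fin 906 1 842)
(fin 908 1 843)))))))))
(mv 781 (cons (fin 780 3 780)
(mv 784 (cons (fin 785 2 781)
(mv 910 (cons (fin 974 7 781)
(mv 717 (cons (fin 653 4 653)
(mv 716 (cons (fin 782 3 716)
(mv 719 (cons (fin 718 0 716)
(fin 655 5 654)))))))))))))))))
(cons (mv 909 (cons (fin 1102 4 845)
(mv 780 (cons (fin 844 7 780)
(mv 781 (cons (fin 782 0 780)
(fin 716 7 716)))))))
(mv 909 (cons (fin 1102 4 845)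
(mv 780 (cons (fin 844 7 780)
(mv 781 (cons (fin 846 3 780)
(fin 716 7 716))))))))))))
(mv 912 (cons (fin 783 7 783)
(mv 913 (cons (fin 849 6 848)
(mv 845 (cons (fin 846 0 845)
(mv 909 (cons (fin 1102 4 845)
(mv 780 (cons (fin 844 7 780)
(mv 781 (cons (fin 716 7 716)
(fin 974 4 781)))))))))))))))))))
(mv 911 (cons (fin 912 7 847)
(mv 1036 (cons (cons (mv 972 (cons (fin 971 3 971)
(fin 973 3 972)))
(mv 1099 (cons (fin 1100 1 1035)
(mv 1035 (cons (fin 1098 1 1034)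
(mv 970 (cons (fin 971 3 970)
(mv 1034 (cons (fin 969 3 969)
(mv 842 (cons (fin 906 4 842)
(mv 974 (cons (fin 973 2 970)
(mv 1102 (cons (fin 910 6 846)
(mv 1166 (cons (fin 1167 4 974)
(mv 1229 (cons (fin 1165 5 973)
(mv 1230 (cons (fin 1293 5 1037)
(fin 1295 4 1038))))))))))))))))))))))
(cons (mv 973 (cons (fin 972 3 972)
(mv 1099 (cons (fin 1100 1 1035)
(mv 1035 (cons (fin 1098 1 1034)
(mv 974 (cons (fin 1034 2 970)
(mv 910 (cons (fin 1102 6 846)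
(mv 846 (cons (fin 782 5 781)
(mv 845 (cons (fin 781 7 781)
(mv 844 (cons (fin 843 0 843)
(mv 780 (cons (fin 779 3 779)
(fin 909 7 780)))))))))))))))))))
(mv 971 (cons (fin 972 3 971)
(mv 1035 (cons (fin 970 3 970)
(mv 1099 (cons (fin 1098 1 1034)
(fin 1100 1 1035))))))))))))))))
(cons (mv 1168 (cons (fin 1167 5 975)
(mv 1232 (cons (fin 1295 5 1039)
(mv 1233 (cons (fin 1169 4 976)
(fin 1297 4 1040)))))))
(cons (mv 972 (cons (fin 973 3 972)
(mv 1036 (cons (fin 971 3 971)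
(mv 1232 (cons (cons (mv 1099 (cons (fin 1100 1 1035)
(mv 1035 (cons (fin 1098 1 1034)
(mv 844 (cons (fin 908 5 843)
(mv 1163 (cons (fin 1227 6 971)
(mv 1168 (cons (fin 1295 5 1039)
(mv 1233 (cons (fin 1169 4 976)
(fin 1297 4 1040)))))))))))))
(cons (mv 1100 (cons (fin 1099 1 1035)
(mv 1229 (cons (cons (mv 1164 (cons (fin 1165 4 972)
(mv 1163 (cons (fin 1227 5 971)
(mv 1228 (cons (fin 1230 3 1163)
(fin 1293 4 1036)))))))
(cons (mv 1230 (cons (cons (mv 1292 (cons (fin 1293 1 1228)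
(mv 1228 (cons (fin 1291 1 1227)
(mv 1296 (cons (fin 1295 0 1228)
(fin 1297 0 1229)))))))
(mv 1296 (cons (fin 1297 0 1229)
(mv 1295 (cons (fin 1228 0 1228)
(mv 1166 (cons (fin 1102 4 1038)
(mv 1233 (cons (fin 1165 3 1165)
(mv 1234 (cons (fin 1294 1 1230)
(fin 1235 1 1231))))))))))))
(cons (mv 1293 (cons (fin 1292 1 1228)
(mv 1102 (cons (fin 1166 5 1037)
(mv 1233 (cons (fin 1294 1 1229)
(mv 1170 (cons (fin 1169 2 1166)
(mv 1234 (cons (fin 1171 2 1167)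
(mv 1298 (cons (fin 1297 0 1230)
(fin 1299 0 1231)))))))))))))
(mv 1292 (cons (fin 1293 1 1228)
(mv 1228 (cons (fin 1291 1 1227)
(mv 1295 (cons (fin 1296 0 1228)
(mv 1166 (cons (fin 1102 4 1038)
(mv 1165 (cons (fin 1233 3 1165)
(mv 1227 (cons (fin 1226 2 1162)
(fin 1294 0 1227))))))))))))))))
(mv 1230 (cons (cons (mv 1292 (cons (fin 1293 1 1228)
(mv 1228 (cons (fin 1291 1 1227)
(mv 1296 (cons (fin 1295 0 1228)
(fin 1297 0 1229)))))))
(cons (mv 1296 (cons (fin 1297 0 1229)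
(mv 1228 (cons (fin 1295 0 1228)
(mv 1163 (cons (fin 1164 3 1163)
(mv 1227 (cons (fin 1162 3 1162)
(mv 1291 (cons (fin 1290 1 1226)
(fin 1292 1 1227)))))))))))
(mv 1293 (cons (fin 1292 1 1228)
(mv 1102 (cons (fin 1166 5 1037)
(mv 1164 (cons (fin 1228 4 1036)
(mv 1233 (cons (fin 1294 1 1229)
(mv 1170 (cons (fin 1169 2 1166)
(mv 1234 (cons (fin 1171 2 1167)
(mv 1298 (cons (fin 1297 0 1230)
(fin 1299 0 1231)))))))))))))))))
(cons (mv 1296 (cons (fin 1297 0 1229)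
(mv 1228 (cons (fin 1295 0 1228)
(mv 1164 (cons (fin 1163 3 1163)
(fin 1293 4 1036)))))))
(cons (mv 1292 (cons (fin 1293 1 1228)
(mv 1228 (cons (fin 1291 1 1227)
(mv 1163 (cons (fin 1164 3 1163)
(mv 1227 (cons (fin 1162 3 1162)
(mv 1295 (cons (fin 1294 0 1227)
(fin 1296 0 1228)))))))))))
(mv 1293 (cons (fin 1292 1 1228)
(mv 1102 (cons (fin 1166 5 1037)
(mv 1233 (cons (fin 1294 1 1229)
(mv 1297 (cons (fin 1296 0 1229)
(fin 1298 0 1230)))))))))))))))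
(cons (mv 1164 (cons (fin 1165 4 972)
(mv 1227 (cons (fin 1163 5 971)
(mv 1228 (cons (fin 1291 5 1035)
(fin 1293 4 1036)))))))
(cons (mv 1164 (cons (fin 1165 4 972)
(mv 1163 (cons (fin 1227 5 971)
(mv 1230 (cons (fin 1228 3 1163)
(mv 1233 (cons (cons (mv 1297 (cons (fin 1296 0 1229)
(fin 1298 0 1230)))
(mv 1170 (cons (fin 1169 2 1166)
(mv 1234 (cons (fin 1171 2 1167)
(mv 1235 (cons (mv 1295 (cons (fin 1294 1 1230)
(fin 1296 1 1231)))
(mv 1299 (cons (fin 1298 0 1231)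
(fin 1300 0 1232))))))))))
(cons (mv 1170 (cons (fin 1169 2 1166)
(mv 1234 (cons (fin 1171 2 1167)
(mv 1295 (cons (fin 1294 1 1230)
(mv 1296 (cons (fin 1235 1 1231)
(fin 1297 0 1229)))))))))
(mv 1170 (cons (fin 1169 2 1166)
(mv 1234 (cons (fin 1171 2 1167)
(mv 1298 (cons (fin 1297 0 1230)
(fin 1299 0 1231))))))))))))))))
(mv 1165 (cons (fin 1164 4 972)
(mv 1230 (cons (cons (mv 1166 (cons (fin 1233 3 1165)
(mv 1102 (cons (fin 974 5 973)
(fin 1293 5 1037)))))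
(mv 1293 (cons (fin 1292 1 1228)
(mv 1296 (cons (fin 1297 0 1229)
(mv 1357 (cons (mv 1166 (cons (fin 1102 5 1037)
(fin 1421 6 1165)))
(mv 1356 (cons (fin 1420 5 1164)
(mv 1295 (cons (fin 1294 1 1292)
(mv 1358 (cons (fin 1359 2 1292)
(fin 1422 4 1165))))))))))))))
(cons (mv 1293 (cons (fin 1292 1 1228)
(mv 1233 (cons (fin 1294 1 1229)
(mv 1297 (cons (fin 1296 0 1229)
(fin 1298 0 1230)))))))
(mv 1166 (cons (fin 1233 3 1165)
(mv 1102 (cons (fin 974 5 973)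
(fin 1295 4 1038))))))))))))))))
(mv 1168 (cons (fin 1295 5 1039)
(mv 1233 (cons (fin 1169 4 976)
(fin 1297 4 1040)))))))
(cons (mv 1100 (cons (fin 1099 1 1035)
(mv 1233 (cons (cons (mv 1168 (cons (fin 1169 4 976)
(fin 1297 4 1040)))
(mv 1230 (cons (cons (mv 1165 (cons (fin 1166 3 1165)
(mv 1164 (cons (fin 1229 3 1164)
(mv 1163 (cons (fin 1227 5 971)
(mv 1170 (cons (fin 1169 2 1166)
(mv 1234 (cons (fin 1171 2 1167)
(mv 1298 (cons (fin 1297 0 1230)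
(fin 1299 0 1231)))))))))))))
(mv 1169 (cons (fin 1170 2 1166)
(mv 1293 (cons (fin 1294 1 1229)
(mv 1229 (cons (fin 1292 1 1228)
(mv 1297 (cons (fin 1296 0 1229)
(fin 1298 0 1230))))))))))
(cons (mv 1165 (cons (fin 1166 3 1165)
(mv 1169 (cons (fin 1170 2 1166)
(mv 1229 (cons (fin 1164 3 1164)
(mv 1293 (cons (fin 1292 1 1228)
(fin 1294 1 1229)))))))))
(cons (mv 1165 (cons (fin 1166 3 1165)
(mv 1229 (cons (fin 1164 3 1164)
(mv 1293 (cons (fin 1292 1 1228)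
(fin 1294 1 1229)))))))
(mv 1165 (cons (fin 1166 3 1165)
(mv 1170 (cons (fin 1169 2 1166)
(mv 1234 (cons (fin 1171 2 1167)
(mv 1298 (cons (fin 1297 0 1230)
(fin 1299 0 1231))))))))))))))
(cons (mv 1169 (cons (fin 1168 4 976)
(mv 1170 (cons (fin 1230 2 1166)
(mv 1171 (cons (fin 1172 1 1168)
(fin 1234 2 1167)))))))
(mv 1297 (cons (fin 1168 4 1040)
(mv 1230 (cons (fin 1298 0 1230)
(mv 1165 (cons (fin 1166 3 1165)
(mv 1229 (cons (fin 1164 3 1164)
(fin 1296 0 1229))))))))))))))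
(cons (mv 1295 (cons (fin 1168 5 1039)
(mv 1293 (cons (cons (mv 1100 (cons (fin 1099 1 1035)
(mv 1292 (cons (fin 1294 2 1228)
(mv 1229 (cons (fin 1230 1 1228)
(mv 1164 (cons (fin 1165 4 972)
(fin 1228 4 1036)))))))))
(cons (mv 1100 (cons (fin 1099 1 1035)
(mv 1229 (cons (mv 1164 (cons (fin 1165 4 972)
(fin 1228 4 1036)))
(cons (mv 1296 (cons (cons (mv 1228 (cons (fin 1294 3 1228)
(fin 1230 0 1228)))
(mv 1294 (cons (fin 1228 3 1228)
(mv 1357 (cons (fin 1356 1 1292)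
(mv 1297 (cons (fin 1358 1 1293)
(mv 1361 (cons (fin 1360 0 1293)
(fin 1362 0 1294))))))))))
(cons (mv 1230 (cons (fin 1297 0 1229)
(mv 1166 (cons (fin 1102 5 1037)
(mv 1357 (cons (fin 1421 6 1165)
(mv 1356 (cons (fin 1294 1 1292)
(mv 1359 (cons (fin 1358 2 1292)
(fin 1423 7 1166)))))))))))
(mv 1230 (cons (fin 1228 0 1228)
(fin 1297 0 1229))))))
(mv 1165 (cons (fin 1164 4 972)
(mv 1357 (cons (cons (mv 1102 (cons (fin 1166 6 1101)
(mv 1356 (cons (fin 1420 5 1164)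
(mv 1294 (cons (fin 1296 1 1292)
(mv 1355 (cons (fin 1354 2 1290)
(fin 1358 2 1291)))))))))
(mv 1356 (cons (fin 1420 5 1164)
(mv 1294 (cons (fin 1296 1 1292)
(mv 1355 (cons (fin 1354 2 1290)
(fin 1358 2 1291))))))))
(cons (mv 1166 (cons (fin 1102 6 1101)
(mv 1421 (cons (fin 1230 6 1165)
(mv 1422 (cons (fin 1358 4 1165)
(fin 1486 4 1229)))))))
(mv 1166 (cons (fin 1102 6 1101)
(mv 1230 (cons (fin 1421 6 1165)
(mv 1296 (cons (fin 1297 0 1229)
(mv 1356 (cons (fin 1294 1 1292)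
(fin 1420 5 1164)))))))))))))))))))
(mv 1294 (cons (fin 1292 2 1228)
(mv 1296 (cons (cons (mv 1228 (cons (fin 1229 3 1228)
(mv 1356 (cons (fin 1357 1 1292)
(mv 1361 (cons (fin 1360 0 1293)
(mv 1297 (cons (fin 1362 0 1294)
(mv 1298 (cons (fin 1230 3 1230)
(fin 1299 3 1231)))))))))))
(mv 1356 (cons (fin 1357 1 1292)
(mv 1361 (cons (fin 1360 0 1293)
(mv 1297 (cons (fin 1362 0 1294)
(mv 1298 (cons (fin 1230 3 1230)
(fin 1299 3 1231))))))))))
(cons (mv 1228 (cons (fin 1229 3 1228)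
(mv 1361 (cons (fin 1360 0 1293)
(mv 1297 (cons (fin 1362 0 1294)
(mv 1298 (cons (fin 1230 3 1230)
(fin 1299 3 1231)))))))))
(cons (mv 1228 (cons (fin 1229 3 1228)
(mv 1357 (cons (fin 1356 1 1292)
(mv 1297 (cons (fin 1358 1 1293)
(mv 1298 (cons (fin 1230 3 1230)
(fin 1299 3 1231)))))))))
(mv 1357 (cons (fin 1356 1 1292)
(mv 1360 (cons (fin 1361 0 1293)
(mv 1424 (cons (fin 1488 7 1231)
(mv 1423 (cons (fin 1487 5 1231)
(mv 1425 (cons (fin 1489 4 1232)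
(mv 1358 (cons (fin 1422 3 1357)
(fin 1359 0 1357)))))))))))))))))))))
(cons (mv 1100 (cons (fin 1099 1 1035)
(mv 1229 (cons (mv 1164 (cons (fin 1165 4 972)
(fin 1228 4 1036)))
(cons (mv 1230 (cons (fin 1292 1 1228)
(mv 1296 (cons (fin 1228 0 1228)
(fin 1297 0 1229)))))
(mv 1165 (cons (fin 1164 4 972)
(mv 1230 (cons (fin 1292 1 1228)
(mv 1296 (cons (fin 1297 0 1229)
(mv 1357 (cons (mv 1166 (cons (fin 1102 5 1037)
(fin 1421 6 1165)))
(mv 1356 (cons (fin 1420 5 1164)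
(mv 1358 (cons (fin 1359 2 1292)
(fin 1422 4 1165))))))))))))))))))
(cons (mv 1100 (cons (fin 1099 1 1035)
(mv 908 (cons (cons (mv 843 (cons (fin 907 7 843)
(mv 844 (cons (fin 779 7 779)
(mv 845 (cons (fin 781 6 780)
(fin 909 6 844)))))))
(mv 1228 (cons (mv 843 (cons (fin 907 7 843)
(mv 779 (cons (fin 844 7 779)
(mv 1164 (cons (fin 1229 4 1036)
(mv 1227 (cons (fin 1163 5 971)
(fin 1291 5 1035)))))))))
(cons (mv 1294 (cons (fin 1292 2 1228)
(mv 1296 (cons (fin 1229 3 1228)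
(mv 1357 (cons (fin 1356 1 1292)
(mv 1297 (cons (fin 1358 1 1293)
(mv 1361 (cons (fin 1360 0 1293)
(fin 1362 0 1294)))))))))))
(mv 843 (cons (fin 907 7 843)
(mv 779 (cons (fin 844 7 779)
(mv 1292 (cons (fin 1294 2 1228)
(mv 1164 (cons (fin 1357 4 1100)
(mv 1227 (cons (fin 1163 5 971)
(fin 1291 5 1035)))))))))))))))
(cons (mv 1228 (cons (mv 845 (cons (fin 909 6 844)
(mv 781 (cons (fin 844 6 780)
(mv 1164 (cons (fin 1229 4 1036)
(mv 1227 (cons (fin 1163 5 971)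
(fin 1291 5 1035)))))))))
(cons (mv 1294 (cons (fin 1292 2 1228)
(mv 1296 (cons (fin 1229 3 1228)
(mv 1357 (cons (fin 1356 1 1292)
(mv 1297 (cons (fin 1358 1 1293)
(mv 1361 (cons (fin 1360 0 1293)
(fin 1362 0 1294)))))))))))
(mv 845 (cons (fin 909 6 844)
(mv 781 (cons (fin 844 6 780)
(mv 1292 (cons (fin 1294 2 1228)
(mv 1164 (cons (fin 1357 4 1100)
(mv 1227 (cons (fin 1163 5 971)
(fin 1291 5 1035))))))))))))))
(mv 1228 (cons (mv 843 (cons (fin 907 7 843)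
(mv 845 (cons (fin 909 6 844)
(mv 1164 (cons (fin 1229 4 1036)
(mv 1227 (cons (fin 1163 5 971)
(fin 1291 5 1035)))))))))
(cons (mv 1294 (cons (fin 1292 2 1228)
(mv 1296 (cons (fin 1229 3 1228)
(mv 1357 (cons (fin 1356 1 1292)
(mv 1297 (cons (fin 1358 1 1293)
(mv 1361 (cons (fin 1360 0 1293)
(fin 1362 0 1294)))))))))))
(mv 843 (cons (fin 907 7 843)
(mv 845 (cons (fin 909 6 844)
(mv 1292 (cons (fin 1294 2 1228)
(mv 1164 (cons (fin 1357 4 1100)
(mv 1227 (cons (fin 1163 5 971)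
(fin 1291 5 1035)))))))))))))))))))
(mv 1294 (cons (fin 1292 2 1228)
(mv 1296 (cons (cons (mv 1099 (cons (fin 1100 1 1035)
(mv 1035 (cons (fin 1098 1 1034)
(mv 844 (cons (fin 908 5 843)
(mv 1357 (cons (fin 1356 1 1292)
(mv 1297 (cons (fin 1358 1 1293)
(mv 1298 (cons (fin 1230 3 1230)
(fin 1299 3 1231)))))))))))))
(mv 1099 (cons (fin 1100 1 1035)
(mv 1035 (cons (fin 1098 1 1034)
(mv 844 (cons (fin 908 5 843)
(mv 1361 (cons (fin 1360 0 1293)
(mv 1297 (cons (fin 1362 0 1294)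
(mv 1298 (cons (fin 1230 3 1230)
(fin 1299 3 1231))))))))))))))
(cons (mv 1356 (cons (fin 1357 1 1292)
(mv 1361 (cons (fin 1360 0 1293)
(mv 1297 (cons (fin 1362 0 1294)
(mv 1298 (cons (fin 1230 3 1230)
(fin 1299 3 1231)))))))))
(mv 1357 (cons (fin 1356 1 1292)
(mv 1360 (cons (fin 1361 0 1293)
(mv 1424 (cons (fin 1488 7 1231)
(mv 1423 (cons (fin 1487 5 1231)
(mv 1425 (cons (fin 1489 4 1232)
(mv 1358 (cons (fin 1422 3 1357)
(fin 1359 0 1357))))))))))))))))))))))))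
(mv 1100 (cons (fin 1099 1 1035)
(mv 1168 (cons (fin 1295 5 1039)
(mv 1169 (cons (fin 1233 4 976)
(mv 1170 (cons (fin 1171 1 1167)
(mv 1229 (cons (fin 1230 2 1165)
(mv 1164 (cons (fin 1165 4 972)
(mv 1227 (cons (fin 1163 5 971)
(mv 1228 (cons (fin 1291 5 1035)
(fin 1293 4 1036)))))))))))))))))))))))))
(mv 973 (cons (fin 972 3 972)
(mv 1166 (cons (mv 1102 (cons (fin 1230 7 973)
(mv 909 (cons (fin 974 7 909)
(fin 845 4 845)))))
(cons (mv 912 (cons (cons (mv 847 (cons (fin 911 7 847)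
(mv 848 (cons (fin 783 7 783)
(mv 849 (cons (fin 785 6 784)
(fin 913 6 848)))))))
(mv 849 (cons (fin 913 6 848)
(mv 785 (cons (fin 848 6 784)
(mv 1233 (cons (cons (mv 1168 (cons (fin 1167 5 975)
(fin 1169 4 976)))
(mv 1232 (cons (mv 1165 (cons (fin 1230 3 1165)
(mv 1167 (cons (fin 1234 3 1166)
(fin 1164 0 1164)))))
(cons (mv 1234 (cons (fin 1167 3 1166)
(mv 1171 (cons (fin 1170 2 1167)
(mv 1235 (cons (fin 1172 2 1168)
(mv 1299 (cons (fin 1298 0 1231)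
(fin 1300 0 1232)))))))))
(mv 1230 (cons (fin 1165 3 1165)
(mv 1169 (cons (fin 1170 2 1166)
(mv 1293 (cons (fin 1294 1 1229)
(mv 1229 (cons (fin 1292 1 1228)
(mv 1297 (cons (fin 1296 0 1229)
(fin 1298 0 1230)))))))))))))))
(cons (mv 1232 (cons (cons (mv 1168 (cons (fin 1169 4 976)
(fin 1297 4 1040)))
(mv 1230 (cons (fin 1165 3 1165)
(mv 1169 (cons (fin 1170 2 1166)
(mv 1293 (cons (fin 1294 1 1229)
(mv 1229 (cons (fin 1292 1 1228)
(mv 1297 (cons (fin 1296 0 1229)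
(fin 1298 0 1230))))))))))))
(cons (mv 1169 (cons (fin 1168 4 976)
(mv 1230 (cons (fin 1165 3 1165)
(fin 1170 2 1166)))))
(mv 1230 (cons (fin 1165 3 1165)
(mv 1297 (cons (fin 1298 0 1230)
(fin 1168 4 1040))))))))
(mv 1167 (cons (fin 1168 5 975)
(mv 1232 (cons (fin 1234 3 1166)
(mv 1165 (cons (fin 1230 3 1165)
(fin 1164 0 1164)))))))))))))))
(cons (mv 847 (cons (fin 911 7 847)
(mv 783 (cons (fin 848 7 783)
(mv 1233 (cons (cons (mv 1168 (cons (fin 1167 5 975)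
(fin 1169 4 976)))
(mv 1232 (cons (mv 1165 (cons (fin 1230 3 1165)
(mv 1167 (cons (fin 1234 3 1166)
(fin 1164 0 1164)))))
(cons (mv 1234 (cons (fin 1167 3 1166)
(mv 1171 (cons (fin 1170 2 1167)
(mv 1235 (cons (fin 1172 2 1168)
(mv 1299 (cons (fin 1298 0 1231)
(fin 1300 0 1232)))))))))
(mv 1230 (cons (fin 1165 3 1165)
(mv 1169 (cons (fin 1170 2 1166)
(mv 1293 (cons (fin 1294 1 1229)
(mv 1229 (cons (fin 1292 1 1228)
(mv 1297 (cons (fin 1296 0 1229)
(fin 1298 0 1230)))))))))))))))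
(cons (mv 1232 (cons (cons (mv 1168 (cons (fin 1169 4 976)
(fin 1297 4 1040)))
(mv 1230 (cons (fin 1165 3 1165)
(mv 1169 (cons (fin 1170 2 1166)
(mv 1293 (cons (fin 1294 1 1229)
(mv 1229 (cons (fin 1292 1 1228)
(mv 1297 (cons (fin 1296 0 1229)
(fin 1298 0 1230))))))))))))
(cons (mv 1169 (cons (fin 1168 4 976)
(mv 1230 (cons (fin 1165 3 1165)
(fin 1170 2 1166)))))
(mv 1230 (cons (fin 1165 3 1165)
(mv 1297 (cons (fin 1298 0 1230)
(fin 1168 4 1040))))))))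
(mv 1167 (cons (fin 1168 5 975)
(mv 1232 (cons (fin 1234 3 1166)
(mv 1165 (cons (fin 1230 3 1165)
(fin 1164 0 1164))))))))))))))
(mv 847 (cons (fin 911 7 847)
(mv 849 (cons (fin 913 6 848)
(mv 1233 (cons (cons (mv 1168 (cons (fin 1167 5 975)
(fin 1169 4 976)))
(mv 1232 (cons (mv 1165 (cons (fin 1230 3 1165)
(mv 1167 (cons (fin 1234 3 1166)
(fin 1164 0 1164)))))
(cons (mv 1234 (cons (fin 1167 3 1166)
(mv 1171 (cons (fin 1170 2 1167)
(mv 1235 (cons (fin 1172 2 1168)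
(mv 1299 (cons (fin 1298 0 1231)
(fin 1300 0 1232)))))))))
(mv 1230 (cons (fin 1165 3 1165)
(mv 1169 (cons (fin 1170 2 1166)
(mv 1293 (cons (fin 1294 1 1229)
(mv 1229 (cons (fin 1292 1 1228)
(mv 1297 (cons (fin 1296 0 1229)
(fin 1298 0 1230)))))))))))))))
(cons (mv 1232 (cons (cons (mv 1168 (cons (fin 1169 4 976)
(fin 1297 4 1040)))
(mv 1230 (cons (fin 1165 3 1165)
(mv 1169 (cons (fin 1170 2 1166)
(mv 1293 (cons (fin 1294 1 1229)
(mv 1229 (cons (fin 1292 1 1228)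
(mv 1297 (cons (fin 1296 0 1229)
(fin 1298 0 1230))))))))))))
(cons (mv 1169 (cons (fin 1168 4 976)
(mv 1230 (cons (fin 1165 3 1165)
(fin 1170 2 1166)))))
(mv 1230 (cons (fin 1165 3 1165)
(mv 1297 (cons (fin 1298 0 1230)
(fin 1168 4 1040))))))))
(mv 1167 (cons (fin 1168 5 975)
(mv 1232 (cons (fin 1234 3 1166)
(mv 1165 (cons (fin 1230 3 1165)
(fin 1164 0 1164)))))))))))))))))
(mv 1167 (cons (fin 1168 5 975)
(mv 845 (cons (cons (mv 1102 (cons (fin 909 4 845)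
(fin 974 4 974)))
(mv 909 (cons (mv 780 (cons (fin 844 7 780)
(mv 781 (cons (fin 716 7 716)
(fin 974 4 781)))))
(cons (mv 844 (cons (fin 780 7 780)
(mv 846 (cons (fin 782 6 781)
(mv 1036 (cons (fin 1100 5 844)
(mv 847 (cons (mv 908 (cons (fin 907 1 843)
(fin 848 1 844)))
(cons (mv 783 (cons (fin 784 2 780)
(mv 912 (cons (fin 911 0 844)
(fin 848 7 783)))))
(mv 783 (cons (fin 784 2 780)
(mv 907 (cons (fin 908 1 843)
(mv 843 (cons (fin 906 1 842)
(mv 910 (cons (fin 842 0 842)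
(fin 911 0 843))))))))))))))))))
(mv 781 (cons (fin 974 4 781)
(mv 782 (cons (fin 718 6 717)
(fin 846 6 781)))))))))
(cons (mv 974 (cons (fin 1102 4 974)
(mv 912 (cons (cons (mv 847 (cons (fin 911 7 847)
(mv 783 (cons (fin 848 7 783)
(mv 846 (cons (fin 910 6 782)
(mv 784 (cons (fin 844 2 780)
(mv 785 (cons (fin 782 1 781)
(fin 786 1 782)))))))))))
(mv 913 (cons (fin 849 6 848)
(mv 910 (cons (fin 911 1 909)
(mv 846 (cons (fin 781 7 781)
(fin 782 5 781))))))))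
(cons (mv 848 (cons (mv 849 (cons (fin 785 6 784)
(fin 913 6 848)))
(cons (mv 783 (cons (fin 847 7 783)
(mv 784 (cons (fin 719 7 719)
(mv 785 (cons (fin 721 6 720)
(mv 782 (cons (fin 846 1 781)
(mv 717 (cons (fin 718 3 717)
(mv 781 (cons (fin 716 3 716)
(fin 844 1 780)))))))))))))
(mv 847 (cons (fin 783 7 783)
(mv 913 (cons (fin 846 0 845)
(fin 849 6 848))))))))
(mv 847 (cons (fin 911 7 847)
(mv 848 (cons (fin 783 7 783)
(mv 849 (cons (fin 785 6 784)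
(fin 913 6 848))))))))))))
(mv 909 (cons (fin 1102 4 845)
(mv 780 (cons (fin 844 7 780)
(mv 781 (cons (fin 716 7 716)
(mv 782 (cons (fin 718 6 717)
(fin 846 6 781)))))))))))))))))))))))))))
(mv 1038 (cons (fin 977 2 973)
(mv 1036 (cons (cons (mv 972 (cons (fin 971 3 971)
(fin 973 3 972)))
(mv 1099 (cons (fin 1100 1 1035)
(mv 1035 (cons (fin 1098 1 1034)
(mv 1103 (cons (fin 1102 0 1035)
(mv 848 (cons (fin 912 5 847)
(mv 846 (cons (cons (mv 970 (cons (fin 971 3 970)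
(mv 974 (cons (fin 910 4 846)
(mv 1034 (cons (fin 969 3 969)
(fin 973 2 970)))))))
(cons (mv 847 (cons (cons (cons (mv 970 (cons (fin 971 3 970)
(mv 969 (cons (fin 1034 3 969)
(mv 1167 (cons (fin 1231 6 975)
(mv 849 (cons (cons (mv 781 (cons (fin 782 3 781)
(mv 785 (cons (fin 786 2 782)
(mv 845 (cons (fin 780 3 780)
(fin 784 2 781)))))))
(mv 785 (cons (fin 786 2 782)
(mv 845 (cons (fin 784 2 781)
(mv 909 (cons (fin 908 1 844)
(fin 910 1 845))))))))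
(cons (mv 781 (cons (fin 782 3 781)
(mv 845 (cons (fin 780 3 780)
(mv 909 (cons (fin 908 1 844)
(fin 910 1 845)))))))
(mv 781 (cons (fin 782 3 781)
(mv 786 (cons (fin 785 2 782)
(mv 850 (cons (fin 787 2 783)
(mv 910 (cons (fin 909 1 845)
(fin 911 1 846))))))))))))))))))
(mv 1167 (cons (fin 1231 6 975)
(mv 849 (cons (cons (mv 781 (cons (fin 782 3 781)
(mv 780 (cons (fin 845 3 780)
(mv 785 (cons (fin 786 2 782)
(mv 910 (cons (fin 909 1 845)
(mv 850 (cons (fin 911 1 846)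
(mv 914 (cons (fin 913 0 846)
(fin 915 0 847)))))))))))))
(cons (mv 785 (cons (fin 786 2 782)
(mv 784 (cons (fin 845 2 781)
(mv 909 (cons (fin 910 1 845)
(mv 914 (cons (fin 913 0 846)
(mv 850 (cons (fin 915 0 847)
(mv 851 (cons (fin 783 3 783)
(fin 852 3 784)))))))))))))
(mv 781 (cons (fin 782 3 781)
(mv 780 (cons (fin 845 3 780)
(mv 910 (cons (fin 909 1 845)
(mv 850 (cons (fin 911 1 846)
(mv 914 (cons (fin 913 0 846)
(fin 915 0 847)))))))))))))
(cons (cons (mv 781 (cons (fin 782 3 781)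
(mv 780 (cons (fin 845 3 780)
(mv 786 (cons (fin 785 2 782)
(mv 850 (cons (fin 787 2 783)
(mv 914 (cons (fin 913 0 846)
(fin 915 0 847)))))))))))
(mv 781 (cons (fin 782 3 781)
(mv 780 (cons (fin 845 3 780)
(mv 786 (cons (fin 785 2 782)
(mv 850 (cons (fin 787 2 783)
(mv 910 (cons (fin 909 1 845)
(fin 911 1 846))))))))))))
(cons (mv 781 (cons (fin 782 3 781)
(mv 785 (cons (fin 786 2 782)
(mv 845 (cons (fin 780 3 780)
(fin 784 2 781)))))))
(mv 781 (cons (fin 782 3 781)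
(mv 785 (cons (fin 786 2 782)
(mv 910 (cons (fin 909 1 845)
(mv 850 (cons (fin 911 1 846)
(mv 914 (cons (fin 913 0 846)
(fin 915 0 847))))))))))))))))))
(cons (mv 970 (cons (fin 971 3 970)
(mv 969 (cons (fin 1034 3 969)
(mv 849 (cons (cons (mv 781 (cons (fin 782 3 781)
(mv 780 (cons (fin 845 3 780)
(mv 786 (cons (fin 785 2 782)
(mv 850 (cons (fin 787 2 783)
(mv 910 (cons (fin 909 1 845)
(fin 911 1 846)))))))))))
(cons (mv 785 (cons (fin 786 2 782)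
(mv 784 (cons (fin 845 2 781)
(mv 910 (cons (fin 909 1 845)
(mv 850 (cons (fin 911 1 846)
(mv 851 (cons (fin 783 3 783)
(fin 852 3 784)))))))))))
(mv 781 (cons (fin 782 3 781)
(mv 780 (cons (fin 845 3 780)
(mv 786 (cons (fin 785 2 782)
(mv 850 (cons (fin 787 2 783)
(mv 914 (cons (fin 913 0 846)
(fin 915 0 847)))))))))))))
(cons (mv 781 (cons (fin 782 3 781)
(mv 780 (cons (fin 845 3 780)
(mv 910 (cons (fin 909 1 845)
(mv 850 (cons (fin 911 1 846)
(mv 914 (cons (fin 913 0 846)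
(fin 915 0 847)))))))))))
(cons (mv 781 (cons (fin 782 3 781)
(mv 785 (cons (fin 786 2 782)
(mv 845 (cons (fin 780 3 780)
(fin 784 2 781)))))))
(mv 781 (cons (fin 782 3 781)
(mv 785 (cons (fin 786 2 782)
(mv 910 (cons (fin 909 1 845)
(mv 850 (cons (fin 911 1 846)
(mv 914 (cons (fin 913 0 846)
(fin 915 0 847)))))))))))))))))))
(mv 970 (cons (fin 971 3 970)
(mv 845 (cons (cons (mv 780 (cons (fin 781 3 780)
(mv 784 (cons (fin 785 2 781)
(mv 844 (cons (fin 779 3 779)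
(fin 783 2 780)))))))
(mv 780 (cons (fin 781 3 780)
(mv 844 (cons (fin 779 3 779)
(mv 908 (cons (fin 907 1 843)
(fin 909 1 844))))))))
(cons (mv 784 (cons (fin 785 2 781)
(mv 844 (cons (fin 783 2 780)
(mv 908 (cons (fin 907 1 843)
(fin 909 1 844)))))))
(mv 781 (cons (fin 780 3 780)
(mv 784 (cons (fin 785 2 781)
(mv 909 (cons (fin 908 1 844)
(mv 782 (cons (fin 973 6 781)
(mv 717 (cons (mv 653 (cons (fin 589 4 589)
(fin 910 4 653)))
(mv 716 (cons (fin 783 3 716)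
(fin 652 7 652))))))))))))))))))))
(cons (cons (mv 849 (cons (cons (mv 781 (cons (fin 782 3 781)
(mv 785 (cons (fin 786 2 782)
(mv 910 (cons (fin 909 1 845)
(mv 850 (cons (fin 911 1 846)
(mv 914 (cons (fin 913 0 846)
(fin 915 0 847)))))))))))
(cons (mv 785 (cons (fin 786 2 782)
(mv 910 (cons (fin 909 1 845)
(mv 850 (cons (fin 911 1 846)
(mv 914 (cons (fin 913 0 846)
(fin 915 0 847)))))))))
(mv 781 (cons (fin 782 3 781)
(mv 910 (cons (fin 909 1 845)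
(mv 850 (cons (fin 911 1 846)
(mv 914 (cons (fin 913 0 846)
(fin 915 0 847)))))))))))
(cons (mv 781 (cons (fin 782 3 781)
(mv 786 (cons (fin 785 2 782)
(mv 850 (cons (fin 787 2 783)
(mv 914 (cons (fin 913 0 846)
(fin 915 0 847)))))))))
(cons (mv 781 (cons (fin 782 3 781)
(mv 786 (cons (fin 785 2 782)
(mv 850 (cons (fin 787 2 783)
(mv 910 (cons (fin 909 1 845)
(fin 911 1 846)))))))))
(mv 782 (cons (fin 781 3 781)
(mv 785 (cons (fin 786 2 782)
(mv 910 (cons (fin 909 1 845)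
(mv 718 (cons (mv 653 (cons (fin 717 7 653)
(mv 654 (cons (fin 589 7 589)
(fin 911 4 654)))))
(cons (mv 717 (cons (fin 653 7 653)
(mv 719 (cons (fin 655 6 654)
(mv 784 (cons (fin 783 3 717)
(fin 720 0 717)))))))
(mv 654 (cons (fin 911 4 654)
(mv 655 (cons (fin 591 6 590)
(fin 719 6 654))))))))))))))))))
(mv 970 (cons (fin 971 3 970)
(mv 969 (cons (fin 1034 3 969)
(mv 1167 (cons (fin 1231 6 975)
(mv 849 (cons (mv 781 (cons (fin 782 3 781)
(mv 785 (cons (fin 786 2 782)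
(mv 845 (cons (fin 780 3 780)
(fin 784 2 781)))))))
(cons (mv 786 (cons (fin 785 2 782)
(mv 850 (cons (fin 787 2 783)
(mv 914 (cons (fin 913 0 846)
(fin 915 0 847)))))))
(mv 782 (cons (fin 781 3 781)
(mv 850 (cons (fin 783 3 782)
(mv 914 (cons (fin 913 0 846)
(fin 915 0 847)))))))))))))))))
(cons (mv 970 (cons (fin 971 3 970)
(mv 969 (cons (fin 1034 3 969)
(mv 1167 (cons (fin 1231 6 975)
(mv 849 (cons (mv 785 (cons (fin 786 2 782)
(mv 845 (cons (fin 784 2 781)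
(mv 909 (cons (fin 908 1 844)
(fin 910 1 845)))))))
(cons (mv 786 (cons (fin 785 2 782)
(mv 850 (cons (fin 787 2 783)
(mv 914 (cons (fin 913 0 846)
(fin 915 0 847)))))))
(mv 910 (cons (fin 909 1 845)
(mv 850 (cons (fin 911 1 846)
(mv 914 (cons (fin 913 0 846)
(fin 915 0 847))))))))))))))))
(mv 970 (cons (fin 971 3 970)
(mv 969 (cons (fin 1034 3 969)
(mv 1167 (cons (fin 1231 6 975)
(mv 849 (cons (cons (mv 781 (cons (fin 782 3 781)
(mv 845 (cons (fin 780 3 780)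
(mv 909 (cons (fin 908 1 844)
(fin 910 1 845)))))))
(mv 909 (cons (fin 910 1 845)
(mv 845 (cons (fin 908 1 844)
(mv 780 (cons (fin 781 3 780)
(mv 844 (cons (fin 779 3 779)
(fin 973 7 780))))))))))
(cons (mv 782 (cons (fin 781 3 781)
(mv 850 (cons (fin 783 3 782)
(mv 914 (cons (fin 913 0 846)
(fin 915 0 847)))))))
(mv 910 (cons (fin 909 1 845)
(mv 850 (cons (fin 911 1 846)
(mv 914 (cons (fin 913 0 846)
(fin 915 0 847))))))))))))))))))))
(mv 974 (cons (fin 910 4 846)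
(mv 973 (cons (fin 1034 2 970)
(mv 1167 (cons (fin 1231 7 974)
(mv 845 (cons (cons (mv 909 (cons (fin 782 6 781)
(fin 781 4 781)))
(mv 847 (cons (cons (mv 780 (cons (fin 781 3 780)
(mv 784 (cons (fin 785 2 781)
(mv 844 (cons (fin 779 3 779)
(fin 783 2 780)))))))
(mv 780 (cons (fin 781 3 780)
(mv 844 (cons (fin 779 3 779)
(mv 907 (cons (fin 908 1 843)
(mv 843 (cons (fin 906 1 842)
(fin 971 6 779))))))))))
(cons (mv 784 (cons (fin 785 2 781)
(mv 844 (cons (fin 783 2 780)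
(mv 843 (cons (mv 779 (cons (fin 778 3 778)
(fin 780 3 779)))
(mv 907 (cons (fin 906 1 842)
(fin 908 1 843)))))))))
(mv 785 (cons (fin 784 2 781)
(mv 849 (cons (fin 786 2 782)
(mv 850 (cons (mv 782 (cons (fin 781 3 781)
(fin 783 3 782)))
(mv 914 (cons (fin 913 0 846)
(fin 915 0 847)))))))))))))
(cons (mv 909 (cons (fin 782 6 781)
(mv 844 (cons (fin 780 7 780)
(mv 847 (cons (fin 908 1 844)
(mv 784 (cons (fin 783 2 780)
(fin 785 2 781)))))))))
(mv 909 (cons (fin 781 4 781)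
(mv 844 (cons (fin 780 7 780)
(mv 847 (cons (fin 908 1 844)
(mv 784 (cons (fin 783 2 780)
(fin 785 2 781))))))))))))))))))))
(cons (cons (mv 974 (cons (fin 910 4 846)
(mv 973 (cons (fin 1034 2 970)
(mv 1167 (cons (fin 1231 7 974)
(mv 845 (cons (cons (mv 909 (cons (fin 782 6 781)
(fin 781 4 781)))
(mv 847 (cons (cons (mv 780 (cons (fin 781 3 780)
(mv 784 (cons (fin 785 2 781)
(mv 844 (cons (fin 779 3 779)
(fin 783 2 780)))))))
(mv 781 (cons (fin 780 3 780)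
(mv 849 (cons (fin 782 3 781)
(mv 850 (cons (mv 786 (cons (fin 785 2 782)
(fin 787 2 783)))
(mv 914 (cons (fin 913 0 846)
(fin 915 0 847))))))))))
(cons (mv 784 (cons (fin 785 2 781)
(mv 844 (cons (fin 783 2 780)
(mv 843 (cons (mv 779 (cons (fin 778 3 778)
(fin 780 3 779)))
(mv 907 (cons (fin 906 1 842)
(fin 908 1 843)))))))))
(cons (mv 780 (cons (fin 781 3 780)
(mv 844 (cons (fin 779 3 779)
(mv 843 (cons (mv 783 (cons (fin 782 2 779)
(fin 784 2 780)))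
(mv 907 (cons (fin 906 1 842)
(fin 908 1 843)))))))))
(mv 785 (cons (fin 784 2 781)
(mv 849 (cons (fin 786 2 782)
(mv 850 (cons (mv 782 (cons (fin 781 3 781)
(fin 783 3 782)))
(mv 914 (cons (fin 913 0 846)
(fin 915 0 847))))))))))))))
(cons (mv 909 (cons (fin 782 6 781)
(mv 844 (cons (fin 780 7 780)
(mv 847 (cons (fin 908 1 844)
(mv 784 (cons (fin 783 2 780)
(fin 785 2 781)))))))))
(mv 909 (cons (fin 781 4 781)
(mv 844 (cons (fin 780 7 780)
(mv 847 (cons (fin 908 1 844)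
(mv 784 (cons (fin 783 2 780)
(fin 785 2 781))))))))))))))))))
(mv 970 (cons (fin 971 3 970)
(mv 1034 (cons (fin 969 3 969)
(mv 906 (cons (fin 842 4 842)
(mv 973 (cons (fin 974 2 970)
(mv 845 (cons (cons (mv 909 (cons (fin 782 6 781)
(mv 908 (cons (fin 847 1 844)
(fin 907 2 842)))))
(mv 847 (cons (cons (mv 780 (cons (fin 781 3 780)
(mv 784 (cons (fin 785 2 781)
(mv 844 (cons (fin 779 3 779)
(fin 783 2 780)))))))
(mv 780 (cons (fin 781 3 780)
(mv 844 (cons (fin 779 3 779)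
(mv 907 (cons (fin 843 1 842)
(fin 908 1 843))))))))
(cons (mv 784 (cons (fin 785 2 781)
(mv 844 (cons (fin 783 2 780)
(mv 907 (cons (fin 843 1 842)
(fin 908 1 843)))))))
(mv 781 (cons (fin 780 3 780)
(mv 785 (cons (fin 784 2 781)
(mv 849 (cons (fin 782 3 781)
(fin 786 2 782)))))))))))
(cons (mv 1163 (cons (fin 1227 7 970)
(mv 909 (cons (mv 908 (cons (fin 847 1 844)
(fin 907 2 842)))
(cons (mv 780 (cons (fin 844 7 780)
(mv 781 (cons (fin 847 3 780)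
(fin 716 7 716)))))
(mv 844 (cons (fin 780 7 780)
(mv 907 (cons (fin 843 1 842)
(fin 908 2 842))))))))))
(cons (mv 909 (cons (fin 782 6 781)
(mv 844 (cons (fin 780 7 780)
(mv 907 (cons (fin 843 1 842)
(fin 908 2 842)))))))
(mv 909 (cons (fin 782 6 781)
(mv 780 (cons (fin 844 7 780)
(mv 781 (cons (fin 847 3 780)
(fin 716 7 716))))))))))))))))))))
(cons (mv 970 (cons (fin 971 3 970)
(mv 1167 (cons (fin 1231 6 975)
(mv 847 (cons (cons (cons (mv 910 (cons (fin 974 4 846)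
(mv 849 (cons (fin 909 1 845)
(mv 781 (cons (fin 782 3 781)
(mv 780 (cons (fin 845 3 780)
(mv 786 (cons (fin 785 2 782)
(mv 850 (cons (fin 911 1 846)
(fin 787 2 783)))))))))))))
(mv 845 (cons (cons (mv 780 (cons (fin 781 3 780)
(mv 784 (cons (fin 785 2 781)
(mv 844 (cons (fin 779 3 779)
(fin 783 2 780)))))))
(mv 784 (cons (fin 785 2 781)
(mv 844 (cons (fin 783 2 780)
(mv 908 (cons (fin 907 1 843)
(fin 909 1 844))))))))
(cons (mv 780 (cons (fin 781 3 780)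
(mv 844 (cons (fin 779 3 779)
(mv 908 (cons (fin 907 1 843)
(fin 909 1 844)))))))
(mv 781 (cons (fin 780 3 780)
(mv 782 (cons (fin 849 3 781)
(mv 909 (cons (fin 908 1 844)
(fin 973 6 781)))))))))))
(cons (mv 974 (cons (fin 910 4 846)
(mv 845 (cons (cons (mv 780 (cons (fin 781 3 780)
(mv 784 (cons (fin 785 2 781)
(mv 844 (cons (fin 779 3 779)
(fin 783 2 780)))))))
(mv 780 (cons (fin 781 3 780)
(mv 844 (cons (fin 779 3 779)
(mv 908 (cons (fin 907 1 843)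
(fin 909 1 844))))))))
(cons (mv 784 (cons (fin 785 2 781)
(mv 783 (cons (fin 844 2 780)
(mv 909 (cons (fin 908 1 844)
(mv 973 (cons (fin 782 6 781)
(fin 781 4 781)))))))))
(cons (mv 784 (cons (fin 785 2 781)
(mv 844 (cons (fin 783 2 780)
(mv 908 (cons (fin 907 1 843)
(fin 909 1 844)))))))
(mv 781 (cons (fin 780 3 780)
(mv 909 (cons (fin 908 1 844)
(fin 973 4 781)))))))))))
(mv 910 (cons (fin 974 4 846)
(mv 849 (cons (fin 909 1 845)
(mv 781 (cons (fin 782 3 781)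
(mv 785 (cons (fin 786 2 782)
(mv 850 (cons (fin 911 1 846)
(mv 914 (cons (fin 913 0 846)
(fin 915 0 847)))))))))))))))
(cons (cons (mv 910 (cons (fin 974 4 846)
(mv 849 (cons (fin 909 1 845)
(mv 785 (cons (fin 786 2 782)
(mv 784 (cons (fin 845 2 781)
(mv 850 (cons (fin 911 1 846)
(mv 783 (cons (fin 782 3 782)
(fin 851 3 783)))))))))))))
(mv 910 (cons (fin 974 4 846)
(mv 849 (cons (cons (mv 781 (cons (fin 782 3 781)
(mv 780 (cons (fin 845 3 780)
(mv 786 (cons (fin 785 2 782)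
(mv 850 (cons (fin 911 1 846)
(fin 787 2 783)))))))))
(mv 781 (cons (fin 782 3 781)
(mv 785 (cons (fin 786 2 782)
(mv 845 (cons (fin 780 3 780)
(fin 784 2 781))))))))
(cons (mv 785 (cons (fin 786 2 782)
(mv 784 (cons (fin 845 2 781)
(mv 850 (cons (fin 911 1 846)
(mv 851 (cons (fin 783 3 783)
(fin 852 3 784)))))))))
(cons (mv 781 (cons (fin 782 3 781)
(mv 780 (cons (fin 845 3 780)
(mv 850 (cons (fin 911 1 846)
(mv 914 (cons (fin 913 0 846)
(fin 915 0 847)))))))))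
(mv 781 (cons (fin 782 3 781)
(mv 785 (cons (fin 786 2 782)
(mv 850 (cons (fin 911 1 846)
(mv 914 (cons (fin 913 0 846)
(fin 915 0 847))))))))))))))))
(cons (mv 910 (cons (fin 974 4 846)
(mv 849 (cons (fin 909 1 845)
(mv 781 (cons (fin 782 3 781)
(mv 780 (cons (fin 845 3 780)
(mv 850 (cons (fin 911 1 846)
(mv 914 (cons (fin 913 0 846)
(fin 915 0 847)))))))))))))
(mv 910 (cons (fin 974 4 846)
(mv 849 (cons (fin 909 1 845)
(mv 785 (cons (fin 786 2 782)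
(mv 784 (cons (fin 845 2 781)
(mv 850 (cons (fin 911 1 846)
(mv 851 (cons (fin 783 3 783)
(fin 852 3 784)))))))))))))))))))))
(mv 910 (cons (fin 974 4 846)
(mv 971 (cons (fin 970 3 970)
(mv 1167 (cons (fin 1231 6 975)
(mv 847 (cons (cons (mv 849 (cons (fin 909 1 845)
(mv 781 (cons (fin 782 3 781)
(mv 780 (cons (fin 845 3 780)
(mv 786 (cons (fin 785 2 782)
(mv 850 (cons (fin 911 1 846)
(fin 787 2 783)))))))))))
(cons (mv 908 (cons (mv 907 (cons (fin 909 2 843)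
(fin 844 6 843)))
(cons (mv 844 (cons (fin 907 6 843)
(mv 845 (cons (mv 780 (cons (fin 779 3 779)
(fin 781 3 780)))
(mv 784 (cons (fin 783 2 780)
(fin 785 2 781)))))))
(mv 909 (cons (fin 845 1 844)
(fin 911 2 844))))))
(mv 849 (cons (cons (mv 781 (cons (fin 782 3 781)
(mv 780 (cons (fin 845 3 780)
(mv 786 (cons (fin 785 2 782)
(mv 850 (cons (fin 911 1 846)
(fin 787 2 783)))))))))
(mv 781 (cons (fin 782 3 781)
(mv 785 (cons (fin 786 2 782)
(mv 845 (cons (fin 780 3 780)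
(fin 784 2 781))))))))
(cons (mv 785 (cons (fin 786 2 782)
(mv 784 (cons (fin 845 2 781)
(mv 850 (cons (fin 911 1 846)
(mv 851 (cons (fin 783 3 783)
(fin 852 3 784)))))))))
(cons (mv 781 (cons (fin 782 3 781)
(mv 780 (cons (fin 845 3 780)
(mv 850 (cons (fin 911 1 846)
(mv 914 (cons (fin 913 0 846)
(fin 915 0 847)))))))))
(mv 781 (cons (fin 782 3 781)
(mv 785 (cons (fin 786 2 782)
(mv 850 (cons (fin 911 1 846)
(mv 914 (cons (fin 913 0 846)
(fin 915 0 847)))))))))))))))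
(cons (cons (mv 849 (cons (fin 909 1 845)
(mv 781 (cons (fin 782 3 781)
(mv 785 (cons (fin 786 2 782)
(mv 850 (cons (fin 911 1 846)
(mv 914 (cons (fin 913 0 846)
(fin 915 0 847)))))))))))
(mv 849 (cons (fin 909 1 845)
(mv 785 (cons (fin 786 2 782)
(mv 784 (cons (fin 845 2 781)
(mv 850 (cons (fin 911 1 846)
(mv 783 (cons (fin 782 3 782)
(fin 851 3 783))))))))))))
(cons (mv 849 (cons (fin 909 1 845)
(mv 781 (cons (fin 782 3 781)
(mv 785 (cons (fin 786 2 782)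
(mv 845 (cons (fin 780 3 780)
(fin 784 2 781)))))))))
(mv 849 (cons (fin 909 1 845)
(mv 781 (cons (fin 782 3 781)
(mv 780 (cons (fin 845 3 780)
(mv 850 (cons (fin 911 1 846)
(mv 914 (cons (fin 913 0 846)
(fin 915 0 847))))))))))))))))))))))))))))))))))
(cons (mv 973 (cons (fin 972 3 972)
(mv 1099 (cons (fin 1100 1 1035)
(mv 1035 (cons (fin 1098 1 1034)
(mv 974 (cons (fin 1034 2 970)
(mv 1102 (cons (fin 1103 0 1035)
(mv 909 (cons (fin 1166 7 909)
(fin 845 4 845)))))))))))))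
(mv 971 (cons (fin 972 3 971)
(mv 1035 (cons (fin 970 3 970)
(mv 1099 (cons (fin 1098 1 1034)
(fin 1100 1 1035)))))))))))))))))))
(cons (cons (cons (mv 1039 (cons (cons (mv 977 (cons (fin 1038 2 973)
(mv 978 (cons (fin 979 1 975)
(mv 1103 (cons (cons (mv 912 (cons (fin 848 5 847)
(mv 1167 (cons (fin 1104 5 911)
(fin 975 6 911)))))
(mv 912 (cons (fin 848 5 847)
(mv 1104 (cons (mv 913 (cons (fin 849 6 848)
(fin 1168 6 912)))
(cons (mv 1169 (cons (fin 1105 4 912)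
(mv 1168 (cons (fin 1233 4 976)
(mv 1232 (cons (fin 975 7 975)
(fin 1296 7 1039)))))))
(mv 913 (cons (fin 849 6 848)
(mv 1105 (cons (fin 1169 4 912)
(mv 1106 (cons (fin 1107 3 1039)
(mv 1042 (cons (fin 1043 2 1039)
(fin 1170 7 913)))))))))))))))
(cons (mv 1167 (cons (fin 1231 6 975)
(mv 975 (cons (cons (mv 910 (cons (fin 974 7 910)
(mv 914 (cons (fin 915 2 911)
(mv 1042 (cons (fin 1043 0 975)
(mv 1166 (cons (fin 1230 5 974)
(mv 1168 (cons (fin 1232 4 975)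
(mv 913 (cons (fin 1104 6 912)
(mv 849 (cons (fin 1106 7 849)
(fin 785 5 784)))))))))))))))
(mv 914 (cons (fin 915 2 911)
(mv 1042 (cons (fin 1043 0 975)
(mv 1166 (cons (fin 1230 5 974)
(mv 1168 (cons (fin 1232 4 975)
(mv 913 (cons (fin 1104 6 912)
(mv 849 (cons (fin 1106 7 849)
(fin 785 5 784))))))))))))))
(cons (mv 914 (cons (fin 915 2 911)
(mv 974 (cons (fin 913 2 910)
(fin 910 7 910)))))
(cons (mv 910 (cons (fin 974 7 910)
(mv 1042 (cons (fin 1043 0 975)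
(mv 1166 (cons (fin 1230 5 974)
(mv 1168 (cons (fin 1232 4 975)
(mv 913 (cons (fin 1104 6 912)
(mv 785 (cons (fin 849 5 784)
(mv 1170 (cons (fin 1106 7 913)
(mv 1169 (cons (fin 1102 3 1102)
(mv 1234 (cons (fin 1233 0 1166)
(fin 1235 0 1167)))))))))))))))))))
(mv 914 (cons (fin 915 2 911)
(mv 974 (cons (fin 910 7 910)
(mv 973 (cons (fin 1036 1 972)
(fin 972 0 972)))))))))))))
(cons (mv 912 (cons (fin 848 5 847)
(mv 1167 (cons (fin 1104 5 911)
(fin 1231 6 975)))))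
(mv 912 (cons (fin 848 5 847)
(mv 1167 (cons (fin 975 6 911)
(fin 1231 6 975)))))))))))))
(cons (mv 1103 (cons (cons (mv 912 (cons (fin 848 5 847)
(mv 1167 (cons (fin 1104 5 911)
(fin 975 6 911)))))
(mv 912 (cons (fin 848 5 847)
(mv 1104 (cons (cons (mv 849 (cons (fin 913 6 848)
(mv 1169 (cons (fin 1105 4 912)
(mv 1168 (cons (fin 1233 4 976)
(mv 1232 (cons (fin 975 7 975)
(fin 1296 7 1039)))))))))
(mv 913 (cons (fin 849 6 848)
(mv 1168 (cons (fin 977 6 912)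
(mv 1232 (cons (fin 975 7 975)
(fin 1296 7 1039))))))))
(cons (mv 1169 (cons (fin 1105 4 912)
(mv 1168 (cons (fin 1233 4 976)
(mv 1232 (cons (fin 975 7 975)
(fin 1296 7 1039)))))))
(cons (mv 913 (cons (fin 849 6 848)
(mv 1105 (cons (fin 1169 4 912)
(mv 1106 (cons (fin 1107 3 1039)
(mv 1042 (cons (fin 1043 2 1039)
(mv 1170 (cons (fin 1171 0 1103)
(mv 978 (cons (fin 977 7 913)
(mv 915 (cons (fin 979 6 914)
(mv 914 (cons (fin 975 1 911)
(fin 851 6 850)))))))))))))))))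
(mv 913 (cons (fin 849 6 848)
(mv 977 (cons (fin 1168 6 912)
(mv 978 (cons (fin 979 1 975)
(mv 1105 (cons (fin 1169 4 912)
(mv 1106 (cons (fin 1107 3 1039)
(mv 1042 (cons (fin 1043 2 1039)
(fin 1170 7 913))))))))))))))))))))
(cons (mv 1167 (cons (fin 1231 6 975)
(mv 975 (cons (mv 974 (cons (fin 910 7 910)
(mv 973 (cons (fin 1036 1 972)
(fin 972 0 972)))))
(mv 1166 (cons (fin 1230 5 974)
(mv 1168 (cons (fin 1232 4 975)
(mv 1104 (cons (mv 1105 (cons (fin 1106 1 1102)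
(fin 1165 2 1101)))
(cons (mv 913 (cons (fin 977 6 912)
(mv 1164 (cons (fin 1165 2 1100)
(mv 1169 (cons (fin 1233 4 976)
(mv 1170 (cons (fin 1102 3 1102)
(fin 1171 3 1103)))))))))
(mv 913 (cons (fin 977 6 912)
(mv 1105 (cons (fin 1106 1 1102)
(mv 1169 (cons (fin 1233 4 976)
(mv 1170 (cons (fin 1102 3 1102)
(fin 1171 3 1103))))))))))))))))))))
(cons (mv 912 (cons (fin 848 5 847)
(mv 1167 (cons (fin 975 6 911)
(fin 1231 6 975)))))
(mv 912 (cons (fin 848 5 847)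
(mv 1167 (cons (fin 1104 5 911)
(fin 1231 6 975)))))))))
(mv 1038 (cons (cons (mv 972 (cons (fin 973 3 972)
(mv 1036 (cons (fin 971 3 971)
(fin 975 2 972)))))
(mv 972 (cons (fin 973 3 972)
(mv 1104 (cons (fin 1105 0 1037)
(mv 912 (cons (mv 1103 (cons (fin 848 5 847)
(fin 1167 5 911)))
(cons (mv 849 (cons (fin 913 6 848)
(mv 848 (cons (fin 785 6 784)
(mv 783 (cons (fin 847 7 783)
(mv 784 (cons (fin 719 7 719)
(fin 975 5 783)))))))))
(mv 849 (cons (fin 913 6 848)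
(mv 1167 (cons (fin 1103 5 911)
(mv 1168 (cons (fin 1231 5 975)
(mv 1232 (cons (fin 975 7 975)
(mv 1233 (cons (fin 1169 4 976)
(fin 1297 4 1040)))))))))))))))))))
(cons (mv 975 (cons (fin 1036 2 972)
(mv 1104 (cons (fin 1105 0 1037)
(mv 1168 (cons (fin 1232 7 975)
(mv 1167 (cons (fin 1231 5 975)
(mv 912 (cons (fin 1103 5 911)
(mv 848 (cons (fin 784 5 783)
(mv 849 (cons (fin 785 6 784)
(fin 913 6 848)))))))))))))))
(mv 972 (cons (fin 973 3 972)
(mv 1036 (cons (fin 971 3 971)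
(mv 1104 (cons (fin 1103 0 1036)
(fin 1105 0 1037))))))))))))
(cons (cons (mv 1038 (cons (fin 977 2 973)
(mv 972 (cons (fin 973 3 972)
(mv 1036 (cons (fin 971 3 971)
(fin 975 2 972)))))))
(mv 1038 (cons (fin 977 2 973)
(mv 972 (cons (fin 973 3 972)
(mv 1036 (cons (fin 971 3 971)
(mv 1104 (cons (fin 1103 0 1036)
(fin 1105 0 1037))))))))))
(cons (mv 1038 (cons (fin 977 2 973)
(mv 972 (cons (fin 973 3 972)
(mv 1104 (cons (fin 1105 0 1037)
(mv 912 (cons (mv 1103 (cons (fin 848 5 847)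
(fin 1167 5 911)))
(cons (mv 849 (cons (fin 913 6 848)
(mv 848 (cons (fin 785 6 784)
(mv 783 (cons (fin 847 7 783)
(mv 784 (cons (fin 719 7 719)
(fin 975 5 783)))))))))
(mv 849 (cons (fin 913 6 848)
(mv 1167 (cons (fin 1103 5 911)
(mv 1168 (cons (fin 1231 5 975)
(mv 1232 (cons (fin 975 7 975)
(mv 1233 (cons (fin 1169 4 976)
(fin 1297 4 1040))))))))))))))))))))
(mv 1038 (cons (fin 977 2 973)
(mv 975 (cons (fin 1036 2 972)
(mv 1104 (cons (fin 1105 0 1037)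
(mv 1168 (cons (fin 1232 7 975)
(mv 1167 (cons (fin 1231 5 975)
(mv 912 (cons (fin 1103 5 911)
(mv 848 (cons (fin 784 5 783)
(mv 849 (cons (fin 785 6 784)
(fin 913 6 848)))))))))))))))))))))
(mv 1038 (cons (cons (mv 977 (cons (fin 1039 2 973)
(mv 975 (cons (fin 974 1 973)
(mv 911 (cons (cons (mv 783 (cons (fin 847 4 783)
(mv 910 (cons (fin 978 3 910)
(mv 909 (cons (fin 908 0 908)
(fin 912 0 909)))))))
(mv 847 (cons (fin 783 4 783)
(mv 1104 (cons (fin 912 7 847)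
(fin 1168 7 911))))))
(cons (mv 910 (cons (fin 978 3 910)
(mv 909 (cons (fin 908 0 908)
(fin 912 0 909)))))
(mv 783 (cons (fin 847 4 783)
(mv 978 (cons (fin 910 3 910)
(mv 915 (cons (fin 914 2 911)
(mv 979 (cons (fin 916 2 912)
(mv 1043 (cons (fin 1042 0 975)
(fin 1044 0 976))))))))))))))))))
(mv 975 (cons (mv 974 (cons (fin 977 1 973)
(mv 1036 (cons (fin 973 1 972)
(fin 1035 2 971)))))
(cons (mv 1104 (cons (cons (mv 911 (cons (fin 1168 7 911)
(mv 847 (cons (fin 912 7 847)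
(fin 783 4 783)))))
(mv 912 (cons (cons (mv 847 (cons (fin 911 7 847)
(mv 783 (cons (fin 848 7 783)
(mv 1103 (cons (fin 1167 5 911)
(mv 1105 (cons (fin 1102 3 1037)
(fin 1169 4 912)))))))))
(mv 1103 (cons (fin 1167 5 911)
(mv 1105 (cons (fin 1102 3 1037)
(fin 1169 4 912))))))
(cons (mv 1105 (cons (fin 1169 4 912)
(mv 848 (cons (cons (mv 847 (cons (fin 783 7 783)
(fin 911 7 847)))
(mv 785 (cons (fin 849 6 784)
(mv 784 (cons (fin 721 6 720)
(mv 719 (cons (fin 783 7 719)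
(mv 720 (cons (fin 655 7 655)
(fin 911 5 719))))))))))
(cons (mv 783 (cons (fin 847 7 783)
(mv 784 (cons (fin 719 7 719)
(mv 785 (cons (fin 721 6 720)
(fin 849 6 784)))))))
(mv 785 (cons (fin 849 6 784)
(mv 784 (cons (fin 721 6 720)
(mv 911 (cons (fin 847 7 847)
(fin 720 5 719))))))))))))
(mv 1103 (cons (fin 1167 5 911)
(mv 848 (cons (cons (mv 847 (cons (fin 783 7 783)
(fin 911 7 847)))
(mv 785 (cons (fin 849 6 784)
(mv 784 (cons (fin 721 6 720)
(mv 719 (cons (fin 783 7 719)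
(mv 720 (cons (fin 655 7 655)
(fin 911 5 719))))))))))
(cons (mv 783 (cons (fin 847 7 783)
(mv 784 (cons (fin 719 7 719)
(mv 785 (cons (fin 721 6 720)
(fin 849 6 784)))))))
(mv 785 (cons (fin 849 6 784)
(mv 784 (cons (fin 721 6 720)
(mv 911 (cons (fin 847 7 847)
(fin 720 5 719))))))))))))))))
(cons (mv 1103 (cons (cons (mv 912 (cons (fin 1167 5 911)
(mv 1105 (cons (fin 1102 3 1037)
(fin 1169 4 912)))))
(mv 1105 (cons (fin 1102 3 1037)
(mv 1169 (cons (fin 912 4 912)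
(mv 1233 (cons (fin 1297 7 1040)
(fin 1168 4 976))))))))
(cons (mv 1167 (cons (fin 912 5 911)
(mv 1231 (cons (fin 1168 5 975)
(fin 1295 6 1039)))))
(mv 1102 (cons (fin 1105 3 1037)
(mv 1036 (cons (fin 1035 0 1035)
(mv 1168 (cons (cons (mv 1167 (cons (fin 1231 5 975)
(mv 1169 (cons (fin 1170 3 1102)
(fin 1233 4 976)))))
(mv 1233 (cons (fin 1169 4 976)
(mv 1232 (cons (fin 1297 4 1040)
(mv 1231 (cons (fin 1295 5 1039)
(mv 1230 (cons (mv 1166 (cons (fin 1165 3 1165)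
(fin 973 7 973)))
(cons (mv 1293 (cons (fin 1294 1 1229)
(mv 1229 (cons (fin 1292 1 1228)
(mv 1164 (cons (fin 1165 3 1164)
(mv 1228 (cons (fin 1163 3 1163)
(fin 1100 4 1036)))))))))
(mv 1166 (cons (fin 973 7 973)
(mv 1293 (cons (fin 1294 1 1229)
(fin 1229 5 1037)))))))))))))))
(cons (mv 1169 (cons (fin 1233 4 976)
(mv 1170 (cons (fin 1167 3 1102)
(fin 1171 3 1103)))))
(cons (mv 1231 (cons (fin 1167 5 975)
(mv 1232 (cons (fin 1295 5 1039)
(mv 1233 (cons (fin 1297 4 1040)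
(mv 1230 (cons (mv 1166 (cons (fin 1165 3 1165)
(fin 973 7 973)))
(cons (mv 1293 (cons (fin 1294 1 1229)
(mv 1229 (cons (fin 1292 1 1228)
(mv 1164 (cons (fin 1165 3 1164)
(mv 1228 (cons (fin 1163 3 1163)
(fin 1100 4 1036)))))))))
(mv 1166 (cons (fin 973 7 973)
(mv 1293 (cons (fin 1294 1 1229)
(fin 1229 5 1037))))))))))))))
(mv 1231 (cons (fin 1167 5 975)
(mv 1230 (cons (cons (mv 1166 (cons (fin 973 7 973)
(fin 1295 4 1038)))
(mv 1232 (cons (fin 1295 5 1039)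
(mv 1229 (cons (fin 1169 2 1165)
(mv 1164 (cons (fin 1165 3 1164)
(mv 1228 (cons (fin 1163 3 1163)
(mv 1100 (cons (fin 973 6 972)
(fin 1293 4 1036))))))))))))
(cons (mv 1166 (cons (fin 973 7 973)
(mv 1229 (cons (fin 1293 5 1037)
(mv 1232 (cons (fin 1169 2 1165)
(mv 1164 (cons (fin 1165 3 1164)
(mv 1228 (cons (fin 1163 3 1163)
(mv 1291 (cons (fin 1292 1 1227)
(mv 1227 (cons (fin 1290 1 1226)
(fin 1100 5 1035)))))))))))))))
(mv 1295 (cons (fin 1232 5 1039)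
(fin 1166 4 1038)))))))))))))))))))
(mv 1168 (cons (fin 911 7 911)
(mv 1231 (cons (fin 1167 5 975)
(mv 1232 (cons (fin 1295 5 1039)
(mv 1233 (cons (fin 1169 4 976)
(fin 1297 4 1040))))))))))))
(mv 974 (cons (fin 977 1 973)
(mv 911 (cons (cons (mv 783 (cons (fin 847 5 782)
(mv 1102 (cons (fin 1166 6 910)
(mv 1104 (cons (fin 1168 7 911)
(mv 1103 (cons (fin 1105 3 1037)
(mv 1167 (cons (fin 912 5 911)
(fin 910 4 910)))))))))))
(mv 1102 (cons (fin 1166 6 910)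
(mv 1104 (cons (fin 1168 7 911)
(mv 1103 (cons (fin 1105 3 1037)
(mv 1167 (cons (fin 912 5 911)
(fin 910 4 910))))))))))
(cons (mv 847 (cons (fin 783 5 782)
(mv 1104 (cons (fin 912 7 847)
(fin 1168 7 911)))))
(mv 847 (cons (fin 783 5 782)
(mv 1102 (cons (fin 910 6 846)
(fin 1166 6 910))))))))))))))
(cons (mv 1039 (cons (cons (mv 972 (cons (fin 973 3 972)
(mv 1036 (cons (fin 971 3 971)
(fin 975 2 972)))))
(mv 972 (cons (fin 973 3 972)
(mv 1104 (cons (fin 1105 0 1037)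
(mv 1168 (cons (mv 975 (cons (fin 911 7 911)
(fin 1232 7 975)))
(mv 1167 (cons (fin 1231 5 975)
(mv 1103 (cons (fin 912 5 911)
(mv 1169 (cons (fin 1233 4 976)
(mv 1170 (cons (fin 1102 3 1102)
(fin 1171 3 1103))))))))))))))))
(cons (mv 975 (cons (fin 1036 2 972)
(mv 1104 (cons (fin 1105 0 1037)
(mv 911 (cons (fin 1168 7 911)
(fin 847 4 847)))))))
(mv 972 (cons (fin 973 3 972)
(mv 1036 (cons (fin 971 3 971)
(mv 1104 (cons (fin 1103 0 1036)
(fin 1105 0 1037))))))))))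
(cons (mv 1039 (cons (fin 977 2 973)
(mv 972 (cons (fin 973 3 972)
(mv 1036 (cons (fin 971 3 971)
(mv 1104 (cons (fin 1103 0 1036)
(fin 1105 0 1037)))))))))
(mv 1039 (cons (fin 977 2 973)
(mv 972 (cons (fin 973 3 972)
(mv 1036 (cons (fin 971 3 971)
(fin 975 2 972))))))))))))
(cons (mv 1039 (cons (cons (mv 977 (cons (fin 1038 2 973)
(mv 978 (cons (fin 979 1 975)
(mv 975 (cons (cons (mv 910 (cons (fin 911 3 910)
(mv 914 (cons (fin 915 2 911)
(mv 974 (cons (fin 909 3 909)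
(fin 913 2 910)))))))
(mv 914 (cons (fin 915 2 911)
(mv 913 (cons (fin 974 2 910)
(mv 785 (cons (fin 849 5 784)
(mv 1042 (cons (fin 1043 0 975)
(mv 1104 (cons (fin 1168 6 912)
(mv 1106 (cons (fin 1170 7 913)
(mv 1105 (cons (fin 1107 3 1039)
(fin 1169 5 913))))))))))))))))
(cons (mv 910 (cons (fin 911 3 910)
(mv 974 (cons (fin 909 3 909)
(mv 973 (cons (fin 1036 1 972)
(fin 972 0 972)))))))
(mv 911 (cons (fin 910 3 910)
(mv 847 (cons (fin 783 4 783)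
(fin 1104 4 847))))))))))))
(cons (mv 912 (cons (cons (cons (mv 1104 (cons (cons (mv 847 (cons (fin 911 7 847)
(mv 783 (cons (fin 848 7 783)
(mv 849 (cons (fin 913 6 848)
(mv 1169 (cons (fin 1105 4 912)
(mv 1168 (cons (fin 1233 4 976)
(mv 1231 (cons (fin 1167 5 975)
(mv 1232 (cons (fin 975 7 975)
(fin 1295 5 1039)))))))))))))))
(cons (mv 849 (cons (fin 913 6 848)
(mv 785 (cons (fin 848 6 784)
(mv 1169 (cons (fin 1105 4 912)
(mv 1168 (cons (fin 1233 4 976)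
(mv 1231 (cons (fin 1167 5 975)
(mv 1232 (cons (fin 975 7 975)
(fin 1295 5 1039)))))))))))))
(mv 847 (cons (fin 911 7 847)
(mv 783 (cons (fin 848 7 783)
(mv 1169 (cons (fin 1105 4 912)
(mv 1168 (cons (fin 1233 4 976)
(mv 1231 (cons (fin 1167 5 975)
(mv 1232 (cons (fin 975 7 975)
(fin 1295 5 1039)))))))))))))))
(cons (cons (mv 847 (cons (fin 911 7 847)
(mv 783 (cons (fin 848 7 783)
(mv 913 (cons (fin 849 6 848)
(mv 1168 (cons (fin 977 6 912)
(mv 1167 (cons (fin 1231 5 975)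
(mv 1232 (cons (fin 975 7 975)
(mv 1233 (cons (fin 1169 4 976)
(fin 1297 4 1040)))))))))))))))
(mv 847 (cons (fin 911 7 847)
(mv 783 (cons (fin 848 7 783)
(mv 913 (cons (fin 849 6 848)
(mv 1168 (cons (fin 977 6 912)
(mv 1231 (cons (fin 1167 5 975)
(mv 1232 (cons (fin 975 7 975)
(fin 1295 5 1039))))))))))))))
(cons (mv 847 (cons (fin 911 7 847)
(mv 848 (cons (fin 783 7 783)
(mv 849 (cons (fin 785 6 784)
(fin 913 6 848)))))))
(mv 847 (cons (fin 911 7 847)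
(mv 849 (cons (fin 913 6 848)
(mv 1169 (cons (fin 1105 4 912)
(mv 1168 (cons (fin 1233 4 976)
(mv 1231 (cons (fin 1167 5 975)
(mv 1232 (cons (fin 975 7 975)
(fin 1295 5 1039)))))))))))))))))
(mv 848 (cons (mv 783 (cons (fin 847 7 783)
(mv 784 (cons (fin 719 7 719)
(fin 975 5 783)))))
(cons (mv 847 (cons (fin 783 7 783)
(mv 849 (cons (fin 785 6 784)
(mv 846 (cons (cons (mv 913 (cons (fin 845 0 845)
(fin 914 0 846)))
(mv 781 (cons (fin 782 3 781)
(mv 780 (cons (fin 845 3 780)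
(mv 910 (cons (fin 909 1 845)
(mv 850 (cons (fin 911 1 846)
(mv 787 (cons (fin 786 2 783)
(mv 851 (cons (fin 788 2 784)
(mv 915 (cons (fin 914 0 847)
(fin 916 0 848))))))))))))))))
(cons (mv 781 (cons (fin 782 3 781)
(mv 909 (cons (fin 910 1 845)
(mv 914 (cons (fin 913 0 846)
(mv 850 (cons (fin 915 0 847)
(mv 787 (cons (fin 786 2 783)
(mv 851 (cons (fin 911 1 847)
(fin 788 2 784)))))))))))))
(mv 781 (cons (fin 782 3 781)
(mv 845 (cons (fin 780 3 780)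
(fin 913 0 845))))))))))))
(mv 784 (cons (fin 975 5 783)
(mv 785 (cons (fin 721 6 720)
(fin 849 6 784)))))))))
(cons (mv 1104 (cons (cons (mv 847 (cons (fin 911 7 847)
(mv 849 (cons (fin 913 6 848)
(mv 1169 (cons (fin 1105 4 912)
(mv 1168 (cons (fin 1233 4 976)
(mv 1231 (cons (fin 1167 5 975)
(mv 1232 (cons (fin 975 7 975)
(fin 1295 5 1039)))))))))))))
(cons (mv 849 (cons (fin 913 6 848)
(mv 1169 (cons (fin 1105 4 912)
(mv 1168 (cons (fin 1233 4 976)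
(mv 1231 (cons (fin 1167 5 975)
(mv 1232 (cons (fin 975 7 975)
(fin 1295 5 1039)))))))))))
(mv 847 (cons (fin 911 7 847)
(mv 1169 (cons (fin 1105 4 912)
(mv 1168 (cons (fin 1233 4 976)
(mv 1231 (cons (fin 1167 5 975)
(mv 1232 (cons (fin 975 7 975)
(fin 1295 5 1039)))))))))))))
(cons (cons (mv 847 (cons (fin 911 7 847)
(mv 913 (cons (fin 849 6 848)
(mv 1168 (cons (fin 977 6 912)
(mv 1167 (cons (fin 1231 5 975)
(mv 1232 (cons (fin 975 7 975)
(mv 1233 (cons (fin 1169 4 976)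
(fin 1297 4 1040)))))))))))))
(mv 847 (cons (fin 911 7 847)
(mv 913 (cons (fin 849 6 848)
(mv 1168 (cons (fin 977 6 912)
(mv 1231 (cons (fin 1167 5 975)
(mv 1232 (cons (fin 975 7 975)
(fin 1295 5 1039))))))))))))
(cons (mv 911 (cons (fin 847 7 847)
(mv 913 (cons (fin 849 6 848)
(mv 1105 (cons (fin 1169 4 912)
(mv 1106 (cons (fin 1107 3 1039)
(mv 977 (cons (mv 910 (cons (fin 909 0 909)
(fin 978 0 910)))
(cons (mv 910 (cons (fin 909 0 909)
(mv 845 (cons (fin 846 3 845)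
(mv 974 (cons (fin 973 1 909)
(mv 914 (cons (fin 975 1 910)
(mv 851 (cons (fin 850 2 847)
(mv 915 (cons (fin 916 1 912)
(fin 852 2 848)))))))))))))
(mv 978 (cons (fin 979 3 911)
(mv 1042 (cons (fin 1170 7 913)
(mv 975 (cons (fin 1043 0 975)
(mv 914 (cons (fin 974 1 910)
(fin 915 1 911))))))))))))))))))))
(mv 847 (cons (fin 911 7 847)
(mv 913 (cons (fin 849 6 848)
(mv 1168 (cons (fin 977 6 912)
(mv 1169 (cons (fin 1105 4 912)
(fin 1233 4 976)))))))))))))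
(mv 1104 (cons (cons (mv 849 (cons (fin 913 6 848)
(mv 785 (cons (fin 848 6 784)
(mv 1169 (cons (fin 1105 4 912)
(mv 1168 (cons (fin 1233 4 976)
(mv 975 (cons (fin 911 7 911)
(fin 1232 7 975)))))))))))
(mv 1169 (cons (fin 1105 4 912)
(mv 1168 (cons (fin 1233 4 976)
(mv 975 (cons (fin 911 7 911)
(fin 1232 7 975))))))))
(cons (mv 849 (cons (fin 913 6 848)
(mv 848 (cons (fin 785 6 784)
(mv 975 (cons (fin 784 5 783)
(mv 1168 (cons (fin 911 7 911)
(fin 1232 7 975)))))))))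
(cons (mv 1105 (cons (fin 1169 4 912)
(mv 1106 (cons (fin 1107 3 1039)
(mv 848 (cons (mv 849 (cons (fin 785 6 784)
(fin 913 6 848)))
(cons (mv 784 (cons (fin 975 5 783)
(mv 719 (cons (fin 783 7 719)
(mv 720 (cons (fin 655 7 655)
(mv 721 (cons (fin 657 6 656)
(fin 785 6 720)))))))))
(mv 784 (cons (fin 975 5 783)
(mv 719 (cons (fin 783 7 719)
(mv 720 (cons (fin 655 7 655)
(mv 913 (cons (fin 849 6 848)
(fin 977 4 720))))))))))))))))
(mv 913 (cons (fin 849 6 848)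
(mv 1168 (cons (fin 977 6 912)
(mv 1169 (cons (fin 1105 4 912)
(fin 1233 4 976)))))))))))))
(cons (cons (mv 847 (cons (cons (mv 783 (cons (fin 848 7 783)
(mv 911 (cons (fin 1104 7 847)
(fin 719 4 719)))))
(mv 848 (cons (fin 783 7 783)
(mv 975 (cons (fin 784 5 783)
(mv 974 (cons (mv 973 (cons (fin 1036 1 972)
(fin 913 2 909)))
(cons (mv 846 (cons (cons (mv 782 (cons (fin 910 4 782)
(mv 845 (cons (fin 913 0 845)
(mv 780 (cons (fin 781 3 780)
(mv 844 (cons (fin 779 3 779)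
(mv 908 (cons (fin 907 1 843)
(fin 909 1 844)))))))))))
(mv 910 (cons (fin 782 4 782)
(mv 909 (cons (fin 977 3 909)
(mv 908 (cons (fin 845 1 844)
(fin 907 2 843))))))))
(cons (mv 910 (cons (fin 782 4 782)
(mv 977 (cons (fin 909 3 909)
(mv 913 (cons (fin 914 2 910)
(mv 978 (cons (fin 979 1 975)
(mv 1042 (cons (fin 1043 0 975)
(mv 1104 (cons (fin 1168 6 912)
(mv 1105 (cons (fin 1169 4 912)
(mv 1106 (cons (fin 1107 3 1039)
(fin 1170 7 913)))))))))))))))))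
(cons (mv 845 (cons (fin 913 0 845)
(mv 780 (cons (fin 781 3 780)
(mv 844 (cons (fin 779 3 779)
(mv 908 (cons (fin 907 1 843)
(fin 909 1 844)))))))))
(mv 782 (cons (fin 910 4 782)
(mv 913 (cons (fin 845 0 845)
(mv 914 (cons (fin 915 3 847)
(fin 977 2 910)))))))))))
(mv 973 (cons (fin 1036 1 972)
(fin 972 0 972)))))))))))
(cons (mv 783 (cons (fin 848 7 783)
(mv 911 (cons (fin 719 4 719)
(fin 975 4 783)))))
(mv 1104 (cons (fin 911 7 847)
(mv 1169 (cons (fin 1105 4 912)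
(mv 1168 (cons (fin 1233 4 976)
(mv 913 (cons (fin 977 6 912)
(mv 1231 (cons (fin 1167 5 975)
(mv 1232 (cons (fin 975 7 975)
(fin 1295 5 1039))))))))))))))))
(mv 849 (cons (cons (mv 785 (cons (fin 848 6 784)
(mv 913 (cons (fin 721 5 720)
(fin 977 5 784)))))
(mv 848 (cons (fin 785 6 784)
(mv 847 (cons (fin 783 7 783)
(mv 911 (cons (fin 1104 7 847)
(mv 850 (cons (fin 910 1 846)
(fin 851 1 847))))))))))
(cons (mv 913 (cons (fin 1104 6 848)
(mv 850 (cons (cons (mv 851 (cons (fin 852 1 848)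
(mv 911 (cons (fin 848 1 847)
(fin 910 2 846)))))
(mv 851 (cons (fin 852 1 848)
(mv 848 (cons (mv 783 (cons (fin 784 3 783)
(fin 847 7 783)))
(cons (mv 787 (cons (fin 788 2 784)
(mv 786 (cons (fin 847 2 783)
(mv 658 (cons (fin 722 5 657)
(mv 915 (cons (fin 916 0 848)
(mv 979 (cons (fin 1043 7 786)
(mv 978 (cons (fin 977 1 975)
(fin 1042 5 786)))))))))))))
(mv 784 (cons (fin 783 3 783)
(mv 720 (cons (fin 656 4 656)
(fin 977 4 720)))))))))))
(cons (mv 911 (cons (fin 910 2 846)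
(mv 847 (cons (mv 783 (cons (fin 848 7 783)
(fin 719 4 719)))
(cons (mv 846 (cons (fin 914 3 846)
(mv 845 (cons (fin 844 0 844)
(fin 848 0 845)))))
(mv 719 (cons (fin 783 4 719)
(mv 914 (cons (fin 846 3 846)
(mv 979 (cons (fin 978 0 911)
(mv 915 (cons (fin 980 0 912)
(mv 916 (cons (fin 917 3 849)
(fin 977 1 912))))))))))))))))
(mv 851 (cons (fin 852 1 848)
(mv 911 (cons (fin 910 2 846)
(fin 914 2 847))))))))))
(mv 913 (cons (fin 1104 6 848)
(mv 785 (cons (fin 721 5 720)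
(fin 977 5 784)))))))))
(cons (mv 848 (cons (cons (mv 783 (cons (fin 847 7 783)
(mv 784 (cons (fin 719 7 719)
(fin 975 5 783)))))
(mv 783 (cons (fin 847 7 783)
(mv 849 (cons (fin 785 6 784)
(mv 1104 (cons (fin 913 6 848)
(mv 1169 (cons (fin 1105 4 912)
(mv 1168 (cons (fin 1233 4 976)
(mv 1231 (cons (fin 1167 5 975)
(mv 1232 (cons (fin 975 7 975)
(fin 1295 5 1039))))))))))))))))
(cons (mv 784 (cons (fin 975 5 783)
(mv 785 (cons (fin 721 6 720)
(fin 849 6 784)))))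
(mv 783 (cons (fin 847 7 783)
(mv 784 (cons (fin 719 7 719)
(mv 785 (cons (fin 721 6 720)
(fin 849 6 784))))))))))
(mv 848 (cons (cons (mv 783 (cons (fin 847 7 783)
(mv 784 (cons (fin 719 7 719)
(fin 975 5 783)))))
(mv 785 (cons (fin 849 6 784)
(mv 847 (cons (fin 783 7 783)
(mv 1104 (cons (fin 911 7 847)
(mv 1169 (cons (fin 1105 4 912)
(mv 1168 (cons (fin 1233 4 976)
(mv 1231 (cons (fin 1167 5 975)
(mv 1232 (cons (fin 975 7 975)
(fin 1295 5 1039))))))))))))))))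
(cons (mv 784 (cons (fin 975 5 783)
(mv 785 (cons (fin 721 6 720)
(fin 849 6 784)))))
(mv 783 (cons (fin 847 7 783)
(mv 784 (cons (fin 719 7 719)
(mv 785 (cons (fin 721 6 720)
(fin 849 6 784))))))))))))))
(mv 1038 (cons (cons (mv 972 (cons (fin 973 3 972)
(mv 1036 (cons (fin 971 3 971)
(fin 975 2 972)))))
(mv 972 (cons (fin 973 3 972)
(mv 1104 (cons (fin 1105 0 1037)
(mv 1168 (cons (mv 975 (cons (fin 911 7 911)
(fin 1232 7 975)))
(cons (mv 1231 (cons (fin 1167 5 975)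
(mv 1232 (cons (fin 1295 5 1039)
(mv 1233 (cons (fin 1169 4 976)
(fin 1297 4 1040)))))))
(mv 1167 (cons (fin 1231 5 975)
(mv 1169 (cons (fin 1233 4 976)
(mv 912 (cons (cons (mv 911 (cons (fin 847 7 847)
(fin 975 7 911)))
(mv 849 (cons (fin 913 6 848)
(mv 848 (cons (fin 785 6 784)
(mv 783 (cons (fin 847 7 783)
(mv 784 (cons (fin 719 7 719)
(fin 975 5 783))))))))))
(cons (mv 847 (cons (fin 911 7 847)
(mv 848 (cons (fin 783 7 783)
(mv 849 (cons (fin 785 6 784)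
(fin 913 6 848)))))))
(mv 849 (cons (fin 913 6 848)
(mv 848 (cons (fin 785 6 784)
(mv 975 (cons (fin 911 7 911)
(fin 784 5 783))))))))))))))))))))))
(cons (mv 975 (cons (fin 1036 2 972)
(mv 1104 (cons (fin 1105 0 1037)
(mv 911 (cons (fin 1168 7 911)
(fin 847 4 847)))))))
(mv 1104 (cons (fin 1105 0 1037)
(mv 1231 (cons (cons (mv 972 (cons (fin 973 3 972)
(mv 971 (cons (fin 1036 3 971)
(mv 1168 (cons (fin 1167 5 975)
(mv 1232 (cons (fin 1295 5 1039)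
(mv 1233 (cons (fin 1169 4 976)
(fin 1297 4 1040)))))))))))
(mv 847 (cons (cons (mv 912 (cons (fin 911 7 847)
(mv 848 (cons (fin 783 7 783)
(mv 849 (cons (fin 785 6 784)
(fin 913 6 848)))))))
(mv 1036 (cons (cons (mv 972 (cons (fin 971 3 971)
(fin 973 3 972)))
(mv 1099 (cons (fin 1100 1 1035)
(mv 1035 (cons (fin 1098 1 1034)
(mv 970 (cons (fin 971 3 970)
(mv 1034 (cons (fin 969 3 969)
(mv 842 (cons (fin 906 4 842)
(mv 974 (cons (fin 973 2 970)
(mv 1163 (cons (fin 1227 7 970)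
(mv 1102 (cons (mv 910 (cons (fin 911 6 846)
(mv 845 (cons (fin 909 7 845)
(mv 846 (cons (fin 781 7 781)
(fin 783 6 782)))))))
(mv 1166 (cons (fin 1167 4 974)
(mv 1165 (cons (fin 1229 5 973)
(mv 1230 (cons (fin 1164 0 1163)
(fin 1295 4 1038))))))))))))))))))))))))
(cons (mv 973 (cons (fin 972 3 972)
(mv 1099 (cons (fin 1100 1 1035)
(mv 1035 (cons (fin 1098 1 1034)
(mv 974 (cons (fin 1034 2 970)
(mv 1102 (cons (mv 909 (cons (fin 1166 7 909)
(fin 845 4 845)))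
(cons (mv 845 (cons (fin 909 4 845)
(mv 910 (cons (fin 911 6 846)
(mv 846 (cons (fin 781 7 781)
(fin 782 5 781)))))))
(mv 1166 (cons (fin 1230 7 973)
(fin 1167 4 974))))))))))))))
(mv 971 (cons (fin 972 3 971)
(mv 1035 (cons (fin 970 3 970)
(mv 1099 (cons (fin 1098 1 1034)
(fin 1100 1 1035)))))))))))
(cons (mv 973 (cons (fin 972 3 972)
(mv 848 (cons (cons (mv 912 (cons (fin 783 7 783)
(mv 849 (cons (fin 785 6 784)
(fin 913 6 848)))))
(mv 845 (cons (mv 909 (cons (fin 1102 4 845)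
(mv 846 (cons (fin 908 1 844)
(fin 782 6 781)))))
(cons (mv 846 (cons (cons (mv 780 (cons (fin 781 3 780)
(mv 784 (cons (fin 785 2 781)
(mv 844 (cons (fin 779 3 779)
(fin 783 2 780)))))))
(mv 784 (cons (fin 785 2 781)
(mv 844 (cons (fin 783 2 780)
(mv 779 (cons (fin 780 3 779)
(mv 843 (cons (fin 778 3 778)
(mv 907 (cons (fin 906 1 842)
(fin 908 1 843))))))))))))
(cons (mv 781 (cons (fin 780 3 780)
(mv 849 (cons (fin 782 3 781)
(mv 786 (cons (fin 785 2 782)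
(mv 850 (cons (fin 787 2 783)
(mv 914 (cons (fin 913 0 846)
(fin 915 0 847)))))))))))
(cons (mv 785 (cons (fin 784 2 781)
(mv 849 (cons (fin 786 2 782)
(mv 782 (cons (fin 781 3 781)
(mv 850 (cons (fin 783 3 782)
(mv 914 (cons (fin 913 0 846)
(fin 915 0 847)))))))))))
(mv 780 (cons (fin 781 3 780)
(mv 844 (cons (fin 779 3 779)
(mv 783 (cons (fin 784 2 780)
(mv 843 (cons (fin 782 2 779)
(mv 907 (cons (fin 906 1 842)
(fin 908 1 843)))))))))))))))
(mv 909 (cons (fin 1102 4 845)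
(mv 780 (cons (fin 844 7 780)
(mv 781 (cons (fin 716 7 716)
(fin 974 4 781)))))))))))
(cons (mv 849 (cons (cons (mv 912 (cons (fin 785 6 784)
(fin 913 6 848)))
(mv 846 (cons (cons (mv 781 (cons (fin 782 3 781)
(mv 780 (cons (fin 845 3 780)
(mv 786 (cons (fin 785 2 782)
(mv 850 (cons (fin 787 2 783)
(mv 914 (cons (fin 913 0 846)
(fin 915 0 847)))))))))))
(mv 785 (cons (fin 786 2 782)
(mv 845 (cons (fin 784 2 781)
(mv 909 (cons (fin 908 1 844)
(fin 910 1 845))))))))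
(cons (mv 781 (cons (fin 782 3 781)
(mv 845 (cons (fin 780 3 780)
(mv 909 (cons (fin 908 1 844)
(fin 910 1 845)))))))
(mv 781 (cons (fin 782 3 781)
(mv 786 (cons (fin 785 2 782)
(mv 850 (cons (fin 787 2 783)
(mv 914 (cons (fin 913 0 846)
(fin 915 0 847)))))))))))))
(cons (mv 913 (cons (fin 912 6 848)
(mv 846 (cons (fin 914 0 846)
(mv 781 (cons (fin 782 3 781)
(mv 845 (cons (fin 780 3 780)
(mv 909 (cons (fin 908 1 844)
(fin 910 1 845)))))))))))
(mv 785 (cons (fin 912 6 784)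
(mv 786 (cons (fin 846 2 782)
(mv 787 (cons (fin 784 1 783)
(fin 788 1 784))))))))))
(cons (mv 783 (cons (fin 912 7 783)
(mv 845 (cons (cons (mv 909 (cons (fin 1102 4 845)
(mv 846 (cons (fin 908 1 844)
(fin 782 6 781)))))
(mv 846 (cons (mv 784 (cons (fin 844 2 780)
(fin 785 2 781)))
(cons (mv 780 (cons (fin 781 3 780)
(mv 844 (cons (fin 779 3 779)
(mv 843 (cons (fin 782 2 779)
(mv 907 (cons (fin 906 1 842)
(fin 908 1 843)))))))))
(mv 781 (cons (fin 780 3 780)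
(mv 784 (cons (fin 785 2 781)
(mv 910 (cons (fin 974 7 781)
(mv 717 (cons (fin 653 4 653)
(mv 716 (cons (fin 782 3 716)
(mv 719 (cons (fin 718 0 716)
(fin 655 5 654)))))))))))))))))
(cons (mv 909 (cons (fin 1102 4 845)
(mv 780 (cons (fin 844 7 780)
(mv 781 (cons (fin 782 0 780)
(fin 716 7 716)))))))
(mv 909 (cons (fin 1102 4 845)
(mv 780 (cons (fin 844 7 780)
(mv 781 (cons (fin 846 3 780)
(fin 716 7 716))))))))))))
(mv 912 (cons (fin 783 7 783)
(mv 913 (cons (fin 849 6 848)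
(mv 845 (cons (fin 846 0 845)
(mv 909 (cons (fin 1102 4 845)
(mv 780 (cons (fin 844 7 780)
(mv 781 (cons (fin 716 7 716)
(fin 974 4 781)))))))))))))))))))
(mv 911 (cons (fin 912 7 847)
(mv 1036 (cons (cons (mv 972 (cons (fin 971 3 971)
(fin 973 3 972)))
(mv 1099 (cons (fin 1100 1 1035)
(mv 1035 (cons (fin 1098 1 1034)
(mv 970 (cons (fin 971 3 970)
(mv 1034 (cons (fin 969 3 969)
(mv 842 (cons (fin 906 4 842)
(mv 974 (cons (fin 973 2 970)
(mv 1102 (cons (fin 910 6 846)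
(mv 1166 (cons (fin 1167 4 974)
(mv 1229 (cons (fin 1165 5 973)
(mv 1230 (cons (fin 1293 5 1037)
(fin 1295 4 1038))))))))))))))))))))))
(cons (mv 973 (cons (fin 972 3 972)
(mv 1099 (cons (fin 1100 1 1035)
(mv 1035 (cons (fin 1098 1 1034)
(mv 974 (cons (fin 1034 2 970)
(mv 910 (cons (fin 1102 6 846)
(mv 846 (cons (fin 782 5 781)
(mv 845 (cons (fin 781 7 781)
(mv 844 (cons (fin 843 0 843)
(mv 780 (cons (fin 779 3 779)
(fin 909 7 780)))))))))))))))))))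
(mv 971 (cons (fin 972 3 971)
(mv 1035 (cons (fin 970 3 970)
(mv 1099 (cons (fin 1098 1 1034)
(fin 1100 1 1035))))))))))))))))
(cons (mv 1168 (cons (fin 1167 5 975)
(mv 1232 (cons (fin 1295 5 1039)
(mv 1233 (cons (fin 1169 4 976)
(fin 1297 4 1040)))))))
(cons (mv 972 (cons (fin 973 3 972)
(mv 1036 (cons (fin 971 3 971)
(mv 1232 (cons (cons (mv 1099 (cons (fin 1100 1 1035)
(mv 1035 (cons (fin 1098 1 1034)
(mv 844 (cons (fin 908 5 843)
(mv 1163 (cons (fin 1227 6 971)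
(mv 1168 (cons (fin 1295 5 1039)
(mv 1233 (cons (fin 1169 4 976)
(fin 1297 4 1040)))))))))))))
(cons (mv 1100 (cons (fin 1099 1 1035)
(mv 1229 (cons (cons (mv 1164 (cons (fin 1165 4 972)
(mv 1163 (cons (fin 1227 5 971)
(mv 1228 (cons (fin 1230 3 1163)
(fin 1293 4 1036)))))))
(cons (mv 1230 (cons (cons (mv 1292 (cons (fin 1293 1 1228)
(mv 1228 (cons (fin 1291 1 1227)
(mv 1296 (cons (fin 1295 0 1228)
(fin 1297 0 1229)))))))
(mv 1296 (cons (fin 1297 0 1229)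
(mv 1295 (cons (fin 1228 0 1228)
(mv 1166 (cons (fin 1102 4 1038)
(mv 1233 (cons (fin 1165 3 1165)
(mv 1234 (cons (fin 1294 1 1230)
(fin 1235 1 1231))))))))))))
(cons (mv 1293 (cons (fin 1292 1 1228)
(mv 1102 (cons (fin 1166 5 1037)
(mv 1233 (cons (fin 1294 1 1229)
(mv 1170 (cons (fin 1169 2 1166)
(mv 1234 (cons (fin 1171 2 1167)
(mv 1298 (cons (fin 1297 0 1230)
(fin 1299 0 1231)))))))))))))
(mv 1292 (cons (fin 1293 1 1228)
(mv 1228 (cons (fin 1291 1 1227)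
(mv 1295 (cons (fin 1296 0 1228)
(mv 1166 (cons (fin 1102 4 1038)
(mv 1165 (cons (fin 1233 3 1165)
(mv 1227 (cons (fin 1226 2 1162)
(fin 1294 0 1227))))))))))))))))
(mv 1230 (cons (cons (mv 1292 (cons (fin 1293 1 1228)
(mv 1228 (cons (fin 1291 1 1227)
(mv 1296 (cons (fin 1295 0 1228)
(fin 1297 0 1229)))))))
(cons (mv 1296 (cons (fin 1297 0 1229)
(mv 1228 (cons (fin 1295 0 1228)
(mv 1163 (cons (fin 1164 3 1163)
(mv 1227 (cons (fin 1162 3 1162)
(mv 1291 (cons (fin 1290 1 1226)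
(fin 1292 1 1227)))))))))))
(mv 1293 (cons (fin 1292 1 1228)
(mv 1102 (cons (fin 1166 5 1037)
(mv 1164 (cons (fin 1228 4 1036)
(mv 1233 (cons (fin 1294 1 1229)
(mv 1170 (cons (fin 1169 2 1166)
(mv 1234 (cons (fin 1171 2 1167)
(mv 1298 (cons (fin 1297 0 1230)
(fin 1299 0 1231)))))))))))))))))
(cons (mv 1296 (cons (fin 1297 0 1229)
(mv 1228 (cons (fin 1295 0 1228)
(mv 1164 (cons (fin 1163 3 1163)
(fin 1293 4 1036)))))))
(cons (mv 1292 (cons (fin 1293 1 1228)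
(mv 1228 (cons (fin 1291 1 1227)
(mv 1163 (cons (fin 1164 3 1163)
(mv 1227 (cons (fin 1162 3 1162)
(mv 1295 (cons (fin 1294 0 1227)
(fin 1296 0 1228)))))))))))
(mv 1293 (cons (fin 1292 1 1228)
(mv 1102 (cons (fin 1166 5 1037)
(mv 1233 (cons (fin 1294 1 1229)
(mv 1297 (cons (fin 1296 0 1229)
(fin 1298 0 1230)))))))))))))))
(cons (mv 1164 (cons (fin 1165 4 972)
(mv 1227 (cons (fin 1163 5 971)
(mv 1228 (cons (fin 1291 5 1035)
(fin 1293 4 1036)))))))
(cons (mv 1164 (cons (fin 1165 4 972)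
(mv 1163 (cons (fin 1227 5 971)
(mv 1230 (cons (fin 1228 3 1163)
(mv 1233 (cons (cons (mv 1297 (cons (fin 1296 0 1229)
(fin 1298 0 1230)))
(mv 1170 (cons (fin 1169 2 1166)
(mv 1234 (cons (fin 1171 2 1167)
(mv 1235 (cons (mv 1295 (cons (fin 1294 1 1230)
(fin 1296 1 1231)))
(mv 1299 (cons (fin 1298 0 1231)
(fin 1300 0 1232))))))))))
(cons (mv 1170 (cons (fin 1169 2 1166)
(mv 1234 (cons (fin 1171 2 1167)
(mv 1295 (cons (fin 1294 1 1230)
(mv 1296 (cons (fin 1235 1 1231)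
(fin 1297 0 1229)))))))))
(mv 1170 (cons (fin 1169 2 1166)
(mv 1234 (cons (fin 1171 2 1167)
(mv 1298 (cons (fin 1297 0 1230)
(fin 1299 0 1231))))))))))))))))
(mv 1165 (cons (fin 1164 4 972)
(mv 1230 (cons (cons (mv 1166 (cons (fin 1233 3 1165)
(mv 1102 (cons (fin 974 5 973)
(fin 1293 5 1037)))))
(mv 1293 (cons (fin 1292 1 1228)
(mv 1296 (cons (fin 1297 0 1229)
(mv 1357 (cons (mv 1166 (cons (fin 1102 5 1037)
(fin 1421 6 1165)))
(mv 1356 (cons (fin 1420 5 1164)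
(mv 1295 (cons (fin 1294 1 1292)
(mv 1358 (cons (fin 1359 2 1292)
(fin 1422 4 1165))))))))))))))
(cons (mv 1293 (cons (fin 1292 1 1228)
(mv 1233 (cons (fin 1294 1 1229)
(mv 1297 (cons (fin 1296 0 1229)
(fin 1298 0 1230)))))))
(mv 1166 (cons (fin 1233 3 1165)
(mv 1102 (cons (fin 974 5 973)
(fin 1295 4 1038))))))))))))))))
(mv 1168 (cons (fin 1295 5 1039)
(mv 1233 (cons (fin 1169 4 976)
(fin 1297 4 1040)))))))
(cons (mv 1100 (cons (fin 1099 1 1035)
(mv 1233 (cons (cons (mv 1168 (cons (fin 1169 4 976)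
(fin 1297 4 1040)))
(mv 1230 (cons (cons (mv 1165 (cons (fin 1166 3 1165)
(mv 1164 (cons (fin 1229 3 1164)
(mv 1163 (cons (fin 1227 5 971)
(mv 1170 (cons (fin 1169 2 1166)
(mv 1234 (cons (fin 1171 2 1167)
(mv 1298 (cons (fin 1297 0 1230)
(fin 1299 0 1231)))))))))))))
(mv 1169 (cons (fin 1170 2 1166)
(mv 1293 (cons (fin 1294 1 1229)
(mv 1229 (cons (fin 1292 1 1228)
(mv 1297 (cons (fin 1296 0 1229)
(fin 1298 0 1230))))))))))
(cons (mv 1165 (cons (fin 1166 3 1165)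
(mv 1169 (cons (fin 1170 2 1166)
(mv 1229 (cons (fin 1164 3 1164)
(mv 1293 (cons (fin 1292 1 1228)
(fin 1294 1 1229)))))))))
(cons (mv 1165 (cons (fin 1166 3 1165)
(mv 1229 (cons (fin 1164 3 1164)
(mv 1293 (cons (fin 1292 1 1228)
(fin 1294 1 1229)))))))
(mv 1165 (cons (fin 1166 3 1165)
(mv 1170 (cons (fin 1169 2 1166)
(mv 1234 (cons (fin 1171 2 1167)
(mv 1298 (cons (fin 1297 0 1230)
(fin 1299 0 1231))))))))))))))
(cons (mv 1169 (cons (fin 1168 4 976)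
(mv 1170 (cons (fin 1230 2 1166)
(mv 1171 (cons (fin 1172 1 1168)
(fin 1234 2 1167)))))))
(mv 1297 (cons (fin 1168 4 1040)
(mv 1230 (cons (fin 1298 0 1230)
(mv 1165 (cons (fin 1166 3 1165)
(mv 1229 (cons (fin 1164 3 1164)
(fin 1296 0 1229))))))))))))))
(cons (mv 1295 (cons (fin 1168 5 1039)
(mv 1293 (cons (cons (mv 1100 (cons (fin 1099 1 1035)
(mv 1292 (cons (fin 1294 2 1228)
(mv 1229 (cons (fin 1230 1 1228)
(mv 1164 (cons (fin 1165 4 972)
(fin 1228 4 1036)))))))))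
(cons (mv 1100 (cons (fin 1099 1 1035)
(mv 1229 (cons (mv 1164 (cons (fin 1165 4 972)
(fin 1228 4 1036)))
(cons (mv 1296 (cons (cons (mv 1228 (cons (fin 1294 3 1228)
(fin 1230 0 1228)))
(mv 1294 (cons (fin 1228 3 1228)
(mv 1357 (cons (fin 1356 1 1292)
(mv 1297 (cons (fin 1358 1 1293)
(mv 1361 (cons (fin 1360 0 1293)
(fin 1362 0 1294))))))))))
(cons (mv 1230 (cons (fin 1297 0 1229)
(mv 1166 (cons (fin 1102 5 1037)
(mv 1357 (cons (fin 1421 6 1165)
(mv 1356 (cons (fin 1294 1 1292)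
(mv 1359 (cons (fin 1358 2 1292)
(fin 1423 7 1166)))))))))))
(mv 1230 (cons (fin 1228 0 1228)
(fin 1297 0 1229))))))
(mv 1165 (cons (fin 1164 4 972)
(mv 1357 (cons (cons (mv 1102 (cons (fin 1166 6 1101)
(mv 1356 (cons (fin 1420 5 1164)
(mv 1294 (cons (fin 1296 1 1292)
(mv 1355 (cons (fin 1354 2 1290)
(fin 1358 2 1291)))))))))
(mv 1356 (cons (fin 1420 5 1164)
(mv 1294 (cons (fin 1296 1 1292)
(mv 1355 (cons (fin 1354 2 1290)
(fin 1358 2 1291))))))))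
(cons (mv 1166 (cons (fin 1102 6 1101)
(mv 1421 (cons (fin 1230 6 1165)
(mv 1422 (cons (fin 1358 4 1165)
(fin 1486 4 1229)))))))
(mv 1166 (cons (fin 1102 6 1101)
(mv 1230 (cons (fin 1421 6 1165)
(mv 1296 (cons (fin 1297 0 1229)
(mv 1356 (cons (fin 1294 1 1292)
(fin 1420 5 1164)))))))))))))))))))
(mv 1294 (cons (fin 1292 2 1228)
(mv 1296 (cons (cons (mv 1228 (cons (fin 1229 3 1228)
(mv 1356 (cons (fin 1357 1 1292)
(mv 1361 (cons (fin 1360 0 1293)
(mv 1297 (cons (fin 1362 0 1294)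
(mv 1298 (cons (fin 1230 3 1230)
(fin 1299 3 1231)))))))))))
(mv 1356 (cons (fin 1357 1 1292)
(mv 1361 (cons (fin 1360 0 1293)
(mv 1297 (cons (fin 1362 0 1294)
(mv 1298 (cons (fin 1230 3 1230)
(fin 1299 3 1231))))))))))
(cons (mv 1228 (cons (fin 1229 3 1228)
(mv 1361 (cons (fin 1360 0 1293)
(mv 1297 (cons (fin 1362 0 1294)
(mv 1298 (cons (fin 1230 3 1230)
(fin 1299 3 1231)))))))))
(cons (mv 1228 (cons (fin 1229 3 1228)
(mv 1357 (cons (fin 1356 1 1292)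
(mv 1297 (cons (fin 1358 1 1293)
(mv 1298 (cons (fin 1230 3 1230)
(fin 1299 3 1231)))))))))
(mv 1357 (cons (fin 1356 1 1292)
(mv 1360 (cons (fin 1361 0 1293)
(mv 1424 (cons (fin 1488 7 1231)
(mv 1423 (cons (fin 1487 5 1231)
(mv 1425 (cons (fin 1489 4 1232)
(mv 1358 (cons (fin 1422 3 1357)
(fin 1359 0 1357)))))))))))))))))))))
(cons (mv 1100 (cons (fin 1099 1 1035)
(mv 1229 (cons (mv 1164 (cons (fin 1165 4 972)
(fin 1228 4 1036)))
(cons (mv 1230 (cons (fin 1292 1 1228)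
(mv 1296 (cons (fin 1228 0 1228)
(fin 1297 0 1229)))))
(mv 1165 (cons (fin 1164 4 972)
(mv 1230 (cons (fin 1292 1 1228)
(mv 1296 (cons (fin 1297 0 1229)
(mv 1357 (cons (mv 1166 (cons (fin 1102 5 1037)
(fin 1421 6 1165)))
(mv 1356 (cons (fin 1420 5 1164)
(mv 1358 (cons (fin 1359 2 1292)
(fin 1422 4 1165))))))))))))))))))
(cons (mv 1100 (cons (fin 1099 1 1035)
(mv 908 (cons (cons (mv 843 (cons (fin 907 7 843)
(mv 844 (cons (fin 779 7 779)
(mv 845 (cons (fin 781 6 780)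
(fin 909 6 844)))))))
(mv 1228 (cons (mv 843 (cons (fin 907 7 843)
(mv 779 (cons (fin 844 7 779)
(mv 1164 (cons (fin 1229 4 1036)
(mv 1227 (cons (fin 1163 5 971)
(fin 1291 5 1035)))))))))
(cons (mv 1294 (cons (fin 1292 2 1228)
(mv 1296 (cons (fin 1229 3 1228)
(mv 1357 (cons (fin 1356 1 1292)
(mv 1297 (cons (fin 1358 1 1293)
(mv 1361 (cons (fin 1360 0 1293)
(fin 1362 0 1294)))))))))))
(mv 843 (cons (fin 907 7 843)
(mv 779 (cons (fin 844 7 779)
(mv 1292 (cons (fin 1294 2 1228)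
(mv 1164 (cons (fin 1357 4 1100)
(mv 1227 (cons (fin 1163 5 971)
(fin 1291 5 1035)))))))))))))))
(cons (mv 1228 (cons (mv 845 (cons (fin 909 6 844)
(mv 781 (cons (fin 844 6 780)
(mv 1164 (cons (fin 1229 4 1036)
(mv 1227 (cons (fin 1163 5 971)
(fin 1291 5 1035)))))))))
(cons (mv 1294 (cons (fin 1292 2 1228)
(mv 1296 (cons (fin 1229 3 1228)
(mv 1357 (cons (fin 1356 1 1292)
(mv 1297 (cons (fin 1358 1 1293)
(mv 1361 (cons (fin 1360 0 1293)
(fin 1362 0 1294)))))))))))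
(mv 845 (cons (fin 909 6 844)
(mv 781 (cons (fin 844 6 780)
(mv 1292 (cons (fin 1294 2 1228)
(mv 1164 (cons (fin 1357 4 1100)
(mv 1227 (cons (fin 1163 5 971)
(fin 1291 5 1035))))))))))))))
(mv 1228 (cons (mv 843 (cons (fin 907 7 843)
(mv 845 (cons (fin 909 6 844)
(mv 1164 (cons (fin 1229 4 1036)
(mv 1227 (cons (fin 1163 5 971)
(fin 1291 5 1035)))))))))
(cons (mv 1294 (cons (fin 1292 2 1228)
(mv 1296 (cons (fin 1229 3 1228)
(mv 1357 (cons (fin 1356 1 1292)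
(mv 1297 (cons (fin 1358 1 1293)
(mv 1361 (cons (fin 1360 0 1293)
(fin 1362 0 1294)))))))))))
(mv 843 (cons (fin 907 7 843)
(mv 845 (cons (fin 909 6 844)
(mv 1292 (cons (fin 1294 2 1228)
(mv 1164 (cons (fin 1357 4 1100)
(mv 1227 (cons (fin 1163 5 971)
(fin 1291 5 1035)))))))))))))))))))
(mv 1294 (cons (fin 1292 2 1228)
(mv 1296 (cons (cons (mv 1099 (cons (fin 1100 1 1035)
(mv 1035 (cons (fin 1098 1 1034)
(mv 844 (cons (fin 908 5 843)
(mv 1357 (cons (fin 1356 1 1292)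
(mv 1297 (cons (fin 1358 1 1293)
(mv 1298 (cons (fin 1230 3 1230)
(fin 1299 3 1231)))))))))))))
(mv 1099 (cons (fin 1100 1 1035)
(mv 1035 (cons (fin 1098 1 1034)
(mv 844 (cons (fin 908 5 843)
(mv 1361 (cons (fin 1360 0 1293)
(mv 1297 (cons (fin 1362 0 1294)
(mv 1298 (cons (fin 1230 3 1230)
(fin 1299 3 1231))))))))))))))
(cons (mv 1356 (cons (fin 1357 1 1292)
(mv 1361 (cons (fin 1360 0 1293)
(mv 1297 (cons (fin 1362 0 1294)
(mv 1298 (cons (fin 1230 3 1230)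
(fin 1299 3 1231)))))))))
(mv 1357 (cons (fin 1356 1 1292)
(mv 1360 (cons (fin 1361 0 1293)
(mv 1424 (cons (fin 1488 7 1231)
(mv 1423 (cons (fin 1487 5 1231)
(mv 1425 (cons (fin 1489 4 1232)
(mv 1358 (cons (fin 1422 3 1357)
(fin 1359 0 1357))))))))))))))))))))))))
(mv 1100 (cons (fin 1099 1 1035)
(mv 1168 (cons (fin 1295 5 1039)
(mv 1169 (cons (fin 1233 4 976)
(mv 1170 (cons (fin 1171 1 1167)
(mv 1229 (cons (fin 1230 2 1165)
(mv 1164 (cons (fin 1165 4 972)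
(mv 1227 (cons (fin 1163 5 971)
(mv 1228 (cons (fin 1291 5 1035)
(fin 1293 4 1036)))))))))))))))))))))))))
(mv 973 (cons (fin 972 3 972)
(mv 1166 (cons (mv 1102 (cons (fin 1230 7 973)
(mv 909 (cons (fin 974 7 909)
(fin 845 4 845)))))
(cons (mv 912 (cons (cons (mv 847 (cons (fin 911 7 847)
(mv 848 (cons (fin 783 7 783)
(mv 849 (cons (fin 785 6 784)
(fin 913 6 848)))))))
(mv 849 (cons (fin 913 6 848)
(mv 785 (cons (fin 848 6 784)
(mv 1233 (cons (cons (mv 1168 (cons (fin 1167 5 975)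
(fin 1169 4 976)))
(mv 1232 (cons (mv 1165 (cons (fin 1230 3 1165)
(mv 1167 (cons (fin 1234 3 1166)
(fin 1164 0 1164)))))
(cons (mv 1234 (cons (fin 1167 3 1166)
(mv 1171 (cons (fin 1170 2 1167)
(mv 1235 (cons (fin 1172 2 1168)
(mv 1299 (cons (fin 1298 0 1231)
(fin 1300 0 1232)))))))))
(mv 1230 (cons (fin 1165 3 1165)
(mv 1169 (cons (fin 1170 2 1166)
(mv 1293 (cons (fin 1294 1 1229)
(mv 1229 (cons (fin 1292 1 1228)
(mv 1297 (cons (fin 1296 0 1229)
(fin 1298 0 1230)))))))))))))))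
(cons (mv 1232 (cons (cons (mv 1168 (cons (fin 1169 4 976)
(fin 1297 4 1040)))
(mv 1230 (cons (fin 1165 3 1165)
(mv 1169 (cons (fin 1170 2 1166)
(mv 1293 (cons (fin 1294 1 1229)
(mv 1229 (cons (fin 1292 1 1228)
(mv 1297 (cons (fin 1296 0 1229)
(fin 1298 0 1230))))))))))))
(cons (mv 1169 (cons (fin 1168 4 976)
(mv 1230 (cons (fin 1165 3 1165)
(fin 1170 2 1166)))))
(mv 1230 (cons (fin 1165 3 1165)
(mv 1297 (cons (fin 1298 0 1230)
(fin 1168 4 1040))))))))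
(mv 1167 (cons (fin 1168 5 975)
(mv 1232 (cons (fin 1234 3 1166)
(mv 1165 (cons (fin 1230 3 1165)
(fin 1164 0 1164)))))))))))))))
(cons (mv 847 (cons (fin 911 7 847)
(mv 783 (cons (fin 848 7 783)
(mv 1233 (cons (cons (mv 1168 (cons (fin 1167 5 975)
(fin 1169 4 976)))
(mv 1232 (cons (mv 1165 (cons (fin 1230 3 1165)
(mv 1167 (cons (fin 1234 3 1166)
(fin 1164 0 1164)))))
(cons (mv 1234 (cons (fin 1167 3 1166)
(mv 1171 (cons (fin 1170 2 1167)
(mv 1235 (cons (fin 1172 2 1168)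
(mv 1299 (cons (fin 1298 0 1231)
(fin 1300 0 1232)))))))))
(mv 1230 (cons (fin 1165 3 1165)
(mv 1169 (cons (fin 1170 2 1166)
(mv 1293 (cons (fin 1294 1 1229)
(mv 1229 (cons (fin 1292 1 1228)
(mv 1297 (cons (fin 1296 0 1229)
(fin 1298 0 1230)))))))))))))))
(cons (mv 1232 (cons (cons (mv 1168 (cons (fin 1169 4 976)
(fin 1297 4 1040)))
(mv 1230 (cons (fin 1165 3 1165)
(mv 1169 (cons (fin 1170 2 1166)
(mv 1293 (cons (fin 1294 1 1229)
(mv 1229 (cons (fin 1292 1 1228)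
(mv 1297 (cons (fin 1296 0 1229)
(fin 1298 0 1230))))))))))))
(cons (mv 1169 (cons (fin 1168 4 976)
(mv 1230 (cons (fin 1165 3 1165)
(fin 1170 2 1166)))))
(mv 1230 (cons (fin 1165 3 1165)
(mv 1297 (cons (fin 1298 0 1230)
(fin 1168 4 1040))))))))
(mv 1167 (cons (fin 1168 5 975)
(mv 1232 (cons (fin 1234 3 1166)
(mv 1165 (cons (fin 1230 3 1165)
(fin 1164 0 1164))))))))))))))
(mv 847 (cons (fin 911 7 847)
(mv 849 (cons (fin 913 6 848)
(mv 1233 (cons (cons (mv 1168 (cons (fin 1167 5 975)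
(fin 1169 4 976)))
(mv 1232 (cons (mv 1165 (cons (fin 1230 3 1165)
(mv 1167 (cons (fin 1234 3 1166)
(fin 1164 0 1164)))))
(cons (mv 1234 (cons (fin 1167 3 1166)
(mv 1171 (cons (fin 1170 2 1167)
(mv 1235 (cons (fin 1172 2 1168)
(mv 1299 (cons (fin 1298 0 1231)
(fin 1300 0 1232)))))))))
(mv 1230 (cons (fin 1165 3 1165)
(mv 1169 (cons (fin 1170 2 1166)
(mv 1293 (cons (fin 1294 1 1229)
(mv 1229 (cons (fin 1292 1 1228)
(mv 1297 (cons (fin 1296 0 1229)
(fin 1298 0 1230)))))))))))))))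
(cons (mv 1232 (cons (cons (mv 1168 (cons (fin 1169 4 976)
(fin 1297 4 1040)))
(mv 1230 (cons (fin 1165 3 1165)
(mv 1169 (cons (fin 1170 2 1166)
(mv 1293 (cons (fin 1294 1 1229)
(mv 1229 (cons (fin 1292 1 1228)
(mv 1297 (cons (fin 1296 0 1229)
(fin 1298 0 1230))))))))))))
(cons (mv 1169 (cons (fin 1168 4 976)
(mv 1230 (cons (fin 1165 3 1165)
(fin 1170 2 1166)))))
(mv 1230 (cons (fin 1165 3 1165)
(mv 1297 (cons (fin 1298 0 1230)
(fin 1168 4 1040))))))))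
(mv 1167 (cons (fin 1168 5 975)
(mv 1232 (cons (fin 1234 3 1166)
(mv 1165 (cons (fin 1230 3 1165)
(fin 1164 0 1164)))))))))))))))))
(mv 1167 (cons (fin 1168 5 975)
(mv 845 (cons (cons (mv 1102 (cons (fin 909 4 845)
(fin 974 4 974)))
(mv 909 (cons (mv 780 (cons (fin 844 7 780)
(mv 781 (cons (fin 716 7 716)
(fin 974 4 781)))))
(cons (mv 844 (cons (fin 780 7 780)
(mv 846 (cons (fin 782 6 781)
(mv 1036 (cons (fin 1100 5 844)
(mv 847 (cons (mv 908 (cons (fin 907 1 843)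
(fin 848 1 844)))
(cons (mv 783 (cons (fin 784 2 780)
(mv 912 (cons (fin 911 0 844)
(fin 848 7 783)))))
(mv 783 (cons (fin 784 2 780)
(mv 907 (cons (fin 908 1 843)
(mv 843 (cons (fin 906 1 842)
(mv 910 (cons (fin 842 0 842)
(fin 911 0 843))))))))))))))))))
(mv 781 (cons (fin 974 4 781)
(mv 782 (cons (fin 718 6 717)
(fin 846 6 781)))))))))
(cons (mv 974 (cons (fin 1102 4 974)
(mv 912 (cons (cons (mv 847 (cons (fin 911 7 847)
(mv 783 (cons (fin 848 7 783)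
(mv 846 (cons (fin 910 6 782)
(mv 784 (cons (fin 844 2 780)
(mv 785 (cons (fin 782 1 781)
(fin 786 1 782)))))))))))
(mv 913 (cons (fin 849 6 848)
(mv 910 (cons (fin 911 1 909)
(mv 846 (cons (fin 781 7 781)
(fin 782 5 781))))))))
(cons (mv 848 (cons (mv 849 (cons (fin 785 6 784)
(fin 913 6 848)))
(cons (mv 783 (cons (fin 847 7 783)
(mv 784 (cons (fin 719 7 719)
(mv 785 (cons (fin 721 6 720)
(mv 782 (cons (fin 846 1 781)
(mv 717 (cons (fin 718 3 717)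
(mv 781 (cons (fin 716 3 716)
(fin 844 1 780)))))))))))))
(mv 847 (cons (fin 783 7 783)
(mv 913 (cons (fin 846 0 845)
(fin 849 6 848))))))))
(mv 847 (cons (fin 911 7 847)
(mv 848 (cons (fin 783 7 783)
(mv 849 (cons (fin 785 6 784)
(fin 913 6 848))))))))))))
(mv 909 (cons (fin 1102 4 845)
(mv 780 (cons (fin 844 7 780)
(mv 781 (cons (fin 716 7 716)
(mv 782 (cons (fin 718 6 717)
(fin 846 6 781))))))))))))))))))))))))))))))
(cons (cons (mv 1038 (cons (fin 977 2 973)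
(mv 972 (cons (fin 973 3 972)
(mv 1036 (cons (fin 971 3 971)
(fin 975 2 972)))))))
(mv 1038 (cons (fin 977 2 973)
(mv 1104 (cons (fin 1105 0 1037)
(mv 1231 (cons (cons (mv 972 (cons (fin 973 3 972)
(mv 971 (cons (fin 1036 3 971)
(mv 1168 (cons (fin 1167 5 975)
(mv 1232 (cons (fin 1295 5 1039)
(mv 1233 (cons (fin 1169 4 976)
(fin 1297 4 1040)))))))))))
(mv 847 (cons (cons (mv 912 (cons (fin 911 7 847)
(mv 848 (cons (fin 783 7 783)
(mv 849 (cons (fin 785 6 784)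
(fin 913 6 848)))))))
(mv 1036 (cons (cons (mv 972 (cons (fin 971 3 971)
(fin 973 3 972)))
(mv 1099 (cons (fin 1100 1 1035)
(mv 1035 (cons (fin 1098 1 1034)
(mv 970 (cons (fin 971 3 970)
(mv 1034 (cons (fin 969 3 969)
(mv 842 (cons (fin 906 4 842)
(mv 974 (cons (fin 973 2 970)
(mv 1163 (cons (fin 1227 7 970)
(mv 1102 (cons (mv 910 (cons (fin 911 6 846)
(mv 845 (cons (fin 909 7 845)
(mv 846 (cons (fin 781 7 781)
(fin 783 6 782)))))))
(mv 1166 (cons (fin 1167 4 974)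
(mv 1165 (cons (fin 1229 5 973)
(mv 1230 (cons (fin 1164 0 1163)
(fin 1295 4 1038))))))))))))))))))))))))
(cons (mv 973 (cons (fin 972 3 972)
(mv 1099 (cons (fin 1100 1 1035)
(mv 1035 (cons (fin 1098 1 1034)
(mv 974 (cons (fin 1034 2 970)
(mv 1102 (cons (mv 909 (cons (fin 1166 7 909)
(fin 845 4 845)))
(cons (mv 845 (cons (fin 909 4 845)
(mv 910 (cons (fin 911 6 846)
(mv 846 (cons (fin 781 7 781)
(fin 782 5 781)))))))
(mv 1166 (cons (fin 1230 7 973)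
(fin 1167 4 974))))))))))))))
(mv 971 (cons (fin 972 3 971)
(mv 1035 (cons (fin 970 3 970)
(mv 1099 (cons (fin 1098 1 1034)
(fin 1100 1 1035)))))))))))
(cons (mv 973 (cons (fin 972 3 972)
(mv 848 (cons (cons (mv 912 (cons (fin 783 7 783)
(mv 849 (cons (fin 785 6 784)
(fin 913 6 848)))))
(mv 845 (cons (mv 909 (cons (fin 1102 4 845)
(mv 846 (cons (fin 908 1 844)
(fin 782 6 781)))))
(cons (mv 846 (cons (cons (mv 780 (cons (fin 781 3 780)
(mv 784 (cons (fin 785 2 781)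
(mv 844 (cons (fin 779 3 779)
(fin 783 2 780)))))))
(mv 784 (cons (fin 785 2 781)
(mv 844 (cons (fin 783 2 780)
(mv 779 (cons (fin 780 3 779)
(mv 843 (cons (fin 778 3 778)
(mv 907 (cons (fin 906 1 842)
(fin 908 1 843))))))))))))
(cons (mv 781 (cons (fin 780 3 780)
(mv 849 (cons (fin 782 3 781)
(mv 786 (cons (fin 785 2 782)
(mv 850 (cons (fin 787 2 783)
(mv 914 (cons (fin 913 0 846)
(fin 915 0 847)))))))))))
(cons (mv 785 (cons (fin 784 2 781)
(mv 849 (cons (fin 786 2 782)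
(mv 782 (cons (fin 781 3 781)
(mv 850 (cons (fin 783 3 782)
(mv 914 (cons (fin 913 0 846)
(fin 915 0 847)))))))))))
(mv 780 (cons (fin 781 3 780)
(mv 844 (cons (fin 779 3 779)
(mv 783 (cons (fin 784 2 780)
(mv 843 (cons (fin 782 2 779)
(mv 907 (cons (fin 906 1 842)
(fin 908 1 843)))))))))))))))
(mv 909 (cons (fin 1102 4 845)
(mv 780 (cons (fin 844 7 780)
(mv 781 (cons (fin 716 7 716)
(fin 974 4 781)))))))))))
(cons (mv 849 (cons (cons (mv 912 (cons (fin 785 6 784)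
(fin 913 6 848)))
(mv 846 (cons (cons (mv 781 (cons (fin 782 3 781)
(mv 780 (cons (fin 845 3 780)
(mv 786 (cons (fin 785 2 782)
(mv 850 (cons (fin 787 2 783)
(mv 914 (cons (fin 913 0 846)
(fin 915 0 847)))))))))))
(mv 785 (cons (fin 786 2 782)
(mv 845 (cons (fin 784 2 781)
(mv 909 (cons (fin 908 1 844)
(fin 910 1 845))))))))
(cons (mv 781 (cons (fin 782 3 781)
(mv 845 (cons (fin 780 3 780)
(mv 909 (cons (fin 908 1 844)
(fin 910 1 845)))))))
(mv 781 (cons (fin 782 3 781)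
(mv 786 (cons (fin 785 2 782)
(mv 850 (cons (fin 787 2 783)
(mv 914 (cons (fin 913 0 846)
(fin 915 0 847)))))))))))))
(cons (mv 913 (cons (fin 912 6 848)
(mv 846 (cons (fin 914 0 846)
(mv 781 (cons (fin 782 3 781)
(mv 845 (cons (fin 780 3 780)
(mv 909 (cons (fin 908 1 844)
(fin 910 1 845)))))))))))
(mv 785 (cons (fin 912 6 784)
(mv 786 (cons (fin 846 2 782)
(mv 787 (cons (fin 784 1 783)
(fin 788 1 784))))))))))
(cons (mv 783 (cons (fin 912 7 783)
(mv 845 (cons (cons (mv 909 (cons (fin 1102 4 845)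
(mv 846 (cons (fin 908 1 844)
(fin 782 6 781)))))
(mv 846 (cons (mv 784 (cons (fin 844 2 780)
(fin 785 2 781)))
(cons (mv 780 (cons (fin 781 3 780)
(mv 844 (cons (fin 779 3 779)
(mv 843 (cons (fin 782 2 779)
(mv 907 (cons (fin 906 1 842)
(fin 908 1 843)))))))))
(mv 781 (cons (fin 780 3 780)
(mv 784 (cons (fin 785 2 781)
(mv 910 (cons (fin 974 7 781)
(mv 717 (cons (fin 653 4 653)
(mv 716 (cons (fin 782 3 716)
(mv 719 (cons (fin 718 0 716)
(fin 655 5 654)))))))))))))))))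
(cons (mv 909 (cons (fin 1102 4 845)
(mv 780 (cons (fin 844 7 780)
(mv 781 (cons (fin 782 0 780)
(fin 716 7 716)))))))
(mv 909 (cons (fin 1102 4 845)
(mv 780 (cons (fin 844 7 780)
(mv 781 (cons (fin 846 3 780)
(fin 716 7 716))))))))))))
(mv 912 (cons (fin 783 7 783)
(mv 913 (cons (fin 849 6 848)
(mv 845 (cons (fin 846 0 845)
(mv 909 (cons (fin 1102 4 845)
(mv 780 (cons (fin 844 7 780)
(mv 781 (cons (fin 716 7 716)
(fin 974 4 781)))))))))))))))))))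
(mv 911 (cons (fin 912 7 847)
(mv 1036 (cons (cons (mv 972 (cons (fin 971 3 971)
(fin 973 3 972)))
(mv 1099 (cons (fin 1100 1 1035)
(mv 1035 (cons (fin 1098 1 1034)
(mv 970 (cons (fin 971 3 970)
(mv 1034 (cons (fin 969 3 969)
(mv 842 (cons (fin 906 4 842)
(mv 974 (cons (fin 973 2 970)
(mv 1102 (cons (fin 910 6 846)
(mv 1166 (cons (fin 1167 4 974)
(mv 1229 (cons (fin 1165 5 973)
(mv 1230 (cons (fin 1293 5 1037)
(fin 1295 4 1038))))))))))))))))))))))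
(cons (mv 973 (cons (fin 972 3 972)
(mv 1099 (cons (fin 1100 1 1035)
(mv 1035 (cons (fin 1098 1 1034)
(mv 974 (cons (fin 1034 2 970)
(mv 910 (cons (fin 1102 6 846)
(mv 846 (cons (fin 782 5 781)
(mv 845 (cons (fin 781 7 781)
(mv 844 (cons (fin 843 0 843)
(mv 780 (cons (fin 779 3 779)
(fin 909 7 780)))))))))))))))))))
(mv 971 (cons (fin 972 3 971)
(mv 1035 (cons (fin 970 3 970)
(mv 1099 (cons (fin 1098 1 1034)
(fin 1100 1 1035))))))))))))))))
(cons (mv 1168 (cons (fin 1167 5 975)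
(mv 1232 (cons (fin 1295 5 1039)
(mv 1233 (cons (fin 1169 4 976)
(fin 1297 4 1040)))))))
(cons (mv 972 (cons (fin 973 3 972)
(mv 1036 (cons (fin 971 3 971)
(mv 1232 (cons (cons (mv 1099 (cons (fin 1100 1 1035)
(mv 1035 (cons (fin 1098 1 1034)
(mv 844 (cons (fin 908 5 843)
(mv 1163 (cons (fin 1227 6 971)
(mv 1168 (cons (fin 1295 5 1039)
(mv 1233 (cons (fin 1169 4 976)
(fin 1297 4 1040)))))))))))))
(cons (mv 1100 (cons (fin 1099 1 1035)
(mv 1229 (cons (cons (mv 1164 (cons (fin 1165 4 972)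
(mv 1163 (cons (fin 1227 5 971)
(mv 1228 (cons (fin 1230 3 1163)
(fin 1293 4 1036)))))))
(cons (mv 1230 (cons (cons (mv 1292 (cons (fin 1293 1 1228)
(mv 1228 (cons (fin 1291 1 1227)
(mv 1296 (cons (fin 1295 0 1228)
(fin 1297 0 1229)))))))
(mv 1296 (cons (fin 1297 0 1229)
(mv 1295 (cons (fin 1228 0 1228)
(mv 1166 (cons (fin 1102 4 1038)
(mv 1233 (cons (fin 1165 3 1165)
(mv 1234 (cons (fin 1294 1 1230)
(fin 1235 1 1231))))))))))))
(cons (mv 1293 (cons (fin 1292 1 1228)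
(mv 1102 (cons (fin 1166 5 1037)
(mv 1233 (cons (fin 1294 1 1229)
(mv 1170 (cons (fin 1169 2 1166)
(mv 1234 (cons (fin 1171 2 1167)
(mv 1298 (cons (fin 1297 0 1230)
(fin 1299 0 1231)))))))))))))
(mv 1292 (cons (fin 1293 1 1228)
(mv 1228 (cons (fin 1291 1 1227)
(mv 1295 (cons (fin 1296 0 1228)
(mv 1166 (cons (fin 1102 4 1038)
(mv 1165 (cons (fin 1233 3 1165)
(mv 1227 (cons (fin 1226 2 1162)
(fin 1294 0 1227))))))))))))))))
(mv 1230 (cons (cons (mv 1292 (cons (fin 1293 1 1228)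
(mv 1228 (cons (fin 1291 1 1227)
(mv 1296 (cons (fin 1295 0 1228)
(fin 1297 0 1229)))))))
(cons (mv 1296 (cons (fin 1297 0 1229)
(mv 1228 (cons (fin 1295 0 1228)
(mv 1163 (cons (fin 1164 3 1163)
(mv 1227 (cons (fin 1162 3 1162)
(mv 1291 (cons (fin 1290 1 1226)
(fin 1292 1 1227)))))))))))
(mv 1293 (cons (fin 1292 1 1228)
(mv 1102 (cons (fin 1166 5 1037)
(mv 1164 (cons (fin 1228 4 1036)
(mv 1233 (cons (fin 1294 1 1229)
(mv 1170 (cons (fin 1169 2 1166)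
(mv 1234 (cons (fin 1171 2 1167)
(mv 1298 (cons (fin 1297 0 1230)
(fin 1299 0 1231)))))))))))))))))
(cons (mv 1296 (cons (fin 1297 0 1229)
(mv 1228 (cons (fin 1295 0 1228)
(mv 1164 (cons (fin 1163 3 1163)
(fin 1293 4 1036)))))))
(cons (mv 1292 (cons (fin 1293 1 1228)
(mv 1228 (cons (fin 1291 1 1227)
(mv 1163 (cons (fin 1164 3 1163)
(mv 1227 (cons (fin 1162 3 1162)
(mv 1295 (cons (fin 1294 0 1227)
(fin 1296 0 1228)))))))))))
(mv 1293 (cons (fin 1292 1 1228)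
(mv 1102 (cons (fin 1166 5 1037)
(mv 1233 (cons (fin 1294 1 1229)
(mv 1297 (cons (fin 1296 0 1229)
(fin 1298 0 1230)))))))))))))))
(cons (mv 1164 (cons (fin 1165 4 972)
(mv 1227 (cons (fin 1163 5 971)
(mv 1228 (cons (fin 1291 5 1035)
(fin 1293 4 1036)))))))
(cons (mv 1164 (cons (fin 1165 4 972)
(mv 1163 (cons (fin 1227 5 971)
(mv 1230 (cons (fin 1228 3 1163)
(mv 1233 (cons (cons (mv 1297 (cons (fin 1296 0 1229)
(fin 1298 0 1230)))
(mv 1170 (cons (fin 1169 2 1166)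
(mv 1234 (cons (fin 1171 2 1167)
(mv 1235 (cons (mv 1295 (cons (fin 1294 1 1230)
(fin 1296 1 1231)))
(mv 1299 (cons (fin 1298 0 1231)
(fin 1300 0 1232))))))))))
(cons (mv 1170 (cons (fin 1169 2 1166)
(mv 1234 (cons (fin 1171 2 1167)
(mv 1295 (cons (fin 1294 1 1230)
(mv 1296 (cons (fin 1235 1 1231)
(fin 1297 0 1229)))))))))
(mv 1170 (cons (fin 1169 2 1166)
(mv 1234 (cons (fin 1171 2 1167)
(mv 1298 (cons (fin 1297 0 1230)
(fin 1299 0 1231))))))))))))))))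
(mv 1165 (cons (fin 1164 4 972)
(mv 1230 (cons (cons (mv 1166 (cons (fin 1233 3 1165)
(mv 1102 (cons (fin 974 5 973)
(fin 1293 5 1037)))))
(mv 1293 (cons (fin 1292 1 1228)
(mv 1296 (cons (fin 1297 0 1229)
(mv 1357 (cons (mv 1166 (cons (fin 1102 5 1037)
(fin 1421 6 1165)))
(mv 1356 (cons (fin 1420 5 1164)
(mv 1295 (cons (fin 1294 1 1292)
(mv 1358 (cons (fin 1359 2 1292)
(fin 1422 4 1165))))))))))))))
(cons (mv 1293 (cons (fin 1292 1 1228)
(mv 1233 (cons (fin 1294 1 1229)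
(mv 1297 (cons (fin 1296 0 1229)
(fin 1298 0 1230)))))))
(mv 1166 (cons (fin 1233 3 1165)
(mv 1102 (cons (fin 974 5 973)
(fin 1295 4 1038))))))))))))))))
(mv 1168 (cons (fin 1295 5 1039)
(mv 1233 (cons (fin 1169 4 976)
(fin 1297 4 1040)))))))
(cons (mv 1100 (cons (fin 1099 1 1035)
(mv 1233 (cons (cons (mv 1168 (cons (fin 1169 4 976)
(fin 1297 4 1040)))
(mv 1230 (cons (cons (mv 1165 (cons (fin 1166 3 1165)
(mv 1164 (cons (fin 1229 3 1164)
(mv 1163 (cons (fin 1227 5 971)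
(mv 1170 (cons (fin 1169 2 1166)
(mv 1234 (cons (fin 1171 2 1167)
(mv 1298 (cons (fin 1297 0 1230)
(fin 1299 0 1231)))))))))))))
(mv 1169 (cons (fin 1170 2 1166)
(mv 1293 (cons (fin 1294 1 1229)
(mv 1229 (cons (fin 1292 1 1228)
(mv 1297 (cons (fin 1296 0 1229)
(fin 1298 0 1230))))))))))
(cons (mv 1165 (cons (fin 1166 3 1165)
(mv 1169 (cons (fin 1170 2 1166)
(mv 1229 (cons (fin 1164 3 1164)
(mv 1293 (cons (fin 1292 1 1228)
(fin 1294 1 1229)))))))))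
(cons (mv 1165 (cons (fin 1166 3 1165)
(mv 1229 (cons (fin 1164 3 1164)
(mv 1293 (cons (fin 1292 1 1228)
(fin 1294 1 1229)))))))
(mv 1165 (cons (fin 1166 3 1165)
(mv 1170 (cons (fin 1169 2 1166)
(mv 1234 (cons (fin 1171 2 1167)
(mv 1298 (cons (fin 1297 0 1230)
(fin 1299 0 1231))))))))))))))
(cons (mv 1169 (cons (fin 1168 4 976)
(mv 1170 (cons (fin 1230 2 1166)
(mv 1171 (cons (fin 1172 1 1168)
(fin 1234 2 1167)))))))
(mv 1297 (cons (fin 1168 4 1040)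
(mv 1230 (cons (fin 1298 0 1230)
(mv 1165 (cons (fin 1166 3 1165)
(mv 1229 (cons (fin 1164 3 1164)
(fin 1296 0 1229))))))))))))))
(cons (mv 1295 (cons (fin 1168 5 1039)
(mv 1293 (cons (cons (mv 1100 (cons (fin 1099 1 1035)
(mv 1292 (cons (fin 1294 2 1228)
(mv 1229 (cons (fin 1230 1 1228)
(mv 1164 (cons (fin 1165 4 972)
(fin 1228 4 1036)))))))))
(cons (mv 1100 (cons (fin 1099 1 1035)
(mv 1229 (cons (mv 1164 (cons (fin 1165 4 972)
(fin 1228 4 1036)))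
(cons (mv 1296 (cons (cons (mv 1228 (cons (fin 1294 3 1228)
(fin 1230 0 1228)))
(mv 1294 (cons (fin 1228 3 1228)
(mv 1357 (cons (fin 1356 1 1292)
(mv 1297 (cons (fin 1358 1 1293)
(mv 1361 (cons (fin 1360 0 1293)
(fin 1362 0 1294))))))))))
(cons (mv 1230 (cons (fin 1297 0 1229)
(mv 1166 (cons (fin 1102 5 1037)
(mv 1357 (cons (fin 1421 6 1165)
(mv 1356 (cons (fin 1294 1 1292)
(mv 1359 (cons (fin 1358 2 1292)
(fin 1423 7 1166)))))))))))
(mv 1230 (cons (fin 1228 0 1228)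
(fin 1297 0 1229))))))
(mv 1165 (cons (fin 1164 4 972)
(mv 1357 (cons (cons (mv 1102 (cons (fin 1166 6 1101)
(mv 1356 (cons (fin 1420 5 1164)
(mv 1294 (cons (fin 1296 1 1292)
(mv 1355 (cons (fin 1354 2 1290)
(fin 1358 2 1291)))))))))
(mv 1356 (cons (fin 1420 5 1164)
(mv 1294 (cons (fin 1296 1 1292)
(mv 1355 (cons (fin 1354 2 1290)
(fin 1358 2 1291))))))))
(cons (mv 1166 (cons (fin 1102 6 1101)
(mv 1421 (cons (fin 1230 6 1165)
(mv 1422 (cons (fin 1358 4 1165)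
(fin 1486 4 1229)))))))
(mv 1166 (cons (fin 1102 6 1101)
(mv 1230 (cons (fin 1421 6 1165)
(mv 1296 (cons (fin 1297 0 1229)
(mv 1356 (cons (fin 1294 1 1292)
(fin 1420 5 1164)))))))))))))))))))
(mv 1294 (cons (fin 1292 2 1228)
(mv 1296 (cons (cons (mv 1228 (cons (fin 1229 3 1228)
(mv 1356 (cons (fin 1357 1 1292)
(mv 1361 (cons (fin 1360 0 1293)
(mv 1297 (cons (fin 1362 0 1294)
(mv 1298 (cons (fin 1230 3 1230)
(fin 1299 3 1231)))))))))))
(mv 1356 (cons (fin 1357 1 1292)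
(mv 1361 (cons (fin 1360 0 1293)
(mv 1297 (cons (fin 1362 0 1294)
(mv 1298 (cons (fin 1230 3 1230)
(fin 1299 3 1231))))))))))
(cons (mv 1228 (cons (fin 1229 3 1228)
(mv 1361 (cons (fin 1360 0 1293)
(mv 1297 (cons (fin 1362 0 1294)
(mv 1298 (cons (fin 1230 3 1230)
(fin 1299 3 1231)))))))))
(cons (mv 1228 (cons (fin 1229 3 1228)
(mv 1357 (cons (fin 1356 1 1292)
(mv 1297 (cons (fin 1358 1 1293)
(mv 1298 (cons (fin 1230 3 1230)
(fin 1299 3 1231)))))))))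
(mv 1357 (cons (fin 1356 1 1292)
(mv 1360 (cons (fin 1361 0 1293)
(mv 1424 (cons (fin 1488 7 1231)
(mv 1423 (cons (fin 1487 5 1231)
(mv 1425 (cons (fin 1489 4 1232)
(mv 1358 (cons (fin 1422 3 1357)
(fin 1359 0 1357)))))))))))))))))))))
(cons (mv 1100 (cons (fin 1099 1 1035)
(mv 1229 (cons (mv 1164 (cons (fin 1165 4 972)
(fin 1228 4 1036)))
(cons (mv 1230 (cons (fin 1292 1 1228)
(mv 1296 (cons (fin 1228 0 1228)
(fin 1297 0 1229)))))
(mv 1165 (cons (fin 1164 4 972)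
(mv 1230 (cons (fin 1292 1 1228)
(mv 1296 (cons (fin 1297 0 1229)
(mv 1357 (cons (mv 1166 (cons (fin 1102 5 1037)
(fin 1421 6 1165)))
(mv 1356 (cons (fin 1420 5 1164)
(mv 1358 (cons (fin 1359 2 1292)
(fin 1422 4 1165))))))))))))))))))
(cons (mv 1100 (cons (fin 1099 1 1035)
(mv 908 (cons (cons (mv 843 (cons (fin 907 7 843)
(mv 844 (cons (fin 779 7 779)
(mv 845 (cons (fin 781 6 780)
(fin 909 6 844)))))))
(mv 1228 (cons (mv 843 (cons (fin 907 7 843)
(mv 779 (cons (fin 844 7 779)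
(mv 1164 (cons (fin 1229 4 1036)
(mv 1227 (cons (fin 1163 5 971)
(fin 1291 5 1035)))))))))
(cons (mv 1294 (cons (fin 1292 2 1228)
(mv 1296 (cons (fin 1229 3 1228)
(mv 1357 (cons (fin 1356 1 1292)
(mv 1297 (cons (fin 1358 1 1293)
(mv 1361 (cons (fin 1360 0 1293)
(fin 1362 0 1294)))))))))))
(mv 843 (cons (fin 907 7 843)
(mv 779 (cons (fin 844 7 779)
(mv 1292 (cons (fin 1294 2 1228)
(mv 1164 (cons (fin 1357 4 1100)
(mv 1227 (cons (fin 1163 5 971)
(fin 1291 5 1035)))))))))))))))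
(cons (mv 1228 (cons (mv 845 (cons (fin 909 6 844)
(mv 781 (cons (fin 844 6 780)
(mv 1164 (cons (fin 1229 4 1036)
(mv 1227 (cons (fin 1163 5 971)
(fin 1291 5 1035)))))))))
(cons (mv 1294 (cons (fin 1292 2 1228)
(mv 1296 (cons (fin 1229 3 1228)
(mv 1357 (cons (fin 1356 1 1292)
(mv 1297 (cons (fin 1358 1 1293)
(mv 1361 (cons (fin 1360 0 1293)
(fin 1362 0 1294)))))))))))
(mv 845 (cons (fin 909 6 844)
(mv 781 (cons (fin 844 6 780)
(mv 1292 (cons (fin 1294 2 1228)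
(mv 1164 (cons (fin 1357 4 1100)
(mv 1227 (cons (fin 1163 5 971)
(fin 1291 5 1035))))))))))))))
(mv 1228 (cons (mv 843 (cons (fin 907 7 843)
(mv 845 (cons (fin 909 6 844)
(mv 1164 (cons (fin 1229 4 1036)
(mv 1227 (cons (fin 1163 5 971)
(fin 1291 5 1035)))))))))
(cons (mv 1294 (cons (fin 1292 2 1228)
(mv 1296 (cons (fin 1229 3 1228)
(mv 1357 (cons (fin 1356 1 1292)
(mv 1297 (cons (fin 1358 1 1293)
(mv 1361 (cons (fin 1360 0 1293)
(fin 1362 0 1294)))))))))))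
(mv 843 (cons (fin 907 7 843)
(mv 845 (cons (fin 909 6 844)
(mv 1292 (cons (fin 1294 2 1228)
(mv 1164 (cons (fin 1357 4 1100)
(mv 1227 (cons (fin 1163 5 971)
(fin 1291 5 1035)))))))))))))))))))
(mv 1294 (cons (fin 1292 2 1228)
(mv 1296 (cons (cons (mv 1099 (cons (fin 1100 1 1035)
(mv 1035 (cons (fin 1098 1 1034)
(mv 844 (cons (fin 908 5 843)
(mv 1357 (cons (fin 1356 1 1292)
(mv 1297 (cons (fin 1358 1 1293)
(mv 1298 (cons (fin 1230 3 1230)
(fin 1299 3 1231)))))))))))))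
(mv 1099 (cons (fin 1100 1 1035)
(mv 1035 (cons (fin 1098 1 1034)
(mv 844 (cons (fin 908 5 843)
(mv 1361 (cons (fin 1360 0 1293)
(mv 1297 (cons (fin 1362 0 1294)
(mv 1298 (cons (fin 1230 3 1230)
(fin 1299 3 1231))))))))))))))
(cons (mv 1356 (cons (fin 1357 1 1292)
(mv 1361 (cons (fin 1360 0 1293)
(mv 1297 (cons (fin 1362 0 1294)
(mv 1298 (cons (fin 1230 3 1230)
(fin 1299 3 1231)))))))))
(mv 1357 (cons (fin 1356 1 1292)
(mv 1360 (cons (fin 1361 0 1293)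
(mv 1424 (cons (fin 1488 7 1231)
(mv 1423 (cons (fin 1487 5 1231)
(mv 1425 (cons (fin 1489 4 1232)
(mv 1358 (cons (fin 1422 3 1357)
(fin 1359 0 1357))))))))))))))))))))))))
(mv 1100 (cons (fin 1099 1 1035)
(mv 1168 (cons (fin 1295 5 1039)
(mv 1169 (cons (fin 1233 4 976)
(mv 1170 (cons (fin 1171 1 1167)
(mv 1229 (cons (fin 1230 2 1165)
(mv 1164 (cons (fin 1165 4 972)
(mv 1227 (cons (fin 1163 5 971)
(mv 1228 (cons (fin 1291 5 1035)
(fin 1293 4 1036)))))))))))))))))))))))))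
(mv 973 (cons (fin 972 3 972)
(mv 1166 (cons (mv 1102 (cons (fin 1230 7 973)
(mv 909 (cons (fin 974 7 909)
(fin 845 4 845)))))
(cons (mv 912 (cons (cons (mv 847 (cons (fin 911 7 847)
(mv 848 (cons (fin 783 7 783)
(mv 849 (cons (fin 785 6 784)
(fin 913 6 848)))))))
(mv 849 (cons (fin 913 6 848)
(mv 785 (cons (fin 848 6 784)
(mv 1233 (cons (cons (mv 1168 (cons (fin 1167 5 975)
(fin 1169 4 976)))
(mv 1232 (cons (mv 1165 (cons (fin 1230 3 1165)
(mv 1167 (cons (fin 1234 3 1166)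
(fin 1164 0 1164)))))
(cons (mv 1234 (cons (fin 1167 3 1166)
(mv 1171 (cons (fin 1170 2 1167)
(mv 1235 (cons (fin 1172 2 1168)
(mv 1299 (cons (fin 1298 0 1231)
(fin 1300 0 1232)))))))))
(mv 1230 (cons (fin 1165 3 1165)
(mv 1169 (cons (fin 1170 2 1166)
(mv 1293 (cons (fin 1294 1 1229)
(mv 1229 (cons (fin 1292 1 1228)
(mv 1297 (cons (fin 1296 0 1229)
(fin 1298 0 1230)))))))))))))))
(cons (mv 1232 (cons (cons (mv 1168 (cons (fin 1169 4 976)
(fin 1297 4 1040)))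
(mv 1230 (cons (fin 1165 3 1165)
(mv 1169 (cons (fin 1170 2 1166)
(mv 1293 (cons (fin 1294 1 1229)
(mv 1229 (cons (fin 1292 1 1228)
(mv 1297 (cons (fin 1296 0 1229)
(fin 1298 0 1230))))))))))))
(cons (mv 1169 (cons (fin 1168 4 976)
(mv 1230 (cons (fin 1165 3 1165)
(fin 1170 2 1166)))))
(mv 1230 (cons (fin 1165 3 1165)
(mv 1297 (cons (fin 1298 0 1230)
(fin 1168 4 1040))))))))
(mv 1167 (cons (fin 1168 5 975)
(mv 1232 (cons (fin 1234 3 1166)
(mv 1165 (cons (fin 1230 3 1165)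
(fin 1164 0 1164)))))))))))))))
(cons (mv 847 (cons (fin 911 7 847)
(mv 783 (cons (fin 848 7 783)
(mv 1233 (cons (cons (mv 1168 (cons (fin 1167 5 975)
(fin 1169 4 976)))
(mv 1232 (cons (mv 1165 (cons (fin 1230 3 1165)
(mv 1167 (cons (fin 1234 3 1166)
(fin 1164 0 1164)))))
(cons (mv 1234 (cons (fin 1167 3 1166)
(mv 1171 (cons (fin 1170 2 1167)
(mv 1235 (cons (fin 1172 2 1168)
(mv 1299 (cons (fin 1298 0 1231)
(fin 1300 0 1232)))))))))
(mv 1230 (cons (fin 1165 3 1165)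
(mv 1169 (cons (fin 1170 2 1166)
(mv 1293 (cons (fin 1294 1 1229)
(mv 1229 (cons (fin 1292 1 1228)
(mv 1297 (cons (fin 1296 0 1229)
(fin 1298 0 1230)))))))))))))))
(cons (mv 1232 (cons (cons (mv 1168 (cons (fin 1169 4 976)
(fin 1297 4 1040)))
(mv 1230 (cons (fin 1165 3 1165)
(mv 1169 (cons (fin 1170 2 1166)
(mv 1293 (cons (fin 1294 1 1229)
(mv 1229 (cons (fin 1292 1 1228)
(mv 1297 (cons (fin 1296 0 1229)
(fin 1298 0 1230))))))))))))
(cons (mv 1169 (cons (fin 1168 4 976)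
(mv 1230 (cons (fin 1165 3 1165)
(fin 1170 2 1166)))))
(mv 1230 (cons (fin 1165 3 1165)
(mv 1297 (cons (fin 1298 0 1230)
(fin 1168 4 1040))))))))
(mv 1167 (cons (fin 1168 5 975)
(mv 1232 (cons (fin 1234 3 1166)
(mv 1165 (cons (fin 1230 3 1165)
(fin 1164 0 1164))))))))))))))
(mv 847 (cons (fin 911 7 847)
(mv 849 (cons (fin 913 6 848)
(mv 1233 (cons (cons (mv 1168 (cons (fin 1167 5 975)
(fin 1169 4 976)))
(mv 1232 (cons (mv 1165 (cons (fin 1230 3 1165)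
(mv 1167 (cons (fin 1234 3 1166)
(fin 1164 0 1164)))))
(cons (mv 1234 (cons (fin 1167 3 1166)
(mv 1171 (cons (fin 1170 2 1167)
(mv 1235 (cons (fin 1172 2 1168)
(mv 1299 (cons (fin 1298 0 1231)
(fin 1300 0 1232)))))))))
(mv 1230 (cons (fin 1165 3 1165)
(mv 1169 (cons (fin 1170 2 1166)
(mv 1293 (cons (fin 1294 1 1229)
(mv 1229 (cons (fin 1292 1 1228)
(mv 1297 (cons (fin 1296 0 1229)
(fin 1298 0 1230)))))))))))))))
(cons (mv 1232 (cons (cons (mv 1168 (cons (fin 1169 4 976)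
(fin 1297 4 1040)))
(mv 1230 (cons (fin 1165 3 1165)
(mv 1169 (cons (fin 1170 2 1166)
(mv 1293 (cons (fin 1294 1 1229)
(mv 1229 (cons (fin 1292 1 1228)
(mv 1297 (cons (fin 1296 0 1229)
(fin 1298 0 1230))))))))))))
(cons (mv 1169 (cons (fin 1168 4 976)
(mv 1230 (cons (fin 1165 3 1165)
(fin 1170 2 1166)))))
(mv 1230 (cons (fin 1165 3 1165)
(mv 1297 (cons (fin 1298 0 1230)
(fin 1168 4 1040))))))))
(mv 1167 (cons (fin 1168 5 975)
(mv 1232 (cons (fin 1234 3 1166)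
(mv 1165 (cons (fin 1230 3 1165)
(fin 1164 0 1164)))))))))))))))))
(mv 1167 (cons (fin 1168 5 975)
(mv 845 (cons (cons (mv 1102 (cons (fin 909 4 845)
(fin 974 4 974)))
(mv 909 (cons (mv 780 (cons (fin 844 7 780)
(mv 781 (cons (fin 716 7 716)
(fin 974 4 781)))))
(cons (mv 844 (cons (fin 780 7 780)
(mv 846 (cons (fin 782 6 781)
(mv 1036 (cons (fin 1100 5 844)
(mv 847 (cons (mv 908 (cons (fin 907 1 843)
(fin 848 1 844)))
(cons (mv 783 (cons (fin 784 2 780)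
(mv 912 (cons (fin 911 0 844)
(fin 848 7 783)))))
(mv 783 (cons (fin 784 2 780)
(mv 907 (cons (fin 908 1 843)
(mv 843 (cons (fin 906 1 842)
(mv 910 (cons (fin 842 0 842)
(fin 911 0 843))))))))))))))))))
(mv 781 (cons (fin 974 4 781)
(mv 782 (cons (fin 718 6 717)
(fin 846 6 781)))))))))
(cons (mv 974 (cons (fin 1102 4 974)
(mv 912 (cons (cons (mv 847 (cons (fin 911 7 847)
(mv 783 (cons (fin 848 7 783)
(mv 846 (cons (fin 910 6 782)
(mv 784 (cons (fin 844 2 780)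
(mv 785 (cons (fin 782 1 781)
(fin 786 1 782)))))))))))
(mv 913 (cons (fin 849 6 848)
(mv 910 (cons (fin 911 1 909)
(mv 846 (cons (fin 781 7 781)
(fin 782 5 781))))))))
(cons (mv 848 (cons (mv 849 (cons (fin 785 6 784)
(fin 913 6 848)))
(cons (mv 783 (cons (fin 847 7 783)
(mv 784 (cons (fin 719 7 719)
(mv 785 (cons (fin 721 6 720)
(mv 782 (cons (fin 846 1 781)
(mv 717 (cons (fin 718 3 717)
(mv 781 (cons (fin 716 3 716)
(fin 844 1 780)))))))))))))
(mv 847 (cons (fin 783 7 783)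
(mv 913 (cons (fin 846 0 845)
(fin 849 6 848))))))))
(mv 847 (cons (fin 911 7 847)
(mv 848 (cons (fin 783 7 783)
(mv 849 (cons (fin 785 6 784)
(fin 913 6 848))))))))))))
(mv 909 (cons (fin 1102 4 845)
(mv 780 (cons (fin 844 7 780)
(mv 781 (cons (fin 716 7 716)
(mv 782 (cons (fin 718 6 717)
(fin 846 6 781))))))))))))))))))))))))))))
(cons (mv 1038 (cons (fin 977 2 973)
(mv 972 (cons (fin 973 3 972)
(mv 1104 (cons (fin 1105 0 1037)
(mv 1168 (cons (mv 975 (cons (fin 911 7 911)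
(fin 1232 7 975)))
(cons (mv 1231 (cons (fin 1167 5 975)
(mv 1232 (cons (fin 1295 5 1039)
(mv 1233 (cons (fin 1169 4 976)
(fin 1297 4 1040)))))))
(mv 1167 (cons (fin 1231 5 975)
(mv 1169 (cons (fin 1233 4 976)
(mv 912 (cons (cons (mv 911 (cons (fin 847 7 847)
(fin 975 7 911)))
(mv 849 (cons (fin 913 6 848)
(mv 848 (cons (fin 785 6 784)
(mv 783 (cons (fin 847 7 783)
(mv 784 (cons (fin 719 7 719)
(fin 975 5 783))))))))))
(cons (mv 847 (cons (fin 911 7 847)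
(mv 848 (cons (fin 783 7 783)
(mv 849 (cons (fin 785 6 784)
(fin 913 6 848)))))))
(mv 849 (cons (fin 913 6 848)
(mv 848 (cons (fin 785 6 784)
(mv 975 (cons (fin 911 7 911)
(fin 784 5 783)))))))))))))))))))))))
(mv 1038 (cons (fin 977 2 973)
(mv 975 (cons (fin 1036 2 972)
(mv 1104 (cons (fin 1105 0 1037)
(mv 911 (cons (fin 1168 7 911)
(fin 847 4 847)))))))))))))
(mv 1039 (cons (cons (mv 1038 (cons (fin 977 2 973)
(mv 972 (cons (fin 973 3 972)
(mv 1036 (cons (fin 971 3 971)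
(fin 975 2 972)))))))
(cons (mv 1103 (cons (cons (mv 912 (cons (fin 848 5 847)
(mv 1167 (cons (fin 1104 5 911)
(fin 975 6 911)))))
(mv 912 (cons (fin 848 5 847)
(mv 1104 (cons (cons (mv 849 (cons (fin 913 6 848)
(mv 1169 (cons (fin 1105 4 912)
(mv 1168 (cons (fin 1233 4 976)
(mv 975 (cons (fin 911 7 911)
(fin 1232 7 975)))))))))
(mv 913 (cons (fin 849 6 848)
(mv 1168 (cons (fin 977 6 912)
(mv 975 (cons (fin 911 7 911)
(fin 1232 7 975))))))))
(cons (mv 1169 (cons (fin 1105 4 912)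
(mv 1168 (cons (fin 1233 4 976)
(mv 975 (cons (fin 911 7 911)
(fin 1232 7 975)))))))
(cons (mv 913 (cons (fin 849 6 848)
(mv 1105 (cons (fin 1169 4 912)
(mv 1106 (cons (fin 1107 3 1039)
(mv 1042 (cons (fin 1043 2 1039)
(mv 1170 (cons (fin 1171 0 1103)
(mv 978 (cons (fin 977 7 913)
(mv 915 (cons (fin 979 6 914)
(mv 914 (cons (fin 975 1 911)
(fin 851 6 850)))))))))))))))))
(mv 913 (cons (fin 849 6 848)
(mv 977 (cons (fin 1168 6 912)
(mv 978 (cons (fin 979 1 975)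
(mv 910 (cons (fin 911 0 910)
(mv 1105 (cons (fin 1169 4 912)
(mv 1106 (cons (fin 1107 3 1039)
(mv 1042 (cons (fin 1043 2 1039)
(fin 1170 7 913))))))))))))))))))))))
(cons (mv 1167 (cons (fin 1231 6 975)
(mv 975 (cons (cons (mv 910 (cons (fin 974 7 910)
(mv 911 (cons (fin 846 7 846)
(mv 1166 (cons (fin 1102 5 910)
(fin 1230 5 974)))))))
(mv 1166 (cons (fin 1230 5 974)
(mv 911 (cons (fin 1102 5 910)
(mv 1168 (cons (fin 1104 7 911)
(fin 1232 4 975))))))))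
(cons (mv 910 (cons (fin 974 7 910)
(mv 911 (cons (fin 846 7 846)
(mv 1168 (cons (fin 1104 7 911)
(fin 1232 4 975)))))))
(mv 974 (cons (fin 910 7 910)
(mv 973 (cons (fin 1036 1 972)
(fin 972 0 972))))))))))
(cons (mv 912 (cons (fin 848 5 847)
(mv 1167 (cons (fin 1104 5 911)
(fin 1231 6 975)))))
(mv 912 (cons (fin 848 5 847)
(mv 1167 (cons (fin 975 6 911)
(fin 1231 6 975)))))))))
(mv 1038 (cons (cons (mv 972 (cons (fin 973 3 972)
(mv 1036 (cons (fin 971 3 971)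
(fin 975 2 972)))))
(mv 972 (cons (fin 973 3 972)
(mv 1104 (cons (fin 1105 0 1037)
(mv 1168 (cons (mv 975 (cons (fin 911 7 911)
(fin 1232 7 975)))
(mv 1167 (cons (fin 1231 5 975)
(mv 1103 (cons (fin 912 5 911)
(mv 1169 (cons (fin 1233 4 976)
(mv 1170 (cons (fin 1102 3 1102)
(fin 1171 3 1103))))))))))))))))
(cons (mv 975 (cons (fin 1036 2 972)
(mv 1104 (cons (fin 1105 0 1037)
(mv 1168 (cons (fin 911 7 911)
(fin 1232 7 975)))))))
(mv 972 (cons (fin 973 3 972)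
(mv 1036 (cons (fin 971 3 971)
(mv 1104 (cons (fin 1103 0 1036)
(fin 1105 0 1037))))))))))))
(cons (mv 1038 (cons (fin 977 2 973)
(mv 972 (cons (fin 973 3 972)
(mv 1036 (cons (fin 971 3 971)
(mv 1104 (cons (fin 1103 0 1036)
(fin 1105 0 1037)))))))))
(cons (mv 1038 (cons (fin 977 2 973)
(mv 972 (cons (fin 973 3 972)
(mv 1104 (cons (fin 1105 0 1037)
(mv 1168 (cons (mv 975 (cons (fin 911 7 911)
(fin 1232 7 975)))
(mv 1167 (cons (fin 1231 5 975)
(mv 1103 (cons (fin 912 5 911)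
(mv 1169 (cons (fin 1233 4 976)
(mv 1170 (cons (fin 1102 3 1102)
(fin 1171 3 1103)))))))))))))))))
(mv 1038 (cons (fin 977 2 973)
(mv 975 (cons (fin 1036 2 972)
(mv 1104 (cons (fin 1105 0 1037)
(mv 1168 (cons (fin 911 7 911)
(fin 1232 7 975)))))))))))))))
(cons (cons (mv 1039 (cons (cons (mv 1038 (cons (fin 977 2 973)
(mv 972 (cons (fin 973 3 972)
(mv 1036 (cons (fin 971 3 971)
(fin 975 2 972)))))))
(mv 912 (cons (cons (mv 848 (cons (fin 1103 5 847)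
(mv 783 (cons (fin 847 7 783)
(mv 784 (cons (fin 719 7 719)
(fin 975 5 783)))))))
(mv 1104 (cons (cons (mv 847 (cons (fin 911 7 847)
(mv 849 (cons (fin 913 6 848)
(mv 1169 (cons (fin 1105 4 912)
(mv 1168 (cons (fin 1233 4 976)
(mv 1232 (cons (fin 975 7 975)
(mv 1295 (cons (fin 1231 5 1039)
(mv 1296 (cons (fin 1103 7 1039)
(fin 1359 5 1103)))))))))))))))
(cons (mv 849 (cons (fin 913 6 848)
(mv 1169 (cons (fin 1105 4 912)
(mv 1168 (cons (fin 1233 4 976)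
(mv 1232 (cons (fin 975 7 975)
(mv 1295 (cons (fin 1231 5 1039)
(mv 1296 (cons (fin 1103 7 1039)
(fin 1359 5 1103)))))))))))))
(mv 847 (cons (fin 911 7 847)
(mv 1169 (cons (fin 1105 4 912)
(mv 1168 (cons (fin 1233 4 976)
(mv 1232 (cons (fin 975 7 975)
(mv 1295 (cons (fin 1231 5 1039)
(mv 1296 (cons (fin 1103 7 1039)
(fin 1359 5 1103)))))))))))))))
(cons (cons (mv 847 (cons (fin 911 7 847)
(mv 913 (cons (fin 849 6 848)
(mv 1168 (cons (fin 977 6 912)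
(mv 1169 (cons (fin 1233 4 976)
(mv 1232 (cons (fin 975 7 975)
(mv 1295 (cons (fin 1231 5 1039)
(mv 1296 (cons (fin 1103 7 1039)
(fin 1359 5 1103)))))))))))))))
(mv 847 (cons (fin 911 7 847)
(mv 913 (cons (fin 849 6 848)
(mv 1168 (cons (fin 977 6 912)
(mv 1232 (cons (fin 975 7 975)
(mv 1231 (cons (fin 1295 5 1039)
(mv 1296 (cons (fin 1103 7 1039)
(mv 1297 (cons (fin 1233 4 1040)
(fin 1361 4 1104))))))))))))))))
(cons (mv 911 (cons (fin 847 7 847)
(mv 913 (cons (fin 849 6 848)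
(mv 1105 (cons (fin 1169 4 912)
(mv 1106 (cons (fin 1107 3 1039)
(mv 910 (cons (cons (mv 977 (cons (fin 909 0 909)
(fin 978 0 910)))
(mv 845 (cons (fin 846 3 845)
(mv 844 (cons (fin 909 3 844)
(mv 974 (cons (fin 973 1 909)
(mv 914 (cons (fin 975 1 910)
(mv 851 (cons (fin 850 2 847)
(mv 915 (cons (fin 852 2 848)
(mv 978 (cons (fin 979 0 911)
(fin 1042 6 850))))))))))))))))
(cons (mv 845 (cons (fin 846 3 845)
(mv 909 (cons (fin 844 3 844)
(fin 977 0 909)))))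
(mv 845 (cons (fin 846 3 845)
(mv 973 (cons (fin 974 1 909)
(mv 978 (cons (fin 977 0 910)
(mv 914 (cons (fin 979 0 911)
(mv 851 (cons (fin 850 2 847)
(mv 915 (cons (fin 975 1 911)
(fin 852 2 848))))))))))))))))))))))))
(mv 847 (cons (fin 911 7 847)
(mv 913 (cons (fin 849 6 848)
(mv 1168 (cons (fin 977 6 912)
(mv 1169 (cons (fin 1105 4 912)
(fin 1233 4 976))))))))))))))
(cons (mv 1104 (cons (cons (mv 847 (cons (fin 911 7 847)
(mv 783 (cons (fin 848 7 783)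
(mv 913 (cons (fin 849 6 848)
(mv 977 (cons (fin 1168 6 912)
(mv 978 (cons (fin 979 1 975)
(mv 1105 (cons (fin 1169 4 912)
(mv 1106 (cons (fin 1107 3 1039)
(mv 1042 (cons (fin 1170 7 913)
(mv 975 (cons (fin 1043 0 975)
(mv 914 (cons (fin 915 1 911)
(fin 974 2 910)))))))))))))))))))))
(cons (mv 849 (cons (fin 913 6 848)
(mv 848 (cons (fin 785 6 784)
(mv 783 (cons (fin 847 7 783)
(mv 784 (cons (fin 719 7 719)
(fin 975 5 783)))))))))
(mv 849 (cons (fin 913 6 848)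
(mv 785 (cons (fin 848 6 784)
(mv 1169 (cons (fin 1105 4 912)
(mv 1168 (cons (fin 1233 4 976)
(mv 975 (cons (fin 911 7 911)
(fin 1232 7 975)))))))))))))
(cons (cons (mv 847 (cons (fin 911 7 847)
(mv 848 (cons (fin 783 7 783)
(mv 784 (cons (fin 975 5 783)
(mv 785 (cons (fin 721 6 720)
(fin 849 6 784)))))))))
(mv 847 (cons (fin 911 7 847)
(mv 848 (cons (fin 783 7 783)
(mv 975 (cons (fin 784 5 783)
(mv 1168 (cons (fin 1232 7 975)
(mv 1169 (cons (fin 1105 4 912)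
(fin 1233 4 976))))))))))))
(cons (mv 847 (cons (fin 911 7 847)
(mv 783 (cons (fin 848 7 783)
(mv 913 (cons (fin 849 6 848)
(mv 1168 (cons (fin 977 6 912)
(mv 1169 (cons (fin 1105 4 912)
(fin 1233 4 976)))))))))))
(mv 847 (cons (fin 911 7 847)
(mv 913 (cons (fin 849 6 848)
(mv 977 (cons (fin 1168 6 912)
(mv 978 (cons (fin 979 1 975)
(mv 1105 (cons (fin 1169 4 912)
(mv 1106 (cons (fin 1107 3 1039)
(mv 1042 (cons (fin 1170 7 913)
(mv 975 (cons (fin 1043 0 975)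
(mv 914 (cons (fin 915 1 911)
(fin 974 2 910)))))))))))))))))))))))
(cons (mv 848 (cons (fin 1103 5 847)
(mv 784 (cons (fin 975 5 783)
(mv 785 (cons (fin 721 6 720)
(fin 849 6 784)))))))
(mv 848 (cons (fin 1103 5 847)
(mv 783 (cons (fin 847 7 783)
(mv 784 (cons (fin 719 7 719)
(mv 785 (cons (fin 721 6 720)
(fin 849 6 784))))))))))))))
(cons (mv 1038 (cons (cons (mv 972 (cons (fin 973 3 972)
(mv 1036 (cons (fin 971 3 971)
(fin 975 2 972)))))
(mv 972 (cons (fin 973 3 972)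
(mv 1104 (cons (fin 1105 0 1037)
(mv 1168 (cons (mv 975 (cons (fin 911 7 911)
(fin 1232 7 975)))
(cons (mv 1233 (cons (fin 1169 4 976)
(mv 1232 (cons (fin 1297 4 1040)
(mv 1295 (cons (fin 1231 5 1039)
(mv 1296 (cons (fin 1103 7 1039)
(fin 1359 5 1103)))))))))
(mv 911 (cons (fin 975 7 911)
(mv 912 (cons (fin 847 7 847)
(mv 848 (cons (fin 1103 5 847)
(mv 849 (cons (fin 785 6 784)
(fin 913 6 848)))))))))))))))))
(cons (mv 975 (cons (fin 1036 2 972)
(mv 1104 (cons (fin 1105 0 1037)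
(mv 911 (cons (fin 1168 7 911)
(fin 847 4 847)))))))
(mv 972 (cons (fin 973 3 972)
(mv 1036 (cons (fin 971 3 971)
(mv 1104 (cons (fin 1103 0 1036)
(fin 1105 0 1037))))))))))
(cons (mv 1038 (cons (fin 977 2 973)
(mv 972 (cons (fin 973 3 972)
(mv 1036 (cons (fin 971 3 971)
(mv 1104 (cons (fin 1103 0 1036)
(fin 1105 0 1037)))))))))
(mv 1038 (cons (fin 977 2 973)
(mv 975 (cons (fin 1036 2 972)
(mv 1104 (cons (fin 1105 0 1037)
(mv 911 (cons (fin 1168 7 911)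
(fin 847 4 847)))))))))))))
(mv 1039 (cons (cons (mv 1038 (cons (fin 977 2 973)
(mv 972 (cons (fin 973 3 972)
(mv 1036 (cons (fin 971 3 971)
(fin 975 2 972)))))))
(cons (mv 1103 (cons (cons (mv 912 (cons (fin 848 5 847)
(mv 1167 (cons (fin 1104 5 911)
(fin 975 6 911)))))
(mv 912 (cons (fin 848 5 847)
(mv 1104 (cons (cons (mv 847 (cons (fin 911 7 847)
(mv 913 (cons (fin 849 6 848)
(mv 1168 (cons (fin 977 6 912)
(mv 1232 (cons (fin 975 7 975)
(fin 1296 7 1039)))))))))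
(cons (mv 913 (cons (fin 849 6 848)
(mv 1168 (cons (fin 977 6 912)
(mv 1232 (cons (fin 975 7 975)
(fin 1296 7 1039)))))))
(mv 911 (cons (fin 847 7 847)
(mv 975 (cons (fin 1168 7 911)
(mv 910 (cons (fin 846 7 846)
(mv 909 (cons (fin 908 0 908)
(fin 977 0 909)))))))))))
(cons (mv 911 (cons (fin 847 7 847)
(mv 913 (cons (fin 849 6 848)
(mv 975 (cons (mv 914 (cons (fin 974 1 910)
(fin 915 1 911)))
(mv 910 (cons (fin 846 7 846)
(mv 909 (cons (fin 908 0 908)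
(fin 977 0 909)))))))))))
(cons (mv 847 (cons (fin 911 7 847)
(mv 913 (cons (fin 849 6 848)
(mv 1168 (cons (fin 977 6 912)
(mv 1232 (cons (fin 1296 7 1039)
(mv 1233 (cons (fin 1169 4 976)
(fin 1297 4 1040)))))))))))
(mv 849 (cons (fin 913 6 848)
(mv 911 (cons (fin 847 7 847)
(mv 975 (cons (fin 1168 7 911)
(mv 910 (cons (fin 846 7 846)
(mv 909 (cons (fin 908 0 908)
(mv 845 (cons (fin 844 3 844)
(mv 973 (cons (fin 972 1 908)
(mv 1036 (cons (fin 974 1 972)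
(fin 1100 5 844))))))))))))))))))))))))
(cons (mv 1167 (cons (fin 1231 6 975)
(mv 975 (cons (mv 910 (cons (fin 974 7 910)
(mv 911 (cons (fin 846 7 846)
(mv 847 (cons (fin 783 4 783)
(fin 1104 4 847)))))))
(cons (mv 1166 (cons (fin 1230 5 974)
(mv 911 (cons (fin 1102 5 910)
(mv 847 (cons (fin 783 4 783)
(fin 1104 4 847)))))))
(mv 974 (cons (fin 910 7 910)
(mv 973 (cons (fin 1036 1 972)
(fin 972 0 972))))))))))
(cons (mv 912 (cons (fin 848 5 847)
(mv 1167 (cons (fin 1104 5 911)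
(fin 1231 6 975)))))
(mv 912 (cons (fin 848 5 847)
(mv 1167 (cons (fin 975 6 911)
(fin 1231 6 975)))))))))
(mv 1103 (cons (cons (mv 912 (cons (fin 848 5 847)
(mv 1167 (cons (fin 1104 5 911)
(fin 975 6 911)))))
(mv 912 (cons (fin 848 5 847)
(mv 1038 (cons (cons (mv 1036 (cons (fin 975 2 972)
(fin 1104 0 1036)))
(mv 973 (cons (fin 972 3 972)
(mv 974 (cons (cons (mv 846 (cons (fin 910 4 846)
(mv 975 (cons (fin 913 2 909)
(mv 909 (cons (fin 908 3 908)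
(mv 845 (cons (fin 782 6 781)
(fin 781 4 781)))))))))
(mv 975 (cons (fin 913 2 909)
(mv 909 (cons (fin 908 3 908)
(mv 845 (cons (fin 781 4 781)
(fin 1102 4 845))))))))
(cons (mv 910 (cons (fin 846 4 846)
(mv 909 (cons (mv 845 (cons (fin 1102 7 845)
(fin 781 4 781)))
(mv 908 (cons (fin 975 3 908)
(mv 907 (cons (fin 906 0 906)
(mv 843 (cons (fin 842 3 842)
(mv 844 (cons (fin 911 3 843)
(mv 780 (cons (fin 716 4 716)
(mv 971 (cons (fin 970 1 906)
(fin 1035 6 779)))))))))))))))))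
(mv 910 (cons (fin 846 4 846)
(mv 911 (cons (fin 913 1 909)
(mv 847 (cons (fin 1104 7 847)
(fin 1102 6 846)))))))))))))
(cons (mv 972 (cons (fin 973 3 972)
(mv 1036 (cons (fin 971 3 971)
(fin 975 2 972)))))
(mv 972 (cons (fin 973 3 972)
(mv 1036 (cons (fin 971 3 971)
(fin 1104 0 1036)))))))))))
(cons (mv 1167 (cons (fin 1231 6 975)
(mv 975 (cons (mv 910 (cons (fin 974 7 910)
(mv 911 (cons (fin 846 7 846)
(mv 847 (cons (fin 783 4 783)
(fin 1104 4 847)))))))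
(cons (mv 1036 (cons (fin 1038 2 972)
(mv 1166 (cons (fin 1230 5 974)
(mv 911 (cons (fin 1102 5 910)
(mv 847 (cons (fin 783 4 783)
(fin 1104 4 847)))))))))
(mv 974 (cons (fin 910 7 910)
(mv 973 (cons (fin 1036 1 972)
(fin 972 0 972))))))))))
(cons (mv 912 (cons (fin 848 5 847)
(mv 1167 (cons (fin 1104 5 911)
(fin 1231 6 975)))))
(mv 912 (cons (fin 848 5 847)
(mv 1167 (cons (fin 975 6 911)
(fin 1231 6 975)))))))))))
(cons (cons (mv 1038 (cons (fin 977 2 973)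
(mv 972 (cons (fin 973 3 972)
(mv 1036 (cons (fin 971 3 971)
(mv 1099 (cons (fin 1100 1 1035)
(mv 1035 (cons (fin 1098 1 1034)
(mv 1103 (cons (fin 1102 0 1035)
(fin 1104 0 1036)))))))))))))
(mv 977 (cons (fin 1038 2 973)
(mv 978 (cons (fin 979 1 975)
(mv 975 (cons (cons (mv 910 (cons (fin 911 3 910)
(mv 914 (cons (fin 915 2 911)
(mv 974 (cons (fin 909 3 909)
(fin 913 2 910)))))))
(mv 914 (cons (fin 915 2 911)
(mv 913 (cons (fin 974 2 910)
(mv 849 (cons (fin 785 5 784)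
(mv 1042 (cons (fin 1043 0 975)
(fin 1106 7 849))))))))))
(cons (mv 910 (cons (fin 911 3 910)
(mv 974 (cons (fin 909 3 909)
(mv 782 (cons (fin 846 4 782)
(mv 973 (cons (fin 972 0 972)
(mv 912 (cons (fin 913 2 909)
(mv 848 (cons (fin 784 5 783)
(fin 1103 5 847)))))))))))))
(mv 911 (cons (fin 910 3 910)
(mv 847 (cons (fin 783 4 783)
(fin 1104 4 847)))))))))))))
(cons (mv 1038 (cons (fin 977 2 973)
(mv 1036 (cons (fin 975 2 972)
(mv 971 (cons (fin 972 3 971)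
(mv 1035 (cons (fin 970 3 970)
(mv 1099 (cons (fin 1098 1 1034)
(fin 1100 1 1035)))))))))))
(mv 1038 (cons (fin 977 2 973)
(mv 1036 (cons (fin 975 2 972)
(mv 1099 (cons (fin 1100 1 1035)
(mv 1035 (cons (fin 1098 1 1034)
(mv 1103 (cons (fin 1102 0 1035)
(fin 1104 0 1036))))))))))))))))
(cons (mv 1039 (cons (cons (mv 1038 (cons (fin 977 2 973)
(mv 972 (cons (fin 973 3 972)
(mv 1036 (cons (fin 971 3 971)
(fin 975 2 972)))))))
(mv 912 (cons (cons (mv 848 (cons (fin 1103 5 847)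
(mv 783 (cons (fin 847 7 783)
(mv 784 (cons (fin 719 7 719)
(fin 975 5 783)))))))
(mv 1104 (cons (cons (mv 847 (cons (fin 911 7 847)
(mv 849 (cons (fin 913 6 848)
(mv 1103 (cons (fin 1167 5 911)
(mv 1169 (cons (fin 1105 4 912)
(mv 1168 (cons (fin 1233 4 976)
(mv 1232 (cons (fin 975 7 975)
(fin 1296 7 1039)))))))))))))
(cons (mv 849 (cons (fin 913 6 848)
(mv 1103 (cons (fin 1167 5 911)
(mv 1169 (cons (fin 1105 4 912)
(mv 1168 (cons (fin 1233 4 976)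
(mv 1232 (cons (fin 975 7 975)
(fin 1296 7 1039)))))))))))
(mv 847 (cons (fin 911 7 847)
(mv 1103 (cons (fin 1167 5 911)
(mv 1169 (cons (fin 1105 4 912)
(mv 1168 (cons (fin 1233 4 976)
(mv 1232 (cons (fin 975 7 975)
(fin 1296 7 1039)))))))))))))
(cons (cons (mv 847 (cons (fin 911 7 847)
(mv 913 (cons (fin 849 6 848)
(mv 977 (cons (fin 1168 6 912)
(mv 978 (cons (fin 979 1 975)
(mv 1105 (cons (fin 1169 4 912)
(mv 1106 (cons (fin 1107 3 1039)
(mv 1042 (cons (fin 1170 7 913)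
(mv 975 (cons (fin 1043 0 975)
(mv 914 (cons (fin 915 1 911)
(fin 974 2 910)))))))))))))))))))
(mv 847 (cons (fin 911 7 847)
(mv 913 (cons (fin 849 6 848)
(mv 1103 (cons (fin 1167 5 911)
(mv 1168 (cons (fin 977 6 912)
(mv 1232 (cons (fin 975 7 975)
(fin 1296 7 1039))))))))))))
(cons (mv 847 (cons (fin 911 7 847)
(mv 913 (cons (fin 849 6 848)
(mv 977 (cons (fin 1168 6 912)
(mv 978 (cons (fin 979 1 975)
(mv 1103 (cons (fin 1167 5 911)
(mv 1105 (cons (fin 1169 4 912)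
(mv 1106 (cons (fin 1107 3 1039)
(mv 1042 (cons (fin 1043 2 1039)
(fin 1170 7 913)))))))))))))))))
(mv 847 (cons (fin 911 7 847)
(mv 913 (cons (fin 849 6 848)
(mv 1103 (cons (fin 1167 5 911)
(mv 1105 (cons (fin 1169 4 912)
(mv 1106 (cons (fin 1107 3 1039)
(mv 1042 (cons (fin 1043 2 1039)
(mv 1170 (cons (fin 1171 0 1103)
(mv 978 (cons (fin 977 7 913)
(mv 915 (cons (fin 979 6 914)
(mv 914 (cons (fin 975 1 911)
(fin 851 6 850))))))))))))))))))))))))))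
(cons (mv 1104 (cons (cons (mv 847 (cons (fin 911 7 847)
(mv 783 (cons (fin 848 7 783)
(mv 913 (cons (fin 849 6 848)
(mv 977 (cons (fin 1168 6 912)
(mv 978 (cons (fin 979 1 975)
(mv 1105 (cons (fin 1169 4 912)
(mv 1106 (cons (fin 1107 3 1039)
(mv 1042 (cons (fin 1170 7 913)
(mv 975 (cons (fin 1043 0 975)
(mv 914 (cons (fin 915 1 911)
(fin 974 2 910)))))))))))))))))))))
(cons (mv 849 (cons (fin 913 6 848)
(mv 848 (cons (fin 785 6 784)
(mv 783 (cons (fin 847 7 783)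
(mv 784 (cons (fin 719 7 719)
(fin 975 5 783)))))))))
(mv 849 (cons (fin 913 6 848)
(mv 785 (cons (fin 848 6 784)
(mv 1169 (cons (fin 1105 4 912)
(mv 1168 (cons (fin 1233 4 976)
(mv 975 (cons (fin 911 7 911)
(fin 1232 7 975)))))))))))))
(cons (cons (mv 847 (cons (fin 911 7 847)
(mv 848 (cons (fin 783 7 783)
(mv 784 (cons (fin 975 5 783)
(mv 785 (cons (fin 721 6 720)
(fin 849 6 784)))))))))
(mv 847 (cons (fin 911 7 847)
(mv 848 (cons (fin 783 7 783)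
(mv 975 (cons (fin 784 5 783)
(mv 1168 (cons (fin 1232 7 975)
(mv 1169 (cons (fin 1105 4 912)
(fin 1233 4 976))))))))))))
(cons (mv 847 (cons (fin 911 7 847)
(mv 783 (cons (fin 848 7 783)
(mv 913 (cons (fin 849 6 848)
(mv 1168 (cons (fin 977 6 912)
(mv 1169 (cons (fin 1105 4 912)
(fin 1233 4 976)))))))))))
(mv 847 (cons (fin 911 7 847)
(mv 913 (cons (fin 849 6 848)
(mv 977 (cons (fin 1168 6 912)
(mv 978 (cons (fin 979 1 975)
(mv 1105 (cons (fin 1169 4 912)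
(mv 1106 (cons (fin 1107 3 1039)
(mv 1042 (cons (fin 1170 7 913)
(mv 975 (cons (fin 1043 0 975)
(mv 914 (cons (fin 915 1 911)
(fin 974 2 910)))))))))))))))))))))))
(cons (mv 848 (cons (fin 1103 5 847)
(mv 783 (cons (fin 847 7 783)
(mv 784 (cons (fin 719 7 719)
(mv 785 (cons (fin 721 6 720)
(fin 849 6 784)))))))))
(mv 848 (cons (fin 1103 5 847)
(mv 784 (cons (fin 975 5 783)
(mv 785 (cons (fin 721 6 720)
(fin 849 6 784))))))))))))
(cons (mv 1038 (cons (cons (mv 972 (cons (fin 973 3 972)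
(mv 1036 (cons (fin 971 3 971)
(fin 975 2 972)))))
(mv 972 (cons (fin 973 3 972)
(mv 1104 (cons (fin 1105 0 1037)
(mv 912 (cons (mv 1103 (cons (fin 848 5 847)
(fin 1167 5 911)))
(cons (mv 847 (cons (fin 911 7 847)
(mv 848 (cons (fin 783 7 783)
(mv 849 (cons (fin 785 6 784)
(fin 913 6 848)))))))
(mv 849 (cons (fin 913 6 848)
(mv 911 (cons (fin 847 7 847)
(mv 975 (cons (fin 1168 7 911)
(mv 1103 (cons (fin 1167 5 911)
(mv 910 (cons (fin 846 7 846)
(mv 909 (cons (fin 908 0 908)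
(mv 845 (cons (fin 844 3 844)
(mv 1102 (cons (fin 974 7 845)
(fin 1166 5 910)))))))))))))))))))))))))
(cons (mv 975 (cons (fin 1036 2 972)
(mv 1104 (cons (fin 1105 0 1037)
(mv 911 (cons (fin 1168 7 911)
(fin 847 4 847)))))))
(mv 972 (cons (fin 973 3 972)
(mv 1036 (cons (fin 971 3 971)
(mv 1104 (cons (fin 1103 0 1036)
(fin 1105 0 1037))))))))))
(mv 1038 (cons (fin 977 2 973)
(mv 972 (cons (fin 973 3 972)
(mv 1036 (cons (fin 971 3 971)
(mv 1104 (cons (fin 1103 0 1036)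
(fin 1105 0 1037))))))))))))
(mv 1039 (cons (cons (mv 1038 (cons (fin 977 2 973)
(mv 972 (cons (fin 973 3 972)
(mv 1036 (cons (fin 971 3 971)
(fin 975 2 972)))))))
(cons (mv 1103 (cons (cons (mv 912 (cons (fin 848 5 847)
(mv 1167 (cons (fin 1104 5 911)
(fin 975 6 911)))))
(mv 912 (cons (fin 848 5 847)
(mv 1104 (cons (cons (mv 847 (cons (fin 911 7 847)
(mv 913 (cons (fin 849 6 848)
(mv 1168 (cons (fin 977 6 912)
(mv 1232 (cons (fin 975 7 975)
(fin 1296 7 1039)))))))))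
(cons (mv 913 (cons (fin 849 6 848)
(mv 1168 (cons (fin 977 6 912)
(mv 1232 (cons (fin 975 7 975)
(fin 1296 7 1039)))))))
(mv 911 (cons (fin 847 7 847)
(mv 975 (cons (fin 1168 7 911)
(mv 910 (cons (fin 846 7 846)
(mv 909 (cons (fin 908 0 908)
(fin 977 0 909)))))))))))
(cons (mv 911 (cons (fin 847 7 847)
(mv 913 (cons (fin 849 6 848)
(mv 975 (cons (mv 914 (cons (fin 974 1 910)
(fin 915 1 911)))
(mv 910 (cons (fin 846 7 846)
(mv 909 (cons (fin 908 0 908)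
(fin 977 0 909)))))))))))
(cons (mv 911 (cons (fin 847 7 847)
(mv 913 (cons (fin 849 6 848)
(mv 977 (cons (fin 1168 6 912)
(mv 910 (cons (fin 909 0 909)
(fin 978 0 910)))))))))
(mv 849 (cons (fin 913 6 848)
(mv 911 (cons (fin 847 7 847)
(mv 975 (cons (fin 1168 7 911)
(mv 910 (cons (fin 846 7 846)
(mv 909 (cons (fin 908 0 908)
(mv 845 (cons (fin 844 3 844)
(mv 973 (cons (fin 972 1 908)
(mv 1036 (cons (fin 974 1 972)
(fin 1100 5 844))))))))))))))))))))))))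
(cons (mv 1167 (cons (fin 1231 6 975)
(mv 975 (cons (mv 910 (cons (fin 974 7 910)
(mv 911 (cons (fin 846 7 846)
(mv 847 (cons (fin 783 4 783)
(fin 1104 4 847)))))))
(cons (mv 1166 (cons (fin 1230 5 974)
(mv 911 (cons (fin 1102 5 910)
(mv 847 (cons (fin 783 4 783)
(fin 1104 4 847)))))))
(mv 974 (cons (fin 910 7 910)
(mv 973 (cons (fin 1036 1 972)
(fin 972 0 972))))))))))
(cons (mv 912 (cons (fin 848 5 847)
(mv 1167 (cons (fin 1104 5 911)
(fin 1231 6 975)))))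
(mv 912 (cons (fin 848 5 847)
(mv 1167 (cons (fin 975 6 911)
(fin 1231 6 975)))))))))
(mv 1038 (cons (cons (mv 972 (cons (fin 973 3 972)
(mv 1036 (cons (fin 971 3 971)
(fin 975 2 972)))))
(mv 972 (cons (fin 973 3 972)
(mv 1104 (cons (fin 1105 0 1037)
(mv 912 (cons (mv 1103 (cons (fin 848 5 847)
(fin 1167 5 911)))
(cons (mv 847 (cons (fin 911 7 847)
(mv 848 (cons (fin 783 7 783)
(mv 849 (cons (fin 785 6 784)
(fin 913 6 848)))))))
(mv 849 (cons (fin 913 6 848)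
(mv 911 (cons (fin 847 7 847)
(mv 975 (cons (fin 1168 7 911)
(mv 1103 (cons (fin 1167 5 911)
(mv 910 (cons (fin 846 7 846)
(mv 909 (cons (fin 908 0 908)
(mv 845 (cons (fin 844 3 844)
(mv 1102 (cons (fin 974 7 845)
(fin 1166 5 910)))))))))))))))))))))))))
(cons (mv 975 (cons (fin 1036 2 972)
(mv 1104 (cons (fin 1105 0 1037)
(mv 911 (cons (fin 1168 7 911)
(fin 847 4 847)))))))
(mv 972 (cons (fin 973 3 972)
(mv 1036 (cons (fin 971 3 971)
(mv 1104 (cons (fin 1103 0 1036)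
(fin 1105 0 1037))))))))))))
(cons (mv 1038 (cons (fin 977 2 973)
(mv 972 (cons (fin 973 3 972)
(mv 1036 (cons (fin 971 3 971)
(mv 1104 (cons (fin 1103 0 1036)
(fin 1105 0 1037)))))))))
(cons (mv 1038 (cons (fin 977 2 973)
(mv 972 (cons (fin 973 3 972)
(mv 1104 (cons (fin 1105 0 1037)
(mv 912 (cons (mv 1103 (cons (fin 848 5 847)
(fin 1167 5 911)))
(cons (mv 847 (cons (fin 911 7 847)
(mv 848 (cons (fin 783 7 783)
(mv 849 (cons (fin 785 6 784)
(fin 913 6 848)))))))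
(mv 849 (cons (fin 913 6 848)
(mv 911 (cons (fin 847 7 847)
(mv 975 (cons (fin 1168 7 911)
(mv 1103 (cons (fin 1167 5 911)
(mv 910 (cons (fin 846 7 846)
(mv 909 (cons (fin 908 0 908)
(mv 845 (cons (fin 844 3 844)
(mv 1102 (cons (fin 974 7 845)
(fin 1166 5 910))))))))))))))))))))))))))
(mv 1038 (cons (fin 977 2 973)
(mv 975 (cons (fin 1036 2 972)
(mv 1104 (cons (fin 1105 0 1037)
(mv 911 (cons (fin 1168 7 911)
(fin 847 4 847))))))))))))))))))
def l113 : Lem := ⟨13254031944712882724506621310649321556018620670345837899455453023597314721787975009848330616026462815765143756135158089473467252075149308743152655366187148242124071246428482498451210046760672027239036899891323305324899173507745103325308665813954110541579506451753178596634830548552232523722901151470534797188661248, 32111812234894444656027886290340170234198782338078040063489402429465415944577758682899054951817189185648467425625827079786284547840632468224101079887789455702383982623574705368838163296437658384053669859357038891578046371971129985897495835763763611861983496687887915801144421789969794213025038735748567219966468199914170468890867789443463905691728736897510629846103261674110189855121592075054901029148492916449247517816429124958335104922512347103232,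 32111812234894444656027886290340170234198782338078040063489402429465415944577758682899054951817189185648467425625827079786284547840632468224101079887789455702383982623574705368838163296437658384053669859357038891578046371971129985897495835763763611861983496687887915801144421789969794213025038735748567219966468199914170468890867789443463905691728736897510629846103261674110189855121592075054901029148492916449247517816429124958335104922512347103232, 19, 33⟩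
theorem l113_valid : l113.Valid :=
  Lem.valid_of_chk t113 t113_valid [1037, 1040] c113 l113 (by decide +kernel)
end Crest.Agent.SnakyAux
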