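import Crest.Agent.S0047_aux.Checker

set_option autoImplicit false
set_option maxRecDepth 100000
namespace Crest.Agent.SnakyAux
open Cert
def t114 : Tbl := Tbl.nil
theorem t114_valid : t114.Valid := Tbl.valid_nil
def c114 : Cert :=
(mv 1101 (cons (cons (cons (cons (mv 1038 (cons (cons (cons (mv 1039 (cons (fin 1100 1 1036)
(mv 1104 (cons (fin 1105 0 1037)
(mv 1103 (cons (fin 1036 0 1036)
(mv 972 (cons (fin 973 3 972)
(mv 976 (cons (fin 977 2 973)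
(mv 1167 (cons (fin 912 5 911)
(fin 1231 6 975)))))))))))))
(mv 974 (cons (cons (mv 1165 (cons (fin 1229 6 973)
(mv 910 (cons (fin 1102 5 909)
(fin 846 5 845)))))
(mv 910 (cons (fin 846 5 845)
(mv 1102 (cons (mv 1167 (cons (fin 1103 4 910)
(mv 1166 (cons (fin 1231 4 974)
(mv 1230 (cons (fin 1294 7 1037)
(fin 973 7 973)))))))
(cons (mv 909 (cons (fin 845 7 845)
(mv 1166 (cons (fin 973 7 909)
(mv 911 (cons (fin 975 6 910)
(fin 847 6 846)))))))
(mv 1103 (cons (fin 1167 4 910)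
(mv 1104 (cons (fin 1036 3 1036)
(fin 1105 3 1037)))))))))))
(cons (mv 1165 (cons (fin 1229 6 973)
(mv 973 (cons (cons (mv 1228 (cons (fin 1164 5 972)
(mv 1230 (cons (fin 1166 4 973)
(mv 908 (cons (fin 972 7 908)
(mv 909 (cons (fin 844 7 844)
(mv 845 (cons (fin 1102 4 845)
(fin 781 4 781)))))))))))
(cons (mv 1228 (cons (fin 1164 5 972)
(mv 908 (cons (fin 972 7 908)
(mv 909 (cons (fin 844 7 844)
(mv 845 (cons (fin 1102 4 845)
(fin 781 4 781)))))))))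
(mv 1228 (cons (fin 1164 5 972)
(mv 1166 (cons (fin 1230 4 973)
(mv 1102 (cons (fin 909 7 909)
(mv 1231 (cons (fin 1167 4 974)
(mv 975 (cons (fin 911 6 910)
(mv 1036 (cons (fin 976 1 972)
(fin 1035 2 971)))))))))))))))
(cons (mv 1230 (cons (fin 1166 4 973)
(mv 908 (cons (fin 972 7 908)
(mv 909 (cons (fin 844 7 844)
(mv 845 (cons (fin 1102 4 845)
(fin 781 4 781)))))))))
(cons (mv 1228 (cons (fin 1164 5 972)
(mv 1166 (cons (fin 1230 4 973)
(mv 972 (cons (fin 908 7 908)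
(mv 975 (cons (mv 1036 (cons (fin 1035 1 971)
(fin 976 1 972)))
(mv 911 (cons (fin 912 2 908)
(fin 1102 6 910)))))))))))
(mv 1228 (cons (fin 1164 5 972)
(mv 1230 (cons (fin 1166 4 973)
(mv 908 (cons (fin 972 7 908)
(mv 909 (cons (fin 844 7 844)
(mv 975 (cons (fin 976 3 908)
(mv 1036 (cons (fin 1035 2 971)
(mv 845 (cons (fin 1100 5 844)
(fin 781 4 781)))))))))))))))))))))
(mv 1165 (cons (fin 1229 6 973)
(mv 910 (cons (fin 846 5 845)
(fin 973 6 909)))))))))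
(cons (mv 1039 (cons (cons (mv 1104 (cons (fin 1105 0 1037)
(mv 1103 (cons (fin 1036 0 1036)
(mv 972 (cons (fin 973 3 972)
(mv 976 (cons (fin 977 2 973)
(mv 1167 (cons (fin 912 5 911)
(fin 1231 6 975)))))))))))
(cons (mv 972 (cons (fin 973 3 972)
(mv 976 (cons (fin 977 2 973)
(mv 975 (cons (fin 1036 2 972)
(mv 1103 (cons (mv 1167 (cons (fin 1231 6 975)
(fin 912 6 911)))
(cons (mv 912 (cons (fin 848 5 847)
(mv 911 (cons (mv 1102 (cons (fin 1166 5 910)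
(fin 847 5 846)))
(cons (mv 1102 (cons (fin 1166 5 910)
(mv 910 (cons (fin 846 7 846)
(mv 974 (cons (fin 1165 5 909)
(mv 909 (cons (fin 908 0 908)
(fin 845 7 845)))))))))
(mv 846 (cons (fin 910 7 846)
(mv 847 (cons (fin 782 7 782)
(fin 783 4 783))))))))))
(mv 1167 (cons (fin 1231 6 975)
(mv 1230 (cons (fin 1166 5 974)
(mv 1232 (cons (fin 1168 4 975)
(mv 910 (cons (fin 974 7 910)
(mv 911 (cons (fin 846 7 846)
(mv 847 (cons (fin 1102 5 846)
(fin 783 4 783))))))))))))))))))))))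
(mv 1104 (cons (fin 1105 0 1037)
(mv 1036 (cons (fin 1103 0 1036)
(mv 972 (cons (fin 973 3 972)
(mv 1165 (cons (fin 1229 7 972)
(mv 844 (cons (fin 908 4 844)
(mv 974 (cons (mv 910 (cons (fin 1102 5 909)
(fin 846 5 845)))
(cons (mv 1035 (cons (fin 975 2 971)
(mv 1098 (cons (fin 1099 1 1034)
(mv 1034 (cons (fin 1097 1 1033)
(fin 1102 0 1034)))))))
(mv 975 (cons (fin 1035 2 971)
(mv 846 (cons (fin 910 5 845)
(mv 847 (cons (fin 911 4 847)
(mv 845 (cons (cons (mv 1232 (cons (fin 1168 7 975)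
(mv 779 (cons (fin 780 3 779)
(mv 843 (cons (fin 778 3 778)
(mv 783 (cons (fin 782 2 779)
(fin 784 2 780)))))))))
(mv 783 (cons (fin 784 2 780)
(mv 843 (cons (fin 782 2 779)
(mv 906 (cons (fin 907 1 842)
(mv 842 (cons (fin 905 1 841)
(mv 778 (cons (fin 777 3 777)
(fin 779 3 778))))))))))))
(cons (mv 780 (cons (fin 779 3 779)
(mv 848 (cons (fin 781 3 780)
(mv 913 (cons (fin 912 0 845)
(mv 849 (cons (fin 914 0 846)
(mv 785 (cons (fin 784 2 781)
(fin 786 2 782)))))))))))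
(cons (mv 784 (cons (fin 783 2 780)
(mv 848 (cons (fin 785 2 781)
(mv 913 (cons (fin 912 0 845)
(mv 849 (cons (fin 914 0 846)
(mv 781 (cons (fin 780 3 780)
(fin 782 3 781)))))))))))
(mv 779 (cons (fin 780 3 779)
(mv 843 (cons (fin 778 3 778)
(mv 906 (cons (fin 907 1 842)
(mv 842 (cons (fin 905 1 841)
(mv 782 (cons (fin 781 2 778)
(fin 783 2 779))))))))))))))))))))))))))))))))))))
(cons (mv 1104 (cons (fin 1105 0 1037)
(mv 1103 (cons (fin 1036 0 1036)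
(mv 976 (cons (fin 977 2 973)
(mv 1167 (cons (fin 912 5 911)
(fin 1231 6 975)))))))))
(cons (mv 1104 (cons (fin 1105 0 1037)
(mv 972 (cons (fin 973 3 972)
(mv 976 (cons (fin 977 2 973)
(mv 1168 (cons (mv 975 (cons (fin 1232 7 975)
(fin 911 7 911)))
(cons (mv 1231 (cons (fin 1167 5 975)
(mv 1232 (cons (fin 1295 5 1039)
(mv 1233 (cons (fin 1297 4 1040)
(fin 1169 4 976)))))))
(mv 1231 (cons (fin 1167 5 975)
(mv 1233 (cons (fin 1169 4 976)
(mv 911 (cons (fin 975 7 911)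
(mv 912 (cons (fin 847 7 847)
(mv 848 (cons (fin 1103 5 847)
(mv 849 (cons (fin 913 6 848)
(fin 785 6 784))))))))))))))))))))))
(mv 1104 (cons (fin 1105 0 1037)
(mv 972 (cons (fin 973 3 972)
(mv 976 (cons (fin 977 2 973)
(mv 975 (cons (fin 1036 2 972)
(mv 1168 (cons (fin 1232 7 975)
(fin 911 7 911)))))))))))))))
(mv 1039 (cons (fin 1100 1 1036)
(mv 1104 (cons (fin 1105 0 1037)
(mv 1103 (cons (fin 1036 0 1036)
(mv 976 (cons (fin 977 2 973)
(mv 1167 (cons (fin 912 5 911)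
(fin 1231 6 975)))))))))))))
(cons (cons (mv 1039 (cons (fin 1100 1 1036)
(mv 972 (cons (fin 973 3 972)
(mv 976 (cons (fin 977 2 973)
(mv 975 (cons (fin 1036 2 972)
(mv 1103 (cons (mv 1167 (cons (fin 1231 6 975)
(fin 912 6 911)))
(cons (mv 912 (cons (fin 848 5 847)
(mv 911 (cons (mv 1102 (cons (fin 1166 5 910)
(fin 847 5 846)))
(cons (mv 1102 (cons (fin 1166 5 910)
(mv 910 (cons (fin 846 7 846)
(mv 974 (cons (fin 1165 5 909)
(mv 909 (cons (fin 908 0 908)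
(fin 845 7 845)))))))))
(mv 846 (cons (fin 910 7 846)
(mv 847 (cons (fin 782 7 782)
(fin 783 4 783))))))))))
(mv 1167 (cons (fin 1231 6 975)
(mv 1230 (cons (fin 1166 5 974)
(mv 1232 (cons (fin 1168 4 975)
(mv 910 (cons (fin 974 7 910)
(mv 911 (cons (fin 846 7 846)
(mv 847 (cons (fin 1102 5 846)
(fin 783 4 783))))))))))))))))))))))))
(mv 1039 (cons (fin 1100 1 1036)
(mv 1104 (cons (fin 1105 0 1037)
(mv 1036 (cons (fin 1103 0 1036)
(mv 972 (cons (fin 973 3 972)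
(mv 1165 (cons (fin 1229 7 972)
(mv 844 (cons (fin 908 4 844)
(mv 974 (cons (mv 910 (cons (fin 1102 5 909)
(fin 846 5 845)))
(cons (mv 1035 (cons (fin 975 2 971)
(mv 1098 (cons (fin 1099 1 1034)
(mv 1034 (cons (fin 1097 1 1033)
(fin 1102 0 1034)))))))
(mv 975 (cons (fin 1035 2 971)
(mv 846 (cons (fin 910 5 845)
(mv 847 (cons (fin 911 4 847)
(mv 845 (cons (cons (mv 1232 (cons (fin 1168 7 975)
(mv 779 (cons (fin 780 3 779)
(mv 843 (cons (fin 778 3 778)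
(mv 783 (cons (fin 782 2 779)
(fin 784 2 780)))))))))
(mv 783 (cons (fin 784 2 780)
(mv 843 (cons (fin 782 2 779)
(mv 906 (cons (fin 907 1 842)
(mv 842 (cons (fin 905 1 841)
(mv 778 (cons (fin 777 3 777)
(fin 779 3 778))))))))))))
(cons (mv 780 (cons (fin 779 3 779)
(mv 848 (cons (fin 781 3 780)
(mv 913 (cons (fin 912 0 845)
(mv 849 (cons (fin 914 0 846)
(mv 785 (cons (fin 784 2 781)
(fin 786 2 782)))))))))))
(cons (mv 784 (cons (fin 783 2 780)
(mv 848 (cons (fin 785 2 781)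
(mv 913 (cons (fin 912 0 845)
(mv 849 (cons (fin 914 0 846)
(mv 781 (cons (fin 780 3 780)
(fin 782 3 781)))))))))))
(mv 779 (cons (fin 780 3 779)
(mv 843 (cons (fin 778 3 778)
(mv 906 (cons (fin 907 1 842)
(mv 842 (cons (fin 905 1 841)
(mv 782 (cons (fin 781 2 778)
(fin 783 2 779)))))))))))))))))))))))))))))))))))))
(cons (mv 1039 (cons (fin 1100 1 1036)
(mv 1104 (cons (fin 1105 0 1037)
(mv 972 (cons (fin 973 3 972)
(mv 976 (cons (fin 977 2 973)
(mv 1168 (cons (mv 975 (cons (fin 1232 7 975)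
(fin 911 7 911)))
(cons (mv 1231 (cons (fin 1167 5 975)
(mv 1232 (cons (fin 1295 5 1039)
(mv 1233 (cons (fin 1297 4 1040)
(fin 1169 4 976)))))))
(mv 1231 (cons (fin 1167 5 975)
(mv 1233 (cons (fin 1169 4 976)
(mv 911 (cons (fin 975 7 911)
(mv 912 (cons (fin 847 7 847)
(mv 848 (cons (fin 1103 5 847)
(mv 849 (cons (fin 913 6 848)
(fin 785 6 784))))))))))))))))))))))))
(mv 1039 (cons (fin 1100 1 1036)
(mv 1104 (cons (fin 1105 0 1037)
(mv 972 (cons (fin 973 3 972)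
(mv 976 (cons (fin 977 2 973)
(mv 975 (cons (fin 1036 2 972)
(mv 1168 (cons (fin 1232 7 975)
(fin 911 7 911)))))))))))))))))
(mv 973 (cons (cons (mv 1165 (cons (cons (mv 1228 (cons (fin 1164 5 972)
(mv 1292 (cons (fin 1229 5 1036)
(mv 1230 (cons (fin 1166 4 973)
(mv 972 (cons (fin 908 7 908)
(mv 974 (cons (fin 910 6 909)
(mv 975 (cons (fin 1039 0 972)
(mv 1036 (cons (fin 1035 1 971)
(fin 976 1 972)))))))))))))))
(cons (mv 1230 (cons (fin 1166 4 973)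
(mv 1294 (cons (fin 1229 4 1037)
(mv 972 (cons (fin 908 7 908)
(mv 974 (cons (fin 910 6 909)
(mv 975 (cons (fin 1039 0 972)
(mv 1036 (cons (fin 1035 1 971)
(fin 976 1 972)))))))))))))
(mv 1228 (cons (fin 1164 5 972)
(mv 1292 (cons (fin 1229 5 1036)
(mv 972 (cons (fin 908 7 908)
(mv 974 (cons (fin 910 6 909)
(mv 975 (cons (fin 1039 0 972)
(mv 1036 (cons (fin 1035 1 971)
(fin 976 1 972)))))))))))))))
(cons (mv 1228 (cons (fin 1164 5 972)
(mv 1292 (cons (fin 1229 5 1036)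
(mv 1166 (cons (fin 1230 4 973)
(mv 909 (cons (fin 1102 4 909)
(mv 910 (cons (fin 974 6 909)
(fin 846 6 845)))))))))))
(cons (mv 1228 (cons (fin 1164 5 972)
(mv 1292 (cons (fin 1229 5 1036)
(mv 1166 (cons (fin 1230 4 973)
(mv 908 (cons (fin 972 7 908)
(mv 909 (cons (fin 844 7 844)
(fin 1102 4 909)))))))))))
(mv 1228 (cons (fin 1164 5 972)
(mv 1230 (cons (fin 1166 4 973)
(mv 972 (cons (fin 908 7 908)
(mv 974 (cons (fin 910 6 909)
(mv 975 (cons (fin 1039 0 972)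
(mv 1036 (cons (fin 1035 1 971)
(fin 976 1 972)))))))))))))))))
(cons (mv 909 (cons (cons (mv 1164 (cons (fin 1100 5 908)
(mv 1166 (cons (fin 1102 4 909)
(mv 844 (cons (fin 908 7 844)
(mv 845 (cons (fin 780 7 780)
(mv 846 (cons (fin 910 6 845)
(fin 782 6 781)))))))))))
(cons (mv 1166 (cons (fin 1102 4 909)
(mv 844 (cons (fin 908 7 844)
(mv 845 (cons (fin 780 7 780)
(mv 846 (cons (fin 910 6 845)
(fin 782 6 781)))))))))
(mv 1166 (cons (fin 1102 4 909)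
(mv 1100 (cons (fin 1164 5 908)
(mv 845 (cons (fin 1036 5 844)
(mv 846 (cons (fin 910 6 845)
(fin 782 6 781)))))))))))
(cons (mv 1166 (cons (fin 1102 4 909)
(mv 1100 (cons (fin 1164 5 908)
(mv 844 (cons (fin 908 7 844)
(mv 845 (cons (fin 1036 5 844)
(fin 780 7 780)))))))))
(cons (mv 1164 (cons (fin 1100 5 908)
(mv 844 (cons (fin 908 7 844)
(mv 845 (cons (fin 780 7 780)
(mv 846 (cons (fin 910 6 845)
(fin 782 6 781)))))))))
(mv 1100 (cons (fin 1164 5 908)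
(mv 1102 (cons (fin 1166 4 909)
(mv 1103 (cons (fin 1039 2 1036)
(mv 1036 (cons (fin 1035 3 1035)
(fin 1104 3 1036)))))))))))))
(mv 1165 (cons (cons (mv 1228 (cons (fin 1164 5 972)
(mv 1292 (cons (fin 1229 5 1036)
(mv 1230 (cons (fin 1166 4 973)
(mv 972 (cons (fin 908 7 908)
(mv 974 (cons (fin 910 6 909)
(mv 975 (cons (fin 1039 0 972)
(mv 1036 (cons (fin 1035 1 971)
(fin 976 1 972)))))))))))))))
(mv 1228 (cons (fin 1164 5 972)
(mv 1229 (cons (fin 1292 5 1036)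
(mv 1230 (cons (fin 1294 4 1037)
(fin 1166 4 973))))))))
(cons (mv 1230 (cons (fin 1166 4 973)
(mv 1294 (cons (fin 1229 4 1037)
(mv 972 (cons (fin 908 7 908)
(mv 974 (cons (fin 910 6 909)
(mv 975 (cons (fin 1039 0 972)
(mv 1036 (cons (fin 1035 1 971)
(fin 976 1 972)))))))))))))
(cons (mv 1228 (cons (fin 1164 5 972)
(mv 1292 (cons (fin 1229 5 1036)
(mv 972 (cons (fin 908 7 908)
(mv 974 (cons (fin 910 6 909)
(mv 975 (cons (fin 1039 0 972)
(mv 1036 (cons (fin 1035 1 971)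
(fin 976 1 972)))))))))))))
(mv 1228 (cons (fin 1164 5 972)
(mv 1230 (cons (fin 1166 4 973)
(mv 972 (cons (fin 908 7 908)
(mv 974 (cons (fin 910 6 909)
(mv 975 (cons (fin 1039 0 972)
(mv 1036 (cons (fin 1035 1 971)
(fin 976 1 972)))))))))))))))))))
(cons (cons (mv 909 (cons (cons (mv 1166 (cons (fin 1102 4 909)
(mv 1230 (cons (fin 1165 4 973)
(mv 910 (cons (fin 846 6 845)
(mv 844 (cons (fin 908 7 844)
(mv 845 (cons (fin 780 7 780)
(mv 1036 (cons (fin 1100 5 844)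
(mv 911 (cons (fin 912 3 844)
(mv 842 (cons (fin 843 0 842)
(mv 781 (cons (fin 972 5 780)
(mv 717 (cons (fin 974 4 717)
(mv 718 (cons (fin 782 6 717)
(fin 654 6 653)))))))))))))))))))))))
(cons (mv 1166 (cons (fin 1102 4 909)
(mv 1230 (cons (fin 1165 4 973)
(mv 846 (cons (fin 910 6 845)
(mv 845 (cons (fin 782 6 781)
(mv 1036 (cons (fin 1100 5 844)
(mv 780 (cons (fin 844 7 780)
(mv 781 (cons (fin 972 5 780)
(fin 716 7 716)))))))))))))))
(mv 1166 (cons (fin 1102 4 909)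
(mv 1230 (cons (fin 1165 4 973)
(mv 844 (cons (fin 908 7 844)
(mv 845 (cons (fin 780 7 780)
(mv 1036 (cons (fin 1100 5 844)
(mv 781 (cons (fin 972 5 780)
(mv 782 (cons (fin 846 6 781)
(fin 718 6 717)))))))))))))))))
(cons (cons (mv 1166 (cons (fin 1102 4 909)
(mv 1165 (cons (fin 1230 4 973)
(mv 910 (cons (fin 974 6 909)
(fin 846 6 845)))))))
(mv 1166 (cons (fin 1102 4 909)
(mv 1165 (cons (fin 1230 4 973)
(mv 908 (cons (fin 972 7 908)
(fin 844 7 844))))))))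
(cons (mv 908 (cons (fin 844 7 844)
(mv 1165 (cons (fin 972 7 908)
(mv 910 (cons (fin 974 6 909)
(fin 846 6 845)))))))
(mv 1166 (cons (fin 1102 4 909)
(mv 910 (cons (fin 846 6 845)
(mv 844 (cons (fin 908 7 844)
(mv 845 (cons (fin 780 7 780)
(mv 1036 (cons (fin 1100 5 844)
(mv 911 (cons (fin 912 3 844)
(mv 842 (cons (fin 843 0 842)
(mv 781 (cons (fin 972 5 780)
(mv 717 (cons (fin 974 4 717)
(mv 718 (cons (fin 782 6 717)
(fin 654 6 653)))))))))))))))))))))))))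
(mv 1165 (cons (cons (mv 1228 (cons (fin 1164 5 972)
(mv 1292 (cons (fin 1229 5 1036)
(mv 1166 (cons (fin 1230 4 973)
(mv 909 (cons (fin 1102 4 909)
(mv 910 (cons (fin 974 6 909)
(fin 846 6 845)))))))))))
(cons (mv 1230 (cons (fin 1166 4 973)
(mv 1229 (cons (fin 1294 4 1037)
(mv 1292 (cons (fin 1228 5 1036)
(mv 1293 (cons (fin 1356 5 1100)
(mv 1036 (cons (fin 1100 7 1036)
(fin 972 7 972)))))))))))
(mv 1228 (cons (fin 1164 5 972)
(mv 1229 (cons (fin 1292 5 1036)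
(mv 1294 (cons (fin 1230 4 1037)
(mv 1293 (cons (fin 1358 4 1101)
(mv 1036 (cons (fin 1100 7 1036)
(fin 972 7 972)))))))))))))
(cons (mv 1230 (cons (fin 1166 4 973)
(mv 1229 (cons (fin 1294 4 1037)
(mv 1036 (cons (fin 972 7 972)
(mv 1100 (cons (fin 1293 7 1036)
(mv 909 (cons (fin 1164 5 908)
(fin 845 5 844)))))))))))
(cons (mv 1228 (cons (fin 1164 5 972)
(mv 1229 (cons (fin 1292 5 1036)
(mv 1036 (cons (fin 972 7 972)
(mv 1100 (cons (fin 1293 7 1036)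
(mv 974 (cons (fin 910 6 909)
(mv 1034 (cons (fin 1035 2 970)
(mv 975 (cons (fin 976 1 972)
(mv 909 (cons (fin 845 5 844)
(mv 1102 (cons (fin 1166 4 909)
(mv 1103 (cons (fin 1104 3 1036)
(fin 1039 2 1036)))))))))))))))))))))
(mv 1228 (cons (fin 1164 5 972)
(mv 1166 (cons (fin 1230 4 973)
(mv 909 (cons (fin 1102 4 909)
(mv 910 (cons (fin 974 6 909)
(fin 846 6 845))))))))))))))
(cons (mv 909 (cons (cons (mv 1164 (cons (fin 1100 5 908)
(mv 1228 (cons (fin 1165 5 972)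
(mv 844 (cons (fin 908 7 844)
(mv 845 (cons (fin 780 7 780)
(mv 846 (cons (fin 910 6 845)
(fin 782 6 781)))))))))))
(mv 1164 (cons (fin 1100 5 908)
(mv 1165 (cons (fin 1228 5 972)
(mv 910 (cons (fin 974 6 909)
(fin 846 6 845))))))))
(cons (mv 908 (cons (fin 844 7 844)
(mv 1165 (cons (fin 972 7 908)
(mv 910 (cons (fin 974 6 909)
(fin 846 6 845)))))))
(cons (mv 1164 (cons (fin 1100 5 908)
(mv 1165 (cons (fin 1228 5 972)
(mv 908 (cons (fin 972 7 908)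
(fin 844 7 844)))))))
(mv 1164 (cons (fin 1100 5 908)
(mv 844 (cons (fin 908 7 844)
(mv 845 (cons (fin 780 7 780)
(mv 846 (cons (fin 910 6 845)
(fin 782 6 781)))))))))))))
(mv 1165 (cons (cons (mv 1228 (cons (fin 1164 5 972)
(mv 1292 (cons (fin 1229 5 1036)
(mv 1166 (cons (fin 1230 4 973)
(mv 908 (cons (fin 972 7 908)
(mv 909 (cons (fin 844 7 844)
(fin 1102 4 909)))))))))))
(mv 1230 (cons (fin 1166 4 973)
(mv 1229 (cons (fin 1294 4 1037)
(mv 972 (cons (fin 1036 7 972)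
(fin 908 7 908))))))))
(cons (mv 1228 (cons (fin 1164 5 972)
(mv 1229 (cons (fin 1292 5 1036)
(mv 972 (cons (fin 1036 7 972)
(fin 908 7 908)))))))
(cons (mv 1228 (cons (fin 1164 5 972)
(mv 1229 (cons (fin 1292 5 1036)
(mv 1230 (cons (fin 1294 4 1037)
(fin 1166 4 973)))))))
(mv 1228 (cons (fin 1164 5 972)
(mv 1166 (cons (fin 1230 4 973)
(mv 908 (cons (fin 972 7 908)
(mv 909 (cons (fin 844 7 844)
(fin 1102 4 909))))))))))))))))))
(cons (mv 973 (cons (cons (cons (mv 1165 (cons (cons (cons (mv 1228 (cons (fin 1164 5 972)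
(mv 1292 (cons (fin 1229 5 1036)
(mv 1230 (cons (fin 1166 4 973)
(mv 972 (cons (fin 908 7 908)
(mv 1038 (cons (fin 1039 3 972)
(mv 910 (cons (fin 974 6 909)
(mv 909 (cons (fin 846 6 845)
(mv 911 (cons (fin 912 1 908)
(mv 845 (cons (fin 1102 4 845)
(mv 780 (cons (fin 844 7 780)
(mv 781 (cons (fin 1036 5 780)
(fin 716 7 716)))))))))))))))))))))))
(mv 1228 (cons (fin 1164 5 972)
(mv 1292 (cons (fin 1229 5 1036)
(mv 1166 (cons (fin 1230 4 973)
(mv 974 (cons (fin 910 6 909)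
(mv 909 (cons (fin 1102 4 909)
(mv 844 (cons (fin 908 7 844)
(mv 845 (cons (fin 780 7 780)
(mv 781 (cons (fin 1038 4 781)
(mv 782 (cons (fin 846 6 781)
(fin 718 6 717))))))))))))))))))))
(cons (mv 1228 (cons (fin 1164 5 972)
(mv 1292 (cons (fin 1229 5 1036)
(mv 1166 (cons (fin 1230 4 973)
(mv 972 (cons (fin 908 7 908)
(mv 1038 (cons (fin 1039 3 972)
(mv 909 (cons (fin 1102 4 909)
(mv 846 (cons (fin 910 6 845)
(mv 845 (cons (fin 782 6 781)
(mv 780 (cons (fin 844 7 780)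
(mv 781 (cons (fin 1036 5 780)
(fin 716 7 716)))))))))))))))))))))
(mv 1228 (cons (fin 1164 5 972)
(mv 1292 (cons (fin 1229 5 1036)
(mv 972 (cons (fin 908 7 908)
(mv 1038 (cons (fin 1039 3 972)
(mv 910 (cons (fin 974 6 909)
(mv 909 (cons (fin 846 6 845)
(mv 911 (cons (fin 912 1 908)
(mv 845 (cons (fin 1102 4 845)
(mv 780 (cons (fin 844 7 780)
(mv 781 (cons (fin 1036 5 780)
(fin 716 7 716)))))))))))))))))))))))
(cons (cons (mv 1228 (cons (fin 1164 5 972)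
(mv 1292 (cons (fin 1229 5 1036)
(mv 1166 (cons (fin 1230 4 973)
(mv 1102 (cons (fin 909 4 909)
(mv 972 (cons (fin 908 7 908)
(mv 1039 (cons (fin 1038 3 972)
(mv 975 (cons (fin 974 0 972)
(mv 1103 (cons (fin 911 5 910)
(mv 1104 (cons (fin 1105 1 1101)
(fin 1036 3 1036)))))))))))))))))))
(mv 1228 (cons (fin 1164 5 972)
(mv 1292 (cons (fin 1229 5 1036)
(mv 1166 (cons (fin 1230 4 973)
(mv 909 (cons (fin 1102 4 909)
(mv 910 (cons (fin 974 6 909)
(fin 846 6 845))))))))))))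
(cons (mv 1230 (cons (fin 1166 4 973)
(mv 1294 (cons (fin 1229 4 1037)
(mv 972 (cons (fin 908 7 908)
(mv 1038 (cons (fin 1039 3 972)
(mv 910 (cons (fin 974 6 909)
(mv 909 (cons (fin 846 6 845)
(mv 911 (cons (fin 912 1 908)
(mv 845 (cons (fin 1102 4 845)
(mv 780 (cons (fin 844 7 780)
(mv 781 (cons (fin 1036 5 780)
(fin 716 7 716)))))))))))))))))))))
(cons (mv 1228 (cons (fin 1164 5 972)
(mv 1230 (cons (fin 1166 4 973)
(mv 972 (cons (fin 908 7 908)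
(mv 1038 (cons (fin 1039 3 972)
(mv 910 (cons (fin 974 6 909)
(mv 909 (cons (fin 846 6 845)
(mv 911 (cons (fin 912 1 908)
(mv 845 (cons (fin 1102 4 845)
(mv 780 (cons (fin 844 7 780)
(mv 781 (cons (fin 1036 5 780)
(fin 716 7 716)))))))))))))))))))))
(mv 1228 (cons (fin 1164 5 972)
(mv 1292 (cons (fin 1229 5 1036)
(mv 1230 (cons (fin 1166 4 973)
(mv 972 (cons (fin 908 7 908)
(mv 1039 (cons (fin 1038 3 972)
(mv 974 (cons (fin 975 0 972)
(fin 910 6 909))))))))))))))))))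
(mv 909 (cons (cons (mv 1166 (cons (fin 1102 4 909)
(mv 844 (cons (fin 908 7 844)
(mv 845 (cons (fin 780 7 780)
(mv 846 (cons (fin 910 6 845)
(fin 782 6 781)))))))))
(mv 844 (cons (fin 908 7 844)
(mv 845 (cons (fin 780 7 780)
(mv 846 (cons (fin 910 6 845)
(fin 782 6 781))))))))
(cons (mv 1102 (cons (fin 1166 4 909)
(mv 1038 (cons (fin 845 4 845)
(mv 1039 (cons (fin 972 3 972)
(mv 1104 (cons (fin 1105 0 1037)
(mv 1103 (cons (fin 1036 3 1036)
(mv 1168 (cons (fin 1169 0 1101)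
(mv 1232 (cons (fin 1296 7 1039)
(fin 975 7 975)))))))))))))))
(mv 1166 (cons (fin 1102 4 909)
(mv 908 (cons (fin 844 7 844)
(mv 910 (cons (fin 846 6 845)
(mv 975 (cons (mv 974 (cons (fin 976 3 908)
(fin 907 0 907)))
(cons (mv 911 (cons (fin 976 0 908)
(mv 972 (cons (fin 912 1 908)
(mv 1039 (cons (fin 1038 3 972)
(mv 847 (cons (fin 848 2 844)
(fin 1104 4 847)))))))))
(mv 974 (cons (fin 907 0 907)
(mv 972 (cons (fin 1039 0 972)
(mv 1035 (cons (fin 1036 1 971)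
(mv 911 (cons (fin 912 1 908)
(mv 847 (cons (fin 848 2 844)
(mv 783 (cons (fin 1038 5 782)
(fin 719 5 718))))))))))))))))))))))))))
(cons (mv 1165 (cons (cons (mv 1228 (cons (fin 1164 5 972)
(mv 1292 (cons (fin 1229 5 1036)
(mv 1230 (cons (fin 1166 4 973)
(mv 972 (cons (fin 908 7 908)
(mv 1039 (cons (fin 1038 3 972)
(mv 974 (cons (fin 975 0 972)
(fin 910 6 909)))))))))))))
(mv 1228 (cons (fin 1164 5 972)
(mv 1229 (cons (fin 1292 5 1036)
(mv 1230 (cons (fin 1294 4 1037)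
(fin 1166 4 973))))))))
(cons (mv 1228 (cons (fin 1164 5 972)
(mv 1292 (cons (fin 1229 5 1036)
(mv 972 (cons (fin 908 7 908)
(mv 1039 (cons (fin 1038 3 972)
(mv 974 (cons (fin 975 0 972)
(fin 910 6 909)))))))))))
(cons (mv 1230 (cons (fin 1166 4 973)
(mv 1294 (cons (fin 1229 4 1037)
(mv 972 (cons (fin 908 7 908)
(mv 1039 (cons (fin 1038 3 972)
(mv 974 (cons (fin 975 0 972)
(fin 910 6 909)))))))))))
(mv 1228 (cons (fin 1164 5 972)
(mv 1230 (cons (fin 1166 4 973)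
(mv 972 (cons (fin 908 7 908)
(mv 1039 (cons (fin 1038 3 972)
(mv 974 (cons (fin 975 0 972)
(fin 910 6 909)))))))))))))))
(mv 1165 (cons (cons (mv 1228 (cons (fin 1164 5 972)
(mv 1292 (cons (fin 1229 5 1036)
(mv 1166 (cons (fin 1230 4 973)
(mv 974 (cons (fin 910 6 909)
(mv 909 (cons (fin 1102 4 909)
(mv 844 (cons (fin 908 7 844)
(mv 845 (cons (fin 780 7 780)
(mv 781 (cons (fin 1038 4 781)
(mv 782 (cons (fin 846 6 781)
(fin 718 6 717)))))))))))))))))))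
(cons (mv 1228 (cons (fin 1164 5 972)
(mv 1292 (cons (fin 1229 5 1036)
(mv 1166 (cons (fin 1230 4 973)
(mv 909 (cons (fin 1102 4 909)
(mv 844 (cons (fin 908 7 844)
(mv 845 (cons (fin 780 7 780)
(mv 846 (cons (fin 910 6 845)
(fin 782 6 781)))))))))))))))
(mv 1228 (cons (fin 1164 5 972)
(mv 1229 (cons (fin 1292 5 1036)
(mv 974 (cons (fin 1038 6 973)
(fin 910 6 909)))))))))
(cons (mv 1228 (cons (fin 1164 5 972)
(mv 1229 (cons (fin 1292 5 1036)
(mv 1230 (cons (fin 1294 4 1037)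
(fin 1166 4 973)))))))
(cons (mv 1230 (cons (fin 1166 4 973)
(mv 1229 (cons (fin 1294 4 1037)
(mv 974 (cons (fin 1038 6 973)
(fin 910 6 909)))))))
(mv 1228 (cons (fin 1164 5 972)
(mv 1166 (cons (fin 1230 4 973)
(mv 974 (cons (fin 910 6 909)
(mv 909 (cons (fin 1102 4 909)
(mv 844 (cons (fin 908 7 844)
(mv 845 (cons (fin 780 7 780)
(mv 781 (cons (fin 1038 4 781)
(mv 782 (cons (fin 846 6 781)
(fin 718 6 717)))))))))))))))))))))))
(cons (cons (mv 1165 (cons (cons (mv 1228 (cons (fin 1164 5 972)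
(mv 1292 (cons (fin 1229 5 1036)
(mv 1166 (cons (fin 1230 4 973)
(mv 909 (cons (fin 1102 4 909)
(mv 910 (cons (fin 974 6 909)
(fin 846 6 845)))))))))))
(mv 1228 (cons (fin 1164 5 972)
(mv 1229 (cons (fin 1292 5 1036)
(mv 1230 (cons (fin 1294 4 1037)
(fin 1166 4 973))))))))
(cons (mv 1228 (cons (fin 1164 5 972)
(mv 1229 (cons (fin 1292 5 1036)
(mv 974 (cons (fin 1038 6 973)
(fin 910 6 909)))))))
(cons (mv 1230 (cons (fin 1166 4 973)
(mv 1229 (cons (fin 1294 4 1037)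
(mv 974 (cons (fin 1038 6 973)
(fin 910 6 909)))))))
(mv 1228 (cons (fin 1164 5 972)
(mv 1166 (cons (fin 1230 4 973)
(mv 909 (cons (fin 1102 4 909)
(mv 910 (cons (fin 974 6 909)
(fin 846 6 845)))))))))))))
(mv 1165 (cons (cons (mv 1228 (cons (fin 1164 5 972)
(mv 1292 (cons (fin 1229 5 1036)
(mv 1166 (cons (fin 1230 4 973)
(mv 1102 (cons (fin 909 4 909)
(mv 972 (cons (fin 908 7 908)
(mv 1039 (cons (fin 1038 3 972)
(mv 975 (cons (fin 974 0 972)
(mv 1103 (cons (fin 911 5 910)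
(mv 1104 (cons (fin 1105 1 1101)
(fin 1036 3 1036)))))))))))))))))))
(mv 1228 (cons (fin 1164 5 972)
(mv 1229 (cons (fin 1292 5 1036)
(mv 1230 (cons (fin 1294 4 1037)
(fin 1166 4 973))))))))
(cons (mv 1228 (cons (fin 1164 5 972)
(mv 1229 (cons (fin 1292 5 1036)
(mv 972 (cons (fin 1036 7 972)
(fin 908 7 908)))))))
(cons (mv 1230 (cons (fin 1166 4 973)
(mv 1229 (cons (fin 1294 4 1037)
(mv 972 (cons (fin 1036 7 972)
(fin 908 7 908)))))))
(mv 1228 (cons (fin 1164 5 972)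
(mv 1166 (cons (fin 1230 4 973)
(mv 1102 (cons (fin 909 4 909)
(mv 972 (cons (fin 908 7 908)
(mv 1039 (cons (fin 1038 3 972)
(mv 975 (cons (fin 974 0 972)
(mv 1103 (cons (fin 911 5 910)
(mv 1104 (cons (fin 1105 1 1101)
(fin 1036 3 1036))))))))))))))))))))))
(cons (mv 1165 (cons (cons (mv 1228 (cons (fin 1164 5 972)
(mv 1292 (cons (fin 1229 5 1036)
(mv 972 (cons (fin 908 7 908)
(mv 1038 (cons (fin 1039 3 972)
(mv 910 (cons (fin 974 6 909)
(mv 909 (cons (fin 846 6 845)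
(mv 911 (cons (fin 912 1 908)
(mv 845 (cons (fin 1102 4 845)
(mv 780 (cons (fin 844 7 780)
(mv 781 (cons (fin 1036 5 780)
(fin 716 7 716)))))))))))))))))))))
(mv 1228 (cons (fin 1164 5 972)
(mv 1229 (cons (fin 1292 5 1036)
(mv 974 (cons (fin 1038 6 973)
(fin 910 6 909))))))))
(cons (mv 1228 (cons (fin 1164 5 972)
(mv 1229 (cons (fin 1292 5 1036)
(mv 972 (cons (fin 1036 7 972)
(fin 908 7 908)))))))
(cons (mv 972 (cons (fin 908 7 908)
(mv 1229 (cons (fin 1036 7 972)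
(mv 1038 (cons (fin 1039 3 972)
(fin 974 6 973)))))))
(mv 1228 (cons (fin 1164 5 972)
(mv 972 (cons (fin 908 7 908)
(mv 1038 (cons (fin 1039 3 972)
(mv 910 (cons (fin 974 6 909)
(mv 909 (cons (fin 846 6 845)
(mv 911 (cons (fin 912 1 908)
(mv 845 (cons (fin 1102 4 845)
(mv 780 (cons (fin 844 7 780)
(mv 781 (cons (fin 1036 5 780)
(fin 716 7 716)))))))))))))))))))))))
(cons (mv 1165 (cons (cons (mv 1228 (cons (fin 1164 5 972)
(mv 1292 (cons (fin 1229 5 1036)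
(mv 1166 (cons (fin 1230 4 973)
(mv 972 (cons (fin 908 7 908)
(mv 1038 (cons (fin 1039 3 972)
(mv 909 (cons (fin 1102 4 909)
(mv 846 (cons (fin 910 6 845)
(mv 845 (cons (fin 782 6 781)
(mv 780 (cons (fin 844 7 780)
(mv 781 (cons (fin 1036 5 780)
(fin 716 7 716)))))))))))))))))))))
(cons (mv 1228 (cons (fin 1164 5 972)
(mv 1292 (cons (fin 1229 5 1036)
(mv 1166 (cons (fin 1230 4 973)
(mv 909 (cons (fin 1102 4 909)
(mv 844 (cons (fin 908 7 844)
(mv 845 (cons (fin 780 7 780)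
(mv 846 (cons (fin 910 6 845)
(fin 782 6 781)))))))))))))))
(mv 1228 (cons (fin 1164 5 972)
(mv 1229 (cons (fin 1292 5 1036)
(mv 972 (cons (fin 1036 7 972)
(fin 908 7 908)))))))))
(cons (mv 1228 (cons (fin 1164 5 972)
(mv 1229 (cons (fin 1292 5 1036)
(mv 1230 (cons (fin 1294 4 1037)
(fin 1166 4 973)))))))
(cons (mv 1230 (cons (fin 1166 4 973)
(mv 1229 (cons (fin 1294 4 1037)
(mv 972 (cons (fin 1036 7 972)
(fin 908 7 908)))))))
(mv 1228 (cons (fin 1164 5 972)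
(mv 1166 (cons (fin 1230 4 973)
(mv 972 (cons (fin 908 7 908)
(mv 1038 (cons (fin 1039 3 972)
(mv 909 (cons (fin 1102 4 909)
(mv 846 (cons (fin 910 6 845)
(mv 845 (cons (fin 782 6 781)
(mv 780 (cons (fin 844 7 780)
(mv 781 (cons (fin 1036 5 780)
(fin 716 7 716)))))))))))))))))))))))
(mv 1165 (cons (cons (mv 1228 (cons (fin 1164 5 972)
(mv 1292 (cons (fin 1229 5 1036)
(mv 1230 (cons (fin 1166 4 973)
(mv 972 (cons (fin 908 7 908)
(mv 974 (cons (fin 910 6 909)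
(mv 975 (cons (fin 1039 0 972)
(mv 1036 (cons (fin 1035 1 971)
(fin 976 1 972)))))))))))))))
(cons (mv 1228 (cons (fin 1164 5 972)
(mv 1292 (cons (fin 1229 5 1036)
(mv 1166 (cons (fin 1230 4 973)
(mv 909 (cons (fin 1102 4 909)
(mv 910 (cons (fin 974 6 909)
(fin 846 6 845)))))))))))
(mv 1228 (cons (fin 1164 5 972)
(mv 1292 (cons (fin 1229 5 1036)
(mv 972 (cons (fin 908 7 908)
(mv 974 (cons (fin 910 6 909)
(mv 975 (cons (fin 1039 0 972)
(mv 1036 (cons (fin 1035 1 971)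
(fin 976 1 972)))))))))))))))
(cons (mv 1230 (cons (fin 1166 4 973)
(mv 1294 (cons (fin 1229 4 1037)
(mv 972 (cons (fin 908 7 908)
(mv 974 (cons (fin 910 6 909)
(mv 975 (cons (fin 1039 0 972)
(mv 1036 (cons (fin 1035 1 971)
(fin 976 1 972)))))))))))))
(cons (mv 1228 (cons (fin 1164 5 972)
(mv 1292 (cons (fin 1229 5 1036)
(mv 1166 (cons (fin 1230 4 973)
(mv 908 (cons (fin 972 7 908)
(mv 909 (cons (fin 844 7 844)
(fin 1102 4 909)))))))))))
(mv 1228 (cons (fin 1164 5 972)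
(mv 1230 (cons (fin 1166 4 973)
(mv 972 (cons (fin 908 7 908)
(mv 974 (cons (fin 910 6 909)
(mv 975 (cons (fin 1039 0 972)
(mv 1036 (cons (fin 1035 1 971)
(fin 976 1 972))))))))))))))))))))))
(cons (mv 1165 (cons (cons (cons (mv 1229 (cons (cons (cons (mv 1292 (cons (fin 1228 5 1036)
(mv 1356 (cons (fin 1293 5 1100)
(mv 1294 (cons (fin 1230 4 1037)
(mv 972 (cons (fin 1036 7 972)
(mv 973 (cons (fin 908 7 908)
(mv 974 (cons (fin 1038 6 973)
(fin 910 6 909)))))))))))))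
(mv 1294 (cons (fin 1230 4 1037)
(mv 1358 (cons (fin 1293 4 1101)
(mv 972 (cons (fin 1036 7 972)
(mv 973 (cons (fin 908 7 908)
(mv 974 (cons (fin 1038 6 973)
(fin 910 6 909))))))))))))
(cons (mv 1292 (cons (fin 1228 5 1036)
(mv 1356 (cons (fin 1293 5 1100)
(mv 972 (cons (fin 1036 7 972)
(mv 973 (cons (fin 908 7 908)
(mv 974 (cons (fin 1038 6 973)
(fin 910 6 909)))))))))))
(mv 1292 (cons (fin 1228 5 1036)
(mv 1356 (cons (fin 1293 5 1100)
(mv 1230 (cons (fin 1294 4 1037)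
(mv 1038 (cons (fin 974 6 973)
(mv 973 (cons (fin 1166 4 973)
(mv 908 (cons (fin 972 7 908)
(mv 909 (cons (fin 844 7 844)
(mv 1164 (cons (fin 1100 5 908)
(mv 1231 (cons (fin 1232 3 1164)
(mv 1162 (cons (fin 1163 0 1162)
(mv 845 (cons (fin 1102 4 845)
(mv 846 (cons (fin 910 6 845)
(fin 782 6 781)))))))))))))))))))))))))))
(cons (cons (mv 1292 (cons (fin 1228 5 1036)
(mv 1356 (cons (fin 1293 5 1100)
(mv 1230 (cons (fin 1294 4 1037)
(mv 1036 (cons (fin 972 7 972)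
(mv 973 (cons (fin 1166 4 973)
(mv 910 (cons (fin 974 6 909)
(mv 909 (cons (fin 846 6 845)
(mv 1100 (cons (fin 1164 5 908)
(fin 845 5 844)))))))))))))))))
(mv 1292 (cons (fin 1228 5 1036)
(mv 1356 (cons (fin 1293 5 1100)
(mv 1230 (cons (fin 1294 4 1037)
(mv 972 (cons (fin 1036 7 972)
(mv 973 (cons (fin 908 7 908)
(fin 1166 4 973))))))))))))
(cons (mv 1292 (cons (fin 1228 5 1036)
(mv 1356 (cons (fin 1293 5 1100)
(mv 1230 (cons (fin 1294 4 1037)
(mv 973 (cons (fin 1166 4 973)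
(mv 974 (cons (fin 1038 6 973)
(fin 910 6 909)))))))))))
(cons (mv 1292 (cons (fin 1228 5 1036)
(mv 1294 (cons (fin 1230 4 1037)
(mv 972 (cons (fin 1036 7 972)
(mv 973 (cons (fin 908 7 908)
(mv 974 (cons (fin 1038 6 973)
(fin 910 6 909)))))))))))
(mv 1292 (cons (fin 1228 5 1036)
(mv 1293 (cons (fin 1356 5 1100)
(mv 1294 (cons (fin 1358 4 1101)
(fin 1230 4 1037))))))))))))
(mv 973 (cons (cons (mv 1228 (cons (fin 1164 5 972)
(mv 1230 (cons (fin 1166 4 973)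
(mv 908 (cons (fin 972 7 908)
(mv 909 (cons (fin 844 7 844)
(mv 910 (cons (fin 974 6 909)
(fin 846 6 845)))))))))))
(cons (mv 1230 (cons (fin 1166 4 973)
(mv 908 (cons (fin 972 7 908)
(mv 909 (cons (fin 844 7 844)
(mv 910 (cons (fin 974 6 909)
(fin 846 6 845)))))))))
(mv 1228 (cons (fin 1164 5 972)
(mv 908 (cons (fin 972 7 908)
(mv 909 (cons (fin 844 7 844)
(mv 910 (cons (fin 974 6 909)
(fin 846 6 845)))))))))))
(cons (mv 1228 (cons (fin 1164 5 972)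
(mv 1166 (cons (fin 1230 4 973)
(mv 909 (cons (fin 1102 4 909)
(mv 910 (cons (fin 974 6 909)
(fin 846 6 845)))))))))
(cons (mv 1228 (cons (fin 1164 5 972)
(mv 1166 (cons (fin 1230 4 973)
(mv 908 (cons (fin 972 7 908)
(mv 909 (cons (fin 844 7 844)
(fin 1102 4 909)))))))))
(mv 1164 (cons (fin 1228 5 972)
(mv 1166 (cons (fin 1230 4 973)
(mv 972 (cons (fin 908 7 908)
(mv 974 (cons (fin 910 6 909)
(mv 1167 (cons (mv 1100 (cons (fin 1099 3 1099)
(fin 1168 3 1100)))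
(mv 1231 (cons (fin 1232 0 1164)
(mv 1102 (cons (fin 1038 4 974)
(mv 1163 (cons (fin 1162 2 1098)
(fin 1103 2 1099))))))))))))))))))))))
(cons (mv 1229 (cons (cons (mv 1292 (cons (fin 1228 5 1036)
(mv 1293 (cons (fin 1356 5 1100)
(mv 1294 (cons (fin 1358 4 1101)
(fin 1230 4 1037)))))))
(mv 1294 (cons (fin 1230 4 1037)
(mv 1293 (cons (fin 1358 4 1101)
(mv 1036 (cons (fin 1100 7 1036)
(fin 972 7 972))))))))
(cons (mv 1292 (cons (fin 1228 5 1036)
(mv 1293 (cons (fin 1356 5 1100)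
(mv 1036 (cons (fin 1100 7 1036)
(fin 972 7 972)))))))
(mv 1228 (cons (fin 1292 5 1036)
(mv 1230 (cons (fin 1294 4 1037)
(mv 1036 (cons (fin 972 7 972)
(mv 1038 (cons (fin 974 6 973)
(mv 1231 (cons (mv 1164 (cons (fin 1163 3 1163)
(fin 1232 3 1164)))
(mv 1295 (cons (fin 1296 0 1228)
(mv 1166 (cons (fin 1102 4 1038)
(mv 1227 (cons (fin 1226 2 1162)
(fin 1167 2 1163))))))))))))))))))))
(mv 973 (cons (cons (mv 1230 (cons (fin 1166 4 973)
(mv 1294 (cons (fin 1229 4 1037)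
(mv 974 (cons (fin 910 6 909)
(mv 908 (cons (fin 972 7 908)
(mv 909 (cons (fin 844 7 844)
(mv 1100 (cons (fin 1164 5 908)
(mv 1036 (cons (fin 845 5 844)
(mv 1035 (cons (fin 1034 2 970)
(mv 975 (cons (fin 976 1 972)
(fin 1038 2 971)))))))))))))))))))
(cons (mv 972 (cons (fin 908 7 908)
(mv 1229 (cons (fin 1036 7 972)
(mv 974 (cons (fin 1038 6 973)
(fin 910 6 909)))))))
(mv 1230 (cons (fin 1166 4 973)
(mv 1294 (cons (fin 1229 4 1037)
(mv 908 (cons (fin 972 7 908)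
(mv 909 (cons (fin 844 7 844)
(mv 1100 (cons (fin 1164 5 908)
(mv 845 (cons (fin 1036 5 844)
(mv 846 (cons (fin 910 6 845)
(fin 782 6 781)))))))))))))))))
(cons (cons (mv 1230 (cons (fin 1166 4 973)
(mv 1294 (cons (fin 1229 4 1037)
(mv 910 (cons (fin 974 6 909)
(mv 909 (cons (fin 846 6 845)
(mv 1100 (cons (fin 1164 5 908)
(mv 844 (cons (fin 908 7 844)
(mv 845 (cons (fin 1036 5 844)
(fin 780 7 780)))))))))))))))
(mv 1230 (cons (fin 1166 4 973)
(mv 1229 (cons (fin 1294 4 1037)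
(mv 974 (cons (fin 1038 6 973)
(fin 910 6 909))))))))
(cons (mv 1230 (cons (fin 1166 4 973)
(mv 1294 (cons (fin 1229 4 1037)
(mv 908 (cons (fin 972 7 908)
(mv 909 (cons (fin 844 7 844)
(mv 1100 (cons (fin 1164 5 908)
(mv 845 (cons (fin 1036 5 844)
(mv 1038 (cons (fin 1102 4 845)
(mv 1098 (cons (fin 1099 2 1034)
(mv 781 (cons (fin 974 4 781)
(mv 782 (cons (fin 846 6 781)
(fin 718 6 717)))))))))))))))))))))
(mv 1230 (cons (fin 1166 4 973)
(mv 974 (cons (fin 910 6 909)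
(mv 908 (cons (fin 972 7 908)
(mv 909 (cons (fin 844 7 844)
(mv 1100 (cons (fin 1164 5 908)
(mv 1036 (cons (fin 845 5 844)
(mv 1035 (cons (fin 1034 2 970)
(mv 975 (cons (fin 976 1 972)
(fin 1038 2 971)))))))))))))))))))))))
(cons (cons (mv 973 (cons (cons (mv 1228 (cons (fin 1164 5 972)
(mv 1292 (cons (fin 1229 5 1036)
(mv 972 (cons (fin 908 7 908)
(mv 910 (cons (fin 974 6 909)
(mv 909 (cons (fin 846 6 845)
(mv 1102 (cons (fin 1166 4 909)
(mv 911 (cons (fin 912 1 908)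
(mv 845 (cons (fin 1038 4 845)
(mv 1036 (cons (fin 1100 5 844)
(fin 781 5 780)))))))))))))))))))
(cons (mv 972 (cons (fin 908 7 908)
(mv 1229 (cons (fin 1036 7 972)
(mv 974 (cons (fin 1038 6 973)
(fin 910 6 909)))))))
(mv 1228 (cons (fin 1164 5 972)
(mv 1292 (cons (fin 1229 5 1036)
(mv 908 (cons (fin 972 7 908)
(mv 909 (cons (fin 844 7 844)
(mv 1102 (cons (fin 1166 4 909)
(mv 845 (cons (fin 1038 4 845)
(mv 846 (cons (fin 910 6 845)
(fin 782 6 781)))))))))))))))))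
(cons (cons (mv 1228 (cons (fin 1164 5 972)
(mv 1292 (cons (fin 1229 5 1036)
(mv 910 (cons (fin 974 6 909)
(mv 909 (cons (fin 846 6 845)
(mv 1102 (cons (fin 1166 4 909)
(mv 844 (cons (fin 908 7 844)
(mv 845 (cons (fin 780 7 780)
(fin 1038 4 845)))))))))))))))
(mv 1228 (cons (fin 1164 5 972)
(mv 1292 (cons (fin 1229 5 1036)
(mv 910 (cons (fin 974 6 909)
(mv 909 (cons (fin 846 6 845)
(mv 1102 (cons (fin 1166 4 909)
(mv 845 (cons (fin 1038 4 845)
(mv 1036 (cons (fin 1100 5 844)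
(mv 1103 (cons (fin 1104 3 1036)
(mv 1034 (cons (fin 1035 0 1034)
(mv 780 (cons (fin 844 7 780)
(mv 781 (cons (fin 972 5 780)
(fin 716 7 716))))))))))))))))))))))))
(cons (mv 1228 (cons (fin 1164 5 972)
(mv 1229 (cons (fin 1292 5 1036)
(mv 972 (cons (fin 1036 7 972)
(fin 908 7 908)))))))
(mv 1228 (cons (fin 1164 5 972)
(mv 972 (cons (fin 908 7 908)
(mv 910 (cons (fin 974 6 909)
(mv 909 (cons (fin 846 6 845)
(mv 1102 (cons (fin 1166 4 909)
(mv 911 (cons (fin 912 1 908)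
(mv 845 (cons (fin 1038 4 845)
(mv 1036 (cons (fin 1100 5 844)
(fin 781 5 780)))))))))))))))))))))
(mv 1229 (cons (cons (mv 1292 (cons (fin 1228 5 1036)
(mv 1356 (cons (fin 1293 5 1100)
(mv 1230 (cons (fin 1294 4 1037)
(mv 972 (cons (fin 1036 7 972)
(mv 973 (cons (fin 908 7 908)
(fin 1166 4 973)))))))))))
(mv 1294 (cons (fin 1230 4 1037)
(mv 1293 (cons (fin 1358 4 1101)
(mv 1036 (cons (fin 1100 7 1036)
(fin 972 7 972))))))))
(cons (mv 1292 (cons (fin 1228 5 1036)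
(mv 1293 (cons (fin 1356 5 1100)
(mv 1036 (cons (fin 1100 7 1036)
(fin 972 7 972)))))))
(cons (mv 1292 (cons (fin 1228 5 1036)
(mv 1293 (cons (fin 1356 5 1100)
(mv 1294 (cons (fin 1358 4 1101)
(fin 1230 4 1037)))))))
(mv 1292 (cons (fin 1228 5 1036)
(mv 1230 (cons (fin 1294 4 1037)
(mv 972 (cons (fin 1036 7 972)
(mv 973 (cons (fin 908 7 908)
(fin 1166 4 973))))))))))))))
(cons (mv 1229 (cons (cons (mv 1292 (cons (fin 1228 5 1036)
(mv 1356 (cons (fin 1293 5 1100)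
(mv 1230 (cons (fin 1294 4 1037)
(mv 973 (cons (fin 1166 4 973)
(mv 974 (cons (fin 1038 6 973)
(fin 910 6 909)))))))))))
(cons (mv 1294 (cons (fin 1230 4 1037)
(mv 1293 (cons (fin 1358 4 1101)
(mv 1038 (cons (fin 1102 6 1037)
(fin 974 6 973)))))))
(mv 1292 (cons (fin 1228 5 1036)
(mv 1293 (cons (fin 1356 5 1100)
(mv 1038 (cons (fin 1102 6 1037)
(fin 974 6 973)))))))))
(cons (mv 1292 (cons (fin 1228 5 1036)
(mv 1356 (cons (fin 1293 5 1100)
(mv 1230 (cons (fin 1294 4 1037)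
(mv 973 (cons (fin 1166 4 973)
(mv 910 (cons (fin 974 6 909)
(mv 909 (cons (fin 846 6 845)
(mv 1100 (cons (fin 1164 5 908)
(mv 844 (cons (fin 908 7 844)
(mv 845 (cons (fin 1036 5 844)
(fin 780 7 780)))))))))))))))))))
(cons (mv 1292 (cons (fin 1228 5 1036)
(mv 1293 (cons (fin 1356 5 1100)
(mv 1294 (cons (fin 1358 4 1101)
(fin 1230 4 1037)))))))
(mv 1292 (cons (fin 1228 5 1036)
(mv 1230 (cons (fin 1294 4 1037)
(mv 973 (cons (fin 1166 4 973)
(mv 974 (cons (fin 1038 6 973)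
(fin 910 6 909)))))))))))))
(mv 1229 (cons (cons (mv 1292 (cons (fin 1228 5 1036)
(mv 1356 (cons (fin 1293 5 1100)
(mv 1294 (cons (fin 1230 4 1037)
(mv 972 (cons (fin 1036 7 972)
(mv 973 (cons (fin 908 7 908)
(mv 974 (cons (fin 1038 6 973)
(fin 910 6 909)))))))))))))
(mv 1292 (cons (fin 1228 5 1036)
(mv 1293 (cons (fin 1356 5 1100)
(mv 1294 (cons (fin 1358 4 1101)
(fin 1230 4 1037))))))))
(cons (mv 1294 (cons (fin 1230 4 1037)
(mv 1358 (cons (fin 1293 4 1101)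
(mv 972 (cons (fin 1036 7 972)
(mv 973 (cons (fin 908 7 908)
(mv 974 (cons (fin 1038 6 973)
(fin 910 6 909)))))))))))
(cons (mv 1292 (cons (fin 1228 5 1036)
(mv 1356 (cons (fin 1293 5 1100)
(mv 972 (cons (fin 1036 7 972)
(mv 973 (cons (fin 908 7 908)
(mv 974 (cons (fin 1038 6 973)
(fin 910 6 909)))))))))))
(mv 1292 (cons (fin 1228 5 1036)
(mv 1294 (cons (fin 1230 4 1037)
(mv 972 (cons (fin 1036 7 972)
(mv 973 (cons (fin 908 7 908)
(mv 974 (cons (fin 1038 6 973)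
(fin 910 6 909)))))))))))))))))))
(mv 1039 (cons (cons (mv 1038 (cons (fin 1100 1 1036)
(mv 1104 (cons (fin 1105 0 1037)
(mv 1103 (cons (fin 1036 0 1036)
(mv 976 (cons (fin 977 2 973)
(mv 1167 (cons (fin 912 5 911)
(fin 1231 6 975)))))))))))
(cons (mv 1103 (cons (cons (mv 1102 (cons (fin 1100 2 1036)
(mv 1104 (cons (fin 1036 3 1036)
(mv 1164 (cons (fin 1165 1 1100)
(mv 1168 (cons (fin 1169 0 1101)
(mv 1232 (cons (fin 1296 7 1039)
(fin 975 7 975)))))))))))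
(cons (mv 1167 (cons (cons (mv 1231 (cons (fin 976 6 975)
(mv 1294 (cons (fin 1230 5 1038)
(mv 1295 (cons (fin 1358 5 1102)
(fin 1104 6 1039)))))))
(mv 975 (cons (cons (cons (mv 1230 (cons (fin 1166 5 974)
(mv 1232 (cons (fin 1168 4 975)
(mv 976 (cons (fin 912 6 911)
(mv 910 (cons (fin 974 7 910)
(mv 911 (cons (fin 846 7 846)
(mv 847 (cons (fin 1104 4 847)
(fin 783 4 783)))))))))))))
(mv 1230 (cons (fin 1166 5 974)
(mv 1232 (cons (fin 1168 4 975)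
(mv 910 (cons (fin 974 7 910)
(mv 911 (cons (fin 846 7 846)
(mv 847 (cons (fin 1104 4 847)
(mv 783 (cons (fin 976 4 783)
(mv 784 (cons (fin 848 6 783)
(fin 720 6 719))))))))))))))))
(cons (mv 1230 (cons (fin 1166 5 974)
(mv 1232 (cons (fin 1168 4 975)
(mv 910 (cons (fin 974 7 910)
(mv 911 (cons (fin 846 7 846)
(mv 847 (cons (fin 1104 4 847)
(mv 848 (cons (fin 912 6 847)
(fin 784 6 783)))))))))))))
(mv 1230 (cons (fin 1166 5 974)
(mv 976 (cons (fin 912 6 911)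
(mv 910 (cons (fin 974 7 910)
(mv 911 (cons (fin 846 7 846)
(mv 847 (cons (fin 1104 4 847)
(fin 783 4 783)))))))))))))
(cons (cons (mv 1230 (cons (fin 1166 5 974)
(mv 1168 (cons (fin 1232 4 975)
(mv 1104 (cons (fin 911 4 911)
(mv 976 (cons (fin 912 5 911)
(mv 1169 (cons (fin 1233 4 976)
(mv 1170 (cons (fin 1171 3 1103)
(mv 1234 (cons (fin 1235 0 1167)
(mv 1106 (cons (fin 1107 2 1103)
(mv 977 (cons (fin 913 6 912)
(mv 978 (cons (fin 979 1 975)
(mv 1042 (cons (fin 1043 0 975)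
(mv 914 (cons (fin 915 2 911)
(fin 1105 5 913)))))))))))))))))))))))))
(mv 1232 (cons (fin 1168 4 975)
(mv 976 (cons (fin 912 6 911)
(mv 910 (cons (fin 974 7 910)
(mv 911 (cons (fin 846 7 846)
(mv 847 (cons (fin 1104 4 847)
(fin 783 4 783))))))))))))
(cons (mv 1230 (cons (fin 1166 5 974)
(mv 1232 (cons (fin 1168 4 975)
(mv 910 (cons (fin 974 7 910)
(mv 911 (cons (fin 846 7 846)
(mv 912 (cons (fin 976 6 911)
(fin 848 6 847)))))))))))
(mv 1166 (cons (fin 1230 5 974)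
(mv 1168 (cons (fin 1232 4 975)
(mv 1165 (cons (fin 1100 3 1100)
(mv 1104 (cons (fin 1164 2 1100)
(fin 1105 2 1101))))))))))))))
(cons (mv 975 (cons (cons (mv 1230 (cons (fin 1166 5 974)
(mv 1294 (cons (fin 1231 5 1038)
(mv 1229 (cons (fin 1165 4 1037)
(mv 1232 (cons (fin 1168 4 975)
(mv 910 (cons (fin 974 7 910)
(mv 911 (cons (fin 846 7 846)
(mv 847 (cons (fin 1104 4 847)
(mv 848 (cons (fin 912 6 847)
(fin 784 6 783)))))))))))))))))
(mv 1230 (cons (fin 1166 5 974)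
(mv 1294 (cons (fin 1231 5 1038)
(mv 1229 (cons (fin 1165 4 1037)
(mv 910 (cons (fin 974 7 910)
(mv 911 (cons (fin 846 7 846)
(mv 847 (cons (fin 1104 4 847)
(mv 848 (cons (fin 912 6 847)
(fin 784 6 783))))))))))))))))
(cons (mv 1232 (cons (fin 1168 4 975)
(mv 1296 (cons (fin 1231 4 1039)
(mv 910 (cons (fin 974 7 910)
(mv 911 (cons (fin 846 7 846)
(mv 847 (cons (fin 1104 4 847)
(mv 848 (cons (fin 912 6 847)
(fin 784 6 783)))))))))))))
(cons (mv 1230 (cons (fin 1166 5 974)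
(mv 1231 (cons (fin 1294 5 1038)
(mv 1232 (cons (fin 1296 4 1039)
(fin 1168 4 975)))))))
(mv 1230 (cons (fin 1166 5 974)
(mv 1232 (cons (fin 1168 4 975)
(mv 910 (cons (fin 974 7 910)
(mv 911 (cons (fin 846 7 846)
(mv 847 (cons (fin 1104 4 847)
(mv 848 (cons (fin 912 6 847)
(fin 784 6 783)))))))))))))))))
(cons (mv 1231 (cons (fin 976 6 975)
(mv 1294 (cons (fin 1230 5 1038)
(mv 1295 (cons (fin 1358 5 1102)
(mv 1296 (cons (fin 1360 4 1103)
(fin 1232 4 1039)))))))))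
(mv 1231 (cons (fin 976 6 975)
(mv 1295 (cons (fin 1104 6 1039)
(mv 1296 (cons (fin 1360 4 1103)
(fin 1232 4 1039)))))))))))
(mv 976 (cons (cons (mv 1167 (cons (fin 1231 6 975)
(mv 912 (cons (fin 1104 5 911)
(fin 848 5 847)))))
(mv 912 (cons (fin 848 5 847)
(mv 1104 (cons (cons (mv 1169 (cons (fin 1105 4 912)
(mv 1168 (cons (fin 1102 0 1101)
(fin 1233 4 976)))))
(mv 1169 (cons (fin 1105 4 912)
(mv 1168 (cons (fin 1233 4 976)
(mv 1232 (cons (fin 1296 7 1039)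
(fin 975 7 975))))))))
(cons (mv 1102 (cons (fin 1036 3 1036)
(mv 1164 (cons (fin 1165 1 1100)
(mv 911 (cons (fin 847 7 847)
(mv 975 (cons (fin 1166 5 910)
(fin 1168 7 911)))))))))
(mv 1169 (cons (fin 1105 4 912)
(mv 1102 (cons (fin 1036 3 1036)
(mv 1164 (cons (fin 1165 1 1100)
(mv 911 (cons (fin 847 7 847)
(mv 975 (cons (fin 1166 5 910)
(mv 910 (cons (fin 846 7 846)
(mv 977 (cons (fin 978 3 910)
(fin 909 0 909)))))))))))))))))))))
(cons (mv 1167 (cons (fin 1231 6 975)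
(mv 975 (cons (cons (mv 1230 (cons (fin 1166 5 974)
(mv 1232 (cons (fin 1168 4 975)
(mv 910 (cons (fin 974 7 910)
(mv 911 (cons (fin 846 7 846)
(mv 847 (cons (fin 1104 4 847)
(fin 783 4 783)))))))))))
(cons (mv 1230 (cons (fin 1166 5 974)
(mv 910 (cons (fin 974 7 910)
(mv 911 (cons (fin 846 7 846)
(mv 847 (cons (fin 1104 4 847)
(fin 783 4 783)))))))))
(mv 1232 (cons (fin 1168 4 975)
(mv 910 (cons (fin 974 7 910)
(mv 911 (cons (fin 846 7 846)
(mv 847 (cons (fin 1104 4 847)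
(fin 783 4 783)))))))))))
(cons (mv 1230 (cons (fin 1166 5 974)
(mv 1168 (cons (fin 1232 4 975)
(mv 1104 (cons (fin 911 7 911)
(mv 1169 (cons (fin 1102 0 1101)
(fin 1233 4 976)))))))))
(cons (mv 1166 (cons (fin 1230 5 974)
(mv 1168 (cons (fin 1232 4 975)
(mv 1169 (cons (fin 1102 3 1101)
(mv 1233 (cons (fin 1234 0 1166)
(fin 1104 4 976)))))))))
(mv 1232 (cons (fin 1168 4 975)
(mv 1166 (cons (fin 1230 5 974)
(mv 910 (cons (fin 974 7 910)
(mv 911 (cons (fin 1102 5 910)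
(fin 846 7 846)))))))))))))))
(mv 1167 (cons (fin 1231 6 975)
(mv 912 (cons (fin 848 5 847)
(fin 975 6 911))))))))))
(cons (cons (mv 1100 (cons (fin 1102 2 1036)
(mv 1167 (cons (cons (mv 1231 (cons (fin 976 6 975)
(mv 1294 (cons (fin 1230 5 1038)
(mv 1295 (cons (fin 1358 5 1102)
(mv 1296 (cons (fin 1360 4 1103)
(fin 1232 4 1039)))))))))
(mv 975 (cons (cons (mv 1230 (cons (fin 1166 5 974)
(mv 1232 (cons (fin 1168 4 975)
(mv 910 (cons (fin 974 7 910)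
(mv 911 (cons (fin 846 7 846)
(mv 912 (cons (fin 976 6 911)
(fin 848 6 847)))))))))))
(mv 1166 (cons (fin 1230 5 974)
(mv 1168 (cons (fin 1165 3 1100)
(fin 1232 4 975))))))
(cons (mv 1232 (cons (fin 1168 4 975)
(mv 910 (cons (fin 974 7 910)
(mv 911 (cons (fin 846 7 846)
(mv 912 (cons (fin 976 6 911)
(fin 848 6 847)))))))))
(mv 1230 (cons (fin 1166 5 974)
(mv 910 (cons (fin 974 7 910)
(mv 911 (cons (fin 846 7 846)
(mv 912 (cons (fin 976 6 911)
(fin 848 6 847)))))))))))))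
(cons (mv 1166 (cons (mv 1230 (cons (fin 975 5 974)
(mv 1294 (cons (fin 1231 5 1038)
(fin 1358 6 1102)))))
(mv 1165 (cons (fin 1168 3 1100)
(mv 1099 (cons (fin 1164 3 1099)
(fin 1098 0 1098)))))))
(mv 976 (cons (fin 1231 6 975)
(mv 912 (cons (fin 848 5 847)
(fin 975 6 911))))))))))
(mv 1102 (cons (fin 1100 2 1036)
(mv 1104 (cons (fin 1036 3 1036)
(mv 1164 (cons (fin 1165 1 1100)
(mv 1168 (cons (fin 1169 0 1101)
(mv 1232 (cons (fin 1296 7 1039)
(mv 1297 (cons (fin 1233 4 1040)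
(mv 1231 (cons (fin 1295 5 1039)
(mv 976 (cons (fin 1167 5 975)
(mv 912 (cons (fin 848 5 847)
(mv 913 (cons (fin 977 6 912)
(fin 849 6 848))))))))))))))))))))))
(cons (mv 1102 (cons (fin 1100 2 1036)
(mv 1104 (cons (fin 1036 3 1036)
(mv 1165 (cons (fin 1164 1 1100)
(mv 1166 (cons (fin 1105 1 1101)
(mv 1230 (cons (fin 1294 7 1037)
(mv 975 (cons (fin 1167 5 974)
(fin 911 5 910)))))))))))))
(mv 1102 (cons (fin 1100 2 1036)
(mv 1104 (cons (fin 1036 3 1036)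
(mv 1168 (cons (fin 1169 0 1101)
(mv 1232 (cons (fin 1296 7 1039)
(fin 975 7 975)))))))))))))
(mv 1038 (cons (cons (mv 1104 (cons (fin 1105 0 1037)
(mv 1103 (cons (fin 1036 0 1036)
(mv 976 (cons (fin 977 2 973)
(mv 1167 (cons (fin 912 5 911)
(fin 1231 6 975)))))))))
(mv 976 (cons (fin 977 2 973)
(mv 975 (cons (fin 1036 2 972)
(mv 1103 (cons (mv 1167 (cons (fin 1231 6 975)
(fin 912 6 911)))
(cons (mv 912 (cons (fin 848 5 847)
(mv 911 (cons (mv 1102 (cons (fin 1166 5 910)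
(fin 847 5 846)))
(cons (mv 1102 (cons (fin 1166 5 910)
(mv 910 (cons (fin 846 7 846)
(mv 974 (cons (fin 1165 5 909)
(mv 909 (cons (fin 908 0 908)
(fin 845 7 845)))))))))
(mv 846 (cons (fin 910 7 846)
(mv 847 (cons (fin 782 7 782)
(fin 783 4 783))))))))))
(mv 1167 (cons (fin 1231 6 975)
(mv 1230 (cons (fin 1166 5 974)
(mv 1232 (cons (fin 1168 4 975)
(mv 910 (cons (fin 974 7 910)
(mv 911 (cons (fin 846 7 846)
(mv 847 (cons (fin 1102 5 846)
(fin 783 4 783)))))))))))))))))))))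
(cons (mv 1104 (cons (fin 1105 0 1037)
(mv 1103 (cons (fin 1036 0 1036)
(mv 1168 (cons (mv 1232 (cons (fin 1296 7 1039)
(fin 975 7 975)))
(mv 1102 (cons (fin 1169 0 1101)
(mv 1165 (cons (fin 1164 1 1100)
(mv 1229 (cons (fin 1293 6 1037)
(fin 974 6 973)))))))))))))
(cons (mv 1104 (cons (fin 1105 0 1037)
(mv 976 (cons (fin 977 2 973)
(mv 1168 (cons (mv 975 (cons (fin 1232 7 975)
(fin 911 7 911)))
(cons (mv 1231 (cons (fin 1167 5 975)
(mv 1232 (cons (fin 1295 5 1039)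
(mv 1233 (cons (fin 1297 4 1040)
(fin 1169 4 976)))))))
(mv 1231 (cons (fin 1167 5 975)
(mv 1233 (cons (fin 1169 4 976)
(mv 911 (cons (fin 975 7 911)
(mv 912 (cons (fin 847 7 847)
(mv 848 (cons (fin 1103 5 847)
(mv 849 (cons (fin 913 6 848)
(fin 785 6 784))))))))))))))))))))
(mv 1104 (cons (fin 1105 0 1037)
(mv 976 (cons (fin 977 2 973)
(mv 975 (cons (fin 1036 2 972)
(mv 1168 (cons (fin 1232 7 975)
(fin 911 7 911)))))))))))))))
(cons (mv 1100 (cons (fin 1038 1 1036)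
(mv 1103 (cons (fin 1102 2 1036)
(mv 1167 (cons (cons (mv 1231 (cons (fin 976 6 975)
(mv 1294 (cons (fin 1230 5 1038)
(mv 1295 (cons (fin 1358 5 1102)
(mv 1296 (cons (fin 1360 4 1103)
(fin 1232 4 1039)))))))))
(mv 975 (cons (cons (mv 1230 (cons (fin 1166 5 974)
(mv 1232 (cons (fin 1168 4 975)
(mv 910 (cons (fin 974 7 910)
(mv 911 (cons (fin 846 7 846)
(mv 912 (cons (fin 976 6 911)
(fin 848 6 847)))))))))))
(mv 1166 (cons (fin 1230 5 974)
(mv 1168 (cons (fin 1165 3 1100)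
(fin 1232 4 975))))))
(cons (mv 1232 (cons (fin 1168 4 975)
(mv 910 (cons (fin 974 7 910)
(mv 911 (cons (fin 846 7 846)
(mv 912 (cons (fin 976 6 911)
(fin 848 6 847)))))))))
(mv 1230 (cons (fin 1166 5 974)
(mv 910 (cons (fin 974 7 910)
(mv 911 (cons (fin 846 7 846)
(mv 912 (cons (fin 976 6 911)
(fin 848 6 847)))))))))))))
(cons (mv 1166 (cons (mv 1230 (cons (fin 975 5 974)
(mv 1294 (cons (fin 1231 5 1038)
(fin 1358 6 1102)))))
(mv 1165 (cons (fin 1168 3 1100)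
(mv 1099 (cons (fin 1164 3 1099)
(fin 1098 0 1098)))))))
(mv 976 (cons (fin 1231 6 975)
(mv 912 (cons (fin 848 5 847)
(fin 975 6 911))))))))))))
(cons (mv 1038 (cons (fin 1100 1 1036)
(mv 1104 (cons (fin 1105 0 1037)
(mv 976 (cons (fin 977 2 973)
(mv 975 (cons (fin 1036 2 972)
(mv 1168 (cons (fin 1232 7 975)
(fin 911 7 911)))))))))))
(mv 1038 (cons (fin 1100 1 1036)
(mv 1104 (cons (fin 1105 0 1037)
(mv 1103 (cons (fin 1036 0 1036)
(mv 1168 (cons (mv 1232 (cons (fin 1296 7 1039)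
(fin 975 7 975)))
(mv 1102 (cons (fin 1169 0 1101)
(mv 1165 (cons (fin 1164 1 1100)
(mv 1229 (cons (fin 1293 6 1037)
(fin 974 6 973))))))))))))))))))))))
(cons (cons (mv 1039 (cons (cons (cons (mv 1038 (cons (fin 1100 1 1036)
(mv 1104 (cons (fin 1105 0 1037)
(mv 1103 (cons (fin 1036 0 1036)
(mv 972 (cons (fin 973 3 972)
(mv 976 (cons (fin 977 2 973)
(mv 1167 (cons (fin 912 5 911)
(fin 1231 6 975)))))))))))))
(mv 1103 (cons (cons (cons (mv 1102 (cons (fin 1100 2 1036)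
(mv 1104 (cons (fin 1036 3 1036)
(mv 1168 (cons (fin 1169 0 1101)
(mv 1232 (cons (fin 1296 7 1039)
(fin 975 7 975)))))))))
(mv 976 (cons (cons (mv 1167 (cons (fin 1231 6 975)
(mv 912 (cons (fin 1104 5 911)
(fin 848 5 847)))))
(mv 1167 (cons (fin 1231 6 975)
(mv 975 (cons (cons (mv 1230 (cons (fin 1166 5 974)
(mv 1232 (cons (fin 1168 4 975)
(mv 974 (cons (fin 910 7 910)
(mv 973 (cons (fin 1036 1 972)
(fin 972 0 972)))))))))
(mv 1230 (cons (fin 1166 5 974)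
(mv 974 (cons (fin 910 7 910)
(mv 973 (cons (fin 1036 1 972)
(fin 972 0 972))))))))
(cons (mv 1230 (cons (fin 1166 5 974)
(mv 1168 (cons (fin 1232 4 975)
(mv 1104 (cons (fin 911 7 911)
(mv 1169 (cons (fin 1233 4 976)
(mv 1170 (cons (fin 1171 3 1103)
(mv 1234 (cons (fin 1235 0 1167)
(mv 1106 (cons (fin 1107 2 1103)
(mv 977 (cons (fin 913 6 912)
(mv 978 (cons (fin 979 1 975)
(mv 1042 (cons (fin 1043 0 975)
(mv 914 (cons (fin 915 2 911)
(fin 1105 5 913)))))))))))))))))))))))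
(mv 1232 (cons (fin 1168 4 975)
(mv 974 (cons (fin 910 7 910)
(mv 973 (cons (fin 1036 1 972)
(fin 972 0 972)))))))))))))
(cons (mv 912 (cons (fin 848 5 847)
(mv 1104 (cons (cons (mv 1169 (cons (fin 1105 4 912)
(mv 1168 (cons (fin 1233 4 976)
(mv 1232 (cons (fin 1296 7 1039)
(fin 975 7 975)))))))
(mv 911 (cons (fin 847 7 847)
(mv 1168 (cons (fin 975 7 911)
(mv 913 (cons (fin 977 6 912)
(fin 849 6 848))))))))
(cons (mv 1105 (cons (fin 1169 4 912)
(mv 1106 (cons (fin 1107 3 1039)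
(mv 1170 (cons (fin 1171 0 1103)
(mv 1042 (cons (fin 1043 2 1039)
(mv 911 (cons (fin 847 7 847)
(mv 913 (cons (fin 849 6 848)
(mv 977 (cons (fin 978 7 913)
(mv 910 (cons (fin 909 0 909)
(mv 846 (cons (fin 845 3 845)
(fin 975 7 846)))))))))))))))))))
(mv 1169 (cons (fin 1105 4 912)
(mv 1168 (cons (fin 1233 4 976)
(mv 913 (cons (fin 977 6 912)
(fin 849 6 848))))))))))))
(mv 1167 (cons (fin 1231 6 975)
(mv 912 (cons (fin 848 5 847)
(fin 975 6 911)))))))))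
(cons (mv 1102 (cons (fin 1100 2 1036)
(mv 1167 (cons (cons (mv 1231 (cons (fin 976 6 975)
(mv 1294 (cons (fin 1230 5 1038)
(mv 1358 (cons (fin 1295 5 1102)
(mv 1232 (cons (fin 1296 4 1039)
(mv 1168 (cons (fin 975 4 975)
(mv 1169 (cons (fin 1166 3 1101)
(fin 1170 3 1102)))))))))))))
(mv 975 (cons (mv 1166 (cons (fin 1230 5 974)
(fin 911 5 910)))
(mv 1232 (cons (fin 1168 4 975)
(mv 974 (cons (fin 910 7 910)
(mv 973 (cons (fin 972 0 972)
(mv 976 (cons (fin 1036 1 972)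
(fin 912 6 911))))))))))))
(cons (mv 1168 (cons (mv 1169 (cons (fin 1166 3 1101)
(fin 1170 3 1102)))
(mv 1232 (cons (fin 975 4 975)
(mv 1296 (cons (fin 1360 7 1103)
(fin 1231 4 1039)))))))
(cons (mv 1231 (cons (fin 976 6 975)
(mv 1294 (cons (fin 1230 5 1038)
(mv 1295 (cons (fin 1358 5 1102)
(mv 1296 (cons (fin 1360 4 1103)
(fin 1232 4 1039)))))))))
(mv 1231 (cons (fin 976 6 975)
(mv 1294 (cons (fin 1230 5 1038)
(mv 1295 (cons (fin 1358 5 1102)
(mv 1359 (cons (fin 1166 7 1102)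
(mv 1360 (cons (fin 1424 4 1167)
(fin 1296 4 1103)))))))))))))))))
(mv 1100 (cons (fin 1102 2 1036)
(mv 976 (cons (cons (mv 1167 (cons (fin 1231 6 975)
(mv 912 (cons (fin 1104 5 911)
(fin 848 5 847)))))
(mv 1167 (cons (fin 1231 6 975)
(mv 975 (cons (cons (mv 1230 (cons (fin 1166 5 974)
(mv 1232 (cons (fin 1168 4 975)
(mv 974 (cons (fin 910 7 910)
(mv 973 (cons (fin 972 0 972)
(mv 909 (cons (fin 908 3 908)
(fin 1164 5 908)))))))))))
(mv 1230 (cons (fin 1166 5 974)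
(mv 974 (cons (fin 910 7 910)
(mv 973 (cons (fin 972 0 972)
(mv 909 (cons (fin 908 3 908)
(fin 1164 5 908))))))))))
(cons (mv 1230 (cons (fin 1166 5 974)
(mv 1168 (cons (fin 1232 4 975)
(mv 1104 (cons (fin 911 7 911)
(mv 1169 (cons (fin 1233 4 976)
(mv 1170 (cons (fin 1171 3 1103)
(mv 1234 (cons (fin 1235 0 1167)
(mv 1106 (cons (fin 1107 2 1103)
(mv 977 (cons (fin 913 6 912)
(mv 978 (cons (fin 979 1 975)
(mv 1042 (cons (fin 1043 0 975)
(mv 914 (cons (fin 915 2 911)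
(fin 1105 5 913)))))))))))))))))))))))
(mv 1232 (cons (fin 1168 4 975)
(mv 974 (cons (fin 910 7 910)
(mv 973 (cons (fin 972 0 972)
(mv 909 (cons (fin 908 3 908)
(fin 1164 5 908)))))))))))))))
(cons (mv 912 (cons (fin 848 5 847)
(mv 1104 (cons (cons (mv 1169 (cons (fin 1105 4 912)
(mv 1168 (cons (fin 1233 4 976)
(mv 1232 (cons (fin 1296 7 1039)
(fin 975 7 975)))))))
(mv 911 (cons (fin 847 7 847)
(mv 1168 (cons (fin 975 7 911)
(mv 913 (cons (fin 977 6 912)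
(fin 849 6 848))))))))
(cons (mv 1105 (cons (fin 1169 4 912)
(mv 1106 (cons (fin 1107 3 1039)
(mv 1170 (cons (fin 1171 0 1103)
(mv 1042 (cons (fin 1043 2 1039)
(mv 911 (cons (fin 847 7 847)
(mv 913 (cons (fin 849 6 848)
(mv 977 (cons (fin 978 7 913)
(mv 910 (cons (fin 909 0 909)
(mv 846 (cons (fin 845 3 845)
(fin 975 7 846)))))))))))))))))))
(mv 1169 (cons (fin 1105 4 912)
(mv 1168 (cons (fin 1233 4 976)
(mv 913 (cons (fin 977 6 912)
(fin 849 6 848))))))))))))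
(mv 1167 (cons (fin 1231 6 975)
(mv 912 (cons (fin 848 5 847)
(fin 975 6 911))))))))))))
(cons (cons (mv 1102 (cons (fin 1100 2 1036)
(mv 1104 (cons (fin 1036 3 1036)
(mv 1168 (cons (fin 1169 0 1101)
(mv 1232 (cons (fin 1296 7 1039)
(mv 1297 (cons (fin 1233 4 1040)
(mv 1231 (cons (fin 1295 5 1039)
(mv 976 (cons (fin 1167 5 975)
(mv 912 (cons (fin 848 5 847)
(mv 913 (cons (fin 977 6 912)
(fin 849 6 848)))))))))))))))))))
(mv 1102 (cons (fin 1100 2 1036)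
(mv 1104 (cons (fin 1036 3 1036)
(mv 1167 (cons (mv 1231 (cons (fin 1295 6 1039)
(fin 976 6 975)))
(cons (mv 1231 (cons (fin 1295 6 1039)
(mv 1296 (cons (fin 1232 4 1039)
(mv 1230 (cons (fin 1294 5 1038)
(mv 975 (cons (fin 1166 5 974)
(mv 910 (cons (fin 974 7 910)
(mv 911 (cons (fin 846 7 846)
(fin 847 4 847)))))))))))))
(mv 976 (cons (fin 912 5 911)
(mv 975 (cons (mv 1166 (cons (fin 1230 5 974)
(fin 911 5 910)))
(cons (mv 910 (cons (fin 974 7 910)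
(mv 911 (cons (fin 846 7 846)
(fin 847 4 847)))))
(mv 1166 (cons (fin 1230 5 974)
(mv 1105 (cons (fin 1106 1 1102)
(mv 1169 (cons (fin 1170 0 1102)
(mv 1297 (cons (fin 1233 7 1040)
(mv 973 (cons (fin 909 4 909)
(mv 974 (cons (fin 972 0 972)
(fin 910 7 910))))))))))))))))))))))))))
(cons (mv 1102 (cons (fin 1100 2 1036)
(mv 1104 (cons (fin 1036 3 1036)
(mv 1169 (cons (fin 1168 0 1101)
(mv 1105 (cons (fin 1170 0 1102)
(mv 1297 (cons (fin 1233 7 1040)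
(mv 1106 (cons (fin 1107 3 1039)
(mv 1167 (cons (fin 1166 1 1102)
(mv 1231 (cons (fin 1295 6 1039)
(fin 976 6 975)))))))))))))))))
(mv 1100 (cons (fin 1102 2 1036)
(mv 1167 (cons (cons (mv 1231 (cons (fin 976 6 975)
(mv 1294 (cons (fin 1230 5 1038)
(mv 1295 (cons (fin 1358 5 1102)
(fin 1104 6 1039)))))))
(mv 975 (cons (cons (mv 1230 (cons (fin 1166 5 974)
(mv 1232 (cons (fin 1168 4 975)
(mv 974 (cons (fin 910 7 910)
(mv 973 (cons (fin 972 0 972)
(mv 976 (cons (fin 1036 1 972)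
(fin 912 6 911)))))))))))
(cons (mv 1230 (cons (fin 1166 5 974)
(mv 1232 (cons (fin 1168 4 975)
(mv 974 (cons (fin 910 7 910)
(mv 973 (cons (fin 972 0 972)
(mv 1164 (cons (fin 909 5 908)
(mv 1228 (cons (fin 1292 6 1036)
(fin 1036 6 972)))))))))))))
(mv 1230 (cons (fin 1166 5 974)
(mv 974 (cons (fin 910 7 910)
(mv 973 (cons (fin 972 0 972)
(mv 976 (cons (fin 1036 1 972)
(fin 912 6 911)))))))))))
(cons (mv 1230 (cons (fin 1166 5 974)
(mv 1232 (cons (fin 1168 4 975)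
(mv 912 (cons (fin 976 6 911)
(mv 911 (cons (fin 848 6 847)
(mv 846 (cons (fin 910 7 846)
(mv 847 (cons (fin 782 7 782)
(fin 1104 4 847)))))))))))))
(cons (mv 1230 (cons (fin 1166 5 974)
(mv 1168 (cons (fin 1232 4 975)
(mv 911 (cons (fin 1104 4 911)
(mv 912 (cons (fin 976 6 911)
(fin 848 6 847)))))))))
(mv 1232 (cons (fin 1168 4 975)
(mv 974 (cons (fin 910 7 910)
(mv 973 (cons (fin 972 0 972)
(mv 976 (cons (fin 1036 1 972)
(fin 912 6 911))))))))))))))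
(cons (mv 975 (cons (cons (mv 1230 (cons (fin 1166 5 974)
(mv 1294 (cons (fin 1231 5 1038)
(mv 1232 (cons (fin 1168 4 975)
(mv 974 (cons (fin 910 7 910)
(mv 973 (cons (fin 972 0 972)
(mv 1164 (cons (fin 909 5 908)
(mv 1228 (cons (fin 1292 6 1036)
(fin 1036 6 972)))))))))))))))
(mv 1230 (cons (fin 1166 5 974)
(mv 1294 (cons (fin 1231 5 1038)
(mv 974 (cons (fin 910 7 910)
(mv 973 (cons (fin 972 0 972)
(mv 1164 (cons (fin 909 5 908)
(mv 1228 (cons (fin 1292 6 1036)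
(fin 1036 6 972))))))))))))))
(cons (mv 1230 (cons (fin 1166 5 974)
(mv 1231 (cons (fin 1294 5 1038)
(mv 1232 (cons (fin 1296 4 1039)
(fin 1168 4 975)))))))
(cons (mv 1232 (cons (fin 1168 4 975)
(mv 1296 (cons (fin 1231 4 1039)
(mv 974 (cons (fin 910 7 910)
(mv 973 (cons (fin 972 0 972)
(mv 1164 (cons (fin 909 5 908)
(mv 1228 (cons (fin 1292 6 1036)
(fin 1036 6 972)))))))))))))
(mv 1230 (cons (fin 1166 5 974)
(mv 1232 (cons (fin 1168 4 975)
(mv 974 (cons (fin 910 7 910)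
(mv 973 (cons (fin 972 0 972)
(mv 1164 (cons (fin 909 5 908)
(mv 1228 (cons (fin 1292 6 1036)
(fin 1036 6 972)))))))))))))))))
(mv 1231 (cons (fin 976 6 975)
(mv 1295 (cons (fin 1104 6 1039)
(mv 1296 (cons (fin 1360 4 1103)
(fin 1232 4 1039)))))))))))))))))
(cons (mv 1038 (cons (cons (mv 1104 (cons (fin 1105 0 1037)
(mv 1103 (cons (fin 1036 0 1036)
(mv 972 (cons (fin 973 3 972)
(mv 976 (cons (fin 977 2 973)
(mv 1167 (cons (fin 912 5 911)
(fin 1231 6 975)))))))))))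
(cons (mv 972 (cons (fin 973 3 972)
(mv 976 (cons (fin 977 2 973)
(mv 975 (cons (fin 1036 2 972)
(mv 1103 (cons (mv 1167 (cons (fin 1231 6 975)
(fin 912 6 911)))
(cons (mv 912 (cons (fin 848 5 847)
(mv 911 (cons (mv 1102 (cons (fin 1166 5 910)
(fin 847 5 846)))
(cons (mv 1102 (cons (fin 1166 5 910)
(mv 910 (cons (fin 846 7 846)
(mv 909 (cons (fin 908 0 908)
(mv 845 (cons (fin 844 3 844)
(fin 974 7 845)))))))))
(mv 846 (cons (fin 910 7 846)
(mv 847 (cons (fin 782 7 782)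
(fin 783 4 783))))))))))
(mv 1167 (cons (fin 1231 6 975)
(mv 1230 (cons (fin 1166 5 974)
(mv 1232 (cons (fin 1168 4 975)
(mv 910 (cons (fin 974 7 910)
(mv 911 (cons (fin 846 7 846)
(mv 847 (cons (fin 1102 5 846)
(fin 783 4 783))))))))))))))))))))))
(mv 1104 (cons (fin 1105 0 1037)
(mv 1103 (cons (fin 1036 0 1036)
(mv 972 (cons (fin 973 3 972)
(mv 1168 (cons (mv 1232 (cons (fin 1296 7 1039)
(fin 975 7 975)))
(cons (mv 1169 (cons (fin 1102 0 1101)
(mv 1170 (cons (fin 1171 3 1103)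
(mv 975 (cons (fin 911 4 911)
(mv 1167 (cons (mv 1230 (cons (fin 1231 1 1166)
(fin 1166 5 974)))
(cons (mv 1234 (cons (fin 1235 0 1167)
(mv 1166 (cons (fin 1233 0 1166)
(fin 1230 5 974)))))
(mv 1231 (cons (fin 974 7 974)
(fin 1295 6 1039))))))))))))
(mv 1232 (cons (fin 1296 7 1039)
(mv 1297 (cons (fin 1233 4 1040)
(mv 1231 (cons (fin 1295 5 1039)
(mv 1167 (cons (fin 974 7 974)
(mv 1230 (cons (fin 1294 5 1038)
(mv 1229 (cons (fin 1228 2 1164)
(fin 1169 2 1165))))))))))))))))))))))))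
(cons (mv 1104 (cons (fin 1105 0 1037)
(mv 1103 (cons (fin 1036 0 1036)
(mv 976 (cons (fin 977 2 973)
(mv 1167 (cons (fin 912 5 911)
(fin 1231 6 975)))))))))
(cons (mv 1104 (cons (fin 1105 0 1037)
(mv 972 (cons (fin 973 3 972)
(mv 976 (cons (fin 977 2 973)
(mv 1168 (cons (mv 975 (cons (fin 1232 7 975)
(fin 911 7 911)))
(cons (mv 1231 (cons (fin 1167 5 975)
(mv 1232 (cons (fin 1295 5 1039)
(mv 1233 (cons (fin 1297 4 1040)
(fin 1169 4 976)))))))
(mv 1231 (cons (fin 1167 5 975)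
(mv 1233 (cons (fin 1169 4 976)
(mv 911 (cons (fin 975 7 911)
(mv 912 (cons (fin 847 7 847)
(mv 848 (cons (fin 1103 5 847)
(mv 849 (cons (fin 913 6 848)
(fin 785 6 784))))))))))))))))))))))
(mv 1104 (cons (fin 1105 0 1037)
(mv 972 (cons (fin 973 3 972)
(mv 976 (cons (fin 977 2 973)
(mv 975 (cons (fin 1036 2 972)
(mv 1168 (cons (fin 1232 7 975)
(fin 911 7 911)))))))))))))))
(mv 1038 (cons (fin 1100 1 1036)
(mv 972 (cons (fin 973 3 972)
(mv 976 (cons (fin 977 2 973)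
(mv 975 (cons (fin 1036 2 972)
(mv 1103 (cons (mv 1167 (cons (fin 1231 6 975)
(fin 912 6 911)))
(cons (mv 912 (cons (fin 848 5 847)
(mv 911 (cons (mv 1102 (cons (fin 1166 5 910)
(fin 847 5 846)))
(cons (mv 1102 (cons (fin 1166 5 910)
(mv 910 (cons (fin 846 7 846)
(mv 909 (cons (fin 908 0 908)
(mv 845 (cons (fin 844 3 844)
(fin 974 7 845)))))))))
(mv 846 (cons (fin 910 7 846)
(mv 847 (cons (fin 782 7 782)
(fin 783 4 783))))))))))
(mv 1167 (cons (fin 1231 6 975)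
(mv 1230 (cons (fin 1166 5 974)
(mv 1232 (cons (fin 1168 4 975)
(mv 910 (cons (fin 974 7 910)
(mv 911 (cons (fin 846 7 846)
(mv 847 (cons (fin 1102 5 846)
(fin 783 4 783))))))))))))))))))))))))))
(cons (cons (mv 1038 (cons (fin 1100 1 1036)
(mv 1104 (cons (fin 1105 0 1037)
(mv 1103 (cons (fin 1036 0 1036)
(mv 976 (cons (fin 977 2 973)
(mv 1167 (cons (fin 912 5 911)
(fin 1231 6 975)))))))))))
(mv 1038 (cons (fin 1100 1 1036)
(mv 1104 (cons (fin 1105 0 1037)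
(mv 972 (cons (fin 973 3 972)
(mv 976 (cons (fin 977 2 973)
(mv 975 (cons (fin 1036 2 972)
(mv 1168 (cons (fin 1232 7 975)
(fin 911 7 911))))))))))))))
(cons (mv 1038 (cons (fin 1100 1 1036)
(mv 1104 (cons (fin 1105 0 1037)
(mv 1103 (cons (fin 1036 0 1036)
(mv 972 (cons (fin 973 3 972)
(mv 1168 (cons (mv 1232 (cons (fin 1296 7 1039)
(fin 975 7 975)))
(cons (mv 1169 (cons (fin 1102 0 1101)
(mv 1170 (cons (fin 1171 3 1103)
(mv 975 (cons (fin 911 4 911)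
(mv 1167 (cons (mv 1230 (cons (fin 1231 1 1166)
(fin 1166 5 974)))
(cons (mv 1234 (cons (fin 1235 0 1167)
(mv 1166 (cons (fin 1233 0 1166)
(fin 1230 5 974)))))
(mv 1231 (cons (fin 974 7 974)
(fin 1295 6 1039))))))))))))
(mv 1232 (cons (fin 1296 7 1039)
(mv 1297 (cons (fin 1233 4 1040)
(mv 1231 (cons (fin 1295 5 1039)
(mv 1167 (cons (fin 974 7 974)
(mv 1230 (cons (fin 1294 5 1038)
(mv 1229 (cons (fin 1228 2 1164)
(fin 1169 2 1165))))))))))))))))))))))))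
(mv 1100 (cons (fin 1038 1 1036)
(mv 1103 (cons (fin 1102 2 1036)
(mv 976 (cons (cons (mv 1167 (cons (fin 1231 6 975)
(mv 912 (cons (fin 1104 5 911)
(fin 848 5 847)))))
(mv 1167 (cons (fin 1231 6 975)
(mv 975 (cons (cons (mv 1230 (cons (fin 1166 5 974)
(mv 1232 (cons (fin 1168 4 975)
(mv 974 (cons (fin 910 7 910)
(mv 973 (cons (fin 972 0 972)
(mv 909 (cons (fin 908 3 908)
(fin 1164 5 908)))))))))))
(mv 1230 (cons (fin 1166 5 974)
(mv 974 (cons (fin 910 7 910)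
(mv 973 (cons (fin 972 0 972)
(mv 909 (cons (fin 908 3 908)
(fin 1164 5 908))))))))))
(cons (mv 1230 (cons (fin 1166 5 974)
(mv 1168 (cons (fin 1232 4 975)
(mv 1104 (cons (fin 911 7 911)
(mv 1169 (cons (fin 1233 4 976)
(mv 1170 (cons (fin 1171 3 1103)
(mv 1234 (cons (fin 1235 0 1167)
(mv 1106 (cons (fin 1107 2 1103)
(mv 977 (cons (fin 913 6 912)
(mv 978 (cons (fin 979 1 975)
(mv 1042 (cons (fin 1043 0 975)
(mv 914 (cons (fin 915 2 911)
(fin 1105 5 913)))))))))))))))))))))))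
(mv 1232 (cons (fin 1168 4 975)
(mv 974 (cons (fin 910 7 910)
(mv 973 (cons (fin 972 0 972)
(mv 909 (cons (fin 908 3 908)
(fin 1164 5 908)))))))))))))))
(cons (mv 912 (cons (fin 848 5 847)
(mv 1104 (cons (cons (mv 1169 (cons (fin 1105 4 912)
(mv 1168 (cons (fin 1233 4 976)
(mv 1232 (cons (fin 1296 7 1039)
(fin 975 7 975)))))))
(mv 911 (cons (fin 847 7 847)
(mv 1168 (cons (fin 975 7 911)
(mv 913 (cons (fin 977 6 912)
(fin 849 6 848))))))))
(cons (mv 1105 (cons (fin 1169 4 912)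
(mv 1106 (cons (fin 1107 3 1039)
(mv 1170 (cons (fin 1171 0 1103)
(mv 1042 (cons (fin 1043 2 1039)
(mv 911 (cons (fin 847 7 847)
(mv 913 (cons (fin 849 6 848)
(mv 977 (cons (fin 978 7 913)
(mv 910 (cons (fin 909 0 909)
(mv 846 (cons (fin 845 3 845)
(fin 975 7 846)))))))))))))))))))
(mv 1169 (cons (fin 1105 4 912)
(mv 1168 (cons (fin 1233 4 976)
(mv 913 (cons (fin 977 6 912)
(fin 849 6 848))))))))))))
(mv 1167 (cons (fin 1231 6 975)
(mv 912 (cons (fin 848 5 847)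
(fin 975 6 911))))))))))))))))
(mv 1038 (cons (cons (mv 1039 (cons (fin 1100 1 1036)
(mv 1104 (cons (fin 1105 0 1037)
(mv 1103 (cons (fin 1036 0 1036)
(mv 972 (cons (fin 973 3 972)
(mv 976 (cons (fin 977 2 973)
(mv 1167 (cons (fin 912 5 911)
(fin 1231 6 975)))))))))))))
(cons (mv 1165 (cons (cons (mv 1229 (cons (fin 974 6 973)
(mv 1292 (cons (fin 1228 5 1036)
(mv 1356 (cons (fin 1293 5 1100)
(mv 1230 (cons (fin 1294 4 1037)
(mv 972 (cons (fin 1036 7 972)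
(mv 973 (cons (fin 908 7 908)
(fin 1166 4 973)))))))))))))
(cons (mv 973 (cons (cons (mv 1228 (cons (fin 1164 5 972)
(mv 1230 (cons (fin 1166 4 973)
(mv 974 (cons (fin 910 6 909)
(mv 908 (cons (fin 972 7 908)
(mv 909 (cons (fin 844 7 844)
(mv 975 (cons (fin 976 3 908)
(mv 1036 (cons (fin 1035 2 971)
(mv 845 (cons (fin 1100 5 844)
(fin 781 4 781)))))))))))))))))
(cons (mv 1230 (cons (fin 1166 4 973)
(mv 1164 (cons (fin 1228 5 972)
(mv 908 (cons (fin 972 7 908)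
(mv 909 (cons (fin 1100 5 908)
(fin 844 7 844)))))))))
(mv 1230 (cons (fin 1166 4 973)
(mv 974 (cons (fin 910 6 909)
(mv 908 (cons (fin 972 7 908)
(mv 909 (cons (fin 844 7 844)
(mv 975 (cons (fin 976 3 908)
(mv 1036 (cons (fin 1035 2 971)
(mv 845 (cons (fin 1100 5 844)
(fin 781 4 781)))))))))))))))))
(cons (cons (mv 1230 (cons (fin 1166 4 973)
(mv 1164 (cons (fin 1228 5 972)
(mv 909 (cons (fin 1100 5 908)
(mv 910 (cons (fin 974 6 909)
(fin 846 6 845)))))))))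
(mv 1228 (cons (fin 1164 5 972)
(mv 974 (cons (fin 910 6 909)
(mv 908 (cons (fin 972 7 908)
(mv 909 (cons (fin 844 7 844)
(mv 975 (cons (fin 976 3 908)
(mv 1036 (cons (fin 1035 2 971)
(mv 845 (cons (fin 1100 5 844)
(fin 781 4 781))))))))))))))))
(cons (mv 1164 (cons (fin 1228 5 972)
(mv 1166 (cons (fin 1230 4 973)
(mv 972 (cons (fin 908 7 908)
(mv 974 (cons (fin 910 6 909)
(mv 1163 (cons (cons (mv 1226 (cons (fin 1227 1 1162)
(mv 1225 (cons (fin 1162 1 1161)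
(mv 1099 (cons (fin 1098 3 1098)
(mv 1167 (cons (fin 1100 3 1099)
(mv 1231 (cons (fin 1232 0 1164)
(mv 1104 (cons (fin 1103 2 1100)
(mv 1168 (cons (fin 1105 2 1101)
(fin 976 5 975)))))))))))))))
(cons (mv 1226 (cons (fin 1227 1 1162)
(mv 1162 (cons (fin 1225 1 1161)
(mv 1161 (cons (fin 1100 2 1097)
(mv 1097 (cons (fin 1096 3 1096)
(fin 1098 3 1097)))))))))
(mv 1226 (cons (fin 1227 1 1162)
(mv 1162 (cons (fin 1225 1 1161)
(mv 1100 (cons (fin 1161 2 1097)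
(mv 1167 (cons (fin 1099 3 1099)
(fin 1168 3 1100)))))))))))
(cons (cons (mv 1098 (cons (fin 1099 3 1098)
(mv 1162 (cons (fin 1097 3 1097)
(mv 1225 (cons (fin 1226 1 1161)
(mv 1161 (cons (fin 1224 1 1160)
(fin 1100 2 1097)))))))))
(mv 1098 (cons (fin 1099 3 1098)
(mv 1162 (cons (fin 1097 3 1097)
(mv 1100 (cons (fin 1161 2 1097)
(mv 1167 (cons (fin 1168 3 1100)
(mv 1231 (cons (fin 1232 0 1164)
(mv 1103 (cons (fin 1104 2 1100)
(mv 1036 (cons (fin 1227 5 971)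
(mv 1035 (cons (fin 975 1 971)
(fin 1034 2 970))))))))))))))))))
(cons (mv 1226 (cons (fin 1227 1 1162)
(mv 1162 (cons (fin 1225 1 1161)
(mv 1098 (cons (fin 1097 3 1097)
(fin 1099 3 1098)))))))
(mv 1226 (cons (fin 1227 1 1162)
(mv 1099 (cons (fin 1098 3 1098)
(mv 1167 (cons (fin 1100 3 1099)
(mv 1231 (cons (fin 1232 0 1164)
(mv 1104 (cons (fin 1103 2 1100)
(mv 1168 (cons (fin 1105 2 1101)
(fin 976 5 975)))))))))))))))))))))))))
(mv 1228 (cons (fin 1164 5 972)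
(mv 1230 (cons (fin 1166 4 973)
(mv 908 (cons (fin 972 7 908)
(mv 909 (cons (fin 844 7 844)
(mv 910 (cons (fin 974 6 909)
(fin 846 6 845)))))))))))))))
(mv 1229 (cons (cons (mv 1292 (cons (fin 1228 5 1036)
(mv 1356 (cons (fin 1293 5 1100)
(mv 1230 (cons (fin 1294 4 1037)
(mv 972 (cons (fin 1036 7 972)
(mv 973 (cons (fin 908 7 908)
(fin 1166 4 973)))))))))))
(mv 1294 (cons (fin 1230 4 1037)
(mv 1293 (cons (fin 1358 4 1101)
(mv 1036 (cons (fin 1100 7 1036)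
(fin 972 7 972))))))))
(cons (mv 1292 (cons (fin 1228 5 1036)
(mv 1293 (cons (fin 1356 5 1100)
(mv 1036 (cons (fin 1100 7 1036)
(fin 972 7 972)))))))
(cons (mv 1292 (cons (fin 1228 5 1036)
(mv 1293 (cons (fin 1356 5 1100)
(mv 1294 (cons (fin 1358 4 1101)
(fin 1230 4 1037)))))))
(mv 1292 (cons (fin 1228 5 1036)
(mv 1230 (cons (fin 1294 4 1037)
(mv 972 (cons (fin 1036 7 972)
(mv 973 (cons (fin 908 7 908)
(fin 1166 4 973)))))))))))))))
(cons (mv 1229 (cons (fin 974 6 973)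
(mv 1292 (cons (fin 1228 5 1036)
(mv 1293 (cons (fin 1356 5 1100)
(mv 1294 (cons (fin 1358 4 1101)
(fin 1230 4 1037)))))))))
(cons (mv 1229 (cons (fin 974 6 973)
(mv 1294 (cons (fin 1230 4 1037)
(mv 1293 (cons (fin 1358 4 1101)
(mv 1036 (cons (fin 1100 7 1036)
(fin 972 7 972)))))))))
(mv 1229 (cons (fin 974 6 973)
(mv 1292 (cons (fin 1228 5 1036)
(mv 1293 (cons (fin 1356 5 1100)
(mv 1036 (cons (fin 1100 7 1036)
(fin 972 7 972)))))))))))))
(mv 1039 (cons (cons (mv 1104 (cons (fin 1105 0 1037)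
(mv 1103 (cons (fin 1036 0 1036)
(mv 972 (cons (fin 973 3 972)
(mv 976 (cons (fin 977 2 973)
(mv 1167 (cons (fin 912 5 911)
(fin 1231 6 975)))))))))))
(cons (mv 1104 (cons (fin 1105 0 1037)
(mv 1103 (cons (fin 1036 0 1036)
(mv 972 (cons (fin 973 3 972)
(mv 975 (cons (mv 1168 (cons (fin 1232 7 975)
(fin 911 4 911)))
(cons (mv 1232 (cons (fin 1168 7 975)
(mv 1167 (cons (mv 1231 (cons (fin 974 7 974)
(fin 1296 4 1039)))
(cons (mv 1166 (cons (fin 1230 5 974)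
(mv 1165 (cons (fin 1164 2 1100)
(mv 974 (cons (fin 910 7 910)
(fin 1229 6 973)))))))
(mv 1231 (cons (fin 1296 4 1039)
(fin 1295 6 1039))))))))
(mv 911 (cons (fin 847 4 847)
(mv 910 (cons (fin 846 7 846)
(mv 1167 (cons (fin 974 7 910)
(mv 1230 (cons (fin 1166 5 974)
(mv 1231 (cons (fin 1294 5 1038)
(fin 1295 6 1039))))))))))))))))))))
(mv 973 (cons (fin 972 3 972)
(mv 976 (cons (fin 977 2 973)
(mv 1036 (cons (fin 975 2 972)
(mv 1165 (cons (mv 974 (cons (fin 1229 6 973)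
(fin 910 6 909)))
(cons (mv 1228 (cons (fin 1164 5 972)
(mv 1229 (cons (fin 1292 5 1036)
(mv 1230 (cons (fin 1294 4 1037)
(fin 1166 4 973)))))))
(mv 1228 (cons (fin 1164 5 972)
(mv 1230 (cons (fin 1166 4 973)
(mv 910 (cons (fin 974 6 909)
(mv 909 (cons (fin 846 6 845)
(mv 844 (cons (fin 908 7 844)
(mv 845 (cons (fin 780 7 780)
(mv 912 (cons (fin 911 3 844)
(mv 848 (cons (fin 1103 5 847)
(mv 783 (cons (fin 847 7 783)
(mv 784 (cons (fin 719 7 719)
(mv 785 (cons (fin 849 6 784)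
(fin 721 6 720))))))))))))))))))))))))))))))))))
(cons (mv 1104 (cons (fin 1105 0 1037)
(mv 1103 (cons (fin 1036 0 1036)
(mv 976 (cons (fin 977 2 973)
(mv 1167 (cons (fin 912 5 911)
(fin 1231 6 975)))))))))
(cons (mv 1104 (cons (fin 1105 0 1037)
(mv 972 (cons (fin 973 3 972)
(mv 976 (cons (fin 977 2 973)
(mv 912 (cons (mv 1103 (cons (fin 1167 5 911)
(fin 848 5 847)))
(cons (mv 911 (cons (fin 847 7 847)
(mv 1168 (cons (fin 975 7 911)
(mv 1231 (cons (fin 1167 5 975)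
(mv 1232 (cons (fin 1295 5 1039)
(mv 1233 (cons (fin 1297 4 1040)
(fin 1169 4 976)))))))))))
(mv 1103 (cons (fin 848 5 847)
(mv 911 (cons (fin 847 7 847)
(mv 1168 (cons (fin 975 7 911)
(mv 1232 (cons (fin 1296 7 1039)
(mv 1233 (cons (fin 1297 4 1040)
(fin 1169 4 976))))))))))))))))))))
(mv 1104 (cons (fin 1105 0 1037)
(mv 972 (cons (fin 973 3 972)
(mv 976 (cons (fin 977 2 973)
(mv 975 (cons (fin 1036 2 972)
(mv 1168 (cons (fin 1232 7 975)
(fin 911 7 911)))))))))))))))))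
(cons (cons (mv 1039 (cons (fin 1100 1 1036)
(mv 1104 (cons (fin 1105 0 1037)
(mv 1103 (cons (fin 1036 0 1036)
(mv 976 (cons (fin 977 2 973)
(mv 1167 (cons (fin 912 5 911)
(fin 1231 6 975)))))))))))
(mv 1100 (cons (fin 1039 1 1036)
(mv 1098 (cons (fin 1099 2 1034)
(mv 1164 (cons (cons (mv 1228 (cons (fin 1292 6 1036)
(mv 973 (cons (fin 1165 5 972)
(fin 909 5 908)))))
(mv 1228 (cons (fin 1292 6 1036)
(mv 1036 (cons (cons (mv 1291 (cons (fin 1227 5 1035)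
(mv 1229 (cons (fin 1293 4 1036)
(mv 1165 (cons (fin 972 7 972)
(fin 974 6 973)))))))
(mv 1227 (cons (fin 1291 5 1035)
(mv 1163 (cons (fin 972 5 971)
(mv 1162 (cons (fin 1161 2 1097)
(mv 1165 (cons (fin 1097 3 1097)
(mv 1226 (cons (fin 1225 1 1161)
(fin 1166 1 1162))))))))))))
(cons (mv 1229 (cons (fin 1293 4 1036)
(mv 1165 (cons (fin 972 7 972)
(fin 974 6 973)))))
(cons (mv 1293 (cons (fin 1229 4 1036)
(mv 1227 (cons (fin 1291 5 1035)
(mv 1163 (cons (fin 972 5 971)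
(mv 1162 (cons (fin 1161 2 1097)
(mv 1034 (cons (fin 970 4 970)
(mv 1035 (cons (fin 1097 1 1033)
(fin 1033 0 1033)))))))))))))
(mv 1291 (cons (fin 1227 5 1035)
(mv 1229 (cons (fin 1293 4 1036)
(mv 1165 (cons (fin 974 6 973)
(mv 1230 (cons (fin 1294 4 1037)
(mv 1231 (cons (fin 1163 3 1163)
(fin 1232 3 1164))))))))))))))))))
(cons (mv 973 (cons (fin 909 5 908)
(mv 1165 (cons (mv 974 (cons (fin 1229 6 973)
(fin 910 6 909)))
(cons (mv 1230 (cons (fin 1166 4 973)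
(mv 1229 (cons (fin 1294 4 1037)
(mv 1293 (cons (fin 1357 7 1100)
(fin 1036 7 1036)))))))
(mv 1230 (cons (fin 1166 4 973)
(mv 972 (cons (fin 908 7 908)
(mv 974 (cons (fin 910 6 909)
(mv 1036 (cons (mv 1035 (cons (fin 975 1 971)
(fin 1034 2 970)))
(mv 1163 (cons (fin 1227 5 971)
(mv 1162 (cons (fin 1097 3 1097)
(fin 1161 2 1097))))))))))))))))))
(mv 1228 (cons (fin 1292 6 1036)
(mv 973 (cons (fin 909 5 908)
(fin 1036 6 972)))))))))))))
(cons (mv 1039 (cons (fin 1100 1 1036)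
(mv 1104 (cons (fin 1105 0 1037)
(mv 972 (cons (fin 973 3 972)
(mv 976 (cons (fin 977 2 973)
(mv 912 (cons (mv 1103 (cons (fin 1167 5 911)
(fin 848 5 847)))
(cons (mv 911 (cons (fin 847 7 847)
(mv 1168 (cons (fin 975 7 911)
(mv 1231 (cons (fin 1167 5 975)
(mv 1232 (cons (fin 1295 5 1039)
(mv 1233 (cons (fin 1297 4 1040)
(fin 1169 4 976)))))))))))
(mv 1103 (cons (fin 848 5 847)
(mv 911 (cons (fin 847 7 847)
(mv 1168 (cons (fin 975 7 911)
(mv 1232 (cons (fin 1296 7 1039)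
(mv 1233 (cons (fin 1297 4 1040)
(fin 1169 4 976))))))))))))))))))))))
(mv 1039 (cons (fin 1100 1 1036)
(mv 1104 (cons (fin 1105 0 1037)
(mv 1103 (cons (fin 1036 0 1036)
(mv 972 (cons (fin 973 3 972)
(mv 976 (cons (fin 977 2 973)
(mv 912 (cons (fin 1167 5 911)
(fin 848 5 847))))))))))))))))))
(cons (mv 1038 (cons (cons (mv 1039 (cons (fin 1100 1 1036)
(mv 1104 (cons (fin 1105 0 1037)
(mv 972 (cons (fin 973 3 972)
(mv 976 (cons (fin 977 2 973)
(mv 1168 (cons (mv 975 (cons (fin 1232 7 975)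
(fin 911 7 911)))
(cons (mv 1231 (cons (fin 1167 5 975)
(mv 1232 (cons (fin 1295 5 1039)
(mv 1233 (cons (fin 1297 4 1040)
(fin 1169 4 976)))))))
(mv 1231 (cons (fin 1167 5 975)
(mv 1233 (cons (fin 1169 4 976)
(mv 911 (cons (fin 975 7 911)
(mv 912 (cons (fin 847 7 847)
(mv 848 (cons (fin 1103 5 847)
(mv 849 (cons (fin 913 6 848)
(fin 785 6 784))))))))))))))))))))))))
(cons (mv 974 (cons (cons (mv 1165 (cons (fin 1229 6 973)
(mv 910 (cons (fin 1102 5 909)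
(fin 846 5 845)))))
(mv 910 (cons (fin 846 5 845)
(mv 1102 (cons (cons (mv 1167 (cons (fin 1103 4 910)
(mv 1166 (cons (fin 1231 4 974)
(mv 1230 (cons (fin 1294 7 1037)
(fin 973 7 973)))))))
(mv 909 (cons (fin 845 7 845)
(mv 1166 (cons (fin 973 7 909)
(mv 911 (cons (fin 975 6 910)
(fin 847 6 846))))))))
(cons (mv 1103 (cons (fin 1167 4 910)
(mv 1104 (cons (fin 1105 3 1037)
(mv 1168 (cons (fin 1169 0 1101)
(mv 909 (cons (fin 845 7 845)
(mv 911 (cons (fin 847 6 846)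
(mv 975 (cons (fin 976 7 911)
(mv 908 (cons (fin 907 0 907)
(mv 844 (cons (fin 843 3 843)
(fin 973 7 844)))))))))))))))))
(mv 1167 (cons (fin 1103 4 910)
(mv 1166 (cons (fin 1231 4 974)
(mv 911 (cons (fin 975 6 910)
(fin 847 6 846)))))))))))))
(cons (mv 1165 (cons (fin 1229 6 973)
(mv 973 (cons (cons (mv 1228 (cons (fin 1164 5 972)
(mv 1230 (cons (fin 1166 4 973)
(mv 908 (cons (fin 972 7 908)
(mv 909 (cons (fin 844 7 844)
(mv 845 (cons (fin 1102 4 845)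
(fin 781 4 781)))))))))))
(cons (mv 1228 (cons (fin 1164 5 972)
(mv 908 (cons (fin 972 7 908)
(mv 909 (cons (fin 844 7 844)
(mv 845 (cons (fin 1102 4 845)
(fin 781 4 781)))))))))
(mv 1230 (cons (fin 1166 4 973)
(mv 908 (cons (fin 972 7 908)
(mv 909 (cons (fin 844 7 844)
(mv 845 (cons (fin 1102 4 845)
(fin 781 4 781)))))))))))
(cons (mv 1228 (cons (fin 1164 5 972)
(mv 1166 (cons (fin 1230 4 973)
(mv 1102 (cons (fin 909 7 909)
(mv 1167 (cons (fin 1231 4 974)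
(mv 1168 (cons (fin 1100 3 1100)
(fin 1169 3 1101)))))))))))
(cons (mv 1164 (cons (fin 1228 5 972)
(mv 1166 (cons (fin 1230 4 973)
(mv 972 (cons (fin 908 7 908)
(mv 1102 (cons (mv 1163 (cons (fin 1162 2 1098)
(fin 1103 2 1099)))
(cons (mv 1162 (cons (fin 1163 2 1098)
(mv 1167 (cons (fin 1231 4 974)
(mv 1168 (cons (fin 1100 3 1100)
(fin 1169 3 1101)))))))
(mv 1167 (cons (fin 1231 4 974)
(mv 1168 (cons (fin 1100 3 1100)
(fin 1169 3 1101))))))))))))))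
(mv 1230 (cons (fin 1166 4 973)
(mv 1164 (cons (fin 1228 5 972)
(mv 908 (cons (fin 972 7 908)
(mv 909 (cons (fin 1100 5 908)
(fin 844 7 844)))))))))))))))
(mv 1165 (cons (fin 1229 6 973)
(mv 910 (cons (fin 846 5 845)
(fin 973 6 909))))))))
(mv 1039 (cons (cons (mv 1104 (cons (fin 1105 0 1037)
(mv 972 (cons (fin 973 3 972)
(mv 976 (cons (fin 977 2 973)
(mv 1168 (cons (mv 975 (cons (fin 1232 7 975)
(fin 911 7 911)))
(cons (mv 1231 (cons (fin 1167 5 975)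
(mv 1232 (cons (fin 1295 5 1039)
(mv 1233 (cons (fin 1297 4 1040)
(fin 1169 4 976)))))))
(mv 1231 (cons (fin 1167 5 975)
(mv 1233 (cons (fin 1169 4 976)
(mv 911 (cons (fin 975 7 911)
(mv 912 (cons (fin 847 7 847)
(mv 848 (cons (fin 1103 5 847)
(mv 849 (cons (fin 913 6 848)
(fin 785 6 784))))))))))))))))))))))
(mv 1104 (cons (fin 1105 0 1037)
(mv 976 (cons (fin 977 2 973)
(mv 1168 (cons (mv 975 (cons (fin 1232 7 975)
(fin 911 7 911)))
(cons (mv 1231 (cons (fin 1167 5 975)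
(mv 1232 (cons (fin 1295 5 1039)
(mv 1233 (cons (fin 1297 4 1040)
(fin 1169 4 976)))))))
(mv 1231 (cons (fin 1167 5 975)
(mv 1233 (cons (fin 1169 4 976)
(mv 911 (cons (fin 975 7 911)
(mv 912 (cons (fin 847 7 847)
(mv 848 (cons (fin 1103 5 847)
(mv 849 (cons (fin 913 6 848)
(fin 785 6 784)))))))))))))))))))))
(cons (mv 973 (cons (fin 972 3 972)
(mv 976 (cons (fin 977 2 973)
(mv 909 (cons (mv 1102 (cons (fin 1166 4 909)
(fin 845 4 845)))
(mv 908 (cons (fin 844 7 844)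
(mv 974 (cons (fin 975 3 908)
(mv 1165 (cons (fin 1229 6 973)
(fin 910 6 909)))))))))))))
(cons (mv 1104 (cons (fin 1105 0 1037)
(mv 973 (cons (fin 972 3 972)
(mv 1165 (cons (cons (mv 974 (cons (fin 1229 6 973)
(fin 910 6 909)))
(mv 1228 (cons (fin 1164 5 972)
(mv 1292 (cons (fin 1229 5 1036)
(mv 1166 (cons (fin 1230 4 973)
(mv 909 (cons (fin 1102 4 909)
(mv 910 (cons (fin 846 6 845)
(mv 844 (cons (fin 908 7 844)
(mv 845 (cons (fin 780 7 780)
(mv 911 (cons (fin 912 3 844)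
(mv 975 (cons (fin 847 4 847)
(mv 1168 (cons (fin 1232 7 975)
(fin 1103 4 911))))))))))))))))))))))
(cons (mv 1228 (cons (fin 1164 5 972)
(mv 1230 (cons (fin 1166 4 973)
(mv 910 (cons (fin 974 6 909)
(mv 909 (cons (fin 846 6 845)
(mv 844 (cons (fin 908 7 844)
(mv 845 (cons (fin 780 7 780)
(fin 1102 4 845)))))))))))))
(mv 1228 (cons (fin 1164 5 972)
(mv 1229 (cons (fin 1292 5 1036)
(fin 974 6 973))))))))))))
(mv 1104 (cons (fin 1105 0 1037)
(mv 972 (cons (fin 973 3 972)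
(mv 976 (cons (fin 977 2 973)
(mv 912 (cons (mv 1103 (cons (fin 1167 5 911)
(fin 848 5 847)))
(cons (mv 911 (cons (fin 847 7 847)
(mv 849 (cons (fin 913 6 848)
(mv 848 (cons (fin 785 6 784)
(mv 910 (cons (fin 909 2 845)
(mv 974 (cons (fin 846 5 845)
(mv 1165 (cons (fin 1102 5 909)
(fin 1229 6 973)))))))))))))
(mv 1167 (cons (fin 1103 5 911)
(mv 1168 (cons (fin 1231 5 975)
(mv 1233 (cons (fin 1169 4 976)
(mv 1232 (cons (fin 1297 4 1040)
(mv 1234 (cons (fin 1235 3 1167)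
(mv 1165 (cons (fin 1166 0 1165)
(mv 1229 (cons (fin 974 6 973)
(mv 1292 (cons (fin 1228 5 1036)
(mv 1293 (cons (fin 1356 5 1100)
(fin 1102 6 1037))))))))))))))))))))))))))))))))))
(cons (cons (mv 1039 (cons (fin 1100 1 1036)
(mv 1104 (cons (fin 1105 0 1037)
(mv 976 (cons (fin 977 2 973)
(mv 1168 (cons (mv 975 (cons (fin 1232 7 975)
(fin 911 7 911)))
(cons (mv 1231 (cons (fin 1167 5 975)
(mv 1232 (cons (fin 1295 5 1039)
(mv 1233 (cons (fin 1297 4 1040)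
(fin 1169 4 976)))))))
(mv 1231 (cons (fin 1167 5 975)
(mv 1233 (cons (fin 1169 4 976)
(mv 911 (cons (fin 975 7 911)
(mv 912 (cons (fin 847 7 847)
(mv 848 (cons (fin 1103 5 847)
(mv 849 (cons (fin 913 6 848)
(fin 785 6 784))))))))))))))))))))))
(mv 1039 (cons (fin 1100 1 1036)
(mv 973 (cons (fin 972 3 972)
(mv 976 (cons (fin 977 2 973)
(mv 909 (cons (mv 1102 (cons (fin 1166 4 909)
(fin 845 4 845)))
(mv 908 (cons (fin 844 7 844)
(mv 974 (cons (fin 975 3 908)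
(mv 1165 (cons (fin 1229 6 973)
(fin 910 6 909))))))))))))))))
(cons (mv 1100 (cons (fin 1039 1 1036)
(mv 1098 (cons (fin 1099 2 1034)
(mv 974 (cons (cons (mv 1165 (cons (fin 1229 6 973)
(mv 910 (cons (fin 1102 5 909)
(fin 846 5 845)))))
(mv 910 (cons (fin 846 5 845)
(mv 1102 (cons (cons (mv 1167 (cons (fin 1103 4 910)
(mv 1231 (cons (fin 1166 4 974)
(mv 909 (cons (fin 845 7 845)
(mv 973 (cons (fin 1164 5 908)
(mv 908 (cons (fin 844 7 844)
(mv 907 (cons (fin 906 0 906)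
(fin 975 0 907)))))))))))))
(mv 1167 (cons (fin 1103 4 910)
(mv 1166 (cons (fin 1231 4 974)
(mv 1230 (cons (fin 1294 7 1037)
(fin 973 7 973))))))))
(cons (mv 909 (cons (fin 845 7 845)
(mv 973 (cons (fin 1164 5 908)
(fin 1166 7 909)))))
(cons (mv 1167 (cons (fin 1103 4 910)
(mv 909 (cons (fin 845 7 845)
(mv 973 (cons (fin 1164 5 908)
(mv 908 (cons (fin 844 7 844)
(mv 907 (cons (fin 906 0 906)
(fin 975 0 907)))))))))))
(mv 1167 (cons (fin 1103 4 910)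
(mv 1166 (cons (fin 1231 4 974)
(mv 911 (cons (fin 975 6 910)
(fin 847 6 846))))))))))))))
(cons (mv 1165 (cons (fin 1229 6 973)
(mv 973 (cons (mv 1164 (cons (fin 1228 5 972)
(fin 909 5 908)))
(cons (mv 1230 (cons (fin 1166 4 973)
(mv 908 (cons (fin 972 7 908)
(mv 909 (cons (fin 844 7 844)
(mv 845 (cons (fin 1102 4 845)
(fin 781 4 781)))))))))
(mv 1164 (cons (fin 1228 5 972)
(mv 1166 (cons (fin 1230 4 973)
(mv 1167 (cons (fin 1168 3 1100)
(mv 1231 (cons (fin 1232 0 1164)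
(fin 1102 4 974))))))))))))))
(mv 1165 (cons (fin 1229 6 973)
(mv 910 (cons (fin 846 5 845)
(fin 973 6 909))))))))))))
(mv 1039 (cons (fin 1100 1 1036)
(mv 1104 (cons (fin 1105 0 1037)
(mv 972 (cons (fin 973 3 972)
(mv 976 (cons (fin 977 2 973)
(mv 912 (cons (mv 1103 (cons (fin 1167 5 911)
(fin 848 5 847)))
(cons (mv 911 (cons (fin 847 7 847)
(mv 849 (cons (fin 913 6 848)
(mv 848 (cons (fin 785 6 784)
(mv 910 (cons (fin 909 2 845)
(mv 974 (cons (fin 846 5 845)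
(mv 1165 (cons (fin 1102 5 909)
(fin 1229 6 973)))))))))))))
(mv 1167 (cons (fin 1103 5 911)
(mv 1168 (cons (fin 1231 5 975)
(mv 1233 (cons (fin 1169 4 976)
(mv 1232 (cons (fin 1297 4 1040)
(mv 1234 (cons (fin 1235 3 1167)
(mv 1165 (cons (fin 1166 0 1165)
(mv 1229 (cons (fin 974 6 973)
(mv 1292 (cons (fin 1228 5 1036)
(mv 1293 (cons (fin 1356 5 1100)
(fin 1102 6 1037))))))))))))))))))))))))))))))))))
(cons (mv 1039 (cons (cons (mv 1038 (cons (fin 1100 1 1036)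
(mv 1104 (cons (fin 1105 0 1037)
(mv 1103 (cons (fin 1036 0 1036)
(mv 972 (cons (fin 973 3 972)
(mv 976 (cons (fin 977 2 973)
(mv 1167 (cons (fin 912 5 911)
(fin 1231 6 975)))))))))))))
(cons (mv 1102 (cons (cons (mv 1103 (cons (fin 1100 2 1036)
(mv 1104 (cons (fin 1036 3 1036)
(mv 1164 (cons (fin 1165 1 1100)
(mv 1168 (cons (fin 1169 0 1101)
(mv 1232 (cons (fin 1296 7 1039)
(fin 975 7 975)))))))))))
(cons (mv 973 (cons (cons (mv 1166 (cons (fin 909 4 909)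
(mv 1230 (cons (fin 1294 7 1037)
(fin 1165 4 973)))))
(mv 1165 (cons (cons (mv 1228 (cons (fin 1164 5 972)
(mv 1230 (cons (fin 1166 4 973)
(mv 972 (cons (fin 908 7 908)
(mv 974 (cons (fin 975 0 972)
(fin 910 6 909)))))))))
(mv 1228 (cons (fin 1164 5 972)
(mv 972 (cons (fin 908 7 908)
(mv 974 (cons (fin 975 0 972)
(fin 910 6 909))))))))
(cons (mv 1230 (cons (fin 1166 4 973)
(mv 972 (cons (fin 908 7 908)
(mv 974 (cons (fin 975 0 972)
(fin 910 6 909)))))))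
(mv 1164 (cons (fin 1228 5 972)
(mv 1163 (cons (fin 1162 2 1098)
(mv 1166 (cons (fin 1230 4 973)
(mv 1226 (cons (fin 1227 1 1162)
(mv 1099 (cons (fin 1098 3 1098)
(mv 1167 (cons (fin 1100 3 1099)
(mv 1231 (cons (fin 1232 0 1164)
(mv 1359 (cons (fin 1295 7 1102)
(mv 1168 (cons (fin 1169 3 1101)
(mv 1104 (cons (fin 1105 2 1101)
(fin 976 5 975)))))))))))))))))))))))))
(cons (mv 909 (cons (cons (mv 1164 (cons (fin 1100 5 908)
(mv 1228 (cons (fin 1165 5 972)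
(mv 844 (cons (fin 908 7 844)
(mv 845 (cons (fin 780 7 780)
(mv 846 (cons (fin 910 6 845)
(fin 782 6 781)))))))))))
(mv 1164 (cons (fin 1100 5 908)
(mv 1165 (cons (fin 1228 5 972)
(mv 910 (cons (fin 974 6 909)
(fin 846 6 845))))))))
(cons (mv 908 (cons (fin 844 7 844)
(mv 1165 (cons (fin 972 7 908)
(mv 910 (cons (fin 974 6 909)
(fin 846 6 845)))))))
(cons (mv 1164 (cons (fin 1100 5 908)
(mv 1165 (cons (fin 1228 5 972)
(mv 908 (cons (fin 972 7 908)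
(fin 844 7 844)))))))
(mv 1164 (cons (fin 1100 5 908)
(mv 844 (cons (fin 908 7 844)
(mv 845 (cons (fin 780 7 780)
(mv 846 (cons (fin 910 6 845)
(fin 782 6 781)))))))))))))
(mv 909 (cons (fin 1166 4 909)
(mv 1164 (cons (fin 1100 5 908)
(mv 844 (cons (fin 908 7 844)
(mv 845 (cons (fin 780 7 780)
(mv 846 (cons (fin 910 6 845)
(fin 782 6 781))))))))))))))
(mv 1166 (cons (cons (mv 1230 (cons (fin 1294 7 1037)
(mv 973 (cons (fin 1165 4 973)
(fin 909 4 909)))))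
(mv 973 (cons (fin 909 4 909)
(mv 1165 (cons (mv 1228 (cons (fin 1164 5 972)
(mv 972 (cons (fin 908 7 908)
(mv 974 (cons (fin 975 0 972)
(fin 910 6 909)))))))
(cons (mv 972 (cons (fin 908 7 908)
(mv 974 (cons (fin 975 0 972)
(fin 910 6 909)))))
(mv 1164 (cons (fin 1228 5 972)
(mv 1163 (cons (fin 1162 2 1098)
(fin 1103 2 1099)))))))))))
(cons (mv 1230 (cons (fin 1294 7 1037)
(mv 1103 (cons (mv 975 (cons (fin 1167 5 974)
(fin 911 5 910)))
(mv 1104 (cons (fin 1036 3 1036)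
(mv 1165 (cons (fin 1164 1 1100)
(fin 1105 1 1101)))))))))
(mv 1294 (cons (fin 1230 7 1037)
(mv 973 (cons (fin 909 4 909)
(mv 975 (cons (cons (mv 1103 (cons (fin 911 5 910)
(mv 1104 (cons (fin 1036 3 1036)
(mv 1168 (cons (fin 1169 0 1101)
(fin 1232 7 975)))))))
(mv 974 (cons (fin 972 0 972)
(mv 976 (cons (fin 1036 1 972)
(mv 912 (cons (fin 913 2 909)
(mv 848 (cons (fin 784 5 783)
(mv 847 (cons (fin 783 7 783)
(mv 1104 (cons (fin 911 7 847)
(mv 1168 (cons (fin 1232 7 975)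
(mv 1167 (cons (fin 1169 3 1101)
(fin 1231 5 975))))))))))))))))))
(cons (mv 974 (cons (fin 972 0 972)
(mv 1036 (cons (fin 976 1 972)
(mv 1103 (cons (fin 1104 3 1036)
(mv 1167 (cons (fin 910 7 910)
(mv 1168 (cons (fin 1169 3 1101)
(fin 1232 4 975)))))))))))
(cons (mv 1103 (cons (fin 911 5 910)
(mv 974 (cons (fin 972 0 972)
(mv 1167 (cons (fin 910 7 910)
(mv 1168 (cons (fin 1169 3 1101)
(fin 1232 4 975)))))))))
(mv 1103 (cons (fin 911 5 910)
(mv 1104 (cons (fin 1036 3 1036)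
(mv 974 (cons (fin 972 0 972)
(mv 1167 (cons (fin 910 7 910)
(mv 1231 (cons (fin 1295 6 1039)
(fin 976 6 975))))))))))))))))))))))))
(cons (mv 1100 (cons (fin 1103 2 1036)
(mv 1099 (cons (cons (mv 1162 (cons (fin 1163 1 1098)
(mv 1161 (cons (fin 1098 1 1097)
(mv 1166 (cons (fin 1167 0 1099)
(mv 1230 (cons (fin 1294 7 1037)
(mv 973 (cons (fin 1165 4 973)
(fin 909 4 909)))))))))))
(mv 1162 (cons (fin 1163 1 1098)
(mv 1098 (cons (fin 1161 1 1097)
(mv 1034 (cons (fin 1033 3 1033)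
(fin 1035 3 1034))))))))
(cons (mv 1166 (cons (fin 1167 0 1099)
(mv 1294 (cons (fin 1230 7 1037)
(mv 1165 (cons (fin 1098 0 1098)
(mv 1034 (cons (fin 1035 3 1034)
(mv 973 (cons (fin 909 4 909)
(mv 1228 (cons (fin 1164 5 972)
(mv 972 (cons (fin 908 7 908)
(mv 974 (cons (fin 975 0 972)
(fin 910 6 909)))))))))))))))))
(mv 1162 (cons (fin 1163 1 1098)
(mv 1166 (cons (fin 1167 0 1099)
(mv 1230 (cons (fin 1294 7 1037)
(mv 973 (cons (fin 1165 4 973)
(fin 909 4 909))))))))))))))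
(cons (mv 1103 (cons (fin 1100 2 1036)
(mv 1104 (cons (fin 1036 3 1036)
(mv 1168 (cons (fin 1169 0 1101)
(mv 1232 (cons (fin 1296 7 1039)
(fin 975 7 975)))))))))
(mv 1103 (cons (fin 1100 2 1036)
(mv 1104 (cons (fin 1036 3 1036)
(mv 1164 (cons (fin 1165 1 1100)
(mv 1168 (cons (fin 1169 0 1101)
(mv 1232 (cons (fin 1296 7 1039)
(mv 1297 (cons (fin 1233 4 1040)
(mv 1231 (cons (fin 1295 5 1039)
(mv 976 (cons (fin 1167 5 975)
(mv 912 (cons (fin 848 5 847)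
(mv 913 (cons (fin 977 6 912)
(fin 849 6 848)))))))))))))))))))))))))
(mv 1038 (cons (cons (mv 1104 (cons (fin 1105 0 1037)
(mv 1103 (cons (fin 1036 0 1036)
(mv 972 (cons (fin 973 3 972)
(mv 976 (cons (fin 977 2 973)
(mv 1167 (cons (fin 912 5 911)
(fin 1231 6 975)))))))))))
(cons (mv 972 (cons (fin 973 3 972)
(mv 976 (cons (fin 977 2 973)
(mv 975 (cons (fin 1036 2 972)
(mv 1103 (cons (mv 1167 (cons (fin 1231 6 975)
(fin 912 6 911)))
(cons (mv 912 (cons (fin 848 5 847)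
(mv 911 (cons (mv 1102 (cons (fin 1166 5 910)
(fin 847 5 846)))
(cons (mv 1102 (cons (fin 1166 5 910)
(mv 910 (cons (fin 846 7 846)
(mv 974 (cons (fin 1165 5 909)
(mv 909 (cons (fin 908 0 908)
(fin 845 7 845)))))))))
(mv 846 (cons (fin 910 7 846)
(mv 847 (cons (fin 782 7 782)
(fin 783 4 783))))))))))
(mv 1167 (cons (fin 1231 6 975)
(mv 1230 (cons (fin 1166 5 974)
(mv 1232 (cons (fin 1168 4 975)
(mv 910 (cons (fin 974 7 910)
(mv 911 (cons (fin 846 7 846)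
(mv 847 (cons (fin 1102 5 846)
(fin 783 4 783))))))))))))))))))))))
(mv 1104 (cons (fin 1105 0 1037)
(mv 1103 (cons (fin 1036 0 1036)
(mv 972 (cons (fin 973 3 972)
(mv 1168 (cons (mv 1232 (cons (fin 1296 7 1039)
(fin 975 7 975)))
(cons (mv 1169 (cons (fin 1102 0 1101)
(mv 1170 (cons (fin 1171 3 1103)
(mv 975 (cons (fin 911 4 911)
(mv 1167 (cons (mv 1230 (cons (fin 1231 1 1166)
(fin 1166 5 974)))
(cons (mv 1234 (cons (fin 1235 0 1167)
(mv 1166 (cons (fin 1233 0 1166)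
(fin 1230 5 974)))))
(mv 1231 (cons (fin 974 7 974)
(fin 1295 6 1039))))))))))))
(mv 1232 (cons (fin 1296 7 1039)
(mv 1297 (cons (fin 1233 4 1040)
(mv 1231 (cons (fin 1295 5 1039)
(mv 1167 (cons (fin 974 7 974)
(mv 1230 (cons (fin 1294 5 1038)
(mv 1169 (cons (fin 1170 1 1166)
(fin 1102 0 1101))))))))))))))))))))))))
(cons (mv 1104 (cons (fin 1105 0 1037)
(mv 1103 (cons (fin 1036 0 1036)
(mv 976 (cons (fin 977 2 973)
(mv 1167 (cons (fin 912 5 911)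
(fin 1231 6 975)))))))))
(cons (mv 1104 (cons (fin 1105 0 1037)
(mv 972 (cons (fin 973 3 972)
(mv 976 (cons (fin 977 2 973)
(mv 1168 (cons (mv 975 (cons (fin 1232 7 975)
(fin 911 7 911)))
(cons (mv 1231 (cons (fin 1167 5 975)
(mv 1232 (cons (fin 1295 5 1039)
(mv 1233 (cons (fin 1297 4 1040)
(fin 1169 4 976)))))))
(mv 1231 (cons (fin 1167 5 975)
(mv 1233 (cons (fin 1169 4 976)
(mv 911 (cons (fin 975 7 911)
(mv 912 (cons (fin 847 7 847)
(mv 848 (cons (fin 1103 5 847)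
(mv 849 (cons (fin 913 6 848)
(fin 785 6 784))))))))))))))))))))))
(mv 1104 (cons (fin 1105 0 1037)
(mv 972 (cons (fin 973 3 972)
(mv 976 (cons (fin 977 2 973)
(mv 975 (cons (fin 1036 2 972)
(mv 1168 (cons (fin 1232 7 975)
(fin 911 7 911)))))))))))))))))
(cons (mv 1038 (cons (fin 1100 1 1036)
(mv 1104 (cons (fin 1105 0 1037)
(mv 1103 (cons (fin 1036 0 1036)
(mv 976 (cons (fin 977 2 973)
(mv 1167 (cons (fin 912 5 911)
(fin 1231 6 975)))))))))))
(cons (mv 1100 (cons (fin 1038 1 1036)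
(mv 1102 (cons (fin 1103 2 1036)
(mv 1099 (cons (cons (mv 1162 (cons (fin 1163 1 1098)
(mv 1161 (cons (fin 1098 1 1097)
(mv 1166 (cons (fin 1167 0 1099)
(mv 1230 (cons (fin 1294 7 1037)
(mv 973 (cons (fin 1165 4 973)
(fin 909 4 909)))))))))))
(mv 1162 (cons (fin 1163 1 1098)
(mv 1098 (cons (fin 1161 1 1097)
(mv 1034 (cons (fin 1033 3 1033)
(fin 1035 3 1034))))))))
(cons (mv 1166 (cons (fin 1167 0 1099)
(mv 1294 (cons (fin 1230 7 1037)
(mv 1165 (cons (fin 1098 0 1098)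
(mv 1034 (cons (fin 1035 3 1034)
(mv 973 (cons (fin 909 4 909)
(mv 1228 (cons (fin 1164 5 972)
(mv 972 (cons (fin 908 7 908)
(mv 974 (cons (fin 975 0 972)
(fin 910 6 909)))))))))))))))))
(mv 1162 (cons (fin 1163 1 1098)
(mv 1166 (cons (fin 1167 0 1099)
(mv 1230 (cons (fin 1294 7 1037)
(mv 973 (cons (fin 1165 4 973)
(fin 909 4 909))))))))))))))))
(mv 1038 (cons (fin 1100 1 1036)
(mv 1104 (cons (fin 1105 0 1037)
(mv 972 (cons (fin 973 3 972)
(mv 976 (cons (fin 977 2 973)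
(mv 975 (cons (fin 1036 2 972)
(mv 1168 (cons (fin 1232 7 975)
(fin 911 7 911)))))))))))))))))
(mv 1038 (cons (cons (cons (mv 1039 (cons (fin 1100 1 1036)
(mv 1104 (cons (fin 1105 0 1037)
(mv 1103 (cons (fin 1036 0 1036)
(mv 972 (cons (fin 973 3 972)
(mv 976 (cons (fin 977 2 973)
(mv 1167 (cons (fin 912 5 911)
(fin 1231 6 975)))))))))))))
(mv 974 (cons (cons (mv 1165 (cons (fin 1229 6 973)
(mv 910 (cons (fin 1102 5 909)
(fin 846 5 845)))))
(mv 910 (cons (fin 846 5 845)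
(mv 1102 (cons (mv 1167 (cons (fin 1103 4 910)
(mv 1166 (cons (fin 1231 4 974)
(mv 1230 (cons (fin 1294 7 1037)
(fin 973 7 973)))))))
(cons (mv 911 (cons (fin 847 6 846)
(mv 1166 (cons (fin 975 6 910)
(mv 1230 (cons (fin 1294 7 1037)
(fin 973 7 973)))))))
(mv 1103 (cons (fin 1167 4 910)
(mv 1104 (cons (fin 1036 3 1036)
(fin 1105 3 1037)))))))))))
(cons (mv 1165 (cons (fin 1229 6 973)
(mv 1166 (cons (cons (mv 1230 (cons (fin 973 4 973)
(mv 1294 (cons (fin 1358 7 1101)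
(fin 1102 7 1037)))))
(mv 975 (cons (mv 1102 (cons (fin 911 6 910)
(mv 1231 (cons (fin 1167 4 974)
(mv 1036 (cons (fin 1035 2 971)
(mv 976 (cons (fin 973 1 972)
(fin 977 1 973)))))))))
(cons (mv 1036 (cons (fin 1035 2 971)
(mv 976 (cons (fin 973 1 972)
(fin 977 1 973)))))
(mv 1102 (cons (fin 911 6 910)
(mv 1167 (cons (fin 1231 4 974)
(mv 1168 (cons (fin 1100 3 1100)
(fin 1169 3 1101)))))))))))
(cons (mv 1167 (cons (cons (mv 1231 (cons (fin 1102 4 974)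
(mv 1232 (cons (fin 1164 0 1164)
(mv 1233 (cons (fin 1230 3 1165)
(fin 1234 3 1166)))))))
(mv 1168 (cons (fin 1100 3 1100)
(mv 1232 (cons (fin 1233 0 1165)
(mv 1231 (cons (fin 1164 0 1164)
(mv 1104 (cons (fin 1105 2 1101)
(fin 1295 5 1039))))))))))
(cons (mv 1168 (cons (fin 1100 3 1100)
(mv 1232 (cons (fin 1233 0 1165)
(mv 1169 (cons (fin 1102 3 1101)
(mv 1105 (cons (fin 1104 2 1101)
(fin 1106 2 1102)))))))))
(mv 1231 (cons (fin 1102 4 974)
(mv 1168 (cons (fin 1100 3 1100)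
(mv 1104 (cons (fin 1105 2 1101)
(fin 976 5 975))))))))))
(mv 973 (cons (fin 1230 4 973)
(mv 1164 (cons (fin 1228 5 972)
(mv 972 (cons (fin 908 7 908)
(mv 1163 (cons (cons (mv 1226 (cons (fin 1227 1 1162)
(mv 1225 (cons (fin 1162 1 1161)
(mv 1099 (cons (fin 1098 3 1098)
(mv 1167 (cons (fin 1100 3 1099)
(mv 1231 (cons (fin 1232 0 1164)
(mv 1104 (cons (fin 1103 2 1100)
(mv 1168 (cons (fin 1105 2 1101)
(fin 976 5 975)))))))))))))))
(cons (mv 1226 (cons (fin 1227 1 1162)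
(mv 1162 (cons (fin 1225 1 1161)
(mv 1161 (cons (fin 1100 2 1097)
(mv 1097 (cons (fin 1096 3 1096)
(fin 1098 3 1097)))))))))
(mv 1226 (cons (fin 1227 1 1162)
(mv 1162 (cons (fin 1225 1 1161)
(mv 1100 (cons (fin 1161 2 1097)
(mv 1167 (cons (fin 1099 3 1099)
(fin 1168 3 1100)))))))))))
(cons (cons (mv 1098 (cons (fin 1099 3 1098)
(mv 1162 (cons (fin 1097 3 1097)
(mv 1225 (cons (fin 1226 1 1161)
(mv 1161 (cons (fin 1224 1 1160)
(fin 1100 2 1097)))))))))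
(mv 1098 (cons (fin 1099 3 1098)
(mv 1162 (cons (fin 1097 3 1097)
(mv 1100 (cons (fin 1161 2 1097)
(mv 1167 (cons (fin 1168 3 1100)
(mv 1231 (cons (fin 1232 0 1164)
(mv 1103 (cons (fin 1104 2 1100)
(mv 1036 (cons (fin 1227 5 971)
(mv 1035 (cons (fin 975 1 971)
(fin 1034 2 970))))))))))))))))))
(cons (mv 1226 (cons (fin 1227 1 1162)
(mv 1162 (cons (fin 1225 1 1161)
(mv 1098 (cons (fin 1097 3 1097)
(fin 1099 3 1098)))))))
(mv 1226 (cons (fin 1227 1 1162)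
(mv 1099 (cons (fin 1098 3 1098)
(mv 1167 (cons (fin 1100 3 1099)
(mv 1231 (cons (fin 1232 0 1164)
(mv 1104 (cons (fin 1103 2 1100)
(mv 1168 (cons (fin 1105 2 1101)
(fin 976 5 975))))))))))))))))))))))))))))
(mv 1165 (cons (fin 1229 6 973)
(mv 910 (cons (fin 846 5 845)
(fin 973 6 909)))))))))
(cons (mv 1039 (cons (cons (mv 1104 (cons (fin 1105 0 1037)
(mv 1103 (cons (fin 1036 0 1036)
(mv 972 (cons (fin 973 3 972)
(mv 976 (cons (fin 977 2 973)
(mv 1167 (cons (fin 912 5 911)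
(fin 1231 6 975)))))))))))
(cons (mv 972 (cons (fin 973 3 972)
(mv 976 (cons (fin 977 2 973)
(mv 1165 (cons (cons (mv 1229 (cons (fin 1036 7 972)
(fin 974 6 973)))
(mv 975 (cons (fin 1036 2 972)
(mv 1102 (cons (cons (mv 1230 (cons (fin 1166 6 974)
(mv 910 (cons (fin 974 5 909)
(mv 911 (cons (fin 847 5 846)
(mv 1103 (cons (fin 846 7 846)
(mv 1167 (cons (fin 1231 6 975)
(fin 912 6 911)))))))))))
(mv 910 (cons (fin 974 5 909)
(mv 911 (cons (fin 847 5 846)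
(mv 1103 (cons (fin 846 7 846)
(mv 1167 (cons (fin 1231 6 975)
(fin 912 6 911))))))))))
(cons (mv 1166 (cons (fin 1230 6 974)
(mv 974 (cons (fin 910 5 909)
(mv 1167 (cons (fin 1231 4 974)
(mv 1168 (cons (fin 1169 3 1101)
(mv 1232 (cons (fin 1233 0 1165)
(fin 1103 4 975)))))))))))
(cons (mv 1166 (cons (fin 1230 6 974)
(mv 911 (cons (fin 1103 5 910)
(fin 847 5 846)))))
(mv 1166 (cons (fin 1230 6 974)
(mv 974 (cons (fin 910 5 909)
(fin 911 6 910))))))))))))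
(cons (mv 1229 (cons (fin 974 6 973)
(mv 1292 (cons (fin 1228 5 1036)
(mv 1293 (cons (fin 1356 5 1100)
(fin 1102 6 1037)))))))
(mv 1036 (cons (fin 975 2 972)
(fin 1229 7 972))))))))))
(mv 1104 (cons (fin 1105 0 1037)
(mv 1036 (cons (fin 1103 0 1036)
(mv 972 (cons (fin 973 3 972)
(mv 1165 (cons (fin 1229 7 972)
(mv 844 (cons (fin 908 4 844)
(mv 974 (cons (mv 910 (cons (fin 1102 5 909)
(fin 846 5 845)))
(cons (mv 1035 (cons (fin 975 2 971)
(mv 1098 (cons (fin 1099 1 1034)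
(mv 1034 (cons (fin 1097 1 1033)
(fin 1102 0 1034)))))))
(mv 975 (cons (fin 1035 2 971)
(mv 846 (cons (fin 910 5 845)
(mv 847 (cons (fin 911 4 847)
(mv 845 (cons (cons (mv 1232 (cons (fin 1168 7 975)
(mv 779 (cons (fin 780 3 779)
(mv 843 (cons (fin 778 3 778)
(mv 783 (cons (fin 782 2 779)
(fin 784 2 780)))))))))
(mv 783 (cons (fin 784 2 780)
(mv 843 (cons (fin 782 2 779)
(mv 906 (cons (fin 907 1 842)
(mv 842 (cons (fin 905 1 841)
(mv 778 (cons (fin 777 3 777)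
(fin 779 3 778))))))))))))
(cons (mv 780 (cons (fin 779 3 779)
(mv 848 (cons (fin 781 3 780)
(mv 913 (cons (fin 912 0 845)
(mv 849 (cons (fin 914 0 846)
(mv 785 (cons (fin 784 2 781)
(fin 786 2 782)))))))))))
(cons (mv 784 (cons (fin 783 2 780)
(mv 848 (cons (fin 785 2 781)
(mv 913 (cons (fin 912 0 845)
(mv 849 (cons (fin 914 0 846)
(mv 781 (cons (fin 780 3 780)
(fin 782 3 781)))))))))))
(mv 779 (cons (fin 780 3 779)
(mv 843 (cons (fin 778 3 778)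
(mv 906 (cons (fin 907 1 842)
(mv 842 (cons (fin 905 1 841)
(mv 782 (cons (fin 781 2 778)
(fin 783 2 779))))))))))))))))))))))))))))))))))))
(cons (mv 1104 (cons (fin 1105 0 1037)
(mv 1103 (cons (fin 1036 0 1036)
(mv 976 (cons (fin 977 2 973)
(mv 1167 (cons (fin 912 5 911)
(fin 1231 6 975)))))))))
(cons (mv 1104 (cons (fin 1105 0 1037)
(mv 972 (cons (fin 973 3 972)
(mv 976 (cons (fin 977 2 973)
(mv 1168 (cons (mv 975 (cons (fin 1232 7 975)
(fin 911 7 911)))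
(cons (mv 1231 (cons (fin 1167 5 975)
(mv 1232 (cons (fin 1295 5 1039)
(mv 1233 (cons (fin 1297 4 1040)
(fin 1169 4 976)))))))
(mv 1231 (cons (fin 1167 5 975)
(mv 1233 (cons (fin 1169 4 976)
(mv 911 (cons (fin 975 7 911)
(mv 912 (cons (fin 847 7 847)
(mv 848 (cons (fin 1103 5 847)
(mv 849 (cons (fin 913 6 848)
(fin 785 6 784))))))))))))))))))))))
(mv 1104 (cons (fin 1105 0 1037)
(mv 972 (cons (fin 973 3 972)
(mv 976 (cons (fin 977 2 973)
(mv 975 (cons (fin 1036 2 972)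
(mv 1168 (cons (fin 1232 7 975)
(fin 911 7 911)))))))))))))))
(mv 1039 (cons (fin 1100 1 1036)
(mv 1104 (cons (fin 1105 0 1037)
(mv 1103 (cons (fin 1036 0 1036)
(mv 976 (cons (fin 977 2 973)
(mv 1167 (cons (fin 912 5 911)
(fin 1231 6 975)))))))))))))
(cons (cons (mv 1039 (cons (fin 1100 1 1036)
(mv 972 (cons (fin 973 3 972)
(mv 976 (cons (fin 977 2 973)
(mv 1165 (cons (cons (mv 1229 (cons (fin 1036 7 972)
(fin 974 6 973)))
(mv 975 (cons (fin 1036 2 972)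
(mv 1102 (cons (cons (mv 1230 (cons (fin 1166 6 974)
(mv 910 (cons (fin 974 5 909)
(mv 911 (cons (fin 847 5 846)
(mv 1103 (cons (fin 846 7 846)
(mv 1167 (cons (fin 1231 6 975)
(fin 912 6 911)))))))))))
(mv 910 (cons (fin 974 5 909)
(mv 911 (cons (fin 847 5 846)
(mv 1103 (cons (fin 846 7 846)
(mv 1167 (cons (fin 1231 6 975)
(fin 912 6 911))))))))))
(cons (mv 1166 (cons (fin 1230 6 974)
(mv 974 (cons (fin 910 5 909)
(mv 1167 (cons (fin 1231 4 974)
(mv 1168 (cons (fin 1169 3 1101)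
(mv 1232 (cons (fin 1233 0 1165)
(fin 1103 4 975)))))))))))
(cons (mv 1166 (cons (fin 1230 6 974)
(mv 911 (cons (fin 1103 5 910)
(fin 847 5 846)))))
(mv 1166 (cons (fin 1230 6 974)
(mv 974 (cons (fin 910 5 909)
(fin 911 6 910))))))))))))
(cons (mv 1229 (cons (fin 974 6 973)
(mv 1292 (cons (fin 1228 5 1036)
(mv 1293 (cons (fin 1356 5 1100)
(fin 1102 6 1037)))))))
(mv 1036 (cons (fin 975 2 972)
(fin 1229 7 972))))))))))))
(mv 1039 (cons (fin 1100 1 1036)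
(mv 1104 (cons (fin 1105 0 1037)
(mv 1036 (cons (fin 1103 0 1036)
(mv 972 (cons (fin 973 3 972)
(mv 1165 (cons (fin 1229 7 972)
(mv 844 (cons (fin 908 4 844)
(mv 974 (cons (mv 910 (cons (fin 1102 5 909)
(fin 846 5 845)))
(cons (mv 1035 (cons (fin 975 2 971)
(mv 1098 (cons (fin 1099 1 1034)
(mv 1034 (cons (fin 1097 1 1033)
(fin 1102 0 1034)))))))
(mv 975 (cons (fin 1035 2 971)
(mv 846 (cons (fin 910 5 845)
(mv 847 (cons (fin 911 4 847)
(mv 845 (cons (cons (mv 1232 (cons (fin 1168 7 975)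
(mv 779 (cons (fin 780 3 779)
(mv 843 (cons (fin 778 3 778)
(mv 783 (cons (fin 782 2 779)
(fin 784 2 780)))))))))
(mv 783 (cons (fin 784 2 780)
(mv 843 (cons (fin 782 2 779)
(mv 906 (cons (fin 907 1 842)
(mv 842 (cons (fin 905 1 841)
(mv 778 (cons (fin 777 3 777)
(fin 779 3 778))))))))))))
(cons (mv 780 (cons (fin 779 3 779)
(mv 848 (cons (fin 781 3 780)
(mv 913 (cons (fin 912 0 845)
(mv 849 (cons (fin 914 0 846)
(mv 785 (cons (fin 784 2 781)
(fin 786 2 782)))))))))))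
(cons (mv 784 (cons (fin 783 2 780)
(mv 848 (cons (fin 785 2 781)
(mv 913 (cons (fin 912 0 845)
(mv 849 (cons (fin 914 0 846)
(mv 781 (cons (fin 780 3 780)
(fin 782 3 781)))))))))))
(mv 779 (cons (fin 780 3 779)
(mv 843 (cons (fin 778 3 778)
(mv 906 (cons (fin 907 1 842)
(mv 842 (cons (fin 905 1 841)
(mv 782 (cons (fin 781 2 778)
(fin 783 2 779)))))))))))))))))))))))))))))))))))))
(cons (mv 1039 (cons (fin 1100 1 1036)
(mv 1104 (cons (fin 1105 0 1037)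
(mv 972 (cons (fin 973 3 972)
(mv 976 (cons (fin 977 2 973)
(mv 1168 (cons (mv 975 (cons (fin 1232 7 975)
(fin 911 7 911)))
(cons (mv 1231 (cons (fin 1167 5 975)
(mv 1232 (cons (fin 1295 5 1039)
(mv 1233 (cons (fin 1297 4 1040)
(fin 1169 4 976)))))))
(mv 1231 (cons (fin 1167 5 975)
(mv 1233 (cons (fin 1169 4 976)
(mv 911 (cons (fin 975 7 911)
(mv 912 (cons (fin 847 7 847)
(mv 848 (cons (fin 1103 5 847)
(mv 849 (cons (fin 913 6 848)
(fin 785 6 784))))))))))))))))))))))))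
(mv 1039 (cons (fin 1100 1 1036)
(mv 1104 (cons (fin 1105 0 1037)
(mv 972 (cons (fin 973 3 972)
(mv 976 (cons (fin 977 2 973)
(mv 975 (cons (fin 1036 2 972)
(mv 1168 (cons (fin 1232 7 975)
(fin 911 7 911)))))))))))))))))))))
(cons (cons (cons (mv 1100 (cons (cons (cons (mv 1038 (cons (fin 1039 1 1036)
(mv 1099 (cons (fin 1098 2 1034)
(mv 1102 (cons (cons (mv 1162 (cons (fin 1163 1 1098)
(mv 1166 (cons (fin 1167 0 1099)
(mv 1230 (cons (fin 1294 7 1037)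
(fin 973 7 973)))))))
(mv 1162 (cons (fin 1163 1 1098)
(mv 1035 (cons (fin 1034 3 1034)
(mv 1103 (cons (fin 1036 3 1035)
(mv 1168 (cons (fin 1167 0 1100)
(mv 1104 (cons (fin 1105 3 1037)
(fin 1169 0 1101))))))))))))
(cons (mv 1166 (cons (fin 1167 0 1099)
(mv 1230 (cons (fin 1294 7 1037)
(fin 973 7 973)))))
(mv 1162 (cons (fin 1163 1 1098)
(mv 1035 (cons (fin 1034 3 1034)
(mv 1103 (cons (fin 1036 3 1035)
(mv 1104 (cons (fin 1105 3 1037)
(mv 1165 (cons (fin 1164 1 1100)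
(mv 1229 (cons (fin 1293 6 1037)
(mv 1292 (cons (fin 1228 5 1036)
(mv 1230 (cons (fin 1294 4 1037)
(mv 1168 (cons (fin 1169 0 1101)
(mv 973 (cons (fin 1166 7 973)
(mv 908 (cons (fin 972 7 908)
(mv 909 (cons (fin 844 7 844)
(fin 845 4 845))))))))))))))))))))))))))))))))
(cons (mv 1164 (cons (cons (mv 1228 (cons (fin 1292 6 1036)
(mv 973 (cons (fin 1165 5 972)
(fin 909 5 908)))))
(mv 973 (cons (fin 909 5 908)
(mv 1165 (cons (cons (mv 1230 (cons (fin 1166 4 973)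
(mv 1229 (cons (fin 1294 4 1037)
(mv 1293 (cons (fin 1357 7 1100)
(fin 1036 7 1036)))))))
(mv 972 (cons (fin 908 7 908)
(mv 1229 (cons (fin 1036 7 972)
(mv 1293 (cons (fin 1357 7 1100)
(mv 1294 (cons (fin 1358 4 1101)
(fin 1230 4 1037))))))))))
(cons (mv 972 (cons (fin 908 7 908)
(mv 1229 (cons (fin 1036 7 972)
(mv 1293 (cons (fin 1357 7 1100)
(mv 1356 (cons (fin 1292 5 1100)
(mv 1358 (cons (fin 1294 4 1101)
(mv 1102 (cons (fin 1038 6 1037)
(mv 1163 (cons (fin 1103 1 1099)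
(fin 1162 2 1098)))))))))))))))
(mv 1166 (cons (fin 1230 4 973)
(mv 1167 (cons (fin 1099 3 1099)
(fin 1168 3 1100)))))))))))
(cons (mv 1292 (cons (fin 1228 6 1036)
(mv 1163 (cons (cons (mv 1162 (cons (fin 1161 2 1097)
(mv 1102 (cons (fin 1099 1 1098)
(fin 1103 1 1099)))))
(mv 1162 (cons (fin 1161 2 1097)
(mv 1165 (cons (mv 1225 (cons (fin 1226 1 1161)
(mv 1229 (cons (fin 1230 0 1162)
(mv 1293 (cons (fin 1356 5 1100)
(fin 1357 7 1100)))))))
(cons (mv 1225 (cons (fin 1226 1 1161)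
(mv 1098 (cons (fin 1097 3 1097)
(mv 1099 (cons (fin 1166 3 1098)
(fin 1038 2 1034)))))))
(mv 1229 (cons (fin 1230 0 1162)
(mv 1293 (cons (fin 1356 5 1100)
(fin 1357 7 1100)))))))))))
(cons (mv 1102 (cons (fin 1103 1 1099)
(mv 1099 (cons (cons (mv 1166 (cons (fin 1167 0 1099)
(mv 1098 (cons (fin 1165 3 1098)
(fin 1038 2 1034)))))
(mv 1166 (cons (fin 1167 0 1099)
(mv 1230 (cons (fin 1294 7 1037)
(mv 1165 (cons (fin 1231 0 1163)
(mv 1227 (cons (fin 1226 1 1162)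
(mv 1291 (cons (fin 1356 4 1099)
(fin 1355 6 1099))))))))))))
(cons (mv 1098 (cons (fin 1038 2 1034)
(mv 1097 (cons (fin 1096 0 1096)
(fin 1165 0 1097)))))
(mv 1166 (cons (fin 1167 0 1099)
(mv 1294 (cons (fin 1230 7 1037)
(mv 1098 (cons (fin 1038 2 1034)
(mv 1097 (cons (fin 1096 0 1096)
(fin 1036 2 1033))))))))))))))
(mv 1162 (cons (fin 1161 2 1097)
(mv 1102 (cons (fin 1103 1 1099)
(fin 1165 2 1098))))))))))
(cons (mv 973 (cons (fin 909 5 908)
(mv 1228 (cons (fin 1165 5 972)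
(fin 1036 6 972)))))
(mv 1228 (cons (fin 1292 6 1036)
(mv 973 (cons (fin 909 5 908)
(fin 1036 6 972)))))))))
(mv 1164 (cons (cons (mv 1228 (cons (fin 1292 6 1036)
(mv 973 (cons (fin 1165 5 972)
(fin 909 5 908)))))
(mv 973 (cons (fin 909 5 908)
(mv 1165 (cons (cons (mv 1230 (cons (fin 1166 4 973)
(mv 1229 (cons (fin 1294 4 1037)
(mv 1293 (cons (fin 1357 7 1100)
(fin 1036 7 1036)))))))
(mv 972 (cons (fin 908 7 908)
(mv 1229 (cons (fin 1036 7 972)
(mv 1293 (cons (fin 1357 7 1100)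
(mv 1294 (cons (fin 1358 4 1101)
(fin 1230 4 1037))))))))))
(cons (mv 972 (cons (fin 908 7 908)
(mv 1036 (cons (fin 1229 7 972)
(mv 1163 (cons (fin 1227 5 971)
(mv 1162 (cons (fin 1161 2 1097)
(fin 1102 2 1098)))))))))
(mv 1166 (cons (fin 1230 4 973)
(mv 1167 (cons (fin 1099 3 1099)
(fin 1168 3 1100)))))))))))
(cons (mv 1292 (cons (fin 1228 6 1036)
(mv 1102 (cons (mv 1103 (cons (fin 1163 1 1099)
(fin 1039 2 1036)))
(cons (mv 1099 (cons (cons (mv 1162 (cons (fin 1163 1 1098)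
(mv 1166 (cons (fin 1167 0 1099)
(mv 1098 (cons (fin 1161 1 1097)
(fin 1165 0 1098)))))))
(mv 1162 (cons (fin 1163 1 1098)
(mv 1098 (cons (fin 1161 1 1097)
(mv 1097 (cons (fin 1165 0 1097)
(fin 1036 2 1033))))))))
(cons (mv 1166 (cons (fin 1167 0 1099)
(mv 1294 (cons (fin 1230 7 1037)
(mv 1098 (cons (fin 1165 0 1098)
(mv 1034 (cons (fin 1033 3 1033)
(fin 1035 3 1034)))))))))
(cons (mv 1163 (cons (fin 1162 1 1098)
(mv 1166 (cons (fin 1167 0 1099)
(mv 1230 (cons (fin 1294 7 1037)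
(mv 1165 (cons (fin 1231 0 1163)
(mv 1227 (cons (fin 1226 1 1162)
(mv 1291 (cons (fin 1356 4 1099)
(fin 1355 6 1099)))))))))))))
(mv 1162 (cons (fin 1163 1 1098)
(mv 1166 (cons (fin 1167 0 1099)
(mv 1294 (cons (fin 1230 7 1037)
(mv 1098 (cons (fin 1161 1 1097)
(mv 1034 (cons (fin 1033 3 1033)
(fin 1035 3 1034)))))))))))))))
(mv 1103 (cons (fin 1039 2 1036)
(mv 1104 (cons (fin 1165 1 1100)
(fin 1036 3 1036))))))))))
(mv 1228 (cons (fin 1292 6 1036)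
(mv 973 (cons (fin 909 5 908)
(fin 1036 6 972))))))))))
(cons (mv 1038 (cons (fin 1039 1 1036)
(mv 1099 (cons (fin 1098 2 1034)
(mv 1102 (cons (cons (mv 1162 (cons (fin 1163 1 1098)
(mv 1166 (cons (fin 1167 0 1099)
(mv 1230 (cons (fin 1294 7 1037)
(fin 973 7 973)))))))
(mv 1162 (cons (fin 1163 1 1098)
(mv 1035 (cons (fin 1034 3 1034)
(mv 1103 (cons (fin 1036 3 1035)
(mv 1168 (cons (fin 1167 0 1100)
(mv 1104 (cons (fin 1105 3 1037)
(fin 1169 0 1101))))))))))))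
(cons (mv 1163 (cons (fin 1162 1 1098)
(mv 1035 (cons (fin 1034 3 1034)
(mv 1036 (cons (fin 1103 3 1035)
(mv 1227 (cons (fin 1291 6 1035)
(fin 972 6 971)))))))))
(mv 1166 (cons (fin 1167 0 1099)
(mv 1230 (cons (fin 1294 7 1037)
(fin 973 7 973))))))))))))
(cons (mv 1038 (cons (fin 1039 1 1036)
(mv 1099 (cons (fin 1098 2 1034)
(mv 973 (cons (cons (mv 1164 (cons (fin 909 5 908)
(mv 1228 (cons (fin 1165 5 972)
(fin 1292 6 1036)))))
(mv 909 (cons (cons (mv 1036 (cons (fin 845 5 844)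
(mv 908 (cons (fin 844 7 844)
(mv 972 (cons (fin 1163 5 907)
(fin 1165 7 908)))))))
(mv 908 (cons (fin 844 7 844)
(mv 1165 (cons (fin 972 7 908)
(mv 1230 (cons (fin 1166 4 973)
(mv 1229 (cons (fin 1294 4 1037)
(mv 1292 (cons (fin 1228 5 1036)
(mv 1293 (cons (fin 1356 5 1100)
(fin 1036 7 1036))))))))))))))
(cons (mv 845 (cons (fin 1036 5 844)
(mv 846 (cons (fin 910 6 845)
(fin 782 6 781)))))
(mv 844 (cons (fin 908 7 844)
(mv 845 (cons (fin 780 7 780)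
(mv 846 (cons (fin 910 6 845)
(fin 782 6 781)))))))))))
(cons (mv 1165 (cons (cons (mv 1228 (cons (fin 1164 5 972)
(mv 1229 (cons (fin 1292 5 1036)
(mv 1230 (cons (fin 1294 4 1037)
(fin 1166 4 973)))))))
(mv 1230 (cons (fin 1166 4 973)
(mv 1229 (cons (fin 1294 4 1037)
(mv 1036 (cons (fin 1293 7 1036)
(fin 972 7 972))))))))
(cons (mv 1228 (cons (fin 1164 5 972)
(mv 1229 (cons (fin 1292 5 1036)
(mv 1036 (cons (fin 1293 7 1036)
(fin 972 7 972)))))))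
(mv 1164 (cons (fin 1228 5 972)
(mv 1166 (cons (fin 1167 3 1099)
(fin 1230 4 973))))))))
(cons (mv 1164 (cons (fin 909 5 908)
(mv 1228 (cons (fin 1292 6 1036)
(fin 1036 6 972)))))
(mv 909 (cons (fin 1164 5 908)
(mv 1036 (cons (fin 845 5 844)
(mv 908 (cons (fin 844 7 844)
(mv 972 (cons (fin 1163 5 907)
(fin 1165 7 908)))))))))))))))))
(mv 1038 (cons (fin 1039 1 1036)
(mv 973 (cons (cons (mv 1164 (cons (fin 909 5 908)
(mv 1228 (cons (fin 1165 5 972)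
(fin 1292 6 1036)))))
(mv 1165 (cons (cons (mv 1228 (cons (fin 1164 5 972)
(mv 1229 (cons (fin 1292 5 1036)
(mv 1293 (cons (fin 1036 7 1036)
(fin 1102 6 1037)))))))
(mv 1230 (cons (fin 1166 4 973)
(mv 1229 (cons (fin 1294 4 1037)
(mv 1293 (cons (fin 1036 7 1036)
(fin 1102 6 1037))))))))
(cons (mv 1164 (cons (fin 1228 5 972)
(mv 1166 (cons (fin 1230 4 973)
(mv 1167 (cons (fin 1168 3 1100)
(mv 1231 (cons (fin 1232 0 1164)
(mv 1103 (cons (fin 1104 2 1100)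
(mv 1102 (cons (fin 1163 1 1099)
(fin 1295 7 1038)))))))))))))
(mv 1228 (cons (fin 1164 5 972)
(mv 1229 (cons (fin 1292 5 1036)
(mv 1230 (cons (fin 1294 4 1037)
(fin 1166 4 973)))))))))))
(cons (mv 909 (cons (cons (mv 1102 (cons (fin 1166 4 909)
(fin 845 4 845)))
(mv 1166 (cons (fin 1102 4 909)
(mv 1165 (cons (fin 1230 4 973)
(mv 908 (cons (fin 972 7 908)
(fin 844 7 844))))))))
(cons (mv 1036 (cons (fin 845 5 844)
(mv 908 (cons (fin 844 7 844)
(mv 1165 (cons (fin 972 7 908)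
(mv 1229 (cons (fin 1293 7 1036)
(mv 1230 (cons (fin 1294 4 1037)
(fin 1166 4 973)))))))))))
(mv 845 (cons (fin 1036 5 844)
(fin 1102 4 845))))))
(mv 1164 (cons (fin 909 5 908)
(mv 1228 (cons (fin 1292 6 1036)
(fin 1036 6 972)))))))))))))
(cons (cons (mv 1038 (cons (fin 1039 1 1036)
(mv 1099 (cons (fin 1098 2 1034)
(mv 1102 (cons (cons (mv 1162 (cons (fin 1163 1 1098)
(mv 1166 (cons (fin 1167 0 1099)
(mv 1230 (cons (fin 1294 7 1037)
(mv 1295 (cons (fin 1231 4 1038)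
(mv 1229 (cons (fin 1293 5 1037)
(mv 1035 (cons (fin 1034 3 1034)
(mv 1036 (cons (fin 1103 3 1035)
(mv 1165 (cons (fin 972 7 972)
(mv 1228 (cons (fin 1292 5 1036)
(mv 1227 (cons (fin 1226 2 1162)
(mv 1291 (cons (fin 1290 1 1226)
(fin 1164 5 1035)))))))))))))))))))))))
(cons (mv 1162 (cons (fin 1163 1 1098)
(mv 1167 (cons (fin 1166 0 1099)
(mv 1103 (cons (fin 1168 0 1100)
(mv 1104 (cons (fin 1036 3 1036)
(fin 1105 3 1037)))))))))
(mv 1166 (cons (fin 1167 0 1099)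
(mv 1230 (cons (fin 1294 7 1037)
(mv 1295 (cons (fin 1231 4 1038)
(mv 1229 (cons (fin 1293 5 1037)
(mv 1035 (cons (fin 1034 3 1034)
(mv 1036 (cons (fin 1103 3 1035)
(mv 1165 (cons (fin 972 7 972)
(mv 1228 (cons (fin 1292 5 1036)
(mv 1227 (cons (fin 1226 2 1162)
(mv 1291 (cons (fin 1290 1 1226)
(fin 1164 5 1035)))))))))))))))))))))))
(cons (mv 1162 (cons (fin 1163 1 1098)
(mv 1035 (cons (fin 1034 3 1034)
(mv 1103 (cons (fin 1036 3 1035)
(mv 1168 (cons (fin 1167 0 1100)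
(mv 1104 (cons (fin 1105 3 1037)
(fin 1169 0 1101)))))))))))
(cons (mv 1163 (cons (fin 1162 1 1098)
(mv 1103 (cons (fin 1164 1 1099)
(mv 1104 (cons (fin 1036 3 1036)
(fin 1105 3 1037)))))))
(mv 1163 (cons (fin 1162 1 1098)
(mv 1166 (cons (fin 1167 0 1099)
(mv 1230 (cons (fin 1294 7 1037)
(mv 1229 (cons (fin 1293 5 1037)
(mv 1231 (cons (fin 1295 4 1038)
(mv 1164 (cons (fin 1228 3 1163)
(fin 1165 0 1163)))))))))))))))))))))
(cons (mv 1038 (cons (fin 1039 1 1036)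
(mv 1098 (cons (fin 1099 2 1034)
(mv 973 (cons (cons (mv 1164 (cons (fin 909 5 908)
(mv 1228 (cons (fin 1165 5 972)
(fin 1292 6 1036)))))
(mv 1165 (cons (cons (mv 1228 (cons (fin 1164 5 972)
(mv 1229 (cons (fin 1292 5 1036)
(mv 1230 (cons (fin 1294 4 1037)
(fin 1166 4 973)))))))
(cons (mv 1228 (cons (fin 1164 5 972)
(mv 1229 (cons (fin 1292 5 1036)
(mv 1293 (cons (fin 1102 6 1037)
(mv 1294 (cons (fin 1358 4 1101)
(fin 1230 4 1037)))))))))
(mv 972 (cons (fin 908 7 908)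
(mv 1229 (cons (cons (mv 1228 (cons (fin 1292 5 1036)
(fin 1164 5 972)))
(mv 1293 (cons (fin 1102 6 1037)
(mv 1356 (cons (fin 1292 5 1100)
(mv 1357 (cons (fin 1420 5 1164)
(fin 1164 7 1100))))))))
(cons (mv 1292 (cons (fin 1228 5 1036)
(mv 1293 (cons (fin 1356 5 1100)
(fin 1102 6 1037)))))
(mv 1293 (cons (fin 1102 6 1037)
(mv 1164 (cons (fin 1228 5 972)
(fin 1357 7 1100))))))))))))
(cons (mv 1230 (cons (fin 1166 4 973)
(mv 1229 (cons (fin 1294 4 1037)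
(mv 1293 (cons (fin 1102 6 1037)
(mv 1356 (cons (fin 1292 5 1100)
(mv 1357 (cons (fin 1420 5 1164)
(fin 1164 7 1100)))))))))))
(cons (mv 1230 (cons (fin 1166 4 973)
(mv 1229 (cons (fin 1294 4 1037)
(mv 1292 (cons (fin 1228 5 1036)
(mv 1293 (cons (fin 1356 5 1100)
(fin 1102 6 1037)))))))))
(mv 1164 (cons (fin 1228 5 972)
(mv 1166 (cons (fin 1230 4 973)
(mv 1167 (cons (fin 1168 3 1100)
(mv 1231 (cons (fin 1232 0 1164)
(mv 1103 (cons (fin 1104 2 1100)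
(mv 1102 (cons (fin 1163 1 1099)
(fin 1295 7 1038))))))))))))))))))
(cons (mv 909 (cons (mv 1102 (cons (fin 1166 4 909)
(fin 845 4 845)))
(cons (mv 844 (cons (fin 908 7 844)
(mv 845 (cons (fin 780 7 780)
(mv 846 (cons (fin 910 6 845)
(fin 782 6 781)))))))
(mv 1166 (cons (fin 1102 4 909)
(mv 1165 (cons (fin 1230 4 973)
(mv 908 (cons (fin 972 7 908)
(fin 844 7 844))))))))))
(mv 909 (cons (fin 1164 5 908)
(mv 1102 (cons (fin 1166 4 909)
(fin 845 4 845))))))))))))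
(mv 1038 (cons (fin 1039 1 1036)
(mv 1099 (cons (fin 1098 2 1034)
(mv 1102 (cons (cons (mv 1162 (cons (fin 1163 1 1098)
(mv 1035 (cons (fin 1034 3 1034)
(mv 1103 (cons (fin 1036 3 1035)
(mv 1168 (cons (fin 1167 0 1100)
(mv 1104 (cons (fin 1105 3 1037)
(fin 1169 0 1101)))))))))))
(mv 1163 (cons (fin 1162 1 1098)
(mv 1164 (cons (fin 1103 1 1099)
(mv 1228 (cons (fin 1292 6 1036)
(mv 973 (cons (fin 1165 5 972)
(fin 909 5 908))))))))))
(cons (mv 1035 (cons (fin 1034 3 1034)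
(mv 1103 (cons (fin 1036 3 1035)
(mv 1168 (cons (fin 1167 0 1100)
(mv 1104 (cons (fin 1105 3 1037)
(fin 1169 0 1101)))))))))
(mv 1163 (cons (fin 1162 1 1098)
(mv 1035 (cons (fin 1034 3 1034)
(mv 1227 (cons (mv 1036 (cons (fin 1291 6 1035)
(fin 972 6 971)))
(cons (mv 1290 (cons (fin 1226 5 1034)
(mv 1291 (cons (fin 1354 5 1098)
(mv 1292 (cons (fin 1356 4 1099)
(fin 1228 4 1035)))))))
(mv 1290 (cons (fin 1226 5 1034)
(mv 1228 (cons (fin 1292 4 1035)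
(mv 1036 (cons (fin 972 6 971)
(mv 1164 (cons (fin 973 6 972)
(mv 1229 (cons (fin 1293 4 1036)
(mv 1230 (cons (fin 1231 3 1163)
(mv 1294 (cons (fin 1295 0 1227)
(fin 1165 4 1037)))))))))))))))))))))))))))))))
(cons (cons (mv 1038 (cons (fin 1039 1 1036)
(mv 1099 (cons (fin 1098 2 1034)
(mv 1102 (cons (cons (mv 1162 (cons (fin 1163 1 1098)
(mv 1166 (cons (fin 1167 0 1099)
(mv 1230 (cons (fin 1294 7 1037)
(fin 973 7 973)))))))
(mv 1162 (cons (fin 1163 1 1098)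
(mv 1035 (cons (fin 1034 3 1034)
(mv 1103 (cons (fin 1036 3 1035)
(mv 1168 (cons (fin 1167 0 1100)
(mv 1104 (cons (fin 1105 3 1037)
(fin 1169 0 1101))))))))))))
(cons (mv 1166 (cons (fin 1167 0 1099)
(mv 1230 (cons (fin 1294 7 1037)
(fin 973 7 973)))))
(mv 1163 (cons (fin 1162 1 1098)
(mv 1164 (cons (fin 1103 1 1099)
(mv 1228 (cons (fin 1292 6 1036)
(mv 973 (cons (fin 1165 5 972)
(fin 909 5 908))))))))))))))))
(mv 1038 (cons (fin 1039 1 1036)
(mv 1098 (cons (fin 1099 2 1034)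
(mv 1164 (cons (cons (mv 1228 (cons (fin 1292 6 1036)
(mv 973 (cons (fin 1165 5 972)
(fin 909 5 908)))))
(mv 1228 (cons (fin 1292 6 1036)
(mv 1229 (cons (cons (mv 1293 (cons (fin 1036 4 1036)
(mv 1357 (cons (fin 1421 7 1164)
(fin 1165 7 1100)))))
(mv 1165 (cons (mv 1293 (cons (fin 1357 7 1100)
(fin 1102 6 1037)))
(cons (mv 1230 (cons (fin 1294 4 1037)
(mv 1231 (cons (fin 1232 3 1164)
(mv 1295 (cons (fin 1296 0 1228)
(mv 1166 (cons (fin 1102 4 1038)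
(mv 1227 (cons (fin 1167 1 1163)
(fin 1226 2 1162)))))))))))
(mv 1357 (cons (fin 1293 7 1100)
(mv 1230 (cons (fin 1294 4 1037)
(mv 1231 (cons (fin 1232 3 1164)
(mv 1295 (cons (fin 1296 0 1228)
(mv 1167 (cons (fin 1168 2 1164)
(mv 1227 (cons (fin 1166 1 1163)
(mv 1290 (cons (fin 1291 1 1226)
(mv 1226 (cons (fin 1289 1 1225)
(fin 1225 2 1161)))))))))))))))))))))
(cons (mv 1165 (cons (cons (mv 1294 (cons (fin 1230 4 1037)
(mv 1036 (cons (fin 972 7 972)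
(mv 1227 (cons (fin 1291 5 1035)
(mv 1226 (cons (fin 1225 2 1161)
(fin 1166 2 1162)))))))))
(mv 1230 (cons (fin 1294 4 1037)
(mv 1231 (cons (fin 1232 3 1164)
(mv 1295 (cons (fin 1296 0 1228)
(mv 1166 (cons (fin 1102 4 1038)
(mv 1227 (cons (fin 1167 1 1163)
(fin 1226 2 1162))))))))))))
(cons (mv 1036 (cons (fin 972 7 972)
(mv 1227 (cons (fin 1291 5 1035)
(mv 1226 (cons (fin 1225 2 1161)
(fin 1166 2 1162)))))))
(cons (mv 1230 (cons (fin 1294 4 1037)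
(mv 1231 (cons (fin 1232 3 1164)
(mv 1295 (cons (fin 1296 0 1228)
(mv 1167 (cons (fin 1168 2 1164)
(mv 1102 (cons (fin 1103 7 1038)
(fin 1166 4 1038)))))))))))
(mv 1294 (cons (fin 1230 4 1037)
(mv 1036 (cons (fin 972 7 972)
(mv 1227 (cons (fin 1291 5 1035)
(mv 1226 (cons (fin 1225 2 1161)
(mv 1290 (cons (fin 1289 1 1225)
(mv 1162 (cons (fin 1161 3 1161)
(mv 1033 (cons (fin 1097 7 1033)
(mv 1034 (cons (fin 1035 0 1033)
(fin 969 7 969)))))))))))))))))))))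
(mv 1036 (cons (fin 1293 4 1036)
(mv 1227 (cons (fin 1291 5 1035)
(mv 1230 (cons (cons (mv 1294 (cons (fin 1295 0 1227)
(mv 1166 (cons (fin 1167 2 1163)
(fin 1102 7 1037)))))
(cons (mv 1294 (cons (fin 1295 0 1227)
(mv 1102 (cons (fin 1166 7 1037)
(mv 1103 (cons (fin 1035 3 1035)
(fin 1104 3 1036)))))))
(mv 1166 (cons (fin 1167 2 1163)
(mv 1102 (cons (fin 1294 7 1037)
(mv 1103 (cons (fin 1035 3 1035)
(fin 1104 3 1036)))))))))
(cons (mv 1295 (cons (fin 1294 0 1227)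
(mv 1231 (cons (fin 1296 0 1228)
(mv 1167 (cons (fin 1168 2 1164)
(mv 1103 (cons (fin 1102 7 1038)
(fin 1104 6 1039)))))))))
(cons (mv 1167 (cons (fin 1166 2 1163)
(mv 1231 (cons (fin 1168 2 1164)
(mv 1295 (cons (fin 1296 0 1228)
(mv 1103 (cons (fin 1102 7 1038)
(fin 1104 6 1039)))))))))
(mv 1295 (cons (fin 1294 0 1227)
(mv 1231 (cons (fin 1296 0 1228)
(mv 1167 (cons (fin 1166 2 1163)
(fin 1168 2 1164)))))))))))))))))))))
(cons (mv 973 (cons (fin 909 5 908)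
(mv 1165 (cons (mv 1230 (cons (fin 1166 4 973)
(mv 1229 (cons (fin 1294 4 1037)
(mv 1293 (cons (fin 1357 7 1100)
(fin 1036 7 1036)))))))
(cons (mv 972 (cons (fin 908 7 908)
(mv 1229 (cons (fin 1036 7 972)
(mv 1293 (cons (fin 1357 7 1100)
(fin 1102 6 1037)))))))
(mv 1166 (cons (fin 1230 4 973)
(mv 1167 (cons (fin 1168 3 1100)
(mv 1231 (cons (fin 1232 0 1164)
(mv 1103 (cons (fin 1104 2 1100)
(mv 1295 (cons (fin 1102 7 1038)
(mv 1358 (cons (fin 1294 5 1102)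
(mv 1359 (cons (fin 1422 5 1166)
(mv 1360 (cons (fin 1424 4 1167)
(fin 1296 4 1103))))))))))))))))))))))
(mv 1228 (cons (fin 1292 6 1036)
(mv 973 (cons (fin 909 5 908)
(fin 1036 6 972)))))))))))))
(cons (mv 1038 (cons (fin 1039 1 1036)
(mv 1099 (cons (fin 1098 2 1034)
(mv 1102 (cons (cons (mv 1162 (cons (fin 1163 1 1098)
(mv 1035 (cons (fin 1034 3 1034)
(mv 1103 (cons (fin 1036 3 1035)
(mv 1104 (cons (fin 1105 3 1037)
(mv 1165 (cons (fin 1164 1 1100)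
(mv 1229 (cons (fin 1293 6 1037)
(mv 1292 (cons (fin 1228 5 1036)
(mv 1230 (cons (fin 1294 4 1037)
(mv 1168 (cons (fin 1169 0 1101)
(mv 973 (cons (fin 1166 7 973)
(mv 908 (cons (fin 972 7 908)
(mv 909 (cons (fin 844 7 844)
(fin 845 4 845)))))))))))))))))))))))))
(cons (mv 1163 (cons (fin 1162 1 1098)
(mv 1164 (cons (fin 1103 1 1099)
(mv 1228 (cons (fin 1292 6 1036)
(mv 973 (cons (fin 1165 5 972)
(fin 909 5 908)))))))))
(mv 1035 (cons (fin 1034 3 1034)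
(mv 1103 (cons (fin 1036 3 1035)
(mv 1104 (cons (fin 1105 3 1037)
(mv 1165 (cons (fin 1164 1 1100)
(mv 1229 (cons (fin 1293 6 1037)
(mv 1292 (cons (fin 1228 5 1036)
(mv 1230 (cons (fin 1294 4 1037)
(mv 1168 (cons (fin 1169 0 1101)
(mv 973 (cons (fin 1166 7 973)
(mv 908 (cons (fin 972 7 908)
(mv 909 (cons (fin 844 7 844)
(fin 845 4 845)))))))))))))))))))))))))
(cons (mv 1163 (cons (fin 1162 1 1098)
(mv 1034 (cons (fin 1035 3 1034)
(mv 973 (cons (mv 1166 (cons (fin 1230 7 973)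
(fin 909 4 909)))
(cons (mv 1166 (cons (fin 1230 7 973)
(mv 1165 (cons (cons (mv 1293 (cons (fin 1229 6 1037)
(mv 1164 (cons (fin 1228 5 972)
(mv 1227 (cons (fin 1226 1 1162)
(mv 1291 (cons (fin 1355 6 1099)
(fin 1036 6 1035)))))))))
(mv 1164 (cons (fin 1228 5 972)
(mv 1227 (cons (fin 1226 1 1162)
(mv 1291 (cons (fin 1355 6 1099)
(fin 1036 6 1035))))))))
(cons (mv 1229 (cons (fin 1293 6 1037)
(mv 972 (cons (fin 1036 7 972)
(fin 908 7 908)))))
(mv 1228 (cons (fin 1164 5 972)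
(mv 1229 (cons (fin 1292 5 1036)
(fin 1293 6 1037))))))))))
(mv 909 (cons (fin 1164 5 908)
(fin 845 4 845))))))))))
(cons (mv 1163 (cons (fin 1162 1 1098)
(mv 1103 (cons (fin 1164 1 1099)
(mv 1104 (cons (fin 1036 3 1036)
(fin 1105 3 1037)))))))
(mv 1163 (cons (fin 1162 1 1098)
(mv 1035 (cons (fin 1034 3 1034)
(mv 1036 (cons (fin 1103 3 1035)
(mv 1227 (cons (fin 1291 6 1035)
(fin 972 6 971)))))))))))))))))
(mv 1038 (cons (fin 1039 1 1036)
(mv 1099 (cons (fin 1098 2 1034)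
(mv 1102 (cons (cons (mv 1162 (cons (fin 1163 1 1098)
(mv 1167 (cons (fin 1166 0 1099)
(mv 1103 (cons (fin 1168 0 1100)
(mv 1104 (cons (fin 1036 3 1036)
(fin 1105 3 1037)))))))))
(mv 1167 (cons (fin 1166 0 1099)
(mv 1103 (cons (fin 1168 0 1100)
(mv 1104 (cons (fin 1036 3 1036)
(fin 1105 3 1037))))))))
(cons (mv 1163 (cons (fin 1162 1 1098)
(mv 1164 (cons (fin 1103 1 1099)
(mv 1228 (cons (fin 1292 6 1036)
(mv 973 (cons (fin 1165 5 972)
(fin 909 5 908)))))))))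
(mv 1163 (cons (fin 1162 1 1098)
(mv 1166 (cons (fin 1167 0 1099)
(mv 1034 (cons (fin 1035 3 1034)
(mv 973 (cons (fin 909 4 909)
(mv 1165 (cons (cons (mv 1293 (cons (fin 1229 6 1037)
(mv 1164 (cons (fin 1228 5 972)
(mv 1227 (cons (fin 1226 1 1162)
(mv 1291 (cons (fin 1355 6 1099)
(fin 1036 6 1035)))))))))
(mv 1164 (cons (fin 1228 5 972)
(mv 1227 (cons (fin 1226 1 1162)
(mv 1291 (cons (fin 1355 6 1099)
(fin 1036 6 1035))))))))
(cons (mv 1229 (cons (fin 1293 6 1037)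
(mv 972 (cons (fin 1036 7 972)
(fin 908 7 908)))))
(mv 1228 (cons (fin 1164 5 972)
(mv 1229 (cons (fin 1292 5 1036)
(fin 1293 6 1037))))))))))))))))))))))))))))
(mv 1039 (cons (cons (cons (mv 1038 (cons (fin 1100 1 1036)
(mv 1104 (cons (fin 1105 0 1037)
(mv 1103 (cons (fin 1036 0 1036)
(mv 972 (cons (fin 973 3 972)
(mv 976 (cons (fin 977 2 973)
(mv 1167 (cons (fin 912 5 911)
(fin 1231 6 975)))))))))))))
(mv 1103 (cons (cons (mv 1102 (cons (fin 1100 2 1036)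
(mv 1104 (cons (fin 1036 3 1036)
(mv 1164 (cons (fin 1165 1 1100)
(mv 1168 (cons (fin 1169 0 1101)
(mv 1232 (cons (fin 1296 7 1039)
(fin 975 7 975)))))))))))
(mv 976 (cons (cons (mv 1167 (cons (fin 1231 6 975)
(mv 912 (cons (fin 1104 5 911)
(fin 848 5 847)))))
(mv 1167 (cons (fin 1231 6 975)
(mv 975 (cons (mv 1232 (cons (fin 1168 4 975)
(mv 974 (cons (fin 910 7 910)
(mv 973 (cons (fin 1036 1 972)
(fin 972 0 972)))))))
(cons (mv 974 (cons (fin 910 7 910)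
(mv 973 (cons (fin 1036 1 972)
(fin 972 0 972)))))
(mv 1168 (cons (fin 1232 4 975)
(mv 1104 (cons (fin 911 7 911)
(mv 1169 (cons (fin 1233 4 976)
(mv 1170 (cons (fin 1171 3 1103)
(mv 1234 (cons (fin 1235 0 1167)
(mv 1106 (cons (fin 1107 2 1103)
(mv 977 (cons (fin 913 6 912)
(mv 978 (cons (fin 979 1 975)
(mv 1042 (cons (fin 1043 0 975)
(mv 914 (cons (fin 915 2 911)
(fin 1105 5 913)))))))))))))))))))))))))))
(cons (mv 912 (cons (fin 848 5 847)
(mv 1104 (cons (cons (mv 1169 (cons (fin 1105 4 912)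
(mv 1168 (cons (fin 1233 4 976)
(mv 1232 (cons (fin 1296 7 1039)
(fin 975 7 975)))))))
(mv 911 (cons (fin 847 7 847)
(mv 1168 (cons (fin 975 7 911)
(mv 913 (cons (fin 977 6 912)
(fin 849 6 848))))))))
(cons (mv 1105 (cons (fin 1169 4 912)
(mv 1106 (cons (fin 1107 3 1039)
(mv 1170 (cons (fin 1171 0 1103)
(mv 1042 (cons (fin 1043 2 1039)
(mv 911 (cons (fin 847 7 847)
(mv 913 (cons (fin 849 6 848)
(mv 977 (cons (fin 978 7 913)
(mv 910 (cons (fin 909 0 909)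
(mv 846 (cons (fin 845 3 845)
(fin 975 7 846)))))))))))))))))))
(mv 1169 (cons (fin 1105 4 912)
(mv 1168 (cons (fin 1233 4 976)
(mv 913 (cons (fin 977 6 912)
(fin 849 6 848))))))))))))
(mv 1167 (cons (fin 1231 6 975)
(mv 912 (cons (fin 848 5 847)
(fin 975 6 911)))))))))
(cons (mv 1100 (cons (fin 1102 2 1036)
(mv 973 (cons (cons (mv 1164 (cons (fin 909 5 908)
(mv 1228 (cons (fin 1165 5 972)
(fin 1292 6 1036)))))
(mv 1165 (cons (mv 1228 (cons (fin 1164 5 972)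
(mv 1292 (cons (fin 1229 5 1036)
(mv 972 (cons (fin 908 7 908)
(mv 974 (cons (fin 975 0 972)
(fin 910 6 909)))))))))
(cons (mv 1228 (cons (fin 1164 5 972)
(mv 1229 (cons (fin 1292 5 1036)
(mv 1293 (cons (fin 1036 7 1036)
(mv 1294 (cons (fin 1358 4 1101)
(fin 1230 4 1037)))))))))
(mv 972 (cons (fin 908 7 908)
(mv 974 (cons (fin 975 0 972)
(fin 910 6 909)))))))))
(cons (mv 909 (cons (cons (mv 1036 (cons (fin 845 5 844)
(mv 908 (cons (fin 844 7 844)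
(mv 1165 (cons (fin 972 7 908)
(mv 910 (cons (fin 974 6 909)
(fin 846 6 845)))))))))
(cons (mv 908 (cons (fin 844 7 844)
(mv 1165 (cons (fin 972 7 908)
(mv 910 (cons (fin 974 6 909)
(fin 846 6 845)))))))
(mv 1036 (cons (fin 845 5 844)
(mv 910 (cons (fin 846 6 845)
(mv 1165 (cons (fin 974 6 909)
(mv 1229 (cons (fin 1293 7 1036)
(fin 972 7 972)))))))))))
(cons (cons (mv 1036 (cons (fin 845 5 844)
(mv 908 (cons (fin 844 7 844)
(mv 972 (cons (fin 1165 7 908)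
(mv 1163 (cons (fin 1099 5 907)
(mv 974 (cons (fin 975 0 972)
(mv 907 (cons (fin 906 0 906)
(fin 843 7 843)))))))))))))
(mv 1036 (cons (fin 845 5 844)
(mv 908 (cons (fin 844 7 844)
(mv 910 (cons (fin 846 6 845)
(mv 974 (cons (fin 1165 6 909)
(mv 975 (cons (fin 976 1 972)
(fin 907 0 907))))))))))))
(cons (mv 1036 (cons (fin 845 5 844)
(mv 908 (cons (fin 844 7 844)
(mv 972 (cons (fin 1165 7 908)
(mv 1163 (cons (fin 1099 5 907)
(mv 907 (cons (fin 843 7 843)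
(mv 905 (cons (fin 906 0 905)
(mv 910 (cons (fin 846 6 845)
(mv 912 (cons (fin 911 1 908)
(mv 976 (cons (fin 848 5 847)
(mv 1167 (cons (fin 1231 6 975)
(fin 975 6 911)))))))))))))))))))))
(mv 908 (cons (fin 844 7 844)
(mv 845 (cons (fin 1036 5 844)
(mv 846 (cons (fin 910 6 845)
(fin 782 6 781)))))))))))
(mv 1164 (cons (fin 909 5 908)
(mv 1228 (cons (fin 1292 6 1036)
(fin 1036 6 972))))))))))
(cons (mv 1100 (cons (fin 1102 2 1036)
(mv 976 (cons (cons (mv 1167 (cons (fin 1231 6 975)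
(mv 912 (cons (fin 1104 5 911)
(fin 848 5 847)))))
(mv 1167 (cons (fin 1231 6 975)
(mv 975 (cons (mv 1232 (cons (fin 1168 4 975)
(mv 974 (cons (fin 910 7 910)
(mv 973 (cons (fin 972 0 972)
(mv 909 (cons (fin 908 3 908)
(fin 1164 5 908)))))))))
(cons (mv 974 (cons (fin 910 7 910)
(mv 973 (cons (fin 972 0 972)
(mv 909 (cons (fin 908 3 908)
(fin 1164 5 908)))))))
(mv 1168 (cons (fin 1232 4 975)
(mv 1104 (cons (fin 911 7 911)
(mv 1169 (cons (fin 1233 4 976)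
(mv 1170 (cons (fin 1171 3 1103)
(mv 1234 (cons (fin 1235 0 1167)
(mv 1106 (cons (fin 1107 2 1103)
(mv 977 (cons (fin 913 6 912)
(mv 978 (cons (fin 979 1 975)
(mv 1042 (cons (fin 1043 0 975)
(mv 914 (cons (fin 915 2 911)
(fin 1105 5 913)))))))))))))))))))))))))))
(cons (mv 912 (cons (fin 848 5 847)
(mv 1104 (cons (cons (mv 1169 (cons (fin 1105 4 912)
(mv 1168 (cons (fin 1233 4 976)
(mv 1232 (cons (fin 1296 7 1039)
(fin 975 7 975)))))))
(mv 911 (cons (fin 847 7 847)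
(mv 1168 (cons (fin 975 7 911)
(mv 913 (cons (fin 977 6 912)
(fin 849 6 848))))))))
(cons (mv 1105 (cons (fin 1169 4 912)
(mv 1106 (cons (fin 1107 3 1039)
(mv 1170 (cons (fin 1171 0 1103)
(mv 1042 (cons (fin 1043 2 1039)
(mv 911 (cons (fin 847 7 847)
(mv 913 (cons (fin 849 6 848)
(mv 977 (cons (fin 978 7 913)
(mv 910 (cons (fin 909 0 909)
(mv 846 (cons (fin 845 3 845)
(fin 975 7 846)))))))))))))))))))
(mv 1169 (cons (fin 1105 4 912)
(mv 1168 (cons (fin 1233 4 976)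
(mv 913 (cons (fin 977 6 912)
(fin 849 6 848))))))))))))
(mv 1167 (cons (fin 1231 6 975)
(mv 912 (cons (fin 848 5 847)
(fin 975 6 911))))))))))
(mv 1102 (cons (fin 1100 2 1036)
(mv 1104 (cons (fin 1036 3 1036)
(mv 1164 (cons (fin 1165 1 1100)
(mv 1168 (cons (fin 1169 0 1101)
(mv 1232 (cons (fin 1296 7 1039)
(mv 1297 (cons (fin 1233 4 1040)
(mv 1231 (cons (fin 1295 5 1039)
(mv 976 (cons (fin 1167 5 975)
(mv 912 (cons (fin 848 5 847)
(mv 913 (cons (fin 977 6 912)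
(fin 849 6 848))))))))))))))))))))))))))
(cons (mv 1038 (cons (cons (mv 1104 (cons (fin 1105 0 1037)
(mv 1103 (cons (fin 1036 0 1036)
(mv 972 (cons (fin 973 3 972)
(mv 976 (cons (fin 977 2 973)
(mv 1167 (cons (fin 912 5 911)
(fin 1231 6 975)))))))))))
(cons (mv 972 (cons (fin 973 3 972)
(mv 976 (cons (fin 977 2 973)
(mv 912 (cons (cons (mv 1103 (cons (fin 848 5 847)
(mv 1167 (cons (fin 1231 6 975)
(fin 975 6 911)))))
(mv 910 (cons (cons (mv 1036 (cons (fin 975 2 972)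
(mv 1165 (cons (fin 1229 7 972)
(mv 974 (cons (fin 1102 5 909)
(fin 846 5 845)))))))
(mv 975 (cons (fin 1036 2 972)
(mv 1103 (cons (fin 1167 6 911)
(mv 911 (cons (fin 846 7 846)
(mv 847 (cons (fin 1102 5 846)
(fin 783 4 783))))))))))
(cons (mv 974 (cons (fin 846 5 845)
(mv 1165 (cons (fin 1102 5 909)
(fin 1229 6 973)))))
(cons (mv 1036 (cons (fin 975 2 972)
(mv 1165 (cons (fin 1229 7 972)
(mv 1102 (cons (fin 974 5 909)
(mv 1035 (cons (fin 1034 0 1034)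
(fin 1103 0 1035)))))))))
(mv 975 (cons (fin 1036 2 972)
(mv 1103 (cons (fin 1167 6 911)
(mv 846 (cons (fin 974 5 845)
(fin 911 7 846))))))))))))
(cons (mv 848 (cons (fin 1103 5 847)
(mv 783 (cons (fin 847 7 783)
(mv 784 (cons (fin 719 7 719)
(mv 785 (cons (fin 849 6 784)
(fin 721 6 720)))))))))
(mv 975 (cons (fin 1036 2 972)
(mv 848 (cons (fin 784 5 783)
(mv 847 (cons (fin 783 7 783)
(mv 911 (cons (fin 1102 5 846)
(mv 846 (cons (fin 782 7 782)
(mv 913 (cons (fin 914 3 846)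
(fin 845 0 845))))))))))))))))))))
(mv 1104 (cons (fin 1105 0 1037)
(mv 1103 (cons (fin 1036 0 1036)
(mv 972 (cons (fin 973 3 972)
(mv 1168 (cons (mv 1232 (cons (fin 1296 7 1039)
(fin 975 7 975)))
(mv 1102 (cons (fin 1169 0 1101)
(mv 1165 (cons (fin 1164 1 1100)
(mv 1229 (cons (fin 1293 6 1037)
(fin 974 6 973)))))))))))))))))
(cons (mv 1104 (cons (fin 1105 0 1037)
(mv 1103 (cons (fin 1036 0 1036)
(mv 976 (cons (fin 977 2 973)
(mv 1167 (cons (fin 912 5 911)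
(fin 1231 6 975)))))))))
(cons (mv 1104 (cons (fin 1105 0 1037)
(mv 972 (cons (fin 973 3 972)
(mv 976 (cons (fin 977 2 973)
(mv 1168 (cons (mv 975 (cons (fin 1232 7 975)
(fin 911 7 911)))
(cons (mv 1231 (cons (fin 1167 5 975)
(mv 1232 (cons (fin 1295 5 1039)
(mv 1233 (cons (fin 1297 4 1040)
(fin 1169 4 976)))))))
(mv 1231 (cons (fin 1167 5 975)
(mv 1233 (cons (fin 1169 4 976)
(mv 911 (cons (fin 975 7 911)
(mv 912 (cons (fin 847 7 847)
(mv 848 (cons (fin 1103 5 847)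
(mv 849 (cons (fin 913 6 848)
(fin 785 6 784))))))))))))))))))))))
(mv 1104 (cons (fin 1105 0 1037)
(mv 972 (cons (fin 973 3 972)
(mv 976 (cons (fin 977 2 973)
(mv 975 (cons (fin 1036 2 972)
(mv 1168 (cons (fin 1232 7 975)
(fin 911 7 911)))))))))))))))
(mv 1038 (cons (fin 1100 1 1036)
(mv 1104 (cons (fin 1105 0 1037)
(mv 1103 (cons (fin 1036 0 1036)
(mv 976 (cons (fin 977 2 973)
(mv 1167 (cons (fin 912 5 911)
(fin 1231 6 975)))))))))))))
(cons (cons (mv 1100 (cons (fin 1038 1 1036)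
(mv 1103 (cons (fin 1102 2 1036)
(mv 973 (cons (cons (mv 1164 (cons (fin 909 5 908)
(mv 1228 (cons (fin 1165 5 972)
(fin 1292 6 1036)))))
(mv 1165 (cons (mv 1228 (cons (fin 1164 5 972)
(mv 1292 (cons (fin 1229 5 1036)
(mv 972 (cons (fin 908 7 908)
(mv 974 (cons (fin 975 0 972)
(fin 910 6 909)))))))))
(cons (mv 1228 (cons (fin 1164 5 972)
(mv 1229 (cons (fin 1292 5 1036)
(mv 1293 (cons (fin 1036 7 1036)
(mv 1294 (cons (fin 1358 4 1101)
(fin 1230 4 1037)))))))))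
(mv 972 (cons (fin 908 7 908)
(mv 974 (cons (fin 975 0 972)
(fin 910 6 909)))))))))
(cons (mv 909 (cons (cons (mv 1036 (cons (fin 845 5 844)
(mv 908 (cons (fin 844 7 844)
(mv 1165 (cons (fin 972 7 908)
(mv 910 (cons (fin 974 6 909)
(fin 846 6 845)))))))))
(cons (mv 908 (cons (fin 844 7 844)
(mv 1165 (cons (fin 972 7 908)
(mv 910 (cons (fin 974 6 909)
(fin 846 6 845)))))))
(mv 1036 (cons (fin 845 5 844)
(mv 910 (cons (fin 846 6 845)
(mv 1165 (cons (fin 974 6 909)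
(mv 1229 (cons (fin 1293 7 1036)
(fin 972 7 972)))))))))))
(cons (cons (mv 1036 (cons (fin 845 5 844)
(mv 908 (cons (fin 844 7 844)
(mv 972 (cons (fin 1165 7 908)
(mv 1163 (cons (fin 1099 5 907)
(mv 974 (cons (fin 975 0 972)
(mv 907 (cons (fin 906 0 906)
(fin 843 7 843)))))))))))))
(mv 1036 (cons (fin 845 5 844)
(mv 908 (cons (fin 844 7 844)
(mv 910 (cons (fin 846 6 845)
(mv 974 (cons (fin 1165 6 909)
(mv 975 (cons (fin 976 1 972)
(fin 907 0 907))))))))))))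
(cons (mv 1036 (cons (fin 845 5 844)
(mv 908 (cons (fin 844 7 844)
(mv 972 (cons (fin 1165 7 908)
(mv 1163 (cons (fin 1099 5 907)
(mv 907 (cons (fin 843 7 843)
(mv 905 (cons (fin 906 0 905)
(mv 910 (cons (fin 846 6 845)
(mv 912 (cons (fin 911 1 908)
(mv 976 (cons (fin 848 5 847)
(mv 1167 (cons (fin 1231 6 975)
(fin 975 6 911)))))))))))))))))))))
(mv 908 (cons (fin 844 7 844)
(mv 845 (cons (fin 1036 5 844)
(mv 846 (cons (fin 910 6 845)
(fin 782 6 781)))))))))))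
(mv 1164 (cons (fin 909 5 908)
(mv 1228 (cons (fin 1292 6 1036)
(fin 1036 6 972))))))))))))
(mv 1038 (cons (fin 1100 1 1036)
(mv 1104 (cons (fin 1105 0 1037)
(mv 972 (cons (fin 973 3 972)
(mv 976 (cons (fin 977 2 973)
(mv 975 (cons (fin 1036 2 972)
(mv 1168 (cons (fin 1232 7 975)
(fin 911 7 911))))))))))))))
(cons (mv 1038 (cons (fin 1100 1 1036)
(mv 1104 (cons (fin 1105 0 1037)
(mv 1103 (cons (fin 1036 0 1036)
(mv 972 (cons (fin 973 3 972)
(mv 1168 (cons (mv 1232 (cons (fin 1296 7 1039)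
(fin 975 7 975)))
(mv 1102 (cons (fin 1169 0 1101)
(mv 1165 (cons (fin 1164 1 1100)
(mv 1229 (cons (fin 1293 6 1037)
(fin 974 6 973)))))))))))))))))
(mv 1100 (cons (fin 1038 1 1036)
(mv 1103 (cons (fin 1102 2 1036)
(mv 976 (cons (cons (mv 1167 (cons (fin 1231 6 975)
(mv 912 (cons (fin 1104 5 911)
(fin 848 5 847)))))
(mv 1167 (cons (fin 1231 6 975)
(mv 975 (cons (mv 1232 (cons (fin 1168 4 975)
(mv 974 (cons (fin 910 7 910)
(mv 973 (cons (fin 972 0 972)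
(mv 909 (cons (fin 908 3 908)
(fin 1164 5 908)))))))))
(cons (mv 974 (cons (fin 910 7 910)
(mv 973 (cons (fin 972 0 972)
(mv 909 (cons (fin 908 3 908)
(fin 1164 5 908)))))))
(mv 1168 (cons (fin 1232 4 975)
(mv 1104 (cons (fin 911 7 911)
(mv 1169 (cons (fin 1233 4 976)
(mv 1170 (cons (fin 1171 3 1103)
(mv 1234 (cons (fin 1235 0 1167)
(mv 1106 (cons (fin 1107 2 1103)
(mv 977 (cons (fin 913 6 912)
(mv 978 (cons (fin 979 1 975)
(mv 1042 (cons (fin 1043 0 975)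
(mv 914 (cons (fin 915 2 911)
(fin 1105 5 913)))))))))))))))))))))))))))
(cons (mv 912 (cons (fin 848 5 847)
(mv 1104 (cons (cons (mv 1169 (cons (fin 1105 4 912)
(mv 1168 (cons (fin 1233 4 976)
(mv 1232 (cons (fin 1296 7 1039)
(fin 975 7 975)))))))
(mv 911 (cons (fin 847 7 847)
(mv 1168 (cons (fin 975 7 911)
(mv 913 (cons (fin 977 6 912)
(fin 849 6 848))))))))
(cons (mv 1105 (cons (fin 1169 4 912)
(mv 1106 (cons (fin 1107 3 1039)
(mv 1170 (cons (fin 1171 0 1103)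
(mv 1042 (cons (fin 1043 2 1039)
(mv 911 (cons (fin 847 7 847)
(mv 913 (cons (fin 849 6 848)
(mv 977 (cons (fin 978 7 913)
(mv 910 (cons (fin 909 0 909)
(mv 846 (cons (fin 845 3 845)
(fin 975 7 846)))))))))))))))))))
(mv 1169 (cons (fin 1105 4 912)
(mv 1168 (cons (fin 1233 4 976)
(mv 913 (cons (fin 977 6 912)
(fin 849 6 848))))))))))))
(mv 1167 (cons (fin 1231 6 975)
(mv 912 (cons (fin 848 5 847)
(fin 975 6 911)))))))))))))))))
(cons (mv 1038 (cons (cons (cons (mv 1039 (cons (fin 1100 1 1036)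
(mv 1104 (cons (fin 1105 0 1037)
(mv 1103 (cons (fin 1036 0 1036)
(mv 972 (cons (fin 973 3 972)
(mv 976 (cons (fin 977 2 973)
(mv 1167 (cons (fin 912 5 911)
(fin 1231 6 975)))))))))))))
(mv 974 (cons (cons (mv 1165 (cons (fin 1229 6 973)
(mv 910 (cons (fin 1102 5 909)
(fin 846 5 845)))))
(mv 1165 (cons (fin 1229 6 973)
(mv 973 (cons (cons (mv 1230 (cons (fin 1166 4 973)
(mv 908 (cons (fin 972 7 908)
(mv 909 (cons (fin 844 7 844)
(mv 845 (cons (fin 1102 4 845)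
(fin 781 4 781)))))))))
(mv 908 (cons (fin 972 7 908)
(mv 909 (cons (fin 844 7 844)
(mv 845 (cons (fin 1102 4 845)
(fin 781 4 781))))))))
(cons (mv 1166 (cons (fin 1230 4 973)
(mv 1102 (cons (fin 909 7 909)
(mv 1231 (cons (fin 1167 4 974)
(mv 975 (cons (fin 911 6 910)
(mv 1036 (cons (fin 976 1 972)
(fin 1035 2 971)))))))))))
(cons (mv 1166 (cons (fin 1230 4 973)
(mv 972 (cons (fin 908 7 908)
(mv 975 (cons (mv 1036 (cons (fin 1035 1 971)
(fin 976 1 972)))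
(mv 911 (cons (fin 912 2 908)
(fin 1102 6 910)))))))))
(mv 1230 (cons (fin 1166 4 973)
(mv 908 (cons (fin 972 7 908)
(mv 909 (cons (fin 844 7 844)
(mv 975 (cons (fin 976 3 908)
(mv 1036 (cons (fin 1035 2 971)
(mv 845 (cons (fin 1100 5 844)
(fin 781 4 781))))))))))))))))))))
(cons (mv 910 (cons (fin 846 5 845)
(mv 1102 (cons (mv 1167 (cons (fin 1103 4 910)
(mv 1166 (cons (fin 1231 4 974)
(mv 1230 (cons (fin 1294 7 1037)
(fin 973 7 973)))))))
(cons (mv 909 (cons (fin 845 7 845)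
(mv 1166 (cons (fin 973 7 909)
(mv 911 (cons (fin 975 6 910)
(fin 847 6 846)))))))
(mv 1103 (cons (fin 1167 4 910)
(mv 1104 (cons (fin 1036 3 1036)
(fin 1105 3 1037))))))))))
(mv 1165 (cons (fin 1229 6 973)
(mv 910 (cons (fin 846 5 845)
(fin 973 6 909)))))))))
(cons (mv 1039 (cons (cons (mv 1104 (cons (fin 1105 0 1037)
(mv 1103 (cons (fin 1036 0 1036)
(mv 972 (cons (fin 973 3 972)
(mv 976 (cons (fin 977 2 973)
(mv 1167 (cons (fin 912 5 911)
(fin 1231 6 975)))))))))))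
(cons (mv 972 (cons (fin 973 3 972)
(mv 976 (cons (fin 977 2 973)
(mv 975 (cons (fin 1036 2 972)
(mv 1103 (cons (mv 1167 (cons (fin 1231 6 975)
(fin 912 6 911)))
(cons (mv 912 (cons (fin 848 5 847)
(mv 911 (cons (mv 1102 (cons (fin 1166 5 910)
(fin 847 5 846)))
(cons (mv 1102 (cons (fin 1166 5 910)
(mv 910 (cons (fin 846 7 846)
(mv 974 (cons (fin 1165 5 909)
(mv 909 (cons (fin 908 0 908)
(fin 845 7 845)))))))))
(mv 846 (cons (fin 910 7 846)
(mv 847 (cons (fin 782 7 782)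
(fin 783 4 783))))))))))
(mv 1167 (cons (fin 1231 6 975)
(mv 1230 (cons (fin 1166 5 974)
(mv 1232 (cons (fin 1168 4 975)
(mv 910 (cons (fin 974 7 910)
(mv 911 (cons (fin 846 7 846)
(mv 847 (cons (fin 1102 5 846)
(fin 783 4 783))))))))))))))))))))))
(mv 1104 (cons (fin 1105 0 1037)
(mv 1103 (cons (fin 1036 0 1036)
(mv 972 (cons (fin 973 3 972)
(mv 1168 (cons (mv 1232 (cons (fin 1296 7 1039)
(fin 975 7 975)))
(cons (mv 1169 (cons (fin 1102 0 1101)
(mv 1170 (cons (fin 1171 3 1103)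
(mv 975 (cons (fin 911 4 911)
(mv 1167 (cons (mv 1230 (cons (fin 1231 1 1166)
(fin 1166 5 974)))
(cons (mv 1234 (cons (fin 1235 0 1167)
(mv 1166 (cons (fin 1233 0 1166)
(fin 1230 5 974)))))
(mv 1231 (cons (fin 974 7 974)
(fin 1295 6 1039))))))))))))
(mv 1232 (cons (fin 1296 7 1039)
(mv 1297 (cons (fin 1233 4 1040)
(mv 1231 (cons (fin 1295 5 1039)
(mv 1167 (cons (fin 974 7 974)
(mv 1230 (cons (fin 1294 5 1038)
(mv 1229 (cons (fin 1228 2 1164)
(fin 1169 2 1165))))))))))))))))))))))))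
(cons (mv 1104 (cons (fin 1105 0 1037)
(mv 1103 (cons (fin 1036 0 1036)
(mv 976 (cons (fin 977 2 973)
(mv 1167 (cons (fin 912 5 911)
(fin 1231 6 975)))))))))
(cons (mv 1104 (cons (fin 1105 0 1037)
(mv 972 (cons (fin 973 3 972)
(mv 976 (cons (fin 977 2 973)
(mv 1168 (cons (mv 975 (cons (fin 1232 7 975)
(fin 911 7 911)))
(cons (mv 1231 (cons (fin 1167 5 975)
(mv 1232 (cons (fin 1295 5 1039)
(mv 1233 (cons (fin 1297 4 1040)
(fin 1169 4 976)))))))
(mv 1231 (cons (fin 1167 5 975)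
(mv 1233 (cons (fin 1169 4 976)
(mv 911 (cons (fin 975 7 911)
(mv 912 (cons (fin 847 7 847)
(mv 848 (cons (fin 1103 5 847)
(mv 849 (cons (fin 913 6 848)
(fin 785 6 784))))))))))))))))))))))
(mv 1104 (cons (fin 1105 0 1037)
(mv 972 (cons (fin 973 3 972)
(mv 976 (cons (fin 977 2 973)
(mv 975 (cons (fin 1036 2 972)
(mv 1168 (cons (fin 1232 7 975)
(fin 911 7 911)))))))))))))))
(mv 1039 (cons (fin 1100 1 1036)
(mv 1104 (cons (fin 1105 0 1037)
(mv 1103 (cons (fin 1036 0 1036)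
(mv 976 (cons (fin 977 2 973)
(mv 1167 (cons (fin 912 5 911)
(fin 1231 6 975)))))))))))))
(cons (cons (mv 1039 (cons (fin 1100 1 1036)
(mv 972 (cons (fin 973 3 972)
(mv 976 (cons (fin 977 2 973)
(mv 975 (cons (fin 1036 2 972)
(mv 1103 (cons (mv 1167 (cons (fin 1231 6 975)
(fin 912 6 911)))
(cons (mv 912 (cons (fin 848 5 847)
(mv 911 (cons (mv 1102 (cons (fin 1166 5 910)
(fin 847 5 846)))
(cons (mv 1102 (cons (fin 1166 5 910)
(mv 910 (cons (fin 846 7 846)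
(mv 974 (cons (fin 1165 5 909)
(mv 909 (cons (fin 908 0 908)
(fin 845 7 845)))))))))
(mv 846 (cons (fin 910 7 846)
(mv 847 (cons (fin 782 7 782)
(fin 783 4 783))))))))))
(mv 1167 (cons (fin 1231 6 975)
(mv 1230 (cons (fin 1166 5 974)
(mv 1232 (cons (fin 1168 4 975)
(mv 910 (cons (fin 974 7 910)
(mv 911 (cons (fin 846 7 846)
(mv 847 (cons (fin 1102 5 846)
(fin 783 4 783))))))))))))))))))))))))
(mv 1039 (cons (fin 1100 1 1036)
(mv 1104 (cons (fin 1105 0 1037)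
(mv 1103 (cons (fin 1036 0 1036)
(mv 972 (cons (fin 973 3 972)
(mv 1168 (cons (mv 1232 (cons (fin 1296 7 1039)
(fin 975 7 975)))
(cons (mv 1169 (cons (fin 1102 0 1101)
(mv 1170 (cons (fin 1171 3 1103)
(mv 975 (cons (fin 911 4 911)
(mv 1167 (cons (mv 1230 (cons (fin 1231 1 1166)
(fin 1166 5 974)))
(cons (mv 1234 (cons (fin 1235 0 1167)
(mv 1166 (cons (fin 1233 0 1166)
(fin 1230 5 974)))))
(mv 1231 (cons (fin 974 7 974)
(fin 1295 6 1039))))))))))))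
(mv 1232 (cons (fin 1296 7 1039)
(mv 1297 (cons (fin 1233 4 1040)
(mv 1231 (cons (fin 1295 5 1039)
(mv 1167 (cons (fin 974 7 974)
(mv 1230 (cons (fin 1294 5 1038)
(mv 1229 (cons (fin 1228 2 1164)
(fin 1169 2 1165)))))))))))))))))))))))))
(cons (mv 1039 (cons (fin 1100 1 1036)
(mv 1104 (cons (fin 1105 0 1037)
(mv 972 (cons (fin 973 3 972)
(mv 976 (cons (fin 977 2 973)
(mv 1168 (cons (mv 975 (cons (fin 1232 7 975)
(fin 911 7 911)))
(cons (mv 1231 (cons (fin 1167 5 975)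
(mv 1232 (cons (fin 1295 5 1039)
(mv 1233 (cons (fin 1297 4 1040)
(fin 1169 4 976)))))))
(mv 1231 (cons (fin 1167 5 975)
(mv 1233 (cons (fin 1169 4 976)
(mv 911 (cons (fin 975 7 911)
(mv 912 (cons (fin 847 7 847)
(mv 848 (cons (fin 1103 5 847)
(mv 849 (cons (fin 913 6 848)
(fin 785 6 784))))))))))))))))))))))))
(mv 1039 (cons (fin 1100 1 1036)
(mv 1104 (cons (fin 1105 0 1037)
(mv 972 (cons (fin 973 3 972)
(mv 976 (cons (fin 977 2 973)
(mv 975 (cons (fin 1036 2 972)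
(mv 1168 (cons (fin 1232 7 975)
(fin 911 7 911)))))))))))))))))
(cons (mv 1038 (cons (cons (cons (mv 1039 (cons (fin 1100 1 1036)
(mv 1104 (cons (fin 1105 0 1037)
(mv 1103 (cons (fin 1036 0 1036)
(mv 972 (cons (fin 973 3 972)
(mv 976 (cons (fin 977 2 973)
(mv 1167 (cons (fin 912 5 911)
(fin 1231 6 975)))))))))))))
(mv 974 (cons (cons (mv 1165 (cons (fin 1229 6 973)
(mv 910 (cons (fin 1102 5 909)
(fin 846 5 845)))))
(mv 1165 (cons (fin 1229 6 973)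
(mv 973 (cons (cons (mv 1228 (cons (fin 1164 5 972)
(mv 908 (cons (fin 972 7 908)
(mv 909 (cons (fin 844 7 844)
(mv 1102 (cons (fin 1166 7 909)
(fin 845 4 845)))))))))
(mv 1164 (cons (fin 1228 5 972)
(mv 909 (cons (fin 1100 5 908)
(mv 1102 (cons (fin 1166 7 909)
(fin 845 4 845))))))))
(cons (mv 908 (cons (fin 972 7 908)
(mv 909 (cons (fin 844 7 844)
(mv 1102 (cons (fin 1166 7 909)
(fin 845 4 845)))))))
(cons (mv 1164 (cons (fin 1228 5 972)
(mv 972 (cons (fin 908 7 908)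
(mv 975 (cons (mv 1036 (cons (fin 1035 1 971)
(fin 976 1 972)))
(cons (mv 976 (cons (fin 977 1 973)
(mv 912 (cons (fin 911 2 908)
(fin 913 2 909)))))
(mv 1035 (cons (fin 1036 1 971)
(mv 911 (cons (fin 912 2 908)
(mv 1102 (cons (fin 1166 6 910)
(mv 1163 (cons (fin 1162 2 1098)
(mv 1103 (cons (fin 1100 1 1099)
(fin 1104 1 1100))))))))))))))))))
(mv 1228 (cons (fin 1164 5 972)
(mv 908 (cons (fin 972 7 908)
(mv 909 (cons (fin 844 7 844)
(mv 975 (cons (fin 976 3 908)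
(mv 1036 (cons (fin 1035 2 971)
(mv 845 (cons (fin 1100 5 844)
(fin 781 4 781))))))))))))))))))))
(cons (mv 910 (cons (fin 846 5 845)
(mv 1102 (cons (cons (mv 1167 (cons (fin 1103 4 910)
(mv 1166 (cons (fin 1231 4 974)
(mv 909 (cons (fin 973 7 909)
(fin 845 7 845)))))))
(mv 1167 (cons (fin 1103 4 910)
(mv 1166 (cons (fin 1231 4 974)
(mv 911 (cons (fin 975 6 910)
(fin 847 6 846))))))))
(cons (mv 909 (cons (fin 845 7 845)
(mv 1166 (cons (fin 973 7 909)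
(mv 911 (cons (fin 975 6 910)
(fin 847 6 846)))))))
(mv 1103 (cons (fin 1167 4 910)
(mv 1104 (cons (fin 1036 3 1036)
(fin 1105 3 1037))))))))))
(mv 1165 (cons (fin 1229 6 973)
(mv 910 (cons (fin 846 5 845)
(fin 973 6 909)))))))))
(cons (mv 1039 (cons (cons (mv 1104 (cons (fin 1105 0 1037)
(mv 1103 (cons (fin 1036 0 1036)
(mv 972 (cons (fin 973 3 972)
(mv 976 (cons (fin 977 2 973)
(mv 1167 (cons (fin 912 5 911)
(fin 1231 6 975)))))))))))
(cons (mv 972 (cons (fin 973 3 972)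
(mv 976 (cons (fin 977 2 973)
(mv 975 (cons (fin 1036 2 972)
(mv 1103 (cons (mv 1167 (cons (fin 1231 6 975)
(fin 912 6 911)))
(cons (mv 912 (cons (fin 848 5 847)
(mv 911 (cons (mv 1102 (cons (fin 1166 5 910)
(fin 847 5 846)))
(cons (mv 1102 (cons (fin 1166 5 910)
(mv 910 (cons (fin 846 7 846)
(mv 974 (cons (fin 1165 5 909)
(mv 909 (cons (fin 908 0 908)
(fin 845 7 845)))))))))
(mv 846 (cons (fin 910 7 846)
(mv 847 (cons (fin 782 7 782)
(fin 783 4 783))))))))))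
(mv 1167 (cons (fin 1231 6 975)
(mv 1232 (cons (fin 1168 4 975)
(mv 910 (cons (fin 974 7 910)
(mv 911 (cons (fin 846 7 846)
(mv 1102 (cons (fin 1166 5 910)
(fin 847 5 846))))))))))))))))))))
(mv 1104 (cons (fin 1105 0 1037)
(mv 1103 (cons (fin 1036 0 1036)
(mv 972 (cons (fin 973 3 972)
(mv 1168 (cons (mv 1232 (cons (fin 1296 7 1039)
(fin 975 7 975)))
(mv 1102 (cons (fin 1169 0 1101)
(mv 1165 (cons (fin 1164 1 1100)
(mv 1229 (cons (fin 1293 6 1037)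
(fin 974 6 973)))))))))))))))))
(cons (mv 1104 (cons (fin 1105 0 1037)
(mv 1103 (cons (fin 1036 0 1036)
(mv 976 (cons (fin 977 2 973)
(mv 1167 (cons (fin 912 5 911)
(fin 1231 6 975)))))))))
(cons (mv 1104 (cons (fin 1105 0 1037)
(mv 972 (cons (fin 973 3 972)
(mv 976 (cons (fin 977 2 973)
(mv 1168 (cons (mv 975 (cons (fin 1232 7 975)
(fin 911 7 911)))
(cons (mv 1231 (cons (fin 1167 5 975)
(mv 1232 (cons (fin 1295 5 1039)
(mv 1233 (cons (fin 1297 4 1040)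
(fin 1169 4 976)))))))
(mv 1231 (cons (fin 1167 5 975)
(mv 1233 (cons (fin 1169 4 976)
(mv 911 (cons (fin 975 7 911)
(mv 912 (cons (fin 847 7 847)
(mv 848 (cons (fin 1103 5 847)
(mv 849 (cons (fin 913 6 848)
(fin 785 6 784))))))))))))))))))))))
(mv 1104 (cons (fin 1105 0 1037)
(mv 972 (cons (fin 973 3 972)
(mv 976 (cons (fin 977 2 973)
(mv 975 (cons (fin 1036 2 972)
(mv 1168 (cons (fin 1232 7 975)
(fin 911 7 911)))))))))))))))
(mv 1039 (cons (fin 1100 1 1036)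
(mv 1104 (cons (fin 1105 0 1037)
(mv 1103 (cons (fin 1036 0 1036)
(mv 976 (cons (fin 977 2 973)
(mv 1167 (cons (fin 912 5 911)
(fin 1231 6 975)))))))))))))
(cons (cons (mv 1039 (cons (fin 1100 1 1036)
(mv 972 (cons (fin 973 3 972)
(mv 976 (cons (fin 977 2 973)
(mv 975 (cons (fin 1036 2 972)
(mv 1103 (cons (mv 1167 (cons (fin 1231 6 975)
(fin 912 6 911)))
(cons (mv 912 (cons (fin 848 5 847)
(mv 911 (cons (mv 1102 (cons (fin 1166 5 910)
(fin 847 5 846)))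
(cons (mv 1102 (cons (fin 1166 5 910)
(mv 910 (cons (fin 846 7 846)
(mv 974 (cons (fin 1165 5 909)
(mv 909 (cons (fin 908 0 908)
(fin 845 7 845)))))))))
(mv 846 (cons (fin 910 7 846)
(mv 847 (cons (fin 782 7 782)
(fin 783 4 783))))))))))
(mv 1167 (cons (fin 1231 6 975)
(mv 1232 (cons (fin 1168 4 975)
(mv 910 (cons (fin 974 7 910)
(mv 911 (cons (fin 846 7 846)
(mv 1102 (cons (fin 1166 5 910)
(fin 847 5 846))))))))))))))))))))))
(mv 1039 (cons (fin 1100 1 1036)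
(mv 1104 (cons (fin 1105 0 1037)
(mv 1103 (cons (fin 1036 0 1036)
(mv 972 (cons (fin 973 3 972)
(mv 1168 (cons (mv 1232 (cons (fin 1296 7 1039)
(fin 975 7 975)))
(mv 1102 (cons (fin 1169 0 1101)
(mv 1165 (cons (fin 1164 1 1100)
(mv 1229 (cons (fin 1293 6 1037)
(fin 974 6 973))))))))))))))))))
(cons (mv 1039 (cons (fin 1100 1 1036)
(mv 1104 (cons (fin 1105 0 1037)
(mv 972 (cons (fin 973 3 972)
(mv 976 (cons (fin 977 2 973)
(mv 1168 (cons (mv 975 (cons (fin 1232 7 975)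
(fin 911 7 911)))
(cons (mv 1231 (cons (fin 1167 5 975)
(mv 1232 (cons (fin 1295 5 1039)
(mv 1233 (cons (fin 1297 4 1040)
(fin 1169 4 976)))))))
(mv 1231 (cons (fin 1167 5 975)
(mv 1233 (cons (fin 1169 4 976)
(mv 911 (cons (fin 975 7 911)
(mv 912 (cons (fin 847 7 847)
(mv 848 (cons (fin 1103 5 847)
(mv 849 (cons (fin 913 6 848)
(fin 785 6 784))))))))))))))))))))))))
(mv 1039 (cons (fin 1100 1 1036)
(mv 1104 (cons (fin 1105 0 1037)
(mv 972 (cons (fin 973 3 972)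
(mv 976 (cons (fin 977 2 973)
(mv 975 (cons (fin 1036 2 972)
(mv 1168 (cons (fin 1232 7 975)
(fin 911 7 911)))))))))))))))))
(mv 1038 (cons (cons (mv 1039 (cons (fin 1100 1 1036)
(mv 1104 (cons (fin 1105 0 1037)
(mv 1103 (cons (fin 1036 0 1036)
(mv 972 (cons (fin 973 3 972)
(mv 976 (cons (fin 977 2 973)
(mv 1167 (cons (fin 912 5 911)
(fin 1231 6 975)))))))))))))
(cons (mv 1165 (cons (cons (mv 1229 (cons (fin 974 6 973)
(mv 1292 (cons (fin 1228 5 1036)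
(mv 1293 (cons (fin 1356 5 1100)
(fin 1102 6 1037)))))))
(mv 973 (cons (cons (mv 1228 (cons (fin 1164 5 972)
(mv 1230 (cons (fin 1166 4 973)
(mv 908 (cons (fin 972 7 908)
(mv 909 (cons (fin 844 7 844)
(mv 845 (cons (fin 1102 4 845)
(mv 1100 (cons (fin 1036 5 844)
(mv 1098 (cons (fin 1099 2 1034)
(mv 781 (cons (fin 974 4 781)
(mv 782 (cons (fin 846 6 781)
(fin 718 6 717)))))))))))))))))))
(cons (mv 1228 (cons (fin 1164 5 972)
(mv 908 (cons (fin 972 7 908)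
(mv 909 (cons (fin 844 7 844)
(mv 845 (cons (fin 1102 4 845)
(mv 1100 (cons (fin 1036 5 844)
(mv 1098 (cons (fin 1099 2 1034)
(mv 781 (cons (fin 974 4 781)
(mv 782 (cons (fin 846 6 781)
(fin 718 6 717)))))))))))))))))
(mv 1230 (cons (fin 1166 4 973)
(mv 908 (cons (fin 972 7 908)
(mv 909 (cons (fin 844 7 844)
(mv 845 (cons (fin 1102 4 845)
(mv 1100 (cons (fin 1036 5 844)
(mv 1098 (cons (fin 1099 2 1034)
(mv 781 (cons (fin 974 4 781)
(mv 782 (cons (fin 846 6 781)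
(fin 718 6 717)))))))))))))))))))
(cons (cons (mv 1230 (cons (fin 1166 4 973)
(mv 1164 (cons (fin 1228 5 972)
(mv 909 (cons (fin 1100 5 908)
(mv 845 (cons (fin 1102 4 845)
(mv 844 (cons (fin 780 7 780)
(mv 781 (cons (fin 974 4 781)
(mv 782 (cons (fin 846 6 781)
(fin 718 6 717)))))))))))))))
(mv 1164 (cons (fin 1228 5 972)
(mv 1166 (cons (fin 1230 4 973)
(mv 972 (cons (fin 908 7 908)
(mv 1167 (cons (mv 1100 (cons (fin 1099 3 1099)
(fin 1168 3 1100)))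
(mv 1231 (cons (fin 1232 0 1164)
(mv 1102 (cons (fin 974 4 974)
(mv 1295 (cons (fin 1359 7 1102)
(fin 1103 7 1038))))))))))))))))
(cons (mv 1230 (cons (fin 1166 4 973)
(mv 1164 (cons (fin 1228 5 972)
(mv 908 (cons (fin 972 7 908)
(mv 909 (cons (fin 1100 5 908)
(fin 844 7 844)))))))))
(mv 1228 (cons (fin 1164 5 972)
(mv 1230 (cons (fin 1166 4 973)
(mv 908 (cons (fin 972 7 908)
(mv 909 (cons (fin 844 7 844)
(mv 845 (cons (fin 1102 4 845)
(mv 781 (cons (fin 974 4 781)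
(mv 782 (cons (fin 846 6 781)
(fin 718 6 717))))))))))))))))))))
(cons (mv 1229 (cons (mv 1292 (cons (fin 1228 5 1036)
(mv 1293 (cons (fin 1356 5 1100)
(fin 1102 6 1037)))))
(cons (mv 1292 (cons (fin 1228 5 1036)
(mv 1230 (cons (fin 1294 4 1037)
(mv 972 (cons (fin 1036 7 972)
(mv 973 (cons (fin 908 7 908)
(fin 1166 4 973)))))))))
(mv 1293 (cons (fin 1102 6 1037)
(mv 1294 (cons (fin 1358 4 1101)
(fin 1230 4 1037))))))))
(cons (mv 1229 (cons (fin 974 6 973)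
(mv 1293 (cons (fin 1102 6 1037)
(mv 1294 (cons (fin 1358 4 1101)
(fin 1230 4 1037)))))))
(mv 1229 (cons (fin 974 6 973)
(mv 1292 (cons (fin 1228 5 1036)
(mv 1356 (cons (fin 1293 5 1100)
(mv 1230 (cons (fin 1294 4 1037)
(mv 972 (cons (fin 1036 7 972)
(mv 973 (cons (fin 908 7 908)
(fin 1166 4 973)))))))))))))))))
(mv 1039 (cons (cons (mv 1104 (cons (fin 1105 0 1037)
(mv 1103 (cons (fin 1036 0 1036)
(mv 972 (cons (fin 973 3 972)
(mv 976 (cons (fin 977 2 973)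
(mv 1167 (cons (fin 912 5 911)
(fin 1231 6 975)))))))))))
(cons (mv 973 (cons (fin 972 3 972)
(mv 976 (cons (fin 977 2 973)
(mv 1036 (cons (fin 975 2 972)
(mv 1102 (cons (mv 1166 (cons (fin 1230 7 973)
(fin 909 4 909)))
(mv 1035 (cons (fin 1034 0 1034)
(fin 1103 0 1035)))))))))))
(mv 1104 (cons (fin 1105 0 1037)
(mv 1103 (cons (fin 1036 0 1036)
(mv 972 (cons (fin 973 3 972)
(mv 1168 (cons (mv 1232 (cons (fin 1296 7 1039)
(fin 975 7 975)))
(mv 1102 (cons (fin 1169 0 1101)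
(mv 1165 (cons (fin 1164 1 1100)
(mv 1229 (cons (fin 1293 6 1037)
(fin 974 6 973)))))))))))))))))
(cons (mv 1104 (cons (fin 1105 0 1037)
(mv 1103 (cons (fin 1036 0 1036)
(mv 976 (cons (fin 977 2 973)
(mv 1167 (cons (fin 912 5 911)
(fin 1231 6 975)))))))))
(cons (mv 1104 (cons (fin 1105 0 1037)
(mv 972 (cons (fin 973 3 972)
(mv 976 (cons (fin 977 2 973)
(mv 1168 (cons (mv 975 (cons (fin 1232 7 975)
(fin 911 7 911)))
(cons (mv 1231 (cons (fin 1167 5 975)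
(mv 1232 (cons (fin 1295 5 1039)
(mv 1233 (cons (fin 1297 4 1040)
(fin 1169 4 976)))))))
(mv 1231 (cons (fin 1167 5 975)
(mv 1233 (cons (fin 1169 4 976)
(mv 911 (cons (fin 975 7 911)
(mv 912 (cons (fin 847 7 847)
(mv 848 (cons (fin 1103 5 847)
(mv 849 (cons (fin 913 6 848)
(fin 785 6 784))))))))))))))))))))))
(mv 1104 (cons (fin 1105 0 1037)
(mv 972 (cons (fin 973 3 972)
(mv 976 (cons (fin 977 2 973)
(mv 975 (cons (fin 1036 2 972)
(mv 1168 (cons (fin 1232 7 975)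
(fin 911 7 911)))))))))))))))))
(cons (mv 1039 (cons (fin 1100 1 1036)
(mv 1104 (cons (fin 1105 0 1037)
(mv 1103 (cons (fin 1036 0 1036)
(mv 976 (cons (fin 977 2 973)
(mv 1167 (cons (fin 912 5 911)
(fin 1231 6 975)))))))))))
(cons (mv 1039 (cons (fin 1100 1 1036)
(mv 1104 (cons (fin 1105 0 1037)
(mv 972 (cons (fin 973 3 972)
(mv 976 (cons (fin 977 2 973)
(mv 1168 (cons (mv 975 (cons (fin 1232 7 975)
(fin 911 7 911)))
(cons (mv 1231 (cons (fin 1167 5 975)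
(mv 1232 (cons (fin 1295 5 1039)
(mv 1233 (cons (fin 1297 4 1040)
(fin 1169 4 976)))))))
(mv 1231 (cons (fin 1167 5 975)
(mv 1233 (cons (fin 1169 4 976)
(mv 911 (cons (fin 975 7 911)
(mv 912 (cons (fin 847 7 847)
(mv 848 (cons (fin 1103 5 847)
(mv 849 (cons (fin 913 6 848)
(fin 785 6 784))))))))))))))))))))))))
(mv 1039 (cons (fin 1100 1 1036)
(mv 1104 (cons (fin 1105 0 1037)
(mv 972 (cons (fin 973 3 972)
(mv 976 (cons (fin 977 2 973)
(mv 975 (cons (fin 1036 2 972)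
(mv 1168 (cons (fin 1232 7 975)
(fin 911 7 911))))))))))))))))))))
(cons (cons (mv 1038 (cons (cons (cons (mv 1039 (cons (fin 1100 1 1036)
(mv 1104 (cons (fin 1105 0 1037)
(mv 1103 (cons (fin 1036 0 1036)
(mv 972 (cons (fin 973 3 972)
(mv 976 (cons (fin 977 2 973)
(mv 1167 (cons (fin 912 5 911)
(fin 1231 6 975)))))))))))))
(mv 974 (cons (cons (mv 1165 (cons (fin 1229 6 973)
(mv 910 (cons (fin 1102 5 909)
(fin 846 5 845)))))
(mv 910 (cons (fin 846 5 845)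
(mv 1102 (cons (mv 1167 (cons (fin 1103 4 910)
(mv 1166 (cons (fin 1231 4 974)
(mv 1230 (cons (fin 1294 7 1037)
(fin 973 7 973)))))))
(cons (mv 909 (cons (fin 845 7 845)
(mv 1166 (cons (fin 973 7 909)
(mv 911 (cons (fin 975 6 910)
(fin 847 6 846)))))))
(mv 1103 (cons (fin 1167 4 910)
(mv 1104 (cons (fin 1036 3 1036)
(fin 1105 3 1037)))))))))))
(cons (mv 1165 (cons (fin 1229 6 973)
(mv 973 (cons (cons (mv 1228 (cons (fin 1164 5 972)
(mv 1166 (cons (fin 1230 4 973)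
(mv 1102 (cons (fin 909 7 909)
(mv 1231 (cons (fin 1167 4 974)
(mv 975 (cons (fin 911 6 910)
(mv 1036 (cons (fin 976 1 972)
(fin 1035 2 971)))))))))))))
(mv 1164 (cons (fin 1228 5 972)
(mv 909 (cons (fin 1100 5 908)
(mv 845 (cons (fin 1102 4 845)
(fin 781 4 781))))))))
(cons (mv 1166 (cons (fin 1230 4 973)
(mv 1102 (cons (fin 909 7 909)
(mv 1231 (cons (fin 1167 4 974)
(mv 975 (cons (fin 911 6 910)
(mv 1036 (cons (fin 976 1 972)
(fin 1035 2 971)))))))))))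
(cons (mv 1228 (cons (fin 1164 5 972)
(mv 1166 (cons (fin 1230 4 973)
(mv 975 (cons (mv 1036 (cons (fin 976 1 972)
(fin 1035 2 971)))
(mv 1102 (cons (fin 911 6 910)
(mv 1167 (cons (fin 1231 4 974)
(mv 1168 (cons (fin 1100 3 1100)
(fin 1169 3 1101)))))))))))))
(mv 1164 (cons (fin 1228 5 972)
(mv 1166 (cons (fin 1230 4 973)
(mv 1100 (cons (fin 909 5 908)
(mv 1167 (cons (fin 1099 3 1099)
(fin 1168 3 1100)))))))))))))))
(mv 1165 (cons (fin 1229 6 973)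
(mv 910 (cons (fin 846 5 845)
(fin 973 6 909)))))))))
(cons (mv 1039 (cons (cons (mv 1104 (cons (fin 1105 0 1037)
(mv 1103 (cons (fin 1036 0 1036)
(mv 972 (cons (fin 973 3 972)
(mv 976 (cons (fin 977 2 973)
(mv 1167 (cons (fin 912 5 911)
(fin 1231 6 975)))))))))))
(cons (mv 972 (cons (fin 973 3 972)
(mv 976 (cons (fin 977 2 973)
(mv 1165 (cons (cons (mv 1229 (cons (fin 1036 7 972)
(fin 974 6 973)))
(mv 975 (cons (fin 1036 2 972)
(mv 1102 (cons (cons (mv 1230 (cons (fin 1166 6 974)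
(mv 910 (cons (fin 974 5 909)
(mv 911 (cons (fin 847 5 846)
(mv 1103 (cons (fin 846 7 846)
(mv 1167 (cons (fin 1231 6 975)
(fin 912 6 911)))))))))))
(mv 910 (cons (fin 974 5 909)
(mv 911 (cons (fin 847 5 846)
(mv 1103 (cons (fin 846 7 846)
(mv 1167 (cons (fin 1231 6 975)
(fin 912 6 911))))))))))
(cons (mv 1166 (cons (fin 1230 6 974)
(mv 974 (cons (fin 910 5 909)
(mv 1167 (cons (fin 1231 4 974)
(mv 1168 (cons (fin 1169 3 1101)
(mv 1232 (cons (fin 1233 0 1165)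
(fin 1103 4 975)))))))))))
(cons (mv 1166 (cons (fin 1230 6 974)
(mv 911 (cons (fin 1103 5 910)
(fin 847 5 846)))))
(mv 1166 (cons (fin 1230 6 974)
(mv 974 (cons (fin 910 5 909)
(fin 911 6 910))))))))))))
(cons (mv 1229 (cons (fin 974 6 973)
(mv 1292 (cons (fin 1228 5 1036)
(mv 1293 (cons (fin 1356 5 1100)
(fin 1102 6 1037)))))))
(mv 1036 (cons (fin 975 2 972)
(fin 1229 7 972))))))))))
(mv 1104 (cons (fin 1105 0 1037)
(mv 1103 (cons (fin 1036 0 1036)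
(mv 972 (cons (fin 973 3 972)
(mv 1168 (cons (mv 1232 (cons (fin 1296 7 1039)
(fin 975 7 975)))
(mv 1102 (cons (fin 1169 0 1101)
(mv 1165 (cons (fin 1164 1 1100)
(mv 1229 (cons (fin 1293 6 1037)
(fin 974 6 973)))))))))))))))))
(cons (mv 1104 (cons (fin 1105 0 1037)
(mv 1103 (cons (fin 1036 0 1036)
(mv 976 (cons (fin 977 2 973)
(mv 1167 (cons (fin 912 5 911)
(fin 1231 6 975)))))))))
(cons (mv 1104 (cons (fin 1105 0 1037)
(mv 972 (cons (fin 973 3 972)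
(mv 976 (cons (fin 977 2 973)
(mv 1168 (cons (mv 975 (cons (fin 1232 7 975)
(fin 911 7 911)))
(cons (mv 1231 (cons (fin 1167 5 975)
(mv 1232 (cons (fin 1295 5 1039)
(mv 1233 (cons (fin 1297 4 1040)
(fin 1169 4 976)))))))
(mv 1231 (cons (fin 1167 5 975)
(mv 1233 (cons (fin 1169 4 976)
(mv 911 (cons (fin 975 7 911)
(mv 912 (cons (fin 847 7 847)
(mv 848 (cons (fin 1103 5 847)
(mv 849 (cons (fin 913 6 848)
(fin 785 6 784))))))))))))))))))))))
(mv 1104 (cons (fin 1105 0 1037)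
(mv 972 (cons (fin 973 3 972)
(mv 976 (cons (fin 977 2 973)
(mv 975 (cons (fin 1036 2 972)
(mv 1168 (cons (fin 1232 7 975)
(fin 911 7 911)))))))))))))))
(mv 1039 (cons (fin 1100 1 1036)
(mv 1104 (cons (fin 1105 0 1037)
(mv 1103 (cons (fin 1036 0 1036)
(mv 976 (cons (fin 977 2 973)
(mv 1167 (cons (fin 912 5 911)
(fin 1231 6 975)))))))))))))
(cons (cons (mv 1039 (cons (fin 1100 1 1036)
(mv 972 (cons (fin 973 3 972)
(mv 976 (cons (fin 977 2 973)
(mv 1165 (cons (cons (mv 1229 (cons (fin 1036 7 972)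
(fin 974 6 973)))
(mv 975 (cons (fin 1036 2 972)
(mv 1102 (cons (cons (mv 1230 (cons (fin 1166 6 974)
(mv 910 (cons (fin 974 5 909)
(mv 911 (cons (fin 847 5 846)
(mv 1103 (cons (fin 846 7 846)
(mv 1167 (cons (fin 1231 6 975)
(fin 912 6 911)))))))))))
(mv 910 (cons (fin 974 5 909)
(mv 911 (cons (fin 847 5 846)
(mv 1103 (cons (fin 846 7 846)
(mv 1167 (cons (fin 1231 6 975)
(fin 912 6 911))))))))))
(cons (mv 1166 (cons (fin 1230 6 974)
(mv 974 (cons (fin 910 5 909)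
(mv 1167 (cons (fin 1231 4 974)
(mv 1168 (cons (fin 1169 3 1101)
(mv 1232 (cons (fin 1233 0 1165)
(fin 1103 4 975)))))))))))
(cons (mv 1166 (cons (fin 1230 6 974)
(mv 911 (cons (fin 1103 5 910)
(fin 847 5 846)))))
(mv 1166 (cons (fin 1230 6 974)
(mv 974 (cons (fin 910 5 909)
(fin 911 6 910))))))))))))
(cons (mv 1229 (cons (fin 974 6 973)
(mv 1292 (cons (fin 1228 5 1036)
(mv 1293 (cons (fin 1356 5 1100)
(fin 1102 6 1037)))))))
(mv 1036 (cons (fin 975 2 972)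
(fin 1229 7 972))))))))))))
(mv 1100 (cons (fin 1039 1 1036)
(mv 1098 (cons (fin 1099 2 1034)
(mv 1164 (cons (cons (mv 1228 (cons (fin 1292 6 1036)
(mv 973 (cons (fin 1165 5 972)
(fin 909 5 908)))))
(mv 1228 (cons (fin 1292 6 1036)
(mv 1036 (cons (cons (mv 1291 (cons (fin 1227 5 1035)
(mv 1229 (cons (fin 1293 4 1036)
(mv 1165 (cons (fin 972 7 972)
(fin 974 6 973)))))))
(mv 1227 (cons (fin 1291 5 1035)
(mv 1163 (cons (fin 972 5 971)
(mv 1161 (cons (fin 1162 2 1097)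
(mv 1102 (cons (fin 1103 1 1099)
(mv 1035 (cons (fin 1034 0 1034)
(mv 974 (cons (fin 975 2 971)
(mv 910 (cons (fin 1165 5 909)
(fin 846 5 845))))))))))))))))
(cons (mv 1229 (cons (fin 1293 4 1036)
(mv 1165 (cons (fin 972 7 972)
(fin 974 6 973)))))
(cons (mv 1293 (cons (fin 1229 4 1036)
(mv 1227 (cons (fin 1291 5 1035)
(mv 1163 (cons (fin 972 5 971)
(mv 1162 (cons (fin 1161 2 1097)
(mv 1102 (cons (fin 1103 1 1099)
(mv 1034 (cons (fin 1035 0 1034)
(fin 970 4 970)))))))))))))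
(mv 1291 (cons (fin 1227 5 1035)
(mv 1229 (cons (fin 1293 4 1036)
(mv 1165 (cons (fin 974 6 973)
(mv 1230 (cons (fin 1294 4 1037)
(mv 1231 (cons (fin 1163 3 1163)
(fin 1232 3 1164))))))))))))))))))
(cons (mv 973 (cons (fin 909 5 908)
(mv 1165 (cons (mv 974 (cons (fin 1229 6 973)
(fin 910 6 909)))
(cons (mv 1230 (cons (fin 1166 4 973)
(mv 1229 (cons (fin 1294 4 1037)
(mv 1293 (cons (fin 1357 7 1100)
(fin 1036 7 1036)))))))
(mv 1166 (cons (fin 1230 4 973)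
(mv 1167 (cons (fin 1168 3 1100)
(mv 1231 (cons (fin 1232 0 1164)
(mv 974 (cons (fin 1102 4 974)
(fin 910 6 909))))))))))))))
(mv 1228 (cons (fin 1292 6 1036)
(mv 973 (cons (fin 909 5 908)
(fin 1036 6 972)))))))))))))
(cons (mv 1039 (cons (fin 1100 1 1036)
(mv 1104 (cons (fin 1105 0 1037)
(mv 972 (cons (fin 973 3 972)
(mv 976 (cons (fin 977 2 973)
(mv 1168 (cons (mv 975 (cons (fin 1232 7 975)
(fin 911 7 911)))
(cons (mv 1231 (cons (fin 1167 5 975)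
(mv 1232 (cons (fin 1295 5 1039)
(mv 1233 (cons (fin 1297 4 1040)
(fin 1169 4 976)))))))
(mv 1231 (cons (fin 1167 5 975)
(mv 1233 (cons (fin 1169 4 976)
(mv 911 (cons (fin 975 7 911)
(mv 912 (cons (fin 847 7 847)
(mv 848 (cons (fin 1103 5 847)
(mv 849 (cons (fin 913 6 848)
(fin 785 6 784))))))))))))))))))))))))
(mv 1039 (cons (fin 1100 1 1036)
(mv 1104 (cons (fin 1105 0 1037)
(mv 972 (cons (fin 973 3 972)
(mv 976 (cons (fin 977 2 973)
(mv 975 (cons (fin 1036 2 972)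
(mv 1168 (cons (fin 1232 7 975)
(fin 911 7 911)))))))))))))))))
(mv 1038 (cons (cons (cons (mv 1039 (cons (fin 1100 1 1036)
(mv 972 (cons (fin 973 3 972)
(mv 976 (cons (fin 977 2 973)
(mv 975 (cons (fin 1036 2 972)
(mv 1103 (cons (mv 1167 (cons (fin 1231 6 975)
(fin 912 6 911)))
(cons (mv 912 (cons (fin 848 5 847)
(mv 911 (cons (mv 1102 (cons (fin 1166 5 910)
(fin 847 5 846)))
(cons (mv 1102 (cons (fin 1166 5 910)
(mv 910 (cons (fin 846 7 846)
(mv 974 (cons (fin 1165 5 909)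
(mv 909 (cons (fin 908 0 908)
(fin 845 7 845)))))))))
(mv 846 (cons (fin 910 7 846)
(mv 847 (cons (fin 782 7 782)
(fin 783 4 783))))))))))
(mv 1167 (cons (fin 1231 6 975)
(mv 1230 (cons (fin 1166 5 974)
(mv 1232 (cons (fin 1168 4 975)
(mv 910 (cons (fin 974 7 910)
(mv 911 (cons (fin 846 7 846)
(mv 847 (cons (fin 1102 5 846)
(fin 783 4 783))))))))))))))))))))))))
(mv 974 (cons (cons (mv 1165 (cons (fin 1229 6 973)
(mv 910 (cons (fin 1102 5 909)
(fin 846 5 845)))))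
(mv 910 (cons (fin 846 5 845)
(mv 1102 (cons (cons (mv 1167 (cons (fin 1103 4 910)
(mv 1166 (cons (fin 1231 4 974)
(mv 1230 (cons (fin 1294 7 1037)
(fin 973 7 973)))))))
(mv 909 (cons (fin 845 7 845)
(mv 1166 (cons (fin 973 7 909)
(mv 911 (cons (fin 975 6 910)
(fin 847 6 846))))))))
(cons (mv 1167 (cons (fin 1103 4 910)
(mv 909 (cons (fin 845 7 845)
(mv 911 (cons (fin 847 6 846)
(mv 975 (cons (mv 976 (cons (fin 977 1 973)
(fin 908 0 908)))
(cons (mv 1035 (cons (fin 1036 2 971)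
(mv 908 (cons (fin 907 0 907)
(mv 844 (cons (fin 843 3 843)
(fin 973 7 844)))))))
(mv 1036 (cons (fin 1035 2 971)
(mv 976 (cons (fin 973 1 972)
(fin 977 1 973))))))))))))))
(mv 1167 (cons (fin 1103 4 910)
(mv 1166 (cons (fin 1231 4 974)
(mv 911 (cons (fin 975 6 910)
(fin 847 6 846)))))))))))))
(cons (mv 1165 (cons (fin 1229 6 973)
(mv 973 (cons (cons (mv 1228 (cons (fin 1164 5 972)
(mv 1230 (cons (fin 1166 4 973)
(mv 908 (cons (fin 972 7 908)
(mv 909 (cons (fin 844 7 844)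
(mv 845 (cons (fin 1102 4 845)
(fin 781 4 781)))))))))))
(cons (mv 1228 (cons (fin 1164 5 972)
(mv 908 (cons (fin 972 7 908)
(mv 909 (cons (fin 844 7 844)
(mv 845 (cons (fin 1102 4 845)
(fin 781 4 781)))))))))
(mv 1228 (cons (fin 1164 5 972)
(mv 1166 (cons (fin 1230 4 973)
(mv 1102 (cons (fin 909 7 909)
(mv 1231 (cons (fin 1167 4 974)
(mv 975 (cons (fin 911 6 910)
(mv 1036 (cons (fin 976 1 972)
(fin 1035 2 971)))))))))))))))
(cons (mv 1230 (cons (fin 1166 4 973)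
(mv 908 (cons (fin 972 7 908)
(mv 909 (cons (fin 844 7 844)
(mv 845 (cons (fin 1102 4 845)
(fin 781 4 781)))))))))
(cons (mv 1228 (cons (fin 1164 5 972)
(mv 1166 (cons (fin 1230 4 973)
(mv 972 (cons (fin 908 7 908)
(mv 975 (cons (mv 1036 (cons (fin 1035 1 971)
(fin 976 1 972)))
(mv 911 (cons (fin 912 2 908)
(fin 1102 6 910)))))))))))
(mv 1228 (cons (fin 1164 5 972)
(mv 1230 (cons (fin 1166 4 973)
(mv 908 (cons (fin 972 7 908)
(mv 909 (cons (fin 844 7 844)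
(mv 975 (cons (fin 976 3 908)
(mv 1036 (cons (fin 1035 2 971)
(mv 845 (cons (fin 1100 5 844)
(fin 781 4 781)))))))))))))))))))))
(mv 1165 (cons (fin 1229 6 973)
(mv 910 (cons (fin 846 5 845)
(fin 973 6 909)))))))))
(cons (mv 974 (cons (cons (mv 1165 (cons (fin 1229 6 973)
(mv 910 (cons (fin 1102 5 909)
(fin 846 5 845)))))
(mv 1165 (cons (fin 1229 6 973)
(mv 973 (cons (mv 972 (cons (fin 1039 3 972)
(fin 908 7 908)))
(mv 1228 (cons (fin 1164 5 972)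
(mv 1166 (cons (fin 1230 4 973)
(mv 1102 (cons (fin 909 7 909)
(mv 1231 (cons (fin 1167 4 974)
(mv 975 (cons (fin 911 6 910)
(mv 1036 (cons (fin 976 1 972)
(fin 1035 2 971))))))))))))))))))
(cons (mv 910 (cons (fin 846 5 845)
(mv 1102 (cons (cons (mv 1167 (cons (fin 1103 4 910)
(mv 1166 (cons (fin 1231 4 974)
(mv 1230 (cons (fin 1294 7 1037)
(fin 973 7 973)))))))
(mv 909 (cons (fin 845 7 845)
(mv 1166 (cons (fin 973 7 909)
(mv 911 (cons (fin 975 6 910)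
(fin 847 6 846))))))))
(cons (mv 1167 (cons (fin 1103 4 910)
(mv 909 (cons (fin 845 7 845)
(mv 911 (cons (fin 847 6 846)
(mv 975 (cons (mv 976 (cons (fin 977 1 973)
(fin 908 0 908)))
(cons (mv 1035 (cons (fin 1036 2 971)
(mv 908 (cons (fin 907 0 907)
(mv 844 (cons (fin 843 3 843)
(fin 973 7 844)))))))
(mv 1036 (cons (fin 1035 2 971)
(mv 976 (cons (fin 973 1 972)
(fin 977 1 973))))))))))))))
(mv 1167 (cons (fin 1103 4 910)
(mv 1166 (cons (fin 1231 4 974)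
(mv 911 (cons (fin 975 6 910)
(fin 847 6 846))))))))))))
(mv 1165 (cons (fin 1229 6 973)
(mv 910 (cons (fin 846 5 845)
(fin 973 6 909))))))))
(cons (mv 1100 (cons (fin 1039 1 1036)
(mv 1099 (cons (fin 1098 2 1034)
(mv 1102 (cons (cons (mv 1162 (cons (fin 1163 1 1098)
(mv 1166 (cons (fin 1167 0 1099)
(mv 1230 (cons (fin 1294 7 1037)
(fin 973 7 973)))))))
(mv 1163 (cons (fin 1162 1 1098)
(mv 1164 (cons (fin 1103 1 1099)
(mv 1228 (cons (fin 1292 6 1036)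
(mv 973 (cons (fin 1165 5 972)
(fin 909 5 908))))))))))
(cons (mv 1166 (cons (fin 1167 0 1099)
(mv 1230 (cons (fin 1294 7 1037)
(fin 973 7 973)))))
(mv 1162 (cons (fin 1163 1 1098)
(mv 1166 (cons (fin 1167 0 1099)
(mv 1230 (cons (fin 1294 7 1037)
(mv 1295 (cons (fin 1231 4 1038)
(mv 1229 (cons (fin 1293 5 1037)
(mv 1035 (cons (fin 1034 3 1034)
(mv 1036 (cons (fin 1103 3 1035)
(mv 1165 (cons (fin 972 7 972)
(mv 1228 (cons (fin 1292 5 1036)
(mv 1227 (cons (fin 1226 2 1162)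
(mv 1291 (cons (fin 1290 1 1226)
(fin 1164 5 1035))))))))))))))))))))))))))))))
(mv 1039 (cons (fin 1100 1 1036)
(mv 976 (cons (fin 977 2 973)
(mv 975 (cons (fin 1036 2 972)
(mv 1103 (cons (mv 1167 (cons (fin 1231 6 975)
(fin 912 6 911)))
(cons (mv 912 (cons (fin 848 5 847)
(mv 911 (cons (mv 1102 (cons (fin 1166 5 910)
(fin 847 5 846)))
(cons (mv 1102 (cons (fin 1166 5 910)
(mv 910 (cons (fin 846 7 846)
(mv 974 (cons (fin 1165 5 909)
(mv 909 (cons (fin 908 0 908)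
(fin 845 7 845)))))))))
(mv 846 (cons (fin 910 7 846)
(mv 847 (cons (fin 782 7 782)
(fin 783 4 783))))))))))
(mv 1167 (cons (fin 1231 6 975)
(mv 1230 (cons (fin 1166 5 974)
(mv 1232 (cons (fin 1168 4 975)
(mv 910 (cons (fin 974 7 910)
(mv 911 (cons (fin 846 7 846)
(mv 847 (cons (fin 1102 5 846)
(fin 783 4 783)))))))))))))))))))))))))
(cons (cons (mv 1039 (cons (fin 1100 1 1036)
(mv 972 (cons (fin 973 3 972)
(mv 976 (cons (fin 977 2 973)
(mv 975 (cons (fin 1036 2 972)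
(mv 1103 (cons (mv 1167 (cons (fin 1231 6 975)
(fin 912 6 911)))
(cons (mv 912 (cons (fin 848 5 847)
(mv 911 (cons (mv 1102 (cons (fin 1166 5 910)
(fin 847 5 846)))
(cons (mv 1102 (cons (fin 1166 5 910)
(mv 910 (cons (fin 846 7 846)
(mv 909 (cons (fin 908 0 908)
(mv 845 (cons (fin 844 3 844)
(fin 974 7 845)))))))))
(mv 846 (cons (fin 910 7 846)
(mv 847 (cons (fin 782 7 782)
(fin 783 4 783))))))))))
(mv 1167 (cons (fin 1231 6 975)
(mv 1230 (cons (fin 1166 5 974)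
(mv 1232 (cons (fin 1168 4 975)
(mv 910 (cons (fin 974 7 910)
(mv 911 (cons (fin 846 7 846)
(mv 847 (cons (fin 1102 5 846)
(fin 783 4 783))))))))))))))))))))))))
(mv 1039 (cons (fin 1100 1 1036)
(mv 973 (cons (fin 972 3 972)
(mv 976 (cons (fin 977 2 973)
(mv 1036 (cons (fin 975 2 972)
(mv 1165 (cons (mv 974 (cons (fin 1229 6 973)
(fin 910 6 909)))
(cons (mv 1228 (cons (fin 1164 5 972)
(mv 1229 (cons (fin 1292 5 1036)
(mv 1230 (cons (fin 1294 4 1037)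
(fin 1166 4 973)))))))
(mv 1228 (cons (fin 1164 5 972)
(mv 1230 (cons (fin 1166 4 973)
(mv 910 (cons (fin 974 6 909)
(mv 909 (cons (fin 846 6 845)
(mv 844 (cons (fin 908 7 844)
(mv 845 (cons (fin 780 7 780)
(mv 912 (cons (fin 911 3 844)
(mv 848 (cons (fin 1103 5 847)
(mv 783 (cons (fin 847 7 783)
(mv 784 (cons (fin 719 7 719)
(mv 785 (cons (fin 849 6 784)
(fin 721 6 720)))))))))))))))))))))))))))))))))))
(cons (mv 1039 (cons (fin 1100 1 1036)
(mv 973 (cons (fin 972 3 972)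
(mv 976 (cons (fin 977 2 973)
(mv 909 (cons (mv 1102 (cons (fin 1166 4 909)
(fin 845 4 845)))
(mv 908 (cons (fin 844 7 844)
(mv 974 (cons (fin 975 3 908)
(mv 1165 (cons (fin 1229 6 973)
(fin 910 6 909)))))))))))))))
(cons (mv 1039 (cons (fin 1100 1 1036)
(mv 972 (cons (fin 973 3 972)
(mv 976 (cons (fin 977 2 973)
(mv 1165 (cons (cons (mv 1229 (cons (fin 1036 7 972)
(fin 974 6 973)))
(mv 975 (cons (fin 1036 2 972)
(mv 1102 (cons (cons (mv 1230 (cons (fin 1166 6 974)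
(mv 910 (cons (fin 974 5 909)
(mv 911 (cons (fin 847 5 846)
(mv 1103 (cons (fin 846 7 846)
(mv 1167 (cons (fin 1231 6 975)
(fin 912 6 911)))))))))))
(mv 910 (cons (fin 974 5 909)
(mv 911 (cons (fin 847 5 846)
(mv 1103 (cons (fin 846 7 846)
(mv 1167 (cons (fin 1231 6 975)
(fin 912 6 911))))))))))
(cons (mv 1166 (cons (fin 1230 6 974)
(mv 974 (cons (fin 910 5 909)
(mv 1167 (cons (fin 1231 4 974)
(mv 1168 (cons (fin 1169 3 1101)
(mv 1232 (cons (fin 1233 0 1165)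
(fin 1103 4 975)))))))))))
(cons (mv 1166 (cons (fin 1230 6 974)
(mv 911 (cons (fin 1103 5 910)
(fin 847 5 846)))))
(mv 1166 (cons (fin 1230 6 974)
(mv 974 (cons (fin 910 5 909)
(fin 911 6 910))))))))))))
(cons (mv 1229 (cons (fin 974 6 973)
(mv 1292 (cons (fin 1228 5 1036)
(mv 1293 (cons (fin 1356 5 1100)
(fin 1102 6 1037)))))))
(mv 1036 (cons (fin 975 2 972)
(fin 1229 7 972))))))))))))
(mv 1039 (cons (fin 1100 1 1036)
(mv 972 (cons (fin 973 3 972)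
(mv 976 (cons (fin 977 2 973)
(mv 912 (cons (cons (mv 1103 (cons (fin 848 5 847)
(mv 1167 (cons (fin 1231 6 975)
(fin 975 6 911)))))
(mv 910 (cons (cons (mv 1036 (cons (fin 975 2 972)
(mv 1165 (cons (fin 1229 7 972)
(mv 974 (cons (fin 1102 5 909)
(fin 846 5 845)))))))
(mv 975 (cons (fin 1036 2 972)
(mv 1103 (cons (fin 1167 6 911)
(mv 911 (cons (fin 846 7 846)
(mv 847 (cons (fin 1102 5 846)
(fin 783 4 783))))))))))
(cons (mv 974 (cons (fin 846 5 845)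
(mv 1165 (cons (fin 1102 5 909)
(fin 1229 6 973)))))
(cons (mv 1036 (cons (fin 975 2 972)
(mv 1165 (cons (fin 1229 7 972)
(mv 1102 (cons (fin 974 5 909)
(mv 1035 (cons (fin 1034 0 1034)
(fin 1103 0 1035)))))))))
(mv 975 (cons (fin 1036 2 972)
(mv 1103 (cons (fin 1167 6 911)
(mv 846 (cons (fin 974 5 845)
(fin 911 7 846))))))))))))
(cons (mv 848 (cons (fin 1103 5 847)
(mv 783 (cons (fin 847 7 783)
(mv 784 (cons (fin 719 7 719)
(mv 785 (cons (fin 849 6 784)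
(fin 721 6 720)))))))))
(mv 975 (cons (fin 1036 2 972)
(mv 848 (cons (fin 784 5 783)
(mv 847 (cons (fin 783 7 783)
(mv 911 (cons (fin 1102 5 846)
(mv 846 (cons (fin 782 7 782)
(mv 913 (cons (fin 914 3 846)
(fin 845 0 845))))))))))))))))))))))))))))
(cons (mv 1038 (cons (cons (mv 1039 (cons (fin 1100 1 1036)
(mv 1104 (cons (fin 1105 0 1037)
(mv 972 (cons (fin 973 3 972)
(mv 976 (cons (fin 977 2 973)
(mv 975 (cons (fin 1036 2 972)
(mv 1168 (cons (fin 1232 7 975)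
(fin 911 7 911)))))))))))))
(mv 974 (cons (cons (mv 1165 (cons (fin 1229 6 973)
(mv 910 (cons (fin 1102 5 909)
(fin 846 5 845)))))
(mv 910 (cons (fin 846 5 845)
(mv 1102 (cons (cons (mv 909 (cons (fin 845 7 845)
(mv 1166 (cons (fin 973 7 909)
(mv 911 (cons (fin 975 6 910)
(fin 847 6 846)))))))
(mv 911 (cons (fin 847 6 846)
(mv 1166 (cons (fin 975 6 910)
(mv 1230 (cons (fin 1294 7 1037)
(fin 973 7 973))))))))
(cons (mv 909 (cons (fin 845 7 845)
(mv 1166 (cons (fin 973 7 909)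
(mv 1230 (cons (fin 1294 7 1037)
(mv 1231 (cons (fin 1295 4 1038)
(fin 1167 4 974)))))))))
(cons (mv 909 (cons (fin 845 7 845)
(mv 911 (cons (fin 847 6 846)
(mv 975 (cons (mv 976 (cons (fin 977 1 973)
(fin 908 0 908)))
(cons (mv 1035 (cons (fin 1036 2 971)
(mv 908 (cons (fin 907 0 907)
(mv 844 (cons (fin 843 3 843)
(fin 973 7 844)))))))
(mv 1036 (cons (fin 1035 2 971)
(mv 976 (cons (fin 973 1 972)
(fin 977 1 973))))))))))))
(mv 909 (cons (fin 845 7 845)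
(mv 911 (cons (fin 847 6 846)
(mv 1166 (cons (fin 975 6 910)
(mv 1230 (cons (fin 1294 7 1037)
(mv 1231 (cons (fin 1295 4 1038)
(fin 1167 4 974))))))))))))))))))
(cons (mv 1165 (cons (fin 1229 6 973)
(mv 973 (cons (cons (mv 1228 (cons (fin 1164 5 972)
(mv 1230 (cons (fin 1166 4 973)
(mv 908 (cons (fin 972 7 908)
(mv 909 (cons (fin 844 7 844)
(mv 845 (cons (fin 1102 4 845)
(fin 781 4 781)))))))))))
(cons (mv 1228 (cons (fin 1164 5 972)
(mv 908 (cons (fin 972 7 908)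
(mv 909 (cons (fin 844 7 844)
(mv 845 (cons (fin 1102 4 845)
(fin 781 4 781)))))))))
(mv 1228 (cons (fin 1164 5 972)
(mv 1166 (cons (fin 1230 4 973)
(mv 1102 (cons (fin 909 7 909)
(mv 1231 (cons (fin 1167 4 974)
(mv 975 (cons (fin 911 6 910)
(mv 1036 (cons (fin 976 1 972)
(fin 1035 2 971)))))))))))))))
(cons (mv 1230 (cons (fin 1166 4 973)
(mv 908 (cons (fin 972 7 908)
(mv 909 (cons (fin 844 7 844)
(mv 845 (cons (fin 1102 4 845)
(fin 781 4 781)))))))))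
(cons (mv 1228 (cons (fin 1164 5 972)
(mv 1166 (cons (fin 1230 4 973)
(mv 972 (cons (fin 908 7 908)
(mv 975 (cons (mv 1036 (cons (fin 1035 1 971)
(fin 976 1 972)))
(mv 911 (cons (fin 912 2 908)
(fin 1102 6 910)))))))))))
(mv 1228 (cons (fin 1164 5 972)
(mv 1230 (cons (fin 1166 4 973)
(mv 908 (cons (fin 972 7 908)
(mv 909 (cons (fin 844 7 844)
(mv 975 (cons (fin 976 3 908)
(mv 1036 (cons (fin 1035 2 971)
(mv 845 (cons (fin 1100 5 844)
(fin 781 4 781)))))))))))))))))))))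
(mv 1165 (cons (fin 1229 6 973)
(mv 910 (cons (fin 846 5 845)
(fin 973 6 909)))))))))
(cons (mv 1039 (cons (cons (mv 1104 (cons (fin 1105 0 1037)
(mv 972 (cons (fin 973 3 972)
(mv 976 (cons (fin 977 2 973)
(mv 975 (cons (fin 1036 2 972)
(mv 1168 (cons (fin 1232 7 975)
(fin 911 7 911)))))))))))
(mv 1104 (cons (fin 1105 0 1037)
(mv 973 (cons (fin 972 3 972)
(mv 1165 (cons (cons (mv 974 (cons (fin 1229 6 973)
(fin 910 6 909)))
(mv 1228 (cons (fin 1164 5 972)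
(mv 1292 (cons (fin 1229 5 1036)
(mv 1166 (cons (fin 1230 4 973)
(mv 909 (cons (fin 1102 4 909)
(mv 844 (cons (fin 908 7 844)
(mv 845 (cons (fin 780 7 780)
(mv 846 (cons (fin 910 6 845)
(fin 782 6 781))))))))))))))))
(cons (mv 1228 (cons (fin 1164 5 972)
(mv 1230 (cons (fin 1166 4 973)
(mv 910 (cons (fin 974 6 909)
(mv 909 (cons (fin 846 6 845)
(mv 844 (cons (fin 908 7 844)
(mv 845 (cons (fin 780 7 780)
(fin 1102 4 845)))))))))))))
(mv 1228 (cons (fin 1164 5 972)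
(mv 1229 (cons (fin 1292 5 1036)
(fin 974 6 973)))))))))))))
(cons (mv 1104 (cons (fin 1105 0 1037)
(mv 976 (cons (fin 977 2 973)
(mv 975 (cons (fin 1036 2 972)
(mv 1168 (cons (fin 1232 7 975)
(fin 911 7 911)))))))))
(mv 973 (cons (fin 972 3 972)
(mv 976 (cons (fin 977 2 973)
(mv 1036 (cons (fin 975 2 972)
(mv 1165 (cons (cons (mv 974 (cons (fin 1229 6 973)
(fin 910 6 909)))
(mv 1228 (cons (fin 1164 5 972)
(mv 1292 (cons (fin 1229 5 1036)
(mv 1166 (cons (fin 1230 4 973)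
(mv 909 (cons (fin 1102 4 909)
(mv 844 (cons (fin 908 7 844)
(mv 845 (cons (fin 780 7 780)
(mv 846 (cons (fin 910 6 845)
(fin 782 6 781))))))))))))))))
(cons (mv 1228 (cons (fin 1164 5 972)
(mv 1230 (cons (fin 1166 4 973)
(mv 910 (cons (fin 974 6 909)
(mv 909 (cons (fin 846 6 845)
(mv 844 (cons (fin 908 7 844)
(mv 845 (cons (fin 780 7 780)
(fin 1102 4 845)))))))))))))
(mv 1228 (cons (fin 1164 5 972)
(mv 1229 (cons (fin 1292 5 1036)
(fin 974 6 973)))))))))))))))))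
(cons (mv 1039 (cons (fin 1100 1 1036)
(mv 1104 (cons (fin 1105 0 1037)
(mv 976 (cons (fin 977 2 973)
(mv 975 (cons (fin 1036 2 972)
(mv 1168 (cons (fin 1232 7 975)
(fin 911 7 911)))))))))))
(mv 1039 (cons (fin 1100 1 1036)
(mv 1104 (cons (fin 1105 0 1037)
(mv 973 (cons (fin 972 3 972)
(mv 1165 (cons (cons (mv 974 (cons (fin 1229 6 973)
(fin 910 6 909)))
(mv 1228 (cons (fin 1164 5 972)
(mv 1292 (cons (fin 1229 5 1036)
(mv 1166 (cons (fin 1230 4 973)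
(mv 909 (cons (fin 1102 4 909)
(mv 844 (cons (fin 908 7 844)
(mv 845 (cons (fin 780 7 780)
(mv 846 (cons (fin 910 6 845)
(fin 782 6 781))))))))))))))))
(cons (mv 1228 (cons (fin 1164 5 972)
(mv 1230 (cons (fin 1166 4 973)
(mv 910 (cons (fin 974 6 909)
(mv 909 (cons (fin 846 6 845)
(mv 844 (cons (fin 908 7 844)
(mv 845 (cons (fin 780 7 780)
(fin 1102 4 845)))))))))))))
(mv 1228 (cons (fin 1164 5 972)
(mv 1229 (cons (fin 1292 5 1036)
(fin 974 6 973))))))))))))))))))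
(cons (mv 1038 (cons (cons (mv 1039 (cons (fin 1100 1 1036)
(mv 1104 (cons (fin 1105 0 1037)
(mv 1103 (cons (fin 1036 0 1036)
(mv 972 (cons (fin 973 3 972)
(mv 976 (cons (fin 977 2 973)
(mv 1167 (cons (fin 912 5 911)
(fin 1231 6 975)))))))))))))
(cons (mv 1165 (cons (cons (mv 1229 (cons (fin 974 6 973)
(mv 1292 (cons (fin 1228 5 1036)
(mv 1293 (cons (fin 1356 5 1100)
(fin 1102 6 1037)))))))
(mv 973 (cons (cons (mv 1228 (cons (fin 1164 5 972)
(mv 1230 (cons (fin 1166 4 973)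
(mv 974 (cons (fin 910 6 909)
(mv 908 (cons (fin 972 7 908)
(mv 909 (cons (fin 844 7 844)
(mv 845 (cons (fin 1102 4 845)
(fin 781 4 781)))))))))))))
(cons (mv 1228 (cons (fin 1164 5 972)
(mv 974 (cons (fin 910 6 909)
(mv 908 (cons (fin 972 7 908)
(mv 909 (cons (fin 844 7 844)
(mv 845 (cons (fin 1102 4 845)
(fin 781 4 781)))))))))))
(mv 1228 (cons (fin 1164 5 972)
(mv 1166 (cons (fin 1230 4 973)
(mv 908 (cons (fin 972 7 908)
(mv 909 (cons (fin 844 7 844)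
(fin 1102 4 909)))))))))))
(cons (cons (mv 1230 (cons (fin 1166 4 973)
(mv 974 (cons (fin 910 6 909)
(mv 908 (cons (fin 972 7 908)
(mv 909 (cons (fin 844 7 844)
(mv 845 (cons (fin 1102 4 845)
(fin 781 4 781)))))))))))
(mv 1228 (cons (fin 1164 5 972)
(mv 1166 (cons (fin 1230 4 973)
(mv 1102 (cons (fin 909 4 909)
(mv 974 (cons (fin 910 5 909)
(mv 1231 (cons (fin 1167 4 974)
(mv 975 (cons (fin 911 6 910)
(mv 1036 (cons (fin 976 1 972)
(fin 1035 2 971))))))))))))))))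
(cons (mv 1228 (cons (fin 1164 5 972)
(mv 1230 (cons (fin 1166 4 973)
(mv 974 (cons (fin 910 6 909)
(mv 908 (cons (fin 972 7 908)
(mv 909 (cons (fin 844 7 844)
(mv 975 (cons (fin 976 3 908)
(mv 1036 (cons (fin 1035 2 971)
(mv 845 (cons (fin 1100 5 844)
(fin 781 4 781)))))))))))))))))
(mv 1228 (cons (fin 1164 5 972)
(mv 1166 (cons (fin 1230 4 973)
(mv 972 (cons (fin 908 7 908)
(mv 974 (cons (fin 910 6 909)
(mv 975 (cons (mv 1036 (cons (fin 1035 1 971)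
(fin 976 1 972)))
(mv 911 (cons (fin 912 2 908)
(fin 1102 6 910))))))))))))))))))
(cons (mv 1229 (cons (mv 1292 (cons (fin 1228 5 1036)
(mv 1293 (cons (fin 1356 5 1100)
(fin 1102 6 1037)))))
(cons (mv 1292 (cons (fin 1228 5 1036)
(mv 1230 (cons (fin 1294 4 1037)
(mv 972 (cons (fin 1036 7 972)
(mv 973 (cons (fin 908 7 908)
(fin 1166 4 973)))))))))
(mv 1293 (cons (fin 1102 6 1037)
(mv 1294 (cons (fin 1358 4 1101)
(fin 1230 4 1037))))))))
(cons (mv 1229 (cons (fin 974 6 973)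
(mv 1292 (cons (fin 1228 5 1036)
(mv 1356 (cons (fin 1293 5 1100)
(mv 1230 (cons (fin 1294 4 1037)
(mv 972 (cons (fin 1036 7 972)
(mv 973 (cons (fin 908 7 908)
(fin 1166 4 973)))))))))))))
(mv 1229 (cons (fin 974 6 973)
(mv 1293 (cons (fin 1102 6 1037)
(mv 1294 (cons (fin 1358 4 1101)
(fin 1230 4 1037)))))))))))
(mv 1039 (cons (cons (mv 1104 (cons (fin 1105 0 1037)
(mv 1103 (cons (fin 1036 0 1036)
(mv 972 (cons (fin 973 3 972)
(mv 976 (cons (fin 977 2 973)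
(mv 1167 (cons (fin 912 5 911)
(fin 1231 6 975)))))))))))
(cons (mv 973 (cons (fin 972 3 972)
(mv 976 (cons (fin 977 2 973)
(mv 1036 (cons (fin 975 2 972)
(mv 1102 (cons (mv 1166 (cons (fin 1230 7 973)
(fin 909 4 909)))
(mv 1035 (cons (fin 1034 0 1034)
(fin 1103 0 1035)))))))))))
(mv 1104 (cons (fin 1105 0 1037)
(mv 1103 (cons (fin 1036 0 1036)
(mv 972 (cons (fin 973 3 972)
(mv 1168 (cons (mv 1232 (cons (fin 1296 7 1039)
(fin 975 7 975)))
(mv 1102 (cons (fin 1169 0 1101)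
(mv 1165 (cons (fin 1164 1 1100)
(mv 1229 (cons (fin 1293 6 1037)
(fin 974 6 973)))))))))))))))))
(cons (mv 1104 (cons (fin 1105 0 1037)
(mv 1103 (cons (fin 1036 0 1036)
(mv 976 (cons (fin 977 2 973)
(mv 1167 (cons (fin 912 5 911)
(fin 1231 6 975)))))))))
(cons (mv 1104 (cons (fin 1105 0 1037)
(mv 972 (cons (fin 973 3 972)
(mv 976 (cons (fin 977 2 973)
(mv 1168 (cons (mv 975 (cons (fin 1232 7 975)
(fin 911 7 911)))
(cons (mv 1231 (cons (fin 1167 5 975)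
(mv 1232 (cons (fin 1295 5 1039)
(mv 1233 (cons (fin 1297 4 1040)
(fin 1169 4 976)))))))
(mv 1231 (cons (fin 1167 5 975)
(mv 1233 (cons (fin 1169 4 976)
(mv 911 (cons (fin 975 7 911)
(mv 912 (cons (fin 847 7 847)
(mv 848 (cons (fin 1103 5 847)
(mv 849 (cons (fin 913 6 848)
(fin 785 6 784))))))))))))))))))))))
(mv 1104 (cons (fin 1105 0 1037)
(mv 972 (cons (fin 973 3 972)
(mv 976 (cons (fin 977 2 973)
(mv 975 (cons (fin 1036 2 972)
(mv 1168 (cons (fin 1232 7 975)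
(fin 911 7 911)))))))))))))))))
(cons (mv 1039 (cons (fin 1100 1 1036)
(mv 1104 (cons (fin 1105 0 1037)
(mv 1103 (cons (fin 1036 0 1036)
(mv 976 (cons (fin 977 2 973)
(mv 1167 (cons (fin 912 5 911)
(fin 1231 6 975)))))))))))
(cons (mv 1039 (cons (fin 1100 1 1036)
(mv 1104 (cons (fin 1105 0 1037)
(mv 1103 (cons (fin 1036 0 1036)
(mv 972 (cons (fin 973 3 972)
(mv 1168 (cons (mv 1232 (cons (fin 1296 7 1039)
(fin 975 7 975)))
(mv 1102 (cons (fin 1169 0 1101)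
(mv 1165 (cons (fin 1164 1 1100)
(mv 1229 (cons (fin 1293 6 1037)
(fin 974 6 973)))))))))))))))))
(mv 1039 (cons (fin 1100 1 1036)
(mv 1104 (cons (fin 1105 0 1037)
(mv 972 (cons (fin 973 3 972)
(mv 976 (cons (fin 977 2 973)
(mv 1168 (cons (mv 975 (cons (fin 1232 7 975)
(fin 911 7 911)))
(cons (mv 1231 (cons (fin 1167 5 975)
(mv 1232 (cons (fin 1295 5 1039)
(mv 1233 (cons (fin 1297 4 1040)
(fin 1169 4 976)))))))
(mv 1231 (cons (fin 1167 5 975)
(mv 1233 (cons (fin 1169 4 976)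
(mv 911 (cons (fin 975 7 911)
(mv 912 (cons (fin 847 7 847)
(mv 848 (cons (fin 1103 5 847)
(mv 849 (cons (fin 913 6 848)
(fin 785 6 784))))))))))))))))))))))))))))
(mv 1038 (cons (cons (cons (mv 1039 (cons (fin 1100 1 1036)
(mv 1104 (cons (fin 1105 0 1037)
(mv 1103 (cons (fin 1036 0 1036)
(mv 972 (cons (fin 973 3 972)
(mv 976 (cons (fin 977 2 973)
(mv 1167 (cons (fin 912 5 911)
(fin 1231 6 975)))))))))))))
(mv 974 (cons (cons (mv 1165 (cons (fin 1229 6 973)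
(mv 910 (cons (fin 1102 5 909)
(fin 846 5 845)))))
(mv 910 (cons (fin 846 5 845)
(mv 1102 (cons (mv 1167 (cons (fin 1103 4 910)
(mv 1166 (cons (fin 1231 4 974)
(mv 1230 (cons (fin 1294 7 1037)
(fin 973 7 973)))))))
(cons (mv 911 (cons (fin 847 6 846)
(mv 1166 (cons (fin 975 6 910)
(mv 1230 (cons (fin 1294 7 1037)
(fin 973 7 973)))))))
(mv 1103 (cons (fin 1167 4 910)
(mv 1104 (cons (fin 1036 3 1036)
(fin 1105 3 1037)))))))))))
(cons (mv 1165 (cons (fin 1229 6 973)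
(mv 973 (cons (cons (mv 1228 (cons (fin 1164 5 972)
(mv 1166 (cons (fin 1230 4 973)
(mv 1102 (cons (fin 909 7 909)
(mv 1231 (cons (fin 1167 4 974)
(mv 972 (cons (fin 908 7 908)
(mv 975 (cons (fin 911 6 910)
(mv 1036 (cons (fin 1035 1 971)
(fin 976 1 972)))))))))))))))
(mv 1164 (cons (fin 1228 5 972)
(mv 908 (cons (fin 972 7 908)
(mv 909 (cons (fin 1100 5 908)
(fin 844 7 844))))))))
(cons (mv 1228 (cons (fin 1164 5 972)
(mv 1166 (cons (fin 1230 4 973)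
(mv 1102 (cons (fin 909 7 909)
(mv 1231 (cons (fin 1167 4 974)
(mv 975 (cons (fin 911 6 910)
(mv 1036 (cons (fin 976 1 972)
(fin 1035 2 971)))))))))))))
(cons (mv 1166 (cons (fin 1230 4 973)
(mv 1102 (cons (fin 909 7 909)
(mv 1231 (cons (fin 1167 4 974)
(mv 972 (cons (fin 908 7 908)
(mv 975 (cons (fin 911 6 910)
(mv 1036 (cons (fin 1035 1 971)
(fin 976 1 972)))))))))))))
(mv 1228 (cons (fin 1164 5 972)
(mv 1166 (cons (fin 1230 4 973)
(mv 972 (cons (fin 908 7 908)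
(mv 975 (cons (mv 1036 (cons (fin 1035 1 971)
(fin 976 1 972)))
(mv 911 (cons (fin 912 2 908)
(fin 1102 6 910)))))))))))))))))
(mv 1165 (cons (fin 1229 6 973)
(mv 910 (cons (fin 846 5 845)
(fin 973 6 909)))))))))
(cons (mv 1039 (cons (cons (mv 1104 (cons (fin 1105 0 1037)
(mv 1103 (cons (fin 1036 0 1036)
(mv 972 (cons (fin 973 3 972)
(mv 976 (cons (fin 977 2 973)
(mv 1167 (cons (fin 912 5 911)
(fin 1231 6 975)))))))))))
(cons (mv 972 (cons (fin 973 3 972)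
(mv 976 (cons (fin 977 2 973)
(mv 1165 (cons (cons (mv 1229 (cons (fin 1036 7 972)
(fin 974 6 973)))
(mv 975 (cons (fin 1036 2 972)
(mv 1102 (cons (cons (mv 1230 (cons (fin 1166 6 974)
(mv 910 (cons (fin 974 5 909)
(mv 911 (cons (fin 847 5 846)
(mv 1103 (cons (fin 846 7 846)
(mv 1167 (cons (fin 1231 6 975)
(fin 912 6 911)))))))))))
(mv 910 (cons (fin 974 5 909)
(mv 911 (cons (fin 847 5 846)
(mv 1103 (cons (fin 846 7 846)
(mv 1167 (cons (fin 1231 6 975)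
(fin 912 6 911))))))))))
(cons (mv 1166 (cons (fin 1230 6 974)
(mv 974 (cons (fin 910 5 909)
(mv 1167 (cons (fin 1231 4 974)
(mv 1168 (cons (fin 1169 3 1101)
(mv 1232 (cons (fin 1233 0 1165)
(fin 1103 4 975)))))))))))
(cons (mv 1166 (cons (fin 1230 6 974)
(mv 911 (cons (fin 1103 5 910)
(fin 847 5 846)))))
(mv 1166 (cons (fin 1230 6 974)
(mv 974 (cons (fin 910 5 909)
(fin 911 6 910))))))))))))
(cons (mv 1229 (cons (fin 974 6 973)
(mv 1292 (cons (fin 1228 5 1036)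
(mv 1293 (cons (fin 1356 5 1100)
(fin 1102 6 1037)))))))
(mv 1036 (cons (fin 975 2 972)
(fin 1229 7 972))))))))))
(mv 1104 (cons (fin 1105 0 1037)
(mv 1103 (cons (fin 1036 0 1036)
(mv 972 (cons (fin 973 3 972)
(mv 1168 (cons (mv 1232 (cons (fin 1296 7 1039)
(fin 975 7 975)))
(mv 1102 (cons (fin 1169 0 1101)
(mv 1165 (cons (fin 1164 1 1100)
(mv 1229 (cons (fin 1293 6 1037)
(fin 974 6 973)))))))))))))))))
(cons (mv 1104 (cons (fin 1105 0 1037)
(mv 1103 (cons (fin 1036 0 1036)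
(mv 976 (cons (fin 977 2 973)
(mv 1167 (cons (fin 912 5 911)
(fin 1231 6 975)))))))))
(cons (mv 1104 (cons (fin 1105 0 1037)
(mv 972 (cons (fin 973 3 972)
(mv 976 (cons (fin 977 2 973)
(mv 1168 (cons (mv 975 (cons (fin 1232 7 975)
(fin 911 7 911)))
(cons (mv 1231 (cons (fin 1167 5 975)
(mv 1232 (cons (fin 1295 5 1039)
(mv 1233 (cons (fin 1297 4 1040)
(fin 1169 4 976)))))))
(mv 1231 (cons (fin 1167 5 975)
(mv 1233 (cons (fin 1169 4 976)
(mv 911 (cons (fin 975 7 911)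
(mv 912 (cons (fin 847 7 847)
(mv 848 (cons (fin 1103 5 847)
(mv 849 (cons (fin 913 6 848)
(fin 785 6 784))))))))))))))))))))))
(mv 1104 (cons (fin 1105 0 1037)
(mv 972 (cons (fin 973 3 972)
(mv 976 (cons (fin 977 2 973)
(mv 975 (cons (fin 1036 2 972)
(mv 1168 (cons (fin 1232 7 975)
(fin 911 7 911)))))))))))))))
(mv 1039 (cons (fin 1100 1 1036)
(mv 1104 (cons (fin 1105 0 1037)
(mv 1103 (cons (fin 1036 0 1036)
(mv 976 (cons (fin 977 2 973)
(mv 1167 (cons (fin 912 5 911)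
(fin 1231 6 975)))))))))))))
(cons (cons (mv 1039 (cons (fin 1100 1 1036)
(mv 972 (cons (fin 973 3 972)
(mv 976 (cons (fin 977 2 973)
(mv 1165 (cons (cons (mv 1229 (cons (fin 1036 7 972)
(fin 974 6 973)))
(mv 975 (cons (fin 1036 2 972)
(mv 1102 (cons (cons (mv 1230 (cons (fin 1166 6 974)
(mv 910 (cons (fin 974 5 909)
(mv 911 (cons (fin 847 5 846)
(mv 1103 (cons (fin 846 7 846)
(mv 1167 (cons (fin 1231 6 975)
(fin 912 6 911)))))))))))
(mv 910 (cons (fin 974 5 909)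
(mv 911 (cons (fin 847 5 846)
(mv 1103 (cons (fin 846 7 846)
(mv 1167 (cons (fin 1231 6 975)
(fin 912 6 911))))))))))
(cons (mv 1166 (cons (fin 1230 6 974)
(mv 974 (cons (fin 910 5 909)
(mv 1167 (cons (fin 1231 4 974)
(mv 1168 (cons (fin 1169 3 1101)
(mv 1232 (cons (fin 1233 0 1165)
(fin 1103 4 975)))))))))))
(cons (mv 1166 (cons (fin 1230 6 974)
(mv 911 (cons (fin 1103 5 910)
(fin 847 5 846)))))
(mv 1166 (cons (fin 1230 6 974)
(mv 974 (cons (fin 910 5 909)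
(fin 911 6 910))))))))))))
(cons (mv 1229 (cons (fin 974 6 973)
(mv 1292 (cons (fin 1228 5 1036)
(mv 1293 (cons (fin 1356 5 1100)
(fin 1102 6 1037)))))))
(mv 1036 (cons (fin 975 2 972)
(fin 1229 7 972))))))))))))
(mv 1039 (cons (fin 1100 1 1036)
(mv 1104 (cons (fin 1105 0 1037)
(mv 1103 (cons (fin 1036 0 1036)
(mv 972 (cons (fin 973 3 972)
(mv 1168 (cons (mv 1232 (cons (fin 1296 7 1039)
(fin 975 7 975)))
(mv 1102 (cons (fin 1169 0 1101)
(mv 1165 (cons (fin 1164 1 1100)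
(mv 1229 (cons (fin 1293 6 1037)
(fin 974 6 973))))))))))))))))))
(cons (mv 1039 (cons (fin 1100 1 1036)
(mv 1104 (cons (fin 1105 0 1037)
(mv 972 (cons (fin 973 3 972)
(mv 976 (cons (fin 977 2 973)
(mv 1168 (cons (mv 975 (cons (fin 1232 7 975)
(fin 911 7 911)))
(cons (mv 1231 (cons (fin 1167 5 975)
(mv 1232 (cons (fin 1295 5 1039)
(mv 1233 (cons (fin 1297 4 1040)
(fin 1169 4 976)))))))
(mv 1231 (cons (fin 1167 5 975)
(mv 1233 (cons (fin 1169 4 976)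
(mv 911 (cons (fin 975 7 911)
(mv 912 (cons (fin 847 7 847)
(mv 848 (cons (fin 1103 5 847)
(mv 849 (cons (fin 913 6 848)
(fin 785 6 784))))))))))))))))))))))))
(mv 1039 (cons (fin 1100 1 1036)
(mv 1104 (cons (fin 1105 0 1037)
(mv 972 (cons (fin 973 3 972)
(mv 976 (cons (fin 977 2 973)
(mv 975 (cons (fin 1036 2 972)
(mv 1168 (cons (fin 1232 7 975)
(fin 911 7 911)))))))))))))))))))))))
def l114 : Lem := ⟨13254031944712882724506621310649321556018620670345837899455453023597314721787975009848330616026462815765143756135158089473467252075149308743152655366187148242124071246428482498451210046760672027239036899891323305324899173507745103325308665813954110541579506451753178596634830548552232523722901151470534797188661248, 667300851260783867636678970997020000470682566009072210747676086755361976236924938272986965840906732974609499646959300134550700582863029330267955349594342851399817518118750642959481163480241622351476669169333697267248498453456335316110338299340935001235102262539962827641512862509797895955548362111050106657796118763919217978575182859450344070716652744206980532406461471217921740013076939046878569248811716059353393757184069730304,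 667300851260783867636678970997020000470682566009072210747676086755361976236924938272986965840906732974609499646959300134550700582863029330267955349594342851399817518118750642959481163480241622351476669169333697267248498453456335316110338299340935001235102262539962827641512862509797895955548362111050106657796118763919217978575182859450344070716652744206980532406461471217921740013076939046878569248811716059353393757184069730304, 19, 33⟩
theorem l114_valid : l114.Valid :=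
  Lem.valid_of_chk t114 t114_valid [1037, 1040] c114 l114 (by decide +kernel)
end Crest.Agent.SnakyAux
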