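import Crest.Agent.S0047_aux.Checker

set_option autoImplicit false
set_option maxRecDepth 100000
namespace Crest.Agent.SnakyAux
open Cert
def t115 : Tbl := Tbl.nil
theorem t115_valid : t115.Valid := Tbl.valid_nil
def c115 : Cert :=
(mv 973 (cons (cons (cons (cons (mv 1038 (cons (cons (cons (mv 1039 (cons (fin 972 3 972)
(mv 976 (cons (fin 977 2 973)
(mv 975 (cons (fin 1036 2 972)
(mv 1100 (cons (fin 1101 1 1036)
(mv 1104 (cons (fin 1105 0 1037)
(mv 911 (cons (fin 1168 7 911)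
(fin 847 4 847)))))))))))))
(mv 1102 (cons (cons (mv 909 (cons (fin 845 4 845)
(mv 1166 (cons (fin 974 7 909)
(fin 1230 7 973)))))
(mv 1166 (cons (fin 1230 7 973)
(mv 974 (cons (mv 911 (cons (fin 975 6 910)
(mv 910 (cons (fin 847 6 846)
(mv 846 (cons (fin 782 5 781)
(fin 1101 5 845)))))))
(cons (mv 1165 (cons (fin 1229 5 973)
(mv 910 (cons (fin 1101 5 909)
(mv 1167 (cons (fin 1103 4 910)
(fin 1231 4 974)))))))
(mv 975 (cons (fin 911 6 910)
(mv 976 (cons (fin 1036 1 972)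
(fin 977 1 973)))))))))))
(cons (mv 909 (cons (fin 845 4 845)
(mv 1101 (cons (cons (mv 844 (cons (fin 908 7 844)
(mv 846 (cons (fin 910 6 845)
(mv 1164 (cons (fin 1100 5 908)
(mv 1165 (cons (fin 1228 5 972)
(mv 1229 (cons (fin 974 6 973)
(fin 1293 6 1037)))))))))))
(cons (mv 844 (cons (fin 908 7 844)
(mv 1164 (cons (fin 1100 5 908)
(mv 1165 (cons (fin 1228 5 972)
(mv 1229 (cons (fin 974 6 973)
(fin 1293 6 1037)))))))))
(mv 844 (cons (fin 908 7 844)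
(mv 910 (cons (fin 846 6 845)
(mv 974 (cons (fin 1165 5 909)
(mv 847 (cons (fin 911 6 846)
(mv 1103 (cons (fin 1167 4 910)
(mv 1036 (cons (fin 1104 3 1036)
(fin 1035 0 1035)))))))))))))))
(cons (mv 846 (cons (fin 910 6 845)
(mv 1164 (cons (fin 1100 5 908)
(mv 1165 (cons (fin 1228 5 972)
(mv 1229 (cons (fin 974 6 973)
(fin 1293 6 1037)))))))))
(cons (mv 844 (cons (fin 908 7 844)
(mv 910 (cons (fin 846 6 845)
(mv 1100 (cons (fin 1164 5 908)
(mv 1103 (cons (mv 1036 (cons (fin 1035 3 1035)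
(fin 1104 3 1036)))
(mv 1167 (cons (fin 1168 0 1100)
(fin 974 4 910)))))))))))
(mv 844 (cons (fin 908 7 844)
(mv 846 (cons (fin 910 6 845)
(mv 1164 (cons (fin 1100 5 908)
(mv 1165 (cons (fin 1228 5 972)
(mv 1103 (cons (fin 1104 1 1100)
(mv 1036 (cons (fin 1035 0 1035)
(mv 1229 (cons (fin 972 7 972)
(fin 1293 6 1037)))))))))))))))))))))
(mv 909 (cons (fin 845 4 845)
(mv 1166 (cons (fin 1230 7 973)
(fin 1101 4 909)))))))))
(cons (mv 1039 (cons (cons (mv 976 (cons (fin 977 2 973)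
(mv 975 (cons (fin 1036 2 972)
(mv 1100 (cons (fin 1101 1 1036)
(mv 1104 (cons (fin 1105 0 1037)
(mv 911 (cons (fin 1168 7 911)
(fin 847 4 847)))))))))))
(cons (mv 1100 (cons (fin 1101 1 1036)
(mv 1104 (cons (fin 1105 0 1037)
(mv 1103 (cons (fin 1036 0 1036)
(mv 975 (cons (mv 911 (cons (fin 847 4 847)
(fin 1168 4 911)))
(cons (mv 1168 (cons (fin 1232 7 975)
(mv 1167 (cons (mv 974 (cons (fin 910 7 910)
(fin 1231 7 974)))
(cons (mv 974 (cons (fin 910 7 910)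
(mv 1166 (cons (fin 1230 5 974)
(mv 1102 (cons (fin 909 7 909)
(mv 1165 (cons (fin 1164 2 1100)
(fin 1229 5 973)))))))))
(mv 1230 (cons (fin 1166 5 974)
(mv 1231 (cons (fin 1294 5 1038)
(fin 1295 6 1039))))))))))
(mv 911 (cons (fin 847 4 847)
(mv 846 (cons (fin 910 7 846)
(mv 848 (cons (fin 912 6 847)
(mv 1166 (cons (fin 1102 5 910)
(mv 1167 (cons (fin 1230 5 974)
(mv 1231 (cons (fin 974 7 974)
(fin 1295 6 1039))))))))))))))))))))))
(mv 976 (cons (fin 977 2 973)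
(mv 1036 (cons (fin 975 2 972)
(mv 1100 (cons (fin 1101 1 1036)
(mv 909 (cons (fin 845 5 844)
(mv 1228 (cons (fin 1164 6 972)
(mv 1102 (cons (mv 1166 (cons (fin 974 7 909)
(fin 1230 7 973)))
(cons (mv 1035 (cons (fin 1103 0 1035)
(mv 970 (cons (fin 971 3 970)
(mv 1034 (cons (fin 969 3 969)
(fin 974 2 970)))))))
(mv 1103 (cons (fin 1035 0 1035)
(mv 1230 (cons (fin 1166 7 973)
(mv 1231 (cons (fin 1167 6 975)
(mv 1229 (cons (cons (mv 848 (cons (fin 912 5 847)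
(mv 1291 (cons (fin 1292 1 1227)
(mv 1227 (cons (fin 1290 1 1226)
(mv 1295 (cons (fin 1294 0 1227)
(fin 1296 0 1228)))))))))
(mv 1295 (cons (fin 1296 0 1228)
(mv 1227 (cons (fin 1294 0 1227)
(mv 1162 (cons (fin 1163 3 1162)
(mv 1226 (cons (fin 1161 3 1161)
(mv 1290 (cons (fin 1289 1 1225)
(fin 1291 1 1226))))))))))))
(cons (mv 1292 (cons (fin 1291 1 1227)
(mv 1232 (cons (fin 1293 1 1228)
(mv 1169 (cons (fin 1168 2 1165)
(mv 1233 (cons (fin 1170 2 1166)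
(mv 1297 (cons (fin 1296 0 1229)
(fin 1298 0 1230)))))))))))
(cons (mv 1296 (cons (fin 1295 0 1228)
(mv 1232 (cons (fin 1297 0 1229)
(mv 1169 (cons (fin 1168 2 1165)
(mv 1233 (cons (fin 1170 2 1166)
(mv 1293 (cons (fin 1292 1 1228)
(fin 1294 1 1229)))))))))))
(mv 1291 (cons (fin 1292 1 1227)
(mv 1227 (cons (fin 1290 1 1226)
(mv 1162 (cons (fin 1163 3 1162)
(mv 1226 (cons (fin 1161 3 1161)
(mv 1294 (cons (fin 1293 0 1226)
(fin 1295 0 1227))))))))))))))))))))))))))))))))))))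
(cons (mv 976 (cons (fin 977 2 973)
(mv 975 (cons (fin 1036 2 972)
(mv 1104 (cons (fin 1105 0 1037)
(mv 911 (cons (fin 1168 7 911)
(fin 847 4 847)))))))))
(cons (mv 976 (cons (fin 977 2 973)
(mv 1100 (cons (fin 1101 1 1036)
(mv 1104 (cons (fin 1105 0 1037)
(mv 912 (cons (mv 1103 (cons (fin 848 5 847)
(fin 1167 5 911)))
(cons (mv 847 (cons (fin 911 7 847)
(mv 848 (cons (fin 783 7 783)
(mv 849 (cons (fin 785 6 784)
(fin 913 6 848)))))))
(mv 847 (cons (fin 911 7 847)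
(mv 849 (cons (fin 913 6 848)
(mv 1167 (cons (fin 1103 5 911)
(mv 1168 (cons (fin 1231 5 975)
(mv 1232 (cons (fin 975 7 975)
(mv 1233 (cons (fin 1169 4 976)
(fin 1297 4 1040))))))))))))))))))))))
(mv 976 (cons (fin 977 2 973)
(mv 1100 (cons (fin 1101 1 1036)
(mv 1104 (cons (fin 1105 0 1037)
(mv 1103 (cons (fin 1036 0 1036)
(mv 912 (cons (fin 848 5 847)
(fin 1167 5 911)))))))))))))))
(mv 1039 (cons (fin 972 3 972)
(mv 976 (cons (fin 977 2 973)
(mv 975 (cons (fin 1036 2 972)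
(mv 1104 (cons (fin 1105 0 1037)
(mv 911 (cons (fin 1168 7 911)
(fin 847 4 847)))))))))))))
(cons (cons (mv 1039 (cons (fin 972 3 972)
(mv 1100 (cons (fin 1101 1 1036)
(mv 1104 (cons (fin 1105 0 1037)
(mv 1103 (cons (fin 1036 0 1036)
(mv 975 (cons (mv 911 (cons (fin 847 4 847)
(fin 1168 4 911)))
(cons (mv 1168 (cons (fin 1232 7 975)
(mv 1167 (cons (mv 974 (cons (fin 910 7 910)
(fin 1231 7 974)))
(cons (mv 974 (cons (fin 910 7 910)
(mv 1166 (cons (fin 1230 5 974)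
(mv 1102 (cons (fin 909 7 909)
(mv 1165 (cons (fin 1164 2 1100)
(fin 1229 5 973)))))))))
(mv 1230 (cons (fin 1166 5 974)
(mv 1231 (cons (fin 1294 5 1038)
(fin 1295 6 1039))))))))))
(mv 911 (cons (fin 847 4 847)
(mv 846 (cons (fin 910 7 846)
(mv 848 (cons (fin 912 6 847)
(mv 1166 (cons (fin 1102 5 910)
(mv 1167 (cons (fin 1230 5 974)
(mv 1231 (cons (fin 974 7 974)
(fin 1295 6 1039))))))))))))))))))))))))
(mv 1039 (cons (fin 972 3 972)
(mv 976 (cons (fin 977 2 973)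
(mv 1036 (cons (fin 975 2 972)
(mv 1100 (cons (fin 1101 1 1036)
(mv 909 (cons (fin 845 5 844)
(mv 1228 (cons (fin 1164 6 972)
(mv 1102 (cons (mv 1166 (cons (fin 974 7 909)
(fin 1230 7 973)))
(cons (mv 1035 (cons (fin 1103 0 1035)
(mv 970 (cons (fin 971 3 970)
(mv 1034 (cons (fin 969 3 969)
(fin 974 2 970)))))))
(mv 1103 (cons (fin 1035 0 1035)
(mv 1230 (cons (fin 1166 7 973)
(mv 1231 (cons (fin 1167 6 975)
(mv 1229 (cons (cons (mv 848 (cons (fin 912 5 847)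
(mv 1291 (cons (fin 1292 1 1227)
(mv 1227 (cons (fin 1290 1 1226)
(mv 1295 (cons (fin 1294 0 1227)
(fin 1296 0 1228)))))))))
(mv 1295 (cons (fin 1296 0 1228)
(mv 1227 (cons (fin 1294 0 1227)
(mv 1162 (cons (fin 1163 3 1162)
(mv 1226 (cons (fin 1161 3 1161)
(mv 1290 (cons (fin 1289 1 1225)
(fin 1291 1 1226))))))))))))
(cons (mv 1292 (cons (fin 1291 1 1227)
(mv 1232 (cons (fin 1293 1 1228)
(mv 1169 (cons (fin 1168 2 1165)
(mv 1233 (cons (fin 1170 2 1166)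
(mv 1297 (cons (fin 1296 0 1229)
(fin 1298 0 1230)))))))))))
(cons (mv 1296 (cons (fin 1295 0 1228)
(mv 1232 (cons (fin 1297 0 1229)
(mv 1169 (cons (fin 1168 2 1165)
(mv 1233 (cons (fin 1170 2 1166)
(mv 1293 (cons (fin 1292 1 1228)
(fin 1294 1 1229)))))))))))
(mv 1291 (cons (fin 1292 1 1227)
(mv 1227 (cons (fin 1290 1 1226)
(mv 1162 (cons (fin 1163 3 1162)
(mv 1226 (cons (fin 1161 3 1161)
(mv 1294 (cons (fin 1293 0 1226)
(fin 1295 0 1227)))))))))))))))))))))))))))))))))))))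
(cons (mv 1039 (cons (fin 972 3 972)
(mv 976 (cons (fin 977 2 973)
(mv 1100 (cons (fin 1101 1 1036)
(mv 1104 (cons (fin 1105 0 1037)
(mv 912 (cons (mv 1103 (cons (fin 848 5 847)
(fin 1167 5 911)))
(cons (mv 847 (cons (fin 911 7 847)
(mv 848 (cons (fin 783 7 783)
(mv 849 (cons (fin 785 6 784)
(fin 913 6 848)))))))
(mv 847 (cons (fin 911 7 847)
(mv 849 (cons (fin 913 6 848)
(mv 1167 (cons (fin 1103 5 911)
(mv 1168 (cons (fin 1231 5 975)
(mv 1232 (cons (fin 975 7 975)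
(mv 1233 (cons (fin 1169 4 976)
(fin 1297 4 1040))))))))))))))))))))))))
(mv 1039 (cons (fin 972 3 972)
(mv 976 (cons (fin 977 2 973)
(mv 1100 (cons (fin 1101 1 1036)
(mv 1104 (cons (fin 1105 0 1037)
(mv 1103 (cons (fin 1036 0 1036)
(mv 912 (cons (fin 848 5 847)
(fin 1167 5 911)))))))))))))))))
(mv 1101 (cons (cons (mv 909 (cons (cons (mv 844 (cons (fin 908 7 844)
(mv 780 (cons (fin 845 7 780)
(mv 846 (cons (fin 910 6 845)
(mv 1100 (cons (fin 1164 5 908)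
(mv 1102 (cons (fin 1166 4 909)
(mv 1103 (cons (fin 1039 2 1036)
(mv 1036 (cons (fin 1035 3 1035)
(fin 1104 3 1036)))))))))))))))
(cons (mv 846 (cons (fin 910 6 845)
(mv 782 (cons (fin 845 6 781)
(mv 1100 (cons (fin 1164 5 908)
(mv 1102 (cons (fin 1166 4 909)
(mv 1103 (cons (fin 1039 2 1036)
(mv 1036 (cons (fin 1035 3 1035)
(fin 1104 3 1036)))))))))))))
(mv 844 (cons (fin 908 7 844)
(mv 780 (cons (fin 845 7 780)
(mv 1100 (cons (fin 1164 5 908)
(mv 1102 (cons (fin 1166 4 909)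
(mv 1103 (cons (fin 1039 2 1036)
(mv 1036 (cons (fin 1035 3 1035)
(fin 1104 3 1036)))))))))))))))
(cons (mv 844 (cons (fin 908 7 844)
(mv 780 (cons (fin 845 7 780)
(mv 910 (cons (fin 846 6 845)
(mv 1165 (cons (fin 974 6 909)
(mv 1166 (cons (fin 1102 4 909)
(fin 1230 4 973)))))))))))
(cons (mv 844 (cons (fin 908 7 844)
(mv 780 (cons (fin 845 7 780)
(mv 910 (cons (fin 846 6 845)
(mv 1164 (cons (fin 1100 5 908)
(mv 1165 (cons (fin 1228 5 972)
(fin 974 6 909)))))))))))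
(mv 844 (cons (fin 908 7 844)
(mv 846 (cons (fin 910 6 845)
(mv 1100 (cons (fin 1164 5 908)
(mv 1102 (cons (fin 1166 4 909)
(mv 1103 (cons (fin 1039 2 1036)
(mv 1036 (cons (fin 1035 3 1035)
(fin 1104 3 1036)))))))))))))))))
(cons (mv 1165 (cons (cons (mv 908 (cons (fin 972 7 908)
(mv 910 (cons (fin 974 6 909)
(mv 1228 (cons (fin 1164 5 972)
(mv 1229 (cons (fin 1292 5 1036)
(mv 1230 (cons (fin 1166 4 973)
(fin 1294 4 1037)))))))))))
(cons (mv 910 (cons (fin 974 6 909)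
(mv 1228 (cons (fin 1164 5 972)
(mv 1229 (cons (fin 1292 5 1036)
(mv 1230 (cons (fin 1166 4 973)
(fin 1294 4 1037)))))))))
(mv 910 (cons (fin 974 6 909)
(mv 972 (cons (fin 908 7 908)
(mv 1229 (cons (fin 1036 7 972)
(mv 1230 (cons (fin 1166 4 973)
(fin 1294 4 1037)))))))))))
(cons (mv 910 (cons (fin 974 6 909)
(mv 972 (cons (fin 908 7 908)
(mv 1228 (cons (fin 1164 5 972)
(mv 1229 (cons (fin 1036 7 972)
(fin 1292 5 1036)))))))))
(cons (mv 908 (cons (fin 972 7 908)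
(mv 1228 (cons (fin 1164 5 972)
(mv 1229 (cons (fin 1292 5 1036)
(mv 1230 (cons (fin 1166 4 973)
(fin 1294 4 1037)))))))))
(mv 972 (cons (fin 908 7 908)
(mv 974 (cons (fin 910 6 909)
(mv 975 (cons (fin 1039 0 972)
(mv 1036 (cons (fin 1035 1 971)
(fin 976 1 972)))))))))))))
(mv 909 (cons (cons (mv 844 (cons (fin 908 7 844)
(mv 780 (cons (fin 845 7 780)
(mv 846 (cons (fin 910 6 845)
(mv 1100 (cons (fin 1164 5 908)
(mv 1102 (cons (fin 1166 4 909)
(mv 1103 (cons (fin 1039 2 1036)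
(mv 1036 (cons (fin 1035 3 1035)
(fin 1104 3 1036)))))))))))))))
(mv 844 (cons (fin 908 7 844)
(mv 845 (cons (fin 780 7 780)
(mv 846 (cons (fin 782 6 781)
(fin 910 6 845))))))))
(cons (mv 846 (cons (fin 910 6 845)
(mv 782 (cons (fin 845 6 781)
(mv 1100 (cons (fin 1164 5 908)
(mv 1102 (cons (fin 1166 4 909)
(mv 1103 (cons (fin 1039 2 1036)
(mv 1036 (cons (fin 1035 3 1035)
(fin 1104 3 1036)))))))))))))
(cons (mv 844 (cons (fin 908 7 844)
(mv 780 (cons (fin 845 7 780)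
(mv 1100 (cons (fin 1164 5 908)
(mv 1102 (cons (fin 1166 4 909)
(mv 1103 (cons (fin 1039 2 1036)
(mv 1036 (cons (fin 1035 3 1035)
(fin 1104 3 1036)))))))))))))
(mv 844 (cons (fin 908 7 844)
(mv 846 (cons (fin 910 6 845)
(mv 1100 (cons (fin 1164 5 908)
(mv 1102 (cons (fin 1166 4 909)
(mv 1103 (cons (fin 1039 2 1036)
(mv 1036 (cons (fin 1035 3 1035)
(fin 1104 3 1036)))))))))))))))))))
(cons (cons (mv 1165 (cons (cons (mv 910 (cons (fin 974 6 909)
(mv 846 (cons (fin 909 6 845)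
(mv 1166 (cons (fin 1230 4 973)
(mv 1228 (cons (fin 1164 5 972)
(mv 1229 (cons (fin 1292 5 1036)
(mv 1036 (cons (fin 972 7 972)
(mv 1167 (cons (fin 1168 1 1164)
(mv 1226 (cons (fin 1227 2 1162)
(mv 1293 (cons (fin 1100 7 1036)
(mv 1357 (cons (fin 1102 6 1101)
(mv 1358 (cons (fin 1294 4 1101)
(fin 1422 4 1165)))))))))))))))))))))))
(cons (mv 910 (cons (fin 974 6 909)
(mv 846 (cons (fin 909 6 845)
(mv 1230 (cons (fin 1166 4 973)
(mv 1229 (cons (fin 1294 4 1037)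
(mv 1036 (cons (fin 972 7 972)
(mv 1292 (cons (fin 1228 5 1036)
(mv 1293 (cons (fin 1100 7 1036)
(fin 1356 5 1100)))))))))))))))
(mv 910 (cons (fin 974 6 909)
(mv 846 (cons (fin 909 6 845)
(mv 1228 (cons (fin 1164 5 972)
(mv 1229 (cons (fin 1292 5 1036)
(mv 1036 (cons (fin 972 7 972)
(mv 1293 (cons (fin 1100 7 1036)
(mv 1294 (cons (fin 1230 4 1037)
(fin 1358 4 1101)))))))))))))))))
(cons (cons (mv 910 (cons (fin 974 6 909)
(mv 909 (cons (fin 846 6 845)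
(mv 1166 (cons (fin 1102 4 909)
(fin 1230 4 973)))))))
(mv 910 (cons (fin 974 6 909)
(mv 909 (cons (fin 846 6 845)
(mv 1164 (cons (fin 1100 5 908)
(fin 1228 5 972))))))))
(cons (mv 1164 (cons (fin 1228 5 972)
(mv 909 (cons (fin 1100 5 908)
(mv 1166 (cons (fin 1102 4 909)
(fin 1230 4 973)))))))
(mv 910 (cons (fin 974 6 909)
(mv 1166 (cons (fin 1230 4 973)
(mv 1228 (cons (fin 1164 5 972)
(mv 1229 (cons (fin 1292 5 1036)
(mv 1036 (cons (fin 972 7 972)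
(mv 1167 (cons (fin 1168 1 1164)
(mv 1226 (cons (fin 1227 2 1162)
(mv 1293 (cons (fin 1100 7 1036)
(mv 1357 (cons (fin 1102 6 1101)
(mv 1358 (cons (fin 1294 4 1101)
(fin 1422 4 1165)))))))))))))))))))))))))
(mv 909 (cons (cons (mv 844 (cons (fin 908 7 844)
(mv 780 (cons (fin 845 7 780)
(mv 910 (cons (fin 846 6 845)
(mv 1165 (cons (fin 974 6 909)
(mv 1166 (cons (fin 1102 4 909)
(fin 1230 4 973)))))))))))
(cons (mv 846 (cons (fin 910 6 845)
(mv 845 (cons (fin 782 6 781)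
(mv 780 (cons (fin 844 7 780)
(mv 781 (cons (fin 716 7 716)
(mv 1036 (cons (fin 972 5 780)
(fin 1100 5 844)))))))))))
(mv 844 (cons (fin 908 7 844)
(mv 845 (cons (fin 780 7 780)
(mv 782 (cons (fin 846 6 781)
(mv 781 (cons (fin 718 6 717)
(mv 1036 (cons (fin 972 5 780)
(fin 1100 5 844)))))))))))))
(cons (mv 846 (cons (fin 910 6 845)
(mv 845 (cons (fin 782 6 781)
(mv 1036 (cons (fin 1100 5 844)
(mv 972 (cons (fin 781 5 780)
(mv 1165 (cons (fin 908 7 908)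
(fin 1229 7 972)))))))))))
(cons (mv 844 (cons (fin 908 7 844)
(mv 845 (cons (fin 780 7 780)
(mv 1036 (cons (fin 1100 5 844)
(mv 972 (cons (fin 781 5 780)
(mv 1102 (cons (fin 1166 4 909)
(mv 1034 (cons (fin 1035 0 1034)
(mv 1103 (cons (fin 1104 3 1036)
(mv 1165 (cons (fin 1229 7 972)
(mv 974 (cons (fin 910 6 909)
(mv 975 (cons (fin 976 1 972)
(fin 1039 0 972)))))))))))))))))))))
(mv 844 (cons (fin 908 7 844)
(mv 910 (cons (fin 846 6 845)
(mv 1165 (cons (fin 974 6 909)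
(mv 1166 (cons (fin 1102 4 909)
(fin 1230 4 973))))))))))))))
(cons (mv 1165 (cons (cons (mv 908 (cons (fin 972 7 908)
(mv 844 (cons (fin 909 7 844)
(mv 1228 (cons (fin 1164 5 972)
(mv 1229 (cons (fin 1292 5 1036)
(mv 1230 (cons (fin 1166 4 973)
(fin 1294 4 1037)))))))))))
(mv 908 (cons (fin 972 7 908)
(mv 909 (cons (fin 844 7 844)
(mv 1166 (cons (fin 1102 4 909)
(fin 1230 4 973))))))))
(cons (mv 1164 (cons (fin 1228 5 972)
(mv 909 (cons (fin 1100 5 908)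
(mv 1166 (cons (fin 1102 4 909)
(fin 1230 4 973)))))))
(cons (mv 908 (cons (fin 972 7 908)
(mv 909 (cons (fin 844 7 844)
(mv 1164 (cons (fin 1100 5 908)
(fin 1228 5 972)))))))
(mv 908 (cons (fin 972 7 908)
(mv 1228 (cons (fin 1164 5 972)
(mv 1229 (cons (fin 1292 5 1036)
(mv 1230 (cons (fin 1166 4 973)
(fin 1294 4 1037)))))))))))))
(mv 909 (cons (cons (mv 844 (cons (fin 908 7 844)
(mv 780 (cons (fin 845 7 780)
(mv 910 (cons (fin 846 6 845)
(mv 1164 (cons (fin 1100 5 908)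
(mv 1165 (cons (fin 1228 5 972)
(fin 974 6 909)))))))))))
(mv 846 (cons (fin 910 6 845)
(mv 845 (cons (fin 782 6 781)
(mv 1100 (cons (fin 1036 5 844)
(fin 1164 5 908))))))))
(cons (mv 844 (cons (fin 908 7 844)
(mv 845 (cons (fin 780 7 780)
(mv 1100 (cons (fin 1036 5 844)
(fin 1164 5 908)))))))
(cons (mv 844 (cons (fin 908 7 844)
(mv 845 (cons (fin 780 7 780)
(mv 846 (cons (fin 782 6 781)
(fin 910 6 845)))))))
(mv 844 (cons (fin 908 7 844)
(mv 910 (cons (fin 846 6 845)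
(mv 1164 (cons (fin 1100 5 908)
(mv 1165 (cons (fin 1228 5 972)
(fin 974 6 909))))))))))))))))))
(cons (mv 1101 (cons (cons (cons (mv 909 (cons (cons (cons (mv 844 (cons (fin 908 7 844)
(mv 780 (cons (fin 845 7 780)
(mv 846 (cons (fin 910 6 845)
(mv 1100 (cons (fin 1164 5 908)
(mv 1038 (cons (fin 1039 1 1036)
(mv 1166 (cons (fin 1102 4 909)
(mv 1165 (cons (fin 1230 4 973)
(mv 1167 (cons (fin 1168 3 1100)
(mv 1229 (cons (fin 974 6 973)
(mv 1292 (cons (fin 1228 5 1036)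
(mv 1293 (cons (fin 1036 7 1036)
(fin 1356 5 1100)))))))))))))))))))))))
(mv 844 (cons (fin 908 7 844)
(mv 780 (cons (fin 845 7 780)
(mv 910 (cons (fin 846 6 845)
(mv 1102 (cons (fin 1166 4 909)
(mv 1165 (cons (fin 974 6 909)
(mv 1228 (cons (fin 1164 5 972)
(mv 1229 (cons (fin 1292 5 1036)
(mv 1293 (cons (fin 1038 6 1037)
(mv 1294 (cons (fin 1230 4 1037)
(fin 1358 4 1101))))))))))))))))))))
(cons (mv 844 (cons (fin 908 7 844)
(mv 780 (cons (fin 845 7 780)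
(mv 910 (cons (fin 846 6 845)
(mv 1100 (cons (fin 1164 5 908)
(mv 1038 (cons (fin 1039 1 1036)
(mv 1165 (cons (fin 974 6 909)
(mv 1230 (cons (fin 1166 4 973)
(mv 1229 (cons (fin 1294 4 1037)
(mv 1292 (cons (fin 1228 5 1036)
(mv 1293 (cons (fin 1036 7 1036)
(fin 1356 5 1100)))))))))))))))))))))
(mv 844 (cons (fin 908 7 844)
(mv 780 (cons (fin 845 7 780)
(mv 1100 (cons (fin 1164 5 908)
(mv 1038 (cons (fin 1039 1 1036)
(mv 1166 (cons (fin 1102 4 909)
(mv 1165 (cons (fin 1230 4 973)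
(mv 1167 (cons (fin 1168 3 1100)
(mv 1229 (cons (fin 974 6 973)
(mv 1292 (cons (fin 1228 5 1036)
(mv 1293 (cons (fin 1036 7 1036)
(fin 1356 5 1100)))))))))))))))))))))))
(cons (cons (mv 844 (cons (fin 908 7 844)
(mv 780 (cons (fin 845 7 780)
(mv 910 (cons (fin 846 6 845)
(mv 974 (cons (fin 1165 6 909)
(mv 1100 (cons (fin 1164 5 908)
(mv 1039 (cons (fin 1038 1 1036)
(mv 1103 (cons (fin 1102 2 1036)
(mv 975 (cons (fin 1167 7 910)
(mv 976 (cons (fin 977 3 909)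
(fin 1036 1 972)))))))))))))))))))
(mv 844 (cons (fin 908 7 844)
(mv 780 (cons (fin 845 7 780)
(mv 910 (cons (fin 846 6 845)
(mv 1165 (cons (fin 974 6 909)
(mv 1166 (cons (fin 1102 4 909)
(fin 1230 4 973))))))))))))
(cons (mv 846 (cons (fin 910 6 845)
(mv 782 (cons (fin 845 6 781)
(mv 1100 (cons (fin 1164 5 908)
(mv 1038 (cons (fin 1039 1 1036)
(mv 1166 (cons (fin 1102 4 909)
(mv 1165 (cons (fin 1230 4 973)
(mv 1167 (cons (fin 1168 3 1100)
(mv 1229 (cons (fin 974 6 973)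
(mv 1292 (cons (fin 1228 5 1036)
(mv 1293 (cons (fin 1036 7 1036)
(fin 1356 5 1100)))))))))))))))))))))
(cons (mv 844 (cons (fin 908 7 844)
(mv 846 (cons (fin 910 6 845)
(mv 1100 (cons (fin 1164 5 908)
(mv 1038 (cons (fin 1039 1 1036)
(mv 1166 (cons (fin 1102 4 909)
(mv 1165 (cons (fin 1230 4 973)
(mv 1167 (cons (fin 1168 3 1100)
(mv 1229 (cons (fin 974 6 973)
(mv 1292 (cons (fin 1228 5 1036)
(mv 1293 (cons (fin 1036 7 1036)
(fin 1356 5 1100)))))))))))))))))))))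
(mv 844 (cons (fin 908 7 844)
(mv 780 (cons (fin 845 7 780)
(mv 846 (cons (fin 910 6 845)
(mv 1100 (cons (fin 1164 5 908)
(mv 1039 (cons (fin 1038 1 1036)
(mv 1102 (cons (fin 1103 2 1036)
(fin 1166 4 909))))))))))))))))))
(mv 1165 (cons (cons (mv 910 (cons (fin 974 6 909)
(mv 1228 (cons (fin 1164 5 972)
(mv 1229 (cons (fin 1292 5 1036)
(mv 1230 (cons (fin 1166 4 973)
(fin 1294 4 1037)))))))))
(mv 1228 (cons (fin 1164 5 972)
(mv 1229 (cons (fin 1292 5 1036)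
(mv 1230 (cons (fin 1166 4 973)
(fin 1294 4 1037))))))))
(cons (mv 974 (cons (fin 910 6 909)
(mv 1038 (cons (fin 1229 6 973)
(mv 1039 (cons (fin 1100 1 1036)
(mv 976 (cons (fin 977 2 973)
(mv 975 (cons (fin 1036 1 972)
(mv 912 (cons (fin 913 2 909)
(mv 848 (cons (fin 784 5 783)
(fin 1103 5 847)))))))))))))))
(mv 910 (cons (fin 974 6 909)
(mv 1164 (cons (fin 1228 5 972)
(mv 1166 (cons (fin 1230 4 973)
(mv 1103 (cons (mv 1102 (cons (fin 1104 1 1100)
(fin 1163 2 1099)))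
(cons (mv 1167 (cons (fin 1104 2 1100)
(mv 1100 (cons (fin 1168 3 1100)
(mv 1039 (cons (fin 1038 1 1036)
(mv 1231 (cons (fin 1232 0 1164)
(fin 976 6 975)))))))))
(mv 1102 (cons (fin 1163 2 1099)
(mv 1100 (cons (fin 1039 2 1036)
(mv 1035 (cons (fin 1036 3 1035)
(mv 1167 (cons (fin 1168 3 1100)
(mv 1231 (cons (fin 1232 0 1164)
(mv 1295 (cons (fin 1038 7 1038)
(fin 1359 7 1102))))))))))))))))))))))))))
(cons (mv 909 (cons (cons (mv 844 (cons (fin 908 7 844)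
(mv 780 (cons (fin 845 7 780)
(mv 846 (cons (fin 910 6 845)
(mv 1100 (cons (fin 1164 5 908)
(mv 1039 (cons (fin 1038 1 1036)
(mv 1102 (cons (fin 1103 2 1036)
(fin 1166 4 909)))))))))))))
(mv 844 (cons (fin 908 7 844)
(mv 845 (cons (fin 780 7 780)
(mv 846 (cons (fin 782 6 781)
(fin 910 6 845))))))))
(cons (mv 844 (cons (fin 908 7 844)
(mv 780 (cons (fin 845 7 780)
(mv 1100 (cons (fin 1164 5 908)
(mv 1039 (cons (fin 1038 1 1036)
(mv 1102 (cons (fin 1103 2 1036)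
(fin 1166 4 909)))))))))))
(cons (mv 846 (cons (fin 910 6 845)
(mv 782 (cons (fin 845 6 781)
(mv 1100 (cons (fin 1164 5 908)
(mv 1039 (cons (fin 1038 1 1036)
(mv 1102 (cons (fin 1103 2 1036)
(fin 1166 4 909)))))))))))
(mv 844 (cons (fin 908 7 844)
(mv 846 (cons (fin 910 6 845)
(mv 1100 (cons (fin 1164 5 908)
(mv 1039 (cons (fin 1038 1 1036)
(mv 1102 (cons (fin 1103 2 1036)
(fin 1166 4 909)))))))))))))))
(mv 909 (cons (cons (mv 844 (cons (fin 908 7 844)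
(mv 780 (cons (fin 845 7 780)
(mv 910 (cons (fin 846 6 845)
(mv 1102 (cons (fin 1166 4 909)
(mv 1165 (cons (fin 974 6 909)
(mv 1228 (cons (fin 1164 5 972)
(mv 1229 (cons (fin 1292 5 1036)
(mv 1293 (cons (fin 1038 6 1037)
(mv 1294 (cons (fin 1230 4 1037)
(fin 1358 4 1101)))))))))))))))))))
(cons (mv 844 (cons (fin 908 7 844)
(mv 780 (cons (fin 845 7 780)
(mv 910 (cons (fin 846 6 845)
(mv 1165 (cons (fin 974 6 909)
(mv 1228 (cons (fin 1164 5 972)
(mv 1229 (cons (fin 1292 5 1036)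
(mv 1230 (cons (fin 1166 4 973)
(fin 1294 4 1037)))))))))))))))
(mv 844 (cons (fin 908 7 844)
(mv 845 (cons (fin 780 7 780)
(mv 1102 (cons (fin 1038 4 845)
(fin 1166 4 909)))))))))
(cons (mv 844 (cons (fin 908 7 844)
(mv 845 (cons (fin 780 7 780)
(mv 846 (cons (fin 782 6 781)
(fin 910 6 845)))))))
(cons (mv 846 (cons (fin 910 6 845)
(mv 845 (cons (fin 782 6 781)
(mv 1102 (cons (fin 1038 4 845)
(fin 1166 4 909)))))))
(mv 844 (cons (fin 908 7 844)
(mv 910 (cons (fin 846 6 845)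
(mv 1102 (cons (fin 1166 4 909)
(mv 1165 (cons (fin 974 6 909)
(mv 1228 (cons (fin 1164 5 972)
(mv 1229 (cons (fin 1292 5 1036)
(mv 1293 (cons (fin 1038 6 1037)
(mv 1294 (cons (fin 1230 4 1037)
(fin 1358 4 1101)))))))))))))))))))))))
(cons (cons (mv 909 (cons (cons (mv 844 (cons (fin 908 7 844)
(mv 780 (cons (fin 845 7 780)
(mv 910 (cons (fin 846 6 845)
(mv 1165 (cons (fin 974 6 909)
(mv 1166 (cons (fin 1102 4 909)
(fin 1230 4 973)))))))))))
(mv 844 (cons (fin 908 7 844)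
(mv 845 (cons (fin 780 7 780)
(mv 846 (cons (fin 782 6 781)
(fin 910 6 845))))))))
(cons (mv 844 (cons (fin 908 7 844)
(mv 845 (cons (fin 780 7 780)
(mv 1102 (cons (fin 1038 4 845)
(fin 1166 4 909)))))))
(cons (mv 846 (cons (fin 910 6 845)
(mv 845 (cons (fin 782 6 781)
(mv 1102 (cons (fin 1038 4 845)
(fin 1166 4 909)))))))
(mv 844 (cons (fin 908 7 844)
(mv 910 (cons (fin 846 6 845)
(mv 1165 (cons (fin 974 6 909)
(mv 1166 (cons (fin 1102 4 909)
(fin 1230 4 973)))))))))))))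
(mv 909 (cons (cons (mv 844 (cons (fin 908 7 844)
(mv 780 (cons (fin 845 7 780)
(mv 910 (cons (fin 846 6 845)
(mv 974 (cons (fin 1165 6 909)
(mv 1100 (cons (fin 1164 5 908)
(mv 1039 (cons (fin 1038 1 1036)
(mv 1103 (cons (fin 1102 2 1036)
(mv 975 (cons (fin 1167 7 910)
(mv 976 (cons (fin 977 3 909)
(fin 1036 1 972)))))))))))))))))))
(mv 844 (cons (fin 908 7 844)
(mv 845 (cons (fin 780 7 780)
(mv 846 (cons (fin 782 6 781)
(fin 910 6 845))))))))
(cons (mv 844 (cons (fin 908 7 844)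
(mv 845 (cons (fin 780 7 780)
(mv 1100 (cons (fin 1036 5 844)
(fin 1164 5 908)))))))
(cons (mv 846 (cons (fin 910 6 845)
(mv 845 (cons (fin 782 6 781)
(mv 1100 (cons (fin 1036 5 844)
(fin 1164 5 908)))))))
(mv 844 (cons (fin 908 7 844)
(mv 910 (cons (fin 846 6 845)
(mv 974 (cons (fin 1165 6 909)
(mv 1100 (cons (fin 1164 5 908)
(mv 1039 (cons (fin 1038 1 1036)
(mv 1103 (cons (fin 1102 2 1036)
(mv 975 (cons (fin 1167 7 910)
(mv 976 (cons (fin 977 3 909)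
(fin 1036 1 972))))))))))))))))))))))
(cons (mv 909 (cons (cons (mv 844 (cons (fin 908 7 844)
(mv 780 (cons (fin 845 7 780)
(mv 1100 (cons (fin 1164 5 908)
(mv 1038 (cons (fin 1039 1 1036)
(mv 1166 (cons (fin 1102 4 909)
(mv 1165 (cons (fin 1230 4 973)
(mv 1167 (cons (fin 1168 3 1100)
(mv 1229 (cons (fin 974 6 973)
(mv 1292 (cons (fin 1228 5 1036)
(mv 1293 (cons (fin 1036 7 1036)
(fin 1356 5 1100)))))))))))))))))))))
(mv 844 (cons (fin 908 7 844)
(mv 845 (cons (fin 780 7 780)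
(mv 1102 (cons (fin 1038 4 845)
(fin 1166 4 909))))))))
(cons (mv 844 (cons (fin 908 7 844)
(mv 845 (cons (fin 780 7 780)
(mv 1100 (cons (fin 1036 5 844)
(fin 1164 5 908)))))))
(cons (mv 1100 (cons (fin 1164 5 908)
(mv 845 (cons (fin 1036 5 844)
(mv 1038 (cons (fin 1039 1 1036)
(fin 1102 4 845)))))))
(mv 844 (cons (fin 908 7 844)
(mv 1100 (cons (fin 1164 5 908)
(mv 1038 (cons (fin 1039 1 1036)
(mv 1166 (cons (fin 1102 4 909)
(mv 1165 (cons (fin 1230 4 973)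
(mv 1167 (cons (fin 1168 3 1100)
(mv 1229 (cons (fin 974 6 973)
(mv 1292 (cons (fin 1228 5 1036)
(mv 1293 (cons (fin 1036 7 1036)
(fin 1356 5 1100)))))))))))))))))))))))
(cons (mv 909 (cons (cons (mv 844 (cons (fin 908 7 844)
(mv 780 (cons (fin 845 7 780)
(mv 910 (cons (fin 846 6 845)
(mv 1100 (cons (fin 1164 5 908)
(mv 1038 (cons (fin 1039 1 1036)
(mv 1165 (cons (fin 974 6 909)
(mv 1230 (cons (fin 1166 4 973)
(mv 1229 (cons (fin 1294 4 1037)
(mv 1292 (cons (fin 1228 5 1036)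
(mv 1293 (cons (fin 1036 7 1036)
(fin 1356 5 1100)))))))))))))))))))))
(cons (mv 844 (cons (fin 908 7 844)
(mv 780 (cons (fin 845 7 780)
(mv 910 (cons (fin 846 6 845)
(mv 1165 (cons (fin 974 6 909)
(mv 1228 (cons (fin 1164 5 972)
(mv 1229 (cons (fin 1292 5 1036)
(mv 1230 (cons (fin 1166 4 973)
(fin 1294 4 1037)))))))))))))))
(mv 844 (cons (fin 908 7 844)
(mv 845 (cons (fin 780 7 780)
(mv 1100 (cons (fin 1036 5 844)
(fin 1164 5 908)))))))))
(cons (mv 844 (cons (fin 908 7 844)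
(mv 845 (cons (fin 780 7 780)
(mv 846 (cons (fin 782 6 781)
(fin 910 6 845)))))))
(cons (mv 846 (cons (fin 910 6 845)
(mv 845 (cons (fin 782 6 781)
(mv 1100 (cons (fin 1036 5 844)
(fin 1164 5 908)))))))
(mv 844 (cons (fin 908 7 844)
(mv 910 (cons (fin 846 6 845)
(mv 1100 (cons (fin 1164 5 908)
(mv 1038 (cons (fin 1039 1 1036)
(mv 1165 (cons (fin 974 6 909)
(mv 1230 (cons (fin 1166 4 973)
(mv 1229 (cons (fin 1294 4 1037)
(mv 1292 (cons (fin 1228 5 1036)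
(mv 1293 (cons (fin 1036 7 1036)
(fin 1356 5 1100)))))))))))))))))))))))
(mv 909 (cons (cons (mv 844 (cons (fin 908 7 844)
(mv 780 (cons (fin 845 7 780)
(mv 846 (cons (fin 910 6 845)
(mv 1100 (cons (fin 1164 5 908)
(mv 1102 (cons (fin 1166 4 909)
(mv 1103 (cons (fin 1039 2 1036)
(mv 1036 (cons (fin 1035 3 1035)
(fin 1104 3 1036)))))))))))))))
(cons (mv 844 (cons (fin 908 7 844)
(mv 780 (cons (fin 845 7 780)
(mv 910 (cons (fin 846 6 845)
(mv 1165 (cons (fin 974 6 909)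
(mv 1166 (cons (fin 1102 4 909)
(fin 1230 4 973)))))))))))
(mv 844 (cons (fin 908 7 844)
(mv 780 (cons (fin 845 7 780)
(mv 1100 (cons (fin 1164 5 908)
(mv 1102 (cons (fin 1166 4 909)
(mv 1103 (cons (fin 1039 2 1036)
(mv 1036 (cons (fin 1035 3 1035)
(fin 1104 3 1036)))))))))))))))
(cons (mv 846 (cons (fin 910 6 845)
(mv 782 (cons (fin 845 6 781)
(mv 1100 (cons (fin 1164 5 908)
(mv 1102 (cons (fin 1166 4 909)
(mv 1103 (cons (fin 1039 2 1036)
(mv 1036 (cons (fin 1035 3 1035)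
(fin 1104 3 1036)))))))))))))
(cons (mv 844 (cons (fin 908 7 844)
(mv 780 (cons (fin 845 7 780)
(mv 910 (cons (fin 846 6 845)
(mv 1164 (cons (fin 1100 5 908)
(mv 1165 (cons (fin 1228 5 972)
(fin 974 6 909)))))))))))
(mv 844 (cons (fin 908 7 844)
(mv 846 (cons (fin 910 6 845)
(mv 1100 (cons (fin 1164 5 908)
(mv 1102 (cons (fin 1166 4 909)
(mv 1103 (cons (fin 1039 2 1036)
(mv 1036 (cons (fin 1035 3 1035)
(fin 1104 3 1036))))))))))))))))))))))
(cons (mv 909 (cons (cons (cons (mv 845 (cons (cons (cons (mv 780 (cons (fin 844 7 780)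
(mv 716 (cons (fin 781 7 716)
(mv 782 (cons (fin 846 6 781)
(mv 1100 (cons (fin 1036 5 844)
(mv 1101 (cons (fin 1164 5 908)
(mv 1102 (cons (fin 1038 4 845)
(fin 1166 4 909)))))))))))))
(mv 782 (cons (fin 846 6 781)
(mv 718 (cons (fin 781 6 717)
(mv 1100 (cons (fin 1036 5 844)
(mv 1101 (cons (fin 1164 5 908)
(mv 1102 (cons (fin 1038 4 845)
(fin 1166 4 909))))))))))))
(cons (mv 780 (cons (fin 844 7 780)
(mv 716 (cons (fin 781 7 716)
(mv 1100 (cons (fin 1036 5 844)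
(mv 1101 (cons (fin 1164 5 908)
(mv 1102 (cons (fin 1038 4 845)
(fin 1166 4 909)))))))))))
(mv 780 (cons (fin 844 7 780)
(mv 716 (cons (fin 781 7 716)
(mv 846 (cons (fin 782 6 781)
(mv 1038 (cons (fin 1102 4 845)
(mv 1101 (cons (fin 910 6 845)
(mv 1164 (cons (fin 1100 5 908)
(mv 1165 (cons (fin 1228 5 972)
(mv 908 (cons (fin 972 7 908)
(mv 847 (cons (fin 848 1 844)
(mv 906 (cons (fin 907 2 842)
(mv 1229 (cons (fin 974 6 973)
(mv 1230 (cons (fin 1166 4 973)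
(fin 1294 4 1037)))))))))))))))))))))))))))
(cons (cons (mv 780 (cons (fin 844 7 780)
(mv 716 (cons (fin 781 7 716)
(mv 846 (cons (fin 782 6 781)
(mv 1036 (cons (fin 1100 5 844)
(mv 1101 (cons (fin 910 6 845)
(mv 1166 (cons (fin 1102 4 909)
(mv 1165 (cons (fin 1230 4 973)
(mv 972 (cons (fin 908 7 908)
(fin 1229 7 972)))))))))))))))))
(mv 780 (cons (fin 844 7 780)
(mv 716 (cons (fin 781 7 716)
(mv 846 (cons (fin 782 6 781)
(mv 1100 (cons (fin 1036 5 844)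
(mv 1101 (cons (fin 1164 5 908)
(fin 910 6 845))))))))))))
(cons (mv 780 (cons (fin 844 7 780)
(mv 716 (cons (fin 781 7 716)
(mv 846 (cons (fin 782 6 781)
(mv 1101 (cons (fin 910 6 845)
(mv 1102 (cons (fin 1038 4 845)
(fin 1166 4 909)))))))))))
(cons (mv 780 (cons (fin 844 7 780)
(mv 782 (cons (fin 846 6 781)
(mv 1100 (cons (fin 1036 5 844)
(mv 1101 (cons (fin 1164 5 908)
(mv 1102 (cons (fin 1038 4 845)
(fin 1166 4 909)))))))))))
(mv 780 (cons (fin 844 7 780)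
(mv 781 (cons (fin 716 7 716)
(mv 782 (cons (fin 718 6 717)
(fin 846 6 781))))))))))))
(mv 1101 (cons (cons (mv 844 (cons (fin 908 7 844)
(mv 846 (cons (fin 910 6 845)
(mv 1164 (cons (fin 1100 5 908)
(mv 1165 (cons (fin 1228 5 972)
(mv 1166 (cons (fin 1102 4 909)
(fin 1230 4 973)))))))))))
(cons (mv 846 (cons (fin 910 6 845)
(mv 1164 (cons (fin 1100 5 908)
(mv 1165 (cons (fin 1228 5 972)
(mv 1166 (cons (fin 1102 4 909)
(fin 1230 4 973)))))))))
(mv 844 (cons (fin 908 7 844)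
(mv 1164 (cons (fin 1100 5 908)
(mv 1165 (cons (fin 1228 5 972)
(mv 1166 (cons (fin 1102 4 909)
(fin 1230 4 973)))))))))))
(cons (mv 844 (cons (fin 908 7 844)
(mv 910 (cons (fin 846 6 845)
(mv 1165 (cons (fin 974 6 909)
(mv 1166 (cons (fin 1102 4 909)
(fin 1230 4 973)))))))))
(cons (mv 844 (cons (fin 908 7 844)
(mv 910 (cons (fin 846 6 845)
(mv 1164 (cons (fin 1100 5 908)
(mv 1165 (cons (fin 1228 5 972)
(fin 974 6 909)))))))))
(mv 908 (cons (fin 844 7 844)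
(mv 910 (cons (fin 846 6 845)
(mv 1100 (cons (fin 1164 5 908)
(mv 1102 (cons (fin 1166 4 909)
(mv 911 (cons (mv 972 (cons (fin 971 1 907)
(fin 912 1 908)))
(mv 847 (cons (fin 848 2 844)
(mv 974 (cons (fin 1038 6 846)
(mv 907 (cons (fin 906 0 906)
(fin 975 0 907))))))))))))))))))))))
(cons (mv 845 (cons (cons (mv 780 (cons (fin 844 7 780)
(mv 781 (cons (fin 716 7 716)
(mv 782 (cons (fin 718 6 717)
(fin 846 6 781)))))))
(mv 782 (cons (fin 846 6 781)
(mv 781 (cons (fin 718 6 717)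
(mv 1036 (cons (fin 972 5 780)
(fin 1100 5 844))))))))
(cons (mv 780 (cons (fin 844 7 780)
(mv 781 (cons (fin 716 7 716)
(mv 1036 (cons (fin 972 5 780)
(fin 1100 5 844)))))))
(mv 844 (cons (fin 780 7 780)
(mv 846 (cons (fin 782 6 781)
(mv 1036 (cons (fin 1100 5 844)
(mv 1038 (cons (fin 1102 4 845)
(mv 847 (cons (mv 908 (cons (fin 907 1 843)
(fin 848 1 844)))
(mv 783 (cons (fin 784 2 780)
(mv 910 (cons (fin 974 6 782)
(mv 843 (cons (fin 842 0 842)
(fin 911 0 843))))))))))))))))))))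
(mv 1101 (cons (cons (mv 846 (cons (fin 910 6 845)
(mv 782 (cons (fin 845 6 781)
(mv 1102 (cons (fin 1166 4 909)
(mv 1164 (cons (fin 1100 5 908)
(mv 1165 (cons (fin 1228 5 972)
(mv 972 (cons (fin 908 7 908)
(mv 1036 (cons (fin 1229 7 972)
(mv 1035 (cons (fin 1034 0 1034)
(mv 1103 (cons (fin 1104 3 1036)
(fin 1038 0 1035)))))))))))))))))))
(cons (mv 1100 (cons (fin 1164 5 908)
(mv 845 (cons (fin 1036 5 844)
(mv 1102 (cons (fin 1038 4 845)
(fin 1166 4 909)))))))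
(mv 846 (cons (fin 910 6 845)
(mv 782 (cons (fin 845 6 781)
(mv 1164 (cons (fin 1100 5 908)
(mv 1165 (cons (fin 1228 5 972)
(mv 972 (cons (fin 908 7 908)
(mv 1229 (cons (fin 1036 7 972)
(mv 1230 (cons (fin 1166 4 973)
(fin 1294 4 1037)))))))))))))))))
(cons (cons (mv 846 (cons (fin 910 6 845)
(mv 782 (cons (fin 845 6 781)
(mv 1166 (cons (fin 1102 4 909)
(mv 1165 (cons (fin 1230 4 973)
(mv 972 (cons (fin 908 7 908)
(mv 1228 (cons (fin 1164 5 972)
(mv 1229 (cons (fin 1036 7 972)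
(fin 1292 5 1036)))))))))))))))
(mv 846 (cons (fin 910 6 845)
(mv 845 (cons (fin 782 6 781)
(mv 1102 (cons (fin 1038 4 845)
(fin 1166 4 909))))))))
(cons (mv 846 (cons (fin 910 6 845)
(mv 782 (cons (fin 845 6 781)
(mv 1164 (cons (fin 1100 5 908)
(mv 1165 (cons (fin 1228 5 972)
(mv 972 (cons (fin 908 7 908)
(mv 1229 (cons (fin 1036 7 972)
(mv 1038 (cons (fin 974 6 973)
(mv 970 (cons (fin 971 0 970)
(mv 1293 (cons (fin 1102 6 1037)
(mv 1294 (cons (fin 1230 4 1037)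
(fin 1358 4 1101)))))))))))))))))))))
(mv 846 (cons (fin 910 6 845)
(mv 1102 (cons (fin 1166 4 909)
(mv 1164 (cons (fin 1100 5 908)
(mv 1165 (cons (fin 1228 5 972)
(mv 972 (cons (fin 908 7 908)
(mv 1036 (cons (fin 1229 7 972)
(mv 1035 (cons (fin 1034 0 1034)
(mv 1103 (cons (fin 1104 3 1036)
(fin 1038 0 1035)))))))))))))))))))))))
(cons (cons (mv 1101 (cons (cons (mv 844 (cons (fin 908 7 844)
(mv 780 (cons (fin 845 7 780)
(mv 1100 (cons (fin 1164 5 908)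
(mv 1166 (cons (fin 1102 4 909)
(mv 1165 (cons (fin 1230 4 973)
(mv 974 (cons (fin 910 6 909)
(mv 1167 (cons (fin 1168 3 1100)
(mv 1229 (cons (fin 1038 6 973)
(mv 1036 (cons (fin 972 7 972)
(fin 1293 7 1036)))))))))))))))))))
(cons (mv 1100 (cons (fin 1164 5 908)
(mv 845 (cons (fin 1036 5 844)
(mv 1102 (cons (fin 1038 4 845)
(fin 1166 4 909)))))))
(mv 844 (cons (fin 908 7 844)
(mv 780 (cons (fin 845 7 780)
(mv 1164 (cons (fin 1100 5 908)
(mv 1165 (cons (fin 1228 5 972)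
(mv 974 (cons (fin 910 6 909)
(mv 1229 (cons (fin 1038 6 973)
(mv 1230 (cons (fin 1166 4 973)
(fin 1294 4 1037)))))))))))))))))
(cons (cons (mv 844 (cons (fin 908 7 844)
(mv 780 (cons (fin 845 7 780)
(mv 1166 (cons (fin 1102 4 909)
(mv 1165 (cons (fin 1230 4 973)
(mv 974 (cons (fin 910 6 909)
(mv 1228 (cons (fin 1164 5 972)
(mv 1229 (cons (fin 1292 5 1036)
(fin 1038 6 973)))))))))))))))
(mv 844 (cons (fin 908 7 844)
(mv 780 (cons (fin 845 7 780)
(mv 1166 (cons (fin 1102 4 909)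
(mv 1165 (cons (fin 1230 4 973)
(mv 974 (cons (fin 910 6 909)
(mv 1229 (cons (fin 1038 6 973)
(mv 1036 (cons (fin 972 7 972)
(mv 975 (cons (fin 976 1 972)
(mv 1034 (cons (fin 1035 2 970)
(mv 1292 (cons (fin 1228 5 1036)
(mv 1293 (cons (fin 1100 7 1036)
(fin 1356 5 1100))))))))))))))))))))))))
(cons (mv 844 (cons (fin 908 7 844)
(mv 845 (cons (fin 780 7 780)
(mv 1100 (cons (fin 1036 5 844)
(fin 1164 5 908)))))))
(mv 844 (cons (fin 908 7 844)
(mv 1100 (cons (fin 1164 5 908)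
(mv 1166 (cons (fin 1102 4 909)
(mv 1165 (cons (fin 1230 4 973)
(mv 974 (cons (fin 910 6 909)
(mv 1167 (cons (fin 1168 3 1100)
(mv 1229 (cons (fin 1038 6 973)
(mv 1036 (cons (fin 972 7 972)
(fin 1293 7 1036)))))))))))))))))))))
(mv 845 (cons (cons (mv 780 (cons (fin 844 7 780)
(mv 716 (cons (fin 781 7 716)
(mv 846 (cons (fin 782 6 781)
(mv 1100 (cons (fin 1036 5 844)
(mv 1101 (cons (fin 1164 5 908)
(fin 910 6 845)))))))))))
(mv 782 (cons (fin 846 6 781)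
(mv 781 (cons (fin 718 6 717)
(mv 1036 (cons (fin 972 5 780)
(fin 1100 5 844))))))))
(cons (mv 780 (cons (fin 844 7 780)
(mv 781 (cons (fin 716 7 716)
(mv 1036 (cons (fin 972 5 780)
(fin 1100 5 844)))))))
(cons (mv 780 (cons (fin 844 7 780)
(mv 781 (cons (fin 716 7 716)
(mv 782 (cons (fin 718 6 717)
(fin 846 6 781)))))))
(mv 780 (cons (fin 844 7 780)
(mv 846 (cons (fin 782 6 781)
(mv 1100 (cons (fin 1036 5 844)
(mv 1101 (cons (fin 1164 5 908)
(fin 910 6 845))))))))))))))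
(cons (mv 845 (cons (cons (mv 780 (cons (fin 844 7 780)
(mv 716 (cons (fin 781 7 716)
(mv 846 (cons (fin 782 6 781)
(mv 1101 (cons (fin 910 6 845)
(mv 1102 (cons (fin 1038 4 845)
(fin 1166 4 909)))))))))))
(cons (mv 782 (cons (fin 846 6 781)
(mv 781 (cons (fin 718 6 717)
(mv 1038 (cons (fin 974 4 781)
(fin 1102 4 845)))))))
(mv 780 (cons (fin 844 7 780)
(mv 781 (cons (fin 716 7 716)
(mv 1038 (cons (fin 974 4 781)
(fin 1102 4 845)))))))))
(cons (mv 780 (cons (fin 844 7 780)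
(mv 716 (cons (fin 781 7 716)
(mv 846 (cons (fin 782 6 781)
(mv 1101 (cons (fin 910 6 845)
(mv 1166 (cons (fin 1102 4 909)
(mv 1165 (cons (fin 1230 4 973)
(mv 972 (cons (fin 908 7 908)
(mv 1228 (cons (fin 1164 5 972)
(mv 1229 (cons (fin 1036 7 972)
(fin 1292 5 1036)))))))))))))))))))
(cons (mv 780 (cons (fin 844 7 780)
(mv 781 (cons (fin 716 7 716)
(mv 782 (cons (fin 718 6 717)
(fin 846 6 781)))))))
(mv 780 (cons (fin 844 7 780)
(mv 846 (cons (fin 782 6 781)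
(mv 1101 (cons (fin 910 6 845)
(mv 1102 (cons (fin 1038 4 845)
(fin 1166 4 909)))))))))))))
(mv 845 (cons (cons (mv 780 (cons (fin 844 7 780)
(mv 716 (cons (fin 781 7 716)
(mv 782 (cons (fin 846 6 781)
(mv 1100 (cons (fin 1036 5 844)
(mv 1101 (cons (fin 1164 5 908)
(mv 1102 (cons (fin 1038 4 845)
(fin 1166 4 909)))))))))))))
(mv 780 (cons (fin 844 7 780)
(mv 781 (cons (fin 716 7 716)
(mv 782 (cons (fin 718 6 717)
(fin 846 6 781))))))))
(cons (mv 782 (cons (fin 846 6 781)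
(mv 718 (cons (fin 781 6 717)
(mv 1100 (cons (fin 1036 5 844)
(mv 1101 (cons (fin 1164 5 908)
(mv 1102 (cons (fin 1038 4 845)
(fin 1166 4 909)))))))))))
(cons (mv 780 (cons (fin 844 7 780)
(mv 716 (cons (fin 781 7 716)
(mv 1100 (cons (fin 1036 5 844)
(mv 1101 (cons (fin 1164 5 908)
(mv 1102 (cons (fin 1038 4 845)
(fin 1166 4 909)))))))))))
(mv 780 (cons (fin 844 7 780)
(mv 782 (cons (fin 846 6 781)
(mv 1100 (cons (fin 1036 5 844)
(mv 1101 (cons (fin 1164 5 908)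
(mv 1102 (cons (fin 1038 4 845)
(fin 1166 4 909)))))))))))))))))))
(mv 1039 (cons (cons (mv 1038 (cons (fin 972 3 972)
(mv 976 (cons (fin 977 2 973)
(mv 975 (cons (fin 1036 2 972)
(mv 1104 (cons (fin 1105 0 1037)
(mv 911 (cons (fin 1168 7 911)
(fin 847 4 847)))))))))))
(cons (mv 975 (cons (cons (mv 974 (cons (fin 972 0 972)
(mv 976 (cons (fin 1036 1 972)
(mv 908 (cons (fin 909 3 908)
(mv 912 (cons (fin 913 2 909)
(mv 848 (cons (fin 784 5 783)
(fin 1103 5 847)))))))))))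
(cons (mv 911 (cons (cons (mv 847 (cons (fin 1104 4 847)
(mv 782 (cons (fin 846 7 782)
(mv 783 (cons (fin 718 7 718)
(fin 976 4 783)))))))
(mv 1103 (cons (cons (cons (mv 846 (cons (fin 910 7 846)
(mv 848 (cons (fin 912 6 847)
(mv 1104 (cons (fin 1168 4 911)
(mv 1166 (cons (fin 1102 5 910)
(mv 1167 (cons (fin 1230 5 974)
(mv 1231 (cons (fin 976 6 975)
(fin 1295 6 1039)))))))))))))
(mv 846 (cons (fin 910 7 846)
(mv 848 (cons (fin 912 6 847)
(mv 1166 (cons (fin 1102 5 910)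
(mv 1167 (cons (fin 1230 5 974)
(mv 1231 (cons (fin 976 6 975)
(mv 1295 (cons (fin 1104 6 1039)
(mv 1296 (cons (fin 1232 4 1039)
(fin 1360 4 1103))))))))))))))))
(cons (mv 846 (cons (fin 910 7 846)
(mv 848 (cons (fin 912 6 847)
(mv 1166 (cons (fin 1102 5 910)
(mv 1167 (cons (fin 1230 5 974)
(mv 1231 (cons (fin 976 6 975)
(mv 1232 (cons (fin 1168 4 975)
(fin 1296 4 1039)))))))))))))
(mv 846 (cons (fin 910 7 846)
(mv 1104 (cons (fin 1168 4 911)
(mv 1166 (cons (fin 1102 5 910)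
(mv 1167 (cons (fin 1230 5 974)
(mv 1231 (cons (fin 976 6 975)
(fin 1295 6 1039)))))))))))))
(cons (cons (mv 846 (cons (fin 910 7 846)
(mv 912 (cons (fin 848 6 847)
(mv 976 (cons (fin 1167 6 911)
(mv 1104 (cons (fin 1168 7 911)
(mv 913 (cons (fin 849 6 848)
(mv 914 (cons (fin 915 1 911)
(mv 850 (cons (fin 851 2 847)
(mv 978 (cons (fin 979 0 911)
(mv 1105 (cons (fin 1169 4 912)
(mv 1106 (cons (fin 1107 3 1039)
(mv 1042 (cons (fin 1043 2 1039)
(mv 1170 (cons (fin 1171 0 1103)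
(fin 977 7 913)))))))))))))))))))))))))
(mv 848 (cons (fin 912 6 847)
(mv 1104 (cons (fin 1168 4 911)
(mv 1166 (cons (fin 1102 5 910)
(mv 1167 (cons (fin 1230 5 974)
(mv 1231 (cons (fin 976 6 975)
(fin 1295 6 1039))))))))))))
(cons (mv 846 (cons (fin 910 7 846)
(mv 848 (cons (fin 912 6 847)
(mv 1166 (cons (fin 1102 5 910)
(mv 1167 (cons (fin 1230 5 974)
(mv 1168 (cons (fin 1104 4 911)
(fin 1232 4 975)))))))))))
(mv 910 (cons (fin 846 7 846)
(mv 912 (cons (fin 848 6 847)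
(mv 909 (cons (fin 972 1 908)
(mv 976 (cons (fin 908 0 908)
(fin 977 0 909))))))))))))))
(cons (mv 1103 (cons (cons (mv 846 (cons (fin 910 7 846)
(mv 782 (cons (fin 847 7 782)
(mv 845 (cons (fin 909 6 781)
(mv 848 (cons (fin 912 6 847)
(mv 1166 (cons (fin 1102 5 910)
(mv 1167 (cons (fin 1230 5 974)
(mv 1231 (cons (fin 976 6 975)
(mv 1232 (cons (fin 1168 4 975)
(fin 1296 4 1039)))))))))))))))))
(mv 846 (cons (fin 910 7 846)
(mv 782 (cons (fin 847 7 782)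
(mv 845 (cons (fin 909 6 781)
(mv 1166 (cons (fin 1102 5 910)
(mv 1167 (cons (fin 1230 5 974)
(mv 1231 (cons (fin 976 6 975)
(mv 1232 (cons (fin 1168 4 975)
(fin 1296 4 1039))))))))))))))))
(cons (mv 848 (cons (fin 912 6 847)
(mv 784 (cons (fin 847 6 783)
(mv 1166 (cons (fin 1102 5 910)
(mv 1167 (cons (fin 1230 5 974)
(mv 1231 (cons (fin 976 6 975)
(mv 1232 (cons (fin 1168 4 975)
(fin 1296 4 1039)))))))))))))
(cons (mv 846 (cons (fin 910 7 846)
(mv 847 (cons (fin 782 7 782)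
(mv 848 (cons (fin 784 6 783)
(fin 912 6 847)))))))
(mv 846 (cons (fin 910 7 846)
(mv 848 (cons (fin 912 6 847)
(mv 1166 (cons (fin 1102 5 910)
(mv 1167 (cons (fin 1230 5 974)
(mv 1231 (cons (fin 976 6 975)
(mv 1232 (cons (fin 1168 4 975)
(fin 1296 4 1039)))))))))))))))))
(cons (mv 847 (cons (fin 1104 4 847)
(mv 782 (cons (fin 846 7 782)
(mv 783 (cons (fin 718 7 718)
(mv 784 (cons (fin 720 6 719)
(fin 848 6 783)))))))))
(mv 847 (cons (fin 1104 4 847)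
(mv 783 (cons (fin 976 4 783)
(mv 784 (cons (fin 720 6 719)
(fin 848 6 783)))))))))))
(mv 1104 (cons (cons (mv 911 (cons (fin 847 4 847)
(mv 1168 (cons (fin 976 7 911)
(fin 1232 7 975)))))
(mv 1168 (cons (fin 1232 7 975)
(mv 976 (cons (cons (mv 913 (cons (fin 977 6 912)
(mv 912 (cons (fin 974 2 909)
(fin 849 6 848)))))
(mv 913 (cons (fin 977 6 912)
(mv 912 (cons (fin 849 6 848)
(mv 848 (cons (fin 784 5 783)
(fin 1103 5 847))))))))
(cons (mv 974 (cons (fin 1036 1 972)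
(mv 908 (cons (fin 909 3 908)
(mv 1167 (cons (fin 1231 5 975)
(mv 1103 (cons (fin 910 7 910)
(fin 912 5 911)))))))))
(mv 913 (cons (fin 977 6 912)
(mv 974 (cons (fin 1036 1 972)
(mv 908 (cons (fin 909 3 908)
(mv 1167 (cons (fin 1231 5 975)
(mv 1103 (cons (fin 910 7 910)
(mv 1166 (cons (fin 1230 5 974)
(mv 1105 (cons (fin 1106 1 1102)
(fin 1165 2 1101)))))))))))))))))))))
(cons (mv 911 (cons (fin 847 4 847)
(mv 1103 (cons (cons (mv 846 (cons (fin 910 7 846)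
(mv 848 (cons (fin 912 6 847)
(mv 1166 (cons (fin 1102 5 910)
(mv 1167 (cons (fin 1230 5 974)
(mv 1231 (cons (fin 976 6 975)
(fin 1295 6 1039)))))))))))
(cons (mv 846 (cons (fin 910 7 846)
(mv 1166 (cons (fin 1102 5 910)
(mv 1167 (cons (fin 1230 5 974)
(mv 1231 (cons (fin 976 6 975)
(fin 1295 6 1039)))))))))
(mv 848 (cons (fin 912 6 847)
(mv 1166 (cons (fin 1102 5 910)
(mv 1167 (cons (fin 1230 5 974)
(mv 1231 (cons (fin 976 6 975)
(fin 1295 6 1039)))))))))))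
(cons (mv 846 (cons (fin 910 7 846)
(mv 912 (cons (fin 848 6 847)
(mv 976 (cons (fin 1167 5 911)
(mv 913 (cons (fin 974 2 909)
(fin 849 6 848)))))))))
(cons (mv 910 (cons (fin 846 7 846)
(mv 912 (cons (fin 848 6 847)
(mv 913 (cons (fin 974 1 909)
(mv 849 (cons (fin 850 2 846)
(fin 976 6 848)))))))))
(mv 848 (cons (fin 912 6 847)
(mv 910 (cons (fin 846 7 846)
(mv 1166 (cons (fin 1102 5 910)
(mv 1167 (cons (fin 974 7 910)
(fin 1230 5 974)))))))))))))))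
(mv 911 (cons (fin 847 4 847)
(mv 1168 (cons (fin 1232 7 975)
(fin 1103 4 911))))))))))
(cons (cons (mv 972 (cons (fin 974 0 972)
(mv 911 (cons (cons (mv 847 (cons (fin 1104 4 847)
(mv 782 (cons (fin 846 7 782)
(mv 783 (cons (fin 718 7 718)
(mv 784 (cons (fin 720 6 719)
(fin 848 6 783)))))))))
(mv 1103 (cons (cons (mv 846 (cons (fin 910 7 846)
(mv 848 (cons (fin 912 6 847)
(mv 1166 (cons (fin 1102 5 910)
(mv 1167 (cons (fin 1230 5 974)
(mv 1168 (cons (fin 1104 4 911)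
(fin 1232 4 975)))))))))))
(mv 910 (cons (fin 846 7 846)
(mv 912 (cons (fin 909 1 908)
(fin 848 6 847))))))
(cons (mv 848 (cons (fin 912 6 847)
(mv 1166 (cons (fin 1102 5 910)
(mv 1167 (cons (fin 1230 5 974)
(mv 1168 (cons (fin 1104 4 911)
(fin 1232 4 975)))))))))
(mv 846 (cons (fin 910 7 846)
(mv 1166 (cons (fin 1102 5 910)
(mv 1167 (cons (fin 1230 5 974)
(mv 1168 (cons (fin 1104 4 911)
(fin 1232 4 975)))))))))))))
(cons (mv 910 (cons (mv 846 (cons (fin 1103 7 846)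
(mv 782 (cons (fin 847 7 782)
(fin 718 4 718)))))
(mv 909 (cons (fin 912 1 908)
(mv 971 (cons (fin 908 1 907)
(fin 970 2 906)))))))
(mv 1104 (cons (fin 847 4 847)
(mv 1168 (cons (fin 1232 7 975)
(fin 1103 4 911))))))))))
(mv 974 (cons (fin 972 0 972)
(mv 976 (cons (fin 1036 1 972)
(mv 908 (cons (fin 909 3 908)
(mv 912 (cons (fin 913 2 909)
(mv 848 (cons (fin 784 5 783)
(mv 785 (cons (fin 849 6 784)
(mv 847 (cons (fin 783 7 783)
(mv 1104 (cons (fin 911 7 847)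
(mv 1168 (cons (fin 1232 7 975)
(mv 1169 (cons (fin 1105 4 912)
(fin 1233 4 976))))))))))))))))))))))
(cons (mv 974 (cons (fin 972 0 972)
(mv 976 (cons (fin 1036 1 972)
(mv 909 (cons (fin 908 3 908)
(mv 910 (cons (fin 977 3 909)
(mv 846 (cons (fin 782 5 781)
(mv 1103 (cons (fin 911 7 846)
(fin 1167 7 910)))))))))))))
(mv 974 (cons (fin 972 0 972)
(mv 976 (cons (fin 1036 1 972)
(mv 912 (cons (fin 913 2 909)
(mv 848 (cons (fin 784 5 783)
(fin 1103 5 847)))))))))))))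
(mv 1038 (cons (cons (mv 976 (cons (fin 977 2 973)
(mv 975 (cons (fin 1036 2 972)
(mv 1104 (cons (fin 1105 0 1037)
(mv 911 (cons (fin 1168 7 911)
(fin 847 4 847)))))))))
(mv 1104 (cons (fin 1105 0 1037)
(mv 1103 (cons (fin 1036 0 1036)
(mv 975 (cons (mv 911 (cons (fin 847 4 847)
(fin 1168 4 911)))
(cons (mv 1168 (cons (fin 1232 7 975)
(mv 1167 (cons (mv 974 (cons (fin 910 7 910)
(fin 1231 7 974)))
(cons (mv 974 (cons (fin 910 7 910)
(mv 1166 (cons (fin 1230 5 974)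
(mv 1102 (cons (fin 909 7 909)
(mv 1165 (cons (fin 1164 2 1100)
(fin 1229 5 973)))))))))
(mv 1230 (cons (fin 1166 5 974)
(mv 1231 (cons (fin 1294 5 1038)
(fin 1295 6 1039))))))))))
(mv 911 (cons (fin 847 4 847)
(mv 846 (cons (fin 910 7 846)
(mv 848 (cons (fin 912 6 847)
(mv 1166 (cons (fin 1102 5 910)
(mv 1167 (cons (fin 1230 5 974)
(mv 1231 (cons (fin 974 7 974)
(fin 1295 6 1039)))))))))))))))))))))
(cons (mv 976 (cons (fin 977 2 973)
(mv 975 (cons (fin 1036 2 972)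
(mv 912 (cons (mv 848 (cons (fin 784 5 783)
(fin 1103 5 847)))
(mv 974 (cons (fin 913 2 909)
(mv 909 (cons (fin 908 3 908)
(mv 845 (cons (fin 781 4 781)
(fin 1102 4 845)))))))))))))
(cons (mv 976 (cons (fin 977 2 973)
(mv 1104 (cons (fin 1105 0 1037)
(mv 912 (cons (mv 1103 (cons (fin 848 5 847)
(fin 1167 5 911)))
(cons (mv 847 (cons (fin 911 7 847)
(mv 848 (cons (fin 783 7 783)
(mv 849 (cons (fin 785 6 784)
(fin 913 6 848)))))))
(mv 847 (cons (fin 911 7 847)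
(mv 849 (cons (fin 913 6 848)
(mv 1167 (cons (fin 1103 5 911)
(mv 1168 (cons (fin 1231 5 975)
(mv 1232 (cons (fin 975 7 975)
(mv 1233 (cons (fin 1169 4 976)
(fin 1297 4 1040))))))))))))))))))))
(mv 976 (cons (fin 977 2 973)
(mv 1104 (cons (fin 1105 0 1037)
(mv 1103 (cons (fin 1036 0 1036)
(mv 912 (cons (fin 848 5 847)
(fin 1167 5 911)))))))))))))))
(cons (mv 972 (cons (fin 1038 3 972)
(mv 975 (cons (fin 974 0 972)
(mv 911 (cons (cons (mv 847 (cons (fin 1104 4 847)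
(mv 782 (cons (fin 846 7 782)
(mv 783 (cons (fin 718 7 718)
(mv 784 (cons (fin 720 6 719)
(fin 848 6 783)))))))))
(mv 1103 (cons (cons (mv 846 (cons (fin 910 7 846)
(mv 848 (cons (fin 912 6 847)
(mv 1166 (cons (fin 1102 5 910)
(mv 1167 (cons (fin 1230 5 974)
(mv 1168 (cons (fin 1104 4 911)
(fin 1232 4 975)))))))))))
(mv 910 (cons (fin 846 7 846)
(mv 912 (cons (fin 909 1 908)
(fin 848 6 847))))))
(cons (mv 848 (cons (fin 912 6 847)
(mv 1166 (cons (fin 1102 5 910)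
(mv 1167 (cons (fin 1230 5 974)
(mv 1168 (cons (fin 1104 4 911)
(fin 1232 4 975)))))))))
(mv 846 (cons (fin 910 7 846)
(mv 1166 (cons (fin 1102 5 910)
(mv 1167 (cons (fin 1230 5 974)
(mv 1168 (cons (fin 1104 4 911)
(fin 1232 4 975)))))))))))))
(cons (mv 910 (cons (mv 846 (cons (fin 1103 7 846)
(mv 782 (cons (fin 847 7 782)
(fin 718 4 718)))))
(mv 909 (cons (fin 912 1 908)
(mv 971 (cons (fin 908 1 907)
(fin 970 2 906)))))))
(mv 1104 (cons (fin 847 4 847)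
(mv 1168 (cons (fin 1232 7 975)
(fin 1103 4 911))))))))))))
(cons (mv 1038 (cons (fin 972 3 972)
(mv 976 (cons (fin 977 2 973)
(mv 1104 (cons (fin 1105 0 1037)
(mv 1103 (cons (fin 1036 0 1036)
(mv 912 (cons (fin 848 5 847)
(fin 1167 5 911)))))))))))
(mv 1038 (cons (fin 972 3 972)
(mv 976 (cons (fin 977 2 973)
(mv 975 (cons (fin 1036 2 972)
(mv 912 (cons (mv 848 (cons (fin 784 5 783)
(fin 1103 5 847)))
(mv 974 (cons (fin 913 2 909)
(mv 909 (cons (fin 908 3 908)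
(mv 845 (cons (fin 781 4 781)
(fin 1102 4 845))))))))))))))))))))))
(cons (cons (mv 1039 (cons (cons (cons (mv 1038 (cons (fin 972 3 972)
(mv 976 (cons (fin 977 2 973)
(mv 975 (cons (fin 1036 2 972)
(mv 1100 (cons (fin 1101 1 1036)
(mv 1104 (cons (fin 1105 0 1037)
(mv 911 (cons (fin 1168 7 911)
(fin 847 4 847)))))))))))))
(mv 975 (cons (cons (cons (mv 974 (cons (fin 972 0 972)
(mv 976 (cons (fin 1036 1 972)
(mv 912 (cons (fin 913 2 909)
(mv 848 (cons (fin 784 5 783)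
(fin 1103 5 847)))))))))
(mv 1104 (cons (cons (mv 911 (cons (fin 847 4 847)
(mv 1168 (cons (fin 976 7 911)
(fin 1232 7 975)))))
(mv 911 (cons (fin 847 4 847)
(mv 1103 (cons (cons (mv 846 (cons (fin 910 7 846)
(mv 848 (cons (fin 912 6 847)
(mv 1102 (cons (fin 1166 5 910)
(mv 1101 (cons (fin 1036 3 1036)
(fin 1100 2 1036)))))))))
(mv 846 (cons (fin 910 7 846)
(mv 1102 (cons (fin 1166 5 910)
(mv 1101 (cons (fin 1036 3 1036)
(fin 1100 2 1036))))))))
(cons (mv 846 (cons (fin 910 7 846)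
(mv 912 (cons (fin 848 6 847)
(mv 976 (cons (fin 1167 5 911)
(mv 913 (cons (fin 849 6 848)
(mv 914 (cons (fin 915 1 911)
(mv 850 (cons (fin 851 2 847)
(mv 978 (cons (fin 979 0 911)
(mv 1105 (cons (fin 1169 4 912)
(mv 1106 (cons (fin 1107 3 1039)
(mv 1042 (cons (fin 1043 2 1039)
(mv 1170 (cons (fin 1171 0 1103)
(fin 977 7 913)))))))))))))))))))))))
(mv 848 (cons (fin 912 6 847)
(mv 1102 (cons (fin 1166 5 910)
(mv 1101 (cons (fin 1036 3 1036)
(fin 1100 2 1036)))))))))))))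
(cons (mv 1168 (cons (fin 1232 7 975)
(mv 976 (cons (cons (mv 913 (cons (fin 977 6 912)
(mv 912 (cons (fin 849 6 848)
(mv 848 (cons (fin 784 5 783)
(fin 1103 5 847)))))))
(mv 1167 (cons (fin 1231 5 975)
(mv 912 (cons (fin 1103 5 911)
(mv 1169 (cons (fin 1105 4 912)
(fin 1233 4 976))))))))
(cons (mv 977 (cons (fin 913 6 912)
(mv 978 (cons (fin 979 1 975)
(mv 914 (cons (fin 915 2 911)
(mv 1042 (cons (fin 1043 0 975)
(mv 1167 (cons (fin 1231 5 975)
(mv 1169 (cons (fin 1233 4 976)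
(mv 1105 (cons (fin 1106 5 913)
(mv 1166 (cons (fin 1165 2 1101)
(mv 1230 (cons (fin 1229 1 1165)
(fin 1103 5 974)))))))))))))))))))
(mv 913 (cons (fin 977 6 912)
(mv 912 (cons (fin 849 6 848)
(mv 1169 (cons (fin 1105 4 912)
(fin 1233 4 976))))))))))))
(mv 911 (cons (fin 847 4 847)
(mv 1168 (cons (fin 1232 7 975)
(fin 1103 4 911)))))))))
(cons (mv 974 (cons (fin 972 0 972)
(mv 911 (cons (cons (mv 847 (cons (fin 1104 4 847)
(mv 782 (cons (fin 846 7 782)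
(mv 718 (cons (fin 783 7 718)
(mv 848 (cons (fin 784 6 783)
(mv 912 (cons (fin 1103 6 847)
(mv 913 (cons (fin 910 1 909)
(fin 914 1 910)))))))))))))
(mv 1103 (cons (mv 910 (cons (fin 846 7 846)
(fin 1167 7 910)))
(mv 848 (cons (fin 912 6 847)
(mv 1102 (cons (fin 1166 5 910)
(mv 1101 (cons (fin 1100 2 1036)
(mv 1104 (cons (fin 1036 3 1036)
(fin 1168 4 911))))))))))))
(cons (mv 912 (cons (mv 913 (cons (fin 910 1 909)
(fin 914 1 910)))
(mv 848 (cons (fin 1103 6 847)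
(mv 784 (cons (fin 720 5 719)
(fin 847 6 783)))))))
(cons (mv 847 (cons (fin 1104 4 847)
(mv 782 (cons (fin 846 7 782)
(mv 783 (cons (fin 718 7 718)
(mv 784 (cons (fin 720 6 719)
(fin 848 6 783)))))))))
(mv 847 (cons (fin 1104 4 847)
(mv 782 (cons (fin 846 7 782)
(mv 783 (cons (fin 718 7 718)
(mv 719 (cons (fin 910 5 718)
(mv 720 (cons (fin 656 6 655)
(fin 784 6 719)))))))))))))))))
(mv 972 (cons (fin 974 0 972)
(mv 1104 (cons (cons (mv 911 (cons (fin 847 4 847)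
(mv 1168 (cons (fin 976 7 911)
(fin 1232 7 975)))))
(mv 911 (cons (fin 847 4 847)
(mv 1103 (cons (cons (mv 846 (cons (fin 910 7 846)
(mv 848 (cons (fin 912 6 847)
(mv 1102 (cons (fin 1166 5 910)
(mv 1101 (cons (fin 1100 2 1036)
(mv 1165 (cons (fin 1164 1 1100)
(fin 908 7 908)))))))))))
(mv 846 (cons (fin 910 7 846)
(mv 1102 (cons (fin 1166 5 910)
(mv 1101 (cons (fin 1100 2 1036)
(mv 1165 (cons (fin 1164 1 1100)
(fin 908 7 908))))))))))
(cons (mv 846 (cons (fin 910 7 846)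
(mv 912 (cons (fin 848 6 847)
(mv 976 (cons (fin 1167 5 911)
(mv 913 (cons (fin 849 6 848)
(mv 914 (cons (fin 915 1 911)
(mv 850 (cons (fin 851 2 847)
(mv 978 (cons (fin 979 0 911)
(mv 1105 (cons (fin 1169 4 912)
(mv 1106 (cons (fin 1107 3 1039)
(mv 1042 (cons (fin 1043 2 1039)
(mv 1170 (cons (fin 1171 0 1103)
(fin 977 7 913)))))))))))))))))))))))
(mv 848 (cons (fin 912 6 847)
(mv 1102 (cons (fin 1166 5 910)
(mv 1101 (cons (fin 1100 2 1036)
(mv 1165 (cons (fin 1164 1 1100)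
(fin 908 7 908)))))))))))))))
(cons (mv 1168 (cons (fin 1232 7 975)
(mv 976 (cons (cons (mv 913 (cons (fin 977 6 912)
(mv 912 (cons (fin 849 6 848)
(mv 848 (cons (fin 784 5 783)
(fin 1103 5 847)))))))
(mv 1167 (cons (fin 1231 5 975)
(mv 912 (cons (fin 1103 5 911)
(mv 1169 (cons (fin 1105 4 912)
(fin 1233 4 976))))))))
(cons (mv 977 (cons (fin 913 6 912)
(mv 978 (cons (fin 979 1 975)
(mv 914 (cons (fin 915 2 911)
(mv 1042 (cons (fin 1043 0 975)
(mv 1167 (cons (fin 1231 5 975)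
(mv 1169 (cons (fin 1233 4 976)
(mv 1105 (cons (fin 1106 5 913)
(mv 1166 (cons (fin 1165 2 1101)
(mv 1230 (cons (fin 1229 1 1165)
(fin 1103 5 974)))))))))))))))))))
(mv 913 (cons (fin 977 6 912)
(mv 912 (cons (fin 849 6 848)
(mv 1169 (cons (fin 1105 4 912)
(fin 1233 4 976))))))))))))
(mv 911 (cons (fin 847 4 847)
(mv 1168 (cons (fin 1232 7 975)
(fin 1103 4 911))))))))))))
(cons (cons (mv 974 (cons (fin 972 0 972)
(mv 976 (cons (fin 1036 1 972)
(mv 912 (cons (fin 913 2 909)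
(mv 848 (cons (fin 784 5 783)
(mv 785 (cons (fin 849 6 784)
(mv 847 (cons (fin 783 7 783)
(mv 1104 (cons (fin 911 7 847)
(mv 1168 (cons (fin 1232 7 975)
(mv 1169 (cons (fin 1105 4 912)
(fin 1233 4 976)))))))))))))))))))
(mv 974 (cons (fin 972 0 972)
(mv 976 (cons (fin 1036 1 972)
(mv 911 (cons (mv 847 (cons (fin 783 4 783)
(fin 1104 4 847)))
(cons (mv 847 (cons (fin 783 4 783)
(mv 784 (cons (fin 848 6 783)
(mv 846 (cons (fin 782 7 782)
(mv 1103 (cons (fin 910 7 846)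
(mv 1166 (cons (fin 1102 5 910)
(mv 1167 (cons (fin 1230 5 974)
(fin 1231 6 975)))))))))))))
(mv 1104 (cons (fin 1168 7 911)
(mv 1103 (cons (mv 910 (cons (fin 846 7 846)
(fin 1167 7 910)))
(cons (mv 1166 (cons (fin 1102 5 910)
(mv 1167 (cons (fin 1230 5 974)
(fin 1231 6 975)))))
(mv 910 (cons (fin 846 7 846)
(mv 977 (cons (fin 978 3 910)
(mv 913 (cons (fin 914 2 910)
(mv 785 (cons (fin 849 5 784)
(mv 1101 (cons (fin 1165 6 909)
(mv 1102 (cons (fin 1100 2 1036)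
(fin 1166 5 910))))))))))))))))))))))))))
(cons (mv 974 (cons (fin 972 0 972)
(mv 976 (cons (fin 1036 1 972)
(mv 913 (cons (fin 912 2 909)
(mv 977 (cons (fin 914 2 910)
(mv 785 (cons (fin 849 5 784)
(mv 978 (cons (fin 979 1 975)
(mv 911 (cons (fin 910 3 910)
(mv 847 (cons (fin 783 4 783)
(fin 1104 4 847)))))))))))))))))
(mv 972 (cons (fin 974 0 972)
(mv 911 (cons (cons (mv 847 (cons (fin 1104 4 847)
(mv 782 (cons (fin 846 7 782)
(mv 783 (cons (fin 718 7 718)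
(fin 976 4 783)))))))
(mv 1103 (cons (cons (mv 846 (cons (fin 910 7 846)
(mv 848 (cons (fin 912 6 847)
(mv 1102 (cons (fin 1166 5 910)
(mv 1101 (cons (fin 1100 2 1036)
(mv 1104 (cons (fin 1036 3 1036)
(fin 1168 4 911)))))))))))
(cons (mv 846 (cons (fin 910 7 846)
(mv 848 (cons (fin 912 6 847)
(mv 1102 (cons (fin 1166 5 910)
(mv 1101 (cons (fin 1100 2 1036)
(mv 908 (cons (fin 1165 7 908)
(mv 844 (cons (fin 780 4 780)
(fin 1036 4 844)))))))))))))
(mv 846 (cons (fin 910 7 846)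
(mv 1102 (cons (fin 1166 5 910)
(mv 1101 (cons (fin 1100 2 1036)
(mv 1104 (cons (fin 1036 3 1036)
(fin 1168 4 911)))))))))))
(cons (mv 846 (cons (fin 910 7 846)
(mv 848 (cons (fin 912 6 847)
(mv 1168 (cons (fin 1104 4 911)
(mv 1167 (cons (fin 1232 4 975)
(mv 1230 (cons (fin 1166 5 974)
(mv 1231 (cons (fin 1294 5 1038)
(fin 976 6 975)))))))))))))
(cons (mv 846 (cons (fin 910 7 846)
(mv 912 (cons (fin 848 6 847)
(mv 1167 (cons (fin 976 6 911)
(mv 1168 (cons (fin 1104 4 911)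
(fin 1232 4 975)))))))))
(mv 848 (cons (fin 912 6 847)
(mv 1102 (cons (fin 1166 5 910)
(mv 1101 (cons (fin 1100 2 1036)
(mv 1104 (cons (fin 1036 3 1036)
(fin 1168 4 911))))))))))))))
(cons (mv 1103 (cons (cons (mv 846 (cons (fin 910 7 846)
(mv 782 (cons (fin 847 7 782)
(mv 848 (cons (fin 912 6 847)
(mv 1102 (cons (fin 1166 5 910)
(mv 1101 (cons (fin 1100 2 1036)
(mv 908 (cons (fin 1165 7 908)
(mv 844 (cons (fin 780 4 780)
(fin 1036 4 844)))))))))))))))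
(mv 846 (cons (fin 910 7 846)
(mv 782 (cons (fin 847 7 782)
(mv 1102 (cons (fin 1166 5 910)
(mv 1101 (cons (fin 1100 2 1036)
(mv 908 (cons (fin 1165 7 908)
(mv 844 (cons (fin 780 4 780)
(fin 1036 4 844))))))))))))))
(cons (mv 846 (cons (fin 910 7 846)
(mv 847 (cons (fin 782 7 782)
(mv 848 (cons (fin 784 6 783)
(fin 912 6 847)))))))
(cons (mv 848 (cons (fin 912 6 847)
(mv 784 (cons (fin 847 6 783)
(mv 1102 (cons (fin 1166 5 910)
(mv 1101 (cons (fin 1100 2 1036)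
(mv 908 (cons (fin 1165 7 908)
(mv 844 (cons (fin 780 4 780)
(fin 1036 4 844)))))))))))))
(mv 846 (cons (fin 910 7 846)
(mv 848 (cons (fin 912 6 847)
(mv 1102 (cons (fin 1166 5 910)
(mv 1101 (cons (fin 1100 2 1036)
(mv 908 (cons (fin 1165 7 908)
(mv 844 (cons (fin 780 4 780)
(fin 1036 4 844)))))))))))))))))
(mv 847 (cons (fin 1104 4 847)
(mv 783 (cons (fin 976 4 783)
(mv 784 (cons (fin 720 6 719)
(fin 848 6 783)))))))))))))))))
(cons (mv 1038 (cons (cons (mv 976 (cons (fin 977 2 973)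
(mv 975 (cons (fin 1036 2 972)
(mv 1100 (cons (fin 1101 1 1036)
(mv 1104 (cons (fin 1105 0 1037)
(mv 911 (cons (fin 1168 7 911)
(fin 847 4 847)))))))))))
(cons (mv 1100 (cons (fin 1101 1 1036)
(mv 1104 (cons (fin 1105 0 1037)
(mv 1103 (cons (fin 1036 0 1036)
(mv 975 (cons (mv 911 (cons (fin 847 4 847)
(fin 1168 4 911)))
(cons (mv 1168 (cons (fin 1232 7 975)
(mv 1167 (cons (mv 974 (cons (fin 910 7 910)
(fin 1231 7 974)))
(cons (mv 974 (cons (fin 910 7 910)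
(mv 1166 (cons (fin 1230 5 974)
(mv 1165 (cons (fin 1164 2 1100)
(mv 1229 (cons (fin 1228 1 1164)
(fin 1102 5 973)))))))))
(mv 1230 (cons (fin 1166 5 974)
(mv 1231 (cons (fin 1294 5 1038)
(fin 1295 6 1039))))))))))
(mv 911 (cons (fin 847 4 847)
(mv 846 (cons (fin 910 7 846)
(mv 848 (cons (fin 912 6 847)
(mv 1166 (cons (fin 1102 5 910)
(mv 1167 (cons (fin 1230 5 974)
(mv 1231 (cons (fin 974 7 974)
(fin 1295 6 1039))))))))))))))))))))))
(mv 976 (cons (fin 977 2 973)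
(mv 975 (cons (fin 1036 2 972)
(mv 1100 (cons (fin 1101 1 1036)
(mv 912 (cons (mv 848 (cons (fin 784 5 783)
(fin 1103 5 847)))
(cons (mv 913 (cons (fin 974 2 909)
(mv 914 (cons (fin 915 1 911)
(mv 1103 (cons (fin 1167 6 911)
(mv 911 (cons (mv 846 (cons (fin 847 3 846)
(fin 910 7 846)))
(cons (mv 850 (cons (fin 851 2 847)
(mv 910 (cons (fin 849 2 846)
(fin 846 7 846)))))
(mv 847 (cons (fin 1102 5 846)
(fin 783 4 783))))))))))))
(mv 848 (cons (fin 784 5 783)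
(mv 785 (cons (fin 849 6 784)
(mv 847 (cons (fin 783 7 783)
(mv 911 (cons (fin 1102 5 846)
(mv 846 (cons (fin 782 7 782)
(mv 845 (cons (fin 844 0 844)
(fin 913 0 845))))))))))))))))))))))))
(cons (mv 976 (cons (fin 977 2 973)
(mv 975 (cons (fin 1036 2 972)
(mv 1104 (cons (fin 1105 0 1037)
(mv 911 (cons (fin 1168 7 911)
(fin 847 4 847)))))))))
(cons (mv 976 (cons (fin 977 2 973)
(mv 1100 (cons (fin 1101 1 1036)
(mv 1104 (cons (fin 1105 0 1037)
(mv 912 (cons (mv 1103 (cons (fin 848 5 847)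
(fin 1167 5 911)))
(cons (mv 847 (cons (fin 911 7 847)
(mv 848 (cons (fin 783 7 783)
(mv 849 (cons (fin 785 6 784)
(fin 913 6 848)))))))
(mv 847 (cons (fin 911 7 847)
(mv 849 (cons (fin 913 6 848)
(mv 1167 (cons (fin 1103 5 911)
(mv 1168 (cons (fin 1231 5 975)
(mv 1232 (cons (fin 975 7 975)
(mv 1233 (cons (fin 1169 4 976)
(fin 1297 4 1040))))))))))))))))))))))
(mv 976 (cons (fin 977 2 973)
(mv 1100 (cons (fin 1101 1 1036)
(mv 1104 (cons (fin 1105 0 1037)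
(mv 1103 (cons (fin 1036 0 1036)
(mv 912 (cons (fin 848 5 847)
(fin 1167 5 911)))))))))))))))
(mv 1038 (cons (fin 972 3 972)
(mv 1100 (cons (fin 1101 1 1036)
(mv 1104 (cons (fin 1105 0 1037)
(mv 1103 (cons (fin 1036 0 1036)
(mv 975 (cons (mv 911 (cons (fin 847 4 847)
(fin 1168 4 911)))
(cons (mv 1168 (cons (fin 1232 7 975)
(mv 1167 (cons (mv 974 (cons (fin 910 7 910)
(fin 1231 7 974)))
(cons (mv 974 (cons (fin 910 7 910)
(mv 1166 (cons (fin 1230 5 974)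
(mv 1165 (cons (fin 1164 2 1100)
(mv 1229 (cons (fin 1228 1 1164)
(fin 1102 5 973)))))))))
(mv 1230 (cons (fin 1166 5 974)
(mv 1231 (cons (fin 1294 5 1038)
(fin 1295 6 1039))))))))))
(mv 911 (cons (fin 847 4 847)
(mv 846 (cons (fin 910 7 846)
(mv 848 (cons (fin 912 6 847)
(mv 1166 (cons (fin 1102 5 910)
(mv 1167 (cons (fin 1230 5 974)
(mv 1231 (cons (fin 974 7 974)
(fin 1295 6 1039))))))))))))))))))))))))))
(cons (cons (mv 1038 (cons (fin 972 3 972)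
(mv 976 (cons (fin 977 2 973)
(mv 975 (cons (fin 1036 2 972)
(mv 1104 (cons (fin 1105 0 1037)
(mv 911 (cons (fin 1168 7 911)
(fin 847 4 847)))))))))))
(mv 1038 (cons (fin 972 3 972)
(mv 976 (cons (fin 977 2 973)
(mv 1100 (cons (fin 1101 1 1036)
(mv 1104 (cons (fin 1105 0 1037)
(mv 1103 (cons (fin 1036 0 1036)
(mv 912 (cons (fin 848 5 847)
(fin 1167 5 911))))))))))))))
(cons (mv 1038 (cons (fin 972 3 972)
(mv 976 (cons (fin 977 2 973)
(mv 975 (cons (fin 1036 2 972)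
(mv 1100 (cons (fin 1101 1 1036)
(mv 912 (cons (mv 848 (cons (fin 784 5 783)
(fin 1103 5 847)))
(cons (mv 913 (cons (fin 974 2 909)
(mv 914 (cons (fin 915 1 911)
(mv 1103 (cons (fin 1167 6 911)
(mv 911 (cons (mv 846 (cons (fin 847 3 846)
(fin 910 7 846)))
(cons (mv 850 (cons (fin 851 2 847)
(mv 910 (cons (fin 849 2 846)
(fin 846 7 846)))))
(mv 847 (cons (fin 1102 5 846)
(fin 783 4 783))))))))))))
(mv 848 (cons (fin 784 5 783)
(mv 785 (cons (fin 849 6 784)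
(mv 847 (cons (fin 783 7 783)
(mv 911 (cons (fin 1102 5 846)
(mv 846 (cons (fin 782 7 782)
(mv 845 (cons (fin 844 0 844)
(fin 913 0 845))))))))))))))))))))))))
(mv 972 (cons (fin 1038 3 972)
(mv 975 (cons (fin 974 0 972)
(mv 1104 (cons (cons (mv 911 (cons (fin 847 4 847)
(mv 1168 (cons (fin 976 7 911)
(fin 1232 7 975)))))
(mv 911 (cons (fin 847 4 847)
(mv 1103 (cons (cons (mv 846 (cons (fin 910 7 846)
(mv 848 (cons (fin 912 6 847)
(mv 1102 (cons (fin 1166 5 910)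
(mv 1101 (cons (fin 1100 2 1036)
(mv 1165 (cons (fin 1164 1 1100)
(fin 908 7 908)))))))))))
(mv 846 (cons (fin 910 7 846)
(mv 1102 (cons (fin 1166 5 910)
(mv 1101 (cons (fin 1100 2 1036)
(mv 1165 (cons (fin 1164 1 1100)
(fin 908 7 908))))))))))
(cons (mv 846 (cons (fin 910 7 846)
(mv 912 (cons (fin 848 6 847)
(mv 976 (cons (fin 1167 5 911)
(mv 913 (cons (fin 849 6 848)
(mv 914 (cons (fin 915 1 911)
(mv 850 (cons (fin 851 2 847)
(mv 978 (cons (fin 979 0 911)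
(mv 1105 (cons (fin 1169 4 912)
(mv 1106 (cons (fin 1107 3 1039)
(mv 1042 (cons (fin 1043 2 1039)
(mv 1170 (cons (fin 1171 0 1103)
(fin 977 7 913)))))))))))))))))))))))
(mv 848 (cons (fin 912 6 847)
(mv 1102 (cons (fin 1166 5 910)
(mv 1101 (cons (fin 1100 2 1036)
(mv 1165 (cons (fin 1164 1 1100)
(fin 908 7 908)))))))))))))))
(cons (mv 1168 (cons (fin 1232 7 975)
(mv 976 (cons (cons (mv 913 (cons (fin 977 6 912)
(mv 912 (cons (fin 849 6 848)
(mv 848 (cons (fin 784 5 783)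
(fin 1103 5 847)))))))
(mv 1167 (cons (fin 1231 5 975)
(mv 912 (cons (fin 1103 5 911)
(mv 1169 (cons (fin 1105 4 912)
(fin 1233 4 976))))))))
(cons (mv 977 (cons (fin 913 6 912)
(mv 978 (cons (fin 979 1 975)
(mv 914 (cons (fin 915 2 911)
(mv 1042 (cons (fin 1043 0 975)
(mv 1167 (cons (fin 1231 5 975)
(mv 1169 (cons (fin 1233 4 976)
(mv 1105 (cons (fin 1106 5 913)
(mv 1166 (cons (fin 1165 2 1101)
(mv 1230 (cons (fin 1229 1 1165)
(fin 1103 5 974)))))))))))))))))))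
(mv 913 (cons (fin 977 6 912)
(mv 912 (cons (fin 849 6 848)
(mv 1169 (cons (fin 1105 4 912)
(fin 1233 4 976))))))))))))
(mv 911 (cons (fin 847 4 847)
(mv 1168 (cons (fin 1232 7 975)
(fin 1103 4 911))))))))))))))))
(mv 1038 (cons (cons (mv 1039 (cons (fin 972 3 972)
(mv 976 (cons (fin 977 2 973)
(mv 975 (cons (fin 1036 2 972)
(mv 1100 (cons (fin 1101 1 1036)
(mv 1104 (cons (fin 1105 0 1037)
(mv 911 (cons (fin 1168 7 911)
(fin 847 4 847)))))))))))))
(cons (mv 909 (cons (cons (mv 845 (cons (fin 1102 4 845)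
(mv 780 (cons (fin 844 7 780)
(mv 716 (cons (fin 781 7 716)
(mv 846 (cons (fin 782 6 781)
(mv 1100 (cons (fin 1036 5 844)
(mv 1101 (cons (fin 1164 5 908)
(fin 910 6 845)))))))))))))
(cons (mv 1101 (cons (cons (mv 844 (cons (fin 908 7 844)
(mv 846 (cons (fin 910 6 845)
(mv 1102 (cons (fin 1166 4 909)
(mv 1164 (cons (fin 1100 5 908)
(mv 1165 (cons (fin 1228 5 972)
(mv 1103 (cons (fin 1104 1 1100)
(mv 1036 (cons (fin 1035 0 1035)
(mv 1229 (cons (fin 972 7 972)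
(fin 1293 6 1037)))))))))))))))))
(cons (mv 846 (cons (fin 910 6 845)
(mv 908 (cons (fin 844 7 844)
(mv 1164 (cons (fin 1100 5 908)
(mv 1165 (cons (fin 972 7 908)
(fin 1228 5 972)))))))))
(mv 846 (cons (fin 910 6 845)
(mv 1102 (cons (fin 1166 4 909)
(mv 1164 (cons (fin 1100 5 908)
(mv 1165 (cons (fin 1228 5 972)
(mv 1103 (cons (fin 1104 1 1100)
(mv 1036 (cons (fin 1035 0 1035)
(mv 1229 (cons (fin 972 7 972)
(fin 1293 6 1037)))))))))))))))))
(cons (cons (mv 846 (cons (fin 910 6 845)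
(mv 908 (cons (fin 844 7 844)
(mv 1165 (cons (fin 972 7 908)
(mv 1166 (cons (fin 1102 4 909)
(fin 1230 4 973)))))))))
(mv 844 (cons (fin 908 7 844)
(mv 1102 (cons (fin 1166 4 909)
(mv 1164 (cons (fin 1100 5 908)
(mv 1165 (cons (fin 1228 5 972)
(mv 1103 (cons (fin 1104 1 1100)
(mv 1036 (cons (fin 1035 0 1035)
(mv 1229 (cons (fin 972 7 972)
(fin 1293 6 1037))))))))))))))))
(cons (mv 908 (cons (fin 844 7 844)
(mv 910 (cons (fin 846 6 845)
(mv 1100 (cons (fin 1164 5 908)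
(mv 1102 (cons (fin 1166 4 909)
(mv 907 (cons (cons (mv 842 (cons (fin 843 3 842)
(mv 841 (cons (fin 906 3 841)
(mv 971 (cons (fin 970 1 906)
(mv 911 (cons (fin 972 1 907)
(mv 847 (cons (fin 848 2 844)
(mv 976 (cons (fin 975 0 908)
(mv 912 (cons (fin 977 0 909)
(fin 1104 7 847)))))))))))))))
(cons (mv 842 (cons (fin 843 3 842)
(mv 906 (cons (fin 841 3 841)
(mv 905 (cons (fin 972 0 905)
(mv 969 (cons (fin 968 1 904)
(fin 970 1 905)))))))))
(mv 842 (cons (fin 843 3 842)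
(mv 906 (cons (fin 841 3 841)
(mv 972 (cons (fin 905 0 905)
(mv 911 (cons (fin 971 1 907)
(fin 912 1 908)))))))))))
(cons (cons (mv 970 (cons (fin 971 1 906)
(mv 906 (cons (fin 969 1 905)
(mv 841 (cons (fin 842 3 841)
(mv 905 (cons (fin 840 3 840)
(fin 972 0 905)))))))))
(mv 970 (cons (fin 971 1 906)
(mv 906 (cons (fin 969 1 905)
(mv 972 (cons (fin 905 0 905)
(mv 911 (cons (fin 912 1 908)
(mv 847 (cons (fin 848 2 844)
(mv 975 (cons (fin 976 0 908)
(mv 1036 (cons (fin 843 7 843)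
(mv 1035 (cons (fin 1103 3 1035)
(fin 1034 0 1034))))))))))))))))))
(cons (mv 842 (cons (fin 843 3 842)
(mv 906 (cons (fin 841 3 841)
(mv 970 (cons (fin 969 1 905)
(fin 971 1 906)))))))
(mv 842 (cons (fin 843 3 842)
(mv 971 (cons (fin 970 1 906)
(mv 911 (cons (fin 972 1 907)
(mv 847 (cons (fin 848 2 844)
(mv 976 (cons (fin 975 0 908)
(mv 912 (cons (fin 977 0 909)
(fin 1104 7 847)))))))))))))))))))))))))
(mv 844 (cons (fin 908 7 844)
(mv 846 (cons (fin 910 6 845)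
(mv 1164 (cons (fin 1100 5 908)
(mv 1165 (cons (fin 1228 5 972)
(mv 1166 (cons (fin 1102 4 909)
(fin 1230 4 973)))))))))))))))
(mv 845 (cons (cons (mv 780 (cons (fin 844 7 780)
(mv 716 (cons (fin 781 7 716)
(mv 846 (cons (fin 782 6 781)
(mv 1100 (cons (fin 1036 5 844)
(mv 1101 (cons (fin 1164 5 908)
(fin 910 6 845)))))))))))
(mv 782 (cons (fin 846 6 781)
(mv 781 (cons (fin 718 6 717)
(mv 1036 (cons (fin 972 5 780)
(fin 1100 5 844))))))))
(cons (mv 780 (cons (fin 844 7 780)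
(mv 781 (cons (fin 716 7 716)
(mv 1036 (cons (fin 972 5 780)
(fin 1100 5 844)))))))
(cons (mv 780 (cons (fin 844 7 780)
(mv 781 (cons (fin 716 7 716)
(mv 782 (cons (fin 718 6 717)
(fin 846 6 781)))))))
(mv 780 (cons (fin 844 7 780)
(mv 846 (cons (fin 782 6 781)
(mv 1100 (cons (fin 1036 5 844)
(mv 1101 (cons (fin 1164 5 908)
(fin 910 6 845)))))))))))))))
(cons (mv 845 (cons (fin 1102 4 845)
(mv 780 (cons (fin 844 7 780)
(mv 781 (cons (fin 716 7 716)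
(mv 782 (cons (fin 718 6 717)
(fin 846 6 781)))))))))
(cons (mv 845 (cons (fin 1102 4 845)
(mv 782 (cons (fin 846 6 781)
(mv 781 (cons (fin 718 6 717)
(mv 1036 (cons (fin 972 5 780)
(fin 1100 5 844)))))))))
(mv 845 (cons (fin 1102 4 845)
(mv 780 (cons (fin 844 7 780)
(mv 781 (cons (fin 716 7 716)
(mv 1036 (cons (fin 972 5 780)
(fin 1100 5 844)))))))))))))
(mv 1039 (cons (cons (mv 976 (cons (fin 977 2 973)
(mv 975 (cons (fin 1036 2 972)
(mv 1100 (cons (fin 1101 1 1036)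
(mv 1104 (cons (fin 1105 0 1037)
(mv 911 (cons (fin 1168 7 911)
(fin 847 4 847)))))))))))
(cons (mv 976 (cons (fin 977 2 973)
(mv 975 (cons (fin 1036 2 972)
(mv 1100 (cons (fin 1101 1 1036)
(mv 1103 (cons (mv 912 (cons (fin 848 5 847)
(fin 1167 6 911)))
(cons (mv 848 (cons (fin 912 5 847)
(mv 911 (cons (mv 847 (cons (fin 1102 5 846)
(fin 784 6 783)))
(cons (mv 910 (cons (fin 846 7 846)
(mv 909 (cons (fin 908 0 908)
(mv 1102 (cons (fin 1166 5 910)
(fin 845 4 845)))))))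
(mv 847 (cons (fin 784 6 783)
(fin 783 4 783))))))))
(mv 1167 (cons (fin 1231 6 975)
(mv 1166 (cons (fin 1230 5 974)
(mv 911 (cons (fin 1102 5 910)
(mv 846 (cons (fin 910 7 846)
(mv 847 (cons (fin 782 7 782)
(fin 783 4 783))))))))))))))))))))
(mv 1101 (cons (fin 1100 1 1036)
(mv 1104 (cons (fin 1105 0 1037)
(mv 1036 (cons (fin 1103 0 1036)
(mv 909 (cons (mv 1102 (cons (fin 845 4 845)
(fin 1166 4 909)))
(cons (mv 844 (cons (fin 908 7 844)
(mv 845 (cons (fin 780 7 780)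
(mv 846 (cons (fin 782 6 781)
(fin 910 6 845)))))))
(mv 844 (cons (fin 908 7 844)
(mv 846 (cons (fin 910 6 845)
(mv 1166 (cons (fin 1102 4 909)
(mv 1165 (cons (fin 1230 4 973)
(mv 1228 (cons (fin 1164 5 972)
(mv 1229 (cons (fin 1292 5 1036)
(mv 1168 (cons (fin 1167 1 1164)
(mv 1232 (cons (fin 975 7 975)
(mv 1295 (cons (fin 1231 5 1039)
(mv 1296 (cons (fin 1359 5 1103)
(mv 1297 (cons (fin 1233 4 1040)
(fin 1361 4 1104))))))))))))))))))))))))))))))))))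
(cons (mv 976 (cons (fin 977 2 973)
(mv 975 (cons (fin 1036 2 972)
(mv 1104 (cons (fin 1105 0 1037)
(mv 911 (cons (fin 1168 7 911)
(fin 847 4 847)))))))))
(cons (mv 976 (cons (fin 977 2 973)
(mv 1100 (cons (fin 1101 1 1036)
(mv 1104 (cons (fin 1105 0 1037)
(mv 1168 (cons (mv 975 (cons (fin 911 7 911)
(fin 1232 7 975)))
(cons (mv 1167 (cons (fin 1231 5 975)
(mv 912 (cons (fin 1103 5 911)
(mv 847 (cons (fin 911 7 847)
(mv 848 (cons (fin 783 7 783)
(mv 849 (cons (fin 785 6 784)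
(fin 913 6 848)))))))))))
(mv 975 (cons (fin 1232 7 975)
(mv 1167 (cons (fin 1231 5 975)
(mv 912 (cons (fin 1103 5 911)
(mv 848 (cons (fin 784 5 783)
(mv 849 (cons (fin 785 6 784)
(fin 913 6 848))))))))))))))))))))
(mv 976 (cons (fin 977 2 973)
(mv 1100 (cons (fin 1101 1 1036)
(mv 1104 (cons (fin 1105 0 1037)
(mv 1103 (cons (fin 1036 0 1036)
(mv 912 (cons (fin 848 5 847)
(fin 1167 5 911)))))))))))))))))
(cons (cons (mv 1039 (cons (fin 972 3 972)
(mv 976 (cons (fin 977 2 973)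
(mv 975 (cons (fin 1036 2 972)
(mv 1104 (cons (fin 1105 0 1037)
(mv 911 (cons (fin 1168 7 911)
(fin 847 4 847)))))))))))
(mv 972 (cons (fin 1039 3 972)
(mv 970 (cons (fin 971 0 970)
(mv 908 (cons (cons (mv 844 (cons (fin 780 4 780)
(mv 1101 (cons (fin 909 7 844)
(fin 1165 7 908)))))
(mv 844 (cons (fin 780 4 780)
(mv 1036 (cons (cons (mv 779 (cons (fin 843 7 779)
(mv 845 (cons (fin 781 6 780)
(mv 909 (cons (fin 1100 5 844)
(fin 1102 4 845)))))))
(mv 843 (cons (fin 779 7 779)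
(mv 907 (cons (fin 1100 7 843)
(mv 906 (cons (fin 905 0 905)
(mv 909 (cons (fin 969 1 905)
(mv 842 (cons (fin 841 3 841)
(fin 910 3 842))))))))))))
(cons (mv 845 (cons (fin 781 6 780)
(mv 909 (cons (fin 1100 5 844)
(fin 1102 4 845)))))
(cons (mv 781 (cons (fin 845 6 780)
(mv 843 (cons (fin 779 7 779)
(mv 907 (cons (fin 1100 7 843)
(mv 906 (cons (fin 905 0 905)
(mv 1034 (cons (fin 1098 6 842)
(mv 1035 (cons (fin 969 3 969)
(fin 1033 2 969)))))))))))))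
(mv 779 (cons (fin 843 7 779)
(mv 845 (cons (fin 781 6 780)
(mv 909 (cons (fin 1102 4 845)
(mv 846 (cons (fin 782 6 781)
(mv 847 (cons (fin 907 1 843)
(fin 848 1 844))))))))))))))))))
(cons (mv 1101 (cons (fin 1165 7 908)
(mv 909 (cons (mv 1102 (cons (fin 845 4 845)
(fin 1166 4 909)))
(cons (mv 846 (cons (fin 910 6 845)
(mv 845 (cons (fin 782 6 781)
(mv 781 (cons (fin 717 5 716)
(fin 1036 5 780)))))))
(mv 846 (cons (fin 910 6 845)
(mv 1100 (cons (fin 1164 5 908)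
(mv 1102 (cons (fin 1166 4 909)
(mv 1036 (cons (mv 1035 (cons (fin 1103 3 1035)
(fin 1034 0 1034)))
(mv 907 (cons (fin 843 7 843)
(mv 906 (cons (fin 969 1 905)
(fin 905 0 905))))))))))))))))))
(mv 844 (cons (fin 780 4 780)
(mv 1101 (cons (fin 1165 7 908)
(fin 1036 4 844)))))))))))))
(cons (mv 1039 (cons (fin 972 3 972)
(mv 976 (cons (fin 977 2 973)
(mv 1100 (cons (fin 1101 1 1036)
(mv 1104 (cons (fin 1105 0 1037)
(mv 1168 (cons (mv 975 (cons (fin 911 7 911)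
(fin 1232 7 975)))
(cons (mv 1167 (cons (fin 1231 5 975)
(mv 912 (cons (fin 1103 5 911)
(mv 847 (cons (fin 911 7 847)
(mv 848 (cons (fin 783 7 783)
(mv 849 (cons (fin 785 6 784)
(fin 913 6 848)))))))))))
(mv 975 (cons (fin 1232 7 975)
(mv 1167 (cons (fin 1231 5 975)
(mv 912 (cons (fin 1103 5 911)
(mv 848 (cons (fin 784 5 783)
(mv 849 (cons (fin 785 6 784)
(fin 913 6 848))))))))))))))))))))))
(mv 1039 (cons (fin 972 3 972)
(mv 976 (cons (fin 977 2 973)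
(mv 975 (cons (fin 1036 2 972)
(mv 1100 (cons (fin 1101 1 1036)
(mv 1104 (cons (fin 1105 0 1037)
(mv 1168 (cons (fin 911 7 911)
(fin 1232 7 975))))))))))))))))))
(cons (mv 1038 (cons (cons (mv 1039 (cons (fin 972 3 972)
(mv 976 (cons (fin 977 2 973)
(mv 1100 (cons (fin 1101 1 1036)
(mv 1104 (cons (fin 1105 0 1037)
(mv 912 (cons (mv 1103 (cons (fin 848 5 847)
(fin 1167 5 911)))
(cons (mv 847 (cons (fin 911 7 847)
(mv 848 (cons (fin 783 7 783)
(mv 849 (cons (fin 785 6 784)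
(fin 913 6 848)))))))
(mv 847 (cons (fin 911 7 847)
(mv 849 (cons (fin 913 6 848)
(mv 1167 (cons (fin 1103 5 911)
(mv 1168 (cons (fin 1231 5 975)
(mv 1232 (cons (fin 975 7 975)
(mv 1233 (cons (fin 1169 4 976)
(fin 1297 4 1040))))))))))))))))))))))))
(cons (mv 1102 (cons (cons (mv 909 (cons (fin 845 4 845)
(mv 1166 (cons (fin 974 7 909)
(fin 1230 7 973)))))
(mv 1166 (cons (fin 1230 7 973)
(mv 974 (cons (cons (mv 911 (cons (fin 975 6 910)
(mv 910 (cons (fin 847 6 846)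
(mv 846 (cons (fin 782 5 781)
(fin 1101 5 845)))))))
(mv 1165 (cons (fin 1229 5 973)
(mv 910 (cons (fin 1101 5 909)
(mv 1167 (cons (fin 1103 4 910)
(fin 1231 4 974))))))))
(cons (mv 975 (cons (fin 911 6 910)
(mv 976 (cons (fin 977 1 973)
(mv 912 (cons (fin 913 2 909)
(mv 1165 (cons (fin 1229 5 973)
(mv 1167 (cons (fin 1231 4 974)
(mv 1103 (cons (fin 1104 5 911)
(mv 1164 (cons (fin 1163 2 1099)
(mv 1228 (cons (fin 1227 1 1163)
(fin 1101 5 972)))))))))))))))))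
(mv 911 (cons (fin 975 6 910)
(mv 910 (cons (fin 847 6 846)
(mv 1167 (cons (fin 1103 4 910)
(fin 1231 4 974)))))))))))))
(cons (mv 909 (cons (fin 845 4 845)
(mv 1101 (cons (cons (mv 844 (cons (fin 908 7 844)
(mv 846 (cons (fin 910 6 845)
(mv 1164 (cons (fin 1100 5 908)
(mv 1165 (cons (fin 1228 5 972)
(mv 1229 (cons (fin 974 6 973)
(fin 1293 6 1037)))))))))))
(cons (mv 844 (cons (fin 908 7 844)
(mv 1164 (cons (fin 1100 5 908)
(mv 1165 (cons (fin 1228 5 972)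
(mv 1229 (cons (fin 974 6 973)
(fin 1293 6 1037)))))))))
(mv 846 (cons (fin 910 6 845)
(mv 1164 (cons (fin 1100 5 908)
(mv 1165 (cons (fin 1228 5 972)
(mv 1229 (cons (fin 974 6 973)
(fin 1293 6 1037)))))))))))
(cons (mv 844 (cons (fin 908 7 844)
(mv 910 (cons (fin 846 6 845)
(mv 974 (cons (fin 1165 5 909)
(mv 911 (cons (fin 847 6 846)
(mv 912 (cons (fin 972 1 908)
(fin 913 1 909)))))))))))
(cons (mv 908 (cons (fin 844 7 844)
(mv 910 (cons (fin 846 6 845)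
(mv 1100 (cons (fin 1164 5 908)
(mv 974 (cons (mv 907 (cons (fin 906 0 906)
(fin 975 0 907)))
(cons (mv 906 (cons (fin 907 0 906)
(mv 911 (cons (fin 847 6 846)
(mv 912 (cons (fin 972 1 908)
(fin 913 1 909)))))))
(mv 911 (cons (fin 847 6 846)
(mv 912 (cons (fin 972 1 908)
(fin 913 1 909))))))))))))))
(mv 846 (cons (fin 910 6 845)
(mv 908 (cons (fin 844 7 844)
(mv 1164 (cons (fin 1100 5 908)
(mv 1165 (cons (fin 972 7 908)
(fin 1228 5 972)))))))))))))))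
(mv 909 (cons (fin 845 4 845)
(mv 1166 (cons (fin 1230 7 973)
(fin 1101 4 909))))))))
(mv 1039 (cons (cons (mv 976 (cons (fin 977 2 973)
(mv 1100 (cons (fin 1101 1 1036)
(mv 1104 (cons (fin 1105 0 1037)
(mv 912 (cons (mv 1103 (cons (fin 848 5 847)
(fin 1167 5 911)))
(cons (mv 847 (cons (fin 911 7 847)
(mv 848 (cons (fin 783 7 783)
(mv 849 (cons (fin 785 6 784)
(fin 913 6 848)))))))
(mv 847 (cons (fin 911 7 847)
(mv 849 (cons (fin 913 6 848)
(mv 1167 (cons (fin 1103 5 911)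
(mv 1168 (cons (fin 1231 5 975)
(mv 1232 (cons (fin 975 7 975)
(mv 1233 (cons (fin 1169 4 976)
(fin 1297 4 1040))))))))))))))))))))))
(mv 976 (cons (fin 977 2 973)
(mv 1104 (cons (fin 1105 0 1037)
(mv 912 (cons (mv 1103 (cons (fin 848 5 847)
(fin 1167 5 911)))
(cons (mv 847 (cons (fin 911 7 847)
(mv 848 (cons (fin 783 7 783)
(mv 849 (cons (fin 785 6 784)
(fin 913 6 848)))))))
(mv 847 (cons (fin 911 7 847)
(mv 849 (cons (fin 913 6 848)
(mv 1167 (cons (fin 1103 5 911)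
(mv 1168 (cons (fin 1231 5 975)
(mv 1232 (cons (fin 975 7 975)
(mv 1233 (cons (fin 1169 4 976)
(fin 1297 4 1040)))))))))))))))))))))
(cons (mv 1101 (cons (fin 1100 1 1036)
(mv 1104 (cons (fin 1105 0 1037)
(mv 1165 (cons (mv 974 (cons (fin 910 6 909)
(fin 1229 6 973)))
(mv 1164 (cons (fin 1228 5 972)
(mv 1102 (cons (fin 1103 1 1100)
(mv 909 (cons (fin 845 4 845)
(fin 1166 4 909)))))))))))))
(cons (mv 976 (cons (fin 977 2 973)
(mv 1101 (cons (fin 1100 1 1036)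
(mv 909 (cons (cons (mv 1102 (cons (fin 845 4 845)
(fin 1166 4 909)))
(mv 844 (cons (fin 908 7 844)
(mv 780 (cons (fin 845 7 780)
(mv 910 (cons (fin 846 6 845)
(mv 1165 (cons (fin 974 6 909)
(mv 1166 (cons (fin 1230 4 973)
(mv 1228 (cons (fin 1164 5 972)
(mv 1229 (cons (fin 1292 5 1036)
(mv 1167 (cons (fin 1168 1 1164)
(mv 1103 (cons (fin 1231 6 975)
(mv 912 (cons (fin 848 5 847)
(fin 975 6 911))))))))))))))))))))))
(cons (mv 844 (cons (fin 908 7 844)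
(mv 846 (cons (fin 910 6 845)
(mv 1166 (cons (fin 1102 4 909)
(mv 1165 (cons (fin 1230 4 973)
(mv 1228 (cons (fin 1164 5 972)
(mv 1229 (cons (fin 1292 5 1036)
(fin 974 6 973)))))))))))))
(mv 844 (cons (fin 908 7 844)
(mv 845 (cons (fin 780 7 780)
(fin 1102 4 845))))))))))))
(mv 976 (cons (fin 977 2 973)
(mv 1100 (cons (fin 1101 1 1036)
(mv 1104 (cons (fin 1105 0 1037)
(mv 1168 (cons (mv 975 (cons (fin 911 7 911)
(fin 1232 7 975)))
(cons (mv 1167 (cons (fin 1231 5 975)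
(mv 1233 (cons (fin 1169 4 976)
(mv 1232 (cons (fin 1297 4 1040)
(mv 1166 (cons (fin 1165 0 1165)
(mv 1102 (cons (fin 1230 7 973)
(mv 909 (cons (fin 974 7 909)
(fin 845 4 845)))))))))))))
(mv 911 (cons (fin 975 7 911)
(mv 912 (cons (fin 847 7 847)
(mv 849 (cons (fin 913 6 848)
(mv 848 (cons (fin 785 6 784)
(mv 850 (cons (fin 851 1 847)
(mv 909 (cons (fin 910 2 845)
(mv 845 (cons (fin 1102 4 845)
(mv 780 (cons (fin 844 7 780)
(mv 781 (cons (fin 716 7 716)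
(fin 974 4 781))))))))))))))))))))))))))))))))))
(cons (cons (mv 1039 (cons (fin 972 3 972)
(mv 976 (cons (fin 977 2 973)
(mv 1104 (cons (fin 1105 0 1037)
(mv 912 (cons (mv 1103 (cons (fin 848 5 847)
(fin 1167 5 911)))
(cons (mv 847 (cons (fin 911 7 847)
(mv 848 (cons (fin 783 7 783)
(mv 849 (cons (fin 785 6 784)
(fin 913 6 848)))))))
(mv 847 (cons (fin 911 7 847)
(mv 849 (cons (fin 913 6 848)
(mv 1167 (cons (fin 1103 5 911)
(mv 1168 (cons (fin 1231 5 975)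
(mv 1232 (cons (fin 975 7 975)
(mv 1233 (cons (fin 1169 4 976)
(fin 1297 4 1040))))))))))))))))))))))
(mv 1039 (cons (fin 972 3 972)
(mv 1101 (cons (fin 1100 1 1036)
(mv 1104 (cons (fin 1105 0 1037)
(mv 1165 (cons (mv 974 (cons (fin 910 6 909)
(fin 1229 6 973)))
(mv 1164 (cons (fin 1228 5 972)
(mv 1102 (cons (fin 1103 1 1100)
(mv 909 (cons (fin 845 4 845)
(fin 1166 4 909))))))))))))))))
(cons (mv 972 (cons (fin 1039 3 972)
(mv 970 (cons (fin 971 0 970)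
(mv 1102 (cons (cons (mv 909 (cons (fin 845 4 845)
(mv 1166 (cons (fin 974 7 909)
(fin 1230 7 973)))))
(mv 1166 (cons (fin 1230 7 973)
(mv 974 (cons (cons (mv 911 (cons (fin 975 6 910)
(mv 847 (cons (fin 910 6 846)
(mv 1165 (cons (fin 1229 5 973)
(mv 1101 (cons (fin 908 7 908)
(mv 1164 (cons (fin 1228 5 972)
(mv 1163 (cons (fin 1162 2 1098)
(fin 1103 2 1099)))))))))))))
(mv 911 (cons (fin 975 6 910)
(mv 910 (cons (fin 847 6 846)
(mv 846 (cons (fin 782 5 781)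
(fin 1101 5 845))))))))
(cons (mv 1165 (cons (fin 1229 5 973)
(mv 1101 (cons (fin 908 7 908)
(fin 910 5 909)))))
(cons (mv 911 (cons (fin 975 6 910)
(mv 1165 (cons (fin 1229 5 973)
(mv 1101 (cons (fin 908 7 908)
(mv 1164 (cons (fin 1228 5 972)
(mv 1163 (cons (fin 1162 2 1098)
(fin 1103 2 1099)))))))))))
(mv 911 (cons (fin 975 6 910)
(mv 910 (cons (fin 847 6 846)
(mv 1167 (cons (fin 1103 4 910)
(fin 1231 4 974))))))))))))))
(cons (mv 909 (cons (fin 845 4 845)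
(mv 1101 (cons (mv 908 (cons (fin 844 7 844)
(fin 1165 7 908)))
(cons (mv 846 (cons (fin 910 6 845)
(mv 1164 (cons (fin 1100 5 908)
(mv 1165 (cons (fin 1228 5 972)
(mv 1229 (cons (fin 974 6 973)
(fin 1293 6 1037)))))))))
(mv 908 (cons (fin 844 7 844)
(mv 910 (cons (fin 846 6 845)
(mv 911 (cons (fin 912 1 908)
(mv 847 (cons (fin 848 2 844)
(fin 974 6 846))))))))))))))
(mv 909 (cons (fin 845 4 845)
(mv 1166 (cons (fin 1230 7 973)
(fin 1101 4 909))))))))))))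
(mv 1039 (cons (fin 972 3 972)
(mv 976 (cons (fin 977 2 973)
(mv 1100 (cons (fin 1101 1 1036)
(mv 1104 (cons (fin 1105 0 1037)
(mv 1168 (cons (mv 975 (cons (fin 911 7 911)
(fin 1232 7 975)))
(cons (mv 1167 (cons (fin 1231 5 975)
(mv 1233 (cons (fin 1169 4 976)
(mv 1232 (cons (fin 1297 4 1040)
(mv 1166 (cons (fin 1165 0 1165)
(mv 1102 (cons (fin 1230 7 973)
(mv 909 (cons (fin 974 7 909)
(fin 845 4 845)))))))))))))
(mv 911 (cons (fin 975 7 911)
(mv 912 (cons (fin 847 7 847)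
(mv 849 (cons (fin 913 6 848)
(mv 848 (cons (fin 785 6 784)
(mv 850 (cons (fin 851 1 847)
(mv 909 (cons (fin 910 2 845)
(mv 845 (cons (fin 1102 4 845)
(mv 780 (cons (fin 844 7 780)
(mv 781 (cons (fin 716 7 716)
(fin 974 4 781))))))))))))))))))))))))))))))))))
(cons (mv 1039 (cons (cons (mv 1038 (cons (fin 972 3 972)
(mv 976 (cons (fin 977 2 973)
(mv 975 (cons (fin 1036 2 972)
(mv 1100 (cons (fin 1101 1 1036)
(mv 1104 (cons (fin 1105 0 1037)
(mv 911 (cons (fin 1168 7 911)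
(fin 847 4 847)))))))))))))
(cons (mv 974 (cons (cons (mv 975 (cons (fin 972 0 972)
(mv 976 (cons (fin 1036 1 972)
(mv 908 (cons (fin 909 3 908)
(mv 912 (cons (fin 913 2 909)
(mv 848 (cons (fin 784 5 783)
(fin 1103 5 847)))))))))))
(cons (mv 1101 (cons (cons (mv 910 (cons (fin 1165 6 909)
(mv 846 (cons (fin 782 5 781)
(fin 909 6 845)))))
(mv 909 (cons (cons (mv 844 (cons (fin 908 7 844)
(mv 846 (cons (fin 910 6 845)
(mv 1100 (cons (fin 1164 5 908)
(mv 1102 (cons (fin 1103 2 1036)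
(fin 1166 4 909)))))))))
(mv 844 (cons (fin 908 7 844)
(mv 1100 (cons (fin 1164 5 908)
(mv 1102 (cons (fin 1103 2 1036)
(fin 1166 4 909))))))))
(cons (mv 846 (cons (fin 910 6 845)
(mv 1100 (cons (fin 1164 5 908)
(mv 1102 (cons (fin 1103 2 1036)
(fin 1166 4 909)))))))
(mv 908 (cons (fin 844 7 844)
(mv 907 (cons (fin 906 0 906)
(mv 910 (cons (fin 846 6 845)
(mv 842 (cons (fin 843 3 842)
(mv 971 (cons (fin 970 1 906)
(mv 911 (cons (fin 972 1 907)
(mv 847 (cons (fin 848 2 844)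
(mv 719 (cons (fin 783 5 718)
(mv 912 (cons (fin 913 1 909)
(mv 976 (cons (fin 977 0 909)
(fin 1104 7 847)))))))))))))))))))))))))
(cons (mv 1165 (cons (cons (mv 908 (cons (fin 972 7 908)
(mv 844 (cons (fin 909 7 844)
(mv 1228 (cons (fin 1164 5 972)
(mv 1229 (cons (fin 1292 5 1036)
(mv 1230 (cons (fin 1166 4 973)
(fin 1294 4 1037)))))))))))
(mv 908 (cons (fin 972 7 908)
(mv 909 (cons (fin 844 7 844)
(mv 1166 (cons (fin 1102 4 909)
(fin 1230 4 973))))))))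
(cons (mv 1164 (cons (fin 1228 5 972)
(mv 909 (cons (fin 1100 5 908)
(mv 1166 (cons (fin 1102 4 909)
(fin 1230 4 973)))))))
(cons (mv 908 (cons (fin 972 7 908)
(mv 909 (cons (fin 844 7 844)
(mv 1164 (cons (fin 1100 5 908)
(fin 1228 5 972)))))))
(mv 908 (cons (fin 972 7 908)
(mv 1228 (cons (fin 1164 5 972)
(mv 1229 (cons (fin 1292 5 1036)
(mv 1230 (cons (fin 1166 4 973)
(fin 1294 4 1037)))))))))))))
(mv 1165 (cons (fin 910 6 909)
(mv 908 (cons (fin 972 7 908)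
(mv 1228 (cons (fin 1164 5 972)
(mv 1229 (cons (fin 1292 5 1036)
(mv 1230 (cons (fin 1166 4 973)
(fin 1294 4 1037))))))))))))))
(mv 910 (cons (cons (mv 846 (cons (fin 782 5 781)
(mv 1101 (cons (fin 909 6 845)
(fin 1165 6 909)))))
(mv 1101 (cons (fin 1165 6 909)
(mv 909 (cons (mv 844 (cons (fin 908 7 844)
(mv 1100 (cons (fin 1164 5 908)
(mv 1102 (cons (fin 1103 2 1036)
(fin 1166 4 909)))))))
(cons (mv 1100 (cons (fin 1164 5 908)
(mv 1102 (cons (fin 1103 2 1036)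
(fin 1166 4 909)))))
(mv 908 (cons (fin 844 7 844)
(mv 907 (cons (fin 906 0 906)
(fin 975 0 907)))))))))))
(cons (mv 846 (cons (fin 782 5 781)
(mv 975 (cons (mv 1103 (cons (fin 911 7 846)
(fin 1167 7 910)))
(mv 976 (cons (fin 1036 1 972)
(mv 909 (cons (fin 908 3 908)
(fin 977 3 909)))))))))
(mv 782 (cons (fin 846 5 781)
(mv 1101 (cons (fin 1165 6 909)
(mv 1103 (cons (cons (mv 975 (cons (fin 1167 7 910)
(mv 976 (cons (fin 1036 1 972)
(mv 912 (cons (fin 913 2 909)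
(fin 848 5 847)))))))
(mv 1102 (cons (fin 1100 2 1036)
(mv 1104 (cons (fin 1036 3 1036)
(mv 1168 (cons (fin 1169 0 1101)
(mv 1232 (cons (fin 1296 7 1039)
(mv 1231 (cons (fin 1295 5 1039)
(mv 976 (cons (fin 1167 5 975)
(mv 912 (cons (fin 848 5 847)
(mv 911 (cons (fin 913 1 909)
(fin 847 7 847))))))))))))))))))
(cons (mv 1102 (cons (fin 1100 2 1036)
(mv 1036 (cons (fin 1104 3 1036)
(mv 975 (cons (fin 976 1 972)
(mv 911 (cons (fin 1166 5 910)
(mv 912 (cons (fin 913 1 909)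
(fin 848 6 847)))))))))))
(cons (mv 975 (cons (fin 1167 7 910)
(mv 1102 (cons (fin 1100 2 1036)
(mv 911 (cons (fin 1166 5 910)
(mv 912 (cons (fin 913 1 909)
(fin 848 6 847)))))))))
(mv 975 (cons (fin 1167 7 910)
(mv 976 (cons (fin 1036 1 972)
(mv 1102 (cons (fin 1100 2 1036)
(mv 911 (cons (fin 1166 5 910)
(mv 847 (cons (fin 783 4 783)
(fin 1104 4 847))))))))))))))))))))))))
(cons (mv 972 (cons (fin 975 0 972)
(mv 971 (cons (cons (mv 906 (cons (fin 907 3 906)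
(mv 905 (cons (fin 970 3 905)
(mv 910 (cons (fin 911 2 907)
(mv 846 (cons (fin 782 5 781)
(mv 1101 (cons (fin 909 6 845)
(fin 1165 6 909)))))))))))
(mv 906 (cons (fin 907 3 906)
(mv 970 (cons (fin 905 3 905)
(mv 1034 (cons (fin 1033 1 969)
(fin 1035 1 970))))))))
(cons (mv 910 (cons (fin 911 2 907)
(mv 782 (cons (fin 846 5 781)
(mv 909 (cons (fin 970 2 906)
(mv 1034 (cons (fin 1035 1 970)
(mv 1101 (cons (fin 1165 6 909)
(mv 844 (cons (fin 908 7 844)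
(mv 1100 (cons (fin 1164 5 908)
(mv 1102 (cons (fin 1103 2 1036)
(fin 1166 4 909)))))))))))))))))
(mv 906 (cons (fin 907 3 906)
(mv 910 (cons (fin 911 2 907)
(mv 846 (cons (fin 782 5 781)
(mv 1101 (cons (fin 909 6 845)
(fin 1165 6 909))))))))))))))
(cons (mv 975 (cons (fin 972 0 972)
(mv 976 (cons (fin 1036 1 972)
(mv 912 (cons (fin 913 2 909)
(mv 848 (cons (fin 784 5 783)
(fin 1103 5 847)))))))))
(mv 975 (cons (fin 972 0 972)
(mv 976 (cons (fin 1036 1 972)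
(mv 908 (cons (fin 909 3 908)
(mv 912 (cons (fin 913 2 909)
(mv 848 (cons (fin 784 5 783)
(mv 785 (cons (fin 849 6 784)
(mv 847 (cons (fin 783 7 783)
(mv 1104 (cons (fin 911 7 847)
(mv 1168 (cons (fin 1232 7 975)
(mv 1169 (cons (fin 1105 4 912)
(fin 1233 4 976)))))))))))))))))))))))))
(mv 1038 (cons (cons (mv 976 (cons (fin 977 2 973)
(mv 975 (cons (fin 1036 2 972)
(mv 1100 (cons (fin 1101 1 1036)
(mv 1104 (cons (fin 1105 0 1037)
(mv 911 (cons (fin 1168 7 911)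
(fin 847 4 847)))))))))))
(cons (mv 1100 (cons (fin 1101 1 1036)
(mv 1104 (cons (fin 1105 0 1037)
(mv 1103 (cons (fin 1036 0 1036)
(mv 975 (cons (mv 911 (cons (fin 847 4 847)
(fin 1168 4 911)))
(cons (mv 1168 (cons (fin 1232 7 975)
(mv 1167 (cons (mv 974 (cons (fin 910 7 910)
(fin 1231 7 974)))
(cons (mv 974 (cons (fin 910 7 910)
(mv 1166 (cons (fin 1230 5 974)
(mv 1102 (cons (fin 909 7 909)
(mv 1165 (cons (fin 1164 2 1100)
(fin 1229 5 973)))))))))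
(mv 1230 (cons (fin 1166 5 974)
(mv 1231 (cons (fin 1294 5 1038)
(fin 1295 6 1039))))))))))
(mv 911 (cons (fin 847 4 847)
(mv 846 (cons (fin 910 7 846)
(mv 848 (cons (fin 912 6 847)
(mv 1166 (cons (fin 1102 5 910)
(mv 1167 (cons (fin 1230 5 974)
(mv 1231 (cons (fin 974 7 974)
(fin 1295 6 1039))))))))))))))))))))))
(mv 976 (cons (fin 977 2 973)
(mv 975 (cons (fin 1036 2 972)
(mv 1100 (cons (fin 1101 1 1036)
(mv 912 (cons (mv 848 (cons (fin 784 5 783)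
(fin 1103 5 847)))
(cons (mv 913 (cons (fin 974 2 909)
(mv 914 (cons (fin 915 1 911)
(mv 1103 (cons (fin 1167 6 911)
(mv 911 (cons (mv 846 (cons (fin 847 3 846)
(fin 910 7 846)))
(cons (mv 850 (cons (fin 851 2 847)
(mv 910 (cons (fin 849 2 846)
(fin 846 7 846)))))
(mv 847 (cons (fin 1102 5 846)
(fin 783 4 783))))))))))))
(mv 848 (cons (fin 784 5 783)
(mv 785 (cons (fin 849 6 784)
(mv 847 (cons (fin 783 7 783)
(mv 911 (cons (fin 1102 5 846)
(mv 846 (cons (fin 782 7 782)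
(mv 913 (cons (fin 914 3 846)
(fin 974 2 909))))))))))))))))))))))))
(cons (mv 976 (cons (fin 977 2 973)
(mv 975 (cons (fin 1036 2 972)
(mv 1104 (cons (fin 1105 0 1037)
(mv 911 (cons (fin 1168 7 911)
(fin 847 4 847)))))))))
(cons (mv 976 (cons (fin 977 2 973)
(mv 1100 (cons (fin 1101 1 1036)
(mv 1104 (cons (fin 1105 0 1037)
(mv 912 (cons (mv 1103 (cons (fin 848 5 847)
(fin 1167 5 911)))
(cons (mv 847 (cons (fin 911 7 847)
(mv 848 (cons (fin 783 7 783)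
(mv 849 (cons (fin 785 6 784)
(fin 913 6 848)))))))
(mv 847 (cons (fin 911 7 847)
(mv 849 (cons (fin 913 6 848)
(mv 1167 (cons (fin 1103 5 911)
(mv 1168 (cons (fin 1231 5 975)
(mv 1232 (cons (fin 975 7 975)
(mv 1233 (cons (fin 1169 4 976)
(fin 1297 4 1040))))))))))))))))))))))
(mv 976 (cons (fin 977 2 973)
(mv 1100 (cons (fin 1101 1 1036)
(mv 1104 (cons (fin 1105 0 1037)
(mv 1103 (cons (fin 1036 0 1036)
(mv 912 (cons (fin 848 5 847)
(fin 1167 5 911)))))))))))))))))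
(cons (mv 1038 (cons (fin 972 3 972)
(mv 976 (cons (fin 977 2 973)
(mv 975 (cons (fin 1036 2 972)
(mv 1104 (cons (fin 1105 0 1037)
(mv 911 (cons (fin 1168 7 911)
(fin 847 4 847)))))))))))
(cons (mv 972 (cons (fin 1038 3 972)
(mv 974 (cons (fin 975 0 972)
(mv 971 (cons (cons (mv 906 (cons (fin 907 3 906)
(mv 905 (cons (fin 970 3 905)
(mv 910 (cons (fin 911 2 907)
(mv 846 (cons (fin 782 5 781)
(mv 1101 (cons (fin 909 6 845)
(fin 1165 6 909)))))))))))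
(mv 906 (cons (fin 907 3 906)
(mv 970 (cons (fin 905 3 905)
(mv 1034 (cons (fin 1033 1 969)
(fin 1035 1 970))))))))
(cons (mv 910 (cons (fin 911 2 907)
(mv 782 (cons (fin 846 5 781)
(mv 909 (cons (fin 970 2 906)
(mv 1034 (cons (fin 1035 1 970)
(mv 1101 (cons (fin 1165 6 909)
(mv 844 (cons (fin 908 7 844)
(mv 1100 (cons (fin 1164 5 908)
(mv 1102 (cons (fin 1103 2 1036)
(fin 1166 4 909)))))))))))))))))
(mv 906 (cons (fin 907 3 906)
(mv 910 (cons (fin 911 2 907)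
(mv 846 (cons (fin 782 5 781)
(mv 1101 (cons (fin 909 6 845)
(fin 1165 6 909))))))))))))))))
(mv 1038 (cons (fin 972 3 972)
(mv 976 (cons (fin 977 2 973)
(mv 1100 (cons (fin 1101 1 1036)
(mv 1104 (cons (fin 1105 0 1037)
(mv 1103 (cons (fin 1036 0 1036)
(mv 912 (cons (fin 848 5 847)
(fin 1167 5 911)))))))))))))))))
(mv 1038 (cons (cons (cons (mv 1039 (cons (fin 972 3 972)
(mv 976 (cons (fin 977 2 973)
(mv 975 (cons (fin 1036 2 972)
(mv 1100 (cons (fin 1101 1 1036)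
(mv 1104 (cons (fin 1105 0 1037)
(mv 911 (cons (fin 1168 7 911)
(fin 847 4 847)))))))))))))
(mv 1102 (cons (cons (mv 909 (cons (fin 845 4 845)
(mv 1166 (cons (fin 974 7 909)
(fin 1230 7 973)))))
(mv 1166 (cons (fin 1230 7 973)
(mv 974 (cons (mv 911 (cons (fin 975 6 910)
(mv 910 (cons (fin 847 6 846)
(mv 846 (cons (fin 782 5 781)
(fin 1101 5 845)))))))
(cons (mv 1167 (cons (fin 1231 4 974)
(mv 910 (cons (fin 1103 4 910)
(mv 846 (cons (fin 782 5 781)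
(fin 1101 5 845)))))))
(mv 975 (cons (fin 911 6 910)
(mv 976 (cons (fin 1036 1 972)
(fin 977 1 973)))))))))))
(cons (mv 909 (cons (fin 845 4 845)
(mv 910 (cons (cons (mv 846 (cons (fin 1101 6 845)
(mv 782 (cons (fin 718 5 717)
(fin 974 5 781)))))
(mv 1103 (cons (mv 974 (cons (fin 1167 4 910)
(mv 847 (cons (fin 911 6 846)
(mv 1036 (cons (fin 1035 0 1035)
(mv 1104 (cons (fin 1101 3 1036)
(fin 1105 3 1037)))))))))
(cons (mv 1036 (cons (fin 1035 0 1035)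
(mv 1104 (cons (fin 1101 3 1036)
(fin 1105 3 1037)))))
(mv 974 (cons (fin 1167 4 910)
(mv 911 (cons (fin 847 6 846)
(mv 912 (cons (fin 972 1 908)
(fin 913 1 909)))))))))))
(cons (mv 911 (cons (cons (mv 847 (cons (fin 974 6 846)
(mv 848 (cons (fin 908 2 844)
(mv 849 (cons (fin 846 1 845)
(fin 850 1 846)))))))
(mv 912 (cons (fin 972 1 908)
(mv 848 (cons (fin 849 2 845)
(mv 847 (cons (fin 908 2 844)
(mv 976 (cons (fin 977 0 909)
(fin 783 7 783))))))))))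
(cons (mv 912 (cons (fin 972 1 908)
(mv 848 (cons (fin 849 2 845)
(mv 913 (cons (fin 974 1 909)
(mv 977 (cons (fin 976 0 909)
(fin 978 0 910)))))))))
(mv 847 (cons (fin 974 6 846)
(mv 912 (cons (fin 972 1 908)
(mv 976 (cons (fin 977 0 909)
(fin 1104 7 847))))))))))
(mv 1101 (cons (fin 846 6 845)
(mv 908 (cons (fin 844 7 844)
(mv 1100 (cons (fin 1164 5 908)
(mv 907 (cons (cons (mv 842 (cons (fin 843 3 842)
(mv 841 (cons (fin 906 3 841)
(mv 971 (cons (fin 970 1 906)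
(mv 911 (cons (fin 972 1 907)
(mv 847 (cons (fin 848 2 844)
(mv 976 (cons (fin 975 0 908)
(mv 912 (cons (fin 977 0 909)
(fin 1104 7 847)))))))))))))))
(cons (mv 842 (cons (fin 843 3 842)
(mv 906 (cons (fin 841 3 841)
(mv 905 (cons (fin 972 0 905)
(mv 969 (cons (fin 968 1 904)
(fin 970 1 905)))))))))
(mv 842 (cons (fin 843 3 842)
(mv 906 (cons (fin 841 3 841)
(mv 972 (cons (fin 905 0 905)
(mv 911 (cons (fin 971 1 907)
(fin 912 1 908)))))))))))
(cons (cons (mv 970 (cons (fin 971 1 906)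
(mv 906 (cons (fin 969 1 905)
(mv 841 (cons (fin 842 3 841)
(mv 905 (cons (fin 840 3 840)
(fin 972 0 905)))))))))
(mv 970 (cons (fin 971 1 906)
(mv 906 (cons (fin 969 1 905)
(mv 972 (cons (fin 905 0 905)
(mv 911 (cons (fin 912 1 908)
(mv 847 (cons (fin 848 2 844)
(mv 975 (cons (fin 976 0 908)
(mv 1036 (cons (fin 843 7 843)
(mv 1035 (cons (fin 1103 3 1035)
(fin 1034 0 1034))))))))))))))))))
(cons (mv 842 (cons (fin 843 3 842)
(mv 906 (cons (fin 841 3 841)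
(mv 970 (cons (fin 969 1 905)
(fin 971 1 906)))))))
(mv 842 (cons (fin 843 3 842)
(mv 971 (cons (fin 970 1 906)
(mv 911 (cons (fin 972 1 907)
(mv 847 (cons (fin 848 2 844)
(mv 976 (cons (fin 975 0 908)
(mv 912 (cons (fin 977 0 909)
(fin 1104 7 847))))))))))))))))))))))))))))
(mv 909 (cons (fin 845 4 845)
(mv 1166 (cons (fin 1230 7 973)
(fin 1101 4 909)))))))))
(cons (mv 1039 (cons (cons (mv 976 (cons (fin 977 2 973)
(mv 975 (cons (fin 1036 2 972)
(mv 1100 (cons (fin 1101 1 1036)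
(mv 1104 (cons (fin 1105 0 1037)
(mv 911 (cons (fin 1168 7 911)
(fin 847 4 847)))))))))))
(cons (mv 1100 (cons (fin 1101 1 1036)
(mv 1104 (cons (fin 1105 0 1037)
(mv 909 (cons (cons (mv 845 (cons (fin 1036 5 844)
(fin 1102 4 845)))
(mv 1103 (cons (fin 1036 0 1036)
(mv 974 (cons (cons (mv 846 (cons (fin 910 4 846)
(mv 1166 (cons (fin 1102 7 909)
(mv 1167 (cons (fin 1231 7 974)
(mv 975 (cons (fin 1230 5 974)
(mv 911 (cons (fin 847 4 847)
(fin 1168 4 911)))))))))))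
(mv 1166 (cons (fin 1102 7 909)
(mv 1167 (cons (fin 1231 7 974)
(mv 975 (cons (fin 1230 5 974)
(mv 911 (cons (fin 847 4 847)
(fin 1168 4 911))))))))))
(cons (mv 910 (cons (fin 846 4 846)
(mv 1102 (cons (fin 1166 7 909)
(mv 911 (cons (fin 847 6 846)
(mv 912 (cons (fin 913 1 909)
(mv 848 (cons (fin 849 2 845)
(fin 975 6 847)))))))))))
(cons (mv 910 (cons (fin 846 4 846)
(mv 1167 (cons (fin 975 7 910)
(fin 1231 7 974)))))
(mv 910 (cons (fin 846 4 846)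
(mv 1102 (cons (fin 1166 7 909)
(fin 1167 4 910))))))))))))
(cons (mv 845 (cons (fin 1102 4 845)
(mv 780 (cons (fin 844 7 780)
(mv 781 (cons (fin 716 7 716)
(fin 974 4 781)))))))
(mv 1036 (cons (fin 1103 0 1036)
(fin 845 5 844))))))))))
(mv 976 (cons (fin 977 2 973)
(mv 1036 (cons (fin 975 2 972)
(mv 1100 (cons (fin 1101 1 1036)
(mv 909 (cons (fin 845 5 844)
(mv 1228 (cons (fin 1164 6 972)
(mv 1102 (cons (mv 1166 (cons (fin 974 7 909)
(fin 1230 7 973)))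
(cons (mv 1035 (cons (fin 1103 0 1035)
(mv 970 (cons (fin 971 3 970)
(mv 1034 (cons (fin 969 3 969)
(fin 974 2 970)))))))
(mv 1103 (cons (fin 1035 0 1035)
(mv 1230 (cons (fin 1166 7 973)
(mv 1231 (cons (fin 1167 6 975)
(mv 1229 (cons (cons (mv 848 (cons (fin 912 5 847)
(mv 1291 (cons (fin 1292 1 1227)
(mv 1227 (cons (fin 1290 1 1226)
(mv 1295 (cons (fin 1294 0 1227)
(fin 1296 0 1228)))))))))
(mv 1295 (cons (fin 1296 0 1228)
(mv 1227 (cons (fin 1294 0 1227)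
(mv 1162 (cons (fin 1163 3 1162)
(mv 1226 (cons (fin 1161 3 1161)
(mv 1290 (cons (fin 1289 1 1225)
(fin 1291 1 1226))))))))))))
(cons (mv 1292 (cons (fin 1291 1 1227)
(mv 1232 (cons (fin 1293 1 1228)
(mv 1169 (cons (fin 1168 2 1165)
(mv 1233 (cons (fin 1170 2 1166)
(mv 1297 (cons (fin 1296 0 1229)
(fin 1298 0 1230)))))))))))
(cons (mv 1296 (cons (fin 1295 0 1228)
(mv 1232 (cons (fin 1297 0 1229)
(mv 1169 (cons (fin 1168 2 1165)
(mv 1233 (cons (fin 1170 2 1166)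
(mv 1293 (cons (fin 1292 1 1228)
(fin 1294 1 1229)))))))))))
(mv 1291 (cons (fin 1292 1 1227)
(mv 1227 (cons (fin 1290 1 1226)
(mv 1162 (cons (fin 1163 3 1162)
(mv 1226 (cons (fin 1161 3 1161)
(mv 1294 (cons (fin 1293 0 1226)
(fin 1295 0 1227))))))))))))))))))))))))))))))))))))
(cons (mv 976 (cons (fin 977 2 973)
(mv 975 (cons (fin 1036 2 972)
(mv 1104 (cons (fin 1105 0 1037)
(mv 911 (cons (fin 1168 7 911)
(fin 847 4 847)))))))))
(cons (mv 976 (cons (fin 977 2 973)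
(mv 1100 (cons (fin 1101 1 1036)
(mv 1104 (cons (fin 1105 0 1037)
(mv 912 (cons (mv 1103 (cons (fin 848 5 847)
(fin 1167 5 911)))
(cons (mv 847 (cons (fin 911 7 847)
(mv 848 (cons (fin 783 7 783)
(mv 849 (cons (fin 785 6 784)
(fin 913 6 848)))))))
(mv 847 (cons (fin 911 7 847)
(mv 849 (cons (fin 913 6 848)
(mv 1167 (cons (fin 1103 5 911)
(mv 1168 (cons (fin 1231 5 975)
(mv 1232 (cons (fin 975 7 975)
(mv 1233 (cons (fin 1169 4 976)
(fin 1297 4 1040))))))))))))))))))))))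
(mv 976 (cons (fin 977 2 973)
(mv 1100 (cons (fin 1101 1 1036)
(mv 1104 (cons (fin 1105 0 1037)
(mv 1103 (cons (fin 1036 0 1036)
(mv 912 (cons (fin 848 5 847)
(fin 1167 5 911)))))))))))))))
(mv 1039 (cons (fin 972 3 972)
(mv 976 (cons (fin 977 2 973)
(mv 975 (cons (fin 1036 2 972)
(mv 1104 (cons (fin 1105 0 1037)
(mv 911 (cons (fin 1168 7 911)
(fin 847 4 847)))))))))))))
(cons (cons (mv 1039 (cons (fin 972 3 972)
(mv 1100 (cons (fin 1101 1 1036)
(mv 1104 (cons (fin 1105 0 1037)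
(mv 909 (cons (cons (mv 845 (cons (fin 1036 5 844)
(fin 1102 4 845)))
(mv 1103 (cons (fin 1036 0 1036)
(mv 974 (cons (cons (mv 846 (cons (fin 910 4 846)
(mv 1166 (cons (fin 1102 7 909)
(mv 1167 (cons (fin 1231 7 974)
(mv 975 (cons (fin 1230 5 974)
(mv 911 (cons (fin 847 4 847)
(fin 1168 4 911)))))))))))
(mv 1166 (cons (fin 1102 7 909)
(mv 1167 (cons (fin 1231 7 974)
(mv 975 (cons (fin 1230 5 974)
(mv 911 (cons (fin 847 4 847)
(fin 1168 4 911))))))))))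
(cons (mv 910 (cons (fin 846 4 846)
(mv 1102 (cons (fin 1166 7 909)
(mv 911 (cons (fin 847 6 846)
(mv 912 (cons (fin 913 1 909)
(mv 848 (cons (fin 849 2 845)
(fin 975 6 847)))))))))))
(cons (mv 910 (cons (fin 846 4 846)
(mv 1167 (cons (fin 975 7 910)
(fin 1231 7 974)))))
(mv 910 (cons (fin 846 4 846)
(mv 1102 (cons (fin 1166 7 909)
(fin 1167 4 910))))))))))))
(cons (mv 845 (cons (fin 1102 4 845)
(mv 780 (cons (fin 844 7 780)
(mv 781 (cons (fin 716 7 716)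
(fin 974 4 781)))))))
(mv 1036 (cons (fin 1103 0 1036)
(fin 845 5 844))))))))))))
(mv 1039 (cons (fin 972 3 972)
(mv 976 (cons (fin 977 2 973)
(mv 1036 (cons (fin 975 2 972)
(mv 1100 (cons (fin 1101 1 1036)
(mv 909 (cons (fin 845 5 844)
(mv 1228 (cons (fin 1164 6 972)
(mv 1102 (cons (mv 1166 (cons (fin 974 7 909)
(fin 1230 7 973)))
(cons (mv 1035 (cons (fin 1103 0 1035)
(mv 970 (cons (fin 971 3 970)
(mv 1034 (cons (fin 969 3 969)
(fin 974 2 970)))))))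
(mv 1103 (cons (fin 1035 0 1035)
(mv 1230 (cons (fin 1166 7 973)
(mv 1231 (cons (fin 1167 6 975)
(mv 1229 (cons (cons (mv 848 (cons (fin 912 5 847)
(mv 1291 (cons (fin 1292 1 1227)
(mv 1227 (cons (fin 1290 1 1226)
(mv 1295 (cons (fin 1294 0 1227)
(fin 1296 0 1228)))))))))
(mv 1295 (cons (fin 1296 0 1228)
(mv 1227 (cons (fin 1294 0 1227)
(mv 1162 (cons (fin 1163 3 1162)
(mv 1226 (cons (fin 1161 3 1161)
(mv 1290 (cons (fin 1289 1 1225)
(fin 1291 1 1226))))))))))))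
(cons (mv 1292 (cons (fin 1291 1 1227)
(mv 1232 (cons (fin 1293 1 1228)
(mv 1169 (cons (fin 1168 2 1165)
(mv 1233 (cons (fin 1170 2 1166)
(mv 1297 (cons (fin 1296 0 1229)
(fin 1298 0 1230)))))))))))
(cons (mv 1296 (cons (fin 1295 0 1228)
(mv 1232 (cons (fin 1297 0 1229)
(mv 1169 (cons (fin 1168 2 1165)
(mv 1233 (cons (fin 1170 2 1166)
(mv 1293 (cons (fin 1292 1 1228)
(fin 1294 1 1229)))))))))))
(mv 1291 (cons (fin 1292 1 1227)
(mv 1227 (cons (fin 1290 1 1226)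
(mv 1162 (cons (fin 1163 3 1162)
(mv 1226 (cons (fin 1161 3 1161)
(mv 1294 (cons (fin 1293 0 1226)
(fin 1295 0 1227)))))))))))))))))))))))))))))))))))))
(cons (mv 1039 (cons (fin 972 3 972)
(mv 976 (cons (fin 977 2 973)
(mv 1100 (cons (fin 1101 1 1036)
(mv 1104 (cons (fin 1105 0 1037)
(mv 912 (cons (mv 1103 (cons (fin 848 5 847)
(fin 1167 5 911)))
(cons (mv 847 (cons (fin 911 7 847)
(mv 848 (cons (fin 783 7 783)
(mv 849 (cons (fin 785 6 784)
(fin 913 6 848)))))))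
(mv 847 (cons (fin 911 7 847)
(mv 849 (cons (fin 913 6 848)
(mv 1167 (cons (fin 1103 5 911)
(mv 1168 (cons (fin 1231 5 975)
(mv 1232 (cons (fin 975 7 975)
(mv 1233 (cons (fin 1169 4 976)
(fin 1297 4 1040))))))))))))))))))))))))
(mv 1039 (cons (fin 972 3 972)
(mv 976 (cons (fin 977 2 973)
(mv 1100 (cons (fin 1101 1 1036)
(mv 1104 (cons (fin 1105 0 1037)
(mv 1103 (cons (fin 1036 0 1036)
(mv 912 (cons (fin 848 5 847)
(fin 1167 5 911)))))))))))))))))))))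
(cons (cons (cons (mv 972 (cons (cons (cons (mv 1038 (cons (fin 1039 3 972)
(mv 971 (cons (fin 970 0 970)
(mv 974 (cons (cons (mv 906 (cons (fin 907 3 906)
(mv 910 (cons (fin 911 2 907)
(mv 846 (cons (fin 782 5 781)
(fin 1101 5 845)))))))
(mv 906 (cons (fin 907 3 906)
(mv 1035 (cons (fin 1034 1 970)
(mv 975 (cons (fin 1036 1 971)
(mv 912 (cons (fin 911 2 908)
(mv 976 (cons (fin 977 1 973)
(fin 913 2 909))))))))))))
(cons (mv 910 (cons (fin 911 2 907)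
(mv 846 (cons (fin 782 5 781)
(fin 1101 5 845)))))
(mv 906 (cons (fin 907 3 906)
(mv 1035 (cons (fin 1034 1 970)
(mv 975 (cons (fin 1036 1 971)
(mv 976 (cons (fin 977 1 973)
(mv 909 (cons (fin 908 3 908)
(mv 845 (cons (fin 781 4 781)
(mv 780 (cons (fin 844 7 780)
(mv 846 (cons (fin 782 6 781)
(mv 912 (cons (fin 913 2 909)
(mv 1101 (cons (fin 910 5 845)
(mv 1164 (cons (fin 1100 5 908)
(mv 1165 (cons (fin 1228 5 972)
(fin 1229 6 973))))))))))))))))))))))))))))))))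
(cons (mv 908 (cons (cons (mv 844 (cons (fin 780 4 780)
(mv 1101 (cons (fin 909 7 844)
(fin 1165 7 908)))))
(mv 1101 (cons (fin 1165 7 908)
(mv 909 (cons (cons (mv 846 (cons (fin 910 6 845)
(mv 845 (cons (fin 782 6 781)
(mv 781 (cons (fin 717 5 716)
(fin 1036 5 780)))))))
(mv 1100 (cons (fin 1164 5 908)
(mv 845 (cons (fin 1036 5 844)
(mv 781 (cons (fin 717 5 716)
(mv 782 (cons (fin 718 6 717)
(fin 846 6 781))))))))))
(cons (mv 1100 (cons (fin 1164 5 908)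
(mv 845 (cons (fin 1036 5 844)
(mv 781 (cons (fin 717 5 716)
(mv 716 (cons (fin 780 7 716)
(mv 718 (cons (fin 782 6 717)
(mv 974 (cons (fin 1038 4 781)
(mv 907 (cons (fin 975 3 907)
(fin 906 0 906)))))))))))))))
(mv 910 (cons (fin 846 6 845)
(mv 911 (cons (fin 971 1 907)
(fin 912 1 908)))))))))))
(cons (mv 780 (cons (fin 844 4 780)
(mv 907 (cons (cons (mv 906 (cons (fin 905 0 905)
(mv 974 (cons (fin 971 3 906)
(fin 975 3 907)))))
(mv 906 (cons (fin 905 0 905)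
(mv 909 (cons (mv 841 (cons (fin 842 3 841)
(mv 845 (cons (fin 846 2 842)
(mv 781 (cons (fin 716 7 716)
(fin 717 5 716)))))))
(cons (mv 841 (cons (fin 842 3 841)
(mv 970 (cons (fin 969 1 905)
(mv 971 (cons (fin 910 1 906)
(fin 1038 0 970)))))))
(mv 845 (cons (fin 846 2 842)
(mv 781 (cons (fin 716 7 716)
(fin 717 5 716)))))))))))
(cons (mv 974 (cons (fin 975 3 907)
(mv 971 (cons (cons (mv 910 (cons (fin 911 2 907)
(mv 970 (cons (fin 909 1 906)
(fin 1038 0 970)))))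
(mv 910 (cons (fin 911 2 907)
(mv 846 (cons (fin 782 5 781)
(mv 909 (cons (fin 847 2 843)
(mv 843 (cons (fin 842 3 842)
(mv 779 (cons (fin 716 6 715)
(fin 715 4 715))))))))))))
(cons (mv 970 (cons (fin 1038 0 970)
(mv 969 (cons (fin 968 2 904)
(fin 909 2 905)))))
(mv 910 (cons (fin 911 2 907)
(mv 782 (cons (fin 846 5 781)
(mv 970 (cons (fin 1038 0 970)
(mv 969 (cons (fin 968 2 904)
(fin 1036 0 969))))))))))))))
(mv 906 (cons (fin 905 0 905)
(mv 974 (cons (fin 975 3 907)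
(fin 909 0 906))))))))))
(cons (mv 1101 (cons (fin 1165 7 908)
(mv 844 (cons (fin 909 7 844)
(fin 1036 4 844)))))
(mv 844 (cons (fin 780 4 780)
(mv 1101 (cons (fin 1165 7 908)
(fin 1036 4 844)))))))))
(mv 908 (cons (cons (mv 844 (cons (fin 780 4 780)
(mv 1101 (cons (fin 909 7 844)
(fin 1165 7 908)))))
(mv 1101 (cons (fin 1165 7 908)
(mv 909 (cons (cons (mv 846 (cons (fin 910 6 845)
(mv 845 (cons (fin 782 6 781)
(mv 781 (cons (fin 717 5 716)
(fin 1036 5 780)))))))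
(mv 1100 (cons (fin 1164 5 908)
(mv 845 (cons (fin 1036 5 844)
(mv 781 (cons (fin 717 5 716)
(mv 782 (cons (fin 718 6 717)
(fin 846 6 781))))))))))
(cons (mv 1100 (cons (fin 1164 5 908)
(mv 1036 (cons (fin 845 5 844)
(mv 907 (cons (fin 843 7 843)
(mv 906 (cons (fin 905 0 905)
(fin 974 0 906)))))))))
(mv 910 (cons (fin 846 6 845)
(mv 911 (cons (fin 971 1 907)
(fin 912 1 908)))))))))))
(cons (mv 780 (cons (fin 844 4 780)
(mv 974 (cons (mv 975 (cons (fin 907 3 907)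
(fin 1039 0 972)))
(cons (mv 971 (cons (cons (mv 906 (cons (fin 907 3 906)
(mv 910 (cons (fin 911 2 907)
(mv 970 (cons (fin 905 3 905)
(fin 909 2 906)))))))
(mv 906 (cons (fin 907 3 906)
(mv 970 (cons (fin 905 3 905)
(mv 969 (cons (fin 909 2 905)
(fin 1036 0 969))))))))
(cons (mv 910 (cons (fin 911 2 907)
(mv 782 (cons (fin 846 5 781)
(mv 970 (cons (fin 909 2 906)
(mv 1034 (cons (fin 1033 1 969)
(fin 1035 1 970)))))))))
(cons (mv 907 (cons (fin 906 3 906)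
(mv 910 (cons (fin 911 2 907)
(mv 846 (cons (fin 782 5 781)
(mv 909 (cons (fin 847 2 843)
(mv 843 (cons (fin 842 3 842)
(mv 779 (cons (fin 716 6 715)
(fin 715 4 715)))))))))))))
(mv 906 (cons (fin 907 3 906)
(mv 910 (cons (fin 911 2 907)
(mv 782 (cons (fin 846 5 781)
(mv 970 (cons (fin 905 3 905)
(mv 1034 (cons (fin 1033 1 969)
(fin 1035 1 970)))))))))))))))
(mv 975 (cons (fin 1039 0 972)
(mv 976 (cons (fin 909 3 908)
(fin 1036 1 972))))))))))
(mv 844 (cons (fin 780 4 780)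
(mv 1101 (cons (fin 1165 7 908)
(fin 1036 4 844))))))))))
(cons (mv 1038 (cons (fin 1039 3 972)
(mv 971 (cons (fin 970 0 970)
(mv 974 (cons (cons (mv 906 (cons (fin 907 3 906)
(mv 910 (cons (fin 911 2 907)
(mv 846 (cons (fin 782 5 781)
(fin 1101 5 845)))))))
(mv 906 (cons (fin 907 3 906)
(mv 1035 (cons (fin 1034 1 970)
(mv 975 (cons (fin 1036 1 971)
(mv 912 (cons (fin 911 2 908)
(mv 976 (cons (fin 977 1 973)
(fin 913 2 909))))))))))))
(cons (mv 907 (cons (fin 906 3 906)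
(mv 1035 (cons (fin 1034 1 970)
(mv 1036 (cons (fin 975 1 971)
(mv 843 (cons (fin 779 4 779)
(fin 1100 4 843)))))))))
(mv 910 (cons (fin 911 2 907)
(mv 846 (cons (fin 782 5 781)
(fin 1101 5 845))))))))))))
(cons (mv 1038 (cons (fin 1039 3 972)
(mv 971 (cons (fin 970 0 970)
(mv 1101 (cons (cons (mv 908 (cons (fin 1165 7 908)
(mv 844 (cons (fin 909 7 844)
(fin 780 4 780)))))
(mv 1165 (cons (cons (mv 1036 (cons (fin 1229 7 972)
(mv 1164 (cons (fin 1228 5 972)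
(mv 1100 (cons (fin 907 7 907)
(fin 909 5 908)))))))
(mv 1164 (cons (fin 1228 5 972)
(mv 909 (cons (fin 1100 5 908)
(mv 846 (cons (fin 910 6 845)
(mv 845 (cons (fin 782 6 781)
(mv 780 (cons (fin 844 7 780)
(mv 781 (cons (fin 716 7 716)
(fin 1036 5 780))))))))))))))
(cons (mv 1229 (cons (fin 1036 7 972)
(mv 1230 (cons (fin 1166 4 973)
(fin 1294 4 1037)))))
(mv 1228 (cons (fin 1164 5 972)
(mv 1229 (cons (fin 1292 5 1036)
(mv 1230 (cons (fin 1166 4 973)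
(fin 1294 4 1037)))))))))))
(cons (mv 909 (cons (cons (mv 844 (cons (fin 908 7 844)
(mv 845 (cons (fin 780 7 780)
(mv 846 (cons (fin 782 6 781)
(fin 910 6 845)))))))
(mv 846 (cons (fin 910 6 845)
(mv 845 (cons (fin 782 6 781)
(mv 1036 (cons (fin 781 5 780)
(fin 1100 5 844))))))))
(cons (mv 844 (cons (fin 908 7 844)
(mv 845 (cons (fin 780 7 780)
(mv 1036 (cons (fin 781 5 780)
(fin 1100 5 844)))))))
(mv 908 (cons (fin 844 7 844)
(mv 910 (cons (fin 911 1 907)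
(fin 846 6 845))))))))
(cons (mv 908 (cons (fin 1165 7 908)
(mv 844 (cons (fin 780 4 780)
(fin 1036 4 844)))))
(mv 1165 (cons (fin 908 7 908)
(mv 1036 (cons (fin 1229 7 972)
(mv 1164 (cons (fin 1228 5 972)
(mv 1100 (cons (fin 907 7 907)
(fin 909 5 908)))))))))))))))))
(mv 1038 (cons (fin 1039 3 972)
(mv 1101 (cons (cons (mv 908 (cons (fin 1165 7 908)
(mv 844 (cons (fin 909 7 844)
(fin 780 4 780)))))
(mv 909 (cons (cons (mv 844 (cons (fin 908 7 844)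
(mv 845 (cons (fin 780 7 780)
(mv 781 (cons (fin 1036 5 780)
(fin 974 4 781)))))))
(mv 846 (cons (fin 910 6 845)
(mv 845 (cons (fin 782 6 781)
(mv 781 (cons (fin 1036 5 780)
(fin 974 4 781))))))))
(cons (mv 908 (cons (fin 844 7 844)
(mv 910 (cons (fin 846 6 845)
(mv 911 (cons (fin 912 1 908)
(mv 847 (cons (fin 848 2 844)
(mv 975 (cons (fin 976 0 908)
(mv 974 (cons (fin 907 3 907)
(fin 783 5 782)))))))))))))
(mv 844 (cons (fin 908 7 844)
(mv 845 (cons (fin 780 7 780)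
(mv 846 (cons (fin 782 6 781)
(fin 910 6 845)))))))))))
(cons (mv 1165 (cons (cons (mv 974 (cons (fin 910 6 909)
(fin 1229 6 973)))
(mv 910 (cons (fin 974 6 909)
(mv 909 (cons (fin 846 6 845)
(mv 1164 (cons (fin 1100 5 908)
(fin 1228 5 972))))))))
(cons (mv 1036 (cons (fin 1229 7 972)
(mv 1164 (cons (fin 1228 5 972)
(mv 909 (cons (fin 1100 5 908)
(mv 845 (cons (fin 781 5 780)
(mv 846 (cons (fin 782 6 781)
(fin 910 6 845)))))))))))
(mv 1229 (cons (fin 1036 7 972)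
(fin 974 6 973))))))
(mv 908 (cons (fin 1165 7 908)
(mv 844 (cons (fin 780 4 780)
(fin 1036 4 844)))))))))))))
(cons (cons (mv 1038 (cons (fin 1039 3 972)
(mv 971 (cons (fin 970 0 970)
(mv 974 (cons (cons (mv 906 (cons (fin 907 3 906)
(mv 910 (cons (fin 911 2 907)
(mv 846 (cons (fin 782 5 781)
(mv 783 (cons (fin 847 6 782)
(mv 845 (cons (fin 781 7 781)
(mv 1035 (cons (fin 1034 1 970)
(mv 1036 (cons (fin 975 1 971)
(mv 909 (cons (fin 1100 5 844)
(mv 844 (cons (fin 780 7 780)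
(mv 843 (cons (fin 842 0 842)
(mv 779 (cons (fin 778 3 778)
(fin 908 7 779)))))))))))))))))))))))
(cons (mv 906 (cons (fin 907 3 906)
(mv 911 (cons (fin 910 2 907)
(mv 975 (cons (fin 912 2 908)
(mv 976 (cons (fin 1036 1 972)
(fin 977 1 973)))))))))
(mv 910 (cons (fin 911 2 907)
(mv 846 (cons (fin 782 5 781)
(mv 783 (cons (fin 847 6 782)
(mv 845 (cons (fin 781 7 781)
(mv 1035 (cons (fin 1034 1 970)
(mv 1036 (cons (fin 975 1 971)
(mv 909 (cons (fin 1100 5 844)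
(mv 844 (cons (fin 780 7 780)
(mv 843 (cons (fin 842 0 842)
(mv 779 (cons (fin 778 3 778)
(fin 908 7 779)))))))))))))))))))))))
(cons (mv 906 (cons (fin 907 3 906)
(mv 1035 (cons (fin 1034 1 970)
(mv 975 (cons (fin 1036 1 971)
(mv 912 (cons (fin 911 2 908)
(mv 976 (cons (fin 977 1 973)
(fin 913 2 909)))))))))))
(cons (mv 907 (cons (fin 906 3 906)
(mv 975 (cons (fin 908 3 907)
(mv 976 (cons (fin 1036 1 972)
(fin 977 1 973)))))))
(mv 907 (cons (fin 906 3 906)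
(mv 910 (cons (fin 911 2 907)
(mv 846 (cons (fin 782 5 781)
(mv 845 (cons (fin 781 7 781)
(mv 847 (cons (fin 783 6 782)
(mv 908 (cons (fin 844 1 843)
(fin 909 2 843)))))))))))))))))))))
(cons (mv 1038 (cons (fin 1039 3 972)
(mv 970 (cons (fin 971 0 970)
(mv 1101 (cons (cons (mv 908 (cons (fin 1165 7 908)
(mv 844 (cons (fin 909 7 844)
(fin 780 4 780)))))
(mv 909 (cons (cons (mv 844 (cons (fin 908 7 844)
(mv 845 (cons (fin 780 7 780)
(mv 846 (cons (fin 782 6 781)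
(fin 910 6 845)))))))
(cons (mv 844 (cons (fin 908 7 844)
(mv 845 (cons (fin 780 7 780)
(mv 781 (cons (fin 974 4 781)
(mv 782 (cons (fin 718 6 717)
(fin 846 6 781)))))))))
(mv 1100 (cons (fin 1164 5 908)
(mv 845 (cons (cons (mv 844 (cons (fin 780 7 780)
(fin 908 7 844)))
(mv 781 (cons (fin 974 4 781)
(mv 716 (cons (fin 780 7 716)
(mv 717 (cons (fin 652 7 652)
(fin 908 5 716))))))))
(cons (mv 780 (cons (fin 844 7 780)
(mv 781 (cons (fin 716 7 716)
(fin 974 4 781)))))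
(mv 781 (cons (fin 974 4 781)
(mv 908 (cons (fin 844 7 844)
(fin 717 5 716))))))))))))
(cons (mv 846 (cons (fin 910 6 845)
(mv 845 (cons (fin 782 6 781)
(mv 781 (cons (fin 974 4 781)
(mv 716 (cons (fin 780 7 716)
(mv 717 (cons (fin 652 7 652)
(fin 908 5 716)))))))))))
(cons (mv 846 (cons (fin 910 6 845)
(mv 845 (cons (fin 782 6 781)
(mv 780 (cons (fin 844 7 780)
(mv 781 (cons (fin 716 7 716)
(fin 974 4 781)))))))))
(mv 908 (cons (fin 844 7 844)
(mv 910 (cons (fin 846 6 845)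
(mv 911 (cons (fin 912 1 908)
(mv 847 (cons (fin 848 2 844)
(mv 975 (cons (fin 976 0 908)
(mv 974 (cons (fin 907 3 907)
(fin 783 5 782))))))))))))))))))
(cons (mv 1165 (cons (mv 974 (cons (fin 910 6 909)
(fin 1229 6 973)))
(cons (mv 1228 (cons (fin 1164 5 972)
(mv 1229 (cons (fin 1292 5 1036)
(mv 1230 (cons (fin 1166 4 973)
(fin 1294 4 1037)))))))
(mv 910 (cons (fin 974 6 909)
(mv 909 (cons (fin 846 6 845)
(mv 1164 (cons (fin 1100 5 908)
(fin 1228 5 972))))))))))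
(mv 1165 (cons (fin 908 7 908)
(mv 974 (cons (fin 910 6 909)
(fin 1229 6 973))))))))))))
(mv 1038 (cons (fin 1039 3 972)
(mv 971 (cons (fin 970 0 970)
(mv 974 (cons (cons (mv 906 (cons (fin 907 3 906)
(mv 1035 (cons (fin 1034 1 970)
(mv 975 (cons (fin 1036 1 971)
(mv 912 (cons (fin 911 2 908)
(mv 976 (cons (fin 977 1 973)
(fin 913 2 909)))))))))))
(mv 907 (cons (fin 906 3 906)
(mv 908 (cons (fin 975 3 907)
(mv 844 (cons (fin 780 4 780)
(mv 1101 (cons (fin 909 7 844)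
(fin 1165 7 908))))))))))
(cons (mv 1035 (cons (fin 1034 1 970)
(mv 975 (cons (fin 1036 1 971)
(mv 912 (cons (fin 911 2 908)
(mv 976 (cons (fin 977 1 973)
(fin 913 2 909)))))))))
(mv 907 (cons (fin 906 3 906)
(mv 1035 (cons (fin 1034 1 970)
(mv 843 (cons (mv 1036 (cons (fin 779 4 779)
(fin 1100 4 843)))
(cons (mv 778 (cons (fin 842 7 778)
(mv 779 (cons (fin 714 7 714)
(mv 780 (cons (fin 716 6 715)
(fin 844 6 779)))))))
(mv 778 (cons (fin 842 7 778)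
(mv 844 (cons (fin 780 6 779)
(mv 1036 (cons (fin 1100 4 843)
(mv 908 (cons (fin 1101 4 844)
(mv 845 (cons (fin 781 6 780)
(mv 846 (cons (fin 847 1 843)
(mv 782 (cons (fin 783 2 779)
(fin 909 6 781)))))))))))))))))))))))))))))))
(cons (cons (mv 1038 (cons (fin 1039 3 972)
(mv 971 (cons (fin 970 0 970)
(mv 974 (cons (cons (mv 906 (cons (fin 907 3 906)
(mv 910 (cons (fin 911 2 907)
(mv 846 (cons (fin 782 5 781)
(fin 1101 5 845)))))))
(mv 906 (cons (fin 907 3 906)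
(mv 1035 (cons (fin 1034 1 970)
(mv 975 (cons (fin 1036 1 971)
(mv 912 (cons (fin 911 2 908)
(mv 976 (cons (fin 977 1 973)
(fin 913 2 909))))))))))))
(cons (mv 910 (cons (fin 911 2 907)
(mv 846 (cons (fin 782 5 781)
(fin 1101 5 845)))))
(mv 907 (cons (fin 906 3 906)
(mv 908 (cons (fin 975 3 907)
(mv 844 (cons (fin 780 4 780)
(mv 1101 (cons (fin 909 7 844)
(fin 1165 7 908))))))))))))))))
(mv 1038 (cons (fin 1039 3 972)
(mv 970 (cons (fin 971 0 970)
(mv 908 (cons (cons (mv 844 (cons (fin 780 4 780)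
(mv 1101 (cons (fin 909 7 844)
(fin 1165 7 908)))))
(mv 844 (cons (fin 780 4 780)
(mv 845 (cons (cons (mv 781 (cons (fin 1036 6 780)
(mv 717 (cons (fin 653 5 652)
(fin 909 5 716)))))
(mv 909 (cons (mv 781 (cons (fin 717 5 716)
(fin 974 4 781)))
(cons (mv 846 (cons (fin 782 6 781)
(mv 847 (cons (fin 848 1 844)
(mv 783 (cons (fin 784 2 780)
(mv 910 (cons (fin 974 6 782)
(mv 843 (cons (fin 911 3 843)
(fin 842 0 842)))))))))))
(mv 717 (cons (fin 781 5 716)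
(mv 846 (cons (fin 782 6 781)
(mv 847 (cons (fin 848 1 844)
(mv 783 (cons (fin 784 2 780)
(mv 911 (cons (fin 912 0 844)
(mv 843 (cons (fin 910 3 843)
(mv 778 (cons (fin 779 3 778)
(mv 842 (cons (fin 777 3 777)
(fin 841 0 841)))))))))))))))))))))
(cons (mv 909 (cons (cons (mv 782 (cons (fin 846 6 781)
(mv 1036 (cons (fin 1100 5 844)
(mv 843 (cons (fin 779 7 779)
(mv 842 (cons (fin 841 0 841)
(fin 910 0 842)))))))))
(mv 846 (cons (fin 782 6 781)
(mv 847 (cons (fin 848 1 844)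
(mv 783 (cons (fin 784 2 780)
(mv 910 (cons (fin 974 6 782)
(mv 843 (cons (fin 911 3 843)
(fin 842 0 842))))))))))))
(cons (mv 1036 (cons (fin 1100 5 844)
(mv 843 (cons (fin 779 7 779)
(mv 842 (cons (fin 841 0 841)
(fin 910 0 842)))))))
(cons (mv 846 (cons (fin 782 6 781)
(mv 847 (cons (fin 848 1 844)
(mv 783 (cons (fin 784 2 780)
(mv 911 (cons (fin 912 0 844)
(mv 974 (cons (fin 975 5 782)
(fin 910 6 782)))))))))))
(mv 782 (cons (fin 846 6 781)
(mv 1036 (cons (fin 1100 5 844)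
(mv 843 (cons (fin 779 7 779)
(mv 842 (cons (fin 841 0 841)
(mv 778 (cons (fin 777 3 777)
(mv 906 (cons (fin 905 1 841)
(mv 1033 (cons (fin 969 5 777)
(mv 1034 (cons (fin 1035 2 969)
(fin 1097 5 841)))))))))))))))))))))
(mv 1036 (cons (fin 781 6 780)
(mv 843 (cons (fin 779 7 779)
(mv 846 (cons (cons (mv 782 (cons (fin 783 2 779)
(mv 910 (cons (fin 911 0 843)
(fin 974 5 781)))))
(cons (mv 782 (cons (fin 783 2 779)
(mv 974 (cons (fin 910 5 781)
(mv 975 (cons (fin 1035 1 971)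
(fin 976 1 972)))))))
(mv 910 (cons (fin 911 0 843)
(mv 974 (cons (fin 782 5 781)
(mv 975 (cons (fin 1035 1 971)
(fin 976 1 972)))))))))
(cons (mv 783 (cons (fin 782 2 779)
(mv 847 (cons (fin 784 2 780)
(mv 911 (cons (fin 912 0 844)
(mv 975 (cons (fin 974 5 782)
(fin 976 4 783)))))))))
(cons (mv 911 (cons (fin 910 0 843)
(mv 847 (cons (fin 912 0 844)
(mv 783 (cons (fin 784 2 780)
(mv 975 (cons (fin 974 5 782)
(fin 976 4 783)))))))))
(mv 783 (cons (fin 782 2 779)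
(mv 847 (cons (fin 784 2 780)
(mv 911 (cons (fin 910 0 843)
(fin 912 0 844)))))))))))))))))))))
(cons (mv 1101 (cons (fin 1165 7 908)
(mv 909 (cons (mv 846 (cons (fin 910 6 845)
(mv 845 (cons (fin 782 6 781)
(mv 781 (cons (fin 717 5 716)
(fin 1036 5 780)))))))
(cons (mv 1100 (cons (fin 1164 5 908)
(mv 845 (cons (fin 1036 5 844)
(mv 781 (cons (fin 717 5 716)
(fin 974 4 781)))))))
(mv 910 (cons (fin 846 6 845)
(mv 911 (cons (fin 912 1 908)
(mv 847 (cons (fin 848 2 844)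
(mv 975 (cons (fin 976 0 908)
(mv 783 (cons (fin 974 5 782)
(mv 718 (cons (fin 782 7 718)
(mv 719 (cons (fin 654 7 654)
(mv 720 (cons (fin 656 6 655)
(fin 784 6 719))))))))))))))))))))))
(mv 844 (cons (fin 780 4 780)
(mv 1101 (cons (fin 1165 7 908)
(fin 1036 4 844)))))))))))))
(cons (mv 1038 (cons (fin 1039 3 972)
(mv 971 (cons (fin 970 0 970)
(mv 974 (cons (cons (mv 906 (cons (fin 907 3 906)
(mv 1035 (cons (fin 1034 1 970)
(mv 975 (cons (fin 1036 1 971)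
(mv 976 (cons (fin 977 1 973)
(mv 909 (cons (fin 908 3 908)
(mv 845 (cons (fin 781 4 781)
(mv 780 (cons (fin 844 7 780)
(mv 846 (cons (fin 782 6 781)
(mv 912 (cons (fin 913 2 909)
(mv 1101 (cons (fin 910 5 845)
(mv 1164 (cons (fin 1100 5 908)
(mv 1165 (cons (fin 1228 5 972)
(fin 1229 6 973)))))))))))))))))))))))))
(cons (mv 907 (cons (fin 906 3 906)
(mv 908 (cons (fin 975 3 907)
(mv 844 (cons (fin 780 4 780)
(mv 1101 (cons (fin 909 7 844)
(fin 1165 7 908)))))))))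
(mv 1035 (cons (fin 1034 1 970)
(mv 975 (cons (fin 1036 1 971)
(mv 976 (cons (fin 977 1 973)
(mv 909 (cons (fin 908 3 908)
(mv 845 (cons (fin 781 4 781)
(mv 780 (cons (fin 844 7 780)
(mv 846 (cons (fin 782 6 781)
(mv 912 (cons (fin 913 2 909)
(mv 1101 (cons (fin 910 5 845)
(mv 1164 (cons (fin 1100 5 908)
(mv 1165 (cons (fin 1228 5 972)
(fin 1229 6 973)))))))))))))))))))))))))
(cons (mv 907 (cons (fin 906 3 906)
(mv 1034 (cons (fin 1035 1 970)
(mv 1101 (cons (mv 910 (cons (fin 846 5 845)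
(fin 1165 6 909)))
(cons (mv 910 (cons (fin 846 5 845)
(mv 909 (cons (cons (mv 781 (cons (fin 845 4 781)
(mv 908 (cons (fin 844 7 844)
(mv 843 (cons (fin 842 3 842)
(mv 779 (cons (fin 715 4 715)
(fin 1036 4 779)))))))))
(mv 908 (cons (fin 844 7 844)
(mv 843 (cons (fin 842 3 842)
(mv 779 (cons (fin 715 4 715)
(fin 1036 4 779))))))))
(cons (mv 845 (cons (fin 781 4 781)
(mv 1100 (cons (fin 1036 5 844)
(fin 1164 5 908)))))
(mv 844 (cons (fin 908 7 844)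
(mv 845 (cons (fin 780 7 780)
(fin 781 4 781))))))))))
(mv 1165 (cons (fin 908 7 908)
(fin 1229 6 973))))))))))
(cons (mv 907 (cons (fin 906 3 906)
(mv 975 (cons (fin 908 3 907)
(mv 976 (cons (fin 1036 1 972)
(fin 977 1 973)))))))
(mv 907 (cons (fin 906 3 906)
(mv 1035 (cons (fin 1034 1 970)
(mv 1036 (cons (fin 975 1 971)
(mv 843 (cons (fin 779 4 779)
(fin 1100 4 843)))))))))))))))))
(mv 1038 (cons (fin 1039 3 972)
(mv 971 (cons (fin 970 0 970)
(mv 974 (cons (cons (mv 906 (cons (fin 907 3 906)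
(mv 911 (cons (fin 910 2 907)
(mv 975 (cons (fin 912 2 908)
(mv 976 (cons (fin 1036 1 972)
(fin 977 1 973)))))))))
(mv 911 (cons (fin 910 2 907)
(mv 975 (cons (fin 912 2 908)
(mv 976 (cons (fin 1036 1 972)
(fin 977 1 973))))))))
(cons (mv 907 (cons (fin 906 3 906)
(mv 908 (cons (fin 975 3 907)
(mv 844 (cons (fin 780 4 780)
(mv 1101 (cons (fin 909 7 844)
(fin 1165 7 908)))))))))
(mv 907 (cons (fin 906 3 906)
(mv 910 (cons (fin 911 2 907)
(mv 1034 (cons (fin 1035 1 970)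
(mv 1101 (cons (fin 1165 6 909)
(mv 909 (cons (cons (mv 781 (cons (fin 845 4 781)
(mv 908 (cons (fin 844 7 844)
(mv 843 (cons (fin 842 3 842)
(mv 779 (cons (fin 715 4 715)
(fin 1036 4 779)))))))))
(mv 908 (cons (fin 844 7 844)
(mv 843 (cons (fin 842 3 842)
(mv 779 (cons (fin 715 4 715)
(fin 1036 4 779))))))))
(cons (mv 845 (cons (fin 781 4 781)
(mv 1100 (cons (fin 1036 5 844)
(fin 1164 5 908)))))
(mv 844 (cons (fin 908 7 844)
(mv 845 (cons (fin 780 7 780)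
(fin 781 4 781))))))))))))))))))))))))))))
(mv 1039 (cons (cons (cons (mv 1038 (cons (fin 972 3 972)
(mv 976 (cons (fin 977 2 973)
(mv 975 (cons (fin 1036 2 972)
(mv 1100 (cons (fin 1101 1 1036)
(mv 1104 (cons (fin 1105 0 1037)
(mv 911 (cons (fin 1168 7 911)
(fin 847 4 847)))))))))))))
(mv 975 (cons (cons (mv 974 (cons (fin 972 0 972)
(mv 976 (cons (fin 1036 1 972)
(mv 908 (cons (fin 909 3 908)
(mv 912 (cons (fin 913 2 909)
(mv 848 (cons (fin 784 5 783)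
(fin 1103 5 847)))))))))))
(mv 1104 (cons (cons (mv 911 (cons (fin 847 4 847)
(mv 1168 (cons (fin 976 7 911)
(fin 1232 7 975)))))
(mv 911 (cons (fin 847 4 847)
(mv 1103 (cons (mv 848 (cons (fin 912 6 847)
(mv 1102 (cons (fin 1166 5 910)
(mv 1101 (cons (fin 1036 3 1036)
(fin 1100 2 1036)))))))
(cons (mv 1102 (cons (fin 1166 5 910)
(mv 1101 (cons (fin 1036 3 1036)
(fin 1100 2 1036)))))
(mv 912 (cons (fin 848 6 847)
(mv 976 (cons (fin 1167 5 911)
(mv 913 (cons (fin 849 6 848)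
(mv 914 (cons (fin 915 1 911)
(mv 850 (cons (fin 851 2 847)
(mv 978 (cons (fin 979 0 911)
(mv 1105 (cons (fin 1169 4 912)
(mv 1106 (cons (fin 1107 3 1039)
(mv 1042 (cons (fin 1043 2 1039)
(mv 1170 (cons (fin 1171 0 1103)
(fin 977 7 913)))))))))))))))))))))))))))
(cons (mv 1168 (cons (fin 1232 7 975)
(mv 976 (cons (cons (mv 913 (cons (fin 977 6 912)
(mv 912 (cons (fin 849 6 848)
(mv 848 (cons (fin 784 5 783)
(fin 1103 5 847)))))))
(mv 1167 (cons (fin 1231 5 975)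
(mv 912 (cons (fin 1103 5 911)
(mv 1169 (cons (fin 1105 4 912)
(fin 1233 4 976))))))))
(cons (mv 977 (cons (fin 913 6 912)
(mv 978 (cons (fin 979 1 975)
(mv 914 (cons (fin 915 2 911)
(mv 1042 (cons (fin 1043 0 975)
(mv 1167 (cons (fin 1231 5 975)
(mv 1169 (cons (fin 1233 4 976)
(mv 1105 (cons (fin 1106 5 913)
(mv 1166 (cons (fin 1165 2 1101)
(mv 1230 (cons (fin 1229 1 1165)
(fin 1103 5 974)))))))))))))))))))
(mv 913 (cons (fin 977 6 912)
(mv 912 (cons (fin 849 6 848)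
(mv 1169 (cons (fin 1105 4 912)
(fin 1233 4 976))))))))))))
(mv 911 (cons (fin 847 4 847)
(mv 1168 (cons (fin 1232 7 975)
(fin 1103 4 911)))))))))
(cons (mv 972 (cons (fin 974 0 972)
(mv 1101 (cons (cons (mv 908 (cons (fin 1165 7 908)
(mv 844 (cons (fin 909 7 844)
(fin 780 4 780)))))
(mv 909 (cons (mv 844 (cons (fin 908 7 844)
(mv 780 (cons (fin 845 7 780)
(mv 1100 (cons (fin 1164 5 908)
(mv 1102 (cons (fin 1103 2 1036)
(fin 1166 4 909)))))))))
(cons (mv 844 (cons (fin 908 7 844)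
(mv 845 (cons (fin 780 7 780)
(mv 781 (cons (fin 1036 5 780)
(mv 782 (cons (fin 718 6 717)
(fin 846 6 781)))))))))
(mv 1100 (cons (fin 1164 5 908)
(mv 1102 (cons (fin 1103 2 1036)
(fin 1166 4 909)))))))))
(cons (mv 1165 (cons (cons (mv 1036 (cons (fin 1229 7 972)
(mv 1164 (cons (fin 1228 5 972)
(mv 909 (cons (fin 1100 5 908)
(mv 1166 (cons (fin 1102 4 909)
(fin 1230 4 973)))))))))
(cons (mv 1164 (cons (fin 1228 5 972)
(mv 909 (cons (fin 1100 5 908)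
(mv 1166 (cons (fin 1102 4 909)
(fin 1230 4 973)))))))
(mv 1036 (cons (fin 1229 7 972)
(mv 1166 (cons (fin 1230 4 973)
(mv 909 (cons (fin 1102 4 909)
(mv 845 (cons (fin 781 5 780)
(fin 1100 5 844)))))))))))
(cons (cons (mv 1036 (cons (fin 1229 7 972)
(mv 1164 (cons (fin 1228 5 972)
(mv 1100 (cons (fin 909 5 908)
(mv 907 (cons (fin 971 7 907)
(mv 1102 (cons (fin 1103 2 1036)
(mv 1163 (cons (fin 1162 2 1098)
(fin 1227 5 971)))))))))))))
(mv 1036 (cons (fin 1229 7 972)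
(mv 1164 (cons (fin 1228 5 972)
(mv 1166 (cons (fin 1230 4 973)
(mv 1102 (cons (fin 909 4 909)
(mv 1103 (cons (fin 1104 3 1036)
(fin 1163 2 1099))))))))))))
(cons (mv 1036 (cons (fin 1229 7 972)
(mv 1164 (cons (fin 1228 5 972)
(mv 1100 (cons (fin 909 5 908)
(mv 907 (cons (fin 971 7 907)
(mv 1163 (cons (fin 1227 5 971)
(mv 1161 (cons (fin 1162 2 1097)
(mv 1166 (cons (fin 1230 4 973)
(mv 1168 (cons (fin 1167 3 1100)
(mv 1104 (cons (fin 1232 7 975)
(mv 911 (cons (fin 847 4 847)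
(fin 1103 4 911)))))))))))))))))))))
(mv 1164 (cons (fin 1228 5 972)
(mv 1229 (cons (fin 1036 7 972)
(mv 1230 (cons (fin 1166 4 973)
(fin 1294 4 1037)))))))))))
(mv 908 (cons (fin 1165 7 908)
(mv 844 (cons (fin 780 4 780)
(fin 1036 4 844))))))))))
(cons (mv 972 (cons (fin 974 0 972)
(mv 1104 (cons (cons (mv 911 (cons (fin 847 4 847)
(mv 1168 (cons (fin 976 7 911)
(fin 1232 7 975)))))
(mv 911 (cons (fin 847 4 847)
(mv 1103 (cons (mv 848 (cons (fin 912 6 847)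
(mv 1102 (cons (fin 1166 5 910)
(mv 1101 (cons (fin 1100 2 1036)
(mv 1165 (cons (fin 1164 1 1100)
(fin 908 7 908)))))))))
(cons (mv 1102 (cons (fin 1166 5 910)
(mv 1101 (cons (fin 1100 2 1036)
(mv 1165 (cons (fin 1164 1 1100)
(fin 908 7 908)))))))
(mv 912 (cons (fin 848 6 847)
(mv 976 (cons (fin 1167 5 911)
(mv 913 (cons (fin 849 6 848)
(mv 914 (cons (fin 915 1 911)
(mv 850 (cons (fin 851 2 847)
(mv 978 (cons (fin 979 0 911)
(mv 1105 (cons (fin 1169 4 912)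
(mv 1106 (cons (fin 1107 3 1039)
(mv 1042 (cons (fin 1043 2 1039)
(mv 1170 (cons (fin 1171 0 1103)
(fin 977 7 913)))))))))))))))))))))))))))
(cons (mv 1168 (cons (fin 1232 7 975)
(mv 976 (cons (cons (mv 913 (cons (fin 977 6 912)
(mv 912 (cons (fin 849 6 848)
(mv 848 (cons (fin 784 5 783)
(fin 1103 5 847)))))))
(mv 1167 (cons (fin 1231 5 975)
(mv 912 (cons (fin 1103 5 911)
(mv 1169 (cons (fin 1105 4 912)
(fin 1233 4 976))))))))
(cons (mv 977 (cons (fin 913 6 912)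
(mv 978 (cons (fin 979 1 975)
(mv 914 (cons (fin 915 2 911)
(mv 1042 (cons (fin 1043 0 975)
(mv 1167 (cons (fin 1231 5 975)
(mv 1169 (cons (fin 1233 4 976)
(mv 1105 (cons (fin 1106 5 913)
(mv 1166 (cons (fin 1165 2 1101)
(mv 1230 (cons (fin 1229 1 1165)
(fin 1103 5 974)))))))))))))))))))
(mv 913 (cons (fin 977 6 912)
(mv 912 (cons (fin 849 6 848)
(mv 1169 (cons (fin 1105 4 912)
(fin 1233 4 976))))))))))))
(mv 911 (cons (fin 847 4 847)
(mv 1168 (cons (fin 1232 7 975)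
(fin 1103 4 911))))))))))
(mv 974 (cons (fin 972 0 972)
(mv 976 (cons (fin 1036 1 972)
(mv 908 (cons (fin 909 3 908)
(mv 912 (cons (fin 913 2 909)
(mv 848 (cons (fin 784 5 783)
(mv 785 (cons (fin 849 6 784)
(mv 847 (cons (fin 783 7 783)
(mv 1104 (cons (fin 911 7 847)
(mv 1168 (cons (fin 1232 7 975)
(mv 1169 (cons (fin 1105 4 912)
(fin 1233 4 976))))))))))))))))))))))))))
(cons (mv 1038 (cons (cons (mv 976 (cons (fin 977 2 973)
(mv 975 (cons (fin 1036 2 972)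
(mv 1100 (cons (fin 1101 1 1036)
(mv 1104 (cons (fin 1105 0 1037)
(mv 911 (cons (fin 1168 7 911)
(fin 847 4 847)))))))))))
(cons (mv 1100 (cons (fin 1101 1 1036)
(mv 1104 (cons (fin 1105 0 1037)
(mv 1168 (cons (cons (mv 975 (cons (fin 1232 7 975)
(mv 911 (cons (fin 847 4 847)
(fin 1103 4 911)))))
(mv 1166 (cons (cons (mv 1036 (cons (fin 1103 0 1036)
(mv 909 (cons (fin 845 5 844)
(mv 1102 (cons (fin 974 7 909)
(fin 1230 7 973)))))))
(mv 1103 (cons (fin 1036 0 1036)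
(mv 975 (cons (fin 911 4 911)
(mv 1167 (cons (fin 1230 5 974)
(mv 1231 (cons (fin 974 7 974)
(fin 1295 6 1039))))))))))
(cons (mv 1102 (cons (fin 1230 7 973)
(mv 909 (cons (fin 974 7 909)
(fin 845 4 845)))))
(cons (mv 1036 (cons (fin 1103 0 1036)
(mv 909 (cons (fin 845 5 844)
(mv 974 (cons (fin 1102 7 909)
(mv 1035 (cons (fin 1034 2 970)
(fin 975 2 971)))))))))
(mv 1103 (cons (fin 1036 0 1036)
(mv 975 (cons (fin 911 4 911)
(mv 1230 (cons (fin 1102 7 973)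
(fin 1167 5 974))))))))))))
(cons (mv 1232 (cons (fin 975 7 975)
(mv 1295 (cons (fin 1231 5 1039)
(mv 1296 (cons (fin 1359 5 1103)
(mv 1297 (cons (fin 1233 4 1040)
(fin 1361 4 1104)))))))))
(mv 1103 (cons (fin 1036 0 1036)
(mv 1232 (cons (fin 1296 7 1039)
(mv 1231 (cons (fin 1295 5 1039)
(mv 1167 (cons (fin 974 7 974)
(mv 1230 (cons (fin 1294 5 1038)
(mv 1169 (cons (fin 1170 1 1166)
(fin 1229 2 1165))))))))))))))))))))
(mv 976 (cons (fin 977 2 973)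
(mv 975 (cons (fin 1036 2 972)
(mv 1100 (cons (fin 1101 1 1036)
(mv 912 (cons (mv 848 (cons (fin 784 5 783)
(fin 1103 5 847)))
(mv 974 (cons (fin 913 2 909)
(mv 909 (cons (fin 908 3 908)
(mv 845 (cons (fin 781 4 781)
(fin 1102 4 845)))))))))))))))))
(cons (mv 976 (cons (fin 977 2 973)
(mv 975 (cons (fin 1036 2 972)
(mv 1104 (cons (fin 1105 0 1037)
(mv 911 (cons (fin 1168 7 911)
(fin 847 4 847)))))))))
(cons (mv 976 (cons (fin 977 2 973)
(mv 1100 (cons (fin 1101 1 1036)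
(mv 1104 (cons (fin 1105 0 1037)
(mv 912 (cons (mv 1103 (cons (fin 848 5 847)
(fin 1167 5 911)))
(cons (mv 847 (cons (fin 911 7 847)
(mv 848 (cons (fin 783 7 783)
(mv 849 (cons (fin 785 6 784)
(fin 913 6 848)))))))
(mv 847 (cons (fin 911 7 847)
(mv 849 (cons (fin 913 6 848)
(mv 1167 (cons (fin 1103 5 911)
(mv 1168 (cons (fin 1231 5 975)
(mv 1232 (cons (fin 975 7 975)
(mv 1233 (cons (fin 1169 4 976)
(fin 1297 4 1040))))))))))))))))))))))
(mv 976 (cons (fin 977 2 973)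
(mv 1100 (cons (fin 1101 1 1036)
(mv 1104 (cons (fin 1105 0 1037)
(mv 1103 (cons (fin 1036 0 1036)
(mv 912 (cons (fin 848 5 847)
(fin 1167 5 911)))))))))))))))
(mv 1038 (cons (fin 972 3 972)
(mv 976 (cons (fin 977 2 973)
(mv 975 (cons (fin 1036 2 972)
(mv 1104 (cons (fin 1105 0 1037)
(mv 911 (cons (fin 1168 7 911)
(fin 847 4 847)))))))))))))
(cons (cons (mv 972 (cons (fin 1038 3 972)
(mv 975 (cons (fin 974 0 972)
(mv 1101 (cons (cons (mv 908 (cons (fin 1165 7 908)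
(mv 844 (cons (fin 909 7 844)
(fin 780 4 780)))))
(mv 909 (cons (mv 844 (cons (fin 908 7 844)
(mv 780 (cons (fin 845 7 780)
(mv 1100 (cons (fin 1164 5 908)
(mv 1102 (cons (fin 1103 2 1036)
(fin 1166 4 909)))))))))
(cons (mv 844 (cons (fin 908 7 844)
(mv 845 (cons (fin 780 7 780)
(mv 781 (cons (fin 1036 5 780)
(mv 782 (cons (fin 718 6 717)
(fin 846 6 781)))))))))
(mv 1100 (cons (fin 1164 5 908)
(mv 1102 (cons (fin 1103 2 1036)
(fin 1166 4 909)))))))))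
(cons (mv 1165 (cons (cons (mv 1036 (cons (fin 1229 7 972)
(mv 1164 (cons (fin 1228 5 972)
(mv 909 (cons (fin 1100 5 908)
(mv 1166 (cons (fin 1102 4 909)
(fin 1230 4 973)))))))))
(cons (mv 1164 (cons (fin 1228 5 972)
(mv 909 (cons (fin 1100 5 908)
(mv 1166 (cons (fin 1102 4 909)
(fin 1230 4 973)))))))
(mv 1036 (cons (fin 1229 7 972)
(mv 1166 (cons (fin 1230 4 973)
(mv 909 (cons (fin 1102 4 909)
(mv 845 (cons (fin 781 5 780)
(fin 1100 5 844)))))))))))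
(cons (cons (mv 1036 (cons (fin 1229 7 972)
(mv 1164 (cons (fin 1228 5 972)
(mv 1100 (cons (fin 909 5 908)
(mv 907 (cons (fin 971 7 907)
(mv 1102 (cons (fin 1103 2 1036)
(mv 1163 (cons (fin 1162 2 1098)
(fin 1227 5 971)))))))))))))
(mv 1036 (cons (fin 1229 7 972)
(mv 1164 (cons (fin 1228 5 972)
(mv 1166 (cons (fin 1230 4 973)
(mv 1102 (cons (fin 909 4 909)
(mv 1103 (cons (fin 1104 3 1036)
(fin 1163 2 1099))))))))))))
(cons (mv 1036 (cons (fin 1229 7 972)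
(mv 1164 (cons (fin 1228 5 972)
(mv 1100 (cons (fin 909 5 908)
(mv 907 (cons (fin 971 7 907)
(mv 1163 (cons (fin 1227 5 971)
(mv 1161 (cons (fin 1162 2 1097)
(mv 1166 (cons (fin 1230 4 973)
(mv 1168 (cons (fin 1167 3 1100)
(mv 1104 (cons (fin 1232 7 975)
(mv 911 (cons (fin 847 4 847)
(fin 1103 4 911)))))))))))))))))))))
(mv 1164 (cons (fin 1228 5 972)
(mv 1229 (cons (fin 1036 7 972)
(mv 1230 (cons (fin 1166 4 973)
(fin 1294 4 1037)))))))))))
(mv 908 (cons (fin 1165 7 908)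
(mv 844 (cons (fin 780 4 780)
(fin 1036 4 844))))))))))))
(mv 1038 (cons (fin 972 3 972)
(mv 976 (cons (fin 977 2 973)
(mv 1100 (cons (fin 1101 1 1036)
(mv 1104 (cons (fin 1105 0 1037)
(mv 1103 (cons (fin 1036 0 1036)
(mv 912 (cons (fin 848 5 847)
(fin 1167 5 911))))))))))))))
(cons (mv 1038 (cons (fin 972 3 972)
(mv 976 (cons (fin 977 2 973)
(mv 975 (cons (fin 1036 2 972)
(mv 1100 (cons (fin 1101 1 1036)
(mv 912 (cons (mv 848 (cons (fin 784 5 783)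
(fin 1103 5 847)))
(mv 974 (cons (fin 913 2 909)
(mv 909 (cons (fin 908 3 908)
(mv 845 (cons (fin 781 4 781)
(fin 1102 4 845)))))))))))))))))
(mv 972 (cons (fin 1038 3 972)
(mv 975 (cons (fin 974 0 972)
(mv 1104 (cons (cons (mv 911 (cons (fin 847 4 847)
(mv 1168 (cons (fin 976 7 911)
(fin 1232 7 975)))))
(mv 911 (cons (fin 847 4 847)
(mv 1103 (cons (mv 848 (cons (fin 912 6 847)
(mv 1102 (cons (fin 1166 5 910)
(mv 1101 (cons (fin 1100 2 1036)
(mv 1165 (cons (fin 1164 1 1100)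
(fin 908 7 908)))))))))
(cons (mv 1102 (cons (fin 1166 5 910)
(mv 1101 (cons (fin 1100 2 1036)
(mv 1165 (cons (fin 1164 1 1100)
(fin 908 7 908)))))))
(mv 912 (cons (fin 848 6 847)
(mv 976 (cons (fin 1167 5 911)
(mv 913 (cons (fin 849 6 848)
(mv 914 (cons (fin 915 1 911)
(mv 850 (cons (fin 851 2 847)
(mv 978 (cons (fin 979 0 911)
(mv 1105 (cons (fin 1169 4 912)
(mv 1106 (cons (fin 1107 3 1039)
(mv 1042 (cons (fin 1043 2 1039)
(mv 1170 (cons (fin 1171 0 1103)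
(fin 977 7 913)))))))))))))))))))))))))))
(cons (mv 1168 (cons (fin 1232 7 975)
(mv 976 (cons (cons (mv 913 (cons (fin 977 6 912)
(mv 912 (cons (fin 849 6 848)
(mv 848 (cons (fin 784 5 783)
(fin 1103 5 847)))))))
(mv 1167 (cons (fin 1231 5 975)
(mv 912 (cons (fin 1103 5 911)
(mv 1169 (cons (fin 1105 4 912)
(fin 1233 4 976))))))))
(cons (mv 977 (cons (fin 913 6 912)
(mv 978 (cons (fin 979 1 975)
(mv 914 (cons (fin 915 2 911)
(mv 1042 (cons (fin 1043 0 975)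
(mv 1167 (cons (fin 1231 5 975)
(mv 1169 (cons (fin 1233 4 976)
(mv 1105 (cons (fin 1106 5 913)
(mv 1166 (cons (fin 1165 2 1101)
(mv 1230 (cons (fin 1229 1 1165)
(fin 1103 5 974)))))))))))))))))))
(mv 913 (cons (fin 977 6 912)
(mv 912 (cons (fin 849 6 848)
(mv 1169 (cons (fin 1105 4 912)
(fin 1233 4 976))))))))))))
(mv 911 (cons (fin 847 4 847)
(mv 1168 (cons (fin 1232 7 975)
(fin 1103 4 911)))))))))))))))))
(cons (mv 1038 (cons (cons (cons (mv 1039 (cons (fin 972 3 972)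
(mv 976 (cons (fin 977 2 973)
(mv 975 (cons (fin 1036 2 972)
(mv 1100 (cons (fin 1101 1 1036)
(mv 1104 (cons (fin 1105 0 1037)
(mv 911 (cons (fin 1168 7 911)
(fin 847 4 847)))))))))))))
(mv 1102 (cons (cons (mv 909 (cons (fin 845 4 845)
(mv 1166 (cons (fin 974 7 909)
(fin 1230 7 973)))))
(mv 909 (cons (fin 845 4 845)
(mv 1101 (cons (cons (mv 846 (cons (fin 910 6 845)
(mv 1164 (cons (fin 1100 5 908)
(mv 1165 (cons (fin 1228 5 972)
(mv 1229 (cons (fin 974 6 973)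
(fin 1293 6 1037)))))))))
(mv 1164 (cons (fin 1100 5 908)
(mv 1165 (cons (fin 1228 5 972)
(mv 1229 (cons (fin 974 6 973)
(fin 1293 6 1037))))))))
(cons (mv 910 (cons (fin 846 6 845)
(mv 974 (cons (fin 1165 5 909)
(mv 847 (cons (fin 911 6 846)
(mv 1103 (cons (fin 1167 4 910)
(mv 1036 (cons (fin 1104 3 1036)
(fin 1035 0 1035)))))))))))
(cons (mv 910 (cons (fin 846 6 845)
(mv 1100 (cons (fin 1164 5 908)
(mv 1103 (cons (mv 1036 (cons (fin 1035 3 1035)
(fin 1104 3 1036)))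
(mv 1167 (cons (fin 1168 0 1100)
(fin 974 4 910)))))))))
(mv 846 (cons (fin 910 6 845)
(mv 1164 (cons (fin 1100 5 908)
(mv 1165 (cons (fin 1228 5 972)
(mv 1103 (cons (fin 1104 1 1100)
(mv 1036 (cons (fin 1035 0 1035)
(mv 1229 (cons (fin 972 7 972)
(fin 1293 6 1037))))))))))))))))))))
(cons (mv 1166 (cons (fin 1230 7 973)
(mv 974 (cons (mv 911 (cons (fin 975 6 910)
(mv 910 (cons (fin 847 6 846)
(mv 846 (cons (fin 782 5 781)
(fin 1101 5 845)))))))
(cons (mv 1165 (cons (fin 1229 5 973)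
(mv 910 (cons (fin 1101 5 909)
(mv 1167 (cons (fin 1103 4 910)
(fin 1231 4 974)))))))
(mv 975 (cons (fin 911 6 910)
(mv 976 (cons (fin 1036 1 972)
(fin 977 1 973))))))))))
(mv 909 (cons (fin 845 4 845)
(mv 1166 (cons (fin 1230 7 973)
(fin 1101 4 909)))))))))
(cons (mv 1039 (cons (cons (mv 976 (cons (fin 977 2 973)
(mv 975 (cons (fin 1036 2 972)
(mv 1100 (cons (fin 1101 1 1036)
(mv 1104 (cons (fin 1105 0 1037)
(mv 911 (cons (fin 1168 7 911)
(fin 847 4 847)))))))))))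
(cons (mv 1100 (cons (fin 1101 1 1036)
(mv 1104 (cons (fin 1105 0 1037)
(mv 1103 (cons (fin 1036 0 1036)
(mv 975 (cons (mv 911 (cons (fin 847 4 847)
(fin 1168 4 911)))
(cons (mv 1168 (cons (fin 1232 7 975)
(mv 1167 (cons (mv 974 (cons (fin 910 7 910)
(fin 1231 7 974)))
(cons (mv 974 (cons (fin 910 7 910)
(mv 1166 (cons (fin 1230 5 974)
(mv 1102 (cons (fin 909 7 909)
(mv 1165 (cons (fin 1164 2 1100)
(fin 1229 5 973)))))))))
(mv 1230 (cons (fin 1166 5 974)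
(mv 1231 (cons (fin 1294 5 1038)
(fin 1295 6 1039))))))))))
(mv 911 (cons (fin 847 4 847)
(mv 846 (cons (fin 910 7 846)
(mv 848 (cons (fin 912 6 847)
(mv 1166 (cons (fin 1102 5 910)
(mv 1167 (cons (fin 1230 5 974)
(mv 1231 (cons (fin 974 7 974)
(fin 1295 6 1039))))))))))))))))))))))
(mv 976 (cons (fin 977 2 973)
(mv 975 (cons (fin 1036 2 972)
(mv 1100 (cons (fin 1101 1 1036)
(mv 912 (cons (mv 848 (cons (fin 784 5 783)
(fin 1103 5 847)))
(cons (mv 913 (cons (fin 974 2 909)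
(mv 914 (cons (fin 915 1 911)
(mv 1103 (cons (fin 1167 6 911)
(mv 911 (cons (mv 846 (cons (fin 847 3 846)
(fin 910 7 846)))
(cons (mv 850 (cons (fin 851 2 847)
(mv 910 (cons (fin 849 2 846)
(fin 846 7 846)))))
(mv 847 (cons (fin 1102 5 846)
(fin 783 4 783))))))))))))
(mv 848 (cons (fin 784 5 783)
(mv 785 (cons (fin 849 6 784)
(mv 847 (cons (fin 783 7 783)
(mv 911 (cons (fin 1102 5 846)
(mv 846 (cons (fin 782 7 782)
(mv 845 (cons (fin 844 0 844)
(fin 913 0 845))))))))))))))))))))))))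
(cons (mv 976 (cons (fin 977 2 973)
(mv 975 (cons (fin 1036 2 972)
(mv 1104 (cons (fin 1105 0 1037)
(mv 911 (cons (fin 1168 7 911)
(fin 847 4 847)))))))))
(cons (mv 976 (cons (fin 977 2 973)
(mv 1100 (cons (fin 1101 1 1036)
(mv 1104 (cons (fin 1105 0 1037)
(mv 912 (cons (mv 1103 (cons (fin 848 5 847)
(fin 1167 5 911)))
(cons (mv 847 (cons (fin 911 7 847)
(mv 848 (cons (fin 783 7 783)
(mv 849 (cons (fin 785 6 784)
(fin 913 6 848)))))))
(mv 847 (cons (fin 911 7 847)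
(mv 849 (cons (fin 913 6 848)
(mv 1167 (cons (fin 1103 5 911)
(mv 1168 (cons (fin 1231 5 975)
(mv 1232 (cons (fin 975 7 975)
(mv 1233 (cons (fin 1169 4 976)
(fin 1297 4 1040))))))))))))))))))))))
(mv 976 (cons (fin 977 2 973)
(mv 1100 (cons (fin 1101 1 1036)
(mv 1104 (cons (fin 1105 0 1037)
(mv 1103 (cons (fin 1036 0 1036)
(mv 912 (cons (fin 848 5 847)
(fin 1167 5 911)))))))))))))))
(mv 1039 (cons (fin 972 3 972)
(mv 976 (cons (fin 977 2 973)
(mv 975 (cons (fin 1036 2 972)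
(mv 1104 (cons (fin 1105 0 1037)
(mv 911 (cons (fin 1168 7 911)
(fin 847 4 847)))))))))))))
(cons (cons (mv 1039 (cons (fin 972 3 972)
(mv 1100 (cons (fin 1101 1 1036)
(mv 1104 (cons (fin 1105 0 1037)
(mv 1103 (cons (fin 1036 0 1036)
(mv 975 (cons (mv 911 (cons (fin 847 4 847)
(fin 1168 4 911)))
(cons (mv 1168 (cons (fin 1232 7 975)
(mv 1167 (cons (mv 974 (cons (fin 910 7 910)
(fin 1231 7 974)))
(cons (mv 974 (cons (fin 910 7 910)
(mv 1166 (cons (fin 1230 5 974)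
(mv 1102 (cons (fin 909 7 909)
(mv 1165 (cons (fin 1164 2 1100)
(fin 1229 5 973)))))))))
(mv 1230 (cons (fin 1166 5 974)
(mv 1231 (cons (fin 1294 5 1038)
(fin 1295 6 1039))))))))))
(mv 911 (cons (fin 847 4 847)
(mv 846 (cons (fin 910 7 846)
(mv 848 (cons (fin 912 6 847)
(mv 1166 (cons (fin 1102 5 910)
(mv 1167 (cons (fin 1230 5 974)
(mv 1231 (cons (fin 974 7 974)
(fin 1295 6 1039))))))))))))))))))))))))
(mv 1039 (cons (fin 972 3 972)
(mv 976 (cons (fin 977 2 973)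
(mv 975 (cons (fin 1036 2 972)
(mv 1100 (cons (fin 1101 1 1036)
(mv 912 (cons (mv 848 (cons (fin 784 5 783)
(fin 1103 5 847)))
(cons (mv 913 (cons (fin 974 2 909)
(mv 914 (cons (fin 915 1 911)
(mv 1103 (cons (fin 1167 6 911)
(mv 911 (cons (mv 846 (cons (fin 847 3 846)
(fin 910 7 846)))
(cons (mv 850 (cons (fin 851 2 847)
(mv 910 (cons (fin 849 2 846)
(fin 846 7 846)))))
(mv 847 (cons (fin 1102 5 846)
(fin 783 4 783))))))))))))
(mv 848 (cons (fin 784 5 783)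
(mv 785 (cons (fin 849 6 784)
(mv 847 (cons (fin 783 7 783)
(mv 911 (cons (fin 1102 5 846)
(mv 846 (cons (fin 782 7 782)
(mv 845 (cons (fin 844 0 844)
(fin 913 0 845)))))))))))))))))))))))))
(cons (mv 1039 (cons (fin 972 3 972)
(mv 976 (cons (fin 977 2 973)
(mv 1100 (cons (fin 1101 1 1036)
(mv 1104 (cons (fin 1105 0 1037)
(mv 912 (cons (mv 1103 (cons (fin 848 5 847)
(fin 1167 5 911)))
(cons (mv 847 (cons (fin 911 7 847)
(mv 848 (cons (fin 783 7 783)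
(mv 849 (cons (fin 785 6 784)
(fin 913 6 848)))))))
(mv 847 (cons (fin 911 7 847)
(mv 849 (cons (fin 913 6 848)
(mv 1167 (cons (fin 1103 5 911)
(mv 1168 (cons (fin 1231 5 975)
(mv 1232 (cons (fin 975 7 975)
(mv 1233 (cons (fin 1169 4 976)
(fin 1297 4 1040))))))))))))))))))))))))
(mv 1039 (cons (fin 972 3 972)
(mv 976 (cons (fin 977 2 973)
(mv 1100 (cons (fin 1101 1 1036)
(mv 1104 (cons (fin 1105 0 1037)
(mv 1103 (cons (fin 1036 0 1036)
(mv 912 (cons (fin 848 5 847)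
(fin 1167 5 911)))))))))))))))))
(cons (mv 1038 (cons (cons (cons (mv 1039 (cons (fin 972 3 972)
(mv 976 (cons (fin 977 2 973)
(mv 975 (cons (fin 1036 2 972)
(mv 1100 (cons (fin 1101 1 1036)
(mv 1104 (cons (fin 1105 0 1037)
(mv 911 (cons (fin 1168 7 911)
(fin 847 4 847)))))))))))))
(mv 1102 (cons (cons (mv 909 (cons (fin 845 4 845)
(mv 1166 (cons (fin 974 7 909)
(fin 1230 7 973)))))
(mv 909 (cons (fin 845 4 845)
(mv 1101 (cons (cons (mv 844 (cons (fin 908 7 844)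
(mv 1164 (cons (fin 1100 5 908)
(mv 1165 (cons (fin 1228 5 972)
(mv 974 (cons (fin 910 5 909)
(fin 1229 6 973)))))))))
(mv 908 (cons (fin 844 7 844)
(mv 1165 (cons (fin 972 7 908)
(mv 974 (cons (fin 910 5 909)
(fin 1229 6 973))))))))
(cons (mv 1164 (cons (fin 1100 5 908)
(mv 1165 (cons (fin 1228 5 972)
(mv 974 (cons (fin 910 5 909)
(fin 1229 6 973)))))))
(cons (mv 908 (cons (fin 844 7 844)
(mv 1100 (cons (fin 1164 5 908)
(mv 1103 (cons (mv 1036 (cons (fin 1035 3 1035)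
(fin 1104 3 1036)))
(cons (mv 1104 (cons (fin 1105 3 1037)
(mv 1168 (cons (fin 1167 0 1100)
(fin 1169 0 1101)))))
(mv 1035 (cons (fin 1036 3 1035)
(mv 1167 (cons (fin 1168 0 1100)
(mv 974 (cons (fin 910 4 910)
(mv 907 (cons (fin 906 0 906)
(mv 975 (cons (fin 972 3 907)
(fin 976 3 908))))))))))))))))))
(mv 844 (cons (fin 908 7 844)
(mv 1164 (cons (fin 1100 5 908)
(mv 1165 (cons (fin 1228 5 972)
(mv 1103 (cons (fin 1104 1 1100)
(mv 1036 (cons (fin 1035 0 1035)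
(mv 1229 (cons (fin 972 7 972)
(fin 1293 6 1037))))))))))))))))))))
(cons (mv 1166 (cons (fin 1230 7 973)
(mv 974 (cons (cons (mv 911 (cons (fin 975 6 910)
(mv 910 (cons (fin 847 6 846)
(mv 1165 (cons (fin 1101 5 909)
(fin 1229 5 973)))))))
(mv 911 (cons (fin 975 6 910)
(mv 910 (cons (fin 847 6 846)
(mv 1167 (cons (fin 1103 4 910)
(fin 1231 4 974))))))))
(cons (mv 1165 (cons (fin 1229 5 973)
(mv 910 (cons (fin 1101 5 909)
(mv 1167 (cons (fin 1103 4 910)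
(fin 1231 4 974)))))))
(mv 975 (cons (fin 911 6 910)
(mv 976 (cons (fin 1036 1 972)
(fin 977 1 973))))))))))
(mv 909 (cons (fin 845 4 845)
(mv 1166 (cons (fin 1230 7 973)
(fin 1101 4 909)))))))))
(cons (mv 1039 (cons (cons (mv 976 (cons (fin 977 2 973)
(mv 975 (cons (fin 1036 2 972)
(mv 1100 (cons (fin 1101 1 1036)
(mv 1104 (cons (fin 1105 0 1037)
(mv 911 (cons (fin 1168 7 911)
(fin 847 4 847)))))))))))
(cons (mv 1100 (cons (fin 1101 1 1036)
(mv 1104 (cons (fin 1105 0 1037)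
(mv 1103 (cons (fin 1036 0 1036)
(mv 975 (cons (mv 911 (cons (fin 847 4 847)
(fin 1168 4 911)))
(cons (mv 1168 (cons (fin 1232 7 975)
(mv 1167 (cons (mv 974 (cons (fin 910 7 910)
(fin 1231 7 974)))
(cons (mv 974 (cons (fin 910 7 910)
(mv 1166 (cons (fin 1230 5 974)
(mv 1102 (cons (fin 909 7 909)
(mv 1165 (cons (fin 1164 2 1100)
(fin 1229 5 973)))))))))
(mv 1230 (cons (fin 1166 5 974)
(mv 1231 (cons (fin 1294 5 1038)
(fin 1295 6 1039))))))))))
(mv 911 (cons (fin 847 4 847)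
(mv 848 (cons (fin 912 6 847)
(mv 1166 (cons (fin 1102 5 910)
(mv 1167 (cons (fin 1230 5 974)
(mv 974 (cons (fin 910 7 910)
(fin 1231 7 974))))))))))))))))))))
(mv 976 (cons (fin 977 2 973)
(mv 975 (cons (fin 1036 2 972)
(mv 1100 (cons (fin 1101 1 1036)
(mv 912 (cons (mv 848 (cons (fin 784 5 783)
(fin 1103 5 847)))
(mv 974 (cons (fin 913 2 909)
(mv 909 (cons (fin 908 3 908)
(mv 845 (cons (fin 781 4 781)
(fin 1102 4 845)))))))))))))))))
(cons (mv 976 (cons (fin 977 2 973)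
(mv 975 (cons (fin 1036 2 972)
(mv 1104 (cons (fin 1105 0 1037)
(mv 911 (cons (fin 1168 7 911)
(fin 847 4 847)))))))))
(cons (mv 976 (cons (fin 977 2 973)
(mv 1100 (cons (fin 1101 1 1036)
(mv 1104 (cons (fin 1105 0 1037)
(mv 912 (cons (mv 1103 (cons (fin 848 5 847)
(fin 1167 5 911)))
(cons (mv 847 (cons (fin 911 7 847)
(mv 848 (cons (fin 783 7 783)
(mv 849 (cons (fin 785 6 784)
(fin 913 6 848)))))))
(mv 847 (cons (fin 911 7 847)
(mv 849 (cons (fin 913 6 848)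
(mv 1167 (cons (fin 1103 5 911)
(mv 1168 (cons (fin 1231 5 975)
(mv 1232 (cons (fin 975 7 975)
(mv 1233 (cons (fin 1169 4 976)
(fin 1297 4 1040))))))))))))))))))))))
(mv 976 (cons (fin 977 2 973)
(mv 1100 (cons (fin 1101 1 1036)
(mv 1104 (cons (fin 1105 0 1037)
(mv 1103 (cons (fin 1036 0 1036)
(mv 912 (cons (fin 848 5 847)
(fin 1167 5 911)))))))))))))))
(mv 1039 (cons (fin 972 3 972)
(mv 976 (cons (fin 977 2 973)
(mv 975 (cons (fin 1036 2 972)
(mv 1104 (cons (fin 1105 0 1037)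
(mv 911 (cons (fin 1168 7 911)
(fin 847 4 847)))))))))))))
(cons (cons (mv 1039 (cons (fin 972 3 972)
(mv 1100 (cons (fin 1101 1 1036)
(mv 1104 (cons (fin 1105 0 1037)
(mv 1103 (cons (fin 1036 0 1036)
(mv 975 (cons (mv 911 (cons (fin 847 4 847)
(fin 1168 4 911)))
(cons (mv 1168 (cons (fin 1232 7 975)
(mv 1167 (cons (mv 974 (cons (fin 910 7 910)
(fin 1231 7 974)))
(cons (mv 974 (cons (fin 910 7 910)
(mv 1166 (cons (fin 1230 5 974)
(mv 1102 (cons (fin 909 7 909)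
(mv 1165 (cons (fin 1164 2 1100)
(fin 1229 5 973)))))))))
(mv 1230 (cons (fin 1166 5 974)
(mv 1231 (cons (fin 1294 5 1038)
(fin 1295 6 1039))))))))))
(mv 911 (cons (fin 847 4 847)
(mv 848 (cons (fin 912 6 847)
(mv 1166 (cons (fin 1102 5 910)
(mv 1167 (cons (fin 1230 5 974)
(mv 974 (cons (fin 910 7 910)
(fin 1231 7 974))))))))))))))))))))))
(mv 1039 (cons (fin 972 3 972)
(mv 976 (cons (fin 977 2 973)
(mv 975 (cons (fin 1036 2 972)
(mv 1100 (cons (fin 1101 1 1036)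
(mv 912 (cons (mv 848 (cons (fin 784 5 783)
(fin 1103 5 847)))
(mv 974 (cons (fin 913 2 909)
(mv 909 (cons (fin 908 3 908)
(mv 845 (cons (fin 781 4 781)
(fin 1102 4 845))))))))))))))))))
(cons (mv 1039 (cons (fin 972 3 972)
(mv 976 (cons (fin 977 2 973)
(mv 1100 (cons (fin 1101 1 1036)
(mv 1104 (cons (fin 1105 0 1037)
(mv 912 (cons (mv 1103 (cons (fin 848 5 847)
(fin 1167 5 911)))
(cons (mv 847 (cons (fin 911 7 847)
(mv 848 (cons (fin 783 7 783)
(mv 849 (cons (fin 785 6 784)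
(fin 913 6 848)))))))
(mv 847 (cons (fin 911 7 847)
(mv 849 (cons (fin 913 6 848)
(mv 1167 (cons (fin 1103 5 911)
(mv 1168 (cons (fin 1231 5 975)
(mv 1232 (cons (fin 975 7 975)
(mv 1233 (cons (fin 1169 4 976)
(fin 1297 4 1040))))))))))))))))))))))))
(mv 1039 (cons (fin 972 3 972)
(mv 976 (cons (fin 977 2 973)
(mv 1100 (cons (fin 1101 1 1036)
(mv 1104 (cons (fin 1105 0 1037)
(mv 1103 (cons (fin 1036 0 1036)
(mv 912 (cons (fin 848 5 847)
(fin 1167 5 911)))))))))))))))))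
(mv 1038 (cons (cons (mv 1039 (cons (fin 972 3 972)
(mv 976 (cons (fin 977 2 973)
(mv 975 (cons (fin 1036 2 972)
(mv 1100 (cons (fin 1101 1 1036)
(mv 1104 (cons (fin 1105 0 1037)
(mv 911 (cons (fin 1168 7 911)
(fin 847 4 847)))))))))))))
(cons (mv 909 (cons (cons (mv 845 (cons (fin 1102 4 845)
(mv 780 (cons (fin 844 7 780)
(mv 781 (cons (fin 716 7 716)
(fin 974 4 781)))))))
(mv 1101 (cons (cons (mv 844 (cons (fin 908 7 844)
(mv 846 (cons (fin 910 6 845)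
(mv 1164 (cons (fin 1100 5 908)
(mv 1165 (cons (fin 1228 5 972)
(mv 1229 (cons (fin 974 6 973)
(mv 972 (cons (fin 1036 7 972)
(mv 970 (cons (fin 971 0 970)
(mv 1293 (cons (fin 1102 6 1037)
(mv 1294 (cons (fin 1230 4 1037)
(fin 1358 4 1101)))))))))))))))))))
(cons (mv 844 (cons (fin 908 7 844)
(mv 1164 (cons (fin 1100 5 908)
(mv 1165 (cons (fin 1228 5 972)
(mv 1229 (cons (fin 974 6 973)
(mv 972 (cons (fin 1036 7 972)
(mv 970 (cons (fin 971 0 970)
(mv 1293 (cons (fin 1102 6 1037)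
(mv 1294 (cons (fin 1230 4 1037)
(fin 1358 4 1101)))))))))))))))))
(mv 846 (cons (fin 910 6 845)
(mv 1164 (cons (fin 1100 5 908)
(mv 1165 (cons (fin 1228 5 972)
(mv 1229 (cons (fin 974 6 973)
(mv 972 (cons (fin 1036 7 972)
(mv 970 (cons (fin 971 0 970)
(mv 1293 (cons (fin 1102 6 1037)
(mv 1294 (cons (fin 1230 4 1037)
(fin 1358 4 1101)))))))))))))))))))
(cons (cons (mv 846 (cons (fin 910 6 845)
(mv 908 (cons (fin 844 7 844)
(mv 1165 (cons (fin 972 7 908)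
(mv 1229 (cons (fin 974 6 973)
(mv 1228 (cons (fin 1292 5 1036)
(mv 1293 (cons (fin 1102 6 1037)
(mv 1294 (cons (fin 1230 4 1037)
(fin 1358 4 1101)))))))))))))))
(mv 908 (cons (fin 844 7 844)
(mv 910 (cons (fin 846 6 845)
(mv 1100 (cons (fin 1164 5 908)
(mv 911 (cons (mv 972 (cons (fin 971 1 907)
(fin 912 1 908)))
(mv 847 (cons (fin 848 2 844)
(mv 974 (cons (fin 1102 6 846)
(mv 783 (cons (fin 719 5 718)
(fin 975 5 782))))))))))))))))
(cons (mv 846 (cons (fin 910 6 845)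
(mv 908 (cons (fin 844 7 844)
(mv 1164 (cons (fin 1100 5 908)
(mv 1165 (cons (fin 972 7 908)
(fin 1228 5 972)))))))))
(mv 844 (cons (fin 908 7 844)
(mv 846 (cons (fin 910 6 845)
(mv 1164 (cons (fin 1100 5 908)
(mv 1165 (cons (fin 1228 5 972)
(mv 1229 (cons (fin 974 6 973)
(mv 1293 (cons (fin 1102 6 1037)
(mv 1294 (cons (fin 1230 4 1037)
(fin 1358 4 1101))))))))))))))))))))
(cons (mv 845 (cons (mv 780 (cons (fin 844 7 780)
(mv 781 (cons (fin 716 7 716)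
(fin 974 4 781)))))
(cons (mv 780 (cons (fin 844 7 780)
(mv 846 (cons (fin 782 6 781)
(mv 1100 (cons (fin 1036 5 844)
(mv 1101 (cons (fin 1164 5 908)
(fin 910 6 845)))))))))
(mv 781 (cons (fin 974 4 781)
(mv 782 (cons (fin 718 6 717)
(fin 846 6 781))))))))
(cons (mv 845 (cons (fin 1102 4 845)
(mv 781 (cons (fin 974 4 781)
(mv 782 (cons (fin 718 6 717)
(fin 846 6 781)))))))
(mv 845 (cons (fin 1102 4 845)
(mv 780 (cons (fin 844 7 780)
(mv 716 (cons (fin 781 7 716)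
(mv 846 (cons (fin 782 6 781)
(mv 1100 (cons (fin 1036 5 844)
(mv 1101 (cons (fin 1164 5 908)
(fin 910 6 845)))))))))))))))))
(mv 1039 (cons (cons (mv 976 (cons (fin 977 2 973)
(mv 975 (cons (fin 1036 2 972)
(mv 1100 (cons (fin 1101 1 1036)
(mv 1104 (cons (fin 1105 0 1037)
(mv 911 (cons (fin 1168 7 911)
(fin 847 4 847)))))))))))
(cons (mv 1101 (cons (fin 1100 1 1036)
(mv 1104 (cons (fin 1105 0 1037)
(mv 1036 (cons (fin 1103 0 1036)
(mv 974 (cons (mv 910 (cons (fin 846 5 845)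
(fin 1165 6 909)))
(mv 1035 (cons (fin 1034 2 970)
(fin 975 2 971)))))))))))
(mv 976 (cons (fin 977 2 973)
(mv 975 (cons (fin 1036 2 972)
(mv 1100 (cons (fin 1101 1 1036)
(mv 912 (cons (mv 848 (cons (fin 784 5 783)
(fin 1103 5 847)))
(mv 974 (cons (fin 913 2 909)
(mv 909 (cons (fin 908 3 908)
(mv 845 (cons (fin 781 4 781)
(fin 1102 4 845)))))))))))))))))
(cons (mv 976 (cons (fin 977 2 973)
(mv 975 (cons (fin 1036 2 972)
(mv 1104 (cons (fin 1105 0 1037)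
(mv 911 (cons (fin 1168 7 911)
(fin 847 4 847)))))))))
(cons (mv 976 (cons (fin 977 2 973)
(mv 1100 (cons (fin 1101 1 1036)
(mv 1104 (cons (fin 1105 0 1037)
(mv 912 (cons (mv 1103 (cons (fin 848 5 847)
(fin 1167 5 911)))
(cons (mv 847 (cons (fin 911 7 847)
(mv 848 (cons (fin 783 7 783)
(mv 849 (cons (fin 785 6 784)
(fin 913 6 848)))))))
(mv 847 (cons (fin 911 7 847)
(mv 849 (cons (fin 913 6 848)
(mv 1167 (cons (fin 1103 5 911)
(mv 1168 (cons (fin 1231 5 975)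
(mv 1232 (cons (fin 975 7 975)
(mv 1233 (cons (fin 1169 4 976)
(fin 1297 4 1040))))))))))))))))))))))
(mv 976 (cons (fin 977 2 973)
(mv 1100 (cons (fin 1101 1 1036)
(mv 1104 (cons (fin 1105 0 1037)
(mv 1103 (cons (fin 1036 0 1036)
(mv 912 (cons (fin 848 5 847)
(fin 1167 5 911)))))))))))))))))
(cons (mv 1039 (cons (fin 972 3 972)
(mv 976 (cons (fin 977 2 973)
(mv 975 (cons (fin 1036 2 972)
(mv 1104 (cons (fin 1105 0 1037)
(mv 911 (cons (fin 1168 7 911)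
(fin 847 4 847)))))))))))
(cons (mv 1039 (cons (fin 972 3 972)
(mv 976 (cons (fin 977 2 973)
(mv 1100 (cons (fin 1101 1 1036)
(mv 1104 (cons (fin 1105 0 1037)
(mv 912 (cons (mv 1103 (cons (fin 848 5 847)
(fin 1167 5 911)))
(cons (mv 847 (cons (fin 911 7 847)
(mv 848 (cons (fin 783 7 783)
(mv 849 (cons (fin 785 6 784)
(fin 913 6 848)))))))
(mv 847 (cons (fin 911 7 847)
(mv 849 (cons (fin 913 6 848)
(mv 1167 (cons (fin 1103 5 911)
(mv 1168 (cons (fin 1231 5 975)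
(mv 1232 (cons (fin 975 7 975)
(mv 1233 (cons (fin 1169 4 976)
(fin 1297 4 1040))))))))))))))))))))))))
(mv 1039 (cons (fin 972 3 972)
(mv 976 (cons (fin 977 2 973)
(mv 1100 (cons (fin 1101 1 1036)
(mv 1104 (cons (fin 1105 0 1037)
(mv 1103 (cons (fin 1036 0 1036)
(mv 912 (cons (fin 848 5 847)
(fin 1167 5 911))))))))))))))))))))
(cons (cons (mv 1038 (cons (cons (cons (mv 1039 (cons (fin 972 3 972)
(mv 976 (cons (fin 977 2 973)
(mv 975 (cons (fin 1036 2 972)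
(mv 1100 (cons (fin 1101 1 1036)
(mv 1104 (cons (fin 1105 0 1037)
(mv 911 (cons (fin 1168 7 911)
(fin 847 4 847)))))))))))))
(mv 1102 (cons (cons (mv 909 (cons (fin 845 4 845)
(mv 1166 (cons (fin 974 7 909)
(fin 1230 7 973)))))
(mv 1166 (cons (fin 1230 7 973)
(mv 974 (cons (mv 911 (cons (fin 975 6 910)
(mv 910 (cons (fin 847 6 846)
(mv 846 (cons (fin 782 5 781)
(fin 1101 5 845)))))))
(cons (mv 1165 (cons (fin 1229 5 973)
(mv 910 (cons (fin 1101 5 909)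
(mv 1167 (cons (fin 1103 4 910)
(fin 1231 4 974)))))))
(mv 975 (cons (fin 911 6 910)
(mv 976 (cons (fin 1036 1 972)
(fin 977 1 973)))))))))))
(cons (mv 909 (cons (fin 845 4 845)
(mv 1101 (cons (cons (mv 844 (cons (fin 908 7 844)
(mv 910 (cons (fin 846 6 845)
(mv 974 (cons (fin 1165 5 909)
(mv 847 (cons (fin 911 6 846)
(mv 1103 (cons (fin 1167 4 910)
(mv 1036 (cons (fin 1104 3 1036)
(fin 1035 0 1035)))))))))))))
(mv 908 (cons (fin 844 7 844)
(mv 1165 (cons (fin 972 7 908)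
(mv 1229 (cons (fin 974 6 973)
(fin 1293 6 1037))))))))
(cons (mv 910 (cons (fin 846 6 845)
(mv 974 (cons (fin 1165 5 909)
(mv 847 (cons (fin 911 6 846)
(mv 1103 (cons (fin 1167 4 910)
(mv 1036 (cons (fin 1104 3 1036)
(fin 1035 0 1035)))))))))))
(cons (mv 844 (cons (fin 908 7 844)
(mv 910 (cons (fin 846 6 845)
(mv 1103 (cons (mv 1036 (cons (fin 1104 3 1036)
(fin 1035 0 1035)))
(mv 974 (cons (fin 1167 4 910)
(mv 911 (cons (fin 847 6 846)
(mv 912 (cons (fin 972 1 908)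
(fin 913 1 909)))))))))))))
(mv 908 (cons (fin 844 7 844)
(mv 910 (cons (fin 846 6 845)
(mv 972 (cons (fin 1165 7 908)
(mv 911 (cons (fin 971 1 907)
(fin 912 1 908)))))))))))))))
(mv 909 (cons (fin 845 4 845)
(mv 1166 (cons (fin 1230 7 973)
(fin 1101 4 909)))))))))
(cons (mv 1039 (cons (cons (mv 976 (cons (fin 977 2 973)
(mv 975 (cons (fin 1036 2 972)
(mv 1100 (cons (fin 1101 1 1036)
(mv 1104 (cons (fin 1105 0 1037)
(mv 911 (cons (fin 1168 7 911)
(fin 847 4 847)))))))))))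
(cons (mv 1100 (cons (fin 1101 1 1036)
(mv 1104 (cons (fin 1105 0 1037)
(mv 909 (cons (cons (mv 845 (cons (fin 1036 5 844)
(fin 1102 4 845)))
(mv 1103 (cons (fin 1036 0 1036)
(mv 974 (cons (cons (mv 846 (cons (fin 910 4 846)
(mv 1166 (cons (fin 1102 7 909)
(mv 1167 (cons (fin 1231 7 974)
(mv 975 (cons (fin 1230 5 974)
(mv 911 (cons (fin 847 4 847)
(fin 1168 4 911)))))))))))
(mv 1166 (cons (fin 1102 7 909)
(mv 1167 (cons (fin 1231 7 974)
(mv 975 (cons (fin 1230 5 974)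
(mv 911 (cons (fin 847 4 847)
(fin 1168 4 911))))))))))
(cons (mv 910 (cons (fin 846 4 846)
(mv 1102 (cons (fin 1166 7 909)
(mv 911 (cons (fin 847 6 846)
(mv 912 (cons (fin 913 1 909)
(mv 848 (cons (fin 849 2 845)
(fin 975 6 847)))))))))))
(cons (mv 910 (cons (fin 846 4 846)
(mv 1167 (cons (fin 975 7 910)
(fin 1231 7 974)))))
(mv 910 (cons (fin 846 4 846)
(mv 1102 (cons (fin 1166 7 909)
(fin 1167 4 910))))))))))))
(cons (mv 845 (cons (fin 1102 4 845)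
(mv 780 (cons (fin 844 7 780)
(mv 781 (cons (fin 716 7 716)
(fin 974 4 781)))))))
(mv 1036 (cons (fin 1103 0 1036)
(fin 845 5 844))))))))))
(mv 976 (cons (fin 977 2 973)
(mv 975 (cons (fin 1036 2 972)
(mv 1100 (cons (fin 1101 1 1036)
(mv 912 (cons (mv 848 (cons (fin 784 5 783)
(fin 1103 5 847)))
(mv 974 (cons (fin 913 2 909)
(mv 909 (cons (fin 908 3 908)
(mv 845 (cons (fin 781 4 781)
(fin 1102 4 845)))))))))))))))))
(cons (mv 976 (cons (fin 977 2 973)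
(mv 975 (cons (fin 1036 2 972)
(mv 1104 (cons (fin 1105 0 1037)
(mv 911 (cons (fin 1168 7 911)
(fin 847 4 847)))))))))
(cons (mv 976 (cons (fin 977 2 973)
(mv 1100 (cons (fin 1101 1 1036)
(mv 1104 (cons (fin 1105 0 1037)
(mv 912 (cons (mv 1103 (cons (fin 848 5 847)
(fin 1167 5 911)))
(cons (mv 847 (cons (fin 911 7 847)
(mv 848 (cons (fin 783 7 783)
(mv 849 (cons (fin 785 6 784)
(fin 913 6 848)))))))
(mv 847 (cons (fin 911 7 847)
(mv 849 (cons (fin 913 6 848)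
(mv 1167 (cons (fin 1103 5 911)
(mv 1168 (cons (fin 1231 5 975)
(mv 1232 (cons (fin 975 7 975)
(mv 1233 (cons (fin 1169 4 976)
(fin 1297 4 1040))))))))))))))))))))))
(mv 976 (cons (fin 977 2 973)
(mv 1100 (cons (fin 1101 1 1036)
(mv 1104 (cons (fin 1105 0 1037)
(mv 1103 (cons (fin 1036 0 1036)
(mv 912 (cons (fin 848 5 847)
(fin 1167 5 911)))))))))))))))
(mv 1039 (cons (fin 972 3 972)
(mv 976 (cons (fin 977 2 973)
(mv 975 (cons (fin 1036 2 972)
(mv 1104 (cons (fin 1105 0 1037)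
(mv 911 (cons (fin 1168 7 911)
(fin 847 4 847)))))))))))))
(cons (cons (mv 1039 (cons (fin 972 3 972)
(mv 1100 (cons (fin 1101 1 1036)
(mv 1104 (cons (fin 1105 0 1037)
(mv 909 (cons (cons (mv 845 (cons (fin 1036 5 844)
(fin 1102 4 845)))
(mv 1103 (cons (fin 1036 0 1036)
(mv 974 (cons (cons (mv 846 (cons (fin 910 4 846)
(mv 1166 (cons (fin 1102 7 909)
(mv 1167 (cons (fin 1231 7 974)
(mv 975 (cons (fin 1230 5 974)
(mv 911 (cons (fin 847 4 847)
(fin 1168 4 911)))))))))))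
(mv 1166 (cons (fin 1102 7 909)
(mv 1167 (cons (fin 1231 7 974)
(mv 975 (cons (fin 1230 5 974)
(mv 911 (cons (fin 847 4 847)
(fin 1168 4 911))))))))))
(cons (mv 910 (cons (fin 846 4 846)
(mv 1102 (cons (fin 1166 7 909)
(mv 911 (cons (fin 847 6 846)
(mv 912 (cons (fin 913 1 909)
(mv 848 (cons (fin 849 2 845)
(fin 975 6 847)))))))))))
(cons (mv 910 (cons (fin 846 4 846)
(mv 1167 (cons (fin 975 7 910)
(fin 1231 7 974)))))
(mv 910 (cons (fin 846 4 846)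
(mv 1102 (cons (fin 1166 7 909)
(fin 1167 4 910))))))))))))
(cons (mv 845 (cons (fin 1102 4 845)
(mv 780 (cons (fin 844 7 780)
(mv 781 (cons (fin 716 7 716)
(fin 974 4 781)))))))
(mv 1036 (cons (fin 1103 0 1036)
(fin 845 5 844))))))))))))
(mv 972 (cons (fin 1039 3 972)
(mv 970 (cons (fin 971 0 970)
(mv 908 (cons (cons (mv 844 (cons (fin 780 4 780)
(mv 1101 (cons (fin 909 7 844)
(fin 1165 7 908)))))
(mv 844 (cons (fin 780 4 780)
(mv 1036 (cons (cons (mv 779 (cons (fin 843 7 779)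
(mv 845 (cons (fin 781 6 780)
(mv 909 (cons (fin 1100 5 844)
(fin 1102 4 845)))))))
(mv 843 (cons (fin 779 7 779)
(mv 907 (cons (fin 1100 7 843)
(mv 905 (cons (fin 906 0 905)
(mv 974 (cons (fin 975 3 907)
(mv 1035 (cons (fin 1034 2 970)
(mv 1102 (cons (fin 1103 0 1035)
(mv 1166 (cons (fin 909 7 909)
(fin 1230 7 973))))))))))))))))
(cons (mv 845 (cons (fin 781 6 780)
(mv 909 (cons (fin 1100 5 844)
(fin 1102 4 845)))))
(cons (mv 781 (cons (fin 845 6 780)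
(mv 843 (cons (fin 779 7 779)
(mv 907 (cons (fin 1100 7 843)
(mv 906 (cons (fin 905 0 905)
(mv 974 (cons (fin 975 3 907)
(mv 1034 (cons (fin 1035 2 970)
(fin 1098 6 842)))))))))))))
(mv 779 (cons (fin 843 7 779)
(mv 845 (cons (fin 781 6 780)
(mv 909 (cons (fin 1102 4 845)
(mv 846 (cons (fin 782 6 781)
(mv 847 (cons (fin 907 1 843)
(fin 848 1 844))))))))))))))))))
(cons (mv 1101 (cons (fin 1165 7 908)
(mv 909 (cons (mv 1102 (cons (fin 845 4 845)
(fin 1166 4 909)))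
(cons (mv 846 (cons (fin 910 6 845)
(mv 845 (cons (fin 782 6 781)
(mv 781 (cons (fin 717 5 716)
(fin 1036 5 780)))))))
(mv 910 (cons (fin 846 6 845)
(mv 911 (cons (fin 912 1 908)
(mv 847 (cons (fin 848 2 844)
(mv 1102 (cons (fin 974 6 846)
(fin 1166 4 909))))))))))))))
(mv 844 (cons (fin 780 4 780)
(mv 1101 (cons (fin 1165 7 908)
(fin 1036 4 844)))))))))))))
(cons (mv 1039 (cons (fin 972 3 972)
(mv 976 (cons (fin 977 2 973)
(mv 1100 (cons (fin 1101 1 1036)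
(mv 1104 (cons (fin 1105 0 1037)
(mv 912 (cons (mv 1103 (cons (fin 848 5 847)
(fin 1167 5 911)))
(cons (mv 847 (cons (fin 911 7 847)
(mv 848 (cons (fin 783 7 783)
(mv 849 (cons (fin 785 6 784)
(fin 913 6 848)))))))
(mv 847 (cons (fin 911 7 847)
(mv 849 (cons (fin 913 6 848)
(mv 1167 (cons (fin 1103 5 911)
(mv 1168 (cons (fin 1231 5 975)
(mv 1232 (cons (fin 975 7 975)
(mv 1233 (cons (fin 1169 4 976)
(fin 1297 4 1040))))))))))))))))))))))))
(mv 1039 (cons (fin 972 3 972)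
(mv 976 (cons (fin 977 2 973)
(mv 1100 (cons (fin 1101 1 1036)
(mv 1104 (cons (fin 1105 0 1037)
(mv 1103 (cons (fin 1036 0 1036)
(mv 912 (cons (fin 848 5 847)
(fin 1167 5 911)))))))))))))))))
(mv 1038 (cons (cons (cons (mv 1039 (cons (fin 972 3 972)
(mv 1100 (cons (fin 1101 1 1036)
(mv 1104 (cons (fin 1105 0 1037)
(mv 1103 (cons (fin 1036 0 1036)
(mv 975 (cons (mv 911 (cons (fin 847 4 847)
(fin 1168 4 911)))
(cons (mv 1168 (cons (fin 1232 7 975)
(mv 1167 (cons (mv 974 (cons (fin 910 7 910)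
(fin 1231 7 974)))
(cons (mv 974 (cons (fin 910 7 910)
(mv 1166 (cons (fin 1230 5 974)
(mv 1102 (cons (fin 909 7 909)
(mv 1165 (cons (fin 1164 2 1100)
(fin 1229 5 973)))))))))
(mv 1230 (cons (fin 1166 5 974)
(mv 1231 (cons (fin 1294 5 1038)
(fin 1295 6 1039))))))))))
(mv 911 (cons (fin 847 4 847)
(mv 846 (cons (fin 910 7 846)
(mv 848 (cons (fin 912 6 847)
(mv 1166 (cons (fin 1102 5 910)
(mv 1167 (cons (fin 1230 5 974)
(mv 1231 (cons (fin 974 7 974)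
(fin 1295 6 1039))))))))))))))))))))))))
(mv 1102 (cons (cons (mv 909 (cons (fin 845 4 845)
(mv 1166 (cons (fin 974 7 909)
(fin 1230 7 973)))))
(mv 1166 (cons (fin 1230 7 973)
(mv 974 (cons (cons (mv 911 (cons (fin 975 6 910)
(mv 910 (cons (fin 847 6 846)
(mv 846 (cons (fin 782 5 781)
(fin 1101 5 845)))))))
(mv 1165 (cons (fin 1229 5 973)
(mv 910 (cons (fin 1101 5 909)
(mv 1167 (cons (fin 1103 4 910)
(fin 1231 4 974))))))))
(cons (mv 911 (cons (fin 975 6 910)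
(mv 1165 (cons (fin 1229 5 973)
(mv 1167 (cons (fin 1231 4 974)
(mv 1103 (cons (mv 1104 (cons (fin 1105 3 1037)
(fin 1164 2 1100)))
(cons (mv 1035 (cons (fin 1036 0 1035)
(mv 1164 (cons (fin 1163 2 1099)
(mv 1228 (cons (fin 1227 1 1163)
(fin 1101 5 972)))))))
(mv 1036 (cons (fin 1035 0 1035)
(mv 1104 (cons (fin 1101 3 1036)
(fin 1105 3 1037))))))))))))))
(mv 911 (cons (fin 975 6 910)
(mv 910 (cons (fin 847 6 846)
(mv 1167 (cons (fin 1103 4 910)
(fin 1231 4 974)))))))))))))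
(cons (mv 909 (cons (fin 845 4 845)
(mv 1101 (cons (cons (mv 844 (cons (fin 908 7 844)
(mv 846 (cons (fin 910 6 845)
(mv 1164 (cons (fin 1100 5 908)
(mv 1165 (cons (fin 1228 5 972)
(mv 1229 (cons (fin 974 6 973)
(fin 1293 6 1037)))))))))))
(cons (mv 844 (cons (fin 908 7 844)
(mv 1164 (cons (fin 1100 5 908)
(mv 1165 (cons (fin 1228 5 972)
(mv 1229 (cons (fin 974 6 973)
(fin 1293 6 1037)))))))))
(mv 844 (cons (fin 908 7 844)
(mv 910 (cons (fin 846 6 845)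
(mv 974 (cons (fin 1165 5 909)
(mv 847 (cons (fin 911 6 846)
(mv 1103 (cons (fin 1167 4 910)
(mv 1036 (cons (fin 1104 3 1036)
(fin 1035 0 1035)))))))))))))))
(cons (mv 846 (cons (fin 910 6 845)
(mv 1164 (cons (fin 1100 5 908)
(mv 1165 (cons (fin 1228 5 972)
(mv 1229 (cons (fin 974 6 973)
(fin 1293 6 1037)))))))))
(cons (mv 844 (cons (fin 908 7 844)
(mv 910 (cons (fin 846 6 845)
(mv 1100 (cons (fin 1164 5 908)
(mv 1103 (cons (mv 1036 (cons (fin 1035 3 1035)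
(fin 1104 3 1036)))
(mv 1167 (cons (fin 1168 0 1100)
(fin 974 4 910)))))))))))
(mv 844 (cons (fin 908 7 844)
(mv 846 (cons (fin 910 6 845)
(mv 1164 (cons (fin 1100 5 908)
(mv 1165 (cons (fin 1228 5 972)
(mv 1103 (cons (fin 1104 1 1100)
(mv 1036 (cons (fin 1035 0 1035)
(mv 1229 (cons (fin 972 7 972)
(fin 1293 6 1037)))))))))))))))))))))
(mv 909 (cons (fin 845 4 845)
(mv 1166 (cons (fin 1230 7 973)
(fin 1101 4 909)))))))))
(cons (mv 1102 (cons (cons (mv 909 (cons (fin 845 4 845)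
(mv 1166 (cons (fin 974 7 909)
(fin 1230 7 973)))))
(mv 909 (cons (fin 845 4 845)
(mv 1101 (cons (mv 1100 (cons (fin 1039 1 1036)
(fin 1164 5 908)))
(mv 844 (cons (fin 908 7 844)
(mv 910 (cons (fin 846 6 845)
(mv 974 (cons (fin 1165 5 909)
(mv 847 (cons (fin 911 6 846)
(mv 1103 (cons (fin 1167 4 910)
(mv 1036 (cons (fin 1104 3 1036)
(fin 1035 0 1035))))))))))))))))))
(cons (mv 1166 (cons (fin 1230 7 973)
(mv 974 (cons (cons (mv 911 (cons (fin 975 6 910)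
(mv 910 (cons (fin 847 6 846)
(mv 846 (cons (fin 782 5 781)
(fin 1101 5 845)))))))
(mv 1165 (cons (fin 1229 5 973)
(mv 910 (cons (fin 1101 5 909)
(mv 1167 (cons (fin 1103 4 910)
(fin 1231 4 974))))))))
(cons (mv 911 (cons (fin 975 6 910)
(mv 1165 (cons (fin 1229 5 973)
(mv 1167 (cons (fin 1231 4 974)
(mv 1103 (cons (mv 1104 (cons (fin 1105 3 1037)
(fin 1164 2 1100)))
(cons (mv 1035 (cons (fin 1036 0 1035)
(mv 1164 (cons (fin 1163 2 1099)
(mv 1228 (cons (fin 1227 1 1163)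
(fin 1101 5 972)))))))
(mv 1036 (cons (fin 1035 0 1035)
(mv 1104 (cons (fin 1101 3 1036)
(fin 1105 3 1037))))))))))))))
(mv 911 (cons (fin 975 6 910)
(mv 910 (cons (fin 847 6 846)
(mv 1167 (cons (fin 1103 4 910)
(fin 1231 4 974))))))))))))
(mv 909 (cons (fin 845 4 845)
(mv 1166 (cons (fin 1230 7 973)
(fin 1101 4 909))))))))
(cons (mv 972 (cons (fin 1039 3 972)
(mv 971 (cons (fin 970 0 970)
(mv 974 (cons (cons (mv 906 (cons (fin 907 3 906)
(mv 910 (cons (fin 911 2 907)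
(mv 846 (cons (fin 782 5 781)
(fin 1101 5 845)))))))
(mv 907 (cons (fin 906 3 906)
(mv 908 (cons (fin 975 3 907)
(mv 844 (cons (fin 780 4 780)
(mv 1101 (cons (fin 909 7 844)
(fin 1165 7 908))))))))))
(cons (mv 910 (cons (fin 911 2 907)
(mv 846 (cons (fin 782 5 781)
(fin 1101 5 845)))))
(mv 906 (cons (fin 907 3 906)
(mv 910 (cons (fin 911 2 907)
(mv 846 (cons (fin 782 5 781)
(mv 783 (cons (fin 847 6 782)
(mv 845 (cons (fin 781 7 781)
(mv 1035 (cons (fin 1034 1 970)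
(mv 1036 (cons (fin 975 1 971)
(mv 909 (cons (fin 1100 5 844)
(mv 844 (cons (fin 780 7 780)
(mv 843 (cons (fin 842 0 842)
(mv 779 (cons (fin 778 3 778)
(fin 908 7 779))))))))))))))))))))))))))))))
(mv 1039 (cons (fin 972 3 972)
(mv 1104 (cons (fin 1105 0 1037)
(mv 1103 (cons (fin 1036 0 1036)
(mv 975 (cons (mv 911 (cons (fin 847 4 847)
(fin 1168 4 911)))
(cons (mv 1168 (cons (fin 1232 7 975)
(mv 1167 (cons (mv 974 (cons (fin 910 7 910)
(fin 1231 7 974)))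
(cons (mv 974 (cons (fin 910 7 910)
(mv 1166 (cons (fin 1230 5 974)
(mv 1102 (cons (fin 909 7 909)
(mv 1165 (cons (fin 1164 2 1100)
(fin 1229 5 973)))))))))
(mv 1230 (cons (fin 1166 5 974)
(mv 1231 (cons (fin 1294 5 1038)
(fin 1295 6 1039))))))))))
(mv 911 (cons (fin 847 4 847)
(mv 846 (cons (fin 910 7 846)
(mv 848 (cons (fin 912 6 847)
(mv 1166 (cons (fin 1102 5 910)
(mv 1167 (cons (fin 1230 5 974)
(mv 1231 (cons (fin 974 7 974)
(fin 1295 6 1039)))))))))))))))))))))))))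
(cons (cons (mv 1039 (cons (fin 972 3 972)
(mv 1100 (cons (fin 1101 1 1036)
(mv 1104 (cons (fin 1105 0 1037)
(mv 1103 (cons (fin 1036 0 1036)
(mv 975 (cons (mv 911 (cons (fin 847 4 847)
(fin 1168 4 911)))
(cons (mv 1168 (cons (fin 1232 7 975)
(mv 1167 (cons (mv 974 (cons (fin 910 7 910)
(fin 1231 7 974)))
(cons (mv 974 (cons (fin 910 7 910)
(mv 1166 (cons (fin 1230 5 974)
(mv 1165 (cons (fin 1164 2 1100)
(mv 1229 (cons (fin 1228 1 1164)
(fin 1102 5 973)))))))))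
(mv 1230 (cons (fin 1166 5 974)
(mv 1231 (cons (fin 1294 5 1038)
(fin 1295 6 1039))))))))))
(mv 911 (cons (fin 847 4 847)
(mv 846 (cons (fin 910 7 846)
(mv 848 (cons (fin 912 6 847)
(mv 1166 (cons (fin 1102 5 910)
(mv 1167 (cons (fin 1230 5 974)
(mv 1231 (cons (fin 974 7 974)
(fin 1295 6 1039))))))))))))))))))))))))
(mv 1039 (cons (fin 972 3 972)
(mv 1101 (cons (fin 1100 1 1036)
(mv 1104 (cons (fin 1105 0 1037)
(mv 1036 (cons (fin 1103 0 1036)
(mv 909 (cons (mv 1102 (cons (fin 845 4 845)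
(fin 1166 4 909)))
(cons (mv 844 (cons (fin 908 7 844)
(mv 845 (cons (fin 780 7 780)
(mv 846 (cons (fin 782 6 781)
(fin 910 6 845)))))))
(mv 844 (cons (fin 908 7 844)
(mv 846 (cons (fin 910 6 845)
(mv 1166 (cons (fin 1102 4 909)
(mv 1165 (cons (fin 1230 4 973)
(mv 1228 (cons (fin 1164 5 972)
(mv 1229 (cons (fin 1292 5 1036)
(mv 1168 (cons (fin 1167 1 1164)
(mv 1232 (cons (fin 975 7 975)
(mv 1295 (cons (fin 1231 5 1039)
(mv 1296 (cons (fin 1359 5 1103)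
(mv 1297 (cons (fin 1233 4 1040)
(fin 1361 4 1104)))))))))))))))))))))))))))))))))))
(cons (mv 1039 (cons (fin 972 3 972)
(mv 1101 (cons (fin 1100 1 1036)
(mv 1104 (cons (fin 1105 0 1037)
(mv 1165 (cons (mv 974 (cons (fin 910 6 909)
(fin 1229 6 973)))
(mv 1164 (cons (fin 1228 5 972)
(mv 1102 (cons (fin 1103 1 1100)
(mv 909 (cons (fin 845 4 845)
(fin 1166 4 909)))))))))))))))
(cons (mv 1039 (cons (fin 972 3 972)
(mv 1100 (cons (fin 1101 1 1036)
(mv 1104 (cons (fin 1105 0 1037)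
(mv 909 (cons (cons (mv 845 (cons (fin 1036 5 844)
(fin 1102 4 845)))
(mv 1103 (cons (fin 1036 0 1036)
(mv 974 (cons (cons (mv 846 (cons (fin 910 4 846)
(mv 1166 (cons (fin 1102 7 909)
(mv 1167 (cons (fin 1231 7 974)
(mv 975 (cons (fin 1230 5 974)
(mv 911 (cons (fin 847 4 847)
(fin 1168 4 911)))))))))))
(mv 1166 (cons (fin 1102 7 909)
(mv 1167 (cons (fin 1231 7 974)
(mv 975 (cons (fin 1230 5 974)
(mv 911 (cons (fin 847 4 847)
(fin 1168 4 911))))))))))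
(cons (mv 910 (cons (fin 846 4 846)
(mv 1102 (cons (fin 1166 7 909)
(mv 911 (cons (fin 847 6 846)
(mv 912 (cons (fin 913 1 909)
(mv 848 (cons (fin 849 2 845)
(fin 975 6 847)))))))))))
(cons (mv 910 (cons (fin 846 4 846)
(mv 1167 (cons (fin 975 7 910)
(fin 1231 7 974)))))
(mv 910 (cons (fin 846 4 846)
(mv 1102 (cons (fin 1166 7 909)
(fin 1167 4 910))))))))))))
(cons (mv 845 (cons (fin 1102 4 845)
(mv 780 (cons (fin 844 7 780)
(mv 781 (cons (fin 716 7 716)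
(fin 974 4 781)))))))
(mv 1036 (cons (fin 1103 0 1036)
(fin 845 5 844))))))))))))
(mv 1039 (cons (fin 972 3 972)
(mv 1100 (cons (fin 1101 1 1036)
(mv 1104 (cons (fin 1105 0 1037)
(mv 1168 (cons (cons (mv 975 (cons (fin 1232 7 975)
(mv 911 (cons (fin 847 4 847)
(fin 1103 4 911)))))
(mv 1166 (cons (cons (mv 1036 (cons (fin 1103 0 1036)
(mv 909 (cons (fin 845 5 844)
(mv 1102 (cons (fin 974 7 909)
(fin 1230 7 973)))))))
(mv 1103 (cons (fin 1036 0 1036)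
(mv 975 (cons (fin 911 4 911)
(mv 1167 (cons (fin 1230 5 974)
(mv 1231 (cons (fin 974 7 974)
(fin 1295 6 1039))))))))))
(cons (mv 1102 (cons (fin 1230 7 973)
(mv 909 (cons (fin 974 7 909)
(fin 845 4 845)))))
(cons (mv 1036 (cons (fin 1103 0 1036)
(mv 909 (cons (fin 845 5 844)
(mv 974 (cons (fin 1102 7 909)
(mv 1035 (cons (fin 1034 2 970)
(fin 975 2 971)))))))))
(mv 1103 (cons (fin 1036 0 1036)
(mv 975 (cons (fin 911 4 911)
(mv 1230 (cons (fin 1102 7 973)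
(fin 1167 5 974))))))))))))
(cons (mv 1232 (cons (fin 975 7 975)
(mv 1295 (cons (fin 1231 5 1039)
(mv 1296 (cons (fin 1359 5 1103)
(mv 1297 (cons (fin 1233 4 1040)
(fin 1361 4 1104)))))))))
(mv 1103 (cons (fin 1036 0 1036)
(mv 1232 (cons (fin 1296 7 1039)
(mv 1231 (cons (fin 1295 5 1039)
(mv 1167 (cons (fin 974 7 974)
(mv 1230 (cons (fin 1294 5 1038)
(mv 1169 (cons (fin 1170 1 1166)
(fin 1229 2 1165))))))))))))))))))))))))))))
(cons (mv 1038 (cons (cons (mv 1039 (cons (fin 972 3 972)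
(mv 976 (cons (fin 977 2 973)
(mv 1100 (cons (fin 1101 1 1036)
(mv 1104 (cons (fin 1105 0 1037)
(mv 1103 (cons (fin 1036 0 1036)
(mv 912 (cons (fin 848 5 847)
(fin 1167 5 911)))))))))))))
(mv 1102 (cons (cons (mv 909 (cons (fin 845 4 845)
(mv 1166 (cons (fin 974 7 909)
(fin 1230 7 973)))))
(mv 1166 (cons (fin 1230 7 973)
(mv 974 (cons (cons (mv 1165 (cons (fin 1229 5 973)
(mv 910 (cons (fin 1101 5 909)
(mv 1167 (cons (fin 1103 4 910)
(fin 1231 4 974)))))))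
(mv 1167 (cons (fin 1231 4 974)
(mv 910 (cons (fin 1103 4 910)
(mv 846 (cons (fin 782 5 781)
(fin 1101 5 845))))))))
(cons (mv 1165 (cons (fin 1229 5 973)
(mv 910 (cons (fin 1101 5 909)
(mv 846 (cons (fin 782 5 781)
(mv 847 (cons (fin 783 6 782)
(fin 911 6 846)))))))))
(cons (mv 1165 (cons (fin 1229 5 973)
(mv 1167 (cons (fin 1231 4 974)
(mv 1103 (cons (mv 1104 (cons (fin 1105 3 1037)
(fin 1164 2 1100)))
(cons (mv 1035 (cons (fin 1036 0 1035)
(mv 1164 (cons (fin 1163 2 1099)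
(mv 1228 (cons (fin 1227 1 1163)
(fin 1101 5 972)))))))
(mv 1036 (cons (fin 1035 0 1035)
(mv 1104 (cons (fin 1101 3 1036)
(fin 1105 3 1037))))))))))))
(mv 1165 (cons (fin 1229 5 973)
(mv 1167 (cons (fin 1231 4 974)
(mv 910 (cons (fin 1103 4 910)
(mv 846 (cons (fin 782 5 781)
(mv 847 (cons (fin 783 6 782)
(fin 911 6 846))))))))))))))))))
(cons (mv 909 (cons (fin 845 4 845)
(mv 1101 (cons (cons (mv 844 (cons (fin 908 7 844)
(mv 846 (cons (fin 910 6 845)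
(mv 1164 (cons (fin 1100 5 908)
(mv 1165 (cons (fin 1228 5 972)
(mv 1229 (cons (fin 974 6 973)
(fin 1293 6 1037)))))))))))
(cons (mv 844 (cons (fin 908 7 844)
(mv 1164 (cons (fin 1100 5 908)
(mv 1165 (cons (fin 1228 5 972)
(mv 1229 (cons (fin 974 6 973)
(fin 1293 6 1037)))))))))
(mv 844 (cons (fin 908 7 844)
(mv 910 (cons (fin 846 6 845)
(mv 974 (cons (fin 1165 5 909)
(mv 847 (cons (fin 911 6 846)
(mv 1103 (cons (fin 1167 4 910)
(mv 1036 (cons (fin 1104 3 1036)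
(fin 1035 0 1035)))))))))))))))
(cons (mv 846 (cons (fin 910 6 845)
(mv 1164 (cons (fin 1100 5 908)
(mv 1165 (cons (fin 1228 5 972)
(mv 1229 (cons (fin 974 6 973)
(fin 1293 6 1037)))))))))
(cons (mv 844 (cons (fin 908 7 844)
(mv 910 (cons (fin 846 6 845)
(mv 1100 (cons (fin 1164 5 908)
(mv 1103 (cons (mv 1036 (cons (fin 1035 3 1035)
(fin 1104 3 1036)))
(mv 1167 (cons (fin 1168 0 1100)
(fin 974 4 910)))))))))))
(mv 844 (cons (fin 908 7 844)
(mv 846 (cons (fin 910 6 845)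
(mv 1164 (cons (fin 1100 5 908)
(mv 1165 (cons (fin 1228 5 972)
(mv 1103 (cons (fin 1104 1 1100)
(mv 1036 (cons (fin 1035 0 1035)
(mv 1229 (cons (fin 972 7 972)
(fin 1293 6 1037)))))))))))))))))))))
(mv 909 (cons (fin 845 4 845)
(mv 1166 (cons (fin 1230 7 973)
(fin 1101 4 909)))))))))
(cons (mv 1039 (cons (cons (mv 976 (cons (fin 977 2 973)
(mv 1100 (cons (fin 1101 1 1036)
(mv 1104 (cons (fin 1105 0 1037)
(mv 1103 (cons (fin 1036 0 1036)
(mv 912 (cons (fin 848 5 847)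
(fin 1167 5 911)))))))))))
(mv 976 (cons (fin 977 2 973)
(mv 1101 (cons (fin 1100 1 1036)
(mv 909 (cons (cons (mv 1102 (cons (fin 845 4 845)
(fin 1166 4 909)))
(mv 844 (cons (fin 908 7 844)
(mv 780 (cons (fin 845 7 780)
(mv 910 (cons (fin 846 6 845)
(mv 1165 (cons (fin 974 6 909)
(mv 1228 (cons (fin 1164 5 972)
(mv 1229 (cons (fin 1292 5 1036)
(mv 1230 (cons (fin 1166 4 973)
(fin 1294 4 1037))))))))))))))))
(cons (mv 844 (cons (fin 908 7 844)
(mv 846 (cons (fin 910 6 845)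
(mv 1166 (cons (fin 1102 4 909)
(mv 1165 (cons (fin 1230 4 973)
(mv 1228 (cons (fin 1164 5 972)
(mv 1229 (cons (fin 1292 5 1036)
(fin 974 6 973)))))))))))))
(mv 844 (cons (fin 908 7 844)
(mv 845 (cons (fin 780 7 780)
(fin 1102 4 845)))))))))))))
(cons (mv 976 (cons (fin 977 2 973)
(mv 1104 (cons (fin 1105 0 1037)
(mv 1103 (cons (fin 1036 0 1036)
(mv 912 (cons (fin 848 5 847)
(fin 1167 5 911)))))))))
(mv 1101 (cons (fin 1100 1 1036)
(mv 1104 (cons (fin 1105 0 1037)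
(mv 1036 (cons (fin 1103 0 1036)
(mv 909 (cons (cons (mv 1102 (cons (fin 845 4 845)
(fin 1166 4 909)))
(mv 844 (cons (fin 908 7 844)
(mv 780 (cons (fin 845 7 780)
(mv 910 (cons (fin 846 6 845)
(mv 1165 (cons (fin 974 6 909)
(mv 1228 (cons (fin 1164 5 972)
(mv 1229 (cons (fin 1292 5 1036)
(mv 1230 (cons (fin 1166 4 973)
(fin 1294 4 1037))))))))))))))))
(cons (mv 844 (cons (fin 908 7 844)
(mv 846 (cons (fin 910 6 845)
(mv 1166 (cons (fin 1102 4 909)
(mv 1165 (cons (fin 1230 4 973)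
(mv 1228 (cons (fin 1164 5 972)
(mv 1229 (cons (fin 1292 5 1036)
(fin 974 6 973)))))))))))))
(mv 844 (cons (fin 908 7 844)
(mv 845 (cons (fin 780 7 780)
(fin 1102 4 845)))))))))))))))))
(cons (mv 1039 (cons (fin 972 3 972)
(mv 976 (cons (fin 977 2 973)
(mv 1104 (cons (fin 1105 0 1037)
(mv 1103 (cons (fin 1036 0 1036)
(mv 912 (cons (fin 848 5 847)
(fin 1167 5 911)))))))))))
(mv 1039 (cons (fin 972 3 972)
(mv 976 (cons (fin 977 2 973)
(mv 1101 (cons (fin 1100 1 1036)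
(mv 909 (cons (cons (mv 1102 (cons (fin 845 4 845)
(fin 1166 4 909)))
(mv 844 (cons (fin 908 7 844)
(mv 780 (cons (fin 845 7 780)
(mv 910 (cons (fin 846 6 845)
(mv 1165 (cons (fin 974 6 909)
(mv 1228 (cons (fin 1164 5 972)
(mv 1229 (cons (fin 1292 5 1036)
(mv 1230 (cons (fin 1166 4 973)
(fin 1294 4 1037))))))))))))))))
(cons (mv 844 (cons (fin 908 7 844)
(mv 846 (cons (fin 910 6 845)
(mv 1166 (cons (fin 1102 4 909)
(mv 1165 (cons (fin 1230 4 973)
(mv 1228 (cons (fin 1164 5 972)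
(mv 1229 (cons (fin 1292 5 1036)
(fin 974 6 973)))))))))))))
(mv 844 (cons (fin 908 7 844)
(mv 845 (cons (fin 780 7 780)
(fin 1102 4 845))))))))))))))))))
(cons (mv 1038 (cons (cons (mv 1039 (cons (fin 972 3 972)
(mv 976 (cons (fin 977 2 973)
(mv 975 (cons (fin 1036 2 972)
(mv 1100 (cons (fin 1101 1 1036)
(mv 1104 (cons (fin 1105 0 1037)
(mv 911 (cons (fin 1168 7 911)
(fin 847 4 847)))))))))))))
(cons (mv 909 (cons (cons (mv 845 (cons (fin 1102 4 845)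
(mv 780 (cons (fin 844 7 780)
(mv 781 (cons (fin 716 7 716)
(fin 974 4 781)))))))
(mv 1101 (cons (cons (mv 844 (cons (fin 908 7 844)
(mv 846 (cons (fin 910 6 845)
(mv 1102 (cons (fin 1166 4 909)
(mv 1164 (cons (fin 1100 5 908)
(mv 1165 (cons (fin 1228 5 972)
(mv 1229 (cons (fin 974 6 973)
(fin 1293 6 1037)))))))))))))
(cons (mv 844 (cons (fin 908 7 844)
(mv 1102 (cons (fin 1166 4 909)
(mv 1164 (cons (fin 1100 5 908)
(mv 1165 (cons (fin 1228 5 972)
(mv 1229 (cons (fin 974 6 973)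
(fin 1293 6 1037)))))))))))
(mv 844 (cons (fin 908 7 844)
(mv 910 (cons (fin 846 6 845)
(mv 1164 (cons (fin 1100 5 908)
(mv 1165 (cons (fin 1228 5 972)
(fin 974 6 909)))))))))))
(cons (cons (mv 846 (cons (fin 910 6 845)
(mv 1102 (cons (fin 1166 4 909)
(mv 1164 (cons (fin 1100 5 908)
(mv 1165 (cons (fin 1228 5 972)
(mv 1229 (cons (fin 974 6 973)
(fin 1293 6 1037)))))))))))
(mv 844 (cons (fin 908 7 844)
(mv 910 (cons (fin 846 6 845)
(mv 974 (cons (fin 1165 6 909)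
(mv 1102 (cons (fin 1166 7 909)
(mv 847 (cons (fin 911 6 846)
(mv 1103 (cons (fin 1167 4 910)
(mv 1036 (cons (fin 1104 3 1036)
(fin 1035 0 1035))))))))))))))))
(cons (mv 844 (cons (fin 908 7 844)
(mv 846 (cons (fin 910 6 845)
(mv 1102 (cons (fin 1166 4 909)
(mv 1164 (cons (fin 1100 5 908)
(mv 1165 (cons (fin 1228 5 972)
(mv 1103 (cons (fin 1104 1 1100)
(mv 1036 (cons (fin 1035 0 1035)
(mv 1229 (cons (fin 972 7 972)
(fin 1293 6 1037)))))))))))))))))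
(mv 844 (cons (fin 908 7 844)
(mv 910 (cons (fin 846 6 845)
(mv 1100 (cons (fin 1164 5 908)
(mv 1102 (cons (fin 1166 4 909)
(mv 1103 (cons (mv 1036 (cons (fin 1035 3 1035)
(fin 1104 3 1036)))
(mv 1167 (cons (fin 1168 0 1100)
(fin 974 4 910))))))))))))))))))
(cons (mv 845 (cons (mv 780 (cons (fin 844 7 780)
(mv 781 (cons (fin 716 7 716)
(fin 974 4 781)))))
(cons (mv 780 (cons (fin 844 7 780)
(mv 846 (cons (fin 782 6 781)
(mv 1100 (cons (fin 1036 5 844)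
(mv 1101 (cons (fin 1164 5 908)
(fin 910 6 845)))))))))
(mv 781 (cons (fin 974 4 781)
(mv 782 (cons (fin 718 6 717)
(fin 846 6 781))))))))
(cons (mv 845 (cons (fin 1102 4 845)
(mv 780 (cons (fin 844 7 780)
(mv 716 (cons (fin 781 7 716)
(mv 846 (cons (fin 782 6 781)
(mv 1100 (cons (fin 1036 5 844)
(mv 1101 (cons (fin 1164 5 908)
(fin 910 6 845)))))))))))))
(mv 845 (cons (fin 1102 4 845)
(mv 781 (cons (fin 974 4 781)
(mv 782 (cons (fin 718 6 717)
(fin 846 6 781)))))))))))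
(mv 1039 (cons (cons (mv 976 (cons (fin 977 2 973)
(mv 975 (cons (fin 1036 2 972)
(mv 1100 (cons (fin 1101 1 1036)
(mv 1104 (cons (fin 1105 0 1037)
(mv 911 (cons (fin 1168 7 911)
(fin 847 4 847)))))))))))
(cons (mv 1101 (cons (fin 1100 1 1036)
(mv 1104 (cons (fin 1105 0 1037)
(mv 1036 (cons (fin 1103 0 1036)
(mv 974 (cons (mv 910 (cons (fin 846 5 845)
(fin 1165 6 909)))
(mv 1035 (cons (fin 1034 2 970)
(fin 975 2 971)))))))))))
(mv 976 (cons (fin 977 2 973)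
(mv 975 (cons (fin 1036 2 972)
(mv 1100 (cons (fin 1101 1 1036)
(mv 912 (cons (mv 848 (cons (fin 784 5 783)
(fin 1103 5 847)))
(mv 974 (cons (fin 913 2 909)
(mv 909 (cons (fin 908 3 908)
(mv 845 (cons (fin 781 4 781)
(fin 1102 4 845)))))))))))))))))
(cons (mv 976 (cons (fin 977 2 973)
(mv 975 (cons (fin 1036 2 972)
(mv 1104 (cons (fin 1105 0 1037)
(mv 911 (cons (fin 1168 7 911)
(fin 847 4 847)))))))))
(cons (mv 976 (cons (fin 977 2 973)
(mv 1100 (cons (fin 1101 1 1036)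
(mv 1104 (cons (fin 1105 0 1037)
(mv 912 (cons (mv 1103 (cons (fin 848 5 847)
(fin 1167 5 911)))
(cons (mv 847 (cons (fin 911 7 847)
(mv 848 (cons (fin 783 7 783)
(mv 849 (cons (fin 785 6 784)
(fin 913 6 848)))))))
(mv 847 (cons (fin 911 7 847)
(mv 849 (cons (fin 913 6 848)
(mv 1167 (cons (fin 1103 5 911)
(mv 1168 (cons (fin 1231 5 975)
(mv 1232 (cons (fin 975 7 975)
(mv 1233 (cons (fin 1169 4 976)
(fin 1297 4 1040))))))))))))))))))))))
(mv 976 (cons (fin 977 2 973)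
(mv 1100 (cons (fin 1101 1 1036)
(mv 1104 (cons (fin 1105 0 1037)
(mv 1103 (cons (fin 1036 0 1036)
(mv 912 (cons (fin 848 5 847)
(fin 1167 5 911)))))))))))))))))
(cons (mv 1039 (cons (fin 972 3 972)
(mv 976 (cons (fin 977 2 973)
(mv 975 (cons (fin 1036 2 972)
(mv 1104 (cons (fin 1105 0 1037)
(mv 911 (cons (fin 1168 7 911)
(fin 847 4 847)))))))))))
(cons (mv 1039 (cons (fin 972 3 972)
(mv 976 (cons (fin 977 2 973)
(mv 975 (cons (fin 1036 2 972)
(mv 1100 (cons (fin 1101 1 1036)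
(mv 912 (cons (mv 848 (cons (fin 784 5 783)
(fin 1103 5 847)))
(mv 974 (cons (fin 913 2 909)
(mv 909 (cons (fin 908 3 908)
(mv 845 (cons (fin 781 4 781)
(fin 1102 4 845)))))))))))))))))
(mv 1039 (cons (fin 972 3 972)
(mv 976 (cons (fin 977 2 973)
(mv 1100 (cons (fin 1101 1 1036)
(mv 1104 (cons (fin 1105 0 1037)
(mv 912 (cons (mv 1103 (cons (fin 848 5 847)
(fin 1167 5 911)))
(cons (mv 847 (cons (fin 911 7 847)
(mv 848 (cons (fin 783 7 783)
(mv 849 (cons (fin 785 6 784)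
(fin 913 6 848)))))))
(mv 847 (cons (fin 911 7 847)
(mv 849 (cons (fin 913 6 848)
(mv 1167 (cons (fin 1103 5 911)
(mv 1168 (cons (fin 1231 5 975)
(mv 1232 (cons (fin 975 7 975)
(mv 1233 (cons (fin 1169 4 976)
(fin 1297 4 1040))))))))))))))))))))))))))))
(mv 1038 (cons (cons (cons (mv 1039 (cons (fin 972 3 972)
(mv 976 (cons (fin 977 2 973)
(mv 975 (cons (fin 1036 2 972)
(mv 1100 (cons (fin 1101 1 1036)
(mv 1104 (cons (fin 1105 0 1037)
(mv 911 (cons (fin 1168 7 911)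
(fin 847 4 847)))))))))))))
(mv 1102 (cons (cons (mv 909 (cons (fin 845 4 845)
(mv 1166 (cons (fin 974 7 909)
(fin 1230 7 973)))))
(mv 1166 (cons (fin 1230 7 973)
(mv 974 (cons (mv 911 (cons (fin 975 6 910)
(mv 910 (cons (fin 847 6 846)
(mv 846 (cons (fin 782 5 781)
(fin 1101 5 845)))))))
(cons (mv 1167 (cons (fin 1231 4 974)
(mv 910 (cons (fin 1103 4 910)
(mv 846 (cons (fin 782 5 781)
(fin 1101 5 845)))))))
(mv 975 (cons (fin 911 6 910)
(mv 976 (cons (fin 1036 1 972)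
(fin 977 1 973)))))))))))
(cons (mv 909 (cons (fin 845 4 845)
(mv 1101 (cons (cons (mv 844 (cons (fin 908 7 844)
(mv 910 (cons (fin 846 6 845)
(mv 974 (cons (fin 1165 5 909)
(mv 847 (cons (fin 911 6 846)
(mv 1100 (cons (fin 1164 5 908)
(mv 1103 (cons (fin 1167 4 910)
(mv 1036 (cons (fin 1035 3 1035)
(fin 1104 3 1036)))))))))))))))
(mv 908 (cons (fin 844 7 844)
(mv 1164 (cons (fin 1100 5 908)
(mv 1165 (cons (fin 972 7 908)
(fin 1228 5 972))))))))
(cons (mv 844 (cons (fin 908 7 844)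
(mv 910 (cons (fin 846 6 845)
(mv 974 (cons (fin 1165 5 909)
(mv 847 (cons (fin 911 6 846)
(mv 1103 (cons (fin 1167 4 910)
(mv 1036 (cons (fin 1104 3 1036)
(fin 1035 0 1035)))))))))))))
(cons (mv 910 (cons (fin 846 6 845)
(mv 974 (cons (fin 1165 5 909)
(mv 847 (cons (fin 911 6 846)
(mv 1100 (cons (fin 1164 5 908)
(mv 1103 (cons (fin 1167 4 910)
(mv 1036 (cons (fin 1035 3 1035)
(fin 1104 3 1036)))))))))))))
(mv 844 (cons (fin 908 7 844)
(mv 910 (cons (fin 846 6 845)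
(mv 1100 (cons (fin 1164 5 908)
(mv 1103 (cons (mv 1036 (cons (fin 1035 3 1035)
(fin 1104 3 1036)))
(mv 1167 (cons (fin 1168 0 1100)
(fin 974 4 910)))))))))))))))))
(mv 909 (cons (fin 845 4 845)
(mv 1166 (cons (fin 1230 7 973)
(fin 1101 4 909)))))))))
(cons (mv 1039 (cons (cons (mv 976 (cons (fin 977 2 973)
(mv 975 (cons (fin 1036 2 972)
(mv 1100 (cons (fin 1101 1 1036)
(mv 1104 (cons (fin 1105 0 1037)
(mv 911 (cons (fin 1168 7 911)
(fin 847 4 847)))))))))))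
(cons (mv 1100 (cons (fin 1101 1 1036)
(mv 1104 (cons (fin 1105 0 1037)
(mv 909 (cons (cons (mv 845 (cons (fin 1036 5 844)
(fin 1102 4 845)))
(mv 1103 (cons (fin 1036 0 1036)
(mv 974 (cons (cons (mv 846 (cons (fin 910 4 846)
(mv 1166 (cons (fin 1102 7 909)
(mv 1167 (cons (fin 1231 7 974)
(mv 975 (cons (fin 1230 5 974)
(mv 911 (cons (fin 847 4 847)
(fin 1168 4 911)))))))))))
(mv 1166 (cons (fin 1102 7 909)
(mv 1167 (cons (fin 1231 7 974)
(mv 975 (cons (fin 1230 5 974)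
(mv 911 (cons (fin 847 4 847)
(fin 1168 4 911))))))))))
(cons (mv 910 (cons (fin 846 4 846)
(mv 1102 (cons (fin 1166 7 909)
(mv 911 (cons (fin 847 6 846)
(mv 912 (cons (fin 913 1 909)
(mv 848 (cons (fin 849 2 845)
(fin 975 6 847)))))))))))
(cons (mv 910 (cons (fin 846 4 846)
(mv 1167 (cons (fin 975 7 910)
(fin 1231 7 974)))))
(mv 910 (cons (fin 846 4 846)
(mv 1102 (cons (fin 1166 7 909)
(fin 1167 4 910))))))))))))
(cons (mv 845 (cons (fin 1102 4 845)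
(mv 780 (cons (fin 844 7 780)
(mv 781 (cons (fin 716 7 716)
(fin 974 4 781)))))))
(mv 1036 (cons (fin 1103 0 1036)
(fin 845 5 844))))))))))
(mv 976 (cons (fin 977 2 973)
(mv 975 (cons (fin 1036 2 972)
(mv 1100 (cons (fin 1101 1 1036)
(mv 912 (cons (mv 848 (cons (fin 784 5 783)
(fin 1103 5 847)))
(mv 974 (cons (fin 913 2 909)
(mv 909 (cons (fin 908 3 908)
(mv 845 (cons (fin 781 4 781)
(fin 1102 4 845)))))))))))))))))
(cons (mv 976 (cons (fin 977 2 973)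
(mv 975 (cons (fin 1036 2 972)
(mv 1104 (cons (fin 1105 0 1037)
(mv 911 (cons (fin 1168 7 911)
(fin 847 4 847)))))))))
(cons (mv 976 (cons (fin 977 2 973)
(mv 1100 (cons (fin 1101 1 1036)
(mv 1104 (cons (fin 1105 0 1037)
(mv 912 (cons (mv 1103 (cons (fin 848 5 847)
(fin 1167 5 911)))
(cons (mv 847 (cons (fin 911 7 847)
(mv 848 (cons (fin 783 7 783)
(mv 849 (cons (fin 785 6 784)
(fin 913 6 848)))))))
(mv 847 (cons (fin 911 7 847)
(mv 849 (cons (fin 913 6 848)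
(mv 1167 (cons (fin 1103 5 911)
(mv 1168 (cons (fin 1231 5 975)
(mv 1232 (cons (fin 975 7 975)
(mv 1233 (cons (fin 1169 4 976)
(fin 1297 4 1040))))))))))))))))))))))
(mv 976 (cons (fin 977 2 973)
(mv 1100 (cons (fin 1101 1 1036)
(mv 1104 (cons (fin 1105 0 1037)
(mv 1103 (cons (fin 1036 0 1036)
(mv 912 (cons (fin 848 5 847)
(fin 1167 5 911)))))))))))))))
(mv 1039 (cons (fin 972 3 972)
(mv 976 (cons (fin 977 2 973)
(mv 975 (cons (fin 1036 2 972)
(mv 1104 (cons (fin 1105 0 1037)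
(mv 911 (cons (fin 1168 7 911)
(fin 847 4 847)))))))))))))
(cons (cons (mv 1039 (cons (fin 972 3 972)
(mv 1100 (cons (fin 1101 1 1036)
(mv 1104 (cons (fin 1105 0 1037)
(mv 909 (cons (cons (mv 845 (cons (fin 1036 5 844)
(fin 1102 4 845)))
(mv 1103 (cons (fin 1036 0 1036)
(mv 974 (cons (cons (mv 846 (cons (fin 910 4 846)
(mv 1166 (cons (fin 1102 7 909)
(mv 1167 (cons (fin 1231 7 974)
(mv 975 (cons (fin 1230 5 974)
(mv 911 (cons (fin 847 4 847)
(fin 1168 4 911)))))))))))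
(mv 1166 (cons (fin 1102 7 909)
(mv 1167 (cons (fin 1231 7 974)
(mv 975 (cons (fin 1230 5 974)
(mv 911 (cons (fin 847 4 847)
(fin 1168 4 911))))))))))
(cons (mv 910 (cons (fin 846 4 846)
(mv 1102 (cons (fin 1166 7 909)
(mv 911 (cons (fin 847 6 846)
(mv 912 (cons (fin 913 1 909)
(mv 848 (cons (fin 849 2 845)
(fin 975 6 847)))))))))))
(cons (mv 910 (cons (fin 846 4 846)
(mv 1167 (cons (fin 975 7 910)
(fin 1231 7 974)))))
(mv 910 (cons (fin 846 4 846)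
(mv 1102 (cons (fin 1166 7 909)
(fin 1167 4 910))))))))))))
(cons (mv 845 (cons (fin 1102 4 845)
(mv 780 (cons (fin 844 7 780)
(mv 781 (cons (fin 716 7 716)
(fin 974 4 781)))))))
(mv 1036 (cons (fin 1103 0 1036)
(fin 845 5 844))))))))))))
(mv 1039 (cons (fin 972 3 972)
(mv 976 (cons (fin 977 2 973)
(mv 975 (cons (fin 1036 2 972)
(mv 1100 (cons (fin 1101 1 1036)
(mv 912 (cons (mv 848 (cons (fin 784 5 783)
(fin 1103 5 847)))
(mv 974 (cons (fin 913 2 909)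
(mv 909 (cons (fin 908 3 908)
(mv 845 (cons (fin 781 4 781)
(fin 1102 4 845))))))))))))))))))
(cons (mv 1039 (cons (fin 972 3 972)
(mv 976 (cons (fin 977 2 973)
(mv 1100 (cons (fin 1101 1 1036)
(mv 1104 (cons (fin 1105 0 1037)
(mv 912 (cons (mv 1103 (cons (fin 848 5 847)
(fin 1167 5 911)))
(cons (mv 847 (cons (fin 911 7 847)
(mv 848 (cons (fin 783 7 783)
(mv 849 (cons (fin 785 6 784)
(fin 913 6 848)))))))
(mv 847 (cons (fin 911 7 847)
(mv 849 (cons (fin 913 6 848)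
(mv 1167 (cons (fin 1103 5 911)
(mv 1168 (cons (fin 1231 5 975)
(mv 1232 (cons (fin 975 7 975)
(mv 1233 (cons (fin 1169 4 976)
(fin 1297 4 1040))))))))))))))))))))))))
(mv 1039 (cons (fin 972 3 972)
(mv 976 (cons (fin 977 2 973)
(mv 1100 (cons (fin 1101 1 1036)
(mv 1104 (cons (fin 1105 0 1037)
(mv 1103 (cons (fin 1036 0 1036)
(mv 912 (cons (fin 848 5 847)
(fin 1167 5 911)))))))))))))))))))))))
def l115 : Lem := ⟨13254031944712882724506621310649321556018620670345837899455453023597314721787975009848330616026462815765143756135158089473467252075149308743152655366187148242124071246428482498451210046760672027239036899891323305324899173507745103325308665813954110541579506451753178596634830548552232523722901151470534797188661248, 116052321958397194461998280508737214831721484256038066784879622080600362588912055953009381598692244880884811131409027551413065248050993816894230827062452420624788370118564090006430830259850762675540237985606699323330035872425103416075046169352996863778853791274247616304019157768337367015931450931600538448753873913498352933055685245839805102458983773429921095835107371166600478591199168735203398811081740767536461100009383788544,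 116052321958397194461998280508737214831721484256038066784879622080600362588912055953009381598692244880884811131409027551413065248050993816894230827062452420624788370118564090006430830259850762675540237985606699323330035872425103416075046169352996863778853791274247616304019157768337367015931450931600538448753873913498352933055685245839805102458983773429921095835107371166600478591199168735203398811081740767536461100009383788544, 19, 33⟩
theorem l115_valid : l115.Valid :=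
  Lem.valid_of_chk t115 t115_valid [1037, 1040] c115 l115 (by decide +kernel)
end Crest.Agent.SnakyAux
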