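import Crest.Agent.S0047_aux.Checker

set_option autoImplicit false
set_option maxRecDepth 100000
namespace Crest.Agent.SnakyAux
open Cert
def t118 : Tbl := Tbl.nil
theorem t118_valid : t118.Valid := Tbl.valid_nil
def c118 : Cert :=
(mv 1101 (cons (cons (cons (cons (mv 1038 (cons (cons (mv 1039 (cons (fin 1100 1 1036)
(mv 1104 (cons (fin 1105 0 1037)
(mv 1103 (cons (fin 1036 0 1036)
(mv 972 (cons (fin 973 3 972)
(mv 976 (cons (fin 977 2 973)
(mv 1167 (cons (fin 912 5 911)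
(fin 1231 6 975)))))))))))))
(cons (mv 974 (cons (cons (mv 1165 (cons (fin 1229 6 973)
(mv 910 (cons (fin 1102 5 909)
(fin 846 5 845)))))
(mv 910 (cons (fin 846 5 845)
(mv 1102 (cons (cons (mv 1167 (cons (fin 1103 4 910)
(mv 1166 (cons (fin 1231 4 974)
(mv 1230 (cons (fin 1294 7 1037)
(fin 973 7 973)))))))
(mv 909 (cons (fin 845 7 845)
(mv 1166 (cons (fin 973 7 909)
(mv 1230 (cons (fin 1294 7 1037)
(mv 1231 (cons (fin 1295 4 1038)
(fin 1167 4 974))))))))))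
(cons (mv 909 (cons (fin 845 7 845)
(mv 973 (cons (fin 1166 7 909)
(mv 1164 (cons (fin 1100 5 908)
(mv 908 (cons (fin 844 7 844)
(mv 975 (cons (fin 976 3 908)
(fin 907 0 907)))))))))))
(mv 1103 (cons (fin 1167 4 910)
(mv 1104 (cons (fin 1036 3 1036)
(fin 1105 3 1037)))))))))))
(cons (mv 1165 (cons (fin 1229 6 973)
(mv 973 (cons (cons (mv 1228 (cons (fin 1164 5 972)
(mv 1230 (cons (fin 1166 4 973)
(mv 972 (cons (fin 908 7 908)
(mv 971 (cons (fin 970 0 970)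
(mv 1035 (cons (fin 1034 1 970)
(mv 1036 (cons (fin 975 1 971)
(mv 1098 (cons (fin 1099 1 1034)
(mv 1102 (cons (fin 1103 0 1035)
(mv 907 (cons (fin 906 3 906)
(mv 843 (cons (fin 1100 4 843)
(fin 779 4 779)))))))))))))))))))))
(cons (mv 1228 (cons (fin 1164 5 972)
(mv 972 (cons (fin 908 7 908)
(mv 971 (cons (fin 970 0 970)
(mv 1035 (cons (fin 1034 1 970)
(mv 1036 (cons (fin 975 1 971)
(mv 1098 (cons (fin 1099 1 1034)
(mv 1102 (cons (fin 1103 0 1035)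
(mv 907 (cons (fin 906 3 906)
(mv 843 (cons (fin 1100 4 843)
(fin 779 4 779)))))))))))))))))))
(mv 1228 (cons (fin 1164 5 972)
(mv 1166 (cons (fin 1230 4 973)
(mv 1102 (cons (fin 909 7 909)
(mv 1167 (cons (fin 1231 4 974)
(mv 1168 (cons (fin 1100 3 1100)
(fin 1169 3 1101)))))))))))))
(cons (mv 1230 (cons (fin 1166 4 973)
(mv 972 (cons (fin 908 7 908)
(mv 971 (cons (fin 970 0 970)
(mv 1035 (cons (fin 1034 1 970)
(mv 1036 (cons (fin 975 1 971)
(mv 1098 (cons (fin 1099 1 1034)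
(mv 1102 (cons (fin 1103 0 1035)
(mv 907 (cons (fin 906 3 906)
(mv 843 (cons (fin 1100 4 843)
(fin 779 4 779)))))))))))))))))))
(cons (mv 1228 (cons (fin 1164 5 972)
(mv 1230 (cons (fin 1166 4 973)
(mv 972 (cons (fin 908 7 908)
(mv 971 (cons (fin 970 0 970)
(mv 1035 (cons (fin 1034 1 970)
(mv 1036 (cons (fin 975 1 971)
(mv 1098 (cons (fin 1099 1 1034)
(mv 907 (cons (fin 906 3 906)
(mv 843 (cons (fin 1100 4 843)
(fin 779 4 779)))))))))))))))))))
(mv 1228 (cons (fin 1164 5 972)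
(mv 1230 (cons (fin 1166 4 973)
(mv 908 (cons (fin 972 7 908)
(mv 909 (cons (fin 844 7 844)
(mv 845 (cons (fin 1102 4 845)
(fin 781 4 781)))))))))))))))))
(mv 1165 (cons (fin 1229 6 973)
(mv 910 (cons (fin 846 5 845)
(fin 973 6 909))))))))
(mv 1039 (cons (cons (mv 1104 (cons (fin 1105 0 1037)
(mv 1103 (cons (fin 1036 0 1036)
(mv 972 (cons (fin 973 3 972)
(mv 976 (cons (fin 977 2 973)
(mv 1167 (cons (fin 912 5 911)
(fin 1231 6 975)))))))))))
(mv 1104 (cons (fin 1105 0 1037)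
(mv 1103 (cons (fin 1036 0 1036)
(mv 976 (cons (fin 977 2 973)
(mv 1167 (cons (fin 912 5 911)
(fin 1231 6 975))))))))))
(cons (mv 972 (cons (fin 973 3 972)
(mv 1036 (cons (fin 971 3 971)
(mv 976 (cons (fin 975 2 972)
(fin 977 2 973)))))))
(cons (mv 1104 (cons (fin 1105 0 1037)
(mv 1036 (cons (fin 1103 0 1036)
(mv 972 (cons (fin 971 3 971)
(fin 973 3 972)))))))
(mv 1104 (cons (fin 1105 0 1037)
(mv 972 (cons (fin 973 3 972)
(mv 976 (cons (fin 977 2 973)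
(mv 1103 (cons (mv 1167 (cons (fin 912 5 911)
(fin 1231 6 975)))
(cons (mv 912 (cons (fin 848 5 847)
(mv 913 (cons (fin 849 6 848)
(mv 1168 (cons (mv 1232 (cons (fin 1296 7 1039)
(fin 975 7 975)))
(mv 1169 (cons (fin 1102 0 1101)
(fin 1233 4 976)))))))))
(mv 1231 (cons (fin 1167 6 975)
(mv 1168 (cons (mv 1232 (cons (fin 1295 5 1039)
(fin 1296 7 1039)))
(mv 1169 (cons (fin 1102 0 1101)
(fin 1233 4 976))))))))))))))))))))))
(cons (cons (mv 1039 (cons (fin 1100 1 1036)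
(mv 1104 (cons (fin 1105 0 1037)
(mv 1103 (cons (fin 1036 0 1036)
(mv 976 (cons (fin 977 2 973)
(mv 1167 (cons (fin 912 5 911)
(fin 1231 6 975)))))))))))
(mv 1039 (cons (fin 1100 1 1036)
(mv 972 (cons (fin 973 3 972)
(mv 1036 (cons (fin 971 3 971)
(mv 976 (cons (fin 975 2 972)
(fin 977 2 973))))))))))
(cons (mv 1039 (cons (fin 1100 1 1036)
(mv 1104 (cons (fin 1105 0 1037)
(mv 1036 (cons (fin 1103 0 1036)
(mv 972 (cons (fin 971 3 971)
(fin 973 3 972)))))))))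
(mv 1039 (cons (fin 1100 1 1036)
(mv 1104 (cons (fin 1105 0 1037)
(mv 972 (cons (fin 973 3 972)
(mv 976 (cons (fin 977 2 973)
(mv 1103 (cons (mv 1167 (cons (fin 912 5 911)
(fin 1231 6 975)))
(cons (mv 912 (cons (fin 848 5 847)
(mv 913 (cons (fin 849 6 848)
(mv 1168 (cons (mv 1232 (cons (fin 1296 7 1039)
(fin 975 7 975)))
(mv 1169 (cons (fin 1102 0 1101)
(fin 1233 4 976)))))))))
(mv 1231 (cons (fin 1167 6 975)
(mv 1168 (cons (mv 1232 (cons (fin 1295 5 1039)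
(fin 1296 7 1039)))
(mv 1169 (cons (fin 1102 0 1101)
(fin 1233 4 976))))))))))))))))))))))
(mv 973 (cons (cons (mv 1165 (cons (cons (mv 1228 (cons (fin 1164 5 972)
(mv 1292 (cons (fin 1229 5 1036)
(mv 1230 (cons (fin 1166 4 973)
(mv 972 (cons (fin 908 7 908)
(mv 974 (cons (fin 910 6 909)
(mv 975 (cons (fin 1039 0 972)
(mv 1036 (cons (fin 1035 1 971)
(fin 976 1 972)))))))))))))))
(cons (mv 1230 (cons (fin 1166 4 973)
(mv 1294 (cons (fin 1229 4 1037)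
(mv 972 (cons (fin 908 7 908)
(mv 974 (cons (fin 910 6 909)
(mv 975 (cons (fin 1039 0 972)
(mv 1036 (cons (fin 1035 1 971)
(fin 976 1 972)))))))))))))
(mv 1228 (cons (fin 1164 5 972)
(mv 1292 (cons (fin 1229 5 1036)
(mv 972 (cons (fin 908 7 908)
(mv 974 (cons (fin 910 6 909)
(mv 975 (cons (fin 1039 0 972)
(mv 1036 (cons (fin 1035 1 971)
(fin 976 1 972)))))))))))))))
(cons (mv 1228 (cons (fin 1164 5 972)
(mv 1292 (cons (fin 1229 5 1036)
(mv 1166 (cons (fin 1230 4 973)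
(mv 909 (cons (fin 1102 4 909)
(mv 910 (cons (fin 974 6 909)
(fin 846 6 845)))))))))))
(cons (mv 1228 (cons (fin 1164 5 972)
(mv 1292 (cons (fin 1229 5 1036)
(mv 1166 (cons (fin 1230 4 973)
(mv 908 (cons (fin 972 7 908)
(mv 909 (cons (fin 844 7 844)
(fin 1102 4 909)))))))))))
(mv 1228 (cons (fin 1164 5 972)
(mv 1230 (cons (fin 1166 4 973)
(mv 972 (cons (fin 908 7 908)
(mv 974 (cons (fin 910 6 909)
(mv 975 (cons (fin 1039 0 972)
(mv 1036 (cons (fin 1035 1 971)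
(fin 976 1 972)))))))))))))))))
(cons (mv 909 (cons (cons (mv 1164 (cons (fin 1100 5 908)
(mv 1166 (cons (fin 1102 4 909)
(mv 844 (cons (fin 908 7 844)
(mv 845 (cons (fin 780 7 780)
(mv 846 (cons (fin 910 6 845)
(fin 782 6 781)))))))))))
(cons (mv 1166 (cons (fin 1102 4 909)
(mv 844 (cons (fin 908 7 844)
(mv 845 (cons (fin 780 7 780)
(mv 846 (cons (fin 910 6 845)
(fin 782 6 781)))))))))
(mv 1166 (cons (fin 1102 4 909)
(mv 1100 (cons (fin 1164 5 908)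
(mv 845 (cons (fin 1036 5 844)
(mv 846 (cons (fin 910 6 845)
(fin 782 6 781)))))))))))
(cons (mv 1166 (cons (fin 1102 4 909)
(mv 1100 (cons (fin 1164 5 908)
(mv 844 (cons (fin 908 7 844)
(mv 845 (cons (fin 1036 5 844)
(fin 780 7 780)))))))))
(cons (mv 1164 (cons (fin 1100 5 908)
(mv 844 (cons (fin 908 7 844)
(mv 845 (cons (fin 780 7 780)
(mv 846 (cons (fin 910 6 845)
(fin 782 6 781)))))))))
(mv 1100 (cons (fin 1164 5 908)
(mv 1102 (cons (fin 1166 4 909)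
(mv 1103 (cons (fin 1039 2 1036)
(mv 1036 (cons (fin 1035 3 1035)
(fin 1104 3 1036)))))))))))))
(mv 1165 (cons (cons (mv 1228 (cons (fin 1164 5 972)
(mv 1292 (cons (fin 1229 5 1036)
(mv 1230 (cons (fin 1166 4 973)
(mv 972 (cons (fin 908 7 908)
(mv 974 (cons (fin 910 6 909)
(mv 975 (cons (fin 1039 0 972)
(mv 1036 (cons (fin 1035 1 971)
(fin 976 1 972)))))))))))))))
(mv 1228 (cons (fin 1164 5 972)
(mv 1229 (cons (fin 1292 5 1036)
(mv 1230 (cons (fin 1294 4 1037)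
(fin 1166 4 973))))))))
(cons (mv 1230 (cons (fin 1166 4 973)
(mv 1294 (cons (fin 1229 4 1037)
(mv 972 (cons (fin 908 7 908)
(mv 974 (cons (fin 910 6 909)
(mv 975 (cons (fin 1039 0 972)
(mv 1036 (cons (fin 1035 1 971)
(fin 976 1 972)))))))))))))
(cons (mv 1228 (cons (fin 1164 5 972)
(mv 1292 (cons (fin 1229 5 1036)
(mv 972 (cons (fin 908 7 908)
(mv 974 (cons (fin 910 6 909)
(mv 975 (cons (fin 1039 0 972)
(mv 1036 (cons (fin 1035 1 971)
(fin 976 1 972)))))))))))))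
(mv 1228 (cons (fin 1164 5 972)
(mv 1230 (cons (fin 1166 4 973)
(mv 972 (cons (fin 908 7 908)
(mv 974 (cons (fin 910 6 909)
(mv 975 (cons (fin 1039 0 972)
(mv 1036 (cons (fin 1035 1 971)
(fin 976 1 972)))))))))))))))))))
(cons (cons (mv 909 (cons (cons (mv 1166 (cons (fin 1102 4 909)
(mv 1230 (cons (fin 1165 4 973)
(mv 910 (cons (fin 846 6 845)
(mv 844 (cons (fin 908 7 844)
(mv 845 (cons (fin 780 7 780)
(mv 1036 (cons (fin 1100 5 844)
(mv 972 (cons (fin 781 5 780)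
(mv 971 (cons (fin 970 2 906)
(mv 843 (cons (fin 842 0 842)
(mv 907 (cons (fin 779 4 779)
(mv 974 (cons (fin 906 3 906)
(mv 1035 (cons (fin 1034 1 970)
(fin 975 1 971)))))))))))))))))))))))))
(cons (mv 1166 (cons (fin 1102 4 909)
(mv 1230 (cons (fin 1165 4 973)
(mv 846 (cons (fin 910 6 845)
(mv 845 (cons (fin 782 6 781)
(mv 1036 (cons (fin 1100 5 844)
(mv 780 (cons (fin 844 7 780)
(mv 781 (cons (fin 972 5 780)
(fin 716 7 716)))))))))))))))
(mv 1166 (cons (fin 1102 4 909)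
(mv 1230 (cons (fin 1165 4 973)
(mv 844 (cons (fin 908 7 844)
(mv 845 (cons (fin 780 7 780)
(mv 1036 (cons (fin 1100 5 844)
(mv 781 (cons (fin 972 5 780)
(mv 782 (cons (fin 846 6 781)
(fin 718 6 717)))))))))))))))))
(cons (cons (mv 1166 (cons (fin 1102 4 909)
(mv 1165 (cons (fin 1230 4 973)
(mv 910 (cons (fin 974 6 909)
(fin 846 6 845)))))))
(mv 1166 (cons (fin 1102 4 909)
(mv 1165 (cons (fin 1230 4 973)
(mv 908 (cons (fin 972 7 908)
(fin 844 7 844))))))))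
(cons (mv 908 (cons (fin 844 7 844)
(mv 1165 (cons (fin 972 7 908)
(mv 910 (cons (fin 974 6 909)
(fin 846 6 845)))))))
(mv 1166 (cons (fin 1102 4 909)
(mv 910 (cons (fin 846 6 845)
(mv 844 (cons (fin 908 7 844)
(mv 845 (cons (fin 780 7 780)
(mv 1036 (cons (fin 1100 5 844)
(mv 972 (cons (fin 781 5 780)
(mv 971 (cons (fin 970 2 906)
(mv 843 (cons (fin 842 0 842)
(mv 907 (cons (fin 779 4 779)
(mv 974 (cons (fin 906 3 906)
(mv 1035 (cons (fin 1034 1 970)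
(fin 975 1 971)))))))))))))))))))))))))))
(mv 1165 (cons (cons (mv 1228 (cons (fin 1164 5 972)
(mv 1292 (cons (fin 1229 5 1036)
(mv 1166 (cons (fin 1230 4 973)
(mv 909 (cons (fin 1102 4 909)
(mv 910 (cons (fin 974 6 909)
(fin 846 6 845)))))))))))
(cons (mv 1230 (cons (fin 1166 4 973)
(mv 1229 (cons (fin 1294 4 1037)
(mv 1292 (cons (fin 1228 5 1036)
(mv 1293 (cons (fin 1356 5 1100)
(mv 1036 (cons (fin 1100 7 1036)
(fin 972 7 972)))))))))))
(mv 1228 (cons (fin 1164 5 972)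
(mv 1229 (cons (fin 1292 5 1036)
(mv 1294 (cons (fin 1230 4 1037)
(mv 1293 (cons (fin 1358 4 1101)
(mv 1036 (cons (fin 1100 7 1036)
(fin 972 7 972)))))))))))))
(cons (mv 1230 (cons (fin 1166 4 973)
(mv 1229 (cons (fin 1294 4 1037)
(mv 1036 (cons (fin 972 7 972)
(mv 1100 (cons (fin 1293 7 1036)
(mv 909 (cons (fin 1164 5 908)
(fin 845 5 844)))))))))))
(cons (mv 1228 (cons (fin 1164 5 972)
(mv 1229 (cons (fin 1292 5 1036)
(mv 1036 (cons (fin 972 7 972)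
(mv 1100 (cons (fin 1293 7 1036)
(mv 974 (cons (fin 910 6 909)
(mv 1034 (cons (fin 1035 2 970)
(mv 975 (cons (fin 976 1 972)
(mv 909 (cons (fin 845 5 844)
(mv 1102 (cons (fin 1166 4 909)
(mv 1103 (cons (fin 1104 3 1036)
(fin 1039 2 1036)))))))))))))))))))))
(mv 1228 (cons (fin 1164 5 972)
(mv 1166 (cons (fin 1230 4 973)
(mv 909 (cons (fin 1102 4 909)
(mv 910 (cons (fin 974 6 909)
(fin 846 6 845))))))))))))))
(cons (mv 909 (cons (cons (mv 1164 (cons (fin 1100 5 908)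
(mv 1228 (cons (fin 1165 5 972)
(mv 844 (cons (fin 908 7 844)
(mv 845 (cons (fin 780 7 780)
(mv 846 (cons (fin 910 6 845)
(fin 782 6 781)))))))))))
(mv 1164 (cons (fin 1100 5 908)
(mv 1165 (cons (fin 1228 5 972)
(mv 910 (cons (fin 974 6 909)
(fin 846 6 845))))))))
(cons (mv 908 (cons (fin 844 7 844)
(mv 1165 (cons (fin 972 7 908)
(mv 910 (cons (fin 974 6 909)
(fin 846 6 845)))))))
(cons (mv 1164 (cons (fin 1100 5 908)
(mv 1165 (cons (fin 1228 5 972)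
(mv 908 (cons (fin 972 7 908)
(fin 844 7 844)))))))
(mv 1164 (cons (fin 1100 5 908)
(mv 844 (cons (fin 908 7 844)
(mv 845 (cons (fin 780 7 780)
(mv 846 (cons (fin 910 6 845)
(fin 782 6 781)))))))))))))
(mv 1165 (cons (cons (mv 1228 (cons (fin 1164 5 972)
(mv 1292 (cons (fin 1229 5 1036)
(mv 1166 (cons (fin 1230 4 973)
(mv 908 (cons (fin 972 7 908)
(mv 909 (cons (fin 844 7 844)
(fin 1102 4 909)))))))))))
(mv 1230 (cons (fin 1166 4 973)
(mv 1229 (cons (fin 1294 4 1037)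
(mv 972 (cons (fin 1036 7 972)
(fin 908 7 908))))))))
(cons (mv 1228 (cons (fin 1164 5 972)
(mv 1229 (cons (fin 1292 5 1036)
(mv 972 (cons (fin 1036 7 972)
(fin 908 7 908)))))))
(cons (mv 1228 (cons (fin 1164 5 972)
(mv 1229 (cons (fin 1292 5 1036)
(mv 1230 (cons (fin 1294 4 1037)
(fin 1166 4 973)))))))
(mv 1228 (cons (fin 1164 5 972)
(mv 1166 (cons (fin 1230 4 973)
(mv 908 (cons (fin 972 7 908)
(mv 909 (cons (fin 844 7 844)
(fin 1102 4 909))))))))))))))))))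
(cons (mv 973 (cons (cons (cons (mv 1165 (cons (cons (cons (mv 1228 (cons (fin 1164 5 972)
(mv 1292 (cons (fin 1229 5 1036)
(mv 1230 (cons (fin 1166 4 973)
(mv 972 (cons (fin 908 7 908)
(mv 1038 (cons (fin 1039 3 972)
(mv 970 (cons (fin 971 0 970)
(mv 910 (cons (fin 974 6 909)
(mv 909 (cons (fin 846 6 845)
(mv 845 (cons (fin 1102 4 845)
(mv 780 (cons (fin 844 7 780)
(mv 781 (cons (fin 1036 5 780)
(fin 716 7 716)))))))))))))))))))))))
(mv 1228 (cons (fin 1164 5 972)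
(mv 1292 (cons (fin 1229 5 1036)
(mv 1166 (cons (fin 1230 4 973)
(mv 974 (cons (fin 910 6 909)
(mv 909 (cons (fin 1102 4 909)
(mv 844 (cons (fin 908 7 844)
(mv 845 (cons (fin 780 7 780)
(mv 781 (cons (fin 1038 4 781)
(mv 782 (cons (fin 846 6 781)
(fin 718 6 717))))))))))))))))))))
(cons (mv 1228 (cons (fin 1164 5 972)
(mv 1292 (cons (fin 1229 5 1036)
(mv 1166 (cons (fin 1230 4 973)
(mv 972 (cons (fin 908 7 908)
(mv 1038 (cons (fin 1039 3 972)
(mv 970 (cons (fin 971 0 970)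
(mv 909 (cons (fin 1102 4 909)
(mv 846 (cons (fin 910 6 845)
(mv 845 (cons (fin 782 6 781)
(mv 780 (cons (fin 844 7 780)
(mv 781 (cons (fin 1036 5 780)
(fin 716 7 716)))))))))))))))))))))))
(mv 1228 (cons (fin 1164 5 972)
(mv 1292 (cons (fin 1229 5 1036)
(mv 972 (cons (fin 908 7 908)
(mv 1038 (cons (fin 1039 3 972)
(mv 970 (cons (fin 971 0 970)
(mv 910 (cons (fin 974 6 909)
(mv 909 (cons (fin 846 6 845)
(mv 845 (cons (fin 1102 4 845)
(mv 780 (cons (fin 844 7 780)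
(mv 781 (cons (fin 1036 5 780)
(fin 716 7 716)))))))))))))))))))))))
(cons (cons (mv 1228 (cons (fin 1164 5 972)
(mv 1292 (cons (fin 1229 5 1036)
(mv 1166 (cons (fin 1230 4 973)
(mv 908 (cons (fin 972 7 908)
(mv 909 (cons (fin 844 7 844)
(fin 1102 4 909)))))))))))
(mv 1228 (cons (fin 1164 5 972)
(mv 1292 (cons (fin 1229 5 1036)
(mv 1166 (cons (fin 1230 4 973)
(mv 909 (cons (fin 1102 4 909)
(mv 910 (cons (fin 974 6 909)
(fin 846 6 845))))))))))))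
(cons (mv 1230 (cons (fin 1166 4 973)
(mv 1294 (cons (fin 1229 4 1037)
(mv 972 (cons (fin 908 7 908)
(mv 1038 (cons (fin 1039 3 972)
(mv 970 (cons (fin 971 0 970)
(mv 910 (cons (fin 974 6 909)
(mv 909 (cons (fin 846 6 845)
(mv 845 (cons (fin 1102 4 845)
(mv 780 (cons (fin 844 7 780)
(mv 781 (cons (fin 1036 5 780)
(fin 716 7 716)))))))))))))))))))))
(cons (mv 1228 (cons (fin 1164 5 972)
(mv 1230 (cons (fin 1166 4 973)
(mv 972 (cons (fin 908 7 908)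
(mv 1038 (cons (fin 1039 3 972)
(mv 970 (cons (fin 971 0 970)
(mv 910 (cons (fin 974 6 909)
(mv 909 (cons (fin 846 6 845)
(mv 845 (cons (fin 1102 4 845)
(mv 780 (cons (fin 844 7 780)
(mv 781 (cons (fin 1036 5 780)
(fin 716 7 716)))))))))))))))))))))
(mv 1228 (cons (fin 1164 5 972)
(mv 1292 (cons (fin 1229 5 1036)
(mv 1230 (cons (fin 1166 4 973)
(mv 972 (cons (fin 908 7 908)
(mv 1039 (cons (fin 1038 3 972)
(mv 974 (cons (fin 975 0 972)
(fin 910 6 909))))))))))))))))))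
(mv 909 (cons (cons (mv 1166 (cons (fin 1102 4 909)
(mv 844 (cons (fin 908 7 844)
(mv 845 (cons (fin 780 7 780)
(mv 846 (cons (fin 910 6 845)
(fin 782 6 781)))))))))
(mv 844 (cons (fin 908 7 844)
(mv 845 (cons (fin 780 7 780)
(mv 846 (cons (fin 910 6 845)
(fin 782 6 781))))))))
(cons (mv 1102 (cons (fin 1166 4 909)
(mv 1038 (cons (fin 845 4 845)
(mv 1039 (cons (fin 972 3 972)
(mv 1104 (cons (fin 1105 0 1037)
(mv 1103 (cons (fin 1036 3 1036)
(mv 1168 (cons (fin 1169 0 1101)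
(mv 1232 (cons (fin 1296 7 1039)
(fin 975 7 975)))))))))))))))
(mv 1102 (cons (fin 1166 4 909)
(mv 908 (cons (fin 844 7 844)
(mv 1038 (cons (cons (mv 1039 (cons (fin 972 3 972)
(mv 1104 (cons (fin 1105 0 1037)
(mv 1103 (cons (fin 1036 3 1036)
(mv 1168 (cons (fin 1169 0 1101)
(mv 1232 (cons (fin 1296 7 1039)
(fin 975 7 975)))))))))))
(cons (mv 910 (cons (fin 846 6 845)
(mv 974 (cons (mv 975 (cons (fin 976 3 908)
(fin 907 0 907)))
(mv 1103 (cons (fin 1167 4 910)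
(mv 1104 (cons (fin 1036 3 1036)
(fin 1105 3 1037)))))))))
(mv 1039 (cons (fin 972 3 972)
(mv 1104 (cons (fin 1105 0 1037)
(mv 976 (cons (fin 977 2 973)
(mv 975 (cons (fin 974 3 908)
(mv 1168 (cons (fin 1232 7 975)
(mv 1169 (cons (fin 1103 0 1101)
(fin 1233 4 976)))))))))))))))
(cons (mv 1039 (cons (fin 972 3 972)
(mv 1104 (cons (fin 1105 0 1037)
(mv 976 (cons (fin 977 2 973)
(mv 975 (cons (fin 974 3 908)
(fin 1036 2 972)))))))))
(cons (mv 1039 (cons (fin 972 3 972)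
(mv 976 (cons (fin 977 2 973)
(mv 975 (cons (fin 974 3 908)
(fin 1036 2 972)))))))
(mv 1039 (cons (fin 972 3 972)
(mv 1104 (cons (fin 1105 0 1037)
(mv 1103 (cons (fin 1036 3 1036)
(mv 1168 (cons (fin 1169 0 1101)
(mv 1296 (cons (fin 1232 7 1039)
(mv 976 (cons (fin 977 2 973)
(mv 1167 (cons (fin 1231 5 975)
(fin 912 5 911)))))))))))))))))))))))))))
(cons (mv 1165 (cons (cons (mv 1228 (cons (fin 1164 5 972)
(mv 1292 (cons (fin 1229 5 1036)
(mv 1230 (cons (fin 1166 4 973)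
(mv 972 (cons (fin 908 7 908)
(mv 1039 (cons (fin 1038 3 972)
(mv 974 (cons (fin 975 0 972)
(fin 910 6 909)))))))))))))
(cons (mv 1228 (cons (fin 1164 5 972)
(mv 1229 (cons (fin 1292 5 1036)
(mv 1230 (cons (fin 1294 4 1037)
(fin 1166 4 973)))))))
(mv 1228 (cons (fin 1164 5 972)
(mv 1292 (cons (fin 1229 5 1036)
(mv 972 (cons (fin 908 7 908)
(mv 1039 (cons (fin 1038 3 972)
(mv 974 (cons (fin 975 0 972)
(fin 910 6 909)))))))))))))
(cons (mv 1230 (cons (fin 1166 4 973)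
(mv 1294 (cons (fin 1229 4 1037)
(mv 972 (cons (fin 908 7 908)
(mv 1038 (cons (fin 1039 3 972)
(mv 971 (cons (fin 970 0 970)
(mv 974 (cons (fin 910 6 909)
(mv 1035 (cons (fin 1034 1 970)
(mv 1036 (cons (fin 975 1 971)
(mv 1099 (cons (fin 1098 1 1034)
(mv 1163 (cons (fin 1227 6 971)
(mv 1162 (cons (fin 1226 5 970)
(mv 1102 (cons (fin 1103 0 1035)
(fin 1164 2 1098)))))))))))))))))))))))))
(cons (mv 1230 (cons (fin 1166 4 973)
(mv 1294 (cons (fin 1229 4 1037)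
(mv 972 (cons (fin 908 7 908)
(mv 1039 (cons (fin 1038 3 972)
(mv 974 (cons (fin 975 0 972)
(fin 910 6 909)))))))))))
(mv 1228 (cons (fin 1164 5 972)
(mv 1230 (cons (fin 1166 4 973)
(mv 972 (cons (fin 908 7 908)
(mv 1039 (cons (fin 1038 3 972)
(mv 974 (cons (fin 975 0 972)
(fin 910 6 909)))))))))))))))
(mv 1165 (cons (cons (mv 1228 (cons (fin 1164 5 972)
(mv 1292 (cons (fin 1229 5 1036)
(mv 1166 (cons (fin 1230 4 973)
(mv 974 (cons (fin 910 6 909)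
(mv 909 (cons (fin 1102 4 909)
(mv 844 (cons (fin 908 7 844)
(mv 845 (cons (fin 780 7 780)
(mv 781 (cons (fin 1038 4 781)
(mv 782 (cons (fin 846 6 781)
(fin 718 6 717)))))))))))))))))))
(cons (mv 1228 (cons (fin 1164 5 972)
(mv 1292 (cons (fin 1229 5 1036)
(mv 1166 (cons (fin 1230 4 973)
(mv 909 (cons (fin 1102 4 909)
(mv 844 (cons (fin 908 7 844)
(mv 845 (cons (fin 780 7 780)
(mv 846 (cons (fin 910 6 845)
(fin 782 6 781)))))))))))))))
(mv 1228 (cons (fin 1164 5 972)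
(mv 1229 (cons (fin 1292 5 1036)
(mv 974 (cons (fin 1038 6 973)
(fin 910 6 909)))))))))
(cons (mv 1228 (cons (fin 1164 5 972)
(mv 1229 (cons (fin 1292 5 1036)
(mv 1230 (cons (fin 1294 4 1037)
(fin 1166 4 973)))))))
(cons (mv 1230 (cons (fin 1166 4 973)
(mv 1229 (cons (fin 1294 4 1037)
(mv 974 (cons (fin 1038 6 973)
(fin 910 6 909)))))))
(mv 1228 (cons (fin 1164 5 972)
(mv 1166 (cons (fin 1230 4 973)
(mv 974 (cons (fin 910 6 909)
(mv 909 (cons (fin 1102 4 909)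
(mv 844 (cons (fin 908 7 844)
(mv 845 (cons (fin 780 7 780)
(mv 781 (cons (fin 1038 4 781)
(mv 782 (cons (fin 846 6 781)
(fin 718 6 717)))))))))))))))))))))))
(cons (cons (mv 1165 (cons (cons (mv 1228 (cons (fin 1164 5 972)
(mv 1292 (cons (fin 1229 5 1036)
(mv 1166 (cons (fin 1230 4 973)
(mv 909 (cons (fin 1102 4 909)
(mv 910 (cons (fin 974 6 909)
(fin 846 6 845)))))))))))
(mv 1228 (cons (fin 1164 5 972)
(mv 1229 (cons (fin 1292 5 1036)
(mv 1230 (cons (fin 1294 4 1037)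
(fin 1166 4 973))))))))
(cons (mv 1228 (cons (fin 1164 5 972)
(mv 1229 (cons (fin 1292 5 1036)
(mv 974 (cons (fin 1038 6 973)
(fin 910 6 909)))))))
(cons (mv 1230 (cons (fin 1166 4 973)
(mv 1229 (cons (fin 1294 4 1037)
(mv 974 (cons (fin 1038 6 973)
(fin 910 6 909)))))))
(mv 1228 (cons (fin 1164 5 972)
(mv 1166 (cons (fin 1230 4 973)
(mv 909 (cons (fin 1102 4 909)
(mv 910 (cons (fin 974 6 909)
(fin 846 6 845)))))))))))))
(mv 1165 (cons (cons (mv 1228 (cons (fin 1164 5 972)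
(mv 1292 (cons (fin 1229 5 1036)
(mv 972 (cons (fin 908 7 908)
(mv 1038 (cons (fin 1039 3 972)
(mv 970 (cons (fin 971 0 970)
(mv 910 (cons (fin 974 6 909)
(mv 909 (cons (fin 846 6 845)
(mv 845 (cons (fin 1102 4 845)
(mv 780 (cons (fin 844 7 780)
(mv 781 (cons (fin 1036 5 780)
(fin 716 7 716)))))))))))))))))))))
(mv 1228 (cons (fin 1164 5 972)
(mv 1229 (cons (fin 1292 5 1036)
(mv 974 (cons (fin 1038 6 973)
(fin 910 6 909))))))))
(cons (mv 1228 (cons (fin 1164 5 972)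
(mv 1229 (cons (fin 1292 5 1036)
(mv 972 (cons (fin 1036 7 972)
(fin 908 7 908)))))))
(cons (mv 972 (cons (fin 908 7 908)
(mv 1229 (cons (fin 1036 7 972)
(mv 1038 (cons (fin 1039 3 972)
(fin 974 6 973)))))))
(mv 1228 (cons (fin 1164 5 972)
(mv 972 (cons (fin 908 7 908)
(mv 1038 (cons (fin 1039 3 972)
(mv 970 (cons (fin 971 0 970)
(mv 910 (cons (fin 974 6 909)
(mv 909 (cons (fin 846 6 845)
(mv 845 (cons (fin 1102 4 845)
(mv 780 (cons (fin 844 7 780)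
(mv 781 (cons (fin 1036 5 780)
(fin 716 7 716))))))))))))))))))))))))
(cons (mv 1165 (cons (cons (mv 1228 (cons (fin 1164 5 972)
(mv 1292 (cons (fin 1229 5 1036)
(mv 1166 (cons (fin 1230 4 973)
(mv 908 (cons (fin 972 7 908)
(mv 909 (cons (fin 844 7 844)
(fin 1102 4 909)))))))))))
(mv 1228 (cons (fin 1164 5 972)
(mv 1229 (cons (fin 1292 5 1036)
(mv 1230 (cons (fin 1294 4 1037)
(fin 1166 4 973))))))))
(cons (mv 1228 (cons (fin 1164 5 972)
(mv 1229 (cons (fin 1292 5 1036)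
(mv 972 (cons (fin 1036 7 972)
(fin 908 7 908)))))))
(cons (mv 1230 (cons (fin 1166 4 973)
(mv 1229 (cons (fin 1294 4 1037)
(mv 972 (cons (fin 1036 7 972)
(fin 908 7 908)))))))
(mv 1228 (cons (fin 1164 5 972)
(mv 1166 (cons (fin 1230 4 973)
(mv 908 (cons (fin 972 7 908)
(mv 909 (cons (fin 844 7 844)
(fin 1102 4 909)))))))))))))
(mv 1165 (cons (cons (mv 1228 (cons (fin 1164 5 972)
(mv 1292 (cons (fin 1229 5 1036)
(mv 1230 (cons (fin 1166 4 973)
(mv 972 (cons (fin 908 7 908)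
(mv 1039 (cons (fin 1038 3 972)
(mv 974 (cons (fin 975 0 972)
(fin 910 6 909)))))))))))))
(mv 1228 (cons (fin 1164 5 972)
(mv 1229 (cons (fin 1292 5 1036)
(mv 1230 (cons (fin 1294 4 1037)
(fin 1166 4 973))))))))
(cons (mv 1230 (cons (fin 1166 4 973)
(mv 1294 (cons (fin 1229 4 1037)
(mv 972 (cons (fin 908 7 908)
(mv 1039 (cons (fin 1038 3 972)
(mv 974 (cons (fin 975 0 972)
(fin 910 6 909)))))))))))
(cons (mv 1228 (cons (fin 1164 5 972)
(mv 1292 (cons (fin 1229 5 1036)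
(mv 972 (cons (fin 908 7 908)
(mv 1039 (cons (fin 1038 3 972)
(mv 974 (cons (fin 975 0 972)
(fin 910 6 909)))))))))))
(mv 1228 (cons (fin 1164 5 972)
(mv 1230 (cons (fin 1166 4 973)
(mv 972 (cons (fin 908 7 908)
(mv 1039 (cons (fin 1038 3 972)
(mv 974 (cons (fin 975 0 972)
(fin 910 6 909)))))))))))))))))))
(mv 1165 (cons (cons (cons (mv 1229 (cons (cons (cons (mv 1292 (cons (fin 1228 5 1036)
(mv 1356 (cons (fin 1293 5 1100)
(mv 1294 (cons (fin 1230 4 1037)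
(mv 972 (cons (fin 1036 7 972)
(mv 973 (cons (fin 908 7 908)
(mv 974 (cons (fin 1038 6 973)
(fin 910 6 909)))))))))))))
(mv 1294 (cons (fin 1230 4 1037)
(mv 1358 (cons (fin 1293 4 1101)
(mv 972 (cons (fin 1036 7 972)
(mv 973 (cons (fin 908 7 908)
(mv 974 (cons (fin 1038 6 973)
(fin 910 6 909))))))))))))
(cons (mv 1292 (cons (fin 1228 5 1036)
(mv 1356 (cons (fin 1293 5 1100)
(mv 972 (cons (fin 1036 7 972)
(mv 973 (cons (fin 908 7 908)
(mv 974 (cons (fin 1038 6 973)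
(fin 910 6 909)))))))))))
(mv 1292 (cons (fin 1228 5 1036)
(mv 1356 (cons (fin 1293 5 1100)
(mv 1230 (cons (fin 1294 4 1037)
(mv 1038 (cons (fin 974 6 973)
(mv 973 (cons (fin 1166 4 973)
(mv 908 (cons (fin 972 7 908)
(mv 909 (cons (fin 844 7 844)
(mv 1164 (cons (fin 1100 5 908)
(mv 1231 (cons (fin 1232 3 1164)
(mv 1162 (cons (fin 1163 0 1162)
(mv 845 (cons (fin 1102 4 845)
(mv 846 (cons (fin 910 6 845)
(fin 782 6 781)))))))))))))))))))))))))))
(cons (cons (mv 1292 (cons (fin 1228 5 1036)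
(mv 1356 (cons (fin 1293 5 1100)
(mv 1230 (cons (fin 1294 4 1037)
(mv 1036 (cons (fin 972 7 972)
(mv 973 (cons (fin 1166 4 973)
(mv 910 (cons (fin 974 6 909)
(mv 909 (cons (fin 846 6 845)
(mv 1100 (cons (fin 1164 5 908)
(fin 845 5 844)))))))))))))))))
(mv 1292 (cons (fin 1228 5 1036)
(mv 1356 (cons (fin 1293 5 1100)
(mv 1230 (cons (fin 1294 4 1037)
(mv 972 (cons (fin 1036 7 972)
(mv 973 (cons (fin 908 7 908)
(fin 1166 4 973))))))))))))
(cons (mv 1292 (cons (fin 1228 5 1036)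
(mv 1356 (cons (fin 1293 5 1100)
(mv 1230 (cons (fin 1294 4 1037)
(mv 973 (cons (fin 1166 4 973)
(mv 974 (cons (fin 1038 6 973)
(fin 910 6 909)))))))))))
(cons (mv 1292 (cons (fin 1228 5 1036)
(mv 1294 (cons (fin 1230 4 1037)
(mv 972 (cons (fin 1036 7 972)
(mv 973 (cons (fin 908 7 908)
(mv 974 (cons (fin 1038 6 973)
(fin 910 6 909)))))))))))
(mv 1292 (cons (fin 1228 5 1036)
(mv 1293 (cons (fin 1356 5 1100)
(mv 1294 (cons (fin 1358 4 1101)
(fin 1230 4 1037))))))))))))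
(mv 973 (cons (cons (mv 1228 (cons (fin 1164 5 972)
(mv 1230 (cons (fin 1166 4 973)
(mv 908 (cons (fin 972 7 908)
(mv 909 (cons (fin 844 7 844)
(mv 910 (cons (fin 974 6 909)
(fin 846 6 845)))))))))))
(cons (mv 1230 (cons (fin 1166 4 973)
(mv 908 (cons (fin 972 7 908)
(mv 909 (cons (fin 844 7 844)
(mv 910 (cons (fin 974 6 909)
(fin 846 6 845)))))))))
(mv 1228 (cons (fin 1164 5 972)
(mv 908 (cons (fin 972 7 908)
(mv 909 (cons (fin 844 7 844)
(mv 910 (cons (fin 974 6 909)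
(fin 846 6 845)))))))))))
(cons (mv 1228 (cons (fin 1164 5 972)
(mv 1166 (cons (fin 1230 4 973)
(mv 909 (cons (fin 1102 4 909)
(mv 910 (cons (fin 974 6 909)
(fin 846 6 845)))))))))
(cons (mv 1228 (cons (fin 1164 5 972)
(mv 1166 (cons (fin 1230 4 973)
(mv 908 (cons (fin 972 7 908)
(mv 909 (cons (fin 844 7 844)
(fin 1102 4 909)))))))))
(mv 1228 (cons (fin 1164 5 972)
(mv 1230 (cons (fin 1166 4 973)
(mv 972 (cons (fin 908 7 908)
(mv 974 (cons (fin 910 6 909)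
(mv 971 (cons (mv 1034 (cons (fin 1035 1 970)
(mv 970 (cons (fin 1033 1 969)
(fin 1038 0 970)))))
(cons (mv 1035 (cons (fin 1034 1 970)
(mv 1036 (cons (fin 975 1 971)
(mv 907 (cons (fin 906 3 906)
(mv 843 (cons (fin 1100 4 843)
(fin 779 4 779)))))))))
(mv 970 (cons (fin 1038 0 970)
(mv 906 (cons (fin 905 3 905)
(fin 907 3 906)))))))))))))))))))))
(cons (mv 1229 (cons (cons (mv 1292 (cons (fin 1228 5 1036)
(mv 1293 (cons (fin 1356 5 1100)
(mv 1294 (cons (fin 1358 4 1101)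
(fin 1230 4 1037)))))))
(mv 1294 (cons (fin 1230 4 1037)
(mv 1293 (cons (fin 1358 4 1101)
(mv 1036 (cons (fin 1100 7 1036)
(fin 972 7 972))))))))
(cons (mv 1292 (cons (fin 1228 5 1036)
(mv 1293 (cons (fin 1356 5 1100)
(mv 1036 (cons (fin 1100 7 1036)
(fin 972 7 972)))))))
(mv 1294 (cons (fin 1230 4 1037)
(mv 1228 (cons (fin 1292 5 1036)
(mv 1036 (cons (fin 972 7 972)
(mv 1038 (cons (fin 974 6 973)
(mv 1035 (cons (mv 1102 (cons (fin 1034 0 1034)
(fin 1103 0 1035)))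
(cons (mv 1098 (cons (fin 1099 1 1034)
(mv 1034 (cons (fin 1097 1 1033)
(mv 970 (cons (fin 969 3 969)
(fin 971 3 970)))))))
(mv 1099 (cons (fin 1098 1 1034)
(mv 1102 (cons (fin 1103 0 1035)
(mv 971 (cons (fin 970 3 970)
(mv 1164 (cons (fin 1100 7 971)
(fin 1163 4 971)))))))))))))))))))))))
(mv 973 (cons (cons (mv 1230 (cons (fin 1166 4 973)
(mv 1294 (cons (fin 1229 4 1037)
(mv 974 (cons (fin 910 6 909)
(mv 908 (cons (fin 972 7 908)
(mv 909 (cons (fin 844 7 844)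
(mv 1100 (cons (fin 1164 5 908)
(mv 1036 (cons (fin 845 5 844)
(mv 1035 (cons (fin 1034 2 970)
(mv 975 (cons (fin 976 1 972)
(fin 1038 2 971)))))))))))))))))))
(cons (mv 972 (cons (fin 908 7 908)
(mv 1229 (cons (fin 1036 7 972)
(mv 974 (cons (fin 1038 6 973)
(fin 910 6 909)))))))
(mv 1230 (cons (fin 1166 4 973)
(mv 1294 (cons (fin 1229 4 1037)
(mv 908 (cons (fin 972 7 908)
(mv 909 (cons (fin 844 7 844)
(mv 1100 (cons (fin 1164 5 908)
(mv 845 (cons (fin 1036 5 844)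
(mv 846 (cons (fin 910 6 845)
(fin 782 6 781)))))))))))))))))
(cons (cons (mv 1230 (cons (fin 1166 4 973)
(mv 1294 (cons (fin 1229 4 1037)
(mv 910 (cons (fin 974 6 909)
(mv 909 (cons (fin 846 6 845)
(mv 1100 (cons (fin 1164 5 908)
(mv 844 (cons (fin 908 7 844)
(mv 845 (cons (fin 1036 5 844)
(fin 780 7 780)))))))))))))))
(mv 1230 (cons (fin 1166 4 973)
(mv 1229 (cons (fin 1294 4 1037)
(mv 974 (cons (fin 1038 6 973)
(fin 910 6 909))))))))
(cons (mv 1230 (cons (fin 1166 4 973)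
(mv 1294 (cons (fin 1229 4 1037)
(mv 908 (cons (fin 972 7 908)
(mv 909 (cons (fin 844 7 844)
(mv 1100 (cons (fin 1164 5 908)
(mv 845 (cons (fin 1036 5 844)
(mv 1038 (cons (fin 1102 4 845)
(mv 1098 (cons (fin 1099 2 1034)
(mv 781 (cons (fin 974 4 781)
(mv 782 (cons (fin 846 6 781)
(fin 718 6 717)))))))))))))))))))))
(mv 1230 (cons (fin 1166 4 973)
(mv 974 (cons (fin 910 6 909)
(mv 908 (cons (fin 972 7 908)
(mv 909 (cons (fin 844 7 844)
(mv 1100 (cons (fin 1164 5 908)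
(mv 1036 (cons (fin 845 5 844)
(mv 1035 (cons (fin 1034 2 970)
(mv 975 (cons (fin 976 1 972)
(fin 1038 2 971)))))))))))))))))))))))
(cons (cons (mv 973 (cons (cons (mv 1228 (cons (fin 1164 5 972)
(mv 1292 (cons (fin 1229 5 1036)
(mv 972 (cons (fin 908 7 908)
(mv 910 (cons (fin 974 6 909)
(mv 909 (cons (fin 846 6 845)
(mv 1102 (cons (fin 1166 4 909)
(mv 970 (cons (fin 971 2 906)
(mv 845 (cons (fin 1038 4 845)
(mv 1036 (cons (fin 1100 5 844)
(fin 781 5 780)))))))))))))))))))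
(cons (mv 972 (cons (fin 908 7 908)
(mv 1229 (cons (fin 1036 7 972)
(mv 974 (cons (fin 1038 6 973)
(fin 910 6 909)))))))
(mv 1228 (cons (fin 1164 5 972)
(mv 1292 (cons (fin 1229 5 1036)
(mv 908 (cons (fin 972 7 908)
(mv 909 (cons (fin 844 7 844)
(mv 1102 (cons (fin 1166 4 909)
(mv 845 (cons (fin 1038 4 845)
(mv 846 (cons (fin 910 6 845)
(fin 782 6 781)))))))))))))))))
(cons (cons (mv 1228 (cons (fin 1164 5 972)
(mv 1292 (cons (fin 1229 5 1036)
(mv 910 (cons (fin 974 6 909)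
(mv 909 (cons (fin 846 6 845)
(mv 1102 (cons (fin 1166 4 909)
(mv 844 (cons (fin 908 7 844)
(mv 845 (cons (fin 780 7 780)
(fin 1038 4 845)))))))))))))))
(mv 1228 (cons (fin 1164 5 972)
(mv 1292 (cons (fin 1229 5 1036)
(mv 910 (cons (fin 974 6 909)
(mv 909 (cons (fin 846 6 845)
(mv 1102 (cons (fin 1166 4 909)
(mv 845 (cons (fin 1038 4 845)
(mv 1036 (cons (fin 1100 5 844)
(mv 1103 (cons (fin 1104 3 1036)
(mv 1034 (cons (fin 1035 0 1034)
(mv 780 (cons (fin 844 7 780)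
(mv 781 (cons (fin 972 5 780)
(fin 716 7 716))))))))))))))))))))))))
(cons (mv 1228 (cons (fin 1164 5 972)
(mv 1229 (cons (fin 1292 5 1036)
(mv 972 (cons (fin 1036 7 972)
(fin 908 7 908)))))))
(mv 1228 (cons (fin 1164 5 972)
(mv 972 (cons (fin 908 7 908)
(mv 910 (cons (fin 974 6 909)
(mv 909 (cons (fin 846 6 845)
(mv 1102 (cons (fin 1166 4 909)
(mv 970 (cons (fin 971 2 906)
(mv 845 (cons (fin 1038 4 845)
(mv 1036 (cons (fin 1100 5 844)
(fin 781 5 780)))))))))))))))))))))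
(mv 1229 (cons (cons (mv 1292 (cons (fin 1228 5 1036)
(mv 1356 (cons (fin 1293 5 1100)
(mv 1230 (cons (fin 1294 4 1037)
(mv 972 (cons (fin 1036 7 972)
(mv 973 (cons (fin 908 7 908)
(fin 1166 4 973)))))))))))
(mv 1294 (cons (fin 1230 4 1037)
(mv 1293 (cons (fin 1358 4 1101)
(mv 1036 (cons (fin 1100 7 1036)
(fin 972 7 972))))))))
(cons (mv 1292 (cons (fin 1228 5 1036)
(mv 1293 (cons (fin 1356 5 1100)
(mv 1036 (cons (fin 1100 7 1036)
(fin 972 7 972)))))))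
(cons (mv 1292 (cons (fin 1228 5 1036)
(mv 1293 (cons (fin 1356 5 1100)
(mv 1294 (cons (fin 1358 4 1101)
(fin 1230 4 1037)))))))
(mv 1292 (cons (fin 1228 5 1036)
(mv 1230 (cons (fin 1294 4 1037)
(mv 972 (cons (fin 1036 7 972)
(mv 973 (cons (fin 908 7 908)
(fin 1166 4 973))))))))))))))
(cons (mv 1229 (cons (cons (mv 1292 (cons (fin 1228 5 1036)
(mv 1356 (cons (fin 1293 5 1100)
(mv 1230 (cons (fin 1294 4 1037)
(mv 973 (cons (fin 1166 4 973)
(mv 974 (cons (fin 1038 6 973)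
(fin 910 6 909)))))))))))
(cons (mv 1294 (cons (fin 1230 4 1037)
(mv 1293 (cons (fin 1358 4 1101)
(mv 1038 (cons (fin 1102 6 1037)
(fin 974 6 973)))))))
(mv 1292 (cons (fin 1228 5 1036)
(mv 1293 (cons (fin 1356 5 1100)
(mv 1038 (cons (fin 1102 6 1037)
(fin 974 6 973)))))))))
(cons (mv 1292 (cons (fin 1228 5 1036)
(mv 1356 (cons (fin 1293 5 1100)
(mv 1230 (cons (fin 1294 4 1037)
(mv 973 (cons (fin 1166 4 973)
(mv 910 (cons (fin 974 6 909)
(mv 909 (cons (fin 846 6 845)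
(mv 1100 (cons (fin 1164 5 908)
(mv 844 (cons (fin 908 7 844)
(mv 845 (cons (fin 1036 5 844)
(fin 780 7 780)))))))))))))))))))
(cons (mv 1292 (cons (fin 1228 5 1036)
(mv 1293 (cons (fin 1356 5 1100)
(mv 1294 (cons (fin 1358 4 1101)
(fin 1230 4 1037)))))))
(mv 1292 (cons (fin 1228 5 1036)
(mv 1230 (cons (fin 1294 4 1037)
(mv 973 (cons (fin 1166 4 973)
(mv 974 (cons (fin 1038 6 973)
(fin 910 6 909)))))))))))))
(mv 973 (cons (cons (mv 1228 (cons (fin 1164 5 972)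
(mv 1292 (cons (fin 1229 5 1036)
(mv 1230 (cons (fin 1166 4 973)
(mv 908 (cons (fin 972 7 908)
(mv 909 (cons (fin 844 7 844)
(mv 910 (cons (fin 974 6 909)
(fin 846 6 845)))))))))))))
(cons (mv 1228 (cons (fin 1164 5 972)
(mv 1292 (cons (fin 1229 5 1036)
(mv 908 (cons (fin 972 7 908)
(mv 909 (cons (fin 844 7 844)
(mv 910 (cons (fin 974 6 909)
(fin 846 6 845)))))))))))
(mv 1230 (cons (fin 1166 4 973)
(mv 1294 (cons (fin 1229 4 1037)
(mv 908 (cons (fin 972 7 908)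
(mv 909 (cons (fin 844 7 844)
(mv 910 (cons (fin 974 6 909)
(fin 846 6 845)))))))))))))
(cons (cons (mv 1228 (cons (fin 1164 5 972)
(mv 1292 (cons (fin 1229 5 1036)
(mv 1166 (cons (fin 1230 4 973)
(mv 908 (cons (fin 972 7 908)
(mv 909 (cons (fin 844 7 844)
(fin 1102 4 909)))))))))))
(mv 1228 (cons (fin 1164 5 972)
(mv 1292 (cons (fin 1229 5 1036)
(mv 1166 (cons (fin 1230 4 973)
(mv 909 (cons (fin 1102 4 909)
(mv 910 (cons (fin 974 6 909)
(fin 846 6 845))))))))))))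
(cons (mv 1228 (cons (fin 1164 5 972)
(mv 1229 (cons (fin 1292 5 1036)
(mv 1230 (cons (fin 1294 4 1037)
(fin 1166 4 973)))))))
(mv 1228 (cons (fin 1164 5 972)
(mv 1230 (cons (fin 1166 4 973)
(mv 908 (cons (fin 972 7 908)
(mv 909 (cons (fin 844 7 844)
(mv 910 (cons (fin 974 6 909)
(fin 846 6 845)))))))))))))))))))))
(cons (cons (mv 1100 (cons (cons (mv 1038 (cons (fin 1039 1 1036)
(mv 1099 (cons (fin 1098 2 1034)
(mv 1102 (cons (cons (cons (mv 1162 (cons (fin 1163 1 1098)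
(mv 1166 (cons (fin 1167 0 1099)
(mv 1294 (cons (fin 1230 7 1037)
(mv 1035 (cons (fin 1034 3 1034)
(mv 1103 (cons (fin 1036 3 1035)
(mv 1104 (cons (fin 1105 3 1037)
(mv 1165 (cons (fin 1164 1 1100)
(mv 1229 (cons (fin 974 5 973)
(fin 1293 6 1037)))))))))))))))))
(mv 1162 (cons (fin 1163 1 1098)
(mv 1166 (cons (fin 1167 0 1099)
(mv 1230 (cons (fin 1294 7 1037)
(mv 1295 (cons (fin 1231 4 1038)
(mv 1229 (cons (fin 1293 5 1037)
(mv 1165 (cons (fin 974 5 973)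
(mv 1228 (cons (fin 1292 5 1036)
(mv 1227 (cons (fin 1226 2 1162)
(mv 1291 (cons (fin 1290 1 1226)
(mv 1036 (cons (fin 1164 5 1035)
(fin 972 7 972))))))))))))))))))))))
(cons (mv 1162 (cons (fin 1163 1 1098)
(mv 1035 (cons (fin 1034 3 1034)
(mv 1103 (cons (fin 1036 3 1035)
(mv 1167 (cons (fin 1168 0 1100)
(mv 1295 (cons (fin 1231 7 1038)
(mv 1104 (cons (fin 1105 3 1037)
(mv 1165 (cons (fin 1164 1 1100)
(mv 1229 (cons (fin 1293 6 1037)
(fin 974 6 973)))))))))))))))))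
(mv 1162 (cons (fin 1163 1 1098)
(mv 1035 (cons (fin 1034 3 1034)
(mv 1103 (cons (fin 1036 3 1035)
(mv 1104 (cons (fin 1105 3 1037)
(mv 1165 (cons (fin 1164 1 1100)
(mv 1229 (cons (fin 1293 6 1037)
(fin 974 6 973)))))))))))))))
(cons (cons (mv 1166 (cons (fin 1167 0 1099)
(mv 1294 (cons (fin 1230 7 1037)
(mv 1035 (cons (fin 1034 3 1034)
(mv 1103 (cons (fin 1036 3 1035)
(mv 1104 (cons (fin 1105 3 1037)
(mv 1165 (cons (fin 1164 1 1100)
(mv 1229 (cons (fin 974 5 973)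
(fin 1293 6 1037)))))))))))))))
(mv 1162 (cons (fin 1163 1 1098)
(mv 1166 (cons (fin 1167 0 1099)
(mv 1230 (cons (fin 1294 7 1037)
(mv 1229 (cons (fin 1293 5 1037)
(mv 1231 (cons (fin 1295 4 1038)
(mv 1165 (cons (fin 974 5 973)
(mv 1232 (cons (fin 1164 3 1164)
(fin 1233 3 1165))))))))))))))))
(cons (mv 1162 (cons (fin 1163 1 1098)
(mv 1166 (cons (fin 1167 0 1099)
(mv 1294 (cons (fin 1230 7 1037)
(mv 1035 (cons (fin 1034 3 1034)
(mv 1036 (cons (fin 1103 3 1035)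
(mv 971 (cons (fin 970 3 970)
(mv 1164 (cons (fin 1228 7 971)
(fin 907 4 907)))))))))))))))
(mv 1162 (cons (fin 1163 1 1098)
(mv 1166 (cons (fin 1167 0 1099)
(mv 1294 (cons (fin 1230 7 1037)
(mv 1035 (cons (fin 1034 3 1034)
(mv 1036 (cons (fin 1103 3 1035)
(mv 970 (cons (fin 971 3 970)
(mv 974 (cons (fin 975 2 971)
(mv 1165 (cons (fin 1229 5 973)
(fin 910 5 909)))))))))))))))))))))))))
(cons (mv 1102 (cons (mv 1103 (cons (fin 1039 2 1036)
(mv 1036 (cons (fin 1035 3 1035)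
(fin 1104 3 1036)))))
(cons (mv 1099 (cons (cons (mv 1162 (cons (fin 1163 1 1098)
(mv 1166 (cons (fin 1167 0 1099)
(mv 1098 (cons (fin 1161 1 1097)
(fin 1165 0 1098)))))))
(mv 1162 (cons (fin 1163 1 1098)
(mv 1098 (cons (fin 1161 1 1097)
(mv 1034 (cons (fin 1033 3 1033)
(fin 1035 3 1034))))))))
(cons (mv 1166 (cons (fin 1167 0 1099)
(mv 1294 (cons (fin 1230 7 1037)
(mv 1098 (cons (fin 1165 0 1098)
(mv 1034 (cons (fin 1033 3 1033)
(fin 1035 3 1034)))))))))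
(mv 1163 (cons (fin 1162 1 1098)
(mv 1166 (cons (fin 1167 0 1099)
(mv 1294 (cons (fin 1230 7 1037)
(mv 1035 (cons (fin 1034 3 1034)
(mv 1227 (cons (cons (mv 1036 (cons (fin 1291 6 1035)
(fin 972 6 971)))
(mv 1290 (cons (fin 1226 5 1034)
(mv 1354 (cons (fin 1291 5 1098)
(mv 1228 (cons (fin 1292 4 1035)
(mv 971 (cons (fin 1164 4 971)
(mv 906 (cons (fin 970 7 906)
(mv 907 (cons (fin 842 7 842)
(mv 908 (cons (fin 972 6 907)
(fin 844 6 843))))))))))))))))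
(cons (mv 1290 (cons (fin 1226 5 1034)
(mv 1292 (cons (fin 1228 4 1035)
(mv 972 (cons (fin 1036 6 971)
(mv 971 (cons (fin 908 6 907)
(mv 906 (cons (fin 970 7 906)
(mv 907 (cons (fin 842 7 842)
(fin 1164 4 907)))))))))))))
(mv 1290 (cons (fin 1226 5 1034)
(mv 1291 (cons (fin 1354 5 1098)
(fin 1036 6 1035)))))))))))))))))))
(mv 1103 (cons (fin 1039 2 1036)
(mv 1163 (cons (fin 1164 1 1099)
(mv 1167 (cons (fin 1168 0 1100)
(mv 1099 (cons (fin 1162 1 1098)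
(fin 1166 0 1099))))))))))))
(mv 1099 (cons (cons (mv 1098 (cons (fin 1038 2 1034)
(mv 1161 (cons (fin 1162 1 1097)
(mv 1097 (cons (fin 1160 1 1096)
(fin 1036 2 1033)))))))
(mv 1102 (cons (cons (mv 1162 (cons (fin 1163 1 1098)
(mv 1167 (cons (fin 1166 0 1099)
(mv 1103 (cons (fin 1168 0 1100)
(mv 1035 (cons (fin 1034 3 1034)
(fin 1036 3 1035)))))))))
(cons (mv 1162 (cons (fin 1163 1 1098)
(mv 1167 (cons (fin 1166 0 1099)
(mv 1103 (cons (fin 1168 0 1100)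
(mv 1104 (cons (fin 1036 3 1036)
(mv 1295 (cons (fin 1231 6 1039)
(mv 1165 (cons (fin 1164 1 1100)
(mv 1038 (cons (fin 1105 3 1037)
(mv 1229 (cons (fin 1293 6 1037)
(fin 974 6 973)))))))))))))))))
(mv 1167 (cons (fin 1166 0 1099)
(mv 1103 (cons (fin 1168 0 1100)
(mv 1035 (cons (fin 1034 3 1034)
(fin 1036 3 1035)))))))))
(cons (cons (mv 1162 (cons (fin 1163 1 1098)
(mv 1035 (cons (fin 1034 3 1034)
(mv 1103 (cons (fin 1036 3 1035)
(mv 1168 (cons (fin 1167 0 1100)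
(mv 1104 (cons (fin 1169 0 1101)
(mv 1165 (cons (fin 1164 1 1100)
(mv 1038 (cons (fin 1105 3 1037)
(mv 1229 (cons (fin 1293 6 1037)
(fin 974 6 973)))))))))))))))))
(mv 1163 (cons (fin 1162 1 1098)
(mv 1164 (cons (fin 1103 1 1099)
(mv 1292 (cons (fin 1228 6 1036)
(mv 1035 (cons (fin 1034 3 1034)
(mv 971 (cons (fin 907 4 907)
(mv 970 (cons (fin 906 7 906)
(mv 1036 (cons (fin 1038 3 970)
(mv 1227 (cons (fin 972 5 971)
(fin 1291 6 1035))))))))))))))))))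
(cons (mv 1163 (cons (fin 1162 1 1098)
(mv 1166 (cons (fin 1167 0 1099)
(mv 1294 (cons (fin 1230 7 1037)
(mv 1035 (cons (fin 1034 3 1034)
(mv 1227 (cons (cons (mv 1036 (cons (fin 1291 6 1035)
(fin 972 6 971)))
(mv 1290 (cons (fin 1226 5 1034)
(mv 1354 (cons (fin 1291 5 1098)
(mv 1228 (cons (fin 1292 4 1035)
(mv 971 (cons (fin 1164 4 971)
(mv 906 (cons (fin 970 7 906)
(mv 907 (cons (fin 842 7 842)
(mv 908 (cons (fin 972 6 907)
(fin 844 6 843))))))))))))))))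
(cons (mv 1290 (cons (fin 1226 5 1034)
(mv 1292 (cons (fin 1228 4 1035)
(mv 972 (cons (fin 1036 6 971)
(mv 971 (cons (fin 908 6 907)
(mv 906 (cons (fin 970 7 906)
(mv 907 (cons (fin 842 7 842)
(fin 1164 4 907)))))))))))))
(mv 1290 (cons (fin 1226 5 1034)
(mv 1291 (cons (fin 1354 5 1098)
(fin 1036 6 1035))))))))))))))))
(mv 1163 (cons (fin 1162 1 1098)
(mv 1164 (cons (fin 1103 1 1099)
(mv 1292 (cons (fin 1228 6 1036)
(mv 1166 (cons (fin 1167 0 1099)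
(mv 1230 (cons (fin 1294 7 1037)
(mv 1165 (cons (fin 1231 0 1163)
(mv 1227 (cons (fin 1226 1 1162)
(mv 1291 (cons (fin 1356 4 1099)
(fin 1355 6 1099))))))))))))))))))))))
(cons (mv 1098 (cons (mv 1161 (cons (fin 1162 1 1097)
(mv 1097 (cons (fin 1160 1 1096)
(fin 1036 2 1033)))))
(cons (mv 1161 (cons (fin 1162 1 1097)
(mv 1166 (cons (fin 1165 0 1098)
(mv 1102 (cons (fin 1167 0 1099)
(mv 1034 (cons (fin 1033 3 1033)
(fin 1035 3 1034)))))))))
(mv 1165 (cons (fin 1166 0 1098)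
(mv 1097 (cons (fin 1164 0 1097)
(fin 1036 2 1033))))))))
(cons (mv 1098 (cons (fin 1038 2 1034)
(mv 1165 (cons (fin 1166 0 1098)
(mv 1097 (cons (fin 1164 0 1097)
(fin 1036 2 1033)))))))
(mv 1098 (cons (fin 1038 2 1034)
(mv 1161 (cons (fin 1162 1 1097)
(mv 1160 (cons (fin 1097 1 1096)
(mv 1166 (cons (fin 1165 0 1098)
(mv 1102 (cons (fin 1167 0 1099)
(mv 1034 (cons (fin 1033 3 1033)
(fin 1035 3 1034)))))))))))))))))))
(cons (cons (mv 1038 (cons (fin 1039 1 1036)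
(mv 1036 (cons (cons (mv 1098 (cons (fin 1099 2 1034)
(mv 1035 (cons (mv 1034 (cons (fin 1097 1 1033)
(fin 1033 0 1033)))
(mv 971 (cons (fin 970 3 970)
(mv 1164 (cons (fin 1228 7 971)
(mv 907 (cons (fin 972 7 907)
(fin 843 4 843)))))))))))
(cons (mv 1165 (cons (mv 1229 (cons (fin 1293 7 1036)
(fin 972 7 972)))
(cons (mv 972 (cons (fin 908 4 908)
(mv 1164 (cons (cons (mv 1292 (cons (fin 1228 6 1036)
(mv 1227 (cons (fin 1163 5 971)
(mv 971 (cons (fin 907 7 907)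
(mv 970 (cons (fin 1035 3 970)
(fin 969 0 969)))))))))
(mv 1227 (cons (fin 1163 5 971)
(mv 971 (cons (fin 907 7 907)
(mv 970 (cons (fin 1035 3 970)
(fin 969 0 969))))))))
(cons (mv 1227 (cons (fin 1163 5 971)
(mv 1228 (cons (fin 1291 5 1035)
(fin 1292 6 1036)))))
(mv 1292 (cons (fin 1228 6 1036)
(mv 971 (cons (fin 907 7 907)
(mv 970 (cons (fin 1035 3 970)
(fin 969 0 969))))))))))))
(mv 1229 (cons (fin 1293 7 1036)
(fin 974 6 973))))))
(mv 1098 (cons (fin 1099 2 1034)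
(mv 972 (cons (mv 1165 (cons (fin 1229 7 972)
(fin 908 4 908)))
(cons (mv 908 (cons (fin 844 4 844)
(mv 907 (cons (fin 843 7 843)
(mv 1164 (cons (fin 971 7 907)
(mv 1227 (cons (fin 1163 5 971)
(mv 1228 (cons (fin 1291 5 1035)
(fin 1292 6 1036)))))))))))
(mv 1164 (cons (cons (mv 1292 (cons (fin 1228 6 1036)
(mv 1163 (cons (fin 1227 5 971)
(mv 1162 (cons (fin 1161 2 1097)
(mv 1165 (cons (fin 1097 3 1097)
(fin 1229 7 972)))))))))
(mv 1292 (cons (fin 1228 6 1036)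
(mv 1163 (cons (fin 1227 5 971)
(mv 1162 (cons (fin 1161 2 1097)
(mv 1097 (cons (fin 1165 3 1097)
(mv 1095 (cons (fin 1096 0 1095)
(mv 971 (cons (fin 907 7 907)
(mv 969 (cons (fin 970 0 969)
(mv 1033 (cons (fin 905 4 905)
(mv 1226 (cons (fin 1290 7 1033)
(fin 1034 7 969))))))))))))))))))))
(cons (mv 1227 (cons (fin 1163 5 971)
(mv 1228 (cons (fin 1291 5 1035)
(fin 1292 6 1036)))))
(cons (mv 1163 (cons (fin 1227 5 971)
(mv 1162 (cons (fin 1161 2 1097)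
(mv 1165 (cons (fin 1097 3 1097)
(fin 1229 7 972)))))))
(mv 1228 (cons (fin 1292 6 1036)
(mv 1229 (cons (fin 1165 7 972)
(fin 1293 4 1036))))))))))))))))
(cons (cons (mv 1035 (cons (cons (mv 1098 (cons (fin 1099 1 1034)
(mv 1034 (cons (fin 1097 1 1033)
(fin 1033 0 1033)))))
(mv 1033 (cons (fin 1034 0 1033)
(mv 971 (cons (fin 970 3 970)
(mv 1164 (cons (fin 1228 7 971)
(mv 907 (cons (fin 1099 4 907)
(fin 843 4 843))))))))))
(cons (mv 1034 (cons (fin 1033 0 1033)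
(mv 970 (cons (fin 969 3 969)
(fin 971 3 970)))))
(mv 1099 (cons (fin 1098 1 1034)
(mv 971 (cons (fin 970 3 970)
(mv 1164 (cons (fin 1228 7 971)
(fin 907 4 907))))))))))
(mv 1165 (cons (mv 1229 (cons (fin 1293 7 1036)
(fin 972 7 972)))
(cons (mv 908 (cons (fin 972 4 908)
(mv 1035 (cons (cons (mv 1098 (cons (fin 1099 1 1034)
(mv 1034 (cons (fin 1097 1 1033)
(fin 1033 0 1033)))))
(mv 1033 (cons (fin 1034 0 1033)
(mv 971 (cons (fin 970 3 970)
(mv 974 (cons (fin 975 2 971)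
(mv 907 (cons (fin 843 4 843)
(mv 844 (cons (fin 1099 6 843)
(mv 846 (cons (fin 910 5 845)
(mv 845 (cons (fin 847 1 843)
(mv 906 (cons (fin 905 2 841)
(fin 909 2 842))))))))))))))))))
(cons (mv 1034 (cons (fin 1033 0 1033)
(mv 970 (cons (fin 969 3 969)
(fin 971 3 970)))))
(mv 1099 (cons (fin 1098 1 1034)
(mv 971 (cons (fin 970 3 970)
(mv 907 (cons (fin 843 4 843)
(fin 844 6 843))))))))))))
(mv 1229 (cons (fin 1293 7 1036)
(fin 974 6 973)))))))
(cons (mv 1098 (cons (fin 1099 2 1034)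
(mv 1164 (cons (cons (mv 1228 (cons (fin 1292 6 1036)
(mv 1291 (cons (fin 1227 5 1035)
(mv 1229 (cons (fin 1293 4 1036)
(mv 1165 (cons (fin 972 7 972)
(fin 974 6 973)))))))))
(cons (mv 1165 (cons (mv 1229 (cons (fin 1293 7 1036)
(fin 972 7 972)))
(cons (mv 972 (cons (fin 908 4 908)
(mv 1163 (cons (fin 1227 5 971)
(mv 1162 (cons (fin 1097 3 1097)
(fin 1161 2 1097)))))))
(mv 1229 (cons (fin 1293 7 1036)
(fin 974 6 973))))))
(mv 1228 (cons (fin 1292 6 1036)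
(mv 1293 (cons (fin 1229 4 1036)
(mv 1227 (cons (fin 1291 5 1035)
(mv 1163 (cons (fin 972 5 971)
(mv 1162 (cons (fin 1161 2 1097)
(mv 1034 (cons (fin 970 4 970)
(mv 1035 (cons (fin 1097 1 1033)
(fin 1033 0 1033)))))))))))))))))
(cons (mv 1228 (cons (fin 1292 6 1036)
(mv 1227 (cons (fin 1291 5 1035)
(mv 1163 (cons (fin 972 5 971)
(mv 1162 (cons (fin 1161 2 1097)
(mv 1165 (cons (fin 1097 3 1097)
(mv 1226 (cons (fin 1225 1 1161)
(fin 1166 1 1162)))))))))))))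
(cons (mv 1228 (cons (fin 1292 6 1036)
(mv 1291 (cons (fin 1227 5 1035)
(mv 1229 (cons (fin 1293 4 1036)
(mv 1165 (cons (fin 974 6 973)
(mv 1230 (cons (fin 1294 4 1037)
(mv 1231 (cons (fin 1163 3 1163)
(fin 1232 3 1164)))))))))))))
(mv 1228 (cons (fin 1292 6 1036)
(mv 1229 (cons (fin 1293 4 1036)
(mv 1165 (cons (fin 972 7 972)
(fin 974 6 973)))))))))))))
(mv 1098 (cons (fin 1099 2 1034)
(mv 1165 (cons (mv 1229 (cons (fin 1293 7 1036)
(fin 972 7 972)))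
(cons (mv 972 (cons (fin 908 4 908)
(mv 1164 (cons (mv 1292 (cons (fin 1228 6 1036)
(mv 1163 (cons (fin 1227 5 971)
(mv 1162 (cons (fin 1097 3 1097)
(fin 1161 2 1097)))))))
(cons (mv 1163 (cons (fin 1227 5 971)
(mv 1162 (cons (fin 1097 3 1097)
(fin 1161 2 1097)))))
(mv 1228 (cons (fin 1292 6 1036)
(mv 971 (cons (fin 1035 7 971)
(fin 907 7 907))))))))))
(mv 1229 (cons (fin 1293 7 1036)
(fin 974 6 973))))))))))))))
(mv 1039 (cons (fin 1038 1 1036)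
(mv 1103 (cons (fin 1102 2 1036)
(mv 976 (cons (cons (mv 1167 (cons (fin 1231 6 975)
(mv 912 (cons (fin 1104 5 911)
(fin 848 5 847)))))
(mv 912 (cons (fin 848 5 847)
(mv 1104 (cons (cons (mv 1169 (cons (fin 1105 4 912)
(mv 1168 (cons (fin 1233 4 976)
(mv 1232 (cons (fin 1296 7 1039)
(fin 975 7 975)))))))
(mv 913 (cons (fin 849 6 848)
(mv 1168 (cons (fin 977 6 912)
(mv 1232 (cons (fin 1296 7 1039)
(fin 975 7 975))))))))
(cons (mv 1105 (cons (fin 1169 4 912)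
(mv 1106 (cons (fin 1107 3 1039)
(mv 1170 (cons (fin 1171 0 1103)
(mv 1042 (cons (fin 1043 2 1039)
(mv 913 (cons (fin 849 6 848)
(mv 978 (cons (fin 977 7 913)
(mv 915 (cons (fin 979 6 914)
(mv 914 (cons (fin 975 1 911)
(fin 851 6 850)))))))))))))))))
(mv 1169 (cons (fin 1105 4 912)
(mv 1168 (cons (fin 1233 4 976)
(mv 913 (cons (fin 977 6 912)
(fin 849 6 848)))))))))))))
(cons (mv 1167 (cons (fin 1231 6 975)
(mv 1168 (cons (cons (mv 1232 (cons (fin 975 4 975)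
(mv 1296 (cons (fin 1360 7 1103)
(fin 1104 7 1039)))))
(mv 1166 (cons (fin 1165 3 1100)
(mv 1230 (cons (fin 975 5 974)
(mv 1358 (cons (fin 1294 6 1102)
(mv 1169 (cons (fin 1229 1 1165)
(mv 1233 (cons (fin 1234 0 1166)
(fin 1104 4 976))))))))))))
(cons (mv 1166 (cons (fin 1165 3 1100)
(mv 1169 (cons (cons (mv 1233 (cons (fin 1234 0 1166)
(fin 1104 4 976)))
(mv 1229 (cons (fin 1230 1 1165)
(mv 1106 (cons (fin 1105 2 1102)
(mv 1170 (cons (fin 1107 2 1103)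
(mv 1235 (cons (fin 1234 0 1167)
(mv 1171 (cons (fin 1104 3 1103)
(fin 1236 0 1168))))))))))))
(cons (mv 1229 (cons (fin 1230 1 1165)
(mv 1234 (cons (fin 1233 0 1166)
(mv 1170 (cons (fin 1235 0 1167)
(mv 1106 (cons (fin 1105 2 1102)
(fin 1107 2 1103)))))))))
(mv 1229 (cons (fin 1230 1 1165)
(mv 1104 (cons (fin 1233 4 976)
(mv 1296 (cons (fin 1232 7 1039)
(mv 1170 (cons (fin 1171 3 1103)
(mv 1106 (cons (fin 1105 1 1102)
(fin 1107 2 1103))))))))))))))))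
(mv 1166 (cons (fin 1165 3 1100)
(mv 975 (cons (fin 1230 5 974)
(fin 1232 4 975))))))))))
(mv 1167 (cons (fin 1231 6 975)
(mv 912 (cons (fin 848 5 847)
(fin 975 6 911)))))))))))))
(cons (mv 1038 (cons (fin 1039 1 1036)
(mv 1099 (cons (fin 1098 2 1034)
(mv 1102 (cons (cons (mv 1162 (cons (fin 1163 1 1098)
(mv 1166 (cons (fin 1167 0 1099)
(mv 1294 (cons (fin 1230 7 1037)
(mv 1035 (cons (fin 1034 3 1034)
(mv 1036 (cons (fin 1103 3 1035)
(mv 971 (cons (fin 970 3 970)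
(mv 1164 (cons (fin 1228 7 971)
(fin 907 4 907)))))))))))))))
(cons (mv 1162 (cons (fin 1163 1 1098)
(mv 1167 (cons (fin 1166 0 1099)
(mv 1103 (cons (fin 1168 0 1100)
(mv 1104 (cons (fin 1036 3 1036)
(fin 1105 3 1037)))))))))
(mv 1166 (cons (fin 1167 0 1099)
(mv 1294 (cons (fin 1230 7 1037)
(mv 1035 (cons (fin 1034 3 1034)
(mv 1036 (cons (fin 1103 3 1035)
(mv 971 (cons (fin 970 3 970)
(mv 1164 (cons (fin 1228 7 971)
(fin 907 4 907)))))))))))))))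
(cons (mv 1162 (cons (fin 1163 1 1098)
(mv 1035 (cons (fin 1034 3 1034)
(mv 1036 (cons (fin 1103 3 1035)
(mv 971 (cons (fin 970 3 970)
(mv 1164 (cons (fin 1228 7 971)
(fin 907 4 907)))))))))))
(cons (mv 1163 (cons (fin 1162 1 1098)
(mv 1166 (cons (fin 1167 0 1099)
(mv 1230 (cons (fin 1294 7 1037)
(mv 1229 (cons (fin 1293 5 1037)
(mv 1231 (cons (fin 1295 4 1038)
(mv 1228 (cons (fin 1164 3 1163)
(mv 1291 (cons (fin 1292 1 1227)
(mv 1227 (cons (fin 1290 1 1226)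
(fin 1036 6 1035)))))))))))))))))
(mv 1163 (cons (fin 1162 1 1098)
(mv 1164 (cons (fin 1103 1 1099)
(mv 1228 (cons (fin 1292 6 1036)
(mv 1035 (cons (fin 1034 3 1034)
(fin 971 4 971)))))))))))))))))
(mv 1038 (cons (fin 1039 1 1036)
(mv 1099 (cons (fin 1098 2 1034)
(mv 1102 (cons (cons (mv 1162 (cons (fin 1163 1 1098)
(mv 1035 (cons (fin 1034 3 1034)
(mv 1103 (cons (fin 1036 3 1035)
(mv 1167 (cons (fin 1168 0 1100)
(mv 1295 (cons (fin 1231 7 1038)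
(mv 1104 (cons (fin 1105 3 1037)
(mv 1165 (cons (fin 1164 1 1100)
(mv 1229 (cons (fin 1293 6 1037)
(fin 974 6 973)))))))))))))))))
(cons (mv 1163 (cons (fin 1162 1 1098)
(mv 1103 (cons (fin 1164 1 1099)
(mv 1104 (cons (fin 1036 3 1036)
(fin 1105 3 1037)))))))
(mv 1035 (cons (fin 1034 3 1034)
(mv 1103 (cons (fin 1036 3 1035)
(mv 1167 (cons (fin 1168 0 1100)
(mv 1295 (cons (fin 1231 7 1038)
(mv 1104 (cons (fin 1105 3 1037)
(mv 1165 (cons (fin 1164 1 1100)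
(mv 1229 (cons (fin 1293 6 1037)
(fin 974 6 973)))))))))))))))))
(cons (mv 1162 (cons (fin 1163 1 1098)
(mv 1035 (cons (fin 1034 3 1034)
(mv 974 (cons (mv 1165 (cons (fin 910 5 909)
(fin 1229 6 973)))
(mv 1036 (cons (fin 975 2 971)
(mv 971 (cons (fin 970 3 970)
(mv 1164 (cons (fin 1228 7 971)
(fin 907 4 907)))))))))))))
(cons (mv 1163 (cons (fin 1162 1 1098)
(mv 1164 (cons (fin 1103 1 1099)
(mv 1228 (cons (fin 1292 6 1036)
(mv 1035 (cons (fin 1034 3 1034)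
(fin 971 4 971)))))))))
(mv 1162 (cons (fin 1163 1 1098)
(mv 1035 (cons (fin 1034 3 1034)
(mv 1103 (cons (fin 1036 3 1035)
(mv 1168 (cons (fin 1167 0 1100)
(mv 1104 (cons (fin 1105 3 1037)
(fin 1169 0 1101)))))))))))))))))))))))
(mv 1100 (cons (cons (cons (mv 1038 (cons (fin 1039 1 1036)
(mv 1099 (cons (fin 1098 2 1034)
(mv 1102 (cons (cons (mv 1162 (cons (fin 1163 1 1098)
(mv 1166 (cons (fin 1167 0 1099)
(mv 1230 (cons (fin 1294 7 1037)
(fin 973 7 973)))))))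
(mv 1162 (cons (fin 1163 1 1098)
(mv 1035 (cons (fin 1034 3 1034)
(mv 1103 (cons (fin 1036 3 1035)
(mv 1168 (cons (fin 1167 0 1100)
(mv 1104 (cons (fin 1105 3 1037)
(fin 1169 0 1101))))))))))))
(cons (mv 1166 (cons (fin 1167 0 1099)
(mv 1230 (cons (fin 1294 7 1037)
(fin 973 7 973)))))
(mv 1162 (cons (fin 1163 1 1098)
(mv 1035 (cons (fin 1034 3 1034)
(mv 1036 (cons (fin 1103 3 1035)
(mv 970 (cons (fin 971 3 970)
(mv 974 (cons (fin 975 2 971)
(mv 910 (cons (fin 846 5 845)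
(mv 909 (cons (fin 845 7 845)
(mv 973 (cons (fin 1164 5 908)
(fin 1166 7 909))))))))))))))))))))))))
(mv 1102 (cons (mv 1103 (cons (fin 1039 2 1036)
(mv 1036 (cons (fin 1035 3 1035)
(fin 1104 3 1036)))))
(cons (mv 1099 (cons (cons (mv 1162 (cons (fin 1163 1 1098)
(mv 1166 (cons (fin 1167 0 1099)
(mv 1294 (cons (fin 1230 7 1037)
(mv 1098 (cons (fin 1161 1 1097)
(mv 1034 (cons (fin 1033 3 1033)
(fin 1035 3 1034)))))))))))
(cons (mv 1163 (cons (fin 1162 1 1098)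
(mv 1166 (cons (fin 1167 0 1099)
(mv 1294 (cons (fin 1230 7 1037)
(mv 973 (cons (fin 909 4 909)
(mv 1036 (cons (cons (mv 1291 (cons (fin 1227 6 1035)
(mv 1164 (cons (fin 1228 6 972)
(mv 1097 (cons (fin 1098 2 1033)
(mv 972 (cons (fin 908 5 907)
(mv 971 (cons (fin 907 7 907)
(mv 970 (cons (fin 969 0 969)
(mv 906 (cons (fin 905 3 905)
(fin 1035 7 906)))))))))))))))
(mv 1227 (cons (fin 1291 6 1035)
(mv 1228 (cons (fin 1164 6 972)
(mv 1292 (cons (fin 1035 4 1035)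
(mv 1420 (cons (fin 1356 7 1163)
(mv 1293 (cons (fin 1295 3 1227)
(mv 1226 (cons (fin 1225 0 1225)
(fin 1229 0 1226))))))))))))))
(cons (mv 1227 (cons (fin 1291 6 1035)
(mv 972 (cons (fin 908 5 907)
(fin 1035 6 971)))))
(cons (mv 1164 (cons (fin 1228 6 972)
(mv 1097 (cons (fin 1098 2 1033)
(mv 972 (cons (fin 908 5 907)
(mv 971 (cons (fin 907 7 907)
(mv 970 (cons (fin 969 0 969)
(mv 906 (cons (fin 905 3 905)
(fin 1035 7 906)))))))))))))
(mv 1227 (cons (fin 1291 6 1035)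
(mv 1164 (cons (fin 972 5 971)
(fin 1228 6 972)))))))))))))))))
(mv 1162 (cons (fin 1163 1 1098)
(mv 1098 (cons (fin 1161 1 1097)
(mv 1034 (cons (fin 1033 3 1033)
(fin 1035 3 1034)))))))))
(cons (cons (mv 1162 (cons (fin 1163 1 1098)
(mv 1166 (cons (fin 1167 0 1099)
(mv 1294 (cons (fin 1230 7 1037)
(mv 1098 (cons (fin 1161 1 1097)
(mv 1097 (cons (fin 1036 2 1033)
(mv 1033 (cons (fin 1032 3 1032)
(fin 1034 3 1033)))))))))))))
(mv 1166 (cons (fin 1167 0 1099)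
(mv 1294 (cons (fin 1230 7 1037)
(mv 1034 (cons (fin 1035 3 1034)
(mv 1098 (cons (fin 1033 3 1033)
(mv 1036 (cons (fin 1097 2 1033)
(mv 973 (cons (fin 909 4 909)
(mv 1164 (cons (fin 1228 6 972)
(mv 972 (cons (mv 1163 (cons (fin 1227 5 971)
(fin 908 5 907)))
(cons (mv 907 (cons (fin 971 7 907)
(mv 908 (cons (fin 843 7 843)
(fin 844 4 844)))))
(mv 1163 (cons (fin 1227 5 971)
(mv 970 (cons (fin 906 4 906)
(mv 971 (cons (fin 969 0 969)
(fin 907 7 907)))))))))))))))))))))))))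
(cons (mv 1166 (cons (fin 1167 0 1099)
(mv 1294 (cons (fin 1230 7 1037)
(mv 1034 (cons (fin 1035 3 1034)
(mv 1098 (cons (fin 1033 3 1033)
(mv 1161 (cons (fin 1162 1 1097)
(mv 1097 (cons (fin 1160 1 1096)
(fin 1036 2 1033)))))))))))))
(mv 1163 (cons (fin 1162 1 1098)
(mv 1166 (cons (fin 1167 0 1099)
(mv 1294 (cons (fin 1230 7 1037)
(mv 1035 (cons (fin 1034 3 1034)
(mv 973 (cons (fin 909 4 909)
(mv 1164 (cons (mv 1228 (cons (fin 1292 7 1035)
(fin 971 4 971)))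
(cons (mv 971 (cons (fin 907 4 907)
(mv 970 (cons (fin 906 7 906)
(mv 972 (cons (fin 908 6 907)
(mv 1036 (cons (fin 969 0 969)
(fin 1227 5 971)))))))))
(mv 1228 (cons (fin 1292 7 1035)
(fin 1036 6 972))))))))))))))))))))
(mv 1103 (cons (fin 1039 2 1036)
(mv 1163 (cons (fin 1164 1 1099)
(mv 1167 (cons (fin 1168 0 1100)
(mv 1099 (cons (fin 1162 1 1098)
(fin 1166 0 1099)))))))))))))
(cons (mv 1164 (cons (cons (mv 1228 (cons (fin 1292 6 1036)
(mv 973 (cons (fin 909 5 908)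
(fin 1036 6 972)))))
(mv 973 (cons (fin 909 5 908)
(mv 1102 (cons (cons (mv 1163 (cons (fin 1103 1 1099)
(mv 1162 (cons (fin 1099 1 1098)
(fin 1161 2 1097)))))
(mv 1099 (cons (cons (mv 1162 (cons (fin 1163 1 1098)
(mv 1098 (cons (fin 1161 1 1097)
(fin 1038 2 1034)))))
(mv 1162 (cons (fin 1163 1 1098)
(mv 1166 (cons (fin 1167 0 1099)
(mv 1230 (cons (fin 1294 7 1037)
(fin 1038 7 973))))))))
(cons (mv 1166 (cons (fin 1167 0 1099)
(mv 1230 (cons (fin 1294 7 1037)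
(fin 1038 7 973)))))
(mv 1162 (cons (fin 1163 1 1098)
(mv 1166 (cons (fin 1167 0 1099)
(mv 1294 (cons (fin 1230 7 1037)
(mv 1098 (cons (fin 1161 1 1097)
(mv 1034 (cons (fin 1033 3 1033)
(fin 1035 3 1034)))))))))))))))
(cons (mv 1035 (cons (cons (mv 1034 (cons (fin 1099 3 1034)
(fin 1036 0 1034)))
(mv 1099 (cons (fin 1034 3 1034)
(mv 1166 (cons (fin 1167 0 1099)
(mv 1230 (cons (fin 1294 7 1037)
(fin 1038 7 973))))))))
(cons (mv 1103 (cons (fin 1036 3 1035)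
(mv 1167 (cons (fin 1168 0 1100)
(mv 1166 (cons (fin 1099 0 1099)
(mv 1230 (cons (fin 1294 7 1037)
(fin 1038 7 973)))))))))
(mv 1036 (cons (fin 1103 3 1035)
(fin 1034 0 1034))))))
(mv 1103 (cons (fin 1163 1 1099)
(mv 1036 (cons (fin 1035 3 1035)
(fin 1104 3 1036)))))))))))
(cons (mv 1292 (cons (fin 1228 6 1036)
(mv 1102 (cons (cons (mv 1163 (cons (fin 1103 1 1099)
(mv 1162 (cons (fin 1099 1 1098)
(fin 1161 2 1097)))))
(mv 1099 (cons (cons (mv 1162 (cons (fin 1163 1 1098)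
(mv 1098 (cons (fin 1161 1 1097)
(fin 1038 2 1034)))))
(mv 1163 (cons (fin 1162 1 1098)
(mv 1166 (cons (fin 1167 0 1099)
(mv 1294 (cons (fin 1230 7 1037)
(mv 1035 (cons (fin 1034 3 1034)
(mv 971 (cons (fin 907 4 907)
(mv 970 (cons (fin 906 7 906)
(mv 1036 (cons (fin 1038 3 970)
(mv 1227 (cons (fin 972 5 971)
(fin 1291 6 1035))))))))))))))))))
(cons (mv 1166 (cons (fin 1167 0 1099)
(mv 1294 (cons (fin 1230 7 1037)
(mv 1098 (cons (fin 1038 2 1034)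
(mv 1034 (cons (fin 1033 3 1033)
(fin 1035 3 1034)))))))))
(mv 1162 (cons (fin 1163 1 1098)
(mv 1166 (cons (fin 1167 0 1099)
(mv 1294 (cons (fin 1230 7 1037)
(mv 1098 (cons (fin 1161 1 1097)
(mv 1034 (cons (fin 1033 3 1033)
(fin 1035 3 1034)))))))))))))))
(cons (mv 1099 (cons (cons (mv 1166 (cons (fin 1167 0 1099)
(mv 1294 (cons (fin 1230 7 1037)
(mv 1098 (cons (fin 1038 2 1034)
(mv 1034 (cons (fin 1033 3 1033)
(fin 1035 3 1034)))))))))
(mv 1166 (cons (fin 1167 0 1099)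
(mv 1294 (cons (fin 1230 7 1037)
(mv 1098 (cons (fin 1038 2 1034)
(mv 1161 (cons (fin 1162 1 1097)
(mv 1097 (cons (fin 1160 1 1096)
(fin 1036 2 1033))))))))))))
(cons (mv 1166 (cons (fin 1167 0 1099)
(mv 1294 (cons (fin 1230 7 1037)
(mv 1035 (cons (fin 1034 3 1034)
(mv 1036 (cons (fin 1103 3 1035)
(mv 971 (cons (fin 907 4 907)
(mv 970 (cons (fin 1038 3 970)
(mv 969 (cons (fin 968 0 968)
(fin 972 0 969)))))))))))))))
(cons (mv 1098 (cons (fin 1038 2 1034)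
(mv 1034 (cons (fin 1033 3 1033)
(fin 1035 3 1034)))))
(mv 1166 (cons (fin 1167 0 1099)
(mv 1294 (cons (fin 1230 7 1037)
(mv 1034 (cons (fin 1035 3 1034)
(mv 1098 (cons (fin 1033 3 1033)
(mv 1161 (cons (fin 1162 1 1097)
(mv 1097 (cons (fin 1160 1 1096)
(fin 1036 2 1033)))))))))))))))))
(mv 1103 (cons (fin 1163 1 1099)
(mv 1036 (cons (fin 1035 3 1035)
(fin 1104 3 1036))))))))))
(mv 1292 (cons (fin 1228 6 1036)
(mv 973 (cons (fin 909 5 908)
(mv 1099 (cons (cons (mv 1098 (cons (fin 1038 2 1034)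
(mv 1161 (cons (fin 1162 1 1097)
(mv 1160 (cons (fin 1097 1 1096)
(mv 1034 (cons (fin 1033 3 1033)
(mv 1102 (cons (fin 1035 3 1034)
(mv 1167 (cons (fin 1166 0 1099)
(mv 1103 (cons (fin 1163 1 1099)
(fin 1168 0 1100)))))))))))))))
(mv 1102 (cons (mv 1163 (cons (fin 1162 1 1098)
(fin 1103 1 1099)))
(mv 1166 (cons (fin 1167 0 1099)
(mv 1230 (cons (fin 1294 7 1037)
(fin 1038 7 973))))))))
(cons (mv 1034 (cons (cons (mv 1098 (cons (fin 1033 3 1033)
(mv 1161 (cons (fin 1162 1 1097)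
(mv 1160 (cons (fin 1097 1 1096)
(mv 1102 (cons (fin 1035 3 1034)
(mv 1167 (cons (fin 1166 0 1099)
(mv 1103 (cons (fin 1163 1 1099)
(fin 1168 0 1100)))))))))))))
(cons (mv 1098 (cons (fin 1033 3 1033)
(mv 1161 (cons (fin 1162 1 1097)
(mv 1097 (cons (fin 1160 1 1096)
(mv 1289 (cons (fin 1225 6 1033)
(mv 1163 (cons (fin 1096 0 1096)
(mv 1227 (cons (fin 1291 7 1034)
(mv 970 (cons (fin 906 5 905)
(fin 1035 7 970)))))))))))))))
(mv 1098 (cons (fin 1033 3 1033)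
(mv 1162 (cons (fin 1161 1 1097)
(mv 1163 (cons (fin 1102 1 1098)
(mv 1227 (cons (fin 1291 7 1034)
(fin 970 4 970)))))))))))
(cons (mv 1102 (cons (fin 1035 3 1034)
(mv 1163 (cons (fin 1162 1 1098)
(fin 1103 1 1099)))))
(cons (mv 1098 (cons (fin 1033 3 1033)
(mv 1162 (cons (fin 1161 1 1097)
(mv 1035 (cons (fin 1102 3 1034)
(mv 1226 (cons (fin 1290 6 1034)
(fin 971 6 970)))))))))
(mv 1098 (cons (fin 1033 3 1033)
(mv 1102 (cons (fin 1035 3 1034)
(mv 1167 (cons (fin 1166 0 1099)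
(mv 1103 (cons (fin 1163 1 1099)
(fin 1168 0 1100)))))))))))))
(cons (mv 1098 (cons (fin 1038 2 1034)
(mv 1161 (cons (fin 1162 1 1097)
(mv 1097 (cons (fin 1160 1 1096)
(mv 1033 (cons (fin 1032 3 1032)
(fin 1034 3 1033)))))))))
(mv 1098 (cons (fin 1038 2 1034)
(mv 1033 (cons (fin 1034 3 1033)
(mv 1097 (cons (fin 1032 3 1032)
(mv 1160 (cons (fin 1161 1 1096)
(mv 1096 (cons (fin 1159 1 1095)
(fin 1163 0 1096))))))))))))))))))))))
(mv 1038 (cons (fin 1039 1 1036)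
(mv 1099 (cons (fin 1098 2 1034)
(mv 1102 (cons (cons (mv 1162 (cons (fin 1163 1 1098)
(mv 1166 (cons (fin 1167 0 1099)
(mv 1230 (cons (fin 1294 7 1037)
(fin 973 7 973)))))))
(mv 1162 (cons (fin 1163 1 1098)
(mv 1035 (cons (fin 1034 3 1034)
(mv 1103 (cons (fin 1036 3 1035)
(mv 1168 (cons (fin 1167 0 1100)
(mv 1104 (cons (fin 1105 3 1037)
(fin 1169 0 1101))))))))))))
(cons (mv 1162 (cons (fin 1163 1 1098)
(mv 1035 (cons (fin 1034 3 1034)
(mv 1036 (cons (fin 1103 3 1035)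
(mv 970 (cons (fin 971 3 970)
(mv 974 (cons (fin 975 2 971)
(mv 910 (cons (fin 846 5 845)
(mv 909 (cons (fin 845 7 845)
(mv 973 (cons (fin 1166 7 909)
(mv 908 (cons (fin 844 7 844)
(mv 907 (cons (fin 906 0 906)
(mv 843 (cons (fin 842 3 842)
(fin 972 7 843)))))))))))))))))))))))
(mv 1166 (cons (fin 1167 0 1099)
(mv 1230 (cons (fin 1294 7 1037)
(fin 973 7 973))))))))))))))
(cons (cons (mv 1038 (cons (fin 1039 1 1036)
(mv 1099 (cons (fin 1098 2 1034)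
(mv 973 (cons (cons (mv 1164 (cons (fin 909 5 908)
(mv 1228 (cons (fin 1292 6 1036)
(fin 1036 6 972)))))
(mv 971 (cons (cons (mv 970 (cons (fin 972 0 970)
(mv 1035 (cons (fin 1036 3 970)
(mv 1163 (cons (fin 906 7 906)
(mv 1164 (cons (fin 1228 4 971)
(fin 907 4 907)))))))))
(cons (mv 1164 (cons (mv 1228 (cons (fin 1292 6 1036)
(fin 1036 6 972)))
(cons (mv 907 (cons (fin 1035 4 907)
(mv 972 (cons (fin 1036 7 907)
(mv 906 (cons (fin 974 3 906)
(mv 905 (cons (fin 904 0 904)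
(fin 908 0 905)))))))))
(mv 1228 (cons (fin 1292 6 1036)
(mv 1035 (cons (fin 1163 4 971)
(fin 907 4 907))))))))
(mv 1164 (cons (mv 1228 (cons (fin 1292 6 1036)
(fin 1036 6 972)))
(cons (mv 1035 (cons (fin 907 4 907)
(mv 1036 (cons (fin 970 3 970)
(mv 1034 (cons (fin 1033 0 1033)
(fin 974 2 970)))))))
(mv 1228 (cons (fin 1292 6 1036)
(mv 1035 (cons (fin 1163 4 971)
(fin 907 4 907))))))))))
(cons (cons (mv 970 (cons (fin 972 0 970)
(mv 1035 (cons (fin 1036 3 970)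
(mv 1163 (cons (fin 906 7 906)
(mv 1226 (cons (fin 1162 5 970)
(mv 1227 (cons (fin 1290 5 1034)
(fin 1034 7 970)))))))))))
(mv 972 (cons (fin 970 0 970)
(mv 1036 (cons (mv 1164 (cons (fin 907 7 907)
(fin 1228 6 972)))
(mv 908 (cons (fin 1163 5 907)
(fin 844 4 844))))))))
(cons (mv 970 (cons (fin 972 0 970)
(mv 1035 (cons (cons (mv 1163 (cons (fin 906 7 906)
(mv 1164 (cons (fin 1228 4 971)
(fin 907 4 907)))))
(mv 907 (cons (fin 1164 4 907)
(mv 906 (cons (fin 842 7 842)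
(mv 844 (cons (fin 908 6 843)
(mv 843 (cons (fin 780 6 779)
(mv 779 (cons (fin 1034 5 778)
(fin 715 5 714))))))))))))
(cons (mv 1164 (cons (fin 907 4 907)
(mv 1228 (cons (fin 1292 7 1035)
(fin 1163 4 971)))))
(mv 1163 (cons (fin 906 7 906)
(mv 1226 (cons (fin 1162 5 970)
(mv 1227 (cons (fin 1290 5 1034)
(fin 1034 7 970))))))))))))
(mv 970 (cons (fin 972 0 970)
(mv 1035 (cons (fin 1036 3 970)
(mv 907 (cons (fin 1164 4 907)
(mv 906 (cons (fin 842 7 842)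
(mv 844 (cons (fin 908 6 843)
(mv 843 (cons (fin 780 6 779)
(mv 779 (cons (fin 1034 5 778)
(fin 715 5 714))))))))))))))))))))
(cons (mv 909 (cons (cons (mv 1036 (cons (fin 845 5 844)
(mv 908 (cons (fin 844 7 844)
(mv 972 (cons (fin 1163 5 907)
(mv 970 (cons (fin 971 0 970)
(mv 907 (cons (fin 843 7 843)
(mv 974 (cons (fin 975 3 907)
(fin 906 0 906)))))))))))))
(mv 908 (cons (fin 844 7 844)
(mv 910 (cons (fin 846 6 845)
(mv 907 (cons (mv 974 (cons (fin 906 0 906)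
(fin 975 0 907)))
(cons (mv 970 (cons (fin 971 1 906)
(mv 906 (cons (fin 969 1 905)
(mv 842 (cons (fin 841 3 841)
(fin 843 3 842)))))))
(mv 971 (cons (fin 970 1 906)
(mv 974 (cons (fin 975 0 907)
(mv 843 (cons (fin 842 3 842)
(mv 1036 (cons (fin 972 7 843)
(fin 1035 4 843)))))))))))))))))
(cons (mv 910 (cons (fin 846 6 845)
(mv 845 (cons (fin 1036 5 844)
(mv 781 (cons (fin 974 4 781)
(mv 716 (cons (fin 780 7 716)
(mv 717 (cons (fin 652 7 652)
(mv 718 (cons (fin 782 6 717)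
(fin 654 6 653)))))))))))))
(cons (mv 908 (cons (fin 844 7 844)
(mv 846 (cons (fin 910 6 845)
(mv 845 (cons (fin 782 6 781)
(mv 974 (cons (fin 781 4 781)
(mv 975 (cons (fin 976 3 908)
(mv 907 (cons (fin 972 3 907)
(fin 906 0 906)))))))))))))
(mv 1036 (cons (fin 845 5 844)
(mv 908 (cons (fin 844 7 844)
(mv 972 (cons (fin 1163 5 907)
(mv 970 (cons (fin 971 0 970)
(mv 907 (cons (fin 843 7 843)
(mv 906 (cons (fin 969 1 905)
(fin 905 0 905)))))))))))))))))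
(mv 909 (cons (fin 1164 5 908)
(mv 908 (cons (fin 844 7 844)
(mv 846 (cons (fin 910 6 845)
(mv 845 (cons (fin 782 6 781)
(mv 974 (cons (fin 781 4 781)
(mv 975 (cons (fin 976 3 908)
(mv 907 (cons (fin 972 3 907)
(fin 906 0 906))))))))))))))))))))))
(mv 1039 (cons (fin 1038 1 1036)
(mv 1103 (cons (fin 1102 2 1036)
(mv 976 (cons (cons (mv 1167 (cons (fin 1231 6 975)
(mv 912 (cons (fin 1104 5 911)
(fin 848 5 847)))))
(mv 912 (cons (fin 848 5 847)
(mv 1104 (cons (cons (mv 1169 (cons (fin 1105 4 912)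
(mv 1168 (cons (fin 1233 4 976)
(mv 1232 (cons (fin 1296 7 1039)
(fin 975 7 975)))))))
(mv 913 (cons (fin 849 6 848)
(mv 1168 (cons (fin 977 6 912)
(mv 1232 (cons (fin 1296 7 1039)
(fin 975 7 975))))))))
(cons (mv 1105 (cons (fin 1169 4 912)
(mv 1106 (cons (fin 1107 3 1039)
(mv 1170 (cons (fin 1171 0 1103)
(mv 1042 (cons (fin 1043 2 1039)
(mv 913 (cons (fin 849 6 848)
(mv 978 (cons (fin 977 7 913)
(mv 915 (cons (fin 979 6 914)
(mv 914 (cons (fin 975 1 911)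
(fin 851 6 850)))))))))))))))))
(mv 1169 (cons (fin 1105 4 912)
(mv 1168 (cons (fin 1233 4 976)
(mv 913 (cons (fin 977 6 912)
(fin 849 6 848)))))))))))))
(cons (mv 1167 (cons (fin 1231 6 975)
(mv 975 (cons (cons (mv 1230 (cons (fin 1166 5 974)
(mv 1232 (cons (fin 1168 4 975)
(mv 974 (cons (fin 910 7 910)
(mv 973 (cons (fin 1036 1 972)
(fin 972 0 972)))))))))
(mv 1166 (cons (fin 1230 5 974)
(mv 1168 (cons (fin 1232 4 975)
(mv 1169 (cons (cons (mv 1233 (cons (fin 1234 0 1166)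
(fin 1104 4 976)))
(mv 1106 (cons (fin 1105 2 1102)
(mv 1170 (cons (fin 1107 2 1103)
(mv 1235 (cons (fin 1234 0 1167)
(mv 1171 (cons (fin 1104 3 1103)
(fin 1236 0 1168))))))))))
(cons (mv 1234 (cons (fin 1233 0 1166)
(mv 1170 (cons (fin 1235 0 1167)
(mv 1106 (cons (fin 1105 2 1102)
(fin 1107 2 1103)))))))
(mv 1104 (cons (fin 1233 4 976)
(mv 1170 (cons (fin 1171 3 1103)
(mv 1106 (cons (fin 1105 1 1102)
(fin 1107 2 1103)))))))))))))))
(cons (mv 1230 (cons (fin 1166 5 974)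
(mv 974 (cons (fin 910 7 910)
(mv 973 (cons (fin 1036 1 972)
(fin 972 0 972)))))))
(mv 1232 (cons (fin 1168 4 975)
(mv 974 (cons (fin 910 7 910)
(mv 973 (cons (fin 1036 1 972)
(fin 972 0 972))))))))))))
(mv 1167 (cons (fin 1231 6 975)
(mv 912 (cons (fin 848 5 847)
(fin 975 6 911)))))))))))))
(cons (mv 1038 (cons (fin 1039 1 1036)
(mv 1099 (cons (fin 1098 2 1034)
(mv 1102 (cons (cons (mv 1162 (cons (fin 1163 1 1098)
(mv 1166 (cons (fin 1167 0 1099)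
(mv 1294 (cons (fin 1230 7 1037)
(mv 1035 (cons (fin 1034 3 1034)
(mv 1036 (cons (fin 1103 3 1035)
(mv 971 (cons (fin 970 3 970)
(mv 1164 (cons (fin 1228 7 971)
(fin 907 4 907)))))))))))))))
(cons (mv 1162 (cons (fin 1163 1 1098)
(mv 1167 (cons (fin 1166 0 1099)
(mv 1103 (cons (fin 1168 0 1100)
(mv 1104 (cons (fin 1036 3 1036)
(fin 1105 3 1037)))))))))
(mv 1166 (cons (fin 1167 0 1099)
(mv 1294 (cons (fin 1230 7 1037)
(mv 1035 (cons (fin 1034 3 1034)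
(mv 1036 (cons (fin 1103 3 1035)
(mv 971 (cons (fin 970 3 970)
(mv 1164 (cons (fin 1228 7 971)
(fin 907 4 907)))))))))))))))
(cons (mv 1162 (cons (fin 1163 1 1098)
(mv 1035 (cons (fin 1034 3 1034)
(mv 1036 (cons (fin 1103 3 1035)
(mv 971 (cons (fin 970 3 970)
(mv 1164 (cons (fin 1228 7 971)
(fin 907 4 907)))))))))))
(cons (mv 1163 (cons (fin 1162 1 1098)
(mv 1166 (cons (fin 1167 0 1099)
(mv 1230 (cons (fin 1294 7 1037)
(mv 1229 (cons (fin 1293 5 1037)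
(mv 1231 (cons (fin 1295 4 1038)
(mv 1228 (cons (fin 1164 3 1163)
(mv 1291 (cons (fin 1292 1 1227)
(mv 1227 (cons (fin 1290 1 1226)
(fin 1036 6 1035)))))))))))))))))
(mv 1163 (cons (fin 1162 1 1098)
(mv 1164 (cons (fin 1103 1 1099)
(mv 1228 (cons (fin 1292 6 1036)
(mv 1035 (cons (fin 1034 3 1034)
(fin 971 4 971)))))))))))))))))
(mv 1038 (cons (fin 1039 1 1036)
(mv 1099 (cons (fin 1098 2 1034)
(mv 1102 (cons (cons (mv 1162 (cons (fin 1163 1 1098)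
(mv 1166 (cons (fin 1167 0 1099)
(mv 1230 (cons (fin 1294 7 1037)
(fin 973 7 973)))))))
(mv 1163 (cons (fin 1162 1 1098)
(mv 1164 (cons (fin 1103 1 1099)
(mv 1292 (cons (fin 1228 6 1036)
(mv 1035 (cons (fin 1034 3 1034)
(mv 971 (cons (fin 907 4 907)
(mv 970 (cons (fin 906 7 906)
(mv 972 (cons (fin 973 0 970)
(fin 908 6 907))))))))))))))))
(cons (mv 1166 (cons (fin 1167 0 1099)
(mv 1230 (cons (fin 1294 7 1037)
(fin 973 7 973)))))
(mv 1163 (cons (fin 1162 1 1098)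
(mv 1164 (cons (fin 1103 1 1099)
(mv 1228 (cons (fin 1292 6 1036)
(mv 1035 (cons (fin 1034 3 1034)
(fin 971 4 971)))))))))))))))))))))
(cons (mv 1038 (cons (cons (mv 1039 (cons (fin 1100 1 1036)
(mv 1104 (cons (fin 1105 0 1037)
(mv 1103 (cons (fin 1036 0 1036)
(mv 972 (cons (fin 973 3 972)
(mv 976 (cons (fin 977 2 973)
(mv 1167 (cons (fin 912 5 911)
(fin 1231 6 975)))))))))))))
(cons (mv 1165 (cons (cons (mv 1229 (cons (fin 974 6 973)
(mv 1292 (cons (fin 1228 5 1036)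
(mv 1356 (cons (fin 1293 5 1100)
(mv 1230 (cons (fin 1294 4 1037)
(mv 972 (cons (fin 1036 7 972)
(mv 973 (cons (fin 908 7 908)
(fin 1166 4 973)))))))))))))
(cons (mv 973 (cons (cons (mv 1228 (cons (fin 1164 5 972)
(mv 1230 (cons (fin 1166 4 973)
(mv 972 (cons (fin 908 7 908)
(mv 971 (cons (fin 970 0 970)
(mv 974 (cons (fin 910 6 909)
(mv 1035 (cons (fin 1034 1 970)
(mv 1036 (cons (fin 975 1 971)
(mv 1098 (cons (fin 1099 1 1034)
(mv 907 (cons (fin 906 3 906)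
(mv 843 (cons (fin 1100 4 843)
(fin 779 4 779)))))))))))))))))))))
(cons (mv 1230 (cons (fin 1166 4 973)
(mv 1164 (cons (fin 1228 5 972)
(mv 1100 (cons (fin 909 5 908)
(mv 1098 (cons (fin 1099 2 1034)
(mv 972 (cons (fin 908 7 908)
(mv 971 (cons (fin 970 0 970)
(mv 1036 (cons (fin 907 7 907)
(mv 1163 (cons (fin 1227 5 971)
(mv 1162 (cons (fin 1097 3 1097)
(fin 1161 2 1097)))))))))))))))))))
(mv 1230 (cons (fin 1166 4 973)
(mv 972 (cons (fin 908 7 908)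
(mv 971 (cons (fin 970 0 970)
(mv 974 (cons (fin 910 6 909)
(mv 1035 (cons (fin 1034 1 970)
(mv 1036 (cons (fin 975 1 971)
(mv 1098 (cons (fin 1099 1 1034)
(mv 907 (cons (fin 906 3 906)
(mv 843 (cons (fin 1100 4 843)
(fin 779 4 779)))))))))))))))))))))
(cons (cons (mv 1230 (cons (fin 1166 4 973)
(mv 1164 (cons (fin 1228 5 972)
(mv 974 (cons (fin 910 6 909)
(mv 909 (cons (fin 1100 5 908)
(mv 844 (cons (fin 908 7 844)
(mv 845 (cons (fin 780 7 780)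
(fin 781 4 781)))))))))))))
(mv 1230 (cons (fin 1166 4 973)
(mv 1164 (cons (fin 1228 5 972)
(mv 909 (cons (fin 1100 5 908)
(mv 910 (cons (fin 974 6 909)
(fin 846 6 845))))))))))
(cons (mv 1228 (cons (fin 1164 5 972)
(mv 972 (cons (fin 908 7 908)
(mv 971 (cons (fin 970 0 970)
(mv 974 (cons (fin 910 6 909)
(mv 1035 (cons (fin 1034 1 970)
(mv 1036 (cons (fin 975 1 971)
(mv 1098 (cons (fin 1099 1 1034)
(mv 907 (cons (fin 906 3 906)
(mv 843 (cons (fin 1100 4 843)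
(fin 779 4 779)))))))))))))))))))
(mv 1228 (cons (fin 1164 5 972)
(mv 1230 (cons (fin 1166 4 973)
(mv 908 (cons (fin 972 7 908)
(mv 909 (cons (fin 844 7 844)
(mv 910 (cons (fin 974 6 909)
(fin 846 6 845)))))))))))))))
(mv 973 (cons (cons (mv 1228 (cons (fin 1164 5 972)
(mv 1229 (cons (fin 1292 5 1036)
(mv 1230 (cons (fin 1294 4 1037)
(fin 1166 4 973)))))))
(mv 1230 (cons (fin 1166 4 973)
(mv 1229 (cons (fin 1294 4 1037)
(mv 972 (cons (fin 1036 7 972)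
(fin 908 7 908))))))))
(cons (mv 1228 (cons (fin 1164 5 972)
(mv 1229 (cons (fin 1292 5 1036)
(mv 972 (cons (fin 1036 7 972)
(fin 908 7 908)))))))
(mv 1230 (cons (fin 1166 4 973)
(mv 1164 (cons (fin 1228 5 972)
(mv 1100 (cons (fin 909 5 908)
(mv 1098 (cons (fin 1099 2 1034)
(mv 972 (cons (fin 908 7 908)
(mv 971 (cons (fin 970 0 970)
(mv 1036 (cons (fin 907 7 907)
(mv 1163 (cons (fin 1227 5 971)
(mv 1162 (cons (fin 1097 3 1097)
(fin 1161 2 1097))))))))))))))))))))))))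
(cons (mv 1229 (cons (fin 974 6 973)
(mv 1292 (cons (fin 1228 5 1036)
(mv 1293 (cons (fin 1356 5 1100)
(mv 1294 (cons (fin 1358 4 1101)
(fin 1230 4 1037)))))))))
(cons (mv 1229 (cons (fin 974 6 973)
(mv 1294 (cons (fin 1230 4 1037)
(mv 1293 (cons (fin 1358 4 1101)
(mv 1036 (cons (fin 1100 7 1036)
(fin 972 7 972)))))))))
(mv 1229 (cons (fin 974 6 973)
(mv 1292 (cons (fin 1228 5 1036)
(mv 1293 (cons (fin 1356 5 1100)
(mv 1036 (cons (fin 1100 7 1036)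
(fin 972 7 972)))))))))))))
(mv 1039 (cons (cons (mv 1104 (cons (fin 1105 0 1037)
(mv 1103 (cons (fin 1036 0 1036)
(mv 972 (cons (fin 973 3 972)
(mv 976 (cons (fin 977 2 973)
(mv 1167 (cons (fin 912 5 911)
(fin 1231 6 975)))))))))))
(mv 1104 (cons (fin 1105 0 1037)
(mv 1103 (cons (fin 1036 0 1036)
(mv 976 (cons (fin 977 2 973)
(mv 1167 (cons (fin 912 5 911)
(fin 1231 6 975))))))))))
(cons (mv 1104 (cons (fin 1105 0 1037)
(mv 1036 (cons (fin 1103 0 1036)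
(mv 972 (cons (fin 971 3 971)
(fin 973 3 972)))))))
(cons (mv 972 (cons (fin 973 3 972)
(mv 1036 (cons (fin 971 3 971)
(mv 976 (cons (fin 975 2 972)
(fin 977 2 973)))))))
(mv 1104 (cons (fin 1105 0 1037)
(mv 972 (cons (fin 973 3 972)
(mv 976 (cons (fin 977 2 973)
(mv 912 (cons (mv 1103 (cons (fin 1167 5 911)
(fin 848 5 847)))
(cons (mv 849 (cons (fin 913 6 848)
(mv 848 (cons (fin 785 6 784)
(mv 783 (cons (fin 847 7 783)
(mv 784 (cons (fin 975 5 783)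
(fin 719 7 719)))))))))
(mv 1167 (cons (fin 1103 5 911)
(mv 1168 (cons (fin 1231 5 975)
(mv 1232 (cons (fin 975 7 975)
(mv 1233 (cons (fin 1297 4 1040)
(fin 1169 4 976))))))))))))))))))))))))
(cons (mv 1100 (cons (fin 1039 1 1036)
(mv 1036 (cons (cons (mv 1098 (cons (fin 1099 2 1034)
(mv 1035 (cons (mv 1034 (cons (fin 1097 1 1033)
(fin 1033 0 1033)))
(mv 971 (cons (fin 970 3 970)
(mv 1164 (cons (fin 1228 7 971)
(mv 907 (cons (fin 972 7 907)
(fin 843 4 843)))))))))))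
(cons (mv 1165 (cons (mv 1229 (cons (fin 1293 7 1036)
(fin 972 7 972)))
(cons (mv 972 (cons (fin 908 4 908)
(mv 1164 (cons (cons (mv 1292 (cons (fin 1228 6 1036)
(mv 1227 (cons (fin 1163 5 971)
(mv 971 (cons (fin 907 7 907)
(mv 970 (cons (fin 1035 3 970)
(fin 969 0 969)))))))))
(mv 1227 (cons (fin 1163 5 971)
(mv 971 (cons (fin 907 7 907)
(mv 970 (cons (fin 1035 3 970)
(fin 969 0 969))))))))
(cons (mv 1227 (cons (fin 1163 5 971)
(mv 1228 (cons (fin 1291 5 1035)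
(fin 1292 6 1036)))))
(mv 1292 (cons (fin 1228 6 1036)
(mv 971 (cons (fin 907 7 907)
(mv 970 (cons (fin 1035 3 970)
(fin 969 0 969))))))))))))
(mv 1229 (cons (fin 1293 7 1036)
(fin 974 6 973))))))
(mv 1098 (cons (fin 1099 2 1034)
(mv 972 (cons (mv 1165 (cons (fin 1229 7 972)
(fin 908 4 908)))
(cons (mv 908 (cons (fin 844 4 844)
(mv 907 (cons (fin 843 7 843)
(mv 1164 (cons (fin 971 7 907)
(mv 1227 (cons (fin 1163 5 971)
(mv 1228 (cons (fin 1291 5 1035)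
(fin 1292 6 1036)))))))))))
(mv 1164 (cons (cons (mv 1292 (cons (fin 1228 6 1036)
(mv 1163 (cons (fin 1227 5 971)
(mv 1162 (cons (fin 1161 2 1097)
(mv 1165 (cons (fin 1097 3 1097)
(fin 1229 7 972)))))))))
(mv 1292 (cons (fin 1228 6 1036)
(mv 1163 (cons (fin 1227 5 971)
(mv 1162 (cons (fin 1161 2 1097)
(mv 1097 (cons (fin 1165 3 1097)
(mv 1095 (cons (fin 1096 0 1095)
(mv 971 (cons (fin 907 7 907)
(mv 969 (cons (fin 970 0 969)
(mv 1033 (cons (fin 905 4 905)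
(mv 1226 (cons (fin 1290 7 1033)
(fin 1034 7 969))))))))))))))))))))
(cons (mv 1227 (cons (fin 1163 5 971)
(mv 1228 (cons (fin 1291 5 1035)
(fin 1292 6 1036)))))
(cons (mv 1163 (cons (fin 1227 5 971)
(mv 1162 (cons (fin 1161 2 1097)
(mv 1165 (cons (fin 1097 3 1097)
(fin 1229 7 972)))))))
(mv 1228 (cons (fin 1292 6 1036)
(mv 1229 (cons (fin 1165 7 972)
(fin 1293 4 1036))))))))))))))))
(cons (cons (mv 1035 (cons (cons (mv 1098 (cons (fin 1099 1 1034)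
(mv 1034 (cons (fin 1097 1 1033)
(fin 1033 0 1033)))))
(mv 1033 (cons (fin 1034 0 1033)
(mv 971 (cons (fin 970 3 970)
(mv 1164 (cons (fin 1228 7 971)
(mv 907 (cons (fin 1099 4 907)
(fin 843 4 843))))))))))
(cons (mv 1034 (cons (fin 1033 0 1033)
(mv 970 (cons (fin 969 3 969)
(fin 971 3 970)))))
(mv 1099 (cons (fin 1098 1 1034)
(mv 971 (cons (fin 970 3 970)
(mv 1164 (cons (fin 1228 7 971)
(fin 907 4 907))))))))))
(mv 1165 (cons (mv 1229 (cons (fin 1293 7 1036)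
(fin 972 7 972)))
(cons (mv 908 (cons (fin 972 4 908)
(mv 1035 (cons (cons (mv 1098 (cons (fin 1099 1 1034)
(mv 1034 (cons (fin 1097 1 1033)
(fin 1033 0 1033)))))
(mv 1033 (cons (fin 1034 0 1033)
(mv 971 (cons (fin 970 3 970)
(mv 974 (cons (fin 975 2 971)
(mv 907 (cons (fin 843 4 843)
(mv 844 (cons (fin 1099 6 843)
(mv 846 (cons (fin 910 5 845)
(mv 845 (cons (fin 847 1 843)
(mv 906 (cons (fin 905 2 841)
(fin 909 2 842))))))))))))))))))
(cons (mv 1034 (cons (fin 1033 0 1033)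
(mv 970 (cons (fin 969 3 969)
(fin 971 3 970)))))
(mv 1099 (cons (fin 1098 1 1034)
(mv 971 (cons (fin 970 3 970)
(mv 907 (cons (fin 843 4 843)
(fin 844 6 843))))))))))))
(mv 1229 (cons (fin 1293 7 1036)
(fin 974 6 973)))))))
(cons (mv 1098 (cons (fin 1099 2 1034)
(mv 1164 (cons (cons (mv 1228 (cons (fin 1292 6 1036)
(mv 1291 (cons (fin 1227 5 1035)
(mv 1229 (cons (fin 1293 4 1036)
(mv 1165 (cons (fin 972 7 972)
(fin 974 6 973)))))))))
(cons (mv 1165 (cons (mv 1229 (cons (fin 1293 7 1036)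
(fin 972 7 972)))
(cons (mv 972 (cons (fin 908 4 908)
(mv 1163 (cons (fin 1227 5 971)
(mv 1162 (cons (fin 1097 3 1097)
(fin 1161 2 1097)))))))
(mv 1229 (cons (fin 1293 7 1036)
(fin 974 6 973))))))
(mv 1228 (cons (fin 1292 6 1036)
(mv 1293 (cons (fin 1229 4 1036)
(mv 1227 (cons (fin 1291 5 1035)
(mv 1163 (cons (fin 972 5 971)
(mv 1162 (cons (fin 1161 2 1097)
(mv 1034 (cons (fin 970 4 970)
(mv 1035 (cons (fin 1097 1 1033)
(fin 1033 0 1033)))))))))))))))))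
(cons (mv 1228 (cons (fin 1292 6 1036)
(mv 1227 (cons (fin 1291 5 1035)
(mv 1163 (cons (fin 972 5 971)
(mv 1162 (cons (fin 1161 2 1097)
(mv 1165 (cons (fin 1097 3 1097)
(mv 1226 (cons (fin 1225 1 1161)
(fin 1166 1 1162)))))))))))))
(cons (mv 1228 (cons (fin 1292 6 1036)
(mv 1291 (cons (fin 1227 5 1035)
(mv 1229 (cons (fin 1293 4 1036)
(mv 1165 (cons (fin 974 6 973)
(mv 1230 (cons (fin 1294 4 1037)
(mv 1231 (cons (fin 1163 3 1163)
(fin 1232 3 1164)))))))))))))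
(mv 1228 (cons (fin 1292 6 1036)
(mv 1229 (cons (fin 1293 4 1036)
(mv 1165 (cons (fin 972 7 972)
(fin 974 6 973)))))))))))))
(mv 1098 (cons (fin 1099 2 1034)
(mv 1165 (cons (mv 1229 (cons (fin 1293 7 1036)
(fin 972 7 972)))
(cons (mv 972 (cons (fin 908 4 908)
(mv 1164 (cons (mv 1292 (cons (fin 1228 6 1036)
(mv 1163 (cons (fin 1227 5 971)
(mv 1162 (cons (fin 1097 3 1097)
(fin 1161 2 1097)))))))
(cons (mv 1163 (cons (fin 1227 5 971)
(mv 1162 (cons (fin 1097 3 1097)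
(fin 1161 2 1097)))))
(mv 1228 (cons (fin 1292 6 1036)
(mv 971 (cons (fin 1035 7 971)
(fin 907 7 907))))))))))
(mv 1229 (cons (fin 1293 7 1036)
(fin 974 6 973))))))))))))))
(cons (mv 1039 (cons (fin 1100 1 1036)
(mv 1104 (cons (fin 1105 0 1037)
(mv 1103 (cons (fin 1036 0 1036)
(mv 976 (cons (fin 977 2 973)
(mv 1167 (cons (fin 912 5 911)
(fin 1231 6 975)))))))))))
(mv 1039 (cons (fin 1100 1 1036)
(mv 1104 (cons (fin 1105 0 1037)
(mv 972 (cons (fin 973 3 972)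
(mv 976 (cons (fin 977 2 973)
(mv 912 (cons (mv 1103 (cons (fin 1167 5 911)
(fin 848 5 847)))
(cons (mv 849 (cons (fin 913 6 848)
(mv 848 (cons (fin 785 6 784)
(mv 783 (cons (fin 847 7 783)
(mv 784 (cons (fin 975 5 783)
(fin 719 7 719)))))))))
(mv 1167 (cons (fin 1103 5 911)
(mv 1168 (cons (fin 1231 5 975)
(mv 1232 (cons (fin 975 7 975)
(mv 1233 (cons (fin 1297 4 1040)
(fin 1169 4 976))))))))))))))))))))))))
(cons (mv 1038 (cons (cons (mv 1039 (cons (fin 1100 1 1036)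
(mv 1104 (cons (fin 1105 0 1037)
(mv 972 (cons (fin 973 3 972)
(mv 976 (cons (fin 977 2 973)
(mv 1103 (cons (mv 1167 (cons (fin 912 5 911)
(fin 1231 6 975)))
(cons (mv 912 (cons (fin 848 5 847)
(mv 913 (cons (fin 849 6 848)
(mv 1168 (cons (mv 1232 (cons (fin 1296 7 1039)
(fin 975 7 975)))
(mv 1169 (cons (fin 1102 0 1101)
(fin 1233 4 976)))))))))
(mv 1231 (cons (fin 1167 6 975)
(mv 1168 (cons (mv 1232 (cons (fin 1295 5 1039)
(fin 1296 7 1039)))
(mv 1169 (cons (fin 1102 0 1101)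
(fin 1233 4 976))))))))))))))))))
(cons (mv 1165 (cons (cons (mv 1229 (cons (fin 974 6 973)
(mv 1292 (cons (fin 1228 5 1036)
(mv 1293 (cons (fin 1356 5 1100)
(fin 1102 6 1037)))))))
(mv 973 (cons (cons (cons (mv 1228 (cons (fin 1164 5 972)
(mv 1230 (cons (fin 1166 4 973)
(mv 974 (cons (fin 910 6 909)
(mv 908 (cons (fin 972 7 908)
(mv 909 (cons (fin 844 7 844)
(mv 845 (cons (fin 1102 4 845)
(fin 781 4 781)))))))))))))
(mv 1228 (cons (fin 1164 5 972)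
(mv 1230 (cons (fin 1166 4 973)
(mv 908 (cons (fin 972 7 908)
(mv 909 (cons (fin 844 7 844)
(mv 845 (cons (fin 1102 4 845)
(mv 781 (cons (fin 974 4 781)
(mv 782 (cons (fin 846 6 781)
(fin 718 6 717))))))))))))))))
(cons (mv 1228 (cons (fin 1164 5 972)
(mv 974 (cons (fin 910 6 909)
(mv 908 (cons (fin 972 7 908)
(mv 909 (cons (fin 844 7 844)
(mv 845 (cons (fin 1102 4 845)
(fin 781 4 781)))))))))))
(mv 1228 (cons (fin 1164 5 972)
(mv 1230 (cons (fin 1166 4 973)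
(mv 908 (cons (fin 972 7 908)
(mv 909 (cons (fin 844 7 844)
(mv 845 (cons (fin 1102 4 845)
(mv 846 (cons (fin 910 6 845)
(fin 782 6 781)))))))))))))))
(cons (cons (mv 1230 (cons (fin 1166 4 973)
(mv 974 (cons (fin 910 6 909)
(mv 908 (cons (fin 972 7 908)
(mv 909 (cons (fin 844 7 844)
(mv 845 (cons (fin 1102 4 845)
(fin 781 4 781)))))))))))
(mv 1228 (cons (fin 1164 5 972)
(mv 1230 (cons (fin 1166 4 973)
(mv 910 (cons (fin 974 6 909)
(mv 909 (cons (fin 846 6 845)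
(mv 844 (cons (fin 908 7 844)
(mv 845 (cons (fin 780 7 780)
(fin 1102 4 845))))))))))))))
(cons (mv 1228 (cons (fin 1164 5 972)
(mv 1166 (cons (fin 1230 4 973)
(mv 1102 (cons (fin 909 4 909)
(mv 974 (cons (fin 910 5 909)
(mv 1167 (cons (fin 1231 4 974)
(mv 1168 (cons (fin 1100 3 1100)
(fin 1169 3 1101)))))))))))))
(cons (mv 1230 (cons (fin 1166 4 973)
(mv 1164 (cons (fin 1228 5 972)
(mv 972 (cons (fin 908 7 908)
(mv 971 (cons (fin 970 0 970)
(mv 974 (cons (fin 910 6 909)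
(mv 1035 (cons (fin 1034 1 970)
(mv 907 (cons (fin 906 3 906)
(mv 1099 (cons (fin 1100 4 907)
(mv 1162 (cons (fin 1098 5 906)
(mv 1163 (cons (fin 1102 2 1098)
(fin 1226 5 970)))))))))))))))))))))
(mv 1228 (cons (fin 1164 5 972)
(mv 1230 (cons (fin 1166 4 973)
(mv 908 (cons (fin 972 7 908)
(mv 909 (cons (fin 844 7 844)
(mv 910 (cons (fin 974 6 909)
(fin 846 6 845)))))))))))))))))
(cons (mv 973 (cons (cons (mv 1228 (cons (fin 1164 5 972)
(mv 1292 (cons (fin 1229 5 1036)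
(mv 1230 (cons (fin 1166 4 973)
(mv 908 (cons (fin 972 7 908)
(mv 909 (cons (fin 844 7 844)
(mv 845 (cons (fin 1102 4 845)
(mv 846 (cons (fin 910 6 845)
(fin 782 6 781)))))))))))))))
(cons (mv 1228 (cons (fin 1164 5 972)
(mv 1292 (cons (fin 1229 5 1036)
(mv 908 (cons (fin 972 7 908)
(mv 909 (cons (fin 844 7 844)
(mv 845 (cons (fin 1102 4 845)
(mv 846 (cons (fin 910 6 845)
(fin 782 6 781)))))))))))))
(mv 1230 (cons (fin 1166 4 973)
(mv 1294 (cons (fin 1229 4 1037)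
(mv 908 (cons (fin 972 7 908)
(mv 909 (cons (fin 844 7 844)
(mv 845 (cons (fin 1102 4 845)
(mv 846 (cons (fin 910 6 845)
(fin 782 6 781)))))))))))))))
(cons (mv 1228 (cons (fin 1164 5 972)
(mv 1292 (cons (fin 1229 5 1036)
(mv 1166 (cons (fin 1230 4 973)
(mv 909 (cons (fin 1102 4 909)
(mv 844 (cons (fin 908 7 844)
(mv 845 (cons (fin 780 7 780)
(mv 846 (cons (fin 910 6 845)
(fin 782 6 781)))))))))))))))
(cons (mv 1228 (cons (fin 1164 5 972)
(mv 1229 (cons (fin 1292 5 1036)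
(mv 1230 (cons (fin 1294 4 1037)
(fin 1166 4 973)))))))
(mv 1228 (cons (fin 1164 5 972)
(mv 1230 (cons (fin 1166 4 973)
(mv 908 (cons (fin 972 7 908)
(mv 909 (cons (fin 844 7 844)
(mv 845 (cons (fin 1102 4 845)
(mv 846 (cons (fin 910 6 845)
(fin 782 6 781)))))))))))))))))
(cons (mv 1229 (cons (fin 974 6 973)
(mv 1292 (cons (fin 1228 5 1036)
(mv 1293 (cons (fin 1356 5 1100)
(mv 1294 (cons (fin 1358 4 1101)
(fin 1230 4 1037)))))))))
(mv 1229 (cons (fin 974 6 973)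
(mv 1293 (cons (fin 1102 6 1037)
(mv 1294 (cons (fin 1358 4 1101)
(fin 1230 4 1037)))))))))))
(mv 1039 (cons (cons (mv 1104 (cons (fin 1105 0 1037)
(mv 972 (cons (fin 973 3 972)
(mv 976 (cons (fin 977 2 973)
(mv 1103 (cons (mv 1167 (cons (fin 912 5 911)
(fin 1231 6 975)))
(cons (mv 912 (cons (fin 848 5 847)
(mv 913 (cons (fin 849 6 848)
(mv 1168 (cons (mv 1232 (cons (fin 1296 7 1039)
(fin 975 7 975)))
(mv 1169 (cons (fin 1102 0 1101)
(fin 1233 4 976)))))))))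
(mv 1231 (cons (fin 1167 6 975)
(mv 1168 (cons (mv 1232 (cons (fin 1295 5 1039)
(fin 1296 7 1039)))
(mv 1169 (cons (fin 1102 0 1101)
(fin 1233 4 976))))))))))))))))
(mv 1104 (cons (fin 1105 0 1037)
(mv 976 (cons (fin 977 2 973)
(mv 1103 (cons (mv 1167 (cons (fin 912 5 911)
(fin 1231 6 975)))
(cons (mv 912 (cons (fin 848 5 847)
(mv 913 (cons (fin 849 6 848)
(mv 1168 (cons (mv 1232 (cons (fin 1296 7 1039)
(fin 975 7 975)))
(mv 1169 (cons (fin 1102 0 1101)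
(fin 1233 4 976)))))))))
(mv 1231 (cons (fin 1167 6 975)
(mv 1168 (cons (mv 1232 (cons (fin 1295 5 1039)
(fin 1296 7 1039)))
(mv 1169 (cons (fin 1102 0 1101)
(fin 1233 4 976)))))))))))))))
(cons (mv 1104 (cons (fin 1105 0 1037)
(mv 973 (cons (fin 972 3 972)
(mv 1165 (cons (cons (mv 974 (cons (fin 1229 6 973)
(fin 910 6 909)))
(mv 1228 (cons (fin 1164 5 972)
(mv 1292 (cons (fin 1229 5 1036)
(mv 1166 (cons (fin 1230 4 973)
(mv 909 (cons (fin 1102 4 909)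
(mv 844 (cons (fin 908 7 844)
(mv 845 (cons (fin 780 7 780)
(mv 846 (cons (fin 910 6 845)
(fin 782 6 781))))))))))))))))
(cons (mv 1228 (cons (fin 1164 5 972)
(mv 1230 (cons (fin 1166 4 973)
(mv 910 (cons (fin 974 6 909)
(mv 909 (cons (fin 846 6 845)
(mv 844 (cons (fin 908 7 844)
(mv 845 (cons (fin 780 7 780)
(fin 1102 4 845)))))))))))))
(mv 1228 (cons (fin 1164 5 972)
(mv 1229 (cons (fin 1292 5 1036)
(fin 974 6 973))))))))))))
(cons (mv 973 (cons (fin 972 3 972)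
(mv 976 (cons (fin 977 2 973)
(mv 909 (cons (mv 1102 (cons (fin 1166 4 909)
(fin 845 4 845)))
(mv 908 (cons (fin 844 7 844)
(mv 974 (cons (fin 975 3 908)
(mv 1165 (cons (fin 1229 6 973)
(fin 910 6 909)))))))))))))
(mv 1104 (cons (fin 1105 0 1037)
(mv 972 (cons (fin 973 3 972)
(mv 976 (cons (fin 977 2 973)
(mv 912 (cons (mv 1103 (cons (fin 1167 5 911)
(fin 848 5 847)))
(cons (mv 849 (cons (fin 913 6 848)
(mv 848 (cons (fin 785 6 784)
(mv 783 (cons (fin 847 7 783)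
(mv 784 (cons (fin 975 5 783)
(fin 719 7 719)))))))))
(mv 1167 (cons (fin 1103 5 911)
(mv 1168 (cons (fin 1231 5 975)
(mv 1232 (cons (fin 975 7 975)
(mv 1233 (cons (fin 1297 4 1040)
(fin 1169 4 976))))))))))))))))))))))))
(cons (mv 1039 (cons (fin 1100 1 1036)
(mv 1104 (cons (fin 1105 0 1037)
(mv 976 (cons (fin 977 2 973)
(mv 1103 (cons (mv 1167 (cons (fin 912 5 911)
(fin 1231 6 975)))
(cons (mv 912 (cons (fin 848 5 847)
(mv 913 (cons (fin 849 6 848)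
(mv 1168 (cons (mv 1232 (cons (fin 1296 7 1039)
(fin 975 7 975)))
(mv 1169 (cons (fin 1102 0 1101)
(fin 1233 4 976)))))))))
(mv 1231 (cons (fin 1167 6 975)
(mv 1168 (cons (mv 1232 (cons (fin 1295 5 1039)
(fin 1296 7 1039)))
(mv 1169 (cons (fin 1102 0 1101)
(fin 1233 4 976))))))))))))))))
(cons (mv 1039 (cons (fin 1100 1 1036)
(mv 1104 (cons (fin 1105 0 1037)
(mv 972 (cons (fin 973 3 972)
(mv 976 (cons (fin 977 2 973)
(mv 912 (cons (mv 1103 (cons (fin 1167 5 911)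
(fin 848 5 847)))
(cons (mv 849 (cons (fin 913 6 848)
(mv 848 (cons (fin 785 6 784)
(mv 783 (cons (fin 847 7 783)
(mv 784 (cons (fin 975 5 783)
(fin 719 7 719)))))))))
(mv 1167 (cons (fin 1103 5 911)
(mv 1168 (cons (fin 1231 5 975)
(mv 1232 (cons (fin 975 7 975)
(mv 1233 (cons (fin 1297 4 1040)
(fin 1169 4 976))))))))))))))))))))
(mv 1039 (cons (fin 1100 1 1036)
(mv 1104 (cons (fin 1105 0 1037)
(mv 973 (cons (fin 972 3 972)
(mv 976 (cons (fin 977 2 973)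
(mv 1165 (cons (cons (mv 974 (cons (fin 1229 6 973)
(fin 910 6 909)))
(mv 1228 (cons (fin 1164 5 972)
(mv 1292 (cons (fin 1229 5 1036)
(mv 1166 (cons (fin 1230 4 973)
(mv 909 (cons (fin 1102 4 909)
(mv 908 (cons (fin 844 7 844)
(mv 846 (cons (fin 910 6 845)
(mv 845 (cons (fin 782 6 781)
(mv 906 (cons (fin 907 2 842)
(mv 848 (cons (fin 847 1 844)
(mv 912 (cons (fin 1103 5 847)
(mv 849 (cons (fin 913 6 848)
(fin 785 6 784))))))))))))))))))))))))
(cons (mv 1228 (cons (fin 1164 5 972)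
(mv 1230 (cons (fin 1166 4 973)
(mv 910 (cons (fin 974 6 909)
(mv 909 (cons (fin 846 6 845)
(mv 844 (cons (fin 908 7 844)
(mv 845 (cons (fin 780 7 780)
(fin 1102 4 845)))))))))))))
(mv 1228 (cons (fin 1164 5 972)
(mv 1229 (cons (fin 1292 5 1036)
(fin 974 6 973))))))))))))))))))))
(mv 1038 (cons (cons (mv 1039 (cons (fin 1100 1 1036)
(mv 1104 (cons (fin 1105 0 1037)
(mv 1103 (cons (fin 1036 0 1036)
(mv 976 (cons (fin 977 2 973)
(mv 1167 (cons (fin 912 5 911)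
(fin 1231 6 975)))))))))))
(cons (mv 974 (cons (cons (mv 1165 (cons (fin 1229 6 973)
(mv 910 (cons (fin 1102 5 909)
(fin 846 5 845)))))
(mv 910 (cons (fin 846 5 845)
(mv 1102 (cons (cons (mv 1167 (cons (fin 1103 4 910)
(mv 1166 (cons (fin 1231 4 974)
(mv 1230 (cons (fin 1294 7 1037)
(fin 973 7 973)))))))
(mv 909 (cons (fin 845 7 845)
(mv 1166 (cons (fin 973 7 909)
(mv 1230 (cons (fin 1294 7 1037)
(mv 1231 (cons (fin 1295 4 1038)
(fin 1167 4 974))))))))))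
(cons (mv 909 (cons (fin 845 7 845)
(mv 973 (cons (fin 1166 7 909)
(mv 1164 (cons (fin 1100 5 908)
(mv 908 (cons (fin 844 7 844)
(mv 975 (cons (fin 976 3 908)
(fin 907 0 907)))))))))))
(mv 1103 (cons (fin 1167 4 910)
(mv 1104 (cons (fin 1036 3 1036)
(fin 1105 3 1037)))))))))))
(cons (mv 1165 (cons (fin 1229 6 973)
(mv 973 (cons (cons (mv 1228 (cons (fin 1164 5 972)
(mv 1166 (cons (fin 1230 4 973)
(mv 1102 (cons (fin 909 7 909)
(mv 1167 (cons (fin 1231 4 974)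
(mv 1168 (cons (fin 1100 3 1100)
(fin 1169 3 1101)))))))))))
(cons (mv 1164 (cons (fin 1228 5 972)
(mv 909 (cons (fin 1100 5 908)
(mv 845 (cons (fin 1102 4 845)
(fin 781 4 781)))))))
(mv 1166 (cons (fin 1230 4 973)
(mv 1102 (cons (fin 909 7 909)
(mv 1167 (cons (fin 1231 4 974)
(mv 1168 (cons (fin 1100 3 1100)
(fin 1169 3 1101)))))))))))
(cons (mv 1164 (cons (fin 1228 5 972)
(mv 1166 (cons (fin 1230 4 973)
(mv 1167 (cons (mv 1231 (cons (fin 1232 0 1164)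
(fin 1102 4 974)))
(mv 1100 (cons (fin 1099 3 1099)
(fin 1168 3 1100)))))))))
(cons (mv 1230 (cons (fin 1166 4 973)
(mv 1164 (cons (fin 1228 5 972)
(mv 909 (cons (fin 1100 5 908)
(mv 844 (cons (fin 908 7 844)
(mv 845 (cons (fin 780 7 780)
(fin 781 4 781)))))))))))
(mv 1228 (cons (fin 1164 5 972)
(mv 1166 (cons (fin 1230 4 973)
(mv 1102 (cons (fin 909 7 909)
(mv 1167 (cons (fin 1231 4 974)
(mv 1168 (cons (fin 1169 3 1101)
(mv 1232 (cons (fin 1233 0 1165)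
(mv 1104 (cons (fin 1105 2 1101)
(mv 1103 (cons (fin 1036 3 1036)
(mv 1360 (cons (fin 1296 7 1103)
(mv 976 (cons (fin 912 5 911)
(mv 977 (cons (fin 975 1 973)
(fin 913 6 912)))))))))))))))))))))))))))))
(mv 1165 (cons (fin 1229 6 973)
(mv 910 (cons (fin 846 5 845)
(fin 973 6 909))))))))
(mv 974 (cons (cons (mv 1165 (cons (fin 1229 6 973)
(mv 910 (cons (fin 1102 5 909)
(fin 846 5 845)))))
(mv 1229 (cons (fin 1165 6 973)
(mv 1039 (cons (cons (mv 1104 (cons (fin 1105 0 1037)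
(mv 1103 (cons (fin 1036 0 1036)
(mv 1231 (cons (fin 1167 7 974)
(mv 976 (cons (fin 977 2 973)
(mv 912 (cons (fin 848 5 847)
(mv 913 (cons (fin 849 6 848)
(mv 975 (cons (fin 973 2 909)
(mv 1168 (cons (fin 1232 7 975)
(mv 1169 (cons (fin 1102 0 1101)
(fin 1233 4 976)))))))))))))))))))
(cons (mv 1104 (cons (fin 1105 0 1037)
(mv 1036 (cons (fin 1103 0 1036)
(mv 1035 (cons (fin 975 2 971)
(mv 1034 (cons (fin 1102 0 1034)
(fin 973 2 970)))))))))
(mv 976 (cons (fin 977 2 973)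
(mv 975 (cons (fin 1036 2 972)
(mv 912 (cons (mv 1103 (cons (fin 848 5 847)
(fin 1167 6 911)))
(cons (mv 1167 (cons (fin 1103 6 911)
(mv 973 (cons (fin 913 2 909)
(mv 909 (cons (fin 908 3 908)
(mv 1102 (cons (fin 1166 7 909)
(fin 845 4 845)))))))))
(mv 973 (cons (fin 913 2 909)
(mv 909 (cons (fin 908 3 908)
(mv 1102 (cons (fin 1166 7 909)
(fin 845 4 845))))))))))))))))
(cons (mv 1104 (cons (fin 1105 0 1037)
(mv 976 (cons (fin 977 2 973)
(mv 1167 (cons (cons (mv 1231 (cons (fin 1168 5 975)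
(fin 1103 7 974)))
(mv 1168 (cons (fin 1231 5 975)
(mv 1232 (cons (fin 975 7 975)
(mv 1233 (cons (fin 1297 4 1040)
(fin 1169 4 976))))))))
(cons (mv 912 (cons (fin 1103 5 911)
(mv 913 (cons (fin 849 6 848)
(mv 975 (cons (fin 973 2 909)
(mv 1168 (cons (fin 1232 7 975)
(mv 1169 (cons (fin 1233 4 976)
(mv 1166 (cons (fin 1230 1 1165)
(fin 1102 3 1101)))))))))))))
(mv 1103 (cons (fin 912 5 911)
(fin 1231 7 974))))))))))
(cons (mv 1104 (cons (fin 1105 0 1037)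
(mv 1103 (cons (fin 1036 0 1036)
(mv 1167 (cons (fin 1231 7 974)
(mv 976 (cons (fin 977 2 973)
(fin 912 5 911)))))))))
(mv 1104 (cons (fin 1105 0 1037)
(mv 976 (cons (fin 977 2 973)
(mv 975 (cons (fin 1036 2 972)
(mv 1168 (cons (fin 1232 7 975)
(mv 1167 (cons (fin 1231 5 975)
(mv 1169 (cons (fin 1233 4 976)
(mv 1166 (cons (fin 1230 1 1165)
(fin 1102 3 1101))))))))))))))))))))))
(cons (mv 910 (cons (fin 846 5 845)
(mv 1102 (cons (cons (mv 1167 (cons (fin 1103 4 910)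
(mv 1166 (cons (fin 1231 4 974)
(mv 1230 (cons (fin 1294 7 1037)
(fin 973 7 973)))))))
(mv 909 (cons (fin 845 7 845)
(mv 1166 (cons (fin 973 7 909)
(mv 1230 (cons (fin 1294 7 1037)
(mv 1231 (cons (fin 1295 4 1038)
(fin 1167 4 974))))))))))
(cons (mv 909 (cons (fin 845 7 845)
(mv 973 (cons (fin 1166 7 909)
(mv 908 (cons (fin 844 7 844)
(mv 975 (cons (fin 976 3 908)
(fin 907 0 907)))))))))
(mv 1103 (cons (fin 1167 4 910)
(mv 1104 (cons (fin 1036 3 1036)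
(fin 1105 3 1037))))))))))
(mv 1165 (cons (fin 1229 6 973)
(mv 910 (cons (fin 846 5 845)
(fin 973 6 909))))))))))
(cons (cons (mv 1100 (cons (fin 1039 1 1036)
(mv 1098 (cons (fin 1099 2 1034)
(mv 1164 (cons (cons (mv 1228 (cons (fin 1292 6 1036)
(mv 973 (cons (fin 1165 5 972)
(fin 909 5 908)))))
(mv 1228 (cons (fin 1292 6 1036)
(mv 1036 (cons (cons (mv 1291 (cons (fin 1227 5 1035)
(mv 1293 (cons (fin 1229 4 1036)
(mv 1035 (cons (fin 971 7 971)
(mv 1102 (cons (fin 1103 3 1035)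
(fin 1034 0 1034)))))))))
(mv 1291 (cons (fin 1227 5 1035)
(mv 1229 (cons (fin 1293 4 1036)
(mv 1165 (cons (fin 974 6 973)
(mv 1230 (cons (fin 1294 4 1037)
(mv 1231 (cons (fin 1163 3 1163)
(fin 1232 3 1164))))))))))))
(cons (mv 1291 (cons (fin 1227 5 1035)
(mv 1035 (cons (fin 971 7 971)
(mv 1102 (cons (fin 1103 3 1035)
(fin 1034 0 1034)))))))
(mv 1293 (cons (fin 1229 4 1036)
(mv 1035 (cons (fin 971 7 971)
(mv 1102 (cons (fin 1103 3 1035)
(fin 1034 0 1034)))))))))))))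
(cons (mv 973 (cons (fin 909 5 908)
(mv 1165 (cons (mv 974 (cons (fin 1229 6 973)
(fin 910 6 909)))
(cons (mv 1230 (cons (fin 1166 4 973)
(mv 1229 (cons (fin 1294 4 1037)
(mv 1293 (cons (fin 1357 7 1100)
(fin 1036 7 1036)))))))
(mv 1166 (cons (fin 1230 4 973)
(mv 1167 (cons (fin 1168 3 1100)
(mv 1231 (cons (fin 1232 0 1164)
(mv 974 (cons (fin 1102 4 974)
(fin 910 6 909))))))))))))))
(mv 1228 (cons (fin 1292 6 1036)
(mv 973 (cons (fin 909 5 908)
(fin 1036 6 972))))))))))))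
(mv 1100 (cons (fin 1039 1 1036)
(mv 1098 (cons (fin 1099 2 1034)
(mv 1165 (cons (cons (mv 1229 (cons (fin 974 6 973)
(mv 1292 (cons (fin 1228 5 1036)
(mv 1293 (cons (fin 1356 5 1100)
(fin 1102 6 1037)))))))
(mv 973 (cons (mv 1164 (cons (fin 1228 5 972)
(fin 909 5 908)))
(cons (mv 1230 (cons (fin 1166 4 973)
(mv 910 (cons (fin 974 6 909)
(mv 909 (cons (fin 846 6 845)
(mv 844 (cons (fin 908 7 844)
(mv 845 (cons (fin 780 7 780)
(fin 1102 4 845)))))))))))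
(mv 1164 (cons (fin 1228 5 972)
(mv 1166 (cons (fin 1230 4 973)
(mv 1167 (cons (fin 1168 3 1100)
(mv 1231 (cons (fin 1232 0 1164)
(mv 974 (cons (fin 1102 4 974)
(fin 910 6 909)))))))))))))))
(cons (mv 1164 (cons (mv 1228 (cons (fin 973 5 972)
(fin 1292 6 1036)))
(cons (mv 973 (cons (fin 909 5 908)
(mv 1230 (cons (fin 1166 4 973)
(mv 1229 (cons (fin 1294 4 1037)
(mv 1293 (cons (fin 1357 7 1100)
(fin 1102 6 1037)))))))))
(mv 1292 (cons (fin 1228 6 1036)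
(mv 1163 (cons (mv 1162 (cons (fin 1097 3 1097)
(fin 1161 2 1097)))
(mv 1102 (cons (fin 1103 1 1099)
(mv 1229 (cons (fin 1293 6 1037)
(mv 1230 (cons (fin 1294 4 1037)
(mv 1231 (cons (fin 1232 3 1164)
(fin 1166 0 1163))))))))))))))))
(cons (mv 1229 (cons (fin 974 6 973)
(mv 1293 (cons (fin 1102 6 1037)
(mv 1294 (cons (fin 1358 4 1101)
(fin 1230 4 1037)))))))
(mv 1229 (cons (fin 974 6 973)
(mv 1292 (cons (fin 1228 5 1036)
(mv 1356 (cons (fin 1293 5 1100)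
(mv 1230 (cons (fin 1294 4 1037)
(mv 973 (cons (fin 1166 4 973)
(mv 909 (cons (fin 1164 5 908)
(mv 844 (cons (fin 908 7 844)
(mv 845 (cons (fin 780 7 780)
(mv 846 (cons (fin 910 6 845)
(fin 782 6 781))))))))))))))))))))))))))))
(cons (mv 1039 (cons (fin 1100 1 1036)
(mv 1104 (cons (fin 1105 0 1037)
(mv 976 (cons (fin 977 2 973)
(mv 975 (cons (fin 1036 2 972)
(mv 1168 (cons (fin 1232 7 975)
(mv 1167 (cons (fin 1231 5 975)
(mv 1169 (cons (fin 1233 4 976)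
(mv 1166 (cons (fin 1102 3 1101)
(mv 1229 (cons (fin 1230 1 1165)
(mv 1165 (cons (fin 1228 1 1164)
(fin 974 6 973)))))))))))))))))))))
(mv 1039 (cons (fin 1100 1 1036)
(mv 1104 (cons (fin 1105 0 1037)
(mv 1036 (cons (fin 1103 0 1036)
(mv 976 (cons (fin 975 2 972)
(fin 977 2 973)))))))))))))))))
(cons (cons (cons (mv 1039 (cons (cons (mv 1038 (cons (fin 1100 1 1036)
(mv 1104 (cons (fin 1105 0 1037)
(mv 1103 (cons (fin 1036 0 1036)
(mv 972 (cons (fin 973 3 972)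
(mv 976 (cons (fin 977 2 973)
(mv 1167 (cons (fin 912 5 911)
(fin 1231 6 975)))))))))))))
(cons (mv 1102 (cons (cons (mv 1103 (cons (fin 1100 2 1036)
(mv 1104 (cons (fin 1036 3 1036)
(mv 1164 (cons (fin 1165 1 1100)
(mv 1168 (cons (fin 1169 0 1101)
(mv 1232 (cons (fin 1296 7 1039)
(fin 975 7 975)))))))))))
(cons (mv 973 (cons (cons (mv 1166 (cons (fin 909 4 909)
(mv 1230 (cons (fin 1294 7 1037)
(fin 1165 4 973)))))
(mv 1165 (cons (cons (mv 1228 (cons (fin 1164 5 972)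
(mv 1230 (cons (fin 1166 4 973)
(mv 972 (cons (fin 908 7 908)
(mv 974 (cons (fin 975 0 972)
(fin 910 6 909)))))))))
(mv 1228 (cons (fin 1164 5 972)
(mv 972 (cons (fin 908 7 908)
(mv 974 (cons (fin 975 0 972)
(fin 910 6 909))))))))
(cons (mv 1230 (cons (fin 1166 4 973)
(mv 972 (cons (fin 908 7 908)
(mv 974 (cons (fin 975 0 972)
(fin 910 6 909)))))))
(mv 1164 (cons (fin 1228 5 972)
(mv 1163 (cons (fin 1162 2 1098)
(mv 1166 (cons (fin 1230 4 973)
(mv 1226 (cons (fin 1227 1 1162)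
(mv 1099 (cons (fin 1098 3 1098)
(mv 1167 (cons (fin 1100 3 1099)
(mv 1231 (cons (fin 1232 0 1164)
(mv 1359 (cons (fin 1295 7 1102)
(mv 1168 (cons (fin 1169 3 1101)
(mv 1104 (cons (fin 1105 2 1101)
(fin 976 5 975)))))))))))))))))))))))))
(cons (mv 909 (cons (cons (mv 1164 (cons (fin 1100 5 908)
(mv 1228 (cons (fin 1165 5 972)
(mv 844 (cons (fin 908 7 844)
(mv 845 (cons (fin 780 7 780)
(mv 846 (cons (fin 910 6 845)
(fin 782 6 781)))))))))))
(mv 1164 (cons (fin 1100 5 908)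
(mv 1165 (cons (fin 1228 5 972)
(mv 910 (cons (fin 974 6 909)
(fin 846 6 845))))))))
(cons (mv 908 (cons (fin 844 7 844)
(mv 1165 (cons (fin 972 7 908)
(mv 910 (cons (fin 974 6 909)
(fin 846 6 845)))))))
(cons (mv 1164 (cons (fin 1100 5 908)
(mv 1165 (cons (fin 1228 5 972)
(mv 908 (cons (fin 972 7 908)
(fin 844 7 844)))))))
(mv 1164 (cons (fin 1100 5 908)
(mv 844 (cons (fin 908 7 844)
(mv 845 (cons (fin 780 7 780)
(mv 846 (cons (fin 910 6 845)
(fin 782 6 781)))))))))))))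
(mv 909 (cons (fin 1166 4 909)
(mv 1164 (cons (fin 1100 5 908)
(mv 844 (cons (fin 908 7 844)
(mv 845 (cons (fin 780 7 780)
(mv 846 (cons (fin 910 6 845)
(fin 782 6 781))))))))))))))
(mv 1166 (cons (cons (mv 1230 (cons (fin 1294 7 1037)
(mv 973 (cons (fin 1165 4 973)
(fin 909 4 909)))))
(mv 973 (cons (fin 909 4 909)
(mv 1165 (cons (mv 1228 (cons (fin 1164 5 972)
(mv 972 (cons (fin 908 7 908)
(mv 974 (cons (fin 975 0 972)
(fin 910 6 909)))))))
(cons (mv 972 (cons (fin 908 7 908)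
(mv 974 (cons (fin 975 0 972)
(fin 910 6 909)))))
(mv 1164 (cons (fin 1228 5 972)
(mv 1163 (cons (fin 1162 2 1098)
(fin 1103 2 1099)))))))))))
(cons (mv 1230 (cons (fin 1294 7 1037)
(mv 1103 (cons (mv 1167 (cons (fin 975 5 974)
(mv 1231 (cons (fin 976 6 975)
(mv 1295 (cons (fin 1359 7 1102)
(fin 1104 6 1039)))))))
(cons (mv 1167 (cons (fin 975 5 974)
(mv 1231 (cons (fin 976 6 975)
(mv 1359 (cons (fin 1295 7 1102)
(mv 1232 (cons (fin 1296 4 1039)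
(mv 1233 (cons (fin 1165 3 1165)
(fin 1234 3 1166)))))))))))
(mv 1104 (cons (fin 1036 3 1036)
(mv 1165 (cons (fin 1164 1 1100)
(fin 1105 1 1101))))))))))
(mv 1230 (cons (fin 1294 7 1037)
(mv 973 (cons (fin 909 4 909)
(mv 1103 (cons (cons (mv 1167 (cons (fin 975 5 974)
(mv 1231 (cons (fin 976 6 975)
(mv 1295 (cons (fin 1359 7 1102)
(fin 1104 6 1039)))))))
(mv 1104 (cons (fin 1036 3 1036)
(mv 1168 (cons (fin 1169 0 1101)
(mv 1232 (cons (fin 1296 7 1039)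
(fin 975 7 975))))))))
(cons (mv 1167 (cons (fin 975 5 974)
(mv 1231 (cons (fin 976 6 975)
(mv 1359 (cons (fin 1295 7 1102)
(mv 1232 (cons (fin 1296 4 1039)
(mv 1233 (cons (fin 1234 3 1166)
(mv 1169 (cons (fin 1168 3 1101)
(fin 1170 2 1166)))))))))))))
(mv 1104 (cons (fin 1036 3 1036)
(mv 1168 (cons (fin 1169 0 1101)
(mv 1232 (cons (fin 1296 7 1039)
(mv 1297 (cons (fin 1233 4 1040)
(mv 1231 (cons (fin 1295 5 1039)
(mv 976 (cons (fin 1167 5 975)
(mv 912 (cons (fin 848 5 847)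
(mv 913 (cons (fin 977 6 912)
(fin 849 6 848)))))))))))))))))))))))))))))
(cons (mv 1100 (cons (fin 1103 2 1036)
(mv 1099 (cons (cons (mv 1162 (cons (fin 1163 1 1098)
(mv 1161 (cons (fin 1098 1 1097)
(mv 1166 (cons (fin 1167 0 1099)
(mv 1230 (cons (fin 1294 7 1037)
(mv 973 (cons (fin 1165 4 973)
(fin 909 4 909)))))))))))
(mv 1162 (cons (fin 1163 1 1098)
(mv 1098 (cons (fin 1161 1 1097)
(mv 1034 (cons (fin 1033 3 1033)
(fin 1035 3 1034))))))))
(cons (mv 1166 (cons (fin 1167 0 1099)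
(mv 1294 (cons (fin 1230 7 1037)
(mv 1165 (cons (fin 1098 0 1098)
(mv 1034 (cons (fin 1035 3 1034)
(mv 973 (cons (fin 909 4 909)
(mv 1228 (cons (fin 1164 5 972)
(mv 972 (cons (fin 908 7 908)
(mv 974 (cons (fin 975 0 972)
(fin 910 6 909)))))))))))))))))
(mv 1162 (cons (fin 1163 1 1098)
(mv 1166 (cons (fin 1167 0 1099)
(mv 1230 (cons (fin 1294 7 1037)
(mv 973 (cons (fin 1165 4 973)
(fin 909 4 909))))))))))))))
(cons (mv 1103 (cons (fin 1100 2 1036)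
(mv 1104 (cons (fin 1036 3 1036)
(mv 1168 (cons (fin 1169 0 1101)
(mv 1232 (cons (fin 1296 7 1039)
(fin 975 7 975)))))))))
(mv 1103 (cons (fin 1100 2 1036)
(mv 1104 (cons (fin 1036 3 1036)
(mv 1164 (cons (fin 1165 1 1100)
(mv 1168 (cons (fin 1169 0 1101)
(mv 1232 (cons (fin 1296 7 1039)
(mv 1297 (cons (fin 1233 4 1040)
(mv 1231 (cons (fin 1295 5 1039)
(mv 976 (cons (fin 1167 5 975)
(mv 912 (cons (fin 848 5 847)
(mv 913 (cons (fin 977 6 912)
(fin 849 6 848)))))))))))))))))))))))))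
(mv 1038 (cons (cons (mv 1104 (cons (fin 1105 0 1037)
(mv 1103 (cons (fin 1036 0 1036)
(mv 972 (cons (fin 973 3 972)
(mv 976 (cons (fin 977 2 973)
(mv 1167 (cons (fin 912 5 911)
(fin 1231 6 975)))))))))))
(mv 972 (cons (fin 973 3 972)
(mv 1036 (cons (fin 971 3 971)
(mv 976 (cons (fin 975 2 972)
(fin 977 2 973))))))))
(cons (mv 1104 (cons (fin 1105 0 1037)
(mv 1036 (cons (fin 1103 0 1036)
(mv 972 (cons (fin 971 3 971)
(fin 973 3 972)))))))
(cons (mv 1104 (cons (fin 1105 0 1037)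
(mv 1103 (cons (fin 1036 0 1036)
(mv 976 (cons (fin 977 2 973)
(mv 1167 (cons (fin 912 5 911)
(fin 1231 6 975)))))))))
(mv 1104 (cons (fin 1105 0 1037)
(mv 972 (cons (fin 973 3 972)
(mv 976 (cons (fin 977 2 973)
(mv 1103 (cons (mv 1167 (cons (fin 912 5 911)
(fin 1231 6 975)))
(cons (mv 912 (cons (fin 848 5 847)
(mv 913 (cons (fin 849 6 848)
(mv 1168 (cons (mv 1232 (cons (fin 1296 7 1039)
(fin 975 7 975)))
(mv 1169 (cons (fin 1102 0 1101)
(fin 1233 4 976)))))))))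
(mv 1231 (cons (fin 1167 6 975)
(mv 1168 (cons (mv 1232 (cons (fin 1295 5 1039)
(fin 1296 7 1039)))
(mv 1169 (cons (fin 1102 0 1101)
(fin 1233 4 976))))))))))))))))))))))
(cons (mv 1038 (cons (fin 1100 1 1036)
(mv 1104 (cons (fin 1105 0 1037)
(mv 1103 (cons (fin 1036 0 1036)
(mv 976 (cons (fin 977 2 973)
(mv 1167 (cons (fin 912 5 911)
(fin 1231 6 975)))))))))))
(cons (mv 1038 (cons (fin 1100 1 1036)
(mv 1104 (cons (fin 1105 0 1037)
(mv 972 (cons (fin 973 3 972)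
(mv 1036 (cons (fin 971 3 971)
(mv 976 (cons (fin 975 2 972)
(fin 977 2 973)))))))))))
(mv 1100 (cons (fin 1038 1 1036)
(mv 1102 (cons (fin 1103 2 1036)
(mv 1099 (cons (cons (mv 1162 (cons (fin 1163 1 1098)
(mv 1161 (cons (fin 1098 1 1097)
(mv 1166 (cons (fin 1167 0 1099)
(mv 1230 (cons (fin 1294 7 1037)
(mv 973 (cons (fin 1165 4 973)
(fin 909 4 909)))))))))))
(mv 1162 (cons (fin 1163 1 1098)
(mv 1098 (cons (fin 1161 1 1097)
(mv 1034 (cons (fin 1033 3 1033)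
(fin 1035 3 1034))))))))
(cons (mv 1166 (cons (fin 1167 0 1099)
(mv 1294 (cons (fin 1230 7 1037)
(mv 1165 (cons (fin 1098 0 1098)
(mv 1034 (cons (fin 1035 3 1034)
(mv 973 (cons (fin 909 4 909)
(mv 1228 (cons (fin 1164 5 972)
(mv 972 (cons (fin 908 7 908)
(mv 974 (cons (fin 975 0 972)
(fin 910 6 909)))))))))))))))))
(mv 1162 (cons (fin 1163 1 1098)
(mv 1166 (cons (fin 1167 0 1099)
(mv 1230 (cons (fin 1294 7 1037)
(mv 973 (cons (fin 1165 4 973)
(fin 909 4 909))))))))))))))))))))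
(mv 1038 (cons (cons (mv 1039 (cons (fin 1100 1 1036)
(mv 1104 (cons (fin 1105 0 1037)
(mv 1103 (cons (fin 1036 0 1036)
(mv 972 (cons (fin 973 3 972)
(mv 976 (cons (fin 977 2 973)
(mv 1167 (cons (fin 912 5 911)
(fin 1231 6 975)))))))))))))
(cons (mv 1165 (cons (cons (mv 1229 (cons (fin 974 6 973)
(mv 1292 (cons (fin 1228 5 1036)
(mv 1293 (cons (fin 1356 5 1100)
(fin 1102 6 1037)))))))
(mv 973 (cons (cons (cons (mv 1228 (cons (fin 1164 5 972)
(mv 1230 (cons (fin 1166 4 973)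
(mv 972 (cons (fin 908 7 908)
(mv 971 (cons (fin 970 0 970)
(mv 974 (cons (fin 910 6 909)
(mv 1035 (cons (fin 1034 1 970)
(mv 1036 (cons (fin 975 1 971)
(mv 1098 (cons (fin 1099 1 1034)
(mv 1102 (cons (fin 1103 0 1035)
(mv 907 (cons (fin 906 3 906)
(mv 843 (cons (fin 1100 4 843)
(fin 779 4 779)))))))))))))))))))))))
(mv 1164 (cons (fin 1228 5 972)
(mv 1166 (cons (fin 1230 4 973)
(mv 972 (cons (fin 908 7 908)
(mv 970 (cons (fin 971 0 970)
(mv 1163 (cons (cons (mv 1102 (cons (fin 1162 2 1098)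
(fin 1103 2 1099)))
(mv 1226 (cons (fin 1227 1 1162)
(mv 1225 (cons (fin 1162 1 1161)
(mv 1099 (cons (fin 1098 3 1098)
(mv 1167 (cons (fin 1100 3 1099)
(mv 1231 (cons (fin 1232 0 1164)
(mv 1104 (cons (fin 1103 2 1100)
(mv 1168 (cons (fin 1105 2 1101)
(fin 976 5 975))))))))))))))))
(cons (mv 1226 (cons (fin 1227 1 1162)
(mv 1098 (cons (fin 1099 3 1098)
(mv 1103 (cons (fin 1102 2 1099)
(mv 1167 (cons (fin 1104 2 1100)
(mv 1232 (cons (fin 1231 0 1164)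
(mv 1168 (cons (fin 1100 3 1100)
(fin 1233 0 1165)))))))))))))
(mv 1226 (cons (fin 1227 1 1162)
(mv 1162 (cons (fin 1225 1 1161)
(fin 1102 2 1098)))))))))))))))))
(cons (mv 1228 (cons (fin 1164 5 972)
(mv 972 (cons (fin 908 7 908)
(mv 971 (cons (fin 970 0 970)
(mv 974 (cons (fin 910 6 909)
(mv 1035 (cons (fin 1034 1 970)
(mv 1036 (cons (fin 975 1 971)
(mv 1098 (cons (fin 1099 1 1034)
(mv 1102 (cons (fin 1103 0 1035)
(mv 907 (cons (fin 906 3 906)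
(mv 843 (cons (fin 1100 4 843)
(fin 779 4 779)))))))))))))))))))))
(mv 1164 (cons (fin 1228 5 972)
(mv 1166 (cons (fin 1230 4 973)
(mv 974 (cons (fin 910 6 909)
(mv 1167 (cons (mv 1231 (cons (fin 1232 0 1164)
(fin 1102 4 974)))
(mv 1100 (cons (fin 1099 3 1099)
(fin 1168 3 1100)))))))))))))
(cons (cons (mv 1230 (cons (fin 1166 4 973)
(mv 972 (cons (fin 908 7 908)
(mv 971 (cons (fin 970 0 970)
(mv 974 (cons (fin 910 6 909)
(mv 1035 (cons (fin 1034 1 970)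
(mv 1036 (cons (fin 975 1 971)
(mv 1098 (cons (fin 1099 1 1034)
(mv 1102 (cons (fin 1103 0 1035)
(mv 907 (cons (fin 906 3 906)
(mv 843 (cons (fin 1100 4 843)
(fin 779 4 779)))))))))))))))))))))
(mv 1228 (cons (fin 1164 5 972)
(mv 1230 (cons (fin 1166 4 973)
(mv 972 (cons (fin 908 7 908)
(mv 971 (cons (fin 970 0 970)
(mv 974 (cons (fin 910 6 909)
(mv 1035 (cons (fin 1034 1 970)
(mv 1036 (cons (fin 975 1 971)
(mv 1098 (cons (fin 1099 1 1034)
(mv 907 (cons (fin 906 3 906)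
(mv 843 (cons (fin 1100 4 843)
(fin 779 4 779))))))))))))))))))))))
(cons (mv 1230 (cons (fin 1166 4 973)
(mv 1164 (cons (fin 1228 5 972)
(mv 972 (cons (fin 908 7 908)
(mv 971 (cons (fin 970 0 970)
(mv 974 (cons (fin 910 6 909)
(mv 1035 (cons (fin 1034 1 970)
(mv 1036 (cons (fin 975 1 971)
(mv 1099 (cons (fin 1098 1 1034)
(mv 1163 (cons (fin 1227 6 971)
(mv 1162 (cons (fin 1102 2 1098)
(fin 1226 5 970)))))))))))))))))))))
(mv 1228 (cons (fin 1164 5 972)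
(mv 1230 (cons (fin 1166 4 973)
(mv 972 (cons (fin 908 7 908)
(mv 971 (cons (fin 970 0 970)
(mv 974 (cons (fin 910 6 909)
(mv 1035 (cons (fin 1034 1 970)
(mv 1036 (cons (fin 975 1 971)
(mv 1102 (cons (fin 1103 0 1035)
(mv 907 (cons (fin 906 3 906)
(mv 843 (cons (fin 1100 4 843)
(fin 779 4 779))))))))))))))))))))))))))
(cons (mv 1229 (cons (mv 1292 (cons (fin 1228 5 1036)
(mv 1293 (cons (fin 1356 5 1100)
(fin 1102 6 1037)))))
(cons (mv 1292 (cons (fin 1228 5 1036)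
(mv 1230 (cons (fin 1294 4 1037)
(mv 972 (cons (fin 1036 7 972)
(mv 973 (cons (fin 908 7 908)
(fin 1166 4 973)))))))))
(mv 1293 (cons (fin 1102 6 1037)
(mv 1294 (cons (fin 1358 4 1101)
(fin 1230 4 1037))))))))
(cons (mv 1229 (cons (fin 974 6 973)
(mv 1292 (cons (fin 1228 5 1036)
(mv 1356 (cons (fin 1293 5 1100)
(mv 1230 (cons (fin 1294 4 1037)
(mv 972 (cons (fin 1036 7 972)
(mv 973 (cons (fin 908 7 908)
(fin 1166 4 973)))))))))))))
(mv 1229 (cons (fin 974 6 973)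
(mv 1293 (cons (fin 1102 6 1037)
(mv 1294 (cons (fin 1358 4 1101)
(fin 1230 4 1037)))))))))))
(mv 1039 (cons (cons (mv 1104 (cons (fin 1105 0 1037)
(mv 1103 (cons (fin 1036 0 1036)
(mv 972 (cons (fin 973 3 972)
(mv 976 (cons (fin 977 2 973)
(mv 1167 (cons (fin 912 5 911)
(fin 1231 6 975)))))))))))
(mv 1104 (cons (fin 1105 0 1037)
(mv 1103 (cons (fin 1036 0 1036)
(mv 976 (cons (fin 977 2 973)
(mv 1167 (cons (fin 912 5 911)
(fin 1231 6 975))))))))))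
(cons (mv 972 (cons (fin 973 3 972)
(mv 1036 (cons (fin 971 3 971)
(mv 976 (cons (fin 975 2 972)
(fin 977 2 973)))))))
(cons (mv 1104 (cons (fin 1105 0 1037)
(mv 1036 (cons (fin 1103 0 1036)
(mv 972 (cons (fin 971 3 971)
(fin 973 3 972)))))))
(mv 1104 (cons (fin 1105 0 1037)
(mv 972 (cons (fin 973 3 972)
(mv 976 (cons (fin 977 2 973)
(mv 1103 (cons (mv 1167 (cons (fin 912 5 911)
(fin 1231 6 975)))
(cons (mv 912 (cons (fin 848 5 847)
(mv 913 (cons (fin 849 6 848)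
(mv 1168 (cons (mv 1232 (cons (fin 1296 7 1039)
(fin 975 7 975)))
(mv 1169 (cons (fin 1102 0 1101)
(fin 1233 4 976)))))))))
(mv 1231 (cons (fin 1167 6 975)
(mv 1168 (cons (mv 1232 (cons (fin 1295 5 1039)
(fin 1296 7 1039)))
(mv 1169 (cons (fin 1102 0 1101)
(fin 1233 4 976))))))))))))))))))))))
(cons (cons (mv 1039 (cons (fin 1100 1 1036)
(mv 1104 (cons (fin 1105 0 1037)
(mv 1103 (cons (fin 1036 0 1036)
(mv 976 (cons (fin 977 2 973)
(mv 1167 (cons (fin 912 5 911)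
(fin 1231 6 975)))))))))))
(mv 1039 (cons (fin 1100 1 1036)
(mv 972 (cons (fin 973 3 972)
(mv 1036 (cons (fin 971 3 971)
(mv 976 (cons (fin 975 2 972)
(fin 977 2 973))))))))))
(cons (mv 1039 (cons (fin 1100 1 1036)
(mv 1104 (cons (fin 1105 0 1037)
(mv 1036 (cons (fin 1103 0 1036)
(mv 972 (cons (fin 971 3 971)
(fin 973 3 972)))))))))
(mv 1039 (cons (fin 1100 1 1036)
(mv 1104 (cons (fin 1105 0 1037)
(mv 972 (cons (fin 973 3 972)
(mv 976 (cons (fin 977 2 973)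
(mv 1103 (cons (mv 1167 (cons (fin 912 5 911)
(fin 1231 6 975)))
(cons (mv 912 (cons (fin 848 5 847)
(mv 913 (cons (fin 849 6 848)
(mv 1168 (cons (mv 1232 (cons (fin 1296 7 1039)
(fin 975 7 975)))
(mv 1169 (cons (fin 1102 0 1101)
(fin 1233 4 976)))))))))
(mv 1231 (cons (fin 1167 6 975)
(mv 1168 (cons (mv 1232 (cons (fin 1295 5 1039)
(fin 1296 7 1039)))
(mv 1169 (cons (fin 1102 0 1101)
(fin 1233 4 976)))))))))))))))))))))))
(cons (mv 1100 (cons (cons (cons (mv 1038 (cons (fin 1039 1 1036)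
(mv 1099 (cons (fin 1098 2 1034)
(mv 1102 (cons (cons (mv 1162 (cons (fin 1163 1 1098)
(mv 1166 (cons (fin 1167 0 1099)
(mv 1230 (cons (fin 1294 7 1037)
(fin 973 7 973)))))))
(mv 1162 (cons (fin 1163 1 1098)
(mv 1035 (cons (fin 1034 3 1034)
(mv 1103 (cons (fin 1036 3 1035)
(mv 1168 (cons (fin 1167 0 1100)
(mv 1104 (cons (fin 1105 3 1037)
(fin 1169 0 1101))))))))))))
(cons (mv 1166 (cons (fin 1167 0 1099)
(mv 1230 (cons (fin 1294 7 1037)
(fin 973 7 973)))))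
(mv 1162 (cons (fin 1163 1 1098)
(mv 1035 (cons (fin 1034 3 1034)
(mv 1103 (cons (fin 1036 3 1035)
(mv 1104 (cons (fin 1105 3 1037)
(mv 1165 (cons (fin 1164 1 1100)
(mv 1229 (cons (fin 1293 6 1037)
(mv 1292 (cons (fin 1228 5 1036)
(mv 1230 (cons (fin 1294 4 1037)
(mv 1168 (cons (fin 1169 0 1101)
(mv 973 (cons (fin 1166 7 973)
(mv 908 (cons (fin 972 7 908)
(mv 909 (cons (fin 844 7 844)
(fin 845 4 845))))))))))))))))))))))))))))))))
(mv 1164 (cons (cons (mv 1228 (cons (fin 1292 6 1036)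
(mv 973 (cons (fin 1165 5 972)
(fin 909 5 908)))))
(mv 973 (cons (fin 909 5 908)
(mv 1165 (cons (cons (mv 1230 (cons (fin 1166 4 973)
(mv 1229 (cons (fin 1294 4 1037)
(mv 1293 (cons (fin 1357 7 1100)
(fin 1036 7 1036)))))))
(mv 972 (cons (fin 908 7 908)
(mv 1229 (cons (fin 1036 7 972)
(mv 1293 (cons (fin 1357 7 1100)
(mv 1294 (cons (fin 1358 4 1101)
(fin 1230 4 1037))))))))))
(cons (mv 972 (cons (fin 908 7 908)
(mv 1036 (cons (fin 1229 7 972)
(mv 1227 (cons (fin 1163 5 971)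
(mv 971 (cons (fin 907 7 907)
(mv 970 (cons (fin 969 0 969)
(mv 1034 (cons (fin 1033 1 969)
(mv 1102 (cons (fin 1035 0 1034)
(mv 1103 (cons (fin 1104 1 1100)
(fin 1039 2 1036)))))))))))))))))
(mv 1166 (cons (fin 1230 4 973)
(mv 1167 (cons (fin 1099 3 1099)
(fin 1168 3 1100)))))))))))
(cons (mv 1292 (cons (fin 1228 6 1036)
(mv 1102 (cons (mv 1103 (cons (fin 1163 1 1099)
(fin 1039 2 1036)))
(cons (mv 1099 (cons (cons (mv 1162 (cons (fin 1163 1 1098)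
(mv 1166 (cons (fin 1167 0 1099)
(mv 1098 (cons (fin 1161 1 1097)
(fin 1165 0 1098)))))))
(mv 1162 (cons (fin 1163 1 1098)
(mv 1098 (cons (fin 1161 1 1097)
(mv 1097 (cons (fin 1165 0 1097)
(fin 1036 2 1033))))))))
(cons (mv 1166 (cons (fin 1167 0 1099)
(mv 1294 (cons (fin 1230 7 1037)
(mv 1098 (cons (fin 1165 0 1098)
(mv 1034 (cons (fin 1033 3 1033)
(fin 1035 3 1034)))))))))
(mv 1163 (cons (fin 1162 1 1098)
(mv 1166 (cons (fin 1167 0 1099)
(mv 1294 (cons (fin 1230 7 1037)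
(mv 1035 (cons (fin 1034 3 1034)
(mv 971 (cons (fin 907 4 907)
(mv 970 (cons (fin 906 7 906)
(mv 972 (cons (fin 908 6 907)
(mv 1036 (cons (fin 969 0 969)
(fin 1227 5 971))))))))))))))))))))
(mv 1103 (cons (fin 1039 2 1036)
(mv 1104 (cons (fin 1165 1 1100)
(fin 1036 3 1036))))))))))
(mv 1228 (cons (fin 1292 6 1036)
(mv 973 (cons (fin 909 5 908)
(fin 1036 6 972)))))))))
(cons (mv 1164 (cons (cons (mv 1228 (cons (fin 1292 6 1036)
(mv 973 (cons (fin 1165 5 972)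
(fin 909 5 908)))))
(mv 973 (cons (fin 909 5 908)
(mv 1165 (cons (cons (mv 1230 (cons (fin 1166 4 973)
(mv 1229 (cons (fin 1294 4 1037)
(mv 1293 (cons (fin 1357 7 1100)
(fin 1036 7 1036)))))))
(mv 972 (cons (fin 908 7 908)
(mv 1229 (cons (fin 1036 7 972)
(mv 1293 (cons (fin 1357 7 1100)
(mv 1294 (cons (fin 1358 4 1101)
(fin 1230 4 1037))))))))))
(cons (mv 972 (cons (fin 908 7 908)
(mv 1229 (cons (fin 1036 7 972)
(mv 1293 (cons (fin 1357 7 1100)
(mv 1356 (cons (fin 1292 5 1100)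
(mv 1358 (cons (fin 1294 4 1101)
(mv 1102 (cons (fin 1038 6 1037)
(mv 1163 (cons (fin 1103 1 1099)
(fin 1162 2 1098)))))))))))))))
(mv 1166 (cons (fin 1230 4 973)
(mv 1167 (cons (fin 1099 3 1099)
(fin 1168 3 1100)))))))))))
(cons (mv 1292 (cons (fin 1228 6 1036)
(mv 1163 (cons (cons (mv 1162 (cons (fin 1161 2 1097)
(mv 1102 (cons (fin 1099 1 1098)
(fin 1103 1 1099)))))
(mv 1162 (cons (fin 1161 2 1097)
(mv 1165 (cons (mv 1225 (cons (fin 1226 1 1161)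
(mv 1229 (cons (fin 1230 0 1162)
(mv 1293 (cons (fin 1356 5 1100)
(fin 1357 7 1100)))))))
(cons (mv 1225 (cons (fin 1226 1 1161)
(mv 1098 (cons (fin 1097 3 1097)
(mv 1099 (cons (fin 1166 3 1098)
(fin 1038 2 1034)))))))
(mv 1229 (cons (fin 1230 0 1162)
(mv 1293 (cons (fin 1356 5 1100)
(fin 1357 7 1100)))))))))))
(cons (mv 1102 (cons (fin 1103 1 1099)
(mv 1099 (cons (cons (mv 1166 (cons (fin 1167 0 1099)
(mv 1098 (cons (fin 1165 3 1098)
(fin 1038 2 1034)))))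
(mv 1166 (cons (fin 1167 0 1099)
(mv 1294 (cons (fin 1230 7 1037)
(mv 1035 (cons (fin 1034 3 1034)
(mv 971 (cons (fin 907 4 907)
(mv 970 (cons (fin 906 7 906)
(mv 1036 (cons (fin 1038 3 970)
(mv 1227 (cons (fin 972 5 971)
(fin 1291 6 1035))))))))))))))))
(cons (mv 1098 (cons (fin 1038 2 1034)
(mv 1097 (cons (fin 1096 0 1096)
(fin 1165 0 1097)))))
(mv 1166 (cons (fin 1167 0 1099)
(mv 1294 (cons (fin 1230 7 1037)
(mv 1165 (cons (fin 1098 3 1098)
(mv 1226 (cons (fin 1227 1 1162)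
(mv 1035 (cons (fin 1034 3 1034)
(mv 971 (cons (fin 907 4 907)
(mv 970 (cons (fin 906 7 906)
(mv 972 (cons (fin 908 6 907)
(mv 1036 (cons (fin 969 0 969)
(fin 1229 7 972))))))))))))))))))))))))
(mv 1162 (cons (fin 1161 2 1097)
(mv 1102 (cons (fin 1103 1 1099)
(fin 1165 2 1098))))))))))
(cons (mv 973 (cons (fin 909 5 908)
(mv 1228 (cons (fin 1165 5 972)
(fin 1036 6 972)))))
(mv 1228 (cons (fin 1292 6 1036)
(mv 973 (cons (fin 909 5 908)
(fin 1036 6 972)))))))))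
(cons (mv 1038 (cons (fin 1039 1 1036)
(mv 1099 (cons (fin 1098 2 1034)
(mv 1102 (cons (cons (mv 1162 (cons (fin 1163 1 1098)
(mv 1166 (cons (fin 1167 0 1099)
(mv 1230 (cons (fin 1294 7 1037)
(fin 973 7 973)))))))
(mv 1162 (cons (fin 1163 1 1098)
(mv 1035 (cons (fin 1034 3 1034)
(mv 1103 (cons (fin 1036 3 1035)
(mv 1168 (cons (fin 1167 0 1100)
(mv 1104 (cons (fin 1105 3 1037)
(fin 1169 0 1101))))))))))))
(cons (mv 1162 (cons (fin 1163 1 1098)
(mv 1035 (cons (fin 1034 3 1034)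
(mv 1036 (cons (fin 1103 3 1035)
(mv 971 (cons (fin 970 3 970)
(mv 907 (cons (fin 843 4 843)
(mv 906 (cons (fin 842 7 842)
(mv 908 (cons (fin 844 6 843)
(mv 972 (cons (fin 1165 4 908)
(mv 905 (cons (fin 904 0 904)
(fin 973 0 905)))))))))))))))))))
(mv 1166 (cons (fin 1167 0 1099)
(mv 1230 (cons (fin 1294 7 1037)
(fin 973 7 973))))))))))))
(mv 1038 (cons (fin 1039 1 1036)
(mv 1098 (cons (fin 1099 2 1034)
(mv 973 (cons (cons (mv 1164 (cons (fin 909 5 908)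
(mv 1228 (cons (fin 1165 5 972)
(fin 1292 6 1036)))))
(mv 1165 (cons (cons (mv 1228 (cons (fin 1164 5 972)
(mv 1229 (cons (fin 1292 5 1036)
(mv 1230 (cons (fin 1294 4 1037)
(fin 1166 4 973)))))))
(mv 1230 (cons (fin 1166 4 973)
(mv 1229 (cons (fin 1294 4 1037)
(mv 1036 (cons (fin 1293 7 1036)
(fin 972 7 972))))))))
(cons (mv 1228 (cons (fin 1164 5 972)
(mv 1229 (cons (fin 1292 5 1036)
(mv 1036 (cons (fin 1293 7 1036)
(fin 972 7 972)))))))
(mv 1230 (cons (fin 1166 4 973)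
(mv 1164 (cons (fin 1228 5 972)
(mv 972 (cons (fin 908 7 908)
(mv 971 (cons (fin 970 0 970)
(mv 1036 (cons (fin 907 7 907)
(mv 1163 (cons (fin 1227 5 971)
(mv 1162 (cons (fin 1097 3 1097)
(fin 1161 2 1097)))))))))))))))))))
(cons (mv 909 (cons (cons (mv 1036 (cons (fin 845 5 844)
(mv 908 (cons (fin 844 7 844)
(mv 1165 (cons (fin 972 7 908)
(mv 1229 (cons (fin 1293 7 1036)
(mv 1230 (cons (fin 1294 4 1037)
(fin 1166 4 973)))))))))))
(mv 908 (cons (fin 844 7 844)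
(mv 1165 (cons (fin 972 7 908)
(mv 1230 (cons (fin 1166 4 973)
(mv 1229 (cons (fin 1294 4 1037)
(mv 1292 (cons (fin 1228 5 1036)
(mv 1293 (cons (fin 1356 5 1100)
(fin 1036 7 1036))))))))))))))
(cons (mv 845 (cons (fin 1036 5 844)
(mv 846 (cons (fin 910 6 845)
(fin 782 6 781)))))
(mv 844 (cons (fin 908 7 844)
(mv 845 (cons (fin 780 7 780)
(mv 846 (cons (fin 910 6 845)
(fin 782 6 781))))))))))
(cons (mv 1164 (cons (fin 909 5 908)
(mv 1228 (cons (fin 1292 6 1036)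
(fin 1036 6 972)))))
(mv 909 (cons (fin 1164 5 908)
(mv 1036 (cons (fin 845 5 844)
(mv 908 (cons (fin 844 7 844)
(mv 1165 (cons (fin 972 7 908)
(mv 1229 (cons (fin 1293 7 1036)
(mv 1230 (cons (fin 1294 4 1037)
(fin 1166 4 973))))))))))))))))))))))))
(cons (cons (mv 1038 (cons (fin 1039 1 1036)
(mv 1164 (cons (cons (mv 1228 (cons (fin 1292 6 1036)
(mv 973 (cons (fin 1165 5 972)
(fin 909 5 908)))))
(mv 1228 (cons (fin 1292 6 1036)
(mv 1036 (cons (cons (mv 1291 (cons (fin 1227 5 1035)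
(mv 1293 (cons (fin 1229 4 1036)
(mv 1035 (cons (fin 971 7 971)
(mv 1102 (cons (fin 1103 3 1035)
(fin 1034 0 1034)))))))))
(mv 1291 (cons (fin 1227 5 1035)
(mv 1229 (cons (fin 1293 4 1036)
(mv 1165 (cons (fin 972 7 972)
(mv 1230 (cons (fin 1294 4 1037)
(mv 1231 (cons (fin 1163 3 1163)
(fin 1232 3 1164))))))))))))
(cons (mv 1291 (cons (fin 1227 5 1035)
(mv 1035 (cons (fin 971 7 971)
(mv 1102 (cons (fin 1103 3 1035)
(fin 1034 0 1034)))))))
(mv 1293 (cons (fin 1229 4 1036)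
(mv 1035 (cons (fin 971 7 971)
(mv 1102 (cons (fin 1103 3 1035)
(fin 1034 0 1034)))))))))))))
(cons (mv 973 (cons (fin 909 5 908)
(mv 1165 (cons (cons (mv 1230 (cons (fin 1166 4 973)
(mv 1294 (cons (fin 1229 4 1037)
(mv 972 (cons (fin 908 7 908)
(mv 971 (cons (fin 970 0 970)
(mv 1036 (cons (fin 907 7 907)
(mv 1163 (cons (fin 1227 5 971)
(mv 1162 (cons (fin 1161 2 1097)
(fin 1102 2 1098)))))))))))))))
(mv 1230 (cons (fin 1166 4 973)
(mv 1229 (cons (fin 1294 4 1037)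
(mv 1293 (cons (fin 1357 7 1100)
(fin 1036 7 1036))))))))
(cons (mv 972 (cons (fin 908 7 908)
(mv 1229 (cons (fin 1036 7 972)
(mv 1293 (cons (fin 1357 7 1100)
(fin 1102 6 1037)))))))
(cons (mv 1230 (cons (fin 1166 4 973)
(mv 972 (cons (fin 908 7 908)
(mv 971 (cons (fin 970 0 970)
(mv 1036 (cons (fin 907 7 907)
(mv 1163 (cons (fin 1227 5 971)
(mv 1162 (cons (fin 1161 2 1097)
(fin 1102 2 1098)))))))))))))
(mv 1230 (cons (fin 1166 4 973)
(mv 1229 (cons (fin 1294 4 1037)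
(mv 1293 (cons (fin 1357 7 1100)
(fin 1102 6 1037)))))))))))))
(mv 1228 (cons (fin 1292 6 1036)
(mv 973 (cons (fin 909 5 908)
(fin 1036 6 972))))))))))
(cons (mv 1038 (cons (fin 1039 1 1036)
(mv 1099 (cons (fin 1098 2 1034)
(mv 1102 (cons (cons (mv 1162 (cons (fin 1163 1 1098)
(mv 1166 (cons (fin 1167 0 1099)
(mv 1294 (cons (fin 1230 7 1037)
(mv 1035 (cons (fin 1034 3 1034)
(mv 1036 (cons (fin 1103 3 1035)
(mv 971 (cons (fin 970 3 970)
(mv 1164 (cons (fin 1228 7 971)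
(fin 907 4 907)))))))))))))))
(cons (mv 1162 (cons (fin 1163 1 1098)
(mv 1167 (cons (fin 1166 0 1099)
(mv 1103 (cons (fin 1168 0 1100)
(mv 1104 (cons (fin 1036 3 1036)
(fin 1105 3 1037)))))))))
(mv 1166 (cons (fin 1167 0 1099)
(mv 1294 (cons (fin 1230 7 1037)
(mv 1035 (cons (fin 1034 3 1034)
(mv 1036 (cons (fin 1103 3 1035)
(mv 971 (cons (fin 970 3 970)
(mv 1164 (cons (fin 1228 7 971)
(fin 907 4 907)))))))))))))))
(cons (cons (mv 1162 (cons (fin 1163 1 1098)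
(mv 1035 (cons (fin 1034 3 1034)
(mv 1103 (cons (fin 1036 3 1035)
(mv 1168 (cons (fin 1167 0 1100)
(mv 1104 (cons (fin 1105 3 1037)
(fin 1169 0 1101)))))))))))
(mv 1162 (cons (fin 1163 1 1098)
(mv 1035 (cons (fin 1034 3 1034)
(mv 1036 (cons (fin 1103 3 1035)
(mv 971 (cons (fin 970 3 970)
(mv 1164 (cons (fin 1228 7 971)
(fin 907 4 907))))))))))))
(cons (mv 1163 (cons (fin 1162 1 1098)
(mv 1166 (cons (fin 1167 0 1099)
(mv 1230 (cons (fin 1294 7 1037)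
(mv 1293 (cons (fin 1229 5 1037)
(mv 1231 (cons (fin 1295 4 1038)
(mv 1164 (cons (fin 1165 0 1163)
(mv 1292 (cons (fin 1228 6 1036)
(mv 1035 (cons (fin 1034 3 1034)
(mv 971 (cons (fin 907 4 907)
(mv 970 (cons (fin 1036 3 970)
(fin 906 7 906)))))))))))))))))))))
(mv 1163 (cons (fin 1162 1 1098)
(mv 1164 (cons (fin 1103 1 1099)
(mv 1292 (cons (fin 1228 6 1036)
(mv 1166 (cons (fin 1167 0 1099)
(mv 1230 (cons (fin 1294 7 1037)
(mv 1231 (cons (fin 1165 0 1163)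
(fin 1295 4 1038)))))))))))))))))))))
(mv 1038 (cons (fin 1039 1 1036)
(mv 1099 (cons (fin 1098 2 1034)
(mv 1102 (cons (cons (mv 1162 (cons (fin 1163 1 1098)
(mv 1166 (cons (fin 1167 0 1099)
(mv 1230 (cons (fin 1294 7 1037)
(fin 973 7 973)))))))
(mv 1163 (cons (fin 1162 1 1098)
(mv 1164 (cons (fin 1103 1 1099)
(mv 1292 (cons (fin 1228 6 1036)
(mv 1035 (cons (fin 1034 3 1034)
(mv 971 (cons (fin 907 4 907)
(mv 970 (cons (fin 906 7 906)
(mv 972 (cons (fin 973 0 970)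
(fin 908 6 907))))))))))))))))
(cons (mv 1166 (cons (fin 1167 0 1099)
(mv 1230 (cons (fin 1294 7 1037)
(fin 973 7 973)))))
(mv 1163 (cons (fin 1162 1 1098)
(mv 1164 (cons (fin 1103 1 1099)
(mv 1292 (cons (fin 1228 6 1036)
(mv 1166 (cons (fin 1167 0 1099)
(mv 1230 (cons (fin 1294 7 1037)
(mv 1231 (cons (fin 1165 0 1163)
(fin 1295 4 1038))))))))))))))))))))))
(cons (mv 1038 (cons (fin 1039 1 1036)
(mv 1099 (cons (fin 1098 2 1034)
(mv 1102 (cons (cons (mv 1162 (cons (fin 1163 1 1098)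
(mv 1166 (cons (fin 1167 0 1099)
(mv 1230 (cons (fin 1294 7 1037)
(fin 973 7 973)))))))
(mv 1162 (cons (fin 1163 1 1098)
(mv 1035 (cons (fin 1034 3 1034)
(mv 1103 (cons (fin 1036 3 1035)
(mv 1168 (cons (fin 1167 0 1100)
(mv 1104 (cons (fin 1105 3 1037)
(fin 1169 0 1101))))))))))))
(cons (mv 1166 (cons (fin 1167 0 1099)
(mv 1230 (cons (fin 1294 7 1037)
(fin 973 7 973)))))
(mv 1162 (cons (fin 1163 1 1098)
(mv 1035 (cons (fin 1034 3 1034)
(mv 1036 (cons (fin 1103 3 1035)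
(mv 971 (cons (fin 970 3 970)
(mv 1164 (cons (fin 1228 7 971)
(fin 907 4 907))))))))))))))))))
(cons (mv 1038 (cons (fin 1039 1 1036)
(mv 1099 (cons (fin 1098 2 1034)
(mv 1102 (cons (cons (mv 1162 (cons (fin 1163 1 1098)
(mv 1035 (cons (fin 1034 3 1034)
(mv 1103 (cons (fin 1036 3 1035)
(mv 1168 (cons (fin 1167 0 1100)
(mv 1104 (cons (fin 1105 3 1037)
(fin 1169 0 1101)))))))))))
(mv 1163 (cons (fin 1162 1 1098)
(mv 1164 (cons (fin 1103 1 1099)
(mv 1228 (cons (fin 1292 6 1036)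
(mv 973 (cons (fin 1165 5 972)
(fin 909 5 908))))))))))
(cons (mv 1035 (cons (fin 1034 3 1034)
(mv 1103 (cons (fin 1036 3 1035)
(mv 1168 (cons (fin 1167 0 1100)
(mv 1104 (cons (fin 1105 3 1037)
(fin 1169 0 1101)))))))))
(mv 1162 (cons (fin 1163 1 1098)
(mv 1035 (cons (fin 1034 3 1034)
(mv 1164 (cons (cons (mv 1292 (cons (fin 1228 7 1035)
(mv 971 (cons (fin 907 4 907)
(mv 970 (cons (fin 1036 3 970)
(mv 973 (cons (fin 972 0 970)
(fin 909 5 908)))))))))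
(mv 971 (cons (fin 907 4 907)
(mv 970 (cons (fin 1036 3 970)
(mv 973 (cons (fin 972 0 970)
(fin 909 5 908))))))))
(cons (mv 1228 (cons (fin 1292 7 1035)
(mv 971 (cons (fin 1036 7 971)
(fin 907 4 907)))))
(mv 1228 (cons (fin 1292 7 1035)
(mv 973 (cons (fin 1165 5 972)
(fin 909 5 908)))))))))))))))))))
(mv 1038 (cons (fin 1039 1 1036)
(mv 1098 (cons (fin 1099 2 1034)
(mv 1164 (cons (cons (mv 1228 (cons (fin 1292 6 1036)
(mv 973 (cons (fin 1165 5 972)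
(fin 909 5 908)))))
(mv 1228 (cons (fin 1292 6 1036)
(mv 1036 (cons (cons (mv 1291 (cons (fin 1227 5 1035)
(mv 1293 (cons (fin 1229 4 1036)
(mv 1035 (cons (fin 971 7 971)
(mv 1102 (cons (fin 1103 3 1035)
(fin 1034 0 1034)))))))))
(mv 1291 (cons (fin 1227 5 1035)
(mv 1229 (cons (fin 1293 4 1036)
(mv 1165 (cons (fin 972 7 972)
(mv 1230 (cons (fin 1294 4 1037)
(mv 1231 (cons (fin 1232 3 1164)
(mv 1295 (cons (fin 1296 0 1228)
(mv 1167 (cons (fin 1168 2 1164)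
(mv 1102 (cons (fin 1103 7 1038)
(fin 1166 4 1038))))))))))))))))))
(cons (mv 1291 (cons (fin 1227 5 1035)
(mv 1035 (cons (fin 971 7 971)
(mv 1102 (cons (fin 1103 3 1035)
(fin 1034 0 1034)))))))
(cons (mv 1293 (cons (fin 1229 4 1036)
(mv 1035 (cons (fin 971 7 971)
(mv 1102 (cons (fin 1103 3 1035)
(fin 1034 0 1034)))))))
(mv 1291 (cons (fin 1227 5 1035)
(mv 1293 (cons (fin 1229 4 1036)
(mv 1035 (cons (fin 971 7 971)
(mv 1034 (cons (fin 1097 1 1033)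
(fin 1033 0 1033))))))))))))))))
(cons (mv 973 (cons (fin 909 5 908)
(mv 1165 (cons (mv 1230 (cons (fin 1166 4 973)
(mv 1229 (cons (fin 1294 4 1037)
(mv 1293 (cons (fin 1357 7 1100)
(fin 1036 7 1036)))))))
(cons (mv 972 (cons (fin 908 7 908)
(mv 1229 (cons (fin 1036 7 972)
(mv 1293 (cons (fin 1357 7 1100)
(fin 1102 6 1037)))))))
(mv 1166 (cons (fin 1230 4 973)
(mv 1167 (cons (fin 1168 3 1100)
(mv 1231 (cons (fin 1232 0 1164)
(mv 1103 (cons (fin 1104 2 1100)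
(mv 1295 (cons (fin 1102 7 1038)
(mv 1358 (cons (fin 1294 5 1102)
(mv 1359 (cons (fin 1422 5 1166)
(mv 1360 (cons (fin 1424 4 1167)
(fin 1296 4 1103))))))))))))))))))))))
(mv 1228 (cons (fin 1292 6 1036)
(mv 973 (cons (fin 909 5 908)
(fin 1036 6 972)))))))))))))))))
(cons (mv 1038 (cons (cons (mv 1039 (cons (fin 1100 1 1036)
(mv 1104 (cons (fin 1105 0 1037)
(mv 1103 (cons (fin 1036 0 1036)
(mv 972 (cons (fin 973 3 972)
(mv 976 (cons (fin 977 2 973)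
(mv 1167 (cons (fin 912 5 911)
(fin 1231 6 975)))))))))))))
(cons (mv 974 (cons (cons (mv 1165 (cons (fin 1229 6 973)
(mv 910 (cons (fin 1102 5 909)
(fin 846 5 845)))))
(mv 910 (cons (fin 846 5 845)
(mv 1102 (cons (cons (mv 1167 (cons (fin 1103 4 910)
(mv 1166 (cons (fin 1231 4 974)
(mv 1230 (cons (fin 1294 7 1037)
(fin 973 7 973)))))))
(mv 909 (cons (fin 845 7 845)
(mv 1166 (cons (fin 973 7 909)
(mv 1230 (cons (fin 1294 7 1037)
(mv 1231 (cons (fin 1295 4 1038)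
(fin 1167 4 974))))))))))
(cons (mv 909 (cons (fin 845 7 845)
(mv 973 (cons (fin 1166 7 909)
(mv 908 (cons (fin 844 7 844)
(mv 975 (cons (fin 976 3 908)
(fin 907 0 907)))))))))
(mv 1103 (cons (fin 1167 4 910)
(mv 1104 (cons (fin 1036 3 1036)
(fin 1105 3 1037)))))))))))
(cons (mv 1165 (cons (fin 1229 6 973)
(mv 973 (cons (cons (mv 1230 (cons (fin 1166 4 973)
(mv 972 (cons (fin 908 7 908)
(mv 971 (cons (fin 970 0 970)
(mv 1035 (cons (fin 1034 1 970)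
(mv 1036 (cons (fin 975 1 971)
(mv 1098 (cons (fin 1099 1 1034)
(mv 1102 (cons (fin 1103 0 1035)
(mv 907 (cons (fin 906 3 906)
(mv 843 (cons (fin 1100 4 843)
(fin 779 4 779)))))))))))))))))))
(mv 972 (cons (fin 908 7 908)
(mv 971 (cons (fin 970 0 970)
(mv 1035 (cons (fin 1034 1 970)
(mv 1036 (cons (fin 975 1 971)
(mv 1098 (cons (fin 1099 1 1034)
(mv 1102 (cons (fin 1103 0 1035)
(mv 907 (cons (fin 906 3 906)
(mv 843 (cons (fin 1100 4 843)
(fin 779 4 779))))))))))))))))))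
(cons (mv 1166 (cons (fin 1230 4 973)
(mv 1102 (cons (fin 909 7 909)
(mv 1167 (cons (fin 1231 4 974)
(mv 1168 (cons (fin 1100 3 1100)
(fin 1169 3 1101)))))))))
(cons (mv 1230 (cons (fin 1166 4 973)
(mv 972 (cons (fin 908 7 908)
(mv 971 (cons (fin 970 0 970)
(mv 1035 (cons (fin 1034 1 970)
(mv 1036 (cons (fin 975 1 971)
(mv 1098 (cons (fin 1099 1 1034)
(mv 907 (cons (fin 906 3 906)
(mv 843 (cons (fin 1100 4 843)
(fin 779 4 779)))))))))))))))))
(mv 1230 (cons (fin 1166 4 973)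
(mv 908 (cons (fin 972 7 908)
(mv 909 (cons (fin 844 7 844)
(mv 845 (cons (fin 1102 4 845)
(fin 781 4 781)))))))))))))))
(mv 1165 (cons (fin 1229 6 973)
(mv 910 (cons (fin 846 5 845)
(fin 973 6 909))))))))
(mv 1039 (cons (cons (mv 1104 (cons (fin 1105 0 1037)
(mv 1103 (cons (fin 1036 0 1036)
(mv 972 (cons (fin 973 3 972)
(mv 976 (cons (fin 977 2 973)
(mv 1167 (cons (fin 912 5 911)
(fin 1231 6 975)))))))))))
(mv 1104 (cons (fin 1105 0 1037)
(mv 1103 (cons (fin 1036 0 1036)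
(mv 976 (cons (fin 977 2 973)
(mv 1167 (cons (fin 912 5 911)
(fin 1231 6 975))))))))))
(cons (mv 972 (cons (fin 973 3 972)
(mv 1036 (cons (fin 971 3 971)
(mv 976 (cons (fin 975 2 972)
(fin 977 2 973)))))))
(cons (mv 1104 (cons (fin 1105 0 1037)
(mv 1036 (cons (fin 1103 0 1036)
(mv 972 (cons (fin 971 3 971)
(fin 973 3 972)))))))
(mv 1104 (cons (fin 1105 0 1037)
(mv 972 (cons (fin 973 3 972)
(mv 976 (cons (fin 977 2 973)
(mv 1103 (cons (mv 1167 (cons (fin 912 5 911)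
(fin 1231 6 975)))
(cons (mv 912 (cons (fin 848 5 847)
(mv 913 (cons (fin 849 6 848)
(mv 1168 (cons (mv 1232 (cons (fin 1296 7 1039)
(fin 975 7 975)))
(mv 1169 (cons (fin 1102 0 1101)
(fin 1233 4 976)))))))))
(mv 1231 (cons (fin 1167 6 975)
(mv 1168 (cons (mv 1232 (cons (fin 1295 5 1039)
(fin 1296 7 1039)))
(mv 1169 (cons (fin 1102 0 1101)
(fin 1233 4 976))))))))))))))))))))))
(cons (cons (mv 1039 (cons (fin 1100 1 1036)
(mv 1104 (cons (fin 1105 0 1037)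
(mv 1103 (cons (fin 1036 0 1036)
(mv 976 (cons (fin 977 2 973)
(mv 1167 (cons (fin 912 5 911)
(fin 1231 6 975)))))))))))
(mv 1039 (cons (fin 1100 1 1036)
(mv 972 (cons (fin 973 3 972)
(mv 1036 (cons (fin 971 3 971)
(mv 976 (cons (fin 975 2 972)
(fin 977 2 973))))))))))
(cons (mv 1039 (cons (fin 1100 1 1036)
(mv 1104 (cons (fin 1105 0 1037)
(mv 1036 (cons (fin 1103 0 1036)
(mv 972 (cons (fin 971 3 971)
(fin 973 3 972)))))))))
(mv 1039 (cons (fin 1100 1 1036)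
(mv 1104 (cons (fin 1105 0 1037)
(mv 972 (cons (fin 973 3 972)
(mv 976 (cons (fin 977 2 973)
(mv 1103 (cons (mv 1167 (cons (fin 912 5 911)
(fin 1231 6 975)))
(cons (mv 912 (cons (fin 848 5 847)
(mv 913 (cons (fin 849 6 848)
(mv 1168 (cons (mv 1232 (cons (fin 1296 7 1039)
(fin 975 7 975)))
(mv 1169 (cons (fin 1102 0 1101)
(fin 1233 4 976)))))))))
(mv 1231 (cons (fin 1167 6 975)
(mv 1168 (cons (mv 1232 (cons (fin 1295 5 1039)
(fin 1296 7 1039)))
(mv 1169 (cons (fin 1102 0 1101)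
(fin 1233 4 976))))))))))))))))))))))
(mv 1038 (cons (cons (mv 1039 (cons (fin 1100 1 1036)
(mv 1104 (cons (fin 1105 0 1037)
(mv 1103 (cons (fin 1036 0 1036)
(mv 972 (cons (fin 973 3 972)
(mv 976 (cons (fin 977 2 973)
(mv 1167 (cons (fin 912 5 911)
(fin 1231 6 975)))))))))))))
(cons (mv 974 (cons (cons (mv 1165 (cons (fin 1229 6 973)
(mv 910 (cons (fin 1102 5 909)
(fin 846 5 845)))))
(mv 910 (cons (fin 846 5 845)
(mv 909 (cons (cons (mv 1102 (cons (fin 845 7 845)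
(mv 1103 (cons (fin 1167 4 910)
(mv 1104 (cons (fin 1036 3 1036)
(fin 1105 3 1037)))))))
(mv 908 (cons (cons (mv 973 (cons (fin 844 7 844)
(mv 975 (cons (fin 976 3 908)
(fin 907 0 907)))))
(mv 973 (cons (fin 844 7 844)
(mv 1100 (cons (fin 1164 5 908)
(mv 1098 (cons (fin 1099 2 1034)
(mv 907 (cons (fin 906 0 906)
(mv 971 (cons (fin 970 1 906)
(mv 843 (cons (fin 842 3 842)
(mv 1035 (cons (fin 1034 5 842)
(fin 1036 4 843))))))))))))))))
(cons (mv 907 (cons (fin 975 0 907)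
(mv 970 (cons (fin 971 1 906)
(mv 906 (cons (fin 969 1 905)
(mv 842 (cons (fin 841 3 841)
(fin 843 3 842)))))))))
(mv 973 (cons (fin 844 7 844)
(mv 1100 (cons (fin 1164 5 908)
(mv 1099 (cons (fin 1098 2 1034)
(mv 975 (cons (fin 976 3 908)
(mv 1036 (cons (fin 1035 2 971)
(mv 1163 (cons (fin 972 5 907)
(mv 1291 (cons (fin 1227 6 1035)
(mv 1102 (cons (fin 1162 1 1098)
(mv 1103 (cons (fin 1104 3 1036)
(fin 1167 4 910)))))))))))))))))))))))
(cons (mv 975 (cons (cons (mv 1035 (cons (fin 1036 2 971)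
(mv 976 (cons (fin 977 1 973)
(mv 908 (cons (fin 973 3 908)
(fin 907 0 907)))))))
(mv 1036 (cons (fin 1035 2 971)
(mv 908 (cons (fin 907 0 907)
(mv 844 (cons (fin 973 7 844)
(fin 972 4 844))))))))
(cons (mv 1036 (cons (fin 1035 2 971)
(mv 976 (cons (fin 973 1 972)
(fin 977 1 973)))))
(cons (mv 976 (cons (fin 977 1 973)
(mv 908 (cons (fin 973 3 908)
(fin 907 0 907)))))
(mv 1036 (cons (fin 1035 2 971)
(mv 976 (cons (fin 977 1 973)
(mv 908 (cons (fin 907 0 907)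
(mv 972 (cons (fin 844 4 844)
(mv 1100 (cons (fin 845 6 844)
(mv 1099 (cons (fin 1098 2 1034)
(fin 1163 5 907)))))))))))))))))
(mv 845 (cons (fin 1102 7 845)
(mv 781 (cons (fin 973 4 781)
(fin 717 4 717)))))))))))
(cons (mv 1165 (cons (fin 1229 6 973)
(mv 973 (cons (cons (mv 1228 (cons (fin 1164 5 972)
(mv 972 (cons (fin 908 7 908)
(mv 971 (cons (fin 970 0 970)
(mv 1035 (cons (fin 1034 1 970)
(mv 1036 (cons (fin 975 1 971)
(mv 1098 (cons (fin 1099 1 1034)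
(mv 1102 (cons (fin 1103 0 1035)
(mv 907 (cons (fin 906 3 906)
(mv 843 (cons (fin 1100 4 843)
(fin 779 4 779)))))))))))))))))))
(mv 1164 (cons (fin 1228 5 972)
(mv 909 (cons (fin 1100 5 908)
(mv 845 (cons (fin 1102 4 845)
(fin 781 4 781))))))))
(cons (mv 972 (cons (fin 908 7 908)
(mv 971 (cons (fin 970 0 970)
(mv 1035 (cons (fin 1034 1 970)
(mv 1036 (cons (fin 975 1 971)
(mv 1098 (cons (fin 1099 1 1034)
(mv 1102 (cons (fin 1103 0 1035)
(mv 907 (cons (fin 906 3 906)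
(mv 843 (cons (fin 1100 4 843)
(fin 779 4 779)))))))))))))))))
(cons (mv 1228 (cons (fin 1164 5 972)
(mv 908 (cons (fin 972 7 908)
(mv 909 (cons (fin 844 7 844)
(mv 845 (cons (fin 1102 4 845)
(fin 781 4 781)))))))))
(mv 1228 (cons (fin 1164 5 972)
(mv 972 (cons (fin 908 7 908)
(mv 971 (cons (fin 970 0 970)
(mv 1035 (cons (fin 1034 1 970)
(mv 1036 (cons (fin 975 1 971)
(mv 1098 (cons (fin 1099 1 1034)
(mv 907 (cons (fin 906 3 906)
(mv 843 (cons (fin 1100 4 843)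
(fin 779 4 779)))))))))))))))))))))))
(mv 1165 (cons (fin 1229 6 973)
(mv 910 (cons (fin 846 5 845)
(fin 973 6 909))))))))
(mv 1039 (cons (cons (mv 1104 (cons (fin 1105 0 1037)
(mv 1103 (cons (fin 1036 0 1036)
(mv 972 (cons (fin 973 3 972)
(mv 976 (cons (fin 977 2 973)
(mv 1167 (cons (fin 912 5 911)
(fin 1231 6 975)))))))))))
(mv 1104 (cons (fin 1105 0 1037)
(mv 1103 (cons (fin 1036 0 1036)
(mv 976 (cons (fin 977 2 973)
(mv 1167 (cons (fin 912 5 911)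
(fin 1231 6 975))))))))))
(cons (mv 972 (cons (fin 973 3 972)
(mv 1036 (cons (fin 971 3 971)
(mv 976 (cons (fin 975 2 972)
(fin 977 2 973)))))))
(cons (mv 1104 (cons (fin 1105 0 1037)
(mv 1036 (cons (fin 1103 0 1036)
(mv 972 (cons (fin 971 3 971)
(fin 973 3 972)))))))
(mv 1104 (cons (fin 1105 0 1037)
(mv 972 (cons (fin 973 3 972)
(mv 976 (cons (fin 977 2 973)
(mv 1103 (cons (mv 1167 (cons (fin 912 5 911)
(fin 1231 6 975)))
(cons (mv 912 (cons (fin 848 5 847)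
(mv 913 (cons (fin 849 6 848)
(mv 1168 (cons (mv 1232 (cons (fin 1296 7 1039)
(fin 975 7 975)))
(mv 1169 (cons (fin 1102 0 1101)
(fin 1233 4 976)))))))))
(mv 1231 (cons (fin 1167 6 975)
(mv 1168 (cons (mv 1232 (cons (fin 1295 5 1039)
(fin 1296 7 1039)))
(mv 1169 (cons (fin 1102 0 1101)
(fin 1233 4 976))))))))))))))))))))))
(cons (mv 1100 (cons (fin 1039 1 1036)
(mv 1099 (cons (fin 1098 2 1034)
(mv 1102 (cons (cons (mv 1162 (cons (fin 1163 1 1098)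
(mv 1035 (cons (fin 1034 3 1034)
(mv 1103 (cons (fin 1036 3 1035)
(mv 1167 (cons (fin 1168 0 1100)
(mv 1295 (cons (fin 1231 7 1038)
(mv 1104 (cons (fin 1105 3 1037)
(mv 1165 (cons (fin 1164 1 1100)
(mv 1229 (cons (fin 1293 6 1037)
(fin 974 6 973)))))))))))))))))
(cons (mv 1163 (cons (fin 1162 1 1098)
(mv 1103 (cons (fin 1164 1 1099)
(mv 1104 (cons (fin 1036 3 1036)
(fin 1105 3 1037)))))))
(mv 1035 (cons (fin 1034 3 1034)
(mv 1103 (cons (fin 1036 3 1035)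
(mv 1167 (cons (fin 1168 0 1100)
(mv 1295 (cons (fin 1231 7 1038)
(mv 1104 (cons (fin 1105 3 1037)
(mv 1165 (cons (fin 1164 1 1100)
(mv 1229 (cons (fin 1293 6 1037)
(fin 974 6 973)))))))))))))))))
(cons (mv 1162 (cons (fin 1163 1 1098)
(mv 1035 (cons (fin 1034 3 1034)
(mv 974 (cons (mv 1165 (cons (fin 910 5 909)
(fin 1229 6 973)))
(mv 1036 (cons (fin 975 2 971)
(mv 971 (cons (fin 970 3 970)
(mv 1164 (cons (fin 1228 7 971)
(fin 907 4 907)))))))))))))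
(cons (mv 1163 (cons (fin 1162 1 1098)
(mv 1164 (cons (fin 1103 1 1099)
(mv 1228 (cons (fin 1292 6 1036)
(mv 1035 (cons (fin 1034 3 1034)
(fin 971 4 971)))))))))
(mv 1162 (cons (fin 1163 1 1098)
(mv 1035 (cons (fin 1034 3 1034)
(mv 1103 (cons (fin 1036 3 1035)
(mv 1168 (cons (fin 1167 0 1100)
(mv 1104 (cons (fin 1105 3 1037)
(fin 1169 0 1101)))))))))))))))))))
(cons (mv 1039 (cons (fin 1100 1 1036)
(mv 972 (cons (fin 973 3 972)
(mv 1036 (cons (fin 971 3 971)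
(mv 976 (cons (fin 975 2 972)
(fin 977 2 973)))))))))
(mv 1039 (cons (fin 1100 1 1036)
(mv 1104 (cons (fin 1105 0 1037)
(mv 972 (cons (fin 973 3 972)
(mv 976 (cons (fin 977 2 973)
(mv 1103 (cons (mv 1167 (cons (fin 912 5 911)
(fin 1231 6 975)))
(cons (mv 912 (cons (fin 848 5 847)
(mv 913 (cons (fin 849 6 848)
(mv 1168 (cons (mv 1232 (cons (fin 1296 7 1039)
(fin 975 7 975)))
(mv 1169 (cons (fin 1102 0 1101)
(fin 1233 4 976)))))))))
(mv 1231 (cons (fin 1167 6 975)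
(mv 1168 (cons (mv 1232 (cons (fin 1295 5 1039)
(fin 1296 7 1039)))
(mv 1169 (cons (fin 1102 0 1101)
(fin 1233 4 976)))))))))))))))))))))))))
(cons (cons (mv 1038 (cons (cons (mv 1039 (cons (fin 1100 1 1036)
(mv 1104 (cons (fin 1105 0 1037)
(mv 1103 (cons (fin 1036 0 1036)
(mv 972 (cons (fin 973 3 972)
(mv 976 (cons (fin 977 2 973)
(mv 1167 (cons (fin 912 5 911)
(fin 1231 6 975)))))))))))))
(cons (mv 974 (cons (cons (mv 1165 (cons (fin 1229 6 973)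
(mv 910 (cons (fin 1102 5 909)
(fin 846 5 845)))))
(mv 910 (cons (fin 846 5 845)
(mv 1102 (cons (cons (mv 1167 (cons (fin 1103 4 910)
(mv 1166 (cons (fin 1231 4 974)
(mv 1230 (cons (fin 1294 7 1037)
(fin 973 7 973)))))))
(mv 909 (cons (fin 845 7 845)
(mv 1166 (cons (fin 973 7 909)
(mv 1230 (cons (fin 1294 7 1037)
(mv 1231 (cons (fin 1295 4 1038)
(fin 1167 4 974))))))))))
(cons (mv 909 (cons (fin 845 7 845)
(mv 973 (cons (fin 1166 7 909)
(mv 1100 (cons (fin 1164 5 908)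
(mv 1099 (cons (fin 1098 2 1034)
(mv 1162 (cons (fin 1163 1 1098)
(mv 1035 (cons (fin 1034 3 1034)
(mv 1036 (cons (fin 1103 3 1035)
(fin 975 2 971)))))))))))))))
(mv 1103 (cons (fin 1167 4 910)
(mv 1104 (cons (fin 1036 3 1036)
(fin 1105 3 1037)))))))))))
(cons (mv 1165 (cons (fin 1229 6 973)
(mv 973 (cons (cons (mv 1228 (cons (fin 1164 5 972)
(mv 1166 (cons (fin 1230 4 973)
(mv 1102 (cons (fin 909 7 909)
(mv 1167 (cons (fin 1231 4 974)
(mv 1168 (cons (fin 1100 3 1100)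
(fin 1169 3 1101)))))))))))
(cons (mv 1164 (cons (fin 1228 5 972)
(mv 909 (cons (fin 1100 5 908)
(mv 845 (cons (fin 1102 4 845)
(fin 781 4 781)))))))
(mv 1166 (cons (fin 1230 4 973)
(mv 1102 (cons (fin 909 7 909)
(mv 1167 (cons (fin 1231 4 974)
(mv 1168 (cons (fin 1100 3 1100)
(fin 1169 3 1101)))))))))))
(cons (mv 1164 (cons (fin 1228 5 972)
(mv 1166 (cons (fin 1230 4 973)
(mv 1167 (cons (mv 1231 (cons (fin 1232 0 1164)
(fin 1102 4 974)))
(mv 1100 (cons (fin 1099 3 1099)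
(fin 1168 3 1100)))))))))
(cons (mv 1164 (cons (fin 1228 5 972)
(mv 1166 (cons (fin 1230 4 973)
(mv 1100 (cons (fin 909 5 908)
(mv 1167 (cons (fin 1099 3 1099)
(fin 1168 3 1100)))))))))
(mv 1228 (cons (fin 1164 5 972)
(mv 1166 (cons (fin 1230 4 973)
(mv 1102 (cons (fin 909 7 909)
(mv 1167 (cons (fin 1231 4 974)
(mv 1168 (cons (fin 1169 3 1101)
(mv 1232 (cons (fin 1233 0 1165)
(mv 1104 (cons (fin 1105 2 1101)
(mv 1103 (cons (fin 1036 3 1036)
(mv 1360 (cons (fin 1296 7 1103)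
(mv 976 (cons (fin 912 5 911)
(mv 977 (cons (fin 975 1 973)
(fin 913 6 912)))))))))))))))))))))))))))))
(mv 1165 (cons (fin 1229 6 973)
(mv 910 (cons (fin 846 5 845)
(fin 973 6 909))))))))
(mv 1039 (cons (cons (mv 1104 (cons (fin 1105 0 1037)
(mv 1103 (cons (fin 1036 0 1036)
(mv 972 (cons (fin 973 3 972)
(mv 976 (cons (fin 977 2 973)
(mv 1167 (cons (fin 912 5 911)
(fin 1231 6 975)))))))))))
(mv 972 (cons (fin 973 3 972)
(mv 1036 (cons (fin 971 3 971)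
(mv 976 (cons (fin 975 2 972)
(fin 977 2 973))))))))
(cons (mv 1104 (cons (fin 1105 0 1037)
(mv 1036 (cons (fin 1103 0 1036)
(mv 972 (cons (fin 971 3 971)
(fin 973 3 972)))))))
(cons (mv 1104 (cons (fin 1105 0 1037)
(mv 1103 (cons (fin 1036 0 1036)
(mv 976 (cons (fin 977 2 973)
(mv 1167 (cons (fin 912 5 911)
(fin 1231 6 975)))))))))
(mv 1104 (cons (fin 1105 0 1037)
(mv 972 (cons (fin 973 3 972)
(mv 976 (cons (fin 977 2 973)
(mv 1103 (cons (mv 1167 (cons (fin 912 5 911)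
(fin 1231 6 975)))
(cons (mv 912 (cons (fin 848 5 847)
(mv 913 (cons (fin 849 6 848)
(mv 1168 (cons (mv 1232 (cons (fin 1296 7 1039)
(fin 975 7 975)))
(mv 1169 (cons (fin 1102 0 1101)
(fin 1233 4 976)))))))))
(mv 1231 (cons (fin 1167 6 975)
(mv 1168 (cons (mv 1232 (cons (fin 1295 5 1039)
(fin 1296 7 1039)))
(mv 1169 (cons (fin 1102 0 1101)
(fin 1233 4 976))))))))))))))))))))))
(cons (cons (mv 1039 (cons (fin 1100 1 1036)
(mv 1104 (cons (fin 1105 0 1037)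
(mv 1103 (cons (fin 1036 0 1036)
(mv 976 (cons (fin 977 2 973)
(mv 1167 (cons (fin 912 5 911)
(fin 1231 6 975)))))))))))
(mv 1039 (cons (fin 1100 1 1036)
(mv 972 (cons (fin 973 3 972)
(mv 1036 (cons (fin 971 3 971)
(mv 976 (cons (fin 975 2 972)
(fin 977 2 973))))))))))
(cons (mv 1039 (cons (fin 1100 1 1036)
(mv 1104 (cons (fin 1105 0 1037)
(mv 1036 (cons (fin 1103 0 1036)
(mv 972 (cons (fin 971 3 971)
(fin 973 3 972)))))))))
(mv 1039 (cons (fin 1100 1 1036)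
(mv 1104 (cons (fin 1105 0 1037)
(mv 972 (cons (fin 973 3 972)
(mv 976 (cons (fin 977 2 973)
(mv 1103 (cons (mv 1167 (cons (fin 912 5 911)
(fin 1231 6 975)))
(cons (mv 912 (cons (fin 848 5 847)
(mv 913 (cons (fin 849 6 848)
(mv 1168 (cons (mv 1232 (cons (fin 1296 7 1039)
(fin 975 7 975)))
(mv 1169 (cons (fin 1102 0 1101)
(fin 1233 4 976)))))))))
(mv 1231 (cons (fin 1167 6 975)
(mv 1168 (cons (mv 1232 (cons (fin 1295 5 1039)
(fin 1296 7 1039)))
(mv 1169 (cons (fin 1102 0 1101)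
(fin 1233 4 976))))))))))))))))))))))
(mv 1038 (cons (cons (mv 1039 (cons (fin 1100 1 1036)
(mv 1104 (cons (fin 1105 0 1037)
(mv 1103 (cons (fin 1036 0 1036)
(mv 972 (cons (fin 973 3 972)
(mv 976 (cons (fin 977 2 973)
(mv 1167 (cons (fin 912 5 911)
(fin 1231 6 975)))))))))))))
(cons (mv 1165 (cons (cons (mv 1229 (cons (fin 974 6 973)
(mv 1292 (cons (fin 1228 5 1036)
(mv 1293 (cons (fin 1356 5 1100)
(fin 1102 6 1037)))))))
(mv 973 (cons (cons (cons (mv 1228 (cons (fin 1164 5 972)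
(mv 1230 (cons (fin 1166 4 973)
(mv 908 (cons (fin 972 7 908)
(mv 909 (cons (fin 844 7 844)
(mv 845 (cons (fin 1102 4 845)
(mv 1100 (cons (fin 1036 5 844)
(mv 1098 (cons (fin 1099 2 1034)
(mv 781 (cons (fin 974 4 781)
(mv 782 (cons (fin 846 6 781)
(fin 718 6 717)))))))))))))))))))
(mv 1228 (cons (fin 1164 5 972)
(mv 908 (cons (fin 972 7 908)
(mv 909 (cons (fin 844 7 844)
(mv 845 (cons (fin 1102 4 845)
(mv 1100 (cons (fin 1036 5 844)
(mv 1098 (cons (fin 1099 2 1034)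
(mv 781 (cons (fin 974 4 781)
(mv 782 (cons (fin 846 6 781)
(fin 718 6 717))))))))))))))))))
(cons (mv 1230 (cons (fin 1166 4 973)
(mv 908 (cons (fin 972 7 908)
(mv 909 (cons (fin 844 7 844)
(mv 845 (cons (fin 1102 4 845)
(mv 1100 (cons (fin 1036 5 844)
(mv 1098 (cons (fin 1099 2 1034)
(mv 781 (cons (fin 974 4 781)
(mv 782 (cons (fin 846 6 781)
(fin 718 6 717)))))))))))))))))
(mv 1228 (cons (fin 1164 5 972)
(mv 1166 (cons (fin 1230 4 973)
(mv 909 (cons (fin 1102 4 909)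
(mv 844 (cons (fin 908 7 844)
(mv 845 (cons (fin 780 7 780)
(mv 1100 (cons (fin 1036 5 844)
(mv 1167 (cons (fin 1168 3 1100)
(mv 1098 (cons (fin 1099 0 1098)
(mv 781 (cons (fin 974 4 781)
(mv 782 (cons (fin 846 6 781)
(fin 718 6 717)))))))))))))))))))))))
(cons (cons (mv 1230 (cons (fin 1166 4 973)
(mv 1164 (cons (fin 1228 5 972)
(mv 909 (cons (fin 1100 5 908)
(mv 845 (cons (fin 1102 4 845)
(mv 844 (cons (fin 780 7 780)
(mv 781 (cons (fin 974 4 781)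
(mv 782 (cons (fin 846 6 781)
(fin 718 6 717)))))))))))))))
(mv 1164 (cons (fin 1228 5 972)
(mv 1166 (cons (fin 1230 4 973)
(mv 972 (cons (fin 908 7 908)
(mv 970 (cons (fin 971 0 970)
(mv 1163 (cons (cons (mv 1102 (cons (fin 1162 2 1098)
(fin 1103 2 1099)))
(mv 1226 (cons (fin 1227 1 1162)
(mv 1225 (cons (fin 1162 1 1161)
(mv 1099 (cons (fin 1098 3 1098)
(mv 1167 (cons (fin 1100 3 1099)
(mv 1231 (cons (fin 1232 0 1164)
(mv 1104 (cons (fin 1103 2 1100)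
(mv 1168 (cons (fin 1105 2 1101)
(fin 976 5 975))))))))))))))))
(cons (mv 1226 (cons (fin 1227 1 1162)
(mv 1098 (cons (fin 1099 3 1098)
(mv 1103 (cons (fin 1102 2 1099)
(mv 1167 (cons (fin 1104 2 1100)
(mv 1232 (cons (fin 1231 0 1164)
(mv 1168 (cons (fin 1100 3 1100)
(fin 1233 0 1165)))))))))))))
(mv 1226 (cons (fin 1227 1 1162)
(mv 1162 (cons (fin 1225 1 1161)
(fin 1102 2 1098)))))))))))))))))
(cons (mv 1230 (cons (fin 1166 4 973)
(mv 1164 (cons (fin 1228 5 972)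
(mv 1100 (cons (fin 909 5 908)
(mv 1098 (cons (fin 1099 2 1034)
(mv 972 (cons (fin 908 7 908)
(mv 971 (cons (fin 970 0 970)
(mv 1036 (cons (fin 907 7 907)
(mv 1163 (cons (fin 1227 5 971)
(mv 1162 (cons (fin 1097 3 1097)
(fin 1161 2 1097)))))))))))))))))))
(mv 1228 (cons (fin 1164 5 972)
(mv 1230 (cons (fin 1166 4 973)
(mv 908 (cons (fin 972 7 908)
(mv 909 (cons (fin 844 7 844)
(mv 845 (cons (fin 1102 4 845)
(mv 781 (cons (fin 974 4 781)
(mv 782 (cons (fin 846 6 781)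
(fin 718 6 717))))))))))))))))))))
(cons (mv 1229 (cons (mv 1292 (cons (fin 1228 5 1036)
(mv 1293 (cons (fin 1356 5 1100)
(fin 1102 6 1037)))))
(cons (mv 1292 (cons (fin 1228 5 1036)
(mv 1230 (cons (fin 1294 4 1037)
(mv 972 (cons (fin 1036 7 972)
(mv 973 (cons (fin 908 7 908)
(fin 1166 4 973)))))))))
(mv 1293 (cons (fin 1102 6 1037)
(mv 1294 (cons (fin 1358 4 1101)
(fin 1230 4 1037))))))))
(cons (mv 1229 (cons (fin 974 6 973)
(mv 1293 (cons (fin 1102 6 1037)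
(mv 1294 (cons (fin 1358 4 1101)
(fin 1230 4 1037)))))))
(mv 1229 (cons (fin 974 6 973)
(mv 1292 (cons (fin 1228 5 1036)
(mv 1356 (cons (fin 1293 5 1100)
(mv 1230 (cons (fin 1294 4 1037)
(mv 972 (cons (fin 1036 7 972)
(mv 973 (cons (fin 908 7 908)
(fin 1166 4 973)))))))))))))))))
(mv 1039 (cons (cons (mv 1104 (cons (fin 1105 0 1037)
(mv 1103 (cons (fin 1036 0 1036)
(mv 972 (cons (fin 973 3 972)
(mv 976 (cons (fin 977 2 973)
(mv 1167 (cons (fin 912 5 911)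
(fin 1231 6 975)))))))))))
(mv 1104 (cons (fin 1105 0 1037)
(mv 1103 (cons (fin 1036 0 1036)
(mv 976 (cons (fin 977 2 973)
(mv 1167 (cons (fin 912 5 911)
(fin 1231 6 975))))))))))
(cons (mv 972 (cons (fin 973 3 972)
(mv 1036 (cons (fin 971 3 971)
(mv 976 (cons (fin 975 2 972)
(fin 977 2 973)))))))
(cons (mv 1104 (cons (fin 1105 0 1037)
(mv 1036 (cons (fin 1103 0 1036)
(mv 972 (cons (fin 971 3 971)
(fin 973 3 972)))))))
(mv 1104 (cons (fin 1105 0 1037)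
(mv 972 (cons (fin 973 3 972)
(mv 976 (cons (fin 977 2 973)
(mv 1103 (cons (mv 1167 (cons (fin 912 5 911)
(fin 1231 6 975)))
(cons (mv 912 (cons (fin 848 5 847)
(mv 913 (cons (fin 849 6 848)
(mv 1168 (cons (mv 1232 (cons (fin 1296 7 1039)
(fin 975 7 975)))
(mv 1169 (cons (fin 1102 0 1101)
(fin 1233 4 976)))))))))
(mv 1231 (cons (fin 1167 6 975)
(mv 1168 (cons (mv 1232 (cons (fin 1295 5 1039)
(fin 1296 7 1039)))
(mv 1169 (cons (fin 1102 0 1101)
(fin 1233 4 976))))))))))))))))))))))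
(cons (cons (mv 1039 (cons (fin 1100 1 1036)
(mv 1104 (cons (fin 1105 0 1037)
(mv 1103 (cons (fin 1036 0 1036)
(mv 976 (cons (fin 977 2 973)
(mv 1167 (cons (fin 912 5 911)
(fin 1231 6 975)))))))))))
(mv 1039 (cons (fin 1100 1 1036)
(mv 972 (cons (fin 973 3 972)
(mv 1036 (cons (fin 971 3 971)
(mv 976 (cons (fin 975 2 972)
(fin 977 2 973))))))))))
(cons (mv 1039 (cons (fin 1100 1 1036)
(mv 1104 (cons (fin 1105 0 1037)
(mv 1036 (cons (fin 1103 0 1036)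
(mv 972 (cons (fin 971 3 971)
(fin 973 3 972)))))))))
(mv 1039 (cons (fin 1100 1 1036)
(mv 1104 (cons (fin 1105 0 1037)
(mv 972 (cons (fin 973 3 972)
(mv 976 (cons (fin 977 2 973)
(mv 1103 (cons (mv 1167 (cons (fin 912 5 911)
(fin 1231 6 975)))
(cons (mv 912 (cons (fin 848 5 847)
(mv 913 (cons (fin 849 6 848)
(mv 1168 (cons (mv 1232 (cons (fin 1296 7 1039)
(fin 975 7 975)))
(mv 1169 (cons (fin 1102 0 1101)
(fin 1233 4 976)))))))))
(mv 1231 (cons (fin 1167 6 975)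
(mv 1168 (cons (mv 1232 (cons (fin 1295 5 1039)
(fin 1296 7 1039)))
(mv 1169 (cons (fin 1102 0 1101)
(fin 1233 4 976)))))))))))))))))))))))
(cons (mv 1038 (cons (cons (mv 1039 (cons (fin 1100 1 1036)
(mv 972 (cons (fin 973 3 972)
(mv 1036 (cons (fin 971 3 971)
(mv 976 (cons (fin 975 2 972)
(fin 977 2 973)))))))))
(cons (mv 1165 (cons (cons (mv 1229 (cons (fin 974 6 973)
(mv 1292 (cons (fin 1228 5 1036)
(mv 1293 (cons (fin 1356 5 1100)
(fin 1102 6 1037)))))))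
(mv 973 (cons (cons (cons (mv 1228 (cons (fin 1164 5 972)
(mv 1230 (cons (fin 1166 4 973)
(mv 972 (cons (fin 908 7 908)
(mv 970 (cons (fin 971 0 970)
(mv 910 (cons (fin 974 6 909)
(mv 909 (cons (fin 846 6 845)
(mv 845 (cons (fin 1102 4 845)
(mv 1036 (cons (fin 1100 5 844)
(fin 781 5 780)))))))))))))))))
(mv 1228 (cons (fin 1164 5 972)
(mv 1230 (cons (fin 1166 4 973)
(mv 908 (cons (fin 972 7 908)
(mv 909 (cons (fin 844 7 844)
(mv 845 (cons (fin 1102 4 845)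
(mv 1100 (cons (fin 1036 5 844)
(mv 1098 (cons (fin 1099 2 1034)
(mv 781 (cons (fin 974 4 781)
(mv 782 (cons (fin 846 6 781)
(fin 718 6 717))))))))))))))))))))
(cons (mv 1228 (cons (fin 1164 5 972)
(mv 1230 (cons (fin 1166 4 973)
(mv 908 (cons (fin 972 7 908)
(mv 909 (cons (fin 844 7 844)
(mv 845 (cons (fin 1102 4 845)
(mv 846 (cons (fin 910 6 845)
(fin 782 6 781)))))))))))))
(mv 1228 (cons (fin 1164 5 972)
(mv 972 (cons (fin 908 7 908)
(mv 970 (cons (fin 971 0 970)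
(mv 910 (cons (fin 974 6 909)
(mv 909 (cons (fin 846 6 845)
(mv 845 (cons (fin 1102 4 845)
(mv 1036 (cons (fin 1100 5 844)
(fin 781 5 780)))))))))))))))))
(cons (cons (mv 1230 (cons (fin 1166 4 973)
(mv 972 (cons (fin 908 7 908)
(mv 970 (cons (fin 971 0 970)
(mv 910 (cons (fin 974 6 909)
(mv 909 (cons (fin 846 6 845)
(mv 845 (cons (fin 1102 4 845)
(mv 1036 (cons (fin 1100 5 844)
(fin 781 5 780)))))))))))))))
(mv 1228 (cons (fin 1164 5 972)
(mv 1230 (cons (fin 1166 4 973)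
(mv 910 (cons (fin 974 6 909)
(mv 909 (cons (fin 846 6 845)
(mv 844 (cons (fin 908 7 844)
(mv 845 (cons (fin 780 7 780)
(fin 1102 4 845))))))))))))))
(cons (mv 1228 (cons (fin 1164 5 972)
(mv 1230 (cons (fin 1166 4 973)
(mv 910 (cons (fin 974 6 909)
(mv 909 (cons (fin 846 6 845)
(mv 845 (cons (fin 1102 4 845)
(mv 1036 (cons (fin 1100 5 844)
(mv 780 (cons (fin 844 7 780)
(mv 781 (cons (fin 972 5 780)
(fin 716 7 716)))))))))))))))))
(cons (mv 1228 (cons (fin 1164 5 972)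
(mv 1230 (cons (fin 1166 4 973)
(mv 972 (cons (fin 908 7 908)
(mv 971 (cons (fin 970 0 970)
(mv 974 (cons (fin 910 6 909)
(mv 1035 (cons (fin 1034 1 970)
(mv 1036 (cons (fin 975 1 971)
(mv 1098 (cons (fin 1099 1 1034)
(mv 1102 (cons (fin 1103 0 1035)
(mv 907 (cons (fin 906 3 906)
(mv 843 (cons (fin 1100 4 843)
(fin 779 4 779)))))))))))))))))))))))
(mv 1228 (cons (fin 1164 5 972)
(mv 1230 (cons (fin 1166 4 973)
(mv 972 (cons (fin 908 7 908)
(mv 971 (cons (fin 970 0 970)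
(mv 974 (cons (fin 910 6 909)
(mv 1035 (cons (fin 1034 1 970)
(mv 1036 (cons (fin 975 1 971)
(mv 1098 (cons (fin 1099 1 1034)
(mv 907 (cons (fin 906 3 906)
(mv 843 (cons (fin 1100 4 843)
(fin 779 4 779)))))))))))))))))))))))))))
(cons (mv 1229 (cons (mv 1292 (cons (fin 1228 5 1036)
(mv 1293 (cons (fin 1356 5 1100)
(fin 1102 6 1037)))))
(cons (mv 1292 (cons (fin 1228 5 1036)
(mv 1230 (cons (fin 1294 4 1037)
(mv 972 (cons (fin 1036 7 972)
(mv 973 (cons (fin 908 7 908)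
(fin 1166 4 973)))))))))
(mv 1293 (cons (fin 1102 6 1037)
(mv 1294 (cons (fin 1358 4 1101)
(fin 1230 4 1037))))))))
(cons (mv 1229 (cons (fin 974 6 973)
(mv 1292 (cons (fin 1228 5 1036)
(mv 1356 (cons (fin 1293 5 1100)
(mv 1230 (cons (fin 1294 4 1037)
(mv 972 (cons (fin 1036 7 972)
(mv 973 (cons (fin 908 7 908)
(fin 1166 4 973)))))))))))))
(mv 1229 (cons (fin 974 6 973)
(mv 1293 (cons (fin 1102 6 1037)
(mv 1294 (cons (fin 1358 4 1101)
(fin 1230 4 1037)))))))))))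
(mv 974 (cons (cons (mv 1165 (cons (fin 1229 6 973)
(mv 910 (cons (fin 1102 5 909)
(fin 846 5 845)))))
(mv 910 (cons (fin 846 5 845)
(mv 1102 (cons (mv 1167 (cons (fin 1103 4 910)
(mv 1166 (cons (fin 1231 4 974)
(mv 1230 (cons (fin 1294 7 1037)
(fin 973 7 973)))))))
(cons (mv 909 (cons (fin 845 7 845)
(mv 973 (cons (fin 1166 7 909)
(mv 1039 (cons (fin 972 3 972)
(mv 976 (cons (fin 977 2 973)
(mv 975 (cons (fin 1036 1 972)
(fin 908 3 908)))))))))))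
(mv 1103 (cons (fin 1167 4 910)
(mv 1036 (cons (fin 1035 0 1035)
(mv 909 (cons (fin 845 7 845)
(mv 908 (cons (cons (mv 972 (cons (fin 844 4 844)
(mv 1039 (cons (fin 971 3 971)
(mv 975 (cons (fin 907 0 907)
(fin 976 2 972)))))))
(mv 972 (cons (fin 844 4 844)
(mv 971 (cons (fin 1039 3 971)
(mv 970 (cons (fin 907 1 906)
(fin 969 0 969))))))))
(cons (mv 972 (cons (fin 844 4 844)
(mv 1039 (cons (fin 971 3 971)
(mv 976 (cons (fin 975 2 972)
(fin 977 2 973)))))))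
(cons (mv 975 (cons (fin 907 0 907)
(mv 976 (cons (fin 977 1 973)
(fin 1039 2 972)))))
(mv 972 (cons (fin 844 4 844)
(mv 907 (cons (fin 975 0 907)
(mv 970 (cons (fin 971 1 906)
(mv 906 (cons (fin 969 1 905)
(mv 842 (cons (fin 841 3 841)
(fin 843 3 842)))))))))))))))))))))))))))
(cons (mv 1229 (cons (fin 1165 6 973)
(mv 1036 (cons (mv 1035 (cons (fin 975 2 971)
(mv 1102 (cons (fin 1034 0 1034)
(fin 1103 0 1035)))))
(cons (mv 1039 (cons (mv 972 (cons (fin 971 3 971)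
(fin 973 3 972)))
(mv 976 (cons (fin 975 2 972)
(fin 977 2 973)))))
(mv 1035 (cons (mv 1102 (cons (fin 1034 0 1034)
(fin 1103 0 1035)))
(cons (mv 1099 (cons (fin 1098 1 1034)
(mv 1102 (cons (fin 1103 0 1035)
(mv 971 (cons (fin 970 3 970)
(mv 972 (cons (fin 1039 3 971)
(mv 1163 (cons (fin 1227 6 971)
(fin 908 6 907)))))))))))
(mv 1098 (cons (fin 1099 1 1034)
(mv 1034 (cons (fin 1097 1 1033)
(fin 973 2 970)))))))))))))
(mv 1165 (cons (fin 1229 6 973)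
(mv 910 (cons (fin 846 5 845)
(fin 973 6 909))))))))))
(cons (mv 1039 (cons (fin 1100 1 1036)
(mv 976 (cons (fin 977 2 973)
(mv 1036 (cons (fin 975 2 972)
(mv 971 (cons (fin 972 3 971)
(mv 1035 (cons (fin 970 3 970)
(mv 1102 (cons (fin 1034 0 1034)
(fin 1103 0 1035)))))))))))))
(cons (mv 1100 (cons (fin 1039 1 1036)
(mv 1098 (cons (fin 1099 2 1034)
(mv 1164 (cons (cons (mv 1228 (cons (fin 1292 6 1036)
(mv 973 (cons (fin 1165 5 972)
(fin 909 5 908)))))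
(mv 1228 (cons (fin 1292 6 1036)
(mv 1036 (cons (cons (mv 1291 (cons (fin 1227 5 1035)
(mv 1293 (cons (fin 1229 4 1036)
(mv 1035 (cons (fin 971 7 971)
(mv 1102 (cons (fin 1103 3 1035)
(fin 1034 0 1034)))))))))
(mv 1291 (cons (fin 1227 5 1035)
(mv 1229 (cons (fin 1293 4 1036)
(mv 1165 (cons (fin 974 6 973)
(mv 1230 (cons (fin 1294 4 1037)
(mv 1231 (cons (fin 1163 3 1163)
(fin 1232 3 1164))))))))))))
(cons (mv 1291 (cons (fin 1227 5 1035)
(mv 1035 (cons (fin 971 7 971)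
(mv 1102 (cons (fin 1103 3 1035)
(fin 1034 0 1034)))))))
(mv 1293 (cons (fin 1229 4 1036)
(mv 1035 (cons (fin 971 7 971)
(mv 1102 (cons (fin 1103 3 1035)
(fin 1034 0 1034)))))))))))))
(cons (mv 973 (cons (fin 909 5 908)
(mv 1165 (cons (mv 974 (cons (fin 1229 6 973)
(fin 910 6 909)))
(cons (mv 1230 (cons (fin 1166 4 973)
(mv 1229 (cons (fin 1294 4 1037)
(mv 1293 (cons (fin 1357 7 1100)
(fin 1036 7 1036)))))))
(mv 1166 (cons (fin 1230 4 973)
(mv 1167 (cons (fin 1168 3 1100)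
(mv 1231 (cons (fin 1232 0 1164)
(mv 974 (cons (fin 1102 4 974)
(fin 910 6 909))))))))))))))
(mv 1228 (cons (fin 1292 6 1036)
(mv 973 (cons (fin 909 5 908)
(fin 1036 6 972))))))))))))
(mv 1039 (cons (fin 1100 1 1036)
(mv 973 (cons (fin 972 3 972)
(mv 976 (cons (fin 977 2 973)
(mv 909 (cons (mv 1102 (cons (fin 1166 4 909)
(fin 845 4 845)))
(mv 908 (cons (fin 844 7 844)
(mv 974 (cons (fin 975 3 908)
(mv 1165 (cons (fin 1229 6 973)
(fin 910 6 909)))))))))))))))))))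
(cons (mv 1038 (cons (cons (mv 1039 (cons (fin 1100 1 1036)
(mv 1104 (cons (fin 1105 0 1037)
(mv 972 (cons (fin 973 3 972)
(mv 1036 (cons (fin 971 3 971)
(mv 976 (cons (fin 975 2 972)
(fin 977 2 973)))))))))))
(cons (mv 974 (cons (cons (mv 1165 (cons (fin 1229 6 973)
(mv 910 (cons (fin 1102 5 909)
(fin 846 5 845)))))
(mv 910 (cons (fin 846 5 845)
(mv 909 (cons (cons (mv 1102 (cons (fin 845 7 845)
(mv 1166 (cons (fin 973 7 909)
(mv 1230 (cons (fin 1294 7 1037)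
(mv 1231 (cons (fin 1295 4 1038)
(fin 1167 4 974)))))))))
(mv 975 (cons (cons (mv 1035 (cons (fin 1036 2 971)
(mv 976 (cons (fin 977 1 973)
(mv 908 (cons (fin 973 3 908)
(fin 907 0 907)))))))
(mv 1036 (cons (fin 1035 2 971)
(mv 908 (cons (fin 907 0 907)
(mv 844 (cons (fin 973 7 844)
(fin 972 4 844))))))))
(cons (mv 1036 (cons (fin 1035 2 971)
(mv 976 (cons (fin 973 1 972)
(fin 977 1 973)))))
(cons (mv 976 (cons (fin 977 1 973)
(mv 908 (cons (fin 973 3 908)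
(fin 907 0 907)))))
(mv 1036 (cons (fin 1035 2 971)
(mv 976 (cons (fin 977 1 973)
(mv 908 (cons (fin 907 0 907)
(mv 972 (cons (fin 844 4 844)
(mv 1100 (cons (fin 845 6 844)
(mv 1099 (cons (fin 1098 2 1034)
(fin 1163 5 907))))))))))))))))))
(cons (mv 973 (cons (cons (mv 1164 (cons (fin 1100 5 908)
(mv 1166 (cons (fin 1102 7 909)
(mv 908 (cons (fin 844 7 844)
(mv 975 (cons (fin 976 3 908)
(fin 907 0 907)))))))))
(cons (mv 1164 (cons (fin 1100 5 908)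
(mv 908 (cons (fin 844 7 844)
(mv 975 (cons (fin 976 3 908)
(fin 907 0 907)))))))
(mv 1100 (cons (fin 1164 5 908)
(mv 1099 (cons (fin 1098 2 1034)
(mv 1102 (cons (fin 1166 7 909)
(mv 1162 (cons (fin 1163 1 1098)
(mv 1035 (cons (fin 1034 3 1034)
(mv 1036 (cons (fin 975 2 971)
(mv 971 (cons (fin 970 3 970)
(mv 907 (cons (fin 843 4 843)
(mv 906 (cons (fin 972 3 906)
(fin 842 7 842)))))))))))))))))))))
(cons (mv 1166 (cons (fin 1102 7 909)
(mv 908 (cons (fin 844 7 844)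
(mv 975 (cons (fin 976 3 908)
(fin 907 0 907)))))))
(cons (mv 1166 (cons (fin 1102 7 909)
(mv 1100 (cons (fin 1164 5 908)
(mv 1098 (cons (fin 1099 2 1034)
(mv 908 (cons (fin 844 7 844)
(mv 907 (cons (fin 906 0 906)
(mv 971 (cons (fin 970 1 906)
(mv 843 (cons (fin 842 3 842)
(mv 1035 (cons (fin 1034 5 842)
(fin 1036 4 843)))))))))))))))))
(mv 1100 (cons (fin 1164 5 908)
(mv 1099 (cons (fin 1098 2 1034)
(mv 1102 (cons (fin 1166 7 909)
(mv 1162 (cons (fin 1163 1 1098)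
(mv 1035 (cons (fin 1034 3 1034)
(mv 975 (cons (fin 1036 2 971)
(mv 976 (cons (fin 977 1 973)
(fin 908 3 908)))))))))))))))))))
(mv 1036 (cons (cons (mv 1102 (cons (fin 845 7 845)
(mv 1035 (cons (fin 1034 0 1034)
(fin 975 2 971)))))
(mv 845 (cons (fin 1102 7 845)
(mv 781 (cons (fin 717 4 717)
(mv 908 (cons (mv 972 (cons (fin 844 4 844)
(fin 1100 6 844)))
(mv 907 (cons (fin 975 0 907)
(mv 970 (cons (fin 971 1 906)
(mv 906 (cons (fin 969 1 905)
(mv 842 (cons (fin 841 3 841)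
(fin 843 3 842))))))))))))))))
(cons (mv 1102 (cons (fin 845 7 845)
(mv 1035 (cons (fin 1034 0 1034)
(mv 1099 (cons (fin 1098 1 1034)
(mv 971 (cons (fin 970 3 970)
(mv 1100 (cons (mv 1164 (cons (fin 1228 7 971)
(fin 907 4 907)))
(mv 1163 (cons (fin 1162 1 1098)
(mv 1227 (cons (fin 1291 6 1035)
(fin 972 6 971)))))))))))))))
(mv 1035 (cons (fin 975 2 971)
(mv 1098 (cons (fin 1099 1 1034)
(mv 1034 (cons (fin 1097 1 1033)
(mv 970 (cons (fin 969 3 969)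
(fin 971 3 970))))))))))))))))))
(cons (mv 1165 (cons (fin 1229 6 973)
(mv 973 (cons (cons (mv 1228 (cons (fin 1164 5 972)
(mv 1230 (cons (fin 1166 4 973)
(mv 972 (cons (fin 908 7 908)
(mv 971 (cons (fin 970 0 970)
(mv 1035 (cons (fin 1034 1 970)
(mv 1036 (cons (fin 975 1 971)
(mv 1098 (cons (fin 1099 1 1034)
(mv 907 (cons (fin 906 3 906)
(mv 843 (cons (fin 1100 4 843)
(fin 779 4 779)))))))))))))))))))
(mv 1228 (cons (fin 1164 5 972)
(mv 972 (cons (fin 908 7 908)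
(mv 971 (cons (fin 970 0 970)
(mv 1035 (cons (fin 1034 1 970)
(mv 1036 (cons (fin 975 1 971)
(mv 1098 (cons (fin 1099 1 1034)
(mv 907 (cons (fin 906 3 906)
(mv 843 (cons (fin 1100 4 843)
(fin 779 4 779))))))))))))))))))
(cons (mv 1228 (cons (fin 1164 5 972)
(mv 1166 (cons (fin 1230 4 973)
(mv 1102 (cons (fin 909 7 909)
(mv 1167 (cons (fin 1231 4 974)
(mv 1168 (cons (fin 1100 3 1100)
(fin 1169 3 1101)))))))))))
(cons (mv 1230 (cons (fin 1166 4 973)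
(mv 972 (cons (fin 908 7 908)
(mv 971 (cons (fin 970 0 970)
(mv 1035 (cons (fin 1034 1 970)
(mv 1036 (cons (fin 975 1 971)
(mv 1098 (cons (fin 1099 1 1034)
(mv 907 (cons (fin 906 3 906)
(mv 843 (cons (fin 1100 4 843)
(fin 779 4 779)))))))))))))))))
(mv 1228 (cons (fin 1164 5 972)
(mv 1230 (cons (fin 1166 4 973)
(mv 908 (cons (fin 972 7 908)
(mv 909 (cons (fin 844 7 844)
(mv 845 (cons (fin 1102 4 845)
(fin 781 4 781)))))))))))))))))
(mv 1165 (cons (fin 1229 6 973)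
(mv 910 (cons (fin 846 5 845)
(fin 973 6 909))))))))
(mv 1039 (cons (cons (mv 1104 (cons (fin 1105 0 1037)
(mv 972 (cons (fin 973 3 972)
(mv 1036 (cons (fin 971 3 971)
(mv 976 (cons (fin 975 2 972)
(fin 977 2 973)))))))))
(mv 1104 (cons (fin 1105 0 1037)
(mv 976 (cons (fin 977 2 973)
(mv 975 (cons (fin 1036 2 972)
(mv 1168 (cons (fin 1232 7 975)
(mv 1167 (cons (fin 1231 5 975)
(mv 1169 (cons (fin 1233 4 976)
(mv 1166 (cons (fin 1102 3 1101)
(mv 1229 (cons (fin 1230 1 1165)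
(mv 1165 (cons (fin 1228 1 1164)
(fin 974 6 973))))))))))))))))))))
(cons (mv 1104 (cons (fin 1105 0 1037)
(mv 973 (cons (fin 972 3 972)
(mv 1165 (cons (cons (mv 974 (cons (fin 1229 6 973)
(fin 910 6 909)))
(mv 1228 (cons (fin 1164 5 972)
(mv 1292 (cons (fin 1229 5 1036)
(mv 1166 (cons (fin 1230 4 973)
(mv 909 (cons (fin 1102 4 909)
(mv 844 (cons (fin 908 7 844)
(mv 845 (cons (fin 780 7 780)
(mv 846 (cons (fin 910 6 845)
(fin 782 6 781))))))))))))))))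
(cons (mv 1228 (cons (fin 1164 5 972)
(mv 1230 (cons (fin 1166 4 973)
(mv 910 (cons (fin 974 6 909)
(mv 909 (cons (fin 846 6 845)
(mv 844 (cons (fin 908 7 844)
(mv 845 (cons (fin 780 7 780)
(fin 1102 4 845)))))))))))))
(mv 1228 (cons (fin 1164 5 972)
(mv 1229 (cons (fin 1292 5 1036)
(fin 974 6 973))))))))))))
(mv 972 (cons (fin 973 3 972)
(mv 1036 (cons (fin 971 3 971)
(mv 976 (cons (fin 975 2 972)
(fin 977 2 973))))))))))))
(cons (mv 1039 (cons (fin 1100 1 1036)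
(mv 1104 (cons (fin 1105 0 1037)
(mv 976 (cons (fin 977 2 973)
(mv 1036 (cons (fin 975 2 972)
(mv 971 (cons (fin 972 3 971)
(mv 1035 (cons (fin 970 3 970)
(mv 1098 (cons (fin 1099 1 1034)
(mv 1034 (cons (fin 1097 1 1033)
(fin 1102 0 1034)))))))))))))))))
(cons (mv 1039 (cons (fin 1100 1 1036)
(mv 1104 (cons (fin 1105 0 1037)
(mv 976 (cons (fin 977 2 973)
(mv 975 (cons (fin 1036 2 972)
(mv 1168 (cons (fin 1232 7 975)
(mv 1167 (cons (fin 1231 5 975)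
(mv 1169 (cons (fin 1233 4 976)
(mv 1166 (cons (fin 1102 3 1101)
(mv 1229 (cons (fin 1230 1 1165)
(mv 1165 (cons (fin 1228 1 1164)
(fin 974 6 973)))))))))))))))))))))
(mv 1039 (cons (fin 1100 1 1036)
(mv 1104 (cons (fin 1105 0 1037)
(mv 973 (cons (fin 972 3 972)
(mv 1165 (cons (cons (mv 974 (cons (fin 1229 6 973)
(fin 910 6 909)))
(mv 1228 (cons (fin 1164 5 972)
(mv 1292 (cons (fin 1229 5 1036)
(mv 1166 (cons (fin 1230 4 973)
(mv 909 (cons (fin 1102 4 909)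
(mv 844 (cons (fin 908 7 844)
(mv 845 (cons (fin 780 7 780)
(mv 846 (cons (fin 910 6 845)
(fin 782 6 781))))))))))))))))
(cons (mv 1228 (cons (fin 1164 5 972)
(mv 1230 (cons (fin 1166 4 973)
(mv 910 (cons (fin 974 6 909)
(mv 909 (cons (fin 846 6 845)
(mv 844 (cons (fin 908 7 844)
(mv 845 (cons (fin 780 7 780)
(fin 1102 4 845)))))))))))))
(mv 1228 (cons (fin 1164 5 972)
(mv 1229 (cons (fin 1292 5 1036)
(fin 974 6 973))))))))))))))))))
(mv 1038 (cons (cons (cons (mv 1039 (cons (fin 1100 1 1036)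
(mv 1104 (cons (fin 1105 0 1037)
(mv 1103 (cons (fin 1036 0 1036)
(mv 972 (cons (fin 973 3 972)
(mv 976 (cons (fin 977 2 973)
(mv 1167 (cons (fin 912 5 911)
(fin 1231 6 975)))))))))))))
(mv 974 (cons (cons (mv 1165 (cons (fin 1229 6 973)
(mv 910 (cons (fin 1102 5 909)
(fin 846 5 845)))))
(mv 910 (cons (fin 846 5 845)
(mv 1102 (cons (cons (mv 1167 (cons (fin 1103 4 910)
(mv 1166 (cons (fin 1231 4 974)
(mv 1230 (cons (fin 1294 7 1037)
(fin 973 7 973)))))))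
(mv 909 (cons (fin 845 7 845)
(mv 1166 (cons (fin 973 7 909)
(mv 1230 (cons (fin 1294 7 1037)
(mv 1231 (cons (fin 1295 4 1038)
(fin 1167 4 974))))))))))
(cons (mv 909 (cons (fin 845 7 845)
(mv 973 (cons (fin 1166 7 909)
(mv 1164 (cons (fin 1100 5 908)
(mv 908 (cons (fin 844 7 844)
(mv 975 (cons (fin 976 3 908)
(fin 907 0 907)))))))))))
(mv 1103 (cons (fin 1167 4 910)
(mv 1104 (cons (fin 1036 3 1036)
(fin 1105 3 1037)))))))))))
(cons (mv 1165 (cons (fin 1229 6 973)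
(mv 973 (cons (cons (mv 1228 (cons (fin 1164 5 972)
(mv 1230 (cons (fin 1166 4 973)
(mv 908 (cons (fin 972 7 908)
(mv 909 (cons (fin 844 7 844)
(mv 845 (cons (fin 1102 4 845)
(fin 781 4 781)))))))))))
(cons (mv 1228 (cons (fin 1164 5 972)
(mv 908 (cons (fin 972 7 908)
(mv 909 (cons (fin 844 7 844)
(mv 845 (cons (fin 1102 4 845)
(fin 781 4 781)))))))))
(mv 1228 (cons (fin 1164 5 972)
(mv 1166 (cons (fin 1230 4 973)
(mv 1102 (cons (fin 909 7 909)
(mv 1167 (cons (fin 1231 4 974)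
(mv 1168 (cons (fin 1100 3 1100)
(fin 1169 3 1101)))))))))))))
(cons (mv 1230 (cons (fin 1166 4 973)
(mv 908 (cons (fin 972 7 908)
(mv 909 (cons (fin 844 7 844)
(mv 845 (cons (fin 1102 4 845)
(fin 781 4 781)))))))))
(cons (mv 1164 (cons (fin 1228 5 972)
(mv 1166 (cons (fin 1230 4 973)
(mv 972 (cons (fin 908 7 908)
(mv 1167 (cons (mv 1231 (cons (fin 1232 0 1164)
(fin 1102 4 974)))
(mv 1100 (cons (fin 1099 3 1099)
(fin 1168 3 1100)))))))))))
(mv 1228 (cons (fin 1164 5 972)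
(mv 1230 (cons (fin 1166 4 973)
(mv 908 (cons (fin 972 7 908)
(mv 909 (cons (fin 844 7 844)
(mv 975 (cons (fin 976 3 908)
(mv 1036 (cons (fin 1035 2 971)
(mv 845 (cons (fin 1100 5 844)
(fin 781 4 781)))))))))))))))))))))
(mv 1165 (cons (fin 1229 6 973)
(mv 910 (cons (fin 846 5 845)
(fin 973 6 909)))))))))
(cons (mv 1039 (cons (cons (mv 1104 (cons (fin 1105 0 1037)
(mv 1103 (cons (fin 1036 0 1036)
(mv 972 (cons (fin 973 3 972)
(mv 976 (cons (fin 977 2 973)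
(mv 1167 (cons (fin 912 5 911)
(fin 1231 6 975)))))))))))
(cons (mv 973 (cons (fin 972 3 972)
(mv 976 (cons (fin 977 2 973)
(mv 1036 (cons (fin 975 2 972)
(mv 1102 (cons (mv 1166 (cons (fin 1230 7 973)
(fin 909 4 909)))
(mv 1035 (cons (fin 1034 0 1034)
(fin 1103 0 1035)))))))))))
(mv 1104 (cons (fin 1105 0 1037)
(mv 1103 (cons (fin 1036 0 1036)
(mv 972 (cons (fin 973 3 972)
(mv 974 (cons (cons (mv 1229 (cons (fin 1165 6 973)
(mv 1167 (cons (fin 1231 7 974)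
(mv 910 (cons (fin 846 5 845)
(fin 975 7 910)))))))
(mv 1231 (cons (fin 1167 7 974)
(mv 1165 (cons (fin 1229 6 973)
(mv 1102 (cons (fin 1164 1 1100)
(mv 1168 (cons (fin 1169 0 1101)
(mv 1232 (cons (fin 1295 5 1039)
(fin 1296 7 1039))))))))))))
(cons (mv 1165 (cons (fin 1229 6 973)
(mv 1102 (cons (fin 1164 1 1100)
(fin 910 5 909)))))
(mv 1167 (cons (fin 1231 7 974)
(mv 910 (cons (fin 846 5 845)
(fin 975 7 910))))))))))))))))
(cons (mv 1104 (cons (fin 1105 0 1037)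
(mv 1103 (cons (fin 1036 0 1036)
(mv 976 (cons (fin 977 2 973)
(mv 1167 (cons (fin 912 5 911)
(fin 1231 6 975)))))))))
(cons (mv 1104 (cons (fin 1105 0 1037)
(mv 972 (cons (fin 973 3 972)
(mv 976 (cons (fin 977 2 973)
(mv 1103 (cons (mv 1167 (cons (fin 912 5 911)
(fin 1231 6 975)))
(cons (mv 912 (cons (fin 848 5 847)
(mv 913 (cons (fin 849 6 848)
(mv 1168 (cons (mv 1232 (cons (fin 1296 7 1039)
(fin 975 7 975)))
(mv 1169 (cons (fin 1102 0 1101)
(fin 1233 4 976)))))))))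
(mv 1231 (cons (fin 1167 6 975)
(mv 1168 (cons (mv 1232 (cons (fin 1295 5 1039)
(fin 1296 7 1039)))
(mv 1169 (cons (fin 1102 0 1101)
(fin 1233 4 976))))))))))))))))
(mv 1104 (cons (fin 1105 0 1037)
(mv 972 (cons (fin 973 3 972)
(mv 976 (cons (fin 977 2 973)
(mv 975 (cons (fin 1036 2 972)
(mv 1168 (cons (fin 1232 7 975)
(mv 1167 (cons (fin 1231 5 975)
(mv 1169 (cons (fin 1233 4 976)
(mv 1166 (cons (fin 1102 3 1101)
(mv 1229 (cons (fin 1230 1 1165)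
(mv 1165 (cons (fin 1228 1 1164)
(fin 974 6 973)))))))))))))))))))))))))
(mv 1039 (cons (fin 1100 1 1036)
(mv 1104 (cons (fin 1105 0 1037)
(mv 1103 (cons (fin 1036 0 1036)
(mv 976 (cons (fin 977 2 973)
(mv 1167 (cons (fin 912 5 911)
(fin 1231 6 975)))))))))))))
(cons (cons (mv 1039 (cons (fin 1100 1 1036)
(mv 973 (cons (fin 972 3 972)
(mv 976 (cons (fin 977 2 973)
(mv 1036 (cons (fin 975 2 972)
(mv 1102 (cons (mv 1166 (cons (fin 1230 7 973)
(fin 909 4 909)))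
(mv 1035 (cons (fin 1034 0 1034)
(fin 1103 0 1035)))))))))))))
(mv 1039 (cons (fin 1100 1 1036)
(mv 1104 (cons (fin 1105 0 1037)
(mv 1103 (cons (fin 1036 0 1036)
(mv 972 (cons (fin 973 3 972)
(mv 974 (cons (cons (mv 1229 (cons (fin 1165 6 973)
(mv 1167 (cons (fin 1231 7 974)
(mv 910 (cons (fin 846 5 845)
(fin 975 7 910)))))))
(mv 1231 (cons (fin 1167 7 974)
(mv 1165 (cons (fin 1229 6 973)
(mv 1102 (cons (fin 1164 1 1100)
(mv 1168 (cons (fin 1169 0 1101)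
(mv 1232 (cons (fin 1295 5 1039)
(fin 1296 7 1039))))))))))))
(cons (mv 1165 (cons (fin 1229 6 973)
(mv 1102 (cons (fin 1164 1 1100)
(fin 910 5 909)))))
(mv 1167 (cons (fin 1231 7 974)
(mv 910 (cons (fin 846 5 845)
(fin 975 7 910)))))))))))))))))
(cons (mv 1039 (cons (fin 1100 1 1036)
(mv 1104 (cons (fin 1105 0 1037)
(mv 972 (cons (fin 973 3 972)
(mv 976 (cons (fin 977 2 973)
(mv 1103 (cons (mv 1167 (cons (fin 912 5 911)
(fin 1231 6 975)))
(cons (mv 912 (cons (fin 848 5 847)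
(mv 913 (cons (fin 849 6 848)
(mv 1168 (cons (mv 1232 (cons (fin 1296 7 1039)
(fin 975 7 975)))
(mv 1169 (cons (fin 1102 0 1101)
(fin 1233 4 976)))))))))
(mv 1231 (cons (fin 1167 6 975)
(mv 1168 (cons (mv 1232 (cons (fin 1295 5 1039)
(fin 1296 7 1039)))
(mv 1169 (cons (fin 1102 0 1101)
(fin 1233 4 976))))))))))))))))))
(mv 1039 (cons (fin 1100 1 1036)
(mv 1104 (cons (fin 1105 0 1037)
(mv 972 (cons (fin 973 3 972)
(mv 976 (cons (fin 977 2 973)
(mv 975 (cons (fin 1036 2 972)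
(mv 1168 (cons (fin 1232 7 975)
(mv 1167 (cons (fin 1231 5 975)
(mv 1169 (cons (fin 1233 4 976)
(mv 1166 (cons (fin 1102 3 1101)
(mv 1229 (cons (fin 1230 1 1165)
(mv 1165 (cons (fin 1228 1 1164)
(fin 974 6 973)))))))))))))))))))))))))))))))))
def l118 : Lem := ⟨13254031944712882724506621310649321556018620670345837899455453023597314721787975009848330616026462815765143756135158089473467252075149308743152655366187148242124071246428482498451210046760672027239036899891323305324899173507745103325308665813954110541579506451753178596634830548552232523722901151470534797188661248, 609274690281585270455223101455930963468036717349087629778175157190171627692644689762853768122346072395223310487784973923357001267241806092128057198660379878921514704834063022462244826089441573190641770137664907802778502683355658713612136271799882550018694017933571354981200069237574927946007697971334328487764297198601086505239046516319724217197307576257550292836671176799964238234489022770791929639544640283616886461496744214528,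 609274690281585270455223101455930963468036717349087629778175157190171627692644689762853768122346072395223310487784973923357001267241806092128057198660379878921514704834063022462244826089441573190641770137664907802778502683355658713612136271799882550018694017933571354981200069237574927946007697971334328487764297198601086505239046516319724217197307576257550292836671176799964238234489022770791929639544640283616886461496744214528, 19, 33⟩
theorem l118_valid : l118.Valid :=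
  Lem.valid_of_chk t118 t118_valid [1037, 1040] c118 l118 (by decide +kernel)
end Crest.Agent.SnakyAux
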