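import Crest.Agent.S0047_aux.Checker

set_option autoImplicit false
set_option maxRecDepth 100000
namespace Crest.Agent.SnakyAux
open Cert
def t12 : Tbl := Tbl.nil
theorem t12_valid : t12.Valid := Tbl.valid_nil
def c12 : Cert :=
(mv 911 (cons (cons (cons (cons (mv 975 (cons (cons (mv 847 (cons (fin 1104 4 847)
(mv 782 (cons (fin 846 7 782)
(mv 783 (cons (fin 718 7 718)
(fin 976 4 783)))))))
(mv 1103 (cons (cons (mv 846 (cons (fin 910 7 846)
(mv 848 (cons (fin 912 6 847)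
(mv 1102 (cons (fin 1166 5 910)
(mv 1101 (cons (fin 1100 2 1036)
(mv 1104 (cons (fin 1041 2 1037)
(fin 1168 4 911)))))))))))
(cons (mv 846 (cons (fin 910 7 846)
(mv 848 (cons (fin 912 6 847)
(mv 1166 (cons (fin 1102 5 910)
(mv 1167 (cons (fin 1230 5 974)
(mv 1231 (cons (fin 976 6 975)
(mv 1295 (cons (fin 1104 6 1039)
(mv 1296 (cons (fin 1232 4 1039)
(fin 1360 4 1103)))))))))))))))
(mv 846 (cons (fin 910 7 846)
(mv 848 (cons (fin 912 6 847)
(mv 1166 (cons (fin 1102 5 910)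
(mv 1167 (cons (fin 1230 5 974)
(mv 1231 (cons (fin 976 6 975)
(mv 1232 (cons (fin 1168 4 975)
(fin 1296 4 1039)))))))))))))))
(cons (cons (mv 846 (cons (fin 910 7 846)
(mv 1102 (cons (fin 1166 5 910)
(mv 1101 (cons (fin 1100 2 1036)
(mv 1104 (cons (fin 1041 2 1037)
(fin 1168 4 911)))))))))
(mv 848 (cons (fin 912 6 847)
(mv 1102 (cons (fin 1166 5 910)
(mv 1101 (cons (fin 1100 2 1036)
(mv 1104 (cons (fin 1041 2 1037)
(fin 1168 4 911))))))))))
(cons (mv 846 (cons (fin 910 7 846)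
(mv 848 (cons (fin 912 6 847)
(mv 1168 (cons (fin 1104 4 911)
(mv 1167 (cons (fin 1232 4 975)
(mv 1230 (cons (fin 1166 5 974)
(mv 1231 (cons (fin 1294 5 1038)
(fin 976 6 975)))))))))))))
(mv 846 (cons (fin 910 7 846)
(mv 912 (cons (fin 848 6 847)
(mv 976 (cons (fin 1167 6 911)
(mv 1104 (cons (fin 1168 7 911)
(mv 913 (cons (fin 849 6 848)
(mv 914 (cons (fin 974 1 910)
(fin 915 1 911))))))))))))))))))
(cons (mv 1103 (cons (cons (mv 846 (cons (fin 910 7 846)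
(mv 782 (cons (fin 847 7 782)
(mv 848 (cons (fin 912 6 847)
(mv 1166 (cons (fin 1102 5 910)
(mv 1167 (cons (fin 1230 5 974)
(mv 1231 (cons (fin 976 6 975)
(mv 1232 (cons (fin 1168 4 975)
(fin 1296 4 1039)))))))))))))))
(cons (mv 846 (cons (fin 910 7 846)
(mv 782 (cons (fin 847 7 782)
(mv 1166 (cons (fin 1102 5 910)
(mv 1167 (cons (fin 1230 5 974)
(mv 1231 (cons (fin 976 6 975)
(mv 1232 (cons (fin 1168 4 975)
(fin 1296 4 1039)))))))))))))
(mv 848 (cons (fin 912 6 847)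
(mv 784 (cons (fin 847 6 783)
(mv 1166 (cons (fin 1102 5 910)
(mv 1167 (cons (fin 1230 5 974)
(mv 1231 (cons (fin 976 6 975)
(mv 1232 (cons (fin 1168 4 975)
(fin 1296 4 1039)))))))))))))))
(cons (mv 846 (cons (fin 910 7 846)
(mv 782 (cons (fin 847 7 782)
(mv 912 (cons (fin 848 6 847)
(mv 1167 (cons (fin 976 6 911)
(mv 1230 (cons (fin 1166 5 974)
(mv 1231 (cons (fin 1294 5 1038)
(mv 1232 (cons (fin 1168 4 975)
(fin 1296 4 1039)))))))))))))))
(cons (mv 846 (cons (fin 910 7 846)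
(mv 847 (cons (fin 782 7 782)
(mv 848 (cons (fin 784 6 783)
(fin 912 6 847)))))))
(mv 846 (cons (fin 910 7 846)
(mv 848 (cons (fin 912 6 847)
(mv 1166 (cons (fin 1102 5 910)
(mv 1167 (cons (fin 1230 5 974)
(mv 1231 (cons (fin 976 6 975)
(mv 1232 (cons (fin 1168 4 975)
(fin 1296 4 1039)))))))))))))))))
(cons (mv 847 (cons (fin 1104 4 847)
(mv 782 (cons (fin 846 7 782)
(mv 783 (cons (fin 718 7 718)
(mv 784 (cons (fin 720 6 719)
(fin 848 6 783)))))))))
(mv 847 (cons (fin 1104 4 847)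
(mv 783 (cons (fin 976 4 783)
(mv 784 (cons (fin 720 6 719)
(fin 848 6 783)))))))))))
(mv 912 (cons (cons (cons (mv 976 (cons (cons (mv 847 (cons (fin 1104 7 847)
(mv 783 (cons (fin 848 7 783)
(fin 719 4 719)))))
(mv 1104 (cons (fin 847 7 847)
(mv 849 (cons (fin 913 6 848)
(mv 1167 (cons (fin 1103 5 911)
(mv 1168 (cons (fin 1231 5 975)
(mv 1169 (cons (fin 1105 4 912)
(fin 1233 4 976))))))))))))
(cons (mv 848 (cons (fin 1103 5 847)
(mv 783 (cons (fin 847 7 783)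
(mv 719 (cons (fin 784 7 719)
(mv 849 (cons (fin 785 6 784)
(mv 850 (cons (fin 851 1 847)
(mv 910 (cons (fin 909 2 845)
(fin 913 2 846)))))))))))))
(mv 848 (cons (fin 1103 5 847)
(mv 785 (cons (fin 849 6 784)
(mv 784 (cons (fin 721 6 720)
(mv 1041 (cons (fin 977 4 784)
(fin 1105 4 848))))))))))))
(mv 913 (cons (cons (mv 910 (cons (cons (mv 845 (cons (fin 846 3 845)
(mv 844 (cons (fin 909 3 844)
(mv 849 (cons (fin 850 2 846)
(mv 973 (cons (fin 974 1 909)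
(mv 977 (cons (fin 978 0 910)
(mv 1041 (cons (fin 1104 5 848)
(mv 848 (cons (fin 784 7 784)
(fin 1105 7 848)))))))))))))))
(mv 845 (cons (fin 846 3 845)
(mv 909 (cons (fin 844 3 844)
(mv 973 (cons (fin 972 1 908)
(fin 974 1 909))))))))
(cons (mv 849 (cons (fin 850 2 846)
(mv 848 (cons (fin 909 2 845)
(mv 973 (cons (fin 974 1 909)
(mv 977 (cons (fin 978 0 910)
(mv 784 (cons (fin 1041 7 784)
(fin 720 4 720)))))))))))
(cons (mv 845 (cons (fin 846 3 845)
(mv 844 (cons (fin 909 3 844)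
(mv 849 (cons (fin 850 2 846)
(mv 977 (cons (fin 978 0 910)
(mv 1041 (cons (fin 1104 5 848)
(mv 848 (cons (fin 784 7 784)
(fin 1105 7 848)))))))))))))
(mv 845 (cons (fin 846 3 845)
(mv 849 (cons (fin 850 2 846)
(mv 973 (cons (fin 974 1 909)
(mv 977 (cons (fin 978 0 910)
(mv 1041 (cons (fin 1104 5 848)
(mv 848 (cons (fin 784 7 784)
(fin 1105 7 848)))))))))))))))))
(cons (mv 914 (cons (cons (mv 846 (cons (fin 847 3 846)
(mv 851 (cons (fin 850 2 847)
(mv 915 (cons (fin 852 2 848)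
(mv 979 (cons (fin 978 0 911)
(fin 980 0 912)))))))))
(mv 851 (cons (fin 850 2 847)
(mv 915 (cons (fin 852 2 848)
(mv 979 (cons (fin 978 0 911)
(fin 980 0 912))))))))
(cons (mv 847 (cons (fin 846 3 846)
(mv 915 (cons (fin 848 3 847)
(mv 979 (cons (fin 978 0 911)
(fin 980 0 912)))))))
(cons (mv 847 (cons (fin 846 3 846)
(mv 851 (cons (fin 850 2 847)
(mv 915 (cons (fin 848 3 847)
(fin 852 2 848)))))))
(mv 847 (cons (fin 846 3 846)
(mv 850 (cons (fin 851 2 847)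
(mv 978 (cons (fin 979 0 911)
(mv 786 (cons (mv 977 (cons (fin 722 5 721)
(fin 1041 5 785)))
(cons (mv 721 (cons (fin 785 7 721)
(mv 722 (cons (fin 657 7 657)
(mv 723 (cons (fin 659 6 658)
(fin 787 6 722)))))))
(mv 785 (cons (fin 721 7 721)
(mv 787 (cons (fin 723 6 722)
(mv 848 (cons (fin 784 1 783)
(fin 849 2 783))))))))))))))))))))
(mv 910 (cons (cons (mv 845 (cons (fin 846 3 845)
(mv 909 (cons (fin 844 3 844)
(mv 973 (cons (fin 972 1 908)
(fin 974 1 909)))))))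
(mv 973 (cons (fin 974 1 909)
(mv 909 (cons (fin 972 1 908)
(mv 844 (cons (fin 845 3 844)
(mv 848 (cons (fin 849 2 845)
(mv 908 (cons (fin 843 3 843)
(fin 847 2 844))))))))))))
(cons (mv 973 (cons (fin 974 1 909)
(mv 909 (cons (fin 972 1 908)
(mv 848 (cons (fin 849 2 845)
(mv 847 (cons (fin 908 2 844)
(mv 914 (cons (fin 846 3 846)
(fin 915 3 847)))))))))))
(cons (mv 845 (cons (fin 846 3 845)
(mv 909 (cons (fin 844 3 844)
(mv 848 (cons (fin 849 2 845)
(mv 847 (cons (fin 908 2 844)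
(mv 914 (cons (fin 915 3 847)
(mv 978 (cons (fin 977 0 910)
(fin 979 0 911)))))))))))))
(mv 846 (cons (fin 845 3 845)
(mv 914 (cons (fin 847 3 846)
(mv 978 (cons (fin 977 0 910)
(fin 979 0 911)))))))))))))
(cons (cons (mv 914 (cons (cons (mv 850 (cons (fin 851 2 847)
(mv 849 (cons (fin 910 2 846)
(mv 979 (cons (fin 978 0 911)
(mv 915 (cons (fin 980 0 912)
(mv 848 (cons (fin 847 3 847)
(fin 916 3 848)))))))))))
(cons (mv 978 (cons (fin 979 0 911)
(mv 910 (cons (fin 977 0 910)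
(mv 973 (cons (fin 974 1 909)
(mv 909 (cons (fin 972 1 908)
(mv 844 (cons (fin 845 3 844)
(mv 848 (cons (fin 849 2 845)
(mv 847 (cons (fin 915 3 847)
(fin 908 2 844)))))))))))))))
(mv 851 (cons (fin 850 2 847)
(mv 915 (cons (fin 852 2 848)
(mv 848 (cons (fin 847 3 847)
(mv 916 (cons (fin 849 3 848)
(mv 980 (cons (fin 979 0 912)
(fin 981 0 913)))))))))))))
(cons (mv 851 (cons (fin 850 2 847)
(mv 915 (cons (fin 852 2 848)
(mv 848 (cons (fin 847 3 847)
(mv 849 (cons (fin 916 3 848)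
(mv 910 (cons (fin 909 2 845)
(mv 973 (cons (fin 974 1 909)
(mv 977 (cons (fin 978 0 910)
(mv 784 (cons (fin 1041 7 784)
(fin 720 4 720)))))))))))))))))
(cons (mv 850 (cons (fin 851 2 847)
(mv 910 (cons (fin 849 2 846)
(mv 978 (cons (fin 977 0 910)
(fin 979 0 911)))))))
(mv 850 (cons (fin 851 2 847)
(mv 978 (cons (fin 979 0 911)
(mv 977 (cons (fin 910 0 910)
(mv 786 (cons (fin 722 5 721)
(fin 1041 5 785)))))))))))))
(mv 910 (cons (cons (mv 845 (cons (fin 846 3 845)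
(mv 849 (cons (fin 850 2 846)
(mv 909 (cons (fin 844 3 844)
(fin 848 2 845)))))))
(mv 845 (cons (fin 846 3 845)
(mv 909 (cons (fin 844 3 844)
(mv 973 (cons (fin 972 1 908)
(fin 974 1 909))))))))
(cons (mv 849 (cons (fin 850 2 846)
(mv 909 (cons (fin 848 2 845)
(mv 973 (cons (fin 972 1 908)
(fin 974 1 909)))))))
(mv 846 (cons (fin 845 3 845)
(mv 850 (cons (fin 849 2 846)
(mv 914 (cons (fin 847 3 846)
(fin 851 2 847)))))))))))
(cons (mv 914 (cons (cons (mv 846 (cons (fin 847 3 846)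
(mv 845 (cons (fin 910 3 845)
(mv 851 (cons (fin 850 2 847)
(mv 915 (cons (fin 852 2 848)
(mv 979 (cons (fin 978 0 911)
(fin 980 0 912)))))))))))
(mv 847 (cons (fin 846 3 846)
(mv 851 (cons (fin 850 2 847)
(mv 915 (cons (fin 848 3 847)
(fin 852 2 848))))))))
(cons (mv 850 (cons (fin 851 2 847)
(mv 978 (cons (fin 979 0 911)
(mv 910 (cons (fin 977 0 910)
(mv 845 (cons (fin 846 3 845)
(mv 909 (cons (fin 844 3 844)
(mv 973 (cons (fin 972 1 908)
(fin 974 1 909)))))))))))))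
(cons (mv 850 (cons (fin 851 2 847)
(mv 978 (cons (fin 979 0 911)
(mv 977 (cons (fin 910 0 910)
(mv 786 (cons (fin 722 5 721)
(fin 1041 5 785)))))))))
(mv 846 (cons (fin 847 3 846)
(mv 910 (cons (fin 845 3 845)
(mv 978 (cons (fin 977 0 910)
(fin 979 0 911)))))))))))
(mv 910 (cons (mv 845 (cons (fin 846 3 845)
(mv 844 (cons (fin 909 3 844)
(mv 850 (cons (fin 849 2 846)
(mv 914 (cons (fin 851 2 847)
(mv 978 (cons (fin 977 0 910)
(fin 979 0 911)))))))))))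
(cons (mv 850 (cons (fin 849 2 846)
(mv 914 (cons (fin 851 2 847)
(mv 978 (cons (fin 977 0 910)
(fin 979 0 911)))))))
(mv 845 (cons (fin 846 3 845)
(mv 909 (cons (fin 844 3 844)
(mv 973 (cons (fin 972 1 908)
(fin 974 1 909)))))))))))))))
(cons (mv 910 (cons (cons (mv 913 (cons (cons (mv 845 (cons (fin 846 3 845)
(mv 844 (cons (fin 909 3 844)
(mv 849 (cons (fin 850 2 846)
(mv 973 (cons (fin 974 1 909)
(mv 976 (cons (fin 1104 6 848)
(mv 785 (cons (fin 721 5 720)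
(fin 977 5 784)))))))))))))
(cons (mv 845 (cons (fin 846 3 845)
(mv 849 (cons (fin 850 2 846)
(mv 909 (cons (fin 844 3 844)
(mv 973 (cons (fin 972 1 908)
(fin 974 1 909)))))))))
(mv 845 (cons (fin 846 3 845)
(mv 909 (cons (fin 844 3 844)
(mv 973 (cons (fin 972 1 908)
(fin 974 1 909)))))))))
(cons (mv 849 (cons (fin 850 2 846)
(mv 973 (cons (fin 974 1 909)
(mv 909 (cons (fin 972 1 908)
(mv 976 (cons (fin 977 0 909)
(fin 1104 6 848)))))))))
(cons (mv 845 (cons (fin 846 3 845)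
(mv 844 (cons (fin 909 3 844)
(mv 849 (cons (fin 850 2 846)
(mv 976 (cons (fin 1104 6 848)
(mv 785 (cons (fin 721 5 720)
(fin 977 5 784)))))))))))
(mv 845 (cons (fin 846 3 845)
(mv 849 (cons (fin 850 2 846)
(mv 973 (cons (fin 974 1 909)
(mv 976 (cons (fin 1104 6 848)
(mv 785 (cons (fin 721 5 720)
(fin 977 5 784)))))))))))))))
(cons (mv 909 (cons (cons (mv 844 (cons (fin 845 3 844)
(mv 843 (cons (fin 908 3 843)
(mv 972 (cons (fin 973 1 908)
(mv 976 (cons (fin 977 0 909)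
(mv 1104 (cons (fin 847 7 847)
(mv 1167 (cons (fin 1103 5 911)
(mv 1168 (cons (fin 1231 5 975)
(mv 1169 (cons (fin 1105 4 912)
(fin 1233 4 976)))))))))))))))))
(mv 844 (cons (fin 845 3 844)
(mv 908 (cons (fin 843 3 843)
(mv 972 (cons (fin 971 1 907)
(fin 973 1 908))))))))
(cons (mv 972 (cons (fin 973 1 908)
(mv 908 (cons (fin 971 1 907)
(mv 976 (cons (fin 977 0 909)
(mv 1104 (cons (fin 847 7 847)
(mv 1167 (cons (fin 1103 5 911)
(mv 1168 (cons (fin 1231 5 975)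
(mv 1169 (cons (fin 1105 4 912)
(fin 1233 4 976)))))))))))))))
(cons (mv 844 (cons (fin 845 3 844)
(mv 843 (cons (fin 908 3 843)
(mv 976 (cons (fin 977 0 909)
(mv 1104 (cons (fin 847 7 847)
(mv 1167 (cons (fin 1103 5 911)
(mv 1168 (cons (fin 1231 5 975)
(mv 1169 (cons (fin 1105 4 912)
(fin 1233 4 976)))))))))))))))
(mv 844 (cons (fin 845 3 844)
(mv 972 (cons (fin 973 1 908)
(mv 976 (cons (fin 977 0 909)
(mv 1104 (cons (fin 847 7 847)
(mv 1167 (cons (fin 1103 5 911)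
(mv 1168 (cons (fin 1231 5 975)
(mv 1169 (cons (fin 1105 4 912)
(fin 1233 4 976)))))))))))))))))))
(mv 913 (cons (cons (mv 845 (cons (fin 846 3 845)
(mv 849 (cons (fin 850 2 846)
(mv 973 (cons (fin 974 1 909)
(mv 976 (cons (fin 1104 6 848)
(mv 785 (cons (fin 721 5 720)
(fin 977 5 784)))))))))))
(mv 846 (cons (fin 845 3 845)
(mv 914 (cons (fin 847 3 846)
(mv 978 (cons (fin 977 0 910)
(fin 979 0 911))))))))
(cons (mv 849 (cons (fin 850 2 846)
(mv 973 (cons (fin 974 1 909)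
(mv 976 (cons (fin 1104 6 848)
(mv 785 (cons (fin 721 5 720)
(fin 977 5 784)))))))))
(mv 846 (cons (fin 845 3 845)
(mv 850 (cons (fin 849 2 846)
(mv 914 (cons (fin 847 3 846)
(fin 851 2 847))))))))))))
(cons (cons (mv 913 (cons (mv 845 (cons (fin 846 3 845)
(mv 844 (cons (fin 909 3 844)
(mv 850 (cons (fin 849 2 846)
(mv 914 (cons (fin 851 2 847)
(mv 978 (cons (fin 977 0 910)
(fin 979 0 911)))))))))))
(cons (mv 850 (cons (fin 849 2 846)
(mv 914 (cons (fin 851 2 847)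
(mv 978 (cons (fin 977 0 910)
(fin 979 0 911)))))))
(mv 845 (cons (fin 846 3 845)
(mv 909 (cons (fin 844 3 844)
(mv 973 (cons (fin 972 1 908)
(fin 974 1 909))))))))))
(mv 973 (cons (cons (mv 909 (cons (fin 972 1 908)
(mv 844 (cons (fin 845 3 844)
(mv 908 (cons (fin 843 3 843)
(mv 716 (cons (fin 780 4 716)
(mv 974 (cons (fin 913 1 909)
(mv 907 (cons (fin 906 0 906)
(mv 846 (cons (fin 847 2 843)
(mv 782 (cons (fin 718 5 717)
(fin 1037 5 781)))))))))))))))))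
(mv 909 (cons (fin 972 1 908)
(mv 845 (cons (fin 844 3 844)
(mv 1037 (cons (mv 846 (cons (fin 782 6 781)
(fin 1101 6 845)))
(cons (mv 1100 (cons (fin 1036 5 844)
(mv 1101 (cons (fin 1164 5 908)
(mv 1102 (cons (fin 1103 2 1036)
(fin 1166 4 909)))))))
(mv 782 (cons (fin 846 6 781)
(mv 781 (cons (fin 718 6 717)
(mv 716 (cons (fin 780 7 716)
(mv 717 (cons (fin 652 7 652)
(fin 974 4 717)))))))))))))))))
(cons (mv 913 (cons (fin 974 1 909)
(mv 846 (cons (fin 845 3 845)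
(mv 850 (cons (fin 849 2 846)
(mv 914 (cons (fin 847 3 846)
(fin 851 2 847)))))))))
(cons (mv 909 (cons (fin 972 1 908)
(mv 845 (cons (fin 844 3 844)
(mv 846 (cons (fin 913 3 845)
(mv 782 (cons (fin 718 5 717)
(fin 1037 6 781)))))))))
(mv 972 (cons (fin 909 1 908)
(mv 974 (cons (fin 913 1 909)
(fin 971 2 907))))))))))
(cons (mv 976 (cons (mv 847 (cons (fin 1104 7 847)
(mv 719 (cons (fin 783 4 719)
(mv 909 (cons (fin 977 0 909)
(mv 972 (cons (fin 973 1 908)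
(mv 908 (cons (fin 971 1 907)
(mv 843 (cons (fin 844 3 843)
(mv 907 (cons (fin 842 3 842)
(fin 846 2 843)))))))))))))))
(cons (mv 977 (cons (fin 909 0 909)
(mv 978 (cons (fin 979 3 911)
(fin 913 0 910)))))
(mv 1104 (cons (fin 847 7 847)
(mv 849 (cons (fin 913 6 848)
(mv 1167 (cons (fin 1103 5 911)
(mv 1168 (cons (fin 1231 5 975)
(mv 1169 (cons (fin 1105 4 912)
(fin 1233 4 976))))))))))))))
(mv 913 (cons (cons (mv 845 (cons (fin 846 3 845)
(mv 844 (cons (fin 909 3 844)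
(mv 849 (cons (fin 850 2 846)
(mv 976 (cons (fin 1104 6 848)
(mv 785 (cons (fin 721 5 720)
(fin 977 5 784)))))))))))
(mv 846 (cons (fin 845 3 845)
(mv 850 (cons (fin 849 2 846)
(mv 914 (cons (fin 847 3 846)
(fin 851 2 847))))))))
(cons (mv 845 (cons (fin 846 3 845)
(mv 909 (cons (fin 844 3 844)
(mv 977 (cons (fin 976 0 909)
(fin 978 0 910)))))))
(mv 849 (cons (fin 850 2 846)
(mv 976 (cons (fin 1104 6 848)
(mv 785 (cons (fin 721 5 720)
(fin 977 5 784))))))))))))))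
(cons (mv 848 (cons (cons (mv 976 (cons (fin 1103 5 847)
(mv 783 (cons (fin 847 7 783)
(mv 719 (cons (fin 784 7 719)
(mv 849 (cons (fin 785 6 784)
(mv 850 (cons (fin 851 1 847)
(mv 910 (cons (fin 909 2 845)
(fin 913 2 846)))))))))))))
(mv 849 (cons (cons (mv 850 (cons (fin 851 1 847)
(mv 910 (cons (fin 847 1 846)
(fin 909 2 845)))))
(mv 910 (cons (fin 909 2 845)
(mv 913 (cons (cons (mv 845 (cons (fin 846 3 845)
(mv 973 (cons (fin 974 1 909)
(mv 977 (cons (fin 978 0 910)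
(mv 784 (cons (fin 1041 7 784)
(fin 720 4 720)))))))))
(mv 973 (cons (fin 974 1 909)
(mv 977 (cons (fin 978 0 910)
(mv 784 (cons (fin 1041 7 784)
(fin 720 4 720))))))))
(cons (mv 846 (cons (fin 845 3 845)
(mv 847 (cons (fin 914 3 846)
(mv 781 (cons (fin 782 3 781)
(mv 785 (cons (fin 786 2 782)
(mv 721 (cons (fin 657 5 656)
(mv 720 (cons (fin 656 7 656)
(mv 722 (cons (fin 658 6 657)
(mv 974 (cons (fin 973 1 909)
(mv 719 (cons (fin 783 5 718)
(mv 655 (cons (fin 654 3 654)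
(fin 784 7 655)))))))))))))))))))))
(cons (mv 845 (cons (fin 846 3 845)
(mv 977 (cons (fin 978 0 910)
(mv 784 (cons (fin 1041 7 784)
(fin 720 4 720)))))))
(mv 845 (cons (fin 846 3 845)
(mv 973 (cons (fin 974 1 909)
(mv 978 (cons (fin 977 0 910)
(mv 914 (cons (fin 979 0 911)
(mv 915 (cons (fin 847 3 847)
(fin 916 3 848))))))))))))))))))
(cons (mv 850 (cons (fin 851 1 847)
(mv 847 (cons (cons (mv 782 (cons (fin 783 3 782)
(mv 786 (cons (fin 787 2 783)
(mv 846 (cons (fin 781 3 781)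
(fin 785 2 782)))))))
(mv 782 (cons (fin 783 3 782)
(mv 846 (cons (fin 781 3 781)
(mv 845 (cons (fin 844 0 844)
(fin 913 0 845))))))))
(cons (mv 786 (cons (fin 787 2 783)
(mv 785 (cons (fin 846 2 782)
(mv 721 (cons (fin 657 5 656)
(mv 914 (cons (fin 915 0 847)
(fin 978 7 721)))))))))
(mv 783 (cons (fin 782 3 782)
(mv 719 (cons (fin 655 4 655)
(mv 656 (cons (fin 720 6 655)
(mv 718 (cons (fin 654 7 654)
(mv 786 (cons (fin 787 2 783)
(mv 785 (cons (fin 784 3 718)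
(mv 721 (cons (fin 657 5 656)
(mv 914 (cons (fin 915 0 847)
(fin 978 7 721))))))))))))))))))))))
(mv 850 (cons (fin 851 1 847)
(mv 910 (cons (fin 909 2 845)
(fin 913 2 846)))))))))
(cons (mv 976 (cons (fin 1103 5 847)
(mv 783 (cons (fin 847 7 783)
(mv 784 (cons (fin 719 7 719)
(mv 1041 (cons (fin 977 4 784)
(fin 1105 4 848)))))))))
(cons (mv 976 (cons (fin 1103 5 847)
(mv 785 (cons (fin 849 6 784)
(mv 784 (cons (fin 721 6 720)
(mv 1041 (cons (fin 977 4 784)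
(fin 1105 4 848)))))))))
(mv 976 (cons (fin 1103 5 847)
(mv 783 (cons (fin 847 7 783)
(mv 849 (cons (fin 785 6 784)
(mv 850 (cons (fin 851 1 847)
(mv 910 (cons (fin 909 2 845)
(fin 913 2 846)))))))))))))))
(mv 976 (cons (cons (mv 848 (cons (fin 1103 5 847)
(mv 785 (cons (fin 849 6 784)
(mv 784 (cons (fin 721 6 720)
(mv 1041 (cons (fin 977 4 784)
(fin 1105 4 848)))))))))
(mv 1104 (cons (cons (mv 849 (cons (fin 913 6 848)
(mv 1167 (cons (fin 1103 5 911)
(mv 1168 (cons (fin 1231 5 975)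
(mv 1169 (cons (fin 1105 4 912)
(fin 1233 4 976)))))))))
(mv 913 (cons (fin 849 6 848)
(mv 977 (cons (fin 1168 6 912)
(mv 910 (cons (fin 909 0 909)
(fin 978 0 910))))))))
(cons (mv 1167 (cons (fin 1103 5 911)
(mv 1168 (cons (fin 1231 5 975)
(mv 1169 (cons (fin 1105 4 912)
(fin 1233 4 976)))))))
(mv 913 (cons (fin 849 6 848)
(mv 1103 (cons (fin 1167 5 911)
(mv 1105 (cons (fin 1169 4 912)
(mv 1106 (cons (fin 1107 3 1039)
(mv 1170 (cons (fin 1171 0 1103)
(mv 977 (cons (fin 1041 4 913)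
(mv 910 (cons (fin 909 0 909)
(fin 978 0 910)))))))))))))))))))
(cons (mv 848 (cons (cons (mv 785 (cons (fin 849 6 784)
(mv 784 (cons (fin 721 6 720)
(mv 1041 (cons (fin 977 4 784)
(fin 1105 4 848)))))))
(mv 1041 (cons (fin 1105 4 848)
(mv 784 (cons (fin 977 4 784)
(mv 719 (cons (fin 783 7 719)
(mv 720 (cons (fin 655 7 655)
(mv 721 (cons (fin 657 6 656)
(fin 785 6 720))))))))))))
(cons (mv 785 (cons (fin 849 6 784)
(mv 784 (cons (fin 721 6 720)
(mv 719 (cons (fin 783 7 719)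
(mv 655 (cons (fin 720 7 655)
(mv 977 (cons (fin 1041 4 784)
(mv 910 (cons (fin 909 0 909)
(mv 978 (cons (fin 979 3 911)
(fin 913 0 910)))))))))))))))
(cons (mv 849 (cons (fin 785 6 784)
(mv 850 (cons (fin 851 1 847)
(mv 910 (cons (fin 909 2 845)
(fin 913 2 846)))))))
(mv 1041 (cons (fin 1105 4 848)
(mv 977 (cons (fin 784 4 784)
(mv 910 (cons (fin 909 0 909)
(mv 978 (cons (fin 979 3 911)
(fin 913 0 910)))))))))))))
(cons (mv 848 (cons (fin 1103 5 847)
(mv 849 (cons (fin 785 6 784)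
(mv 850 (cons (fin 851 1 847)
(mv 910 (cons (fin 909 2 845)
(fin 913 2 846)))))))))
(mv 848 (cons (fin 1103 5 847)
(mv 1041 (cons (fin 1105 4 848)
(mv 784 (cons (fin 977 4 784)
(mv 719 (cons (fin 783 7 719)
(mv 720 (cons (fin 655 7 655)
(mv 721 (cons (fin 657 6 656)
(fin 785 6 720))))))))))))))))))))
(cons (cons (mv 976 (cons (cons (mv 847 (cons (fin 1104 7 847)
(mv 783 (cons (fin 848 7 783)
(fin 719 4 719)))))
(mv 1104 (cons (fin 847 7 847)
(mv 1167 (cons (fin 1103 5 911)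
(mv 1168 (cons (fin 1231 5 975)
(mv 1169 (cons (fin 1105 4 912)
(fin 1233 4 976))))))))))
(cons (mv 848 (cons (fin 1103 5 847)
(mv 783 (cons (fin 847 7 783)
(mv 784 (cons (fin 719 7 719)
(mv 785 (cons (fin 721 6 720)
(fin 849 6 784)))))))))
(mv 848 (cons (fin 1103 5 847)
(mv 785 (cons (fin 849 6 784)
(mv 784 (cons (fin 721 6 720)
(mv 1041 (cons (fin 977 4 784)
(fin 1105 4 848))))))))))))
(mv 976 (cons (cons (mv 847 (cons (fin 1104 7 847)
(mv 783 (cons (fin 848 7 783)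
(fin 719 4 719)))))
(mv 848 (cons (fin 1103 5 847)
(mv 783 (cons (fin 847 7 783)
(mv 784 (cons (fin 719 7 719)
(mv 1041 (cons (fin 977 4 784)
(fin 1105 4 848))))))))))
(cons (mv 1104 (cons (fin 847 7 847)
(mv 1103 (cons (fin 1167 5 911)
(mv 1169 (cons (fin 1105 4 912)
(mv 1168 (cons (fin 1233 4 976)
(mv 977 (cons (fin 913 6 912)
(mv 1232 (cons (fin 1296 7 1039)
(fin 1041 6 976)))))))))))))
(mv 848 (cons (fin 1103 5 847)
(mv 1041 (cons (fin 1105 4 848)
(mv 784 (cons (fin 977 4 784)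
(mv 719 (cons (fin 783 7 719)
(mv 720 (cons (fin 655 7 655)
(mv 721 (cons (fin 657 6 656)
(fin 785 6 720)))))))))))))))))
(cons (mv 976 (cons (cons (mv 847 (cons (fin 1104 7 847)
(mv 783 (cons (fin 848 7 783)
(fin 719 4 719)))))
(mv 1104 (cons (fin 847 7 847)
(mv 849 (cons (fin 913 6 848)
(mv 1167 (cons (fin 1103 5 911)
(mv 1168 (cons (fin 1231 5 975)
(mv 1169 (cons (fin 1105 4 912)
(fin 1233 4 976))))))))))))
(cons (mv 848 (cons (fin 1103 5 847)
(mv 783 (cons (fin 847 7 783)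
(mv 719 (cons (fin 784 7 719)
(mv 849 (cons (fin 785 6 784)
(mv 850 (cons (fin 851 1 847)
(mv 910 (cons (fin 909 2 845)
(fin 913 2 846)))))))))))))
(mv 848 (cons (fin 1103 5 847)
(mv 849 (cons (fin 785 6 784)
(mv 850 (cons (fin 851 1 847)
(mv 910 (cons (fin 909 2 845)
(fin 913 2 846))))))))))))
(cons (mv 976 (cons (cons (mv 847 (cons (fin 1104 7 847)
(mv 783 (cons (fin 848 7 783)
(fin 719 4 719)))))
(mv 1104 (cons (fin 847 7 847)
(mv 913 (cons (fin 849 6 848)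
(mv 977 (cons (fin 1168 6 912)
(mv 910 (cons (fin 909 0 909)
(fin 978 0 910))))))))))
(cons (mv 848 (cons (fin 1103 5 847)
(mv 783 (cons (fin 847 7 783)
(mv 719 (cons (fin 784 7 719)
(mv 849 (cons (fin 785 6 784)
(mv 850 (cons (fin 851 1 847)
(mv 910 (cons (fin 909 2 845)
(fin 913 2 846)))))))))))))
(mv 848 (cons (fin 1103 5 847)
(mv 785 (cons (fin 849 6 784)
(mv 784 (cons (fin 721 6 720)
(mv 719 (cons (fin 783 7 719)
(mv 655 (cons (fin 720 7 655)
(mv 977 (cons (fin 1041 4 784)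
(mv 910 (cons (fin 909 0 909)
(mv 978 (cons (fin 979 3 911)
(fin 913 0 910))))))))))))))))))))
(mv 976 (cons (cons (mv 847 (cons (fin 1104 7 847)
(mv 783 (cons (fin 848 7 783)
(fin 719 4 719)))))
(mv 848 (cons (fin 1103 5 847)
(mv 783 (cons (fin 847 7 783)
(mv 784 (cons (fin 719 7 719)
(mv 1041 (cons (fin 977 4 784)
(fin 1105 4 848))))))))))
(cons (mv 1104 (cons (fin 847 7 847)
(mv 849 (cons (fin 913 6 848)
(mv 1167 (cons (fin 1103 5 911)
(mv 1168 (cons (fin 1231 5 975)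
(mv 1169 (cons (fin 1105 4 912)
(fin 1233 4 976)))))))))))
(mv 848 (cons (fin 1103 5 847)
(mv 1041 (cons (fin 1105 4 848)
(mv 977 (cons (fin 784 4 784)
(mv 910 (cons (fin 909 0 909)
(mv 978 (cons (fin 979 3 911)
(fin 913 0 910))))))))))))))))))))
(cons (mv 975 (cons (cons (cons (mv 1103 (cons (cons (mv 846 (cons (fin 910 7 846)
(mv 782 (cons (fin 847 7 782)
(mv 848 (cons (fin 912 6 847)
(mv 1166 (cons (fin 1102 5 910)
(mv 1167 (cons (fin 1230 5 974)
(mv 1231 (cons (fin 976 6 975)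
(mv 1232 (cons (fin 1168 4 975)
(fin 1296 4 1039)))))))))))))))
(cons (mv 846 (cons (fin 910 7 846)
(mv 782 (cons (fin 847 7 782)
(mv 1166 (cons (fin 1102 5 910)
(mv 1167 (cons (fin 1230 5 974)
(mv 1231 (cons (fin 976 6 975)
(mv 1232 (cons (fin 1168 4 975)
(fin 1296 4 1039)))))))))))))
(mv 848 (cons (fin 912 6 847)
(mv 784 (cons (fin 847 6 783)
(mv 1166 (cons (fin 1102 5 910)
(mv 1167 (cons (fin 1230 5 974)
(mv 1231 (cons (fin 976 6 975)
(mv 1232 (cons (fin 1168 4 975)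
(fin 1296 4 1039)))))))))))))))
(cons (mv 846 (cons (fin 910 7 846)
(mv 782 (cons (fin 847 7 782)
(mv 912 (cons (fin 848 6 847)
(mv 1167 (cons (fin 976 6 911)
(mv 1230 (cons (fin 1166 5 974)
(mv 1231 (cons (fin 1294 5 1038)
(mv 1232 (cons (fin 1168 4 975)
(fin 1296 4 1039)))))))))))))))
(cons (mv 846 (cons (fin 910 7 846)
(mv 847 (cons (fin 782 7 782)
(mv 848 (cons (fin 784 6 783)
(fin 912 6 847)))))))
(mv 846 (cons (fin 910 7 846)
(mv 848 (cons (fin 912 6 847)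
(mv 1166 (cons (fin 1102 5 910)
(mv 1167 (cons (fin 1230 5 974)
(mv 1231 (cons (fin 976 6 975)
(mv 1232 (cons (fin 1168 4 975)
(fin 1296 4 1039)))))))))))))))))
(mv 847 (cons (cons (mv 782 (cons (fin 846 7 782)
(mv 783 (cons (fin 718 7 718)
(fin 976 4 783)))))
(mv 846 (cons (fin 782 7 782)
(mv 848 (cons (fin 784 6 783)
(mv 849 (cons (mv 910 (cons (fin 909 1 845)
(fin 850 1 846)))
(mv 785 (cons (fin 786 2 782)
(mv 912 (cons (fin 976 6 784)
(mv 845 (cons (fin 844 0 844)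
(fin 913 0 845))))))))))))))
(cons (mv 783 (cons (fin 976 4 783)
(mv 784 (cons (fin 720 6 719)
(fin 848 6 783)))))
(mv 782 (cons (fin 846 7 782)
(mv 783 (cons (fin 718 7 718)
(mv 784 (cons (fin 720 6 719)
(fin 848 6 783)))))))))))
(cons (mv 1103 (cons (cons (mv 846 (cons (fin 910 7 846)
(mv 848 (cons (fin 912 6 847)
(mv 1166 (cons (fin 1102 5 910)
(mv 1167 (cons (fin 1230 5 974)
(mv 1231 (cons (fin 976 6 975)
(mv 1232 (cons (fin 1168 4 975)
(fin 1296 4 1039)))))))))))))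
(cons (mv 846 (cons (fin 910 7 846)
(mv 1166 (cons (fin 1102 5 910)
(mv 1167 (cons (fin 1230 5 974)
(mv 1231 (cons (fin 976 6 975)
(mv 1232 (cons (fin 1168 4 975)
(fin 1296 4 1039)))))))))))
(mv 848 (cons (fin 912 6 847)
(mv 1166 (cons (fin 1102 5 910)
(mv 1167 (cons (fin 1230 5 974)
(mv 1231 (cons (fin 976 6 975)
(mv 1232 (cons (fin 1168 4 975)
(fin 1296 4 1039)))))))))))))
(cons (cons (mv 846 (cons (fin 910 7 846)
(mv 912 (cons (fin 848 6 847)
(mv 1167 (cons (fin 976 6 911)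
(mv 1230 (cons (fin 1166 5 974)
(mv 1231 (cons (fin 1294 5 1038)
(mv 1232 (cons (fin 1168 4 975)
(fin 1296 4 1039)))))))))))))
(mv 848 (cons (fin 912 6 847)
(mv 910 (cons (fin 846 7 846)
(mv 974 (cons (fin 1167 7 910)
(mv 973 (cons (fin 972 0 972)
(mv 976 (cons (fin 1041 0 973)
(mv 909 (cons (fin 908 3 908)
(fin 977 3 909))))))))))))))
(cons (mv 910 (cons (fin 846 7 846)
(mv 912 (cons (fin 848 6 847)
(mv 1102 (cons (fin 1166 5 910)
(mv 1100 (cons (fin 1101 2 1036)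
(mv 974 (cons (mv 913 (cons (fin 973 1 909)
(fin 914 1 910)))
(cons (mv 913 (cons (fin 914 1 910)
(mv 849 (cons (fin 850 2 846)
(mv 977 (cons (fin 978 0 910)
(mv 976 (cons (fin 909 3 909)
(fin 785 5 784)))))))))
(mv 973 (cons (fin 972 2 908)
(mv 976 (cons (fin 1041 0 973)
(mv 909 (cons (fin 908 3 908)
(fin 977 3 909))))))))))))))))))
(mv 848 (cons (fin 912 6 847)
(mv 910 (cons (fin 846 7 846)
(mv 1166 (cons (fin 1102 5 910)
(mv 1167 (cons (fin 974 7 910)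
(fin 1230 5 974)))))))))))))
(mv 1103 (cons (cons (mv 846 (cons (fin 910 7 846)
(mv 782 (cons (fin 847 7 782)
(mv 1166 (cons (fin 1102 5 910)
(mv 1167 (cons (fin 1230 5 974)
(mv 976 (cons (fin 912 6 911)
(fin 1231 6 975)))))))))))
(mv 1166 (cons (fin 1102 5 910)
(mv 1167 (cons (fin 1230 5 974)
(mv 976 (cons (fin 912 6 911)
(fin 1231 6 975))))))))
(cons (mv 846 (cons (fin 910 7 846)
(mv 847 (cons (fin 782 7 782)
(mv 976 (cons (fin 783 4 783)
(mv 1167 (cons (fin 912 6 911)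
(fin 1231 6 975)))))))))
(cons (mv 1102 (cons (fin 1166 5 910)
(mv 1100 (cons (fin 1101 2 1036)
(mv 847 (cons (mv 846 (cons (fin 782 7 782)
(fin 910 7 846)))
(cons (mv 783 (cons (fin 976 4 783)
(mv 718 (cons (fin 782 7 718)
(mv 719 (cons (fin 654 7 654)
(mv 720 (cons (fin 656 6 655)
(fin 784 6 719)))))))))
(mv 783 (cons (fin 976 4 783)
(mv 720 (cons (fin 784 6 719)
(mv 719 (cons (fin 656 6 655)
(mv 910 (cons (fin 846 7 846)
(fin 974 5 718))))))))))))))))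
(mv 910 (cons (fin 846 7 846)
(mv 1166 (cons (fin 1102 5 910)
(mv 1167 (cons (fin 974 7 910)
(fin 1230 5 974)))))))))))))
(cons (cons (mv 974 (cons (cons (mv 973 (cons (fin 972 0 972)
(mv 976 (cons (fin 1041 0 973)
(mv 783 (cons (fin 847 4 783)
(mv 908 (cons (fin 909 3 908)
(mv 912 (cons (fin 913 2 909)
(mv 848 (cons (fin 784 5 783)
(fin 1103 5 847)))))))))))))
(cons (mv 1103 (cons (cons (mv 848 (cons (fin 912 6 847)
(mv 784 (cons (fin 847 6 783)
(mv 1102 (cons (fin 1166 5 910)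
(mv 1100 (cons (fin 1101 2 1036)
(mv 1167 (cons (fin 910 7 910)
(mv 1231 (cons (fin 976 6 975)
(mv 1232 (cons (fin 1168 4 975)
(fin 1296 4 1039)))))))))))))))
(mv 848 (cons (fin 912 6 847)
(mv 847 (cons (fin 784 6 783)
(mv 783 (cons (fin 976 4 783)
(mv 718 (cons (fin 782 7 718)
(mv 719 (cons (fin 654 7 654)
(fin 910 5 718))))))))))))
(cons (mv 1102 (cons (fin 1166 5 910)
(mv 1100 (cons (fin 1101 2 1036)
(mv 1167 (cons (fin 910 7 910)
(mv 1231 (cons (fin 976 6 975)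
(mv 1232 (cons (fin 1168 4 975)
(fin 1296 4 1039)))))))))))
(cons (mv 848 (cons (fin 912 6 847)
(mv 784 (cons (fin 847 6 783)
(mv 1166 (cons (fin 1102 5 910)
(mv 1167 (cons (fin 1230 5 974)
(mv 1231 (cons (fin 976 6 975)
(mv 1232 (cons (fin 1168 4 975)
(fin 1296 4 1039)))))))))))))
(mv 848 (cons (fin 912 6 847)
(mv 784 (cons (fin 847 6 783)
(mv 1166 (cons (fin 1102 5 910)
(mv 1167 (cons (fin 910 7 910)
(fin 1230 5 974)))))))))))))
(mv 973 (cons (fin 972 0 972)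
(mv 976 (cons (fin 1041 0 973)
(mv 783 (cons (fin 847 4 783)
(mv 909 (cons (fin 908 3 908)
(mv 910 (cons (fin 977 3 909)
(mv 1037 (cons (fin 1036 1 972)
(mv 1101 (cons (fin 1165 6 909)
(mv 1100 (cons (fin 1164 5 908)
(mv 1102 (cons (fin 1103 2 1036)
(fin 1166 4 909)))))))))))))))))))))
(cons (mv 973 (cons (fin 972 0 972)
(mv 976 (cons (fin 1041 0 973)
(mv 783 (cons (fin 847 4 783)
(mv 908 (cons (fin 909 3 908)
(mv 913 (cons (fin 912 2 909)
(mv 977 (cons (fin 914 2 910)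
(mv 978 (cons (fin 910 3 910)
(fin 979 1 975)))))))))))))))
(cons (mv 973 (cons (fin 972 0 972)
(mv 912 (cons (mv 913 (cons (fin 910 1 909)
(fin 914 1 910)))
(mv 848 (cons (fin 1103 6 847)
(mv 784 (cons (fin 720 5 719)
(fin 847 6 783)))))))))
(mv 973 (cons (fin 972 0 972)
(mv 976 (cons (fin 1041 0 973)
(mv 908 (cons (fin 909 3 908)
(mv 912 (cons (fin 913 2 909)
(mv 848 (cons (fin 784 5 783)
(fin 1103 5 847)))))))))))))))
(mv 848 (cons (cons (mv 784 (cons (fin 847 6 783)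
(mv 912 (cons (fin 720 5 719)
(fin 1103 6 847)))))
(mv 847 (cons (fin 784 6 783)
(mv 846 (cons (fin 782 7 782)
(mv 845 (cons (cons (mv 912 (cons (fin 844 0 844)
(fin 913 0 845)))
(mv 780 (cons (fin 781 3 780)
(mv 779 (cons (fin 844 3 779)
(mv 909 (cons (fin 908 1 844)
(mv 849 (cons (fin 910 1 845)
(mv 786 (cons (fin 785 2 782)
(mv 850 (cons (fin 787 2 783)
(mv 914 (cons (fin 913 0 846)
(fin 915 0 847))))))))))))))))
(cons (mv 780 (cons (fin 781 3 780)
(mv 908 (cons (fin 909 1 844)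
(mv 913 (cons (fin 912 0 845)
(mv 849 (cons (fin 914 0 846)
(mv 786 (cons (fin 785 2 782)
(mv 850 (cons (fin 910 1 846)
(fin 787 2 783)))))))))))))
(mv 780 (cons (fin 781 3 780)
(mv 844 (cons (fin 779 3 779)
(fin 912 0 844)))))))))))))
(cons (mv 1103 (cons (fin 912 6 847)
(mv 910 (cons (fin 846 7 846)
(mv 1166 (cons (fin 1102 5 910)
(mv 1167 (cons (fin 974 7 910)
(fin 1230 5 974)))))))))
(mv 847 (cons (fin 784 6 783)
(mv 846 (cons (fin 782 7 782)
(mv 910 (cons (fin 1103 7 846)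
(mv 849 (cons (fin 909 1 845)
(fin 850 1 846)))))))))))))
(cons (mv 847 (cons (cons (mv 782 (cons (fin 846 7 782)
(mv 783 (cons (fin 718 7 718)
(fin 976 4 783)))))
(mv 784 (cons (fin 848 6 783)
(mv 846 (cons (fin 782 7 782)
(mv 1103 (cons (fin 910 7 846)
(mv 1166 (cons (fin 1102 5 910)
(mv 1167 (cons (fin 1230 5 974)
(mv 1231 (cons (fin 976 6 975)
(mv 1232 (cons (fin 1168 4 975)
(fin 1296 4 1039))))))))))))))))
(cons (mv 783 (cons (fin 976 4 783)
(mv 784 (cons (fin 720 6 719)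
(fin 848 6 783)))))
(mv 782 (cons (fin 846 7 782)
(mv 783 (cons (fin 718 7 718)
(mv 784 (cons (fin 720 6 719)
(fin 848 6 783))))))))))
(mv 847 (cons (cons (mv 782 (cons (fin 846 7 782)
(mv 783 (cons (fin 718 7 718)
(fin 976 4 783)))))
(mv 782 (cons (fin 846 7 782)
(mv 848 (cons (fin 784 6 783)
(mv 1103 (cons (fin 912 6 847)
(mv 1166 (cons (fin 1102 5 910)
(mv 1167 (cons (fin 1230 5 974)
(mv 1231 (cons (fin 976 6 975)
(mv 1232 (cons (fin 1168 4 975)
(fin 1296 4 1039))))))))))))))))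
(cons (mv 783 (cons (fin 976 4 783)
(mv 784 (cons (fin 720 6 719)
(fin 848 6 783)))))
(mv 782 (cons (fin 846 7 782)
(mv 783 (cons (fin 718 7 718)
(mv 784 (cons (fin 720 6 719)
(fin 848 6 783))))))))))))))
(mv 976 (cons (cons (cons (mv 1103 (cons (cons (mv 912 (cons (fin 848 5 847)
(mv 1167 (cons (fin 1104 5 911)
(fin 975 6 911)))))
(mv 1167 (cons (fin 1231 6 975)
(mv 975 (cons (mv 910 (cons (fin 846 7 846)
(fin 974 7 910)))
(mv 1166 (cons (fin 1102 5 910)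
(fin 1230 5 974))))))))
(cons (mv 848 (cons (fin 912 5 847)
(mv 975 (cons (mv 846 (cons (fin 910 7 846)
(mv 1102 (cons (fin 1166 5 910)
(mv 1101 (cons (fin 1100 2 1036)
(mv 1104 (cons (fin 1041 2 1037)
(fin 1168 7 911)))))))))
(cons (mv 910 (cons (fin 846 7 846)
(mv 909 (cons (fin 908 0 908)
(mv 977 (cons (fin 974 3 909)
(fin 978 3 910)))))))
(mv 1102 (cons (fin 1166 5 910)
(mv 1101 (cons (fin 1100 2 1036)
(mv 1104 (cons (fin 1041 2 1037)
(fin 1168 7 911))))))))))))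
(mv 912 (cons (fin 848 5 847)
(mv 1167 (cons (fin 1104 5 911)
(fin 1231 6 975))))))))
(mv 1104 (cons (cons (mv 1168 (cons (fin 975 7 911)
(mv 913 (cons (fin 977 6 912)
(mv 849 (cons (fin 912 6 848)
(mv 1231 (cons (fin 1167 5 975)
(mv 1232 (cons (fin 1295 5 1039)
(mv 1233 (cons (fin 1169 4 976)
(fin 1297 4 1040)))))))))))))
(mv 912 (cons (mv 849 (cons (fin 913 6 848)
(mv 848 (cons (fin 785 6 784)
(mv 1105 (cons (fin 1041 4 848)
(fin 1169 4 912)))))))
(cons (mv 913 (cons (fin 849 6 848)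
(mv 910 (cons (cons (mv 977 (cons (fin 909 0 909)
(fin 978 0 910)))
(mv 845 (cons (fin 846 3 845)
(mv 844 (cons (fin 909 3 844)
(mv 974 (cons (fin 973 1 909)
(mv 914 (cons (fin 975 1 910)
(mv 851 (cons (fin 850 2 847)
(mv 915 (cons (fin 852 2 848)
(mv 979 (cons (fin 978 0 911)
(fin 980 0 912))))))))))))))))
(cons (mv 845 (cons (fin 846 3 845)
(mv 909 (cons (fin 844 3 844)
(fin 977 0 909)))))
(mv 845 (cons (fin 846 3 845)
(mv 973 (cons (fin 974 1 909)
(mv 978 (cons (fin 977 0 910)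
(mv 914 (cons (fin 979 0 911)
(mv 851 (cons (fin 850 2 847)
(mv 915 (cons (fin 975 1 911)
(fin 852 2 848))))))))))))))))))
(mv 1105 (cons (fin 1169 4 912)
(mv 848 (cons (fin 1041 4 848)
(mv 784 (cons (fin 975 5 783)
(mv 719 (cons (fin 783 7 719)
(mv 720 (cons (fin 655 7 655)
(mv 721 (cons (fin 657 6 656)
(fin 785 6 720)))))))))))))))))
(cons (mv 1168 (cons (cons (mv 913 (cons (fin 977 6 912)
(mv 849 (cons (fin 912 6 848)
(mv 1231 (cons (fin 1167 5 975)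
(mv 1232 (cons (fin 1295 5 1039)
(mv 1233 (cons (fin 1169 4 976)
(fin 1297 4 1040)))))))))))
(mv 1167 (cons (fin 1231 5 975)
(mv 1169 (cons (fin 1233 4 976)
(mv 1105 (cons (fin 912 4 912)
(mv 1106 (cons (fin 1107 3 1039)
(fin 1166 2 1102))))))))))
(cons (mv 977 (cons (fin 913 6 912)
(mv 978 (cons (fin 979 1 975)
(mv 1231 (cons (fin 1167 5 975)
(mv 1232 (cons (fin 1295 5 1039)
(fin 1041 6 976)))))))))
(mv 913 (cons (fin 977 6 912)
(mv 912 (cons (fin 849 6 848)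
(mv 1169 (cons (fin 1105 4 912)
(fin 1233 4 976))))))))))
(cons (mv 1168 (cons (fin 975 7 911)
(mv 1167 (cons (fin 1231 5 975)
(mv 1169 (cons (fin 1233 4 976)
(mv 1105 (cons (fin 912 4 912)
(mv 1106 (cons (fin 1107 3 1039)
(fin 1166 2 1102)))))))))))
(mv 975 (cons (fin 1168 7 911)
(mv 977 (cons (mv 978 (cons (fin 910 3 910)
(fin 979 1 975)))
(cons (mv 974 (cons (mv 973 (cons (fin 972 0 972)
(fin 1041 0 973)))
(cons (mv 909 (cons (fin 910 3 909)
(mv 913 (cons (fin 914 2 910)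
(mv 849 (cons (fin 785 5 784)
(fin 1041 5 848)))))))
(mv 909 (cons (fin 910 3 909)
(mv 973 (cons (fin 908 3 908)
(fin 972 0 972))))))))
(mv 978 (cons (fin 979 1 975)
(mv 914 (cons (fin 915 2 911)
(mv 913 (cons (fin 974 2 910)
(mv 849 (cons (fin 785 5 784)
(fin 1041 5 848)))))))))))))))))))
(cons (mv 912 (cons (cons (mv 848 (cons (fin 1103 5 847)
(mv 785 (cons (fin 849 6 784)
(mv 784 (cons (fin 721 6 720)
(mv 1041 (cons (fin 977 4 784)
(fin 1105 4 848)))))))))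
(mv 1104 (cons (cons (mv 849 (cons (fin 913 6 848)
(mv 1167 (cons (fin 1103 5 911)
(mv 1168 (cons (fin 1231 5 975)
(mv 1169 (cons (fin 1105 4 912)
(fin 1233 4 976)))))))))
(mv 913 (cons (fin 849 6 848)
(mv 977 (cons (fin 1168 6 912)
(mv 910 (cons (fin 909 0 909)
(fin 978 0 910))))))))
(cons (mv 1167 (cons (fin 1103 5 911)
(mv 1168 (cons (fin 1231 5 975)
(mv 1169 (cons (fin 1105 4 912)
(fin 1233 4 976)))))))
(mv 913 (cons (fin 849 6 848)
(mv 1103 (cons (fin 1167 5 911)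
(mv 1105 (cons (fin 1169 4 912)
(mv 1106 (cons (fin 1107 3 1039)
(mv 1170 (cons (fin 1171 0 1103)
(mv 977 (cons (fin 1041 4 913)
(mv 910 (cons (fin 909 0 909)
(fin 978 0 910)))))))))))))))))))
(cons (mv 848 (cons (cons (mv 785 (cons (fin 849 6 784)
(mv 784 (cons (fin 721 6 720)
(mv 1041 (cons (fin 977 4 784)
(fin 1105 4 848)))))))
(mv 1041 (cons (fin 1105 4 848)
(mv 784 (cons (fin 977 4 784)
(mv 719 (cons (fin 783 7 719)
(mv 720 (cons (fin 655 7 655)
(mv 721 (cons (fin 657 6 656)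
(fin 785 6 720))))))))))))
(cons (mv 785 (cons (fin 849 6 784)
(mv 784 (cons (fin 721 6 720)
(mv 719 (cons (fin 783 7 719)
(mv 655 (cons (fin 720 7 655)
(mv 977 (cons (fin 1041 4 784)
(mv 910 (cons (fin 909 0 909)
(mv 978 (cons (fin 979 3 911)
(fin 913 0 910)))))))))))))))
(cons (mv 849 (cons (fin 785 6 784)
(mv 850 (cons (fin 851 1 847)
(mv 910 (cons (fin 909 2 845)
(fin 913 2 846)))))))
(mv 1041 (cons (fin 1105 4 848)
(mv 977 (cons (fin 784 4 784)
(mv 910 (cons (fin 909 0 909)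
(mv 978 (cons (fin 979 3 911)
(fin 913 0 910)))))))))))))
(cons (mv 848 (cons (fin 1103 5 847)
(mv 849 (cons (fin 785 6 784)
(mv 850 (cons (fin 851 1 847)
(mv 910 (cons (fin 909 2 845)
(fin 913 2 846)))))))))
(mv 848 (cons (fin 1103 5 847)
(mv 1041 (cons (fin 1105 4 848)
(mv 784 (cons (fin 977 4 784)
(mv 719 (cons (fin 783 7 719)
(mv 720 (cons (fin 655 7 655)
(mv 721 (cons (fin 657 6 656)
(fin 785 6 720)))))))))))))))))
(mv 975 (cons (cons (mv 1104 (cons (fin 1168 7 911)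
(mv 1103 (cons (mv 846 (cons (fin 910 7 846)
(mv 1102 (cons (fin 1166 5 910)
(mv 1101 (cons (fin 1100 2 1036)
(fin 1041 2 1037)))))))
(cons (mv 1102 (cons (fin 1166 5 910)
(mv 1101 (cons (fin 1100 2 1036)
(fin 1041 2 1037)))))
(mv 910 (cons (fin 846 7 846)
(mv 1167 (cons (fin 974 7 910)
(fin 1231 6 975))))))))))
(mv 910 (cons (mv 846 (cons (fin 1103 7 846)
(mv 782 (cons (fin 718 4 718)
(fin 974 4 782)))))
(cons (mv 909 (cons (fin 908 0 908)
(mv 977 (cons (fin 974 3 909)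
(fin 978 3 910)))))
(mv 908 (cons (fin 909 0 908)
(mv 977 (cons (fin 978 3 910)
(mv 1103 (cons (fin 846 7 846)
(mv 1166 (cons (fin 1102 5 910)
(mv 1167 (cons (fin 1230 5 974)
(fin 1231 6 975)))))))))))))))
(cons (mv 1104 (cons (fin 1168 7 911)
(mv 977 (cons (mv 978 (cons (fin 910 3 910)
(fin 979 1 975)))
(cons (mv 974 (cons (mv 973 (cons (fin 972 0 972)
(fin 1041 0 973)))
(cons (mv 909 (cons (fin 910 3 909)
(mv 913 (cons (fin 914 2 910)
(mv 849 (cons (fin 785 5 784)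
(fin 1041 5 848)))))))
(mv 909 (cons (fin 910 3 909)
(mv 973 (cons (fin 908 3 908)
(fin 972 0 972))))))))
(mv 978 (cons (fin 979 1 975)
(mv 914 (cons (fin 915 2 911)
(mv 913 (cons (fin 974 2 910)
(mv 849 (cons (fin 785 5 784)
(fin 1041 5 848))))))))))))))
(mv 1103 (cons (cons (mv 1102 (cons (fin 1166 5 910)
(mv 1100 (cons (fin 1101 2 1036)
(mv 1167 (cons (fin 1231 6 975)
(mv 1168 (cons (fin 1104 7 911)
(fin 1232 4 975)))))))))
(mv 1166 (cons (fin 1102 5 910)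
(mv 1167 (cons (fin 1230 5 974)
(fin 1231 6 975))))))
(cons (mv 1102 (cons (fin 1166 5 910)
(mv 1101 (cons (fin 1100 2 1036)
(mv 1104 (cons (fin 1041 2 1037)
(fin 1168 7 911)))))))
(mv 1167 (cons (fin 1231 6 975)
(mv 1168 (cons (fin 1104 7 911)
(fin 1232 4 975)))))))))))))
(cons (cons (mv 912 (cons (cons (mv 848 (cons (fin 1103 5 847)
(mv 784 (cons (fin 975 5 783)
(mv 785 (cons (fin 721 6 720)
(fin 849 6 784)))))))
(mv 910 (cons (cons (mv 909 (cons (fin 977 0 909)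
(mv 844 (cons (fin 845 3 844)
(mv 908 (cons (fin 843 3 843)
(fin 975 0 908)))))))
(mv 975 (cons (mv 1103 (cons (fin 846 7 846)
(fin 1167 6 911)))
(mv 909 (cons (fin 908 0 908)
(mv 844 (cons (fin 845 3 844)
(mv 973 (cons (fin 972 1 908)
(mv 974 (cons (fin 913 1 909)
(fin 1041 0 973))))))))))))
(cons (mv 913 (cons (cons (mv 845 (cons (fin 846 3 845)
(mv 849 (cons (fin 850 2 846)
(mv 785 (cons (fin 721 5 720)
(fin 977 5 784)))))))
(mv 845 (cons (fin 846 3 845)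
(mv 850 (cons (fin 849 2 846)
(mv 914 (cons (fin 851 2 847)
(mv 974 (cons (fin 973 1 909)
(fin 975 1 910))))))))))
(cons (mv 845 (cons (fin 846 3 845)
(mv 973 (cons (fin 974 1 909)
(mv 978 (cons (fin 977 0 910)
(mv 914 (cons (fin 979 0 911)
(mv 851 (cons (fin 850 2 847)
(mv 915 (cons (fin 975 1 911)
(fin 852 2 848)))))))))))))
(cons (mv 849 (cons (fin 850 2 846)
(mv 785 (cons (fin 721 5 720)
(fin 977 5 784)))))
(mv 845 (cons (fin 846 3 845)
(mv 974 (cons (fin 973 1 909)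
(mv 914 (cons (fin 975 1 910)
(mv 978 (cons (fin 977 0 910)
(fin 979 0 911)))))))))))))
(cons (mv 909 (cons (fin 977 0 909)
(mv 844 (cons (fin 845 3 844)
(mv 908 (cons (fin 843 3 843)
(mv 972 (cons (fin 971 1 907)
(fin 973 1 908)))))))))
(mv 909 (cons (fin 977 0 909)
(mv 908 (cons (fin 975 0 908)
(mv 972 (cons (fin 971 1 907)
(fin 973 1 908))))))))))))
(cons (mv 848 (cons (mv 784 (cons (fin 975 5 783)
(mv 785 (cons (fin 721 6 720)
(fin 849 6 784)))))
(cons (mv 849 (cons (fin 785 6 784)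
(mv 850 (cons (fin 851 1 847)
(mv 910 (cons (fin 909 2 845)
(fin 913 2 846)))))))
(mv 784 (cons (fin 975 5 783)
(mv 1041 (cons (fin 977 4 784)
(fin 1105 4 848))))))))
(cons (mv 848 (cons (fin 1103 5 847)
(mv 785 (cons (fin 849 6 784)
(mv 784 (cons (fin 721 6 720)
(mv 1041 (cons (fin 977 4 784)
(fin 1105 4 848)))))))))
(mv 848 (cons (fin 1103 5 847)
(mv 784 (cons (fin 975 5 783)
(mv 1041 (cons (fin 977 4 784)
(fin 1105 4 848)))))))))))
(mv 1103 (cons (cons (mv 912 (cons (fin 848 5 847)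
(mv 1167 (cons (fin 1104 5 911)
(fin 975 6 911)))))
(mv 1167 (cons (fin 1231 6 975)
(mv 975 (cons (mv 910 (cons (fin 846 7 846)
(fin 974 7 910)))
(mv 1166 (cons (fin 1102 5 910)
(fin 1230 5 974))))))))
(cons (mv 912 (cons (fin 848 5 847)
(mv 975 (cons (cons (mv 846 (cons (fin 910 7 846)
(mv 1102 (cons (fin 1166 5 910)
(mv 1100 (cons (fin 1101 2 1036)
(mv 1104 (cons (fin 1168 7 911)
(mv 913 (cons (fin 849 6 848)
(mv 914 (cons (fin 974 1 910)
(fin 915 1 911)))))))))))))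
(mv 910 (cons (fin 846 7 846)
(mv 909 (cons (fin 908 0 908)
(mv 844 (cons (fin 845 3 844)
(mv 973 (cons (fin 972 1 908)
(mv 974 (cons (fin 913 1 909)
(fin 1041 0 973))))))))))))
(cons (mv 1102 (cons (fin 1166 5 910)
(mv 1100 (cons (fin 1101 2 1036)
(mv 1104 (cons (fin 1168 7 911)
(mv 913 (cons (fin 849 6 848)
(mv 914 (cons (fin 974 1 910)
(fin 915 1 911)))))))))))
(mv 846 (cons (fin 910 7 846)
(mv 1102 (cons (fin 1166 5 910)
(mv 1101 (cons (fin 1100 2 1036)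
(mv 1104 (cons (fin 1041 2 1037)
(fin 1168 7 911))))))))))))))
(mv 912 (cons (fin 848 5 847)
(mv 1167 (cons (fin 1104 5 911)
(fin 1231 6 975)))))))))
(cons (mv 975 (cons (cons (mv 1168 (cons (fin 1104 7 911)
(mv 910 (cons (mv 846 (cons (fin 1103 7 846)
(mv 782 (cons (fin 718 4 718)
(fin 974 4 782)))))
(cons (mv 909 (cons (fin 908 0 908)
(mv 977 (cons (fin 974 3 909)
(fin 978 3 910)))))
(mv 846 (cons (fin 1103 7 846)
(mv 718 (cons (fin 782 4 718)
(mv 909 (cons (fin 908 0 908)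
(mv 977 (cons (fin 978 3 910)
(fin 912 0 909))))))))))))))
(mv 912 (cons (mv 848 (cons (fin 784 5 783)
(fin 1103 5 847)))
(cons (mv 910 (cons (mv 909 (cons (fin 908 0 908)
(fin 977 0 909)))
(mv 846 (cons (fin 1103 7 846)
(mv 782 (cons (fin 718 4 718)
(fin 974 4 782)))))))
(mv 848 (cons (fin 784 5 783)
(mv 849 (cons (fin 785 6 784)
(mv 850 (cons (fin 851 1 847)
(mv 910 (cons (fin 909 2 845)
(fin 913 2 846)))))))))))))
(cons (mv 1104 (cons (fin 1168 7 911)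
(mv 912 (cons (mv 784 (cons (fin 848 5 783)
(mv 913 (cons (fin 849 6 848)
(mv 914 (cons (fin 974 1 910)
(fin 915 1 911)))))))
(cons (mv 848 (cons (fin 784 5 783)
(mv 1105 (cons (fin 1041 4 848)
(fin 1169 4 912)))))
(mv 913 (cons (fin 849 6 848)
(mv 914 (cons (fin 974 1 910)
(fin 915 1 911))))))))))
(cons (mv 1104 (cons (fin 1168 7 911)
(mv 910 (cons (mv 846 (cons (fin 1103 7 846)
(mv 782 (cons (fin 718 4 718)
(fin 974 4 782)))))
(cons (mv 909 (cons (fin 908 0 908)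
(mv 977 (cons (fin 974 3 909)
(fin 978 3 910)))))
(mv 908 (cons (fin 909 0 908)
(mv 977 (cons (fin 978 3 910)
(mv 1103 (cons (fin 846 7 846)
(mv 1102 (cons (fin 1166 5 910)
(mv 1101 (cons (fin 1100 2 1036)
(fin 1041 2 1037))))))))))))))))
(mv 1104 (cons (fin 1168 7 911)
(mv 912 (cons (mv 848 (cons (fin 784 5 783)
(fin 1103 5 847)))
(cons (mv 913 (cons (fin 849 6 848)
(mv 914 (cons (fin 915 1 911)
(mv 850 (cons (fin 851 2 847)
(mv 978 (cons (fin 979 0 911)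
(mv 910 (cons (fin 977 3 910)
(mv 846 (cons (fin 845 3 845)
(fin 1103 7 846)))))))))))))
(mv 784 (cons (fin 848 5 783)
(mv 913 (cons (fin 849 6 848)
(mv 914 (cons (fin 915 1 911)
(mv 850 (cons (fin 851 2 847)
(mv 978 (cons (fin 979 0 911)
(mv 910 (cons (fin 977 3 910)
(mv 845 (cons (fin 846 3 845)
(mv 909 (cons (fin 844 3 844)
(fin 908 0 908))))))))))))))))))))))))))
(cons (mv 1103 (cons (cons (mv 912 (cons (fin 848 5 847)
(mv 1167 (cons (fin 1104 5 911)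
(fin 975 6 911)))))
(mv 1167 (cons (fin 1231 6 975)
(mv 975 (cons (mv 1166 (cons (fin 1102 5 910)
(fin 1230 5 974)))
(mv 1168 (cons (fin 1104 7 911)
(fin 1232 4 975))))))))
(cons (mv 848 (cons (fin 912 5 847)
(mv 1104 (cons (cons (mv 975 (cons (fin 1168 7 911)
(mv 1102 (cons (fin 1166 5 910)
(mv 1101 (cons (fin 1100 2 1036)
(fin 1041 2 1037)))))))
(mv 1102 (cons (mv 1101 (cons (fin 1100 2 1036)
(fin 1041 2 1037)))
(mv 1166 (cons (fin 975 5 910)
(mv 1105 (cons (fin 1165 1 1101)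
(mv 1106 (cons (fin 1107 3 1039)
(mv 1170 (cons (fin 1169 0 1102)
(fin 1171 0 1103))))))))))))
(cons (mv 1168 (cons (mv 913 (cons (fin 977 6 912)
(mv 1169 (cons (fin 1233 4 976)
(mv 1102 (cons (fin 1101 0 1101)
(mv 1170 (cons (fin 1171 3 1103)
(fin 1105 0 1102)))))))))
(cons (mv 977 (cons (fin 913 6 912)
(mv 1232 (cons (fin 1296 7 1039)
(fin 1041 6 976)))))
(mv 1169 (cons (fin 1233 4 976)
(mv 1102 (cons (fin 1101 0 1101)
(mv 1170 (cons (fin 1171 3 1103)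
(fin 1105 0 1102))))))))))
(mv 1168 (cons (fin 975 7 911)
(mv 913 (cons (fin 977 6 912)
(mv 1232 (cons (fin 1296 7 1039)
(mv 1233 (cons (fin 1169 4 976)
(fin 1297 4 1040))))))))))))))
(cons (mv 912 (cons (fin 848 5 847)
(mv 1167 (cons (fin 1104 5 911)
(fin 1231 6 975)))))
(mv 912 (cons (fin 848 5 847)
(mv 1167 (cons (fin 975 6 911)
(fin 1231 6 975)))))))))
(mv 1103 (cons (cons (mv 912 (cons (fin 848 5 847)
(mv 1167 (cons (fin 1104 5 911)
(fin 975 6 911)))))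
(mv 1167 (cons (fin 1231 6 975)
(mv 975 (cons (mv 910 (cons (fin 846 7 846)
(fin 974 7 910)))
(mv 1166 (cons (fin 1102 5 910)
(fin 1230 5 974))))))))
(cons (mv 912 (cons (fin 848 5 847)
(mv 975 (cons (mv 846 (cons (fin 910 7 846)
(mv 1102 (cons (fin 1166 5 910)
(mv 1100 (cons (fin 1101 2 1036)
(mv 1104 (cons (fin 1168 7 911)
(mv 913 (cons (fin 849 6 848)
(mv 914 (cons (fin 974 1 910)
(fin 915 1 911)))))))))))))
(cons (mv 910 (cons (fin 846 7 846)
(mv 909 (cons (fin 908 0 908)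
(fin 977 0 909)))))
(mv 1102 (cons (fin 1166 5 910)
(mv 1100 (cons (fin 1101 2 1036)
(mv 1104 (cons (fin 1168 7 911)
(mv 913 (cons (fin 849 6 848)
(mv 914 (cons (fin 974 1 910)
(fin 915 1 911))))))))))))))))
(mv 912 (cons (fin 848 5 847)
(mv 1167 (cons (fin 1104 5 911)
(fin 1231 6 975)))))))))))))))
(cons (cons (mv 847 (cons (cons (mv 975 (cons (fin 1104 4 847)
(mv 782 (cons (fin 846 7 782)
(mv 783 (cons (fin 718 7 718)
(fin 976 4 783)))))))
(cons (mv 912 (cons (cons (mv 976 (cons (fin 1104 7 847)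
(mv 783 (cons (fin 848 7 783)
(fin 719 4 719)))))
(mv 913 (cons (cons (mv 846 (cons (fin 914 3 846)
(mv 845 (cons (fin 910 3 845)
(fin 844 0 844)))))
(mv 910 (cons (cons (mv 845 (cons (fin 846 3 845)
(mv 844 (cons (fin 909 3 844)
(mv 849 (cons (fin 850 2 846)
(mv 973 (cons (fin 974 1 909)
(mv 977 (cons (fin 978 0 910)
(mv 1041 (cons (fin 1104 5 848)
(mv 848 (cons (fin 784 7 784)
(fin 1105 7 848)))))))))))))))
(mv 849 (cons (fin 850 2 846)
(mv 848 (cons (fin 909 2 845)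
(mv 973 (cons (fin 974 1 909)
(mv 977 (cons (fin 978 0 910)
(mv 784 (cons (fin 1041 7 784)
(fin 720 4 720))))))))))))
(cons (mv 845 (cons (fin 846 3 845)
(mv 909 (cons (fin 844 3 844)
(mv 973 (cons (fin 972 1 908)
(fin 974 1 909)))))))
(cons (mv 845 (cons (fin 846 3 845)
(mv 844 (cons (fin 909 3 844)
(mv 849 (cons (fin 850 2 846)
(mv 977 (cons (fin 978 0 910)
(mv 1041 (cons (fin 1104 5 848)
(mv 848 (cons (fin 784 7 784)
(fin 1105 7 848)))))))))))))
(mv 845 (cons (fin 846 3 845)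
(mv 849 (cons (fin 850 2 846)
(mv 973 (cons (fin 974 1 909)
(mv 977 (cons (fin 978 0 910)
(mv 1041 (cons (fin 1104 5 848)
(mv 848 (cons (fin 784 7 784)
(fin 1105 7 848))))))))))))))))))
(cons (mv 910 (cons (mv 849 (cons (fin 850 2 846)
(mv 848 (cons (fin 909 2 845)
(mv 914 (cons (fin 915 3 847)
(mv 978 (cons (fin 977 0 910)
(fin 979 0 911)))))))))
(cons (mv 973 (cons (fin 974 1 909)
(mv 909 (cons (fin 972 1 908)
(mv 844 (cons (fin 845 3 844)
(mv 908 (cons (fin 843 3 843)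
(fin 848 2 844)))))))))
(mv 850 (cons (fin 849 2 846)
(mv 914 (cons (fin 851 2 847)
(mv 978 (cons (fin 977 0 910)
(fin 979 0 911))))))))))
(cons (mv 846 (cons (fin 914 3 846)
(mv 845 (cons (fin 844 0 844)
(fin 848 0 845)))))
(mv 914 (cons (fin 846 3 846)
(mv 848 (cons (fin 915 3 847)
(mv 850 (cons (fin 851 2 847)
(mv 849 (cons (fin 910 1 846)
(mv 782 (cons (fin 783 3 782)
(mv 786 (cons (fin 787 2 783)
(mv 722 (cons (fin 658 5 657)
(fin 977 5 721))))))))))))))))))))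
(cons (mv 846 (cons (cons (mv 845 (cons (fin 844 0 844)
(mv 913 (cons (fin 910 3 845)
(fin 914 3 846)))))
(mv 913 (cons (fin 914 3 846)
(mv 910 (cons (cons (mv 849 (cons (fin 850 2 846)
(mv 848 (cons (fin 909 1 845)
(mv 785 (cons (fin 786 2 782)
(fin 976 6 784)))))))
(mv 973 (cons (fin 974 1 909)
(mv 909 (cons (fin 972 1 908)
(mv 908 (cons (fin 907 2 843)
(fin 848 2 844))))))))
(cons (mv 849 (cons (fin 850 2 846)
(mv 973 (cons (fin 974 1 909)
(mv 977 (cons (fin 978 0 910)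
(mv 785 (cons (fin 976 5 784)
(mv 786 (cons (fin 848 2 782)
(fin 722 6 721)))))))))))
(mv 849 (cons (fin 850 2 846)
(mv 973 (cons (fin 974 1 909)
(mv 909 (cons (fin 972 1 908)
(mv 977 (cons (fin 976 0 909)
(fin 978 0 910)))))))))))))))
(cons (mv 845 (cons (fin 844 0 844)
(mv 848 (cons (cons (cons (mv 780 (cons (fin 781 3 780)
(mv 783 (cons (fin 976 7 783)
(mv 655 (cons (fin 719 4 655)
(mv 784 (cons (fin 785 2 781)
(mv 656 (cons (fin 720 5 655)
(mv 909 (cons (fin 908 1 844)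
(mv 849 (cons (fin 910 1 845)
(mv 850 (cons (fin 782 3 782)
(fin 851 3 783)))))))))))))))))
(mv 780 (cons (fin 781 3 780)
(mv 783 (cons (fin 976 7 783)
(mv 655 (cons (fin 719 4 655)
(mv 785 (cons (fin 784 2 781)
(mv 849 (cons (fin 786 2 782)
(mv 850 (cons (fin 782 3 782)
(fin 910 1 846))))))))))))))
(cons (mv 780 (cons (fin 781 3 780)
(mv 784 (cons (fin 785 2 781)
(mv 656 (cons (fin 720 5 655)
(mv 909 (cons (fin 908 1 844)
(mv 910 (cons (fin 849 1 845)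
(mv 973 (cons (fin 972 1 908)
(mv 782 (cons (fin 718 5 717)
(fin 1037 6 781)))))))))))))))
(mv 780 (cons (fin 781 3 780)
(mv 783 (cons (fin 976 7 783)
(mv 655 (cons (fin 719 4 655)
(mv 909 (cons (fin 908 1 844)
(mv 849 (cons (fin 910 1 845)
(mv 850 (cons (fin 782 3 782)
(fin 851 1 847)))))))))))))))
(cons (cons (mv 783 (cons (fin 976 7 783)
(mv 655 (cons (fin 719 4 655)
(mv 784 (cons (fin 785 2 781)
(mv 656 (cons (fin 720 5 655)
(mv 909 (cons (fin 908 1 844)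
(mv 849 (cons (fin 910 1 845)
(mv 850 (cons (fin 782 3 782)
(fin 851 3 783)))))))))))))))
(mv 780 (cons (fin 781 3 780)
(mv 783 (cons (fin 976 7 783)
(mv 719 (cons (fin 655 4 655)
(mv 654 (cons (fin 718 7 654)
(mv 656 (cons (fin 720 6 655)
(mv 784 (cons (fin 785 2 781)
(mv 909 (cons (fin 908 1 844)
(mv 910 (cons (fin 974 5 718)
(mv 973 (cons (fin 972 1 908)
(mv 1037 (cons (fin 782 6 781)
(fin 1101 6 845))))))))))))))))))))))
(cons (mv 780 (cons (fin 781 3 780)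
(mv 783 (cons (fin 976 7 783)
(mv 655 (cons (fin 719 4 655)
(mv 785 (cons (fin 784 2 781)
(mv 849 (cons (fin 786 2 782)
(mv 850 (cons (fin 782 3 782)
(fin 851 1 847)))))))))))))
(mv 780 (cons (fin 781 3 780)
(mv 783 (cons (fin 976 7 783)
(mv 655 (cons (fin 719 4 655)
(mv 785 (cons (fin 784 2 781)
(mv 849 (cons (fin 786 2 782)
(mv 850 (cons (fin 910 1 846)
(fin 851 1 847)))))))))))))))))))
(mv 845 (cons (fin 844 0 844)
(mv 913 (cons (fin 914 3 846)
(fin 848 0 845))))))))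
(cons (mv 976 (cons (fin 1104 7 847)
(mv 848 (cons (cons (mv 785 (cons (fin 849 6 784)
(mv 784 (cons (fin 721 6 720)
(mv 1041 (cons (fin 977 4 784)
(fin 1105 4 848)))))))
(mv 1041 (cons (fin 1105 4 848)
(mv 784 (cons (fin 977 4 784)
(mv 720 (cons (fin 656 5 655)
(mv 721 (cons (fin 657 6 656)
(fin 785 6 720))))))))))
(cons (mv 1041 (cons (fin 1105 4 848)
(mv 977 (cons (fin 784 4 784)
(mv 910 (cons (fin 909 0 909)
(mv 978 (cons (fin 979 3 911)
(fin 913 0 910)))))))))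
(cons (mv 785 (cons (fin 849 6 784)
(mv 784 (cons (fin 721 6 720)
(mv 720 (cons (fin 656 5 655)
(mv 655 (cons (fin 719 7 655)
(mv 786 (cons (fin 787 1 783)
(mv 846 (cons (fin 845 2 781)
(mv 913 (cons (fin 914 3 846)
(fin 977 4 720)))))))))))))))
(mv 849 (cons (fin 785 6 784)
(mv 850 (cons (fin 910 1 846)
(fin 851 1 847)))))))))))
(mv 1104 (cons (fin 976 7 847)
(mv 913 (cons (cons (mv 846 (cons (fin 914 3 846)
(mv 845 (cons (fin 910 3 845)
(fin 844 0 844)))))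
(mv 910 (cons (cons (mv 845 (cons (fin 846 3 845)
(mv 844 (cons (fin 909 3 844)
(mv 849 (cons (fin 850 2 846)
(mv 977 (cons (fin 978 0 910)
(fin 1041 5 848)))))))))
(mv 849 (cons (fin 850 2 846)
(mv 977 (cons (fin 978 0 910)
(fin 1041 5 848))))))
(cons (mv 845 (cons (fin 846 3 845)
(mv 849 (cons (fin 850 2 846)
(mv 909 (cons (fin 844 3 844)
(mv 973 (cons (fin 972 1 908)
(fin 974 1 909)))))))))
(mv 845 (cons (fin 846 3 845)
(mv 909 (cons (fin 844 3 844)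
(mv 973 (cons (fin 972 1 908)
(fin 974 1 909)))))))))))
(cons (mv 977 (cons (mv 849 (cons (fin 1041 5 848)
(mv 910 (cons (fin 850 2 846)
(fin 978 0 910)))))
(cons (mv 978 (cons (fin 910 0 910)
(mv 979 (cons (fin 980 3 912)
(fin 914 0 911)))))
(mv 1041 (cons (fin 849 5 848)
(mv 1168 (cons (fin 1105 5 912)
(fin 1232 6 976))))))))
(mv 914 (cons (fin 846 3 846)
(mv 851 (cons (fin 850 2 847)
(mv 915 (cons (fin 852 2 848)
(mv 979 (cons (fin 978 0 911)
(fin 980 0 912))))))))))))))))))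
(mv 975 (cons (cons (mv 782 (cons (fin 846 7 782)
(mv 783 (cons (fin 718 7 718)
(fin 976 4 783)))))
(mv 846 (cons (fin 782 7 782)
(mv 848 (cons (fin 784 6 783)
(mv 849 (cons (mv 910 (cons (fin 909 1 845)
(fin 850 1 846)))
(mv 785 (cons (fin 786 2 782)
(mv 912 (cons (fin 976 6 784)
(mv 845 (cons (fin 844 0 844)
(fin 913 0 845))))))))))))))
(cons (mv 783 (cons (fin 976 4 783)
(mv 784 (cons (fin 720 6 719)
(fin 848 6 783)))))
(mv 782 (cons (fin 846 7 782)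
(mv 783 (cons (fin 718 7 718)
(mv 784 (cons (fin 720 6 719)
(fin 848 6 783))))))))))))
(cons (mv 975 (cons (fin 1104 4 847)
(mv 782 (cons (fin 846 7 782)
(mv 783 (cons (fin 718 7 718)
(mv 784 (cons (fin 720 6 719)
(fin 848 6 783)))))))))
(cons (mv 975 (cons (fin 1104 4 847)
(mv 846 (cons (fin 782 7 782)
(mv 848 (cons (fin 784 6 783)
(mv 849 (cons (mv 910 (cons (fin 909 1 845)
(fin 850 1 846)))
(mv 785 (cons (fin 786 2 782)
(mv 912 (cons (fin 976 6 784)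
(mv 845 (cons (fin 844 0 844)
(fin 913 0 845)))))))))))))))
(mv 975 (cons (fin 1104 4 847)
(mv 783 (cons (fin 976 4 783)
(mv 784 (cons (fin 720 6 719)
(fin 848 6 783)))))))))))
(mv 975 (cons (cons (mv 847 (cons (fin 1104 4 847)
(mv 782 (cons (fin 846 7 782)
(mv 783 (cons (fin 718 7 718)
(mv 784 (cons (fin 720 6 719)
(fin 848 6 783)))))))))
(mv 1103 (cons (cons (mv 846 (cons (fin 910 7 846)
(mv 848 (cons (fin 912 6 847)
(mv 1102 (cons (fin 1166 5 910)
(mv 1101 (cons (fin 1100 2 1036)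
(mv 1104 (cons (fin 1041 2 1037)
(fin 1168 4 911)))))))))))
(cons (mv 848 (cons (fin 912 6 847)
(mv 910 (cons (fin 846 7 846)
(mv 974 (cons (fin 1167 7 910)
(mv 973 (cons (fin 972 0 972)
(mv 1102 (cons (fin 1166 5 910)
(mv 1101 (cons (fin 1100 2 1036)
(mv 1037 (cons (fin 1165 6 909)
(mv 1104 (cons (fin 1036 3 1036)
(fin 1041 2 1037)))))))))))))))))
(mv 848 (cons (fin 912 6 847)
(mv 910 (cons (fin 846 7 846)
(mv 1166 (cons (fin 1102 5 910)
(mv 1167 (cons (fin 974 7 910)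
(fin 1230 5 974)))))))))))
(cons (cons (mv 848 (cons (fin 912 6 847)
(mv 1102 (cons (fin 1166 5 910)
(mv 1101 (cons (fin 1100 2 1036)
(mv 1104 (cons (fin 1041 2 1037)
(fin 1168 4 911)))))))))
(mv 848 (cons (fin 912 6 847)
(mv 910 (cons (fin 846 7 846)
(mv 1104 (cons (fin 1168 4 911)
(mv 1167 (cons (fin 974 7 910)
(mv 1230 (cons (fin 1166 5 974)
(mv 1231 (cons (fin 1294 5 1038)
(fin 1295 6 1039))))))))))))))
(cons (mv 848 (cons (fin 912 6 847)
(mv 910 (cons (fin 846 7 846)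
(mv 1167 (cons (fin 974 7 910)
(mv 1168 (cons (fin 1104 4 911)
(fin 1232 4 975)))))))))
(mv 846 (cons (fin 910 7 846)
(mv 1102 (cons (fin 1166 5 910)
(mv 1101 (cons (fin 1100 2 1036)
(mv 1104 (cons (fin 1041 2 1037)
(fin 1168 4 911))))))))))))))
(cons (mv 848 (cons (cons (mv 784 (cons (fin 847 6 783)
(mv 912 (cons (fin 720 5 719)
(fin 1103 6 847)))))
(mv 847 (cons (fin 784 6 783)
(mv 846 (cons (fin 782 7 782)
(mv 845 (cons (cons (mv 912 (cons (fin 844 0 844)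
(fin 913 0 845)))
(mv 780 (cons (fin 781 3 780)
(mv 779 (cons (fin 844 3 779)
(mv 909 (cons (fin 908 1 844)
(mv 849 (cons (fin 910 1 845)
(mv 786 (cons (fin 785 2 782)
(mv 850 (cons (fin 787 2 783)
(mv 914 (cons (fin 913 0 846)
(fin 915 0 847))))))))))))))))
(cons (mv 780 (cons (fin 781 3 780)
(mv 908 (cons (fin 909 1 844)
(mv 913 (cons (fin 912 0 845)
(mv 849 (cons (fin 914 0 846)
(mv 786 (cons (fin 785 2 782)
(mv 850 (cons (fin 910 1 846)
(fin 787 2 783)))))))))))))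
(mv 780 (cons (fin 781 3 780)
(mv 844 (cons (fin 779 3 779)
(fin 912 0 844)))))))))))))
(cons (mv 1103 (cons (fin 912 6 847)
(mv 910 (cons (fin 846 7 846)
(mv 1166 (cons (fin 1102 5 910)
(mv 1167 (cons (fin 974 7 910)
(fin 1230 5 974)))))))))
(mv 847 (cons (fin 784 6 783)
(mv 846 (cons (fin 782 7 782)
(mv 910 (cons (fin 1103 7 846)
(mv 849 (cons (fin 909 1 845)
(fin 850 1 846))))))))))))
(mv 1104 (cons (fin 847 4 847)
(mv 1168 (cons (fin 1232 7 975)
(fin 1103 4 911)))))))))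
(cons (mv 975 (cons (cons (mv 847 (cons (fin 1104 4 847)
(mv 782 (cons (fin 846 7 782)
(mv 783 (cons (fin 718 7 718)
(fin 976 4 783)))))))
(mv 1103 (cons (cons (mv 846 (cons (fin 910 7 846)
(mv 1102 (cons (fin 1166 5 910)
(mv 1101 (cons (fin 1100 2 1036)
(mv 1104 (cons (fin 1041 2 1037)
(fin 1168 4 911)))))))))
(cons (mv 846 (cons (fin 910 7 846)
(mv 1166 (cons (fin 1102 5 910)
(mv 1167 (cons (fin 1230 5 974)
(mv 1231 (cons (fin 976 6 975)
(mv 1295 (cons (fin 1104 6 1039)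
(mv 1296 (cons (fin 1232 4 1039)
(fin 1360 4 1103)))))))))))))
(mv 846 (cons (fin 910 7 846)
(mv 1166 (cons (fin 1102 5 910)
(mv 1167 (cons (fin 1230 5 974)
(mv 1231 (cons (fin 976 6 975)
(mv 1232 (cons (fin 1168 4 975)
(fin 1296 4 1039)))))))))))))
(cons (mv 1102 (cons (fin 1166 5 910)
(mv 1101 (cons (fin 1100 2 1036)
(mv 1104 (cons (fin 1041 2 1037)
(fin 1168 4 911)))))))
(cons (mv 846 (cons (fin 910 7 846)
(mv 1168 (cons (fin 1104 4 911)
(mv 1167 (cons (fin 1232 4 975)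
(mv 1230 (cons (fin 1166 5 974)
(mv 1231 (cons (fin 1294 5 1038)
(fin 976 6 975)))))))))))
(mv 910 (cons (fin 846 7 846)
(mv 974 (cons (fin 1167 7 910)
(mv 973 (cons (fin 972 0 972)
(mv 976 (cons (fin 1041 0 973)
(mv 909 (cons (fin 908 3 908)
(fin 977 3 909))))))))))))))))
(cons (mv 847 (cons (cons (mv 782 (cons (fin 846 7 782)
(mv 783 (cons (fin 718 7 718)
(fin 976 4 783)))))
(mv 784 (cons (fin 848 6 783)
(mv 846 (cons (fin 782 7 782)
(mv 1103 (cons (fin 910 7 846)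
(mv 1166 (cons (fin 1102 5 910)
(mv 1167 (cons (fin 1230 5 974)
(mv 1231 (cons (fin 976 6 975)
(mv 1232 (cons (fin 1168 4 975)
(fin 1296 4 1039))))))))))))))))
(cons (mv 783 (cons (fin 976 4 783)
(mv 784 (cons (fin 720 6 719)
(fin 848 6 783)))))
(mv 782 (cons (fin 846 7 782)
(mv 783 (cons (fin 718 7 718)
(mv 784 (cons (fin 720 6 719)
(fin 848 6 783))))))))))
(cons (mv 847 (cons (fin 1104 4 847)
(mv 782 (cons (fin 846 7 782)
(mv 783 (cons (fin 718 7 718)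
(mv 784 (cons (fin 720 6 719)
(fin 848 6 783)))))))))
(mv 847 (cons (fin 1104 4 847)
(mv 783 (cons (fin 976 4 783)
(mv 784 (cons (fin 720 6 719)
(fin 848 6 783)))))))))))
(mv 975 (cons (cons (mv 847 (cons (fin 1104 4 847)
(mv 782 (cons (fin 846 7 782)
(mv 783 (cons (fin 718 7 718)
(fin 976 4 783)))))))
(mv 1103 (cons (cons (mv 846 (cons (fin 910 7 846)
(mv 782 (cons (fin 847 7 782)
(mv 1166 (cons (fin 1102 5 910)
(mv 1167 (cons (fin 1230 5 974)
(mv 976 (cons (fin 912 6 911)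
(fin 1231 6 975)))))))))))
(mv 1166 (cons (fin 1102 5 910)
(mv 1167 (cons (fin 1230 5 974)
(mv 976 (cons (fin 912 6 911)
(fin 1231 6 975))))))))
(cons (mv 846 (cons (fin 910 7 846)
(mv 847 (cons (fin 782 7 782)
(mv 976 (cons (fin 783 4 783)
(mv 1167 (cons (fin 912 6 911)
(fin 1231 6 975)))))))))
(cons (mv 1102 (cons (fin 1166 5 910)
(mv 1100 (cons (fin 1101 2 1036)
(mv 847 (cons (mv 846 (cons (fin 782 7 782)
(fin 910 7 846)))
(cons (mv 783 (cons (fin 976 4 783)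
(mv 718 (cons (fin 782 7 718)
(mv 719 (cons (fin 654 7 654)
(mv 720 (cons (fin 656 6 655)
(fin 784 6 719)))))))))
(mv 783 (cons (fin 976 4 783)
(mv 720 (cons (fin 784 6 719)
(mv 719 (cons (fin 656 6 655)
(mv 910 (cons (fin 846 7 846)
(fin 974 5 718))))))))))))))))
(mv 910 (cons (fin 846 7 846)
(mv 1166 (cons (fin 1102 5 910)
(mv 1167 (cons (fin 974 7 910)
(fin 1230 5 974))))))))))))
(cons (mv 1103 (cons (cons (mv 846 (cons (fin 910 7 846)
(mv 1102 (cons (fin 1166 5 910)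
(mv 1100 (cons (fin 1101 2 1036)
(mv 1168 (cons (fin 1104 4 911)
(mv 1167 (cons (fin 1232 4 975)
(mv 976 (cons (fin 912 6 911)
(fin 1231 6 975)))))))))))))
(mv 846 (cons (fin 910 7 846)
(mv 1166 (cons (fin 1102 5 910)
(mv 1167 (cons (fin 1230 5 974)
(mv 976 (cons (fin 912 6 911)
(fin 1231 6 975))))))))))
(cons (mv 1102 (cons (fin 1166 5 910)
(mv 1100 (cons (fin 1101 2 1036)
(mv 1168 (cons (fin 1104 4 911)
(mv 1167 (cons (fin 1232 4 975)
(mv 976 (cons (fin 912 6 911)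
(fin 1231 6 975)))))))))))
(cons (mv 846 (cons (fin 910 7 846)
(mv 1168 (cons (fin 1104 4 911)
(mv 1167 (cons (fin 1232 4 975)
(mv 976 (cons (fin 912 6 911)
(fin 1231 6 975)))))))))
(mv 846 (cons (fin 910 7 846)
(mv 1102 (cons (fin 1166 5 910)
(mv 1101 (cons (fin 1100 2 1036)
(mv 1104 (cons (fin 1041 2 1037)
(fin 1168 4 911)))))))))))))
(mv 1104 (cons (fin 847 4 847)
(mv 1168 (cons (fin 1232 7 975)
(fin 1103 4 911)))))))))))
(cons (cons (cons (mv 975 (cons (cons (mv 847 (cons (fin 1104 4 847)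
(mv 782 (cons (fin 846 7 782)
(mv 783 (cons (fin 718 7 718)
(fin 976 4 783)))))))
(mv 1103 (cons (cons (mv 846 (cons (fin 910 7 846)
(mv 848 (cons (fin 912 6 847)
(mv 1166 (cons (fin 1102 5 910)
(mv 1167 (cons (fin 1230 5 974)
(mv 1231 (cons (fin 976 6 975)
(mv 1295 (cons (fin 1104 6 1039)
(mv 1296 (cons (fin 1232 4 1039)
(fin 1360 4 1103)))))))))))))))
(cons (mv 846 (cons (fin 910 7 846)
(mv 1166 (cons (fin 1102 5 910)
(mv 1167 (cons (fin 1230 5 974)
(mv 1231 (cons (fin 976 6 975)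
(mv 1295 (cons (fin 1104 6 1039)
(mv 1296 (cons (fin 1232 4 1039)
(fin 1360 4 1103)))))))))))))
(mv 848 (cons (fin 912 6 847)
(mv 1166 (cons (fin 1102 5 910)
(mv 1167 (cons (fin 1230 5 974)
(mv 1231 (cons (fin 976 6 975)
(mv 1295 (cons (fin 1104 6 1039)
(mv 1296 (cons (fin 1232 4 1039)
(fin 1360 4 1103)))))))))))))))
(cons (cons (mv 846 (cons (fin 910 7 846)
(mv 912 (cons (fin 848 6 847)
(mv 1167 (cons (fin 976 6 911)
(mv 1230 (cons (fin 1166 5 974)
(mv 1231 (cons (fin 1294 5 1038)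
(mv 1295 (cons (fin 1104 6 1039)
(mv 1296 (cons (fin 1232 4 1039)
(fin 1360 4 1103)))))))))))))))
(mv 848 (cons (fin 912 6 847)
(mv 910 (cons (fin 846 7 846)
(mv 974 (cons (fin 1167 7 910)
(mv 973 (cons (fin 972 0 972)
(mv 976 (cons (fin 1041 0 973)
(mv 909 (cons (fin 908 3 908)
(fin 977 3 909))))))))))))))
(cons (mv 848 (cons (fin 912 6 847)
(mv 910 (cons (fin 846 7 846)
(mv 1102 (cons (fin 1166 5 910)
(mv 1101 (cons (fin 1100 2 1036)
(mv 1104 (cons (fin 1041 2 1037)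
(mv 1037 (cons (fin 1036 3 1036)
(mv 1165 (cons (fin 1164 1 1100)
(mv 973 (cons (fin 974 6 909)
(mv 908 (cons (fin 972 7 908)
(mv 909 (cons (fin 976 0 908)
(fin 844 7 844)))))))))))))))))))))
(mv 848 (cons (fin 912 6 847)
(mv 910 (cons (fin 846 7 846)
(mv 974 (cons (fin 1167 7 910)
(mv 973 (cons (fin 972 0 972)
(mv 1102 (cons (fin 1166 5 910)
(mv 1101 (cons (fin 1100 2 1036)
(mv 1037 (cons (fin 1165 6 909)
(mv 1104 (cons (fin 1036 3 1036)
(fin 1041 2 1037))))))))))))))))))))))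
(cons (mv 1103 (cons (cons (mv 846 (cons (fin 910 7 846)
(mv 782 (cons (fin 847 7 782)
(mv 912 (cons (fin 848 6 847)
(mv 1166 (cons (fin 1102 5 910)
(mv 1167 (cons (fin 1230 5 974)
(fin 976 6 911)))))))))))
(cons (mv 846 (cons (fin 910 7 846)
(mv 847 (cons (fin 782 7 782)
(mv 783 (cons (fin 976 4 783)
(mv 784 (cons (fin 720 6 719)
(fin 848 6 783)))))))))
(mv 846 (cons (fin 910 7 846)
(mv 782 (cons (fin 847 7 782)
(mv 1166 (cons (fin 1102 5 910)
(mv 1167 (cons (fin 1230 5 974)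
(mv 976 (cons (fin 912 6 911)
(fin 1231 6 975)))))))))))))
(cons (cons (mv 848 (cons (fin 912 6 847)
(mv 847 (cons (fin 784 6 783)
(mv 782 (cons (fin 846 7 782)
(mv 783 (cons (fin 718 7 718)
(fin 976 4 783)))))))))
(mv 848 (cons (fin 912 6 847)
(mv 784 (cons (fin 847 6 783)
(mv 1166 (cons (fin 1102 5 910)
(mv 1167 (cons (fin 1230 5 974)
(mv 974 (cons (fin 910 7 910)
(mv 973 (cons (fin 972 0 972)
(mv 976 (cons (fin 1041 0 973)
(fin 1231 6 975))))))))))))))))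
(cons (mv 846 (cons (fin 910 7 846)
(mv 847 (cons (fin 782 7 782)
(mv 848 (cons (fin 784 6 783)
(fin 912 6 847)))))))
(mv 846 (cons (fin 910 7 846)
(mv 912 (cons (fin 848 6 847)
(mv 1166 (cons (fin 1102 5 910)
(mv 1167 (cons (fin 1230 5 974)
(fin 976 6 911)))))))))))))
(cons (mv 847 (cons (fin 1104 4 847)
(mv 783 (cons (fin 976 4 783)
(mv 784 (cons (fin 720 6 719)
(fin 848 6 783)))))))
(mv 847 (cons (fin 1104 4 847)
(mv 782 (cons (fin 846 7 782)
(mv 783 (cons (fin 718 7 718)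
(mv 784 (cons (fin 720 6 719)
(fin 848 6 783)))))))))))))
(mv 975 (cons (cons (mv 847 (cons (fin 1104 4 847)
(mv 783 (cons (fin 976 4 783)
(mv 784 (cons (fin 720 6 719)
(fin 848 6 783)))))))
(mv 974 (cons (cons (mv 973 (cons (fin 972 0 972)
(mv 976 (cons (fin 1041 0 973)
(mv 783 (cons (fin 847 4 783)
(mv 908 (cons (fin 909 3 908)
(mv 912 (cons (fin 913 2 909)
(mv 848 (cons (fin 784 5 783)
(fin 1103 5 847)))))))))))))
(cons (mv 1103 (cons (cons (mv 848 (cons (fin 912 6 847)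
(mv 784 (cons (fin 847 6 783)
(mv 1102 (cons (fin 1166 5 910)
(mv 1100 (cons (fin 1101 2 1036)
(mv 1167 (cons (fin 910 7 910)
(mv 1231 (cons (fin 976 6 975)
(mv 1232 (cons (fin 1168 4 975)
(fin 1296 4 1039)))))))))))))))
(mv 848 (cons (fin 912 6 847)
(mv 847 (cons (fin 784 6 783)
(mv 783 (cons (fin 976 4 783)
(mv 718 (cons (fin 782 7 718)
(mv 719 (cons (fin 654 7 654)
(fin 910 5 718))))))))))))
(cons (mv 1102 (cons (fin 1166 5 910)
(mv 1100 (cons (fin 1101 2 1036)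
(mv 1167 (cons (fin 910 7 910)
(mv 1231 (cons (fin 976 6 975)
(mv 1232 (cons (fin 1168 4 975)
(fin 1296 4 1039)))))))))))
(cons (mv 848 (cons (fin 912 6 847)
(mv 784 (cons (fin 847 6 783)
(mv 1166 (cons (fin 1102 5 910)
(mv 1167 (cons (fin 1230 5 974)
(mv 1231 (cons (fin 976 6 975)
(mv 1232 (cons (fin 1168 4 975)
(fin 1296 4 1039)))))))))))))
(mv 848 (cons (fin 912 6 847)
(mv 784 (cons (fin 847 6 783)
(mv 1166 (cons (fin 1102 5 910)
(mv 1167 (cons (fin 910 7 910)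
(fin 1230 5 974)))))))))))))
(mv 973 (cons (fin 972 0 972)
(mv 976 (cons (fin 1041 0 973)
(mv 783 (cons (fin 847 4 783)
(mv 909 (cons (fin 908 3 908)
(mv 910 (cons (fin 977 3 909)
(mv 1037 (cons (fin 1036 1 972)
(mv 1101 (cons (fin 1165 6 909)
(mv 1100 (cons (fin 1164 5 908)
(mv 1102 (cons (fin 1103 2 1036)
(fin 1166 4 909)))))))))))))))))))))
(cons (mv 973 (cons (fin 972 0 972)
(mv 976 (cons (fin 1041 0 973)
(mv 783 (cons (fin 847 4 783)
(mv 908 (cons (fin 909 3 908)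
(mv 913 (cons (fin 912 2 909)
(mv 977 (cons (fin 914 2 910)
(mv 978 (cons (fin 910 3 910)
(fin 979 1 975)))))))))))))))
(cons (mv 973 (cons (fin 972 0 972)
(mv 912 (cons (mv 913 (cons (fin 910 1 909)
(fin 914 1 910)))
(mv 848 (cons (fin 1103 6 847)
(mv 784 (cons (fin 720 5 719)
(fin 847 6 783)))))))))
(mv 973 (cons (fin 972 0 972)
(mv 976 (cons (fin 1041 0 973)
(mv 908 (cons (fin 909 3 908)
(mv 912 (cons (fin 913 2 909)
(mv 848 (cons (fin 784 5 783)
(fin 1103 5 847))))))))))))))))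
(cons (mv 1103 (cons (cons (mv 848 (cons (fin 912 6 847)
(mv 1102 (cons (fin 1166 5 910)
(mv 1100 (cons (fin 1101 2 1036)
(mv 1168 (cons (fin 1104 4 911)
(mv 1167 (cons (fin 1232 4 975)
(mv 974 (cons (fin 910 7 910)
(mv 973 (cons (fin 972 0 972)
(mv 976 (cons (fin 1041 0 973)
(fin 1231 6 975)))))))))))))))))
(cons (mv 848 (cons (fin 912 6 847)
(mv 1166 (cons (fin 1102 5 910)
(mv 1167 (cons (fin 1230 5 974)
(mv 910 (cons (fin 974 7 910)
(mv 1231 (cons (fin 976 6 975)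
(mv 1295 (cons (fin 1104 6 1039)
(mv 1296 (cons (fin 1232 4 1039)
(fin 1360 4 1103)))))))))))))))
(mv 848 (cons (fin 912 6 847)
(mv 1166 (cons (fin 1102 5 910)
(mv 1167 (cons (fin 1230 5 974)
(mv 910 (cons (fin 974 7 910)
(mv 1231 (cons (fin 976 6 975)
(mv 1232 (cons (fin 1168 4 975)
(fin 1296 4 1039)))))))))))))))
(cons (cons (mv 1102 (cons (fin 1166 5 910)
(mv 1100 (cons (fin 1101 2 1036)
(mv 1168 (cons (fin 1104 4 911)
(mv 1167 (cons (fin 1232 4 975)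
(mv 974 (cons (fin 910 7 910)
(mv 973 (cons (fin 972 0 972)
(mv 976 (cons (fin 1041 0 973)
(fin 1231 6 975)))))))))))))))
(mv 848 (cons (fin 912 6 847)
(mv 1168 (cons (fin 1104 4 911)
(mv 1167 (cons (fin 1232 4 975)
(mv 910 (cons (fin 974 7 910)
(mv 1230 (cons (fin 1166 5 974)
(mv 1231 (cons (fin 1294 5 1038)
(fin 976 6 975))))))))))))))
(cons (mv 848 (cons (fin 912 6 847)
(mv 1168 (cons (fin 1104 4 911)
(mv 1167 (cons (fin 1232 4 975)
(mv 974 (cons (fin 910 7 910)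
(mv 973 (cons (fin 972 0 972)
(mv 976 (cons (fin 1041 0 973)
(fin 1231 6 975)))))))))))))
(mv 848 (cons (fin 912 6 847)
(mv 1102 (cons (fin 1166 5 910)
(mv 1101 (cons (fin 1100 2 1036)
(mv 1104 (cons (fin 1041 2 1037)
(fin 1168 4 911)))))))))))))
(mv 1104 (cons (fin 847 4 847)
(mv 1168 (cons (fin 1232 7 975)
(fin 1103 4 911)))))))))
(cons (mv 975 (cons (cons (mv 847 (cons (fin 1104 4 847)
(mv 782 (cons (fin 846 7 782)
(mv 783 (cons (fin 718 7 718)
(fin 976 4 783)))))))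
(mv 1103 (cons (cons (mv 848 (cons (fin 912 6 847)
(mv 1102 (cons (fin 1166 5 910)
(mv 1101 (cons (fin 1100 2 1036)
(mv 1104 (cons (fin 1041 2 1037)
(fin 1168 4 911)))))))))
(cons (mv 848 (cons (fin 912 6 847)
(mv 1166 (cons (fin 1102 5 910)
(mv 1167 (cons (fin 1230 5 974)
(mv 1231 (cons (fin 976 6 975)
(mv 1295 (cons (fin 1104 6 1039)
(mv 1296 (cons (fin 1232 4 1039)
(fin 1360 4 1103)))))))))))))
(mv 848 (cons (fin 912 6 847)
(mv 1166 (cons (fin 1102 5 910)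
(mv 1167 (cons (fin 1230 5 974)
(mv 1231 (cons (fin 976 6 975)
(mv 1232 (cons (fin 1168 4 975)
(fin 1296 4 1039)))))))))))))
(cons (mv 1102 (cons (fin 1166 5 910)
(mv 1101 (cons (fin 1100 2 1036)
(mv 1104 (cons (fin 1041 2 1037)
(fin 1168 4 911)))))))
(cons (mv 848 (cons (fin 912 6 847)
(mv 1168 (cons (fin 1104 4 911)
(mv 1167 (cons (fin 1232 4 975)
(mv 1230 (cons (fin 1166 5 974)
(mv 1231 (cons (fin 1294 5 1038)
(fin 976 6 975)))))))))))
(mv 912 (cons (fin 848 6 847)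
(mv 976 (cons (fin 1167 6 911)
(mv 1104 (cons (fin 1168 7 911)
(mv 913 (cons (fin 849 6 848)
(mv 914 (cons (fin 974 1 910)
(fin 915 1 911))))))))))))))))
(cons (mv 847 (cons (cons (mv 782 (cons (fin 846 7 782)
(mv 783 (cons (fin 718 7 718)
(fin 976 4 783)))))
(mv 782 (cons (fin 846 7 782)
(mv 848 (cons (fin 784 6 783)
(mv 1103 (cons (fin 912 6 847)
(mv 1166 (cons (fin 1102 5 910)
(mv 1167 (cons (fin 1230 5 974)
(mv 1231 (cons (fin 976 6 975)
(mv 1232 (cons (fin 1168 4 975)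
(fin 1296 4 1039))))))))))))))))
(cons (mv 783 (cons (fin 976 4 783)
(mv 784 (cons (fin 720 6 719)
(fin 848 6 783)))))
(mv 782 (cons (fin 846 7 782)
(mv 783 (cons (fin 718 7 718)
(mv 784 (cons (fin 720 6 719)
(fin 848 6 783))))))))))
(mv 847 (cons (fin 1104 4 847)
(mv 782 (cons (fin 846 7 782)
(mv 783 (cons (fin 718 7 718)
(mv 784 (cons (fin 720 6 719)
(fin 848 6 783))))))))))))
(mv 975 (cons (cons (mv 847 (cons (fin 1104 4 847)
(mv 782 (cons (fin 846 7 782)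
(mv 783 (cons (fin 718 7 718)
(fin 976 4 783)))))))
(mv 1103 (cons (cons (mv 846 (cons (fin 910 7 846)
(mv 848 (cons (fin 912 6 847)
(mv 1102 (cons (fin 1166 5 910)
(mv 1101 (cons (fin 1100 2 1036)
(mv 1104 (cons (fin 1041 2 1037)
(fin 1168 4 911)))))))))))
(cons (mv 846 (cons (fin 910 7 846)
(mv 848 (cons (fin 912 6 847)
(mv 1166 (cons (fin 1102 5 910)
(mv 1167 (cons (fin 1230 5 974)
(mv 1231 (cons (fin 976 6 975)
(mv 1295 (cons (fin 1104 6 1039)
(mv 1296 (cons (fin 1232 4 1039)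
(fin 1360 4 1103)))))))))))))))
(mv 846 (cons (fin 910 7 846)
(mv 848 (cons (fin 912 6 847)
(mv 1166 (cons (fin 1102 5 910)
(mv 1167 (cons (fin 1230 5 974)
(mv 1231 (cons (fin 976 6 975)
(mv 1232 (cons (fin 1168 4 975)
(fin 1296 4 1039)))))))))))))))
(cons (cons (mv 846 (cons (fin 910 7 846)
(mv 1102 (cons (fin 1166 5 910)
(mv 1101 (cons (fin 1100 2 1036)
(mv 1104 (cons (fin 1041 2 1037)
(fin 1168 4 911)))))))))
(mv 846 (cons (fin 910 7 846)
(mv 848 (cons (fin 912 6 847)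
(mv 1168 (cons (fin 1104 4 911)
(mv 1167 (cons (fin 1232 4 975)
(mv 1230 (cons (fin 1166 5 974)
(mv 1231 (cons (fin 1294 5 1038)
(fin 976 6 975))))))))))))))
(cons (mv 846 (cons (fin 910 7 846)
(mv 912 (cons (fin 848 6 847)
(mv 1167 (cons (fin 976 6 911)
(mv 1168 (cons (fin 1104 4 911)
(fin 1232 4 975)))))))))
(mv 848 (cons (fin 912 6 847)
(mv 1102 (cons (fin 1166 5 910)
(mv 1101 (cons (fin 1100 2 1036)
(mv 1104 (cons (fin 1041 2 1037)
(fin 1168 4 911))))))))))))))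
(cons (mv 1103 (cons (cons (mv 846 (cons (fin 910 7 846)
(mv 782 (cons (fin 847 7 782)
(mv 848 (cons (fin 912 6 847)
(mv 1166 (cons (fin 1102 5 910)
(mv 1167 (cons (fin 1230 5 974)
(mv 1231 (cons (fin 976 6 975)
(mv 1232 (cons (fin 1168 4 975)
(fin 1296 4 1039)))))))))))))))
(cons (mv 846 (cons (fin 910 7 846)
(mv 782 (cons (fin 847 7 782)
(mv 1166 (cons (fin 1102 5 910)
(mv 1167 (cons (fin 1230 5 974)
(mv 1231 (cons (fin 976 6 975)
(mv 1232 (cons (fin 1168 4 975)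
(fin 1296 4 1039)))))))))))))
(mv 848 (cons (fin 912 6 847)
(mv 784 (cons (fin 847 6 783)
(mv 1166 (cons (fin 1102 5 910)
(mv 1167 (cons (fin 1230 5 974)
(mv 1231 (cons (fin 976 6 975)
(mv 1232 (cons (fin 1168 4 975)
(fin 1296 4 1039)))))))))))))))
(cons (mv 846 (cons (fin 910 7 846)
(mv 782 (cons (fin 847 7 782)
(mv 912 (cons (fin 848 6 847)
(mv 1167 (cons (fin 976 6 911)
(mv 1230 (cons (fin 1166 5 974)
(mv 1231 (cons (fin 1294 5 1038)
(mv 1232 (cons (fin 1168 4 975)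
(fin 1296 4 1039)))))))))))))))
(cons (mv 846 (cons (fin 910 7 846)
(mv 847 (cons (fin 782 7 782)
(mv 848 (cons (fin 784 6 783)
(fin 912 6 847)))))))
(mv 846 (cons (fin 910 7 846)
(mv 848 (cons (fin 912 6 847)
(mv 1166 (cons (fin 1102 5 910)
(mv 1167 (cons (fin 1230 5 974)
(mv 1231 (cons (fin 976 6 975)
(mv 1232 (cons (fin 1168 4 975)
(fin 1296 4 1039)))))))))))))))))
(cons (mv 847 (cons (fin 1104 4 847)
(mv 782 (cons (fin 846 7 782)
(mv 783 (cons (fin 718 7 718)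
(mv 784 (cons (fin 720 6 719)
(fin 848 6 783)))))))))
(mv 847 (cons (fin 1104 4 847)
(mv 783 (cons (fin 976 4 783)
(mv 784 (cons (fin 720 6 719)
(fin 848 6 783)))))))))))))
(cons (cons (mv 975 (cons (cons (cons (mv 847 (cons (fin 1104 4 847)
(mv 782 (cons (fin 846 7 782)
(mv 848 (cons (fin 784 6 783)
(mv 1103 (cons (fin 912 6 847)
(mv 1166 (cons (fin 1102 5 910)
(mv 1167 (cons (fin 1230 5 974)
(mv 910 (cons (fin 974 7 910)
(mv 849 (cons (fin 850 1 846)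
(mv 908 (cons (fin 909 2 844)
(mv 1231 (cons (fin 976 6 975)
(mv 1232 (cons (fin 1168 4 975)
(fin 1296 4 1039)))))))))))))))))))))))
(mv 1103 (cons (cons (mv 846 (cons (fin 910 7 846)
(mv 782 (cons (fin 847 7 782)
(mv 848 (cons (fin 912 6 847)
(mv 1166 (cons (fin 1102 5 910)
(mv 1167 (cons (fin 1230 5 974)
(mv 1231 (cons (fin 976 6 975)
(mv 1232 (cons (fin 1168 4 975)
(fin 1296 4 1039)))))))))))))))
(cons (mv 846 (cons (fin 910 7 846)
(mv 782 (cons (fin 847 7 782)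
(mv 1166 (cons (fin 1102 5 910)
(mv 1167 (cons (fin 1230 5 974)
(mv 1231 (cons (fin 976 6 975)
(mv 1232 (cons (fin 1168 4 975)
(fin 1296 4 1039)))))))))))))
(mv 848 (cons (fin 912 6 847)
(mv 784 (cons (fin 847 6 783)
(mv 1166 (cons (fin 1102 5 910)
(mv 1167 (cons (fin 1230 5 974)
(mv 1231 (cons (fin 976 6 975)
(mv 1232 (cons (fin 1168 4 975)
(fin 1296 4 1039)))))))))))))))
(cons (mv 846 (cons (fin 910 7 846)
(mv 782 (cons (fin 847 7 782)
(mv 912 (cons (fin 848 6 847)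
(mv 1167 (cons (fin 976 6 911)
(mv 1230 (cons (fin 1166 5 974)
(mv 1231 (cons (fin 1294 5 1038)
(mv 1232 (cons (fin 1168 4 975)
(fin 1296 4 1039)))))))))))))))
(cons (mv 846 (cons (fin 910 7 846)
(mv 847 (cons (fin 782 7 782)
(mv 848 (cons (fin 784 6 783)
(fin 912 6 847)))))))
(mv 846 (cons (fin 910 7 846)
(mv 848 (cons (fin 912 6 847)
(mv 1166 (cons (fin 1102 5 910)
(mv 1167 (cons (fin 1230 5 974)
(mv 1231 (cons (fin 976 6 975)
(mv 1232 (cons (fin 1168 4 975)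
(fin 1296 4 1039))))))))))))))))))
(cons (mv 1103 (cons (cons (mv 846 (cons (fin 910 7 846)
(mv 848 (cons (fin 912 6 847)
(mv 1102 (cons (fin 1166 5 910)
(mv 1101 (cons (fin 1100 2 1036)
(mv 1104 (cons (fin 1041 2 1037)
(fin 1168 4 911)))))))))))
(cons (mv 846 (cons (fin 910 7 846)
(mv 848 (cons (fin 912 6 847)
(mv 1166 (cons (fin 1102 5 910)
(mv 1167 (cons (fin 1230 5 974)
(mv 1231 (cons (fin 976 6 975)
(mv 1295 (cons (fin 1104 6 1039)
(mv 1296 (cons (fin 1232 4 1039)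
(fin 1360 4 1103)))))))))))))))
(mv 846 (cons (fin 910 7 846)
(mv 848 (cons (fin 912 6 847)
(mv 1166 (cons (fin 1102 5 910)
(mv 1167 (cons (fin 1230 5 974)
(mv 1231 (cons (fin 976 6 975)
(mv 1232 (cons (fin 1168 4 975)
(fin 1296 4 1039)))))))))))))))
(cons (cons (mv 846 (cons (fin 910 7 846)
(mv 1102 (cons (fin 1166 5 910)
(mv 1101 (cons (fin 1100 2 1036)
(mv 1104 (cons (fin 1041 2 1037)
(fin 1168 4 911)))))))))
(mv 848 (cons (fin 912 6 847)
(mv 1102 (cons (fin 1166 5 910)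
(mv 1101 (cons (fin 1100 2 1036)
(mv 1104 (cons (fin 1041 2 1037)
(fin 1168 4 911))))))))))
(cons (mv 846 (cons (fin 910 7 846)
(mv 848 (cons (fin 912 6 847)
(mv 1168 (cons (fin 1104 4 911)
(mv 1167 (cons (fin 1232 4 975)
(mv 1230 (cons (fin 1166 5 974)
(mv 1231 (cons (fin 1294 5 1038)
(fin 976 6 975)))))))))))))
(mv 846 (cons (fin 910 7 846)
(mv 912 (cons (fin 848 6 847)
(mv 976 (cons (fin 1167 6 911)
(mv 1104 (cons (fin 1168 7 911)
(mv 913 (cons (fin 849 6 848)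
(mv 914 (cons (fin 974 1 910)
(fin 915 1 911)))))))))))))))))
(mv 847 (cons (fin 1104 4 847)
(mv 846 (cons (fin 782 7 782)
(mv 848 (cons (fin 784 6 783)
(mv 849 (cons (mv 910 (cons (fin 909 1 845)
(fin 850 1 846)))
(mv 785 (cons (fin 786 2 782)
(mv 912 (cons (fin 976 6 784)
(mv 845 (cons (fin 844 0 844)
(fin 913 0 845)))))))))))))))))
(cons (cons (mv 847 (cons (fin 1104 4 847)
(mv 846 (cons (fin 782 7 782)
(mv 1103 (cons (fin 910 7 846)
(mv 1166 (cons (fin 1102 5 910)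
(mv 1167 (cons (fin 1230 5 974)
(mv 976 (cons (fin 912 6 911)
(fin 1231 6 975)))))))))))))
(mv 847 (cons (fin 1104 4 847)
(mv 848 (cons (fin 784 6 783)
(mv 1103 (cons (fin 912 6 847)
(mv 1166 (cons (fin 1102 5 910)
(mv 1167 (cons (fin 1230 5 974)
(mv 910 (cons (fin 974 7 910)
(mv 849 (cons (fin 850 1 846)
(mv 908 (cons (fin 909 2 844)
(mv 1231 (cons (fin 976 6 975)
(mv 1232 (cons (fin 1168 4 975)
(fin 1296 4 1039))))))))))))))))))))))
(cons (mv 847 (cons (fin 1104 4 847)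
(mv 846 (cons (fin 782 7 782)
(mv 848 (cons (fin 784 6 783)
(mv 1103 (cons (fin 910 7 846)
(fin 912 6 847)))))))))
(cons (mv 847 (cons (fin 1104 4 847)
(mv 784 (cons (fin 848 6 783)
(mv 846 (cons (fin 782 7 782)
(mv 1103 (cons (fin 910 7 846)
(mv 1166 (cons (fin 1102 5 910)
(mv 1167 (cons (fin 1230 5 974)
(mv 1231 (cons (fin 976 6 975)
(mv 1232 (cons (fin 1168 4 975)
(fin 1296 4 1039)))))))))))))))))
(mv 847 (cons (fin 1104 4 847)
(mv 782 (cons (fin 846 7 782)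
(mv 848 (cons (fin 784 6 783)
(mv 1103 (cons (fin 912 6 847)
(mv 1166 (cons (fin 1102 5 910)
(mv 1167 (cons (fin 1230 5 974)
(mv 1231 (cons (fin 976 6 975)
(mv 1232 (cons (fin 1168 4 975)
(fin 1296 4 1039))))))))))))))))))))))
(mv 975 (cons (cons (mv 847 (cons (fin 1104 4 847)
(mv 782 (cons (fin 846 7 782)
(mv 783 (cons (fin 718 7 718)
(fin 976 4 783)))))))
(mv 1103 (cons (cons (mv 846 (cons (fin 910 7 846)
(mv 848 (cons (fin 912 6 847)
(mv 1102 (cons (fin 1166 5 910)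
(mv 1101 (cons (fin 1100 2 1036)
(mv 1104 (cons (fin 1041 2 1037)
(fin 1168 4 911)))))))))))
(mv 846 (cons (fin 910 7 846)
(mv 1102 (cons (fin 1166 5 910)
(mv 1101 (cons (fin 1100 2 1036)
(mv 1104 (cons (fin 1041 2 1037)
(fin 1168 4 911))))))))))
(cons (mv 846 (cons (fin 910 7 846)
(mv 912 (cons (fin 848 6 847)
(mv 1166 (cons (fin 1102 5 910)
(mv 1167 (cons (fin 1230 5 974)
(fin 976 6 911)))))))))
(cons (mv 848 (cons (fin 912 6 847)
(mv 1102 (cons (fin 1166 5 910)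
(mv 1101 (cons (fin 1100 2 1036)
(mv 1104 (cons (fin 1041 2 1037)
(fin 1168 4 911)))))))))
(mv 846 (cons (fin 910 7 846)
(mv 912 (cons (fin 848 6 847)
(mv 976 (cons (fin 1167 6 911)
(mv 1104 (cons (fin 1168 7 911)
(mv 913 (cons (fin 849 6 848)
(mv 914 (cons (fin 974 1 910)
(fin 915 1 911))))))))))))))))))
(cons (mv 1103 (cons (cons (mv 846 (cons (fin 910 7 846)
(mv 782 (cons (fin 847 7 782)
(mv 912 (cons (fin 848 6 847)
(mv 1166 (cons (fin 1102 5 910)
(mv 1167 (cons (fin 1230 5 974)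
(fin 976 6 911)))))))))))
(cons (mv 846 (cons (fin 910 7 846)
(mv 847 (cons (fin 782 7 782)
(mv 783 (cons (fin 976 4 783)
(mv 784 (cons (fin 720 6 719)
(fin 848 6 783)))))))))
(mv 846 (cons (fin 910 7 846)
(mv 782 (cons (fin 847 7 782)
(mv 1166 (cons (fin 1102 5 910)
(mv 1167 (cons (fin 1230 5 974)
(mv 976 (cons (fin 912 6 911)
(fin 1231 6 975)))))))))))))
(cons (cons (mv 848 (cons (fin 912 6 847)
(mv 847 (cons (fin 784 6 783)
(mv 782 (cons (fin 846 7 782)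
(mv 783 (cons (fin 718 7 718)
(fin 976 4 783)))))))))
(mv 848 (cons (fin 912 6 847)
(mv 784 (cons (fin 847 6 783)
(mv 1166 (cons (fin 1102 5 910)
(mv 1167 (cons (fin 1230 5 974)
(mv 974 (cons (fin 910 7 910)
(mv 973 (cons (fin 972 0 972)
(mv 976 (cons (fin 1041 0 973)
(fin 1231 6 975))))))))))))))))
(cons (mv 846 (cons (fin 910 7 846)
(mv 847 (cons (fin 782 7 782)
(mv 848 (cons (fin 784 6 783)
(fin 912 6 847)))))))
(mv 846 (cons (fin 910 7 846)
(mv 912 (cons (fin 848 6 847)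
(mv 1166 (cons (fin 1102 5 910)
(mv 1167 (cons (fin 1230 5 974)
(fin 976 6 911)))))))))))))
(cons (mv 847 (cons (fin 1104 4 847)
(mv 782 (cons (fin 846 7 782)
(mv 783 (cons (fin 718 7 718)
(mv 784 (cons (fin 720 6 719)
(fin 848 6 783)))))))))
(mv 847 (cons (fin 1104 4 847)
(mv 783 (cons (fin 976 4 783)
(mv 784 (cons (fin 720 6 719)
(fin 848 6 783))))))))))))
(cons (mv 975 (cons (cons (mv 847 (cons (fin 1104 4 847)
(mv 783 (cons (fin 976 4 783)
(mv 784 (cons (fin 720 6 719)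
(fin 848 6 783)))))))
(mv 1103 (cons (cons (mv 846 (cons (fin 910 7 846)
(mv 848 (cons (fin 912 6 847)
(mv 784 (cons (fin 847 6 783)
(mv 1166 (cons (fin 1102 5 910)
(mv 1167 (cons (fin 1230 5 974)
(mv 1231 (cons (fin 976 6 975)
(mv 1232 (cons (fin 1168 4 975)
(fin 1296 4 1039)))))))))))))))
(cons (mv 846 (cons (fin 910 7 846)
(mv 1166 (cons (fin 1102 5 910)
(mv 1167 (cons (fin 1230 5 974)
(mv 1231 (cons (fin 976 6 975)
(mv 1232 (cons (fin 1168 4 975)
(fin 1296 4 1039)))))))))))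
(mv 848 (cons (fin 912 6 847)
(mv 784 (cons (fin 847 6 783)
(mv 1166 (cons (fin 1102 5 910)
(mv 1167 (cons (fin 1230 5 974)
(mv 1231 (cons (fin 976 6 975)
(mv 1232 (cons (fin 1168 4 975)
(fin 1296 4 1039)))))))))))))))
(cons (cons (mv 846 (cons (fin 910 7 846)
(mv 912 (cons (fin 848 6 847)
(mv 1167 (cons (fin 976 6 911)
(mv 1230 (cons (fin 1166 5 974)
(mv 1231 (cons (fin 1294 5 1038)
(mv 1232 (cons (fin 1168 4 975)
(fin 1296 4 1039)))))))))))))
(mv 848 (cons (fin 912 6 847)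
(mv 784 (cons (fin 847 6 783)
(mv 910 (cons (fin 846 7 846)
(mv 974 (cons (fin 1167 7 910)
(mv 973 (cons (fin 972 0 972)
(mv 976 (cons (fin 1041 0 973)
(mv 909 (cons (fin 908 3 908)
(fin 977 3 909))))))))))))))))
(cons (mv 848 (cons (fin 912 6 847)
(mv 847 (cons (fin 784 6 783)
(mv 783 (cons (fin 976 4 783)
(mv 910 (cons (fin 846 7 846)
(mv 719 (cons (fin 974 5 718)
(mv 654 (cons (fin 718 7 654)
(mv 655 (cons (fin 590 7 590)
(mv 656 (cons (fin 592 6 591)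
(fin 720 6 655)))))))))))))))))
(mv 848 (cons (fin 912 6 847)
(mv 784 (cons (fin 847 6 783)
(mv 910 (cons (fin 846 7 846)
(mv 1166 (cons (fin 1102 5 910)
(mv 1167 (cons (fin 974 7 910)
(fin 1230 5 974))))))))))))))))
(cons (mv 1103 (cons (cons (mv 846 (cons (fin 910 7 846)
(mv 848 (cons (fin 912 6 847)
(mv 1102 (cons (fin 1166 5 910)
(mv 1101 (cons (fin 1100 2 1036)
(mv 1104 (cons (fin 1041 2 1037)
(fin 1168 4 911)))))))))))
(cons (mv 846 (cons (fin 910 7 846)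
(mv 848 (cons (fin 912 6 847)
(mv 1166 (cons (fin 1102 5 910)
(mv 1167 (cons (fin 1230 5 974)
(mv 1231 (cons (fin 976 6 975)
(mv 1295 (cons (fin 1104 6 1039)
(mv 1296 (cons (fin 1232 4 1039)
(fin 1360 4 1103)))))))))))))))
(mv 846 (cons (fin 910 7 846)
(mv 848 (cons (fin 912 6 847)
(mv 1166 (cons (fin 1102 5 910)
(mv 1167 (cons (fin 1230 5 974)
(mv 1231 (cons (fin 976 6 975)
(mv 1232 (cons (fin 1168 4 975)
(fin 1296 4 1039)))))))))))))))
(cons (cons (mv 846 (cons (fin 910 7 846)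
(mv 1102 (cons (fin 1166 5 910)
(mv 1101 (cons (fin 1100 2 1036)
(mv 1104 (cons (fin 1041 2 1037)
(fin 1168 4 911)))))))))
(mv 848 (cons (fin 912 6 847)
(mv 1102 (cons (fin 1166 5 910)
(mv 1101 (cons (fin 1100 2 1036)
(mv 1104 (cons (fin 1041 2 1037)
(fin 1168 4 911))))))))))
(cons (mv 846 (cons (fin 910 7 846)
(mv 848 (cons (fin 912 6 847)
(mv 1168 (cons (fin 1104 4 911)
(mv 1167 (cons (fin 1232 4 975)
(mv 1230 (cons (fin 1166 5 974)
(mv 1231 (cons (fin 1294 5 1038)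
(fin 976 6 975)))))))))))))
(mv 846 (cons (fin 910 7 846)
(mv 912 (cons (fin 848 6 847)
(mv 976 (cons (fin 1167 6 911)
(mv 1104 (cons (fin 1168 7 911)
(mv 913 (cons (fin 849 6 848)
(mv 914 (cons (fin 974 1 910)
(fin 915 1 911)))))))))))))))))
(cons (mv 847 (cons (fin 1104 4 847)
(mv 848 (cons (fin 784 6 783)
(mv 1103 (cons (fin 912 6 847)
(mv 910 (cons (fin 846 7 846)
(mv 849 (cons (fin 850 1 846)
(mv 908 (cons (fin 909 2 844)
(mv 1166 (cons (fin 1102 5 910)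
(mv 1167 (cons (fin 974 7 910)
(fin 1230 5 974)))))))))))))))))
(mv 847 (cons (fin 1104 4 847)
(mv 783 (cons (fin 976 4 783)
(mv 720 (cons (fin 784 6 719)
(mv 719 (cons (fin 656 6 655)
(mv 654 (cons (fin 718 7 654)
(mv 655 (cons (fin 590 7 590)
(mv 910 (cons (fin 846 5 654)
(fin 974 5 718)))))))))))))))))))
(cons (mv 975 (cons (cons (mv 847 (cons (fin 1104 4 847)
(mv 782 (cons (fin 846 7 782)
(mv 783 (cons (fin 718 7 718)
(fin 976 4 783)))))))
(mv 1103 (cons (cons (mv 846 (cons (fin 910 7 846)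
(mv 782 (cons (fin 847 7 782)
(mv 848 (cons (fin 912 6 847)
(mv 1166 (cons (fin 1102 5 910)
(mv 1167 (cons (fin 1230 5 974)
(mv 1231 (cons (fin 976 6 975)
(mv 1232 (cons (fin 1168 4 975)
(fin 1296 4 1039)))))))))))))))
(cons (mv 846 (cons (fin 910 7 846)
(mv 782 (cons (fin 847 7 782)
(mv 1166 (cons (fin 1102 5 910)
(mv 1167 (cons (fin 1230 5 974)
(mv 1231 (cons (fin 976 6 975)
(mv 1232 (cons (fin 1168 4 975)
(fin 1296 4 1039)))))))))))))
(mv 848 (cons (fin 912 6 847)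
(mv 1166 (cons (fin 1102 5 910)
(mv 1167 (cons (fin 1230 5 974)
(mv 1231 (cons (fin 976 6 975)
(mv 1232 (cons (fin 1168 4 975)
(fin 1296 4 1039)))))))))))))
(cons (cons (mv 846 (cons (fin 910 7 846)
(mv 782 (cons (fin 847 7 782)
(mv 912 (cons (fin 848 6 847)
(mv 1167 (cons (fin 976 6 911)
(mv 1230 (cons (fin 1166 5 974)
(mv 1231 (cons (fin 1294 5 1038)
(mv 1232 (cons (fin 1168 4 975)
(fin 1296 4 1039)))))))))))))))
(mv 846 (cons (fin 910 7 846)
(mv 847 (cons (fin 782 7 782)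
(mv 912 (cons (fin 848 6 847)
(mv 976 (cons (fin 1167 6 911)
(fin 783 4 783))))))))))
(cons (mv 846 (cons (fin 910 7 846)
(mv 847 (cons (fin 782 7 782)
(mv 976 (cons (fin 783 4 783)
(mv 1102 (cons (fin 1166 5 910)
(mv 1100 (cons (fin 1101 2 1036)
(mv 845 (cons (cons (mv 912 (cons (fin 844 0 844)
(fin 848 5 847)))
(mv 908 (cons (cons (mv 844 (cons (fin 907 1 843)
(mv 779 (cons (fin 780 3 779)
(mv 778 (cons (fin 843 3 778)
(mv 909 (cons (fin 848 1 844)
(mv 973 (cons (fin 974 3 908)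
(mv 1036 (cons (fin 1037 5 844)
(fin 972 6 844)))))))))))))
(cons (mv 844 (cons (fin 907 1 843)
(mv 780 (cons (fin 779 3 779)
(mv 781 (cons (fin 848 3 780)
(mv 717 (cons (fin 653 5 652)
(fin 972 6 716)))))))))
(mv 909 (cons (fin 848 1 844)
(mv 906 (cons (fin 907 2 842)
(mv 973 (cons (fin 974 3 908)
(mv 1036 (cons (fin 1037 5 844)
(fin 972 6 844)))))))))))
(cons (mv 909 (cons (fin 848 1 844)
(mv 972 (cons (fin 1036 6 844)
(mv 781 (cons (fin 717 5 716)
(mv 973 (cons (fin 974 3 908)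
(mv 780 (cons (fin 716 7 716)
(mv 779 (cons (fin 844 3 779)
(fin 778 0 778)))))))))))))
(cons (mv 907 (cons (fin 844 1 843)
(mv 909 (cons (fin 906 2 842)
(mv 973 (cons (fin 974 3 908)
(mv 1036 (cons (fin 1037 5 844)
(fin 972 6 844)))))))))
(mv 844 (cons (fin 907 1 843)
(mv 780 (cons (fin 779 3 779)
(mv 848 (cons (fin 781 3 780)
(fin 909 1 844))))))))))))
(cons (mv 844 (cons (fin 912 0 844)
(mv 779 (cons (fin 780 3 779)
(mv 843 (cons (fin 778 3 778)
(mv 907 (cons (fin 906 1 842)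
(fin 908 1 843)))))))))
(mv 973 (cons (mv 974 (cons (fin 972 0 972)
(fin 1041 0 973)))
(cons (mv 848 (cons (fin 912 5 847)
(mv 781 (cons (fin 780 3 780)
(mv 909 (cons (fin 908 1 844)
(mv 1036 (cons (fin 972 5 780)
(fin 1037 5 844)))))))))
(mv 912 (cons (fin 848 5 847)
(mv 913 (cons (fin 914 3 846)
(fin 974 2 909)))))))))))))))))))))
(mv 848 (cons (fin 912 6 847)
(mv 910 (cons (fin 846 7 846)
(mv 1166 (cons (fin 1102 5 910)
(mv 1167 (cons (fin 974 7 910)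
(fin 1230 5 974))))))))))))))
(cons (mv 1103 (cons (cons (mv 846 (cons (fin 910 7 846)
(mv 848 (cons (fin 912 6 847)
(mv 1102 (cons (fin 1166 5 910)
(mv 1101 (cons (fin 1100 2 1036)
(mv 1104 (cons (fin 1041 2 1037)
(fin 1168 4 911)))))))))))
(cons (mv 846 (cons (fin 910 7 846)
(mv 848 (cons (fin 912 6 847)
(mv 1166 (cons (fin 1102 5 910)
(mv 1167 (cons (fin 1230 5 974)
(mv 1231 (cons (fin 976 6 975)
(mv 1295 (cons (fin 1104 6 1039)
(mv 1296 (cons (fin 1232 4 1039)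
(fin 1360 4 1103)))))))))))))))
(mv 846 (cons (fin 910 7 846)
(mv 848 (cons (fin 912 6 847)
(mv 1166 (cons (fin 1102 5 910)
(mv 1167 (cons (fin 1230 5 974)
(mv 1231 (cons (fin 976 6 975)
(mv 1232 (cons (fin 1168 4 975)
(fin 1296 4 1039)))))))))))))))
(cons (cons (mv 846 (cons (fin 910 7 846)
(mv 1102 (cons (fin 1166 5 910)
(mv 1101 (cons (fin 1100 2 1036)
(mv 1104 (cons (fin 1041 2 1037)
(fin 1168 4 911)))))))))
(mv 848 (cons (fin 912 6 847)
(mv 1102 (cons (fin 1166 5 910)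
(mv 1101 (cons (fin 1100 2 1036)
(mv 1104 (cons (fin 1041 2 1037)
(fin 1168 4 911))))))))))
(cons (mv 846 (cons (fin 910 7 846)
(mv 848 (cons (fin 912 6 847)
(mv 1168 (cons (fin 1104 4 911)
(mv 1167 (cons (fin 1232 4 975)
(mv 1230 (cons (fin 1166 5 974)
(mv 1231 (cons (fin 1294 5 1038)
(fin 976 6 975)))))))))))))
(mv 846 (cons (fin 910 7 846)
(mv 912 (cons (fin 848 6 847)
(mv 976 (cons (fin 1167 6 911)
(mv 1104 (cons (fin 1168 7 911)
(mv 913 (cons (fin 849 6 848)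
(mv 914 (cons (fin 974 1 910)
(fin 915 1 911)))))))))))))))))
(mv 1104 (cons (fin 847 4 847)
(mv 1168 (cons (fin 1232 7 975)
(fin 1103 4 911))))))))
(mv 975 (cons (cons (mv 847 (cons (fin 1104 4 847)
(mv 782 (cons (fin 846 7 782)
(mv 783 (cons (fin 718 7 718)
(fin 976 4 783)))))))
(mv 1103 (cons (cons (cons (mv 846 (cons (fin 910 7 846)
(mv 848 (cons (fin 912 6 847)
(mv 1104 (cons (fin 1168 4 911)
(mv 1166 (cons (fin 1102 5 910)
(mv 1167 (cons (fin 1230 5 974)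
(mv 1231 (cons (fin 976 6 975)
(fin 1295 6 1039)))))))))))))
(mv 846 (cons (fin 910 7 846)
(mv 848 (cons (fin 912 6 847)
(mv 1166 (cons (fin 1102 5 910)
(mv 1167 (cons (fin 1230 5 974)
(mv 1231 (cons (fin 976 6 975)
(mv 1295 (cons (fin 1104 6 1039)
(mv 1296 (cons (fin 1232 4 1039)
(fin 1360 4 1103))))))))))))))))
(cons (mv 846 (cons (fin 910 7 846)
(mv 1104 (cons (fin 1168 4 911)
(mv 1166 (cons (fin 1102 5 910)
(mv 1167 (cons (fin 1230 5 974)
(mv 1231 (cons (fin 976 6 975)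
(fin 1295 6 1039)))))))))))
(mv 846 (cons (fin 910 7 846)
(mv 848 (cons (fin 912 6 847)
(mv 1166 (cons (fin 1102 5 910)
(mv 1167 (cons (fin 1230 5 974)
(mv 1231 (cons (fin 976 6 975)
(mv 1232 (cons (fin 1168 4 975)
(fin 1296 4 1039)))))))))))))))
(cons (cons (mv 848 (cons (fin 912 6 847)
(mv 1104 (cons (fin 1168 4 911)
(mv 1166 (cons (fin 1102 5 910)
(mv 1167 (cons (fin 1230 5 974)
(mv 1231 (cons (fin 976 6 975)
(fin 1295 6 1039)))))))))))
(mv 846 (cons (fin 910 7 846)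
(mv 912 (cons (fin 848 6 847)
(mv 976 (cons (fin 1167 6 911)
(mv 1104 (cons (fin 1168 7 911)
(mv 913 (cons (fin 849 6 848)
(mv 914 (cons (fin 974 1 910)
(fin 915 1 911))))))))))))))
(cons (mv 910 (cons (fin 846 7 846)
(mv 912 (cons (fin 848 6 847)
(mv 1102 (cons (fin 1166 5 910)
(mv 1104 (cons (fin 1168 4 911)
(mv 976 (cons (mv 909 (cons (fin 908 0 908)
(fin 977 0 909)))
(cons (mv 908 (cons (fin 909 0 908)
(mv 913 (cons (fin 849 6 848)
(mv 914 (cons (fin 974 1 910)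
(fin 915 1 911)))))))
(mv 913 (cons (fin 849 6 848)
(mv 914 (cons (fin 974 1 910)
(fin 915 1 911))))))))))))))))
(mv 846 (cons (fin 910 7 846)
(mv 848 (cons (fin 912 6 847)
(mv 1166 (cons (fin 1102 5 910)
(mv 1167 (cons (fin 1230 5 974)
(mv 1168 (cons (fin 1104 4 911)
(fin 1232 4 975))))))))))))))))
(cons (mv 1103 (cons (cons (mv 846 (cons (fin 910 7 846)
(mv 782 (cons (fin 847 7 782)
(mv 848 (cons (fin 912 6 847)
(mv 1166 (cons (fin 1102 5 910)
(mv 1167 (cons (fin 1230 5 974)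
(mv 1231 (cons (fin 976 6 975)
(mv 1232 (cons (fin 1168 4 975)
(fin 1296 4 1039)))))))))))))))
(mv 846 (cons (fin 910 7 846)
(mv 782 (cons (fin 847 7 782)
(mv 1166 (cons (fin 1102 5 910)
(mv 1167 (cons (fin 1230 5 974)
(mv 1231 (cons (fin 976 6 975)
(mv 1232 (cons (fin 1168 4 975)
(fin 1296 4 1039))))))))))))))
(cons (mv 848 (cons (fin 912 6 847)
(mv 784 (cons (fin 847 6 783)
(mv 1166 (cons (fin 1102 5 910)
(mv 1167 (cons (fin 1230 5 974)
(mv 1231 (cons (fin 976 6 975)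
(mv 1232 (cons (fin 1168 4 975)
(fin 1296 4 1039)))))))))))))
(cons (mv 846 (cons (fin 910 7 846)
(mv 847 (cons (fin 782 7 782)
(mv 848 (cons (fin 784 6 783)
(fin 912 6 847)))))))
(mv 846 (cons (fin 910 7 846)
(mv 848 (cons (fin 912 6 847)
(mv 1166 (cons (fin 1102 5 910)
(mv 1167 (cons (fin 1230 5 974)
(mv 1231 (cons (fin 976 6 975)
(mv 1232 (cons (fin 1168 4 975)
(fin 1296 4 1039)))))))))))))))))
(cons (mv 847 (cons (fin 1104 4 847)
(mv 782 (cons (fin 846 7 782)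
(mv 783 (cons (fin 718 7 718)
(mv 784 (cons (fin 720 6 719)
(fin 848 6 783)))))))))
(mv 847 (cons (fin 1104 4 847)
(mv 783 (cons (fin 976 4 783)
(mv 784 (cons (fin 720 6 719)
(fin 848 6 783)))))))))))))))))
def l12 : Lem := ⟨17672042592950510299342161747532428741358160893794450532607270698129752962383966679797774154701950421020191674846877452631289669433532411657536873821582864322832094995237976664601613395680896036318715866521764407099865564676993471100411554418605480722106008602337571462179774064736310031630534868627379729584881664, 25164835917856289736043182832241146835412073235691659441447325713601359203475086899504563773248331681809579115865362387563571114256968723004442994141623317301906001745625477519835092750642690503221662661994307035309721067973648892512552381346008063224235577103784749833808994055921685972288332177058356862258951557667079864308929420818571543349711066240704662050762433387812894256394206484653413806992900751360,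 25164835917856289736043182832241146835412073235691659441447325713601359203475086899504563773248331681809579115865362387563571114256968723004442994141623317301906001745625477519835092750642690503221662661994307035309721067973648892512552381346008063224235577103784749833808994055921685972288332177058356862258951557667079864308929420818571543349711066240704662050762433387812894256394206484653413806992900751360, 17, 33⟩
theorem l12_valid : l12.Valid :=
  Lem.valid_of_chk t12 t12_valid [1039, 1040] c12 l12 (by decide +kernel)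
end Crest.Agent.SnakyAux
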