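import Crest.Agent.S0047_aux.Checker

set_option autoImplicit false
set_option maxRecDepth 100000
namespace Crest.Agent.SnakyAux
open Cert
def t121 : Tbl := Tbl.nil
theorem t121_valid : t121.Valid := Tbl.valid_nil
def c121 : Cert :=
(mv 1101 (cons (cons (cons (cons (mv 1038 (cons (cons (mv 1039 (cons (fin 1100 1 1036)
(mv 972 (cons (fin 973 3 972)
(mv 976 (cons (fin 977 2 973)
(mv 1036 (cons (fin 971 3 971)
(fin 975 2 972)))))))))
(cons (mv 974 (cons (cons (mv 910 (cons (fin 846 5 845)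
(mv 1165 (cons (fin 1102 5 909)
(fin 973 6 909)))))
(mv 910 (cons (fin 846 5 845)
(mv 1102 (cons (cons (mv 845 (cons (fin 909 7 845)
(mv 847 (cons (fin 911 6 846)
(mv 1103 (cons (fin 1167 4 910)
(mv 1036 (cons (fin 1104 3 1036)
(fin 1035 0 1035)))))))))
(mv 847 (cons (fin 911 6 846)
(mv 1103 (cons (fin 1167 4 910)
(mv 1036 (cons (fin 1104 3 1036)
(fin 1035 0 1035))))))))
(cons (mv 845 (cons (fin 909 7 845)
(mv 911 (cons (fin 847 6 846)
(mv 975 (cons (fin 1166 6 910)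
(mv 976 (cons (fin 977 1 973)
(mv 1036 (cons (fin 973 1 972)
(fin 1035 2 971)))))))))))
(cons (mv 845 (cons (fin 909 7 845)
(mv 1103 (cons (fin 1167 4 910)
(mv 1036 (cons (fin 1104 3 1036)
(fin 1035 0 1035)))))))
(mv 845 (cons (fin 909 7 845)
(mv 847 (cons (fin 911 6 846)
(mv 1167 (cons (fin 1103 4 910)
(mv 1166 (cons (fin 1231 4 974)
(mv 1230 (cons (fin 973 7 973)
(fin 1294 7 1037))))))))))))))))))
(cons (mv 1165 (cons (fin 1229 6 973)
(mv 973 (cons (cons (mv 908 (cons (fin 972 7 908)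
(mv 909 (cons (fin 844 7 844)
(mv 845 (cons (fin 781 4 781)
(fin 1102 4 845)))))))
(mv 1164 (cons (fin 1228 5 972)
(mv 909 (cons (fin 1100 5 908)
(mv 845 (cons (fin 781 4 781)
(fin 1102 4 845))))))))
(cons (mv 972 (cons (fin 908 7 908)
(mv 971 (cons (fin 970 0 970)
(mv 906 (cons (fin 907 3 906)
(mv 1035 (cons (fin 1034 1 970)
(mv 975 (cons (fin 1036 1 971)
(mv 976 (cons (fin 977 1 973)
(mv 1164 (cons (fin 1228 5 972)
(mv 1166 (cons (fin 1230 4 973)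
(mv 911 (cons (fin 1102 6 910)
(mv 783 (cons (fin 847 5 782)
(mv 1168 (cons (fin 1104 7 911)
(mv 1167 (cons (fin 1100 3 1100)
(mv 1232 (cons (fin 1231 0 1164)
(fin 1233 0 1165)))))))))))))))))))))))))))
(mv 908 (cons (fin 972 7 908)
(mv 909 (cons (fin 844 7 844)
(mv 1164 (cons (fin 1100 5 908)
(fin 1228 5 972))))))))))))
(cons (mv 910 (cons (fin 846 5 845)
(mv 1165 (cons (fin 973 6 909)
(fin 1229 6 973)))))
(mv 910 (cons (fin 846 5 845)
(mv 1165 (cons (fin 1102 5 909)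
(fin 1229 6 973)))))))))
(mv 1039 (cons (cons (mv 972 (cons (fin 973 3 972)
(mv 976 (cons (fin 977 2 973)
(mv 1036 (cons (fin 971 3 971)
(fin 975 2 972)))))))
(mv 976 (cons (fin 977 2 973)
(mv 975 (cons (fin 1036 2 972)
(mv 1104 (cons (fin 1105 0 1037)
(mv 911 (cons (fin 1168 7 911)
(fin 847 4 847))))))))))
(cons (mv 972 (cons (fin 973 3 972)
(mv 1036 (cons (fin 971 3 971)
(mv 1104 (cons (fin 1103 0 1036)
(fin 1105 0 1037)))))))
(mv 972 (cons (fin 973 3 972)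
(mv 976 (cons (fin 977 2 973)
(mv 1104 (cons (fin 1105 0 1037)
(mv 1168 (cons (mv 975 (cons (fin 911 7 911)
(fin 1232 7 975)))
(mv 1167 (cons (fin 1231 5 975)
(mv 1169 (cons (fin 1233 4 976)
(mv 1102 (cons (fin 1166 3 1101)
(fin 1103 0 1101))))))))))))))))))))
(cons (mv 1039 (cons (fin 1100 1 1036)
(mv 976 (cons (fin 977 2 973)
(mv 975 (cons (fin 1036 2 972)
(mv 1104 (cons (fin 1105 0 1037)
(mv 911 (cons (fin 1168 7 911)
(fin 847 4 847)))))))))))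
(cons (mv 1039 (cons (fin 1100 1 1036)
(mv 972 (cons (fin 973 3 972)
(mv 1036 (cons (fin 971 3 971)
(mv 1104 (cons (fin 1103 0 1036)
(fin 1105 0 1037)))))))))
(mv 1039 (cons (fin 1100 1 1036)
(mv 972 (cons (fin 973 3 972)
(mv 976 (cons (fin 977 2 973)
(mv 1104 (cons (fin 1105 0 1037)
(mv 1168 (cons (mv 975 (cons (fin 911 7 911)
(fin 1232 7 975)))
(mv 1167 (cons (fin 1231 5 975)
(mv 1169 (cons (fin 1233 4 976)
(mv 1102 (cons (fin 1166 3 1101)
(fin 1103 0 1101)))))))))))))))))))))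
(mv 973 (cons (cons (mv 1165 (cons (cons (mv 908 (cons (fin 972 7 908)
(mv 844 (cons (fin 909 7 844)
(mv 910 (cons (fin 974 6 909)
(mv 1228 (cons (fin 1164 5 972)
(mv 1229 (cons (fin 1292 5 1036)
(mv 1230 (cons (fin 1166 4 973)
(fin 1294 4 1037)))))))))))))
(mv 908 (cons (fin 972 7 908)
(mv 909 (cons (fin 844 7 844)
(mv 910 (cons (fin 846 6 845)
(fin 974 6 909))))))))
(cons (mv 910 (cons (fin 974 6 909)
(mv 846 (cons (fin 909 6 845)
(mv 1228 (cons (fin 1164 5 972)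
(mv 1229 (cons (fin 1292 5 1036)
(mv 1230 (cons (fin 1166 4 973)
(fin 1294 4 1037)))))))))))
(cons (mv 908 (cons (fin 972 7 908)
(mv 844 (cons (fin 909 7 844)
(mv 1228 (cons (fin 1164 5 972)
(mv 1229 (cons (fin 1292 5 1036)
(mv 1230 (cons (fin 1166 4 973)
(fin 1294 4 1037)))))))))))
(mv 908 (cons (fin 972 7 908)
(mv 910 (cons (fin 974 6 909)
(mv 1228 (cons (fin 1164 5 972)
(mv 1229 (cons (fin 1292 5 1036)
(mv 1230 (cons (fin 1166 4 973)
(fin 1294 4 1037)))))))))))))))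
(cons (mv 909 (cons (cons (mv 844 (cons (fin 908 7 844)
(mv 780 (cons (fin 845 7 780)
(mv 846 (cons (fin 910 6 845)
(mv 1100 (cons (fin 1164 5 908)
(mv 1102 (cons (fin 1166 4 909)
(mv 1103 (cons (fin 1039 2 1036)
(mv 1036 (cons (fin 1035 3 1035)
(fin 1104 3 1036)))))))))))))))
(mv 844 (cons (fin 908 7 844)
(mv 845 (cons (fin 780 7 780)
(mv 846 (cons (fin 782 6 781)
(fin 910 6 845))))))))
(cons (mv 846 (cons (fin 910 6 845)
(mv 782 (cons (fin 845 6 781)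
(mv 1100 (cons (fin 1164 5 908)
(mv 1102 (cons (fin 1166 4 909)
(mv 1103 (cons (fin 1039 2 1036)
(mv 1036 (cons (fin 1035 3 1035)
(fin 1104 3 1036)))))))))))))
(cons (mv 844 (cons (fin 908 7 844)
(mv 780 (cons (fin 845 7 780)
(mv 1100 (cons (fin 1164 5 908)
(mv 1102 (cons (fin 1166 4 909)
(mv 1103 (cons (fin 1039 2 1036)
(mv 1036 (cons (fin 1035 3 1035)
(fin 1104 3 1036)))))))))))))
(mv 844 (cons (fin 908 7 844)
(mv 846 (cons (fin 910 6 845)
(mv 1100 (cons (fin 1164 5 908)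
(mv 1102 (cons (fin 1166 4 909)
(mv 1103 (cons (fin 1039 2 1036)
(mv 1036 (cons (fin 1035 3 1035)
(fin 1104 3 1036)))))))))))))))))
(mv 1165 (cons (cons (mv 908 (cons (fin 972 7 908)
(mv 910 (cons (fin 974 6 909)
(mv 1228 (cons (fin 1164 5 972)
(mv 1229 (cons (fin 1292 5 1036)
(mv 1230 (cons (fin 1166 4 973)
(fin 1294 4 1037)))))))))))
(cons (mv 910 (cons (fin 974 6 909)
(mv 1228 (cons (fin 1164 5 972)
(mv 1229 (cons (fin 1292 5 1036)
(mv 1230 (cons (fin 1166 4 973)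
(fin 1294 4 1037)))))))))
(mv 910 (cons (fin 974 6 909)
(mv 972 (cons (fin 908 7 908)
(mv 1229 (cons (fin 1036 7 972)
(mv 1230 (cons (fin 1166 4 973)
(fin 1294 4 1037)))))))))))
(cons (mv 910 (cons (fin 974 6 909)
(mv 972 (cons (fin 908 7 908)
(mv 1228 (cons (fin 1164 5 972)
(mv 1229 (cons (fin 1036 7 972)
(fin 1292 5 1036)))))))))
(cons (mv 908 (cons (fin 972 7 908)
(mv 1228 (cons (fin 1164 5 972)
(mv 1229 (cons (fin 1292 5 1036)
(mv 1230 (cons (fin 1166 4 973)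
(fin 1294 4 1037)))))))))
(mv 972 (cons (fin 908 7 908)
(mv 974 (cons (fin 910 6 909)
(mv 975 (cons (fin 1039 0 972)
(mv 1036 (cons (fin 1035 1 971)
(fin 976 1 972)))))))))))))))
(cons (cons (mv 1165 (cons (cons (mv 910 (cons (fin 974 6 909)
(mv 846 (cons (fin 909 6 845)
(mv 1166 (cons (fin 1230 4 973)
(mv 1228 (cons (fin 1164 5 972)
(mv 1229 (cons (fin 1292 5 1036)
(mv 1036 (cons (fin 972 7 972)
(mv 1100 (cons (fin 1293 7 1036)
(mv 1099 (cons (fin 1098 0 1098)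
(mv 1167 (cons (fin 1168 3 1100)
(fin 1102 0 1099)))))))))))))))))))
(cons (mv 910 (cons (fin 974 6 909)
(mv 846 (cons (fin 909 6 845)
(mv 1230 (cons (fin 1166 4 973)
(mv 1229 (cons (fin 1294 4 1037)
(mv 1036 (cons (fin 972 7 972)
(mv 1292 (cons (fin 1228 5 1036)
(mv 1293 (cons (fin 1100 7 1036)
(fin 1356 5 1100)))))))))))))))
(mv 910 (cons (fin 974 6 909)
(mv 846 (cons (fin 909 6 845)
(mv 1228 (cons (fin 1164 5 972)
(mv 1229 (cons (fin 1292 5 1036)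
(mv 1036 (cons (fin 972 7 972)
(mv 1293 (cons (fin 1100 7 1036)
(mv 1294 (cons (fin 1230 4 1037)
(fin 1358 4 1101)))))))))))))))))
(cons (cons (mv 910 (cons (fin 974 6 909)
(mv 909 (cons (fin 846 6 845)
(mv 1166 (cons (fin 1102 4 909)
(fin 1230 4 973)))))))
(mv 910 (cons (fin 974 6 909)
(mv 909 (cons (fin 846 6 845)
(mv 1164 (cons (fin 1100 5 908)
(fin 1228 5 972))))))))
(cons (mv 1164 (cons (fin 1228 5 972)
(mv 909 (cons (fin 1100 5 908)
(mv 1166 (cons (fin 1102 4 909)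
(fin 1230 4 973)))))))
(mv 910 (cons (fin 974 6 909)
(mv 1166 (cons (fin 1230 4 973)
(mv 1228 (cons (fin 1164 5 972)
(mv 1229 (cons (fin 1292 5 1036)
(mv 1036 (cons (fin 972 7 972)
(mv 1100 (cons (fin 1293 7 1036)
(mv 1099 (cons (fin 1098 0 1098)
(mv 1167 (cons (fin 1168 3 1100)
(fin 1102 0 1099)))))))))))))))))))))
(mv 909 (cons (cons (mv 844 (cons (fin 908 7 844)
(mv 780 (cons (fin 845 7 780)
(mv 910 (cons (fin 846 6 845)
(mv 1165 (cons (fin 974 6 909)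
(mv 1166 (cons (fin 1102 4 909)
(fin 1230 4 973)))))))))))
(cons (mv 846 (cons (fin 910 6 845)
(mv 845 (cons (fin 782 6 781)
(mv 780 (cons (fin 844 7 780)
(mv 781 (cons (fin 716 7 716)
(mv 1036 (cons (fin 972 5 780)
(fin 1100 5 844)))))))))))
(mv 844 (cons (fin 908 7 844)
(mv 845 (cons (fin 780 7 780)
(mv 782 (cons (fin 846 6 781)
(mv 781 (cons (fin 718 6 717)
(mv 1036 (cons (fin 972 5 780)
(fin 1100 5 844)))))))))))))
(cons (mv 846 (cons (fin 910 6 845)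
(mv 845 (cons (fin 782 6 781)
(mv 1036 (cons (fin 1100 5 844)
(mv 972 (cons (fin 781 5 780)
(mv 1165 (cons (fin 908 7 908)
(fin 1229 7 972)))))))))))
(cons (mv 844 (cons (fin 908 7 844)
(mv 845 (cons (fin 780 7 780)
(mv 1036 (cons (fin 1100 5 844)
(mv 972 (cons (fin 781 5 780)
(mv 1102 (cons (fin 1166 4 909)
(mv 1034 (cons (fin 1035 0 1034)
(mv 1103 (cons (fin 1104 3 1036)
(mv 1165 (cons (fin 1229 7 972)
(mv 974 (cons (fin 910 6 909)
(mv 975 (cons (fin 976 1 972)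
(fin 1039 0 972)))))))))))))))))))))
(mv 844 (cons (fin 908 7 844)
(mv 910 (cons (fin 846 6 845)
(mv 1165 (cons (fin 974 6 909)
(mv 1166 (cons (fin 1102 4 909)
(fin 1230 4 973))))))))))))))
(cons (mv 909 (cons (cons (mv 844 (cons (fin 908 7 844)
(mv 780 (cons (fin 845 7 780)
(mv 910 (cons (fin 846 6 845)
(mv 1164 (cons (fin 1100 5 908)
(mv 1165 (cons (fin 1228 5 972)
(fin 974 6 909)))))))))))
(mv 846 (cons (fin 910 6 845)
(mv 845 (cons (fin 782 6 781)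
(mv 1100 (cons (fin 1036 5 844)
(fin 1164 5 908))))))))
(cons (mv 844 (cons (fin 908 7 844)
(mv 845 (cons (fin 780 7 780)
(mv 846 (cons (fin 782 6 781)
(fin 910 6 845)))))))
(cons (mv 844 (cons (fin 908 7 844)
(mv 845 (cons (fin 780 7 780)
(mv 1100 (cons (fin 1036 5 844)
(fin 1164 5 908)))))))
(mv 844 (cons (fin 908 7 844)
(mv 910 (cons (fin 846 6 845)
(mv 1164 (cons (fin 1100 5 908)
(mv 1165 (cons (fin 1228 5 972)
(fin 974 6 909)))))))))))))
(mv 1165 (cons (cons (mv 908 (cons (fin 972 7 908)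
(mv 844 (cons (fin 909 7 844)
(mv 1228 (cons (fin 1164 5 972)
(mv 1229 (cons (fin 1292 5 1036)
(mv 1230 (cons (fin 1166 4 973)
(fin 1294 4 1037)))))))))))
(mv 908 (cons (fin 972 7 908)
(mv 909 (cons (fin 844 7 844)
(mv 1166 (cons (fin 1102 4 909)
(fin 1230 4 973))))))))
(cons (mv 908 (cons (fin 972 7 908)
(mv 909 (cons (fin 844 7 844)
(mv 1164 (cons (fin 1100 5 908)
(fin 1228 5 972)))))))
(cons (mv 1164 (cons (fin 1228 5 972)
(mv 909 (cons (fin 1100 5 908)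
(mv 1166 (cons (fin 1102 4 909)
(fin 1230 4 973)))))))
(mv 908 (cons (fin 972 7 908)
(mv 1228 (cons (fin 1164 5 972)
(mv 1229 (cons (fin 1292 5 1036)
(mv 1230 (cons (fin 1166 4 973)
(fin 1294 4 1037))))))))))))))))))
(cons (mv 973 (cons (cons (cons (mv 1165 (cons (cons (mv 908 (cons (fin 972 7 908)
(mv 844 (cons (fin 909 7 844)
(mv 910 (cons (fin 974 6 909)
(mv 1228 (cons (fin 1164 5 972)
(mv 1229 (cons (fin 1292 5 1036)
(mv 1230 (cons (fin 1166 4 973)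
(fin 1294 4 1037)))))))))))))
(cons (mv 910 (cons (fin 974 6 909)
(mv 846 (cons (fin 909 6 845)
(mv 1228 (cons (fin 1164 5 972)
(mv 1229 (cons (fin 1292 5 1036)
(mv 1230 (cons (fin 1166 4 973)
(fin 1294 4 1037)))))))))))
(mv 908 (cons (fin 972 7 908)
(mv 844 (cons (fin 909 7 844)
(mv 1228 (cons (fin 1164 5 972)
(mv 1229 (cons (fin 1292 5 1036)
(mv 1230 (cons (fin 1166 4 973)
(fin 1294 4 1037)))))))))))))
(cons (cons (mv 908 (cons (fin 972 7 908)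
(mv 844 (cons (fin 909 7 844)
(mv 974 (cons (fin 910 6 909)
(mv 1228 (cons (fin 1164 5 972)
(mv 1229 (cons (fin 1292 5 1036)
(fin 1038 6 973)))))))))))
(mv 908 (cons (fin 972 7 908)
(mv 844 (cons (fin 909 7 844)
(mv 974 (cons (fin 910 6 909)
(mv 1229 (cons (fin 1038 6 973)
(mv 1230 (cons (fin 1166 4 973)
(fin 1294 4 1037))))))))))))
(cons (mv 908 (cons (fin 972 7 908)
(mv 909 (cons (fin 844 7 844)
(mv 910 (cons (fin 846 6 845)
(fin 974 6 909)))))))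
(mv 908 (cons (fin 972 7 908)
(mv 910 (cons (fin 974 6 909)
(mv 1228 (cons (fin 1164 5 972)
(mv 1229 (cons (fin 1292 5 1036)
(mv 1230 (cons (fin 1166 4 973)
(fin 1294 4 1037)))))))))))))))
(mv 909 (cons (cons (mv 844 (cons (fin 908 7 844)
(mv 845 (cons (fin 780 7 780)
(mv 846 (cons (fin 782 6 781)
(fin 910 6 845)))))))
(mv 844 (cons (fin 908 7 844)
(mv 845 (cons (fin 780 7 780)
(mv 1102 (cons (fin 1038 4 845)
(fin 1166 4 909))))))))
(cons (mv 846 (cons (fin 910 6 845)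
(mv 845 (cons (fin 782 6 781)
(mv 1102 (cons (fin 1038 4 845)
(fin 1166 4 909)))))))
(mv 908 (cons (fin 844 7 844)
(mv 910 (cons (fin 846 6 845)
(mv 1102 (cons (fin 1166 4 909)
(mv 907 (cons (cons (mv 974 (cons (fin 906 0 906)
(fin 975 0 907)))
(mv 842 (cons (fin 843 3 842)
(mv 841 (cons (fin 906 3 841)
(mv 971 (cons (fin 970 1 906)
(mv 911 (cons (fin 972 1 907)
(mv 847 (cons (fin 848 2 844)
(mv 975 (cons (fin 976 0 908)
(mv 1039 (cons (fin 1038 5 846)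
(fin 1104 4 847))))))))))))))))
(cons (mv 842 (cons (fin 843 3 842)
(mv 906 (cons (fin 841 3 841)
(fin 974 0 906)))))
(mv 842 (cons (fin 843 3 842)
(mv 970 (cons (fin 971 1 906)
(mv 975 (cons (fin 974 0 907)
(mv 911 (cons (fin 976 0 908)
(mv 847 (cons (fin 848 2 844)
(mv 1039 (cons (fin 1038 5 846)
(fin 1104 4 847))))))))))))))))))))))))))
(cons (mv 1165 (cons (cons (mv 908 (cons (fin 972 7 908)
(mv 910 (cons (fin 974 6 909)
(mv 1228 (cons (fin 1164 5 972)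
(mv 1229 (cons (fin 1292 5 1036)
(mv 1230 (cons (fin 1166 4 973)
(fin 1294 4 1037)))))))))))
(cons (mv 910 (cons (fin 974 6 909)
(mv 1228 (cons (fin 1164 5 972)
(mv 1229 (cons (fin 1292 5 1036)
(mv 1230 (cons (fin 1166 4 973)
(fin 1294 4 1037)))))))))
(mv 908 (cons (fin 972 7 908)
(mv 1228 (cons (fin 1164 5 972)
(mv 1229 (cons (fin 1292 5 1036)
(mv 1230 (cons (fin 1166 4 973)
(fin 1294 4 1037)))))))))))
(cons (mv 908 (cons (fin 972 7 908)
(mv 974 (cons (fin 910 6 909)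
(mv 1228 (cons (fin 1164 5 972)
(mv 1229 (cons (fin 1292 5 1036)
(fin 1038 6 973)))))))))
(cons (mv 908 (cons (fin 972 7 908)
(mv 974 (cons (fin 910 6 909)
(mv 1229 (cons (fin 1038 6 973)
(mv 1230 (cons (fin 1166 4 973)
(fin 1294 4 1037)))))))))
(mv 972 (cons (fin 908 7 908)
(mv 974 (cons (fin 910 6 909)
(mv 1039 (cons (fin 1038 3 972)
(fin 975 0 972)))))))))))
(mv 1165 (cons (cons (mv 910 (cons (fin 974 6 909)
(mv 846 (cons (fin 909 6 845)
(mv 1228 (cons (fin 1164 5 972)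
(mv 1229 (cons (fin 1292 5 1036)
(mv 1230 (cons (fin 1166 4 973)
(fin 1294 4 1037)))))))))))
(mv 1164 (cons (fin 1228 5 972)
(mv 1166 (cons (fin 1230 4 973)
(mv 909 (cons (fin 1102 4 909)
(mv 844 (cons (fin 908 7 844)
(mv 845 (cons (fin 780 7 780)
(mv 846 (cons (fin 782 6 781)
(fin 910 6 845))))))))))))))
(cons (mv 974 (cons (fin 910 6 909)
(mv 1228 (cons (fin 1164 5 972)
(mv 1229 (cons (fin 1292 5 1036)
(fin 1038 6 973)))))))
(cons (mv 1164 (cons (fin 1228 5 972)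
(mv 1166 (cons (fin 1230 4 973)
(mv 1102 (cons (fin 909 4 909)
(mv 1103 (cons (fin 1104 1 1100)
(fin 1163 2 1099)))))))))
(mv 910 (cons (fin 974 6 909)
(mv 909 (cons (fin 846 6 845)
(mv 1166 (cons (fin 1102 4 909)
(fin 1230 4 973)))))))))))))
(cons (cons (mv 1165 (cons (cons (mv 910 (cons (fin 974 6 909)
(mv 846 (cons (fin 909 6 845)
(mv 1228 (cons (fin 1164 5 972)
(mv 1229 (cons (fin 1292 5 1036)
(mv 1230 (cons (fin 1166 4 973)
(fin 1294 4 1037)))))))))))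
(mv 1164 (cons (fin 1228 5 972)
(mv 1166 (cons (fin 1230 4 973)
(mv 1102 (cons (fin 909 4 909)
(mv 1103 (cons (fin 1104 1 1100)
(fin 1163 2 1099))))))))))
(cons (mv 910 (cons (fin 974 6 909)
(mv 846 (cons (fin 909 6 845)
(mv 1228 (cons (fin 1164 5 972)
(mv 1229 (cons (fin 1292 5 1036)
(mv 972 (cons (fin 1036 7 972)
(mv 1038 (cons (fin 1039 3 972)
(mv 970 (cons (fin 971 0 970)
(mv 1293 (cons (fin 1102 6 1037)
(mv 1294 (cons (fin 1230 4 1037)
(fin 1358 4 1101)))))))))))))))))))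
(cons (mv 910 (cons (fin 974 6 909)
(mv 909 (cons (fin 846 6 845)
(mv 1102 (cons (fin 1166 4 909)
(mv 1038 (cons (fin 845 4 845)
(mv 972 (cons (fin 1039 3 972)
(mv 1229 (cons (fin 1036 7 972)
(fin 1293 6 1037)))))))))))))
(mv 910 (cons (fin 974 6 909)
(mv 1228 (cons (fin 1164 5 972)
(mv 1229 (cons (fin 1292 5 1036)
(mv 1230 (cons (fin 1166 4 973)
(fin 1294 4 1037)))))))))))))
(mv 1165 (cons (cons (mv 908 (cons (fin 972 7 908)
(mv 844 (cons (fin 909 7 844)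
(mv 1164 (cons (fin 1228 5 972)
(mv 1230 (cons (fin 1166 4 973)
(mv 1229 (cons (fin 1294 4 1037)
(mv 1038 (cons (fin 974 6 973)
(mv 1102 (cons (fin 1293 6 1037)
(mv 1104 (cons (fin 1103 1 1100)
(mv 1039 (cons (fin 1105 0 1037)
(mv 976 (cons (fin 977 2 973)
(mv 975 (cons (fin 1036 2 972)
(mv 911 (cons (fin 1168 7 911)
(fin 847 5 846)))))))))))))))))))))))))
(cons (mv 1164 (cons (fin 1228 5 972)
(mv 1166 (cons (fin 1230 4 973)
(mv 1102 (cons (fin 909 4 909)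
(mv 1103 (cons (fin 1104 1 1100)
(fin 1163 2 1099)))))))))
(mv 908 (cons (fin 972 7 908)
(mv 844 (cons (fin 909 7 844)
(mv 1228 (cons (fin 1164 5 972)
(mv 1229 (cons (fin 1292 5 1036)
(mv 1038 (cons (fin 974 6 973)
(mv 1293 (cons (fin 1102 6 1037)
(mv 1294 (cons (fin 1230 4 1037)
(fin 1358 4 1101)))))))))))))))))
(cons (mv 908 (cons (fin 972 7 908)
(mv 909 (cons (fin 844 7 844)
(mv 1102 (cons (fin 1166 4 909)
(mv 1038 (cons (fin 845 4 845)
(mv 1229 (cons (fin 974 6 973)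
(fin 1293 6 1037)))))))))))
(cons (mv 908 (cons (fin 972 7 908)
(mv 1164 (cons (fin 1228 5 972)
(mv 1230 (cons (fin 1166 4 973)
(mv 1229 (cons (fin 1294 4 1037)
(mv 1038 (cons (fin 974 6 973)
(mv 1102 (cons (fin 1293 6 1037)
(mv 1104 (cons (fin 1103 1 1100)
(mv 1039 (cons (fin 1105 0 1037)
(mv 976 (cons (fin 977 2 973)
(mv 975 (cons (fin 1036 2 972)
(mv 911 (cons (fin 1168 7 911)
(fin 847 5 846)))))))))))))))))))))))
(mv 908 (cons (fin 972 7 908)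
(mv 844 (cons (fin 909 7 844)
(mv 1228 (cons (fin 1164 5 972)
(mv 1229 (cons (fin 1292 5 1036)
(mv 1230 (cons (fin 1166 4 973)
(fin 1294 4 1037))))))))))))))))
(cons (mv 1165 (cons (cons (mv 908 (cons (fin 972 7 908)
(mv 844 (cons (fin 909 7 844)
(mv 974 (cons (fin 910 6 909)
(mv 1228 (cons (fin 1164 5 972)
(mv 1229 (cons (fin 1292 5 1036)
(fin 1038 6 973)))))))))))
(mv 974 (cons (fin 910 6 909)
(mv 1228 (cons (fin 1164 5 972)
(mv 1229 (cons (fin 1292 5 1036)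
(fin 1038 6 973))))))))
(cons (mv 972 (cons (fin 908 7 908)
(mv 1038 (cons (fin 1039 3 972)
(mv 970 (cons (fin 971 0 970)
(mv 1164 (cons (fin 1228 5 972)
(mv 1229 (cons (fin 1036 7 972)
(mv 1293 (cons (fin 1102 6 1037)
(mv 1294 (cons (fin 1230 4 1037)
(fin 1358 4 1101)))))))))))))))
(mv 908 (cons (fin 972 7 908)
(mv 909 (cons (fin 844 7 844)
(mv 910 (cons (fin 846 6 845)
(fin 974 6 909))))))))))
(cons (mv 1165 (cons (cons (mv 908 (cons (fin 972 7 908)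
(mv 844 (cons (fin 909 7 844)
(mv 910 (cons (fin 974 6 909)
(mv 1228 (cons (fin 1164 5 972)
(mv 1229 (cons (fin 1292 5 1036)
(mv 1230 (cons (fin 1166 4 973)
(fin 1294 4 1037)))))))))))))
(mv 910 (cons (fin 974 6 909)
(mv 846 (cons (fin 909 6 845)
(mv 1228 (cons (fin 1164 5 972)
(mv 1229 (cons (fin 1292 5 1036)
(mv 1230 (cons (fin 1166 4 973)
(fin 1294 4 1037))))))))))))
(cons (mv 908 (cons (fin 972 7 908)
(mv 909 (cons (fin 844 7 844)
(mv 910 (cons (fin 846 6 845)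
(fin 974 6 909)))))))
(cons (mv 908 (cons (fin 972 7 908)
(mv 844 (cons (fin 909 7 844)
(mv 1228 (cons (fin 1164 5 972)
(mv 1229 (cons (fin 1292 5 1036)
(mv 1230 (cons (fin 1166 4 973)
(fin 1294 4 1037)))))))))))
(mv 908 (cons (fin 972 7 908)
(mv 910 (cons (fin 974 6 909)
(mv 1228 (cons (fin 1164 5 972)
(mv 1229 (cons (fin 1292 5 1036)
(mv 1230 (cons (fin 1166 4 973)
(fin 1294 4 1037)))))))))))))))
(mv 1165 (cons (cons (mv 908 (cons (fin 972 7 908)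
(mv 844 (cons (fin 909 7 844)
(mv 1228 (cons (fin 1164 5 972)
(mv 1229 (cons (fin 1292 5 1036)
(mv 1230 (cons (fin 1166 4 973)
(fin 1294 4 1037)))))))))))
(mv 1164 (cons (fin 1228 5 972)
(mv 1166 (cons (fin 1230 4 973)
(mv 909 (cons (fin 1102 4 909)
(mv 844 (cons (fin 908 7 844)
(mv 845 (cons (fin 780 7 780)
(mv 846 (cons (fin 782 6 781)
(fin 910 6 845))))))))))))))
(cons (mv 972 (cons (fin 908 7 908)
(mv 1038 (cons (fin 1039 3 972)
(mv 970 (cons (fin 971 0 970)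
(mv 1164 (cons (fin 1228 5 972)
(mv 1229 (cons (fin 1036 7 972)
(mv 1293 (cons (fin 1102 6 1037)
(mv 1294 (cons (fin 1230 4 1037)
(fin 1358 4 1101)))))))))))))))
(cons (mv 908 (cons (fin 972 7 908)
(mv 909 (cons (fin 844 7 844)
(mv 846 (cons (fin 910 6 845)
(mv 845 (cons (fin 782 6 781)
(mv 1102 (cons (fin 1038 4 845)
(fin 1166 4 909)))))))))))
(mv 1164 (cons (fin 1228 5 972)
(mv 1166 (cons (fin 1230 4 973)
(mv 1102 (cons (fin 909 4 909)
(mv 1103 (cons (fin 1104 1 1100)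
(fin 1163 2 1099))))))))))))))))))
(mv 1165 (cons (cons (cons (mv 1229 (cons (cons (cons (mv 972 (cons (fin 1036 7 972)
(mv 908 (cons (fin 973 7 908)
(mv 974 (cons (fin 1038 6 973)
(mv 1292 (cons (fin 1228 5 1036)
(mv 1293 (cons (fin 1356 5 1100)
(mv 1294 (cons (fin 1230 4 1037)
(fin 1358 4 1101)))))))))))))
(mv 972 (cons (fin 1036 7 972)
(mv 908 (cons (fin 973 7 908)
(mv 1038 (cons (fin 974 6 973)
(mv 1230 (cons (fin 1294 4 1037)
(mv 1293 (cons (fin 1102 6 1037)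
(mv 1356 (cons (fin 1292 5 1100)
(mv 1357 (cons (fin 1420 5 1164)
(mv 1100 (cons (fin 1164 7 1100)
(mv 1098 (cons (fin 1099 2 1034)
(mv 1421 (cons (fin 1166 6 1165)
(mv 1422 (cons (fin 1358 4 1165)
(fin 1486 4 1229))))))))))))))))))))))))
(cons (mv 972 (cons (fin 1036 7 972)
(mv 908 (cons (fin 973 7 908)
(mv 1038 (cons (fin 974 6 973)
(mv 1228 (cons (fin 1292 5 1036)
(mv 1293 (cons (fin 1102 6 1037)
(mv 1358 (cons (fin 1294 4 1101)
(mv 1357 (cons (fin 1422 4 1165)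
(mv 1164 (cons (fin 1100 7 1100)
(fin 1421 7 1164)))))))))))))))))
(mv 974 (cons (fin 1038 6 973)
(mv 910 (cons (fin 973 6 909)
(mv 1292 (cons (fin 1228 5 1036)
(mv 1293 (cons (fin 1356 5 1100)
(mv 1294 (cons (fin 1230 4 1037)
(fin 1358 4 1101)))))))))))))
(cons (cons (mv 972 (cons (fin 1036 7 972)
(mv 908 (cons (fin 973 7 908)
(mv 1292 (cons (fin 1228 5 1036)
(mv 1293 (cons (fin 1356 5 1100)
(mv 1294 (cons (fin 1230 4 1037)
(fin 1358 4 1101)))))))))))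
(mv 972 (cons (fin 1036 7 972)
(mv 908 (cons (fin 973 7 908)
(mv 1038 (cons (fin 974 6 973)
(mv 1293 (cons (fin 1102 6 1037)
(mv 1294 (cons (fin 1230 4 1037)
(fin 1358 4 1101))))))))))))
(cons (mv 972 (cons (fin 1036 7 972)
(mv 908 (cons (fin 973 7 908)
(mv 1038 (cons (fin 974 6 973)
(mv 1292 (cons (fin 1228 5 1036)
(mv 1293 (cons (fin 1356 5 1100)
(fin 1102 6 1037)))))))))))
(cons (mv 972 (cons (fin 1036 7 972)
(mv 973 (cons (fin 908 7 908)
(mv 974 (cons (fin 910 6 909)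
(fin 1038 6 973)))))))
(mv 972 (cons (fin 1036 7 972)
(mv 974 (cons (fin 1038 6 973)
(mv 1292 (cons (fin 1228 5 1036)
(mv 1293 (cons (fin 1356 5 1100)
(mv 1294 (cons (fin 1230 4 1037)
(fin 1358 4 1101))))))))))))))))
(mv 973 (cons (cons (mv 908 (cons (fin 972 7 908)
(mv 909 (cons (fin 844 7 844)
(mv 910 (cons (fin 846 6 845)
(fin 974 6 909)))))))
(mv 910 (cons (fin 974 6 909)
(mv 909 (cons (fin 846 6 845)
(mv 1164 (cons (fin 1100 5 908)
(fin 1228 5 972))))))))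
(cons (mv 908 (cons (fin 972 7 908)
(mv 909 (cons (fin 844 7 844)
(mv 1164 (cons (fin 1100 5 908)
(fin 1228 5 972)))))))
(mv 908 (cons (fin 972 7 908)
(mv 910 (cons (fin 974 6 909)
(mv 1164 (cons (fin 1228 5 972)
(mv 1166 (cons (fin 1230 4 973)
(mv 1167 (cons (mv 1100 (cons (fin 1099 3 1099)
(fin 1168 3 1100)))
(cons (mv 1103 (cons (fin 1104 2 1100)
(mv 1102 (cons (fin 1163 2 1099)
(mv 1168 (cons (fin 1169 3 1101)
(mv 1232 (cons (fin 1231 0 1164)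
(fin 1233 0 1165)))))))))
(mv 1099 (cons (fin 1100 3 1099)
(mv 1103 (cons (fin 1104 2 1100)
(mv 1163 (cons (fin 1098 3 1098)
(fin 1102 2 1099))))))))))))))))))))))
(cons (mv 1229 (cons (cons (mv 972 (cons (fin 1036 7 972)
(mv 974 (cons (fin 1038 6 973)
(mv 1292 (cons (fin 1228 5 1036)
(mv 1293 (cons (fin 1356 5 1100)
(mv 1294 (cons (fin 1230 4 1037)
(fin 1358 4 1101)))))))))))
(cons (mv 974 (cons (fin 1038 6 973)
(mv 1292 (cons (fin 1228 5 1036)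
(mv 1293 (cons (fin 1356 5 1100)
(mv 1294 (cons (fin 1230 4 1037)
(fin 1358 4 1101)))))))))
(mv 972 (cons (fin 1036 7 972)
(mv 1292 (cons (fin 1228 5 1036)
(mv 1293 (cons (fin 1356 5 1100)
(mv 1294 (cons (fin 1230 4 1037)
(fin 1358 4 1101)))))))))))
(cons (mv 972 (cons (fin 1036 7 972)
(mv 1038 (cons (fin 974 6 973)
(mv 1293 (cons (fin 1102 6 1037)
(mv 1294 (cons (fin 1230 4 1037)
(fin 1358 4 1101)))))))))
(cons (mv 972 (cons (fin 1036 7 972)
(mv 1038 (cons (fin 974 6 973)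
(mv 1292 (cons (fin 1228 5 1036)
(mv 1293 (cons (fin 1356 5 1100)
(fin 1102 6 1037)))))))))
(mv 972 (cons (fin 1036 7 972)
(mv 974 (cons (fin 1038 6 973)
(mv 1228 (cons (fin 1292 5 1036)
(mv 1230 (cons (fin 1294 4 1037)
(mv 1231 (cons (mv 1164 (cons (fin 1163 3 1163)
(fin 1232 3 1164)))
(cons (mv 1167 (cons (fin 1168 2 1164)
(mv 1166 (cons (fin 1227 2 1163)
(mv 1232 (cons (fin 1233 3 1165)
(mv 1296 (cons (fin 1295 0 1228)
(fin 1297 0 1229)))))))))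
(mv 1163 (cons (fin 1164 3 1163)
(mv 1167 (cons (fin 1168 2 1164)
(mv 1227 (cons (fin 1162 3 1162)
(fin 1166 2 1163))))))))))))))))))))))
(mv 973 (cons (cons (mv 908 (cons (fin 972 7 908)
(mv 844 (cons (fin 909 7 844)
(mv 974 (cons (fin 910 6 909)
(mv 1229 (cons (fin 1038 6 973)
(mv 1230 (cons (fin 1166 4 973)
(fin 1294 4 1037)))))))))))
(cons (mv 908 (cons (fin 972 7 908)
(mv 844 (cons (fin 909 7 844)
(mv 974 (cons (fin 910 6 909)
(mv 1229 (cons (fin 1038 6 973)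
(mv 1294 (cons (fin 1230 4 1037)
(mv 1293 (cons (fin 1358 4 1101)
(mv 1100 (cons (fin 1036 7 1036)
(mv 1356 (cons (fin 1292 5 1100)
(mv 1357 (cons (fin 1164 7 1100)
(fin 1420 5 1164)))))))))))))))))))
(mv 908 (cons (fin 972 7 908)
(mv 909 (cons (fin 844 7 844)
(mv 1166 (cons (fin 1102 4 909)
(fin 1230 4 973)))))))))
(cons (mv 910 (cons (fin 974 6 909)
(mv 909 (cons (fin 846 6 845)
(mv 1166 (cons (fin 1102 4 909)
(fin 1230 4 973)))))))
(cons (mv 908 (cons (fin 972 7 908)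
(mv 909 (cons (fin 844 7 844)
(mv 910 (cons (fin 846 6 845)
(fin 974 6 909)))))))
(mv 908 (cons (fin 972 7 908)
(mv 974 (cons (fin 910 6 909)
(mv 1229 (cons (fin 1038 6 973)
(mv 1230 (cons (fin 1166 4 973)
(fin 1294 4 1037)))))))))))))))
(cons (cons (mv 973 (cons (cons (mv 908 (cons (fin 972 7 908)
(mv 844 (cons (fin 909 7 844)
(mv 974 (cons (fin 910 6 909)
(mv 1228 (cons (fin 1164 5 972)
(mv 1229 (cons (fin 1292 5 1036)
(fin 1038 6 973)))))))))))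
(mv 908 (cons (fin 972 7 908)
(mv 909 (cons (fin 844 7 844)
(mv 910 (cons (fin 846 6 845)
(fin 974 6 909))))))))
(cons (mv 908 (cons (fin 972 7 908)
(mv 909 (cons (fin 844 7 844)
(mv 1164 (cons (fin 1100 5 908)
(fin 1228 5 972)))))))
(cons (mv 910 (cons (fin 974 6 909)
(mv 909 (cons (fin 846 6 845)
(mv 1164 (cons (fin 1100 5 908)
(fin 1228 5 972)))))))
(mv 908 (cons (fin 972 7 908)
(mv 974 (cons (fin 910 6 909)
(mv 1228 (cons (fin 1164 5 972)
(mv 1229 (cons (fin 1292 5 1036)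
(fin 1038 6 973)))))))))))))
(mv 1229 (cons (cons (mv 972 (cons (fin 1036 7 972)
(mv 908 (cons (fin 973 7 908)
(mv 1228 (cons (fin 1292 5 1036)
(mv 1294 (cons (fin 1230 4 1037)
(mv 1293 (cons (fin 1358 4 1101)
(mv 1102 (cons (fin 1038 6 1037)
(mv 1166 (cons (fin 1357 6 1101)
(mv 1167 (cons (fin 1168 1 1164)
(mv 1227 (cons (fin 1164 1 1163)
(fin 1226 2 1162)))))))))))))))))))
(cons (mv 972 (cons (fin 1036 7 972)
(mv 908 (cons (fin 973 7 908)
(mv 1294 (cons (fin 1230 4 1037)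
(mv 1293 (cons (fin 1358 4 1101)
(mv 1102 (cons (fin 1038 6 1037)
(mv 1356 (cons (fin 1292 5 1100)
(mv 1357 (cons (fin 1420 5 1164)
(fin 1166 6 1101)))))))))))))))
(mv 972 (cons (fin 1036 7 972)
(mv 908 (cons (fin 973 7 908)
(mv 1292 (cons (fin 1228 5 1036)
(mv 1293 (cons (fin 1356 5 1100)
(mv 1102 (cons (fin 1038 6 1037)
(mv 1357 (cons (fin 1166 6 1101)
(mv 1358 (cons (fin 1294 4 1101)
(fin 1422 4 1165)))))))))))))))))
(cons (cons (mv 1228 (cons (fin 1292 5 1036)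
(mv 973 (cons (fin 1164 5 972)
(mv 1230 (cons (fin 1166 4 973)
(fin 1294 4 1037)))))))
(mv 972 (cons (fin 1036 7 972)
(mv 908 (cons (fin 973 7 908)
(mv 1294 (cons (fin 1230 4 1037)
(mv 1293 (cons (fin 1358 4 1101)
(mv 1102 (cons (fin 1038 6 1037)
(mv 1357 (cons (fin 1166 6 1101)
(mv 1164 (cons (fin 1100 7 1100)
(mv 1103 (cons (fin 1104 1 1100)
(mv 1162 (cons (fin 1163 2 1098)
(mv 1420 (cons (fin 1356 5 1164)
(mv 1421 (cons (fin 1228 7 1164)
(fin 1484 5 1228))))))))))))))))))))))))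
(cons (mv 972 (cons (fin 1036 7 972)
(mv 973 (cons (fin 908 7 908)
(mv 1228 (cons (fin 1164 5 972)
(fin 1292 5 1036)))))))
(mv 972 (cons (fin 1036 7 972)
(mv 1228 (cons (fin 1292 5 1036)
(mv 1294 (cons (fin 1230 4 1037)
(mv 1293 (cons (fin 1358 4 1101)
(mv 1102 (cons (fin 1038 6 1037)
(mv 1166 (cons (fin 1357 6 1101)
(mv 1167 (cons (fin 1168 1 1164)
(mv 1227 (cons (fin 1164 1 1163)
(fin 1226 2 1162))))))))))))))))))))))
(cons (mv 1229 (cons (cons (mv 974 (cons (fin 1038 6 973)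
(mv 910 (cons (fin 973 6 909)
(mv 1230 (cons (fin 1294 4 1037)
(mv 1292 (cons (fin 1228 5 1036)
(mv 1293 (cons (fin 1356 5 1100)
(mv 1100 (cons (fin 1036 7 1036)
(mv 1164 (cons (fin 1357 7 1100)
(mv 1163 (cons (fin 1162 0 1162)
(mv 1231 (cons (fin 1232 3 1164)
(fin 1166 0 1163)))))))))))))))))))
(cons (mv 974 (cons (fin 1038 6 973)
(mv 910 (cons (fin 973 6 909)
(mv 1294 (cons (fin 1230 4 1037)
(mv 1293 (cons (fin 1358 4 1101)
(mv 1100 (cons (fin 1036 7 1036)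
(mv 1356 (cons (fin 1292 5 1100)
(mv 1357 (cons (fin 1164 7 1100)
(fin 1420 5 1164)))))))))))))))
(mv 974 (cons (fin 1038 6 973)
(mv 910 (cons (fin 973 6 909)
(mv 1292 (cons (fin 1228 5 1036)
(mv 1293 (cons (fin 1356 5 1100)
(mv 1100 (cons (fin 1036 7 1036)
(mv 1357 (cons (fin 1164 7 1100)
(mv 1358 (cons (fin 1294 4 1101)
(fin 1422 4 1165)))))))))))))))))
(cons (cons (mv 1228 (cons (fin 1292 5 1036)
(mv 973 (cons (fin 1164 5 972)
(mv 1230 (cons (fin 1166 4 973)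
(fin 1294 4 1037)))))))
(mv 974 (cons (fin 1038 6 973)
(mv 973 (cons (fin 910 6 909)
(mv 1230 (cons (fin 1166 4 973)
(fin 1294 4 1037))))))))
(cons (mv 974 (cons (fin 1038 6 973)
(mv 910 (cons (fin 973 6 909)
(mv 1292 (cons (fin 1228 5 1036)
(mv 1293 (cons (fin 1356 5 1100)
(mv 1100 (cons (fin 1036 7 1036)
(mv 1357 (cons (fin 1164 7 1100)
(mv 1166 (cons (fin 1102 6 1101)
(mv 1098 (cons (fin 1099 0 1098)
(mv 1167 (cons (fin 1168 3 1100)
(mv 1421 (cons (fin 1230 6 1165)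
(mv 1422 (cons (fin 1358 4 1165)
(fin 1486 4 1229)))))))))))))))))))))))
(mv 974 (cons (fin 1038 6 973)
(mv 1230 (cons (fin 1294 4 1037)
(mv 1292 (cons (fin 1228 5 1036)
(mv 1293 (cons (fin 1356 5 1100)
(mv 1100 (cons (fin 1036 7 1036)
(mv 1164 (cons (fin 1357 7 1100)
(mv 1163 (cons (fin 1162 0 1162)
(mv 1231 (cons (fin 1232 3 1164)
(fin 1166 0 1163)))))))))))))))))))))
(mv 1229 (cons (cons (mv 972 (cons (fin 1036 7 972)
(mv 908 (cons (fin 973 7 908)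
(mv 974 (cons (fin 1038 6 973)
(mv 1292 (cons (fin 1228 5 1036)
(mv 1293 (cons (fin 1356 5 1100)
(mv 1294 (cons (fin 1230 4 1037)
(fin 1358 4 1101)))))))))))))
(cons (mv 974 (cons (fin 1038 6 973)
(mv 910 (cons (fin 973 6 909)
(mv 1292 (cons (fin 1228 5 1036)
(mv 1293 (cons (fin 1356 5 1100)
(mv 1294 (cons (fin 1230 4 1037)
(fin 1358 4 1101)))))))))))
(mv 972 (cons (fin 1036 7 972)
(mv 908 (cons (fin 973 7 908)
(mv 1292 (cons (fin 1228 5 1036)
(mv 1293 (cons (fin 1356 5 1100)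
(mv 1294 (cons (fin 1230 4 1037)
(fin 1358 4 1101)))))))))))))
(cons (cons (mv 972 (cons (fin 1036 7 972)
(mv 908 (cons (fin 973 7 908)
(mv 1038 (cons (fin 974 6 973)
(mv 1292 (cons (fin 1228 5 1036)
(mv 1293 (cons (fin 1356 5 1100)
(fin 1102 6 1037)))))))))))
(mv 972 (cons (fin 1036 7 972)
(mv 908 (cons (fin 973 7 908)
(mv 1038 (cons (fin 974 6 973)
(mv 1293 (cons (fin 1102 6 1037)
(mv 1294 (cons (fin 1230 4 1037)
(fin 1358 4 1101))))))))))))
(cons (mv 972 (cons (fin 1036 7 972)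
(mv 973 (cons (fin 908 7 908)
(mv 974 (cons (fin 910 6 909)
(fin 1038 6 973)))))))
(mv 972 (cons (fin 1036 7 972)
(mv 974 (cons (fin 1038 6 973)
(mv 1292 (cons (fin 1228 5 1036)
(mv 1293 (cons (fin 1356 5 1100)
(mv 1294 (cons (fin 1230 4 1037)
(fin 1358 4 1101)))))))))))))))))))))
(cons (cons (mv 1100 (cons (cons (cons (mv 1038 (cons (fin 1039 1 1036)
(mv 1099 (cons (fin 1098 2 1034)
(mv 1102 (cons (cons (mv 1034 (cons (fin 1035 3 1034)
(mv 1162 (cons (fin 1163 1 1098)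
(mv 1166 (cons (fin 1167 0 1099)
(mv 1230 (cons (fin 1294 7 1037)
(mv 1229 (cons (fin 1293 5 1037)
(mv 974 (cons (fin 1165 5 973)
(mv 910 (cons (fin 846 5 845)
(mv 911 (cons (fin 847 6 846)
(fin 975 6 910)))))))))))))))))
(mv 1162 (cons (fin 1163 1 1098)
(mv 1166 (cons (fin 1167 0 1099)
(mv 1230 (cons (fin 1294 7 1037)
(mv 1229 (cons (fin 1293 5 1037)
(mv 974 (cons (fin 1165 5 973)
(mv 910 (cons (fin 846 5 845)
(mv 911 (cons (fin 847 6 846)
(fin 975 6 910))))))))))))))))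
(cons (mv 1034 (cons (fin 1035 3 1034)
(mv 1163 (cons (fin 1162 1 1098)
(mv 1103 (cons (fin 1164 1 1099)
(mv 1104 (cons (fin 1036 3 1036)
(fin 1105 3 1037)))))))))
(mv 1034 (cons (fin 1035 3 1034)
(mv 1166 (cons (fin 1167 0 1099)
(mv 1230 (cons (fin 1294 7 1037)
(mv 1229 (cons (fin 1293 5 1037)
(mv 974 (cons (fin 1165 5 973)
(mv 910 (cons (fin 846 5 845)
(mv 911 (cons (fin 847 6 846)
(fin 975 6 910))))))))))))))))))))))
(mv 1102 (cons (mv 1103 (cons (fin 1039 2 1036)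
(mv 1036 (cons (fin 1035 3 1035)
(fin 1104 3 1036)))))
(cons (mv 1099 (cons (cons (mv 1034 (cons (fin 1035 3 1034)
(mv 1098 (cons (fin 1033 3 1033)
(mv 1162 (cons (fin 1161 1 1097)
(fin 1163 1 1098)))))))
(mv 1162 (cons (fin 1163 1 1098)
(mv 1098 (cons (fin 1161 1 1097)
(mv 1166 (cons (fin 1165 0 1098)
(fin 1167 0 1099))))))))
(cons (mv 1034 (cons (fin 1035 3 1034)
(mv 1098 (cons (fin 1033 3 1033)
(mv 1166 (cons (fin 1165 0 1098)
(fin 1167 0 1099)))))))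
(mv 1035 (cons (fin 1034 3 1034)
(mv 1163 (cons (fin 1162 1 1098)
(mv 1166 (cons (fin 1167 0 1099)
(mv 1230 (cons (fin 1294 7 1037)
(mv 1164 (cons (mv 971 (cons (fin 907 4 907)
(fin 1228 4 971)))
(cons (mv 907 (cons (fin 971 4 907)
(mv 1165 (cons (fin 1231 0 1163)
(mv 1227 (cons (fin 1226 1 1162)
(mv 1036 (cons (fin 972 5 971)
(fin 1291 6 1035)))))))))
(mv 1165 (cons (fin 1231 0 1163)
(mv 1227 (cons (fin 1226 1 1162)
(mv 1036 (cons (fin 972 5 971)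
(fin 1291 6 1035)))))))))))))))))))))
(mv 1103 (cons (fin 1039 2 1036)
(mv 1163 (cons (fin 1164 1 1099)
(mv 1099 (cons (fin 1162 1 1098)
(mv 1167 (cons (fin 1166 0 1099)
(fin 1168 0 1100)))))))))))))
(cons (mv 1099 (cons (cons (mv 1038 (cons (fin 1098 2 1034)
(mv 1102 (cons (cons (mv 1034 (cons (fin 1035 3 1034)
(mv 1162 (cons (fin 1163 1 1098)
(mv 1166 (cons (fin 1167 0 1099)
(mv 1230 (cons (fin 1294 7 1037)
(mv 1229 (cons (fin 1293 5 1037)
(mv 974 (cons (fin 1165 5 973)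
(mv 910 (cons (fin 846 5 845)
(mv 911 (cons (fin 847 6 846)
(fin 975 6 910)))))))))))))))))
(mv 1162 (cons (fin 1163 1 1098)
(mv 1166 (cons (fin 1167 0 1099)
(mv 1230 (cons (fin 1294 7 1037)
(mv 1229 (cons (fin 1293 5 1037)
(mv 974 (cons (fin 1165 5 973)
(mv 910 (cons (fin 846 5 845)
(mv 911 (cons (fin 847 6 846)
(fin 975 6 910))))))))))))))))
(cons (mv 1034 (cons (fin 1035 3 1034)
(mv 1163 (cons (fin 1162 1 1098)
(mv 1103 (cons (fin 1164 1 1099)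
(mv 1104 (cons (fin 1036 3 1036)
(fin 1105 3 1037)))))))))
(mv 1034 (cons (fin 1035 3 1034)
(mv 1166 (cons (fin 1167 0 1099)
(mv 1230 (cons (fin 1294 7 1037)
(mv 1229 (cons (fin 1293 5 1037)
(mv 974 (cons (fin 1165 5 973)
(mv 910 (cons (fin 846 5 845)
(mv 911 (cons (fin 847 6 846)
(fin 975 6 910))))))))))))))))))))
(cons (mv 1102 (cons (cons (cons (mv 1034 (cons (fin 1035 3 1034)
(mv 1162 (cons (fin 1163 1 1098)
(mv 1167 (cons (fin 1166 0 1099)
(mv 1103 (cons (fin 1168 0 1100)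
(mv 1104 (cons (fin 1036 3 1036)
(mv 1038 (cons (fin 1105 3 1037)
(mv 974 (cons (fin 910 4 910)
(mv 1165 (cons (fin 1164 1 1100)
(fin 1229 6 973)))))))))))))))))
(mv 1162 (cons (fin 1163 1 1098)
(mv 1167 (cons (fin 1166 0 1099)
(mv 1103 (cons (fin 1168 0 1100)
(mv 1104 (cons (fin 1036 3 1036)
(mv 1038 (cons (fin 1105 3 1037)
(mv 974 (cons (fin 910 4 910)
(mv 1165 (cons (fin 1164 1 1100)
(fin 1229 6 973))))))))))))))))
(cons (mv 1034 (cons (fin 1035 3 1034)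
(mv 1167 (cons (fin 1166 0 1099)
(mv 1103 (cons (fin 1168 0 1100)
(mv 1104 (cons (fin 1036 3 1036)
(mv 1038 (cons (fin 1105 3 1037)
(mv 974 (cons (fin 910 4 910)
(mv 1165 (cons (fin 1164 1 1100)
(fin 1229 6 973)))))))))))))))
(mv 1034 (cons (fin 1035 3 1034)
(mv 1163 (cons (fin 1162 1 1098)
(mv 1103 (cons (fin 1164 1 1099)
(mv 1104 (cons (fin 1036 3 1036)
(mv 1168 (cons (fin 1167 0 1100)
(fin 1169 0 1101)))))))))))))
(cons (cons (mv 1034 (cons (fin 1035 3 1034)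
(mv 1163 (cons (fin 1162 1 1098)
(mv 1103 (cons (fin 1164 1 1099)
(mv 1104 (cons (fin 1036 3 1036)
(mv 1105 (cons (fin 1038 3 1037)
(mv 1169 (cons (fin 1168 0 1101)
(fin 1170 0 1102)))))))))))))
(mv 1035 (cons (fin 1034 3 1034)
(mv 1163 (cons (fin 1162 1 1098)
(mv 1166 (cons (fin 1167 0 1099)
(mv 1230 (cons (fin 1294 7 1037)
(mv 1164 (cons (mv 971 (cons (fin 907 4 907)
(fin 1228 4 971)))
(cons (mv 907 (cons (fin 971 4 907)
(mv 1165 (cons (fin 1231 0 1163)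
(mv 1227 (cons (fin 1226 1 1162)
(mv 1036 (cons (fin 972 5 971)
(fin 1291 6 1035)))))))))
(mv 1165 (cons (fin 1231 0 1163)
(mv 1227 (cons (fin 1226 1 1162)
(mv 1036 (cons (fin 972 5 971)
(fin 1291 6 1035)))))))))))))))))))
(cons (mv 1034 (cons (fin 1035 3 1034)
(mv 1163 (cons (fin 1162 1 1098)
(mv 1103 (cons (fin 1164 1 1099)
(mv 1167 (cons (fin 1166 0 1099)
(fin 1168 0 1100)))))))))
(mv 1035 (cons (fin 1034 3 1034)
(mv 1036 (cons (fin 1103 3 1035)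
(mv 1163 (cons (fin 1162 1 1098)
(mv 972 (cons (fin 908 5 907)
(fin 1227 6 971)))))))))))))
(mv 1098 (cons (mv 1033 (cons (fin 1034 3 1033)
(mv 1097 (cons (fin 1032 3 1032)
(fin 1036 2 1033)))))
(cons (mv 1033 (cons (fin 1034 3 1033)
(mv 1162 (cons (fin 1161 1 1097)
(mv 1102 (cons (fin 1163 1 1098)
(mv 1166 (cons (fin 1165 0 1098)
(fin 1167 0 1099)))))))))
(mv 1036 (cons (fin 1097 2 1033)
(mv 1161 (cons (fin 1162 1 1097)
(mv 1165 (cons (fin 1166 0 1098)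
(mv 972 (cons (fin 1229 7 972)
(fin 908 4 908))))))))))))))
(cons (mv 1098 (cons (fin 1038 2 1034)
(mv 1033 (cons (fin 1034 3 1033)
(mv 1097 (cons (fin 1032 3 1032)
(fin 1036 2 1033)))))))
(cons (mv 1098 (cons (fin 1038 2 1034)
(mv 1036 (cons (fin 1097 2 1033)
(mv 1161 (cons (fin 1162 1 1097)
(mv 1165 (cons (fin 1166 0 1098)
(mv 972 (cons (fin 1229 7 972)
(fin 908 4 908)))))))))))
(mv 1098 (cons (fin 1038 2 1034)
(mv 1033 (cons (fin 1034 3 1033)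
(mv 1032 (cons (fin 1097 3 1032)
(mv 1162 (cons (fin 1161 1 1097)
(mv 1102 (cons (fin 1163 1 1098)
(mv 1166 (cons (fin 1165 0 1098)
(fin 1167 0 1099)))))))))))))))))
(mv 1038 (cons (fin 1039 1 1036)
(mv 1036 (cons (cons (cons (mv 1098 (cons (fin 1099 2 1034)
(mv 1035 (cons (mv 1034 (cons (fin 1097 1 1033)
(fin 1033 0 1033)))
(cons (mv 971 (cons (fin 970 3 970)
(mv 843 (cons (fin 907 4 843)
(mv 974 (cons (fin 975 2 971)
(mv 846 (cons (fin 910 5 845)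
(mv 1164 (cons (fin 1228 7 971)
(mv 1165 (cons (fin 1229 6 973)
(mv 972 (cons (fin 908 4 908)
(mv 1163 (cons (fin 1227 5 971)
(mv 1162 (cons (fin 1097 3 1097)
(fin 1161 2 1097)))))))))))))))))))
(mv 970 (cons (fin 971 3 970)
(mv 1034 (cons (fin 969 3 969)
(fin 1033 0 1033))))))))))
(mv 1165 (cons (mv 972 (cons (fin 1229 7 972)
(fin 908 4 908)))
(cons (mv 972 (cons (fin 908 4 908)
(mv 1164 (cons (mv 907 (cons (fin 971 7 907)
(mv 1227 (cons (fin 1163 5 971)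
(mv 1228 (cons (fin 1291 5 1035)
(fin 1292 6 1036)))))))
(cons (mv 971 (cons (fin 907 7 907)
(mv 970 (cons (fin 1035 3 970)
(fin 969 0 969)))))
(mv 1227 (cons (fin 1163 5 971)
(mv 1228 (cons (fin 1291 5 1035)
(fin 1292 6 1036))))))))))
(mv 1229 (cons (fin 1293 7 1036)
(fin 974 6 973)))))))
(cons (mv 1098 (cons (fin 1099 2 1034)
(mv 1035 (cons (mv 1034 (cons (fin 1097 1 1033)
(fin 1033 0 1033)))
(mv 971 (cons (fin 970 3 970)
(mv 907 (cons (fin 843 4 843)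
(mv 1164 (cons (fin 972 7 907)
(fin 1228 7 971)))))))))))
(mv 1098 (cons (fin 1099 2 1034)
(mv 972 (cons (mv 908 (cons (fin 844 4 844)
(fin 1165 4 908)))
(cons (mv 908 (cons (fin 844 4 844)
(mv 845 (cons (fin 909 6 844)
(mv 907 (cons (fin 843 7 843)
(mv 1164 (cons (fin 971 7 907)
(mv 1227 (cons (fin 1163 5 971)
(mv 1228 (cons (fin 1291 5 1035)
(fin 1292 6 1036)))))))))))))
(mv 1164 (cons (cons (mv 907 (cons (fin 971 7 907)
(mv 1163 (cons (fin 1227 5 971)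
(mv 1161 (cons (fin 1162 2 1097)
(mv 1228 (cons (fin 1292 6 1036)
(mv 1229 (cons (fin 1165 7 972)
(fin 1293 4 1036)))))))))))
(mv 907 (cons (fin 971 7 907)
(mv 1227 (cons (fin 1163 5 971)
(mv 1228 (cons (fin 1291 5 1035)
(fin 1292 6 1036))))))))
(cons (mv 907 (cons (fin 971 7 907)
(mv 1163 (cons (fin 1227 5 971)
(mv 1162 (cons (fin 1161 2 1097)
(mv 1165 (cons (fin 1097 3 1097)
(fin 1229 7 972)))))))))
(cons (mv 907 (cons (fin 971 7 907)
(mv 1228 (cons (fin 1292 6 1036)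
(mv 1229 (cons (fin 1165 7 972)
(fin 1293 4 1036)))))))
(mv 1163 (cons (fin 1227 5 971)
(mv 1161 (cons (fin 1162 2 1097)
(mv 1228 (cons (fin 1292 6 1036)
(mv 1229 (cons (fin 1165 7 972)
(fin 1293 4 1036))))))))))))))))))))
(cons (cons (mv 1035 (cons (mv 970 (cons (fin 971 3 970)
(mv 1034 (cons (fin 969 3 969)
(fin 1033 0 1033)))))
(cons (mv 971 (cons (fin 970 3 970)
(mv 907 (cons (fin 843 4 843)
(mv 1099 (cons (fin 1098 1 1034)
(fin 1164 4 907)))))))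
(mv 974 (cons (fin 975 2 971)
(mv 846 (cons (fin 910 5 845)
(mv 1034 (cons (fin 1033 0 1033)
(mv 1098 (cons (fin 1097 1 1033)
(fin 1099 1 1034))))))))))))
(mv 1165 (cons (mv 972 (cons (fin 1229 7 972)
(fin 908 4 908)))
(cons (mv 908 (cons (fin 972 4 908)
(mv 1035 (cons (mv 970 (cons (fin 971 3 970)
(mv 1034 (cons (fin 969 3 969)
(fin 1033 0 1033)))))
(cons (mv 971 (cons (fin 970 3 970)
(mv 907 (cons (fin 843 4 843)
(mv 1099 (cons (fin 1098 1 1034)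
(fin 844 6 843)))))))
(mv 974 (cons (fin 975 2 971)
(mv 846 (cons (fin 910 5 845)
(mv 1034 (cons (fin 1033 0 1033)
(mv 1098 (cons (fin 1097 1 1033)
(fin 1099 1 1034))))))))))))))
(mv 1229 (cons (fin 1293 7 1036)
(fin 974 6 973)))))))
(cons (mv 1098 (cons (fin 1099 2 1034)
(mv 974 (cons (cons (mv 846 (cons (fin 910 5 845)
(mv 1035 (cons (fin 975 2 971)
(mv 1034 (cons (fin 1097 1 1033)
(fin 1033 0 1033)))))))
(mv 846 (cons (fin 910 5 845)
(mv 1164 (cons (cons (mv 1165 (cons (fin 1229 6 973)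
(mv 908 (cons (fin 972 4 908)
(mv 1228 (cons (fin 1292 6 1036)
(mv 1227 (cons (fin 1291 5 1035)
(mv 1166 (cons (fin 1167 1 1163)
(mv 1226 (cons (fin 1163 1 1162)
(fin 1225 2 1161)))))))))))))
(cons (mv 1228 (cons (fin 1292 6 1036)
(mv 1227 (cons (fin 1291 5 1035)
(mv 1163 (cons (fin 972 5 971)
(mv 1162 (cons (fin 1161 2 1097)
(mv 1229 (cons (fin 1230 3 1162)
(fin 1293 4 1036)))))))))))
(mv 1228 (cons (fin 1292 6 1036)
(mv 1227 (cons (fin 1291 5 1035)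
(mv 972 (cons (fin 1163 5 971)
(mv 908 (cons (fin 844 4 844)
(fin 1165 4 908)))))))))))
(cons (mv 1165 (cons (fin 1229 6 973)
(mv 972 (cons (fin 908 4 908)
(mv 1163 (cons (fin 1227 5 971)
(mv 1162 (cons (fin 1097 3 1097)
(fin 1161 2 1097)))))))))
(cons (mv 1165 (cons (fin 1229 6 973)
(mv 1228 (cons (fin 1292 6 1036)
(mv 1227 (cons (fin 1291 5 1035)
(mv 1166 (cons (fin 1167 1 1163)
(mv 1226 (cons (fin 1163 1 1162)
(fin 1225 2 1161)))))))))))
(mv 1228 (cons (fin 1292 6 1036)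
(mv 1229 (cons (fin 1165 6 973)
(fin 1293 4 1036))))))))))))
(cons (mv 1035 (cons (fin 975 2 971)
(mv 1034 (cons (fin 1097 1 1033)
(fin 1033 0 1033)))))
(mv 910 (cons (fin 846 5 845)
(mv 975 (cons (fin 1035 2 971)
(mv 976 (cons (fin 977 1 973)
(mv 1165 (cons (fin 1229 6 973)
(mv 908 (cons (fin 972 4 908)
(mv 909 (cons (fin 907 0 907)
(fin 911 0 908))))))))))))))))))
(mv 1098 (cons (fin 1099 2 1034)
(mv 1165 (cons (mv 972 (cons (fin 1229 7 972)
(fin 908 4 908)))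
(cons (mv 972 (cons (fin 908 4 908)
(mv 1035 (cons (mv 1034 (cons (fin 1097 1 1033)
(fin 1033 0 1033)))
(cons (mv 971 (cons (fin 970 3 970)
(mv 974 (cons (fin 975 2 971)
(mv 846 (cons (fin 910 5 845)
(mv 1164 (cons (fin 1228 7 971)
(mv 1163 (cons (fin 1227 5 971)
(mv 1162 (cons (fin 1097 3 1097)
(fin 1161 2 1097)))))))))))))
(mv 970 (cons (fin 971 3 970)
(mv 1034 (cons (fin 969 3 969)
(fin 1033 0 1033))))))))))
(mv 1229 (cons (fin 1293 7 1036)
(fin 974 6 973))))))))))))))))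
(cons (cons (mv 1039 (cons (fin 1038 1 1036)
(mv 1103 (cons (fin 1102 2 1036)
(mv 1167 (cons (cons (mv 1231 (cons (fin 976 6 975)
(mv 1104 (cons (fin 1295 6 1039)
(mv 1230 (cons (fin 1294 5 1038)
(mv 975 (cons (fin 1166 5 974)
(mv 911 (cons (fin 847 4 847)
(fin 1168 4 911)))))))))))
(cons (mv 975 (cons (mv 910 (cons (fin 974 7 910)
(mv 846 (cons (fin 911 7 846)
(mv 1166 (cons (fin 1230 5 974)
(mv 1168 (cons (fin 1165 3 1100)
(fin 1232 4 975)))))))))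
(cons (mv 910 (cons (fin 974 7 910)
(mv 911 (cons (fin 846 7 846)
(mv 847 (cons (fin 1104 4 847)
(mv 783 (cons (fin 976 4 783)
(mv 784 (cons (fin 720 6 719)
(fin 848 6 783)))))))))))
(mv 1166 (cons (fin 1230 5 974)
(mv 1168 (cons (fin 1165 3 1100)
(fin 1232 4 975))))))))
(mv 975 (cons (cons (mv 910 (cons (fin 974 7 910)
(mv 846 (cons (fin 911 7 846)
(mv 1166 (cons (fin 1230 5 974)
(mv 1168 (cons (fin 1165 3 1100)
(fin 1232 4 975)))))))))
(cons (mv 910 (cons (fin 974 7 910)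
(mv 846 (cons (fin 911 7 846)
(mv 1230 (cons (fin 1166 5 974)
(mv 1231 (cons (fin 1294 5 1038)
(mv 1295 (cons (fin 1104 6 1039)
(mv 1296 (cons (fin 1232 4 1039)
(fin 1360 4 1103)))))))))))))
(mv 910 (cons (fin 974 7 910)
(mv 846 (cons (fin 911 7 846)
(mv 1166 (cons (fin 1230 5 974)
(mv 1165 (cons (fin 1168 3 1100)
(mv 1164 (cons (fin 1104 2 1100)
(mv 1228 (cons (fin 1227 1 1163)
(fin 1292 6 1036)))))))))))))))
(cons (mv 910 (cons (fin 974 7 910)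
(mv 846 (cons (fin 911 7 846)
(mv 1232 (cons (fin 1168 4 975)
(mv 1231 (cons (fin 1296 4 1039)
(mv 1294 (cons (fin 1230 5 1038)
(mv 1295 (cons (fin 1358 5 1102)
(fin 1104 6 1039)))))))))))))
(cons (mv 910 (cons (fin 974 7 910)
(mv 911 (cons (fin 846 7 846)
(mv 1104 (cons (fin 847 4 847)
(fin 1168 4 911)))))))
(mv 1166 (cons (fin 1230 5 974)
(mv 1168 (cons (fin 1165 3 1100)
(fin 1232 4 975)))))))))))
(cons (mv 1231 (cons (fin 976 6 975)
(mv 1230 (cons (fin 1294 5 1038)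
(mv 1295 (cons (fin 1104 6 1039)
(mv 1296 (cons (fin 1232 4 1039)
(fin 1360 4 1103)))))))))
(cons (mv 1231 (cons (fin 976 6 975)
(mv 1104 (cons (fin 1295 6 1039)
(mv 1232 (cons (fin 1296 4 1039)
(mv 975 (cons (fin 1168 7 975)
(mv 910 (cons (fin 974 7 910)
(mv 911 (cons (fin 846 7 846)
(fin 847 4 847)))))))))))))
(mv 1231 (cons (fin 976 6 975)
(mv 1230 (cons (fin 1294 5 1038)
(mv 975 (cons (fin 1166 5 974)
(mv 1232 (cons (fin 1168 4 975)
(fin 1296 4 1039)))))))))))))))))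
(mv 1038 (cons (fin 1039 1 1036)
(mv 1099 (cons (fin 1098 2 1034)
(mv 1102 (cons (cons (mv 1034 (cons (fin 1035 3 1034)
(mv 1162 (cons (fin 1163 1 1098)
(mv 1166 (cons (fin 1167 0 1099)
(mv 1230 (cons (fin 1294 7 1037)
(mv 1229 (cons (fin 1293 5 1037)
(mv 974 (cons (fin 1165 5 973)
(mv 910 (cons (fin 846 5 845)
(mv 911 (cons (fin 847 6 846)
(fin 975 6 910)))))))))))))))))
(mv 1162 (cons (fin 1163 1 1098)
(mv 1166 (cons (fin 1167 0 1099)
(mv 1230 (cons (fin 1294 7 1037)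
(mv 1229 (cons (fin 1293 5 1037)
(mv 974 (cons (fin 1165 5 973)
(mv 910 (cons (fin 846 5 845)
(mv 911 (cons (fin 847 6 846)
(fin 975 6 910))))))))))))))))
(cons (mv 1035 (cons (fin 1034 3 1034)
(mv 1036 (cons (fin 1103 3 1035)
(mv 970 (cons (fin 971 3 970)
(mv 974 (cons (fin 975 2 971)
(mv 910 (cons (fin 846 5 845)
(fin 1165 5 909)))))))))))
(mv 1034 (cons (fin 1035 3 1034)
(mv 1162 (cons (fin 1163 1 1098)
(mv 1167 (cons (fin 1166 0 1099)
(mv 1103 (cons (fin 1168 0 1100)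
(mv 1104 (cons (fin 1036 3 1036)
(fin 1105 3 1037)))))))))))))))))))
(cons (mv 1038 (cons (fin 1039 1 1036)
(mv 1099 (cons (fin 1098 2 1034)
(mv 1102 (cons (cons (mv 1034 (cons (fin 1035 3 1034)
(mv 1162 (cons (fin 1163 1 1098)
(mv 1167 (cons (fin 1166 0 1099)
(mv 1103 (cons (fin 1168 0 1100)
(mv 1104 (cons (fin 1036 3 1036)
(fin 1105 3 1037)))))))))))
(cons (mv 1162 (cons (fin 1163 1 1098)
(mv 1167 (cons (fin 1166 0 1099)
(mv 1103 (cons (fin 1168 0 1100)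
(mv 1104 (cons (fin 1036 3 1036)
(fin 1105 3 1037)))))))))
(mv 1034 (cons (fin 1035 3 1034)
(mv 1163 (cons (fin 1162 1 1098)
(mv 1103 (cons (fin 1164 1 1099)
(mv 1104 (cons (fin 1036 3 1036)
(fin 1105 3 1037)))))))))))
(cons (mv 1034 (cons (fin 1035 3 1034)
(mv 1167 (cons (fin 1166 0 1099)
(mv 1103 (cons (fin 1168 0 1100)
(mv 1104 (cons (fin 1036 3 1036)
(fin 1105 3 1037)))))))))
(cons (mv 1034 (cons (fin 1035 3 1034)
(mv 1163 (cons (fin 1162 1 1098)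
(mv 1166 (cons (fin 1167 0 1099)
(mv 1230 (cons (fin 1294 7 1037)
(mv 1229 (cons (fin 1293 5 1037)
(mv 1231 (cons (fin 1295 4 1038)
(mv 1228 (cons (fin 1164 3 1163)
(mv 1291 (cons (fin 1292 1 1227)
(mv 1227 (cons (fin 1290 1 1226)
(fin 1036 6 1035)))))))))))))))))))
(mv 1034 (cons (fin 1035 3 1034)
(mv 1163 (cons (fin 1162 1 1098)
(mv 1103 (cons (fin 1164 1 1099)
(mv 1167 (cons (fin 1166 0 1099)
(fin 1168 0 1100)))))))))))))))))
(cons (mv 1038 (cons (fin 1039 1 1036)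
(mv 1099 (cons (fin 1098 2 1034)
(mv 1102 (cons (cons (mv 1034 (cons (fin 1035 3 1034)
(mv 1163 (cons (fin 1162 1 1098)
(mv 1103 (cons (fin 1164 1 1099)
(mv 1104 (cons (fin 1036 3 1036)
(fin 1105 3 1037)))))))))
(mv 1163 (cons (fin 1162 1 1098)
(mv 1103 (cons (fin 1164 1 1099)
(mv 1104 (cons (fin 1036 3 1036)
(fin 1105 3 1037))))))))
(cons (mv 1035 (cons (fin 1034 3 1034)
(mv 1036 (cons (fin 1103 3 1035)
(mv 970 (cons (fin 971 3 970)
(mv 974 (cons (fin 975 2 971)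
(mv 910 (cons (fin 846 5 845)
(fin 1165 5 909)))))))))))
(cons (mv 1035 (cons (fin 1034 3 1034)
(mv 1162 (cons (fin 1163 1 1098)
(mv 974 (cons (mv 910 (cons (fin 846 5 845)
(fin 1165 5 909)))
(mv 1036 (cons (fin 975 2 971)
(mv 971 (cons (fin 970 3 970)
(mv 907 (cons (fin 843 4 843)
(fin 1164 4 907)))))))))))))
(mv 1034 (cons (fin 1035 3 1034)
(mv 1163 (cons (fin 1162 1 1098)
(mv 1103 (cons (fin 1164 1 1099)
(mv 1104 (cons (fin 1105 3 1037)
(mv 1168 (cons (fin 1167 0 1100)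
(fin 1169 0 1101)))))))))))))))))))
(mv 1038 (cons (fin 1039 1 1036)
(mv 1099 (cons (fin 1098 2 1034)
(mv 1102 (cons (cons (mv 1034 (cons (fin 1035 3 1034)
(mv 1163 (cons (fin 1162 1 1098)
(mv 1103 (cons (fin 1164 1 1099)
(mv 1104 (cons (fin 1036 3 1036)
(fin 1105 3 1037)))))))))
(mv 1163 (cons (fin 1162 1 1098)
(mv 1103 (cons (fin 1164 1 1099)
(mv 1104 (cons (fin 1036 3 1036)
(fin 1105 3 1037))))))))
(cons (mv 1035 (cons (fin 1034 3 1034)
(mv 1036 (cons (fin 1103 3 1035)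
(mv 970 (cons (fin 971 3 970)
(mv 974 (cons (fin 975 2 971)
(mv 910 (cons (fin 846 5 845)
(fin 1165 5 909)))))))))))
(cons (mv 1035 (cons (fin 1034 3 1034)
(mv 1162 (cons (fin 1163 1 1098)
(mv 974 (cons (mv 910 (cons (fin 846 5 845)
(fin 1165 5 909)))
(cons (mv 846 (cons (fin 910 5 845)
(mv 1036 (cons (fin 975 2 971)
(mv 971 (cons (fin 970 3 970)
(mv 907 (cons (fin 843 4 843)
(fin 1164 4 907)))))))))
(mv 975 (cons (fin 1036 2 971)
(mv 976 (cons (fin 977 1 973)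
(mv 1166 (cons (fin 911 6 910)
(mv 1229 (cons (fin 1165 5 973)
(mv 1230 (cons (fin 1294 7 1037)
(fin 1293 5 1037))))))))))))))))))
(mv 1035 (cons (fin 1034 3 1034)
(mv 1163 (cons (fin 1162 1 1098)
(mv 1164 (cons (fin 1103 1 1099)
(mv 971 (cons (fin 907 4 907)
(fin 1228 4 971))))))))))))))))))))))
(mv 1100 (cons (cons (cons (mv 1038 (cons (fin 1039 1 1036)
(mv 1099 (cons (fin 1098 2 1034)
(mv 1102 (cons (cons (mv 1034 (cons (fin 1035 3 1034)
(mv 1162 (cons (fin 1163 1 1098)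
(mv 1166 (cons (fin 1167 0 1099)
(mv 973 (cons (fin 1230 7 973)
(fin 909 4 909)))))))))
(mv 1162 (cons (fin 1163 1 1098)
(mv 1166 (cons (fin 1167 0 1099)
(mv 973 (cons (fin 1230 7 973)
(fin 909 4 909))))))))
(cons (mv 1034 (cons (fin 1035 3 1034)
(mv 1163 (cons (fin 1162 1 1098)
(mv 1103 (cons (fin 1164 1 1099)
(mv 1104 (cons (fin 1036 3 1036)
(fin 1105 3 1037)))))))))
(mv 1034 (cons (fin 1035 3 1034)
(mv 1166 (cons (fin 1167 0 1099)
(mv 973 (cons (fin 1230 7 973)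
(fin 909 4 909))))))))))))))
(mv 1102 (cons (mv 1103 (cons (fin 1039 2 1036)
(mv 1036 (cons (fin 1035 3 1035)
(fin 1104 3 1036)))))
(cons (mv 1099 (cons (cons (mv 1034 (cons (fin 1035 3 1034)
(mv 1098 (cons (fin 1033 3 1033)
(mv 1162 (cons (fin 1161 1 1097)
(fin 1163 1 1098)))))))
(cons (mv 1163 (cons (fin 1162 1 1098)
(mv 1166 (cons (fin 1167 0 1099)
(mv 973 (cons (fin 909 4 909)
(mv 1294 (cons (fin 1230 7 1037)
(mv 1036 (cons (cons (mv 908 (cons (fin 972 5 907)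
(mv 1097 (cons (fin 1098 2 1033)
(mv 1227 (cons (fin 1291 6 1035)
(mv 1228 (cons (fin 1164 6 972)
(mv 1292 (cons (fin 1035 4 1035)
(mv 1293 (cons (fin 1295 3 1227)
(mv 1226 (cons (fin 1225 0 1225)
(fin 1229 0 1226)))))))))))))))
(mv 1097 (cons (fin 1098 2 1033)
(mv 1227 (cons (fin 1291 6 1035)
(mv 1228 (cons (fin 1164 6 972)
(mv 1292 (cons (fin 1035 4 1035)
(mv 1293 (cons (fin 1295 3 1227)
(mv 1226 (cons (fin 1225 0 1225)
(fin 1229 0 1226))))))))))))))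
(cons (mv 972 (cons (fin 908 5 907)
(mv 1227 (cons (fin 1035 6 971)
(fin 1291 6 1035)))))
(cons (mv 972 (cons (fin 908 5 907)
(mv 1097 (cons (fin 1098 2 1033)
(mv 1164 (cons (fin 1228 6 972)
(mv 971 (cons (fin 907 7 907)
(mv 970 (cons (fin 969 0 969)
(mv 906 (cons (fin 905 3 905)
(fin 1035 7 906)))))))))))))
(mv 972 (cons (fin 908 5 907)
(mv 1164 (cons (fin 1227 5 971)
(fin 1228 6 972)))))))))))))))))
(mv 1162 (cons (fin 1163 1 1098)
(mv 1098 (cons (fin 1161 1 1097)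
(mv 1033 (cons (fin 1034 3 1033)
(mv 1097 (cons (fin 1032 3 1032)
(fin 1036 2 1033)))))))))))
(cons (mv 1034 (cons (fin 1035 3 1034)
(mv 1098 (cons (fin 1033 3 1033)
(mv 1036 (cons (fin 1097 2 1033)
(mv 1166 (cons (fin 1167 0 1099)
(mv 973 (cons (fin 909 4 909)
(mv 1164 (cons (fin 1228 6 972)
(mv 1230 (cons (fin 1294 7 1037)
(mv 972 (cons (mv 908 (cons (fin 1163 5 907)
(fin 844 4 844)))
(cons (mv 907 (cons (fin 971 7 907)
(mv 908 (cons (fin 843 7 843)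
(fin 844 4 844)))))
(mv 971 (cons (fin 907 7 907)
(mv 970 (cons (fin 969 0 969)
(mv 906 (cons (fin 905 3 905)
(fin 1163 4 906))))))))))))))))))))))))
(cons (mv 1034 (cons (fin 1035 3 1034)
(mv 1098 (cons (fin 1033 3 1033)
(mv 1097 (cons (fin 1036 2 1033)
(mv 1161 (cons (fin 1160 1 1096)
(fin 1162 1 1097)))))))))
(mv 1035 (cons (fin 1034 3 1034)
(mv 1163 (cons (fin 1162 1 1098)
(mv 1166 (cons (fin 1167 0 1099)
(mv 909 (cons (fin 973 4 909)
(mv 1230 (cons (fin 1294 7 1037)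
(mv 1164 (cons (mv 971 (cons (fin 907 4 907)
(fin 1228 4 971)))
(cons (mv 971 (cons (fin 907 4 907)
(mv 906 (cons (fin 970 7 906)
(mv 972 (cons (fin 908 6 907)
(mv 1227 (cons (fin 1036 5 971)
(mv 1290 (cons (fin 1226 5 1034)
(mv 1291 (cons (fin 1354 5 1098)
(fin 1355 6 1099)))))))))))))
(mv 1228 (cons (fin 1292 7 1035)
(mv 1229 (cons (fin 1231 3 1163)
(mv 1036 (cons (fin 1293 4 1036)
(mv 972 (cons (fin 908 5 907)
(fin 1227 5 971))))))))))))))))))))))))))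
(mv 1103 (cons (fin 1039 2 1036)
(mv 1163 (cons (fin 1164 1 1099)
(mv 1099 (cons (fin 1162 1 1098)
(mv 1167 (cons (fin 1166 0 1099)
(fin 1168 0 1100)))))))))))))
(cons (mv 1164 (cons (cons (mv 973 (cons (fin 909 5 908)
(mv 1228 (cons (fin 1036 6 972)
(fin 1292 6 1036)))))
(cons (mv 909 (cons (fin 973 5 908)
(mv 1102 (cons (cons (mv 1103 (cons (fin 1163 1 1099)
(mv 1036 (cons (fin 1035 3 1035)
(fin 1104 3 1036)))))
(mv 1099 (cons (mv 1034 (cons (fin 1035 3 1034)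
(mv 1098 (cons (fin 1033 3 1033)
(fin 1038 2 1034)))))
(cons (mv 1035 (cons (fin 1034 3 1034)
(mv 971 (cons (fin 907 4 907)
(mv 1163 (cons (fin 1162 1 1098)
(mv 906 (cons (fin 970 7 906)
(mv 972 (cons (fin 908 6 907)
(mv 1166 (cons (fin 1167 0 1099)
(mv 1227 (cons (fin 1036 5 971)
(mv 1226 (cons (fin 1290 5 1034)
(mv 1224 (cons (fin 1225 2 1160)
(mv 1291 (cons (fin 1355 6 1099)
(mv 1292 (cons (fin 1356 4 1099)
(mv 1294 (cons (fin 1293 3 1226)
(fin 1230 7 1037)))))))))))))))))))))))))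
(mv 1098 (cons (fin 1038 2 1034)
(mv 1162 (cons (fin 1161 1 1097)
(fin 1163 1 1098)))))))))
(cons (mv 1099 (cons (mv 1034 (cons (fin 1035 3 1034)
(mv 1098 (cons (fin 1033 3 1033)
(fin 1038 2 1034)))))
(cons (mv 1038 (cons (fin 1098 2 1034)
(mv 1167 (cons (fin 1166 0 1099)
(mv 1103 (cons (fin 1168 0 1100)
(mv 1104 (cons (fin 1036 3 1036)
(fin 1105 3 1037)))))))))
(mv 1035 (cons (fin 1034 3 1034)
(mv 907 (cons (fin 971 4 907)
(mv 1103 (cons (fin 1036 3 1035)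
(mv 1167 (cons (fin 1166 0 1099)
(fin 1168 0 1100))))))))))))
(cons (mv 1103 (cons (fin 1163 1 1099)
(mv 1167 (cons (fin 1168 0 1100)
(mv 1099 (cons (fin 1166 0 1099)
(mv 1034 (cons (fin 1035 3 1034)
(mv 1098 (cons (fin 1033 3 1033)
(fin 1038 2 1034)))))))))))
(mv 1103 (cons (fin 1163 1 1099)
(mv 1036 (cons (fin 1104 3 1036)
(mv 1167 (cons (fin 1168 0 1100)
(mv 1099 (cons (fin 1166 0 1099)
(mv 1098 (cons (fin 1097 2 1033)
(fin 1038 2 1034)))))))))))))))))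
(mv 1228 (cons (fin 1292 6 1036)
(mv 1036 (cons (cons (mv 971 (cons (fin 1035 7 971)
(mv 972 (cons (fin 907 7 907)
(mv 1227 (cons (fin 1163 5 971)
(fin 1291 5 1035)))))))
(mv 1227 (cons (fin 1291 5 1035)
(mv 972 (cons (fin 1163 5 971)
(mv 907 (cons (fin 971 7 907)
(mv 908 (cons (fin 843 7 843)
(fin 844 4 844))))))))))
(cons (mv 1227 (cons (fin 1291 5 1035)
(mv 1163 (cons (fin 972 5 971)
(mv 1102 (cons (fin 1103 1 1099)
(mv 1162 (cons (fin 1099 1 1098)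
(fin 1161 2 1097)))))))))
(cons (mv 971 (cons (fin 1035 7 971)
(mv 972 (cons (fin 907 7 907)
(mv 908 (cons (fin 844 4 844)
(mv 845 (cons (fin 909 6 844)
(mv 969 (cons (fin 970 0 969)
(mv 1099 (cons (fin 1163 5 907)
(mv 1098 (cons (fin 1097 2 1033)
(fin 1038 2 1034)))))))))))))))
(mv 1035 (cons (fin 971 7 971)
(mv 1034 (cons (fin 1033 0 1033)
(fin 1102 0 1034)))))))))))))
(cons (mv 1228 (cons (fin 1292 6 1036)
(mv 1036 (cons (fin 973 6 972)
(mv 971 (cons (fin 1035 7 971)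
(mv 972 (cons (fin 907 7 907)
(mv 1227 (cons (fin 1163 5 971)
(fin 1291 5 1035)))))))))))
(cons (mv 909 (cons (fin 973 5 908)
(mv 1102 (cons (cons (mv 1103 (cons (fin 1163 1 1099)
(mv 1036 (cons (fin 1035 3 1035)
(fin 1104 3 1036)))))
(mv 1099 (cons (mv 1034 (cons (fin 1035 3 1034)
(mv 1098 (cons (fin 1033 3 1033)
(fin 1038 2 1034)))))
(cons (mv 1035 (cons (fin 1034 3 1034)
(mv 971 (cons (fin 907 4 907)
(mv 1163 (cons (fin 1162 1 1098)
(fin 1228 4 971)))))))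
(mv 1038 (cons (fin 1098 2 1034)
(mv 1163 (cons (fin 1162 1 1098)
(mv 1166 (cons (fin 1167 0 1099)
(mv 1230 (cons (fin 1294 7 1037)
(mv 1229 (cons (fin 1293 5 1037)
(mv 1231 (cons (fin 1228 3 1163)
(fin 1295 4 1038)))))))))))))))))
(cons (mv 1036 (cons (mv 1035 (cons (fin 1103 3 1035)
(fin 1034 0 1034)))
(cons (mv 1103 (cons (fin 1104 3 1036)
(mv 1167 (cons (fin 1168 0 1100)
(mv 1099 (cons (fin 1166 0 1099)
(mv 1098 (cons (fin 1097 2 1033)
(fin 1038 2 1034)))))))))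
(mv 1035 (cons (fin 1034 0 1034)
(mv 971 (cons (fin 1228 7 971)
(mv 907 (cons (fin 972 7 907)
(fin 843 4 843))))))))))
(mv 1103 (cons (fin 1163 1 1099)
(mv 1036 (cons (fin 1104 3 1036)
(mv 1167 (cons (fin 1168 0 1100)
(mv 1099 (cons (fin 1166 0 1099)
(mv 1098 (cons (fin 1097 2 1033)
(fin 1038 2 1034))))))))))))))))
(mv 973 (cons (fin 909 5 908)
(mv 1228 (cons (fin 1292 6 1036)
(mv 1099 (cons (cons (mv 1098 (cons (fin 1038 2 1034)
(mv 1033 (cons (fin 1034 3 1033)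
(mv 1097 (cons (fin 1032 3 1032)
(mv 1161 (cons (fin 1160 1 1096)
(fin 1162 1 1097)))))))))
(mv 1102 (cons (mv 1163 (cons (fin 1162 1 1098)
(fin 1103 1 1099)))
(mv 1034 (cons (fin 1035 3 1034)
(mv 1166 (cons (fin 1167 0 1099)
(mv 1230 (cons (fin 1038 7 973)
(fin 1294 7 1037))))))))))
(cons (mv 1035 (cons (mv 971 (cons (fin 907 4 907)
(fin 1163 4 971)))
(mv 1034 (cons (fin 1102 3 1034)
(mv 1033 (cons (fin 1098 3 1033)
(fin 1032 0 1032)))))))
(mv 1098 (cons (fin 1038 2 1034)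
(mv 1161 (cons (fin 1162 1 1097)
(mv 1097 (cons (fin 1160 1 1096)
(mv 1032 (cons (fin 1033 3 1032)
(mv 1096 (cons (fin 1031 3 1031)
(fin 1163 0 1096))))))))))))))))))))))
(mv 1038 (cons (fin 1039 1 1036)
(mv 1099 (cons (fin 1098 2 1034)
(mv 1102 (cons (cons (mv 1034 (cons (fin 1035 3 1034)
(mv 1162 (cons (fin 1163 1 1098)
(mv 1166 (cons (fin 1167 0 1099)
(mv 973 (cons (fin 1230 7 973)
(fin 909 4 909)))))))))
(mv 1035 (cons (fin 1034 3 1034)
(mv 1036 (cons (fin 1103 3 1035)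
(mv 970 (cons (fin 971 3 970)
(mv 974 (cons (fin 975 2 971)
(mv 846 (cons (fin 910 5 845)
(mv 1163 (cons (fin 1162 1 1098)
(mv 972 (cons (fin 908 5 907)
(fin 1227 6 971))))))))))))))))
(cons (mv 1162 (cons (fin 1163 1 1098)
(mv 1166 (cons (fin 1167 0 1099)
(mv 973 (cons (fin 1230 7 973)
(fin 909 4 909)))))))
(mv 1034 (cons (fin 1035 3 1034)
(mv 1166 (cons (fin 1167 0 1099)
(mv 973 (cons (fin 1230 7 973)
(fin 909 4 909))))))))))))))))
(cons (cons (mv 1038 (cons (fin 1039 1 1036)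
(mv 1099 (cons (fin 1098 2 1034)
(mv 973 (cons (cons (mv 909 (cons (fin 1164 5 908)
(mv 844 (cons (fin 908 7 844)
(mv 845 (cons (fin 780 7 780)
(fin 1036 5 844)))))))
(mv 971 (cons (cons (mv 970 (cons (fin 972 0 970)
(mv 1035 (cons (fin 1036 3 970)
(mv 906 (cons (fin 1163 7 906)
(mv 842 (cons (fin 907 7 842)
(fin 778 4 778)))))))))
(cons (mv 1164 (cons (mv 1228 (cons (fin 1036 6 972)
(fin 1292 6 1036)))
(cons (mv 907 (cons (fin 1035 4 907)
(mv 972 (cons (fin 1036 7 907)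
(mv 906 (cons (fin 974 3 906)
(mv 905 (cons (fin 904 0 904)
(fin 908 0 905)))))))))
(mv 1035 (cons (fin 907 4 907)
(mv 1228 (cons (fin 1292 7 1035)
(fin 1163 4 971))))))))
(mv 1164 (cons (mv 1228 (cons (fin 1036 6 972)
(fin 1292 6 1036)))
(cons (mv 1035 (cons (fin 907 4 907)
(mv 970 (cons (fin 1036 3 970)
(mv 906 (cons (fin 1163 7 906)
(mv 842 (cons (fin 778 4 778)
(fin 1034 4 842)))))))))
(mv 1035 (cons (fin 907 4 907)
(mv 1228 (cons (fin 1292 7 1035)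
(fin 1163 4 971))))))))))
(cons (cons (mv 972 (cons (fin 970 0 970)
(mv 1036 (cons (mv 908 (cons (fin 1163 5 907)
(fin 844 4 844)))
(mv 1164 (cons (fin 907 7 907)
(fin 1228 6 972)))))))
(mv 970 (cons (fin 972 0 970)
(mv 1035 (cons (cons (mv 906 (cons (fin 1163 7 906)
(mv 842 (cons (fin 907 7 842)
(fin 778 4 778)))))
(mv 907 (cons (fin 1164 4 907)
(mv 842 (cons (fin 906 7 842)
(mv 843 (cons (fin 778 7 778)
(mv 844 (cons (fin 780 6 779)
(fin 908 6 843))))))))))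
(cons (mv 907 (cons (fin 1164 4 907)
(mv 844 (cons (fin 908 6 843)
(mv 843 (cons (fin 780 6 779)
(mv 778 (cons (fin 842 7 778)
(mv 779 (cons (fin 714 7 714)
(fin 1034 5 778)))))))))))
(cons (mv 906 (cons (fin 1163 7 906)
(mv 842 (cons (fin 778 4 778)
(fin 1034 4 842)))))
(mv 906 (cons (fin 1163 7 906)
(mv 907 (cons (fin 1164 4 907)
(mv 844 (cons (fin 908 6 843)
(mv 843 (cons (fin 780 6 779)
(mv 779 (cons (fin 715 5 714)
(fin 1034 5 778))))))))))))))))))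
(cons (mv 970 (cons (fin 972 0 970)
(mv 1035 (cons (fin 1036 3 970)
(mv 906 (cons (fin 1163 7 906)
(mv 842 (cons (fin 778 4 778)
(fin 1034 4 842)))))))))
(mv 970 (cons (fin 972 0 970)
(mv 1035 (cons (fin 1036 3 970)
(mv 907 (cons (fin 1164 4 907)
(mv 842 (cons (fin 906 7 842)
(mv 843 (cons (fin 778 7 778)
(mv 844 (cons (fin 780 6 779)
(fin 908 6 843))))))))))))))))))
(cons (mv 909 (cons (cons (mv 844 (cons (fin 908 7 844)
(mv 845 (cons (fin 780 7 780)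
(fin 1036 5 844)))))
(mv 908 (cons (fin 844 7 844)
(mv 910 (cons (fin 846 6 845)
(mv 972 (cons (mv 971 (cons (fin 911 1 907)
(fin 970 2 906)))
(mv 1036 (cons (fin 1163 5 907)
(mv 907 (cons (fin 843 7 843)
(mv 906 (cons (fin 905 0 905)
(fin 974 0 906))))))))))))))
(cons (mv 845 (cons (fin 1036 5 844)
(mv 846 (cons (fin 782 6 781)
(fin 910 6 845)))))
(mv 844 (cons (fin 908 7 844)
(mv 845 (cons (fin 780 7 780)
(mv 846 (cons (fin 782 6 781)
(fin 910 6 845))))))))))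
(cons (mv 909 (cons (fin 1164 5 908)
(mv 844 (cons (fin 908 7 844)
(mv 845 (cons (fin 780 7 780)
(mv 846 (cons (fin 782 6 781)
(fin 910 6 845)))))))))
(mv 909 (cons (fin 1164 5 908)
(mv 845 (cons (fin 1036 5 844)
(mv 846 (cons (fin 782 6 781)
(fin 910 6 845)))))))))))))))
(mv 1039 (cons (fin 1038 1 1036)
(mv 1103 (cons (fin 1102 2 1036)
(mv 1167 (cons (cons (mv 1231 (cons (fin 976 6 975)
(mv 1104 (cons (fin 1295 6 1039)
(mv 1230 (cons (fin 1294 5 1038)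
(mv 975 (cons (fin 1166 5 974)
(mv 911 (cons (fin 847 4 847)
(fin 1168 4 911)))))))))))
(cons (mv 975 (cons (cons (mv 910 (cons (fin 974 7 910)
(mv 911 (cons (fin 846 7 846)
(mv 1104 (cons (fin 847 4 847)
(fin 1168 4 911)))))))
(mv 910 (cons (fin 974 7 910)
(mv 911 (cons (fin 846 7 846)
(mv 847 (cons (fin 1104 4 847)
(mv 783 (cons (fin 976 4 783)
(mv 784 (cons (fin 720 6 719)
(fin 848 6 783))))))))))))
(cons (mv 1166 (cons (fin 1230 5 974)
(mv 1168 (cons (fin 1232 4 975)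
(mv 911 (cons (fin 1104 4 911)
(mv 846 (cons (fin 910 7 846)
(mv 847 (cons (fin 782 7 782)
(mv 783 (cons (fin 976 4 783)
(mv 784 (cons (fin 720 6 719)
(fin 848 6 783)))))))))))))))
(cons (mv 1166 (cons (fin 1230 5 974)
(mv 1168 (cons (fin 1232 4 975)
(mv 1104 (cons (fin 911 4 911)
(mv 1106 (cons (fin 1105 1 1102)
(mv 1169 (cons (mv 1170 (cons (fin 1171 3 1103)
(fin 1107 2 1103)))
(mv 1233 (cons (fin 1234 0 1166)
(fin 976 4 976)))))))))))))
(mv 974 (cons (fin 910 7 910)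
(mv 973 (cons (fin 972 0 972)
(mv 909 (cons (fin 1164 5 908)
(mv 908 (cons (fin 976 3 908)
(fin 844 7 844)))))))))))))
(mv 975 (cons (cons (mv 910 (cons (fin 974 7 910)
(mv 846 (cons (fin 911 7 846)
(mv 909 (cons (fin 973 6 845)
(mv 1230 (cons (fin 1166 5 974)
(mv 1231 (cons (fin 1294 5 1038)
(mv 1232 (cons (fin 1168 4 975)
(fin 1296 4 1039)))))))))))))
(cons (mv 910 (cons (fin 974 7 910)
(mv 846 (cons (fin 911 7 846)
(mv 909 (cons (fin 973 6 845)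
(mv 1230 (cons (fin 1166 5 974)
(mv 1231 (cons (fin 1294 5 1038)
(mv 1295 (cons (fin 1104 6 1039)
(mv 1296 (cons (fin 1232 4 1039)
(fin 1360 4 1103)))))))))))))))
(mv 910 (cons (fin 974 7 910)
(mv 846 (cons (fin 911 7 846)
(mv 973 (cons (fin 909 6 845)
(mv 1230 (cons (fin 1166 5 974)
(mv 1231 (cons (fin 1294 5 1038)
(mv 1295 (cons (fin 1104 6 1039)
(mv 1296 (cons (fin 1360 4 1103)
(mv 1228 (cons (fin 1229 0 1228)
(mv 1164 (cons (fin 1036 6 972)
(fin 1292 6 1036)))))))))))))))))))))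
(cons (mv 1168 (cons (fin 1232 4 975)
(mv 911 (cons (fin 1104 4 911)
(mv 1230 (cons (fin 1166 5 974)
(mv 1231 (cons (fin 1294 5 1038)
(mv 1169 (cons (fin 1170 1 1166)
(mv 1228 (cons (fin 1229 2 1164)
(mv 1164 (cons (fin 1292 6 1036)
(mv 973 (cons (fin 909 5 908)
(fin 1036 6 972)))))))))))))))))
(cons (mv 910 (cons (fin 974 7 910)
(mv 911 (cons (fin 846 7 846)
(mv 1104 (cons (fin 847 4 847)
(fin 1168 4 911)))))))
(mv 910 (cons (fin 974 7 910)
(mv 1168 (cons (fin 1232 4 975)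
(mv 1230 (cons (fin 1166 5 974)
(mv 1231 (cons (fin 1294 5 1038)
(mv 1104 (cons (fin 1295 6 1039)
(mv 1169 (cons (fin 1170 1 1166)
(mv 1228 (cons (fin 1229 2 1164)
(mv 1164 (cons (fin 1292 6 1036)
(mv 973 (cons (fin 909 5 908)
(fin 1036 6 972)))))))))))))))))))))))))
(cons (mv 1231 (cons (fin 976 6 975)
(mv 1230 (cons (fin 1294 5 1038)
(mv 1295 (cons (fin 1104 6 1039)
(mv 1296 (cons (fin 1232 4 1039)
(fin 1360 4 1103)))))))))
(cons (mv 1231 (cons (fin 976 6 975)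
(mv 1104 (cons (fin 1295 6 1039)
(mv 1232 (cons (fin 1296 4 1039)
(mv 975 (cons (fin 1168 7 975)
(mv 847 (cons (fin 911 4 847)
(mv 974 (cons (fin 910 7 910)
(mv 973 (cons (fin 972 0 972)
(mv 909 (cons (fin 1164 5 908)
(mv 844 (cons (fin 908 7 844)
(mv 845 (cons (fin 780 7 780)
(fin 1036 5 844)))))))))))))))))))))
(mv 1231 (cons (fin 976 6 975)
(mv 1230 (cons (fin 1294 5 1038)
(mv 975 (cons (fin 1166 5 974)
(mv 1232 (cons (fin 1168 4 975)
(fin 1296 4 1039))))))))))))))))))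
(cons (mv 1038 (cons (fin 1039 1 1036)
(mv 1099 (cons (fin 1098 2 1034)
(mv 1102 (cons (cons (mv 1034 (cons (fin 1035 3 1034)
(mv 1162 (cons (fin 1163 1 1098)
(mv 1167 (cons (fin 1166 0 1099)
(mv 1103 (cons (fin 1168 0 1100)
(mv 1104 (cons (fin 1036 3 1036)
(fin 1105 3 1037)))))))))))
(cons (mv 1162 (cons (fin 1163 1 1098)
(mv 1167 (cons (fin 1166 0 1099)
(mv 1103 (cons (fin 1168 0 1100)
(mv 1104 (cons (fin 1036 3 1036)
(fin 1105 3 1037)))))))))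
(mv 1034 (cons (fin 1035 3 1034)
(mv 1163 (cons (fin 1162 1 1098)
(mv 1103 (cons (fin 1164 1 1099)
(mv 1104 (cons (fin 1036 3 1036)
(fin 1105 3 1037)))))))))))
(cons (mv 1034 (cons (fin 1035 3 1034)
(mv 1167 (cons (fin 1166 0 1099)
(mv 1103 (cons (fin 1168 0 1100)
(mv 1104 (cons (fin 1036 3 1036)
(fin 1105 3 1037)))))))))
(cons (mv 1034 (cons (fin 1035 3 1034)
(mv 1163 (cons (fin 1162 1 1098)
(mv 1166 (cons (fin 1167 0 1099)
(mv 1230 (cons (fin 1294 7 1037)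
(mv 1229 (cons (fin 1293 5 1037)
(mv 1231 (cons (fin 1295 4 1038)
(mv 1228 (cons (fin 1164 3 1163)
(mv 1291 (cons (fin 1292 1 1227)
(mv 1227 (cons (fin 1290 1 1226)
(fin 1036 6 1035)))))))))))))))))))
(mv 1034 (cons (fin 1035 3 1034)
(mv 1163 (cons (fin 1162 1 1098)
(mv 1103 (cons (fin 1164 1 1099)
(mv 1167 (cons (fin 1166 0 1099)
(fin 1168 0 1100)))))))))))))))))
(mv 1038 (cons (fin 1039 1 1036)
(mv 1099 (cons (fin 1098 2 1034)
(mv 1102 (cons (cons (mv 1034 (cons (fin 1035 3 1034)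
(mv 1162 (cons (fin 1163 1 1098)
(mv 1166 (cons (fin 1167 0 1099)
(mv 973 (cons (fin 1230 7 973)
(fin 909 4 909)))))))))
(mv 1034 (cons (fin 1035 3 1034)
(mv 1163 (cons (fin 1162 1 1098)
(mv 1103 (cons (fin 1164 1 1099)
(mv 1104 (cons (fin 1105 3 1037)
(mv 1168 (cons (fin 1167 0 1100)
(fin 1169 0 1101))))))))))))
(cons (mv 1035 (cons (fin 1034 3 1034)
(mv 1163 (cons (fin 1162 1 1098)
(mv 1164 (cons (fin 1103 1 1099)
(mv 971 (cons (fin 907 4 907)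
(fin 1228 4 971)))))))))
(cons (mv 1034 (cons (fin 1035 3 1034)
(mv 1166 (cons (fin 1167 0 1099)
(mv 973 (cons (fin 1230 7 973)
(fin 909 4 909)))))))
(mv 1162 (cons (fin 1163 1 1098)
(mv 1166 (cons (fin 1167 0 1099)
(mv 973 (cons (fin 1230 7 973)
(fin 909 4 909))))))))))))))))))))
(cons (mv 1038 (cons (cons (mv 1039 (cons (fin 1100 1 1036)
(mv 972 (cons (fin 973 3 972)
(mv 976 (cons (fin 977 2 973)
(mv 1036 (cons (fin 971 3 971)
(fin 975 2 972)))))))))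
(mv 1165 (cons (cons (mv 974 (cons (fin 1229 6 973)
(mv 910 (cons (fin 846 5 845)
(fin 973 6 909)))))
(mv 973 (cons (cons (mv 908 (cons (fin 972 7 908)
(mv 909 (cons (fin 844 7 844)
(mv 910 (cons (fin 846 6 845)
(fin 974 6 909)))))))
(mv 908 (cons (fin 972 7 908)
(mv 909 (cons (fin 844 7 844)
(mv 1164 (cons (fin 1100 5 908)
(fin 1228 5 972))))))))
(cons (mv 910 (cons (fin 974 6 909)
(mv 909 (cons (fin 846 6 845)
(mv 1164 (cons (fin 1100 5 908)
(fin 1228 5 972)))))))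
(mv 972 (cons (fin 908 7 908)
(mv 971 (cons (fin 970 0 970)
(mv 974 (cons (fin 910 6 909)
(mv 906 (cons (fin 907 3 906)
(mv 1035 (cons (fin 1034 1 970)
(mv 1036 (cons (fin 975 1 971)
(mv 1099 (cons (fin 1098 1 1034)
(mv 1163 (cons (fin 1227 6 971)
(mv 1162 (cons (fin 1226 5 970)
(mv 1164 (cons (fin 1228 5 972)
(mv 1100 (cons (fin 1161 2 1097)
(mv 1166 (cons (fin 1167 3 1099)
(fin 1230 4 973)))))))))))))))))))))))))))))
(cons (mv 973 (cons (cons (mv 908 (cons (fin 972 7 908)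
(mv 844 (cons (fin 909 7 844)
(mv 1228 (cons (fin 1164 5 972)
(mv 1229 (cons (fin 1292 5 1036)
(mv 1230 (cons (fin 1166 4 973)
(fin 1294 4 1037)))))))))))
(mv 1164 (cons (fin 1228 5 972)
(mv 909 (cons (fin 1100 5 908)
(mv 844 (cons (fin 908 7 844)
(mv 845 (cons (fin 780 7 780)
(mv 846 (cons (fin 782 6 781)
(fin 910 6 845))))))))))))
(cons (mv 972 (cons (fin 908 7 908)
(mv 970 (cons (fin 971 0 970)
(mv 1229 (cons (fin 1036 7 972)
(mv 1230 (cons (fin 1166 4 973)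
(fin 1294 4 1037)))))))))
(mv 1164 (cons (fin 1228 5 972)
(mv 1100 (cons (fin 909 5 908)
(mv 1098 (cons (fin 1099 2 1034)
(mv 1230 (cons (fin 1166 4 973)
(mv 1229 (cons (fin 1294 4 1037)
(mv 1036 (cons (fin 972 7 972)
(fin 1293 7 1036))))))))))))))))
(mv 1229 (cons (fin 974 6 973)
(mv 972 (cons (fin 1036 7 972)
(mv 1292 (cons (fin 1228 5 1036)
(mv 1293 (cons (fin 1356 5 1100)
(mv 1294 (cons (fin 1230 4 1037)
(fin 1358 4 1101)))))))))))))))
(cons (mv 1039 (cons (cons (mv 972 (cons (fin 973 3 972)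
(mv 976 (cons (fin 977 2 973)
(mv 1036 (cons (fin 971 3 971)
(fin 975 2 972)))))))
(mv 976 (cons (fin 977 2 973)
(mv 975 (cons (fin 1036 2 972)
(mv 1104 (cons (fin 1105 0 1037)
(mv 911 (cons (fin 1168 7 911)
(fin 847 4 847))))))))))
(cons (mv 972 (cons (fin 973 3 972)
(mv 1036 (cons (fin 971 3 971)
(mv 1104 (cons (fin 1103 0 1036)
(fin 1105 0 1037)))))))
(mv 973 (cons (fin 972 3 972)
(mv 976 (cons (fin 977 2 973)
(mv 1104 (cons (fin 1105 0 1037)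
(mv 1165 (cons (mv 974 (cons (fin 910 6 909)
(fin 1229 6 973)))
(mv 1164 (cons (fin 1228 5 972)
(mv 1166 (cons (fin 1230 4 973)
(mv 1167 (cons (fin 1103 2 1100)
(mv 1231 (cons (fin 1232 0 1164)
(fin 1168 5 975))))))))))))))))))))
(cons (mv 1039 (cons (fin 1100 1 1036)
(mv 976 (cons (fin 977 2 973)
(mv 975 (cons (fin 1036 2 972)
(mv 1104 (cons (fin 1105 0 1037)
(mv 911 (cons (fin 1168 7 911)
(fin 847 4 847)))))))))))
(mv 1039 (cons (fin 1100 1 1036)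
(mv 973 (cons (fin 972 3 972)
(mv 976 (cons (fin 977 2 973)
(mv 1104 (cons (fin 1105 0 1037)
(mv 1165 (cons (mv 974 (cons (fin 910 6 909)
(fin 1229 6 973)))
(mv 1164 (cons (fin 1228 5 972)
(mv 1166 (cons (fin 1230 4 973)
(mv 1167 (cons (fin 1103 2 1100)
(mv 1231 (cons (fin 1232 0 1164)
(fin 1168 5 975)))))))))))))))))))))))
(cons (mv 1038 (cons (cons (cons (mv 1039 (cons (fin 1100 1 1036)
(mv 972 (cons (fin 973 3 972)
(mv 976 (cons (fin 977 2 973)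
(mv 1104 (cons (fin 1105 0 1037)
(mv 1168 (cons (mv 975 (cons (fin 911 7 911)
(fin 1232 7 975)))
(mv 1167 (cons (fin 1231 5 975)
(mv 1169 (cons (fin 1233 4 976)
(mv 1102 (cons (fin 1166 3 1101)
(fin 1103 0 1101)))))))))))))))))
(mv 974 (cons (cons (mv 910 (cons (fin 846 5 845)
(mv 1165 (cons (fin 1102 5 909)
(fin 973 6 909)))))
(mv 910 (cons (fin 846 5 845)
(mv 1102 (cons (cons (mv 845 (cons (fin 909 7 845)
(mv 847 (cons (fin 911 6 846)
(mv 1167 (cons (fin 1103 4 910)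
(mv 1166 (cons (fin 1231 4 974)
(mv 1230 (cons (fin 973 7 973)
(fin 1294 7 1037)))))))))))
(cons (mv 847 (cons (fin 911 6 846)
(mv 1167 (cons (fin 1103 4 910)
(mv 1166 (cons (fin 1231 4 974)
(mv 1230 (cons (fin 973 7 973)
(fin 1294 7 1037)))))))))
(mv 845 (cons (fin 909 7 845)
(mv 911 (cons (fin 847 6 846)
(mv 1166 (cons (fin 975 6 910)
(mv 1230 (cons (fin 973 7 973)
(fin 1294 7 1037)))))))))))
(cons (mv 845 (cons (fin 909 7 845)
(mv 1167 (cons (fin 1103 4 910)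
(mv 1166 (cons (fin 1231 4 974)
(mv 1230 (cons (fin 973 7 973)
(fin 1294 7 1037)))))))))
(cons (mv 909 (cons (fin 845 7 845)
(mv 911 (cons (fin 847 6 846)
(mv 1103 (cons (fin 1167 4 910)
(mv 1104 (cons (fin 1105 3 1037)
(mv 1168 (cons (fin 1169 0 1101)
(mv 975 (cons (fin 976 7 911)
(mv 908 (cons (fin 907 0 907)
(mv 844 (cons (fin 843 3 843)
(fin 973 7 844)))))))))))))))))
(mv 845 (cons (fin 909 7 845)
(mv 911 (cons (fin 847 6 846)
(mv 975 (cons (fin 1166 6 910)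
(mv 976 (cons (fin 977 1 973)
(mv 1103 (cons (fin 1167 4 910)
(mv 1104 (cons (fin 1105 3 1037)
(fin 1168 7 911))))))))))))))))))))
(cons (mv 1165 (cons (fin 1229 6 973)
(mv 973 (cons (mv 908 (cons (fin 972 7 908)
(mv 909 (cons (fin 844 7 844)
(mv 845 (cons (fin 781 4 781)
(fin 1102 4 845)))))))
(cons (mv 1164 (cons (fin 1228 5 972)
(mv 909 (cons (fin 1100 5 908)
(mv 845 (cons (fin 781 4 781)
(fin 1102 4 845)))))))
(mv 972 (cons (fin 908 7 908)
(mv 971 (cons (fin 970 0 970)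
(mv 907 (cons (fin 906 3 906)
(mv 1035 (cons (fin 1034 1 970)
(mv 1164 (cons (fin 1228 5 972)
(mv 1099 (cons (fin 1100 4 907)
(mv 1098 (cons (fin 1162 5 906)
(mv 1166 (cons (fin 1163 3 1098)
(fin 1230 4 973))))))))))))))))))))))
(cons (mv 910 (cons (fin 846 5 845)
(mv 1165 (cons (fin 973 6 909)
(fin 1229 6 973)))))
(mv 910 (cons (fin 846 5 845)
(mv 1165 (cons (fin 1102 5 909)
(fin 1229 6 973))))))))))
(cons (mv 1039 (cons (cons (mv 972 (cons (fin 973 3 972)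
(mv 976 (cons (fin 977 2 973)
(mv 1104 (cons (fin 1105 0 1037)
(mv 1168 (cons (mv 975 (cons (fin 911 7 911)
(fin 1232 7 975)))
(mv 1167 (cons (fin 1231 5 975)
(mv 1169 (cons (fin 1233 4 976)
(mv 1102 (cons (fin 1166 3 1101)
(fin 1103 0 1101)))))))))))))))
(cons (mv 976 (cons (fin 977 2 973)
(mv 1104 (cons (fin 1105 0 1037)
(mv 1168 (cons (mv 975 (cons (fin 911 7 911)
(fin 1232 7 975)))
(mv 1167 (cons (fin 1231 5 975)
(mv 1169 (cons (fin 1233 4 976)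
(mv 1102 (cons (fin 1166 3 1101)
(fin 1103 0 1101)))))))))))))
(mv 973 (cons (fin 972 3 972)
(mv 976 (cons (fin 977 2 973)
(mv 909 (cons (cons (mv 1102 (cons (fin 845 4 845)
(fin 1166 4 909)))
(mv 844 (cons (fin 908 7 844)
(mv 780 (cons (fin 845 7 780)
(mv 910 (cons (fin 846 6 845)
(mv 1165 (cons (fin 974 6 909)
(mv 1228 (cons (fin 1164 5 972)
(mv 1229 (cons (fin 1292 5 1036)
(mv 1230 (cons (fin 1166 4 973)
(fin 1294 4 1037))))))))))))))))
(cons (mv 844 (cons (fin 908 7 844)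
(mv 846 (cons (fin 910 6 845)
(mv 1166 (cons (fin 1102 4 909)
(mv 1165 (cons (fin 1230 4 973)
(mv 1228 (cons (fin 1164 5 972)
(mv 1229 (cons (fin 1292 5 1036)
(fin 974 6 973)))))))))))))
(mv 844 (cons (fin 908 7 844)
(mv 845 (cons (fin 780 7 780)
(fin 1102 4 845))))))))))))))
(cons (mv 973 (cons (fin 972 3 972)
(mv 1104 (cons (fin 1105 0 1037)
(mv 1165 (cons (mv 974 (cons (fin 910 6 909)
(fin 1229 6 973)))
(mv 1164 (cons (fin 1228 5 972)
(mv 1102 (cons (fin 1103 1 1100)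
(mv 909 (cons (fin 845 4 845)
(fin 1166 4 909)))))))))))))
(cons (mv 973 (cons (fin 972 3 972)
(mv 976 (cons (fin 977 2 973)
(mv 1104 (cons (fin 1105 0 1037)
(mv 1165 (cons (mv 974 (cons (fin 910 6 909)
(fin 1229 6 973)))
(mv 1164 (cons (fin 1228 5 972)
(mv 1166 (cons (fin 1230 4 973)
(mv 1167 (cons (fin 1103 2 1100)
(mv 1231 (cons (fin 1232 0 1164)
(fin 1168 5 975)))))))))))))))))
(mv 973 (cons (fin 972 3 972)
(mv 976 (cons (fin 977 2 973)
(mv 1104 (cons (fin 1105 0 1037)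
(mv 1168 (cons (mv 975 (cons (fin 911 7 911)
(fin 1232 7 975)))
(mv 1167 (cons (fin 1231 5 975)
(mv 1169 (cons (fin 1233 4 976)
(mv 1102 (cons (fin 1103 0 1101)
(mv 909 (cons (fin 845 4 845)
(mv 844 (cons (fin 908 7 844)
(mv 910 (cons (fin 846 6 845)
(mv 1165 (cons (fin 974 5 909)
(mv 1228 (cons (fin 1164 5 972)
(mv 1229 (cons (fin 1292 5 1036)
(fin 1293 6 1037)))))))))))))))))))))))))))))))
(mv 1039 (cons (fin 1100 1 1036)
(mv 976 (cons (fin 977 2 973)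
(mv 1104 (cons (fin 1105 0 1037)
(mv 1168 (cons (mv 975 (cons (fin 911 7 911)
(fin 1232 7 975)))
(mv 1167 (cons (fin 1231 5 975)
(mv 1169 (cons (fin 1233 4 976)
(mv 1102 (cons (fin 1166 3 1101)
(fin 1103 0 1101)))))))))))))))))
(cons (cons (mv 1039 (cons (fin 1100 1 1036)
(mv 973 (cons (fin 972 3 972)
(mv 976 (cons (fin 977 2 973)
(mv 909 (cons (cons (mv 1102 (cons (fin 845 4 845)
(fin 1166 4 909)))
(mv 844 (cons (fin 908 7 844)
(mv 780 (cons (fin 845 7 780)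
(mv 910 (cons (fin 846 6 845)
(mv 1165 (cons (fin 974 6 909)
(mv 1228 (cons (fin 1164 5 972)
(mv 1229 (cons (fin 1292 5 1036)
(mv 1230 (cons (fin 1166 4 973)
(fin 1294 4 1037))))))))))))))))
(cons (mv 844 (cons (fin 908 7 844)
(mv 846 (cons (fin 910 6 845)
(mv 1166 (cons (fin 1102 4 909)
(mv 1165 (cons (fin 1230 4 973)
(mv 1228 (cons (fin 1164 5 972)
(mv 1229 (cons (fin 1292 5 1036)
(fin 974 6 973)))))))))))))
(mv 844 (cons (fin 908 7 844)
(mv 845 (cons (fin 780 7 780)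
(fin 1102 4 845))))))))))))))
(mv 1039 (cons (fin 1100 1 1036)
(mv 973 (cons (fin 972 3 972)
(mv 1104 (cons (fin 1105 0 1037)
(mv 1165 (cons (mv 974 (cons (fin 910 6 909)
(fin 1229 6 973)))
(mv 1164 (cons (fin 1228 5 972)
(mv 1102 (cons (fin 1103 1 1100)
(mv 909 (cons (fin 845 4 845)
(fin 1166 4 909))))))))))))))))
(cons (mv 1039 (cons (fin 1100 1 1036)
(mv 973 (cons (fin 972 3 972)
(mv 976 (cons (fin 977 2 973)
(mv 1104 (cons (fin 1105 0 1037)
(mv 1165 (cons (mv 974 (cons (fin 910 6 909)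
(fin 1229 6 973)))
(mv 1164 (cons (fin 1228 5 972)
(mv 1166 (cons (fin 1230 4 973)
(mv 1167 (cons (fin 1103 2 1100)
(mv 1231 (cons (fin 1232 0 1164)
(fin 1168 5 975)))))))))))))))))))
(mv 1039 (cons (fin 1100 1 1036)
(mv 973 (cons (fin 972 3 972)
(mv 976 (cons (fin 977 2 973)
(mv 1104 (cons (fin 1105 0 1037)
(mv 1168 (cons (mv 975 (cons (fin 911 7 911)
(fin 1232 7 975)))
(mv 1167 (cons (fin 1231 5 975)
(mv 1169 (cons (fin 1233 4 976)
(mv 1102 (cons (fin 1103 0 1101)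
(mv 909 (cons (fin 845 4 845)
(mv 844 (cons (fin 908 7 844)
(mv 910 (cons (fin 846 6 845)
(mv 1165 (cons (fin 974 5 909)
(mv 1228 (cons (fin 1164 5 972)
(mv 1229 (cons (fin 1292 5 1036)
(fin 1293 6 1037)))))))))))))))))))))))))))))))))
(mv 1038 (cons (cons (mv 1039 (cons (fin 1100 1 1036)
(mv 976 (cons (fin 977 2 973)
(mv 975 (cons (fin 1036 2 972)
(mv 1104 (cons (fin 1105 0 1037)
(mv 911 (cons (fin 1168 7 911)
(fin 847 4 847)))))))))))
(cons (mv 974 (cons (cons (mv 910 (cons (fin 846 5 845)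
(mv 1165 (cons (fin 1102 5 909)
(fin 973 6 909)))))
(mv 1165 (cons (fin 1229 6 973)
(mv 973 (cons (cons (mv 1164 (cons (fin 1228 5 972)
(mv 909 (cons (fin 1100 5 908)
(mv 845 (cons (fin 781 4 781)
(fin 1102 4 845)))))))
(mv 1166 (cons (fin 1230 4 973)
(mv 909 (cons (fin 1102 7 909)
(mv 844 (cons (fin 908 7 844)
(mv 845 (cons (fin 780 7 780)
(fin 781 4 781))))))))))
(cons (mv 1164 (cons (fin 1228 5 972)
(mv 1166 (cons (fin 1230 4 973)
(mv 1102 (cons (mv 1103 (cons (fin 1104 1 1100)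
(fin 1163 2 1099)))
(cons (mv 911 (cons (fin 975 6 910)
(mv 1162 (cons (fin 1163 2 1098)
(mv 1167 (cons (fin 1231 4 974)
(mv 1100 (cons (fin 1099 3 1099)
(fin 1168 3 1100)))))))))
(mv 911 (cons (fin 975 6 910)
(mv 1103 (cons (fin 1104 1 1100)
(mv 1035 (cons (fin 1036 0 1035)
(mv 1167 (cons (fin 1231 4 974)
(mv 1100 (cons (fin 1099 3 1099)
(fin 1168 3 1100))))))))))))))))))
(mv 1164 (cons (fin 1228 5 972)
(mv 909 (cons (fin 1100 5 908)
(mv 844 (cons (fin 908 7 844)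
(mv 845 (cons (fin 780 7 780)
(fin 781 4 781)))))))))))))))
(cons (mv 910 (cons (fin 846 5 845)
(mv 1102 (cons (cons (mv 845 (cons (fin 909 7 845)
(mv 847 (cons (fin 911 6 846)
(mv 1103 (cons (fin 1167 4 910)
(mv 1036 (cons (fin 1104 3 1036)
(fin 1035 0 1035)))))))))
(mv 847 (cons (fin 911 6 846)
(mv 1103 (cons (fin 1167 4 910)
(mv 1036 (cons (fin 1104 3 1036)
(fin 1035 0 1035))))))))
(cons (mv 845 (cons (fin 909 7 845)
(mv 911 (cons (fin 847 6 846)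
(mv 975 (cons (fin 1166 6 910)
(mv 976 (cons (fin 977 1 973)
(mv 1036 (cons (fin 973 1 972)
(fin 1035 2 971)))))))))))
(cons (mv 845 (cons (fin 909 7 845)
(mv 1103 (cons (fin 1167 4 910)
(mv 1036 (cons (fin 1104 3 1036)
(fin 1035 0 1035)))))))
(mv 845 (cons (fin 909 7 845)
(mv 847 (cons (fin 911 6 846)
(mv 1167 (cons (fin 1103 4 910)
(mv 1166 (cons (fin 1231 4 974)
(mv 1230 (cons (fin 973 7 973)
(fin 1294 7 1037)))))))))))))))))
(cons (mv 910 (cons (fin 846 5 845)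
(mv 1165 (cons (fin 973 6 909)
(fin 1229 6 973)))))
(mv 910 (cons (fin 846 5 845)
(mv 1165 (cons (fin 1102 5 909)
(fin 1229 6 973)))))))))
(mv 974 (cons (cons (mv 910 (cons (fin 846 5 845)
(mv 1165 (cons (fin 1102 5 909)
(fin 973 6 909)))))
(mv 1165 (cons (fin 1229 6 973)
(mv 973 (cons (cons (mv 1164 (cons (fin 1228 5 972)
(mv 1166 (cons (fin 1230 4 973)
(mv 909 (cons (fin 1102 7 909)
(mv 781 (cons (fin 845 4 781)
(mv 908 (cons (fin 844 7 844)
(mv 906 (cons (fin 907 0 906)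
(mv 976 (cons (fin 975 3 908)
(mv 1039 (cons (fin 977 2 973)
(mv 1104 (cons (fin 1105 0 1037)
(mv 1103 (cons (fin 1167 2 1100)
(fin 1036 0 1036)))))))))))))))))))))
(mv 1164 (cons (fin 1228 5 972)
(mv 909 (cons (mv 845 (cons (fin 781 4 781)
(fin 1102 4 845)))
(cons (mv 908 (cons (fin 844 7 844)
(mv 906 (cons (fin 907 0 906)
(mv 976 (cons (fin 975 3 908)
(mv 1039 (cons (fin 977 2 973)
(mv 1104 (cons (fin 1105 0 1037)
(mv 1103 (cons (fin 1102 1 1100)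
(fin 1036 0 1036)))))))))))))
(mv 844 (cons (fin 908 7 844)
(mv 845 (cons (fin 780 7 780)
(fin 781 4 781)))))))))))
(cons (mv 1166 (cons (fin 1230 4 973)
(mv 909 (cons (fin 1102 7 909)
(mv 844 (cons (fin 908 7 844)
(mv 845 (cons (fin 780 7 780)
(fin 781 4 781)))))))))
(cons (mv 1164 (cons (fin 1228 5 972)
(mv 1166 (cons (fin 1230 4 973)
(mv 1102 (cons (mv 1103 (cons (fin 1104 1 1100)
(fin 1163 2 1099)))
(mv 975 (cons (fin 911 6 910)
(mv 976 (cons (fin 1036 1 972)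
(fin 977 1 973)))))))))))
(mv 1164 (cons (fin 1228 5 972)
(mv 1166 (cons (fin 1230 4 973)
(mv 1104 (cons (cons (mv 1039 (cons (fin 1105 0 1037)
(mv 1103 (cons (fin 1167 2 1100)
(fin 1036 0 1036)))))
(mv 1167 (cons (fin 1103 2 1100)
(mv 1168 (cons (fin 1105 2 1101)
(mv 1231 (cons (fin 1232 0 1164)
(fin 976 5 975))))))))
(cons (mv 1039 (cons (fin 1105 0 1037)
(mv 976 (cons (fin 977 2 973)
(mv 1036 (cons (fin 975 1 972)
(fin 1103 0 1036)))))))
(cons (mv 1103 (cons (fin 1167 2 1100)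
(mv 1036 (cons (fin 1039 0 1036)
(mv 975 (cons (fin 976 1 972)
(fin 1035 2 971)))))))
(mv 1039 (cons (fin 1105 0 1037)
(mv 976 (cons (fin 977 2 973)
(mv 975 (cons (fin 1036 1 972)
(mv 911 (cons (fin 1168 7 911)
(fin 847 4 847))))))))))))))))))))))))
(cons (mv 846 (cons (fin 910 5 845)
(mv 1104 (cons (cons (mv 1039 (cons (fin 1105 0 1037)
(mv 976 (cons (fin 977 2 973)
(mv 1036 (cons (fin 975 2 972)
(fin 1103 0 1036)))))))
(cons (mv 975 (cons (mv 976 (cons (fin 977 1 973)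
(mv 1036 (cons (fin 973 1 972)
(fin 1035 2 971)))))
(cons (mv 1036 (cons (fin 1035 2 971)
(mv 1102 (cons (fin 1103 3 1036)
(mv 1166 (cons (fin 911 6 910)
(mv 973 (cons (fin 909 7 909)
(fin 1230 7 973)))))))))
(mv 976 (cons (fin 977 1 973)
(mv 1168 (cons (fin 911 7 911)
(mv 1167 (cons (fin 1231 5 975)
(mv 1169 (cons (fin 1233 4 976)
(mv 1102 (cons (fin 1166 3 1101)
(fin 1103 0 1101))))))))))))))
(mv 1039 (cons (fin 1105 0 1037)
(mv 976 (cons (fin 977 2 973)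
(mv 1168 (cons (mv 975 (cons (fin 911 7 911)
(fin 1232 7 975)))
(mv 1167 (cons (fin 1231 5 975)
(mv 1169 (cons (fin 1233 4 976)
(mv 1102 (cons (fin 1166 3 1101)
(fin 1103 0 1101)))))))))))))))
(cons (mv 1039 (cons (fin 1105 0 1037)
(mv 976 (cons (fin 977 2 973)
(mv 975 (cons (fin 1036 2 972)
(mv 911 (cons (fin 1168 7 911)
(fin 847 4 847)))))))))
(cons (mv 1039 (cons (fin 1105 0 1037)
(mv 976 (cons (fin 977 2 973)
(mv 1103 (cons (fin 1036 0 1036)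
(mv 1231 (cons (fin 1167 7 974)
(mv 1168 (cons (mv 1169 (cons (fin 1102 0 1101)
(fin 1233 4 976)))
(mv 1232 (cons (fin 1296 7 1039)
(fin 1295 5 1039)))))))))))))
(mv 1039 (cons (fin 1105 0 1037)
(mv 1036 (cons (fin 1103 0 1036)
(mv 1035 (cons (fin 975 2 971)
(mv 1034 (cons (fin 973 2 970)
(fin 1102 0 1034)))))))))))))))
(cons (mv 910 (cons (fin 846 5 845)
(mv 1165 (cons (fin 973 6 909)
(fin 1229 6 973)))))
(mv 910 (cons (fin 846 5 845)
(mv 1165 (cons (fin 1102 5 909)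
(fin 1229 6 973)))))))))))
(cons (cons (mv 1039 (cons (fin 1100 1 1036)
(mv 976 (cons (fin 977 2 973)
(mv 975 (cons (fin 1036 2 972)
(mv 1102 (cons (cons (mv 911 (cons (fin 847 5 846)
(mv 1166 (cons (fin 1103 5 910)
(fin 974 6 910)))))
(mv 911 (cons (fin 847 5 846)
(mv 910 (cons (cons (mv 846 (cons (fin 1103 7 846)
(fin 974 5 845)))
(mv 846 (cons (fin 1103 7 846)
(mv 909 (cons (fin 908 0 908)
(fin 973 6 845))))))
(cons (mv 908 (cons (fin 909 0 908)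
(mv 1165 (cons (fin 974 5 909)
(mv 1229 (cons (fin 1293 6 1037)
(mv 1228 (cons (fin 1292 5 1036)
(mv 1164 (cons (fin 973 5 972)
(mv 1162 (cons (fin 1163 2 1098)
(mv 1230 (cons (fin 1294 4 1037)
(mv 1231 (cons (fin 1232 3 1164)
(mv 1167 (cons (fin 1168 2 1164)
(fin 1103 6 975)))))))))))))))))))
(mv 974 (cons (fin 846 5 845)
(fin 1165 5 909)))))))))
(cons (mv 1166 (cons (fin 1230 6 974)
(mv 909 (cons (fin 973 4 909)
(mv 974 (cons (mv 910 (cons (fin 845 7 845)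
(fin 846 5 845)))
(mv 1165 (cons (fin 1229 5 973)
(mv 1167 (cons (fin 1231 4 974)
(mv 1168 (cons (fin 1169 3 1101)
(mv 1232 (cons (fin 1233 0 1165)
(fin 1103 4 975)))))))))))))))
(cons (mv 911 (cons (fin 847 5 846)
(mv 1166 (cons (fin 1103 5 910)
(fin 1230 6 974)))))
(mv 911 (cons (fin 847 5 846)
(mv 1166 (cons (fin 974 6 910)
(fin 1230 6 974)))))))))))))))
(mv 1039 (cons (fin 1100 1 1036)
(mv 1104 (cons (fin 1105 0 1037)
(mv 1036 (cons (fin 1103 0 1036)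
(mv 1035 (cons (cons (mv 970 (cons (fin 971 3 970)
(mv 1034 (cons (fin 969 3 969)
(fin 1102 0 1034)))))
(mv 970 (cons (fin 971 3 970)
(mv 974 (cons (fin 975 2 971)
(mv 910 (cons (fin 846 5 845)
(mv 1165 (cons (fin 1102 5 909)
(fin 973 6 909))))))))))
(cons (mv 974 (cons (fin 975 2 971)
(mv 1034 (cons (fin 973 2 970)
(fin 1102 0 1034)))))
(mv 970 (cons (fin 971 3 970)
(mv 969 (cons (fin 1034 3 969)
(mv 974 (cons (fin 975 2 971)
(mv 910 (cons (fin 846 5 845)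
(mv 1165 (cons (fin 973 6 909)
(fin 1229 6 973)))))))))))))))))))))
(cons (mv 1039 (cons (fin 1100 1 1036)
(mv 976 (cons (fin 977 2 973)
(mv 1104 (cons (fin 1105 0 1037)
(mv 1168 (cons (mv 975 (cons (fin 911 7 911)
(fin 1232 7 975)))
(mv 1167 (cons (fin 1231 5 975)
(mv 1169 (cons (fin 1233 4 976)
(mv 1102 (cons (fin 1166 3 1101)
(fin 1103 0 1101)))))))))))))))
(mv 1039 (cons (fin 1100 1 1036)
(mv 976 (cons (fin 977 2 973)
(mv 1104 (cons (fin 1105 0 1037)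
(mv 1103 (cons (fin 1036 0 1036)
(mv 1167 (cons (fin 1231 6 975)
(mv 974 (cons (mv 910 (cons (fin 846 5 845)
(fin 1102 4 910)))
(cons (mv 1165 (cons (fin 1229 6 973)
(mv 1164 (cons (fin 1102 1 1100)
(fin 1166 2 1100)))))
(mv 910 (cons (fin 846 5 845)
(mv 1165 (cons (fin 973 6 909)
(fin 1229 6 973))))))))))))))))))))))))))
(cons (cons (cons (mv 1039 (cons (cons (mv 1038 (cons (fin 1100 1 1036)
(mv 972 (cons (fin 973 3 972)
(mv 976 (cons (fin 977 2 973)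
(mv 1036 (cons (fin 971 3 971)
(fin 975 2 972)))))))))
(cons (mv 1102 (cons (cons (mv 1103 (cons (fin 1100 2 1036)
(mv 1104 (cons (fin 1036 3 1036)
(mv 1164 (cons (fin 1165 1 1100)
(mv 1168 (cons (fin 1169 0 1101)
(mv 975 (cons (fin 1232 7 975)
(fin 911 4 911)))))))))))
(mv 973 (cons (cons (mv 909 (cons (fin 1166 4 909)
(mv 844 (cons (fin 908 7 844)
(mv 780 (cons (fin 845 7 780)
(mv 910 (cons (fin 846 6 845)
(mv 974 (cons (fin 1165 6 909)
(mv 972 (cons (fin 975 0 972)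
(mv 971 (cons (fin 970 2 906)
(fin 911 2 907)))))))))))))))
(cons (mv 1165 (cons (cons (mv 908 (cons (fin 972 7 908)
(mv 910 (cons (fin 974 6 909)
(mv 1164 (cons (fin 1228 5 972)
(mv 1163 (cons (fin 1162 2 1098)
(mv 1166 (cons (fin 1230 4 973)
(mv 1099 (cons (fin 1098 3 1098)
(mv 1100 (cons (fin 1167 3 1099)
(mv 1034 (cons (fin 1035 3 1034)
(mv 1227 (cons (fin 1226 1 1162)
(mv 1291 (cons (fin 1036 6 1035)
(fin 1355 6 1099)))))))))))))))))))))
(mv 972 (cons (fin 908 7 908)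
(mv 974 (cons (fin 975 0 972)
(fin 910 6 909))))))
(cons (mv 910 (cons (fin 974 6 909)
(mv 1164 (cons (fin 1228 5 972)
(mv 1163 (cons (fin 1162 2 1098)
(mv 1166 (cons (fin 1230 4 973)
(mv 1099 (cons (fin 1098 3 1098)
(mv 1100 (cons (fin 1167 3 1099)
(mv 1034 (cons (fin 1035 3 1034)
(mv 1227 (cons (fin 1226 1 1162)
(mv 1291 (cons (fin 1036 6 1035)
(fin 1355 6 1099)))))))))))))))))))
(mv 908 (cons (fin 972 7 908)
(mv 1164 (cons (fin 1228 5 972)
(mv 1163 (cons (fin 1162 2 1098)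
(mv 1166 (cons (fin 1230 4 973)
(mv 1099 (cons (fin 1098 3 1098)
(mv 1100 (cons (fin 1167 3 1099)
(mv 1034 (cons (fin 1035 3 1034)
(mv 1227 (cons (fin 1226 1 1162)
(mv 1291 (cons (fin 1036 6 1035)
(fin 1355 6 1099))))))))))))))))))))))
(mv 909 (cons (cons (mv 844 (cons (fin 908 7 844)
(mv 780 (cons (fin 845 7 780)
(mv 910 (cons (fin 846 6 845)
(mv 974 (cons (fin 1165 6 909)
(mv 972 (cons (fin 975 0 972)
(mv 971 (cons (fin 970 2 906)
(fin 911 2 907)))))))))))))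
(mv 846 (cons (fin 910 6 845)
(mv 845 (cons (fin 782 6 781)
(mv 1100 (cons (fin 1036 5 844)
(fin 1164 5 908))))))))
(cons (mv 844 (cons (fin 908 7 844)
(mv 845 (cons (fin 780 7 780)
(mv 1100 (cons (fin 1036 5 844)
(fin 1164 5 908)))))))
(mv 844 (cons (fin 908 7 844)
(mv 910 (cons (fin 846 6 845)
(mv 974 (cons (fin 1165 6 909)
(mv 972 (cons (fin 975 0 972)
(mv 971 (cons (fin 970 2 906)
(fin 911 2 907))))))))))))))))
(cons (mv 909 (cons (fin 1166 4 909)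
(mv 844 (cons (fin 908 7 844)
(mv 845 (cons (fin 780 7 780)
(mv 846 (cons (fin 782 6 781)
(fin 910 6 845)))))))))
(cons (mv 909 (cons (fin 1166 4 909)
(mv 846 (cons (fin 910 6 845)
(mv 845 (cons (fin 782 6 781)
(mv 1100 (cons (fin 1036 5 844)
(fin 1164 5 908)))))))))
(mv 909 (cons (fin 1166 4 909)
(mv 844 (cons (fin 908 7 844)
(mv 845 (cons (fin 780 7 780)
(mv 1100 (cons (fin 1036 5 844)
(fin 1164 5 908))))))))))))))
(cons (mv 1166 (cons (cons (mv 973 (cons (fin 909 4 909)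
(mv 1230 (cons (fin 1294 7 1037)
(fin 1165 4 973)))))
(mv 973 (cons (fin 909 4 909)
(mv 1165 (cons (cons (mv 908 (cons (fin 972 7 908)
(mv 910 (cons (fin 974 6 909)
(mv 1164 (cons (fin 1228 5 972)
(mv 1103 (cons (fin 1104 1 1100)
(fin 1163 2 1099)))))))))
(mv 972 (cons (fin 908 7 908)
(mv 974 (cons (fin 975 0 972)
(fin 910 6 909))))))
(cons (mv 908 (cons (fin 972 7 908)
(mv 1164 (cons (fin 1228 5 972)
(mv 1103 (cons (fin 1104 1 1100)
(fin 1163 2 1099)))))))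
(mv 910 (cons (fin 974 6 909)
(mv 1164 (cons (fin 1228 5 972)
(mv 1103 (cons (fin 1104 1 1100)
(fin 1163 2 1099)))))))))))))
(cons (mv 1230 (cons (fin 1294 7 1037)
(mv 1103 (cons (mv 975 (cons (fin 911 5 910)
(fin 1167 5 974)))
(mv 1104 (cons (fin 1036 3 1036)
(mv 1165 (cons (fin 1164 1 1100)
(fin 1105 1 1101)))))))))
(mv 909 (cons (fin 973 4 909)
(mv 1230 (cons (fin 1294 7 1037)
(mv 1103 (cons (mv 975 (cons (fin 911 5 910)
(fin 1167 5 974)))
(cons (mv 1104 (cons (fin 1036 3 1036)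
(mv 1168 (cons (fin 1169 0 1101)
(mv 1232 (cons (fin 1296 7 1039)
(mv 1231 (cons (fin 1295 5 1039)
(mv 1167 (cons (fin 976 5 975)
(mv 1233 (cons (fin 1234 3 1166)
(fin 1297 4 1040)))))))))))))
(mv 975 (cons (fin 911 5 910)
(mv 1104 (cons (fin 1036 3 1036)
(mv 1168 (cons (fin 1169 0 1101)
(fin 1232 7 975)))))))))))))))))
(cons (mv 1100 (cons (fin 1103 2 1036)
(mv 1166 (cons (cons (mv 909 (cons (fin 973 4 909)
(mv 1099 (cons (fin 1167 0 1099)
(mv 1034 (cons (fin 1035 3 1034)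
(mv 1098 (cons (fin 1033 3 1033)
(fin 1165 0 1098)))))))))
(mv 973 (cons (fin 909 4 909)
(mv 1230 (cons (fin 1294 7 1037)
(fin 1165 4 973))))))
(cons (mv 1099 (cons (fin 1167 0 1099)
(mv 1034 (cons (fin 1035 3 1034)
(mv 1098 (cons (fin 1033 3 1033)
(fin 1165 0 1098)))))))
(mv 909 (cons (fin 973 4 909)
(mv 1099 (cons (fin 1167 0 1099)
(mv 1034 (cons (fin 1035 3 1034)
(mv 1098 (cons (fin 1033 3 1033)
(mv 1162 (cons (fin 1161 1 1097)
(fin 1163 1 1098))))))))))))))))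
(mv 1103 (cons (fin 1100 2 1036)
(mv 1104 (cons (fin 1036 3 1036)
(mv 1168 (cons (fin 1169 0 1101)
(mv 975 (cons (fin 1232 7 975)
(fin 911 4 911)))))))))))))
(mv 1038 (cons (cons (mv 972 (cons (fin 973 3 972)
(mv 976 (cons (fin 977 2 973)
(mv 1036 (cons (fin 971 3 971)
(fin 975 2 972)))))))
(mv 976 (cons (fin 977 2 973)
(mv 975 (cons (fin 1036 2 972)
(mv 1104 (cons (fin 1105 0 1037)
(mv 911 (cons (fin 1168 7 911)
(fin 847 4 847))))))))))
(cons (mv 972 (cons (fin 973 3 972)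
(mv 1036 (cons (fin 971 3 971)
(mv 1104 (cons (fin 1103 0 1036)
(fin 1105 0 1037)))))))
(mv 972 (cons (fin 973 3 972)
(mv 976 (cons (fin 977 2 973)
(mv 1104 (cons (fin 1105 0 1037)
(mv 1168 (cons (mv 975 (cons (fin 911 7 911)
(fin 1232 7 975)))
(mv 1167 (cons (fin 1231 5 975)
(mv 1169 (cons (fin 1233 4 976)
(mv 1102 (cons (fin 1166 3 1101)
(fin 1103 0 1101))))))))))))))))))))
(cons (mv 1038 (cons (fin 1100 1 1036)
(mv 976 (cons (fin 977 2 973)
(mv 975 (cons (fin 1036 2 972)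
(mv 1104 (cons (fin 1105 0 1037)
(mv 911 (cons (fin 1168 7 911)
(fin 847 4 847)))))))))))
(cons (mv 1038 (cons (fin 1100 1 1036)
(mv 972 (cons (fin 973 3 972)
(mv 1036 (cons (fin 971 3 971)
(mv 1104 (cons (fin 1103 0 1036)
(fin 1105 0 1037)))))))))
(mv 1038 (cons (fin 1100 1 1036)
(mv 972 (cons (fin 973 3 972)
(mv 976 (cons (fin 977 2 973)
(mv 1104 (cons (fin 1105 0 1037)
(mv 1168 (cons (mv 975 (cons (fin 911 7 911)
(fin 1232 7 975)))
(mv 1167 (cons (fin 1231 5 975)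
(mv 1169 (cons (fin 1233 4 976)
(mv 1102 (cons (fin 1166 3 1101)
(fin 1103 0 1101)))))))))))))))))))))
(mv 1038 (cons (cons (mv 1039 (cons (fin 1100 1 1036)
(mv 972 (cons (fin 973 3 972)
(mv 976 (cons (fin 977 2 973)
(mv 1036 (cons (fin 971 3 971)
(fin 975 2 972)))))))))
(cons (mv 974 (cons (cons (mv 910 (cons (fin 846 5 845)
(mv 1165 (cons (fin 1102 5 909)
(fin 973 6 909)))))
(mv 910 (cons (fin 846 5 845)
(mv 1102 (cons (cons (mv 847 (cons (fin 911 6 846)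
(mv 1103 (cons (fin 1167 4 910)
(mv 1036 (cons (fin 1104 3 1036)
(fin 1035 0 1035)))))))
(mv 911 (cons (fin 847 6 846)
(mv 975 (cons (fin 1166 6 910)
(mv 976 (cons (fin 977 1 973)
(mv 1036 (cons (fin 973 1 972)
(fin 1035 2 971))))))))))
(cons (mv 1103 (cons (fin 1167 4 910)
(mv 1036 (cons (fin 1104 3 1036)
(fin 1035 0 1035)))))
(mv 847 (cons (fin 911 6 846)
(mv 1167 (cons (fin 1103 4 910)
(mv 1166 (cons (fin 1231 4 974)
(mv 1230 (cons (fin 973 7 973)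
(fin 1294 7 1037)))))))))))))))
(cons (mv 1165 (cons (fin 1229 6 973)
(mv 973 (cons (cons (mv 972 (cons (fin 908 7 908)
(mv 971 (cons (fin 970 0 970)
(mv 906 (cons (fin 907 3 906)
(mv 1035 (cons (fin 1034 1 970)
(mv 975 (cons (fin 1036 1 971)
(mv 976 (cons (fin 977 1 973)
(mv 1164 (cons (fin 1228 5 972)
(mv 1166 (cons (fin 1230 4 973)
(mv 911 (cons (fin 1102 6 910)
(mv 783 (cons (fin 847 5 782)
(mv 1168 (cons (fin 1104 7 911)
(mv 1167 (cons (fin 1100 3 1100)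
(mv 1232 (cons (fin 1231 0 1164)
(fin 1233 0 1165)))))))))))))))))))))))))))
(cons (mv 1164 (cons (fin 1228 5 972)
(mv 1166 (cons (fin 1230 4 973)
(mv 1102 (cons (mv 1103 (cons (fin 1104 1 1100)
(fin 1163 2 1099)))
(cons (mv 911 (cons (fin 975 6 910)
(mv 1162 (cons (fin 1163 2 1098)
(mv 1167 (cons (fin 1231 4 974)
(mv 1100 (cons (fin 1099 3 1099)
(fin 1168 3 1100)))))))))
(mv 911 (cons (fin 975 6 910)
(mv 1103 (cons (fin 1104 1 1100)
(mv 1035 (cons (fin 1036 0 1035)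
(mv 1167 (cons (fin 1231 4 974)
(mv 1100 (cons (fin 1099 3 1099)
(fin 1168 3 1100))))))))))))))))))
(mv 972 (cons (fin 908 7 908)
(mv 971 (cons (fin 970 0 970)
(mv 906 (cons (fin 907 3 906)
(mv 1035 (cons (fin 1034 1 970)
(mv 1036 (cons (fin 975 1 971)
(mv 1099 (cons (fin 1098 1 1034)
(mv 1102 (cons (fin 1103 0 1035)
(mv 1163 (cons (fin 1227 6 971)
(mv 1162 (cons (fin 1100 1 1098)
(fin 1164 2 1098)))))))))))))))))))))
(cons (cons (mv 972 (cons (fin 908 7 908)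
(mv 971 (cons (fin 970 0 970)
(mv 906 (cons (fin 907 3 906)
(mv 1035 (cons (fin 1034 1 970)
(mv 975 (cons (fin 1036 1 971)
(mv 976 (cons (fin 977 1 973)
(mv 1166 (cons (fin 1230 4 973)
(mv 1102 (cons (fin 911 6 910)
(mv 1167 (cons (fin 1231 4 974)
(mv 1100 (cons (fin 1168 3 1100)
(fin 1099 0 1099)))))))))))))))))))))
(mv 972 (cons (fin 908 7 908)
(mv 971 (cons (fin 970 0 970)
(mv 907 (cons (fin 906 3 906)
(mv 1035 (cons (fin 1034 1 970)
(mv 1164 (cons (fin 1228 5 972)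
(mv 1099 (cons (fin 1100 4 907)
(mv 1098 (cons (fin 1162 5 906)
(mv 1166 (cons (fin 1163 3 1098)
(fin 1230 4 973))))))))))))))))))
(cons (mv 972 (cons (fin 908 7 908)
(mv 971 (cons (fin 970 0 970)
(mv 907 (cons (fin 906 3 906)
(mv 1164 (cons (fin 1228 5 972)
(mv 1036 (cons (fin 1100 7 907)
(mv 779 (cons (fin 843 4 779)
(mv 975 (cons (fin 976 1 972)
(mv 1166 (cons (fin 1230 4 973)
(mv 1102 (cons (fin 911 6 910)
(mv 1103 (cons (fin 1104 3 1036)
(fin 1163 2 1099)))))))))))))))))))))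
(mv 972 (cons (fin 908 7 908)
(mv 971 (cons (fin 970 0 970)
(mv 906 (cons (fin 907 3 906)
(mv 1035 (cons (fin 1034 1 970)
(mv 975 (cons (fin 1036 1 971)
(mv 976 (cons (fin 977 1 973)
(mv 1164 (cons (fin 1228 5 972)
(mv 1166 (cons (fin 1230 4 973)
(mv 1102 (cons (fin 911 6 910)
(mv 1103 (cons (fin 1104 1 1100)
(fin 1163 2 1099)))))))))))))))))))))))))))
(cons (mv 910 (cons (fin 846 5 845)
(mv 1165 (cons (fin 973 6 909)
(fin 1229 6 973)))))
(mv 910 (cons (fin 846 5 845)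
(mv 1165 (cons (fin 1102 5 909)
(fin 1229 6 973)))))))))
(mv 1039 (cons (cons (mv 972 (cons (fin 973 3 972)
(mv 976 (cons (fin 977 2 973)
(mv 1036 (cons (fin 971 3 971)
(fin 975 2 972)))))))
(mv 976 (cons (fin 977 2 973)
(mv 975 (cons (fin 1036 2 972)
(mv 1104 (cons (fin 1105 0 1037)
(mv 911 (cons (fin 1168 7 911)
(fin 847 4 847))))))))))
(cons (mv 972 (cons (fin 973 3 972)
(mv 1036 (cons (fin 971 3 971)
(mv 1104 (cons (fin 1103 0 1036)
(fin 1105 0 1037)))))))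
(mv 972 (cons (fin 973 3 972)
(mv 976 (cons (fin 977 2 973)
(mv 1104 (cons (fin 1105 0 1037)
(mv 1168 (cons (mv 975 (cons (fin 911 7 911)
(fin 1232 7 975)))
(mv 1167 (cons (fin 1231 5 975)
(mv 1169 (cons (fin 1233 4 976)
(mv 1102 (cons (fin 1166 3 1101)
(fin 1103 0 1101))))))))))))))))))))
(cons (mv 1039 (cons (fin 1100 1 1036)
(mv 976 (cons (fin 977 2 973)
(mv 975 (cons (fin 1036 2 972)
(mv 1104 (cons (fin 1105 0 1037)
(mv 911 (cons (fin 1168 7 911)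
(fin 847 4 847)))))))))))
(cons (mv 1039 (cons (fin 1100 1 1036)
(mv 972 (cons (fin 973 3 972)
(mv 1036 (cons (fin 971 3 971)
(mv 1104 (cons (fin 1103 0 1036)
(fin 1105 0 1037)))))))))
(mv 1039 (cons (fin 1100 1 1036)
(mv 972 (cons (fin 973 3 972)
(mv 976 (cons (fin 977 2 973)
(mv 1104 (cons (fin 1105 0 1037)
(mv 1168 (cons (mv 975 (cons (fin 911 7 911)
(fin 1232 7 975)))
(mv 1167 (cons (fin 1231 5 975)
(mv 1169 (cons (fin 1233 4 976)
(mv 1102 (cons (fin 1166 3 1101)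
(fin 1103 0 1101))))))))))))))))))))))
(cons (mv 1100 (cons (cons (cons (mv 1038 (cons (fin 1039 1 1036)
(mv 1099 (cons (fin 1098 2 1034)
(mv 1102 (cons (cons (mv 1034 (cons (fin 1035 3 1034)
(mv 1162 (cons (fin 1163 1 1098)
(mv 1166 (cons (fin 1167 0 1099)
(mv 973 (cons (fin 1230 7 973)
(fin 909 4 909)))))))))
(mv 1034 (cons (fin 1035 3 1034)
(mv 1163 (cons (fin 1162 1 1098)
(mv 1103 (cons (fin 1164 1 1099)
(mv 1104 (cons (fin 1036 3 1036)
(fin 1105 3 1037))))))))))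
(cons (mv 1162 (cons (fin 1163 1 1098)
(mv 1166 (cons (fin 1167 0 1099)
(mv 973 (cons (fin 1230 7 973)
(fin 909 4 909)))))))
(mv 1034 (cons (fin 1035 3 1034)
(mv 1166 (cons (fin 1167 0 1099)
(mv 973 (cons (fin 1230 7 973)
(fin 909 4 909))))))))))))))
(mv 1164 (cons (cons (mv 973 (cons (fin 909 5 908)
(mv 1228 (cons (fin 1165 5 972)
(fin 1036 6 972)))))
(mv 909 (cons (fin 973 5 908)
(mv 1102 (cons (mv 1103 (cons (fin 1163 1 1099)
(fin 1039 2 1036)))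
(cons (mv 1099 (cons (cons (mv 1034 (cons (fin 1035 3 1034)
(mv 1033 (cons (fin 1098 3 1033)
(mv 1163 (cons (fin 1162 1 1098)
(mv 1166 (cons (fin 1167 0 1099)
(mv 1230 (cons (fin 1294 7 1037)
(mv 1165 (cons (fin 1231 0 1163)
(mv 1227 (cons (fin 1226 1 1162)
(mv 1036 (cons (fin 972 5 971)
(fin 1291 6 1035)))))))))))))))))
(mv 1034 (cons (fin 1035 3 1034)
(mv 1098 (cons (fin 1033 3 1033)
(mv 1097 (cons (fin 1036 2 1033)
(fin 1165 0 1097))))))))
(cons (mv 1162 (cons (fin 1163 1 1098)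
(mv 1098 (cons (fin 1161 1 1097)
(mv 1097 (cons (fin 1036 2 1033)
(fin 1165 0 1097)))))))
(cons (mv 1034 (cons (fin 1035 3 1034)
(mv 1163 (cons (fin 1162 1 1098)
(mv 1166 (cons (fin 1167 0 1099)
(mv 1230 (cons (fin 1294 7 1037)
(mv 1165 (cons (fin 1231 0 1163)
(mv 1227 (cons (fin 1226 1 1162)
(mv 1036 (cons (fin 972 5 971)
(fin 1291 6 1035)))))))))))))))
(mv 1034 (cons (fin 1035 3 1034)
(mv 1098 (cons (fin 1033 3 1033)
(mv 1162 (cons (fin 1161 1 1097)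
(fin 1163 1 1098)))))))))))
(mv 1103 (cons (fin 1039 2 1036)
(mv 1036 (cons (fin 1035 3 1035)
(fin 1104 3 1036)))))))))))
(cons (mv 1228 (cons (fin 1292 6 1036)
(mv 1036 (cons (mv 971 (cons (fin 1035 7 971)
(mv 972 (cons (fin 907 7 907)
(mv 908 (cons (fin 844 4 844)
(fin 1165 4 908)))))))
(cons (mv 1227 (cons (fin 1291 5 1035)
(mv 972 (cons (fin 1163 5 971)
(mv 908 (cons (fin 844 4 844)
(fin 1165 4 908)))))))
(mv 1035 (cons (fin 971 7 971)
(mv 1034 (cons (fin 1033 0 1033)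
(fin 1102 0 1034))))))))))
(cons (mv 973 (cons (fin 909 5 908)
(mv 1228 (cons (fin 1165 5 972)
(fin 1292 6 1036)))))
(mv 973 (cons (fin 909 5 908)
(mv 1228 (cons (fin 1036 6 972)
(fin 1292 6 1036))))))))))
(cons (mv 1164 (cons (cons (mv 973 (cons (fin 909 5 908)
(mv 1228 (cons (fin 1165 5 972)
(fin 1036 6 972)))))
(mv 909 (cons (fin 973 5 908)
(mv 1163 (cons (cons (mv 1102 (cons (fin 1103 1 1099)
(mv 1162 (cons (fin 1099 1 1098)
(fin 1161 2 1097)))))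
(mv 1162 (cons (fin 1161 2 1097)
(mv 1165 (cons (cons (mv 1097 (cons (fin 1098 3 1097)
(mv 1225 (cons (fin 1226 1 1161)
(mv 1229 (cons (fin 1230 0 1162)
(mv 1036 (cons (fin 972 7 972)
(fin 1293 7 1036)))))))))
(mv 1097 (cons (fin 1098 3 1097)
(mv 1226 (cons (fin 1225 1 1161)
(mv 1166 (cons (fin 1227 1 1162)
(mv 1167 (cons (fin 1099 3 1099)
(fin 1168 3 1100))))))))))
(cons (mv 1225 (cons (fin 1226 1 1161)
(mv 1229 (cons (fin 1230 0 1162)
(mv 1036 (cons (fin 972 7 972)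
(fin 1293 7 1036)))))))
(mv 1097 (cons (fin 1098 3 1097)
(mv 1229 (cons (fin 1230 0 1162)
(mv 1036 (cons (fin 972 7 972)
(fin 1293 7 1036)))))))))))))
(cons (mv 1102 (cons (fin 1103 1 1099)
(mv 1099 (cons (mv 1034 (cons (fin 1035 3 1034)
(mv 1098 (cons (fin 1033 3 1033)
(fin 1038 2 1034)))))
(cons (mv 1034 (cons (fin 1035 3 1034)
(mv 1166 (cons (fin 1167 0 1099)
(mv 1230 (cons (fin 1294 7 1037)
(mv 1165 (cons (fin 1231 0 1163)
(mv 1227 (cons (fin 1226 1 1162)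
(mv 1036 (cons (fin 972 5 971)
(fin 1291 6 1035)))))))))))))
(mv 1038 (cons (fin 1098 2 1034)
(mv 1166 (cons (fin 1167 0 1099)
(mv 1230 (cons (fin 1294 7 1037)
(mv 1231 (cons (fin 1165 0 1163)
(fin 1295 4 1038))))))))))))))
(mv 1102 (cons (fin 1103 1 1099)
(mv 1162 (cons (fin 1161 2 1097)
(fin 1165 2 1098)))))))))))
(cons (mv 1228 (cons (fin 1292 6 1036)
(mv 1036 (cons (mv 971 (cons (fin 1035 7 971)
(mv 972 (cons (fin 907 7 907)
(mv 908 (cons (fin 844 4 844)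
(fin 1165 4 908)))))))
(cons (mv 1227 (cons (fin 1291 5 1035)
(mv 972 (cons (fin 1163 5 971)
(mv 908 (cons (fin 844 4 844)
(fin 1165 4 908)))))))
(mv 1035 (cons (fin 971 7 971)
(mv 1034 (cons (fin 1033 0 1033)
(fin 1102 0 1034))))))))))
(cons (mv 973 (cons (fin 909 5 908)
(mv 1228 (cons (fin 1165 5 972)
(fin 1292 6 1036)))))
(mv 973 (cons (fin 909 5 908)
(mv 1228 (cons (fin 1036 6 972)
(fin 1292 6 1036)))))))))
(cons (mv 1038 (cons (fin 1039 1 1036)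
(mv 1099 (cons (fin 1098 2 1034)
(mv 1102 (cons (cons (mv 1034 (cons (fin 1035 3 1034)
(mv 1162 (cons (fin 1163 1 1098)
(mv 1166 (cons (fin 1167 0 1099)
(mv 973 (cons (fin 1230 7 973)
(fin 909 4 909)))))))))
(mv 1035 (cons (fin 1034 3 1034)
(mv 1036 (cons (fin 1103 3 1035)
(mv 970 (cons (fin 971 3 970)
(mv 1163 (cons (fin 1162 1 1098)
(mv 972 (cons (fin 908 5 907)
(fin 1227 6 971))))))))))))
(cons (mv 1162 (cons (fin 1163 1 1098)
(mv 1166 (cons (fin 1167 0 1099)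
(mv 973 (cons (fin 1230 7 973)
(fin 909 4 909)))))))
(mv 1034 (cons (fin 1035 3 1034)
(mv 1166 (cons (fin 1167 0 1099)
(mv 973 (cons (fin 1230 7 973)
(fin 909 4 909))))))))))))))
(mv 1038 (cons (fin 1039 1 1036)
(mv 1098 (cons (fin 1099 2 1034)
(mv 973 (cons (cons (mv 909 (cons (fin 1164 5 908)
(mv 844 (cons (fin 908 7 844)
(mv 845 (cons (fin 780 7 780)
(fin 1036 5 844)))))))
(mv 1165 (cons (cons (cons (mv 908 (cons (fin 972 7 908)
(mv 1164 (cons (fin 1228 5 972)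
(mv 1230 (cons (fin 1166 4 973)
(mv 1229 (cons (fin 1294 4 1037)
(mv 1293 (cons (fin 1036 7 1036)
(fin 1357 7 1100)))))))))))
(mv 1164 (cons (fin 1228 5 972)
(mv 1230 (cons (fin 1166 4 973)
(mv 1229 (cons (fin 1294 4 1037)
(mv 1293 (cons (fin 1036 7 1036)
(fin 1357 7 1100))))))))))
(cons (mv 908 (cons (fin 972 7 908)
(mv 1230 (cons (fin 1166 4 973)
(mv 1229 (cons (fin 1294 4 1037)
(mv 1293 (cons (fin 1036 7 1036)
(mv 1356 (cons (fin 1292 5 1100)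
(mv 1357 (cons (fin 1164 7 1100)
(fin 1420 5 1164)))))))))))))
(mv 908 (cons (fin 972 7 908)
(mv 1230 (cons (fin 1166 4 973)
(mv 1229 (cons (fin 1294 4 1037)
(mv 1292 (cons (fin 1228 5 1036)
(mv 1293 (cons (fin 1036 7 1036)
(fin 1356 5 1100)))))))))))))
(cons (cons (mv 908 (cons (fin 972 7 908)
(mv 1228 (cons (fin 1164 5 972)
(mv 1229 (cons (fin 1292 5 1036)
(mv 1293 (cons (fin 1036 7 1036)
(mv 1294 (cons (fin 1230 4 1037)
(fin 1358 4 1101)))))))))))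
(mv 972 (cons (fin 908 7 908)
(mv 970 (cons (fin 971 0 970)
(mv 1036 (cons (fin 1229 7 972)
(mv 1164 (cons (fin 1228 5 972)
(mv 1163 (cons (fin 1227 5 971)
(mv 1162 (cons (fin 1097 3 1097)
(fin 1161 2 1097))))))))))))))
(cons (mv 908 (cons (fin 972 7 908)
(mv 1228 (cons (fin 1164 5 972)
(mv 1229 (cons (fin 1292 5 1036)
(mv 1230 (cons (fin 1166 4 973)
(fin 1294 4 1037)))))))))
(mv 972 (cons (fin 908 7 908)
(mv 971 (cons (fin 970 0 970)
(mv 1164 (cons (fin 1228 5 972)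
(mv 1036 (cons (fin 907 7 907)
(mv 1163 (cons (fin 1227 5 971)
(mv 1162 (cons (fin 1097 3 1097)
(fin 1161 2 1097))))))))))))))))))
(cons (mv 909 (cons (cons (mv 844 (cons (fin 908 7 844)
(mv 845 (cons (fin 780 7 780)
(fin 1036 5 844)))))
(mv 846 (cons (fin 910 6 845)
(mv 908 (cons (fin 844 7 844)
(mv 1165 (cons (fin 972 7 908)
(mv 1230 (cons (fin 1166 4 973)
(mv 1229 (cons (fin 1294 4 1037)
(mv 1292 (cons (fin 1228 5 1036)
(mv 1293 (cons (fin 1036 7 1036)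
(fin 1356 5 1100))))))))))))))))
(cons (mv 845 (cons (fin 1036 5 844)
(mv 846 (cons (fin 782 6 781)
(fin 910 6 845)))))
(mv 844 (cons (fin 908 7 844)
(mv 845 (cons (fin 780 7 780)
(mv 846 (cons (fin 782 6 781)
(fin 910 6 845))))))))))
(cons (mv 909 (cons (fin 1164 5 908)
(mv 844 (cons (fin 908 7 844)
(mv 845 (cons (fin 780 7 780)
(mv 846 (cons (fin 782 6 781)
(fin 910 6 845)))))))))
(mv 909 (cons (fin 1164 5 908)
(mv 845 (cons (fin 1036 5 844)
(mv 846 (cons (fin 782 6 781)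
(fin 910 6 845))))))))))))))))))
(cons (cons (mv 1038 (cons (fin 1039 1 1036)
(mv 1164 (cons (cons (mv 973 (cons (fin 909 5 908)
(mv 1228 (cons (fin 1165 5 972)
(fin 1036 6 972)))))
(mv 1228 (cons (fin 1292 6 1036)
(mv 1036 (cons (mv 971 (cons (fin 1035 7 971)
(mv 972 (cons (fin 907 7 907)
(mv 908 (cons (fin 844 4 844)
(fin 1165 4 908)))))))
(cons (mv 1227 (cons (fin 1291 5 1035)
(mv 972 (cons (fin 1163 5 971)
(mv 908 (cons (fin 844 4 844)
(fin 1165 4 908)))))))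
(mv 1035 (cons (fin 971 7 971)
(mv 1034 (cons (fin 1033 0 1033)
(fin 1102 0 1034)))))))))))
(cons (mv 973 (cons (fin 909 5 908)
(mv 1165 (cons (cons (mv 908 (cons (fin 972 7 908)
(mv 1166 (cons (fin 1230 4 973)
(mv 1167 (cons (fin 1168 3 1100)
(mv 1103 (cons (fin 1104 2 1100)
(mv 1102 (cons (fin 1163 1 1099)
(mv 1231 (cons (fin 1232 0 1164)
(fin 1295 7 1038)))))))))))))
(mv 1166 (cons (fin 1230 4 973)
(mv 1167 (cons (fin 1168 3 1100)
(mv 1103 (cons (fin 1104 2 1100)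
(mv 1102 (cons (fin 1163 1 1099)
(mv 1231 (cons (fin 1232 0 1164)
(fin 1295 7 1038))))))))))))
(cons (mv 972 (cons (fin 908 7 908)
(mv 970 (cons (fin 971 0 970)
(mv 1036 (cons (fin 1229 7 972)
(mv 1163 (cons (fin 1227 5 971)
(mv 1102 (cons (fin 1103 1 1099)
(fin 1162 2 1098)))))))))))
(mv 908 (cons (fin 972 7 908)
(mv 1230 (cons (fin 1166 4 973)
(mv 1229 (cons (fin 1294 4 1037)
(mv 1293 (cons (fin 1036 7 1036)
(fin 1357 7 1100))))))))))))))
(cons (mv 973 (cons (fin 909 5 908)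
(mv 1228 (cons (fin 1165 5 972)
(fin 1292 6 1036)))))
(mv 973 (cons (fin 909 5 908)
(mv 1228 (cons (fin 1036 6 972)
(fin 1292 6 1036)))))))))))
(cons (mv 1038 (cons (fin 1039 1 1036)
(mv 1099 (cons (fin 1098 2 1034)
(mv 1102 (cons (cons (mv 1034 (cons (fin 1035 3 1034)
(mv 1162 (cons (fin 1163 1 1098)
(mv 1167 (cons (fin 1166 0 1099)
(mv 1103 (cons (fin 1168 0 1100)
(mv 1104 (cons (fin 1036 3 1036)
(fin 1105 3 1037)))))))))))
(mv 1162 (cons (fin 1163 1 1098)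
(mv 1167 (cons (fin 1166 0 1099)
(mv 1103 (cons (fin 1168 0 1100)
(mv 1104 (cons (fin 1036 3 1036)
(fin 1105 3 1037))))))))))
(cons (mv 1034 (cons (fin 1035 3 1034)
(mv 1167 (cons (fin 1166 0 1099)
(mv 1103 (cons (fin 1168 0 1100)
(mv 1104 (cons (fin 1036 3 1036)
(fin 1105 3 1037)))))))))
(cons (mv 1034 (cons (fin 1035 3 1034)
(mv 1163 (cons (fin 1162 1 1098)
(mv 1103 (cons (fin 1164 1 1099)
(mv 1104 (cons (fin 1036 3 1036)
(fin 1105 3 1037)))))))))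
(mv 1034 (cons (fin 1035 3 1034)
(mv 1163 (cons (fin 1162 1 1098)
(mv 1166 (cons (fin 1167 0 1099)
(mv 1230 (cons (fin 1294 7 1037)
(mv 1229 (cons (fin 1293 5 1037)
(mv 1231 (cons (fin 1295 4 1038)
(mv 1164 (cons (fin 1228 3 1163)
(fin 1165 0 1163)))))))))))))))))))))))
(mv 1038 (cons (fin 1039 1 1036)
(mv 1099 (cons (fin 1098 2 1034)
(mv 1102 (cons (cons (mv 1034 (cons (fin 1035 3 1034)
(mv 1162 (cons (fin 1163 1 1098)
(mv 1166 (cons (fin 1167 0 1099)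
(mv 973 (cons (fin 1230 7 973)
(fin 909 4 909)))))))))
(mv 1034 (cons (fin 1035 3 1034)
(mv 1163 (cons (fin 1162 1 1098)
(mv 1103 (cons (fin 1164 1 1099)
(mv 1104 (cons (fin 1105 3 1037)
(mv 1168 (cons (fin 1167 0 1100)
(fin 1169 0 1101))))))))))))
(cons (mv 1034 (cons (fin 1035 3 1034)
(mv 1163 (cons (fin 1162 1 1098)
(mv 1164 (cons (fin 1103 1 1099)
(mv 973 (cons (fin 909 5 908)
(mv 1228 (cons (fin 1165 5 972)
(fin 1292 6 1036)))))))))))
(cons (mv 1034 (cons (fin 1035 3 1034)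
(mv 1166 (cons (fin 1167 0 1099)
(mv 973 (cons (fin 1230 7 973)
(fin 909 4 909)))))))
(mv 1162 (cons (fin 1163 1 1098)
(mv 1166 (cons (fin 1167 0 1099)
(mv 973 (cons (fin 1230 7 973)
(fin 909 4 909)))))))))))))))))
(cons (mv 1038 (cons (fin 1039 1 1036)
(mv 1098 (cons (fin 1099 2 1034)
(mv 973 (cons (cons (mv 909 (cons (fin 1164 5 908)
(mv 845 (cons (fin 1036 5 844)
(fin 1102 4 845)))))
(mv 1165 (cons (cons (mv 908 (cons (fin 972 7 908)
(mv 1228 (cons (fin 1164 5 972)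
(mv 1229 (cons (fin 1292 5 1036)
(mv 1293 (cons (fin 1036 7 1036)
(fin 1102 6 1037)))))))))
(cons (mv 1228 (cons (fin 1164 5 972)
(mv 1229 (cons (fin 1292 5 1036)
(mv 1293 (cons (fin 1036 7 1036)
(fin 1102 6 1037)))))))
(mv 972 (cons (fin 908 7 908)
(mv 970 (cons (fin 971 0 970)
(mv 1229 (cons (fin 1036 7 972)
(mv 1230 (cons (fin 1294 4 1037)
(mv 1293 (cons (fin 1102 6 1037)
(mv 1356 (cons (fin 1292 5 1100)
(mv 1357 (cons (fin 1164 7 1100)
(fin 1420 5 1164)))))))))))))))))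
(cons (cons (mv 972 (cons (fin 908 7 908)
(mv 970 (cons (fin 971 0 970)
(mv 1229 (cons (fin 1036 7 972)
(mv 1228 (cons (fin 1292 5 1036)
(mv 1293 (cons (fin 1102 6 1037)
(mv 1294 (cons (fin 1230 4 1037)
(fin 1358 4 1101)))))))))))))
(mv 972 (cons (fin 908 7 908)
(mv 971 (cons (fin 970 0 970)
(mv 1164 (cons (fin 1228 5 972)
(mv 1036 (cons (fin 907 7 907)
(mv 1163 (cons (fin 1227 5 971)
(mv 1102 (cons (fin 1103 1 1099)
(fin 1162 2 1098))))))))))))))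
(cons (mv 908 (cons (fin 972 7 908)
(mv 1228 (cons (fin 1164 5 972)
(mv 1229 (cons (fin 1292 5 1036)
(mv 1293 (cons (fin 1102 6 1037)
(mv 1294 (cons (fin 1230 4 1037)
(fin 1358 4 1101)))))))))))
(mv 908 (cons (fin 972 7 908)
(mv 1228 (cons (fin 1164 5 972)
(mv 1229 (cons (fin 1292 5 1036)
(mv 1293 (cons (fin 1036 7 1036)
(mv 1294 (cons (fin 1230 4 1037)
(fin 1358 4 1101))))))))))))))))
(cons (mv 909 (cons (mv 845 (cons (fin 1036 5 844)
(fin 1102 4 845)))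
(mv 908 (cons (fin 844 7 844)
(mv 910 (cons (fin 846 6 845)
(mv 972 (cons (fin 1165 7 908)
(mv 971 (cons (fin 911 1 907)
(fin 970 2 906)))))))))))
(cons (mv 909 (cons (fin 1164 5 908)
(mv 844 (cons (fin 908 7 844)
(mv 845 (cons (fin 780 7 780)
(fin 1102 4 845)))))))
(mv 909 (cons (fin 1164 5 908)
(mv 844 (cons (fin 908 7 844)
(mv 845 (cons (fin 780 7 780)
(fin 1036 5 844)))))))))))))))
(cons (mv 1038 (cons (fin 1039 1 1036)
(mv 1098 (cons (fin 1099 2 1034)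
(mv 1164 (cons (cons (mv 973 (cons (fin 909 5 908)
(mv 1228 (cons (fin 1165 5 972)
(fin 1036 6 972)))))
(mv 1228 (cons (fin 1292 6 1036)
(mv 1036 (cons (cons (mv 971 (cons (fin 1035 7 971)
(mv 972 (cons (fin 907 7 907)
(mv 908 (cons (fin 844 4 844)
(fin 1165 4 908)))))))
(mv 1227 (cons (fin 1291 5 1035)
(mv 1229 (cons (fin 1293 4 1036)
(mv 972 (cons (fin 1165 7 972)
(mv 907 (cons (fin 971 7 907)
(mv 908 (cons (fin 843 7 843)
(fin 844 4 844))))))))))))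
(cons (mv 1227 (cons (fin 1291 5 1035)
(mv 1229 (cons (fin 1293 4 1036)
(mv 1165 (cons (fin 972 7 972)
(mv 1166 (cons (fin 1167 1 1163)
(fin 1226 2 1162)))))))))
(mv 1035 (cons (fin 971 7 971)
(mv 1034 (cons (fin 1097 1 1033)
(fin 1033 0 1033)))))))))))
(cons (mv 973 (cons (fin 909 5 908)
(mv 1165 (cons (cons (mv 908 (cons (fin 972 7 908)
(mv 1166 (cons (fin 1230 4 973)
(mv 1167 (cons (fin 1168 3 1100)
(mv 1103 (cons (fin 1104 2 1100)
(mv 1231 (cons (fin 1232 0 1164)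
(mv 1295 (cons (fin 1102 7 1038)
(mv 1294 (cons (fin 1358 5 1102)
(mv 1360 (cons (fin 1296 4 1103)
(mv 1359 (cons (fin 1424 4 1167)
(mv 1293 (cons (fin 1292 0 1292)
(mv 1229 (cons (fin 1036 7 1036)
(fin 1357 7 1100)))))))))))))))))))))))
(mv 1166 (cons (fin 1230 4 973)
(mv 1167 (cons (fin 1168 3 1100)
(mv 1103 (cons (fin 1104 2 1100)
(mv 1231 (cons (fin 1232 0 1164)
(mv 1295 (cons (fin 1102 7 1038)
(mv 1294 (cons (fin 1358 5 1102)
(mv 1360 (cons (fin 1296 4 1103)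
(mv 1359 (cons (fin 1424 4 1167)
(mv 1293 (cons (fin 1292 0 1292)
(mv 1229 (cons (fin 1036 7 1036)
(fin 1357 7 1100))))))))))))))))))))))
(cons (mv 972 (cons (fin 908 7 908)
(mv 970 (cons (fin 971 0 970)
(mv 1229 (cons (fin 1036 7 972)
(mv 1293 (cons (fin 1357 7 1100)
(fin 1102 6 1037)))))))))
(cons (mv 908 (cons (fin 972 7 908)
(mv 1166 (cons (fin 1230 4 973)
(mv 1167 (cons (fin 1168 3 1100)
(mv 1103 (cons (fin 1104 2 1100)
(mv 1231 (cons (fin 1232 0 1164)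
(mv 1295 (cons (fin 1102 7 1038)
(mv 1358 (cons (fin 1294 5 1102)
(mv 1359 (cons (fin 1422 5 1166)
(mv 1360 (cons (fin 1296 4 1103)
(fin 1424 4 1167)))))))))))))))))))
(mv 908 (cons (fin 972 7 908)
(mv 1230 (cons (fin 1166 4 973)
(mv 1229 (cons (fin 1294 4 1037)
(mv 1293 (cons (fin 1036 7 1036)
(fin 1357 7 1100)))))))))))))))
(cons (mv 973 (cons (fin 909 5 908)
(mv 1228 (cons (fin 1165 5 972)
(fin 1292 6 1036)))))
(mv 973 (cons (fin 909 5 908)
(mv 1228 (cons (fin 1036 6 972)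
(fin 1292 6 1036)))))))))))))
(mv 1038 (cons (fin 1039 1 1036)
(mv 1099 (cons (fin 1098 2 1034)
(mv 1102 (cons (cons (mv 1034 (cons (fin 1035 3 1034)
(mv 1162 (cons (fin 1163 1 1098)
(mv 1167 (cons (fin 1166 0 1099)
(mv 1103 (cons (fin 1168 0 1100)
(mv 1104 (cons (fin 1036 3 1036)
(fin 1105 3 1037)))))))))))
(cons (mv 1162 (cons (fin 1163 1 1098)
(mv 1167 (cons (fin 1166 0 1099)
(mv 1103 (cons (fin 1168 0 1100)
(mv 1104 (cons (fin 1036 3 1036)
(fin 1105 3 1037)))))))))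
(mv 1034 (cons (fin 1035 3 1034)
(mv 1167 (cons (fin 1166 0 1099)
(mv 1103 (cons (fin 1168 0 1100)
(mv 1104 (cons (fin 1036 3 1036)
(fin 1105 3 1037)))))))))))
(cons (mv 1034 (cons (fin 1035 3 1034)
(mv 1163 (cons (fin 1162 1 1098)
(mv 1103 (cons (fin 1164 1 1099)
(mv 1104 (cons (fin 1036 3 1036)
(fin 1105 3 1037)))))))))
(cons (mv 1034 (cons (fin 1035 3 1034)
(mv 1163 (cons (fin 1162 1 1098)
(mv 1166 (cons (fin 1167 0 1099)
(mv 973 (cons (fin 909 4 909)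
(mv 1165 (cons (cons (mv 908 (cons (fin 972 7 908)
(mv 1164 (cons (fin 1228 5 972)
(mv 1227 (cons (fin 1226 1 1162)
(mv 1291 (cons (fin 1036 6 1035)
(fin 1355 6 1099)))))))))
(mv 1164 (cons (fin 1228 5 972)
(mv 1227 (cons (fin 1226 1 1162)
(mv 1291 (cons (fin 1036 6 1035)
(fin 1355 6 1099))))))))
(cons (mv 972 (cons (fin 908 7 908)
(mv 1229 (cons (fin 1036 7 972)
(fin 1293 6 1037)))))
(mv 908 (cons (fin 972 7 908)
(mv 1228 (cons (fin 1164 5 972)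
(mv 1229 (cons (fin 1292 5 1036)
(fin 1293 6 1037))))))))))))))))))
(mv 1034 (cons (fin 1035 3 1034)
(mv 1163 (cons (fin 1162 1 1098)
(mv 1103 (cons (fin 1164 1 1099)
(mv 1167 (cons (fin 1166 0 1099)
(fin 1168 0 1100))))))))))))))))))))))
(cons (mv 1038 (cons (cons (mv 1039 (cons (fin 1100 1 1036)
(mv 972 (cons (fin 973 3 972)
(mv 976 (cons (fin 977 2 973)
(mv 1036 (cons (fin 971 3 971)
(fin 975 2 972)))))))))
(cons (mv 974 (cons (cons (mv 910 (cons (fin 846 5 845)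
(mv 1165 (cons (fin 1102 5 909)
(fin 973 6 909)))))
(cons (mv 1165 (cons (fin 1229 6 973)
(mv 973 (cons (cons (mv 908 (cons (fin 972 7 908)
(mv 909 (cons (fin 844 7 844)
(mv 845 (cons (fin 781 4 781)
(fin 1102 4 845)))))))
(mv 1166 (cons (fin 1230 4 973)
(mv 909 (cons (fin 1102 7 909)
(mv 844 (cons (fin 908 7 844)
(mv 845 (cons (fin 780 7 780)
(fin 781 4 781))))))))))
(cons (mv 1166 (cons (fin 1230 4 973)
(mv 909 (cons (fin 1102 7 909)
(mv 845 (cons (fin 781 4 781)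
(mv 780 (cons (fin 844 7 780)
(mv 782 (cons (fin 846 6 781)
(mv 1036 (cons (fin 1100 5 844)
(mv 975 (cons (fin 976 1 972)
(fin 1035 2 971)))))))))))))))
(cons (mv 972 (cons (fin 908 7 908)
(mv 971 (cons (fin 970 0 970)
(mv 906 (cons (fin 907 3 906)
(mv 1035 (cons (fin 1034 1 970)
(mv 975 (cons (fin 1036 1 971)
(mv 976 (cons (fin 977 1 973)
(mv 1166 (cons (fin 1230 4 973)
(mv 1102 (cons (fin 911 6 910)
(mv 1167 (cons (fin 1231 4 974)
(mv 1100 (cons (fin 1168 3 1100)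
(fin 1099 0 1099)))))))))))))))))))))
(mv 908 (cons (fin 972 7 908)
(mv 909 (cons (fin 844 7 844)
(mv 845 (cons (fin 781 4 781)
(mv 782 (cons (fin 846 6 781)
(mv 906 (cons (fin 907 0 906)
(mv 975 (cons (fin 976 3 908)
(mv 1036 (cons (fin 1035 2 971)
(fin 1100 5 844)))))))))))))))))))))
(mv 910 (cons (fin 846 5 845)
(mv 1102 (cons (cons (mv 845 (cons (fin 909 7 845)
(mv 847 (cons (fin 911 6 846)
(mv 1103 (cons (fin 1167 4 910)
(mv 1036 (cons (fin 1104 3 1036)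
(fin 1035 0 1035)))))))))
(mv 847 (cons (fin 911 6 846)
(mv 1103 (cons (fin 1167 4 910)
(mv 1036 (cons (fin 1104 3 1036)
(fin 1035 0 1035))))))))
(cons (mv 845 (cons (fin 909 7 845)
(mv 911 (cons (fin 847 6 846)
(mv 975 (cons (fin 1166 6 910)
(mv 976 (cons (fin 977 1 973)
(mv 1036 (cons (fin 973 1 972)
(fin 1035 2 971)))))))))))
(cons (mv 845 (cons (fin 909 7 845)
(mv 1103 (cons (fin 1167 4 910)
(mv 1036 (cons (fin 1104 3 1036)
(fin 1035 0 1035)))))))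
(mv 845 (cons (fin 909 7 845)
(mv 847 (cons (fin 911 6 846)
(mv 1167 (cons (fin 1103 4 910)
(mv 1166 (cons (fin 1231 4 974)
(mv 1230 (cons (fin 973 7 973)
(fin 1294 7 1037)))))))))))))))))))
(cons (mv 1165 (cons (fin 1229 6 973)
(mv 910 (cons (fin 1102 5 909)
(fin 973 6 909)))))
(cons (mv 910 (cons (fin 846 5 845)
(mv 1165 (cons (fin 973 6 909)
(fin 1229 6 973)))))
(mv 910 (cons (fin 846 5 845)
(mv 1165 (cons (fin 1102 5 909)
(fin 1229 6 973)))))))))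
(mv 1039 (cons (cons (mv 972 (cons (fin 973 3 972)
(mv 976 (cons (fin 977 2 973)
(mv 1036 (cons (fin 971 3 971)
(fin 975 2 972)))))))
(mv 976 (cons (fin 977 2 973)
(mv 975 (cons (fin 1036 2 972)
(mv 1104 (cons (fin 1105 0 1037)
(mv 911 (cons (fin 1168 7 911)
(fin 847 4 847))))))))))
(cons (mv 972 (cons (fin 973 3 972)
(mv 1036 (cons (fin 971 3 971)
(mv 1104 (cons (fin 1103 0 1036)
(fin 1105 0 1037)))))))
(mv 972 (cons (fin 973 3 972)
(mv 976 (cons (fin 977 2 973)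
(mv 1104 (cons (fin 1105 0 1037)
(mv 1168 (cons (mv 975 (cons (fin 911 7 911)
(fin 1232 7 975)))
(mv 1167 (cons (fin 1231 5 975)
(mv 1169 (cons (fin 1233 4 976)
(mv 1102 (cons (fin 1166 3 1101)
(fin 1103 0 1101))))))))))))))))))))
(cons (mv 1039 (cons (fin 1100 1 1036)
(mv 976 (cons (fin 977 2 973)
(mv 975 (cons (fin 1036 2 972)
(mv 1104 (cons (fin 1105 0 1037)
(mv 911 (cons (fin 1168 7 911)
(fin 847 4 847)))))))))))
(cons (mv 1039 (cons (fin 1100 1 1036)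
(mv 972 (cons (fin 973 3 972)
(mv 1036 (cons (fin 971 3 971)
(mv 1104 (cons (fin 1103 0 1036)
(fin 1105 0 1037)))))))))
(mv 1039 (cons (fin 1100 1 1036)
(mv 972 (cons (fin 973 3 972)
(mv 976 (cons (fin 977 2 973)
(mv 1104 (cons (fin 1105 0 1037)
(mv 1168 (cons (mv 975 (cons (fin 911 7 911)
(fin 1232 7 975)))
(mv 1167 (cons (fin 1231 5 975)
(mv 1169 (cons (fin 1233 4 976)
(mv 1102 (cons (fin 1166 3 1101)
(fin 1103 0 1101)))))))))))))))))))))
(mv 1038 (cons (cons (mv 1039 (cons (fin 1100 1 1036)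
(mv 972 (cons (fin 973 3 972)
(mv 976 (cons (fin 977 2 973)
(mv 1036 (cons (fin 971 3 971)
(fin 975 2 972)))))))))
(cons (mv 974 (cons (cons (mv 910 (cons (fin 846 5 845)
(mv 1165 (cons (fin 1102 5 909)
(fin 973 6 909)))))
(mv 1165 (cons (fin 1229 6 973)
(mv 973 (cons (cons (mv 908 (cons (fin 972 7 908)
(mv 909 (cons (fin 844 7 844)
(mv 845 (cons (fin 781 4 781)
(fin 1102 4 845)))))))
(mv 1164 (cons (fin 1228 5 972)
(mv 909 (cons (fin 1100 5 908)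
(mv 845 (cons (fin 781 4 781)
(fin 1102 4 845))))))))
(cons (mv 972 (cons (fin 908 7 908)
(mv 971 (cons (fin 970 0 970)
(mv 906 (cons (fin 907 3 906)
(mv 1035 (cons (fin 1034 1 970)
(mv 1036 (cons (fin 975 1 971)
(mv 1099 (cons (fin 1098 1 1034)
(mv 1102 (cons (fin 1103 0 1035)
(mv 1163 (cons (fin 1227 6 971)
(mv 1162 (cons (fin 1100 1 1098)
(fin 1164 2 1098)))))))))))))))))))
(mv 908 (cons (fin 972 7 908)
(mv 909 (cons (fin 844 7 844)
(mv 1164 (cons (fin 1100 5 908)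
(fin 1228 5 972)))))))))))))
(cons (mv 910 (cons (fin 846 5 845)
(mv 1102 (cons (cons (mv 845 (cons (fin 909 7 845)
(mv 847 (cons (fin 911 6 846)
(mv 1103 (cons (fin 1167 4 910)
(mv 1036 (cons (fin 1104 3 1036)
(fin 1035 0 1035)))))))))
(mv 847 (cons (fin 911 6 846)
(mv 909 (cons (fin 845 7 845)
(mv 973 (cons (cons (mv 844 (cons (fin 908 7 844)
(mv 1100 (cons (fin 1164 5 908)
(mv 1099 (cons (fin 1098 2 1034)
(mv 1035 (cons (fin 1034 3 1034)
(mv 1036 (cons (fin 975 2 971)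
(mv 970 (cons (fin 971 3 970)
(mv 1163 (cons (fin 1162 1 1098)
(mv 1227 (cons (fin 972 6 971)
(fin 1291 6 1035)))))))))))))))))
(mv 1100 (cons (fin 1164 5 908)
(mv 1099 (cons (fin 1098 2 1034)
(mv 1035 (cons (fin 1034 3 1034)
(mv 1036 (cons (fin 975 2 971)
(mv 970 (cons (fin 971 3 970)
(mv 1163 (cons (fin 1162 1 1098)
(mv 1227 (cons (fin 972 6 971)
(fin 1291 6 1035))))))))))))))))
(cons (mv 908 (cons (fin 844 7 844)
(mv 907 (cons (fin 906 0 906)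
(fin 975 0 907)))))
(mv 908 (cons (fin 844 7 844)
(mv 906 (cons (fin 907 0 906)
(mv 1100 (cons (fin 1164 5 908)
(mv 1099 (cons (fin 1098 2 1034)
(mv 1035 (cons (fin 1034 3 1034)
(mv 1163 (cons (fin 1162 1 1098)
(mv 971 (cons (fin 970 7 906)
(fin 972 6 907)))))))))))))))))))))))
(cons (mv 847 (cons (fin 911 6 846)
(mv 1103 (cons (fin 1167 4 910)
(mv 1036 (cons (fin 1104 3 1036)
(fin 1035 0 1035)))))))
(cons (mv 845 (cons (fin 909 7 845)
(mv 1103 (cons (fin 1167 4 910)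
(mv 1036 (cons (fin 1104 3 1036)
(fin 1035 0 1035)))))))
(mv 909 (cons (fin 845 7 845)
(mv 911 (cons (fin 847 6 846)
(mv 1103 (cons (fin 1167 4 910)
(mv 1104 (cons (fin 1105 3 1037)
(mv 1168 (cons (fin 1169 0 1101)
(mv 975 (cons (fin 976 7 911)
(mv 908 (cons (fin 907 0 907)
(mv 844 (cons (fin 843 3 843)
(fin 973 7 844)))))))))))))))))))))))
(cons (mv 910 (cons (fin 846 5 845)
(mv 1165 (cons (fin 1102 5 909)
(fin 1229 6 973)))))
(mv 910 (cons (fin 846 5 845)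
(mv 1165 (cons (fin 973 6 909)
(fin 1229 6 973)))))))))
(mv 1039 (cons (cons (mv 972 (cons (fin 973 3 972)
(mv 976 (cons (fin 977 2 973)
(mv 1036 (cons (fin 971 3 971)
(fin 975 2 972)))))))
(mv 976 (cons (fin 977 2 973)
(mv 975 (cons (fin 1036 2 972)
(mv 1104 (cons (fin 1105 0 1037)
(mv 911 (cons (fin 1168 7 911)
(fin 847 4 847))))))))))
(cons (mv 972 (cons (fin 973 3 972)
(mv 1036 (cons (fin 971 3 971)
(mv 1104 (cons (fin 1103 0 1036)
(fin 1105 0 1037)))))))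
(mv 973 (cons (fin 972 3 972)
(mv 976 (cons (fin 977 2 973)
(mv 1104 (cons (fin 1105 0 1037)
(mv 1168 (cons (mv 975 (cons (fin 911 7 911)
(fin 1232 7 975)))
(mv 1167 (cons (fin 1231 5 975)
(mv 1169 (cons (fin 1233 4 976)
(mv 1102 (cons (fin 1103 0 1101)
(mv 909 (cons (fin 845 4 845)
(mv 844 (cons (fin 908 7 844)
(mv 910 (cons (fin 846 6 845)
(mv 1165 (cons (fin 974 5 909)
(mv 1228 (cons (fin 1164 5 972)
(mv 1229 (cons (fin 1292 5 1036)
(fin 1293 6 1037))))))))))))))))))))))))))))))))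
(cons (mv 1039 (cons (fin 1100 1 1036)
(mv 976 (cons (fin 977 2 973)
(mv 975 (cons (fin 1036 2 972)
(mv 1104 (cons (fin 1105 0 1037)
(mv 911 (cons (fin 1168 7 911)
(fin 847 4 847)))))))))))
(cons (mv 1039 (cons (fin 1100 1 1036)
(mv 972 (cons (fin 973 3 972)
(mv 1036 (cons (fin 971 3 971)
(mv 1104 (cons (fin 1103 0 1036)
(fin 1105 0 1037)))))))))
(mv 1039 (cons (fin 1100 1 1036)
(mv 973 (cons (fin 972 3 972)
(mv 976 (cons (fin 977 2 973)
(mv 1104 (cons (fin 1105 0 1037)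
(mv 1168 (cons (mv 975 (cons (fin 911 7 911)
(fin 1232 7 975)))
(mv 1167 (cons (fin 1231 5 975)
(mv 1169 (cons (fin 1233 4 976)
(mv 1102 (cons (fin 1103 0 1101)
(mv 909 (cons (fin 845 4 845)
(mv 844 (cons (fin 908 7 844)
(mv 910 (cons (fin 846 6 845)
(mv 1165 (cons (fin 974 5 909)
(mv 1228 (cons (fin 1164 5 972)
(mv 1229 (cons (fin 1292 5 1036)
(fin 1293 6 1037))))))))))))))))))))))))))))))))))))
(cons (cons (mv 1038 (cons (cons (mv 1039 (cons (fin 1100 1 1036)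
(mv 972 (cons (fin 973 3 972)
(mv 976 (cons (fin 977 2 973)
(mv 1036 (cons (fin 971 3 971)
(fin 975 2 972)))))))))
(cons (mv 974 (cons (cons (mv 910 (cons (fin 846 5 845)
(mv 1165 (cons (fin 1102 5 909)
(fin 973 6 909)))))
(cons (mv 910 (cons (fin 846 5 845)
(mv 1102 (cons (cons (mv 845 (cons (fin 909 7 845)
(mv 847 (cons (fin 911 6 846)
(mv 1103 (cons (fin 1167 4 910)
(mv 1036 (cons (fin 1104 3 1036)
(fin 1035 0 1035)))))))))
(mv 845 (cons (fin 909 7 845)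
(mv 911 (cons (fin 847 6 846)
(mv 975 (cons (fin 1166 6 910)
(mv 976 (cons (fin 977 1 973)
(mv 1036 (cons (fin 973 1 972)
(fin 1035 2 971))))))))))))
(cons (mv 847 (cons (fin 911 6 846)
(mv 1103 (cons (fin 1167 4 910)
(mv 1036 (cons (fin 1104 3 1036)
(fin 1035 0 1035)))))))
(cons (mv 845 (cons (fin 909 7 845)
(mv 1103 (cons (fin 1167 4 910)
(mv 1036 (cons (fin 1104 3 1036)
(fin 1035 0 1035)))))))
(mv 845 (cons (fin 909 7 845)
(mv 847 (cons (fin 911 6 846)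
(mv 1167 (cons (fin 1103 4 910)
(mv 1166 (cons (fin 1231 4 974)
(mv 1230 (cons (fin 973 7 973)
(fin 1294 7 1037)))))))))))))))))
(mv 1165 (cons (fin 1229 6 973)
(mv 973 (cons (cons (mv 1164 (cons (fin 1228 5 972)
(mv 909 (cons (fin 1100 5 908)
(mv 845 (cons (fin 781 4 781)
(fin 1102 4 845)))))))
(mv 1166 (cons (fin 1230 4 973)
(mv 909 (cons (fin 1102 7 909)
(mv 845 (cons (fin 781 4 781)
(mv 780 (cons (fin 844 7 780)
(mv 782 (cons (fin 846 6 781)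
(mv 1036 (cons (fin 1100 5 844)
(mv 975 (cons (fin 976 1 972)
(fin 1035 2 971))))))))))))))))
(cons (mv 1164 (cons (fin 1228 5 972)
(mv 1166 (cons (fin 1230 4 973)
(mv 1102 (cons (mv 1103 (cons (fin 1104 1 1100)
(fin 1163 2 1099)))
(cons (mv 911 (cons (fin 975 6 910)
(mv 1162 (cons (fin 1163 2 1098)
(mv 1167 (cons (fin 1231 4 974)
(mv 1100 (cons (fin 1099 3 1099)
(fin 1168 3 1100)))))))))
(mv 911 (cons (fin 975 6 910)
(mv 1103 (cons (fin 1104 1 1100)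
(mv 1035 (cons (fin 1036 0 1035)
(mv 1167 (cons (fin 1231 4 974)
(mv 1100 (cons (fin 1099 3 1099)
(fin 1168 3 1100))))))))))))))))))
(cons (mv 1164 (cons (fin 1228 5 972)
(mv 1100 (cons (fin 909 5 908)
(mv 1099 (cons (fin 1098 2 1034)
(mv 1166 (cons (fin 1167 3 1099)
(fin 1230 4 973)))))))))
(mv 1164 (cons (fin 1228 5 972)
(mv 1166 (cons (fin 1230 4 973)
(mv 1102 (cons (fin 909 7 909)
(mv 1103 (cons (fin 1104 1 1100)
(fin 1163 2 1099)))))))))))))))))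
(cons (mv 1165 (cons (fin 1229 6 973)
(mv 910 (cons (fin 1102 5 909)
(fin 973 6 909)))))
(cons (mv 910 (cons (fin 846 5 845)
(mv 1165 (cons (fin 973 6 909)
(fin 1229 6 973)))))
(mv 910 (cons (fin 846 5 845)
(mv 1165 (cons (fin 1102 5 909)
(fin 1229 6 973)))))))))
(mv 1039 (cons (cons (mv 972 (cons (fin 973 3 972)
(mv 976 (cons (fin 977 2 973)
(mv 1036 (cons (fin 971 3 971)
(fin 975 2 972)))))))
(mv 972 (cons (fin 973 3 972)
(mv 1036 (cons (fin 971 3 971)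
(mv 1104 (cons (fin 1103 0 1036)
(fin 1105 0 1037))))))))
(cons (mv 976 (cons (fin 977 2 973)
(mv 975 (cons (fin 1036 2 972)
(mv 1104 (cons (fin 1105 0 1037)
(mv 911 (cons (fin 1168 7 911)
(fin 847 4 847)))))))))
(mv 972 (cons (fin 973 3 972)
(mv 976 (cons (fin 977 2 973)
(mv 1104 (cons (fin 1105 0 1037)
(mv 1168 (cons (mv 975 (cons (fin 911 7 911)
(fin 1232 7 975)))
(mv 1167 (cons (fin 1231 5 975)
(mv 1169 (cons (fin 1233 4 976)
(mv 1102 (cons (fin 1166 3 1101)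
(fin 1103 0 1101))))))))))))))))))))
(cons (mv 1039 (cons (fin 1100 1 1036)
(mv 976 (cons (fin 977 2 973)
(mv 975 (cons (fin 1036 2 972)
(mv 1104 (cons (fin 1105 0 1037)
(mv 911 (cons (fin 1168 7 911)
(fin 847 4 847)))))))))))
(cons (mv 1039 (cons (fin 1100 1 1036)
(mv 972 (cons (fin 973 3 972)
(mv 1036 (cons (fin 971 3 971)
(mv 1104 (cons (fin 1103 0 1036)
(fin 1105 0 1037)))))))))
(mv 1039 (cons (fin 1100 1 1036)
(mv 972 (cons (fin 973 3 972)
(mv 976 (cons (fin 977 2 973)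
(mv 1104 (cons (fin 1105 0 1037)
(mv 1168 (cons (mv 975 (cons (fin 911 7 911)
(fin 1232 7 975)))
(mv 1167 (cons (fin 1231 5 975)
(mv 1169 (cons (fin 1233 4 976)
(mv 1102 (cons (fin 1166 3 1101)
(fin 1103 0 1101)))))))))))))))))))))
(mv 1038 (cons (cons (mv 1039 (cons (fin 1100 1 1036)
(mv 972 (cons (fin 973 3 972)
(mv 976 (cons (fin 977 2 973)
(mv 1036 (cons (fin 971 3 971)
(fin 975 2 972)))))))))
(cons (mv 1165 (cons (cons (mv 974 (cons (fin 1229 6 973)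
(mv 973 (cons (cons (mv 908 (cons (fin 972 7 908)
(mv 909 (cons (fin 844 7 844)
(mv 845 (cons (fin 781 4 781)
(fin 1102 4 845)))))))
(mv 1164 (cons (fin 1228 5 972)
(mv 909 (cons (fin 1100 5 908)
(mv 845 (cons (fin 781 4 781)
(fin 1102 4 845))))))))
(cons (mv 972 (cons (fin 908 7 908)
(mv 971 (cons (fin 970 0 970)
(mv 906 (cons (fin 907 3 906)
(mv 1035 (cons (fin 1034 1 970)
(mv 975 (cons (fin 1036 1 971)
(mv 976 (cons (fin 977 1 973)
(mv 1164 (cons (fin 1228 5 972)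
(mv 1166 (cons (fin 1230 4 973)
(mv 911 (cons (fin 1102 6 910)
(mv 783 (cons (fin 847 5 782)
(mv 1168 (cons (fin 1104 7 911)
(mv 1167 (cons (fin 1100 3 1100)
(mv 1232 (cons (fin 1231 0 1164)
(fin 1233 0 1165)))))))))))))))))))))))))))
(mv 908 (cons (fin 972 7 908)
(mv 909 (cons (fin 844 7 844)
(mv 1164 (cons (fin 1100 5 908)
(fin 1228 5 972))))))))))))
(cons (mv 973 (cons (cons (mv 908 (cons (fin 972 7 908)
(mv 909 (cons (fin 844 7 844)
(mv 1102 (cons (fin 845 4 845)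
(fin 1166 4 909)))))))
(mv 908 (cons (fin 972 7 908)
(mv 909 (cons (fin 844 7 844)
(mv 1164 (cons (fin 1100 5 908)
(fin 1228 5 972))))))))
(cons (mv 1164 (cons (fin 1228 5 972)
(mv 909 (cons (fin 1100 5 908)
(mv 1102 (cons (fin 845 4 845)
(fin 1166 4 909)))))))
(mv 908 (cons (fin 972 7 908)
(mv 1164 (cons (fin 1228 5 972)
(mv 1166 (cons (fin 1230 4 973)
(mv 1167 (cons (mv 1100 (cons (fin 1099 3 1099)
(fin 1168 3 1100)))
(mv 1103 (cons (fin 1104 2 1100)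
(mv 1102 (cons (fin 1163 2 1099)
(mv 1231 (cons (fin 1232 0 1164)
(fin 1295 7 1038))))))))))))))))))
(mv 1229 (cons (fin 974 6 973)
(mv 972 (cons (fin 1036 7 972)
(mv 1228 (cons (fin 1292 5 1036)
(mv 1293 (cons (fin 1102 6 1037)
(mv 1294 (cons (fin 1230 4 1037)
(fin 1358 4 1101)))))))))))))
(cons (cons (mv 1229 (cons (fin 974 6 973)
(mv 972 (cons (fin 1036 7 972)
(mv 908 (cons (fin 973 7 908)
(mv 1228 (cons (fin 1292 5 1036)
(mv 1293 (cons (fin 1102 6 1037)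
(mv 1358 (cons (fin 1294 4 1101)
(mv 1357 (cons (fin 1422 4 1165)
(mv 1164 (cons (fin 1100 7 1100)
(fin 1421 7 1164)))))))))))))))))
(mv 974 (cons (fin 1229 6 973)
(mv 973 (cons (cons (mv 1164 (cons (fin 1228 5 972)
(mv 909 (cons (fin 1100 5 908)
(mv 845 (cons (fin 781 4 781)
(fin 1102 4 845)))))))
(mv 1166 (cons (fin 1230 4 973)
(mv 909 (cons (fin 1102 7 909)
(mv 844 (cons (fin 908 7 844)
(mv 845 (cons (fin 780 7 780)
(fin 781 4 781))))))))))
(cons (mv 1164 (cons (fin 1228 5 972)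
(mv 1166 (cons (fin 1230 4 973)
(mv 1102 (cons (mv 1103 (cons (fin 1104 1 1100)
(fin 1163 2 1099)))
(cons (mv 911 (cons (fin 975 6 910)
(mv 1162 (cons (fin 1163 2 1098)
(mv 1167 (cons (fin 1231 4 974)
(mv 1100 (cons (fin 1099 3 1099)
(fin 1168 3 1100)))))))))
(mv 911 (cons (fin 975 6 910)
(mv 1103 (cons (fin 1104 1 1100)
(mv 1035 (cons (fin 1036 0 1035)
(mv 1167 (cons (fin 1231 4 974)
(mv 1100 (cons (fin 1099 3 1099)
(fin 1168 3 1100))))))))))))))))))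
(mv 1164 (cons (fin 1228 5 972)
(mv 909 (cons (fin 1100 5 908)
(mv 844 (cons (fin 908 7 844)
(mv 845 (cons (fin 780 7 780)
(fin 781 4 781)))))))))))))))
(cons (mv 1229 (cons (fin 974 6 973)
(mv 972 (cons (fin 1036 7 972)
(mv 908 (cons (fin 973 7 908)
(mv 1230 (cons (fin 1294 4 1037)
(mv 1293 (cons (fin 1102 6 1037)
(mv 1356 (cons (fin 1292 5 1100)
(mv 1357 (cons (fin 1420 5 1164)
(mv 1100 (cons (fin 1164 7 1100)
(mv 1098 (cons (fin 1099 2 1034)
(mv 1421 (cons (fin 1166 6 1165)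
(mv 1422 (cons (fin 1358 4 1165)
(fin 1486 4 1229)))))))))))))))))))))))
(mv 1229 (cons (fin 974 6 973)
(mv 972 (cons (fin 1036 7 972)
(mv 908 (cons (fin 973 7 908)
(mv 1292 (cons (fin 1228 5 1036)
(mv 1293 (cons (fin 1356 5 1100)
(mv 1294 (cons (fin 1230 4 1037)
(fin 1358 4 1101)))))))))))))))))
(mv 1039 (cons (cons (mv 972 (cons (fin 973 3 972)
(mv 976 (cons (fin 977 2 973)
(mv 1036 (cons (fin 971 3 971)
(fin 975 2 972)))))))
(mv 976 (cons (fin 977 2 973)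
(mv 975 (cons (fin 1036 2 972)
(mv 1104 (cons (fin 1105 0 1037)
(mv 911 (cons (fin 1168 7 911)
(fin 847 4 847))))))))))
(cons (mv 972 (cons (fin 973 3 972)
(mv 1036 (cons (fin 971 3 971)
(mv 1104 (cons (fin 1103 0 1036)
(fin 1105 0 1037)))))))
(mv 972 (cons (fin 973 3 972)
(mv 976 (cons (fin 977 2 973)
(mv 1104 (cons (fin 1105 0 1037)
(mv 1168 (cons (mv 975 (cons (fin 911 7 911)
(fin 1232 7 975)))
(mv 1167 (cons (fin 1231 5 975)
(mv 1169 (cons (fin 1233 4 976)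
(mv 1102 (cons (fin 1166 3 1101)
(fin 1103 0 1101))))))))))))))))))))
(cons (mv 1039 (cons (fin 1100 1 1036)
(mv 976 (cons (fin 977 2 973)
(mv 975 (cons (fin 1036 2 972)
(mv 1104 (cons (fin 1105 0 1037)
(mv 911 (cons (fin 1168 7 911)
(fin 847 4 847)))))))))))
(cons (mv 1039 (cons (fin 1100 1 1036)
(mv 972 (cons (fin 973 3 972)
(mv 1036 (cons (fin 971 3 971)
(mv 1104 (cons (fin 1103 0 1036)
(fin 1105 0 1037)))))))))
(mv 1039 (cons (fin 1100 1 1036)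
(mv 972 (cons (fin 973 3 972)
(mv 976 (cons (fin 977 2 973)
(mv 1104 (cons (fin 1105 0 1037)
(mv 1168 (cons (mv 975 (cons (fin 911 7 911)
(fin 1232 7 975)))
(mv 1167 (cons (fin 1231 5 975)
(mv 1169 (cons (fin 1233 4 976)
(mv 1102 (cons (fin 1166 3 1101)
(fin 1103 0 1101))))))))))))))))))))))
(cons (mv 1038 (cons (cons (mv 1039 (cons (fin 1100 1 1036)
(mv 972 (cons (fin 973 3 972)
(mv 976 (cons (fin 977 2 973)
(mv 1036 (cons (fin 971 3 971)
(fin 975 2 972)))))))))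
(cons (mv 974 (cons (cons (mv 910 (cons (fin 846 5 845)
(mv 1165 (cons (fin 1102 5 909)
(fin 973 6 909)))))
(mv 910 (cons (fin 846 5 845)
(mv 1102 (cons (cons (mv 845 (cons (fin 909 7 845)
(mv 847 (cons (fin 911 6 846)
(mv 1167 (cons (fin 1103 4 910)
(mv 1166 (cons (fin 1231 4 974)
(mv 1230 (cons (fin 973 7 973)
(fin 1294 7 1037)))))))))))
(cons (mv 847 (cons (fin 911 6 846)
(mv 1167 (cons (fin 1103 4 910)
(mv 1166 (cons (fin 1231 4 974)
(mv 1230 (cons (fin 973 7 973)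
(fin 1294 7 1037)))))))))
(mv 845 (cons (fin 909 7 845)
(mv 911 (cons (fin 847 6 846)
(mv 975 (cons (fin 1166 6 910)
(mv 976 (cons (fin 977 1 973)
(mv 1036 (cons (fin 973 1 972)
(fin 1035 2 971)))))))))))))
(cons (mv 845 (cons (fin 909 7 845)
(mv 1167 (cons (fin 1103 4 910)
(mv 1166 (cons (fin 1231 4 974)
(mv 1230 (cons (fin 973 7 973)
(fin 1294 7 1037)))))))))
(cons (mv 845 (cons (fin 909 7 845)
(mv 847 (cons (fin 911 6 846)
(mv 1103 (cons (fin 1167 4 910)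
(mv 1100 (cons (mv 1035 (cons (fin 1036 3 1035)
(mv 1099 (cons (fin 1034 3 1034)
(fin 1098 2 1034)))))
(cons (mv 1099 (cons (fin 1098 2 1034)
(mv 1163 (cons (fin 1162 1 1098)
(fin 1164 1 1099)))))
(mv 1036 (cons (fin 1035 3 1035)
(mv 1164 (cons (fin 1163 1 1099)
(mv 1228 (cons (fin 973 6 972)
(fin 1292 6 1036))))))))))))))))
(mv 845 (cons (fin 909 7 845)
(mv 911 (cons (fin 847 6 846)
(mv 1166 (cons (fin 975 6 910)
(mv 1167 (cons (fin 1103 4 910)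
(fin 1231 4 974))))))))))))))))
(cons (mv 1165 (cons (fin 1229 6 973)
(mv 973 (cons (cons (mv 908 (cons (fin 972 7 908)
(mv 909 (cons (fin 844 7 844)
(mv 845 (cons (fin 781 4 781)
(fin 1102 4 845)))))))
(mv 1164 (cons (fin 1228 5 972)
(mv 909 (cons (fin 1100 5 908)
(mv 845 (cons (fin 781 4 781)
(fin 1102 4 845))))))))
(cons (mv 972 (cons (fin 908 7 908)
(mv 971 (cons (fin 970 0 970)
(mv 906 (cons (fin 907 3 906)
(mv 1035 (cons (fin 1034 1 970)
(mv 975 (cons (fin 1036 1 971)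
(mv 976 (cons (fin 977 1 973)
(mv 1164 (cons (fin 1228 5 972)
(mv 1166 (cons (fin 1230 4 973)
(mv 1102 (cons (fin 911 6 910)
(mv 1163 (cons (fin 1162 2 1098)
(fin 1103 2 1099)))))))))))))))))))))
(mv 908 (cons (fin 972 7 908)
(mv 909 (cons (fin 844 7 844)
(mv 1164 (cons (fin 1100 5 908)
(fin 1228 5 972))))))))))))
(cons (mv 910 (cons (fin 846 5 845)
(mv 1165 (cons (fin 1102 5 909)
(fin 1229 6 973)))))
(mv 910 (cons (fin 846 5 845)
(mv 1165 (cons (fin 973 6 909)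
(fin 1229 6 973)))))))))
(mv 974 (cons (cons (mv 910 (cons (fin 846 5 845)
(mv 1165 (cons (fin 1102 5 909)
(fin 973 6 909)))))
(mv 1165 (cons (fin 1229 6 973)
(mv 973 (cons (mv 972 (cons (fin 1039 3 972)
(fin 908 7 908)))
(cons (mv 1164 (cons (fin 1228 5 972)
(mv 1166 (cons (fin 1230 4 973)
(mv 909 (cons (fin 1102 7 909)
(mv 844 (cons (fin 908 7 844)
(mv 845 (cons (fin 780 7 780)
(fin 781 4 781)))))))))))
(mv 972 (cons (fin 1039 3 972)
(mv 970 (cons (fin 971 0 970)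
(mv 1164 (cons (fin 1228 5 972)
(mv 1166 (cons (fin 1230 4 973)
(mv 1102 (cons (fin 909 7 909)
(mv 1163 (cons (fin 1162 2 1098)
(fin 1103 2 1099)))))))))))))))))))
(cons (mv 846 (cons (fin 910 5 845)
(mv 1036 (cons (cons (mv 975 (cons (fin 1035 2 971)
(mv 976 (cons (fin 973 1 972)
(fin 977 1 973)))))
(mv 1039 (cons (mv 972 (cons (fin 971 3 971)
(fin 973 3 972)))
(mv 976 (cons (fin 975 2 972)
(fin 977 2 973))))))
(cons (mv 1035 (cons (mv 1034 (cons (fin 973 2 970)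
(fin 1102 0 1034)))
(mv 971 (cons (fin 970 3 970)
(mv 972 (cons (fin 1039 3 971)
(mv 908 (cons (fin 844 4 844)
(mv 1099 (cons (fin 1098 1 1034)
(fin 1163 6 907)))))))))))
(mv 975 (cons (fin 1035 2 971)
(mv 976 (cons (fin 977 1 973)
(fin 1039 2 972))))))))))
(cons (mv 910 (cons (fin 846 5 845)
(mv 1165 (cons (fin 1102 5 909)
(fin 1229 6 973)))))
(mv 910 (cons (fin 846 5 845)
(mv 1165 (cons (fin 973 6 909)
(fin 1229 6 973)))))))))))
(cons (cons (mv 1039 (cons (fin 1100 1 1036)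
(mv 976 (cons (fin 977 2 973)
(mv 1036 (cons (fin 975 2 972)
(mv 971 (cons (fin 972 3 971)
(mv 1035 (cons (fin 970 3 970)
(mv 1102 (cons (fin 1034 0 1034)
(fin 1103 0 1035)))))))))))))
(mv 1039 (cons (fin 1100 1 1036)
(mv 976 (cons (fin 977 2 973)
(mv 975 (cons (fin 1036 2 972)
(mv 1102 (cons (cons (mv 911 (cons (fin 847 5 846)
(mv 1166 (cons (fin 1103 5 910)
(fin 974 6 910)))))
(mv 911 (cons (fin 847 5 846)
(mv 910 (cons (cons (mv 846 (cons (fin 1103 7 846)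
(fin 974 5 845)))
(mv 846 (cons (fin 1103 7 846)
(mv 909 (cons (fin 908 0 908)
(fin 973 6 845))))))
(cons (mv 908 (cons (fin 909 0 908)
(mv 1165 (cons (fin 974 5 909)
(mv 1229 (cons (fin 1293 6 1037)
(mv 1228 (cons (fin 1292 5 1036)
(mv 1164 (cons (fin 973 5 972)
(mv 1162 (cons (fin 1163 2 1098)
(mv 1230 (cons (fin 1294 4 1037)
(mv 1231 (cons (fin 1232 3 1164)
(mv 1167 (cons (fin 1168 2 1164)
(fin 1103 6 975)))))))))))))))))))
(mv 974 (cons (fin 846 5 845)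
(fin 1165 5 909)))))))))
(cons (mv 1166 (cons (fin 1230 6 974)
(mv 909 (cons (fin 973 4 909)
(mv 974 (cons (mv 910 (cons (fin 845 7 845)
(fin 846 5 845)))
(mv 1165 (cons (fin 1229 5 973)
(mv 1167 (cons (fin 1231 4 974)
(mv 1168 (cons (fin 1169 3 1101)
(mv 1232 (cons (fin 1233 0 1165)
(fin 1103 4 975)))))))))))))))
(cons (mv 911 (cons (fin 847 5 846)
(mv 1166 (cons (fin 1103 5 910)
(fin 1230 6 974)))))
(mv 911 (cons (fin 847 5 846)
(mv 1166 (cons (fin 974 6 910)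
(fin 1230 6 974))))))))))))))))
(cons (mv 1039 (cons (fin 1100 1 1036)
(mv 972 (cons (fin 973 3 972)
(mv 1036 (cons (fin 971 3 971)
(mv 844 (cons (fin 908 4 844)
(mv 1165 (cons (fin 1229 7 972)
(mv 1102 (cons (mv 1035 (cons (fin 1034 0 1034)
(fin 1103 0 1035)))
(cons (mv 974 (cons (fin 910 5 909)
(mv 1166 (cons (mv 975 (cons (fin 911 6 910)
(fin 1230 6 974)))
(cons (mv 975 (cons (fin 911 6 910)
(mv 1167 (cons (fin 1231 4 974)
(mv 1168 (cons (fin 1169 3 1101)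
(mv 1232 (cons (fin 1233 0 1165)
(fin 1103 4 975)))))))))
(mv 1230 (cons (fin 1294 7 1037)
(mv 1231 (cons (fin 1167 4 974)
(fin 1295 4 1038))))))))))
(mv 974 (cons (fin 910 5 909)
(mv 1035 (cons (fin 975 2 971)
(fin 1034 0 1034))))))))))))))))))
(mv 1039 (cons (fin 1100 1 1036)
(mv 973 (cons (fin 972 3 972)
(mv 976 (cons (fin 977 2 973)
(mv 909 (cons (cons (mv 1102 (cons (fin 845 4 845)
(fin 1166 4 909)))
(mv 844 (cons (fin 908 7 844)
(mv 780 (cons (fin 845 7 780)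
(mv 910 (cons (fin 846 6 845)
(mv 1165 (cons (fin 974 6 909)
(mv 1228 (cons (fin 1164 5 972)
(mv 1229 (cons (fin 1292 5 1036)
(mv 1230 (cons (fin 1166 4 973)
(fin 1294 4 1037))))))))))))))))
(cons (mv 844 (cons (fin 908 7 844)
(mv 846 (cons (fin 910 6 845)
(mv 1166 (cons (fin 1102 4 909)
(mv 1165 (cons (fin 1230 4 973)
(mv 1228 (cons (fin 1164 5 972)
(mv 1229 (cons (fin 1292 5 1036)
(fin 974 6 973)))))))))))))
(mv 844 (cons (fin 908 7 844)
(mv 845 (cons (fin 780 7 780)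
(fin 1102 4 845))))))))))))))))))
(cons (mv 1038 (cons (cons (mv 1039 (cons (fin 1100 1 1036)
(mv 972 (cons (fin 973 3 972)
(mv 976 (cons (fin 977 2 973)
(mv 1036 (cons (fin 971 3 971)
(fin 975 2 972)))))))))
(mv 974 (cons (cons (mv 910 (cons (fin 846 5 845)
(mv 1165 (cons (fin 1102 5 909)
(fin 973 6 909)))))
(mv 910 (cons (fin 846 5 845)
(mv 1102 (cons (cons (mv 845 (cons (fin 909 7 845)
(mv 911 (cons (fin 847 6 846)
(mv 975 (cons (fin 1166 6 910)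
(mv 976 (cons (fin 977 1 973)
(mv 1036 (cons (fin 973 1 972)
(fin 1035 2 971)))))))))))
(cons (mv 911 (cons (fin 847 6 846)
(mv 975 (cons (fin 1166 6 910)
(mv 976 (cons (fin 977 1 973)
(mv 1036 (cons (fin 973 1 972)
(fin 1035 2 971)))))))))
(mv 909 (cons (fin 845 7 845)
(mv 973 (cons (fin 1166 7 909)
(mv 844 (cons (fin 908 7 844)
(mv 1100 (cons (fin 1164 5 908)
(mv 1099 (cons (fin 1098 2 1034)
(mv 1035 (cons (fin 1034 3 1034)
(mv 1036 (cons (fin 975 2 971)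
(mv 970 (cons (fin 971 3 970)
(mv 1163 (cons (fin 1162 1 1098)
(mv 1227 (cons (fin 972 6 971)
(fin 1291 6 1035)))))))))))))))))))))))
(cons (mv 847 (cons (fin 911 6 846)
(mv 909 (cons (fin 845 7 845)
(mv 973 (cons (cons (mv 844 (cons (fin 908 7 844)
(mv 1100 (cons (fin 1164 5 908)
(mv 1099 (cons (fin 1098 2 1034)
(mv 1035 (cons (fin 1034 3 1034)
(mv 1036 (cons (fin 975 2 971)
(mv 970 (cons (fin 971 3 970)
(mv 1163 (cons (fin 1162 1 1098)
(mv 1227 (cons (fin 972 6 971)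
(fin 1291 6 1035)))))))))))))))))
(mv 1100 (cons (fin 1164 5 908)
(mv 1099 (cons (fin 1098 2 1034)
(mv 1035 (cons (fin 1034 3 1034)
(mv 1036 (cons (fin 975 2 971)
(mv 970 (cons (fin 971 3 970)
(mv 1163 (cons (fin 1162 1 1098)
(mv 1227 (cons (fin 972 6 971)
(fin 1291 6 1035))))))))))))))))
(cons (mv 908 (cons (fin 844 7 844)
(mv 907 (cons (fin 906 0 906)
(fin 975 0 907)))))
(mv 908 (cons (fin 844 7 844)
(mv 906 (cons (fin 907 0 906)
(mv 1100 (cons (fin 1164 5 908)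
(mv 1099 (cons (fin 1098 2 1034)
(mv 1035 (cons (fin 1034 3 1034)
(mv 1163 (cons (fin 1162 1 1098)
(mv 971 (cons (fin 970 7 906)
(fin 972 6 907))))))))))))))))))))))
(cons (mv 845 (cons (fin 909 7 845)
(mv 911 (cons (fin 847 6 846)
(mv 1166 (cons (fin 975 6 910)
(mv 1230 (cons (fin 1294 7 1037)
(mv 1231 (cons (fin 1167 4 974)
(fin 1295 4 1038)))))))))))
(mv 847 (cons (fin 911 6 846)
(mv 909 (cons (fin 845 7 845)
(mv 973 (cons (fin 1166 7 909)
(mv 908 (cons (fin 844 7 844)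
(mv 906 (cons (fin 907 0 906)
(mv 1100 (cons (fin 1164 5 908)
(mv 1099 (cons (fin 1098 2 1034)
(mv 1035 (cons (fin 1034 3 1034)
(mv 1163 (cons (fin 1162 1 1098)
(mv 971 (cons (fin 970 7 906)
(fin 972 6 907))))))))))))))))))))))))))))
(cons (mv 1165 (cons (fin 1229 6 973)
(mv 973 (cons (cons (mv 908 (cons (fin 972 7 908)
(mv 909 (cons (fin 844 7 844)
(mv 845 (cons (fin 781 4 781)
(fin 1102 4 845)))))))
(mv 1164 (cons (fin 1228 5 972)
(mv 909 (cons (fin 1100 5 908)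
(mv 845 (cons (fin 781 4 781)
(fin 1102 4 845))))))))
(cons (mv 972 (cons (fin 908 7 908)
(mv 971 (cons (fin 970 0 970)
(mv 906 (cons (fin 907 3 906)
(mv 1035 (cons (fin 1034 1 970)
(mv 975 (cons (fin 1036 1 971)
(mv 976 (cons (fin 977 1 973)
(mv 1164 (cons (fin 1228 5 972)
(mv 1166 (cons (fin 1230 4 973)
(mv 911 (cons (fin 1102 6 910)
(mv 783 (cons (fin 847 5 782)
(mv 1168 (cons (fin 1104 7 911)
(mv 1167 (cons (fin 1100 3 1100)
(mv 1232 (cons (fin 1231 0 1164)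
(fin 1233 0 1165)))))))))))))))))))))))))))
(mv 908 (cons (fin 972 7 908)
(mv 909 (cons (fin 844 7 844)
(mv 1164 (cons (fin 1100 5 908)
(fin 1228 5 972))))))))))))
(cons (mv 910 (cons (fin 846 5 845)
(mv 1165 (cons (fin 1102 5 909)
(fin 1229 6 973)))))
(mv 910 (cons (fin 846 5 845)
(mv 1165 (cons (fin 973 6 909)
(fin 1229 6 973))))))))))
(cons (mv 1039 (cons (mv 972 (cons (fin 973 3 972)
(mv 976 (cons (fin 977 2 973)
(mv 1036 (cons (fin 971 3 971)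
(fin 975 2 972)))))))
(cons (mv 976 (cons (fin 977 2 973)
(mv 975 (cons (fin 1036 2 972)
(mv 1104 (cons (fin 1105 0 1037)
(mv 911 (cons (fin 1168 7 911)
(fin 847 4 847)))))))))
(mv 973 (cons (fin 972 3 972)
(mv 1104 (cons (fin 1105 0 1037)
(mv 1165 (cons (mv 974 (cons (fin 910 6 909)
(fin 1229 6 973)))
(cons (mv 1164 (cons (fin 1228 5 972)
(mv 1166 (cons (fin 1230 4 973)
(mv 909 (cons (fin 1102 4 909)
(mv 844 (cons (fin 908 7 844)
(mv 845 (cons (fin 780 7 780)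
(mv 846 (cons (fin 782 6 781)
(fin 910 6 845)))))))))))))
(mv 974 (cons (fin 1229 6 973)
(mv 1164 (cons (fin 1228 5 972)
(mv 1166 (cons (fin 1230 4 973)
(mv 909 (cons (fin 1102 7 909)
(mv 844 (cons (fin 908 7 844)
(mv 845 (cons (fin 780 7 780)
(fin 781 4 781)))))))))))))))))))))))
(cons (mv 1039 (cons (fin 1100 1 1036)
(mv 976 (cons (fin 977 2 973)
(mv 975 (cons (fin 1036 2 972)
(mv 1104 (cons (fin 1105 0 1037)
(mv 911 (cons (fin 1168 7 911)
(fin 847 4 847)))))))))))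
(mv 1039 (cons (fin 1100 1 1036)
(mv 973 (cons (fin 972 3 972)
(mv 1104 (cons (fin 1105 0 1037)
(mv 1165 (cons (mv 974 (cons (fin 910 6 909)
(fin 1229 6 973)))
(cons (mv 1164 (cons (fin 1228 5 972)
(mv 1166 (cons (fin 1230 4 973)
(mv 909 (cons (fin 1102 4 909)
(mv 844 (cons (fin 908 7 844)
(mv 845 (cons (fin 780 7 780)
(mv 846 (cons (fin 782 6 781)
(fin 910 6 845)))))))))))))
(mv 974 (cons (fin 1229 6 973)
(mv 1164 (cons (fin 1228 5 972)
(mv 1166 (cons (fin 1230 4 973)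
(mv 909 (cons (fin 1102 7 909)
(mv 844 (cons (fin 908 7 844)
(mv 845 (cons (fin 780 7 780)
(fin 781 4 781))))))))))))))))))))))))))
(mv 1038 (cons (cons (mv 1039 (cons (fin 1100 1 1036)
(mv 972 (cons (fin 973 3 972)
(mv 976 (cons (fin 977 2 973)
(mv 1036 (cons (fin 971 3 971)
(fin 975 2 972)))))))))
(cons (mv 974 (cons (cons (mv 910 (cons (fin 846 5 845)
(mv 1165 (cons (fin 1102 5 909)
(fin 973 6 909)))))
(mv 910 (cons (fin 846 5 845)
(mv 1102 (cons (cons (mv 845 (cons (fin 909 7 845)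
(mv 847 (cons (fin 911 6 846)
(mv 1103 (cons (fin 1167 4 910)
(mv 1036 (cons (fin 1104 3 1036)
(fin 1035 0 1035)))))))))
(mv 847 (cons (fin 911 6 846)
(mv 1103 (cons (fin 1167 4 910)
(mv 1036 (cons (fin 1104 3 1036)
(fin 1035 0 1035))))))))
(cons (mv 845 (cons (fin 909 7 845)
(mv 911 (cons (fin 847 6 846)
(mv 975 (cons (fin 1166 6 910)
(mv 976 (cons (fin 977 1 973)
(mv 1036 (cons (fin 973 1 972)
(fin 1035 2 971)))))))))))
(cons (mv 845 (cons (fin 909 7 845)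
(mv 1103 (cons (fin 1167 4 910)
(mv 1036 (cons (fin 1104 3 1036)
(fin 1035 0 1035)))))))
(mv 845 (cons (fin 909 7 845)
(mv 847 (cons (fin 911 6 846)
(mv 1167 (cons (fin 1103 4 910)
(mv 1166 (cons (fin 1231 4 974)
(mv 1230 (cons (fin 973 7 973)
(fin 1294 7 1037))))))))))))))))))
(cons (mv 1165 (cons (fin 1229 6 973)
(mv 973 (cons (cons (mv 908 (cons (fin 972 7 908)
(mv 909 (cons (fin 844 7 844)
(mv 845 (cons (fin 781 4 781)
(fin 1102 4 845)))))))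
(mv 1164 (cons (fin 1228 5 972)
(mv 909 (cons (fin 1100 5 908)
(mv 845 (cons (fin 781 4 781)
(fin 1102 4 845))))))))
(cons (mv 972 (cons (fin 908 7 908)
(mv 971 (cons (fin 970 0 970)
(mv 906 (cons (fin 907 3 906)
(mv 1035 (cons (fin 1034 1 970)
(mv 975 (cons (fin 1036 1 971)
(mv 976 (cons (fin 977 1 973)
(mv 1164 (cons (fin 1228 5 972)
(mv 1166 (cons (fin 1230 4 973)
(mv 1102 (cons (fin 911 6 910)
(mv 1103 (cons (fin 1104 1 1100)
(fin 1163 2 1099)))))))))))))))))))))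
(mv 908 (cons (fin 972 7 908)
(mv 909 (cons (fin 844 7 844)
(mv 1164 (cons (fin 1100 5 908)
(fin 1228 5 972))))))))))))
(cons (mv 910 (cons (fin 846 5 845)
(mv 1165 (cons (fin 973 6 909)
(fin 1229 6 973)))))
(mv 910 (cons (fin 846 5 845)
(mv 1165 (cons (fin 1102 5 909)
(fin 1229 6 973)))))))))
(mv 1039 (cons (cons (mv 972 (cons (fin 973 3 972)
(mv 976 (cons (fin 977 2 973)
(mv 1036 (cons (fin 971 3 971)
(fin 975 2 972)))))))
(mv 976 (cons (fin 977 2 973)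
(mv 1036 (cons (fin 975 2 972)
(mv 1104 (cons (fin 1103 0 1036)
(fin 1105 0 1037))))))))
(cons (mv 972 (cons (fin 973 3 972)
(mv 1036 (cons (fin 971 3 971)
(mv 1104 (cons (fin 1103 0 1036)
(fin 1105 0 1037)))))))
(mv 973 (cons (fin 972 3 972)
(mv 976 (cons (fin 977 2 973)
(mv 1104 (cons (fin 1105 0 1037)
(mv 909 (cons (cons (mv 1102 (cons (fin 845 4 845)
(fin 1166 4 909)))
(mv 844 (cons (fin 908 7 844)
(mv 780 (cons (fin 845 7 780)
(mv 910 (cons (fin 846 6 845)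
(mv 1165 (cons (fin 974 6 909)
(mv 1228 (cons (fin 1164 5 972)
(mv 1229 (cons (fin 1292 5 1036)
(mv 1230 (cons (fin 1166 4 973)
(fin 1294 4 1037))))))))))))))))
(cons (mv 844 (cons (fin 908 7 844)
(mv 846 (cons (fin 910 6 845)
(mv 1166 (cons (fin 1102 4 909)
(mv 1165 (cons (fin 1230 4 973)
(mv 1228 (cons (fin 1164 5 972)
(mv 1229 (cons (fin 1292 5 1036)
(fin 974 6 973)))))))))))))
(mv 844 (cons (fin 908 7 844)
(mv 845 (cons (fin 780 7 780)
(fin 1102 4 845)))))))))))))))))))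
(cons (mv 1039 (cons (fin 1100 1 1036)
(mv 976 (cons (fin 977 2 973)
(mv 1036 (cons (fin 975 2 972)
(mv 1104 (cons (fin 1103 0 1036)
(fin 1105 0 1037)))))))))
(cons (mv 1039 (cons (fin 1100 1 1036)
(mv 972 (cons (fin 973 3 972)
(mv 1036 (cons (fin 971 3 971)
(mv 1104 (cons (fin 1103 0 1036)
(fin 1105 0 1037)))))))))
(mv 1039 (cons (fin 1100 1 1036)
(mv 973 (cons (fin 972 3 972)
(mv 976 (cons (fin 977 2 973)
(mv 1104 (cons (fin 1105 0 1037)
(mv 909 (cons (cons (mv 1102 (cons (fin 845 4 845)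
(fin 1166 4 909)))
(mv 844 (cons (fin 908 7 844)
(mv 780 (cons (fin 845 7 780)
(mv 910 (cons (fin 846 6 845)
(mv 1165 (cons (fin 974 6 909)
(mv 1228 (cons (fin 1164 5 972)
(mv 1229 (cons (fin 1292 5 1036)
(mv 1230 (cons (fin 1166 4 973)
(fin 1294 4 1037))))))))))))))))
(cons (mv 844 (cons (fin 908 7 844)
(mv 846 (cons (fin 910 6 845)
(mv 1166 (cons (fin 1102 4 909)
(mv 1165 (cons (fin 1230 4 973)
(mv 1228 (cons (fin 1164 5 972)
(mv 1229 (cons (fin 1292 5 1036)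
(fin 974 6 973)))))))))))))
(mv 844 (cons (fin 908 7 844)
(mv 845 (cons (fin 780 7 780)
(fin 1102 4 845))))))))))))))))))))))))))
def l121 : Lem := ⟨13254031944712882724506621310649321556018620670345837899455453023597314721787975009848330616026462815765143756135158089473467252075149308743152655366187148242124071246428482498451210046760672027239036899891323305324899173507745103325308665813954110541579506451753178596634830548552232523722901151470534797188661248, 2675984352907870388517306036218735069535178717726361799182509526144702189661467099384180874819715982246188356201851429996557278027512867903809513630538862725352139460808975964614293914776434070124632344873966911709443892364778106179193330752811084875675892250481572463531601998308348299827265699655716438907934914854040049860597239918710741293943367296057625054785105408740485548199381719658678315060876942880925331371781180568544360803746847916032,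 2675984352907870388517306036218735069535178717726361799182509526144702189661467099384180874819715982246188356201851429996557278027512867903809513630538862725352139460808975964614293914776434070124632344873966911709443892364778106179193330752811084875675892250481572463531601998308348299827265699655716438907934914854040049860597239918710741293943367296057625054785105408740485548199381719658678315060876942880925331371781180568544360803746847916032, 19, 33⟩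
theorem l121_valid : l121.Valid :=
  Lem.valid_of_chk t121 t121_valid [1037, 1040] c121 l121 (by decide +kernel)
end Crest.Agent.SnakyAux
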