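import Crest.Agent.S0047_aux.Checker

set_option autoImplicit false
set_option maxRecDepth 100000
namespace Crest.Agent.SnakyAux
open Cert
def t122 : Tbl := Tbl.nil
theorem t122_valid : t122.Valid := Tbl.valid_nil
def c122 : Cert :=
(mv 973 (cons (cons (cons (cons (mv 1038 (cons (cons (mv 1039 (cons (fin 972 3 972)
(mv 1100 (cons (fin 1101 1 1036)
(mv 1104 (cons (fin 1105 0 1037)
(mv 1036 (cons (fin 1099 1 1035)
(fin 1103 0 1036)))))))))
(cons (mv 1102 (cons (cons (mv 1166 (cons (fin 1230 7 973)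
(mv 909 (cons (fin 974 7 909)
(fin 1101 4 909)))))
(mv 1166 (cons (fin 1230 7 973)
(mv 974 (cons (cons (mv 1229 (cons (fin 1165 5 973)
(mv 1231 (cons (fin 1167 4 974)
(mv 975 (cons (fin 911 6 910)
(mv 1036 (cons (fin 976 1 972)
(fin 1035 2 971)))))))))
(mv 1231 (cons (fin 1167 4 974)
(mv 975 (cons (fin 911 6 910)
(mv 1036 (cons (fin 976 1 972)
(fin 1035 2 971))))))))
(cons (mv 1229 (cons (fin 1165 5 973)
(mv 1167 (cons (fin 1231 4 974)
(mv 1103 (cons (fin 910 4 910)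
(mv 1104 (cons (fin 1105 3 1037)
(mv 1036 (cons (fin 1101 3 1036)
(fin 1035 0 1035)))))))))))
(cons (mv 1229 (cons (fin 1165 5 973)
(mv 975 (cons (fin 911 6 910)
(mv 1036 (cons (fin 976 1 972)
(fin 1035 2 971)))))))
(mv 1229 (cons (fin 1165 5 973)
(mv 1231 (cons (fin 1167 4 974)
(mv 911 (cons (fin 975 6 910)
(mv 910 (cons (fin 847 6 846)
(mv 846 (cons (fin 1101 5 845)
(fin 782 5 781))))))))))))))))))
(cons (mv 909 (cons (fin 845 4 845)
(mv 1101 (cons (cons (mv 1164 (cons (fin 1100 5 908)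
(mv 1165 (cons (fin 1228 5 972)
(mv 1229 (cons (fin 1293 6 1037)
(fin 974 6 973)))))))
(mv 908 (cons (fin 844 7 844)
(mv 1165 (cons (fin 972 7 908)
(mv 1229 (cons (fin 1293 6 1037)
(fin 974 6 973))))))))
(cons (mv 1100 (cons (fin 1164 5 908)
(mv 1099 (cons (fin 1098 2 1034)
(mv 1162 (cons (fin 1163 1 1098)
(mv 1035 (cons (fin 1034 3 1034)
(mv 1103 (cons (fin 1036 3 1035)
(mv 1104 (cons (fin 1105 3 1037)
(mv 908 (cons (fin 844 7 844)
(mv 910 (cons (fin 846 6 845)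
(mv 1167 (cons (fin 974 4 910)
(mv 1295 (cons (fin 1231 7 1038)
(mv 912 (cons (fin 976 5 911)
(mv 911 (cons (fin 972 1 908)
(mv 848 (cons (fin 847 2 844)
(fin 849 2 845)))))))))))))))))))))))))))
(mv 1164 (cons (fin 1100 5 908)
(mv 1165 (cons (fin 1228 5 972)
(mv 908 (cons (fin 972 7 908)
(fin 844 7 844))))))))))))
(cons (mv 1166 (cons (fin 1230 7 973)
(mv 909 (cons (fin 1101 4 909)
(fin 845 4 845)))))
(mv 1166 (cons (fin 1230 7 973)
(mv 909 (cons (fin 974 7 909)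
(fin 845 4 845)))))))))
(mv 1039 (cons (cons (mv 1100 (cons (fin 1101 1 1036)
(mv 1104 (cons (fin 1105 0 1037)
(mv 1036 (cons (fin 1099 1 1035)
(fin 1103 0 1036)))))))
(mv 1104 (cons (fin 1105 0 1037)
(mv 1103 (cons (fin 1036 0 1036)
(mv 976 (cons (fin 977 2 973)
(mv 1167 (cons (fin 912 5 911)
(fin 1231 6 975))))))))))
(cons (mv 1100 (cons (fin 1101 1 1036)
(mv 1036 (cons (fin 1099 1 1035)
(mv 976 (cons (fin 975 2 972)
(fin 977 2 973)))))))
(mv 1100 (cons (fin 1101 1 1036)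
(mv 1104 (cons (fin 1105 0 1037)
(mv 976 (cons (fin 977 2 973)
(mv 912 (cons (mv 1103 (cons (fin 1167 5 911)
(fin 848 5 847)))
(mv 911 (cons (fin 847 7 847)
(mv 913 (cons (fin 849 6 848)
(mv 974 (cons (fin 910 1 909)
(fin 975 2 909))))))))))))))))))))
(cons (mv 1039 (cons (fin 972 3 972)
(mv 1104 (cons (fin 1105 0 1037)
(mv 1103 (cons (fin 1036 0 1036)
(mv 976 (cons (fin 977 2 973)
(mv 1167 (cons (fin 912 5 911)
(fin 1231 6 975)))))))))))
(cons (mv 1039 (cons (fin 972 3 972)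
(mv 1100 (cons (fin 1101 1 1036)
(mv 1036 (cons (fin 1099 1 1035)
(mv 976 (cons (fin 975 2 972)
(fin 977 2 973)))))))))
(mv 1039 (cons (fin 972 3 972)
(mv 1100 (cons (fin 1101 1 1036)
(mv 1104 (cons (fin 1105 0 1037)
(mv 976 (cons (fin 977 2 973)
(mv 912 (cons (mv 1103 (cons (fin 1167 5 911)
(fin 848 5 847)))
(mv 911 (cons (fin 847 7 847)
(mv 913 (cons (fin 849 6 848)
(mv 974 (cons (fin 910 1 909)
(fin 975 2 909)))))))))))))))))))))
(mv 1101 (cons (cons (mv 909 (cons (cons (mv 1164 (cons (fin 1100 5 908)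
(mv 1228 (cons (fin 1165 5 972)
(mv 1166 (cons (fin 1102 4 909)
(mv 844 (cons (fin 908 7 844)
(mv 845 (cons (fin 780 7 780)
(mv 846 (cons (fin 910 6 845)
(fin 782 6 781)))))))))))))
(mv 1164 (cons (fin 1100 5 908)
(mv 1165 (cons (fin 1228 5 972)
(mv 1166 (cons (fin 1230 4 973)
(fin 1102 4 909))))))))
(cons (mv 1166 (cons (fin 1102 4 909)
(mv 1230 (cons (fin 1165 4 973)
(mv 844 (cons (fin 908 7 844)
(mv 845 (cons (fin 780 7 780)
(mv 846 (cons (fin 910 6 845)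
(fin 782 6 781)))))))))))
(cons (mv 1164 (cons (fin 1100 5 908)
(mv 1228 (cons (fin 1165 5 972)
(mv 844 (cons (fin 908 7 844)
(mv 845 (cons (fin 780 7 780)
(mv 846 (cons (fin 910 6 845)
(fin 782 6 781)))))))))))
(mv 1164 (cons (fin 1100 5 908)
(mv 1166 (cons (fin 1102 4 909)
(mv 844 (cons (fin 908 7 844)
(mv 845 (cons (fin 780 7 780)
(mv 846 (cons (fin 910 6 845)
(fin 782 6 781)))))))))))))))
(cons (mv 1165 (cons (cons (mv 1228 (cons (fin 1164 5 972)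
(mv 1292 (cons (fin 1229 5 1036)
(mv 1230 (cons (fin 1166 4 973)
(mv 972 (cons (fin 908 7 908)
(mv 974 (cons (fin 910 6 909)
(mv 975 (cons (fin 1039 0 972)
(mv 1036 (cons (fin 1035 1 971)
(fin 976 1 972)))))))))))))))
(mv 1228 (cons (fin 1164 5 972)
(mv 1229 (cons (fin 1292 5 1036)
(mv 1230 (cons (fin 1294 4 1037)
(fin 1166 4 973))))))))
(cons (mv 1230 (cons (fin 1166 4 973)
(mv 1294 (cons (fin 1229 4 1037)
(mv 972 (cons (fin 908 7 908)
(mv 974 (cons (fin 910 6 909)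
(mv 975 (cons (fin 1039 0 972)
(mv 1036 (cons (fin 1035 1 971)
(fin 976 1 972)))))))))))))
(cons (mv 1228 (cons (fin 1164 5 972)
(mv 1292 (cons (fin 1229 5 1036)
(mv 972 (cons (fin 908 7 908)
(mv 974 (cons (fin 910 6 909)
(mv 975 (cons (fin 1039 0 972)
(mv 1036 (cons (fin 1035 1 971)
(fin 976 1 972)))))))))))))
(mv 1228 (cons (fin 1164 5 972)
(mv 1230 (cons (fin 1166 4 973)
(mv 972 (cons (fin 908 7 908)
(mv 974 (cons (fin 910 6 909)
(mv 975 (cons (fin 1039 0 972)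
(mv 1036 (cons (fin 1035 1 971)
(fin 976 1 972)))))))))))))))))
(mv 909 (cons (cons (mv 1164 (cons (fin 1100 5 908)
(mv 1166 (cons (fin 1102 4 909)
(mv 844 (cons (fin 908 7 844)
(mv 845 (cons (fin 780 7 780)
(mv 846 (cons (fin 910 6 845)
(fin 782 6 781)))))))))))
(cons (mv 1166 (cons (fin 1102 4 909)
(mv 844 (cons (fin 908 7 844)
(mv 845 (cons (fin 780 7 780)
(mv 846 (cons (fin 910 6 845)
(fin 782 6 781)))))))))
(mv 1166 (cons (fin 1102 4 909)
(mv 1100 (cons (fin 1164 5 908)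
(mv 845 (cons (fin 1036 5 844)
(mv 846 (cons (fin 910 6 845)
(fin 782 6 781)))))))))))
(cons (mv 1166 (cons (fin 1102 4 909)
(mv 1100 (cons (fin 1164 5 908)
(mv 844 (cons (fin 908 7 844)
(mv 845 (cons (fin 1036 5 844)
(fin 780 7 780)))))))))
(cons (mv 1164 (cons (fin 1100 5 908)
(mv 844 (cons (fin 908 7 844)
(mv 845 (cons (fin 780 7 780)
(mv 846 (cons (fin 910 6 845)
(fin 782 6 781)))))))))
(mv 1100 (cons (fin 1164 5 908)
(mv 1102 (cons (fin 1166 4 909)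
(mv 1103 (cons (fin 1039 2 1036)
(mv 1036 (cons (fin 1035 3 1035)
(fin 1104 3 1036)))))))))))))))
(cons (cons (mv 909 (cons (cons (mv 1166 (cons (fin 1102 4 909)
(mv 1230 (cons (fin 1165 4 973)
(mv 910 (cons (fin 846 6 845)
(mv 844 (cons (fin 908 7 844)
(mv 845 (cons (fin 780 7 780)
(mv 1036 (cons (fin 1100 5 844)
(mv 972 (cons (fin 781 5 780)
(mv 971 (cons (fin 970 2 906)
(mv 911 (cons (fin 912 1 908)
(fin 974 2 907)))))))))))))))))))
(cons (mv 1166 (cons (fin 1102 4 909)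
(mv 1230 (cons (fin 1165 4 973)
(mv 846 (cons (fin 910 6 845)
(mv 845 (cons (fin 782 6 781)
(mv 1036 (cons (fin 1100 5 844)
(mv 780 (cons (fin 844 7 780)
(mv 781 (cons (fin 972 5 780)
(fin 716 7 716)))))))))))))))
(mv 1166 (cons (fin 1102 4 909)
(mv 1230 (cons (fin 1165 4 973)
(mv 844 (cons (fin 908 7 844)
(mv 845 (cons (fin 780 7 780)
(mv 1036 (cons (fin 1100 5 844)
(mv 781 (cons (fin 972 5 780)
(mv 782 (cons (fin 846 6 781)
(fin 718 6 717)))))))))))))))))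
(cons (cons (mv 1166 (cons (fin 1102 4 909)
(mv 1165 (cons (fin 1230 4 973)
(mv 910 (cons (fin 974 6 909)
(fin 846 6 845)))))))
(mv 1166 (cons (fin 1102 4 909)
(mv 1165 (cons (fin 1230 4 973)
(mv 908 (cons (fin 972 7 908)
(fin 844 7 844))))))))
(cons (mv 908 (cons (fin 844 7 844)
(mv 1165 (cons (fin 972 7 908)
(mv 910 (cons (fin 974 6 909)
(fin 846 6 845)))))))
(mv 1166 (cons (fin 1102 4 909)
(mv 910 (cons (fin 846 6 845)
(mv 844 (cons (fin 908 7 844)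
(mv 845 (cons (fin 780 7 780)
(mv 1036 (cons (fin 1100 5 844)
(mv 972 (cons (fin 781 5 780)
(mv 971 (cons (fin 970 2 906)
(mv 911 (cons (fin 912 1 908)
(fin 974 2 907)))))))))))))))))))))
(mv 1165 (cons (cons (mv 1228 (cons (fin 1164 5 972)
(mv 1292 (cons (fin 1229 5 1036)
(mv 1166 (cons (fin 1230 4 973)
(mv 909 (cons (fin 1102 4 909)
(mv 910 (cons (fin 974 6 909)
(fin 846 6 845)))))))))))
(cons (mv 1230 (cons (fin 1166 4 973)
(mv 1229 (cons (fin 1294 4 1037)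
(mv 1292 (cons (fin 1228 5 1036)
(mv 1293 (cons (fin 1356 5 1100)
(mv 1036 (cons (fin 1100 7 1036)
(fin 972 7 972)))))))))))
(mv 1228 (cons (fin 1164 5 972)
(mv 1229 (cons (fin 1292 5 1036)
(mv 1294 (cons (fin 1230 4 1037)
(mv 1293 (cons (fin 1358 4 1101)
(mv 1036 (cons (fin 1100 7 1036)
(fin 972 7 972)))))))))))))
(cons (mv 1230 (cons (fin 1166 4 973)
(mv 1229 (cons (fin 1294 4 1037)
(mv 1036 (cons (fin 972 7 972)
(mv 1100 (cons (fin 1293 7 1036)
(mv 909 (cons (fin 1164 5 908)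
(fin 845 5 844)))))))))))
(cons (mv 1228 (cons (fin 1164 5 972)
(mv 1229 (cons (fin 1292 5 1036)
(mv 1036 (cons (fin 972 7 972)
(mv 1100 (cons (fin 1293 7 1036)
(mv 974 (cons (fin 910 6 909)
(mv 1034 (cons (fin 1035 2 970)
(mv 975 (cons (fin 976 1 972)
(mv 909 (cons (fin 845 5 844)
(mv 1102 (cons (fin 1166 4 909)
(mv 1103 (cons (fin 1104 3 1036)
(fin 1039 2 1036)))))))))))))))))))))
(mv 1228 (cons (fin 1164 5 972)
(mv 1166 (cons (fin 1230 4 973)
(mv 909 (cons (fin 1102 4 909)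
(mv 910 (cons (fin 974 6 909)
(fin 846 6 845))))))))))))))
(cons (mv 1165 (cons (cons (mv 1228 (cons (fin 1164 5 972)
(mv 1292 (cons (fin 1229 5 1036)
(mv 1166 (cons (fin 1230 4 973)
(mv 908 (cons (fin 972 7 908)
(mv 909 (cons (fin 844 7 844)
(fin 1102 4 909)))))))))))
(mv 1230 (cons (fin 1166 4 973)
(mv 1229 (cons (fin 1294 4 1037)
(mv 972 (cons (fin 1036 7 972)
(fin 908 7 908))))))))
(cons (mv 1228 (cons (fin 1164 5 972)
(mv 1229 (cons (fin 1292 5 1036)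
(mv 1230 (cons (fin 1294 4 1037)
(fin 1166 4 973)))))))
(cons (mv 1228 (cons (fin 1164 5 972)
(mv 1229 (cons (fin 1292 5 1036)
(mv 972 (cons (fin 1036 7 972)
(fin 908 7 908)))))))
(mv 1228 (cons (fin 1164 5 972)
(mv 1166 (cons (fin 1230 4 973)
(mv 908 (cons (fin 972 7 908)
(mv 909 (cons (fin 844 7 844)
(fin 1102 4 909)))))))))))))
(mv 909 (cons (cons (mv 1164 (cons (fin 1100 5 908)
(mv 1228 (cons (fin 1165 5 972)
(mv 844 (cons (fin 908 7 844)
(mv 845 (cons (fin 780 7 780)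
(mv 846 (cons (fin 910 6 845)
(fin 782 6 781)))))))))))
(mv 1164 (cons (fin 1100 5 908)
(mv 1165 (cons (fin 1228 5 972)
(mv 910 (cons (fin 974 6 909)
(fin 846 6 845))))))))
(cons (mv 1164 (cons (fin 1100 5 908)
(mv 1165 (cons (fin 1228 5 972)
(mv 908 (cons (fin 972 7 908)
(fin 844 7 844)))))))
(cons (mv 908 (cons (fin 844 7 844)
(mv 1165 (cons (fin 972 7 908)
(mv 910 (cons (fin 974 6 909)
(fin 846 6 845)))))))
(mv 1164 (cons (fin 1100 5 908)
(mv 844 (cons (fin 908 7 844)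
(mv 845 (cons (fin 780 7 780)
(mv 846 (cons (fin 910 6 845)
(fin 782 6 781))))))))))))))))))
(cons (mv 1101 (cons (cons (cons (mv 909 (cons (cons (mv 1164 (cons (fin 1100 5 908)
(mv 1228 (cons (fin 1165 5 972)
(mv 1166 (cons (fin 1102 4 909)
(mv 844 (cons (fin 908 7 844)
(mv 845 (cons (fin 780 7 780)
(mv 846 (cons (fin 910 6 845)
(fin 782 6 781)))))))))))))
(cons (mv 1166 (cons (fin 1102 4 909)
(mv 1230 (cons (fin 1165 4 973)
(mv 844 (cons (fin 908 7 844)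
(mv 845 (cons (fin 780 7 780)
(mv 846 (cons (fin 910 6 845)
(fin 782 6 781)))))))))))
(mv 1164 (cons (fin 1100 5 908)
(mv 1228 (cons (fin 1165 5 972)
(mv 844 (cons (fin 908 7 844)
(mv 845 (cons (fin 780 7 780)
(mv 846 (cons (fin 910 6 845)
(fin 782 6 781)))))))))))))
(cons (cons (mv 1164 (cons (fin 1100 5 908)
(mv 1228 (cons (fin 1165 5 972)
(mv 1102 (cons (fin 1166 4 909)
(mv 844 (cons (fin 908 7 844)
(mv 845 (cons (fin 780 7 780)
(fin 1038 4 845)))))))))))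
(mv 1164 (cons (fin 1100 5 908)
(mv 1228 (cons (fin 1165 5 972)
(mv 1102 (cons (fin 1166 4 909)
(mv 845 (cons (fin 1038 4 845)
(mv 846 (cons (fin 910 6 845)
(fin 782 6 781))))))))))))
(cons (mv 1164 (cons (fin 1100 5 908)
(mv 1165 (cons (fin 1228 5 972)
(mv 1166 (cons (fin 1230 4 973)
(fin 1102 4 909)))))))
(mv 1164 (cons (fin 1100 5 908)
(mv 1166 (cons (fin 1102 4 909)
(mv 844 (cons (fin 908 7 844)
(mv 845 (cons (fin 780 7 780)
(mv 846 (cons (fin 910 6 845)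
(fin 782 6 781)))))))))))))))
(mv 1165 (cons (cons (mv 1228 (cons (fin 1164 5 972)
(mv 1229 (cons (fin 1292 5 1036)
(mv 1230 (cons (fin 1294 4 1037)
(fin 1166 4 973)))))))
(mv 1228 (cons (fin 1164 5 972)
(mv 1229 (cons (fin 1292 5 1036)
(mv 974 (cons (fin 1038 6 973)
(fin 910 6 909))))))))
(cons (mv 1230 (cons (fin 1166 4 973)
(mv 1229 (cons (fin 1294 4 1037)
(mv 974 (cons (fin 1038 6 973)
(fin 910 6 909)))))))
(mv 1164 (cons (fin 1228 5 972)
(mv 1166 (cons (fin 1230 4 973)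
(mv 974 (cons (fin 910 6 909)
(mv 1163 (cons (cons (mv 1102 (cons (fin 1162 2 1098)
(fin 1103 2 1099)))
(mv 1226 (cons (fin 1227 1 1162)
(mv 1225 (cons (fin 1162 1 1161)
(mv 1099 (cons (fin 1098 3 1098)
(mv 1167 (cons (fin 1100 3 1099)
(mv 1231 (cons (fin 1232 0 1164)
(mv 1103 (cons (fin 1104 2 1100)
(mv 1039 (cons (fin 1038 7 974)
(fin 976 6 975))))))))))))))))
(cons (mv 1226 (cons (fin 1227 1 1162)
(mv 1162 (cons (fin 1225 1 1161)
(fin 1102 2 1098)))))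
(mv 1226 (cons (fin 1227 1 1162)
(mv 1098 (cons (fin 1099 3 1098)
(mv 1103 (cons (fin 1102 2 1099)
(mv 1167 (cons (fin 1104 2 1100)
(mv 1231 (cons (fin 1232 0 1164)
(mv 1039 (cons (fin 1038 7 974)
(fin 976 6 975))))))))))))))))))))))))))
(cons (mv 909 (cons (cons (mv 1164 (cons (fin 1100 5 908)
(mv 1166 (cons (fin 1102 4 909)
(mv 844 (cons (fin 908 7 844)
(mv 845 (cons (fin 780 7 780)
(mv 846 (cons (fin 910 6 845)
(fin 782 6 781)))))))))))
(cons (mv 1166 (cons (fin 1102 4 909)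
(mv 844 (cons (fin 908 7 844)
(mv 845 (cons (fin 780 7 780)
(mv 846 (cons (fin 910 6 845)
(fin 782 6 781)))))))))
(mv 1164 (cons (fin 1100 5 908)
(mv 844 (cons (fin 908 7 844)
(mv 845 (cons (fin 780 7 780)
(mv 846 (cons (fin 910 6 845)
(fin 782 6 781)))))))))))
(cons (mv 1164 (cons (fin 1100 5 908)
(mv 1102 (cons (fin 1166 4 909)
(mv 844 (cons (fin 908 7 844)
(mv 845 (cons (fin 780 7 780)
(fin 1038 4 845)))))))))
(cons (mv 1164 (cons (fin 1100 5 908)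
(mv 1102 (cons (fin 1166 4 909)
(mv 845 (cons (fin 1038 4 845)
(mv 846 (cons (fin 910 6 845)
(fin 782 6 781)))))))))
(mv 1100 (cons (fin 1164 5 908)
(mv 1102 (cons (fin 1166 4 909)
(mv 1039 (cons (fin 1038 1 1036)
(fin 1103 2 1036)))))))))))
(mv 909 (cons (cons (mv 1166 (cons (fin 1102 4 909)
(mv 1230 (cons (fin 1165 4 973)
(mv 844 (cons (fin 908 7 844)
(mv 845 (cons (fin 780 7 780)
(mv 846 (cons (fin 910 6 845)
(fin 782 6 781)))))))))))
(mv 908 (cons (fin 844 7 844)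
(mv 910 (cons (fin 846 6 845)
(mv 1165 (cons (fin 974 6 909)
(mv 1228 (cons (fin 1164 5 972)
(mv 1229 (cons (fin 1292 5 1036)
(mv 1230 (cons (fin 1294 4 1037)
(fin 1166 4 973))))))))))))))
(cons (mv 1102 (cons (fin 1166 4 909)
(mv 844 (cons (fin 908 7 844)
(mv 845 (cons (fin 780 7 780)
(fin 1038 4 845)))))))
(cons (mv 908 (cons (fin 844 7 844)
(mv 910 (cons (fin 846 6 845)
(mv 974 (cons (fin 1165 6 909)
(mv 975 (cons (fin 976 3 908)
(fin 907 0 907)))))))))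
(mv 1166 (cons (fin 1102 4 909)
(mv 1165 (cons (fin 1230 4 973)
(mv 910 (cons (fin 974 6 909)
(fin 846 6 845)))))))))))))
(cons (cons (mv 909 (cons (cons (mv 1166 (cons (fin 1102 4 909)
(mv 1230 (cons (fin 1165 4 973)
(mv 844 (cons (fin 908 7 844)
(mv 845 (cons (fin 780 7 780)
(mv 846 (cons (fin 910 6 845)
(fin 782 6 781)))))))))))
(mv 908 (cons (fin 844 7 844)
(mv 910 (cons (fin 846 6 845)
(mv 974 (cons (fin 1165 6 909)
(mv 975 (cons (fin 976 3 908)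
(fin 907 0 907))))))))))
(cons (mv 1166 (cons (fin 1102 4 909)
(mv 1230 (cons (fin 1165 4 973)
(mv 844 (cons (fin 908 7 844)
(mv 845 (cons (fin 780 7 780)
(mv 1100 (cons (fin 1036 5 844)
(mv 1038 (cons (fin 1039 1 1036)
(mv 1098 (cons (fin 1099 2 1034)
(mv 781 (cons (fin 974 4 781)
(mv 782 (cons (fin 846 6 781)
(fin 718 6 717)))))))))))))))))))
(cons (mv 1166 (cons (fin 1102 4 909)
(mv 1165 (cons (fin 1230 4 973)
(mv 974 (cons (fin 910 6 909)
(mv 1038 (cons (fin 1229 6 973)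
(mv 1100 (cons (fin 1039 1 1036)
(mv 845 (cons (fin 1036 5 844)
(fin 781 4 781)))))))))))))
(mv 1166 (cons (fin 1102 4 909)
(mv 844 (cons (fin 908 7 844)
(mv 845 (cons (fin 780 7 780)
(mv 846 (cons (fin 910 6 845)
(fin 782 6 781)))))))))))))
(mv 909 (cons (cons (mv 1164 (cons (fin 1100 5 908)
(mv 1228 (cons (fin 1165 5 972)
(mv 908 (cons (fin 844 7 844)
(mv 846 (cons (fin 910 6 845)
(mv 845 (cons (fin 782 6 781)
(mv 1038 (cons (fin 1102 4 845)
(mv 974 (cons (fin 781 4 781)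
(mv 976 (cons (fin 975 3 908)
(mv 1039 (cons (fin 977 2 973)
(mv 1104 (cons (fin 1105 0 1037)
(mv 1103 (cons (fin 1036 0 1036)
(mv 1167 (cons (fin 912 5 911)
(fin 1231 7 974)))))))))))))))))))))))))
(cons (mv 908 (cons (fin 844 7 844)
(mv 910 (cons (fin 846 6 845)
(mv 974 (cons (fin 1165 6 909)
(mv 975 (cons (fin 976 3 908)
(fin 907 0 907)))))))))
(mv 1164 (cons (fin 1100 5 908)
(mv 1228 (cons (fin 1165 5 972)
(mv 844 (cons (fin 908 7 844)
(mv 845 (cons (fin 780 7 780)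
(mv 1038 (cons (fin 1102 4 845)
(mv 781 (cons (fin 974 4 781)
(mv 782 (cons (fin 846 6 781)
(fin 718 6 717)))))))))))))))))
(cons (mv 1164 (cons (fin 1100 5 908)
(mv 1165 (cons (fin 1228 5 972)
(mv 974 (cons (fin 910 6 909)
(mv 1038 (cons (fin 1229 6 973)
(mv 845 (cons (fin 1102 4 845)
(fin 781 4 781)))))))))))
(cons (mv 1164 (cons (fin 1100 5 908)
(mv 908 (cons (fin 844 7 844)
(mv 846 (cons (fin 910 6 845)
(mv 845 (cons (fin 782 6 781)
(mv 1038 (cons (fin 1102 4 845)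
(mv 974 (cons (fin 781 4 781)
(mv 976 (cons (fin 975 3 908)
(mv 1039 (cons (fin 977 2 973)
(mv 1104 (cons (fin 1105 0 1037)
(mv 1103 (cons (fin 1036 0 1036)
(mv 1167 (cons (fin 912 5 911)
(fin 1231 7 974)))))))))))))))))))))))
(mv 1164 (cons (fin 1100 5 908)
(mv 1228 (cons (fin 1165 5 972)
(mv 844 (cons (fin 908 7 844)
(mv 845 (cons (fin 780 7 780)
(mv 846 (cons (fin 910 6 845)
(fin 782 6 781))))))))))))))))
(cons (mv 909 (cons (cons (mv 1164 (cons (fin 1100 5 908)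
(mv 1228 (cons (fin 1165 5 972)
(mv 1102 (cons (fin 1166 4 909)
(mv 844 (cons (fin 908 7 844)
(mv 845 (cons (fin 780 7 780)
(fin 1038 4 845)))))))))))
(mv 1102 (cons (fin 1166 4 909)
(mv 844 (cons (fin 908 7 844)
(mv 845 (cons (fin 780 7 780)
(fin 1038 4 845))))))))
(cons (mv 1100 (cons (fin 1164 5 908)
(mv 1038 (cons (fin 1039 1 1036)
(mv 1098 (cons (fin 1099 2 1034)
(mv 908 (cons (fin 844 7 844)
(mv 845 (cons (fin 1036 5 844)
(mv 781 (cons (fin 974 4 781)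
(mv 782 (cons (fin 846 6 781)
(fin 718 6 717)))))))))))))))
(mv 1164 (cons (fin 1100 5 908)
(mv 1165 (cons (fin 1228 5 972)
(mv 1166 (cons (fin 1230 4 973)
(fin 1102 4 909))))))))))
(cons (mv 909 (cons (cons (mv 1164 (cons (fin 1100 5 908)
(mv 1228 (cons (fin 1165 5 972)
(mv 1166 (cons (fin 1102 4 909)
(mv 844 (cons (fin 908 7 844)
(mv 845 (cons (fin 780 7 780)
(mv 846 (cons (fin 910 6 845)
(fin 782 6 781)))))))))))))
(mv 1166 (cons (fin 1102 4 909)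
(mv 1230 (cons (fin 1165 4 973)
(mv 844 (cons (fin 908 7 844)
(mv 845 (cons (fin 780 7 780)
(mv 846 (cons (fin 910 6 845)
(fin 782 6 781))))))))))))
(cons (mv 1164 (cons (fin 1100 5 908)
(mv 1165 (cons (fin 1228 5 972)
(mv 1166 (cons (fin 1230 4 973)
(fin 1102 4 909)))))))
(cons (mv 1164 (cons (fin 1100 5 908)
(mv 1228 (cons (fin 1165 5 972)
(mv 844 (cons (fin 908 7 844)
(mv 845 (cons (fin 780 7 780)
(mv 846 (cons (fin 910 6 845)
(fin 782 6 781)))))))))))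
(mv 1164 (cons (fin 1100 5 908)
(mv 1166 (cons (fin 1102 4 909)
(mv 844 (cons (fin 908 7 844)
(mv 845 (cons (fin 780 7 780)
(mv 846 (cons (fin 910 6 845)
(fin 782 6 781)))))))))))))))
(mv 909 (cons (cons (mv 1164 (cons (fin 1100 5 908)
(mv 1228 (cons (fin 1165 5 972)
(mv 844 (cons (fin 908 7 844)
(mv 845 (cons (fin 780 7 780)
(mv 846 (cons (fin 910 6 845)
(fin 782 6 781)))))))))))
(mv 908 (cons (fin 844 7 844)
(mv 910 (cons (fin 846 6 845)
(mv 1165 (cons (fin 974 6 909)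
(mv 1228 (cons (fin 1164 5 972)
(mv 1229 (cons (fin 1292 5 1036)
(mv 1230 (cons (fin 1294 4 1037)
(fin 1166 4 973))))))))))))))
(cons (mv 1100 (cons (fin 1164 5 908)
(mv 1038 (cons (fin 1039 1 1036)
(mv 1098 (cons (fin 1099 2 1034)
(mv 908 (cons (fin 844 7 844)
(mv 845 (cons (fin 1036 5 844)
(mv 781 (cons (fin 974 4 781)
(mv 782 (cons (fin 846 6 781)
(fin 718 6 717)))))))))))))))
(cons (mv 1164 (cons (fin 1100 5 908)
(mv 1165 (cons (fin 1228 5 972)
(mv 1230 (cons (fin 1166 4 973)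
(mv 1229 (cons (fin 1294 4 1037)
(mv 974 (cons (fin 1038 6 973)
(fin 910 6 909)))))))))))
(mv 908 (cons (fin 844 7 844)
(mv 910 (cons (fin 846 6 845)
(mv 974 (cons (fin 1165 6 909)
(mv 975 (cons (fin 976 3 908)
(fin 907 0 907))))))))))))))))))
(mv 909 (cons (cons (cons (mv 845 (cons (cons (cons (mv 1100 (cons (fin 1036 5 844)
(mv 1164 (cons (fin 1101 5 908)
(mv 1102 (cons (fin 1038 4 845)
(mv 780 (cons (fin 844 7 780)
(mv 781 (cons (fin 716 7 716)
(mv 782 (cons (fin 846 6 781)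
(fin 718 6 717)))))))))))))
(mv 1100 (cons (fin 1036 5 844)
(mv 1164 (cons (fin 1101 5 908)
(mv 1038 (cons (fin 1102 4 845)
(mv 846 (cons (fin 782 6 781)
(mv 781 (cons (fin 974 4 781)
(mv 716 (cons (fin 780 7 716)
(mv 717 (cons (fin 652 7 652)
(mv 972 (cons (fin 908 5 716)
(mv 970 (cons (fin 971 0 970)
(mv 653 (cons (fin 910 4 653)
(mv 654 (cons (fin 718 6 653)
(fin 590 6 589))))))))))))))))))))))))
(cons (mv 1100 (cons (fin 1036 5 844)
(mv 1164 (cons (fin 1101 5 908)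
(mv 1038 (cons (fin 1102 4 845)
(mv 844 (cons (fin 780 7 780)
(mv 781 (cons (fin 974 4 781)
(mv 718 (cons (fin 782 6 717)
(mv 717 (cons (fin 654 6 653)
(mv 908 (cons (fin 972 5 716)
(fin 653 5 652)))))))))))))))))
(mv 1102 (cons (fin 1038 4 845)
(mv 1166 (cons (fin 1101 4 909)
(mv 780 (cons (fin 844 7 780)
(mv 781 (cons (fin 716 7 716)
(mv 782 (cons (fin 846 6 781)
(fin 718 6 717)))))))))))))
(cons (cons (mv 1100 (cons (fin 1036 5 844)
(mv 1164 (cons (fin 1101 5 908)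
(mv 780 (cons (fin 844 7 780)
(mv 781 (cons (fin 716 7 716)
(mv 782 (cons (fin 846 6 781)
(fin 718 6 717)))))))))))
(mv 1100 (cons (fin 1036 5 844)
(mv 1164 (cons (fin 1101 5 908)
(mv 1038 (cons (fin 1102 4 845)
(mv 781 (cons (fin 974 4 781)
(mv 782 (cons (fin 846 6 781)
(fin 718 6 717))))))))))))
(cons (mv 1100 (cons (fin 1036 5 844)
(mv 1164 (cons (fin 1101 5 908)
(mv 1038 (cons (fin 1102 4 845)
(mv 780 (cons (fin 844 7 780)
(mv 781 (cons (fin 716 7 716)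
(fin 974 4 781)))))))))))
(cons (mv 1100 (cons (fin 1036 5 844)
(mv 1101 (cons (fin 1164 5 908)
(mv 1102 (cons (fin 1166 4 909)
(fin 1038 4 845)))))))
(mv 1100 (cons (fin 1036 5 844)
(mv 1102 (cons (fin 1038 4 845)
(mv 780 (cons (fin 844 7 780)
(mv 781 (cons (fin 716 7 716)
(mv 782 (cons (fin 846 6 781)
(fin 718 6 717))))))))))))))))
(mv 1101 (cons (cons (mv 1164 (cons (fin 1100 5 908)
(mv 1165 (cons (fin 1228 5 972)
(mv 1166 (cons (fin 1230 4 973)
(fin 1102 4 909)))))))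
(mv 1166 (cons (fin 1102 4 909)
(mv 1165 (cons (fin 1230 4 973)
(mv 908 (cons (fin 972 7 908)
(fin 844 7 844))))))))
(cons (mv 1164 (cons (fin 1100 5 908)
(mv 1165 (cons (fin 1228 5 972)
(mv 908 (cons (fin 972 7 908)
(fin 844 7 844)))))))
(mv 1164 (cons (fin 1100 5 908)
(mv 1166 (cons (fin 1102 4 909)
(mv 908 (cons (fin 844 7 844)
(mv 910 (cons (fin 846 6 845)
(mv 911 (cons (mv 972 (cons (fin 971 1 907)
(fin 912 1 908)))
(cons (mv 975 (cons (fin 976 0 908)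
(mv 974 (cons (fin 907 0 907)
(mv 912 (cons (fin 913 1 909)
(mv 848 (cons (fin 847 2 844)
(fin 849 2 845)))))))))
(mv 971 (cons (fin 972 1 907)
(mv 975 (cons (fin 976 0 908)
(mv 907 (cons (fin 970 1 906)
(fin 974 0 907))))))))))))))))))))))
(cons (mv 845 (cons (cons (mv 1100 (cons (fin 1036 5 844)
(mv 1102 (cons (fin 1038 4 845)
(mv 780 (cons (fin 844 7 780)
(mv 781 (cons (fin 716 7 716)
(mv 782 (cons (fin 846 6 781)
(fin 718 6 717)))))))))))
(cons (mv 1102 (cons (fin 1038 4 845)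
(mv 780 (cons (fin 844 7 780)
(mv 781 (cons (fin 716 7 716)
(mv 782 (cons (fin 846 6 781)
(fin 718 6 717)))))))))
(mv 1100 (cons (fin 1036 5 844)
(mv 780 (cons (fin 844 7 780)
(mv 781 (cons (fin 716 7 716)
(mv 782 (cons (fin 846 6 781)
(fin 718 6 717)))))))))))
(cons (mv 1100 (cons (fin 1036 5 844)
(mv 1038 (cons (fin 1102 4 845)
(mv 781 (cons (fin 974 4 781)
(mv 782 (cons (fin 846 6 781)
(fin 718 6 717)))))))))
(cons (mv 1100 (cons (fin 1036 5 844)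
(mv 1038 (cons (fin 1102 4 845)
(mv 780 (cons (fin 844 7 780)
(mv 781 (cons (fin 716 7 716)
(fin 974 4 781)))))))))
(mv 1100 (cons (fin 1036 5 844)
(mv 1102 (cons (fin 1038 4 845)
(mv 844 (cons (fin 780 7 780)
(mv 846 (cons (fin 782 6 781)
(mv 847 (cons (mv 908 (cons (fin 907 1 843)
(fin 848 1 844)))
(cons (mv 911 (cons (fin 912 0 844)
(mv 910 (cons (fin 843 0 843)
(mv 848 (cons (fin 849 1 845)
(mv 784 (cons (fin 783 2 780)
(fin 785 2 781)))))))))
(mv 907 (cons (fin 908 1 843)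
(mv 911 (cons (fin 912 0 844)
(mv 843 (cons (fin 906 1 842)
(fin 910 0 843))))))))))))))))))))))
(mv 1101 (cons (cons (mv 1164 (cons (fin 1100 5 908)
(mv 1228 (cons (fin 1165 5 972)
(mv 1102 (cons (fin 1166 4 909)
(mv 845 (cons (fin 1038 4 845)
(mv 846 (cons (fin 910 6 845)
(fin 782 6 781)))))))))))
(cons (mv 1164 (cons (fin 1100 5 908)
(mv 1228 (cons (fin 1165 5 972)
(mv 1102 (cons (fin 1166 4 909)
(mv 845 (cons (fin 1038 4 845)
(mv 782 (cons (fin 846 6 781)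
(mv 781 (cons (fin 718 6 717)
(mv 972 (cons (fin 1036 5 780)
(mv 716 (cons (fin 780 7 716)
(mv 717 (cons (fin 908 5 716)
(fin 652 7 652)))))))))))))))))))
(mv 1164 (cons (fin 1100 5 908)
(mv 1165 (cons (fin 1228 5 972)
(mv 910 (cons (fin 974 6 909)
(fin 846 6 845)))))))))
(cons (mv 1166 (cons (fin 1102 4 909)
(mv 1165 (cons (fin 1230 4 973)
(mv 910 (cons (fin 974 6 909)
(fin 846 6 845)))))))
(cons (mv 1164 (cons (fin 1100 5 908)
(mv 1165 (cons (fin 1228 5 972)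
(mv 1166 (cons (fin 1230 4 973)
(fin 1102 4 909)))))))
(mv 1164 (cons (fin 1100 5 908)
(mv 1102 (cons (fin 1166 4 909)
(mv 845 (cons (fin 1038 4 845)
(mv 846 (cons (fin 910 6 845)
(fin 782 6 781)))))))))))))))
(cons (cons (mv 1101 (cons (cons (mv 1164 (cons (fin 1100 5 908)
(mv 1228 (cons (fin 1165 5 972)
(mv 1102 (cons (fin 1166 4 909)
(mv 844 (cons (fin 908 7 844)
(mv 845 (cons (fin 780 7 780)
(fin 1038 4 845)))))))))))
(mv 1164 (cons (fin 1100 5 908)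
(mv 1165 (cons (fin 1228 5 972)
(mv 1166 (cons (fin 1230 4 973)
(fin 1102 4 909))))))))
(cons (mv 1164 (cons (fin 1100 5 908)
(mv 1165 (cons (fin 1228 5 972)
(mv 908 (cons (fin 972 7 908)
(fin 844 7 844)))))))
(cons (mv 1166 (cons (fin 1102 4 909)
(mv 1165 (cons (fin 1230 4 973)
(mv 908 (cons (fin 972 7 908)
(fin 844 7 844)))))))
(mv 1164 (cons (fin 1100 5 908)
(mv 1102 (cons (fin 1166 4 909)
(mv 844 (cons (fin 908 7 844)
(mv 845 (cons (fin 780 7 780)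
(fin 1038 4 845)))))))))))))
(mv 845 (cons (cons (mv 1100 (cons (fin 1036 5 844)
(mv 1164 (cons (fin 1101 5 908)
(mv 844 (cons (fin 780 7 780)
(mv 782 (cons (fin 846 6 781)
(mv 781 (cons (fin 718 6 717)
(mv 974 (cons (fin 1038 4 781)
(mv 910 (cons (fin 717 4 717)
(mv 911 (cons (fin 912 3 844)
(mv 843 (cons (fin 908 3 843)
(fin 842 0 842)))))))))))))))))))
(cons (mv 1100 (cons (fin 1036 5 844)
(mv 1164 (cons (fin 1101 5 908)
(mv 782 (cons (fin 846 6 781)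
(mv 781 (cons (fin 718 6 717)
(mv 974 (cons (fin 1038 4 781)
(mv 716 (cons (fin 780 7 716)
(mv 717 (cons (fin 652 7 652)
(fin 910 4 717)))))))))))))))
(mv 1100 (cons (fin 1036 5 844)
(mv 1164 (cons (fin 1101 5 908)
(mv 780 (cons (fin 844 7 780)
(mv 781 (cons (fin 716 7 716)
(mv 974 (cons (fin 1038 4 781)
(mv 717 (cons (fin 910 4 717)
(mv 718 (cons (fin 782 6 717)
(fin 654 6 653)))))))))))))))))
(cons (cons (mv 844 (cons (fin 780 7 780)
(mv 1101 (cons (fin 908 7 844)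
(mv 846 (cons (fin 910 6 845)
(fin 782 6 781)))))))
(mv 1100 (cons (fin 1036 5 844)
(mv 1164 (cons (fin 1101 5 908)
(mv 782 (cons (fin 846 6 781)
(mv 781 (cons (fin 718 6 717)
(mv 974 (cons (fin 1038 4 781)
(mv 717 (cons (fin 910 4 717)
(mv 908 (cons (fin 972 5 716)
(mv 975 (cons (fin 976 3 908)
(mv 906 (cons (fin 907 0 906)
(mv 652 (cons (fin 716 7 652)
(mv 653 (cons (fin 844 5 652)
(fin 588 7 588))))))))))))))))))))))))
(cons (mv 1100 (cons (fin 1036 5 844)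
(mv 1101 (cons (fin 1164 5 908)
(mv 844 (cons (fin 908 7 844)
(fin 780 7 780)))))))
(mv 1100 (cons (fin 1036 5 844)
(mv 844 (cons (fin 780 7 780)
(mv 782 (cons (fin 846 6 781)
(mv 781 (cons (fin 718 6 717)
(mv 974 (cons (fin 1038 4 781)
(mv 910 (cons (fin 717 4 717)
(mv 911 (cons (fin 912 3 844)
(mv 843 (cons (fin 908 3 843)
(fin 842 0 842))))))))))))))))))))))
(cons (mv 845 (cons (cons (mv 1102 (cons (fin 1038 4 845)
(mv 1166 (cons (fin 1101 4 909)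
(mv 846 (cons (fin 782 6 781)
(mv 780 (cons (fin 844 7 780)
(mv 781 (cons (fin 716 7 716)
(mv 972 (cons (fin 1036 5 780)
(mv 908 (cons (fin 717 5 716)
(mv 907 (cons (fin 906 2 842)
(mv 847 (cons (fin 848 1 844)
(fin 910 2 843)))))))))))))))))))
(cons (mv 1102 (cons (fin 1038 4 845)
(mv 1166 (cons (fin 1101 4 909)
(mv 782 (cons (fin 846 6 781)
(mv 781 (cons (fin 718 6 717)
(mv 972 (cons (fin 1036 5 780)
(mv 716 (cons (fin 780 7 716)
(mv 717 (cons (fin 908 5 716)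
(fin 652 7 652)))))))))))))))
(mv 1102 (cons (fin 1038 4 845)
(mv 1166 (cons (fin 1101 4 909)
(mv 780 (cons (fin 844 7 780)
(mv 781 (cons (fin 716 7 716)
(mv 972 (cons (fin 1036 5 780)
(mv 717 (cons (fin 908 5 716)
(mv 718 (cons (fin 782 6 717)
(fin 654 6 653)))))))))))))))))
(cons (cons (mv 844 (cons (fin 780 7 780)
(mv 1101 (cons (fin 908 7 844)
(mv 846 (cons (fin 910 6 845)
(fin 782 6 781)))))))
(mv 1102 (cons (fin 1038 4 845)
(mv 1101 (cons (fin 1166 4 909)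
(mv 846 (cons (fin 910 6 845)
(fin 782 6 781))))))))
(cons (mv 1102 (cons (fin 1038 4 845)
(mv 1166 (cons (fin 1101 4 909)
(mv 780 (cons (fin 844 7 780)
(mv 781 (cons (fin 716 7 716)
(mv 972 (cons (fin 1036 5 780)
(mv 717 (cons (fin 908 5 716)
(mv 910 (cons (fin 974 4 717)
(mv 970 (cons (fin 971 2 906)
(mv 911 (cons (fin 912 1 908)
(mv 653 (cons (fin 846 4 653)
(mv 654 (cons (fin 718 6 653)
(fin 590 6 589)))))))))))))))))))))))
(mv 1102 (cons (fin 1038 4 845)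
(mv 846 (cons (fin 782 6 781)
(mv 780 (cons (fin 844 7 780)
(mv 781 (cons (fin 716 7 716)
(mv 972 (cons (fin 1036 5 780)
(mv 908 (cons (fin 717 5 716)
(mv 907 (cons (fin 906 2 842)
(mv 847 (cons (fin 848 1 844)
(fin 910 2 843)))))))))))))))))))))
(mv 845 (cons (cons (mv 1100 (cons (fin 1036 5 844)
(mv 1164 (cons (fin 1101 5 908)
(mv 1102 (cons (fin 1038 4 845)
(mv 780 (cons (fin 844 7 780)
(mv 781 (cons (fin 716 7 716)
(mv 782 (cons (fin 846 6 781)
(fin 718 6 717)))))))))))))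
(cons (mv 1102 (cons (fin 1038 4 845)
(mv 1166 (cons (fin 1101 4 909)
(mv 780 (cons (fin 844 7 780)
(mv 781 (cons (fin 716 7 716)
(mv 782 (cons (fin 846 6 781)
(fin 718 6 717)))))))))))
(mv 1100 (cons (fin 1036 5 844)
(mv 1164 (cons (fin 1101 5 908)
(mv 780 (cons (fin 844 7 780)
(mv 781 (cons (fin 716 7 716)
(mv 782 (cons (fin 846 6 781)
(fin 718 6 717)))))))))))))
(cons (cons (mv 1100 (cons (fin 1036 5 844)
(mv 1164 (cons (fin 1101 5 908)
(mv 1038 (cons (fin 1102 4 845)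
(mv 780 (cons (fin 844 7 780)
(mv 781 (cons (fin 716 7 716)
(fin 974 4 781)))))))))))
(mv 1100 (cons (fin 1036 5 844)
(mv 1164 (cons (fin 1101 5 908)
(mv 1038 (cons (fin 1102 4 845)
(mv 781 (cons (fin 974 4 781)
(mv 782 (cons (fin 846 6 781)
(fin 718 6 717))))))))))))
(cons (mv 1100 (cons (fin 1036 5 844)
(mv 1101 (cons (fin 1164 5 908)
(mv 1102 (cons (fin 1166 4 909)
(fin 1038 4 845)))))))
(mv 1100 (cons (fin 1036 5 844)
(mv 1102 (cons (fin 1038 4 845)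
(mv 780 (cons (fin 844 7 780)
(mv 781 (cons (fin 716 7 716)
(mv 782 (cons (fin 846 6 781)
(fin 718 6 717)))))))))))))))))))))
(cons (cons (mv 972 (cons (cons (cons (mv 1038 (cons (fin 1039 3 972)
(mv 971 (cons (fin 970 0 970)
(mv 974 (cons (cons (mv 1034 (cons (fin 1035 1 970)
(mv 906 (cons (fin 907 3 906)
(mv 910 (cons (fin 911 2 907)
(mv 846 (cons (fin 782 5 781)
(mv 845 (cons (fin 781 7 781)
(mv 1102 (cons (fin 909 7 845)
(mv 1166 (cons (fin 1230 7 973)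
(mv 1167 (cons (fin 1231 4 974)
(fin 1103 4 910)))))))))))))))))
(mv 906 (cons (fin 907 3 906)
(mv 910 (cons (fin 911 2 907)
(mv 846 (cons (fin 782 5 781)
(mv 845 (cons (fin 781 7 781)
(mv 1102 (cons (fin 909 7 845)
(mv 1166 (cons (fin 1230 7 973)
(mv 1167 (cons (fin 1231 4 974)
(fin 1103 4 910))))))))))))))))
(cons (mv 1034 (cons (fin 1035 1 970)
(mv 907 (cons (fin 906 3 906)
(mv 975 (cons (fin 908 3 907)
(mv 976 (cons (fin 1036 1 972)
(fin 977 1 973)))))))))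
(mv 1034 (cons (fin 1035 1 970)
(mv 910 (cons (fin 911 2 907)
(mv 846 (cons (fin 782 5 781)
(mv 845 (cons (fin 781 7 781)
(mv 1102 (cons (fin 909 7 845)
(mv 1166 (cons (fin 1230 7 973)
(mv 1167 (cons (fin 1231 4 974)
(fin 1103 4 910))))))))))))))))))))))
(mv 974 (cons (mv 975 (cons (fin 1039 0 972)
(mv 1036 (cons (fin 1035 1 971)
(fin 976 1 972)))))
(cons (mv 971 (cons (cons (mv 1034 (cons (fin 1035 1 970)
(mv 970 (cons (fin 1033 1 969)
(mv 906 (cons (fin 905 3 905)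
(fin 907 3 906)))))))
(mv 906 (cons (fin 907 3 906)
(mv 970 (cons (fin 905 3 905)
(mv 910 (cons (fin 909 2 906)
(fin 911 2 907))))))))
(cons (mv 1034 (cons (fin 1035 1 970)
(mv 970 (cons (fin 1033 1 969)
(mv 910 (cons (fin 909 2 906)
(fin 911 2 907)))))))
(mv 1035 (cons (fin 1034 1 970)
(mv 907 (cons (fin 906 3 906)
(mv 910 (cons (fin 911 2 907)
(mv 846 (cons (fin 782 5 781)
(mv 908 (cons (mv 1099 (cons (fin 1163 6 907)
(fin 844 6 843)))
(cons (mv 1163 (cons (fin 1099 6 907)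
(mv 909 (cons (fin 847 2 843)
(mv 843 (cons (fin 842 3 842)
(mv 1036 (cons (fin 1100 7 843)
(fin 779 4 779)))))))))
(mv 909 (cons (fin 847 2 843)
(mv 843 (cons (fin 842 3 842)
(mv 1036 (cons (fin 1100 7 843)
(fin 779 4 779)))))))))))))))))))))
(mv 975 (cons (fin 1039 0 972)
(mv 907 (cons (fin 908 3 907)
(mv 971 (cons (fin 906 3 906)
(mv 911 (cons (fin 910 2 907)
(fin 912 2 908)))))))))))))
(cons (mv 971 (cons (cons (mv 1038 (cons (fin 970 0 970)
(mv 974 (cons (cons (mv 1034 (cons (fin 1035 1 970)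
(mv 906 (cons (fin 907 3 906)
(mv 910 (cons (fin 911 2 907)
(mv 846 (cons (fin 782 5 781)
(mv 845 (cons (fin 781 7 781)
(mv 1102 (cons (fin 909 7 845)
(mv 1166 (cons (fin 1230 7 973)
(mv 1167 (cons (fin 1231 4 974)
(fin 1103 4 910)))))))))))))))))
(mv 906 (cons (fin 907 3 906)
(mv 910 (cons (fin 911 2 907)
(mv 846 (cons (fin 782 5 781)
(mv 845 (cons (fin 781 7 781)
(mv 1102 (cons (fin 909 7 845)
(mv 1166 (cons (fin 1230 7 973)
(mv 1167 (cons (fin 1231 4 974)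
(fin 1103 4 910))))))))))))))))
(cons (mv 1034 (cons (fin 1035 1 970)
(mv 907 (cons (fin 906 3 906)
(mv 975 (cons (fin 908 3 907)
(mv 976 (cons (fin 1036 1 972)
(fin 977 1 973)))))))))
(mv 1034 (cons (fin 1035 1 970)
(mv 910 (cons (fin 911 2 907)
(mv 846 (cons (fin 782 5 781)
(mv 845 (cons (fin 781 7 781)
(mv 1102 (cons (fin 909 7 845)
(mv 1166 (cons (fin 1230 7 973)
(mv 1167 (cons (fin 1231 4 974)
(fin 1103 4 910))))))))))))))))))))
(cons (mv 974 (cons (cons (cons (mv 1034 (cons (fin 1035 1 970)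
(mv 906 (cons (fin 907 3 906)
(mv 911 (cons (fin 910 2 907)
(mv 975 (cons (fin 912 2 908)
(mv 976 (cons (fin 1036 1 972)
(mv 1038 (cons (fin 977 1 973)
(mv 1102 (cons (fin 1166 6 910)
(mv 909 (cons (fin 908 3 908)
(fin 845 4 845)))))))))))))))))
(mv 906 (cons (fin 907 3 906)
(mv 911 (cons (fin 910 2 907)
(mv 975 (cons (fin 912 2 908)
(mv 976 (cons (fin 1036 1 972)
(mv 1038 (cons (fin 977 1 973)
(mv 1102 (cons (fin 1166 6 910)
(mv 909 (cons (fin 908 3 908)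
(fin 845 4 845))))))))))))))))
(cons (mv 1034 (cons (fin 1035 1 970)
(mv 911 (cons (fin 910 2 907)
(mv 975 (cons (fin 912 2 908)
(mv 976 (cons (fin 1036 1 972)
(mv 1038 (cons (fin 977 1 973)
(mv 1102 (cons (fin 1166 6 910)
(mv 909 (cons (fin 908 3 908)
(fin 845 4 845)))))))))))))))
(mv 1034 (cons (fin 1035 1 970)
(mv 907 (cons (fin 906 3 906)
(mv 975 (cons (fin 908 3 907)
(mv 976 (cons (fin 1036 1 972)
(mv 912 (cons (fin 911 2 908)
(fin 913 2 909)))))))))))))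
(cons (cons (mv 1034 (cons (fin 1035 1 970)
(mv 907 (cons (fin 906 3 906)
(mv 975 (cons (fin 908 3 907)
(mv 976 (cons (fin 1036 1 972)
(mv 977 (cons (fin 1038 1 973)
(mv 913 (cons (fin 912 2 909)
(fin 914 2 910)))))))))))))
(mv 1035 (cons (fin 1034 1 970)
(mv 907 (cons (fin 906 3 906)
(mv 910 (cons (fin 911 2 907)
(mv 846 (cons (fin 782 5 781)
(mv 908 (cons (mv 1099 (cons (fin 1163 6 907)
(fin 844 6 843)))
(cons (mv 1163 (cons (fin 1099 6 907)
(mv 909 (cons (fin 847 2 843)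
(mv 843 (cons (fin 842 3 842)
(mv 1036 (cons (fin 1100 7 843)
(fin 779 4 779)))))))))
(mv 909 (cons (fin 847 2 843)
(mv 843 (cons (fin 842 3 842)
(mv 1036 (cons (fin 1100 7 843)
(fin 779 4 779)))))))))))))))))))
(cons (mv 1034 (cons (fin 1035 1 970)
(mv 907 (cons (fin 906 3 906)
(mv 975 (cons (fin 908 3 907)
(mv 911 (cons (fin 910 2 907)
(fin 912 2 908)))))))))
(mv 1035 (cons (fin 1034 1 970)
(mv 1036 (cons (fin 975 1 971)
(mv 907 (cons (fin 906 3 906)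
(mv 1100 (cons (fin 1164 7 907)
(fin 843 4 843)))))))))))))
(mv 970 (cons (mv 1033 (cons (fin 1034 1 969)
(mv 969 (cons (fin 1032 1 968)
(fin 1036 0 969)))))
(cons (mv 1033 (cons (fin 1034 1 969)
(mv 906 (cons (fin 905 3 905)
(mv 974 (cons (fin 907 3 906)
(mv 910 (cons (fin 909 2 906)
(fin 911 2 907)))))))))
(mv 1036 (cons (fin 969 0 969)
(mv 905 (cons (fin 906 3 905)
(mv 909 (cons (fin 910 2 906)
(mv 1100 (cons (fin 845 5 844)
(fin 1164 6 908))))))))))))))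
(cons (mv 970 (cons (fin 1038 0 970)
(mv 1033 (cons (fin 1034 1 969)
(mv 969 (cons (fin 1032 1 968)
(fin 1036 0 969)))))))
(cons (mv 970 (cons (fin 1038 0 970)
(mv 1036 (cons (fin 969 0 969)
(mv 905 (cons (fin 906 3 905)
(mv 909 (cons (fin 910 2 906)
(mv 1100 (cons (fin 845 5 844)
(fin 1164 6 908)))))))))))
(mv 970 (cons (fin 1038 0 970)
(mv 1033 (cons (fin 1034 1 969)
(mv 1032 (cons (fin 969 1 968)
(mv 906 (cons (fin 905 3 905)
(mv 974 (cons (fin 907 3 906)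
(mv 910 (cons (fin 909 2 906)
(fin 911 2 907)))))))))))))))))
(mv 1038 (cons (fin 1039 3 972)
(mv 1036 (cons (cons (cons (mv 970 (cons (fin 971 0 970)
(mv 1035 (cons (mv 1034 (cons (fin 969 3 969)
(fin 1033 2 969)))
(cons (mv 1099 (cons (fin 1098 1 1034)
(mv 1227 (cons (fin 1163 6 971)
(mv 1102 (cons (fin 1103 0 1035)
(mv 1230 (cons (fin 1166 7 973)
(mv 908 (cons (fin 844 5 843)
(mv 909 (cons (fin 845 4 845)
(mv 1100 (cons (fin 1164 6 908)
(mv 907 (cons (fin 843 7 843)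
(mv 906 (cons (fin 969 1 905)
(fin 905 0 905)))))))))))))))))))
(mv 1098 (cons (fin 1099 1 1034)
(mv 1034 (cons (fin 1097 1 1033)
(fin 1033 2 969))))))))))
(mv 909 (cons (mv 1100 (cons (fin 845 5 844)
(fin 1164 6 908)))
(cons (mv 1100 (cons (fin 1164 6 908)
(mv 908 (cons (mv 1163 (cons (fin 1099 5 907)
(mv 843 (cons (fin 907 7 843)
(mv 844 (cons (fin 779 7 779)
(fin 780 4 780)))))))
(cons (mv 1099 (cons (fin 1163 5 907)
(mv 1098 (cons (fin 1035 1 1034)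
(fin 1097 2 1033)))))
(mv 843 (cons (fin 907 7 843)
(mv 844 (cons (fin 779 7 779)
(fin 780 4 780))))))))))
(mv 845 (cons (fin 781 5 780)
(fin 1102 4 845)))))))
(cons (mv 970 (cons (fin 971 0 970)
(mv 1035 (cons (mv 1034 (cons (fin 969 3 969)
(fin 1033 2 969)))
(mv 1099 (cons (fin 1098 1 1034)
(mv 1163 (cons (fin 1227 6 971)
(mv 908 (cons (fin 1100 5 907)
(fin 844 5 843)))))))))))
(mv 970 (cons (fin 971 0 970)
(mv 1100 (cons (mv 1164 (cons (fin 1228 6 972)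
(fin 909 6 908)))
(cons (mv 1164 (cons (fin 1228 6 972)
(mv 1229 (cons (fin 1165 4 972)
(mv 1163 (cons (fin 1227 5 971)
(mv 908 (cons (fin 1099 5 907)
(mv 843 (cons (fin 907 7 843)
(mv 844 (cons (fin 779 7 779)
(fin 780 4 780)))))))))))))
(mv 908 (cons (cons (mv 1163 (cons (fin 1099 5 907)
(mv 907 (cons (fin 843 7 843)
(mv 905 (cons (fin 906 0 905)
(mv 844 (cons (fin 780 4 780)
(mv 845 (cons (fin 909 5 844)
(fin 781 6 780)))))))))))
(mv 1163 (cons (fin 1099 5 907)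
(mv 843 (cons (fin 907 7 843)
(mv 844 (cons (fin 779 7 779)
(fin 780 4 780))))))))
(cons (mv 1163 (cons (fin 1099 5 907)
(mv 907 (cons (fin 843 7 843)
(mv 906 (cons (fin 905 0 905)
(mv 909 (cons (fin 969 1 905)
(fin 845 5 844)))))))))
(cons (mv 1163 (cons (fin 1099 5 907)
(mv 844 (cons (fin 780 4 780)
(mv 845 (cons (fin 909 5 844)
(fin 781 6 780)))))))
(mv 907 (cons (fin 843 7 843)
(mv 905 (cons (fin 906 0 905)
(mv 844 (cons (fin 780 4 780)
(mv 845 (cons (fin 909 5 844)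
(fin 781 6 780))))))))))))))))))))
(cons (cons (mv 1035 (cons (mv 1098 (cons (fin 1099 1 1034)
(mv 1034 (cons (fin 1097 1 1033)
(fin 1033 2 969)))))
(cons (mv 1099 (cons (fin 1098 1 1034)
(mv 1163 (cons (fin 1227 6 971)
(mv 971 (cons (fin 970 3 970)
(fin 908 6 907)))))))
(mv 1102 (cons (fin 1103 0 1035)
(mv 1230 (cons (fin 1166 7 973)
(mv 1034 (cons (fin 1033 2 969)
(mv 970 (cons (fin 969 3 969)
(fin 971 3 970))))))))))))
(mv 909 (cons (mv 1100 (cons (fin 845 5 844)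
(fin 1164 6 908)))
(cons (mv 1164 (cons (fin 1100 6 908)
(mv 1035 (cons (mv 1098 (cons (fin 1099 1 1034)
(mv 1034 (cons (fin 1097 1 1033)
(fin 1033 2 969)))))
(cons (mv 1099 (cons (fin 1098 1 1034)
(mv 1163 (cons (fin 1227 6 971)
(mv 971 (cons (fin 970 3 970)
(fin 1228 4 971)))))))
(mv 1102 (cons (fin 1103 0 1035)
(mv 1230 (cons (fin 1166 7 973)
(mv 1034 (cons (fin 1033 2 969)
(mv 970 (cons (fin 969 3 969)
(fin 971 3 970))))))))))))))
(mv 845 (cons (fin 781 5 780)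
(fin 1102 4 845)))))))
(cons (mv 970 (cons (fin 971 0 970)
(mv 1102 (cons (cons (mv 1230 (cons (fin 1166 7 973)
(mv 1035 (cons (fin 1103 0 1035)
(mv 1034 (cons (fin 969 3 969)
(fin 1033 2 969)))))))
(mv 1230 (cons (fin 1166 7 973)
(mv 908 (cons (cons (mv 909 (cons (fin 845 4 845)
(mv 1164 (cons (fin 1100 6 908)
(mv 844 (cons (fin 780 4 780)
(mv 843 (cons (fin 779 7 779)
(mv 910 (cons (fin 911 3 843)
(mv 842 (cons (fin 907 3 842)
(fin 841 0 841)))))))))))))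
(cons (mv 844 (cons (fin 780 4 780)
(mv 843 (cons (fin 779 7 779)
(mv 907 (cons (fin 1100 7 843)
(mv 906 (cons (fin 905 0 905)
(mv 845 (cons (fin 846 1 842)
(fin 781 6 780)))))))))))
(mv 844 (cons (fin 780 4 780)
(mv 843 (cons (fin 779 7 779)
(mv 1100 (cons (fin 907 7 843)
(mv 1164 (cons (fin 1228 6 972)
(fin 909 6 908)))))))))))
(cons (mv 909 (cons (fin 845 4 845)
(mv 1100 (cons (fin 1164 6 908)
(mv 907 (cons (fin 843 7 843)
(mv 906 (cons (fin 969 1 905)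
(fin 905 0 905)))))))))
(cons (mv 909 (cons (fin 845 4 845)
(mv 844 (cons (fin 780 4 780)
(mv 843 (cons (fin 779 7 779)
(mv 910 (cons (fin 911 3 843)
(mv 842 (cons (fin 907 3 842)
(fin 841 0 841)))))))))))
(mv 844 (cons (fin 780 4 780)
(mv 845 (cons (fin 909 4 845)
(fin 781 6 780))))))))))))
(cons (mv 1035 (cons (fin 1103 0 1035)
(mv 1034 (cons (fin 969 3 969)
(fin 1033 2 969)))))
(mv 1166 (cons (fin 1230 7 973)
(mv 1103 (cons (fin 1035 0 1035)
(mv 1104 (cons (fin 1105 3 1037)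
(mv 909 (cons (fin 845 4 845)
(mv 1164 (cons (fin 1100 6 908)
(mv 1165 (cons (fin 1163 2 1099)
(fin 1167 2 1100))))))))))))))))))
(mv 970 (cons (fin 971 0 970)
(mv 909 (cons (mv 1100 (cons (fin 845 5 844)
(fin 1164 6 908)))
(cons (mv 1100 (cons (fin 1164 6 908)
(mv 1035 (cons (mv 1034 (cons (fin 969 3 969)
(fin 1033 2 969)))
(cons (mv 1099 (cons (fin 1098 1 1034)
(mv 1102 (cons (fin 1103 0 1035)
(mv 1230 (cons (fin 1166 7 973)
(mv 908 (cons (fin 844 5 843)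
(mv 907 (cons (fin 843 7 843)
(mv 906 (cons (fin 969 1 905)
(fin 905 0 905)))))))))))))
(mv 1098 (cons (fin 1099 1 1034)
(mv 1034 (cons (fin 1097 1 1033)
(fin 1033 2 969))))))))))
(mv 845 (cons (fin 781 5 780)
(fin 1102 4 845))))))))))))))))
(cons (cons (mv 1039 (cons (fin 1038 3 972)
(mv 975 (cons (fin 974 0 972)
(mv 911 (cons (cons (mv 847 (cons (fin 1104 4 847)
(mv 976 (cons (fin 783 4 783)
(mv 846 (cons (fin 782 7 782)
(mv 1103 (cons (fin 910 7 846)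
(mv 1167 (cons (fin 1231 6 975)
(fin 912 6 911)))))))))))
(cons (mv 1103 (cons (mv 1166 (cons (fin 1102 5 910)
(mv 1230 (cons (fin 1167 5 974)
(mv 910 (cons (fin 846 7 846)
(mv 912 (cons (fin 909 1 908)
(fin 848 6 847)))))))))
(cons (mv 1166 (cons (fin 1102 5 910)
(mv 1167 (cons (fin 1230 5 974)
(mv 1231 (cons (fin 976 6 975)
(mv 1295 (cons (fin 1104 6 1039)
(mv 1296 (cons (fin 1360 4 1103)
(fin 1232 4 1039)))))))))))
(mv 910 (cons (fin 846 7 846)
(mv 912 (cons (fin 909 1 908)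
(fin 848 6 847))))))))
(mv 1103 (cons (cons (mv 1166 (cons (fin 1102 5 910)
(mv 1230 (cons (fin 1167 5 974)
(mv 910 (cons (fin 846 7 846)
(mv 912 (cons (fin 909 1 908)
(fin 848 6 847)))))))))
(cons (mv 1166 (cons (fin 1102 5 910)
(mv 1230 (cons (fin 1167 5 974)
(mv 846 (cons (fin 910 7 846)
(mv 847 (cons (fin 782 7 782)
(mv 783 (cons (fin 976 4 783)
(mv 784 (cons (fin 848 6 783)
(fin 720 6 719)))))))))))))
(mv 1166 (cons (fin 1102 5 910)
(mv 1230 (cons (fin 1167 5 974)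
(mv 910 (cons (fin 846 7 846)
(mv 909 (cons (fin 912 1 908)
(mv 908 (cons (fin 976 0 908)
(mv 844 (cons (fin 843 3 843)
(fin 780 4 780)))))))))))))))
(cons (mv 1166 (cons (fin 1102 5 910)
(mv 1230 (cons (fin 1167 5 974)
(mv 848 (cons (fin 912 6 847)
(mv 847 (cons (fin 784 6 783)
(mv 782 (cons (fin 846 7 782)
(mv 783 (cons (fin 718 7 718)
(fin 976 4 783)))))))))))))
(cons (mv 1166 (cons (fin 1102 5 910)
(mv 1167 (cons (fin 1230 5 974)
(mv 976 (cons (fin 1231 6 975)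
(fin 912 6 911)))))))
(mv 910 (cons (fin 846 7 846)
(mv 912 (cons (fin 909 1 908)
(fin 848 6 847)))))))))))
(cons (mv 847 (cons (fin 1104 4 847)
(mv 846 (cons (fin 782 7 782)
(mv 783 (cons (fin 976 4 783)
(mv 784 (cons (fin 848 6 783)
(fin 720 6 719)))))))))
(cons (mv 847 (cons (fin 1104 4 847)
(mv 976 (cons (fin 783 4 783)
(mv 848 (cons (fin 784 6 783)
(mv 1103 (cons (fin 912 5 847)
(mv 1166 (cons (fin 1102 5 910)
(mv 1167 (cons (fin 1230 5 974)
(fin 1231 6 975)))))))))))))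
(mv 847 (cons (fin 1104 4 847)
(mv 846 (cons (fin 782 7 782)
(mv 1103 (cons (fin 910 7 846)
(mv 848 (cons (fin 912 6 847)
(fin 784 6 783)))))))))))))))))
(mv 1038 (cons (fin 1039 3 972)
(mv 971 (cons (fin 970 0 970)
(mv 974 (cons (cons (mv 1034 (cons (fin 1035 1 970)
(mv 906 (cons (fin 907 3 906)
(mv 910 (cons (fin 911 2 907)
(mv 846 (cons (fin 782 5 781)
(mv 845 (cons (fin 781 7 781)
(mv 1102 (cons (fin 909 7 845)
(mv 1166 (cons (fin 1230 7 973)
(mv 1167 (cons (fin 1231 4 974)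
(fin 1103 4 910)))))))))))))))))
(mv 906 (cons (fin 907 3 906)
(mv 910 (cons (fin 911 2 907)
(mv 846 (cons (fin 782 5 781)
(mv 845 (cons (fin 781 7 781)
(mv 1102 (cons (fin 909 7 845)
(mv 1166 (cons (fin 1230 7 973)
(mv 1167 (cons (fin 1231 4 974)
(fin 1103 4 910))))))))))))))))
(cons (mv 1035 (cons (fin 1034 1 970)
(mv 1036 (cons (fin 975 1 971)
(mv 1098 (cons (fin 1099 1 1034)
(mv 1102 (cons (fin 1103 0 1035)
(mv 1166 (cons (fin 1230 7 973)
(fin 909 7 909)))))))))))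
(mv 1034 (cons (fin 1035 1 970)
(mv 906 (cons (fin 907 3 906)
(mv 911 (cons (fin 910 2 907)
(mv 975 (cons (fin 912 2 908)
(mv 976 (cons (fin 1036 1 972)
(fin 977 1 973)))))))))))))))))))
(cons (mv 1038 (cons (fin 1039 3 972)
(mv 971 (cons (fin 970 0 970)
(mv 974 (cons (cons (mv 1034 (cons (fin 1035 1 970)
(mv 906 (cons (fin 907 3 906)
(mv 911 (cons (fin 910 2 907)
(mv 975 (cons (fin 912 2 908)
(mv 976 (cons (fin 1036 1 972)
(fin 977 1 973)))))))))))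
(cons (mv 906 (cons (fin 907 3 906)
(mv 911 (cons (fin 910 2 907)
(mv 975 (cons (fin 912 2 908)
(mv 976 (cons (fin 1036 1 972)
(fin 977 1 973)))))))))
(mv 1034 (cons (fin 1035 1 970)
(mv 907 (cons (fin 906 3 906)
(mv 975 (cons (fin 908 3 907)
(mv 976 (cons (fin 1036 1 972)
(fin 977 1 973)))))))))))
(cons (mv 1034 (cons (fin 1035 1 970)
(mv 911 (cons (fin 910 2 907)
(mv 975 (cons (fin 912 2 908)
(mv 976 (cons (fin 1036 1 972)
(fin 977 1 973)))))))))
(cons (mv 1034 (cons (fin 1035 1 970)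
(mv 907 (cons (fin 906 3 906)
(mv 910 (cons (fin 911 2 907)
(mv 846 (cons (fin 782 5 781)
(mv 845 (cons (fin 781 7 781)
(mv 847 (cons (fin 783 6 782)
(mv 844 (cons (fin 908 1 843)
(mv 779 (cons (fin 780 3 779)
(mv 843 (cons (fin 778 3 778)
(fin 1036 4 779)))))))))))))))))))
(mv 1034 (cons (fin 1035 1 970)
(mv 907 (cons (fin 906 3 906)
(mv 975 (cons (fin 908 3 907)
(mv 911 (cons (fin 910 2 907)
(fin 912 2 908)))))))))))))))))
(cons (mv 1038 (cons (fin 1039 3 972)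
(mv 971 (cons (fin 970 0 970)
(mv 974 (cons (cons (mv 1034 (cons (fin 1035 1 970)
(mv 907 (cons (fin 906 3 906)
(mv 975 (cons (fin 908 3 907)
(mv 976 (cons (fin 1036 1 972)
(fin 977 1 973)))))))))
(mv 907 (cons (fin 906 3 906)
(mv 975 (cons (fin 908 3 907)
(mv 976 (cons (fin 1036 1 972)
(fin 977 1 973))))))))
(cons (mv 1035 (cons (fin 1034 1 970)
(mv 1036 (cons (fin 975 1 971)
(mv 1098 (cons (fin 1099 1 1034)
(mv 1102 (cons (fin 1103 0 1035)
(mv 1166 (cons (fin 1230 7 973)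
(fin 909 7 909)))))))))))
(cons (mv 1035 (cons (fin 1034 1 970)
(mv 906 (cons (fin 907 3 906)
(mv 1102 (cons (mv 1166 (cons (fin 1230 7 973)
(fin 909 7 909)))
(mv 1036 (cons (fin 1103 0 1035)
(mv 1099 (cons (fin 1098 1 1034)
(mv 1163 (cons (fin 1227 6 971)
(fin 908 6 907)))))))))))))
(mv 1034 (cons (fin 1035 1 970)
(mv 907 (cons (fin 906 3 906)
(mv 975 (cons (fin 908 3 907)
(mv 976 (cons (fin 977 1 973)
(mv 912 (cons (fin 911 2 908)
(fin 913 2 909)))))))))))))))))))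
(mv 1038 (cons (fin 1039 3 972)
(mv 971 (cons (fin 970 0 970)
(mv 974 (cons (cons (mv 1034 (cons (fin 1035 1 970)
(mv 907 (cons (fin 906 3 906)
(mv 975 (cons (fin 908 3 907)
(mv 976 (cons (fin 1036 1 972)
(fin 977 1 973)))))))))
(mv 907 (cons (fin 906 3 906)
(mv 975 (cons (fin 908 3 907)
(mv 976 (cons (fin 1036 1 972)
(fin 977 1 973))))))))
(cons (mv 1035 (cons (fin 1034 1 970)
(mv 1036 (cons (fin 975 1 971)
(mv 1098 (cons (fin 1099 1 1034)
(mv 1102 (cons (fin 1103 0 1035)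
(mv 1166 (cons (fin 1230 7 973)
(fin 909 7 909)))))))))))
(cons (mv 1035 (cons (fin 1034 1 970)
(mv 906 (cons (fin 907 3 906)
(mv 1102 (cons (mv 1166 (cons (fin 1230 7 973)
(fin 909 7 909)))
(cons (mv 1230 (cons (fin 1166 7 973)
(mv 1036 (cons (fin 1103 0 1035)
(mv 1099 (cons (fin 1098 1 1034)
(mv 1163 (cons (fin 1227 6 971)
(fin 908 6 907)))))))))
(mv 1103 (cons (fin 1036 0 1035)
(mv 1104 (cons (fin 1105 3 1037)
(mv 910 (cons (fin 1167 4 910)
(mv 845 (cons (fin 909 7 845)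
(mv 846 (cons (fin 782 5 781)
(fin 781 7 781))))))))))))))))))
(mv 1035 (cons (fin 1034 1 970)
(mv 907 (cons (fin 906 3 906)
(mv 908 (cons (fin 975 3 907)
(mv 1099 (cons (fin 1163 6 907)
(fin 844 6 843))))))))))))))))))))))
(mv 972 (cons (cons (cons (mv 1038 (cons (fin 1039 3 972)
(mv 971 (cons (fin 970 0 970)
(mv 974 (cons (cons (mv 1034 (cons (fin 1035 1 970)
(mv 906 (cons (fin 907 3 906)
(mv 910 (cons (fin 911 2 907)
(mv 1101 (cons (fin 846 5 845)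
(fin 1165 6 909)))))))))
(mv 906 (cons (fin 907 3 906)
(mv 910 (cons (fin 911 2 907)
(mv 1101 (cons (fin 846 5 845)
(fin 1165 6 909))))))))
(cons (mv 1034 (cons (fin 1035 1 970)
(mv 907 (cons (fin 906 3 906)
(mv 975 (cons (fin 908 3 907)
(mv 976 (cons (fin 1036 1 972)
(fin 977 1 973)))))))))
(mv 1034 (cons (fin 1035 1 970)
(mv 910 (cons (fin 911 2 907)
(mv 1101 (cons (fin 846 5 845)
(fin 1165 6 909))))))))))))))
(mv 974 (cons (mv 975 (cons (fin 1039 0 972)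
(mv 1036 (cons (fin 1035 1 971)
(fin 976 1 972)))))
(cons (mv 971 (cons (cons (mv 1034 (cons (fin 1035 1 970)
(mv 970 (cons (fin 1033 1 969)
(mv 906 (cons (fin 905 3 905)
(fin 907 3 906)))))))
(cons (mv 907 (cons (fin 906 3 906)
(mv 910 (cons (fin 911 2 907)
(mv 1101 (cons (fin 1165 6 909)
(mv 782 (cons (fin 846 5 781)
(mv 1036 (cons (cons (mv 1164 (cons (fin 1100 7 907)
(mv 969 (cons (fin 970 0 969)
(mv 843 (cons (fin 779 4 779)
(mv 844 (cons (fin 908 4 844)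
(mv 780 (cons (fin 1035 6 779)
(mv 781 (cons (fin 783 1 779)
(mv 842 (cons (fin 841 2 777)
(fin 845 2 778)))))))))))))))
(mv 969 (cons (fin 970 0 969)
(mv 843 (cons (fin 779 4 779)
(mv 844 (cons (fin 908 4 844)
(mv 780 (cons (fin 1035 6 779)
(mv 781 (cons (fin 783 1 779)
(mv 842 (cons (fin 841 2 777)
(fin 845 2 778))))))))))))))
(cons (mv 1100 (cons (fin 1164 7 907)
(mv 843 (cons (fin 1035 4 843)
(fin 779 4 779)))))
(cons (mv 1100 (cons (fin 1164 7 907)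
(mv 969 (cons (fin 970 0 969)
(mv 908 (cons (fin 844 4 844)
(mv 1099 (cons (fin 1163 5 907)
(mv 1098 (cons (fin 1097 2 1033)
(mv 1162 (cons (fin 1161 1 1097)
(fin 1035 5 906)))))))))))))
(mv 1100 (cons (fin 1164 7 907)
(mv 908 (cons (fin 843 7 843)
(fin 844 4 844)))))))))))))))))
(mv 906 (cons (fin 907 3 906)
(mv 970 (cons (fin 905 3 905)
(mv 1033 (cons (fin 1034 1 969)
(mv 969 (cons (fin 1032 1 968)
(fin 1036 0 969)))))))))))
(cons (mv 1034 (cons (fin 1035 1 970)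
(mv 970 (cons (fin 1033 1 969)
(mv 1036 (cons (fin 969 0 969)
(mv 910 (cons (fin 911 2 907)
(mv 1101 (cons (fin 1165 6 909)
(mv 908 (cons (fin 844 4 844)
(mv 846 (cons (fin 782 5 781)
(mv 1100 (cons (mv 1164 (cons (fin 907 7 907)
(fin 1228 6 972)))
(cons (mv 1163 (cons (fin 1099 5 907)
(mv 1164 (cons (fin 1227 5 971)
(fin 1228 6 972)))))
(mv 1099 (cons (fin 1163 5 907)
(mv 1098 (cons (fin 1097 2 1033)
(mv 1162 (cons (fin 1161 1 1097)
(fin 907 6 906))))))))))))))))))))))))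
(cons (mv 1034 (cons (fin 1035 1 970)
(mv 970 (cons (fin 1033 1 969)
(mv 969 (cons (fin 1036 0 969)
(mv 905 (cons (fin 904 3 904)
(fin 906 3 905)))))))))
(mv 1035 (cons (fin 1034 1 970)
(mv 907 (cons (fin 906 3 906)
(mv 910 (cons (fin 911 2 907)
(mv 1165 (cons (fin 1101 6 909)
(mv 846 (cons (fin 782 5 781)
(mv 908 (cons (mv 1099 (cons (fin 1163 6 907)
(fin 844 6 843)))
(cons (mv 1099 (cons (fin 1163 6 907)
(mv 1162 (cons (fin 1098 5 906)
(mv 1100 (cons (fin 1164 4 907)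
(mv 843 (cons (fin 1036 7 843)
(mv 778 (cons (fin 842 7 778)
(mv 779 (cons (fin 714 7 714)
(fin 715 4 715)))))))))))))
(mv 844 (cons (fin 780 5 779)
(mv 845 (cons (fin 847 1 843)
(mv 1036 (cons (fin 781 6 780)
(mv 1100 (cons (fin 1164 7 907)
(fin 843 7 843))))))))))))))))))))))))))
(mv 975 (cons (fin 1039 0 972)
(mv 907 (cons (fin 908 3 907)
(mv 971 (cons (fin 906 3 906)
(mv 911 (cons (fin 910 2 907)
(fin 912 2 908)))))))))))))
(cons (mv 908 (cons (cons (mv 1101 (cons (fin 1165 7 908)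
(mv 844 (cons (fin 1036 4 844)
(fin 780 4 780)))))
(cons (mv 1165 (cons (fin 1101 7 908)
(mv 974 (cons (cons (mv 975 (cons (fin 907 3 907)
(mv 1036 (cons (fin 1035 1 971)
(fin 976 1 972)))))
(mv 971 (cons (mv 1034 (cons (fin 1035 1 970)
(mv 970 (cons (fin 1033 1 969)
(fin 1038 0 970)))))
(cons (mv 1035 (cons (fin 1034 1 970)
(mv 1099 (cons (fin 1163 6 907)
(mv 907 (cons (fin 906 3 906)
(mv 1162 (cons (fin 1098 5 906)
(mv 1100 (cons (fin 1164 4 907)
(mv 910 (cons (fin 911 2 907)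
(mv 843 (cons (fin 1036 7 843)
(mv 842 (cons (fin 778 7 778)
(mv 840 (cons (fin 841 0 840)
(mv 779 (cons (fin 715 4 715)
(mv 780 (cons (fin 716 6 715)
(mv 782 (cons (fin 781 1 778)
(fin 846 5 781)))))))))))))))))))))))))
(mv 970 (cons (fin 1038 0 970)
(mv 906 (cons (fin 905 3 905)
(fin 907 3 906)))))))))
(cons (mv 971 (cons (mv 1034 (cons (fin 1035 1 970)
(mv 970 (cons (fin 1033 1 969)
(fin 1038 0 970)))))
(cons (mv 1038 (cons (fin 970 0 970)
(mv 911 (cons (fin 910 2 907)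
(mv 975 (cons (fin 912 2 908)
(mv 976 (cons (fin 1036 1 972)
(fin 977 1 973)))))))))
(mv 1035 (cons (fin 1034 1 970)
(mv 1163 (cons (fin 1099 6 907)
(mv 975 (cons (fin 1036 1 971)
(mv 911 (cons (fin 910 2 907)
(fin 912 2 908))))))))))))
(cons (mv 975 (cons (fin 907 3 907)
(mv 911 (cons (fin 912 2 908)
(mv 971 (cons (fin 910 2 907)
(mv 1034 (cons (fin 1035 1 970)
(mv 970 (cons (fin 1033 1 969)
(fin 1038 0 970)))))))))))
(mv 975 (cons (fin 907 3 907)
(mv 1036 (cons (fin 976 1 972)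
(mv 911 (cons (fin 912 2 908)
(mv 971 (cons (fin 910 2 907)
(mv 970 (cons (fin 969 0 969)
(fin 1038 0 970)))))))))))))))))
(mv 844 (cons (fin 780 4 780)
(mv 1036 (cons (cons (mv 1099 (cons (fin 1035 5 843)
(mv 1100 (cons (fin 1163 5 907)
(mv 843 (cons (fin 907 7 843)
(fin 779 7 779)))))))
(mv 843 (cons (fin 779 7 779)
(mv 1100 (cons (fin 907 7 843)
(mv 1163 (cons (fin 1099 5 907)
(mv 1164 (cons (fin 1227 5 971)
(fin 1228 6 972))))))))))
(cons (mv 843 (cons (fin 779 7 779)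
(mv 907 (cons (fin 1100 7 843)
(mv 974 (cons (fin 975 3 907)
(mv 906 (cons (fin 971 3 906)
(fin 905 0 905)))))))))
(cons (mv 1099 (cons (fin 1035 5 843)
(mv 1100 (cons (fin 1163 5 907)
(mv 1164 (cons (fin 1228 6 972)
(mv 1229 (cons (fin 1165 4 972)
(mv 1097 (cons (fin 1098 2 1033)
(mv 971 (cons (fin 907 7 907)
(mv 970 (cons (fin 969 0 969)
(fin 1038 0 970)))))))))))))))
(mv 1035 (cons (fin 1099 5 843)
(mv 1034 (cons (fin 1033 2 969)
(fin 974 2 970)))))))))))))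
(cons (mv 844 (cons (fin 780 4 780)
(mv 1036 (cons (fin 1101 4 844)
(mv 1099 (cons (fin 1035 5 843)
(mv 1100 (cons (fin 1163 5 907)
(mv 843 (cons (fin 907 7 843)
(fin 779 7 779)))))))))))
(cons (mv 1165 (cons (fin 1101 7 908)
(mv 974 (cons (cons (mv 975 (cons (fin 907 3 907)
(mv 1036 (cons (fin 1035 1 971)
(fin 976 1 972)))))
(mv 971 (cons (mv 1034 (cons (fin 1035 1 970)
(mv 970 (cons (fin 1033 1 969)
(fin 1038 0 970)))))
(cons (mv 1035 (cons (fin 1034 1 970)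
(mv 1099 (cons (fin 1163 6 907)
(mv 907 (cons (fin 906 3 906)
(fin 844 6 843)))))))
(mv 1038 (cons (fin 970 0 970)
(mv 907 (cons (fin 906 3 906)
(mv 910 (cons (fin 911 2 907)
(mv 846 (cons (fin 782 5 781)
(mv 845 (cons (fin 781 7 781)
(mv 847 (cons (fin 844 1 843)
(fin 783 6 782)))))))))))))))))
(cons (mv 1036 (cons (mv 1035 (cons (fin 975 1 971)
(fin 1034 2 970)))
(cons (mv 975 (cons (fin 976 1 972)
(mv 911 (cons (fin 912 2 908)
(mv 971 (cons (fin 910 2 907)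
(mv 970 (cons (fin 969 0 969)
(fin 1038 0 970)))))))))
(mv 1035 (cons (fin 1034 2 970)
(mv 1099 (cons (fin 844 5 843)
(mv 1163 (cons (fin 1100 5 907)
(fin 1227 6 971))))))))))
(mv 975 (cons (fin 907 3 907)
(mv 1036 (cons (fin 976 1 972)
(mv 911 (cons (fin 912 2 908)
(mv 971 (cons (fin 910 2 907)
(mv 970 (cons (fin 969 0 969)
(fin 1038 0 970))))))))))))))))
(mv 1101 (cons (fin 1165 7 908)
(mv 844 (cons (fin 780 4 780)
(mv 971 (cons (cons (mv 970 (cons (fin 1038 0 970)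
(mv 1033 (cons (fin 1034 1 969)
(mv 969 (cons (fin 1032 1 968)
(mv 905 (cons (fin 904 3 904)
(fin 906 3 905)))))))))
(mv 974 (cons (mv 907 (cons (fin 906 3 906)
(fin 975 3 907)))
(mv 1034 (cons (fin 1035 1 970)
(mv 910 (cons (fin 911 2 907)
(mv 846 (cons (fin 1038 5 845)
(fin 782 5 781))))))))))
(cons (mv 1035 (cons (mv 1099 (cons (fin 1163 6 907)
(fin 907 6 843)))
(mv 1034 (cons (fin 974 1 970)
(mv 1033 (cons (fin 970 1 969)
(fin 1032 2 968)))))))
(mv 970 (cons (fin 1038 0 970)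
(mv 905 (cons (fin 906 3 905)
(mv 969 (cons (fin 904 3 904)
(mv 1032 (cons (fin 1033 1 968)
(mv 968 (cons (fin 1031 1 967)
(fin 907 2 904))))))))))))))))))))))
(mv 1038 (cons (fin 1039 3 972)
(mv 971 (cons (fin 970 0 970)
(mv 974 (cons (cons (mv 1034 (cons (fin 1035 1 970)
(mv 906 (cons (fin 907 3 906)
(mv 910 (cons (fin 911 2 907)
(mv 1101 (cons (fin 846 5 845)
(fin 1165 6 909)))))))))
(mv 1035 (cons (fin 1034 1 970)
(mv 1036 (cons (fin 975 1 971)
(mv 1098 (cons (fin 1099 1 1034)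
(mv 1102 (cons (fin 1103 0 1035)
(mv 1230 (cons (fin 1166 7 973)
(mv 907 (cons (fin 906 3 906)
(mv 1100 (cons (fin 1164 7 907)
(fin 843 4 843))))))))))))))))
(cons (mv 906 (cons (fin 907 3 906)
(mv 910 (cons (fin 911 2 907)
(mv 1101 (cons (fin 846 5 845)
(fin 1165 6 909)))))))
(mv 1034 (cons (fin 1035 1 970)
(mv 910 (cons (fin 911 2 907)
(mv 1101 (cons (fin 846 5 845)
(fin 1165 6 909))))))))))))))))
(cons (cons (mv 1038 (cons (fin 1039 3 972)
(mv 971 (cons (fin 970 0 970)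
(mv 1101 (cons (cons (mv 1165 (cons (fin 908 7 908)
(mv 1228 (cons (fin 1164 5 972)
(mv 1229 (cons (fin 1292 5 1036)
(fin 1036 7 972)))))))
(mv 1099 (cons (cons (mv 1098 (cons (fin 1100 2 1034)
(mv 1035 (cons (fin 1036 1 1034)
(mv 1162 (cons (fin 907 5 906)
(mv 1226 (cons (fin 1163 5 970)
(fin 1290 6 1034)))))))))
(cons (mv 908 (cons (mv 844 (cons (fin 1036 4 844)
(fin 780 4 780)))
(cons (mv 1163 (cons (fin 1035 6 907)
(mv 1100 (cons (fin 1036 5 907)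
(mv 1162 (cons (fin 1102 1 1098)
(mv 1161 (cons (fin 1160 2 1096)
(fin 1164 2 1097)))))))))
(mv 1035 (cons (fin 1163 6 907)
(mv 844 (cons (fin 780 5 779)
(fin 907 6 843))))))))
(mv 908 (cons (mv 844 (cons (fin 1036 4 844)
(fin 780 4 780)))
(cons (mv 1035 (cons (fin 1163 6 907)
(mv 1098 (cons (fin 1036 1 1034)
(mv 1162 (cons (fin 907 5 906)
(mv 1226 (cons (fin 1290 6 1034)
(fin 1034 6 970)))))))))
(mv 1035 (cons (fin 1163 6 907)
(mv 844 (cons (fin 780 5 779)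
(fin 907 6 843))))))))))
(cons (cons (mv 1100 (cons (fin 1098 2 1034)
(mv 1036 (cons (mv 1164 (cons (fin 907 7 907)
(fin 1228 6 972)))
(mv 908 (cons (fin 1163 5 907)
(fin 844 4 844)))))))
(mv 1098 (cons (fin 1100 2 1034)
(mv 1035 (cons (cons (mv 1162 (cons (fin 907 5 906)
(mv 1226 (cons (fin 1163 5 970)
(fin 1290 6 1034)))))
(mv 1163 (cons (fin 908 6 907)
(mv 1226 (cons (fin 1162 5 970)
(mv 1227 (cons (fin 1290 5 1034)
(mv 1228 (cons (fin 1292 4 1035)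
(fin 1164 4 971))))))))))
(cons (mv 1163 (cons (fin 908 6 907)
(mv 1228 (cons (fin 1164 4 971)
(mv 1227 (cons (fin 1292 4 1035)
(mv 1290 (cons (fin 1226 5 1034)
(mv 1291 (cons (fin 1354 5 1098)
(fin 1034 7 1034)))))))))))
(cons (mv 1162 (cons (fin 907 5 906)
(mv 1226 (cons (fin 1290 6 1034)
(fin 1034 6 970)))))
(mv 1162 (cons (fin 907 5 906)
(mv 1163 (cons (fin 908 6 907)
(mv 1228 (cons (fin 1164 4 971)
(mv 1227 (cons (fin 1292 4 1035)
(mv 1291 (cons (fin 1355 7 1098)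
(fin 1034 7 1034))))))))))))))))))
(cons (mv 1098 (cons (fin 1100 2 1034)
(mv 1035 (cons (fin 1036 1 1034)
(mv 1162 (cons (fin 907 5 906)
(mv 1226 (cons (fin 1290 6 1034)
(fin 1034 6 970)))))))))
(mv 1098 (cons (fin 1100 2 1034)
(mv 1035 (cons (fin 1036 1 1034)
(mv 1163 (cons (fin 908 6 907)
(mv 1226 (cons (fin 1162 5 970)
(mv 1227 (cons (fin 1290 5 1034)
(mv 1228 (cons (fin 1292 4 1035)
(fin 1164 4 971))))))))))))))))))
(cons (mv 1165 (cons (cons (mv 1228 (cons (fin 1164 5 972)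
(mv 1229 (cons (fin 1292 5 1036)
(fin 1036 7 972)))))
(mv 1164 (cons (fin 1228 5 972)
(mv 1166 (cons (fin 1230 4 973)
(mv 1100 (cons (mv 1099 (cons (fin 1167 3 1099)
(fin 1098 0 1098)))
(mv 1036 (cons (fin 907 7 907)
(mv 1163 (cons (fin 1227 5 971)
(mv 1162 (cons (fin 1161 2 1097)
(fin 1102 2 1098))))))))))))))
(cons (mv 1229 (cons (fin 1036 7 972)
(mv 1230 (cons (fin 1294 4 1037)
(fin 1166 4 973)))))
(mv 1228 (cons (fin 1164 5 972)
(mv 1229 (cons (fin 1292 5 1036)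
(mv 1230 (cons (fin 1294 4 1037)
(fin 1166 4 973))))))))))
(cons (mv 1165 (cons (fin 908 7 908)
(mv 1228 (cons (fin 1164 5 972)
(mv 1229 (cons (fin 1292 5 1036)
(mv 1230 (cons (fin 1294 4 1037)
(fin 1166 4 973)))))))))
(mv 1165 (cons (fin 908 7 908)
(mv 1229 (cons (fin 1036 7 972)
(mv 1230 (cons (fin 1294 4 1037)
(fin 1166 4 973)))))))))))))))
(mv 1039 (cons (fin 1038 3 972)
(mv 975 (cons (fin 974 0 972)
(mv 911 (cons (cons (mv 847 (cons (fin 1104 4 847)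
(mv 976 (cons (fin 783 4 783)
(mv 846 (cons (fin 782 7 782)
(mv 1103 (cons (fin 910 7 846)
(mv 1167 (cons (fin 1231 6 975)
(fin 912 6 911)))))))))))
(cons (mv 1103 (cons (cons (mv 1166 (cons (fin 1102 5 910)
(mv 1167 (cons (fin 1230 5 974)
(mv 976 (cons (fin 1231 6 975)
(fin 912 6 911)))))))
(mv 1166 (cons (fin 1102 5 910)
(mv 1167 (cons (fin 1230 5 974)
(mv 1231 (cons (fin 976 6 975)
(mv 1295 (cons (fin 1104 6 1039)
(mv 1296 (cons (fin 1360 4 1103)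
(fin 1232 4 1039))))))))))))
(cons (mv 910 (cons (fin 846 7 846)
(mv 912 (cons (fin 848 6 847)
(mv 1167 (cons (fin 976 6 911)
(mv 1230 (cons (fin 1166 5 974)
(mv 1231 (cons (fin 1294 5 1038)
(mv 1295 (cons (fin 1104 6 1039)
(mv 1296 (cons (fin 1360 4 1103)
(fin 1232 4 1039)))))))))))))))
(cons (mv 910 (cons (fin 846 7 846)
(mv 912 (cons (fin 848 6 847)
(mv 976 (cons (fin 1167 6 911)
(mv 978 (cons (fin 977 3 910)
(mv 913 (cons (mv 914 (cons (fin 915 1 911)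
(fin 979 0 911)))
(mv 849 (cons (fin 850 2 846)
(fin 1104 6 848)))))))))))))
(mv 1102 (cons (fin 1166 5 910)
(mv 1101 (cons (fin 1100 2 1036)
(mv 1165 (cons (fin 908 7 908)
(mv 1164 (cons (fin 1104 1 1100)
(fin 1228 5 972)))))))))))))
(mv 1103 (cons (cons (mv 1166 (cons (fin 1102 5 910)
(mv 1230 (cons (fin 1167 5 974)
(mv 1165 (cons (fin 1101 4 973)
(mv 846 (cons (fin 910 7 846)
(mv 847 (cons (fin 782 7 782)
(mv 848 (cons (fin 912 6 847)
(fin 784 6 783)))))))))))))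
(cons (mv 1166 (cons (fin 1102 5 910)
(mv 1230 (cons (fin 1167 5 974)
(mv 1165 (cons (fin 1101 4 973)
(mv 846 (cons (fin 910 7 846)
(mv 847 (cons (fin 782 7 782)
(mv 783 (cons (fin 976 4 783)
(mv 784 (cons (fin 848 6 783)
(fin 720 6 719)))))))))))))))
(mv 1166 (cons (fin 1102 5 910)
(mv 1230 (cons (fin 1167 5 974)
(mv 1101 (cons (fin 1165 4 973)
(mv 846 (cons (fin 910 7 846)
(mv 847 (cons (fin 782 7 782)
(mv 783 (cons (fin 976 4 783)
(mv 784 (cons (fin 720 6 719)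
(mv 844 (cons (fin 845 2 780)
(mv 908 (cons (fin 1036 4 844)
(fin 780 4 780)))))))))))))))))))))
(cons (mv 912 (cons (fin 848 6 847)
(mv 1167 (cons (fin 976 6 911)
(mv 846 (cons (fin 910 7 846)
(mv 847 (cons (fin 782 7 782)
(mv 913 (cons (fin 914 3 846)
(mv 844 (cons (fin 845 0 844)
(mv 908 (cons (fin 780 4 780)
(mv 1101 (cons (fin 1165 7 908)
(fin 1036 4 844)))))))))))))))))
(cons (mv 1166 (cons (fin 1102 5 910)
(mv 1167 (cons (fin 1230 5 974)
(mv 976 (cons (fin 1231 6 975)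
(fin 912 6 911)))))))
(mv 1166 (cons (fin 1102 5 910)
(mv 912 (cons (fin 848 6 847)
(mv 846 (cons (fin 910 7 846)
(mv 847 (cons (fin 782 7 782)
(mv 976 (cons (fin 783 4 783)
(mv 913 (cons (fin 914 3 846)
(mv 844 (cons (fin 845 0 844)
(mv 908 (cons (fin 780 4 780)
(mv 1101 (cons (fin 1165 7 908)
(fin 1036 4 844)))))))))))))))))))))))))
(cons (mv 847 (cons (fin 1104 4 847)
(mv 846 (cons (fin 782 7 782)
(mv 783 (cons (fin 976 4 783)
(mv 784 (cons (fin 848 6 783)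
(fin 720 6 719)))))))))
(cons (mv 847 (cons (fin 1104 4 847)
(mv 976 (cons (fin 783 4 783)
(mv 848 (cons (fin 784 6 783)
(mv 1103 (cons (fin 912 5 847)
(mv 1231 (cons (fin 1167 6 975)
(mv 1102 (cons (fin 1166 5 910)
(mv 1101 (cons (fin 1100 2 1036)
(mv 1165 (cons (fin 908 7 908)
(mv 1228 (cons (fin 1164 5 972)
(mv 1229 (cons (fin 1292 5 1036)
(fin 1036 7 972)))))))))))))))))))))
(mv 847 (cons (fin 1104 4 847)
(mv 846 (cons (fin 782 7 782)
(mv 1103 (cons (fin 910 7 846)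
(mv 848 (cons (fin 912 6 847)
(fin 784 6 783))))))))))))))))))
(cons (mv 1038 (cons (fin 1039 3 972)
(mv 971 (cons (fin 970 0 970)
(mv 974 (cons (cons (mv 1034 (cons (fin 1035 1 970)
(mv 906 (cons (fin 907 3 906)
(mv 911 (cons (fin 910 2 907)
(mv 975 (cons (fin 912 2 908)
(mv 976 (cons (fin 1036 1 972)
(fin 977 1 973)))))))))))
(cons (mv 906 (cons (fin 907 3 906)
(mv 911 (cons (fin 910 2 907)
(mv 975 (cons (fin 912 2 908)
(mv 976 (cons (fin 1036 1 972)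
(fin 977 1 973)))))))))
(mv 1034 (cons (fin 1035 1 970)
(mv 907 (cons (fin 906 3 906)
(mv 975 (cons (fin 908 3 907)
(mv 976 (cons (fin 1036 1 972)
(fin 977 1 973)))))))))))
(cons (mv 1034 (cons (fin 1035 1 970)
(mv 911 (cons (fin 910 2 907)
(mv 975 (cons (fin 912 2 908)
(mv 976 (cons (fin 1036 1 972)
(fin 977 1 973)))))))))
(cons (mv 1034 (cons (fin 1035 1 970)
(mv 907 (cons (fin 906 3 906)
(mv 910 (cons (fin 911 2 907)
(mv 846 (cons (fin 782 5 781)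
(mv 845 (cons (fin 781 7 781)
(mv 847 (cons (fin 783 6 782)
(mv 844 (cons (fin 908 1 843)
(mv 779 (cons (fin 780 3 779)
(mv 843 (cons (fin 778 3 778)
(fin 1036 4 779)))))))))))))))))))
(mv 1034 (cons (fin 1035 1 970)
(mv 907 (cons (fin 906 3 906)
(mv 975 (cons (fin 908 3 907)
(mv 911 (cons (fin 910 2 907)
(fin 912 2 908)))))))))))))))))
(mv 1038 (cons (fin 1039 3 972)
(mv 971 (cons (fin 970 0 970)
(mv 974 (cons (cons (mv 1034 (cons (fin 1035 1 970)
(mv 906 (cons (fin 907 3 906)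
(mv 910 (cons (fin 911 2 907)
(mv 1101 (cons (fin 846 5 845)
(fin 1165 6 909)))))))))
(mv 1034 (cons (fin 1035 1 970)
(mv 907 (cons (fin 906 3 906)
(mv 975 (cons (fin 908 3 907)
(mv 976 (cons (fin 977 1 973)
(mv 912 (cons (fin 911 2 908)
(fin 913 2 909))))))))))))
(cons (mv 1035 (cons (fin 1034 1 970)
(mv 907 (cons (fin 906 3 906)
(mv 908 (cons (fin 975 3 907)
(mv 1099 (cons (fin 1163 6 907)
(fin 844 6 843)))))))))
(cons (mv 1034 (cons (fin 1035 1 970)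
(mv 910 (cons (fin 911 2 907)
(mv 1101 (cons (fin 846 5 845)
(fin 1165 6 909)))))))
(mv 906 (cons (fin 907 3 906)
(mv 910 (cons (fin 911 2 907)
(mv 1101 (cons (fin 846 5 845)
(fin 1165 6 909))))))))))))))))))))
(cons (mv 1038 (cons (cons (mv 1039 (cons (fin 972 3 972)
(mv 1100 (cons (fin 1101 1 1036)
(mv 1104 (cons (fin 1105 0 1037)
(mv 1036 (cons (fin 1099 1 1035)
(fin 1103 0 1036)))))))))
(mv 909 (cons (cons (mv 1102 (cons (fin 845 4 845)
(mv 1166 (cons (fin 1230 7 973)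
(fin 1101 4 909)))))
(mv 1101 (cons (cons (mv 1164 (cons (fin 1100 5 908)
(mv 1165 (cons (fin 1228 5 972)
(mv 1166 (cons (fin 1230 4 973)
(fin 1102 4 909)))))))
(mv 1164 (cons (fin 1100 5 908)
(mv 1165 (cons (fin 1228 5 972)
(mv 908 (cons (fin 972 7 908)
(fin 844 7 844))))))))
(cons (mv 1166 (cons (fin 1102 4 909)
(mv 1165 (cons (fin 1230 4 973)
(mv 908 (cons (fin 972 7 908)
(fin 844 7 844)))))))
(mv 1100 (cons (fin 1164 5 908)
(mv 1099 (cons (fin 1098 2 1034)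
(mv 1102 (cons (fin 1166 4 909)
(mv 1162 (cons (fin 1163 1 1098)
(mv 1035 (cons (fin 1034 3 1034)
(mv 1036 (cons (fin 1103 3 1035)
(mv 971 (cons (fin 970 3 970)
(mv 907 (cons (fin 843 4 843)
(mv 906 (cons (fin 842 7 842)
(mv 908 (cons (fin 844 7 844)
(mv 972 (cons (fin 905 0 905)
(mv 910 (cons (fin 911 1 907)
(fin 846 6 845)))))))))))))))))))))))))))))
(cons (mv 1101 (cons (cons (mv 1164 (cons (fin 1100 5 908)
(mv 1228 (cons (fin 1165 5 972)
(mv 844 (cons (fin 908 7 844)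
(mv 845 (cons (fin 780 7 780)
(mv 846 (cons (fin 910 6 845)
(fin 782 6 781)))))))))))
(mv 908 (cons (fin 844 7 844)
(mv 1165 (cons (fin 972 7 908)
(mv 1228 (cons (fin 1164 5 972)
(mv 1229 (cons (fin 1292 5 1036)
(mv 1230 (cons (fin 1294 4 1037)
(fin 1166 4 973))))))))))))
(cons (mv 1100 (cons (fin 1164 5 908)
(mv 1098 (cons (fin 1099 2 1034)
(mv 845 (cons (fin 1036 5 844)
(mv 846 (cons (fin 910 6 845)
(fin 782 6 781)))))))))
(mv 908 (cons (fin 844 7 844)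
(mv 972 (cons (fin 1165 7 908)
(mv 970 (cons (fin 971 0 970)
(mv 846 (cons (fin 910 6 845)
(mv 845 (cons (fin 782 6 781)
(mv 1036 (cons (fin 1100 5 844)
(fin 781 5 780))))))))))))))))
(mv 845 (cons (fin 1102 4 845)
(mv 1100 (cons (fin 1036 5 844)
(mv 780 (cons (fin 844 7 780)
(mv 781 (cons (fin 716 7 716)
(mv 782 (cons (fin 846 6 781)
(fin 718 6 717)))))))))))))))
(cons (mv 1039 (cons (cons (mv 1100 (cons (fin 1101 1 1036)
(mv 1104 (cons (fin 1105 0 1037)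
(mv 1036 (cons (fin 1099 1 1035)
(fin 1103 0 1036)))))))
(mv 1104 (cons (fin 1105 0 1037)
(mv 1103 (cons (fin 1036 0 1036)
(mv 976 (cons (fin 977 2 973)
(mv 1167 (cons (fin 912 5 911)
(fin 1231 6 975))))))))))
(cons (mv 1100 (cons (fin 1101 1 1036)
(mv 1036 (cons (fin 1099 1 1035)
(mv 976 (cons (fin 975 2 972)
(fin 977 2 973)))))))
(mv 1101 (cons (fin 1100 1 1036)
(mv 1104 (cons (fin 1105 0 1037)
(mv 976 (cons (fin 977 2 973)
(mv 909 (cons (mv 1102 (cons (fin 1166 4 909)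
(fin 845 4 845)))
(mv 908 (cons (fin 844 7 844)
(mv 910 (cons (fin 846 6 845)
(mv 911 (cons (fin 975 0 908)
(mv 847 (cons (fin 848 2 844)
(fin 912 7 847))))))))))))))))))))
(cons (mv 1039 (cons (fin 972 3 972)
(mv 1104 (cons (fin 1105 0 1037)
(mv 1103 (cons (fin 1036 0 1036)
(mv 976 (cons (fin 977 2 973)
(mv 1167 (cons (fin 912 5 911)
(fin 1231 6 975)))))))))))
(mv 1039 (cons (fin 972 3 972)
(mv 1101 (cons (fin 1100 1 1036)
(mv 1104 (cons (fin 1105 0 1037)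
(mv 976 (cons (fin 977 2 973)
(mv 909 (cons (mv 1102 (cons (fin 1166 4 909)
(fin 845 4 845)))
(mv 908 (cons (fin 844 7 844)
(mv 910 (cons (fin 846 6 845)
(mv 911 (cons (fin 975 0 908)
(mv 847 (cons (fin 848 2 844)
(fin 912 7 847)))))))))))))))))))))))
(cons (mv 1038 (cons (cons (cons (mv 1039 (cons (fin 972 3 972)
(mv 1100 (cons (fin 1101 1 1036)
(mv 1104 (cons (fin 1105 0 1037)
(mv 976 (cons (fin 977 2 973)
(mv 912 (cons (mv 1103 (cons (fin 1167 5 911)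
(fin 848 5 847)))
(mv 911 (cons (fin 847 7 847)
(mv 913 (cons (fin 849 6 848)
(mv 974 (cons (fin 910 1 909)
(fin 975 2 909)))))))))))))))))
(mv 1102 (cons (cons (mv 1166 (cons (fin 1230 7 973)
(mv 909 (cons (fin 974 7 909)
(fin 1101 4 909)))))
(mv 1166 (cons (fin 1230 7 973)
(mv 974 (cons (cons (mv 1229 (cons (fin 1165 5 973)
(mv 1231 (cons (fin 1167 4 974)
(mv 911 (cons (fin 975 6 910)
(mv 910 (cons (fin 847 6 846)
(mv 846 (cons (fin 1101 5 845)
(fin 782 5 781)))))))))))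
(cons (mv 1231 (cons (fin 1167 4 974)
(mv 911 (cons (fin 975 6 910)
(mv 910 (cons (fin 847 6 846)
(mv 846 (cons (fin 1101 5 845)
(fin 782 5 781)))))))))
(mv 1229 (cons (fin 1165 5 973)
(mv 1167 (cons (fin 1231 4 974)
(mv 910 (cons (fin 1103 4 910)
(mv 846 (cons (fin 1101 5 845)
(fin 782 5 781)))))))))))
(cons (mv 1229 (cons (fin 1165 5 973)
(mv 911 (cons (fin 975 6 910)
(mv 910 (cons (fin 847 6 846)
(mv 846 (cons (fin 1101 5 845)
(fin 782 5 781)))))))))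
(cons (mv 1165 (cons (fin 1229 5 973)
(mv 1167 (cons (fin 1231 4 974)
(mv 975 (cons (fin 911 6 910)
(mv 976 (cons (fin 977 1 973)
(mv 912 (cons (fin 913 2 909)
(mv 1103 (cons (fin 1104 5 911)
(mv 1164 (cons (fin 1163 2 1099)
(mv 1228 (cons (fin 1227 1 1163)
(fin 1101 5 972)))))))))))))))))
(mv 1229 (cons (fin 1165 5 973)
(mv 1167 (cons (fin 1231 4 974)
(mv 1103 (cons (fin 910 4 910)
(mv 1104 (cons (fin 1105 3 1037)
(mv 975 (cons (fin 911 6 910)
(mv 976 (cons (fin 977 1 973)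
(fin 912 5 911))))))))))))))))))))
(cons (mv 909 (cons (fin 845 4 845)
(mv 1101 (cons (mv 1164 (cons (fin 1100 5 908)
(mv 1165 (cons (fin 1228 5 972)
(mv 1229 (cons (fin 1293 6 1037)
(fin 974 6 973)))))))
(cons (mv 908 (cons (fin 844 7 844)
(mv 1165 (cons (fin 972 7 908)
(mv 1229 (cons (fin 1293 6 1037)
(fin 974 6 973)))))))
(mv 1100 (cons (fin 1164 5 908)
(mv 1099 (cons (fin 1098 2 1034)
(mv 1163 (cons (fin 1162 1 1098)
(mv 1035 (cons (fin 1034 3 1034)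
(mv 908 (cons (fin 844 7 844)
(mv 971 (cons (fin 972 6 907)
(mv 970 (cons (fin 906 7 906)
(mv 910 (cons (fin 907 1 906)
(fin 846 6 845))))))))))))))))))))))
(cons (mv 1166 (cons (fin 1230 7 973)
(mv 909 (cons (fin 1101 4 909)
(fin 845 4 845)))))
(mv 1166 (cons (fin 1230 7 973)
(mv 909 (cons (fin 974 7 909)
(fin 845 4 845))))))))))
(cons (mv 1039 (cons (cons (mv 1100 (cons (fin 1101 1 1036)
(mv 1104 (cons (fin 1105 0 1037)
(mv 976 (cons (fin 977 2 973)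
(mv 912 (cons (mv 1103 (cons (fin 1167 5 911)
(fin 848 5 847)))
(mv 911 (cons (fin 847 7 847)
(mv 913 (cons (fin 849 6 848)
(mv 974 (cons (fin 910 1 909)
(fin 975 2 909)))))))))))))))
(cons (mv 1104 (cons (fin 1105 0 1037)
(mv 976 (cons (fin 977 2 973)
(mv 912 (cons (mv 1103 (cons (fin 1167 5 911)
(fin 848 5 847)))
(mv 911 (cons (fin 847 7 847)
(mv 913 (cons (fin 849 6 848)
(mv 974 (cons (fin 910 1 909)
(fin 975 2 909)))))))))))))
(mv 1101 (cons (fin 1100 1 1036)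
(mv 1104 (cons (fin 1105 0 1037)
(mv 1165 (cons (cons (mv 974 (cons (fin 1229 6 973)
(fin 910 6 909)))
(mv 1228 (cons (fin 1164 5 972)
(mv 1292 (cons (fin 1229 5 1036)
(mv 1166 (cons (fin 1230 4 973)
(mv 909 (cons (fin 1102 4 909)
(mv 844 (cons (fin 908 7 844)
(mv 845 (cons (fin 780 7 780)
(mv 846 (cons (fin 910 6 845)
(fin 782 6 781))))))))))))))))
(cons (mv 1228 (cons (fin 1164 5 972)
(mv 1230 (cons (fin 1166 4 973)
(mv 910 (cons (fin 974 6 909)
(mv 909 (cons (fin 846 6 845)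
(mv 844 (cons (fin 908 7 844)
(mv 845 (cons (fin 780 7 780)
(fin 1102 4 845)))))))))))))
(mv 1228 (cons (fin 1164 5 972)
(mv 1229 (cons (fin 1292 5 1036)
(fin 974 6 973))))))))))))))
(cons (mv 1101 (cons (fin 1100 1 1036)
(mv 976 (cons (fin 977 2 973)
(mv 909 (cons (mv 1102 (cons (fin 1166 4 909)
(fin 845 4 845)))
(mv 908 (cons (fin 844 7 844)
(mv 974 (cons (fin 975 3 908)
(mv 1165 (cons (fin 1229 6 973)
(fin 910 6 909)))))))))))))
(cons (mv 1101 (cons (fin 1100 1 1036)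
(mv 1104 (cons (fin 1105 0 1037)
(mv 976 (cons (fin 977 2 973)
(mv 909 (cons (mv 1102 (cons (fin 1166 4 909)
(fin 845 4 845)))
(mv 908 (cons (fin 844 7 844)
(mv 910 (cons (fin 846 6 845)
(mv 911 (cons (fin 975 0 908)
(mv 847 (cons (fin 848 2 844)
(fin 912 7 847)))))))))))))))))
(mv 1101 (cons (fin 1100 1 1036)
(mv 1104 (cons (fin 1105 0 1037)
(mv 976 (cons (fin 977 2 973)
(mv 912 (cons (mv 1103 (cons (fin 1167 5 911)
(fin 848 5 847)))
(mv 911 (cons (fin 847 7 847)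
(mv 913 (cons (fin 849 6 848)
(mv 974 (cons (fin 975 2 909)
(mv 1165 (cons (fin 1229 6 973)
(mv 1228 (cons (fin 1164 5 972)
(mv 1166 (cons (fin 1230 4 973)
(mv 909 (cons (fin 1102 7 909)
(mv 844 (cons (fin 908 7 844)
(mv 845 (cons (fin 780 7 780)
(fin 781 4 781)))))))))))))))))))))))))))))))
(mv 1039 (cons (fin 972 3 972)
(mv 1104 (cons (fin 1105 0 1037)
(mv 976 (cons (fin 977 2 973)
(mv 912 (cons (mv 1103 (cons (fin 1167 5 911)
(fin 848 5 847)))
(mv 911 (cons (fin 847 7 847)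
(mv 913 (cons (fin 849 6 848)
(mv 974 (cons (fin 910 1 909)
(fin 975 2 909)))))))))))))))))
(cons (cons (mv 1039 (cons (fin 972 3 972)
(mv 1101 (cons (fin 1100 1 1036)
(mv 1104 (cons (fin 1105 0 1037)
(mv 1165 (cons (cons (mv 974 (cons (fin 1229 6 973)
(fin 910 6 909)))
(mv 1228 (cons (fin 1164 5 972)
(mv 1292 (cons (fin 1229 5 1036)
(mv 1166 (cons (fin 1230 4 973)
(mv 909 (cons (fin 1102 4 909)
(mv 844 (cons (fin 908 7 844)
(mv 845 (cons (fin 780 7 780)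
(mv 846 (cons (fin 910 6 845)
(fin 782 6 781))))))))))))))))
(cons (mv 1228 (cons (fin 1164 5 972)
(mv 1230 (cons (fin 1166 4 973)
(mv 910 (cons (fin 974 6 909)
(mv 909 (cons (fin 846 6 845)
(mv 844 (cons (fin 908 7 844)
(mv 845 (cons (fin 780 7 780)
(fin 1102 4 845)))))))))))))
(mv 1228 (cons (fin 1164 5 972)
(mv 1229 (cons (fin 1292 5 1036)
(fin 974 6 973))))))))))))))
(mv 1039 (cons (fin 972 3 972)
(mv 1101 (cons (fin 1100 1 1036)
(mv 976 (cons (fin 977 2 973)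
(mv 909 (cons (mv 1102 (cons (fin 1166 4 909)
(fin 845 4 845)))
(mv 908 (cons (fin 844 7 844)
(mv 974 (cons (fin 975 3 908)
(mv 1165 (cons (fin 1229 6 973)
(fin 910 6 909))))))))))))))))
(cons (mv 1039 (cons (fin 972 3 972)
(mv 1101 (cons (fin 1100 1 1036)
(mv 1104 (cons (fin 1105 0 1037)
(mv 976 (cons (fin 977 2 973)
(mv 909 (cons (mv 1102 (cons (fin 1166 4 909)
(fin 845 4 845)))
(mv 908 (cons (fin 844 7 844)
(mv 910 (cons (fin 846 6 845)
(mv 911 (cons (fin 975 0 908)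
(mv 847 (cons (fin 848 2 844)
(fin 912 7 847)))))))))))))))))))
(mv 1039 (cons (fin 972 3 972)
(mv 1101 (cons (fin 1100 1 1036)
(mv 1104 (cons (fin 1105 0 1037)
(mv 976 (cons (fin 977 2 973)
(mv 912 (cons (mv 1103 (cons (fin 1167 5 911)
(fin 848 5 847)))
(mv 911 (cons (fin 847 7 847)
(mv 913 (cons (fin 849 6 848)
(mv 974 (cons (fin 975 2 909)
(mv 1165 (cons (fin 1229 6 973)
(mv 1228 (cons (fin 1164 5 972)
(mv 1166 (cons (fin 1230 4 973)
(mv 909 (cons (fin 1102 7 909)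
(mv 844 (cons (fin 908 7 844)
(mv 845 (cons (fin 780 7 780)
(fin 781 4 781)))))))))))))))))))))))))))))))))
(mv 1038 (cons (cons (mv 1039 (cons (fin 972 3 972)
(mv 1104 (cons (fin 1105 0 1037)
(mv 1103 (cons (fin 1036 0 1036)
(mv 976 (cons (fin 977 2 973)
(mv 1167 (cons (fin 912 5 911)
(fin 1231 6 975)))))))))))
(cons (mv 1102 (cons (cons (mv 1166 (cons (fin 1230 7 973)
(mv 909 (cons (fin 974 7 909)
(fin 1101 4 909)))))
(mv 909 (cons (fin 845 4 845)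
(mv 1101 (cons (cons (mv 908 (cons (fin 844 7 844)
(mv 1165 (cons (fin 972 7 908)
(mv 1229 (cons (fin 1293 6 1037)
(fin 974 6 973)))))))
(mv 910 (cons (fin 846 6 845)
(mv 1165 (cons (fin 974 5 909)
(mv 1228 (cons (fin 1164 5 972)
(mv 1229 (cons (fin 1292 5 1036)
(fin 1293 6 1037))))))))))
(cons (mv 908 (cons (fin 844 7 844)
(mv 910 (cons (fin 846 6 845)
(mv 974 (cons (mv 975 (cons (fin 976 3 908)
(fin 907 0 907)))
(cons (mv 1167 (cons (fin 1103 4 910)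
(mv 906 (cons (fin 907 0 906)
(mv 911 (cons (fin 847 6 846)
(mv 972 (cons (fin 971 1 907)
(fin 912 1 908)))))))))
(mv 1167 (cons (fin 1103 4 910)
(mv 975 (cons (fin 976 3 908)
(mv 1035 (cons (fin 1036 2 971)
(mv 911 (cons (fin 847 6 846)
(mv 972 (cons (fin 971 1 907)
(fin 912 1 908))))))))))))))))))
(mv 908 (cons (fin 844 7 844)
(mv 1165 (cons (fin 972 7 908)
(mv 1228 (cons (fin 1164 5 972)
(mv 1229 (cons (fin 1292 5 1036)
(fin 1293 6 1037)))))))))))))))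
(cons (mv 1166 (cons (fin 1230 7 973)
(mv 974 (cons (cons (mv 1229 (cons (fin 1165 5 973)
(mv 1231 (cons (fin 1167 4 974)
(mv 975 (cons (fin 911 6 910)
(mv 1036 (cons (fin 976 1 972)
(fin 1035 2 971)))))))))
(mv 1231 (cons (fin 1167 4 974)
(mv 975 (cons (fin 911 6 910)
(mv 1036 (cons (fin 976 1 972)
(fin 1035 2 971))))))))
(cons (mv 1229 (cons (fin 1165 5 973)
(mv 1167 (cons (fin 1231 4 974)
(mv 1103 (cons (fin 910 4 910)
(mv 1104 (cons (fin 1105 3 1037)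
(mv 1036 (cons (fin 1101 3 1036)
(fin 1035 0 1035)))))))))))
(cons (mv 1229 (cons (fin 1165 5 973)
(mv 975 (cons (fin 911 6 910)
(mv 1036 (cons (fin 976 1 972)
(fin 1035 2 971)))))))
(mv 1229 (cons (fin 1165 5 973)
(mv 1231 (cons (fin 1167 4 974)
(mv 911 (cons (fin 975 6 910)
(mv 910 (cons (fin 847 6 846)
(mv 846 (cons (fin 1101 5 845)
(fin 782 5 781)))))))))))))))))
(cons (mv 1166 (cons (fin 1230 7 973)
(mv 909 (cons (fin 1101 4 909)
(fin 845 4 845)))))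
(mv 1166 (cons (fin 1230 7 973)
(mv 909 (cons (fin 974 7 909)
(fin 845 4 845)))))))))
(mv 1102 (cons (cons (mv 1166 (cons (fin 1230 7 973)
(mv 909 (cons (fin 974 7 909)
(fin 1101 4 909)))))
(mv 909 (cons (fin 845 4 845)
(mv 1101 (cons (cons (mv 908 (cons (fin 844 7 844)
(mv 910 (cons (fin 846 6 845)
(mv 1165 (cons (fin 974 5 909)
(mv 1293 (cons (fin 1229 6 1037)
(mv 1164 (cons (fin 1228 5 972)
(mv 1162 (cons (fin 1163 2 1098)
(mv 1104 (cons (fin 1103 1 1100)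
(mv 1039 (cons (fin 1105 0 1037)
(mv 976 (cons (fin 977 2 973)
(mv 975 (cons (fin 911 0 908)
(fin 1036 2 972)))))))))))))))))))))
(mv 908 (cons (fin 844 7 844)
(mv 1165 (cons (mv 1229 (cons (fin 1293 6 1037)
(fin 974 6 973)))
(cons (mv 1164 (cons (fin 1228 5 972)
(mv 1162 (cons (fin 1163 2 1098)
(mv 1104 (cons (fin 1103 1 1100)
(mv 1039 (cons (fin 1105 0 1037)
(mv 976 (cons (fin 977 2 973)
(mv 975 (cons (fin 974 3 908)
(fin 1036 2 972)))))))))))))
(mv 1228 (cons (fin 1164 5 972)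
(mv 1229 (cons (fin 1292 5 1036)
(fin 1293 6 1037)))))))))))
(cons (mv 910 (cons (fin 846 6 845)
(mv 1165 (cons (fin 974 5 909)
(mv 1228 (cons (fin 1164 5 972)
(mv 1229 (cons (fin 1292 5 1036)
(fin 1293 6 1037)))))))))
(cons (mv 908 (cons (fin 844 7 844)
(mv 910 (cons (fin 846 6 845)
(mv 974 (cons (mv 975 (cons (fin 976 3 908)
(fin 907 0 907)))
(mv 1103 (cons (fin 1167 4 910)
(mv 1104 (cons (fin 1036 3 1036)
(fin 1105 3 1037)))))))))))
(mv 908 (cons (fin 844 7 844)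
(mv 910 (cons (fin 846 6 845)
(mv 976 (cons (cons (mv 1039 (cons (fin 977 2 973)
(mv 975 (cons (fin 911 0 908)
(fin 1036 2 972)))))
(mv 911 (cons (fin 975 0 908)
(mv 912 (cons (fin 977 0 909)
(mv 847 (cons (fin 848 2 844)
(fin 1104 7 847))))))))
(cons (mv 1039 (cons (fin 977 2 973)
(mv 1104 (cons (fin 1105 0 1037)
(mv 1036 (cons (fin 1103 3 1036)
(fin 975 2 972)))))))
(cons (mv 975 (cons (fin 911 0 908)
(mv 1036 (cons (fin 1039 2 972)
(mv 1103 (cons (fin 1104 3 1036)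
(fin 1035 0 1035)))))))
(mv 1039 (cons (fin 977 2 973)
(mv 1104 (cons (fin 1105 0 1037)
(mv 1103 (cons (fin 1036 3 1036)
(mv 1167 (cons (fin 912 5 911)
(fin 1231 6 975))))))))))))))))))))))))
(cons (mv 1230 (cons (fin 1166 7 973)
(mv 976 (cons (cons (mv 1039 (cons (fin 977 2 973)
(mv 1104 (cons (fin 1105 0 1037)
(mv 1036 (cons (fin 1103 0 1036)
(fin 975 2 972)))))))
(cons (mv 1103 (cons (mv 1104 (cons (fin 1105 3 1037)
(mv 1036 (cons (fin 1101 3 1036)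
(fin 1035 0 1035)))))
(cons (mv 1036 (cons (fin 1035 0 1035)
(mv 974 (cons (fin 975 1 972)
(mv 910 (cons (fin 1167 4 910)
(mv 1101 (cons (fin 1165 5 909)
(fin 846 5 845)))))))))
(mv 1104 (cons (fin 1105 3 1037)
(mv 912 (cons (fin 1167 5 911)
(mv 911 (cons (fin 847 7 847)
(mv 913 (cons (fin 849 6 848)
(mv 974 (cons (fin 910 1 909)
(fin 975 2 909))))))))))))))
(mv 1039 (cons (fin 977 2 973)
(mv 1104 (cons (fin 1105 0 1037)
(mv 912 (cons (mv 1103 (cons (fin 1167 5 911)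
(fin 848 5 847)))
(mv 911 (cons (fin 847 7 847)
(mv 913 (cons (fin 849 6 848)
(mv 974 (cons (fin 910 1 909)
(fin 975 2 909)))))))))))))))
(cons (mv 1039 (cons (fin 977 2 973)
(mv 1104 (cons (fin 1105 0 1037)
(mv 1103 (cons (fin 1036 0 1036)
(mv 1167 (cons (fin 912 5 911)
(fin 1231 6 975)))))))))
(cons (mv 1039 (cons (fin 977 2 973)
(mv 1104 (cons (fin 1105 0 1037)
(mv 975 (cons (fin 1036 2 972)
(mv 847 (cons (fin 911 5 846)
(mv 912 (cons (mv 913 (cons (fin 974 2 909)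
(fin 849 6 848)))
(mv 848 (cons (fin 784 5 783)
(fin 783 7 783)))))))))))))
(mv 1039 (cons (fin 977 2 973)
(mv 1036 (cons (fin 975 2 972)
(mv 1035 (cons (fin 1103 0 1035)
(mv 1034 (cons (fin 1101 0 1034)
(fin 974 2 970)))))))))))))))
(cons (mv 1166 (cons (fin 1230 7 973)
(mv 909 (cons (fin 1101 4 909)
(fin 845 4 845)))))
(mv 1166 (cons (fin 1230 7 973)
(mv 909 (cons (fin 974 7 909)
(fin 845 4 845)))))))))))
(cons (cons (mv 1039 (cons (fin 972 3 972)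
(mv 1104 (cons (fin 1105 0 1037)
(mv 1103 (cons (fin 1036 0 1036)
(mv 974 (cons (cons (mv 1167 (cons (fin 1231 7 974)
(mv 910 (cons (fin 975 7 910)
(fin 1102 4 910)))))
(mv 1167 (cons (fin 1231 7 974)
(mv 1166 (cons (cons (mv 1230 (cons (fin 975 5 974)
(fin 1102 7 973)))
(mv 1230 (cons (fin 975 5 974)
(mv 1165 (cons (fin 1164 2 1100)
(fin 1101 4 973))))))
(cons (mv 1164 (cons (fin 1165 2 1100)
(mv 909 (cons (fin 1102 7 909)
(mv 845 (cons (fin 781 4 781)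
(mv 844 (cons (fin 780 7 780)
(mv 908 (cons (fin 1101 7 844)
(mv 906 (cons (fin 907 0 906)
(mv 846 (cons (fin 782 6 781)
(mv 847 (cons (fin 848 1 844)
(mv 911 (cons (fin 912 0 844)
(fin 975 4 847)))))))))))))))))))
(mv 1102 (cons (fin 1230 7 973)
(fin 909 7 909)))))))))
(cons (mv 910 (cons (fin 846 4 846)
(mv 1165 (cons (fin 1101 6 909)
(mv 1102 (cons (mv 1166 (cons (fin 1229 5 973)
(fin 1230 7 973)))
(mv 909 (cons (fin 845 7 845)
(mv 911 (cons (fin 847 6 846)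
(mv 912 (cons (fin 913 1 909)
(mv 848 (cons (fin 849 2 845)
(fin 975 6 847)))))))))))))))
(cons (mv 1167 (cons (fin 1231 7 974)
(mv 910 (cons (fin 975 7 910)
(fin 846 4 846)))))
(mv 1167 (cons (fin 1231 7 974)
(mv 910 (cons (fin 1102 4 910)
(fin 846 4 846)))))))))))))))
(mv 1039 (cons (fin 972 3 972)
(mv 976 (cons (fin 977 2 973)
(mv 1036 (cons (fin 975 2 972)
(mv 1035 (cons (cons (mv 1098 (cons (fin 1099 1 1034)
(mv 1034 (cons (fin 1097 1 1033)
(fin 974 2 970)))))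
(mv 1098 (cons (fin 1099 1 1034)
(mv 1102 (cons (fin 1103 0 1035)
(mv 1166 (cons (fin 1230 7 973)
(mv 909 (cons (fin 974 7 909)
(fin 1101 4 909))))))))))
(cons (mv 1102 (cons (fin 1103 0 1035)
(mv 1034 (cons (fin 1101 0 1034)
(fin 974 2 970)))))
(mv 1098 (cons (fin 1099 1 1034)
(mv 1097 (cons (fin 1034 1 1033)
(mv 1102 (cons (fin 1103 0 1035)
(mv 1166 (cons (fin 1230 7 973)
(mv 909 (cons (fin 1101 4 909)
(fin 845 4 845)))))))))))))))))))))
(cons (mv 1039 (cons (fin 972 3 972)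
(mv 1104 (cons (fin 1105 0 1037)
(mv 976 (cons (fin 977 2 973)
(mv 912 (cons (mv 1103 (cons (fin 1167 5 911)
(fin 848 5 847)))
(mv 911 (cons (fin 847 7 847)
(mv 913 (cons (fin 849 6 848)
(mv 974 (cons (fin 910 1 909)
(fin 975 2 909)))))))))))))))
(mv 1039 (cons (fin 972 3 972)
(mv 1104 (cons (fin 1105 0 1037)
(mv 976 (cons (fin 977 2 973)
(mv 975 (cons (fin 1036 2 972)
(mv 911 (cons (fin 847 4 847)
(mv 1102 (cons (mv 1166 (cons (fin 1230 7 973)
(fin 974 6 910)))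
(cons (mv 909 (cons (fin 845 4 845)
(mv 908 (cons (fin 974 3 908)
(fin 910 0 908)))))
(mv 1166 (cons (fin 1230 7 973)
(mv 909 (cons (fin 1101 4 909)
(fin 845 4 845))))))))))))))))))))))))))
(cons (cons (cons (mv 1039 (cons (cons (mv 1038 (cons (fin 972 3 972)
(mv 1100 (cons (fin 1101 1 1036)
(mv 1104 (cons (fin 1105 0 1037)
(mv 1036 (cons (fin 1099 1 1035)
(fin 1103 0 1036)))))))))
(cons (mv 974 (cons (cons (mv 975 (cons (fin 972 0 972)
(mv 976 (cons (fin 1036 1 972)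
(mv 908 (cons (fin 909 3 908)
(mv 912 (cons (fin 913 2 909)
(mv 1103 (cons (fin 848 5 847)
(fin 1167 6 911)))))))))))
(mv 1101 (cons (cons (mv 1165 (cons (fin 910 6 909)
(mv 1228 (cons (fin 1164 5 972)
(mv 1292 (cons (fin 1229 5 1036)
(mv 1166 (cons (fin 1230 4 973)
(mv 1102 (cons (fin 909 4 909)
(mv 1100 (cons (fin 1103 2 1036)
(mv 1099 (cons (fin 1098 0 1098)
(fin 1167 0 1099)))))))))))))))
(cons (mv 909 (cons (cons (mv 1164 (cons (fin 1100 5 908)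
(mv 1166 (cons (fin 1102 4 909)
(mv 908 (cons (fin 844 7 844)
(mv 907 (cons (fin 906 0 906)
(mv 910 (cons (fin 846 6 845)
(mv 971 (cons (fin 970 1 906)
(mv 972 (cons (fin 911 1 907)
(mv 1034 (cons (fin 1035 1 970)
(mv 843 (cons (fin 842 3 842)
(mv 779 (cons (fin 1036 4 779)
(fin 715 4 715)))))))))))))))))))))
(mv 1100 (cons (fin 1164 5 908)
(mv 1102 (cons (fin 1103 2 1036)
(fin 1166 4 909))))))
(cons (mv 1166 (cons (fin 1102 4 909)
(mv 908 (cons (fin 844 7 844)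
(mv 907 (cons (fin 906 0 906)
(mv 910 (cons (fin 846 6 845)
(mv 971 (cons (fin 970 1 906)
(mv 972 (cons (fin 911 1 907)
(mv 1034 (cons (fin 1035 1 970)
(mv 843 (cons (fin 842 3 842)
(mv 779 (cons (fin 1036 4 779)
(fin 715 4 715)))))))))))))))))))
(mv 1164 (cons (fin 1100 5 908)
(mv 908 (cons (fin 844 7 844)
(mv 907 (cons (fin 906 0 906)
(mv 910 (cons (fin 846 6 845)
(mv 971 (cons (fin 970 1 906)
(mv 972 (cons (fin 911 1 907)
(mv 1034 (cons (fin 1035 1 970)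
(mv 843 (cons (fin 842 3 842)
(mv 779 (cons (fin 1036 4 779)
(fin 715 4 715))))))))))))))))))))))
(mv 1165 (cons (cons (mv 1228 (cons (fin 1164 5 972)
(mv 1292 (cons (fin 1229 5 1036)
(mv 1166 (cons (fin 1230 4 973)
(mv 1102 (cons (fin 909 4 909)
(mv 1100 (cons (fin 1103 2 1036)
(mv 1099 (cons (fin 1098 0 1098)
(fin 1167 0 1099)))))))))))))
(mv 1230 (cons (fin 1166 4 973)
(mv 1229 (cons (fin 1294 4 1037)
(mv 972 (cons (fin 1036 7 972)
(fin 908 7 908))))))))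
(cons (mv 1228 (cons (fin 1164 5 972)
(mv 1229 (cons (fin 1292 5 1036)
(mv 972 (cons (fin 1036 7 972)
(fin 908 7 908)))))))
(mv 1228 (cons (fin 1164 5 972)
(mv 1166 (cons (fin 1230 4 973)
(mv 1102 (cons (fin 909 4 909)
(mv 1100 (cons (fin 1103 2 1036)
(mv 1099 (cons (fin 1098 0 1098)
(fin 1167 0 1099))))))))))))))))
(cons (mv 1165 (cons (fin 910 6 909)
(mv 1228 (cons (fin 1164 5 972)
(mv 1229 (cons (fin 1292 5 1036)
(mv 1230 (cons (fin 1294 4 1037)
(fin 1166 4 973)))))))))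
(cons (mv 1165 (cons (fin 910 6 909)
(mv 1230 (cons (fin 1166 4 973)
(mv 1229 (cons (fin 1294 4 1037)
(mv 972 (cons (fin 1036 7 972)
(fin 908 7 908)))))))))
(mv 1165 (cons (fin 910 6 909)
(mv 1228 (cons (fin 1164 5 972)
(mv 1229 (cons (fin 1292 5 1036)
(mv 972 (cons (fin 1036 7 972)
(fin 908 7 908))))))))))))))
(cons (mv 910 (cons (cons (mv 1101 (cons (fin 1165 6 909)
(mv 846 (cons (fin 782 5 781)
(fin 909 6 845)))))
(mv 1101 (cons (fin 1165 6 909)
(mv 909 (cons (cons (mv 1164 (cons (fin 1100 5 908)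
(mv 1166 (cons (fin 1102 4 909)
(mv 908 (cons (fin 844 7 844)
(mv 975 (cons (fin 976 3 908)
(fin 907 0 907)))))))))
(mv 1100 (cons (fin 1164 5 908)
(mv 1102 (cons (fin 1103 2 1036)
(fin 1166 4 909))))))
(cons (mv 1164 (cons (fin 1100 5 908)
(mv 908 (cons (fin 844 7 844)
(mv 975 (cons (fin 976 3 908)
(fin 907 0 907)))))))
(mv 1166 (cons (fin 1102 4 909)
(mv 908 (cons (fin 844 7 844)
(mv 975 (cons (fin 976 3 908)
(fin 907 0 907)))))))))))))
(cons (mv 846 (cons (fin 782 5 781)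
(mv 975 (cons (mv 1103 (cons (fin 1167 7 910)
(fin 911 7 846)))
(mv 976 (cons (fin 1036 1 972)
(mv 909 (cons (fin 908 3 908)
(fin 977 3 909)))))))))
(mv 1165 (cons (fin 1101 6 909)
(mv 846 (cons (fin 782 5 781)
(mv 975 (cons (mv 1103 (cons (fin 1167 7 910)
(fin 911 7 846)))
(cons (mv 976 (cons (fin 1036 1 972)
(mv 912 (cons (fin 913 2 909)
(mv 848 (cons (fin 784 5 783)
(mv 847 (cons (fin 783 7 783)
(mv 911 (cons (fin 1104 7 847)
(mv 849 (cons (fin 850 1 846)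
(fin 785 6 784)))))))))))))
(mv 1103 (cons (fin 1167 7 910)
(mv 976 (cons (fin 1036 1 972)
(mv 912 (cons (fin 913 2 909)
(fin 848 5 847)))))))))))))))))
(cons (mv 972 (cons (fin 975 0 972)
(mv 910 (cons (cons (mv 1165 (cons (fin 1101 6 909)
(mv 971 (cons (fin 911 2 907)
(mv 1034 (cons (fin 1035 1 970)
(mv 970 (cons (fin 1033 1 969)
(fin 909 2 906)))))))))
(mv 1101 (cons (fin 1165 6 909)
(mv 846 (cons (fin 782 5 781)
(fin 909 6 845))))))
(cons (mv 971 (cons (fin 911 2 907)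
(mv 1034 (cons (fin 1035 1 970)
(mv 970 (cons (fin 1033 1 969)
(fin 909 2 906)))))))
(mv 1165 (cons (fin 1101 6 909)
(mv 971 (cons (fin 911 2 907)
(mv 1034 (cons (fin 1035 1 970)
(mv 970 (cons (fin 1033 1 969)
(mv 906 (cons (fin 905 3 905)
(fin 907 3 906))))))))))))))))
(mv 975 (cons (fin 972 0 972)
(mv 976 (cons (fin 1036 1 972)
(mv 912 (cons (fin 913 2 909)
(mv 1103 (cons (fin 848 5 847)
(fin 1167 6 911)))))))))))))
(mv 1038 (cons (cons (mv 1100 (cons (fin 1101 1 1036)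
(mv 1104 (cons (fin 1105 0 1037)
(mv 1036 (cons (fin 1099 1 1035)
(fin 1103 0 1036)))))))
(mv 1104 (cons (fin 1105 0 1037)
(mv 1103 (cons (fin 1036 0 1036)
(mv 976 (cons (fin 977 2 973)
(mv 1167 (cons (fin 912 5 911)
(fin 1231 6 975))))))))))
(cons (mv 1100 (cons (fin 1101 1 1036)
(mv 1036 (cons (fin 1099 1 1035)
(mv 976 (cons (fin 975 2 972)
(fin 977 2 973)))))))
(mv 1100 (cons (fin 1101 1 1036)
(mv 1104 (cons (fin 1105 0 1037)
(mv 976 (cons (fin 977 2 973)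
(mv 912 (cons (mv 1103 (cons (fin 1167 5 911)
(fin 848 5 847)))
(mv 911 (cons (fin 847 7 847)
(mv 913 (cons (fin 849 6 848)
(mv 974 (cons (fin 910 1 909)
(fin 975 2 909))))))))))))))))))))
(cons (mv 1038 (cons (fin 972 3 972)
(mv 1104 (cons (fin 1105 0 1037)
(mv 1103 (cons (fin 1036 0 1036)
(mv 976 (cons (fin 977 2 973)
(mv 1167 (cons (fin 912 5 911)
(fin 1231 6 975)))))))))))
(cons (mv 1038 (cons (fin 972 3 972)
(mv 1100 (cons (fin 1101 1 1036)
(mv 1036 (cons (fin 1099 1 1035)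
(mv 976 (cons (fin 975 2 972)
(fin 977 2 973)))))))))
(mv 1038 (cons (fin 972 3 972)
(mv 1100 (cons (fin 1101 1 1036)
(mv 1104 (cons (fin 1105 0 1037)
(mv 976 (cons (fin 977 2 973)
(mv 912 (cons (mv 1103 (cons (fin 1167 5 911)
(fin 848 5 847)))
(mv 911 (cons (fin 847 7 847)
(mv 913 (cons (fin 849 6 848)
(mv 974 (cons (fin 910 1 909)
(fin 975 2 909)))))))))))))))))))))
(mv 1038 (cons (cons (mv 1039 (cons (fin 972 3 972)
(mv 1100 (cons (fin 1101 1 1036)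
(mv 1104 (cons (fin 1105 0 1037)
(mv 1036 (cons (fin 1099 1 1035)
(fin 1103 0 1036)))))))))
(cons (mv 1102 (cons (cons (mv 1166 (cons (fin 1230 7 973)
(mv 909 (cons (fin 974 7 909)
(fin 1101 4 909)))))
(mv 1166 (cons (fin 1230 7 973)
(mv 974 (cons (cons (mv 1231 (cons (fin 1167 4 974)
(mv 975 (cons (fin 911 6 910)
(mv 1036 (cons (fin 976 1 972)
(fin 1035 2 971)))))))
(mv 1167 (cons (fin 1231 4 974)
(mv 1103 (cons (fin 910 4 910)
(mv 1104 (cons (fin 1105 3 1037)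
(mv 1036 (cons (fin 1101 3 1036)
(fin 1035 0 1035))))))))))
(cons (mv 975 (cons (fin 911 6 910)
(mv 1036 (cons (fin 976 1 972)
(fin 1035 2 971)))))
(mv 1231 (cons (fin 1167 4 974)
(mv 911 (cons (fin 975 6 910)
(mv 910 (cons (fin 847 6 846)
(mv 846 (cons (fin 1101 5 845)
(fin 782 5 781)))))))))))))))
(cons (mv 909 (cons (fin 845 4 845)
(mv 1101 (cons (cons (mv 1100 (cons (fin 1164 5 908)
(mv 1099 (cons (fin 1098 2 1034)
(mv 1162 (cons (fin 1163 1 1098)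
(mv 1035 (cons (fin 1034 3 1034)
(mv 1103 (cons (fin 1036 3 1035)
(mv 1104 (cons (fin 1105 3 1037)
(mv 908 (cons (fin 844 7 844)
(mv 910 (cons (fin 846 6 845)
(mv 1167 (cons (fin 974 4 910)
(mv 1295 (cons (fin 1231 7 1038)
(mv 912 (cons (fin 976 5 911)
(mv 911 (cons (fin 972 1 908)
(mv 848 (cons (fin 847 2 844)
(fin 849 2 845)))))))))))))))))))))))))))
(cons (mv 908 (cons (fin 844 7 844)
(mv 910 (cons (fin 846 6 845)
(mv 974 (cons (mv 975 (cons (fin 976 3 908)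
(fin 907 0 907)))
(cons (mv 1167 (cons (fin 1103 4 910)
(mv 906 (cons (fin 907 0 906)
(mv 911 (cons (fin 847 6 846)
(mv 972 (cons (fin 971 1 907)
(fin 912 1 908)))))))))
(mv 1167 (cons (fin 1103 4 910)
(mv 975 (cons (fin 976 3 908)
(mv 1035 (cons (fin 1036 2 971)
(mv 911 (cons (fin 847 6 846)
(mv 972 (cons (fin 971 1 907)
(fin 912 1 908))))))))))))))))))
(mv 1100 (cons (fin 1164 5 908)
(mv 1099 (cons (fin 1098 2 1034)
(mv 1162 (cons (fin 1163 1 1098)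
(mv 1035 (cons (fin 1034 3 1034)
(mv 1036 (cons (fin 1103 3 1035)
(mv 971 (cons (fin 970 3 970)
(mv 974 (cons (fin 975 2 971)
(mv 907 (cons (fin 843 4 843)
(mv 906 (cons (fin 972 3 906)
(fin 908 0 906)))))))))))))))))))))
(cons (cons (mv 1100 (cons (fin 1164 5 908)
(mv 1099 (cons (fin 1098 2 1034)
(mv 1162 (cons (fin 1163 1 1098)
(mv 1035 (cons (fin 1034 3 1034)
(mv 1103 (cons (fin 1036 3 1035)
(mv 1104 (cons (fin 1105 3 1037)
(mv 910 (cons (fin 846 6 845)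
(mv 974 (cons (fin 1167 4 910)
(mv 911 (cons (fin 847 6 846)
(mv 972 (cons (fin 912 1 908)
(fin 971 2 907)))))))))))))))))))))
(mv 1100 (cons (fin 1164 5 908)
(mv 1099 (cons (fin 1098 2 1034)
(mv 1163 (cons (fin 1162 1 1098)
(mv 1035 (cons (fin 1034 3 1034)
(mv 908 (cons (fin 844 7 844)
(mv 971 (cons (fin 972 6 907)
(mv 970 (cons (fin 906 7 906)
(mv 910 (cons (fin 907 1 906)
(fin 846 6 845))))))))))))))))))
(cons (mv 1100 (cons (fin 1164 5 908)
(mv 1099 (cons (fin 1098 2 1034)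
(mv 1163 (cons (fin 1162 1 1098)
(mv 908 (cons (fin 844 7 844)
(mv 1036 (cons (fin 972 5 907)
(mv 1291 (cons (fin 1227 6 1035)
(mv 1103 (cons (fin 1104 3 1036)
(mv 910 (cons (fin 846 6 845)
(mv 974 (cons (fin 1167 4 910)
(mv 975 (cons (fin 976 1 972)
(fin 907 0 907)))))))))))))))))))))
(mv 1100 (cons (fin 1164 5 908)
(mv 1099 (cons (fin 1098 2 1034)
(mv 1162 (cons (fin 1163 1 1098)
(mv 1035 (cons (fin 1034 3 1034)
(mv 1103 (cons (fin 1036 3 1035)
(mv 1104 (cons (fin 1105 3 1037)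
(mv 908 (cons (fin 844 7 844)
(mv 910 (cons (fin 846 6 845)
(mv 974 (cons (fin 1167 4 910)
(mv 975 (cons (fin 976 3 908)
(fin 907 0 907)))))))))))))))))))))))))))
(cons (mv 1166 (cons (fin 1230 7 973)
(mv 909 (cons (fin 1101 4 909)
(fin 845 4 845)))))
(mv 1166 (cons (fin 1230 7 973)
(mv 909 (cons (fin 974 7 909)
(fin 845 4 845)))))))))
(mv 1039 (cons (cons (mv 1100 (cons (fin 1101 1 1036)
(mv 1104 (cons (fin 1105 0 1037)
(mv 1036 (cons (fin 1099 1 1035)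
(fin 1103 0 1036)))))))
(mv 1104 (cons (fin 1105 0 1037)
(mv 1103 (cons (fin 1036 0 1036)
(mv 976 (cons (fin 977 2 973)
(mv 1167 (cons (fin 912 5 911)
(fin 1231 6 975))))))))))
(cons (mv 1100 (cons (fin 1101 1 1036)
(mv 1036 (cons (fin 1099 1 1035)
(mv 976 (cons (fin 975 2 972)
(fin 977 2 973)))))))
(mv 1100 (cons (fin 1101 1 1036)
(mv 1104 (cons (fin 1105 0 1037)
(mv 976 (cons (fin 977 2 973)
(mv 912 (cons (mv 1103 (cons (fin 1167 5 911)
(fin 848 5 847)))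
(mv 911 (cons (fin 847 7 847)
(mv 913 (cons (fin 849 6 848)
(mv 974 (cons (fin 910 1 909)
(fin 975 2 909))))))))))))))))))))
(cons (mv 1039 (cons (fin 972 3 972)
(mv 1104 (cons (fin 1105 0 1037)
(mv 1103 (cons (fin 1036 0 1036)
(mv 976 (cons (fin 977 2 973)
(mv 1167 (cons (fin 912 5 911)
(fin 1231 6 975)))))))))))
(cons (mv 1039 (cons (fin 972 3 972)
(mv 1100 (cons (fin 1101 1 1036)
(mv 1036 (cons (fin 1099 1 1035)
(mv 976 (cons (fin 975 2 972)
(fin 977 2 973)))))))))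
(mv 1039 (cons (fin 972 3 972)
(mv 1100 (cons (fin 1101 1 1036)
(mv 1104 (cons (fin 1105 0 1037)
(mv 976 (cons (fin 977 2 973)
(mv 912 (cons (mv 1103 (cons (fin 1167 5 911)
(fin 848 5 847)))
(mv 911 (cons (fin 847 7 847)
(mv 913 (cons (fin 849 6 848)
(mv 974 (cons (fin 910 1 909)
(fin 975 2 909))))))))))))))))))))))
(cons (mv 972 (cons (cons (cons (mv 1038 (cons (fin 1039 3 972)
(mv 971 (cons (fin 970 0 970)
(mv 974 (cons (cons (mv 1034 (cons (fin 1035 1 970)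
(mv 906 (cons (fin 907 3 906)
(mv 910 (cons (fin 911 2 907)
(mv 1101 (cons (fin 846 5 845)
(fin 1165 6 909)))))))))
(mv 1034 (cons (fin 1035 1 970)
(mv 907 (cons (fin 906 3 906)
(mv 975 (cons (fin 908 3 907)
(mv 976 (cons (fin 1036 1 972)
(fin 977 1 973))))))))))
(cons (mv 906 (cons (fin 907 3 906)
(mv 910 (cons (fin 911 2 907)
(mv 1101 (cons (fin 846 5 845)
(fin 1165 6 909)))))))
(mv 1034 (cons (fin 1035 1 970)
(mv 910 (cons (fin 911 2 907)
(mv 1101 (cons (fin 846 5 845)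
(fin 1165 6 909))))))))))))))
(mv 908 (cons (cons (mv 1101 (cons (fin 1165 7 908)
(mv 844 (cons (fin 909 7 844)
(fin 1036 4 844)))))
(mv 1165 (cons (fin 1101 7 908)
(mv 974 (cons (mv 975 (cons (fin 907 3 907)
(fin 1039 0 972)))
(cons (mv 971 (cons (cons (mv 1034 (cons (fin 1035 1 970)
(mv 1033 (cons (fin 970 1 969)
(mv 907 (cons (fin 906 3 906)
(mv 910 (cons (fin 911 2 907)
(mv 846 (cons (fin 782 5 781)
(mv 909 (cons (fin 847 2 843)
(mv 843 (cons (fin 842 3 842)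
(mv 1036 (cons (fin 1100 7 843)
(fin 779 4 779)))))))))))))))))
(mv 1034 (cons (fin 1035 1 970)
(mv 970 (cons (fin 1033 1 969)
(mv 969 (cons (fin 1036 0 969)
(fin 909 2 905))))))))
(cons (mv 906 (cons (fin 907 3 906)
(mv 970 (cons (fin 905 3 905)
(mv 969 (cons (fin 1036 0 969)
(fin 909 2 905)))))))
(cons (mv 1034 (cons (fin 1035 1 970)
(mv 907 (cons (fin 906 3 906)
(mv 910 (cons (fin 911 2 907)
(mv 846 (cons (fin 782 5 781)
(mv 909 (cons (fin 847 2 843)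
(mv 843 (cons (fin 842 3 842)
(mv 1036 (cons (fin 1100 7 843)
(fin 779 4 779)))))))))))))))
(mv 1034 (cons (fin 1035 1 970)
(mv 970 (cons (fin 1033 1 969)
(mv 906 (cons (fin 905 3 905)
(fin 907 3 906)))))))))))
(mv 975 (cons (fin 1039 0 972)
(mv 1036 (cons (fin 1035 1 971)
(fin 976 1 972)))))))))))
(cons (mv 844 (cons (fin 780 4 780)
(mv 1036 (cons (mv 1099 (cons (fin 1035 5 843)
(mv 1100 (cons (fin 1163 5 907)
(mv 1164 (cons (fin 1228 6 972)
(fin 909 6 908)))))))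
(cons (mv 843 (cons (fin 779 7 779)
(mv 1100 (cons (fin 907 7 843)
(mv 1164 (cons (fin 1228 6 972)
(fin 909 6 908)))))))
(mv 1035 (cons (fin 1099 5 843)
(mv 1034 (cons (fin 1033 2 969)
(fin 974 2 970))))))))))
(cons (mv 1101 (cons (fin 1165 7 908)
(mv 844 (cons (fin 909 7 844)
(fin 780 4 780)))))
(mv 1101 (cons (fin 1165 7 908)
(mv 844 (cons (fin 1036 4 844)
(fin 780 4 780))))))))))
(cons (mv 908 (cons (cons (mv 1101 (cons (fin 1165 7 908)
(mv 844 (cons (fin 909 7 844)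
(fin 1036 4 844)))))
(mv 1165 (cons (fin 1101 7 908)
(mv 907 (cons (cons (mv 974 (cons (fin 975 3 907)
(mv 906 (cons (fin 971 3 906)
(fin 905 0 905)))))
(mv 906 (cons (fin 905 0 905)
(mv 909 (cons (cons (mv 969 (cons (fin 970 1 905)
(mv 841 (cons (fin 842 3 841)
(mv 845 (cons (fin 846 2 842)
(mv 1036 (cons (fin 1100 5 844)
(fin 781 5 780)))))))))
(mv 969 (cons (fin 970 1 905)
(mv 842 (cons (fin 841 3 841)
(mv 910 (cons (fin 843 3 842)
(mv 911 (cons (fin 971 1 907)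
(fin 912 1 908))))))))))
(cons (mv 841 (cons (fin 842 3 841)
(mv 845 (cons (fin 846 2 842)
(mv 1036 (cons (fin 1100 5 844)
(fin 781 5 780)))))))
(mv 969 (cons (fin 970 1 905)
(mv 845 (cons (fin 846 2 842)
(mv 1036 (cons (fin 1100 5 844)
(fin 781 5 780)))))))))))))
(cons (mv 974 (cons (fin 975 3 907)
(mv 971 (cons (mv 1034 (cons (fin 1035 1 970)
(mv 970 (cons (fin 1033 1 969)
(fin 1038 0 970)))))
(cons (mv 1034 (cons (fin 1035 1 970)
(mv 910 (cons (fin 911 2 907)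
(mv 846 (cons (fin 782 5 781)
(mv 909 (cons (fin 847 2 843)
(mv 843 (cons (fin 842 3 842)
(mv 1036 (cons (fin 1100 7 843)
(fin 779 4 779)))))))))))))
(mv 1038 (cons (fin 970 0 970)
(mv 910 (cons (fin 911 2 907)
(mv 846 (cons (fin 782 5 781)
(mv 847 (cons (fin 909 2 843)
(fin 783 6 782))))))))))))))
(mv 974 (cons (fin 975 3 907)
(mv 906 (cons (fin 905 0 905)
(fin 909 0 906)))))))))))
(cons (mv 844 (cons (fin 780 4 780)
(mv 1036 (cons (mv 1099 (cons (fin 1035 5 843)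
(mv 1100 (cons (fin 1163 5 907)
(mv 1164 (cons (fin 1228 6 972)
(fin 909 6 908)))))))
(cons (mv 843 (cons (fin 779 7 779)
(mv 1100 (cons (fin 907 7 843)
(mv 1164 (cons (fin 1228 6 972)
(fin 909 6 908)))))))
(mv 1035 (cons (fin 1099 5 843)
(mv 1034 (cons (fin 1033 2 969)
(fin 974 2 970))))))))))
(cons (mv 1101 (cons (fin 1165 7 908)
(mv 844 (cons (fin 909 7 844)
(fin 780 4 780)))))
(mv 1101 (cons (fin 1165 7 908)
(mv 844 (cons (fin 1036 4 844)
(fin 780 4 780)))))))))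
(cons (mv 1038 (cons (fin 1039 3 972)
(mv 971 (cons (fin 970 0 970)
(mv 974 (cons (cons (mv 1034 (cons (fin 1035 1 970)
(mv 906 (cons (fin 907 3 906)
(mv 910 (cons (fin 911 2 907)
(mv 1101 (cons (fin 846 5 845)
(fin 1165 6 909)))))))))
(mv 1035 (cons (fin 1034 1 970)
(mv 1036 (cons (fin 975 1 971)
(mv 1098 (cons (fin 1099 1 1034)
(mv 907 (cons (fin 906 3 906)
(mv 1100 (cons (fin 1164 7 907)
(fin 843 4 843))))))))))))
(cons (mv 906 (cons (fin 907 3 906)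
(mv 910 (cons (fin 911 2 907)
(mv 1101 (cons (fin 846 5 845)
(fin 1165 6 909)))))))
(mv 1034 (cons (fin 1035 1 970)
(mv 910 (cons (fin 911 2 907)
(mv 1101 (cons (fin 846 5 845)
(fin 1165 6 909))))))))))))))
(mv 1038 (cons (fin 1039 3 972)
(mv 970 (cons (fin 971 0 970)
(mv 1101 (cons (cons (mv 1165 (cons (fin 908 7 908)
(mv 1228 (cons (fin 1164 5 972)
(mv 1229 (cons (fin 1292 5 1036)
(fin 1036 7 972)))))))
(mv 909 (cons (cons (cons (mv 1164 (cons (fin 1100 5 908)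
(mv 908 (cons (fin 844 7 844)
(mv 846 (cons (fin 910 6 845)
(mv 845 (cons (fin 782 6 781)
(mv 781 (cons (fin 1036 5 780)
(fin 717 5 716)))))))))))
(mv 908 (cons (fin 844 7 844)
(mv 846 (cons (fin 910 6 845)
(mv 845 (cons (fin 782 6 781)
(mv 781 (cons (fin 1036 5 780)
(fin 717 5 716))))))))))
(cons (mv 1164 (cons (fin 1100 5 908)
(mv 846 (cons (fin 910 6 845)
(mv 845 (cons (fin 782 6 781)
(mv 781 (cons (fin 1036 5 780)
(mv 716 (cons (fin 780 7 716)
(mv 717 (cons (fin 908 5 716)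
(fin 652 7 652)))))))))))))
(mv 1164 (cons (fin 1100 5 908)
(mv 846 (cons (fin 910 6 845)
(mv 845 (cons (fin 782 6 781)
(mv 780 (cons (fin 844 7 780)
(mv 781 (cons (fin 1036 5 780)
(fin 716 7 716)))))))))))))
(cons (cons (mv 1164 (cons (fin 1100 5 908)
(mv 844 (cons (fin 908 7 844)
(mv 845 (cons (fin 780 7 780)
(mv 781 (cons (fin 1036 5 780)
(mv 782 (cons (fin 846 6 781)
(fin 718 6 717)))))))))))
(mv 1100 (cons (fin 1164 5 908)
(mv 1098 (cons (fin 1099 2 1034)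
(mv 1036 (cons (fin 845 5 844)
(mv 908 (cons (fin 844 7 844)
(mv 907 (cons (fin 843 7 843)
(mv 906 (cons (fin 969 1 905)
(fin 905 0 905))))))))))))))
(cons (mv 1164 (cons (fin 1100 5 908)
(mv 844 (cons (fin 908 7 844)
(mv 845 (cons (fin 780 7 780)
(mv 846 (cons (fin 910 6 845)
(fin 782 6 781)))))))))
(mv 1100 (cons (fin 1164 5 908)
(mv 1099 (cons (fin 1098 2 1034)
(mv 908 (cons (fin 844 7 844)
(mv 1036 (cons (fin 1163 5 907)
(mv 907 (cons (fin 843 7 843)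
(mv 906 (cons (fin 969 1 905)
(fin 905 0 905))))))))))))))))))
(cons (mv 1165 (cons (cons (mv 1228 (cons (fin 1164 5 972)
(mv 1229 (cons (fin 1292 5 1036)
(fin 1036 7 972)))))
(mv 1230 (cons (fin 1166 4 973)
(mv 1164 (cons (fin 1228 5 972)
(mv 909 (cons (fin 1100 5 908)
(mv 846 (cons (fin 910 6 845)
(mv 845 (cons (fin 782 6 781)
(mv 780 (cons (fin 844 7 780)
(mv 781 (cons (fin 1036 5 780)
(fin 716 7 716))))))))))))))))
(cons (mv 1229 (cons (fin 1036 7 972)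
(mv 1230 (cons (fin 1294 4 1037)
(fin 1166 4 973)))))
(mv 1228 (cons (fin 1164 5 972)
(mv 1229 (cons (fin 1292 5 1036)
(mv 1230 (cons (fin 1294 4 1037)
(fin 1166 4 973))))))))))
(cons (mv 1165 (cons (fin 908 7 908)
(mv 1228 (cons (fin 1164 5 972)
(mv 1229 (cons (fin 1292 5 1036)
(mv 1230 (cons (fin 1294 4 1037)
(fin 1166 4 973)))))))))
(mv 1165 (cons (fin 908 7 908)
(mv 1229 (cons (fin 1036 7 972)
(mv 1230 (cons (fin 1294 4 1037)
(fin 1166 4 973))))))))))))))))))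
(cons (cons (mv 1038 (cons (fin 1039 3 972)
(mv 908 (cons (cons (mv 1101 (cons (fin 1165 7 908)
(mv 844 (cons (fin 909 7 844)
(fin 1036 4 844)))))
(mv 844 (cons (fin 780 4 780)
(mv 1036 (cons (mv 1099 (cons (fin 1035 5 843)
(mv 1100 (cons (fin 1163 5 907)
(mv 1164 (cons (fin 1228 6 972)
(fin 909 6 908)))))))
(cons (mv 843 (cons (fin 779 7 779)
(mv 1100 (cons (fin 907 7 843)
(mv 1164 (cons (fin 1228 6 972)
(fin 909 6 908)))))))
(mv 1035 (cons (fin 1099 5 843)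
(mv 1034 (cons (fin 1033 2 969)
(fin 974 2 970)))))))))))
(cons (mv 1101 (cons (fin 1165 7 908)
(mv 909 (cons (cons (mv 1164 (cons (fin 1100 5 908)
(mv 910 (cons (fin 846 6 845)
(mv 911 (cons (fin 912 1 908)
(mv 975 (cons (fin 976 0 908)
(mv 974 (cons (fin 907 3 907)
(mv 847 (cons (fin 848 2 844)
(fin 783 5 782)))))))))))))
(mv 910 (cons (fin 846 6 845)
(mv 911 (cons (fin 912 1 908)
(mv 975 (cons (fin 976 0 908)
(mv 974 (cons (fin 907 3 907)
(mv 847 (cons (fin 848 2 844)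
(fin 783 5 782))))))))))))
(cons (mv 1100 (cons (fin 1164 5 908)
(mv 1098 (cons (fin 1099 2 1034)
(mv 1036 (cons (fin 845 5 844)
(mv 907 (cons (fin 843 7 843)
(mv 974 (cons (fin 975 3 907)
(fin 906 0 906)))))))))))
(mv 1164 (cons (fin 1100 5 908)
(mv 846 (cons (fin 910 6 845)
(mv 845 (cons (fin 782 6 781)
(mv 781 (cons (fin 1036 5 780)
(fin 717 5 716))))))))))))))
(cons (mv 1101 (cons (fin 1165 7 908)
(mv 844 (cons (fin 909 7 844)
(fin 780 4 780)))))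
(mv 1101 (cons (fin 1165 7 908)
(mv 844 (cons (fin 1036 4 844)
(fin 780 4 780)))))))))))
(cons (mv 1038 (cons (fin 1039 3 972)
(mv 971 (cons (fin 970 0 970)
(mv 974 (cons (cons (mv 1034 (cons (fin 1035 1 970)
(mv 906 (cons (fin 907 3 906)
(mv 911 (cons (fin 910 2 907)
(mv 975 (cons (fin 912 2 908)
(mv 976 (cons (fin 1036 1 972)
(fin 977 1 973)))))))))))
(mv 906 (cons (fin 907 3 906)
(mv 911 (cons (fin 910 2 907)
(mv 975 (cons (fin 912 2 908)
(mv 976 (cons (fin 1036 1 972)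
(fin 977 1 973))))))))))
(cons (mv 1034 (cons (fin 1035 1 970)
(mv 911 (cons (fin 910 2 907)
(mv 975 (cons (fin 912 2 908)
(mv 976 (cons (fin 1036 1 972)
(fin 977 1 973)))))))))
(cons (mv 1034 (cons (fin 1035 1 970)
(mv 907 (cons (fin 906 3 906)
(mv 975 (cons (fin 908 3 907)
(mv 976 (cons (fin 1036 1 972)
(fin 977 1 973)))))))))
(mv 1034 (cons (fin 1035 1 970)
(mv 907 (cons (fin 906 3 906)
(mv 910 (cons (fin 911 2 907)
(mv 846 (cons (fin 782 5 781)
(mv 845 (cons (fin 781 7 781)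
(mv 847 (cons (fin 783 6 782)
(mv 908 (cons (fin 844 1 843)
(fin 909 2 843)))))))))))))))))))))))
(mv 1038 (cons (fin 1039 3 972)
(mv 971 (cons (fin 970 0 970)
(mv 974 (cons (cons (mv 1034 (cons (fin 1035 1 970)
(mv 906 (cons (fin 907 3 906)
(mv 910 (cons (fin 911 2 907)
(mv 1101 (cons (fin 846 5 845)
(fin 1165 6 909)))))))))
(mv 1034 (cons (fin 1035 1 970)
(mv 907 (cons (fin 906 3 906)
(mv 975 (cons (fin 908 3 907)
(mv 976 (cons (fin 977 1 973)
(mv 912 (cons (fin 911 2 908)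
(fin 913 2 909))))))))))))
(cons (mv 1034 (cons (fin 1035 1 970)
(mv 907 (cons (fin 906 3 906)
(mv 908 (cons (fin 975 3 907)
(mv 1101 (cons (fin 1165 7 908)
(mv 844 (cons (fin 909 7 844)
(fin 780 4 780)))))))))))
(cons (mv 1034 (cons (fin 1035 1 970)
(mv 910 (cons (fin 911 2 907)
(mv 1101 (cons (fin 846 5 845)
(fin 1165 6 909)))))))
(mv 906 (cons (fin 907 3 906)
(mv 910 (cons (fin 911 2 907)
(mv 1101 (cons (fin 846 5 845)
(fin 1165 6 909)))))))))))))))))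
(cons (mv 1038 (cons (fin 1039 3 972)
(mv 970 (cons (fin 971 0 970)
(mv 1101 (cons (cons (mv 1165 (cons (fin 908 7 908)
(mv 1229 (cons (fin 1036 7 972)
(fin 974 6 973)))))
(mv 909 (cons (cons (mv 1164 (cons (fin 1100 5 908)
(mv 844 (cons (fin 908 7 844)
(mv 845 (cons (fin 780 7 780)
(mv 781 (cons (fin 1036 5 780)
(fin 974 4 781)))))))))
(cons (mv 844 (cons (fin 908 7 844)
(mv 845 (cons (fin 780 7 780)
(mv 781 (cons (fin 1036 5 780)
(fin 974 4 781)))))))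
(mv 1100 (cons (fin 1164 5 908)
(mv 1098 (cons (fin 1099 2 1034)
(mv 845 (cons (fin 1036 5 844)
(mv 846 (cons (fin 782 6 781)
(mv 781 (cons (fin 974 4 781)
(mv 716 (cons (fin 780 7 716)
(mv 717 (cons (fin 908 5 716)
(fin 652 7 652)))))))))))))))))
(cons (cons (mv 1100 (cons (fin 1164 5 908)
(mv 1098 (cons (fin 1099 2 1034)
(mv 845 (cons (fin 1036 5 844)
(mv 844 (cons (fin 780 7 780)
(mv 781 (cons (fin 974 4 781)
(mv 782 (cons (fin 846 6 781)
(fin 718 6 717)))))))))))))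
(mv 1100 (cons (fin 1164 5 908)
(mv 1099 (cons (fin 1098 2 1034)
(mv 908 (cons (fin 844 7 844)
(mv 1036 (cons (fin 1163 5 907)
(mv 907 (cons (fin 843 7 843)
(mv 974 (cons (fin 975 3 907)
(fin 906 0 906))))))))))))))
(cons (mv 1164 (cons (fin 1100 5 908)
(mv 844 (cons (fin 908 7 844)
(mv 845 (cons (fin 780 7 780)
(mv 781 (cons (fin 974 4 781)
(mv 782 (cons (fin 846 6 781)
(fin 718 6 717)))))))))))
(mv 1164 (cons (fin 1100 5 908)
(mv 844 (cons (fin 908 7 844)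
(mv 845 (cons (fin 780 7 780)
(mv 781 (cons (fin 1036 5 780)
(mv 782 (cons (fin 846 6 781)
(fin 718 6 717))))))))))))))))
(cons (mv 1165 (cons (mv 1229 (cons (fin 1036 7 972)
(fin 974 6 973)))
(mv 1164 (cons (fin 1228 5 972)
(mv 1166 (cons (fin 1230 4 973)
(mv 1100 (cons (fin 909 5 908)
(mv 1099 (cons (fin 1167 3 1099)
(fin 1098 0 1098)))))))))))
(cons (mv 1165 (cons (fin 908 7 908)
(mv 1228 (cons (fin 1164 5 972)
(mv 1229 (cons (fin 1292 5 1036)
(fin 974 6 973)))))))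
(mv 1165 (cons (fin 908 7 908)
(mv 1228 (cons (fin 1164 5 972)
(mv 1229 (cons (fin 1292 5 1036)
(fin 1036 7 972)))))))))))))))
(cons (mv 1038 (cons (fin 1039 3 972)
(mv 970 (cons (fin 971 0 970)
(mv 908 (cons (cons (mv 1101 (cons (fin 1165 7 908)
(mv 844 (cons (fin 909 7 844)
(fin 1036 4 844)))))
(mv 844 (cons (fin 780 4 780)
(mv 1036 (cons (cons (mv 1099 (cons (fin 1035 5 843)
(mv 1100 (cons (fin 1163 5 907)
(mv 1164 (cons (fin 1228 6 972)
(fin 909 6 908)))))))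
(mv 843 (cons (fin 779 7 779)
(mv 845 (cons (fin 781 6 780)
(mv 1100 (cons (fin 909 5 844)
(mv 1163 (cons (fin 1099 5 907)
(mv 1164 (cons (fin 1227 5 971)
(fin 1228 6 972))))))))))))
(cons (mv 843 (cons (fin 779 7 779)
(mv 845 (cons (fin 781 6 780)
(mv 909 (cons (fin 1100 5 844)
(mv 910 (cons (fin 911 3 843)
(fin 842 0 842)))))))))
(mv 1035 (cons (fin 1099 5 843)
(mv 1034 (cons (fin 969 3 969)
(fin 1033 2 969)))))))))))
(cons (mv 1101 (cons (fin 1165 7 908)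
(mv 909 (cons (cons (mv 1164 (cons (fin 1100 5 908)
(mv 910 (cons (fin 846 6 845)
(mv 911 (cons (fin 912 1 908)
(mv 975 (cons (fin 976 0 908)
(mv 847 (cons (fin 848 2 844)
(mv 783 (cons (fin 974 5 782)
(mv 782 (cons (fin 718 7 718)
(mv 720 (cons (fin 784 6 719)
(mv 719 (cons (fin 656 6 655)
(mv 781 (cons (fin 780 2 716)
(mv 845 (cons (fin 1036 5 780)
(fin 717 5 716)))))))))))))))))))))))
(mv 910 (cons (fin 846 6 845)
(mv 911 (cons (fin 912 1 908)
(mv 975 (cons (fin 976 0 908)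
(mv 847 (cons (fin 848 2 844)
(mv 783 (cons (fin 974 5 782)
(mv 782 (cons (fin 718 7 718)
(mv 720 (cons (fin 784 6 719)
(mv 719 (cons (fin 656 6 655)
(mv 781 (cons (fin 780 2 716)
(mv 845 (cons (fin 1036 5 780)
(fin 717 5 716))))))))))))))))))))))
(cons (mv 1100 (cons (fin 1164 5 908)
(mv 1098 (cons (fin 1099 2 1034)
(mv 845 (cons (fin 1036 5 844)
(mv 781 (cons (fin 717 5 716)
(fin 974 4 781)))))))))
(cons (mv 1164 (cons (fin 1100 5 908)
(mv 910 (cons (fin 846 6 845)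
(mv 911 (cons (fin 912 1 908)
(mv 975 (cons (fin 976 0 908)
(mv 847 (cons (fin 848 2 844)
(mv 783 (cons (fin 974 5 782)
(mv 718 (cons (fin 782 7 718)
(mv 719 (cons (fin 654 7 654)
(mv 720 (cons (fin 784 6 719)
(fin 656 6 655)))))))))))))))))))
(mv 1164 (cons (fin 1100 5 908)
(mv 846 (cons (fin 910 6 845)
(mv 845 (cons (fin 782 6 781)
(mv 781 (cons (fin 1036 5 780)
(fin 717 5 716)))))))))))))))
(cons (mv 1101 (cons (fin 1165 7 908)
(mv 844 (cons (fin 909 7 844)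
(fin 780 4 780)))))
(mv 1101 (cons (fin 1165 7 908)
(mv 844 (cons (fin 1036 4 844)
(fin 780 4 780)))))))))))))
(mv 1038 (cons (fin 1039 3 972)
(mv 971 (cons (fin 970 0 970)
(mv 974 (cons (cons (mv 1034 (cons (fin 1035 1 970)
(mv 906 (cons (fin 907 3 906)
(mv 911 (cons (fin 910 2 907)
(mv 975 (cons (fin 912 2 908)
(mv 976 (cons (fin 1036 1 972)
(fin 977 1 973)))))))))))
(cons (mv 906 (cons (fin 907 3 906)
(mv 911 (cons (fin 910 2 907)
(mv 975 (cons (fin 912 2 908)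
(mv 976 (cons (fin 1036 1 972)
(fin 977 1 973)))))))))
(mv 1034 (cons (fin 1035 1 970)
(mv 911 (cons (fin 910 2 907)
(mv 975 (cons (fin 912 2 908)
(mv 976 (cons (fin 1036 1 972)
(fin 977 1 973)))))))))))
(cons (mv 1034 (cons (fin 1035 1 970)
(mv 907 (cons (fin 906 3 906)
(mv 975 (cons (fin 908 3 907)
(mv 976 (cons (fin 1036 1 972)
(fin 977 1 973)))))))))
(cons (mv 1034 (cons (fin 1035 1 970)
(mv 907 (cons (fin 906 3 906)
(mv 910 (cons (fin 911 2 907)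
(mv 1101 (cons (fin 1165 6 909)
(mv 909 (cons (cons (mv 1164 (cons (fin 1100 5 908)
(mv 908 (cons (fin 844 7 844)
(mv 843 (cons (fin 842 3 842)
(mv 779 (cons (fin 1036 4 779)
(fin 715 4 715)))))))))
(mv 908 (cons (fin 844 7 844)
(mv 843 (cons (fin 842 3 842)
(mv 779 (cons (fin 1036 4 779)
(fin 715 4 715))))))))
(cons (mv 1100 (cons (fin 1164 5 908)
(mv 845 (cons (fin 1036 5 844)
(fin 781 4 781)))))
(mv 1164 (cons (fin 1100 5 908)
(mv 844 (cons (fin 908 7 844)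
(mv 845 (cons (fin 780 7 780)
(fin 781 4 781))))))))))))))))))
(mv 1034 (cons (fin 1035 1 970)
(mv 907 (cons (fin 906 3 906)
(mv 975 (cons (fin 908 3 907)
(mv 911 (cons (fin 910 2 907)
(fin 912 2 908))))))))))))))))))))))
(cons (mv 1038 (cons (cons (mv 1039 (cons (fin 972 3 972)
(mv 1100 (cons (fin 1101 1 1036)
(mv 1104 (cons (fin 1105 0 1037)
(mv 1036 (cons (fin 1099 1 1035)
(fin 1103 0 1036)))))))))
(cons (mv 1102 (cons (cons (mv 1166 (cons (fin 1230 7 973)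
(mv 909 (cons (fin 974 7 909)
(fin 1101 4 909)))))
(cons (mv 909 (cons (fin 845 4 845)
(mv 1101 (cons (cons (mv 1164 (cons (fin 1100 5 908)
(mv 1165 (cons (fin 1228 5 972)
(mv 1229 (cons (fin 1293 6 1037)
(fin 974 6 973)))))))
(mv 910 (cons (fin 846 6 845)
(mv 1165 (cons (fin 974 5 909)
(mv 1228 (cons (fin 1164 5 972)
(mv 1229 (cons (fin 1292 5 1036)
(fin 1293 6 1037))))))))))
(cons (mv 910 (cons (fin 846 6 845)
(mv 1165 (cons (fin 974 5 909)
(mv 1229 (cons (fin 1293 6 1037)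
(mv 1292 (cons (fin 1228 5 1036)
(mv 1294 (cons (fin 1230 4 1037)
(mv 1036 (cons (fin 972 7 972)
(mv 1103 (cons (fin 1104 3 1036)
(fin 1035 0 1035)))))))))))))))
(cons (mv 1100 (cons (fin 1164 5 908)
(mv 1099 (cons (fin 1098 2 1034)
(mv 1162 (cons (fin 1163 1 1098)
(mv 1035 (cons (fin 1034 3 1034)
(mv 1103 (cons (fin 1036 3 1035)
(mv 1104 (cons (fin 1105 3 1037)
(mv 910 (cons (fin 846 6 845)
(mv 974 (cons (fin 1167 4 910)
(mv 911 (cons (fin 847 6 846)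
(mv 972 (cons (fin 912 1 908)
(fin 971 2 907)))))))))))))))))))))
(mv 1164 (cons (fin 1100 5 908)
(mv 1165 (cons (fin 1228 5 972)
(mv 1229 (cons (fin 1293 6 1037)
(mv 1294 (cons (fin 1230 4 1037)
(mv 1162 (cons (fin 1163 2 1098)
(mv 1103 (cons (fin 1104 1 1100)
(mv 1036 (cons (fin 1035 0 1035)
(fin 972 7 972)))))))))))))))))))))
(mv 1166 (cons (fin 1230 7 973)
(mv 974 (cons (cons (mv 1229 (cons (fin 1165 5 973)
(mv 1231 (cons (fin 1167 4 974)
(mv 975 (cons (fin 911 6 910)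
(mv 1036 (cons (fin 976 1 972)
(fin 1035 2 971)))))))))
(mv 1231 (cons (fin 1167 4 974)
(mv 975 (cons (fin 911 6 910)
(mv 1036 (cons (fin 976 1 972)
(fin 1035 2 971))))))))
(cons (mv 1229 (cons (fin 1165 5 973)
(mv 1167 (cons (fin 1231 4 974)
(mv 1103 (cons (fin 910 4 910)
(mv 1104 (cons (fin 1105 3 1037)
(mv 1036 (cons (fin 1101 3 1036)
(fin 1035 0 1035)))))))))))
(cons (mv 1229 (cons (fin 1165 5 973)
(mv 975 (cons (fin 911 6 910)
(mv 1036 (cons (fin 976 1 972)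
(fin 1035 2 971)))))))
(mv 1229 (cons (fin 1165 5 973)
(mv 1231 (cons (fin 1167 4 974)
(mv 911 (cons (fin 975 6 910)
(mv 910 (cons (fin 847 6 846)
(mv 846 (cons (fin 1101 5 845)
(fin 782 5 781)))))))))))))))))))
(cons (mv 909 (cons (fin 845 4 845)
(mv 1166 (cons (fin 974 7 909)
(fin 1101 4 909)))))
(cons (mv 1166 (cons (fin 1230 7 973)
(mv 909 (cons (fin 1101 4 909)
(fin 845 4 845)))))
(mv 1166 (cons (fin 1230 7 973)
(mv 909 (cons (fin 974 7 909)
(fin 845 4 845)))))))))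
(mv 1039 (cons (cons (mv 1100 (cons (fin 1101 1 1036)
(mv 1104 (cons (fin 1105 0 1037)
(mv 1036 (cons (fin 1099 1 1035)
(fin 1103 0 1036)))))))
(mv 1104 (cons (fin 1105 0 1037)
(mv 1103 (cons (fin 1036 0 1036)
(mv 976 (cons (fin 977 2 973)
(mv 1167 (cons (fin 912 5 911)
(fin 1231 6 975))))))))))
(cons (mv 1100 (cons (fin 1101 1 1036)
(mv 1036 (cons (fin 1099 1 1035)
(mv 976 (cons (fin 975 2 972)
(fin 977 2 973)))))))
(mv 1100 (cons (fin 1101 1 1036)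
(mv 1104 (cons (fin 1105 0 1037)
(mv 976 (cons (fin 977 2 973)
(mv 912 (cons (mv 1103 (cons (fin 1167 5 911)
(fin 848 5 847)))
(mv 911 (cons (fin 847 7 847)
(mv 913 (cons (fin 849 6 848)
(mv 974 (cons (fin 910 1 909)
(fin 975 2 909))))))))))))))))))))
(cons (mv 1039 (cons (fin 972 3 972)
(mv 1104 (cons (fin 1105 0 1037)
(mv 1103 (cons (fin 1036 0 1036)
(mv 976 (cons (fin 977 2 973)
(mv 1167 (cons (fin 912 5 911)
(fin 1231 6 975)))))))))))
(cons (mv 1039 (cons (fin 972 3 972)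
(mv 1100 (cons (fin 1101 1 1036)
(mv 1036 (cons (fin 1099 1 1035)
(mv 976 (cons (fin 975 2 972)
(fin 977 2 973)))))))))
(mv 1039 (cons (fin 972 3 972)
(mv 1100 (cons (fin 1101 1 1036)
(mv 1104 (cons (fin 1105 0 1037)
(mv 976 (cons (fin 977 2 973)
(mv 912 (cons (mv 1103 (cons (fin 1167 5 911)
(fin 848 5 847)))
(mv 911 (cons (fin 847 7 847)
(mv 913 (cons (fin 849 6 848)
(mv 974 (cons (fin 910 1 909)
(fin 975 2 909)))))))))))))))))))))
(mv 1038 (cons (cons (mv 1039 (cons (fin 972 3 972)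
(mv 1100 (cons (fin 1101 1 1036)
(mv 1104 (cons (fin 1105 0 1037)
(mv 1036 (cons (fin 1099 1 1035)
(fin 1103 0 1036)))))))))
(cons (mv 1102 (cons (cons (mv 1166 (cons (fin 1230 7 973)
(mv 909 (cons (fin 974 7 909)
(fin 1101 4 909)))))
(mv 909 (cons (fin 845 4 845)
(mv 1101 (cons (cons (mv 1164 (cons (fin 1100 5 908)
(mv 1165 (cons (fin 1228 5 972)
(mv 1229 (cons (fin 1293 6 1037)
(fin 974 6 973)))))))
(mv 908 (cons (fin 844 7 844)
(mv 1165 (cons (fin 972 7 908)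
(mv 1229 (cons (fin 1293 6 1037)
(fin 974 6 973))))))))
(cons (mv 1100 (cons (fin 1164 5 908)
(mv 1099 (cons (fin 1098 2 1034)
(mv 1162 (cons (fin 1163 1 1098)
(mv 1035 (cons (fin 1034 3 1034)
(mv 1036 (cons (fin 1103 3 1035)
(mv 971 (cons (fin 970 3 970)
(mv 974 (cons (fin 975 2 971)
(mv 907 (cons (fin 843 4 843)
(mv 906 (cons (fin 972 3 906)
(fin 908 0 906)))))))))))))))))))
(mv 1164 (cons (fin 1100 5 908)
(mv 1165 (cons (fin 1228 5 972)
(mv 908 (cons (fin 972 7 908)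
(fin 844 7 844)))))))))))))
(cons (mv 1166 (cons (fin 1230 7 973)
(mv 974 (cons (cons (mv 1229 (cons (fin 1165 5 973)
(mv 1231 (cons (fin 1167 4 974)
(mv 975 (cons (fin 911 6 910)
(mv 1036 (cons (fin 976 1 972)
(fin 1035 2 971)))))))))
(mv 1231 (cons (fin 1167 4 974)
(mv 1165 (cons (fin 1229 5 973)
(mv 1101 (cons (cons (mv 1228 (cons (fin 1164 5 972)
(mv 972 (cons (fin 908 7 908)
(mv 971 (cons (fin 970 0 970)
(mv 1035 (cons (fin 1034 1 970)
(mv 1036 (cons (fin 1103 0 1035)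
(mv 1098 (cons (fin 1099 1 1034)
(mv 907 (cons (fin 906 3 906)
(mv 843 (cons (fin 1100 4 843)
(fin 779 4 779)))))))))))))))))
(mv 972 (cons (fin 908 7 908)
(mv 971 (cons (fin 970 0 970)
(mv 1035 (cons (fin 1034 1 970)
(mv 1036 (cons (fin 1103 0 1035)
(mv 1098 (cons (fin 1099 1 1034)
(mv 907 (cons (fin 906 3 906)
(mv 843 (cons (fin 1100 4 843)
(fin 779 4 779))))))))))))))))
(cons (mv 1164 (cons (fin 1228 5 972)
(mv 1163 (cons (fin 1162 2 1098)
(fin 1103 2 1099)))))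
(mv 1164 (cons (fin 1228 5 972)
(mv 1162 (cons (fin 1163 2 1098)
(mv 972 (cons (fin 908 7 908)
(mv 971 (cons (fin 970 0 970)
(mv 1035 (cons (fin 1034 1 970)
(mv 907 (cons (fin 906 3 906)
(mv 1099 (cons (fin 1098 5 906)
(fin 1100 4 907)))))))))))))))))))))))
(cons (mv 1231 (cons (fin 1167 4 974)
(mv 975 (cons (fin 911 6 910)
(mv 1036 (cons (fin 976 1 972)
(fin 1035 2 971)))))))
(cons (mv 1229 (cons (fin 1165 5 973)
(mv 975 (cons (fin 911 6 910)
(mv 1036 (cons (fin 976 1 972)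
(fin 1035 2 971)))))))
(mv 1165 (cons (fin 1229 5 973)
(mv 1167 (cons (fin 1231 4 974)
(mv 975 (cons (fin 911 6 910)
(mv 976 (cons (fin 977 1 973)
(mv 912 (cons (fin 913 2 909)
(mv 1103 (cons (fin 1104 5 911)
(mv 1164 (cons (fin 1163 2 1099)
(mv 1228 (cons (fin 1227 1 1163)
(fin 1101 5 972)))))))))))))))))))))))
(cons (mv 1166 (cons (fin 1230 7 973)
(mv 909 (cons (fin 974 7 909)
(fin 845 4 845)))))
(mv 1166 (cons (fin 1230 7 973)
(mv 909 (cons (fin 1101 4 909)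
(fin 845 4 845)))))))))
(mv 1039 (cons (cons (mv 1100 (cons (fin 1101 1 1036)
(mv 1104 (cons (fin 1105 0 1037)
(mv 1036 (cons (fin 1099 1 1035)
(fin 1103 0 1036)))))))
(mv 1104 (cons (fin 1105 0 1037)
(mv 1103 (cons (fin 1036 0 1036)
(mv 976 (cons (fin 977 2 973)
(mv 1167 (cons (fin 912 5 911)
(fin 1231 6 975))))))))))
(cons (mv 1100 (cons (fin 1101 1 1036)
(mv 1036 (cons (fin 1099 1 1035)
(mv 976 (cons (fin 975 2 972)
(fin 977 2 973)))))))
(mv 1101 (cons (fin 1100 1 1036)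
(mv 1104 (cons (fin 1105 0 1037)
(mv 976 (cons (fin 977 2 973)
(mv 912 (cons (mv 1103 (cons (fin 1167 5 911)
(fin 848 5 847)))
(mv 911 (cons (fin 847 7 847)
(mv 913 (cons (fin 849 6 848)
(mv 974 (cons (fin 975 2 909)
(mv 1165 (cons (fin 1229 6 973)
(mv 1228 (cons (fin 1164 5 972)
(mv 1166 (cons (fin 1230 4 973)
(mv 909 (cons (fin 1102 7 909)
(mv 844 (cons (fin 908 7 844)
(mv 845 (cons (fin 780 7 780)
(fin 781 4 781))))))))))))))))))))))))))))))))
(cons (mv 1039 (cons (fin 972 3 972)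
(mv 1104 (cons (fin 1105 0 1037)
(mv 1103 (cons (fin 1036 0 1036)
(mv 976 (cons (fin 977 2 973)
(mv 1167 (cons (fin 912 5 911)
(fin 1231 6 975)))))))))))
(cons (mv 1039 (cons (fin 972 3 972)
(mv 1100 (cons (fin 1101 1 1036)
(mv 1036 (cons (fin 1099 1 1035)
(mv 976 (cons (fin 975 2 972)
(fin 977 2 973)))))))))
(mv 1039 (cons (fin 972 3 972)
(mv 1101 (cons (fin 1100 1 1036)
(mv 1104 (cons (fin 1105 0 1037)
(mv 976 (cons (fin 977 2 973)
(mv 912 (cons (mv 1103 (cons (fin 1167 5 911)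
(fin 848 5 847)))
(mv 911 (cons (fin 847 7 847)
(mv 913 (cons (fin 849 6 848)
(mv 974 (cons (fin 975 2 909)
(mv 1165 (cons (fin 1229 6 973)
(mv 1228 (cons (fin 1164 5 972)
(mv 1166 (cons (fin 1230 4 973)
(mv 909 (cons (fin 1102 7 909)
(mv 844 (cons (fin 908 7 844)
(mv 845 (cons (fin 780 7 780)
(fin 781 4 781))))))))))))))))))))))))))))))))))))
(cons (cons (mv 1038 (cons (cons (mv 1039 (cons (fin 972 3 972)
(mv 1100 (cons (fin 1101 1 1036)
(mv 1104 (cons (fin 1105 0 1037)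
(mv 1036 (cons (fin 1099 1 1035)
(fin 1103 0 1036)))))))))
(cons (mv 1102 (cons (cons (mv 1166 (cons (fin 1230 7 973)
(mv 909 (cons (fin 974 7 909)
(fin 1101 4 909)))))
(cons (mv 1166 (cons (fin 1230 7 973)
(mv 974 (cons (cons (mv 1229 (cons (fin 1165 5 973)
(mv 1231 (cons (fin 1167 4 974)
(mv 975 (cons (fin 911 6 910)
(mv 1036 (cons (fin 976 1 972)
(fin 1035 2 971)))))))))
(mv 1229 (cons (fin 1165 5 973)
(mv 1167 (cons (fin 1231 4 974)
(mv 1103 (cons (fin 910 4 910)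
(mv 1104 (cons (fin 1105 3 1037)
(mv 1036 (cons (fin 1101 3 1036)
(fin 1035 0 1035))))))))))))
(cons (mv 1231 (cons (fin 1167 4 974)
(mv 975 (cons (fin 911 6 910)
(mv 1036 (cons (fin 976 1 972)
(fin 1035 2 971)))))))
(cons (mv 1229 (cons (fin 1165 5 973)
(mv 975 (cons (fin 911 6 910)
(mv 1036 (cons (fin 976 1 972)
(fin 1035 2 971)))))))
(mv 1229 (cons (fin 1165 5 973)
(mv 1231 (cons (fin 1167 4 974)
(mv 911 (cons (fin 975 6 910)
(mv 910 (cons (fin 847 6 846)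
(mv 846 (cons (fin 1101 5 845)
(fin 782 5 781)))))))))))))))))
(mv 909 (cons (fin 845 4 845)
(mv 1101 (cons (cons (mv 908 (cons (fin 844 7 844)
(mv 1165 (cons (fin 972 7 908)
(mv 1229 (cons (fin 1293 6 1037)
(fin 974 6 973)))))))
(mv 910 (cons (fin 846 6 845)
(mv 1165 (cons (fin 974 5 909)
(mv 1229 (cons (fin 1293 6 1037)
(mv 1292 (cons (fin 1228 5 1036)
(mv 1294 (cons (fin 1230 4 1037)
(mv 1036 (cons (fin 972 7 972)
(mv 1103 (cons (fin 1104 3 1036)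
(fin 1035 0 1035))))))))))))))))
(cons (mv 908 (cons (fin 844 7 844)
(mv 910 (cons (fin 846 6 845)
(mv 974 (cons (mv 975 (cons (fin 976 3 908)
(fin 907 0 907)))
(cons (mv 1167 (cons (fin 1103 4 910)
(mv 906 (cons (fin 907 0 906)
(mv 911 (cons (fin 847 6 846)
(mv 972 (cons (fin 971 1 907)
(fin 912 1 908)))))))))
(mv 1167 (cons (fin 1103 4 910)
(mv 975 (cons (fin 976 3 908)
(mv 1035 (cons (fin 1036 2 971)
(mv 911 (cons (fin 847 6 846)
(mv 972 (cons (fin 971 1 907)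
(fin 912 1 908))))))))))))))))))
(cons (mv 908 (cons (fin 844 7 844)
(mv 972 (cons (fin 1165 7 908)
(mv 971 (cons (fin 970 0 970)
(mv 910 (cons (fin 911 1 907)
(fin 846 6 845)))))))))
(mv 908 (cons (fin 844 7 844)
(mv 910 (cons (fin 846 6 845)
(mv 974 (cons (fin 1165 5 909)
(mv 975 (cons (fin 976 3 908)
(fin 907 0 907)))))))))))))))))
(cons (mv 909 (cons (fin 845 4 845)
(mv 1166 (cons (fin 974 7 909)
(fin 1101 4 909)))))
(cons (mv 1166 (cons (fin 1230 7 973)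
(mv 909 (cons (fin 1101 4 909)
(fin 845 4 845)))))
(mv 1166 (cons (fin 1230 7 973)
(mv 909 (cons (fin 974 7 909)
(fin 845 4 845)))))))))
(mv 1039 (cons (cons (mv 1100 (cons (fin 1101 1 1036)
(mv 1104 (cons (fin 1105 0 1037)
(mv 1036 (cons (fin 1099 1 1035)
(fin 1103 0 1036)))))))
(mv 1100 (cons (fin 1101 1 1036)
(mv 1036 (cons (fin 1099 1 1035)
(mv 976 (cons (fin 975 2 972)
(fin 977 2 973))))))))
(cons (mv 1104 (cons (fin 1105 0 1037)
(mv 1103 (cons (fin 1036 0 1036)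
(mv 976 (cons (fin 977 2 973)
(mv 1167 (cons (fin 912 5 911)
(fin 1231 6 975)))))))))
(mv 1100 (cons (fin 1101 1 1036)
(mv 1104 (cons (fin 1105 0 1037)
(mv 976 (cons (fin 977 2 973)
(mv 912 (cons (mv 1103 (cons (fin 1167 5 911)
(fin 848 5 847)))
(mv 911 (cons (fin 847 7 847)
(mv 913 (cons (fin 849 6 848)
(mv 974 (cons (fin 910 1 909)
(fin 975 2 909))))))))))))))))))))
(cons (mv 1039 (cons (fin 972 3 972)
(mv 1104 (cons (fin 1105 0 1037)
(mv 1103 (cons (fin 1036 0 1036)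
(mv 976 (cons (fin 977 2 973)
(mv 1167 (cons (fin 912 5 911)
(fin 1231 6 975)))))))))))
(cons (mv 1039 (cons (fin 972 3 972)
(mv 1100 (cons (fin 1101 1 1036)
(mv 1036 (cons (fin 1099 1 1035)
(mv 976 (cons (fin 975 2 972)
(fin 977 2 973)))))))))
(mv 1039 (cons (fin 972 3 972)
(mv 1100 (cons (fin 1101 1 1036)
(mv 1104 (cons (fin 1105 0 1037)
(mv 976 (cons (fin 977 2 973)
(mv 912 (cons (mv 1103 (cons (fin 1167 5 911)
(fin 848 5 847)))
(mv 911 (cons (fin 847 7 847)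
(mv 913 (cons (fin 849 6 848)
(mv 974 (cons (fin 910 1 909)
(fin 975 2 909)))))))))))))))))))))
(mv 1038 (cons (cons (mv 1039 (cons (fin 972 3 972)
(mv 1100 (cons (fin 1101 1 1036)
(mv 1104 (cons (fin 1105 0 1037)
(mv 1036 (cons (fin 1099 1 1035)
(fin 1103 0 1036)))))))))
(cons (mv 909 (cons (cons (mv 1102 (cons (fin 845 4 845)
(mv 1101 (cons (cons (mv 1164 (cons (fin 1100 5 908)
(mv 1165 (cons (fin 1228 5 972)
(mv 1229 (cons (fin 1293 6 1037)
(fin 974 6 973)))))))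
(mv 908 (cons (fin 844 7 844)
(mv 1165 (cons (fin 972 7 908)
(mv 1229 (cons (fin 1293 6 1037)
(fin 974 6 973))))))))
(cons (mv 1100 (cons (fin 1164 5 908)
(mv 1099 (cons (fin 1098 2 1034)
(mv 1162 (cons (fin 1163 1 1098)
(mv 1035 (cons (fin 1034 3 1034)
(mv 1103 (cons (fin 1036 3 1035)
(mv 1104 (cons (fin 1105 3 1037)
(mv 908 (cons (fin 844 7 844)
(mv 910 (cons (fin 846 6 845)
(mv 1167 (cons (fin 974 4 910)
(mv 1295 (cons (fin 1231 7 1038)
(mv 912 (cons (fin 976 5 911)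
(mv 911 (cons (fin 972 1 908)
(mv 848 (cons (fin 847 2 844)
(fin 849 2 845)))))))))))))))))))))))))))
(mv 1164 (cons (fin 1100 5 908)
(mv 1165 (cons (fin 1228 5 972)
(mv 908 (cons (fin 972 7 908)
(fin 844 7 844))))))))))))
(cons (mv 1101 (cons (cons (mv 1164 (cons (fin 1100 5 908)
(mv 1165 (cons (fin 1228 5 972)
(mv 974 (cons (fin 1229 6 973)
(fin 910 6 909)))))))
(mv 1164 (cons (fin 1100 5 908)
(mv 1165 (cons (fin 1228 5 972)
(mv 908 (cons (fin 972 7 908)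
(fin 844 7 844))))))))
(cons (mv 908 (cons (fin 844 7 844)
(mv 1165 (cons (fin 972 7 908)
(mv 974 (cons (fin 1229 6 973)
(fin 910 6 909)))))))
(mv 1164 (cons (fin 1100 5 908)
(mv 908 (cons (fin 844 7 844)
(mv 910 (cons (fin 846 6 845)
(mv 911 (cons (mv 972 (cons (fin 971 1 907)
(fin 912 1 908)))
(mv 975 (cons (fin 976 0 908)
(mv 974 (cons (fin 907 0 907)
(mv 847 (cons (fin 848 2 844)
(fin 783 5 782))))))))))))))))))
(mv 845 (cons (fin 1102 4 845)
(mv 1100 (cons (fin 1036 5 844)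
(mv 844 (cons (fin 780 7 780)
(mv 781 (cons (fin 974 4 781)
(mv 782 (cons (fin 846 6 781)
(fin 718 6 717)))))))))))))
(cons (cons (mv 845 (cons (fin 1102 4 845)
(mv 1100 (cons (fin 1036 5 844)
(mv 1164 (cons (fin 1101 5 908)
(mv 844 (cons (fin 780 7 780)
(mv 781 (cons (fin 974 4 781)
(mv 718 (cons (fin 782 6 717)
(mv 717 (cons (fin 654 6 653)
(mv 908 (cons (fin 972 5 716)
(fin 653 5 652)))))))))))))))))
(mv 1102 (cons (fin 845 4 845)
(mv 1101 (cons (cons (mv 908 (cons (fin 844 7 844)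
(mv 1165 (cons (fin 972 7 908)
(mv 1229 (cons (fin 1293 6 1037)
(fin 974 6 973)))))))
(mv 910 (cons (fin 846 6 845)
(mv 1165 (cons (fin 974 5 909)
(mv 1228 (cons (fin 1164 5 972)
(mv 1229 (cons (fin 1292 5 1036)
(fin 1293 6 1037))))))))))
(cons (mv 908 (cons (fin 844 7 844)
(mv 910 (cons (fin 846 6 845)
(mv 974 (cons (mv 975 (cons (fin 976 3 908)
(fin 907 0 907)))
(cons (mv 1167 (cons (fin 1103 4 910)
(mv 906 (cons (fin 907 0 906)
(mv 911 (cons (fin 847 6 846)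
(mv 972 (cons (fin 971 1 907)
(fin 912 1 908)))))))))
(mv 1167 (cons (fin 1103 4 910)
(mv 975 (cons (fin 976 3 908)
(mv 1035 (cons (fin 1036 2 971)
(mv 911 (cons (fin 847 6 846)
(mv 972 (cons (fin 971 1 907)
(fin 912 1 908))))))))))))))))))
(mv 908 (cons (fin 844 7 844)
(mv 1165 (cons (fin 972 7 908)
(mv 1228 (cons (fin 1164 5 972)
(mv 1229 (cons (fin 1292 5 1036)
(fin 1293 6 1037)))))))))))))))
(cons (mv 845 (cons (fin 1102 4 845)
(mv 1100 (cons (fin 1036 5 844)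
(mv 1164 (cons (fin 1101 5 908)
(mv 846 (cons (fin 782 6 781)
(mv 781 (cons (fin 974 4 781)
(mv 716 (cons (fin 780 7 716)
(mv 717 (cons (fin 652 7 652)
(mv 972 (cons (fin 908 5 716)
(mv 970 (cons (fin 971 0 970)
(mv 653 (cons (fin 910 4 653)
(mv 654 (cons (fin 718 6 653)
(fin 590 6 589)))))))))))))))))))))))
(mv 845 (cons (fin 1102 4 845)
(mv 1100 (cons (fin 1036 5 844)
(mv 1164 (cons (fin 1101 5 908)
(mv 780 (cons (fin 844 7 780)
(mv 781 (cons (fin 716 7 716)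
(mv 782 (cons (fin 846 6 781)
(fin 718 6 717)))))))))))))))))
(mv 1039 (cons (cons (mv 1100 (cons (fin 1101 1 1036)
(mv 1104 (cons (fin 1105 0 1037)
(mv 1036 (cons (fin 1099 1 1035)
(fin 1103 0 1036)))))))
(mv 1104 (cons (fin 1105 0 1037)
(mv 1103 (cons (fin 1036 0 1036)
(mv 976 (cons (fin 977 2 973)
(mv 1167 (cons (fin 912 5 911)
(fin 1231 6 975))))))))))
(cons (mv 1100 (cons (fin 1101 1 1036)
(mv 1036 (cons (fin 1099 1 1035)
(mv 976 (cons (fin 975 2 972)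
(fin 977 2 973)))))))
(mv 1100 (cons (fin 1101 1 1036)
(mv 1104 (cons (fin 1105 0 1037)
(mv 976 (cons (fin 977 2 973)
(mv 912 (cons (mv 1103 (cons (fin 1167 5 911)
(fin 848 5 847)))
(mv 911 (cons (fin 847 7 847)
(mv 913 (cons (fin 849 6 848)
(mv 974 (cons (fin 910 1 909)
(fin 975 2 909))))))))))))))))))))
(cons (mv 1039 (cons (fin 972 3 972)
(mv 1104 (cons (fin 1105 0 1037)
(mv 1103 (cons (fin 1036 0 1036)
(mv 976 (cons (fin 977 2 973)
(mv 1167 (cons (fin 912 5 911)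
(fin 1231 6 975)))))))))))
(cons (mv 1039 (cons (fin 972 3 972)
(mv 1100 (cons (fin 1101 1 1036)
(mv 1036 (cons (fin 1099 1 1035)
(mv 976 (cons (fin 975 2 972)
(fin 977 2 973)))))))))
(mv 1039 (cons (fin 972 3 972)
(mv 1100 (cons (fin 1101 1 1036)
(mv 1104 (cons (fin 1105 0 1037)
(mv 976 (cons (fin 977 2 973)
(mv 912 (cons (mv 1103 (cons (fin 1167 5 911)
(fin 848 5 847)))
(mv 911 (cons (fin 847 7 847)
(mv 913 (cons (fin 849 6 848)
(mv 974 (cons (fin 910 1 909)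
(fin 975 2 909))))))))))))))))))))))
(cons (mv 1038 (cons (cons (mv 1039 (cons (fin 972 3 972)
(mv 1100 (cons (fin 1101 1 1036)
(mv 1104 (cons (fin 1105 0 1037)
(mv 1036 (cons (fin 1099 1 1035)
(fin 1103 0 1036)))))))))
(cons (mv 1102 (cons (cons (mv 1166 (cons (fin 1230 7 973)
(mv 909 (cons (fin 974 7 909)
(fin 1101 4 909)))))
(mv 1166 (cons (fin 1230 7 973)
(mv 974 (cons (cons (mv 1229 (cons (fin 1165 5 973)
(mv 1231 (cons (fin 1167 4 974)
(mv 911 (cons (fin 975 6 910)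
(mv 910 (cons (fin 847 6 846)
(mv 846 (cons (fin 1101 5 845)
(fin 782 5 781)))))))))))
(cons (mv 1231 (cons (fin 1167 4 974)
(mv 911 (cons (fin 975 6 910)
(mv 910 (cons (fin 847 6 846)
(mv 846 (cons (fin 1101 5 845)
(fin 782 5 781)))))))))
(mv 1229 (cons (fin 1165 5 973)
(mv 1167 (cons (fin 1231 4 974)
(mv 1103 (cons (fin 910 4 910)
(mv 1104 (cons (fin 1105 3 1037)
(mv 1036 (cons (fin 1101 3 1036)
(fin 1035 0 1035)))))))))))))
(cons (mv 1229 (cons (fin 1165 5 973)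
(mv 911 (cons (fin 975 6 910)
(mv 910 (cons (fin 847 6 846)
(mv 846 (cons (fin 1101 5 845)
(fin 782 5 781)))))))))
(cons (mv 1229 (cons (fin 1165 5 973)
(mv 1231 (cons (fin 1167 4 974)
(mv 975 (cons (fin 911 6 910)
(mv 972 (cons (mv 1035 (cons (fin 1036 1 971)
(mv 971 (cons (fin 1034 1 970)
(fin 970 0 970)))))
(cons (mv 971 (cons (fin 970 0 970)
(mv 907 (cons (fin 906 3 906)
(fin 908 3 907)))))
(mv 1036 (cons (fin 1035 1 971)
(mv 908 (cons (fin 907 3 907)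
(mv 844 (cons (fin 1101 4 844)
(fin 780 4 780))))))))))))))))
(mv 1229 (cons (fin 1165 5 973)
(mv 1167 (cons (fin 1231 4 974)
(mv 910 (cons (fin 1103 4 910)
(mv 911 (cons (fin 975 6 910)
(fin 847 6 846))))))))))))))))
(cons (mv 909 (cons (fin 845 4 845)
(mv 1101 (cons (cons (mv 1164 (cons (fin 1100 5 908)
(mv 1165 (cons (fin 1228 5 972)
(mv 1229 (cons (fin 1293 6 1037)
(fin 974 6 973)))))))
(mv 908 (cons (fin 844 7 844)
(mv 1165 (cons (fin 972 7 908)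
(mv 1229 (cons (fin 1293 6 1037)
(fin 974 6 973))))))))
(cons (mv 1100 (cons (fin 1164 5 908)
(mv 1099 (cons (fin 1098 2 1034)
(mv 1162 (cons (fin 1163 1 1098)
(mv 1035 (cons (fin 1034 3 1034)
(mv 1103 (cons (fin 1036 3 1035)
(mv 1104 (cons (fin 1105 3 1037)
(mv 908 (cons (fin 844 7 844)
(mv 910 (cons (fin 846 6 845)
(mv 974 (cons (fin 1167 4 910)
(mv 907 (cons (fin 906 0 906)
(fin 975 0 907)))))))))))))))))))))
(mv 1164 (cons (fin 1100 5 908)
(mv 1165 (cons (fin 1228 5 972)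
(mv 908 (cons (fin 972 7 908)
(fin 844 7 844))))))))))))
(cons (mv 1166 (cons (fin 1230 7 973)
(mv 909 (cons (fin 974 7 909)
(fin 845 4 845)))))
(mv 1166 (cons (fin 1230 7 973)
(mv 909 (cons (fin 1101 4 909)
(fin 845 4 845)))))))))
(mv 1102 (cons (cons (mv 1166 (cons (fin 1230 7 973)
(mv 909 (cons (fin 974 7 909)
(fin 1101 4 909)))))
(mv 909 (cons (fin 845 4 845)
(mv 1101 (cons (mv 1100 (cons (fin 1039 1 1036)
(fin 1164 5 908)))
(cons (mv 908 (cons (fin 844 7 844)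
(mv 910 (cons (fin 846 6 845)
(mv 1165 (cons (fin 974 5 909)
(mv 1228 (cons (fin 1164 5 972)
(mv 1229 (cons (fin 1292 5 1036)
(fin 1293 6 1037)))))))))))
(mv 1100 (cons (fin 1039 1 1036)
(mv 1098 (cons (fin 1099 2 1034)
(mv 908 (cons (fin 844 7 844)
(mv 910 (cons (fin 846 6 845)
(mv 974 (cons (fin 1165 5 909)
(mv 907 (cons (fin 906 0 906)
(fin 975 0 907)))))))))))))))))))
(cons (mv 1230 (cons (fin 1166 7 973)
(mv 1036 (cons (cons (mv 1103 (cons (fin 1035 0 1035)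
(mv 1104 (cons (fin 1101 3 1036)
(fin 1105 3 1037)))))
(mv 1039 (cons (mv 1100 (cons (fin 1099 1 1035)
(fin 1101 1 1036)))
(mv 1104 (cons (fin 1103 0 1036)
(fin 1105 0 1037))))))
(cons (mv 1035 (cons (mv 1034 (cons (fin 1101 0 1034)
(fin 974 2 970)))
(mv 1099 (cons (fin 1098 1 1034)
(mv 1100 (cons (fin 1039 1 1035)
(mv 1164 (cons (fin 1228 6 972)
(mv 971 (cons (fin 970 3 970)
(fin 907 4 907)))))))))))
(mv 1103 (cons (fin 1035 0 1035)
(mv 1104 (cons (fin 1105 3 1037)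
(fin 1039 0 1036))))))))))
(cons (mv 1166 (cons (fin 1230 7 973)
(mv 909 (cons (fin 974 7 909)
(fin 845 4 845)))))
(mv 1166 (cons (fin 1230 7 973)
(mv 909 (cons (fin 1101 4 909)
(fin 845 4 845)))))))))))
(cons (cons (mv 1039 (cons (fin 972 3 972)
(mv 1104 (cons (fin 1105 0 1037)
(mv 1036 (cons (fin 1103 0 1036)
(mv 1099 (cons (fin 1100 1 1035)
(mv 1035 (cons (fin 1098 1 1034)
(mv 974 (cons (fin 1034 2 970)
(fin 975 2 971)))))))))))))
(mv 1039 (cons (fin 972 3 972)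
(mv 1104 (cons (fin 1105 0 1037)
(mv 1103 (cons (fin 1036 0 1036)
(mv 974 (cons (cons (mv 1167 (cons (fin 1231 7 974)
(mv 910 (cons (fin 975 7 910)
(fin 1102 4 910)))))
(mv 1167 (cons (fin 1231 7 974)
(mv 1166 (cons (cons (mv 1230 (cons (fin 975 5 974)
(fin 1102 7 973)))
(mv 1230 (cons (fin 975 5 974)
(mv 1165 (cons (fin 1164 2 1100)
(fin 1101 4 973))))))
(cons (mv 1164 (cons (fin 1165 2 1100)
(mv 909 (cons (fin 1102 7 909)
(mv 845 (cons (fin 781 4 781)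
(mv 844 (cons (fin 780 7 780)
(mv 908 (cons (fin 1101 7 844)
(mv 906 (cons (fin 907 0 906)
(mv 846 (cons (fin 782 6 781)
(mv 847 (cons (fin 848 1 844)
(mv 911 (cons (fin 912 0 844)
(fin 975 4 847)))))))))))))))))))
(mv 1102 (cons (fin 1230 7 973)
(fin 909 7 909)))))))))
(cons (mv 910 (cons (fin 846 4 846)
(mv 1165 (cons (fin 1101 6 909)
(mv 1102 (cons (mv 1166 (cons (fin 1229 5 973)
(fin 1230 7 973)))
(mv 909 (cons (fin 845 7 845)
(mv 911 (cons (fin 847 6 846)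
(mv 912 (cons (fin 913 1 909)
(mv 848 (cons (fin 849 2 845)
(fin 975 6 847)))))))))))))))
(cons (mv 1167 (cons (fin 1231 7 974)
(mv 910 (cons (fin 975 7 910)
(fin 846 4 846)))))
(mv 1167 (cons (fin 1231 7 974)
(mv 910 (cons (fin 1102 4 910)
(fin 846 4 846))))))))))))))))
(cons (mv 1039 (cons (fin 972 3 972)
(mv 1100 (cons (fin 1101 1 1036)
(mv 1036 (cons (fin 1099 1 1035)
(mv 1228 (cons (fin 1164 6 972)
(mv 909 (cons (fin 845 5 844)
(mv 974 (cons (mv 1035 (cons (fin 1034 2 970)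
(fin 975 2 971)))
(cons (mv 1102 (cons (fin 1166 7 909)
(mv 910 (cons (mv 1103 (cons (fin 1167 4 910)
(fin 846 4 846)))
(cons (mv 1103 (cons (fin 1167 4 910)
(mv 911 (cons (fin 847 6 846)
(mv 912 (cons (fin 913 1 909)
(mv 848 (cons (fin 849 2 845)
(fin 975 6 847)))))))))
(mv 846 (cons (fin 782 5 781)
(mv 847 (cons (fin 911 6 846)
(fin 783 6 782))))))))))
(mv 1102 (cons (fin 1166 7 909)
(mv 1035 (cons (fin 1103 0 1035)
(fin 1034 2 970))))))))))))))))))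
(mv 1039 (cons (fin 972 3 972)
(mv 1101 (cons (fin 1100 1 1036)
(mv 1104 (cons (fin 1105 0 1037)
(mv 1165 (cons (cons (mv 974 (cons (fin 1229 6 973)
(fin 910 6 909)))
(mv 1228 (cons (fin 1164 5 972)
(mv 1292 (cons (fin 1229 5 1036)
(mv 1166 (cons (fin 1230 4 973)
(mv 909 (cons (fin 1102 4 909)
(mv 844 (cons (fin 908 7 844)
(mv 845 (cons (fin 780 7 780)
(mv 846 (cons (fin 910 6 845)
(fin 782 6 781))))))))))))))))
(cons (mv 1228 (cons (fin 1164 5 972)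
(mv 1230 (cons (fin 1166 4 973)
(mv 910 (cons (fin 974 6 909)
(mv 909 (cons (fin 846 6 845)
(mv 844 (cons (fin 908 7 844)
(mv 845 (cons (fin 780 7 780)
(fin 1102 4 845)))))))))))))
(mv 1228 (cons (fin 1164 5 972)
(mv 1229 (cons (fin 1292 5 1036)
(fin 974 6 973))))))))))))))))))
(cons (mv 1038 (cons (cons (mv 1039 (cons (fin 972 3 972)
(mv 1100 (cons (fin 1101 1 1036)
(mv 1104 (cons (fin 1105 0 1037)
(mv 1036 (cons (fin 1099 1 1035)
(fin 1103 0 1036)))))))))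
(mv 1102 (cons (cons (mv 1166 (cons (fin 1230 7 973)
(mv 909 (cons (fin 974 7 909)
(fin 1101 4 909)))))
(mv 1166 (cons (fin 1230 7 973)
(mv 974 (cons (cons (mv 1229 (cons (fin 1165 5 973)
(mv 1167 (cons (fin 1231 4 974)
(mv 1103 (cons (fin 910 4 910)
(mv 1104 (cons (fin 1105 3 1037)
(mv 1036 (cons (fin 1101 3 1036)
(fin 1035 0 1035)))))))))))
(cons (mv 1167 (cons (fin 1231 4 974)
(mv 1103 (cons (fin 910 4 910)
(mv 1104 (cons (fin 1105 3 1037)
(mv 1036 (cons (fin 1101 3 1036)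
(fin 1035 0 1035)))))))))
(mv 1165 (cons (fin 1229 5 973)
(mv 1101 (cons (fin 910 5 909)
(mv 1228 (cons (fin 1164 5 972)
(mv 972 (cons (fin 908 7 908)
(mv 971 (cons (fin 970 0 970)
(mv 1035 (cons (fin 1034 1 970)
(mv 1036 (cons (fin 1103 0 1035)
(mv 1098 (cons (fin 1099 1 1034)
(mv 907 (cons (fin 906 3 906)
(mv 843 (cons (fin 1100 4 843)
(fin 779 4 779)))))))))))))))))))))))
(cons (mv 1231 (cons (fin 1167 4 974)
(mv 1165 (cons (fin 1229 5 973)
(mv 1101 (cons (cons (mv 1228 (cons (fin 1164 5 972)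
(mv 972 (cons (fin 908 7 908)
(mv 971 (cons (fin 970 0 970)
(mv 1035 (cons (fin 1034 1 970)
(mv 1036 (cons (fin 1103 0 1035)
(mv 1098 (cons (fin 1099 1 1034)
(mv 907 (cons (fin 906 3 906)
(mv 843 (cons (fin 1100 4 843)
(fin 779 4 779)))))))))))))))))
(mv 972 (cons (fin 908 7 908)
(mv 971 (cons (fin 970 0 970)
(mv 1035 (cons (fin 1034 1 970)
(mv 1036 (cons (fin 1103 0 1035)
(mv 1098 (cons (fin 1099 1 1034)
(mv 907 (cons (fin 906 3 906)
(mv 843 (cons (fin 1100 4 843)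
(fin 779 4 779))))))))))))))))
(cons (mv 1164 (cons (fin 1228 5 972)
(mv 1163 (cons (fin 1162 2 1098)
(fin 1103 2 1099)))))
(mv 1164 (cons (fin 1228 5 972)
(mv 1162 (cons (fin 1163 2 1098)
(mv 972 (cons (fin 908 7 908)
(mv 971 (cons (fin 970 0 970)
(mv 1035 (cons (fin 1034 1 970)
(mv 907 (cons (fin 906 3 906)
(mv 1099 (cons (fin 1098 5 906)
(fin 1100 4 907))))))))))))))))))))))
(cons (mv 1229 (cons (fin 1165 5 973)
(mv 1167 (cons (fin 1231 4 974)
(mv 910 (cons (fin 1103 4 910)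
(mv 846 (cons (fin 782 5 781)
(mv 847 (cons (fin 911 6 846)
(fin 783 6 782)))))))))))
(mv 1231 (cons (fin 1167 4 974)
(mv 1165 (cons (fin 1229 5 973)
(mv 1101 (cons (fin 910 5 909)
(mv 1164 (cons (fin 1228 5 972)
(mv 1162 (cons (fin 1163 2 1098)
(mv 972 (cons (fin 908 7 908)
(mv 971 (cons (fin 970 0 970)
(mv 1035 (cons (fin 1034 1 970)
(mv 907 (cons (fin 906 3 906)
(mv 1099 (cons (fin 1098 5 906)
(fin 1100 4 907))))))))))))))))))))))))))))
(cons (mv 909 (cons (fin 845 4 845)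
(mv 1101 (cons (cons (mv 1164 (cons (fin 1100 5 908)
(mv 1165 (cons (fin 1228 5 972)
(mv 1229 (cons (fin 1293 6 1037)
(fin 974 6 973)))))))
(mv 908 (cons (fin 844 7 844)
(mv 1165 (cons (fin 972 7 908)
(mv 1229 (cons (fin 1293 6 1037)
(fin 974 6 973))))))))
(cons (mv 1100 (cons (fin 1164 5 908)
(mv 1099 (cons (fin 1098 2 1034)
(mv 1162 (cons (fin 1163 1 1098)
(mv 1035 (cons (fin 1034 3 1034)
(mv 1103 (cons (fin 1036 3 1035)
(mv 1104 (cons (fin 1105 3 1037)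
(mv 908 (cons (fin 844 7 844)
(mv 910 (cons (fin 846 6 845)
(mv 1167 (cons (fin 974 4 910)
(mv 1295 (cons (fin 1231 7 1038)
(mv 912 (cons (fin 976 5 911)
(mv 911 (cons (fin 972 1 908)
(mv 848 (cons (fin 847 2 844)
(fin 849 2 845)))))))))))))))))))))))))))
(mv 1164 (cons (fin 1100 5 908)
(mv 1165 (cons (fin 1228 5 972)
(mv 908 (cons (fin 972 7 908)
(fin 844 7 844))))))))))))
(cons (mv 1166 (cons (fin 1230 7 973)
(mv 909 (cons (fin 974 7 909)
(fin 845 4 845)))))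
(mv 1166 (cons (fin 1230 7 973)
(mv 909 (cons (fin 1101 4 909)
(fin 845 4 845))))))))))
(cons (mv 1039 (cons (mv 1100 (cons (fin 1101 1 1036)
(mv 1104 (cons (fin 1105 0 1037)
(mv 1036 (cons (fin 1099 1 1035)
(fin 1103 0 1036)))))))
(cons (mv 1104 (cons (fin 1105 0 1037)
(mv 1103 (cons (fin 1036 0 1036)
(mv 976 (cons (fin 977 2 973)
(mv 1167 (cons (fin 912 5 911)
(fin 1231 6 975)))))))))
(mv 1101 (cons (fin 1100 1 1036)
(mv 976 (cons (fin 977 2 973)
(mv 909 (cons (mv 1102 (cons (fin 1166 4 909)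
(fin 845 4 845)))
(cons (mv 908 (cons (fin 844 7 844)
(mv 910 (cons (fin 846 6 845)
(mv 1165 (cons (fin 974 6 909)
(mv 1228 (cons (fin 1164 5 972)
(mv 1229 (cons (fin 1292 5 1036)
(mv 1230 (cons (fin 1294 4 1037)
(fin 1166 4 973)))))))))))))
(mv 1102 (cons (fin 845 4 845)
(mv 908 (cons (fin 844 7 844)
(mv 910 (cons (fin 846 6 845)
(mv 1165 (cons (fin 974 5 909)
(mv 1228 (cons (fin 1164 5 972)
(mv 1229 (cons (fin 1292 5 1036)
(fin 1293 6 1037)))))))))))))))))))))))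
(cons (mv 1039 (cons (fin 972 3 972)
(mv 1104 (cons (fin 1105 0 1037)
(mv 1103 (cons (fin 1036 0 1036)
(mv 976 (cons (fin 977 2 973)
(mv 1167 (cons (fin 912 5 911)
(fin 1231 6 975)))))))))))
(mv 1039 (cons (fin 972 3 972)
(mv 1101 (cons (fin 1100 1 1036)
(mv 976 (cons (fin 977 2 973)
(mv 909 (cons (mv 1102 (cons (fin 1166 4 909)
(fin 845 4 845)))
(cons (mv 908 (cons (fin 844 7 844)
(mv 910 (cons (fin 846 6 845)
(mv 1165 (cons (fin 974 6 909)
(mv 1228 (cons (fin 1164 5 972)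
(mv 1229 (cons (fin 1292 5 1036)
(mv 1230 (cons (fin 1294 4 1037)
(fin 1166 4 973)))))))))))))
(mv 1102 (cons (fin 845 4 845)
(mv 908 (cons (fin 844 7 844)
(mv 910 (cons (fin 846 6 845)
(mv 1165 (cons (fin 974 5 909)
(mv 1228 (cons (fin 1164 5 972)
(mv 1229 (cons (fin 1292 5 1036)
(fin 1293 6 1037))))))))))))))))))))))))))
(mv 1038 (cons (cons (mv 1039 (cons (fin 972 3 972)
(mv 1100 (cons (fin 1101 1 1036)
(mv 1104 (cons (fin 1105 0 1037)
(mv 1036 (cons (fin 1099 1 1035)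
(fin 1103 0 1036)))))))))
(cons (mv 1102 (cons (cons (mv 1166 (cons (fin 1230 7 973)
(mv 909 (cons (fin 974 7 909)
(fin 1101 4 909)))))
(mv 1166 (cons (fin 1230 7 973)
(mv 974 (cons (cons (mv 1229 (cons (fin 1165 5 973)
(mv 1231 (cons (fin 1167 4 974)
(mv 975 (cons (fin 911 6 910)
(mv 1036 (cons (fin 976 1 972)
(fin 1035 2 971)))))))))
(mv 1231 (cons (fin 1167 4 974)
(mv 975 (cons (fin 911 6 910)
(mv 1036 (cons (fin 976 1 972)
(fin 1035 2 971))))))))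
(cons (mv 1229 (cons (fin 1165 5 973)
(mv 1167 (cons (fin 1231 4 974)
(mv 1103 (cons (fin 910 4 910)
(mv 1104 (cons (fin 1105 3 1037)
(mv 1036 (cons (fin 1101 3 1036)
(fin 1035 0 1035)))))))))))
(cons (mv 1229 (cons (fin 1165 5 973)
(mv 975 (cons (fin 911 6 910)
(mv 1036 (cons (fin 976 1 972)
(fin 1035 2 971)))))))
(mv 1229 (cons (fin 1165 5 973)
(mv 1231 (cons (fin 1167 4 974)
(mv 911 (cons (fin 975 6 910)
(mv 910 (cons (fin 847 6 846)
(mv 846 (cons (fin 1101 5 845)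
(fin 782 5 781))))))))))))))))))
(cons (mv 909 (cons (fin 845 4 845)
(mv 1101 (cons (cons (mv 1164 (cons (fin 1100 5 908)
(mv 1165 (cons (fin 1228 5 972)
(mv 1229 (cons (fin 1293 6 1037)
(fin 974 6 973)))))))
(mv 908 (cons (fin 844 7 844)
(mv 1165 (cons (fin 972 7 908)
(mv 1229 (cons (fin 1293 6 1037)
(fin 974 6 973))))))))
(cons (mv 1100 (cons (fin 1164 5 908)
(mv 1099 (cons (fin 1098 2 1034)
(mv 1162 (cons (fin 1163 1 1098)
(mv 1035 (cons (fin 1034 3 1034)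
(mv 1103 (cons (fin 1036 3 1035)
(mv 1104 (cons (fin 1105 3 1037)
(mv 908 (cons (fin 844 7 844)
(mv 910 (cons (fin 846 6 845)
(mv 974 (cons (fin 1167 4 910)
(mv 975 (cons (fin 976 3 908)
(fin 907 0 907)))))))))))))))))))))
(mv 1164 (cons (fin 1100 5 908)
(mv 1165 (cons (fin 1228 5 972)
(mv 908 (cons (fin 972 7 908)
(fin 844 7 844))))))))))))
(cons (mv 1166 (cons (fin 1230 7 973)
(mv 909 (cons (fin 1101 4 909)
(fin 845 4 845)))))
(mv 1166 (cons (fin 1230 7 973)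
(mv 909 (cons (fin 974 7 909)
(fin 845 4 845)))))))))
(mv 1039 (cons (cons (mv 1100 (cons (fin 1101 1 1036)
(mv 1104 (cons (fin 1105 0 1037)
(mv 1036 (cons (fin 1099 1 1035)
(fin 1103 0 1036)))))))
(mv 1104 (cons (fin 1105 0 1037)
(mv 1036 (cons (fin 1103 0 1036)
(mv 976 (cons (fin 975 2 972)
(fin 977 2 973))))))))
(cons (mv 1100 (cons (fin 1101 1 1036)
(mv 1036 (cons (fin 1099 1 1035)
(mv 976 (cons (fin 975 2 972)
(fin 977 2 973)))))))
(mv 1101 (cons (fin 1100 1 1036)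
(mv 1104 (cons (fin 1105 0 1037)
(mv 976 (cons (fin 977 2 973)
(mv 1165 (cons (cons (mv 974 (cons (fin 1229 6 973)
(fin 910 6 909)))
(mv 1228 (cons (fin 1164 5 972)
(mv 1292 (cons (fin 1229 5 1036)
(mv 1166 (cons (fin 1230 4 973)
(mv 909 (cons (fin 1102 4 909)
(mv 844 (cons (fin 908 7 844)
(mv 845 (cons (fin 780 7 780)
(mv 846 (cons (fin 910 6 845)
(fin 782 6 781))))))))))))))))
(cons (mv 1228 (cons (fin 1164 5 972)
(mv 1230 (cons (fin 1166 4 973)
(mv 910 (cons (fin 974 6 909)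
(mv 909 (cons (fin 846 6 845)
(mv 844 (cons (fin 908 7 844)
(mv 845 (cons (fin 780 7 780)
(fin 1102 4 845)))))))))))))
(mv 1228 (cons (fin 1164 5 972)
(mv 1229 (cons (fin 1292 5 1036)
(fin 974 6 973)))))))))))))))))))
(cons (mv 1039 (cons (fin 972 3 972)
(mv 1104 (cons (fin 1105 0 1037)
(mv 1036 (cons (fin 1103 0 1036)
(mv 976 (cons (fin 975 2 972)
(fin 977 2 973)))))))))
(cons (mv 1039 (cons (fin 972 3 972)
(mv 1100 (cons (fin 1101 1 1036)
(mv 1036 (cons (fin 1099 1 1035)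
(mv 976 (cons (fin 975 2 972)
(fin 977 2 973)))))))))
(mv 1039 (cons (fin 972 3 972)
(mv 1101 (cons (fin 1100 1 1036)
(mv 1104 (cons (fin 1105 0 1037)
(mv 976 (cons (fin 977 2 973)
(mv 1165 (cons (cons (mv 974 (cons (fin 1229 6 973)
(fin 910 6 909)))
(mv 1228 (cons (fin 1164 5 972)
(mv 1292 (cons (fin 1229 5 1036)
(mv 1166 (cons (fin 1230 4 973)
(mv 909 (cons (fin 1102 4 909)
(mv 844 (cons (fin 908 7 844)
(mv 845 (cons (fin 780 7 780)
(mv 846 (cons (fin 910 6 845)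
(fin 782 6 781))))))))))))))))
(cons (mv 1228 (cons (fin 1164 5 972)
(mv 1230 (cons (fin 1166 4 973)
(mv 910 (cons (fin 974 6 909)
(mv 909 (cons (fin 846 6 845)
(mv 844 (cons (fin 908 7 844)
(mv 845 (cons (fin 780 7 780)
(fin 1102 4 845)))))))))))))
(mv 1228 (cons (fin 1164 5 972)
(mv 1229 (cons (fin 1292 5 1036)
(fin 974 6 973))))))))))))))))))))))))))
def l122 : Lem := ⟨13254031944712882724506621310649321556018620670345837899455453023597314721787975009848330616026462815765143756135158089473467252075149308743152655366187148242124071246428482498451210046760672027239036899891323305324899173507745103325308665813954110541579506451753178596634830548552232523722901151470534797188661248, 34208448825835893855686599219494275632191887657342931029539145761292091467880889534976679386486438788218810172315415261279676303864629978587719406874967286049640120899208303043904487656311958855838564822496242638714240510962839630374609640239776615720777852824161932961267513556700922572760862730636659435735983793029716118567415753974781764758652683350126054797048905797472141667759939479482662416702223941632,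 34208448825835893855686599219494275632191887657342931029539145761292091467880889534976679386486438788218810172315415261279676303864629978587719406874967286049640120899208303043904487656311958855838564822496242638714240510962839630374609640239776615720777852824161932961267513556700922572760862730636659435735983793029716118567415753974781764758652683350126054797048905797472141667759939479482662416702223941632, 19, 33⟩
theorem l122_valid : l122.Valid :=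
  Lem.valid_of_chk t122 t122_valid [1037, 1040] c122 l122 (by decide +kernel)
end Crest.Agent.SnakyAux
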