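import Crest.Agent.S0047_aux.Checker

set_option autoImplicit false
set_option maxRecDepth 100000
namespace Crest.Agent.SnakyAux
open Cert
def t125 : Tbl := Tbl.nil
theorem t125_valid : t125.Valid := Tbl.valid_nil
def c125 : Cert :=
(mv 1104 (cons (cons (cons (mv 1039 (cons (cons (mv 1038 (cons (fin 1105 0 1037)
(mv 1100 (cons (fin 1101 1 1036)
(mv 1036 (cons (fin 1099 1 1035)
(fin 1103 0 1036)))))))
(cons (mv 975 (cons (cons (mv 1168 (cons (fin 1232 7 975)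
(mv 911 (cons (fin 976 7 911)
(fin 1103 4 911)))))
(mv 911 (cons (fin 847 4 847)
(mv 1103 (cons (mv 1166 (cons (fin 1102 5 910)
(mv 1167 (cons (fin 1230 5 974)
(mv 1231 (cons (fin 1295 6 1039)
(fin 976 6 975)))))))
(cons (mv 910 (cons (fin 846 7 846)
(mv 1167 (cons (fin 974 7 910)
(mv 1231 (cons (fin 1295 6 1039)
(fin 976 6 975)))))))
(mv 1102 (cons (fin 1166 5 910)
(mv 1101 (cons (fin 1036 3 1036)
(fin 1100 2 1036)))))))))))
(cons (mv 1168 (cons (fin 1232 7 975)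
(mv 976 (cons (cons (mv 1231 (cons (fin 1167 5 975)
(mv 1233 (cons (fin 1169 4 976)
(mv 913 (cons (fin 977 6 912)
(mv 912 (cons (fin 849 6 848)
(mv 848 (cons (fin 1103 5 847)
(fin 784 5 783)))))))))))
(cons (mv 1233 (cons (fin 1169 4 976)
(mv 913 (cons (fin 977 6 912)
(mv 912 (cons (fin 849 6 848)
(mv 848 (cons (fin 1103 5 847)
(fin 784 5 783)))))))))
(mv 1231 (cons (fin 1167 5 975)
(mv 1169 (cons (fin 1233 4 976)
(mv 912 (cons (fin 1105 4 912)
(mv 848 (cons (fin 1103 5 847)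
(fin 784 5 783)))))))))))
(cons (mv 1231 (cons (fin 1167 5 975)
(mv 913 (cons (fin 977 6 912)
(mv 912 (cons (fin 849 6 848)
(mv 848 (cons (fin 1103 5 847)
(fin 784 5 783)))))))))
(cons (mv 1231 (cons (fin 1167 5 975)
(mv 1169 (cons (fin 1233 4 976)
(mv 977 (cons (fin 913 6 912)
(mv 978 (cons (fin 979 1 975)
(mv 1042 (cons (fin 1043 0 975)
(mv 914 (cons (fin 915 2 911)
(mv 1106 (cons (fin 1105 5 913)
(mv 1171 (cons (fin 1107 4 914)
(mv 1170 (cons (fin 1103 3 1103)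
(fin 1235 4 978)))))))))))))))))))
(mv 1231 (cons (fin 1167 5 975)
(mv 1169 (cons (fin 1233 4 976)
(mv 1105 (cons (fin 912 4 912)
(mv 1106 (cons (fin 1107 3 1039)
(mv 977 (cons (fin 913 6 912)
(mv 978 (cons (fin 979 1 975)
(mv 1042 (cons (fin 1043 0 975)
(fin 914 5 913)))))))))))))))))))))
(cons (mv 1168 (cons (fin 1232 7 975)
(mv 911 (cons (fin 976 7 911)
(fin 847 4 847)))))
(mv 1168 (cons (fin 1232 7 975)
(mv 911 (cons (fin 1103 4 911)
(fin 847 4 847)))))))))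
(mv 1038 (cons (cons (mv 1100 (cons (fin 1101 1 1036)
(mv 1036 (cons (fin 1099 1 1035)
(fin 1103 0 1036)))))
(mv 1100 (cons (fin 1101 1 1036)
(mv 976 (cons (fin 977 2 973)
(mv 912 (cons (mv 1103 (cons (fin 1167 5 911)
(fin 848 5 847)))
(cons (mv 911 (cons (fin 847 7 847)
(mv 1168 (cons (fin 975 7 911)
(mv 1231 (cons (fin 1167 5 975)
(mv 1232 (cons (fin 1295 5 1039)
(mv 1233 (cons (fin 1297 4 1040)
(fin 1169 4 976)))))))))))
(mv 1103 (cons (fin 848 5 847)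
(mv 911 (cons (fin 847 7 847)
(mv 1168 (cons (fin 975 7 911)
(mv 1232 (cons (fin 1296 7 1039)
(mv 1233 (cons (fin 1297 4 1040)
(fin 1169 4 976)))))))))))))))))))
(cons (mv 1103 (cons (fin 1036 0 1036)
(mv 976 (cons (fin 977 2 973)
(mv 1167 (cons (fin 912 5 911)
(fin 1231 6 975)))))))
(mv 1100 (cons (fin 1101 1 1036)
(mv 1036 (cons (fin 1099 1 1035)
(mv 976 (cons (fin 975 2 972)
(fin 977 2 973))))))))))))
(cons (mv 1038 (cons (fin 1105 0 1037)
(mv 1100 (cons (fin 1101 1 1036)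
(mv 1036 (cons (fin 1099 1 1035)
(mv 976 (cons (fin 975 2 972)
(fin 977 2 973)))))))))
(cons (mv 1038 (cons (fin 1105 0 1037)
(mv 1100 (cons (fin 1101 1 1036)
(mv 976 (cons (fin 977 2 973)
(mv 912 (cons (mv 1103 (cons (fin 1167 5 911)
(fin 848 5 847)))
(cons (mv 911 (cons (fin 847 7 847)
(mv 1168 (cons (fin 975 7 911)
(mv 1231 (cons (fin 1167 5 975)
(mv 1232 (cons (fin 1295 5 1039)
(mv 1233 (cons (fin 1297 4 1040)
(fin 1169 4 976)))))))))))
(mv 1103 (cons (fin 848 5 847)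
(mv 911 (cons (fin 847 7 847)
(mv 1168 (cons (fin 975 7 911)
(mv 1232 (cons (fin 1296 7 1039)
(mv 1233 (cons (fin 1297 4 1040)
(fin 1169 4 976))))))))))))))))))))
(mv 1038 (cons (fin 1105 0 1037)
(mv 1103 (cons (fin 1036 0 1036)
(mv 976 (cons (fin 977 2 973)
(mv 1167 (cons (fin 912 5 911)
(fin 1231 6 975)))))))))))))
(cons (mv 976 (cons (cons (mv 1168 (cons (cons (mv 1231 (cons (fin 1167 5 975)
(mv 1295 (cons (fin 1232 5 1039)
(mv 1233 (cons (fin 1169 4 976)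
(mv 975 (cons (fin 911 7 911)
(mv 977 (cons (fin 913 6 912)
(mv 974 (cons (fin 1038 1 973)
(mv 973 (cons (fin 1036 1 972)
(mv 909 (cons (fin 908 3 908)
(fin 910 3 909)))))))))))))))))
(cons (mv 1233 (cons (fin 1169 4 976)
(mv 1297 (cons (fin 1232 4 1040)
(mv 975 (cons (fin 911 7 911)
(mv 977 (cons (fin 913 6 912)
(mv 974 (cons (fin 1038 1 973)
(mv 973 (cons (fin 1036 1 972)
(mv 909 (cons (fin 908 3 908)
(fin 910 3 909)))))))))))))))
(mv 1231 (cons (fin 1167 5 975)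
(mv 1295 (cons (fin 1232 5 1039)
(mv 975 (cons (fin 911 7 911)
(mv 977 (cons (fin 913 6 912)
(mv 974 (cons (fin 1038 1 973)
(mv 973 (cons (fin 1036 1 972)
(mv 909 (cons (fin 908 3 908)
(fin 910 3 909)))))))))))))))))
(cons (mv 1231 (cons (fin 1167 5 975)
(mv 1295 (cons (fin 1232 5 1039)
(mv 1169 (cons (fin 1233 4 976)
(mv 911 (cons (fin 975 7 911)
(mv 912 (cons (fin 847 7 847)
(fin 1105 4 912)))))))))))
(cons (mv 1231 (cons (fin 1167 5 975)
(mv 1295 (cons (fin 1232 5 1039)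
(mv 1169 (cons (fin 1233 4 976)
(mv 912 (cons (fin 1105 4 912)
(mv 913 (cons (fin 977 6 912)
(fin 849 6 848)))))))))))
(mv 1231 (cons (fin 1167 5 975)
(mv 1233 (cons (fin 1169 4 976)
(mv 975 (cons (fin 911 7 911)
(mv 977 (cons (fin 913 6 912)
(mv 974 (cons (fin 1038 1 973)
(mv 973 (cons (fin 1036 1 972)
(mv 909 (cons (fin 908 3 908)
(fin 910 3 909)))))))))))))))))))
(cons (mv 912 (cons (cons (mv 1167 (cons (fin 1103 5 911)
(mv 1169 (cons (fin 1105 4 912)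
(mv 847 (cons (fin 911 7 847)
(mv 848 (cons (fin 783 7 783)
(mv 849 (cons (fin 913 6 848)
(fin 785 6 784)))))))))))
(mv 1103 (cons (fin 1167 5 911)
(mv 1105 (cons (fin 1169 4 912)
(mv 1102 (cons (fin 1038 3 1037)
(mv 1165 (cons (fin 1166 1 1101)
(mv 1101 (cons (fin 1164 1 1100)
(fin 1036 3 1036))))))))))))
(cons (mv 1169 (cons (fin 1105 4 912)
(mv 847 (cons (fin 911 7 847)
(mv 848 (cons (fin 783 7 783)
(mv 849 (cons (fin 913 6 848)
(fin 785 6 784)))))))))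
(mv 1167 (cons (fin 1103 5 911)
(mv 847 (cons (fin 911 7 847)
(mv 848 (cons (fin 783 7 783)
(mv 849 (cons (fin 913 6 848)
(fin 785 6 784))))))))))))
(mv 1168 (cons (cons (mv 1231 (cons (fin 1167 5 975)
(mv 1295 (cons (fin 1232 5 1039)
(mv 1233 (cons (fin 1169 4 976)
(mv 975 (cons (fin 911 7 911)
(mv 977 (cons (fin 913 6 912)
(mv 974 (cons (fin 1038 1 973)
(mv 973 (cons (fin 1036 1 972)
(mv 909 (cons (fin 908 3 908)
(fin 910 3 909)))))))))))))))))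
(mv 1233 (cons (fin 1169 4 976)
(mv 1297 (cons (fin 1232 4 1040)
(mv 975 (cons (fin 911 7 911)
(mv 977 (cons (fin 913 6 912)
(mv 974 (cons (fin 1038 1 973)
(mv 973 (cons (fin 1036 1 972)
(mv 909 (cons (fin 908 3 908)
(fin 910 3 909))))))))))))))))
(cons (mv 1231 (cons (fin 1167 5 975)
(mv 1295 (cons (fin 1232 5 1039)
(mv 975 (cons (fin 911 7 911)
(mv 977 (cons (fin 913 6 912)
(mv 974 (cons (fin 1038 1 973)
(mv 973 (cons (fin 1036 1 972)
(mv 909 (cons (fin 908 3 908)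
(fin 910 3 909)))))))))))))))
(cons (mv 1231 (cons (fin 1167 5 975)
(mv 1232 (cons (fin 1295 5 1039)
(mv 1233 (cons (fin 1297 4 1040)
(fin 1169 4 976)))))))
(mv 1231 (cons (fin 1167 5 975)
(mv 1233 (cons (fin 1169 4 976)
(mv 975 (cons (fin 911 7 911)
(mv 977 (cons (fin 913 6 912)
(mv 974 (cons (fin 1038 1 973)
(mv 973 (cons (fin 1036 1 972)
(mv 909 (cons (fin 908 3 908)
(fin 910 3 909)))))))))))))))))))))
(cons (cons (mv 912 (cons (cons (mv 1169 (cons (fin 1105 4 912)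
(mv 1233 (cons (fin 1168 4 976)
(mv 847 (cons (fin 911 7 847)
(mv 848 (cons (fin 783 7 783)
(mv 849 (cons (fin 913 6 848)
(fin 785 6 784)))))))))))
(mv 1169 (cons (fin 1105 4 912)
(mv 1168 (cons (fin 1233 4 976)
(mv 911 (cons (fin 975 7 911)
(fin 847 7 847))))))))
(cons (mv 1169 (cons (fin 1105 4 912)
(mv 1168 (cons (fin 1233 4 976)
(mv 913 (cons (fin 977 6 912)
(fin 849 6 848)))))))
(cons (mv 911 (cons (fin 847 7 847)
(mv 1168 (cons (fin 975 7 911)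
(mv 913 (cons (fin 977 6 912)
(fin 849 6 848)))))))
(mv 1169 (cons (fin 1105 4 912)
(mv 847 (cons (fin 911 7 847)
(mv 848 (cons (fin 783 7 783)
(mv 849 (cons (fin 913 6 848)
(fin 785 6 784)))))))))))))
(mv 912 (cons (cons (mv 1167 (cons (fin 1103 5 911)
(mv 1231 (cons (fin 1168 5 975)
(mv 847 (cons (fin 911 7 847)
(mv 848 (cons (fin 783 7 783)
(mv 849 (cons (fin 913 6 848)
(fin 785 6 784)))))))))))
(mv 1167 (cons (fin 1103 5 911)
(mv 1168 (cons (fin 1231 5 975)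
(mv 911 (cons (fin 975 7 911)
(fin 847 7 847))))))))
(cons (mv 1167 (cons (fin 1103 5 911)
(mv 1168 (cons (fin 1231 5 975)
(mv 913 (cons (fin 977 6 912)
(fin 849 6 848)))))))
(cons (mv 911 (cons (fin 847 7 847)
(mv 1168 (cons (fin 975 7 911)
(mv 913 (cons (fin 977 6 912)
(fin 849 6 848)))))))
(mv 1167 (cons (fin 1103 5 911)
(mv 847 (cons (fin 911 7 847)
(mv 848 (cons (fin 783 7 783)
(mv 849 (cons (fin 913 6 848)
(fin 785 6 784))))))))))))))
(cons (mv 1168 (cons (cons (mv 1231 (cons (fin 1167 5 975)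
(mv 1295 (cons (fin 1232 5 1039)
(mv 1169 (cons (fin 1233 4 976)
(mv 911 (cons (fin 975 7 911)
(mv 912 (cons (fin 847 7 847)
(fin 1105 4 912)))))))))))
(mv 1169 (cons (fin 1233 4 976)
(mv 911 (cons (fin 975 7 911)
(mv 912 (cons (fin 847 7 847)
(fin 1105 4 912))))))))
(cons (mv 1167 (cons (fin 1231 5 975)
(mv 911 (cons (fin 975 7 911)
(mv 912 (cons (fin 1103 5 911)
(fin 847 7 847)))))))
(mv 1231 (cons (fin 1167 5 975)
(mv 1232 (cons (fin 1295 5 1039)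
(mv 1233 (cons (fin 1297 4 1040)
(fin 1169 4 976))))))))))
(mv 1168 (cons (cons (mv 1231 (cons (fin 1167 5 975)
(mv 1295 (cons (fin 1232 5 1039)
(mv 1169 (cons (fin 1233 4 976)
(mv 912 (cons (fin 1105 4 912)
(mv 913 (cons (fin 977 6 912)
(fin 849 6 848)))))))))))
(mv 1169 (cons (fin 1233 4 976)
(mv 912 (cons (fin 1105 4 912)
(mv 913 (cons (fin 977 6 912)
(fin 849 6 848))))))))
(cons (mv 1167 (cons (fin 1231 5 975)
(mv 912 (cons (fin 1103 5 911)
(mv 913 (cons (fin 977 6 912)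
(fin 849 6 848)))))))
(mv 1231 (cons (fin 1167 5 975)
(mv 1232 (cons (fin 1295 5 1039)
(mv 1233 (cons (fin 1297 4 1040)
(fin 1169 4 976))))))))))))))
(mv 976 (cons (cons (cons (mv 1168 (cons (cons (mv 1231 (cons (fin 1167 5 975)
(mv 1295 (cons (fin 1232 5 1039)
(mv 1233 (cons (fin 1169 4 976)
(mv 911 (cons (fin 975 7 911)
(mv 912 (cons (fin 847 7 847)
(mv 913 (cons (fin 977 6 912)
(fin 849 6 848)))))))))))))
(cons (mv 1233 (cons (fin 1169 4 976)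
(mv 1297 (cons (fin 1232 4 1040)
(mv 911 (cons (fin 975 7 911)
(mv 912 (cons (fin 847 7 847)
(mv 913 (cons (fin 977 6 912)
(fin 849 6 848)))))))))))
(mv 1231 (cons (fin 1167 5 975)
(mv 1295 (cons (fin 1232 5 1039)
(mv 911 (cons (fin 975 7 911)
(mv 912 (cons (fin 847 7 847)
(mv 913 (cons (fin 977 6 912)
(fin 849 6 848)))))))))))))
(cons (cons (mv 1231 (cons (fin 1167 5 975)
(mv 1295 (cons (fin 1232 5 1039)
(mv 1169 (cons (fin 1233 4 976)
(mv 912 (cons (fin 1105 4 912)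
(mv 913 (cons (fin 977 6 912)
(fin 849 6 848)))))))))))
(mv 1231 (cons (fin 1167 5 975)
(mv 1295 (cons (fin 1232 5 1039)
(mv 1169 (cons (fin 1233 4 976)
(mv 911 (cons (fin 975 7 911)
(mv 912 (cons (fin 847 7 847)
(fin 1105 4 912))))))))))))
(cons (mv 1231 (cons (fin 1167 5 975)
(mv 1232 (cons (fin 1295 5 1039)
(mv 1233 (cons (fin 1297 4 1040)
(fin 1169 4 976)))))))
(mv 1231 (cons (fin 1167 5 975)
(mv 1233 (cons (fin 1169 4 976)
(mv 911 (cons (fin 975 7 911)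
(mv 912 (cons (fin 847 7 847)
(mv 913 (cons (fin 977 6 912)
(fin 849 6 848)))))))))))))))
(mv 912 (cons (cons (mv 1167 (cons (fin 1103 5 911)
(mv 1169 (cons (fin 1105 4 912)
(mv 847 (cons (fin 911 7 847)
(mv 848 (cons (fin 783 7 783)
(mv 849 (cons (fin 913 6 848)
(fin 785 6 784)))))))))))
(cons (mv 1169 (cons (fin 1105 4 912)
(mv 847 (cons (fin 911 7 847)
(mv 848 (cons (fin 783 7 783)
(mv 849 (cons (fin 913 6 848)
(fin 785 6 784)))))))))
(mv 1169 (cons (fin 1105 4 912)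
(mv 1103 (cons (fin 1167 5 911)
(mv 848 (cons (fin 1039 5 847)
(mv 849 (cons (fin 913 6 848)
(fin 785 6 784)))))))))))
(cons (mv 1169 (cons (fin 1105 4 912)
(mv 1103 (cons (fin 1167 5 911)
(mv 847 (cons (fin 911 7 847)
(mv 848 (cons (fin 1039 5 847)
(fin 783 7 783)))))))))
(cons (mv 1167 (cons (fin 1103 5 911)
(mv 847 (cons (fin 911 7 847)
(mv 848 (cons (fin 783 7 783)
(mv 849 (cons (fin 913 6 848)
(fin 785 6 784)))))))))
(mv 1167 (cons (fin 1103 5 911)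
(mv 1169 (cons (fin 1105 4 912)
(mv 911 (cons (fin 847 7 847)
(mv 913 (cons (fin 849 6 848)
(mv 914 (cons (mv 975 (cons (fin 974 1 910)
(fin 915 1 911)))
(cons (mv 978 (cons (fin 979 0 911)
(mv 977 (cons (fin 910 0 910)
(mv 915 (cons (fin 916 1 912)
(mv 851 (cons (fin 850 2 847)
(fin 852 2 848)))))))))
(mv 974 (cons (fin 975 1 910)
(mv 978 (cons (fin 979 0 911)
(mv 910 (cons (fin 973 1 909)
(fin 977 0 910)))))))))))))))))))))))
(cons (mv 1168 (cons (cons (mv 1231 (cons (fin 1167 5 975)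
(mv 1232 (cons (fin 1295 5 1039)
(mv 1233 (cons (fin 1297 4 1040)
(fin 1169 4 976)))))))
(mv 1233 (cons (fin 1169 4 976)
(mv 1232 (cons (fin 1297 4 1040)
(mv 975 (cons (fin 1039 7 975)
(fin 911 7 911))))))))
(cons (mv 1231 (cons (fin 1167 5 975)
(mv 1232 (cons (fin 1295 5 1039)
(mv 975 (cons (fin 1039 7 975)
(fin 911 7 911)))))))
(mv 1231 (cons (fin 1167 5 975)
(mv 1169 (cons (fin 1233 4 976)
(mv 975 (cons (fin 911 7 911)
(mv 977 (cons (fin 913 6 912)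
(mv 978 (cons (cons (mv 1039 (cons (fin 979 1 975)
(mv 1042 (cons (fin 1043 0 975)
(mv 914 (cons (fin 915 2 911)
(mv 1106 (cons (fin 1105 5 913)
(mv 1171 (cons (fin 1107 4 914)
(mv 1170 (cons (fin 1103 3 1103)
(fin 1235 4 978)))))))))))))
(mv 1042 (cons (fin 1043 0 975)
(mv 914 (cons (fin 915 2 911)
(mv 1106 (cons (fin 1105 5 913)
(mv 1171 (cons (fin 1107 4 914)
(mv 1170 (cons (fin 1103 3 1103)
(fin 1235 4 978))))))))))))
(cons (mv 979 (cons (fin 1039 1 975)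
(mv 915 (cons (fin 914 2 911)
(fin 916 2 912)))))
(mv 1043 (cons (fin 1042 0 975)
(mv 979 (cons (fin 1039 1 975)
(fin 1044 0 976)))))))))))))))))))
(mv 912 (cons (cons (mv 1169 (cons (fin 1105 4 912)
(mv 1233 (cons (fin 1168 4 976)
(mv 913 (cons (fin 849 6 848)
(mv 847 (cons (fin 911 7 847)
(mv 848 (cons (fin 783 7 783)
(mv 1039 (cons (fin 1103 5 847)
(mv 975 (cons (fin 784 5 783)
(mv 974 (cons (fin 973 2 909)
(mv 914 (cons (fin 915 1 911)
(fin 977 2 910)))))))))))))))))))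
(cons (mv 1169 (cons (fin 1105 4 912)
(mv 1233 (cons (fin 1168 4 976)
(mv 849 (cons (fin 913 6 848)
(mv 848 (cons (fin 785 6 784)
(mv 1039 (cons (fin 1103 5 847)
(mv 783 (cons (fin 847 7 783)
(mv 784 (cons (fin 975 5 783)
(fin 719 7 719)))))))))))))))
(mv 1169 (cons (fin 1105 4 912)
(mv 1233 (cons (fin 1168 4 976)
(mv 847 (cons (fin 911 7 847)
(mv 848 (cons (fin 783 7 783)
(mv 1039 (cons (fin 1103 5 847)
(mv 784 (cons (fin 975 5 783)
(mv 785 (cons (fin 849 6 784)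
(fin 721 6 720)))))))))))))))))
(cons (cons (mv 1169 (cons (fin 1105 4 912)
(mv 1168 (cons (fin 1233 4 976)
(mv 913 (cons (fin 977 6 912)
(fin 849 6 848)))))))
(mv 1169 (cons (fin 1105 4 912)
(mv 1168 (cons (fin 1233 4 976)
(mv 911 (cons (fin 975 7 911)
(fin 847 7 847))))))))
(cons (mv 911 (cons (fin 847 7 847)
(mv 1168 (cons (fin 975 7 911)
(mv 913 (cons (fin 977 6 912)
(fin 849 6 848)))))))
(mv 1169 (cons (fin 1105 4 912)
(mv 913 (cons (fin 849 6 848)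
(mv 847 (cons (fin 911 7 847)
(mv 848 (cons (fin 783 7 783)
(mv 1039 (cons (fin 1103 5 847)
(mv 975 (cons (fin 784 5 783)
(mv 974 (cons (fin 973 2 909)
(mv 914 (cons (fin 915 1 911)
(fin 977 2 910)))))))))))))))))))))))
(cons (cons (mv 1168 (cons (cons (mv 1231 (cons (fin 1167 5 975)
(mv 1295 (cons (fin 1232 5 1039)
(mv 1169 (cons (fin 1233 4 976)
(mv 912 (cons (fin 1105 4 912)
(mv 913 (cons (fin 977 6 912)
(fin 849 6 848)))))))))))
(cons (mv 1233 (cons (fin 1169 4 976)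
(mv 1232 (cons (fin 1297 4 1040)
(mv 1295 (cons (fin 1231 5 1039)
(mv 1296 (cons (fin 1359 5 1103)
(mv 1039 (cons (fin 1103 7 1039)
(fin 975 7 975)))))))))))
(mv 1231 (cons (fin 1167 5 975)
(mv 1232 (cons (fin 1295 5 1039)
(mv 1297 (cons (fin 1233 4 1040)
(mv 1296 (cons (fin 1361 4 1104)
(mv 1039 (cons (fin 1103 7 1039)
(fin 975 7 975)))))))))))))
(cons (mv 1233 (cons (fin 1169 4 976)
(mv 1232 (cons (fin 1297 4 1040)
(mv 1039 (cons (fin 975 7 975)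
(mv 1103 (cons (fin 1296 7 1039)
(mv 912 (cons (fin 1167 5 911)
(fin 848 5 847)))))))))))
(cons (mv 1231 (cons (fin 1167 5 975)
(mv 1232 (cons (fin 1295 5 1039)
(mv 1039 (cons (fin 975 7 975)
(mv 1103 (cons (fin 1296 7 1039)
(mv 912 (cons (fin 848 5 847)
(mv 913 (cons (fin 977 6 912)
(fin 849 6 848)))))))))))))
(mv 1231 (cons (fin 1167 5 975)
(mv 1169 (cons (fin 1233 4 976)
(mv 912 (cons (fin 1105 4 912)
(mv 913 (cons (fin 977 6 912)
(fin 849 6 848)))))))))))))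
(mv 912 (cons (cons (mv 1167 (cons (fin 1103 5 911)
(mv 1231 (cons (fin 1168 5 975)
(mv 847 (cons (fin 911 7 847)
(mv 848 (cons (fin 783 7 783)
(mv 849 (cons (fin 913 6 848)
(fin 785 6 784)))))))))))
(mv 1167 (cons (fin 1103 5 911)
(mv 1168 (cons (fin 1231 5 975)
(mv 913 (cons (fin 977 6 912)
(fin 849 6 848))))))))
(cons (mv 1167 (cons (fin 1103 5 911)
(mv 1168 (cons (fin 1231 5 975)
(mv 911 (cons (fin 975 7 911)
(fin 847 7 847)))))))
(cons (mv 911 (cons (fin 847 7 847)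
(mv 1168 (cons (fin 975 7 911)
(mv 913 (cons (fin 977 6 912)
(fin 849 6 848)))))))
(mv 1167 (cons (fin 1103 5 911)
(mv 847 (cons (fin 911 7 847)
(mv 848 (cons (fin 783 7 783)
(mv 849 (cons (fin 913 6 848)
(fin 785 6 784))))))))))))))
(cons (mv 1168 (cons (cons (mv 1231 (cons (fin 1167 5 975)
(mv 1295 (cons (fin 1232 5 1039)
(mv 1169 (cons (fin 1233 4 976)
(mv 911 (cons (fin 975 7 911)
(mv 912 (cons (fin 847 7 847)
(fin 1105 4 912)))))))))))
(mv 1233 (cons (fin 1169 4 976)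
(mv 1232 (cons (fin 1297 4 1040)
(mv 975 (cons (fin 1039 7 975)
(fin 911 7 911))))))))
(cons (mv 1231 (cons (fin 1167 5 975)
(mv 1232 (cons (fin 1295 5 1039)
(mv 975 (cons (fin 1039 7 975)
(fin 911 7 911)))))))
(cons (mv 1231 (cons (fin 1167 5 975)
(mv 1232 (cons (fin 1295 5 1039)
(mv 1233 (cons (fin 1297 4 1040)
(fin 1169 4 976)))))))
(mv 1231 (cons (fin 1167 5 975)
(mv 1169 (cons (fin 1233 4 976)
(mv 911 (cons (fin 975 7 911)
(mv 912 (cons (fin 847 7 847)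
(fin 1105 4 912)))))))))))))
(mv 912 (cons (cons (mv 1167 (cons (fin 1103 5 911)
(mv 1231 (cons (fin 1168 5 975)
(mv 1169 (cons (fin 1105 4 912)
(mv 847 (cons (fin 911 7 847)
(mv 848 (cons (fin 783 7 783)
(mv 849 (cons (fin 913 6 848)
(fin 785 6 784)))))))))))))
(mv 1169 (cons (fin 1105 4 912)
(mv 1233 (cons (fin 1168 4 976)
(mv 847 (cons (fin 911 7 847)
(mv 848 (cons (fin 783 7 783)
(mv 849 (cons (fin 913 6 848)
(fin 785 6 784))))))))))))
(cons (mv 1167 (cons (fin 1103 5 911)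
(mv 1168 (cons (fin 1231 5 975)
(mv 1169 (cons (fin 1233 4 976)
(fin 1105 4 912)))))))
(cons (mv 1167 (cons (fin 1103 5 911)
(mv 1231 (cons (fin 1168 5 975)
(mv 847 (cons (fin 911 7 847)
(mv 848 (cons (fin 783 7 783)
(mv 849 (cons (fin 913 6 848)
(fin 785 6 784)))))))))))
(mv 1167 (cons (fin 1103 5 911)
(mv 1169 (cons (fin 1105 4 912)
(mv 847 (cons (fin 911 7 847)
(mv 848 (cons (fin 783 7 783)
(mv 849 (cons (fin 913 6 848)
(fin 785 6 784)))))))))))))))))))))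
(cons (cons (mv 976 (cons (cons (cons (mv 1168 (cons (cons (mv 1231 (cons (fin 1167 5 975)
(mv 1295 (cons (fin 1232 5 1039)
(mv 1233 (cons (fin 1169 4 976)
(mv 975 (cons (fin 911 7 911)
(mv 977 (cons (fin 913 6 912)
(mv 1038 (cons (fin 974 1 973)
(fin 1039 2 973)))))))))))))
(mv 1231 (cons (fin 1167 5 975)
(mv 1232 (cons (fin 1295 5 1039)
(mv 1233 (cons (fin 1297 4 1040)
(fin 1169 4 976))))))))
(cons (mv 1233 (cons (fin 1169 4 976)
(mv 1297 (cons (fin 1232 4 1040)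
(mv 975 (cons (fin 911 7 911)
(mv 977 (cons (fin 913 6 912)
(mv 1038 (cons (fin 974 1 973)
(fin 1039 2 973)))))))))))
(cons (mv 1231 (cons (fin 1167 5 975)
(mv 1295 (cons (fin 1232 5 1039)
(mv 975 (cons (fin 911 7 911)
(mv 977 (cons (fin 913 6 912)
(mv 1038 (cons (fin 974 1 973)
(fin 1039 2 973)))))))))))
(mv 1231 (cons (fin 1167 5 975)
(mv 1233 (cons (fin 1169 4 976)
(mv 975 (cons (fin 911 7 911)
(mv 977 (cons (fin 913 6 912)
(mv 1038 (cons (fin 974 1 973)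
(fin 1039 2 973)))))))))))))))
(mv 912 (cons (cons (mv 1167 (cons (fin 1103 5 911)
(mv 847 (cons (fin 911 7 847)
(mv 848 (cons (fin 783 7 783)
(mv 849 (cons (fin 913 6 848)
(fin 785 6 784)))))))))
(mv 847 (cons (fin 911 7 847)
(mv 848 (cons (fin 783 7 783)
(mv 849 (cons (fin 913 6 848)
(fin 785 6 784))))))))
(cons (mv 1103 (cons (fin 1167 5 911)
(mv 1039 (cons (fin 848 5 847)
(mv 1038 (cons (fin 1036 0 1036)
(fin 977 2 973)))))))
(mv 1167 (cons (fin 1103 5 911)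
(mv 911 (cons (fin 847 7 847)
(mv 913 (cons (fin 849 6 848)
(mv 914 (cons (mv 975 (cons (fin 974 1 910)
(fin 915 1 911)))
(cons (mv 978 (cons (fin 979 0 911)
(mv 977 (cons (fin 910 0 910)
(mv 1038 (cons (fin 1039 2 973)
(mv 915 (cons (fin 916 1 912)
(mv 851 (cons (fin 850 2 847)
(fin 852 2 848)))))))))))
(mv 974 (cons (fin 975 1 910)
(mv 978 (cons (fin 979 0 911)
(mv 910 (cons (fin 973 1 909)
(fin 977 0 910))))))))))))))))))))
(cons (mv 1168 (cons (cons (mv 1231 (cons (fin 1167 5 975)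
(mv 1232 (cons (fin 1295 5 1039)
(mv 1233 (cons (fin 1297 4 1040)
(fin 1169 4 976)))))))
(mv 1233 (cons (fin 1169 4 976)
(mv 1232 (cons (fin 1297 4 1040)
(mv 975 (cons (fin 1039 7 975)
(fin 911 7 911))))))))
(cons (mv 1231 (cons (fin 1167 5 975)
(mv 1232 (cons (fin 1295 5 1039)
(mv 975 (cons (fin 1039 7 975)
(fin 911 7 911)))))))
(mv 1233 (cons (fin 1169 4 976)
(mv 1167 (cons (fin 1231 5 975)
(mv 975 (cons (fin 911 7 911)
(mv 912 (cons (fin 1103 5 911)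
(mv 849 (cons (fin 913 6 848)
(mv 848 (cons (fin 785 6 784)
(mv 783 (cons (fin 847 7 783)
(mv 784 (cons (fin 1039 5 783)
(fin 719 7 719))))))))))))))))))))
(mv 1168 (cons (cons (mv 1231 (cons (fin 1167 5 975)
(mv 1232 (cons (fin 1295 5 1039)
(mv 1233 (cons (fin 1297 4 1040)
(fin 1169 4 976)))))))
(mv 1233 (cons (fin 1169 4 976)
(mv 1232 (cons (fin 1297 4 1040)
(mv 1295 (cons (fin 1231 5 1039)
(mv 1359 (cons (fin 1296 5 1103)
(mv 1039 (cons (fin 975 7 975)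
(mv 977 (cons (fin 1038 2 973)
(fin 913 6 912))))))))))))))
(cons (mv 1233 (cons (fin 1169 4 976)
(mv 1232 (cons (fin 1297 4 1040)
(mv 1039 (cons (fin 975 7 975)
(mv 977 (cons (fin 1038 2 973)
(fin 913 6 912)))))))))
(cons (mv 1231 (cons (fin 1167 5 975)
(mv 1232 (cons (fin 1295 5 1039)
(mv 1039 (cons (fin 975 7 975)
(mv 977 (cons (fin 1038 2 973)
(fin 913 6 912)))))))))
(mv 1233 (cons (fin 1169 4 976)
(mv 1167 (cons (fin 1231 5 975)
(mv 1103 (cons (fin 912 5 911)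
(mv 977 (cons (fin 913 6 912)
(mv 1038 (cons (fin 1039 2 973)
(mv 974 (cons (fin 975 1 973)
(mv 1102 (cons (fin 910 4 910)
(mv 1101 (cons (fin 1036 3 1036)
(fin 1100 0 1100)))))))))))))))))))))))
(cons (cons (mv 1168 (cons (cons (mv 1233 (cons (fin 1169 4 976)
(mv 1297 (cons (fin 1232 4 1040)
(mv 975 (cons (fin 911 7 911)
(mv 977 (cons (fin 913 6 912)
(mv 1038 (cons (fin 974 1 973)
(fin 1039 2 973)))))))))))
(cons (mv 1233 (cons (fin 1169 4 976)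
(mv 1232 (cons (fin 1297 4 1040)
(mv 1295 (cons (fin 1231 5 1039)
(mv 1296 (cons (fin 1359 5 1103)
(mv 1293 (cons (fin 1294 2 1229)
(mv 1234 (cons (fin 1235 1 1231)
(mv 1039 (cons (fin 1103 7 1039)
(mv 977 (cons (fin 1038 2 973)
(fin 913 6 912)))))))))))))))))
(mv 1233 (cons (fin 1169 4 976)
(mv 1232 (cons (fin 1297 4 1040)
(mv 975 (cons (fin 1039 7 975)
(fin 911 7 911)))))))))
(cons (mv 975 (cons (fin 911 7 911)
(mv 1232 (cons (fin 1039 7 975)
(mv 1295 (cons (fin 1231 5 1039)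
(mv 1359 (cons (fin 1296 5 1103)
(mv 977 (cons (fin 913 6 912)
(mv 974 (cons (fin 1038 1 973)
(mv 973 (cons (fin 1036 1 972)
(mv 909 (cons (fin 908 3 908)
(fin 910 3 909)))))))))))))))))
(cons (mv 1233 (cons (fin 1169 4 976)
(mv 975 (cons (fin 911 7 911)
(mv 977 (cons (fin 913 6 912)
(mv 1038 (cons (fin 974 1 973)
(fin 1039 2 973)))))))))
(mv 1233 (cons (fin 1169 4 976)
(mv 1297 (cons (fin 1232 4 1040)
(mv 975 (cons (fin 911 7 911)
(mv 977 (cons (fin 913 6 912)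
(mv 974 (cons (fin 1038 1 973)
(mv 973 (cons (fin 1036 1 972)
(mv 909 (cons (fin 908 3 908)
(fin 910 3 909)))))))))))))))))))
(mv 1168 (cons (cons (mv 1231 (cons (fin 1167 5 975)
(mv 1232 (cons (fin 1295 5 1039)
(mv 1233 (cons (fin 1297 4 1040)
(fin 1169 4 976)))))))
(mv 1233 (cons (fin 1169 4 976)
(mv 1232 (cons (fin 1297 4 1040)
(mv 975 (cons (fin 1039 7 975)
(fin 911 7 911))))))))
(cons (mv 1231 (cons (fin 1167 5 975)
(mv 1232 (cons (fin 1295 5 1039)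
(mv 975 (cons (fin 1039 7 975)
(fin 911 7 911)))))))
(mv 1233 (cons (fin 1169 4 976)
(mv 1167 (cons (fin 1231 5 975)
(mv 911 (cons (fin 975 7 911)
(mv 912 (cons (fin 1103 5 911)
(fin 847 7 847)))))))))))))
(cons (mv 1168 (cons (cons (mv 1231 (cons (fin 1167 5 975)
(mv 1295 (cons (fin 1232 5 1039)
(mv 1233 (cons (fin 1169 4 976)
(mv 975 (cons (fin 911 7 911)
(mv 977 (cons (fin 913 6 912)
(mv 974 (cons (fin 1038 1 973)
(mv 973 (cons (fin 1036 1 972)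
(mv 909 (cons (fin 908 3 908)
(fin 910 3 909)))))))))))))))))
(mv 1233 (cons (fin 1169 4 976)
(mv 1297 (cons (fin 1232 4 1040)
(mv 975 (cons (fin 911 7 911)
(mv 977 (cons (fin 913 6 912)
(mv 974 (cons (fin 1038 1 973)
(mv 973 (cons (fin 1036 1 972)
(mv 909 (cons (fin 908 3 908)
(fin 910 3 909))))))))))))))))
(cons (mv 1231 (cons (fin 1167 5 975)
(mv 1295 (cons (fin 1232 5 1039)
(mv 975 (cons (fin 911 7 911)
(mv 977 (cons (fin 913 6 912)
(mv 974 (cons (fin 1038 1 973)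
(mv 973 (cons (fin 1036 1 972)
(mv 909 (cons (fin 908 3 908)
(fin 910 3 909)))))))))))))))
(cons (mv 1231 (cons (fin 1167 5 975)
(mv 1232 (cons (fin 1295 5 1039)
(mv 1233 (cons (fin 1297 4 1040)
(fin 1169 4 976)))))))
(mv 1231 (cons (fin 1167 5 975)
(mv 1233 (cons (fin 1169 4 976)
(mv 975 (cons (fin 911 7 911)
(mv 977 (cons (fin 913 6 912)
(mv 974 (cons (fin 1038 1 973)
(mv 973 (cons (fin 1036 1 972)
(mv 909 (cons (fin 908 3 908)
(fin 910 3 909)))))))))))))))))))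
(mv 912 (cons (cons (mv 1167 (cons (fin 1103 5 911)
(mv 1231 (cons (fin 1168 5 975)
(mv 847 (cons (fin 911 7 847)
(mv 848 (cons (fin 783 7 783)
(mv 849 (cons (fin 913 6 848)
(fin 785 6 784)))))))))))
(mv 911 (cons (fin 847 7 847)
(mv 913 (cons (fin 849 6 848)
(mv 1168 (cons (fin 977 6 912)
(mv 1231 (cons (fin 1167 5 975)
(mv 1232 (cons (fin 1295 5 1039)
(mv 1233 (cons (fin 1297 4 1040)
(fin 1169 4 976))))))))))))))
(cons (mv 1103 (cons (fin 1167 5 911)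
(mv 1039 (cons (fin 848 5 847)
(mv 1038 (cons (fin 1036 0 1036)
(fin 977 2 973)))))))
(mv 911 (cons (fin 847 7 847)
(mv 913 (cons (fin 849 6 848)
(mv 977 (cons (fin 1168 6 912)
(mv 978 (cons (fin 979 3 911)
(fin 910 0 910))))))))))))))))
(mv 1103 (cons (cons (mv 1038 (cons (cons (mv 1105 (cons (fin 1102 3 1037)
(fin 1039 0 1037)))
(mv 1102 (cons (fin 1105 3 1037)
(mv 1036 (cons (fin 1101 3 1036)
(fin 1035 0 1035))))))
(cons (mv 1036 (cons (fin 1039 0 1036)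
(mv 1102 (cons (fin 1101 3 1036)
(fin 1035 0 1035)))))
(mv 1039 (cons (fin 1036 0 1036)
(fin 1105 0 1037))))))
(cons (mv 1168 (cons (cons (cons (mv 1232 (cons (mv 1039 (cons (fin 1296 7 1039)
(fin 975 7 975)))
(cons (mv 1295 (cons (fin 1231 5 1039)
(mv 1296 (cons (fin 1359 5 1103)
(mv 1297 (cons (fin 1361 4 1104)
(fin 1233 4 1040)))))))
(mv 1297 (cons (fin 1233 4 1040)
(mv 1231 (cons (fin 1295 5 1039)
(mv 1039 (cons (fin 975 7 975)
(mv 1169 (cons (cons (mv 1229 (cons (fin 1230 2 1165)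
(mv 1170 (cons (fin 1171 1 1167)
(mv 1102 (cons (fin 1167 3 1102)
(fin 1101 0 1101)))))))
(mv 1230 (cons (fin 1229 2 1165)
(mv 1294 (cons (fin 1167 5 1038)
(mv 1102 (cons (fin 1101 0 1101)
(fin 1166 6 1038))))))))
(cons (mv 1230 (cons (fin 1229 2 1165)
(mv 1167 (cons (fin 1170 1 1166)
(fin 1294 5 1038)))))
(cons (mv 1170 (cons (fin 1171 1 1167)
(mv 1102 (cons (fin 1167 3 1102)
(fin 1101 0 1101)))))
(mv 1229 (cons (fin 1230 2 1165)
(mv 1170 (cons (fin 1171 1 1167)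
(mv 1102 (cons (fin 1101 0 1101)
(fin 1105 0 1102))))))))))))))))))))
(mv 1102 (cons (mv 1101 (cons (fin 1036 3 1036)
(fin 1169 0 1101)))
(cons (mv 1105 (cons (cons (mv 1165 (cons (fin 1166 1 1101)
(mv 1170 (cons (fin 1169 0 1102)
(mv 1106 (cons (fin 1171 0 1103)
(mv 1107 (cons (fin 1167 1 1103)
(fin 1039 3 1039)))))))))
(cons (mv 1166 (cons (fin 1165 1 1101)
(mv 1106 (cons (fin 1167 1 1102)
(mv 1170 (cons (fin 1171 0 1103)
(mv 1107 (cons (fin 1039 3 1039)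
(mv 1043 (cons (fin 1042 2 1039)
(fin 1044 2 1040)))))))))))
(mv 1166 (cons (fin 1165 1 1101)
(mv 1106 (cons (fin 1167 1 1102)
(mv 1107 (cons (fin 1039 3 1039)
(mv 1043 (cons (fin 1042 2 1039)
(fin 1044 2 1040)))))))))))
(cons (mv 1170 (cons (fin 1169 0 1102)
(mv 1106 (cons (fin 1171 0 1103)
(mv 1107 (cons (fin 1167 1 1103)
(fin 1039 3 1039)))))))
(cons (mv 1166 (cons (fin 1165 1 1101)
(mv 1169 (cons (fin 1170 0 1102)
(mv 1233 (cons (fin 1297 7 1040)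
(mv 1167 (cons (fin 1234 0 1166)
(mv 1295 (cons (fin 1231 6 1039)
(mv 1230 (cons (fin 1229 1 1165)
(mv 1294 (cons (fin 1359 4 1102)
(fin 1358 6 1102)))))))))))))))
(mv 1165 (cons (fin 1166 1 1101)
(mv 1170 (cons (fin 1169 0 1102)
(mv 1106 (cons (fin 1171 0 1103)
(mv 1107 (cons (fin 1039 3 1039)
(mv 1043 (cons (fin 1042 2 1039)
(fin 1044 2 1040)))))))))))))))
(mv 1101 (cons (fin 1036 3 1036)
(mv 1100 (cons (fin 1167 0 1100)
(fin 1039 2 1036)))))))))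
(cons (mv 1169 (cons (cons (mv 1170 (cons (fin 1171 3 1103)
(mv 1102 (cons (fin 1167 3 1102)
(fin 1101 0 1101)))))
(mv 1170 (cons (fin 1171 3 1103)
(mv 1167 (cons (mv 1231 (cons (fin 1230 1 1166)
(fin 1295 6 1039)))
(mv 1234 (cons (fin 1235 0 1167)
(mv 1233 (cons (fin 1166 0 1166)
(mv 1297 (cons (fin 1361 7 1104)
(fin 1105 7 1040))))))))))))
(cons (mv 1101 (cons (fin 1102 0 1101)
(mv 1232 (cons (cons (mv 1295 (cons (fin 1231 5 1039)
(mv 1296 (cons (fin 1359 5 1103)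
(mv 1360 (cons (fin 1167 7 1103)
(fin 1105 6 1104)))))))
(mv 1297 (cons (fin 1233 4 1040)
(mv 1296 (cons (fin 1361 4 1104)
(mv 1360 (cons (fin 1167 7 1103)
(fin 1105 6 1104))))))))
(cons (mv 1231 (cons (fin 1295 5 1039)
(mv 1230 (cons (fin 1229 2 1165)
(mv 1233 (cons (fin 1297 4 1040)
(mv 1293 (cons (fin 1294 1 1229)
(mv 1166 (cons (fin 1165 3 1165)
(mv 1234 (cons (fin 1167 3 1166)
(mv 1299 (cons (fin 1298 0 1231)
(mv 1235 (cons (fin 1236 3 1168)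
(fin 1300 0 1232)))))))))))))))))
(mv 1295 (cons (fin 1231 5 1039)
(mv 1296 (cons (fin 1359 5 1103)
(mv 1297 (cons (fin 1361 4 1104)
(fin 1233 4 1040))))))))))))
(mv 1170 (cons (fin 1171 3 1103)
(mv 1102 (cons (fin 1101 0 1101)
(fin 1105 0 1102))))))))
(cons (mv 1232 (cons (mv 1039 (cons (fin 1296 7 1039)
(fin 975 7 975)))
(cons (mv 1295 (cons (fin 1231 5 1039)
(mv 1296 (cons (fin 1359 5 1103)
(mv 1297 (cons (fin 1361 4 1104)
(fin 1233 4 1040)))))))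
(mv 1231 (cons (fin 1295 5 1039)
(mv 1233 (cons (fin 1297 4 1040)
(mv 1039 (cons (fin 975 7 975)
(mv 1230 (cons (mv 1294 (cons (fin 1293 1 1229)
(fin 1167 5 1038)))
(mv 1169 (cons (fin 1229 2 1165)
(fin 1170 2 1166))))))))))))))
(mv 1232 (cons (mv 1039 (cons (fin 1296 7 1039)
(fin 975 7 975)))
(cons (mv 1295 (cons (fin 1231 5 1039)
(mv 1296 (cons (fin 1359 5 1103)
(mv 1297 (cons (fin 1361 4 1104)
(fin 1233 4 1040)))))))
(mv 1231 (cons (fin 1295 5 1039)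
(mv 1233 (cons (fin 1297 4 1040)
(mv 1039 (cons (fin 975 7 975)
(mv 1234 (cons (mv 1167 (cons (fin 1166 3 1166)
(fin 1235 3 1167)))
(cons (mv 1299 (cons (fin 1298 0 1231)
(mv 1235 (cons (fin 1300 0 1232)
(mv 1171 (cons (fin 1170 2 1167)
(fin 1172 2 1168)))))))
(mv 1298 (cons (fin 1299 0 1231)
(mv 1166 (cons (fin 1167 3 1166)
(mv 1230 (cons (fin 1165 3 1165)
(mv 1294 (cons (fin 1293 1 1229)
(fin 1102 6 1038))))))))))))))))))))))))
(cons (cons (mv 1102 (cons (mv 1101 (cons (fin 1036 3 1036)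
(fin 1169 0 1101)))
(cons (mv 1105 (cons (cons (mv 1165 (cons (fin 1166 1 1101)
(mv 1170 (cons (fin 1169 0 1102)
(mv 1106 (cons (fin 1171 0 1103)
(mv 1107 (cons (fin 1167 1 1103)
(fin 1039 3 1039)))))))))
(cons (mv 1166 (cons (fin 1165 1 1101)
(mv 1106 (cons (fin 1167 1 1102)
(mv 1170 (cons (fin 1171 0 1103)
(mv 1107 (cons (fin 1039 3 1039)
(mv 1043 (cons (fin 1042 2 1039)
(fin 1044 2 1040)))))))))))
(mv 1166 (cons (fin 1165 1 1101)
(mv 1106 (cons (fin 1167 1 1102)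
(mv 1107 (cons (fin 1039 3 1039)
(mv 1043 (cons (fin 1042 2 1039)
(fin 1044 2 1040)))))))))))
(cons (cons (mv 1170 (cons (fin 1169 0 1102)
(mv 1106 (cons (fin 1171 0 1103)
(mv 1107 (cons (fin 1167 1 1103)
(fin 1039 3 1039)))))))
(mv 1166 (cons (fin 1165 1 1101)
(mv 1169 (cons (fin 1170 0 1102)
(mv 1233 (cons (fin 1297 7 1040)
(mv 1167 (cons (fin 1234 0 1166)
(mv 1230 (cons (fin 1229 1 1165)
(mv 1294 (cons (fin 1358 6 1102)
(fin 1039 6 1038))))))))))))))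
(cons (mv 1165 (cons (fin 1166 1 1101)
(mv 1170 (cons (fin 1169 0 1102)
(mv 1106 (cons (fin 1171 0 1103)
(mv 1107 (cons (fin 1039 3 1039)
(mv 1043 (cons (fin 1042 2 1039)
(fin 1044 2 1040)))))))))))
(mv 1165 (cons (fin 1166 1 1101)
(mv 1170 (cons (fin 1169 0 1102)
(mv 1106 (cons (fin 1171 0 1103)
(mv 1107 (cons (fin 1167 1 1103)
(mv 1043 (cons (fin 1042 2 1039)
(fin 1044 2 1040)))))))))))))))
(mv 1101 (cons (fin 1036 3 1036)
(mv 1100 (cons (fin 1167 0 1100)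
(fin 1039 2 1036))))))))
(cons (mv 1232 (cons (mv 1039 (cons (fin 1296 7 1039)
(fin 975 7 975)))
(cons (mv 1295 (cons (fin 1231 5 1039)
(mv 1296 (cons (fin 1359 5 1103)
(mv 1297 (cons (fin 1361 4 1104)
(fin 1233 4 1040)))))))
(mv 1231 (cons (fin 1295 5 1039)
(mv 1233 (cons (fin 1297 4 1040)
(mv 1039 (cons (fin 975 7 975)
(mv 1169 (cons (mv 1230 (cons (fin 1229 2 1165)
(fin 1170 2 1166)))
(cons (mv 1230 (cons (fin 1229 2 1165)
(mv 1294 (cons (fin 1293 1 1229)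
(mv 1166 (cons (fin 1165 3 1165)
(fin 1102 6 1038)))))))
(mv 1170 (cons (fin 1171 1 1167)
(mv 1102 (cons (fin 1101 0 1101)
(fin 1105 0 1102)))))))))))))))))
(mv 1232 (cons (mv 1039 (cons (fin 1296 7 1039)
(fin 975 7 975)))
(cons (mv 1295 (cons (fin 1231 5 1039)
(mv 1296 (cons (fin 1359 5 1103)
(mv 1297 (cons (fin 1361 4 1104)
(fin 1233 4 1040)))))))
(mv 1297 (cons (fin 1233 4 1040)
(mv 1231 (cons (fin 1295 5 1039)
(mv 1039 (cons (fin 975 7 975)
(mv 1230 (cons (cons (mv 1294 (cons (fin 1167 5 1038)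
(mv 1229 (cons (fin 1169 2 1165)
(mv 1165 (cons (fin 1164 3 1164)
(fin 1101 4 1037)))))))
(mv 1294 (cons (fin 1167 5 1038)
(mv 1102 (cons (fin 1166 6 1038)
(mv 1101 (cons (fin 1036 3 1036)
(fin 1169 0 1101))))))))
(cons (mv 1229 (cons (fin 1169 2 1165)
(mv 1292 (cons (fin 1293 1 1228)
(mv 1291 (cons (fin 1228 1 1227)
(mv 1165 (cons (fin 1164 3 1164)
(mv 1294 (cons (fin 1101 4 1037)
(mv 1358 (cons (fin 1422 7 1165)
(mv 1166 (cons (fin 1102 6 1038)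
(mv 1357 (cons (fin 1421 5 1165)
(mv 1359 (cons (fin 1356 3 1291)
(fin 1423 4 1166)))))))))))))))))))
(cons (mv 1229 (cons (fin 1169 2 1165)
(mv 1292 (cons (fin 1293 1 1228)
(mv 1228 (cons (fin 1291 1 1227)
(fin 1167 2 1164)))))))
(mv 1294 (cons (fin 1167 5 1038)
(mv 1102 (cons (fin 1166 6 1038)
(mv 1101 (cons (fin 1036 3 1036)
(fin 1100 2 1036))))))))))))))))))))))
(cons (mv 1232 (cons (mv 1039 (cons (fin 1296 7 1039)
(fin 975 7 975)))
(cons (mv 1295 (cons (fin 1231 5 1039)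
(mv 1296 (cons (fin 1359 5 1103)
(mv 1360 (cons (fin 1167 7 1103)
(mv 1425 (cons (fin 1361 4 1168)
(mv 1424 (cons (fin 1489 4 1232)
(mv 1169 (cons (fin 1233 6 1168)
(fin 1105 6 1104)))))))))))))
(mv 1231 (cons (fin 1295 5 1039)
(mv 1039 (cons (fin 975 7 975)
(mv 1169 (cons (cons (mv 1229 (cons (fin 1230 2 1165)
(mv 1170 (cons (fin 1171 1 1167)
(mv 1102 (cons (fin 1167 3 1102)
(fin 1101 0 1101)))))))
(mv 1230 (cons (fin 1229 2 1165)
(mv 1294 (cons (fin 1167 5 1038)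
(mv 1102 (cons (fin 1101 0 1101)
(fin 1166 6 1038))))))))
(cons (mv 1230 (cons (fin 1229 2 1165)
(mv 1167 (cons (fin 1170 1 1166)
(fin 1294 5 1038)))))
(cons (mv 1170 (cons (fin 1171 1 1167)
(mv 1102 (cons (fin 1167 3 1102)
(fin 1101 0 1101)))))
(mv 1229 (cons (fin 1230 2 1165)
(mv 1170 (cons (fin 1171 1 1167)
(mv 1102 (cons (fin 1101 0 1101)
(fin 1105 0 1102))))))))))))))))))
(cons (mv 1232 (cons (mv 1039 (cons (fin 1296 7 1039)
(fin 975 7 975)))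
(cons (mv 1295 (cons (fin 1231 5 1039)
(mv 1296 (cons (fin 1359 5 1103)
(mv 1360 (cons (fin 1167 7 1103)
(mv 1361 (cons (fin 1425 4 1168)
(fin 1297 4 1104)))))))))
(mv 1231 (cons (fin 1295 5 1039)
(mv 1039 (cons (fin 975 7 975)
(mv 1169 (cons (cons (mv 1229 (cons (fin 1230 2 1165)
(mv 1170 (cons (fin 1171 1 1167)
(mv 1102 (cons (fin 1167 3 1102)
(fin 1101 0 1101)))))))
(mv 1230 (cons (fin 1229 2 1165)
(mv 1294 (cons (fin 1167 5 1038)
(mv 1102 (cons (fin 1101 0 1101)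
(fin 1166 6 1038))))))))
(cons (mv 1230 (cons (fin 1229 2 1165)
(mv 1167 (cons (fin 1170 1 1166)
(fin 1294 5 1038)))))
(cons (mv 1170 (cons (fin 1171 1 1167)
(mv 1102 (cons (fin 1167 3 1102)
(fin 1101 0 1101)))))
(mv 1229 (cons (fin 1230 2 1165)
(mv 1170 (cons (fin 1171 1 1167)
(mv 1102 (cons (fin 1101 0 1101)
(fin 1105 0 1102))))))))))))))))))
(mv 1232 (cons (mv 1039 (cons (fin 1296 7 1039)
(fin 975 7 975)))
(cons (mv 1295 (cons (fin 1231 5 1039)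
(mv 1296 (cons (fin 1359 5 1103)
(mv 1297 (cons (fin 1361 4 1104)
(fin 1233 4 1040)))))))
(mv 1231 (cons (fin 1295 5 1039)
(mv 1233 (cons (fin 1297 4 1040)
(mv 1039 (cons (fin 975 7 975)
(mv 1234 (cons (mv 1167 (cons (fin 1166 3 1166)
(fin 1235 3 1167)))
(cons (mv 1299 (cons (fin 1298 0 1231)
(mv 1235 (cons (fin 1300 0 1232)
(mv 1171 (cons (fin 1170 2 1167)
(fin 1172 2 1168)))))))
(mv 1298 (cons (fin 1299 0 1231)
(mv 1167 (cons (fin 1166 3 1166)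
(mv 1170 (cons (fin 1171 2 1167)
(mv 1169 (cons (fin 1102 3 1102)
(mv 1362 (cons (fin 1426 7 1169)
(fin 1105 7 1105))))))))))))))))))))))))))))
(mv 1102 (cons (cons (mv 1101 (cons (fin 1036 3 1036)
(mv 1164 (cons (fin 1165 1 1100)
(mv 1163 (cons (fin 1100 1 1099)
(mv 1169 (cons (fin 1168 0 1101)
(mv 1105 (cons (fin 1038 3 1037)
(fin 1170 0 1102)))))))))))
(cons (mv 1105 (cons (fin 1038 3 1037)
(mv 1166 (cons (fin 1165 1 1101)
(mv 1167 (cons (fin 1106 1 1102)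
(mv 1295 (cons (fin 1231 6 1039)
(mv 1169 (cons (fin 1170 0 1102)
(mv 1233 (cons (fin 1297 7 1040)
(mv 1168 (cons (fin 1234 0 1166)
(mv 1230 (cons (fin 1229 1 1165)
(mv 1294 (cons (fin 1359 4 1102)
(fin 1358 6 1102)))))))))))))))))))
(mv 1101 (cons (fin 1036 3 1036)
(mv 1164 (cons (fin 1165 1 1100)
(mv 1168 (cons (fin 1169 0 1101)
(mv 1100 (cons (fin 1163 1 1099)
(fin 1167 0 1100)))))))))))
(cons (mv 1101 (cons (fin 1036 3 1036)
(mv 1164 (cons (fin 1165 1 1100)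
(mv 1100 (cons (fin 1163 1 1099)
(mv 1292 (cons (fin 1228 6 1036)
(mv 1167 (cons (fin 1168 0 1100)
(mv 1295 (cons (fin 1231 6 1039)
(mv 1166 (cons (fin 1099 0 1099)
(mv 1105 (cons (fin 1106 1 1102)
(fin 1038 3 1037)))))))))))))))))
(cons (mv 1101 (cons (fin 1036 3 1036)
(mv 1168 (cons (fin 1169 0 1101)
(mv 1167 (cons (fin 1100 0 1100)
(mv 1295 (cons (fin 1231 6 1039)
(mv 1105 (cons (fin 1038 3 1037)
(mv 1106 (cons (fin 1166 1 1102)
(fin 1107 1 1103)))))))))))))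
(mv 1101 (cons (fin 1036 3 1036)
(mv 1164 (cons (fin 1165 1 1100)
(mv 1100 (cons (fin 1163 1 1099)
(mv 1292 (cons (fin 1228 6 1036)
(mv 1038 (cons (fin 1105 3 1037)
(mv 1099 (cons (fin 1098 2 1034)
(mv 1166 (cons (fin 1167 0 1099)
(mv 1230 (cons (fin 1294 7 1037)
(fin 973 7 973)))))))))))))))))))))))
(cons (cons (mv 1039 (cons (cons (cons (mv 1036 (cons (fin 1038 0 1036)
(mv 1101 (cons (fin 1102 3 1036)
(mv 975 (cons (mv 1168 (cons (fin 1232 7 975)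
(fin 911 4 911)))
(cons (mv 911 (cons (fin 847 4 847)
(mv 910 (cons (fin 846 7 846)
(mv 1167 (cons (fin 974 7 910)
(mv 1230 (cons (fin 1166 5 974)
(mv 1231 (cons (fin 1294 5 1038)
(fin 1295 6 1039)))))))))))
(mv 1167 (cons (cons (mv 1295 (cons (fin 1231 6 1039)
(mv 1166 (cons (fin 1230 5 974)
(mv 1165 (cons (fin 1164 2 1100)
(mv 1168 (cons (fin 1100 3 1100)
(fin 1232 7 975)))))))))
(mv 1230 (cons (fin 1166 5 974)
(mv 1231 (cons (fin 1294 5 1038)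
(fin 1295 6 1039))))))
(cons (mv 1166 (cons (fin 1230 5 974)
(mv 1165 (cons (fin 1164 2 1100)
(mv 1168 (cons (fin 1100 3 1100)
(fin 1232 7 975)))))))
(mv 1231 (cons (fin 1295 6 1039)
(mv 1232 (cons (fin 1168 7 975)
(fin 1296 4 1039)))))))))))))))
(mv 975 (cons (mv 1168 (cons (fin 1232 7 975)
(fin 911 4 911)))
(cons (mv 1167 (cons (cons (mv 1295 (cons (fin 1231 6 1039)
(mv 1166 (cons (fin 1230 5 974)
(mv 1165 (cons (fin 1164 2 1100)
(mv 1168 (cons (fin 1232 7 975)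
(mv 1228 (cons (fin 1229 1 1164)
(mv 1101 (cons (fin 1100 3 1100)
(mv 1102 (cons (fin 1169 3 1101)
(fin 1036 3 1036)))))))))))))))
(mv 1230 (cons (fin 1166 5 974)
(mv 1231 (cons (fin 1294 5 1038)
(fin 1295 6 1039))))))
(cons (mv 1166 (cons (fin 1230 5 974)
(mv 1165 (cons (fin 1164 2 1100)
(mv 1168 (cons (fin 1232 7 975)
(mv 1228 (cons (fin 1229 1 1164)
(mv 1101 (cons (fin 1100 3 1100)
(mv 1102 (cons (fin 1169 3 1101)
(fin 1036 3 1036)))))))))))))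
(mv 1231 (cons (fin 1295 6 1039)
(mv 1232 (cons (fin 1168 7 975)
(fin 1296 4 1039))))))))
(mv 911 (cons (fin 847 4 847)
(mv 1166 (cons (fin 1102 5 910)
(mv 1167 (cons (fin 1230 5 974)
(mv 910 (cons (fin 974 7 910)
(fin 846 7 846)))))))))))))
(cons (mv 975 (cons (mv 1168 (cons (fin 1232 7 975)
(fin 911 4 911)))
(cons (mv 1168 (cons (fin 1232 7 975)
(mv 1167 (cons (mv 1295 (cons (fin 1231 6 1039)
(mv 1166 (cons (fin 1230 5 974)
(mv 1165 (cons (fin 1164 2 1100)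
(mv 1228 (cons (fin 1229 1 1164)
(mv 1101 (cons (fin 1100 3 1100)
(mv 1169 (cons (fin 1102 3 1101)
(mv 1234 (cons (fin 1233 0 1166)
(mv 1170 (cons (fin 1171 3 1103)
(fin 1235 0 1167)))))))))))))))))
(cons (mv 1166 (cons (fin 1230 5 974)
(mv 1165 (cons (fin 1164 2 1100)
(mv 1228 (cons (fin 1229 1 1164)
(mv 1101 (cons (fin 1100 3 1100)
(mv 1169 (cons (fin 1102 3 1101)
(mv 1234 (cons (fin 1233 0 1166)
(mv 1170 (cons (fin 1171 3 1103)
(fin 1235 0 1167)))))))))))))))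
(mv 1231 (cons (fin 1295 6 1039)
(mv 974 (cons (fin 1038 7 974)
(fin 910 7 910))))))))))
(mv 911 (cons (fin 847 4 847)
(mv 1166 (cons (fin 1102 5 910)
(mv 1167 (cons (fin 1230 5 974)
(mv 910 (cons (fin 974 7 910)
(fin 846 7 846))))))))))))
(cons (mv 1038 (cons (fin 1036 0 1036)
(mv 1101 (cons (fin 1100 1 1036)
(mv 974 (cons (cons (mv 1229 (cons (fin 1165 6 973)
(mv 1167 (cons (fin 1231 7 974)
(mv 910 (cons (fin 846 5 845)
(fin 1102 4 910)))))))
(mv 1231 (cons (fin 1167 7 974)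
(mv 1165 (cons (fin 1229 6 973)
(mv 1102 (cons (fin 1164 1 1100)
(mv 1168 (cons (fin 1169 0 1101)
(mv 1232 (cons (fin 1295 5 1039)
(fin 1296 7 1039))))))))))))
(cons (mv 1167 (cons (fin 1231 7 974)
(mv 910 (cons (fin 846 5 845)
(fin 1102 4 910)))))
(cons (mv 1165 (cons (fin 1229 6 973)
(mv 1102 (cons (fin 1164 1 1100)
(fin 910 5 909)))))
(mv 1231 (cons (fin 1167 7 974)
(mv 1165 (cons (fin 1229 6 973)
(mv 910 (cons (fin 846 5 845)
(fin 973 6 909)))))))))))))))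
(mv 1038 (cons (fin 1036 0 1036)
(mv 1101 (cons (fin 1100 1 1036)
(mv 974 (cons (cons (mv 1229 (cons (fin 1165 6 973)
(mv 1167 (cons (fin 1231 7 974)
(mv 910 (cons (fin 846 5 845)
(fin 975 7 910)))))))
(mv 1165 (cons (fin 1229 6 973)
(mv 1164 (cons (fin 1102 1 1100)
(mv 1167 (cons (fin 1166 2 1100)
(fin 1231 7 974))))))))
(cons (mv 1167 (cons (fin 1231 7 974)
(mv 910 (cons (fin 846 5 845)
(fin 975 7 910)))))
(mv 1165 (cons (fin 1229 6 973)
(mv 1102 (cons (fin 1164 1 1100)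
(fin 910 5 909)))))))))))))))
(cons (cons (mv 1038 (cons (fin 1036 0 1036)
(mv 975 (cons (mv 1168 (cons (fin 1232 7 975)
(fin 911 4 911)))
(cons (mv 1168 (cons (fin 1232 7 975)
(mv 1167 (cons (mv 1231 (cons (fin 974 7 974)
(fin 1295 6 1039)))
(cons (mv 1166 (cons (fin 1230 5 974)
(mv 1165 (cons (fin 1164 2 1100)
(mv 1229 (cons (fin 1228 1 1164)
(mv 974 (cons (fin 1102 5 973)
(fin 910 7 910)))))))))
(mv 1230 (cons (fin 1166 5 974)
(mv 1231 (cons (fin 1294 5 1038)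
(fin 1295 6 1039))))))))))
(mv 911 (cons (fin 847 4 847)
(mv 1166 (cons (fin 1102 5 910)
(mv 1167 (cons (fin 1230 5 974)
(mv 1231 (cons (fin 974 7 974)
(fin 1295 6 1039))))))))))))))
(mv 1038 (cons (fin 1036 0 1036)
(mv 1101 (cons (fin 1100 1 1036)
(mv 974 (cons (cons (mv 1229 (cons (fin 1165 6 973)
(mv 1167 (cons (fin 1231 7 974)
(mv 910 (cons (fin 846 5 845)
(fin 975 7 910)))))))
(mv 1165 (cons (fin 1229 6 973)
(mv 1167 (cons (fin 1231 7 974)
(mv 1166 (cons (fin 1164 2 1100)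
(mv 1230 (cons (fin 975 5 974)
(fin 973 4 973))))))))))
(cons (mv 1165 (cons (fin 1229 6 973)
(mv 910 (cons (fin 846 5 845)
(fin 973 6 909)))))
(mv 1167 (cons (fin 1231 7 974)
(mv 910 (cons (fin 846 5 845)
(fin 975 7 910)))))))))))))
(cons (mv 1038 (cons (fin 1036 0 1036)
(mv 1101 (cons (fin 1100 1 1036)
(mv 1168 (cons (mv 1232 (cons (fin 1296 7 1039)
(fin 975 7 975)))
(mv 1102 (cons (fin 1169 0 1101)
(mv 1165 (cons (fin 1164 1 1100)
(mv 1229 (cons (fin 1293 6 1037)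
(fin 974 6 973)))))))))))))
(cons (mv 1038 (cons (fin 1036 0 1036)
(mv 1101 (cons (fin 1100 1 1036)
(mv 1168 (cons (mv 1232 (cons (fin 1296 7 1039)
(fin 975 7 975)))
(cons (mv 1102 (cons (fin 1169 0 1101)
(mv 1165 (cons (fin 1164 1 1100)
(mv 1229 (cons (fin 1293 6 1037)
(mv 1292 (cons (fin 1228 5 1036)
(mv 1230 (cons (fin 1294 4 1037)
(mv 1166 (cons (fin 973 7 973)
(fin 975 6 974)))))))))))))
(mv 1296 (cons (fin 1232 7 1039)
(mv 1102 (cons (fin 1169 0 1101)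
(mv 1165 (cons (fin 1164 1 1100)
(mv 1229 (cons (fin 1293 6 1037)
(mv 1228 (cons (fin 1292 5 1036)
(mv 1230 (cons (fin 1294 4 1037)
(mv 1231 (cons (fin 1295 0 1228)
(fin 1167 2 1164))))))))))))))))))))))
(mv 1038 (cons (fin 1036 0 1036)
(mv 1101 (cons (fin 1100 1 1036)
(mv 1168 (cons (mv 1232 (cons (fin 1296 7 1039)
(fin 975 7 975)))
(cons (mv 1169 (cons (fin 1102 0 1101)
(mv 1170 (cons (fin 1171 3 1103)
(mv 975 (cons (fin 911 4 911)
(mv 1167 (cons (mv 1230 (cons (fin 1231 1 1166)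
(fin 1166 5 974)))
(cons (mv 1234 (cons (fin 1235 0 1167)
(mv 1166 (cons (fin 1233 0 1166)
(fin 1230 5 974)))))
(mv 1231 (cons (fin 974 7 974)
(fin 1295 6 1039))))))))))))
(mv 1232 (cons (fin 1296 7 1039)
(mv 1297 (cons (fin 1233 4 1040)
(mv 1231 (cons (fin 1295 5 1039)
(mv 1167 (cons (fin 974 7 974)
(mv 1230 (cons (fin 1294 5 1038)
(mv 1229 (cons (fin 1228 2 1164)
(fin 1169 2 1165)))))))))))))))))))))))))
(mv 1039 (cons (mv 1038 (cons (fin 1036 0 1036)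
(fin 1105 0 1037)))
(cons (mv 975 (cons (mv 1168 (cons (fin 1232 7 975)
(fin 911 4 911)))
(cons (mv 911 (cons (fin 847 4 847)
(mv 910 (cons (fin 846 7 846)
(mv 1167 (cons (fin 974 7 910)
(mv 1230 (cons (fin 1166 5 974)
(mv 1231 (cons (fin 1294 5 1038)
(fin 1295 6 1039)))))))))))
(mv 1167 (cons (cons (mv 1295 (cons (fin 1231 6 1039)
(mv 1166 (cons (fin 1230 5 974)
(mv 1165 (cons (fin 1164 2 1100)
(mv 1168 (cons (fin 1105 2 1101)
(fin 1232 7 975)))))))))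
(mv 1295 (cons (fin 1231 6 1039)
(mv 1166 (cons (fin 1230 5 974)
(mv 1165 (cons (fin 1164 2 1100)
(mv 1105 (cons (fin 1106 1 1102)
(fin 1168 2 1101))))))))))
(cons (mv 1230 (cons (fin 1166 5 974)
(mv 1231 (cons (fin 1294 5 1038)
(fin 1295 6 1039)))))
(cons (mv 1166 (cons (fin 1230 5 974)
(mv 1165 (cons (fin 1164 2 1100)
(mv 1168 (cons (fin 1105 2 1101)
(fin 1232 7 975)))))))
(mv 1231 (cons (fin 1295 6 1039)
(mv 1232 (cons (fin 1168 7 975)
(fin 1296 4 1039))))))))))))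
(mv 1038 (cons (fin 1036 0 1036)
(mv 1101 (cons (fin 1100 1 1036)
(mv 974 (cons (cons (mv 1229 (cons (fin 1165 6 973)
(mv 1167 (cons (fin 1231 7 974)
(mv 910 (cons (fin 846 5 845)
(fin 975 7 910)))))))
(mv 1165 (cons (fin 1229 6 973)
(mv 1167 (cons (fin 1231 7 974)
(mv 1166 (cons (fin 1164 2 1100)
(mv 1230 (cons (fin 975 5 974)
(fin 973 4 973))))))))))
(cons (mv 1165 (cons (fin 1229 6 973)
(mv 910 (cons (fin 846 5 845)
(fin 973 6 909)))))
(mv 1167 (cons (fin 1231 7 974)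
(mv 910 (cons (fin 846 5 845)
(fin 975 7 910))))))))))))))))
(cons (mv 1105 (cons (cons (mv 1038 (cons (fin 1102 3 1037)
(fin 1039 0 1037)))
(mv 1106 (cons (cons (mv 1166 (cons (fin 1167 1 1102)
(mv 1165 (cons (fin 1102 1 1101)
(mv 1170 (cons (fin 1171 0 1103)
(mv 1107 (cons (fin 1039 3 1039)
(mv 1043 (cons (fin 1042 2 1039)
(fin 1044 2 1040)))))))))))
(mv 1166 (cons (fin 1167 1 1102)
(mv 1170 (cons (fin 1171 0 1103)
(mv 1102 (cons (fin 1165 1 1101)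
(fin 1169 0 1102))))))))
(cons (mv 1170 (cons (fin 1171 0 1103)
(mv 1169 (cons (fin 1102 0 1102)
(mv 1297 (cons (fin 1233 7 1040)
(mv 1107 (cons (fin 1039 3 1039)
(mv 1108 (cons (fin 1168 1 1104)
(fin 1109 1 1105)))))))))))
(cons (mv 1166 (cons (fin 1167 1 1102)
(mv 1165 (cons (fin 1102 1 1101)
(mv 1107 (cons (fin 1039 3 1039)
(mv 1043 (cons (fin 1042 2 1039)
(fin 1044 2 1040)))))))))
(mv 1166 (cons (fin 1167 1 1102)
(mv 1170 (cons (fin 1171 0 1103)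
(mv 1107 (cons (fin 1039 3 1039)
(mv 1043 (cons (fin 1042 2 1039)
(fin 1044 2 1040))))))))))))))
(cons (mv 1102 (cons (fin 1038 3 1037)
(mv 1165 (cons (fin 1166 1 1101)
(mv 1169 (cons (fin 1170 0 1102)
(mv 1101 (cons (fin 1164 1 1100)
(fin 1168 0 1101)))))))))
(mv 1039 (cons (fin 1038 0 1037)
(mv 1106 (cons (fin 1107 3 1039)
(mv 1167 (cons (fin 1166 1 1102)
(mv 1231 (cons (fin 1295 6 1039)
(mv 1294 (cons (fin 1230 5 1038)
(mv 1232 (cons (fin 1296 4 1039)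
(mv 1168 (cons (fin 975 7 975)
(mv 1233 (cons (fin 1297 4 1040)
(mv 1234 (cons (fin 1235 3 1167)
(mv 1298 (cons (fin 1299 0 1231)
(mv 1170 (cons (fin 1171 0 1103)
(mv 1362 (cons (fin 1169 7 1105)
(mv 1425 (cons (fin 1361 5 1169)
(mv 1426 (cons (fin 1489 5 1233)
(mv 1427 (cons (fin 1491 4 1234)
(fin 1363 4 1170))))))))))))))))))))))))))))))))))
(mv 1038 (cons (cons (mv 1105 (cons (fin 1102 3 1037)
(fin 1039 0 1037)))
(mv 1102 (cons (fin 1105 3 1037)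
(mv 1035 (cons (fin 1036 0 1035)
(mv 1166 (cons (cons (mv 1230 (cons (fin 973 7 973)
(mv 1293 (cons (fin 1229 5 1037)
(mv 1294 (cons (fin 1357 5 1101)
(mv 1295 (cons (fin 1359 4 1102)
(fin 1231 4 1038)))))))))
(mv 974 (cons (mv 1167 (cons (fin 1231 4 974)
(fin 910 4 910)))
(cons (mv 1229 (cons (fin 1165 5 973)
(mv 909 (cons (fin 973 7 909)
(mv 910 (cons (fin 845 7 845)
(mv 911 (cons (fin 975 6 910)
(fin 847 6 846)))))))))
(mv 1165 (cons (fin 1229 5 973)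
(mv 1164 (cons (fin 1163 2 1099)
(fin 1167 2 1100)))))))))
(cons (mv 1165 (cons (mv 1164 (cons (fin 1163 2 1099)
(fin 1167 2 1100)))
(mv 1229 (cons (fin 974 5 973)
(mv 1293 (cons (fin 1230 5 1037)
(fin 1357 6 1101)))))))
(mv 1230 (cons (fin 973 7 973)
(mv 1295 (cons (fin 1231 4 1038)
(mv 1294 (cons (fin 1359 4 1102)
(mv 1357 (cons (fin 1293 5 1101)
(mv 1358 (cons (fin 1421 5 1165)
(fin 1167 6 1102)))))))))))))))))))
(cons (mv 1036 (cons (fin 1039 0 1036)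
(mv 1035 (cons (fin 1102 0 1035)
(mv 1098 (cons (fin 1099 1 1034)
(mv 1034 (cons (fin 1097 1 1033)
(mv 970 (cons (fin 969 3 969)
(fin 971 3 970)))))))))))
(mv 1039 (cons (fin 1036 0 1036)
(fin 1105 0 1037)))))))))))
(cons (mv 1038 (cons (cons (mv 1105 (cons (fin 1039 0 1037)
(mv 1102 (cons (fin 1103 3 1037)
(mv 1166 (cons (cons (mv 1230 (cons (fin 973 7 973)
(mv 1293 (cons (fin 1229 5 1037)
(mv 1294 (cons (fin 1357 5 1101)
(fin 1101 7 1037)))))))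
(mv 974 (cons (cons (mv 1229 (cons (fin 1165 5 973)
(mv 1231 (cons (fin 1167 4 974)
(mv 973 (cons (fin 909 7 909)
(mv 975 (cons (fin 911 6 910)
(mv 1036 (cons (fin 976 1 972)
(fin 1035 2 971)))))))))))
(cons (mv 1229 (cons (fin 1165 5 973)
(mv 1231 (cons (fin 1167 4 974)
(mv 975 (cons (fin 911 6 910)
(mv 1035 (cons (fin 1036 2 971)
(mv 976 (cons (fin 977 1 973)
(mv 912 (cons (fin 1169 4 912)
(mv 913 (cons (fin 973 2 909)
(fin 849 6 848)))))))))))))))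
(mv 1229 (cons (fin 1165 5 973)
(mv 1231 (cons (fin 1167 4 974)
(mv 911 (cons (fin 975 6 910)
(mv 910 (cons (fin 847 6 846)
(mv 845 (cons (fin 909 7 845)
(mv 846 (cons (fin 1101 5 845)
(fin 781 7 781)))))))))))))))
(cons (cons (mv 1231 (cons (fin 1167 4 974)
(mv 973 (cons (fin 909 7 909)
(mv 975 (cons (fin 911 6 910)
(mv 1036 (cons (fin 976 1 972)
(fin 1035 2 971)))))))))
(mv 1229 (cons (fin 1165 5 973)
(mv 1231 (cons (fin 1167 4 974)
(mv 909 (cons (fin 973 7 909)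
(mv 910 (cons (fin 845 7 845)
(mv 846 (cons (fin 1101 5 845)
(mv 847 (cons (fin 911 6 846)
(fin 783 6 782))))))))))))))
(cons (mv 1231 (cons (fin 1167 4 974)
(mv 1165 (cons (fin 1229 5 973)
(mv 909 (cons (fin 973 7 909)
(mv 910 (cons (fin 1101 5 909)
(fin 845 7 845)))))))))
(mv 1229 (cons (fin 1165 5 973)
(mv 973 (cons (fin 909 7 909)
(mv 975 (cons (fin 911 6 910)
(mv 1036 (cons (fin 976 1 972)
(fin 1035 2 971))))))))))))))
(cons (mv 974 (cons (cons (mv 1229 (cons (fin 1165 5 973)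
(mv 1293 (cons (fin 1230 5 1037)
(mv 1231 (cons (fin 1167 4 974)
(mv 911 (cons (fin 975 6 910)
(mv 910 (cons (fin 847 6 846)
(mv 845 (cons (fin 909 7 845)
(mv 846 (cons (fin 1101 5 845)
(fin 781 7 781)))))))))))))))
(mv 1231 (cons (fin 1167 4 974)
(mv 1295 (cons (fin 1230 4 1038)
(mv 911 (cons (fin 975 6 910)
(mv 910 (cons (fin 847 6 846)
(mv 845 (cons (fin 909 7 845)
(mv 846 (cons (fin 1101 5 845)
(fin 781 7 781))))))))))))))
(cons (mv 1229 (cons (fin 1165 5 973)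
(mv 1230 (cons (fin 1293 5 1037)
(mv 1231 (cons (fin 1295 4 1038)
(fin 1167 4 974)))))))
(cons (mv 1229 (cons (fin 1165 5 973)
(mv 1293 (cons (fin 1230 5 1037)
(mv 911 (cons (fin 975 6 910)
(mv 910 (cons (fin 847 6 846)
(mv 845 (cons (fin 909 7 845)
(mv 846 (cons (fin 1101 5 845)
(fin 781 7 781)))))))))))))
(mv 1229 (cons (fin 1165 5 973)
(mv 1231 (cons (fin 1167 4 974)
(mv 911 (cons (fin 975 6 910)
(mv 910 (cons (fin 847 6 846)
(mv 845 (cons (fin 909 7 845)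
(mv 846 (cons (fin 1101 5 845)
(fin 781 7 781)))))))))))))))))
(cons (mv 1230 (cons (fin 973 7 973)
(mv 1293 (cons (fin 1229 5 1037)
(mv 1357 (cons (fin 1294 5 1101)
(mv 1231 (cons (fin 1295 4 1038)
(mv 974 (cons (fin 1167 4 974)
(mv 975 (cons (fin 911 6 910)
(mv 1035 (cons (fin 1036 2 971)
(mv 976 (cons (fin 977 1 973)
(mv 1169 (cons (fin 912 4 912)
(mv 1233 (cons (fin 1297 7 1040)
(mv 1232 (cons (fin 1165 3 1165)
(fin 1170 2 1166)))))))))))))))))))))))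
(mv 1230 (cons (fin 973 7 973)
(mv 1294 (cons (fin 1101 7 1037)
(mv 1295 (cons (fin 1359 4 1102)
(fin 1231 4 1038)))))))))))))))
(cons (mv 1102 (cons (cons (mv 1103 (cons (fin 1105 3 1037)
(mv 1036 (cons (fin 1101 3 1036)
(fin 1035 0 1035)))))
(mv 1166 (cons (cons (mv 1230 (cons (fin 973 7 973)
(mv 1293 (cons (fin 1229 5 1037)
(mv 1294 (cons (fin 1357 5 1101)
(fin 1101 7 1037)))))))
(mv 974 (cons (cons (mv 1229 (cons (fin 1165 5 973)
(mv 1231 (cons (fin 1167 4 974)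
(mv 973 (cons (fin 909 7 909)
(mv 975 (cons (fin 911 6 910)
(mv 1036 (cons (fin 976 1 972)
(fin 1035 2 971)))))))))))
(cons (mv 1229 (cons (fin 1165 5 973)
(mv 1231 (cons (fin 1167 4 974)
(mv 975 (cons (fin 911 6 910)
(mv 1036 (cons (fin 1035 2 971)
(mv 976 (cons (fin 973 1 972)
(fin 977 1 973)))))))))))
(mv 1229 (cons (fin 1165 5 973)
(mv 1231 (cons (fin 1167 4 974)
(mv 911 (cons (fin 975 6 910)
(mv 910 (cons (fin 847 6 846)
(mv 845 (cons (fin 909 7 845)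
(mv 846 (cons (fin 1101 5 845)
(fin 781 7 781)))))))))))))))
(cons (cons (mv 1231 (cons (fin 1167 4 974)
(mv 973 (cons (fin 909 7 909)
(mv 975 (cons (fin 911 6 910)
(mv 1036 (cons (fin 976 1 972)
(fin 1035 2 971)))))))))
(mv 1229 (cons (fin 1165 5 973)
(mv 1231 (cons (fin 1167 4 974)
(mv 909 (cons (fin 973 7 909)
(mv 910 (cons (fin 845 7 845)
(mv 846 (cons (fin 1101 5 845)
(mv 847 (cons (fin 911 6 846)
(fin 783 6 782))))))))))))))
(cons (mv 1231 (cons (fin 1167 4 974)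
(mv 1165 (cons (fin 1229 5 973)
(mv 909 (cons (fin 973 7 909)
(mv 910 (cons (fin 1101 5 909)
(fin 845 7 845)))))))))
(mv 1229 (cons (fin 1165 5 973)
(mv 973 (cons (fin 909 7 909)
(mv 975 (cons (fin 911 6 910)
(mv 1036 (cons (fin 976 1 972)
(fin 1035 2 971))))))))))))))
(cons (mv 974 (cons (cons (mv 1229 (cons (fin 1165 5 973)
(mv 1293 (cons (fin 1230 5 1037)
(mv 1231 (cons (fin 1167 4 974)
(mv 911 (cons (fin 975 6 910)
(mv 910 (cons (fin 847 6 846)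
(mv 845 (cons (fin 909 7 845)
(mv 846 (cons (fin 1101 5 845)
(fin 781 7 781)))))))))))))))
(mv 1231 (cons (fin 1167 4 974)
(mv 1295 (cons (fin 1230 4 1038)
(mv 911 (cons (fin 975 6 910)
(mv 910 (cons (fin 847 6 846)
(mv 845 (cons (fin 909 7 845)
(mv 846 (cons (fin 1101 5 845)
(fin 781 7 781))))))))))))))
(cons (mv 1229 (cons (fin 1165 5 973)
(mv 1230 (cons (fin 1293 5 1037)
(mv 1231 (cons (fin 1295 4 1038)
(fin 1167 4 974)))))))
(cons (mv 1229 (cons (fin 1165 5 973)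
(mv 1293 (cons (fin 1230 5 1037)
(mv 911 (cons (fin 975 6 910)
(mv 910 (cons (fin 847 6 846)
(mv 845 (cons (fin 909 7 845)
(mv 846 (cons (fin 1101 5 845)
(fin 781 7 781)))))))))))))
(mv 1229 (cons (fin 1165 5 973)
(mv 1231 (cons (fin 1167 4 974)
(mv 911 (cons (fin 975 6 910)
(mv 910 (cons (fin 847 6 846)
(mv 845 (cons (fin 909 7 845)
(mv 846 (cons (fin 1101 5 845)
(fin 781 7 781)))))))))))))))))
(cons (mv 1230 (cons (fin 973 7 973)
(mv 1293 (cons (fin 1229 5 1037)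
(mv 1294 (cons (fin 1357 5 1101)
(mv 1295 (cons (fin 1359 4 1102)
(fin 1231 4 1038)))))))))
(mv 1230 (cons (fin 973 7 973)
(mv 1294 (cons (fin 1101 7 1037)
(mv 1295 (cons (fin 1359 4 1102)
(fin 1231 4 1038))))))))))))
(cons (mv 1103 (cons (fin 1105 3 1037)
(mv 973 (cons (cons (mv 1166 (cons (fin 1230 7 973)
(mv 909 (cons (fin 974 7 909)
(fin 1101 4 909)))))
(mv 909 (cons (fin 845 4 845)
(mv 1101 (cons (mv 1164 (cons (fin 1165 1 1100)
(fin 1100 5 908)))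
(cons (mv 908 (cons (fin 844 7 844)
(mv 910 (cons (fin 846 6 845)
(mv 974 (cons (fin 1165 5 909)
(fin 1167 4 910)))))))
(mv 1164 (cons (fin 1100 5 908)
(mv 908 (cons (fin 844 7 844)
(mv 910 (cons (fin 846 6 845)
(mv 974 (cons (fin 1167 4 910)
(mv 975 (cons (fin 976 3 908)
(fin 907 0 907)))))))))))))))))
(cons (mv 1166 (cons (fin 1230 7 973)
(mv 974 (cons (mv 1167 (cons (fin 1231 4 974)
(fin 910 4 910)))
(cons (mv 1229 (cons (fin 1165 5 973)
(mv 911 (cons (fin 975 6 910)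
(mv 910 (cons (fin 847 6 846)
(mv 846 (cons (fin 1101 5 845)
(fin 782 5 781)))))))))
(mv 1229 (cons (fin 1165 5 973)
(mv 1167 (cons (fin 1231 4 974)
(mv 975 (cons (fin 911 6 910)
(mv 976 (cons (fin 977 1 973)
(fin 912 5 911))))))))))))))
(cons (mv 1166 (cons (fin 1230 7 973)
(mv 909 (cons (fin 974 7 909)
(fin 845 4 845)))))
(mv 1166 (cons (fin 1230 7 973)
(mv 909 (cons (fin 1101 4 909)
(fin 845 4 845)))))))))))
(mv 1103 (cons (fin 1105 3 1037)
(mv 1035 (cons (fin 1036 0 1035)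
(mv 1166 (cons (cons (mv 1230 (cons (fin 973 7 973)
(mv 1293 (cons (fin 1229 5 1037)
(mv 1294 (cons (fin 1357 5 1101)
(mv 1295 (cons (fin 1359 4 1102)
(fin 1231 4 1038)))))))))
(mv 974 (cons (mv 1167 (cons (fin 1231 4 974)
(fin 910 4 910)))
(cons (mv 1229 (cons (fin 1165 5 973)
(mv 909 (cons (fin 973 7 909)
(mv 910 (cons (fin 845 7 845)
(mv 911 (cons (fin 975 6 910)
(fin 847 6 846)))))))))
(mv 1229 (cons (fin 1165 5 973)
(mv 1167 (cons (fin 1231 4 974)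
(mv 973 (cons (fin 909 7 909)
(mv 975 (cons (fin 911 6 910)
(mv 976 (cons (fin 977 1 973)
(fin 912 5 911)))))))))))))))
(cons (mv 1165 (cons (mv 1164 (cons (fin 1163 2 1099)
(fin 1167 2 1100)))
(mv 1229 (cons (fin 974 5 973)
(mv 1293 (cons (fin 1230 5 1037)
(fin 1357 6 1101)))))))
(mv 1230 (cons (fin 973 7 973)
(mv 1295 (cons (fin 1231 4 1038)
(mv 1294 (cons (fin 1359 4 1102)
(mv 1357 (cons (fin 1293 5 1101)
(mv 1358 (cons (fin 1421 5 1165)
(fin 1167 6 1102)))))))))))))))))))))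
(mv 1039 (cons (cons (mv 1100 (cons (fin 1101 1 1036)
(mv 1036 (cons (fin 1099 1 1035)
(fin 1103 0 1036)))))
(mv 1100 (cons (fin 1101 1 1036)
(mv 976 (cons (fin 977 2 973)
(mv 912 (cons (mv 1103 (cons (fin 1167 5 911)
(fin 848 5 847)))
(cons (mv 847 (cons (fin 911 7 847)
(mv 848 (cons (fin 783 7 783)
(mv 849 (cons (fin 913 6 848)
(fin 785 6 784)))))))
(mv 1167 (cons (fin 1103 5 911)
(mv 911 (cons (fin 847 7 847)
(mv 913 (cons (fin 849 6 848)
(mv 914 (cons (mv 975 (cons (fin 974 1 910)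
(fin 915 1 911)))
(cons (mv 979 (cons (fin 978 0 911)
(mv 915 (cons (fin 980 0 912)
(mv 851 (cons (fin 850 2 847)
(fin 852 2 848)))))))
(mv 974 (cons (fin 975 1 910)
(mv 978 (cons (fin 979 0 911)
(mv 910 (cons (fin 973 1 909)
(mv 845 (cons (fin 846 3 845)
(mv 909 (cons (fin 844 3 844)
(fin 1102 7 845))))))))))))))))))))))))))))
(cons (mv 1103 (cons (fin 1036 0 1036)
(mv 976 (cons (fin 977 2 973)
(mv 1167 (cons (fin 912 5 911)
(fin 1231 6 975)))))))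
(mv 1100 (cons (fin 1101 1 1036)
(mv 1036 (cons (fin 1099 1 1035)
(mv 976 (cons (fin 975 2 972)
(fin 977 2 973))))))))))))
(cons (cons (mv 1039 (cons (fin 1105 0 1037)
(mv 1100 (cons (fin 1101 1 1036)
(mv 1036 (cons (fin 1099 1 1035)
(mv 976 (cons (fin 975 2 972)
(fin 977 2 973)))))))))
(mv 1039 (cons (fin 1105 0 1037)
(mv 1100 (cons (fin 1101 1 1036)
(mv 976 (cons (fin 977 2 973)
(mv 912 (cons (mv 1103 (cons (fin 1167 5 911)
(fin 848 5 847)))
(cons (mv 847 (cons (fin 911 7 847)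
(mv 848 (cons (fin 783 7 783)
(mv 849 (cons (fin 913 6 848)
(fin 785 6 784)))))))
(mv 1167 (cons (fin 1103 5 911)
(mv 911 (cons (fin 847 7 847)
(mv 913 (cons (fin 849 6 848)
(mv 914 (cons (mv 975 (cons (fin 974 1 910)
(fin 915 1 911)))
(cons (mv 979 (cons (fin 978 0 911)
(mv 915 (cons (fin 980 0 912)
(mv 851 (cons (fin 850 2 847)
(fin 852 2 848)))))))
(mv 974 (cons (fin 975 1 910)
(mv 978 (cons (fin 979 0 911)
(mv 910 (cons (fin 973 1 909)
(mv 845 (cons (fin 846 3 845)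
(mv 909 (cons (fin 844 3 844)
(fin 1102 7 845))))))))))))))))))))))))))))))
(cons (mv 1039 (cons (fin 1105 0 1037)
(mv 1100 (cons (fin 1101 1 1036)
(mv 1036 (cons (fin 1099 1 1035)
(fin 1103 0 1036)))))))
(mv 1039 (cons (fin 1105 0 1037)
(mv 1103 (cons (fin 1036 0 1036)
(mv 976 (cons (fin 977 2 973)
(mv 1167 (cons (fin 912 5 911)
(fin 1231 6 975)))))))))))))
(mv 1168 (cons (cons (cons (mv 976 (cons (cons (mv 1231 (cons (fin 1167 5 975)
(mv 1295 (cons (fin 1232 5 1039)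
(mv 1233 (cons (fin 1169 4 976)
(mv 975 (cons (fin 911 7 911)
(mv 977 (cons (fin 913 6 912)
(mv 1038 (cons (fin 974 1 973)
(fin 1039 2 973)))))))))))))
(cons (mv 1231 (cons (fin 1167 5 975)
(mv 1295 (cons (fin 1232 5 1039)
(mv 1169 (cons (fin 1233 4 976)
(mv 912 (cons (fin 1105 4 912)
(mv 913 (cons (fin 977 6 912)
(fin 849 6 848)))))))))))
(mv 1231 (cons (fin 1167 5 975)
(mv 1295 (cons (fin 1232 5 1039)
(mv 1169 (cons (fin 1233 4 976)
(mv 975 (cons (fin 911 7 911)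
(mv 912 (cons (fin 1105 4 912)
(mv 849 (cons (fin 913 6 848)
(mv 848 (cons (fin 785 6 784)
(mv 783 (cons (fin 847 7 783)
(mv 784 (cons (fin 1039 5 783)
(fin 719 7 719)))))))))))))))))))))
(cons (cons (mv 1231 (cons (fin 1167 5 975)
(mv 1295 (cons (fin 1232 5 1039)
(mv 975 (cons (fin 911 7 911)
(mv 977 (cons (fin 913 6 912)
(mv 1038 (cons (fin 974 1 973)
(fin 1039 2 973)))))))))))
(mv 1233 (cons (fin 1169 4 976)
(mv 1297 (cons (fin 1232 4 1040)
(mv 975 (cons (fin 911 7 911)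
(mv 977 (cons (fin 913 6 912)
(mv 1038 (cons (fin 974 1 973)
(fin 1039 2 973))))))))))))
(cons (mv 1231 (cons (fin 1167 5 975)
(mv 1295 (cons (fin 1232 5 1039)
(mv 1169 (cons (fin 1233 4 976)
(mv 1105 (cons (fin 912 4 912)
(mv 1038 (cons (fin 1039 0 1037)
(mv 975 (cons (fin 911 7 911)
(mv 974 (cons (fin 977 1 973)
(mv 1036 (cons (fin 973 1 972)
(fin 1035 2 971)))))))))))))))))
(mv 1231 (cons (fin 1167 5 975)
(mv 1233 (cons (fin 1169 4 976)
(mv 975 (cons (fin 911 7 911)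
(mv 977 (cons (fin 913 6 912)
(mv 1038 (cons (fin 974 1 973)
(fin 1039 2 973)))))))))))))))
(mv 1232 (cons (cons (mv 1295 (cons (fin 1231 5 1039)
(mv 1296 (cons (fin 1359 5 1103)
(mv 1297 (cons (fin 1361 4 1104)
(fin 1233 4 1040)))))))
(cons (mv 1231 (cons (fin 1295 5 1039)
(mv 1039 (cons (fin 975 7 975)
(mv 1105 (cons (fin 1038 0 1037)
(mv 1106 (cons (fin 1107 3 1039)
(mv 1169 (cons (cons (mv 1360 (cons (fin 1296 6 1104)
(mv 1229 (cons (fin 1230 2 1165)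
(mv 1167 (cons (fin 1166 2 1102)
(mv 1170 (cons (fin 1171 1 1167)
(mv 1234 (cons (fin 1235 0 1167)
(mv 1298 (cons (fin 1362 7 1105)
(mv 1299 (cons (fin 1233 0 1231)
(fin 1363 4 1106)))))))))))))))
(cons (mv 1360 (cons (fin 1296 6 1104)
(mv 1230 (cons (fin 1229 2 1165)
(mv 1166 (cons (fin 1167 2 1102)
(mv 1165 (cons (fin 1233 3 1165)
(mv 1163 (cons (fin 1164 0 1163)
(mv 1101 (cons (fin 973 4 973)
(mv 1294 (cons (fin 1358 7 1101)
(fin 1102 7 1037)))))))))))))))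
(mv 1360 (cons (fin 1296 6 1104)
(mv 1230 (cons (fin 1229 2 1165)
(mv 1170 (cons (fin 1171 1 1167)
(fin 1233 2 1166)))))))))
(cons (mv 1360 (cons (fin 1296 6 1104)
(mv 1167 (cons (fin 1166 2 1102)
(mv 1170 (cons (fin 1171 1 1167)
(mv 1234 (cons (fin 1235 0 1167)
(mv 1298 (cons (fin 1362 7 1105)
(mv 1299 (cons (fin 1233 0 1231)
(fin 1363 4 1106)))))))))))))
(cons (mv 1229 (cons (fin 1230 2 1165)
(mv 1167 (cons (fin 1166 2 1102)
(mv 1170 (cons (fin 1171 1 1167)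
(mv 1234 (cons (fin 1235 0 1167)
(mv 1298 (cons (fin 1362 7 1105)
(mv 1299 (cons (fin 1233 0 1231)
(fin 1363 4 1106)))))))))))))
(mv 1360 (cons (fin 1296 6 1104)
(mv 1230 (cons (fin 1229 2 1165)
(mv 1167 (cons (fin 1170 1 1166)
(fin 1166 2 1102)))))))))))))))))))
(mv 1297 (cons (fin 1233 4 1040)
(mv 1296 (cons (fin 1361 4 1104)
(mv 1039 (cons (fin 975 7 975)
(mv 1105 (cons (fin 1038 0 1037)
(mv 1169 (cons (fin 1360 6 1104)
(mv 1106 (cons (fin 1107 3 1039)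
(mv 1167 (cons (fin 1166 2 1102)
(mv 1170 (cons (mv 1231 (cons (fin 1230 1 1166)
(fin 1171 1 1167)))
(cons (mv 1235 (cons (fin 1234 0 1167)
(mv 1171 (cons (fin 1172 3 1104)
(fin 1236 0 1168)))))
(mv 1231 (cons (fin 1230 1 1166)
(mv 1298 (cons (fin 1299 3 1231)
(mv 1234 (cons (fin 1235 0 1167)
(fin 1362 7 1105))))))))))))))))))))))))))
(cons (mv 1295 (cons (fin 1231 5 1039)
(mv 1296 (cons (fin 1359 5 1103)
(mv 1361 (cons (fin 1297 4 1104)
(mv 1360 (cons (fin 1425 4 1168)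
(mv 1362 (cons (fin 1363 3 1295)
(mv 1293 (cons (fin 1294 0 1293)
(mv 1105 (cons (fin 1169 6 1104)
(mv 1039 (cons (fin 1038 0 1037)
(fin 975 7 975)))))))))))))))))
(cons (mv 1297 (cons (fin 1233 4 1040)
(mv 1296 (cons (fin 1361 4 1104)
(mv 1359 (cons (fin 1295 5 1103)
(mv 1360 (cons (fin 1423 5 1167)
(mv 1357 (cons (fin 1358 2 1293)
(mv 1298 (cons (fin 1299 1 1295)
(mv 1105 (cons (fin 1169 6 1104)
(mv 1039 (cons (fin 1038 0 1037)
(fin 975 7 975)))))))))))))))))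
(mv 1295 (cons (fin 1231 5 1039)
(mv 1233 (cons (fin 1297 4 1040)
(mv 1039 (cons (fin 975 7 975)
(mv 1038 (cons (fin 1105 0 1037)
(mv 1101 (cons (fin 1100 1 1036)
(mv 1165 (cons (mv 1229 (cons (fin 974 6 973)
(mv 1292 (cons (fin 1228 5 1036)
(mv 1293 (cons (fin 1356 5 1100)
(fin 1102 6 1037)))))))
(cons (mv 1166 (cons (fin 1167 0 1165)
(mv 1230 (cons (fin 973 4 973)
(mv 1294 (cons (fin 1358 7 1101)
(fin 1102 7 1037)))))))
(mv 1229 (cons (fin 974 6 973)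
(mv 1292 (cons (fin 1228 5 1036)
(mv 1356 (cons (fin 1293 5 1100)
(mv 1230 (cons (fin 1294 4 1037)
(mv 1166 (cons (fin 1167 0 1165)
(fin 973 4 973)))))))))))))))))))))))))))))
(cons (mv 976 (cons (cons (mv 1231 (cons (fin 1167 5 975)
(mv 1233 (cons (fin 1169 4 976)
(mv 975 (cons (fin 911 7 911)
(mv 977 (cons (fin 913 6 912)
(mv 1038 (cons (fin 974 1 973)
(fin 1039 2 973)))))))))))
(cons (mv 1231 (cons (fin 1167 5 975)
(mv 1169 (cons (fin 1233 4 976)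
(mv 975 (cons (fin 911 7 911)
(mv 912 (cons (fin 1105 4 912)
(mv 849 (cons (fin 913 6 848)
(mv 848 (cons (fin 785 6 784)
(mv 783 (cons (fin 847 7 783)
(mv 784 (cons (fin 1039 5 783)
(fin 719 7 719)))))))))))))))))
(mv 1231 (cons (fin 1167 5 975)
(mv 975 (cons (fin 911 7 911)
(mv 977 (cons (fin 913 6 912)
(mv 1038 (cons (fin 974 1 973)
(fin 1039 2 973)))))))))))
(cons (mv 1231 (cons (fin 1167 5 975)
(mv 1169 (cons (fin 1233 4 976)
(mv 912 (cons (fin 1105 4 912)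
(mv 913 (cons (fin 977 6 912)
(fin 849 6 848)))))))))
(cons (mv 1231 (cons (fin 1167 5 975)
(mv 1169 (cons (fin 1233 4 976)
(mv 1105 (cons (fin 912 4 912)
(mv 1038 (cons (fin 1039 0 1037)
(mv 975 (cons (fin 911 7 911)
(mv 974 (cons (fin 977 1 973)
(mv 1036 (cons (fin 973 1 972)
(fin 1035 2 971)))))))))))))))
(mv 1233 (cons (fin 1169 4 976)
(mv 975 (cons (fin 911 7 911)
(mv 977 (cons (fin 913 6 912)
(mv 1038 (cons (fin 974 1 973)
(fin 1039 2 973)))))))))))))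
(cons (mv 976 (cons (cons (mv 1231 (cons (fin 1167 5 975)
(mv 1295 (cons (fin 1232 5 1039)
(mv 1233 (cons (fin 1169 4 976)
(mv 975 (cons (fin 911 7 911)
(mv 977 (cons (fin 913 6 912)
(mv 974 (cons (fin 1038 1 973)
(mv 973 (cons (fin 1036 1 972)
(mv 909 (cons (fin 908 3 908)
(fin 910 3 909)))))))))))))))))
(cons (mv 1231 (cons (fin 1167 5 975)
(mv 1295 (cons (fin 1232 5 1039)
(mv 975 (cons (fin 911 7 911)
(mv 977 (cons (fin 913 6 912)
(mv 974 (cons (fin 1038 1 973)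
(mv 973 (cons (fin 1036 1 972)
(mv 909 (cons (fin 908 3 908)
(fin 910 3 909)))))))))))))))
(mv 1233 (cons (fin 1169 4 976)
(mv 1297 (cons (fin 1232 4 1040)
(mv 975 (cons (fin 911 7 911)
(mv 977 (cons (fin 913 6 912)
(mv 974 (cons (fin 1038 1 973)
(mv 973 (cons (fin 1036 1 972)
(mv 909 (cons (fin 908 3 908)
(fin 910 3 909)))))))))))))))))
(cons (mv 1231 (cons (fin 1167 5 975)
(mv 1295 (cons (fin 1232 5 1039)
(mv 1169 (cons (fin 1233 4 976)
(mv 911 (cons (fin 975 7 911)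
(mv 912 (cons (fin 847 7 847)
(fin 1105 4 912)))))))))))
(cons (mv 1231 (cons (fin 1167 5 975)
(mv 1295 (cons (fin 1232 5 1039)
(mv 1169 (cons (fin 1233 4 976)
(mv 912 (cons (fin 1105 4 912)
(mv 913 (cons (fin 977 6 912)
(fin 849 6 848)))))))))))
(mv 1231 (cons (fin 1167 5 975)
(mv 1233 (cons (fin 1169 4 976)
(mv 975 (cons (fin 911 7 911)
(mv 977 (cons (fin 913 6 912)
(mv 974 (cons (fin 1038 1 973)
(mv 973 (cons (fin 1036 1 972)
(mv 909 (cons (fin 908 3 908)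
(fin 910 3 909)))))))))))))))))))
(mv 976 (cons (cons (mv 1231 (cons (fin 1167 5 975)
(mv 1295 (cons (fin 1232 5 1039)
(mv 975 (cons (fin 911 7 911)
(mv 977 (cons (fin 913 6 912)
(mv 1038 (cons (fin 974 1 973)
(fin 1039 2 973)))))))))))
(mv 1167 (cons (fin 1231 5 975)
(mv 977 (cons (fin 913 6 912)
(mv 1038 (cons (fin 1039 2 973)
(mv 1166 (cons (cons (mv 1165 (cons (fin 1105 2 1101)
(mv 1228 (cons (fin 1229 1 1164)
(mv 1227 (cons (fin 1164 1 1163)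
(mv 1101 (cons (fin 1100 3 1100)
(mv 1230 (cons (fin 973 4 973)
(mv 1294 (cons (fin 1358 7 1101)
(fin 1102 7 1037)))))))))))))
(cons (mv 1101 (cons (mv 1165 (cons (fin 1100 3 1100)
(mv 1229 (cons (fin 1228 1 1164)
(fin 974 6 973)))))
(mv 1102 (cons (fin 1169 3 1101)
(mv 1230 (cons (fin 1294 7 1037)
(fin 973 7 973)))))))
(mv 1169 (cons (mv 1105 (cons (fin 1106 2 1102)
(fin 912 4 912)))
(mv 1230 (cons (fin 1229 1 1165)
(mv 1102 (cons (fin 1101 3 1101)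
(fin 973 7 973)))))))))
(cons (mv 1165 (cons (fin 1105 2 1101)
(mv 1228 (cons (fin 1229 1 1164)
(mv 1164 (cons (fin 1227 1 1163)
(mv 1100 (cons (fin 1099 3 1099)
(mv 973 (cons (fin 1036 6 972)
(mv 1102 (cons (fin 1230 7 973)
(mv 909 (cons (fin 974 7 909)
(fin 845 4 845)))))))))))))))
(cons (mv 1165 (cons (fin 1105 2 1101)
(mv 1228 (cons (fin 1229 1 1164)
(mv 1164 (cons (fin 1227 1 1163)
(mv 1100 (cons (fin 1099 3 1099)
(fin 1101 3 1100)))))))))
(mv 1165 (cons (fin 1105 2 1101)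
(mv 1100 (cons (fin 1101 3 1100)
(mv 1164 (cons (fin 1099 3 1099)
(mv 1228 (cons (fin 1227 1 1163)
(mv 973 (cons (fin 1036 6 972)
(mv 1102 (cons (fin 1230 7 973)
(mv 909 (cons (fin 974 7 909)
(fin 845 4 845))))))))))))))))))))))))))
(cons (mv 1231 (cons (fin 1167 5 975)
(mv 1232 (cons (fin 1295 5 1039)
(mv 975 (cons (fin 1039 7 975)
(fin 911 7 911)))))))
(cons (mv 975 (cons (fin 911 7 911)
(mv 1232 (cons (fin 1039 7 975)
(mv 977 (cons (fin 913 6 912)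
(mv 974 (cons (fin 1038 1 973)
(mv 973 (cons (fin 1036 1 972)
(mv 909 (cons (fin 908 3 908)
(fin 910 3 909)))))))))))))
(mv 1231 (cons (fin 1167 5 975)
(mv 1295 (cons (fin 1232 5 1039)
(mv 975 (cons (fin 911 7 911)
(mv 977 (cons (fin 913 6 912)
(mv 974 (cons (fin 1038 1 973)
(mv 973 (cons (fin 1036 1 972)
(mv 909 (cons (fin 908 3 908)
(fin 910 3 909))))))))))))))))))))))
(cons (cons (mv 976 (cons (cons (mv 1233 (cons (fin 1169 4 976)
(mv 1297 (cons (fin 1232 4 1040)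
(mv 975 (cons (fin 911 7 911)
(mv 977 (cons (fin 913 6 912)
(mv 1038 (cons (fin 974 1 973)
(fin 1039 2 973)))))))))))
(mv 1169 (cons (fin 1233 4 976)
(mv 912 (cons (fin 1105 4 912)
(mv 913 (cons (fin 977 6 912)
(fin 849 6 848))))))))
(cons (mv 1233 (cons (fin 1169 4 976)
(mv 1232 (cons (fin 1297 4 1040)
(mv 975 (cons (fin 1039 7 975)
(fin 911 7 911)))))))
(cons (mv 975 (cons (fin 911 7 911)
(mv 1232 (cons (fin 1039 7 975)
(mv 1297 (cons (fin 1233 4 1040)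
(mv 1361 (cons (fin 1296 4 1104)
(mv 977 (cons (fin 913 6 912)
(mv 974 (cons (fin 1038 1 973)
(mv 973 (cons (fin 1036 1 972)
(mv 909 (cons (fin 908 3 908)
(fin 910 3 909)))))))))))))))))
(mv 975 (cons (fin 911 7 911)
(mv 1232 (cons (fin 1039 7 975)
(mv 977 (cons (fin 913 6 912)
(mv 974 (cons (fin 1038 1 973)
(mv 973 (cons (fin 1036 1 972)
(mv 909 (cons (fin 908 3 908)
(fin 910 3 909)))))))))))))))))
(mv 1232 (cons (cons (mv 1295 (cons (fin 1231 5 1039)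
(mv 1296 (cons (fin 1359 5 1103)
(mv 1297 (cons (fin 1361 4 1104)
(fin 1233 4 1040)))))))
(mv 1231 (cons (fin 1295 5 1039)
(mv 1167 (cons (fin 976 5 975)
(mv 1169 (cons (mv 1230 (cons (fin 1170 1 1166)
(fin 1229 2 1165)))
(cons (mv 1170 (cons (fin 1171 1 1167)
(mv 1234 (cons (fin 1235 0 1167)
(mv 1106 (cons (fin 1107 2 1103)
(mv 1166 (cons (fin 1105 2 1102)
(mv 1165 (cons (fin 1164 0 1164)
(mv 1101 (cons (fin 1100 3 1100)
(fin 1102 3 1101)))))))))))))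
(mv 1229 (cons (fin 1230 2 1165)
(mv 1166 (cons (mv 1165 (cons (fin 1228 1 1164)
(fin 1164 0 1164)))
(mv 1102 (cons (fin 1101 3 1101)
(mv 1105 (cons (fin 1106 2 1102)
(mv 1038 (cons (fin 1039 0 1037)
(fin 974 4 974)))))))))))))))))))
(cons (mv 1296 (cons (cons (mv 1297 (cons (fin 1361 4 1104)
(fin 1233 4 1040)))
(mv 1359 (cons (fin 1295 5 1103)
(mv 1360 (cons (fin 1423 5 1167)
(mv 1425 (cons (fin 1361 4 1168)
(mv 1424 (cons (fin 1489 4 1232)
(mv 1169 (cons (fin 1233 6 1168)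
(fin 1105 6 1104))))))))))))
(cons (mv 1359 (cons (fin 1295 5 1103)
(mv 1360 (cons (fin 1423 5 1167)
(mv 1361 (cons (fin 1425 4 1168)
(fin 1297 4 1104)))))))
(mv 1359 (cons (fin 1295 5 1103)
(mv 1360 (cons (fin 1423 5 1167)
(mv 1233 (cons (fin 1297 4 1040)
(mv 1169 (cons (fin 976 4 976)
(fin 1424 6 1168))))))))))))
(mv 1233 (cons (fin 1297 4 1040)
(mv 1169 (cons (fin 976 4 976)
(mv 1167 (cons (mv 1234 (cons (fin 1235 3 1167)
(fin 1166 0 1166)))
(cons (mv 1234 (cons (fin 1235 3 1167)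
(mv 1170 (cons (mv 1231 (cons (fin 1230 1 1166)
(fin 1171 1 1167)))
(cons (mv 1171 (cons (fin 1172 1 1168)
(mv 1107 (cons (fin 1106 2 1103)
(fin 1108 2 1104)))))
(mv 1231 (cons (fin 1230 1 1166)
(mv 1298 (cons (fin 1299 0 1231)
(mv 1362 (cons (fin 1426 7 1169)
(fin 1105 7 1105))))))))))))
(mv 1166 (cons (fin 1165 0 1165)
(mv 1229 (cons (fin 1230 1 1165)
(mv 1101 (cons (fin 1102 3 1101)
(mv 1106 (cons (fin 1105 2 1102)
(mv 1170 (cons (fin 1107 2 1103)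
(mv 1171 (cons (fin 1231 1 1167)
(fin 1172 1 1168))))))))))))))))))))))))
(cons (mv 976 (cons (cons (mv 1231 (cons (fin 1167 5 975)
(mv 1295 (cons (fin 1232 5 1039)
(mv 1233 (cons (fin 1169 4 976)
(mv 975 (cons (fin 911 7 911)
(mv 977 (cons (fin 913 6 912)
(mv 1038 (cons (fin 974 1 973)
(fin 1039 2 973)))))))))))))
(mv 1231 (cons (fin 1167 5 975)
(mv 1232 (cons (fin 1295 5 1039)
(mv 1233 (cons (fin 1297 4 1040)
(fin 1169 4 976))))))))
(cons (mv 1233 (cons (fin 1169 4 976)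
(mv 1297 (cons (fin 1232 4 1040)
(mv 975 (cons (fin 911 7 911)
(mv 977 (cons (fin 913 6 912)
(mv 1038 (cons (fin 974 1 973)
(fin 1039 2 973)))))))))))
(cons (mv 1231 (cons (fin 1167 5 975)
(mv 1295 (cons (fin 1232 5 1039)
(mv 975 (cons (fin 911 7 911)
(mv 977 (cons (fin 913 6 912)
(mv 1038 (cons (fin 974 1 973)
(fin 1039 2 973)))))))))))
(mv 1231 (cons (fin 1167 5 975)
(mv 1233 (cons (fin 1169 4 976)
(mv 975 (cons (fin 911 7 911)
(mv 977 (cons (fin 913 6 912)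
(mv 1038 (cons (fin 974 1 973)
(fin 1039 2 973)))))))))))))))
(cons (mv 1232 (cons (cons (mv 1295 (cons (fin 1231 5 1039)
(mv 1359 (cons (fin 1296 5 1103)
(mv 1297 (cons (fin 1233 4 1040)
(mv 975 (cons (fin 1039 7 975)
(mv 976 (cons (fin 911 7 911)
(mv 977 (cons (fin 913 6 912)
(mv 974 (cons (fin 1038 1 973)
(mv 973 (cons (fin 1036 1 972)
(mv 909 (cons (fin 908 3 908)
(fin 910 3 909)))))))))))))))))))
(mv 1295 (cons (fin 1231 5 1039)
(mv 1296 (cons (fin 1359 5 1103)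
(mv 1297 (cons (fin 1361 4 1104)
(fin 1233 4 1040))))))))
(cons (mv 1297 (cons (fin 1233 4 1040)
(mv 1361 (cons (fin 1296 4 1104)
(mv 975 (cons (fin 1039 7 975)
(mv 976 (cons (fin 911 7 911)
(mv 977 (cons (fin 913 6 912)
(mv 974 (cons (fin 1038 1 973)
(mv 973 (cons (fin 1036 1 972)
(mv 909 (cons (fin 908 3 908)
(fin 910 3 909)))))))))))))))))
(cons (mv 1295 (cons (fin 1231 5 1039)
(mv 1359 (cons (fin 1296 5 1103)
(mv 975 (cons (fin 1039 7 975)
(mv 976 (cons (fin 911 7 911)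
(mv 977 (cons (fin 913 6 912)
(mv 974 (cons (fin 1038 1 973)
(mv 973 (cons (fin 1036 1 972)
(mv 909 (cons (fin 908 3 908)
(fin 910 3 909)))))))))))))))))
(mv 1295 (cons (fin 1231 5 1039)
(mv 1297 (cons (fin 1233 4 1040)
(mv 975 (cons (fin 1039 7 975)
(mv 976 (cons (fin 911 7 911)
(mv 977 (cons (fin 913 6 912)
(mv 974 (cons (fin 1038 1 973)
(mv 973 (cons (fin 1036 1 972)
(mv 909 (cons (fin 908 3 908)
(fin 910 3 909)))))))))))))))))))))
(mv 976 (cons (cons (mv 1231 (cons (fin 1167 5 975)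
(mv 1295 (cons (fin 1232 5 1039)
(mv 1233 (cons (fin 1169 4 976)
(mv 911 (cons (fin 975 7 911)
(mv 912 (cons (fin 847 7 847)
(mv 913 (cons (fin 977 6 912)
(fin 849 6 848)))))))))))))
(cons (mv 1231 (cons (fin 1167 5 975)
(mv 1295 (cons (fin 1232 5 1039)
(mv 1169 (cons (fin 1233 4 976)
(mv 912 (cons (fin 1105 4 912)
(mv 913 (cons (fin 977 6 912)
(fin 849 6 848)))))))))))
(mv 1231 (cons (fin 1167 5 975)
(mv 1295 (cons (fin 1232 5 1039)
(mv 911 (cons (fin 975 7 911)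
(mv 912 (cons (fin 847 7 847)
(mv 913 (cons (fin 977 6 912)
(fin 849 6 848)))))))))))))
(cons (cons (mv 1231 (cons (fin 1167 5 975)
(mv 1295 (cons (fin 1232 5 1039)
(mv 1169 (cons (fin 1233 4 976)
(mv 911 (cons (fin 975 7 911)
(mv 912 (cons (fin 847 7 847)
(fin 1105 4 912)))))))))))
(mv 1233 (cons (fin 1169 4 976)
(mv 1297 (cons (fin 1232 4 1040)
(mv 911 (cons (fin 975 7 911)
(mv 912 (cons (fin 847 7 847)
(mv 913 (cons (fin 977 6 912)
(fin 849 6 848))))))))))))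
(cons (mv 1231 (cons (fin 1167 5 975)
(mv 1233 (cons (fin 1169 4 976)
(mv 911 (cons (fin 975 7 911)
(mv 912 (cons (fin 847 7 847)
(mv 913 (cons (fin 977 6 912)
(fin 849 6 848)))))))))))
(mv 1231 (cons (fin 1167 5 975)
(mv 1232 (cons (fin 1295 5 1039)
(mv 1233 (cons (fin 1297 4 1040)
(fin 1169 4 976)))))))))))))))))))
(cons (cons (mv 1039 (cons (cons (mv 1038 (cons (fin 1105 0 1037)
(mv 1100 (cons (fin 1101 1 1036)
(mv 1036 (cons (fin 1099 1 1035)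
(fin 1103 0 1036)))))))
(cons (mv 975 (cons (cons (mv 1168 (cons (fin 1232 7 975)
(mv 911 (cons (fin 976 7 911)
(fin 1103 4 911)))))
(mv 1168 (cons (fin 1232 7 975)
(mv 976 (cons (cons (mv 1233 (cons (fin 1169 4 976)
(mv 913 (cons (fin 977 6 912)
(mv 912 (cons (fin 849 6 848)
(mv 848 (cons (fin 1103 5 847)
(fin 784 5 783)))))))))
(mv 1169 (cons (fin 1233 4 976)
(mv 912 (cons (fin 1105 4 912)
(mv 848 (cons (fin 1103 5 847)
(fin 784 5 783))))))))
(cons (mv 913 (cons (fin 977 6 912)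
(mv 912 (cons (fin 849 6 848)
(mv 848 (cons (fin 1103 5 847)
(fin 784 5 783)))))))
(cons (mv 1169 (cons (fin 1233 4 976)
(mv 977 (cons (fin 913 6 912)
(mv 978 (cons (fin 979 1 975)
(mv 1042 (cons (fin 1043 0 975)
(mv 914 (cons (fin 915 2 911)
(mv 1106 (cons (fin 1105 5 913)
(mv 1171 (cons (fin 1107 4 914)
(mv 1170 (cons (fin 1103 3 1103)
(fin 1235 4 978)))))))))))))))))
(mv 1169 (cons (fin 1233 4 976)
(mv 1105 (cons (fin 912 4 912)
(mv 1106 (cons (fin 1107 3 1039)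
(mv 977 (cons (fin 913 6 912)
(mv 978 (cons (fin 979 1 975)
(mv 1042 (cons (fin 1043 0 975)
(fin 914 5 913))))))))))))))))))))
(cons (mv 911 (cons (fin 847 4 847)
(mv 1103 (cons (mv 1102 (cons (fin 1166 5 910)
(mv 1101 (cons (fin 1036 3 1036)
(fin 1100 2 1036)))))
(mv 910 (cons (fin 846 7 846)
(mv 912 (cons (fin 848 6 847)
(mv 976 (cons (mv 977 (cons (fin 978 3 910)
(fin 909 0 909)))
(cons (mv 1169 (cons (fin 1105 4 912)
(mv 908 (cons (fin 909 0 908)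
(mv 913 (cons (fin 849 6 848)
(mv 974 (cons (fin 973 1 909)
(fin 914 1 910)))))))))
(mv 1169 (cons (fin 1105 4 912)
(mv 977 (cons (fin 978 3 910)
(mv 913 (cons (fin 849 6 848)
(mv 974 (cons (fin 973 1 909)
(fin 914 1 910))))))))))))))))))))
(cons (mv 1168 (cons (fin 1232 7 975)
(mv 911 (cons (fin 1103 4 911)
(fin 847 4 847)))))
(mv 1168 (cons (fin 1232 7 975)
(mv 911 (cons (fin 976 7 911)
(fin 847 4 847)))))))))
(mv 1038 (cons (cons (mv 1100 (cons (fin 1101 1 1036)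
(mv 1036 (cons (fin 1099 1 1035)
(fin 1103 0 1036)))))
(mv 1100 (cons (fin 1101 1 1036)
(mv 976 (cons (fin 977 2 973)
(mv 1168 (cons (mv 975 (cons (fin 1232 7 975)
(fin 911 7 911)))
(cons (mv 1233 (cons (fin 1169 4 976)
(mv 1232 (cons (fin 1297 4 1040)
(mv 1295 (cons (fin 1231 5 1039)
(mv 1296 (cons (fin 1359 5 1103)
(fin 1103 7 1039)))))))))
(mv 1233 (cons (fin 1169 4 976)
(mv 911 (cons (fin 975 7 911)
(mv 912 (cons (fin 847 7 847)
(mv 848 (cons (fin 1103 5 847)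
(mv 849 (cons (fin 913 6 848)
(fin 785 6 784)))))))))))))))))))
(cons (mv 1103 (cons (fin 1036 0 1036)
(mv 976 (cons (fin 977 2 973)
(mv 912 (cons (fin 848 5 847)
(mv 911 (cons (fin 847 7 847)
(mv 1168 (cons (fin 975 7 911)
(mv 1232 (cons (fin 1296 7 1039)
(mv 1233 (cons (fin 1297 4 1040)
(fin 1169 4 976)))))))))))))))
(mv 1100 (cons (fin 1101 1 1036)
(mv 1036 (cons (fin 1099 1 1035)
(mv 976 (cons (fin 975 2 972)
(fin 977 2 973))))))))))))
(cons (mv 1038 (cons (fin 1105 0 1037)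
(mv 1100 (cons (fin 1101 1 1036)
(mv 1036 (cons (fin 1099 1 1035)
(mv 976 (cons (fin 975 2 972)
(fin 977 2 973)))))))))
(cons (mv 1038 (cons (fin 1105 0 1037)
(mv 1100 (cons (fin 1101 1 1036)
(mv 976 (cons (fin 977 2 973)
(mv 1168 (cons (mv 975 (cons (fin 1232 7 975)
(fin 911 7 911)))
(cons (mv 1233 (cons (fin 1169 4 976)
(mv 1232 (cons (fin 1297 4 1040)
(mv 1295 (cons (fin 1231 5 1039)
(mv 1296 (cons (fin 1359 5 1103)
(fin 1103 7 1039)))))))))
(mv 1233 (cons (fin 1169 4 976)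
(mv 911 (cons (fin 975 7 911)
(mv 912 (cons (fin 847 7 847)
(mv 848 (cons (fin 1103 5 847)
(mv 849 (cons (fin 913 6 848)
(fin 785 6 784))))))))))))))))))))
(mv 1038 (cons (fin 1105 0 1037)
(mv 1103 (cons (fin 1036 0 1036)
(mv 976 (cons (fin 977 2 973)
(mv 912 (cons (fin 848 5 847)
(mv 911 (cons (fin 847 7 847)
(mv 1168 (cons (fin 975 7 911)
(mv 1232 (cons (fin 1296 7 1039)
(mv 1233 (cons (fin 1297 4 1040)
(fin 1169 4 976)))))))))))))))))))))
(cons (mv 1038 (cons (cons (mv 1039 (cons (fin 1105 0 1037)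
(mv 1100 (cons (fin 1101 1 1036)
(mv 1036 (cons (fin 1099 1 1035)
(fin 1103 0 1036)))))))
(cons (mv 1102 (cons (cons (mv 1103 (cons (fin 1105 3 1037)
(mv 1036 (cons (fin 1101 3 1036)
(fin 1035 0 1035)))))
(mv 1166 (cons (cons (mv 1230 (cons (fin 973 7 973)
(mv 1293 (cons (fin 1229 5 1037)
(mv 1294 (cons (fin 1357 5 1101)
(fin 1101 7 1037)))))))
(mv 974 (cons (cons (mv 1229 (cons (fin 1165 5 973)
(mv 1231 (cons (fin 1167 4 974)
(mv 909 (cons (fin 973 7 909)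
(mv 910 (cons (fin 845 7 845)
(mv 846 (cons (fin 1101 5 845)
(mv 847 (cons (fin 911 6 846)
(fin 783 6 782)))))))))))))
(cons (mv 1231 (cons (fin 1167 4 974)
(mv 1165 (cons (fin 1229 5 973)
(mv 910 (cons (fin 1101 5 909)
(mv 847 (cons (fin 911 6 846)
(mv 846 (cons (fin 783 6 782)
(mv 781 (cons (fin 845 7 781)
(mv 782 (cons (fin 973 5 781)
(fin 717 7 717)))))))))))))))
(mv 1231 (cons (fin 1167 4 974)
(mv 909 (cons (fin 973 7 909)
(mv 910 (cons (fin 845 7 845)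
(mv 846 (cons (fin 1101 5 845)
(mv 847 (cons (fin 911 6 846)
(fin 783 6 782)))))))))))))
(cons (mv 1231 (cons (fin 1167 4 974)
(mv 1165 (cons (fin 1229 5 973)
(mv 910 (cons (fin 1101 5 909)
(mv 845 (cons (fin 909 7 845)
(mv 846 (cons (fin 781 7 781)
(mv 847 (cons (fin 911 6 846)
(fin 783 6 782)))))))))))))
(cons (mv 1229 (cons (fin 1165 5 973)
(mv 909 (cons (fin 973 7 909)
(mv 910 (cons (fin 845 7 845)
(mv 846 (cons (fin 1101 5 845)
(mv 847 (cons (fin 911 6 846)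
(fin 783 6 782)))))))))))
(mv 1165 (cons (fin 1229 5 973)
(mv 1167 (cons (fin 1231 4 974)
(mv 1168 (cons (fin 1105 2 1101)
(mv 1233 (cons (fin 1232 0 1165)
(mv 1169 (cons (fin 1234 0 1166)
(fin 976 4 976))))))))))))))))
(cons (mv 1230 (cons (cons (mv 1293 (cons (fin 1229 5 1037)
(mv 1294 (cons (fin 1357 5 1101)
(fin 1101 7 1037)))))
(mv 1293 (cons (fin 1229 5 1037)
(mv 1231 (cons (fin 1295 4 1038)
(mv 1167 (cons (fin 974 4 974)
(mv 1168 (cons (fin 976 5 975)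
(mv 1169 (cons (fin 1170 1 1166)
(fin 1101 3 1101))))))))))))
(cons (mv 1294 (cons (fin 1101 7 1037)
(mv 1295 (cons (fin 1359 4 1102)
(fin 1231 4 1038)))))
(mv 1293 (cons (fin 1229 5 1037)
(mv 1357 (cons (fin 1294 5 1101)
(mv 1231 (cons (fin 1295 4 1038)
(mv 1167 (cons (fin 974 4 974)
(mv 1168 (cons (fin 976 5 975)
(mv 1165 (cons (fin 1105 2 1101)
(mv 1232 (cons (fin 1233 3 1165)
(fin 1164 0 1164))))))))))))))))))
(cons (mv 1230 (cons (fin 973 7 973)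
(mv 1293 (cons (fin 1229 5 1037)
(mv 1357 (cons (fin 1294 5 1101)
(mv 1231 (cons (fin 1295 4 1038)
(mv 1167 (cons (fin 974 4 974)
(mv 1168 (cons (fin 976 5 975)
(mv 1165 (cons (fin 1105 2 1101)
(mv 1232 (cons (fin 1233 3 1165)
(fin 1164 0 1164)))))))))))))))))
(mv 1230 (cons (fin 973 7 973)
(mv 1294 (cons (fin 1101 7 1037)
(mv 1295 (cons (fin 1359 4 1102)
(fin 1231 4 1038))))))))))))
(cons (mv 973 (cons (cons (mv 1166 (cons (fin 1230 7 973)
(mv 909 (cons (fin 974 7 909)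
(fin 1101 4 909)))))
(mv 1166 (cons (fin 1230 7 973)
(mv 974 (cons (cons (mv 1229 (cons (fin 1165 5 973)
(mv 1167 (cons (fin 1231 4 974)
(mv 1103 (cons (fin 910 4 910)
(mv 1036 (cons (fin 1101 3 1036)
(fin 1035 0 1035)))))))))
(cons (mv 1167 (cons (fin 1231 4 974)
(mv 1103 (cons (fin 910 4 910)
(mv 1036 (cons (fin 1101 3 1036)
(fin 1035 0 1035)))))))
(mv 1165 (cons (fin 1229 5 973)
(mv 1101 (cons (fin 910 5 909)
(mv 1164 (cons (fin 1103 1 1100)
(fin 1228 5 972)))))))))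
(cons (mv 1165 (cons (fin 1229 5 973)
(mv 1167 (cons (fin 1231 4 974)
(mv 1164 (cons (fin 1103 2 1100)
(mv 1228 (cons (fin 1227 1 1163)
(fin 1101 5 972)))))))))
(cons (mv 1229 (cons (fin 1165 5 973)
(mv 1167 (cons (fin 1231 4 974)
(mv 910 (cons (fin 1103 4 910)
(mv 846 (cons (fin 782 5 781)
(mv 847 (cons (fin 911 6 846)
(fin 783 6 782)))))))))))
(mv 1231 (cons (fin 1167 4 974)
(mv 1165 (cons (fin 1229 5 973)
(mv 910 (cons (fin 1101 5 909)
(mv 846 (cons (fin 782 5 781)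
(mv 847 (cons (fin 911 6 846)
(fin 783 6 782))))))))))))))))))
(cons (mv 909 (cons (fin 845 4 845)
(mv 1101 (cons (cons (mv 1164 (cons (fin 1100 5 908)
(mv 1165 (cons (fin 1103 1 1100)
(fin 1228 5 972)))))
(mv 1164 (cons (fin 1100 5 908)
(mv 1165 (cons (fin 1228 5 972)
(mv 1229 (cons (fin 1293 6 1037)
(fin 974 6 973))))))))
(cons (mv 1103 (cons (fin 1036 3 1036)
(mv 1168 (cons (fin 1169 0 1101)
(mv 1167 (cons (fin 1100 0 1100)
(mv 1231 (cons (fin 976 5 975)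
(fin 1295 7 1038)))))))))
(mv 1103 (cons (fin 1036 3 1036)
(mv 1164 (cons (fin 1165 1 1100)
(mv 1168 (cons (fin 1169 0 1101)
(mv 908 (cons (fin 844 7 844)
(mv 910 (cons (fin 846 6 845)
(mv 1167 (cons (fin 974 4 910)
(mv 1231 (cons (fin 976 5 975)
(fin 1295 7 1038))))))))))))))))))))
(cons (mv 1166 (cons (fin 1230 7 973)
(mv 909 (cons (fin 974 7 909)
(fin 845 4 845)))))
(mv 1166 (cons (fin 1230 7 973)
(mv 909 (cons (fin 1101 4 909)
(fin 845 4 845)))))))))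
(mv 1103 (cons (fin 1105 3 1037)
(mv 1035 (cons (fin 1036 0 1035)
(mv 1167 (cons (mv 1231 (cons (fin 1295 7 1038)
(mv 974 (cons (fin 1166 4 974)
(fin 910 4 910)))))
(cons (mv 974 (cons (fin 910 4 910)
(mv 976 (cons (fin 912 5 911)
(mv 1166 (cons (mv 1165 (cons (fin 1164 2 1100)
(fin 1229 5 973)))
(mv 973 (cons (fin 1230 7 973)
(fin 909 7 909)))))))))
(mv 1231 (cons (fin 1295 7 1038)
(mv 976 (cons (fin 1168 5 975)
(fin 912 5 911)))))))))))))))
(mv 1039 (cons (cons (mv 1100 (cons (fin 1101 1 1036)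
(mv 1036 (cons (fin 1099 1 1035)
(fin 1103 0 1036)))))
(mv 1100 (cons (fin 1101 1 1036)
(mv 976 (cons (fin 977 2 973)
(mv 912 (cons (mv 1103 (cons (fin 1167 5 911)
(fin 848 5 847)))
(cons (mv 847 (cons (fin 911 7 847)
(mv 848 (cons (fin 783 7 783)
(mv 849 (cons (fin 913 6 848)
(fin 785 6 784)))))))
(mv 911 (cons (fin 847 7 847)
(mv 913 (cons (fin 849 6 848)
(mv 1168 (cons (cons (mv 1167 (cons (fin 1231 5 975)
(fin 1103 5 911)))
(mv 1233 (cons (fin 1169 4 976)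
(mv 1232 (cons (fin 1297 4 1040)
(mv 1295 (cons (fin 1231 5 1039)
(mv 1296 (cons (fin 1359 5 1103)
(fin 1103 7 1039))))))))))
(cons (mv 1231 (cons (fin 1167 5 975)
(mv 1232 (cons (fin 1295 5 1039)
(mv 1233 (cons (fin 1297 4 1040)
(fin 1169 4 976)))))))
(mv 1233 (cons (fin 1169 4 976)
(mv 1232 (cons (fin 1297 4 1040)
(mv 1103 (cons (fin 1167 5 911)
(fin 1296 7 1039))))))))))))))))))))))
(cons (mv 1103 (cons (fin 1036 0 1036)
(mv 976 (cons (fin 977 2 973)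
(mv 1167 (cons (fin 912 5 911)
(fin 1231 6 975)))))))
(mv 976 (cons (fin 977 2 973)
(mv 1168 (cons (cons (mv 1231 (cons (fin 1167 5 975)
(mv 1232 (cons (fin 1295 5 1039)
(mv 1233 (cons (fin 1297 4 1040)
(fin 1169 4 976)))))))
(cons (mv 1233 (cons (fin 1169 4 976)
(mv 1232 (cons (fin 1297 4 1040)
(mv 1101 (cons (fin 1100 1 1036)
(mv 1165 (cons (mv 1229 (cons (fin 974 6 973)
(mv 1292 (cons (fin 1228 5 1036)
(mv 1293 (cons (fin 1356 5 1100)
(fin 1102 6 1037)))))))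
(cons (mv 1166 (cons (fin 1167 0 1165)
(mv 1230 (cons (fin 973 4 973)
(mv 1294 (cons (fin 1358 7 1101)
(fin 1102 7 1037)))))))
(mv 1229 (cons (fin 974 6 973)
(mv 1292 (cons (fin 1228 5 1036)
(mv 1356 (cons (fin 1293 5 1100)
(mv 1230 (cons (fin 1294 4 1037)
(mv 1166 (cons (fin 1167 0 1165)
(fin 973 4 973))))))))))))))))))))
(mv 1231 (cons (fin 1167 5 975)
(mv 1232 (cons (fin 1295 5 1039)
(mv 912 (cons (cons (mv 1100 (cons (fin 1101 1 1036)
(mv 1099 (cons (fin 1036 1 1035)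
(mv 847 (cons (fin 911 7 847)
(mv 848 (cons (fin 783 7 783)
(mv 849 (cons (fin 913 6 848)
(fin 785 6 784)))))))))))
(mv 847 (cons (fin 911 7 847)
(mv 848 (cons (fin 783 7 783)
(mv 849 (cons (fin 913 6 848)
(fin 785 6 784))))))))
(cons (mv 913 (cons (fin 849 6 848)
(mv 1229 (cons (cons (mv 1230 (cons (fin 1169 2 1165)
(mv 1292 (cons (fin 1293 1 1228)
(mv 1291 (cons (fin 1228 1 1227)
(mv 1296 (cons (fin 1297 0 1229)
(mv 1165 (cons (fin 1164 3 1164)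
(mv 1101 (cons (fin 1100 1 1036)
(fin 1294 4 1037)))))))))))))
(cons (mv 1101 (cons (fin 1100 1 1036)
(mv 1165 (cons (fin 974 6 973)
(mv 1292 (cons (fin 1228 5 1036)
(mv 1293 (cons (fin 1356 5 1100)
(fin 1102 6 1037)))))))))
(mv 1230 (cons (fin 1169 2 1165)
(mv 1292 (cons (fin 1293 1 1228)
(mv 1296 (cons (fin 1297 0 1229)
(mv 1228 (cons (fin 1291 1 1227)
(mv 1164 (cons (fin 1163 3 1163)
(fin 1165 3 1164)))))))))))))
(cons (cons (mv 1230 (cons (fin 1169 2 1165)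
(mv 1292 (cons (fin 1293 1 1228)
(mv 1296 (cons (fin 1297 0 1229)
(mv 1228 (cons (fin 1291 1 1227)
(mv 1163 (cons (fin 1164 3 1163)
(mv 1227 (cons (fin 1162 3 1162)
(mv 1099 (cons (fin 1035 4 1035)
(mv 1100 (cons (fin 1036 1 1035)
(fin 1101 1 1036)))))))))))))))))
(mv 1230 (cons (fin 1169 2 1165)
(mv 1296 (cons (fin 1297 0 1229)
(mv 1164 (cons (fin 1165 3 1164)
(mv 1228 (cons (fin 1163 3 1163)
(mv 1291 (cons (fin 1292 1 1227)
(mv 1290 (cons (fin 1227 1 1226)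
(mv 1100 (cons (fin 1101 1 1036)
(mv 1036 (cons (fin 1099 1 1035)
(fin 973 6 972))))))))))))))))))
(cons (mv 1230 (cons (fin 1169 2 1165)
(mv 1296 (cons (fin 1297 0 1229)
(mv 1164 (cons (fin 1165 3 1164)
(mv 1228 (cons (fin 1163 3 1163)
(mv 1100 (cons (fin 1101 1 1036)
(mv 1036 (cons (fin 1099 1 1035)
(fin 1293 4 1036)))))))))))))
(mv 1230 (cons (fin 1169 2 1165)
(mv 1292 (cons (fin 1293 1 1228)
(mv 1296 (cons (fin 1297 0 1229)
(mv 1165 (cons (fin 1164 3 1164)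
(mv 1101 (cons (fin 1100 1 1036)
(fin 1294 4 1037)))))))))))))))))
(mv 911 (cons (fin 847 7 847)
(mv 1229 (cons (cons (mv 1230 (cons (fin 1169 2 1165)
(mv 1292 (cons (fin 1293 1 1228)
(mv 1291 (cons (fin 1228 1 1227)
(mv 1296 (cons (fin 1297 0 1229)
(mv 1165 (cons (fin 1164 3 1164)
(mv 1101 (cons (fin 1100 1 1036)
(fin 1294 4 1037)))))))))))))
(cons (mv 1101 (cons (fin 1100 1 1036)
(mv 1165 (cons (fin 974 6 973)
(mv 1292 (cons (fin 1228 5 1036)
(mv 1293 (cons (fin 1356 5 1100)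
(fin 1102 6 1037)))))))))
(mv 1230 (cons (fin 1169 2 1165)
(mv 1292 (cons (fin 1293 1 1228)
(mv 1296 (cons (fin 1297 0 1229)
(mv 1228 (cons (fin 1291 1 1227)
(mv 1164 (cons (fin 1163 3 1163)
(fin 1165 3 1164)))))))))))))
(cons (cons (mv 1230 (cons (fin 1169 2 1165)
(mv 1292 (cons (fin 1293 1 1228)
(mv 1296 (cons (fin 1297 0 1229)
(mv 1228 (cons (fin 1291 1 1227)
(mv 1163 (cons (fin 1164 3 1163)
(mv 1227 (cons (fin 1162 3 1162)
(mv 1099 (cons (fin 1035 4 1035)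
(mv 1100 (cons (fin 1036 1 1035)
(fin 1101 1 1036)))))))))))))))))
(mv 1230 (cons (fin 1169 2 1165)
(mv 1296 (cons (fin 1297 0 1229)
(mv 1164 (cons (fin 1165 3 1164)
(mv 1228 (cons (fin 1163 3 1163)
(mv 1291 (cons (fin 1292 1 1227)
(mv 1290 (cons (fin 1227 1 1226)
(mv 1100 (cons (fin 1101 1 1036)
(mv 1036 (cons (fin 1099 1 1035)
(fin 973 6 972))))))))))))))))))
(cons (mv 1230 (cons (fin 1169 2 1165)
(mv 1296 (cons (fin 1297 0 1229)
(mv 1164 (cons (fin 1165 3 1164)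
(mv 1228 (cons (fin 1163 3 1163)
(mv 1100 (cons (fin 1101 1 1036)
(mv 1036 (cons (fin 1099 1 1035)
(fin 1293 4 1036)))))))))))))
(mv 1230 (cons (fin 1169 2 1165)
(mv 1292 (cons (fin 1293 1 1228)
(mv 1296 (cons (fin 1297 0 1229)
(mv 1165 (cons (fin 1164 3 1164)
(mv 1101 (cons (fin 1100 1 1036)
(fin 1294 4 1037))))))))))))))))))))))))))
(cons (mv 1101 (cons (fin 1100 1 1036)
(mv 974 (cons (cons (mv 1233 (cons (fin 1169 4 976)
(mv 1297 (cons (fin 1232 4 1040)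
(mv 1165 (cons (fin 1229 6 973)
(mv 910 (cons (fin 1102 5 909)
(fin 846 5 845)))))))))
(mv 1229 (cons (fin 1165 6 973)
(mv 1232 (cons (mv 1233 (cons (fin 1297 4 1040)
(fin 1169 4 976)))
(cons (mv 1295 (cons (fin 1231 5 1039)
(mv 1296 (cons (fin 1359 5 1103)
(mv 1297 (cons (fin 1361 4 1104)
(mv 1294 (cons (fin 1230 3 1229)
(mv 1357 (cons (fin 1358 1 1293)
(mv 1293 (cons (fin 1356 1 1292)
(fin 1228 3 1228)))))))))))))
(mv 1231 (cons (fin 1295 5 1039)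
(mv 1169 (cons (fin 1230 2 1165)
(fin 1233 4 976)))))))))))
(cons (mv 1233 (cons (fin 1169 4 976)
(mv 1232 (cons (fin 1297 4 1040)
(mv 1231 (cons (fin 1295 5 1039)
(mv 912 (cons (cons (mv 910 (cons (fin 846 5 845)
(mv 911 (cons (fin 847 7 847)
(mv 913 (cons (fin 973 1 909)
(fin 849 6 848)))))))
(cons (mv 910 (cons (fin 846 5 845)
(mv 849 (cons (fin 913 6 848)
(mv 848 (cons (fin 785 6 784)
(mv 909 (cons (fin 911 2 845)
(mv 845 (cons (fin 1102 7 845)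
(mv 781 (cons (fin 973 4 781)
(fin 717 4 717)))))))))))))
(mv 846 (cons (fin 910 5 845)
(mv 847 (cons (fin 911 7 847)
(mv 848 (cons (fin 783 7 783)
(mv 845 (cons (fin 913 0 845)
(mv 908 (cons (fin 909 1 844)
(mv 844 (cons (fin 907 1 843)
(mv 780 (cons (fin 779 3 779)
(fin 781 3 780)))))))))))))))))
(cons (mv 847 (cons (fin 911 7 847)
(mv 848 (cons (fin 783 7 783)
(mv 849 (cons (fin 913 6 848)
(fin 785 6 784)))))))
(cons (mv 846 (cons (fin 910 5 845)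
(mv 849 (cons (fin 913 6 848)
(mv 848 (cons (fin 785 6 784)
(mv 847 (cons (fin 783 7 783)
(mv 781 (cons (fin 782 3 781)
(mv 845 (cons (fin 780 3 780)
(mv 909 (cons (fin 908 1 844)
(fin 973 4 781)))))))))))))))
(mv 846 (cons (fin 910 5 845)
(mv 847 (cons (fin 911 7 847)
(mv 848 (cons (fin 783 7 783)
(mv 849 (cons (fin 785 6 784)
(mv 781 (cons (fin 782 3 781)
(mv 845 (cons (fin 780 3 780)
(mv 909 (cons (fin 908 1 844)
(fin 973 4 781)))))))))))))))))))))))))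
(mv 1165 (cons (fin 1229 6 973)
(mv 910 (cons (fin 1102 5 909)
(fin 846 5 845))))))))))
(cons (mv 1231 (cons (fin 1167 5 975)
(mv 1232 (cons (fin 1295 5 1039)
(mv 1297 (cons (fin 1233 4 1040)
(mv 1296 (cons (fin 1361 4 1104)
(mv 1298 (cons (fin 1299 3 1231)
(mv 1229 (cons (fin 1230 0 1229)
(mv 1101 (cons (fin 1100 1 1036)
(mv 1165 (cons (fin 974 6 973)
(mv 1292 (cons (fin 1228 5 1036)
(mv 1293 (cons (fin 1356 5 1100)
(fin 1102 6 1037)))))))))))))))))))))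
(mv 1167 (cons (fin 1231 5 975)
(mv 1169 (cons (fin 1233 4 976)
(mv 1101 (cons (fin 1100 1 1036)
(mv 1166 (cons (fin 1102 3 1101)
(mv 1229 (cons (fin 1230 1 1165)
(mv 1165 (cons (fin 1228 1 1164)
(fin 974 6 973))))))))))))))))))))))))
(cons (mv 1039 (cons (fin 1105 0 1037)
(mv 976 (cons (fin 977 2 973)
(mv 1168 (cons (cons (mv 1231 (cons (fin 1167 5 975)
(mv 1232 (cons (fin 1295 5 1039)
(mv 1233 (cons (fin 1297 4 1040)
(fin 1169 4 976)))))))
(cons (mv 1233 (cons (fin 1169 4 976)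
(mv 1232 (cons (fin 1297 4 1040)
(mv 1101 (cons (fin 1100 1 1036)
(mv 1165 (cons (mv 1229 (cons (fin 974 6 973)
(mv 1292 (cons (fin 1228 5 1036)
(mv 1293 (cons (fin 1356 5 1100)
(fin 1102 6 1037)))))))
(cons (mv 1166 (cons (fin 1167 0 1165)
(mv 1230 (cons (fin 973 4 973)
(mv 1294 (cons (fin 1358 7 1101)
(fin 1102 7 1037)))))))
(mv 1229 (cons (fin 974 6 973)
(mv 1292 (cons (fin 1228 5 1036)
(mv 1356 (cons (fin 1293 5 1100)
(mv 1230 (cons (fin 1294 4 1037)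
(mv 1166 (cons (fin 1167 0 1165)
(fin 973 4 973))))))))))))))))))))
(mv 1231 (cons (fin 1167 5 975)
(mv 1232 (cons (fin 1295 5 1039)
(mv 912 (cons (cons (mv 1100 (cons (fin 1101 1 1036)
(mv 1099 (cons (fin 1036 1 1035)
(mv 847 (cons (fin 911 7 847)
(mv 848 (cons (fin 783 7 783)
(mv 849 (cons (fin 913 6 848)
(fin 785 6 784)))))))))))
(mv 847 (cons (fin 911 7 847)
(mv 848 (cons (fin 783 7 783)
(mv 849 (cons (fin 913 6 848)
(fin 785 6 784))))))))
(cons (mv 913 (cons (fin 849 6 848)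
(mv 1229 (cons (cons (mv 1230 (cons (fin 1169 2 1165)
(mv 1292 (cons (fin 1293 1 1228)
(mv 1291 (cons (fin 1228 1 1227)
(mv 1296 (cons (fin 1297 0 1229)
(mv 1165 (cons (fin 1164 3 1164)
(mv 1101 (cons (fin 1100 1 1036)
(fin 1294 4 1037)))))))))))))
(cons (mv 1101 (cons (fin 1100 1 1036)
(mv 1165 (cons (fin 974 6 973)
(mv 1292 (cons (fin 1228 5 1036)
(mv 1293 (cons (fin 1356 5 1100)
(fin 1102 6 1037)))))))))
(mv 1230 (cons (fin 1169 2 1165)
(mv 1292 (cons (fin 1293 1 1228)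
(mv 1296 (cons (fin 1297 0 1229)
(mv 1228 (cons (fin 1291 1 1227)
(mv 1164 (cons (fin 1163 3 1163)
(fin 1165 3 1164)))))))))))))
(cons (cons (mv 1230 (cons (fin 1169 2 1165)
(mv 1292 (cons (fin 1293 1 1228)
(mv 1296 (cons (fin 1297 0 1229)
(mv 1228 (cons (fin 1291 1 1227)
(mv 1163 (cons (fin 1164 3 1163)
(mv 1227 (cons (fin 1162 3 1162)
(mv 1099 (cons (fin 1035 4 1035)
(mv 1100 (cons (fin 1036 1 1035)
(fin 1101 1 1036)))))))))))))))))
(mv 1230 (cons (fin 1169 2 1165)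
(mv 1296 (cons (fin 1297 0 1229)
(mv 1164 (cons (fin 1165 3 1164)
(mv 1228 (cons (fin 1163 3 1163)
(mv 1291 (cons (fin 1292 1 1227)
(mv 1290 (cons (fin 1227 1 1226)
(mv 1100 (cons (fin 1101 1 1036)
(mv 1036 (cons (fin 1099 1 1035)
(fin 973 6 972))))))))))))))))))
(cons (mv 1230 (cons (fin 1169 2 1165)
(mv 1296 (cons (fin 1297 0 1229)
(mv 1164 (cons (fin 1165 3 1164)
(mv 1228 (cons (fin 1163 3 1163)
(mv 1100 (cons (fin 1101 1 1036)
(mv 1036 (cons (fin 1099 1 1035)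
(fin 1293 4 1036)))))))))))))
(mv 1230 (cons (fin 1169 2 1165)
(mv 1292 (cons (fin 1293 1 1228)
(mv 1296 (cons (fin 1297 0 1229)
(mv 1165 (cons (fin 1164 3 1164)
(mv 1101 (cons (fin 1100 1 1036)
(fin 1294 4 1037)))))))))))))))))
(mv 911 (cons (fin 847 7 847)
(mv 1229 (cons (cons (mv 1230 (cons (fin 1169 2 1165)
(mv 1292 (cons (fin 1293 1 1228)
(mv 1291 (cons (fin 1228 1 1227)
(mv 1296 (cons (fin 1297 0 1229)
(mv 1165 (cons (fin 1164 3 1164)
(mv 1101 (cons (fin 1100 1 1036)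
(fin 1294 4 1037)))))))))))))
(cons (mv 1101 (cons (fin 1100 1 1036)
(mv 1165 (cons (fin 974 6 973)
(mv 1292 (cons (fin 1228 5 1036)
(mv 1293 (cons (fin 1356 5 1100)
(fin 1102 6 1037)))))))))
(mv 1230 (cons (fin 1169 2 1165)
(mv 1292 (cons (fin 1293 1 1228)
(mv 1296 (cons (fin 1297 0 1229)
(mv 1228 (cons (fin 1291 1 1227)
(mv 1164 (cons (fin 1163 3 1163)
(fin 1165 3 1164)))))))))))))
(cons (cons (mv 1230 (cons (fin 1169 2 1165)
(mv 1292 (cons (fin 1293 1 1228)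
(mv 1296 (cons (fin 1297 0 1229)
(mv 1228 (cons (fin 1291 1 1227)
(mv 1163 (cons (fin 1164 3 1163)
(mv 1227 (cons (fin 1162 3 1162)
(mv 1099 (cons (fin 1035 4 1035)
(mv 1100 (cons (fin 1036 1 1035)
(fin 1101 1 1036)))))))))))))))))
(mv 1230 (cons (fin 1169 2 1165)
(mv 1296 (cons (fin 1297 0 1229)
(mv 1164 (cons (fin 1165 3 1164)
(mv 1228 (cons (fin 1163 3 1163)
(mv 1291 (cons (fin 1292 1 1227)
(mv 1290 (cons (fin 1227 1 1226)
(mv 1100 (cons (fin 1101 1 1036)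
(mv 1036 (cons (fin 1099 1 1035)
(fin 973 6 972))))))))))))))))))
(cons (mv 1230 (cons (fin 1169 2 1165)
(mv 1296 (cons (fin 1297 0 1229)
(mv 1164 (cons (fin 1165 3 1164)
(mv 1228 (cons (fin 1163 3 1163)
(mv 1100 (cons (fin 1101 1 1036)
(mv 1036 (cons (fin 1099 1 1035)
(fin 1293 4 1036)))))))))))))
(mv 1230 (cons (fin 1169 2 1165)
(mv 1292 (cons (fin 1293 1 1228)
(mv 1296 (cons (fin 1297 0 1229)
(mv 1165 (cons (fin 1164 3 1164)
(mv 1101 (cons (fin 1100 1 1036)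
(fin 1294 4 1037))))))))))))))))))))))))))
(cons (mv 1101 (cons (fin 1100 1 1036)
(mv 974 (cons (cons (mv 1233 (cons (fin 1169 4 976)
(mv 1297 (cons (fin 1232 4 1040)
(mv 1165 (cons (fin 1229 6 973)
(mv 910 (cons (fin 1102 5 909)
(fin 846 5 845)))))))))
(mv 1229 (cons (fin 1165 6 973)
(mv 1232 (cons (mv 1233 (cons (fin 1297 4 1040)
(fin 1169 4 976)))
(cons (mv 1295 (cons (fin 1231 5 1039)
(mv 1296 (cons (fin 1359 5 1103)
(mv 1297 (cons (fin 1361 4 1104)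
(mv 1294 (cons (fin 1230 3 1229)
(mv 1357 (cons (fin 1358 1 1293)
(mv 1293 (cons (fin 1356 1 1292)
(fin 1228 3 1228)))))))))))))
(mv 1231 (cons (fin 1295 5 1039)
(mv 1169 (cons (fin 1230 2 1165)
(fin 1233 4 976)))))))))))
(cons (mv 1233 (cons (fin 1169 4 976)
(mv 1232 (cons (fin 1297 4 1040)
(mv 1231 (cons (fin 1295 5 1039)
(mv 912 (cons (cons (mv 910 (cons (fin 846 5 845)
(mv 911 (cons (fin 847 7 847)
(mv 913 (cons (fin 973 1 909)
(fin 849 6 848)))))))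
(cons (mv 910 (cons (fin 846 5 845)
(mv 849 (cons (fin 913 6 848)
(mv 848 (cons (fin 785 6 784)
(mv 909 (cons (fin 911 2 845)
(mv 845 (cons (fin 1102 7 845)
(mv 781 (cons (fin 973 4 781)
(fin 717 4 717)))))))))))))
(mv 846 (cons (fin 910 5 845)
(mv 847 (cons (fin 911 7 847)
(mv 848 (cons (fin 783 7 783)
(mv 845 (cons (fin 913 0 845)
(mv 908 (cons (fin 909 1 844)
(mv 844 (cons (fin 907 1 843)
(mv 780 (cons (fin 779 3 779)
(fin 781 3 780)))))))))))))))))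
(cons (mv 847 (cons (fin 911 7 847)
(mv 848 (cons (fin 783 7 783)
(mv 849 (cons (fin 913 6 848)
(fin 785 6 784)))))))
(cons (mv 846 (cons (fin 910 5 845)
(mv 849 (cons (fin 913 6 848)
(mv 848 (cons (fin 785 6 784)
(mv 847 (cons (fin 783 7 783)
(mv 781 (cons (fin 782 3 781)
(mv 845 (cons (fin 780 3 780)
(mv 909 (cons (fin 908 1 844)
(fin 973 4 781)))))))))))))))
(mv 846 (cons (fin 910 5 845)
(mv 847 (cons (fin 911 7 847)
(mv 848 (cons (fin 783 7 783)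
(mv 849 (cons (fin 785 6 784)
(mv 781 (cons (fin 782 3 781)
(mv 845 (cons (fin 780 3 780)
(mv 909 (cons (fin 908 1 844)
(fin 973 4 781)))))))))))))))))))))))))
(mv 1165 (cons (fin 1229 6 973)
(mv 910 (cons (fin 1102 5 909)
(fin 846 5 845))))))))))
(cons (mv 1231 (cons (fin 1167 5 975)
(mv 1232 (cons (fin 1295 5 1039)
(mv 1297 (cons (fin 1233 4 1040)
(mv 1296 (cons (fin 1361 4 1104)
(mv 1298 (cons (fin 1299 3 1231)
(mv 1229 (cons (fin 1230 0 1229)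
(mv 1101 (cons (fin 1100 1 1036)
(mv 1165 (cons (fin 974 6 973)
(mv 1292 (cons (fin 1228 5 1036)
(mv 1293 (cons (fin 1356 5 1100)
(fin 1102 6 1037)))))))))))))))))))))
(mv 1167 (cons (fin 1231 5 975)
(mv 1169 (cons (fin 1233 4 976)
(mv 1101 (cons (fin 1100 1 1036)
(mv 1166 (cons (fin 1102 3 1101)
(mv 1229 (cons (fin 1230 1 1165)
(mv 1165 (cons (fin 1228 1 1164)
(fin 974 6 973)))))))))))))))))))))
(cons (mv 1039 (cons (fin 1105 0 1037)
(mv 1100 (cons (fin 1101 1 1036)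
(mv 976 (cons (fin 977 2 973)
(mv 912 (cons (mv 1103 (cons (fin 1167 5 911)
(fin 848 5 847)))
(cons (mv 847 (cons (fin 911 7 847)
(mv 848 (cons (fin 783 7 783)
(mv 849 (cons (fin 913 6 848)
(fin 785 6 784)))))))
(mv 911 (cons (fin 847 7 847)
(mv 913 (cons (fin 849 6 848)
(mv 1168 (cons (cons (mv 1167 (cons (fin 1231 5 975)
(fin 1103 5 911)))
(mv 1233 (cons (fin 1169 4 976)
(mv 1232 (cons (fin 1297 4 1040)
(mv 1295 (cons (fin 1231 5 1039)
(mv 1296 (cons (fin 1359 5 1103)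
(fin 1103 7 1039))))))))))
(cons (mv 1231 (cons (fin 1167 5 975)
(mv 1232 (cons (fin 1295 5 1039)
(mv 1233 (cons (fin 1297 4 1040)
(fin 1169 4 976)))))))
(mv 1233 (cons (fin 1169 4 976)
(mv 1232 (cons (fin 1297 4 1040)
(mv 1103 (cons (fin 1167 5 911)
(fin 1296 7 1039)))))))))))))))))))))))
(mv 1039 (cons (fin 1105 0 1037)
(mv 1103 (cons (fin 1036 0 1036)
(mv 976 (cons (fin 977 2 973)
(mv 1167 (cons (fin 912 5 911)
(fin 1231 6 975)))))))))))))
(mv 1038 (cons (cons (mv 1039 (cons (fin 1105 0 1037)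
(mv 1100 (cons (fin 1101 1 1036)
(mv 1036 (cons (fin 1099 1 1035)
(fin 1103 0 1036)))))))
(cons (mv 1102 (cons (cons (mv 1103 (cons (fin 1105 3 1037)
(mv 1036 (cons (fin 1101 3 1036)
(fin 1035 0 1035)))))
(mv 1166 (cons (cons (mv 1230 (cons (fin 973 7 973)
(mv 1293 (cons (fin 1229 5 1037)
(mv 1294 (cons (fin 1357 5 1101)
(fin 1101 7 1037)))))))
(mv 974 (cons (cons (mv 1229 (cons (fin 1165 5 973)
(mv 1231 (cons (fin 1167 4 974)
(mv 973 (cons (fin 909 7 909)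
(mv 975 (cons (fin 911 6 910)
(mv 1036 (cons (fin 976 1 972)
(fin 1035 2 971)))))))))))
(cons (mv 1229 (cons (fin 1165 5 973)
(mv 1231 (cons (fin 1167 4 974)
(mv 975 (cons (fin 911 6 910)
(mv 1036 (cons (fin 1035 2 971)
(mv 976 (cons (fin 973 1 972)
(fin 977 1 973)))))))))))
(mv 1229 (cons (fin 1165 5 973)
(mv 1231 (cons (fin 1167 4 974)
(mv 911 (cons (fin 975 6 910)
(mv 910 (cons (fin 847 6 846)
(mv 845 (cons (fin 909 7 845)
(mv 846 (cons (fin 1101 5 845)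
(fin 781 7 781)))))))))))))))
(cons (cons (mv 1231 (cons (fin 1167 4 974)
(mv 973 (cons (fin 909 7 909)
(mv 975 (cons (fin 911 6 910)
(mv 1036 (cons (fin 976 1 972)
(fin 1035 2 971)))))))))
(mv 1229 (cons (fin 1165 5 973)
(mv 1231 (cons (fin 1167 4 974)
(mv 909 (cons (fin 973 7 909)
(mv 910 (cons (fin 845 7 845)
(mv 846 (cons (fin 1101 5 845)
(mv 847 (cons (fin 911 6 846)
(fin 783 6 782))))))))))))))
(cons (mv 1231 (cons (fin 1167 4 974)
(mv 1165 (cons (fin 1229 5 973)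
(mv 909 (cons (fin 973 7 909)
(mv 910 (cons (fin 1101 5 909)
(fin 845 7 845)))))))))
(mv 1229 (cons (fin 1165 5 973)
(mv 973 (cons (fin 909 7 909)
(mv 975 (cons (fin 911 6 910)
(mv 1036 (cons (fin 976 1 972)
(fin 1035 2 971))))))))))))))
(cons (mv 974 (cons (cons (mv 1229 (cons (fin 1165 5 973)
(mv 1293 (cons (fin 1230 5 1037)
(mv 1231 (cons (fin 1167 4 974)
(mv 911 (cons (fin 975 6 910)
(mv 910 (cons (fin 847 6 846)
(mv 845 (cons (fin 909 7 845)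
(mv 846 (cons (fin 1101 5 845)
(fin 781 7 781)))))))))))))))
(mv 1231 (cons (fin 1167 4 974)
(mv 1295 (cons (fin 1230 4 1038)
(mv 1232 (cons (fin 1168 5 1039)
(mv 911 (cons (fin 975 6 910)
(mv 910 (cons (fin 847 6 846)
(mv 845 (cons (fin 909 7 845)
(mv 846 (cons (fin 1101 5 845)
(fin 781 7 781))))))))))))))))
(cons (mv 1229 (cons (fin 1165 5 973)
(mv 1230 (cons (fin 1293 5 1037)
(mv 1231 (cons (fin 1295 4 1038)
(fin 1167 4 974)))))))
(cons (mv 1229 (cons (fin 1165 5 973)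
(mv 1293 (cons (fin 1230 5 1037)
(mv 911 (cons (fin 975 6 910)
(mv 910 (cons (fin 847 6 846)
(mv 845 (cons (fin 909 7 845)
(mv 846 (cons (fin 1101 5 845)
(fin 781 7 781)))))))))))))
(mv 1229 (cons (fin 1165 5 973)
(mv 1231 (cons (fin 1167 4 974)
(mv 911 (cons (fin 975 6 910)
(mv 910 (cons (fin 847 6 846)
(mv 845 (cons (fin 909 7 845)
(mv 846 (cons (fin 1101 5 845)
(fin 781 7 781)))))))))))))))))
(cons (mv 1230 (cons (fin 973 7 973)
(mv 1293 (cons (fin 1229 5 1037)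
(mv 1357 (cons (fin 1294 5 1101)
(mv 1231 (cons (fin 1295 4 1038)
(mv 1167 (cons (fin 974 4 974)
(mv 1168 (cons (fin 976 5 975)
(mv 1165 (cons (fin 1105 2 1101)
(mv 1232 (cons (fin 1233 3 1165)
(fin 1164 0 1164)))))))))))))))))
(mv 1230 (cons (fin 973 7 973)
(mv 1294 (cons (fin 1101 7 1037)
(mv 1295 (cons (fin 1359 4 1102)
(fin 1231 4 1038))))))))))))
(cons (mv 1103 (cons (mv 1036 (cons (fin 1101 3 1036)
(fin 1035 0 1035)))
(mv 1167 (cons (cons (mv 1295 (cons (fin 1231 7 1038)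
(mv 974 (cons (fin 910 4 910)
(mv 976 (cons (fin 912 5 911)
(mv 975 (cons (fin 977 1 973)
(mv 911 (cons (fin 1168 7 911)
(fin 1166 6 910)))))))))))
(mv 974 (cons (fin 910 4 910)
(mv 976 (cons (fin 912 5 911)
(mv 975 (cons (fin 977 1 973)
(mv 911 (cons (fin 1168 7 911)
(fin 1166 6 910))))))))))
(cons (mv 1231 (cons (fin 1295 7 1038)
(mv 976 (cons (fin 1168 5 975)
(fin 912 5 911)))))
(mv 1231 (cons (fin 1295 7 1038)
(mv 974 (cons (fin 1166 4 974)
(fin 910 4 910))))))))))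
(mv 1103 (cons (fin 1105 3 1037)
(mv 1167 (cons (cons (mv 1295 (cons (fin 1231 7 1038)
(mv 974 (cons (fin 910 4 910)
(mv 976 (cons (fin 912 5 911)
(mv 975 (cons (fin 977 1 973)
(mv 911 (cons (fin 1168 7 911)
(fin 1166 6 910)))))))))))
(mv 974 (cons (fin 910 4 910)
(mv 976 (cons (fin 912 5 911)
(mv 975 (cons (fin 977 1 973)
(mv 911 (cons (fin 1168 7 911)
(fin 1166 6 910))))))))))
(cons (mv 1231 (cons (fin 1295 7 1038)
(mv 976 (cons (fin 1168 5 975)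
(fin 912 5 911)))))
(mv 1231 (cons (fin 1295 7 1038)
(mv 974 (cons (fin 1166 4 974)
(fin 910 4 910)))))))))))))
(mv 1039 (cons (cons (mv 1100 (cons (fin 1101 1 1036)
(mv 1036 (cons (fin 1099 1 1035)
(fin 1103 0 1036)))))
(mv 1100 (cons (fin 1101 1 1036)
(mv 976 (cons (fin 977 2 973)
(mv 912 (cons (mv 1103 (cons (fin 1167 5 911)
(fin 848 5 847)))
(mv 911 (cons (fin 847 7 847)
(mv 975 (cons (fin 1168 7 911)
(mv 913 (cons (fin 849 6 848)
(mv 974 (cons (fin 914 1 910)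
(fin 973 2 909))))))))))))))))
(cons (mv 1103 (cons (fin 1036 0 1036)
(mv 976 (cons (fin 977 2 973)
(mv 1167 (cons (fin 912 5 911)
(fin 1231 6 975)))))))
(mv 1100 (cons (fin 1101 1 1036)
(mv 1036 (cons (fin 1099 1 1035)
(mv 976 (cons (fin 975 2 972)
(fin 977 2 973))))))))))))
(cons (mv 1039 (cons (fin 1105 0 1037)
(mv 1100 (cons (fin 1101 1 1036)
(mv 1036 (cons (fin 1099 1 1035)
(mv 976 (cons (fin 975 2 972)
(fin 977 2 973)))))))))
(cons (mv 1039 (cons (fin 1105 0 1037)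
(mv 1100 (cons (fin 1101 1 1036)
(mv 976 (cons (fin 977 2 973)
(mv 912 (cons (mv 1103 (cons (fin 1167 5 911)
(fin 848 5 847)))
(mv 911 (cons (fin 847 7 847)
(mv 975 (cons (fin 1168 7 911)
(mv 913 (cons (fin 849 6 848)
(mv 974 (cons (fin 914 1 910)
(fin 973 2 909)))))))))))))))))
(mv 1039 (cons (fin 1105 0 1037)
(mv 1103 (cons (fin 1036 0 1036)
(mv 976 (cons (fin 977 2 973)
(mv 1167 (cons (fin 912 5 911)
(fin 1231 6 975)))))))))))))))
(cons (cons (mv 1038 (cons (cons (mv 1039 (cons (fin 1105 0 1037)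
(mv 1100 (cons (fin 1101 1 1036)
(mv 1036 (cons (fin 1099 1 1035)
(fin 1103 0 1036)))))))
(cons (mv 1102 (cons (cons (mv 1103 (cons (fin 1105 3 1037)
(mv 1036 (cons (fin 1101 3 1036)
(fin 1035 0 1035)))))
(mv 1166 (cons (cons (mv 1230 (cons (fin 973 7 973)
(mv 1293 (cons (fin 1229 5 1037)
(mv 1294 (cons (fin 1357 5 1101)
(fin 1101 7 1037)))))))
(mv 974 (cons (cons (mv 1229 (cons (fin 1165 5 973)
(mv 1231 (cons (fin 1167 4 974)
(mv 973 (cons (fin 909 7 909)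
(mv 975 (cons (fin 911 6 910)
(mv 1036 (cons (fin 976 1 972)
(fin 1035 2 971)))))))))))
(cons (mv 1229 (cons (fin 1165 5 973)
(mv 1231 (cons (fin 1167 4 974)
(mv 975 (cons (fin 911 6 910)
(mv 1036 (cons (fin 1035 2 971)
(mv 976 (cons (fin 973 1 972)
(fin 977 1 973)))))))))))
(mv 1229 (cons (fin 1165 5 973)
(mv 1231 (cons (fin 1167 4 974)
(mv 911 (cons (fin 975 6 910)
(mv 910 (cons (fin 847 6 846)
(mv 845 (cons (fin 909 7 845)
(mv 846 (cons (fin 1101 5 845)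
(fin 781 7 781)))))))))))))))
(cons (cons (mv 1231 (cons (fin 1167 4 974)
(mv 973 (cons (fin 909 7 909)
(mv 975 (cons (fin 911 6 910)
(mv 1036 (cons (fin 976 1 972)
(fin 1035 2 971)))))))))
(mv 1229 (cons (fin 1165 5 973)
(mv 1231 (cons (fin 1167 4 974)
(mv 909 (cons (fin 973 7 909)
(mv 910 (cons (fin 845 7 845)
(mv 846 (cons (fin 1101 5 845)
(mv 847 (cons (fin 911 6 846)
(fin 783 6 782))))))))))))))
(cons (mv 1231 (cons (fin 1167 4 974)
(mv 1165 (cons (fin 1229 5 973)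
(mv 909 (cons (fin 973 7 909)
(mv 910 (cons (fin 1101 5 909)
(fin 845 7 845)))))))))
(mv 1229 (cons (fin 1165 5 973)
(mv 973 (cons (fin 909 7 909)
(mv 975 (cons (fin 911 6 910)
(mv 1036 (cons (fin 976 1 972)
(fin 1035 2 971))))))))))))))
(cons (mv 974 (cons (cons (mv 1229 (cons (fin 1165 5 973)
(mv 1293 (cons (fin 1230 5 1037)
(mv 1231 (cons (fin 1167 4 974)
(mv 911 (cons (fin 975 6 910)
(mv 910 (cons (fin 847 6 846)
(mv 845 (cons (fin 909 7 845)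
(mv 846 (cons (fin 1101 5 845)
(fin 781 7 781)))))))))))))))
(mv 1231 (cons (fin 1167 4 974)
(mv 1295 (cons (fin 1230 4 1038)
(mv 911 (cons (fin 975 6 910)
(mv 910 (cons (fin 847 6 846)
(mv 845 (cons (fin 909 7 845)
(mv 846 (cons (fin 1101 5 845)
(fin 781 7 781))))))))))))))
(cons (mv 1229 (cons (fin 1165 5 973)
(mv 1230 (cons (fin 1293 5 1037)
(mv 1231 (cons (fin 1295 4 1038)
(fin 1167 4 974)))))))
(cons (mv 1229 (cons (fin 1165 5 973)
(mv 1293 (cons (fin 1230 5 1037)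
(mv 911 (cons (fin 975 6 910)
(mv 910 (cons (fin 847 6 846)
(mv 845 (cons (fin 909 7 845)
(mv 846 (cons (fin 1101 5 845)
(fin 781 7 781)))))))))))))
(mv 1229 (cons (fin 1165 5 973)
(mv 1231 (cons (fin 1167 4 974)
(mv 911 (cons (fin 975 6 910)
(mv 910 (cons (fin 847 6 846)
(mv 845 (cons (fin 909 7 845)
(mv 846 (cons (fin 1101 5 845)
(fin 781 7 781)))))))))))))))))
(cons (mv 1230 (cons (fin 973 7 973)
(mv 1293 (cons (fin 1229 5 1037)
(mv 1357 (cons (fin 1294 5 1101)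
(mv 1231 (cons (fin 1295 4 1038)
(mv 1167 (cons (fin 974 4 974)
(mv 1168 (cons (fin 976 5 975)
(mv 1165 (cons (fin 1105 2 1101)
(mv 1164 (cons (fin 1163 0 1163)
(mv 1228 (cons (fin 1227 1 1163)
(mv 1100 (cons (fin 1099 3 1099)
(fin 1292 4 1100)))))))))))))))))))))
(mv 1230 (cons (fin 973 7 973)
(mv 1294 (cons (fin 1101 7 1037)
(mv 1295 (cons (fin 1359 4 1102)
(fin 1231 4 1038))))))))))))
(cons (mv 1103 (cons (mv 1036 (cons (fin 1101 3 1036)
(fin 1035 0 1035)))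
(mv 1167 (cons (cons (mv 1295 (cons (fin 1231 7 1038)
(mv 974 (cons (fin 910 4 910)
(mv 976 (cons (fin 912 5 911)
(mv 975 (cons (fin 977 1 973)
(mv 911 (cons (fin 1168 7 911)
(fin 1166 6 910)))))))))))
(mv 974 (cons (fin 910 4 910)
(mv 976 (cons (fin 912 5 911)
(mv 975 (cons (fin 977 1 973)
(mv 911 (cons (fin 1168 7 911)
(fin 1166 6 910))))))))))
(cons (mv 1231 (cons (fin 1295 7 1038)
(mv 976 (cons (fin 1168 5 975)
(fin 912 5 911)))))
(mv 1231 (cons (fin 1295 7 1038)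
(mv 974 (cons (fin 1166 4 974)
(fin 910 4 910))))))))))
(mv 1103 (cons (fin 1105 3 1037)
(mv 1167 (cons (cons (mv 1295 (cons (fin 1231 7 1038)
(mv 974 (cons (fin 910 4 910)
(mv 976 (cons (fin 912 5 911)
(mv 975 (cons (fin 977 1 973)
(mv 911 (cons (fin 1168 7 911)
(fin 1166 6 910)))))))))))
(mv 974 (cons (fin 910 4 910)
(mv 976 (cons (fin 912 5 911)
(mv 975 (cons (fin 977 1 973)
(mv 911 (cons (fin 1168 7 911)
(fin 1166 6 910))))))))))
(cons (mv 1231 (cons (fin 1295 7 1038)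
(mv 976 (cons (fin 1168 5 975)
(fin 912 5 911)))))
(mv 1231 (cons (fin 1295 7 1038)
(mv 974 (cons (fin 1166 4 974)
(fin 910 4 910)))))))))))))
(mv 1039 (cons (cons (mv 1100 (cons (fin 1101 1 1036)
(mv 1036 (cons (fin 1099 1 1035)
(fin 1103 0 1036)))))
(mv 1100 (cons (fin 1101 1 1036)
(mv 976 (cons (fin 977 2 973)
(mv 912 (cons (mv 1103 (cons (fin 1167 5 911)
(fin 848 5 847)))
(mv 911 (cons (fin 847 7 847)
(mv 975 (cons (fin 1168 7 911)
(mv 913 (cons (fin 849 6 848)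
(mv 974 (cons (fin 914 1 910)
(fin 973 2 909))))))))))))))))
(cons (mv 1103 (cons (fin 1036 0 1036)
(mv 976 (cons (fin 977 2 973)
(mv 1167 (cons (fin 912 5 911)
(fin 1231 6 975)))))))
(mv 1100 (cons (fin 1101 1 1036)
(mv 1036 (cons (fin 1099 1 1035)
(mv 976 (cons (fin 975 2 972)
(fin 977 2 973))))))))))))
(cons (mv 1039 (cons (fin 1105 0 1037)
(mv 1100 (cons (fin 1101 1 1036)
(mv 1036 (cons (fin 1099 1 1035)
(mv 976 (cons (fin 975 2 972)
(fin 977 2 973)))))))))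
(cons (mv 1039 (cons (fin 1105 0 1037)
(mv 1100 (cons (fin 1101 1 1036)
(mv 976 (cons (fin 977 2 973)
(mv 912 (cons (mv 1103 (cons (fin 1167 5 911)
(fin 848 5 847)))
(mv 911 (cons (fin 847 7 847)
(mv 975 (cons (fin 1168 7 911)
(mv 913 (cons (fin 849 6 848)
(mv 974 (cons (fin 914 1 910)
(fin 973 2 909)))))))))))))))))
(mv 1039 (cons (fin 1105 0 1037)
(mv 1103 (cons (fin 1036 0 1036)
(mv 976 (cons (fin 977 2 973)
(mv 1167 (cons (fin 912 5 911)
(fin 1231 6 975)))))))))))))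
(mv 1039 (cons (cons (mv 1038 (cons (fin 1105 0 1037)
(mv 1100 (cons (fin 1101 1 1036)
(mv 1036 (cons (fin 1099 1 1035)
(fin 1103 0 1036)))))))
(cons (mv 975 (cons (cons (mv 1168 (cons (fin 1232 7 975)
(mv 911 (cons (fin 976 7 911)
(fin 1103 4 911)))))
(mv 1168 (cons (fin 1232 7 975)
(mv 976 (cons (cons (mv 1233 (cons (fin 1169 4 976)
(mv 913 (cons (fin 977 6 912)
(mv 912 (cons (fin 849 6 848)
(mv 1103 (cons (fin 1167 5 911)
(fin 848 5 847)))))))))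
(mv 1169 (cons (fin 1233 4 976)
(mv 912 (cons (fin 1105 4 912)
(mv 1103 (cons (fin 1167 5 911)
(fin 848 5 847))))))))
(cons (mv 913 (cons (fin 977 6 912)
(mv 912 (cons (fin 849 6 848)
(mv 1103 (cons (fin 1167 5 911)
(fin 848 5 847)))))))
(cons (mv 1169 (cons (fin 1233 4 976)
(mv 977 (cons (fin 913 6 912)
(mv 978 (cons (fin 979 1 975)
(mv 1042 (cons (fin 1043 0 975)
(mv 914 (cons (fin 915 2 911)
(mv 1106 (cons (fin 1105 5 913)
(mv 1171 (cons (fin 1107 4 914)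
(mv 1170 (cons (fin 1103 3 1103)
(fin 1235 4 978)))))))))))))))))
(mv 1169 (cons (fin 1233 4 976)
(mv 1105 (cons (fin 912 4 912)
(mv 1106 (cons (fin 1107 3 1039)
(mv 1166 (cons (fin 1167 2 1102)
(mv 977 (cons (fin 913 6 912)
(mv 978 (cons (fin 979 1 975)
(mv 1042 (cons (fin 1043 0 975)
(fin 914 5 913))))))))))))))))))))))
(cons (mv 911 (cons (fin 847 4 847)
(mv 1103 (cons (cons (mv 1166 (cons (fin 1102 5 910)
(mv 1167 (cons (fin 1230 5 974)
(mv 910 (cons (fin 974 7 910)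
(fin 846 7 846)))))))
(mv 910 (cons (fin 846 7 846)
(mv 1167 (cons (fin 974 7 910)
(mv 912 (cons (fin 976 5 911)
(fin 848 6 847))))))))
(cons (mv 1166 (cons (fin 1102 5 910)
(mv 1167 (cons (fin 1230 5 974)
(mv 912 (cons (fin 976 5 911)
(fin 848 6 847)))))))
(mv 1102 (cons (fin 1166 5 910)
(mv 1101 (cons (fin 1036 3 1036)
(fin 1100 2 1036))))))))))
(cons (mv 1168 (cons (fin 1232 7 975)
(mv 911 (cons (fin 1103 4 911)
(fin 847 4 847)))))
(mv 1168 (cons (fin 1232 7 975)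
(mv 911 (cons (fin 976 7 911)
(fin 847 4 847)))))))))
(mv 1038 (cons (cons (mv 1100 (cons (fin 1101 1 1036)
(mv 1036 (cons (fin 1099 1 1035)
(fin 1103 0 1036)))))
(mv 1100 (cons (fin 1101 1 1036)
(mv 976 (cons (fin 977 2 973)
(mv 912 (cons (mv 1103 (cons (fin 1167 5 911)
(fin 848 5 847)))
(mv 911 (cons (fin 847 7 847)
(mv 975 (cons (fin 1168 7 911)
(mv 913 (cons (fin 849 6 848)
(mv 974 (cons (fin 914 1 910)
(fin 973 2 909))))))))))))))))
(cons (mv 1103 (cons (fin 1036 0 1036)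
(mv 976 (cons (fin 977 2 973)
(mv 912 (cons (fin 1167 5 911)
(fin 848 5 847)))))))
(mv 1100 (cons (fin 1101 1 1036)
(mv 1036 (cons (fin 1099 1 1035)
(mv 976 (cons (fin 975 2 972)
(fin 977 2 973))))))))))))
(cons (mv 1038 (cons (fin 1105 0 1037)
(mv 1100 (cons (fin 1101 1 1036)
(mv 1036 (cons (fin 1099 1 1035)
(mv 976 (cons (fin 975 2 972)
(fin 977 2 973)))))))))
(cons (mv 1038 (cons (fin 1105 0 1037)
(mv 1100 (cons (fin 1101 1 1036)
(mv 976 (cons (fin 977 2 973)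
(mv 912 (cons (mv 1103 (cons (fin 1167 5 911)
(fin 848 5 847)))
(mv 911 (cons (fin 847 7 847)
(mv 975 (cons (fin 1168 7 911)
(mv 913 (cons (fin 849 6 848)
(mv 974 (cons (fin 914 1 910)
(fin 973 2 909)))))))))))))))))
(mv 1038 (cons (fin 1105 0 1037)
(mv 1103 (cons (fin 1036 0 1036)
(mv 976 (cons (fin 977 2 973)
(mv 912 (cons (fin 1167 5 911)
(fin 848 5 847))))))))))))))
(cons (mv 1039 (cons (cons (mv 1038 (cons (fin 1105 0 1037)
(mv 1100 (cons (fin 1101 1 1036)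
(mv 1036 (cons (fin 1099 1 1035)
(fin 1103 0 1036)))))))
(mv 1168 (cons (cons (mv 1232 (cons (fin 975 7 975)
(mv 1295 (cons (fin 1231 5 1039)
(mv 1296 (cons (fin 1359 5 1103)
(fin 1103 7 1039)))))))
(mv 976 (cons (cons (mv 1231 (cons (fin 1167 5 975)
(mv 1233 (cons (fin 1169 4 976)
(mv 913 (cons (fin 977 6 912)
(mv 912 (cons (fin 849 6 848)
(mv 848 (cons (fin 1103 5 847)
(mv 783 (cons (fin 847 7 783)
(mv 784 (cons (fin 975 5 783)
(fin 719 7 719)))))))))))))))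
(cons (mv 1233 (cons (fin 1169 4 976)
(mv 913 (cons (fin 977 6 912)
(mv 912 (cons (fin 849 6 848)
(mv 848 (cons (fin 1103 5 847)
(mv 783 (cons (fin 847 7 783)
(mv 784 (cons (fin 975 5 783)
(fin 719 7 719)))))))))))))
(mv 1231 (cons (fin 1167 5 975)
(mv 913 (cons (fin 977 6 912)
(mv 912 (cons (fin 849 6 848)
(mv 848 (cons (fin 1103 5 847)
(mv 783 (cons (fin 847 7 783)
(mv 784 (cons (fin 975 5 783)
(fin 719 7 719)))))))))))))))
(cons (cons (mv 1231 (cons (fin 1167 5 975)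
(mv 1169 (cons (fin 1233 4 976)
(mv 912 (cons (fin 1105 4 912)
(mv 913 (cons (fin 849 6 848)
(mv 848 (cons (fin 1103 5 847)
(mv 783 (cons (fin 847 7 783)
(mv 784 (cons (fin 975 5 783)
(fin 719 7 719)))))))))))))))
(mv 1231 (cons (fin 1167 5 975)
(mv 1169 (cons (fin 1233 4 976)
(mv 912 (cons (fin 1105 4 912)
(mv 848 (cons (fin 1103 5 847)
(mv 847 (cons (fin 783 7 783)
(mv 784 (cons (fin 975 5 783)
(mv 785 (cons (fin 849 6 784)
(fin 721 6 720))))))))))))))))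
(cons (mv 1167 (cons (fin 1231 5 975)
(mv 1169 (cons (fin 1233 4 976)
(mv 977 (cons (fin 913 6 912)
(mv 978 (cons (fin 979 1 975)
(mv 1166 (cons (cons (mv 1105 (cons (fin 1165 2 1101)
(fin 1106 2 1102)))
(mv 1229 (cons (fin 1230 1 1165)
(mv 1228 (cons (fin 1165 1 1164)
(mv 1102 (cons (fin 1101 3 1101)
(mv 1170 (cons (fin 1103 3 1102)
(mv 1235 (cons (fin 1234 0 1167)
(mv 1171 (cons (fin 1236 0 1168)
(mv 1106 (cons (fin 1107 2 1103)
(fin 1042 4 978))))))))))))))))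
(cons (mv 1229 (cons (fin 1230 1 1165)
(mv 1165 (cons (fin 1228 1 1164)
(fin 1105 2 1101)))))
(mv 1229 (cons (fin 1230 1 1165)
(mv 1101 (cons (fin 1102 3 1101)
(mv 1106 (cons (fin 1105 2 1102)
(mv 1170 (cons (fin 1107 2 1103)
(mv 1235 (cons (fin 1234 0 1167)
(mv 1171 (cons (fin 1103 3 1103)
(fin 1236 0 1168))))))))))))))))))))))))
(mv 1231 (cons (fin 1167 5 975)
(mv 1169 (cons (fin 1233 4 976)
(mv 912 (cons (fin 1105 4 912)
(mv 913 (cons (fin 977 6 912)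
(fin 849 6 848))))))))))))))
(cons (mv 976 (cons (cons (mv 1231 (cons (fin 1167 5 975)
(mv 1295 (cons (fin 1232 5 1039)
(mv 1169 (cons (fin 1233 4 976)
(mv 1105 (cons (fin 912 4 912)
(mv 1106 (cons (fin 1107 3 1039)
(mv 977 (cons (fin 913 6 912)
(mv 978 (cons (fin 979 1 975)
(mv 1042 (cons (fin 914 5 913)
(mv 1103 (cons (fin 1043 2 1039)
(mv 1170 (cons (fin 1171 3 1103)
(fin 1102 0 1102)))))))))))))))))))))
(cons (mv 1233 (cons (fin 1169 4 976)
(mv 1232 (cons (fin 1297 4 1040)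
(mv 1295 (cons (fin 1231 5 1039)
(mv 1296 (cons (fin 1359 5 1103)
(fin 1103 7 1039)))))))))
(mv 1233 (cons (fin 1169 4 976)
(mv 1297 (cons (fin 1232 4 1040)
(mv 913 (cons (fin 977 6 912)
(mv 912 (cons (fin 849 6 848)
(mv 1103 (cons (fin 1167 5 911)
(fin 848 5 847)))))))))))))
(cons (cons (mv 1231 (cons (fin 1167 5 975)
(mv 1232 (cons (fin 1295 5 1039)
(mv 1296 (cons (fin 1103 7 1039)
(mv 1297 (cons (fin 1361 4 1104)
(fin 1233 4 1040)))))))))
(mv 1231 (cons (fin 1167 5 975)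
(mv 1232 (cons (fin 1295 5 1039)
(mv 1103 (cons (fin 1296 7 1039)
(mv 912 (cons (fin 848 5 847)
(mv 913 (cons (fin 977 6 912)
(fin 849 6 848))))))))))))
(cons (mv 1231 (cons (fin 1167 5 975)
(mv 1295 (cons (fin 1232 5 1039)
(mv 1169 (cons (fin 1233 4 976)
(mv 912 (cons (fin 1105 4 912)
(mv 913 (cons (fin 977 6 912)
(fin 849 6 848)))))))))))
(mv 1231 (cons (fin 1167 5 975)
(mv 1169 (cons (fin 1233 4 976)
(mv 1105 (cons (fin 912 4 912)
(mv 1106 (cons (fin 1107 3 1039)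
(mv 977 (cons (fin 913 6 912)
(mv 978 (cons (fin 979 1 975)
(mv 1042 (cons (fin 914 5 913)
(mv 1103 (cons (fin 1043 2 1039)
(mv 1170 (cons (fin 1171 3 1103)
(fin 1102 0 1102)))))))))))))))))))))))
(cons (mv 1232 (cons (fin 975 7 975)
(mv 1296 (cons (fin 1103 7 1039)
(mv 1297 (cons (fin 1361 4 1104)
(fin 1233 4 1040)))))))
(mv 1232 (cons (fin 975 7 975)
(mv 1295 (cons (fin 1231 5 1039)
(mv 1296 (cons (fin 1359 5 1103)
(mv 1297 (cons (fin 1361 4 1104)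
(fin 1233 4 1040))))))))))))))
(cons (mv 1038 (cons (cons (mv 1100 (cons (fin 1101 1 1036)
(mv 1036 (cons (fin 1099 1 1035)
(fin 1103 0 1036)))))
(mv 1100 (cons (fin 1101 1 1036)
(mv 976 (cons (fin 977 2 973)
(mv 912 (cons (mv 1103 (cons (fin 1167 5 911)
(fin 848 5 847)))
(cons (mv 849 (cons (fin 913 6 848)
(mv 848 (cons (fin 785 6 784)
(mv 783 (cons (fin 847 7 783)
(mv 784 (cons (fin 975 5 783)
(fin 719 7 719)))))))))
(mv 1167 (cons (fin 1103 5 911)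
(mv 1168 (cons (fin 1231 5 975)
(mv 1232 (cons (fin 975 7 975)
(mv 1233 (cons (fin 1297 4 1040)
(fin 1169 4 976)))))))))))))))))
(cons (mv 1103 (cons (fin 1036 0 1036)
(mv 976 (cons (fin 977 2 973)
(mv 1167 (cons (fin 912 5 911)
(fin 1231 6 975)))))))
(mv 1100 (cons (fin 1101 1 1036)
(mv 1036 (cons (fin 1099 1 1035)
(mv 976 (cons (fin 975 2 972)
(fin 977 2 973))))))))))
(cons (mv 1038 (cons (fin 1105 0 1037)
(mv 1100 (cons (fin 1101 1 1036)
(mv 1036 (cons (fin 1099 1 1035)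
(mv 976 (cons (fin 975 2 972)
(fin 977 2 973)))))))))
(mv 1038 (cons (fin 1105 0 1037)
(mv 1103 (cons (fin 1036 0 1036)
(mv 976 (cons (fin 977 2 973)
(mv 1167 (cons (fin 912 5 911)
(fin 1231 6 975)))))))))))))
(mv 1039 (cons (cons (mv 1038 (cons (fin 1105 0 1037)
(mv 1100 (cons (fin 1101 1 1036)
(mv 1036 (cons (fin 1099 1 1035)
(fin 1103 0 1036)))))))
(mv 1168 (cons (cons (mv 1232 (cons (fin 975 7 975)
(mv 1295 (cons (fin 1231 5 1039)
(mv 1296 (cons (fin 1359 5 1103)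
(fin 1103 7 1039)))))))
(mv 976 (cons (cons (mv 1231 (cons (fin 1167 5 975)
(mv 1233 (cons (fin 1169 4 976)
(mv 975 (cons (fin 911 7 911)
(mv 913 (cons (fin 977 6 912)
(mv 912 (cons (fin 849 6 848)
(mv 848 (cons (fin 1103 5 847)
(fin 784 5 783)))))))))))))
(cons (mv 1233 (cons (fin 1169 4 976)
(mv 975 (cons (fin 911 7 911)
(mv 913 (cons (fin 977 6 912)
(mv 912 (cons (fin 849 6 848)
(mv 848 (cons (fin 1103 5 847)
(fin 784 5 783)))))))))))
(mv 1231 (cons (fin 1167 5 975)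
(mv 975 (cons (fin 911 7 911)
(mv 913 (cons (fin 977 6 912)
(mv 912 (cons (fin 849 6 848)
(mv 848 (cons (fin 1103 5 847)
(fin 784 5 783)))))))))))))
(cons (cons (mv 1231 (cons (fin 1167 5 975)
(mv 1169 (cons (fin 1233 4 976)
(mv 1105 (cons (fin 912 4 912)
(mv 1106 (cons (fin 1107 3 1039)
(mv 977 (cons (fin 913 6 912)
(mv 978 (cons (fin 979 1 975)
(mv 1042 (cons (fin 914 5 913)
(mv 1103 (cons (fin 1043 2 1039)
(mv 1170 (cons (fin 1171 3 1103)
(fin 1102 0 1102)))))))))))))))))))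
(mv 1231 (cons (fin 1167 5 975)
(mv 1169 (cons (fin 1233 4 976)
(mv 975 (cons (fin 911 7 911)
(mv 912 (cons (fin 1105 4 912)
(mv 848 (cons (fin 1103 5 847)
(fin 784 5 783))))))))))))
(cons (mv 1231 (cons (fin 1167 5 975)
(mv 1169 (cons (fin 1233 4 976)
(mv 1105 (cons (fin 912 4 912)
(mv 1106 (cons (fin 1107 3 1039)
(mv 975 (cons (fin 911 7 911)
(mv 977 (cons (fin 913 6 912)
(mv 978 (cons (fin 979 1 975)
(mv 1042 (cons (fin 1043 0 975)
(fin 914 5 913)))))))))))))))))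
(mv 1231 (cons (fin 1167 5 975)
(mv 1169 (cons (fin 1233 4 976)
(mv 975 (cons (fin 911 7 911)
(mv 977 (cons (fin 913 6 912)
(mv 978 (cons (fin 979 1 975)
(mv 1042 (cons (fin 1043 0 975)
(mv 914 (cons (fin 915 2 911)
(mv 1106 (cons (fin 1105 5 913)
(mv 1171 (cons (fin 1107 4 914)
(mv 1170 (cons (fin 1103 3 1103)
(fin 1235 4 978))))))))))))))))))))))))))
(cons (mv 976 (cons (cons (mv 1231 (cons (fin 1167 5 975)
(mv 1295 (cons (fin 1232 5 1039)
(mv 1169 (cons (fin 1233 4 976)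
(mv 1105 (cons (fin 912 4 912)
(mv 1106 (cons (fin 1107 3 1039)
(mv 977 (cons (fin 913 6 912)
(mv 978 (cons (fin 979 1 975)
(mv 1042 (cons (fin 914 5 913)
(mv 1103 (cons (fin 1043 2 1039)
(mv 1170 (cons (fin 1171 3 1103)
(fin 1102 0 1102)))))))))))))))))))))
(cons (mv 1233 (cons (fin 1169 4 976)
(mv 1232 (cons (fin 1297 4 1040)
(mv 1295 (cons (fin 1231 5 1039)
(mv 1296 (cons (fin 1359 5 1103)
(fin 1103 7 1039)))))))))
(mv 1233 (cons (fin 1169 4 976)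
(mv 1297 (cons (fin 1232 4 1040)
(mv 913 (cons (fin 977 6 912)
(mv 912 (cons (fin 849 6 848)
(mv 1103 (cons (fin 1167 5 911)
(fin 848 5 847)))))))))))))
(cons (cons (mv 1231 (cons (fin 1167 5 975)
(mv 1232 (cons (fin 1295 5 1039)
(mv 1296 (cons (fin 1103 7 1039)
(mv 1297 (cons (fin 1361 4 1104)
(fin 1233 4 1040)))))))))
(mv 1231 (cons (fin 1167 5 975)
(mv 1232 (cons (fin 1295 5 1039)
(mv 1103 (cons (fin 1296 7 1039)
(mv 912 (cons (fin 848 5 847)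
(mv 913 (cons (fin 977 6 912)
(fin 849 6 848))))))))))))
(cons (mv 1231 (cons (fin 1167 5 975)
(mv 1295 (cons (fin 1232 5 1039)
(mv 1169 (cons (fin 1233 4 976)
(mv 912 (cons (fin 1105 4 912)
(mv 913 (cons (fin 977 6 912)
(fin 849 6 848)))))))))))
(mv 1231 (cons (fin 1167 5 975)
(mv 1169 (cons (fin 1233 4 976)
(mv 1105 (cons (fin 912 4 912)
(mv 1106 (cons (fin 1107 3 1039)
(mv 977 (cons (fin 913 6 912)
(mv 978 (cons (fin 979 1 975)
(mv 1042 (cons (fin 914 5 913)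
(mv 1103 (cons (fin 1043 2 1039)
(mv 1170 (cons (fin 1171 3 1103)
(fin 1102 0 1102)))))))))))))))))))))))
(cons (mv 1232 (cons (fin 975 7 975)
(mv 1295 (cons (fin 1231 5 1039)
(mv 1296 (cons (fin 1359 5 1103)
(mv 1297 (cons (fin 1361 4 1104)
(fin 1233 4 1040)))))))))
(mv 1232 (cons (fin 975 7 975)
(mv 1296 (cons (fin 1103 7 1039)
(mv 1297 (cons (fin 1361 4 1104)
(fin 1233 4 1040))))))))))))
(cons (mv 1038 (cons (cons (mv 1100 (cons (fin 1101 1 1036)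
(mv 1036 (cons (fin 1099 1 1035)
(fin 1103 0 1036)))))
(mv 1100 (cons (fin 1101 1 1036)
(mv 976 (cons (fin 977 2 973)
(mv 1168 (cons (mv 975 (cons (fin 1232 7 975)
(fin 911 7 911)))
(cons (mv 1231 (cons (fin 1167 5 975)
(mv 1232 (cons (fin 1295 5 1039)
(mv 1233 (cons (fin 1297 4 1040)
(fin 1169 4 976)))))))
(mv 1233 (cons (fin 1169 4 976)
(mv 1167 (cons (fin 1231 5 975)
(mv 1103 (cons (fin 912 5 911)
(mv 975 (cons (fin 911 7 911)
(mv 1166 (cons (fin 1230 5 974)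
(mv 1165 (cons (fin 1164 2 1100)
(mv 1229 (cons (fin 1228 1 1164)
(mv 974 (cons (fin 1102 5 973)
(fin 910 7 910)))))))))))))))))))))))))
(cons (mv 1103 (cons (fin 1036 0 1036)
(mv 976 (cons (fin 977 2 973)
(mv 1167 (cons (fin 912 5 911)
(fin 1231 6 975)))))))
(mv 1100 (cons (fin 1101 1 1036)
(mv 1036 (cons (fin 1099 1 1035)
(mv 976 (cons (fin 975 2 972)
(fin 977 2 973))))))))))
(mv 1038 (cons (fin 1105 0 1037)
(mv 1100 (cons (fin 1101 1 1036)
(mv 1036 (cons (fin 1099 1 1035)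
(mv 976 (cons (fin 975 2 972)
(fin 977 2 973)))))))))))))))))
def l125 : Lem := ⟨13254031944712882724506621310649321556018620670345837899455453023597314721787975009848330616026462815765143756135158089473467252075149308743152655366187148242124071246428482498451210046760672027239036899891323305324899173507745103325308665813954110541579506451753178596634830548552232523722901151470534797188661248, 85631499293051852418569488363012660303197951899498079875745115916219751107642964596098055034228607165372392423889003989994302790352853479749615883303284841543525057234146415526072528092315424802917145061329530305038951097626729875224806439729909136174510380839286640277629610472532819924939264397684516868322658702674418541314288559864529952597292359683183845802433596644591517656976378289995696063280468717903251804755206713176525814354652122054656, 85631499293051852418569488363012660303197951899498079875745115916219751107642964596098055034228607165372392423889003989994302790352853479749615883303284841543525057234146415526072528092315424802917145061329530305038951097626729875224806439729909136174510380839286640277629610472532819924939264397684516868322658702674418541314288559864529952597292359683183845802433596644591517656976378289995696063280468717903251804755206713176525814354652122054656,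 19, 33⟩
theorem l125_valid : l125.Valid :=
  Lem.valid_of_chk t125 t125_valid [1037, 1040] c125 l125 (by decide +kernel)
end Crest.Agent.SnakyAux
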