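import Crest.Agent.S0047_aux.Checker

set_option autoImplicit false
set_option maxRecDepth 100000
namespace Crest.Agent.SnakyAux
open Cert
def t126 : Tbl := Tbl.nil
theorem t126_valid : t126.Valid := Tbl.valid_nil
def c126 : Cert :=
(mv 976 (cons (cons (cons (mv 1039 (cons (cons (mv 1038 (cons (fin 977 2 973)
(mv 972 (cons (fin 973 3 972)
(mv 1036 (cons (fin 971 3 971)
(fin 975 2 972)))))))
(cons (mv 1103 (cons (cons (mv 912 (cons (fin 848 5 847)
(mv 1167 (cons (fin 1104 5 911)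
(fin 975 6 911)))))
(mv 1167 (cons (fin 1231 6 975)
(mv 975 (cons (mv 910 (cons (fin 974 7 910)
(mv 911 (cons (fin 846 7 846)
(mv 847 (cons (fin 783 4 783)
(fin 1104 4 847)))))))
(cons (mv 1166 (cons (fin 1230 5 974)
(mv 911 (cons (fin 1102 5 910)
(mv 847 (cons (fin 783 4 783)
(fin 1104 4 847)))))))
(mv 974 (cons (fin 910 7 910)
(mv 973 (cons (fin 1036 1 972)
(fin 972 0 972)))))))))))
(cons (mv 912 (cons (fin 848 5 847)
(mv 1104 (cons (cons (mv 847 (cons (fin 911 7 847)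
(mv 849 (cons (fin 913 6 848)
(mv 1169 (cons (fin 1105 4 912)
(mv 1168 (cons (fin 1233 4 976)
(mv 1232 (cons (fin 975 7 975)
(fin 1296 7 1039)))))))))))
(cons (mv 849 (cons (fin 913 6 848)
(mv 1169 (cons (fin 1105 4 912)
(mv 1168 (cons (fin 1233 4 976)
(mv 1232 (cons (fin 975 7 975)
(fin 1296 7 1039)))))))))
(mv 847 (cons (fin 911 7 847)
(mv 913 (cons (fin 849 6 848)
(mv 1168 (cons (fin 977 6 912)
(mv 1232 (cons (fin 975 7 975)
(fin 1296 7 1039)))))))))))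
(cons (mv 847 (cons (fin 911 7 847)
(mv 1169 (cons (fin 1105 4 912)
(mv 1168 (cons (fin 1233 4 976)
(mv 1232 (cons (fin 975 7 975)
(fin 1296 7 1039)))))))))
(cons (mv 847 (cons (fin 911 7 847)
(mv 913 (cons (fin 849 6 848)
(mv 1105 (cons (fin 1169 4 912)
(mv 1106 (cons (fin 1107 3 1039)
(mv 1042 (cons (fin 1043 2 1039)
(mv 1170 (cons (fin 1171 0 1103)
(mv 978 (cons (fin 977 7 913)
(mv 915 (cons (fin 979 6 914)
(mv 914 (cons (fin 975 1 911)
(fin 851 6 850)))))))))))))))))))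
(mv 847 (cons (fin 911 7 847)
(mv 913 (cons (fin 849 6 848)
(mv 977 (cons (fin 1168 6 912)
(mv 978 (cons (fin 979 1 975)
(mv 1105 (cons (fin 1169 4 912)
(mv 1106 (cons (fin 1107 3 1039)
(mv 1042 (cons (fin 1043 2 1039)
(fin 1170 7 913)))))))))))))))))))))
(cons (mv 912 (cons (fin 848 5 847)
(mv 1167 (cons (fin 1104 5 911)
(fin 1231 6 975)))))
(mv 912 (cons (fin 848 5 847)
(mv 1167 (cons (fin 975 6 911)
(fin 1231 6 975)))))))))
(mv 1038 (cons (cons (mv 972 (cons (fin 973 3 972)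
(mv 1036 (cons (fin 971 3 971)
(fin 975 2 972)))))
(mv 972 (cons (fin 973 3 972)
(mv 1104 (cons (fin 1105 0 1037)
(mv 1168 (cons (mv 975 (cons (fin 911 7 911)
(fin 1232 7 975)))
(cons (mv 1167 (cons (fin 1231 5 975)
(mv 912 (cons (fin 1103 5 911)
(mv 847 (cons (fin 911 7 847)
(mv 848 (cons (fin 783 7 783)
(mv 849 (cons (fin 785 6 784)
(fin 913 6 848)))))))))))
(mv 975 (cons (fin 1232 7 975)
(mv 1167 (cons (fin 1231 5 975)
(mv 912 (cons (fin 1103 5 911)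
(mv 848 (cons (fin 784 5 783)
(mv 849 (cons (fin 785 6 784)
(fin 913 6 848)))))))))))))))))))
(cons (mv 975 (cons (fin 1036 2 972)
(mv 1104 (cons (fin 1105 0 1037)
(mv 911 (cons (fin 1168 7 911)
(fin 847 4 847)))))))
(mv 972 (cons (fin 973 3 972)
(mv 1036 (cons (fin 971 3 971)
(mv 1104 (cons (fin 1103 0 1036)
(fin 1105 0 1037))))))))))))
(cons (mv 1038 (cons (fin 977 2 973)
(mv 972 (cons (fin 973 3 972)
(mv 1036 (cons (fin 971 3 971)
(mv 1104 (cons (fin 1103 0 1036)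
(fin 1105 0 1037)))))))))
(cons (mv 1038 (cons (fin 977 2 973)
(mv 972 (cons (fin 973 3 972)
(mv 1104 (cons (fin 1105 0 1037)
(mv 1168 (cons (mv 975 (cons (fin 911 7 911)
(fin 1232 7 975)))
(cons (mv 1167 (cons (fin 1231 5 975)
(mv 912 (cons (fin 1103 5 911)
(mv 847 (cons (fin 911 7 847)
(mv 848 (cons (fin 783 7 783)
(mv 849 (cons (fin 785 6 784)
(fin 913 6 848)))))))))))
(mv 975 (cons (fin 1232 7 975)
(mv 1167 (cons (fin 1231 5 975)
(mv 912 (cons (fin 1103 5 911)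
(mv 848 (cons (fin 784 5 783)
(mv 849 (cons (fin 785 6 784)
(fin 913 6 848))))))))))))))))))))
(mv 1038 (cons (fin 977 2 973)
(mv 975 (cons (fin 1036 2 972)
(mv 1104 (cons (fin 1105 0 1037)
(mv 911 (cons (fin 1168 7 911)
(fin 847 4 847)))))))))))))
(cons (mv 1104 (cons (cons (mv 912 (cons (cons (mv 847 (cons (fin 911 7 847)
(mv 783 (cons (fin 848 7 783)
(mv 849 (cons (fin 913 6 848)
(mv 1103 (cons (fin 1167 5 911)
(mv 1105 (cons (fin 1169 4 912)
(mv 1102 (cons (fin 1038 3 1037)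
(mv 1101 (cons (fin 1036 3 1036)
(mv 1165 (cons (fin 1164 1 1100)
(fin 1166 1 1101)))))))))))))))))
(cons (mv 849 (cons (fin 913 6 848)
(mv 785 (cons (fin 848 6 784)
(mv 1103 (cons (fin 1167 5 911)
(mv 1105 (cons (fin 1169 4 912)
(mv 1102 (cons (fin 1038 3 1037)
(mv 1101 (cons (fin 1036 3 1036)
(mv 1165 (cons (fin 1164 1 1100)
(fin 1166 1 1101)))))))))))))))
(mv 847 (cons (fin 911 7 847)
(mv 783 (cons (fin 848 7 783)
(mv 1103 (cons (fin 1167 5 911)
(mv 1105 (cons (fin 1169 4 912)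
(mv 1102 (cons (fin 1038 3 1037)
(mv 1101 (cons (fin 1036 3 1036)
(mv 1165 (cons (fin 1164 1 1100)
(fin 1166 1 1101)))))))))))))))))
(cons (mv 847 (cons (fin 911 7 847)
(mv 783 (cons (fin 848 7 783)
(mv 913 (cons (fin 849 6 848)
(mv 1167 (cons (fin 1103 5 911)
(mv 1168 (cons (fin 1231 5 975)
(fin 977 6 912)))))))))))
(cons (mv 847 (cons (fin 911 7 847)
(mv 783 (cons (fin 848 7 783)
(mv 913 (cons (fin 849 6 848)
(mv 1168 (cons (fin 977 6 912)
(mv 1169 (cons (fin 1105 4 912)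
(fin 1233 4 976)))))))))))
(mv 847 (cons (fin 911 7 847)
(mv 849 (cons (fin 913 6 848)
(mv 1103 (cons (fin 1167 5 911)
(mv 1105 (cons (fin 1169 4 912)
(mv 1102 (cons (fin 1038 3 1037)
(mv 1101 (cons (fin 1036 3 1036)
(mv 1165 (cons (fin 1164 1 1100)
(fin 1166 1 1101)))))))))))))))))))
(cons (mv 1168 (cons (cons (mv 911 (cons (fin 975 7 911)
(mv 913 (cons (fin 977 6 912)
(mv 1231 (cons (fin 1167 5 975)
(mv 1232 (cons (fin 1295 5 1039)
(mv 1233 (cons (fin 1169 4 976)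
(fin 1297 4 1040)))))))))))
(mv 975 (cons (fin 911 7 911)
(mv 977 (cons (fin 913 6 912)
(mv 974 (cons (fin 1038 1 973)
(mv 909 (cons (fin 910 3 909)
(mv 973 (cons (fin 908 3 908)
(fin 1036 1 972))))))))))))
(cons (mv 913 (cons (fin 977 6 912)
(mv 1231 (cons (fin 1167 5 975)
(mv 1232 (cons (fin 1295 5 1039)
(mv 1233 (cons (fin 1169 4 976)
(fin 1297 4 1040)))))))))
(mv 911 (cons (fin 975 7 911)
(mv 1231 (cons (fin 1167 5 975)
(mv 1232 (cons (fin 1295 5 1039)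
(mv 1233 (cons (fin 1169 4 976)
(fin 1297 4 1040))))))))))))
(mv 912 (cons (cons (mv 847 (cons (fin 911 7 847)
(mv 783 (cons (fin 848 7 783)
(mv 849 (cons (fin 913 6 848)
(mv 1103 (cons (fin 1167 5 911)
(mv 1105 (cons (fin 1169 4 912)
(mv 1102 (cons (fin 1038 3 1037)
(mv 1101 (cons (fin 1036 3 1036)
(mv 1165 (cons (fin 1164 1 1100)
(fin 1166 1 1101)))))))))))))))))
(mv 849 (cons (fin 913 6 848)
(mv 785 (cons (fin 848 6 784)
(mv 1103 (cons (fin 1167 5 911)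
(mv 1105 (cons (fin 1169 4 912)
(mv 1102 (cons (fin 1038 3 1037)
(mv 1101 (cons (fin 1036 3 1036)
(mv 1165 (cons (fin 1164 1 1100)
(fin 1166 1 1101))))))))))))))))
(cons (mv 847 (cons (fin 911 7 847)
(mv 783 (cons (fin 848 7 783)
(mv 1103 (cons (fin 1167 5 911)
(mv 1105 (cons (fin 1169 4 912)
(mv 1102 (cons (fin 1038 3 1037)
(mv 1101 (cons (fin 1036 3 1036)
(mv 1165 (cons (fin 1164 1 1100)
(fin 1166 1 1101)))))))))))))))
(cons (mv 847 (cons (fin 911 7 847)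
(mv 848 (cons (fin 783 7 783)
(mv 849 (cons (fin 785 6 784)
(fin 913 6 848)))))))
(mv 847 (cons (fin 911 7 847)
(mv 849 (cons (fin 913 6 848)
(mv 1103 (cons (fin 1167 5 911)
(mv 1105 (cons (fin 1169 4 912)
(mv 1102 (cons (fin 1038 3 1037)
(mv 1101 (cons (fin 1036 3 1036)
(mv 1165 (cons (fin 1164 1 1100)
(fin 1166 1 1101)))))))))))))))))))))
(cons (cons (mv 1168 (cons (cons (mv 913 (cons (fin 977 6 912)
(mv 849 (cons (fin 912 6 848)
(mv 1231 (cons (fin 1167 5 975)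
(mv 1232 (cons (fin 1295 5 1039)
(mv 1233 (cons (fin 1169 4 976)
(fin 1297 4 1040)))))))))))
(mv 913 (cons (fin 977 6 912)
(mv 912 (cons (fin 849 6 848)
(mv 1167 (cons (fin 1103 5 911)
(fin 1231 5 975))))))))
(cons (mv 913 (cons (fin 977 6 912)
(mv 912 (cons (fin 849 6 848)
(mv 1169 (cons (fin 1105 4 912)
(fin 1233 4 976)))))))
(cons (mv 1167 (cons (fin 1231 5 975)
(mv 912 (cons (fin 1103 5 911)
(mv 1169 (cons (fin 1105 4 912)
(fin 1233 4 976)))))))
(mv 913 (cons (fin 977 6 912)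
(mv 1231 (cons (fin 1167 5 975)
(mv 1232 (cons (fin 1295 5 1039)
(mv 1233 (cons (fin 1169 4 976)
(fin 1297 4 1040)))))))))))))
(mv 1168 (cons (cons (mv 911 (cons (fin 975 7 911)
(mv 847 (cons (fin 912 7 847)
(mv 1231 (cons (fin 1167 5 975)
(mv 1232 (cons (fin 1295 5 1039)
(mv 1233 (cons (fin 1169 4 976)
(fin 1297 4 1040)))))))))))
(mv 911 (cons (fin 975 7 911)
(mv 912 (cons (fin 847 7 847)
(mv 1167 (cons (fin 1103 5 911)
(fin 1231 5 975))))))))
(cons (mv 911 (cons (fin 975 7 911)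
(mv 912 (cons (fin 847 7 847)
(mv 1169 (cons (fin 1105 4 912)
(fin 1233 4 976)))))))
(cons (mv 1167 (cons (fin 1231 5 975)
(mv 912 (cons (fin 1103 5 911)
(mv 1169 (cons (fin 1105 4 912)
(fin 1233 4 976)))))))
(mv 911 (cons (fin 975 7 911)
(mv 1231 (cons (fin 1167 5 975)
(mv 1232 (cons (fin 1295 5 1039)
(mv 1233 (cons (fin 1169 4 976)
(fin 1297 4 1040))))))))))))))
(cons (mv 912 (cons (cons (mv 847 (cons (fin 911 7 847)
(mv 783 (cons (fin 848 7 783)
(mv 913 (cons (fin 849 6 848)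
(mv 1167 (cons (fin 1103 5 911)
(mv 1168 (cons (fin 1231 5 975)
(fin 977 6 912)))))))))))
(mv 913 (cons (fin 849 6 848)
(mv 1167 (cons (fin 1103 5 911)
(mv 1168 (cons (fin 1231 5 975)
(fin 977 6 912))))))))
(cons (mv 911 (cons (fin 847 7 847)
(mv 1167 (cons (fin 1103 5 911)
(mv 1168 (cons (fin 975 7 911)
(fin 1231 5 975)))))))
(mv 847 (cons (fin 911 7 847)
(mv 848 (cons (fin 783 7 783)
(mv 849 (cons (fin 785 6 784)
(fin 913 6 848))))))))))
(mv 912 (cons (cons (mv 847 (cons (fin 911 7 847)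
(mv 783 (cons (fin 848 7 783)
(mv 913 (cons (fin 849 6 848)
(mv 1168 (cons (fin 977 6 912)
(mv 1169 (cons (fin 1105 4 912)
(fin 1233 4 976)))))))))))
(mv 913 (cons (fin 849 6 848)
(mv 1168 (cons (fin 977 6 912)
(mv 1169 (cons (fin 1105 4 912)
(fin 1233 4 976))))))))
(cons (mv 911 (cons (fin 847 7 847)
(mv 1168 (cons (fin 975 7 911)
(mv 1169 (cons (fin 1105 4 912)
(fin 1233 4 976)))))))
(mv 847 (cons (fin 911 7 847)
(mv 848 (cons (fin 783 7 783)
(mv 849 (cons (fin 785 6 784)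
(fin 913 6 848))))))))))))))
(mv 1104 (cons (cons (cons (mv 912 (cons (cons (mv 847 (cons (fin 911 7 847)
(mv 783 (cons (fin 848 7 783)
(mv 849 (cons (fin 913 6 848)
(mv 1167 (cons (fin 1103 5 911)
(mv 1168 (cons (fin 1231 5 975)
(mv 1169 (cons (fin 1105 4 912)
(fin 1233 4 976)))))))))))))
(cons (mv 849 (cons (fin 913 6 848)
(mv 785 (cons (fin 848 6 784)
(mv 1167 (cons (fin 1103 5 911)
(mv 1168 (cons (fin 1231 5 975)
(mv 1169 (cons (fin 1105 4 912)
(fin 1233 4 976)))))))))))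
(mv 847 (cons (fin 911 7 847)
(mv 783 (cons (fin 848 7 783)
(mv 1167 (cons (fin 1103 5 911)
(mv 1168 (cons (fin 1231 5 975)
(mv 1169 (cons (fin 1105 4 912)
(fin 1233 4 976)))))))))))))
(cons (cons (mv 847 (cons (fin 911 7 847)
(mv 783 (cons (fin 848 7 783)
(mv 913 (cons (fin 849 6 848)
(mv 1168 (cons (fin 977 6 912)
(mv 1169 (cons (fin 1105 4 912)
(fin 1233 4 976)))))))))))
(mv 847 (cons (fin 911 7 847)
(mv 783 (cons (fin 848 7 783)
(mv 913 (cons (fin 849 6 848)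
(mv 1167 (cons (fin 1103 5 911)
(mv 1168 (cons (fin 1231 5 975)
(fin 977 6 912))))))))))))
(cons (mv 847 (cons (fin 911 7 847)
(mv 848 (cons (fin 783 7 783)
(mv 849 (cons (fin 785 6 784)
(fin 913 6 848)))))))
(mv 847 (cons (fin 911 7 847)
(mv 849 (cons (fin 913 6 848)
(mv 1167 (cons (fin 1103 5 911)
(mv 1168 (cons (fin 1231 5 975)
(mv 1169 (cons (fin 1105 4 912)
(fin 1233 4 976)))))))))))))))
(mv 1168 (cons (cons (mv 911 (cons (fin 975 7 911)
(mv 913 (cons (fin 977 6 912)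
(mv 1231 (cons (fin 1167 5 975)
(mv 1232 (cons (fin 1295 5 1039)
(mv 1233 (cons (fin 1169 4 976)
(fin 1297 4 1040)))))))))))
(cons (mv 913 (cons (fin 977 6 912)
(mv 1231 (cons (fin 1167 5 975)
(mv 1232 (cons (fin 1295 5 1039)
(mv 1233 (cons (fin 1169 4 976)
(fin 1297 4 1040)))))))))
(mv 913 (cons (fin 977 6 912)
(mv 975 (cons (fin 911 7 911)
(mv 1232 (cons (fin 1039 7 975)
(mv 1233 (cons (fin 1169 4 976)
(fin 1297 4 1040)))))))))))
(cons (mv 913 (cons (fin 977 6 912)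
(mv 975 (cons (fin 911 7 911)
(mv 1231 (cons (fin 1167 5 975)
(mv 1232 (cons (fin 1039 7 975)
(fin 1295 5 1039)))))))))
(cons (mv 911 (cons (fin 975 7 911)
(mv 1231 (cons (fin 1167 5 975)
(mv 1232 (cons (fin 1295 5 1039)
(mv 1233 (cons (fin 1169 4 976)
(fin 1297 4 1040)))))))))
(mv 911 (cons (fin 975 7 911)
(mv 913 (cons (fin 977 6 912)
(mv 1167 (cons (fin 1231 5 975)
(mv 1169 (cons (fin 1233 4 976)
(mv 1170 (cons (mv 1103 (cons (fin 1102 3 1102)
(fin 1171 3 1103)))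
(cons (mv 1106 (cons (fin 1107 2 1103)
(mv 1105 (cons (fin 1166 2 1102)
(mv 1171 (cons (fin 1172 3 1104)
(mv 1235 (cons (fin 1234 0 1167)
(fin 1236 0 1168)))))))))
(mv 1102 (cons (fin 1103 3 1102)
(mv 1106 (cons (fin 1107 2 1103)
(mv 1166 (cons (fin 1101 3 1101)
(fin 1105 2 1102)))))))))))))))))))))))
(cons (mv 912 (cons (cons (mv 847 (cons (fin 911 7 847)
(mv 848 (cons (fin 783 7 783)
(mv 849 (cons (fin 785 6 784)
(fin 913 6 848)))))))
(mv 849 (cons (fin 913 6 848)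
(mv 848 (cons (fin 785 6 784)
(mv 1103 (cons (fin 1039 5 847)
(fin 1167 5 911))))))))
(cons (mv 847 (cons (fin 911 7 847)
(mv 848 (cons (fin 783 7 783)
(mv 1103 (cons (fin 1039 5 847)
(fin 1167 5 911)))))))
(mv 847 (cons (fin 911 7 847)
(mv 913 (cons (fin 849 6 848)
(mv 1103 (cons (fin 1167 5 911)
(mv 1105 (cons (fin 1169 4 912)
(mv 1106 (cons (cons (mv 1039 (cons (fin 1107 3 1039)
(mv 1042 (cons (fin 1043 2 1039)
(mv 1170 (cons (fin 1171 0 1103)
(mv 978 (cons (fin 977 7 913)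
(mv 915 (cons (fin 979 6 914)
(mv 914 (cons (fin 975 1 911)
(fin 851 6 850)))))))))))))
(mv 1042 (cons (fin 1043 2 1039)
(mv 1170 (cons (fin 1171 0 1103)
(mv 978 (cons (fin 977 7 913)
(mv 915 (cons (fin 979 6 914)
(mv 914 (cons (fin 975 1 911)
(fin 851 6 850))))))))))))
(cons (mv 1107 (cons (fin 1039 3 1039)
(mv 1171 (cons (fin 1170 0 1103)
(fin 1172 0 1104)))))
(mv 1043 (cons (fin 1042 2 1039)
(mv 1107 (cons (fin 1039 3 1039)
(fin 1044 2 1040)))))))))))))))))))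
(mv 1168 (cons (cons (mv 913 (cons (fin 977 6 912)
(mv 849 (cons (fin 912 6 848)
(mv 1169 (cons (fin 1233 4 976)
(mv 1231 (cons (fin 1167 5 975)
(mv 1232 (cons (fin 1295 5 1039)
(mv 1039 (cons (fin 975 7 975)
(mv 1103 (cons (fin 1296 7 1039)
(mv 1102 (cons (fin 1101 0 1101)
(mv 1170 (cons (fin 1171 3 1103)
(fin 1105 0 1102)))))))))))))))))))
(cons (mv 913 (cons (fin 977 6 912)
(mv 849 (cons (fin 912 6 848)
(mv 1233 (cons (fin 1169 4 976)
(mv 1232 (cons (fin 1297 4 1040)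
(mv 1039 (cons (fin 975 7 975)
(mv 1295 (cons (fin 1231 5 1039)
(mv 1296 (cons (fin 1103 7 1039)
(fin 1359 5 1103)))))))))))))))
(mv 913 (cons (fin 977 6 912)
(mv 849 (cons (fin 912 6 848)
(mv 1231 (cons (fin 1167 5 975)
(mv 1232 (cons (fin 1295 5 1039)
(mv 1039 (cons (fin 975 7 975)
(mv 1296 (cons (fin 1103 7 1039)
(mv 1297 (cons (fin 1233 4 1040)
(fin 1361 4 1104)))))))))))))))))
(cons (cons (mv 913 (cons (fin 977 6 912)
(mv 912 (cons (fin 849 6 848)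
(mv 1169 (cons (fin 1105 4 912)
(fin 1233 4 976)))))))
(mv 913 (cons (fin 977 6 912)
(mv 912 (cons (fin 849 6 848)
(mv 1167 (cons (fin 1103 5 911)
(fin 1231 5 975))))))))
(cons (mv 1167 (cons (fin 1231 5 975)
(mv 912 (cons (fin 1103 5 911)
(mv 1169 (cons (fin 1105 4 912)
(fin 1233 4 976)))))))
(mv 913 (cons (fin 977 6 912)
(mv 1169 (cons (fin 1233 4 976)
(mv 1231 (cons (fin 1167 5 975)
(mv 1232 (cons (fin 1295 5 1039)
(mv 1039 (cons (fin 975 7 975)
(mv 1103 (cons (fin 1296 7 1039)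
(mv 1102 (cons (fin 1101 0 1101)
(mv 1170 (cons (fin 1171 3 1103)
(fin 1105 0 1102)))))))))))))))))))))))
(cons (cons (mv 912 (cons (cons (mv 847 (cons (fin 911 7 847)
(mv 783 (cons (fin 848 7 783)
(mv 913 (cons (fin 849 6 848)
(mv 1168 (cons (fin 977 6 912)
(mv 1169 (cons (fin 1105 4 912)
(fin 1233 4 976)))))))))))
(cons (mv 849 (cons (fin 913 6 848)
(mv 848 (cons (fin 785 6 784)
(mv 783 (cons (fin 847 7 783)
(mv 784 (cons (fin 719 7 719)
(mv 1039 (cons (fin 975 5 783)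
(fin 1103 5 847)))))))))))
(mv 847 (cons (fin 911 7 847)
(mv 848 (cons (fin 783 7 783)
(mv 785 (cons (fin 849 6 784)
(mv 784 (cons (fin 721 6 720)
(mv 1039 (cons (fin 975 5 783)
(fin 1103 5 847)))))))))))))
(cons (mv 849 (cons (fin 913 6 848)
(mv 848 (cons (fin 785 6 784)
(mv 1039 (cons (fin 1103 5 847)
(mv 975 (cons (fin 784 5 783)
(mv 1168 (cons (fin 911 7 911)
(fin 1232 7 975)))))))))))
(cons (mv 847 (cons (fin 911 7 847)
(mv 848 (cons (fin 783 7 783)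
(mv 1039 (cons (fin 1103 5 847)
(mv 975 (cons (fin 784 5 783)
(mv 1168 (cons (fin 1232 7 975)
(mv 1169 (cons (fin 1105 4 912)
(fin 1233 4 976)))))))))))))
(mv 847 (cons (fin 911 7 847)
(mv 913 (cons (fin 849 6 848)
(mv 1168 (cons (fin 977 6 912)
(mv 1169 (cons (fin 1105 4 912)
(fin 1233 4 976)))))))))))))
(mv 1168 (cons (cons (mv 911 (cons (fin 975 7 911)
(mv 847 (cons (fin 912 7 847)
(mv 1231 (cons (fin 1167 5 975)
(mv 1232 (cons (fin 1295 5 1039)
(mv 1233 (cons (fin 1169 4 976)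
(fin 1297 4 1040)))))))))))
(mv 911 (cons (fin 975 7 911)
(mv 912 (cons (fin 847 7 847)
(mv 1169 (cons (fin 1105 4 912)
(fin 1233 4 976))))))))
(cons (mv 911 (cons (fin 975 7 911)
(mv 912 (cons (fin 847 7 847)
(mv 1167 (cons (fin 1103 5 911)
(fin 1231 5 975)))))))
(cons (mv 1167 (cons (fin 1231 5 975)
(mv 912 (cons (fin 1103 5 911)
(mv 1169 (cons (fin 1105 4 912)
(fin 1233 4 976)))))))
(mv 911 (cons (fin 975 7 911)
(mv 1231 (cons (fin 1167 5 975)
(mv 1232 (cons (fin 1295 5 1039)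
(mv 1233 (cons (fin 1169 4 976)
(fin 1297 4 1040))))))))))))))
(cons (mv 912 (cons (cons (mv 847 (cons (fin 911 7 847)
(mv 783 (cons (fin 848 7 783)
(mv 913 (cons (fin 849 6 848)
(mv 1167 (cons (fin 1103 5 911)
(mv 1168 (cons (fin 1231 5 975)
(fin 977 6 912)))))))))))
(mv 849 (cons (fin 913 6 848)
(mv 848 (cons (fin 785 6 784)
(mv 1103 (cons (fin 1039 5 847)
(fin 1167 5 911))))))))
(cons (mv 847 (cons (fin 911 7 847)
(mv 848 (cons (fin 783 7 783)
(mv 1103 (cons (fin 1039 5 847)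
(fin 1167 5 911)))))))
(cons (mv 847 (cons (fin 911 7 847)
(mv 848 (cons (fin 783 7 783)
(mv 849 (cons (fin 785 6 784)
(fin 913 6 848)))))))
(mv 847 (cons (fin 911 7 847)
(mv 913 (cons (fin 849 6 848)
(mv 1167 (cons (fin 1103 5 911)
(mv 1168 (cons (fin 1231 5 975)
(fin 977 6 912)))))))))))))
(mv 1168 (cons (cons (mv 911 (cons (fin 975 7 911)
(mv 847 (cons (fin 912 7 847)
(mv 913 (cons (fin 977 6 912)
(mv 1231 (cons (fin 1167 5 975)
(mv 1232 (cons (fin 1295 5 1039)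
(mv 1233 (cons (fin 1169 4 976)
(fin 1297 4 1040)))))))))))))
(mv 913 (cons (fin 977 6 912)
(mv 849 (cons (fin 912 6 848)
(mv 1231 (cons (fin 1167 5 975)
(mv 1232 (cons (fin 1295 5 1039)
(mv 1233 (cons (fin 1169 4 976)
(fin 1297 4 1040))))))))))))
(cons (mv 911 (cons (fin 975 7 911)
(mv 912 (cons (fin 847 7 847)
(mv 913 (cons (fin 849 6 848)
(fin 977 6 912)))))))
(cons (mv 911 (cons (fin 975 7 911)
(mv 847 (cons (fin 912 7 847)
(mv 1231 (cons (fin 1167 5 975)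
(mv 1232 (cons (fin 1295 5 1039)
(mv 1233 (cons (fin 1169 4 976)
(fin 1297 4 1040)))))))))))
(mv 911 (cons (fin 975 7 911)
(mv 913 (cons (fin 977 6 912)
(mv 1231 (cons (fin 1167 5 975)
(mv 1232 (cons (fin 1295 5 1039)
(mv 1233 (cons (fin 1169 4 976)
(fin 1297 4 1040)))))))))))))))))))))
(cons (cons (mv 1104 (cons (cons (cons (mv 912 (cons (cons (mv 847 (cons (fin 911 7 847)
(mv 783 (cons (fin 848 7 783)
(mv 849 (cons (fin 913 6 848)
(mv 1103 (cons (fin 1167 5 911)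
(mv 1105 (cons (fin 1169 4 912)
(mv 1038 (cons (fin 1102 3 1037)
(fin 1039 0 1037)))))))))))))
(mv 847 (cons (fin 911 7 847)
(mv 848 (cons (fin 783 7 783)
(mv 849 (cons (fin 785 6 784)
(fin 913 6 848))))))))
(cons (mv 849 (cons (fin 913 6 848)
(mv 785 (cons (fin 848 6 784)
(mv 1103 (cons (fin 1167 5 911)
(mv 1105 (cons (fin 1169 4 912)
(mv 1038 (cons (fin 1102 3 1037)
(fin 1039 0 1037)))))))))))
(cons (mv 847 (cons (fin 911 7 847)
(mv 783 (cons (fin 848 7 783)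
(mv 1103 (cons (fin 1167 5 911)
(mv 1105 (cons (fin 1169 4 912)
(mv 1038 (cons (fin 1102 3 1037)
(fin 1039 0 1037)))))))))))
(mv 847 (cons (fin 911 7 847)
(mv 849 (cons (fin 913 6 848)
(mv 1103 (cons (fin 1167 5 911)
(mv 1105 (cons (fin 1169 4 912)
(mv 1038 (cons (fin 1102 3 1037)
(fin 1039 0 1037)))))))))))))))
(mv 1168 (cons (cons (mv 911 (cons (fin 975 7 911)
(mv 1231 (cons (fin 1167 5 975)
(mv 1232 (cons (fin 1295 5 1039)
(mv 1233 (cons (fin 1169 4 976)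
(fin 1297 4 1040)))))))))
(mv 1231 (cons (fin 1167 5 975)
(mv 1232 (cons (fin 1295 5 1039)
(mv 1233 (cons (fin 1169 4 976)
(fin 1297 4 1040))))))))
(cons (mv 975 (cons (fin 911 7 911)
(mv 1039 (cons (fin 1232 7 975)
(mv 1038 (cons (fin 1036 2 972)
(fin 1105 0 1037)))))))
(mv 911 (cons (fin 975 7 911)
(mv 1167 (cons (fin 1231 5 975)
(mv 1169 (cons (fin 1233 4 976)
(mv 1170 (cons (mv 1103 (cons (fin 1102 3 1102)
(fin 1171 3 1103)))
(cons (mv 1106 (cons (fin 1107 2 1103)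
(mv 1105 (cons (fin 1166 2 1102)
(mv 1038 (cons (fin 1039 0 1037)
(mv 1171 (cons (fin 1172 3 1104)
(mv 1235 (cons (fin 1234 0 1167)
(fin 1236 0 1168)))))))))))
(mv 1102 (cons (fin 1103 3 1102)
(mv 1106 (cons (fin 1107 2 1103)
(mv 1166 (cons (fin 1101 3 1101)
(fin 1105 2 1102))))))))))))))))))))
(cons (mv 912 (cons (cons (mv 847 (cons (fin 911 7 847)
(mv 848 (cons (fin 783 7 783)
(mv 849 (cons (fin 785 6 784)
(fin 913 6 848)))))))
(mv 849 (cons (fin 913 6 848)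
(mv 848 (cons (fin 785 6 784)
(mv 1103 (cons (fin 1039 5 847)
(fin 1167 5 911))))))))
(cons (mv 847 (cons (fin 911 7 847)
(mv 848 (cons (fin 783 7 783)
(mv 1103 (cons (fin 1039 5 847)
(fin 1167 5 911)))))))
(mv 849 (cons (fin 913 6 848)
(mv 911 (cons (fin 847 7 847)
(mv 1103 (cons (fin 1167 5 911)
(mv 1168 (cons (fin 975 7 911)
(mv 1233 (cons (fin 1169 4 976)
(mv 1232 (cons (fin 1297 4 1040)
(mv 1295 (cons (fin 1231 5 1039)
(mv 1296 (cons (fin 1039 7 1039)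
(fin 1359 5 1103))))))))))))))))))))
(mv 912 (cons (cons (mv 847 (cons (fin 911 7 847)
(mv 848 (cons (fin 783 7 783)
(mv 849 (cons (fin 785 6 784)
(fin 913 6 848)))))))
(mv 849 (cons (fin 913 6 848)
(mv 848 (cons (fin 785 6 784)
(mv 783 (cons (fin 847 7 783)
(mv 719 (cons (fin 784 7 719)
(mv 1039 (cons (fin 1103 5 847)
(mv 1105 (cons (fin 1038 0 1037)
(fin 1169 4 912))))))))))))))
(cons (mv 849 (cons (fin 913 6 848)
(mv 848 (cons (fin 785 6 784)
(mv 1039 (cons (fin 1103 5 847)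
(mv 1105 (cons (fin 1038 0 1037)
(fin 1169 4 912)))))))))
(cons (mv 847 (cons (fin 911 7 847)
(mv 848 (cons (fin 783 7 783)
(mv 1039 (cons (fin 1103 5 847)
(mv 1105 (cons (fin 1038 0 1037)
(fin 1169 4 912)))))))))
(mv 849 (cons (fin 913 6 848)
(mv 911 (cons (fin 847 7 847)
(mv 975 (cons (fin 1168 7 911)
(mv 1105 (cons (fin 1169 4 912)
(mv 1038 (cons (fin 1039 0 1037)
(mv 1102 (cons (fin 1103 3 1037)
(mv 974 (cons (fin 1166 6 910)
(mv 973 (cons (fin 1036 1 972)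
(fin 972 2 908)))))))))))))))))))))))
(cons (cons (mv 912 (cons (cons (mv 849 (cons (fin 913 6 848)
(mv 785 (cons (fin 848 6 784)
(mv 1103 (cons (fin 1167 5 911)
(mv 1105 (cons (fin 1169 4 912)
(mv 1038 (cons (fin 1102 3 1037)
(fin 1039 0 1037)))))))))))
(cons (mv 849 (cons (fin 913 6 848)
(mv 848 (cons (fin 785 6 784)
(mv 783 (cons (fin 847 7 783)
(mv 784 (cons (fin 719 7 719)
(mv 781 (cons (fin 782 0 781)
(mv 850 (cons (fin 851 3 783)
(mv 1039 (cons (fin 975 5 783)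
(mv 1105 (cons (fin 1038 0 1037)
(fin 1169 4 912)))))))))))))))))
(mv 849 (cons (fin 913 6 848)
(mv 848 (cons (fin 785 6 784)
(mv 1103 (cons (fin 1039 5 847)
(fin 1167 5 911)))))))))
(cons (mv 1103 (cons (fin 1167 5 911)
(mv 848 (cons (fin 1039 5 847)
(mv 783 (cons (fin 847 7 783)
(mv 719 (cons (fin 784 7 719)
(mv 1105 (cons (fin 1169 4 912)
(mv 1102 (cons (fin 1038 3 1037)
(mv 1101 (cons (fin 1036 3 1036)
(mv 1165 (cons (fin 1164 1 1100)
(fin 1166 1 1101)))))))))))))))))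
(cons (mv 849 (cons (fin 913 6 848)
(mv 1103 (cons (fin 1167 5 911)
(mv 1105 (cons (fin 1169 4 912)
(mv 1038 (cons (fin 1102 3 1037)
(fin 1039 0 1037)))))))))
(mv 849 (cons (fin 913 6 848)
(mv 785 (cons (fin 848 6 784)
(mv 1103 (cons (fin 1167 5 911)
(mv 1105 (cons (fin 1169 4 912)
(mv 1102 (cons (fin 1038 3 1037)
(mv 1101 (cons (fin 1036 3 1036)
(mv 1165 (cons (fin 1164 1 1100)
(fin 1166 1 1101)))))))))))))))))))
(mv 912 (cons (cons (mv 847 (cons (fin 911 7 847)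
(mv 848 (cons (fin 783 7 783)
(mv 849 (cons (fin 785 6 784)
(fin 913 6 848)))))))
(mv 849 (cons (fin 913 6 848)
(mv 848 (cons (fin 785 6 784)
(mv 1103 (cons (fin 1039 5 847)
(fin 1167 5 911))))))))
(cons (mv 847 (cons (fin 911 7 847)
(mv 848 (cons (fin 783 7 783)
(mv 1103 (cons (fin 1039 5 847)
(fin 1167 5 911)))))))
(mv 849 (cons (fin 913 6 848)
(mv 911 (cons (fin 847 7 847)
(mv 1167 (cons (fin 1103 5 911)
(mv 1168 (cons (fin 975 7 911)
(fin 1231 5 975)))))))))))))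
(cons (mv 912 (cons (cons (mv 847 (cons (fin 911 7 847)
(mv 783 (cons (fin 848 7 783)
(mv 849 (cons (fin 913 6 848)
(mv 1103 (cons (fin 1167 5 911)
(mv 1105 (cons (fin 1169 4 912)
(mv 1102 (cons (fin 1038 3 1037)
(mv 1101 (cons (fin 1036 3 1036)
(mv 1165 (cons (fin 1164 1 1100)
(fin 1166 1 1101)))))))))))))))))
(mv 849 (cons (fin 913 6 848)
(mv 785 (cons (fin 848 6 784)
(mv 1103 (cons (fin 1167 5 911)
(mv 1105 (cons (fin 1169 4 912)
(mv 1102 (cons (fin 1038 3 1037)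
(mv 1101 (cons (fin 1036 3 1036)
(mv 1165 (cons (fin 1164 1 1100)
(fin 1166 1 1101))))))))))))))))
(cons (mv 847 (cons (fin 911 7 847)
(mv 783 (cons (fin 848 7 783)
(mv 1103 (cons (fin 1167 5 911)
(mv 1105 (cons (fin 1169 4 912)
(mv 1102 (cons (fin 1038 3 1037)
(mv 1101 (cons (fin 1036 3 1036)
(mv 1165 (cons (fin 1164 1 1100)
(fin 1166 1 1101)))))))))))))))
(cons (mv 847 (cons (fin 911 7 847)
(mv 848 (cons (fin 783 7 783)
(mv 849 (cons (fin 785 6 784)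
(fin 913 6 848)))))))
(mv 847 (cons (fin 911 7 847)
(mv 849 (cons (fin 913 6 848)
(mv 1103 (cons (fin 1167 5 911)
(mv 1105 (cons (fin 1169 4 912)
(mv 1102 (cons (fin 1038 3 1037)
(mv 1101 (cons (fin 1036 3 1036)
(mv 1165 (cons (fin 1164 1 1100)
(fin 1166 1 1101)))))))))))))))))))
(mv 1168 (cons (cons (mv 911 (cons (fin 975 7 911)
(mv 847 (cons (fin 912 7 847)
(mv 1231 (cons (fin 1167 5 975)
(mv 1232 (cons (fin 1295 5 1039)
(mv 1233 (cons (fin 1169 4 976)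
(fin 1297 4 1040)))))))))))
(mv 1167 (cons (fin 1231 5 975)
(mv 1169 (cons (fin 1233 4 976)
(mv 912 (cons (fin 1105 4 912)
(mv 847 (cons (fin 911 7 847)
(mv 848 (cons (fin 783 7 783)
(mv 849 (cons (fin 785 6 784)
(fin 913 6 848))))))))))))))
(cons (mv 975 (cons (fin 911 7 911)
(mv 1039 (cons (fin 1232 7 975)
(mv 1038 (cons (fin 1036 2 972)
(fin 1105 0 1037)))))))
(mv 1167 (cons (fin 1231 5 975)
(mv 1169 (cons (fin 1233 4 976)
(mv 1105 (cons (fin 912 4 912)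
(mv 1106 (cons (fin 1107 1 1103)
(fin 1166 2 1102))))))))))))))))
(mv 975 (cons (cons (mv 1038 (cons (cons (mv 977 (cons (fin 974 1 973)
(fin 1039 2 973)))
(mv 974 (cons (fin 977 1 973)
(mv 1036 (cons (fin 973 1 972)
(fin 1035 2 971))))))
(cons (mv 1036 (cons (fin 1039 2 972)
(mv 974 (cons (fin 973 1 972)
(fin 1035 2 971)))))
(mv 1039 (cons (fin 1036 2 972)
(fin 977 2 973))))))
(cons (mv 912 (cons (cons (cons (mv 848 (cons (mv 1039 (cons (fin 784 5 783)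
(fin 1103 5 847)))
(cons (mv 783 (cons (fin 847 7 783)
(mv 784 (cons (fin 719 7 719)
(mv 785 (cons (fin 721 6 720)
(fin 849 6 784)))))))
(mv 785 (cons (fin 849 6 784)
(mv 847 (cons (fin 783 7 783)
(mv 1039 (cons (fin 1103 5 847)
(mv 913 (cons (cons (mv 845 (cons (fin 846 0 845)
(mv 914 (cons (fin 915 3 847)
(mv 974 (cons (fin 911 1 910)
(fin 973 2 909)))))))
(mv 846 (cons (fin 845 0 845)
(mv 782 (cons (fin 911 7 782)
(mv 974 (cons (fin 973 2 909)
(fin 910 4 782))))))))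
(cons (mv 846 (cons (fin 845 0 845)
(mv 911 (cons (fin 914 3 846)
(fin 782 7 782)))))
(cons (mv 914 (cons (fin 915 3 847)
(mv 974 (cons (fin 911 1 910)
(fin 973 2 909)))))
(mv 845 (cons (fin 846 0 845)
(mv 914 (cons (fin 915 3 847)
(mv 974 (cons (fin 973 2 909)
(fin 977 2 910))))))))))))))))))))
(mv 974 (cons (mv 973 (cons (fin 1036 1 972)
(fin 913 2 909)))
(cons (mv 977 (cons (cons (mv 909 (cons (fin 910 3 909)
(mv 914 (cons (fin 913 2 910)
(mv 978 (cons (fin 915 2 911)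
(mv 979 (cons (fin 911 3 911)
(fin 1039 1 975)))))))))
(cons (mv 910 (cons (fin 909 3 909)
(mv 978 (cons (fin 911 3 910)
(mv 914 (cons (fin 915 2 911)
(mv 979 (cons (fin 1039 1 975)
(mv 1043 (cons (fin 1042 0 975)
(fin 1044 0 976)))))))))))
(mv 910 (cons (fin 909 3 909)
(mv 978 (cons (fin 911 3 910)
(mv 979 (cons (fin 1039 1 975)
(mv 1043 (cons (fin 1042 0 975)
(fin 1044 0 976)))))))))))
(cons (mv 914 (cons (fin 913 2 910)
(mv 978 (cons (fin 915 2 911)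
(mv 979 (cons (fin 911 3 911)
(fin 1039 1 975)))))))
(cons (mv 910 (cons (fin 909 3 909)
(mv 913 (cons (fin 914 2 910)
(mv 849 (cons (fin 785 5 784)
(mv 911 (cons (fin 850 2 846)
(mv 783 (cons (fin 847 4 783)
(mv 846 (cons (fin 845 3 845)
(mv 782 (cons (fin 719 6 718)
(fin 718 4 718)))))))))))))))
(mv 909 (cons (fin 910 3 909)
(mv 914 (cons (fin 913 2 910)
(mv 978 (cons (fin 915 2 911)
(mv 979 (cons (fin 1039 1 975)
(mv 1043 (cons (fin 1042 0 975)
(fin 1044 0 976)))))))))))))))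
(mv 973 (cons (fin 1036 1 972)
(mv 972 (cons (fin 911 2 908)
(fin 1039 0 972)))))))))
(cons (mv 913 (cons (cons (mv 914 (cons (fin 915 1 911)
(mv 974 (cons (fin 911 1 910)
(fin 973 2 909)))))
(mv 914 (cons (fin 915 1 911)
(mv 911 (cons (mv 847 (cons (fin 846 3 846)
(fin 783 4 783)))
(mv 850 (cons (fin 851 2 847)
(mv 849 (cons (fin 910 2 846)
(mv 785 (cons (fin 721 5 720)
(fin 977 5 784))))))))))))
(cons (mv 973 (cons (fin 974 2 909)
(mv 848 (cons (cons (mv 783 (cons (fin 847 7 783)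
(mv 784 (cons (fin 719 7 719)
(mv 720 (cons (fin 911 5 719)
(fin 977 4 720)))))))
(mv 785 (cons (fin 849 6 784)
(mv 784 (cons (fin 721 6 720)
(mv 720 (cons (fin 911 5 719)
(fin 977 4 720))))))))
(cons (mv 847 (cons (fin 783 7 783)
(mv 846 (cons (fin 845 0 845)
(mv 849 (cons (fin 785 6 784)
(mv 781 (cons (fin 782 3 781)
(mv 910 (cons (fin 909 1 845)
(mv 850 (cons (fin 911 1 846)
(mv 787 (cons (fin 786 2 783)
(mv 851 (cons (fin 852 1 848)
(fin 788 2 784)))))))))))))))))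
(mv 783 (cons (fin 847 7 783)
(mv 784 (cons (fin 719 7 719)
(mv 785 (cons (fin 721 6 720)
(fin 849 6 784))))))))))))
(mv 914 (cons (fin 915 1 911)
(mv 974 (cons (fin 973 2 909)
(fin 977 2 910))))))))
(cons (mv 848 (cons (mv 1039 (cons (fin 784 5 783)
(fin 1103 5 847)))
(cons (mv 783 (cons (fin 847 7 783)
(mv 784 (cons (fin 719 7 719)
(mv 785 (cons (fin 721 6 720)
(fin 849 6 784)))))))
(mv 847 (cons (fin 783 7 783)
(mv 849 (cons (fin 785 6 784)
(mv 1039 (cons (fin 1103 5 847)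
(mv 846 (cons (mv 782 (cons (fin 781 3 781)
(fin 911 7 782)))
(mv 913 (cons (fin 845 0 845)
(fin 914 0 846))))))))))))))
(mv 848 (cons (mv 1039 (cons (fin 784 5 783)
(fin 1103 5 847)))
(cons (mv 783 (cons (fin 847 7 783)
(mv 784 (cons (fin 719 7 719)
(mv 785 (cons (fin 721 6 720)
(fin 849 6 784)))))))
(mv 847 (cons (fin 783 7 783)
(mv 849 (cons (fin 785 6 784)
(mv 1039 (cons (fin 1103 5 847)
(mv 850 (cons (mv 911 (cons (fin 910 1 846)
(fin 851 1 847)))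
(cons (mv 787 (cons (fin 786 2 783)
(mv 851 (cons (fin 788 2 784)
(mv 915 (cons (fin 914 0 847)
(fin 916 0 848)))))))
(mv 786 (cons (fin 787 2 783)
(mv 910 (cons (fin 911 1 846)
(mv 846 (cons (fin 909 1 845)
(mv 782 (cons (fin 781 3 781)
(fin 974 4 782))))))))))))))))))))))))
(cons (cons (mv 974 (cons (mv 973 (cons (fin 1036 1 972)
(fin 913 2 909)))
(cons (mv 977 (cons (cons (mv 909 (cons (fin 910 3 909)
(mv 914 (cons (fin 913 2 910)
(mv 978 (cons (fin 915 2 911)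
(mv 979 (cons (fin 911 3 911)
(fin 1039 1 975)))))))))
(cons (mv 910 (cons (fin 909 3 909)
(mv 978 (cons (fin 911 3 910)
(mv 914 (cons (fin 915 2 911)
(mv 979 (cons (fin 1039 1 975)
(mv 1043 (cons (fin 1042 0 975)
(fin 1044 0 976)))))))))))
(mv 910 (cons (fin 909 3 909)
(mv 978 (cons (fin 911 3 910)
(mv 979 (cons (fin 1039 1 975)
(mv 1043 (cons (fin 1042 0 975)
(fin 1044 0 976)))))))))))
(cons (cons (mv 914 (cons (fin 913 2 910)
(mv 978 (cons (fin 915 2 911)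
(mv 979 (cons (fin 911 3 911)
(fin 1039 1 975)))))))
(mv 910 (cons (fin 909 3 909)
(mv 913 (cons (fin 914 2 910)
(mv 849 (cons (fin 785 5 784)
(mv 911 (cons (fin 850 2 846)
(mv 846 (cons (fin 845 3 845)
(mv 782 (cons (fin 718 4 718)
(fin 1039 4 782))))))))))))))
(cons (mv 909 (cons (fin 910 3 909)
(mv 914 (cons (fin 913 2 910)
(mv 978 (cons (fin 915 2 911)
(mv 979 (cons (fin 1039 1 975)
(mv 1043 (cons (fin 1042 0 975)
(fin 1044 0 976)))))))))))
(mv 909 (cons (fin 910 3 909)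
(mv 914 (cons (fin 913 2 910)
(mv 978 (cons (fin 915 2 911)
(mv 979 (cons (fin 911 3 911)
(mv 1043 (cons (fin 1042 0 975)
(fin 1044 0 976)))))))))))))))
(mv 973 (cons (fin 1036 1 972)
(mv 972 (cons (fin 911 2 908)
(fin 1039 0 972))))))))
(cons (mv 848 (cons (mv 1039 (cons (fin 784 5 783)
(fin 1103 5 847)))
(cons (mv 783 (cons (fin 847 7 783)
(mv 784 (cons (fin 719 7 719)
(mv 785 (cons (fin 721 6 720)
(fin 849 6 784)))))))
(mv 847 (cons (fin 783 7 783)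
(mv 849 (cons (fin 785 6 784)
(mv 1039 (cons (fin 1103 5 847)
(mv 913 (cons (mv 846 (cons (fin 845 0 845)
(fin 914 0 846)))
(cons (mv 846 (cons (fin 845 0 845)
(mv 782 (cons (fin 781 3 781)
(mv 910 (cons (fin 909 1 845)
(fin 974 4 782)))))))
(mv 914 (cons (fin 915 3 847)
(mv 974 (cons (fin 973 2 909)
(fin 977 2 910)))))))))))))))))
(mv 848 (cons (mv 1039 (cons (fin 784 5 783)
(fin 1103 5 847)))
(cons (mv 783 (cons (fin 847 7 783)
(mv 784 (cons (fin 719 7 719)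
(mv 785 (cons (fin 721 6 720)
(fin 849 6 784)))))))
(mv 785 (cons (fin 849 6 784)
(mv 847 (cons (fin 783 7 783)
(mv 1039 (cons (fin 1103 5 847)
(mv 846 (cons (cons (mv 782 (cons (fin 911 7 782)
(mv 845 (cons (fin 913 0 845)
(mv 909 (cons (fin 908 1 844)
(fin 973 6 781)))))))
(mv 782 (cons (fin 911 7 782)
(mv 974 (cons (fin 910 4 782)
(mv 973 (cons (fin 1036 1 972)
(fin 913 2 909))))))))
(cons (mv 845 (cons (fin 913 0 845)
(mv 780 (cons (fin 781 3 780)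
(mv 779 (cons (fin 844 3 779)
(mv 909 (cons (fin 908 1 844)
(mv 782 (cons (fin 973 6 781)
(mv 718 (cons (fin 654 5 653)
(mv 910 (cons (fin 974 4 782)
(mv 717 (cons (fin 653 7 653)
(mv 719 (cons (fin 716 1 715)
(fin 655 6 654)))))))))))))))))))
(cons (mv 845 (cons (fin 913 0 845)
(mv 780 (cons (fin 781 3 780)
(mv 844 (cons (fin 779 3 779)
(fin 911 0 844)))))))
(mv 782 (cons (fin 911 7 782)
(mv 974 (cons (fin 910 4 782)
(mv 973 (cons (fin 1036 1 972)
(fin 972 0 972))))))))))))))))))))))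
(cons (mv 848 (cons (mv 1039 (cons (fin 784 5 783)
(fin 1103 5 847)))
(cons (mv 783 (cons (fin 847 7 783)
(mv 784 (cons (fin 719 7 719)
(mv 720 (cons (fin 911 5 719)
(mv 657 (cons (fin 721 6 656)
(mv 656 (cons (fin 593 6 592)
(mv 913 (cons (fin 849 4 656)
(fin 977 4 720)))))))))))))
(mv 847 (cons (fin 783 7 783)
(mv 1039 (cons (fin 1103 5 847)
(mv 913 (cons (cons (mv 845 (cons (fin 846 0 845)
(mv 914 (cons (fin 915 3 847)
(mv 974 (cons (fin 911 1 910)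
(fin 973 2 909)))))))
(mv 846 (cons (fin 845 0 845)
(mv 782 (cons (fin 911 7 782)
(mv 974 (cons (fin 973 2 909)
(fin 910 4 782))))))))
(cons (mv 846 (cons (fin 845 0 845)
(mv 911 (cons (fin 914 3 846)
(fin 782 7 782)))))
(cons (mv 914 (cons (fin 915 3 847)
(mv 974 (cons (fin 911 1 910)
(fin 973 2 909)))))
(mv 845 (cons (fin 846 0 845)
(mv 914 (cons (fin 915 3 847)
(mv 974 (cons (fin 973 2 909)
(fin 977 2 910))))))))))))))))))
(cons (mv 848 (cons (mv 1039 (cons (fin 784 5 783)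
(fin 1103 5 847)))
(cons (mv 783 (cons (fin 847 7 783)
(mv 784 (cons (fin 719 7 719)
(mv 720 (cons (fin 911 5 719)
(mv 721 (cons (fin 657 6 656)
(fin 785 6 720)))))))))
(mv 847 (cons (fin 783 7 783)
(mv 1039 (cons (fin 1103 5 847)
(mv 913 (cons (cons (mv 845 (cons (fin 846 0 845)
(mv 914 (cons (fin 915 3 847)
(mv 974 (cons (fin 911 1 910)
(fin 973 2 909)))))))
(mv 846 (cons (fin 845 0 845)
(mv 782 (cons (fin 911 7 782)
(mv 974 (cons (fin 973 2 909)
(fin 910 4 782))))))))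
(cons (mv 846 (cons (fin 845 0 845)
(mv 911 (cons (fin 914 3 846)
(fin 782 7 782)))))
(cons (mv 914 (cons (fin 915 3 847)
(mv 974 (cons (fin 911 1 910)
(fin 973 2 909)))))
(mv 845 (cons (fin 846 0 845)
(mv 914 (cons (fin 915 3 847)
(mv 974 (cons (fin 973 2 909)
(fin 977 2 910))))))))))))))))))
(mv 848 (cons (mv 1039 (cons (fin 784 5 783)
(fin 1103 5 847)))
(cons (mv 783 (cons (fin 847 7 783)
(mv 784 (cons (fin 719 7 719)
(mv 785 (cons (fin 721 6 720)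
(fin 849 6 784)))))))
(mv 847 (cons (fin 783 7 783)
(mv 849 (cons (fin 785 6 784)
(mv 1039 (cons (fin 1103 5 847)
(mv 850 (cons (mv 911 (cons (fin 910 1 846)
(fin 851 1 847)))
(cons (mv 787 (cons (fin 786 2 783)
(mv 851 (cons (fin 788 2 784)
(mv 915 (cons (fin 914 0 847)
(fin 916 0 848)))))))
(mv 786 (cons (fin 787 2 783)
(mv 911 (cons (fin 910 1 846)
(mv 914 (cons (fin 915 0 847)
(mv 913 (cons (fin 974 1 910)
(mv 722 (cons (fin 658 5 657)
(fin 977 5 721))))))))))))))))))))))))))))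
(mv 974 (cons (cons (mv 973 (cons (fin 1036 1 972)
(mv 908 (cons (fin 909 3 908)
(mv 907 (cons (fin 972 3 907)
(mv 913 (cons (fin 912 2 909)
(mv 977 (cons (fin 1038 1 973)
(fin 914 2 910)))))))))))
(cons (mv 977 (cons (fin 1038 1 973)
(mv 910 (cons (fin 909 3 909)
(mv 911 (cons (fin 978 3 910)
(mv 783 (cons (fin 847 4 783)
(mv 913 (cons (fin 914 2 910)
(mv 849 (cons (fin 785 5 784)
(mv 912 (cons (fin 850 2 846)
(mv 846 (cons (fin 845 3 845)
(mv 782 (cons (fin 719 6 718)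
(fin 718 4 718)))))))))))))))))))
(mv 973 (cons (fin 1036 1 972)
(mv 908 (cons (fin 909 3 908)
(mv 912 (cons (fin 913 2 909)
(mv 972 (cons (fin 907 3 907)
(fin 911 2 908)))))))))))
(cons (mv 973 (cons (fin 1036 1 972)
(mv 908 (cons (fin 909 3 908)
(mv 972 (cons (fin 907 3 907)
(mv 780 (cons (fin 844 4 780)
(mv 911 (cons (fin 912 2 908)
(mv 783 (cons (fin 847 4 783)
(mv 910 (cons (fin 971 2 907)
(mv 977 (cons (fin 978 3 910)
(fin 1038 1 973)))))))))))))))))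
(cons (mv 973 (cons (fin 1036 1 972)
(mv 912 (cons (fin 913 2 909)
(mv 911 (cons (fin 972 2 908)
(mv 783 (cons (fin 847 4 783)
(mv 977 (cons (fin 1038 1 973)
(mv 978 (cons (fin 910 3 910)
(fin 979 3 911)))))))))))))
(mv 973 (cons (fin 1036 1 972)
(mv 908 (cons (fin 909 3 908)
(mv 972 (cons (fin 907 3 907)
(mv 780 (cons (fin 844 4 780)
(mv 1038 (cons (fin 977 1 973)
(mv 971 (cons (fin 970 0 970)
(mv 910 (cons (fin 911 2 907)
(mv 846 (cons (fin 782 5 781)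
(fin 1101 5 845)))))))))))))))))))))))
(cons (cons (mv 1039 (cons (cons (cons (mv 1036 (cons (fin 1038 2 972)
(mv 973 (cons (fin 974 1 972)
(mv 1103 (cons (mv 912 (cons (fin 848 5 847)
(fin 1167 6 911)))
(cons (mv 1167 (cons (fin 1231 6 975)
(mv 1166 (cons (fin 1230 5 974)
(mv 911 (cons (fin 1102 5 910)
(mv 846 (cons (fin 910 7 846)
(mv 847 (cons (fin 782 7 782)
(fin 783 4 783)))))))))))
(mv 911 (cons (cons (mv 783 (cons (fin 847 4 783)
(mv 910 (cons (fin 846 7 846)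
(mv 909 (cons (fin 908 0 908)
(mv 912 (cons (fin 972 1 908)
(fin 848 5 847)))))))))
(mv 846 (cons (fin 910 7 846)
(mv 847 (cons (fin 782 7 782)
(fin 783 4 783))))))
(cons (mv 910 (cons (fin 846 7 846)
(mv 909 (cons (fin 908 0 908)
(mv 912 (cons (fin 972 1 908)
(fin 848 5 847)))))))
(mv 847 (cons (fin 783 4 783)
(mv 848 (cons (fin 912 5 847)
(fin 784 6 783)))))))))))))))
(mv 1103 (cons (mv 912 (cons (fin 848 5 847)
(fin 1167 6 911)))
(cons (mv 911 (cons (cons (mv 783 (cons (fin 847 4 783)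
(mv 910 (cons (fin 846 7 846)
(mv 909 (cons (fin 908 0 908)
(mv 912 (cons (fin 848 5 847)
(mv 844 (cons (fin 845 3 844)
(mv 973 (cons (fin 972 1 908)
(mv 974 (cons (fin 913 1 909)
(fin 1036 1 972)))))))))))))))
(mv 846 (cons (fin 910 7 846)
(mv 847 (cons (fin 782 7 782)
(fin 783 4 783))))))
(cons (mv 910 (cons (fin 846 7 846)
(mv 909 (cons (fin 908 0 908)
(mv 912 (cons (fin 848 5 847)
(mv 844 (cons (fin 845 3 844)
(mv 973 (cons (fin 972 1 908)
(mv 974 (cons (fin 913 1 909)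
(fin 1036 1 972)))))))))))))
(mv 847 (cons (fin 783 4 783)
(mv 848 (cons (fin 912 5 847)
(fin 784 6 783))))))))
(mv 1167 (cons (fin 1231 6 975)
(mv 910 (cons (fin 974 7 910)
(mv 911 (cons (fin 846 7 846)
(mv 1166 (cons (fin 1102 5 910)
(fin 1230 5 974)))))))))))))
(cons (mv 1103 (cons (mv 912 (cons (fin 848 5 847)
(fin 1167 6 911)))
(cons (mv 912 (cons (fin 848 5 847)
(mv 911 (cons (mv 783 (cons (fin 847 4 783)
(mv 910 (cons (fin 846 7 846)
(mv 909 (cons (fin 908 0 908)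
(mv 844 (cons (fin 845 3 844)
(mv 973 (cons (fin 972 1 908)
(mv 913 (cons (fin 974 1 909)
(mv 850 (cons (fin 849 2 846)
(mv 914 (cons (fin 915 1 911)
(fin 851 2 847)))))))))))))))))
(cons (mv 910 (cons (fin 846 7 846)
(mv 909 (cons (fin 908 0 908)
(mv 844 (cons (fin 845 3 844)
(mv 973 (cons (fin 972 1 908)
(mv 913 (cons (fin 974 1 909)
(mv 850 (cons (fin 849 2 846)
(mv 914 (cons (fin 915 1 911)
(fin 851 2 847)))))))))))))))
(mv 847 (cons (fin 783 4 783)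
(mv 1102 (cons (fin 1038 5 846)
(fin 1166 5 910))))))))))
(mv 1167 (cons (fin 1231 6 975)
(mv 910 (cons (fin 974 7 910)
(mv 911 (cons (fin 846 7 846)
(mv 1166 (cons (fin 1102 5 910)
(fin 1230 5 974))))))))))))
(cons (mv 1038 (cons (fin 1036 2 972)
(mv 973 (cons (fin 972 3 972)
(mv 1102 (cons (cons (mv 845 (cons (fin 909 4 845)
(mv 911 (cons (fin 847 5 846)
(mv 1166 (cons (fin 1230 7 973)
(fin 974 6 910)))))))
(mv 847 (cons (fin 911 5 846)
(mv 909 (cons (fin 845 4 845)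
(mv 974 (cons (fin 908 3 908)
(mv 912 (cons (fin 913 2 909)
(mv 848 (cons (fin 783 7 783)
(fin 784 5 783))))))))))))
(cons (mv 911 (cons (fin 847 5 846)
(mv 1166 (cons (fin 1230 7 973)
(fin 974 6 910)))))
(cons (mv 909 (cons (fin 845 4 845)
(mv 974 (cons (fin 908 3 908)
(fin 1166 7 909)))))
(mv 847 (cons (fin 911 5 846)
(mv 909 (cons (fin 845 4 845)
(mv 1166 (cons (fin 1230 7 973)
(fin 1101 4 909)))))))))))))))
(mv 1038 (cons (fin 1036 2 972)
(mv 973 (cons (fin 972 3 972)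
(mv 1102 (cons (cons (mv 845 (cons (fin 909 4 845)
(mv 911 (cons (fin 847 5 846)
(mv 1166 (cons (fin 1230 7 973)
(fin 1103 5 910)))))))
(mv 909 (cons (fin 845 4 845)
(mv 908 (cons (fin 974 3 908)
(mv 911 (cons (fin 910 0 908)
(fin 847 5 846))))))))
(cons (mv 911 (cons (fin 847 5 846)
(mv 1166 (cons (fin 1230 7 973)
(fin 1103 5 910)))))
(mv 909 (cons (fin 845 4 845)
(mv 974 (cons (fin 908 3 908)
(fin 1166 7 909)))))))))))))))
(cons (cons (mv 1038 (cons (fin 1036 2 972)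
(mv 1103 (cons (mv 912 (cons (fin 848 5 847)
(fin 1167 6 911)))
(cons (mv 912 (cons (fin 848 5 847)
(mv 911 (cons (mv 847 (cons (fin 1102 5 846)
(fin 783 4 783)))
(cons (mv 910 (cons (fin 846 7 846)
(mv 909 (cons (fin 908 0 908)
(mv 845 (cons (fin 844 3 844)
(mv 1102 (cons (fin 974 7 845)
(fin 1166 5 910)))))))))
(mv 846 (cons (fin 910 7 846)
(mv 847 (cons (fin 782 7 782)
(fin 783 4 783))))))))))
(mv 1167 (cons (fin 1231 6 975)
(mv 910 (cons (fin 974 7 910)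
(mv 911 (cons (fin 846 7 846)
(mv 847 (cons (fin 1102 5 846)
(fin 783 4 783))))))))))))))
(mv 1038 (cons (fin 1036 2 972)
(mv 973 (cons (fin 972 3 972)
(mv 1102 (cons (cons (mv 845 (cons (fin 909 4 845)
(mv 911 (cons (fin 847 5 846)
(mv 1166 (cons (fin 1230 7 973)
(fin 1103 5 910)))))))
(mv 909 (cons (fin 845 4 845)
(mv 911 (cons (fin 847 5 846)
(mv 910 (cons (fin 908 0 908)
(mv 846 (cons (fin 1103 7 846)
(fin 1101 6 845))))))))))
(cons (mv 909 (cons (fin 845 4 845)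
(mv 1166 (cons (fin 1230 7 973)
(fin 1101 4 909)))))
(mv 911 (cons (fin 847 5 846)
(mv 1166 (cons (fin 1230 7 973)
(fin 1103 5 910)))))))))))))
(cons (mv 1038 (cons (fin 1036 2 972)
(mv 973 (cons (fin 972 3 972)
(mv 912 (cons (mv 848 (cons (fin 784 5 783)
(fin 1103 5 847)))
(mv 974 (cons (fin 913 2 909)
(mv 909 (cons (fin 908 3 908)
(mv 845 (cons (fin 781 4 781)
(fin 1102 4 845)))))))))))))
(cons (mv 1038 (cons (fin 1036 2 972)
(mv 973 (cons (fin 972 3 972)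
(mv 912 (cons (mv 848 (cons (fin 784 5 783)
(fin 1103 5 847)))
(cons (mv 974 (cons (fin 913 2 909)
(mv 909 (cons (fin 908 3 908)
(mv 845 (cons (fin 781 4 781)
(mv 780 (cons (fin 844 7 780)
(mv 846 (cons (fin 782 6 781)
(mv 910 (cons (fin 1101 5 845)
(fin 1103 4 846)))))))))))))
(mv 784 (cons (fin 848 5 783)
(mv 974 (cons (fin 913 2 909)
(mv 909 (cons (fin 908 3 908)
(mv 845 (cons (fin 781 4 781)
(mv 844 (cons (fin 780 7 780)
(mv 846 (cons (fin 782 6 781)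
(mv 847 (cons (fin 783 2 780)
(fin 911 0 844))))))))))))))))))))))
(mv 1038 (cons (fin 1036 2 972)
(mv 973 (cons (fin 972 3 972)
(mv 912 (cons (mv 848 (cons (fin 784 5 783)
(fin 1103 5 847)))
(cons (mv 913 (cons (fin 974 2 909)
(mv 914 (cons (fin 915 1 911)
(mv 1103 (cons (fin 1167 6 911)
(mv 911 (cons (mv 846 (cons (fin 847 3 846)
(fin 910 7 846)))
(cons (mv 850 (cons (fin 851 2 847)
(mv 910 (cons (fin 849 2 846)
(fin 846 7 846)))))
(mv 847 (cons (fin 1102 5 846)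
(fin 783 4 783))))))))))))
(mv 848 (cons (fin 784 5 783)
(mv 785 (cons (fin 849 6 784)
(mv 847 (cons (fin 783 7 783)
(mv 911 (cons (fin 1102 5 846)
(mv 846 (cons (fin 782 7 782)
(mv 845 (cons (fin 844 0 844)
(fin 913 0 845)))))))))))))))))))))))))
(mv 1039 (cons (mv 1038 (cons (fin 1036 2 972)
(fin 977 2 973)))
(cons (mv 1103 (cons (mv 912 (cons (fin 848 5 847)
(fin 1167 6 911)))
(cons (mv 1167 (cons (fin 1231 6 975)
(mv 1166 (cons (fin 1230 5 974)
(mv 911 (cons (fin 1102 5 910)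
(mv 846 (cons (fin 910 7 846)
(mv 847 (cons (fin 782 7 782)
(fin 783 4 783)))))))))))
(mv 911 (cons (cons (mv 783 (cons (fin 847 4 783)
(mv 910 (cons (fin 846 7 846)
(mv 909 (cons (fin 908 0 908)
(mv 912 (cons (fin 977 0 909)
(fin 848 5 847)))))))))
(mv 783 (cons (fin 847 4 783)
(mv 910 (cons (fin 846 7 846)
(mv 909 (cons (fin 908 0 908)
(mv 977 (cons (fin 978 3 910)
(fin 912 0 909))))))))))
(cons (mv 846 (cons (fin 910 7 846)
(mv 847 (cons (fin 782 7 782)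
(fin 783 4 783)))))
(cons (mv 910 (cons (fin 846 7 846)
(mv 909 (cons (fin 908 0 908)
(mv 912 (cons (fin 977 0 909)
(fin 848 5 847)))))))
(mv 847 (cons (fin 783 4 783)
(mv 848 (cons (fin 912 5 847)
(fin 784 6 783))))))))))))
(mv 1038 (cons (fin 1036 2 972)
(mv 973 (cons (fin 972 3 972)
(mv 1102 (cons (cons (mv 845 (cons (fin 909 4 845)
(mv 911 (cons (fin 847 5 846)
(mv 1166 (cons (fin 1230 7 973)
(fin 1103 5 910)))))))
(mv 909 (cons (fin 845 4 845)
(mv 911 (cons (fin 847 5 846)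
(mv 910 (cons (fin 908 0 908)
(mv 846 (cons (fin 1103 7 846)
(fin 1101 6 845))))))))))
(cons (mv 909 (cons (fin 845 4 845)
(mv 1166 (cons (fin 1230 7 973)
(fin 1101 4 909)))))
(mv 911 (cons (fin 847 5 846)
(mv 1166 (cons (fin 1230 7 973)
(fin 1103 5 910))))))))))))))))
(cons (mv 977 (cons (cons (mv 1038 (cons (fin 974 1 973)
(fin 1039 2 973)))
(mv 978 (cons (cons (mv 910 (cons (fin 911 3 910)
(mv 909 (cons (fin 974 3 909)
(mv 914 (cons (fin 915 2 911)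
(mv 979 (cons (fin 1039 1 975)
(mv 1043 (cons (fin 1042 0 975)
(fin 1044 0 976)))))))))))
(mv 910 (cons (fin 911 3 910)
(mv 914 (cons (fin 915 2 911)
(mv 974 (cons (fin 909 3 909)
(fin 913 2 910))))))))
(cons (mv 914 (cons (fin 915 2 911)
(mv 913 (cons (fin 974 2 910)
(mv 785 (cons (fin 849 5 784)
(mv 979 (cons (fin 1039 1 975)
(mv 980 (cons (fin 912 3 912)
(fin 981 3 913)))))))))))
(cons (mv 910 (cons (fin 911 3 910)
(mv 909 (cons (fin 974 3 909)
(mv 979 (cons (fin 1039 1 975)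
(mv 1043 (cons (fin 1042 0 975)
(fin 1044 0 976)))))))))
(mv 910 (cons (fin 911 3 910)
(mv 914 (cons (fin 915 2 911)
(mv 979 (cons (fin 1039 1 975)
(mv 1043 (cons (fin 1042 0 975)
(fin 1044 0 976))))))))))))))
(cons (mv 974 (cons (fin 1038 1 973)
(mv 909 (cons (fin 910 3 909)
(mv 913 (cons (fin 914 2 910)
(mv 973 (cons (fin 908 3 908)
(fin 912 2 909)))))))))
(mv 1039 (cons (fin 1038 2 973)
(mv 978 (cons (fin 979 1 975)
(mv 911 (cons (fin 910 3 910)
(mv 847 (cons (fin 783 4 783)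
(mv 782 (cons (fin 846 7 782)
(mv 848 (cons (fin 784 6 783)
(mv 912 (cons (fin 1103 5 847)
(mv 849 (cons (fin 785 6 784)
(mv 850 (cons (fin 851 1 847)
(mv 786 (cons (fin 787 2 783)
(mv 914 (cons (fin 915 2 911)
(mv 722 (cons (fin 913 5 721)
(mv 657 (cons (fin 721 7 657)
(mv 658 (cons (fin 593 7 593)
(mv 659 (cons (fin 595 6 594)
(fin 723 6 658))))))))))))))))))))))))))))))))))
(mv 1038 (cons (cons (mv 977 (cons (fin 974 1 973)
(fin 1039 2 973)))
(mv 974 (cons (fin 977 1 973)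
(mv 1035 (cons (fin 1036 2 971)
(mv 910 (cons (cons (mv 846 (cons (fin 1101 5 845)
(mv 781 (cons (fin 845 7 781)
(mv 782 (cons (fin 717 7 717)
(mv 783 (cons (fin 719 6 718)
(fin 847 6 782)))))))))
(mv 1102 (cons (mv 911 (cons (fin 847 6 846)
(fin 1166 6 910)))
(cons (mv 845 (cons (fin 909 7 845)
(mv 1165 (cons (fin 1101 5 909)
(mv 1166 (cons (fin 1229 5 973)
(mv 1167 (cons (fin 1103 4 910)
(fin 1231 4 974)))))))))
(mv 909 (cons (fin 845 7 845)
(mv 908 (cons (fin 907 0 907)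
(fin 911 0 908)))))))))
(cons (mv 909 (cons (mv 908 (cons (fin 907 0 907)
(fin 911 0 908)))
(mv 845 (cons (fin 1102 7 845)
(mv 781 (cons (fin 846 7 781)
(fin 717 4 717)))))))
(mv 846 (cons (fin 1101 5 845)
(mv 783 (cons (fin 847 6 782)
(mv 782 (cons (fin 719 6 718)
(mv 717 (cons (fin 781 7 717)
(mv 718 (cons (fin 653 7 653)
(fin 911 4 718)))))))))))))))))))
(cons (mv 1036 (cons (fin 1039 2 972)
(mv 1035 (cons (fin 974 2 971)
(mv 970 (cons (fin 971 3 970)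
(mv 1034 (cons (fin 969 3 969)
(mv 1098 (cons (fin 1097 1 1033)
(fin 1099 1 1034)))))))))))
(mv 1039 (cons (fin 1036 2 972)
(fin 977 2 973)))))))))))
(cons (mv 1038 (cons (cons (mv 977 (cons (fin 1039 2 973)
(mv 974 (cons (fin 975 1 973)
(mv 910 (cons (cons (mv 846 (cons (fin 1101 5 845)
(mv 781 (cons (fin 845 7 781)
(mv 782 (cons (fin 717 7 717)
(fin 973 5 781)))))))
(mv 1102 (cons (cons (mv 845 (cons (fin 909 7 845)
(mv 847 (cons (fin 911 6 846)
(mv 1101 (cons (fin 1165 5 909)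
(mv 1103 (cons (fin 1167 4 910)
(mv 1036 (cons (fin 1104 3 1036)
(fin 1035 0 1035)))))))))))
(cons (mv 845 (cons (fin 909 7 845)
(mv 847 (cons (fin 911 6 846)
(mv 1103 (cons (fin 1167 4 910)
(mv 1035 (cons (fin 1036 0 1035)
(mv 1104 (cons (fin 1105 3 1037)
(mv 1168 (cons (fin 913 6 912)
(mv 1169 (cons (fin 1101 0 1101)
(fin 1233 4 976)))))))))))))))
(mv 845 (cons (fin 909 7 845)
(mv 847 (cons (fin 911 6 846)
(mv 1167 (cons (fin 1103 4 910)
(mv 1166 (cons (fin 1231 4 974)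
(mv 1229 (cons (fin 1165 5 973)
(mv 1230 (cons (fin 973 7 973)
(fin 1293 5 1037)))))))))))))))
(cons (cons (mv 847 (cons (fin 911 6 846)
(mv 1101 (cons (fin 1165 5 909)
(mv 1103 (cons (fin 1167 4 910)
(mv 1036 (cons (fin 1104 3 1036)
(fin 1035 0 1035)))))))))
(mv 845 (cons (fin 909 7 845)
(mv 847 (cons (fin 911 6 846)
(mv 1165 (cons (fin 1101 5 909)
(mv 1166 (cons (fin 1229 5 973)
(mv 1230 (cons (fin 973 7 973)
(mv 1231 (cons (fin 1167 4 974)
(fin 1295 4 1038))))))))))))))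
(cons (mv 847 (cons (fin 911 6 846)
(mv 909 (cons (fin 845 7 845)
(mv 1165 (cons (fin 1101 5 909)
(mv 1166 (cons (fin 973 7 909)
(fin 1229 5 973)))))))))
(mv 845 (cons (fin 909 7 845)
(mv 1101 (cons (fin 1165 5 909)
(mv 1103 (cons (fin 1167 4 910)
(mv 1036 (cons (fin 1104 3 1036)
(fin 1035 0 1035))))))))))))))
(cons (mv 1102 (cons (cons (mv 845 (cons (fin 909 7 845)
(mv 781 (cons (fin 846 7 781)
(mv 847 (cons (fin 911 6 846)
(mv 1167 (cons (fin 1103 4 910)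
(mv 1166 (cons (fin 1231 4 974)
(mv 1229 (cons (fin 1165 5 973)
(mv 1230 (cons (fin 973 7 973)
(fin 1293 5 1037)))))))))))))))
(mv 847 (cons (fin 911 6 846)
(mv 783 (cons (fin 846 6 782)
(mv 1167 (cons (fin 1103 4 910)
(mv 1166 (cons (fin 1231 4 974)
(mv 1229 (cons (fin 1165 5 973)
(mv 1230 (cons (fin 973 7 973)
(fin 1293 5 1037))))))))))))))
(cons (mv 845 (cons (fin 909 7 845)
(mv 846 (cons (fin 781 7 781)
(mv 847 (cons (fin 783 6 782)
(fin 911 6 846)))))))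
(cons (mv 845 (cons (fin 909 7 845)
(mv 781 (cons (fin 846 7 781)
(mv 1167 (cons (fin 1103 4 910)
(mv 1166 (cons (fin 1231 4 974)
(mv 1229 (cons (fin 1165 5 973)
(mv 1230 (cons (fin 973 7 973)
(fin 1293 5 1037)))))))))))))
(mv 845 (cons (fin 909 7 845)
(mv 847 (cons (fin 911 6 846)
(mv 1167 (cons (fin 1103 4 910)
(mv 1166 (cons (fin 1231 4 974)
(mv 1229 (cons (fin 1165 5 973)
(mv 1230 (cons (fin 973 7 973)
(fin 1293 5 1037)))))))))))))))))
(cons (mv 846 (cons (fin 1101 5 845)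
(mv 781 (cons (fin 845 7 781)
(mv 717 (cons (fin 782 7 717)
(mv 847 (cons (fin 783 6 782)
(mv 1102 (cons (fin 911 6 846)
(mv 1103 (cons (fin 1167 4 910)
(mv 1035 (cons (fin 1036 0 1035)
(mv 1104 (cons (fin 1105 3 1037)
(mv 913 (cons (fin 1168 6 912)
(mv 849 (cons (fin 785 5 784)
(mv 848 (cons (fin 909 1 845)
(fin 914 0 846)))))))))))))))))))))))
(mv 846 (cons (fin 1101 5 845)
(mv 782 (cons (fin 973 5 781)
(mv 783 (cons (fin 719 6 718)
(fin 847 6 782)))))))))))))))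
(cons (mv 974 (cons (cons (mv 975 (cons (fin 977 1 973)
(mv 1036 (cons (fin 973 1 972)
(fin 1035 2 971)))))
(mv 910 (cons (cons (mv 846 (cons (fin 1101 5 845)
(mv 781 (cons (fin 845 7 781)
(mv 782 (cons (fin 717 7 717)
(fin 973 5 781)))))))
(mv 1102 (cons (cons (mv 845 (cons (fin 909 7 845)
(mv 847 (cons (fin 911 6 846)
(mv 1101 (cons (fin 1165 5 909)
(mv 1103 (cons (fin 1167 4 910)
(mv 1036 (cons (fin 1104 3 1036)
(fin 1035 0 1035)))))))))))
(cons (mv 845 (cons (fin 909 7 845)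
(mv 847 (cons (fin 911 6 846)
(mv 1103 (cons (fin 1167 4 910)
(mv 1036 (cons (fin 1035 0 1035)
(mv 1104 (cons (fin 1101 3 1036)
(fin 1105 3 1037)))))))))))
(mv 845 (cons (fin 909 7 845)
(mv 847 (cons (fin 911 6 846)
(mv 1167 (cons (fin 1103 4 910)
(mv 1166 (cons (fin 1231 4 974)
(mv 1229 (cons (fin 1165 5 973)
(mv 1230 (cons (fin 973 7 973)
(fin 1293 5 1037)))))))))))))))
(cons (cons (mv 847 (cons (fin 911 6 846)
(mv 1101 (cons (fin 1165 5 909)
(mv 1103 (cons (fin 1167 4 910)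
(mv 1036 (cons (fin 1104 3 1036)
(fin 1035 0 1035)))))))))
(mv 845 (cons (fin 909 7 845)
(mv 847 (cons (fin 911 6 846)
(mv 1165 (cons (fin 1101 5 909)
(mv 1166 (cons (fin 1229 5 973)
(mv 1230 (cons (fin 973 7 973)
(mv 1231 (cons (fin 1167 4 974)
(fin 1295 4 1038))))))))))))))
(cons (mv 847 (cons (fin 911 6 846)
(mv 909 (cons (fin 845 7 845)
(mv 1165 (cons (fin 1101 5 909)
(mv 1166 (cons (fin 973 7 909)
(fin 1229 5 973)))))))))
(mv 845 (cons (fin 909 7 845)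
(mv 1101 (cons (fin 1165 5 909)
(mv 1103 (cons (fin 1167 4 910)
(mv 1036 (cons (fin 1104 3 1036)
(fin 1035 0 1035))))))))))))))
(cons (mv 1102 (cons (cons (mv 845 (cons (fin 909 7 845)
(mv 781 (cons (fin 846 7 781)
(mv 847 (cons (fin 911 6 846)
(mv 1167 (cons (fin 1103 4 910)
(mv 1166 (cons (fin 1231 4 974)
(mv 1229 (cons (fin 1165 5 973)
(mv 1230 (cons (fin 973 7 973)
(fin 1293 5 1037)))))))))))))))
(mv 847 (cons (fin 911 6 846)
(mv 783 (cons (fin 846 6 782)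
(mv 1167 (cons (fin 1103 4 910)
(mv 1166 (cons (fin 1231 4 974)
(mv 1229 (cons (fin 1165 5 973)
(mv 1230 (cons (fin 973 7 973)
(fin 1293 5 1037))))))))))))))
(cons (mv 845 (cons (fin 909 7 845)
(mv 846 (cons (fin 781 7 781)
(mv 847 (cons (fin 783 6 782)
(fin 911 6 846)))))))
(cons (mv 845 (cons (fin 909 7 845)
(mv 781 (cons (fin 846 7 781)
(mv 1167 (cons (fin 1103 4 910)
(mv 1166 (cons (fin 1231 4 974)
(mv 1229 (cons (fin 1165 5 973)
(mv 1230 (cons (fin 973 7 973)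
(fin 1293 5 1037)))))))))))))
(mv 845 (cons (fin 909 7 845)
(mv 847 (cons (fin 911 6 846)
(mv 1167 (cons (fin 1103 4 910)
(mv 1166 (cons (fin 1231 4 974)
(mv 1229 (cons (fin 1165 5 973)
(mv 1230 (cons (fin 973 7 973)
(fin 1293 5 1037)))))))))))))))))
(cons (mv 846 (cons (fin 1101 5 845)
(mv 781 (cons (fin 845 7 781)
(mv 782 (cons (fin 717 7 717)
(mv 783 (cons (fin 719 6 718)
(fin 847 6 782)))))))))
(mv 846 (cons (fin 1101 5 845)
(mv 782 (cons (fin 973 5 781)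
(mv 783 (cons (fin 719 6 718)
(fin 847 6 782))))))))))))
(cons (mv 975 (cons (fin 977 1 973)
(mv 1101 (cons (cons (mv 910 (cons (fin 846 5 845)
(mv 1165 (cons (fin 1102 5 909)
(fin 973 6 909)))))
(mv 1165 (cons (fin 1229 6 973)
(mv 973 (cons (mv 908 (cons (fin 909 3 908)
(fin 972 7 908)))
(cons (mv 1164 (cons (fin 1228 5 972)
(mv 1166 (cons (fin 1230 4 973)
(mv 1102 (cons (fin 909 7 909)
(fin 911 6 910)))))))
(mv 908 (cons (fin 972 7 908)
(mv 1164 (cons (fin 1228 5 972)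
(mv 1166 (cons (fin 1230 4 973)
(mv 1102 (cons (fin 911 6 910)
(mv 1103 (cons (fin 1104 1 1100)
(fin 1163 2 1099)))))))))))))))))
(cons (mv 910 (cons (fin 846 5 845)
(mv 1102 (cons (mv 911 (cons (fin 847 6 846)
(fin 1166 6 910)))
(cons (mv 845 (cons (fin 909 7 845)
(mv 1167 (cons (fin 1103 4 910)
(mv 1166 (cons (fin 1231 4 974)
(mv 1230 (cons (fin 973 7 973)
(fin 1294 7 1037)))))))))
(mv 845 (cons (fin 909 7 845)
(mv 911 (cons (fin 847 6 846)
(mv 1103 (cons (fin 1167 4 910)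
(mv 1104 (cons (fin 1105 3 1037)
(fin 1168 7 911))))))))))))))
(cons (mv 910 (cons (fin 846 5 845)
(mv 1165 (cons (fin 1102 5 909)
(fin 1229 6 973)))))
(mv 910 (cons (fin 846 5 845)
(mv 1165 (cons (fin 973 6 909)
(fin 1229 6 973)))))))))))
(mv 975 (cons (fin 977 1 973)
(mv 1035 (cons (fin 1036 2 971)
(mv 910 (cons (cons (mv 846 (cons (fin 1101 5 845)
(mv 781 (cons (fin 845 7 781)
(mv 782 (cons (fin 717 7 717)
(mv 783 (cons (fin 719 6 718)
(fin 847 6 782)))))))))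
(mv 1102 (cons (mv 911 (cons (fin 847 6 846)
(fin 1166 6 910)))
(cons (mv 845 (cons (fin 909 7 845)
(mv 1165 (cons (fin 1101 5 909)
(mv 1166 (cons (fin 1229 5 973)
(mv 1167 (cons (fin 1103 4 910)
(fin 1231 4 974)))))))))
(mv 845 (cons (fin 909 7 845)
(mv 911 (cons (fin 847 6 846)
(mv 1101 (cons (fin 1165 5 909)
(mv 1103 (cons (fin 1167 4 910)
(mv 1104 (cons (fin 1105 3 1037)
(fin 1168 7 911)))))))))))))))
(cons (mv 909 (cons (mv 908 (cons (fin 907 0 907)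
(fin 911 0 908)))
(mv 845 (cons (fin 1102 7 845)
(mv 781 (cons (fin 846 7 781)
(fin 717 4 717)))))))
(mv 846 (cons (fin 1101 5 845)
(mv 783 (cons (fin 847 6 782)
(mv 782 (cons (fin 719 6 718)
(mv 717 (cons (fin 781 7 717)
(mv 718 (cons (fin 653 7 653)
(fin 911 4 718)))))))))))))))))))))
(mv 1039 (cons (cons (mv 972 (cons (fin 973 3 972)
(mv 1036 (cons (fin 971 3 971)
(fin 975 2 972)))))
(mv 972 (cons (fin 973 3 972)
(mv 1104 (cons (fin 1105 0 1037)
(mv 1168 (cons (mv 975 (cons (fin 911 7 911)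
(fin 1232 7 975)))
(cons (mv 1231 (cons (fin 1167 5 975)
(mv 1232 (cons (fin 1295 5 1039)
(mv 1233 (cons (fin 1169 4 976)
(fin 1297 4 1040)))))))
(mv 911 (cons (fin 975 7 911)
(mv 1167 (cons (fin 1231 5 975)
(mv 1169 (cons (fin 1233 4 976)
(mv 1170 (cons (mv 1103 (cons (fin 1102 3 1102)
(fin 1171 3 1103)))
(cons (mv 1107 (cons (fin 1106 2 1103)
(mv 1171 (cons (fin 1108 2 1104)
(mv 1235 (cons (fin 1234 0 1167)
(fin 1236 0 1168)))))))
(mv 1102 (cons (fin 1103 3 1102)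
(mv 1106 (cons (fin 1107 2 1103)
(mv 1166 (cons (fin 1101 3 1101)
(mv 1229 (cons (fin 1230 1 1165)
(mv 1165 (cons (fin 1228 1 1164)
(fin 974 5 973))))))))))))))))))))))))))))
(cons (mv 975 (cons (fin 1036 2 972)
(mv 1104 (cons (fin 1105 0 1037)
(mv 911 (cons (fin 1168 7 911)
(fin 847 4 847)))))))
(mv 972 (cons (fin 973 3 972)
(mv 1036 (cons (fin 971 3 971)
(mv 1104 (cons (fin 1103 0 1036)
(fin 1105 0 1037))))))))))))
(cons (cons (mv 1039 (cons (fin 977 2 973)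
(mv 972 (cons (fin 973 3 972)
(mv 1036 (cons (fin 971 3 971)
(mv 1104 (cons (fin 1103 0 1036)
(fin 1105 0 1037)))))))))
(mv 1039 (cons (fin 977 2 973)
(mv 972 (cons (fin 973 3 972)
(mv 1104 (cons (fin 1105 0 1037)
(mv 1168 (cons (mv 975 (cons (fin 911 7 911)
(fin 1232 7 975)))
(cons (mv 1231 (cons (fin 1167 5 975)
(mv 1232 (cons (fin 1295 5 1039)
(mv 1233 (cons (fin 1169 4 976)
(fin 1297 4 1040)))))))
(mv 911 (cons (fin 975 7 911)
(mv 1167 (cons (fin 1231 5 975)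
(mv 1169 (cons (fin 1233 4 976)
(mv 1170 (cons (mv 1103 (cons (fin 1102 3 1102)
(fin 1171 3 1103)))
(cons (mv 1107 (cons (fin 1106 2 1103)
(mv 1171 (cons (fin 1108 2 1104)
(mv 1235 (cons (fin 1234 0 1167)
(fin 1236 0 1168)))))))
(mv 1102 (cons (fin 1103 3 1102)
(mv 1106 (cons (fin 1107 2 1103)
(mv 1166 (cons (fin 1101 3 1101)
(mv 1229 (cons (fin 1230 1 1165)
(mv 1165 (cons (fin 1228 1 1164)
(fin 974 5 973))))))))))))))))))))))))))))))
(cons (mv 1039 (cons (fin 977 2 973)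
(mv 972 (cons (fin 973 3 972)
(mv 1036 (cons (fin 971 3 971)
(fin 975 2 972)))))))
(mv 1039 (cons (fin 977 2 973)
(mv 975 (cons (fin 1036 2 972)
(mv 1104 (cons (fin 1105 0 1037)
(mv 911 (cons (fin 1168 7 911)
(fin 847 4 847)))))))))))))
(mv 912 (cons (cons (cons (mv 1104 (cons (cons (mv 847 (cons (fin 911 7 847)
(mv 783 (cons (fin 848 7 783)
(mv 849 (cons (fin 913 6 848)
(mv 1103 (cons (fin 1167 5 911)
(mv 1105 (cons (fin 1169 4 912)
(mv 1038 (cons (fin 1102 3 1037)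
(fin 1039 0 1037)))))))))))))
(cons (mv 847 (cons (fin 911 7 847)
(mv 783 (cons (fin 848 7 783)
(mv 913 (cons (fin 849 6 848)
(mv 1168 (cons (fin 977 6 912)
(mv 1169 (cons (fin 1105 4 912)
(fin 1233 4 976)))))))))))
(mv 847 (cons (fin 911 7 847)
(mv 783 (cons (fin 848 7 783)
(mv 913 (cons (fin 849 6 848)
(mv 1103 (cons (fin 1167 5 911)
(mv 1168 (cons (fin 977 6 912)
(mv 1233 (cons (fin 1169 4 976)
(mv 1232 (cons (fin 1297 4 1040)
(mv 1295 (cons (fin 1231 5 1039)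
(mv 1296 (cons (fin 1039 7 1039)
(fin 1359 5 1103)))))))))))))))))))))
(cons (cons (mv 847 (cons (fin 911 7 847)
(mv 783 (cons (fin 848 7 783)
(mv 1103 (cons (fin 1167 5 911)
(mv 1105 (cons (fin 1169 4 912)
(mv 1038 (cons (fin 1102 3 1037)
(fin 1039 0 1037)))))))))))
(mv 849 (cons (fin 913 6 848)
(mv 785 (cons (fin 848 6 784)
(mv 1103 (cons (fin 1167 5 911)
(mv 1105 (cons (fin 1169 4 912)
(mv 1038 (cons (fin 1102 3 1037)
(fin 1039 0 1037))))))))))))
(cons (mv 847 (cons (fin 911 7 847)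
(mv 783 (cons (fin 848 7 783)
(mv 913 (cons (fin 849 6 848)
(mv 977 (cons (fin 1168 6 912)
(mv 1038 (cons (fin 1039 2 973)
(mv 1103 (cons (fin 1167 5 911)
(mv 1102 (cons (fin 1105 3 1037)
(mv 1036 (cons (fin 1101 3 1036)
(fin 1035 0 1035)))))))))))))))))
(mv 847 (cons (fin 911 7 847)
(mv 849 (cons (fin 913 6 848)
(mv 1103 (cons (fin 1167 5 911)
(mv 1105 (cons (fin 1169 4 912)
(mv 1038 (cons (fin 1102 3 1037)
(fin 1039 0 1037)))))))))))))))
(mv 848 (cons (cons (mv 783 (cons (fin 847 7 783)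
(mv 784 (cons (fin 719 7 719)
(mv 785 (cons (fin 721 6 720)
(fin 849 6 784)))))))
(cons (mv 847 (cons (fin 783 7 783)
(mv 1039 (cons (fin 1103 5 847)
(mv 977 (cons (fin 1038 2 973)
(mv 978 (cons (fin 979 1 975)
(mv 913 (cons (cons (mv 720 (cons (fin 784 4 720)
(mv 845 (cons (fin 846 0 845)
(mv 911 (cons (fin 910 0 910)
(mv 914 (cons (fin 915 3 847)
(mv 850 (cons (fin 851 2 847)
(mv 786 (cons (fin 722 5 721)
(mv 787 (cons (fin 849 2 783)
(fin 723 6 722)))))))))))))))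
(cons (mv 720 (cons (fin 784 4 720)
(mv 846 (cons (fin 845 0 845)
(mv 910 (cons (fin 911 0 910)
(mv 909 (cons (fin 849 1 845)
(mv 907 (cons (fin 908 2 843)
(mv 973 (cons (fin 1101 6 845)
(mv 782 (cons (fin 718 5 717)
(fin 974 5 781)))))))))))))))
(mv 720 (cons (fin 784 4 720)
(mv 846 (cons (fin 845 0 845)
(mv 914 (cons (fin 915 3 847)
(fin 849 0 846)))))))))
(cons (mv 720 (cons (fin 784 4 720)
(mv 911 (cons (fin 910 0 910)
(mv 914 (cons (fin 915 3 847)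
(mv 850 (cons (fin 851 2 847)
(mv 786 (cons (fin 722 5 721)
(mv 787 (cons (fin 849 2 783)
(fin 723 6 722)))))))))))))
(cons (mv 845 (cons (fin 846 0 845)
(mv 911 (cons (fin 910 0 910)
(mv 914 (cons (fin 915 3 847)
(mv 850 (cons (fin 851 2 847)
(mv 786 (cons (fin 722 5 721)
(mv 787 (cons (fin 849 2 783)
(fin 723 6 722)))))))))))))
(mv 720 (cons (fin 784 4 720)
(mv 846 (cons (fin 845 0 845)
(mv 911 (cons (fin 914 3 846)
(fin 910 0 910)))))))))))))))))))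
(mv 785 (cons (fin 849 6 784)
(mv 784 (cons (fin 721 6 720)
(mv 1039 (cons (fin 1103 5 847)
(mv 977 (cons (fin 1038 2 973)
(mv 913 (cons (fin 720 4 720)
(mv 978 (cons (fin 979 1 975)
(mv 911 (cons (fin 910 0 910)
(mv 914 (cons (mv 847 (cons (fin 846 3 846)
(fin 915 3 847)))
(cons (mv 851 (cons (fin 850 2 847)
(mv 915 (cons (fin 916 1 912)
(fin 852 2 848)))))
(mv 847 (cons (fin 846 3 846)
(mv 786 (cons (fin 787 1 783)
(mv 850 (cons (fin 851 2 847)
(fin 722 5 721))))))))))))))))))))))))))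
(cons (mv 783 (cons (fin 847 7 783)
(mv 784 (cons (fin 719 7 719)
(mv 721 (cons (fin 785 6 720)
(mv 720 (cons (fin 657 6 656)
(mv 722 (cons (fin 723 1 719)
(mv 781 (cons (fin 782 2 717)
(mv 977 (cons (fin 913 4 720)
(mv 1039 (cons (fin 1038 2 973)
(fin 1103 5 847)))))))))))))))))
(cons (mv 785 (cons (fin 849 6 784)
(mv 784 (cons (fin 721 6 720)
(mv 719 (cons (fin 783 7 719)
(mv 720 (cons (fin 655 7 655)
(mv 717 (cons (fin 718 0 717)
(mv 786 (cons (fin 787 3 719)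
(mv 977 (cons (fin 913 4 720)
(mv 1039 (cons (fin 1038 2 973)
(fin 1103 5 847)))))))))))))))))
(mv 783 (cons (fin 847 7 783)
(mv 849 (cons (fin 785 6 784)
(mv 1039 (cons (fin 1103 5 847)
(mv 1038 (cons (fin 977 2 973)
(mv 973 (cons (fin 972 3 972)
(mv 909 (cons (mv 845 (cons (fin 1102 4 845)
(mv 780 (cons (fin 844 7 780)
(mv 781 (cons (fin 716 7 716)
(fin 974 4 781)))))))
(cons (mv 910 (cons (fin 911 2 845)
(mv 846 (cons (fin 1101 6 845)
(mv 782 (cons (fin 718 5 717)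
(fin 974 5 781)))))))
(mv 845 (cons (fin 1102 4 845)
(mv 780 (cons (fin 844 7 780)
(mv 716 (cons (fin 781 7 716)
(mv 846 (cons (fin 782 6 781)
(mv 910 (cons (fin 911 2 845)
(fin 1101 6 845)))))))))))))))))))))))))))))
(cons (mv 1104 (cons (cons (mv 847 (cons (fin 911 7 847)
(mv 849 (cons (fin 913 6 848)
(mv 1103 (cons (fin 1167 5 911)
(mv 1105 (cons (fin 1169 4 912)
(mv 1038 (cons (fin 1102 3 1037)
(fin 1039 0 1037)))))))))))
(cons (mv 847 (cons (fin 911 7 847)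
(mv 913 (cons (fin 849 6 848)
(mv 1103 (cons (fin 1167 5 911)
(mv 1168 (cons (fin 977 6 912)
(mv 1233 (cons (fin 1169 4 976)
(mv 1232 (cons (fin 1297 4 1040)
(mv 1295 (cons (fin 1231 5 1039)
(mv 1296 (cons (fin 1039 7 1039)
(fin 1359 5 1103)))))))))))))))))
(mv 847 (cons (fin 911 7 847)
(mv 1103 (cons (fin 1167 5 911)
(mv 1105 (cons (fin 1169 4 912)
(mv 1038 (cons (fin 1102 3 1037)
(fin 1039 0 1037)))))))))))
(cons (mv 847 (cons (fin 911 7 847)
(mv 913 (cons (fin 849 6 848)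
(mv 1168 (cons (fin 977 6 912)
(mv 1169 (cons (fin 1105 4 912)
(fin 1233 4 976)))))))))
(cons (mv 847 (cons (fin 911 7 847)
(mv 913 (cons (fin 849 6 848)
(mv 977 (cons (fin 1168 6 912)
(mv 1038 (cons (fin 1039 2 973)
(mv 1103 (cons (fin 1167 5 911)
(mv 1102 (cons (fin 1105 3 1037)
(mv 1036 (cons (fin 1101 3 1036)
(fin 1035 0 1035)))))))))))))))
(mv 849 (cons (fin 913 6 848)
(mv 1103 (cons (fin 1167 5 911)
(mv 1105 (cons (fin 1169 4 912)
(mv 1038 (cons (fin 1102 3 1037)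
(fin 1039 0 1037)))))))))))))
(cons (mv 1104 (cons (cons (mv 847 (cons (fin 911 7 847)
(mv 783 (cons (fin 848 7 783)
(mv 849 (cons (fin 913 6 848)
(mv 1103 (cons (fin 1167 5 911)
(mv 1105 (cons (fin 1169 4 912)
(mv 1102 (cons (fin 1038 3 1037)
(mv 1101 (cons (fin 1036 3 1036)
(mv 1165 (cons (fin 1164 1 1100)
(fin 1166 1 1101)))))))))))))))))
(cons (mv 847 (cons (fin 911 7 847)
(mv 783 (cons (fin 848 7 783)
(mv 1103 (cons (fin 1167 5 911)
(mv 1105 (cons (fin 1169 4 912)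
(mv 1102 (cons (fin 1038 3 1037)
(mv 1101 (cons (fin 1036 3 1036)
(mv 1165 (cons (fin 1164 1 1100)
(fin 1166 1 1101)))))))))))))))
(mv 849 (cons (fin 913 6 848)
(mv 785 (cons (fin 848 6 784)
(mv 1103 (cons (fin 1167 5 911)
(mv 1105 (cons (fin 1169 4 912)
(mv 1102 (cons (fin 1038 3 1037)
(mv 1101 (cons (fin 1036 3 1036)
(mv 1165 (cons (fin 1164 1 1100)
(fin 1166 1 1101)))))))))))))))))
(cons (mv 847 (cons (fin 911 7 847)
(mv 783 (cons (fin 848 7 783)
(mv 913 (cons (fin 849 6 848)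
(mv 1167 (cons (fin 1103 5 911)
(mv 1168 (cons (fin 1231 5 975)
(fin 977 6 912)))))))))))
(cons (mv 847 (cons (fin 911 7 847)
(mv 783 (cons (fin 848 7 783)
(mv 913 (cons (fin 849 6 848)
(mv 1168 (cons (fin 977 6 912)
(mv 1169 (cons (fin 1105 4 912)
(fin 1233 4 976)))))))))))
(mv 847 (cons (fin 911 7 847)
(mv 849 (cons (fin 913 6 848)
(mv 1103 (cons (fin 1167 5 911)
(mv 1105 (cons (fin 1169 4 912)
(mv 1102 (cons (fin 1038 3 1037)
(mv 1101 (cons (fin 1036 3 1036)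
(mv 1165 (cons (fin 1164 1 1100)
(fin 1166 1 1101)))))))))))))))))))
(mv 1104 (cons (cons (mv 847 (cons (fin 911 7 847)
(mv 783 (cons (fin 848 7 783)
(mv 1103 (cons (fin 1167 5 911)
(mv 1105 (cons (fin 1169 4 912)
(mv 1038 (cons (fin 1102 3 1037)
(fin 1039 0 1037)))))))))))
(mv 911 (cons (fin 847 7 847)
(mv 1105 (cons (fin 1169 4 912)
(mv 1038 (cons (fin 1039 0 1037)
(mv 910 (cons (cons (mv 909 (cons (fin 977 0 909)
(mv 844 (cons (fin 845 3 844)
(mv 843 (cons (fin 908 3 843)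
(mv 973 (cons (fin 972 1 908)
(mv 846 (cons (fin 1101 6 845)
(mv 782 (cons (fin 718 5 717)
(fin 974 5 781)))))))))))))
(cons (mv 973 (cons (mv 909 (cons (fin 972 1 908)
(mv 845 (cons (fin 844 3 844)
(fin 1102 4 845)))))
(mv 974 (cons (fin 913 1 909)
(mv 846 (cons (fin 782 5 781)
(fin 1101 5 845)))))))
(mv 913 (cons (mv 977 (cons (fin 978 0 910)
(fin 1168 6 912)))
(mv 846 (cons (fin 845 3 845)
(mv 974 (cons (fin 973 1 909)
(fin 1101 5 845)))))))))
(cons (mv 909 (cons (fin 977 0 909)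
(mv 844 (cons (fin 845 3 844)
(mv 908 (cons (fin 843 3 843)
(mv 972 (cons (fin 971 1 907)
(mv 1101 (cons (fin 1036 4 844)
(mv 974 (cons (fin 846 5 845)
(mv 1165 (cons (fin 1102 5 909)
(fin 1229 6 973)))))))))))))))
(cons (mv 909 (cons (fin 977 0 909)
(mv 844 (cons (fin 845 3 844)
(mv 908 (cons (fin 843 3 843)
(mv 972 (cons (fin 971 1 907)
(fin 973 1 908)))))))))
(mv 909 (cons (fin 977 0 909)
(mv 972 (cons (fin 973 1 908)
(mv 908 (cons (fin 971 1 907)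
(mv 844 (cons (fin 843 3 843)
(mv 1101 (cons (fin 1036 4 844)
(mv 974 (cons (fin 846 5 845)
(mv 1165 (cons (fin 1102 5 909)
(fin 1229 6 973))))))))))))))))))))))))))
(cons (mv 847 (cons (fin 911 7 847)
(mv 848 (cons (fin 783 7 783)
(mv 1103 (cons (fin 1039 5 847)
(fin 1167 5 911)))))))
(cons (mv 1103 (cons (fin 1167 5 911)
(mv 848 (cons (fin 1039 5 847)
(mv 1105 (cons (fin 1169 4 912)
(mv 1102 (cons (fin 1038 3 1037)
(mv 1101 (cons (fin 1036 3 1036)
(mv 1165 (cons (fin 1164 1 1100)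
(fin 1166 1 1101)))))))))))))
(mv 847 (cons (fin 911 7 847)
(mv 783 (cons (fin 848 7 783)
(mv 1103 (cons (fin 1167 5 911)
(mv 1105 (cons (fin 1169 4 912)
(mv 1102 (cons (fin 1038 3 1037)
(mv 1101 (cons (fin 1036 3 1036)
(mv 1165 (cons (fin 1164 1 1100)
(fin 1166 1 1101))))))))))))))))))))))
(cons (cons (mv 1104 (cons (cons (mv 849 (cons (fin 913 6 848)
(mv 785 (cons (fin 848 6 784)
(mv 1103 (cons (fin 1167 5 911)
(mv 1105 (cons (fin 1169 4 912)
(mv 1038 (cons (fin 1102 3 1037)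
(fin 1039 0 1037)))))))))))
(mv 913 (cons (fin 849 6 848)
(mv 1168 (cons (fin 977 6 912)
(mv 1169 (cons (fin 1105 4 912)
(fin 1233 4 976))))))))
(cons (mv 849 (cons (fin 913 6 848)
(mv 848 (cons (fin 785 6 784)
(mv 1103 (cons (fin 1039 5 847)
(fin 1167 5 911)))))))
(cons (mv 1103 (cons (fin 1167 5 911)
(mv 848 (cons (fin 1039 5 847)
(mv 785 (cons (fin 849 6 784)
(mv 721 (cons (fin 784 6 720)
(mv 1105 (cons (fin 1169 4 912)
(mv 1102 (cons (fin 1038 3 1037)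
(mv 1101 (cons (fin 1036 3 1036)
(mv 1165 (cons (fin 1164 1 1100)
(fin 1166 1 1101)))))))))))))))))
(mv 1103 (cons (fin 1167 5 911)
(mv 848 (cons (fin 1039 5 847)
(mv 1105 (cons (fin 1169 4 912)
(mv 1102 (cons (fin 1038 3 1037)
(mv 1101 (cons (fin 1036 3 1036)
(mv 1165 (cons (fin 1164 1 1100)
(fin 1166 1 1101)))))))))))))))))
(mv 848 (cons (cons (mv 783 (cons (fin 847 7 783)
(mv 784 (cons (fin 719 7 719)
(mv 785 (cons (fin 721 6 720)
(fin 849 6 784)))))))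
(mv 847 (cons (fin 783 7 783)
(mv 911 (cons (fin 1104 7 847)
(mv 913 (cons (mv 846 (cons (fin 914 3 846)
(fin 845 0 845)))
(cons (mv 914 (cons (fin 915 3 847)
(mv 850 (cons (fin 851 2 847)
(mv 978 (cons (fin 979 0 911)
(mv 910 (cons (fin 977 0 910)
(mv 909 (cons (fin 908 2 844)
(mv 973 (cons (fin 972 1 908)
(fin 974 1 909)))))))))))))
(mv 845 (cons (fin 846 0 845)
(mv 910 (cons (mv 909 (cons (fin 844 3 844)
(fin 908 2 844)))
(mv 974 (cons (fin 973 1 909)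
(mv 977 (cons (fin 978 0 910)
(mv 1038 (cons (fin 1039 2 973)
(fin 1102 6 846)))))))))))))))))))
(cons (mv 784 (cons (cons (mv 785 (cons (fin 721 6 720)
(fin 849 6 784)))
(mv 719 (cons (fin 783 7 719)
(mv 720 (cons (fin 655 7 655)
(mv 657 (cons (fin 721 6 656)
(mv 656 (cons (fin 593 6 592)
(mv 913 (cons (fin 849 4 656)
(fin 977 4 720))))))))))))
(cons (mv 719 (cons (fin 783 7 719)
(mv 720 (cons (fin 655 7 655)
(mv 721 (cons (fin 657 6 656)
(fin 785 6 720)))))))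
(mv 719 (cons (fin 783 7 719)
(mv 720 (cons (fin 655 7 655)
(mv 849 (cons (fin 785 6 784)
(mv 913 (cons (fin 1104 6 848)
(fin 656 4 656))))))))))))
(mv 849 (cons (fin 785 6 784)
(mv 913 (cons (fin 1104 6 848)
(mv 911 (cons (mv 850 (cons (fin 851 1 847)
(fin 910 2 846)))
(cons (mv 850 (cons (fin 851 1 847)
(mv 914 (cons (mv 847 (cons (fin 846 3 846)
(fin 915 3 847)))
(cons (mv 915 (cons (fin 916 3 848)
(mv 979 (cons (fin 978 0 911)
(fin 980 0 912)))))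
(mv 847 (cons (fin 846 3 846)
(mv 786 (cons (fin 787 2 783)
(mv 722 (cons (fin 658 5 657)
(fin 977 5 721))))))))))))
(mv 910 (cons (fin 909 2 845)
(mv 845 (cons (fin 846 3 845)
(mv 973 (cons (fin 974 1 909)
(mv 978 (cons (fin 977 0 910)
(mv 914 (cons (fin 979 0 911)
(mv 915 (cons (fin 847 3 847)
(fin 916 3 848))))))))))))))))))))))))
(cons (mv 1104 (cons (cons (mv 847 (cons (fin 911 7 847)
(mv 783 (cons (fin 848 7 783)
(mv 849 (cons (fin 913 6 848)
(mv 1103 (cons (fin 1167 5 911)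
(mv 1105 (cons (fin 1169 4 912)
(mv 1038 (cons (fin 1102 3 1037)
(fin 1039 0 1037)))))))))))))
(mv 847 (cons (fin 911 7 847)
(mv 848 (cons (fin 783 7 783)
(mv 849 (cons (fin 785 6 784)
(fin 913 6 848))))))))
(cons (mv 849 (cons (fin 913 6 848)
(mv 785 (cons (fin 848 6 784)
(mv 1103 (cons (fin 1167 5 911)
(mv 1105 (cons (fin 1169 4 912)
(mv 1038 (cons (fin 1102 3 1037)
(fin 1039 0 1037)))))))))))
(cons (mv 847 (cons (fin 911 7 847)
(mv 783 (cons (fin 848 7 783)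
(mv 1103 (cons (fin 1167 5 911)
(mv 1105 (cons (fin 1169 4 912)
(mv 1038 (cons (fin 1102 3 1037)
(fin 1039 0 1037)))))))))))
(mv 847 (cons (fin 911 7 847)
(mv 849 (cons (fin 913 6 848)
(mv 1103 (cons (fin 1167 5 911)
(mv 1105 (cons (fin 1169 4 912)
(mv 1038 (cons (fin 1102 3 1037)
(fin 1039 0 1037)))))))))))))))
(cons (mv 848 (cons (cons (mv 783 (cons (fin 847 7 783)
(mv 719 (cons (fin 784 7 719)
(mv 785 (cons (fin 849 6 784)
(mv 1103 (cons (fin 1039 5 847)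
(mv 1104 (cons (fin 1167 5 911)
(mv 1105 (cons (fin 1169 4 912)
(mv 1102 (cons (fin 1038 3 1037)
(mv 1101 (cons (fin 1036 3 1036)
(mv 1165 (cons (fin 1164 1 1100)
(fin 1166 1 1101)))))))))))))))))))
(mv 783 (cons (fin 847 7 783)
(mv 784 (cons (fin 719 7 719)
(mv 785 (cons (fin 721 6 720)
(fin 849 6 784))))))))
(cons (mv 785 (cons (fin 849 6 784)
(mv 721 (cons (fin 784 6 720)
(mv 1103 (cons (fin 1039 5 847)
(mv 1104 (cons (fin 1167 5 911)
(mv 1105 (cons (fin 1169 4 912)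
(mv 1102 (cons (fin 1038 3 1037)
(mv 1101 (cons (fin 1036 3 1036)
(mv 1165 (cons (fin 1164 1 1100)
(fin 1166 1 1101)))))))))))))))))
(cons (mv 783 (cons (fin 847 7 783)
(mv 719 (cons (fin 784 7 719)
(mv 1103 (cons (fin 1039 5 847)
(mv 1104 (cons (fin 1167 5 911)
(mv 1105 (cons (fin 1169 4 912)
(mv 1102 (cons (fin 1038 3 1037)
(mv 1101 (cons (fin 1036 3 1036)
(mv 1165 (cons (fin 1164 1 1100)
(fin 1166 1 1101)))))))))))))))))
(mv 783 (cons (fin 847 7 783)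
(mv 785 (cons (fin 849 6 784)
(mv 1103 (cons (fin 1039 5 847)
(mv 1104 (cons (fin 1167 5 911)
(mv 1105 (cons (fin 1169 4 912)
(mv 1102 (cons (fin 1038 3 1037)
(mv 1101 (cons (fin 1036 3 1036)
(mv 1165 (cons (fin 1164 1 1100)
(fin 1166 1 1101)))))))))))))))))))))
(mv 1104 (cons (cons (mv 847 (cons (fin 911 7 847)
(mv 783 (cons (fin 848 7 783)
(mv 849 (cons (fin 913 6 848)
(mv 1167 (cons (fin 1103 5 911)
(mv 1168 (cons (fin 1231 5 975)
(mv 1169 (cons (fin 1105 4 912)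
(fin 1233 4 976)))))))))))))
(cons (mv 847 (cons (fin 911 7 847)
(mv 783 (cons (fin 848 7 783)
(mv 913 (cons (fin 849 6 848)
(mv 1168 (cons (fin 977 6 912)
(mv 1169 (cons (fin 1105 4 912)
(fin 1233 4 976)))))))))))
(mv 847 (cons (fin 911 7 847)
(mv 783 (cons (fin 848 7 783)
(mv 1167 (cons (fin 1103 5 911)
(mv 1168 (cons (fin 1231 5 975)
(mv 1169 (cons (fin 1105 4 912)
(fin 1233 4 976)))))))))))))
(cons (cons (mv 847 (cons (fin 911 7 847)
(mv 783 (cons (fin 848 7 783)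
(mv 913 (cons (fin 849 6 848)
(mv 1167 (cons (fin 1103 5 911)
(mv 1168 (cons (fin 1231 5 975)
(fin 977 6 912)))))))))))
(mv 849 (cons (fin 913 6 848)
(mv 785 (cons (fin 848 6 784)
(mv 1167 (cons (fin 1103 5 911)
(mv 1168 (cons (fin 1231 5 975)
(mv 1169 (cons (fin 1105 4 912)
(fin 1233 4 976))))))))))))
(cons (mv 847 (cons (fin 911 7 847)
(mv 849 (cons (fin 913 6 848)
(mv 1167 (cons (fin 1103 5 911)
(mv 1168 (cons (fin 1231 5 975)
(mv 1169 (cons (fin 1105 4 912)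
(fin 1233 4 976)))))))))))
(mv 847 (cons (fin 911 7 847)
(mv 848 (cons (fin 783 7 783)
(mv 849 (cons (fin 785 6 784)
(fin 913 6 848)))))))))))))))))))
(cons (cons (mv 1039 (cons (cons (mv 1038 (cons (fin 977 2 973)
(mv 972 (cons (fin 973 3 972)
(mv 1036 (cons (fin 971 3 971)
(fin 975 2 972)))))))
(cons (mv 1103 (cons (cons (mv 912 (cons (fin 848 5 847)
(mv 1167 (cons (fin 1104 5 911)
(fin 975 6 911)))))
(mv 912 (cons (fin 848 5 847)
(mv 1104 (cons (cons (mv 849 (cons (fin 913 6 848)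
(mv 1169 (cons (fin 1105 4 912)
(mv 1168 (cons (fin 1233 4 976)
(mv 1232 (cons (fin 975 7 975)
(fin 1296 7 1039)))))))))
(mv 913 (cons (fin 849 6 848)
(mv 1168 (cons (fin 977 6 912)
(mv 1232 (cons (fin 975 7 975)
(fin 1296 7 1039))))))))
(cons (mv 1169 (cons (fin 1105 4 912)
(mv 1168 (cons (fin 1233 4 976)
(mv 1232 (cons (fin 975 7 975)
(fin 1296 7 1039)))))))
(cons (mv 913 (cons (fin 849 6 848)
(mv 1105 (cons (fin 1169 4 912)
(mv 1106 (cons (fin 1107 3 1039)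
(mv 1042 (cons (fin 1043 2 1039)
(mv 1170 (cons (fin 1171 0 1103)
(mv 978 (cons (fin 977 7 913)
(mv 915 (cons (fin 979 6 914)
(mv 914 (cons (fin 975 1 911)
(fin 851 6 850)))))))))))))))))
(mv 913 (cons (fin 849 6 848)
(mv 977 (cons (fin 1168 6 912)
(mv 978 (cons (fin 979 1 975)
(mv 1105 (cons (fin 1169 4 912)
(mv 1106 (cons (fin 1107 3 1039)
(mv 1042 (cons (fin 1043 2 1039)
(fin 1170 7 913))))))))))))))))))))
(cons (mv 1167 (cons (fin 1231 6 975)
(mv 975 (cons (mv 974 (cons (fin 910 7 910)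
(mv 973 (cons (fin 1036 1 972)
(fin 972 0 972)))))
(mv 1166 (cons (fin 1230 5 974)
(mv 1168 (cons (fin 1232 4 975)
(mv 1104 (cons (mv 1105 (cons (fin 1106 1 1102)
(fin 1165 2 1101)))
(cons (mv 913 (cons (fin 977 6 912)
(mv 1164 (cons (fin 1165 2 1100)
(mv 1169 (cons (fin 1233 4 976)
(mv 1102 (cons (fin 1101 3 1101)
(fin 1170 3 1102)))))))))
(mv 913 (cons (fin 977 6 912)
(mv 1105 (cons (fin 1106 1 1102)
(mv 1169 (cons (fin 1233 4 976)
(mv 1102 (cons (fin 1101 3 1101)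
(fin 1170 3 1102))))))))))))))))))))
(cons (mv 912 (cons (fin 848 5 847)
(mv 1167 (cons (fin 975 6 911)
(fin 1231 6 975)))))
(mv 912 (cons (fin 848 5 847)
(mv 1167 (cons (fin 1104 5 911)
(fin 1231 6 975)))))))))
(mv 1038 (cons (cons (mv 972 (cons (fin 973 3 972)
(mv 1036 (cons (fin 971 3 971)
(fin 975 2 972)))))
(mv 972 (cons (fin 973 3 972)
(mv 1104 (cons (fin 1105 0 1037)
(mv 912 (cons (mv 1103 (cons (fin 848 5 847)
(fin 1167 5 911)))
(cons (mv 849 (cons (fin 913 6 848)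
(mv 848 (cons (fin 785 6 784)
(mv 783 (cons (fin 847 7 783)
(mv 784 (cons (fin 719 7 719)
(fin 975 5 783)))))))))
(mv 849 (cons (fin 913 6 848)
(mv 1167 (cons (fin 1103 5 911)
(mv 1168 (cons (fin 1231 5 975)
(mv 1232 (cons (fin 975 7 975)
(mv 1233 (cons (fin 1169 4 976)
(fin 1297 4 1040)))))))))))))))))))
(cons (mv 975 (cons (fin 1036 2 972)
(mv 1104 (cons (fin 1105 0 1037)
(mv 1168 (cons (fin 1232 7 975)
(mv 1167 (cons (fin 1231 5 975)
(mv 912 (cons (fin 1103 5 911)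
(mv 848 (cons (fin 784 5 783)
(mv 849 (cons (fin 785 6 784)
(fin 913 6 848)))))))))))))))
(mv 972 (cons (fin 973 3 972)
(mv 1036 (cons (fin 971 3 971)
(mv 1104 (cons (fin 1103 0 1036)
(fin 1105 0 1037))))))))))))
(cons (mv 1038 (cons (fin 977 2 973)
(mv 972 (cons (fin 973 3 972)
(mv 1036 (cons (fin 971 3 971)
(mv 1104 (cons (fin 1103 0 1036)
(fin 1105 0 1037)))))))))
(cons (mv 1038 (cons (fin 977 2 973)
(mv 972 (cons (fin 973 3 972)
(mv 1104 (cons (fin 1105 0 1037)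
(mv 912 (cons (mv 1103 (cons (fin 848 5 847)
(fin 1167 5 911)))
(cons (mv 849 (cons (fin 913 6 848)
(mv 848 (cons (fin 785 6 784)
(mv 783 (cons (fin 847 7 783)
(mv 784 (cons (fin 719 7 719)
(fin 975 5 783)))))))))
(mv 849 (cons (fin 913 6 848)
(mv 1167 (cons (fin 1103 5 911)
(mv 1168 (cons (fin 1231 5 975)
(mv 1232 (cons (fin 975 7 975)
(mv 1233 (cons (fin 1169 4 976)
(fin 1297 4 1040))))))))))))))))))))
(mv 1038 (cons (fin 977 2 973)
(mv 975 (cons (fin 1036 2 972)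
(mv 1104 (cons (fin 1105 0 1037)
(mv 1168 (cons (fin 1232 7 975)
(mv 1167 (cons (fin 1231 5 975)
(mv 912 (cons (fin 1103 5 911)
(mv 848 (cons (fin 784 5 783)
(mv 849 (cons (fin 785 6 784)
(fin 913 6 848)))))))))))))))))))))
(cons (mv 1038 (cons (cons (mv 1039 (cons (fin 977 2 973)
(mv 972 (cons (fin 973 3 972)
(mv 1036 (cons (fin 971 3 971)
(fin 975 2 972)))))))
(cons (mv 974 (cons (cons (mv 975 (cons (fin 977 1 973)
(mv 1036 (cons (fin 973 1 972)
(fin 1035 2 971)))))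
(mv 910 (cons (cons (mv 846 (cons (fin 1101 5 845)
(mv 781 (cons (fin 845 7 781)
(mv 782 (cons (fin 717 7 717)
(fin 973 5 781)))))))
(mv 1102 (cons (cons (mv 845 (cons (fin 909 7 845)
(mv 847 (cons (fin 911 6 846)
(mv 1165 (cons (fin 1101 5 909)
(mv 1166 (cons (fin 1229 5 973)
(mv 1230 (cons (fin 973 7 973)
(mv 1231 (cons (fin 1167 4 974)
(fin 1295 4 1038)))))))))))))
(cons (mv 847 (cons (fin 911 6 846)
(mv 909 (cons (fin 845 7 845)
(mv 1166 (cons (fin 973 7 909)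
(mv 1231 (cons (fin 1167 4 974)
(mv 1230 (cons (fin 1295 4 1038)
(mv 1293 (cons (fin 1229 5 1037)
(mv 1294 (cons (fin 1101 7 1037)
(fin 1357 5 1101)))))))))))))))
(mv 847 (cons (fin 911 6 846)
(mv 1165 (cons (fin 1101 5 909)
(mv 1166 (cons (fin 1229 5 973)
(mv 1230 (cons (fin 973 7 973)
(mv 1231 (cons (fin 1167 4 974)
(fin 1295 4 1038)))))))))))))
(cons (mv 847 (cons (fin 911 6 846)
(mv 909 (cons (fin 845 7 845)
(mv 1166 (cons (fin 973 7 909)
(mv 1229 (cons (fin 1165 5 973)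
(mv 1230 (cons (fin 1293 5 1037)
(mv 1231 (cons (fin 1167 4 974)
(fin 1295 4 1038)))))))))))))
(cons (mv 845 (cons (fin 909 7 845)
(mv 1165 (cons (fin 1101 5 909)
(mv 1166 (cons (fin 1229 5 973)
(mv 1230 (cons (fin 973 7 973)
(mv 1231 (cons (fin 1167 4 974)
(fin 1295 4 1038)))))))))))
(mv 909 (cons (fin 845 7 845)
(mv 911 (cons (fin 847 6 846)
(mv 912 (cons (fin 977 0 909)
(mv 849 (cons (fin 848 2 845)
(mv 913 (cons (fin 850 2 846)
(fin 1104 6 848))))))))))))))))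
(cons (mv 846 (cons (cons (mv 781 (cons (fin 845 7 781)
(mv 782 (cons (fin 717 7 717)
(fin 973 5 781)))))
(mv 781 (cons (fin 845 7 781)
(mv 847 (cons (fin 783 6 782)
(mv 911 (cons (fin 1102 6 846)
(mv 912 (cons (fin 1104 7 847)
(mv 913 (cons (fin 914 3 846)
(fin 973 1 909))))))))))))
(cons (mv 782 (cons (fin 973 5 781)
(mv 783 (cons (fin 719 6 718)
(fin 847 6 782)))))
(mv 781 (cons (fin 845 7 781)
(mv 717 (cons (fin 782 7 717)
(mv 847 (cons (fin 783 6 782)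
(mv 911 (cons (fin 1102 6 846)
(mv 912 (cons (fin 1104 7 847)
(mv 909 (cons (fin 977 0 909)
(mv 848 (cons (fin 849 1 845)
(fin 908 2 844))))))))))))))))))
(cons (mv 846 (cons (fin 1101 5 845)
(mv 781 (cons (fin 845 7 781)
(mv 717 (cons (fin 782 7 717)
(mv 847 (cons (fin 783 6 782)
(mv 911 (cons (fin 1102 6 846)
(mv 912 (cons (fin 1104 7 847)
(mv 909 (cons (fin 977 0 909)
(mv 848 (cons (fin 849 1 845)
(fin 908 2 844)))))))))))))))))
(mv 846 (cons (fin 1101 5 845)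
(mv 782 (cons (fin 973 5 781)
(mv 783 (cons (fin 719 6 718)
(fin 847 6 782))))))))))))
(cons (mv 1101 (cons (cons (mv 910 (cons (fin 846 5 845)
(mv 1165 (cons (fin 1102 5 909)
(fin 973 6 909)))))
(mv 910 (cons (fin 846 5 845)
(mv 1102 (cons (cons (mv 845 (cons (fin 909 7 845)
(mv 911 (cons (fin 847 6 846)
(mv 975 (cons (fin 1166 6 910)
(mv 1036 (cons (fin 973 1 972)
(fin 1035 2 971)))))))))
(cons (mv 911 (cons (fin 847 6 846)
(mv 975 (cons (fin 1166 6 910)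
(mv 1036 (cons (fin 973 1 972)
(fin 1035 2 971)))))))
(mv 909 (cons (fin 845 7 845)
(mv 973 (cons (fin 1166 7 909)
(mv 908 (cons (fin 975 3 908)
(fin 844 7 844)))))))))
(cons (mv 909 (cons (fin 845 7 845)
(mv 911 (cons (fin 847 6 846)
(mv 908 (cons (fin 975 0 908)
(mv 844 (cons (fin 843 3 843)
(fin 973 7 844)))))))))
(cons (mv 845 (cons (fin 909 7 845)
(mv 911 (cons (fin 847 6 846)
(mv 1166 (cons (fin 975 6 910)
(mv 1230 (cons (fin 1294 7 1037)
(mv 1231 (cons (fin 1167 4 974)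
(fin 1295 4 1038)))))))))))
(mv 847 (cons (fin 911 6 846)
(mv 909 (cons (fin 845 7 845)
(mv 1166 (cons (fin 973 7 909)
(mv 1230 (cons (fin 1294 7 1037)
(mv 1231 (cons (fin 1167 4 974)
(fin 1295 4 1038))))))))))))))))))
(cons (mv 1165 (cons (fin 1229 6 973)
(mv 973 (cons (cons (mv 908 (cons (fin 972 7 908)
(mv 909 (cons (fin 975 3 908)
(fin 844 7 844)))))
(mv 908 (cons (fin 972 7 908)
(mv 909 (cons (fin 844 7 844)
(mv 845 (cons (fin 781 4 781)
(fin 1102 4 845))))))))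
(cons (mv 975 (cons (fin 1036 1 972)
(mv 912 (cons (fin 913 2 909)
(mv 911 (cons (fin 972 2 908)
(mv 847 (cons (fin 1104 7 847)
(fin 783 5 782)))))))))
(mv 975 (cons (fin 1036 1 972)
(mv 908 (cons (fin 909 3 908)
(mv 912 (cons (fin 913 2 909)
(mv 1164 (cons (fin 1228 5 972)
(mv 1166 (cons (fin 1230 4 973)
(mv 911 (cons (fin 1102 6 910)
(mv 847 (cons (fin 1104 7 847)
(fin 783 5 782))))))))))))))))))))
(cons (mv 910 (cons (fin 846 5 845)
(mv 1165 (cons (fin 1102 5 909)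
(fin 1229 6 973)))))
(mv 910 (cons (fin 846 5 845)
(mv 1165 (cons (fin 973 6 909)
(fin 1229 6 973)))))))))
(mv 975 (cons (fin 977 1 973)
(mv 1035 (cons (fin 1036 2 971)
(mv 911 (cons (mv 847 (cons (fin 783 5 782)
(mv 1102 (cons (fin 910 6 846)
(fin 1166 6 910)))))
(cons (mv 1102 (cons (fin 1166 6 910)
(mv 1104 (cons (fin 1168 7 911)
(mv 910 (cons (mv 909 (cons (fin 908 0 908)
(fin 845 7 845)))
(mv 1101 (cons (fin 846 5 845)
(fin 1165 5 909)))))))))
(mv 847 (cons (fin 783 5 782)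
(mv 1104 (cons (fin 912 7 847)
(fin 1168 7 911)))))))))))))))
(mv 1039 (cons (cons (mv 972 (cons (fin 973 3 972)
(mv 1036 (cons (fin 971 3 971)
(fin 975 2 972)))))
(mv 972 (cons (fin 973 3 972)
(mv 1104 (cons (fin 1105 0 1037)
(mv 1168 (cons (mv 975 (cons (fin 911 7 911)
(fin 1232 7 975)))
(cons (mv 1231 (cons (fin 1167 5 975)
(mv 1232 (cons (fin 1295 5 1039)
(mv 1233 (cons (fin 1169 4 976)
(fin 1297 4 1040)))))))
(mv 1167 (cons (fin 1231 5 975)
(mv 1169 (cons (fin 1233 4 976)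
(mv 912 (cons (cons (mv 911 (cons (fin 847 7 847)
(fin 975 7 911)))
(mv 849 (cons (fin 913 6 848)
(mv 848 (cons (fin 785 6 784)
(mv 783 (cons (fin 847 7 783)
(mv 784 (cons (fin 719 7 719)
(fin 975 5 783))))))))))
(cons (mv 847 (cons (fin 911 7 847)
(mv 848 (cons (fin 783 7 783)
(mv 849 (cons (fin 785 6 784)
(fin 913 6 848)))))))
(mv 849 (cons (fin 913 6 848)
(mv 848 (cons (fin 785 6 784)
(mv 975 (cons (fin 911 7 911)
(fin 784 5 783))))))))))))))))))))))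
(cons (mv 975 (cons (fin 1036 2 972)
(mv 1104 (cons (fin 1105 0 1037)
(mv 911 (cons (fin 1168 7 911)
(fin 847 4 847)))))))
(mv 1104 (cons (fin 1105 0 1037)
(mv 912 (cons (cons (mv 847 (cons (fin 911 7 847)
(mv 848 (cons (fin 783 7 783)
(mv 849 (cons (fin 785 6 784)
(fin 913 6 848)))))))
(cons (mv 849 (cons (fin 913 6 848)
(mv 848 (cons (fin 785 6 784)
(mv 973 (cons (fin 972 3 972)
(mv 909 (cons (mv 845 (cons (fin 1102 4 845)
(mv 780 (cons (fin 844 7 780)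
(mv 781 (cons (fin 716 7 716)
(fin 974 4 781)))))))
(cons (mv 910 (cons (fin 911 2 845)
(mv 846 (cons (fin 1101 6 845)
(mv 782 (cons (fin 718 5 717)
(fin 974 5 781)))))))
(mv 845 (cons (fin 1102 4 845)
(mv 780 (cons (fin 844 7 780)
(mv 716 (cons (fin 781 7 716)
(mv 846 (cons (fin 782 6 781)
(mv 910 (cons (fin 911 2 845)
(fin 1101 6 845))))))))))))))))))))
(mv 847 (cons (fin 911 7 847)
(mv 848 (cons (fin 783 7 783)
(mv 1168 (cons (cons (mv 972 (cons (fin 973 3 972)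
(mv 971 (cons (fin 1036 3 971)
(mv 1231 (cons (fin 1167 5 975)
(mv 1232 (cons (fin 1295 5 1039)
(mv 1233 (cons (fin 1169 4 976)
(fin 1297 4 1040)))))))))))
(mv 1231 (cons (fin 1167 5 975)
(mv 1232 (cons (fin 1295 5 1039)
(mv 1233 (cons (fin 1169 4 976)
(fin 1297 4 1040))))))))
(cons (mv 1169 (cons (fin 1233 4 976)
(mv 845 (cons (cons (mv 846 (cons (fin 913 0 845)
(mv 780 (cons (fin 781 3 780)
(mv 779 (cons (fin 844 3 779)
(mv 784 (cons (fin 785 2 781)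
(mv 909 (cons (fin 908 1 844)
(mv 973 (cons (fin 972 3 972)
(fin 782 6 781)))))))))))))
(cons (mv 973 (cons (fin 972 3 972)
(mv 909 (cons (fin 1102 4 845)
(mv 780 (cons (fin 844 7 780)
(mv 781 (cons (fin 716 7 716)
(fin 974 4 781)))))))))
(mv 846 (cons (fin 913 0 845)
(mv 780 (cons (fin 781 3 780)
(mv 784 (cons (fin 785 2 781)
(mv 844 (cons (fin 779 3 779)
(mv 908 (cons (fin 907 1 843)
(fin 909 1 844)))))))))))))
(cons (cons (mv 846 (cons (fin 913 0 845)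
(mv 780 (cons (fin 781 3 780)
(mv 784 (cons (fin 785 2 781)
(mv 844 (cons (fin 779 3 779)
(mv 907 (cons (fin 908 1 843)
(mv 843 (cons (fin 906 1 842)
(mv 971 (cons (fin 1035 6 779)
(mv 972 (cons (fin 1036 3 971)
(fin 973 3 972)))))))))))))))))
(mv 846 (cons (fin 913 0 845)
(mv 784 (cons (fin 785 2 781)
(mv 908 (cons (fin 909 1 844)
(mv 844 (cons (fin 907 1 843)
(mv 779 (cons (fin 780 3 779)
(mv 778 (cons (fin 843 3 778)
(mv 972 (cons (fin 973 3 972)
(mv 1036 (cons (fin 971 3 971)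
(fin 1101 4 844))))))))))))))))))
(cons (mv 846 (cons (fin 913 0 845)
(mv 784 (cons (fin 785 2 781)
(mv 908 (cons (fin 909 1 844)
(mv 844 (cons (fin 907 1 843)
(mv 972 (cons (fin 973 3 972)
(mv 1036 (cons (fin 971 3 971)
(fin 781 6 780)))))))))))))
(mv 846 (cons (fin 913 0 845)
(mv 780 (cons (fin 781 3 780)
(mv 784 (cons (fin 785 2 781)
(mv 909 (cons (fin 908 1 844)
(mv 973 (cons (fin 972 3 972)
(fin 782 6 781)))))))))))))))))
(mv 1167 (cons (fin 1231 5 975)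
(mv 845 (cons (cons (mv 846 (cons (fin 913 0 845)
(mv 780 (cons (fin 781 3 780)
(mv 779 (cons (fin 844 3 779)
(mv 784 (cons (fin 785 2 781)
(mv 909 (cons (fin 908 1 844)
(mv 973 (cons (fin 972 3 972)
(fin 782 6 781)))))))))))))
(cons (mv 973 (cons (fin 972 3 972)
(mv 909 (cons (fin 1102 4 845)
(mv 780 (cons (fin 844 7 780)
(mv 781 (cons (fin 716 7 716)
(fin 974 4 781)))))))))
(mv 846 (cons (fin 913 0 845)
(mv 780 (cons (fin 781 3 780)
(mv 784 (cons (fin 785 2 781)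
(mv 844 (cons (fin 779 3 779)
(mv 908 (cons (fin 907 1 843)
(fin 909 1 844)))))))))))))
(cons (cons (mv 846 (cons (fin 913 0 845)
(mv 780 (cons (fin 781 3 780)
(mv 784 (cons (fin 785 2 781)
(mv 844 (cons (fin 779 3 779)
(mv 907 (cons (fin 908 1 843)
(mv 843 (cons (fin 906 1 842)
(mv 971 (cons (fin 1035 6 779)
(mv 972 (cons (fin 1036 3 971)
(fin 973 3 972)))))))))))))))))
(mv 846 (cons (fin 913 0 845)
(mv 784 (cons (fin 785 2 781)
(mv 908 (cons (fin 909 1 844)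
(mv 844 (cons (fin 907 1 843)
(mv 779 (cons (fin 780 3 779)
(mv 778 (cons (fin 843 3 778)
(mv 972 (cons (fin 973 3 972)
(mv 1036 (cons (fin 971 3 971)
(fin 1101 4 844))))))))))))))))))
(cons (mv 846 (cons (fin 913 0 845)
(mv 784 (cons (fin 785 2 781)
(mv 908 (cons (fin 909 1 844)
(mv 844 (cons (fin 907 1 843)
(mv 972 (cons (fin 973 3 972)
(mv 1036 (cons (fin 971 3 971)
(fin 781 6 780)))))))))))))
(mv 846 (cons (fin 913 0 845)
(mv 780 (cons (fin 781 3 780)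
(mv 784 (cons (fin 785 2 781)
(mv 909 (cons (fin 908 1 844)
(mv 973 (cons (fin 972 3 972)
(fin 782 6 781))))))))))))))))))))))))))
(cons (mv 973 (cons (fin 972 3 972)
(mv 1102 (cons (cons (mv 849 (cons (fin 913 6 848)
(mv 785 (cons (fin 848 6 784)
(mv 909 (cons (fin 845 4 845)
(mv 1166 (cons (fin 974 7 909)
(fin 1230 7 973)))))))))
(mv 845 (cons (fin 909 4 845)
(mv 848 (cons (mv 849 (cons (fin 785 6 784)
(fin 913 6 848)))
(cons (mv 783 (cons (fin 847 7 783)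
(mv 784 (cons (fin 719 7 719)
(mv 785 (cons (fin 721 6 720)
(mv 782 (cons (fin 846 1 781)
(mv 717 (cons (fin 718 3 717)
(mv 781 (cons (fin 716 3 716)
(fin 844 1 780)))))))))))))
(mv 847 (cons (fin 783 7 783)
(mv 913 (cons (fin 846 0 845)
(fin 849 6 848)))))))))))
(cons (mv 849 (cons (fin 913 6 848)
(mv 848 (cons (fin 785 6 784)
(mv 847 (cons (fin 783 7 783)
(mv 1168 (cons (cons (mv 1166 (cons (fin 1230 7 973)
(mv 1167 (cons (fin 1231 5 975)
(mv 1169 (cons (fin 1101 3 1101)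
(fin 1233 4 976)))))))
(cons (mv 1166 (cons (fin 1230 7 973)
(mv 1233 (cons (fin 1169 4 976)
(mv 1232 (cons (fin 1297 4 1040)
(mv 1165 (cons (fin 1167 0 1165)
(mv 1229 (cons (fin 974 5 973)
(mv 1293 (cons (fin 1101 6 1037)
(fin 1357 6 1101)))))))))))))
(mv 1230 (cons (fin 1166 7 973)
(mv 1231 (cons (fin 1167 5 975)
(mv 1232 (cons (fin 1295 5 1039)
(mv 1229 (cons (fin 1169 2 1165)
(mv 1164 (cons (fin 1165 3 1164)
(mv 1228 (cons (fin 1163 3 1163)
(mv 1292 (cons (fin 1291 1 1227)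
(fin 1293 1 1228)))))))))))))))))
(cons (mv 1231 (cons (fin 1167 5 975)
(mv 1232 (cons (fin 1295 5 1039)
(mv 1233 (cons (fin 1169 4 976)
(fin 1297 4 1040)))))))
(cons (mv 1230 (cons (fin 1166 7 973)
(mv 1233 (cons (fin 1169 4 976)
(mv 1232 (cons (fin 1297 4 1040)
(mv 1231 (cons (fin 1295 5 1039)
(mv 1293 (cons (fin 1294 1 1229)
(mv 1229 (cons (fin 1292 1 1228)
(mv 1165 (cons (fin 1164 3 1164)
(fin 1101 6 1037)))))))))))))))
(mv 1230 (cons (fin 1166 7 973)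
(mv 1231 (cons (fin 1167 5 975)
(mv 1232 (cons (fin 1295 5 1039)
(mv 1233 (cons (fin 1297 4 1040)
(mv 1293 (cons (fin 1294 1 1229)
(mv 1229 (cons (fin 1292 1 1228)
(mv 1165 (cons (fin 1164 3 1164)
(fin 1101 6 1037)))))))))))))))))))))))))
(mv 909 (cons (fin 845 4 845)
(mv 1166 (cons (fin 974 7 909)
(fin 1230 7 973))))))))))
(cons (mv 847 (cons (fin 911 7 847)
(mv 848 (cons (fin 783 7 783)
(mv 785 (cons (fin 849 6 784)
(mv 784 (cons (fin 721 6 720)
(mv 786 (cons (fin 787 1 783)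
(mv 845 (cons (fin 846 2 781)
(mv 973 (cons (fin 972 3 972)
(mv 909 (cons (fin 1102 4 845)
(mv 780 (cons (fin 844 7 780)
(mv 781 (cons (fin 716 7 716)
(fin 974 4 781)))))))))))))))))))))
(mv 911 (cons (fin 847 7 847)
(mv 913 (cons (fin 849 6 848)
(mv 973 (cons (fin 972 3 972)
(mv 910 (cons (fin 974 1 909)
(mv 845 (cons (fin 846 3 845)
(mv 909 (cons (fin 844 3 844)
(fin 1102 4 845))))))))))))))))))))))))
(cons (mv 1039 (cons (fin 977 2 973)
(mv 1104 (cons (fin 1105 0 1037)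
(mv 912 (cons (cons (mv 847 (cons (fin 911 7 847)
(mv 848 (cons (fin 783 7 783)
(mv 849 (cons (fin 785 6 784)
(fin 913 6 848)))))))
(cons (mv 849 (cons (fin 913 6 848)
(mv 848 (cons (fin 785 6 784)
(mv 973 (cons (fin 972 3 972)
(mv 909 (cons (mv 845 (cons (fin 1102 4 845)
(mv 780 (cons (fin 844 7 780)
(mv 781 (cons (fin 716 7 716)
(fin 974 4 781)))))))
(cons (mv 910 (cons (fin 911 2 845)
(mv 846 (cons (fin 1101 6 845)
(mv 782 (cons (fin 718 5 717)
(fin 974 5 781)))))))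
(mv 845 (cons (fin 1102 4 845)
(mv 780 (cons (fin 844 7 780)
(mv 716 (cons (fin 781 7 716)
(mv 846 (cons (fin 782 6 781)
(mv 910 (cons (fin 911 2 845)
(fin 1101 6 845))))))))))))))))))))
(mv 847 (cons (fin 911 7 847)
(mv 848 (cons (fin 783 7 783)
(mv 1168 (cons (cons (mv 972 (cons (fin 973 3 972)
(mv 971 (cons (fin 1036 3 971)
(mv 1231 (cons (fin 1167 5 975)
(mv 1232 (cons (fin 1295 5 1039)
(mv 1233 (cons (fin 1169 4 976)
(fin 1297 4 1040)))))))))))
(mv 1231 (cons (fin 1167 5 975)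
(mv 1232 (cons (fin 1295 5 1039)
(mv 1233 (cons (fin 1169 4 976)
(fin 1297 4 1040))))))))
(cons (mv 1169 (cons (fin 1233 4 976)
(mv 845 (cons (cons (mv 846 (cons (fin 913 0 845)
(mv 780 (cons (fin 781 3 780)
(mv 779 (cons (fin 844 3 779)
(mv 784 (cons (fin 785 2 781)
(mv 909 (cons (fin 908 1 844)
(mv 973 (cons (fin 972 3 972)
(fin 782 6 781)))))))))))))
(cons (mv 973 (cons (fin 972 3 972)
(mv 909 (cons (fin 1102 4 845)
(mv 780 (cons (fin 844 7 780)
(mv 781 (cons (fin 716 7 716)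
(fin 974 4 781)))))))))
(mv 846 (cons (fin 913 0 845)
(mv 780 (cons (fin 781 3 780)
(mv 784 (cons (fin 785 2 781)
(mv 844 (cons (fin 779 3 779)
(mv 908 (cons (fin 907 1 843)
(fin 909 1 844)))))))))))))
(cons (cons (mv 846 (cons (fin 913 0 845)
(mv 780 (cons (fin 781 3 780)
(mv 784 (cons (fin 785 2 781)
(mv 844 (cons (fin 779 3 779)
(mv 907 (cons (fin 908 1 843)
(mv 843 (cons (fin 906 1 842)
(mv 971 (cons (fin 1035 6 779)
(mv 972 (cons (fin 1036 3 971)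
(fin 973 3 972)))))))))))))))))
(mv 846 (cons (fin 913 0 845)
(mv 784 (cons (fin 785 2 781)
(mv 908 (cons (fin 909 1 844)
(mv 844 (cons (fin 907 1 843)
(mv 779 (cons (fin 780 3 779)
(mv 778 (cons (fin 843 3 778)
(mv 972 (cons (fin 973 3 972)
(mv 1036 (cons (fin 971 3 971)
(fin 1101 4 844))))))))))))))))))
(cons (mv 846 (cons (fin 913 0 845)
(mv 784 (cons (fin 785 2 781)
(mv 908 (cons (fin 909 1 844)
(mv 844 (cons (fin 907 1 843)
(mv 972 (cons (fin 973 3 972)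
(mv 1036 (cons (fin 971 3 971)
(fin 781 6 780)))))))))))))
(mv 846 (cons (fin 913 0 845)
(mv 780 (cons (fin 781 3 780)
(mv 784 (cons (fin 785 2 781)
(mv 909 (cons (fin 908 1 844)
(mv 973 (cons (fin 972 3 972)
(fin 782 6 781)))))))))))))))))
(mv 1167 (cons (fin 1231 5 975)
(mv 845 (cons (cons (mv 846 (cons (fin 913 0 845)
(mv 780 (cons (fin 781 3 780)
(mv 779 (cons (fin 844 3 779)
(mv 784 (cons (fin 785 2 781)
(mv 909 (cons (fin 908 1 844)
(mv 973 (cons (fin 972 3 972)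
(fin 782 6 781)))))))))))))
(cons (mv 973 (cons (fin 972 3 972)
(mv 909 (cons (fin 1102 4 845)
(mv 780 (cons (fin 844 7 780)
(mv 781 (cons (fin 716 7 716)
(fin 974 4 781)))))))))
(mv 846 (cons (fin 913 0 845)
(mv 780 (cons (fin 781 3 780)
(mv 784 (cons (fin 785 2 781)
(mv 844 (cons (fin 779 3 779)
(mv 908 (cons (fin 907 1 843)
(fin 909 1 844)))))))))))))
(cons (cons (mv 846 (cons (fin 913 0 845)
(mv 780 (cons (fin 781 3 780)
(mv 784 (cons (fin 785 2 781)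
(mv 844 (cons (fin 779 3 779)
(mv 907 (cons (fin 908 1 843)
(mv 843 (cons (fin 906 1 842)
(mv 971 (cons (fin 1035 6 779)
(mv 972 (cons (fin 1036 3 971)
(fin 973 3 972)))))))))))))))))
(mv 846 (cons (fin 913 0 845)
(mv 784 (cons (fin 785 2 781)
(mv 908 (cons (fin 909 1 844)
(mv 844 (cons (fin 907 1 843)
(mv 779 (cons (fin 780 3 779)
(mv 778 (cons (fin 843 3 778)
(mv 972 (cons (fin 973 3 972)
(mv 1036 (cons (fin 971 3 971)
(fin 1101 4 844))))))))))))))))))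
(cons (mv 846 (cons (fin 913 0 845)
(mv 784 (cons (fin 785 2 781)
(mv 908 (cons (fin 909 1 844)
(mv 844 (cons (fin 907 1 843)
(mv 972 (cons (fin 973 3 972)
(mv 1036 (cons (fin 971 3 971)
(fin 781 6 780)))))))))))))
(mv 846 (cons (fin 913 0 845)
(mv 780 (cons (fin 781 3 780)
(mv 784 (cons (fin 785 2 781)
(mv 909 (cons (fin 908 1 844)
(mv 973 (cons (fin 972 3 972)
(fin 782 6 781))))))))))))))))))))))))))
(cons (mv 973 (cons (fin 972 3 972)
(mv 1102 (cons (cons (mv 849 (cons (fin 913 6 848)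
(mv 785 (cons (fin 848 6 784)
(mv 909 (cons (fin 845 4 845)
(mv 1166 (cons (fin 974 7 909)
(fin 1230 7 973)))))))))
(mv 845 (cons (fin 909 4 845)
(mv 848 (cons (mv 849 (cons (fin 785 6 784)
(fin 913 6 848)))
(cons (mv 783 (cons (fin 847 7 783)
(mv 784 (cons (fin 719 7 719)
(mv 785 (cons (fin 721 6 720)
(mv 782 (cons (fin 846 1 781)
(mv 717 (cons (fin 718 3 717)
(mv 781 (cons (fin 716 3 716)
(fin 844 1 780)))))))))))))
(mv 847 (cons (fin 783 7 783)
(mv 913 (cons (fin 846 0 845)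
(fin 849 6 848)))))))))))
(cons (mv 849 (cons (fin 913 6 848)
(mv 848 (cons (fin 785 6 784)
(mv 847 (cons (fin 783 7 783)
(mv 1168 (cons (cons (mv 1166 (cons (fin 1230 7 973)
(mv 1167 (cons (fin 1231 5 975)
(mv 1169 (cons (fin 1101 3 1101)
(fin 1233 4 976)))))))
(cons (mv 1166 (cons (fin 1230 7 973)
(mv 1233 (cons (fin 1169 4 976)
(mv 1232 (cons (fin 1297 4 1040)
(mv 1165 (cons (fin 1167 0 1165)
(mv 1229 (cons (fin 974 5 973)
(mv 1293 (cons (fin 1101 6 1037)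
(fin 1357 6 1101)))))))))))))
(mv 1230 (cons (fin 1166 7 973)
(mv 1231 (cons (fin 1167 5 975)
(mv 1232 (cons (fin 1295 5 1039)
(mv 1229 (cons (fin 1169 2 1165)
(mv 1164 (cons (fin 1165 3 1164)
(mv 1228 (cons (fin 1163 3 1163)
(mv 1292 (cons (fin 1291 1 1227)
(fin 1293 1 1228)))))))))))))))))
(cons (mv 1231 (cons (fin 1167 5 975)
(mv 1232 (cons (fin 1295 5 1039)
(mv 1233 (cons (fin 1169 4 976)
(fin 1297 4 1040)))))))
(cons (mv 1230 (cons (fin 1166 7 973)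
(mv 1233 (cons (fin 1169 4 976)
(mv 1232 (cons (fin 1297 4 1040)
(mv 1231 (cons (fin 1295 5 1039)
(mv 1293 (cons (fin 1294 1 1229)
(mv 1229 (cons (fin 1292 1 1228)
(mv 1165 (cons (fin 1164 3 1164)
(fin 1101 6 1037)))))))))))))))
(mv 1230 (cons (fin 1166 7 973)
(mv 1231 (cons (fin 1167 5 975)
(mv 1232 (cons (fin 1295 5 1039)
(mv 1233 (cons (fin 1297 4 1040)
(mv 1293 (cons (fin 1294 1 1229)
(mv 1229 (cons (fin 1292 1 1228)
(mv 1165 (cons (fin 1164 3 1164)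
(fin 1101 6 1037)))))))))))))))))))))))))
(mv 909 (cons (fin 845 4 845)
(mv 1166 (cons (fin 974 7 909)
(fin 1230 7 973))))))))))
(cons (mv 847 (cons (fin 911 7 847)
(mv 848 (cons (fin 783 7 783)
(mv 785 (cons (fin 849 6 784)
(mv 784 (cons (fin 721 6 720)
(mv 786 (cons (fin 787 1 783)
(mv 845 (cons (fin 846 2 781)
(mv 973 (cons (fin 972 3 972)
(mv 909 (cons (fin 1102 4 845)
(mv 780 (cons (fin 844 7 780)
(mv 781 (cons (fin 716 7 716)
(fin 974 4 781)))))))))))))))))))))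
(mv 911 (cons (fin 847 7 847)
(mv 913 (cons (fin 849 6 848)
(mv 973 (cons (fin 972 3 972)
(mv 910 (cons (fin 974 1 909)
(mv 845 (cons (fin 846 3 845)
(mv 909 (cons (fin 844 3 844)
(fin 1102 4 845)))))))))))))))))))))
(cons (mv 1039 (cons (fin 977 2 973)
(mv 972 (cons (fin 973 3 972)
(mv 1104 (cons (fin 1105 0 1037)
(mv 1168 (cons (mv 975 (cons (fin 911 7 911)
(fin 1232 7 975)))
(cons (mv 1231 (cons (fin 1167 5 975)
(mv 1232 (cons (fin 1295 5 1039)
(mv 1233 (cons (fin 1169 4 976)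
(fin 1297 4 1040)))))))
(mv 1167 (cons (fin 1231 5 975)
(mv 1169 (cons (fin 1233 4 976)
(mv 912 (cons (cons (mv 911 (cons (fin 847 7 847)
(fin 975 7 911)))
(mv 849 (cons (fin 913 6 848)
(mv 848 (cons (fin 785 6 784)
(mv 783 (cons (fin 847 7 783)
(mv 784 (cons (fin 719 7 719)
(fin 975 5 783))))))))))
(cons (mv 847 (cons (fin 911 7 847)
(mv 848 (cons (fin 783 7 783)
(mv 849 (cons (fin 785 6 784)
(fin 913 6 848)))))))
(mv 849 (cons (fin 913 6 848)
(mv 848 (cons (fin 785 6 784)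
(mv 975 (cons (fin 911 7 911)
(fin 784 5 783)))))))))))))))))))))))
(mv 1039 (cons (fin 977 2 973)
(mv 975 (cons (fin 1036 2 972)
(mv 1104 (cons (fin 1105 0 1037)
(mv 911 (cons (fin 1168 7 911)
(fin 847 4 847)))))))))))))
(mv 1038 (cons (cons (mv 1039 (cons (fin 977 2 973)
(mv 972 (cons (fin 973 3 972)
(mv 1036 (cons (fin 971 3 971)
(fin 975 2 972)))))))
(cons (mv 974 (cons (cons (mv 975 (cons (fin 977 1 973)
(mv 1036 (cons (fin 973 1 972)
(fin 1035 2 971)))))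
(mv 910 (cons (cons (mv 846 (cons (fin 1101 5 845)
(mv 781 (cons (fin 845 7 781)
(mv 782 (cons (fin 717 7 717)
(fin 973 5 781)))))))
(mv 1102 (cons (cons (mv 845 (cons (fin 909 7 845)
(mv 847 (cons (fin 911 6 846)
(mv 1101 (cons (fin 1165 5 909)
(mv 1103 (cons (fin 1167 4 910)
(mv 1036 (cons (fin 1104 3 1036)
(fin 1035 0 1035)))))))))))
(cons (mv 845 (cons (fin 909 7 845)
(mv 847 (cons (fin 911 6 846)
(mv 1103 (cons (fin 1167 4 910)
(mv 1036 (cons (fin 1035 0 1035)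
(mv 1104 (cons (fin 1101 3 1036)
(fin 1105 3 1037)))))))))))
(mv 845 (cons (fin 909 7 845)
(mv 847 (cons (fin 911 6 846)
(mv 1167 (cons (fin 1103 4 910)
(mv 1166 (cons (fin 1231 4 974)
(mv 1229 (cons (fin 1165 5 973)
(mv 1230 (cons (fin 973 7 973)
(fin 1293 5 1037)))))))))))))))
(cons (cons (mv 847 (cons (fin 911 6 846)
(mv 1101 (cons (fin 1165 5 909)
(mv 1103 (cons (fin 1167 4 910)
(mv 1036 (cons (fin 1104 3 1036)
(fin 1035 0 1035)))))))))
(mv 845 (cons (fin 909 7 845)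
(mv 847 (cons (fin 911 6 846)
(mv 1165 (cons (fin 1101 5 909)
(mv 1166 (cons (fin 1229 5 973)
(mv 1230 (cons (fin 973 7 973)
(mv 1231 (cons (fin 1167 4 974)
(fin 1295 4 1038))))))))))))))
(cons (mv 847 (cons (fin 911 6 846)
(mv 909 (cons (fin 845 7 845)
(mv 1165 (cons (fin 1101 5 909)
(mv 1166 (cons (fin 973 7 909)
(fin 1229 5 973)))))))))
(mv 845 (cons (fin 909 7 845)
(mv 1101 (cons (fin 1165 5 909)
(mv 1103 (cons (fin 1167 4 910)
(mv 1036 (cons (fin 1104 3 1036)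
(fin 1035 0 1035))))))))))))))
(cons (mv 1102 (cons (cons (mv 845 (cons (fin 909 7 845)
(mv 781 (cons (fin 846 7 781)
(mv 847 (cons (fin 911 6 846)
(mv 1167 (cons (fin 1103 4 910)
(mv 1166 (cons (fin 1231 4 974)
(mv 1229 (cons (fin 1165 5 973)
(mv 1230 (cons (fin 973 7 973)
(fin 1293 5 1037)))))))))))))))
(mv 847 (cons (fin 911 6 846)
(mv 783 (cons (fin 846 6 782)
(mv 848 (cons (fin 912 7 783)
(mv 1167 (cons (fin 1103 4 910)
(mv 1166 (cons (fin 1231 4 974)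
(mv 1229 (cons (fin 1165 5 973)
(mv 1230 (cons (fin 973 7 973)
(fin 1293 5 1037))))))))))))))))
(cons (mv 845 (cons (fin 909 7 845)
(mv 846 (cons (fin 781 7 781)
(mv 847 (cons (fin 783 6 782)
(fin 911 6 846)))))))
(cons (mv 845 (cons (fin 909 7 845)
(mv 781 (cons (fin 846 7 781)
(mv 1167 (cons (fin 1103 4 910)
(mv 1166 (cons (fin 1231 4 974)
(mv 1229 (cons (fin 1165 5 973)
(mv 1230 (cons (fin 973 7 973)
(fin 1293 5 1037)))))))))))))
(mv 845 (cons (fin 909 7 845)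
(mv 847 (cons (fin 911 6 846)
(mv 1167 (cons (fin 1103 4 910)
(mv 1166 (cons (fin 1231 4 974)
(mv 1229 (cons (fin 1165 5 973)
(mv 1230 (cons (fin 973 7 973)
(fin 1293 5 1037)))))))))))))))))
(cons (mv 846 (cons (fin 1101 5 845)
(mv 781 (cons (fin 845 7 781)
(mv 717 (cons (fin 782 7 717)
(mv 847 (cons (fin 783 6 782)
(mv 911 (cons (fin 1102 6 846)
(mv 912 (cons (fin 1104 7 847)
(mv 909 (cons (fin 977 0 909)
(mv 848 (cons (fin 849 1 845)
(fin 908 2 844)))))))))))))))))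
(mv 846 (cons (fin 1101 5 845)
(mv 782 (cons (fin 973 5 781)
(mv 783 (cons (fin 719 6 718)
(fin 847 6 782))))))))))))
(cons (mv 975 (cons (mv 1036 (cons (fin 973 1 972)
(fin 1035 2 971)))
(mv 911 (cons (cons (mv 783 (cons (fin 847 5 782)
(mv 1102 (cons (fin 1166 6 910)
(mv 1104 (cons (fin 1168 7 911)
(mv 1103 (cons (fin 1105 3 1037)
(mv 1167 (cons (fin 912 5 911)
(fin 910 4 910)))))))))))
(mv 1102 (cons (fin 1166 6 910)
(mv 1104 (cons (fin 1168 7 911)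
(mv 1103 (cons (fin 1105 3 1037)
(mv 1167 (cons (fin 912 5 911)
(fin 910 4 910))))))))))
(cons (mv 847 (cons (fin 783 5 782)
(mv 1104 (cons (fin 912 7 847)
(fin 1168 7 911)))))
(mv 847 (cons (fin 783 5 782)
(mv 1102 (cons (fin 910 6 846)
(fin 1166 6 910))))))))))
(mv 975 (cons (fin 977 1 973)
(mv 911 (cons (cons (mv 783 (cons (fin 847 5 782)
(mv 1102 (cons (fin 1166 6 910)
(mv 1104 (cons (fin 1168 7 911)
(mv 1103 (cons (fin 1105 3 1037)
(mv 1167 (cons (fin 912 5 911)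
(fin 910 4 910)))))))))))
(mv 1102 (cons (fin 1166 6 910)
(mv 1104 (cons (fin 1168 7 911)
(mv 1103 (cons (fin 1105 3 1037)
(mv 1167 (cons (fin 912 5 911)
(fin 910 4 910))))))))))
(cons (mv 847 (cons (fin 783 5 782)
(mv 1104 (cons (fin 912 7 847)
(fin 1168 7 911)))))
(mv 847 (cons (fin 783 5 782)
(mv 1102 (cons (fin 910 6 846)
(fin 1166 6 910)))))))))))))
(mv 1039 (cons (cons (mv 972 (cons (fin 973 3 972)
(mv 1036 (cons (fin 971 3 971)
(fin 975 2 972)))))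
(mv 972 (cons (fin 973 3 972)
(mv 1104 (cons (fin 1105 0 1037)
(mv 1168 (cons (mv 975 (cons (fin 911 7 911)
(fin 1232 7 975)))
(mv 1167 (cons (fin 1231 5 975)
(mv 1103 (cons (fin 912 5 911)
(mv 1169 (cons (fin 1233 4 976)
(mv 1102 (cons (fin 1170 3 1102)
(fin 1101 0 1101))))))))))))))))
(cons (mv 975 (cons (fin 1036 2 972)
(mv 1104 (cons (fin 1105 0 1037)
(mv 911 (cons (fin 1168 7 911)
(fin 847 4 847)))))))
(mv 972 (cons (fin 973 3 972)
(mv 1036 (cons (fin 971 3 971)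
(mv 1104 (cons (fin 1103 0 1036)
(fin 1105 0 1037))))))))))))
(cons (mv 1039 (cons (fin 977 2 973)
(mv 972 (cons (fin 973 3 972)
(mv 1036 (cons (fin 971 3 971)
(mv 1104 (cons (fin 1103 0 1036)
(fin 1105 0 1037)))))))))
(cons (mv 1039 (cons (fin 977 2 973)
(mv 972 (cons (fin 973 3 972)
(mv 1104 (cons (fin 1105 0 1037)
(mv 1168 (cons (mv 975 (cons (fin 911 7 911)
(fin 1232 7 975)))
(mv 1167 (cons (fin 1231 5 975)
(mv 1103 (cons (fin 912 5 911)
(mv 1169 (cons (fin 1233 4 976)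
(mv 1102 (cons (fin 1170 3 1102)
(fin 1101 0 1101)))))))))))))))))
(mv 1039 (cons (fin 977 2 973)
(mv 975 (cons (fin 1036 2 972)
(mv 1104 (cons (fin 1105 0 1037)
(mv 911 (cons (fin 1168 7 911)
(fin 847 4 847)))))))))))))))
(cons (cons (mv 1038 (cons (cons (mv 1039 (cons (fin 977 2 973)
(mv 972 (cons (fin 973 3 972)
(mv 1036 (cons (fin 971 3 971)
(fin 975 2 972)))))))
(cons (mv 974 (cons (cons (mv 975 (cons (fin 977 1 973)
(mv 1036 (cons (fin 973 1 972)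
(fin 1035 2 971)))))
(mv 910 (cons (cons (mv 846 (cons (fin 1101 5 845)
(mv 781 (cons (fin 845 7 781)
(mv 782 (cons (fin 717 7 717)
(fin 973 5 781)))))))
(mv 1102 (cons (cons (mv 845 (cons (fin 909 7 845)
(mv 847 (cons (fin 911 6 846)
(mv 1101 (cons (fin 1165 5 909)
(mv 1103 (cons (fin 1167 4 910)
(mv 1036 (cons (fin 1104 3 1036)
(fin 1035 0 1035)))))))))))
(cons (mv 845 (cons (fin 909 7 845)
(mv 847 (cons (fin 911 6 846)
(mv 1103 (cons (fin 1167 4 910)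
(mv 1036 (cons (fin 1035 0 1035)
(mv 1104 (cons (fin 1101 3 1036)
(fin 1105 3 1037)))))))))))
(mv 845 (cons (fin 909 7 845)
(mv 847 (cons (fin 911 6 846)
(mv 1167 (cons (fin 1103 4 910)
(mv 1166 (cons (fin 1231 4 974)
(mv 1229 (cons (fin 1165 5 973)
(mv 1230 (cons (fin 973 7 973)
(fin 1293 5 1037)))))))))))))))
(cons (cons (mv 847 (cons (fin 911 6 846)
(mv 1101 (cons (fin 1165 5 909)
(mv 1103 (cons (fin 1167 4 910)
(mv 1036 (cons (fin 1104 3 1036)
(fin 1035 0 1035)))))))))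
(mv 845 (cons (fin 909 7 845)
(mv 847 (cons (fin 911 6 846)
(mv 1165 (cons (fin 1101 5 909)
(mv 1166 (cons (fin 1229 5 973)
(mv 1230 (cons (fin 973 7 973)
(mv 1231 (cons (fin 1167 4 974)
(fin 1295 4 1038))))))))))))))
(cons (mv 847 (cons (fin 911 6 846)
(mv 909 (cons (fin 845 7 845)
(mv 1165 (cons (fin 1101 5 909)
(mv 1166 (cons (fin 973 7 909)
(fin 1229 5 973)))))))))
(mv 845 (cons (fin 909 7 845)
(mv 1101 (cons (fin 1165 5 909)
(mv 1103 (cons (fin 1167 4 910)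
(mv 1036 (cons (fin 1104 3 1036)
(fin 1035 0 1035))))))))))))))
(cons (mv 1102 (cons (cons (mv 845 (cons (fin 909 7 845)
(mv 781 (cons (fin 846 7 781)
(mv 847 (cons (fin 911 6 846)
(mv 1167 (cons (fin 1103 4 910)
(mv 1166 (cons (fin 1231 4 974)
(mv 1229 (cons (fin 1165 5 973)
(mv 1230 (cons (fin 973 7 973)
(fin 1293 5 1037)))))))))))))))
(mv 847 (cons (fin 911 6 846)
(mv 783 (cons (fin 846 6 782)
(mv 1167 (cons (fin 1103 4 910)
(mv 1166 (cons (fin 1231 4 974)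
(mv 1229 (cons (fin 1165 5 973)
(mv 1230 (cons (fin 973 7 973)
(fin 1293 5 1037))))))))))))))
(cons (mv 845 (cons (fin 909 7 845)
(mv 846 (cons (fin 781 7 781)
(mv 847 (cons (fin 783 6 782)
(fin 911 6 846)))))))
(cons (mv 845 (cons (fin 909 7 845)
(mv 781 (cons (fin 846 7 781)
(mv 1167 (cons (fin 1103 4 910)
(mv 1166 (cons (fin 1231 4 974)
(mv 1229 (cons (fin 1165 5 973)
(mv 1230 (cons (fin 973 7 973)
(fin 1293 5 1037)))))))))))))
(mv 845 (cons (fin 909 7 845)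
(mv 847 (cons (fin 911 6 846)
(mv 1167 (cons (fin 1103 4 910)
(mv 1166 (cons (fin 1231 4 974)
(mv 1229 (cons (fin 1165 5 973)
(mv 1230 (cons (fin 973 7 973)
(fin 1293 5 1037)))))))))))))))))
(cons (mv 846 (cons (fin 1101 5 845)
(mv 781 (cons (fin 845 7 781)
(mv 717 (cons (fin 782 7 717)
(mv 847 (cons (fin 783 6 782)
(mv 911 (cons (fin 1102 6 846)
(mv 912 (cons (fin 1104 7 847)
(mv 909 (cons (fin 977 0 909)
(mv 908 (cons (fin 907 2 843)
(mv 844 (cons (fin 843 3 843)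
(mv 972 (cons (fin 971 1 907)
(fin 780 6 716)))))))))))))))))))))
(mv 846 (cons (fin 1101 5 845)
(mv 782 (cons (fin 973 5 781)
(mv 783 (cons (fin 719 6 718)
(fin 847 6 782))))))))))))
(cons (mv 975 (cons (mv 1036 (cons (fin 973 1 972)
(fin 1035 2 971)))
(mv 911 (cons (cons (mv 783 (cons (fin 847 5 782)
(mv 1102 (cons (fin 1166 6 910)
(mv 1104 (cons (fin 1168 7 911)
(mv 1103 (cons (fin 1105 3 1037)
(mv 1167 (cons (fin 912 5 911)
(fin 910 4 910)))))))))))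
(mv 1102 (cons (fin 1166 6 910)
(mv 1104 (cons (fin 1168 7 911)
(mv 1103 (cons (fin 1105 3 1037)
(mv 1167 (cons (fin 912 5 911)
(fin 910 4 910))))))))))
(cons (mv 847 (cons (fin 783 5 782)
(mv 1104 (cons (fin 912 7 847)
(fin 1168 7 911)))))
(mv 847 (cons (fin 783 5 782)
(mv 1102 (cons (fin 910 6 846)
(fin 1166 6 910))))))))))
(mv 975 (cons (fin 977 1 973)
(mv 911 (cons (cons (mv 783 (cons (fin 847 5 782)
(mv 1102 (cons (fin 1166 6 910)
(mv 1104 (cons (fin 1168 7 911)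
(mv 1103 (cons (fin 1105 3 1037)
(mv 1167 (cons (fin 912 5 911)
(fin 910 4 910)))))))))))
(mv 1102 (cons (fin 1166 6 910)
(mv 1104 (cons (fin 1168 7 911)
(mv 1103 (cons (fin 1105 3 1037)
(mv 1167 (cons (fin 912 5 911)
(fin 910 4 910))))))))))
(cons (mv 847 (cons (fin 783 5 782)
(mv 1104 (cons (fin 912 7 847)
(fin 1168 7 911)))))
(mv 847 (cons (fin 783 5 782)
(mv 1102 (cons (fin 910 6 846)
(fin 1166 6 910)))))))))))))
(mv 1039 (cons (cons (mv 972 (cons (fin 973 3 972)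
(mv 1036 (cons (fin 971 3 971)
(fin 975 2 972)))))
(mv 972 (cons (fin 973 3 972)
(mv 1104 (cons (fin 1105 0 1037)
(mv 1168 (cons (mv 975 (cons (fin 911 7 911)
(fin 1232 7 975)))
(mv 1167 (cons (fin 1231 5 975)
(mv 1103 (cons (fin 912 5 911)
(mv 1169 (cons (fin 1233 4 976)
(mv 1102 (cons (fin 1170 3 1102)
(fin 1101 0 1101))))))))))))))))
(cons (mv 975 (cons (fin 1036 2 972)
(mv 1104 (cons (fin 1105 0 1037)
(mv 911 (cons (fin 1168 7 911)
(fin 847 4 847)))))))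
(mv 972 (cons (fin 973 3 972)
(mv 1036 (cons (fin 971 3 971)
(mv 1104 (cons (fin 1103 0 1036)
(fin 1105 0 1037))))))))))))
(cons (mv 1039 (cons (fin 977 2 973)
(mv 972 (cons (fin 973 3 972)
(mv 1036 (cons (fin 971 3 971)
(mv 1104 (cons (fin 1103 0 1036)
(fin 1105 0 1037)))))))))
(cons (mv 1039 (cons (fin 977 2 973)
(mv 972 (cons (fin 973 3 972)
(mv 1104 (cons (fin 1105 0 1037)
(mv 1168 (cons (mv 975 (cons (fin 911 7 911)
(fin 1232 7 975)))
(mv 1167 (cons (fin 1231 5 975)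
(mv 1103 (cons (fin 912 5 911)
(mv 1169 (cons (fin 1233 4 976)
(mv 1102 (cons (fin 1170 3 1102)
(fin 1101 0 1101)))))))))))))))))
(mv 1039 (cons (fin 977 2 973)
(mv 975 (cons (fin 1036 2 972)
(mv 1104 (cons (fin 1105 0 1037)
(mv 911 (cons (fin 1168 7 911)
(fin 847 4 847)))))))))))))
(mv 1039 (cons (cons (mv 1038 (cons (fin 977 2 973)
(mv 972 (cons (fin 973 3 972)
(mv 1036 (cons (fin 971 3 971)
(fin 975 2 972)))))))
(cons (mv 1103 (cons (cons (mv 912 (cons (fin 848 5 847)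
(mv 1167 (cons (fin 1104 5 911)
(fin 975 6 911)))))
(mv 912 (cons (fin 848 5 847)
(mv 1104 (cons (cons (mv 849 (cons (fin 913 6 848)
(mv 1169 (cons (fin 1105 4 912)
(mv 1168 (cons (fin 1233 4 976)
(mv 975 (cons (fin 911 7 911)
(fin 1232 7 975)))))))))
(mv 913 (cons (fin 849 6 848)
(mv 1168 (cons (fin 977 6 912)
(mv 975 (cons (fin 911 7 911)
(fin 1232 7 975))))))))
(cons (mv 1169 (cons (fin 1105 4 912)
(mv 1168 (cons (fin 1233 4 976)
(mv 975 (cons (fin 911 7 911)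
(fin 1232 7 975)))))))
(cons (mv 913 (cons (fin 849 6 848)
(mv 1105 (cons (fin 1169 4 912)
(mv 1106 (cons (fin 1107 3 1039)
(mv 1042 (cons (fin 1043 2 1039)
(mv 1170 (cons (fin 1171 0 1103)
(mv 978 (cons (fin 977 7 913)
(mv 915 (cons (fin 979 6 914)
(mv 914 (cons (fin 975 1 911)
(fin 851 6 850)))))))))))))))))
(mv 913 (cons (fin 849 6 848)
(mv 977 (cons (fin 1168 6 912)
(mv 978 (cons (fin 979 1 975)
(mv 910 (cons (fin 911 0 910)
(mv 1105 (cons (fin 1169 4 912)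
(mv 1106 (cons (fin 1107 3 1039)
(mv 1042 (cons (fin 1043 2 1039)
(fin 1170 7 913))))))))))))))))))))))
(cons (mv 1167 (cons (fin 1231 6 975)
(mv 975 (cons (cons (mv 910 (cons (fin 974 7 910)
(mv 911 (cons (fin 846 7 846)
(mv 1166 (cons (fin 1102 5 910)
(fin 1230 5 974)))))))
(mv 1166 (cons (fin 1230 5 974)
(mv 911 (cons (fin 1102 5 910)
(mv 1168 (cons (fin 1104 7 911)
(fin 1232 4 975))))))))
(cons (mv 910 (cons (fin 974 7 910)
(mv 911 (cons (fin 846 7 846)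
(mv 1168 (cons (fin 1104 7 911)
(fin 1232 4 975)))))))
(mv 974 (cons (fin 910 7 910)
(mv 973 (cons (fin 1036 1 972)
(fin 972 0 972))))))))))
(cons (mv 912 (cons (fin 848 5 847)
(mv 1167 (cons (fin 975 6 911)
(fin 1231 6 975)))))
(mv 912 (cons (fin 848 5 847)
(mv 1167 (cons (fin 1104 5 911)
(fin 1231 6 975)))))))))
(mv 1038 (cons (cons (mv 972 (cons (fin 973 3 972)
(mv 1036 (cons (fin 971 3 971)
(fin 975 2 972)))))
(mv 972 (cons (fin 973 3 972)
(mv 1104 (cons (fin 1105 0 1037)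
(mv 1168 (cons (mv 975 (cons (fin 911 7 911)
(fin 1232 7 975)))
(mv 1167 (cons (fin 1231 5 975)
(mv 1103 (cons (fin 912 5 911)
(mv 1169 (cons (fin 1233 4 976)
(mv 1102 (cons (fin 1170 3 1102)
(fin 1101 0 1101))))))))))))))))
(cons (mv 975 (cons (fin 1036 2 972)
(mv 1104 (cons (fin 1105 0 1037)
(mv 1168 (cons (fin 911 7 911)
(fin 1232 7 975)))))))
(mv 972 (cons (fin 973 3 972)
(mv 1036 (cons (fin 971 3 971)
(mv 1104 (cons (fin 1103 0 1036)
(fin 1105 0 1037))))))))))))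
(cons (mv 1038 (cons (fin 977 2 973)
(mv 972 (cons (fin 973 3 972)
(mv 1036 (cons (fin 971 3 971)
(mv 1104 (cons (fin 1103 0 1036)
(fin 1105 0 1037)))))))))
(cons (mv 1038 (cons (fin 977 2 973)
(mv 972 (cons (fin 973 3 972)
(mv 1104 (cons (fin 1105 0 1037)
(mv 1168 (cons (mv 975 (cons (fin 911 7 911)
(fin 1232 7 975)))
(mv 1167 (cons (fin 1231 5 975)
(mv 1103 (cons (fin 912 5 911)
(mv 1169 (cons (fin 1233 4 976)
(mv 1102 (cons (fin 1170 3 1102)
(fin 1101 0 1101)))))))))))))))))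
(mv 1038 (cons (fin 977 2 973)
(mv 975 (cons (fin 1036 2 972)
(mv 1104 (cons (fin 1105 0 1037)
(mv 1168 (cons (fin 911 7 911)
(fin 1232 7 975))))))))))))))
(cons (mv 1039 (cons (cons (mv 1038 (cons (fin 977 2 973)
(mv 972 (cons (fin 973 3 972)
(mv 1036 (cons (fin 971 3 971)
(fin 975 2 972)))))))
(mv 912 (cons (cons (mv 848 (cons (fin 1103 5 847)
(mv 783 (cons (fin 847 7 783)
(mv 784 (cons (fin 719 7 719)
(fin 975 5 783)))))))
(mv 1104 (cons (cons (mv 847 (cons (fin 911 7 847)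
(mv 849 (cons (fin 913 6 848)
(mv 1169 (cons (fin 1105 4 912)
(mv 1168 (cons (fin 1233 4 976)
(mv 1232 (cons (fin 975 7 975)
(mv 1295 (cons (fin 1231 5 1039)
(mv 1296 (cons (fin 1103 7 1039)
(fin 1359 5 1103)))))))))))))))
(cons (mv 849 (cons (fin 913 6 848)
(mv 1169 (cons (fin 1105 4 912)
(mv 1168 (cons (fin 1233 4 976)
(mv 1232 (cons (fin 975 7 975)
(mv 1295 (cons (fin 1231 5 1039)
(mv 1296 (cons (fin 1103 7 1039)
(fin 1359 5 1103)))))))))))))
(mv 847 (cons (fin 911 7 847)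
(mv 1169 (cons (fin 1105 4 912)
(mv 1168 (cons (fin 1233 4 976)
(mv 1232 (cons (fin 975 7 975)
(mv 1295 (cons (fin 1231 5 1039)
(mv 1296 (cons (fin 1103 7 1039)
(fin 1359 5 1103)))))))))))))))
(cons (cons (mv 847 (cons (fin 911 7 847)
(mv 913 (cons (fin 849 6 848)
(mv 1168 (cons (fin 977 6 912)
(mv 1169 (cons (fin 1233 4 976)
(mv 1232 (cons (fin 975 7 975)
(mv 1295 (cons (fin 1231 5 1039)
(mv 1296 (cons (fin 1103 7 1039)
(fin 1359 5 1103)))))))))))))))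
(mv 847 (cons (fin 911 7 847)
(mv 913 (cons (fin 849 6 848)
(mv 1168 (cons (fin 977 6 912)
(mv 1232 (cons (fin 975 7 975)
(mv 1231 (cons (fin 1295 5 1039)
(mv 1296 (cons (fin 1103 7 1039)
(mv 1297 (cons (fin 1233 4 1040)
(fin 1361 4 1104))))))))))))))))
(cons (mv 911 (cons (fin 847 7 847)
(mv 913 (cons (fin 849 6 848)
(mv 1105 (cons (fin 1169 4 912)
(mv 1106 (cons (fin 1107 3 1039)
(mv 910 (cons (cons (mv 977 (cons (fin 909 0 909)
(fin 978 0 910)))
(mv 845 (cons (fin 846 3 845)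
(mv 844 (cons (fin 909 3 844)
(mv 974 (cons (fin 973 1 909)
(mv 914 (cons (fin 975 1 910)
(mv 851 (cons (fin 850 2 847)
(mv 915 (cons (fin 852 2 848)
(mv 978 (cons (fin 979 0 911)
(fin 1042 6 850))))))))))))))))
(cons (mv 845 (cons (fin 846 3 845)
(mv 909 (cons (fin 844 3 844)
(fin 977 0 909)))))
(mv 845 (cons (fin 846 3 845)
(mv 973 (cons (fin 974 1 909)
(mv 978 (cons (fin 977 0 910)
(mv 914 (cons (fin 979 0 911)
(mv 851 (cons (fin 850 2 847)
(mv 915 (cons (fin 975 1 911)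
(fin 852 2 848))))))))))))))))))))))))
(mv 847 (cons (fin 911 7 847)
(mv 913 (cons (fin 849 6 848)
(mv 1168 (cons (fin 977 6 912)
(mv 1169 (cons (fin 1105 4 912)
(fin 1233 4 976))))))))))))))
(cons (mv 1104 (cons (cons (mv 847 (cons (fin 911 7 847)
(mv 783 (cons (fin 848 7 783)
(mv 913 (cons (fin 849 6 848)
(mv 977 (cons (fin 1168 6 912)
(mv 978 (cons (fin 979 1 975)
(mv 1105 (cons (fin 1169 4 912)
(mv 1106 (cons (fin 1107 3 1039)
(mv 1042 (cons (fin 1170 7 913)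
(mv 975 (cons (fin 1043 0 975)
(mv 914 (cons (fin 915 1 911)
(fin 974 2 910)))))))))))))))))))))
(cons (mv 849 (cons (fin 913 6 848)
(mv 848 (cons (fin 785 6 784)
(mv 783 (cons (fin 847 7 783)
(mv 784 (cons (fin 719 7 719)
(fin 975 5 783)))))))))
(mv 849 (cons (fin 913 6 848)
(mv 785 (cons (fin 848 6 784)
(mv 1169 (cons (fin 1105 4 912)
(mv 1168 (cons (fin 1233 4 976)
(mv 975 (cons (fin 911 7 911)
(fin 1232 7 975)))))))))))))
(cons (cons (mv 847 (cons (fin 911 7 847)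
(mv 848 (cons (fin 783 7 783)
(mv 784 (cons (fin 975 5 783)
(mv 785 (cons (fin 721 6 720)
(fin 849 6 784)))))))))
(mv 847 (cons (fin 911 7 847)
(mv 848 (cons (fin 783 7 783)
(mv 975 (cons (fin 784 5 783)
(mv 1168 (cons (fin 1232 7 975)
(mv 1169 (cons (fin 1105 4 912)
(fin 1233 4 976))))))))))))
(cons (mv 847 (cons (fin 911 7 847)
(mv 783 (cons (fin 848 7 783)
(mv 913 (cons (fin 849 6 848)
(mv 1168 (cons (fin 977 6 912)
(mv 1169 (cons (fin 1105 4 912)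
(fin 1233 4 976)))))))))))
(mv 847 (cons (fin 911 7 847)
(mv 913 (cons (fin 849 6 848)
(mv 977 (cons (fin 1168 6 912)
(mv 978 (cons (fin 979 1 975)
(mv 1105 (cons (fin 1169 4 912)
(mv 1106 (cons (fin 1107 3 1039)
(mv 1042 (cons (fin 1170 7 913)
(mv 975 (cons (fin 1043 0 975)
(mv 914 (cons (fin 915 1 911)
(fin 974 2 910)))))))))))))))))))))))
(cons (mv 848 (cons (fin 1103 5 847)
(mv 784 (cons (fin 975 5 783)
(mv 785 (cons (fin 721 6 720)
(fin 849 6 784)))))))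
(mv 848 (cons (fin 1103 5 847)
(mv 783 (cons (fin 847 7 783)
(mv 784 (cons (fin 719 7 719)
(mv 785 (cons (fin 721 6 720)
(fin 849 6 784))))))))))))))
(cons (mv 1038 (cons (cons (mv 972 (cons (fin 973 3 972)
(mv 1036 (cons (fin 971 3 971)
(fin 975 2 972)))))
(mv 972 (cons (fin 973 3 972)
(mv 1104 (cons (fin 1105 0 1037)
(mv 1168 (cons (mv 975 (cons (fin 911 7 911)
(fin 1232 7 975)))
(cons (mv 1233 (cons (fin 1169 4 976)
(mv 1232 (cons (fin 1297 4 1040)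
(mv 1295 (cons (fin 1231 5 1039)
(mv 1296 (cons (fin 1103 7 1039)
(fin 1359 5 1103)))))))))
(mv 911 (cons (fin 975 7 911)
(mv 912 (cons (fin 847 7 847)
(mv 848 (cons (fin 1103 5 847)
(mv 849 (cons (fin 785 6 784)
(fin 913 6 848)))))))))))))))))
(cons (mv 975 (cons (fin 1036 2 972)
(mv 1104 (cons (fin 1105 0 1037)
(mv 911 (cons (fin 1168 7 911)
(fin 847 4 847)))))))
(mv 972 (cons (fin 973 3 972)
(mv 1036 (cons (fin 971 3 971)
(mv 1104 (cons (fin 1103 0 1036)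
(fin 1105 0 1037))))))))))
(cons (mv 1038 (cons (fin 977 2 973)
(mv 972 (cons (fin 973 3 972)
(mv 1036 (cons (fin 971 3 971)
(mv 1104 (cons (fin 1103 0 1036)
(fin 1105 0 1037)))))))))
(mv 1038 (cons (fin 977 2 973)
(mv 975 (cons (fin 1036 2 972)
(mv 1104 (cons (fin 1105 0 1037)
(mv 911 (cons (fin 1168 7 911)
(fin 847 4 847)))))))))))))
(mv 1039 (cons (cons (mv 1038 (cons (fin 977 2 973)
(mv 972 (cons (fin 973 3 972)
(mv 1036 (cons (fin 971 3 971)
(fin 975 2 972)))))))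
(mv 912 (cons (cons (mv 848 (cons (fin 1103 5 847)
(mv 783 (cons (fin 847 7 783)
(mv 784 (cons (fin 719 7 719)
(fin 975 5 783)))))))
(mv 1104 (cons (cons (mv 847 (cons (fin 911 7 847)
(mv 849 (cons (fin 913 6 848)
(mv 1103 (cons (fin 1167 5 911)
(mv 1169 (cons (fin 1105 4 912)
(mv 1168 (cons (fin 1233 4 976)
(mv 1232 (cons (fin 975 7 975)
(fin 1296 7 1039)))))))))))))
(cons (mv 849 (cons (fin 913 6 848)
(mv 1103 (cons (fin 1167 5 911)
(mv 1169 (cons (fin 1105 4 912)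
(mv 1168 (cons (fin 1233 4 976)
(mv 1232 (cons (fin 975 7 975)
(fin 1296 7 1039)))))))))))
(mv 847 (cons (fin 911 7 847)
(mv 1103 (cons (fin 1167 5 911)
(mv 1169 (cons (fin 1105 4 912)
(mv 1168 (cons (fin 1233 4 976)
(mv 1232 (cons (fin 975 7 975)
(fin 1296 7 1039)))))))))))))
(cons (cons (mv 847 (cons (fin 911 7 847)
(mv 913 (cons (fin 849 6 848)
(mv 977 (cons (fin 1168 6 912)
(mv 978 (cons (fin 979 1 975)
(mv 1105 (cons (fin 1169 4 912)
(mv 1106 (cons (fin 1107 3 1039)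
(mv 1042 (cons (fin 1170 7 913)
(mv 975 (cons (fin 1043 0 975)
(mv 914 (cons (fin 915 1 911)
(fin 974 2 910)))))))))))))))))))
(mv 847 (cons (fin 911 7 847)
(mv 913 (cons (fin 849 6 848)
(mv 1103 (cons (fin 1167 5 911)
(mv 1168 (cons (fin 977 6 912)
(mv 1232 (cons (fin 975 7 975)
(fin 1296 7 1039))))))))))))
(cons (mv 847 (cons (fin 911 7 847)
(mv 913 (cons (fin 849 6 848)
(mv 977 (cons (fin 1168 6 912)
(mv 978 (cons (fin 979 1 975)
(mv 1103 (cons (fin 1167 5 911)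
(mv 1105 (cons (fin 1169 4 912)
(mv 1106 (cons (fin 1107 3 1039)
(mv 1042 (cons (fin 1043 2 1039)
(fin 1170 7 913)))))))))))))))))
(mv 847 (cons (fin 911 7 847)
(mv 913 (cons (fin 849 6 848)
(mv 1103 (cons (fin 1167 5 911)
(mv 1105 (cons (fin 1169 4 912)
(mv 1106 (cons (fin 1107 3 1039)
(mv 1042 (cons (fin 1043 2 1039)
(mv 1170 (cons (fin 1171 0 1103)
(mv 978 (cons (fin 977 7 913)
(mv 915 (cons (fin 979 6 914)
(mv 914 (cons (fin 975 1 911)
(fin 851 6 850))))))))))))))))))))))))))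
(cons (mv 1104 (cons (cons (mv 847 (cons (fin 911 7 847)
(mv 783 (cons (fin 848 7 783)
(mv 913 (cons (fin 849 6 848)
(mv 977 (cons (fin 1168 6 912)
(mv 978 (cons (fin 979 1 975)
(mv 1105 (cons (fin 1169 4 912)
(mv 1106 (cons (fin 1107 3 1039)
(mv 1042 (cons (fin 1170 7 913)
(mv 975 (cons (fin 1043 0 975)
(mv 914 (cons (fin 915 1 911)
(fin 974 2 910)))))))))))))))))))))
(cons (mv 849 (cons (fin 913 6 848)
(mv 848 (cons (fin 785 6 784)
(mv 783 (cons (fin 847 7 783)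
(mv 784 (cons (fin 719 7 719)
(fin 975 5 783)))))))))
(mv 849 (cons (fin 913 6 848)
(mv 785 (cons (fin 848 6 784)
(mv 1169 (cons (fin 1105 4 912)
(mv 1168 (cons (fin 1233 4 976)
(mv 975 (cons (fin 911 7 911)
(fin 1232 7 975)))))))))))))
(cons (cons (mv 847 (cons (fin 911 7 847)
(mv 848 (cons (fin 783 7 783)
(mv 784 (cons (fin 975 5 783)
(mv 785 (cons (fin 721 6 720)
(fin 849 6 784)))))))))
(mv 847 (cons (fin 911 7 847)
(mv 848 (cons (fin 783 7 783)
(mv 975 (cons (fin 784 5 783)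
(mv 1168 (cons (fin 1232 7 975)
(mv 1169 (cons (fin 1105 4 912)
(fin 1233 4 976))))))))))))
(cons (mv 847 (cons (fin 911 7 847)
(mv 783 (cons (fin 848 7 783)
(mv 913 (cons (fin 849 6 848)
(mv 1168 (cons (fin 977 6 912)
(mv 1169 (cons (fin 1105 4 912)
(fin 1233 4 976)))))))))))
(mv 847 (cons (fin 911 7 847)
(mv 913 (cons (fin 849 6 848)
(mv 977 (cons (fin 1168 6 912)
(mv 978 (cons (fin 979 1 975)
(mv 1105 (cons (fin 1169 4 912)
(mv 1106 (cons (fin 1107 3 1039)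
(mv 1042 (cons (fin 1170 7 913)
(mv 975 (cons (fin 1043 0 975)
(mv 914 (cons (fin 915 1 911)
(fin 974 2 910)))))))))))))))))))))))
(cons (mv 848 (cons (fin 1103 5 847)
(mv 783 (cons (fin 847 7 783)
(mv 784 (cons (fin 719 7 719)
(mv 785 (cons (fin 721 6 720)
(fin 849 6 784)))))))))
(mv 848 (cons (fin 1103 5 847)
(mv 784 (cons (fin 975 5 783)
(mv 785 (cons (fin 721 6 720)
(fin 849 6 784))))))))))))
(cons (mv 1038 (cons (cons (mv 972 (cons (fin 973 3 972)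
(mv 1036 (cons (fin 971 3 971)
(fin 975 2 972)))))
(mv 972 (cons (fin 973 3 972)
(mv 1104 (cons (fin 1105 0 1037)
(mv 912 (cons (mv 1103 (cons (fin 848 5 847)
(fin 1167 5 911)))
(cons (mv 847 (cons (fin 911 7 847)
(mv 848 (cons (fin 783 7 783)
(mv 849 (cons (fin 785 6 784)
(fin 913 6 848)))))))
(mv 849 (cons (fin 913 6 848)
(mv 911 (cons (fin 847 7 847)
(mv 975 (cons (fin 1168 7 911)
(mv 1103 (cons (fin 1167 5 911)
(mv 910 (cons (fin 846 7 846)
(mv 909 (cons (fin 908 0 908)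
(mv 845 (cons (fin 844 3 844)
(mv 1102 (cons (fin 974 7 845)
(fin 1166 5 910)))))))))))))))))))))))))
(cons (mv 975 (cons (fin 1036 2 972)
(mv 1104 (cons (fin 1105 0 1037)
(mv 911 (cons (fin 1168 7 911)
(fin 847 4 847)))))))
(mv 972 (cons (fin 973 3 972)
(mv 1036 (cons (fin 971 3 971)
(mv 1104 (cons (fin 1103 0 1036)
(fin 1105 0 1037))))))))))
(mv 1038 (cons (fin 977 2 973)
(mv 972 (cons (fin 973 3 972)
(mv 1036 (cons (fin 971 3 971)
(mv 1104 (cons (fin 1103 0 1036)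
(fin 1105 0 1037)))))))))))))))))
def l126 : Lem := ⟨13254031944712882724506621310649321556018620670345837899455453023597314721787975009848330616026462815765143756135158089473467252075149308743152655366187148242124071246428482498451210046760672027239036899891323305324899173507745103325308665813954110541579506451753178596634830548552232523722901151470534797188661248, 66057694284372760549098747563996079260352219591005841464368907706607537819870994916896239112418371872529839690113202075684548912762108521579151473514810928362050151285264103775925797558777210627165612838728674253505799158311896150893963522521867609080641380241321409128580864380298761956802305310474779006813517602293844698584529774954567654930481740376014185399912385119048703282073366181526144730763515396096, 66057694284372760549098747563996079260352219591005841464368907706607537819870994916896239112418371872529839690113202075684548912762108521579151473514810928362050151285264103775925797558777210627165612838728674253505799158311896150893963522521867609080641380241321409128580864380298761956802305310474779006813517602293844698584529774954567654930481740376014185399912385119048703282073366181526144730763515396096,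 19, 33⟩
theorem l126_valid : l126.Valid :=
  Lem.valid_of_chk t126 t126_valid [1037, 1040] c126 l126 (by decide +kernel)
end Crest.Agent.SnakyAux
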