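import Crest.Agent.S0047_aux.Checker

set_option autoImplicit false
set_option maxRecDepth 100000
namespace Crest.Agent.SnakyAux
open Cert
def t89 : Tbl := Tbl.nil
theorem t89_valid : t89.Valid := Tbl.valid_nil
def c89 : Cert :=
(mv 908 (cons (cons (cons (cons (mv 972 (cons (cons (mv 844 (cons (fin 1101 4 844)
(mv 779 (cons (fin 843 7 779)
(mv 780 (cons (fin 715 7 715)
(fin 973 4 780)))))))
(mv 1100 (cons (cons (mv 843 (cons (fin 907 7 843)
(mv 845 (cons (fin 909 6 844)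
(mv 1099 (cons (fin 1163 5 907)
(mv 1098 (cons (fin 1097 2 1033)
(mv 1101 (cons (fin 1038 2 1034)
(fin 1165 4 908)))))))))))
(cons (mv 843 (cons (fin 907 7 843)
(mv 845 (cons (fin 909 6 844)
(mv 1163 (cons (fin 1099 5 907)
(mv 1164 (cons (fin 1227 5 971)
(mv 1228 (cons (fin 973 6 972)
(mv 1292 (cons (fin 1101 6 1036)
(mv 1293 (cons (fin 1229 4 1036)
(fin 1357 4 1100)))))))))))))))
(mv 843 (cons (fin 907 7 843)
(mv 845 (cons (fin 909 6 844)
(mv 1163 (cons (fin 1099 5 907)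
(mv 1164 (cons (fin 1227 5 971)
(mv 1228 (cons (fin 973 6 972)
(mv 1229 (cons (fin 1165 4 972)
(fin 1293 4 1036)))))))))))))))
(cons (cons (mv 843 (cons (fin 907 7 843)
(mv 1099 (cons (fin 1163 5 907)
(mv 1098 (cons (fin 1097 2 1033)
(mv 1101 (cons (fin 1038 2 1034)
(fin 1165 4 908)))))))))
(mv 845 (cons (fin 909 6 844)
(mv 1099 (cons (fin 1163 5 907)
(mv 1098 (cons (fin 1097 2 1033)
(mv 1101 (cons (fin 1038 2 1034)
(fin 1165 4 908))))))))))
(cons (mv 843 (cons (fin 907 7 843)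
(mv 845 (cons (fin 909 6 844)
(mv 1165 (cons (fin 1101 4 908)
(mv 1164 (cons (fin 1229 4 972)
(mv 1227 (cons (fin 1163 5 971)
(mv 1228 (cons (fin 1291 5 1035)
(fin 973 6 972)))))))))))))
(mv 843 (cons (fin 907 7 843)
(mv 909 (cons (fin 845 6 844)
(mv 973 (cons (fin 1164 6 908)
(mv 1101 (cons (fin 1165 7 908)
(mv 910 (cons (fin 846 6 845)
(mv 911 (cons (fin 971 1 907)
(fin 912 1 908))))))))))))))))))
(cons (mv 1100 (cons (cons (mv 843 (cons (fin 907 7 843)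
(mv 779 (cons (fin 844 7 779)
(mv 845 (cons (fin 909 6 844)
(mv 1163 (cons (fin 1099 5 907)
(mv 1164 (cons (fin 1227 5 971)
(mv 1228 (cons (fin 973 6 972)
(mv 1229 (cons (fin 1165 4 972)
(fin 1293 4 1036)))))))))))))))
(cons (mv 843 (cons (fin 907 7 843)
(mv 779 (cons (fin 844 7 779)
(mv 1163 (cons (fin 1099 5 907)
(mv 1164 (cons (fin 1227 5 971)
(mv 1228 (cons (fin 973 6 972)
(mv 1229 (cons (fin 1165 4 972)
(fin 1293 4 1036)))))))))))))
(mv 845 (cons (fin 909 6 844)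
(mv 781 (cons (fin 844 6 780)
(mv 1163 (cons (fin 1099 5 907)
(mv 1164 (cons (fin 1227 5 971)
(mv 1228 (cons (fin 973 6 972)
(mv 1229 (cons (fin 1165 4 972)
(fin 1293 4 1036)))))))))))))))
(cons (mv 843 (cons (fin 907 7 843)
(mv 779 (cons (fin 844 7 779)
(mv 909 (cons (fin 845 6 844)
(mv 1164 (cons (fin 973 6 908)
(mv 1227 (cons (fin 1163 5 971)
(mv 1228 (cons (fin 1291 5 1035)
(mv 1229 (cons (fin 1165 4 972)
(fin 1293 4 1036)))))))))))))))
(cons (mv 843 (cons (fin 907 7 843)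
(mv 844 (cons (fin 779 7 779)
(mv 845 (cons (fin 781 6 780)
(fin 909 6 844)))))))
(mv 843 (cons (fin 907 7 843)
(mv 845 (cons (fin 909 6 844)
(mv 1163 (cons (fin 1099 5 907)
(mv 1164 (cons (fin 1227 5 971)
(mv 1228 (cons (fin 973 6 972)
(mv 1229 (cons (fin 1165 4 972)
(fin 1293 4 1036)))))))))))))))))
(cons (mv 844 (cons (fin 1101 4 844)
(mv 779 (cons (fin 843 7 779)
(mv 780 (cons (fin 715 7 715)
(mv 781 (cons (fin 717 6 716)
(fin 845 6 780)))))))))
(mv 844 (cons (fin 1101 4 844)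
(mv 780 (cons (fin 973 4 780)
(mv 781 (cons (fin 717 6 716)
(fin 845 6 780)))))))))))
(mv 909 (cons (cons (cons (mv 973 (cons (cons (mv 844 (cons (fin 1101 7 844)
(mv 780 (cons (fin 845 7 780)
(fin 716 4 716)))))
(mv 1101 (cons (fin 844 7 844)
(mv 846 (cons (fin 910 6 845)
(mv 1164 (cons (fin 1100 5 908)
(mv 1165 (cons (fin 1228 5 972)
(mv 1166 (cons (fin 1102 4 909)
(fin 1230 4 973))))))))))))
(cons (mv 845 (cons (fin 1100 5 844)
(mv 780 (cons (fin 844 7 780)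
(mv 716 (cons (fin 781 7 716)
(mv 846 (cons (fin 782 6 781)
(mv 847 (cons (fin 848 1 844)
(mv 907 (cons (fin 906 2 842)
(fin 910 2 843)))))))))))))
(mv 845 (cons (fin 1100 5 844)
(mv 782 (cons (fin 846 6 781)
(mv 781 (cons (fin 718 6 717)
(mv 1038 (cons (fin 974 4 781)
(fin 1102 4 845))))))))))))
(mv 910 (cons (cons (mv 907 (cons (cons (mv 842 (cons (fin 843 3 842)
(mv 841 (cons (fin 906 3 841)
(mv 846 (cons (fin 847 2 843)
(mv 970 (cons (fin 971 1 906)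
(mv 974 (cons (fin 975 0 907)
(mv 1038 (cons (fin 1101 5 845)
(mv 845 (cons (fin 781 7 781)
(fin 1102 7 845)))))))))))))))
(mv 842 (cons (fin 843 3 842)
(mv 906 (cons (fin 841 3 841)
(mv 970 (cons (fin 969 1 905)
(fin 971 1 906))))))))
(cons (mv 846 (cons (fin 847 2 843)
(mv 845 (cons (fin 906 2 842)
(mv 970 (cons (fin 971 1 906)
(mv 974 (cons (fin 975 0 907)
(mv 781 (cons (fin 1038 7 781)
(fin 717 4 717)))))))))))
(cons (mv 842 (cons (fin 843 3 842)
(mv 841 (cons (fin 906 3 841)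
(mv 846 (cons (fin 847 2 843)
(mv 974 (cons (fin 975 0 907)
(mv 1038 (cons (fin 1101 5 845)
(mv 845 (cons (fin 781 7 781)
(fin 1102 7 845)))))))))))))
(mv 842 (cons (fin 843 3 842)
(mv 846 (cons (fin 847 2 843)
(mv 970 (cons (fin 971 1 906)
(mv 974 (cons (fin 975 0 907)
(mv 1038 (cons (fin 1101 5 845)
(mv 845 (cons (fin 781 7 781)
(fin 1102 7 845)))))))))))))))))
(cons (mv 911 (cons (cons (mv 843 (cons (fin 844 3 843)
(mv 847 (cons (fin 848 2 844)
(mv 976 (cons (fin 975 0 908)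
(mv 912 (cons (fin 977 0 909)
(fin 1104 7 847)))))))))
(cons (mv 844 (cons (fin 843 3 843)
(mv 848 (cons (fin 847 2 844)
(mv 912 (cons (fin 845 3 844)
(fin 849 2 845)))))))
(mv 847 (cons (fin 848 2 844)
(mv 976 (cons (fin 975 0 908)
(mv 912 (cons (fin 977 0 909)
(fin 1104 7 847)))))))))
(cons (mv 843 (cons (fin 844 3 843)
(mv 976 (cons (fin 975 0 908)
(mv 912 (cons (fin 977 0 909)
(mv 1104 (cons (fin 847 7 847)
(mv 849 (cons (fin 913 6 848)
(mv 1103 (cons (fin 1167 5 911)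
(mv 1102 (cons (fin 1101 3 1036)
(mv 1105 (cons (fin 1038 3 1037)
(fin 1169 4 912)))))))))))))))))
(cons (mv 843 (cons (fin 844 3 843)
(mv 976 (cons (fin 975 0 908)
(mv 912 (cons (fin 977 0 909)
(mv 849 (cons (fin 848 2 845)
(mv 913 (cons (fin 850 2 846)
(fin 1104 6 848)))))))))))
(mv 844 (cons (fin 843 3 843)
(mv 847 (cons (fin 848 2 844)
(mv 975 (cons (fin 976 0 908)
(mv 783 (cons (mv 974 (cons (fin 719 5 718)
(fin 1038 5 782)))
(cons (mv 718 (cons (fin 782 7 718)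
(mv 719 (cons (fin 654 7 654)
(mv 720 (cons (fin 656 6 655)
(fin 784 6 719)))))))
(mv 782 (cons (fin 718 7 718)
(mv 784 (cons (fin 720 6 719)
(mv 845 (cons (fin 781 1 780)
(fin 846 2 780))))))))))))))))))))
(mv 907 (cons (cons (mv 842 (cons (fin 843 3 842)
(mv 906 (cons (fin 841 3 841)
(mv 970 (cons (fin 969 1 905)
(fin 971 1 906)))))))
(mv 970 (cons (fin 971 1 906)
(mv 906 (cons (fin 969 1 905)
(mv 841 (cons (fin 842 3 841)
(mv 845 (cons (fin 846 2 842)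
(mv 905 (cons (fin 840 3 840)
(fin 844 2 841))))))))))))
(cons (mv 970 (cons (fin 971 1 906)
(mv 906 (cons (fin 969 1 905)
(mv 845 (cons (fin 846 2 842)
(mv 844 (cons (fin 905 2 841)
(mv 911 (cons (fin 843 3 843)
(fin 912 3 844)))))))))))
(cons (mv 842 (cons (fin 843 3 842)
(mv 906 (cons (fin 841 3 841)
(mv 845 (cons (fin 846 2 842)
(mv 844 (cons (fin 905 2 841)
(mv 911 (cons (fin 912 3 844)
(mv 975 (cons (fin 974 0 907)
(fin 976 0 908)))))))))))))
(mv 843 (cons (fin 842 3 842)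
(mv 911 (cons (fin 844 3 843)
(mv 975 (cons (fin 974 0 907)
(fin 976 0 908)))))))))))))
(cons (cons (mv 911 (cons (cons (mv 847 (cons (fin 848 2 844)
(mv 846 (cons (fin 907 2 843)
(mv 976 (cons (fin 975 0 908)
(mv 912 (cons (fin 977 0 909)
(fin 1104 7 847)))))))))
(cons (mv 975 (cons (fin 976 0 908)
(mv 907 (cons (fin 974 0 907)
(mv 970 (cons (fin 971 1 906)
(mv 906 (cons (fin 969 1 905)
(mv 841 (cons (fin 842 3 841)
(mv 845 (cons (fin 846 2 842)
(mv 844 (cons (fin 912 3 844)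
(fin 905 2 841)))))))))))))))
(mv 848 (cons (fin 847 2 844)
(mv 912 (cons (fin 849 2 845)
(mv 845 (cons (fin 844 3 844)
(mv 846 (cons (fin 913 3 845)
(mv 907 (cons (fin 906 2 842)
(mv 970 (cons (fin 971 1 906)
(mv 974 (cons (fin 975 0 907)
(mv 781 (cons (fin 1038 7 781)
(fin 717 4 717)))))))))))))))))))
(cons (mv 848 (cons (fin 847 2 844)
(mv 912 (cons (fin 849 2 845)
(mv 845 (cons (fin 844 3 844)
(mv 913 (cons (fin 846 3 845)
(mv 977 (cons (fin 976 0 909)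
(fin 978 0 910)))))))))))
(cons (mv 847 (cons (fin 848 2 844)
(mv 907 (cons (fin 846 2 843)
(mv 975 (cons (fin 974 0 907)
(fin 976 0 908)))))))
(mv 847 (cons (fin 848 2 844)
(mv 975 (cons (fin 976 0 908)
(mv 974 (cons (fin 907 0 907)
(mv 783 (cons (fin 719 5 718)
(fin 1038 5 782)))))))))))))
(mv 907 (cons (cons (mv 842 (cons (fin 843 3 842)
(mv 846 (cons (fin 847 2 843)
(mv 906 (cons (fin 841 3 841)
(fin 845 2 842)))))))
(mv 842 (cons (fin 843 3 842)
(mv 906 (cons (fin 841 3 841)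
(mv 970 (cons (fin 969 1 905)
(fin 971 1 906))))))))
(cons (mv 846 (cons (fin 847 2 843)
(mv 906 (cons (fin 845 2 842)
(mv 970 (cons (fin 969 1 905)
(fin 971 1 906)))))))
(mv 843 (cons (fin 842 3 842)
(mv 847 (cons (fin 846 2 843)
(mv 911 (cons (fin 844 3 843)
(fin 848 2 844)))))))))))
(cons (mv 911 (cons (cons (mv 843 (cons (fin 844 3 843)
(mv 842 (cons (fin 907 3 842)
(mv 847 (cons (fin 848 2 844)
(mv 976 (cons (fin 975 0 908)
(mv 912 (cons (fin 977 0 909)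
(fin 1104 7 847)))))))))))
(cons (mv 844 (cons (fin 843 3 843)
(mv 848 (cons (fin 847 2 844)
(mv 912 (cons (fin 845 3 844)
(fin 849 2 845)))))))
(mv 847 (cons (fin 848 2 844)
(mv 975 (cons (fin 976 0 908)
(mv 907 (cons (fin 974 0 907)
(mv 842 (cons (fin 843 3 842)
(mv 906 (cons (fin 841 3 841)
(mv 970 (cons (fin 969 1 905)
(fin 971 1 906)))))))))))))))
(cons (mv 847 (cons (fin 848 2 844)
(mv 975 (cons (fin 976 0 908)
(mv 974 (cons (fin 907 0 907)
(mv 783 (cons (fin 719 5 718)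
(fin 1038 5 782)))))))))
(cons (mv 843 (cons (fin 844 3 843)
(mv 842 (cons (fin 907 3 842)
(mv 976 (cons (fin 975 0 908)
(mv 912 (cons (fin 977 0 909)
(mv 1104 (cons (fin 847 7 847)
(mv 849 (cons (fin 913 6 848)
(mv 1103 (cons (fin 1167 5 911)
(mv 1102 (cons (fin 1101 3 1036)
(mv 1105 (cons (fin 1038 3 1037)
(fin 1169 4 912)))))))))))))))))))
(mv 843 (cons (fin 844 3 843)
(mv 842 (cons (fin 907 3 842)
(mv 976 (cons (fin 975 0 908)
(mv 912 (cons (fin 977 0 909)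
(mv 849 (cons (fin 848 2 845)
(mv 913 (cons (fin 850 2 846)
(fin 1104 6 848)))))))))))))))))
(mv 907 (cons (mv 842 (cons (fin 843 3 842)
(mv 841 (cons (fin 906 3 841)
(mv 847 (cons (fin 846 2 843)
(mv 911 (cons (fin 848 2 844)
(mv 975 (cons (fin 974 0 907)
(fin 976 0 908)))))))))))
(cons (mv 847 (cons (fin 846 2 843)
(mv 911 (cons (fin 848 2 844)
(mv 975 (cons (fin 974 0 907)
(fin 976 0 908)))))))
(mv 842 (cons (fin 843 3 842)
(mv 906 (cons (fin 841 3 841)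
(mv 970 (cons (fin 969 1 905)
(fin 971 1 906)))))))))))))))
(cons (mv 973 (cons (cons (mv 1101 (cons (fin 844 7 844)
(mv 846 (cons (fin 910 6 845)
(mv 1164 (cons (fin 1100 5 908)
(mv 1165 (cons (fin 1228 5 972)
(mv 1166 (cons (fin 1102 4 909)
(fin 1230 4 973)))))))))))
(mv 907 (cons (cons (mv 906 (cons (fin 974 0 906)
(mv 841 (cons (fin 842 3 841)
(mv 840 (cons (fin 905 3 840)
(mv 970 (cons (fin 969 1 905)
(mv 910 (cons (fin 971 1 906)
(mv 847 (cons (fin 846 2 843)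
(mv 911 (cons (fin 848 2 844)
(mv 843 (cons (fin 844 3 843)
(mv 715 (cons (fin 779 5 714)
(mv 976 (cons (fin 975 0 908)
(mv 912 (cons (fin 977 0 909)
(fin 1104 7 847)))))))))))))))))))))))
(cons (mv 910 (cons (cons (mv 842 (cons (fin 843 3 842)
(mv 841 (cons (fin 906 3 841)
(mv 847 (cons (fin 846 2 843)
(mv 911 (cons (fin 848 2 844)
(mv 970 (cons (fin 971 1 906)
(mv 976 (cons (fin 975 0 908)
(mv 912 (cons (fin 977 0 909)
(fin 1104 7 847)))))))))))))))
(cons (mv 847 (cons (fin 846 2 843)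
(mv 911 (cons (fin 848 2 844)
(mv 970 (cons (fin 971 1 906)
(mv 906 (cons (fin 969 1 905)
(mv 841 (cons (fin 842 3 841)
(mv 840 (cons (fin 905 3 840)
(mv 976 (cons (fin 975 0 908)
(mv 912 (cons (fin 977 0 909)
(fin 1104 7 847)))))))))))))))))
(mv 847 (cons (fin 846 2 843)
(mv 911 (cons (fin 848 2 844)
(mv 843 (cons (fin 844 3 843)
(mv 970 (cons (fin 971 1 906)
(mv 906 (cons (fin 969 1 905)
(mv 715 (cons (fin 779 5 714)
(mv 976 (cons (fin 975 0 908)
(mv 912 (cons (fin 977 0 909)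
(fin 1104 7 847)))))))))))))))))))
(cons (mv 842 (cons (fin 843 3 842)
(mv 906 (cons (fin 841 3 841)
(mv 970 (cons (fin 969 1 905)
(fin 971 1 906)))))))
(cons (mv 842 (cons (fin 843 3 842)
(mv 841 (cons (fin 906 3 841)
(mv 847 (cons (fin 846 2 843)
(mv 911 (cons (fin 848 2 844)
(mv 976 (cons (fin 975 0 908)
(mv 912 (cons (fin 977 0 909)
(fin 1104 7 847)))))))))))))
(mv 842 (cons (fin 843 3 842)
(mv 847 (cons (fin 846 2 843)
(mv 911 (cons (fin 848 2 844)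
(mv 970 (cons (fin 971 1 906)
(mv 976 (cons (fin 975 0 908)
(mv 912 (cons (fin 977 0 909)
(fin 1104 7 847)))))))))))))))))
(mv 910 (cons (cons (mv 842 (cons (fin 843 3 842)
(mv 846 (cons (fin 847 2 843)
(mv 782 (cons (fin 718 5 717)
(fin 974 5 781)))))))
(mv 842 (cons (fin 843 3 842)
(mv 847 (cons (fin 846 2 843)
(mv 911 (cons (fin 848 2 844)
(mv 970 (cons (fin 971 1 906)
(mv 976 (cons (fin 975 0 908)
(mv 912 (cons (fin 977 0 909)
(fin 1104 7 847))))))))))))))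
(cons (mv 843 (cons (fin 842 3 842)
(mv 911 (cons (fin 844 3 843)
(mv 975 (cons (fin 974 0 907)
(fin 976 0 908)))))))
(mv 846 (cons (fin 847 2 843)
(mv 782 (cons (fin 718 5 717)
(fin 974 5 781))))))))))
(cons (mv 906 (cons (fin 974 0 906)
(mv 841 (cons (fin 842 3 841)
(mv 905 (cons (fin 840 3 840)
(mv 969 (cons (fin 968 1 904)
(fin 970 1 905)))))))))
(cons (mv 906 (cons (fin 974 0 906)
(mv 970 (cons (fin 969 1 905)
(mv 910 (cons (fin 971 1 906)
(mv 847 (cons (fin 846 2 843)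
(mv 911 (cons (fin 848 2 844)
(mv 843 (cons (fin 844 3 843)
(mv 715 (cons (fin 779 5 714)
(mv 976 (cons (fin 975 0 908)
(mv 912 (cons (fin 977 0 909)
(fin 1104 7 847)))))))))))))))))))
(mv 906 (cons (fin 974 0 906)
(mv 842 (cons (fin 841 3 841)
(mv 910 (cons (fin 843 3 842)
(mv 847 (cons (fin 846 2 843)
(mv 911 (cons (fin 848 2 844)
(mv 976 (cons (fin 975 0 908)
(mv 912 (cons (fin 977 0 909)
(fin 1104 7 847))))))))))))))))))))
(cons (mv 1101 (cons (cons (mv 846 (cons (fin 910 6 845)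
(mv 1164 (cons (fin 1100 5 908)
(mv 1165 (cons (fin 1228 5 972)
(mv 1166 (cons (fin 1102 4 909)
(fin 1230 4 973)))))))))
(mv 910 (cons (fin 846 6 845)
(mv 974 (cons (fin 1165 6 909)
(mv 907 (cons (fin 906 0 906)
(fin 975 0 907))))))))
(cons (mv 1164 (cons (fin 1100 5 908)
(mv 1165 (cons (fin 1228 5 972)
(mv 1166 (cons (fin 1102 4 909)
(fin 1230 4 973)))))))
(mv 910 (cons (fin 846 6 845)
(mv 1100 (cons (fin 1164 5 908)
(mv 1102 (cons (fin 1166 4 909)
(mv 1103 (cons (fin 1104 3 1036)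
(mv 1167 (cons (fin 1168 0 1100)
(mv 974 (cons (fin 1038 4 910)
(mv 907 (cons (fin 906 0 906)
(fin 975 0 907))))))))))))))))))
(mv 1101 (cons (fin 844 7 844)
(mv 1164 (cons (fin 1100 5 908)
(mv 1165 (cons (fin 1228 5 972)
(mv 1166 (cons (fin 1102 4 909)
(fin 1230 4 973))))))))))))
(cons (mv 973 (cons (cons (mv 845 (cons (fin 1100 5 844)
(mv 780 (cons (fin 844 7 780)
(mv 716 (cons (fin 781 7 716)
(mv 846 (cons (fin 782 6 781)
(mv 847 (cons (fin 848 1 844)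
(mv 907 (cons (fin 906 2 842)
(fin 910 2 843)))))))))))))
(mv 907 (cons (cons (mv 906 (cons (fin 974 0 906)
(mv 841 (cons (fin 842 3 841)
(mv 840 (cons (fin 905 3 840)
(mv 970 (cons (fin 969 1 905)
(mv 910 (cons (fin 971 1 906)
(mv 847 (cons (fin 846 2 843)
(mv 911 (cons (fin 848 2 844)
(mv 843 (cons (fin 844 3 843)
(mv 715 (cons (fin 779 5 714)
(mv 976 (cons (fin 975 0 908)
(mv 912 (cons (fin 977 0 909)
(fin 1104 7 847)))))))))))))))))))))))
(cons (mv 910 (cons (cons (mv 842 (cons (fin 843 3 842)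
(mv 841 (cons (fin 906 3 841)
(mv 847 (cons (fin 846 2 843)
(mv 911 (cons (fin 848 2 844)
(mv 970 (cons (fin 971 1 906)
(mv 976 (cons (fin 975 0 908)
(mv 912 (cons (fin 977 0 909)
(fin 1104 7 847)))))))))))))))
(cons (mv 847 (cons (fin 846 2 843)
(mv 911 (cons (fin 848 2 844)
(mv 970 (cons (fin 971 1 906)
(mv 906 (cons (fin 969 1 905)
(mv 841 (cons (fin 842 3 841)
(mv 840 (cons (fin 905 3 840)
(mv 976 (cons (fin 975 0 908)
(mv 912 (cons (fin 977 0 909)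
(fin 1104 7 847)))))))))))))))))
(mv 847 (cons (fin 846 2 843)
(mv 911 (cons (fin 848 2 844)
(mv 843 (cons (fin 844 3 843)
(mv 970 (cons (fin 971 1 906)
(mv 906 (cons (fin 969 1 905)
(mv 715 (cons (fin 779 5 714)
(mv 976 (cons (fin 975 0 908)
(mv 912 (cons (fin 977 0 909)
(fin 1104 7 847)))))))))))))))))))
(cons (mv 842 (cons (fin 843 3 842)
(mv 906 (cons (fin 841 3 841)
(mv 970 (cons (fin 969 1 905)
(fin 971 1 906)))))))
(cons (mv 842 (cons (fin 843 3 842)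
(mv 841 (cons (fin 906 3 841)
(mv 847 (cons (fin 846 2 843)
(mv 911 (cons (fin 848 2 844)
(mv 976 (cons (fin 975 0 908)
(mv 912 (cons (fin 977 0 909)
(fin 1104 7 847)))))))))))))
(mv 842 (cons (fin 843 3 842)
(mv 847 (cons (fin 846 2 843)
(mv 911 (cons (fin 848 2 844)
(mv 970 (cons (fin 971 1 906)
(mv 976 (cons (fin 975 0 908)
(mv 912 (cons (fin 977 0 909)
(fin 1104 7 847)))))))))))))))))
(mv 910 (cons (cons (mv 842 (cons (fin 843 3 842)
(mv 846 (cons (fin 847 2 843)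
(mv 782 (cons (fin 718 5 717)
(fin 974 5 781)))))))
(mv 842 (cons (fin 843 3 842)
(mv 847 (cons (fin 846 2 843)
(mv 911 (cons (fin 848 2 844)
(mv 970 (cons (fin 971 1 906)
(mv 976 (cons (fin 975 0 908)
(mv 912 (cons (fin 977 0 909)
(fin 1104 7 847))))))))))))))
(cons (mv 843 (cons (fin 842 3 842)
(mv 911 (cons (fin 844 3 843)
(mv 975 (cons (fin 974 0 907)
(fin 976 0 908)))))))
(mv 846 (cons (fin 847 2 843)
(mv 782 (cons (fin 718 5 717)
(fin 974 5 781))))))))))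
(cons (mv 906 (cons (fin 974 0 906)
(mv 841 (cons (fin 842 3 841)
(mv 905 (cons (fin 840 3 840)
(mv 969 (cons (fin 968 1 904)
(fin 970 1 905)))))))))
(cons (mv 906 (cons (fin 974 0 906)
(mv 970 (cons (fin 969 1 905)
(mv 910 (cons (fin 971 1 906)
(mv 847 (cons (fin 846 2 843)
(mv 911 (cons (fin 848 2 844)
(mv 843 (cons (fin 844 3 843)
(mv 715 (cons (fin 779 5 714)
(mv 976 (cons (fin 975 0 908)
(mv 912 (cons (fin 977 0 909)
(fin 1104 7 847)))))))))))))))))))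
(mv 906 (cons (fin 974 0 906)
(mv 842 (cons (fin 841 3 841)
(mv 910 (cons (fin 843 3 842)
(mv 847 (cons (fin 846 2 843)
(mv 911 (cons (fin 848 2 844)
(mv 976 (cons (fin 975 0 908)
(mv 912 (cons (fin 977 0 909)
(fin 1104 7 847))))))))))))))))))))
(cons (mv 845 (cons (fin 1100 5 844)
(mv 782 (cons (fin 846 6 781)
(mv 781 (cons (fin 718 6 717)
(mv 1038 (cons (fin 974 4 781)
(fin 1102 4 845)))))))))
(mv 845 (cons (fin 1100 5 844)
(mv 780 (cons (fin 844 7 780)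
(mv 781 (cons (fin 716 7 716)
(mv 1038 (cons (fin 974 4 781)
(fin 1102 4 845))))))))))))
(mv 973 (cons (cons (mv 845 (cons (fin 1100 5 844)
(mv 782 (cons (fin 846 6 781)
(mv 781 (cons (fin 718 6 717)
(mv 1038 (cons (fin 974 4 781)
(fin 1102 4 845)))))))))
(mv 1101 (cons (cons (mv 846 (cons (fin 910 6 845)
(mv 1164 (cons (fin 1100 5 908)
(mv 1165 (cons (fin 1228 5 972)
(mv 1166 (cons (fin 1102 4 909)
(fin 1230 4 973)))))))))
(mv 910 (cons (fin 846 6 845)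
(mv 974 (cons (fin 1165 6 909)
(mv 907 (cons (fin 906 0 906)
(fin 975 0 907))))))))
(cons (mv 1164 (cons (fin 1100 5 908)
(mv 1165 (cons (fin 1228 5 972)
(mv 1166 (cons (fin 1102 4 909)
(fin 1230 4 973)))))))
(mv 910 (cons (fin 846 6 845)
(mv 1100 (cons (fin 1164 5 908)
(mv 1102 (cons (fin 1166 4 909)
(mv 1103 (cons (fin 1104 3 1036)
(mv 1167 (cons (fin 1168 0 1100)
(mv 974 (cons (fin 1038 4 910)
(mv 907 (cons (fin 906 0 906)
(fin 975 0 907)))))))))))))))))))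
(cons (mv 845 (cons (cons (mv 782 (cons (fin 846 6 781)
(mv 781 (cons (fin 718 6 717)
(mv 1038 (cons (fin 974 4 781)
(fin 1102 4 845)))))))
(mv 1038 (cons (fin 1102 4 845)
(mv 781 (cons (fin 974 4 781)
(mv 716 (cons (fin 780 7 716)
(mv 717 (cons (fin 652 7 652)
(mv 718 (cons (fin 654 6 653)
(fin 782 6 717))))))))))))
(cons (mv 782 (cons (fin 846 6 781)
(mv 781 (cons (fin 718 6 717)
(mv 716 (cons (fin 780 7 716)
(mv 652 (cons (fin 717 7 652)
(mv 974 (cons (fin 1038 4 781)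
(mv 907 (cons (fin 906 0 906)
(mv 975 (cons (fin 976 3 908)
(fin 910 0 907)))))))))))))))
(cons (mv 846 (cons (fin 782 6 781)
(mv 847 (cons (fin 848 1 844)
(mv 907 (cons (fin 906 2 842)
(fin 910 2 843)))))))
(mv 1038 (cons (fin 1102 4 845)
(mv 974 (cons (fin 781 4 781)
(mv 907 (cons (fin 906 0 906)
(mv 975 (cons (fin 976 3 908)
(fin 910 0 907)))))))))))))
(cons (mv 845 (cons (fin 1100 5 844)
(mv 846 (cons (fin 782 6 781)
(mv 847 (cons (fin 848 1 844)
(mv 907 (cons (fin 906 2 842)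
(fin 910 2 843)))))))))
(mv 845 (cons (fin 1100 5 844)
(mv 1038 (cons (fin 1102 4 845)
(mv 781 (cons (fin 974 4 781)
(mv 716 (cons (fin 780 7 716)
(mv 717 (cons (fin 652 7 652)
(mv 718 (cons (fin 654 6 653)
(fin 782 6 717))))))))))))))))))))
(cons (cons (mv 973 (cons (cons (mv 844 (cons (fin 1101 7 844)
(mv 780 (cons (fin 845 7 780)
(fin 716 4 716)))))
(mv 1101 (cons (fin 844 7 844)
(mv 1164 (cons (fin 1100 5 908)
(mv 1165 (cons (fin 1228 5 972)
(mv 1166 (cons (fin 1102 4 909)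
(fin 1230 4 973))))))))))
(cons (mv 845 (cons (fin 1100 5 844)
(mv 780 (cons (fin 844 7 780)
(mv 781 (cons (fin 716 7 716)
(mv 782 (cons (fin 718 6 717)
(fin 846 6 781)))))))))
(mv 845 (cons (fin 1100 5 844)
(mv 782 (cons (fin 846 6 781)
(mv 781 (cons (fin 718 6 717)
(mv 1038 (cons (fin 974 4 781)
(fin 1102 4 845))))))))))))
(mv 973 (cons (cons (mv 844 (cons (fin 1101 7 844)
(mv 780 (cons (fin 845 7 780)
(fin 716 4 716)))))
(mv 845 (cons (fin 1100 5 844)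
(mv 780 (cons (fin 844 7 780)
(mv 781 (cons (fin 716 7 716)
(mv 1038 (cons (fin 974 4 781)
(fin 1102 4 845))))))))))
(cons (mv 1101 (cons (fin 844 7 844)
(mv 1100 (cons (fin 1164 5 908)
(mv 1166 (cons (fin 1102 4 909)
(mv 1165 (cons (fin 1230 4 973)
(mv 974 (cons (fin 910 6 909)
(mv 1229 (cons (fin 1293 7 1036)
(fin 1038 6 973)))))))))))))
(mv 845 (cons (fin 1100 5 844)
(mv 1038 (cons (fin 1102 4 845)
(mv 781 (cons (fin 974 4 781)
(mv 716 (cons (fin 780 7 716)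
(mv 717 (cons (fin 652 7 652)
(mv 718 (cons (fin 654 6 653)
(fin 782 6 717)))))))))))))))))
(cons (mv 973 (cons (cons (mv 844 (cons (fin 1101 7 844)
(mv 780 (cons (fin 845 7 780)
(fin 716 4 716)))))
(mv 1101 (cons (fin 844 7 844)
(mv 846 (cons (fin 910 6 845)
(mv 1164 (cons (fin 1100 5 908)
(mv 1165 (cons (fin 1228 5 972)
(mv 1166 (cons (fin 1102 4 909)
(fin 1230 4 973))))))))))))
(cons (mv 845 (cons (fin 1100 5 844)
(mv 780 (cons (fin 844 7 780)
(mv 716 (cons (fin 781 7 716)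
(mv 846 (cons (fin 782 6 781)
(mv 847 (cons (fin 848 1 844)
(mv 907 (cons (fin 906 2 842)
(fin 910 2 843)))))))))))))
(mv 845 (cons (fin 1100 5 844)
(mv 846 (cons (fin 782 6 781)
(mv 847 (cons (fin 848 1 844)
(mv 907 (cons (fin 906 2 842)
(fin 910 2 843))))))))))))
(cons (mv 973 (cons (cons (mv 844 (cons (fin 1101 7 844)
(mv 780 (cons (fin 845 7 780)
(fin 716 4 716)))))
(mv 1101 (cons (fin 844 7 844)
(mv 910 (cons (fin 846 6 845)
(mv 974 (cons (fin 1165 6 909)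
(mv 907 (cons (fin 906 0 906)
(fin 975 0 907))))))))))
(cons (mv 845 (cons (fin 1100 5 844)
(mv 780 (cons (fin 844 7 780)
(mv 716 (cons (fin 781 7 716)
(mv 846 (cons (fin 782 6 781)
(mv 847 (cons (fin 848 1 844)
(mv 907 (cons (fin 906 2 842)
(fin 910 2 843)))))))))))))
(mv 845 (cons (fin 1100 5 844)
(mv 782 (cons (fin 846 6 781)
(mv 781 (cons (fin 718 6 717)
(mv 716 (cons (fin 780 7 716)
(mv 652 (cons (fin 717 7 652)
(mv 974 (cons (fin 1038 4 781)
(mv 907 (cons (fin 906 0 906)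
(mv 975 (cons (fin 976 3 908)
(fin 910 0 907))))))))))))))))))))
(mv 973 (cons (cons (mv 844 (cons (fin 1101 7 844)
(mv 780 (cons (fin 845 7 780)
(fin 716 4 716)))))
(mv 845 (cons (fin 1100 5 844)
(mv 780 (cons (fin 844 7 780)
(mv 781 (cons (fin 716 7 716)
(mv 1038 (cons (fin 974 4 781)
(fin 1102 4 845))))))))))
(cons (mv 1101 (cons (fin 844 7 844)
(mv 846 (cons (fin 910 6 845)
(mv 1164 (cons (fin 1100 5 908)
(mv 1165 (cons (fin 1228 5 972)
(mv 1166 (cons (fin 1102 4 909)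
(fin 1230 4 973)))))))))))
(mv 845 (cons (fin 1100 5 844)
(mv 1038 (cons (fin 1102 4 845)
(mv 974 (cons (fin 781 4 781)
(mv 907 (cons (fin 906 0 906)
(mv 975 (cons (fin 976 3 908)
(fin 910 0 907))))))))))))))))))))
(cons (mv 972 (cons (cons (cons (mv 1100 (cons (cons (mv 843 (cons (fin 907 7 843)
(mv 779 (cons (fin 844 7 779)
(mv 845 (cons (fin 909 6 844)
(mv 1163 (cons (fin 1099 5 907)
(mv 1164 (cons (fin 1227 5 971)
(mv 1228 (cons (fin 973 6 972)
(mv 1229 (cons (fin 1165 4 972)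
(fin 1293 4 1036)))))))))))))))
(cons (mv 843 (cons (fin 907 7 843)
(mv 779 (cons (fin 844 7 779)
(mv 1163 (cons (fin 1099 5 907)
(mv 1164 (cons (fin 1227 5 971)
(mv 1228 (cons (fin 973 6 972)
(mv 1229 (cons (fin 1165 4 972)
(fin 1293 4 1036)))))))))))))
(mv 845 (cons (fin 909 6 844)
(mv 781 (cons (fin 844 6 780)
(mv 1163 (cons (fin 1099 5 907)
(mv 1164 (cons (fin 1227 5 971)
(mv 1228 (cons (fin 973 6 972)
(mv 1229 (cons (fin 1165 4 972)
(fin 1293 4 1036)))))))))))))))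
(cons (mv 843 (cons (fin 907 7 843)
(mv 779 (cons (fin 844 7 779)
(mv 909 (cons (fin 845 6 844)
(mv 1164 (cons (fin 973 6 908)
(mv 1227 (cons (fin 1163 5 971)
(mv 1228 (cons (fin 1291 5 1035)
(mv 1229 (cons (fin 1165 4 972)
(fin 1293 4 1036)))))))))))))))
(cons (mv 843 (cons (fin 907 7 843)
(mv 844 (cons (fin 779 7 779)
(mv 845 (cons (fin 781 6 780)
(fin 909 6 844)))))))
(mv 843 (cons (fin 907 7 843)
(mv 845 (cons (fin 909 6 844)
(mv 1163 (cons (fin 1099 5 907)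
(mv 1164 (cons (fin 1227 5 971)
(mv 1228 (cons (fin 973 6 972)
(mv 1229 (cons (fin 1165 4 972)
(fin 1293 4 1036)))))))))))))))))
(mv 844 (cons (cons (mv 779 (cons (fin 843 7 779)
(mv 780 (cons (fin 715 7 715)
(fin 973 4 780)))))
(mv 843 (cons (fin 779 7 779)
(mv 845 (cons (fin 781 6 780)
(mv 846 (cons (mv 907 (cons (fin 906 1 842)
(fin 847 1 843)))
(mv 782 (cons (fin 783 2 779)
(mv 909 (cons (fin 973 6 781)
(mv 842 (cons (fin 841 0 841)
(fin 910 0 842))))))))))))))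
(cons (mv 780 (cons (fin 973 4 780)
(mv 781 (cons (fin 717 6 716)
(fin 845 6 780)))))
(mv 779 (cons (fin 843 7 779)
(mv 780 (cons (fin 715 7 715)
(mv 781 (cons (fin 717 6 716)
(fin 845 6 780)))))))))))
(cons (mv 1100 (cons (cons (mv 843 (cons (fin 907 7 843)
(mv 845 (cons (fin 909 6 844)
(mv 1163 (cons (fin 1099 5 907)
(mv 1164 (cons (fin 1227 5 971)
(mv 1228 (cons (fin 973 6 972)
(mv 1229 (cons (fin 1165 4 972)
(fin 1293 4 1036)))))))))))))
(cons (mv 843 (cons (fin 907 7 843)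
(mv 1163 (cons (fin 1099 5 907)
(mv 1164 (cons (fin 1227 5 971)
(mv 1228 (cons (fin 973 6 972)
(mv 1229 (cons (fin 1165 4 972)
(fin 1293 4 1036)))))))))))
(mv 845 (cons (fin 909 6 844)
(mv 1163 (cons (fin 1099 5 907)
(mv 1164 (cons (fin 1227 5 971)
(mv 1228 (cons (fin 973 6 972)
(mv 1229 (cons (fin 1165 4 972)
(fin 1293 4 1036)))))))))))))
(cons (cons (mv 843 (cons (fin 907 7 843)
(mv 909 (cons (fin 845 6 844)
(mv 1164 (cons (fin 973 6 908)
(mv 1227 (cons (fin 1163 5 971)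
(mv 1228 (cons (fin 1291 5 1035)
(mv 1229 (cons (fin 1165 4 972)
(fin 1293 4 1036)))))))))))))
(mv 845 (cons (fin 909 6 844)
(mv 907 (cons (fin 843 7 843)
(mv 971 (cons (fin 1164 7 907)
(mv 970 (cons (fin 969 0 969)
(mv 973 (cons (fin 1038 0 970)
(mv 906 (cons (fin 905 3 905)
(fin 974 3 906))))))))))))))
(cons (mv 907 (cons (fin 843 7 843)
(mv 909 (cons (fin 845 6 844)
(mv 1099 (cons (fin 1163 5 907)
(mv 1097 (cons (fin 1098 2 1033)
(mv 971 (cons (mv 910 (cons (fin 970 1 906)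
(fin 911 1 907)))
(cons (mv 910 (cons (fin 911 1 907)
(mv 846 (cons (fin 847 2 843)
(mv 974 (cons (fin 975 0 907)
(mv 973 (cons (fin 906 3 906)
(fin 782 5 781)))))))))
(mv 970 (cons (fin 969 2 905)
(mv 973 (cons (fin 1038 0 970)
(mv 906 (cons (fin 905 3 905)
(fin 974 3 906))))))))))))))))))
(mv 845 (cons (fin 909 6 844)
(mv 907 (cons (fin 843 7 843)
(mv 1163 (cons (fin 1099 5 907)
(mv 1164 (cons (fin 971 7 907)
(fin 1227 5 971)))))))))))))
(mv 1100 (cons (cons (mv 843 (cons (fin 907 7 843)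
(mv 779 (cons (fin 844 7 779)
(mv 1163 (cons (fin 1099 5 907)
(mv 1164 (cons (fin 1227 5 971)
(mv 973 (cons (fin 909 6 908)
(fin 1228 6 972)))))))))))
(mv 1163 (cons (fin 1099 5 907)
(mv 1164 (cons (fin 1227 5 971)
(mv 973 (cons (fin 909 6 908)
(fin 1228 6 972))))))))
(cons (mv 843 (cons (fin 907 7 843)
(mv 844 (cons (fin 779 7 779)
(mv 973 (cons (fin 780 4 780)
(mv 1164 (cons (fin 909 6 908)
(fin 1228 6 972)))))))))
(cons (mv 1099 (cons (fin 1163 5 907)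
(mv 1097 (cons (fin 1098 2 1033)
(mv 844 (cons (mv 843 (cons (fin 779 7 779)
(fin 907 7 843)))
(cons (mv 780 (cons (fin 973 4 780)
(mv 715 (cons (fin 779 7 715)
(mv 716 (cons (fin 651 7 651)
(mv 717 (cons (fin 653 6 652)
(fin 781 6 716)))))))))
(mv 780 (cons (fin 973 4 780)
(mv 717 (cons (fin 781 6 716)
(mv 716 (cons (fin 653 6 652)
(mv 907 (cons (fin 843 7 843)
(fin 971 5 715))))))))))))))))
(mv 907 (cons (fin 843 7 843)
(mv 1163 (cons (fin 1099 5 907)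
(mv 1164 (cons (fin 971 7 907)
(fin 1227 5 971)))))))))))))
(cons (cons (mv 971 (cons (cons (mv 970 (cons (fin 969 0 969)
(mv 973 (cons (fin 1038 0 970)
(mv 780 (cons (fin 844 4 780)
(mv 905 (cons (fin 906 3 905)
(mv 909 (cons (fin 910 2 906)
(mv 845 (cons (fin 781 5 780)
(fin 1100 5 844)))))))))))))
(cons (mv 1100 (cons (cons (mv 845 (cons (fin 909 6 844)
(mv 781 (cons (fin 844 6 780)
(mv 1099 (cons (fin 1163 5 907)
(mv 1097 (cons (fin 1098 2 1033)
(mv 1164 (cons (fin 907 7 907)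
(mv 1228 (cons (fin 973 6 972)
(mv 1229 (cons (fin 1165 4 972)
(fin 1293 4 1036)))))))))))))))
(mv 845 (cons (fin 909 6 844)
(mv 844 (cons (fin 781 6 780)
(mv 780 (cons (fin 973 4 780)
(mv 715 (cons (fin 779 7 715)
(mv 716 (cons (fin 651 7 651)
(fin 907 5 715))))))))))))
(cons (mv 1099 (cons (fin 1163 5 907)
(mv 1097 (cons (fin 1098 2 1033)
(mv 1164 (cons (fin 907 7 907)
(mv 1228 (cons (fin 973 6 972)
(mv 1229 (cons (fin 1165 4 972)
(fin 1293 4 1036)))))))))))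
(cons (mv 845 (cons (fin 909 6 844)
(mv 781 (cons (fin 844 6 780)
(mv 1163 (cons (fin 1099 5 907)
(mv 1164 (cons (fin 1227 5 971)
(mv 1228 (cons (fin 973 6 972)
(mv 1229 (cons (fin 1165 4 972)
(fin 1293 4 1036)))))))))))))
(mv 845 (cons (fin 909 6 844)
(mv 781 (cons (fin 844 6 780)
(mv 1163 (cons (fin 1099 5 907)
(mv 1164 (cons (fin 907 7 907)
(fin 1227 5 971)))))))))))))
(mv 970 (cons (fin 969 0 969)
(mv 973 (cons (fin 1038 0 970)
(mv 780 (cons (fin 844 4 780)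
(mv 906 (cons (fin 905 3 905)
(mv 907 (cons (fin 974 3 906)
(mv 1034 (cons (fin 1033 1 969)
(mv 1098 (cons (fin 1162 6 906)
(mv 1097 (cons (fin 1161 5 905)
(mv 1099 (cons (fin 1100 2 1033)
(fin 1163 4 906)))))))))))))))))))))
(cons (mv 970 (cons (fin 969 0 969)
(mv 973 (cons (fin 1038 0 970)
(mv 780 (cons (fin 844 4 780)
(mv 905 (cons (fin 906 3 905)
(mv 910 (cons (fin 909 2 906)
(mv 974 (cons (fin 911 2 907)
(mv 975 (cons (fin 907 3 907)
(fin 976 1 972)))))))))))))))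
(cons (mv 970 (cons (fin 969 0 969)
(mv 909 (cons (mv 910 (cons (fin 907 1 906)
(fin 911 1 907)))
(mv 845 (cons (fin 1100 6 844)
(mv 781 (cons (fin 717 5 716)
(fin 844 6 780)))))))))
(mv 970 (cons (fin 969 0 969)
(mv 973 (cons (fin 1038 0 970)
(mv 905 (cons (fin 906 3 905)
(mv 909 (cons (fin 910 2 906)
(mv 845 (cons (fin 781 5 780)
(fin 1100 5 844)))))))))))))))
(mv 845 (cons (cons (mv 781 (cons (fin 844 6 780)
(mv 909 (cons (fin 717 5 716)
(fin 1100 6 844)))))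
(mv 844 (cons (fin 781 6 780)
(mv 843 (cons (fin 779 7 779)
(mv 842 (cons (cons (mv 909 (cons (fin 841 0 841)
(fin 910 0 842)))
(mv 777 (cons (fin 778 3 777)
(mv 776 (cons (fin 841 3 776)
(mv 906 (cons (fin 905 1 841)
(mv 846 (cons (fin 907 1 842)
(mv 783 (cons (fin 782 2 779)
(mv 847 (cons (fin 784 2 780)
(mv 911 (cons (fin 910 0 843)
(fin 912 0 844))))))))))))))))
(cons (mv 777 (cons (fin 778 3 777)
(mv 905 (cons (fin 906 1 841)
(mv 910 (cons (fin 909 0 842)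
(mv 846 (cons (fin 911 0 843)
(mv 783 (cons (fin 782 2 779)
(mv 847 (cons (fin 907 1 843)
(fin 784 2 780)))))))))))))
(mv 777 (cons (fin 778 3 777)
(mv 841 (cons (fin 776 3 776)
(fin 909 0 841)))))))))))))
(cons (mv 1100 (cons (fin 909 6 844)
(mv 907 (cons (fin 843 7 843)
(mv 1163 (cons (fin 1099 5 907)
(mv 1164 (cons (fin 971 7 907)
(fin 1227 5 971)))))))))
(mv 844 (cons (fin 781 6 780)
(mv 843 (cons (fin 779 7 779)
(mv 907 (cons (fin 1100 7 843)
(mv 846 (cons (fin 906 1 842)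
(fin 847 1 843)))))))))))))
(cons (mv 844 (cons (cons (mv 779 (cons (fin 843 7 779)
(mv 780 (cons (fin 715 7 715)
(fin 973 4 780)))))
(mv 781 (cons (fin 845 6 780)
(mv 843 (cons (fin 779 7 779)
(mv 1100 (cons (fin 907 7 843)
(mv 1163 (cons (fin 1099 5 907)
(mv 1164 (cons (fin 1227 5 971)
(mv 1228 (cons (fin 973 6 972)
(mv 1229 (cons (fin 1165 4 972)
(fin 1293 4 1036))))))))))))))))
(cons (mv 780 (cons (fin 973 4 780)
(mv 781 (cons (fin 717 6 716)
(fin 845 6 780)))))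
(mv 779 (cons (fin 843 7 779)
(mv 780 (cons (fin 715 7 715)
(mv 781 (cons (fin 717 6 716)
(fin 845 6 780))))))))))
(mv 844 (cons (cons (mv 779 (cons (fin 843 7 779)
(mv 780 (cons (fin 715 7 715)
(fin 973 4 780)))))
(mv 779 (cons (fin 843 7 779)
(mv 845 (cons (fin 781 6 780)
(mv 1100 (cons (fin 909 6 844)
(mv 1163 (cons (fin 1099 5 907)
(mv 1164 (cons (fin 1227 5 971)
(mv 1228 (cons (fin 973 6 972)
(mv 1229 (cons (fin 1165 4 972)
(fin 1293 4 1036))))))))))))))))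
(cons (mv 780 (cons (fin 973 4 780)
(mv 781 (cons (fin 717 6 716)
(fin 845 6 780)))))
(mv 779 (cons (fin 843 7 779)
(mv 780 (cons (fin 715 7 715)
(mv 781 (cons (fin 717 6 716)
(fin 845 6 780))))))))))))))
(mv 973 (cons (cons (cons (mv 1100 (cons (cons (mv 909 (cons (fin 845 5 844)
(mv 1164 (cons (fin 1101 5 908)
(fin 972 6 908)))))
(mv 1164 (cons (fin 1228 6 972)
(mv 972 (cons (mv 907 (cons (fin 843 7 843)
(fin 971 7 907)))
(mv 1163 (cons (fin 1099 5 907)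
(fin 1227 5 971))))))))
(cons (mv 845 (cons (fin 909 5 844)
(mv 972 (cons (mv 843 (cons (fin 907 7 843)
(mv 1099 (cons (fin 1163 5 907)
(mv 1098 (cons (fin 1097 2 1033)
(mv 1101 (cons (fin 1038 2 1034)
(fin 1165 7 908)))))))))
(cons (mv 907 (cons (fin 843 7 843)
(mv 906 (cons (fin 905 0 905)
(mv 974 (cons (fin 971 3 906)
(fin 975 3 907)))))))
(mv 1099 (cons (fin 1163 5 907)
(mv 1098 (cons (fin 1097 2 1033)
(mv 1101 (cons (fin 1038 2 1034)
(fin 1165 7 908))))))))))))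
(mv 909 (cons (fin 845 5 844)
(mv 1164 (cons (fin 1101 5 908)
(fin 1228 6 972))))))))
(mv 1101 (cons (cons (mv 1165 (cons (fin 972 7 908)
(mv 910 (cons (fin 974 6 909)
(mv 846 (cons (fin 909 6 845)
(mv 1228 (cons (fin 1164 5 972)
(mv 1229 (cons (fin 1292 5 1036)
(mv 1230 (cons (fin 1166 4 973)
(fin 1294 4 1037)))))))))))))
(mv 909 (cons (mv 846 (cons (fin 910 6 845)
(mv 845 (cons (fin 782 6 781)
(mv 1102 (cons (fin 1038 4 845)
(fin 1166 4 909)))))))
(cons (mv 910 (cons (fin 846 6 845)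
(mv 911 (cons (mv 972 (cons (fin 971 1 907)
(fin 912 1 908)))
(cons (mv 847 (cons (fin 848 2 844)
(mv 975 (cons (fin 976 0 908)
(mv 907 (cons (fin 974 0 907)
(mv 842 (cons (fin 843 3 842)
(mv 906 (cons (fin 841 3 841)
(mv 970 (cons (fin 969 1 905)
(fin 971 1 906)))))))))))))
(mv 847 (cons (fin 848 2 844)
(mv 912 (cons (fin 972 1 908)
(mv 976 (cons (fin 975 0 908)
(fin 977 0 909))))))))))))
(mv 1102 (cons (fin 1166 4 909)
(mv 845 (cons (fin 1038 4 845)
(mv 781 (cons (fin 972 5 780)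
(mv 716 (cons (fin 780 7 716)
(mv 717 (cons (fin 652 7 652)
(mv 718 (cons (fin 654 6 653)
(fin 782 6 717)))))))))))))))))
(cons (mv 1165 (cons (cons (mv 910 (cons (fin 974 6 909)
(mv 846 (cons (fin 909 6 845)
(mv 1228 (cons (fin 1164 5 972)
(mv 1229 (cons (fin 1292 5 1036)
(mv 1230 (cons (fin 1166 4 973)
(fin 1294 4 1037)))))))))))
(mv 1164 (cons (fin 1228 5 972)
(mv 1166 (cons (fin 1230 4 973)
(mv 1102 (cons (fin 909 4 909)
(mv 1103 (cons (fin 1104 3 1036)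
(fin 1163 2 1099))))))))))
(cons (mv 974 (cons (fin 910 6 909)
(mv 975 (cons (fin 976 1 972)
(mv 1228 (cons (fin 1164 5 972)
(mv 1229 (cons (fin 1292 5 1036)
(fin 1038 6 973)))))))))
(mv 910 (cons (fin 974 6 909)
(mv 909 (cons (fin 846 6 845)
(mv 1166 (cons (fin 1102 4 909)
(fin 1230 4 973))))))))))
(cons (mv 1165 (cons (fin 972 7 908)
(mv 1164 (cons (fin 1228 5 972)
(mv 1166 (cons (fin 1230 4 973)
(mv 1102 (cons (fin 909 4 909)
(mv 1103 (cons (fin 1104 3 1036)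
(fin 1163 2 1099)))))))))))
(mv 972 (cons (fin 1165 7 908)
(mv 971 (cons (mv 970 (cons (fin 969 0 969)
(fin 1038 0 970)))
(cons (mv 974 (cons (mv 907 (cons (fin 906 3 906)
(fin 975 3 907)))
(mv 910 (cons (fin 911 2 907)
(mv 846 (cons (fin 782 5 781)
(fin 1038 5 845)))))))
(mv 970 (cons (fin 969 0 969)
(mv 906 (cons (fin 905 3 905)
(mv 907 (cons (fin 974 3 906)
(mv 843 (cons (fin 779 4 779)
(mv 1034 (cons (fin 1033 1 969)
(fin 1098 6 842)))))))))))))))))))))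
(cons (mv 909 (cons (cons (mv 845 (cons (fin 1100 5 844)
(mv 782 (cons (fin 846 6 781)
(mv 781 (cons (fin 718 6 717)
(mv 1038 (cons (fin 974 4 781)
(fin 1102 4 845)))))))))
(mv 1101 (cons (cons (mv 846 (cons (fin 910 6 845)
(mv 1164 (cons (fin 1100 5 908)
(mv 1165 (cons (fin 1228 5 972)
(mv 1166 (cons (fin 1102 4 909)
(fin 1230 4 973)))))))))
(mv 910 (cons (fin 846 6 845)
(mv 974 (cons (fin 1165 6 909)
(mv 907 (cons (fin 906 0 906)
(fin 975 0 907))))))))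
(cons (mv 1164 (cons (fin 1100 5 908)
(mv 1165 (cons (fin 1228 5 972)
(mv 1166 (cons (fin 1102 4 909)
(fin 1230 4 973)))))))
(mv 910 (cons (fin 846 6 845)
(mv 1100 (cons (fin 1164 5 908)
(mv 1102 (cons (fin 1166 4 909)
(mv 1103 (cons (fin 1104 3 1036)
(mv 1167 (cons (fin 1168 0 1100)
(mv 974 (cons (fin 1038 4 910)
(mv 907 (cons (fin 906 0 906)
(fin 975 0 907)))))))))))))))))))
(cons (mv 845 (cons (cons (mv 782 (cons (fin 846 6 781)
(mv 781 (cons (fin 718 6 717)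
(mv 1038 (cons (fin 974 4 781)
(fin 1102 4 845)))))))
(mv 1038 (cons (fin 1102 4 845)
(mv 781 (cons (fin 974 4 781)
(mv 716 (cons (fin 780 7 716)
(mv 717 (cons (fin 652 7 652)
(mv 718 (cons (fin 654 6 653)
(fin 782 6 717))))))))))))
(cons (mv 782 (cons (fin 846 6 781)
(mv 781 (cons (fin 718 6 717)
(mv 716 (cons (fin 780 7 716)
(mv 652 (cons (fin 717 7 652)
(mv 974 (cons (fin 1038 4 781)
(mv 907 (cons (fin 906 0 906)
(mv 975 (cons (fin 976 3 908)
(fin 910 0 907)))))))))))))))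
(cons (mv 846 (cons (fin 782 6 781)
(mv 847 (cons (fin 848 1 844)
(mv 907 (cons (fin 906 2 842)
(fin 910 2 843)))))))
(mv 1038 (cons (fin 1102 4 845)
(mv 974 (cons (fin 781 4 781)
(mv 907 (cons (fin 906 0 906)
(mv 975 (cons (fin 976 3 908)
(fin 910 0 907)))))))))))))
(cons (mv 845 (cons (fin 1100 5 844)
(mv 846 (cons (fin 782 6 781)
(mv 847 (cons (fin 848 1 844)
(mv 907 (cons (fin 906 2 842)
(fin 910 2 843)))))))))
(mv 845 (cons (fin 1100 5 844)
(mv 1038 (cons (fin 1102 4 845)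
(mv 781 (cons (fin 974 4 781)
(mv 716 (cons (fin 780 7 716)
(mv 717 (cons (fin 652 7 652)
(mv 718 (cons (fin 654 6 653)
(fin 782 6 717)))))))))))))))))
(mv 972 (cons (cons (mv 1101 (cons (fin 1165 7 908)
(mv 1100 (cons (mv 843 (cons (fin 907 7 843)
(mv 1099 (cons (fin 1163 5 907)
(mv 1098 (cons (fin 1097 2 1033)
(fin 1038 2 1034)))))))
(cons (mv 1099 (cons (fin 1163 5 907)
(mv 1098 (cons (fin 1097 2 1033)
(fin 1038 2 1034)))))
(mv 907 (cons (fin 843 7 843)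
(mv 1164 (cons (fin 971 7 907)
(fin 1228 6 972))))))))))
(mv 907 (cons (mv 843 (cons (fin 1100 7 843)
(mv 779 (cons (fin 715 4 715)
(fin 971 4 779)))))
(cons (mv 906 (cons (fin 905 0 905)
(mv 974 (cons (fin 971 3 906)
(fin 975 3 907)))))
(mv 905 (cons (fin 906 0 905)
(mv 974 (cons (fin 975 3 907)
(mv 1100 (cons (fin 843 7 843)
(mv 1163 (cons (fin 1099 5 907)
(mv 1164 (cons (fin 1227 5 971)
(fin 1228 6 972)))))))))))))))
(cons (mv 1101 (cons (fin 1165 7 908)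
(mv 971 (cons (mv 970 (cons (fin 969 0 969)
(fin 1038 0 970)))
(cons (mv 974 (cons (mv 907 (cons (fin 906 3 906)
(fin 975 3 907)))
(mv 910 (cons (fin 911 2 907)
(mv 846 (cons (fin 782 5 781)
(fin 1038 5 845)))))))
(mv 970 (cons (fin 969 0 969)
(mv 906 (cons (fin 905 3 905)
(mv 907 (cons (fin 974 3 906)
(mv 843 (cons (fin 779 4 779)
(mv 1034 (cons (fin 1033 1 969)
(fin 1098 6 842))))))))))))))))
(mv 1100 (cons (cons (mv 1099 (cons (fin 1163 5 907)
(mv 1097 (cons (fin 1098 2 1033)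
(mv 1164 (cons (fin 1228 6 972)
(mv 1165 (cons (fin 1101 7 908)
(fin 1229 4 972)))))))))
(mv 1163 (cons (fin 1099 5 907)
(mv 1164 (cons (fin 1227 5 971)
(fin 1228 6 972))))))
(cons (mv 1099 (cons (fin 1163 5 907)
(mv 1098 (cons (fin 1097 2 1033)
(mv 1101 (cons (fin 1038 2 1034)
(fin 1165 7 908)))))))
(mv 1164 (cons (fin 1228 6 972)
(mv 1165 (cons (fin 1101 7 908)
(fin 1229 4 972)))))))))))))
(cons (cons (mv 909 (cons (cons (mv 845 (cons (fin 1100 5 844)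
(mv 781 (cons (fin 972 5 780)
(mv 782 (cons (fin 718 6 717)
(fin 846 6 781)))))))
(mv 907 (cons (cons (mv 906 (cons (fin 974 0 906)
(mv 841 (cons (fin 842 3 841)
(mv 905 (cons (fin 840 3 840)
(fin 972 0 905)))))))
(mv 972 (cons (mv 1100 (cons (fin 843 7 843)
(fin 1164 6 908)))
(mv 906 (cons (fin 905 0 905)
(mv 841 (cons (fin 842 3 841)
(mv 970 (cons (fin 969 1 905)
(mv 971 (cons (fin 910 1 906)
(fin 1038 0 970))))))))))))
(cons (mv 910 (cons (cons (mv 842 (cons (fin 843 3 842)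
(mv 846 (cons (fin 847 2 843)
(mv 782 (cons (fin 718 5 717)
(fin 974 5 781)))))))
(mv 842 (cons (fin 843 3 842)
(mv 846 (cons (fin 847 2 843)
(mv 718 (cons (fin 782 5 717)
(mv 971 (cons (fin 970 1 906)
(mv 911 (cons (fin 972 1 907)
(mv 976 (cons (fin 975 0 908)
(mv 912 (cons (fin 977 0 909)
(mv 849 (cons (fin 848 2 845)
(mv 913 (cons (fin 850 2 846)
(fin 1104 6 848))))))))))))))))))))
(cons (mv 842 (cons (fin 843 3 842)
(mv 970 (cons (fin 971 1 906)
(mv 975 (cons (fin 974 0 907)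
(mv 911 (cons (fin 976 0 908)
(mv 848 (cons (fin 847 2 844)
(mv 912 (cons (fin 972 1 908)
(fin 849 2 845)))))))))))))
(cons (mv 846 (cons (fin 847 2 843)
(mv 782 (cons (fin 718 5 717)
(fin 974 5 781)))))
(mv 842 (cons (fin 843 3 842)
(mv 971 (cons (fin 970 1 906)
(mv 911 (cons (fin 972 1 907)
(mv 975 (cons (fin 974 0 907)
(fin 976 0 908)))))))))))))
(cons (mv 906 (cons (fin 974 0 906)
(mv 841 (cons (fin 842 3 841)
(mv 840 (cons (fin 905 3 840)
(mv 970 (cons (fin 969 1 905)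
(mv 910 (cons (fin 971 1 906)
(mv 847 (cons (fin 846 2 843)
(mv 911 (cons (fin 848 2 844)
(mv 976 (cons (fin 975 0 908)
(mv 912 (cons (fin 977 0 909)
(fin 1104 7 847)))))))))))))))))))
(mv 906 (cons (fin 974 0 906)
(mv 905 (cons (fin 972 0 905)
(mv 969 (cons (fin 968 1 904)
(fin 970 1 905))))))))))))
(cons (mv 845 (cons (mv 781 (cons (fin 972 5 780)
(mv 782 (cons (fin 718 6 717)
(fin 846 6 781)))))
(cons (mv 846 (cons (fin 782 6 781)
(mv 847 (cons (fin 848 1 844)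
(mv 907 (cons (fin 906 2 842)
(fin 910 2 843)))))))
(mv 781 (cons (fin 972 5 780)
(mv 1038 (cons (fin 974 4 781)
(fin 1102 4 845))))))))
(cons (mv 845 (cons (fin 1100 5 844)
(mv 782 (cons (fin 846 6 781)
(mv 781 (cons (fin 718 6 717)
(mv 1038 (cons (fin 974 4 781)
(fin 1102 4 845)))))))))
(mv 845 (cons (fin 1100 5 844)
(mv 781 (cons (fin 972 5 780)
(mv 1038 (cons (fin 974 4 781)
(fin 1102 4 845)))))))))))
(mv 1100 (cons (cons (mv 909 (cons (fin 845 5 844)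
(mv 1164 (cons (fin 1101 5 908)
(fin 972 6 908)))))
(mv 1164 (cons (fin 1228 6 972)
(mv 972 (cons (mv 907 (cons (fin 843 7 843)
(fin 971 7 907)))
(mv 1163 (cons (fin 1099 5 907)
(fin 1227 5 971))))))))
(cons (mv 909 (cons (fin 845 5 844)
(mv 972 (cons (cons (mv 843 (cons (fin 907 7 843)
(mv 1099 (cons (fin 1163 5 907)
(mv 1097 (cons (fin 1098 2 1033)
(mv 1101 (cons (fin 1165 7 908)
(mv 910 (cons (fin 846 6 845)
(mv 911 (cons (fin 971 1 907)
(fin 912 1 908)))))))))))))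
(mv 907 (cons (fin 843 7 843)
(mv 906 (cons (fin 905 0 905)
(mv 841 (cons (fin 842 3 841)
(mv 970 (cons (fin 969 1 905)
(mv 971 (cons (fin 910 1 906)
(fin 1038 0 970))))))))))))
(cons (mv 1099 (cons (fin 1163 5 907)
(mv 1097 (cons (fin 1098 2 1033)
(mv 1101 (cons (fin 1165 7 908)
(mv 910 (cons (fin 846 6 845)
(mv 911 (cons (fin 971 1 907)
(fin 912 1 908)))))))))))
(mv 843 (cons (fin 907 7 843)
(mv 1099 (cons (fin 1163 5 907)
(mv 1098 (cons (fin 1097 2 1033)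
(mv 1101 (cons (fin 1038 2 1034)
(fin 1165 7 908))))))))))))))
(mv 909 (cons (fin 845 5 844)
(mv 1164 (cons (fin 1101 5 908)
(fin 1228 6 972)))))))))
(cons (mv 909 (cons (cons (mv 845 (cons (fin 1100 5 844)
(mv 781 (cons (fin 972 5 780)
(mv 782 (cons (fin 718 6 717)
(fin 846 6 781)))))))
(mv 974 (cons (cons (mv 907 (cons (fin 906 0 906)
(mv 975 (cons (fin 972 3 907)
(fin 976 3 908)))))
(mv 906 (cons (fin 907 0 906)
(mv 1101 (cons (mv 910 (cons (fin 846 6 845)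
(fin 1165 6 909)))
(cons (mv 910 (cons (fin 846 6 845)
(mv 1102 (cons (fin 1166 4 909)
(mv 1103 (cons (fin 1104 3 1036)
(mv 1038 (cons (fin 1167 4 910)
(mv 911 (cons (fin 847 6 846)
(mv 912 (cons (fin 972 1 908)
(fin 913 1 909)))))))))))))
(mv 1102 (cons (fin 1166 4 909)
(mv 1103 (cons (fin 1104 3 1036)
(mv 1165 (cons (fin 972 7 908)
(mv 1229 (cons (fin 1038 6 973)
(mv 1228 (cons (fin 1292 5 1036)
(mv 1293 (cons (fin 1100 7 1036)
(mv 1294 (cons (fin 1230 4 1037)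
(fin 1358 4 1101)))))))))))))))))))))
(cons (mv 975 (cons (fin 976 3 908)
(mv 1101 (cons (mv 910 (cons (fin 846 6 845)
(fin 1165 6 909)))
(cons (mv 910 (cons (fin 846 6 845)
(mv 1102 (cons (fin 1166 4 909)
(mv 1103 (cons (fin 1104 3 1036)
(mv 1038 (cons (fin 1167 4 910)
(mv 911 (cons (fin 847 6 846)
(mv 912 (cons (fin 972 1 908)
(fin 913 1 909)))))))))))))
(mv 1102 (cons (fin 1166 4 909)
(mv 1103 (cons (fin 1104 3 1036)
(mv 1165 (cons (fin 972 7 908)
(mv 1229 (cons (fin 1038 6 973)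
(mv 1228 (cons (fin 1292 5 1036)
(mv 1293 (cons (fin 1100 7 1036)
(mv 1294 (cons (fin 1230 4 1037)
(fin 1358 4 1101))))))))))))))))))))
(mv 907 (cons (fin 906 0 906)
(mv 975 (cons (fin 976 3 908)
(fin 910 0 907)))))))))
(cons (mv 974 (cons (cons (mv 907 (cons (fin 906 0 906)
(mv 975 (cons (fin 972 3 907)
(fin 976 3 908)))))
(mv 906 (cons (fin 907 0 906)
(mv 845 (cons (cons (mv 781 (cons (fin 972 5 780)
(fin 1038 4 781)))
(mv 782 (cons (fin 846 6 781)
(mv 1102 (cons (fin 1038 4 845)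
(mv 1101 (cons (fin 1166 4 909)
(mv 1165 (cons (fin 972 7 908)
(fin 910 6 909))))))))))
(cons (mv 781 (cons (fin 972 5 780)
(mv 782 (cons (fin 718 6 717)
(fin 846 6 781)))))
(mv 1038 (cons (fin 781 4 781)
(fin 1102 4 845)))))))))
(cons (mv 975 (cons (fin 976 3 908)
(mv 845 (cons (cons (mv 781 (cons (fin 972 5 780)
(fin 1038 4 781)))
(mv 782 (cons (fin 846 6 781)
(mv 1102 (cons (fin 1038 4 845)
(mv 1101 (cons (fin 1166 4 909)
(mv 1165 (cons (fin 972 7 908)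
(fin 910 6 909))))))))))
(cons (mv 781 (cons (fin 972 5 780)
(mv 782 (cons (fin 718 6 717)
(fin 846 6 781)))))
(mv 1038 (cons (fin 781 4 781)
(fin 1102 4 845))))))))
(mv 907 (cons (fin 906 0 906)
(mv 975 (cons (fin 976 3 908)
(fin 910 0 907))))))))
(cons (mv 845 (cons (fin 1100 5 844)
(mv 782 (cons (fin 846 6 781)
(mv 781 (cons (fin 718 6 717)
(mv 1038 (cons (fin 974 4 781)
(fin 1102 4 845)))))))))
(mv 845 (cons (fin 1100 5 844)
(mv 781 (cons (fin 972 5 780)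
(mv 1038 (cons (fin 974 4 781)
(fin 1102 4 845)))))))))))
(cons (mv 1100 (cons (cons (mv 909 (cons (fin 845 5 844)
(mv 1164 (cons (fin 1101 5 908)
(fin 972 6 908)))))
(mv 1164 (cons (fin 1228 6 972)
(mv 972 (cons (mv 1163 (cons (fin 1099 5 907)
(fin 1227 5 971)))
(mv 1165 (cons (fin 1101 7 908)
(fin 1229 4 972))))))))
(cons (mv 845 (cons (fin 909 5 844)
(mv 1101 (cons (cons (mv 972 (cons (fin 1165 7 908)
(mv 1099 (cons (fin 1163 5 907)
(mv 1098 (cons (fin 1097 2 1033)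
(fin 1038 2 1034)))))))
(mv 1099 (cons (mv 1098 (cons (fin 1097 2 1033)
(fin 1038 2 1034)))
(mv 1163 (cons (fin 972 5 907)
(mv 1102 (cons (fin 1162 1 1098)
(mv 1103 (cons (fin 1104 3 1036)
(mv 1167 (cons (fin 1166 0 1099)
(fin 1168 0 1100))))))))))))
(cons (mv 1165 (cons (mv 910 (cons (fin 974 6 909)
(mv 1166 (cons (fin 1230 4 973)
(mv 1099 (cons (fin 1098 0 1098)
(mv 1167 (cons (fin 1168 3 1100)
(fin 1102 0 1099)))))))))
(cons (mv 974 (cons (fin 910 6 909)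
(mv 1229 (cons (fin 1293 7 1036)
(fin 1038 6 973)))))
(mv 1166 (cons (fin 1230 4 973)
(mv 1099 (cons (fin 1098 0 1098)
(mv 1167 (cons (fin 1168 3 1100)
(fin 1102 0 1099))))))))))
(mv 1165 (cons (fin 972 7 908)
(mv 910 (cons (fin 974 6 909)
(mv 1229 (cons (fin 1293 7 1036)
(mv 1230 (cons (fin 1166 4 973)
(fin 1294 4 1037))))))))))))))
(cons (mv 909 (cons (fin 845 5 844)
(mv 1164 (cons (fin 1101 5 908)
(fin 1228 6 972)))))
(mv 909 (cons (fin 845 5 844)
(mv 1164 (cons (fin 972 6 908)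
(fin 1228 6 972)))))))))
(mv 1100 (cons (cons (mv 909 (cons (fin 845 5 844)
(mv 1164 (cons (fin 1101 5 908)
(fin 972 6 908)))))
(mv 1164 (cons (fin 1228 6 972)
(mv 972 (cons (mv 907 (cons (fin 843 7 843)
(fin 971 7 907)))
(mv 1163 (cons (fin 1099 5 907)
(fin 1227 5 971))))))))
(cons (mv 909 (cons (fin 845 5 844)
(mv 972 (cons (mv 843 (cons (fin 907 7 843)
(mv 1099 (cons (fin 1163 5 907)
(mv 1097 (cons (fin 1098 2 1033)
(mv 1101 (cons (fin 1165 7 908)
(mv 910 (cons (fin 846 6 845)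
(mv 911 (cons (fin 971 1 907)
(fin 912 1 908)))))))))))))
(cons (mv 907 (cons (fin 843 7 843)
(mv 906 (cons (fin 905 0 905)
(fin 974 0 906)))))
(mv 1099 (cons (fin 1163 5 907)
(mv 1097 (cons (fin 1098 2 1033)
(mv 1101 (cons (fin 1165 7 908)
(mv 910 (cons (fin 846 6 845)
(mv 911 (cons (fin 971 1 907)
(fin 912 1 908))))))))))))))))
(mv 909 (cons (fin 845 5 844)
(mv 1164 (cons (fin 1101 5 908)
(fin 1228 6 972)))))))))))))))
(cons (cons (mv 844 (cons (cons (mv 972 (cons (fin 1101 4 844)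
(mv 779 (cons (fin 843 7 779)
(mv 780 (cons (fin 715 7 715)
(fin 973 4 780)))))))
(cons (mv 909 (cons (cons (mv 973 (cons (fin 1101 7 844)
(mv 780 (cons (fin 845 7 780)
(fin 716 4 716)))))
(mv 910 (cons (cons (mv 843 (cons (fin 911 3 843)
(mv 842 (cons (fin 907 3 842)
(fin 841 0 841)))))
(mv 907 (cons (cons (mv 842 (cons (fin 843 3 842)
(mv 841 (cons (fin 906 3 841)
(mv 846 (cons (fin 847 2 843)
(mv 970 (cons (fin 971 1 906)
(mv 974 (cons (fin 975 0 907)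
(mv 1038 (cons (fin 1101 5 845)
(mv 845 (cons (fin 781 7 781)
(fin 1102 7 845)))))))))))))))
(mv 846 (cons (fin 847 2 843)
(mv 845 (cons (fin 906 2 842)
(mv 970 (cons (fin 971 1 906)
(mv 974 (cons (fin 975 0 907)
(mv 781 (cons (fin 1038 7 781)
(fin 717 4 717))))))))))))
(cons (mv 842 (cons (fin 843 3 842)
(mv 906 (cons (fin 841 3 841)
(mv 970 (cons (fin 969 1 905)
(fin 971 1 906)))))))
(cons (mv 842 (cons (fin 843 3 842)
(mv 841 (cons (fin 906 3 841)
(mv 846 (cons (fin 847 2 843)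
(mv 974 (cons (fin 975 0 907)
(mv 1038 (cons (fin 1101 5 845)
(mv 845 (cons (fin 781 7 781)
(fin 1102 7 845)))))))))))))
(mv 842 (cons (fin 843 3 842)
(mv 846 (cons (fin 847 2 843)
(mv 970 (cons (fin 971 1 906)
(mv 974 (cons (fin 975 0 907)
(mv 1038 (cons (fin 1101 5 845)
(mv 845 (cons (fin 781 7 781)
(fin 1102 7 845))))))))))))))))))
(cons (mv 907 (cons (mv 846 (cons (fin 847 2 843)
(mv 845 (cons (fin 906 2 842)
(mv 911 (cons (fin 912 3 844)
(mv 975 (cons (fin 974 0 907)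
(fin 976 0 908)))))))))
(cons (mv 970 (cons (fin 971 1 906)
(mv 906 (cons (fin 969 1 905)
(mv 841 (cons (fin 842 3 841)
(mv 905 (cons (fin 840 3 840)
(fin 845 2 841)))))))))
(mv 847 (cons (fin 846 2 843)
(mv 911 (cons (fin 848 2 844)
(mv 975 (cons (fin 974 0 907)
(fin 976 0 908))))))))))
(cons (mv 843 (cons (fin 911 3 843)
(mv 842 (cons (fin 841 0 841)
(fin 845 0 842)))))
(mv 911 (cons (fin 843 3 843)
(mv 845 (cons (fin 912 3 844)
(mv 847 (cons (fin 848 2 844)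
(mv 846 (cons (fin 907 1 843)
(mv 779 (cons (fin 780 3 779)
(mv 783 (cons (fin 784 2 780)
(mv 719 (cons (fin 655 5 654)
(fin 974 5 718))))))))))))))))))))
(cons (mv 843 (cons (cons (mv 842 (cons (fin 841 0 841)
(mv 910 (cons (fin 907 3 842)
(fin 911 3 843)))))
(mv 910 (cons (fin 911 3 843)
(mv 907 (cons (cons (mv 846 (cons (fin 847 2 843)
(mv 845 (cons (fin 906 1 842)
(mv 782 (cons (fin 783 2 779)
(fin 973 6 781)))))))
(mv 970 (cons (fin 971 1 906)
(mv 906 (cons (fin 969 1 905)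
(mv 905 (cons (fin 904 2 840)
(fin 845 2 841))))))))
(cons (mv 846 (cons (fin 847 2 843)
(mv 970 (cons (fin 971 1 906)
(mv 974 (cons (fin 975 0 907)
(mv 782 (cons (fin 973 5 781)
(mv 783 (cons (fin 845 2 779)
(fin 719 6 718)))))))))))
(mv 846 (cons (fin 847 2 843)
(mv 970 (cons (fin 971 1 906)
(mv 906 (cons (fin 969 1 905)
(mv 974 (cons (fin 973 0 906)
(fin 975 0 907)))))))))))))))
(cons (mv 842 (cons (fin 841 0 841)
(mv 845 (cons (cons (cons (mv 777 (cons (fin 778 3 777)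
(mv 780 (cons (fin 973 7 780)
(mv 652 (cons (fin 716 4 652)
(mv 781 (cons (fin 782 2 778)
(mv 653 (cons (fin 717 5 652)
(mv 906 (cons (fin 905 1 841)
(mv 846 (cons (fin 907 1 842)
(mv 847 (cons (fin 779 3 779)
(fin 848 3 780)))))))))))))))))
(mv 777 (cons (fin 778 3 777)
(mv 780 (cons (fin 973 7 780)
(mv 652 (cons (fin 716 4 652)
(mv 782 (cons (fin 781 2 778)
(mv 846 (cons (fin 783 2 779)
(mv 847 (cons (fin 779 3 779)
(fin 907 1 843))))))))))))))
(cons (mv 777 (cons (fin 778 3 777)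
(mv 781 (cons (fin 782 2 778)
(mv 653 (cons (fin 717 5 652)
(mv 906 (cons (fin 905 1 841)
(mv 907 (cons (fin 846 1 842)
(mv 970 (cons (fin 969 1 905)
(mv 779 (cons (fin 715 5 714)
(fin 1034 6 778)))))))))))))))
(mv 777 (cons (fin 778 3 777)
(mv 780 (cons (fin 973 7 780)
(mv 652 (cons (fin 716 4 652)
(mv 906 (cons (fin 905 1 841)
(mv 846 (cons (fin 907 1 842)
(mv 847 (cons (fin 779 3 779)
(fin 848 1 844)))))))))))))))
(cons (cons (mv 780 (cons (fin 973 7 780)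
(mv 652 (cons (fin 716 4 652)
(mv 781 (cons (fin 782 2 778)
(mv 653 (cons (fin 717 5 652)
(mv 906 (cons (fin 905 1 841)
(mv 846 (cons (fin 907 1 842)
(mv 847 (cons (fin 779 3 779)
(fin 848 3 780)))))))))))))))
(mv 777 (cons (fin 778 3 777)
(mv 780 (cons (fin 973 7 780)
(mv 716 (cons (fin 652 4 652)
(mv 651 (cons (fin 715 7 651)
(mv 653 (cons (fin 717 6 652)
(mv 781 (cons (fin 782 2 778)
(mv 906 (cons (fin 905 1 841)
(mv 907 (cons (fin 971 5 715)
(mv 970 (cons (fin 969 1 905)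
(mv 1034 (cons (fin 779 6 778)
(fin 1098 6 842))))))))))))))))))))))
(cons (mv 777 (cons (fin 778 3 777)
(mv 780 (cons (fin 973 7 780)
(mv 652 (cons (fin 716 4 652)
(mv 782 (cons (fin 781 2 778)
(mv 846 (cons (fin 783 2 779)
(mv 847 (cons (fin 779 3 779)
(fin 848 1 844)))))))))))))
(mv 777 (cons (fin 778 3 777)
(mv 780 (cons (fin 973 7 780)
(mv 652 (cons (fin 716 4 652)
(mv 782 (cons (fin 781 2 778)
(mv 846 (cons (fin 783 2 779)
(mv 847 (cons (fin 907 1 843)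
(fin 848 1 844)))))))))))))))))))
(mv 842 (cons (fin 841 0 841)
(mv 910 (cons (fin 911 3 843)
(fin 845 0 842))))))))
(cons (mv 973 (cons (fin 1101 7 844)
(mv 845 (cons (cons (mv 782 (cons (fin 846 6 781)
(mv 781 (cons (fin 718 6 717)
(mv 1038 (cons (fin 974 4 781)
(fin 1102 4 845)))))))
(mv 1038 (cons (fin 1102 4 845)
(mv 781 (cons (fin 974 4 781)
(mv 717 (cons (fin 653 5 652)
(mv 718 (cons (fin 654 6 653)
(fin 782 6 717))))))))))
(cons (mv 1038 (cons (fin 1102 4 845)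
(mv 974 (cons (fin 781 4 781)
(mv 907 (cons (fin 906 0 906)
(mv 975 (cons (fin 976 3 908)
(fin 910 0 907)))))))))
(cons (mv 782 (cons (fin 846 6 781)
(mv 781 (cons (fin 718 6 717)
(mv 717 (cons (fin 653 5 652)
(mv 652 (cons (fin 716 7 652)
(mv 783 (cons (fin 784 1 780)
(mv 843 (cons (fin 842 2 778)
(mv 910 (cons (fin 911 3 843)
(fin 974 4 717)))))))))))))))
(mv 846 (cons (fin 782 6 781)
(mv 847 (cons (fin 907 1 843)
(fin 848 1 844)))))))))))
(mv 1101 (cons (fin 973 7 844)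
(mv 910 (cons (cons (mv 843 (cons (fin 911 3 843)
(mv 842 (cons (fin 907 3 842)
(fin 841 0 841)))))
(mv 907 (cons (cons (mv 842 (cons (fin 843 3 842)
(mv 841 (cons (fin 906 3 841)
(mv 846 (cons (fin 847 2 843)
(mv 974 (cons (fin 975 0 907)
(fin 1038 5 845)))))))))
(mv 846 (cons (fin 847 2 843)
(mv 974 (cons (fin 975 0 907)
(fin 1038 5 845))))))
(cons (mv 842 (cons (fin 843 3 842)
(mv 846 (cons (fin 847 2 843)
(mv 906 (cons (fin 841 3 841)
(mv 970 (cons (fin 969 1 905)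
(fin 971 1 906)))))))))
(mv 842 (cons (fin 843 3 842)
(mv 906 (cons (fin 841 3 841)
(mv 970 (cons (fin 969 1 905)
(fin 971 1 906)))))))))))
(cons (mv 974 (cons (mv 846 (cons (fin 1038 5 845)
(mv 907 (cons (fin 847 2 843)
(fin 975 0 907)))))
(cons (mv 975 (cons (fin 907 0 907)
(mv 976 (cons (fin 977 3 909)
(fin 911 0 908)))))
(mv 1038 (cons (fin 846 5 845)
(mv 1165 (cons (fin 1102 5 909)
(fin 1229 6 973))))))))
(mv 911 (cons (fin 843 3 843)
(mv 847 (cons (fin 848 2 844)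
(mv 976 (cons (fin 975 0 908)
(mv 912 (cons (fin 977 0 909)
(fin 1104 7 847))))))))))))))))))
(mv 972 (cons (cons (mv 779 (cons (fin 843 7 779)
(mv 780 (cons (fin 715 7 715)
(fin 973 4 780)))))
(mv 843 (cons (fin 779 7 779)
(mv 845 (cons (fin 781 6 780)
(mv 846 (cons (mv 907 (cons (fin 906 1 842)
(fin 847 1 843)))
(mv 782 (cons (fin 783 2 779)
(mv 909 (cons (fin 973 6 781)
(mv 842 (cons (fin 841 0 841)
(fin 910 0 842))))))))))))))
(cons (mv 780 (cons (fin 973 4 780)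
(mv 781 (cons (fin 717 6 716)
(fin 845 6 780)))))
(mv 779 (cons (fin 843 7 779)
(mv 780 (cons (fin 715 7 715)
(mv 781 (cons (fin 717 6 716)
(fin 845 6 780))))))))))))
(cons (mv 972 (cons (fin 1101 4 844)
(mv 779 (cons (fin 843 7 779)
(mv 780 (cons (fin 715 7 715)
(mv 781 (cons (fin 717 6 716)
(fin 845 6 780)))))))))
(cons (mv 972 (cons (fin 1101 4 844)
(mv 843 (cons (fin 779 7 779)
(mv 845 (cons (fin 781 6 780)
(mv 846 (cons (mv 907 (cons (fin 906 1 842)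
(fin 847 1 843)))
(mv 782 (cons (fin 783 2 779)
(mv 909 (cons (fin 973 6 781)
(mv 842 (cons (fin 841 0 841)
(fin 910 0 842)))))))))))))))
(mv 972 (cons (fin 1101 4 844)
(mv 780 (cons (fin 973 4 780)
(mv 781 (cons (fin 717 6 716)
(fin 845 6 780)))))))))))
(mv 972 (cons (cons (mv 844 (cons (fin 1101 4 844)
(mv 779 (cons (fin 843 7 779)
(mv 780 (cons (fin 715 7 715)
(mv 781 (cons (fin 717 6 716)
(fin 845 6 780)))))))))
(mv 1100 (cons (cons (mv 843 (cons (fin 907 7 843)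
(mv 845 (cons (fin 909 6 844)
(mv 1099 (cons (fin 1163 5 907)
(mv 1098 (cons (fin 1097 2 1033)
(mv 1101 (cons (fin 1038 2 1034)
(fin 1165 4 908)))))))))))
(cons (mv 845 (cons (fin 909 6 844)
(mv 907 (cons (fin 843 7 843)
(mv 971 (cons (fin 1164 7 907)
(mv 970 (cons (fin 969 0 969)
(mv 1099 (cons (fin 1163 5 907)
(mv 1098 (cons (fin 1097 2 1033)
(mv 1034 (cons (fin 1162 6 906)
(mv 1101 (cons (fin 1033 3 1033)
(fin 1038 2 1034)))))))))))))))))
(mv 845 (cons (fin 909 6 844)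
(mv 907 (cons (fin 843 7 843)
(mv 1163 (cons (fin 1099 5 907)
(mv 1164 (cons (fin 971 7 907)
(fin 1227 5 971)))))))))))
(cons (cons (mv 845 (cons (fin 909 6 844)
(mv 1099 (cons (fin 1163 5 907)
(mv 1098 (cons (fin 1097 2 1033)
(mv 1101 (cons (fin 1038 2 1034)
(fin 1165 4 908)))))))))
(mv 845 (cons (fin 909 6 844)
(mv 907 (cons (fin 843 7 843)
(mv 1101 (cons (fin 1165 4 908)
(mv 1164 (cons (fin 971 7 907)
(mv 1227 (cons (fin 1163 5 971)
(mv 1228 (cons (fin 1291 5 1035)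
(fin 1292 6 1036))))))))))))))
(cons (mv 845 (cons (fin 909 6 844)
(mv 907 (cons (fin 843 7 843)
(mv 1164 (cons (fin 971 7 907)
(mv 1165 (cons (fin 1101 4 908)
(fin 1229 4 972)))))))))
(mv 843 (cons (fin 907 7 843)
(mv 1099 (cons (fin 1163 5 907)
(mv 1098 (cons (fin 1097 2 1033)
(mv 1101 (cons (fin 1038 2 1034)
(fin 1165 4 908))))))))))))))
(cons (mv 845 (cons (cons (mv 781 (cons (fin 844 6 780)
(mv 909 (cons (fin 717 5 716)
(fin 1100 6 844)))))
(mv 844 (cons (fin 781 6 780)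
(mv 843 (cons (fin 779 7 779)
(mv 842 (cons (cons (mv 909 (cons (fin 841 0 841)
(fin 910 0 842)))
(mv 777 (cons (fin 778 3 777)
(mv 776 (cons (fin 841 3 776)
(mv 906 (cons (fin 905 1 841)
(mv 846 (cons (fin 907 1 842)
(mv 783 (cons (fin 782 2 779)
(mv 847 (cons (fin 784 2 780)
(mv 911 (cons (fin 910 0 843)
(fin 912 0 844))))))))))))))))
(cons (mv 777 (cons (fin 778 3 777)
(mv 905 (cons (fin 906 1 841)
(mv 910 (cons (fin 909 0 842)
(mv 846 (cons (fin 911 0 843)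
(mv 783 (cons (fin 782 2 779)
(mv 847 (cons (fin 907 1 843)
(fin 784 2 780)))))))))))))
(mv 777 (cons (fin 778 3 777)
(mv 841 (cons (fin 776 3 776)
(fin 909 0 841)))))))))))))
(cons (mv 1100 (cons (fin 909 6 844)
(mv 907 (cons (fin 843 7 843)
(mv 1163 (cons (fin 1099 5 907)
(mv 1164 (cons (fin 971 7 907)
(fin 1227 5 971)))))))))
(mv 844 (cons (fin 781 6 780)
(mv 843 (cons (fin 779 7 779)
(mv 907 (cons (fin 1100 7 843)
(mv 846 (cons (fin 906 1 842)
(fin 847 1 843))))))))))))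
(mv 1101 (cons (fin 844 4 844)
(mv 1165 (cons (fin 1229 7 972)
(fin 1100 4 908)))))))))
(cons (mv 972 (cons (cons (mv 844 (cons (fin 1101 4 844)
(mv 779 (cons (fin 843 7 779)
(mv 780 (cons (fin 715 7 715)
(fin 973 4 780)))))))
(mv 1100 (cons (cons (mv 843 (cons (fin 907 7 843)
(mv 1099 (cons (fin 1163 5 907)
(mv 1098 (cons (fin 1097 2 1033)
(mv 1101 (cons (fin 1038 2 1034)
(fin 1165 4 908)))))))))
(cons (mv 843 (cons (fin 907 7 843)
(mv 1163 (cons (fin 1099 5 907)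
(mv 1164 (cons (fin 1227 5 971)
(mv 1228 (cons (fin 973 6 972)
(mv 1292 (cons (fin 1101 6 1036)
(mv 1293 (cons (fin 1229 4 1036)
(fin 1357 4 1100)))))))))))))
(mv 843 (cons (fin 907 7 843)
(mv 1163 (cons (fin 1099 5 907)
(mv 1164 (cons (fin 1227 5 971)
(mv 1228 (cons (fin 973 6 972)
(mv 1229 (cons (fin 1165 4 972)
(fin 1293 4 1036)))))))))))))
(cons (mv 1099 (cons (fin 1163 5 907)
(mv 1098 (cons (fin 1097 2 1033)
(mv 1101 (cons (fin 1038 2 1034)
(fin 1165 4 908)))))))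
(cons (mv 843 (cons (fin 907 7 843)
(mv 1165 (cons (fin 1101 4 908)
(mv 1164 (cons (fin 1229 4 972)
(mv 1227 (cons (fin 1163 5 971)
(mv 1228 (cons (fin 1291 5 1035)
(fin 973 6 972)))))))))))
(mv 907 (cons (fin 843 7 843)
(mv 971 (cons (fin 1164 7 907)
(mv 970 (cons (fin 969 0 969)
(mv 973 (cons (fin 1038 0 970)
(mv 906 (cons (fin 905 3 905)
(fin 974 3 906))))))))))))))))
(cons (mv 844 (cons (cons (mv 779 (cons (fin 843 7 779)
(mv 780 (cons (fin 715 7 715)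
(fin 973 4 780)))))
(mv 781 (cons (fin 845 6 780)
(mv 843 (cons (fin 779 7 779)
(mv 1100 (cons (fin 907 7 843)
(mv 1163 (cons (fin 1099 5 907)
(mv 1164 (cons (fin 1227 5 971)
(mv 1228 (cons (fin 973 6 972)
(mv 1229 (cons (fin 1165 4 972)
(fin 1293 4 1036))))))))))))))))
(cons (mv 780 (cons (fin 973 4 780)
(mv 781 (cons (fin 717 6 716)
(fin 845 6 780)))))
(mv 779 (cons (fin 843 7 779)
(mv 780 (cons (fin 715 7 715)
(mv 781 (cons (fin 717 6 716)
(fin 845 6 780))))))))))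
(cons (mv 844 (cons (fin 1101 4 844)
(mv 779 (cons (fin 843 7 779)
(mv 780 (cons (fin 715 7 715)
(mv 781 (cons (fin 717 6 716)
(fin 845 6 780)))))))))
(mv 844 (cons (fin 1101 4 844)
(mv 780 (cons (fin 973 4 780)
(mv 781 (cons (fin 717 6 716)
(fin 845 6 780)))))))))))
(mv 972 (cons (cons (mv 844 (cons (fin 1101 4 844)
(mv 779 (cons (fin 843 7 779)
(mv 780 (cons (fin 715 7 715)
(fin 973 4 780)))))))
(mv 1100 (cons (cons (mv 843 (cons (fin 907 7 843)
(mv 779 (cons (fin 844 7 779)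
(mv 1163 (cons (fin 1099 5 907)
(mv 1164 (cons (fin 1227 5 971)
(mv 973 (cons (fin 909 6 908)
(fin 1228 6 972)))))))))))
(mv 1163 (cons (fin 1099 5 907)
(mv 1164 (cons (fin 1227 5 971)
(mv 973 (cons (fin 909 6 908)
(fin 1228 6 972))))))))
(cons (mv 843 (cons (fin 907 7 843)
(mv 844 (cons (fin 779 7 779)
(mv 973 (cons (fin 780 4 780)
(mv 1164 (cons (fin 909 6 908)
(fin 1228 6 972)))))))))
(cons (mv 1099 (cons (fin 1163 5 907)
(mv 1097 (cons (fin 1098 2 1033)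
(mv 844 (cons (mv 843 (cons (fin 779 7 779)
(fin 907 7 843)))
(cons (mv 780 (cons (fin 973 4 780)
(mv 715 (cons (fin 779 7 715)
(mv 716 (cons (fin 651 7 651)
(mv 717 (cons (fin 653 6 652)
(fin 781 6 716)))))))))
(mv 780 (cons (fin 973 4 780)
(mv 717 (cons (fin 781 6 716)
(mv 716 (cons (fin 653 6 652)
(mv 907 (cons (fin 843 7 843)
(fin 971 5 715))))))))))))))))
(mv 907 (cons (fin 843 7 843)
(mv 1163 (cons (fin 1099 5 907)
(mv 1164 (cons (fin 971 7 907)
(fin 1227 5 971))))))))))))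
(cons (mv 1100 (cons (cons (mv 843 (cons (fin 907 7 843)
(mv 1099 (cons (fin 1163 5 907)
(mv 1097 (cons (fin 1098 2 1033)
(mv 1165 (cons (fin 1101 4 908)
(mv 1164 (cons (fin 1229 4 972)
(mv 973 (cons (fin 909 6 908)
(fin 1228 6 972)))))))))))))
(mv 843 (cons (fin 907 7 843)
(mv 1163 (cons (fin 1099 5 907)
(mv 1164 (cons (fin 1227 5 971)
(mv 973 (cons (fin 909 6 908)
(fin 1228 6 972))))))))))
(cons (mv 1099 (cons (fin 1163 5 907)
(mv 1097 (cons (fin 1098 2 1033)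
(mv 1165 (cons (fin 1101 4 908)
(mv 1164 (cons (fin 1229 4 972)
(mv 973 (cons (fin 909 6 908)
(fin 1228 6 972)))))))))))
(cons (mv 843 (cons (fin 907 7 843)
(mv 1165 (cons (fin 1101 4 908)
(mv 1164 (cons (fin 1229 4 972)
(mv 973 (cons (fin 909 6 908)
(fin 1228 6 972)))))))))
(mv 843 (cons (fin 907 7 843)
(mv 1099 (cons (fin 1163 5 907)
(mv 1098 (cons (fin 1097 2 1033)
(mv 1101 (cons (fin 1038 2 1034)
(fin 1165 4 908)))))))))))))
(mv 1101 (cons (fin 844 4 844)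
(mv 1165 (cons (fin 1229 7 972)
(fin 1100 4 908)))))))))))
(cons (cons (cons (mv 972 (cons (cons (mv 844 (cons (fin 1101 4 844)
(mv 779 (cons (fin 843 7 779)
(mv 780 (cons (fin 715 7 715)
(fin 973 4 780)))))))
(mv 1100 (cons (cons (mv 843 (cons (fin 907 7 843)
(mv 845 (cons (fin 909 6 844)
(mv 1163 (cons (fin 1099 5 907)
(mv 1164 (cons (fin 1227 5 971)
(mv 1228 (cons (fin 973 6 972)
(mv 1292 (cons (fin 1101 6 1036)
(mv 1293 (cons (fin 1229 4 1036)
(fin 1357 4 1100)))))))))))))))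
(cons (mv 843 (cons (fin 907 7 843)
(mv 1163 (cons (fin 1099 5 907)
(mv 1164 (cons (fin 1227 5 971)
(mv 1228 (cons (fin 973 6 972)
(mv 1292 (cons (fin 1101 6 1036)
(mv 1293 (cons (fin 1229 4 1036)
(fin 1357 4 1100)))))))))))))
(mv 845 (cons (fin 909 6 844)
(mv 1163 (cons (fin 1099 5 907)
(mv 1164 (cons (fin 1227 5 971)
(mv 1228 (cons (fin 973 6 972)
(mv 1292 (cons (fin 1101 6 1036)
(mv 1293 (cons (fin 1229 4 1036)
(fin 1357 4 1100)))))))))))))))
(cons (cons (mv 843 (cons (fin 907 7 843)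
(mv 909 (cons (fin 845 6 844)
(mv 1164 (cons (fin 973 6 908)
(mv 1227 (cons (fin 1163 5 971)
(mv 1228 (cons (fin 1291 5 1035)
(mv 1292 (cons (fin 1101 6 1036)
(mv 1293 (cons (fin 1229 4 1036)
(fin 1357 4 1100)))))))))))))))
(mv 845 (cons (fin 909 6 844)
(mv 907 (cons (fin 843 7 843)
(mv 971 (cons (fin 1164 7 907)
(mv 970 (cons (fin 969 0 969)
(mv 973 (cons (fin 1038 0 970)
(mv 906 (cons (fin 905 3 905)
(fin 974 3 906))))))))))))))
(cons (mv 845 (cons (fin 909 6 844)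
(mv 907 (cons (fin 843 7 843)
(mv 1099 (cons (fin 1163 5 907)
(mv 1098 (cons (fin 1097 2 1033)
(mv 1101 (cons (fin 1038 2 1034)
(mv 1034 (cons (fin 1033 3 1033)
(mv 1162 (cons (fin 1161 1 1097)
(mv 970 (cons (fin 971 6 906)
(mv 905 (cons (fin 969 7 905)
(mv 906 (cons (fin 973 0 905)
(fin 841 7 841)))))))))))))))))))))
(mv 845 (cons (fin 909 6 844)
(mv 907 (cons (fin 843 7 843)
(mv 971 (cons (fin 1164 7 907)
(mv 970 (cons (fin 969 0 969)
(mv 1099 (cons (fin 1163 5 907)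
(mv 1098 (cons (fin 1097 2 1033)
(mv 1034 (cons (fin 1162 6 906)
(mv 1101 (cons (fin 1033 3 1033)
(fin 1038 2 1034))))))))))))))))))))))
(cons (mv 1100 (cons (cons (mv 843 (cons (fin 907 7 843)
(mv 779 (cons (fin 844 7 779)
(mv 909 (cons (fin 845 6 844)
(mv 1163 (cons (fin 1099 5 907)
(mv 1164 (cons (fin 1227 5 971)
(fin 973 6 908)))))))))))
(cons (mv 843 (cons (fin 907 7 843)
(mv 844 (cons (fin 779 7 779)
(mv 780 (cons (fin 973 4 780)
(mv 781 (cons (fin 717 6 716)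
(fin 845 6 780)))))))))
(mv 843 (cons (fin 907 7 843)
(mv 779 (cons (fin 844 7 779)
(mv 1163 (cons (fin 1099 5 907)
(mv 1164 (cons (fin 1227 5 971)
(mv 973 (cons (fin 909 6 908)
(fin 1228 6 972)))))))))))))
(cons (cons (mv 845 (cons (fin 909 6 844)
(mv 844 (cons (fin 781 6 780)
(mv 779 (cons (fin 843 7 779)
(mv 780 (cons (fin 715 7 715)
(fin 973 4 780)))))))))
(mv 845 (cons (fin 909 6 844)
(mv 781 (cons (fin 844 6 780)
(mv 1163 (cons (fin 1099 5 907)
(mv 1164 (cons (fin 1227 5 971)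
(mv 971 (cons (fin 907 7 907)
(mv 970 (cons (fin 969 0 969)
(mv 973 (cons (fin 1038 0 970)
(fin 1228 6 972))))))))))))))))
(cons (mv 843 (cons (fin 907 7 843)
(mv 844 (cons (fin 779 7 779)
(mv 845 (cons (fin 781 6 780)
(fin 909 6 844)))))))
(mv 843 (cons (fin 907 7 843)
(mv 909 (cons (fin 845 6 844)
(mv 1163 (cons (fin 1099 5 907)
(mv 1164 (cons (fin 1227 5 971)
(fin 973 6 908)))))))))))))
(cons (mv 844 (cons (fin 1101 4 844)
(mv 780 (cons (fin 973 4 780)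
(mv 781 (cons (fin 717 6 716)
(fin 845 6 780)))))))
(mv 844 (cons (fin 1101 4 844)
(mv 779 (cons (fin 843 7 779)
(mv 780 (cons (fin 715 7 715)
(mv 781 (cons (fin 717 6 716)
(fin 845 6 780)))))))))))))
(mv 972 (cons (cons (mv 844 (cons (fin 1101 4 844)
(mv 780 (cons (fin 973 4 780)
(mv 781 (cons (fin 717 6 716)
(fin 845 6 780)))))))
(mv 971 (cons (cons (mv 970 (cons (fin 969 0 969)
(mv 973 (cons (fin 1038 0 970)
(mv 780 (cons (fin 844 4 780)
(mv 905 (cons (fin 906 3 905)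
(mv 909 (cons (fin 910 2 906)
(mv 845 (cons (fin 781 5 780)
(fin 1100 5 844)))))))))))))
(cons (mv 1100 (cons (cons (mv 845 (cons (fin 909 6 844)
(mv 781 (cons (fin 844 6 780)
(mv 1099 (cons (fin 1163 5 907)
(mv 1097 (cons (fin 1098 2 1033)
(mv 1164 (cons (fin 907 7 907)
(mv 1228 (cons (fin 973 6 972)
(mv 1229 (cons (fin 1165 4 972)
(fin 1293 4 1036)))))))))))))))
(mv 845 (cons (fin 909 6 844)
(mv 844 (cons (fin 781 6 780)
(mv 780 (cons (fin 973 4 780)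
(mv 715 (cons (fin 779 7 715)
(mv 716 (cons (fin 651 7 651)
(fin 907 5 715))))))))))))
(cons (mv 1099 (cons (fin 1163 5 907)
(mv 1097 (cons (fin 1098 2 1033)
(mv 1164 (cons (fin 907 7 907)
(mv 1228 (cons (fin 973 6 972)
(mv 1229 (cons (fin 1165 4 972)
(fin 1293 4 1036)))))))))))
(cons (mv 845 (cons (fin 909 6 844)
(mv 781 (cons (fin 844 6 780)
(mv 1163 (cons (fin 1099 5 907)
(mv 1164 (cons (fin 1227 5 971)
(mv 1228 (cons (fin 973 6 972)
(mv 1229 (cons (fin 1165 4 972)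
(fin 1293 4 1036)))))))))))))
(mv 845 (cons (fin 909 6 844)
(mv 781 (cons (fin 844 6 780)
(mv 1163 (cons (fin 1099 5 907)
(mv 1164 (cons (fin 907 7 907)
(fin 1227 5 971)))))))))))))
(mv 970 (cons (fin 969 0 969)
(mv 973 (cons (fin 1038 0 970)
(mv 780 (cons (fin 844 4 780)
(mv 906 (cons (fin 905 3 905)
(mv 907 (cons (fin 974 3 906)
(mv 1034 (cons (fin 1033 1 969)
(mv 1098 (cons (fin 1162 6 906)
(mv 1097 (cons (fin 1161 5 905)
(mv 1099 (cons (fin 1100 2 1033)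
(fin 1163 4 906)))))))))))))))))))))
(cons (mv 970 (cons (fin 969 0 969)
(mv 973 (cons (fin 1038 0 970)
(mv 780 (cons (fin 844 4 780)
(mv 905 (cons (fin 906 3 905)
(mv 910 (cons (fin 909 2 906)
(mv 974 (cons (fin 911 2 907)
(mv 975 (cons (fin 907 3 907)
(fin 976 1 972)))))))))))))))
(cons (mv 970 (cons (fin 969 0 969)
(mv 909 (cons (mv 910 (cons (fin 907 1 906)
(fin 911 1 907)))
(mv 845 (cons (fin 1100 6 844)
(mv 781 (cons (fin 717 5 716)
(fin 844 6 780)))))))))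
(mv 970 (cons (fin 969 0 969)
(mv 973 (cons (fin 1038 0 970)
(mv 905 (cons (fin 906 3 905)
(mv 909 (cons (fin 910 2 906)
(mv 845 (cons (fin 781 5 780)
(fin 1100 5 844))))))))))))))))
(cons (mv 1100 (cons (cons (mv 845 (cons (fin 909 6 844)
(mv 1099 (cons (fin 1163 5 907)
(mv 1097 (cons (fin 1098 2 1033)
(mv 1165 (cons (fin 1101 4 908)
(mv 1164 (cons (fin 1229 4 972)
(mv 971 (cons (fin 907 7 907)
(mv 970 (cons (fin 969 0 969)
(mv 973 (cons (fin 1038 0 970)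
(fin 1228 6 972)))))))))))))))))
(cons (mv 845 (cons (fin 909 6 844)
(mv 1163 (cons (fin 1099 5 907)
(mv 1164 (cons (fin 1227 5 971)
(mv 907 (cons (fin 971 7 907)
(mv 1228 (cons (fin 973 6 972)
(mv 1292 (cons (fin 1101 6 1036)
(mv 1293 (cons (fin 1229 4 1036)
(fin 1357 4 1100)))))))))))))))
(mv 845 (cons (fin 909 6 844)
(mv 1163 (cons (fin 1099 5 907)
(mv 1164 (cons (fin 1227 5 971)
(mv 907 (cons (fin 971 7 907)
(mv 1228 (cons (fin 973 6 972)
(mv 1229 (cons (fin 1165 4 972)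
(fin 1293 4 1036)))))))))))))))
(cons (cons (mv 1099 (cons (fin 1163 5 907)
(mv 1097 (cons (fin 1098 2 1033)
(mv 1165 (cons (fin 1101 4 908)
(mv 1164 (cons (fin 1229 4 972)
(mv 971 (cons (fin 907 7 907)
(mv 970 (cons (fin 969 0 969)
(mv 973 (cons (fin 1038 0 970)
(fin 1228 6 972)))))))))))))))
(mv 845 (cons (fin 909 6 844)
(mv 1165 (cons (fin 1101 4 908)
(mv 1164 (cons (fin 1229 4 972)
(mv 907 (cons (fin 971 7 907)
(mv 1227 (cons (fin 1163 5 971)
(mv 1228 (cons (fin 1291 5 1035)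
(fin 973 6 972))))))))))))))
(cons (mv 845 (cons (fin 909 6 844)
(mv 1165 (cons (fin 1101 4 908)
(mv 1164 (cons (fin 1229 4 972)
(mv 971 (cons (fin 907 7 907)
(mv 970 (cons (fin 969 0 969)
(mv 973 (cons (fin 1038 0 970)
(fin 1228 6 972)))))))))))))
(mv 845 (cons (fin 909 6 844)
(mv 1099 (cons (fin 1163 5 907)
(mv 1098 (cons (fin 1097 2 1033)
(mv 1101 (cons (fin 1038 2 1034)
(fin 1165 4 908)))))))))))))
(mv 1101 (cons (fin 844 4 844)
(mv 1165 (cons (fin 1229 7 972)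
(fin 1100 4 908)))))))))
(cons (mv 972 (cons (cons (mv 844 (cons (fin 1101 4 844)
(mv 779 (cons (fin 843 7 779)
(mv 780 (cons (fin 715 7 715)
(fin 973 4 780)))))))
(mv 1100 (cons (cons (mv 845 (cons (fin 909 6 844)
(mv 1099 (cons (fin 1163 5 907)
(mv 1098 (cons (fin 1097 2 1033)
(mv 1101 (cons (fin 1038 2 1034)
(fin 1165 4 908)))))))))
(cons (mv 845 (cons (fin 909 6 844)
(mv 1163 (cons (fin 1099 5 907)
(mv 1164 (cons (fin 1227 5 971)
(mv 1228 (cons (fin 973 6 972)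
(mv 1292 (cons (fin 1101 6 1036)
(mv 1293 (cons (fin 1229 4 1036)
(fin 1357 4 1100)))))))))))))
(mv 845 (cons (fin 909 6 844)
(mv 1163 (cons (fin 1099 5 907)
(mv 1164 (cons (fin 1227 5 971)
(mv 1228 (cons (fin 973 6 972)
(mv 1229 (cons (fin 1165 4 972)
(fin 1293 4 1036)))))))))))))
(cons (mv 1099 (cons (fin 1163 5 907)
(mv 1098 (cons (fin 1097 2 1033)
(mv 1101 (cons (fin 1038 2 1034)
(fin 1165 4 908)))))))
(cons (mv 845 (cons (fin 909 6 844)
(mv 1165 (cons (fin 1101 4 908)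
(mv 1164 (cons (fin 1229 4 972)
(mv 1227 (cons (fin 1163 5 971)
(mv 1228 (cons (fin 1291 5 1035)
(fin 973 6 972)))))))))))
(mv 909 (cons (fin 845 6 844)
(mv 973 (cons (fin 1164 6 908)
(mv 1101 (cons (fin 1165 7 908)
(mv 910 (cons (fin 846 6 845)
(mv 911 (cons (fin 971 1 907)
(fin 912 1 908))))))))))))))))
(cons (mv 844 (cons (cons (mv 779 (cons (fin 843 7 779)
(mv 780 (cons (fin 715 7 715)
(fin 973 4 780)))))
(mv 779 (cons (fin 843 7 779)
(mv 845 (cons (fin 781 6 780)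
(mv 1100 (cons (fin 909 6 844)
(mv 1163 (cons (fin 1099 5 907)
(mv 1164 (cons (fin 1227 5 971)
(mv 1228 (cons (fin 973 6 972)
(mv 1229 (cons (fin 1165 4 972)
(fin 1293 4 1036))))))))))))))))
(cons (mv 780 (cons (fin 973 4 780)
(mv 781 (cons (fin 717 6 716)
(fin 845 6 780)))))
(mv 779 (cons (fin 843 7 779)
(mv 780 (cons (fin 715 7 715)
(mv 781 (cons (fin 717 6 716)
(fin 845 6 780))))))))))
(mv 844 (cons (fin 1101 4 844)
(mv 779 (cons (fin 843 7 779)
(mv 780 (cons (fin 715 7 715)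
(mv 781 (cons (fin 717 6 716)
(fin 845 6 780))))))))))))
(mv 972 (cons (cons (mv 844 (cons (fin 1101 4 844)
(mv 779 (cons (fin 843 7 779)
(mv 780 (cons (fin 715 7 715)
(fin 973 4 780)))))))
(mv 1100 (cons (cons (mv 843 (cons (fin 907 7 843)
(mv 845 (cons (fin 909 6 844)
(mv 1099 (cons (fin 1163 5 907)
(mv 1098 (cons (fin 1097 2 1033)
(mv 1101 (cons (fin 1038 2 1034)
(fin 1165 4 908)))))))))))
(cons (mv 843 (cons (fin 907 7 843)
(mv 845 (cons (fin 909 6 844)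
(mv 1163 (cons (fin 1099 5 907)
(mv 1164 (cons (fin 1227 5 971)
(mv 1228 (cons (fin 973 6 972)
(mv 1292 (cons (fin 1101 6 1036)
(mv 1293 (cons (fin 1229 4 1036)
(fin 1357 4 1100)))))))))))))))
(mv 843 (cons (fin 907 7 843)
(mv 845 (cons (fin 909 6 844)
(mv 1163 (cons (fin 1099 5 907)
(mv 1164 (cons (fin 1227 5 971)
(mv 1228 (cons (fin 973 6 972)
(mv 1229 (cons (fin 1165 4 972)
(fin 1293 4 1036)))))))))))))))
(cons (cons (mv 843 (cons (fin 907 7 843)
(mv 1099 (cons (fin 1163 5 907)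
(mv 1098 (cons (fin 1097 2 1033)
(mv 1101 (cons (fin 1038 2 1034)
(fin 1165 4 908)))))))))
(mv 843 (cons (fin 907 7 843)
(mv 845 (cons (fin 909 6 844)
(mv 1165 (cons (fin 1101 4 908)
(mv 1164 (cons (fin 1229 4 972)
(mv 1227 (cons (fin 1163 5 971)
(mv 1228 (cons (fin 1291 5 1035)
(fin 973 6 972))))))))))))))
(cons (mv 843 (cons (fin 907 7 843)
(mv 909 (cons (fin 845 6 844)
(mv 1164 (cons (fin 973 6 908)
(mv 1165 (cons (fin 1101 4 908)
(fin 1229 4 972)))))))))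
(mv 845 (cons (fin 909 6 844)
(mv 1099 (cons (fin 1163 5 907)
(mv 1098 (cons (fin 1097 2 1033)
(mv 1101 (cons (fin 1038 2 1034)
(fin 1165 4 908))))))))))))))
(cons (mv 1100 (cons (cons (mv 843 (cons (fin 907 7 843)
(mv 779 (cons (fin 844 7 779)
(mv 845 (cons (fin 909 6 844)
(mv 1163 (cons (fin 1099 5 907)
(mv 1164 (cons (fin 1227 5 971)
(mv 1228 (cons (fin 973 6 972)
(mv 1229 (cons (fin 1165 4 972)
(fin 1293 4 1036)))))))))))))))
(cons (mv 843 (cons (fin 907 7 843)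
(mv 779 (cons (fin 844 7 779)
(mv 1163 (cons (fin 1099 5 907)
(mv 1164 (cons (fin 1227 5 971)
(mv 1228 (cons (fin 973 6 972)
(mv 1229 (cons (fin 1165 4 972)
(fin 1293 4 1036)))))))))))))
(mv 845 (cons (fin 909 6 844)
(mv 781 (cons (fin 844 6 780)
(mv 1163 (cons (fin 1099 5 907)
(mv 1164 (cons (fin 1227 5 971)
(mv 1228 (cons (fin 973 6 972)
(mv 1229 (cons (fin 1165 4 972)
(fin 1293 4 1036)))))))))))))))
(cons (mv 843 (cons (fin 907 7 843)
(mv 779 (cons (fin 844 7 779)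
(mv 909 (cons (fin 845 6 844)
(mv 1164 (cons (fin 973 6 908)
(mv 1227 (cons (fin 1163 5 971)
(mv 1228 (cons (fin 1291 5 1035)
(mv 1229 (cons (fin 1165 4 972)
(fin 1293 4 1036)))))))))))))))
(cons (mv 843 (cons (fin 907 7 843)
(mv 844 (cons (fin 779 7 779)
(mv 845 (cons (fin 781 6 780)
(fin 909 6 844)))))))
(mv 843 (cons (fin 907 7 843)
(mv 845 (cons (fin 909 6 844)
(mv 1163 (cons (fin 1099 5 907)
(mv 1164 (cons (fin 1227 5 971)
(mv 1228 (cons (fin 973 6 972)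
(mv 1229 (cons (fin 1165 4 972)
(fin 1293 4 1036)))))))))))))))))
(cons (mv 844 (cons (fin 1101 4 844)
(mv 779 (cons (fin 843 7 779)
(mv 780 (cons (fin 715 7 715)
(mv 781 (cons (fin 717 6 716)
(fin 845 6 780)))))))))
(mv 844 (cons (fin 1101 4 844)
(mv 780 (cons (fin 973 4 780)
(mv 781 (cons (fin 717 6 716)
(fin 845 6 780)))))))))))))
(cons (cons (mv 972 (cons (cons (cons (mv 844 (cons (fin 1101 4 844)
(mv 779 (cons (fin 843 7 779)
(mv 845 (cons (fin 781 6 780)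
(mv 1100 (cons (fin 909 6 844)
(mv 1163 (cons (fin 1099 5 907)
(mv 1164 (cons (fin 1227 5 971)
(mv 907 (cons (fin 971 7 907)
(mv 846 (cons (fin 847 1 843)
(mv 905 (cons (fin 906 2 841)
(mv 1228 (cons (fin 973 6 972)
(mv 1229 (cons (fin 1165 4 972)
(fin 1293 4 1036)))))))))))))))))))))))
(mv 1100 (cons (cons (mv 843 (cons (fin 907 7 843)
(mv 779 (cons (fin 844 7 779)
(mv 845 (cons (fin 909 6 844)
(mv 1163 (cons (fin 1099 5 907)
(mv 1164 (cons (fin 1227 5 971)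
(mv 1228 (cons (fin 973 6 972)
(mv 1229 (cons (fin 1165 4 972)
(fin 1293 4 1036)))))))))))))))
(cons (mv 843 (cons (fin 907 7 843)
(mv 779 (cons (fin 844 7 779)
(mv 1163 (cons (fin 1099 5 907)
(mv 1164 (cons (fin 1227 5 971)
(mv 1228 (cons (fin 973 6 972)
(mv 1229 (cons (fin 1165 4 972)
(fin 1293 4 1036)))))))))))))
(mv 845 (cons (fin 909 6 844)
(mv 781 (cons (fin 844 6 780)
(mv 1163 (cons (fin 1099 5 907)
(mv 1164 (cons (fin 1227 5 971)
(mv 1228 (cons (fin 973 6 972)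
(mv 1229 (cons (fin 1165 4 972)
(fin 1293 4 1036)))))))))))))))
(cons (mv 843 (cons (fin 907 7 843)
(mv 779 (cons (fin 844 7 779)
(mv 909 (cons (fin 845 6 844)
(mv 1164 (cons (fin 973 6 908)
(mv 1227 (cons (fin 1163 5 971)
(mv 1228 (cons (fin 1291 5 1035)
(mv 1229 (cons (fin 1165 4 972)
(fin 1293 4 1036)))))))))))))))
(cons (mv 843 (cons (fin 907 7 843)
(mv 844 (cons (fin 779 7 779)
(mv 845 (cons (fin 781 6 780)
(fin 909 6 844)))))))
(mv 843 (cons (fin 907 7 843)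
(mv 845 (cons (fin 909 6 844)
(mv 1163 (cons (fin 1099 5 907)
(mv 1164 (cons (fin 1227 5 971)
(mv 1228 (cons (fin 973 6 972)
(mv 1229 (cons (fin 1165 4 972)
(fin 1293 4 1036))))))))))))))))))
(cons (mv 1100 (cons (cons (mv 843 (cons (fin 907 7 843)
(mv 845 (cons (fin 909 6 844)
(mv 1099 (cons (fin 1163 5 907)
(mv 1098 (cons (fin 1097 2 1033)
(mv 1101 (cons (fin 1038 2 1034)
(fin 1165 4 908)))))))))))
(cons (mv 843 (cons (fin 907 7 843)
(mv 845 (cons (fin 909 6 844)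
(mv 1163 (cons (fin 1099 5 907)
(mv 1164 (cons (fin 1227 5 971)
(mv 1228 (cons (fin 973 6 972)
(mv 1292 (cons (fin 1101 6 1036)
(mv 1293 (cons (fin 1229 4 1036)
(fin 1357 4 1100)))))))))))))))
(mv 843 (cons (fin 907 7 843)
(mv 845 (cons (fin 909 6 844)
(mv 1163 (cons (fin 1099 5 907)
(mv 1164 (cons (fin 1227 5 971)
(mv 1228 (cons (fin 973 6 972)
(mv 1229 (cons (fin 1165 4 972)
(fin 1293 4 1036)))))))))))))))
(cons (cons (mv 843 (cons (fin 907 7 843)
(mv 1099 (cons (fin 1163 5 907)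
(mv 1098 (cons (fin 1097 2 1033)
(mv 1101 (cons (fin 1038 2 1034)
(fin 1165 4 908)))))))))
(mv 845 (cons (fin 909 6 844)
(mv 1099 (cons (fin 1163 5 907)
(mv 1098 (cons (fin 1097 2 1033)
(mv 1101 (cons (fin 1038 2 1034)
(fin 1165 4 908))))))))))
(cons (mv 843 (cons (fin 907 7 843)
(mv 845 (cons (fin 909 6 844)
(mv 1165 (cons (fin 1101 4 908)
(mv 1164 (cons (fin 1229 4 972)
(mv 1227 (cons (fin 1163 5 971)
(mv 1228 (cons (fin 1291 5 1035)
(fin 973 6 972)))))))))))))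
(mv 843 (cons (fin 907 7 843)
(mv 909 (cons (fin 845 6 844)
(mv 973 (cons (fin 1164 6 908)
(mv 1101 (cons (fin 1165 7 908)
(mv 910 (cons (fin 846 6 845)
(mv 911 (cons (fin 971 1 907)
(fin 912 1 908)))))))))))))))))
(mv 844 (cons (fin 1101 4 844)
(mv 843 (cons (fin 779 7 779)
(mv 845 (cons (fin 781 6 780)
(mv 846 (cons (mv 907 (cons (fin 906 1 842)
(fin 847 1 843)))
(mv 782 (cons (fin 783 2 779)
(mv 909 (cons (fin 973 6 781)
(mv 842 (cons (fin 841 0 841)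
(fin 910 0 842)))))))))))))))))
(cons (cons (mv 844 (cons (fin 1101 4 844)
(mv 843 (cons (fin 779 7 779)
(mv 1100 (cons (fin 907 7 843)
(mv 1163 (cons (fin 1099 5 907)
(mv 1164 (cons (fin 1227 5 971)
(mv 973 (cons (fin 909 6 908)
(fin 1228 6 972)))))))))))))
(mv 844 (cons (fin 1101 4 844)
(mv 845 (cons (fin 781 6 780)
(mv 1100 (cons (fin 909 6 844)
(mv 1163 (cons (fin 1099 5 907)
(mv 1164 (cons (fin 1227 5 971)
(mv 907 (cons (fin 971 7 907)
(mv 846 (cons (fin 847 1 843)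
(mv 905 (cons (fin 906 2 841)
(mv 1228 (cons (fin 973 6 972)
(mv 1229 (cons (fin 1165 4 972)
(fin 1293 4 1036))))))))))))))))))))))
(cons (mv 844 (cons (fin 1101 4 844)
(mv 843 (cons (fin 779 7 779)
(mv 845 (cons (fin 781 6 780)
(mv 1100 (cons (fin 907 7 843)
(fin 909 6 844)))))))))
(cons (mv 844 (cons (fin 1101 4 844)
(mv 781 (cons (fin 845 6 780)
(mv 843 (cons (fin 779 7 779)
(mv 1100 (cons (fin 907 7 843)
(mv 1163 (cons (fin 1099 5 907)
(mv 1164 (cons (fin 1227 5 971)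
(mv 1228 (cons (fin 973 6 972)
(mv 1229 (cons (fin 1165 4 972)
(fin 1293 4 1036)))))))))))))))))
(mv 844 (cons (fin 1101 4 844)
(mv 779 (cons (fin 843 7 779)
(mv 845 (cons (fin 781 6 780)
(mv 1100 (cons (fin 909 6 844)
(mv 1163 (cons (fin 1099 5 907)
(mv 1164 (cons (fin 1227 5 971)
(mv 1228 (cons (fin 973 6 972)
(mv 1229 (cons (fin 1165 4 972)
(fin 1293 4 1036))))))))))))))))))))))
(mv 972 (cons (cons (mv 844 (cons (fin 1101 4 844)
(mv 779 (cons (fin 843 7 779)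
(mv 780 (cons (fin 715 7 715)
(fin 973 4 780)))))))
(mv 1100 (cons (cons (mv 843 (cons (fin 907 7 843)
(mv 845 (cons (fin 909 6 844)
(mv 1099 (cons (fin 1163 5 907)
(mv 1098 (cons (fin 1097 2 1033)
(mv 1101 (cons (fin 1038 2 1034)
(fin 1165 4 908)))))))))))
(mv 843 (cons (fin 907 7 843)
(mv 1099 (cons (fin 1163 5 907)
(mv 1098 (cons (fin 1097 2 1033)
(mv 1101 (cons (fin 1038 2 1034)
(fin 1165 4 908))))))))))
(cons (mv 843 (cons (fin 907 7 843)
(mv 909 (cons (fin 845 6 844)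
(mv 1163 (cons (fin 1099 5 907)
(mv 1164 (cons (fin 1227 5 971)
(fin 973 6 908)))))))))
(cons (mv 845 (cons (fin 909 6 844)
(mv 1099 (cons (fin 1163 5 907)
(mv 1098 (cons (fin 1097 2 1033)
(mv 1101 (cons (fin 1038 2 1034)
(fin 1165 4 908)))))))))
(mv 843 (cons (fin 907 7 843)
(mv 909 (cons (fin 845 6 844)
(mv 973 (cons (fin 1164 6 908)
(mv 1101 (cons (fin 1165 7 908)
(mv 910 (cons (fin 846 6 845)
(mv 911 (cons (fin 971 1 907)
(fin 912 1 908))))))))))))))))))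
(cons (mv 1100 (cons (cons (mv 843 (cons (fin 907 7 843)
(mv 779 (cons (fin 844 7 779)
(mv 909 (cons (fin 845 6 844)
(mv 1163 (cons (fin 1099 5 907)
(mv 1164 (cons (fin 1227 5 971)
(fin 973 6 908)))))))))))
(cons (mv 843 (cons (fin 907 7 843)
(mv 844 (cons (fin 779 7 779)
(mv 780 (cons (fin 973 4 780)
(mv 781 (cons (fin 717 6 716)
(fin 845 6 780)))))))))
(mv 843 (cons (fin 907 7 843)
(mv 779 (cons (fin 844 7 779)
(mv 1163 (cons (fin 1099 5 907)
(mv 1164 (cons (fin 1227 5 971)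
(mv 973 (cons (fin 909 6 908)
(fin 1228 6 972)))))))))))))
(cons (cons (mv 845 (cons (fin 909 6 844)
(mv 844 (cons (fin 781 6 780)
(mv 779 (cons (fin 843 7 779)
(mv 780 (cons (fin 715 7 715)
(fin 973 4 780)))))))))
(mv 845 (cons (fin 909 6 844)
(mv 781 (cons (fin 844 6 780)
(mv 1163 (cons (fin 1099 5 907)
(mv 1164 (cons (fin 1227 5 971)
(mv 971 (cons (fin 907 7 907)
(mv 970 (cons (fin 969 0 969)
(mv 973 (cons (fin 1038 0 970)
(fin 1228 6 972))))))))))))))))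
(cons (mv 843 (cons (fin 907 7 843)
(mv 844 (cons (fin 779 7 779)
(mv 845 (cons (fin 781 6 780)
(fin 909 6 844)))))))
(mv 843 (cons (fin 907 7 843)
(mv 909 (cons (fin 845 6 844)
(mv 1163 (cons (fin 1099 5 907)
(mv 1164 (cons (fin 1227 5 971)
(fin 973 6 908)))))))))))))
(cons (mv 844 (cons (fin 1101 4 844)
(mv 779 (cons (fin 843 7 779)
(mv 780 (cons (fin 715 7 715)
(mv 781 (cons (fin 717 6 716)
(fin 845 6 780)))))))))
(mv 844 (cons (fin 1101 4 844)
(mv 780 (cons (fin 973 4 780)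
(mv 781 (cons (fin 717 6 716)
(fin 845 6 780))))))))))))
(cons (mv 972 (cons (cons (mv 844 (cons (fin 1101 4 844)
(mv 780 (cons (fin 973 4 780)
(mv 781 (cons (fin 717 6 716)
(fin 845 6 780)))))))
(mv 1100 (cons (cons (mv 843 (cons (fin 907 7 843)
(mv 845 (cons (fin 909 6 844)
(mv 781 (cons (fin 844 6 780)
(mv 1163 (cons (fin 1099 5 907)
(mv 1164 (cons (fin 1227 5 971)
(mv 1228 (cons (fin 973 6 972)
(mv 1229 (cons (fin 1165 4 972)
(fin 1293 4 1036)))))))))))))))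
(cons (mv 843 (cons (fin 907 7 843)
(mv 1163 (cons (fin 1099 5 907)
(mv 1164 (cons (fin 1227 5 971)
(mv 1228 (cons (fin 973 6 972)
(mv 1229 (cons (fin 1165 4 972)
(fin 1293 4 1036)))))))))))
(mv 845 (cons (fin 909 6 844)
(mv 781 (cons (fin 844 6 780)
(mv 1163 (cons (fin 1099 5 907)
(mv 1164 (cons (fin 1227 5 971)
(mv 1228 (cons (fin 973 6 972)
(mv 1229 (cons (fin 1165 4 972)
(fin 1293 4 1036)))))))))))))))
(cons (cons (mv 843 (cons (fin 907 7 843)
(mv 909 (cons (fin 845 6 844)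
(mv 1164 (cons (fin 973 6 908)
(mv 1227 (cons (fin 1163 5 971)
(mv 1228 (cons (fin 1291 5 1035)
(mv 1229 (cons (fin 1165 4 972)
(fin 1293 4 1036)))))))))))))
(mv 845 (cons (fin 909 6 844)
(mv 781 (cons (fin 844 6 780)
(mv 907 (cons (fin 843 7 843)
(mv 971 (cons (fin 1164 7 907)
(mv 970 (cons (fin 969 0 969)
(mv 973 (cons (fin 1038 0 970)
(mv 906 (cons (fin 905 3 905)
(fin 974 3 906))))))))))))))))
(cons (mv 845 (cons (fin 909 6 844)
(mv 844 (cons (fin 781 6 780)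
(mv 780 (cons (fin 973 4 780)
(mv 907 (cons (fin 843 7 843)
(mv 716 (cons (fin 971 5 715)
(mv 651 (cons (fin 715 7 651)
(mv 652 (cons (fin 587 7 587)
(mv 653 (cons (fin 589 6 588)
(fin 717 6 652)))))))))))))))))
(mv 845 (cons (fin 909 6 844)
(mv 781 (cons (fin 844 6 780)
(mv 907 (cons (fin 843 7 843)
(mv 1163 (cons (fin 1099 5 907)
(mv 1164 (cons (fin 971 7 907)
(fin 1227 5 971))))))))))))))))
(cons (mv 1100 (cons (cons (mv 843 (cons (fin 907 7 843)
(mv 845 (cons (fin 909 6 844)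
(mv 1099 (cons (fin 1163 5 907)
(mv 1098 (cons (fin 1097 2 1033)
(mv 1101 (cons (fin 1038 2 1034)
(fin 1165 4 908)))))))))))
(cons (mv 843 (cons (fin 907 7 843)
(mv 845 (cons (fin 909 6 844)
(mv 1163 (cons (fin 1099 5 907)
(mv 1164 (cons (fin 1227 5 971)
(mv 1228 (cons (fin 973 6 972)
(mv 1292 (cons (fin 1101 6 1036)
(mv 1293 (cons (fin 1229 4 1036)
(fin 1357 4 1100)))))))))))))))
(mv 843 (cons (fin 907 7 843)
(mv 845 (cons (fin 909 6 844)
(mv 1163 (cons (fin 1099 5 907)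
(mv 1164 (cons (fin 1227 5 971)
(mv 1228 (cons (fin 973 6 972)
(mv 1229 (cons (fin 1165 4 972)
(fin 1293 4 1036)))))))))))))))
(cons (cons (mv 843 (cons (fin 907 7 843)
(mv 1099 (cons (fin 1163 5 907)
(mv 1098 (cons (fin 1097 2 1033)
(mv 1101 (cons (fin 1038 2 1034)
(fin 1165 4 908)))))))))
(mv 845 (cons (fin 909 6 844)
(mv 1099 (cons (fin 1163 5 907)
(mv 1098 (cons (fin 1097 2 1033)
(mv 1101 (cons (fin 1038 2 1034)
(fin 1165 4 908))))))))))
(cons (mv 843 (cons (fin 907 7 843)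
(mv 845 (cons (fin 909 6 844)
(mv 1165 (cons (fin 1101 4 908)
(mv 1164 (cons (fin 1229 4 972)
(mv 1227 (cons (fin 1163 5 971)
(mv 1228 (cons (fin 1291 5 1035)
(fin 973 6 972)))))))))))))
(mv 843 (cons (fin 907 7 843)
(mv 909 (cons (fin 845 6 844)
(mv 973 (cons (fin 1164 6 908)
(mv 1101 (cons (fin 1165 7 908)
(mv 910 (cons (fin 846 6 845)
(mv 911 (cons (fin 971 1 907)
(fin 912 1 908)))))))))))))))))
(cons (mv 844 (cons (fin 1101 4 844)
(mv 845 (cons (fin 781 6 780)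
(mv 1100 (cons (fin 909 6 844)
(mv 907 (cons (fin 843 7 843)
(mv 846 (cons (fin 847 1 843)
(mv 905 (cons (fin 906 2 841)
(mv 1163 (cons (fin 1099 5 907)
(mv 1164 (cons (fin 971 7 907)
(fin 1227 5 971)))))))))))))))))
(mv 844 (cons (fin 1101 4 844)
(mv 780 (cons (fin 973 4 780)
(mv 717 (cons (fin 781 6 716)
(mv 716 (cons (fin 653 6 652)
(mv 651 (cons (fin 715 7 651)
(mv 652 (cons (fin 587 7 587)
(mv 907 (cons (fin 843 5 651)
(fin 971 5 715)))))))))))))))))))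
(cons (mv 972 (cons (cons (mv 844 (cons (fin 1101 4 844)
(mv 779 (cons (fin 843 7 779)
(mv 780 (cons (fin 715 7 715)
(fin 973 4 780)))))))
(mv 1100 (cons (cons (mv 843 (cons (fin 907 7 843)
(mv 779 (cons (fin 844 7 779)
(mv 845 (cons (fin 909 6 844)
(mv 1163 (cons (fin 1099 5 907)
(mv 1164 (cons (fin 1227 5 971)
(mv 1228 (cons (fin 973 6 972)
(mv 1229 (cons (fin 1165 4 972)
(fin 1293 4 1036)))))))))))))))
(cons (mv 843 (cons (fin 907 7 843)
(mv 779 (cons (fin 844 7 779)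
(mv 1163 (cons (fin 1099 5 907)
(mv 1164 (cons (fin 1227 5 971)
(mv 1228 (cons (fin 973 6 972)
(mv 1229 (cons (fin 1165 4 972)
(fin 1293 4 1036)))))))))))))
(mv 845 (cons (fin 909 6 844)
(mv 1163 (cons (fin 1099 5 907)
(mv 1164 (cons (fin 1227 5 971)
(mv 1228 (cons (fin 973 6 972)
(mv 1229 (cons (fin 1165 4 972)
(fin 1293 4 1036)))))))))))))
(cons (cons (mv 843 (cons (fin 907 7 843)
(mv 779 (cons (fin 844 7 779)
(mv 909 (cons (fin 845 6 844)
(mv 1164 (cons (fin 973 6 908)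
(mv 1227 (cons (fin 1163 5 971)
(mv 1228 (cons (fin 1291 5 1035)
(mv 1229 (cons (fin 1165 4 972)
(fin 1293 4 1036)))))))))))))))
(mv 843 (cons (fin 907 7 843)
(mv 844 (cons (fin 779 7 779)
(mv 909 (cons (fin 845 6 844)
(mv 973 (cons (fin 1164 6 908)
(fin 780 4 780))))))))))
(cons (mv 843 (cons (fin 907 7 843)
(mv 844 (cons (fin 779 7 779)
(mv 973 (cons (fin 780 4 780)
(mv 1099 (cons (fin 1163 5 907)
(mv 1097 (cons (fin 1098 2 1033)
(mv 842 (cons (cons (mv 909 (cons (fin 841 0 841)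
(fin 845 5 844)))
(mv 905 (cons (cons (mv 841 (cons (fin 904 1 840)
(mv 776 (cons (fin 777 3 776)
(mv 775 (cons (fin 840 3 775)
(mv 906 (cons (fin 845 1 841)
(mv 970 (cons (fin 971 3 905)
(mv 1033 (cons (fin 1034 5 841)
(fin 969 6 841)))))))))))))
(cons (mv 841 (cons (fin 904 1 840)
(mv 777 (cons (fin 776 3 776)
(mv 778 (cons (fin 845 3 777)
(mv 714 (cons (fin 650 5 649)
(fin 969 6 713)))))))))
(mv 906 (cons (fin 845 1 841)
(mv 903 (cons (fin 904 2 839)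
(mv 970 (cons (fin 971 3 905)
(mv 1033 (cons (fin 1034 5 841)
(fin 969 6 841)))))))))))
(cons (mv 906 (cons (fin 845 1 841)
(mv 969 (cons (fin 1033 6 841)
(mv 778 (cons (fin 714 5 713)
(mv 970 (cons (fin 971 3 905)
(mv 777 (cons (fin 713 7 713)
(mv 776 (cons (fin 841 3 776)
(fin 775 0 775)))))))))))))
(cons (mv 904 (cons (fin 841 1 840)
(mv 906 (cons (fin 903 2 839)
(mv 970 (cons (fin 971 3 905)
(mv 1033 (cons (fin 1034 5 841)
(fin 969 6 841)))))))))
(mv 841 (cons (fin 904 1 840)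
(mv 777 (cons (fin 776 3 776)
(mv 845 (cons (fin 778 3 777)
(fin 906 1 841))))))))))))
(cons (mv 841 (cons (fin 909 0 841)
(mv 776 (cons (fin 777 3 776)
(mv 840 (cons (fin 775 3 775)
(mv 904 (cons (fin 903 1 839)
(fin 905 1 840)))))))))
(mv 970 (cons (mv 971 (cons (fin 969 0 969)
(fin 1038 0 970)))
(cons (mv 845 (cons (fin 909 5 844)
(mv 778 (cons (fin 777 3 777)
(mv 906 (cons (fin 905 1 841)
(mv 1033 (cons (fin 969 5 777)
(fin 1034 5 841)))))))))
(mv 909 (cons (fin 845 5 844)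
(mv 910 (cons (fin 911 3 843)
(fin 971 2 906)))))))))))))))))))))
(mv 845 (cons (fin 909 6 844)
(mv 907 (cons (fin 843 7 843)
(mv 1163 (cons (fin 1099 5 907)
(mv 1164 (cons (fin 971 7 907)
(fin 1227 5 971))))))))))))))
(cons (mv 1100 (cons (cons (mv 843 (cons (fin 907 7 843)
(mv 845 (cons (fin 909 6 844)
(mv 1099 (cons (fin 1163 5 907)
(mv 1098 (cons (fin 1097 2 1033)
(mv 1101 (cons (fin 1038 2 1034)
(fin 1165 4 908)))))))))))
(cons (mv 843 (cons (fin 907 7 843)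
(mv 845 (cons (fin 909 6 844)
(mv 1163 (cons (fin 1099 5 907)
(mv 1164 (cons (fin 1227 5 971)
(mv 1228 (cons (fin 973 6 972)
(mv 1292 (cons (fin 1101 6 1036)
(mv 1293 (cons (fin 1229 4 1036)
(fin 1357 4 1100)))))))))))))))
(mv 843 (cons (fin 907 7 843)
(mv 845 (cons (fin 909 6 844)
(mv 1163 (cons (fin 1099 5 907)
(mv 1164 (cons (fin 1227 5 971)
(mv 1228 (cons (fin 973 6 972)
(mv 1229 (cons (fin 1165 4 972)
(fin 1293 4 1036)))))))))))))))
(cons (cons (mv 843 (cons (fin 907 7 843)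
(mv 1099 (cons (fin 1163 5 907)
(mv 1098 (cons (fin 1097 2 1033)
(mv 1101 (cons (fin 1038 2 1034)
(fin 1165 4 908)))))))))
(mv 845 (cons (fin 909 6 844)
(mv 1099 (cons (fin 1163 5 907)
(mv 1098 (cons (fin 1097 2 1033)
(mv 1101 (cons (fin 1038 2 1034)
(fin 1165 4 908))))))))))
(cons (mv 843 (cons (fin 907 7 843)
(mv 845 (cons (fin 909 6 844)
(mv 1165 (cons (fin 1101 4 908)
(mv 1164 (cons (fin 1229 4 972)
(mv 1227 (cons (fin 1163 5 971)
(mv 1228 (cons (fin 1291 5 1035)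
(fin 973 6 972)))))))))))))
(mv 843 (cons (fin 907 7 843)
(mv 909 (cons (fin 845 6 844)
(mv 973 (cons (fin 1164 6 908)
(mv 1101 (cons (fin 1165 7 908)
(mv 910 (cons (fin 846 6 845)
(mv 911 (cons (fin 971 1 907)
(fin 912 1 908)))))))))))))))))
(mv 1101 (cons (fin 844 4 844)
(mv 1165 (cons (fin 1229 7 972)
(fin 1100 4 908))))))))
(mv 972 (cons (cons (mv 844 (cons (fin 1101 4 844)
(mv 779 (cons (fin 843 7 779)
(mv 780 (cons (fin 715 7 715)
(fin 973 4 780)))))))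
(mv 1100 (cons (cons (cons (mv 843 (cons (fin 907 7 843)
(mv 845 (cons (fin 909 6 844)
(mv 1101 (cons (fin 1165 4 908)
(mv 1163 (cons (fin 1099 5 907)
(mv 1164 (cons (fin 1227 5 971)
(mv 1228 (cons (fin 973 6 972)
(fin 1292 6 1036)))))))))))))
(mv 843 (cons (fin 907 7 843)
(mv 845 (cons (fin 909 6 844)
(mv 1163 (cons (fin 1099 5 907)
(mv 1164 (cons (fin 1227 5 971)
(mv 1228 (cons (fin 973 6 972)
(mv 1292 (cons (fin 1101 6 1036)
(mv 1293 (cons (fin 1229 4 1036)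
(fin 1357 4 1100))))))))))))))))
(cons (mv 843 (cons (fin 907 7 843)
(mv 1101 (cons (fin 1165 4 908)
(mv 1163 (cons (fin 1099 5 907)
(mv 1164 (cons (fin 1227 5 971)
(mv 1228 (cons (fin 973 6 972)
(fin 1292 6 1036)))))))))))
(mv 843 (cons (fin 907 7 843)
(mv 845 (cons (fin 909 6 844)
(mv 1163 (cons (fin 1099 5 907)
(mv 1164 (cons (fin 1227 5 971)
(mv 1228 (cons (fin 973 6 972)
(mv 1229 (cons (fin 1165 4 972)
(fin 1293 4 1036)))))))))))))))
(cons (cons (mv 845 (cons (fin 909 6 844)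
(mv 1101 (cons (fin 1165 4 908)
(mv 1163 (cons (fin 1099 5 907)
(mv 1164 (cons (fin 1227 5 971)
(mv 1228 (cons (fin 973 6 972)
(fin 1292 6 1036)))))))))))
(mv 843 (cons (fin 907 7 843)
(mv 845 (cons (fin 909 6 844)
(mv 1165 (cons (fin 1101 4 908)
(mv 1164 (cons (fin 1229 4 972)
(mv 1227 (cons (fin 1163 5 971)
(mv 1228 (cons (fin 1291 5 1035)
(fin 973 6 972))))))))))))))
(cons (mv 843 (cons (fin 907 7 843)
(mv 909 (cons (fin 845 6 844)
(mv 973 (cons (fin 1164 6 908)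
(mv 1101 (cons (fin 1165 7 908)
(mv 910 (cons (fin 846 6 845)
(mv 911 (cons (fin 971 1 907)
(fin 912 1 908)))))))))))))
(cons (mv 845 (cons (fin 909 6 844)
(mv 907 (cons (fin 843 7 843)
(mv 1099 (cons (fin 1163 5 907)
(mv 1098 (cons (fin 1097 2 1033)
(mv 1101 (cons (fin 1165 4 908)
(mv 1034 (cons (fin 1033 3 1033)
(mv 1162 (cons (fin 1161 1 1097)
(mv 970 (cons (fin 971 6 906)
(mv 905 (cons (fin 969 7 905)
(mv 906 (cons (fin 973 0 905)
(fin 841 7 841)))))))))))))))))))))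
(mv 843 (cons (fin 907 7 843)
(mv 845 (cons (fin 909 6 844)
(mv 1163 (cons (fin 1099 5 907)
(mv 1164 (cons (fin 1227 5 971)
(mv 1165 (cons (fin 1101 4 908)
(fin 1229 4 972)))))))))))))))))
(cons (mv 1100 (cons (cons (mv 843 (cons (fin 907 7 843)
(mv 779 (cons (fin 844 7 779)
(mv 845 (cons (fin 909 6 844)
(mv 1163 (cons (fin 1099 5 907)
(mv 1164 (cons (fin 1227 5 971)
(mv 1228 (cons (fin 973 6 972)
(mv 1229 (cons (fin 1165 4 972)
(fin 1293 4 1036)))))))))))))))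
(cons (mv 843 (cons (fin 907 7 843)
(mv 779 (cons (fin 844 7 779)
(mv 1163 (cons (fin 1099 5 907)
(mv 1164 (cons (fin 1227 5 971)
(mv 1228 (cons (fin 973 6 972)
(mv 1229 (cons (fin 1165 4 972)
(fin 1293 4 1036)))))))))))))
(mv 845 (cons (fin 909 6 844)
(mv 781 (cons (fin 844 6 780)
(mv 1163 (cons (fin 1099 5 907)
(mv 1164 (cons (fin 1227 5 971)
(mv 1228 (cons (fin 973 6 972)
(mv 1229 (cons (fin 1165 4 972)
(fin 1293 4 1036)))))))))))))))
(cons (mv 843 (cons (fin 907 7 843)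
(mv 779 (cons (fin 844 7 779)
(mv 909 (cons (fin 845 6 844)
(mv 1164 (cons (fin 973 6 908)
(mv 1227 (cons (fin 1163 5 971)
(mv 1228 (cons (fin 1291 5 1035)
(mv 1229 (cons (fin 1165 4 972)
(fin 1293 4 1036)))))))))))))))
(cons (mv 843 (cons (fin 907 7 843)
(mv 844 (cons (fin 779 7 779)
(mv 845 (cons (fin 781 6 780)
(fin 909 6 844)))))))
(mv 843 (cons (fin 907 7 843)
(mv 845 (cons (fin 909 6 844)
(mv 1163 (cons (fin 1099 5 907)
(mv 1164 (cons (fin 1227 5 971)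
(mv 1228 (cons (fin 973 6 972)
(mv 1229 (cons (fin 1165 4 972)
(fin 1293 4 1036)))))))))))))))))
(cons (mv 844 (cons (fin 1101 4 844)
(mv 779 (cons (fin 843 7 779)
(mv 780 (cons (fin 715 7 715)
(mv 781 (cons (fin 717 6 716)
(fin 845 6 780)))))))))
(mv 844 (cons (fin 1101 4 844)
(mv 780 (cons (fin 973 4 780)
(mv 781 (cons (fin 717 6 716)
(fin 845 6 780)))))))))))))))))
def l89 : Lem := ⟨13990367052752487320312544716796506086908544040920606671647422636019387761887306954839904539139044083307651742587111316666437654968213159228883358442086434255575408537896731526142943938247376028752316727663063488954060238702619831287825813914729338905000590143517244074225654467916245441707506770996675619254697984, 9436813469196108649737266854010068704023223176190350343363800403252125460043866569002894565172089384914943966479264465726926281271759578225751626167554547677691774319316349447868177942772353415980273588829989796882560169314850628723954645691702667918878015559994350872345968544777155714048050738686735307771625683283470888791444506293895107926410426049817882220757944766423192549629961208892527152351078776832,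 9436813469196108649737266854010068704023223176190350343363800403252125460043866569002894565172089384914943966479264465726926281271759578225751626167554547677691774319316349447868177942772353415980273588829989796882560169314850628723954645691702667918878015559994350872345968544777155714048050738686735307771625683283470888791444506293895107926410426049817882220757944766423192549629961208892527152351078776832, 17, 33⟩
theorem l89_valid : l89.Valid :=
  Lem.valid_of_chk t89 t89_valid [1036, 1037, 1040] c89 l89 (by decide +kernel)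
end Crest.Agent.SnakyAux
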