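import Crest.Agent.S0047_aux.Checker

set_option autoImplicit false
set_option maxRecDepth 100000
namespace Crest.Agent.SnakyAux
open Cert
def t90 : Tbl := Tbl.nil
theorem t90_valid : t90.Valid := Tbl.valid_nil
def c90 : Cert :=
(mv 972 (cons (cons (cons (mv 1101 (cons (cons (mv 908 (cons (fin 844 4 844)
(mv 1165 (cons (fin 973 7 908)
(fin 1229 7 972)))))
(mv 1165 (cons (fin 1229 7 972)
(mv 973 (cons (mv 910 (cons (fin 974 6 909)
(mv 909 (cons (fin 846 6 845)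
(mv 845 (cons (fin 781 5 780)
(fin 1100 5 844)))))))
(cons (mv 1164 (cons (fin 1228 5 972)
(mv 909 (cons (fin 1100 5 908)
(mv 1166 (cons (fin 1102 4 909)
(fin 1230 4 973)))))))
(mv 974 (cons (fin 910 6 909)
(mv 975 (cons (fin 1035 1 971)
(fin 976 1 972)))))))))))
(cons (mv 908 (cons (fin 844 4 844)
(mv 1100 (cons (cons (mv 843 (cons (fin 907 7 843)
(mv 845 (cons (fin 909 6 844)
(mv 1099 (cons (fin 1163 5 907)
(mv 1098 (cons (fin 1097 2 1033)
(mv 1034 (cons (fin 1033 3 1033)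
(mv 1035 (cons (fin 1102 3 1034)
(mv 969 (cons (fin 970 3 969)
(mv 973 (cons (fin 974 2 970)
(mv 1162 (cons (fin 1161 1 1097)
(mv 1226 (cons (fin 971 6 970)
(fin 1290 6 1034)))))))))))))))))))))
(cons (mv 843 (cons (fin 907 7 843)
(mv 1099 (cons (fin 1163 5 907)
(mv 1098 (cons (fin 1097 2 1033)
(mv 1034 (cons (fin 1033 3 1033)
(mv 1035 (cons (fin 1102 3 1034)
(mv 969 (cons (fin 970 3 969)
(mv 973 (cons (fin 974 2 970)
(mv 1162 (cons (fin 1161 1 1097)
(mv 1226 (cons (fin 971 6 970)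
(fin 1290 6 1034)))))))))))))))))))
(mv 843 (cons (fin 907 7 843)
(mv 909 (cons (fin 845 6 844)
(mv 973 (cons (fin 1164 5 908)
(mv 846 (cons (fin 910 6 845)
(mv 1102 (cons (fin 1166 4 909)
(mv 1035 (cons (fin 1103 3 1035)
(fin 1034 0 1034)))))))))))))))
(cons (mv 845 (cons (fin 909 6 844)
(mv 1099 (cons (fin 1163 5 907)
(mv 1098 (cons (fin 1097 2 1033)
(mv 1034 (cons (fin 1033 3 1033)
(mv 1035 (cons (fin 1102 3 1034)
(mv 969 (cons (fin 970 3 969)
(mv 973 (cons (fin 974 2 970)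
(mv 1162 (cons (fin 1161 1 1097)
(mv 1226 (cons (fin 971 6 970)
(fin 1290 6 1034)))))))))))))))))))
(cons (mv 843 (cons (fin 907 7 843)
(mv 845 (cons (fin 909 6 844)
(mv 1099 (cons (fin 1163 5 907)
(mv 1098 (cons (fin 1097 2 1033)
(mv 1034 (cons (fin 1033 3 1033)
(mv 1035 (cons (fin 1102 3 1034)
(mv 969 (cons (fin 970 3 969)
(mv 1162 (cons (fin 1161 1 1097)
(mv 1226 (cons (fin 971 6 970)
(fin 1290 6 1034)))))))))))))))))))
(mv 843 (cons (fin 907 7 843)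
(mv 845 (cons (fin 909 6 844)
(mv 1163 (cons (fin 1099 5 907)
(mv 1164 (cons (fin 1227 5 971)
(mv 1228 (cons (fin 973 6 972)
(fin 1292 6 1036)))))))))))))))))
(mv 908 (cons (fin 844 4 844)
(mv 1165 (cons (fin 1229 7 972)
(fin 1100 4 908))))))))
(cons (mv 971 (cons (cons (cons (mv 969 (cons (fin 970 0 969)
(mv 907 (cons (cons (mv 843 (cons (fin 779 4 779)
(mv 1100 (cons (fin 908 7 843)
(fin 1164 7 907)))))
(mv 843 (cons (fin 779 4 779)
(mv 1035 (cons (cons (mv 778 (cons (fin 842 7 778)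
(mv 780 (cons (fin 844 6 779)
(mv 1034 (cons (fin 1098 5 842)
(mv 973 (cons (fin 974 1 970)
(fin 1033 2 969)))))))))
(mv 778 (cons (fin 842 7 778)
(mv 844 (cons (fin 780 6 779)
(mv 908 (cons (fin 1099 5 843)
(mv 845 (cons (fin 781 6 780)
(mv 846 (cons (fin 906 1 842)
(fin 847 1 843))))))))))))
(cons (mv 778 (cons (fin 842 7 778)
(mv 1034 (cons (fin 1098 5 842)
(mv 973 (cons (fin 974 1 970)
(fin 1033 2 969)))))))
(mv 780 (cons (fin 844 6 779)
(mv 1034 (cons (fin 1098 5 842)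
(mv 973 (cons (fin 974 1 970)
(fin 1033 2 969)))))))))))))
(cons (mv 1100 (cons (fin 1164 7 907)
(mv 908 (cons (cons (mv 845 (cons (fin 909 6 844)
(mv 781 (cons (fin 844 6 780)
(mv 1099 (cons (fin 1163 5 907)
(mv 1098 (cons (fin 1097 2 1033)
(mv 1035 (cons (fin 1162 5 906)
(mv 906 (cons (fin 842 7 842)
(mv 905 (cons (fin 968 1 904)
(fin 904 0 904)))))))))))))))
(mv 845 (cons (fin 909 6 844)
(mv 844 (cons (fin 781 6 780)
(mv 780 (cons (fin 716 5 715)
(fin 1035 5 779))))))))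
(cons (mv 1099 (cons (fin 1163 5 907)
(mv 844 (cons (fin 1035 5 843)
(mv 780 (cons (fin 716 5 715)
(fin 973 4 780)))))))
(cons (mv 845 (cons (fin 909 6 844)
(mv 1099 (cons (fin 1163 5 907)
(mv 1098 (cons (fin 1097 2 1033)
(mv 1035 (cons (fin 1162 5 906)
(mv 906 (cons (fin 842 7 842)
(mv 905 (cons (fin 968 1 904)
(fin 904 0 904)))))))))))))
(mv 845 (cons (fin 909 6 844)
(mv 844 (cons (fin 781 6 780)
(mv 780 (cons (fin 716 5 715)
(fin 973 4 780)))))))))))))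
(mv 843 (cons (fin 779 4 779)
(mv 1100 (cons (fin 1164 7 907)
(fin 1035 4 843))))))))))
(mv 907 (cons (cons (mv 843 (cons (fin 779 4 779)
(mv 1100 (cons (fin 908 7 843)
(fin 1164 7 907)))))
(mv 843 (cons (fin 779 4 779)
(mv 1035 (cons (cons (mv 778 (cons (fin 842 7 778)
(mv 780 (cons (fin 844 6 779)
(mv 1034 (cons (fin 1098 5 842)
(mv 973 (cons (fin 974 1 970)
(fin 1033 2 969)))))))))
(mv 778 (cons (fin 842 7 778)
(mv 844 (cons (fin 780 6 779)
(mv 908 (cons (fin 1099 5 843)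
(mv 845 (cons (fin 781 6 780)
(mv 846 (cons (fin 906 1 842)
(fin 847 1 843))))))))))))
(cons (mv 778 (cons (fin 842 7 778)
(mv 1034 (cons (fin 1098 5 842)
(mv 973 (cons (fin 974 1 970)
(fin 1033 2 969)))))))
(mv 780 (cons (fin 844 6 779)
(mv 1034 (cons (fin 1098 5 842)
(mv 973 (cons (fin 974 1 970)
(fin 1033 2 969)))))))))))))
(cons (mv 1100 (cons (fin 1164 7 907)
(mv 908 (cons (cons (mv 845 (cons (fin 909 6 844)
(mv 781 (cons (fin 844 6 780)
(mv 1099 (cons (fin 1163 5 907)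
(mv 1098 (cons (fin 1097 2 1033)
(mv 1035 (cons (fin 1162 5 906)
(mv 906 (cons (fin 842 7 842)
(mv 905 (cons (fin 904 0 904)
(fin 973 0 905)))))))))))))))
(mv 845 (cons (fin 909 6 844)
(mv 844 (cons (fin 781 6 780)
(mv 780 (cons (fin 716 5 715)
(fin 1035 5 779))))))))
(cons (mv 1099 (cons (fin 1163 5 907)
(mv 844 (cons (fin 1035 5 843)
(mv 780 (cons (fin 716 5 715)
(fin 973 4 780)))))))
(cons (mv 845 (cons (fin 909 6 844)
(mv 1099 (cons (fin 1163 5 907)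
(mv 1098 (cons (fin 1097 2 1033)
(mv 1035 (cons (fin 1162 5 906)
(mv 906 (cons (fin 842 7 842)
(mv 905 (cons (fin 904 0 904)
(fin 973 0 905)))))))))))))
(mv 845 (cons (fin 909 6 844)
(mv 844 (cons (fin 781 6 780)
(mv 780 (cons (fin 716 5 715)
(fin 973 4 780)))))))))))))
(mv 843 (cons (fin 779 4 779)
(mv 1100 (cons (fin 1164 7 907)
(fin 1035 4 843)))))))))
(cons (mv 970 (cons (fin 969 0 969)
(mv 973 (cons (cons (mv 905 (cons (fin 906 3 905)
(mv 909 (cons (fin 910 2 906)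
(mv 845 (cons (fin 781 5 780)
(fin 1100 5 844)))))))
(mv 905 (cons (fin 906 3 905)
(mv 1034 (cons (fin 1033 1 969)
(mv 974 (cons (fin 1035 1 970)
(mv 911 (cons (fin 910 2 907)
(mv 975 (cons (fin 976 1 972)
(fin 912 2 908))))))))))))
(cons (mv 905 (cons (fin 906 3 905)
(mv 1034 (cons (fin 1033 1 969)
(mv 1035 (cons (fin 974 1 970)
(mv 1098 (cons (fin 1097 1 1033)
(mv 1162 (cons (fin 1226 6 970)
(mv 1161 (cons (fin 1225 5 969)
(mv 1163 (cons (fin 1227 4 970)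
(mv 1099 (cons (fin 908 6 907)
(mv 1160 (cons (fin 1159 2 1095)
(fin 1100 2 1096)))))))))))))))))))
(mv 909 (cons (fin 910 2 906)
(mv 845 (cons (fin 781 5 780)
(fin 1100 5 844))))))))))
(cons (mv 970 (cons (fin 969 0 969)
(mv 973 (cons (cons (mv 905 (cons (fin 906 3 905)
(mv 909 (cons (fin 910 2 906)
(mv 781 (cons (fin 845 5 780)
(mv 1034 (cons (fin 1033 1 969)
(mv 1035 (cons (fin 974 1 970)
(mv 1098 (cons (fin 1097 1 1033)
(mv 907 (cons (fin 843 5 842)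
(fin 1162 6 906)))))))))))))))
(cons (mv 905 (cons (fin 906 3 905)
(mv 910 (cons (fin 909 2 906)
(mv 974 (cons (fin 911 2 907)
(mv 975 (cons (fin 1035 1 971)
(fin 976 1 972)))))))))
(mv 909 (cons (fin 910 2 906)
(mv 781 (cons (fin 845 5 780)
(mv 1034 (cons (fin 1033 1 969)
(mv 1035 (cons (fin 974 1 970)
(mv 1098 (cons (fin 1097 1 1033)
(mv 907 (cons (fin 843 5 842)
(fin 1162 6 906)))))))))))))))
(cons (cons (mv 905 (cons (fin 906 3 905)
(mv 1034 (cons (fin 1033 1 969)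
(mv 974 (cons (fin 1035 1 970)
(mv 911 (cons (fin 910 2 907)
(mv 975 (cons (fin 976 1 972)
(fin 912 2 908)))))))))))
(mv 905 (cons (fin 906 3 905)
(mv 1034 (cons (fin 1033 1 969)
(mv 1035 (cons (fin 974 1 970)
(mv 1098 (cons (fin 1097 1 1033)
(mv 907 (cons (fin 843 5 842)
(fin 1162 6 906))))))))))))
(cons (mv 906 (cons (fin 905 3 905)
(mv 909 (cons (fin 910 2 906)
(mv 845 (cons (fin 781 5 780)
(mv 780 (cons (fin 844 7 780)
(mv 846 (cons (fin 782 6 781)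
(mv 907 (cons (fin 908 2 842)
(mv 779 (cons (fin 843 4 779)
(mv 1034 (cons (fin 1033 1 969)
(mv 1098 (cons (fin 1162 6 906)
(mv 1097 (cons (fin 1035 1 1033)
(fin 1161 5 905)))))))))))))))))))))
(mv 906 (cons (fin 905 3 905)
(mv 907 (cons (fin 974 3 906)
(mv 779 (cons (fin 843 4 779)
(mv 909 (cons (fin 910 2 906)
(mv 845 (cons (fin 781 5 780)
(mv 846 (cons (fin 908 2 842)
(fin 782 6 781)))))))))))))))))))
(mv 969 (cons (fin 970 0 969)
(mv 1100 (cons (cons (mv 907 (cons (fin 1164 7 907)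
(mv 843 (cons (fin 908 7 843)
(fin 779 4 779)))))
(mv 908 (cons (cons (mv 843 (cons (fin 907 7 843)
(mv 844 (cons (fin 779 7 779)
(mv 845 (cons (fin 781 6 780)
(fin 909 6 844)))))))
(mv 845 (cons (fin 909 6 844)
(mv 844 (cons (fin 781 6 780)
(mv 1035 (cons (fin 780 5 779)
(fin 1099 5 843))))))))
(cons (mv 843 (cons (fin 907 7 843)
(mv 844 (cons (fin 779 7 779)
(mv 1035 (cons (fin 780 5 779)
(fin 1099 5 843)))))))
(mv 845 (cons (fin 909 6 844)
(mv 907 (cons (fin 843 7 843)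
(mv 1099 (cons (fin 1163 5 907)
(mv 1098 (cons (fin 1097 2 1033)
(mv 1035 (cons (fin 1162 5 906)
(mv 906 (cons (fin 842 7 842)
(mv 905 (cons (fin 968 1 904)
(fin 904 0 904)))))))))))))))))))
(cons (mv 1164 (cons (cons (mv 1035 (cons (fin 1228 7 971)
(mv 1163 (cons (fin 1227 5 971)
(mv 908 (cons (fin 1099 5 907)
(mv 844 (cons (fin 780 5 779)
(mv 845 (cons (fin 781 6 780)
(fin 909 6 844)))))))))))
(mv 1163 (cons (fin 1227 5 971)
(mv 908 (cons (fin 1099 5 907)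
(mv 845 (cons (fin 909 6 844)
(mv 844 (cons (fin 781 6 780)
(mv 779 (cons (fin 843 7 779)
(mv 780 (cons (fin 715 7 715)
(fin 1035 5 779))))))))))))))
(cons (mv 1228 (cons (fin 1035 7 971)
(mv 1229 (cons (fin 1165 4 972)
(fin 1293 4 1036)))))
(mv 1163 (cons (fin 1227 5 971)
(mv 1099 (cons (fin 908 5 907)
(mv 1098 (cons (fin 1097 2 1033)
(mv 1165 (cons (fin 1166 3 1098)
(fin 1229 4 972))))))))))))
(cons (mv 907 (cons (fin 1164 7 907)
(mv 843 (cons (fin 779 4 779)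
(fin 1035 4 843)))))
(mv 1164 (cons (fin 907 7 907)
(mv 1035 (cons (fin 1228 7 971)
(mv 1163 (cons (fin 1227 5 971)
(mv 908 (cons (fin 1099 5 907)
(mv 844 (cons (fin 780 5 779)
(mv 845 (cons (fin 781 6 780)
(fin 909 6 844))))))))))))))))))))))
(cons (cons (mv 970 (cons (fin 969 0 969)
(mv 973 (cons (cons (mv 905 (cons (fin 906 3 905)
(mv 909 (cons (fin 910 2 906)
(mv 845 (cons (fin 781 5 780)
(fin 1100 5 844)))))))
(mv 906 (cons (fin 905 3 905)
(mv 907 (cons (fin 974 3 906)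
(mv 779 (cons (fin 843 4 779)
(mv 1034 (cons (fin 1033 1 969)
(mv 1098 (cons (fin 1162 6 906)
(mv 1097 (cons (fin 1161 5 905)
(mv 1099 (cons (fin 1100 2 1033)
(fin 1163 4 906))))))))))))))))
(cons (mv 909 (cons (fin 910 2 906)
(mv 845 (cons (fin 781 5 780)
(fin 1100 5 844)))))
(mv 906 (cons (fin 905 3 905)
(mv 907 (cons (fin 974 3 906)
(mv 779 (cons (fin 843 4 779)
(mv 909 (cons (fin 910 2 906)
(mv 845 (cons (fin 781 5 780)
(mv 846 (cons (fin 908 2 842)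
(fin 782 6 781))))))))))))))))))
(cons (mv 970 (cons (fin 969 0 969)
(mv 973 (cons (cons (mv 905 (cons (fin 906 3 905)
(mv 909 (cons (fin 910 2 906)
(mv 845 (cons (fin 781 5 780)
(fin 1100 5 844)))))))
(mv 905 (cons (fin 906 3 905)
(mv 1034 (cons (fin 1033 1 969)
(mv 974 (cons (fin 1035 1 970)
(mv 911 (cons (fin 910 2 907)
(mv 975 (cons (fin 976 1 972)
(fin 912 2 908))))))))))))
(cons (mv 909 (cons (fin 910 2 906)
(mv 845 (cons (fin 781 5 780)
(fin 1100 5 844)))))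
(mv 905 (cons (fin 906 3 905)
(mv 1034 (cons (fin 1033 1 969)
(mv 1035 (cons (fin 974 1 970)
(mv 1098 (cons (fin 1097 1 1033)
(mv 907 (cons (fin 843 5 842)
(fin 1162 6 906))))))))))))))))
(mv 969 (cons (fin 970 0 969)
(mv 1100 (cons (cons (mv 907 (cons (fin 1164 7 907)
(mv 843 (cons (fin 908 7 843)
(fin 779 4 779)))))
(mv 908 (cons (cons (mv 843 (cons (fin 907 7 843)
(mv 844 (cons (fin 779 7 779)
(mv 780 (cons (fin 1035 5 779)
(fin 973 4 780)))))))
(mv 1099 (cons (fin 1163 5 907)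
(mv 844 (cons (fin 1035 5 843)
(mv 780 (cons (fin 973 4 780)
(mv 781 (cons (fin 717 6 716)
(fin 845 6 780))))))))))
(cons (mv 907 (cons (fin 843 7 843)
(mv 1099 (cons (fin 1163 5 907)
(mv 1098 (cons (fin 1097 2 1033)
(mv 1035 (cons (fin 1162 5 906)
(mv 906 (cons (fin 842 7 842)
(mv 905 (cons (fin 968 1 904)
(fin 904 0 904)))))))))))))
(mv 843 (cons (fin 907 7 843)
(mv 844 (cons (fin 779 7 779)
(mv 780 (cons (fin 973 4 780)
(mv 781 (cons (fin 717 6 716)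
(fin 845 6 780)))))))))))))
(cons (mv 1164 (cons (mv 1228 (cons (fin 1035 7 971)
(fin 973 6 972)))
(mv 1163 (cons (fin 1227 5 971)
(mv 1099 (cons (fin 908 5 907)
(mv 1098 (cons (fin 1097 2 1033)
(mv 1165 (cons (fin 1166 3 1098)
(fin 1229 4 972)))))))))))
(mv 907 (cons (fin 1164 7 907)
(mv 843 (cons (fin 779 4 779)
(fin 1035 4 843))))))))))))
(cons (mv 970 (cons (fin 969 0 969)
(mv 973 (cons (cons (mv 905 (cons (fin 906 3 905)
(mv 909 (cons (fin 910 2 906)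
(mv 1034 (cons (fin 1033 1 969)
(mv 1035 (cons (fin 974 1 970)
(mv 1098 (cons (fin 1097 1 1033)
(mv 907 (cons (fin 843 5 842)
(fin 1162 6 906)))))))))))))
(cons (mv 905 (cons (fin 906 3 905)
(mv 910 (cons (fin 909 2 906)
(mv 974 (cons (fin 911 2 907)
(mv 975 (cons (fin 1035 1 971)
(fin 976 1 972)))))))))
(mv 909 (cons (fin 910 2 906)
(mv 1034 (cons (fin 1033 1 969)
(mv 1035 (cons (fin 974 1 970)
(mv 1098 (cons (fin 1097 1 1033)
(mv 907 (cons (fin 843 5 842)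
(fin 1162 6 906)))))))))))))
(cons (mv 905 (cons (fin 906 3 905)
(mv 1034 (cons (fin 1033 1 969)
(mv 1035 (cons (fin 974 1 970)
(mv 1098 (cons (fin 1097 1 1033)
(mv 907 (cons (fin 843 5 842)
(fin 1162 6 906)))))))))))
(cons (mv 905 (cons (fin 906 3 905)
(mv 909 (cons (fin 910 2 906)
(mv 1034 (cons (fin 1033 1 969)
(mv 1100 (cons (fin 1164 6 908)
(mv 907 (cons (mv 843 (cons (fin 908 7 843)
(fin 779 5 778)))
(mv 1098 (cons (fin 1162 6 906)
(mv 1097 (cons (fin 1035 1 1033)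
(fin 1099 2 1033)))))))))))))))
(mv 906 (cons (fin 905 3 905)
(mv 907 (cons (fin 974 3 906)
(mv 779 (cons (fin 843 4 779)
(mv 909 (cons (fin 910 2 906)
(mv 1034 (cons (fin 1033 1 969)
(mv 1098 (cons (fin 1162 6 906)
(mv 1097 (cons (fin 1161 5 905)
(mv 1099 (cons (fin 1100 2 1033)
(fin 1163 4 906)))))))))))))))))))))))
(cons (mv 969 (cons (fin 970 0 969)
(mv 907 (cons (cons (mv 843 (cons (fin 779 4 779)
(mv 1100 (cons (fin 908 7 843)
(fin 1164 7 907)))))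
(mv 843 (cons (fin 779 4 779)
(mv 1035 (cons (cons (mv 778 (cons (fin 842 7 778)
(mv 780 (cons (fin 844 6 779)
(mv 1034 (cons (fin 1098 5 842)
(mv 973 (cons (fin 974 1 970)
(fin 1033 2 969)))))))))
(mv 778 (cons (fin 842 7 778)
(mv 844 (cons (fin 780 6 779)
(mv 908 (cons (fin 1099 5 843)
(mv 845 (cons (fin 781 6 780)
(mv 846 (cons (fin 847 1 843)
(mv 782 (cons (fin 783 2 779)
(mv 910 (cons (fin 911 0 843)
(mv 973 (cons (fin 974 5 781)
(fin 909 6 781))))))))))))))))))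
(cons (mv 778 (cons (fin 842 7 778)
(mv 1034 (cons (fin 1098 5 842)
(mv 973 (cons (fin 974 1 970)
(fin 1033 2 969)))))))
(cons (mv 780 (cons (fin 844 6 779)
(mv 1034 (cons (fin 1098 5 842)
(mv 973 (cons (fin 974 1 970)
(fin 1033 2 969)))))))
(mv 778 (cons (fin 842 7 778)
(mv 780 (cons (fin 844 6 779)
(mv 1034 (cons (fin 1098 5 842)
(mv 1033 (cons (fin 968 3 968)
(fin 1032 2 968))))))))))))))))
(cons (mv 1100 (cons (fin 1164 7 907)
(mv 908 (cons (mv 845 (cons (fin 909 6 844)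
(mv 844 (cons (fin 781 6 780)
(mv 780 (cons (fin 716 5 715)
(fin 1035 5 779)))))))
(cons (mv 1099 (cons (fin 1163 5 907)
(mv 844 (cons (fin 1035 5 843)
(mv 780 (cons (fin 716 5 715)
(fin 973 4 780)))))))
(mv 909 (cons (fin 845 6 844)
(mv 910 (cons (fin 911 1 907)
(mv 846 (cons (fin 847 2 843)
(mv 974 (cons (fin 975 0 907)
(mv 782 (cons (fin 973 5 781)
(mv 717 (cons (fin 781 7 717)
(mv 718 (cons (fin 653 7 653)
(mv 719 (cons (fin 655 6 654)
(fin 783 6 718))))))))))))))))))))))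
(mv 843 (cons (fin 779 4 779)
(mv 1100 (cons (fin 1164 7 907)
(fin 1035 4 843))))))))))
(mv 969 (cons (fin 970 0 969)
(mv 1100 (cons (cons (mv 907 (cons (fin 1164 7 907)
(mv 843 (cons (fin 908 7 843)
(fin 779 4 779)))))
(mv 908 (cons (cons (mv 843 (cons (fin 907 7 843)
(mv 844 (cons (fin 779 7 779)
(mv 780 (cons (fin 1035 5 779)
(fin 973 4 780)))))))
(mv 845 (cons (fin 909 6 844)
(mv 844 (cons (fin 781 6 780)
(mv 780 (cons (fin 1035 5 779)
(fin 973 4 780))))))))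
(cons (mv 907 (cons (fin 843 7 843)
(mv 909 (cons (fin 845 6 844)
(mv 910 (cons (fin 911 1 907)
(mv 846 (cons (fin 847 2 843)
(mv 974 (cons (fin 975 0 907)
(mv 973 (cons (fin 906 3 906)
(fin 782 5 781)))))))))))))
(mv 843 (cons (fin 907 7 843)
(mv 844 (cons (fin 779 7 779)
(mv 845 (cons (fin 781 6 780)
(fin 909 6 844)))))))))))
(cons (mv 1164 (cons (cons (mv 973 (cons (fin 909 6 908)
(fin 1228 6 972)))
(mv 909 (cons (fin 973 6 908)
(mv 908 (cons (fin 845 6 844)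
(mv 1163 (cons (fin 1099 5 907)
(fin 1227 5 971))))))))
(cons (mv 1035 (cons (fin 1228 7 971)
(mv 1163 (cons (fin 1227 5 971)
(mv 908 (cons (fin 1099 5 907)
(mv 844 (cons (fin 780 5 779)
(mv 845 (cons (fin 781 6 780)
(fin 909 6 844)))))))))))
(mv 1228 (cons (fin 1035 7 971)
(fin 973 6 972))))))
(mv 907 (cons (fin 1164 7 907)
(mv 843 (cons (fin 779 4 779)
(fin 1035 4 843)))))))))))))))
(mv 973 (cons (cons (mv 909 (cons (mv 845 (cons (fin 781 5 780)
(fin 1100 5 844)))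
(cons (mv 845 (cons (fin 781 5 780)
(mv 780 (cons (fin 844 7 780)
(mv 846 (cons (fin 782 6 781)
(mv 910 (cons (fin 1101 6 845)
(mv 911 (cons (fin 912 1 908)
(mv 971 (cons (fin 970 2 906)
(fin 974 2 907)))))))))))))
(mv 1100 (cons (fin 1164 6 908)
(mv 1101 (cons (mv 846 (cons (fin 910 6 845)
(mv 1102 (cons (fin 1166 4 909)
(mv 1035 (cons (fin 1103 3 1035)
(fin 1034 0 1034)))))))
(cons (mv 910 (cons (fin 846 6 845)
(mv 1165 (cons (fin 1229 7 972)
(fin 974 6 909)))))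
(mv 1102 (cons (fin 1166 4 909)
(mv 1035 (cons (fin 1103 3 1035)
(fin 1034 0 1034)))))))))))))
(cons (mv 974 (cons (mv 975 (cons (fin 1035 1 971)
(fin 976 1 972)))
(cons (mv 975 (cons (fin 976 1 972)
(mv 911 (cons (fin 912 2 908)
(mv 971 (cons (fin 910 2 907)
(mv 906 (cons (fin 907 3 906)
(mv 970 (cons (fin 905 3 905)
(fin 969 0 969)))))))))))
(mv 971 (cons (mv 906 (cons (fin 907 3 906)
(mv 970 (cons (fin 905 3 905)
(fin 969 0 969)))))
(cons (mv 907 (cons (fin 906 3 906)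
(mv 843 (cons (fin 779 4 779)
(mv 1035 (cons (fin 1034 1 970)
(fin 1100 4 843)))))))
(mv 910 (cons (fin 911 2 907)
(mv 782 (cons (fin 846 5 781)
(mv 970 (cons (fin 969 0 969)
(mv 1034 (cons (fin 1033 1 969)
(fin 1035 1 970)))))))))))))))
(mv 909 (cons (mv 845 (cons (fin 781 5 780)
(fin 1100 5 844)))
(cons (mv 845 (cons (fin 781 5 780)
(mv 780 (cons (fin 844 7 780)
(mv 846 (cons (fin 782 6 781)
(mv 1101 (cons (fin 910 6 845)
(mv 1165 (cons (fin 1229 7 972)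
(mv 1166 (cons (fin 1102 4 909)
(fin 1230 4 973)))))))))))))
(mv 1101 (cons (cons (mv 846 (cons (fin 910 6 845)
(mv 1100 (cons (fin 1164 5 908)
(mv 1102 (cons (fin 1166 4 909)
(mv 1035 (cons (fin 1103 3 1035)
(fin 1034 0 1034)))))))))
(mv 846 (cons (fin 910 6 845)
(mv 1102 (cons (fin 1166 4 909)
(mv 1035 (cons (fin 1034 0 1034)
(mv 1103 (cons (fin 1100 3 1035)
(fin 1104 3 1036))))))))))
(cons (mv 846 (cons (fin 910 6 845)
(mv 1165 (cons (fin 1229 7 972)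
(mv 1166 (cons (fin 1102 4 909)
(fin 1230 4 973)))))))
(cons (mv 846 (cons (fin 910 6 845)
(mv 1164 (cons (fin 1100 5 908)
(mv 1165 (cons (fin 1229 7 972)
(fin 1228 5 972)))))))
(mv 1100 (cons (fin 1164 5 908)
(mv 1102 (cons (fin 1166 4 909)
(mv 1035 (cons (fin 1103 3 1035)
(fin 1034 0 1034))))))))))))))))
(cons (mv 909 (cons (mv 845 (cons (fin 781 5 780)
(fin 1100 5 844)))
(cons (mv 845 (cons (fin 781 5 780)
(mv 780 (cons (fin 844 7 780)
(mv 846 (cons (fin 782 6 781)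
(mv 910 (cons (fin 1101 6 845)
(mv 911 (cons (fin 912 1 908)
(mv 971 (cons (fin 970 2 906)
(fin 974 2 907)))))))))))))
(mv 1100 (cons (fin 1164 6 908)
(mv 1101 (cons (mv 846 (cons (fin 910 6 845)
(mv 1165 (cons (fin 1229 7 972)
(mv 1166 (cons (fin 1102 4 909)
(fin 1230 4 973)))))))
(cons (mv 910 (cons (fin 846 6 845)
(mv 911 (cons (fin 912 1 908)
(mv 971 (cons (fin 970 2 906)
(fin 974 2 907)))))))
(mv 1165 (cons (fin 1229 7 972)
(mv 1166 (cons (fin 1102 4 909)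
(fin 1230 4 973)))))))))))))
(cons (mv 974 (cons (mv 975 (cons (fin 1035 1 971)
(fin 976 1 972)))
(cons (mv 975 (cons (fin 976 1 972)
(mv 911 (cons (fin 912 2 908)
(mv 910 (cons (fin 971 2 907)
(mv 846 (cons (fin 782 5 781)
(mv 1101 (cons (fin 909 6 845)
(fin 1165 6 909)))))))))))
(mv 1034 (cons (fin 1035 2 970)
(mv 971 (cons (mv 970 (cons (fin 1033 1 969)
(fin 969 0 969)))
(mv 906 (cons (fin 907 3 906)
(mv 910 (cons (fin 911 2 907)
(mv 846 (cons (fin 782 5 781)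
(mv 1101 (cons (fin 909 6 845)
(fin 1165 6 909))))))))))))))))
(mv 971 (cons (cons (cons (mv 970 (cons (fin 969 0 969)
(mv 905 (cons (fin 906 3 905)
(mv 1034 (cons (fin 1033 1 969)
(mv 1035 (cons (fin 974 1 970)
(mv 1097 (cons (fin 1098 1 1033)
(mv 1101 (cons (fin 1102 0 1034)
(mv 1165 (cons (fin 1229 7 972)
(mv 1164 (cons (fin 1228 5 972)
(mv 1100 (cons (fin 907 7 907)
(fin 909 5 908)))))))))))))))))))
(mv 1035 (cons (mv 974 (cons (fin 1034 1 970)
(fin 975 1 971)))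
(cons (mv 974 (cons (fin 975 1 971)
(mv 907 (cons (fin 906 3 906)
(mv 843 (cons (fin 779 4 779)
(fin 1100 4 843)))))))
(mv 1034 (cons (fin 1033 2 969)
(mv 1097 (cons (fin 1098 1 1033)
(mv 1101 (cons (fin 1102 0 1034)
(mv 1165 (cons (fin 1229 7 972)
(mv 1164 (cons (fin 1228 5 972)
(mv 1100 (cons (fin 907 7 907)
(fin 909 5 908)))))))))))))))))
(cons (mv 970 (cons (fin 969 0 969)
(mv 905 (cons (fin 906 3 905)
(mv 1034 (cons (fin 1033 1 969)
(mv 1035 (cons (cons (mv 1097 (cons (fin 1098 1 1033)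
(mv 1101 (cons (fin 1102 0 1034)
(mv 1165 (cons (fin 1229 7 972)
(mv 1164 (cons (fin 1228 5 972)
(mv 1100 (cons (fin 907 7 907)
(fin 909 5 908)))))))))))
(mv 1101 (cons (fin 1102 0 1034)
(mv 1165 (cons (fin 1229 7 972)
(mv 1164 (cons (fin 1228 5 972)
(mv 1100 (cons (fin 907 7 907)
(fin 909 5 908))))))))))
(cons (mv 1098 (cons (fin 1097 1 1033)
(mv 907 (cons (fin 843 5 842)
(fin 1162 6 906)))))
(mv 1097 (cons (fin 1098 1 1033)
(mv 1101 (cons (fin 1102 0 1034)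
(mv 1165 (cons (fin 1229 7 972)
(mv 1164 (cons (fin 1228 5 972)
(mv 1100 (cons (fin 909 5 908)
(mv 1163 (cons (fin 1227 5 971)
(mv 1161 (cons (fin 1162 2 1097)
(mv 1166 (cons (fin 1230 4 973)
(mv 1167 (cons (fin 1099 3 1099)
(fin 1168 3 1100))))))))))))))))))))))))))))
(mv 970 (cons (fin 969 0 969)
(mv 906 (cons (fin 905 3 905)
(mv 907 (cons (fin 974 3 906)
(mv 779 (cons (fin 843 4 779)
(mv 1034 (cons (fin 1033 1 969)
(mv 1098 (cons (fin 1162 6 906)
(mv 1097 (cons (fin 1161 5 905)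
(mv 1099 (cons (fin 1100 2 1033)
(fin 1163 4 906)))))))))))))))))))
(cons (cons (mv 970 (cons (fin 969 0 969)
(mv 905 (cons (fin 906 3 905)
(mv 1034 (cons (fin 1033 1 969)
(mv 1035 (cons (fin 974 1 970)
(mv 1098 (cons (fin 1097 1 1033)
(mv 907 (cons (fin 843 5 842)
(fin 1162 6 906)))))))))))))
(mv 970 (cons (fin 969 0 969)
(mv 906 (cons (fin 905 3 905)
(mv 907 (cons (fin 974 3 906)
(mv 843 (cons (fin 779 4 779)
(mv 1100 (cons (fin 1164 7 907)
(fin 1035 4 843))))))))))))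
(cons (mv 970 (cons (fin 969 0 969)
(mv 905 (cons (fin 906 3 905)
(mv 1034 (cons (fin 1033 1 969)
(mv 1035 (cons (fin 974 1 970)
(mv 1097 (cons (fin 1098 1 1033)
(mv 1101 (cons (fin 1102 0 1034)
(mv 1165 (cons (fin 1229 7 972)
(mv 1164 (cons (fin 1228 5 972)
(mv 1100 (cons (fin 909 5 908)
(mv 1163 (cons (fin 1227 5 971)
(mv 1161 (cons (fin 1162 2 1097)
(mv 1166 (cons (fin 1230 4 973)
(mv 1167 (cons (fin 1099 3 1099)
(fin 1168 3 1100)))))))))))))))))))))))))))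
(mv 970 (cons (fin 969 0 969)
(mv 1034 (cons (fin 1033 1 969)
(mv 1035 (cons (fin 974 1 970)
(mv 1097 (cons (fin 1098 1 1033)
(mv 1101 (cons (fin 1102 0 1034)
(mv 1165 (cons (fin 1229 7 972)
(mv 1164 (cons (fin 1228 5 972)
(mv 1100 (cons (fin 907 7 907)
(fin 909 5 908)))))))))))))))))))))))))))
(cons (cons (mv 1101 (cons (cons (mv 1165 (cons (fin 1229 7 972)
(mv 908 (cons (fin 973 7 908)
(fin 1100 4 908)))))
(mv 1100 (cons (cons (mv 1164 (cons (mv 973 (cons (fin 909 5 908)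
(fin 1228 6 972)))
(mv 907 (cons (fin 971 7 907)
(mv 843 (cons (fin 908 7 843)
(mv 1163 (cons (fin 1227 5 971)
(mv 1102 (cons (fin 1103 1 1099)
(mv 1162 (cons (fin 1099 1 1098)
(fin 1161 2 1097)))))))))))))
(cons (mv 1099 (cons (cons (mv 908 (cons (fin 1163 5 907)
(mv 843 (cons (fin 907 7 843)
(mv 845 (cons (fin 909 6 844)
(mv 1098 (cons (fin 1097 2 1033)
(mv 1034 (cons (fin 1033 3 1033)
(mv 1035 (cons (fin 1102 3 1034)
(mv 969 (cons (fin 970 3 969)
(mv 973 (cons (fin 974 2 970)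
(mv 1162 (cons (fin 1161 1 1097)
(mv 1226 (cons (fin 971 6 970)
(fin 1290 6 1034)))))))))))))))))))))
(mv 1098 (cons (fin 1097 2 1033)
(mv 1034 (cons (fin 1033 3 1033)
(mv 1035 (cons (fin 1102 3 1034)
(mv 969 (cons (fin 970 3 969)
(mv 973 (cons (fin 974 2 970)
(mv 845 (cons (fin 909 5 844)
(mv 1162 (cons (fin 1161 1 1097)
(mv 971 (cons (fin 907 5 906)
(fin 1226 6 970))))))))))))))))))
(cons (mv 1163 (cons (fin 908 5 907)
(mv 1227 (cons (fin 1035 6 971)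
(fin 1291 6 1035)))))
(mv 908 (cons (fin 1163 5 907)
(mv 845 (cons (fin 909 6 844)
(mv 907 (cons (fin 843 7 843)
(mv 1098 (cons (fin 1097 2 1033)
(mv 1034 (cons (fin 1033 3 1033)
(mv 1162 (cons (fin 1161 1 1097)
(mv 970 (cons (fin 971 6 906)
(mv 905 (cons (fin 969 7 905)
(mv 906 (cons (fin 973 0 905)
(fin 841 7 841))))))))))))))))))))))
(mv 1164 (cons (mv 907 (cons (fin 971 7 907)
(mv 843 (cons (fin 908 7 843)
(mv 1163 (cons (fin 1227 5 971)
(mv 1102 (cons (fin 1103 1 1099)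
(mv 1162 (cons (fin 1099 1 1098)
(fin 1161 2 1097)))))))))))
(cons (mv 971 (cons (fin 907 7 907)
(mv 1228 (cons (fin 1035 7 971)
(fin 1292 6 1036)))))
(mv 1163 (cons (fin 1227 5 971)
(mv 1099 (cons (fin 908 5 907)
(mv 1102 (cons (fin 1162 1 1098)
(fin 1103 1 1099))))))))))))
(cons (cons (mv 1164 (cons (mv 973 (cons (fin 909 5 908)
(fin 1228 6 972)))
(cons (mv 907 (cons (fin 971 7 907)
(mv 843 (cons (fin 908 7 843)
(mv 1227 (cons (fin 1163 5 971)
(mv 1228 (cons (fin 1291 5 1035)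
(fin 1292 6 1036)))))))))
(mv 907 (cons (fin 971 7 907)
(mv 908 (cons (fin 843 7 843)
(mv 909 (cons (fin 973 5 908)
(fin 845 6 844))))))))))
(mv 1164 (cons (mv 973 (cons (fin 909 5 908)
(fin 1228 6 972)))
(mv 907 (cons (fin 971 7 907)
(mv 1163 (cons (fin 1227 5 971)
(mv 1102 (cons (fin 1103 1 1099)
(mv 1162 (cons (fin 1099 1 1098)
(fin 1161 2 1097))))))))))))
(cons (mv 1164 (cons (mv 973 (cons (fin 909 5 908)
(fin 1228 6 972)))
(cons (mv 971 (cons (fin 907 7 907)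
(mv 1228 (cons (fin 1035 7 971)
(fin 1292 6 1036)))))
(mv 907 (cons (fin 971 7 907)
(mv 908 (cons (fin 843 7 843)
(mv 909 (cons (fin 973 5 908)
(fin 845 6 844))))))))))
(mv 1164 (cons (mv 973 (cons (fin 909 5 908)
(fin 1228 6 972)))
(mv 1163 (cons (fin 1227 5 971)
(mv 1099 (cons (fin 908 5 907)
(mv 1102 (cons (fin 1162 1 1098)
(fin 1103 1 1099))))))))))))))
(cons (mv 1165 (cons (fin 1229 7 972)
(mv 973 (cons (mv 910 (cons (fin 974 6 909)
(mv 909 (cons (fin 846 6 845)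
(mv 845 (cons (fin 781 5 780)
(fin 1100 5 844)))))))
(cons (mv 1164 (cons (fin 1228 5 972)
(mv 909 (cons (fin 1100 5 908)
(mv 1166 (cons (fin 1102 4 909)
(fin 1230 4 973)))))))
(mv 974 (cons (fin 910 6 909)
(mv 975 (cons (fin 1035 1 971)
(fin 976 1 972))))))))))
(cons (mv 1165 (cons (fin 1229 7 972)
(mv 973 (cons (fin 908 7 908)
(mv 910 (cons (fin 974 6 909)
(mv 909 (cons (fin 846 6 845)
(mv 1166 (cons (fin 1102 4 909)
(fin 1230 4 973)))))))))))
(mv 1165 (cons (fin 1229 7 972)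
(mv 1100 (cons (fin 908 4 908)
(mv 1164 (cons (mv 907 (cons (fin 971 7 907)
(mv 1163 (cons (fin 1227 5 971)
(mv 1102 (cons (fin 1103 1 1099)
(fin 1162 2 1098)))))))
(cons (mv 971 (cons (fin 907 7 907)
(mv 1228 (cons (fin 1035 7 971)
(fin 1292 6 1036)))))
(mv 1163 (cons (fin 1227 5 971)
(mv 1102 (cons (fin 1103 1 1099)
(fin 1162 2 1098))))))))))))))))
(mv 908 (cons (cons (mv 844 (cons (fin 1101 4 844)
(mv 779 (cons (fin 843 7 779)
(mv 780 (cons (fin 715 7 715)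
(fin 973 4 780)))))))
(mv 1100 (cons (cons (cons (mv 843 (cons (fin 907 7 843)
(mv 845 (cons (fin 909 6 844)
(mv 1163 (cons (fin 1099 5 907)
(mv 1164 (cons (fin 1227 5 971)
(mv 1228 (cons (fin 973 6 972)
(mv 971 (cons (fin 1035 7 971)
(mv 969 (cons (fin 970 0 969)
(mv 1292 (cons (fin 1101 6 1036)
(mv 1293 (cons (fin 1229 4 1036)
(fin 1357 4 1100)))))))))))))))))))
(mv 843 (cons (fin 907 7 843)
(mv 1163 (cons (fin 1099 5 907)
(mv 1164 (cons (fin 1227 5 971)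
(mv 1228 (cons (fin 973 6 972)
(mv 971 (cons (fin 1035 7 971)
(mv 969 (cons (fin 970 0 969)
(mv 1292 (cons (fin 1101 6 1036)
(mv 1293 (cons (fin 1229 4 1036)
(fin 1357 4 1100))))))))))))))))))
(cons (mv 845 (cons (fin 909 6 844)
(mv 1163 (cons (fin 1099 5 907)
(mv 1164 (cons (fin 1227 5 971)
(mv 1228 (cons (fin 973 6 972)
(mv 971 (cons (fin 1035 7 971)
(mv 969 (cons (fin 970 0 969)
(mv 1292 (cons (fin 1101 6 1036)
(mv 1293 (cons (fin 1229 4 1036)
(fin 1357 4 1100)))))))))))))))))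
(mv 843 (cons (fin 907 7 843)
(mv 909 (cons (fin 845 6 844)
(mv 1164 (cons (fin 973 6 908)
(mv 1227 (cons (fin 1163 5 971)
(mv 1228 (cons (fin 1291 5 1035)
(mv 971 (cons (fin 1035 7 971)
(mv 910 (cons (fin 911 1 907)
(mv 969 (cons (fin 970 2 905)
(mv 1292 (cons (fin 1101 6 1036)
(mv 1293 (cons (fin 1229 4 1036)
(fin 1357 4 1100)))))))))))))))))))))))
(cons (cons (mv 845 (cons (fin 909 6 844)
(mv 907 (cons (fin 843 7 843)
(mv 1164 (cons (fin 971 7 907)
(mv 1228 (cons (fin 973 6 972)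
(mv 1227 (cons (fin 1291 5 1035)
(mv 1292 (cons (fin 1101 6 1036)
(mv 1293 (cons (fin 1229 4 1036)
(fin 1357 4 1100)))))))))))))))
(mv 907 (cons (fin 843 7 843)
(mv 909 (cons (fin 845 6 844)
(mv 1099 (cons (fin 1163 5 907)
(mv 1097 (cons (fin 1098 2 1033)
(mv 906 (cons (cons (mv 973 (cons (fin 905 0 905)
(fin 974 0 906)))
(mv 841 (cons (fin 842 3 841)
(mv 840 (cons (fin 905 3 840)
(mv 970 (cons (fin 969 1 905)
(mv 910 (cons (fin 971 1 906)
(mv 847 (cons (fin 846 2 843)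
(mv 911 (cons (fin 848 2 844)
(mv 975 (cons (fin 974 0 907)
(fin 976 0 908))))))))))))))))
(cons (mv 841 (cons (fin 842 3 841)
(mv 969 (cons (fin 970 1 905)
(mv 974 (cons (fin 973 0 906)
(mv 910 (cons (fin 975 0 907)
(mv 847 (cons (fin 846 2 843)
(mv 911 (cons (fin 971 1 907)
(fin 848 2 844)))))))))))))
(mv 841 (cons (fin 842 3 841)
(mv 905 (cons (fin 840 3 840)
(fin 973 0 905)))))))))))))))))
(cons (mv 845 (cons (fin 909 6 844)
(mv 907 (cons (fin 843 7 843)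
(mv 971 (cons (fin 1164 7 907)
(mv 969 (cons (fin 970 0 969)
(mv 1099 (cons (fin 1163 5 907)
(mv 1098 (cons (fin 1097 2 1033)
(mv 1035 (cons (fin 1162 5 906)
(mv 906 (cons (fin 842 7 842)
(mv 905 (cons (fin 968 1 904)
(fin 904 0 904)))))))))))))))))))
(mv 843 (cons (fin 907 7 843)
(mv 845 (cons (fin 909 6 844)
(mv 1163 (cons (fin 1099 5 907)
(mv 1164 (cons (fin 1227 5 971)
(mv 1228 (cons (fin 973 6 972)
(mv 1292 (cons (fin 1101 6 1036)
(mv 1293 (cons (fin 1229 4 1036)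
(fin 1357 4 1100))))))))))))))))))))
(cons (mv 844 (cons (mv 779 (cons (fin 843 7 779)
(mv 780 (cons (fin 715 7 715)
(fin 973 4 780)))))
(cons (mv 779 (cons (fin 843 7 779)
(mv 845 (cons (fin 781 6 780)
(mv 1099 (cons (fin 1035 5 843)
(mv 1100 (cons (fin 1163 5 907)
(fin 909 6 844)))))))))
(mv 780 (cons (fin 973 4 780)
(mv 781 (cons (fin 717 6 716)
(fin 845 6 780))))))))
(cons (mv 844 (cons (fin 1101 4 844)
(mv 780 (cons (fin 973 4 780)
(mv 781 (cons (fin 717 6 716)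
(fin 845 6 780)))))))
(mv 844 (cons (fin 1101 4 844)
(mv 779 (cons (fin 843 7 779)
(mv 715 (cons (fin 780 7 715)
(mv 845 (cons (fin 781 6 780)
(mv 1099 (cons (fin 1035 5 843)
(mv 1100 (cons (fin 1163 5 907)
(fin 909 6 844))))))))))))))))))
(cons (mv 1101 (cons (cons (mv 908 (cons (fin 844 4 844)
(mv 1165 (cons (fin 973 7 908)
(fin 1229 7 972)))))
(mv 1165 (cons (fin 1229 7 972)
(mv 973 (cons (mv 910 (cons (fin 974 6 909)
(mv 909 (cons (fin 846 6 845)
(mv 845 (cons (fin 781 5 780)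
(fin 1100 5 844)))))))
(cons (mv 1164 (cons (fin 1228 5 972)
(mv 909 (cons (fin 1100 5 908)
(mv 1166 (cons (fin 1102 4 909)
(fin 1230 4 973)))))))
(mv 974 (cons (fin 910 6 909)
(mv 975 (cons (fin 1035 1 971)
(fin 976 1 972)))))))))))
(cons (mv 908 (cons (fin 844 4 844)
(mv 1100 (cons (cons (mv 843 (cons (fin 907 7 843)
(mv 845 (cons (fin 909 6 844)
(mv 1099 (cons (fin 1163 5 907)
(mv 1098 (cons (fin 1097 2 1033)
(mv 1034 (cons (fin 1033 3 1033)
(mv 1102 (cons (fin 1035 3 1034)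
(mv 1103 (cons (fin 1104 3 1036)
(mv 1167 (cons (fin 1166 0 1099)
(fin 1168 0 1100)))))))))))))))))
(mv 843 (cons (fin 907 7 843)
(mv 1099 (cons (fin 1163 5 907)
(mv 1098 (cons (fin 1097 2 1033)
(mv 1034 (cons (fin 1033 3 1033)
(mv 1102 (cons (fin 1035 3 1034)
(mv 1103 (cons (fin 1104 3 1036)
(mv 1167 (cons (fin 1166 0 1099)
(fin 1168 0 1100))))))))))))))))
(cons (mv 843 (cons (fin 907 7 843)
(mv 909 (cons (fin 845 6 844)
(mv 973 (cons (fin 1164 5 908)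
(mv 846 (cons (fin 910 6 845)
(mv 1102 (cons (fin 1166 4 909)
(mv 1035 (cons (fin 1103 3 1035)
(fin 1034 0 1034)))))))))))))
(cons (mv 845 (cons (fin 909 6 844)
(mv 1099 (cons (fin 1163 5 907)
(mv 1098 (cons (fin 1097 2 1033)
(mv 1034 (cons (fin 1033 3 1033)
(mv 1102 (cons (fin 1035 3 1034)
(mv 1103 (cons (fin 1104 3 1036)
(mv 1167 (cons (fin 1166 0 1099)
(fin 1168 0 1100)))))))))))))))
(mv 843 (cons (fin 907 7 843)
(mv 845 (cons (fin 909 6 844)
(mv 1163 (cons (fin 1099 5 907)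
(mv 1164 (cons (fin 1227 5 971)
(mv 1228 (cons (fin 973 6 972)
(fin 1292 6 1036)))))))))))))))))
(mv 908 (cons (fin 844 4 844)
(mv 1165 (cons (fin 1229 7 972)
(fin 1100 4 908))))))))
(mv 908 (cons (cons (mv 844 (cons (fin 1101 4 844)
(mv 779 (cons (fin 843 7 779)
(mv 780 (cons (fin 715 7 715)
(fin 973 4 780)))))))
(mv 1100 (cons (cons (mv 843 (cons (fin 907 7 843)
(mv 845 (cons (fin 909 6 844)
(mv 1099 (cons (fin 1163 5 907)
(mv 1098 (cons (fin 1097 2 1033)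
(mv 1101 (cons (fin 1165 4 908)
(mv 1034 (cons (fin 1033 3 1033)
(mv 1035 (cons (fin 1102 3 1034)
(mv 969 (cons (fin 970 3 969)
(mv 973 (cons (fin 974 2 970)
(mv 1162 (cons (fin 1161 1 1097)
(mv 1226 (cons (fin 971 6 970)
(fin 1290 6 1034)))))))))))))))))))))))
(cons (mv 843 (cons (fin 907 7 843)
(mv 1099 (cons (fin 1163 5 907)
(mv 1098 (cons (fin 1097 2 1033)
(mv 1101 (cons (fin 1165 4 908)
(mv 1034 (cons (fin 1033 3 1033)
(mv 1035 (cons (fin 1102 3 1034)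
(mv 969 (cons (fin 970 3 969)
(mv 973 (cons (fin 974 2 970)
(mv 1162 (cons (fin 1161 1 1097)
(mv 1226 (cons (fin 971 6 970)
(fin 1290 6 1034)))))))))))))))))))))
(mv 843 (cons (fin 907 7 843)
(mv 909 (cons (fin 845 6 844)
(mv 1163 (cons (fin 1099 5 907)
(mv 1164 (cons (fin 1227 5 971)
(fin 973 6 908)))))))))))
(cons (mv 845 (cons (fin 909 6 844)
(mv 1099 (cons (fin 1163 5 907)
(mv 1098 (cons (fin 1097 2 1033)
(mv 1101 (cons (fin 1165 4 908)
(mv 1034 (cons (fin 1033 3 1033)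
(mv 1035 (cons (fin 1102 3 1034)
(mv 969 (cons (fin 970 3 969)
(mv 973 (cons (fin 974 2 970)
(mv 1162 (cons (fin 1161 1 1097)
(mv 1226 (cons (fin 971 6 970)
(fin 1290 6 1034)))))))))))))))))))))
(cons (mv 843 (cons (fin 907 7 843)
(mv 909 (cons (fin 845 6 844)
(mv 973 (cons (fin 1164 6 908)
(mv 1101 (cons (fin 1165 7 908)
(mv 846 (cons (fin 910 6 845)
(mv 1102 (cons (fin 1166 4 909)
(mv 1035 (cons (fin 1103 3 1035)
(fin 1034 0 1034)))))))))))))))
(mv 843 (cons (fin 907 7 843)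
(mv 845 (cons (fin 909 6 844)
(mv 1099 (cons (fin 1163 5 907)
(mv 1098 (cons (fin 1097 2 1033)
(mv 1101 (cons (fin 1165 4 908)
(mv 1034 (cons (fin 1033 3 1033)
(mv 1035 (cons (fin 1102 3 1034)
(mv 969 (cons (fin 970 3 969)
(mv 1162 (cons (fin 1161 1 1097)
(mv 1226 (cons (fin 971 6 970)
(fin 1290 6 1034))))))))))))))))))))))))))
(cons (mv 844 (cons (mv 779 (cons (fin 843 7 779)
(mv 780 (cons (fin 715 7 715)
(fin 973 4 780)))))
(cons (mv 779 (cons (fin 843 7 779)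
(mv 845 (cons (fin 781 6 780)
(mv 1099 (cons (fin 1035 5 843)
(mv 1100 (cons (fin 1163 5 907)
(fin 909 6 844)))))))))
(mv 780 (cons (fin 973 4 780)
(mv 781 (cons (fin 717 6 716)
(fin 845 6 780))))))))
(cons (mv 844 (cons (fin 1101 4 844)
(mv 779 (cons (fin 843 7 779)
(mv 715 (cons (fin 780 7 715)
(mv 845 (cons (fin 781 6 780)
(mv 1099 (cons (fin 1035 5 843)
(mv 1100 (cons (fin 1163 5 907)
(fin 909 6 844)))))))))))))
(mv 844 (cons (fin 1101 4 844)
(mv 780 (cons (fin 973 4 780)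
(mv 781 (cons (fin 717 6 716)
(fin 845 6 780))))))))))))))
(cons (cons (mv 973 (cons (cons (mv 1101 (cons (mv 908 (cons (fin 1165 7 908)
(fin 844 4 844)))
(cons (mv 844 (cons (fin 908 4 844)
(mv 909 (cons (mv 845 (cons (fin 780 7 780)
(fin 781 5 780)))
(mv 910 (cons (fin 846 6 845)
(mv 911 (cons (fin 912 1 908)
(mv 971 (cons (fin 970 2 906)
(fin 974 2 907)))))))))))
(mv 1165 (cons (fin 1229 7 972)
(mv 910 (cons (fin 974 6 909)
(mv 909 (cons (fin 846 6 845)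
(mv 1166 (cons (fin 1102 4 909)
(fin 1230 4 973))))))))))))
(cons (mv 974 (cons (mv 975 (cons (fin 1035 1 971)
(fin 976 1 972)))
(cons (mv 975 (cons (fin 976 1 972)
(mv 907 (cons (fin 908 3 907)
(mv 911 (cons (fin 912 2 908)
(mv 971 (cons (fin 906 3 906)
(fin 910 2 907)))))))))
(mv 1035 (cons (fin 1034 2 970)
(mv 971 (cons (mv 906 (cons (fin 907 3 906)
(mv 970 (cons (fin 905 3 905)
(fin 969 0 969)))))
(cons (mv 907 (cons (fin 906 3 906)
(mv 843 (cons (fin 779 4 779)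
(mv 778 (cons (fin 842 7 778)
(mv 844 (cons (fin 780 6 779)
(mv 908 (cons (fin 1099 5 843)
(mv 845 (cons (fin 781 6 780)
(mv 846 (cons (fin 847 1 843)
(mv 782 (cons (fin 783 2 779)
(fin 910 5 781)))))))))))))))))
(mv 910 (cons (fin 911 2 907)
(mv 970 (cons (fin 909 2 906)
(fin 969 0 969)))))))))))))
(mv 1101 (cons (mv 908 (cons (fin 1165 7 908)
(fin 844 4 844)))
(cons (mv 1165 (cons (fin 1229 7 972)
(mv 1164 (cons (fin 1228 5 972)
(mv 1166 (cons (fin 1230 4 973)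
(mv 909 (cons (fin 1102 4 909)
(mv 845 (cons (fin 781 5 780)
(mv 846 (cons (fin 782 6 781)
(fin 910 6 845)))))))))))))
(mv 909 (cons (cons (mv 781 (cons (fin 845 5 780)
(mv 908 (cons (fin 844 7 844)
(mv 910 (cons (fin 846 6 845)
(mv 911 (cons (fin 971 1 907)
(fin 912 1 908)))))))))
(mv 781 (cons (fin 845 5 780)
(mv 910 (cons (fin 846 6 845)
(mv 911 (cons (fin 912 1 908)
(mv 971 (cons (fin 908 1 907)
(fin 970 2 906))))))))))
(cons (mv 845 (cons (fin 781 5 780)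
(mv 846 (cons (fin 782 6 781)
(fin 910 6 845)))))
(cons (mv 908 (cons (fin 844 7 844)
(mv 910 (cons (fin 846 6 845)
(mv 911 (cons (fin 971 1 907)
(fin 912 1 908)))))))
(mv 844 (cons (fin 908 7 844)
(mv 845 (cons (fin 780 7 780)
(fin 781 5 780))))))))))))))
(cons (cons (mv 974 (cons (mv 975 (cons (fin 1035 1 971)
(fin 976 1 972)))
(cons (mv 975 (cons (fin 976 1 972)
(mv 911 (cons (fin 912 2 908)
(mv 910 (cons (fin 971 2 907)
(mv 846 (cons (fin 782 5 781)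
(mv 1101 (cons (fin 909 6 845)
(fin 1165 6 909)))))))))))
(mv 1034 (cons (fin 1035 2 970)
(mv 971 (cons (mv 970 (cons (fin 1033 1 969)
(fin 969 0 969)))
(mv 906 (cons (fin 907 3 906)
(mv 910 (cons (fin 911 2 907)
(mv 846 (cons (fin 782 5 781)
(mv 1101 (cons (fin 909 6 845)
(fin 1165 6 909))))))))))))))))
(mv 974 (cons (mv 975 (cons (fin 1035 1 971)
(fin 976 1 972)))
(cons (mv 975 (cons (fin 976 1 972)
(mv 907 (cons (fin 908 3 907)
(mv 911 (cons (fin 912 2 908)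
(mv 971 (cons (fin 906 3 906)
(fin 910 2 907)))))))))
(mv 971 (cons (mv 906 (cons (fin 907 3 906)
(mv 970 (cons (fin 905 3 905)
(fin 969 0 969)))))
(cons (mv 907 (cons (fin 906 3 906)
(mv 843 (cons (fin 779 4 779)
(mv 910 (cons (fin 911 2 907)
(mv 782 (cons (fin 846 5 781)
(mv 1035 (cons (fin 1034 1 970)
(mv 778 (cons (fin 842 7 778)
(mv 844 (cons (fin 780 6 779)
(mv 908 (cons (fin 1099 5 843)
(fin 1101 4 844)))))))))))))))))
(mv 910 (cons (fin 911 2 907)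
(mv 782 (cons (fin 846 5 781)
(mv 970 (cons (fin 969 0 969)
(mv 1034 (cons (fin 1033 1 969)
(fin 1035 1 970))))))))))))))))
(cons (mv 1101 (cons (mv 908 (cons (fin 1165 7 908)
(fin 844 4 844)))
(cons (mv 909 (cons (cons (mv 781 (cons (fin 845 5 780)
(mv 908 (cons (fin 844 7 844)
(mv 910 (cons (fin 846 6 845)
(mv 911 (cons (fin 912 1 908)
(mv 847 (cons (fin 848 2 844)
(mv 975 (cons (fin 976 0 908)
(mv 974 (cons (fin 907 3 907)
(fin 1035 1 971)))))))))))))))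
(mv 781 (cons (fin 845 5 780)
(mv 910 (cons (fin 846 6 845)
(mv 911 (cons (fin 912 1 908)
(mv 1102 (cons (fin 1166 4 909)
(mv 1035 (cons (fin 1034 0 1034)
(mv 975 (cons (fin 974 1 971)
(mv 976 (cons (fin 908 0 908)
(mv 1104 (cons (fin 1103 3 1036)
(fin 1168 7 911))))))))))))))))))
(cons (mv 845 (cons (fin 781 5 780)
(mv 846 (cons (fin 782 6 781)
(fin 910 6 845)))))
(cons (mv 908 (cons (fin 844 7 844)
(mv 910 (cons (fin 846 6 845)
(mv 911 (cons (fin 912 1 908)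
(mv 847 (cons (fin 848 2 844)
(mv 975 (cons (fin 976 0 908)
(mv 974 (cons (fin 907 3 907)
(fin 1035 1 971)))))))))))))
(mv 844 (cons (fin 908 7 844)
(mv 845 (cons (fin 780 7 780)
(fin 781 5 780)))))))))
(mv 1165 (cons (fin 1229 7 972)
(mv 910 (cons (fin 974 6 909)
(mv 909 (cons (fin 846 6 845)
(mv 1166 (cons (fin 1102 4 909)
(fin 1230 4 973))))))))))))
(mv 974 (cons (mv 975 (cons (fin 1035 1 971)
(fin 976 1 972)))
(cons (mv 975 (cons (fin 976 1 972)
(mv 908 (cons (fin 907 3 907)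
(mv 844 (cons (fin 780 4 780)
(fin 1101 4 844)))))))
(mv 971 (cons (mv 906 (cons (fin 907 3 906)
(mv 970 (cons (fin 905 3 905)
(fin 969 0 969)))))
(cons (mv 907 (cons (fin 906 3 906)
(mv 843 (cons (fin 779 4 779)
(mv 1035 (cons (fin 1034 1 970)
(mv 778 (cons (fin 842 7 778)
(mv 844 (cons (fin 780 6 779)
(mv 908 (cons (fin 1099 5 843)
(fin 1101 4 844)))))))))))))
(mv 970 (cons (fin 969 0 969)
(mv 1034 (cons (fin 1033 1 969)
(fin 1035 1 970)))))))))))))))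
(cons (mv 908 (cons (cons (mv 844 (cons (fin 1101 4 844)
(mv 779 (cons (fin 843 7 779)
(mv 715 (cons (fin 780 7 715)
(mv 845 (cons (fin 781 6 780)
(mv 1099 (cons (fin 1035 5 843)
(mv 1100 (cons (fin 1163 5 907)
(fin 909 6 844)))))))))))))
(cons (mv 1100 (cons (cons (mv 843 (cons (fin 907 7 843)
(mv 845 (cons (fin 909 6 844)
(mv 1099 (cons (fin 1163 5 907)
(mv 1098 (cons (fin 1097 2 1033)
(mv 1101 (cons (fin 1165 4 908)
(mv 1034 (cons (fin 1033 3 1033)
(mv 1035 (cons (fin 1102 3 1034)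
(mv 969 (cons (fin 970 3 969)
(mv 1162 (cons (fin 1161 1 1097)
(mv 1226 (cons (fin 971 6 970)
(fin 1290 6 1034)))))))))))))))))))))
(cons (mv 845 (cons (fin 909 6 844)
(mv 907 (cons (fin 843 7 843)
(mv 971 (cons (fin 1164 7 907)
(mv 969 (cons (fin 970 0 969)
(mv 1099 (cons (fin 1163 5 907)
(mv 1098 (cons (fin 1097 2 1033)
(mv 1035 (cons (fin 1162 5 906)
(mv 906 (cons (fin 842 7 842)
(mv 905 (cons (fin 968 1 904)
(fin 904 0 904)))))))))))))))))))
(mv 845 (cons (fin 909 6 844)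
(mv 907 (cons (fin 843 7 843)
(mv 1101 (cons (fin 1165 4 908)
(mv 1164 (cons (fin 971 7 907)
(mv 1227 (cons (fin 1163 5 971)
(mv 1228 (cons (fin 1291 5 1035)
(fin 1292 6 1036)))))))))))))))
(cons (cons (mv 845 (cons (fin 909 6 844)
(mv 1099 (cons (fin 1163 5 907)
(mv 1098 (cons (fin 1097 2 1033)
(mv 1101 (cons (fin 1165 4 908)
(mv 1034 (cons (fin 1033 3 1033)
(mv 1035 (cons (fin 1102 3 1034)
(mv 969 (cons (fin 970 3 969)
(mv 1162 (cons (fin 1161 1 1097)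
(mv 1226 (cons (fin 971 6 970)
(fin 1290 6 1034)))))))))))))))))))
(mv 845 (cons (fin 909 6 844)
(mv 907 (cons (fin 843 7 843)
(mv 1164 (cons (fin 971 7 907)
(mv 1165 (cons (fin 1101 4 908)
(fin 1229 4 972))))))))))
(cons (mv 843 (cons (fin 907 7 843)
(mv 1099 (cons (fin 1163 5 907)
(mv 1098 (cons (fin 1097 2 1033)
(mv 1101 (cons (fin 1165 4 908)
(mv 1034 (cons (fin 1033 3 1033)
(mv 1035 (cons (fin 1102 3 1034)
(mv 969 (cons (fin 970 3 969)
(mv 1162 (cons (fin 1161 1 1097)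
(mv 1226 (cons (fin 971 6 970)
(fin 1290 6 1034)))))))))))))))))))
(mv 843 (cons (fin 907 7 843)
(mv 845 (cons (fin 909 6 844)
(mv 1099 (cons (fin 1163 5 907)
(mv 1098 (cons (fin 1097 2 1033)
(mv 1101 (cons (fin 1165 4 908)
(mv 1034 (cons (fin 1033 3 1033)
(mv 1102 (cons (fin 1035 3 1034)
(mv 1103 (cons (fin 1104 3 1036)
(mv 1167 (cons (fin 1166 0 1099)
(fin 1168 0 1100)))))))))))))))))))))))
(mv 1100 (cons (cons (mv 843 (cons (fin 907 7 843)
(mv 844 (cons (fin 779 7 779)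
(mv 845 (cons (fin 781 6 780)
(fin 909 6 844)))))))
(mv 845 (cons (fin 909 6 844)
(mv 844 (cons (fin 781 6 780)
(mv 1099 (cons (fin 1035 5 843)
(fin 1163 5 907))))))))
(cons (mv 843 (cons (fin 907 7 843)
(mv 844 (cons (fin 779 7 779)
(mv 1099 (cons (fin 1035 5 843)
(fin 1163 5 907)))))))
(mv 845 (cons (fin 909 6 844)
(mv 907 (cons (fin 843 7 843)
(mv 971 (cons (fin 1164 7 907)
(mv 969 (cons (fin 970 0 969)
(mv 1099 (cons (fin 1163 5 907)
(mv 1098 (cons (fin 1097 2 1033)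
(mv 1035 (cons (fin 1162 5 906)
(mv 906 (cons (fin 842 7 842)
(mv 905 (cons (fin 968 1 904)
(fin 904 0 904))))))))))))))))))))))))
(cons (mv 844 (cons (fin 1101 4 844)
(mv 779 (cons (fin 843 7 779)
(mv 780 (cons (fin 715 7 715)
(mv 781 (cons (fin 717 6 716)
(fin 845 6 780)))))))))
(cons (mv 844 (cons (fin 1101 4 844)
(mv 781 (cons (fin 845 6 780)
(mv 780 (cons (fin 717 6 716)
(mv 1035 (cons (fin 971 5 779)
(fin 1099 5 843)))))))))
(mv 844 (cons (fin 1101 4 844)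
(mv 779 (cons (fin 843 7 779)
(mv 780 (cons (fin 715 7 715)
(mv 1035 (cons (fin 971 5 779)
(fin 1099 5 843)))))))))))))
(mv 1101 (cons (cons (mv 908 (cons (fin 844 4 844)
(mv 1165 (cons (fin 973 7 908)
(fin 1229 7 972)))))
(mv 1165 (cons (fin 1229 7 972)
(mv 973 (cons (cons (mv 910 (cons (fin 974 6 909)
(mv 909 (cons (fin 846 6 845)
(mv 845 (cons (fin 781 5 780)
(fin 1100 5 844)))))))
(mv 1164 (cons (fin 1228 5 972)
(mv 909 (cons (fin 1100 5 908)
(mv 1166 (cons (fin 1102 4 909)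
(fin 1230 4 973))))))))
(cons (mv 910 (cons (fin 974 6 909)
(mv 1164 (cons (fin 1228 5 972)
(mv 1166 (cons (fin 1230 4 973)
(mv 1100 (cons (mv 1099 (cons (fin 1167 3 1099)
(fin 1098 0 1098)))
(mv 907 (cons (fin 971 7 907)
(mv 1163 (cons (fin 1227 5 971)
(mv 1102 (cons (fin 1103 1 1099)
(fin 1162 2 1098)))))))))))))))
(mv 910 (cons (fin 974 6 909)
(mv 909 (cons (fin 846 6 845)
(mv 1166 (cons (fin 1102 4 909)
(fin 1230 4 973)))))))))))))
(cons (mv 908 (cons (fin 844 4 844)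
(mv 1100 (cons (cons (mv 843 (cons (fin 907 7 843)
(mv 845 (cons (fin 909 6 844)
(mv 1163 (cons (fin 1099 5 907)
(mv 1164 (cons (fin 1227 5 971)
(mv 1228 (cons (fin 973 6 972)
(fin 1292 6 1036)))))))))))
(cons (mv 843 (cons (fin 907 7 843)
(mv 1163 (cons (fin 1099 5 907)
(mv 1164 (cons (fin 1227 5 971)
(mv 1228 (cons (fin 973 6 972)
(fin 1292 6 1036)))))))))
(mv 843 (cons (fin 907 7 843)
(mv 909 (cons (fin 845 6 844)
(mv 973 (cons (fin 1164 5 908)
(mv 910 (cons (fin 846 6 845)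
(mv 911 (cons (fin 971 1 907)
(fin 912 1 908)))))))))))))
(cons (mv 845 (cons (fin 909 6 844)
(mv 1163 (cons (fin 1099 5 907)
(mv 1164 (cons (fin 1227 5 971)
(mv 1228 (cons (fin 973 6 972)
(fin 1292 6 1036)))))))))
(cons (mv 845 (cons (fin 909 6 844)
(mv 907 (cons (fin 843 7 843)
(mv 1099 (cons (fin 1163 5 907)
(mv 1098 (cons (fin 1097 2 1033)
(mv 1034 (cons (fin 1033 3 1033)
(mv 1162 (cons (fin 1161 1 1097)
(mv 970 (cons (fin 971 6 906)
(mv 905 (cons (fin 969 7 905)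
(mv 906 (cons (fin 973 0 905)
(fin 841 7 841)))))))))))))))))))
(mv 845 (cons (fin 909 6 844)
(mv 907 (cons (fin 843 7 843)
(mv 971 (cons (fin 1164 7 907)
(mv 970 (cons (fin 969 0 969)
(mv 1099 (cons (fin 1163 5 907)
(mv 1098 (cons (fin 1097 2 1033)
(mv 1034 (cons (fin 1033 3 1033)
(fin 1162 6 906)))))))))))))))))))))
(mv 908 (cons (fin 844 4 844)
(mv 1165 (cons (fin 1229 7 972)
(fin 1100 4 908))))))))))
(cons (cons (mv 1101 (cons (cons (mv 908 (cons (fin 844 4 844)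
(mv 1165 (cons (fin 973 7 908)
(fin 1229 7 972)))))
(mv 1165 (cons (fin 1229 7 972)
(mv 973 (cons (mv 910 (cons (fin 974 6 909)
(mv 909 (cons (fin 846 6 845)
(mv 845 (cons (fin 781 5 780)
(fin 1100 5 844)))))))
(cons (mv 1166 (cons (fin 1230 4 973)
(mv 909 (cons (fin 1102 4 909)
(mv 845 (cons (fin 781 5 780)
(fin 1100 5 844)))))))
(mv 974 (cons (fin 910 6 909)
(mv 975 (cons (fin 1035 1 971)
(fin 976 1 972)))))))))))
(cons (mv 908 (cons (fin 844 4 844)
(mv 1100 (cons (cons (mv 843 (cons (fin 907 7 843)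
(mv 845 (cons (fin 909 6 844)
(mv 1099 (cons (fin 1163 5 907)
(mv 1098 (cons (fin 1097 2 1033)
(mv 1034 (cons (fin 1033 3 1033)
(mv 1035 (cons (fin 1102 3 1034)
(mv 969 (cons (fin 970 3 969)
(mv 973 (cons (fin 974 2 970)
(mv 1162 (cons (fin 1161 1 1097)
(mv 1226 (cons (fin 971 6 970)
(fin 1290 6 1034)))))))))))))))))))))
(cons (mv 843 (cons (fin 907 7 843)
(mv 909 (cons (fin 845 6 844)
(mv 1102 (cons (mv 1035 (cons (fin 1103 3 1035)
(fin 1034 0 1034)))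
(mv 973 (cons (fin 1166 4 909)
(mv 910 (cons (fin 846 6 845)
(mv 911 (cons (fin 971 1 907)
(fin 912 1 908)))))))))))))
(mv 843 (cons (fin 907 7 843)
(mv 1099 (cons (fin 1163 5 907)
(mv 1098 (cons (fin 1097 2 1033)
(mv 1034 (cons (fin 1033 3 1033)
(mv 1035 (cons (fin 1102 3 1034)
(mv 969 (cons (fin 970 3 969)
(mv 973 (cons (fin 974 2 970)
(mv 1162 (cons (fin 1161 1 1097)
(mv 1226 (cons (fin 971 6 970)
(fin 1290 6 1034)))))))))))))))))))))
(cons (cons (mv 845 (cons (fin 909 6 844)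
(mv 1099 (cons (fin 1163 5 907)
(mv 1098 (cons (fin 1097 2 1033)
(mv 1034 (cons (fin 1033 3 1033)
(mv 1035 (cons (fin 1102 3 1034)
(mv 969 (cons (fin 970 3 969)
(mv 973 (cons (fin 974 2 970)
(mv 1162 (cons (fin 1161 1 1097)
(mv 1226 (cons (fin 971 6 970)
(fin 1290 6 1034)))))))))))))))))))
(mv 845 (cons (fin 909 6 844)
(mv 907 (cons (fin 843 7 843)
(mv 1099 (cons (fin 1163 5 907)
(mv 1098 (cons (fin 1097 2 1033)
(mv 1034 (cons (fin 1033 3 1033)
(mv 1162 (cons (fin 1161 1 1097)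
(mv 970 (cons (fin 971 6 906)
(mv 905 (cons (fin 969 7 905)
(mv 906 (cons (fin 973 0 905)
(fin 841 7 841))))))))))))))))))))
(cons (mv 907 (cons (fin 843 7 843)
(mv 909 (cons (fin 845 6 844)
(mv 1099 (cons (fin 1163 5 907)
(mv 1098 (cons (fin 1097 2 1033)
(mv 1162 (cons (fin 1161 1 1097)
(mv 971 (cons (fin 1035 5 906)
(mv 910 (cons (fin 970 1 906)
(fin 911 1 907)))))))))))))))
(mv 843 (cons (fin 907 7 843)
(mv 845 (cons (fin 909 6 844)
(mv 1099 (cons (fin 1163 5 907)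
(mv 1098 (cons (fin 1097 2 1033)
(mv 1034 (cons (fin 1033 3 1033)
(mv 1102 (cons (fin 1035 3 1034)
(mv 1103 (cons (fin 1104 3 1036)
(mv 1167 (cons (fin 1166 0 1099)
(fin 1168 0 1100)))))))))))))))))))))))
(mv 908 (cons (fin 844 4 844)
(mv 1165 (cons (fin 1229 7 972)
(fin 1100 4 908))))))))
(mv 1101 (cons (cons (mv 908 (cons (fin 844 4 844)
(mv 1165 (cons (fin 973 7 908)
(fin 1229 7 972)))))
(mv 908 (cons (fin 844 4 844)
(mv 1100 (cons (cons (mv 843 (cons (fin 907 7 843)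
(mv 1099 (cons (fin 1163 5 907)
(mv 1098 (cons (fin 1097 2 1033)
(mv 1034 (cons (fin 1033 3 1033)
(mv 1035 (cons (fin 1102 3 1034)
(mv 969 (cons (fin 970 3 969)
(mv 973 (cons (fin 974 2 970)
(mv 1162 (cons (fin 1161 1 1097)
(mv 1226 (cons (fin 971 6 970)
(fin 1290 6 1034)))))))))))))))))))
(mv 907 (cons (fin 843 7 843)
(mv 1164 (cons (fin 971 7 907)
(mv 1228 (cons (fin 973 6 972)
(fin 1292 6 1036))))))))
(cons (mv 1099 (cons (fin 1163 5 907)
(mv 1098 (cons (fin 1097 2 1033)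
(mv 1034 (cons (fin 1033 3 1033)
(mv 1035 (cons (fin 1102 3 1034)
(mv 969 (cons (fin 970 3 969)
(mv 973 (cons (fin 974 2 970)
(mv 1162 (cons (fin 1161 1 1097)
(mv 1226 (cons (fin 971 6 970)
(fin 1290 6 1034)))))))))))))))))
(mv 843 (cons (fin 907 7 843)
(mv 1099 (cons (fin 1163 5 907)
(mv 1098 (cons (fin 1097 2 1033)
(mv 1034 (cons (fin 1033 3 1033)
(mv 1102 (cons (fin 1035 3 1034)
(mv 1103 (cons (fin 1104 3 1036)
(mv 1167 (cons (fin 1166 0 1099)
(fin 1168 0 1100)))))))))))))))))))))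
(cons (mv 1165 (cons (fin 1229 7 972)
(mv 973 (cons (mv 974 (cons (fin 910 6 909)
(mv 975 (cons (fin 1035 1 971)
(fin 976 1 972)))))
(mv 1164 (cons (fin 1228 5 972)
(mv 1166 (cons (fin 1230 4 973)
(mv 1100 (cons (mv 1099 (cons (fin 1167 3 1099)
(fin 1098 0 1098)))
(mv 907 (cons (fin 971 7 907)
(mv 1163 (cons (fin 1227 5 971)
(mv 1102 (cons (fin 1103 1 1099)
(fin 1162 2 1098)))))))))))))))))
(mv 908 (cons (fin 844 4 844)
(mv 1165 (cons (fin 1229 7 972)
(fin 1100 4 908)))))))))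
(cons (mv 1101 (cons (cons (mv 908 (cons (fin 844 4 844)
(mv 1165 (cons (fin 973 7 908)
(fin 1229 7 972)))))
(mv 908 (cons (fin 844 4 844)
(mv 1100 (cons (cons (mv 843 (cons (fin 907 7 843)
(mv 909 (cons (fin 845 6 844)
(mv 973 (cons (fin 1164 5 908)
(mv 846 (cons (fin 910 6 845)
(mv 1102 (cons (fin 1166 4 909)
(mv 1035 (cons (fin 1103 3 1035)
(fin 1034 0 1034)))))))))))))
(mv 907 (cons (fin 843 7 843)
(mv 1164 (cons (fin 971 7 907)
(mv 1228 (cons (fin 973 6 972)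
(fin 1292 6 1036))))))))
(cons (mv 909 (cons (fin 845 6 844)
(mv 973 (cons (fin 1164 5 908)
(mv 846 (cons (fin 910 6 845)
(mv 1102 (cons (fin 1166 4 909)
(mv 1035 (cons (fin 1103 3 1035)
(fin 1034 0 1034)))))))))))
(cons (mv 843 (cons (fin 907 7 843)
(mv 909 (cons (fin 845 6 844)
(mv 1102 (cons (mv 1035 (cons (fin 1103 3 1035)
(fin 1034 0 1034)))
(mv 973 (cons (fin 1166 4 909)
(mv 910 (cons (fin 846 6 845)
(mv 911 (cons (fin 971 1 907)
(fin 912 1 908)))))))))))))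
(mv 845 (cons (fin 909 6 844)
(mv 907 (cons (fin 843 7 843)
(mv 1164 (cons (fin 971 7 907)
(mv 1227 (cons (fin 1163 5 971)
(mv 1228 (cons (fin 1291 5 1035)
(fin 1292 6 1036))))))))))))))))))
(cons (mv 1165 (cons (fin 1229 7 972)
(mv 973 (cons (mv 910 (cons (fin 974 6 909)
(mv 909 (cons (fin 846 6 845)
(mv 845 (cons (fin 781 5 780)
(fin 1100 5 844)))))))
(cons (mv 1164 (cons (fin 1228 5 972)
(mv 909 (cons (fin 1100 5 908)
(mv 1166 (cons (fin 1102 4 909)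
(fin 1230 4 973)))))))
(mv 974 (cons (fin 910 6 909)
(mv 975 (cons (fin 1035 1 971)
(fin 976 1 972))))))))))
(mv 908 (cons (fin 844 4 844)
(mv 1165 (cons (fin 1229 7 972)
(fin 1100 4 908))))))))
(mv 1101 (cons (cons (mv 908 (cons (fin 844 4 844)
(mv 1165 (cons (fin 973 7 908)
(fin 1229 7 972)))))
(mv 908 (cons (fin 844 4 844)
(mv 1100 (cons (cons (mv 845 (cons (fin 909 6 844)
(mv 1099 (cons (fin 1163 5 907)
(mv 1098 (cons (fin 1097 2 1033)
(mv 1034 (cons (fin 1033 3 1033)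
(mv 1035 (cons (fin 1102 3 1034)
(mv 969 (cons (fin 970 3 969)
(mv 973 (cons (fin 974 2 970)
(mv 1162 (cons (fin 1161 1 1097)
(mv 1226 (cons (fin 971 6 970)
(fin 1290 6 1034)))))))))))))))))))
(mv 1099 (cons (fin 1163 5 907)
(mv 1098 (cons (fin 1097 2 1033)
(mv 1034 (cons (fin 1033 3 1033)
(mv 1035 (cons (fin 1102 3 1034)
(mv 969 (cons (fin 970 3 969)
(mv 973 (cons (fin 974 2 970)
(mv 1162 (cons (fin 1161 1 1097)
(mv 1226 (cons (fin 971 6 970)
(fin 1290 6 1034))))))))))))))))))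
(cons (mv 909 (cons (fin 845 6 844)
(mv 973 (cons (fin 1164 5 908)
(mv 846 (cons (fin 910 6 845)
(mv 1102 (cons (fin 1166 4 909)
(mv 1035 (cons (fin 1103 3 1035)
(fin 1034 0 1034)))))))))))
(cons (mv 845 (cons (fin 909 6 844)
(mv 1099 (cons (fin 1163 5 907)
(mv 1098 (cons (fin 1097 2 1033)
(mv 1034 (cons (fin 1033 3 1033)
(mv 1035 (cons (fin 1102 3 1034)
(mv 969 (cons (fin 970 3 969)
(mv 1162 (cons (fin 1161 1 1097)
(mv 1226 (cons (fin 971 6 970)
(fin 1290 6 1034)))))))))))))))))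
(mv 845 (cons (fin 909 6 844)
(mv 1163 (cons (fin 1099 5 907)
(mv 1164 (cons (fin 1227 5 971)
(mv 1228 (cons (fin 973 6 972)
(fin 1292 6 1036))))))))))))))))
(cons (mv 1165 (cons (fin 1229 7 972)
(mv 973 (cons (mv 910 (cons (fin 974 6 909)
(mv 909 (cons (fin 846 6 845)
(mv 845 (cons (fin 781 5 780)
(fin 1100 5 844)))))))
(cons (mv 1164 (cons (fin 1228 5 972)
(mv 909 (cons (fin 1100 5 908)
(mv 1166 (cons (fin 1102 4 909)
(fin 1230 4 973)))))))
(mv 974 (cons (fin 910 6 909)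
(mv 975 (cons (fin 1035 1 971)
(fin 976 1 972))))))))))
(mv 908 (cons (fin 844 4 844)
(mv 1165 (cons (fin 1229 7 972)
(fin 1100 4 908)))))))))))))
def l90 : Lem := ⟨13990367052752487320312544716796506086908544040920606671647422636019387761887306954839904539139044083307651742587111316666437654968213159228883358442086434255575408537896731526142943938247376028752316727663063488954060238702619831287825813914729338905000590143517244074225654467916245441707506770996675619254697984, 3145604489732036216685666177010053014631499040499020800339327047526855526566923700577168633188371658522492434374008372091493605184163108606572964019913392278333921776075719039329822874187952378211552242511539076182404360888021256825432822271023672622939903473515286148619210222717427207601971446604822450812681590685611462828660826383068849766588513877828513399526275486050904093447712777562539797810658672640, 3145604489732036216685666177010053014631499040499020800339327047526855526566923700577168633188371658522492434374008372091493605184163108606572964019913392278333921776075719039329822874187952378211552242511539076182404360888021256825432822271023672622939903473515286148619210222717427207601971446604822450812681590685611462828660826383068849766588513877828513399526275486050904093447712777562539797810658672640,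 17, 33⟩
theorem l90_valid : l90.Valid :=
  Lem.valid_of_chk t90 t90_valid [1036, 1037, 1040] c90 l90 (by decide +kernel)
end Crest.Agent.SnakyAux
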