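import Crest.Agent.S0047_aux.Checker

set_option autoImplicit false
set_option maxRecDepth 100000
namespace Crest.Agent.SnakyAux
open Cert
def t91 : Tbl := Tbl.nil
theorem t91_valid : t91.Valid := Tbl.valid_nil
def c91 : Cert :=
(mv 1100 (cons (cons (cons (mv 973 (cons (cons (mv 909 (cons (fin 845 5 844)
(mv 1164 (cons (fin 1101 5 908)
(fin 972 6 908)))))
(mv 1164 (cons (fin 1228 6 972)
(mv 972 (cons (cons (mv 1163 (cons (fin 1227 5 971)
(mv 908 (cons (fin 1099 5 907)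
(mv 844 (cons (fin 780 4 780)
(fin 1101 4 844)))))))
(mv 1165 (cons (fin 1229 4 972)
(mv 908 (cons (fin 1101 7 908)
(mv 843 (cons (fin 907 7 843)
(mv 844 (cons (fin 779 7 779)
(fin 780 4 780))))))))))
(cons (mv 1163 (cons (fin 1227 5 971)
(mv 1165 (cons (fin 1229 4 972)
(mv 1101 (cons (mv 1102 (cons (fin 1103 1 1099)
(fin 1162 2 1098)))
(cons (mv 910 (cons (fin 974 6 909)
(mv 1161 (cons (fin 1162 2 1097)
(mv 1166 (cons (fin 1230 4 973)
(mv 1099 (cons (fin 1098 3 1098)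
(fin 1167 3 1099)))))))))
(mv 910 (cons (fin 974 6 909)
(mv 1102 (cons (fin 1103 1 1099)
(mv 1034 (cons (fin 1035 0 1034)
(mv 1166 (cons (fin 1230 4 973)
(mv 1099 (cons (fin 1098 3 1098)
(fin 1167 3 1099))))))))))))))))))
(mv 1163 (cons (fin 1227 5 971)
(mv 908 (cons (fin 1099 5 907)
(mv 843 (cons (fin 907 7 843)
(mv 844 (cons (fin 779 7 779)
(fin 780 4 780)))))))))))))))
(cons (mv 909 (cons (fin 845 5 844)
(mv 1101 (cons (cons (mv 844 (cons (fin 908 7 844)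
(mv 846 (cons (fin 910 6 845)
(mv 1102 (cons (fin 1166 4 909)
(mv 1035 (cons (fin 1103 3 1035)
(fin 1034 0 1034)))))))))
(mv 844 (cons (fin 908 7 844)
(mv 910 (cons (fin 846 6 845)
(mv 974 (cons (fin 1165 6 909)
(mv 975 (cons (fin 976 1 972)
(mv 1035 (cons (fin 972 1 971)
(fin 1034 2 970))))))))))))
(cons (mv 846 (cons (fin 910 6 845)
(mv 1102 (cons (fin 1166 4 909)
(mv 1035 (cons (fin 1103 3 1035)
(fin 1034 0 1034)))))))
(cons (mv 844 (cons (fin 908 7 844)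
(mv 1102 (cons (fin 1166 4 909)
(mv 1035 (cons (fin 1103 3 1035)
(fin 1034 0 1034)))))))
(mv 844 (cons (fin 908 7 844)
(mv 846 (cons (fin 910 6 845)
(mv 1166 (cons (fin 1102 4 909)
(mv 1165 (cons (fin 1230 4 973)
(mv 1229 (cons (fin 972 7 972)
(fin 1293 7 1036)))))))))))))))))
(cons (mv 909 (cons (fin 845 5 844)
(mv 1164 (cons (fin 972 6 908)
(fin 1228 6 972)))))
(mv 909 (cons (fin 845 5 844)
(mv 1164 (cons (fin 1101 5 908)
(fin 1228 6 972)))))))))
(cons (mv 1099 (cons (cons (mv 1098 (cons (fin 1097 2 1033)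
(mv 1038 (cons (fin 1035 1 1034)
(fin 1101 2 1034)))))
(mv 1164 (cons (cons (cons (mv 1228 (cons (mv 1292 (cons (fin 1035 7 1035)
(fin 1101 6 1036)))
(mv 1227 (cons (fin 1291 5 1035)
(mv 972 (cons (fin 1163 5 971)
(mv 1229 (cons (fin 1165 4 972)
(fin 1293 4 1036)))))))))
(mv 972 (cons (mv 1163 (cons (fin 908 5 907)
(fin 1227 5 971)))
(cons (mv 1165 (cons (fin 1229 4 972)
(mv 908 (cons (fin 1101 4 908)
(mv 843 (cons (fin 907 7 843)
(mv 844 (cons (fin 779 7 779)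
(fin 1035 5 843)))))))))
(mv 1163 (cons (fin 1227 5 971)
(mv 1165 (cons (fin 1229 4 972)
(mv 1166 (cons (fin 1167 3 1099)
(mv 1102 (cons (fin 1103 2 1099)
(mv 1101 (cons (fin 1162 1 1098)
(mv 1230 (cons (fin 1231 0 1163)
(fin 1294 7 1037)))))))))))))))))
(cons (mv 1228 (cons (mv 1292 (cons (fin 1035 7 1035)
(fin 1101 6 1036)))
(mv 1227 (cons (fin 1291 5 1035)
(mv 1229 (cons (fin 1293 4 1036)
(mv 1165 (cons (fin 972 4 972)
(mv 1166 (cons (fin 1167 3 1099)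
(fin 1226 2 1162)))))))))))
(mv 1228 (cons (mv 1292 (cons (fin 1035 7 1035)
(fin 1101 6 1036)))
(cons (mv 1227 (cons (fin 1291 5 1035)
(mv 1229 (cons (fin 1293 4 1036)
(mv 1230 (cons (mv 1163 (cons (fin 1162 3 1162)
(fin 1231 3 1163)))
(mv 1166 (cons (fin 1167 2 1163)
(mv 1165 (cons (fin 1226 2 1162)
(mv 1294 (cons (fin 1295 0 1227)
(fin 1101 4 1037)))))))))))))
(mv 1227 (cons (fin 1291 5 1035)
(mv 1229 (cons (fin 1293 4 1036)
(mv 1292 (cons (fin 1035 7 1035)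
(mv 1163 (cons (fin 1356 7 1099)
(mv 1162 (cons (fin 1230 3 1162)
(fin 1161 0 1161))))))))))))))))
(cons (cons (mv 1228 (cons (cons (mv 1292 (cons (fin 1035 7 1035)
(fin 1101 6 1036)))
(mv 1229 (cons (fin 1293 4 1036)
(mv 972 (cons (fin 1165 4 972)
(mv 908 (cons (fin 1163 5 907)
(mv 844 (cons (fin 1035 5 843)
(fin 1101 4 844))))))))))
(cons (mv 1035 (cons (fin 1292 7 1035)
(mv 1229 (cons (fin 1293 4 1036)
(mv 972 (cons (fin 1165 4 972)
(mv 908 (cons (fin 844 5 843)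
(fin 1163 5 907)))))))))
(mv 1101 (cons (fin 1292 6 1036)
(mv 1229 (cons (fin 1293 4 1036)
(mv 972 (cons (fin 1165 7 972)
(mv 908 (cons (fin 1163 5 907)
(fin 844 4 844))))))))))))
(mv 1228 (cons (mv 1292 (cons (fin 1035 7 1035)
(fin 1101 6 1036)))
(mv 1227 (cons (fin 1291 5 1035)
(mv 1163 (cons (fin 972 5 971)
(mv 1229 (cons (fin 1293 4 1036)
(mv 1162 (cons (fin 1230 3 1162)
(fin 1161 0 1161))))))))))))
(cons (mv 1228 (cons (cons (mv 1292 (cons (fin 1035 7 1035)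
(fin 1101 6 1036)))
(mv 1227 (cons (fin 1291 5 1035)
(mv 1163 (cons (fin 972 5 971)
(mv 1226 (cons (mv 1165 (cons (fin 1166 1 1162)
(fin 1225 2 1161)))
(mv 1035 (cons (fin 1290 5 1034)
(mv 1034 (cons (fin 970 7 970)
(mv 1033 (cons (fin 1032 0 1032)
(fin 1101 0 1033))))))))))))))
(cons (mv 1035 (cons (fin 1292 7 1035)
(mv 1227 (cons (fin 1291 5 1035)
(mv 1163 (cons (fin 972 5 971)
(mv 970 (cons (fin 1034 7 970)
(mv 1226 (cons (fin 1290 5 1034)
(mv 1165 (cons (fin 1166 1 1162)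
(fin 1225 2 1161)))))))))))))
(mv 1101 (cons (fin 1292 6 1036)
(mv 1227 (cons (fin 1291 5 1035)
(mv 972 (cons (fin 1163 5 971)
(mv 908 (cons (fin 844 4 844)
(fin 1165 4 908))))))))))))
(cons (mv 1163 (cons (mv 972 (cons (fin 908 5 907)
(fin 1227 5 971)))
(cons (mv 972 (cons (fin 908 5 907)
(mv 1229 (cons (fin 1165 4 972)
(mv 1228 (cons (fin 1293 4 1036)
(mv 1292 (cons (fin 1035 7 1035)
(fin 1356 7 1099)))))))))
(mv 1227 (cons (fin 1291 6 1035)
(mv 1228 (cons (mv 1292 (cons (fin 1035 7 1035)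
(fin 1356 7 1099)))
(mv 1229 (cons (fin 1293 4 1036)
(mv 1162 (cons (fin 1230 3 1162)
(fin 1161 0 1161))))))))))))
(mv 1163 (cons (mv 972 (cons (fin 908 5 907)
(fin 1227 5 971)))
(cons (mv 972 (cons (fin 908 5 907)
(mv 1165 (cons (fin 1229 4 972)
(mv 1166 (cons (fin 1167 3 1099)
(mv 1102 (cons (fin 1103 2 1099)
(mv 1101 (cons (fin 1162 1 1098)
(mv 1230 (cons (fin 1231 0 1163)
(fin 1294 7 1037)))))))))))))
(mv 1227 (cons (fin 1291 6 1035)
(mv 1101 (cons (mv 1102 (cons (fin 1162 1 1098)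
(fin 1103 1 1099)))
(cons (mv 1161 (cons (fin 1162 2 1097)
(mv 1228 (cons (fin 1292 6 1036)
(mv 1229 (cons (fin 1293 4 1036)
(mv 1230 (cons (fin 1231 3 1163)
(mv 1294 (cons (fin 1295 0 1227)
(fin 1165 4 1037)))))))))))
(mv 1102 (cons (fin 1103 1 1099)
(mv 1166 (cons (fin 1167 0 1099)
(mv 1165 (cons (fin 1226 1 1162)
(mv 1230 (cons (fin 1231 0 1163)
(fin 1294 7 1037)))))))))))))))))))))))
(cons (mv 1098 (cons (fin 1097 2 1033)
(mv 1035 (cons (fin 1038 1 1034)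
(mv 1034 (cons (mv 969 (cons (fin 970 3 969)
(mv 1033 (cons (fin 968 3 968)
(fin 1032 0 1032)))))
(cons (mv 1032 (cons (fin 1033 0 1032)
(mv 1164 (cons (cons (mv 1228 (cons (fin 1292 7 1035)
(mv 1227 (cons (fin 1291 5 1035)
(mv 972 (cons (fin 1163 5 971)
(mv 1229 (cons (fin 1165 4 972)
(fin 1293 4 1036)))))))))
(cons (mv 1163 (cons (mv 972 (cons (fin 908 5 907)
(fin 1227 5 971)))
(cons (mv 972 (cons (fin 908 5 907)
(mv 1165 (cons (fin 1166 3 1098)
(fin 1229 4 972)))))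
(mv 1165 (cons (fin 1166 3 1098)
(mv 1227 (cons (fin 1291 7 1034)
(mv 1226 (cons (fin 1290 5 1034)
(mv 1225 (cons (fin 1162 1 1161)
(fin 1224 2 1160))))))))))))
(mv 1228 (cons (fin 1292 7 1035)
(mv 1227 (cons (fin 1291 5 1035)
(mv 1229 (cons (fin 1293 4 1036)
(mv 1165 (cons (fin 972 4 972)
(mv 1166 (cons (fin 1167 3 1099)
(fin 1226 2 1162)))))))))))))
(cons (cons (mv 1228 (cons (fin 1292 7 1035)
(mv 1229 (cons (fin 1293 4 1036)
(mv 972 (cons (fin 1165 4 972)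
(mv 908 (cons (fin 844 5 843)
(fin 1163 5 907)))))))))
(mv 1228 (cons (fin 1292 7 1035)
(mv 1227 (cons (fin 1291 5 1035)
(mv 1229 (cons (fin 1293 4 1036)
(mv 1226 (cons (mv 1162 (cons (fin 1161 3 1161)
(fin 1290 6 1034)))
(mv 1165 (cons (fin 1225 2 1161)
(fin 1166 2 1162))))))))))))
(cons (mv 1228 (cons (fin 1292 7 1035)
(mv 1227 (cons (fin 1291 5 1035)
(mv 1163 (cons (fin 972 5 971)
(mv 1226 (cons (fin 1290 5 1034)
(mv 1224 (cons (fin 1225 2 1160)
(mv 1229 (cons (fin 1293 4 1036)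
(mv 1162 (cons (fin 1161 3 1161)
(fin 1230 3 1162)))))))))))))))
(mv 1228 (cons (fin 1292 7 1035)
(mv 1227 (cons (fin 1291 5 1035)
(mv 1163 (cons (fin 972 5 971)
(mv 1165 (cons (fin 1166 3 1098)
(mv 1226 (cons (fin 1225 2 1161)
(fin 1290 5 1034)))))))))))))))))
(mv 970 (cons (fin 969 3 969)
(mv 906 (cons (fin 842 4 842)
(fin 1163 4 906))))))))))))
(mv 1098 (cons (fin 1097 2 1033)
(mv 1101 (cons (fin 1038 2 1034)
(mv 1033 (cons (fin 1034 3 1033)
(mv 1161 (cons (fin 1162 1 1097)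
(mv 1165 (cons (fin 1166 0 1098)
(mv 972 (cons (fin 1229 7 972)
(fin 908 4 908))))))))))))))))
(mv 1101 (cons (cons (mv 1165 (cons (mv 972 (cons (fin 1229 7 972)
(fin 908 4 908)))
(cons (mv 908 (cons (fin 972 4 908)
(mv 973 (cons (mv 909 (cons (fin 844 7 844)
(fin 845 5 844)))
(mv 910 (cons (fin 974 6 909)
(mv 1166 (cons (fin 1230 4 973)
(mv 1099 (cons (fin 1098 0 1098)
(mv 1167 (cons (fin 1168 3 1100)
(fin 1102 0 1099)))))))))))))
(mv 1229 (cons (fin 1293 7 1036)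
(mv 974 (cons (fin 1038 6 973)
(mv 973 (cons (fin 910 6 909)
(mv 1230 (cons (fin 1166 4 973)
(fin 1294 4 1037))))))))))))
(cons (mv 1035 (cons (mv 1034 (cons (fin 1033 0 1033)
(fin 1102 0 1034)))
(cons (mv 1102 (cons (fin 1103 3 1035)
(mv 1099 (cons (mv 1098 (cons (fin 1038 1 1034)
(fin 1097 2 1033)))
(cons (mv 1162 (cons (fin 1163 1 1098)
(mv 1166 (cons (fin 1167 0 1099)
(mv 973 (cons (fin 909 4 909)
(mv 1230 (cons (fin 1038 7 973)
(fin 1294 7 1037)))))))))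
(mv 1097 (cons (fin 1098 2 1033)
(mv 1163 (cons (fin 1162 1 1098)
(mv 972 (cons (fin 908 5 907)
(fin 1227 6 971))))))))))))
(mv 1034 (cons (fin 1033 0 1033)
(mv 969 (cons (fin 970 3 969)
(mv 974 (cons (fin 973 2 970)
(mv 1038 (cons (fin 975 2 971)
(mv 1098 (cons (fin 1097 1 1033)
(fin 1099 1 1034))))))))))))))
(mv 1165 (cons (mv 972 (cons (fin 1229 7 972)
(fin 908 4 908)))
(cons (mv 908 (cons (fin 972 4 908)
(mv 973 (cons (mv 909 (cons (fin 844 7 844)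
(fin 845 5 844)))
(mv 974 (cons (fin 910 6 909)
(mv 975 (cons (fin 976 1 972)
(mv 1035 (cons (fin 1034 2 970)
(fin 1038 2 971)))))))))))
(mv 1229 (cons (fin 1293 7 1036)
(mv 974 (cons (fin 1038 6 973)
(mv 973 (cons (fin 910 6 909)
(mv 1230 (cons (fin 1166 4 973)
(fin 1294 4 1037))))))))))))))
(cons (cons (mv 1102 (cons (mv 1035 (cons (fin 1103 3 1035)
(fin 1034 0 1034)))
(cons (mv 1103 (cons (fin 1104 3 1036)
(mv 1167 (cons (fin 1168 0 1100)
(mv 1099 (cons (fin 1166 0 1099)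
(mv 1098 (cons (fin 1097 2 1033)
(fin 1038 2 1034)))))))))
(mv 1034 (cons (fin 1035 0 1034)
(mv 1099 (cons (mv 1098 (cons (fin 1033 3 1033)
(fin 1097 2 1033)))
(mv 1162 (cons (fin 1163 1 1098)
(mv 1166 (cons (fin 1167 0 1099)
(mv 973 (cons (fin 909 4 909)
(mv 1230 (cons (fin 1038 7 973)
(fin 1294 7 1037))))))))))))))))
(mv 1035 (cons (mv 1034 (cons (fin 1033 0 1033)
(fin 1102 0 1034)))
(cons (mv 1102 (cons (fin 1103 3 1035)
(mv 1099 (cons (mv 1098 (cons (fin 1038 1 1034)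
(fin 1097 2 1033)))
(mv 1163 (cons (fin 1162 1 1098)
(mv 972 (cons (fin 908 5 907)
(fin 1227 6 971)))))))))
(mv 1034 (cons (fin 1033 0 1033)
(mv 969 (cons (fin 970 3 969)
(mv 1098 (cons (fin 1097 1 1033)
(mv 1099 (cons (fin 1038 1 1034)
(mv 1161 (cons (fin 1162 1 1097)
(mv 1165 (cons (fin 1166 0 1098)
(mv 972 (cons (fin 1229 7 972)
(fin 908 4 908)))))))))))))))))))
(cons (mv 1165 (cons (mv 972 (cons (fin 1229 7 972)
(fin 908 4 908)))
(cons (mv 1229 (cons (fin 1293 7 1036)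
(mv 1228 (cons (fin 1292 5 1036)
(mv 1230 (cons (fin 1294 4 1037)
(mv 973 (cons (fin 1166 4 973)
(mv 909 (cons (fin 845 5 844)
(mv 910 (cons (fin 846 6 845)
(fin 974 6 909)))))))))))))
(mv 908 (cons (fin 972 4 908)
(mv 973 (cons (mv 909 (cons (fin 844 7 844)
(fin 845 5 844)))
(mv 910 (cons (fin 974 6 909)
(mv 1166 (cons (fin 1230 4 973)
(mv 1099 (cons (fin 1098 0 1098)
(mv 1167 (cons (fin 1168 3 1100)
(fin 1102 0 1099))))))))))))))))
(mv 1035 (cons (mv 1034 (cons (fin 1033 0 1033)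
(fin 1102 0 1034)))
(cons (mv 1102 (cons (fin 1103 3 1035)
(mv 1099 (cons (mv 1098 (cons (fin 1038 1 1034)
(fin 1097 2 1033)))
(mv 1163 (cons (fin 1162 1 1098)
(mv 972 (cons (fin 908 5 907)
(fin 1227 6 971)))))))))
(mv 1034 (cons (fin 1033 0 1033)
(mv 969 (cons (fin 970 3 969)
(mv 973 (cons (fin 974 2 970)
(mv 845 (cons (fin 909 5 844)
(mv 1098 (cons (fin 1097 1 1033)
(mv 1099 (cons (fin 1038 1 1034)
(mv 1162 (cons (fin 1161 1 1097)
(mv 1226 (cons (fin 1290 6 1034)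
(mv 1225 (cons (fin 1289 5 1033)
(mv 1227 (cons (fin 1291 4 1034)
(mv 972 (cons (fin 1163 6 971)
(mv 908 (cons (fin 1165 7 908)
(fin 844 5 843))))))))))))))))))))))))))))))))))
(cons (cons (mv 973 (cons (cons (mv 909 (cons (fin 845 5 844)
(mv 1164 (cons (fin 1101 5 908)
(fin 972 6 908)))))
(mv 1164 (cons (fin 1228 6 972)
(mv 1165 (cons (cons (mv 972 (cons (fin 1229 4 972)
(mv 908 (cons (fin 1101 7 908)
(mv 843 (cons (fin 907 7 843)
(mv 844 (cons (fin 779 7 779)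
(fin 780 4 780)))))))))
(mv 1101 (cons (mv 910 (cons (fin 974 6 909)
(mv 1166 (cons (fin 1230 4 973)
(mv 1167 (cons (fin 1168 3 1100)
(mv 1103 (cons (fin 1104 2 1100)
(mv 1102 (cons (fin 1035 3 1035)
(fin 1163 1 1099)))))))))))
(cons (mv 1166 (cons (fin 1230 4 973)
(mv 1167 (cons (fin 1168 3 1100)
(mv 1103 (cons (fin 1104 2 1100)
(mv 1102 (cons (fin 1035 3 1035)
(fin 1163 1 1099)))))))))
(mv 974 (cons (fin 910 6 909)
(mv 1229 (cons (fin 1293 7 1036)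
(fin 1038 6 973)))))))))
(cons (mv 1101 (cons (cons (mv 908 (cons (fin 972 7 908)
(mv 910 (cons (fin 974 6 909)
(mv 1166 (cons (fin 1230 4 973)
(mv 1167 (cons (fin 1168 3 1100)
(mv 1103 (cons (fin 1104 2 1100)
(mv 1102 (cons (fin 1035 3 1035)
(fin 1163 1 1099)))))))))))))
(mv 910 (cons (fin 974 6 909)
(mv 1166 (cons (fin 1230 4 973)
(mv 1167 (cons (fin 1168 3 1100)
(mv 1103 (cons (fin 1104 2 1100)
(mv 1102 (cons (fin 1035 3 1035)
(fin 1163 1 1099))))))))))))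
(cons (mv 908 (cons (fin 972 7 908)
(mv 1166 (cons (fin 1230 4 973)
(mv 1167 (cons (fin 1168 3 1100)
(mv 1103 (cons (fin 1104 2 1100)
(mv 1102 (cons (fin 1035 3 1035)
(fin 1163 1 1099)))))))))))
(cons (mv 908 (cons (fin 972 7 908)
(mv 974 (cons (fin 910 6 909)
(mv 975 (cons (fin 976 1 972)
(mv 1035 (cons (fin 1034 2 970)
(fin 1038 2 971)))))))))
(mv 908 (cons (fin 972 7 908)
(mv 910 (cons (fin 974 6 909)
(mv 1166 (cons (fin 1230 4 973)
(mv 1167 (cons (fin 1168 3 1100)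
(mv 1103 (cons (fin 1104 2 1100)
(mv 1102 (cons (fin 1163 1 1099)
(mv 1231 (cons (fin 1232 0 1164)
(mv 1295 (cons (fin 1038 7 1038)
(fin 1359 7 1102)))))))))))))))))))))
(mv 1163 (cons (mv 972 (cons (fin 1227 5 971)
(fin 1229 4 972)))
(cons (mv 1162 (cons (cons (mv 1097 (cons (fin 1098 3 1097)
(mv 1096 (cons (fin 1161 3 1096)
(mv 1225 (cons (fin 1226 1 1161)
(mv 1230 (cons (fin 1229 0 1162)
(mv 1166 (cons (fin 1231 0 1163)
(mv 1102 (cons (fin 1103 2 1099)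
(fin 1038 7 973)))))))))))))
(mv 1097 (cons (fin 1098 3 1097)
(mv 1096 (cons (fin 1161 3 1096)
(mv 1230 (cons (fin 1229 0 1162)
(mv 1166 (cons (fin 1231 0 1163)
(mv 1102 (cons (fin 1103 2 1099)
(fin 1038 7 973))))))))))))
(cons (mv 1225 (cons (fin 1226 1 1161)
(mv 1161 (cons (fin 1224 1 1160)
(mv 1230 (cons (fin 1229 0 1162)
(mv 1166 (cons (fin 1231 0 1163)
(mv 1102 (cons (fin 1103 2 1099)
(fin 1038 7 973)))))))))))
(cons (mv 1097 (cons (fin 1098 3 1097)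
(mv 1161 (cons (fin 1096 3 1096)
(mv 1225 (cons (fin 1224 1 1160)
(fin 1226 1 1161)))))))
(mv 1097 (cons (fin 1098 3 1097)
(mv 1225 (cons (fin 1226 1 1161)
(mv 1230 (cons (fin 1229 0 1162)
(mv 1166 (cons (fin 1231 0 1163)
(mv 1102 (cons (fin 1103 2 1099)
(fin 1038 7 973)))))))))))))))
(mv 1227 (cons (fin 972 5 971)
(mv 1166 (cons (fin 1226 1 1162)
(mv 1102 (cons (fin 1103 2 1099)
(mv 1230 (cons (fin 1231 0 1163)
(fin 1038 7 973))))))))))))))))))
(cons (mv 909 (cons (fin 845 5 844)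
(mv 1101 (cons (cons (mv 844 (cons (fin 908 7 844)
(mv 846 (cons (fin 910 6 845)
(mv 1102 (cons (fin 1166 4 909)
(mv 1035 (cons (fin 1103 3 1035)
(fin 1034 0 1034)))))))))
(mv 846 (cons (fin 910 6 845)
(mv 1102 (cons (fin 1166 4 909)
(mv 1035 (cons (fin 1103 3 1035)
(fin 1034 0 1034))))))))
(cons (mv 844 (cons (fin 908 7 844)
(mv 910 (cons (fin 846 6 845)
(mv 974 (cons (fin 1165 6 909)
(mv 975 (cons (fin 976 1 972)
(mv 1035 (cons (fin 972 1 971)
(fin 1034 2 970)))))))))))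
(cons (mv 844 (cons (fin 908 7 844)
(mv 1102 (cons (fin 1166 4 909)
(mv 1035 (cons (fin 1103 3 1035)
(fin 1034 0 1034)))))))
(mv 844 (cons (fin 908 7 844)
(mv 846 (cons (fin 910 6 845)
(mv 1166 (cons (fin 1102 4 909)
(mv 1165 (cons (fin 1230 4 973)
(mv 1229 (cons (fin 972 7 972)
(fin 1293 7 1036)))))))))))))))))
(cons (mv 909 (cons (fin 845 5 844)
(mv 1164 (cons (fin 972 6 908)
(fin 1228 6 972)))))
(mv 909 (cons (fin 845 5 844)
(mv 1164 (cons (fin 1101 5 908)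
(fin 1228 6 972)))))))))
(mv 973 (cons (cons (mv 909 (cons (fin 845 5 844)
(mv 1164 (cons (fin 1101 5 908)
(fin 972 6 908)))))
(mv 1164 (cons (fin 1228 6 972)
(mv 972 (cons (cons (mv 1163 (cons (fin 1227 5 971)
(mv 908 (cons (fin 1099 5 907)
(mv 844 (cons (fin 780 4 780)
(fin 1101 4 844)))))))
(mv 1165 (cons (fin 1229 4 972)
(mv 908 (cons (fin 1101 7 908)
(mv 843 (cons (fin 907 7 843)
(mv 844 (cons (fin 779 7 779)
(fin 780 4 780))))))))))
(cons (mv 1163 (cons (fin 1227 5 971)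
(mv 1165 (cons (fin 1229 4 972)
(mv 1101 (cons (mv 1102 (cons (fin 1103 1 1099)
(fin 1162 2 1098)))
(cons (mv 910 (cons (fin 974 6 909)
(mv 1161 (cons (fin 1162 2 1097)
(mv 1166 (cons (fin 1230 4 973)
(mv 1167 (cons (fin 1099 3 1099)
(fin 1168 3 1100)))))))))
(mv 910 (cons (fin 974 6 909)
(mv 1102 (cons (fin 1103 1 1099)
(mv 1034 (cons (fin 1035 0 1034)
(mv 1166 (cons (fin 1230 4 973)
(mv 1167 (cons (fin 1099 3 1099)
(fin 1168 3 1100))))))))))))))))))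
(mv 1163 (cons (fin 1227 5 971)
(mv 908 (cons (fin 1099 5 907)
(mv 843 (cons (fin 907 7 843)
(mv 844 (cons (fin 779 7 779)
(fin 780 4 780)))))))))))))))
(cons (mv 909 (cons (fin 845 5 844)
(mv 1101 (cons (cons (mv 844 (cons (fin 908 7 844)
(mv 846 (cons (fin 910 6 845)
(mv 1102 (cons (fin 1166 4 909)
(mv 1035 (cons (fin 1103 3 1035)
(fin 1034 0 1034)))))))))
(mv 844 (cons (fin 908 7 844)
(mv 910 (cons (fin 846 6 845)
(mv 974 (cons (fin 1165 6 909)
(mv 975 (cons (fin 976 1 972)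
(mv 1035 (cons (fin 972 1 971)
(fin 1034 2 970))))))))))))
(cons (mv 846 (cons (fin 910 6 845)
(mv 1102 (cons (fin 1166 4 909)
(mv 1035 (cons (fin 1103 3 1035)
(fin 1034 0 1034)))))))
(cons (mv 844 (cons (fin 908 7 844)
(mv 1102 (cons (fin 1166 4 909)
(mv 1035 (cons (fin 1103 3 1035)
(fin 1034 0 1034)))))))
(mv 844 (cons (fin 908 7 844)
(mv 846 (cons (fin 910 6 845)
(mv 1166 (cons (fin 1102 4 909)
(mv 1165 (cons (fin 1230 4 973)
(mv 1229 (cons (fin 972 7 972)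
(fin 1293 7 1036)))))))))))))))))
(cons (mv 909 (cons (fin 845 5 844)
(mv 1164 (cons (fin 972 6 908)
(fin 1228 6 972)))))
(mv 909 (cons (fin 845 5 844)
(mv 1164 (cons (fin 1101 5 908)
(fin 1228 6 972))))))))))
(cons (mv 973 (cons (cons (mv 909 (cons (fin 845 5 844)
(mv 1164 (cons (fin 1101 5 908)
(fin 972 6 908)))))
(cons (mv 974 (cons (cons (mv 975 (cons (fin 976 1 972)
(mv 1035 (cons (fin 972 1 971)
(fin 1034 2 970)))))
(mv 975 (cons (fin 976 1 972)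
(mv 972 (cons (mv 908 (cons (fin 907 3 907)
(mv 844 (cons (fin 780 4 780)
(fin 1101 4 844)))))
(cons (mv 911 (cons (fin 912 2 908)
(mv 1164 (cons (cons (mv 1163 (cons (fin 1227 5 971)
(mv 1165 (cons (fin 1229 4 972)
(mv 1101 (cons (fin 910 6 909)
(mv 1102 (cons (fin 1103 1 1099)
(fin 1162 2 1098)))))))))
(mv 1163 (cons (fin 1227 5 971)
(mv 1102 (cons (mv 1038 (cons (fin 1166 6 910)
(mv 847 (cons (fin 783 5 782)
(fin 910 6 846)))))
(mv 1101 (cons (fin 1103 1 1099)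
(mv 1162 (cons (fin 1099 1 1098)
(fin 1161 2 1097))))))))))
(cons (mv 1165 (cons (fin 1229 4 972)
(mv 1101 (cons (fin 910 6 909)
(mv 1166 (cons (fin 1230 4 973)
(mv 1099 (cons (fin 1167 3 1099)
(fin 1098 0 1098)))))))))
(mv 1163 (cons (fin 1227 5 971)
(mv 1165 (cons (fin 1229 4 972)
(mv 1166 (cons (mv 1099 (cons (fin 1098 3 1098)
(fin 1167 3 1099)))
(mv 1102 (cons (fin 1103 2 1099)
(fin 1038 6 910))))))))))))))
(mv 908 (cons (fin 907 3 907)
(mv 844 (cons (fin 780 4 780)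
(mv 843 (cons (fin 779 7 779)
(mv 845 (cons (fin 781 6 780)
(mv 911 (cons (fin 912 2 908)
(mv 846 (cons (fin 910 0 843)
(mv 783 (cons (fin 782 2 779)
(mv 847 (cons (fin 784 2 780)
(fin 1038 5 782)))))))))))))))))))))))
(cons (mv 1035 (cons (fin 1034 2 970)
(mv 1101 (cons (mv 910 (cons (fin 1165 6 909)
(mv 846 (cons (fin 782 5 781)
(fin 1038 5 845)))))
(cons (mv 1102 (cons (fin 1103 3 1035)
(mv 1099 (cons (mv 1098 (cons (fin 1038 1 1034)
(fin 1097 2 1033)))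
(cons (mv 1162 (cons (fin 1163 1 1098)
(mv 1166 (cons (fin 1167 0 1099)
(mv 1230 (cons (fin 1038 7 973)
(fin 1294 7 1037)))))))
(mv 1097 (cons (fin 1098 2 1033)
(mv 1163 (cons (fin 1162 1 1098)
(mv 972 (cons (fin 908 5 907)
(fin 1227 6 971))))))))))))
(mv 1102 (cons (fin 1103 3 1035)
(mv 1165 (cons (fin 910 6 909)
(mv 972 (cons (fin 908 7 908)
(fin 1229 7 972))))))))))))
(mv 975 (cons (fin 976 1 972)
(mv 1035 (cons (fin 1034 2 970)
(fin 1038 2 971))))))))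
(mv 974 (cons (cons (mv 975 (cons (fin 976 1 972)
(mv 1035 (cons (fin 972 1 971)
(fin 1034 2 970)))))
(mv 975 (cons (fin 976 1 972)
(mv 972 (cons (cons (mv 907 (cons (fin 908 3 907)
(mv 911 (cons (fin 912 2 908)
(mv 1164 (cons (fin 909 6 908)
(mv 1163 (cons (fin 1227 5 971)
(mv 1165 (cons (fin 1229 4 972)
(mv 1101 (cons (fin 910 6 909)
(mv 1102 (cons (fin 1103 1 1099)
(fin 1162 2 1098)))))))))))))))
(mv 911 (cons (fin 912 2 908)
(mv 1164 (cons (fin 909 6 908)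
(mv 1163 (cons (fin 1227 5 971)
(mv 1165 (cons (fin 1229 4 972)
(mv 1101 (cons (fin 910 6 909)
(mv 1102 (cons (fin 1103 1 1099)
(fin 1162 2 1098))))))))))))))
(cons (mv 908 (cons (fin 907 3 907)
(mv 844 (cons (fin 780 4 780)
(fin 1101 4 844)))))
(mv 908 (cons (fin 907 3 907)
(mv 780 (cons (fin 844 4 780)
(mv 911 (cons (fin 912 2 908)
(mv 1163 (cons (fin 1099 5 907)
(mv 1164 (cons (fin 1227 5 971)
(fin 909 6 908)))))))))))))))))
(cons (mv 1034 (cons (fin 1035 2 970)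
(mv 1101 (cons (cons (mv 909 (cons (fin 1164 5 908)
(mv 910 (cons (fin 846 6 845)
(fin 1165 6 909)))))
(mv 909 (cons (fin 1164 5 908)
(mv 844 (cons (fin 908 7 844)
(mv 910 (cons (fin 846 6 845)
(mv 1102 (cons (fin 1166 4 909)
(mv 1103 (cons (fin 1104 3 1036)
(mv 1167 (cons (fin 1168 0 1100)
(fin 1038 4 910))))))))))))))
(cons (mv 910 (cons (fin 1165 6 909)
(mv 846 (cons (fin 782 5 781)
(fin 1038 5 845)))))
(mv 909 (cons (fin 1164 5 908)
(mv 844 (cons (fin 908 7 844)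
(mv 1166 (cons (fin 1102 4 909)
(mv 1165 (cons (fin 1230 4 973)
(mv 1229 (cons (fin 972 7 972)
(fin 1293 7 1036))))))))))))))))
(mv 975 (cons (fin 976 1 972)
(mv 1035 (cons (fin 1034 2 970)
(fin 1038 2 971))))))))))
(cons (mv 909 (cons (fin 845 5 844)
(mv 1101 (cons (cons (mv 844 (cons (fin 908 7 844)
(mv 846 (cons (fin 910 6 845)
(mv 1102 (cons (fin 1166 4 909)
(mv 1035 (cons (fin 1103 3 1035)
(fin 1034 0 1034)))))))))
(mv 844 (cons (fin 908 7 844)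
(mv 910 (cons (fin 846 6 845)
(mv 974 (cons (fin 1165 6 909)
(mv 975 (cons (fin 976 1 972)
(mv 1035 (cons (fin 972 1 971)
(fin 1034 2 970))))))))))))
(cons (mv 846 (cons (fin 910 6 845)
(mv 1102 (cons (fin 1166 4 909)
(mv 1035 (cons (fin 1103 3 1035)
(fin 1034 0 1034)))))))
(cons (mv 844 (cons (fin 908 7 844)
(mv 1102 (cons (fin 1166 4 909)
(mv 1035 (cons (fin 1103 3 1035)
(fin 1034 0 1034)))))))
(mv 844 (cons (fin 908 7 844)
(mv 846 (cons (fin 910 6 845)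
(mv 1166 (cons (fin 1102 4 909)
(mv 1165 (cons (fin 1230 4 973)
(mv 1229 (cons (fin 972 7 972)
(fin 1293 7 1036)))))))))))))))))
(cons (mv 909 (cons (fin 845 5 844)
(mv 972 (cons (fin 1164 6 908)
(mv 908 (cons (cons (mv 780 (cons (fin 844 4 780)
(mv 843 (cons (fin 907 7 843)
(mv 1099 (cons (fin 1163 5 907)
(mv 1098 (cons (fin 1097 2 1033)
(mv 1035 (cons (fin 1038 1 1034)
(mv 974 (cons (fin 975 1 971)
(fin 1034 2 970)))))))))))))
(mv 780 (cons (fin 844 4 780)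
(mv 1099 (cons (fin 1163 5 907)
(mv 1098 (cons (fin 1097 2 1033)
(mv 1035 (cons (fin 1038 1 1034)
(mv 974 (cons (fin 975 1 971)
(fin 1034 2 970))))))))))))
(cons (mv 843 (cons (fin 907 7 843)
(mv 1099 (cons (fin 1163 5 907)
(mv 1098 (cons (fin 1097 2 1033)
(mv 1035 (cons (fin 1038 1 1034)
(mv 974 (cons (fin 975 1 971)
(fin 1034 2 970)))))))))))
(cons (mv 780 (cons (fin 844 4 780)
(mv 907 (cons (fin 843 7 843)
(mv 906 (cons (fin 905 0 905)
(fin 974 0 906)))))))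
(mv 780 (cons (fin 844 4 780)
(mv 907 (cons (fin 843 7 843)
(mv 906 (cons (fin 905 0 905)
(mv 842 (cons (fin 841 3 841)
(mv 970 (cons (fin 969 1 905)
(mv 1099 (cons (fin 1163 5 907)
(mv 1034 (cons (fin 1035 4 842)
(mv 1097 (cons (fin 1098 2 1033)
(fin 1033 5 841)))))))))))))))))))))))))
(mv 909 (cons (fin 845 5 844)
(mv 1101 (cons (fin 1164 5 908)
(mv 844 (cons (fin 908 7 844)
(mv 846 (cons (fin 910 6 845)
(mv 1102 (cons (fin 1166 4 909)
(mv 1035 (cons (fin 1103 3 1035)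
(fin 1034 0 1034)))))))))))))))))
(mv 1164 (cons (cons (mv 973 (cons (fin 1228 6 972)
(mv 909 (cons (fin 845 5 844)
(fin 972 6 908)))))
(mv 972 (cons (cons (mv 909 (cons (fin 973 6 908)
(mv 908 (cons (fin 845 6 844)
(mv 1163 (cons (fin 1099 5 907)
(fin 1227 5 971)))))))
(mv 1163 (cons (fin 1227 5 971)
(mv 908 (cons (fin 1099 5 907)
(mv 843 (cons (fin 907 7 843)
(mv 844 (cons (fin 779 7 779)
(mv 780 (cons (fin 973 4 780)
(mv 781 (cons (fin 717 6 716)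
(fin 845 6 780))))))))))))))
(cons (mv 1163 (cons (fin 1227 5 971)
(mv 908 (cons (fin 1099 5 907)
(mv 843 (cons (fin 907 7 843)
(mv 844 (cons (fin 779 7 779)
(mv 845 (cons (fin 781 6 780)
(fin 909 6 844)))))))))))
(cons (mv 1165 (cons (fin 1229 4 972)
(mv 908 (cons (cons (mv 909 (cons (fin 845 6 844)
(fin 973 6 908)))
(mv 843 (cons (fin 907 7 843)
(mv 844 (cons (fin 779 7 779)
(mv 780 (cons (fin 973 4 780)
(mv 781 (cons (fin 717 6 716)
(fin 845 6 780))))))))))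
(cons (mv 843 (cons (fin 907 7 843)
(mv 844 (cons (fin 779 7 779)
(mv 845 (cons (fin 781 6 780)
(fin 909 6 844)))))))
(mv 843 (cons (fin 907 7 843)
(mv 844 (cons (fin 779 7 779)
(mv 973 (cons (fin 909 6 908)
(fin 780 4 780))))))))))))
(mv 909 (cons (fin 973 6 908)
(mv 1163 (cons (fin 1227 5 971)
(mv 1165 (cons (fin 1229 4 972)
(mv 1166 (cons (mv 1099 (cons (fin 1098 3 1098)
(fin 1167 3 1099)))
(cons (mv 1103 (cons (fin 1102 2 1099)
(mv 1167 (cons (fin 1104 2 1100)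
(mv 1231 (cons (fin 1230 0 1163)
(fin 1232 0 1164)))))))
(mv 1102 (cons (fin 1103 2 1099)
(mv 1230 (cons (fin 1231 0 1163)
(mv 1162 (cons (cons (mv 1098 (cons (fin 1097 3 1097)
(fin 1099 3 1098)))
(mv 1225 (cons (fin 1226 1 1161)
(mv 1161 (cons (fin 1224 1 1160)
(mv 1096 (cons (fin 1097 3 1096)
(mv 1160 (cons (fin 1095 3 1095)
(fin 1099 2 1096))))))))))
(cons (mv 1099 (cons (fin 1098 3 1098)
(mv 1161 (cons (fin 1160 2 1096)
(mv 1225 (cons (fin 1224 1 1160)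
(fin 1226 1 1161)))))))
(mv 1097 (cons (fin 1098 3 1097)
(mv 1161 (cons (fin 1096 3 1096)
(mv 1225 (cons (fin 1224 1 1160)
(fin 1226 1 1161))))))))))))))))))))))))))))
(cons (mv 1228 (cons (cons (mv 1227 (cons (fin 1291 5 1035)
(mv 972 (cons (fin 1163 5 971)
(mv 1229 (cons (fin 1165 4 972)
(fin 1293 4 1036)))))))
(cons (mv 1293 (cons (fin 1229 4 1036)
(mv 1292 (cons (fin 1357 4 1100)
(mv 1099 (cons (fin 1035 7 1035)
(mv 1097 (cons (fin 1098 2 1033)
(mv 1355 (cons (fin 1291 5 1099)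
(mv 1356 (cons (fin 1163 7 1099)
(fin 1419 5 1163)))))))))))))
(mv 1291 (cons (fin 1227 5 1035)
(mv 1292 (cons (fin 1355 5 1099)
(mv 1099 (cons (fin 1035 7 1035)
(mv 1097 (cons (fin 1098 2 1033)
(mv 1356 (cons (fin 1163 7 1099)
(mv 1357 (cons (fin 1293 4 1100)
(fin 1421 4 1164)))))))))))))))
(cons (mv 1229 (cons (fin 1293 4 1036)
(mv 972 (cons (fin 1165 4 972)
(mv 1163 (cons (fin 1227 5 971)
(mv 908 (cons (fin 1099 5 907)
(mv 843 (cons (fin 907 7 843)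
(mv 844 (cons (fin 779 7 779)
(mv 845 (cons (fin 781 6 780)
(fin 909 6 844)))))))))))))))
(cons (mv 1291 (cons (fin 1227 5 1035)
(mv 1292 (cons (fin 1355 5 1099)
(mv 1099 (cons (fin 1035 7 1035)
(mv 1098 (cons (fin 1097 2 1033)
(mv 1163 (cons (fin 1356 7 1099)
(mv 972 (cons (fin 908 5 907)
(mv 1165 (cons (fin 1166 3 1098)
(fin 1229 4 972)))))))))))))))
(mv 1227 (cons (fin 1291 5 1035)
(mv 1229 (cons (fin 1293 4 1036)
(mv 1165 (cons (fin 972 4 972)
(mv 1166 (cons (fin 1167 1 1163)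
(fin 1226 2 1162)))))))))))))
(mv 1228 (cons (fin 973 6 972)
(mv 1229 (cons (fin 1293 4 1036)
(mv 1291 (cons (fin 1227 5 1035)
(mv 1292 (cons (fin 1355 5 1099)
(mv 1099 (cons (fin 1035 7 1035)
(mv 1097 (cons (fin 1098 2 1033)
(mv 1163 (cons (fin 1356 7 1099)
(mv 1162 (cons (fin 1161 0 1161)
(mv 1230 (cons (fin 1231 3 1163)
(fin 1165 0 1162)))))))))))))))))))))))))
(cons (cons (cons (mv 973 (cons (cons (mv 909 (cons (fin 845 5 844)
(mv 1164 (cons (fin 1101 5 908)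
(fin 972 6 908)))))
(mv 1164 (cons (fin 1228 6 972)
(mv 972 (cons (cons (mv 1163 (cons (fin 1227 5 971)
(mv 908 (cons (fin 1099 5 907)
(mv 844 (cons (fin 780 4 780)
(fin 1101 4 844)))))))
(mv 1165 (cons (fin 1229 4 972)
(mv 908 (cons (fin 1101 7 908)
(mv 843 (cons (fin 907 7 843)
(mv 844 (cons (fin 779 7 779)
(fin 780 4 780))))))))))
(cons (mv 1163 (cons (fin 1227 5 971)
(mv 1165 (cons (fin 1229 4 972)
(mv 1101 (cons (mv 1102 (cons (fin 1103 1 1099)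
(fin 1162 2 1098)))
(cons (mv 910 (cons (fin 974 6 909)
(mv 1161 (cons (fin 1162 2 1097)
(mv 1166 (cons (fin 1230 4 973)
(mv 1099 (cons (fin 1098 3 1098)
(fin 1167 3 1099)))))))))
(mv 910 (cons (fin 974 6 909)
(mv 1102 (cons (fin 1103 1 1099)
(mv 1166 (cons (fin 1230 4 973)
(mv 1099 (cons (fin 1098 3 1098)
(fin 1167 3 1099))))))))))))))))
(mv 1163 (cons (fin 1227 5 971)
(mv 908 (cons (fin 1099 5 907)
(mv 843 (cons (fin 907 7 843)
(mv 844 (cons (fin 779 7 779)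
(fin 780 4 780)))))))))))))))
(cons (mv 909 (cons (fin 845 5 844)
(mv 1101 (cons (cons (mv 844 (cons (fin 908 7 844)
(mv 846 (cons (fin 910 6 845)
(mv 1166 (cons (fin 1102 4 909)
(mv 1165 (cons (fin 1230 4 973)
(mv 1229 (cons (fin 972 7 972)
(fin 1293 7 1036)))))))))))
(mv 846 (cons (fin 910 6 845)
(mv 1166 (cons (fin 1102 4 909)
(mv 1165 (cons (fin 1230 4 973)
(mv 1229 (cons (fin 972 7 972)
(fin 1293 7 1036))))))))))
(cons (mv 844 (cons (fin 908 7 844)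
(mv 910 (cons (fin 846 6 845)
(mv 1165 (cons (fin 974 6 909)
(mv 1229 (cons (fin 972 7 972)
(fin 1293 7 1036)))))))))
(cons (mv 844 (cons (fin 908 7 844)
(mv 1166 (cons (fin 1102 4 909)
(mv 1165 (cons (fin 1230 4 973)
(mv 1229 (cons (fin 972 7 972)
(fin 1293 7 1036)))))))))
(mv 908 (cons (fin 844 7 844)
(mv 910 (cons (fin 846 6 845)
(mv 1102 (cons (fin 1166 4 909)
(mv 1103 (cons (fin 1104 3 1036)
(mv 1167 (cons (fin 1168 0 1100)
(mv 974 (cons (fin 1038 4 910)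
(mv 907 (cons (fin 906 0 906)
(fin 975 0 907)))))))))))))))))))))
(cons (mv 909 (cons (fin 845 5 844)
(mv 1164 (cons (fin 972 6 908)
(fin 1228 6 972)))))
(mv 909 (cons (fin 845 5 844)
(mv 1164 (cons (fin 1101 5 908)
(fin 1228 6 972)))))))))
(mv 1101 (cons (cons (cons (mv 1102 (cons (mv 1035 (cons (fin 1103 3 1035)
(fin 1034 0 1034)))
(cons (mv 1103 (cons (fin 1104 3 1036)
(mv 1163 (cons (fin 1164 1 1099)
(mv 1099 (cons (fin 1162 1 1098)
(mv 1098 (cons (fin 1097 2 1033)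
(fin 1038 2 1034)))))))))
(mv 1035 (cons (fin 1034 0 1034)
(mv 1099 (cons (mv 1098 (cons (fin 1038 1 1034)
(fin 1097 2 1033)))
(cons (mv 1162 (cons (fin 1163 1 1098)
(mv 1166 (cons (fin 1167 0 1099)
(mv 973 (cons (fin 909 4 909)
(mv 1230 (cons (fin 1038 7 973)
(fin 1294 7 1037)))))))))
(mv 1097 (cons (fin 1098 2 1033)
(mv 1162 (cons (fin 1163 1 1098)
(mv 1166 (cons (fin 1167 0 1099)
(mv 973 (cons (fin 909 4 909)
(mv 1230 (cons (fin 1294 7 1037)
(fin 1165 4 973)))))))))))))))))))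
(mv 973 (cons (mv 909 (cons (fin 845 5 844)
(fin 1164 5 908)))
(cons (mv 909 (cons (fin 845 5 844)
(mv 844 (cons (fin 908 7 844)
(mv 910 (cons (fin 846 6 845)
(mv 974 (cons (fin 1165 6 909)
(mv 975 (cons (fin 976 1 972)
(mv 1035 (cons (fin 1034 2 970)
(fin 1038 2 971)))))))))))))
(mv 1164 (cons (fin 1228 6 972)
(mv 1165 (cons (mv 910 (cons (fin 974 6 909)
(mv 1166 (cons (fin 1230 4 973)
(mv 1099 (cons (fin 1167 3 1099)
(fin 1098 0 1098)))))))
(cons (mv 974 (cons (fin 910 6 909)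
(mv 1229 (cons (fin 1293 7 1036)
(fin 1038 6 973)))))
(mv 1166 (cons (fin 1230 4 973)
(mv 1099 (cons (fin 1167 3 1099)
(fin 1098 0 1098))))))))))))))
(cons (mv 1102 (cons (mv 1035 (cons (fin 1103 3 1035)
(fin 1034 0 1034)))
(cons (mv 1103 (cons (fin 1104 3 1036)
(mv 1163 (cons (fin 1164 1 1099)
(mv 1099 (cons (fin 1162 1 1098)
(mv 1098 (cons (fin 1097 2 1033)
(fin 1038 2 1034)))))))))
(mv 1035 (cons (fin 1034 0 1034)
(mv 1099 (cons (mv 1098 (cons (fin 1038 1 1034)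
(fin 1097 2 1033)))
(mv 1163 (cons (fin 1162 1 1098)
(mv 1166 (cons (fin 1167 0 1099)
(mv 1227 (cons (fin 1291 6 1035)
(mv 1226 (cons (fin 1290 5 1034)
(mv 1164 (cons (fin 1165 1 1162)
(mv 1224 (cons (fin 1225 2 1160)
(mv 1228 (cons (fin 1292 7 1035)
(mv 1229 (cons (fin 1293 4 1036)
(mv 1230 (cons (fin 1231 3 1163)
(fin 1294 7 1037))))))))))))))))))))))))))
(mv 973 (cons (mv 909 (cons (fin 845 5 844)
(fin 1164 5 908)))
(cons (mv 1164 (cons (fin 1228 6 972)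
(mv 1165 (cons (mv 910 (cons (fin 974 6 909)
(mv 1166 (cons (fin 1230 4 973)
(mv 1099 (cons (fin 1167 3 1099)
(fin 1098 0 1098)))))))
(cons (mv 974 (cons (fin 910 6 909)
(mv 1229 (cons (fin 1293 7 1036)
(fin 1038 6 973)))))
(mv 1166 (cons (fin 1230 4 973)
(mv 1099 (cons (fin 1167 3 1099)
(fin 1098 0 1098))))))))))
(mv 909 (cons (fin 845 5 844)
(mv 844 (cons (fin 908 7 844)
(mv 910 (cons (fin 846 6 845)
(mv 974 (cons (fin 1165 6 909)
(mv 975 (cons (fin 976 1 972)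
(mv 1102 (cons (fin 1166 4 909)
(mv 1103 (cons (fin 1104 3 1036)
(mv 1167 (cons (fin 1168 0 1100)
(fin 1038 4 910))))))))))))))))))))))
(cons (cons (mv 1102 (cons (mv 1035 (cons (fin 1103 3 1035)
(fin 1034 0 1034)))
(cons (mv 1103 (cons (fin 1104 3 1036)
(mv 1167 (cons (fin 1168 0 1100)
(mv 1099 (cons (fin 1166 0 1099)
(mv 1098 (cons (fin 1097 2 1033)
(fin 1038 2 1034)))))))))
(mv 1034 (cons (fin 1035 0 1034)
(mv 1099 (cons (mv 1098 (cons (fin 1033 3 1033)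
(fin 1097 2 1033)))
(mv 1162 (cons (fin 1163 1 1098)
(mv 1166 (cons (fin 1167 0 1099)
(mv 973 (cons (fin 909 4 909)
(mv 1230 (cons (fin 1038 7 973)
(fin 1294 7 1037))))))))))))))))
(mv 973 (cons (mv 909 (cons (fin 845 5 844)
(fin 1164 5 908)))
(cons (mv 1164 (cons (fin 1228 6 972)
(mv 1102 (cons (mv 1035 (cons (fin 1103 3 1035)
(fin 1034 0 1034)))
(cons (mv 1034 (cons (fin 1035 0 1034)
(mv 1165 (cons (cons (mv 910 (cons (fin 974 6 909)
(mv 1162 (cons (fin 1163 2 1098)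
(mv 1229 (cons (fin 1293 7 1036)
(mv 1230 (cons (fin 1166 4 973)
(fin 1294 4 1037)))))))))
(mv 974 (cons (fin 910 6 909)
(mv 975 (cons (fin 976 1 972)
(mv 1162 (cons (fin 1163 2 1098)
(mv 1166 (cons (fin 1230 4 973)
(mv 1038 (cons (fin 911 6 910)
(mv 1167 (cons (fin 1168 3 1100)
(fin 1231 4 974))))))))))))))
(cons (mv 974 (cons (fin 910 6 909)
(mv 1229 (cons (fin 1293 7 1036)
(fin 1038 6 973)))))
(mv 1162 (cons (fin 1163 2 1098)
(mv 1229 (cons (fin 1293 7 1036)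
(mv 1230 (cons (fin 1166 4 973)
(fin 1294 4 1037))))))))))))
(mv 1103 (cons (fin 1104 3 1036)
(fin 1163 1 1099))))))))
(mv 909 (cons (fin 845 5 844)
(mv 844 (cons (fin 908 7 844)
(mv 846 (cons (fin 910 6 845)
(mv 1102 (cons (fin 1166 4 909)
(mv 1035 (cons (fin 1103 3 1035)
(fin 1034 0 1034)))))))))))))))
(cons (mv 973 (cons (mv 909 (cons (fin 845 5 844)
(fin 1164 5 908)))
(cons (mv 1164 (cons (fin 1228 6 972)
(mv 1102 (cons (mv 1035 (cons (fin 1103 3 1035)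
(fin 1034 0 1034)))
(cons (mv 1034 (cons (fin 1035 0 1034)
(mv 1099 (cons (mv 1098 (cons (fin 1033 3 1033)
(fin 1097 2 1033)))
(mv 1162 (cons (fin 1163 1 1098)
(mv 1166 (cons (fin 1167 0 1099)
(mv 1230 (cons (fin 1294 7 1037)
(fin 1165 4 973)))))))))))
(mv 1103 (cons (fin 1104 3 1036)
(fin 1163 1 1099))))))))
(mv 909 (cons (fin 845 5 844)
(mv 844 (cons (fin 908 7 844)
(mv 846 (cons (fin 910 6 845)
(mv 1102 (cons (fin 1166 4 909)
(mv 1035 (cons (fin 1103 3 1035)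
(fin 1034 0 1034))))))))))))))
(mv 1035 (cons (mv 1034 (cons (fin 1033 0 1033)
(fin 1102 0 1034)))
(cons (mv 1102 (cons (fin 1103 3 1035)
(mv 1099 (cons (mv 1098 (cons (fin 1038 1 1034)
(fin 1097 2 1033)))
(cons (mv 1163 (cons (fin 1162 1 1098)
(mv 1227 (cons (fin 1291 6 1035)
(mv 1226 (cons (fin 1290 5 1034)
(mv 1228 (cons (fin 1292 4 1035)
(mv 973 (cons (fin 1164 6 972)
(mv 909 (cons (fin 845 5 844)
(mv 844 (cons (fin 908 7 844)
(mv 910 (cons (fin 846 6 845)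
(mv 974 (cons (fin 1165 6 909)
(mv 975 (cons (fin 976 1 972)
(fin 1038 2 971)))))))))))))))))))))
(mv 1097 (cons (fin 1098 2 1033)
(mv 1163 (cons (fin 1162 1 1098)
(mv 1227 (cons (fin 1291 6 1035)
(mv 1226 (cons (fin 1290 5 1034)
(mv 1228 (cons (fin 1292 4 1035)
(mv 973 (cons (fin 1164 6 972)
(mv 909 (cons (fin 845 5 844)
(mv 908 (cons (fin 844 7 844)
(mv 910 (cons (fin 846 6 845)
(mv 974 (cons (fin 1165 6 909)
(mv 907 (cons (fin 906 0 906)
(fin 975 0 907))))))))))))))))))))))))))))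
(mv 1034 (cons (fin 1033 0 1033)
(mv 969 (cons (fin 970 3 969)
(mv 973 (cons (fin 974 2 970)
(mv 909 (cons (fin 845 5 844)
(fin 1164 5 908)))))))))))))))))
(cons (mv 973 (cons (cons (mv 909 (cons (fin 845 5 844)
(mv 1164 (cons (fin 1101 5 908)
(fin 972 6 908)))))
(mv 909 (cons (fin 845 5 844)
(mv 1101 (cons (cons (mv 846 (cons (fin 910 6 845)
(mv 1102 (cons (fin 1166 4 909)
(mv 1035 (cons (fin 1103 3 1035)
(fin 1034 0 1034)))))))
(mv 910 (cons (fin 846 6 845)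
(mv 974 (cons (fin 1165 6 909)
(mv 975 (cons (fin 976 1 972)
(mv 1035 (cons (fin 972 1 971)
(fin 1034 2 970))))))))))
(cons (mv 1102 (cons (fin 1166 4 909)
(mv 1035 (cons (fin 1103 3 1035)
(fin 1034 0 1034)))))
(mv 846 (cons (fin 910 6 845)
(mv 1166 (cons (fin 1102 4 909)
(mv 1165 (cons (fin 1230 4 973)
(mv 1229 (cons (fin 972 7 972)
(fin 1293 7 1036)))))))))))))))
(cons (mv 1164 (cons (fin 1228 6 972)
(mv 974 (cons (cons (mv 975 (cons (fin 976 1 972)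
(mv 1035 (cons (fin 972 1 971)
(fin 1034 2 970)))))
(mv 975 (cons (fin 976 1 972)
(mv 972 (cons (cons (mv 911 (cons (fin 912 2 908)
(mv 1163 (cons (fin 1227 5 971)
(mv 1165 (cons (fin 1229 4 972)
(mv 1101 (cons (fin 910 6 909)
(mv 1102 (cons (fin 1103 1 1099)
(fin 1162 2 1098)))))))))))
(mv 911 (cons (fin 912 2 908)
(mv 1163 (cons (fin 1227 5 971)
(mv 1102 (cons (mv 1038 (cons (fin 1166 6 910)
(mv 847 (cons (fin 783 5 782)
(fin 910 6 846)))))
(mv 1101 (cons (fin 1103 1 1099)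
(mv 1162 (cons (fin 1099 1 1098)
(fin 1161 2 1097))))))))))))
(cons (mv 911 (cons (fin 912 2 908)
(mv 1165 (cons (fin 1229 4 972)
(mv 1101 (cons (fin 910 6 909)
(mv 1166 (cons (fin 1230 4 973)
(mv 1099 (cons (fin 1167 3 1099)
(fin 1098 0 1098)))))))))))
(cons (mv 1163 (cons (fin 1227 5 971)
(mv 1165 (cons (fin 1229 4 972)
(mv 1101 (cons (fin 910 6 909)
(mv 1102 (cons (fin 1103 1 1099)
(fin 1162 2 1098)))))))))
(mv 911 (cons (fin 912 2 908)
(mv 1163 (cons (fin 1227 5 971)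
(mv 1165 (cons (fin 1229 4 972)
(mv 1166 (cons (mv 1099 (cons (fin 1098 3 1098)
(fin 1167 3 1099)))
(mv 1102 (cons (fin 1103 2 1099)
(fin 1038 6 910))))))))))))))))))
(cons (mv 1034 (cons (fin 1035 2 970)
(mv 1165 (cons (mv 972 (cons (fin 1229 4 972)
(mv 1101 (cons (fin 910 6 909)
(mv 1163 (cons (fin 1227 5 971)
(mv 1102 (cons (fin 1103 1 1099)
(fin 1162 2 1098)))))))))
(cons (mv 972 (cons (fin 1229 4 972)
(mv 1163 (cons (fin 1227 5 971)
(mv 1166 (cons (mv 1099 (cons (fin 1098 3 1098)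
(fin 1167 3 1099)))
(mv 1102 (cons (fin 1103 2 1099)
(mv 1230 (cons (fin 1231 0 1163)
(fin 1038 7 973)))))))))))
(mv 1101 (cons (fin 910 6 909)
(mv 1166 (cons (fin 1230 4 973)
(mv 1099 (cons (fin 1167 3 1099)
(fin 1098 0 1098))))))))))))
(mv 975 (cons (fin 976 1 972)
(mv 1035 (cons (fin 1034 2 970)
(fin 1038 2 971))))))))))
(cons (mv 909 (cons (fin 845 5 844)
(mv 1164 (cons (fin 972 6 908)
(fin 1228 6 972)))))
(mv 909 (cons (fin 845 5 844)
(mv 1164 (cons (fin 1101 5 908)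
(fin 1228 6 972)))))))))
(mv 1035 (cons (cons (mv 1034 (cons (mv 1101 (cons (fin 1033 0 1033)
(fin 1102 0 1034)))
(cons (mv 969 (cons (fin 970 3 969)
(mv 968 (cons (fin 1033 3 968)
(mv 973 (cons (fin 974 2 970)
(mv 909 (cons (fin 845 5 844)
(mv 1164 (cons (fin 972 6 908)
(fin 1228 6 972)))))))))))
(mv 969 (cons (fin 970 3 969)
(mv 973 (cons (fin 974 2 970)
(mv 845 (cons (fin 909 5 844)
(mv 1098 (cons (fin 1097 1 1033)
(mv 1038 (cons (fin 1099 1 1034)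
(mv 1102 (cons (fin 1101 0 1034)
(fin 1103 0 1035))))))))))))))))
(mv 1102 (cons (cons (mv 1103 (cons (fin 1101 3 1035)
(fin 1038 0 1035)))
(mv 1099 (cons (mv 1098 (cons (fin 1038 1 1034)
(fin 1097 2 1033)))
(cons (mv 1163 (cons (mv 972 (cons (fin 908 5 907)
(fin 1227 6 971)))
(cons (mv 908 (cons (fin 972 5 907)
(mv 1101 (cons (fin 1162 1 1098)
(mv 1166 (cons (fin 1167 0 1099)
(mv 973 (cons (fin 909 4 909)
(mv 1230 (cons (fin 1038 7 973)
(fin 1294 7 1037)))))))))))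
(mv 1101 (cons (fin 1162 1 1098)
(mv 1166 (cons (fin 1167 0 1099)
(mv 973 (cons (fin 909 4 909)
(mv 1230 (cons (fin 1038 7 973)
(fin 1294 7 1037))))))))))))
(mv 1097 (cons (fin 1098 2 1033)
(mv 1163 (cons (mv 972 (cons (fin 908 5 907)
(fin 1227 6 971)))
(cons (mv 908 (cons (fin 972 5 907)
(mv 1162 (cons (fin 1101 1 1098)
(mv 1161 (cons (fin 1160 2 1096)
(mv 1164 (cons (fin 1096 3 1096)
(mv 1228 (cons (fin 1229 0 1161)
(fin 1292 7 1035)))))))))))
(mv 1101 (cons (fin 1162 1 1098)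
(mv 1166 (cons (fin 1167 0 1099)
(mv 973 (cons (fin 909 4 909)
(mv 1227 (cons (fin 1291 6 1035)
(mv 1228 (cons (fin 1164 6 972)
(fin 1292 4 1035))))))))))))))))))))
(cons (mv 1101 (cons (fin 1103 3 1035)
(mv 1164 (cons (mv 973 (cons (fin 909 5 908)
(fin 1228 6 972)))
(cons (mv 1228 (cons (fin 1292 6 1036)
(mv 1227 (cons (fin 1291 5 1035)
(mv 1163 (cons (fin 972 5 971)
(mv 1162 (cons (fin 1099 1 1098)
(fin 1161 2 1097)))))))))
(mv 909 (cons (fin 973 5 908)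
(mv 1163 (cons (mv 1162 (cons (fin 1099 1 1098)
(fin 1161 2 1097)))
(cons (mv 972 (cons (fin 1227 5 971)
(mv 908 (cons (fin 1099 5 907)
(fin 845 6 844)))))
(mv 972 (cons (fin 1227 5 971)
(mv 908 (cons (fin 845 6 844)
(fin 844 4 844)))))))))))))))
(mv 1038 (cons (fin 1103 0 1035)
(mv 974 (cons (fin 975 2 971)
(mv 1099 (cons (fin 1098 1 1034)
(mv 909 (cons (mv 845 (cons (fin 910 7 845)
(fin 973 5 844)))
(cons (mv 910 (cons (fin 845 7 845)
(mv 847 (cons (fin 911 6 846)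
(mv 846 (cons (fin 783 6 782)
(mv 848 (cons (fin 849 1 845)
(mv 908 (cons (fin 907 2 843)
(mv 972 (cons (fin 844 5 843)
(fin 1163 5 907)))))))))))))
(mv 973 (cons (fin 1166 7 909)
(mv 1164 (cons (fin 972 6 908)
(fin 1228 6 972))))))))))))))))))
(cons (mv 973 (cons (cons (mv 845 (cons (fin 909 5 844)
(mv 974 (cons (fin 1034 2 970)
(mv 975 (cons (fin 972 1 971)
(fin 976 1 972)))))))
(mv 909 (cons (fin 845 5 844)
(mv 1164 (cons (fin 972 6 908)
(fin 1228 6 972))))))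
(cons (mv 974 (cons (fin 1034 2 970)
(mv 975 (cons (fin 972 1 971)
(fin 976 1 972)))))
(mv 845 (cons (fin 909 5 844)
(mv 974 (cons (fin 1034 2 970)
(mv 975 (cons (fin 976 1 972)
(fin 1038 2 971))))))))))
(cons (mv 1034 (cons (mv 1101 (cons (fin 1033 0 1033)
(fin 1102 0 1034)))
(cons (mv 969 (cons (fin 970 3 969)
(mv 1033 (cons (fin 968 3 968)
(mv 1097 (cons (fin 1096 1 1032)
(fin 1098 1 1033)))))))
(mv 969 (cons (fin 970 3 969)
(mv 1098 (cons (fin 1097 1 1033)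
(mv 1038 (cons (fin 1099 1 1034)
(mv 1102 (cons (fin 1101 0 1034)
(fin 1103 0 1035))))))))))))
(mv 1034 (cons (mv 1101 (cons (fin 1033 0 1033)
(fin 1102 0 1034)))
(cons (mv 969 (cons (fin 970 3 969)
(mv 968 (cons (fin 1033 3 968)
(mv 973 (cons (fin 974 2 970)
(mv 909 (cons (fin 845 5 844)
(mv 1164 (cons (fin 972 6 908)
(fin 1228 6 972)))))))))))
(mv 969 (cons (fin 970 3 969)
(mv 973 (cons (fin 974 2 970)
(mv 909 (cons (fin 845 5 844)
(mv 1101 (cons (fin 1102 0 1034)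
(fin 1164 5 908))))))))))))))))))
(cons (cons (mv 973 (cons (cons (mv 909 (cons (fin 845 5 844)
(mv 1164 (cons (fin 1101 5 908)
(fin 972 6 908)))))
(mv 1164 (cons (fin 1228 6 972)
(mv 972 (cons (cons (mv 1163 (cons (fin 1227 5 971)
(mv 908 (cons (fin 1099 5 907)
(mv 844 (cons (fin 780 4 780)
(fin 1101 4 844)))))))
(mv 1165 (cons (fin 1229 4 972)
(mv 908 (cons (fin 1101 7 908)
(mv 843 (cons (fin 907 7 843)
(mv 844 (cons (fin 779 7 779)
(fin 780 4 780))))))))))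
(cons (mv 1163 (cons (fin 1227 5 971)
(mv 1165 (cons (fin 1229 4 972)
(mv 1099 (cons (mv 1098 (cons (fin 1166 3 1098)
(fin 1097 2 1033)))
(cons (mv 1166 (cons (fin 1167 3 1099)
(mv 1230 (cons (fin 1231 0 1163)
(fin 1101 4 973)))))
(mv 1098 (cons (fin 1097 2 1033)
(mv 1038 (cons (fin 1035 1 1034)
(fin 1101 2 1034))))))))))))
(mv 1163 (cons (fin 1227 5 971)
(mv 908 (cons (fin 1099 5 907)
(mv 843 (cons (fin 907 7 843)
(mv 844 (cons (fin 779 7 779)
(fin 780 4 780)))))))))))))))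
(cons (mv 909 (cons (fin 845 5 844)
(mv 1101 (cons (cons (mv 844 (cons (fin 908 7 844)
(mv 910 (cons (fin 846 6 845)
(mv 974 (cons (fin 1165 6 909)
(mv 975 (cons (fin 976 1 972)
(mv 1035 (cons (fin 972 1 971)
(fin 1034 2 970)))))))))))
(mv 910 (cons (fin 846 6 845)
(mv 974 (cons (fin 1165 6 909)
(mv 975 (cons (fin 976 1 972)
(mv 1035 (cons (fin 972 1 971)
(fin 1034 2 970))))))))))
(cons (mv 908 (cons (fin 844 7 844)
(mv 972 (cons (fin 1165 7 908)
(mv 843 (cons (fin 907 7 843)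
(mv 1099 (cons (fin 1163 5 907)
(mv 1098 (cons (fin 1097 2 1033)
(fin 1038 2 1034)))))))))))
(cons (mv 846 (cons (fin 910 6 845)
(mv 908 (cons (fin 844 7 844)
(mv 974 (cons (cons (mv 906 (cons (fin 907 0 906)
(mv 975 (cons (fin 976 3 908)
(mv 1035 (cons (fin 972 1 971)
(fin 1034 2 970)))))))
(mv 907 (cons (fin 906 0 906)
(mv 972 (cons (fin 843 7 843)
(mv 1034 (cons (fin 1035 2 970)
(mv 1099 (cons (fin 1163 5 907)
(mv 1098 (cons (fin 1033 3 1033)
(fin 1097 2 1033))))))))))))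
(cons (mv 907 (cons (fin 906 0 906)
(mv 972 (cons (fin 975 3 907)
(fin 843 7 843)))))
(cons (mv 975 (cons (fin 976 3 908)
(mv 1035 (cons (fin 972 1 971)
(fin 1034 2 970)))))
(mv 906 (cons (fin 907 0 906)
(mv 975 (cons (fin 976 3 908)
(mv 1035 (cons (fin 1034 2 970)
(fin 1038 2 971)))))))))))))))
(mv 844 (cons (fin 908 7 844)
(mv 910 (cons (fin 846 6 845)
(mv 974 (cons (fin 1165 6 909)
(mv 975 (cons (fin 976 1 972)
(mv 1035 (cons (fin 1034 2 970)
(fin 1038 2 971)))))))))))))))))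
(cons (mv 909 (cons (fin 845 5 844)
(mv 1164 (cons (fin 972 6 908)
(fin 1228 6 972)))))
(mv 909 (cons (fin 845 5 844)
(mv 1164 (cons (fin 1101 5 908)
(fin 1228 6 972)))))))))
(mv 973 (cons (cons (mv 909 (cons (fin 845 5 844)
(mv 1164 (cons (fin 1101 5 908)
(fin 972 6 908)))))
(mv 1164 (cons (fin 1228 6 972)
(mv 974 (cons (cons (mv 975 (cons (fin 976 1 972)
(mv 1035 (cons (fin 972 1 971)
(fin 1034 2 970)))))
(mv 975 (cons (fin 976 1 972)
(mv 972 (cons (mv 908 (cons (fin 907 3 907)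
(mv 844 (cons (fin 780 4 780)
(fin 1101 4 844)))))
(cons (mv 911 (cons (fin 912 2 908)
(mv 1163 (cons (fin 1227 5 971)
(mv 1101 (cons (mv 910 (cons (fin 1165 6 909)
(mv 846 (cons (fin 782 5 781)
(fin 1038 5 845)))))
(mv 1102 (cons (fin 1103 1 1099)
(mv 1162 (cons (fin 1099 1 1098)
(fin 1161 2 1097)))))))))))
(mv 908 (cons (fin 907 3 907)
(mv 1163 (cons (fin 1099 5 907)
(fin 1227 5 971)))))))))))
(cons (mv 1034 (cons (fin 1035 2 970)
(mv 1101 (cons (mv 910 (cons (fin 1165 6 909)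
(mv 846 (cons (fin 782 5 781)
(fin 1038 5 845)))))
(mv 1163 (cons (mv 972 (cons (fin 1227 5 971)
(mv 908 (cons (fin 1099 5 907)
(fin 844 4 844)))))
(cons (mv 1102 (cons (fin 1103 1 1099)
(mv 1162 (cons (fin 1099 1 1098)
(fin 1161 2 1097)))))
(mv 1102 (cons (fin 1103 1 1099)
(mv 1162 (cons (fin 1161 2 1097)
(mv 1227 (cons (fin 972 5 971)
(mv 1098 (cons (fin 970 4 970)
(mv 1291 (cons (fin 1355 7 1098)
(fin 1226 4 1034))))))))))))))))))
(mv 975 (cons (fin 976 1 972)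
(mv 1035 (cons (fin 1034 2 970)
(fin 1038 2 971)))))))))))
(cons (mv 909 (cons (fin 845 5 844)
(mv 1101 (cons (cons (mv 844 (cons (fin 908 7 844)
(mv 846 (cons (fin 910 6 845)
(mv 1102 (cons (fin 1166 4 909)
(mv 1035 (cons (fin 1103 3 1035)
(fin 1034 0 1034)))))))))
(mv 844 (cons (fin 908 7 844)
(mv 910 (cons (fin 846 6 845)
(mv 974 (cons (fin 1165 6 909)
(mv 975 (cons (fin 976 1 972)
(mv 1035 (cons (fin 972 1 971)
(fin 1034 2 970))))))))))))
(cons (mv 846 (cons (fin 910 6 845)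
(mv 1102 (cons (fin 1166 4 909)
(mv 1035 (cons (fin 1103 3 1035)
(fin 1034 0 1034)))))))
(cons (mv 844 (cons (fin 908 7 844)
(mv 1102 (cons (fin 1166 4 909)
(mv 1035 (cons (fin 1103 3 1035)
(fin 1034 0 1034)))))))
(mv 844 (cons (fin 908 7 844)
(mv 910 (cons (fin 846 6 845)
(mv 974 (cons (fin 1165 6 909)
(mv 975 (cons (fin 976 1 972)
(mv 1102 (cons (fin 1166 4 909)
(mv 1103 (cons (fin 1104 3 1036)
(mv 1167 (cons (fin 1168 0 1100)
(fin 1038 4 910)))))))))))))))))))))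
(cons (mv 909 (cons (fin 845 5 844)
(mv 1164 (cons (fin 972 6 908)
(fin 1228 6 972)))))
(mv 909 (cons (fin 845 5 844)
(mv 1164 (cons (fin 1101 5 908)
(fin 1228 6 972))))))))))
(cons (mv 973 (cons (cons (mv 909 (cons (fin 845 5 844)
(mv 1164 (cons (fin 1101 5 908)
(fin 972 6 908)))))
(cons (mv 1164 (cons (fin 1228 6 972)
(mv 974 (cons (cons (mv 975 (cons (fin 976 1 972)
(mv 1035 (cons (fin 972 1 971)
(fin 1034 2 970)))))
(mv 975 (cons (fin 976 1 972)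
(mv 972 (cons (cons (mv 907 (cons (fin 908 3 907)
(mv 911 (cons (fin 912 2 908)
(mv 1165 (cons (fin 1229 4 972)
(mv 1101 (cons (fin 910 6 909)
(mv 1166 (cons (fin 1230 4 973)
(mv 1099 (cons (fin 1167 3 1099)
(fin 1098 0 1098)))))))))))))
(mv 911 (cons (fin 912 2 908)
(mv 1165 (cons (fin 1229 4 972)
(mv 1101 (cons (fin 910 6 909)
(mv 1166 (cons (fin 1230 4 973)
(mv 1099 (cons (fin 1167 3 1099)
(fin 1098 0 1098))))))))))))
(cons (mv 908 (cons (fin 907 3 907)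
(mv 844 (cons (fin 780 4 780)
(fin 1101 4 844)))))
(mv 908 (cons (fin 907 3 907)
(mv 844 (cons (fin 780 4 780)
(mv 843 (cons (fin 779 7 779)
(mv 845 (cons (fin 781 6 780)
(mv 911 (cons (fin 912 2 908)
(mv 846 (cons (fin 910 0 843)
(mv 783 (cons (fin 782 2 779)
(mv 847 (cons (fin 784 2 780)
(fin 1038 5 782)))))))))))))))))))))))
(cons (mv 1035 (cons (fin 1034 2 970)
(mv 1102 (cons (cons (mv 1103 (cons (fin 1101 3 1035)
(fin 1038 0 1035)))
(mv 1165 (cons (cons (mv 910 (cons (fin 1101 6 909)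
(mv 782 (cons (fin 846 5 781)
(mv 1229 (cons (fin 972 4 972)
(mv 1166 (cons (fin 1038 5 973)
(mv 1167 (cons (fin 1099 3 1099)
(mv 1232 (cons (fin 1231 0 1164)
(mv 1168 (cons (fin 1233 0 1165)
(mv 1105 (cons (fin 1104 2 1101)
(mv 1169 (cons (fin 1230 1 1165)
(fin 1106 2 1102)))))))))))))))))))
(mv 1229 (cons (fin 972 4 972)
(mv 1166 (cons (fin 1038 5 973)
(mv 1167 (cons (fin 1099 3 1099)
(mv 1232 (cons (fin 1231 0 1164)
(mv 1168 (cons (fin 1233 0 1165)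
(mv 1105 (cons (fin 1104 2 1101)
(mv 1169 (cons (fin 1230 1 1165)
(fin 1106 2 1102))))))))))))))))
(cons (mv 1101 (cons (fin 910 6 909)
(mv 908 (cons (fin 972 7 908)
(mv 1166 (cons (fin 1230 4 973)
(mv 1099 (cons (fin 1167 3 1099)
(fin 1098 0 1098)))))))))
(mv 1101 (cons (fin 910 6 909)
(mv 1229 (cons (fin 1293 7 1036)
(fin 1038 6 973)))))))))
(cons (mv 1038 (cons (fin 1103 0 1035)
(mv 1099 (cons (fin 1098 1 1034)
(mv 1166 (cons (fin 1230 7 973)
(mv 1165 (cons (fin 1167 3 1099)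
(fin 1229 5 973)))))))))
(mv 1101 (cons (fin 1103 3 1035)
(mv 1165 (cons (fin 910 6 909)
(mv 972 (cons (fin 908 7 908)
(fin 1229 7 972))))))))))))
(mv 975 (cons (fin 976 1 972)
(mv 1035 (cons (fin 1034 2 970)
(fin 1038 2 971))))))))))
(mv 909 (cons (fin 845 5 844)
(mv 1101 (cons (cons (mv 844 (cons (fin 908 7 844)
(mv 846 (cons (fin 910 6 845)
(mv 1102 (cons (fin 1166 4 909)
(mv 1035 (cons (fin 1103 3 1035)
(fin 1034 0 1034)))))))))
(mv 844 (cons (fin 908 7 844)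
(mv 910 (cons (fin 846 6 845)
(mv 974 (cons (fin 1165 6 909)
(mv 975 (cons (fin 976 1 972)
(mv 1035 (cons (fin 972 1 971)
(fin 1034 2 970))))))))))))
(cons (mv 846 (cons (fin 910 6 845)
(mv 1102 (cons (fin 1166 4 909)
(mv 1035 (cons (fin 1103 3 1035)
(fin 1034 0 1034)))))))
(cons (mv 844 (cons (fin 908 7 844)
(mv 1102 (cons (fin 1166 4 909)
(mv 1035 (cons (fin 1103 3 1035)
(fin 1034 0 1034)))))))
(mv 844 (cons (fin 908 7 844)
(mv 846 (cons (fin 910 6 845)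
(mv 1166 (cons (fin 1102 4 909)
(mv 1165 (cons (fin 1230 4 973)
(mv 1229 (cons (fin 972 7 972)
(fin 1293 7 1036)))))))))))))))))))
(cons (mv 1164 (cons (fin 1228 6 972)
(mv 909 (cons (fin 1101 5 908)
(fin 972 6 908)))))
(cons (mv 909 (cons (fin 845 5 844)
(mv 1164 (cons (fin 972 6 908)
(fin 1228 6 972)))))
(mv 909 (cons (fin 845 5 844)
(mv 1164 (cons (fin 1101 5 908)
(fin 1228 6 972)))))))))
(mv 973 (cons (cons (mv 909 (cons (fin 845 5 844)
(mv 1164 (cons (fin 1101 5 908)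
(fin 972 6 908)))))
(mv 1164 (cons (fin 1228 6 972)
(mv 972 (cons (cons (mv 1163 (cons (fin 1227 5 971)
(mv 908 (cons (fin 1099 5 907)
(mv 844 (cons (fin 780 4 780)
(fin 1101 4 844)))))))
(mv 1165 (cons (fin 1229 4 972)
(mv 908 (cons (fin 1101 7 908)
(mv 843 (cons (fin 907 7 843)
(mv 844 (cons (fin 779 7 779)
(fin 780 4 780))))))))))
(cons (mv 1163 (cons (fin 1227 5 971)
(mv 1165 (cons (fin 1229 4 972)
(mv 1101 (cons (mv 1102 (cons (fin 1103 1 1099)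
(fin 1162 2 1098)))
(cons (mv 910 (cons (fin 974 6 909)
(mv 1162 (cons (fin 1161 2 1097)
(mv 1098 (cons (fin 1097 3 1097)
(mv 1099 (cons (fin 1038 2 1034)
(mv 1033 (cons (fin 1034 3 1033)
(mv 1226 (cons (fin 1225 1 1161)
(mv 1290 (cons (fin 1035 6 1034)
(fin 1354 6 1098)))))))))))))))
(mv 974 (cons (fin 910 6 909)
(mv 975 (cons (fin 1035 1 971)
(fin 976 1 972))))))))))))
(mv 1163 (cons (fin 1227 5 971)
(mv 908 (cons (fin 1099 5 907)
(mv 843 (cons (fin 907 7 843)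
(mv 844 (cons (fin 779 7 779)
(fin 780 4 780)))))))))))))))
(cons (mv 909 (cons (fin 845 5 844)
(mv 1101 (cons (cons (mv 844 (cons (fin 908 7 844)
(mv 910 (cons (fin 846 6 845)
(mv 974 (cons (fin 1165 6 909)
(mv 975 (cons (fin 976 1 972)
(mv 1035 (cons (fin 972 1 971)
(fin 1034 2 970)))))))))))
(mv 910 (cons (fin 846 6 845)
(mv 974 (cons (fin 1165 6 909)
(mv 975 (cons (fin 976 1 972)
(mv 1035 (cons (fin 972 1 971)
(fin 1034 2 970))))))))))
(cons (mv 908 (cons (fin 844 7 844)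
(mv 972 (cons (fin 1165 7 908)
(mv 843 (cons (fin 907 7 843)
(mv 1099 (cons (fin 1163 5 907)
(mv 1098 (cons (fin 1097 2 1033)
(fin 1038 2 1034)))))))))))
(cons (mv 844 (cons (fin 908 7 844)
(mv 846 (cons (fin 910 6 845)
(mv 1035 (cons (mv 1034 (cons (fin 974 2 970)
(fin 1033 0 1033)))
(mv 1102 (cons (fin 1103 3 1035)
(mv 1099 (cons (mv 1098 (cons (fin 1038 1 1034)
(fin 1097 2 1033)))
(mv 1163 (cons (fin 1162 1 1098)
(mv 1227 (cons (fin 972 6 971)
(fin 1291 6 1035)))))))))))))))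
(mv 844 (cons (fin 908 7 844)
(mv 910 (cons (fin 846 6 845)
(mv 974 (cons (fin 1165 6 909)
(mv 975 (cons (fin 976 1 972)
(mv 1035 (cons (fin 1034 2 970)
(fin 1038 2 971)))))))))))))))))
(cons (mv 909 (cons (fin 845 5 844)
(mv 1164 (cons (fin 972 6 908)
(fin 1228 6 972)))))
(mv 909 (cons (fin 845 5 844)
(mv 1164 (cons (fin 1101 5 908)
(fin 1228 6 972))))))))))))))
def l91 : Lem := ⟨13990367052752487320312544716796506086908544040920606671647422636019387761887306954839904539139044083307651742587111316666437654968213159228883358442086434255575408537896731526142943938247376028752316727663063488954060238702619831287825813914729338905000590143517244074225654467916245441707506770996675619254697984, 72532701223998246495300263303537009025810706778473472699896940421222874454089393795513955346462179776943244263800161681575132519883779984710502136802022918790190487811509129918987989637014310450864593424704624770697677668777755797203556615590404462738342514630627849140633197237681234623032219587239234582548660002657234080022505425371737006199198315632851531797904156483928864429712470529483444404685732094933037837979209433088,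 72532701223998246495300263303537009025810706778473472699896940421222874454089393795513955346462179776943244263800161681575132519883779984710502136802022918790190487811509129918987989637014310450864593424704624770697677668777755797203556615590404462738342514630627849140633197237681234623032219587239234582548660002657234080022505425371737006199198315632851531797904156483928864429712470529483444404685732094933037837979209433088, 17, 33⟩
theorem l91_valid : l91.Valid :=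
  Lem.valid_of_chk t91 t91_valid [1036, 1037, 1040] c91 l91 (by decide +kernel)
end Crest.Agent.SnakyAux
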