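import Crest.Agent.S0047_aux.Checker

set_option autoImplicit false
set_option maxRecDepth 100000
namespace Crest.Agent.SnakyAux
open Cert
def t92 : Tbl := Tbl.nil
theorem t92_valid : t92.Valid := Tbl.valid_nil
def c92 : Cert :=
(mv 972 (cons (cons (cons (cons (mv 1101 (cons (cons (mv 908 (cons (fin 844 4 844)
(mv 1165 (cons (fin 973 7 908)
(fin 1229 7 972)))))
(mv 908 (cons (fin 844 4 844)
(mv 1100 (cons (cons (mv 843 (cons (fin 907 7 843)
(mv 909 (cons (fin 845 6 844)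
(mv 973 (cons (fin 1164 5 908)
(mv 846 (cons (fin 910 6 845)
(mv 1102 (cons (fin 1166 4 909)
(mv 1035 (cons (fin 1103 3 1035)
(fin 1034 0 1034)))))))))))))
(cons (mv 907 (cons (fin 843 7 843)
(mv 971 (cons (fin 1164 7 907)
(mv 970 (cons (fin 969 0 969)
(mv 1038 (cons (fin 1035 3 970)
(fin 973 0 970)))))))))
(mv 909 (cons (fin 845 6 844)
(mv 973 (cons (fin 1164 5 908)
(mv 846 (cons (fin 910 6 845)
(mv 1102 (cons (fin 1166 4 909)
(mv 1035 (cons (fin 1103 3 1035)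
(fin 1034 0 1034)))))))))))))
(cons (mv 843 (cons (fin 907 7 843)
(mv 909 (cons (fin 845 6 844)
(mv 1102 (cons (mv 1035 (cons (fin 1103 3 1035)
(fin 1034 0 1034)))
(mv 973 (cons (fin 1166 4 909)
(mv 910 (cons (fin 846 6 845)
(mv 911 (cons (fin 971 1 907)
(fin 912 1 908)))))))))))))
(cons (mv 845 (cons (fin 909 6 844)
(mv 907 (cons (fin 843 7 843)
(mv 971 (cons (fin 1164 7 907)
(mv 970 (cons (fin 969 0 969)
(mv 1035 (cons (fin 1038 3 970)
(mv 1034 (cons (fin 1033 0 1033)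
(fin 1102 0 1034)))))))))))))
(mv 843 (cons (fin 907 7 843)
(mv 909 (cons (fin 845 6 844)
(mv 973 (cons (fin 1164 5 908)
(mv 910 (cons (fin 846 6 845)
(mv 911 (cons (fin 971 1 907)
(fin 912 1 908))))))))))))))))))
(cons (mv 1165 (cons (fin 1229 7 972)
(mv 973 (cons (mv 910 (cons (fin 974 6 909)
(mv 909 (cons (fin 846 6 845)
(mv 845 (cons (fin 781 5 780)
(fin 1100 5 844)))))))
(cons (mv 1164 (cons (fin 1228 5 972)
(mv 909 (cons (fin 1100 5 908)
(mv 1166 (cons (fin 1102 4 909)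
(fin 1230 4 973)))))))
(mv 974 (cons (fin 910 6 909)
(mv 975 (cons (fin 1035 1 971)
(fin 976 1 972))))))))))
(mv 908 (cons (fin 844 4 844)
(mv 1165 (cons (fin 1229 7 972)
(fin 1100 4 908))))))))
(mv 971 (cons (cons (mv 970 (cons (fin 969 0 969)
(mv 1038 (cons (fin 1035 3 970)
(fin 973 0 970)))))
(mv 908 (cons (cons (cons (mv 844 (cons (cons (mv 780 (cons (fin 1035 5 779)
(fin 973 4 780)))
(mv 779 (cons (fin 843 7 779)
(mv 845 (cons (fin 781 6 780)
(mv 1100 (cons (fin 909 6 844)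
(mv 1164 (cons (fin 907 7 907)
(mv 1228 (cons (fin 1035 7 971)
(fin 973 6 972))))))))))))
(cons (mv 779 (cons (fin 843 7 779)
(mv 780 (cons (fin 715 7 715)
(fin 1035 5 779)))))
(mv 779 (cons (fin 843 7 779)
(mv 780 (cons (fin 715 7 715)
(fin 973 4 780))))))))
(mv 1100 (cons (mv 907 (cons (fin 843 7 843)
(fin 1164 7 907)))
(cons (mv 909 (cons (fin 845 6 844)
(mv 910 (cons (fin 911 1 907)
(mv 1164 (cons (fin 973 6 908)
(mv 1163 (cons (fin 1227 5 971)
(mv 1228 (cons (fin 1035 7 971)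
(mv 1229 (cons (fin 1165 4 972)
(fin 1293 4 1036)))))))))))))
(mv 907 (cons (fin 843 7 843)
(mv 909 (cons (fin 845 6 844)
(mv 910 (cons (fin 911 1 907)
(mv 846 (cons (fin 847 2 843)
(mv 974 (cons (fin 975 0 907)
(mv 973 (cons (fin 906 3 906)
(fin 782 5 781)))))))))))))))))
(cons (mv 844 (cons (mv 780 (cons (fin 1035 5 779)
(fin 973 4 780)))
(mv 843 (cons (fin 779 7 779)
(mv 845 (cons (fin 781 6 780)
(mv 909 (cons (fin 1100 6 844)
(mv 842 (cons (fin 841 0 841)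
(fin 910 0 842)))))))))))
(mv 844 (cons (mv 780 (cons (fin 1035 5 779)
(fin 973 4 780)))
(cons (mv 843 (cons (fin 779 7 779)
(mv 845 (cons (fin 781 6 780)
(mv 846 (cons (mv 907 (cons (fin 906 1 842)
(fin 847 1 843)))
(mv 782 (cons (fin 783 2 779)
(mv 909 (cons (fin 973 6 781)
(mv 842 (cons (fin 841 0 841)
(fin 910 0 842)))))))))))))
(mv 779 (cons (fin 843 7 779)
(mv 780 (cons (fin 715 7 715)
(fin 1035 5 779))))))))))
(cons (cons (mv 844 (cons (cons (mv 780 (cons (fin 1035 5 779)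
(fin 973 4 780)))
(mv 845 (cons (fin 781 6 780)
(mv 1100 (cons (fin 909 6 844)
(mv 1164 (cons (fin 907 7 907)
(mv 1228 (cons (fin 1035 7 971)
(fin 973 6 972))))))))))
(cons (mv 780 (cons (fin 1035 5 779)
(mv 781 (cons (fin 717 6 716)
(fin 845 6 780)))))
(mv 780 (cons (fin 973 4 780)
(mv 781 (cons (fin 717 6 716)
(fin 845 6 780))))))))
(mv 844 (cons (mv 780 (cons (fin 1035 5 779)
(fin 973 4 780)))
(mv 843 (cons (fin 779 7 779)
(mv 845 (cons (fin 781 6 780)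
(mv 907 (cons (fin 1100 7 843)
(mv 846 (cons (fin 906 1 842)
(fin 847 1 843))))))))))))
(cons (mv 844 (cons (mv 780 (cons (fin 1035 5 779)
(fin 973 4 780)))
(cons (mv 843 (cons (fin 779 7 779)
(mv 907 (cons (fin 1100 7 843)
(mv 842 (cons (mv 841 (cons (fin 840 0 840)
(fin 909 0 841)))
(mv 778 (cons (fin 1035 7 778)
(mv 714 (cons (fin 650 4 650)
(fin 906 4 714)))))))))))
(mv 779 (cons (fin 843 7 779)
(mv 780 (cons (fin 715 7 715)
(fin 973 4 780))))))))
(cons (mv 907 (cons (mv 843 (cons (fin 1100 7 843)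
(fin 779 4 779)))
(cons (mv 1100 (cons (fin 1164 7 907)
(mv 845 (cons (fin 909 6 844)
(mv 844 (cons (fin 781 6 780)
(mv 780 (cons (fin 716 5 715)
(fin 1035 5 779)))))))))
(mv 779 (cons (fin 843 4 779)
(mv 844 (cons (mv 780 (cons (fin 715 7 715)
(fin 716 5 715)))
(mv 845 (cons (fin 781 6 780)
(mv 846 (cons (fin 847 1 843)
(mv 906 (cons (fin 905 2 841)
(fin 909 2 842))))))))))))))
(mv 907 (cons (mv 843 (cons (fin 1100 7 843)
(fin 779 4 779)))
(cons (mv 1100 (cons (fin 1164 7 907)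
(mv 845 (cons (fin 909 6 844)
(mv 844 (cons (fin 781 6 780)
(mv 780 (cons (fin 716 5 715)
(fin 973 4 780)))))))))
(mv 779 (cons (fin 843 4 779)
(mv 973 (cons (mv 906 (cons (fin 974 3 906)
(fin 905 0 905)))
(cons (mv 844 (cons (fin 780 4 780)
(mv 845 (cons (fin 781 6 780)
(mv 846 (cons (fin 847 1 843)
(mv 906 (cons (fin 905 2 841)
(fin 909 2 842)))))))))
(mv 844 (cons (fin 780 4 780)
(mv 845 (cons (fin 781 6 780)
(mv 846 (cons (fin 847 1 843)
(mv 782 (cons (fin 909 6 781)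
(mv 974 (cons (fin 975 3 907)
(fin 910 5 781)))))))))))))))))))))))))
(cons (mv 970 (cons (fin 969 0 969)
(mv 1035 (cons (fin 1038 3 970)
(mv 1034 (cons (cons (mv 1032 (cons (fin 1033 2 968)
(mv 1098 (cons (fin 1097 1 1033)
(mv 907 (cons (fin 843 5 842)
(fin 1162 6 906)))))))
(mv 1032 (cons (fin 1033 2 968)
(mv 908 (cons (cons (mv 844 (cons (fin 780 5 779)
(mv 779 (cons (fin 843 7 779)
(mv 845 (cons (fin 781 6 780)
(mv 909 (cons (fin 1100 6 844)
(mv 910 (cons (fin 907 1 906)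
(fin 911 1 907)))))))))))
(cons (mv 907 (cons (mv 843 (cons (fin 1100 7 843)
(fin 779 5 778)))
(cons (mv 909 (cons (fin 910 1 906)
(mv 1100 (cons (fin 1164 7 907)
(fin 845 6 844)))))
(mv 843 (cons (fin 779 5 778)
(mv 842 (cons (fin 778 7 778)
(mv 841 (cons (fin 840 0 840)
(mv 906 (cons (fin 909 3 841)
(fin 777 7 777))))))))))))
(mv 844 (cons (fin 780 5 779)
(mv 843 (cons (fin 779 7 779)
(mv 845 (cons (fin 781 6 780)
(mv 909 (cons (fin 1100 6 844)
(mv 842 (cons (fin 841 0 841)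
(fin 910 0 842)))))))))))))
(cons (cons (mv 844 (cons (fin 780 5 779)
(mv 845 (cons (fin 781 6 780)
(mv 909 (cons (fin 1100 6 844)
(mv 910 (cons (fin 907 1 906)
(fin 911 1 907)))))))))
(mv 844 (cons (fin 780 5 779)
(mv 781 (cons (fin 845 6 780)
(mv 843 (cons (fin 779 7 779)
(mv 842 (cons (mv 778 (cons (fin 907 7 778)
(fin 906 4 778)))
(cons (mv 841 (cons (fin 909 0 841)
(mv 777 (cons (fin 776 3 776)
(fin 906 7 777)))))
(mv 778 (cons (fin 907 7 778)
(mv 841 (cons (fin 909 0 841)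
(mv 776 (cons (fin 777 3 776)
(mv 840 (cons (fin 775 3 775)
(mv 904 (cons (fin 903 1 839)
(fin 905 1 840)))))))))))))))))))))
(cons (mv 844 (cons (fin 780 5 779)
(mv 781 (cons (fin 845 6 780)
(mv 843 (cons (fin 779 7 779)
(mv 907 (cons (fin 1100 7 843)
(mv 842 (cons (fin 778 7 778)
(mv 841 (cons (fin 840 0 840)
(mv 777 (cons (fin 776 3 776)
(fin 906 7 777)))))))))))))))
(mv 844 (cons (fin 780 5 779)
(mv 843 (cons (fin 779 7 779)
(mv 907 (cons (fin 1100 7 843)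
(mv 842 (cons (fin 778 7 778)
(mv 841 (cons (fin 840 0 840)
(fin 909 0 841))))))))))))))))))
(cons (mv 1098 (cons (fin 1097 1 1033)
(mv 907 (cons (fin 843 5 842)
(fin 1162 6 906)))))
(mv 1033 (cons (fin 1032 2 968)
(mv 1097 (cons (fin 1096 1 1032)
(fin 1098 1 1033))))))))))))
(mv 970 (cons (fin 969 0 969)
(mv 973 (cons (fin 1038 0 970)
(mv 905 (cons (fin 906 3 905)
(mv 909 (cons (fin 910 2 906)
(mv 845 (cons (fin 781 5 780)
(fin 1100 5 844)))))))))))))))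
(cons (mv 973 (cons (cons (mv 909 (cons (mv 845 (cons (fin 781 5 780)
(fin 1100 5 844)))
(cons (mv 1100 (cons (fin 1164 6 908)
(mv 1101 (cons (mv 846 (cons (fin 910 6 845)
(mv 1102 (cons (fin 1166 4 909)
(mv 1035 (cons (fin 1103 3 1035)
(fin 1034 0 1034)))))))
(cons (mv 910 (cons (fin 846 6 845)
(mv 1165 (cons (fin 1229 7 972)
(fin 974 6 909)))))
(mv 1102 (cons (fin 1166 4 909)
(mv 1035 (cons (fin 1103 3 1035)
(fin 1034 0 1034))))))))))
(mv 845 (cons (fin 781 5 780)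
(mv 780 (cons (fin 844 7 780)
(mv 782 (cons (fin 846 6 781)
(mv 1102 (cons (fin 1038 4 845)
(mv 1101 (cons (fin 1166 4 909)
(mv 1035 (cons (fin 1034 0 1034)
(mv 974 (cons (fin 975 1 971)
(mv 1165 (cons (fin 1229 7 972)
(fin 910 6 909))))))))))))))))))))
(cons (mv 1035 (cons (mv 974 (cons (fin 975 1 971)
(fin 1034 2 970)))
(cons (mv 974 (cons (fin 975 1 971)
(mv 971 (cons (mv 970 (cons (fin 1038 3 970)
(fin 969 0 969)))
(cons (mv 906 (cons (fin 907 3 906)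
(mv 910 (cons (fin 911 2 907)
(mv 846 (cons (fin 782 5 781)
(mv 1101 (cons (fin 1038 5 845)
(fin 1165 6 909)))))))))
(mv 906 (cons (fin 907 3 906)
(mv 970 (cons (fin 905 3 905)
(fin 969 0 969))))))))))
(mv 1034 (cons (fin 1033 2 969)
(mv 970 (cons (fin 969 3 969)
(mv 971 (cons (fin 1038 3 970)
(mv 905 (cons (fin 906 3 905)
(mv 1098 (cons (fin 1097 1 1033)
(mv 907 (cons (fin 843 5 842)
(fin 1162 6 906))))))))))))))))
(mv 909 (cons (mv 845 (cons (fin 781 5 780)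
(fin 1100 5 844)))
(cons (mv 1100 (cons (fin 1164 6 908)
(mv 1101 (cons (mv 846 (cons (fin 910 6 845)
(mv 1165 (cons (fin 1229 7 972)
(mv 1166 (cons (fin 1102 4 909)
(fin 1230 4 973)))))))
(cons (mv 1165 (cons (fin 1229 7 972)
(mv 1166 (cons (fin 1102 4 909)
(fin 1230 4 973)))))
(mv 910 (cons (fin 846 6 845)
(mv 911 (cons (fin 912 1 908)
(mv 971 (cons (fin 970 2 906)
(fin 974 2 907))))))))))))
(mv 845 (cons (fin 781 5 780)
(mv 780 (cons (fin 844 7 780)
(mv 846 (cons (fin 782 6 781)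
(mv 910 (cons (fin 1101 6 845)
(mv 911 (cons (fin 912 1 908)
(mv 971 (cons (fin 970 2 906)
(fin 974 2 907))))))))))))))))))
(cons (mv 909 (cons (mv 845 (cons (fin 781 5 780)
(fin 1100 5 844)))
(cons (mv 1164 (cons (fin 1100 6 908)
(mv 1101 (cons (mv 1165 (cons (fin 1229 7 972)
(fin 1228 5 972)))
(mv 846 (cons (fin 910 6 845)
(mv 1102 (cons (fin 1166 4 909)
(mv 1035 (cons (fin 1034 0 1034)
(mv 1103 (cons (fin 1104 3 1036)
(fin 1038 0 1035)))))))))))))
(mv 845 (cons (fin 781 5 780)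
(mv 780 (cons (fin 844 7 780)
(mv 846 (cons (fin 782 6 781)
(mv 1101 (cons (fin 910 6 845)
(mv 1102 (cons (fin 1038 4 845)
(fin 1166 4 909))))))))))))))
(cons (mv 1035 (cons (mv 974 (cons (fin 975 1 971)
(fin 1034 2 970)))
(cons (mv 974 (cons (fin 975 1 971)
(mv 971 (cons (mv 970 (cons (fin 1038 3 970)
(fin 969 0 969)))
(mv 907 (cons (fin 906 3 906)
(mv 843 (cons (fin 779 4 779)
(fin 1100 4 843)))))))))
(mv 1034 (cons (fin 1033 2 969)
(mv 970 (cons (fin 969 3 969)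
(mv 971 (cons (fin 1038 3 970)
(mv 905 (cons (fin 906 3 905)
(mv 909 (cons (fin 910 2 906)
(mv 845 (cons (fin 781 5 780)
(fin 1100 5 844))))))))))))))))
(mv 1035 (cons (mv 974 (cons (fin 975 1 971)
(fin 1034 2 970)))
(cons (mv 974 (cons (fin 975 1 971)
(mv 971 (cons (mv 970 (cons (fin 1038 3 970)
(fin 969 0 969)))
(mv 907 (cons (fin 906 3 906)
(mv 843 (cons (fin 779 4 779)
(fin 1100 4 843)))))))))
(mv 1034 (cons (fin 1033 2 969)
(mv 969 (cons (fin 970 3 969)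
(mv 1098 (cons (fin 1097 1 1033)
(mv 1101 (cons (fin 1102 0 1034)
(mv 1165 (cons (fin 1229 7 972)
(mv 1164 (cons (fin 1228 5 972)
(mv 1100 (cons (fin 909 5 908)
(mv 971 (cons (fin 907 7 907)
(mv 1162 (cons (fin 1226 6 970)
(mv 1163 (cons (fin 1161 2 1097)
(fin 1227 5 971))))))))))))))))))))))))))))
(mv 1101 (cons (cons (mv 908 (cons (fin 844 4 844)
(mv 1165 (cons (fin 973 7 908)
(fin 1229 7 972)))))
(mv 908 (cons (fin 844 4 844)
(mv 909 (cons (cons (mv 845 (cons (fin 1100 6 844)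
(mv 781 (cons (fin 717 5 716)
(fin 973 5 780)))))
(mv 973 (cons (cons (mv 781 (cons (fin 845 5 780)
(mv 846 (cons (fin 910 6 845)
(mv 1102 (cons (fin 1166 4 909)
(mv 1035 (cons (fin 1034 0 1034)
(mv 1103 (cons (fin 1104 3 1036)
(fin 1038 0 1035)))))))))))
(mv 846 (cons (fin 910 6 845)
(mv 1102 (cons (fin 1166 4 909)
(mv 1035 (cons (fin 1034 0 1034)
(mv 1103 (cons (fin 1104 3 1036)
(fin 1038 0 1035))))))))))
(cons (mv 781 (cons (fin 845 5 780)
(mv 910 (cons (fin 846 6 845)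
(mv 911 (cons (fin 912 1 908)
(mv 847 (cons (fin 848 2 844)
(mv 975 (cons (fin 976 0 908)
(mv 974 (cons (fin 907 3 907)
(fin 1035 1 971)))))))))))))
(cons (mv 781 (cons (fin 845 5 780)
(mv 1102 (cons (fin 1166 4 909)
(mv 1035 (cons (fin 1034 0 1034)
(mv 1103 (cons (fin 1104 3 1036)
(fin 1038 0 1035)))))))))
(mv 781 (cons (fin 845 5 780)
(mv 910 (cons (fin 846 6 845)
(mv 911 (cons (fin 912 1 908)
(mv 847 (cons (fin 848 2 844)
(mv 975 (cons (fin 976 0 908)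
(mv 907 (cons (fin 974 3 907)
(mv 842 (cons (fin 843 3 842)
(mv 906 (cons (fin 841 3 841)
(fin 905 0 905))))))))))))))))))))))
(cons (mv 973 (cons (cons (mv 846 (cons (fin 910 6 845)
(mv 1100 (cons (fin 1164 5 908)
(mv 843 (cons (fin 907 7 843)
(mv 1102 (cons (fin 1166 4 909)
(mv 1035 (cons (fin 1103 3 1035)
(fin 1034 0 1034)))))))))))
(mv 846 (cons (fin 910 6 845)
(mv 1102 (cons (fin 1166 4 909)
(mv 1035 (cons (fin 1034 0 1034)
(mv 1103 (cons (fin 1104 3 1036)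
(fin 1038 0 1035))))))))))
(cons (mv 846 (cons (fin 910 6 845)
(mv 1100 (cons (fin 1164 5 908)
(mv 907 (cons (fin 843 7 843)
(mv 906 (cons (fin 905 0 905)
(fin 974 0 906)))))))))
(mv 1100 (cons (fin 1164 5 908)
(mv 843 (cons (fin 907 7 843)
(mv 1102 (cons (fin 1166 4 909)
(mv 1035 (cons (fin 1103 3 1035)
(fin 1034 0 1034))))))))))))
(mv 907 (cons (mv 1100 (cons (fin 843 7 843)
(fin 845 6 844)))
(cons (mv 906 (cons (mv 841 (cons (fin 842 3 841)
(mv 840 (cons (fin 905 3 840)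
(mv 846 (cons (fin 845 2 842)
(mv 910 (cons (fin 847 2 843)
(mv 974 (cons (fin 975 0 907)
(fin 1038 5 845)))))))))))
(cons (mv 846 (cons (fin 845 2 842)
(mv 910 (cons (fin 847 2 843)
(mv 974 (cons (fin 975 0 907)
(fin 1038 5 845)))))))
(mv 841 (cons (fin 842 3 841)
(mv 905 (cons (fin 840 3 840)
(mv 969 (cons (fin 968 1 904)
(fin 970 1 905))))))))))
(mv 843 (cons (fin 1100 7 843)
(mv 715 (cons (fin 779 4 715)
(mv 842 (cons (fin 910 3 842)
(mv 841 (cons (fin 906 3 841)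
(fin 840 0 840))))))))))))))))))
(cons (mv 1165 (cons (fin 1229 7 972)
(mv 973 (cons (mv 910 (cons (fin 974 6 909)
(mv 909 (cons (fin 846 6 845)
(mv 845 (cons (fin 781 5 780)
(fin 1100 5 844)))))))
(cons (mv 1164 (cons (fin 1228 5 972)
(mv 909 (cons (fin 1100 5 908)
(mv 1166 (cons (fin 1102 4 909)
(fin 1230 4 973)))))))
(mv 974 (cons (fin 910 6 909)
(mv 975 (cons (fin 1035 1 971)
(fin 976 1 972))))))))))
(mv 908 (cons (fin 844 4 844)
(mv 1165 (cons (fin 1229 7 972)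
(fin 1100 4 908))))))))))
(cons (cons (mv 1101 (cons (cons (mv 908 (cons (fin 844 4 844)
(mv 1165 (cons (fin 973 7 908)
(fin 1229 7 972)))))
(mv 908 (cons (fin 844 4 844)
(mv 1100 (cons (cons (mv 843 (cons (fin 907 7 843)
(mv 909 (cons (fin 845 6 844)
(mv 973 (cons (fin 1164 5 908)
(mv 846 (cons (fin 910 6 845)
(mv 1102 (cons (fin 1166 4 909)
(mv 1035 (cons (fin 1103 3 1035)
(fin 1034 0 1034)))))))))))))
(mv 907 (cons (fin 843 7 843)
(mv 1164 (cons (fin 971 7 907)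
(mv 1228 (cons (fin 973 6 972)
(fin 1292 6 1036))))))))
(cons (mv 909 (cons (fin 845 6 844)
(mv 973 (cons (fin 1164 5 908)
(mv 846 (cons (fin 910 6 845)
(mv 1102 (cons (fin 1166 4 909)
(mv 1035 (cons (fin 1103 3 1035)
(fin 1034 0 1034)))))))))))
(cons (mv 843 (cons (fin 907 7 843)
(mv 909 (cons (fin 845 6 844)
(mv 1102 (cons (mv 1035 (cons (fin 1103 3 1035)
(fin 1034 0 1034)))
(mv 973 (cons (fin 1166 4 909)
(mv 910 (cons (fin 846 6 845)
(mv 911 (cons (fin 971 1 907)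
(fin 912 1 908)))))))))))))
(mv 845 (cons (fin 909 6 844)
(mv 907 (cons (fin 843 7 843)
(mv 1164 (cons (fin 971 7 907)
(mv 1227 (cons (fin 1163 5 971)
(mv 1228 (cons (fin 1291 5 1035)
(fin 1292 6 1036))))))))))))))))))
(cons (mv 1165 (cons (fin 1229 7 972)
(mv 973 (cons (mv 910 (cons (fin 974 6 909)
(mv 909 (cons (fin 846 6 845)
(mv 845 (cons (fin 781 5 780)
(fin 1100 5 844)))))))
(cons (mv 1164 (cons (fin 1228 5 972)
(mv 909 (cons (fin 1100 5 908)
(mv 1166 (cons (fin 1102 4 909)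
(fin 1230 4 973)))))))
(mv 974 (cons (fin 910 6 909)
(mv 975 (cons (fin 1035 1 971)
(fin 976 1 972))))))))))
(mv 908 (cons (fin 844 4 844)
(mv 1165 (cons (fin 1229 7 972)
(fin 1100 4 908))))))))
(mv 908 (cons (cons (mv 844 (cons (fin 1101 4 844)
(mv 779 (cons (fin 843 7 779)
(mv 780 (cons (fin 715 7 715)
(fin 973 4 780)))))))
(mv 1100 (cons (cons (mv 843 (cons (fin 907 7 843)
(mv 909 (cons (fin 845 6 844)
(mv 1164 (cons (fin 973 6 908)
(mv 1227 (cons (fin 1163 5 971)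
(mv 1228 (cons (fin 1291 5 1035)
(mv 971 (cons (fin 1035 7 971)
(mv 910 (cons (fin 911 1 907)
(mv 969 (cons (fin 970 2 905)
(mv 1292 (cons (fin 1101 6 1036)
(mv 1293 (cons (fin 1229 4 1036)
(fin 1357 4 1100)))))))))))))))))))))
(cons (mv 907 (cons (fin 843 7 843)
(mv 971 (cons (fin 1164 7 907)
(mv 970 (cons (fin 969 0 969)
(mv 1038 (cons (fin 1035 3 970)
(fin 973 0 970)))))))))
(mv 909 (cons (fin 845 6 844)
(mv 1164 (cons (fin 973 6 908)
(mv 1227 (cons (fin 1163 5 971)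
(mv 1228 (cons (fin 1291 5 1035)
(mv 971 (cons (fin 1035 7 971)
(mv 910 (cons (fin 911 1 907)
(mv 969 (cons (fin 970 2 905)
(mv 1292 (cons (fin 1101 6 1036)
(mv 1293 (cons (fin 1229 4 1036)
(fin 1357 4 1100)))))))))))))))))))))
(cons (mv 907 (cons (fin 843 7 843)
(mv 909 (cons (fin 845 6 844)
(mv 971 (cons (mv 910 (cons (fin 970 1 906)
(fin 911 1 907)))
(cons (mv 910 (cons (fin 911 1 907)
(mv 846 (cons (fin 847 2 843)
(mv 973 (cons (fin 1101 6 845)
(mv 782 (cons (fin 718 5 717)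
(fin 974 5 781)))))))))
(mv 970 (cons (fin 969 2 905)
(mv 1038 (cons (fin 1035 3 970)
(fin 973 0 970))))))))))))
(cons (mv 845 (cons (fin 909 6 844)
(mv 907 (cons (fin 843 7 843)
(mv 1164 (cons (fin 971 7 907)
(mv 1227 (cons (fin 1163 5 971)
(mv 1228 (cons (fin 1291 5 1035)
(mv 1292 (cons (fin 1101 6 1036)
(mv 1293 (cons (fin 1229 4 1036)
(fin 1357 4 1100)))))))))))))))
(mv 843 (cons (fin 907 7 843)
(mv 909 (cons (fin 845 6 844)
(mv 1164 (cons (fin 973 6 908)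
(mv 1227 (cons (fin 1163 5 971)
(mv 1228 (cons (fin 1291 5 1035)
(mv 1292 (cons (fin 1101 6 1036)
(mv 1293 (cons (fin 1229 4 1036)
(fin 1357 4 1100))))))))))))))))))))
(cons (mv 844 (cons (mv 779 (cons (fin 843 7 779)
(mv 780 (cons (fin 715 7 715)
(fin 973 4 780)))))
(cons (mv 843 (cons (fin 779 7 779)
(mv 845 (cons (fin 781 6 780)
(mv 1100 (cons (fin 907 7 843)
(fin 909 6 844)))))))
(mv 780 (cons (fin 973 4 780)
(mv 781 (cons (fin 717 6 716)
(fin 845 6 780))))))))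
(cons (mv 844 (cons (fin 1101 4 844)
(mv 780 (cons (fin 973 4 780)
(mv 781 (cons (fin 717 6 716)
(fin 845 6 780)))))))
(mv 844 (cons (fin 1101 4 844)
(mv 779 (cons (fin 843 7 779)
(mv 780 (cons (fin 715 7 715)
(mv 781 (cons (fin 717 6 716)
(fin 845 6 780))))))))))))))
(cons (mv 1101 (cons (cons (mv 1165 (cons (fin 1229 7 972)
(mv 908 (cons (fin 973 7 908)
(fin 1100 4 908)))))
(cons (mv 1102 (cons (cons (mv 1035 (cons (fin 1034 0 1034)
(mv 1103 (cons (fin 1100 3 1035)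
(fin 1104 3 1036)))))
(mv 1103 (cons (fin 1104 3 1036)
(mv 1100 (cons (mv 1164 (cons (fin 1163 1 1099)
(mv 973 (cons (fin 909 5 908)
(fin 1228 6 972)))))
(cons (mv 1167 (cons (fin 1168 0 1100)
(mv 908 (cons (cons (mv 843 (cons (fin 907 7 843)
(mv 909 (cons (fin 845 6 844)
(mv 973 (cons (fin 1166 4 909)
(mv 910 (cons (fin 846 6 845)
(mv 911 (cons (fin 971 1 907)
(fin 912 1 908)))))))))))
(mv 907 (cons (fin 843 7 843)
(mv 974 (cons (mv 910 (cons (fin 1038 4 910)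
(mv 973 (cons (fin 975 3 907)
(mv 906 (cons (fin 971 3 906)
(fin 905 0 905)))))))
(cons (mv 973 (cons (fin 975 3 907)
(mv 906 (cons (fin 971 3 906)
(fin 905 0 905)))))
(mv 1038 (cons (fin 910 4 910)
(mv 1231 (cons (fin 1295 7 1038)
(fin 1166 4 974)))))))))))
(cons (mv 909 (cons (fin 845 6 844)
(mv 973 (cons (fin 1166 4 909)
(mv 910 (cons (fin 846 6 845)
(mv 911 (cons (fin 971 1 907)
(fin 912 1 908)))))))))
(cons (mv 907 (cons (fin 843 7 843)
(mv 909 (cons (fin 845 6 844)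
(mv 910 (cons (mv 971 (cons (fin 970 1 906)
(fin 911 1 907)))
(mv 974 (cons (fin 975 0 907)
(fin 1038 4 910)))))))))
(mv 907 (cons (fin 843 7 843)
(mv 909 (cons (fin 845 6 844)
(mv 973 (cons (fin 1166 4 909)
(mv 906 (cons (fin 905 0 905)
(fin 974 0 906)))))))))))))))
(mv 1164 (cons (fin 1163 1 1099)
(mv 907 (cons (fin 971 7 907)
(mv 843 (cons (fin 908 7 843)
(mv 1167 (cons (fin 1168 0 1100)
(mv 1228 (cons (fin 1292 6 1036)
(mv 1227 (cons (fin 1291 5 1035)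
(mv 1229 (cons (fin 1293 4 1036)
(mv 1230 (cons (fin 1166 2 1163)
(mv 1295 (cons (fin 1294 0 1227)
(mv 1231 (cons (fin 1296 0 1228)
(fin 1038 7 1038)))))))))))))))))))))))))))
(cons (mv 1035 (cons (fin 1034 0 1034)
(mv 973 (cons (mv 909 (cons (fin 1166 4 909)
(mv 845 (cons (fin 781 5 780)
(fin 1100 5 844)))))
(mv 974 (cons (fin 975 1 971)
(mv 971 (cons (mv 970 (cons (fin 1038 3 970)
(fin 969 0 969)))
(cons (mv 906 (cons (fin 907 3 906)
(mv 910 (cons (fin 911 2 907)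
(mv 846 (cons (fin 782 5 781)
(fin 1038 5 845)))))))
(mv 906 (cons (fin 907 3 906)
(mv 970 (cons (fin 905 3 905)
(fin 969 0 969))))))))))))))
(mv 1035 (cons (fin 1034 0 1034)
(mv 1103 (cons (fin 1104 3 1036)
(fin 1038 0 1035))))))))
(mv 1102 (cons (cons (mv 1035 (cons (fin 1034 0 1034)
(mv 1103 (cons (fin 1100 3 1035)
(fin 1104 3 1036)))))
(mv 1103 (cons (fin 1104 3 1036)
(mv 1100 (cons (cons (mv 908 (cons (fin 1165 4 908)
(mv 843 (cons (fin 907 7 843)
(mv 845 (cons (fin 909 6 844)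
(mv 1164 (cons (fin 1163 1 1099)
(mv 1228 (cons (fin 973 6 972)
(fin 1292 6 1036)))))))))))
(mv 908 (cons (fin 1165 4 908)
(mv 843 (cons (fin 907 7 843)
(mv 909 (cons (fin 845 6 844)
(mv 973 (cons (fin 1166 4 909)
(mv 910 (cons (fin 846 6 845)
(mv 911 (cons (fin 971 1 907)
(fin 912 1 908))))))))))))))
(cons (mv 1164 (cons (fin 1163 1 1099)
(mv 973 (cons (fin 909 5 908)
(fin 1228 6 972)))))
(cons (mv 908 (cons (fin 1165 4 908)
(mv 845 (cons (fin 909 6 844)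
(mv 907 (cons (fin 843 7 843)
(mv 1164 (cons (fin 1163 1 1099)
(fin 971 7 907)))))))))
(mv 908 (cons (fin 1165 4 908)
(mv 843 (cons (fin 907 7 843)
(mv 1164 (cons (fin 1163 1 1099)
(mv 1228 (cons (fin 973 6 972)
(fin 1292 6 1036))))))))))))))))
(cons (mv 1034 (cons (fin 1035 0 1034)
(mv 973 (cons (cons (mv 908 (cons (fin 1165 7 908)
(mv 909 (cons (fin 1166 4 909)
(mv 845 (cons (fin 781 5 780)
(fin 1100 5 844)))))))
(mv 1165 (cons (fin 908 7 908)
(mv 910 (cons (fin 974 6 909)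
(mv 1164 (cons (fin 1228 5 972)
(mv 1163 (cons (fin 1162 2 1098)
(mv 1100 (cons (fin 1227 5 971)
(mv 971 (cons (fin 907 7 907)
(mv 970 (cons (fin 1033 1 969)
(fin 969 0 969))))))))))))))))
(cons (mv 909 (cons (fin 1166 4 909)
(mv 845 (cons (fin 781 5 780)
(fin 1100 5 844)))))
(mv 908 (cons (fin 1165 7 908)
(mv 909 (cons (fin 1166 4 909)
(mv 845 (cons (fin 781 5 780)
(fin 1038 4 845))))))))))))
(mv 1035 (cons (fin 1034 0 1034)
(mv 1103 (cons (fin 1104 3 1036)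
(fin 1038 0 1035))))))))))
(cons (mv 1165 (cons (fin 1229 7 972)
(mv 973 (cons (mv 910 (cons (fin 974 6 909)
(mv 909 (cons (fin 846 6 845)
(mv 845 (cons (fin 781 5 780)
(fin 1100 5 844)))))))
(cons (mv 1164 (cons (fin 1228 5 972)
(mv 909 (cons (fin 1100 5 908)
(mv 1166 (cons (fin 1102 4 909)
(fin 1230 4 973)))))))
(mv 974 (cons (fin 910 6 909)
(mv 975 (cons (fin 1035 1 971)
(fin 976 1 972))))))))))
(cons (mv 1165 (cons (fin 1229 7 972)
(mv 1100 (cons (fin 908 4 908)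
(mv 1164 (cons (mv 907 (cons (fin 971 7 907)
(mv 1163 (cons (fin 1227 5 971)
(mv 1102 (cons (fin 1103 1 1099)
(fin 1162 2 1098)))))))
(cons (mv 971 (cons (fin 907 7 907)
(mv 1228 (cons (fin 1035 7 971)
(fin 1292 6 1036)))))
(mv 1163 (cons (fin 1227 5 971)
(mv 1102 (cons (fin 1103 1 1099)
(fin 1162 2 1098))))))))))))
(mv 1165 (cons (fin 1229 7 972)
(mv 973 (cons (fin 908 7 908)
(mv 910 (cons (fin 974 6 909)
(mv 909 (cons (fin 846 6 845)
(mv 1166 (cons (fin 1102 4 909)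
(fin 1230 4 973)))))))))))))))
(mv 908 (cons (cons (mv 844 (cons (fin 1101 4 844)
(mv 779 (cons (fin 843 7 779)
(mv 780 (cons (fin 715 7 715)
(fin 973 4 780)))))))
(mv 1100 (cons (cons (mv 843 (cons (fin 907 7 843)
(mv 909 (cons (fin 845 6 844)
(mv 973 (cons (fin 1164 6 908)
(mv 1101 (cons (fin 1165 7 908)
(mv 846 (cons (fin 910 6 845)
(mv 1102 (cons (fin 1166 4 909)
(mv 1035 (cons (fin 1103 3 1035)
(fin 1034 0 1034)))))))))))))))
(cons (mv 907 (cons (fin 843 7 843)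
(mv 971 (cons (fin 1164 7 907)
(mv 970 (cons (fin 969 0 969)
(mv 1038 (cons (fin 1035 3 970)
(fin 973 0 970)))))))))
(mv 909 (cons (fin 845 6 844)
(mv 973 (cons (fin 1164 6 908)
(mv 1101 (cons (fin 1165 7 908)
(mv 846 (cons (fin 910 6 845)
(mv 1102 (cons (fin 1166 4 909)
(mv 1035 (cons (fin 1103 3 1035)
(fin 1034 0 1034)))))))))))))))
(cons (mv 845 (cons (fin 909 6 844)
(mv 907 (cons (fin 843 7 843)
(mv 971 (cons (fin 1164 7 907)
(mv 970 (cons (fin 969 0 969)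
(mv 1035 (cons (fin 1038 3 970)
(mv 1101 (cons (fin 1165 4 908)
(mv 1034 (cons (fin 1033 0 1033)
(fin 1102 0 1034)))))))))))))))
(cons (mv 843 (cons (fin 907 7 843)
(mv 909 (cons (fin 845 6 844)
(mv 1101 (cons (fin 1165 4 908)
(mv 1102 (cons (mv 1035 (cons (fin 1103 3 1035)
(fin 1034 0 1034)))
(mv 973 (cons (fin 1166 4 909)
(mv 910 (cons (fin 846 6 845)
(mv 911 (cons (fin 971 1 907)
(fin 912 1 908)))))))))))))))
(mv 843 (cons (fin 907 7 843)
(mv 909 (cons (fin 845 6 844)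
(mv 973 (cons (fin 1164 6 908)
(mv 1101 (cons (fin 1165 7 908)
(mv 910 (cons (fin 846 6 845)
(mv 911 (cons (fin 971 1 907)
(fin 912 1 908))))))))))))))))))
(cons (mv 844 (cons (mv 779 (cons (fin 843 7 779)
(mv 780 (cons (fin 715 7 715)
(fin 973 4 780)))))
(cons (mv 843 (cons (fin 779 7 779)
(mv 845 (cons (fin 781 6 780)
(mv 1100 (cons (fin 907 7 843)
(fin 909 6 844)))))))
(mv 780 (cons (fin 973 4 780)
(mv 781 (cons (fin 717 6 716)
(fin 845 6 780))))))))
(cons (mv 844 (cons (fin 1101 4 844)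
(mv 779 (cons (fin 843 7 779)
(mv 780 (cons (fin 715 7 715)
(mv 781 (cons (fin 717 6 716)
(fin 845 6 780)))))))))
(mv 844 (cons (fin 1101 4 844)
(mv 780 (cons (fin 973 4 780)
(mv 781 (cons (fin 717 6 716)
(fin 845 6 780))))))))))))))
(cons (cons (cons (mv 908 (cons (cons (mv 844 (cons (fin 1101 4 844)
(mv 779 (cons (fin 843 7 779)
(mv 780 (cons (fin 715 7 715)
(mv 781 (cons (fin 717 6 716)
(fin 845 6 780)))))))))
(mv 1100 (cons (cons (mv 845 (cons (fin 909 6 844)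
(mv 907 (cons (fin 843 7 843)
(mv 971 (cons (fin 1164 7 907)
(mv 970 (cons (fin 969 0 969)
(mv 1035 (cons (fin 1038 3 970)
(mv 1101 (cons (fin 1165 4 908)
(mv 1034 (cons (fin 1033 0 1033)
(fin 1102 0 1034)))))))))))))))
(cons (mv 845 (cons (fin 909 6 844)
(mv 907 (cons (fin 843 7 843)
(mv 1164 (cons (fin 971 7 907)
(mv 1227 (cons (fin 1163 5 971)
(mv 1228 (cons (fin 1291 5 1035)
(mv 1292 (cons (fin 1101 6 1036)
(mv 1293 (cons (fin 1229 4 1036)
(fin 1357 4 1100)))))))))))))))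
(mv 845 (cons (fin 909 6 844)
(mv 907 (cons (fin 843 7 843)
(mv 1164 (cons (fin 971 7 907)
(mv 1227 (cons (fin 1163 5 971)
(mv 1228 (cons (fin 1291 5 1035)
(mv 1229 (cons (fin 1165 4 972)
(fin 1293 4 1036)))))))))))))))
(cons (cons (mv 845 (cons (fin 909 6 844)
(mv 1164 (cons (cons (mv 1165 (cons (fin 1101 4 908)
(fin 1229 4 972)))
(mv 1227 (cons (fin 1163 5 971)
(mv 1228 (cons (fin 1291 5 1035)
(mv 971 (cons (fin 1035 7 971)
(mv 969 (cons (fin 970 0 969)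
(mv 1292 (cons (fin 1101 6 1036)
(mv 1293 (cons (fin 1229 4 1036)
(fin 1357 4 1100))))))))))))))
(cons (mv 1227 (cons (fin 1163 5 971)
(mv 1228 (cons (fin 1291 5 1035)
(mv 1229 (cons (fin 1165 4 972)
(fin 1293 4 1036)))))))
(mv 1101 (cons (fin 1165 4 908)
(mv 1163 (cons (fin 1227 5 971)
(mv 1102 (cons (fin 1103 1 1099)
(mv 1035 (cons (fin 1034 0 1034)
(mv 1228 (cons (fin 971 7 971)
(fin 1292 6 1036))))))))))))))))
(mv 907 (cons (fin 843 7 843)
(mv 971 (cons (fin 1164 7 907)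
(mv 970 (cons (fin 969 0 969)
(mv 1035 (cons (fin 1038 3 970)
(mv 1101 (cons (fin 1165 4 908)
(mv 1034 (cons (fin 1033 0 1033)
(fin 1102 0 1034))))))))))))))
(cons (mv 907 (cons (fin 843 7 843)
(mv 909 (cons (fin 845 6 844)
(mv 1101 (cons (fin 1165 4 908)
(mv 971 (cons (mv 910 (cons (fin 970 1 906)
(fin 911 1 907)))
(cons (mv 910 (cons (fin 911 1 907)
(mv 846 (cons (fin 847 2 843)
(mv 974 (cons (fin 975 0 907)
(fin 1038 5 845)))))))
(mv 970 (cons (fin 969 2 905)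
(mv 1035 (cons (fin 1038 3 970)
(mv 1034 (cons (fin 1033 0 1033)
(fin 1102 0 1034))))))))))))))))
(mv 843 (cons (fin 907 7 843)
(mv 845 (cons (fin 909 6 844)
(mv 1164 (cons (cons (mv 1165 (cons (fin 1101 4 908)
(fin 1229 4 972)))
(mv 1227 (cons (fin 1163 5 971)
(mv 1228 (cons (fin 1291 5 1035)
(mv 1292 (cons (fin 1101 6 1036)
(mv 1293 (cons (fin 1229 4 1036)
(fin 1357 4 1100))))))))))
(cons (mv 1227 (cons (fin 1163 5 971)
(mv 1228 (cons (fin 1291 5 1035)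
(mv 1229 (cons (fin 1165 4 972)
(fin 1293 4 1036)))))))
(mv 1101 (cons (fin 1165 4 908)
(mv 1227 (cons (fin 1163 5 971)
(mv 1228 (cons (fin 1291 5 1035)
(fin 1292 6 1036)))))))))))))))))))
(cons (mv 844 (cons (cons (mv 779 (cons (fin 843 7 779)
(mv 780 (cons (fin 715 7 715)
(mv 781 (cons (fin 717 6 716)
(fin 845 6 780)))))))
(cons (mv 781 (cons (fin 845 6 780)
(mv 780 (cons (fin 717 6 716)
(mv 715 (cons (fin 779 7 715)
(mv 716 (cons (fin 651 7 651)
(mv 971 (cons (fin 907 5 715)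
(fin 1035 5 779)))))))))))
(mv 779 (cons (fin 843 7 779)
(mv 780 (cons (fin 715 7 715)
(mv 717 (cons (fin 781 6 716)
(mv 716 (cons (fin 653 6 652)
(mv 971 (cons (fin 907 5 715)
(fin 1035 5 779)))))))))))))
(cons (mv 781 (cons (fin 845 6 780)
(mv 780 (cons (fin 717 6 716)
(mv 971 (cons (fin 1035 5 779)
(mv 907 (cons (fin 716 5 715)
(mv 1100 (cons (fin 843 7 843)
(fin 1164 7 907)))))))))))
(cons (mv 779 (cons (fin 843 7 779)
(mv 780 (cons (fin 715 7 715)
(mv 971 (cons (fin 1035 5 779)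
(mv 907 (cons (fin 716 5 715)
(mv 970 (cons (fin 969 0 969)
(mv 909 (cons (fin 910 1 906)
(mv 1100 (cons (fin 1164 7 907)
(fin 845 6 844)))))))))))))))
(mv 843 (cons (fin 779 7 779)
(mv 845 (cons (fin 781 6 780)
(mv 1100 (cons (fin 907 7 843)
(fin 909 6 844)))))))))))
(cons (mv 844 (cons (fin 1101 4 844)
(mv 781 (cons (fin 845 6 780)
(mv 780 (cons (fin 717 6 716)
(mv 715 (cons (fin 779 7 715)
(mv 716 (cons (fin 651 7 651)
(mv 971 (cons (fin 907 5 715)
(fin 1035 5 779)))))))))))))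
(mv 844 (cons (fin 1101 4 844)
(mv 779 (cons (fin 843 7 779)
(mv 780 (cons (fin 715 7 715)
(mv 717 (cons (fin 781 6 716)
(mv 716 (cons (fin 653 6 652)
(mv 971 (cons (fin 907 5 715)
(fin 1035 5 779)))))))))))))))))
(mv 1101 (cons (cons (mv 908 (cons (fin 844 4 844)
(mv 1165 (cons (fin 973 7 908)
(fin 1229 7 972)))))
(mv 908 (cons (fin 844 4 844)
(mv 1100 (cons (cons (mv 843 (cons (fin 907 7 843)
(mv 909 (cons (fin 845 6 844)
(mv 973 (cons (fin 1164 5 908)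
(mv 910 (cons (fin 846 6 845)
(mv 911 (cons (fin 971 1 907)
(fin 912 1 908)))))))))))
(cons (mv 907 (cons (fin 843 7 843)
(mv 971 (cons (fin 1164 7 907)
(mv 970 (cons (fin 969 0 969)
(mv 973 (cons (fin 1038 0 970)
(mv 906 (cons (fin 905 3 905)
(fin 974 3 906)))))))))))
(mv 909 (cons (fin 845 6 844)
(mv 973 (cons (fin 1164 5 908)
(mv 910 (cons (fin 846 6 845)
(mv 911 (cons (fin 971 1 907)
(fin 912 1 908)))))))))))
(cons (mv 907 (cons (fin 843 7 843)
(mv 909 (cons (fin 845 6 844)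
(mv 973 (cons (mv 906 (cons (fin 905 0 905)
(fin 974 0 906)))
(cons (mv 905 (cons (fin 906 0 905)
(mv 910 (cons (fin 846 6 845)
(mv 911 (cons (fin 971 1 907)
(fin 912 1 908)))))))
(mv 910 (cons (fin 846 6 845)
(mv 911 (cons (fin 971 1 907)
(fin 912 1 908))))))))))))
(cons (mv 845 (cons (fin 909 6 844)
(mv 907 (cons (fin 843 7 843)
(mv 1164 (cons (fin 971 7 907)
(mv 1227 (cons (fin 1163 5 971)
(mv 1228 (cons (fin 1291 5 1035)
(fin 1292 6 1036)))))))))))
(mv 843 (cons (fin 907 7 843)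
(mv 909 (cons (fin 845 6 844)
(mv 1164 (cons (fin 973 5 908)
(mv 1227 (cons (fin 1163 5 971)
(mv 1228 (cons (fin 1291 5 1035)
(fin 1292 6 1036))))))))))))))))))
(cons (mv 1165 (cons (fin 1229 7 972)
(mv 973 (cons (cons (mv 910 (cons (fin 974 6 909)
(mv 909 (cons (fin 846 6 845)
(mv 845 (cons (fin 781 5 780)
(fin 1100 5 844)))))))
(mv 1164 (cons (fin 1228 5 972)
(mv 909 (cons (fin 1100 5 908)
(mv 1166 (cons (fin 1102 4 909)
(fin 1230 4 973))))))))
(cons (mv 974 (cons (fin 910 6 909)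
(mv 975 (cons (fin 976 1 972)
(mv 911 (cons (fin 912 2 908)
(mv 1164 (cons (fin 1228 5 972)
(mv 1166 (cons (fin 1230 4 973)
(mv 1038 (cons (fin 1102 6 910)
(mv 783 (cons (fin 847 5 782)
(mv 971 (cons (fin 970 0 970)
(mv 907 (cons (fin 906 3 906)
(fin 1100 7 907)))))))))))))))))))
(mv 910 (cons (fin 974 6 909)
(mv 909 (cons (fin 846 6 845)
(mv 1166 (cons (fin 1102 4 909)
(fin 1230 4 973))))))))))))
(mv 908 (cons (fin 844 4 844)
(mv 1165 (cons (fin 1229 7 972)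
(fin 1100 4 908)))))))))
(cons (mv 973 (cons (cons (mv 974 (cons (mv 975 (cons (fin 1035 1 971)
(fin 976 1 972)))
(cons (mv 975 (cons (fin 976 1 972)
(mv 907 (cons (fin 908 3 907)
(mv 911 (cons (fin 912 2 908)
(mv 971 (cons (fin 906 3 906)
(fin 910 2 907)))))))))
(mv 1035 (cons (fin 1034 2 970)
(mv 971 (cons (mv 970 (cons (fin 1038 3 970)
(fin 969 0 969)))
(cons (mv 906 (cons (fin 907 3 906)
(mv 910 (cons (fin 911 2 907)
(mv 846 (cons (fin 782 5 781)
(mv 1101 (cons (fin 1038 5 845)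
(fin 909 6 845)))))))))
(mv 906 (cons (fin 907 3 906)
(mv 970 (cons (fin 905 3 905)
(fin 969 0 969)))))))))))))
(cons (mv 1101 (cons (mv 908 (cons (fin 1165 7 908)
(fin 844 4 844)))
(cons (mv 1165 (cons (fin 1229 7 972)
(mv 1164 (cons (fin 1228 5 972)
(mv 1166 (cons (fin 1230 4 973)
(mv 909 (cons (fin 1102 4 909)
(mv 845 (cons (fin 781 5 780)
(mv 846 (cons (fin 782 6 781)
(fin 910 6 845)))))))))))))
(mv 844 (cons (fin 908 4 844)
(mv 909 (cons (mv 845 (cons (fin 780 7 780)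
(fin 781 5 780)))
(mv 846 (cons (fin 910 6 845)
(mv 1102 (cons (fin 1166 4 909)
(mv 1035 (cons (fin 1034 0 1034)
(mv 1103 (cons (fin 1104 3 1036)
(fin 1038 0 1035))))))))))))))))
(mv 974 (cons (mv 975 (cons (fin 1035 1 971)
(fin 976 1 972)))
(cons (mv 975 (cons (fin 976 1 972)
(mv 907 (cons (fin 908 3 907)
(mv 911 (cons (fin 912 2 908)
(mv 971 (cons (fin 906 3 906)
(fin 910 2 907)))))))))
(mv 1035 (cons (fin 1034 2 970)
(mv 971 (cons (mv 970 (cons (fin 1038 3 970)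
(fin 969 0 969)))
(mv 907 (cons (fin 906 3 906)
(mv 843 (cons (fin 779 4 779)
(mv 842 (cons (fin 778 7 778)
(mv 844 (cons (fin 780 6 779)
(mv 910 (cons (fin 911 2 907)
(mv 909 (cons (fin 908 3 842)
(fin 845 0 842))))))))))))))))))))))
(cons (cons (mv 1101 (cons (mv 908 (cons (fin 1165 7 908)
(fin 844 4 844)))
(cons (mv 844 (cons (fin 908 4 844)
(mv 909 (cons (mv 845 (cons (fin 780 7 780)
(fin 781 5 780)))
(mv 910 (cons (fin 846 6 845)
(mv 911 (cons (fin 912 1 908)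
(mv 971 (cons (fin 970 2 906)
(fin 974 2 907)))))))))))
(mv 1165 (cons (fin 1229 7 972)
(mv 910 (cons (fin 974 6 909)
(mv 909 (cons (fin 846 6 845)
(mv 1166 (cons (fin 1102 4 909)
(fin 1230 4 973))))))))))))
(mv 974 (cons (mv 975 (cons (fin 1035 1 971)
(fin 976 1 972)))
(cons (mv 975 (cons (fin 976 1 972)
(mv 911 (cons (fin 912 2 908)
(mv 910 (cons (fin 971 2 907)
(mv 846 (cons (fin 782 5 781)
(mv 1101 (cons (fin 1038 5 845)
(fin 909 6 845)))))))))))
(mv 1034 (cons (fin 1035 2 970)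
(mv 971 (cons (mv 970 (cons (fin 1033 1 969)
(fin 969 0 969)))
(mv 906 (cons (fin 907 3 906)
(mv 910 (cons (fin 911 2 907)
(mv 846 (cons (fin 782 5 781)
(mv 1101 (cons (fin 1038 5 845)
(fin 909 6 845)))))))))))))))))
(cons (mv 974 (cons (mv 975 (cons (fin 1035 1 971)
(fin 976 1 972)))
(cons (mv 975 (cons (fin 976 1 972)
(mv 907 (cons (fin 908 3 907)
(mv 911 (cons (fin 912 2 908)
(mv 971 (cons (fin 906 3 906)
(fin 910 2 907)))))))))
(mv 1034 (cons (fin 1035 2 970)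
(mv 971 (cons (mv 970 (cons (fin 1033 1 969)
(fin 969 0 969)))
(mv 906 (cons (fin 907 3 906)
(mv 910 (cons (fin 911 2 907)
(mv 846 (cons (fin 782 5 781)
(mv 1101 (cons (fin 1038 5 845)
(fin 1165 6 909))))))))))))))))
(mv 1035 (cons (mv 974 (cons (fin 975 1 971)
(fin 1034 2 970)))
(cons (mv 974 (cons (fin 975 1 971)
(mv 971 (cons (mv 970 (cons (fin 1038 3 970)
(fin 969 0 969)))
(mv 907 (cons (fin 906 3 906)
(mv 843 (cons (fin 779 4 779)
(mv 778 (cons (fin 842 7 778)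
(mv 844 (cons (fin 780 6 779)
(mv 908 (cons (fin 1101 4 844)
(mv 845 (cons (fin 781 6 780)
(mv 846 (cons (fin 847 1 843)
(mv 782 (cons (fin 783 2 779)
(fin 909 6 781)))))))))))))))))))))
(mv 1034 (cons (fin 1033 2 969)
(mv 969 (cons (fin 970 3 969)
(mv 1097 (cons (fin 1098 1 1033)
(mv 1101 (cons (fin 1102 0 1034)
(mv 908 (cons (fin 1165 7 908)
(fin 844 4 844))))))))))))))))))
(mv 1101 (cons (cons (mv 908 (cons (fin 844 4 844)
(mv 1165 (cons (fin 973 7 908)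
(fin 1229 7 972)))))
(mv 1165 (cons (fin 1229 7 972)
(mv 973 (cons (mv 910 (cons (fin 974 6 909)
(mv 909 (cons (fin 846 6 845)
(mv 845 (cons (fin 781 5 780)
(fin 1100 5 844)))))))
(cons (mv 1166 (cons (fin 1230 4 973)
(mv 909 (cons (fin 1102 4 909)
(mv 845 (cons (fin 781 5 780)
(fin 1100 5 844)))))))
(mv 974 (cons (fin 910 6 909)
(mv 975 (cons (fin 1035 1 971)
(fin 976 1 972)))))))))))
(cons (mv 908 (cons (fin 844 4 844)
(mv 1102 (cons (cons (mv 1035 (cons (fin 1034 0 1034)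
(mv 1103 (cons (fin 1100 3 1035)
(fin 1104 3 1036)))))
(mv 1103 (cons (fin 1104 3 1036)
(mv 1100 (cons (cons (mv 843 (cons (fin 907 7 843)
(mv 909 (cons (fin 845 6 844)
(mv 973 (cons (fin 1166 4 909)
(mv 910 (cons (fin 846 6 845)
(mv 911 (cons (fin 971 1 907)
(fin 912 1 908)))))))))))
(mv 907 (cons (fin 843 7 843)
(mv 1167 (cons (fin 1168 0 1100)
(mv 974 (cons (mv 910 (cons (fin 1038 4 910)
(mv 973 (cons (fin 975 3 907)
(mv 906 (cons (fin 971 3 906)
(fin 905 0 905)))))))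
(cons (mv 973 (cons (fin 975 3 907)
(mv 906 (cons (fin 971 3 906)
(fin 905 0 905)))))
(mv 1038 (cons (fin 910 4 910)
(mv 1231 (cons (fin 1295 7 1038)
(fin 1166 4 974)))))))))))))
(cons (mv 909 (cons (fin 845 6 844)
(mv 973 (cons (fin 1166 4 909)
(mv 910 (cons (fin 846 6 845)
(mv 911 (cons (fin 971 1 907)
(fin 912 1 908)))))))))
(cons (mv 907 (cons (fin 843 7 843)
(mv 909 (cons (fin 845 6 844)
(mv 1167 (cons (fin 1168 0 1100)
(mv 910 (cons (mv 971 (cons (fin 970 1 906)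
(fin 911 1 907)))
(mv 974 (cons (fin 975 0 907)
(fin 1038 4 910)))))))))))
(mv 907 (cons (fin 843 7 843)
(mv 909 (cons (fin 845 6 844)
(mv 973 (cons (fin 1166 4 909)
(mv 906 (cons (fin 905 0 905)
(fin 974 0 906))))))))))))))))
(cons (mv 1034 (cons (fin 1035 0 1034)
(mv 909 (cons (mv 845 (cons (fin 1100 6 844)
(mv 781 (cons (fin 717 5 716)
(fin 973 5 780)))))
(cons (mv 1100 (cons (fin 845 6 844)
(mv 907 (cons (fin 843 7 843)
(mv 910 (cons (mv 971 (cons (fin 970 1 906)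
(fin 911 1 907)))
(mv 846 (cons (fin 847 2 843)
(mv 974 (cons (fin 975 0 907)
(fin 1038 5 845)))))))))))
(mv 973 (cons (fin 1166 4 909)
(mv 910 (cons (fin 846 6 845)
(mv 911 (cons (fin 971 1 907)
(fin 912 1 908))))))))))))
(mv 1035 (cons (fin 1034 0 1034)
(mv 1103 (cons (fin 1104 3 1036)
(fin 1038 0 1035))))))))))
(mv 908 (cons (fin 844 4 844)
(mv 1165 (cons (fin 1229 7 972)
(fin 1100 4 908))))))))))
(cons (cons (mv 1035 (cons (cons (mv 1034 (cons (mv 973 (cons (fin 1033 2 969)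
(fin 974 2 970)))
(cons (mv 969 (cons (fin 970 3 969)
(mv 968 (cons (fin 1033 3 968)
(mv 1097 (cons (fin 1098 1 1033)
(mv 1101 (cons (fin 1102 0 1034)
(mv 908 (cons (fin 844 4 844)
(mv 1165 (cons (fin 1229 7 972)
(fin 1100 4 908)))))))))))))
(mv 969 (cons (fin 970 3 969)
(mv 973 (cons (fin 974 2 970)
(mv 1097 (cons (fin 1098 1 1033)
(mv 1101 (cons (fin 1102 0 1034)
(mv 908 (cons (fin 1165 7 908)
(fin 844 4 844))))))))))))))
(mv 974 (cons (cons (mv 975 (cons (fin 973 1 971)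
(fin 1038 2 971)))
(mv 971 (cons (mv 970 (cons (fin 1038 3 970)
(fin 969 0 969)))
(cons (mv 907 (cons (mv 843 (cons (fin 779 4 779)
(fin 1100 4 843)))
(mv 973 (cons (fin 906 3 906)
(mv 910 (cons (fin 911 2 907)
(mv 846 (cons (fin 782 5 781)
(mv 1101 (cons (fin 1038 5 845)
(fin 1165 6 909)))))))))))
(mv 969 (cons (fin 970 0 969)
(mv 907 (cons (mv 843 (cons (fin 779 4 779)
(fin 1100 4 843)))
(mv 906 (cons (fin 973 3 906)
(mv 905 (cons (fin 904 0 904)
(mv 908 (cons (fin 968 1 904)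
(mv 844 (cons (fin 845 2 841)
(fin 780 5 779)))))))))))))))))
(cons (mv 973 (cons (fin 975 1 971)
(mv 908 (cons (mv 844 (cons (fin 780 4 780)
(fin 1101 4 844)))
(cons (mv 844 (cons (fin 780 4 780)
(mv 781 (cons (fin 845 6 780)
(mv 843 (cons (fin 779 7 779)
(mv 907 (cons (fin 1100 7 843)
(mv 906 (cons (fin 971 3 906)
(fin 905 0 905)))))))))))
(mv 1165 (cons (fin 1101 7 908)
(mv 907 (cons (mv 906 (cons (fin 971 3 906)
(fin 905 0 905)))
(cons (mv 843 (cons (fin 1100 7 843)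
(mv 779 (cons (fin 715 4 715)
(fin 971 4 779)))))
(mv 905 (cons (fin 906 0 905)
(mv 1100 (cons (fin 843 7 843)
(mv 1164 (cons (fin 1228 6 972)
(fin 1229 4 972)))))))))))))))))
(mv 1038 (cons (fin 975 2 971)
(mv 971 (cons (fin 970 3 970)
(mv 1102 (cons (fin 1103 0 1035)
(mv 1165 (cons (mv 1101 (cons (fin 1229 7 972)
(fin 910 5 909)))
(cons (mv 1166 (cons (fin 1229 5 973)
(mv 1231 (cons (fin 1167 4 974)
(mv 1230 (cons (fin 1295 4 1038)
(mv 1164 (cons (fin 1163 0 1163)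
(mv 1100 (cons (fin 907 7 907)
(fin 1228 7 971)))))))))))
(mv 1101 (cons (fin 910 5 909)
(mv 908 (cons (fin 844 4 844)
(fin 1100 4 908))))))))))))))))))
(cons (mv 1101 (cons (cons (mv 844 (cons (fin 908 4 844)
(mv 1034 (cons (fin 1102 0 1034)
(mv 969 (cons (fin 970 3 969)
(mv 1033 (cons (fin 968 3 968)
(fin 1100 0 1033)))))))))
(mv 908 (cons (fin 844 4 844)
(mv 1165 (cons (fin 1229 7 972)
(fin 1100 4 908))))))
(cons (mv 1034 (cons (fin 1102 0 1034)
(mv 969 (cons (fin 970 3 969)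
(mv 1033 (cons (fin 968 3 968)
(fin 1100 0 1033)))))))
(mv 844 (cons (fin 908 4 844)
(mv 1034 (cons (fin 1102 0 1034)
(mv 969 (cons (fin 970 3 969)
(mv 1033 (cons (fin 968 3 968)
(mv 1097 (cons (fin 1096 1 1032)
(fin 1098 1 1033))))))))))))))
(cons (mv 1034 (cons (mv 973 (cons (fin 1033 2 969)
(fin 974 2 970)))
(cons (mv 969 (cons (fin 970 3 969)
(mv 1033 (cons (fin 968 3 968)
(mv 1097 (cons (fin 1096 1 1032)
(fin 1098 1 1033)))))))
(mv 970 (cons (fin 969 3 969)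
(mv 971 (cons (fin 1038 3 970)
(mv 973 (cons (fin 974 1 970)
(mv 905 (cons (fin 906 3 905)
(mv 1098 (cons (fin 1097 1 1033)
(mv 907 (cons (fin 843 5 842)
(fin 1162 6 906))))))))))))))))
(mv 1034 (cons (mv 973 (cons (fin 1033 2 969)
(fin 974 2 970)))
(cons (mv 1097 (cons (fin 1098 1 1033)
(mv 1033 (cons (fin 1096 1 1032)
(mv 1101 (cons (fin 1100 0 1033)
(fin 1102 0 1034)))))))
(mv 973 (cons (fin 974 2 970)
(mv 1097 (cons (fin 1098 1 1033)
(mv 1101 (cons (fin 1102 0 1034)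
(mv 908 (cons (fin 1165 7 908)
(fin 844 4 844))))))))))))))))
(mv 1101 (cons (cons (mv 908 (cons (fin 844 4 844)
(mv 1165 (cons (fin 973 7 908)
(fin 1229 7 972)))))
(mv 908 (cons (fin 844 4 844)
(mv 1102 (cons (cons (mv 1035 (cons (fin 1034 0 1034)
(mv 1103 (cons (fin 1100 3 1035)
(fin 1104 3 1036)))))
(mv 1103 (cons (fin 1104 3 1036)
(mv 1100 (cons (cons (mv 843 (cons (fin 907 7 843)
(mv 1164 (cons (fin 1163 1 1099)
(mv 973 (cons (fin 909 5 908)
(fin 1228 6 972)))))))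
(mv 907 (cons (fin 843 7 843)
(mv 1167 (cons (fin 1168 0 1100)
(mv 973 (cons (cons (mv 905 (cons (fin 906 0 905)
(mv 909 (cons (fin 1166 4 909)
(mv 910 (cons (fin 846 6 845)
(mv 911 (cons (fin 971 1 907)
(fin 912 1 908)))))))))
(mv 905 (cons (fin 906 0 905)
(mv 974 (cons (fin 975 3 907)
(mv 1038 (cons (fin 910 4 910)
(mv 1166 (cons (fin 1230 7 973)
(fin 1231 4 974))))))))))
(cons (mv 909 (cons (fin 1166 4 909)
(mv 910 (cons (fin 846 6 845)
(mv 911 (cons (fin 971 1 907)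
(fin 912 1 908)))))))
(cons (mv 905 (cons (fin 906 0 905)
(mv 974 (cons (fin 975 3 907)
(mv 910 (cons (fin 1038 4 910)
(mv 846 (cons (fin 782 5 781)
(fin 909 6 845)))))))))
(mv 905 (cons (fin 906 0 905)
(mv 974 (cons (fin 975 3 907)
(mv 1166 (cons (fin 909 4 909)
(mv 1038 (cons (fin 1230 7 973)
(fin 1231 4 974))))))))))))))))))
(cons (mv 1164 (cons (fin 1163 1 1099)
(mv 973 (cons (fin 909 5 908)
(fin 1228 6 972)))))
(mv 843 (cons (fin 907 7 843)
(mv 1164 (cons (fin 1163 1 1099)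
(mv 1167 (cons (fin 1168 0 1100)
(mv 1228 (cons (fin 1292 6 1036)
(mv 1227 (cons (fin 1291 5 1035)
(mv 1229 (cons (fin 1293 4 1036)
(mv 1230 (cons (fin 1166 2 1163)
(mv 1295 (cons (fin 1294 0 1227)
(mv 1231 (cons (fin 1296 0 1228)
(fin 1038 7 1038)))))))))))))))))))))))))
(cons (mv 1034 (cons (fin 1035 0 1034)
(mv 973 (cons (mv 909 (cons (fin 1166 4 909)
(mv 846 (cons (fin 910 6 845)
(mv 1100 (cons (fin 1164 5 908)
(mv 907 (cons (fin 843 7 843)
(mv 906 (cons (fin 905 0 905)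
(fin 974 0 906)))))))))))
(cons (mv 907 (cons (mv 843 (cons (fin 1100 7 843)
(mv 779 (cons (fin 715 4 715)
(fin 971 4 779)))))
(cons (mv 906 (cons (fin 905 0 905)
(mv 974 (cons (fin 971 3 906)
(fin 975 3 907)))))
(mv 843 (cons (fin 1100 7 843)
(mv 779 (cons (fin 715 4 715)
(mv 906 (cons (fin 905 0 905)
(mv 970 (cons (fin 842 6 778)
(fin 1098 6 842))))))))))))
(mv 909 (cons (fin 1166 4 909)
(mv 910 (cons (fin 846 6 845)
(mv 911 (cons (fin 971 1 907)
(fin 912 1 908))))))))))))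
(mv 1035 (cons (fin 1034 0 1034)
(mv 1103 (cons (fin 1104 3 1036)
(fin 1038 0 1035)))))))))))
(cons (mv 1165 (cons (fin 1229 7 972)
(mv 973 (cons (cons (mv 910 (cons (fin 974 6 909)
(mv 909 (cons (fin 846 6 845)
(mv 1164 (cons (fin 1100 5 908)
(fin 1228 5 972)))))))
(mv 1164 (cons (fin 1228 5 972)
(mv 909 (cons (fin 1100 5 908)
(mv 1166 (cons (fin 1102 4 909)
(fin 1230 4 973))))))))
(cons (mv 910 (cons (fin 974 6 909)
(mv 909 (cons (fin 846 6 845)
(mv 1166 (cons (fin 1102 4 909)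
(fin 1230 4 973)))))))
(mv 974 (cons (fin 910 6 909)
(mv 975 (cons (fin 1035 1 971)
(fin 976 1 972))))))))))
(cons (mv 908 (cons (fin 844 4 844)
(mv 1165 (cons (fin 973 7 908)
(fin 1100 4 908)))))
(mv 908 (cons (fin 844 4 844)
(mv 1165 (cons (fin 1229 7 972)
(fin 1100 4 908))))))))))
(cons (mv 1101 (cons (cons (mv 908 (cons (fin 844 4 844)
(mv 1165 (cons (fin 973 7 908)
(fin 1229 7 972)))))
(mv 908 (cons (fin 844 4 844)
(mv 1102 (cons (cons (mv 1035 (cons (fin 1034 0 1034)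
(mv 1103 (cons (fin 1100 3 1035)
(fin 1104 3 1036)))))
(mv 1103 (cons (fin 1104 3 1036)
(mv 1100 (cons (cons (mv 845 (cons (fin 909 6 844)
(mv 1164 (cons (fin 1163 1 1099)
(mv 1228 (cons (fin 973 6 972)
(fin 1292 6 1036)))))))
(mv 909 (cons (fin 845 6 844)
(mv 973 (cons (fin 1166 4 909)
(mv 910 (cons (fin 846 6 845)
(mv 911 (cons (fin 971 1 907)
(fin 912 1 908))))))))))
(cons (mv 1164 (cons (fin 1163 1 1099)
(mv 1228 (cons (fin 973 6 972)
(fin 1292 6 1036)))))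
(mv 845 (cons (fin 909 6 844)
(mv 1164 (cons (fin 1163 1 1099)
(mv 1167 (cons (fin 1168 0 1100)
(mv 1228 (cons (fin 1292 6 1036)
(mv 1227 (cons (fin 1291 5 1035)
(mv 1229 (cons (fin 1293 4 1036)
(mv 1230 (cons (fin 1166 2 1163)
(mv 1295 (cons (fin 1294 0 1227)
(mv 1231 (cons (fin 1296 0 1228)
(fin 1038 7 1038)))))))))))))))))))))))))
(cons (mv 1035 (cons (fin 1034 0 1034)
(mv 974 (cons (cons (mv 975 (cons (fin 973 1 971)
(fin 1038 2 971)))
(mv 909 (cons (mv 845 (cons (fin 1100 6 844)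
(mv 781 (cons (fin 717 5 716)
(fin 973 5 780)))))
(cons (mv 845 (cons (fin 1100 6 844)
(mv 717 (cons (fin 781 5 716)
(mv 910 (cons (fin 1038 7 845)
(mv 911 (cons (fin 971 1 907)
(mv 848 (cons (fin 847 2 844)
(mv 912 (cons (fin 849 2 845)
(mv 913 (cons (fin 846 3 845)
(mv 977 (cons (fin 976 0 909)
(fin 978 0 910)))))))))))))))))
(mv 973 (cons (fin 1166 4 909)
(mv 910 (cons (fin 846 6 845)
(mv 911 (cons (fin 971 1 907)
(fin 912 1 908)))))))))))
(cons (mv 1038 (cons (fin 975 2 971)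
(mv 910 (cons (fin 846 5 845)
(mv 909 (cons (fin 845 7 845)
(mv 911 (cons (fin 971 1 907)
(fin 847 6 846)))))))))
(mv 973 (cons (fin 975 1 971)
(mv 909 (cons (fin 1166 4 909)
(mv 845 (cons (fin 781 5 780)
(fin 1100 5 844))))))))))))
(mv 1035 (cons (fin 1034 0 1034)
(mv 1103 (cons (fin 1104 3 1036)
(fin 1038 0 1035)))))))))))
(cons (mv 1165 (cons (fin 1229 7 972)
(mv 973 (cons (mv 910 (cons (fin 974 6 909)
(mv 909 (cons (fin 846 6 845)
(mv 845 (cons (fin 781 5 780)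
(fin 1100 5 844)))))))
(cons (mv 1164 (cons (fin 1228 5 972)
(mv 909 (cons (fin 1100 5 908)
(mv 1166 (cons (fin 1102 4 909)
(fin 1230 4 973)))))))
(mv 974 (cons (fin 910 6 909)
(mv 975 (cons (fin 1035 1 971)
(fin 976 1 972))))))))))
(cons (mv 908 (cons (fin 844 4 844)
(mv 1165 (cons (fin 973 7 908)
(fin 1100 4 908)))))
(mv 908 (cons (fin 844 4 844)
(mv 1165 (cons (fin 1229 7 972)
(fin 1100 4 908)))))))))
(mv 1101 (cons (cons (mv 908 (cons (fin 844 4 844)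
(mv 1165 (cons (fin 973 7 908)
(fin 1229 7 972)))))
(mv 908 (cons (fin 844 4 844)
(mv 1100 (cons (cons (mv 843 (cons (fin 907 7 843)
(mv 909 (cons (fin 845 6 844)
(mv 973 (cons (fin 1164 5 908)
(mv 1102 (cons (fin 1166 4 909)
(mv 1035 (cons (fin 1103 3 1035)
(fin 1034 0 1034)))))))))))
(cons (mv 907 (cons (fin 843 7 843)
(mv 971 (cons (fin 1164 7 907)
(mv 970 (cons (fin 969 0 969)
(mv 1038 (cons (fin 1035 3 970)
(fin 973 0 970)))))))))
(mv 909 (cons (fin 845 6 844)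
(mv 973 (cons (fin 1164 5 908)
(mv 1102 (cons (fin 1166 4 909)
(mv 1035 (cons (fin 1103 3 1035)
(fin 1034 0 1034)))))))))))
(cons (mv 907 (cons (fin 843 7 843)
(mv 909 (cons (fin 845 6 844)
(mv 973 (cons (mv 906 (cons (fin 905 0 905)
(fin 974 0 906)))
(cons (mv 905 (cons (fin 906 0 905)
(mv 1102 (cons (fin 1166 4 909)
(mv 1035 (cons (fin 1103 3 1035)
(fin 1034 0 1034)))))))
(mv 974 (cons (fin 975 3 907)
(mv 1035 (cons (fin 1034 2 970)
(mv 1102 (cons (fin 1103 3 1035)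
(fin 1166 4 909))))))))))))))
(cons (mv 845 (cons (fin 909 6 844)
(mv 907 (cons (fin 843 7 843)
(mv 971 (cons (fin 1164 7 907)
(mv 970 (cons (fin 969 0 969)
(mv 1035 (cons (fin 1038 3 970)
(mv 1034 (cons (fin 1033 0 1033)
(fin 1102 0 1034)))))))))))))
(mv 843 (cons (fin 907 7 843)
(mv 909 (cons (fin 845 6 844)
(mv 1164 (cons (fin 973 5 908)
(mv 1227 (cons (fin 1163 5 971)
(mv 1228 (cons (fin 1291 5 1035)
(fin 1292 6 1036))))))))))))))))))
(cons (mv 1165 (cons (fin 1229 7 972)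
(mv 973 (cons (cons (mv 1164 (cons (fin 1228 5 972)
(mv 909 (cons (fin 1100 5 908)
(mv 1166 (cons (fin 1102 4 909)
(fin 1230 4 973)))))))
(cons (mv 1166 (cons (fin 1230 4 973)
(mv 909 (cons (fin 1102 4 909)
(mv 845 (cons (fin 781 5 780)
(fin 1100 5 844)))))))
(mv 1164 (cons (fin 1228 5 972)
(mv 1100 (cons (fin 909 5 908)
(mv 907 (cons (fin 971 7 907)
(mv 1163 (cons (fin 1227 5 971)
(mv 1102 (cons (fin 1103 1 1099)
(fin 1162 2 1098)))))))))))))
(cons (mv 1164 (cons (fin 1228 5 972)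
(mv 1166 (cons (fin 1230 4 973)
(mv 1102 (cons (mv 1103 (cons (fin 1104 3 1036)
(fin 1163 2 1099)))
(cons (mv 1034 (cons (fin 1035 0 1034)
(mv 1163 (cons (fin 1162 2 1098)
(mv 1227 (cons (fin 1226 1 1162)
(fin 1100 5 971)))))))
(mv 1035 (cons (fin 1034 0 1034)
(mv 1103 (cons (fin 1100 3 1035)
(fin 1104 3 1036))))))))))))
(cons (mv 1164 (cons (fin 1228 5 972)
(mv 1166 (cons (fin 1230 4 973)
(mv 1102 (cons (fin 909 4 909)
(mv 1103 (cons (fin 1104 3 1036)
(fin 1163 2 1099)))))))))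
(mv 1164 (cons (fin 1228 5 972)
(mv 1100 (cons (fin 909 5 908)
(mv 971 (cons (fin 907 7 907)
(mv 970 (cons (fin 969 0 969)
(fin 1038 0 970)))))))))))))))
(mv 908 (cons (fin 844 4 844)
(mv 1165 (cons (fin 1229 7 972)
(fin 1100 4 908)))))))))))))
def l92 : Lem := ⟨13990367052752487320312544716796506086908544040920606671647422636019387761887306954839904539139044083307651742587111316666437654968213159228883358442086434255575408537896731526142943938247376028752316727663063488954060238702619831287825813914729338905000590143517244074225654467916245441707506770996675619254697984, 3145604489732036219051680586958721529163798720415993273659256580667936177298361561164952628770091599788910761254785516155807320575136579595590855054749593043539107150670355824955659604333516771883579857762598208665804904742896523502846595844488351295710091784998468504040194815336157910748034756714637384143789898333003726154584839295028331282875517248436657198559846667369710720776326846439525690441992241152,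 3145604489732036219051680586958721529163798720415993273659256580667936177298361561164952628770091599788910761254785516155807320575136579595590855054749593043539107150670355824955659604333516771883579857762598208665804904742896523502846595844488351295710091784998468504040194815336157910748034756714637384143789898333003726154584839295028331282875517248436657198559846667369710720776326846439525690441992241152, 17, 33⟩
theorem l92_valid : l92.Valid :=
  Lem.valid_of_chk t92 t92_valid [1036, 1037, 1040] c92 l92 (by decide +kernel)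
end Crest.Agent.SnakyAux
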