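import Crest.Agent.S0047_aux.Checker

set_option autoImplicit false
set_option maxRecDepth 100000
namespace Crest.Agent.SnakyAux
open Cert
def t93 : Tbl := Tbl.nil
theorem t93_valid : t93.Valid := Tbl.valid_nil
def c93 : Cert :=
(mv 972 (cons (cons (cons (mv 1101 (cons (cons (mv 908 (cons (fin 844 4 844)
(mv 1165 (cons (fin 973 7 908)
(fin 1229 7 972)))))
(mv 1165 (cons (fin 1229 7 972)
(mv 973 (cons (mv 910 (cons (fin 974 6 909)
(mv 909 (cons (fin 846 6 845)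
(mv 845 (cons (fin 781 5 780)
(fin 1100 5 844)))))))
(cons (mv 1164 (cons (fin 1228 5 972)
(mv 909 (cons (fin 1100 5 908)
(mv 1166 (cons (fin 1102 4 909)
(fin 1230 4 973)))))))
(mv 974 (cons (fin 910 6 909)
(mv 975 (cons (fin 1035 1 971)
(fin 976 1 972)))))))))))
(cons (mv 908 (cons (fin 844 4 844)
(mv 1100 (cons (cons (mv 843 (cons (fin 907 7 843)
(mv 845 (cons (fin 909 6 844)
(mv 1099 (cons (fin 1163 5 907)
(mv 1098 (cons (fin 1097 2 1033)
(fin 1038 2 1034)))))))))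
(mv 843 (cons (fin 907 7 843)
(mv 1099 (cons (fin 1163 5 907)
(mv 1098 (cons (fin 1097 2 1033)
(fin 1038 2 1034))))))))
(cons (mv 843 (cons (fin 907 7 843)
(mv 909 (cons (fin 845 6 844)
(mv 973 (cons (fin 1164 5 908)
(mv 846 (cons (fin 910 6 845)
(mv 1102 (cons (fin 1166 4 909)
(mv 1103 (cons (fin 1035 3 1035)
(fin 1104 3 1036)))))))))))))
(mv 845 (cons (fin 909 6 844)
(mv 1099 (cons (fin 1163 5 907)
(mv 1098 (cons (fin 1097 2 1033)
(fin 1038 2 1034))))))))))))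
(mv 908 (cons (fin 844 4 844)
(mv 1165 (cons (fin 1229 7 972)
(fin 1100 4 908))))))))
(cons (mv 971 (cons (cons (mv 970 (cons (fin 969 0 969)
(mv 1038 (cons (fin 1035 3 970)
(fin 973 0 970)))))
(mv 1100 (cons (cons (mv 907 (cons (fin 1164 7 907)
(mv 843 (cons (fin 908 7 843)
(fin 779 4 779)))))
(mv 908 (cons (cons (mv 843 (cons (fin 907 7 843)
(mv 844 (cons (fin 779 7 779)
(mv 780 (cons (fin 1035 5 779)
(fin 973 4 780)))))))
(mv 845 (cons (fin 909 6 844)
(mv 781 (cons (fin 844 6 780)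
(mv 1099 (cons (fin 1163 5 907)
(mv 1098 (cons (fin 1097 2 1033)
(mv 1035 (cons (fin 1038 1 1034)
(mv 907 (cons (fin 1162 5 906)
(mv 906 (cons (fin 842 7 842)
(mv 905 (cons (fin 904 0 904)
(fin 973 0 905))))))))))))))))))
(cons (mv 845 (cons (fin 909 6 844)
(mv 844 (cons (fin 781 6 780)
(mv 780 (cons (fin 1035 5 779)
(fin 973 4 780)))))))
(cons (mv 845 (cons (fin 909 6 844)
(mv 907 (cons (fin 843 7 843)
(mv 1099 (cons (fin 1163 5 907)
(mv 1098 (cons (fin 1097 2 1033)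
(mv 1035 (cons (fin 1038 1 1034)
(fin 1162 5 906)))))))))))
(mv 843 (cons (fin 907 7 843)
(mv 844 (cons (fin 779 7 779)
(mv 845 (cons (fin 781 6 780)
(fin 909 6 844))))))))))))
(cons (mv 1164 (cons (cons (mv 973 (cons (fin 909 6 908)
(fin 1228 6 972)))
(mv 909 (cons (fin 973 6 908)
(mv 908 (cons (fin 845 6 844)
(mv 1163 (cons (fin 1099 5 907)
(fin 1227 5 971))))))))
(cons (mv 1035 (cons (fin 1228 7 971)
(mv 1163 (cons (fin 1227 5 971)
(mv 908 (cons (fin 1099 5 907)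
(mv 844 (cons (fin 780 5 779)
(mv 845 (cons (fin 781 6 780)
(fin 909 6 844)))))))))))
(mv 1228 (cons (fin 1035 7 971)
(fin 973 6 972))))))
(mv 907 (cons (fin 1164 7 907)
(mv 843 (cons (fin 779 4 779)
(fin 1035 4 843)))))))))
(cons (mv 969 (cons (fin 970 0 969)
(mv 1100 (cons (cons (mv 907 (cons (fin 1164 7 907)
(mv 843 (cons (fin 908 7 843)
(fin 779 4 779)))))
(mv 908 (cons (cons (mv 843 (cons (fin 907 7 843)
(mv 844 (cons (fin 779 7 779)
(mv 780 (cons (fin 1035 5 779)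
(fin 973 4 780)))))))
(mv 845 (cons (fin 909 6 844)
(mv 844 (cons (fin 781 6 780)
(mv 780 (cons (fin 1035 5 779)
(fin 973 4 780))))))))
(cons (mv 845 (cons (fin 909 6 844)
(mv 907 (cons (fin 843 7 843)
(mv 1099 (cons (fin 1163 5 907)
(mv 1098 (cons (fin 1097 2 1033)
(mv 1035 (cons (fin 1162 5 906)
(mv 906 (cons (fin 842 7 842)
(mv 905 (cons (fin 968 1 904)
(fin 904 0 904)))))))))))))))
(mv 843 (cons (fin 907 7 843)
(mv 844 (cons (fin 779 7 779)
(mv 845 (cons (fin 781 6 780)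
(fin 909 6 844)))))))))))
(cons (mv 1164 (cons (cons (mv 973 (cons (fin 909 6 908)
(fin 1228 6 972)))
(mv 909 (cons (fin 973 6 908)
(mv 908 (cons (fin 845 6 844)
(mv 1163 (cons (fin 1099 5 907)
(fin 1227 5 971))))))))
(cons (mv 1035 (cons (fin 1228 7 971)
(mv 1163 (cons (fin 1227 5 971)
(mv 908 (cons (fin 1099 5 907)
(mv 844 (cons (fin 780 5 779)
(mv 845 (cons (fin 781 6 780)
(fin 909 6 844)))))))))))
(mv 1228 (cons (fin 1035 7 971)
(fin 973 6 972))))))
(mv 907 (cons (fin 1164 7 907)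
(mv 843 (cons (fin 779 4 779)
(fin 1035 4 843))))))))))
(cons (mv 970 (cons (fin 969 0 969)
(mv 973 (cons (fin 1038 0 970)
(mv 905 (cons (fin 906 3 905)
(mv 909 (cons (fin 910 2 906)
(mv 845 (cons (fin 781 5 780)
(fin 1100 5 844)))))))))))
(mv 969 (cons (fin 970 0 969)
(mv 1100 (cons (cons (mv 907 (cons (fin 1164 7 907)
(mv 843 (cons (fin 908 7 843)
(fin 779 4 779)))))
(mv 908 (cons (cons (mv 843 (cons (fin 907 7 843)
(mv 844 (cons (fin 779 7 779)
(mv 845 (cons (fin 781 6 780)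
(fin 909 6 844)))))))
(mv 845 (cons (fin 909 6 844)
(mv 781 (cons (fin 844 6 780)
(mv 1099 (cons (fin 1163 5 907)
(mv 1098 (cons (fin 1097 2 1033)
(mv 1035 (cons (fin 1038 1 1034)
(mv 907 (cons (fin 1162 5 906)
(mv 906 (cons (fin 842 7 842)
(mv 905 (cons (fin 968 1 904)
(fin 904 0 904))))))))))))))))))
(cons (mv 845 (cons (fin 909 6 844)
(mv 844 (cons (fin 781 6 780)
(mv 1035 (cons (fin 780 5 779)
(fin 1099 5 843)))))))
(cons (mv 843 (cons (fin 907 7 843)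
(mv 844 (cons (fin 779 7 779)
(mv 1035 (cons (fin 780 5 779)
(fin 1099 5 843)))))))
(mv 845 (cons (fin 909 6 844)
(mv 907 (cons (fin 843 7 843)
(mv 1099 (cons (fin 1163 5 907)
(mv 1098 (cons (fin 1097 2 1033)
(mv 1035 (cons (fin 1038 1 1034)
(fin 1162 5 906))))))))))))))))
(cons (mv 1164 (cons (cons (mv 1035 (cons (fin 1228 7 971)
(mv 1163 (cons (fin 1227 5 971)
(mv 908 (cons (fin 1099 5 907)
(mv 844 (cons (fin 780 5 779)
(mv 845 (cons (fin 781 6 780)
(fin 909 6 844)))))))))))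
(mv 1163 (cons (fin 1227 5 971)
(mv 908 (cons (fin 1099 5 907)
(mv 845 (cons (fin 909 6 844)
(mv 844 (cons (fin 781 6 780)
(mv 779 (cons (fin 843 7 779)
(mv 780 (cons (fin 715 7 715)
(fin 1035 5 779))))))))))))))
(cons (mv 1228 (cons (fin 1035 7 971)
(mv 1229 (cons (fin 1165 4 972)
(fin 1293 4 1036)))))
(mv 1163 (cons (fin 1227 5 971)
(mv 1099 (cons (fin 908 5 907)
(mv 1098 (cons (fin 1097 2 1033)
(mv 1165 (cons (fin 1166 3 1098)
(fin 1229 4 972))))))))))))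
(cons (mv 907 (cons (fin 1164 7 907)
(mv 843 (cons (fin 779 4 779)
(fin 1035 4 843)))))
(mv 1164 (cons (fin 907 7 907)
(mv 1035 (cons (fin 1228 7 971)
(mv 1163 (cons (fin 1227 5 971)
(mv 908 (cons (fin 1099 5 907)
(mv 844 (cons (fin 780 5 779)
(mv 845 (cons (fin 781 6 780)
(fin 909 6 844)))))))))))))))))))))))
(mv 973 (cons (cons (cons (mv 909 (cons (mv 845 (cons (fin 781 5 780)
(fin 1100 5 844)))
(cons (mv 1100 (cons (fin 1164 6 908)
(mv 1101 (cons (mv 846 (cons (fin 910 6 845)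
(mv 1102 (cons (fin 1166 4 909)
(mv 1103 (cons (fin 1035 3 1035)
(fin 1104 3 1036)))))))
(cons (mv 1102 (cons (fin 1166 4 909)
(mv 1103 (cons (fin 1035 3 1035)
(fin 1104 3 1036)))))
(mv 910 (cons (fin 846 6 845)
(mv 1165 (cons (fin 1229 7 972)
(fin 974 6 909))))))))))
(mv 845 (cons (fin 781 5 780)
(mv 780 (cons (fin 844 7 780)
(mv 782 (cons (fin 846 6 781)
(mv 1102 (cons (fin 1038 4 845)
(mv 1101 (cons (fin 1166 4 909)
(mv 1103 (cons (fin 1104 3 1036)
(mv 1165 (cons (fin 1229 7 972)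
(mv 974 (cons (fin 910 6 909)
(mv 975 (cons (fin 1035 1 971)
(fin 976 1 972))))))))))))))))))))))
(mv 971 (cons (mv 970 (cons (fin 969 0 969)
(fin 1038 0 970)))
(cons (mv 974 (cons (mv 975 (cons (fin 1035 1 971)
(fin 976 1 972)))
(mv 906 (cons (fin 907 3 906)
(mv 910 (cons (fin 911 2 907)
(mv 846 (cons (fin 782 5 781)
(mv 1101 (cons (fin 1038 5 845)
(fin 1165 6 909)))))))))))
(mv 970 (cons (fin 969 0 969)
(mv 906 (cons (fin 905 3 905)
(mv 907 (cons (fin 974 3 906)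
(mv 843 (cons (fin 779 4 779)
(mv 1100 (cons (fin 1164 7 907)
(fin 1035 4 843)))))))))))))))
(cons (mv 974 (cons (mv 975 (cons (fin 1035 1 971)
(fin 976 1 972)))
(mv 971 (cons (mv 970 (cons (fin 969 0 969)
(fin 1038 0 970)))
(cons (mv 906 (cons (fin 907 3 906)
(mv 910 (cons (fin 911 2 907)
(mv 846 (cons (fin 782 5 781)
(mv 1101 (cons (fin 1038 5 845)
(fin 909 6 845)))))))))
(mv 906 (cons (fin 907 3 906)
(mv 970 (cons (fin 905 3 905)
(fin 969 0 969))))))))))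
(mv 909 (cons (mv 845 (cons (fin 781 5 780)
(fin 1100 5 844)))
(cons (mv 1101 (cons (cons (mv 846 (cons (fin 910 6 845)
(mv 1100 (cons (fin 1164 5 908)
(mv 1102 (cons (fin 1166 4 909)
(mv 1103 (cons (fin 1035 3 1035)
(fin 1104 3 1036)))))))))
(mv 846 (cons (fin 910 6 845)
(mv 1102 (cons (fin 1166 4 909)
(mv 1103 (cons (fin 1104 3 1036)
(mv 1035 (cons (fin 1100 3 1035)
(fin 1038 0 1035))))))))))
(cons (mv 846 (cons (fin 910 6 845)
(mv 1165 (cons (fin 1229 7 972)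
(mv 1166 (cons (fin 1102 4 909)
(fin 1230 4 973)))))))
(cons (mv 1100 (cons (fin 1164 5 908)
(mv 1102 (cons (fin 1166 4 909)
(mv 1103 (cons (fin 1035 3 1035)
(fin 1104 3 1036)))))))
(mv 846 (cons (fin 910 6 845)
(mv 1164 (cons (fin 1100 5 908)
(mv 1165 (cons (fin 1229 7 972)
(fin 1228 5 972)))))))))))
(mv 845 (cons (fin 781 5 780)
(mv 780 (cons (fin 844 7 780)
(mv 846 (cons (fin 782 6 781)
(mv 1101 (cons (fin 910 6 845)
(mv 1102 (cons (fin 1038 4 845)
(fin 1166 4 909))))))))))))))))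
(cons (cons (mv 971 (cons (mv 970 (cons (fin 969 0 969)
(fin 1038 0 970)))
(cons (mv 974 (cons (mv 975 (cons (fin 1035 1 971)
(fin 976 1 972)))
(mv 907 (cons (fin 906 3 906)
(mv 779 (cons (fin 843 4 779)
(mv 910 (cons (fin 911 2 907)
(mv 846 (cons (fin 782 5 781)
(mv 1100 (cons (fin 1164 7 907)
(mv 845 (cons (fin 909 5 844)
(mv 781 (cons (fin 1038 7 781)
(mv 653 (cons (fin 717 4 653)
(mv 780 (cons (fin 778 0 778)
(mv 847 (cons (fin 844 3 779)
(fin 848 3 780)))))))))))))))))))))))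
(mv 970 (cons (fin 969 0 969)
(mv 905 (cons (fin 906 3 905)
(mv 909 (cons (fin 910 2 906)
(mv 845 (cons (fin 781 5 780)
(fin 1100 5 844))))))))))))
(mv 909 (cons (mv 845 (cons (fin 781 5 780)
(fin 1100 5 844)))
(cons (mv 845 (cons (fin 781 5 780)
(mv 780 (cons (fin 844 7 780)
(mv 846 (cons (fin 782 6 781)
(mv 910 (cons (fin 1101 6 845)
(mv 911 (cons (fin 912 1 908)
(mv 971 (cons (fin 970 2 906)
(fin 974 2 907)))))))))))))
(mv 1100 (cons (fin 1164 6 908)
(mv 1101 (cons (mv 846 (cons (fin 910 6 845)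
(mv 1102 (cons (fin 1166 4 909)
(mv 1103 (cons (fin 1035 3 1035)
(fin 1104 3 1036)))))))
(cons (mv 1102 (cons (fin 1166 4 909)
(mv 1103 (cons (fin 1035 3 1035)
(fin 1104 3 1036)))))
(mv 910 (cons (fin 846 6 845)
(mv 1165 (cons (fin 1229 7 972)
(fin 974 6 909))))))))))))))
(cons (mv 909 (cons (mv 845 (cons (fin 781 5 780)
(fin 1100 5 844)))
(cons (mv 1100 (cons (fin 1164 6 908)
(mv 1101 (cons (mv 846 (cons (fin 910 6 845)
(mv 1165 (cons (fin 1229 7 972)
(mv 1166 (cons (fin 1102 4 909)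
(fin 1230 4 973)))))))
(cons (mv 910 (cons (fin 846 6 845)
(mv 911 (cons (fin 912 1 908)
(mv 971 (cons (fin 970 2 906)
(fin 974 2 907)))))))
(mv 1165 (cons (fin 1229 7 972)
(mv 1166 (cons (fin 1102 4 909)
(fin 1230 4 973))))))))))
(mv 845 (cons (fin 781 5 780)
(mv 780 (cons (fin 844 7 780)
(mv 846 (cons (fin 782 6 781)
(mv 910 (cons (fin 1101 6 845)
(mv 911 (cons (fin 912 1 908)
(mv 971 (cons (fin 970 2 906)
(fin 974 2 907))))))))))))))))
(cons (mv 971 (cons (mv 970 (cons (fin 969 0 969)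
(fin 1038 0 970)))
(mv 907 (cons (cons (mv 779 (cons (fin 843 4 779)
(mv 974 (cons (fin 906 3 906)
(mv 975 (cons (fin 1035 1 971)
(fin 976 1 972)))))))
(mv 843 (cons (fin 779 4 779)
(mv 1100 (cons (fin 1164 7 907)
(fin 1035 4 843))))))
(cons (mv 974 (cons (fin 906 3 906)
(mv 975 (cons (fin 1035 1 971)
(fin 976 1 972)))))
(mv 843 (cons (fin 779 4 779)
(mv 906 (cons (fin 974 3 906)
(mv 905 (cons (fin 904 0 904)
(mv 1100 (cons (fin 1164 7 907)
(mv 845 (cons (fin 909 5 844)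
(mv 844 (cons (fin 842 1 841)
(fin 846 1 842))))))))))))))))))
(mv 909 (cons (mv 845 (cons (fin 781 5 780)
(fin 1100 5 844)))
(cons (mv 845 (cons (fin 781 5 780)
(mv 780 (cons (fin 844 7 780)
(mv 1102 (cons (fin 1038 4 845)
(mv 1101 (cons (fin 1166 4 909)
(mv 1103 (cons (fin 1104 3 1036)
(mv 1165 (cons (fin 1229 7 972)
(mv 974 (cons (fin 910 6 909)
(mv 975 (cons (fin 1035 1 971)
(fin 976 1 972)))))))))))))))))
(mv 1100 (cons (fin 1164 6 908)
(mv 1101 (cons (mv 1102 (cons (fin 1166 4 909)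
(mv 1103 (cons (fin 1035 3 1035)
(fin 1104 3 1036)))))
(cons (mv 1165 (cons (fin 1229 7 972)
(mv 974 (cons (fin 910 6 909)
(mv 975 (cons (fin 1035 1 971)
(fin 976 1 972)))))))
(mv 1165 (cons (fin 1229 7 972)
(mv 1166 (cons (fin 1102 4 909)
(fin 1230 4 973))))))))))))))))))))
(cons (mv 971 (cons (cons (mv 970 (cons (fin 969 0 969)
(mv 1038 (cons (fin 1035 3 970)
(fin 973 0 970)))))
(mv 1100 (cons (cons (mv 907 (cons (fin 1164 7 907)
(mv 843 (cons (fin 908 7 843)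
(fin 779 4 779)))))
(mv 908 (cons (cons (mv 843 (cons (fin 907 7 843)
(mv 845 (cons (fin 909 6 844)
(mv 1099 (cons (fin 1163 5 907)
(mv 1098 (cons (fin 1097 2 1033)
(mv 1038 (cons (fin 1035 1 1034)
(fin 1101 2 1034)))))))))))
(cons (mv 845 (cons (fin 909 6 844)
(mv 1099 (cons (fin 1163 5 907)
(mv 1098 (cons (fin 1097 2 1033)
(mv 1038 (cons (fin 1035 1 1034)
(fin 1101 2 1034)))))))))
(mv 845 (cons (fin 909 6 844)
(mv 907 (cons (fin 843 7 843)
(mv 1099 (cons (fin 1163 5 907)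
(mv 1098 (cons (fin 1097 2 1033)
(mv 1035 (cons (fin 1038 1 1034)
(fin 1162 5 906)))))))))))))
(cons (mv 843 (cons (fin 907 7 843)
(mv 909 (cons (fin 845 6 844)
(mv 910 (cons (fin 911 1 907)
(mv 1101 (cons (fin 1165 4 908)
(mv 973 (cons (fin 846 6 845)
(mv 1102 (cons (fin 1166 4 909)
(mv 1103 (cons (fin 1035 3 1035)
(fin 1104 3 1036)))))))))))))))
(cons (mv 843 (cons (fin 907 7 843)
(mv 1099 (cons (fin 1163 5 907)
(mv 1098 (cons (fin 1097 2 1033)
(mv 1038 (cons (fin 1035 1 1034)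
(fin 1101 2 1034)))))))))
(mv 843 (cons (fin 907 7 843)
(mv 845 (cons (fin 909 6 844)
(mv 1099 (cons (fin 1163 5 907)
(mv 1098 (cons (fin 1097 2 1033)
(mv 1101 (cons (fin 1038 2 1034)
(fin 1165 4 908))))))))))))))))
(cons (mv 1164 (cons (mv 973 (cons (fin 909 6 908)
(fin 1228 6 972)))
(cons (mv 909 (cons (fin 973 6 908)
(mv 908 (cons (fin 845 6 844)
(mv 1163 (cons (fin 1099 5 907)
(fin 1227 5 971)))))))
(mv 1035 (cons (fin 1228 7 971)
(mv 1163 (cons (fin 1227 5 971)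
(mv 908 (cons (fin 1099 5 907)
(mv 1165 (cons (fin 1101 4 908)
(fin 1229 4 972))))))))))))
(mv 907 (cons (fin 1164 7 907)
(mv 843 (cons (fin 779 4 779)
(fin 1035 4 843)))))))))
(cons (mv 969 (cons (fin 970 0 969)
(mv 1100 (cons (cons (mv 907 (cons (fin 1164 7 907)
(mv 843 (cons (fin 908 7 843)
(fin 779 4 779)))))
(mv 908 (cons (cons (mv 843 (cons (fin 907 7 843)
(mv 909 (cons (fin 845 6 844)
(mv 910 (cons (fin 911 1 907)
(mv 1099 (cons (fin 1163 5 907)
(mv 1097 (cons (fin 1098 2 1033)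
(mv 1101 (cons (fin 1165 4 908)
(mv 973 (cons (fin 846 6 845)
(mv 1102 (cons (fin 1166 4 909)
(mv 1103 (cons (fin 1035 3 1035)
(fin 1104 3 1036)))))))))))))))))))
(cons (mv 909 (cons (fin 845 6 844)
(mv 910 (cons (fin 911 1 907)
(mv 1099 (cons (fin 1163 5 907)
(mv 1097 (cons (fin 1098 2 1033)
(mv 1101 (cons (fin 1165 4 908)
(mv 973 (cons (fin 846 6 845)
(mv 1102 (cons (fin 1166 4 909)
(mv 1103 (cons (fin 1035 3 1035)
(fin 1104 3 1036)))))))))))))))))
(mv 845 (cons (fin 909 6 844)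
(mv 907 (cons (fin 843 7 843)
(mv 1099 (cons (fin 1163 5 907)
(mv 1098 (cons (fin 1097 2 1033)
(mv 1035 (cons (fin 1162 5 906)
(mv 906 (cons (fin 842 7 842)
(mv 905 (cons (fin 968 1 904)
(fin 904 0 904)))))))))))))))))
(cons (mv 907 (cons (fin 843 7 843)
(mv 1099 (cons (fin 1163 5 907)
(mv 1098 (cons (fin 1097 2 1033)
(mv 1035 (cons (fin 1162 5 906)
(mv 906 (cons (fin 842 7 842)
(mv 905 (cons (fin 968 1 904)
(fin 904 0 904)))))))))))))
(cons (mv 843 (cons (fin 907 7 843)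
(mv 909 (cons (fin 845 6 844)
(mv 910 (cons (fin 911 1 907)
(mv 1101 (cons (fin 1165 4 908)
(mv 973 (cons (fin 846 6 845)
(mv 1102 (cons (fin 1166 4 909)
(mv 1103 (cons (fin 1035 3 1035)
(fin 1104 3 1036)))))))))))))))
(mv 907 (cons (fin 843 7 843)
(mv 909 (cons (fin 845 6 844)
(mv 910 (cons (fin 911 1 907)
(mv 846 (cons (fin 847 2 843)
(mv 1101 (cons (fin 973 6 845)
(fin 1165 4 908))))))))))))))))
(cons (mv 1164 (cons (mv 973 (cons (fin 909 6 908)
(fin 1228 6 972)))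
(cons (mv 909 (cons (fin 973 6 908)
(mv 908 (cons (fin 845 6 844)
(mv 1163 (cons (fin 1099 5 907)
(fin 1227 5 971)))))))
(mv 1035 (cons (fin 1228 7 971)
(mv 1163 (cons (fin 1227 5 971)
(mv 908 (cons (fin 1099 5 907)
(mv 1165 (cons (fin 1101 4 908)
(fin 1229 4 972))))))))))))
(mv 907 (cons (fin 1164 7 907)
(mv 843 (cons (fin 779 4 779)
(fin 1035 4 843))))))))))
(cons (mv 969 (cons (fin 970 0 969)
(mv 1100 (cons (cons (mv 907 (cons (fin 1164 7 907)
(mv 843 (cons (fin 908 7 843)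
(fin 779 4 779)))))
(mv 908 (cons (cons (mv 843 (cons (fin 907 7 843)
(mv 845 (cons (fin 909 6 844)
(mv 1099 (cons (fin 1163 5 907)
(mv 1098 (cons (fin 1097 2 1033)
(mv 1038 (cons (fin 1035 1 1034)
(fin 1101 2 1034)))))))))))
(cons (mv 907 (cons (fin 843 7 843)
(mv 909 (cons (fin 845 6 844)
(mv 910 (cons (fin 911 1 907)
(mv 846 (cons (fin 847 2 843)
(mv 974 (cons (fin 975 0 907)
(mv 1101 (cons (fin 1038 5 845)
(fin 1165 4 908)))))))))))))
(mv 845 (cons (fin 909 6 844)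
(mv 1099 (cons (fin 1163 5 907)
(mv 1098 (cons (fin 1097 2 1033)
(mv 1038 (cons (fin 1035 1 1034)
(fin 1101 2 1034)))))))))))
(cons (mv 845 (cons (fin 909 6 844)
(mv 907 (cons (fin 843 7 843)
(mv 1099 (cons (fin 1163 5 907)
(mv 1098 (cons (fin 1097 2 1033)
(mv 1035 (cons (fin 1038 1 1034)
(fin 1162 5 906)))))))))))
(cons (mv 843 (cons (fin 907 7 843)
(mv 1099 (cons (fin 1163 5 907)
(mv 1098 (cons (fin 1097 2 1033)
(mv 1038 (cons (fin 1035 1 1034)
(fin 1101 2 1034)))))))))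
(mv 845 (cons (fin 909 6 844)
(mv 907 (cons (fin 843 7 843)
(mv 1099 (cons (fin 1163 5 907)
(mv 1098 (cons (fin 1097 2 1033)
(mv 1035 (cons (fin 1162 5 906)
(mv 906 (cons (fin 842 7 842)
(mv 905 (cons (fin 968 1 904)
(fin 904 0 904))))))))))))))))))))
(cons (mv 1164 (cons (cons (mv 1035 (cons (fin 1228 7 971)
(mv 1163 (cons (fin 1227 5 971)
(mv 908 (cons (fin 1099 5 907)
(mv 1165 (cons (fin 1101 4 908)
(fin 1229 4 972)))))))))
(mv 1163 (cons (fin 1227 5 971)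
(mv 908 (cons (fin 1099 5 907)
(mv 1165 (cons (fin 1101 4 908)
(fin 1229 4 972))))))))
(cons (mv 1035 (cons (fin 1228 7 971)
(mv 1163 (cons (fin 1227 5 971)
(mv 1099 (cons (fin 908 5 907)
(mv 1098 (cons (fin 1038 1 1034)
(fin 1097 2 1033)))))))))
(cons (mv 1165 (cons (fin 1229 4 972)
(mv 1101 (cons (fin 908 4 908)
(mv 1228 (cons (fin 1035 7 971)
(fin 1292 6 1036)))))))
(mv 1163 (cons (fin 1227 5 971)
(mv 1165 (cons (fin 1229 4 972)
(mv 1228 (cons (fin 1035 7 971)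
(mv 1101 (cons (fin 1292 6 1036)
(mv 1102 (cons (fin 1103 1 1099)
(fin 1162 2 1098)))))))))))))))
(mv 907 (cons (fin 1164 7 907)
(mv 843 (cons (fin 779 4 779)
(fin 1035 4 843))))))))))
(mv 970 (cons (fin 969 0 969)
(mv 973 (cons (fin 1038 0 970)
(mv 905 (cons (fin 906 3 905)
(mv 909 (cons (fin 910 2 906)
(mv 845 (cons (fin 781 5 780)
(fin 1100 5 844)))))))))))))))
(cons (mv 908 (cons (cons (mv 844 (cons (fin 1101 4 844)
(mv 779 (cons (fin 843 7 779)
(mv 780 (cons (fin 715 7 715)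
(fin 973 4 780)))))))
(mv 1100 (cons (cons (mv 843 (cons (fin 907 7 843)
(mv 845 (cons (fin 909 6 844)
(mv 1099 (cons (fin 1163 5 907)
(mv 1098 (cons (fin 1097 2 1033)
(mv 1038 (cons (fin 1035 1 1034)
(fin 1101 2 1034)))))))))))
(cons (mv 843 (cons (fin 907 7 843)
(mv 1099 (cons (fin 1163 5 907)
(mv 1098 (cons (fin 1097 2 1033)
(mv 1038 (cons (fin 1035 1 1034)
(fin 1101 2 1034)))))))))
(mv 845 (cons (fin 909 6 844)
(mv 1099 (cons (fin 1163 5 907)
(mv 1098 (cons (fin 1097 2 1033)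
(mv 1038 (cons (fin 1035 1 1034)
(fin 1101 2 1034)))))))))))
(cons (mv 843 (cons (fin 907 7 843)
(mv 909 (cons (fin 845 6 844)
(mv 1164 (cons (fin 973 6 908)
(mv 1227 (cons (fin 1163 5 971)
(mv 1228 (cons (fin 1291 5 1035)
(mv 971 (cons (fin 1035 7 971)
(mv 910 (cons (fin 911 1 907)
(mv 969 (cons (fin 970 2 905)
(mv 1292 (cons (fin 1101 6 1036)
(mv 1293 (cons (fin 1229 4 1036)
(fin 1357 4 1100)))))))))))))))))))))
(cons (mv 845 (cons (fin 909 6 844)
(mv 907 (cons (fin 843 7 843)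
(mv 971 (cons (fin 1164 7 907)
(mv 970 (cons (fin 969 0 969)
(mv 1038 (cons (fin 1035 3 970)
(fin 973 0 970)))))))))))
(mv 843 (cons (fin 907 7 843)
(mv 845 (cons (fin 909 6 844)
(mv 1163 (cons (fin 1099 5 907)
(mv 1164 (cons (fin 1227 5 971)
(mv 1228 (cons (fin 973 6 972)
(mv 1292 (cons (fin 1101 6 1036)
(mv 1293 (cons (fin 1229 4 1036)
(fin 1357 4 1100))))))))))))))))))))
(cons (mv 844 (cons (mv 779 (cons (fin 843 7 779)
(mv 780 (cons (fin 715 7 715)
(fin 973 4 780)))))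
(cons (mv 779 (cons (fin 843 7 779)
(mv 845 (cons (fin 781 6 780)
(mv 1099 (cons (fin 1035 5 843)
(mv 1100 (cons (fin 1163 5 907)
(fin 909 6 844)))))))))
(mv 780 (cons (fin 973 4 780)
(mv 781 (cons (fin 717 6 716)
(fin 845 6 780))))))))
(cons (mv 844 (cons (fin 1101 4 844)
(mv 780 (cons (fin 973 4 780)
(mv 781 (cons (fin 717 6 716)
(fin 845 6 780)))))))
(mv 844 (cons (fin 1101 4 844)
(mv 779 (cons (fin 843 7 779)
(mv 715 (cons (fin 780 7 715)
(mv 845 (cons (fin 781 6 780)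
(mv 1099 (cons (fin 1035 5 843)
(mv 1100 (cons (fin 1163 5 907)
(fin 909 6 844)))))))))))))))))
(mv 908 (cons (cons (mv 844 (cons (fin 1101 4 844)
(mv 779 (cons (fin 843 7 779)
(mv 780 (cons (fin 715 7 715)
(fin 973 4 780)))))))
(mv 1100 (cons (cons (mv 843 (cons (fin 907 7 843)
(mv 845 (cons (fin 909 6 844)
(mv 1099 (cons (fin 1163 5 907)
(mv 1098 (cons (fin 1097 2 1033)
(mv 1038 (cons (fin 1035 1 1034)
(fin 1101 2 1034)))))))))))
(cons (mv 843 (cons (fin 907 7 843)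
(mv 1099 (cons (fin 1163 5 907)
(mv 1098 (cons (fin 1097 2 1033)
(mv 1038 (cons (fin 1035 1 1034)
(fin 1101 2 1034)))))))))
(mv 845 (cons (fin 909 6 844)
(mv 1099 (cons (fin 1163 5 907)
(mv 1098 (cons (fin 1097 2 1033)
(mv 1038 (cons (fin 1035 1 1034)
(fin 1101 2 1034)))))))))))
(cons (mv 843 (cons (fin 907 7 843)
(mv 909 (cons (fin 845 6 844)
(mv 1099 (cons (fin 1163 5 907)
(mv 1098 (cons (fin 1097 2 1033)
(mv 1035 (cons (fin 1038 1 1034)
(mv 1164 (cons (fin 973 6 908)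
(mv 1228 (cons (fin 971 7 971)
(fin 1292 7 1035)))))))))))))))
(cons (mv 843 (cons (fin 907 7 843)
(mv 909 (cons (fin 845 6 844)
(mv 973 (cons (fin 1164 6 908)
(mv 1101 (cons (fin 1165 7 908)
(mv 846 (cons (fin 910 6 845)
(mv 1102 (cons (fin 1166 4 909)
(mv 1103 (cons (fin 1035 3 1035)
(fin 1104 3 1036)))))))))))))))
(mv 843 (cons (fin 907 7 843)
(mv 845 (cons (fin 909 6 844)
(mv 1099 (cons (fin 1163 5 907)
(mv 1098 (cons (fin 1097 2 1033)
(mv 1101 (cons (fin 1038 2 1034)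
(fin 1165 4 908))))))))))))))))
(cons (mv 844 (cons (mv 779 (cons (fin 843 7 779)
(mv 780 (cons (fin 715 7 715)
(fin 973 4 780)))))
(cons (mv 779 (cons (fin 843 7 779)
(mv 845 (cons (fin 781 6 780)
(mv 1099 (cons (fin 1035 5 843)
(mv 1100 (cons (fin 1163 5 907)
(fin 909 6 844)))))))))
(mv 780 (cons (fin 973 4 780)
(mv 781 (cons (fin 717 6 716)
(fin 845 6 780))))))))
(cons (mv 844 (cons (fin 1101 4 844)
(mv 779 (cons (fin 843 7 779)
(mv 715 (cons (fin 780 7 715)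
(mv 845 (cons (fin 781 6 780)
(mv 1099 (cons (fin 1035 5 843)
(mv 1100 (cons (fin 1163 5 907)
(fin 909 6 844)))))))))))))
(mv 844 (cons (fin 1101 4 844)
(mv 780 (cons (fin 973 4 780)
(mv 781 (cons (fin 717 6 716)
(fin 845 6 780))))))))))))))
(cons (cons (mv 971 (cons (cons (mv 970 (cons (fin 969 0 969)
(mv 1038 (cons (fin 1035 3 970)
(fin 973 0 970)))))
(mv 973 (cons (cons (mv 974 (cons (mv 975 (cons (fin 1035 1 971)
(fin 976 1 972)))
(mv 906 (cons (fin 907 3 906)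
(mv 910 (cons (fin 911 2 907)
(mv 846 (cons (fin 782 5 781)
(mv 1101 (cons (fin 1038 5 845)
(fin 909 6 845)))))))))))
(cons (mv 908 (cons (mv 844 (cons (fin 780 4 780)
(fin 1101 4 844)))
(cons (mv 1101 (cons (fin 1165 7 908)
(mv 909 (cons (mv 910 (cons (fin 911 1 907)
(fin 846 6 845)))
(mv 845 (cons (fin 781 5 780)
(mv 1102 (cons (fin 1038 4 845)
(fin 1166 4 909)))))))))
(mv 844 (cons (fin 780 4 780)
(mv 843 (cons (fin 779 7 779)
(mv 845 (cons (fin 781 6 780)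
(mv 1035 (cons (fin 1099 5 843)
(mv 909 (cons (mv 842 (cons (fin 841 0 841)
(fin 910 0 842)))
(cons (mv 782 (cons (fin 846 6 781)
(mv 842 (cons (fin 841 0 841)
(mv 778 (cons (fin 777 3 777)
(fin 907 7 778)))))))
(mv 846 (cons (fin 782 6 781)
(mv 847 (cons (fin 907 1 843)
(fin 848 1 844)))))))))))))))))))
(mv 974 (cons (mv 975 (cons (fin 1035 1 971)
(fin 976 1 972)))
(cons (mv 907 (cons (fin 906 3 906)
(mv 779 (cons (fin 843 4 779)
(mv 910 (cons (fin 911 2 907)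
(mv 846 (cons (fin 782 5 781)
(mv 1038 (cons (cons (mv 781 (cons (fin 845 7 781)
(mv 847 (cons (fin 783 6 782)
(mv 909 (cons (fin 908 2 843)
(mv 848 (cons (fin 849 1 845)
(mv 1102 (cons (fin 1166 7 909)
(mv 1103 (cons (fin 1035 0 1035)
(fin 1167 4 910)))))))))))))
(mv 847 (cons (fin 783 6 782)
(mv 909 (cons (fin 908 2 843)
(mv 848 (cons (fin 849 1 845)
(mv 1102 (cons (fin 1166 7 909)
(mv 1103 (cons (fin 1035 0 1035)
(fin 1167 4 910))))))))))))
(cons (mv 845 (cons (fin 781 7 781)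
(mv 1102 (cons (fin 909 7 845)
(mv 1103 (cons (fin 1035 0 1035)
(fin 1167 4 910)))))))
(mv 845 (cons (fin 781 7 781)
(mv 847 (cons (fin 783 6 782)
(mv 844 (cons (fin 780 3 779)
(fin 908 1 843))))))))))))))))))
(mv 906 (cons (fin 907 3 906)
(mv 911 (cons (fin 910 2 907)
(mv 975 (cons (fin 976 1 972)
(fin 912 2 908))))))))))))
(cons (mv 1101 (cons (mv 908 (cons (fin 1165 7 908)
(fin 844 4 844)))
(cons (mv 844 (cons (fin 908 4 844)
(mv 909 (cons (mv 845 (cons (fin 780 7 780)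
(fin 781 5 780)))
(mv 910 (cons (fin 846 6 845)
(mv 911 (cons (fin 912 1 908)
(fin 974 2 907)))))))))
(mv 1165 (cons (fin 1229 7 972)
(mv 910 (cons (fin 974 6 909)
(mv 909 (cons (fin 846 6 845)
(mv 1166 (cons (fin 1102 4 909)
(fin 1230 4 973))))))))))))
(cons (mv 974 (cons (mv 975 (cons (fin 1035 1 971)
(fin 976 1 972)))
(mv 906 (cons (fin 907 3 906)
(mv 910 (cons (fin 911 2 907)
(mv 846 (cons (fin 782 5 781)
(mv 1101 (cons (fin 1038 5 845)
(fin 1165 6 909)))))))))))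
(mv 1101 (cons (mv 908 (cons (fin 1165 7 908)
(fin 844 4 844)))
(cons (mv 1165 (cons (fin 1229 7 972)
(mv 1164 (cons (fin 1228 5 972)
(mv 1166 (cons (fin 1230 4 973)
(mv 1102 (cons (fin 909 4 909)
(mv 1103 (cons (fin 1104 3 1036)
(fin 1163 2 1099)))))))))))
(mv 844 (cons (fin 908 4 844)
(mv 909 (cons (mv 845 (cons (fin 780 7 780)
(fin 781 5 780)))
(cons (mv 1102 (cons (fin 1166 4 909)
(mv 1103 (cons (fin 1104 3 1036)
(mv 1035 (cons (fin 1038 0 1035)
(mv 974 (cons (fin 975 1 971)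
(mv 907 (cons (fin 906 3 906)
(mv 843 (cons (fin 780 6 779)
(fin 779 4 779)))))))))))))
(mv 845 (cons (fin 781 5 780)
(mv 1102 (cons (fin 1038 4 845)
(fin 1166 4 909))))))))))))))))))
(cons (mv 970 (cons (fin 969 0 969)
(mv 973 (cons (cons (mv 905 (cons (fin 906 3 905)
(mv 909 (cons (fin 910 2 906)
(mv 845 (cons (fin 781 5 780)
(mv 782 (cons (fin 846 6 781)
(mv 844 (cons (fin 780 7 780)
(mv 908 (cons (fin 1101 7 844)
(mv 843 (cons (fin 779 7 779)
(mv 842 (cons (fin 841 0 841)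
(mv 778 (cons (fin 777 3 777)
(mv 1035 (cons (fin 907 7 778)
(fin 1099 5 843)))))))))))))))))))))
(mv 906 (cons (fin 905 3 905)
(mv 974 (cons (fin 907 3 906)
(mv 975 (cons (fin 1035 1 971)
(fin 976 1 972))))))))
(cons (mv 909 (cons (fin 910 2 906)
(mv 845 (cons (fin 781 5 780)
(mv 782 (cons (fin 846 6 781)
(mv 844 (cons (fin 780 7 780)
(mv 908 (cons (fin 1101 7 844)
(mv 843 (cons (fin 779 7 779)
(mv 842 (cons (fin 841 0 841)
(mv 778 (cons (fin 777 3 777)
(mv 1035 (cons (fin 907 7 778)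
(fin 1099 5 843)))))))))))))))))))
(mv 905 (cons (fin 906 3 905)
(mv 909 (cons (fin 910 2 906)
(mv 845 (cons (fin 781 5 780)
(mv 782 (cons (fin 846 6 781)
(mv 844 (cons (fin 780 7 780)
(mv 1101 (cons (fin 908 7 844)
(mv 1165 (cons (fin 1229 7 972)
(mv 1166 (cons (fin 1102 4 909)
(fin 1230 4 973))))))))))))))))))))))
(cons (mv 1035 (cons (mv 970 (cons (fin 1038 3 970)
(fin 969 0 969)))
(cons (mv 1099 (cons (mv 908 (cons (fin 844 5 843)
(fin 1163 6 907)))
(cons (mv 1038 (cons (fin 1098 1 1034)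
(mv 974 (cons (fin 975 2 971)
(mv 1102 (cons (fin 1103 0 1035)
(mv 1163 (cons (fin 1227 6 971)
(mv 1162 (cons (fin 1226 5 970)
(mv 1164 (cons (fin 1228 4 971)
(mv 1165 (cons (fin 1101 2 1098)
(mv 1229 (cons (fin 1230 0 1162)
(fin 1166 5 973)))))))))))))))))
(mv 844 (cons (fin 908 5 843)
(mv 1098 (cons (fin 1038 1 1034)
(mv 907 (cons (fin 1162 5 906)
(mv 843 (cons (fin 780 6 779)
(fin 779 4 779))))))))))))
(mv 969 (cons (fin 970 0 969)
(mv 1099 (cons (mv 908 (cons (fin 844 5 843)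
(fin 1163 6 907)))
(cons (mv 1163 (cons (fin 1227 6 971)
(mv 1162 (cons (fin 1226 5 970)
(mv 907 (cons (fin 1098 5 906)
(mv 842 (cons (fin 906 7 842)
(mv 843 (cons (fin 778 7 778)
(fin 779 4 779)))))))))))
(mv 907 (cons (cons (mv 779 (cons (fin 843 4 779)
(mv 906 (cons (fin 842 7 842)
(mv 905 (cons (fin 904 0 904)
(mv 908 (cons (fin 968 1 904)
(fin 844 5 843)))))))))
(mv 779 (cons (fin 843 4 779)
(mv 906 (cons (fin 842 7 842)
(mv 905 (cons (fin 904 0 904)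
(mv 968 (cons (fin 908 1 904)
(mv 966 (cons (fin 967 2 902)
(mv 1098 (cons (fin 1162 5 906)
(mv 1096 (cons (fin 1097 2 1032)
(mv 1032 (cons (fin 1160 6 904)
(mv 841 (cons (fin 777 5 776)
(fin 1033 5 840))))))))))))))))))))
(cons (mv 842 (cons (fin 906 7 842)
(mv 843 (cons (fin 778 7 778)
(fin 779 4 779)))))
(cons (mv 906 (cons (fin 842 7 842)
(mv 905 (cons (fin 904 0 904)
(mv 908 (cons (fin 968 1 904)
(fin 844 5 843)))))))
(mv 843 (cons (fin 779 4 779)
(mv 844 (cons (fin 908 5 843)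
(fin 780 6 779)))))))))))))))))
(mv 970 (cons (fin 969 0 969)
(mv 973 (cons (fin 1038 0 970)
(mv 905 (cons (fin 906 3 905)
(mv 909 (cons (fin 910 2 906)
(mv 845 (cons (fin 781 5 780)
(mv 782 (cons (fin 846 6 781)
(mv 844 (cons (fin 780 7 780)
(mv 1101 (cons (fin 908 7 844)
(mv 1165 (cons (fin 1229 7 972)
(mv 1166 (cons (fin 1102 4 909)
(fin 1230 4 973)))))))))))))))))))))))))
(cons (mv 908 (cons (cons (mv 844 (cons (fin 1101 4 844)
(mv 779 (cons (fin 843 7 779)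
(mv 715 (cons (fin 780 7 715)
(mv 845 (cons (fin 781 6 780)
(mv 1099 (cons (fin 1035 5 843)
(mv 1100 (cons (fin 1163 5 907)
(fin 909 6 844)))))))))))))
(cons (mv 1100 (cons (cons (mv 843 (cons (fin 907 7 843)
(mv 845 (cons (fin 909 6 844)
(mv 1099 (cons (fin 1163 5 907)
(mv 1098 (cons (fin 1097 2 1033)
(mv 1038 (cons (fin 1035 1 1034)
(fin 1101 2 1034)))))))))))
(cons (mv 845 (cons (fin 909 6 844)
(mv 907 (cons (fin 843 7 843)
(mv 971 (cons (fin 1164 7 907)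
(mv 969 (cons (fin 970 0 969)
(mv 1099 (cons (fin 1163 5 907)
(mv 1098 (cons (fin 1097 2 1033)
(mv 1035 (cons (fin 1038 1 1034)
(fin 1162 5 906)))))))))))))))
(mv 845 (cons (fin 909 6 844)
(mv 907 (cons (fin 843 7 843)
(mv 1101 (cons (fin 1165 4 908)
(mv 1164 (cons (fin 971 7 907)
(mv 1227 (cons (fin 1163 5 971)
(mv 1228 (cons (fin 1291 5 1035)
(fin 1292 6 1036)))))))))))))))
(cons (mv 845 (cons (fin 909 6 844)
(mv 1099 (cons (fin 1163 5 907)
(mv 1098 (cons (fin 1097 2 1033)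
(mv 1038 (cons (fin 1035 1 1034)
(fin 1101 2 1034)))))))))
(cons (mv 845 (cons (fin 909 6 844)
(mv 907 (cons (fin 843 7 843)
(mv 1164 (cons (fin 971 7 907)
(mv 1165 (cons (fin 1101 4 908)
(fin 1229 4 972)))))))))
(mv 843 (cons (fin 907 7 843)
(mv 1099 (cons (fin 1163 5 907)
(mv 1098 (cons (fin 1097 2 1033)
(mv 1038 (cons (fin 1035 1 1034)
(fin 1101 2 1034)))))))))))))
(mv 1100 (cons (cons (mv 843 (cons (fin 907 7 843)
(mv 844 (cons (fin 779 7 779)
(mv 845 (cons (fin 781 6 780)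
(fin 909 6 844)))))))
(mv 845 (cons (fin 909 6 844)
(mv 844 (cons (fin 781 6 780)
(mv 1099 (cons (fin 1035 5 843)
(fin 1163 5 907))))))))
(cons (mv 843 (cons (fin 907 7 843)
(mv 844 (cons (fin 779 7 779)
(mv 1099 (cons (fin 1035 5 843)
(fin 1163 5 907)))))))
(mv 845 (cons (fin 909 6 844)
(mv 907 (cons (fin 843 7 843)
(mv 971 (cons (fin 1164 7 907)
(mv 969 (cons (fin 970 0 969)
(mv 1099 (cons (fin 1163 5 907)
(mv 1098 (cons (fin 1097 2 1033)
(mv 1035 (cons (fin 1038 1 1034)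
(fin 1162 5 906))))))))))))))))))))
(cons (mv 844 (cons (fin 1101 4 844)
(mv 779 (cons (fin 843 7 779)
(mv 780 (cons (fin 715 7 715)
(mv 781 (cons (fin 717 6 716)
(fin 845 6 780)))))))))
(cons (mv 844 (cons (fin 1101 4 844)
(mv 781 (cons (fin 845 6 780)
(mv 780 (cons (fin 717 6 716)
(mv 1035 (cons (fin 971 5 779)
(fin 1099 5 843)))))))))
(mv 844 (cons (fin 1101 4 844)
(mv 779 (cons (fin 843 7 779)
(mv 780 (cons (fin 715 7 715)
(mv 1035 (cons (fin 971 5 779)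
(fin 1099 5 843)))))))))))))
(mv 1101 (cons (cons (mv 908 (cons (fin 844 4 844)
(mv 1165 (cons (fin 973 7 908)
(fin 1229 7 972)))))
(mv 908 (cons (fin 844 4 844)
(mv 1100 (cons (cons (mv 843 (cons (fin 907 7 843)
(mv 845 (cons (fin 909 6 844)
(mv 1099 (cons (fin 1163 5 907)
(mv 1098 (cons (fin 1097 2 1033)
(fin 1038 2 1034)))))))))
(mv 843 (cons (fin 907 7 843)
(mv 1099 (cons (fin 1163 5 907)
(mv 1098 (cons (fin 1097 2 1033)
(fin 1038 2 1034))))))))
(cons (mv 843 (cons (fin 907 7 843)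
(mv 909 (cons (fin 845 6 844)
(mv 973 (cons (fin 1164 5 908)
(mv 910 (cons (fin 846 6 845)
(mv 911 (cons (fin 971 1 907)
(fin 912 1 908)))))))))))
(mv 845 (cons (fin 909 6 844)
(mv 1099 (cons (fin 1163 5 907)
(mv 1098 (cons (fin 1097 2 1033)
(fin 1038 2 1034)))))))))))))
(cons (mv 1165 (cons (fin 1229 7 972)
(mv 973 (cons (cons (mv 910 (cons (fin 974 6 909)
(mv 909 (cons (fin 846 6 845)
(mv 845 (cons (fin 781 5 780)
(fin 1100 5 844)))))))
(mv 1164 (cons (fin 1228 5 972)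
(mv 909 (cons (fin 1100 5 908)
(mv 1166 (cons (fin 1102 4 909)
(fin 1230 4 973))))))))
(cons (mv 974 (cons (fin 910 6 909)
(mv 975 (cons (fin 976 1 972)
(mv 911 (cons (fin 912 2 908)
(mv 1164 (cons (fin 1228 5 972)
(mv 1166 (cons (fin 1230 4 973)
(mv 1038 (cons (fin 1102 6 910)
(mv 783 (cons (fin 847 5 782)
(mv 971 (cons (fin 970 0 970)
(mv 907 (cons (fin 906 3 906)
(fin 1100 7 907)))))))))))))))))))
(mv 910 (cons (fin 974 6 909)
(mv 909 (cons (fin 846 6 845)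
(mv 1166 (cons (fin 1102 4 909)
(fin 1230 4 973))))))))))))
(mv 908 (cons (fin 844 4 844)
(mv 1165 (cons (fin 1229 7 972)
(fin 1100 4 908))))))))))
(cons (cons (mv 1101 (cons (cons (mv 908 (cons (fin 844 4 844)
(mv 1165 (cons (fin 973 7 908)
(fin 1229 7 972)))))
(mv 1165 (cons (fin 1229 7 972)
(mv 973 (cons (mv 910 (cons (fin 974 6 909)
(mv 909 (cons (fin 846 6 845)
(mv 845 (cons (fin 781 5 780)
(fin 1100 5 844)))))))
(cons (mv 1164 (cons (fin 1228 5 972)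
(mv 909 (cons (fin 1100 5 908)
(mv 1166 (cons (fin 1102 4 909)
(fin 1230 4 973)))))))
(mv 974 (cons (fin 910 6 909)
(mv 975 (cons (fin 1035 1 971)
(fin 976 1 972)))))))))))
(cons (mv 908 (cons (fin 844 4 844)
(mv 1100 (cons (cons (mv 843 (cons (fin 907 7 843)
(mv 845 (cons (fin 909 6 844)
(mv 1163 (cons (fin 1099 5 907)
(mv 1164 (cons (fin 1227 5 971)
(mv 1228 (cons (fin 973 6 972)
(fin 1292 6 1036)))))))))))
(mv 843 (cons (fin 907 7 843)
(mv 1163 (cons (fin 1099 5 907)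
(mv 1164 (cons (fin 1227 5 971)
(mv 1228 (cons (fin 973 6 972)
(fin 1292 6 1036))))))))))
(cons (mv 843 (cons (fin 907 7 843)
(mv 909 (cons (fin 845 6 844)
(mv 973 (cons (fin 1164 5 908)
(mv 846 (cons (fin 910 6 845)
(mv 1102 (cons (fin 1166 4 909)
(mv 1103 (cons (fin 1035 3 1035)
(fin 1104 3 1036)))))))))))))
(cons (mv 845 (cons (fin 909 6 844)
(mv 1163 (cons (fin 1099 5 907)
(mv 1164 (cons (fin 1227 5 971)
(mv 1228 (cons (fin 973 6 972)
(fin 1292 6 1036)))))))))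
(mv 907 (cons (fin 843 7 843)
(mv 909 (cons (fin 845 6 844)
(mv 1099 (cons (fin 1163 5 907)
(mv 1098 (cons (fin 1097 2 1033)
(mv 1162 (cons (fin 1161 1 1097)
(mv 971 (cons (fin 1035 5 906)
(mv 910 (cons (fin 970 1 906)
(fin 911 1 907)))))))))))))))))))))
(mv 908 (cons (fin 844 4 844)
(mv 1165 (cons (fin 1229 7 972)
(fin 1100 4 908))))))))
(mv 1101 (cons (cons (mv 908 (cons (fin 844 4 844)
(mv 1165 (cons (fin 973 7 908)
(fin 1229 7 972)))))
(mv 1165 (cons (fin 1229 7 972)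
(mv 973 (cons (mv 910 (cons (fin 974 6 909)
(mv 909 (cons (fin 846 6 845)
(mv 845 (cons (fin 781 5 780)
(fin 1100 5 844)))))))
(cons (mv 1166 (cons (fin 1230 4 973)
(mv 909 (cons (fin 1102 4 909)
(mv 845 (cons (fin 781 5 780)
(fin 1100 5 844)))))))
(mv 974 (cons (fin 910 6 909)
(mv 975 (cons (fin 1035 1 971)
(fin 976 1 972)))))))))))
(cons (mv 908 (cons (fin 844 4 844)
(mv 1100 (cons (cons (mv 843 (cons (fin 907 7 843)
(mv 845 (cons (fin 909 6 844)
(mv 1099 (cons (fin 1163 5 907)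
(mv 1098 (cons (fin 1097 2 1033)
(fin 1038 2 1034)))))))))
(mv 843 (cons (fin 907 7 843)
(mv 909 (cons (fin 845 6 844)
(mv 1102 (cons (mv 1103 (cons (fin 1035 3 1035)
(fin 1104 3 1036)))
(mv 973 (cons (fin 1166 4 909)
(mv 910 (cons (fin 846 6 845)
(mv 911 (cons (fin 971 1 907)
(fin 912 1 908))))))))))))))
(cons (mv 843 (cons (fin 907 7 843)
(mv 1099 (cons (fin 1163 5 907)
(mv 1098 (cons (fin 1097 2 1033)
(fin 1038 2 1034)))))))
(mv 845 (cons (fin 909 6 844)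
(mv 1099 (cons (fin 1163 5 907)
(mv 1098 (cons (fin 1097 2 1033)
(fin 1038 2 1034))))))))))))
(mv 908 (cons (fin 844 4 844)
(mv 1165 (cons (fin 1229 7 972)
(fin 1100 4 908)))))))))
(cons (mv 1101 (cons (cons (mv 908 (cons (fin 844 4 844)
(mv 1165 (cons (fin 973 7 908)
(fin 1229 7 972)))))
(mv 908 (cons (fin 844 4 844)
(mv 1100 (cons (cons (mv 843 (cons (fin 907 7 843)
(mv 1099 (cons (fin 1163 5 907)
(mv 1098 (cons (fin 1097 2 1033)
(fin 1038 2 1034)))))))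
(mv 907 (cons (fin 843 7 843)
(mv 971 (cons (fin 1164 7 907)
(mv 970 (cons (fin 969 0 969)
(mv 1038 (cons (fin 1035 3 970)
(fin 973 0 970))))))))))
(cons (mv 1099 (cons (fin 1163 5 907)
(mv 1098 (cons (fin 1097 2 1033)
(fin 1038 2 1034)))))
(mv 843 (cons (fin 907 7 843)
(mv 1163 (cons (fin 1099 5 907)
(mv 1164 (cons (fin 1227 5 971)
(mv 1228 (cons (fin 973 6 972)
(fin 1292 6 1036)))))))))))))))
(cons (mv 1165 (cons (fin 1229 7 972)
(mv 973 (cons (mv 974 (cons (fin 910 6 909)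
(mv 975 (cons (fin 1035 1 971)
(fin 976 1 972)))))
(mv 1164 (cons (fin 1228 5 972)
(mv 1166 (cons (fin 1230 4 973)
(mv 1100 (cons (mv 1099 (cons (fin 1167 3 1099)
(fin 1098 0 1098)))
(mv 907 (cons (fin 971 7 907)
(mv 1163 (cons (fin 1227 5 971)
(mv 1102 (cons (fin 1103 1 1099)
(fin 1162 2 1098)))))))))))))))))
(mv 908 (cons (fin 844 4 844)
(mv 1165 (cons (fin 1229 7 972)
(fin 1100 4 908))))))))
(mv 1101 (cons (cons (mv 908 (cons (fin 844 4 844)
(mv 1165 (cons (fin 973 7 908)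
(fin 1229 7 972)))))
(mv 908 (cons (fin 844 4 844)
(mv 1100 (cons (mv 845 (cons (fin 909 6 844)
(mv 1099 (cons (fin 1163 5 907)
(mv 1098 (cons (fin 1097 2 1033)
(fin 1038 2 1034)))))))
(cons (mv 1099 (cons (fin 1163 5 907)
(mv 1098 (cons (fin 1097 2 1033)
(fin 1038 2 1034)))))
(mv 909 (cons (fin 845 6 844)
(mv 973 (cons (fin 1164 5 908)
(mv 846 (cons (fin 910 6 845)
(mv 1102 (cons (fin 1166 4 909)
(mv 1103 (cons (fin 1035 3 1035)
(fin 1104 3 1036)))))))))))))))))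
(cons (mv 1165 (cons (fin 1229 7 972)
(mv 973 (cons (mv 910 (cons (fin 974 6 909)
(mv 909 (cons (fin 846 6 845)
(mv 845 (cons (fin 781 5 780)
(fin 1100 5 844)))))))
(cons (mv 1164 (cons (fin 1228 5 972)
(mv 909 (cons (fin 1100 5 908)
(mv 1166 (cons (fin 1102 4 909)
(fin 1230 4 973)))))))
(mv 974 (cons (fin 910 6 909)
(mv 975 (cons (fin 1035 1 971)
(fin 976 1 972))))))))))
(mv 908 (cons (fin 844 4 844)
(mv 1165 (cons (fin 1229 7 972)
(fin 1100 4 908)))))))))))))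
def l93 : Lem := ⟨13990367052752487320312544716796506086908544040920606671647422636019387761887306954839904539139044083307651742587111316666437654968213159228883358442086434255575408537896731526142943938247376028752316727663063488954060238702619831287825813914729338905000590143517244074225654467916245441707506770996675619254697984, 3145604489732036216664350731875380325311138392010516460517343270935642490330064902617508499527656198942916129289205538693419758377960673837386653831187036023371804298696488180509533948458608007364921507785711763141263520433311103501044740988620971224628718233905121616895570733637747641782354039375155008639037602628886036873223939031177014818201162751084824357751229651428732067654500609396185302363537408000, 3145604489732036216664350731875380325311138392010516460517343270935642490330064902617508499527656198942916129289205538693419758377960673837386653831187036023371804298696488180509533948458608007364921507785711763141263520433311103501044740988620971224628718233905121616895570733637747641782354039375155008639037602628886036873223939031177014818201162751084824357751229651428732067654500609396185302363537408000,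 16, 33⟩
theorem l93_valid : l93.Valid :=
  Lem.valid_of_chk t93 t93_valid [1036, 1037, 1040] c93 l93 (by decide +kernel)
end Crest.Agent.SnakyAux
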