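import Crest.Agent.S0047_aux.Checker

set_option autoImplicit false
set_option maxRecDepth 100000
namespace Crest.Agent.SnakyAux
open Cert
def t94 : Tbl := Tbl.nil
theorem t94_valid : t94.Valid := Tbl.valid_nil
def c94 : Cert :=
(mv 1035 (cons (cons (cons (mv 1038 (cons (cons (mv 970 (cons (fin 971 3 970)
(mv 974 (cons (fin 975 2 971)
(mv 1034 (cons (fin 969 3 969)
(fin 973 2 970)))))))
(mv 970 (cons (fin 971 3 970)
(mv 1034 (cons (fin 969 3 969)
(mv 1102 (cons (fin 1101 0 1034)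
(fin 1103 0 1035))))))))
(cons (mv 974 (cons (fin 975 2 971)
(mv 973 (cons (fin 1034 2 970)
(mv 1098 (cons (fin 1099 1 1034)
(mv 1102 (cons (fin 1103 0 1035)
(mv 909 (cons (fin 1166 7 909)
(fin 845 4 845)))))))))))
(mv 970 (cons (fin 971 3 970)
(mv 974 (cons (fin 975 2 971)
(mv 1098 (cons (fin 1099 1 1034)
(mv 1102 (cons (fin 1103 0 1035)
(mv 910 (cons (mv 1101 (cons (fin 846 5 845)
(fin 1165 5 909)))
(cons (mv 845 (cons (fin 909 7 845)
(mv 846 (cons (fin 781 7 781)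
(mv 847 (cons (fin 783 6 782)
(fin 911 6 846)))))))
(mv 845 (cons (fin 909 7 845)
(mv 847 (cons (fin 911 6 846)
(mv 1165 (cons (fin 1101 5 909)
(mv 1166 (cons (fin 1229 5 973)
(mv 1230 (cons (fin 973 7 973)
(mv 1231 (cons (fin 1167 4 974)
(fin 1295 4 1038)))))))))))))))))))))))))))
(mv 1034 (cons (cons (mv 969 (cons (fin 970 3 969)
(mv 973 (cons (fin 974 2 970)
(mv 1033 (cons (fin 968 3 968)
(fin 972 2 969)))))))
(mv 969 (cons (fin 970 3 969)
(mv 1033 (cons (fin 968 3 968)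
(mv 1101 (cons (fin 1100 0 1033)
(fin 1102 0 1034))))))))
(cons (mv 973 (cons (fin 974 2 970)
(mv 972 (cons (fin 1033 2 969)
(mv 1101 (cons (fin 1102 0 1034)
(mv 908 (cons (fin 1165 7 908)
(fin 844 4 844)))))))))
(mv 969 (cons (fin 970 3 969)
(mv 973 (cons (fin 974 2 970)
(mv 1101 (cons (fin 1102 0 1034)
(mv 1165 (cons (mv 972 (cons (fin 908 7 908)
(fin 1229 7 972)))
(cons (mv 1164 (cons (fin 1228 5 972)
(mv 909 (cons (fin 1100 5 908)
(mv 844 (cons (fin 908 7 844)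
(mv 845 (cons (fin 780 7 780)
(mv 846 (cons (fin 782 6 781)
(fin 910 6 845)))))))))))
(mv 972 (cons (fin 1229 7 972)
(mv 1164 (cons (fin 1228 5 972)
(mv 909 (cons (fin 1100 5 908)
(mv 845 (cons (fin 781 5 780)
(mv 846 (cons (fin 782 6 781)
(fin 910 6 845))))))))))))))))))))))))
(cons (mv 1038 (cons (cons (cons (mv 970 (cons (fin 971 3 970)
(mv 974 (cons (fin 975 2 971)
(mv 1098 (cons (fin 1099 1 1034)
(mv 1102 (cons (fin 1103 0 1035)
(mv 910 (cons (mv 1101 (cons (fin 846 5 845)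
(fin 1165 5 909)))
(cons (mv 845 (cons (fin 909 7 845)
(mv 846 (cons (fin 781 7 781)
(mv 847 (cons (fin 783 6 782)
(fin 911 6 846)))))))
(mv 845 (cons (fin 909 7 845)
(mv 847 (cons (fin 911 6 846)
(mv 1165 (cons (fin 1101 5 909)
(mv 1166 (cons (fin 1229 5 973)
(mv 1230 (cons (fin 973 7 973)
(mv 1231 (cons (fin 1167 4 974)
(fin 1295 4 1038))))))))))))))))))))))))
(mv 974 (cons (fin 975 2 971)
(mv 1098 (cons (fin 1099 1 1034)
(mv 1102 (cons (fin 1103 0 1035)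
(mv 910 (cons (mv 1101 (cons (fin 846 5 845)
(fin 1165 5 909)))
(cons (mv 845 (cons (fin 909 7 845)
(mv 846 (cons (fin 781 7 781)
(mv 847 (cons (fin 783 6 782)
(fin 911 6 846)))))))
(mv 845 (cons (fin 909 7 845)
(mv 847 (cons (fin 911 6 846)
(mv 1165 (cons (fin 1101 5 909)
(mv 1166 (cons (fin 1229 5 973)
(mv 1230 (cons (fin 973 7 973)
(mv 1231 (cons (fin 1167 4 974)
(fin 1295 4 1038)))))))))))))))))))))))
(cons (mv 970 (cons (fin 971 3 970)
(mv 1099 (cons (fin 1098 1 1034)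
(mv 1102 (cons (fin 1103 0 1035)
(mv 1166 (cons (cons (mv 973 (cons (fin 1230 7 973)
(mv 909 (cons (fin 845 4 845)
(fin 1101 4 909)))))
(mv 1101 (cons (cons (mv 909 (cons (fin 973 4 909)
(mv 1100 (cons (fin 1167 0 1099)
(mv 1163 (cons (fin 1162 1 1098)
(mv 972 (cons (fin 908 5 907)
(fin 1227 6 971)))))))))
(mv 973 (cons (fin 909 4 909)
(mv 1165 (cons (mv 972 (cons (fin 908 7 908)
(fin 1229 7 972)))
(cons (mv 1228 (cons (fin 1164 5 972)
(mv 1229 (cons (fin 1292 5 1036)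
(fin 1293 6 1037)))))
(mv 972 (cons (fin 908 7 908)
(mv 1163 (cons (fin 1227 6 971)
(mv 1164 (cons (fin 1162 2 1098)
(fin 1228 5 972)))))))))))))
(cons (mv 1100 (cons (fin 1167 0 1099)
(mv 1163 (cons (fin 1162 1 1098)
(mv 972 (cons (fin 908 5 907)
(fin 1227 6 971)))))))
(cons (mv 909 (cons (fin 973 4 909)
(mv 1100 (cons (fin 1167 0 1099)
(mv 1163 (cons (fin 1162 1 1098)
(mv 1227 (cons (fin 1291 6 1035)
(mv 1226 (cons (fin 1290 5 1034)
(mv 1165 (cons (fin 1164 1 1162)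
(mv 1228 (cons (fin 1229 2 1162)
(fin 1292 4 1035)))))))))))))))
(mv 909 (cons (fin 973 4 909)
(mv 1167 (cons (fin 1100 0 1099)
(mv 1168 (cons (fin 1169 3 1101)
(mv 1165 (cons (mv 1229 (cons (fin 1228 1 1164)
(fin 972 7 972)))
(mv 1104 (cons (fin 1105 2 1101)
(mv 976 (cons (fin 1231 5 975)
(mv 911 (cons (fin 975 7 911)
(mv 912 (cons (fin 847 7 847)
(mv 913 (cons (fin 849 6 848)
(fin 977 6 912))))))))))))))))))))))))
(cons (mv 1230 (cons (cons (cons (mv 1101 (cons (fin 1294 7 1037)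
(mv 1100 (cons (fin 1167 0 1099)
(mv 1162 (cons (fin 1163 1 1098)
(mv 1229 (cons (fin 1293 5 1037)
(mv 1165 (cons (fin 972 7 972)
(mv 1228 (cons (fin 1292 5 1036)
(mv 1226 (cons (fin 1227 2 1162)
(mv 1231 (cons (fin 1295 4 1038)
(mv 1232 (cons (fin 1164 3 1164)
(fin 1233 3 1165)))))))))))))))))))
(mv 1229 (cons (fin 1293 5 1037)
(mv 1231 (cons (fin 1295 4 1038)
(mv 1228 (cons (mv 1167 (cons (fin 1227 2 1163)
(fin 1168 2 1164)))
(cons (mv 1163 (cons (fin 1164 3 1163)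
(mv 1227 (cons (fin 1162 3 1162)
(fin 972 6 971)))))
(mv 1163 (cons (fin 1164 3 1163)
(mv 1167 (cons (fin 1168 2 1164)
(mv 1101 (cons (fin 1100 0 1099)
(mv 1165 (cons (fin 972 7 972)
(fin 1292 5 1036)))))))))))))))))
(cons (mv 1229 (cons (fin 1293 5 1037)
(mv 1295 (cons (fin 1231 4 1038)
(mv 1294 (cons (fin 1359 4 1102)
(mv 1227 (cons (fin 1228 0 1227)
(mv 1163 (cons (fin 972 6 971)
(mv 1290 (cons (fin 1226 5 1034)
(mv 1291 (cons (fin 1354 5 1098)
(fin 1100 6 1035)))))))))))))))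
(mv 1101 (cons (fin 1294 7 1037)
(mv 1100 (cons (fin 1167 0 1099)
(mv 1163 (cons (fin 1162 1 1098)
(mv 972 (cons (fin 908 5 907)
(fin 1227 6 971)))))))))))
(cons (cons (mv 1101 (cons (fin 1294 7 1037)
(mv 1100 (cons (fin 1167 0 1099)
(mv 1163 (cons (fin 1162 1 1098)
(mv 1227 (cons (fin 1291 6 1035)
(mv 1226 (cons (fin 1290 5 1034)
(mv 1164 (cons (fin 1165 1 1162)
(mv 1224 (cons (fin 1225 2 1160)
(mv 1228 (cons (fin 1292 7 1035)
(mv 1229 (cons (fin 1231 3 1163)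
(fin 1293 5 1037)))))))))))))))))))
(mv 1101 (cons (fin 1294 7 1037)
(mv 1100 (cons (fin 1167 0 1099)
(mv 1229 (cons (fin 1293 5 1037)
(mv 1165 (cons (fin 972 7 972)
(mv 1228 (cons (fin 1292 5 1036)
(mv 1226 (cons (fin 1227 2 1162)
(mv 1231 (cons (fin 1295 4 1038)
(mv 1232 (cons (fin 1164 3 1164)
(fin 1233 3 1165))))))))))))))))))
(cons (mv 1101 (cons (fin 1294 7 1037)
(mv 1229 (cons (fin 1293 5 1037)
(mv 972 (cons (fin 1165 7 972)
(mv 844 (cons (fin 908 5 843)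
(mv 1227 (cons (fin 1163 6 971)
(mv 1228 (cons (fin 1167 2 1163)
(mv 1231 (cons (fin 1295 4 1038)
(mv 1291 (cons (fin 1290 1 1226)
(fin 1292 1 1227)))))))))))))))))
(mv 1101 (cons (fin 1294 7 1037)
(mv 1100 (cons (fin 1167 0 1099)
(mv 1162 (cons (fin 1163 1 1098)
(mv 1229 (cons (fin 1293 5 1037)
(mv 1165 (cons (fin 972 7 972)
(mv 1228 (cons (fin 1292 5 1036)
(mv 1231 (cons (fin 1295 4 1038)
(mv 1232 (cons (fin 1164 3 1164)
(fin 1233 3 1165)))))))))))))))))))))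
(mv 1230 (cons (fin 973 7 973)
(mv 1229 (cons (fin 1293 5 1037)
(mv 1295 (cons (fin 1231 4 1038)
(mv 1294 (cons (fin 1359 4 1102)
(mv 1227 (cons (fin 1228 0 1227)
(mv 1163 (cons (fin 972 6 971)
(mv 1290 (cons (fin 1226 5 1034)
(mv 1291 (cons (fin 1354 5 1098)
(fin 1100 6 1035))))))))))))))))))))))))))
(cons (mv 971 (cons (fin 970 3 970)
(mv 974 (cons (fin 975 2 971)
(mv 1098 (cons (fin 1099 1 1034)
(mv 907 (cons (cons (mv 843 (cons (fin 1100 4 843)
(mv 778 (cons (fin 842 7 778)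
(mv 779 (cons (fin 714 7 714)
(fin 972 4 779)))))))
(mv 972 (cons (cons (mv 973 (cons (fin 906 3 906)
(mv 910 (cons (fin 911 2 907)
(mv 846 (cons (fin 782 5 781)
(fin 1101 5 845)))))))
(mv 1100 (cons (fin 1164 7 907)
(mv 908 (cons (mv 844 (cons (fin 780 5 779)
(fin 1101 4 844)))
(cons (mv 844 (cons (fin 780 5 779)
(mv 845 (cons (fin 781 6 780)
(fin 909 6 844)))))
(mv 909 (cons (fin 845 6 844)
(mv 910 (cons (fin 911 1 907)
(mv 846 (cons (fin 847 2 843)
(fin 1101 5 845)))))))))))))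
(cons (mv 973 (cons (fin 906 3 906)
(mv 910 (cons (fin 911 2 907)
(mv 846 (cons (fin 782 5 781)
(mv 783 (cons (fin 847 6 782)
(mv 845 (cons (fin 781 7 781)
(mv 1100 (cons (fin 1164 7 907)
(fin 909 5 844)))))))))))))
(mv 906 (cons (fin 973 3 906)
(mv 905 (cons (fin 904 0 904)
(mv 1100 (cons (fin 1164 7 907)
(mv 908 (cons (mv 844 (cons (fin 845 2 841)
(fin 780 5 779)))
(cons (mv 841 (cons (fin 840 3 840)
(mv 909 (cons (fin 842 3 841)
(fin 845 6 844)))))
(mv 844 (cons (fin 780 5 779)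
(fin 1101 4 844))))))))))))))))
(cons (mv 843 (cons (mv 778 (cons (fin 842 7 778)
(mv 779 (cons (fin 714 7 714)
(fin 972 4 779)))))
(cons (mv 778 (cons (fin 842 7 778)
(mv 844 (cons (fin 780 6 779)
(mv 846 (cons (mv 845 (cons (fin 906 1 842)
(mv 910 (cons (fin 911 0 843)
(fin 781 7 781)))))
(cons (mv 910 (cons (fin 1101 5 845)
(mv 782 (cons (fin 973 5 781)
(mv 783 (cons (fin 719 6 718)
(fin 847 6 782)))))))
(mv 845 (cons (fin 906 1 842)
(mv 782 (cons (fin 783 2 779)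
(mv 847 (cons (fin 908 1 843)
(mv 912 (cons (fin 911 0 844)
(mv 848 (cons (fin 913 0 845)
(mv 785 (cons (fin 784 2 781)
(mv 849 (cons (fin 781 3 781)
(fin 786 2 782))))))))))))))))))))))
(mv 779 (cons (fin 972 4 779)
(mv 780 (cons (fin 716 6 715)
(fin 844 6 779))))))))
(cons (mv 843 (cons (fin 1100 4 843)
(mv 778 (cons (fin 842 7 778)
(mv 779 (cons (fin 714 7 714)
(mv 780 (cons (fin 716 6 715)
(fin 844 6 779)))))))))
(mv 843 (cons (fin 1100 4 843)
(mv 779 (cons (fin 972 4 779)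
(mv 780 (cons (fin 716 6 715)
(fin 844 6 779)))))))))))))))))
(mv 970 (cons (fin 971 3 970)
(mv 974 (cons (fin 975 2 971)
(mv 1102 (cons (fin 1103 0 1035)
(mv 910 (cons (mv 1101 (cons (fin 846 5 845)
(fin 1165 5 909)))
(cons (mv 845 (cons (fin 909 7 845)
(mv 846 (cons (fin 781 7 781)
(mv 847 (cons (fin 783 6 782)
(fin 911 6 846)))))))
(mv 845 (cons (fin 909 7 845)
(mv 847 (cons (fin 911 6 846)
(mv 1165 (cons (fin 1101 5 909)
(mv 1166 (cons (fin 1229 5 973)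
(mv 1230 (cons (fin 973 7 973)
(mv 1231 (cons (fin 1167 4 974)
(fin 1295 4 1038)))))))))))))))))))))))))
(cons (cons (mv 970 (cons (fin 971 3 970)
(mv 1099 (cons (fin 1098 1 1034)
(mv 1102 (cons (fin 1103 0 1035)
(mv 973 (cons (cons (mv 909 (cons (fin 845 4 845)
(mv 1166 (cons (fin 974 7 909)
(fin 1230 7 973)))))
(mv 1166 (cons (fin 1230 7 973)
(mv 1167 (cons (cons (mv 974 (cons (fin 1231 4 974)
(mv 1100 (cons (fin 1101 0 1099)
(mv 1164 (cons (fin 1165 3 1099)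
(fin 1228 6 972)))))))
(mv 974 (cons (fin 1231 4 974)
(mv 1165 (cons (fin 1229 5 973)
(mv 910 (cons (fin 1101 5 909)
(mv 846 (cons (fin 782 5 781)
(mv 847 (cons (fin 783 6 782)
(fin 911 6 846))))))))))))
(cons (mv 974 (cons (fin 1231 4 974)
(mv 1165 (cons (fin 1229 5 973)
(mv 1164 (cons (fin 1100 3 1099)
(mv 1227 (cons (fin 1228 1 1163)
(mv 1163 (cons (fin 1226 1 1162)
(fin 972 6 971)))))))))))
(cons (mv 1100 (cons (fin 1101 0 1099)
(mv 1164 (cons (fin 1165 3 1099)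
(fin 1228 6 972)))))
(mv 1101 (cons (fin 1100 0 1099)
(mv 1168 (cons (fin 1169 3 1101)
(mv 1231 (cons (fin 974 4 974)
(mv 1104 (cons (fin 976 5 975)
(mv 1295 (cons (fin 1359 7 1102)
(fin 1232 5 1039))))))))))))))))))
(cons (mv 909 (cons (fin 845 4 845)
(mv 1101 (cons (cons (mv 844 (cons (fin 908 7 844)
(mv 846 (cons (fin 910 6 845)
(mv 1100 (cons (fin 1164 5 908)
(mv 1163 (cons (fin 1162 1 1098)
(mv 1227 (cons (fin 972 6 971)
(fin 1291 6 1035)))))))))))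
(mv 846 (cons (fin 910 6 845)
(mv 1100 (cons (fin 1164 5 908)
(mv 1163 (cons (fin 1162 1 1098)
(mv 1227 (cons (fin 972 6 971)
(fin 1291 6 1035))))))))))
(cons (mv 844 (cons (fin 908 7 844)
(mv 910 (cons (fin 846 6 845)
(mv 974 (cons (fin 1165 5 909)
(mv 911 (cons (fin 847 6 846)
(mv 912 (cons (fin 972 1 908)
(fin 913 1 909)))))))))))
(cons (mv 844 (cons (fin 908 7 844)
(mv 1100 (cons (fin 1164 5 908)
(mv 1163 (cons (fin 1162 1 1098)
(mv 1227 (cons (fin 972 6 971)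
(fin 1291 6 1035)))))))))
(mv 844 (cons (fin 908 7 844)
(mv 846 (cons (fin 910 6 845)
(mv 1164 (cons (fin 1100 5 908)
(mv 1165 (cons (fin 1228 5 972)
(mv 1229 (cons (fin 974 6 973)
(fin 1293 6 1037)))))))))))))))))
(mv 909 (cons (fin 845 4 845)
(mv 1166 (cons (fin 1230 7 973)
(fin 1101 4 909))))))))))))))
(mv 970 (cons (fin 971 3 970)
(mv 974 (cons (fin 975 2 971)
(mv 1098 (cons (fin 1099 1 1034)
(mv 1102 (cons (fin 1103 0 1035)
(mv 910 (cons (mv 1101 (cons (fin 846 5 845)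
(fin 1165 5 909)))
(cons (mv 845 (cons (fin 909 7 845)
(mv 846 (cons (fin 781 7 781)
(mv 847 (cons (fin 783 6 782)
(fin 911 6 846)))))))
(mv 845 (cons (fin 909 7 845)
(mv 847 (cons (fin 911 6 846)
(mv 1166 (cons (cons (mv 1165 (cons (fin 1101 5 909)
(fin 1229 5 973)))
(mv 1231 (cons (fin 1167 4 974)
(mv 1230 (cons (fin 1295 4 1038)
(mv 1293 (cons (fin 1229 5 1037)
(mv 1294 (cons (fin 1101 7 1037)
(fin 1357 5 1101))))))))))
(cons (mv 1229 (cons (fin 1165 5 973)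
(mv 1230 (cons (fin 1293 5 1037)
(mv 1231 (cons (fin 1167 4 974)
(fin 1295 4 1038)))))))
(mv 1101 (cons (fin 1165 5 909)
(mv 1230 (cons (fin 1294 7 1037)
(mv 1231 (cons (fin 1167 4 974)
(fin 1295 4 1038))))))))))))))))))))))))))
(cons (mv 970 (cons (fin 971 3 970)
(mv 974 (cons (fin 975 2 971)
(mv 1098 (cons (fin 1099 1 1034)
(mv 1102 (cons (fin 1103 0 1035)
(mv 1166 (cons (mv 973 (cons (fin 909 7 909)
(fin 1230 7 973)))
(cons (mv 1229 (cons (fin 1165 5 973)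
(mv 1230 (cons (fin 1293 5 1037)
(mv 1231 (cons (fin 1167 4 974)
(fin 1295 4 1038)))))))
(mv 1165 (cons (fin 1229 5 973)
(mv 1167 (cons (fin 1231 4 974)
(mv 910 (cons (cons (mv 909 (cons (fin 845 7 845)
(fin 973 7 909)))
(mv 847 (cons (fin 911 6 846)
(mv 846 (cons (fin 783 6 782)
(mv 781 (cons (fin 845 7 781)
(mv 782 (cons (fin 717 7 717)
(fin 973 5 781))))))))))
(cons (mv 845 (cons (fin 909 7 845)
(mv 846 (cons (fin 781 7 781)
(mv 847 (cons (fin 783 6 782)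
(fin 911 6 846)))))))
(mv 847 (cons (fin 911 6 846)
(mv 846 (cons (fin 783 6 782)
(mv 973 (cons (fin 909 7 909)
(fin 782 5 781)))))))))))))))))))))))))
(cons (mv 970 (cons (fin 971 3 970)
(mv 974 (cons (fin 975 2 971)
(mv 1098 (cons (fin 1099 1 1034)
(mv 1102 (cons (fin 1103 0 1035)
(mv 910 (cons (mv 1101 (cons (fin 846 5 845)
(fin 1165 5 909)))
(cons (mv 847 (cons (fin 911 6 846)
(mv 846 (cons (fin 783 6 782)
(mv 781 (cons (fin 845 7 781)
(mv 782 (cons (fin 717 7 717)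
(fin 973 5 781)))))))))
(mv 847 (cons (fin 911 6 846)
(mv 1165 (cons (fin 1101 5 909)
(mv 1166 (cons (fin 1229 5 973)
(mv 1230 (cons (fin 973 7 973)
(mv 1231 (cons (fin 1167 4 974)
(fin 1295 4 1038))))))))))))))))))))))
(mv 970 (cons (fin 971 3 970)
(mv 974 (cons (fin 975 2 971)
(mv 1098 (cons (fin 1099 1 1034)
(mv 1102 (cons (fin 1103 0 1035)
(mv 1166 (cons (mv 973 (cons (fin 909 7 909)
(fin 1230 7 973)))
(mv 1165 (cons (fin 1229 5 973)
(mv 1101 (cons (fin 910 5 909)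
(mv 1167 (cons (fin 1231 4 974)
(mv 1168 (cons (fin 1100 3 1100)
(fin 1169 3 1101))))))))))))))))))))))))
(cons (mv 1038 (cons (cons (mv 974 (cons (fin 975 2 971)
(mv 973 (cons (fin 1034 2 970)
(mv 1098 (cons (fin 1099 1 1034)
(mv 1102 (cons (fin 1103 0 1035)
(mv 909 (cons (fin 1166 7 909)
(fin 845 4 845)))))))))))
(cons (mv 1098 (cons (fin 1099 1 1034)
(mv 1102 (cons (fin 1103 0 1035)
(mv 1101 (cons (fin 1034 0 1034)
(mv 973 (cons (mv 909 (cons (fin 845 4 845)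
(fin 1166 4 909)))
(cons (mv 1166 (cons (fin 1230 7 973)
(mv 1165 (cons (mv 972 (cons (fin 908 7 908)
(fin 1229 7 972)))
(cons (mv 972 (cons (fin 908 7 908)
(mv 1164 (cons (fin 1228 5 972)
(mv 1163 (cons (fin 1162 2 1098)
(mv 1227 (cons (fin 1226 1 1162)
(fin 1100 5 971)))))))))
(mv 1228 (cons (fin 1164 5 972)
(mv 1229 (cons (fin 1292 5 1036)
(fin 1293 6 1037))))))))))
(mv 909 (cons (fin 845 4 845)
(mv 844 (cons (fin 908 7 844)
(mv 846 (cons (fin 910 6 845)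
(mv 1164 (cons (fin 1100 5 908)
(mv 1165 (cons (fin 1228 5 972)
(mv 1229 (cons (fin 972 7 972)
(fin 1293 6 1037))))))))))))))))))))))
(mv 974 (cons (fin 975 2 971)
(mv 973 (cons (fin 1034 2 970)
(mv 1098 (cons (fin 1099 1 1034)
(mv 1101 (cons (mv 910 (cons (fin 846 5 845)
(fin 1165 6 909)))
(cons (mv 846 (cons (fin 910 5 845)
(mv 909 (cons (mv 845 (cons (fin 1100 5 844)
(fin 782 6 781)))
(cons (mv 908 (cons (fin 844 7 844)
(mv 907 (cons (fin 906 0 906)
(mv 1100 (cons (fin 1164 5 908)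
(mv 843 (cons (fin 972 7 843)
(fin 971 4 843)))))))))
(mv 845 (cons (fin 782 6 781)
(fin 781 4 781))))))))
(mv 1165 (cons (fin 1229 6 973)
(mv 908 (cons (fin 972 7 908)
(mv 909 (cons (fin 844 7 844)
(mv 845 (cons (fin 1100 5 844)
(fin 781 4 781))))))))))))))))))))
(cons (mv 974 (cons (fin 975 2 971)
(mv 973 (cons (fin 1034 2 970)
(mv 1102 (cons (fin 1103 0 1035)
(mv 909 (cons (fin 1166 7 909)
(fin 845 4 845)))))))))
(cons (mv 974 (cons (fin 975 2 971)
(mv 1098 (cons (fin 1099 1 1034)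
(mv 1102 (cons (fin 1103 0 1035)
(mv 910 (cons (mv 1101 (cons (fin 846 5 845)
(fin 1165 5 909)))
(cons (mv 845 (cons (fin 909 7 845)
(mv 846 (cons (fin 781 7 781)
(mv 847 (cons (fin 783 6 782)
(fin 911 6 846)))))))
(mv 845 (cons (fin 909 7 845)
(mv 847 (cons (fin 911 6 846)
(mv 1165 (cons (fin 1101 5 909)
(mv 1166 (cons (fin 1229 5 973)
(mv 1230 (cons (fin 973 7 973)
(mv 1231 (cons (fin 1167 4 974)
(fin 1295 4 1038))))))))))))))))))))))
(mv 974 (cons (fin 975 2 971)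
(mv 1098 (cons (fin 1099 1 1034)
(mv 1102 (cons (fin 1103 0 1035)
(mv 1101 (cons (fin 1034 0 1034)
(mv 910 (cons (fin 846 5 845)
(fin 1165 5 909)))))))))))))))
(mv 1038 (cons (cons (mv 970 (cons (fin 971 3 970)
(mv 1034 (cons (fin 969 3 969)
(mv 1102 (cons (fin 1101 0 1034)
(fin 1103 0 1035)))))))
(mv 970 (cons (fin 971 3 970)
(mv 1034 (cons (fin 969 3 969)
(mv 1099 (cons (fin 1098 1 1034)
(mv 842 (cons (fin 906 4 842)
(mv 1163 (cons (fin 1227 7 970)
(mv 1100 (cons (mv 1033 (cons (fin 1032 0 1032)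
(fin 1101 0 1033)))
(cons (mv 972 (cons (fin 908 5 907)
(mv 1164 (cons (mv 973 (cons (fin 909 6 908)
(fin 1228 6 972)))
(cons (mv 973 (cons (fin 909 6 908)
(mv 1165 (cons (fin 1229 4 972)
(mv 1166 (cons (fin 1167 3 1099)
(mv 1230 (cons (fin 1231 0 1163)
(fin 1101 4 973)))))))))
(mv 1228 (cons (fin 1292 7 1035)
(mv 1229 (cons (fin 1165 4 972)
(fin 1293 4 1036))))))))))
(mv 972 (cons (fin 908 5 907)
(mv 1033 (cons (fin 973 2 969)
(fin 1032 0 1032)))))))))))))))))))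
(cons (mv 1098 (cons (fin 1099 1 1034)
(mv 1102 (cons (fin 1103 0 1035)
(mv 1101 (cons (fin 1034 0 1034)
(mv 973 (cons (mv 909 (cons (fin 845 4 845)
(fin 1166 4 909)))
(cons (mv 1166 (cons (fin 1230 7 973)
(mv 1165 (cons (mv 972 (cons (fin 908 7 908)
(fin 1229 7 972)))
(cons (mv 972 (cons (fin 908 7 908)
(mv 1164 (cons (fin 1228 5 972)
(mv 1163 (cons (fin 1162 2 1098)
(mv 1227 (cons (fin 1226 1 1162)
(fin 1100 5 971)))))))))
(mv 1228 (cons (fin 1164 5 972)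
(mv 1229 (cons (fin 1292 5 1036)
(fin 1293 6 1037))))))))))
(mv 909 (cons (fin 845 4 845)
(mv 844 (cons (fin 908 7 844)
(mv 846 (cons (fin 910 6 845)
(mv 1164 (cons (fin 1100 5 908)
(mv 1165 (cons (fin 1228 5 972)
(mv 1229 (cons (fin 972 7 972)
(fin 1293 6 1037))))))))))))))))))))))
(cons (mv 970 (cons (fin 971 3 970)
(mv 1099 (cons (fin 1098 1 1034)
(mv 1102 (cons (fin 1103 0 1035)
(mv 1166 (cons (cons (mv 973 (cons (fin 1230 7 973)
(mv 909 (cons (fin 845 4 845)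
(fin 1101 4 909)))))
(mv 1101 (cons (cons (mv 909 (cons (fin 973 4 909)
(mv 1100 (cons (fin 1167 0 1099)
(mv 1163 (cons (fin 1162 1 1098)
(mv 972 (cons (fin 908 5 907)
(fin 1227 6 971)))))))))
(mv 973 (cons (fin 909 4 909)
(mv 1165 (cons (mv 972 (cons (fin 908 7 908)
(fin 1229 7 972)))
(cons (mv 1228 (cons (fin 1164 5 972)
(mv 1229 (cons (fin 1292 5 1036)
(fin 1293 6 1037)))))
(mv 972 (cons (fin 908 7 908)
(mv 1163 (cons (fin 1227 6 971)
(mv 1164 (cons (fin 1162 2 1098)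
(fin 1228 5 972)))))))))))))
(cons (mv 1100 (cons (fin 1167 0 1099)
(mv 1163 (cons (fin 1162 1 1098)
(mv 972 (cons (fin 908 5 907)
(fin 1227 6 971)))))))
(cons (mv 909 (cons (fin 973 4 909)
(mv 1100 (cons (fin 1167 0 1099)
(mv 1163 (cons (fin 1162 1 1098)
(mv 1227 (cons (fin 1291 6 1035)
(mv 1226 (cons (fin 1290 5 1034)
(mv 1165 (cons (fin 1164 1 1162)
(mv 1228 (cons (fin 1229 2 1162)
(fin 1292 4 1035)))))))))))))))
(mv 909 (cons (fin 973 4 909)
(mv 1167 (cons (fin 1100 0 1099)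
(mv 1168 (cons (fin 1169 3 1101)
(mv 1165 (cons (mv 1229 (cons (fin 1228 1 1164)
(fin 972 7 972)))
(mv 1104 (cons (fin 1105 2 1101)
(mv 976 (cons (fin 1231 5 975)
(mv 911 (cons (fin 975 7 911)
(mv 912 (cons (fin 847 7 847)
(mv 913 (cons (fin 849 6 848)
(fin 977 6 912))))))))))))))))))))))))
(cons (mv 1230 (cons (cons (cons (mv 1101 (cons (fin 1294 7 1037)
(mv 1100 (cons (fin 1167 0 1099)
(mv 1162 (cons (fin 1163 1 1098)
(mv 1229 (cons (fin 1293 5 1037)
(mv 1165 (cons (fin 972 7 972)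
(mv 1228 (cons (fin 1292 5 1036)
(mv 1226 (cons (fin 1227 2 1162)
(mv 1231 (cons (fin 1295 4 1038)
(mv 1232 (cons (fin 1164 3 1164)
(fin 1233 3 1165)))))))))))))))))))
(mv 1229 (cons (fin 1293 5 1037)
(mv 1231 (cons (fin 1295 4 1038)
(mv 1228 (cons (mv 1167 (cons (fin 1227 2 1163)
(fin 1168 2 1164)))
(cons (mv 1163 (cons (fin 1164 3 1163)
(mv 1227 (cons (fin 1162 3 1162)
(fin 972 6 971)))))
(mv 1163 (cons (fin 1164 3 1163)
(mv 1167 (cons (fin 1168 2 1164)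
(mv 1101 (cons (fin 1100 0 1099)
(mv 1165 (cons (fin 972 7 972)
(fin 1292 5 1036)))))))))))))))))
(cons (mv 1229 (cons (fin 1293 5 1037)
(mv 1295 (cons (fin 1231 4 1038)
(mv 1294 (cons (fin 1359 4 1102)
(mv 1227 (cons (fin 1228 0 1227)
(mv 1163 (cons (fin 972 6 971)
(mv 1290 (cons (fin 1226 5 1034)
(mv 1291 (cons (fin 1354 5 1098)
(fin 1100 6 1035)))))))))))))))
(mv 1101 (cons (fin 1294 7 1037)
(mv 1100 (cons (fin 1167 0 1099)
(mv 1163 (cons (fin 1162 1 1098)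
(mv 972 (cons (fin 908 5 907)
(fin 1227 6 971)))))))))))
(cons (cons (mv 1101 (cons (fin 1294 7 1037)
(mv 1100 (cons (fin 1167 0 1099)
(mv 1163 (cons (fin 1162 1 1098)
(mv 1227 (cons (fin 1291 6 1035)
(mv 1226 (cons (fin 1290 5 1034)
(mv 1164 (cons (fin 1165 1 1162)
(mv 1224 (cons (fin 1225 2 1160)
(mv 1228 (cons (fin 1292 7 1035)
(mv 1229 (cons (fin 1231 3 1163)
(fin 1293 5 1037)))))))))))))))))))
(mv 1101 (cons (fin 1294 7 1037)
(mv 1100 (cons (fin 1167 0 1099)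
(mv 1229 (cons (fin 1293 5 1037)
(mv 1165 (cons (fin 972 7 972)
(mv 1228 (cons (fin 1292 5 1036)
(mv 1226 (cons (fin 1227 2 1162)
(mv 1231 (cons (fin 1295 4 1038)
(mv 1232 (cons (fin 1164 3 1164)
(fin 1233 3 1165))))))))))))))))))
(cons (mv 1101 (cons (fin 1294 7 1037)
(mv 1229 (cons (fin 1293 5 1037)
(mv 972 (cons (fin 1165 7 972)
(mv 844 (cons (fin 908 5 843)
(mv 1227 (cons (fin 1163 6 971)
(mv 1228 (cons (fin 1167 2 1163)
(mv 1231 (cons (fin 1295 4 1038)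
(mv 1291 (cons (fin 1290 1 1226)
(fin 1292 1 1227)))))))))))))))))
(mv 1101 (cons (fin 1294 7 1037)
(mv 1100 (cons (fin 1167 0 1099)
(mv 1162 (cons (fin 1163 1 1098)
(mv 1229 (cons (fin 1293 5 1037)
(mv 1165 (cons (fin 972 7 972)
(mv 1228 (cons (fin 1292 5 1036)
(mv 1231 (cons (fin 1295 4 1038)
(mv 1232 (cons (fin 1164 3 1164)
(fin 1233 3 1165)))))))))))))))))))))
(mv 1230 (cons (fin 973 7 973)
(mv 1229 (cons (fin 1293 5 1037)
(mv 1295 (cons (fin 1231 4 1038)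
(mv 1294 (cons (fin 1359 4 1102)
(mv 1227 (cons (fin 1228 0 1227)
(mv 1163 (cons (fin 972 6 971)
(mv 1290 (cons (fin 1226 5 1034)
(mv 1291 (cons (fin 1354 5 1098)
(fin 1100 6 1035))))))))))))))))))))))))))
(mv 970 (cons (fin 971 3 970)
(mv 1034 (cons (fin 969 3 969)
(mv 1099 (cons (fin 1098 1 1034)
(mv 842 (cons (fin 906 4 842)
(mv 1102 (cons (fin 1103 0 1035)
(mv 1163 (cons (fin 1227 7 970)
(mv 972 (cons (mv 908 (cons (fin 844 5 843)
(fin 1100 5 907)))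
(cons (mv 1033 (cons (fin 973 2 969)
(mv 1032 (cons (fin 1100 0 1032)
(mv 967 (cons (fin 968 3 967)
(mv 1031 (cons (fin 966 3 966)
(mv 1095 (cons (fin 1094 1 1030)
(fin 1096 1 1031)))))))))))
(mv 844 (cons (fin 908 5 843)
(mv 973 (cons (fin 1033 2 969)
(mv 845 (cons (fin 909 4 845)
(mv 843 (cons (cons (mv 777 (cons (fin 778 3 777)
(mv 781 (cons (fin 782 2 778)
(mv 841 (cons (fin 776 3 776)
(fin 780 2 777)))))))
(mv 781 (cons (fin 782 2 778)
(mv 841 (cons (fin 780 2 777)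
(mv 840 (cons (mv 776 (cons (fin 775 3 775)
(fin 777 3 776)))
(mv 904 (cons (fin 903 1 839)
(fin 905 1 840))))))))))
(cons (mv 778 (cons (fin 777 3 777)
(mv 846 (cons (fin 779 3 778)
(mv 847 (cons (mv 783 (cons (fin 782 2 779)
(fin 784 2 780)))
(mv 911 (cons (fin 910 0 843)
(fin 912 0 844)))))))))
(cons (mv 782 (cons (fin 781 2 778)
(mv 846 (cons (fin 783 2 779)
(mv 847 (cons (mv 779 (cons (fin 778 3 778)
(fin 780 3 779)))
(mv 911 (cons (fin 910 0 843)
(fin 912 0 844)))))))))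
(mv 777 (cons (fin 778 3 777)
(mv 841 (cons (fin 776 3 776)
(mv 840 (cons (mv 780 (cons (fin 779 2 776)
(fin 781 2 777)))
(mv 904 (cons (fin 903 1 839)
(fin 905 1 840)))))))))))))))))))))))))))))))))))))))))
(cons (cons (mv 1038 (cons (cons (mv 970 (cons (fin 971 3 970)
(mv 974 (cons (fin 975 2 971)
(mv 1034 (cons (fin 969 3 969)
(fin 973 2 970)))))))
(cons (mv 970 (cons (fin 971 3 970)
(mv 1034 (cons (fin 969 3 969)
(mv 1099 (cons (fin 1098 1 1034)
(mv 842 (cons (fin 906 4 842)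
(mv 1163 (cons (fin 1227 7 970)
(mv 1100 (cons (mv 1033 (cons (fin 1032 0 1032)
(fin 1101 0 1033)))
(cons (mv 972 (cons (fin 908 5 907)
(mv 1164 (cons (mv 973 (cons (fin 909 6 908)
(fin 1228 6 972)))
(cons (mv 973 (cons (fin 909 6 908)
(mv 1165 (cons (fin 1229 4 972)
(mv 1166 (cons (fin 1167 3 1099)
(mv 1230 (cons (fin 1231 0 1163)
(fin 1101 4 973)))))))))
(mv 1228 (cons (fin 1292 7 1035)
(mv 1229 (cons (fin 1165 4 972)
(fin 1293 4 1036))))))))))
(mv 972 (cons (fin 908 5 907)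
(mv 1033 (cons (fin 973 2 969)
(fin 1032 0 1032))))))))))))))))))
(mv 974 (cons (fin 975 2 971)
(mv 973 (cons (fin 1034 2 970)
(mv 1098 (cons (fin 1099 1 1034)
(mv 1101 (cons (mv 910 (cons (fin 846 5 845)
(fin 1165 6 909)))
(cons (mv 846 (cons (fin 910 5 845)
(mv 909 (cons (mv 845 (cons (fin 1100 5 844)
(fin 782 6 781)))
(cons (mv 908 (cons (fin 844 7 844)
(mv 907 (cons (fin 906 0 906)
(mv 1100 (cons (fin 1164 5 908)
(mv 843 (cons (fin 972 7 843)
(fin 971 4 843)))))))))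
(mv 845 (cons (fin 782 6 781)
(fin 781 4 781))))))))
(mv 1165 (cons (fin 1229 6 973)
(mv 908 (cons (fin 972 7 908)
(mv 909 (cons (fin 844 7 844)
(mv 845 (cons (fin 1100 5 844)
(fin 781 4 781))))))))))))))))))))
(cons (mv 974 (cons (fin 975 2 971)
(mv 1034 (cons (fin 973 2 970)
(mv 969 (cons (fin 970 3 969)
(mv 1033 (cons (fin 968 3 968)
(mv 1099 (cons (fin 1098 1 1034)
(mv 1100 (cons (fin 1032 0 1032)
(fin 1101 0 1033)))))))))))))
(cons (mv 971 (cons (fin 970 3 970)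
(mv 974 (cons (fin 975 2 971)
(mv 1098 (cons (fin 1099 1 1034)
(mv 907 (cons (cons (mv 843 (cons (fin 1100 4 843)
(mv 778 (cons (fin 842 7 778)
(mv 779 (cons (fin 714 7 714)
(fin 972 4 779)))))))
(mv 972 (cons (cons (mv 973 (cons (fin 906 3 906)
(mv 910 (cons (fin 911 2 907)
(mv 846 (cons (fin 782 5 781)
(fin 1101 5 845)))))))
(mv 1100 (cons (fin 1164 7 907)
(mv 908 (cons (mv 844 (cons (fin 780 5 779)
(fin 1101 4 844)))
(cons (mv 844 (cons (fin 780 5 779)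
(mv 845 (cons (fin 781 6 780)
(fin 909 6 844)))))
(mv 909 (cons (fin 845 6 844)
(mv 910 (cons (fin 911 1 907)
(mv 846 (cons (fin 847 2 843)
(fin 1101 5 845)))))))))))))
(cons (mv 973 (cons (fin 906 3 906)
(mv 910 (cons (fin 911 2 907)
(mv 846 (cons (fin 782 5 781)
(mv 783 (cons (fin 847 6 782)
(mv 845 (cons (fin 781 7 781)
(mv 1100 (cons (fin 1164 7 907)
(fin 909 5 844)))))))))))))
(mv 906 (cons (fin 973 3 906)
(mv 905 (cons (fin 904 0 904)
(mv 1100 (cons (fin 1164 7 907)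
(mv 908 (cons (mv 844 (cons (fin 845 2 841)
(fin 780 5 779)))
(cons (mv 841 (cons (fin 840 3 840)
(mv 909 (cons (fin 842 3 841)
(fin 845 6 844)))))
(mv 844 (cons (fin 780 5 779)
(fin 1101 4 844))))))))))))))))
(cons (mv 843 (cons (mv 778 (cons (fin 842 7 778)
(mv 779 (cons (fin 714 7 714)
(fin 972 4 779)))))
(cons (mv 778 (cons (fin 842 7 778)
(mv 844 (cons (fin 780 6 779)
(mv 846 (cons (mv 845 (cons (fin 906 1 842)
(mv 910 (cons (fin 911 0 843)
(fin 781 7 781)))))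
(cons (mv 910 (cons (fin 1101 5 845)
(mv 782 (cons (fin 973 5 781)
(mv 783 (cons (fin 719 6 718)
(fin 847 6 782)))))))
(mv 845 (cons (fin 906 1 842)
(mv 782 (cons (fin 783 2 779)
(mv 847 (cons (fin 908 1 843)
(mv 912 (cons (fin 911 0 844)
(mv 848 (cons (fin 913 0 845)
(mv 785 (cons (fin 784 2 781)
(mv 849 (cons (fin 781 3 781)
(fin 786 2 782))))))))))))))))))))))
(mv 779 (cons (fin 972 4 779)
(mv 780 (cons (fin 716 6 715)
(fin 844 6 779))))))))
(cons (mv 843 (cons (fin 1100 4 843)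
(mv 778 (cons (fin 842 7 778)
(mv 779 (cons (fin 714 7 714)
(mv 780 (cons (fin 716 6 715)
(fin 844 6 779)))))))))
(mv 843 (cons (fin 1100 4 843)
(mv 779 (cons (fin 972 4 779)
(mv 780 (cons (fin 716 6 715)
(fin 844 6 779)))))))))))))))))
(mv 971 (cons (fin 970 3 970)
(mv 974 (cons (fin 975 2 971)
(mv 1099 (cons (fin 1098 1 1034)
(mv 907 (cons (cons (mv 1100 (cons (fin 843 4 843)
(fin 1164 4 907)))
(mv 842 (cons (fin 906 7 842)
(mv 778 (cons (fin 843 7 778)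
(mv 908 (cons (fin 844 6 843)
(mv 1163 (cons (fin 972 6 907)
(mv 1226 (cons (fin 1162 5 970)
(mv 1227 (cons (fin 1290 5 1034)
(mv 1228 (cons (fin 1164 4 971)
(fin 1292 4 1035))))))))))))))))
(cons (mv 842 (cons (fin 906 7 842)
(mv 844 (cons (fin 908 6 843)
(mv 1164 (cons (fin 1100 4 907)
(mv 1163 (cons (fin 1228 4 971)
(mv 1226 (cons (fin 1162 5 970)
(mv 1227 (cons (fin 1290 5 1034)
(fin 972 6 971)))))))))))))
(mv 842 (cons (fin 906 7 842)
(mv 843 (cons (fin 778 7 778)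
(fin 1100 4 843))))))))))))))))))
(cons (mv 1038 (cons (cons (mv 970 (cons (fin 971 3 970)
(mv 974 (cons (fin 975 2 971)
(mv 1034 (cons (fin 969 3 969)
(mv 1102 (cons (fin 1101 0 1034)
(fin 1103 0 1035)))))))))
(mv 971 (cons (fin 970 3 970)
(mv 974 (cons (fin 975 2 971)
(mv 1099 (cons (fin 1098 1 1034)
(mv 907 (cons (cons (mv 1100 (cons (fin 843 4 843)
(fin 1164 4 907)))
(mv 842 (cons (fin 906 7 842)
(mv 778 (cons (fin 843 7 778)
(mv 908 (cons (fin 844 6 843)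
(mv 1163 (cons (fin 972 6 907)
(mv 1226 (cons (fin 1162 5 970)
(mv 1227 (cons (fin 1290 5 1034)
(mv 1228 (cons (fin 1164 4 971)
(fin 1292 4 1035))))))))))))))))
(cons (mv 842 (cons (fin 906 7 842)
(mv 844 (cons (fin 908 6 843)
(mv 1164 (cons (fin 1100 4 907)
(mv 1163 (cons (fin 1228 4 971)
(mv 1226 (cons (fin 1162 5 970)
(mv 1227 (cons (fin 1290 5 1034)
(fin 972 6 971)))))))))))))
(mv 842 (cons (fin 906 7 842)
(mv 843 (cons (fin 778 7 778)
(fin 1100 4 843)))))))))))))))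
(cons (mv 974 (cons (fin 975 2 971)
(mv 1098 (cons (fin 1099 1 1034)
(mv 1102 (cons (fin 1103 0 1035)
(mv 1101 (cons (fin 1034 0 1034)
(mv 910 (cons (fin 846 5 845)
(fin 1165 5 909)))))))))))
(mv 970 (cons (fin 971 3 970)
(mv 1034 (cons (fin 969 3 969)
(mv 1102 (cons (fin 1101 0 1034)
(fin 1103 0 1035))))))))))
(mv 1038 (cons (cons (mv 970 (cons (fin 971 3 970)
(mv 974 (cons (fin 975 2 971)
(mv 1034 (cons (fin 969 3 969)
(fin 973 2 970)))))))
(mv 970 (cons (fin 971 3 970)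
(mv 1034 (cons (fin 969 3 969)
(mv 1099 (cons (fin 1098 1 1034)
(mv 842 (cons (fin 906 4 842)
(mv 1102 (cons (fin 1103 0 1035)
(mv 1163 (cons (fin 1227 7 970)
(mv 972 (cons (mv 908 (cons (fin 844 5 843)
(fin 1100 5 907)))
(cons (mv 1033 (cons (fin 973 2 969)
(mv 1032 (cons (fin 1100 0 1032)
(mv 967 (cons (fin 968 3 967)
(mv 1031 (cons (fin 966 3 966)
(mv 1095 (cons (fin 1094 1 1030)
(fin 1096 1 1031)))))))))))
(mv 844 (cons (fin 908 5 843)
(mv 973 (cons (fin 1033 2 969)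
(mv 845 (cons (fin 909 4 845)
(mv 843 (cons (cons (mv 777 (cons (fin 778 3 777)
(mv 781 (cons (fin 782 2 778)
(mv 841 (cons (fin 776 3 776)
(fin 780 2 777)))))))
(mv 781 (cons (fin 782 2 778)
(mv 841 (cons (fin 780 2 777)
(mv 840 (cons (mv 776 (cons (fin 775 3 775)
(fin 777 3 776)))
(mv 904 (cons (fin 903 1 839)
(fin 905 1 840))))))))))
(cons (mv 778 (cons (fin 777 3 777)
(mv 846 (cons (fin 779 3 778)
(mv 847 (cons (mv 783 (cons (fin 782 2 779)
(fin 784 2 780)))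
(mv 911 (cons (fin 910 0 843)
(fin 912 0 844)))))))))
(cons (mv 782 (cons (fin 781 2 778)
(mv 846 (cons (fin 783 2 779)
(mv 847 (cons (mv 779 (cons (fin 778 3 778)
(fin 780 3 779)))
(mv 911 (cons (fin 910 0 843)
(fin 912 0 844)))))))))
(mv 777 (cons (fin 778 3 777)
(mv 841 (cons (fin 776 3 776)
(mv 840 (cons (mv 780 (cons (fin 779 2 776)
(fin 781 2 777)))
(mv 904 (cons (fin 903 1 839)
(fin 905 1 840)))))))))))))))))))))))))))))))))))
(cons (mv 974 (cons (fin 975 2 971)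
(mv 973 (cons (fin 1034 2 970)
(mv 1098 (cons (fin 1099 1 1034)
(mv 1102 (cons (fin 1103 0 1035)
(mv 909 (cons (fin 1166 7 909)
(fin 845 4 845)))))))))))
(cons (mv 970 (cons (fin 971 3 970)
(mv 974 (cons (fin 975 2 971)
(mv 1098 (cons (fin 1099 1 1034)
(mv 1102 (cons (fin 1103 0 1035)
(mv 1166 (cons (mv 973 (cons (fin 909 7 909)
(fin 1230 7 973)))
(cons (mv 1229 (cons (fin 1165 5 973)
(mv 1230 (cons (fin 1293 5 1037)
(mv 1231 (cons (fin 1167 4 974)
(fin 1295 4 1038)))))))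
(mv 1165 (cons (fin 1229 5 973)
(mv 1167 (cons (fin 1231 4 974)
(mv 910 (cons (cons (mv 909 (cons (fin 845 7 845)
(fin 973 7 909)))
(mv 847 (cons (fin 911 6 846)
(mv 846 (cons (fin 783 6 782)
(mv 781 (cons (fin 845 7 781)
(mv 782 (cons (fin 717 7 717)
(fin 973 5 781))))))))))
(cons (mv 845 (cons (fin 909 7 845)
(mv 846 (cons (fin 781 7 781)
(mv 847 (cons (fin 783 6 782)
(fin 911 6 846)))))))
(mv 847 (cons (fin 911 6 846)
(mv 846 (cons (fin 783 6 782)
(mv 973 (cons (fin 909 7 909)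
(fin 782 5 781)))))))))))))))))))))))))
(mv 971 (cons (fin 970 3 970)
(mv 974 (cons (fin 975 2 971)
(mv 1099 (cons (fin 1098 1 1034)
(mv 1102 (cons (fin 1103 0 1035)
(mv 907 (cons (cons (mv 1100 (cons (fin 843 4 843)
(fin 1164 4 907)))
(mv 842 (cons (fin 906 7 842)
(mv 778 (cons (fin 843 7 778)
(mv 908 (cons (fin 844 6 843)
(mv 1163 (cons (fin 972 6 907)
(mv 1226 (cons (fin 1162 5 970)
(mv 1227 (cons (fin 1290 5 1034)
(mv 1228 (cons (fin 1164 4 971)
(fin 1292 4 1035))))))))))))))))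
(cons (mv 842 (cons (fin 906 7 842)
(mv 844 (cons (fin 908 6 843)
(mv 1164 (cons (fin 1100 4 907)
(mv 1163 (cons (fin 1228 4 971)
(mv 1226 (cons (fin 1162 5 970)
(mv 1227 (cons (fin 1290 5 1034)
(fin 972 6 971)))))))))))))
(mv 842 (cons (fin 906 7 842)
(mv 843 (cons (fin 778 7 778)
(fin 1100 4 843))))))))))))))))))))))
(cons (mv 1038 (cons (cons (mv 970 (cons (fin 971 3 970)
(mv 974 (cons (fin 975 2 971)
(mv 1034 (cons (fin 969 3 969)
(fin 973 2 970)))))))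
(mv 970 (cons (fin 971 3 970)
(mv 1034 (cons (fin 969 3 969)
(mv 1102 (cons (fin 1101 0 1034)
(fin 1103 0 1035))))))))
(cons (mv 974 (cons (fin 975 2 971)
(mv 973 (cons (fin 1034 2 970)
(mv 1098 (cons (fin 1099 1 1034)
(mv 1102 (cons (fin 1103 0 1035)
(mv 909 (cons (fin 1166 7 909)
(fin 845 4 845)))))))))))
(mv 970 (cons (fin 971 3 970)
(mv 974 (cons (fin 975 2 971)
(mv 1098 (cons (fin 1099 1 1034)
(mv 1102 (cons (fin 1103 0 1035)
(mv 1166 (cons (mv 973 (cons (fin 909 7 909)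
(fin 1230 7 973)))
(cons (mv 1231 (cons (fin 1167 4 974)
(mv 1230 (cons (fin 1295 4 1038)
(mv 1293 (cons (fin 1229 5 1037)
(mv 1294 (cons (fin 1101 7 1037)
(fin 1357 5 1101)))))))))
(mv 909 (cons (fin 973 7 909)
(mv 910 (cons (fin 845 7 845)
(mv 846 (cons (fin 1101 5 845)
(mv 847 (cons (fin 783 6 782)
(fin 911 6 846)))))))))))))))))))))))
(cons (mv 1038 (cons (cons (mv 970 (cons (fin 971 3 970)
(mv 974 (cons (fin 975 2 971)
(mv 1034 (cons (fin 969 3 969)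
(fin 973 2 970)))))))
(mv 970 (cons (fin 971 3 970)
(mv 1034 (cons (fin 969 3 969)
(mv 1102 (cons (fin 1101 0 1034)
(fin 1103 0 1035))))))))
(cons (mv 974 (cons (fin 975 2 971)
(mv 973 (cons (fin 1034 2 970)
(mv 1098 (cons (fin 1099 1 1034)
(mv 1102 (cons (fin 1103 0 1035)
(mv 909 (cons (fin 1166 7 909)
(fin 845 4 845)))))))))))
(mv 970 (cons (fin 971 3 970)
(mv 974 (cons (fin 975 2 971)
(mv 1098 (cons (fin 1099 1 1034)
(mv 1102 (cons (fin 1103 0 1035)
(mv 1166 (cons (mv 973 (cons (fin 909 7 909)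
(fin 1230 7 973)))
(mv 1165 (cons (fin 1229 5 973)
(mv 1101 (cons (fin 910 5 909)
(mv 1167 (cons (fin 1231 4 974)
(mv 1168 (cons (fin 1100 3 1100)
(fin 1169 3 1101))))))))))))))))))))))
(mv 1038 (cons (cons (mv 970 (cons (fin 971 3 970)
(mv 974 (cons (fin 975 2 971)
(mv 1034 (cons (fin 969 3 969)
(fin 973 2 970)))))))
(mv 970 (cons (fin 971 3 970)
(mv 1034 (cons (fin 969 3 969)
(mv 1102 (cons (fin 1101 0 1034)
(fin 1103 0 1035))))))))
(cons (mv 974 (cons (fin 975 2 971)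
(mv 973 (cons (fin 1034 2 970)
(mv 1098 (cons (fin 1099 1 1034)
(mv 1102 (cons (fin 1103 0 1035)
(mv 909 (cons (fin 1166 7 909)
(fin 845 4 845)))))))))))
(mv 970 (cons (fin 971 3 970)
(mv 974 (cons (fin 975 2 971)
(mv 1099 (cons (fin 1098 1 1034)
(mv 1102 (cons (fin 1103 0 1035)
(mv 1166 (cons (mv 973 (cons (fin 909 7 909)
(fin 1230 7 973)))
(mv 1165 (cons (fin 1229 5 973)
(mv 1167 (cons (fin 1231 4 974)
(mv 1100 (cons (fin 1164 3 1099)
(fin 1101 0 1099)))))))))))))))))))))))))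
def l94 : Lem := ⟨13990367052752487320312544716796506086908544040920606671647422636019387761887306954839904539139044083307651742587111316666437654968213159228883358442086434255575408537896731526142943938247376028752316727663063488954060238702619831287825813914729338905000590143517244074225654467916245441707506770996675619254697984, 16121223009876685610218287355932938135783424235137179145303468103880173471536830095417658288835837380331421315445346389789410031903241652140228672636491620523770984778118926488466303471525473069240157984521782728627255805020231439678694054917808816782696674011801950503920064082220499513647116385170039213846182660433675374583758952287328396828245257454191183873732695300018921711438758652641459770362668515328, 16121223009876685610218287355932938135783424235137179145303468103880173471536830095417658288835837380331421315445346389789410031903241652140228672636491620523770984778118926488466303471525473069240157984521782728627255805020231439678694054917808816782696674011801950503920064082220499513647116385170039213846182660433675374583758952287328396828245257454191183873732695300018921711438758652641459770362668515328,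 18, 33⟩
theorem l94_valid : l94.Valid :=
  Lem.valid_of_chk t94 t94_valid [1036, 1037, 1040] c94 l94 (by decide +kernel)
end Crest.Agent.SnakyAux
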