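import Crest.Agent.S0047_aux.Checker

set_option autoImplicit false
set_option maxRecDepth 100000
namespace Crest.Agent.SnakyAux
open Cert
def t95 : Tbl := Tbl.nil
theorem t95_valid : t95.Valid := Tbl.valid_nil
def c95 : Cert :=
(mv 1035 (cons (cons (cons (mv 1038 (cons (cons (mv 970 (cons (fin 971 3 970)
(mv 974 (cons (fin 975 2 971)
(mv 973 (cons (fin 1034 2 970)
(mv 1098 (cons (fin 1099 1 1034)
(mv 1102 (cons (fin 1103 0 1035)
(mv 909 (cons (fin 1166 7 909)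
(fin 845 4 845)))))))))))))
(cons (mv 970 (cons (fin 971 3 970)
(mv 1098 (cons (fin 1099 1 1034)
(mv 1034 (cons (fin 1097 1 1033)
(mv 1102 (cons (fin 1101 0 1034)
(fin 1103 0 1035)))))))))
(mv 970 (cons (fin 971 3 970)
(mv 974 (cons (fin 975 2 971)
(mv 1034 (cons (fin 973 2 970)
(mv 1098 (cons (fin 1097 1 1033)
(fin 1099 1 1034)))))))))))
(cons (mv 970 (cons (fin 971 3 970)
(mv 974 (cons (fin 975 2 971)
(mv 973 (cons (fin 1034 2 970)
(mv 1102 (cons (fin 1103 0 1035)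
(mv 909 (cons (fin 1166 7 909)
(fin 845 4 845)))))))))))
(cons (mv 974 (cons (fin 975 2 971)
(mv 973 (cons (fin 1034 2 970)
(mv 1098 (cons (fin 1099 1 1034)
(mv 1102 (cons (fin 1103 0 1035)
(mv 909 (cons (fin 1166 7 909)
(fin 845 4 845)))))))))))
(mv 970 (cons (fin 971 3 970)
(mv 974 (cons (fin 975 2 971)
(mv 1098 (cons (fin 1099 1 1034)
(mv 1102 (cons (fin 1103 0 1035)
(mv 910 (cons (mv 1101 (cons (fin 846 5 845)
(fin 1165 5 909)))
(cons (mv 845 (cons (fin 909 7 845)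
(mv 846 (cons (fin 781 7 781)
(mv 847 (cons (fin 783 6 782)
(fin 911 6 846)))))))
(mv 845 (cons (fin 909 7 845)
(mv 847 (cons (fin 911 6 846)
(mv 1165 (cons (fin 1101 5 909)
(mv 1166 (cons (fin 1229 5 973)
(mv 1230 (cons (fin 973 7 973)
(mv 1231 (cons (fin 1167 4 974)
(fin 1295 4 1038))))))))))))))))))))))))))))
(mv 1034 (cons (cons (mv 973 (cons (fin 974 2 970)
(mv 972 (cons (fin 1033 2 969)
(mv 1097 (cons (fin 1098 1 1033)
(mv 1101 (cons (fin 1102 0 1034)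
(mv 908 (cons (fin 1165 7 908)
(fin 844 4 844)))))))))))
(mv 1097 (cons (fin 1098 1 1033)
(mv 1033 (cons (fin 1096 1 1032)
(mv 1101 (cons (fin 1100 0 1033)
(fin 1102 0 1034))))))))
(cons (mv 973 (cons (fin 974 2 970)
(mv 1033 (cons (fin 972 2 969)
(mv 1097 (cons (fin 1096 1 1032)
(fin 1098 1 1033)))))))
(cons (mv 973 (cons (fin 974 2 970)
(mv 972 (cons (fin 1033 2 969)
(mv 1101 (cons (fin 1102 0 1034)
(mv 908 (cons (fin 1165 7 908)
(fin 844 4 844)))))))))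
(mv 973 (cons (fin 974 2 970)
(mv 1097 (cons (fin 1098 1 1033)
(mv 1101 (cons (fin 1102 0 1034)
(mv 909 (cons (mv 1100 (cons (fin 845 5 844)
(fin 1164 5 908)))
(cons (mv 844 (cons (fin 908 7 844)
(mv 845 (cons (fin 780 7 780)
(mv 846 (cons (fin 782 6 781)
(fin 910 6 845)))))))
(mv 844 (cons (fin 908 7 844)
(mv 846 (cons (fin 910 6 845)
(mv 1164 (cons (fin 1100 5 908)
(mv 1165 (cons (fin 1228 5 972)
(mv 1229 (cons (fin 972 7 972)
(mv 1230 (cons (fin 1166 4 973)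
(fin 1294 4 1037)))))))))))))))))))))))))))
(cons (mv 1038 (cons (cons (cons (mv 970 (cons (fin 971 3 970)
(mv 974 (cons (fin 975 2 971)
(mv 1098 (cons (fin 1099 1 1034)
(mv 1102 (cons (fin 1103 0 1035)
(mv 910 (cons (mv 1101 (cons (fin 846 5 845)
(fin 1165 5 909)))
(cons (mv 845 (cons (fin 909 7 845)
(mv 846 (cons (fin 781 7 781)
(mv 847 (cons (fin 783 6 782)
(fin 911 6 846)))))))
(mv 845 (cons (fin 909 7 845)
(mv 847 (cons (fin 911 6 846)
(mv 1165 (cons (fin 1101 5 909)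
(mv 1166 (cons (fin 1229 5 973)
(mv 1230 (cons (fin 973 7 973)
(mv 1231 (cons (fin 1167 4 974)
(fin 1295 4 1038))))))))))))))))))))))))
(mv 970 (cons (fin 971 3 970)
(mv 974 (cons (fin 975 2 971)
(mv 1102 (cons (fin 1103 0 1035)
(mv 910 (cons (mv 1101 (cons (fin 846 5 845)
(fin 1165 5 909)))
(cons (mv 845 (cons (fin 909 7 845)
(mv 846 (cons (fin 781 7 781)
(mv 847 (cons (fin 783 6 782)
(fin 911 6 846)))))))
(mv 845 (cons (fin 909 7 845)
(mv 847 (cons (fin 911 6 846)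
(mv 1165 (cons (fin 1101 5 909)
(mv 1166 (cons (fin 1229 5 973)
(mv 1230 (cons (fin 973 7 973)
(mv 1231 (cons (fin 1167 4 974)
(fin 1295 4 1038)))))))))))))))))))))))
(cons (mv 970 (cons (fin 971 3 970)
(mv 1099 (cons (fin 1098 1 1034)
(mv 1102 (cons (fin 1103 0 1035)
(mv 1163 (cons (cons (mv 972 (cons (fin 1227 6 971)
(mv 908 (cons (fin 844 5 843)
(fin 1100 5 907)))))
(mv 1100 (cons (cons (mv 908 (cons (fin 972 5 907)
(mv 1101 (cons (fin 1162 1 1098)
(mv 1166 (cons (fin 1167 0 1099)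
(mv 973 (cons (fin 1230 7 973)
(fin 909 4 909)))))))))
(mv 972 (cons (fin 908 5 907)
(mv 1164 (cons (mv 973 (cons (fin 909 6 908)
(fin 1228 6 972)))
(cons (mv 1228 (cons (fin 1292 7 1035)
(mv 1229 (cons (fin 1165 4 972)
(fin 1293 4 1036)))))
(mv 973 (cons (fin 909 6 908)
(mv 1165 (cons (fin 1229 4 972)
(mv 1166 (cons (fin 1167 3 1099)
(fin 1230 7 973)))))))))))))
(cons (mv 1101 (cons (fin 1162 1 1098)
(mv 1166 (cons (fin 1167 0 1099)
(mv 973 (cons (fin 1230 7 973)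
(fin 909 4 909)))))))
(cons (mv 908 (cons (fin 972 5 907)
(mv 1101 (cons (fin 1162 1 1098)
(mv 1166 (cons (fin 1167 0 1099)
(mv 1230 (cons (fin 1294 7 1037)
(mv 1229 (cons (fin 1293 5 1037)
(mv 1231 (cons (fin 1295 4 1038)
(mv 1164 (cons (fin 1228 3 1163)
(fin 1165 0 1163)))))))))))))))
(mv 908 (cons (fin 972 5 907)
(mv 1162 (cons (fin 1101 1 1098)
(mv 1161 (cons (fin 1160 2 1096)
(mv 1164 (cons (mv 1228 (cons (fin 1229 0 1161)
(fin 1292 7 1035)))
(mv 1097 (cons (fin 1096 3 1096)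
(mv 1225 (cons (fin 1224 1 1160)
(mv 1226 (cons (fin 1165 1 1161)
(mv 1290 (cons (fin 1354 7 1097)
(fin 1033 4 1033))))))))))))))))))))))
(cons (mv 1227 (cons (cons (mv 1100 (cons (fin 1291 6 1035)
(mv 1101 (cons (fin 1162 1 1098)
(mv 1166 (cons (fin 1167 0 1099)
(mv 973 (cons (fin 1230 7 973)
(fin 909 4 909)))))))))
(mv 1226 (cons (fin 1290 5 1034)
(mv 1228 (cons (fin 1292 4 1035)
(mv 1229 (cons (mv 1162 (cons (fin 1161 3 1161)
(fin 1230 3 1162)))
(mv 1165 (cons (fin 1166 2 1162)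
(mv 1293 (cons (fin 1294 0 1226)
(fin 1101 6 1037))))))))))))
(cons (mv 1100 (cons (fin 1291 6 1035)
(mv 1101 (cons (fin 1162 1 1098)
(mv 1226 (cons (fin 1290 5 1034)
(mv 1228 (cons (fin 1292 4 1035)
(mv 1164 (cons (fin 973 6 972)
(mv 1225 (cons (fin 1224 2 1160)
(fin 1165 2 1161)))))))))))))
(cons (mv 1100 (cons (fin 1291 6 1035)
(mv 1226 (cons (fin 1290 5 1034)
(mv 1228 (cons (fin 1292 4 1035)
(mv 973 (cons (fin 1164 6 972)
(mv 909 (cons (fin 845 5 844)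
(mv 1166 (cons (fin 1230 7 973)
(fin 1101 4 909)))))))))))))
(mv 1100 (cons (fin 1291 6 1035)
(mv 1226 (cons (fin 1290 5 1034)
(mv 1228 (cons (fin 1292 4 1035)
(mv 973 (cons (fin 1164 6 972)
(mv 845 (cons (fin 909 5 844)
(mv 1230 (cons (fin 1166 7 973)
(mv 1229 (cons (fin 1162 3 1162)
(mv 1294 (cons (fin 1293 0 1226)
(fin 1295 0 1227)))))))))))))))))))))
(mv 1227 (cons (fin 972 6 971)
(mv 1228 (cons (fin 1292 4 1035)
(mv 1290 (cons (fin 1226 5 1034)
(mv 1291 (cons (fin 1354 5 1098)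
(mv 1230 (cons (fin 1229 1 1226)
(mv 1166 (cons (fin 973 7 973)
(mv 1288 (cons (fin 1289 2 1224)
(mv 1294 (cons (fin 1101 7 1037)
(mv 1295 (cons (fin 1231 4 1038)
(fin 1359 4 1102))))))))))))))))))))))))))))
(cons (mv 971 (cons (fin 970 3 970)
(mv 974 (cons (fin 975 2 971)
(mv 1098 (cons (fin 1099 1 1034)
(mv 910 (cons (cons (mv 846 (cons (fin 1101 5 845)
(mv 781 (cons (fin 845 7 781)
(mv 782 (cons (fin 717 7 717)
(fin 973 5 781)))))))
(mv 973 (cons (cons (mv 972 (cons (fin 911 2 907)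
(mv 907 (cons (fin 906 3 906)
(mv 843 (cons (fin 779 4 779)
(fin 1100 4 843)))))))
(mv 1101 (cons (fin 1165 6 909)
(mv 909 (cons (mv 845 (cons (fin 1100 5 844)
(fin 781 4 781)))
(cons (mv 844 (cons (fin 908 7 844)
(mv 845 (cons (fin 780 7 780)
(fin 781 4 781)))))
(mv 908 (cons (fin 844 7 844)
(mv 907 (cons (fin 906 0 906)
(mv 843 (cons (fin 842 3 842)
(fin 1100 4 843)))))))))))))
(cons (mv 972 (cons (fin 911 2 907)
(mv 907 (cons (fin 906 3 906)
(mv 843 (cons (fin 779 4 779)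
(mv 778 (cons (fin 842 7 778)
(mv 844 (cons (fin 780 6 779)
(mv 1101 (cons (fin 1165 6 909)
(fin 908 4 844)))))))))))))
(mv 911 (cons (fin 972 2 907)
(mv 912 (cons (fin 913 1 909)
(mv 1101 (cons (fin 1165 6 909)
(mv 909 (cons (mv 844 (cons (fin 845 3 844)
(fin 908 7 844)))
(cons (mv 844 (cons (fin 908 7 844)
(mv 848 (cons (fin 849 2 845)
(mv 976 (cons (fin 977 0 909)
(mv 847 (cons (fin 783 7 783)
(fin 1104 7 847)))))))))
(mv 845 (cons (fin 1100 5 844)
(fin 781 4 781))))))))))))))))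
(cons (mv 846 (cons (mv 781 (cons (fin 845 7 781)
(mv 782 (cons (fin 717 7 717)
(fin 973 5 781)))))
(cons (mv 783 (cons (fin 847 6 782)
(mv 845 (cons (fin 781 7 781)
(mv 843 (cons (mv 844 (cons (fin 911 0 843)
(mv 907 (cons (fin 906 1 842)
(fin 780 6 779)))))
(cons (mv 907 (cons (fin 1100 4 843)
(mv 778 (cons (fin 842 7 778)
(mv 779 (cons (fin 714 7 714)
(fin 972 4 779)))))))
(mv 844 (cons (fin 911 0 843)
(mv 778 (cons (fin 779 3 778)
(mv 842 (cons (fin 777 3 777)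
(fin 909 0 842))))))))))))))
(mv 782 (cons (fin 973 5 781)
(mv 783 (cons (fin 719 6 718)
(fin 847 6 782))))))))
(cons (mv 846 (cons (fin 1101 5 845)
(mv 781 (cons (fin 845 7 781)
(mv 782 (cons (fin 717 7 717)
(mv 783 (cons (fin 719 6 718)
(fin 847 6 782)))))))))
(mv 846 (cons (fin 1101 5 845)
(mv 782 (cons (fin 973 5 781)
(mv 783 (cons (fin 719 6 718)
(fin 847 6 782)))))))))))))))))
(mv 974 (cons (fin 975 2 971)
(mv 1098 (cons (fin 1099 1 1034)
(mv 1102 (cons (fin 1103 0 1035)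
(mv 910 (cons (mv 1101 (cons (fin 846 5 845)
(fin 1165 5 909)))
(cons (mv 845 (cons (fin 909 7 845)
(mv 846 (cons (fin 781 7 781)
(mv 847 (cons (fin 783 6 782)
(fin 911 6 846)))))))
(mv 845 (cons (fin 909 7 845)
(mv 847 (cons (fin 911 6 846)
(mv 1165 (cons (fin 1101 5 909)
(mv 1166 (cons (fin 1229 5 973)
(mv 1230 (cons (fin 973 7 973)
(mv 1231 (cons (fin 1167 4 974)
(fin 1295 4 1038)))))))))))))))))))))))))
(cons (cons (mv 970 (cons (fin 971 3 970)
(mv 974 (cons (fin 975 2 971)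
(mv 1098 (cons (fin 1099 1 1034)
(mv 1102 (cons (fin 1103 0 1035)
(mv 910 (cons (mv 1101 (cons (fin 846 5 845)
(fin 1165 5 909)))
(cons (mv 845 (cons (fin 909 7 845)
(mv 846 (cons (fin 781 7 781)
(mv 847 (cons (fin 783 6 782)
(fin 911 6 846)))))))
(mv 845 (cons (fin 909 7 845)
(mv 847 (cons (fin 911 6 846)
(mv 1166 (cons (cons (mv 1165 (cons (fin 1101 5 909)
(fin 1229 5 973)))
(mv 1231 (cons (fin 1167 4 974)
(mv 1230 (cons (fin 1295 4 1038)
(mv 1293 (cons (fin 1229 5 1037)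
(mv 1294 (cons (fin 1101 7 1037)
(fin 1357 5 1101))))))))))
(cons (mv 1229 (cons (fin 1165 5 973)
(mv 1230 (cons (fin 1293 5 1037)
(mv 1231 (cons (fin 1167 4 974)
(fin 1295 4 1038)))))))
(mv 1101 (cons (fin 1165 5 909)
(mv 1230 (cons (fin 1294 7 1037)
(mv 1231 (cons (fin 1167 4 974)
(fin 1295 4 1038)))))))))))))))))))))))))
(mv 970 (cons (fin 971 3 970)
(mv 974 (cons (fin 975 2 971)
(mv 1098 (cons (fin 1099 1 1034)
(mv 1102 (cons (fin 1103 0 1035)
(mv 1166 (cons (mv 973 (cons (fin 909 7 909)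
(fin 1230 7 973)))
(cons (mv 1229 (cons (fin 1165 5 973)
(mv 1230 (cons (fin 1293 5 1037)
(mv 1231 (cons (fin 1167 4 974)
(fin 1295 4 1038)))))))
(mv 1165 (cons (fin 1229 5 973)
(mv 1167 (cons (fin 1231 4 974)
(mv 910 (cons (cons (mv 909 (cons (fin 845 7 845)
(fin 973 7 909)))
(mv 847 (cons (fin 911 6 846)
(mv 846 (cons (fin 783 6 782)
(mv 781 (cons (fin 845 7 781)
(mv 782 (cons (fin 717 7 717)
(fin 973 5 781))))))))))
(cons (mv 845 (cons (fin 909 7 845)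
(mv 846 (cons (fin 781 7 781)
(mv 847 (cons (fin 783 6 782)
(fin 911 6 846)))))))
(mv 847 (cons (fin 911 6 846)
(mv 846 (cons (fin 783 6 782)
(mv 973 (cons (fin 909 7 909)
(fin 782 5 781))))))))))))))))))))))))))
(cons (mv 970 (cons (fin 971 3 970)
(mv 974 (cons (fin 975 2 971)
(mv 1098 (cons (fin 1099 1 1034)
(mv 1102 (cons (fin 1103 0 1035)
(mv 1166 (cons (mv 973 (cons (fin 909 7 909)
(fin 1230 7 973)))
(cons (mv 1231 (cons (fin 1167 4 974)
(mv 1230 (cons (fin 1295 4 1038)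
(mv 1293 (cons (fin 1229 5 1037)
(mv 1294 (cons (fin 1101 7 1037)
(fin 1357 5 1101)))))))))
(mv 909 (cons (fin 973 7 909)
(mv 910 (cons (fin 845 7 845)
(mv 846 (cons (fin 1101 5 845)
(mv 847 (cons (fin 783 6 782)
(fin 911 6 846))))))))))))))))))))
(cons (mv 970 (cons (fin 971 3 970)
(mv 974 (cons (fin 975 2 971)
(mv 1098 (cons (fin 1099 1 1034)
(mv 1102 (cons (fin 1103 0 1035)
(mv 910 (cons (mv 1101 (cons (fin 846 5 845)
(fin 1165 5 909)))
(cons (mv 847 (cons (fin 911 6 846)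
(mv 846 (cons (fin 783 6 782)
(mv 781 (cons (fin 845 7 781)
(mv 782 (cons (fin 717 7 717)
(fin 973 5 781)))))))))
(mv 847 (cons (fin 911 6 846)
(mv 1165 (cons (fin 1101 5 909)
(mv 1166 (cons (fin 1229 5 973)
(mv 1230 (cons (fin 973 7 973)
(mv 1231 (cons (fin 1167 4 974)
(fin 1295 4 1038))))))))))))))))))))))
(mv 970 (cons (fin 971 3 970)
(mv 974 (cons (fin 975 2 971)
(mv 1098 (cons (fin 1099 1 1034)
(mv 1102 (cons (fin 1103 0 1035)
(mv 1166 (cons (mv 973 (cons (fin 909 7 909)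
(fin 1230 7 973)))
(mv 1165 (cons (fin 1229 5 973)
(mv 1101 (cons (fin 910 5 909)
(mv 1167 (cons (fin 1231 4 974)
(mv 1168 (cons (fin 1100 3 1100)
(fin 1169 3 1101))))))))))))))))))))))))
(cons (mv 1038 (cons (cons (mv 970 (cons (fin 971 3 970)
(mv 974 (cons (fin 975 2 971)
(mv 973 (cons (fin 1034 2 970)
(mv 1102 (cons (fin 1103 0 1035)
(mv 909 (cons (fin 1166 7 909)
(fin 845 4 845)))))))))))
(cons (mv 970 (cons (fin 971 3 970)
(mv 1102 (cons (fin 1103 0 1035)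
(mv 1101 (cons (fin 1034 0 1034)
(mv 973 (cons (mv 909 (cons (fin 845 4 845)
(fin 1166 4 909)))
(cons (mv 1166 (cons (fin 1230 7 973)
(mv 1165 (cons (mv 972 (cons (fin 908 7 908)
(fin 1229 7 972)))
(cons (mv 972 (cons (fin 908 7 908)
(mv 1164 (cons (fin 1228 5 972)
(mv 1163 (cons (fin 1162 2 1098)
(mv 1227 (cons (fin 1226 1 1162)
(fin 1100 5 971)))))))))
(mv 1228 (cons (fin 1164 5 972)
(mv 1229 (cons (fin 1292 5 1036)
(fin 1293 6 1037))))))))))
(mv 909 (cons (fin 845 4 845)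
(mv 844 (cons (fin 908 7 844)
(mv 846 (cons (fin 910 6 845)
(mv 1164 (cons (fin 1100 5 908)
(mv 1165 (cons (fin 1228 5 972)
(mv 1229 (cons (fin 972 7 972)
(fin 1293 6 1037))))))))))))))))))))))
(mv 970 (cons (fin 971 3 970)
(mv 974 (cons (fin 975 2 971)
(mv 973 (cons (fin 1034 2 970)
(mv 1101 (cons (mv 910 (cons (fin 846 5 845)
(fin 1165 6 909)))
(cons (mv 910 (cons (fin 846 5 845)
(mv 909 (cons (mv 845 (cons (fin 1100 5 844)
(fin 781 4 781)))
(cons (mv 908 (cons (fin 844 7 844)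
(mv 907 (cons (fin 906 0 906)
(mv 843 (cons (fin 842 3 842)
(mv 1100 (cons (fin 972 7 843)
(fin 1164 5 908)))))))))
(mv 844 (cons (fin 908 7 844)
(mv 845 (cons (fin 780 7 780)
(fin 781 4 781))))))))))
(mv 1165 (cons (fin 1229 6 973)
(mv 908 (cons (fin 972 7 908)
(mv 909 (cons (fin 844 7 844)
(mv 845 (cons (fin 1100 5 844)
(fin 781 4 781))))))))))))))))))))
(cons (mv 974 (cons (fin 975 2 971)
(mv 973 (cons (fin 1034 2 970)
(mv 1102 (cons (fin 1103 0 1035)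
(mv 909 (cons (fin 1166 7 909)
(fin 845 4 845)))))))))
(cons (mv 970 (cons (fin 971 3 970)
(mv 974 (cons (fin 975 2 971)
(mv 1102 (cons (fin 1103 0 1035)
(mv 1166 (cons (mv 973 (cons (fin 909 7 909)
(fin 1230 7 973)))
(cons (mv 1165 (cons (fin 1229 5 973)
(mv 910 (cons (fin 1101 5 909)
(mv 845 (cons (fin 909 7 845)
(mv 846 (cons (fin 781 7 781)
(mv 847 (cons (fin 783 6 782)
(fin 911 6 846)))))))))))
(mv 973 (cons (fin 1230 7 973)
(mv 1165 (cons (fin 1229 5 973)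
(mv 910 (cons (fin 1101 5 909)
(mv 846 (cons (fin 782 5 781)
(mv 847 (cons (fin 783 6 782)
(fin 911 6 846))))))))))))))))))))
(mv 970 (cons (fin 971 3 970)
(mv 974 (cons (fin 975 2 971)
(mv 1102 (cons (fin 1103 0 1035)
(mv 1101 (cons (fin 1034 0 1034)
(mv 910 (cons (fin 846 5 845)
(fin 1165 5 909)))))))))))))))
(mv 1038 (cons (cons (mv 970 (cons (fin 971 3 970)
(mv 1098 (cons (fin 1099 1 1034)
(mv 1034 (cons (fin 1097 1 1033)
(mv 1102 (cons (fin 1101 0 1034)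
(fin 1103 0 1035)))))))))
(cons (mv 971 (cons (fin 970 3 970)
(mv 1098 (cons (fin 1099 1 1034)
(mv 1034 (cons (fin 1097 1 1033)
(mv 907 (cons (fin 843 5 842)
(mv 1162 (cons (fin 1226 6 970)
(mv 972 (cons (mv 1033 (cons (fin 1032 2 968)
(fin 973 2 969)))
(cons (mv 1100 (cons (fin 1164 7 907)
(mv 908 (cons (mv 844 (cons (fin 780 5 779)
(fin 1101 4 844)))
(cons (mv 909 (cons (fin 845 6 844)
(mv 910 (cons (fin 911 1 907)
(mv 846 (cons (fin 847 2 843)
(mv 1101 (cons (fin 973 6 845)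
(fin 1165 4 908)))))))))
(mv 844 (cons (fin 780 5 779)
(mv 845 (cons (fin 781 6 780)
(fin 909 6 844))))))))))
(mv 1033 (cons (fin 1032 2 968)
(mv 1100 (cons (fin 1101 0 1033)
(fin 1164 7 907))))))))))))))))))
(mv 970 (cons (fin 971 3 970)
(mv 1102 (cons (fin 1103 0 1035)
(mv 1101 (cons (fin 1034 0 1034)
(mv 973 (cons (mv 909 (cons (fin 845 4 845)
(fin 1166 4 909)))
(cons (mv 1166 (cons (fin 1230 7 973)
(mv 1165 (cons (mv 972 (cons (fin 908 7 908)
(fin 1229 7 972)))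
(cons (mv 972 (cons (fin 908 7 908)
(mv 1164 (cons (fin 1228 5 972)
(mv 1163 (cons (fin 1162 2 1098)
(mv 1227 (cons (fin 1226 1 1162)
(fin 1100 5 971)))))))))
(mv 1228 (cons (fin 1164 5 972)
(mv 1229 (cons (fin 1292 5 1036)
(fin 1293 6 1037))))))))))
(mv 909 (cons (fin 845 4 845)
(mv 844 (cons (fin 908 7 844)
(mv 846 (cons (fin 910 6 845)
(mv 1164 (cons (fin 1100 5 908)
(mv 1165 (cons (fin 1228 5 972)
(mv 1229 (cons (fin 972 7 972)
(fin 1293 6 1037))))))))))))))))))))))))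
(cons (mv 1098 (cons (fin 1099 1 1034)
(mv 1034 (cons (fin 1097 1 1033)
(mv 1102 (cons (fin 1101 0 1034)
(fin 1103 0 1035)))))))
(cons (mv 970 (cons (fin 971 3 970)
(mv 1099 (cons (fin 1098 1 1034)
(mv 1102 (cons (fin 1103 0 1035)
(mv 1163 (cons (cons (mv 972 (cons (fin 1227 6 971)
(mv 908 (cons (fin 844 5 843)
(fin 1100 5 907)))))
(mv 1100 (cons (cons (mv 908 (cons (fin 972 5 907)
(mv 1101 (cons (fin 1162 1 1098)
(mv 1166 (cons (fin 1167 0 1099)
(mv 973 (cons (fin 1230 7 973)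
(fin 909 4 909)))))))))
(mv 972 (cons (fin 908 5 907)
(mv 1164 (cons (mv 973 (cons (fin 909 6 908)
(fin 1228 6 972)))
(cons (mv 1228 (cons (fin 1292 7 1035)
(mv 1229 (cons (fin 1165 4 972)
(fin 1293 4 1036)))))
(mv 973 (cons (fin 909 6 908)
(mv 1165 (cons (fin 1229 4 972)
(mv 1166 (cons (fin 1167 3 1099)
(fin 1230 7 973)))))))))))))
(cons (mv 1101 (cons (fin 1162 1 1098)
(mv 1166 (cons (fin 1167 0 1099)
(mv 973 (cons (fin 1230 7 973)
(fin 909 4 909)))))))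
(cons (mv 908 (cons (fin 972 5 907)
(mv 1101 (cons (fin 1162 1 1098)
(mv 1166 (cons (fin 1167 0 1099)
(mv 1230 (cons (fin 1294 7 1037)
(mv 1229 (cons (fin 1293 5 1037)
(mv 1231 (cons (fin 1295 4 1038)
(mv 1164 (cons (fin 1228 3 1163)
(fin 1165 0 1163)))))))))))))))
(mv 908 (cons (fin 972 5 907)
(mv 1162 (cons (fin 1101 1 1098)
(mv 1161 (cons (fin 1160 2 1096)
(mv 1164 (cons (mv 1228 (cons (fin 1229 0 1161)
(fin 1292 7 1035)))
(mv 1097 (cons (fin 1096 3 1096)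
(mv 1225 (cons (fin 1224 1 1160)
(mv 1226 (cons (fin 1165 1 1161)
(mv 1290 (cons (fin 1354 7 1097)
(fin 1033 4 1033))))))))))))))))))))))
(cons (mv 1227 (cons (cons (mv 1100 (cons (fin 1291 6 1035)
(mv 1101 (cons (fin 1162 1 1098)
(mv 1166 (cons (fin 1167 0 1099)
(mv 973 (cons (fin 1230 7 973)
(fin 909 4 909)))))))))
(mv 1226 (cons (fin 1290 5 1034)
(mv 1228 (cons (fin 1292 4 1035)
(mv 1229 (cons (mv 1162 (cons (fin 1161 3 1161)
(fin 1230 3 1162)))
(mv 1165 (cons (fin 1166 2 1162)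
(mv 1293 (cons (fin 1294 0 1226)
(fin 1101 6 1037))))))))))))
(cons (mv 1100 (cons (fin 1291 6 1035)
(mv 1101 (cons (fin 1162 1 1098)
(mv 1226 (cons (fin 1290 5 1034)
(mv 1228 (cons (fin 1292 4 1035)
(mv 1164 (cons (fin 973 6 972)
(mv 1225 (cons (fin 1224 2 1160)
(fin 1165 2 1161)))))))))))))
(cons (mv 1100 (cons (fin 1291 6 1035)
(mv 1226 (cons (fin 1290 5 1034)
(mv 1228 (cons (fin 1292 4 1035)
(mv 973 (cons (fin 1164 6 972)
(mv 909 (cons (fin 845 5 844)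
(mv 1166 (cons (fin 1230 7 973)
(fin 1101 4 909)))))))))))))
(mv 1100 (cons (fin 1291 6 1035)
(mv 1226 (cons (fin 1290 5 1034)
(mv 1228 (cons (fin 1292 4 1035)
(mv 973 (cons (fin 1164 6 972)
(mv 845 (cons (fin 909 5 844)
(mv 1230 (cons (fin 1166 7 973)
(mv 1229 (cons (fin 1162 3 1162)
(mv 1294 (cons (fin 1293 0 1226)
(fin 1295 0 1227)))))))))))))))))))))
(mv 1227 (cons (fin 972 6 971)
(mv 1228 (cons (fin 1292 4 1035)
(mv 1290 (cons (fin 1226 5 1034)
(mv 1291 (cons (fin 1354 5 1098)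
(mv 1230 (cons (fin 1229 1 1226)
(mv 1166 (cons (fin 973 7 973)
(mv 1288 (cons (fin 1289 2 1224)
(mv 1294 (cons (fin 1101 7 1037)
(mv 1295 (cons (fin 1231 4 1038)
(fin 1359 4 1102))))))))))))))))))))))))))))
(mv 971 (cons (fin 970 3 970)
(mv 1099 (cons (fin 1098 1 1034)
(mv 1102 (cons (fin 1103 0 1035)
(mv 907 (cons (cons (mv 1100 (cons (fin 843 4 843)
(fin 1164 4 907)))
(mv 842 (cons (fin 906 7 842)
(mv 778 (cons (fin 843 7 778)
(mv 908 (cons (fin 844 6 843)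
(mv 1163 (cons (fin 972 6 907)
(mv 1226 (cons (fin 1162 5 970)
(mv 1227 (cons (fin 1290 5 1034)
(mv 1228 (cons (fin 1164 4 971)
(fin 1292 4 1035))))))))))))))))
(cons (mv 842 (cons (fin 906 7 842)
(mv 844 (cons (fin 908 6 843)
(mv 1164 (cons (fin 1100 4 907)
(mv 1163 (cons (fin 1228 4 971)
(mv 1226 (cons (fin 1162 5 970)
(mv 1227 (cons (fin 1290 5 1034)
(fin 972 6 971)))))))))))))
(mv 842 (cons (fin 906 7 842)
(mv 843 (cons (fin 778 7 778)
(fin 1100 4 843)))))))))))))))))))))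
(cons (cons (mv 1038 (cons (cons (mv 970 (cons (fin 971 3 970)
(mv 974 (cons (fin 975 2 971)
(mv 1034 (cons (fin 973 2 970)
(mv 1098 (cons (fin 1097 1 1033)
(fin 1099 1 1034)))))))))
(cons (mv 971 (cons (fin 970 3 970)
(mv 1098 (cons (fin 1099 1 1034)
(mv 1034 (cons (fin 1097 1 1033)
(mv 907 (cons (fin 843 5 842)
(mv 1162 (cons (fin 1226 6 970)
(mv 972 (cons (mv 1033 (cons (fin 1032 2 968)
(fin 973 2 969)))
(cons (mv 1100 (cons (fin 1164 7 907)
(mv 908 (cons (mv 844 (cons (fin 780 5 779)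
(fin 1101 4 844)))
(cons (mv 909 (cons (fin 845 6 844)
(mv 910 (cons (fin 911 1 907)
(mv 846 (cons (fin 847 2 843)
(mv 1101 (cons (fin 973 6 845)
(fin 1165 4 908)))))))))
(mv 844 (cons (fin 780 5 779)
(mv 845 (cons (fin 781 6 780)
(fin 909 6 844))))))))))
(mv 1033 (cons (fin 1032 2 968)
(mv 1100 (cons (fin 1101 0 1033)
(fin 1164 7 907))))))))))))))))))
(mv 970 (cons (fin 971 3 970)
(mv 974 (cons (fin 975 2 971)
(mv 973 (cons (fin 1034 2 970)
(mv 1101 (cons (mv 910 (cons (fin 846 5 845)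
(fin 1165 6 909)))
(cons (mv 910 (cons (fin 846 5 845)
(mv 909 (cons (mv 845 (cons (fin 1100 5 844)
(fin 781 4 781)))
(cons (mv 908 (cons (fin 844 7 844)
(mv 907 (cons (fin 906 0 906)
(mv 843 (cons (fin 842 3 842)
(mv 1100 (cons (fin 972 7 843)
(fin 1164 5 908)))))))))
(mv 844 (cons (fin 908 7 844)
(mv 845 (cons (fin 780 7 780)
(fin 781 4 781))))))))))
(mv 1165 (cons (fin 1229 6 973)
(mv 908 (cons (fin 972 7 908)
(mv 909 (cons (fin 844 7 844)
(mv 845 (cons (fin 1100 5 844)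
(fin 781 4 781))))))))))))))))))))
(cons (mv 974 (cons (fin 975 2 971)
(mv 1034 (cons (fin 973 2 970)
(mv 1098 (cons (fin 1097 1 1033)
(fin 1099 1 1034)))))))
(cons (mv 971 (cons (fin 970 3 970)
(mv 974 (cons (fin 975 2 971)
(mv 1098 (cons (fin 1099 1 1034)
(mv 910 (cons (cons (mv 846 (cons (fin 1101 5 845)
(mv 781 (cons (fin 845 7 781)
(mv 782 (cons (fin 717 7 717)
(fin 973 5 781)))))))
(mv 973 (cons (cons (mv 972 (cons (fin 911 2 907)
(mv 907 (cons (fin 906 3 906)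
(mv 843 (cons (fin 779 4 779)
(fin 1100 4 843)))))))
(mv 1101 (cons (fin 1165 6 909)
(mv 909 (cons (mv 845 (cons (fin 1100 5 844)
(fin 781 4 781)))
(cons (mv 844 (cons (fin 908 7 844)
(mv 845 (cons (fin 780 7 780)
(fin 781 4 781)))))
(mv 908 (cons (fin 844 7 844)
(mv 907 (cons (fin 906 0 906)
(mv 843 (cons (fin 842 3 842)
(fin 1100 4 843)))))))))))))
(cons (mv 972 (cons (fin 911 2 907)
(mv 907 (cons (fin 906 3 906)
(mv 843 (cons (fin 779 4 779)
(mv 778 (cons (fin 842 7 778)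
(mv 844 (cons (fin 780 6 779)
(mv 1101 (cons (fin 1165 6 909)
(fin 908 4 844)))))))))))))
(mv 911 (cons (fin 972 2 907)
(mv 912 (cons (fin 913 1 909)
(mv 1101 (cons (fin 1165 6 909)
(mv 909 (cons (mv 844 (cons (fin 845 3 844)
(fin 908 7 844)))
(cons (mv 844 (cons (fin 908 7 844)
(mv 848 (cons (fin 849 2 845)
(mv 976 (cons (fin 977 0 909)
(mv 847 (cons (fin 783 7 783)
(fin 1104 7 847)))))))))
(mv 845 (cons (fin 1100 5 844)
(fin 781 4 781))))))))))))))))
(cons (mv 846 (cons (mv 781 (cons (fin 845 7 781)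
(mv 782 (cons (fin 717 7 717)
(fin 973 5 781)))))
(cons (mv 783 (cons (fin 847 6 782)
(mv 845 (cons (fin 781 7 781)
(mv 843 (cons (mv 844 (cons (fin 911 0 843)
(mv 907 (cons (fin 906 1 842)
(fin 780 6 779)))))
(cons (mv 907 (cons (fin 1100 4 843)
(mv 778 (cons (fin 842 7 778)
(mv 779 (cons (fin 714 7 714)
(fin 972 4 779)))))))
(mv 844 (cons (fin 911 0 843)
(mv 778 (cons (fin 779 3 778)
(mv 842 (cons (fin 777 3 777)
(fin 909 0 842))))))))))))))
(mv 782 (cons (fin 973 5 781)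
(mv 783 (cons (fin 719 6 718)
(fin 847 6 782))))))))
(cons (mv 846 (cons (fin 1101 5 845)
(mv 781 (cons (fin 845 7 781)
(mv 782 (cons (fin 717 7 717)
(mv 783 (cons (fin 719 6 718)
(fin 847 6 782)))))))))
(mv 846 (cons (fin 1101 5 845)
(mv 782 (cons (fin 973 5 781)
(mv 783 (cons (fin 719 6 718)
(fin 847 6 782)))))))))))))))))
(mv 971 (cons (fin 970 3 970)
(mv 974 (cons (fin 975 2 971)
(mv 1098 (cons (fin 1099 1 1034)
(mv 1034 (cons (fin 1097 1 1033)
(mv 907 (cons (fin 843 5 842)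
(mv 1226 (cons (fin 1162 6 970)
(mv 1100 (cons (mv 1164 (cons (fin 972 7 907)
(fin 1228 7 971)))
(cons (mv 1033 (cons (fin 1101 0 1033)
(mv 1032 (cons (fin 972 2 968)
(mv 967 (cons (fin 968 3 967)
(mv 1031 (cons (fin 966 3 966)
(mv 1095 (cons (fin 1094 1 1030)
(fin 1096 1 1031)))))))))))
(mv 1101 (cons (fin 1033 0 1033)
(mv 1228 (cons (fin 1164 7 971)
(mv 1229 (cons (fin 1165 6 973)
(mv 1227 (cons (cons (mv 846 (cons (fin 910 5 845)
(mv 1289 (cons (fin 1290 1 1225)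
(mv 1225 (cons (fin 1288 1 1224)
(mv 1293 (cons (fin 1292 0 1225)
(fin 1294 0 1226)))))))))
(mv 1293 (cons (fin 1294 0 1226)
(mv 1225 (cons (fin 1292 0 1225)
(mv 1224 (cons (mv 1160 (cons (fin 1159 3 1159)
(fin 1161 3 1160)))
(mv 1288 (cons (fin 1287 1 1223)
(fin 1289 1 1224))))))))))
(cons (mv 1290 (cons (fin 1289 1 1225)
(mv 1230 (cons (fin 1291 1 1226)
(mv 1231 (cons (mv 1167 (cons (fin 1166 2 1163)
(fin 1168 2 1164)))
(mv 1295 (cons (fin 1294 0 1227)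
(fin 1296 0 1228)))))))))
(cons (mv 1294 (cons (fin 1293 0 1226)
(mv 1230 (cons (fin 1295 0 1227)
(mv 1231 (cons (mv 1167 (cons (fin 1166 2 1163)
(fin 1168 2 1164)))
(mv 1291 (cons (fin 1290 1 1226)
(fin 1292 1 1227)))))))))
(mv 1289 (cons (fin 1290 1 1225)
(mv 1225 (cons (fin 1288 1 1224)
(mv 1224 (cons (mv 1160 (cons (fin 1159 3 1159)
(fin 1161 3 1160)))
(mv 1292 (cons (fin 1291 0 1224)
(fin 1293 0 1225))))))))))))))))))))))))))))))))))))))
(cons (mv 1038 (cons (cons (mv 970 (cons (fin 971 3 970)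
(mv 974 (cons (fin 975 2 971)
(mv 1098 (cons (fin 1099 1 1034)
(mv 1034 (cons (fin 1097 1 1033)
(mv 1102 (cons (fin 1101 0 1034)
(fin 1103 0 1035)))))))))))
(cons (mv 971 (cons (fin 970 3 970)
(mv 974 (cons (fin 975 2 971)
(mv 1098 (cons (fin 1099 1 1034)
(mv 1034 (cons (fin 1097 1 1033)
(mv 907 (cons (fin 843 5 842)
(mv 1226 (cons (fin 1162 6 970)
(mv 1100 (cons (mv 1164 (cons (fin 972 7 907)
(fin 1228 7 971)))
(cons (mv 1033 (cons (fin 1101 0 1033)
(mv 1032 (cons (fin 972 2 968)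
(mv 967 (cons (fin 968 3 967)
(mv 1031 (cons (fin 966 3 966)
(mv 1095 (cons (fin 1094 1 1030)
(fin 1096 1 1031)))))))))))
(mv 1101 (cons (fin 1033 0 1033)
(mv 1228 (cons (fin 1164 7 971)
(mv 1229 (cons (fin 1165 6 973)
(mv 1227 (cons (cons (mv 846 (cons (fin 910 5 845)
(mv 1289 (cons (fin 1290 1 1225)
(mv 1225 (cons (fin 1288 1 1224)
(mv 1293 (cons (fin 1292 0 1225)
(fin 1294 0 1226)))))))))
(mv 1293 (cons (fin 1294 0 1226)
(mv 1225 (cons (fin 1292 0 1225)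
(mv 1224 (cons (mv 1160 (cons (fin 1159 3 1159)
(fin 1161 3 1160)))
(mv 1288 (cons (fin 1287 1 1223)
(fin 1289 1 1224))))))))))
(cons (mv 1290 (cons (fin 1289 1 1225)
(mv 1230 (cons (fin 1291 1 1226)
(mv 1231 (cons (mv 1167 (cons (fin 1166 2 1163)
(fin 1168 2 1164)))
(mv 1295 (cons (fin 1294 0 1227)
(fin 1296 0 1228)))))))))
(cons (mv 1294 (cons (fin 1293 0 1226)
(mv 1230 (cons (fin 1295 0 1227)
(mv 1231 (cons (mv 1167 (cons (fin 1166 2 1163)
(fin 1168 2 1164)))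
(mv 1291 (cons (fin 1290 1 1226)
(fin 1292 1 1227)))))))))
(mv 1289 (cons (fin 1290 1 1225)
(mv 1225 (cons (fin 1288 1 1224)
(mv 1224 (cons (mv 1160 (cons (fin 1159 3 1159)
(fin 1161 3 1160)))
(mv 1292 (cons (fin 1291 0 1224)
(fin 1293 0 1225))))))))))))))))))))))))))))))))))
(mv 970 (cons (fin 971 3 970)
(mv 974 (cons (fin 975 2 971)
(mv 1102 (cons (fin 1103 0 1035)
(mv 1101 (cons (fin 1034 0 1034)
(mv 910 (cons (fin 846 5 845)
(fin 1165 5 909)))))))))))))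
(cons (cons (mv 970 (cons (fin 971 3 970)
(mv 1098 (cons (fin 1099 1 1034)
(mv 1034 (cons (fin 1097 1 1033)
(mv 1102 (cons (fin 1101 0 1034)
(fin 1103 0 1035)))))))))
(mv 974 (cons (fin 975 2 971)
(mv 1098 (cons (fin 1099 1 1034)
(mv 1034 (cons (fin 1097 1 1033)
(mv 1102 (cons (fin 1101 0 1034)
(fin 1103 0 1035))))))))))
(cons (mv 970 (cons (fin 971 3 970)
(mv 974 (cons (fin 975 2 971)
(mv 1098 (cons (fin 1099 1 1034)
(mv 1102 (cons (fin 1103 0 1035)
(mv 910 (cons (mv 1101 (cons (fin 846 5 845)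
(fin 1165 5 909)))
(cons (mv 845 (cons (fin 909 7 845)
(mv 846 (cons (fin 781 7 781)
(mv 847 (cons (fin 783 6 782)
(fin 911 6 846)))))))
(mv 845 (cons (fin 909 7 845)
(mv 847 (cons (fin 911 6 846)
(mv 1166 (cons (cons (mv 1165 (cons (fin 1101 5 909)
(fin 1229 5 973)))
(mv 1231 (cons (fin 1167 4 974)
(mv 1230 (cons (fin 1295 4 1038)
(mv 1293 (cons (fin 1229 5 1037)
(mv 1294 (cons (fin 1101 7 1037)
(fin 1357 5 1101))))))))))
(cons (mv 1229 (cons (fin 1165 5 973)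
(mv 1230 (cons (fin 1293 5 1037)
(mv 1231 (cons (fin 1167 4 974)
(fin 1295 4 1038)))))))
(mv 1101 (cons (fin 1165 5 909)
(mv 1230 (cons (fin 1294 7 1037)
(mv 1231 (cons (fin 1167 4 974)
(fin 1295 4 1038)))))))))))))))))))))))))
(mv 971 (cons (fin 970 3 970)
(mv 974 (cons (fin 975 2 971)
(mv 1099 (cons (fin 1098 1 1034)
(mv 1102 (cons (fin 1103 0 1035)
(mv 1163 (cons (mv 972 (cons (fin 908 6 907)
(fin 1227 6 971)))
(cons (mv 1162 (cons (fin 1226 5 970)
(mv 1164 (cons (fin 1228 4 971)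
(mv 907 (cons (fin 1100 4 907)
(mv 842 (cons (fin 906 7 842)
(mv 843 (cons (fin 778 7 778)
(mv 844 (cons (fin 780 6 779)
(fin 908 6 843)))))))))))))
(mv 972 (cons (fin 1227 6 971)
(mv 1162 (cons (fin 1226 5 970)
(mv 1164 (cons (fin 1228 4 971)
(mv 907 (cons (fin 1100 7 907)
(mv 842 (cons (fin 906 7 842)
(mv 843 (cons (fin 778 7 778)
(fin 779 4 779))))))))))))))))))))))))))))
(mv 1038 (cons (cons (mv 970 (cons (fin 971 3 970)
(mv 974 (cons (fin 975 2 971)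
(mv 973 (cons (fin 1034 2 970)
(mv 1098 (cons (fin 1099 1 1034)
(mv 1102 (cons (fin 1103 0 1035)
(mv 909 (cons (fin 1166 7 909)
(fin 845 4 845)))))))))))))
(mv 971 (cons (fin 970 3 970)
(mv 1099 (cons (fin 1098 1 1034)
(mv 1102 (cons (fin 1103 0 1035)
(mv 907 (cons (cons (mv 1100 (cons (fin 843 4 843)
(fin 1164 4 907)))
(mv 842 (cons (fin 906 7 842)
(mv 778 (cons (fin 843 7 778)
(mv 908 (cons (fin 844 6 843)
(mv 1163 (cons (fin 972 6 907)
(mv 1226 (cons (fin 1162 5 970)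
(mv 1227 (cons (fin 1290 5 1034)
(mv 1228 (cons (fin 1164 4 971)
(fin 1292 4 1035))))))))))))))))
(cons (mv 842 (cons (fin 906 7 842)
(mv 844 (cons (fin 908 6 843)
(mv 1164 (cons (fin 1100 4 907)
(mv 1163 (cons (fin 1228 4 971)
(mv 1226 (cons (fin 1162 5 970)
(mv 1227 (cons (fin 1290 5 1034)
(fin 972 6 971)))))))))))))
(mv 842 (cons (fin 906 7 842)
(mv 843 (cons (fin 778 7 778)
(fin 1100 4 843)))))))))))))))
(cons (mv 970 (cons (fin 971 3 970)
(mv 974 (cons (fin 975 2 971)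
(mv 973 (cons (fin 1034 2 970)
(mv 1102 (cons (fin 1103 0 1035)
(mv 909 (cons (fin 1166 7 909)
(fin 845 4 845)))))))))))
(cons (mv 974 (cons (fin 975 2 971)
(mv 973 (cons (fin 1034 2 970)
(mv 1098 (cons (fin 1099 1 1034)
(mv 1102 (cons (fin 1103 0 1035)
(mv 909 (cons (fin 1166 7 909)
(fin 845 4 845)))))))))))
(mv 970 (cons (fin 971 3 970)
(mv 974 (cons (fin 975 2 971)
(mv 1034 (cons (fin 973 2 970)
(mv 1098 (cons (fin 1097 1 1033)
(fin 1099 1 1034)))))))))))))))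
(cons (mv 1038 (cons (cons (mv 970 (cons (fin 971 3 970)
(mv 974 (cons (fin 975 2 971)
(mv 973 (cons (fin 1034 2 970)
(mv 1098 (cons (fin 1099 1 1034)
(mv 1102 (cons (fin 1103 0 1035)
(mv 1166 (cons (fin 1230 7 973)
(mv 1165 (cons (fin 1229 5 973)
(mv 910 (cons (fin 1101 5 909)
(mv 846 (cons (fin 782 5 781)
(mv 847 (cons (fin 783 6 782)
(fin 911 6 846)))))))))))))))))))))
(cons (mv 970 (cons (fin 971 3 970)
(mv 1098 (cons (fin 1099 1 1034)
(mv 1034 (cons (fin 1097 1 1033)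
(mv 1102 (cons (fin 1101 0 1034)
(fin 1103 0 1035)))))))))
(mv 970 (cons (fin 971 3 970)
(mv 974 (cons (fin 975 2 971)
(mv 1034 (cons (fin 973 2 970)
(mv 1098 (cons (fin 1097 1 1033)
(fin 1099 1 1034)))))))))))
(cons (mv 970 (cons (fin 971 3 970)
(mv 974 (cons (fin 975 2 971)
(mv 973 (cons (fin 1034 2 970)
(mv 1102 (cons (fin 1103 0 1035)
(mv 1166 (cons (fin 1230 7 973)
(mv 1165 (cons (fin 1229 5 973)
(mv 910 (cons (fin 1101 5 909)
(mv 846 (cons (fin 782 5 781)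
(mv 847 (cons (fin 783 6 782)
(fin 911 6 846)))))))))))))))))))
(cons (mv 974 (cons (fin 975 2 971)
(mv 973 (cons (fin 1034 2 970)
(mv 1098 (cons (fin 1099 1 1034)
(mv 1102 (cons (fin 1103 0 1035)
(mv 1166 (cons (fin 1230 7 973)
(mv 1165 (cons (fin 1229 5 973)
(mv 910 (cons (fin 1101 5 909)
(mv 846 (cons (fin 782 5 781)
(mv 847 (cons (fin 783 6 782)
(fin 911 6 846)))))))))))))))))))
(mv 970 (cons (fin 971 3 970)
(mv 974 (cons (fin 975 2 971)
(mv 1098 (cons (fin 1099 1 1034)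
(mv 1102 (cons (fin 1103 0 1035)
(mv 910 (cons (mv 1101 (cons (fin 846 5 845)
(fin 1165 5 909)))
(cons (mv 847 (cons (fin 911 6 846)
(mv 846 (cons (fin 783 6 782)
(mv 781 (cons (fin 845 7 781)
(mv 782 (cons (fin 717 7 717)
(fin 973 5 781)))))))))
(mv 847 (cons (fin 911 6 846)
(mv 1165 (cons (fin 1101 5 909)
(mv 1166 (cons (fin 1229 5 973)
(mv 1230 (cons (fin 973 7 973)
(mv 1231 (cons (fin 1167 4 974)
(fin 1295 4 1038))))))))))))))))))))))))))
(cons (mv 1038 (cons (cons (mv 970 (cons (fin 971 3 970)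
(mv 974 (cons (fin 975 2 971)
(mv 973 (cons (fin 1034 2 970)
(mv 1098 (cons (fin 1099 1 1034)
(mv 1102 (cons (fin 1103 0 1035)
(mv 1166 (cons (fin 909 7 909)
(fin 1230 7 973)))))))))))))
(cons (mv 970 (cons (fin 971 3 970)
(mv 1098 (cons (fin 1099 1 1034)
(mv 1034 (cons (fin 1097 1 1033)
(mv 1102 (cons (fin 1101 0 1034)
(fin 1103 0 1035)))))))))
(mv 970 (cons (fin 971 3 970)
(mv 974 (cons (fin 975 2 971)
(mv 1034 (cons (fin 973 2 970)
(mv 1098 (cons (fin 1097 1 1033)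
(fin 1099 1 1034)))))))))))
(cons (mv 970 (cons (fin 971 3 970)
(mv 974 (cons (fin 975 2 971)
(mv 973 (cons (fin 1034 2 970)
(mv 1102 (cons (fin 1103 0 1035)
(mv 1166 (cons (fin 909 7 909)
(fin 1230 7 973)))))))))))
(cons (mv 974 (cons (fin 975 2 971)
(mv 973 (cons (fin 1034 2 970)
(mv 1098 (cons (fin 1099 1 1034)
(mv 1102 (cons (fin 1103 0 1035)
(mv 1166 (cons (fin 909 7 909)
(fin 1230 7 973)))))))))))
(mv 970 (cons (fin 971 3 970)
(mv 974 (cons (fin 975 2 971)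
(mv 1098 (cons (fin 1099 1 1034)
(mv 1102 (cons (fin 1103 0 1035)
(mv 1166 (cons (mv 973 (cons (fin 909 7 909)
(fin 1230 7 973)))
(mv 1165 (cons (fin 1229 5 973)
(mv 1101 (cons (fin 910 5 909)
(mv 1167 (cons (fin 1231 4 974)
(mv 1168 (cons (fin 1100 3 1100)
(fin 1169 3 1101)))))))))))))))))))))))
(mv 1038 (cons (cons (mv 970 (cons (fin 971 3 970)
(mv 974 (cons (fin 975 2 971)
(mv 1034 (cons (fin 973 2 970)
(mv 1098 (cons (fin 1097 1 1033)
(fin 1099 1 1034)))))))))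
(mv 970 (cons (fin 971 3 970)
(mv 1098 (cons (fin 1099 1 1034)
(mv 1034 (cons (fin 1097 1 1033)
(mv 1102 (cons (fin 1101 0 1034)
(fin 1103 0 1035))))))))))
(cons (mv 970 (cons (fin 971 3 970)
(mv 974 (cons (fin 975 2 971)
(mv 1034 (cons (fin 973 2 970)
(mv 1102 (cons (fin 1101 0 1034)
(fin 1103 0 1035)))))))))
(cons (mv 974 (cons (fin 975 2 971)
(mv 1034 (cons (fin 973 2 970)
(mv 1098 (cons (fin 1097 1 1033)
(fin 1099 1 1034)))))))
(mv 970 (cons (fin 971 3 970)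
(mv 974 (cons (fin 975 2 971)
(mv 1099 (cons (fin 1098 1 1034)
(mv 1102 (cons (fin 1103 0 1035)
(mv 910 (cons (mv 1101 (cons (fin 846 5 845)
(fin 1165 5 909)))
(cons (mv 845 (cons (fin 909 7 845)
(mv 846 (cons (fin 781 7 781)
(mv 847 (cons (fin 783 6 782)
(fin 911 6 846)))))))
(mv 909 (cons (fin 845 7 845)
(mv 911 (cons (fin 847 6 846)
(mv 1101 (cons (fin 1165 5 909)
(mv 912 (cons (mv 973 (cons (fin 972 1 908)
(fin 913 1 909)))
(cons (mv 849 (cons (fin 848 2 845)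
(mv 913 (cons (fin 850 2 846)
(mv 976 (cons (fin 977 0 909)
(fin 1104 6 848)))))))
(mv 848 (cons (fin 849 2 845)
(mv 972 (cons (fin 973 1 908)
(mv 908 (cons (fin 844 5 843)
(mv 1163 (cons (fin 1100 5 907)
(fin 1227 6 971))))))))))))))))))))))))))))))))))))))
def l95 : Lem := ⟨13990367052752487320312544716796506086908544040920606671647422636019387761887306954839904539139044083307651742587111316666437654968213159228883358442086434255575408537896731526142943938247376028752316727663063488954060238702619831287825813914729338905000590143517244074225654467916245441707506770996675619254697984, 16121223009876685611601126859044828855182480947536007034511067595719372836674807856758791442488375397599851090204759823511436435920573134455237221080326358909129265000372495239926683658660338162513423907454477245694924131993928185589782978905716370991453654275631604887538302367441460088127691545251579951801119374706792839799336973969427036810583247267061977533451396437368662405271319548860162258644557103104,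 16121223009876685611601126859044828855182480947536007034511067595719372836674807856758791442488375397599851090204759823511436435920573134455237221080326358909129265000372495239926683658660338162513423907454477245694924131993928185589782978905716370991453654275631604887538302367441460088127691545251579951801119374706792839799336973969427036810583247267061977533451396437368662405271319548860162258644557103104, 18, 33⟩
theorem l95_valid : l95.Valid :=
  Lem.valid_of_chk t95 t95_valid [1036, 1037, 1040] c95 l95 (by decide +kernel)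
end Crest.Agent.SnakyAux
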