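import Crest.Agent.S0047_aux.Checker
import Crest.Agent.S0047_aux.L89
import Crest.Agent.S0047_aux.L90
import Crest.Agent.S0047_aux.L91
import Crest.Agent.S0047_aux.L92
import Crest.Agent.S0047_aux.L93
import Crest.Agent.S0047_aux.L94
import Crest.Agent.S0047_aux.L95
set_option autoImplicit false
set_option maxRecDepth 100000
namespace Crest.Agent.SnakyAux
open Cert
def t96 : Tbl := (Tbl.node (Tbl.node (Tbl.node (Tbl.leaf l89) (Tbl.leaf l93)) (Tbl.node (Tbl.leaf l91) (Tbl.leaf l95))) (Tbl.node (Tbl.node (Tbl.leaf l90) (Tbl.leaf l94)) (Tbl.leaf l92)))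
theorem t96_valid : t96.Valid := (Tbl.valid_node (Tbl.valid_node (Tbl.valid_node (Tbl.valid_leaf l89_valid) (Tbl.valid_leaf l93_valid)) (Tbl.valid_node (Tbl.valid_leaf l91_valid) (Tbl.valid_leaf l95_valid))) (Tbl.valid_node (Tbl.valid_node (Tbl.valid_leaf l90_valid) (Tbl.valid_leaf l94_valid)) (Tbl.valid_leaf l92_valid)))
def c96 : Cert :=
(mv 1036 (cons (cons (cons (cons (cons (mv 1035 (cons (cons (mv 1034 (cons (cons (mv 969 (cons (fin 970 3 969)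
(mv 968 (cons (fin 1033 3 968)
(mv 973 (cons (fin 974 2 970)
(mv 1098 (cons (fin 1097 1 1033)
(mv 1038 (cons (fin 1099 1 1034)
(mv 1102 (cons (fin 1101 0 1034)
(fin 1103 0 1035)))))))))))))
(cons (mv 973 (cons (fin 974 2 970)
(mv 972 (cons (fin 1033 2 969)
(mv 1097 (cons (fin 1098 1 1033)
(mv 1101 (cons (fin 1102 0 1034)
(mv 908 (cons (fin 1165 7 908)
(fin 844 4 844)))))))))))
(mv 969 (cons (fin 970 3 969)
(mv 968 (cons (fin 1033 3 968)
(mv 974 (cons (fin 973 2 970)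
(mv 1038 (cons (fin 975 2 971)
(mv 1102 (cons (fin 1101 0 1034)
(fin 1103 0 1035)))))))))))))
(cons (mv 969 (cons (fin 970 3 969)
(mv 968 (cons (fin 1033 3 968)
(mv 1098 (cons (fin 1097 1 1033)
(mv 1038 (cons (fin 1099 1 1034)
(mv 1102 (cons (fin 1101 0 1034)
(fin 1103 0 1035)))))))))))
(cons (mv 969 (cons (fin 970 3 969)
(mv 968 (cons (fin 1033 3 968)
(mv 974 (cons (fin 973 2 970)
(mv 1038 (cons (fin 975 2 971)
(mv 1098 (cons (fin 1097 1 1033)
(fin 1099 1 1034)))))))))))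
(mv 969 (cons (fin 970 3 969)
(mv 973 (cons (fin 974 2 970)
(mv 1098 (cons (fin 1097 1 1033)
(mv 1038 (cons (fin 1099 1 1034)
(mv 1102 (cons (fin 1101 0 1034)
(fin 1103 0 1035)))))))))))))))
(cons (mv 1038 (cons (cons (mv 970 (cons (fin 971 3 970)
(mv 974 (cons (fin 975 2 971)
(mv 1098 (cons (fin 1099 1 1034)
(mv 1102 (cons (fin 1103 0 1035)
(mv 910 (cons (mv 1101 (cons (fin 846 5 845)
(fin 1165 5 909)))
(cons (mv 845 (cons (fin 909 7 845)
(mv 846 (cons (fin 781 7 781)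
(mv 847 (cons (fin 783 6 782)
(fin 911 6 846)))))))
(mv 845 (cons (fin 909 7 845)
(mv 847 (cons (fin 911 6 846)
(mv 1165 (cons (fin 1101 5 909)
(mv 1166 (cons (fin 1229 5 973)
(mv 1230 (cons (fin 973 7 973)
(mv 1231 (cons (fin 1167 4 974)
(fin 1295 4 1038))))))))))))))))))))))))
(cons (mv 974 (cons (fin 975 2 971)
(mv 1098 (cons (fin 1099 1 1034)
(mv 1102 (cons (fin 1103 0 1035)
(mv 910 (cons (mv 1101 (cons (fin 846 5 845)
(fin 1165 5 909)))
(cons (mv 845 (cons (fin 909 7 845)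
(mv 846 (cons (fin 781 7 781)
(mv 847 (cons (fin 783 6 782)
(fin 911 6 846)))))))
(mv 845 (cons (fin 909 7 845)
(mv 847 (cons (fin 911 6 846)
(mv 1165 (cons (fin 1101 5 909)
(mv 1166 (cons (fin 1229 5 973)
(mv 1230 (cons (fin 973 7 973)
(mv 1231 (cons (fin 1167 4 974)
(fin 1295 4 1038))))))))))))))))))))))
(mv 970 (cons (fin 971 3 970)
(mv 974 (cons (fin 975 2 971)
(mv 1102 (cons (fin 1103 0 1035)
(mv 910 (cons (mv 1101 (cons (fin 846 5 845)
(fin 1165 5 909)))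
(cons (mv 845 (cons (fin 909 7 845)
(mv 846 (cons (fin 781 7 781)
(mv 847 (cons (fin 783 6 782)
(fin 911 6 846)))))))
(mv 845 (cons (fin 909 7 845)
(mv 847 (cons (fin 911 6 846)
(mv 1165 (cons (fin 1101 5 909)
(mv 1166 (cons (fin 1229 5 973)
(mv 1230 (cons (fin 973 7 973)
(mv 1231 (cons (fin 1167 4 974)
(fin 1295 4 1038))))))))))))))))))))))))
(cons (mv 971 (cons (fin 970 3 970)
(mv 1099 (cons (fin 1098 1 1034)
(mv 1102 (cons (fin 1103 0 1035)
(mv 1163 (cons (mv 972 (cons (fin 908 6 907)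
(fin 1227 6 971)))
(mv 1162 (cons (fin 1226 5 970)
(mv 1100 (cons (fin 1101 1 1098)
(mv 907 (cons (fin 843 4 843)
(fin 1164 4 907)))))))))))))))
(cons (mv 971 (cons (fin 970 3 970)
(mv 974 (cons (fin 975 2 971)
(mv 1099 (cons (fin 1098 1 1034)
(mv 907 (cons (cons (mv 1100 (cons (fin 843 4 843)
(fin 1164 4 907)))
(mv 842 (cons (fin 906 7 842)
(mv 778 (cons (fin 843 7 778)
(mv 908 (cons (fin 844 6 843)
(mv 1163 (cons (fin 972 6 907)
(mv 1164 (cons (fin 1228 4 971)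
(mv 1226 (cons (fin 1162 5 970)
(mv 1227 (cons (fin 1290 5 1034)
(mv 1165 (cons (fin 1166 1 1162)
(mv 1101 (cons (fin 1229 6 973)
(mv 910 (cons (fin 846 5 845)
(fin 973 6 909))))))))))))))))))))))
(cons (mv 842 (cons (fin 906 7 842)
(mv 844 (cons (fin 908 6 843)
(mv 1164 (cons (fin 1100 4 907)
(mv 1163 (cons (fin 1228 4 971)
(mv 1226 (cons (fin 1162 5 970)
(mv 1227 (cons (fin 1290 5 1034)
(fin 972 6 971)))))))))))))
(mv 842 (cons (fin 906 7 842)
(mv 843 (cons (fin 778 7 778)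
(fin 1100 4 843))))))))))))))
(mv 970 (cons (fin 971 3 970)
(mv 974 (cons (fin 975 2 971)
(mv 1098 (cons (fin 1099 1 1034)
(mv 1102 (cons (fin 1103 0 1035)
(mv 910 (cons (cons (mv 845 (cons (fin 909 7 845)
(mv 846 (cons (fin 781 7 781)
(mv 847 (cons (fin 783 6 782)
(fin 911 6 846)))))))
(mv 847 (cons (fin 911 6 846)
(mv 846 (cons (fin 783 6 782)
(mv 781 (cons (fin 845 7 781)
(mv 782 (cons (fin 717 7 717)
(fin 973 5 781))))))))))
(cons (mv 847 (cons (fin 911 6 846)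
(mv 846 (cons (fin 783 6 782)
(mv 973 (cons (fin 782 5 781)
(mv 1166 (cons (fin 909 7 909)
(fin 1230 7 973)))))))))
(mv 909 (cons (fin 845 7 845)
(mv 1166 (cons (fin 973 7 909)
(mv 1229 (cons (fin 1165 5 973)
(mv 1230 (cons (fin 1293 5 1037)
(mv 1231 (cons (fin 1167 4 974)
(fin 1295 4 1038))))))))))))))))))))))))))
(mv 1034 (cons (cons (mv 969 (cons (fin 970 3 969)
(mv 973 (cons (fin 974 2 970)
(mv 1033 (cons (fin 968 3 968)
(fin 972 2 969)))))))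
(mv 969 (cons (fin 970 3 969)
(mv 1033 (cons (fin 968 3 968)
(mv 1097 (cons (fin 1096 1 1032)
(fin 1098 1 1033))))))))
(cons (mv 973 (cons (fin 974 2 970)
(mv 972 (cons (fin 1033 2 969)
(mv 1097 (cons (fin 1098 1 1033)
(mv 1101 (cons (fin 1102 0 1034)
(mv 908 (cons (fin 1165 7 908)
(fin 844 4 844)))))))))))
(mv 969 (cons (fin 970 3 969)
(mv 973 (cons (fin 974 2 970)
(mv 1097 (cons (fin 1098 1 1033)
(mv 1101 (cons (fin 1102 0 1034)
(mv 909 (cons (mv 1100 (cons (fin 845 5 844)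
(fin 1164 5 908)))
(cons (mv 844 (cons (fin 908 7 844)
(mv 845 (cons (fin 780 7 780)
(mv 846 (cons (fin 782 6 781)
(fin 910 6 845)))))))
(mv 844 (cons (fin 908 7 844)
(mv 846 (cons (fin 910 6 845)
(mv 1164 (cons (fin 1100 5 908)
(mv 1165 (cons (fin 1228 5 972)
(mv 1229 (cons (fin 972 7 972)
(mv 1230 (cons (fin 1166 4 973)
(fin 1294 4 1037)))))))))))))))))))))))))))))
(cons (cons (mv 1034 (cons (cons (mv 973 (cons (fin 974 2 970)
(mv 972 (cons (fin 1033 2 969)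
(mv 1097 (cons (fin 1098 1 1033)
(mv 1101 (cons (fin 1102 0 1034)
(mv 908 (cons (fin 1165 7 908)
(fin 844 4 844)))))))))))
(mv 973 (cons (fin 974 2 970)
(mv 972 (cons (fin 1033 2 969)
(mv 1098 (cons (fin 1097 1 1033)
(mv 1099 (cons (fin 1038 1 1034)
(mv 908 (cons (fin 844 5 843)
(mv 1163 (cons (fin 1100 5 907)
(fin 971 6 907))))))))))))))
(cons (mv 1097 (cons (fin 1098 1 1033)
(mv 1033 (cons (fin 1096 1 1032)
(mv 1101 (cons (fin 1100 0 1033)
(fin 1102 0 1034)))))))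
(cons (mv 973 (cons (fin 974 2 970)
(mv 972 (cons (fin 1033 2 969)
(mv 1101 (cons (fin 1102 0 1034)
(mv 908 (cons (fin 1165 7 908)
(fin 844 4 844)))))))))
(mv 973 (cons (fin 974 2 970)
(mv 1098 (cons (fin 1097 1 1033)
(mv 1038 (cons (fin 1099 1 1034)
(mv 1102 (cons (fin 1101 0 1034)
(fin 1103 0 1035)))))))))))))
(mv 1034 (cons (cons (mv 969 (cons (fin 970 3 969)
(mv 968 (cons (fin 1033 3 968)
(mv 974 (cons (fin 973 2 970)
(mv 1038 (cons (fin 975 2 971)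
(mv 1102 (cons (fin 1101 0 1034)
(fin 1103 0 1035)))))))))))
(mv 969 (cons (fin 970 3 969)
(mv 1033 (cons (fin 968 3 968)
(mv 1101 (cons (fin 1100 0 1033)
(fin 1102 0 1034))))))))
(cons (mv 969 (cons (fin 970 3 969)
(mv 973 (cons (fin 974 2 970)
(mv 1033 (cons (fin 968 3 968)
(fin 972 2 969)))))))
(cons (mv 973 (cons (fin 974 2 970)
(mv 972 (cons (fin 1033 2 969)
(mv 1101 (cons (fin 1102 0 1034)
(mv 908 (cons (fin 1165 7 908)
(fin 844 4 844)))))))))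
(mv 969 (cons (fin 970 3 969)
(mv 974 (cons (fin 973 2 970)
(mv 1038 (cons (fin 975 2 971)
(mv 1102 (cons (fin 1101 0 1034)
(fin 1103 0 1035))))))))))))))
(cons (mv 1034 (cons (cons (mv 969 (cons (fin 970 3 969)
(mv 968 (cons (fin 1033 3 968)
(mv 1098 (cons (fin 1097 1 1033)
(mv 1038 (cons (fin 1099 1 1034)
(mv 1102 (cons (fin 1101 0 1034)
(fin 1103 0 1035)))))))))))
(mv 1097 (cons (fin 1098 1 1033)
(mv 1033 (cons (fin 1096 1 1032)
(mv 1101 (cons (fin 1100 0 1033)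
(fin 1102 0 1034))))))))
(cons (mv 969 (cons (fin 970 3 969)
(mv 1033 (cons (fin 968 3 968)
(mv 1101 (cons (fin 1100 0 1033)
(fin 1102 0 1034)))))))
(cons (mv 969 (cons (fin 970 3 969)
(mv 1033 (cons (fin 968 3 968)
(mv 1097 (cons (fin 1096 1 1032)
(fin 1098 1 1033)))))))
(mv 969 (cons (fin 970 3 969)
(mv 1098 (cons (fin 1097 1 1033)
(mv 1038 (cons (fin 1099 1 1034)
(mv 1102 (cons (fin 1101 0 1034)
(fin 1103 0 1035)))))))))))))
(mv 1034 (cons (cons (mv 969 (cons (fin 970 3 969)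
(mv 968 (cons (fin 1033 3 968)
(mv 974 (cons (fin 973 2 970)
(mv 1038 (cons (fin 975 2 971)
(mv 1098 (cons (fin 1097 1 1033)
(fin 1099 1 1034)))))))))))
(mv 973 (cons (fin 974 2 970)
(mv 972 (cons (fin 1033 2 969)
(mv 1098 (cons (fin 1097 1 1033)
(mv 1099 (cons (fin 1038 1 1034)
(mv 908 (cons (fin 844 5 843)
(mv 1163 (cons (fin 1100 5 907)
(fin 971 6 907))))))))))))))
(cons (mv 969 (cons (fin 970 3 969)
(mv 973 (cons (fin 974 2 970)
(mv 1033 (cons (fin 968 3 968)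
(fin 972 2 969)))))))
(cons (mv 969 (cons (fin 970 3 969)
(mv 1033 (cons (fin 968 3 968)
(mv 1097 (cons (fin 1096 1 1032)
(fin 1098 1 1033)))))))
(mv 969 (cons (fin 970 3 969)
(mv 974 (cons (fin 973 2 970)
(mv 1038 (cons (fin 975 2 971)
(mv 1098 (cons (fin 1097 1 1033)
(fin 1099 1 1034)))))))))))))))))
(ref 0 0))
(cons (mv 1035 (cons (cons (cons (mv 1038 (cons (cons (mv 970 (cons (fin 971 3 970)
(mv 974 (cons (fin 975 2 971)
(mv 1034 (cons (fin 969 3 969)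
(mv 1098 (cons (fin 1097 1 1033)
(fin 1099 1 1034)))))))))
(mv 970 (cons (fin 971 3 970)
(mv 974 (cons (fin 975 2 971)
(mv 1034 (cons (fin 969 3 969)
(mv 1102 (cons (fin 1101 0 1034)
(fin 1103 0 1035))))))))))
(cons (mv 974 (cons (fin 975 2 971)
(mv 1098 (cons (fin 1099 1 1034)
(mv 1034 (cons (fin 1097 1 1033)
(mv 1102 (cons (fin 1101 0 1034)
(fin 1103 0 1035)))))))))
(cons (mv 970 (cons (fin 971 3 970)
(mv 1034 (cons (fin 969 3 969)
(mv 1098 (cons (fin 1097 1 1033)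
(fin 1099 1 1034)))))))
(mv 970 (cons (fin 971 3 970)
(mv 974 (cons (fin 975 2 971)
(mv 1098 (cons (fin 1099 1 1034)
(mv 1102 (cons (fin 1103 0 1035)
(mv 910 (cons (mv 1101 (cons (fin 846 5 845)
(fin 1165 5 909)))
(cons (mv 845 (cons (fin 909 7 845)
(mv 846 (cons (fin 781 7 781)
(mv 847 (cons (fin 783 6 782)
(fin 911 6 846)))))))
(mv 845 (cons (fin 909 7 845)
(mv 847 (cons (fin 911 6 846)
(mv 1166 (cons (cons (mv 1165 (cons (fin 1101 5 909)
(fin 1229 5 973)))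
(mv 1231 (cons (fin 1167 4 974)
(mv 1230 (cons (fin 1295 4 1038)
(mv 1293 (cons (fin 1229 5 1037)
(mv 1294 (cons (fin 1101 7 1037)
(fin 1357 5 1101))))))))))
(cons (mv 1229 (cons (fin 1165 5 973)
(mv 1230 (cons (fin 1293 5 1037)
(mv 1231 (cons (fin 1167 4 974)
(fin 1295 4 1038)))))))
(mv 1101 (cons (fin 1165 5 909)
(mv 1230 (cons (fin 1294 7 1037)
(mv 1231 (cons (fin 1167 4 974)
(fin 1295 4 1038)))))))))))))))))))))))))))))
(mv 1034 (cons (cons (mv 969 (cons (fin 970 3 969)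
(mv 1033 (cons (fin 968 3 968)
(mv 1097 (cons (fin 1096 1 1032)
(fin 1098 1 1033)))))))
(mv 1097 (cons (fin 1098 1 1033)
(mv 1033 (cons (fin 1096 1 1032)
(mv 1101 (cons (fin 1100 0 1033)
(fin 1102 0 1034))))))))
(cons (mv 969 (cons (fin 970 3 969)
(mv 1033 (cons (fin 968 3 968)
(mv 1101 (cons (fin 1100 0 1033)
(fin 1102 0 1034)))))))
(mv 970 (cons (fin 969 3 969)
(mv 1098 (cons (fin 1097 1 1033)
(mv 1101 (cons (fin 1102 0 1034)
(mv 1162 (cons (mv 971 (cons (fin 907 6 906)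
(fin 1226 6 970)))
(mv 1161 (cons (fin 1225 5 969)
(mv 1099 (cons (fin 1100 1 1097)
(mv 906 (cons (fin 842 4 842)
(fin 1163 4 906)))))))))))))))))))
(cons (mv 1038 (cons (cons (mv 970 (cons (fin 971 3 970)
(mv 974 (cons (fin 975 2 971)
(mv 1098 (cons (fin 1099 1 1034)
(mv 1102 (cons (fin 1103 0 1035)
(mv 910 (cons (mv 1101 (cons (fin 846 5 845)
(fin 1165 5 909)))
(cons (mv 845 (cons (fin 909 7 845)
(mv 846 (cons (fin 781 7 781)
(mv 847 (cons (fin 783 6 782)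
(fin 911 6 846)))))))
(mv 845 (cons (fin 909 7 845)
(mv 847 (cons (fin 911 6 846)
(mv 1166 (cons (cons (mv 1165 (cons (fin 1101 5 909)
(fin 1229 5 973)))
(mv 1231 (cons (fin 1167 4 974)
(mv 1230 (cons (fin 1295 4 1038)
(mv 1293 (cons (fin 1229 5 1037)
(mv 1294 (cons (fin 1101 7 1037)
(fin 1357 5 1101))))))))))
(cons (mv 1229 (cons (fin 1165 5 973)
(mv 1230 (cons (fin 1293 5 1037)
(mv 1231 (cons (fin 1167 4 974)
(fin 1295 4 1038)))))))
(mv 1101 (cons (fin 1165 5 909)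
(mv 1230 (cons (fin 1294 7 1037)
(mv 1231 (cons (fin 1167 4 974)
(fin 1295 4 1038)))))))))))))))))))))))))
(mv 970 (cons (fin 971 3 970)
(mv 974 (cons (fin 975 2 971)
(mv 1102 (cons (fin 1103 0 1035)
(mv 910 (cons (mv 1101 (cons (fin 846 5 845)
(fin 1165 5 909)))
(cons (mv 845 (cons (fin 909 7 845)
(mv 846 (cons (fin 781 7 781)
(mv 847 (cons (fin 783 6 782)
(fin 911 6 846)))))))
(mv 845 (cons (fin 909 7 845)
(mv 847 (cons (fin 911 6 846)
(mv 1166 (cons (cons (mv 1165 (cons (fin 1101 5 909)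
(fin 1229 5 973)))
(mv 1231 (cons (fin 1167 4 974)
(mv 1230 (cons (fin 1295 4 1038)
(mv 1293 (cons (fin 1229 5 1037)
(mv 1294 (cons (fin 1101 7 1037)
(fin 1357 5 1101))))))))))
(cons (mv 1229 (cons (fin 1165 5 973)
(mv 1230 (cons (fin 1293 5 1037)
(mv 1231 (cons (fin 1167 4 974)
(fin 1295 4 1038)))))))
(mv 1101 (cons (fin 1165 5 909)
(mv 1230 (cons (fin 1294 7 1037)
(mv 1231 (cons (fin 1167 4 974)
(fin 1295 4 1038))))))))))))))))))))))))
(cons (mv 974 (cons (fin 975 2 971)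
(mv 1098 (cons (fin 1099 1 1034)
(mv 1102 (cons (fin 1103 0 1035)
(mv 910 (cons (mv 1101 (cons (fin 846 5 845)
(fin 1165 5 909)))
(cons (mv 845 (cons (fin 909 7 845)
(mv 846 (cons (fin 781 7 781)
(mv 847 (cons (fin 783 6 782)
(fin 911 6 846)))))))
(mv 845 (cons (fin 909 7 845)
(mv 847 (cons (fin 911 6 846)
(mv 1166 (cons (cons (mv 1165 (cons (fin 1101 5 909)
(fin 1229 5 973)))
(mv 1231 (cons (fin 1167 4 974)
(mv 1230 (cons (fin 1295 4 1038)
(mv 1293 (cons (fin 1229 5 1037)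
(mv 1294 (cons (fin 1101 7 1037)
(fin 1357 5 1101))))))))))
(cons (mv 1229 (cons (fin 1165 5 973)
(mv 1230 (cons (fin 1293 5 1037)
(mv 1231 (cons (fin 1167 4 974)
(fin 1295 4 1038)))))))
(mv 1101 (cons (fin 1165 5 909)
(mv 1230 (cons (fin 1294 7 1037)
(mv 1231 (cons (fin 1167 4 974)
(fin 1295 4 1038)))))))))))))))))))))))
(cons (mv 971 (cons (fin 970 3 970)
(mv 974 (cons (fin 975 2 971)
(mv 1099 (cons (fin 1098 1 1034)
(mv 1163 (cons (mv 972 (cons (fin 908 6 907)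
(fin 1227 6 971)))
(cons (mv 1162 (cons (fin 1226 5 970)
(mv 1164 (cons (fin 1228 4 971)
(mv 907 (cons (fin 1100 4 907)
(mv 842 (cons (fin 906 7 842)
(mv 843 (cons (fin 778 7 778)
(mv 844 (cons (fin 780 6 779)
(fin 908 6 843)))))))))))))
(mv 972 (cons (fin 1227 6 971)
(mv 1162 (cons (fin 1226 5 970)
(mv 1164 (cons (fin 1228 4 971)
(mv 907 (cons (fin 1100 7 907)
(mv 842 (cons (fin 906 7 842)
(mv 843 (cons (fin 778 7 778)
(fin 779 4 779))))))))))))))))))))))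
(mv 971 (cons (fin 970 3 970)
(mv 1099 (cons (fin 1098 1 1034)
(mv 1102 (cons (fin 1103 0 1035)
(mv 1163 (cons (mv 972 (cons (fin 908 6 907)
(fin 1227 6 971)))
(mv 1162 (cons (fin 1226 5 970)
(mv 1100 (cons (fin 1101 1 1098)
(mv 907 (cons (fin 843 4 843)
(fin 1164 4 907)))))))))))))))))))
(mv 1034 (cons (cons (mv 969 (cons (fin 970 3 969)
(mv 1033 (cons (fin 968 3 968)
(mv 1101 (cons (fin 1100 0 1033)
(fin 1102 0 1034)))))))
(mv 1101 (cons (fin 1102 0 1034)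
(mv 1033 (cons (fin 1100 0 1033)
(mv 968 (cons (fin 969 3 968)
(mv 1032 (cons (fin 967 3 967)
(mv 1096 (cons (fin 1095 1 1031)
(fin 1097 1 1032))))))))))))
(cons (mv 970 (cons (fin 969 3 969)
(mv 971 (cons (fin 1038 3 970)
(mv 1099 (cons (mv 906 (cons (fin 1163 7 906)
(fin 842 4 842)))
(cons (mv 906 (cons (fin 842 4 842)
(mv 907 (cons (mv 843 (cons (fin 779 5 778)
(fin 1100 4 843)))
(cons (mv 908 (cons (fin 844 6 843)
(mv 909 (cons (fin 910 1 906)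
(mv 845 (cons (fin 846 2 842)
(mv 1100 (cons (fin 972 6 844)
(fin 1164 4 907)))))))))
(mv 843 (cons (fin 779 5 778)
(mv 844 (cons (fin 780 6 779)
(fin 908 6 843))))))))))
(mv 1163 (cons (fin 1227 7 970)
(mv 908 (cons (fin 972 6 907)
(mv 907 (cons (fin 844 6 843)
(mv 843 (cons (fin 779 5 778)
(fin 1100 4 843))))))))))))))))
(cons (mv 1101 (cons (fin 1102 0 1034)
(mv 1033 (cons (fin 1100 0 1033)
(mv 1096 (cons (fin 1097 1 1032)
(mv 1032 (cons (fin 1095 1 1031)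
(mv 967 (cons (fin 968 3 967)
(mv 971 (cons (fin 972 2 968)
(mv 970 (cons (fin 1038 3 970)
(fin 1031 2 967)))))))))))))))
(mv 970 (cons (fin 969 3 969)
(mv 1038 (cons (fin 971 3 970)
(mv 1102 (cons (fin 1101 0 1034)
(fin 1103 0 1035)))))))))))))
(cons (cons (mv 1034 (cons (cons (mv 1097 (cons (fin 1098 1 1033)
(mv 1033 (cons (fin 1096 1 1032)
(mv 1101 (cons (fin 1100 0 1033)
(fin 1102 0 1034)))))))
(mv 1101 (cons (fin 1102 0 1034)
(mv 1033 (cons (fin 1100 0 1033)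
(mv 968 (cons (fin 969 3 968)
(mv 1032 (cons (fin 967 3 967)
(mv 1096 (cons (fin 1095 1 1031)
(fin 1097 1 1032))))))))))))
(cons (mv 1098 (cons (fin 1097 1 1033)
(mv 1099 (cons (fin 1038 1 1034)
(mv 971 (cons (mv 907 (cons (fin 843 5 842)
(fin 1162 5 906)))
(cons (mv 1162 (cons (fin 1226 6 970)
(mv 1163 (cons (mv 972 (cons (fin 908 6 907)
(fin 1227 6 971)))
(cons (mv 972 (cons (fin 908 6 907)
(mv 1032 (cons (fin 1033 2 968)
(mv 1164 (cons (fin 1228 4 971)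
(mv 1165 (cons (fin 1166 3 1098)
(mv 1229 (cons (fin 1230 0 1162)
(fin 1100 4 972)))))))))))
(mv 1227 (cons (fin 1291 7 1034)
(mv 1228 (cons (fin 1164 4 971)
(fin 1292 4 1035))))))))))
(mv 907 (cons (fin 843 5 842)
(mv 842 (cons (fin 906 7 842)
(mv 844 (cons (fin 908 6 843)
(mv 1164 (cons (fin 1100 4 907)
(mv 1163 (cons (fin 1228 4 971)
(mv 1227 (cons (fin 1291 7 1034)
(fin 972 6 971))))))))))))))))))))
(cons (mv 1101 (cons (fin 1102 0 1034)
(mv 1100 (cons (fin 1033 0 1033)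
(mv 972 (cons (mv 908 (cons (fin 844 4 844)
(fin 1165 4 908)))
(cons (mv 1165 (cons (fin 1229 7 972)
(mv 1164 (cons (mv 971 (cons (fin 907 7 907)
(fin 1228 7 971)))
(cons (mv 971 (cons (fin 907 7 907)
(mv 1163 (cons (fin 1227 5 971)
(mv 1162 (cons (fin 1161 2 1097)
(mv 1226 (cons (fin 1225 1 1161)
(fin 1099 5 970)))))))))
(mv 1227 (cons (fin 1163 5 971)
(mv 1228 (cons (fin 1291 5 1035)
(fin 1292 6 1036))))))))))
(mv 908 (cons (fin 844 4 844)
(mv 843 (cons (fin 907 7 843)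
(mv 845 (cons (fin 909 6 844)
(mv 1099 (cons (fin 1163 5 907)
(mv 1098 (cons (fin 1038 1 1034)
(mv 1162 (cons (fin 1161 1 1097)
(mv 1226 (cons (fin 971 6 970)
(fin 1290 6 1034))))))))))))))))))))))
(mv 1098 (cons (fin 1097 1 1033)
(mv 1038 (cons (fin 1099 1 1034)
(mv 1102 (cons (fin 1101 0 1034)
(fin 1103 0 1035)))))))))))
(mv 1034 (cons (cons (mv 969 (cons (fin 970 3 969)
(mv 1033 (cons (fin 968 3 968)
(mv 1097 (cons (fin 1096 1 1032)
(fin 1098 1 1033)))))))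
(cons (mv 969 (cons (fin 970 3 969)
(mv 1033 (cons (fin 968 3 968)
(mv 1096 (cons (fin 1097 1 1032)
(mv 1032 (cons (fin 1095 1 1031)
(mv 1100 (cons (fin 1099 0 1032)
(fin 1101 0 1033)))))))))))
(mv 1097 (cons (fin 1098 1 1033)
(mv 1033 (cons (fin 1096 1 1032)
(mv 968 (cons (fin 969 3 968)
(mv 1032 (cons (fin 967 3 967)
(mv 1100 (cons (fin 1099 0 1032)
(fin 1101 0 1033)))))))))))))
(cons (mv 1097 (cons (fin 1098 1 1033)
(mv 1033 (cons (fin 1096 1 1032)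
(mv 1100 (cons (fin 1101 0 1033)
(mv 1032 (cons (fin 1099 0 1032)
(mv 967 (cons (fin 968 3 967)
(mv 971 (cons (fin 972 2 968)
(mv 970 (cons (fin 1038 3 970)
(fin 1031 2 967)))))))))))))))
(cons (mv 969 (cons (fin 970 3 969)
(mv 1033 (cons (fin 968 3 968)
(mv 1100 (cons (fin 1101 0 1033)
(mv 1099 (cons (fin 1032 0 1032)
(mv 1098 (cons (fin 1038 1 1034)
(mv 841 (cons (fin 905 4 841)
(mv 1162 (cons (fin 1226 7 969)
(mv 907 (cons (fin 971 5 906)
(mv 972 (cons (mv 908 (cons (fin 843 7 843)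
(fin 844 5 843)))
(mv 1164 (cons (cons (mv 1163 (cons (fin 1227 5 971)
(mv 1165 (cons (fin 1166 3 1098)
(fin 1229 4 972)))))
(mv 1228 (cons (fin 1292 7 1035)
(mv 1229 (cons (fin 1165 4 972)
(fin 1293 4 1036))))))
(cons (mv 1163 (cons (fin 1227 5 971)
(mv 1161 (cons (fin 1160 2 1096)
(mv 1228 (cons (fin 1229 0 1161)
(fin 1292 7 1035)))))))
(mv 1227 (cons (fin 1163 5 971)
(mv 1228 (cons (fin 1292 7 1035)
(fin 1291 5 1035))))))))))))))))))))))))))
(mv 970 (cons (fin 969 3 969)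
(mv 971 (cons (fin 1038 3 970)
(mv 1098 (cons (fin 1097 1 1033)
(mv 907 (cons (fin 843 5 842)
(fin 1162 6 906))))))))))))))
(cons (mv 1034 (cons (mv 969 (cons (fin 970 3 969)
(mv 1033 (cons (fin 968 3 968)
(mv 1097 (cons (fin 1096 1 1032)
(fin 1098 1 1033)))))))
(cons (mv 1098 (cons (fin 1097 1 1033)
(mv 1099 (cons (fin 1038 1 1034)
(mv 971 (cons (mv 907 (cons (fin 843 5 842)
(fin 1162 5 906)))
(cons (mv 1162 (cons (fin 1226 6 970)
(mv 1163 (cons (mv 972 (cons (fin 908 6 907)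
(fin 1227 6 971)))
(cons (mv 972 (cons (fin 908 6 907)
(mv 1032 (cons (fin 1033 2 968)
(mv 1164 (cons (fin 1228 4 971)
(mv 1165 (cons (fin 1166 3 1098)
(mv 1229 (cons (fin 1230 0 1162)
(fin 1100 4 972)))))))))))
(mv 1227 (cons (fin 1291 7 1034)
(mv 1228 (cons (fin 1164 4 971)
(fin 1292 4 1035))))))))))
(mv 907 (cons (fin 843 5 842)
(mv 842 (cons (fin 906 7 842)
(mv 844 (cons (fin 908 6 843)
(mv 1164 (cons (fin 1100 4 907)
(mv 1163 (cons (fin 1228 4 971)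
(mv 1227 (cons (fin 1291 7 1034)
(fin 972 6 971))))))))))))))))))))
(mv 970 (cons (fin 969 3 969)
(mv 971 (cons (fin 1038 3 970)
(mv 1099 (cons (mv 906 (cons (fin 1163 7 906)
(fin 842 4 842)))
(cons (mv 906 (cons (fin 842 4 842)
(mv 907 (cons (mv 843 (cons (fin 779 5 778)
(fin 1100 4 843)))
(cons (mv 908 (cons (fin 844 6 843)
(mv 909 (cons (fin 910 1 906)
(mv 845 (cons (fin 846 2 842)
(mv 1100 (cons (fin 972 6 844)
(fin 1164 4 907)))))))))
(mv 843 (cons (fin 779 5 778)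
(mv 844 (cons (fin 780 6 779)
(fin 908 6 843))))))))))
(mv 1163 (cons (fin 1227 7 970)
(mv 908 (cons (fin 972 6 907)
(mv 907 (cons (fin 844 6 843)
(mv 843 (cons (fin 779 5 778)
(fin 1100 4 843)))))))))))))))))))
(cons (mv 1034 (cons (cons (mv 969 (cons (fin 970 3 969)
(mv 1033 (cons (fin 968 3 968)
(mv 1097 (cons (fin 1096 1 1032)
(fin 1098 1 1033)))))))
(mv 1097 (cons (fin 1098 1 1033)
(mv 1033 (cons (fin 1096 1 1032)
(mv 1101 (cons (fin 1100 0 1033)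
(fin 1102 0 1034))))))))
(cons (mv 969 (cons (fin 970 3 969)
(mv 1033 (cons (fin 968 3 968)
(mv 1101 (cons (fin 1100 0 1033)
(fin 1102 0 1034)))))))
(mv 970 (cons (fin 969 3 969)
(mv 971 (cons (fin 1038 3 970)
(mv 1098 (cons (fin 1097 1 1033)
(mv 907 (cons (fin 843 5 842)
(fin 1162 6 906))))))))))))
(mv 1034 (cons (cons (mv 969 (cons (fin 970 3 969)
(mv 968 (cons (fin 1033 3 968)
(mv 1098 (cons (fin 1097 1 1033)
(mv 1038 (cons (fin 1099 1 1034)
(mv 1102 (cons (fin 1101 0 1034)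
(fin 1103 0 1035)))))))))))
(mv 969 (cons (fin 970 3 969)
(mv 1033 (cons (fin 968 3 968)
(mv 1097 (cons (fin 1096 1 1032)
(fin 1098 1 1033))))))))
(cons (mv 969 (cons (fin 970 3 969)
(mv 1033 (cons (fin 968 3 968)
(mv 1101 (cons (fin 1100 0 1033)
(fin 1102 0 1034)))))))
(cons (mv 1097 (cons (fin 1098 1 1033)
(mv 1033 (cons (fin 1096 1 1032)
(mv 1101 (cons (fin 1100 0 1033)
(fin 1102 0 1034)))))))
(mv 969 (cons (fin 970 3 969)
(mv 1098 (cons (fin 1097 1 1033)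
(mv 1038 (cons (fin 1099 1 1034)
(mv 1102 (cons (fin 1101 0 1034)
(fin 1103 0 1035))))))))))))))))))
(mv 1035 (cons (cons (cons (mv 1038 (cons (cons (mv 970 (cons (fin 971 3 970)
(mv 974 (cons (fin 975 2 971)
(mv 1034 (cons (fin 969 3 969)
(fin 973 2 970)))))))
(mv 970 (cons (fin 971 3 970)
(mv 1034 (cons (fin 969 3 969)
(mv 1098 (cons (fin 1097 1 1033)
(fin 1099 1 1034))))))))
(cons (mv 974 (cons (fin 975 2 971)
(mv 973 (cons (fin 1034 2 970)
(mv 1098 (cons (fin 1099 1 1034)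
(mv 1102 (cons (fin 1103 0 1035)
(mv 909 (cons (fin 1166 7 909)
(fin 845 4 845)))))))))))
(mv 970 (cons (fin 971 3 970)
(mv 974 (cons (fin 975 2 971)
(mv 1098 (cons (fin 1099 1 1034)
(mv 1102 (cons (fin 1103 0 1035)
(mv 910 (cons (cons (mv 845 (cons (fin 909 7 845)
(mv 846 (cons (fin 781 7 781)
(mv 847 (cons (fin 783 6 782)
(fin 911 6 846)))))))
(mv 847 (cons (fin 911 6 846)
(mv 846 (cons (fin 783 6 782)
(mv 781 (cons (fin 845 7 781)
(mv 782 (cons (fin 717 7 717)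
(fin 973 5 781))))))))))
(cons (mv 847 (cons (fin 911 6 846)
(mv 846 (cons (fin 783 6 782)
(mv 973 (cons (fin 782 5 781)
(mv 1166 (cons (fin 909 7 909)
(fin 1230 7 973)))))))))
(mv 909 (cons (fin 845 7 845)
(mv 1166 (cons (fin 973 7 909)
(mv 1229 (cons (fin 1165 5 973)
(mv 1230 (cons (fin 1293 5 1037)
(mv 1231 (cons (fin 1167 4 974)
(fin 1295 4 1038)))))))))))))))))))))))))
(mv 1034 (cons (cons (mv 969 (cons (fin 970 3 969)
(mv 973 (cons (fin 974 2 970)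
(mv 1033 (cons (fin 968 3 968)
(fin 972 2 969)))))))
(mv 969 (cons (fin 970 3 969)
(mv 1033 (cons (fin 968 3 968)
(mv 1097 (cons (fin 1096 1 1032)
(fin 1098 1 1033))))))))
(cons (mv 973 (cons (fin 974 2 970)
(mv 1033 (cons (fin 972 2 969)
(mv 1097 (cons (fin 1096 1 1032)
(fin 1098 1 1033)))))))
(mv 970 (cons (fin 969 3 969)
(mv 973 (cons (fin 974 2 970)
(mv 1098 (cons (fin 1097 1 1033)
(mv 906 (cons (cons (mv 1099 (cons (fin 842 4 842)
(fin 1163 4 906)))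
(mv 841 (cons (fin 905 7 841)
(mv 777 (cons (fin 842 7 777)
(mv 907 (cons (fin 843 6 842)
(mv 1162 (cons (fin 971 6 906)
(mv 1163 (cons (fin 1227 4 970)
(mv 1225 (cons (fin 1161 5 969)
(mv 1226 (cons (fin 1289 5 1033)
(mv 1164 (cons (fin 1165 1 1161)
(mv 1100 (cons (fin 1228 6 972)
(mv 909 (cons (fin 845 5 844)
(fin 972 6 908))))))))))))))))))))))
(cons (mv 841 (cons (fin 905 7 841)
(mv 843 (cons (fin 907 6 842)
(mv 1163 (cons (fin 1099 4 906)
(mv 1162 (cons (fin 1227 4 970)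
(mv 1225 (cons (fin 1161 5 969)
(mv 1226 (cons (fin 1289 5 1033)
(fin 971 6 970)))))))))))))
(mv 841 (cons (fin 905 7 841)
(mv 842 (cons (fin 777 7 777)
(fin 1099 4 842))))))))))))))))))
(cons (mv 1038 (cons (cons (mv 970 (cons (fin 971 3 970)
(mv 974 (cons (fin 975 2 971)
(mv 1098 (cons (fin 1099 1 1034)
(mv 1102 (cons (fin 1103 0 1035)
(mv 910 (cons (cons (mv 845 (cons (fin 909 7 845)
(mv 846 (cons (fin 781 7 781)
(mv 847 (cons (fin 783 6 782)
(fin 911 6 846)))))))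
(mv 847 (cons (fin 911 6 846)
(mv 846 (cons (fin 783 6 782)
(mv 781 (cons (fin 845 7 781)
(mv 782 (cons (fin 717 7 717)
(fin 973 5 781))))))))))
(cons (mv 847 (cons (fin 911 6 846)
(mv 846 (cons (fin 783 6 782)
(mv 973 (cons (fin 782 5 781)
(mv 1166 (cons (fin 909 7 909)
(fin 1230 7 973)))))))))
(mv 909 (cons (fin 845 7 845)
(mv 1166 (cons (fin 973 7 909)
(mv 1229 (cons (fin 1165 5 973)
(mv 1230 (cons (fin 1293 5 1037)
(mv 1231 (cons (fin 1167 4 974)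
(fin 1295 4 1038))))))))))))))))))))))
(mv 974 (cons (fin 975 2 971)
(mv 1098 (cons (fin 1099 1 1034)
(mv 1102 (cons (fin 1103 0 1035)
(mv 1166 (cons (mv 973 (cons (fin 909 7 909)
(fin 1230 7 973)))
(cons (mv 1229 (cons (fin 1165 5 973)
(mv 1230 (cons (fin 1293 5 1037)
(mv 1231 (cons (fin 1167 4 974)
(fin 1295 4 1038)))))))
(mv 1165 (cons (fin 1229 5 973)
(mv 1167 (cons (fin 1231 4 974)
(mv 910 (cons (cons (mv 909 (cons (fin 845 7 845)
(fin 973 7 909)))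
(mv 847 (cons (fin 911 6 846)
(mv 846 (cons (fin 783 6 782)
(mv 781 (cons (fin 845 7 781)
(mv 782 (cons (fin 717 7 717)
(fin 973 5 781))))))))))
(cons (mv 845 (cons (fin 909 7 845)
(mv 846 (cons (fin 781 7 781)
(mv 847 (cons (fin 783 6 782)
(fin 911 6 846)))))))
(mv 847 (cons (fin 911 6 846)
(mv 846 (cons (fin 783 6 782)
(mv 973 (cons (fin 909 7 909)
(fin 782 5 781))))))))))))))))))))))))
(cons (mv 970 (cons (fin 971 3 970)
(mv 974 (cons (fin 975 2 971)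
(mv 1102 (cons (fin 1103 0 1035)
(mv 1166 (cons (mv 973 (cons (fin 909 7 909)
(fin 1230 7 973)))
(cons (mv 1229 (cons (fin 1165 5 973)
(mv 1230 (cons (fin 1293 5 1037)
(mv 1231 (cons (fin 1167 4 974)
(fin 1295 4 1038)))))))
(mv 1165 (cons (fin 1229 5 973)
(mv 1167 (cons (fin 1231 4 974)
(mv 910 (cons (cons (mv 909 (cons (fin 845 7 845)
(fin 973 7 909)))
(mv 847 (cons (fin 911 6 846)
(mv 846 (cons (fin 783 6 782)
(mv 781 (cons (fin 845 7 781)
(mv 782 (cons (fin 717 7 717)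
(fin 973 5 781))))))))))
(cons (mv 845 (cons (fin 909 7 845)
(mv 846 (cons (fin 781 7 781)
(mv 847 (cons (fin 783 6 782)
(fin 911 6 846)))))))
(mv 847 (cons (fin 911 6 846)
(mv 846 (cons (fin 783 6 782)
(mv 973 (cons (fin 909 7 909)
(fin 782 5 781)))))))))))))))))))))))
(cons (mv 971 (cons (fin 970 3 970)
(mv 1099 (cons (fin 1098 1 1034)
(mv 1102 (cons (fin 1103 0 1035)
(mv 907 (cons (cons (mv 1100 (cons (fin 843 4 843)
(fin 1164 4 907)))
(mv 842 (cons (fin 906 7 842)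
(mv 778 (cons (fin 843 7 778)
(mv 908 (cons (fin 844 6 843)
(mv 1163 (cons (fin 972 6 907)
(mv 1226 (cons (fin 1162 5 970)
(mv 1227 (cons (fin 1290 5 1034)
(mv 1228 (cons (fin 1164 4 971)
(fin 1292 4 1035))))))))))))))))
(cons (mv 842 (cons (fin 906 7 842)
(mv 844 (cons (fin 908 6 843)
(mv 1164 (cons (fin 1100 4 907)
(mv 1163 (cons (fin 1228 4 971)
(mv 1226 (cons (fin 1162 5 970)
(mv 1227 (cons (fin 1290 5 1034)
(fin 972 6 971)))))))))))))
(mv 842 (cons (fin 906 7 842)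
(mv 843 (cons (fin 778 7 778)
(fin 1100 4 843))))))))))))))
(mv 971 (cons (fin 970 3 970)
(mv 974 (cons (fin 975 2 971)
(mv 1099 (cons (fin 1098 1 1034)
(mv 907 (cons (cons (mv 1100 (cons (fin 843 4 843)
(fin 1164 4 907)))
(mv 842 (cons (fin 906 7 842)
(mv 778 (cons (fin 843 7 778)
(mv 908 (cons (fin 844 6 843)
(mv 1163 (cons (fin 972 6 907)
(mv 1226 (cons (fin 1162 5 970)
(mv 1227 (cons (fin 1290 5 1034)
(mv 1228 (cons (fin 1164 4 971)
(fin 1292 4 1035))))))))))))))))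
(cons (mv 842 (cons (fin 906 7 842)
(mv 844 (cons (fin 908 6 843)
(mv 1164 (cons (fin 1100 4 907)
(mv 1163 (cons (fin 1228 4 971)
(mv 1226 (cons (fin 1162 5 970)
(mv 1227 (cons (fin 1290 5 1034)
(fin 972 6 971)))))))))))))
(mv 842 (cons (fin 906 7 842)
(mv 843 (cons (fin 778 7 778)
(fin 1100 4 843))))))))))))))))))
(mv 1034 (cons (cons (mv 973 (cons (fin 974 2 970)
(mv 972 (cons (fin 1033 2 969)
(mv 1098 (cons (fin 1097 1 1033)
(mv 1099 (cons (fin 1038 1 1034)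
(mv 908 (cons (fin 844 5 843)
(mv 1163 (cons (fin 1100 5 907)
(fin 971 6 907)))))))))))))
(mv 973 (cons (fin 974 2 970)
(mv 1033 (cons (fin 972 2 969)
(mv 968 (cons (fin 969 3 968)
(mv 1032 (cons (fin 967 3 967)
(mv 1096 (cons (fin 1095 1 1031)
(fin 1097 1 1032))))))))))))
(cons (mv 1098 (cons (fin 1097 1 1033)
(mv 1099 (cons (fin 1038 1 1034)
(mv 971 (cons (mv 907 (cons (fin 843 5 842)
(fin 1162 5 906)))
(cons (mv 1162 (cons (fin 1226 6 970)
(mv 1163 (cons (mv 972 (cons (fin 908 6 907)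
(fin 1227 6 971)))
(cons (mv 972 (cons (fin 908 6 907)
(mv 1032 (cons (fin 1033 2 968)
(mv 1164 (cons (fin 1228 4 971)
(mv 1165 (cons (fin 1166 3 1098)
(mv 1229 (cons (fin 1230 0 1162)
(fin 1100 4 972)))))))))))
(mv 1227 (cons (fin 1291 7 1034)
(mv 1228 (cons (fin 1164 4 971)
(fin 1292 4 1035))))))))))
(mv 907 (cons (fin 843 5 842)
(mv 842 (cons (fin 906 7 842)
(mv 844 (cons (fin 908 6 843)
(mv 1164 (cons (fin 1100 4 907)
(mv 1163 (cons (fin 1228 4 971)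
(mv 1227 (cons (fin 1291 7 1034)
(fin 972 6 971))))))))))))))))))))
(cons (mv 973 (cons (fin 974 2 970)
(mv 1033 (cons (fin 972 2 969)
(mv 968 (cons (fin 969 3 968)
(mv 1032 (cons (fin 967 3 967)
(mv 1095 (cons (fin 1096 1 1031)
(mv 1031 (cons (fin 1094 1 1030)
(mv 1099 (cons (fin 1098 0 1031)
(fin 1100 0 1032)))))))))))))))
(mv 974 (cons (fin 973 2 970)
(mv 1038 (cons (fin 975 2 971)
(mv 1098 (cons (fin 1097 1 1033)
(fin 1099 1 1034)))))))))))))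
(cons (cons (mv 1034 (cons (cons (mv 969 (cons (fin 970 3 969)
(mv 973 (cons (fin 974 2 970)
(mv 1033 (cons (fin 968 3 968)
(fin 972 2 969)))))))
(mv 973 (cons (fin 974 2 970)
(mv 1033 (cons (fin 972 2 969)
(mv 968 (cons (fin 969 3 968)
(mv 1032 (cons (fin 967 3 967)
(mv 1096 (cons (fin 1095 1 1031)
(fin 1097 1 1032))))))))))))
(cons (mv 970 (cons (fin 969 3 969)
(mv 971 (cons (fin 1038 3 970)
(mv 1099 (cons (mv 906 (cons (fin 1163 7 906)
(fin 842 4 842)))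
(cons (mv 906 (cons (fin 842 4 842)
(mv 907 (cons (mv 843 (cons (fin 779 5 778)
(fin 1100 4 843)))
(cons (mv 908 (cons (fin 844 6 843)
(mv 909 (cons (fin 910 1 906)
(mv 845 (cons (fin 846 2 842)
(mv 1100 (cons (fin 972 6 844)
(fin 1164 4 907)))))))))
(mv 843 (cons (fin 779 5 778)
(mv 844 (cons (fin 780 6 779)
(fin 908 6 843))))))))))
(mv 1163 (cons (fin 1227 7 970)
(mv 908 (cons (fin 972 6 907)
(mv 907 (cons (fin 844 6 843)
(mv 843 (cons (fin 779 5 778)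
(fin 1100 4 843))))))))))))))))
(cons (mv 973 (cons (fin 974 2 970)
(mv 972 (cons (fin 1033 2 969)
(mv 1100 (cons (mv 909 (cons (fin 845 5 844)
(fin 1164 6 908)))
(cons (mv 845 (cons (fin 909 5 844)
(mv 908 (cons (mv 844 (cons (fin 1099 5 843)
(fin 781 6 780)))
(cons (mv 907 (cons (fin 843 7 843)
(mv 906 (cons (fin 905 0 905)
(mv 1099 (cons (fin 1163 5 907)
(mv 842 (cons (fin 971 7 842)
(fin 970 4 842)))))))))
(mv 844 (cons (fin 781 6 780)
(fin 780 4 780))))))))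
(mv 1164 (cons (fin 1228 6 972)
(mv 907 (cons (fin 971 7 907)
(mv 908 (cons (fin 843 7 843)
(mv 844 (cons (fin 1099 5 843)
(fin 780 4 780))))))))))))))))
(mv 970 (cons (fin 969 3 969)
(mv 974 (cons (fin 973 2 970)
(mv 1038 (cons (fin 971 3 970)
(fin 975 2 971)))))))))))
(mv 1034 (cons (cons (mv 969 (cons (fin 970 3 969)
(mv 1033 (cons (fin 968 3 968)
(mv 1097 (cons (fin 1096 1 1032)
(fin 1098 1 1033)))))))
(cons (mv 1097 (cons (fin 1098 1 1033)
(mv 1033 (cons (fin 1096 1 1032)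
(mv 968 (cons (fin 969 3 968)
(mv 972 (cons (fin 973 2 969)
(mv 1032 (cons (fin 967 3 967)
(fin 971 2 968)))))))))))
(mv 969 (cons (fin 970 3 969)
(mv 1033 (cons (fin 968 3 968)
(mv 972 (cons (fin 973 2 969)
(mv 1032 (cons (fin 971 2 968)
(mv 1096 (cons (fin 1095 1 1031)
(fin 1097 1 1032)))))))))))))
(cons (mv 1097 (cons (fin 1098 1 1033)
(mv 1033 (cons (fin 1096 1 1032)
(mv 972 (cons (fin 973 2 969)
(mv 971 (cons (fin 1032 2 968)
(mv 970 (cons (fin 1038 3 970)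
(mv 842 (cons (fin 906 5 841)
(mv 1161 (cons (fin 1225 6 969)
(mv 907 (cons (mv 843 (cons (fin 778 7 778)
(fin 779 5 778)))
(mv 1100 (cons (fin 1164 7 907)
(mv 908 (cons (mv 844 (cons (fin 780 5 779)
(fin 1099 5 843)))
(mv 909 (cons (fin 910 1 906)
(fin 845 6 844)))))))))))))))))))))))
(cons (mv 969 (cons (fin 970 3 969)
(mv 1033 (cons (fin 968 3 968)
(mv 972 (cons (fin 973 2 969)
(mv 1032 (cons (fin 971 2 968)
(mv 1095 (cons (fin 1096 1 1031)
(mv 1031 (cons (fin 1094 1 1030)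
(mv 1099 (cons (fin 1098 0 1031)
(fin 1100 0 1032)))))))))))))))
(mv 970 (cons (fin 969 3 969)
(mv 971 (cons (fin 1038 3 970)
(mv 1098 (cons (fin 1097 1 1033)
(mv 907 (cons (fin 843 5 842)
(fin 1162 6 906))))))))))))))
(cons (mv 1034 (cons (mv 969 (cons (fin 970 3 969)
(mv 1033 (cons (fin 968 3 968)
(mv 1097 (cons (fin 1096 1 1032)
(fin 1098 1 1033)))))))
(cons (mv 1098 (cons (fin 1097 1 1033)
(mv 1099 (cons (fin 1038 1 1034)
(mv 971 (cons (mv 907 (cons (fin 843 5 842)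
(fin 1162 5 906)))
(cons (mv 1162 (cons (fin 1226 6 970)
(mv 1163 (cons (mv 972 (cons (fin 908 6 907)
(fin 1227 6 971)))
(cons (mv 972 (cons (fin 908 6 907)
(mv 1032 (cons (fin 1033 2 968)
(mv 1164 (cons (fin 1228 4 971)
(mv 1165 (cons (fin 1166 3 1098)
(mv 1229 (cons (fin 1230 0 1162)
(fin 1100 4 972)))))))))))
(mv 1227 (cons (fin 1291 7 1034)
(mv 1228 (cons (fin 1164 4 971)
(fin 1292 4 1035))))))))))
(mv 907 (cons (fin 843 5 842)
(mv 842 (cons (fin 906 7 842)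
(mv 844 (cons (fin 908 6 843)
(mv 1164 (cons (fin 1100 4 907)
(mv 1163 (cons (fin 1228 4 971)
(mv 1227 (cons (fin 1291 7 1034)
(fin 972 6 971))))))))))))))))))))
(mv 970 (cons (fin 969 3 969)
(mv 971 (cons (fin 1038 3 970)
(mv 1099 (cons (mv 906 (cons (fin 1163 7 906)
(fin 842 4 842)))
(cons (mv 906 (cons (fin 842 4 842)
(mv 907 (cons (mv 843 (cons (fin 779 5 778)
(fin 1100 4 843)))
(cons (mv 908 (cons (fin 844 6 843)
(mv 909 (cons (fin 910 1 906)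
(mv 845 (cons (fin 846 2 842)
(mv 1100 (cons (fin 972 6 844)
(fin 1164 4 907)))))))))
(mv 843 (cons (fin 779 5 778)
(mv 844 (cons (fin 780 6 779)
(fin 908 6 843))))))))))
(mv 1163 (cons (fin 1227 7 970)
(mv 908 (cons (fin 972 6 907)
(mv 907 (cons (fin 844 6 843)
(mv 843 (cons (fin 779 5 778)
(fin 1100 4 843)))))))))))))))))))
(cons (mv 1034 (cons (cons (mv 969 (cons (fin 970 3 969)
(mv 968 (cons (fin 1033 3 968)
(mv 974 (cons (fin 973 2 970)
(mv 1038 (cons (fin 975 2 971)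
(mv 1098 (cons (fin 1097 1 1033)
(fin 1099 1 1034)))))))))))
(mv 969 (cons (fin 970 3 969)
(mv 1033 (cons (fin 968 3 968)
(mv 1097 (cons (fin 1096 1 1032)
(fin 1098 1 1033))))))))
(cons (mv 969 (cons (fin 970 3 969)
(mv 973 (cons (fin 974 2 970)
(mv 1033 (cons (fin 968 3 968)
(fin 972 2 969)))))))
(cons (mv 973 (cons (fin 974 2 970)
(mv 972 (cons (fin 1033 2 969)
(mv 1098 (cons (fin 1097 1 1033)
(mv 1099 (cons (fin 1038 1 1034)
(mv 908 (cons (fin 844 5 843)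
(mv 1163 (cons (fin 1100 5 907)
(fin 1227 6 971)))))))))))))
(mv 969 (cons (fin 970 3 969)
(mv 974 (cons (fin 973 2 970)
(mv 1038 (cons (fin 975 2 971)
(mv 1098 (cons (fin 1097 1 1033)
(fin 1099 1 1034)))))))))))))
(mv 1034 (cons (cons (mv 969 (cons (fin 970 3 969)
(mv 973 (cons (fin 974 2 970)
(mv 1033 (cons (fin 968 3 968)
(fin 972 2 969)))))))
(mv 969 (cons (fin 970 3 969)
(mv 1033 (cons (fin 968 3 968)
(mv 1097 (cons (fin 1096 1 1032)
(fin 1098 1 1033))))))))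
(cons (mv 973 (cons (fin 974 2 970)
(mv 1033 (cons (fin 972 2 969)
(mv 1097 (cons (fin 1096 1 1032)
(fin 1098 1 1033)))))))
(mv 970 (cons (fin 969 3 969)
(mv 971 (cons (fin 1038 3 970)
(mv 973 (cons (fin 974 2 970)
(mv 1098 (cons (fin 1097 1 1033)
(mv 907 (cons (fin 843 5 842)
(fin 1162 6 906)))))))))))))))))))))
(cons (cons (ref 1 0)
(ref 4 0))
(cons (mv 1035 (cons (cons (cons (mv 1034 (cons (cons (mv 969 (cons (fin 970 3 969)
(mv 968 (cons (fin 1033 3 968)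
(mv 973 (cons (fin 974 2 970)
(mv 1098 (cons (fin 1097 1 1033)
(mv 1038 (cons (fin 1099 1 1034)
(mv 1102 (cons (fin 1101 0 1034)
(fin 1103 0 1035)))))))))))))
(cons (mv 969 (cons (fin 970 3 969)
(mv 968 (cons (fin 1033 3 968)
(mv 974 (cons (fin 973 2 970)
(mv 1038 (cons (fin 975 2 971)
(mv 1102 (cons (fin 1101 0 1034)
(fin 1103 0 1035)))))))))))
(mv 973 (cons (fin 974 2 970)
(mv 1097 (cons (fin 1098 1 1033)
(mv 1033 (cons (fin 1096 1 1032)
(mv 1101 (cons (fin 1100 0 1033)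
(fin 1102 0 1034)))))))))))
(cons (mv 969 (cons (fin 970 3 969)
(mv 968 (cons (fin 1033 3 968)
(mv 974 (cons (fin 973 2 970)
(mv 1038 (cons (fin 975 2 971)
(mv 1098 (cons (fin 1097 1 1033)
(fin 1099 1 1034)))))))))))
(cons (mv 969 (cons (fin 970 3 969)
(mv 968 (cons (fin 1033 3 968)
(mv 1098 (cons (fin 1097 1 1033)
(mv 1038 (cons (fin 1099 1 1034)
(mv 1102 (cons (fin 1101 0 1034)
(fin 1103 0 1035)))))))))))
(mv 969 (cons (fin 970 3 969)
(mv 973 (cons (fin 974 2 970)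
(mv 1098 (cons (fin 1097 1 1033)
(mv 1038 (cons (fin 1099 1 1034)
(mv 1102 (cons (fin 1101 0 1034)
(fin 1103 0 1035)))))))))))))))
(mv 971 (cons (cons (mv 970 (cons (fin 1038 3 970)
(mv 968 (cons (fin 969 0 968)
(mv 1099 (cons (cons (mv 906 (cons (fin 1163 7 906)
(mv 842 (cons (fin 907 7 842)
(fin 778 4 778)))))
(mv 907 (cons (mv 1100 (cons (fin 843 4 843)
(fin 1164 4 907)))
(cons (mv 842 (cons (fin 906 7 842)
(mv 843 (cons (fin 778 7 778)
(mv 844 (cons (fin 780 6 779)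
(fin 908 6 843)))))))
(mv 842 (cons (fin 906 7 842)
(mv 844 (cons (fin 908 6 843)
(mv 1098 (cons (fin 1162 5 906)
(mv 1097 (cons (fin 1096 2 1032)
(fin 1100 2 1033)))))))))))))
(cons (mv 1098 (cons (mv 1097 (cons (fin 1096 2 1032)
(fin 1100 2 1033)))
(cons (mv 907 (cons (fin 1162 5 906)
(mv 1100 (cons (fin 843 4 843)
(fin 1164 4 907)))))
(mv 1096 (cons (fin 1097 2 1032)
(mv 1162 (cons (fin 907 5 906)
(mv 1226 (cons (fin 1163 5 970)
(fin 1290 6 1034))))))))))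
(mv 1163 (cons (fin 906 7 906)
(mv 1162 (cons (fin 1226 5 970)
(mv 1228 (cons (fin 1164 4 971)
(mv 1227 (cons (fin 1292 4 1035)
(mv 1100 (cons (fin 1291 6 1035)
(mv 1098 (cons (fin 1097 2 1033)
(mv 1101 (cons (fin 1161 1 1097)
(fin 1102 1 1098))))))))))))))))))))))
(mv 907 (cons (cons (mv 843 (cons (fin 1100 4 843)
(mv 778 (cons (fin 842 7 778)
(mv 779 (cons (fin 714 7 714)
(mv 780 (cons (fin 716 6 715)
(fin 844 6 779)))))))))
(mv 843 (cons (cons (mv 778 (cons (fin 842 7 778)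
(mv 779 (cons (fin 714 7 714)
(mv 780 (cons (fin 716 6 715)
(fin 844 6 779)))))))
(mv 844 (cons (fin 780 6 779)
(mv 908 (cons (fin 1099 6 843)
(mv 909 (cons (mv 910 (cons (fin 911 3 843)
(fin 970 1 906)))
(mv 973 (cons (fin 1101 7 844)
(mv 906 (cons (fin 974 0 906)
(mv 845 (cons (fin 846 1 842)
(fin 905 2 841))))))))))))))
(cons (mv 779 (cons (cons (mv 778 (cons (fin 714 7 714)
(fin 842 7 778)))
(mv 716 (cons (fin 780 6 715)
(mv 715 (cons (fin 652 6 651)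
(mv 650 (cons (fin 714 7 650)
(mv 651 (cons (fin 586 7 586)
(mv 906 (cons (fin 842 5 650)
(fin 970 5 714))))))))))))
(cons (mv 714 (cons (fin 778 7 714)
(mv 715 (cons (fin 650 7 650)
(mv 716 (cons (fin 652 6 651)
(fin 780 6 715)))))))
(mv 716 (cons (fin 780 6 715)
(mv 715 (cons (fin 652 6 651)
(mv 842 (cons (fin 778 7 778)
(mv 906 (cons (fin 1099 7 842)
(fin 651 5 650))))))))))))
(mv 842 (cons (fin 778 7 778)
(mv 908 (cons (mv 1099 (cons (fin 906 7 842)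
(fin 844 6 843)))
(cons (mv 841 (cons (fin 840 0 840)
(mv 909 (cons (fin 906 3 841)
(fin 910 3 842)))))
(mv 841 (cons (fin 840 0 840)
(mv 844 (cons (fin 909 0 841)
(fin 1099 6 843))))))))))))))
(cons (mv 1099 (cons (cons (mv 842 (cons (fin 906 7 842)
(mv 844 (cons (fin 908 6 843)
(mv 1098 (cons (fin 1162 5 906)
(mv 1097 (cons (fin 1096 2 1032)
(fin 1100 2 1033)))))))))
(cons (mv 844 (cons (fin 908 6 843)
(mv 906 (cons (fin 842 7 842)
(mv 1162 (cons (fin 1098 5 906)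
(mv 1163 (cons (fin 970 7 906)
(fin 1226 5 970)))))))))
(mv 844 (cons (fin 908 6 843)
(mv 906 (cons (fin 842 7 842)
(mv 1100 (cons (fin 1164 4 907)
(mv 1163 (cons (fin 970 7 906)
(mv 1226 (cons (fin 1162 5 970)
(mv 1227 (cons (fin 1290 5 1034)
(fin 1291 6 1035)))))))))))))))
(cons (mv 844 (cons (fin 908 6 843)
(mv 1098 (cons (fin 1162 5 906)
(mv 1097 (cons (fin 1096 2 1032)
(fin 1100 2 1033)))))))
(cons (mv 844 (cons (fin 908 6 843)
(mv 906 (cons (fin 842 7 842)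
(mv 1163 (cons (fin 970 7 906)
(mv 1164 (cons (fin 1100 4 907)
(fin 1228 4 971)))))))))
(mv 842 (cons (fin 906 7 842)
(mv 1098 (cons (fin 1162 5 906)
(mv 1097 (cons (fin 1096 2 1032)
(fin 1100 2 1033)))))))))))
(cons (mv 843 (cons (fin 1100 4 843)
(mv 844 (cons (fin 780 6 779)
(mv 908 (cons (fin 1099 6 843)
(mv 909 (cons (mv 910 (cons (fin 911 3 843)
(fin 970 1 906)))
(mv 973 (cons (fin 1101 7 844)
(mv 906 (cons (fin 974 0 906)
(mv 845 (cons (fin 846 1 842)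
(fin 905 2 841)))))))))))))))
(mv 843 (cons (fin 1100 4 843)
(mv 779 (cons (cons (mv 778 (cons (fin 714 7 714)
(fin 842 7 778)))
(mv 716 (cons (fin 780 6 715)
(mv 715 (cons (fin 652 6 651)
(mv 650 (cons (fin 714 7 650)
(mv 651 (cons (fin 586 7 586)
(mv 906 (cons (fin 842 5 650)
(fin 970 5 714))))))))))))
(cons (mv 714 (cons (fin 778 7 714)
(mv 715 (cons (fin 650 7 650)
(mv 716 (cons (fin 652 6 651)
(fin 780 6 715)))))))
(mv 716 (cons (fin 780 6 715)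
(mv 715 (cons (fin 652 6 651)
(mv 842 (cons (fin 778 7 778)
(mv 906 (cons (fin 1099 7 842)
(fin 651 5 650)))))))))))))))))))
(cons (mv 1099 (cons (mv 1098 (cons (fin 1038 1 1034)
(mv 1097 (cons (fin 1096 2 1032)
(fin 1100 2 1033)))))
(cons (mv 1163 (cons (cons (mv 1162 (cons (fin 1226 5 970)
(mv 1164 (cons (fin 1228 4 971)
(mv 907 (cons (fin 1100 4 907)
(mv 842 (cons (fin 906 7 842)
(mv 843 (cons (fin 778 7 778)
(mv 844 (cons (fin 780 6 779)
(fin 908 6 843)))))))))))))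
(mv 1226 (cons (fin 1162 5 970)
(mv 1227 (cons (fin 1290 5 1034)
(mv 1291 (cons (fin 1100 6 1035)
(mv 1292 (cons (fin 1228 4 1035)
(fin 1356 4 1099))))))))))
(cons (mv 1226 (cons (fin 1162 5 970)
(mv 1227 (cons (fin 1290 5 1034)
(mv 1100 (cons (fin 1291 6 1035)
(mv 907 (cons (fin 843 4 843)
(fin 1164 4 907)))))))))
(cons (mv 1164 (cons (fin 1228 4 971)
(mv 907 (cons (fin 1100 4 907)
(mv 842 (cons (fin 906 7 842)
(mv 843 (cons (fin 778 7 778)
(mv 844 (cons (fin 780 6 779)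
(fin 908 6 843)))))))))))
(mv 1226 (cons (fin 1162 5 970)
(mv 1227 (cons (fin 1290 5 1034)
(mv 1228 (cons (fin 1164 4 971)
(fin 1292 4 1035)))))))))))
(mv 1098 (cons (fin 1038 1 1034)
(mv 907 (cons (fin 1162 5 906)
(mv 842 (cons (fin 906 7 842)
(mv 843 (cons (fin 778 7 778)
(mv 844 (cons (fin 780 6 779)
(fin 908 6 843))))))))))))))
(cons (mv 1038 (cons (fin 970 3 970)
(mv 974 (cons (fin 975 2 971)
(mv 1098 (cons (fin 1099 1 1034)
(mv 1102 (cons (fin 1103 0 1035)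
(mv 910 (cons (mv 1101 (cons (fin 846 5 845)
(fin 1165 5 909)))
(cons (mv 845 (cons (fin 909 7 845)
(mv 846 (cons (fin 781 7 781)
(mv 847 (cons (fin 783 6 782)
(fin 911 6 846)))))))
(mv 845 (cons (fin 909 7 845)
(mv 847 (cons (fin 911 6 846)
(mv 1165 (cons (fin 1101 5 909)
(mv 1166 (cons (fin 1229 5 973)
(mv 1230 (cons (fin 973 7 973)
(mv 1231 (cons (fin 1167 4 974)
(fin 1295 4 1038))))))))))))))))))))))))
(mv 1038 (cons (fin 970 3 970)
(mv 974 (cons (fin 975 2 971)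
(mv 1102 (cons (fin 1103 0 1035)
(mv 1166 (cons (mv 973 (cons (fin 909 7 909)
(fin 1230 7 973)))
(cons (mv 1165 (cons (fin 1229 5 973)
(mv 910 (cons (fin 1101 5 909)
(mv 845 (cons (fin 909 7 845)
(mv 846 (cons (fin 781 7 781)
(mv 847 (cons (fin 783 6 782)
(fin 911 6 846)))))))))))
(mv 973 (cons (fin 1230 7 973)
(mv 1165 (cons (fin 1229 5 973)
(mv 910 (cons (fin 1101 5 909)
(mv 846 (cons (fin 782 5 781)
(mv 847 (cons (fin 783 6 782)
(fin 911 6 846)))))))))))))))))))))))))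
(cons (mv 1034 (cons (cons (mv 969 (cons (fin 970 3 969)
(mv 973 (cons (fin 974 2 970)
(mv 1033 (cons (fin 968 3 968)
(mv 1097 (cons (fin 1096 1 1032)
(fin 1098 1 1033)))))))))
(mv 969 (cons (fin 970 3 969)
(mv 973 (cons (fin 974 2 970)
(mv 1033 (cons (fin 968 3 968)
(mv 1101 (cons (fin 1100 0 1033)
(fin 1102 0 1034))))))))))
(cons (mv 973 (cons (fin 974 2 970)
(mv 1097 (cons (fin 1098 1 1033)
(mv 1033 (cons (fin 1096 1 1032)
(mv 1101 (cons (fin 1100 0 1033)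
(fin 1102 0 1034)))))))))
(cons (mv 969 (cons (fin 970 3 969)
(mv 1033 (cons (fin 968 3 968)
(mv 1097 (cons (fin 1096 1 1032)
(fin 1098 1 1033)))))))
(mv 969 (cons (fin 970 3 969)
(mv 973 (cons (fin 974 2 970)
(mv 1097 (cons (fin 1098 1 1033)
(mv 1101 (cons (fin 1102 0 1034)
(mv 909 (cons (mv 1100 (cons (fin 845 5 844)
(fin 1164 5 908)))
(cons (mv 844 (cons (fin 908 7 844)
(mv 845 (cons (fin 780 7 780)
(mv 846 (cons (fin 782 6 781)
(fin 910 6 845)))))))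
(mv 844 (cons (fin 908 7 844)
(mv 846 (cons (fin 910 6 845)
(mv 1165 (cons (cons (mv 1164 (cons (fin 1100 5 908)
(fin 1228 5 972)))
(mv 1230 (cons (fin 1166 4 973)
(mv 1229 (cons (fin 1294 4 1037)
(mv 1292 (cons (fin 1228 5 1036)
(mv 1293 (cons (fin 1100 7 1036)
(fin 1356 5 1100))))))))))
(cons (mv 1228 (cons (fin 1164 5 972)
(mv 1229 (cons (fin 1292 5 1036)
(mv 1230 (cons (fin 1166 4 973)
(fin 1294 4 1037)))))))
(mv 1100 (cons (fin 1164 5 908)
(mv 1229 (cons (fin 1293 7 1036)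
(mv 1230 (cons (fin 1166 4 973)
(fin 1294 4 1037)))))))))))))))))))))))))))))
(cons (mv 1034 (cons (cons (mv 969 (cons (fin 970 3 969)
(mv 968 (cons (fin 1033 3 968)
(mv 974 (cons (fin 973 2 970)
(mv 1038 (cons (fin 975 2 971)
(mv 1102 (cons (fin 1101 0 1034)
(fin 1103 0 1035)))))))))))
(mv 973 (cons (fin 974 2 970)
(mv 1101 (cons (fin 1102 0 1034)
(mv 1033 (cons (fin 1100 0 1033)
(mv 968 (cons (fin 969 3 968)
(mv 1032 (cons (fin 967 3 967)
(mv 1096 (cons (fin 1095 1 1031)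
(fin 1097 1 1032))))))))))))))
(cons (mv 970 (cons (fin 969 3 969)
(mv 974 (cons (fin 973 2 970)
(mv 1038 (cons (fin 971 3 970)
(fin 975 2 971)))))))
(cons (mv 973 (cons (fin 974 2 970)
(mv 1101 (cons (fin 1102 0 1034)
(mv 1100 (cons (fin 1033 0 1033)
(mv 909 (cons (fin 845 5 844)
(fin 1164 5 908)))))))))
(mv 969 (cons (fin 970 3 969)
(mv 1033 (cons (fin 968 3 968)
(mv 1101 (cons (fin 1100 0 1033)
(fin 1102 0 1034)))))))))))
(mv 1034 (cons (cons (mv 969 (cons (fin 970 3 969)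
(mv 968 (cons (fin 1033 3 968)
(mv 974 (cons (fin 973 2 970)
(mv 1038 (cons (fin 975 2 971)
(mv 1098 (cons (fin 1097 1 1033)
(fin 1099 1 1034)))))))))))
(cons (mv 969 (cons (fin 970 3 969)
(mv 973 (cons (fin 974 2 970)
(mv 1033 (cons (fin 968 3 968)
(mv 1096 (cons (fin 1097 1 1032)
(mv 1032 (cons (fin 1095 1 1031)
(mv 1100 (cons (fin 1099 0 1032)
(fin 1101 0 1033)))))))))))))
(mv 973 (cons (fin 974 2 970)
(mv 1097 (cons (fin 1098 1 1033)
(mv 1033 (cons (fin 1096 1 1032)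
(mv 968 (cons (fin 969 3 968)
(mv 1032 (cons (fin 967 3 967)
(mv 1100 (cons (fin 1099 0 1032)
(fin 1101 0 1033)))))))))))))))
(cons (cons (mv 969 (cons (fin 970 3 969)
(mv 974 (cons (fin 973 2 970)
(mv 1033 (cons (fin 968 3 968)
(mv 1038 (cons (fin 975 2 971)
(mv 1099 (cons (fin 1098 1 1034)
(mv 1100 (cons (fin 1032 0 1032)
(fin 1101 0 1033)))))))))))))
(mv 973 (cons (fin 974 2 970)
(mv 1097 (cons (fin 1098 1 1033)
(mv 1033 (cons (fin 1096 1 1032)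
(mv 1100 (cons (fin 1101 0 1033)
(mv 845 (cons (fin 909 5 844)
(mv 1099 (cons (fin 1032 0 1032)
(mv 1164 (cons (fin 1228 6 972)
(mv 971 (cons (fin 907 4 907)
(mv 970 (cons (fin 1038 3 970)
(mv 906 (cons (fin 1163 7 906)
(fin 842 5 841))))))))))))))))))))))
(cons (mv 969 (cons (fin 970 3 969)
(mv 1033 (cons (fin 968 3 968)
(mv 1097 (cons (fin 1096 1 1032)
(fin 1098 1 1033)))))))
(mv 969 (cons (fin 970 3 969)
(mv 974 (cons (fin 973 2 970)
(mv 1038 (cons (fin 975 2 971)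
(mv 1098 (cons (fin 1097 1 1033)
(fin 1099 1 1034))))))))))))))))
(cons (cons (mv 1034 (cons (cons (mv 973 (cons (fin 974 2 970)
(mv 1097 (cons (fin 1098 1 1033)
(mv 1033 (cons (fin 1096 1 1032)
(mv 1101 (cons (fin 1100 0 1033)
(fin 1102 0 1034)))))))))
(mv 973 (cons (fin 974 2 970)
(mv 1101 (cons (fin 1102 0 1034)
(mv 1033 (cons (fin 1100 0 1033)
(mv 968 (cons (fin 969 3 968)
(mv 1032 (cons (fin 967 3 967)
(mv 1096 (cons (fin 1095 1 1031)
(fin 1097 1 1032))))))))))))))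
(cons (mv 974 (cons (fin 973 2 970)
(mv 1038 (cons (fin 975 2 971)
(mv 1098 (cons (fin 1097 1 1033)
(fin 1099 1 1034)))))))
(cons (mv 973 (cons (fin 974 2 970)
(mv 1101 (cons (fin 1102 0 1034)
(mv 1100 (cons (fin 1033 0 1033)
(mv 909 (cons (fin 845 5 844)
(fin 1164 5 908)))))))))
(mv 1097 (cons (fin 1098 1 1033)
(mv 1033 (cons (fin 1096 1 1032)
(mv 1101 (cons (fin 1100 0 1033)
(fin 1102 0 1034)))))))))))
(mv 1034 (cons (cons (mv 969 (cons (fin 970 3 969)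
(mv 968 (cons (fin 1033 3 968)
(mv 1098 (cons (fin 1097 1 1033)
(mv 1038 (cons (fin 1099 1 1034)
(mv 1102 (cons (fin 1101 0 1034)
(fin 1103 0 1035)))))))))))
(mv 969 (cons (fin 970 3 969)
(mv 1033 (cons (fin 968 3 968)
(mv 1101 (cons (fin 1100 0 1033)
(fin 1102 0 1034))))))))
(cons (mv 1097 (cons (fin 1098 1 1033)
(mv 1033 (cons (fin 1096 1 1032)
(mv 1101 (cons (fin 1100 0 1033)
(fin 1102 0 1034)))))))
(cons (mv 969 (cons (fin 970 3 969)
(mv 1033 (cons (fin 968 3 968)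
(mv 1097 (cons (fin 1096 1 1032)
(fin 1098 1 1033)))))))
(mv 969 (cons (fin 970 3 969)
(mv 1098 (cons (fin 1097 1 1033)
(mv 1038 (cons (fin 1099 1 1034)
(mv 1102 (cons (fin 1101 0 1034)
(fin 1103 0 1035))))))))))))))
(cons (mv 1038 (cons (cons (mv 970 (cons (fin 971 3 970)
(mv 974 (cons (fin 975 2 971)
(mv 1034 (cons (fin 969 3 969)
(fin 973 2 970)))))))
(mv 970 (cons (fin 971 3 970)
(mv 1034 (cons (fin 969 3 969)
(mv 1098 (cons (fin 1097 1 1033)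
(fin 1099 1 1034))))))))
(cons (mv 974 (cons (fin 975 2 971)
(mv 973 (cons (fin 1034 2 970)
(mv 1098 (cons (fin 1099 1 1034)
(mv 1102 (cons (fin 1103 0 1035)
(mv 909 (cons (fin 1166 7 909)
(fin 845 4 845)))))))))))
(mv 970 (cons (fin 971 3 970)
(mv 974 (cons (fin 975 2 971)
(mv 1098 (cons (fin 1099 1 1034)
(mv 1102 (cons (fin 1103 0 1035)
(mv 1166 (cons (mv 973 (cons (fin 909 7 909)
(fin 1230 7 973)))
(cons (mv 1229 (cons (fin 1165 5 973)
(mv 1230 (cons (fin 1293 5 1037)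
(mv 1231 (cons (fin 1167 4 974)
(fin 1295 4 1038)))))))
(mv 1165 (cons (fin 1229 5 973)
(mv 1167 (cons (fin 1231 4 974)
(mv 910 (cons (cons (mv 909 (cons (fin 845 7 845)
(fin 973 7 909)))
(mv 847 (cons (fin 911 6 846)
(mv 846 (cons (fin 783 6 782)
(mv 781 (cons (fin 845 7 781)
(mv 782 (cons (fin 717 7 717)
(fin 973 5 781))))))))))
(cons (mv 845 (cons (fin 909 7 845)
(mv 846 (cons (fin 781 7 781)
(mv 847 (cons (fin 783 6 782)
(fin 911 6 846)))))))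
(mv 847 (cons (fin 911 6 846)
(mv 846 (cons (fin 783 6 782)
(mv 973 (cons (fin 909 7 909)
(fin 782 5 781))))))))))))))))))))))))))))
(cons (mv 1038 (cons (cons (mv 970 (cons (fin 971 3 970)
(mv 974 (cons (fin 975 2 971)
(mv 1034 (cons (fin 969 3 969)
(fin 973 2 970)))))))
(mv 970 (cons (fin 971 3 970)
(mv 1034 (cons (fin 969 3 969)
(mv 1102 (cons (fin 1101 0 1034)
(fin 1103 0 1035))))))))
(cons (mv 974 (cons (fin 975 2 971)
(mv 973 (cons (fin 1034 2 970)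
(mv 1098 (cons (fin 1099 1 1034)
(mv 1102 (cons (fin 1103 0 1035)
(mv 909 (cons (fin 1166 7 909)
(fin 845 4 845)))))))))))
(mv 970 (cons (fin 971 3 970)
(mv 974 (cons (fin 975 2 971)
(mv 1098 (cons (fin 1099 1 1034)
(mv 1102 (cons (fin 1103 0 1035)
(mv 1166 (cons (mv 973 (cons (fin 909 7 909)
(fin 1230 7 973)))
(cons (mv 1165 (cons (fin 1229 5 973)
(mv 910 (cons (fin 1101 5 909)
(mv 845 (cons (fin 909 7 845)
(mv 846 (cons (fin 781 7 781)
(mv 847 (cons (fin 783 6 782)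
(fin 911 6 846)))))))))))
(mv 973 (cons (fin 1230 7 973)
(mv 1165 (cons (fin 1229 5 973)
(mv 910 (cons (fin 1101 5 909)
(mv 846 (cons (fin 782 5 781)
(mv 847 (cons (fin 783 6 782)
(fin 911 6 846)))))))))))))))))))))))))
(mv 1038 (cons (cons (mv 970 (cons (fin 971 3 970)
(mv 974 (cons (fin 975 2 971)
(mv 973 (cons (fin 1034 2 970)
(mv 1098 (cons (fin 1099 1 1034)
(mv 1102 (cons (fin 1103 0 1035)
(mv 909 (cons (fin 1166 7 909)
(fin 845 4 845)))))))))))))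
(cons (mv 970 (cons (fin 971 3 970)
(mv 974 (cons (fin 975 2 971)
(mv 1034 (cons (fin 973 2 970)
(mv 1098 (cons (fin 1097 1 1033)
(fin 1099 1 1034)))))))))
(mv 970 (cons (fin 971 3 970)
(mv 1098 (cons (fin 1099 1 1034)
(mv 1034 (cons (fin 1097 1 1033)
(mv 1102 (cons (fin 1101 0 1034)
(fin 1103 0 1035)))))))))))
(cons (mv 970 (cons (fin 971 3 970)
(mv 974 (cons (fin 975 2 971)
(mv 973 (cons (fin 1034 2 970)
(mv 1102 (cons (fin 1103 0 1035)
(mv 909 (cons (fin 1166 7 909)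
(fin 845 4 845)))))))))))
(cons (mv 974 (cons (fin 975 2 971)
(mv 973 (cons (fin 1034 2 970)
(mv 1098 (cons (fin 1099 1 1034)
(mv 1102 (cons (fin 1103 0 1035)
(mv 909 (cons (fin 1166 7 909)
(fin 845 4 845)))))))))))
(mv 970 (cons (fin 971 3 970)
(mv 974 (cons (fin 975 2 971)
(mv 1098 (cons (fin 1099 1 1034)
(mv 1102 (cons (fin 1103 0 1035)
(mv 1166 (cons (mv 973 (cons (fin 909 7 909)
(fin 1230 7 973)))
(cons (mv 1165 (cons (fin 1229 5 973)
(mv 910 (cons (fin 1101 5 909)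
(mv 845 (cons (fin 909 7 845)
(mv 846 (cons (fin 781 7 781)
(mv 847 (cons (fin 783 6 782)
(fin 911 6 846)))))))))))
(mv 973 (cons (fin 1230 7 973)
(mv 1165 (cons (fin 1229 5 973)
(mv 910 (cons (fin 1101 5 909)
(mv 846 (cons (fin 782 5 781)
(mv 847 (cons (fin 783 6 782)
(fin 911 6 846)))))))))))))))))))))))))))))))
(mv 1035 (cons (cons (cons (mv 1034 (cons (cons (mv 969 (cons (fin 970 3 969)
(mv 968 (cons (fin 1033 3 968)
(mv 973 (cons (fin 974 2 970)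
(mv 1098 (cons (fin 1097 1 1033)
(mv 1038 (cons (fin 1099 1 1034)
(mv 1102 (cons (fin 1101 0 1034)
(fin 1103 0 1035)))))))))))))
(cons (mv 973 (cons (fin 974 2 970)
(mv 972 (cons (fin 1033 2 969)
(mv 1097 (cons (fin 1098 1 1033)
(mv 1101 (cons (fin 1102 0 1034)
(mv 908 (cons (fin 1165 7 908)
(fin 844 4 844)))))))))))
(mv 969 (cons (fin 970 3 969)
(mv 968 (cons (fin 1033 3 968)
(mv 974 (cons (fin 973 2 970)
(mv 1038 (cons (fin 975 2 971)
(mv 1102 (cons (fin 1101 0 1034)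
(fin 1103 0 1035)))))))))))))
(cons (mv 969 (cons (fin 970 3 969)
(mv 968 (cons (fin 1033 3 968)
(mv 1098 (cons (fin 1097 1 1033)
(mv 1038 (cons (fin 1099 1 1034)
(mv 1102 (cons (fin 1101 0 1034)
(fin 1103 0 1035)))))))))))
(cons (mv 969 (cons (fin 970 3 969)
(mv 968 (cons (fin 1033 3 968)
(mv 974 (cons (fin 973 2 970)
(mv 1038 (cons (fin 975 2 971)
(mv 1098 (cons (fin 1097 1 1033)
(fin 1099 1 1034)))))))))))
(mv 969 (cons (fin 970 3 969)
(mv 973 (cons (fin 974 2 970)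
(mv 1098 (cons (fin 1097 1 1033)
(mv 1038 (cons (fin 1099 1 1034)
(mv 1102 (cons (fin 1101 0 1034)
(fin 1103 0 1035)))))))))))))))
(mv 1099 (cons (cons (mv 1098 (cons (fin 1038 1 1034)
(mv 1096 (cons (fin 1097 2 1032)
(mv 971 (cons (cons (mv 907 (cons (fin 1162 5 906)
(mv 842 (cons (fin 906 7 842)
(mv 843 (cons (fin 778 7 778)
(mv 844 (cons (fin 780 6 779)
(fin 908 6 843)))))))))
(mv 1163 (cons (mv 972 (cons (fin 908 6 907)
(fin 1227 6 971)))
(cons (mv 906 (cons (fin 970 7 906)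
(mv 1226 (cons (fin 1162 5 970)
(mv 1227 (cons (fin 1290 5 1034)
(mv 1228 (cons (fin 1164 4 971)
(fin 1292 4 1035)))))))))
(mv 906 (cons (fin 970 7 906)
(mv 972 (cons (fin 908 6 907)
(mv 1162 (cons (fin 1226 5 970)
(mv 1164 (cons (fin 1228 4 971)
(mv 1165 (cons (fin 1166 3 1098)
(mv 1101 (cons (fin 1102 2 1098)
(fin 1229 7 972)))))))))))))))))
(cons (mv 970 (cons (mv 969 (cons (fin 968 0 968)
(fin 972 0 969)))
(mv 906 (cons (fin 1163 7 906)
(mv 842 (cons (fin 907 7 842)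
(fin 778 4 778)))))))
(mv 907 (cons (fin 1162 5 906)
(mv 844 (cons (fin 908 6 843)
(mv 843 (cons (fin 780 6 779)
(mv 778 (cons (fin 842 7 778)
(mv 779 (cons (fin 714 7 714)
(fin 972 4 779))))))))))))))))))
(mv 1163 (cons (cons (mv 972 (cons (fin 1227 6 971)
(mv 908 (cons (fin 844 5 843)
(fin 971 6 907)))))
(mv 1227 (cons (cons (mv 1226 (cons (fin 1290 5 1034)
(mv 971 (cons (fin 1162 5 970)
(mv 1228 (cons (fin 1164 4 971)
(fin 1292 4 1035)))))))
(mv 1228 (cons (fin 1292 4 1035)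
(mv 1164 (cons (fin 971 4 971)
(mv 1165 (cons (mv 1166 (cons (fin 1098 3 1098)
(fin 1167 1 1163)))
(mv 1101 (cons (fin 973 5 972)
(mv 1162 (cons (fin 1102 2 1098)
(mv 1161 (cons (fin 1160 0 1160)
(fin 1229 0 1161))))))))))))))
(cons (mv 1291 (cons (mv 1290 (cons (fin 1226 5 1034)
(fin 1354 5 1098)))
(cons (mv 1356 (cons (fin 1292 4 1099)
(mv 1355 (cons (fin 1420 4 1163)
(mv 1162 (cons (fin 1098 7 1098)
(mv 1226 (cons (fin 1419 7 1162)
(fin 971 5 970)))))))))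
(mv 1354 (cons (fin 1290 5 1098)
(mv 1355 (cons (fin 1418 5 1162)
(mv 1356 (cons (fin 1292 4 1099)
(fin 1420 4 1163))))))))))
(cons (mv 1226 (cons (fin 1290 5 1034)
(mv 1164 (cons (mv 971 (cons (fin 1162 5 970)
(fin 1228 4 971)))
(cons (mv 1165 (cons (fin 1166 1 1162)
(mv 1225 (cons (fin 1162 1 1161)
(fin 1224 2 1160)))))
(mv 1165 (cons (fin 1166 1 1162)
(mv 1225 (cons (fin 1224 2 1160)
(fin 1228 2 1161))))))))))
(mv 1290 (cons (fin 1226 5 1034)
(mv 1291 (cons (fin 1354 5 1098)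
(mv 1292 (cons (fin 1228 4 1035)
(fin 1356 4 1099))))))))))))
(cons (mv 971 (cons (cons (mv 906 (cons (fin 970 7 906)
(mv 907 (cons (fin 842 7 842)
(mv 908 (cons (fin 844 6 843)
(fin 972 6 907)))))))
(mv 906 (cons (fin 970 7 906)
(mv 907 (cons (fin 842 7 842)
(mv 1162 (cons (fin 1098 5 906)
(fin 1226 5 970))))))))
(cons (mv 908 (cons (fin 972 6 907)
(mv 907 (cons (fin 844 6 843)
(mv 1162 (cons (fin 1098 5 906)
(fin 1226 5 970)))))))
(mv 970 (cons (fin 906 7 906)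
(mv 969 (cons (fin 968 0 968)
(fin 972 0 969))))))))
(mv 1227 (cons (fin 972 6 971)
(mv 1290 (cons (fin 1226 5 1034)
(mv 1291 (cons (fin 1354 5 1098)
(mv 1292 (cons (fin 1228 4 1035)
(fin 1356 4 1099)))))))))))))
(cons (mv 971 (cons (mv 970 (cons (fin 1038 3 970)
(mv 969 (cons (fin 968 0 968)
(fin 972 0 969)))))
(cons (mv 907 (cons (cons (mv 842 (cons (fin 906 7 842)
(mv 778 (cons (fin 843 7 778)
(mv 908 (cons (fin 844 6 843)
(mv 1163 (cons (fin 972 6 907)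
(mv 1226 (cons (fin 1162 5 970)
(mv 1227 (cons (fin 1290 5 1034)
(mv 1228 (cons (fin 1164 4 971)
(fin 1292 4 1035)))))))))))))))
(mv 842 (cons (fin 906 7 842)
(mv 843 (cons (fin 778 7 778)
(mv 779 (cons (fin 972 4 779)
(mv 780 (cons (fin 716 6 715)
(fin 844 6 779))))))))))
(cons (mv 842 (cons (fin 906 7 842)
(mv 843 (cons (fin 778 7 778)
(mv 972 (cons (fin 779 4 779)
(mv 1163 (cons (fin 908 6 907)
(fin 1227 6 971)))))))))
(cons (mv 908 (cons (fin 844 6 843)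
(mv 1163 (cons (fin 972 6 907)
(mv 1226 (cons (fin 1162 5 970)
(mv 1227 (cons (fin 1290 5 1034)
(mv 1228 (cons (fin 1164 4 971)
(fin 1292 4 1035)))))))))))
(mv 842 (cons (fin 906 7 842)
(mv 843 (cons (fin 778 7 778)
(mv 844 (cons (fin 780 6 779)
(fin 908 6 843)))))))))))
(mv 970 (cons (fin 1038 3 970)
(mv 906 (cons (fin 1163 7 906)
(mv 842 (cons (fin 907 7 842)
(fin 778 4 778))))))))))
(cons (mv 1038 (cons (fin 1098 1 1034)
(mv 970 (cons (fin 971 3 970)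
(mv 974 (cons (fin 975 2 971)
(mv 1102 (cons (fin 1103 0 1035)
(mv 910 (cons (mv 1101 (cons (fin 846 5 845)
(fin 1165 5 909)))
(cons (mv 845 (cons (fin 909 7 845)
(mv 846 (cons (fin 781 7 781)
(mv 847 (cons (fin 783 6 782)
(fin 911 6 846)))))))
(mv 845 (cons (fin 909 7 845)
(mv 847 (cons (fin 911 6 846)
(mv 1165 (cons (fin 1101 5 909)
(mv 1166 (cons (fin 1229 5 973)
(mv 1230 (cons (fin 973 7 973)
(mv 1231 (cons (fin 1167 4 974)
(fin 1295 4 1038))))))))))))))))))))))))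
(mv 1038 (cons (fin 1098 1 1034)
(mv 974 (cons (fin 975 2 971)
(mv 1102 (cons (fin 1103 0 1035)
(mv 910 (cons (mv 1101 (cons (fin 846 5 845)
(fin 1165 5 909)))
(cons (mv 845 (cons (fin 909 7 845)
(mv 846 (cons (fin 781 7 781)
(mv 847 (cons (fin 783 6 782)
(fin 911 6 846)))))))
(mv 845 (cons (fin 909 7 845)
(mv 847 (cons (fin 911 6 846)
(mv 1165 (cons (fin 1101 5 909)
(mv 1166 (cons (fin 1229 5 973)
(mv 1230 (cons (fin 973 7 973)
(mv 1231 (cons (fin 1167 4 974)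
(fin 1295 4 1038)))))))))))))))))))))))))))
(cons (mv 1034 (cons (cons (mv 969 (cons (fin 970 3 969)
(mv 973 (cons (fin 974 2 970)
(mv 1033 (cons (fin 968 3 968)
(fin 972 2 969)))))))
(mv 969 (cons (fin 970 3 969)
(mv 1033 (cons (fin 968 3 968)
(mv 1097 (cons (fin 1096 1 1032)
(fin 1098 1 1033))))))))
(cons (mv 973 (cons (fin 974 2 970)
(mv 972 (cons (fin 1033 2 969)
(mv 1097 (cons (fin 1098 1 1033)
(mv 1101 (cons (fin 1102 0 1034)
(mv 908 (cons (fin 1165 7 908)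
(fin 844 4 844)))))))))))
(mv 969 (cons (fin 970 3 969)
(mv 973 (cons (fin 974 2 970)
(mv 1097 (cons (fin 1098 1 1033)
(mv 1101 (cons (fin 1102 0 1034)
(mv 1165 (cons (mv 972 (cons (fin 908 7 908)
(fin 1229 7 972)))
(cons (mv 1228 (cons (fin 1164 5 972)
(mv 1229 (cons (fin 1292 5 1036)
(mv 1230 (cons (fin 1166 4 973)
(fin 1294 4 1037)))))))
(mv 1164 (cons (fin 1228 5 972)
(mv 1166 (cons (fin 1230 4 973)
(mv 909 (cons (cons (mv 908 (cons (fin 844 7 844)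
(fin 972 7 908)))
(mv 846 (cons (fin 910 6 845)
(mv 845 (cons (fin 782 6 781)
(mv 780 (cons (fin 844 7 780)
(mv 781 (cons (fin 716 7 716)
(fin 972 5 780))))))))))
(cons (mv 844 (cons (fin 908 7 844)
(mv 845 (cons (fin 780 7 780)
(mv 846 (cons (fin 782 6 781)
(fin 910 6 845)))))))
(mv 846 (cons (fin 910 6 845)
(mv 845 (cons (fin 782 6 781)
(mv 972 (cons (fin 908 7 908)
(fin 781 5 780))))))))))))))))))))))))))))
(mv 1034 (cons (cons (mv 973 (cons (fin 974 2 970)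
(mv 972 (cons (fin 1033 2 969)
(mv 1097 (cons (fin 1098 1 1033)
(mv 1101 (cons (fin 1102 0 1034)
(mv 908 (cons (fin 1165 7 908)
(fin 844 4 844)))))))))))
(mv 973 (cons (fin 974 2 970)
(mv 972 (cons (fin 1033 2 969)
(mv 1101 (cons (fin 1102 0 1034)
(mv 908 (cons (fin 1165 7 908)
(fin 844 4 844))))))))))
(cons (mv 1098 (cons (fin 1097 1 1033)
(mv 1038 (cons (fin 1099 1 1034)
(mv 1102 (cons (fin 1101 0 1034)
(fin 1103 0 1035)))))))
(mv 973 (cons (fin 974 2 970)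
(mv 972 (cons (fin 1033 2 969)
(mv 1098 (cons (fin 1097 1 1033)
(mv 1099 (cons (fin 1038 1 1034)
(mv 908 (cons (fin 844 5 843)
(mv 1163 (cons (fin 971 6 907)
(fin 1227 6 971))))))))))))))))))
(cons (cons (mv 1034 (cons (cons (mv 969 (cons (fin 970 3 969)
(mv 968 (cons (fin 1033 3 968)
(mv 1098 (cons (fin 1097 1 1033)
(mv 1038 (cons (fin 1099 1 1034)
(mv 1102 (cons (fin 1101 0 1034)
(fin 1103 0 1035)))))))))))
(cons (mv 1097 (cons (fin 1098 1 1033)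
(mv 1033 (cons (fin 1096 1 1032)
(mv 968 (cons (fin 969 3 968)
(mv 972 (cons (fin 973 2 969)
(mv 1032 (cons (fin 967 3 967)
(fin 971 2 968)))))))))))
(mv 969 (cons (fin 970 3 969)
(mv 1033 (cons (fin 968 3 968)
(mv 972 (cons (fin 973 2 969)
(mv 1032 (cons (fin 971 2 968)
(mv 1096 (cons (fin 1095 1 1031)
(fin 1097 1 1032)))))))))))))
(cons (mv 1097 (cons (fin 1098 1 1033)
(mv 1033 (cons (fin 1096 1 1032)
(mv 972 (cons (fin 973 2 969)
(mv 971 (cons (fin 1032 2 968)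
(mv 1038 (cons (fin 970 3 970)
(mv 1102 (cons (fin 1101 0 1034)
(fin 1103 0 1035)))))))))))))
(cons (mv 969 (cons (fin 970 3 969)
(mv 1033 (cons (fin 968 3 968)
(mv 972 (cons (fin 973 2 969)
(mv 971 (cons (fin 1032 2 968)
(mv 1101 (cons (fin 1102 0 1034)
(mv 908 (cons (fin 844 4 844)
(mv 1099 (cons (fin 1163 6 907)
(mv 1098 (cons (fin 1038 1 1034)
(mv 907 (cons (fin 843 5 842)
(fin 1162 5 906)))))))))))))))))))
(mv 969 (cons (fin 970 3 969)
(mv 1098 (cons (fin 1097 1 1033)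
(mv 1038 (cons (fin 1099 1 1034)
(mv 1102 (cons (fin 1101 0 1034)
(fin 1103 0 1035)))))))))))))
(mv 1034 (cons (cons (mv 969 (cons (fin 970 3 969)
(mv 968 (cons (fin 1033 3 968)
(mv 974 (cons (fin 973 2 970)
(mv 1038 (cons (fin 975 2 971)
(mv 1102 (cons (fin 1101 0 1034)
(fin 1103 0 1035)))))))))))
(mv 973 (cons (fin 974 2 970)
(mv 972 (cons (fin 1033 2 969)
(mv 1101 (cons (fin 1102 0 1034)
(mv 908 (cons (fin 1165 7 908)
(fin 844 4 844))))))))))
(cons (mv 970 (cons (fin 969 3 969)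
(mv 1038 (cons (fin 971 3 970)
(mv 1102 (cons (fin 1101 0 1034)
(fin 1103 0 1035)))))))
(mv 969 (cons (fin 970 3 969)
(mv 973 (cons (fin 974 2 970)
(mv 1033 (cons (fin 968 3 968)
(fin 972 2 969)))))))))))
(cons (mv 1034 (cons (cons (mv 969 (cons (fin 970 3 969)
(mv 968 (cons (fin 1033 3 968)
(mv 974 (cons (fin 973 2 970)
(mv 1038 (cons (fin 975 2 971)
(mv 1098 (cons (fin 1097 1 1033)
(fin 1099 1 1034)))))))))))
(mv 973 (cons (fin 974 2 970)
(mv 972 (cons (fin 1033 2 969)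
(mv 1098 (cons (fin 1097 1 1033)
(mv 1099 (cons (fin 1038 1 1034)
(mv 908 (cons (fin 844 5 843)
(mv 1163 (cons (fin 971 6 907)
(fin 1227 6 971))))))))))))))
(cons (mv 969 (cons (fin 970 3 969)
(mv 973 (cons (fin 974 2 970)
(mv 1033 (cons (fin 968 3 968)
(fin 972 2 969)))))))
(cons (mv 969 (cons (fin 970 3 969)
(mv 1033 (cons (fin 968 3 968)
(mv 1097 (cons (fin 1096 1 1032)
(fin 1098 1 1033)))))))
(mv 969 (cons (fin 970 3 969)
(mv 974 (cons (fin 973 2 970)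
(mv 1038 (cons (fin 975 2 971)
(mv 1098 (cons (fin 1097 1 1033)
(fin 1099 1 1034)))))))))))))
(mv 1038 (cons (cons (mv 970 (cons (fin 971 3 970)
(mv 974 (cons (fin 975 2 971)
(mv 1034 (cons (fin 969 3 969)
(mv 1098 (cons (fin 1097 1 1033)
(fin 1099 1 1034)))))))))
(mv 974 (cons (fin 975 2 971)
(mv 1098 (cons (fin 1099 1 1034)
(mv 1034 (cons (fin 1097 1 1033)
(mv 1102 (cons (fin 1101 0 1034)
(fin 1103 0 1035))))))))))
(cons (mv 970 (cons (fin 971 3 970)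
(mv 974 (cons (fin 975 2 971)
(mv 1034 (cons (fin 969 3 969)
(mv 1102 (cons (fin 1101 0 1034)
(fin 1103 0 1035)))))))))
(cons (mv 970 (cons (fin 971 3 970)
(mv 1034 (cons (fin 969 3 969)
(mv 1098 (cons (fin 1097 1 1033)
(fin 1099 1 1034)))))))
(mv 970 (cons (fin 971 3 970)
(mv 974 (cons (fin 975 2 971)
(mv 1098 (cons (fin 1099 1 1034)
(mv 1102 (cons (fin 1103 0 1035)
(mv 910 (cons (mv 1101 (cons (fin 846 5 845)
(fin 1165 5 909)))
(cons (mv 845 (cons (fin 909 7 845)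
(mv 846 (cons (fin 781 7 781)
(mv 847 (cons (fin 783 6 782)
(fin 911 6 846)))))))
(mv 845 (cons (fin 909 7 845)
(mv 847 (cons (fin 911 6 846)
(mv 1166 (cons (cons (mv 1165 (cons (fin 1101 5 909)
(fin 1229 5 973)))
(mv 1231 (cons (fin 1167 4 974)
(mv 1230 (cons (fin 1295 4 1038)
(mv 1293 (cons (fin 1229 5 1037)
(mv 1294 (cons (fin 1101 7 1037)
(fin 1357 5 1101))))))))))
(cons (mv 1229 (cons (fin 1165 5 973)
(mv 1230 (cons (fin 1293 5 1037)
(mv 1231 (cons (fin 1167 4 974)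
(fin 1295 4 1038)))))))
(mv 1101 (cons (fin 1165 5 909)
(mv 1230 (cons (fin 1294 7 1037)
(mv 1231 (cons (fin 1167 4 974)
(fin 1295 4 1038))))))))))))))))))))))))))))))))))))
(cons (cons (cons (mv 1035 (cons (cons (cons (mv 1034 (cons (cons (mv 969 (cons (fin 970 3 969)
(mv 968 (cons (fin 1033 3 968)
(mv 1098 (cons (fin 1097 1 1033)
(mv 1038 (cons (fin 1099 1 1034)
(mv 1102 (cons (fin 1101 0 1034)
(fin 1103 0 1035)))))))))))
(mv 1097 (cons (fin 1098 1 1033)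
(mv 1033 (cons (fin 1096 1 1032)
(mv 1101 (cons (fin 1100 0 1033)
(fin 1102 0 1034))))))))
(cons (mv 969 (cons (fin 970 3 969)
(mv 1033 (cons (fin 968 3 968)
(mv 1101 (cons (fin 1100 0 1033)
(fin 1102 0 1034)))))))
(cons (mv 969 (cons (fin 970 3 969)
(mv 1033 (cons (fin 968 3 968)
(mv 1097 (cons (fin 1096 1 1032)
(fin 1098 1 1033)))))))
(mv 969 (cons (fin 970 3 969)
(mv 1098 (cons (fin 1097 1 1033)
(mv 1038 (cons (fin 1099 1 1034)
(mv 1102 (cons (fin 1101 0 1034)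
(fin 1103 0 1035)))))))))))))
(mv 1099 (cons (cons (mv 1038 (cons (fin 1098 1 1034)
(mv 971 (cons (fin 970 3 970)
(mv 1102 (cons (fin 1103 0 1035)
(mv 1163 (cons (mv 972 (cons (fin 908 6 907)
(fin 1227 6 971)))
(mv 1162 (cons (fin 1226 5 970)
(mv 1100 (cons (fin 1101 1 1098)
(mv 907 (cons (fin 843 4 843)
(fin 1164 4 907)))))))))))))))
(mv 972 (cons (cons (mv 908 (cons (fin 844 5 843)
(mv 1163 (cons (fin 1100 5 907)
(fin 971 6 907)))))
(mv 1163 (cons (fin 1227 6 971)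
(mv 971 (cons (mv 970 (cons (fin 1038 3 970)
(fin 969 0 969)))
(mv 1162 (cons (fin 1226 5 970)
(mv 1164 (cons (fin 1228 4 971)
(mv 907 (cons (fin 1100 7 907)
(mv 842 (cons (fin 906 7 842)
(mv 843 (cons (fin 778 7 778)
(fin 779 4 779))))))))))))))))
(cons (mv 908 (cons (fin 844 5 843)
(mv 1100 (cons (cons (mv 843 (cons (fin 907 7 843)
(mv 845 (cons (fin 909 6 844)
(mv 1165 (cons (fin 1101 4 908)
(mv 1164 (cons (fin 1229 4 972)
(mv 1228 (cons (fin 971 7 971)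
(fin 1292 7 1035)))))))))))
(mv 843 (cons (fin 907 7 843)
(mv 909 (cons (fin 845 6 844)
(mv 1164 (cons (fin 973 6 908)
(mv 1228 (cons (fin 971 7 971)
(fin 1292 7 1035))))))))))
(cons (mv 845 (cons (fin 909 6 844)
(mv 1165 (cons (fin 1101 4 908)
(mv 1164 (cons (fin 1229 4 972)
(mv 1228 (cons (fin 971 7 971)
(fin 1292 7 1035)))))))))
(cons (mv 843 (cons (fin 907 7 843)
(mv 1165 (cons (fin 1101 4 908)
(mv 1164 (cons (fin 1229 4 972)
(mv 1228 (cons (fin 971 7 971)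
(fin 1292 7 1035)))))))))
(mv 843 (cons (fin 907 7 843)
(mv 909 (cons (fin 845 6 844)
(mv 1101 (cons (fin 1165 4 908)
(mv 1102 (cons (fin 1103 3 1035)
(mv 1166 (cons (fin 1167 0 1099)
(fin 973 4 909)))))))))))))))))
(cons (mv 908 (cons (fin 844 5 843)
(mv 1163 (cons (fin 1100 5 907)
(fin 1227 6 971)))))
(mv 908 (cons (fin 844 5 843)
(mv 1163 (cons (fin 971 6 907)
(fin 1227 6 971))))))))))
(cons (mv 972 (cons (cons (mv 908 (cons (fin 844 5 843)
(mv 1163 (cons (fin 1100 5 907)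
(fin 971 6 907)))))
(mv 1163 (cons (fin 1227 6 971)
(mv 971 (cons (mv 970 (cons (fin 969 0 969)
(fin 906 7 906)))
(mv 1162 (cons (fin 1226 5 970)
(mv 907 (cons (fin 1098 5 906)
(mv 843 (cons (fin 779 4 779)
(fin 1100 4 843))))))))))))
(cons (mv 908 (cons (fin 844 5 843)
(mv 1100 (cons (cons (mv 843 (cons (fin 907 7 843)
(mv 845 (cons (fin 909 6 844)
(mv 1097 (cons (fin 1098 2 1033)
(mv 1165 (cons (fin 1101 4 908)
(mv 1164 (cons (fin 1229 4 972)
(mv 1228 (cons (fin 971 7 971)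
(fin 1292 7 1035)))))))))))))
(cons (mv 843 (cons (fin 907 7 843)
(mv 909 (cons (fin 845 6 844)
(mv 1097 (cons (fin 1098 2 1033)
(mv 1164 (cons (fin 973 6 908)
(mv 1228 (cons (fin 971 7 971)
(fin 1292 7 1035)))))))))))
(mv 845 (cons (fin 909 6 844)
(mv 1097 (cons (fin 1098 2 1033)
(mv 1165 (cons (fin 1101 4 908)
(mv 1164 (cons (fin 1229 4 972)
(mv 1228 (cons (fin 971 7 971)
(fin 1292 7 1035)))))))))))))
(cons (mv 843 (cons (fin 907 7 843)
(mv 1097 (cons (fin 1098 2 1033)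
(mv 1165 (cons (fin 1101 4 908)
(mv 1164 (cons (fin 1229 4 972)
(mv 1228 (cons (fin 971 7 971)
(fin 1292 7 1035)))))))))))
(cons (mv 843 (cons (fin 907 7 843)
(mv 845 (cons (fin 909 6 844)
(mv 1165 (cons (fin 1101 4 908)
(mv 1164 (cons (fin 1229 4 972)
(mv 1228 (cons (fin 971 7 971)
(fin 1292 7 1035)))))))))))
(mv 843 (cons (fin 907 7 843)
(mv 909 (cons (fin 845 6 844)
(mv 1097 (cons (fin 1098 2 1033)
(mv 1101 (cons (fin 1165 4 908)
(mv 1102 (cons (fin 1103 3 1035)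
(mv 1166 (cons (fin 1167 0 1099)
(fin 973 4 909)))))))))))))))))))
(cons (mv 908 (cons (fin 844 5 843)
(mv 1163 (cons (fin 971 6 907)
(fin 1227 6 971)))))
(mv 908 (cons (fin 844 5 843)
(mv 1163 (cons (fin 1100 5 907)
(fin 1227 6 971)))))))))
(cons (mv 1098 (cons (fin 1038 1 1034)
(mv 1097 (cons (fin 1096 2 1032)
(fin 1100 2 1033)))))
(mv 1038 (cons (fin 1098 1 1034)
(mv 971 (cons (fin 970 3 970)
(mv 1102 (cons (fin 1103 0 1035)
(mv 1163 (cons (mv 972 (cons (fin 908 6 907)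
(fin 1227 6 971)))
(mv 1162 (cons (fin 1226 5 970)
(mv 1164 (cons (fin 1228 4 971)
(mv 1165 (cons (fin 1101 2 1098)
(mv 1230 (cons (fin 1229 0 1162)
(mv 1166 (cons (fin 1231 0 1163)
(fin 973 7 973))))))))))))))))))))))))
(cons (mv 1034 (cons (cons (mv 969 (cons (fin 970 3 969)
(mv 1033 (cons (fin 968 3 968)
(mv 1097 (cons (fin 1096 1 1032)
(fin 1098 1 1033)))))))
(mv 1097 (cons (fin 1098 1 1033)
(mv 1033 (cons (fin 1096 1 1032)
(mv 1101 (cons (fin 1100 0 1033)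
(fin 1102 0 1034))))))))
(cons (mv 969 (cons (fin 970 3 969)
(mv 1033 (cons (fin 968 3 968)
(mv 1101 (cons (fin 1100 0 1033)
(fin 1102 0 1034)))))))
(mv 969 (cons (fin 970 3 969)
(mv 1098 (cons (fin 1097 1 1033)
(mv 1101 (cons (fin 1102 0 1034)
(mv 972 (cons (cons (mv 908 (cons (fin 844 4 844)
(mv 1165 (cons (fin 973 7 908)
(fin 1229 7 972)))))
(mv 1165 (cons (fin 1229 7 972)
(mv 1099 (cons (cons (mv 1100 (cons (fin 1166 0 1098)
(mv 1162 (cons (fin 1161 1 1097)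
(mv 971 (cons (fin 907 5 906)
(fin 1226 6 970)))))))
(mv 1163 (cons (fin 1227 6 971)
(mv 1162 (cons (mv 971 (cons (fin 907 5 906)
(fin 1226 5 970)))
(cons (mv 907 (cons (fin 971 5 906)
(mv 1161 (cons (fin 1100 1 1097)
(mv 1160 (cons (fin 1159 2 1095)
(mv 1096 (cons (fin 1095 3 1095)
(mv 1224 (cons (fin 1223 1 1159)
(mv 1225 (cons (fin 1164 1 1160)
(mv 1032 (cons (fin 968 4 968)
(fin 1289 4 1032)))))))))))))))
(mv 1100 (cons (fin 1161 1 1097)
(mv 1226 (cons (fin 1290 6 1034)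
(mv 1225 (cons (fin 1164 1 1161)
(fin 1289 5 1033)))))))))))))
(cons (mv 1163 (cons (fin 1227 6 971)
(mv 1164 (cons (fin 1166 3 1098)
(mv 1228 (cons (fin 973 5 972)
(fin 971 4 971)))))))
(mv 1100 (cons (fin 1166 0 1098)
(mv 1162 (cons (fin 1161 1 1097)
(mv 1163 (cons (fin 1227 6 971)
(mv 1226 (cons (fin 1290 6 1034)
(mv 1225 (cons (fin 1164 1 1161)
(fin 1289 5 1033)))))))))))))))))
(cons (mv 908 (cons (fin 844 4 844)
(mv 1100 (cons (cons (mv 843 (cons (fin 907 7 843)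
(mv 845 (cons (fin 909 6 844)
(mv 1099 (cons (fin 1163 5 907)
(mv 1162 (cons (fin 1161 1 1097)
(mv 1226 (cons (fin 971 6 970)
(fin 1290 6 1034)))))))))))
(mv 845 (cons (fin 909 6 844)
(mv 1099 (cons (fin 1163 5 907)
(mv 1162 (cons (fin 1161 1 1097)
(mv 1226 (cons (fin 971 6 970)
(fin 1290 6 1034))))))))))
(cons (mv 843 (cons (fin 907 7 843)
(mv 909 (cons (fin 845 6 844)
(mv 973 (cons (fin 1164 5 908)
(mv 910 (cons (fin 846 6 845)
(mv 911 (cons (fin 971 1 907)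
(fin 912 1 908)))))))))))
(cons (mv 843 (cons (fin 907 7 843)
(mv 1099 (cons (fin 1163 5 907)
(mv 1162 (cons (fin 1161 1 1097)
(mv 1226 (cons (fin 971 6 970)
(fin 1290 6 1034)))))))))
(mv 843 (cons (fin 907 7 843)
(mv 845 (cons (fin 909 6 844)
(mv 1163 (cons (fin 1099 5 907)
(mv 1164 (cons (fin 1227 5 971)
(mv 1228 (cons (fin 973 6 972)
(fin 1292 6 1036)))))))))))))))))
(mv 908 (cons (fin 844 4 844)
(mv 1165 (cons (fin 1229 7 972)
(fin 1100 4 908)))))))))))))))))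
(cons (mv 1034 (cons (cons (mv 1097 (cons (fin 1098 1 1033)
(mv 1033 (cons (fin 1096 1 1032)
(mv 1101 (cons (fin 1100 0 1033)
(fin 1102 0 1034)))))))
(mv 1097 (cons (fin 1098 1 1033)
(mv 1033 (cons (fin 1096 1 1032)
(mv 968 (cons (fin 969 3 968)
(mv 972 (cons (fin 973 2 969)
(mv 1032 (cons (fin 967 3 967)
(fin 971 2 968))))))))))))
(cons (mv 1101 (cons (fin 1102 0 1034)
(mv 1033 (cons (fin 1100 0 1033)
(mv 968 (cons (fin 969 3 968)
(mv 972 (cons (fin 973 2 969)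
(mv 1032 (cons (fin 967 3 967)
(fin 971 2 968)))))))))))
(mv 1098 (cons (fin 1097 1 1033)
(mv 1038 (cons (fin 1099 1 1034)
(mv 1102 (cons (fin 1101 0 1034)
(fin 1103 0 1035))))))))))
(mv 1034 (cons (cons (mv 969 (cons (fin 970 3 969)
(mv 1033 (cons (fin 968 3 968)
(mv 1101 (cons (fin 1100 0 1033)
(fin 1102 0 1034)))))))
(mv 969 (cons (fin 970 3 969)
(mv 1033 (cons (fin 968 3 968)
(mv 972 (cons (fin 973 2 969)
(mv 1032 (cons (fin 971 2 968)
(mv 1096 (cons (fin 1095 1 1031)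
(fin 1097 1 1032))))))))))))
(cons (mv 1101 (cons (fin 1102 0 1034)
(mv 1033 (cons (fin 1100 0 1033)
(mv 968 (cons (fin 969 3 968)
(mv 972 (cons (fin 973 2 969)
(mv 1032 (cons (fin 967 3 967)
(fin 971 2 968)))))))))))
(cons (mv 1101 (cons (fin 1102 0 1034)
(mv 1033 (cons (fin 1100 0 1033)
(mv 972 (cons (fin 973 2 969)
(mv 844 (cons (fin 908 4 844)
(mv 1032 (cons (fin 971 2 968)
(mv 1096 (cons (fin 1095 1 1031)
(fin 1097 1 1032)))))))))))))
(mv 970 (cons (fin 969 3 969)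
(mv 1038 (cons (fin 971 3 970)
(mv 1102 (cons (fin 1101 0 1034)
(fin 1103 0 1035))))))))))))))
(cons (cons (mv 1034 (cons (cons (mv 969 (cons (fin 970 3 969)
(mv 1033 (cons (fin 968 3 968)
(mv 1097 (cons (fin 1096 1 1032)
(fin 1098 1 1033)))))))
(cons (mv 1097 (cons (fin 1098 1 1033)
(mv 1033 (cons (fin 1096 1 1032)
(mv 968 (cons (fin 969 3 968)
(mv 972 (cons (fin 973 2 969)
(mv 1032 (cons (fin 967 3 967)
(fin 971 2 968)))))))))))
(mv 969 (cons (fin 970 3 969)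
(mv 1033 (cons (fin 968 3 968)
(mv 972 (cons (fin 973 2 969)
(mv 971 (cons (fin 1032 2 968)
(mv 1096 (cons (fin 1097 1 1032)
(mv 1100 (cons (fin 1101 0 1033)
(mv 907 (cons (fin 1164 7 907)
(fin 843 4 843)))))))))))))))))
(cons (mv 1097 (cons (fin 1098 1 1033)
(mv 1033 (cons (fin 1096 1 1032)
(mv 972 (cons (fin 973 2 969)
(mv 971 (cons (fin 1032 2 968)
(mv 970 (cons (fin 1038 3 970)
(mv 842 (cons (fin 906 5 841)
(mv 1100 (cons (fin 1101 0 1033)
(mv 907 (cons (fin 1164 7 907)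
(fin 843 4 843)))))))))))))))))
(cons (mv 969 (cons (fin 970 3 969)
(mv 1033 (cons (fin 968 3 968)
(mv 972 (cons (fin 973 2 969)
(mv 971 (cons (fin 1032 2 968)
(mv 1100 (cons (fin 1101 0 1033)
(mv 907 (cons (fin 1164 7 907)
(fin 843 4 843)))))))))))))
(mv 970 (cons (fin 969 3 969)
(mv 971 (cons (fin 1038 3 970)
(mv 1098 (cons (fin 1097 1 1033)
(mv 907 (cons (fin 843 5 842)
(fin 1162 6 906)))))))))))))
(cons (mv 1034 (cons (cons (mv 969 (cons (fin 970 3 969)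
(mv 1033 (cons (fin 968 3 968)
(mv 1097 (cons (fin 1096 1 1032)
(fin 1098 1 1033)))))))
(cons (mv 1097 (cons (fin 1098 1 1033)
(mv 1033 (cons (fin 1096 1 1032)
(mv 968 (cons (fin 969 3 968)
(mv 972 (cons (fin 973 2 969)
(mv 1032 (cons (fin 967 3 967)
(fin 971 2 968)))))))))))
(mv 969 (cons (fin 970 3 969)
(mv 1033 (cons (fin 968 3 968)
(mv 972 (cons (fin 973 2 969)
(mv 1032 (cons (fin 971 2 968)
(mv 1096 (cons (fin 1095 1 1031)
(fin 1097 1 1032)))))))))))))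
(cons (mv 1097 (cons (fin 1098 1 1033)
(mv 1033 (cons (fin 1096 1 1032)
(mv 972 (cons (fin 973 2 969)
(mv 971 (cons (fin 1032 2 968)
(mv 970 (cons (fin 1038 3 970)
(mv 842 (cons (fin 906 5 841)
(mv 1161 (cons (fin 1225 6 969)
(mv 907 (cons (mv 843 (cons (fin 778 7 778)
(fin 779 5 778)))
(mv 1100 (cons (fin 1164 7 907)
(mv 908 (cons (mv 844 (cons (fin 780 5 779)
(fin 1099 5 843)))
(mv 909 (cons (fin 910 1 906)
(fin 845 6 844)))))))))))))))))))))))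
(cons (mv 969 (cons (fin 970 3 969)
(mv 1033 (cons (fin 968 3 968)
(mv 972 (cons (fin 973 2 969)
(mv 1032 (cons (fin 971 2 968)
(mv 1095 (cons (fin 1096 1 1031)
(mv 1031 (cons (fin 1094 1 1030)
(mv 1099 (cons (fin 1098 0 1031)
(fin 1100 0 1032)))))))))))))))
(mv 970 (cons (fin 969 3 969)
(mv 971 (cons (fin 1038 3 970)
(mv 1098 (cons (fin 1097 1 1033)
(mv 907 (cons (fin 843 5 842)
(fin 1162 6 906)))))))))))))
(mv 1038 (cons (cons (mv 970 (cons (fin 971 3 970)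
(mv 1098 (cons (fin 1099 1 1034)
(mv 1034 (cons (fin 1097 1 1033)
(mv 1102 (cons (fin 1101 0 1034)
(fin 1103 0 1035)))))))))
(cons (mv 971 (cons (fin 970 3 970)
(mv 1098 (cons (fin 1099 1 1034)
(mv 1034 (cons (fin 1097 1 1033)
(mv 907 (cons (fin 843 5 842)
(mv 1162 (cons (fin 1226 6 970)
(mv 972 (cons (mv 1033 (cons (fin 1032 2 968)
(fin 973 2 969)))
(cons (mv 1100 (cons (fin 1164 7 907)
(mv 908 (cons (mv 844 (cons (fin 780 5 779)
(fin 1101 4 844)))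
(cons (mv 909 (cons (fin 845 6 844)
(mv 910 (cons (fin 911 1 907)
(mv 846 (cons (fin 847 2 843)
(mv 1101 (cons (fin 973 6 845)
(fin 1165 4 908)))))))))
(mv 844 (cons (fin 780 5 779)
(mv 845 (cons (fin 781 6 780)
(fin 909 6 844))))))))))
(mv 1033 (cons (fin 1032 2 968)
(mv 1100 (cons (fin 1101 0 1033)
(fin 1164 7 907))))))))))))))))))
(mv 970 (cons (fin 971 3 970)
(mv 1102 (cons (fin 1103 0 1035)
(mv 1101 (cons (fin 1034 0 1034)
(mv 973 (cons (mv 909 (cons (fin 845 4 845)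
(fin 1166 4 909)))
(cons (mv 1166 (cons (fin 1230 7 973)
(mv 1165 (cons (mv 972 (cons (fin 908 7 908)
(fin 1229 7 972)))
(cons (mv 972 (cons (fin 908 7 908)
(mv 1164 (cons (fin 1228 5 972)
(mv 1163 (cons (fin 1162 2 1098)
(mv 1227 (cons (fin 1226 1 1162)
(fin 1100 5 971)))))))))
(mv 1228 (cons (fin 1164 5 972)
(mv 1229 (cons (fin 1292 5 1036)
(fin 1293 6 1037))))))))))
(mv 909 (cons (fin 845 4 845)
(mv 844 (cons (fin 908 7 844)
(mv 846 (cons (fin 910 6 845)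
(mv 1164 (cons (fin 1100 5 908)
(mv 1165 (cons (fin 1228 5 972)
(mv 1229 (cons (fin 972 7 972)
(fin 1293 6 1037))))))))))))))))))))))))
(cons (mv 1098 (cons (fin 1099 1 1034)
(mv 1034 (cons (fin 1097 1 1033)
(mv 1102 (cons (fin 1101 0 1034)
(fin 1103 0 1035)))))))
(cons (mv 970 (cons (fin 971 3 970)
(mv 1099 (cons (fin 1098 1 1034)
(mv 1102 (cons (fin 1103 0 1035)
(mv 1163 (cons (cons (mv 972 (cons (fin 1227 6 971)
(mv 908 (cons (fin 844 5 843)
(fin 1100 5 907)))))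
(mv 1100 (cons (cons (mv 908 (cons (fin 972 5 907)
(mv 1101 (cons (fin 1162 1 1098)
(mv 1166 (cons (fin 1167 0 1099)
(mv 973 (cons (fin 1230 7 973)
(fin 909 4 909)))))))))
(mv 972 (cons (fin 908 5 907)
(mv 1164 (cons (mv 973 (cons (fin 909 6 908)
(fin 1228 6 972)))
(cons (mv 1228 (cons (fin 1292 7 1035)
(mv 1229 (cons (fin 1165 4 972)
(fin 1293 4 1036)))))
(mv 973 (cons (fin 909 6 908)
(mv 1165 (cons (fin 1229 4 972)
(mv 1166 (cons (fin 1167 3 1099)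
(fin 1230 7 973)))))))))))))
(cons (mv 1101 (cons (fin 1162 1 1098)
(mv 1166 (cons (fin 1167 0 1099)
(mv 973 (cons (fin 1230 7 973)
(fin 909 4 909)))))))
(cons (mv 908 (cons (fin 972 5 907)
(mv 1101 (cons (fin 1162 1 1098)
(mv 1166 (cons (fin 1167 0 1099)
(mv 1230 (cons (fin 1294 7 1037)
(mv 1229 (cons (fin 1293 5 1037)
(mv 1231 (cons (fin 1295 4 1038)
(mv 1164 (cons (fin 1228 3 1163)
(fin 1165 0 1163)))))))))))))))
(mv 908 (cons (fin 972 5 907)
(mv 1162 (cons (fin 1101 1 1098)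
(mv 1161 (cons (fin 1160 2 1096)
(mv 1164 (cons (mv 1228 (cons (fin 1229 0 1161)
(fin 1292 7 1035)))
(mv 1097 (cons (fin 1096 3 1096)
(mv 1225 (cons (fin 1224 1 1160)
(mv 1226 (cons (fin 1165 1 1161)
(mv 1290 (cons (fin 1354 7 1097)
(fin 1033 4 1033))))))))))))))))))))))
(cons (mv 1227 (cons (cons (mv 1100 (cons (fin 1291 6 1035)
(mv 1101 (cons (fin 1162 1 1098)
(mv 1166 (cons (fin 1167 0 1099)
(mv 973 (cons (fin 1230 7 973)
(fin 909 4 909)))))))))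
(mv 1226 (cons (fin 1290 5 1034)
(mv 1228 (cons (fin 1292 4 1035)
(mv 1229 (cons (mv 1162 (cons (fin 1161 3 1161)
(fin 1230 3 1162)))
(mv 1165 (cons (fin 1166 2 1162)
(mv 1293 (cons (fin 1294 0 1226)
(fin 1101 6 1037))))))))))))
(cons (mv 1100 (cons (fin 1291 6 1035)
(mv 1101 (cons (fin 1162 1 1098)
(mv 1226 (cons (fin 1290 5 1034)
(mv 1228 (cons (fin 1292 4 1035)
(mv 1164 (cons (fin 973 6 972)
(mv 1225 (cons (fin 1224 2 1160)
(fin 1165 2 1161)))))))))))))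
(cons (mv 1100 (cons (fin 1291 6 1035)
(mv 1226 (cons (fin 1290 5 1034)
(mv 1228 (cons (fin 1292 4 1035)
(mv 973 (cons (fin 1164 6 972)
(mv 909 (cons (fin 845 5 844)
(mv 1166 (cons (fin 1230 7 973)
(fin 1101 4 909)))))))))))))
(mv 1100 (cons (fin 1291 6 1035)
(mv 1226 (cons (fin 1290 5 1034)
(mv 1228 (cons (fin 1292 4 1035)
(mv 973 (cons (fin 1164 6 972)
(mv 845 (cons (fin 909 5 844)
(mv 1230 (cons (fin 1166 7 973)
(mv 1229 (cons (fin 1162 3 1162)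
(mv 1294 (cons (fin 1293 0 1226)
(fin 1295 0 1227)))))))))))))))))))))
(mv 1227 (cons (fin 972 6 971)
(mv 1228 (cons (fin 1292 4 1035)
(mv 1290 (cons (fin 1226 5 1034)
(mv 1291 (cons (fin 1354 5 1098)
(mv 1230 (cons (fin 1229 1 1226)
(mv 1166 (cons (fin 973 7 973)
(mv 1288 (cons (fin 1289 2 1224)
(mv 1294 (cons (fin 1101 7 1037)
(mv 1295 (cons (fin 1231 4 1038)
(fin 1359 4 1102))))))))))))))))))))))))))))
(mv 971 (cons (fin 970 3 970)
(mv 1099 (cons (fin 1098 1 1034)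
(mv 1102 (cons (fin 1103 0 1035)
(mv 907 (cons (cons (mv 1100 (cons (fin 843 4 843)
(fin 1164 4 907)))
(mv 842 (cons (fin 906 7 842)
(mv 778 (cons (fin 843 7 778)
(mv 908 (cons (fin 844 6 843)
(mv 1163 (cons (fin 972 6 907)
(mv 1226 (cons (fin 1162 5 970)
(mv 1227 (cons (fin 1290 5 1034)
(mv 1228 (cons (fin 1164 4 971)
(fin 1292 4 1035))))))))))))))))
(cons (mv 842 (cons (fin 906 7 842)
(mv 844 (cons (fin 908 6 843)
(mv 1164 (cons (fin 1100 4 907)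
(mv 1163 (cons (fin 1228 4 971)
(mv 1226 (cons (fin 1162 5 970)
(mv 1227 (cons (fin 1290 5 1034)
(fin 972 6 971)))))))))))))
(mv 842 (cons (fin 906 7 842)
(mv 843 (cons (fin 778 7 778)
(fin 1100 4 843))))))))))))))))))))
(cons (mv 1038 (cons (cons (mv 970 (cons (fin 971 3 970)
(mv 1034 (cons (fin 969 3 969)
(mv 1102 (cons (fin 1101 0 1034)
(fin 1103 0 1035)))))))
(mv 970 (cons (fin 971 3 970)
(mv 1034 (cons (fin 969 3 969)
(mv 1099 (cons (fin 1098 1 1034)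
(mv 842 (cons (fin 906 4 842)
(mv 1163 (cons (fin 1227 7 970)
(mv 1100 (cons (mv 1033 (cons (fin 1032 0 1032)
(fin 1101 0 1033)))
(cons (mv 972 (cons (fin 908 5 907)
(mv 1164 (cons (mv 973 (cons (fin 909 6 908)
(fin 1228 6 972)))
(cons (mv 973 (cons (fin 909 6 908)
(mv 1165 (cons (fin 1229 4 972)
(mv 1166 (cons (fin 1167 3 1099)
(mv 1230 (cons (fin 1231 0 1163)
(fin 1101 4 973)))))))))
(mv 1228 (cons (fin 1292 7 1035)
(mv 1229 (cons (fin 1165 4 972)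
(fin 1293 4 1036))))))))))
(mv 972 (cons (fin 908 5 907)
(mv 1033 (cons (fin 973 2 969)
(fin 1032 0 1032)))))))))))))))))))
(cons (mv 1098 (cons (fin 1099 1 1034)
(mv 1102 (cons (fin 1103 0 1035)
(mv 1101 (cons (fin 1034 0 1034)
(mv 973 (cons (mv 909 (cons (fin 845 4 845)
(fin 1166 4 909)))
(cons (mv 1166 (cons (fin 1230 7 973)
(mv 1165 (cons (mv 972 (cons (fin 908 7 908)
(fin 1229 7 972)))
(cons (mv 972 (cons (fin 908 7 908)
(mv 1164 (cons (fin 1228 5 972)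
(mv 1163 (cons (fin 1162 2 1098)
(mv 1227 (cons (fin 1226 1 1162)
(fin 1100 5 971)))))))))
(mv 1228 (cons (fin 1164 5 972)
(mv 1229 (cons (fin 1292 5 1036)
(fin 1293 6 1037))))))))))
(mv 909 (cons (fin 845 4 845)
(mv 844 (cons (fin 908 7 844)
(mv 846 (cons (fin 910 6 845)
(mv 1164 (cons (fin 1100 5 908)
(mv 1165 (cons (fin 1228 5 972)
(mv 1229 (cons (fin 972 7 972)
(fin 1293 6 1037))))))))))))))))))))))
(cons (mv 970 (cons (fin 971 3 970)
(mv 1099 (cons (fin 1098 1 1034)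
(mv 1102 (cons (fin 1103 0 1035)
(mv 1166 (cons (cons (mv 973 (cons (fin 1230 7 973)
(mv 909 (cons (fin 845 4 845)
(fin 1101 4 909)))))
(mv 1101 (cons (cons (mv 909 (cons (fin 973 4 909)
(mv 1100 (cons (fin 1167 0 1099)
(mv 1163 (cons (fin 1162 1 1098)
(mv 972 (cons (fin 908 5 907)
(fin 1227 6 971)))))))))
(mv 973 (cons (fin 909 4 909)
(mv 1165 (cons (mv 972 (cons (fin 908 7 908)
(fin 1229 7 972)))
(cons (mv 1228 (cons (fin 1164 5 972)
(mv 1229 (cons (fin 1292 5 1036)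
(fin 1293 6 1037)))))
(mv 972 (cons (fin 908 7 908)
(mv 1163 (cons (fin 1227 6 971)
(mv 1164 (cons (fin 1162 2 1098)
(fin 1228 5 972)))))))))))))
(cons (mv 1100 (cons (fin 1167 0 1099)
(mv 1163 (cons (fin 1162 1 1098)
(mv 972 (cons (fin 908 5 907)
(fin 1227 6 971)))))))
(cons (mv 909 (cons (fin 973 4 909)
(mv 1100 (cons (fin 1167 0 1099)
(mv 1163 (cons (fin 1162 1 1098)
(mv 1227 (cons (fin 1291 6 1035)
(mv 1226 (cons (fin 1290 5 1034)
(mv 1165 (cons (fin 1164 1 1162)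
(mv 1228 (cons (fin 1229 2 1162)
(fin 1292 4 1035)))))))))))))))
(mv 909 (cons (fin 973 4 909)
(mv 1167 (cons (fin 1100 0 1099)
(mv 1168 (cons (fin 1169 3 1101)
(mv 1165 (cons (mv 1229 (cons (fin 1228 1 1164)
(fin 972 7 972)))
(mv 1104 (cons (fin 1105 2 1101)
(mv 976 (cons (fin 1231 5 975)
(mv 911 (cons (fin 975 7 911)
(mv 912 (cons (fin 847 7 847)
(mv 913 (cons (fin 849 6 848)
(fin 977 6 912))))))))))))))))))))))))
(cons (mv 1230 (cons (cons (cons (mv 1101 (cons (fin 1294 7 1037)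
(mv 1100 (cons (fin 1167 0 1099)
(mv 1162 (cons (fin 1163 1 1098)
(mv 1229 (cons (fin 1293 5 1037)
(mv 1165 (cons (fin 972 7 972)
(mv 1228 (cons (fin 1292 5 1036)
(mv 1226 (cons (fin 1227 2 1162)
(mv 1231 (cons (fin 1295 4 1038)
(mv 1232 (cons (fin 1164 3 1164)
(fin 1233 3 1165)))))))))))))))))))
(mv 1229 (cons (fin 1293 5 1037)
(mv 1231 (cons (fin 1295 4 1038)
(mv 1228 (cons (mv 1167 (cons (fin 1227 2 1163)
(fin 1168 2 1164)))
(cons (mv 1163 (cons (fin 1164 3 1163)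
(mv 1227 (cons (fin 1162 3 1162)
(fin 972 6 971)))))
(mv 1163 (cons (fin 1164 3 1163)
(mv 1167 (cons (fin 1168 2 1164)
(mv 1101 (cons (fin 1100 0 1099)
(mv 1165 (cons (fin 972 7 972)
(fin 1292 5 1036)))))))))))))))))
(cons (mv 1229 (cons (fin 1293 5 1037)
(mv 1295 (cons (fin 1231 4 1038)
(mv 1294 (cons (fin 1359 4 1102)
(mv 1227 (cons (fin 1228 0 1227)
(mv 1163 (cons (fin 972 6 971)
(mv 1290 (cons (fin 1226 5 1034)
(mv 1291 (cons (fin 1354 5 1098)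
(fin 1100 6 1035)))))))))))))))
(mv 1101 (cons (fin 1294 7 1037)
(mv 1100 (cons (fin 1167 0 1099)
(mv 1163 (cons (fin 1162 1 1098)
(mv 972 (cons (fin 908 5 907)
(fin 1227 6 971)))))))))))
(cons (cons (mv 1101 (cons (fin 1294 7 1037)
(mv 1100 (cons (fin 1167 0 1099)
(mv 1163 (cons (fin 1162 1 1098)
(mv 1227 (cons (fin 1291 6 1035)
(mv 1226 (cons (fin 1290 5 1034)
(mv 1164 (cons (fin 1165 1 1162)
(mv 1224 (cons (fin 1225 2 1160)
(mv 1228 (cons (fin 1292 7 1035)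
(mv 1229 (cons (fin 1231 3 1163)
(fin 1293 5 1037)))))))))))))))))))
(mv 1101 (cons (fin 1294 7 1037)
(mv 1100 (cons (fin 1167 0 1099)
(mv 1229 (cons (fin 1293 5 1037)
(mv 1165 (cons (fin 972 7 972)
(mv 1228 (cons (fin 1292 5 1036)
(mv 1226 (cons (fin 1227 2 1162)
(mv 1231 (cons (fin 1295 4 1038)
(mv 1232 (cons (fin 1164 3 1164)
(fin 1233 3 1165))))))))))))))))))
(cons (mv 1101 (cons (fin 1294 7 1037)
(mv 1229 (cons (fin 1293 5 1037)
(mv 972 (cons (fin 1165 7 972)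
(mv 844 (cons (fin 908 5 843)
(mv 1227 (cons (fin 1163 6 971)
(mv 1228 (cons (fin 1167 2 1163)
(mv 1231 (cons (fin 1295 4 1038)
(mv 1291 (cons (fin 1290 1 1226)
(fin 1292 1 1227)))))))))))))))))
(mv 1101 (cons (fin 1294 7 1037)
(mv 1100 (cons (fin 1167 0 1099)
(mv 1162 (cons (fin 1163 1 1098)
(mv 1229 (cons (fin 1293 5 1037)
(mv 1165 (cons (fin 972 7 972)
(mv 1228 (cons (fin 1292 5 1036)
(mv 1231 (cons (fin 1295 4 1038)
(mv 1232 (cons (fin 1164 3 1164)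
(fin 1233 3 1165)))))))))))))))))))))
(mv 1230 (cons (fin 973 7 973)
(mv 1229 (cons (fin 1293 5 1037)
(mv 1295 (cons (fin 1231 4 1038)
(mv 1294 (cons (fin 1359 4 1102)
(mv 1227 (cons (fin 1228 0 1227)
(mv 1163 (cons (fin 972 6 971)
(mv 1290 (cons (fin 1226 5 1034)
(mv 1291 (cons (fin 1354 5 1098)
(fin 1100 6 1035))))))))))))))))))))))))))
(mv 970 (cons (fin 971 3 970)
(mv 1034 (cons (fin 969 3 969)
(mv 1099 (cons (fin 1098 1 1034)
(mv 842 (cons (fin 906 4 842)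
(mv 1102 (cons (fin 1103 0 1035)
(mv 1163 (cons (fin 1227 7 970)
(mv 972 (cons (mv 908 (cons (fin 844 5 843)
(fin 1100 5 907)))
(cons (mv 1033 (cons (fin 973 2 969)
(mv 1032 (cons (fin 1100 0 1032)
(mv 967 (cons (fin 968 3 967)
(mv 1031 (cons (fin 966 3 966)
(mv 1095 (cons (fin 1094 1 1030)
(fin 1096 1 1031)))))))))))
(mv 844 (cons (fin 908 5 843)
(mv 973 (cons (fin 1033 2 969)
(mv 845 (cons (fin 909 4 845)
(mv 843 (cons (cons (mv 777 (cons (fin 778 3 777)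
(mv 781 (cons (fin 782 2 778)
(mv 841 (cons (fin 776 3 776)
(fin 780 2 777)))))))
(mv 781 (cons (fin 782 2 778)
(mv 841 (cons (fin 780 2 777)
(mv 840 (cons (mv 776 (cons (fin 775 3 775)
(fin 777 3 776)))
(mv 904 (cons (fin 903 1 839)
(fin 905 1 840))))))))))
(cons (mv 778 (cons (fin 777 3 777)
(mv 846 (cons (fin 779 3 778)
(mv 847 (cons (mv 783 (cons (fin 782 2 779)
(fin 784 2 780)))
(mv 911 (cons (fin 910 0 843)
(fin 912 0 844)))))))))
(cons (mv 782 (cons (fin 781 2 778)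
(mv 846 (cons (fin 783 2 779)
(mv 847 (cons (mv 779 (cons (fin 778 3 778)
(fin 780 3 779)))
(mv 911 (cons (fin 910 0 843)
(fin 912 0 844)))))))))
(mv 777 (cons (fin 778 3 777)
(mv 841 (cons (fin 776 3 776)
(mv 840 (cons (mv 780 (cons (fin 779 2 776)
(fin 781 2 777)))
(mv 904 (cons (fin 903 1 839)
(fin 905 1 840))))))))))))))))))))))))))))))))))))))
(cons (mv 1034 (cons (cons (mv 969 (cons (fin 970 3 969)
(mv 968 (cons (fin 1033 3 968)
(mv 1098 (cons (fin 1097 1 1033)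
(mv 1038 (cons (fin 1099 1 1034)
(mv 1102 (cons (fin 1101 0 1034)
(fin 1103 0 1035)))))))))))
(cons (mv 1097 (cons (fin 1098 1 1033)
(mv 1033 (cons (fin 1096 1 1032)
(mv 968 (cons (fin 969 3 968)
(mv 972 (cons (fin 973 2 969)
(mv 1032 (cons (fin 967 3 967)
(fin 971 2 968)))))))))))
(mv 969 (cons (fin 970 3 969)
(mv 1033 (cons (fin 968 3 968)
(mv 972 (cons (fin 973 2 969)
(mv 1032 (cons (fin 971 2 968)
(mv 1096 (cons (fin 1095 1 1031)
(fin 1097 1 1032)))))))))))))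
(cons (mv 1097 (cons (fin 1098 1 1033)
(mv 1033 (cons (fin 1096 1 1032)
(mv 972 (cons (fin 973 2 969)
(mv 971 (cons (fin 1032 2 968)
(mv 1038 (cons (fin 970 3 970)
(mv 1102 (cons (fin 1101 0 1034)
(fin 1103 0 1035)))))))))))))
(cons (mv 969 (cons (fin 970 3 969)
(mv 1033 (cons (fin 968 3 968)
(mv 972 (cons (fin 973 2 969)
(mv 971 (cons (fin 1032 2 968)
(mv 1101 (cons (fin 1102 0 1034)
(mv 908 (cons (fin 844 4 844)
(mv 1099 (cons (fin 1163 6 907)
(mv 1098 (cons (fin 1038 1 1034)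
(mv 907 (cons (fin 843 5 842)
(fin 1162 5 906)))))))))))))))))))
(mv 969 (cons (fin 970 3 969)
(mv 1098 (cons (fin 1097 1 1033)
(mv 1038 (cons (fin 1099 1 1034)
(mv 1102 (cons (fin 1101 0 1034)
(fin 1103 0 1035)))))))))))))
(mv 1034 (cons (cons (mv 969 (cons (fin 970 3 969)
(mv 968 (cons (fin 1033 3 968)
(mv 1098 (cons (fin 1097 1 1033)
(mv 1038 (cons (fin 1099 1 1034)
(mv 1102 (cons (fin 1101 0 1034)
(fin 1103 0 1035)))))))))))
(mv 1097 (cons (fin 1098 1 1033)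
(mv 1101 (cons (fin 1102 0 1034)
(mv 1033 (cons (fin 1100 0 1033)
(mv 968 (cons (fin 969 3 968)
(mv 972 (cons (fin 973 2 969)
(mv 1032 (cons (fin 967 3 967)
(fin 971 2 968))))))))))))))
(cons (mv 969 (cons (fin 970 3 969)
(mv 1033 (cons (fin 968 3 968)
(mv 972 (cons (fin 973 2 969)
(mv 971 (cons (fin 1032 2 968)
(mv 1098 (cons (fin 1097 1 1033)
(mv 841 (cons (fin 905 4 841)
(mv 843 (cons (fin 907 5 842)
(mv 1099 (cons (fin 1038 1 1034)
(mv 908 (cons (fin 844 5 843)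
(fin 1163 6 907)))))))))))))))))))
(cons (mv 969 (cons (fin 970 3 969)
(mv 1033 (cons (fin 968 3 968)
(mv 1101 (cons (fin 1100 0 1033)
(fin 1102 0 1034)))))))
(mv 1098 (cons (fin 1097 1 1033)
(mv 1038 (cons (fin 1099 1 1034)
(mv 1102 (cons (fin 1101 0 1034)
(fin 1103 0 1035))))))))))))))))
(mv 1035 (cons (cons (cons (mv 1034 (cons (cons (mv 969 (cons (fin 970 3 969)
(mv 968 (cons (fin 1033 3 968)
(mv 974 (cons (fin 973 2 970)
(mv 1038 (cons (fin 975 2 971)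
(mv 1098 (cons (fin 1097 1 1033)
(fin 1099 1 1034)))))))))))
(mv 973 (cons (fin 974 2 970)
(mv 972 (cons (fin 1033 2 969)
(mv 1098 (cons (fin 1097 1 1033)
(mv 1099 (cons (fin 1038 1 1034)
(mv 908 (cons (fin 844 5 843)
(mv 1163 (cons (fin 1100 5 907)
(fin 971 6 907))))))))))))))
(cons (mv 969 (cons (fin 970 3 969)
(mv 973 (cons (fin 974 2 970)
(mv 1033 (cons (fin 968 3 968)
(fin 972 2 969)))))))
(cons (mv 969 (cons (fin 970 3 969)
(mv 1033 (cons (fin 968 3 968)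
(mv 1097 (cons (fin 1096 1 1032)
(fin 1098 1 1033)))))))
(mv 969 (cons (fin 970 3 969)
(mv 974 (cons (fin 973 2 970)
(mv 1038 (cons (fin 975 2 971)
(mv 1098 (cons (fin 1097 1 1033)
(fin 1099 1 1034)))))))))))))
(cons (mv 971 (cons (cons (mv 970 (cons (fin 1038 3 970)
(mv 969 (cons (fin 968 0 968)
(fin 972 0 969)))))
(mv 1100 (cons (cons (mv 907 (cons (fin 843 4 843)
(mv 1164 (cons (fin 972 7 907)
(fin 1228 7 971)))))
(mv 907 (cons (fin 843 4 843)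
(mv 1099 (cons (mv 1098 (cons (fin 1038 1 1034)
(fin 1097 2 1033)))
(mv 842 (cons (fin 906 7 842)
(mv 908 (cons (fin 844 6 843)
(mv 972 (cons (fin 1163 5 907)
(mv 909 (cons (fin 845 6 844)
(mv 910 (cons (fin 911 1 907)
(mv 846 (cons (fin 847 2 843)
(mv 1101 (cons (fin 973 6 845)
(fin 1165 4 908))))))))))))))))))))
(cons (mv 1164 (cons (fin 1228 7 971)
(mv 972 (cons (mv 909 (cons (fin 973 6 908)
(mv 908 (cons (fin 845 6 844)
(mv 844 (cons (fin 780 5 779)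
(fin 1099 5 843)))))))
(cons (mv 1163 (cons (fin 1227 5 971)
(mv 908 (cons (fin 1099 5 907)
(mv 844 (cons (fin 780 5 779)
(fin 1101 4 844)))))))
(mv 973 (cons (fin 909 6 908)
(mv 974 (cons (fin 975 1 971)
(mv 910 (cons (fin 911 2 907)
(mv 1165 (cons (fin 1101 6 909)
(fin 1229 4 972))))))))))))))
(mv 907 (cons (fin 843 4 843)
(mv 1164 (cons (fin 1228 7 971)
(fin 1099 4 907)))))))))
(cons (mv 1100 (cons (cons (mv 907 (cons (fin 843 4 843)
(mv 1164 (cons (fin 972 7 907)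
(fin 1228 7 971)))))
(mv 907 (cons (fin 843 4 843)
(mv 1099 (cons (mv 1098 (cons (fin 1097 2 1033)
(fin 1162 5 906)))
(mv 842 (cons (fin 906 7 842)
(mv 908 (cons (fin 844 6 843)
(mv 972 (cons (fin 1163 5 907)
(mv 909 (cons (fin 845 6 844)
(mv 910 (cons (fin 970 1 906)
(fin 911 1 907))))))))))))))))
(cons (mv 1164 (cons (fin 1228 7 971)
(mv 972 (cons (cons (mv 909 (cons (fin 973 6 908)
(mv 845 (cons (fin 908 6 844)
(mv 970 (cons (fin 969 0 969)
(mv 1163 (cons (fin 1227 5 971)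
(mv 1099 (cons (fin 906 7 906)
(mv 1097 (cons (fin 1098 2 1033)
(mv 1162 (cons (fin 1226 5 970)
(mv 1161 (cons (fin 1096 3 1096)
(fin 1160 2 1096)))))))))))))))))
(mv 969 (cons (fin 970 0 969)
(mv 1163 (cons (fin 1227 5 971)
(mv 908 (cons (fin 1099 5 907)
(mv 844 (cons (fin 780 5 779)
(fin 1101 4 844))))))))))
(cons (mv 909 (cons (fin 973 6 908)
(mv 908 (cons (fin 845 6 844)
(mv 844 (cons (fin 780 5 779)
(fin 1099 5 843)))))))
(cons (mv 909 (cons (fin 973 6 908)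
(mv 970 (cons (fin 969 0 969)
(mv 1163 (cons (fin 1227 5 971)
(mv 1099 (cons (fin 906 7 906)
(mv 1097 (cons (fin 1098 2 1033)
(mv 1162 (cons (fin 1226 5 970)
(mv 1161 (cons (fin 1096 3 1096)
(fin 1160 2 1096)))))))))))))))
(mv 909 (cons (fin 973 6 908)
(mv 908 (cons (fin 845 6 844)
(mv 844 (cons (fin 780 5 779)
(fin 1101 4 844)))))))))))))
(mv 907 (cons (fin 843 4 843)
(mv 1164 (cons (fin 1228 7 971)
(fin 1099 4 907))))))))
(mv 970 (cons (fin 1038 3 970)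
(mv 968 (cons (fin 969 0 968)
(mv 1099 (cons (cons (mv 906 (cons (fin 1163 7 906)
(mv 842 (cons (fin 907 7 842)
(fin 778 4 778)))))
(mv 907 (cons (mv 1100 (cons (fin 843 4 843)
(fin 1164 4 907)))
(cons (mv 842 (cons (fin 906 7 842)
(mv 843 (cons (fin 778 7 778)
(mv 844 (cons (fin 780 6 779)
(fin 908 6 843)))))))
(mv 842 (cons (fin 906 7 842)
(mv 844 (cons (fin 908 6 843)
(mv 1098 (cons (fin 1162 5 906)
(mv 1097 (cons (fin 1096 2 1032)
(fin 1100 2 1033)))))))))))))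
(cons (mv 1100 (cons (mv 907 (cons (fin 843 4 843)
(fin 1164 4 907)))
(cons (mv 907 (cons (fin 843 4 843)
(mv 1098 (cons (fin 1097 2 1033)
(fin 1162 5 906)))))
(mv 1097 (cons (fin 1098 2 1033)
(mv 1163 (cons (cons (mv 1162 (cons (fin 1226 5 970)
(mv 1160 (cons (fin 1161 2 1096)
(mv 1227 (cons (fin 1291 6 1035)
(mv 1228 (cons (fin 1164 7 971)
(fin 1292 4 1035)))))))))
(mv 1162 (cons (fin 1226 5 970)
(mv 1161 (cons (fin 1160 2 1096)
(mv 1164 (cons (fin 1096 3 1096)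
(fin 1101 2 1097))))))))
(cons (mv 1226 (cons (fin 1162 5 970)
(mv 1227 (cons (fin 1290 5 1034)
(fin 1291 6 1035)))))
(mv 1227 (cons (fin 1291 6 1035)
(mv 1228 (cons (fin 1164 7 971)
(fin 1292 4 1035)))))))))))))
(mv 1163 (cons (fin 906 7 906)
(mv 1162 (cons (fin 1226 5 970)
(mv 1228 (cons (fin 1164 4 971)
(mv 1227 (cons (fin 1292 4 1035)
(mv 1100 (cons (fin 1291 6 1035)
(mv 1098 (cons (fin 1097 2 1033)
(mv 1161 (cons (fin 1101 1 1097)
(fin 1160 2 1096)))))))))))))))))))))))))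
(mv 1034 (cons (cons (mv 969 (cons (fin 970 3 969)
(mv 973 (cons (fin 974 2 970)
(mv 1033 (cons (fin 968 3 968)
(fin 972 2 969)))))))
(mv 969 (cons (fin 970 3 969)
(mv 1033 (cons (fin 968 3 968)
(mv 1097 (cons (fin 1096 1 1032)
(fin 1098 1 1033))))))))
(cons (mv 973 (cons (fin 974 2 970)
(mv 1033 (cons (fin 972 2 969)
(mv 1097 (cons (fin 1096 1 1032)
(fin 1098 1 1033)))))))
(mv 969 (cons (fin 970 3 969)
(mv 973 (cons (fin 974 2 970)
(mv 1098 (cons (fin 1097 1 1033)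
(mv 971 (cons (cons (mv 907 (cons (fin 843 5 842)
(mv 1162 (cons (fin 1099 5 906)
(fin 1226 6 970)))))
(mv 1162 (cons (fin 1226 6 970)
(mv 909 (cons (cons (mv 845 (cons (fin 1100 5 844)
(mv 780 (cons (fin 844 7 780)
(mv 781 (cons (fin 716 7 716)
(fin 972 5 780)))))))
(mv 845 (cons (cons (mv 780 (cons (fin 844 7 780)
(mv 781 (cons (fin 716 7 716)
(fin 972 5 780)))))
(mv 782 (cons (fin 846 6 781)
(mv 844 (cons (fin 780 7 780)
(mv 908 (cons (fin 1101 7 844)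
(mv 972 (cons (fin 1099 5 843)
(mv 843 (cons (fin 779 7 779)
(mv 842 (cons (fin 841 0 841)
(fin 910 0 842))))))))))))))
(cons (mv 781 (cons (fin 972 5 780)
(mv 782 (cons (fin 718 6 717)
(fin 846 6 781)))))
(mv 780 (cons (fin 844 7 780)
(mv 781 (cons (fin 716 7 716)
(mv 782 (cons (fin 718 6 717)
(fin 846 6 781)))))))))))
(cons (mv 1101 (cons (cons (mv 844 (cons (fin 908 7 844)
(mv 846 (cons (fin 910 6 845)
(mv 1100 (cons (fin 1164 5 908)
(mv 1099 (cons (fin 1161 1 1097)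
(mv 1165 (cons (fin 1166 0 1098)
(mv 1229 (cons (fin 972 7 972)
(fin 1293 7 1036)))))))))))))
(cons (mv 846 (cons (fin 910 6 845)
(mv 908 (cons (fin 844 7 844)
(mv 1165 (cons (fin 972 7 908)
(mv 1164 (cons (fin 1228 5 972)
(mv 1230 (cons (fin 1166 4 973)
(mv 1229 (cons (fin 1163 0 1162)
(fin 1294 4 1037)))))))))))))
(mv 846 (cons (fin 910 6 845)
(mv 908 (cons (fin 844 7 844)
(mv 1165 (cons (fin 972 7 908)
(mv 1230 (cons (fin 1166 4 973)
(mv 1229 (cons (fin 1294 4 1037)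
(mv 1292 (cons (fin 1228 5 1036)
(mv 1293 (cons (fin 1100 7 1036)
(fin 1356 5 1100)))))))))))))))))
(cons (cons (mv 846 (cons (fin 910 6 845)
(mv 1100 (cons (fin 1164 5 908)
(mv 1099 (cons (fin 1161 1 1097)
(mv 1165 (cons (fin 1166 0 1098)
(mv 1229 (cons (fin 972 7 972)
(fin 1293 7 1036)))))))))))
(mv 844 (cons (fin 908 7 844)
(mv 1100 (cons (fin 1164 5 908)
(mv 1099 (cons (fin 1161 1 1097)
(mv 1165 (cons (fin 1166 0 1098)
(mv 1229 (cons (fin 972 7 972)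
(fin 1293 7 1036))))))))))))
(cons (mv 844 (cons (fin 908 7 844)
(mv 846 (cons (fin 910 6 845)
(mv 1164 (cons (fin 1100 5 908)
(mv 1165 (cons (fin 1228 5 972)
(mv 1230 (cons (fin 1166 4 973)
(mv 1229 (cons (fin 1163 0 1162)
(fin 1294 4 1037)))))))))))))
(mv 908 (cons (fin 844 7 844)
(mv 910 (cons (fin 846 6 845)
(mv 911 (cons (fin 972 1 907)
(mv 847 (cons (fin 848 2 844)
(mv 976 (cons (fin 975 0 908)
(mv 912 (cons (fin 977 0 909)
(fin 1104 7 847)))))))))))))))))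
(cons (mv 845 (cons (fin 1100 5 844)
(mv 780 (cons (fin 844 7 780)
(mv 781 (cons (fin 716 7 716)
(mv 782 (cons (fin 718 6 717)
(fin 846 6 781)))))))))
(mv 845 (cons (fin 1100 5 844)
(mv 781 (cons (fin 972 5 780)
(mv 782 (cons (fin 718 6 717)
(fin 846 6 781))))))))))))))
(cons (mv 907 (cons (fin 843 5 842)
(mv 908 (cons (cons (mv 844 (cons (fin 1099 6 843)
(mv 780 (cons (fin 716 5 715)
(fin 972 5 779)))))
(mv 972 (cons (cons (mv 905 (cons (fin 906 0 905)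
(mv 1099 (cons (fin 1163 6 907)
(mv 1100 (cons (fin 1164 7 907)
(mv 909 (cons (fin 845 5 844)
(mv 910 (cons (fin 911 1 907)
(mv 846 (cons (fin 847 2 843)
(fin 1101 6 845)))))))))))))
(mv 906 (cons (fin 905 0 905)
(mv 1099 (cons (fin 842 7 842)
(fin 1163 6 907))))))
(cons (mv 905 (cons (fin 906 0 905)
(mv 1100 (cons (fin 1164 7 907)
(mv 909 (cons (fin 845 5 844)
(mv 910 (cons (fin 911 1 907)
(mv 846 (cons (fin 847 2 843)
(fin 1101 6 845)))))))))))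
(mv 1099 (cons (fin 1163 6 907)
(mv 1100 (cons (fin 1164 7 907)
(mv 909 (cons (fin 845 5 844)
(mv 910 (cons (fin 911 1 907)
(mv 846 (cons (fin 847 2 843)
(fin 1101 6 845)))))))))))))))
(cons (mv 972 (cons (mv 844 (cons (fin 780 5 779)
(fin 1101 4 844)))
(cons (mv 905 (cons (fin 906 0 905)
(mv 1100 (cons (fin 1164 7 907)
(mv 909 (cons (fin 845 5 844)
(mv 910 (cons (fin 911 1 907)
(mv 846 (cons (fin 847 2 843)
(fin 1101 6 845)))))))))))
(mv 844 (cons (fin 780 5 779)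
(mv 845 (cons (fin 781 6 780)
(mv 1100 (cons (fin 1164 7 907)
(fin 909 5 844))))))))))
(mv 844 (cons (fin 1099 6 843)
(mv 716 (cons (fin 780 5 715)
(mv 909 (cons (fin 1101 7 844)
(mv 845 (cons (fin 1100 5 844)
(mv 846 (cons (fin 847 1 843)
(fin 906 2 842))))))))))))))))
(cons (mv 1162 (cons (fin 1226 6 970)
(mv 907 (cons (fin 1099 5 906)
(mv 909 (cons (cons (mv 845 (cons (fin 1100 5 844)
(mv 780 (cons (fin 844 7 780)
(mv 781 (cons (fin 716 7 716)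
(fin 972 5 780)))))))
(mv 845 (cons (mv 780 (cons (fin 844 7 780)
(mv 781 (cons (fin 716 7 716)
(fin 972 5 780)))))
(cons (mv 780 (cons (fin 844 7 780)
(mv 846 (cons (fin 782 6 781)
(mv 908 (cons (fin 906 2 842)
(mv 847 (cons (fin 848 1 844)
(fin 910 2 843)))))))))
(mv 781 (cons (fin 972 5 780)
(mv 782 (cons (fin 718 6 717)
(fin 846 6 781)))))))))
(cons (mv 1101 (cons (cons (mv 844 (cons (fin 908 7 844)
(mv 846 (cons (fin 910 6 845)
(mv 1164 (cons (fin 1100 5 908)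
(mv 1165 (cons (fin 1228 5 972)
(mv 1229 (cons (fin 972 7 972)
(mv 1230 (cons (fin 1163 0 1162)
(fin 1166 4 973)))))))))))))
(cons (mv 846 (cons (fin 910 6 845)
(mv 908 (cons (fin 844 7 844)
(mv 1165 (cons (fin 972 7 908)
(mv 1230 (cons (fin 1166 4 973)
(mv 1229 (cons (fin 1294 4 1037)
(mv 1292 (cons (fin 1228 5 1036)
(mv 1293 (cons (fin 1100 7 1036)
(fin 1356 5 1100)))))))))))))))
(mv 846 (cons (fin 910 6 845)
(mv 908 (cons (fin 844 7 844)
(mv 1165 (cons (fin 972 7 908)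
(mv 1164 (cons (fin 1228 5 972)
(mv 1230 (cons (fin 1166 4 973)
(mv 1229 (cons (fin 1163 0 1162)
(fin 1294 4 1037)))))))))))))))
(cons (cons (mv 846 (cons (fin 910 6 845)
(mv 1164 (cons (fin 1100 5 908)
(mv 1165 (cons (fin 1228 5 972)
(mv 1229 (cons (fin 972 7 972)
(mv 1230 (cons (fin 1163 0 1162)
(fin 1166 4 973)))))))))))
(mv 844 (cons (fin 908 7 844)
(mv 1164 (cons (fin 1100 5 908)
(mv 1165 (cons (fin 1228 5 972)
(mv 1229 (cons (fin 972 7 972)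
(mv 1230 (cons (fin 1163 0 1162)
(fin 1166 4 973))))))))))))
(cons (mv 844 (cons (fin 908 7 844)
(mv 846 (cons (fin 910 6 845)
(mv 1164 (cons (fin 1100 5 908)
(mv 1165 (cons (fin 1228 5 972)
(mv 1230 (cons (fin 1166 4 973)
(mv 1229 (cons (fin 1163 0 1162)
(fin 1294 4 1037)))))))))))))
(mv 908 (cons (fin 844 7 844)
(mv 910 (cons (fin 846 6 845)
(mv 911 (cons (fin 972 1 907)
(mv 847 (cons (fin 848 2 844)
(mv 976 (cons (fin 975 0 908)
(mv 912 (cons (fin 977 0 909)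
(fin 1104 7 847)))))))))))))))))
(cons (mv 845 (cons (fin 1100 5 844)
(mv 780 (cons (fin 844 7 780)
(mv 716 (cons (fin 781 7 716)
(mv 846 (cons (fin 782 6 781)
(mv 908 (cons (fin 906 2 842)
(mv 847 (cons (fin 848 1 844)
(fin 910 2 843)))))))))))))
(mv 845 (cons (fin 1100 5 844)
(mv 781 (cons (fin 972 5 780)
(mv 782 (cons (fin 718 6 717)
(fin 846 6 781)))))))))))))))
(mv 907 (cons (fin 843 5 842)
(mv 1162 (cons (fin 1226 6 970)
(mv 909 (cons (cons (mv 845 (cons (fin 1100 5 844)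
(mv 780 (cons (fin 844 7 780)
(mv 781 (cons (fin 716 7 716)
(fin 972 5 780)))))))
(mv 845 (cons (mv 780 (cons (fin 844 7 780)
(mv 781 (cons (fin 716 7 716)
(fin 972 5 780)))))
(cons (mv 780 (cons (fin 844 7 780)
(mv 846 (cons (fin 782 6 781)
(mv 908 (cons (fin 906 2 842)
(mv 847 (cons (fin 848 1 844)
(fin 910 2 843)))))))))
(mv 781 (cons (fin 972 5 780)
(mv 782 (cons (fin 718 6 717)
(fin 846 6 781)))))))))
(cons (mv 1101 (cons (cons (mv 844 (cons (fin 908 7 844)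
(mv 846 (cons (fin 910 6 845)
(mv 1164 (cons (fin 1100 5 908)
(mv 1165 (cons (fin 1228 5 972)
(mv 1229 (cons (fin 972 7 972)
(mv 1230 (cons (fin 1163 0 1162)
(fin 1166 4 973)))))))))))))
(cons (mv 846 (cons (fin 910 6 845)
(mv 908 (cons (fin 844 7 844)
(mv 1165 (cons (fin 972 7 908)
(mv 1230 (cons (fin 1166 4 973)
(mv 1229 (cons (fin 1294 4 1037)
(mv 1292 (cons (fin 1228 5 1036)
(mv 1293 (cons (fin 1100 7 1036)
(fin 1356 5 1100)))))))))))))))
(mv 846 (cons (fin 910 6 845)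
(mv 908 (cons (fin 844 7 844)
(mv 1165 (cons (fin 972 7 908)
(mv 1164 (cons (fin 1228 5 972)
(mv 1230 (cons (fin 1166 4 973)
(mv 1229 (cons (fin 1163 0 1162)
(fin 1294 4 1037)))))))))))))))
(cons (cons (mv 846 (cons (fin 910 6 845)
(mv 1164 (cons (fin 1100 5 908)
(mv 1165 (cons (fin 1228 5 972)
(mv 1229 (cons (fin 972 7 972)
(mv 1230 (cons (fin 1163 0 1162)
(fin 1166 4 973)))))))))))
(mv 844 (cons (fin 908 7 844)
(mv 1164 (cons (fin 1100 5 908)
(mv 1165 (cons (fin 1228 5 972)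
(mv 1229 (cons (fin 972 7 972)
(mv 1230 (cons (fin 1163 0 1162)
(fin 1166 4 973))))))))))))
(cons (mv 844 (cons (fin 908 7 844)
(mv 846 (cons (fin 910 6 845)
(mv 1164 (cons (fin 1100 5 908)
(mv 1165 (cons (fin 1228 5 972)
(mv 1230 (cons (fin 1166 4 973)
(mv 1229 (cons (fin 1163 0 1162)
(fin 1294 4 1037)))))))))))))
(mv 908 (cons (fin 844 7 844)
(mv 910 (cons (fin 846 6 845)
(mv 911 (cons (fin 972 1 907)
(mv 847 (cons (fin 848 2 844)
(mv 976 (cons (fin 975 0 908)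
(mv 912 (cons (fin 977 0 909)
(fin 1104 7 847)))))))))))))))))
(cons (mv 845 (cons (fin 1100 5 844)
(mv 780 (cons (fin 844 7 780)
(mv 716 (cons (fin 781 7 716)
(mv 846 (cons (fin 782 6 781)
(mv 908 (cons (fin 906 2 842)
(mv 847 (cons (fin 848 1 844)
(fin 910 2 843)))))))))))))
(mv 845 (cons (fin 1100 5 844)
(mv 781 (cons (fin 972 5 780)
(mv 782 (cons (fin 718 6 717)
(fin 846 6 781))))))))))))))))))))))))))))))
(cons (mv 1034 (cons (cons (mv 973 (cons (fin 974 2 970)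
(mv 972 (cons (fin 1033 2 969)
(mv 1098 (cons (fin 1097 1 1033)
(mv 1099 (cons (fin 1038 1 1034)
(mv 908 (cons (fin 844 5 843)
(mv 1163 (cons (fin 1100 5 907)
(fin 971 6 907)))))))))))))
(mv 1097 (cons (fin 1098 1 1033)
(mv 1033 (cons (fin 1096 1 1032)
(mv 968 (cons (fin 969 3 968)
(mv 1032 (cons (fin 967 3 967)
(mv 1100 (cons (fin 1099 0 1032)
(fin 1101 0 1033))))))))))))
(cons (mv 973 (cons (fin 974 2 970)
(mv 1033 (cons (fin 972 2 969)
(mv 968 (cons (fin 969 3 968)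
(mv 1032 (cons (fin 967 3 967)
(mv 1096 (cons (fin 1095 1 1031)
(fin 1097 1 1032)))))))))))
(cons (mv 973 (cons (fin 974 2 970)
(mv 1033 (cons (fin 972 2 969)
(mv 968 (cons (fin 969 3 968)
(mv 1032 (cons (fin 967 3 967)
(mv 1100 (cons (fin 1099 0 1032)
(fin 1101 0 1033)))))))))))
(mv 974 (cons (fin 973 2 970)
(mv 1038 (cons (fin 975 2 971)
(mv 1098 (cons (fin 1097 1 1033)
(fin 1099 1 1034)))))))))))
(cons (mv 1034 (cons (cons (mv 969 (cons (fin 970 3 969)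
(mv 973 (cons (fin 974 2 970)
(mv 1033 (cons (fin 968 3 968)
(fin 972 2 969)))))))
(mv 969 (cons (fin 970 3 969)
(mv 1033 (cons (fin 968 3 968)
(mv 1096 (cons (fin 1097 1 1032)
(mv 1032 (cons (fin 1095 1 1031)
(mv 1100 (cons (fin 1099 0 1032)
(fin 1101 0 1033))))))))))))
(cons (mv 973 (cons (fin 974 2 970)
(mv 1033 (cons (fin 972 2 969)
(mv 968 (cons (fin 969 3 968)
(mv 1032 (cons (fin 967 3 967)
(mv 1096 (cons (fin 1095 1 1031)
(fin 1097 1 1032)))))))))))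
(cons (mv 973 (cons (fin 974 2 970)
(mv 1033 (cons (fin 972 2 969)
(mv 1096 (cons (fin 1097 1 1032)
(mv 1032 (cons (fin 1095 1 1031)
(mv 1100 (cons (fin 1099 0 1032)
(fin 1101 0 1033)))))))))))
(mv 970 (cons (fin 969 3 969)
(mv 974 (cons (fin 973 2 970)
(mv 1038 (cons (fin 971 3 970)
(fin 975 2 971)))))))))))
(mv 1034 (cons (cons (mv 969 (cons (fin 970 3 969)
(mv 1033 (cons (fin 968 3 968)
(mv 1097 (cons (fin 1096 1 1032)
(fin 1098 1 1033)))))))
(cons (mv 1097 (cons (fin 1098 1 1033)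
(mv 1033 (cons (fin 1096 1 1032)
(mv 968 (cons (fin 969 3 968)
(mv 972 (cons (fin 973 2 969)
(mv 1032 (cons (fin 967 3 967)
(fin 971 2 968)))))))))))
(mv 969 (cons (fin 970 3 969)
(mv 1033 (cons (fin 968 3 968)
(mv 972 (cons (fin 973 2 969)
(mv 971 (cons (fin 1032 2 968)
(mv 1096 (cons (fin 1097 1 1032)
(mv 1100 (cons (fin 1101 0 1033)
(mv 907 (cons (fin 1164 7 907)
(fin 843 4 843)))))))))))))))))
(cons (mv 1097 (cons (fin 1098 1 1033)
(mv 1033 (cons (fin 1096 1 1032)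
(mv 972 (cons (fin 973 2 969)
(mv 971 (cons (fin 1032 2 968)
(mv 970 (cons (fin 1038 3 970)
(mv 842 (cons (fin 906 5 841)
(mv 1100 (cons (fin 1101 0 1033)
(mv 907 (cons (fin 1164 7 907)
(fin 843 4 843)))))))))))))))))
(cons (mv 969 (cons (fin 970 3 969)
(mv 1033 (cons (fin 968 3 968)
(mv 972 (cons (fin 973 2 969)
(mv 971 (cons (fin 1032 2 968)
(mv 1100 (cons (fin 1101 0 1033)
(mv 907 (cons (fin 1164 7 907)
(fin 843 4 843)))))))))))))
(mv 970 (cons (fin 969 3 969)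
(mv 971 (cons (fin 1038 3 970)
(mv 1098 (cons (fin 1097 1 1033)
(mv 907 (cons (fin 843 5 842)
(fin 1162 6 906))))))))))))))))
(cons (cons (mv 1034 (cons (cons (mv 969 (cons (fin 970 3 969)
(mv 1033 (cons (fin 968 3 968)
(mv 1097 (cons (fin 1096 1 1032)
(fin 1098 1 1033)))))))
(cons (mv 969 (cons (fin 970 3 969)
(mv 1033 (cons (fin 968 3 968)
(mv 1096 (cons (fin 1097 1 1032)
(mv 1032 (cons (fin 1095 1 1031)
(mv 1100 (cons (fin 1099 0 1032)
(fin 1101 0 1033)))))))))))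
(mv 1097 (cons (fin 1098 1 1033)
(mv 1033 (cons (fin 1096 1 1032)
(mv 968 (cons (fin 969 3 968)
(mv 1032 (cons (fin 967 3 967)
(mv 1100 (cons (fin 1099 0 1032)
(fin 1101 0 1033)))))))))))))
(cons (mv 1097 (cons (fin 1098 1 1033)
(mv 1033 (cons (fin 1096 1 1032)
(mv 1100 (cons (fin 1101 0 1033)
(mv 1032 (cons (fin 1099 0 1032)
(mv 967 (cons (fin 968 3 967)
(mv 971 (cons (fin 972 2 968)
(mv 970 (cons (fin 1038 3 970)
(fin 1031 2 967)))))))))))))))
(cons (mv 969 (cons (fin 970 3 969)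
(mv 1033 (cons (fin 968 3 968)
(mv 1100 (cons (fin 1101 0 1033)
(mv 1099 (cons (fin 1032 0 1032)
(mv 1098 (cons (fin 1038 1 1034)
(mv 841 (cons (fin 905 4 841)
(mv 1162 (cons (fin 1226 7 969)
(mv 907 (cons (fin 971 5 906)
(mv 972 (cons (mv 908 (cons (fin 843 7 843)
(fin 844 5 843)))
(mv 1164 (cons (cons (mv 1163 (cons (fin 1227 5 971)
(mv 1165 (cons (fin 1166 3 1098)
(fin 1229 4 972)))))
(mv 1228 (cons (fin 1292 7 1035)
(mv 1229 (cons (fin 1165 4 972)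
(fin 1293 4 1036))))))
(cons (mv 1163 (cons (fin 1227 5 971)
(mv 1161 (cons (fin 1160 2 1096)
(mv 1228 (cons (fin 1229 0 1161)
(fin 1292 7 1035)))))))
(mv 1227 (cons (fin 1163 5 971)
(mv 1228 (cons (fin 1292 7 1035)
(fin 1291 5 1035))))))))))))))))))))))))))
(mv 970 (cons (fin 969 3 969)
(mv 971 (cons (fin 1038 3 970)
(mv 1098 (cons (fin 1097 1 1033)
(mv 907 (cons (fin 843 5 842)
(fin 1162 6 906)))))))))))))
(cons (mv 1034 (cons (cons (mv 969 (cons (fin 970 3 969)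
(mv 968 (cons (fin 1033 3 968)
(mv 974 (cons (fin 973 2 970)
(mv 1038 (cons (fin 975 2 971)
(mv 1098 (cons (fin 1097 1 1033)
(fin 1099 1 1034)))))))))))
(mv 969 (cons (fin 970 3 969)
(mv 1033 (cons (fin 968 3 968)
(mv 1097 (cons (fin 1096 1 1032)
(fin 1098 1 1033))))))))
(cons (mv 969 (cons (fin 970 3 969)
(mv 973 (cons (fin 974 2 970)
(mv 1033 (cons (fin 968 3 968)
(fin 972 2 969)))))))
(cons (mv 973 (cons (fin 974 2 970)
(mv 972 (cons (fin 1033 2 969)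
(mv 1098 (cons (fin 1097 1 1033)
(mv 1099 (cons (fin 1038 1 1034)
(mv 908 (cons (fin 844 5 843)
(mv 1163 (cons (fin 1100 5 907)
(fin 1227 6 971)))))))))))))
(mv 969 (cons (fin 970 3 969)
(mv 974 (cons (fin 973 2 970)
(mv 1038 (cons (fin 975 2 971)
(mv 1098 (cons (fin 1097 1 1033)
(fin 1099 1 1034)))))))))))))
(mv 1038 (cons (cons (mv 970 (cons (fin 971 3 970)
(mv 974 (cons (fin 975 2 971)
(mv 1034 (cons (fin 973 2 970)
(mv 1098 (cons (fin 1097 1 1033)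
(fin 1099 1 1034)))))))))
(cons (mv 971 (cons (fin 970 3 970)
(mv 1098 (cons (fin 1099 1 1034)
(mv 1034 (cons (fin 1097 1 1033)
(mv 907 (cons (fin 843 5 842)
(mv 1162 (cons (fin 1226 6 970)
(mv 972 (cons (mv 1033 (cons (fin 1032 2 968)
(fin 973 2 969)))
(cons (mv 1100 (cons (fin 1164 7 907)
(mv 908 (cons (mv 844 (cons (fin 780 5 779)
(fin 1101 4 844)))
(cons (mv 909 (cons (fin 845 6 844)
(mv 910 (cons (fin 911 1 907)
(mv 846 (cons (fin 847 2 843)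
(mv 1101 (cons (fin 973 6 845)
(fin 1165 4 908)))))))))
(mv 844 (cons (fin 780 5 779)
(mv 845 (cons (fin 781 6 780)
(fin 909 6 844))))))))))
(mv 1033 (cons (fin 1032 2 968)
(mv 1100 (cons (fin 1101 0 1033)
(fin 1164 7 907))))))))))))))))))
(mv 970 (cons (fin 971 3 970)
(mv 974 (cons (fin 975 2 971)
(mv 973 (cons (fin 1034 2 970)
(mv 1101 (cons (mv 910 (cons (fin 846 5 845)
(fin 1165 6 909)))
(cons (mv 910 (cons (fin 846 5 845)
(mv 909 (cons (mv 845 (cons (fin 1100 5 844)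
(fin 781 4 781)))
(cons (mv 908 (cons (fin 844 7 844)
(mv 907 (cons (fin 906 0 906)
(mv 843 (cons (fin 842 3 842)
(mv 1100 (cons (fin 972 7 843)
(fin 1164 5 908)))))))))
(mv 844 (cons (fin 908 7 844)
(mv 845 (cons (fin 780 7 780)
(fin 781 4 781))))))))))
(mv 1165 (cons (fin 1229 6 973)
(mv 908 (cons (fin 972 7 908)
(mv 909 (cons (fin 844 7 844)
(mv 845 (cons (fin 1100 5 844)
(fin 781 4 781))))))))))))))))))))
(cons (mv 974 (cons (fin 975 2 971)
(mv 1034 (cons (fin 973 2 970)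
(mv 1098 (cons (fin 1097 1 1033)
(fin 1099 1 1034)))))))
(cons (mv 971 (cons (fin 970 3 970)
(mv 974 (cons (fin 975 2 971)
(mv 1098 (cons (fin 1099 1 1034)
(mv 910 (cons (cons (mv 846 (cons (fin 1101 5 845)
(mv 781 (cons (fin 845 7 781)
(mv 782 (cons (fin 717 7 717)
(fin 973 5 781)))))))
(mv 973 (cons (cons (mv 972 (cons (fin 911 2 907)
(mv 907 (cons (fin 906 3 906)
(mv 843 (cons (fin 779 4 779)
(fin 1100 4 843)))))))
(mv 1101 (cons (fin 1165 6 909)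
(mv 909 (cons (mv 845 (cons (fin 1100 5 844)
(fin 781 4 781)))
(cons (mv 844 (cons (fin 908 7 844)
(mv 845 (cons (fin 780 7 780)
(fin 781 4 781)))))
(mv 908 (cons (fin 844 7 844)
(mv 907 (cons (fin 906 0 906)
(mv 843 (cons (fin 842 3 842)
(fin 1100 4 843)))))))))))))
(cons (mv 972 (cons (fin 911 2 907)
(mv 907 (cons (fin 906 3 906)
(mv 843 (cons (fin 779 4 779)
(mv 778 (cons (fin 842 7 778)
(mv 844 (cons (fin 780 6 779)
(mv 1101 (cons (fin 1165 6 909)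
(fin 908 4 844)))))))))))))
(mv 911 (cons (fin 972 2 907)
(mv 912 (cons (fin 913 1 909)
(mv 1101 (cons (fin 1165 6 909)
(mv 909 (cons (mv 844 (cons (fin 845 3 844)
(fin 908 7 844)))
(cons (mv 844 (cons (fin 908 7 844)
(mv 848 (cons (fin 849 2 845)
(mv 976 (cons (fin 977 0 909)
(mv 847 (cons (fin 783 7 783)
(fin 1104 7 847)))))))))
(mv 845 (cons (fin 1100 5 844)
(fin 781 4 781))))))))))))))))
(cons (mv 846 (cons (mv 781 (cons (fin 845 7 781)
(mv 782 (cons (fin 717 7 717)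
(fin 973 5 781)))))
(cons (mv 783 (cons (fin 847 6 782)
(mv 845 (cons (fin 781 7 781)
(mv 843 (cons (mv 844 (cons (fin 911 0 843)
(mv 907 (cons (fin 906 1 842)
(fin 780 6 779)))))
(cons (mv 907 (cons (fin 1100 4 843)
(mv 778 (cons (fin 842 7 778)
(mv 779 (cons (fin 714 7 714)
(fin 972 4 779)))))))
(mv 844 (cons (fin 911 0 843)
(mv 778 (cons (fin 779 3 778)
(mv 842 (cons (fin 777 3 777)
(fin 909 0 842))))))))))))))
(mv 782 (cons (fin 973 5 781)
(mv 783 (cons (fin 719 6 718)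
(fin 847 6 782))))))))
(cons (mv 846 (cons (fin 1101 5 845)
(mv 781 (cons (fin 845 7 781)
(mv 782 (cons (fin 717 7 717)
(mv 783 (cons (fin 719 6 718)
(fin 847 6 782)))))))))
(mv 846 (cons (fin 1101 5 845)
(mv 782 (cons (fin 973 5 781)
(mv 783 (cons (fin 719 6 718)
(fin 847 6 782)))))))))))))))))
(mv 971 (cons (fin 970 3 970)
(mv 974 (cons (fin 975 2 971)
(mv 1098 (cons (fin 1099 1 1034)
(mv 1034 (cons (fin 1097 1 1033)
(mv 907 (cons (fin 843 5 842)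
(mv 1226 (cons (fin 1162 6 970)
(mv 1100 (cons (mv 1164 (cons (fin 972 7 907)
(fin 1228 7 971)))
(cons (mv 1033 (cons (fin 1101 0 1033)
(mv 1032 (cons (fin 972 2 968)
(mv 967 (cons (fin 968 3 967)
(mv 1031 (cons (fin 966 3 966)
(mv 1095 (cons (fin 1094 1 1030)
(fin 1096 1 1031)))))))))))
(mv 1101 (cons (fin 1033 0 1033)
(mv 1228 (cons (fin 1164 7 971)
(mv 1229 (cons (fin 1165 6 973)
(mv 1227 (cons (cons (mv 846 (cons (fin 910 5 845)
(mv 1289 (cons (fin 1290 1 1225)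
(mv 1225 (cons (fin 1288 1 1224)
(mv 1293 (cons (fin 1292 0 1225)
(fin 1294 0 1226)))))))))
(mv 1293 (cons (fin 1294 0 1226)
(mv 1225 (cons (fin 1292 0 1225)
(mv 1224 (cons (mv 1160 (cons (fin 1159 3 1159)
(fin 1161 3 1160)))
(mv 1288 (cons (fin 1287 1 1223)
(fin 1289 1 1224))))))))))
(cons (mv 1290 (cons (fin 1289 1 1225)
(mv 1230 (cons (fin 1291 1 1226)
(mv 1231 (cons (mv 1167 (cons (fin 1166 2 1163)
(fin 1168 2 1164)))
(mv 1295 (cons (fin 1294 0 1227)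
(fin 1296 0 1228)))))))))
(cons (mv 1294 (cons (fin 1293 0 1226)
(mv 1230 (cons (fin 1295 0 1227)
(mv 1231 (cons (mv 1167 (cons (fin 1166 2 1163)
(fin 1168 2 1164)))
(mv 1291 (cons (fin 1290 1 1226)
(fin 1292 1 1227)))))))))
(mv 1289 (cons (fin 1290 1 1225)
(mv 1225 (cons (fin 1288 1 1224)
(mv 1224 (cons (mv 1160 (cons (fin 1159 3 1159)
(fin 1161 3 1160)))
(mv 1292 (cons (fin 1291 0 1224)
(fin 1293 0 1225))))))))))))))))))))))))))))))))))))))))
(cons (cons (mv 1038 (cons (cons (mv 970 (cons (fin 971 3 970)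
(mv 974 (cons (fin 975 2 971)
(mv 1034 (cons (fin 969 3 969)
(fin 973 2 970)))))))
(cons (mv 970 (cons (fin 971 3 970)
(mv 1034 (cons (fin 969 3 969)
(mv 1099 (cons (fin 1098 1 1034)
(mv 842 (cons (fin 906 4 842)
(mv 1163 (cons (fin 1227 7 970)
(mv 1100 (cons (mv 1033 (cons (fin 1032 0 1032)
(fin 1101 0 1033)))
(cons (mv 972 (cons (fin 908 5 907)
(mv 1164 (cons (mv 973 (cons (fin 909 6 908)
(fin 1228 6 972)))
(cons (mv 973 (cons (fin 909 6 908)
(mv 1165 (cons (fin 1229 4 972)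
(mv 1166 (cons (fin 1167 3 1099)
(mv 1230 (cons (fin 1231 0 1163)
(fin 1101 4 973)))))))))
(mv 1228 (cons (fin 1292 7 1035)
(mv 1229 (cons (fin 1165 4 972)
(fin 1293 4 1036))))))))))
(mv 972 (cons (fin 908 5 907)
(mv 1033 (cons (fin 973 2 969)
(fin 1032 0 1032))))))))))))))))))
(mv 974 (cons (fin 975 2 971)
(mv 973 (cons (fin 1034 2 970)
(mv 1098 (cons (fin 1099 1 1034)
(mv 1101 (cons (mv 910 (cons (fin 846 5 845)
(fin 1165 6 909)))
(cons (mv 846 (cons (fin 910 5 845)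
(mv 909 (cons (mv 845 (cons (fin 1100 5 844)
(fin 782 6 781)))
(cons (mv 908 (cons (fin 844 7 844)
(mv 907 (cons (fin 906 0 906)
(mv 1100 (cons (fin 1164 5 908)
(mv 843 (cons (fin 972 7 843)
(fin 971 4 843)))))))))
(mv 845 (cons (fin 782 6 781)
(fin 781 4 781))))))))
(mv 1165 (cons (fin 1229 6 973)
(mv 908 (cons (fin 972 7 908)
(mv 909 (cons (fin 844 7 844)
(mv 845 (cons (fin 1100 5 844)
(fin 781 4 781))))))))))))))))))))
(cons (mv 974 (cons (fin 975 2 971)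
(mv 1034 (cons (fin 973 2 970)
(mv 969 (cons (fin 970 3 969)
(mv 1033 (cons (fin 968 3 968)
(mv 1099 (cons (fin 1098 1 1034)
(mv 1100 (cons (fin 1032 0 1032)
(fin 1101 0 1033)))))))))))))
(cons (mv 971 (cons (fin 970 3 970)
(mv 974 (cons (fin 975 2 971)
(mv 1098 (cons (fin 1099 1 1034)
(mv 907 (cons (cons (mv 843 (cons (fin 1100 4 843)
(mv 778 (cons (fin 842 7 778)
(mv 779 (cons (fin 714 7 714)
(fin 972 4 779)))))))
(mv 972 (cons (cons (mv 973 (cons (fin 906 3 906)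
(mv 910 (cons (fin 911 2 907)
(mv 846 (cons (fin 782 5 781)
(fin 1101 5 845)))))))
(mv 1100 (cons (fin 1164 7 907)
(mv 908 (cons (mv 844 (cons (fin 780 5 779)
(fin 1101 4 844)))
(cons (mv 844 (cons (fin 780 5 779)
(mv 845 (cons (fin 781 6 780)
(fin 909 6 844)))))
(mv 909 (cons (fin 845 6 844)
(mv 910 (cons (fin 911 1 907)
(mv 846 (cons (fin 847 2 843)
(fin 1101 5 845)))))))))))))
(cons (mv 973 (cons (fin 906 3 906)
(mv 910 (cons (fin 911 2 907)
(mv 846 (cons (fin 782 5 781)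
(mv 783 (cons (fin 847 6 782)
(mv 845 (cons (fin 781 7 781)
(mv 1100 (cons (fin 1164 7 907)
(fin 909 5 844)))))))))))))
(mv 906 (cons (fin 973 3 906)
(mv 905 (cons (fin 904 0 904)
(mv 1100 (cons (fin 1164 7 907)
(mv 908 (cons (mv 844 (cons (fin 845 2 841)
(fin 780 5 779)))
(cons (mv 841 (cons (fin 840 3 840)
(mv 909 (cons (fin 842 3 841)
(fin 845 6 844)))))
(mv 844 (cons (fin 780 5 779)
(fin 1101 4 844))))))))))))))))
(cons (mv 843 (cons (mv 778 (cons (fin 842 7 778)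
(mv 779 (cons (fin 714 7 714)
(fin 972 4 779)))))
(cons (mv 778 (cons (fin 842 7 778)
(mv 844 (cons (fin 780 6 779)
(mv 846 (cons (mv 845 (cons (fin 906 1 842)
(mv 910 (cons (fin 911 0 843)
(fin 781 7 781)))))
(cons (mv 910 (cons (fin 1101 5 845)
(mv 782 (cons (fin 973 5 781)
(mv 783 (cons (fin 719 6 718)
(fin 847 6 782)))))))
(mv 845 (cons (fin 906 1 842)
(mv 782 (cons (fin 783 2 779)
(mv 847 (cons (fin 908 1 843)
(mv 912 (cons (fin 911 0 844)
(mv 848 (cons (fin 913 0 845)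
(mv 785 (cons (fin 784 2 781)
(mv 849 (cons (fin 781 3 781)
(fin 786 2 782))))))))))))))))))))))
(mv 779 (cons (fin 972 4 779)
(mv 780 (cons (fin 716 6 715)
(fin 844 6 779))))))))
(cons (mv 843 (cons (fin 1100 4 843)
(mv 778 (cons (fin 842 7 778)
(mv 779 (cons (fin 714 7 714)
(mv 780 (cons (fin 716 6 715)
(fin 844 6 779)))))))))
(mv 843 (cons (fin 1100 4 843)
(mv 779 (cons (fin 972 4 779)
(mv 780 (cons (fin 716 6 715)
(fin 844 6 779)))))))))))))))))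
(mv 971 (cons (fin 970 3 970)
(mv 974 (cons (fin 975 2 971)
(mv 1099 (cons (fin 1098 1 1034)
(mv 907 (cons (cons (mv 1100 (cons (fin 843 4 843)
(fin 1164 4 907)))
(mv 842 (cons (fin 906 7 842)
(mv 778 (cons (fin 843 7 778)
(mv 908 (cons (fin 844 6 843)
(mv 1163 (cons (fin 972 6 907)
(mv 1226 (cons (fin 1162 5 970)
(mv 1227 (cons (fin 1290 5 1034)
(mv 1228 (cons (fin 1164 4 971)
(fin 1292 4 1035))))))))))))))))
(cons (mv 842 (cons (fin 906 7 842)
(mv 844 (cons (fin 908 6 843)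
(mv 1164 (cons (fin 1100 4 907)
(mv 1163 (cons (fin 1228 4 971)
(mv 1226 (cons (fin 1162 5 970)
(mv 1227 (cons (fin 1290 5 1034)
(fin 972 6 971)))))))))))))
(mv 842 (cons (fin 906 7 842)
(mv 843 (cons (fin 778 7 778)
(fin 1100 4 843))))))))))))))))))
(mv 1034 (cons (cons (mv 969 (cons (fin 970 3 969)
(mv 968 (cons (fin 1033 3 968)
(mv 974 (cons (fin 973 2 970)
(mv 1038 (cons (fin 975 2 971)
(mv 1098 (cons (fin 1097 1 1033)
(fin 1099 1 1034)))))))))))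
(cons (mv 969 (cons (fin 970 3 969)
(mv 973 (cons (fin 974 2 970)
(mv 1033 (cons (fin 968 3 968)
(mv 1096 (cons (fin 1097 1 1032)
(mv 1032 (cons (fin 1095 1 1031)
(mv 1100 (cons (fin 1099 0 1032)
(fin 1101 0 1033)))))))))))))
(mv 973 (cons (fin 974 2 970)
(mv 1097 (cons (fin 1098 1 1033)
(mv 1033 (cons (fin 1096 1 1032)
(mv 968 (cons (fin 969 3 968)
(mv 1032 (cons (fin 967 3 967)
(mv 1100 (cons (fin 1099 0 1032)
(fin 1101 0 1033)))))))))))))))
(cons (cons (mv 969 (cons (fin 970 3 969)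
(mv 974 (cons (fin 973 2 970)
(mv 1033 (cons (fin 968 3 968)
(mv 1038 (cons (fin 975 2 971)
(mv 1099 (cons (fin 1098 1 1034)
(mv 1100 (cons (fin 1032 0 1032)
(fin 1101 0 1033)))))))))))))
(mv 973 (cons (fin 974 2 970)
(mv 1097 (cons (fin 1098 1 1033)
(mv 1033 (cons (fin 1096 1 1032)
(mv 1100 (cons (fin 1101 0 1033)
(mv 845 (cons (fin 909 5 844)
(mv 1099 (cons (fin 1032 0 1032)
(mv 1164 (cons (fin 1228 6 972)
(mv 971 (cons (fin 907 4 907)
(mv 970 (cons (fin 1038 3 970)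
(mv 906 (cons (fin 1163 7 906)
(fin 842 5 841))))))))))))))))))))))
(cons (mv 969 (cons (fin 970 3 969)
(mv 1033 (cons (fin 968 3 968)
(mv 1097 (cons (fin 1096 1 1032)
(fin 1098 1 1033)))))))
(mv 969 (cons (fin 970 3 969)
(mv 974 (cons (fin 973 2 970)
(mv 1038 (cons (fin 975 2 971)
(mv 1098 (cons (fin 1097 1 1033)
(fin 1099 1 1034))))))))))))))
(cons (mv 1034 (cons (cons (mv 969 (cons (fin 970 3 969)
(mv 968 (cons (fin 1033 3 968)
(mv 974 (cons (fin 973 2 970)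
(mv 1038 (cons (fin 975 2 971)
(mv 1098 (cons (fin 1097 1 1033)
(fin 1099 1 1034)))))))))))
(mv 973 (cons (fin 974 2 970)
(mv 972 (cons (fin 1033 2 969)
(mv 1098 (cons (fin 1097 1 1033)
(mv 1099 (cons (fin 1038 1 1034)
(mv 908 (cons (fin 844 5 843)
(mv 1163 (cons (fin 971 6 907)
(fin 1227 6 971))))))))))))))
(cons (mv 969 (cons (fin 970 3 969)
(mv 973 (cons (fin 974 2 970)
(mv 1033 (cons (fin 968 3 968)
(fin 972 2 969)))))))
(cons (mv 969 (cons (fin 970 3 969)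
(mv 1033 (cons (fin 968 3 968)
(mv 1097 (cons (fin 1096 1 1032)
(fin 1098 1 1033)))))))
(mv 969 (cons (fin 970 3 969)
(mv 974 (cons (fin 973 2 970)
(mv 1038 (cons (fin 975 2 971)
(mv 1098 (cons (fin 1097 1 1033)
(fin 1099 1 1034)))))))))))))
(mv 1034 (cons (cons (mv 969 (cons (fin 970 3 969)
(mv 973 (cons (fin 974 2 970)
(mv 972 (cons (fin 1033 2 969)
(mv 1098 (cons (fin 1097 1 1033)
(mv 1099 (cons (fin 1038 1 1034)
(mv 908 (cons (fin 844 5 843)
(mv 1163 (cons (fin 1100 5 907)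
(fin 971 6 907)))))))))))))))
(cons (mv 969 (cons (fin 970 3 969)
(mv 973 (cons (fin 974 2 970)
(mv 1033 (cons (fin 972 2 969)
(mv 1096 (cons (fin 1097 1 1032)
(mv 1032 (cons (fin 1095 1 1031)
(mv 1100 (cons (fin 1099 0 1032)
(fin 1101 0 1033)))))))))))))
(mv 970 (cons (fin 969 3 969)
(mv 971 (cons (fin 1038 3 970)
(mv 1097 (cons (fin 1098 1 1033)
(mv 1033 (cons (fin 1096 1 1032)
(mv 1032 (cons (fin 1031 2 967)
(fin 972 2 968)))))))))))))
(cons (mv 973 (cons (fin 974 2 970)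
(mv 972 (cons (fin 1033 2 969)
(mv 1098 (cons (fin 1097 1 1033)
(mv 1099 (cons (fin 1038 1 1034)
(mv 908 (cons (fin 844 5 843)
(mv 1163 (cons (fin 1100 5 907)
(fin 971 6 907)))))))))))))
(cons (mv 970 (cons (fin 969 3 969)
(mv 971 (cons (fin 1038 3 970)
(mv 973 (cons (fin 974 2 970)
(mv 972 (cons (fin 1033 1 969)
(mv 905 (cons (fin 906 3 905)
(mv 909 (cons (fin 910 2 906)
(mv 845 (cons (fin 781 5 780)
(fin 1100 5 844)))))))))))))))
(mv 969 (cons (fin 970 3 969)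
(mv 974 (cons (fin 973 2 970)
(mv 1038 (cons (fin 975 2 971)
(mv 1098 (cons (fin 1097 1 1033)
(fin 1099 1 1034)))))))))))))))))))
(cons (mv 1035 (cons (cons (cons (mv 1034 (cons (cons (mv 973 (cons (fin 974 2 970)
(mv 972 (cons (fin 1033 2 969)
(mv 1097 (cons (fin 1098 1 1033)
(mv 1101 (cons (fin 1102 0 1034)
(mv 908 (cons (fin 1165 7 908)
(fin 844 4 844)))))))))))
(mv 973 (cons (fin 974 2 970)
(mv 972 (cons (fin 1033 2 969)
(mv 1098 (cons (fin 1097 1 1033)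
(mv 1099 (cons (fin 1038 1 1034)
(mv 908 (cons (fin 844 5 843)
(mv 1163 (cons (fin 1100 5 907)
(fin 971 6 907))))))))))))))
(cons (mv 1097 (cons (fin 1098 1 1033)
(mv 1033 (cons (fin 1096 1 1032)
(mv 1101 (cons (fin 1100 0 1033)
(fin 1102 0 1034)))))))
(cons (mv 973 (cons (fin 974 2 970)
(mv 972 (cons (fin 1033 2 969)
(mv 1101 (cons (fin 1102 0 1034)
(mv 908 (cons (fin 1165 7 908)
(fin 844 4 844)))))))))
(mv 973 (cons (fin 974 2 970)
(mv 1098 (cons (fin 1097 1 1033)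
(mv 1038 (cons (fin 1099 1 1034)
(mv 1102 (cons (fin 1101 0 1034)
(fin 1103 0 1035)))))))))))))
(mv 1099 (cons (cons (mv 1098 (cons (fin 1038 1 1034)
(mv 1097 (cons (fin 1096 2 1032)
(fin 1100 2 1033)))))
(mv 1163 (cons (cons (mv 972 (cons (fin 1227 6 971)
(mv 908 (cons (fin 844 5 843)
(fin 1100 5 907)))))
(mv 1227 (cons (cons (mv 1100 (cons (fin 1291 6 1035)
(mv 1226 (cons (fin 1290 5 1034)
(mv 971 (cons (fin 1162 5 970)
(mv 907 (cons (fin 843 4 843)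
(fin 1164 4 907)))))))))
(mv 1226 (cons (fin 1290 5 1034)
(mv 971 (cons (fin 1162 5 970)
(mv 1228 (cons (fin 1164 4 971)
(fin 1292 4 1035))))))))
(cons (mv 1100 (cons (fin 1291 6 1035)
(mv 1228 (cons (fin 1292 4 1035)
(mv 1164 (cons (fin 971 7 971)
(fin 973 6 972)))))))
(cons (mv 1100 (cons (fin 1291 6 1035)
(mv 1226 (cons (fin 1290 5 1034)
(mv 1228 (cons (fin 1292 4 1035)
(mv 1164 (cons (fin 973 6 972)
(mv 1165 (cons (fin 1166 1 1162)
(fin 1225 2 1161)))))))))))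
(mv 1100 (cons (fin 1291 6 1035)
(mv 1226 (cons (fin 1290 5 1034)
(mv 1162 (cons (fin 971 5 970)
(mv 1101 (cons (fin 1102 1 1098)
(mv 1160 (cons (fin 1161 2 1096)
(mv 1228 (cons (fin 1292 4 1035)
(mv 1229 (cons (fin 1230 3 1162)
(mv 1165 (cons (fin 1166 2 1162)
(fin 1293 7 1036))))))))))))))))))))))
(cons (mv 971 (cons (cons (mv 908 (cons (fin 972 6 907)
(mv 907 (cons (fin 844 6 843)
(mv 1100 (cons (fin 843 4 843)
(fin 1164 4 907)))))))
(cons (mv 1162 (cons (fin 1226 5 970)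
(mv 1164 (cons (fin 1228 4 971)
(mv 907 (cons (fin 1100 4 907)
(mv 842 (cons (fin 906 7 842)
(mv 843 (cons (fin 778 7 778)
(mv 779 (cons (fin 972 4 779)
(mv 780 (cons (fin 716 6 715)
(fin 844 6 779)))))))))))))))
(mv 1162 (cons (fin 1226 5 970)
(mv 1164 (cons (fin 1228 4 971)
(mv 907 (cons (fin 1100 4 907)
(mv 842 (cons (fin 906 7 842)
(mv 843 (cons (fin 778 7 778)
(mv 844 (cons (fin 780 6 779)
(fin 908 6 843)))))))))))))))
(cons (mv 908 (cons (fin 972 6 907)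
(mv 907 (cons (fin 844 6 843)
(mv 842 (cons (fin 906 7 842)
(mv 843 (cons (fin 778 7 778)
(fin 1100 4 843)))))))))
(cons (mv 908 (cons (fin 972 6 907)
(mv 907 (cons (fin 844 6 843)
(mv 842 (cons (fin 906 7 842)
(mv 843 (cons (fin 778 7 778)
(mv 840 (cons (fin 841 0 840)
(mv 910 (cons (fin 909 3 842)
(mv 1038 (cons (cons (mv 974 (cons (fin 975 2 971)
(mv 846 (cons (fin 1101 5 845)
(mv 781 (cons (fin 845 7 781)
(mv 782 (cons (fin 717 7 717)
(fin 973 5 781)))))))))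
(mv 1102 (cons (fin 1103 0 1035)
(mv 1162 (cons (fin 1226 5 970)
(mv 1164 (cons (fin 1228 4 971)
(mv 1165 (cons (fin 1101 2 1098)
(mv 1230 (cons (fin 1229 0 1162)
(mv 1166 (cons (fin 1231 0 1163)
(fin 973 7 973))))))))))))))
(cons (mv 974 (cons (fin 975 2 971)
(mv 1102 (cons (fin 1103 0 1035)
(mv 847 (cons (fin 911 6 846)
(mv 846 (cons (fin 783 6 782)
(mv 781 (cons (fin 845 7 781)
(mv 782 (cons (fin 717 7 717)
(fin 973 5 781)))))))))))))
(mv 974 (cons (fin 975 2 971)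
(mv 846 (cons (fin 1101 5 845)
(mv 781 (cons (fin 845 7 781)
(mv 717 (cons (fin 782 7 717)
(mv 847 (cons (fin 783 6 782)
(mv 1102 (cons (fin 1103 0 1035)
(fin 911 6 846))))))))))))))))))))))))))))
(mv 972 (cons (fin 908 6 907)
(mv 1162 (cons (fin 1226 5 970)
(mv 1164 (cons (fin 1228 4 971)
(mv 1100 (cons (cons (mv 1101 (cons (fin 1102 1 1098)
(fin 1161 2 1097)))
(mv 973 (cons (fin 909 6 908)
(mv 974 (cons (fin 975 1 971)
(mv 910 (cons (fin 911 2 907)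
(mv 782 (cons (fin 846 5 781)
(mv 1160 (cons (fin 1161 2 1096)
(mv 1165 (cons (fin 1229 4 972)
(mv 1166 (cons (fin 1167 3 1099)
(mv 1102 (cons (fin 1103 2 1099)
(mv 1230 (cons (fin 1231 0 1163)
(fin 1038 7 973))))))))))))))))))))
(cons (mv 909 (cons (fin 973 6 908)
(mv 1102 (cons (fin 1101 1 1098)
(mv 1103 (cons (fin 1038 0 1035)
(mv 1165 (cons (fin 1166 2 1099)
(fin 1229 4 972)))))))))
(mv 1161 (cons (fin 1160 2 1096)
(fin 1101 2 1097))))))))))))))))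
(mv 972 (cons (fin 1227 6 971)
(mv 908 (cons (fin 844 5 843)
(fin 971 6 907)))))))))
(cons (mv 972 (cons (cons (mv 908 (cons (fin 844 5 843)
(mv 1163 (cons (fin 1100 5 907)
(fin 971 6 907)))))
(mv 1163 (cons (fin 1227 6 971)
(mv 971 (cons (cons (mv 1162 (cons (fin 1226 5 970)
(mv 907 (cons (fin 1098 5 906)
(mv 843 (cons (fin 779 4 779)
(fin 1100 4 843)))))))
(mv 1164 (cons (fin 1228 4 971)
(mv 907 (cons (fin 1100 7 907)
(mv 842 (cons (fin 906 7 842)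
(mv 843 (cons (fin 778 7 778)
(fin 779 4 779))))))))))
(cons (mv 1162 (cons (fin 1226 5 970)
(mv 1164 (cons (fin 1228 4 971)
(mv 1100 (cons (mv 1101 (cons (fin 1102 1 1098)
(fin 1161 2 1097)))
(cons (mv 909 (cons (fin 973 6 908)
(mv 1097 (cons (fin 1098 2 1033)
(mv 1161 (cons (fin 1096 3 1096)
(fin 1160 2 1096)))))))
(mv 909 (cons (fin 973 6 908)
(mv 1097 (cons (fin 1098 2 1033)
(mv 1102 (cons (fin 1101 1 1098)
(mv 1165 (cons (fin 1229 4 972)
(mv 1166 (cons (fin 1167 3 1099)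
(fin 1103 2 1099))))))))))))))))))
(mv 1162 (cons (fin 1226 5 970)
(mv 907 (cons (fin 1098 5 906)
(mv 842 (cons (fin 906 7 842)
(mv 843 (cons (fin 778 7 778)
(fin 779 4 779)))))))))))))))
(cons (mv 908 (cons (fin 844 5 843)
(mv 1100 (cons (cons (mv 843 (cons (fin 907 7 843)
(mv 845 (cons (fin 909 6 844)
(mv 1097 (cons (fin 1098 2 1033)
(mv 1165 (cons (fin 1101 4 908)
(mv 1164 (cons (fin 1229 4 972)
(mv 1228 (cons (fin 971 7 971)
(fin 1292 7 1035)))))))))))))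
(cons (mv 843 (cons (fin 907 7 843)
(mv 909 (cons (fin 845 6 844)
(mv 1097 (cons (fin 1098 2 1033)
(mv 1164 (cons (fin 973 6 908)
(mv 1228 (cons (fin 971 7 971)
(fin 1292 7 1035)))))))))))
(mv 845 (cons (fin 909 6 844)
(mv 1097 (cons (fin 1098 2 1033)
(mv 1165 (cons (fin 1101 4 908)
(mv 1164 (cons (fin 1229 4 972)
(mv 1228 (cons (fin 971 7 971)
(fin 1292 7 1035)))))))))))))
(cons (mv 843 (cons (fin 907 7 843)
(mv 1097 (cons (fin 1098 2 1033)
(mv 1165 (cons (fin 1101 4 908)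
(mv 1164 (cons (fin 1229 4 972)
(mv 1228 (cons (fin 971 7 971)
(fin 1292 7 1035)))))))))))
(cons (mv 843 (cons (fin 907 7 843)
(mv 845 (cons (fin 909 6 844)
(mv 1165 (cons (fin 1101 4 908)
(mv 1164 (cons (fin 1229 4 972)
(mv 1228 (cons (fin 971 7 971)
(fin 1292 7 1035)))))))))))
(mv 843 (cons (fin 907 7 843)
(mv 909 (cons (fin 845 6 844)
(mv 1097 (cons (fin 1098 2 1033)
(mv 1101 (cons (fin 1165 4 908)
(mv 1102 (cons (fin 1103 3 1035)
(mv 1166 (cons (fin 1167 0 1099)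
(fin 973 4 909)))))))))))))))))))
(cons (mv 908 (cons (fin 844 5 843)
(mv 1163 (cons (fin 971 6 907)
(fin 1227 6 971)))))
(mv 908 (cons (fin 844 5 843)
(mv 1163 (cons (fin 1100 5 907)
(fin 1227 6 971)))))))))
(mv 1038 (cons (fin 1098 1 1034)
(mv 974 (cons (fin 975 2 971)
(mv 1102 (cons (fin 1103 0 1035)
(mv 910 (cons (mv 1101 (cons (fin 846 5 845)
(fin 1165 5 909)))
(cons (mv 845 (cons (fin 909 7 845)
(mv 846 (cons (fin 781 7 781)
(mv 847 (cons (fin 783 6 782)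
(fin 911 6 846)))))))
(mv 845 (cons (fin 909 7 845)
(mv 847 (cons (fin 911 6 846)
(mv 1165 (cons (fin 1101 5 909)
(mv 1166 (cons (fin 1229 5 973)
(mv 1230 (cons (fin 973 7 973)
(mv 1231 (cons (fin 1167 4 974)
(fin 1295 4 1038))))))))))))))))))))))))))
(cons (mv 1034 (cons (cons (mv 973 (cons (fin 974 2 970)
(mv 972 (cons (fin 1033 2 969)
(mv 1097 (cons (fin 1098 1 1033)
(mv 1101 (cons (fin 1102 0 1034)
(mv 908 (cons (fin 1165 7 908)
(fin 844 4 844)))))))))))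
(mv 973 (cons (fin 974 2 970)
(mv 1033 (cons (fin 972 2 969)
(mv 1097 (cons (fin 1096 1 1032)
(fin 1098 1 1033))))))))
(cons (mv 1097 (cons (fin 1098 1 1033)
(mv 1033 (cons (fin 1096 1 1032)
(mv 1101 (cons (fin 1100 0 1033)
(fin 1102 0 1034)))))))
(cons (mv 973 (cons (fin 974 2 970)
(mv 972 (cons (fin 1033 2 969)
(mv 1101 (cons (fin 1102 0 1034)
(mv 908 (cons (fin 1165 7 908)
(fin 844 4 844)))))))))
(mv 973 (cons (fin 974 2 970)
(mv 1097 (cons (fin 1098 1 1033)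
(mv 1101 (cons (fin 1102 0 1034)
(mv 909 (cons (mv 1100 (cons (fin 845 5 844)
(fin 1164 5 908)))
(cons (mv 844 (cons (fin 908 7 844)
(mv 845 (cons (fin 780 7 780)
(mv 846 (cons (fin 782 6 781)
(fin 910 6 845)))))))
(mv 844 (cons (fin 908 7 844)
(mv 846 (cons (fin 910 6 845)
(mv 1164 (cons (fin 1100 5 908)
(mv 1165 (cons (fin 1228 5 972)
(mv 1229 (cons (fin 972 7 972)
(mv 1230 (cons (fin 1166 4 973)
(fin 1294 4 1037))))))))))))))))))))))))))
(cons (mv 1034 (cons (cons (mv 973 (cons (fin 974 2 970)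
(mv 972 (cons (fin 1033 2 969)
(mv 1101 (cons (fin 1102 0 1034)
(mv 908 (cons (fin 1165 7 908)
(fin 844 4 844)))))))))
(mv 1101 (cons (fin 1102 0 1034)
(mv 1033 (cons (fin 1100 0 1033)
(mv 968 (cons (fin 969 3 968)
(mv 1032 (cons (fin 967 3 967)
(mv 1096 (cons (fin 1095 1 1031)
(fin 1097 1 1032))))))))))))
(cons (mv 973 (cons (fin 974 2 970)
(mv 1033 (cons (fin 972 2 969)
(mv 968 (cons (fin 969 3 968)
(mv 1032 (cons (fin 967 3 967)
(mv 1096 (cons (fin 1095 1 1031)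
(fin 1097 1 1032)))))))))))
(mv 974 (cons (fin 973 2 970)
(mv 1038 (cons (fin 975 2 971)
(mv 1102 (cons (fin 1101 0 1034)
(fin 1103 0 1035))))))))))
(mv 1034 (cons (cons (mv 1097 (cons (fin 1098 1 1033)
(mv 1033 (cons (fin 1096 1 1032)
(mv 1101 (cons (fin 1100 0 1033)
(fin 1102 0 1034)))))))
(mv 1097 (cons (fin 1098 1 1033)
(mv 1033 (cons (fin 1096 1 1032)
(mv 968 (cons (fin 969 3 968)
(mv 972 (cons (fin 973 2 969)
(mv 1032 (cons (fin 967 3 967)
(fin 971 2 968))))))))))))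
(cons (mv 1101 (cons (fin 1102 0 1034)
(mv 1033 (cons (fin 1100 0 1033)
(mv 968 (cons (fin 969 3 968)
(mv 972 (cons (fin 973 2 969)
(mv 1032 (cons (fin 967 3 967)
(fin 971 2 968)))))))))))
(mv 1098 (cons (fin 1097 1 1033)
(mv 1038 (cons (fin 1099 1 1034)
(mv 1102 (cons (fin 1101 0 1034)
(fin 1103 0 1035)))))))))))))
(cons (cons (mv 1034 (cons (cons (mv 973 (cons (fin 974 2 970)
(mv 972 (cons (fin 1033 2 969)
(mv 1098 (cons (fin 1097 1 1033)
(mv 1099 (cons (fin 1038 1 1034)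
(mv 908 (cons (fin 844 5 843)
(mv 1163 (cons (fin 1100 5 907)
(fin 971 6 907)))))))))))))
(mv 1097 (cons (fin 1098 1 1033)
(mv 1033 (cons (fin 1096 1 1032)
(mv 968 (cons (fin 969 3 968)
(mv 1032 (cons (fin 967 3 967)
(mv 1100 (cons (fin 1099 0 1032)
(fin 1101 0 1033))))))))))))
(cons (mv 973 (cons (fin 974 2 970)
(mv 1033 (cons (fin 972 2 969)
(mv 968 (cons (fin 969 3 968)
(mv 1032 (cons (fin 967 3 967)
(mv 1096 (cons (fin 1095 1 1031)
(fin 1097 1 1032)))))))))))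
(cons (mv 973 (cons (fin 974 2 970)
(mv 1033 (cons (fin 972 2 969)
(mv 968 (cons (fin 969 3 968)
(mv 1032 (cons (fin 967 3 967)
(mv 1100 (cons (fin 1099 0 1032)
(fin 1101 0 1033)))))))))))
(mv 974 (cons (fin 973 2 970)
(mv 1038 (cons (fin 975 2 971)
(mv 1098 (cons (fin 1097 1 1033)
(fin 1099 1 1034)))))))))))
(cons (mv 1034 (cons (cons (mv 973 (cons (fin 974 2 970)
(mv 972 (cons (fin 1033 2 969)
(mv 1098 (cons (fin 1097 1 1033)
(mv 1099 (cons (fin 1038 1 1034)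
(mv 908 (cons (fin 844 5 843)
(mv 1163 (cons (fin 1100 5 907)
(fin 971 6 907)))))))))))))
(mv 973 (cons (fin 974 2 970)
(mv 1033 (cons (fin 972 2 969)
(mv 968 (cons (fin 969 3 968)
(mv 1032 (cons (fin 967 3 967)
(mv 1096 (cons (fin 1095 1 1031)
(fin 1097 1 1032))))))))))))
(cons (mv 1098 (cons (fin 1097 1 1033)
(mv 1099 (cons (fin 1038 1 1034)
(mv 971 (cons (mv 907 (cons (fin 843 5 842)
(fin 1162 5 906)))
(cons (mv 1162 (cons (fin 1226 6 970)
(mv 1163 (cons (mv 972 (cons (fin 908 6 907)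
(fin 1227 6 971)))
(cons (mv 972 (cons (fin 908 6 907)
(mv 1032 (cons (fin 1033 2 968)
(mv 1164 (cons (fin 1228 4 971)
(mv 1165 (cons (fin 1166 3 1098)
(mv 1229 (cons (fin 1230 0 1162)
(fin 1100 4 972)))))))))))
(mv 1227 (cons (fin 1291 7 1034)
(mv 1228 (cons (fin 1164 4 971)
(fin 1292 4 1035))))))))))
(mv 907 (cons (fin 843 5 842)
(mv 842 (cons (fin 906 7 842)
(mv 844 (cons (fin 908 6 843)
(mv 1164 (cons (fin 1100 4 907)
(mv 1163 (cons (fin 1228 4 971)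
(mv 1227 (cons (fin 1291 7 1034)
(fin 972 6 971))))))))))))))))))))
(cons (mv 973 (cons (fin 974 2 970)
(mv 1033 (cons (fin 972 2 969)
(mv 968 (cons (fin 969 3 968)
(mv 1032 (cons (fin 967 3 967)
(mv 1095 (cons (fin 1096 1 1031)
(mv 1031 (cons (fin 1094 1 1030)
(mv 1099 (cons (fin 1098 0 1031)
(fin 1100 0 1032)))))))))))))))
(mv 974 (cons (fin 973 2 970)
(mv 1038 (cons (fin 975 2 971)
(mv 1098 (cons (fin 1097 1 1033)
(fin 1099 1 1034)))))))))))
(mv 1034 (cons (cons (mv 1097 (cons (fin 1098 1 1033)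
(mv 1033 (cons (fin 1096 1 1032)
(mv 1101 (cons (fin 1100 0 1033)
(fin 1102 0 1034)))))))
(mv 1101 (cons (fin 1102 0 1034)
(mv 1033 (cons (fin 1100 0 1033)
(mv 968 (cons (fin 969 3 968)
(mv 1032 (cons (fin 967 3 967)
(mv 1096 (cons (fin 1095 1 1031)
(fin 1097 1 1032))))))))))))
(cons (mv 1098 (cons (fin 1097 1 1033)
(mv 1099 (cons (fin 1038 1 1034)
(mv 971 (cons (mv 907 (cons (fin 843 5 842)
(fin 1162 5 906)))
(cons (mv 1162 (cons (fin 1226 6 970)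
(mv 1163 (cons (mv 972 (cons (fin 908 6 907)
(fin 1227 6 971)))
(cons (mv 972 (cons (fin 908 6 907)
(mv 1032 (cons (fin 1033 2 968)
(mv 1164 (cons (fin 1228 4 971)
(mv 1165 (cons (fin 1166 3 1098)
(mv 1229 (cons (fin 1230 0 1162)
(fin 1100 4 972)))))))))))
(mv 1227 (cons (fin 1291 7 1034)
(mv 1228 (cons (fin 1164 4 971)
(fin 1292 4 1035))))))))))
(mv 907 (cons (fin 843 5 842)
(mv 842 (cons (fin 906 7 842)
(mv 844 (cons (fin 908 6 843)
(mv 1164 (cons (fin 1100 4 907)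
(mv 1163 (cons (fin 1228 4 971)
(mv 1227 (cons (fin 1291 7 1034)
(fin 972 6 971))))))))))))))))))))
(cons (mv 1101 (cons (fin 1102 0 1034)
(mv 1100 (cons (fin 1033 0 1033)
(mv 972 (cons (mv 908 (cons (fin 844 4 844)
(fin 1165 4 908)))
(cons (mv 1165 (cons (fin 1229 7 972)
(mv 1164 (cons (mv 971 (cons (fin 907 7 907)
(fin 1228 7 971)))
(cons (mv 971 (cons (fin 907 7 907)
(mv 1163 (cons (fin 1227 5 971)
(mv 1162 (cons (fin 1161 2 1097)
(mv 1226 (cons (fin 1225 1 1161)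
(fin 1099 5 970)))))))))
(mv 1227 (cons (fin 1163 5 971)
(mv 1228 (cons (fin 1291 5 1035)
(fin 1292 6 1036))))))))))
(mv 908 (cons (fin 844 4 844)
(mv 843 (cons (fin 907 7 843)
(mv 845 (cons (fin 909 6 844)
(mv 1099 (cons (fin 1163 5 907)
(mv 1098 (cons (fin 1038 1 1034)
(mv 1162 (cons (fin 1161 1 1097)
(mv 1226 (cons (fin 971 6 970)
(fin 1290 6 1034))))))))))))))))))))))
(mv 1098 (cons (fin 1097 1 1033)
(mv 1038 (cons (fin 1099 1 1034)
(mv 1102 (cons (fin 1101 0 1034)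
(fin 1103 0 1035)))))))))))))
(cons (mv 1038 (cons (cons (mv 974 (cons (fin 975 2 971)
(mv 973 (cons (fin 1034 2 970)
(mv 1098 (cons (fin 1099 1 1034)
(mv 1102 (cons (fin 1103 0 1035)
(mv 909 (cons (fin 1166 7 909)
(fin 845 4 845)))))))))))
(cons (mv 1098 (cons (fin 1099 1 1034)
(mv 1102 (cons (fin 1103 0 1035)
(mv 1101 (cons (fin 1034 0 1034)
(mv 973 (cons (mv 909 (cons (fin 845 4 845)
(fin 1166 4 909)))
(cons (mv 1166 (cons (fin 1230 7 973)
(mv 1165 (cons (mv 972 (cons (fin 908 7 908)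
(fin 1229 7 972)))
(cons (mv 972 (cons (fin 908 7 908)
(mv 1164 (cons (fin 1228 5 972)
(mv 1163 (cons (fin 1162 2 1098)
(mv 1227 (cons (fin 1226 1 1162)
(fin 1100 5 971)))))))))
(mv 1228 (cons (fin 1164 5 972)
(mv 1229 (cons (fin 1292 5 1036)
(fin 1293 6 1037))))))))))
(mv 909 (cons (fin 845 4 845)
(mv 844 (cons (fin 908 7 844)
(mv 846 (cons (fin 910 6 845)
(mv 1164 (cons (fin 1100 5 908)
(mv 1165 (cons (fin 1228 5 972)
(mv 1229 (cons (fin 972 7 972)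
(fin 1293 6 1037))))))))))))))))))))))
(mv 974 (cons (fin 975 2 971)
(mv 973 (cons (fin 1034 2 970)
(mv 1098 (cons (fin 1099 1 1034)
(mv 1101 (cons (mv 910 (cons (fin 846 5 845)
(fin 1165 6 909)))
(cons (mv 846 (cons (fin 910 5 845)
(mv 909 (cons (mv 845 (cons (fin 1100 5 844)
(fin 782 6 781)))
(cons (mv 908 (cons (fin 844 7 844)
(mv 907 (cons (fin 906 0 906)
(mv 1100 (cons (fin 1164 5 908)
(mv 843 (cons (fin 972 7 843)
(fin 971 4 843)))))))))
(mv 845 (cons (fin 782 6 781)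
(fin 781 4 781))))))))
(mv 1165 (cons (fin 1229 6 973)
(mv 908 (cons (fin 972 7 908)
(mv 909 (cons (fin 844 7 844)
(mv 845 (cons (fin 1100 5 844)
(fin 781 4 781))))))))))))))))))))
(cons (mv 974 (cons (fin 975 2 971)
(mv 973 (cons (fin 1034 2 970)
(mv 1102 (cons (fin 1103 0 1035)
(mv 909 (cons (fin 1166 7 909)
(fin 845 4 845)))))))))
(cons (mv 974 (cons (fin 975 2 971)
(mv 1098 (cons (fin 1099 1 1034)
(mv 1102 (cons (fin 1103 0 1035)
(mv 910 (cons (mv 1101 (cons (fin 846 5 845)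
(fin 1165 5 909)))
(cons (mv 845 (cons (fin 909 7 845)
(mv 846 (cons (fin 781 7 781)
(mv 847 (cons (fin 783 6 782)
(fin 911 6 846)))))))
(mv 845 (cons (fin 909 7 845)
(mv 847 (cons (fin 911 6 846)
(mv 1165 (cons (fin 1101 5 909)
(mv 1166 (cons (fin 1229 5 973)
(mv 1230 (cons (fin 973 7 973)
(mv 1231 (cons (fin 1167 4 974)
(fin 1295 4 1038))))))))))))))))))))))
(mv 974 (cons (fin 975 2 971)
(mv 1098 (cons (fin 1099 1 1034)
(mv 1102 (cons (fin 1103 0 1035)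
(mv 1101 (cons (fin 1034 0 1034)
(mv 910 (cons (fin 846 5 845)
(fin 1165 5 909)))))))))))))))
(cons (mv 1034 (cons (cons (mv 973 (cons (fin 974 2 970)
(mv 972 (cons (fin 1033 2 969)
(mv 1097 (cons (fin 1098 1 1033)
(mv 1101 (cons (fin 1102 0 1034)
(mv 908 (cons (fin 1165 7 908)
(fin 844 4 844)))))))))))
(mv 973 (cons (fin 974 2 970)
(mv 972 (cons (fin 1033 2 969)
(mv 1101 (cons (fin 1102 0 1034)
(mv 908 (cons (fin 1165 7 908)
(fin 844 4 844))))))))))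
(cons (mv 1098 (cons (fin 1097 1 1033)
(mv 1038 (cons (fin 1099 1 1034)
(mv 1102 (cons (fin 1101 0 1034)
(fin 1103 0 1035)))))))
(mv 973 (cons (fin 974 2 970)
(mv 972 (cons (fin 1033 2 969)
(mv 1098 (cons (fin 1097 1 1033)
(mv 1099 (cons (fin 1038 1 1034)
(mv 908 (cons (fin 844 5 843)
(mv 1163 (cons (fin 971 6 907)
(fin 1227 6 971))))))))))))))))
(mv 1034 (cons (cons (mv 973 (cons (fin 974 2 970)
(mv 1097 (cons (fin 1098 1 1033)
(mv 1033 (cons (fin 1096 1 1032)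
(mv 1101 (cons (fin 1100 0 1033)
(fin 1102 0 1034)))))))))
(mv 973 (cons (fin 974 2 970)
(mv 1101 (cons (fin 1102 0 1034)
(mv 1033 (cons (fin 1100 0 1033)
(mv 968 (cons (fin 969 3 968)
(mv 1032 (cons (fin 967 3 967)
(mv 1096 (cons (fin 1095 1 1031)
(fin 1097 1 1032))))))))))))))
(cons (mv 974 (cons (fin 973 2 970)
(mv 1038 (cons (fin 975 2 971)
(mv 1098 (cons (fin 1097 1 1033)
(fin 1099 1 1034)))))))
(cons (mv 973 (cons (fin 974 2 970)
(mv 1101 (cons (fin 1102 0 1034)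
(mv 1100 (cons (fin 1033 0 1033)
(mv 909 (cons (fin 845 5 844)
(fin 1164 5 908)))))))))
(mv 1097 (cons (fin 1098 1 1033)
(mv 1033 (cons (fin 1096 1 1032)
(mv 1101 (cons (fin 1100 0 1033)
(fin 1102 0 1034))))))))))))))))
(mv 1035 (cons (cons (cons (mv 1034 (cons (cons (mv 969 (cons (fin 970 3 969)
(mv 968 (cons (fin 1033 3 968)
(mv 974 (cons (fin 973 2 970)
(mv 1038 (cons (fin 975 2 971)
(mv 1102 (cons (fin 1101 0 1034)
(fin 1103 0 1035)))))))))))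
(mv 969 (cons (fin 970 3 969)
(mv 1033 (cons (fin 968 3 968)
(mv 1101 (cons (fin 1100 0 1033)
(fin 1102 0 1034))))))))
(cons (mv 969 (cons (fin 970 3 969)
(mv 973 (cons (fin 974 2 970)
(mv 1033 (cons (fin 968 3 968)
(fin 972 2 969)))))))
(cons (mv 973 (cons (fin 974 2 970)
(mv 972 (cons (fin 1033 2 969)
(mv 1101 (cons (fin 1102 0 1034)
(mv 908 (cons (fin 1165 7 908)
(fin 844 4 844)))))))))
(mv 969 (cons (fin 970 3 969)
(mv 974 (cons (fin 973 2 970)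
(mv 1038 (cons (fin 975 2 971)
(mv 1102 (cons (fin 1101 0 1034)
(fin 1103 0 1035)))))))))))))
(mv 971 (cons (cons (mv 970 (cons (fin 1038 3 970)
(mv 969 (cons (fin 968 0 968)
(fin 972 0 969)))))
(mv 907 (cons (cons (mv 843 (cons (fin 1100 4 843)
(mv 778 (cons (fin 842 7 778)
(mv 779 (cons (fin 714 7 714)
(fin 972 4 779)))))))
(mv 843 (cons (cons (mv 778 (cons (fin 842 7 778)
(mv 779 (cons (fin 714 7 714)
(fin 972 4 779)))))
(mv 778 (cons (fin 842 7 778)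
(mv 844 (cons (fin 780 6 779)
(mv 908 (cons (fin 1099 6 843)
(mv 972 (cons (fin 1101 4 844)
(mv 845 (cons (fin 781 6 780)
(mv 846 (cons (fin 906 1 842)
(fin 847 1 843))))))))))))))
(cons (mv 779 (cons (fin 972 4 779)
(mv 780 (cons (fin 716 6 715)
(fin 844 6 779)))))
(mv 778 (cons (fin 842 7 778)
(mv 779 (cons (fin 714 7 714)
(mv 780 (cons (fin 716 6 715)
(fin 844 6 779)))))))))))
(cons (mv 1099 (cons (cons (mv 842 (cons (fin 906 7 842)
(mv 844 (cons (fin 908 6 843)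
(mv 1164 (cons (fin 1100 4 907)
(mv 1163 (cons (fin 1228 4 971)
(mv 1226 (cons (fin 1162 5 970)
(mv 1227 (cons (fin 1290 5 1034)
(fin 972 6 971)))))))))))))
(cons (mv 842 (cons (fin 906 7 842)
(mv 908 (cons (fin 844 6 843)
(mv 1163 (cons (fin 972 6 907)
(mv 1226 (cons (fin 1162 5 970)
(mv 1227 (cons (fin 1290 5 1034)
(mv 1291 (cons (fin 1100 6 1035)
(mv 1292 (cons (fin 1228 4 1035)
(fin 1356 4 1099)))))))))))))))
(mv 842 (cons (fin 906 7 842)
(mv 908 (cons (fin 844 6 843)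
(mv 1163 (cons (fin 972 6 907)
(mv 1226 (cons (fin 1162 5 970)
(mv 1227 (cons (fin 1290 5 1034)
(mv 1228 (cons (fin 1164 4 971)
(fin 1292 4 1035)))))))))))))))
(cons (cons (mv 842 (cons (fin 906 7 842)
(mv 1164 (cons (fin 1100 4 907)
(mv 1163 (cons (fin 1228 4 971)
(mv 1226 (cons (fin 1162 5 970)
(mv 1227 (cons (fin 1290 5 1034)
(fin 972 6 971)))))))))))
(mv 844 (cons (fin 908 6 843)
(mv 1164 (cons (fin 1100 4 907)
(mv 1163 (cons (fin 1228 4 971)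
(mv 1226 (cons (fin 1162 5 970)
(mv 1227 (cons (fin 1290 5 1034)
(fin 972 6 971))))))))))))
(cons (mv 842 (cons (fin 906 7 842)
(mv 844 (cons (fin 908 6 843)
(mv 1163 (cons (cons (mv 1164 (cons (fin 1100 4 907)
(fin 1228 4 971)))
(mv 1226 (cons (fin 1162 5 970)
(mv 1227 (cons (fin 1290 5 1034)
(mv 1291 (cons (fin 1100 6 1035)
(mv 1292 (cons (fin 1228 4 1035)
(fin 1356 4 1099))))))))))
(cons (mv 1226 (cons (fin 1162 5 970)
(mv 1227 (cons (fin 1290 5 1034)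
(mv 1228 (cons (fin 1164 4 971)
(fin 1292 4 1035)))))))
(mv 1100 (cons (fin 1164 4 907)
(mv 1226 (cons (fin 1162 5 970)
(mv 1227 (cons (fin 1290 5 1034)
(fin 1291 6 1035))))))))))))))
(mv 842 (cons (fin 906 7 842)
(mv 908 (cons (fin 844 6 843)
(mv 1100 (cons (fin 1164 4 907)
(mv 1101 (cons (cons (mv 972 (cons (fin 1165 4 908)
(mv 909 (cons (fin 845 6 844)
(mv 910 (cons (fin 911 1 907)
(mv 846 (cons (fin 847 2 843)
(fin 973 6 845)))))))))
(mv 1102 (cons (fin 1103 3 1035)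
(mv 1166 (cons (fin 1167 0 1099)
(mv 909 (cons (fin 973 4 909)
(mv 972 (cons (fin 845 6 844)
(mv 910 (cons (fin 911 1 907)
(mv 846 (cons (fin 847 2 843)
(mv 974 (cons (fin 975 0 907)
(fin 1038 5 845))))))))))))))))
(cons (mv 1102 (cons (fin 1103 3 1035)
(mv 1166 (cons (fin 1167 0 1099)
(mv 973 (cons (fin 909 4 909)
(mv 1230 (cons (fin 1038 7 973)
(fin 1294 7 1037)))))))))
(cons (mv 972 (cons (fin 1165 4 908)
(mv 909 (cons (fin 845 6 844)
(mv 910 (cons (fin 911 1 907)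
(mv 846 (cons (fin 847 2 843)
(mv 974 (cons (fin 975 0 907)
(fin 1038 5 845)))))))))))
(mv 1102 (cons (fin 1103 3 1035)
(mv 1165 (cons (fin 972 4 908)
(mv 1166 (cons (fin 1167 0 1099)
(mv 1230 (cons (fin 1294 7 1037)
(fin 973 4 973)))))))))))))))))))))))
(cons (mv 843 (cons (fin 1100 4 843)
(mv 778 (cons (fin 842 7 778)
(mv 779 (cons (fin 714 7 714)
(mv 780 (cons (fin 716 6 715)
(fin 844 6 779)))))))))
(mv 843 (cons (fin 1100 4 843)
(mv 779 (cons (fin 972 4 779)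
(mv 780 (cons (fin 716 6 715)
(fin 844 6 779))))))))))))
(cons (mv 1100 (cons (cons (mv 907 (cons (fin 843 4 843)
(mv 1164 (cons (fin 972 7 907)
(fin 1228 7 971)))))
(mv 907 (cons (fin 843 4 843)
(mv 1099 (cons (cons (mv 842 (cons (fin 906 7 842)
(mv 908 (cons (fin 844 6 843)
(mv 972 (cons (fin 1163 5 907)
(mv 909 (cons (fin 845 6 844)
(mv 910 (cons (fin 970 1 906)
(fin 911 1 907)))))))))))
(cons (mv 906 (cons (fin 842 7 842)
(mv 970 (cons (fin 1163 7 906)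
(mv 969 (cons (fin 968 0 968)
(fin 972 0 969)))))))
(mv 908 (cons (fin 844 6 843)
(mv 972 (cons (fin 1163 5 907)
(mv 909 (cons (fin 845 6 844)
(mv 910 (cons (fin 970 1 906)
(fin 911 1 907)))))))))))
(cons (mv 842 (cons (fin 906 7 842)
(mv 908 (cons (fin 844 6 843)
(mv 909 (cons (mv 845 (cons (fin 973 5 844)
(fin 972 6 844)))
(cons (mv 910 (cons (fin 970 1 906)
(mv 846 (cons (fin 847 2 843)
(mv 911 (cons (fin 972 1 907)
(mv 975 (cons (fin 974 0 907)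
(fin 976 0 908)))))))))
(mv 845 (cons (fin 973 5 844)
(mv 910 (cons (fin 970 1 906)
(mv 847 (cons (fin 846 2 843)
(mv 911 (cons (fin 848 2 844)
(mv 975 (cons (fin 974 0 907)
(fin 976 0 908))))))))))))))))))
(cons (mv 844 (cons (fin 908 6 843)
(mv 906 (cons (fin 842 7 842)
(mv 1163 (cons (fin 970 7 906)
(mv 1226 (cons (fin 1162 5 970)
(mv 1227 (cons (fin 1290 5 1034)
(fin 1291 6 1035)))))))))))
(mv 842 (cons (fin 906 7 842)
(mv 908 (cons (fin 844 6 843)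
(mv 972 (cons (fin 1163 5 907)
(mv 909 (cons (fin 845 6 844)
(mv 910 (cons (fin 911 1 907)
(mv 846 (cons (fin 847 2 843)
(mv 1101 (cons (fin 973 6 845)
(fin 1165 4 908))))))))))))))))))))))
(cons (mv 1164 (cons (fin 1228 7 971)
(mv 972 (cons (cons (mv 909 (cons (fin 973 6 908)
(mv 845 (cons (fin 908 6 844)
(mv 970 (cons (fin 969 0 969)
(mv 1163 (cons (fin 1227 5 971)
(mv 1099 (cons (fin 906 7 906)
(mv 1162 (cons (fin 1226 5 970)
(mv 1101 (cons (fin 1102 1 1098)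
(fin 1161 2 1097)))))))))))))))
(mv 969 (cons (fin 970 0 969)
(mv 1163 (cons (fin 1227 5 971)
(mv 908 (cons (fin 1099 5 907)
(mv 844 (cons (fin 780 5 779)
(fin 1101 4 844))))))))))
(cons (mv 909 (cons (fin 973 6 908)
(mv 908 (cons (fin 845 6 844)
(mv 844 (cons (fin 780 5 779)
(fin 1099 5 843)))))))
(cons (mv 909 (cons (fin 973 6 908)
(mv 970 (cons (fin 969 0 969)
(mv 1163 (cons (fin 1227 5 971)
(mv 1099 (cons (fin 906 7 906)
(mv 1162 (cons (fin 1226 5 970)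
(mv 1101 (cons (fin 1102 1 1098)
(fin 1161 2 1097)))))))))))))
(mv 909 (cons (fin 973 6 908)
(mv 908 (cons (fin 845 6 844)
(mv 844 (cons (fin 780 5 779)
(fin 1101 4 844)))))))))))))
(mv 907 (cons (fin 843 4 843)
(mv 1164 (cons (fin 1228 7 971)
(fin 1099 4 907))))))))
(mv 970 (cons (fin 1038 3 970)
(mv 968 (cons (fin 969 0 968)
(mv 907 (cons (cons (mv 843 (cons (fin 1100 4 843)
(mv 778 (cons (fin 842 7 778)
(mv 714 (cons (fin 779 7 714)
(mv 844 (cons (fin 780 6 779)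
(mv 908 (cons (fin 1099 6 843)
(mv 909 (cons (fin 910 1 906)
(mv 973 (cons (fin 1101 7 844)
(mv 906 (cons (fin 974 0 906)
(mv 845 (cons (fin 846 1 842)
(fin 905 2 841)))))))))))))))))))
(cons (mv 1099 (cons (mv 906 (cons (fin 842 7 842)
(fin 1163 7 906)))
(cons (mv 844 (cons (fin 908 6 843)
(mv 1163 (cons (cons (mv 1164 (cons (fin 1100 4 907)
(fin 1228 4 971)))
(mv 1226 (cons (fin 1162 5 970)
(mv 1227 (cons (fin 1290 5 1034)
(mv 1291 (cons (fin 1100 6 1035)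
(mv 1292 (cons (fin 1228 4 1035)
(fin 1356 4 1099))))))))))
(cons (mv 1226 (cons (fin 1162 5 970)
(mv 1227 (cons (fin 1290 5 1034)
(mv 1228 (cons (fin 1164 4 971)
(fin 1292 4 1035)))))))
(mv 1100 (cons (fin 1164 4 907)
(mv 1226 (cons (fin 1162 5 970)
(mv 1227 (cons (fin 1290 5 1034)
(fin 1291 6 1035))))))))))))
(mv 906 (cons (fin 842 7 842)
(mv 908 (cons (fin 844 6 843)
(mv 909 (cons (fin 910 1 906)
(mv 845 (cons (fin 846 2 842)
(mv 973 (cons (fin 974 0 906)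
(fin 1100 5 844))))))))))))))
(mv 842 (cons (cons (mv 778 (cons (fin 843 7 778)
(fin 906 4 778)))
(mv 843 (cons (fin 778 7 778)
(mv 844 (cons (fin 780 6 779)
(mv 908 (cons (fin 1099 6 843)
(mv 841 (cons (fin 840 0 840)
(fin 909 0 841))))))))))
(cons (mv 908 (cons (cons (mv 1099 (cons (fin 906 7 842)
(fin 844 6 843)))
(mv 909 (cons (fin 910 1 906)
(mv 841 (cons (fin 906 3 841)
(mv 843 (cons (fin 840 0 840)
(fin 844 0 841))))))))
(cons (mv 844 (cons (fin 1099 6 843)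
(mv 780 (cons (fin 716 5 715)
(fin 843 6 779)))))
(mv 906 (cons (fin 1099 7 842)
(mv 909 (cons (fin 841 3 841)
(fin 910 1 906))))))))
(mv 906 (cons (fin 1099 7 842)
(fin 778 4 778))))))))
(cons (mv 843 (cons (fin 1100 4 843)
(mv 778 (cons (fin 842 7 778)
(mv 779 (cons (fin 714 7 714)
(mv 780 (cons (fin 716 6 715)
(fin 844 6 779)))))))))
(cons (mv 843 (cons (fin 1100 4 843)
(mv 780 (cons (fin 844 6 779)
(mv 779 (cons (fin 716 6 715)
(mv 714 (cons (fin 778 7 714)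
(mv 715 (cons (fin 650 7 650)
(fin 906 5 714)))))))))))
(mv 843 (cons (fin 1100 4 843)
(mv 778 (cons (fin 842 7 778)
(mv 779 (cons (fin 714 7 714)
(mv 715 (cons (fin 906 5 714)
(mv 716 (cons (fin 652 6 651)
(fin 780 6 715)))))))))))))))))))))))
(cons (mv 1034 (cons (cons (mv 969 (cons (fin 970 3 969)
(mv 973 (cons (fin 974 2 970)
(mv 1033 (cons (fin 968 3 968)
(fin 972 2 969)))))))
(mv 969 (cons (fin 970 3 969)
(mv 1033 (cons (fin 968 3 968)
(mv 1101 (cons (fin 1100 0 1033)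
(fin 1102 0 1034))))))))
(cons (mv 973 (cons (fin 974 2 970)
(mv 972 (cons (fin 1033 2 969)
(mv 1101 (cons (fin 1102 0 1034)
(mv 908 (cons (fin 1165 7 908)
(fin 844 4 844)))))))))
(mv 969 (cons (fin 970 3 969)
(mv 973 (cons (fin 974 2 970)
(mv 1101 (cons (fin 1102 0 1034)
(mv 909 (cons (mv 1100 (cons (fin 845 5 844)
(fin 1164 5 908)))
(cons (mv 844 (cons (fin 908 7 844)
(mv 845 (cons (fin 780 7 780)
(mv 846 (cons (fin 782 6 781)
(fin 910 6 845)))))))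
(mv 844 (cons (fin 908 7 844)
(mv 846 (cons (fin 910 6 845)
(mv 1164 (cons (fin 1100 5 908)
(mv 1165 (cons (fin 1228 5 972)
(mv 1229 (cons (fin 972 7 972)
(mv 1230 (cons (fin 1166 4 973)
(fin 1294 4 1037)))))))))))))))))))))))))
(cons (mv 1034 (cons (cons (mv 973 (cons (fin 974 2 970)
(mv 972 (cons (fin 1033 2 969)
(mv 1101 (cons (fin 1102 0 1034)
(mv 908 (cons (fin 1165 7 908)
(fin 844 4 844)))))))))
(mv 1101 (cons (fin 1102 0 1034)
(mv 1033 (cons (fin 1100 0 1033)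
(mv 968 (cons (fin 969 3 968)
(mv 1032 (cons (fin 967 3 967)
(mv 1096 (cons (fin 1095 1 1031)
(fin 1097 1 1032))))))))))))
(cons (mv 973 (cons (fin 974 2 970)
(mv 1033 (cons (fin 972 2 969)
(mv 968 (cons (fin 969 3 968)
(mv 1032 (cons (fin 967 3 967)
(mv 1096 (cons (fin 1095 1 1031)
(fin 1097 1 1032)))))))))))
(mv 974 (cons (fin 973 2 970)
(mv 1038 (cons (fin 975 2 971)
(mv 1102 (cons (fin 1101 0 1034)
(fin 1103 0 1035))))))))))
(mv 1034 (cons (cons (mv 969 (cons (fin 970 3 969)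
(mv 1033 (cons (fin 968 3 968)
(mv 1101 (cons (fin 1100 0 1033)
(fin 1102 0 1034)))))))
(mv 969 (cons (fin 970 3 969)
(mv 1033 (cons (fin 968 3 968)
(mv 972 (cons (fin 973 2 969)
(mv 1032 (cons (fin 971 2 968)
(mv 1096 (cons (fin 1095 1 1031)
(fin 1097 1 1032))))))))))))
(cons (mv 1101 (cons (fin 1102 0 1034)
(mv 1033 (cons (fin 1100 0 1033)
(mv 968 (cons (fin 969 3 968)
(mv 972 (cons (fin 973 2 969)
(mv 1032 (cons (fin 967 3 967)
(fin 971 2 968)))))))))))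
(cons (mv 1101 (cons (fin 1102 0 1034)
(mv 1033 (cons (fin 1100 0 1033)
(mv 972 (cons (fin 973 2 969)
(mv 844 (cons (fin 908 4 844)
(mv 1032 (cons (fin 971 2 968)
(mv 1096 (cons (fin 1095 1 1031)
(fin 1097 1 1032)))))))))))))
(mv 970 (cons (fin 969 3 969)
(mv 1038 (cons (fin 971 3 970)
(mv 1102 (cons (fin 1101 0 1034)
(fin 1103 0 1035))))))))))))))
(cons (cons (mv 1034 (cons (cons (mv 969 (cons (fin 970 3 969)
(mv 973 (cons (fin 974 2 970)
(mv 1033 (cons (fin 968 3 968)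
(fin 972 2 969)))))))
(mv 969 (cons (fin 970 3 969)
(mv 1033 (cons (fin 968 3 968)
(mv 1096 (cons (fin 1097 1 1032)
(mv 1032 (cons (fin 1095 1 1031)
(mv 1100 (cons (fin 1099 0 1032)
(fin 1101 0 1033))))))))))))
(cons (mv 973 (cons (fin 974 2 970)
(mv 1033 (cons (fin 972 2 969)
(mv 968 (cons (fin 969 3 968)
(mv 1032 (cons (fin 967 3 967)
(mv 1096 (cons (fin 1095 1 1031)
(fin 1097 1 1032)))))))))))
(cons (mv 973 (cons (fin 974 2 970)
(mv 1033 (cons (fin 972 2 969)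
(mv 1096 (cons (fin 1097 1 1032)
(mv 1032 (cons (fin 1095 1 1031)
(mv 1100 (cons (fin 1099 0 1032)
(fin 1101 0 1033)))))))))))
(mv 970 (cons (fin 969 3 969)
(mv 974 (cons (fin 973 2 970)
(mv 1038 (cons (fin 971 3 970)
(fin 975 2 971)))))))))))
(cons (mv 1034 (cons (cons (mv 969 (cons (fin 970 3 969)
(mv 1033 (cons (fin 968 3 968)
(mv 1101 (cons (fin 1100 0 1033)
(fin 1102 0 1034)))))))
(mv 1101 (cons (fin 1102 0 1034)
(mv 1033 (cons (fin 1100 0 1033)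
(mv 968 (cons (fin 969 3 968)
(mv 1032 (cons (fin 967 3 967)
(mv 1096 (cons (fin 1095 1 1031)
(fin 1097 1 1032))))))))))))
(cons (mv 970 (cons (fin 969 3 969)
(mv 971 (cons (fin 1038 3 970)
(mv 1099 (cons (mv 906 (cons (fin 1163 7 906)
(fin 842 4 842)))
(cons (mv 906 (cons (fin 842 4 842)
(mv 907 (cons (mv 843 (cons (fin 779 5 778)
(fin 1100 4 843)))
(cons (mv 908 (cons (fin 844 6 843)
(mv 909 (cons (fin 910 1 906)
(mv 845 (cons (fin 846 2 842)
(mv 1100 (cons (fin 972 6 844)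
(fin 1164 4 907)))))))))
(mv 843 (cons (fin 779 5 778)
(mv 844 (cons (fin 780 6 779)
(fin 908 6 843))))))))))
(mv 1163 (cons (fin 1227 7 970)
(mv 908 (cons (fin 972 6 907)
(mv 907 (cons (fin 844 6 843)
(mv 843 (cons (fin 779 5 778)
(fin 1100 4 843))))))))))))))))
(cons (mv 1101 (cons (fin 1102 0 1034)
(mv 1033 (cons (fin 1100 0 1033)
(mv 1096 (cons (fin 1097 1 1032)
(mv 1032 (cons (fin 1095 1 1031)
(mv 967 (cons (fin 968 3 967)
(mv 971 (cons (fin 972 2 968)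
(mv 970 (cons (fin 1038 3 970)
(fin 1031 2 967)))))))))))))))
(mv 970 (cons (fin 969 3 969)
(mv 1038 (cons (fin 971 3 970)
(mv 1102 (cons (fin 1101 0 1034)
(fin 1103 0 1035)))))))))))
(mv 1034 (cons (cons (mv 969 (cons (fin 970 3 969)
(mv 973 (cons (fin 974 2 970)
(mv 1033 (cons (fin 968 3 968)
(fin 972 2 969)))))))
(mv 973 (cons (fin 974 2 970)
(mv 1033 (cons (fin 972 2 969)
(mv 968 (cons (fin 969 3 968)
(mv 1032 (cons (fin 967 3 967)
(mv 1096 (cons (fin 1095 1 1031)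
(fin 1097 1 1032))))))))))))
(cons (mv 970 (cons (fin 969 3 969)
(mv 971 (cons (fin 1038 3 970)
(mv 1099 (cons (mv 906 (cons (fin 1163 7 906)
(fin 842 4 842)))
(cons (mv 906 (cons (fin 842 4 842)
(mv 907 (cons (mv 843 (cons (fin 779 5 778)
(fin 1100 4 843)))
(cons (mv 908 (cons (fin 844 6 843)
(mv 909 (cons (fin 910 1 906)
(mv 845 (cons (fin 846 2 842)
(mv 1100 (cons (fin 972 6 844)
(fin 1164 4 907)))))))))
(mv 843 (cons (fin 779 5 778)
(mv 844 (cons (fin 780 6 779)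
(fin 908 6 843))))))))))
(mv 1163 (cons (fin 1227 7 970)
(mv 908 (cons (fin 972 6 907)
(mv 907 (cons (fin 844 6 843)
(mv 843 (cons (fin 779 5 778)
(fin 1100 4 843))))))))))))))))
(cons (mv 973 (cons (fin 974 2 970)
(mv 972 (cons (fin 1033 2 969)
(mv 1100 (cons (mv 909 (cons (fin 845 5 844)
(fin 1164 6 908)))
(cons (mv 845 (cons (fin 909 5 844)
(mv 908 (cons (mv 844 (cons (fin 1099 5 843)
(fin 781 6 780)))
(cons (mv 907 (cons (fin 843 7 843)
(mv 906 (cons (fin 905 0 905)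
(mv 1099 (cons (fin 1163 5 907)
(mv 842 (cons (fin 971 7 842)
(fin 970 4 842)))))))))
(mv 844 (cons (fin 781 6 780)
(fin 780 4 780))))))))
(mv 1164 (cons (fin 1228 6 972)
(mv 907 (cons (fin 971 7 907)
(mv 908 (cons (fin 843 7 843)
(mv 844 (cons (fin 1099 5 843)
(fin 780 4 780))))))))))))))))
(mv 970 (cons (fin 969 3 969)
(mv 974 (cons (fin 973 2 970)
(mv 1038 (cons (fin 971 3 970)
(fin 975 2 971)))))))))))))
(cons (mv 1038 (cons (cons (mv 970 (cons (fin 971 3 970)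
(mv 974 (cons (fin 975 2 971)
(mv 973 (cons (fin 1034 2 970)
(mv 1102 (cons (fin 1103 0 1035)
(mv 909 (cons (fin 1166 7 909)
(fin 845 4 845)))))))))))
(cons (mv 970 (cons (fin 971 3 970)
(mv 1102 (cons (fin 1103 0 1035)
(mv 1101 (cons (fin 1034 0 1034)
(mv 973 (cons (mv 909 (cons (fin 845 4 845)
(fin 1166 4 909)))
(cons (mv 1166 (cons (fin 1230 7 973)
(mv 1165 (cons (mv 972 (cons (fin 908 7 908)
(fin 1229 7 972)))
(cons (mv 972 (cons (fin 908 7 908)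
(mv 1164 (cons (fin 1228 5 972)
(mv 1163 (cons (fin 1162 2 1098)
(mv 1227 (cons (fin 1226 1 1162)
(fin 1100 5 971)))))))))
(mv 1228 (cons (fin 1164 5 972)
(mv 1229 (cons (fin 1292 5 1036)
(fin 1293 6 1037))))))))))
(mv 909 (cons (fin 845 4 845)
(mv 844 (cons (fin 908 7 844)
(mv 846 (cons (fin 910 6 845)
(mv 1164 (cons (fin 1100 5 908)
(mv 1165 (cons (fin 1228 5 972)
(mv 1229 (cons (fin 972 7 972)
(fin 1293 6 1037))))))))))))))))))))))
(mv 970 (cons (fin 971 3 970)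
(mv 974 (cons (fin 975 2 971)
(mv 973 (cons (fin 1034 2 970)
(mv 1101 (cons (mv 910 (cons (fin 846 5 845)
(fin 1165 6 909)))
(cons (mv 910 (cons (fin 846 5 845)
(mv 909 (cons (mv 845 (cons (fin 1100 5 844)
(fin 781 4 781)))
(cons (mv 908 (cons (fin 844 7 844)
(mv 907 (cons (fin 906 0 906)
(mv 843 (cons (fin 842 3 842)
(mv 1100 (cons (fin 972 7 843)
(fin 1164 5 908)))))))))
(mv 844 (cons (fin 908 7 844)
(mv 845 (cons (fin 780 7 780)
(fin 781 4 781))))))))))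
(mv 1165 (cons (fin 1229 6 973)
(mv 908 (cons (fin 972 7 908)
(mv 909 (cons (fin 844 7 844)
(mv 845 (cons (fin 1100 5 844)
(fin 781 4 781))))))))))))))))))))
(cons (mv 974 (cons (fin 975 2 971)
(mv 973 (cons (fin 1034 2 970)
(mv 1102 (cons (fin 1103 0 1035)
(mv 909 (cons (fin 1166 7 909)
(fin 845 4 845)))))))))
(cons (mv 970 (cons (fin 971 3 970)
(mv 974 (cons (fin 975 2 971)
(mv 1102 (cons (fin 1103 0 1035)
(mv 1166 (cons (mv 973 (cons (fin 909 7 909)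
(fin 1230 7 973)))
(cons (mv 1165 (cons (fin 1229 5 973)
(mv 910 (cons (fin 1101 5 909)
(mv 845 (cons (fin 909 7 845)
(mv 846 (cons (fin 781 7 781)
(mv 847 (cons (fin 783 6 782)
(fin 911 6 846)))))))))))
(mv 973 (cons (fin 1230 7 973)
(mv 1165 (cons (fin 1229 5 973)
(mv 910 (cons (fin 1101 5 909)
(mv 846 (cons (fin 782 5 781)
(mv 847 (cons (fin 783 6 782)
(fin 911 6 846))))))))))))))))))))
(mv 970 (cons (fin 971 3 970)
(mv 974 (cons (fin 975 2 971)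
(mv 1102 (cons (fin 1103 0 1035)
(mv 1101 (cons (fin 1034 0 1034)
(mv 910 (cons (fin 846 5 845)
(fin 1165 5 909)))))))))))))))
(cons (mv 1034 (cons (cons (mv 969 (cons (fin 970 3 969)
(mv 968 (cons (fin 1033 3 968)
(mv 974 (cons (fin 973 2 970)
(mv 1038 (cons (fin 975 2 971)
(mv 1102 (cons (fin 1101 0 1034)
(fin 1103 0 1035)))))))))))
(mv 973 (cons (fin 974 2 970)
(mv 1101 (cons (fin 1102 0 1034)
(mv 1033 (cons (fin 1100 0 1033)
(mv 968 (cons (fin 969 3 968)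
(mv 1032 (cons (fin 967 3 967)
(mv 1096 (cons (fin 1095 1 1031)
(fin 1097 1 1032))))))))))))))
(cons (mv 970 (cons (fin 969 3 969)
(mv 974 (cons (fin 973 2 970)
(mv 1038 (cons (fin 971 3 970)
(fin 975 2 971)))))))
(cons (mv 973 (cons (fin 974 2 970)
(mv 1101 (cons (fin 1102 0 1034)
(mv 1100 (cons (fin 1033 0 1033)
(mv 909 (cons (fin 845 5 844)
(fin 1164 5 908)))))))))
(mv 969 (cons (fin 970 3 969)
(mv 1033 (cons (fin 968 3 968)
(mv 1101 (cons (fin 1100 0 1033)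
(fin 1102 0 1034)))))))))))
(mv 1034 (cons (cons (mv 969 (cons (fin 970 3 969)
(mv 968 (cons (fin 1033 3 968)
(mv 974 (cons (fin 973 2 970)
(mv 1038 (cons (fin 975 2 971)
(mv 1102 (cons (fin 1101 0 1034)
(fin 1103 0 1035)))))))))))
(mv 973 (cons (fin 974 2 970)
(mv 972 (cons (fin 1033 2 969)
(mv 1101 (cons (fin 1102 0 1034)
(mv 908 (cons (fin 1165 7 908)
(fin 844 4 844))))))))))
(cons (mv 970 (cons (fin 969 3 969)
(mv 1038 (cons (fin 971 3 970)
(mv 1102 (cons (fin 1101 0 1034)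
(fin 1103 0 1035)))))))
(mv 969 (cons (fin 970 3 969)
(mv 973 (cons (fin 974 2 970)
(mv 1033 (cons (fin 968 3 968)
(fin 972 2 969)))))))))))))))))
(cons (cons (ref 2 0)
(ref 3 0))
(cons (mv 1035 (cons (cons (mv 1034 (cons (cons (mv 969 (cons (fin 970 3 969)
(mv 968 (cons (fin 1033 3 968)
(mv 973 (cons (fin 974 2 970)
(mv 1098 (cons (fin 1097 1 1033)
(mv 1038 (cons (fin 1099 1 1034)
(mv 1102 (cons (fin 1101 0 1034)
(fin 1103 0 1035)))))))))))))
(mv 973 (cons (fin 974 2 970)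
(mv 972 (cons (fin 1033 2 969)
(mv 1097 (cons (fin 1098 1 1033)
(mv 1101 (cons (fin 1102 0 1034)
(mv 908 (cons (fin 1165 7 908)
(fin 844 4 844))))))))))))
(cons (mv 969 (cons (fin 970 3 969)
(mv 973 (cons (fin 974 2 970)
(mv 1033 (cons (fin 968 3 968)
(fin 972 2 969)))))))
(cons (mv 969 (cons (fin 970 3 969)
(mv 968 (cons (fin 1033 3 968)
(mv 1098 (cons (fin 1097 1 1033)
(mv 1038 (cons (fin 1099 1 1034)
(mv 1102 (cons (fin 1101 0 1034)
(fin 1103 0 1035)))))))))))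
(mv 969 (cons (fin 970 3 969)
(mv 973 (cons (fin 974 2 970)
(mv 1098 (cons (fin 1097 1 1033)
(mv 1038 (cons (fin 1099 1 1034)
(mv 1102 (cons (fin 1101 0 1034)
(fin 1103 0 1035)))))))))))))))
(cons (mv 971 (cons (cons (mv 970 (cons (fin 1038 3 970)
(mv 969 (cons (fin 968 0 968)
(fin 972 0 969)))))
(mv 1099 (cons (mv 1098 (cons (fin 1038 1 1034)
(mv 1097 (cons (fin 1096 2 1032)
(fin 1100 2 1033)))))
(cons (mv 1163 (cons (mv 972 (cons (fin 908 6 907)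
(fin 1227 6 971)))
(cons (mv 1162 (cons (fin 1226 5 970)
(mv 1164 (cons (fin 1228 4 971)
(mv 907 (cons (fin 1100 4 907)
(mv 842 (cons (fin 906 7 842)
(mv 843 (cons (fin 778 7 778)
(mv 844 (cons (fin 780 6 779)
(fin 908 6 843)))))))))))))
(mv 972 (cons (fin 1227 6 971)
(mv 1162 (cons (fin 1226 5 970)
(mv 1164 (cons (fin 1228 4 971)
(mv 907 (cons (fin 1100 7 907)
(mv 842 (cons (fin 906 7 842)
(mv 843 (cons (fin 778 7 778)
(fin 779 4 779))))))))))))))))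
(mv 1098 (cons (fin 1038 1 1034)
(mv 907 (cons (fin 1162 5 906)
(mv 842 (cons (fin 906 7 842)
(mv 843 (cons (fin 778 7 778)
(mv 844 (cons (fin 780 6 779)
(fin 908 6 843)))))))))))))))
(cons (mv 1100 (cons (cons (mv 907 (cons (fin 843 4 843)
(mv 1164 (cons (fin 972 7 907)
(fin 1228 7 971)))))
(mv 907 (cons (fin 843 4 843)
(mv 1099 (cons (mv 1098 (cons (fin 1097 2 1033)
(fin 1162 5 906)))
(mv 842 (cons (fin 906 7 842)
(mv 908 (cons (fin 844 6 843)
(mv 972 (cons (fin 1163 5 907)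
(mv 909 (cons (fin 845 6 844)
(mv 910 (cons (fin 970 1 906)
(fin 911 1 907))))))))))))))))
(cons (mv 1164 (cons (fin 1228 7 971)
(mv 972 (cons (cons (mv 909 (cons (fin 973 6 908)
(mv 845 (cons (fin 908 6 844)
(mv 970 (cons (fin 969 0 969)
(mv 1163 (cons (fin 1227 5 971)
(mv 1099 (cons (fin 906 7 906)
(mv 1097 (cons (fin 1098 2 1033)
(mv 1162 (cons (fin 1226 5 970)
(mv 1101 (cons (fin 1102 1 1098)
(fin 1161 2 1097)))))))))))))))))
(mv 909 (cons (fin 973 6 908)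
(mv 908 (cons (fin 845 6 844)
(mv 844 (cons (fin 780 5 779)
(fin 1099 5 843))))))))
(cons (mv 969 (cons (fin 970 0 969)
(mv 1163 (cons (fin 1227 5 971)
(mv 908 (cons (fin 1099 5 907)
(mv 844 (cons (fin 780 5 779)
(fin 1101 4 844)))))))))
(cons (mv 909 (cons (fin 973 6 908)
(mv 970 (cons (fin 969 0 969)
(mv 1163 (cons (fin 1227 5 971)
(mv 1099 (cons (fin 906 7 906)
(mv 1097 (cons (fin 1098 2 1033)
(mv 1162 (cons (fin 1226 5 970)
(mv 1101 (cons (fin 1102 1 1098)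
(fin 1161 2 1097)))))))))))))))
(mv 909 (cons (fin 973 6 908)
(mv 908 (cons (fin 845 6 844)
(mv 844 (cons (fin 780 5 779)
(fin 1101 4 844)))))))))))))
(mv 907 (cons (fin 843 4 843)
(mv 1164 (cons (fin 1228 7 971)
(fin 1099 4 907))))))))
(mv 970 (cons (fin 1038 3 970)
(mv 968 (cons (fin 969 0 968)
(mv 1099 (cons (cons (mv 906 (cons (fin 1163 7 906)
(mv 842 (cons (fin 907 7 842)
(fin 778 4 778)))))
(mv 907 (cons (mv 1100 (cons (fin 843 4 843)
(fin 1164 4 907)))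
(cons (mv 842 (cons (fin 906 7 842)
(mv 843 (cons (fin 778 7 778)
(mv 844 (cons (fin 780 6 779)
(fin 908 6 843)))))))
(mv 842 (cons (fin 906 7 842)
(mv 844 (cons (fin 908 6 843)
(mv 1098 (cons (fin 1162 5 906)
(mv 1097 (cons (fin 1096 2 1032)
(fin 1100 2 1033)))))))))))))
(cons (mv 1098 (cons (mv 1097 (cons (fin 1096 2 1032)
(fin 1100 2 1033)))
(cons (mv 907 (cons (fin 1162 5 906)
(mv 1100 (cons (fin 843 4 843)
(fin 1164 4 907)))))
(mv 1096 (cons (fin 1097 2 1032)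
(mv 1162 (cons (fin 907 5 906)
(mv 1226 (cons (fin 1163 5 970)
(fin 1290 6 1034))))))))))
(mv 1163 (cons (fin 906 7 906)
(mv 1162 (cons (fin 1226 5 970)
(mv 1228 (cons (fin 1164 4 971)
(mv 1227 (cons (fin 1292 4 1035)
(mv 1100 (cons (fin 1291 6 1035)
(mv 1098 (cons (fin 1097 2 1033)
(mv 1101 (cons (fin 1161 1 1097)
(fin 1102 1 1098)))))))))))))))))))))))))
(mv 1034 (cons (cons (mv 969 (cons (fin 970 3 969)
(mv 973 (cons (fin 974 2 970)
(mv 1033 (cons (fin 968 3 968)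
(fin 972 2 969)))))))
(mv 969 (cons (fin 970 3 969)
(mv 1033 (cons (fin 968 3 968)
(mv 1097 (cons (fin 1096 1 1032)
(fin 1098 1 1033))))))))
(cons (mv 973 (cons (fin 974 2 970)
(mv 972 (cons (fin 1033 2 969)
(mv 1097 (cons (fin 1098 1 1033)
(mv 1101 (cons (fin 1102 0 1034)
(mv 908 (cons (fin 1165 7 908)
(fin 844 4 844)))))))))))
(mv 969 (cons (fin 970 3 969)
(mv 973 (cons (fin 974 2 970)
(mv 1097 (cons (fin 1098 1 1033)
(mv 1101 (cons (fin 1102 0 1034)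
(mv 1165 (cons (mv 972 (cons (fin 908 7 908)
(fin 1229 7 972)))
(cons (mv 1164 (cons (fin 1228 5 972)
(mv 909 (cons (fin 1100 5 908)
(mv 844 (cons (fin 908 7 844)
(mv 845 (cons (fin 780 7 780)
(mv 846 (cons (fin 782 6 781)
(fin 910 6 845)))))))))))
(mv 972 (cons (fin 1229 7 972)
(mv 1164 (cons (fin 1228 5 972)
(mv 909 (cons (fin 1100 5 908)
(mv 845 (cons (fin 781 5 780)
(mv 846 (cons (fin 782 6 781)
(fin 910 6 845)))))))))))))))))))))))))))
(cons (cons (mv 1034 (cons (cons (mv 973 (cons (fin 974 2 970)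
(mv 972 (cons (fin 1033 2 969)
(mv 1097 (cons (fin 1098 1 1033)
(mv 1101 (cons (fin 1102 0 1034)
(mv 908 (cons (fin 1165 7 908)
(fin 844 4 844)))))))))))
(mv 973 (cons (fin 974 2 970)
(mv 972 (cons (fin 1033 2 969)
(mv 1098 (cons (fin 1097 1 1033)
(mv 1099 (cons (fin 1038 1 1034)
(mv 908 (cons (fin 844 5 843)
(mv 1163 (cons (fin 1100 5 907)
(fin 971 6 907))))))))))))))
(cons (mv 973 (cons (fin 974 2 970)
(mv 972 (cons (fin 1033 2 969)
(mv 1101 (cons (fin 1102 0 1034)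
(mv 908 (cons (fin 1165 7 908)
(fin 844 4 844)))))))))
(cons (mv 1097 (cons (fin 1098 1 1033)
(mv 1033 (cons (fin 1096 1 1032)
(mv 1101 (cons (fin 1100 0 1033)
(fin 1102 0 1034)))))))
(mv 973 (cons (fin 974 2 970)
(mv 1098 (cons (fin 1097 1 1033)
(mv 1038 (cons (fin 1099 1 1034)
(mv 1102 (cons (fin 1101 0 1034)
(fin 1103 0 1035)))))))))))))
(mv 1034 (cons (cons (mv 969 (cons (fin 970 3 969)
(mv 973 (cons (fin 974 2 970)
(mv 1033 (cons (fin 968 3 968)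
(fin 972 2 969)))))))
(mv 973 (cons (fin 974 2 970)
(mv 972 (cons (fin 1033 2 969)
(mv 1101 (cons (fin 1102 0 1034)
(mv 908 (cons (fin 1165 7 908)
(fin 844 4 844))))))))))
(cons (mv 969 (cons (fin 970 3 969)
(mv 1033 (cons (fin 968 3 968)
(mv 1101 (cons (fin 1100 0 1033)
(fin 1102 0 1034)))))))
(mv 970 (cons (fin 969 3 969)
(mv 973 (cons (fin 974 2 970)
(mv 1038 (cons (fin 971 3 970)
(mv 1102 (cons (fin 1101 0 1034)
(fin 1103 0 1035)))))))))))))
(cons (mv 1034 (cons (cons (mv 969 (cons (fin 970 3 969)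
(mv 973 (cons (fin 974 2 970)
(mv 1033 (cons (fin 968 3 968)
(fin 972 2 969)))))))
(mv 973 (cons (fin 974 2 970)
(mv 972 (cons (fin 1033 2 969)
(mv 1098 (cons (fin 1097 1 1033)
(mv 1099 (cons (fin 1038 1 1034)
(mv 908 (cons (fin 844 5 843)
(mv 1163 (cons (fin 1100 5 907)
(fin 971 6 907))))))))))))))
(cons (mv 969 (cons (fin 970 3 969)
(mv 1033 (cons (fin 968 3 968)
(mv 1097 (cons (fin 1096 1 1032)
(fin 1098 1 1033)))))))
(mv 970 (cons (fin 969 3 969)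
(mv 971 (cons (fin 1038 3 970)
(mv 973 (cons (fin 974 2 970)
(mv 1098 (cons (fin 1097 1 1033)
(mv 907 (cons (fin 843 5 842)
(fin 1162 6 906))))))))))))))
(mv 1034 (cons (cons (mv 969 (cons (fin 970 3 969)
(mv 968 (cons (fin 1033 3 968)
(mv 1098 (cons (fin 1097 1 1033)
(mv 1038 (cons (fin 1099 1 1034)
(mv 1102 (cons (fin 1101 0 1034)
(fin 1103 0 1035)))))))))))
(mv 969 (cons (fin 970 3 969)
(mv 1033 (cons (fin 968 3 968)
(mv 1101 (cons (fin 1100 0 1033)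
(fin 1102 0 1034))))))))
(cons (mv 1097 (cons (fin 1098 1 1033)
(mv 1033 (cons (fin 1096 1 1032)
(mv 1101 (cons (fin 1100 0 1033)
(fin 1102 0 1034)))))))
(cons (mv 969 (cons (fin 970 3 969)
(mv 1033 (cons (fin 968 3 968)
(mv 1097 (cons (fin 1096 1 1032)
(fin 1098 1 1033)))))))
(mv 969 (cons (fin 970 3 969)
(mv 1098 (cons (fin 1097 1 1033)
(mv 1038 (cons (fin 1099 1 1034)
(mv 1102 (cons (fin 1101 0 1034)
(fin 1103 0 1035)))))))))))))))))
(ref 6 0)))))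
(cons (cons (cons (cons (ref 5 0)
(mv 1035 (cons (cons (cons (mv 1034 (cons (cons (mv 969 (cons (fin 970 3 969)
(mv 968 (cons (fin 1033 3 968)
(mv 973 (cons (fin 974 2 970)
(mv 1098 (cons (fin 1097 1 1033)
(mv 1038 (cons (fin 1099 1 1034)
(mv 1102 (cons (fin 1101 0 1034)
(fin 1103 0 1035)))))))))))))
(cons (mv 969 (cons (fin 970 3 969)
(mv 968 (cons (fin 1033 3 968)
(mv 974 (cons (fin 973 2 970)
(mv 1038 (cons (fin 975 2 971)
(mv 1102 (cons (fin 1101 0 1034)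
(fin 1103 0 1035)))))))))))
(mv 973 (cons (fin 974 2 970)
(mv 972 (cons (fin 1033 2 969)
(mv 1097 (cons (fin 1098 1 1033)
(mv 1101 (cons (fin 1102 0 1034)
(mv 1165 (cons (fin 1229 7 972)
(mv 1164 (cons (fin 1228 5 972)
(mv 909 (cons (fin 1100 5 908)
(mv 845 (cons (fin 781 5 780)
(mv 846 (cons (fin 782 6 781)
(fin 910 6 845)))))))))))))))))))))
(cons (mv 969 (cons (fin 970 3 969)
(mv 968 (cons (fin 1033 3 968)
(mv 1098 (cons (fin 1097 1 1033)
(mv 1038 (cons (fin 1099 1 1034)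
(mv 1102 (cons (fin 1101 0 1034)
(fin 1103 0 1035)))))))))))
(cons (mv 969 (cons (fin 970 3 969)
(mv 968 (cons (fin 1033 3 968)
(mv 974 (cons (fin 973 2 970)
(mv 1038 (cons (fin 975 2 971)
(mv 1098 (cons (fin 1097 1 1033)
(fin 1099 1 1034)))))))))))
(mv 969 (cons (fin 970 3 969)
(mv 973 (cons (fin 974 2 970)
(mv 1098 (cons (fin 1097 1 1033)
(mv 1038 (cons (fin 1099 1 1034)
(mv 1102 (cons (fin 1101 0 1034)
(fin 1103 0 1035)))))))))))))))
(mv 971 (cons (cons (mv 970 (cons (fin 1038 3 970)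
(mv 969 (cons (fin 968 0 968)
(fin 972 0 969)))))
(mv 1100 (cons (cons (mv 907 (cons (fin 843 4 843)
(mv 1164 (cons (fin 972 7 907)
(fin 1228 7 971)))))
(mv 907 (cons (fin 843 4 843)
(mv 1099 (cons (mv 1098 (cons (fin 1097 2 1033)
(fin 1162 5 906)))
(mv 906 (cons (fin 842 7 842)
(mv 970 (cons (fin 1163 7 906)
(mv 969 (cons (fin 968 0 968)
(fin 972 0 969))))))))))))
(cons (mv 1164 (cons (fin 1228 7 971)
(mv 972 (cons (cons (mv 909 (cons (fin 973 6 908)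
(mv 970 (cons (fin 969 0 969)
(mv 1163 (cons (fin 1227 5 971)
(mv 1099 (cons (fin 906 7 906)
(mv 1097 (cons (fin 1098 2 1033)
(mv 1162 (cons (fin 1226 5 970)
(mv 1101 (cons (fin 1102 1 1098)
(fin 1161 2 1097)))))))))))))))
(mv 970 (cons (fin 969 0 969)
(mv 1163 (cons (fin 1227 5 971)
(mv 1099 (cons (fin 906 7 906)
(mv 1097 (cons (fin 1098 2 1033)
(mv 1162 (cons (fin 1226 5 970)
(mv 1101 (cons (fin 1102 1 1098)
(fin 1161 2 1097))))))))))))))
(cons (mv 969 (cons (fin 970 0 969)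
(mv 973 (cons (fin 909 6 908)
(mv 974 (cons (fin 975 1 971)
(mv 910 (cons (fin 911 2 907)
(mv 1165 (cons (fin 1101 6 909)
(fin 1229 4 972)))))))))))
(cons (mv 973 (cons (fin 909 6 908)
(mv 974 (cons (fin 975 1 971)
(mv 910 (cons (fin 911 2 907)
(mv 1165 (cons (fin 1101 6 909)
(fin 1229 4 972)))))))))
(mv 909 (cons (fin 973 6 908)
(mv 970 (cons (fin 969 0 969)
(mv 1163 (cons (fin 1227 5 971)
(mv 1099 (cons (fin 906 7 906)
(mv 1097 (cons (fin 1098 2 1033)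
(mv 1162 (cons (fin 1226 5 970)
(mv 1161 (cons (fin 1096 3 1096)
(fin 1160 2 1096)))))))))))))))))))))
(mv 907 (cons (fin 843 4 843)
(mv 1164 (cons (fin 1228 7 971)
(fin 1099 4 907)))))))))
(cons (mv 1099 (cons (mv 1098 (cons (fin 1038 1 1034)
(mv 1097 (cons (fin 1096 2 1032)
(fin 1100 2 1033)))))
(cons (mv 907 (cons (mv 1100 (cons (fin 843 4 843)
(fin 1164 4 907)))
(cons (mv 842 (cons (fin 906 7 842)
(mv 843 (cons (fin 778 7 778)
(mv 779 (cons (fin 972 4 779)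
(mv 780 (cons (fin 716 6 715)
(fin 844 6 779)))))))))
(mv 842 (cons (fin 906 7 842)
(mv 1164 (cons (fin 1100 4 907)
(mv 1163 (cons (fin 1228 4 971)
(mv 1226 (cons (fin 1162 5 970)
(mv 1227 (cons (fin 1290 5 1034)
(fin 972 6 971))))))))))))))
(mv 1098 (cons (fin 1038 1 1034)
(mv 907 (cons (fin 1162 5 906)
(mv 842 (cons (fin 906 7 842)
(mv 843 (cons (fin 778 7 778)
(mv 779 (cons (fin 972 4 779)
(mv 780 (cons (fin 716 6 715)
(fin 844 6 779))))))))))))))))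
(mv 970 (cons (fin 1038 3 970)
(mv 969 (cons (fin 968 0 968)
(mv 1099 (cons (cons (mv 906 (cons (fin 1163 7 906)
(mv 842 (cons (fin 907 7 842)
(fin 778 4 778)))))
(mv 1098 (cons (mv 1097 (cons (fin 1096 2 1032)
(fin 1100 2 1033)))
(cons (mv 907 (cons (fin 1162 5 906)
(mv 1100 (cons (fin 843 4 843)
(fin 1164 4 907)))))
(mv 1097 (cons (fin 1096 2 1032)
(mv 1162 (cons (fin 907 5 906)
(mv 1033 (cons (fin 905 4 905)
(mv 1161 (cons (fin 906 6 905)
(fin 1226 4 969)))))))))))))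
(cons (mv 1098 (cons (mv 1097 (cons (fin 1096 2 1032)
(fin 1100 2 1033)))
(cons (mv 907 (cons (fin 1162 5 906)
(mv 1100 (cons (fin 843 4 843)
(fin 1164 4 907)))))
(mv 1096 (cons (fin 1097 2 1032)
(mv 1162 (cons (fin 907 5 906)
(mv 1226 (cons (fin 1163 5 970)
(fin 1290 6 1034))))))))))
(mv 1163 (cons (fin 906 7 906)
(mv 1162 (cons (fin 1226 5 970)
(mv 1228 (cons (fin 1164 4 971)
(mv 1227 (cons (fin 1292 4 1035)
(mv 1100 (cons (fin 1291 6 1035)
(mv 1098 (cons (fin 1097 2 1033)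
(mv 1101 (cons (fin 1161 1 1097)
(fin 1102 1 1098))))))))))))))))))))))))))
(cons (mv 1034 (cons (cons (mv 969 (cons (fin 970 3 969)
(mv 973 (cons (fin 974 2 970)
(mv 1033 (cons (fin 968 3 968)
(fin 972 2 969)))))))
(mv 969 (cons (fin 970 3 969)
(mv 1033 (cons (fin 968 3 968)
(mv 1097 (cons (fin 1096 1 1032)
(fin 1098 1 1033))))))))
(cons (mv 973 (cons (fin 974 2 970)
(mv 972 (cons (fin 1033 2 969)
(mv 1097 (cons (fin 1098 1 1033)
(mv 1101 (cons (fin 1102 0 1034)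
(mv 1165 (cons (fin 1229 7 972)
(mv 1164 (cons (fin 1228 5 972)
(mv 909 (cons (fin 1100 5 908)
(mv 845 (cons (fin 781 5 780)
(mv 846 (cons (fin 782 6 781)
(fin 910 6 845)))))))))))))))))))
(mv 969 (cons (fin 970 3 969)
(mv 973 (cons (fin 974 2 970)
(mv 1097 (cons (fin 1098 1 1033)
(mv 1101 (cons (fin 1102 0 1034)
(mv 909 (cons (mv 1100 (cons (fin 845 5 844)
(fin 1164 5 908)))
(cons (mv 846 (cons (fin 910 6 845)
(mv 845 (cons (fin 782 6 781)
(mv 780 (cons (fin 844 7 780)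
(mv 781 (cons (fin 716 7 716)
(fin 972 5 780)))))))))
(mv 846 (cons (fin 910 6 845)
(mv 1164 (cons (fin 1100 5 908)
(mv 1165 (cons (fin 1228 5 972)
(mv 1229 (cons (fin 972 7 972)
(mv 1230 (cons (fin 1166 4 973)
(fin 1294 4 1037)))))))))))))))))))))))))
(mv 1034 (cons (cons (mv 969 (cons (fin 970 3 969)
(mv 968 (cons (fin 1033 3 968)
(mv 974 (cons (fin 973 2 970)
(mv 1038 (cons (fin 975 2 971)
(mv 1102 (cons (fin 1101 0 1034)
(fin 1103 0 1035)))))))))))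
(mv 969 (cons (fin 970 3 969)
(mv 1033 (cons (fin 968 3 968)
(mv 1101 (cons (fin 1100 0 1033)
(fin 1102 0 1034))))))))
(cons (mv 973 (cons (fin 974 2 970)
(mv 972 (cons (fin 1033 2 969)
(mv 1101 (cons (fin 1102 0 1034)
(mv 1165 (cons (fin 1229 7 972)
(mv 1164 (cons (fin 1228 5 972)
(mv 909 (cons (fin 1100 5 908)
(mv 845 (cons (fin 781 5 780)
(mv 846 (cons (fin 782 6 781)
(fin 910 6 845)))))))))))))))))
(cons (mv 969 (cons (fin 970 3 969)
(mv 973 (cons (fin 974 2 970)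
(mv 1033 (cons (fin 968 3 968)
(fin 972 2 969)))))))
(mv 969 (cons (fin 970 3 969)
(mv 974 (cons (fin 973 2 970)
(mv 1038 (cons (fin 975 2 971)
(mv 1102 (cons (fin 1101 0 1034)
(fin 1103 0 1035)))))))))))))))
(cons (cons (mv 1034 (cons (cons (mv 973 (cons (fin 974 2 970)
(mv 972 (cons (fin 1033 2 969)
(mv 1097 (cons (fin 1098 1 1033)
(mv 1101 (cons (fin 1102 0 1034)
(mv 1165 (cons (fin 1229 7 972)
(mv 1164 (cons (fin 1228 5 972)
(mv 909 (cons (fin 1100 5 908)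
(mv 845 (cons (fin 781 5 780)
(mv 846 (cons (fin 782 6 781)
(fin 910 6 845)))))))))))))))))))
(mv 1097 (cons (fin 1098 1 1033)
(mv 1033 (cons (fin 1096 1 1032)
(mv 1101 (cons (fin 1100 0 1033)
(fin 1102 0 1034))))))))
(cons (mv 973 (cons (fin 974 2 970)
(mv 972 (cons (fin 1033 2 969)
(mv 1101 (cons (fin 1102 0 1034)
(mv 1165 (cons (fin 1229 7 972)
(mv 1164 (cons (fin 1228 5 972)
(mv 909 (cons (fin 1100 5 908)
(mv 845 (cons (fin 781 5 780)
(mv 846 (cons (fin 782 6 781)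
(fin 910 6 845)))))))))))))))))
(cons (mv 973 (cons (fin 974 2 970)
(mv 1033 (cons (fin 972 2 969)
(mv 1097 (cons (fin 1096 1 1032)
(fin 1098 1 1033)))))))
(mv 973 (cons (fin 974 2 970)
(mv 1098 (cons (fin 1097 1 1033)
(mv 1038 (cons (fin 1099 1 1034)
(mv 1102 (cons (fin 1101 0 1034)
(fin 1103 0 1035)))))))))))))
(mv 1034 (cons (cons (mv 969 (cons (fin 970 3 969)
(mv 968 (cons (fin 1033 3 968)
(mv 974 (cons (fin 973 2 970)
(mv 1038 (cons (fin 975 2 971)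
(mv 1098 (cons (fin 1097 1 1033)
(fin 1099 1 1034)))))))))))
(mv 969 (cons (fin 970 3 969)
(mv 973 (cons (fin 974 2 970)
(mv 1033 (cons (fin 968 3 968)
(fin 972 2 969))))))))
(cons (mv 973 (cons (fin 974 2 970)
(mv 1033 (cons (fin 972 2 969)
(mv 1097 (cons (fin 1096 1 1032)
(fin 1098 1 1033)))))))
(cons (mv 969 (cons (fin 970 3 969)
(mv 1033 (cons (fin 968 3 968)
(mv 1097 (cons (fin 1096 1 1032)
(fin 1098 1 1033)))))))
(mv 969 (cons (fin 970 3 969)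
(mv 974 (cons (fin 973 2 970)
(mv 1038 (cons (fin 975 2 971)
(mv 1098 (cons (fin 1097 1 1033)
(fin 1099 1 1034))))))))))))))
(cons (mv 1034 (cons (cons (mv 969 (cons (fin 970 3 969)
(mv 968 (cons (fin 1033 3 968)
(mv 1098 (cons (fin 1097 1 1033)
(mv 1038 (cons (fin 1099 1 1034)
(mv 1102 (cons (fin 1101 0 1034)
(fin 1103 0 1035)))))))))))
(mv 969 (cons (fin 970 3 969)
(mv 1033 (cons (fin 968 3 968)
(mv 1101 (cons (fin 1100 0 1033)
(fin 1102 0 1034))))))))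
(cons (mv 1097 (cons (fin 1098 1 1033)
(mv 1033 (cons (fin 1096 1 1032)
(mv 1101 (cons (fin 1100 0 1033)
(fin 1102 0 1034)))))))
(cons (mv 969 (cons (fin 970 3 969)
(mv 1033 (cons (fin 968 3 968)
(mv 1097 (cons (fin 1096 1 1032)
(fin 1098 1 1033)))))))
(mv 969 (cons (fin 970 3 969)
(mv 1098 (cons (fin 1097 1 1033)
(mv 1038 (cons (fin 1099 1 1034)
(mv 1102 (cons (fin 1101 0 1034)
(fin 1103 0 1035)))))))))))))
(mv 1034 (cons (cons (mv 969 (cons (fin 970 3 969)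
(mv 973 (cons (fin 974 2 970)
(mv 1098 (cons (fin 1097 1 1033)
(mv 1038 (cons (fin 1099 1 1034)
(mv 1102 (cons (fin 1101 0 1034)
(fin 1103 0 1035)))))))))))
(cons (mv 969 (cons (fin 970 3 969)
(mv 974 (cons (fin 973 2 970)
(mv 1038 (cons (fin 975 2 971)
(mv 1102 (cons (fin 1101 0 1034)
(fin 1103 0 1035)))))))))
(mv 973 (cons (fin 974 2 970)
(mv 1098 (cons (fin 1097 1 1033)
(mv 1038 (cons (fin 1099 1 1034)
(mv 1102 (cons (fin 1101 0 1034)
(fin 1103 0 1035)))))))))))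
(cons (mv 969 (cons (fin 970 3 969)
(mv 974 (cons (fin 973 2 970)
(mv 1038 (cons (fin 975 2 971)
(mv 1098 (cons (fin 1097 1 1033)
(fin 1099 1 1034)))))))))
(cons (mv 969 (cons (fin 970 3 969)
(mv 1098 (cons (fin 1097 1 1033)
(mv 1038 (cons (fin 1099 1 1034)
(mv 1102 (cons (fin 1101 0 1034)
(fin 1103 0 1035)))))))))
(mv 969 (cons (fin 970 3 969)
(mv 973 (cons (fin 974 2 970)
(mv 1097 (cons (fin 1098 1 1033)
(mv 1101 (cons (fin 1102 0 1034)
(mv 909 (cons (mv 1100 (cons (fin 845 5 844)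
(fin 1164 5 908)))
(cons (mv 846 (cons (fin 910 6 845)
(mv 845 (cons (fin 782 6 781)
(mv 780 (cons (fin 844 7 780)
(mv 781 (cons (fin 716 7 716)
(fin 972 5 780)))))))))
(mv 846 (cons (fin 910 6 845)
(mv 1164 (cons (fin 1100 5 908)
(mv 1165 (cons (fin 1228 5 972)
(mv 1229 (cons (fin 972 7 972)
(mv 1230 (cons (fin 1166 4 973)
(fin 1294 4 1037)))))))))))))))))))))))))))))))
(cons (mv 1035 (cons (cons (mv 1034 (cons (cons (mv 969 (cons (fin 970 3 969)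
(mv 968 (cons (fin 1033 3 968)
(mv 973 (cons (fin 974 2 970)
(mv 1098 (cons (fin 1097 1 1033)
(mv 1038 (cons (fin 1099 1 1034)
(mv 1102 (cons (fin 1101 0 1034)
(fin 1103 0 1035)))))))))))))
(cons (mv 969 (cons (fin 970 3 969)
(mv 968 (cons (fin 1033 3 968)
(mv 974 (cons (fin 973 2 970)
(mv 1038 (cons (fin 975 2 971)
(mv 1102 (cons (fin 1101 0 1034)
(fin 1103 0 1035)))))))))))
(mv 973 (cons (fin 974 2 970)
(mv 972 (cons (fin 1033 2 969)
(mv 1097 (cons (fin 1098 1 1033)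
(mv 1101 (cons (fin 1102 0 1034)
(mv 908 (cons (fin 1165 7 908)
(fin 844 4 844)))))))))))))
(cons (mv 969 (cons (fin 970 3 969)
(mv 968 (cons (fin 1033 3 968)
(mv 974 (cons (fin 973 2 970)
(mv 1038 (cons (fin 975 2 971)
(mv 1098 (cons (fin 1097 1 1033)
(fin 1099 1 1034)))))))))))
(cons (mv 969 (cons (fin 970 3 969)
(mv 968 (cons (fin 1033 3 968)
(mv 1098 (cons (fin 1097 1 1033)
(mv 1038 (cons (fin 1099 1 1034)
(mv 1102 (cons (fin 1101 0 1034)
(fin 1103 0 1035)))))))))))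
(mv 969 (cons (fin 970 3 969)
(mv 973 (cons (fin 974 2 970)
(mv 1098 (cons (fin 1097 1 1033)
(mv 1038 (cons (fin 1099 1 1034)
(mv 1102 (cons (fin 1101 0 1034)
(fin 1103 0 1035)))))))))))))))
(cons (mv 1099 (cons (cons (mv 1098 (cons (fin 1038 1 1034)
(mv 1097 (cons (fin 1096 2 1032)
(fin 1100 2 1033)))))
(mv 972 (cons (cons (mv 908 (cons (fin 844 5 843)
(mv 1163 (cons (fin 1100 5 907)
(fin 971 6 907)))))
(mv 1163 (cons (fin 1227 6 971)
(mv 971 (cons (mv 970 (cons (fin 969 0 969)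
(fin 906 7 906)))
(mv 1162 (cons (fin 1226 5 970)
(mv 907 (cons (fin 1098 5 906)
(mv 843 (cons (fin 779 4 779)
(fin 1100 4 843))))))))))))
(cons (mv 908 (cons (fin 844 5 843)
(mv 1100 (cons (cons (mv 843 (cons (fin 907 7 843)
(mv 1097 (cons (fin 1098 2 1033)
(mv 1165 (cons (fin 1101 4 908)
(mv 1164 (cons (fin 1229 4 972)
(mv 1228 (cons (fin 971 7 971)
(fin 1292 7 1035)))))))))))
(cons (mv 907 (cons (fin 843 7 843)
(mv 971 (cons (fin 1164 7 907)
(mv 1098 (cons (fin 1097 2 1033)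
(fin 1162 5 906)))))))
(mv 1097 (cons (fin 1098 2 1033)
(mv 1165 (cons (fin 1101 4 908)
(mv 1164 (cons (fin 1229 4 972)
(mv 1228 (cons (fin 971 7 971)
(fin 1292 7 1035)))))))))))
(cons (mv 843 (cons (fin 907 7 843)
(mv 1165 (cons (fin 1101 4 908)
(mv 1164 (cons (fin 1229 4 972)
(mv 1228 (cons (fin 971 7 971)
(fin 1292 7 1035)))))))))
(cons (mv 907 (cons (fin 843 7 843)
(mv 1098 (cons (fin 1097 2 1033)
(mv 971 (cons (fin 1162 5 906)
(mv 906 (cons (fin 842 7 842)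
(mv 905 (cons (fin 904 0 904)
(fin 973 0 905)))))))))))
(mv 843 (cons (fin 907 7 843)
(mv 1097 (cons (fin 1098 2 1033)
(mv 1165 (cons (fin 1101 4 908)
(mv 1164 (cons (fin 1229 4 972)
(mv 1228 (cons (fin 1292 7 1035)
(fin 973 6 972)))))))))))))))))
(cons (mv 908 (cons (fin 844 5 843)
(mv 1163 (cons (fin 1100 5 907)
(fin 1227 6 971)))))
(mv 908 (cons (fin 844 5 843)
(mv 1163 (cons (fin 971 6 907)
(fin 1227 6 971))))))))))
(cons (mv 972 (cons (cons (mv 908 (cons (fin 844 5 843)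
(mv 1163 (cons (fin 1100 5 907)
(fin 971 6 907)))))
(mv 1163 (cons (fin 1227 6 971)
(mv 971 (cons (mv 970 (cons (fin 1038 3 970)
(fin 969 0 969)))
(cons (mv 1162 (cons (fin 1226 5 970)
(mv 1164 (cons (fin 1228 4 971)
(mv 907 (cons (fin 1100 7 907)
(mv 779 (cons (fin 843 4 779)
(mv 906 (cons (fin 842 7 842)
(mv 904 (cons (fin 905 0 904)
(mv 974 (cons (fin 973 3 906)
(mv 1038 (cons (fin 975 2 971)
(mv 1102 (cons (fin 1103 0 1035)
(mv 1165 (cons (fin 1101 2 1098)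
(mv 1229 (cons (fin 1230 0 1162)
(fin 1166 5 973)))))))))))))))))))))))
(mv 970 (cons (fin 969 0 969)
(fin 906 7 906)))))))))
(cons (mv 908 (cons (fin 844 5 843)
(mv 1100 (cons (cons (mv 843 (cons (fin 907 7 843)
(mv 1165 (cons (fin 1101 4 908)
(mv 1164 (cons (fin 1229 4 972)
(mv 1228 (cons (fin 971 7 971)
(fin 1292 7 1035)))))))))
(mv 1165 (cons (fin 1101 4 908)
(mv 1164 (cons (fin 1229 4 972)
(mv 1228 (cons (fin 971 7 971)
(fin 1292 7 1035))))))))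
(cons (mv 907 (cons (fin 843 7 843)
(mv 971 (cons (fin 1164 7 907)
(mv 970 (cons (fin 1038 3 970)
(fin 969 0 969)))))))
(cons (mv 843 (cons (fin 907 7 843)
(mv 1165 (cons (fin 1101 4 908)
(mv 1164 (cons (fin 1229 4 972)
(mv 1228 (cons (fin 1292 7 1035)
(fin 973 6 972)))))))))
(mv 907 (cons (fin 843 7 843)
(mv 1101 (cons (fin 1165 4 908)
(mv 1102 (cons (fin 1103 3 1035)
(mv 1166 (cons (fin 1167 0 1099)
(mv 1230 (cons (fin 1294 7 1037)
(mv 973 (cons (fin 1038 7 973)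
(mv 906 (cons (fin 905 0 905)
(mv 971 (cons (fin 974 3 906)
(fin 842 7 842)))))))))))))))))))))))
(cons (mv 908 (cons (fin 844 5 843)
(mv 1163 (cons (fin 1100 5 907)
(fin 1227 6 971)))))
(mv 908 (cons (fin 844 5 843)
(mv 1163 (cons (fin 971 6 907)
(fin 1227 6 971)))))))))
(mv 1038 (cons (fin 1098 1 1034)
(mv 970 (cons (fin 971 3 970)
(mv 974 (cons (fin 975 2 971)
(mv 1102 (cons (fin 1103 0 1035)
(mv 910 (cons (mv 1101 (cons (fin 846 5 845)
(fin 1165 5 909)))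
(cons (mv 847 (cons (fin 911 6 846)
(mv 846 (cons (fin 783 6 782)
(mv 781 (cons (fin 845 7 781)
(mv 782 (cons (fin 717 7 717)
(fin 973 5 781)))))))))
(mv 847 (cons (fin 911 6 846)
(mv 1165 (cons (fin 1101 5 909)
(mv 1166 (cons (fin 1229 5 973)
(mv 1230 (cons (fin 973 7 973)
(mv 1231 (cons (fin 1167 4 974)
(fin 1295 4 1038)))))))))))))))))))))))))
(mv 1034 (cons (cons (mv 969 (cons (fin 970 3 969)
(mv 973 (cons (fin 974 2 970)
(mv 1033 (cons (fin 968 3 968)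
(fin 972 2 969)))))))
(mv 969 (cons (fin 970 3 969)
(mv 1033 (cons (fin 968 3 968)
(mv 1097 (cons (fin 1096 1 1032)
(fin 1098 1 1033))))))))
(cons (mv 973 (cons (fin 974 2 970)
(mv 972 (cons (fin 1033 2 969)
(mv 1097 (cons (fin 1098 1 1033)
(mv 1101 (cons (fin 1102 0 1034)
(mv 908 (cons (fin 1165 7 908)
(fin 844 4 844)))))))))))
(mv 969 (cons (fin 970 3 969)
(mv 973 (cons (fin 974 2 970)
(mv 1098 (cons (fin 1097 1 1033)
(mv 1101 (cons (fin 1102 0 1034)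
(mv 1165 (cons (mv 972 (cons (fin 908 7 908)
(fin 1229 7 972)))
(mv 1164 (cons (fin 1228 5 972)
(mv 1166 (cons (fin 1230 4 973)
(mv 1099 (cons (fin 1163 3 1098)
(fin 1100 0 1098))))))))))))))))))))))
(cons (cons (mv 1034 (cons (cons (mv 969 (cons (fin 970 3 969)
(mv 968 (cons (fin 1033 3 968)
(mv 974 (cons (fin 973 2 970)
(mv 1038 (cons (fin 975 2 971)
(mv 1102 (cons (fin 1101 0 1034)
(fin 1103 0 1035)))))))))))
(mv 969 (cons (fin 970 3 969)
(mv 973 (cons (fin 974 2 970)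
(mv 1033 (cons (fin 968 3 968)
(fin 972 2 969))))))))
(cons (mv 973 (cons (fin 974 2 970)
(mv 972 (cons (fin 1033 2 969)
(mv 1101 (cons (fin 1102 0 1034)
(mv 908 (cons (fin 1165 7 908)
(fin 844 4 844)))))))))
(cons (mv 969 (cons (fin 970 3 969)
(mv 1033 (cons (fin 968 3 968)
(mv 1101 (cons (fin 1100 0 1033)
(fin 1102 0 1034)))))))
(mv 969 (cons (fin 970 3 969)
(mv 974 (cons (fin 973 2 970)
(mv 1038 (cons (fin 975 2 971)
(mv 1102 (cons (fin 1101 0 1034)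
(fin 1103 0 1035)))))))))))))
(mv 1034 (cons (cons (mv 973 (cons (fin 974 2 970)
(mv 972 (cons (fin 1033 2 969)
(mv 1097 (cons (fin 1098 1 1033)
(mv 1101 (cons (fin 1102 0 1034)
(mv 908 (cons (fin 1165 7 908)
(fin 844 4 844)))))))))))
(mv 973 (cons (fin 974 2 970)
(mv 972 (cons (fin 1033 2 969)
(mv 1098 (cons (fin 1097 1 1033)
(mv 1099 (cons (fin 1038 1 1034)
(mv 908 (cons (fin 844 5 843)
(mv 1163 (cons (fin 1100 5 907)
(fin 971 6 907))))))))))))))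
(cons (mv 973 (cons (fin 974 2 970)
(mv 972 (cons (fin 1033 2 969)
(mv 1101 (cons (fin 1102 0 1034)
(mv 908 (cons (fin 1165 7 908)
(fin 844 4 844)))))))))
(cons (mv 1097 (cons (fin 1098 1 1033)
(mv 1033 (cons (fin 1096 1 1032)
(mv 1101 (cons (fin 1100 0 1033)
(fin 1102 0 1034)))))))
(mv 973 (cons (fin 974 2 970)
(mv 1098 (cons (fin 1097 1 1033)
(mv 1038 (cons (fin 1099 1 1034)
(mv 1102 (cons (fin 1101 0 1034)
(fin 1103 0 1035))))))))))))))
(cons (mv 1034 (cons (cons (mv 969 (cons (fin 970 3 969)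
(mv 968 (cons (fin 1033 3 968)
(mv 1098 (cons (fin 1097 1 1033)
(mv 1038 (cons (fin 1099 1 1034)
(mv 1102 (cons (fin 1101 0 1034)
(fin 1103 0 1035)))))))))))
(mv 969 (cons (fin 970 3 969)
(mv 1033 (cons (fin 968 3 968)
(mv 1101 (cons (fin 1100 0 1033)
(fin 1102 0 1034))))))))
(cons (mv 1097 (cons (fin 1098 1 1033)
(mv 1033 (cons (fin 1096 1 1032)
(mv 1101 (cons (fin 1100 0 1033)
(fin 1102 0 1034)))))))
(cons (mv 969 (cons (fin 970 3 969)
(mv 1033 (cons (fin 968 3 968)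
(mv 1097 (cons (fin 1096 1 1032)
(fin 1098 1 1033)))))))
(mv 969 (cons (fin 970 3 969)
(mv 1098 (cons (fin 1097 1 1033)
(mv 1038 (cons (fin 1099 1 1034)
(mv 1102 (cons (fin 1101 0 1034)
(fin 1103 0 1035)))))))))))))
(mv 1034 (cons (cons (mv 969 (cons (fin 970 3 969)
(mv 968 (cons (fin 1033 3 968)
(mv 974 (cons (fin 973 2 970)
(mv 1038 (cons (fin 975 2 971)
(mv 1098 (cons (fin 1097 1 1033)
(fin 1099 1 1034)))))))))))
(mv 969 (cons (fin 970 3 969)
(mv 973 (cons (fin 974 2 970)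
(mv 1033 (cons (fin 968 3 968)
(fin 972 2 969))))))))
(cons (mv 973 (cons (fin 974 2 970)
(mv 972 (cons (fin 1033 2 969)
(mv 1098 (cons (fin 1097 1 1033)
(mv 1099 (cons (fin 1038 1 1034)
(mv 908 (cons (fin 844 5 843)
(mv 1163 (cons (fin 1100 5 907)
(fin 971 6 907)))))))))))))
(cons (mv 969 (cons (fin 970 3 969)
(mv 1033 (cons (fin 968 3 968)
(mv 1097 (cons (fin 1096 1 1032)
(fin 1098 1 1033)))))))
(mv 969 (cons (fin 970 3 969)
(mv 974 (cons (fin 973 2 970)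
(mv 1038 (cons (fin 975 2 971)
(mv 1098 (cons (fin 1097 1 1033)
(fin 1099 1 1034)))))))))))))))))
(mv 1035 (cons (cons (mv 1034 (cons (cons (mv 969 (cons (fin 970 3 969)
(mv 968 (cons (fin 1033 3 968)
(mv 973 (cons (fin 974 2 970)
(mv 1098 (cons (fin 1097 1 1033)
(mv 1038 (cons (fin 1099 1 1034)
(mv 1102 (cons (fin 1101 0 1034)
(fin 1103 0 1035)))))))))))))
(cons (mv 973 (cons (fin 974 2 970)
(mv 972 (cons (fin 1033 2 969)
(mv 1097 (cons (fin 1098 1 1033)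
(mv 1101 (cons (fin 1102 0 1034)
(mv 908 (cons (fin 1165 7 908)
(fin 844 4 844)))))))))))
(mv 969 (cons (fin 970 3 969)
(mv 968 (cons (fin 1033 3 968)
(mv 974 (cons (fin 973 2 970)
(mv 1038 (cons (fin 975 2 971)
(mv 1102 (cons (fin 1101 0 1034)
(fin 1103 0 1035)))))))))))))
(cons (mv 969 (cons (fin 970 3 969)
(mv 968 (cons (fin 1033 3 968)
(mv 974 (cons (fin 973 2 970)
(mv 1038 (cons (fin 975 2 971)
(mv 1098 (cons (fin 1097 1 1033)
(fin 1099 1 1034)))))))))))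
(cons (mv 969 (cons (fin 970 3 969)
(mv 968 (cons (fin 1033 3 968)
(mv 1098 (cons (fin 1097 1 1033)
(mv 1038 (cons (fin 1099 1 1034)
(mv 1102 (cons (fin 1101 0 1034)
(fin 1103 0 1035)))))))))))
(mv 969 (cons (fin 970 3 969)
(mv 973 (cons (fin 974 2 970)
(mv 1098 (cons (fin 1097 1 1033)
(mv 1038 (cons (fin 1099 1 1034)
(mv 1102 (cons (fin 1101 0 1034)
(fin 1103 0 1035)))))))))))))))
(cons (mv 1099 (cons (cons (mv 1098 (cons (fin 1038 1 1034)
(mv 1097 (cons (fin 1096 2 1032)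
(fin 1100 2 1033)))))
(mv 972 (cons (cons (mv 908 (cons (fin 844 5 843)
(mv 1163 (cons (fin 1100 5 907)
(fin 971 6 907)))))
(mv 1163 (cons (fin 1227 6 971)
(mv 971 (cons (mv 970 (cons (fin 969 0 969)
(fin 906 7 906)))
(mv 1162 (cons (fin 1226 5 970)
(mv 907 (cons (fin 1098 5 906)
(mv 843 (cons (fin 779 4 779)
(fin 1100 4 843))))))))))))
(cons (mv 908 (cons (fin 844 5 843)
(mv 1100 (cons (cons (mv 843 (cons (fin 907 7 843)
(mv 909 (cons (fin 845 6 844)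
(mv 1097 (cons (fin 1098 2 1033)
(mv 1101 (cons (fin 1165 4 908)
(mv 1102 (cons (fin 1103 3 1035)
(mv 1166 (cons (fin 1167 0 1099)
(fin 973 4 909)))))))))))))
(cons (mv 845 (cons (fin 909 6 844)
(mv 907 (cons (fin 843 7 843)
(mv 1098 (cons (fin 1097 2 1033)
(mv 971 (cons (fin 1162 5 906)
(mv 906 (cons (fin 842 7 842)
(mv 905 (cons (fin 904 0 904)
(fin 973 0 905)))))))))))))
(mv 909 (cons (fin 845 6 844)
(mv 1097 (cons (fin 1098 2 1033)
(mv 1101 (cons (fin 1165 4 908)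
(mv 1102 (cons (fin 1103 3 1035)
(mv 1166 (cons (fin 1167 0 1099)
(fin 973 4 909)))))))))))))
(cons (mv 843 (cons (fin 907 7 843)
(mv 909 (cons (fin 845 6 844)
(mv 1101 (cons (fin 1165 4 908)
(mv 1102 (cons (fin 1103 3 1035)
(mv 1166 (cons (fin 1167 0 1099)
(fin 973 4 909)))))))))))
(cons (mv 907 (cons (fin 843 7 843)
(mv 1098 (cons (fin 1097 2 1033)
(mv 971 (cons (fin 1162 5 906)
(mv 906 (cons (fin 842 7 842)
(mv 905 (cons (fin 904 0 904)
(fin 973 0 905)))))))))))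
(mv 845 (cons (fin 909 6 844)
(mv 907 (cons (fin 843 7 843)
(mv 1098 (cons (fin 1097 2 1033)
(mv 971 (cons (fin 1162 5 906)
(mv 906 (cons (fin 842 7 842)
(mv 905 (cons (fin 904 0 904)
(mv 969 (cons (fin 968 1 904)
(fin 970 0 969)))))))))))))))))))))
(cons (mv 908 (cons (fin 844 5 843)
(mv 1163 (cons (fin 1100 5 907)
(fin 1227 6 971)))))
(mv 908 (cons (fin 844 5 843)
(mv 1163 (cons (fin 971 6 907)
(fin 1227 6 971))))))))))
(cons (mv 971 (cons (mv 970 (cons (fin 1038 3 970)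
(mv 969 (cons (fin 968 0 968)
(fin 972 0 969)))))
(cons (mv 1163 (cons (mv 972 (cons (fin 908 6 907)
(fin 1227 6 971)))
(cons (mv 1226 (cons (fin 1162 5 970)
(mv 1227 (cons (fin 1290 5 1034)
(mv 1291 (cons (fin 1100 6 1035)
(mv 1292 (cons (fin 1228 4 1035)
(fin 1356 4 1099)))))))))
(mv 908 (cons (fin 972 6 907)
(mv 907 (cons (fin 844 6 843)
(mv 842 (cons (fin 906 7 842)
(mv 843 (cons (fin 778 7 778)
(fin 1100 4 843))))))))))))
(mv 970 (cons (fin 1038 3 970)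
(mv 906 (cons (fin 1163 7 906)
(mv 842 (cons (fin 907 7 842)
(fin 778 4 778))))))))))
(mv 1038 (cons (fin 1098 1 1034)
(mv 970 (cons (fin 971 3 970)
(mv 974 (cons (fin 975 2 971)
(mv 1102 (cons (fin 1103 0 1035)
(mv 910 (cons (mv 1101 (cons (fin 846 5 845)
(fin 1165 5 909)))
(cons (mv 845 (cons (fin 909 7 845)
(mv 846 (cons (fin 781 7 781)
(mv 847 (cons (fin 783 6 782)
(fin 911 6 846)))))))
(mv 845 (cons (fin 909 7 845)
(mv 847 (cons (fin 911 6 846)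
(mv 1165 (cons (fin 1101 5 909)
(mv 1166 (cons (fin 1229 5 973)
(mv 1230 (cons (fin 973 7 973)
(mv 1231 (cons (fin 1167 4 974)
(fin 1295 4 1038)))))))))))))))))))))))))))
(mv 1034 (cons (cons (mv 969 (cons (fin 970 3 969)
(mv 973 (cons (fin 974 2 970)
(mv 1033 (cons (fin 968 3 968)
(fin 972 2 969)))))))
(mv 969 (cons (fin 970 3 969)
(mv 1033 (cons (fin 968 3 968)
(mv 1097 (cons (fin 1096 1 1032)
(fin 1098 1 1033))))))))
(cons (mv 973 (cons (fin 974 2 970)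
(mv 972 (cons (fin 1033 2 969)
(mv 1097 (cons (fin 1098 1 1033)
(mv 1101 (cons (fin 1102 0 1034)
(mv 908 (cons (fin 1165 7 908)
(fin 844 4 844)))))))))))
(mv 969 (cons (fin 970 3 969)
(mv 973 (cons (fin 974 2 970)
(mv 1097 (cons (fin 1098 1 1033)
(mv 1101 (cons (fin 1102 0 1034)
(mv 1165 (cons (mv 972 (cons (fin 908 7 908)
(fin 1229 7 972)))
(cons (mv 1230 (cons (fin 1166 4 973)
(mv 1229 (cons (fin 1294 4 1037)
(mv 1292 (cons (fin 1228 5 1036)
(mv 1293 (cons (fin 1100 7 1036)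
(fin 1356 5 1100)))))))))
(mv 908 (cons (fin 972 7 908)
(mv 909 (cons (fin 844 7 844)
(mv 845 (cons (fin 1100 5 844)
(mv 846 (cons (fin 782 6 781)
(fin 910 6 845)))))))))))))))))))))))))
(cons (cons (mv 1034 (cons (cons (mv 973 (cons (fin 974 2 970)
(mv 972 (cons (fin 1033 2 969)
(mv 1097 (cons (fin 1098 1 1033)
(mv 1101 (cons (fin 1102 0 1034)
(mv 908 (cons (fin 1165 7 908)
(fin 844 4 844)))))))))))
(mv 973 (cons (fin 974 2 970)
(mv 972 (cons (fin 1033 2 969)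
(mv 1098 (cons (fin 1097 1 1033)
(mv 1099 (cons (fin 1038 1 1034)
(mv 908 (cons (fin 844 5 843)
(mv 1163 (cons (fin 1100 5 907)
(fin 971 6 907))))))))))))))
(cons (mv 973 (cons (fin 974 2 970)
(mv 972 (cons (fin 1033 2 969)
(mv 1101 (cons (fin 1102 0 1034)
(mv 908 (cons (fin 1165 7 908)
(fin 844 4 844)))))))))
(cons (mv 1097 (cons (fin 1098 1 1033)
(mv 1033 (cons (fin 1096 1 1032)
(mv 1101 (cons (fin 1100 0 1033)
(fin 1102 0 1034)))))))
(mv 973 (cons (fin 974 2 970)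
(mv 1098 (cons (fin 1097 1 1033)
(mv 1038 (cons (fin 1099 1 1034)
(mv 1102 (cons (fin 1101 0 1034)
(fin 1103 0 1035)))))))))))))
(mv 1034 (cons (cons (mv 969 (cons (fin 970 3 969)
(mv 968 (cons (fin 1033 3 968)
(mv 974 (cons (fin 973 2 970)
(mv 1038 (cons (fin 975 2 971)
(mv 1102 (cons (fin 1101 0 1034)
(fin 1103 0 1035)))))))))))
(mv 969 (cons (fin 970 3 969)
(mv 973 (cons (fin 974 2 970)
(mv 1033 (cons (fin 968 3 968)
(fin 972 2 969))))))))
(cons (mv 973 (cons (fin 974 2 970)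
(mv 972 (cons (fin 1033 2 969)
(mv 1101 (cons (fin 1102 0 1034)
(mv 908 (cons (fin 1165 7 908)
(fin 844 4 844)))))))))
(cons (mv 969 (cons (fin 970 3 969)
(mv 1033 (cons (fin 968 3 968)
(mv 1101 (cons (fin 1100 0 1033)
(fin 1102 0 1034)))))))
(mv 969 (cons (fin 970 3 969)
(mv 974 (cons (fin 973 2 970)
(mv 1038 (cons (fin 975 2 971)
(mv 1102 (cons (fin 1101 0 1034)
(fin 1103 0 1035))))))))))))))
(cons (mv 1034 (cons (cons (mv 969 (cons (fin 970 3 969)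
(mv 968 (cons (fin 1033 3 968)
(mv 1098 (cons (fin 1097 1 1033)
(mv 1038 (cons (fin 1099 1 1034)
(mv 1102 (cons (fin 1101 0 1034)
(fin 1103 0 1035)))))))))))
(mv 1097 (cons (fin 1098 1 1033)
(mv 1033 (cons (fin 1096 1 1032)
(mv 1101 (cons (fin 1100 0 1033)
(fin 1102 0 1034))))))))
(cons (mv 969 (cons (fin 970 3 969)
(mv 1033 (cons (fin 968 3 968)
(mv 1101 (cons (fin 1100 0 1033)
(fin 1102 0 1034)))))))
(cons (mv 969 (cons (fin 970 3 969)
(mv 1033 (cons (fin 968 3 968)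
(mv 1097 (cons (fin 1096 1 1032)
(fin 1098 1 1033)))))))
(mv 969 (cons (fin 970 3 969)
(mv 1098 (cons (fin 1097 1 1033)
(mv 1038 (cons (fin 1099 1 1034)
(mv 1102 (cons (fin 1101 0 1034)
(fin 1103 0 1035)))))))))))))
(mv 1034 (cons (cons (mv 969 (cons (fin 970 3 969)
(mv 968 (cons (fin 1033 3 968)
(mv 974 (cons (fin 973 2 970)
(mv 1038 (cons (fin 975 2 971)
(mv 1098 (cons (fin 1097 1 1033)
(fin 1099 1 1034)))))))))))
(mv 973 (cons (fin 974 2 970)
(mv 972 (cons (fin 1033 2 969)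
(mv 1098 (cons (fin 1097 1 1033)
(mv 1099 (cons (fin 1038 1 1034)
(mv 908 (cons (fin 844 5 843)
(mv 1163 (cons (fin 1100 5 907)
(fin 971 6 907))))))))))))))
(cons (mv 969 (cons (fin 970 3 969)
(mv 973 (cons (fin 974 2 970)
(mv 1033 (cons (fin 968 3 968)
(fin 972 2 969)))))))
(cons (mv 969 (cons (fin 970 3 969)
(mv 1033 (cons (fin 968 3 968)
(mv 1097 (cons (fin 1096 1 1032)
(fin 1098 1 1033)))))))
(mv 969 (cons (fin 970 3 969)
(mv 974 (cons (fin 973 2 970)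
(mv 1038 (cons (fin 975 2 971)
(mv 1098 (cons (fin 1097 1 1033)
(fin 1099 1 1034)))))))))))))))))))
(cons (cons (mv 1035 (cons (cons (mv 1034 (cons (cons (mv 969 (cons (fin 970 3 969)
(mv 968 (cons (fin 1033 3 968)
(mv 973 (cons (fin 974 2 970)
(mv 1098 (cons (fin 1097 1 1033)
(mv 1038 (cons (fin 1099 1 1034)
(mv 1102 (cons (fin 1101 0 1034)
(fin 1103 0 1035)))))))))))))
(cons (mv 973 (cons (fin 974 2 970)
(mv 972 (cons (fin 1033 2 969)
(mv 1098 (cons (fin 1097 1 1033)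
(mv 1038 (cons (fin 1099 1 1034)
(mv 1102 (cons (fin 1101 0 1034)
(fin 1103 0 1035)))))))))))
(mv 969 (cons (fin 970 3 969)
(mv 968 (cons (fin 1033 3 968)
(mv 974 (cons (fin 973 2 970)
(mv 1038 (cons (fin 975 2 971)
(mv 1102 (cons (fin 1101 0 1034)
(fin 1103 0 1035)))))))))))))
(cons (cons (mv 969 (cons (fin 970 3 969)
(mv 968 (cons (fin 1033 3 968)
(mv 1098 (cons (fin 1097 1 1033)
(mv 1038 (cons (fin 1099 1 1034)
(mv 1102 (cons (fin 1101 0 1034)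
(fin 1103 0 1035)))))))))))
(mv 969 (cons (fin 970 3 969)
(mv 968 (cons (fin 1033 3 968)
(mv 974 (cons (fin 973 2 970)
(mv 1038 (cons (fin 975 2 971)
(mv 1098 (cons (fin 1097 1 1033)
(fin 1099 1 1034))))))))))))
(cons (mv 969 (cons (fin 970 3 969)
(mv 973 (cons (fin 974 2 970)
(mv 1098 (cons (fin 1097 1 1033)
(mv 1038 (cons (fin 1099 1 1034)
(mv 1102 (cons (fin 1101 0 1034)
(fin 1103 0 1035)))))))))))
(mv 969 (cons (fin 970 3 969)
(mv 973 (cons (fin 974 2 970)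
(mv 1033 (cons (fin 968 3 968)
(fin 972 2 969)))))))))))
(cons (mv 971 (cons (cons (mv 970 (cons (fin 1038 3 970)
(mv 969 (cons (fin 968 0 968)
(fin 972 0 969)))))
(mv 1100 (cons (cons (mv 907 (cons (fin 843 4 843)
(mv 1164 (cons (fin 972 7 907)
(fin 1228 7 971)))))
(mv 907 (cons (fin 843 4 843)
(mv 1099 (cons (mv 1098 (cons (fin 1097 2 1033)
(fin 1162 5 906)))
(mv 842 (cons (fin 906 7 842)
(mv 908 (cons (fin 844 6 843)
(mv 972 (cons (fin 1163 5 907)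
(mv 909 (cons (fin 845 6 844)
(mv 910 (cons (fin 970 1 906)
(fin 911 1 907))))))))))))))))
(cons (mv 1164 (cons (fin 1228 7 971)
(mv 972 (cons (cons (mv 909 (cons (fin 973 6 908)
(mv 845 (cons (fin 908 6 844)
(mv 970 (cons (fin 969 0 969)
(mv 1163 (cons (fin 1227 5 971)
(mv 1099 (cons (fin 906 7 906)
(mv 1097 (cons (fin 1098 2 1033)
(mv 1162 (cons (fin 1226 5 970)
(mv 1101 (cons (fin 1102 1 1098)
(fin 1161 2 1097)))))))))))))))))
(mv 969 (cons (fin 970 0 969)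
(mv 1163 (cons (fin 1227 5 971)
(mv 908 (cons (fin 1099 5 907)
(mv 844 (cons (fin 780 5 779)
(fin 1101 4 844))))))))))
(cons (mv 909 (cons (fin 973 6 908)
(mv 908 (cons (fin 845 6 844)
(mv 844 (cons (fin 780 5 779)
(fin 1099 5 843)))))))
(cons (mv 909 (cons (fin 973 6 908)
(mv 970 (cons (fin 969 0 969)
(mv 1163 (cons (fin 1227 5 971)
(mv 1099 (cons (fin 906 7 906)
(mv 1097 (cons (fin 1098 2 1033)
(mv 1162 (cons (fin 1226 5 970)
(mv 1101 (cons (fin 1102 1 1098)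
(fin 1161 2 1097)))))))))))))))
(mv 909 (cons (fin 973 6 908)
(mv 908 (cons (fin 845 6 844)
(mv 844 (cons (fin 780 5 779)
(fin 1101 4 844)))))))))))))
(mv 907 (cons (fin 843 4 843)
(mv 1164 (cons (fin 1228 7 971)
(fin 1099 4 907)))))))))
(cons (mv 1100 (cons (cons (mv 907 (cons (fin 843 4 843)
(mv 1164 (cons (fin 972 7 907)
(fin 1228 7 971)))))
(mv 907 (cons (fin 843 4 843)
(mv 1099 (cons (mv 1098 (cons (fin 1038 1 1034)
(fin 1097 2 1033)))
(mv 842 (cons (fin 906 7 842)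
(mv 908 (cons (fin 844 6 843)
(mv 972 (cons (fin 1163 5 907)
(mv 909 (cons (fin 845 6 844)
(mv 910 (cons (fin 911 1 907)
(mv 846 (cons (fin 847 2 843)
(mv 973 (cons (fin 1101 6 845)
(mv 782 (cons (fin 718 5 717)
(fin 974 5 781))))))))))))))))))))))
(cons (mv 1164 (cons (fin 1228 7 971)
(mv 972 (cons (cons (mv 909 (cons (fin 973 6 908)
(mv 908 (cons (fin 845 6 844)
(mv 844 (cons (fin 780 5 779)
(fin 1099 5 843)))))))
(mv 1163 (cons (fin 1227 5 971)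
(mv 908 (cons (fin 1099 5 907)
(mv 844 (cons (fin 780 5 779)
(fin 1101 4 844))))))))
(cons (mv 909 (cons (fin 973 6 908)
(mv 908 (cons (fin 845 6 844)
(mv 844 (cons (fin 780 5 779)
(fin 1101 4 844)))))))
(mv 973 (cons (fin 909 6 908)
(mv 974 (cons (fin 975 1 971)
(mv 910 (cons (fin 911 2 907)
(mv 846 (cons (fin 782 5 781)
(mv 1101 (cons (fin 1038 5 845)
(mv 1102 (cons (fin 1103 3 1035)
(mv 1163 (cons (fin 1227 5 971)
(mv 1162 (cons (fin 1099 1 1098)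
(fin 1161 2 1097))))))))))))))))))))))
(mv 907 (cons (fin 843 4 843)
(mv 1164 (cons (fin 1228 7 971)
(fin 1099 4 907))))))))
(mv 970 (cons (fin 1038 3 970)
(mv 968 (cons (fin 969 0 968)
(mv 1099 (cons (cons (mv 906 (cons (fin 1163 7 906)
(mv 842 (cons (fin 907 7 842)
(fin 778 4 778)))))
(mv 907 (cons (mv 1100 (cons (fin 843 4 843)
(fin 1164 4 907)))
(cons (mv 842 (cons (fin 906 7 842)
(mv 843 (cons (fin 778 7 778)
(mv 844 (cons (fin 780 6 779)
(fin 908 6 843)))))))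
(mv 842 (cons (fin 906 7 842)
(mv 844 (cons (fin 908 6 843)
(mv 1098 (cons (fin 1162 5 906)
(mv 1097 (cons (fin 1096 2 1032)
(fin 1100 2 1033)))))))))))))
(cons (mv 1098 (cons (mv 1097 (cons (fin 1096 2 1032)
(fin 1100 2 1033)))
(cons (mv 907 (cons (fin 1162 5 906)
(mv 1100 (cons (fin 843 4 843)
(fin 1164 4 907)))))
(mv 1096 (cons (fin 1097 2 1032)
(mv 1162 (cons (fin 907 5 906)
(mv 1226 (cons (fin 1163 5 970)
(fin 1290 6 1034))))))))))
(mv 1163 (cons (fin 906 7 906)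
(mv 1162 (cons (fin 1226 5 970)
(mv 1228 (cons (fin 1164 4 971)
(mv 1227 (cons (fin 1292 4 1035)
(mv 1100 (cons (fin 1291 6 1035)
(mv 1098 (cons (fin 1097 2 1033)
(mv 1101 (cons (fin 1161 1 1097)
(fin 1102 1 1098)))))))))))))))))))))))))
(mv 1034 (cons (cons (mv 969 (cons (fin 970 3 969)
(mv 973 (cons (fin 974 2 970)
(mv 1033 (cons (fin 968 3 968)
(fin 972 2 969)))))))
(mv 969 (cons (fin 970 3 969)
(mv 1033 (cons (fin 968 3 968)
(mv 1097 (cons (fin 1096 1 1032)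
(fin 1098 1 1033))))))))
(cons (mv 973 (cons (fin 974 2 970)
(mv 1033 (cons (fin 972 2 969)
(mv 1097 (cons (fin 1096 1 1032)
(fin 1098 1 1033)))))))
(mv 969 (cons (fin 970 3 969)
(mv 973 (cons (fin 974 2 970)
(mv 1098 (cons (fin 1097 1 1033)
(mv 1101 (cons (fin 1102 0 1034)
(mv 909 (cons (mv 1100 (cons (fin 845 5 844)
(fin 1164 5 908)))
(cons (mv 844 (cons (fin 908 7 844)
(mv 845 (cons (fin 780 7 780)
(mv 846 (cons (fin 782 6 781)
(fin 910 6 845)))))))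
(mv 908 (cons (fin 844 7 844)
(mv 910 (cons (fin 846 6 845)
(mv 1100 (cons (fin 1164 5 908)
(mv 911 (cons (mv 972 (cons (fin 971 1 907)
(fin 912 1 908)))
(cons (mv 847 (cons (fin 848 2 844)
(mv 976 (cons (fin 975 0 908)
(mv 912 (cons (fin 977 0 909)
(fin 1104 7 847)))))))
(mv 847 (cons (fin 848 2 844)
(mv 971 (cons (fin 972 1 907)
(mv 907 (cons (fin 843 5 842)
(mv 1162 (cons (fin 1099 5 906)
(fin 1226 6 970))))))))))))))))))))))))))))))))))
(cons (cons (mv 1034 (cons (cons (mv 973 (cons (fin 974 2 970)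
(mv 972 (cons (fin 1033 2 969)
(mv 1098 (cons (fin 1097 1 1033)
(mv 1038 (cons (fin 1099 1 1034)
(mv 1102 (cons (fin 1101 0 1034)
(fin 1103 0 1035)))))))))))
(mv 1097 (cons (fin 1098 1 1033)
(mv 1033 (cons (fin 1096 1 1032)
(mv 1101 (cons (fin 1100 0 1033)
(fin 1102 0 1034))))))))
(cons (mv 973 (cons (fin 974 2 970)
(mv 1033 (cons (fin 972 2 969)
(mv 1101 (cons (fin 1100 0 1033)
(fin 1102 0 1034)))))))
(cons (mv 973 (cons (fin 974 2 970)
(mv 972 (cons (fin 1033 2 969)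
(mv 1098 (cons (fin 1097 1 1033)
(mv 1099 (cons (fin 1038 1 1034)
(mv 908 (cons (fin 844 5 843)
(mv 1163 (cons (fin 1100 5 907)
(fin 971 6 907)))))))))))))
(mv 973 (cons (fin 974 2 970)
(mv 1098 (cons (fin 1097 1 1033)
(mv 1038 (cons (fin 1099 1 1034)
(mv 1102 (cons (fin 1101 0 1034)
(fin 1103 0 1035)))))))))))))
(mv 1034 (cons (cons (mv 969 (cons (fin 970 3 969)
(mv 968 (cons (fin 1033 3 968)
(mv 974 (cons (fin 973 2 970)
(mv 1038 (cons (fin 975 2 971)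
(mv 1102 (cons (fin 1101 0 1034)
(fin 1103 0 1035)))))))))))
(mv 969 (cons (fin 970 3 969)
(mv 1033 (cons (fin 968 3 968)
(mv 1101 (cons (fin 1100 0 1033)
(fin 1102 0 1034))))))))
(cons (mv 973 (cons (fin 974 2 970)
(mv 1033 (cons (fin 972 2 969)
(mv 1101 (cons (fin 1100 0 1033)
(fin 1102 0 1034)))))))
(cons (mv 969 (cons (fin 970 3 969)
(mv 973 (cons (fin 974 2 970)
(mv 1033 (cons (fin 968 3 968)
(fin 972 2 969)))))))
(mv 969 (cons (fin 970 3 969)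
(mv 974 (cons (fin 973 2 970)
(mv 1038 (cons (fin 975 2 971)
(mv 1102 (cons (fin 1101 0 1034)
(fin 1103 0 1035))))))))))))))
(cons (mv 1034 (cons (cons (mv 969 (cons (fin 970 3 969)
(mv 968 (cons (fin 1033 3 968)
(mv 974 (cons (fin 973 2 970)
(mv 1038 (cons (fin 975 2 971)
(mv 1098 (cons (fin 1097 1 1033)
(fin 1099 1 1034)))))))))))
(mv 973 (cons (fin 974 2 970)
(mv 972 (cons (fin 1033 2 969)
(mv 1098 (cons (fin 1097 1 1033)
(mv 1099 (cons (fin 1038 1 1034)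
(mv 908 (cons (fin 844 5 843)
(mv 1163 (cons (fin 1100 5 907)
(fin 971 6 907))))))))))))))
(cons (mv 969 (cons (fin 970 3 969)
(mv 973 (cons (fin 974 2 970)
(mv 1033 (cons (fin 968 3 968)
(fin 972 2 969)))))))
(cons (mv 969 (cons (fin 970 3 969)
(mv 1033 (cons (fin 968 3 968)
(mv 1097 (cons (fin 1096 1 1032)
(fin 1098 1 1033)))))))
(mv 969 (cons (fin 970 3 969)
(mv 974 (cons (fin 973 2 970)
(mv 1038 (cons (fin 975 2 971)
(mv 1098 (cons (fin 1097 1 1033)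
(fin 1099 1 1034)))))))))))))
(mv 1034 (cons (cons (mv 969 (cons (fin 970 3 969)
(mv 968 (cons (fin 1033 3 968)
(mv 1098 (cons (fin 1097 1 1033)
(mv 1038 (cons (fin 1099 1 1034)
(mv 1102 (cons (fin 1101 0 1034)
(fin 1103 0 1035)))))))))))
(mv 1097 (cons (fin 1098 1 1033)
(mv 1033 (cons (fin 1096 1 1032)
(mv 1101 (cons (fin 1100 0 1033)
(fin 1102 0 1034))))))))
(cons (mv 969 (cons (fin 970 3 969)
(mv 1033 (cons (fin 968 3 968)
(mv 1101 (cons (fin 1100 0 1033)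
(fin 1102 0 1034)))))))
(cons (mv 969 (cons (fin 970 3 969)
(mv 1033 (cons (fin 968 3 968)
(mv 1097 (cons (fin 1096 1 1032)
(fin 1098 1 1033)))))))
(mv 969 (cons (fin 970 3 969)
(mv 1098 (cons (fin 1097 1 1033)
(mv 1038 (cons (fin 1099 1 1034)
(mv 1102 (cons (fin 1101 0 1034)
(fin 1103 0 1035)))))))))))))))))
(mv 1035 (cons (cons (mv 1034 (cons (cons (mv 969 (cons (fin 970 3 969)
(mv 968 (cons (fin 1033 3 968)
(mv 973 (cons (fin 974 2 970)
(mv 1098 (cons (fin 1097 1 1033)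
(mv 1038 (cons (fin 1099 1 1034)
(mv 1102 (cons (fin 1101 0 1034)
(fin 1103 0 1035)))))))))))))
(cons (mv 973 (cons (fin 974 2 970)
(mv 972 (cons (fin 1033 2 969)
(mv 1097 (cons (fin 1098 1 1033)
(mv 1101 (cons (fin 1102 0 1034)
(mv 1165 (cons (fin 908 7 908)
(fin 1229 7 972)))))))))))
(mv 969 (cons (fin 970 3 969)
(mv 968 (cons (fin 1033 3 968)
(mv 974 (cons (fin 973 2 970)
(mv 1038 (cons (fin 975 2 971)
(mv 1102 (cons (fin 1101 0 1034)
(fin 1103 0 1035)))))))))))))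
(cons (mv 969 (cons (fin 970 3 969)
(mv 968 (cons (fin 1033 3 968)
(mv 1098 (cons (fin 1097 1 1033)
(mv 1038 (cons (fin 1099 1 1034)
(mv 1102 (cons (fin 1101 0 1034)
(fin 1103 0 1035)))))))))))
(cons (mv 969 (cons (fin 970 3 969)
(mv 968 (cons (fin 1033 3 968)
(mv 974 (cons (fin 973 2 970)
(mv 1038 (cons (fin 975 2 971)
(mv 1098 (cons (fin 1097 1 1033)
(fin 1099 1 1034)))))))))))
(mv 969 (cons (fin 970 3 969)
(mv 973 (cons (fin 974 2 970)
(mv 1098 (cons (fin 1097 1 1033)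
(mv 1038 (cons (fin 1099 1 1034)
(mv 1102 (cons (fin 1101 0 1034)
(fin 1103 0 1035)))))))))))))))
(cons (mv 971 (cons (cons (mv 970 (cons (fin 1038 3 970)
(mv 969 (cons (fin 968 0 968)
(fin 972 0 969)))))
(mv 1100 (cons (cons (mv 907 (cons (fin 843 4 843)
(mv 1164 (cons (fin 972 7 907)
(fin 1228 7 971)))))
(mv 907 (cons (fin 843 4 843)
(mv 1099 (cons (mv 1098 (cons (fin 1097 2 1033)
(fin 1162 5 906)))
(mv 906 (cons (fin 842 7 842)
(mv 970 (cons (fin 1163 7 906)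
(mv 969 (cons (fin 968 0 968)
(fin 972 0 969))))))))))))
(cons (mv 1164 (cons (fin 1228 7 971)
(mv 972 (cons (cons (mv 909 (cons (fin 973 6 908)
(mv 845 (cons (fin 908 6 844)
(mv 970 (cons (fin 969 0 969)
(mv 1163 (cons (fin 1227 5 971)
(mv 1099 (cons (fin 906 7 906)
(mv 1097 (cons (fin 1098 2 1033)
(mv 1162 (cons (fin 1226 5 970)
(mv 1101 (cons (fin 1102 1 1098)
(fin 1161 2 1097)))))))))))))))))
(mv 909 (cons (fin 973 6 908)
(mv 908 (cons (fin 845 6 844)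
(mv 1165 (cons (fin 1101 4 908)
(fin 1229 4 972))))))))
(cons (mv 969 (cons (fin 970 0 969)
(mv 1163 (cons (fin 1227 5 971)
(mv 908 (cons (fin 1099 5 907)
(mv 1165 (cons (fin 1101 4 908)
(fin 1229 4 972)))))))))
(cons (mv 909 (cons (fin 973 6 908)
(mv 845 (cons (fin 908 6 844)
(mv 970 (cons (fin 969 0 969)
(mv 1163 (cons (fin 1227 5 971)
(mv 1099 (cons (fin 906 7 906)
(mv 1097 (cons (fin 1098 2 1033)
(mv 1162 (cons (fin 1226 5 970)
(mv 1161 (cons (fin 1096 3 1096)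
(fin 1160 2 1096)))))))))))))))))
(mv 909 (cons (fin 973 6 908)
(mv 970 (cons (fin 969 0 969)
(mv 1163 (cons (fin 1227 5 971)
(mv 1099 (cons (fin 906 7 906)
(mv 1097 (cons (fin 1098 2 1033)
(mv 1162 (cons (fin 1226 5 970)
(mv 1101 (cons (fin 1102 1 1098)
(fin 1161 2 1097)))))))))))))))))))))
(mv 907 (cons (fin 843 4 843)
(mv 1164 (cons (fin 1228 7 971)
(fin 1099 4 907)))))))))
(cons (mv 1099 (cons (mv 1098 (cons (fin 1038 1 1034)
(mv 1097 (cons (fin 1096 2 1032)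
(fin 1100 2 1033)))))
(cons (mv 1163 (cons (mv 972 (cons (fin 908 6 907)
(fin 1227 6 971)))
(mv 1162 (cons (fin 1226 5 970)
(mv 1164 (cons (fin 1228 4 971)
(mv 1100 (cons (fin 907 4 907)
(mv 1101 (cons (fin 1102 1 1098)
(fin 1161 2 1097)))))))))))
(mv 1098 (cons (fin 1038 1 1034)
(mv 907 (cons (fin 1162 5 906)
(mv 842 (cons (fin 906 7 842)
(mv 843 (cons (fin 778 7 778)
(mv 972 (cons (fin 779 4 779)
(mv 1163 (cons (fin 908 6 907)
(fin 1227 6 971))))))))))))))))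
(mv 970 (cons (fin 1038 3 970)
(mv 969 (cons (fin 968 0 968)
(mv 1099 (cons (cons (mv 906 (cons (fin 1163 7 906)
(mv 842 (cons (fin 907 7 842)
(fin 778 4 778)))))
(mv 1098 (cons (mv 1097 (cons (fin 1096 2 1032)
(fin 1100 2 1033)))
(cons (mv 907 (cons (fin 1162 5 906)
(mv 1100 (cons (fin 843 4 843)
(fin 1164 4 907)))))
(mv 1096 (cons (fin 1097 2 1032)
(mv 1162 (cons (fin 907 5 906)
(mv 1226 (cons (fin 1163 5 970)
(fin 1290 6 1034)))))))))))
(cons (mv 1098 (cons (mv 1097 (cons (fin 1096 2 1032)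
(fin 1100 2 1033)))
(cons (mv 907 (cons (fin 1162 5 906)
(mv 1100 (cons (fin 843 4 843)
(fin 1164 4 907)))))
(mv 1097 (cons (fin 1096 2 1032)
(mv 1162 (cons (fin 907 5 906)
(mv 1033 (cons (fin 905 4 905)
(mv 1161 (cons (fin 906 6 905)
(fin 1226 4 969))))))))))))
(mv 1163 (cons (fin 906 7 906)
(mv 1162 (cons (fin 1226 5 970)
(mv 1228 (cons (fin 1164 4 971)
(mv 1227 (cons (fin 1292 4 1035)
(mv 1100 (cons (fin 1291 6 1035)
(mv 1098 (cons (fin 1097 2 1033)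
(mv 1101 (cons (fin 1161 1 1097)
(fin 1102 1 1098)))))))))))))))))))))))))
(mv 1034 (cons (cons (mv 969 (cons (fin 970 3 969)
(mv 973 (cons (fin 974 2 970)
(mv 1033 (cons (fin 968 3 968)
(fin 972 2 969)))))))
(mv 969 (cons (fin 970 3 969)
(mv 1033 (cons (fin 968 3 968)
(mv 1097 (cons (fin 1096 1 1032)
(fin 1098 1 1033))))))))
(cons (mv 973 (cons (fin 974 2 970)
(mv 972 (cons (fin 1033 2 969)
(mv 1097 (cons (fin 1098 1 1033)
(mv 1101 (cons (fin 1102 0 1034)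
(mv 1165 (cons (fin 908 7 908)
(fin 1229 7 972)))))))))))
(mv 969 (cons (fin 970 3 969)
(mv 973 (cons (fin 974 2 970)
(mv 1097 (cons (fin 1098 1 1033)
(mv 1101 (cons (fin 1102 0 1034)
(mv 1165 (cons (mv 972 (cons (fin 908 7 908)
(fin 1229 7 972)))
(mv 1164 (cons (fin 1228 5 972)
(mv 1100 (cons (fin 909 5 908)
(mv 1166 (cons (fin 1230 4 973)
(mv 1167 (cons (fin 1099 3 1099)
(fin 1168 3 1100))))))))))))))))))))))))
(cons (cons (mv 1034 (cons (cons (mv 973 (cons (fin 974 2 970)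
(mv 972 (cons (fin 1033 2 969)
(mv 1097 (cons (fin 1098 1 1033)
(mv 1101 (cons (fin 1102 0 1034)
(mv 1165 (cons (fin 908 7 908)
(fin 1229 7 972)))))))))))
(mv 1097 (cons (fin 1098 1 1033)
(mv 1033 (cons (fin 1096 1 1032)
(mv 1101 (cons (fin 1100 0 1033)
(fin 1102 0 1034))))))))
(cons (mv 973 (cons (fin 974 2 970)
(mv 972 (cons (fin 1033 2 969)
(mv 1101 (cons (fin 1102 0 1034)
(mv 1165 (cons (fin 908 7 908)
(fin 1229 7 972)))))))))
(cons (mv 973 (cons (fin 974 2 970)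
(mv 972 (cons (fin 1033 2 969)
(mv 1098 (cons (fin 1097 1 1033)
(mv 1099 (cons (fin 1038 1 1034)
(mv 1163 (cons (fin 1227 6 971)
(mv 908 (cons (fin 1100 5 907)
(fin 971 6 907)))))))))))))
(mv 973 (cons (fin 974 2 970)
(mv 1098 (cons (fin 1097 1 1033)
(mv 1038 (cons (fin 1099 1 1034)
(mv 1102 (cons (fin 1101 0 1034)
(fin 1103 0 1035)))))))))))))
(mv 1034 (cons (cons (mv 969 (cons (fin 970 3 969)
(mv 968 (cons (fin 1033 3 968)
(mv 974 (cons (fin 973 2 970)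
(mv 1038 (cons (fin 975 2 971)
(mv 1102 (cons (fin 1101 0 1034)
(fin 1103 0 1035)))))))))))
(mv 969 (cons (fin 970 3 969)
(mv 1033 (cons (fin 968 3 968)
(mv 1101 (cons (fin 1100 0 1033)
(fin 1102 0 1034))))))))
(cons (mv 973 (cons (fin 974 2 970)
(mv 972 (cons (fin 1033 2 969)
(mv 1101 (cons (fin 1102 0 1034)
(mv 1165 (cons (fin 908 7 908)
(fin 1229 7 972)))))))))
(cons (mv 969 (cons (fin 970 3 969)
(mv 973 (cons (fin 974 2 970)
(mv 1033 (cons (fin 968 3 968)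
(fin 972 2 969)))))))
(mv 969 (cons (fin 970 3 969)
(mv 974 (cons (fin 973 2 970)
(mv 1038 (cons (fin 975 2 971)
(mv 1102 (cons (fin 1101 0 1034)
(fin 1103 0 1035))))))))))))))
(cons (mv 1034 (cons (cons (mv 969 (cons (fin 970 3 969)
(mv 968 (cons (fin 1033 3 968)
(mv 974 (cons (fin 973 2 970)
(mv 1038 (cons (fin 975 2 971)
(mv 1098 (cons (fin 1097 1 1033)
(fin 1099 1 1034)))))))))))
(mv 973 (cons (fin 974 2 970)
(mv 972 (cons (fin 1033 2 969)
(mv 1098 (cons (fin 1097 1 1033)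
(mv 1099 (cons (fin 1038 1 1034)
(mv 1163 (cons (fin 1227 6 971)
(mv 908 (cons (fin 1100 5 907)
(fin 971 6 907))))))))))))))
(cons (mv 969 (cons (fin 970 3 969)
(mv 973 (cons (fin 974 2 970)
(mv 1033 (cons (fin 968 3 968)
(fin 972 2 969)))))))
(cons (mv 969 (cons (fin 970 3 969)
(mv 1033 (cons (fin 968 3 968)
(mv 1097 (cons (fin 1096 1 1032)
(fin 1098 1 1033)))))))
(mv 969 (cons (fin 970 3 969)
(mv 974 (cons (fin 973 2 970)
(mv 1038 (cons (fin 975 2 971)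
(mv 1098 (cons (fin 1097 1 1033)
(fin 1099 1 1034)))))))))))))
(mv 1038 (cons (cons (mv 970 (cons (fin 971 3 970)
(mv 974 (cons (fin 975 2 971)
(mv 1034 (cons (fin 969 3 969)
(mv 1098 (cons (fin 1097 1 1033)
(fin 1099 1 1034)))))))))
(mv 970 (cons (fin 971 3 970)
(mv 974 (cons (fin 975 2 971)
(mv 1034 (cons (fin 969 3 969)
(mv 1102 (cons (fin 1101 0 1034)
(fin 1103 0 1035))))))))))
(cons (mv 974 (cons (fin 975 2 971)
(mv 1098 (cons (fin 1099 1 1034)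
(mv 1034 (cons (fin 1097 1 1033)
(mv 1102 (cons (fin 1101 0 1034)
(fin 1103 0 1035)))))))))
(cons (mv 970 (cons (fin 971 3 970)
(mv 1034 (cons (fin 969 3 969)
(mv 1098 (cons (fin 1097 1 1033)
(fin 1099 1 1034)))))))
(mv 970 (cons (fin 971 3 970)
(mv 974 (cons (fin 975 2 971)
(mv 1098 (cons (fin 1099 1 1034)
(mv 1102 (cons (fin 1103 0 1035)
(mv 910 (cons (mv 1101 (cons (fin 846 5 845)
(fin 1165 5 909)))
(cons (mv 845 (cons (fin 909 7 845)
(mv 846 (cons (fin 781 7 781)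
(mv 847 (cons (fin 783 6 782)
(fin 911 6 846)))))))
(mv 845 (cons (fin 909 7 845)
(mv 847 (cons (fin 911 6 846)
(mv 1166 (cons (cons (mv 1165 (cons (fin 1101 5 909)
(fin 1229 5 973)))
(mv 1231 (cons (fin 1167 4 974)
(mv 1230 (cons (fin 1295 4 1038)
(mv 1293 (cons (fin 1229 5 1037)
(mv 1294 (cons (fin 1101 7 1037)
(fin 1357 5 1101))))))))))
(cons (mv 1101 (cons (fin 1165 5 909)
(mv 1230 (cons (fin 1294 7 1037)
(mv 1231 (cons (fin 1167 4 974)
(fin 1295 4 1038)))))))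
(mv 1229 (cons (fin 1165 5 973)
(mv 1230 (cons (fin 1293 5 1037)
(mv 1231 (cons (fin 1167 4 974)
(fin 1295 4 1038))))))))))))))))))))))))))))))))))
(cons (mv 1035 (cons (cons (mv 1034 (cons (cons (mv 969 (cons (fin 970 3 969)
(mv 968 (cons (fin 1033 3 968)
(mv 973 (cons (fin 974 2 970)
(mv 1098 (cons (fin 1097 1 1033)
(mv 1038 (cons (fin 1099 1 1034)
(mv 1102 (cons (fin 1101 0 1034)
(fin 1103 0 1035)))))))))))))
(cons (mv 973 (cons (fin 974 2 970)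
(mv 972 (cons (fin 1033 2 969)
(mv 1097 (cons (fin 1098 1 1033)
(mv 1101 (cons (fin 1102 0 1034)
(mv 908 (cons (fin 1165 7 908)
(fin 844 4 844)))))))))))
(mv 969 (cons (fin 970 3 969)
(mv 968 (cons (fin 1033 3 968)
(mv 974 (cons (fin 973 2 970)
(mv 1038 (cons (fin 975 2 971)
(mv 1102 (cons (fin 1101 0 1034)
(fin 1103 0 1035)))))))))))))
(cons (mv 969 (cons (fin 970 3 969)
(mv 968 (cons (fin 1033 3 968)
(mv 974 (cons (fin 973 2 970)
(mv 1038 (cons (fin 975 2 971)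
(mv 1098 (cons (fin 1097 1 1033)
(fin 1099 1 1034)))))))))))
(cons (mv 969 (cons (fin 970 3 969)
(mv 968 (cons (fin 1033 3 968)
(mv 1098 (cons (fin 1097 1 1033)
(mv 1038 (cons (fin 1099 1 1034)
(mv 1102 (cons (fin 1101 0 1034)
(fin 1103 0 1035)))))))))))
(mv 969 (cons (fin 970 3 969)
(mv 973 (cons (fin 974 2 970)
(mv 1098 (cons (fin 1097 1 1033)
(mv 1038 (cons (fin 1099 1 1034)
(mv 1102 (cons (fin 1101 0 1034)
(fin 1103 0 1035)))))))))))))))
(cons (mv 971 (cons (cons (mv 970 (cons (fin 1038 3 970)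
(mv 969 (cons (fin 968 0 968)
(fin 972 0 969)))))
(mv 1100 (cons (cons (mv 907 (cons (fin 843 4 843)
(mv 1164 (cons (fin 972 7 907)
(fin 1228 7 971)))))
(mv 907 (cons (fin 843 4 843)
(mv 1099 (cons (mv 1098 (cons (fin 1097 2 1033)
(fin 1162 5 906)))
(mv 842 (cons (fin 906 7 842)
(mv 908 (cons (fin 844 6 843)
(mv 972 (cons (fin 1163 5 907)
(mv 970 (cons (fin 969 0 969)
(mv 909 (cons (fin 910 1 906)
(mv 1101 (cons (fin 1165 4 908)
(mv 1102 (cons (fin 1103 3 1035)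
(mv 1166 (cons (fin 1167 0 1099)
(fin 973 4 909))))))))))))))))))))))
(cons (mv 1164 (cons (fin 1228 7 971)
(mv 972 (cons (cons (mv 909 (cons (fin 973 6 908)
(mv 969 (cons (fin 970 0 969)
(mv 1163 (cons (fin 1227 5 971)
(mv 908 (cons (fin 1099 5 907)
(mv 844 (cons (fin 780 5 779)
(fin 1101 4 844)))))))))))
(cons (mv 909 (cons (fin 973 6 908)
(mv 969 (cons (fin 970 0 969)
(mv 1165 (cons (fin 1229 4 972)
(mv 908 (cons (fin 1101 4 908)
(mv 844 (cons (fin 780 5 779)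
(fin 1099 5 843)))))))))))
(mv 969 (cons (fin 970 0 969)
(mv 1163 (cons (fin 1227 5 971)
(mv 908 (cons (fin 1099 5 907)
(mv 844 (cons (fin 780 5 779)
(fin 1101 4 844)))))))))))
(cons (cons (mv 909 (cons (fin 973 6 908)
(mv 1163 (cons (fin 1227 5 971)
(mv 908 (cons (fin 1099 5 907)
(mv 844 (cons (fin 780 5 779)
(fin 1101 4 844)))))))))
(mv 909 (cons (fin 973 6 908)
(mv 970 (cons (fin 969 0 969)
(mv 1163 (cons (fin 1227 5 971)
(mv 1099 (cons (fin 906 7 906)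
(mv 1097 (cons (fin 1098 2 1033)
(mv 1162 (cons (fin 1226 5 970)
(mv 1101 (cons (fin 1102 1 1098)
(fin 1161 2 1097))))))))))))))))
(cons (mv 909 (cons (fin 973 6 908)
(mv 969 (cons (fin 970 0 969)
(mv 1163 (cons (fin 1227 5 971)
(mv 1165 (cons (fin 1229 4 972)
(mv 1101 (cons (fin 908 4 908)
(mv 1102 (cons (fin 1103 3 1035)
(fin 1162 2 1098)))))))))))))
(mv 909 (cons (fin 973 6 908)
(mv 969 (cons (fin 970 0 969)
(mv 1163 (cons (fin 1227 5 971)
(mv 1099 (cons (fin 908 5 907)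
(mv 1097 (cons (fin 1098 2 1033)
(mv 1162 (cons (fin 1226 5 970)
(mv 1161 (cons (fin 1096 3 1096)
(fin 1160 2 1096)))))))))))))))))))))
(mv 907 (cons (fin 843 4 843)
(mv 1164 (cons (fin 1228 7 971)
(fin 1099 4 907)))))))))
(cons (mv 1100 (cons (cons (mv 907 (cons (fin 843 4 843)
(mv 1164 (cons (fin 972 7 907)
(fin 1228 7 971)))))
(mv 907 (cons (fin 843 4 843)
(mv 1099 (cons (mv 1098 (cons (fin 1038 1 1034)
(fin 1097 2 1033)))
(cons (mv 842 (cons (fin 906 7 842)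
(mv 908 (cons (fin 844 6 843)
(mv 972 (cons (fin 1163 5 907)
(mv 1101 (cons (fin 1165 4 908)
(mv 1102 (cons (fin 1103 3 1035)
(mv 1166 (cons (fin 1167 0 1099)
(mv 909 (cons (fin 973 4 909)
(mv 910 (cons (fin 911 1 907)
(mv 846 (cons (fin 847 2 843)
(mv 974 (cons (fin 975 0 907)
(fin 1038 5 845)))))))))))))))))))))
(mv 1098 (cons (fin 1097 2 1033)
(fin 1162 5 906)))))))))
(cons (mv 1164 (cons (fin 1228 7 971)
(mv 972 (cons (cons (mv 909 (cons (fin 973 6 908)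
(mv 1163 (cons (fin 1227 5 971)
(mv 908 (cons (fin 1099 5 907)
(mv 844 (cons (fin 780 5 779)
(fin 1101 4 844)))))))))
(cons (mv 909 (cons (fin 973 6 908)
(mv 1165 (cons (fin 1229 4 972)
(mv 908 (cons (fin 1101 4 908)
(mv 844 (cons (fin 780 5 779)
(fin 1099 5 843)))))))))
(mv 1163 (cons (fin 1227 5 971)
(mv 908 (cons (fin 1099 5 907)
(mv 844 (cons (fin 780 5 779)
(fin 1101 4 844)))))))))
(cons (mv 909 (cons (fin 973 6 908)
(mv 1163 (cons (fin 1227 5 971)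
(mv 1165 (cons (fin 1229 4 972)
(mv 1101 (cons (fin 908 4 908)
(mv 1102 (cons (fin 1103 3 1035)
(fin 1162 2 1098)))))))))))
(cons (mv 973 (cons (fin 909 6 908)
(mv 974 (cons (fin 975 1 971)
(mv 910 (cons (fin 911 2 907)
(mv 1165 (cons (fin 1101 6 909)
(fin 1229 4 972)))))))))
(mv 909 (cons (fin 973 6 908)
(mv 1163 (cons (fin 1227 5 971)
(mv 1099 (cons (fin 908 5 907)
(mv 1098 (cons (fin 1038 1 1034)
(fin 1097 2 1033)))))))))))))))
(mv 907 (cons (fin 843 4 843)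
(mv 1164 (cons (fin 1228 7 971)
(fin 1099 4 907))))))))
(mv 970 (cons (fin 1038 3 970)
(mv 968 (cons (fin 969 0 968)
(mv 1099 (cons (cons (mv 906 (cons (fin 1163 7 906)
(mv 842 (cons (fin 907 7 842)
(fin 778 4 778)))))
(mv 907 (cons (mv 1100 (cons (fin 843 4 843)
(fin 1164 4 907)))
(cons (mv 842 (cons (fin 906 7 842)
(mv 843 (cons (fin 778 7 778)
(mv 844 (cons (fin 780 6 779)
(fin 908 6 843)))))))
(mv 842 (cons (fin 906 7 842)
(mv 844 (cons (fin 908 6 843)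
(mv 1098 (cons (fin 1162 5 906)
(mv 1097 (cons (fin 1096 2 1032)
(fin 1100 2 1033)))))))))))))
(cons (mv 1098 (cons (mv 1097 (cons (fin 1096 2 1032)
(fin 1100 2 1033)))
(cons (mv 907 (cons (fin 1162 5 906)
(mv 1100 (cons (fin 843 4 843)
(fin 1164 4 907)))))
(mv 1096 (cons (fin 1097 2 1032)
(mv 1162 (cons (fin 907 5 906)
(mv 1226 (cons (fin 1163 5 970)
(fin 1290 6 1034))))))))))
(mv 1163 (cons (fin 906 7 906)
(mv 1162 (cons (fin 1226 5 970)
(mv 1228 (cons (fin 1164 4 971)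
(mv 1227 (cons (fin 1292 4 1035)
(mv 1100 (cons (fin 1291 6 1035)
(mv 1098 (cons (fin 1097 2 1033)
(mv 1101 (cons (fin 1161 1 1097)
(fin 1102 1 1098)))))))))))))))))))))))))
(mv 1034 (cons (cons (mv 969 (cons (fin 970 3 969)
(mv 973 (cons (fin 974 2 970)
(mv 1033 (cons (fin 968 3 968)
(fin 972 2 969)))))))
(mv 969 (cons (fin 970 3 969)
(mv 1033 (cons (fin 968 3 968)
(mv 1097 (cons (fin 1096 1 1032)
(fin 1098 1 1033))))))))
(cons (mv 973 (cons (fin 974 2 970)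
(mv 972 (cons (fin 1033 2 969)
(mv 1097 (cons (fin 1098 1 1033)
(mv 1101 (cons (fin 1102 0 1034)
(mv 908 (cons (fin 1165 7 908)
(fin 844 4 844)))))))))))
(mv 969 (cons (fin 970 3 969)
(mv 973 (cons (fin 974 2 970)
(mv 1097 (cons (fin 1098 1 1033)
(mv 1101 (cons (fin 1102 0 1034)
(mv 1165 (cons (mv 972 (cons (fin 908 7 908)
(fin 1229 7 972)))
(mv 1164 (cons (fin 1228 5 972)
(mv 1100 (cons (fin 909 5 908)
(mv 1166 (cons (fin 1230 4 973)
(mv 1167 (cons (fin 1099 3 1099)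
(fin 1168 3 1100))))))))))))))))))))))))
(cons (cons (mv 1034 (cons (cons (mv 973 (cons (fin 974 2 970)
(mv 972 (cons (fin 1033 2 969)
(mv 1097 (cons (fin 1098 1 1033)
(mv 1101 (cons (fin 1102 0 1034)
(mv 908 (cons (fin 1165 7 908)
(fin 844 4 844)))))))))))
(mv 973 (cons (fin 974 2 970)
(mv 972 (cons (fin 1033 2 969)
(mv 1098 (cons (fin 1097 1 1033)
(mv 1099 (cons (fin 1038 1 1034)
(mv 908 (cons (fin 844 5 843)
(mv 1163 (cons (fin 1100 5 907)
(fin 971 6 907))))))))))))))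
(cons (mv 973 (cons (fin 974 2 970)
(mv 972 (cons (fin 1033 2 969)
(mv 1101 (cons (fin 1102 0 1034)
(mv 908 (cons (fin 1165 7 908)
(fin 844 4 844)))))))))
(cons (mv 1097 (cons (fin 1098 1 1033)
(mv 1033 (cons (fin 1096 1 1032)
(mv 1101 (cons (fin 1100 0 1033)
(fin 1102 0 1034)))))))
(mv 973 (cons (fin 974 2 970)
(mv 1098 (cons (fin 1097 1 1033)
(mv 1038 (cons (fin 1099 1 1034)
(mv 1102 (cons (fin 1101 0 1034)
(fin 1103 0 1035)))))))))))))
(mv 1034 (cons (cons (mv 969 (cons (fin 970 3 969)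
(mv 968 (cons (fin 1033 3 968)
(mv 974 (cons (fin 973 2 970)
(mv 1038 (cons (fin 975 2 971)
(mv 1102 (cons (fin 1101 0 1034)
(fin 1103 0 1035)))))))))))
(mv 969 (cons (fin 970 3 969)
(mv 973 (cons (fin 974 2 970)
(mv 1033 (cons (fin 968 3 968)
(fin 972 2 969))))))))
(cons (mv 973 (cons (fin 974 2 970)
(mv 972 (cons (fin 1033 2 969)
(mv 1101 (cons (fin 1102 0 1034)
(mv 908 (cons (fin 1165 7 908)
(fin 844 4 844)))))))))
(cons (mv 969 (cons (fin 970 3 969)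
(mv 1033 (cons (fin 968 3 968)
(mv 1101 (cons (fin 1100 0 1033)
(fin 1102 0 1034)))))))
(mv 969 (cons (fin 970 3 969)
(mv 974 (cons (fin 973 2 970)
(mv 1038 (cons (fin 975 2 971)
(mv 1102 (cons (fin 1101 0 1034)
(fin 1103 0 1035))))))))))))))
(cons (mv 1034 (cons (cons (mv 969 (cons (fin 970 3 969)
(mv 968 (cons (fin 1033 3 968)
(mv 1098 (cons (fin 1097 1 1033)
(mv 1038 (cons (fin 1099 1 1034)
(mv 1102 (cons (fin 1101 0 1034)
(fin 1103 0 1035)))))))))))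
(mv 1097 (cons (fin 1098 1 1033)
(mv 1033 (cons (fin 1096 1 1032)
(mv 1101 (cons (fin 1100 0 1033)
(fin 1102 0 1034))))))))
(cons (mv 969 (cons (fin 970 3 969)
(mv 1033 (cons (fin 968 3 968)
(mv 1101 (cons (fin 1100 0 1033)
(fin 1102 0 1034)))))))
(cons (mv 969 (cons (fin 970 3 969)
(mv 1033 (cons (fin 968 3 968)
(mv 1097 (cons (fin 1096 1 1032)
(fin 1098 1 1033)))))))
(mv 969 (cons (fin 970 3 969)
(mv 1098 (cons (fin 1097 1 1033)
(mv 1038 (cons (fin 1099 1 1034)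
(mv 1102 (cons (fin 1101 0 1034)
(fin 1103 0 1035)))))))))))))
(mv 1034 (cons (cons (mv 969 (cons (fin 970 3 969)
(mv 968 (cons (fin 1033 3 968)
(mv 974 (cons (fin 973 2 970)
(mv 1038 (cons (fin 975 2 971)
(mv 1098 (cons (fin 1097 1 1033)
(fin 1099 1 1034)))))))))))
(mv 973 (cons (fin 974 2 970)
(mv 972 (cons (fin 1033 2 969)
(mv 1098 (cons (fin 1097 1 1033)
(mv 1099 (cons (fin 1038 1 1034)
(mv 908 (cons (fin 844 5 843)
(mv 1163 (cons (fin 1100 5 907)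
(fin 971 6 907))))))))))))))
(cons (mv 969 (cons (fin 970 3 969)
(mv 973 (cons (fin 974 2 970)
(mv 1033 (cons (fin 968 3 968)
(fin 972 2 969)))))))
(cons (mv 969 (cons (fin 970 3 969)
(mv 1033 (cons (fin 968 3 968)
(mv 1097 (cons (fin 1096 1 1032)
(fin 1098 1 1033)))))))
(mv 969 (cons (fin 970 3 969)
(mv 974 (cons (fin 973 2 970)
(mv 1038 (cons (fin 975 2 971)
(mv 1098 (cons (fin 1097 1 1033)
(fin 1099 1 1034)))))))))))))))))
(mv 1035 (cons (cons (mv 1034 (cons (cons (mv 969 (cons (fin 970 3 969)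
(mv 968 (cons (fin 1033 3 968)
(mv 973 (cons (fin 974 2 970)
(mv 1098 (cons (fin 1097 1 1033)
(mv 1038 (cons (fin 1099 1 1034)
(mv 1102 (cons (fin 1101 0 1034)
(fin 1103 0 1035)))))))))))))
(cons (mv 973 (cons (fin 974 2 970)
(mv 972 (cons (fin 1033 2 969)
(mv 1097 (cons (fin 1098 1 1033)
(mv 1101 (cons (fin 1102 0 1034)
(mv 908 (cons (fin 1165 7 908)
(fin 844 4 844)))))))))))
(mv 969 (cons (fin 970 3 969)
(mv 968 (cons (fin 1033 3 968)
(mv 974 (cons (fin 973 2 970)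
(mv 1038 (cons (fin 975 2 971)
(mv 1102 (cons (fin 1101 0 1034)
(fin 1103 0 1035)))))))))))))
(cons (mv 969 (cons (fin 970 3 969)
(mv 968 (cons (fin 1033 3 968)
(mv 974 (cons (fin 973 2 970)
(mv 1038 (cons (fin 975 2 971)
(mv 1098 (cons (fin 1097 1 1033)
(fin 1099 1 1034)))))))))))
(cons (mv 969 (cons (fin 970 3 969)
(mv 968 (cons (fin 1033 3 968)
(mv 1098 (cons (fin 1097 1 1033)
(mv 1038 (cons (fin 1099 1 1034)
(mv 1102 (cons (fin 1101 0 1034)
(fin 1103 0 1035)))))))))))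
(mv 969 (cons (fin 970 3 969)
(mv 973 (cons (fin 974 2 970)
(mv 1098 (cons (fin 1097 1 1033)
(mv 1038 (cons (fin 1099 1 1034)
(mv 1102 (cons (fin 1101 0 1034)
(fin 1103 0 1035)))))))))))))))
(cons (mv 1099 (cons (cons (mv 1098 (cons (fin 1038 1 1034)
(mv 1097 (cons (fin 1096 2 1032)
(fin 1100 2 1033)))))
(mv 972 (cons (cons (mv 908 (cons (fin 844 5 843)
(mv 1163 (cons (fin 1100 5 907)
(fin 971 6 907)))))
(mv 1163 (cons (fin 1227 6 971)
(mv 971 (cons (mv 970 (cons (fin 969 0 969)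
(fin 906 7 906)))
(mv 1162 (cons (fin 1226 5 970)
(mv 907 (cons (fin 1098 5 906)
(mv 843 (cons (fin 779 4 779)
(fin 1100 4 843))))))))))))
(cons (mv 908 (cons (fin 844 5 843)
(mv 1100 (cons (cons (mv 843 (cons (fin 907 7 843)
(mv 909 (cons (fin 845 6 844)
(mv 973 (cons (fin 1164 6 908)
(mv 974 (cons (fin 975 1 971)
(mv 1097 (cons (fin 1098 2 1033)
(mv 1101 (cons (fin 1165 7 908)
(mv 1102 (cons (fin 1103 3 1035)
(fin 1166 4 909)))))))))))))))
(cons (mv 909 (cons (fin 845 6 844)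
(mv 973 (cons (fin 1164 6 908)
(mv 974 (cons (fin 975 1 971)
(mv 1097 (cons (fin 1098 2 1033)
(mv 1101 (cons (fin 1165 7 908)
(mv 1102 (cons (fin 1103 3 1035)
(fin 1166 4 909)))))))))))))
(mv 845 (cons (fin 909 6 844)
(mv 907 (cons (fin 843 7 843)
(mv 971 (cons (fin 1164 7 907)
(mv 1098 (cons (fin 1097 2 1033)
(fin 1162 5 906)))))))))))
(cons (mv 907 (cons (fin 843 7 843)
(mv 971 (cons (fin 1164 7 907)
(mv 1098 (cons (fin 1097 2 1033)
(fin 1162 5 906)))))))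
(cons (mv 843 (cons (fin 907 7 843)
(mv 909 (cons (fin 845 6 844)
(mv 973 (cons (fin 1164 6 908)
(mv 974 (cons (fin 975 1 971)
(mv 1101 (cons (fin 1165 7 908)
(mv 1102 (cons (fin 1103 3 1035)
(fin 1166 4 909)))))))))))))
(mv 843 (cons (fin 907 7 843)
(mv 909 (cons (fin 845 6 844)
(mv 1097 (cons (fin 1098 2 1033)
(mv 1101 (cons (fin 1165 4 908)
(mv 1102 (cons (fin 1103 3 1035)
(mv 1166 (cons (fin 1167 0 1099)
(fin 973 4 909)))))))))))))))))))
(cons (mv 908 (cons (fin 844 5 843)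
(mv 1163 (cons (fin 971 6 907)
(fin 1227 6 971)))))
(mv 908 (cons (fin 844 5 843)
(mv 1163 (cons (fin 1100 5 907)
(fin 1227 6 971))))))))))
(cons (mv 971 (cons (mv 970 (cons (fin 1038 3 970)
(mv 969 (cons (fin 968 0 968)
(fin 972 0 969)))))
(cons (mv 907 (cons (mv 1100 (cons (fin 843 4 843)
(fin 1164 4 907)))
(cons (mv 842 (cons (fin 906 7 842)
(mv 843 (cons (fin 778 7 778)
(mv 844 (cons (fin 780 6 779)
(fin 908 6 843)))))))
(mv 842 (cons (fin 906 7 842)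
(mv 908 (cons (fin 844 6 843)
(mv 972 (cons (fin 1163 6 907)
(mv 1100 (cons (fin 1164 7 907)
(mv 909 (cons (fin 845 6 844)
(mv 910 (cons (fin 911 1 907)
(mv 846 (cons (fin 847 2 843)
(mv 1101 (cons (fin 973 6 845)
(fin 1165 4 908))))))))))))))))))))
(mv 970 (cons (fin 1038 3 970)
(mv 906 (cons (fin 1163 7 906)
(mv 842 (cons (fin 907 7 842)
(fin 778 4 778))))))))))
(mv 1038 (cons (fin 1098 1 1034)
(mv 970 (cons (fin 971 3 970)
(mv 974 (cons (fin 975 2 971)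
(mv 1102 (cons (fin 1103 0 1035)
(mv 910 (cons (mv 1101 (cons (fin 846 5 845)
(fin 1165 5 909)))
(cons (mv 845 (cons (fin 909 7 845)
(mv 846 (cons (fin 781 7 781)
(mv 847 (cons (fin 783 6 782)
(fin 911 6 846)))))))
(mv 845 (cons (fin 909 7 845)
(mv 847 (cons (fin 911 6 846)
(mv 1165 (cons (fin 1101 5 909)
(mv 1166 (cons (fin 1229 5 973)
(mv 1230 (cons (fin 973 7 973)
(mv 1231 (cons (fin 1167 4 974)
(fin 1295 4 1038)))))))))))))))))))))))))))
(mv 1034 (cons (cons (mv 969 (cons (fin 970 3 969)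
(mv 973 (cons (fin 974 2 970)
(mv 1033 (cons (fin 968 3 968)
(fin 972 2 969)))))))
(mv 969 (cons (fin 970 3 969)
(mv 1033 (cons (fin 968 3 968)
(mv 1097 (cons (fin 1096 1 1032)
(fin 1098 1 1033))))))))
(cons (mv 973 (cons (fin 974 2 970)
(mv 972 (cons (fin 1033 2 969)
(mv 1097 (cons (fin 1098 1 1033)
(mv 1101 (cons (fin 1102 0 1034)
(mv 908 (cons (fin 1165 7 908)
(fin 844 4 844)))))))))))
(mv 969 (cons (fin 970 3 969)
(mv 973 (cons (fin 974 2 970)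
(mv 1097 (cons (fin 1098 1 1033)
(mv 1101 (cons (fin 1102 0 1034)
(mv 909 (cons (mv 1100 (cons (fin 845 5 844)
(fin 1164 5 908)))
(cons (mv 844 (cons (fin 908 7 844)
(mv 845 (cons (fin 780 7 780)
(mv 846 (cons (fin 782 6 781)
(fin 910 6 845)))))))
(mv 846 (cons (fin 910 6 845)
(mv 908 (cons (fin 844 7 844)
(mv 972 (cons (fin 1165 7 908)
(mv 1100 (cons (fin 1164 5 908)
(mv 907 (cons (fin 843 7 843)
(mv 906 (cons (fin 905 0 905)
(mv 842 (cons (fin 841 3 841)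
(mv 1099 (cons (fin 971 7 842)
(fin 1163 5 907)))))))))))))))))))))))))))))))))
(cons (cons (mv 1034 (cons (cons (mv 973 (cons (fin 974 2 970)
(mv 972 (cons (fin 1033 2 969)
(mv 1097 (cons (fin 1098 1 1033)
(mv 1101 (cons (fin 1102 0 1034)
(mv 908 (cons (fin 1165 7 908)
(fin 844 4 844)))))))))))
(mv 973 (cons (fin 974 2 970)
(mv 972 (cons (fin 1033 2 969)
(mv 1098 (cons (fin 1097 1 1033)
(mv 1099 (cons (fin 1038 1 1034)
(mv 908 (cons (fin 844 5 843)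
(mv 1163 (cons (fin 1100 5 907)
(fin 971 6 907))))))))))))))
(cons (mv 973 (cons (fin 974 2 970)
(mv 972 (cons (fin 1033 2 969)
(mv 1101 (cons (fin 1102 0 1034)
(mv 908 (cons (fin 1165 7 908)
(fin 844 4 844)))))))))
(cons (mv 1097 (cons (fin 1098 1 1033)
(mv 1033 (cons (fin 1096 1 1032)
(mv 1101 (cons (fin 1100 0 1033)
(fin 1102 0 1034)))))))
(mv 973 (cons (fin 974 2 970)
(mv 1098 (cons (fin 1097 1 1033)
(mv 1038 (cons (fin 1099 1 1034)
(mv 1102 (cons (fin 1101 0 1034)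
(fin 1103 0 1035)))))))))))))
(mv 1034 (cons (cons (mv 969 (cons (fin 970 3 969)
(mv 968 (cons (fin 1033 3 968)
(mv 974 (cons (fin 973 2 970)
(mv 1038 (cons (fin 975 2 971)
(mv 1102 (cons (fin 1101 0 1034)
(fin 1103 0 1035)))))))))))
(mv 969 (cons (fin 970 3 969)
(mv 973 (cons (fin 974 2 970)
(mv 1033 (cons (fin 968 3 968)
(fin 972 2 969))))))))
(cons (mv 973 (cons (fin 974 2 970)
(mv 972 (cons (fin 1033 2 969)
(mv 1101 (cons (fin 1102 0 1034)
(mv 908 (cons (fin 1165 7 908)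
(fin 844 4 844)))))))))
(cons (mv 969 (cons (fin 970 3 969)
(mv 1033 (cons (fin 968 3 968)
(mv 1101 (cons (fin 1100 0 1033)
(fin 1102 0 1034)))))))
(mv 969 (cons (fin 970 3 969)
(mv 974 (cons (fin 973 2 970)
(mv 1038 (cons (fin 975 2 971)
(mv 1102 (cons (fin 1101 0 1034)
(fin 1103 0 1035))))))))))))))
(cons (mv 1034 (cons (cons (mv 969 (cons (fin 970 3 969)
(mv 968 (cons (fin 1033 3 968)
(mv 1098 (cons (fin 1097 1 1033)
(mv 1038 (cons (fin 1099 1 1034)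
(mv 1102 (cons (fin 1101 0 1034)
(fin 1103 0 1035)))))))))))
(mv 1097 (cons (fin 1098 1 1033)
(mv 1033 (cons (fin 1096 1 1032)
(mv 1101 (cons (fin 1100 0 1033)
(fin 1102 0 1034))))))))
(cons (mv 969 (cons (fin 970 3 969)
(mv 1033 (cons (fin 968 3 968)
(mv 1101 (cons (fin 1100 0 1033)
(fin 1102 0 1034)))))))
(cons (mv 969 (cons (fin 970 3 969)
(mv 1033 (cons (fin 968 3 968)
(mv 1097 (cons (fin 1096 1 1032)
(fin 1098 1 1033)))))))
(mv 969 (cons (fin 970 3 969)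
(mv 1098 (cons (fin 1097 1 1033)
(mv 1038 (cons (fin 1099 1 1034)
(mv 1102 (cons (fin 1101 0 1034)
(fin 1103 0 1035)))))))))))))
(mv 1034 (cons (cons (mv 969 (cons (fin 970 3 969)
(mv 968 (cons (fin 1033 3 968)
(mv 974 (cons (fin 973 2 970)
(mv 1038 (cons (fin 975 2 971)
(mv 1098 (cons (fin 1097 1 1033)
(fin 1099 1 1034)))))))))))
(mv 973 (cons (fin 974 2 970)
(mv 972 (cons (fin 1033 2 969)
(mv 1098 (cons (fin 1097 1 1033)
(mv 1099 (cons (fin 1038 1 1034)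
(mv 908 (cons (fin 844 5 843)
(mv 1163 (cons (fin 1100 5 907)
(fin 971 6 907))))))))))))))
(cons (mv 969 (cons (fin 970 3 969)
(mv 973 (cons (fin 974 2 970)
(mv 1033 (cons (fin 968 3 968)
(fin 972 2 969)))))))
(cons (mv 969 (cons (fin 970 3 969)
(mv 1033 (cons (fin 968 3 968)
(mv 1097 (cons (fin 1096 1 1032)
(fin 1098 1 1033)))))))
(mv 969 (cons (fin 970 3 969)
(mv 974 (cons (fin 973 2 970)
(mv 1038 (cons (fin 975 2 971)
(mv 1098 (cons (fin 1097 1 1033)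
(fin 1099 1 1034))))))))))))))))))))
(cons (cons (cons (mv 1035 (cons (cons (mv 1034 (cons (cons (mv 969 (cons (fin 970 3 969)
(mv 968 (cons (fin 1033 3 968)
(mv 973 (cons (fin 974 2 970)
(mv 1098 (cons (fin 1097 1 1033)
(mv 1038 (cons (fin 1099 1 1034)
(mv 1102 (cons (fin 1101 0 1034)
(fin 1103 0 1035)))))))))))))
(cons (mv 969 (cons (fin 970 3 969)
(mv 968 (cons (fin 1033 3 968)
(mv 1098 (cons (fin 1097 1 1033)
(mv 1038 (cons (fin 1099 1 1034)
(mv 1102 (cons (fin 1101 0 1034)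
(fin 1103 0 1035)))))))))))
(mv 969 (cons (fin 970 3 969)
(mv 968 (cons (fin 1033 3 968)
(mv 974 (cons (fin 973 2 970)
(mv 1038 (cons (fin 975 2 971)
(mv 1098 (cons (fin 1097 1 1033)
(fin 1099 1 1034)))))))))))))
(cons (mv 973 (cons (fin 974 2 970)
(mv 972 (cons (fin 1033 2 969)
(mv 1097 (cons (fin 1098 1 1033)
(mv 1101 (cons (fin 1102 0 1034)
(mv 908 (cons (fin 1165 7 908)
(fin 844 4 844)))))))))))
(cons (mv 969 (cons (fin 970 3 969)
(mv 968 (cons (fin 1033 3 968)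
(mv 974 (cons (fin 973 2 970)
(mv 1038 (cons (fin 975 2 971)
(mv 1102 (cons (fin 1101 0 1034)
(fin 1103 0 1035)))))))))))
(mv 969 (cons (fin 970 3 969)
(mv 973 (cons (fin 974 2 970)
(mv 1098 (cons (fin 1097 1 1033)
(mv 1038 (cons (fin 1099 1 1034)
(mv 1102 (cons (fin 1101 0 1034)
(fin 1103 0 1035)))))))))))))))
(cons (mv 1099 (cons (cons (mv 1098 (cons (fin 1038 1 1034)
(mv 1097 (cons (fin 1096 2 1032)
(fin 1100 2 1033)))))
(mv 972 (cons (cons (mv 908 (cons (fin 844 5 843)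
(mv 1163 (cons (fin 1100 5 907)
(fin 971 6 907)))))
(mv 1163 (cons (fin 1227 6 971)
(mv 971 (cons (mv 970 (cons (fin 969 0 969)
(fin 906 7 906)))
(mv 1162 (cons (fin 1226 5 970)
(mv 907 (cons (fin 1098 5 906)
(mv 1164 (cons (fin 1100 7 907)
(fin 1228 4 971))))))))))))
(cons (mv 908 (cons (fin 844 5 843)
(mv 1100 (cons (cons (mv 845 (cons (fin 909 6 844)
(mv 1097 (cons (fin 1098 2 1033)
(mv 1165 (cons (fin 1101 4 908)
(mv 1164 (cons (fin 1229 4 972)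
(mv 971 (cons (fin 907 7 907)
(fin 1228 7 971)))))))))))
(mv 909 (cons (fin 845 6 844)
(mv 973 (cons (fin 1164 6 908)
(mv 974 (cons (fin 975 1 971)
(mv 907 (cons (fin 906 0 906)
(mv 1098 (cons (fin 1097 2 1033)
(mv 971 (cons (fin 1162 5 906)
(mv 910 (cons (fin 970 1 906)
(fin 911 1 907))))))))))))))))
(cons (mv 1097 (cons (fin 1098 2 1033)
(mv 1165 (cons (fin 1101 4 908)
(mv 1164 (cons (fin 1229 4 972)
(mv 971 (cons (fin 907 7 907)
(fin 1228 7 971)))))))))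
(cons (mv 845 (cons (fin 909 6 844)
(mv 1165 (cons (fin 1101 4 908)
(mv 1164 (cons (fin 1229 4 972)
(mv 971 (cons (fin 907 7 907)
(fin 1228 7 971)))))))))
(mv 909 (cons (fin 845 6 844)
(mv 1097 (cons (fin 1098 2 1033)
(mv 1101 (cons (fin 1165 4 908)
(mv 1102 (cons (fin 1103 3 1035)
(mv 1166 (cons (fin 1167 0 1099)
(fin 973 4 909)))))))))))))))))
(cons (mv 908 (cons (fin 844 5 843)
(mv 1163 (cons (fin 971 6 907)
(fin 1227 6 971)))))
(mv 908 (cons (fin 844 5 843)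
(mv 1163 (cons (fin 1100 5 907)
(fin 1227 6 971))))))))))
(cons (mv 972 (cons (cons (mv 908 (cons (fin 844 5 843)
(mv 1163 (cons (fin 1100 5 907)
(fin 971 6 907)))))
(mv 1163 (cons (fin 1227 6 971)
(mv 971 (cons (mv 970 (cons (fin 1038 3 970)
(fin 969 0 969)))
(cons (mv 1162 (cons (fin 1226 5 970)
(mv 1164 (cons (fin 1228 4 971)
(mv 907 (cons (fin 1100 7 907)
(mv 906 (cons (fin 842 7 842)
(mv 904 (cons (fin 905 0 904)
(mv 974 (cons (fin 973 3 906)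
(mv 1038 (cons (fin 975 2 971)
(mv 1102 (cons (fin 1103 0 1035)
(mv 1165 (cons (fin 1101 2 1098)
(mv 1229 (cons (fin 1230 0 1162)
(fin 1166 5 973)))))))))))))))))))))
(mv 970 (cons (fin 969 0 969)
(fin 906 7 906)))))))))
(cons (mv 908 (cons (fin 844 5 843)
(mv 1100 (cons (cons (mv 845 (cons (fin 909 6 844)
(mv 1101 (cons (fin 1165 4 908)
(mv 1102 (cons (fin 1103 3 1035)
(mv 1166 (cons (fin 1167 0 1099)
(mv 1230 (cons (fin 1294 7 1037)
(mv 1038 (cons (fin 973 7 973)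
(mv 971 (cons (fin 970 3 970)
(mv 1164 (cons (fin 907 7 907)
(fin 1228 7 971)))))))))))))))))
(mv 909 (cons (fin 845 6 844)
(mv 1164 (cons (fin 973 6 908)
(mv 971 (cons (fin 907 7 907)
(fin 1228 7 971))))))))
(cons (mv 1101 (cons (fin 1165 4 908)
(mv 1102 (cons (fin 1103 3 1035)
(mv 1166 (cons (fin 1167 0 1099)
(mv 1230 (cons (fin 1294 7 1037)
(mv 1038 (cons (fin 973 7 973)
(mv 971 (cons (fin 970 3 970)
(mv 1164 (cons (fin 907 7 907)
(fin 1228 7 971)))))))))))))))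
(cons (mv 909 (cons (fin 845 6 844)
(mv 1101 (cons (fin 1165 4 908)
(mv 1102 (cons (fin 1103 3 1035)
(mv 1166 (cons (fin 1167 0 1099)
(fin 973 4 909)))))))))
(mv 845 (cons (fin 909 6 844)
(mv 1165 (cons (fin 1101 4 908)
(mv 1164 (cons (fin 1229 4 972)
(mv 971 (cons (fin 907 7 907)
(fin 1228 7 971)))))))))))))))
(cons (mv 908 (cons (fin 844 5 843)
(mv 1163 (cons (fin 1100 5 907)
(fin 1227 6 971)))))
(mv 908 (cons (fin 844 5 843)
(mv 1163 (cons (fin 971 6 907)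
(fin 1227 6 971)))))))))
(mv 1038 (cons (fin 1098 1 1034)
(mv 970 (cons (fin 971 3 970)
(mv 974 (cons (fin 975 2 971)
(mv 1102 (cons (fin 1103 0 1035)
(mv 1166 (cons (mv 973 (cons (fin 909 7 909)
(fin 1230 7 973)))
(cons (mv 1165 (cons (fin 1229 5 973)
(mv 910 (cons (fin 1101 5 909)
(mv 845 (cons (fin 909 7 845)
(mv 846 (cons (fin 781 7 781)
(mv 847 (cons (fin 783 6 782)
(fin 911 6 846)))))))))))
(mv 973 (cons (fin 1230 7 973)
(mv 1165 (cons (fin 1229 5 973)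
(mv 910 (cons (fin 1101 5 909)
(mv 846 (cons (fin 782 5 781)
(mv 847 (cons (fin 783 6 782)
(fin 911 6 846)))))))))))))))))))))))))
(mv 1034 (cons (cons (mv 969 (cons (fin 970 3 969)
(mv 973 (cons (fin 974 2 970)
(mv 1033 (cons (fin 968 3 968)
(fin 972 2 969)))))))
(mv 969 (cons (fin 970 3 969)
(mv 1033 (cons (fin 968 3 968)
(mv 1097 (cons (fin 1096 1 1032)
(fin 1098 1 1033))))))))
(cons (mv 973 (cons (fin 974 2 970)
(mv 972 (cons (fin 1033 2 969)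
(mv 1097 (cons (fin 1098 1 1033)
(mv 1101 (cons (fin 1102 0 1034)
(mv 908 (cons (fin 1165 7 908)
(fin 844 4 844)))))))))))
(mv 969 (cons (fin 970 3 969)
(mv 973 (cons (fin 974 2 970)
(mv 1097 (cons (fin 1098 1 1033)
(mv 1101 (cons (fin 1102 0 1034)
(mv 1165 (cons (mv 972 (cons (fin 908 7 908)
(fin 1229 7 972)))
(cons (mv 1164 (cons (fin 1228 5 972)
(mv 909 (cons (fin 1100 5 908)
(mv 844 (cons (fin 908 7 844)
(mv 845 (cons (fin 780 7 780)
(mv 846 (cons (fin 782 6 781)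
(fin 910 6 845)))))))))))
(mv 972 (cons (fin 1229 7 972)
(mv 1164 (cons (fin 1228 5 972)
(mv 909 (cons (fin 1100 5 908)
(mv 845 (cons (fin 781 5 780)
(mv 846 (cons (fin 782 6 781)
(fin 910 6 845)))))))))))))))))))))))))))
(cons (cons (mv 1034 (cons (cons (mv 973 (cons (fin 974 2 970)
(mv 972 (cons (fin 1033 2 969)
(mv 1097 (cons (fin 1098 1 1033)
(mv 1101 (cons (fin 1102 0 1034)
(mv 908 (cons (fin 1165 7 908)
(fin 844 4 844)))))))))))
(mv 973 (cons (fin 974 2 970)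
(mv 972 (cons (fin 1033 2 969)
(mv 1098 (cons (fin 1097 1 1033)
(mv 1099 (cons (fin 1038 1 1034)
(mv 908 (cons (fin 844 5 843)
(mv 1163 (cons (fin 1100 5 907)
(fin 971 6 907))))))))))))))
(cons (mv 1097 (cons (fin 1098 1 1033)
(mv 1033 (cons (fin 1096 1 1032)
(mv 1101 (cons (fin 1100 0 1033)
(fin 1102 0 1034)))))))
(cons (mv 973 (cons (fin 974 2 970)
(mv 972 (cons (fin 1033 2 969)
(mv 1101 (cons (fin 1102 0 1034)
(mv 908 (cons (fin 1165 7 908)
(fin 844 4 844)))))))))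
(mv 973 (cons (fin 974 2 970)
(mv 1098 (cons (fin 1097 1 1033)
(mv 1038 (cons (fin 1099 1 1034)
(mv 1102 (cons (fin 1101 0 1034)
(fin 1103 0 1035)))))))))))))
(mv 1034 (cons (cons (mv 969 (cons (fin 970 3 969)
(mv 968 (cons (fin 1033 3 968)
(mv 1098 (cons (fin 1097 1 1033)
(mv 1038 (cons (fin 1099 1 1034)
(mv 1102 (cons (fin 1101 0 1034)
(fin 1103 0 1035)))))))))))
(mv 1097 (cons (fin 1098 1 1033)
(mv 1033 (cons (fin 1096 1 1032)
(mv 1101 (cons (fin 1100 0 1033)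
(fin 1102 0 1034))))))))
(cons (mv 969 (cons (fin 970 3 969)
(mv 1033 (cons (fin 968 3 968)
(mv 1097 (cons (fin 1096 1 1032)
(fin 1098 1 1033)))))))
(cons (mv 969 (cons (fin 970 3 969)
(mv 1033 (cons (fin 968 3 968)
(mv 1101 (cons (fin 1100 0 1033)
(fin 1102 0 1034)))))))
(mv 969 (cons (fin 970 3 969)
(mv 1098 (cons (fin 1097 1 1033)
(mv 1038 (cons (fin 1099 1 1034)
(mv 1102 (cons (fin 1101 0 1034)
(fin 1103 0 1035))))))))))))))
(cons (mv 1034 (cons (cons (mv 969 (cons (fin 970 3 969)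
(mv 968 (cons (fin 1033 3 968)
(mv 974 (cons (fin 973 2 970)
(mv 1038 (cons (fin 975 2 971)
(mv 1098 (cons (fin 1097 1 1033)
(fin 1099 1 1034)))))))))))
(mv 973 (cons (fin 974 2 970)
(mv 972 (cons (fin 1033 2 969)
(mv 1098 (cons (fin 1097 1 1033)
(mv 1099 (cons (fin 1038 1 1034)
(mv 908 (cons (fin 844 5 843)
(mv 1163 (cons (fin 1100 5 907)
(fin 971 6 907))))))))))))))
(cons (mv 969 (cons (fin 970 3 969)
(mv 1033 (cons (fin 968 3 968)
(mv 1097 (cons (fin 1096 1 1032)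
(fin 1098 1 1033)))))))
(cons (mv 969 (cons (fin 970 3 969)
(mv 973 (cons (fin 974 2 970)
(mv 1033 (cons (fin 968 3 968)
(fin 972 2 969)))))))
(mv 969 (cons (fin 970 3 969)
(mv 974 (cons (fin 973 2 970)
(mv 1038 (cons (fin 975 2 971)
(mv 1098 (cons (fin 1097 1 1033)
(fin 1099 1 1034)))))))))))))
(mv 1034 (cons (cons (mv 969 (cons (fin 970 3 969)
(mv 968 (cons (fin 1033 3 968)
(mv 974 (cons (fin 973 2 970)
(mv 1038 (cons (fin 975 2 971)
(mv 1102 (cons (fin 1101 0 1034)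
(fin 1103 0 1035)))))))))))
(mv 969 (cons (fin 970 3 969)
(mv 1033 (cons (fin 968 3 968)
(mv 1101 (cons (fin 1100 0 1033)
(fin 1102 0 1034))))))))
(cons (mv 969 (cons (fin 970 3 969)
(mv 973 (cons (fin 974 2 970)
(mv 1033 (cons (fin 968 3 968)
(fin 972 2 969)))))))
(cons (mv 973 (cons (fin 974 2 970)
(mv 972 (cons (fin 1033 2 969)
(mv 1101 (cons (fin 1102 0 1034)
(mv 908 (cons (fin 1165 7 908)
(fin 844 4 844)))))))))
(mv 969 (cons (fin 970 3 969)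
(mv 974 (cons (fin 973 2 970)
(mv 1038 (cons (fin 975 2 971)
(mv 1102 (cons (fin 1101 0 1034)
(fin 1103 0 1035)))))))))))))))))
(mv 1035 (cons (cons (mv 1034 (cons (cons (mv 969 (cons (fin 970 3 969)
(mv 968 (cons (fin 1033 3 968)
(mv 973 (cons (fin 974 2 970)
(mv 1098 (cons (fin 1097 1 1033)
(mv 1038 (cons (fin 1099 1 1034)
(mv 1102 (cons (fin 1101 0 1034)
(fin 1103 0 1035)))))))))))))
(cons (mv 969 (cons (fin 970 3 969)
(mv 968 (cons (fin 1033 3 968)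
(mv 974 (cons (fin 973 2 970)
(mv 1038 (cons (fin 975 2 971)
(mv 1098 (cons (fin 1097 1 1033)
(fin 1099 1 1034)))))))))))
(mv 969 (cons (fin 970 3 969)
(mv 968 (cons (fin 1033 3 968)
(mv 1098 (cons (fin 1097 1 1033)
(mv 1038 (cons (fin 1099 1 1034)
(mv 1102 (cons (fin 1101 0 1034)
(fin 1103 0 1035)))))))))))))
(cons (mv 973 (cons (fin 974 2 970)
(mv 972 (cons (fin 1033 2 969)
(mv 1097 (cons (fin 1098 1 1033)
(mv 1101 (cons (fin 1102 0 1034)
(mv 908 (cons (fin 1165 7 908)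
(fin 844 4 844)))))))))))
(cons (mv 969 (cons (fin 970 3 969)
(mv 968 (cons (fin 1033 3 968)
(mv 974 (cons (fin 973 2 970)
(mv 1038 (cons (fin 975 2 971)
(mv 1102 (cons (fin 1101 0 1034)
(fin 1103 0 1035)))))))))))
(mv 969 (cons (fin 970 3 969)
(mv 973 (cons (fin 974 2 970)
(mv 1098 (cons (fin 1097 1 1033)
(mv 1038 (cons (fin 1099 1 1034)
(mv 1102 (cons (fin 1101 0 1034)
(fin 1103 0 1035)))))))))))))))
(cons (mv 1099 (cons (cons (mv 1098 (cons (fin 1038 1 1034)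
(mv 1097 (cons (fin 1096 2 1032)
(fin 1100 2 1033)))))
(mv 972 (cons (cons (mv 908 (cons (fin 844 5 843)
(mv 1163 (cons (fin 1100 5 907)
(fin 971 6 907)))))
(mv 1163 (cons (fin 1227 6 971)
(mv 971 (cons (mv 970 (cons (fin 969 0 969)
(fin 906 7 906)))
(mv 1162 (cons (fin 1226 5 970)
(mv 1164 (cons (fin 1228 4 971)
(mv 1100 (cons (mv 1101 (cons (fin 1102 1 1098)
(fin 1161 2 1097)))
(cons (mv 909 (cons (fin 973 6 908)
(mv 1097 (cons (fin 1098 2 1033)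
(mv 1161 (cons (fin 1096 3 1096)
(fin 1160 2 1096)))))))
(mv 909 (cons (fin 973 6 908)
(mv 1097 (cons (fin 1098 2 1033)
(mv 1102 (cons (fin 1101 1 1098)
(mv 1165 (cons (fin 1229 4 972)
(mv 1166 (cons (fin 1167 3 1099)
(fin 1103 2 1099)))))))))))))))))))))))
(cons (mv 908 (cons (fin 844 5 843)
(mv 1100 (cons (cons (mv 845 (cons (fin 909 6 844)
(mv 1097 (cons (fin 1098 2 1033)
(mv 1165 (cons (fin 1101 4 908)
(mv 1164 (cons (fin 1229 4 972)
(mv 1228 (cons (fin 971 7 971)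
(fin 1292 7 1035)))))))))))
(mv 909 (cons (fin 845 6 844)
(mv 1097 (cons (fin 1098 2 1033)
(mv 1164 (cons (fin 973 6 908)
(mv 1228 (cons (fin 971 7 971)
(fin 1292 7 1035))))))))))
(cons (mv 1097 (cons (fin 1098 2 1033)
(mv 1165 (cons (fin 1101 4 908)
(mv 1164 (cons (fin 1229 4 972)
(mv 1228 (cons (fin 971 7 971)
(fin 1292 7 1035)))))))))
(cons (mv 845 (cons (fin 909 6 844)
(mv 1165 (cons (fin 1101 4 908)
(mv 1164 (cons (fin 1229 4 972)
(mv 1228 (cons (fin 971 7 971)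
(fin 1292 7 1035)))))))))
(mv 909 (cons (fin 845 6 844)
(mv 1097 (cons (fin 1098 2 1033)
(mv 1101 (cons (fin 1165 4 908)
(mv 1102 (cons (fin 1103 3 1035)
(mv 1166 (cons (fin 1167 0 1099)
(fin 973 4 909)))))))))))))))))
(cons (mv 908 (cons (fin 844 5 843)
(mv 1163 (cons (fin 971 6 907)
(fin 1227 6 971)))))
(mv 908 (cons (fin 844 5 843)
(mv 1163 (cons (fin 1100 5 907)
(fin 1227 6 971))))))))))
(cons (mv 972 (cons (cons (mv 908 (cons (fin 844 5 843)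
(mv 1163 (cons (fin 1100 5 907)
(fin 971 6 907)))))
(mv 1163 (cons (fin 1227 6 971)
(mv 971 (cons (mv 970 (cons (fin 1038 3 970)
(fin 969 0 969)))
(cons (mv 1162 (cons (fin 1226 5 970)
(mv 1164 (cons (fin 1228 4 971)
(mv 1100 (cons (cons (mv 1101 (cons (fin 1102 1 1098)
(fin 1161 2 1097)))
(mv 973 (cons (fin 909 6 908)
(mv 974 (cons (fin 975 1 971)
(mv 910 (cons (fin 911 2 907)
(mv 782 (cons (fin 846 5 781)
(mv 1160 (cons (fin 1161 2 1096)
(mv 1165 (cons (fin 1229 4 972)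
(mv 1166 (cons (fin 1167 3 1099)
(mv 1102 (cons (fin 1103 2 1099)
(mv 1230 (cons (fin 1231 0 1163)
(fin 1038 7 973))))))))))))))))))))
(cons (mv 909 (cons (fin 973 6 908)
(mv 1102 (cons (fin 1101 1 1098)
(mv 1103 (cons (fin 1038 0 1035)
(mv 1165 (cons (fin 1166 2 1099)
(fin 1229 4 972)))))))))
(mv 1161 (cons (fin 1160 2 1096)
(fin 1101 2 1097))))))))))
(mv 970 (cons (fin 969 0 969)
(fin 906 7 906)))))))))
(cons (mv 908 (cons (fin 844 5 843)
(mv 1100 (cons (cons (mv 845 (cons (fin 909 6 844)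
(mv 1165 (cons (fin 1101 4 908)
(mv 1164 (cons (fin 1229 4 972)
(mv 1228 (cons (fin 971 7 971)
(fin 1292 7 1035)))))))))
(mv 909 (cons (fin 845 6 844)
(mv 1164 (cons (fin 973 6 908)
(mv 1228 (cons (fin 971 7 971)
(fin 1292 7 1035))))))))
(cons (mv 1165 (cons (fin 1101 4 908)
(mv 1164 (cons (fin 1229 4 972)
(mv 1228 (cons (fin 971 7 971)
(fin 1292 7 1035)))))))
(mv 909 (cons (fin 845 6 844)
(mv 1101 (cons (fin 1165 4 908)
(mv 1102 (cons (fin 1103 3 1035)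
(mv 1166 (cons (fin 1167 0 1099)
(fin 973 4 909))))))))))))))
(cons (mv 908 (cons (fin 844 5 843)
(mv 1163 (cons (fin 1100 5 907)
(fin 1227 6 971)))))
(mv 908 (cons (fin 844 5 843)
(mv 1163 (cons (fin 971 6 907)
(fin 1227 6 971)))))))))
(mv 1038 (cons (fin 1098 1 1034)
(mv 971 (cons (fin 970 3 970)
(mv 974 (cons (fin 975 2 971)
(mv 1102 (cons (fin 1103 0 1035)
(mv 910 (cons (mv 1101 (cons (fin 846 5 845)
(fin 1165 5 909)))
(cons (mv 845 (cons (fin 909 7 845)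
(mv 781 (cons (fin 846 7 781)
(mv 911 (cons (fin 847 6 846)
(mv 972 (cons (fin 973 2 907)
(mv 908 (cons (fin 844 5 843)
(fin 1163 6 907)))))))))))
(mv 845 (cons (fin 909 7 845)
(mv 847 (cons (fin 911 6 846)
(mv 1165 (cons (fin 1101 5 909)
(mv 1166 (cons (fin 1229 5 973)
(mv 1230 (cons (fin 973 7 973)
(mv 1231 (cons (fin 1167 4 974)
(fin 1295 4 1038)))))))))))))))))))))))))))
(mv 1034 (cons (cons (mv 969 (cons (fin 970 3 969)
(mv 973 (cons (fin 974 2 970)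
(mv 1033 (cons (fin 968 3 968)
(fin 972 2 969)))))))
(mv 969 (cons (fin 970 3 969)
(mv 1033 (cons (fin 968 3 968)
(mv 1097 (cons (fin 1096 1 1032)
(fin 1098 1 1033))))))))
(cons (mv 973 (cons (fin 974 2 970)
(mv 972 (cons (fin 1033 2 969)
(mv 1097 (cons (fin 1098 1 1033)
(mv 1101 (cons (fin 1102 0 1034)
(mv 908 (cons (fin 1165 7 908)
(fin 844 4 844)))))))))))
(mv 969 (cons (fin 970 3 969)
(mv 973 (cons (fin 974 2 970)
(mv 1097 (cons (fin 1098 1 1033)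
(mv 1101 (cons (fin 1102 0 1034)
(mv 1165 (cons (mv 972 (cons (fin 908 7 908)
(fin 1229 7 972)))
(cons (mv 1164 (cons (fin 1228 5 972)
(mv 909 (cons (fin 1100 5 908)
(mv 844 (cons (fin 908 7 844)
(mv 845 (cons (fin 780 7 780)
(mv 846 (cons (fin 782 6 781)
(fin 910 6 845)))))))))))
(mv 972 (cons (fin 1229 7 972)
(mv 1164 (cons (fin 1228 5 972)
(mv 909 (cons (fin 1100 5 908)
(mv 845 (cons (fin 781 5 780)
(mv 846 (cons (fin 782 6 781)
(fin 910 6 845)))))))))))))))))))))))))))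
(cons (cons (mv 1034 (cons (cons (mv 973 (cons (fin 974 2 970)
(mv 972 (cons (fin 1033 2 969)
(mv 1097 (cons (fin 1098 1 1033)
(mv 1101 (cons (fin 1102 0 1034)
(mv 908 (cons (fin 1165 7 908)
(fin 844 4 844)))))))))))
(mv 973 (cons (fin 974 2 970)
(mv 972 (cons (fin 1033 2 969)
(mv 1098 (cons (fin 1097 1 1033)
(mv 1099 (cons (fin 1038 1 1034)
(mv 908 (cons (fin 844 5 843)
(mv 1163 (cons (fin 1100 5 907)
(fin 971 6 907))))))))))))))
(cons (mv 1097 (cons (fin 1098 1 1033)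
(mv 1033 (cons (fin 1096 1 1032)
(mv 1101 (cons (fin 1100 0 1033)
(fin 1102 0 1034)))))))
(cons (mv 973 (cons (fin 974 2 970)
(mv 972 (cons (fin 1033 2 969)
(mv 1101 (cons (fin 1102 0 1034)
(mv 908 (cons (fin 1165 7 908)
(fin 844 4 844)))))))))
(mv 973 (cons (fin 974 2 970)
(mv 1098 (cons (fin 1097 1 1033)
(mv 1038 (cons (fin 1099 1 1034)
(mv 1102 (cons (fin 1101 0 1034)
(fin 1103 0 1035)))))))))))))
(mv 1034 (cons (cons (mv 969 (cons (fin 970 3 969)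
(mv 968 (cons (fin 1033 3 968)
(mv 974 (cons (fin 973 2 970)
(mv 1038 (cons (fin 975 2 971)
(mv 1098 (cons (fin 1097 1 1033)
(fin 1099 1 1034)))))))))))
(mv 973 (cons (fin 974 2 970)
(mv 972 (cons (fin 1033 2 969)
(mv 1098 (cons (fin 1097 1 1033)
(mv 1099 (cons (fin 1038 1 1034)
(mv 908 (cons (fin 844 5 843)
(mv 1163 (cons (fin 1100 5 907)
(fin 971 6 907))))))))))))))
(cons (mv 969 (cons (fin 970 3 969)
(mv 1033 (cons (fin 968 3 968)
(mv 1097 (cons (fin 1096 1 1032)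
(fin 1098 1 1033)))))))
(cons (mv 969 (cons (fin 970 3 969)
(mv 973 (cons (fin 974 2 970)
(mv 1033 (cons (fin 968 3 968)
(fin 972 2 969)))))))
(mv 969 (cons (fin 970 3 969)
(mv 974 (cons (fin 973 2 970)
(mv 1038 (cons (fin 975 2 971)
(mv 1098 (cons (fin 1097 1 1033)
(fin 1099 1 1034))))))))))))))
(cons (mv 1034 (cons (cons (mv 969 (cons (fin 970 3 969)
(mv 968 (cons (fin 1033 3 968)
(mv 1098 (cons (fin 1097 1 1033)
(mv 1038 (cons (fin 1099 1 1034)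
(mv 1102 (cons (fin 1101 0 1034)
(fin 1103 0 1035)))))))))))
(mv 1097 (cons (fin 1098 1 1033)
(mv 1033 (cons (fin 1096 1 1032)
(mv 1101 (cons (fin 1100 0 1033)
(fin 1102 0 1034))))))))
(cons (mv 969 (cons (fin 970 3 969)
(mv 1033 (cons (fin 968 3 968)
(mv 1097 (cons (fin 1096 1 1032)
(fin 1098 1 1033)))))))
(cons (mv 969 (cons (fin 970 3 969)
(mv 1033 (cons (fin 968 3 968)
(mv 1101 (cons (fin 1100 0 1033)
(fin 1102 0 1034)))))))
(mv 969 (cons (fin 970 3 969)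
(mv 1098 (cons (fin 1097 1 1033)
(mv 1038 (cons (fin 1099 1 1034)
(mv 1102 (cons (fin 1101 0 1034)
(fin 1103 0 1035)))))))))))))
(mv 1034 (cons (cons (mv 969 (cons (fin 970 3 969)
(mv 968 (cons (fin 1033 3 968)
(mv 974 (cons (fin 973 2 970)
(mv 1038 (cons (fin 975 2 971)
(mv 1102 (cons (fin 1101 0 1034)
(fin 1103 0 1035)))))))))))
(mv 969 (cons (fin 970 3 969)
(mv 1033 (cons (fin 968 3 968)
(mv 1101 (cons (fin 1100 0 1033)
(fin 1102 0 1034))))))))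
(cons (mv 969 (cons (fin 970 3 969)
(mv 973 (cons (fin 974 2 970)
(mv 1033 (cons (fin 968 3 968)
(fin 972 2 969)))))))
(cons (mv 973 (cons (fin 974 2 970)
(mv 972 (cons (fin 1033 2 969)
(mv 1101 (cons (fin 1102 0 1034)
(mv 908 (cons (fin 1165 7 908)
(fin 844 4 844)))))))))
(mv 969 (cons (fin 970 3 969)
(mv 974 (cons (fin 973 2 970)
(mv 1038 (cons (fin 975 2 971)
(mv 1102 (cons (fin 1101 0 1034)
(fin 1103 0 1035))))))))))))))))))
(cons (mv 1035 (cons (cons (cons (mv 1034 (cons (cons (mv 969 (cons (fin 970 3 969)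
(mv 973 (cons (fin 974 2 970)
(mv 1098 (cons (fin 1097 1 1033)
(mv 1038 (cons (fin 1099 1 1034)
(mv 1102 (cons (fin 1101 0 1034)
(fin 1103 0 1035)))))))))))
(cons (mv 973 (cons (fin 974 2 970)
(mv 1098 (cons (fin 1097 1 1033)
(mv 1038 (cons (fin 1099 1 1034)
(mv 1102 (cons (fin 1101 0 1034)
(fin 1103 0 1035)))))))))
(mv 969 (cons (fin 970 3 969)
(mv 974 (cons (fin 973 2 970)
(mv 1038 (cons (fin 975 2 971)
(mv 1102 (cons (fin 1101 0 1034)
(fin 1103 0 1035)))))))))))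
(cons (mv 969 (cons (fin 970 3 969)
(mv 1098 (cons (fin 1097 1 1033)
(mv 1038 (cons (fin 1099 1 1034)
(mv 1102 (cons (fin 1101 0 1034)
(fin 1103 0 1035)))))))))
(cons (mv 969 (cons (fin 970 3 969)
(mv 974 (cons (fin 973 2 970)
(mv 1038 (cons (fin 975 2 971)
(mv 1098 (cons (fin 1097 1 1033)
(fin 1099 1 1034)))))))))
(mv 969 (cons (fin 970 3 969)
(mv 973 (cons (fin 974 2 970)
(mv 1097 (cons (fin 1098 1 1033)
(mv 1101 (cons (fin 1102 0 1034)
(mv 909 (cons (mv 1100 (cons (fin 845 5 844)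
(fin 1164 5 908)))
(cons (mv 844 (cons (fin 908 7 844)
(mv 845 (cons (fin 780 7 780)
(mv 846 (cons (fin 782 6 781)
(fin 910 6 845)))))))
(mv 844 (cons (fin 908 7 844)
(mv 846 (cons (fin 910 6 845)
(mv 1164 (cons (fin 1100 5 908)
(mv 1165 (cons (fin 1228 5 972)
(mv 1229 (cons (fin 972 7 972)
(mv 1230 (cons (fin 1166 4 973)
(fin 1294 4 1037))))))))))))))))))))))))))))
(mv 971 (cons (cons (mv 970 (cons (fin 1038 3 970)
(mv 969 (cons (fin 968 0 968)
(fin 972 0 969)))))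
(mv 1100 (cons (cons (mv 907 (cons (fin 843 4 843)
(mv 1164 (cons (fin 972 7 907)
(fin 1228 7 971)))))
(mv 907 (cons (fin 843 4 843)
(mv 1099 (cons (mv 1098 (cons (fin 1097 2 1033)
(fin 1162 5 906)))
(mv 842 (cons (fin 906 7 842)
(mv 908 (cons (fin 844 6 843)
(mv 972 (cons (fin 1163 5 907)
(mv 909 (cons (fin 845 6 844)
(mv 910 (cons (fin 970 1 906)
(fin 911 1 907))))))))))))))))
(cons (mv 1164 (cons (fin 1228 7 971)
(mv 972 (cons (cons (mv 909 (cons (fin 973 6 908)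
(mv 845 (cons (fin 908 6 844)
(mv 970 (cons (fin 969 0 969)
(mv 1163 (cons (fin 1227 5 971)
(mv 1099 (cons (fin 906 7 906)
(mv 1097 (cons (fin 1098 2 1033)
(mv 1162 (cons (fin 1226 5 970)
(mv 1101 (cons (fin 1102 1 1098)
(fin 1161 2 1097)))))))))))))))))
(mv 969 (cons (fin 970 0 969)
(mv 1163 (cons (fin 1227 5 971)
(mv 908 (cons (fin 1099 5 907)
(mv 844 (cons (fin 780 5 779)
(fin 1101 4 844))))))))))
(cons (mv 909 (cons (fin 973 6 908)
(mv 908 (cons (fin 845 6 844)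
(mv 844 (cons (fin 780 5 779)
(fin 1099 5 843)))))))
(cons (mv 909 (cons (fin 973 6 908)
(mv 970 (cons (fin 969 0 969)
(mv 1163 (cons (fin 1227 5 971)
(mv 1099 (cons (fin 906 7 906)
(mv 1097 (cons (fin 1098 2 1033)
(mv 1162 (cons (fin 1226 5 970)
(mv 1101 (cons (fin 1102 1 1098)
(fin 1161 2 1097)))))))))))))))
(mv 909 (cons (fin 973 6 908)
(mv 908 (cons (fin 845 6 844)
(mv 844 (cons (fin 780 5 779)
(fin 1101 4 844)))))))))))))
(mv 907 (cons (fin 843 4 843)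
(mv 1164 (cons (fin 1228 7 971)
(fin 1099 4 907)))))))))
(cons (mv 1100 (cons (cons (mv 907 (cons (fin 843 4 843)
(mv 1164 (cons (fin 972 7 907)
(fin 1228 7 971)))))
(mv 907 (cons (fin 843 4 843)
(mv 1099 (cons (mv 1098 (cons (fin 1038 1 1034)
(fin 1097 2 1033)))
(mv 842 (cons (fin 906 7 842)
(mv 908 (cons (fin 844 6 843)
(mv 972 (cons (fin 1163 5 907)
(mv 909 (cons (fin 845 6 844)
(mv 910 (cons (fin 911 1 907)
(mv 846 (cons (fin 847 2 843)
(mv 1101 (cons (fin 973 6 845)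
(fin 1165 4 908))))))))))))))))))))
(cons (mv 1164 (cons (fin 1228 7 971)
(mv 972 (cons (mv 909 (cons (fin 973 6 908)
(mv 908 (cons (fin 845 6 844)
(mv 844 (cons (fin 780 5 779)
(fin 1099 5 843)))))))
(cons (mv 1163 (cons (fin 1227 5 971)
(mv 908 (cons (fin 1099 5 907)
(mv 844 (cons (fin 780 5 779)
(fin 1101 4 844)))))))
(mv 973 (cons (fin 909 6 908)
(mv 974 (cons (fin 975 1 971)
(mv 910 (cons (fin 911 2 907)
(mv 1165 (cons (fin 1101 6 909)
(fin 1229 4 972))))))))))))))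
(mv 907 (cons (fin 843 4 843)
(mv 1164 (cons (fin 1228 7 971)
(fin 1099 4 907))))))))
(mv 970 (cons (fin 1038 3 970)
(mv 968 (cons (fin 969 0 968)
(mv 1099 (cons (cons (mv 906 (cons (fin 1163 7 906)
(mv 842 (cons (fin 907 7 842)
(fin 778 4 778)))))
(mv 907 (cons (mv 1100 (cons (fin 843 4 843)
(fin 1164 4 907)))
(cons (mv 842 (cons (fin 906 7 842)
(mv 843 (cons (fin 778 7 778)
(mv 844 (cons (fin 780 6 779)
(fin 908 6 843)))))))
(mv 842 (cons (fin 906 7 842)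
(mv 844 (cons (fin 908 6 843)
(mv 1098 (cons (fin 1162 5 906)
(mv 1097 (cons (fin 1096 2 1032)
(fin 1100 2 1033)))))))))))))
(cons (mv 1098 (cons (mv 1097 (cons (fin 1096 2 1032)
(fin 1100 2 1033)))
(cons (mv 907 (cons (fin 1162 5 906)
(mv 1100 (cons (fin 843 4 843)
(fin 1164 4 907)))))
(mv 1096 (cons (fin 1097 2 1032)
(mv 1162 (cons (fin 907 5 906)
(mv 1226 (cons (fin 1163 5 970)
(fin 1290 6 1034))))))))))
(mv 1163 (cons (fin 906 7 906)
(mv 1162 (cons (fin 1226 5 970)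
(mv 1228 (cons (fin 1164 4 971)
(mv 1227 (cons (fin 1292 4 1035)
(mv 1100 (cons (fin 1291 6 1035)
(mv 1098 (cons (fin 1097 2 1033)
(mv 1101 (cons (fin 1161 1 1097)
(fin 1102 1 1098))))))))))))))))))))))))))
(cons (mv 1034 (cons (cons (mv 969 (cons (fin 970 3 969)
(mv 973 (cons (fin 974 2 970)
(mv 1097 (cons (fin 1098 1 1033)
(mv 1101 (cons (fin 1102 0 1034)
(mv 909 (cons (mv 1100 (cons (fin 845 5 844)
(fin 1164 5 908)))
(cons (mv 844 (cons (fin 908 7 844)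
(mv 845 (cons (fin 780 7 780)
(mv 846 (cons (fin 782 6 781)
(fin 910 6 845)))))))
(mv 844 (cons (fin 908 7 844)
(mv 846 (cons (fin 910 6 845)
(mv 1164 (cons (fin 1100 5 908)
(mv 1165 (cons (fin 1228 5 972)
(mv 1229 (cons (fin 972 7 972)
(mv 1230 (cons (fin 1166 4 973)
(fin 1294 4 1037))))))))))))))))))))))))
(cons (mv 973 (cons (fin 974 2 970)
(mv 1097 (cons (fin 1098 1 1033)
(mv 1101 (cons (fin 1102 0 1034)
(mv 909 (cons (mv 1100 (cons (fin 845 5 844)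
(fin 1164 5 908)))
(cons (mv 844 (cons (fin 908 7 844)
(mv 845 (cons (fin 780 7 780)
(mv 846 (cons (fin 782 6 781)
(fin 910 6 845)))))))
(mv 844 (cons (fin 908 7 844)
(mv 846 (cons (fin 910 6 845)
(mv 1164 (cons (fin 1100 5 908)
(mv 1165 (cons (fin 1228 5 972)
(mv 1229 (cons (fin 972 7 972)
(mv 1230 (cons (fin 1166 4 973)
(fin 1294 4 1037))))))))))))))))))))))
(mv 969 (cons (fin 970 3 969)
(mv 973 (cons (fin 974 2 970)
(mv 1101 (cons (fin 1102 0 1034)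
(mv 909 (cons (mv 1100 (cons (fin 845 5 844)
(fin 1164 5 908)))
(cons (mv 844 (cons (fin 908 7 844)
(mv 845 (cons (fin 780 7 780)
(mv 846 (cons (fin 782 6 781)
(fin 910 6 845)))))))
(mv 844 (cons (fin 908 7 844)
(mv 846 (cons (fin 910 6 845)
(mv 1164 (cons (fin 1100 5 908)
(mv 1165 (cons (fin 1228 5 972)
(mv 1229 (cons (fin 972 7 972)
(mv 1230 (cons (fin 1166 4 973)
(fin 1294 4 1037))))))))))))))))))))))))
(cons (mv 970 (cons (fin 969 3 969)
(mv 1098 (cons (fin 1097 1 1033)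
(mv 1101 (cons (fin 1102 0 1034)
(mv 1162 (cons (mv 971 (cons (fin 907 6 906)
(fin 1226 6 970)))
(mv 1161 (cons (fin 1225 5 969)
(mv 1099 (cons (fin 1100 1 1097)
(mv 906 (cons (fin 842 4 842)
(fin 1163 4 906)))))))))))))))
(cons (mv 970 (cons (fin 969 3 969)
(mv 973 (cons (fin 974 2 970)
(mv 1098 (cons (fin 1097 1 1033)
(mv 906 (cons (cons (mv 1099 (cons (fin 842 4 842)
(fin 1163 4 906)))
(mv 841 (cons (fin 905 7 841)
(mv 777 (cons (fin 842 7 777)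
(mv 907 (cons (fin 843 6 842)
(mv 1162 (cons (fin 971 6 906)
(mv 1163 (cons (fin 1227 4 970)
(mv 1225 (cons (fin 1161 5 969)
(mv 1226 (cons (fin 1289 5 1033)
(mv 1164 (cons (fin 1165 1 1161)
(mv 1100 (cons (fin 1228 6 972)
(mv 909 (cons (fin 845 5 844)
(fin 972 6 908))))))))))))))))))))))
(cons (mv 841 (cons (fin 905 7 841)
(mv 843 (cons (fin 907 6 842)
(mv 1163 (cons (fin 1099 4 906)
(mv 1162 (cons (fin 1227 4 970)
(mv 1225 (cons (fin 1161 5 969)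
(mv 1226 (cons (fin 1289 5 1033)
(fin 971 6 970)))))))))))))
(mv 841 (cons (fin 905 7 841)
(mv 842 (cons (fin 777 7 777)
(fin 1099 4 842))))))))))))))
(mv 969 (cons (fin 970 3 969)
(mv 973 (cons (fin 974 2 970)
(mv 1097 (cons (fin 1098 1 1033)
(mv 1101 (cons (fin 1102 0 1034)
(mv 1165 (cons (mv 972 (cons (fin 908 7 908)
(fin 1229 7 972)))
(cons (mv 1228 (cons (fin 1164 5 972)
(mv 1229 (cons (fin 1292 5 1036)
(mv 1230 (cons (fin 1166 4 973)
(fin 1294 4 1037)))))))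
(mv 1164 (cons (fin 1228 5 972)
(mv 1166 (cons (fin 1230 4 973)
(mv 909 (cons (cons (mv 908 (cons (fin 844 7 844)
(fin 972 7 908)))
(mv 846 (cons (fin 910 6 845)
(mv 845 (cons (fin 782 6 781)
(mv 780 (cons (fin 844 7 780)
(mv 781 (cons (fin 716 7 716)
(fin 972 5 780))))))))))
(cons (mv 844 (cons (fin 908 7 844)
(mv 845 (cons (fin 780 7 780)
(mv 846 (cons (fin 782 6 781)
(fin 910 6 845)))))))
(mv 846 (cons (fin 910 6 845)
(mv 845 (cons (fin 782 6 781)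
(mv 972 (cons (fin 908 7 908)
(fin 781 5 780)))))))))))))))))))))))))))))
(cons (mv 1038 (cons (cons (mv 974 (cons (fin 975 2 971)
(mv 973 (cons (fin 1034 2 970)
(mv 1098 (cons (fin 1099 1 1034)
(mv 1102 (cons (fin 1103 0 1035)
(mv 909 (cons (fin 1166 7 909)
(fin 845 4 845)))))))))))
(mv 1098 (cons (fin 1099 1 1034)
(mv 1034 (cons (fin 1097 1 1033)
(mv 1102 (cons (fin 1101 0 1034)
(fin 1103 0 1035))))))))
(cons (mv 974 (cons (fin 975 2 971)
(mv 1034 (cons (fin 973 2 970)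
(mv 1098 (cons (fin 1097 1 1033)
(fin 1099 1 1034)))))))
(cons (mv 974 (cons (fin 975 2 971)
(mv 973 (cons (fin 1034 2 970)
(mv 1102 (cons (fin 1103 0 1035)
(mv 909 (cons (fin 1166 7 909)
(fin 845 4 845)))))))))
(mv 974 (cons (fin 975 2 971)
(mv 1098 (cons (fin 1099 1 1034)
(mv 1102 (cons (fin 1103 0 1035)
(mv 910 (cons (mv 1101 (cons (fin 846 5 845)
(fin 1165 5 909)))
(cons (mv 845 (cons (fin 909 7 845)
(mv 846 (cons (fin 781 7 781)
(mv 847 (cons (fin 783 6 782)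
(fin 911 6 846)))))))
(mv 845 (cons (fin 909 7 845)
(mv 847 (cons (fin 911 6 846)
(mv 1165 (cons (fin 1101 5 909)
(mv 1166 (cons (fin 1229 5 973)
(mv 1230 (cons (fin 973 7 973)
(mv 1231 (cons (fin 1167 4 974)
(fin 1295 4 1038))))))))))))))))))))))))))
(mv 1038 (cons (cons (mv 970 (cons (fin 971 3 970)
(mv 974 (cons (fin 975 2 971)
(mv 1034 (cons (fin 969 3 969)
(fin 973 2 970)))))))
(mv 970 (cons (fin 971 3 970)
(mv 1034 (cons (fin 969 3 969)
(mv 1102 (cons (fin 1101 0 1034)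
(fin 1103 0 1035))))))))
(cons (mv 974 (cons (fin 975 2 971)
(mv 973 (cons (fin 1034 2 970)
(mv 1102 (cons (fin 1103 0 1035)
(mv 909 (cons (fin 1166 7 909)
(fin 845 4 845)))))))))
(mv 970 (cons (fin 971 3 970)
(mv 974 (cons (fin 975 2 971)
(mv 1102 (cons (fin 1103 0 1035)
(mv 1166 (cons (mv 973 (cons (fin 909 7 909)
(fin 1230 7 973)))
(cons (mv 1165 (cons (fin 1229 5 973)
(mv 910 (cons (fin 1101 5 909)
(mv 845 (cons (fin 909 7 845)
(mv 846 (cons (fin 781 7 781)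
(mv 847 (cons (fin 783 6 782)
(fin 911 6 846)))))))))))
(mv 973 (cons (fin 1230 7 973)
(mv 1165 (cons (fin 1229 5 973)
(mv 910 (cons (fin 1101 5 909)
(mv 846 (cons (fin 782 5 781)
(mv 847 (cons (fin 783 6 782)
(fin 911 6 846))))))))))))))))))))))))))
(cons (cons (mv 1034 (cons (cons (mv 969 (cons (fin 970 3 969)
(mv 1098 (cons (fin 1097 1 1033)
(mv 1038 (cons (fin 1099 1 1034)
(mv 1102 (cons (fin 1101 0 1034)
(fin 1103 0 1035)))))))))
(mv 1098 (cons (fin 1097 1 1033)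
(mv 1038 (cons (fin 1099 1 1034)
(mv 1102 (cons (fin 1101 0 1034)
(fin 1103 0 1035))))))))
(cons (mv 970 (cons (fin 969 3 969)
(mv 1038 (cons (fin 971 3 970)
(mv 1102 (cons (fin 1101 0 1034)
(fin 1103 0 1035)))))))
(cons (mv 970 (cons (fin 969 3 969)
(mv 971 (cons (fin 1038 3 970)
(mv 1098 (cons (fin 1097 1 1033)
(mv 907 (cons (fin 843 5 842)
(fin 1162 6 906)))))))))
(mv 969 (cons (fin 970 3 969)
(mv 1098 (cons (fin 1097 1 1033)
(mv 1101 (cons (fin 1102 0 1034)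
(mv 972 (cons (cons (mv 908 (cons (fin 844 4 844)
(mv 1165 (cons (fin 973 7 908)
(fin 1229 7 972)))))
(mv 1165 (cons (fin 1229 7 972)
(mv 1099 (cons (cons (mv 1100 (cons (fin 1166 0 1098)
(mv 1162 (cons (fin 1161 1 1097)
(mv 971 (cons (fin 907 5 906)
(fin 1226 6 970)))))))
(mv 1163 (cons (fin 1227 6 971)
(mv 1162 (cons (mv 971 (cons (fin 907 5 906)
(fin 1226 5 970)))
(cons (mv 907 (cons (fin 971 5 906)
(mv 1161 (cons (fin 1100 1 1097)
(mv 1160 (cons (fin 1159 2 1095)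
(mv 1096 (cons (fin 1095 3 1095)
(mv 1224 (cons (fin 1223 1 1159)
(mv 1225 (cons (fin 1164 1 1160)
(mv 1032 (cons (fin 968 4 968)
(fin 1289 4 1032)))))))))))))))
(mv 1100 (cons (fin 1161 1 1097)
(mv 1226 (cons (fin 1290 6 1034)
(mv 1225 (cons (fin 1164 1 1161)
(fin 1289 5 1033)))))))))))))
(cons (mv 1163 (cons (fin 1227 6 971)
(mv 1164 (cons (fin 1166 3 1098)
(mv 1228 (cons (fin 973 5 972)
(fin 971 4 971)))))))
(mv 1100 (cons (fin 1166 0 1098)
(mv 1162 (cons (fin 1161 1 1097)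
(mv 1163 (cons (fin 1227 6 971)
(mv 1226 (cons (fin 1290 6 1034)
(mv 1225 (cons (fin 1164 1 1161)
(fin 1289 5 1033)))))))))))))))))
(cons (mv 908 (cons (fin 844 4 844)
(mv 1100 (cons (cons (mv 843 (cons (fin 907 7 843)
(mv 845 (cons (fin 909 6 844)
(mv 1099 (cons (fin 1163 5 907)
(mv 1162 (cons (fin 1161 1 1097)
(mv 1226 (cons (fin 971 6 970)
(fin 1290 6 1034)))))))))))
(mv 845 (cons (fin 909 6 844)
(mv 1099 (cons (fin 1163 5 907)
(mv 1162 (cons (fin 1161 1 1097)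
(mv 1226 (cons (fin 971 6 970)
(fin 1290 6 1034))))))))))
(cons (mv 843 (cons (fin 907 7 843)
(mv 909 (cons (fin 845 6 844)
(mv 973 (cons (fin 1164 5 908)
(mv 910 (cons (fin 846 6 845)
(mv 911 (cons (fin 971 1 907)
(fin 912 1 908)))))))))))
(cons (mv 843 (cons (fin 907 7 843)
(mv 1099 (cons (fin 1163 5 907)
(mv 1162 (cons (fin 1161 1 1097)
(mv 1226 (cons (fin 971 6 970)
(fin 1290 6 1034)))))))))
(mv 843 (cons (fin 907 7 843)
(mv 845 (cons (fin 909 6 844)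
(mv 1163 (cons (fin 1099 5 907)
(mv 1164 (cons (fin 1227 5 971)
(mv 1228 (cons (fin 973 6 972)
(fin 1292 6 1036)))))))))))))))))
(mv 908 (cons (fin 844 4 844)
(mv 1165 (cons (fin 1229 7 972)
(fin 1100 4 908))))))))))))))))))
(cons (mv 1034 (cons (cons (mv 969 (cons (fin 970 3 969)
(mv 974 (cons (fin 973 2 970)
(mv 1038 (cons (fin 975 2 971)
(mv 1098 (cons (fin 1097 1 1033)
(fin 1099 1 1034)))))))))
(mv 974 (cons (fin 973 2 970)
(mv 1038 (cons (fin 975 2 971)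
(mv 1098 (cons (fin 1097 1 1033)
(fin 1099 1 1034))))))))
(cons (mv 970 (cons (fin 969 3 969)
(mv 974 (cons (fin 973 2 970)
(mv 1038 (cons (fin 971 3 970)
(fin 975 2 971)))))))
(cons (mv 970 (cons (fin 969 3 969)
(mv 971 (cons (fin 1038 3 970)
(mv 1098 (cons (fin 1097 1 1033)
(mv 907 (cons (fin 843 5 842)
(fin 1162 6 906)))))))))
(mv 969 (cons (fin 970 3 969)
(mv 973 (cons (fin 974 2 970)
(mv 1098 (cons (fin 1097 1 1033)
(mv 971 (cons (cons (mv 907 (cons (fin 843 5 842)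
(mv 1162 (cons (fin 1099 5 906)
(fin 1226 6 970)))))
(mv 1162 (cons (fin 1226 6 970)
(mv 909 (cons (cons (mv 845 (cons (fin 1100 5 844)
(mv 780 (cons (fin 844 7 780)
(mv 781 (cons (fin 716 7 716)
(fin 972 5 780)))))))
(mv 845 (cons (cons (mv 780 (cons (fin 844 7 780)
(mv 781 (cons (fin 716 7 716)
(fin 972 5 780)))))
(mv 782 (cons (fin 846 6 781)
(mv 844 (cons (fin 780 7 780)
(mv 908 (cons (fin 1101 7 844)
(mv 972 (cons (fin 1099 5 843)
(mv 843 (cons (fin 779 7 779)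
(mv 842 (cons (fin 841 0 841)
(fin 910 0 842))))))))))))))
(cons (mv 781 (cons (fin 972 5 780)
(mv 782 (cons (fin 718 6 717)
(fin 846 6 781)))))
(mv 780 (cons (fin 844 7 780)
(mv 781 (cons (fin 716 7 716)
(mv 782 (cons (fin 718 6 717)
(fin 846 6 781)))))))))))
(cons (mv 1101 (cons (cons (mv 844 (cons (fin 908 7 844)
(mv 846 (cons (fin 910 6 845)
(mv 1100 (cons (fin 1164 5 908)
(mv 1099 (cons (fin 1161 1 1097)
(mv 1165 (cons (fin 1166 0 1098)
(mv 1229 (cons (fin 972 7 972)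
(fin 1293 7 1036)))))))))))))
(cons (mv 846 (cons (fin 910 6 845)
(mv 908 (cons (fin 844 7 844)
(mv 1165 (cons (fin 972 7 908)
(mv 1164 (cons (fin 1228 5 972)
(mv 1230 (cons (fin 1166 4 973)
(mv 1229 (cons (fin 1163 0 1162)
(fin 1294 4 1037)))))))))))))
(mv 846 (cons (fin 910 6 845)
(mv 908 (cons (fin 844 7 844)
(mv 1165 (cons (fin 972 7 908)
(mv 1230 (cons (fin 1166 4 973)
(mv 1229 (cons (fin 1294 4 1037)
(mv 1292 (cons (fin 1228 5 1036)
(mv 1293 (cons (fin 1100 7 1036)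
(fin 1356 5 1100)))))))))))))))))
(cons (cons (mv 846 (cons (fin 910 6 845)
(mv 1100 (cons (fin 1164 5 908)
(mv 1099 (cons (fin 1161 1 1097)
(mv 1165 (cons (fin 1166 0 1098)
(mv 1229 (cons (fin 972 7 972)
(fin 1293 7 1036)))))))))))
(mv 844 (cons (fin 908 7 844)
(mv 1100 (cons (fin 1164 5 908)
(mv 1099 (cons (fin 1161 1 1097)
(mv 1165 (cons (fin 1166 0 1098)
(mv 1229 (cons (fin 972 7 972)
(fin 1293 7 1036))))))))))))
(cons (mv 844 (cons (fin 908 7 844)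
(mv 846 (cons (fin 910 6 845)
(mv 1164 (cons (fin 1100 5 908)
(mv 1165 (cons (fin 1228 5 972)
(mv 1230 (cons (fin 1166 4 973)
(mv 1229 (cons (fin 1163 0 1162)
(fin 1294 4 1037)))))))))))))
(mv 908 (cons (fin 844 7 844)
(mv 910 (cons (fin 846 6 845)
(mv 911 (cons (fin 972 1 907)
(mv 847 (cons (fin 848 2 844)
(mv 976 (cons (fin 975 0 908)
(mv 912 (cons (fin 977 0 909)
(fin 1104 7 847)))))))))))))))))
(cons (mv 845 (cons (fin 1100 5 844)
(mv 780 (cons (fin 844 7 780)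
(mv 781 (cons (fin 716 7 716)
(mv 782 (cons (fin 718 6 717)
(fin 846 6 781)))))))))
(mv 845 (cons (fin 1100 5 844)
(mv 781 (cons (fin 972 5 780)
(mv 782 (cons (fin 718 6 717)
(fin 846 6 781))))))))))))))
(cons (mv 907 (cons (fin 843 5 842)
(mv 908 (cons (cons (mv 844 (cons (fin 1099 6 843)
(mv 780 (cons (fin 716 5 715)
(fin 972 5 779)))))
(mv 972 (cons (cons (mv 905 (cons (fin 906 0 905)
(mv 1099 (cons (fin 1163 6 907)
(mv 1100 (cons (fin 1164 7 907)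
(mv 909 (cons (fin 845 5 844)
(mv 910 (cons (fin 911 1 907)
(mv 846 (cons (fin 847 2 843)
(fin 1101 6 845)))))))))))))
(mv 906 (cons (fin 905 0 905)
(mv 1099 (cons (fin 842 7 842)
(fin 1163 6 907))))))
(cons (mv 905 (cons (fin 906 0 905)
(mv 1100 (cons (fin 1164 7 907)
(mv 909 (cons (fin 845 5 844)
(mv 910 (cons (fin 911 1 907)
(mv 846 (cons (fin 847 2 843)
(fin 1101 6 845)))))))))))
(mv 1099 (cons (fin 1163 6 907)
(mv 1100 (cons (fin 1164 7 907)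
(mv 909 (cons (fin 845 5 844)
(mv 910 (cons (fin 911 1 907)
(mv 846 (cons (fin 847 2 843)
(fin 1101 6 845)))))))))))))))
(cons (mv 972 (cons (mv 844 (cons (fin 780 5 779)
(fin 1101 4 844)))
(cons (mv 905 (cons (fin 906 0 905)
(mv 1100 (cons (fin 1164 7 907)
(mv 909 (cons (fin 845 5 844)
(mv 910 (cons (fin 911 1 907)
(mv 846 (cons (fin 847 2 843)
(fin 1101 6 845)))))))))))
(mv 844 (cons (fin 780 5 779)
(mv 845 (cons (fin 781 6 780)
(mv 1100 (cons (fin 1164 7 907)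
(fin 909 5 844))))))))))
(mv 844 (cons (fin 1099 6 843)
(mv 716 (cons (fin 780 5 715)
(mv 909 (cons (fin 1101 7 844)
(mv 845 (cons (fin 1100 5 844)
(mv 846 (cons (fin 847 1 843)
(fin 906 2 842))))))))))))))))
(cons (mv 1162 (cons (fin 1226 6 970)
(mv 907 (cons (fin 1099 5 906)
(mv 909 (cons (cons (mv 845 (cons (fin 1100 5 844)
(mv 780 (cons (fin 844 7 780)
(mv 781 (cons (fin 716 7 716)
(fin 972 5 780)))))))
(mv 845 (cons (mv 780 (cons (fin 844 7 780)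
(mv 781 (cons (fin 716 7 716)
(fin 972 5 780)))))
(cons (mv 780 (cons (fin 844 7 780)
(mv 846 (cons (fin 782 6 781)
(mv 908 (cons (fin 906 2 842)
(mv 847 (cons (fin 848 1 844)
(fin 910 2 843)))))))))
(mv 781 (cons (fin 972 5 780)
(mv 782 (cons (fin 718 6 717)
(fin 846 6 781)))))))))
(cons (mv 1101 (cons (cons (mv 844 (cons (fin 908 7 844)
(mv 846 (cons (fin 910 6 845)
(mv 1164 (cons (fin 1100 5 908)
(mv 1165 (cons (fin 1228 5 972)
(mv 1229 (cons (fin 972 7 972)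
(mv 1230 (cons (fin 1163 0 1162)
(fin 1166 4 973)))))))))))))
(cons (mv 846 (cons (fin 910 6 845)
(mv 908 (cons (fin 844 7 844)
(mv 1165 (cons (fin 972 7 908)
(mv 1230 (cons (fin 1166 4 973)
(mv 1229 (cons (fin 1294 4 1037)
(mv 1292 (cons (fin 1228 5 1036)
(mv 1293 (cons (fin 1100 7 1036)
(fin 1356 5 1100)))))))))))))))
(mv 846 (cons (fin 910 6 845)
(mv 908 (cons (fin 844 7 844)
(mv 1165 (cons (fin 972 7 908)
(mv 1164 (cons (fin 1228 5 972)
(mv 1230 (cons (fin 1166 4 973)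
(mv 1229 (cons (fin 1163 0 1162)
(fin 1294 4 1037)))))))))))))))
(cons (cons (mv 846 (cons (fin 910 6 845)
(mv 1164 (cons (fin 1100 5 908)
(mv 1165 (cons (fin 1228 5 972)
(mv 1229 (cons (fin 972 7 972)
(mv 1230 (cons (fin 1163 0 1162)
(fin 1166 4 973)))))))))))
(mv 844 (cons (fin 908 7 844)
(mv 1164 (cons (fin 1100 5 908)
(mv 1165 (cons (fin 1228 5 972)
(mv 1229 (cons (fin 972 7 972)
(mv 1230 (cons (fin 1163 0 1162)
(fin 1166 4 973))))))))))))
(cons (mv 844 (cons (fin 908 7 844)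
(mv 846 (cons (fin 910 6 845)
(mv 1164 (cons (fin 1100 5 908)
(mv 1165 (cons (fin 1228 5 972)
(mv 1230 (cons (fin 1166 4 973)
(mv 1229 (cons (fin 1163 0 1162)
(fin 1294 4 1037)))))))))))))
(mv 908 (cons (fin 844 7 844)
(mv 910 (cons (fin 846 6 845)
(mv 911 (cons (fin 972 1 907)
(mv 847 (cons (fin 848 2 844)
(mv 976 (cons (fin 975 0 908)
(mv 912 (cons (fin 977 0 909)
(fin 1104 7 847)))))))))))))))))
(cons (mv 845 (cons (fin 1100 5 844)
(mv 780 (cons (fin 844 7 780)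
(mv 716 (cons (fin 781 7 716)
(mv 846 (cons (fin 782 6 781)
(mv 908 (cons (fin 906 2 842)
(mv 847 (cons (fin 848 1 844)
(fin 910 2 843)))))))))))))
(mv 845 (cons (fin 1100 5 844)
(mv 781 (cons (fin 972 5 780)
(mv 782 (cons (fin 718 6 717)
(fin 846 6 781)))))))))))))))
(mv 907 (cons (fin 843 5 842)
(mv 1162 (cons (fin 1226 6 970)
(mv 909 (cons (cons (mv 845 (cons (fin 1100 5 844)
(mv 780 (cons (fin 844 7 780)
(mv 781 (cons (fin 716 7 716)
(fin 972 5 780)))))))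
(mv 845 (cons (mv 780 (cons (fin 844 7 780)
(mv 781 (cons (fin 716 7 716)
(fin 972 5 780)))))
(cons (mv 780 (cons (fin 844 7 780)
(mv 846 (cons (fin 782 6 781)
(mv 908 (cons (fin 906 2 842)
(mv 847 (cons (fin 848 1 844)
(fin 910 2 843)))))))))
(mv 781 (cons (fin 972 5 780)
(mv 782 (cons (fin 718 6 717)
(fin 846 6 781)))))))))
(cons (mv 1101 (cons (cons (mv 844 (cons (fin 908 7 844)
(mv 846 (cons (fin 910 6 845)
(mv 1164 (cons (fin 1100 5 908)
(mv 1165 (cons (fin 1228 5 972)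
(mv 1229 (cons (fin 972 7 972)
(mv 1230 (cons (fin 1163 0 1162)
(fin 1166 4 973)))))))))))))
(cons (mv 846 (cons (fin 910 6 845)
(mv 908 (cons (fin 844 7 844)
(mv 1165 (cons (fin 972 7 908)
(mv 1230 (cons (fin 1166 4 973)
(mv 1229 (cons (fin 1294 4 1037)
(mv 1292 (cons (fin 1228 5 1036)
(mv 1293 (cons (fin 1100 7 1036)
(fin 1356 5 1100)))))))))))))))
(mv 846 (cons (fin 910 6 845)
(mv 908 (cons (fin 844 7 844)
(mv 1165 (cons (fin 972 7 908)
(mv 1164 (cons (fin 1228 5 972)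
(mv 1230 (cons (fin 1166 4 973)
(mv 1229 (cons (fin 1163 0 1162)
(fin 1294 4 1037)))))))))))))))
(cons (cons (mv 846 (cons (fin 910 6 845)
(mv 1164 (cons (fin 1100 5 908)
(mv 1165 (cons (fin 1228 5 972)
(mv 1229 (cons (fin 972 7 972)
(mv 1230 (cons (fin 1163 0 1162)
(fin 1166 4 973)))))))))))
(mv 844 (cons (fin 908 7 844)
(mv 1164 (cons (fin 1100 5 908)
(mv 1165 (cons (fin 1228 5 972)
(mv 1229 (cons (fin 972 7 972)
(mv 1230 (cons (fin 1163 0 1162)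
(fin 1166 4 973))))))))))))
(cons (mv 844 (cons (fin 908 7 844)
(mv 846 (cons (fin 910 6 845)
(mv 1164 (cons (fin 1100 5 908)
(mv 1165 (cons (fin 1228 5 972)
(mv 1230 (cons (fin 1166 4 973)
(mv 1229 (cons (fin 1163 0 1162)
(fin 1294 4 1037)))))))))))))
(mv 908 (cons (fin 844 7 844)
(mv 910 (cons (fin 846 6 845)
(mv 911 (cons (fin 972 1 907)
(mv 847 (cons (fin 848 2 844)
(mv 976 (cons (fin 975 0 908)
(mv 912 (cons (fin 977 0 909)
(fin 1104 7 847)))))))))))))))))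
(cons (mv 845 (cons (fin 1100 5 844)
(mv 780 (cons (fin 844 7 780)
(mv 716 (cons (fin 781 7 716)
(mv 846 (cons (fin 782 6 781)
(mv 908 (cons (fin 906 2 842)
(mv 847 (cons (fin 848 1 844)
(fin 910 2 843)))))))))))))
(mv 845 (cons (fin 1100 5 844)
(mv 781 (cons (fin 972 5 780)
(mv 782 (cons (fin 718 6 717)
(fin 846 6 781)))))))))))))))))))))))))))))
(mv 1038 (cons (cons (mv 970 (cons (fin 971 3 970)
(mv 974 (cons (fin 975 2 971)
(mv 1034 (cons (fin 969 3 969)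
(mv 1098 (cons (fin 1097 1 1033)
(fin 1099 1 1034)))))))))
(mv 970 (cons (fin 971 3 970)
(mv 974 (cons (fin 975 2 971)
(mv 1034 (cons (fin 969 3 969)
(mv 1102 (cons (fin 1101 0 1034)
(fin 1103 0 1035))))))))))
(cons (mv 974 (cons (fin 975 2 971)
(mv 1098 (cons (fin 1099 1 1034)
(mv 1034 (cons (fin 1097 1 1033)
(mv 1102 (cons (fin 1101 0 1034)
(fin 1103 0 1035)))))))))
(cons (mv 970 (cons (fin 971 3 970)
(mv 1034 (cons (fin 969 3 969)
(mv 1098 (cons (fin 1097 1 1033)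
(fin 1099 1 1034)))))))
(mv 970 (cons (fin 971 3 970)
(mv 974 (cons (fin 975 2 971)
(mv 1098 (cons (fin 1099 1 1034)
(mv 1102 (cons (fin 1103 0 1035)
(mv 910 (cons (mv 1101 (cons (fin 846 5 845)
(fin 1165 5 909)))
(cons (mv 845 (cons (fin 909 7 845)
(mv 846 (cons (fin 781 7 781)
(mv 847 (cons (fin 783 6 782)
(fin 911 6 846)))))))
(mv 845 (cons (fin 909 7 845)
(mv 847 (cons (fin 911 6 846)
(mv 1166 (cons (cons (mv 1165 (cons (fin 1101 5 909)
(fin 1229 5 973)))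
(mv 1231 (cons (fin 1167 4 974)
(mv 1230 (cons (fin 1295 4 1038)
(mv 1293 (cons (fin 1229 5 1037)
(mv 1294 (cons (fin 1101 7 1037)
(fin 1357 5 1101))))))))))
(cons (mv 1229 (cons (fin 1165 5 973)
(mv 1230 (cons (fin 1293 5 1037)
(mv 1231 (cons (fin 1167 4 974)
(fin 1295 4 1038)))))))
(mv 1101 (cons (fin 1165 5 909)
(mv 1230 (cons (fin 1294 7 1037)
(mv 1231 (cons (fin 1167 4 974)
(fin 1295 4 1038)))))))))))))))))))))))))))))))
(cons (mv 1038 (cons (cons (mv 970 (cons (fin 971 3 970)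
(mv 974 (cons (fin 975 2 971)
(mv 1034 (cons (fin 969 3 969)
(fin 973 2 970)))))))
(mv 970 (cons (fin 971 3 970)
(mv 1034 (cons (fin 969 3 969)
(mv 1098 (cons (fin 1097 1 1033)
(fin 1099 1 1034))))))))
(cons (mv 974 (cons (fin 975 2 971)
(mv 973 (cons (fin 1034 2 970)
(mv 1098 (cons (fin 1099 1 1034)
(mv 1102 (cons (fin 1103 0 1035)
(mv 909 (cons (fin 1166 7 909)
(fin 845 4 845)))))))))))
(mv 970 (cons (fin 971 3 970)
(mv 974 (cons (fin 975 2 971)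
(mv 1098 (cons (fin 1099 1 1034)
(mv 1102 (cons (fin 1103 0 1035)
(mv 1166 (cons (mv 973 (cons (fin 909 7 909)
(fin 1230 7 973)))
(cons (mv 1229 (cons (fin 1165 5 973)
(mv 1230 (cons (fin 1293 5 1037)
(mv 1231 (cons (fin 1167 4 974)
(fin 1295 4 1038)))))))
(mv 1165 (cons (fin 1229 5 973)
(mv 1167 (cons (fin 1231 4 974)
(mv 910 (cons (cons (mv 909 (cons (fin 845 7 845)
(fin 973 7 909)))
(mv 847 (cons (fin 911 6 846)
(mv 846 (cons (fin 783 6 782)
(mv 781 (cons (fin 845 7 781)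
(mv 782 (cons (fin 717 7 717)
(fin 973 5 781))))))))))
(cons (mv 845 (cons (fin 909 7 845)
(mv 846 (cons (fin 781 7 781)
(mv 847 (cons (fin 783 6 782)
(fin 911 6 846)))))))
(mv 847 (cons (fin 911 6 846)
(mv 846 (cons (fin 783 6 782)
(mv 973 (cons (fin 909 7 909)
(fin 782 5 781))))))))))))))))))))))))))))
(cons (mv 1034 (cons (cons (mv 969 (cons (fin 970 3 969)
(mv 973 (cons (fin 974 2 970)
(mv 1098 (cons (fin 1097 1 1033)
(mv 1038 (cons (fin 1099 1 1034)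
(mv 1102 (cons (fin 1101 0 1034)
(fin 1103 0 1035)))))))))))
(cons (mv 969 (cons (fin 970 3 969)
(mv 974 (cons (fin 973 2 970)
(mv 1038 (cons (fin 975 2 971)
(mv 1102 (cons (fin 1101 0 1034)
(fin 1103 0 1035)))))))))
(mv 973 (cons (fin 974 2 970)
(mv 1098 (cons (fin 1097 1 1033)
(mv 1038 (cons (fin 1099 1 1034)
(mv 1102 (cons (fin 1101 0 1034)
(fin 1103 0 1035)))))))))))
(cons (mv 969 (cons (fin 970 3 969)
(mv 1098 (cons (fin 1097 1 1033)
(mv 1038 (cons (fin 1099 1 1034)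
(mv 1102 (cons (fin 1101 0 1034)
(fin 1103 0 1035)))))))))
(cons (mv 969 (cons (fin 970 3 969)
(mv 974 (cons (fin 973 2 970)
(mv 1038 (cons (fin 975 2 971)
(mv 1098 (cons (fin 1097 1 1033)
(fin 1099 1 1034)))))))))
(mv 969 (cons (fin 970 3 969)
(mv 973 (cons (fin 974 2 970)
(mv 1098 (cons (fin 1097 1 1033)
(mv 1101 (cons (fin 1102 0 1034)
(mv 1165 (cons (mv 972 (cons (fin 908 7 908)
(fin 1229 7 972)))
(mv 1164 (cons (fin 1228 5 972)
(mv 1166 (cons (fin 1230 4 973)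
(mv 1099 (cons (fin 1163 3 1098)
(fin 1100 0 1098)))))))))))))))))))))
(mv 1034 (cons (cons (mv 969 (cons (fin 970 3 969)
(mv 973 (cons (fin 974 2 970)
(mv 1098 (cons (fin 1097 1 1033)
(mv 1038 (cons (fin 1099 1 1034)
(mv 1102 (cons (fin 1101 0 1034)
(fin 1103 0 1035)))))))))))
(cons (mv 973 (cons (fin 974 2 970)
(mv 1098 (cons (fin 1097 1 1033)
(mv 1038 (cons (fin 1099 1 1034)
(mv 1102 (cons (fin 1101 0 1034)
(fin 1103 0 1035)))))))))
(mv 969 (cons (fin 970 3 969)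
(mv 974 (cons (fin 973 2 970)
(mv 1038 (cons (fin 975 2 971)
(mv 1102 (cons (fin 1101 0 1034)
(fin 1103 0 1035)))))))))))
(cons (mv 969 (cons (fin 970 3 969)
(mv 974 (cons (fin 973 2 970)
(mv 1038 (cons (fin 975 2 971)
(mv 1098 (cons (fin 1097 1 1033)
(fin 1099 1 1034)))))))))
(cons (mv 969 (cons (fin 970 3 969)
(mv 1098 (cons (fin 1097 1 1033)
(mv 1038 (cons (fin 1099 1 1034)
(mv 1102 (cons (fin 1101 0 1034)
(fin 1103 0 1035)))))))))
(mv 969 (cons (fin 970 3 969)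
(mv 973 (cons (fin 974 2 970)
(mv 1098 (cons (fin 1097 1 1033)
(mv 1101 (cons (fin 1102 0 1034)
(mv 909 (cons (mv 1100 (cons (fin 845 5 844)
(fin 1164 5 908)))
(cons (mv 844 (cons (fin 908 7 844)
(mv 845 (cons (fin 780 7 780)
(mv 846 (cons (fin 782 6 781)
(fin 910 6 845)))))))
(mv 908 (cons (fin 844 7 844)
(mv 910 (cons (fin 846 6 845)
(mv 1100 (cons (fin 1164 5 908)
(mv 911 (cons (mv 972 (cons (fin 971 1 907)
(fin 912 1 908)))
(cons (mv 847 (cons (fin 848 2 844)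
(mv 976 (cons (fin 975 0 908)
(mv 912 (cons (fin 977 0 909)
(fin 1104 7 847)))))))
(mv 847 (cons (fin 848 2 844)
(mv 971 (cons (fin 972 1 907)
(mv 907 (cons (fin 843 5 842)
(mv 1162 (cons (fin 1099 5 906)
(fin 1226 6 970))))))))))))))))))))))))))))))))))))))
(mv 1035 (cons (cons (mv 1034 (cons (cons (mv 969 (cons (fin 970 3 969)
(mv 968 (cons (fin 1033 3 968)
(mv 973 (cons (fin 974 2 970)
(mv 1098 (cons (fin 1097 1 1033)
(mv 1038 (cons (fin 1099 1 1034)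
(mv 1102 (cons (fin 1101 0 1034)
(fin 1103 0 1035)))))))))))))
(cons (mv 969 (cons (fin 970 3 969)
(mv 968 (cons (fin 1033 3 968)
(mv 1098 (cons (fin 1097 1 1033)
(mv 1038 (cons (fin 1099 1 1034)
(mv 1102 (cons (fin 1101 0 1034)
(fin 1103 0 1035)))))))))))
(mv 969 (cons (fin 970 3 969)
(mv 968 (cons (fin 1033 3 968)
(mv 974 (cons (fin 973 2 970)
(mv 1038 (cons (fin 975 2 971)
(mv 1098 (cons (fin 1097 1 1033)
(fin 1099 1 1034)))))))))))))
(cons (mv 969 (cons (fin 970 3 969)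
(mv 968 (cons (fin 1033 3 968)
(mv 974 (cons (fin 973 2 970)
(mv 1038 (cons (fin 975 2 971)
(mv 1102 (cons (fin 1101 0 1034)
(fin 1103 0 1035)))))))))))
(cons (mv 973 (cons (fin 974 2 970)
(mv 972 (cons (fin 1033 2 969)
(mv 1097 (cons (fin 1098 1 1033)
(mv 1101 (cons (fin 1102 0 1034)
(mv 908 (cons (fin 1165 7 908)
(fin 844 4 844)))))))))))
(mv 969 (cons (fin 970 3 969)
(mv 973 (cons (fin 974 2 970)
(mv 1098 (cons (fin 1097 1 1033)
(mv 1038 (cons (fin 1099 1 1034)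
(mv 1102 (cons (fin 1101 0 1034)
(fin 1103 0 1035)))))))))))))))
(cons (mv 971 (cons (cons (mv 970 (cons (fin 1038 3 970)
(mv 969 (cons (fin 968 0 968)
(fin 972 0 969)))))
(mv 1100 (cons (cons (mv 907 (cons (fin 843 4 843)
(mv 1164 (cons (fin 972 7 907)
(fin 1228 7 971)))))
(mv 907 (cons (fin 843 4 843)
(mv 1099 (cons (mv 1098 (cons (fin 1097 2 1033)
(fin 1162 5 906)))
(mv 842 (cons (fin 906 7 842)
(mv 908 (cons (fin 844 6 843)
(mv 909 (cons (mv 845 (cons (fin 973 5 844)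
(fin 972 6 844)))
(cons (mv 910 (cons (fin 970 1 906)
(mv 846 (cons (fin 847 2 843)
(mv 911 (cons (fin 972 1 907)
(mv 975 (cons (fin 974 0 907)
(fin 976 0 908)))))))))
(mv 845 (cons (fin 973 5 844)
(mv 910 (cons (fin 970 1 906)
(mv 847 (cons (fin 846 2 843)
(mv 911 (cons (fin 848 2 844)
(mv 975 (cons (fin 974 0 907)
(fin 976 0 908)))))))))))))))))))))))
(cons (mv 1164 (cons (fin 1228 7 971)
(mv 972 (cons (mv 909 (cons (fin 973 6 908)
(mv 908 (cons (fin 845 6 844)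
(mv 844 (cons (fin 780 5 779)
(fin 1099 5 843)))))))
(cons (mv 969 (cons (fin 970 0 969)
(mv 1165 (cons (fin 1229 4 972)
(mv 908 (cons (fin 1101 4 908)
(mv 844 (cons (fin 780 5 779)
(fin 1099 5 843)))))))))
(mv 969 (cons (fin 970 0 969)
(mv 973 (cons (fin 909 6 908)
(mv 974 (cons (fin 975 1 971)
(mv 910 (cons (fin 911 2 907)
(mv 1165 (cons (fin 1101 6 909)
(fin 1229 4 972))))))))))))))))
(mv 907 (cons (fin 843 4 843)
(mv 1164 (cons (fin 1228 7 971)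
(fin 1099 4 907)))))))))
(cons (mv 1100 (cons (cons (mv 907 (cons (fin 843 4 843)
(mv 1164 (cons (fin 972 7 907)
(fin 1228 7 971)))))
(mv 907 (cons (fin 843 4 843)
(mv 1099 (cons (mv 1098 (cons (fin 1038 1 1034)
(fin 1097 2 1033)))
(cons (mv 842 (cons (fin 906 7 842)
(mv 908 (cons (fin 844 6 843)
(mv 1101 (cons (cons (mv 972 (cons (fin 1165 4 908)
(mv 909 (cons (fin 845 6 844)
(mv 910 (cons (fin 911 1 907)
(mv 846 (cons (fin 847 2 843)
(fin 973 6 845)))))))))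
(mv 1102 (cons (fin 1103 3 1035)
(mv 1166 (cons (fin 1167 0 1099)
(mv 909 (cons (fin 973 4 909)
(mv 972 (cons (fin 845 6 844)
(mv 910 (cons (fin 911 1 907)
(mv 846 (cons (fin 847 2 843)
(mv 974 (cons (fin 975 0 907)
(fin 1038 5 845))))))))))))))))
(cons (mv 1102 (cons (fin 1103 3 1035)
(mv 1166 (cons (fin 1167 0 1099)
(mv 973 (cons (fin 909 4 909)
(mv 1230 (cons (fin 1038 7 973)
(fin 1294 7 1037)))))))))
(cons (mv 972 (cons (fin 1165 4 908)
(mv 909 (cons (fin 845 6 844)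
(mv 910 (cons (fin 911 1 907)
(mv 846 (cons (fin 847 2 843)
(mv 974 (cons (fin 975 0 907)
(fin 1038 5 845)))))))))))
(mv 1102 (cons (fin 1103 3 1035)
(mv 1165 (cons (fin 972 4 908)
(mv 1166 (cons (fin 1167 0 1099)
(mv 1230 (cons (fin 1294 7 1037)
(fin 973 4 973)))))))))))))))))
(mv 1098 (cons (fin 1097 2 1033)
(fin 1162 5 906)))))))))
(cons (mv 1164 (cons (fin 1228 7 971)
(mv 972 (cons (mv 909 (cons (fin 973 6 908)
(mv 908 (cons (fin 845 6 844)
(mv 844 (cons (fin 780 5 779)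
(fin 1099 5 843)))))))
(cons (mv 1165 (cons (fin 1229 4 972)
(mv 908 (cons (fin 1101 4 908)
(mv 844 (cons (fin 780 5 779)
(fin 1099 5 843)))))))
(mv 973 (cons (fin 909 6 908)
(mv 974 (cons (fin 975 1 971)
(mv 910 (cons (fin 911 2 907)
(mv 1165 (cons (fin 1101 6 909)
(fin 1229 4 972))))))))))))))
(mv 907 (cons (fin 843 4 843)
(mv 1164 (cons (fin 1228 7 971)
(fin 1099 4 907))))))))
(mv 970 (cons (fin 1038 3 970)
(mv 969 (cons (fin 968 0 968)
(mv 907 (cons (cons (mv 843 (cons (fin 1100 4 843)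
(mv 778 (cons (fin 842 7 778)
(mv 714 (cons (fin 779 7 714)
(mv 844 (cons (fin 780 6 779)
(mv 908 (cons (fin 1099 6 843)
(mv 909 (cons (fin 906 1 905)
(fin 910 1 906)))))))))))))
(mv 908 (cons (mv 909 (cons (fin 906 1 905)
(fin 910 1 906)))
(mv 844 (cons (fin 1099 6 843)
(mv 780 (cons (fin 716 5 715)
(fin 843 6 779))))))))
(cons (mv 1099 (cons (cons (mv 842 (cons (fin 906 7 842)
(mv 844 (cons (fin 908 6 843)
(mv 1098 (cons (fin 1162 5 906)
(mv 1097 (cons (fin 1096 2 1032)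
(fin 1100 2 1033)))))))))
(mv 844 (cons (fin 908 6 843)
(mv 1098 (cons (fin 1162 5 906)
(mv 1097 (cons (fin 1096 2 1032)
(fin 1100 2 1033))))))))
(cons (mv 906 (cons (fin 842 7 842)
(mv 908 (cons (fin 909 1 905)
(fin 844 6 843)))))
(mv 842 (cons (fin 906 7 842)
(mv 1098 (cons (fin 1162 5 906)
(mv 1097 (cons (fin 1096 2 1032)
(fin 1100 2 1033))))))))))
(cons (mv 843 (cons (fin 1100 4 843)
(mv 778 (cons (fin 842 7 778)
(mv 779 (cons (fin 714 7 714)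
(mv 780 (cons (fin 716 6 715)
(fin 844 6 779)))))))))
(mv 843 (cons (fin 1100 4 843)
(mv 778 (cons (fin 842 7 778)
(mv 779 (cons (fin 714 7 714)
(mv 715 (cons (fin 906 5 714)
(mv 716 (cons (fin 652 6 651)
(fin 780 6 715))))))))))))))))))))))
(mv 1034 (cons (cons (mv 969 (cons (fin 970 3 969)
(mv 973 (cons (fin 974 2 970)
(mv 1033 (cons (fin 968 3 968)
(fin 972 2 969)))))))
(mv 969 (cons (fin 970 3 969)
(mv 1033 (cons (fin 968 3 968)
(mv 1097 (cons (fin 1096 1 1032)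
(fin 1098 1 1033))))))))
(cons (mv 973 (cons (fin 974 2 970)
(mv 972 (cons (fin 1033 2 969)
(mv 1097 (cons (fin 1098 1 1033)
(mv 1101 (cons (fin 1102 0 1034)
(mv 908 (cons (fin 1165 7 908)
(fin 844 4 844)))))))))))
(mv 969 (cons (fin 970 3 969)
(mv 973 (cons (fin 974 2 970)
(mv 1097 (cons (fin 1098 1 1033)
(mv 1101 (cons (fin 1102 0 1034)
(mv 909 (cons (mv 1100 (cons (fin 845 5 844)
(fin 1164 5 908)))
(cons (mv 844 (cons (fin 908 7 844)
(mv 845 (cons (fin 780 7 780)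
(mv 846 (cons (fin 782 6 781)
(fin 910 6 845)))))))
(mv 844 (cons (fin 908 7 844)
(mv 846 (cons (fin 910 6 845)
(mv 1164 (cons (fin 1100 5 908)
(mv 1165 (cons (fin 1228 5 972)
(mv 1229 (cons (fin 972 7 972)
(mv 1230 (cons (fin 1166 4 973)
(fin 1294 4 1037)))))))))))))))))))))))))))))
(cons (cons (mv 1034 (cons (cons (mv 969 (cons (fin 970 3 969)
(mv 968 (cons (fin 1033 3 968)
(mv 974 (cons (fin 973 2 970)
(mv 1038 (cons (fin 975 2 971)
(mv 1102 (cons (fin 1101 0 1034)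
(fin 1103 0 1035)))))))))))
(mv 969 (cons (fin 970 3 969)
(mv 1033 (cons (fin 968 3 968)
(mv 1101 (cons (fin 1100 0 1033)
(fin 1102 0 1034))))))))
(cons (mv 969 (cons (fin 970 3 969)
(mv 973 (cons (fin 974 2 970)
(mv 1033 (cons (fin 968 3 968)
(fin 972 2 969)))))))
(cons (mv 973 (cons (fin 974 2 970)
(mv 972 (cons (fin 1033 2 969)
(mv 1101 (cons (fin 1102 0 1034)
(mv 908 (cons (fin 1165 7 908)
(fin 844 4 844)))))))))
(mv 969 (cons (fin 970 3 969)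
(mv 974 (cons (fin 973 2 970)
(mv 1038 (cons (fin 975 2 971)
(mv 1102 (cons (fin 1101 0 1034)
(fin 1103 0 1035)))))))))))))
(mv 1034 (cons (cons (mv 969 (cons (fin 970 3 969)
(mv 968 (cons (fin 1033 3 968)
(mv 1098 (cons (fin 1097 1 1033)
(mv 1038 (cons (fin 1099 1 1034)
(mv 1102 (cons (fin 1101 0 1034)
(fin 1103 0 1035)))))))))))
(mv 969 (cons (fin 970 3 969)
(mv 1033 (cons (fin 968 3 968)
(mv 1101 (cons (fin 1100 0 1033)
(fin 1102 0 1034))))))))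
(cons (mv 969 (cons (fin 970 3 969)
(mv 1033 (cons (fin 968 3 968)
(mv 1097 (cons (fin 1096 1 1032)
(fin 1098 1 1033)))))))
(cons (mv 1097 (cons (fin 1098 1 1033)
(mv 1033 (cons (fin 1096 1 1032)
(mv 1101 (cons (fin 1100 0 1033)
(fin 1102 0 1034)))))))
(mv 969 (cons (fin 970 3 969)
(mv 1098 (cons (fin 1097 1 1033)
(mv 1038 (cons (fin 1099 1 1034)
(mv 1102 (cons (fin 1101 0 1034)
(fin 1103 0 1035))))))))))))))
(cons (mv 1034 (cons (cons (mv 969 (cons (fin 970 3 969)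
(mv 968 (cons (fin 1033 3 968)
(mv 974 (cons (fin 973 2 970)
(mv 1038 (cons (fin 975 2 971)
(mv 1098 (cons (fin 1097 1 1033)
(fin 1099 1 1034)))))))))))
(mv 969 (cons (fin 970 3 969)
(mv 973 (cons (fin 974 2 970)
(mv 1033 (cons (fin 968 3 968)
(fin 972 2 969))))))))
(cons (mv 969 (cons (fin 970 3 969)
(mv 1033 (cons (fin 968 3 968)
(mv 1097 (cons (fin 1096 1 1032)
(fin 1098 1 1033)))))))
(cons (mv 973 (cons (fin 974 2 970)
(mv 1033 (cons (fin 972 2 969)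
(mv 1097 (cons (fin 1096 1 1032)
(fin 1098 1 1033)))))))
(mv 969 (cons (fin 970 3 969)
(mv 974 (cons (fin 973 2 970)
(mv 1038 (cons (fin 975 2 971)
(mv 1098 (cons (fin 1097 1 1033)
(fin 1099 1 1034)))))))))))))
(mv 1034 (cons (cons (mv 973 (cons (fin 974 2 970)
(mv 972 (cons (fin 1033 2 969)
(mv 1097 (cons (fin 1098 1 1033)
(mv 1101 (cons (fin 1102 0 1034)
(mv 908 (cons (fin 1165 7 908)
(fin 844 4 844)))))))))))
(mv 973 (cons (fin 974 2 970)
(mv 1033 (cons (fin 972 2 969)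
(mv 1097 (cons (fin 1096 1 1032)
(fin 1098 1 1033))))))))
(cons (mv 1097 (cons (fin 1098 1 1033)
(mv 1033 (cons (fin 1096 1 1032)
(mv 1101 (cons (fin 1100 0 1033)
(fin 1102 0 1034)))))))
(cons (mv 973 (cons (fin 974 2 970)
(mv 972 (cons (fin 1033 2 969)
(mv 1101 (cons (fin 1102 0 1034)
(mv 908 (cons (fin 1165 7 908)
(fin 844 4 844)))))))))
(mv 973 (cons (fin 974 2 970)
(mv 1098 (cons (fin 1097 1 1033)
(mv 1038 (cons (fin 1099 1 1034)
(mv 1102 (cons (fin 1101 0 1034)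
(fin 1103 0 1035)))))))))))))))))))
(cons (cons (mv 1035 (cons (cons (mv 1034 (cons (cons (mv 969 (cons (fin 970 3 969)
(mv 968 (cons (fin 1033 3 968)
(mv 973 (cons (fin 974 2 970)
(mv 1098 (cons (fin 1097 1 1033)
(mv 1038 (cons (fin 1099 1 1034)
(mv 1102 (cons (fin 1101 0 1034)
(fin 1103 0 1035)))))))))))))
(cons (mv 973 (cons (fin 974 2 970)
(mv 972 (cons (fin 1033 2 969)
(mv 1097 (cons (fin 1098 1 1033)
(mv 1101 (cons (fin 1102 0 1034)
(mv 908 (cons (fin 1165 7 908)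
(fin 844 4 844)))))))))))
(mv 969 (cons (fin 970 3 969)
(mv 968 (cons (fin 1033 3 968)
(mv 974 (cons (fin 973 2 970)
(mv 1038 (cons (fin 975 2 971)
(mv 1102 (cons (fin 1101 0 1034)
(fin 1103 0 1035)))))))))))))
(cons (mv 969 (cons (fin 970 3 969)
(mv 968 (cons (fin 1033 3 968)
(mv 974 (cons (fin 973 2 970)
(mv 1038 (cons (fin 975 2 971)
(mv 1098 (cons (fin 1097 1 1033)
(fin 1099 1 1034)))))))))))
(cons (mv 969 (cons (fin 970 3 969)
(mv 968 (cons (fin 1033 3 968)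
(mv 1098 (cons (fin 1097 1 1033)
(mv 1038 (cons (fin 1099 1 1034)
(mv 1102 (cons (fin 1101 0 1034)
(fin 1103 0 1035)))))))))))
(mv 969 (cons (fin 970 3 969)
(mv 973 (cons (fin 974 2 970)
(mv 1098 (cons (fin 1097 1 1033)
(mv 1038 (cons (fin 1099 1 1034)
(mv 1102 (cons (fin 1101 0 1034)
(fin 1103 0 1035)))))))))))))))
(cons (mv 971 (cons (cons (mv 970 (cons (fin 1038 3 970)
(mv 969 (cons (fin 968 0 968)
(fin 972 0 969)))))
(mv 1100 (cons (cons (mv 907 (cons (fin 843 4 843)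
(mv 1164 (cons (fin 972 7 907)
(fin 1228 7 971)))))
(mv 907 (cons (fin 843 4 843)
(mv 1099 (cons (mv 1098 (cons (fin 1097 2 1033)
(fin 1162 5 906)))
(mv 842 (cons (fin 906 7 842)
(mv 908 (cons (fin 844 6 843)
(mv 972 (cons (fin 1163 5 907)
(mv 909 (cons (fin 845 6 844)
(mv 910 (cons (fin 970 1 906)
(fin 911 1 907))))))))))))))))
(cons (mv 1164 (cons (fin 1228 7 971)
(mv 972 (cons (cons (mv 909 (cons (fin 973 6 908)
(mv 845 (cons (fin 908 6 844)
(mv 970 (cons (fin 969 0 969)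
(mv 1163 (cons (fin 1227 5 971)
(mv 1099 (cons (fin 906 7 906)
(mv 1097 (cons (fin 1098 2 1033)
(mv 1162 (cons (fin 1226 5 970)
(mv 1101 (cons (fin 1102 1 1098)
(fin 1161 2 1097)))))))))))))))))
(mv 969 (cons (fin 970 0 969)
(mv 1163 (cons (fin 1227 5 971)
(mv 908 (cons (fin 1099 5 907)
(mv 844 (cons (fin 780 5 779)
(fin 1101 4 844))))))))))
(cons (mv 909 (cons (fin 973 6 908)
(mv 908 (cons (fin 845 6 844)
(mv 844 (cons (fin 780 5 779)
(fin 1099 5 843)))))))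
(cons (mv 909 (cons (fin 973 6 908)
(mv 970 (cons (fin 969 0 969)
(mv 1163 (cons (fin 1227 5 971)
(mv 1099 (cons (fin 906 7 906)
(mv 1097 (cons (fin 1098 2 1033)
(mv 1162 (cons (fin 1226 5 970)
(mv 1101 (cons (fin 1102 1 1098)
(fin 1161 2 1097)))))))))))))))
(mv 909 (cons (fin 973 6 908)
(mv 908 (cons (fin 845 6 844)
(mv 844 (cons (fin 780 5 779)
(fin 1101 4 844)))))))))))))
(mv 907 (cons (fin 843 4 843)
(mv 1164 (cons (fin 1228 7 971)
(fin 1099 4 907)))))))))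
(cons (mv 1100 (cons (cons (mv 907 (cons (fin 843 4 843)
(mv 1164 (cons (fin 972 7 907)
(fin 1228 7 971)))))
(mv 907 (cons (fin 843 4 843)
(mv 1099 (cons (mv 1098 (cons (fin 1038 1 1034)
(fin 1097 2 1033)))
(mv 842 (cons (fin 906 7 842)
(mv 908 (cons (fin 844 6 843)
(mv 972 (cons (fin 1163 5 907)
(mv 909 (cons (fin 845 6 844)
(mv 910 (cons (fin 911 1 907)
(mv 974 (cons (fin 975 0 907)
(mv 1101 (cons (fin 1165 4 908)
(mv 1102 (cons (fin 1103 3 1035)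
(mv 1166 (cons (fin 1167 0 1099)
(fin 973 4 909))))))))))))))))))))))))
(cons (mv 1164 (cons (fin 1228 7 971)
(mv 972 (cons (mv 909 (cons (fin 973 6 908)
(mv 908 (cons (fin 845 6 844)
(mv 844 (cons (fin 780 5 779)
(fin 1099 5 843)))))))
(cons (mv 1163 (cons (fin 1227 5 971)
(mv 908 (cons (fin 1099 5 907)
(mv 844 (cons (fin 780 5 779)
(fin 1101 4 844)))))))
(mv 973 (cons (fin 909 6 908)
(mv 974 (cons (fin 975 1 971)
(mv 910 (cons (fin 911 2 907)
(mv 1165 (cons (fin 1101 6 909)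
(fin 1229 4 972))))))))))))))
(mv 907 (cons (fin 843 4 843)
(mv 1164 (cons (fin 1228 7 971)
(fin 1099 4 907))))))))
(mv 970 (cons (fin 1038 3 970)
(mv 968 (cons (fin 969 0 968)
(mv 1099 (cons (cons (mv 906 (cons (fin 1163 7 906)
(mv 842 (cons (fin 907 7 842)
(fin 778 4 778)))))
(mv 907 (cons (mv 1100 (cons (fin 843 4 843)
(fin 1164 4 907)))
(cons (mv 842 (cons (fin 906 7 842)
(mv 843 (cons (fin 778 7 778)
(mv 844 (cons (fin 780 6 779)
(fin 908 6 843)))))))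
(mv 842 (cons (fin 906 7 842)
(mv 844 (cons (fin 908 6 843)
(mv 1098 (cons (fin 1162 5 906)
(mv 1097 (cons (fin 1096 2 1032)
(fin 1100 2 1033)))))))))))))
(cons (mv 1098 (cons (mv 1097 (cons (fin 1096 2 1032)
(fin 1100 2 1033)))
(cons (mv 907 (cons (fin 1162 5 906)
(mv 1100 (cons (fin 843 4 843)
(fin 1164 4 907)))))
(mv 1096 (cons (fin 1097 2 1032)
(mv 1162 (cons (fin 907 5 906)
(mv 1226 (cons (fin 1163 5 970)
(fin 1290 6 1034))))))))))
(mv 1163 (cons (fin 906 7 906)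
(mv 1162 (cons (fin 1226 5 970)
(mv 1228 (cons (fin 1164 4 971)
(mv 1227 (cons (fin 1292 4 1035)
(mv 1100 (cons (fin 1291 6 1035)
(mv 1098 (cons (fin 1097 2 1033)
(mv 1101 (cons (fin 1161 1 1097)
(fin 1102 1 1098)))))))))))))))))))))))))
(mv 1034 (cons (cons (mv 969 (cons (fin 970 3 969)
(mv 973 (cons (fin 974 2 970)
(mv 1033 (cons (fin 968 3 968)
(fin 972 2 969)))))))
(mv 969 (cons (fin 970 3 969)
(mv 1033 (cons (fin 968 3 968)
(mv 1097 (cons (fin 1096 1 1032)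
(fin 1098 1 1033))))))))
(cons (mv 973 (cons (fin 974 2 970)
(mv 972 (cons (fin 1033 2 969)
(mv 1097 (cons (fin 1098 1 1033)
(mv 1101 (cons (fin 1102 0 1034)
(mv 908 (cons (fin 1165 7 908)
(fin 844 4 844)))))))))))
(mv 969 (cons (fin 970 3 969)
(mv 973 (cons (fin 974 2 970)
(mv 1097 (cons (fin 1098 1 1033)
(mv 1101 (cons (fin 1102 0 1034)
(mv 1165 (cons (mv 972 (cons (fin 908 7 908)
(fin 1229 7 972)))
(mv 1164 (cons (fin 1228 5 972)
(mv 1100 (cons (fin 909 5 908)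
(mv 1166 (cons (fin 1230 4 973)
(mv 1167 (cons (fin 1099 3 1099)
(fin 1168 3 1100))))))))))))))))))))))))
(cons (cons (mv 1034 (cons (cons (mv 973 (cons (fin 974 2 970)
(mv 972 (cons (fin 1033 2 969)
(mv 1097 (cons (fin 1098 1 1033)
(mv 1101 (cons (fin 1102 0 1034)
(mv 908 (cons (fin 1165 7 908)
(fin 844 4 844)))))))))))
(mv 973 (cons (fin 974 2 970)
(mv 972 (cons (fin 1033 2 969)
(mv 1098 (cons (fin 1097 1 1033)
(mv 1099 (cons (fin 1038 1 1034)
(mv 908 (cons (fin 844 5 843)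
(mv 1163 (cons (fin 1100 5 907)
(fin 971 6 907))))))))))))))
(cons (mv 1097 (cons (fin 1098 1 1033)
(mv 1033 (cons (fin 1096 1 1032)
(mv 1101 (cons (fin 1100 0 1033)
(fin 1102 0 1034)))))))
(cons (mv 973 (cons (fin 974 2 970)
(mv 972 (cons (fin 1033 2 969)
(mv 1101 (cons (fin 1102 0 1034)
(mv 908 (cons (fin 1165 7 908)
(fin 844 4 844)))))))))
(mv 973 (cons (fin 974 2 970)
(mv 1098 (cons (fin 1097 1 1033)
(mv 1038 (cons (fin 1099 1 1034)
(mv 1102 (cons (fin 1101 0 1034)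
(fin 1103 0 1035)))))))))))))
(mv 1034 (cons (cons (mv 969 (cons (fin 970 3 969)
(mv 968 (cons (fin 1033 3 968)
(mv 974 (cons (fin 973 2 970)
(mv 1038 (cons (fin 975 2 971)
(mv 1102 (cons (fin 1101 0 1034)
(fin 1103 0 1035)))))))))))
(mv 969 (cons (fin 970 3 969)
(mv 1033 (cons (fin 968 3 968)
(mv 1101 (cons (fin 1100 0 1033)
(fin 1102 0 1034))))))))
(cons (mv 969 (cons (fin 970 3 969)
(mv 973 (cons (fin 974 2 970)
(mv 1033 (cons (fin 968 3 968)
(fin 972 2 969)))))))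
(cons (mv 973 (cons (fin 974 2 970)
(mv 972 (cons (fin 1033 2 969)
(mv 1101 (cons (fin 1102 0 1034)
(mv 908 (cons (fin 1165 7 908)
(fin 844 4 844)))))))))
(mv 969 (cons (fin 970 3 969)
(mv 974 (cons (fin 973 2 970)
(mv 1038 (cons (fin 975 2 971)
(mv 1102 (cons (fin 1101 0 1034)
(fin 1103 0 1035))))))))))))))
(cons (mv 1034 (cons (cons (mv 969 (cons (fin 970 3 969)
(mv 968 (cons (fin 1033 3 968)
(mv 974 (cons (fin 973 2 970)
(mv 1038 (cons (fin 975 2 971)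
(mv 1098 (cons (fin 1097 1 1033)
(fin 1099 1 1034)))))))))))
(mv 973 (cons (fin 974 2 970)
(mv 972 (cons (fin 1033 2 969)
(mv 1098 (cons (fin 1097 1 1033)
(mv 1099 (cons (fin 1038 1 1034)
(mv 908 (cons (fin 844 5 843)
(mv 1163 (cons (fin 1100 5 907)
(fin 971 6 907))))))))))))))
(cons (mv 969 (cons (fin 970 3 969)
(mv 973 (cons (fin 974 2 970)
(mv 1033 (cons (fin 968 3 968)
(fin 972 2 969)))))))
(cons (mv 969 (cons (fin 970 3 969)
(mv 1033 (cons (fin 968 3 968)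
(mv 1097 (cons (fin 1096 1 1032)
(fin 1098 1 1033)))))))
(mv 969 (cons (fin 970 3 969)
(mv 974 (cons (fin 973 2 970)
(mv 1038 (cons (fin 975 2 971)
(mv 1098 (cons (fin 1097 1 1033)
(fin 1099 1 1034)))))))))))))
(mv 1034 (cons (cons (mv 969 (cons (fin 970 3 969)
(mv 968 (cons (fin 1033 3 968)
(mv 1098 (cons (fin 1097 1 1033)
(mv 1038 (cons (fin 1099 1 1034)
(mv 1102 (cons (fin 1101 0 1034)
(fin 1103 0 1035)))))))))))
(mv 1097 (cons (fin 1098 1 1033)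
(mv 1033 (cons (fin 1096 1 1032)
(mv 1101 (cons (fin 1100 0 1033)
(fin 1102 0 1034))))))))
(cons (mv 969 (cons (fin 970 3 969)
(mv 1033 (cons (fin 968 3 968)
(mv 1101 (cons (fin 1100 0 1033)
(fin 1102 0 1034)))))))
(cons (mv 969 (cons (fin 970 3 969)
(mv 1033 (cons (fin 968 3 968)
(mv 1097 (cons (fin 1096 1 1032)
(fin 1098 1 1033)))))))
(mv 969 (cons (fin 970 3 969)
(mv 1098 (cons (fin 1097 1 1033)
(mv 1038 (cons (fin 1099 1 1034)
(mv 1102 (cons (fin 1101 0 1034)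
(fin 1103 0 1035)))))))))))))))))
(mv 1035 (cons (cons (mv 1034 (cons (cons (mv 969 (cons (fin 970 3 969)
(mv 968 (cons (fin 1033 3 968)
(mv 973 (cons (fin 974 2 970)
(mv 1098 (cons (fin 1097 1 1033)
(mv 1038 (cons (fin 1099 1 1034)
(mv 1102 (cons (fin 1101 0 1034)
(fin 1103 0 1035)))))))))))))
(cons (mv 969 (cons (fin 970 3 969)
(mv 968 (cons (fin 1033 3 968)
(mv 974 (cons (fin 973 2 970)
(mv 1038 (cons (fin 975 2 971)
(mv 1102 (cons (fin 1101 0 1034)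
(fin 1103 0 1035)))))))))))
(mv 973 (cons (fin 974 2 970)
(mv 972 (cons (fin 1033 2 969)
(mv 1097 (cons (fin 1098 1 1033)
(mv 1101 (cons (fin 1102 0 1034)
(mv 908 (cons (fin 1165 7 908)
(fin 844 4 844)))))))))))))
(cons (mv 969 (cons (fin 970 3 969)
(mv 968 (cons (fin 1033 3 968)
(mv 974 (cons (fin 973 2 970)
(mv 1038 (cons (fin 975 2 971)
(mv 1098 (cons (fin 1097 1 1033)
(fin 1099 1 1034)))))))))))
(cons (mv 969 (cons (fin 970 3 969)
(mv 968 (cons (fin 1033 3 968)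
(mv 1098 (cons (fin 1097 1 1033)
(mv 1038 (cons (fin 1099 1 1034)
(mv 1102 (cons (fin 1101 0 1034)
(fin 1103 0 1035)))))))))))
(mv 969 (cons (fin 970 3 969)
(mv 973 (cons (fin 974 2 970)
(mv 1098 (cons (fin 1097 1 1033)
(mv 1038 (cons (fin 1099 1 1034)
(mv 1102 (cons (fin 1101 0 1034)
(fin 1103 0 1035)))))))))))))))
(cons (mv 1099 (cons (cons (mv 1098 (cons (fin 1038 1 1034)
(mv 1097 (cons (fin 1096 2 1032)
(fin 1100 2 1033)))))
(mv 972 (cons (cons (mv 908 (cons (fin 844 5 843)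
(mv 1163 (cons (fin 1100 5 907)
(fin 971 6 907)))))
(mv 1163 (cons (fin 1227 6 971)
(mv 971 (cons (mv 970 (cons (fin 969 0 969)
(fin 906 7 906)))
(mv 1162 (cons (fin 1226 5 970)
(mv 907 (cons (fin 1098 5 906)
(mv 843 (cons (fin 779 4 779)
(fin 1100 4 843))))))))))))
(cons (mv 908 (cons (fin 844 5 843)
(mv 1100 (cons (cons (mv 843 (cons (fin 907 7 843)
(mv 845 (cons (fin 909 6 844)
(mv 1097 (cons (fin 1098 2 1033)
(mv 1165 (cons (fin 1101 4 908)
(mv 1164 (cons (fin 1229 4 972)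
(mv 1228 (cons (fin 971 7 971)
(fin 1292 7 1035)))))))))))))
(cons (mv 843 (cons (fin 907 7 843)
(mv 909 (cons (fin 845 6 844)
(mv 1097 (cons (fin 1098 2 1033)
(mv 1164 (cons (fin 973 6 908)
(mv 1228 (cons (fin 971 7 971)
(fin 1292 7 1035)))))))))))
(mv 845 (cons (fin 909 6 844)
(mv 1097 (cons (fin 1098 2 1033)
(mv 1165 (cons (fin 1101 4 908)
(mv 1164 (cons (fin 1229 4 972)
(mv 1228 (cons (fin 971 7 971)
(fin 1292 7 1035)))))))))))))
(cons (mv 843 (cons (fin 907 7 843)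
(mv 1097 (cons (fin 1098 2 1033)
(mv 1165 (cons (fin 1101 4 908)
(mv 1164 (cons (fin 1229 4 972)
(mv 1228 (cons (fin 971 7 971)
(fin 1292 7 1035)))))))))))
(cons (mv 843 (cons (fin 907 7 843)
(mv 845 (cons (fin 909 6 844)
(mv 1165 (cons (fin 1101 4 908)
(mv 1164 (cons (fin 1229 4 972)
(mv 1228 (cons (fin 971 7 971)
(fin 1292 7 1035)))))))))))
(mv 843 (cons (fin 907 7 843)
(mv 909 (cons (fin 845 6 844)
(mv 1097 (cons (fin 1098 2 1033)
(mv 1101 (cons (fin 1165 4 908)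
(mv 1102 (cons (fin 1103 3 1035)
(mv 1166 (cons (fin 1167 0 1099)
(fin 973 4 909)))))))))))))))))))
(cons (mv 908 (cons (fin 844 5 843)
(mv 1163 (cons (fin 971 6 907)
(fin 1227 6 971)))))
(mv 908 (cons (fin 844 5 843)
(mv 1163 (cons (fin 1100 5 907)
(fin 1227 6 971))))))))))
(cons (mv 972 (cons (cons (mv 908 (cons (fin 844 5 843)
(mv 1163 (cons (fin 1100 5 907)
(fin 971 6 907)))))
(mv 1163 (cons (fin 1227 6 971)
(mv 971 (cons (mv 970 (cons (fin 1038 3 970)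
(fin 969 0 969)))
(cons (mv 1162 (cons (fin 1226 5 970)
(mv 1164 (cons (fin 1228 4 971)
(mv 907 (cons (fin 1100 7 907)
(mv 779 (cons (fin 843 4 779)
(mv 906 (cons (fin 842 7 842)
(mv 904 (cons (fin 905 0 904)
(mv 974 (cons (fin 973 3 906)
(mv 1038 (cons (fin 975 2 971)
(mv 1102 (cons (fin 1103 0 1035)
(mv 1165 (cons (fin 1101 2 1098)
(mv 1229 (cons (fin 1230 0 1162)
(fin 1166 5 973)))))))))))))))))))))))
(mv 970 (cons (fin 969 0 969)
(fin 906 7 906)))))))))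
(cons (mv 908 (cons (fin 844 5 843)
(mv 1100 (cons (cons (mv 843 (cons (fin 907 7 843)
(mv 845 (cons (fin 909 6 844)
(mv 1165 (cons (fin 1101 4 908)
(mv 1164 (cons (fin 1229 4 972)
(mv 1228 (cons (fin 971 7 971)
(fin 1292 7 1035)))))))))))
(mv 845 (cons (fin 909 6 844)
(mv 1165 (cons (fin 1101 4 908)
(mv 1164 (cons (fin 1229 4 972)
(mv 1228 (cons (fin 971 7 971)
(fin 1292 7 1035))))))))))
(cons (mv 843 (cons (fin 907 7 843)
(mv 909 (cons (fin 845 6 844)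
(mv 1164 (cons (fin 973 6 908)
(mv 1228 (cons (fin 971 7 971)
(fin 1292 7 1035)))))))))
(cons (mv 843 (cons (fin 907 7 843)
(mv 1165 (cons (fin 1101 4 908)
(mv 1164 (cons (fin 1229 4 972)
(mv 1228 (cons (fin 971 7 971)
(fin 1292 7 1035)))))))))
(mv 843 (cons (fin 907 7 843)
(mv 909 (cons (fin 845 6 844)
(mv 1101 (cons (fin 1165 4 908)
(mv 1102 (cons (fin 1103 3 1035)
(mv 1166 (cons (fin 1167 0 1099)
(fin 973 4 909)))))))))))))))))
(cons (mv 908 (cons (fin 844 5 843)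
(mv 1163 (cons (fin 1100 5 907)
(fin 1227 6 971)))))
(mv 908 (cons (fin 844 5 843)
(mv 1163 (cons (fin 971 6 907)
(fin 1227 6 971)))))))))
(mv 1038 (cons (fin 1098 1 1034)
(mv 971 (cons (fin 970 3 970)
(mv 974 (cons (fin 975 2 971)
(mv 1102 (cons (fin 1103 0 1035)
(mv 1166 (cons (mv 973 (cons (fin 909 7 909)
(fin 1230 7 973)))
(cons (mv 1165 (cons (fin 1229 5 973)
(mv 1231 (cons (fin 1167 4 974)
(mv 1230 (cons (fin 1295 4 1038)
(mv 1101 (cons (fin 1294 7 1037)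
(mv 1163 (cons (fin 1164 0 1163)
(mv 972 (cons (fin 908 6 907)
(fin 1227 6 971)))))))))))))
(mv 909 (cons (fin 973 7 909)
(mv 1165 (cons (fin 1229 5 973)
(mv 1167 (cons (fin 1231 4 974)
(mv 1163 (cons (mv 972 (cons (fin 908 6 907)
(fin 1227 6 971)))
(mv 1162 (cons (fin 1226 5 970)
(mv 1164 (cons (fin 1101 2 1098)
(fin 1228 4 971)))))))))))))))))))))))))))
(mv 1034 (cons (cons (mv 969 (cons (fin 970 3 969)
(mv 973 (cons (fin 974 2 970)
(mv 1033 (cons (fin 968 3 968)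
(fin 972 2 969)))))))
(mv 969 (cons (fin 970 3 969)
(mv 1033 (cons (fin 968 3 968)
(mv 1097 (cons (fin 1096 1 1032)
(fin 1098 1 1033))))))))
(cons (mv 973 (cons (fin 974 2 970)
(mv 972 (cons (fin 1033 2 969)
(mv 1097 (cons (fin 1098 1 1033)
(mv 1101 (cons (fin 1102 0 1034)
(mv 908 (cons (fin 1165 7 908)
(fin 844 4 844)))))))))))
(mv 969 (cons (fin 970 3 969)
(mv 973 (cons (fin 974 2 970)
(mv 1097 (cons (fin 1098 1 1033)
(mv 1101 (cons (fin 1102 0 1034)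
(mv 1165 (cons (mv 972 (cons (fin 908 7 908)
(fin 1229 7 972)))
(mv 1164 (cons (fin 1228 5 972)
(mv 1100 (cons (fin 909 5 908)
(mv 1166 (cons (fin 1230 4 973)
(mv 1167 (cons (fin 1099 3 1099)
(fin 1168 3 1100))))))))))))))))))))))))
(cons (cons (mv 1034 (cons (cons (mv 969 (cons (fin 970 3 969)
(mv 968 (cons (fin 1033 3 968)
(mv 974 (cons (fin 973 2 970)
(mv 1038 (cons (fin 975 2 971)
(mv 1102 (cons (fin 1101 0 1034)
(fin 1103 0 1035)))))))))))
(mv 969 (cons (fin 970 3 969)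
(mv 1033 (cons (fin 968 3 968)
(mv 1101 (cons (fin 1100 0 1033)
(fin 1102 0 1034))))))))
(cons (mv 969 (cons (fin 970 3 969)
(mv 973 (cons (fin 974 2 970)
(mv 1033 (cons (fin 968 3 968)
(fin 972 2 969)))))))
(cons (mv 973 (cons (fin 974 2 970)
(mv 972 (cons (fin 1033 2 969)
(mv 1101 (cons (fin 1102 0 1034)
(mv 908 (cons (fin 1165 7 908)
(fin 844 4 844)))))))))
(mv 969 (cons (fin 970 3 969)
(mv 974 (cons (fin 973 2 970)
(mv 1038 (cons (fin 975 2 971)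
(mv 1102 (cons (fin 1101 0 1034)
(fin 1103 0 1035)))))))))))))
(mv 1034 (cons (cons (mv 973 (cons (fin 974 2 970)
(mv 972 (cons (fin 1033 2 969)
(mv 1097 (cons (fin 1098 1 1033)
(mv 1101 (cons (fin 1102 0 1034)
(mv 908 (cons (fin 1165 7 908)
(fin 844 4 844)))))))))))
(mv 973 (cons (fin 974 2 970)
(mv 972 (cons (fin 1033 2 969)
(mv 1098 (cons (fin 1097 1 1033)
(mv 1099 (cons (fin 1038 1 1034)
(mv 908 (cons (fin 844 5 843)
(mv 1163 (cons (fin 1100 5 907)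
(fin 971 6 907))))))))))))))
(cons (mv 1097 (cons (fin 1098 1 1033)
(mv 1033 (cons (fin 1096 1 1032)
(mv 1101 (cons (fin 1100 0 1033)
(fin 1102 0 1034)))))))
(cons (mv 973 (cons (fin 974 2 970)
(mv 972 (cons (fin 1033 2 969)
(mv 1101 (cons (fin 1102 0 1034)
(mv 908 (cons (fin 1165 7 908)
(fin 844 4 844)))))))))
(mv 973 (cons (fin 974 2 970)
(mv 1098 (cons (fin 1097 1 1033)
(mv 1038 (cons (fin 1099 1 1034)
(mv 1102 (cons (fin 1101 0 1034)
(fin 1103 0 1035))))))))))))))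
(cons (mv 1034 (cons (cons (mv 969 (cons (fin 970 3 969)
(mv 968 (cons (fin 1033 3 968)
(mv 974 (cons (fin 973 2 970)
(mv 1038 (cons (fin 975 2 971)
(mv 1098 (cons (fin 1097 1 1033)
(fin 1099 1 1034)))))))))))
(mv 969 (cons (fin 970 3 969)
(mv 973 (cons (fin 974 2 970)
(mv 1033 (cons (fin 968 3 968)
(fin 972 2 969))))))))
(cons (mv 973 (cons (fin 974 2 970)
(mv 972 (cons (fin 1033 2 969)
(mv 1098 (cons (fin 1097 1 1033)
(mv 1099 (cons (fin 1038 1 1034)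
(mv 908 (cons (fin 844 5 843)
(mv 1163 (cons (fin 1100 5 907)
(fin 971 6 907)))))))))))))
(cons (mv 969 (cons (fin 970 3 969)
(mv 1033 (cons (fin 968 3 968)
(mv 1097 (cons (fin 1096 1 1032)
(fin 1098 1 1033)))))))
(mv 969 (cons (fin 970 3 969)
(mv 974 (cons (fin 973 2 970)
(mv 1038 (cons (fin 975 2 971)
(mv 1098 (cons (fin 1097 1 1033)
(fin 1099 1 1034)))))))))))))
(mv 1034 (cons (cons (mv 969 (cons (fin 970 3 969)
(mv 968 (cons (fin 1033 3 968)
(mv 1098 (cons (fin 1097 1 1033)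
(mv 1038 (cons (fin 1099 1 1034)
(mv 1102 (cons (fin 1101 0 1034)
(fin 1103 0 1035)))))))))))
(mv 969 (cons (fin 970 3 969)
(mv 1033 (cons (fin 968 3 968)
(mv 1101 (cons (fin 1100 0 1033)
(fin 1102 0 1034))))))))
(cons (mv 1097 (cons (fin 1098 1 1033)
(mv 1033 (cons (fin 1096 1 1032)
(mv 1101 (cons (fin 1100 0 1033)
(fin 1102 0 1034)))))))
(cons (mv 969 (cons (fin 970 3 969)
(mv 1033 (cons (fin 968 3 968)
(mv 1097 (cons (fin 1096 1 1032)
(fin 1098 1 1033)))))))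
(mv 969 (cons (fin 970 3 969)
(mv 1098 (cons (fin 1097 1 1033)
(mv 1038 (cons (fin 1099 1 1034)
(mv 1102 (cons (fin 1101 0 1034)
(fin 1103 0 1035))))))))))))))))))
(cons (mv 1035 (cons (cons (cons (mv 1034 (cons (cons (mv 969 (cons (fin 970 3 969)
(mv 973 (cons (fin 974 2 970)
(mv 972 (cons (fin 1033 2 969)
(mv 1097 (cons (fin 1098 1 1033)
(mv 1101 (cons (fin 1102 0 1034)
(mv 908 (cons (fin 1165 7 908)
(fin 844 4 844)))))))))))))
(cons (mv 969 (cons (fin 970 3 969)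
(mv 973 (cons (fin 974 2 970)
(mv 972 (cons (fin 1033 2 969)
(mv 1101 (cons (fin 1102 0 1034)
(mv 908 (cons (fin 1165 7 908)
(fin 844 4 844)))))))))))
(mv 969 (cons (fin 970 3 969)
(mv 1097 (cons (fin 1098 1 1033)
(mv 1033 (cons (fin 1096 1 1032)
(mv 1101 (cons (fin 1100 0 1033)
(fin 1102 0 1034)))))))))))
(cons (mv 969 (cons (fin 970 3 969)
(mv 973 (cons (fin 974 2 970)
(mv 972 (cons (fin 1033 2 969)
(mv 1098 (cons (fin 1097 1 1033)
(mv 1099 (cons (fin 1038 1 1034)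
(mv 908 (cons (fin 844 5 843)
(mv 1163 (cons (fin 1100 5 907)
(fin 971 6 907)))))))))))))))
(cons (mv 973 (cons (fin 974 2 970)
(mv 972 (cons (fin 1033 2 969)
(mv 1097 (cons (fin 1098 1 1033)
(mv 1101 (cons (fin 1102 0 1034)
(mv 908 (cons (fin 1165 7 908)
(fin 844 4 844)))))))))))
(mv 969 (cons (fin 970 3 969)
(mv 973 (cons (fin 974 2 970)
(mv 1098 (cons (fin 1097 1 1033)
(mv 1038 (cons (fin 1099 1 1034)
(mv 1102 (cons (fin 1101 0 1034)
(fin 1103 0 1035)))))))))))))))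
(mv 1099 (cons (cons (mv 1098 (cons (fin 1038 1 1034)
(mv 1097 (cons (fin 1096 2 1032)
(fin 1100 2 1033)))))
(mv 972 (cons (cons (mv 908 (cons (fin 844 5 843)
(mv 1163 (cons (fin 1100 5 907)
(fin 971 6 907)))))
(mv 1163 (cons (fin 1227 6 971)
(mv 971 (cons (mv 970 (cons (fin 969 0 969)
(fin 906 7 906)))
(mv 1162 (cons (fin 1226 5 970)
(mv 907 (cons (fin 1098 5 906)
(mv 843 (cons (fin 779 4 779)
(fin 1100 4 843))))))))))))
(cons (mv 908 (cons (fin 844 5 843)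
(mv 1100 (cons (cons (mv 843 (cons (fin 907 7 843)
(mv 845 (cons (fin 909 6 844)
(mv 1097 (cons (fin 1098 2 1033)
(mv 1165 (cons (fin 1101 4 908)
(mv 1164 (cons (fin 1229 4 972)
(mv 1228 (cons (fin 971 7 971)
(fin 1292 7 1035)))))))))))))
(cons (mv 843 (cons (fin 907 7 843)
(mv 909 (cons (fin 845 6 844)
(mv 1097 (cons (fin 1098 2 1033)
(mv 1164 (cons (fin 973 6 908)
(mv 1228 (cons (fin 971 7 971)
(fin 1292 7 1035)))))))))))
(mv 845 (cons (fin 909 6 844)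
(mv 1097 (cons (fin 1098 2 1033)
(mv 1165 (cons (fin 1101 4 908)
(mv 1164 (cons (fin 1229 4 972)
(mv 1228 (cons (fin 971 7 971)
(fin 1292 7 1035)))))))))))))
(cons (mv 843 (cons (fin 907 7 843)
(mv 1097 (cons (fin 1098 2 1033)
(mv 1165 (cons (fin 1101 4 908)
(mv 1164 (cons (fin 1229 4 972)
(mv 1228 (cons (fin 971 7 971)
(fin 1292 7 1035)))))))))))
(cons (mv 843 (cons (fin 907 7 843)
(mv 845 (cons (fin 909 6 844)
(mv 1165 (cons (fin 1101 4 908)
(mv 1164 (cons (fin 1229 4 972)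
(mv 1228 (cons (fin 971 7 971)
(fin 1292 7 1035)))))))))))
(mv 843 (cons (fin 907 7 843)
(mv 909 (cons (fin 845 6 844)
(mv 1097 (cons (fin 1098 2 1033)
(mv 1101 (cons (fin 1165 4 908)
(mv 1102 (cons (fin 1103 3 1035)
(mv 1166 (cons (fin 1167 0 1099)
(fin 973 4 909)))))))))))))))))))
(cons (mv 908 (cons (fin 844 5 843)
(mv 1163 (cons (fin 971 6 907)
(fin 1227 6 971)))))
(mv 908 (cons (fin 844 5 843)
(mv 1163 (cons (fin 1100 5 907)
(fin 1227 6 971))))))))))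
(cons (mv 972 (cons (cons (mv 908 (cons (fin 844 5 843)
(mv 1163 (cons (fin 1100 5 907)
(fin 971 6 907)))))
(mv 1163 (cons (fin 1227 6 971)
(mv 971 (cons (mv 970 (cons (fin 1038 3 970)
(fin 969 0 969)))
(cons (mv 1162 (cons (fin 1226 5 970)
(mv 1164 (cons (fin 1228 4 971)
(mv 907 (cons (fin 1100 7 907)
(mv 779 (cons (fin 843 4 779)
(mv 906 (cons (fin 842 7 842)
(mv 904 (cons (fin 905 0 904)
(mv 974 (cons (fin 973 3 906)
(mv 1038 (cons (fin 975 2 971)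
(mv 1102 (cons (fin 1103 0 1035)
(mv 1165 (cons (fin 1101 2 1098)
(mv 1229 (cons (fin 1230 0 1162)
(fin 1166 5 973)))))))))))))))))))))))
(mv 970 (cons (fin 969 0 969)
(fin 906 7 906)))))))))
(cons (mv 908 (cons (fin 844 5 843)
(mv 1100 (cons (cons (mv 843 (cons (fin 907 7 843)
(mv 845 (cons (fin 909 6 844)
(mv 1165 (cons (fin 1101 4 908)
(mv 1164 (cons (fin 1229 4 972)
(mv 1228 (cons (fin 971 7 971)
(fin 1292 7 1035)))))))))))
(mv 845 (cons (fin 909 6 844)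
(mv 1165 (cons (fin 1101 4 908)
(mv 1164 (cons (fin 1229 4 972)
(mv 1228 (cons (fin 971 7 971)
(fin 1292 7 1035))))))))))
(cons (mv 843 (cons (fin 907 7 843)
(mv 909 (cons (fin 845 6 844)
(mv 1164 (cons (fin 973 6 908)
(mv 1228 (cons (fin 971 7 971)
(fin 1292 7 1035)))))))))
(cons (mv 843 (cons (fin 907 7 843)
(mv 1165 (cons (fin 1101 4 908)
(mv 1164 (cons (fin 1229 4 972)
(mv 1228 (cons (fin 971 7 971)
(fin 1292 7 1035)))))))))
(mv 843 (cons (fin 907 7 843)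
(mv 909 (cons (fin 845 6 844)
(mv 1101 (cons (fin 1165 4 908)
(mv 1102 (cons (fin 1103 3 1035)
(mv 1166 (cons (fin 1167 0 1099)
(fin 973 4 909)))))))))))))))))
(cons (mv 908 (cons (fin 844 5 843)
(mv 1163 (cons (fin 1100 5 907)
(fin 1227 6 971)))))
(mv 908 (cons (fin 844 5 843)
(mv 1163 (cons (fin 971 6 907)
(fin 1227 6 971)))))))))
(mv 1038 (cons (fin 1098 1 1034)
(mv 970 (cons (fin 971 3 970)
(mv 974 (cons (fin 975 2 971)
(mv 1102 (cons (fin 1103 0 1035)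
(mv 910 (cons (mv 1101 (cons (fin 846 5 845)
(fin 1165 5 909)))
(cons (mv 845 (cons (fin 909 7 845)
(mv 846 (cons (fin 781 7 781)
(mv 847 (cons (fin 783 6 782)
(fin 911 6 846)))))))
(mv 845 (cons (fin 909 7 845)
(mv 847 (cons (fin 911 6 846)
(mv 1165 (cons (fin 1101 5 909)
(mv 1166 (cons (fin 1229 5 973)
(mv 1230 (cons (fin 973 7 973)
(mv 1231 (cons (fin 1167 4 974)
(fin 1295 4 1038))))))))))))))))))))))))))))
(cons (mv 1034 (cons (cons (mv 969 (cons (fin 970 3 969)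
(mv 973 (cons (fin 974 2 970)
(mv 972 (cons (fin 1033 2 969)
(mv 1097 (cons (fin 1098 1 1033)
(mv 1101 (cons (fin 1102 0 1034)
(mv 908 (cons (fin 1165 7 908)
(fin 844 4 844)))))))))))))
(cons (mv 969 (cons (fin 970 3 969)
(mv 1097 (cons (fin 1098 1 1033)
(mv 1033 (cons (fin 1096 1 1032)
(mv 1101 (cons (fin 1100 0 1033)
(fin 1102 0 1034)))))))))
(mv 969 (cons (fin 970 3 969)
(mv 973 (cons (fin 974 2 970)
(mv 1033 (cons (fin 972 2 969)
(mv 1097 (cons (fin 1096 1 1032)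
(fin 1098 1 1033)))))))))))
(cons (mv 969 (cons (fin 970 3 969)
(mv 973 (cons (fin 974 2 970)
(mv 972 (cons (fin 1033 2 969)
(mv 1101 (cons (fin 1102 0 1034)
(mv 908 (cons (fin 1165 7 908)
(fin 844 4 844)))))))))))
(cons (mv 973 (cons (fin 974 2 970)
(mv 972 (cons (fin 1033 2 969)
(mv 1097 (cons (fin 1098 1 1033)
(mv 1101 (cons (fin 1102 0 1034)
(mv 908 (cons (fin 1165 7 908)
(fin 844 4 844)))))))))))
(mv 969 (cons (fin 970 3 969)
(mv 973 (cons (fin 974 2 970)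
(mv 1097 (cons (fin 1098 1 1033)
(mv 1101 (cons (fin 1102 0 1034)
(mv 909 (cons (mv 1100 (cons (fin 845 5 844)
(fin 1164 5 908)))
(cons (mv 844 (cons (fin 908 7 844)
(mv 845 (cons (fin 780 7 780)
(mv 846 (cons (fin 782 6 781)
(fin 910 6 845)))))))
(mv 844 (cons (fin 908 7 844)
(mv 846 (cons (fin 910 6 845)
(mv 1164 (cons (fin 1100 5 908)
(mv 1165 (cons (fin 1228 5 972)
(mv 1229 (cons (fin 972 7 972)
(mv 1230 (cons (fin 1166 4 973)
(fin 1294 4 1037))))))))))))))))))))))))))))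
(mv 1034 (cons (cons (mv 969 (cons (fin 970 3 969)
(mv 973 (cons (fin 974 2 970)
(mv 972 (cons (fin 1033 2 969)
(mv 1101 (cons (fin 1102 0 1034)
(mv 908 (cons (fin 1165 7 908)
(fin 844 4 844)))))))))))
(mv 970 (cons (fin 969 3 969)
(mv 971 (cons (fin 1038 3 970)
(mv 1101 (cons (fin 1102 0 1034)
(mv 1033 (cons (fin 1100 0 1033)
(mv 1032 (cons (fin 1031 2 967)
(fin 972 2 968))))))))))))
(cons (mv 970 (cons (fin 969 3 969)
(mv 971 (cons (fin 1038 3 970)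
(mv 973 (cons (fin 974 2 970)
(mv 972 (cons (fin 1033 1 969)
(mv 905 (cons (fin 906 3 905)
(mv 909 (cons (fin 910 2 906)
(mv 845 (cons (fin 781 5 780)
(fin 1100 5 844)))))))))))))))
(cons (mv 973 (cons (fin 974 2 970)
(mv 972 (cons (fin 1033 2 969)
(mv 1101 (cons (fin 1102 0 1034)
(mv 908 (cons (fin 1165 7 908)
(fin 844 4 844)))))))))
(mv 969 (cons (fin 970 3 969)
(mv 974 (cons (fin 973 2 970)
(mv 1038 (cons (fin 975 2 971)
(mv 1102 (cons (fin 1101 0 1034)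
(fin 1103 0 1035)))))))))))))))
(cons (cons (mv 1034 (cons (cons (mv 969 (cons (fin 970 3 969)
(mv 1097 (cons (fin 1098 1 1033)
(mv 1033 (cons (fin 1096 1 1032)
(mv 1101 (cons (fin 1100 0 1033)
(fin 1102 0 1034)))))))))
(cons (mv 969 (cons (fin 970 3 969)
(mv 1101 (cons (fin 1102 0 1034)
(mv 1033 (cons (fin 1100 0 1033)
(mv 972 (cons (fin 973 2 969)
(mv 844 (cons (fin 908 4 844)
(mv 1032 (cons (fin 971 2 968)
(mv 1096 (cons (fin 1095 1 1031)
(fin 1097 1 1032)))))))))))))))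
(mv 970 (cons (fin 969 3 969)
(mv 971 (cons (fin 1038 3 970)
(mv 1097 (cons (fin 1098 1 1033)
(mv 1033 (cons (fin 1096 1 1032)
(mv 972 (cons (fin 973 1 969)
(fin 1032 2 968)))))))))))))
(cons (mv 1097 (cons (fin 1098 1 1033)
(mv 1033 (cons (fin 1096 1 1032)
(mv 1101 (cons (fin 1100 0 1033)
(fin 1102 0 1034)))))))
(cons (mv 969 (cons (fin 970 3 969)
(mv 1101 (cons (fin 1102 0 1034)
(mv 1033 (cons (fin 1100 0 1033)
(mv 972 (cons (fin 973 2 969)
(mv 908 (cons (fin 844 4 844)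
(mv 971 (cons (fin 1032 2 968)
(mv 1099 (cons (fin 1163 6 907)
(mv 1098 (cons (fin 1038 1 1034)
(mv 907 (cons (fin 843 5 842)
(fin 1162 5 906)))))))))))))))))))
(mv 969 (cons (fin 970 3 969)
(mv 1098 (cons (fin 1097 1 1033)
(mv 1038 (cons (fin 1099 1 1034)
(mv 1102 (cons (fin 1101 0 1034)
(fin 1103 0 1035)))))))))))))
(mv 1034 (cons (cons (mv 969 (cons (fin 970 3 969)
(mv 973 (cons (fin 974 2 970)
(mv 972 (cons (fin 1033 2 969)
(mv 1098 (cons (fin 1097 1 1033)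
(mv 1099 (cons (fin 1038 1 1034)
(mv 908 (cons (fin 844 5 843)
(mv 1163 (cons (fin 1100 5 907)
(fin 971 6 907)))))))))))))))
(cons (mv 969 (cons (fin 970 3 969)
(mv 973 (cons (fin 974 2 970)
(mv 1033 (cons (fin 972 2 969)
(mv 1096 (cons (fin 1097 1 1032)
(mv 1032 (cons (fin 1095 1 1031)
(mv 1100 (cons (fin 1099 0 1032)
(fin 1101 0 1033)))))))))))))
(mv 970 (cons (fin 969 3 969)
(mv 971 (cons (fin 1038 3 970)
(mv 1097 (cons (fin 1098 1 1033)
(mv 1033 (cons (fin 1096 1 1032)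
(mv 1032 (cons (fin 1031 2 967)
(fin 972 2 968)))))))))))))
(cons (mv 973 (cons (fin 974 2 970)
(mv 972 (cons (fin 1033 2 969)
(mv 1098 (cons (fin 1097 1 1033)
(mv 1099 (cons (fin 1038 1 1034)
(mv 908 (cons (fin 844 5 843)
(mv 1163 (cons (fin 1100 5 907)
(fin 971 6 907)))))))))))))
(cons (mv 970 (cons (fin 969 3 969)
(mv 971 (cons (fin 1038 3 970)
(mv 973 (cons (fin 974 2 970)
(mv 972 (cons (fin 1033 1 969)
(mv 905 (cons (fin 906 3 905)
(mv 909 (cons (fin 910 2 906)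
(mv 845 (cons (fin 781 5 780)
(fin 1100 5 844)))))))))))))))
(mv 969 (cons (fin 970 3 969)
(mv 974 (cons (fin 973 2 970)
(mv 1038 (cons (fin 975 2 971)
(mv 1098 (cons (fin 1097 1 1033)
(fin 1099 1 1034))))))))))))))
(cons (mv 1034 (cons (cons (mv 973 (cons (fin 974 2 970)
(mv 972 (cons (fin 1033 2 969)
(mv 1097 (cons (fin 1098 1 1033)
(mv 1101 (cons (fin 1102 0 1034)
(mv 908 (cons (fin 1165 7 908)
(fin 844 4 844)))))))))))
(mv 973 (cons (fin 974 2 970)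
(mv 972 (cons (fin 1033 2 969)
(mv 1098 (cons (fin 1097 1 1033)
(mv 1099 (cons (fin 1038 1 1034)
(mv 908 (cons (fin 844 5 843)
(mv 1163 (cons (fin 1100 5 907)
(fin 971 6 907))))))))))))))
(cons (mv 1097 (cons (fin 1098 1 1033)
(mv 1033 (cons (fin 1096 1 1032)
(mv 1101 (cons (fin 1100 0 1033)
(fin 1102 0 1034)))))))
(cons (mv 973 (cons (fin 974 2 970)
(mv 972 (cons (fin 1033 2 969)
(mv 1101 (cons (fin 1102 0 1034)
(mv 908 (cons (fin 1165 7 908)
(fin 844 4 844)))))))))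
(mv 973 (cons (fin 974 2 970)
(mv 1098 (cons (fin 1097 1 1033)
(mv 1038 (cons (fin 1099 1 1034)
(mv 1102 (cons (fin 1101 0 1034)
(fin 1103 0 1035)))))))))))))
(cons (mv 1038 (cons (cons (mv 970 (cons (fin 971 3 970)
(mv 974 (cons (fin 975 2 971)
(mv 1034 (cons (fin 969 3 969)
(mv 1098 (cons (fin 1097 1 1033)
(fin 1099 1 1034)))))))))
(mv 970 (cons (fin 971 3 970)
(mv 974 (cons (fin 975 2 971)
(mv 1034 (cons (fin 969 3 969)
(mv 1102 (cons (fin 1101 0 1034)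
(fin 1103 0 1035))))))))))
(cons (mv 974 (cons (fin 975 2 971)
(mv 1098 (cons (fin 1099 1 1034)
(mv 1034 (cons (fin 1097 1 1033)
(mv 1102 (cons (fin 1101 0 1034)
(fin 1103 0 1035)))))))))
(cons (mv 970 (cons (fin 971 3 970)
(mv 1034 (cons (fin 969 3 969)
(mv 1098 (cons (fin 1097 1 1033)
(fin 1099 1 1034)))))))
(mv 970 (cons (fin 971 3 970)
(mv 974 (cons (fin 975 2 971)
(mv 1098 (cons (fin 1099 1 1034)
(mv 1102 (cons (fin 1103 0 1035)
(mv 910 (cons (mv 1101 (cons (fin 846 5 845)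
(fin 1165 5 909)))
(cons (mv 845 (cons (fin 909 7 845)
(mv 846 (cons (fin 781 7 781)
(mv 847 (cons (fin 783 6 782)
(fin 911 6 846)))))))
(mv 845 (cons (fin 909 7 845)
(mv 847 (cons (fin 911 6 846)
(mv 1166 (cons (cons (mv 1165 (cons (fin 1101 5 909)
(fin 1229 5 973)))
(mv 1231 (cons (fin 1167 4 974)
(mv 1230 (cons (fin 1295 4 1038)
(mv 1293 (cons (fin 1229 5 1037)
(mv 1294 (cons (fin 1101 7 1037)
(fin 1357 5 1101))))))))))
(cons (mv 1229 (cons (fin 1165 5 973)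
(mv 1230 (cons (fin 1293 5 1037)
(mv 1231 (cons (fin 1167 4 974)
(fin 1295 4 1038)))))))
(mv 1101 (cons (fin 1165 5 909)
(mv 1230 (cons (fin 1294 7 1037)
(mv 1231 (cons (fin 1167 4 974)
(fin 1295 4 1038)))))))))))))))))))))))))))))
(mv 1038 (cons (cons (mv 970 (cons (fin 971 3 970)
(mv 974 (cons (fin 975 2 971)
(mv 1034 (cons (fin 969 3 969)
(fin 973 2 970)))))))
(mv 970 (cons (fin 971 3 970)
(mv 1034 (cons (fin 969 3 969)
(mv 1098 (cons (fin 1097 1 1033)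
(fin 1099 1 1034))))))))
(cons (mv 974 (cons (fin 975 2 971)
(mv 973 (cons (fin 1034 2 970)
(mv 1098 (cons (fin 1099 1 1034)
(mv 1102 (cons (fin 1103 0 1035)
(mv 909 (cons (fin 1166 7 909)
(fin 845 4 845)))))))))))
(mv 970 (cons (fin 971 3 970)
(mv 974 (cons (fin 975 2 971)
(mv 1098 (cons (fin 1099 1 1034)
(mv 1102 (cons (fin 1103 0 1035)
(mv 1166 (cons (mv 973 (cons (fin 909 7 909)
(fin 1230 7 973)))
(cons (mv 1229 (cons (fin 1165 5 973)
(mv 1230 (cons (fin 1293 5 1037)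
(mv 1231 (cons (fin 1167 4 974)
(fin 1295 4 1038)))))))
(mv 1165 (cons (fin 1229 5 973)
(mv 1167 (cons (fin 1231 4 974)
(mv 910 (cons (cons (mv 909 (cons (fin 845 7 845)
(fin 973 7 909)))
(mv 847 (cons (fin 911 6 846)
(mv 846 (cons (fin 783 6 782)
(mv 781 (cons (fin 845 7 781)
(mv 782 (cons (fin 717 7 717)
(fin 973 5 781))))))))))
(cons (mv 845 (cons (fin 909 7 845)
(mv 846 (cons (fin 781 7 781)
(mv 847 (cons (fin 783 6 782)
(fin 911 6 846)))))))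
(mv 847 (cons (fin 911 6 846)
(mv 846 (cons (fin 783 6 782)
(mv 973 (cons (fin 909 7 909)
(fin 782 5 781)))))))))))))))))))))))))))))))))
(cons (mv 1035 (cons (cons (mv 1034 (cons (cons (mv 969 (cons (fin 970 3 969)
(mv 968 (cons (fin 1033 3 968)
(mv 973 (cons (fin 974 2 970)
(mv 1098 (cons (fin 1097 1 1033)
(mv 1038 (cons (fin 1099 1 1034)
(mv 1102 (cons (fin 1101 0 1034)
(fin 1103 0 1035)))))))))))))
(cons (mv 969 (cons (fin 970 3 969)
(mv 968 (cons (fin 1033 3 968)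
(mv 974 (cons (fin 973 2 970)
(mv 1038 (cons (fin 975 2 971)
(mv 1098 (cons (fin 1097 1 1033)
(fin 1099 1 1034)))))))))))
(mv 969 (cons (fin 970 3 969)
(mv 968 (cons (fin 1033 3 968)
(mv 1098 (cons (fin 1097 1 1033)
(mv 1038 (cons (fin 1099 1 1034)
(mv 1102 (cons (fin 1101 0 1034)
(fin 1103 0 1035)))))))))))))
(cons (mv 969 (cons (fin 970 3 969)
(mv 968 (cons (fin 1033 3 968)
(mv 974 (cons (fin 973 2 970)
(mv 1038 (cons (fin 975 2 971)
(mv 1102 (cons (fin 1101 0 1034)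
(fin 1103 0 1035)))))))))))
(cons (mv 973 (cons (fin 974 2 970)
(mv 972 (cons (fin 1033 2 969)
(mv 1097 (cons (fin 1098 1 1033)
(mv 1101 (cons (fin 1102 0 1034)
(mv 908 (cons (fin 1165 7 908)
(fin 844 4 844)))))))))))
(mv 969 (cons (fin 970 3 969)
(mv 973 (cons (fin 974 2 970)
(mv 1098 (cons (fin 1097 1 1033)
(mv 1038 (cons (fin 1099 1 1034)
(mv 1102 (cons (fin 1101 0 1034)
(fin 1103 0 1035)))))))))))))))
(cons (mv 971 (cons (cons (mv 970 (cons (fin 1038 3 970)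
(mv 969 (cons (fin 968 0 968)
(fin 972 0 969)))))
(mv 1100 (cons (cons (mv 907 (cons (fin 843 4 843)
(mv 1164 (cons (fin 972 7 907)
(fin 1228 7 971)))))
(mv 907 (cons (fin 843 4 843)
(mv 1099 (cons (mv 1098 (cons (fin 1097 2 1033)
(fin 1162 5 906)))
(mv 908 (cons (fin 844 6 843)
(mv 972 (cons (fin 1163 5 907)
(mv 909 (cons (fin 845 6 844)
(mv 910 (cons (fin 970 1 906)
(fin 911 1 907))))))))))))))
(cons (mv 1164 (cons (fin 1228 7 971)
(mv 972 (cons (mv 909 (cons (fin 973 6 908)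
(mv 908 (cons (fin 845 6 844)
(mv 844 (cons (fin 780 5 779)
(fin 1099 5 843)))))))
(cons (mv 969 (cons (fin 970 0 969)
(mv 1163 (cons (fin 1227 5 971)
(mv 908 (cons (fin 1099 5 907)
(mv 844 (cons (fin 780 5 779)
(fin 1101 4 844)))))))))
(mv 969 (cons (fin 970 0 969)
(mv 973 (cons (fin 909 6 908)
(mv 974 (cons (fin 975 1 971)
(mv 910 (cons (fin 911 2 907)
(mv 1165 (cons (fin 1101 6 909)
(fin 1229 4 972))))))))))))))))
(mv 907 (cons (fin 843 4 843)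
(mv 1164 (cons (fin 1228 7 971)
(fin 1099 4 907)))))))))
(cons (mv 1100 (cons (cons (mv 907 (cons (fin 843 4 843)
(mv 1164 (cons (fin 972 7 907)
(fin 1228 7 971)))))
(mv 907 (cons (fin 843 4 843)
(mv 1099 (cons (mv 1098 (cons (fin 1038 1 1034)
(fin 1097 2 1033)))
(mv 908 (cons (fin 844 6 843)
(mv 972 (cons (fin 1163 5 907)
(mv 909 (cons (fin 845 6 844)
(mv 910 (cons (fin 911 1 907)
(mv 846 (cons (fin 847 2 843)
(mv 1101 (cons (fin 973 6 845)
(fin 1165 4 908))))))))))))))))))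
(cons (mv 1164 (cons (fin 1228 7 971)
(mv 972 (cons (mv 909 (cons (fin 973 6 908)
(mv 908 (cons (fin 845 6 844)
(mv 844 (cons (fin 780 5 779)
(fin 1099 5 843)))))))
(cons (mv 1163 (cons (fin 1227 5 971)
(mv 908 (cons (fin 1099 5 907)
(mv 844 (cons (fin 780 5 779)
(fin 1101 4 844)))))))
(mv 973 (cons (fin 909 6 908)
(mv 974 (cons (fin 975 1 971)
(mv 910 (cons (fin 911 2 907)
(mv 1165 (cons (fin 1101 6 909)
(fin 1229 4 972))))))))))))))
(mv 907 (cons (fin 843 4 843)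
(mv 1164 (cons (fin 1228 7 971)
(fin 1099 4 907))))))))
(mv 1038 (cons (fin 970 3 970)
(mv 974 (cons (fin 975 2 971)
(mv 1099 (cons (fin 1098 1 1034)
(mv 1102 (cons (fin 1103 0 1035)
(mv 1166 (cons (mv 973 (cons (fin 909 7 909)
(fin 1230 7 973)))
(cons (mv 1165 (cons (fin 1229 5 973)
(mv 910 (cons (fin 1101 5 909)
(mv 845 (cons (fin 909 7 845)
(mv 781 (cons (fin 846 7 781)
(mv 847 (cons (fin 911 6 846)
(mv 1167 (cons (fin 1231 4 974)
(mv 1164 (cons (fin 1100 3 1099)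
(mv 1228 (cons (fin 1227 1 1163)
(fin 1163 4 971)))))))))))))))))
(mv 973 (cons (fin 1230 7 973)
(mv 1165 (cons (fin 1229 5 973)
(mv 910 (cons (fin 1101 5 909)
(mv 782 (cons (fin 846 5 781)
(mv 847 (cons (fin 911 6 846)
(mv 1167 (cons (fin 1231 4 974)
(mv 1164 (cons (fin 1100 3 1099)
(mv 1228 (cons (fin 1227 1 1163)
(fin 1163 4 971)))))))))))))))))))))))))))))))
(mv 1034 (cons (cons (mv 969 (cons (fin 970 3 969)
(mv 973 (cons (fin 974 2 970)
(mv 1033 (cons (fin 968 3 968)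
(fin 972 2 969)))))))
(mv 969 (cons (fin 970 3 969)
(mv 1033 (cons (fin 968 3 968)
(mv 1097 (cons (fin 1096 1 1032)
(fin 1098 1 1033))))))))
(cons (mv 973 (cons (fin 974 2 970)
(mv 972 (cons (fin 1033 2 969)
(mv 1097 (cons (fin 1098 1 1033)
(mv 1101 (cons (fin 1102 0 1034)
(mv 908 (cons (fin 1165 7 908)
(fin 844 4 844)))))))))))
(mv 969 (cons (fin 970 3 969)
(mv 973 (cons (fin 974 2 970)
(mv 1097 (cons (fin 1098 1 1033)
(mv 1101 (cons (fin 1102 0 1034)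
(mv 1165 (cons (mv 972 (cons (fin 908 7 908)
(fin 1229 7 972)))
(cons (mv 1164 (cons (fin 1228 5 972)
(mv 909 (cons (fin 1100 5 908)
(mv 844 (cons (fin 908 7 844)
(mv 845 (cons (fin 780 7 780)
(mv 846 (cons (fin 782 6 781)
(fin 910 6 845)))))))))))
(mv 972 (cons (fin 1229 7 972)
(mv 1164 (cons (fin 1228 5 972)
(mv 909 (cons (fin 1100 5 908)
(mv 845 (cons (fin 781 5 780)
(mv 846 (cons (fin 782 6 781)
(fin 910 6 845)))))))))))))))))))))))))))
(cons (cons (mv 1034 (cons (cons (mv 969 (cons (fin 970 3 969)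
(mv 968 (cons (fin 1033 3 968)
(mv 974 (cons (fin 973 2 970)
(mv 1038 (cons (fin 975 2 971)
(mv 1102 (cons (fin 1101 0 1034)
(fin 1103 0 1035)))))))))))
(mv 969 (cons (fin 970 3 969)
(mv 1033 (cons (fin 968 3 968)
(mv 1101 (cons (fin 1100 0 1033)
(fin 1102 0 1034))))))))
(cons (mv 969 (cons (fin 970 3 969)
(mv 973 (cons (fin 974 2 970)
(mv 1033 (cons (fin 968 3 968)
(fin 972 2 969)))))))
(cons (mv 973 (cons (fin 974 2 970)
(mv 972 (cons (fin 1033 2 969)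
(mv 1101 (cons (fin 1102 0 1034)
(mv 908 (cons (fin 1165 7 908)
(fin 844 4 844)))))))))
(mv 969 (cons (fin 970 3 969)
(mv 974 (cons (fin 973 2 970)
(mv 1038 (cons (fin 975 2 971)
(mv 1102 (cons (fin 1101 0 1034)
(fin 1103 0 1035)))))))))))))
(mv 1034 (cons (cons (mv 969 (cons (fin 970 3 969)
(mv 968 (cons (fin 1033 3 968)
(mv 974 (cons (fin 973 2 970)
(mv 1038 (cons (fin 975 2 971)
(mv 1098 (cons (fin 1097 1 1033)
(fin 1099 1 1034)))))))))))
(mv 969 (cons (fin 970 3 969)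
(mv 973 (cons (fin 974 2 970)
(mv 1033 (cons (fin 968 3 968)
(fin 972 2 969))))))))
(cons (mv 969 (cons (fin 970 3 969)
(mv 1033 (cons (fin 968 3 968)
(mv 1097 (cons (fin 1096 1 1032)
(fin 1098 1 1033)))))))
(cons (mv 973 (cons (fin 974 2 970)
(mv 972 (cons (fin 1033 2 969)
(mv 1098 (cons (fin 1097 1 1033)
(mv 1099 (cons (fin 1038 1 1034)
(mv 908 (cons (fin 844 5 843)
(mv 1163 (cons (fin 1100 5 907)
(fin 971 6 907)))))))))))))
(mv 969 (cons (fin 970 3 969)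
(mv 974 (cons (fin 973 2 970)
(mv 1038 (cons (fin 975 2 971)
(mv 1098 (cons (fin 1097 1 1033)
(fin 1099 1 1034))))))))))))))
(cons (mv 1034 (cons (cons (mv 969 (cons (fin 970 3 969)
(mv 968 (cons (fin 1033 3 968)
(mv 1098 (cons (fin 1097 1 1033)
(mv 1038 (cons (fin 1099 1 1034)
(mv 1102 (cons (fin 1101 0 1034)
(fin 1103 0 1035)))))))))))
(mv 969 (cons (fin 970 3 969)
(mv 1033 (cons (fin 968 3 968)
(mv 1101 (cons (fin 1100 0 1033)
(fin 1102 0 1034))))))))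
(cons (mv 969 (cons (fin 970 3 969)
(mv 1033 (cons (fin 968 3 968)
(mv 1097 (cons (fin 1096 1 1032)
(fin 1098 1 1033)))))))
(cons (mv 1097 (cons (fin 1098 1 1033)
(mv 1033 (cons (fin 1096 1 1032)
(mv 1101 (cons (fin 1100 0 1033)
(fin 1102 0 1034)))))))
(mv 969 (cons (fin 970 3 969)
(mv 1098 (cons (fin 1097 1 1033)
(mv 1038 (cons (fin 1099 1 1034)
(mv 1102 (cons (fin 1101 0 1034)
(fin 1103 0 1035)))))))))))))
(mv 1034 (cons (cons (mv 973 (cons (fin 974 2 970)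
(mv 972 (cons (fin 1033 2 969)
(mv 1097 (cons (fin 1098 1 1033)
(mv 1101 (cons (fin 1102 0 1034)
(mv 908 (cons (fin 1165 7 908)
(fin 844 4 844)))))))))))
(mv 973 (cons (fin 974 2 970)
(mv 972 (cons (fin 1033 2 969)
(mv 1098 (cons (fin 1097 1 1033)
(mv 1099 (cons (fin 1038 1 1034)
(mv 908 (cons (fin 844 5 843)
(mv 1163 (cons (fin 1100 5 907)
(fin 971 6 907))))))))))))))
(cons (mv 1097 (cons (fin 1098 1 1033)
(mv 1033 (cons (fin 1096 1 1032)
(mv 1101 (cons (fin 1100 0 1033)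
(fin 1102 0 1034)))))))
(cons (mv 973 (cons (fin 974 2 970)
(mv 972 (cons (fin 1033 2 969)
(mv 1101 (cons (fin 1102 0 1034)
(mv 908 (cons (fin 1165 7 908)
(fin 844 4 844)))))))))
(mv 973 (cons (fin 974 2 970)
(mv 1098 (cons (fin 1097 1 1033)
(mv 1038 (cons (fin 1099 1 1034)
(mv 1102 (cons (fin 1101 0 1034)
(fin 1103 0 1035)))))))))))))))))
(mv 1035 (cons (cons (mv 1034 (cons (cons (mv 969 (cons (fin 970 3 969)
(mv 968 (cons (fin 1033 3 968)
(mv 973 (cons (fin 974 2 970)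
(mv 1098 (cons (fin 1097 1 1033)
(mv 1038 (cons (fin 1099 1 1034)
(mv 1102 (cons (fin 1101 0 1034)
(fin 1103 0 1035)))))))))))))
(cons (mv 969 (cons (fin 970 3 969)
(mv 968 (cons (fin 1033 3 968)
(mv 1098 (cons (fin 1097 1 1033)
(mv 1038 (cons (fin 1099 1 1034)
(mv 1102 (cons (fin 1101 0 1034)
(fin 1103 0 1035)))))))))))
(mv 969 (cons (fin 970 3 969)
(mv 968 (cons (fin 1033 3 968)
(mv 974 (cons (fin 973 2 970)
(mv 1038 (cons (fin 975 2 971)
(mv 1098 (cons (fin 1097 1 1033)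
(fin 1099 1 1034)))))))))))))
(cons (mv 973 (cons (fin 974 2 970)
(mv 972 (cons (fin 1033 2 969)
(mv 1097 (cons (fin 1098 1 1033)
(mv 1101 (cons (fin 1102 0 1034)
(mv 908 (cons (fin 1165 7 908)
(fin 844 4 844)))))))))))
(cons (mv 969 (cons (fin 970 3 969)
(mv 968 (cons (fin 1033 3 968)
(mv 974 (cons (fin 973 2 970)
(mv 1038 (cons (fin 975 2 971)
(mv 1102 (cons (fin 1101 0 1034)
(fin 1103 0 1035)))))))))))
(mv 969 (cons (fin 970 3 969)
(mv 973 (cons (fin 974 2 970)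
(mv 1098 (cons (fin 1097 1 1033)
(mv 1038 (cons (fin 1099 1 1034)
(mv 1102 (cons (fin 1101 0 1034)
(fin 1103 0 1035)))))))))))))))
(cons (mv 1099 (cons (cons (mv 1098 (cons (fin 1038 1 1034)
(mv 1097 (cons (fin 1096 2 1032)
(fin 1100 2 1033)))))
(mv 972 (cons (cons (mv 908 (cons (fin 844 5 843)
(mv 1163 (cons (fin 1100 5 907)
(fin 971 6 907)))))
(mv 1163 (cons (fin 1227 6 971)
(mv 971 (cons (mv 970 (cons (fin 969 0 969)
(fin 906 7 906)))
(cons (mv 1164 (cons (fin 1228 4 971)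
(mv 907 (cons (fin 1100 7 907)
(mv 842 (cons (fin 906 7 842)
(mv 843 (cons (fin 778 7 778)
(fin 779 4 779)))))))))
(mv 969 (cons (fin 970 0 969)
(mv 1164 (cons (fin 1228 4 971)
(mv 1100 (cons (fin 907 7 907)
(mv 909 (cons (fin 973 6 908)
(mv 1098 (cons (fin 1097 2 1033)
(mv 1165 (cons (fin 1166 3 1098)
(fin 1229 4 972)))))))))))))))))))
(cons (mv 908 (cons (fin 844 5 843)
(mv 1100 (cons (cons (mv 843 (cons (fin 907 7 843)
(mv 845 (cons (fin 909 6 844)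
(mv 1097 (cons (fin 1098 2 1033)
(mv 1165 (cons (fin 1101 4 908)
(mv 1164 (cons (fin 1229 4 972)
(mv 1228 (cons (fin 971 7 971)
(fin 1292 7 1035)))))))))))))
(cons (mv 843 (cons (fin 907 7 843)
(mv 909 (cons (fin 845 6 844)
(mv 1097 (cons (fin 1098 2 1033)
(mv 1164 (cons (fin 973 6 908)
(mv 1228 (cons (fin 971 7 971)
(fin 1292 7 1035)))))))))))
(mv 845 (cons (fin 909 6 844)
(mv 1097 (cons (fin 1098 2 1033)
(mv 1165 (cons (fin 1101 4 908)
(mv 1164 (cons (fin 1229 4 972)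
(mv 1228 (cons (fin 971 7 971)
(fin 1292 7 1035)))))))))))))
(cons (mv 843 (cons (fin 907 7 843)
(mv 1097 (cons (fin 1098 2 1033)
(mv 1165 (cons (fin 1101 4 908)
(mv 1164 (cons (fin 1229 4 972)
(mv 1228 (cons (fin 971 7 971)
(fin 1292 7 1035)))))))))))
(cons (mv 843 (cons (fin 907 7 843)
(mv 845 (cons (fin 909 6 844)
(mv 1165 (cons (fin 1101 4 908)
(mv 1164 (cons (fin 1229 4 972)
(mv 1228 (cons (fin 971 7 971)
(fin 1292 7 1035)))))))))))
(mv 843 (cons (fin 907 7 843)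
(mv 909 (cons (fin 845 6 844)
(mv 1097 (cons (fin 1098 2 1033)
(mv 1101 (cons (fin 1165 4 908)
(mv 1102 (cons (fin 1103 3 1035)
(mv 1166 (cons (fin 1167 0 1099)
(fin 973 4 909)))))))))))))))))))
(cons (mv 908 (cons (fin 844 5 843)
(mv 1163 (cons (fin 971 6 907)
(fin 1227 6 971)))))
(mv 908 (cons (fin 844 5 843)
(mv 1163 (cons (fin 1100 5 907)
(fin 1227 6 971))))))))))
(cons (mv 972 (cons (cons (mv 908 (cons (fin 844 5 843)
(mv 1163 (cons (fin 1100 5 907)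
(fin 971 6 907)))))
(mv 1163 (cons (fin 1227 6 971)
(mv 971 (cons (mv 970 (cons (fin 1038 3 970)
(fin 969 0 969)))
(mv 1164 (cons (fin 1228 4 971)
(mv 907 (cons (fin 1100 7 907)
(mv 842 (cons (fin 906 7 842)
(mv 843 (cons (fin 778 7 778)
(fin 779 4 779))))))))))))))
(cons (mv 908 (cons (fin 844 5 843)
(mv 1100 (cons (cons (mv 843 (cons (fin 907 7 843)
(mv 845 (cons (fin 909 6 844)
(mv 1165 (cons (fin 1101 4 908)
(mv 1164 (cons (fin 1229 4 972)
(mv 1228 (cons (fin 971 7 971)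
(fin 1292 7 1035)))))))))))
(mv 845 (cons (fin 909 6 844)
(mv 1165 (cons (fin 1101 4 908)
(mv 1164 (cons (fin 1229 4 972)
(mv 1228 (cons (fin 971 7 971)
(fin 1292 7 1035))))))))))
(cons (mv 843 (cons (fin 907 7 843)
(mv 909 (cons (fin 845 6 844)
(mv 1164 (cons (fin 973 6 908)
(mv 1228 (cons (fin 971 7 971)
(fin 1292 7 1035)))))))))
(cons (mv 843 (cons (fin 907 7 843)
(mv 1165 (cons (fin 1101 4 908)
(mv 1164 (cons (fin 1229 4 972)
(mv 1228 (cons (fin 971 7 971)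
(fin 1292 7 1035)))))))))
(mv 843 (cons (fin 907 7 843)
(mv 909 (cons (fin 845 6 844)
(mv 1101 (cons (fin 1165 4 908)
(mv 1102 (cons (fin 1103 3 1035)
(mv 1166 (cons (fin 1167 0 1099)
(fin 973 4 909)))))))))))))))))
(cons (mv 908 (cons (fin 844 5 843)
(mv 1163 (cons (fin 1100 5 907)
(fin 1227 6 971)))))
(mv 908 (cons (fin 844 5 843)
(mv 1163 (cons (fin 971 6 907)
(fin 1227 6 971)))))))))
(mv 1038 (cons (fin 1098 1 1034)
(mv 970 (cons (fin 971 3 970)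
(mv 974 (cons (fin 975 2 971)
(mv 1102 (cons (fin 1103 0 1035)
(mv 910 (cons (mv 1101 (cons (fin 846 5 845)
(fin 1165 5 909)))
(cons (mv 845 (cons (fin 909 7 845)
(mv 846 (cons (fin 781 7 781)
(mv 847 (cons (fin 783 6 782)
(fin 911 6 846)))))))
(mv 845 (cons (fin 909 7 845)
(mv 847 (cons (fin 911 6 846)
(mv 1165 (cons (fin 1101 5 909)
(mv 1166 (cons (fin 1229 5 973)
(mv 1230 (cons (fin 973 7 973)
(mv 1231 (cons (fin 1167 4 974)
(fin 1295 4 1038)))))))))))))))))))))))))))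
(mv 1034 (cons (cons (mv 969 (cons (fin 970 3 969)
(mv 973 (cons (fin 974 2 970)
(mv 1033 (cons (fin 968 3 968)
(fin 972 2 969)))))))
(mv 969 (cons (fin 970 3 969)
(mv 1033 (cons (fin 968 3 968)
(mv 1097 (cons (fin 1096 1 1032)
(fin 1098 1 1033))))))))
(cons (mv 973 (cons (fin 974 2 970)
(mv 972 (cons (fin 1033 2 969)
(mv 1097 (cons (fin 1098 1 1033)
(mv 1101 (cons (fin 1102 0 1034)
(mv 908 (cons (fin 1165 7 908)
(fin 844 4 844)))))))))))
(mv 969 (cons (fin 970 3 969)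
(mv 973 (cons (fin 974 2 970)
(mv 1097 (cons (fin 1098 1 1033)
(mv 1101 (cons (fin 1102 0 1034)
(mv 909 (cons (mv 1100 (cons (fin 845 5 844)
(fin 1164 5 908)))
(cons (mv 844 (cons (fin 908 7 844)
(mv 845 (cons (fin 780 7 780)
(mv 846 (cons (fin 782 6 781)
(fin 910 6 845)))))))
(mv 844 (cons (fin 908 7 844)
(mv 846 (cons (fin 910 6 845)
(mv 1164 (cons (fin 1100 5 908)
(mv 1165 (cons (fin 1228 5 972)
(mv 1229 (cons (fin 972 7 972)
(mv 1230 (cons (fin 1166 4 973)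
(fin 1294 4 1037)))))))))))))))))))))))))))))
(cons (cons (mv 1034 (cons (cons (mv 973 (cons (fin 974 2 970)
(mv 972 (cons (fin 1033 2 969)
(mv 1097 (cons (fin 1098 1 1033)
(mv 1101 (cons (fin 1102 0 1034)
(mv 908 (cons (fin 1165 7 908)
(fin 844 4 844)))))))))))
(mv 973 (cons (fin 974 2 970)
(mv 972 (cons (fin 1033 2 969)
(mv 1098 (cons (fin 1097 1 1033)
(mv 1099 (cons (fin 1038 1 1034)
(mv 908 (cons (fin 844 5 843)
(mv 1163 (cons (fin 1100 5 907)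
(fin 971 6 907))))))))))))))
(cons (mv 1097 (cons (fin 1098 1 1033)
(mv 1033 (cons (fin 1096 1 1032)
(mv 1101 (cons (fin 1100 0 1033)
(fin 1102 0 1034)))))))
(cons (mv 973 (cons (fin 974 2 970)
(mv 972 (cons (fin 1033 2 969)
(mv 1101 (cons (fin 1102 0 1034)
(mv 908 (cons (fin 1165 7 908)
(fin 844 4 844)))))))))
(mv 973 (cons (fin 974 2 970)
(mv 1098 (cons (fin 1097 1 1033)
(mv 1038 (cons (fin 1099 1 1034)
(mv 1102 (cons (fin 1101 0 1034)
(fin 1103 0 1035)))))))))))))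
(mv 1034 (cons (cons (mv 969 (cons (fin 970 3 969)
(mv 968 (cons (fin 1033 3 968)
(mv 1098 (cons (fin 1097 1 1033)
(mv 1038 (cons (fin 1099 1 1034)
(mv 1102 (cons (fin 1101 0 1034)
(fin 1103 0 1035)))))))))))
(mv 1097 (cons (fin 1098 1 1033)
(mv 1033 (cons (fin 1096 1 1032)
(mv 1101 (cons (fin 1100 0 1033)
(fin 1102 0 1034))))))))
(cons (mv 969 (cons (fin 970 3 969)
(mv 1033 (cons (fin 968 3 968)
(mv 1097 (cons (fin 1096 1 1032)
(fin 1098 1 1033)))))))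
(cons (mv 969 (cons (fin 970 3 969)
(mv 1033 (cons (fin 968 3 968)
(mv 1101 (cons (fin 1100 0 1033)
(fin 1102 0 1034)))))))
(mv 969 (cons (fin 970 3 969)
(mv 1098 (cons (fin 1097 1 1033)
(mv 1038 (cons (fin 1099 1 1034)
(mv 1102 (cons (fin 1101 0 1034)
(fin 1103 0 1035))))))))))))))
(cons (mv 1034 (cons (cons (mv 969 (cons (fin 970 3 969)
(mv 968 (cons (fin 1033 3 968)
(mv 974 (cons (fin 973 2 970)
(mv 1038 (cons (fin 975 2 971)
(mv 1098 (cons (fin 1097 1 1033)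
(fin 1099 1 1034)))))))))))
(mv 973 (cons (fin 974 2 970)
(mv 972 (cons (fin 1033 2 969)
(mv 1098 (cons (fin 1097 1 1033)
(mv 1099 (cons (fin 1038 1 1034)
(mv 908 (cons (fin 844 5 843)
(mv 1163 (cons (fin 1100 5 907)
(fin 971 6 907))))))))))))))
(cons (mv 969 (cons (fin 970 3 969)
(mv 1033 (cons (fin 968 3 968)
(mv 1097 (cons (fin 1096 1 1032)
(fin 1098 1 1033)))))))
(cons (mv 969 (cons (fin 970 3 969)
(mv 973 (cons (fin 974 2 970)
(mv 1033 (cons (fin 968 3 968)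
(fin 972 2 969)))))))
(mv 969 (cons (fin 970 3 969)
(mv 974 (cons (fin 973 2 970)
(mv 1038 (cons (fin 975 2 971)
(mv 1098 (cons (fin 1097 1 1033)
(fin 1099 1 1034)))))))))))))
(mv 1034 (cons (cons (mv 969 (cons (fin 970 3 969)
(mv 968 (cons (fin 1033 3 968)
(mv 974 (cons (fin 973 2 970)
(mv 1038 (cons (fin 975 2 971)
(mv 1102 (cons (fin 1101 0 1034)
(fin 1103 0 1035)))))))))))
(mv 969 (cons (fin 970 3 969)
(mv 1033 (cons (fin 968 3 968)
(mv 1101 (cons (fin 1100 0 1033)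
(fin 1102 0 1034))))))))
(cons (mv 969 (cons (fin 970 3 969)
(mv 973 (cons (fin 974 2 970)
(mv 1033 (cons (fin 968 3 968)
(fin 972 2 969)))))))
(cons (mv 973 (cons (fin 974 2 970)
(mv 972 (cons (fin 1033 2 969)
(mv 1101 (cons (fin 1102 0 1034)
(mv 908 (cons (fin 1165 7 908)
(fin 844 4 844)))))))))
(mv 969 (cons (fin 970 3 969)
(mv 974 (cons (fin 973 2 970)
(mv 1038 (cons (fin 975 2 971)
(mv 1102 (cons (fin 1101 0 1034)
(fin 1103 0 1035))))))))))))))))))))))))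
def l96 : Lem := ⟨13254031944712882724506621310649321556018620670345837899455453023597314721787975009848330616026462815765143756135158089473467252075149308743152655366187148242124071246428482498451210046760672027239036899891323305324899173507745103325308665813954110541579506451753178596634830548552232523722901151470534797188661248, 108799051835997369740001390746181729586568412971488315531132251057707033899210906068239165703125877975142596731911506469696396410311398299921592047183835178442794183868471504367717034638244266384587144292113352190246580103650188802878296899200435252615443461427997160151660334281697311453362196927423304291319766311539403015243172598486398680706233899663901571217507424093085940635145185560601498612238811961197843510710883057664, 108799051835997369740001390746181729586568412971488315531132251057707033899210906068239165703125877975142596731911506469696396410311398299921592047183835178442794183868471504367717034638244266384587144292113352190246580103650188802878296899200435252615443461427997160151660334281697311453362196927423304291319766311539403015243172598486398680706233899663901571217507424093085940635145185560601498612238811961197843510710883057664,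 19, 33⟩
theorem l96_valid : l96.Valid :=
  Lem.valid_of_chk t96 t96_valid [1037, 1040] c96 l96 (by decide +kernel)
end Crest.Agent.SnakyAux
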