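import Crest.Agent.S0047_aux.Checker

set_option autoImplicit false
set_option maxRecDepth 100000
namespace Crest.Agent.SnakyAux
open Cert
def t97 : Tbl := Tbl.nil
theorem t97_valid : t97.Valid := Tbl.valid_nil
def c97 : Cert :=
(mv 1101 (cons (cons (cons (cons (mv 1038 (cons (cons (mv 1039 (cons (fin 1100 1 1036)
(mv 972 (cons (fin 973 3 972)
(mv 976 (cons (fin 977 2 973)
(mv 1036 (cons (fin 971 3 971)
(fin 975 2 972)))))))))
(mv 1100 (cons (cons (cons (mv 1099 (cons (fin 1098 2 1034)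
(mv 1102 (cons (cons (mv 1034 (cons (fin 1035 3 1034)
(mv 1162 (cons (fin 1163 1 1098)
(mv 1166 (cons (fin 1167 0 1099)
(mv 973 (cons (fin 1230 7 973)
(fin 909 4 909)))))))))
(mv 1034 (cons (fin 1035 3 1034)
(mv 1163 (cons (fin 1162 1 1098)
(mv 1103 (cons (fin 1164 1 1099)
(mv 1104 (cons (fin 1036 3 1036)
(fin 1105 3 1037))))))))))
(cons (mv 1162 (cons (fin 1163 1 1098)
(mv 1166 (cons (fin 1167 0 1099)
(mv 973 (cons (fin 1230 7 973)
(fin 909 4 909)))))))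
(mv 1034 (cons (fin 1035 3 1034)
(mv 1166 (cons (fin 1167 0 1099)
(mv 973 (cons (fin 1230 7 973)
(fin 909 4 909))))))))))))
(mv 1164 (cons (cons (mv 973 (cons (fin 909 5 908)
(mv 1228 (cons (fin 1165 5 972)
(fin 1036 6 972)))))
(mv 1228 (cons (fin 1292 6 1036)
(mv 1036 (cons (mv 971 (cons (fin 1035 7 971)
(mv 972 (cons (fin 907 7 907)
(mv 908 (cons (fin 844 4 844)
(fin 1165 4 908)))))))
(cons (mv 1227 (cons (fin 1291 5 1035)
(mv 972 (cons (fin 1163 5 971)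
(mv 908 (cons (fin 844 4 844)
(fin 1165 4 908)))))))
(mv 1035 (cons (fin 971 7 971)
(mv 1034 (cons (fin 1033 0 1033)
(fin 1102 0 1034)))))))))))
(cons (mv 973 (cons (fin 909 5 908)
(mv 1165 (cons (cons (mv 908 (cons (fin 972 7 908)
(mv 1166 (cons (fin 1230 4 973)
(mv 1167 (cons (fin 1168 3 1100)
(mv 1103 (cons (fin 1104 2 1100)
(mv 1102 (cons (fin 1163 1 1099)
(mv 1231 (cons (fin 1232 0 1164)
(fin 1295 7 1038)))))))))))))
(mv 1166 (cons (fin 1230 4 973)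
(mv 1167 (cons (fin 1168 3 1100)
(mv 1103 (cons (fin 1104 2 1100)
(mv 1102 (cons (fin 1163 1 1099)
(mv 1231 (cons (fin 1232 0 1164)
(fin 1295 7 1038))))))))))))
(cons (mv 972 (cons (fin 908 7 908)
(mv 970 (cons (fin 971 0 970)
(mv 1036 (cons (fin 1229 7 972)
(mv 1163 (cons (fin 1227 5 971)
(mv 1102 (cons (fin 1103 1 1099)
(fin 1162 2 1098)))))))))))
(mv 908 (cons (fin 972 7 908)
(mv 1230 (cons (fin 1166 4 973)
(mv 1229 (cons (fin 1294 4 1037)
(mv 1293 (cons (fin 1036 7 1036)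
(fin 1357 7 1100))))))))))))))
(cons (mv 973 (cons (fin 909 5 908)
(mv 1228 (cons (fin 1165 5 972)
(fin 1292 6 1036)))))
(mv 973 (cons (fin 909 5 908)
(mv 1228 (cons (fin 1036 6 972)
(fin 1292 6 1036))))))))))
(cons (mv 1099 (cons (fin 1098 2 1034)
(mv 1102 (cons (cons (mv 1034 (cons (fin 1035 3 1034)
(mv 1162 (cons (fin 1163 1 1098)
(mv 1166 (cons (fin 1167 0 1099)
(mv 973 (cons (fin 1230 7 973)
(fin 909 4 909)))))))))
(mv 1035 (cons (fin 1034 3 1034)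
(mv 1036 (cons (fin 1103 3 1035)
(mv 970 (cons (fin 971 3 970)
(mv 1163 (cons (fin 1162 1 1098)
(mv 972 (cons (fin 908 5 907)
(fin 1227 6 971))))))))))))
(cons (mv 1162 (cons (fin 1163 1 1098)
(mv 1166 (cons (fin 1167 0 1099)
(mv 973 (cons (fin 1230 7 973)
(fin 909 4 909)))))))
(mv 1034 (cons (fin 1035 3 1034)
(mv 1166 (cons (fin 1167 0 1099)
(mv 973 (cons (fin 1230 7 973)
(fin 909 4 909))))))))))))
(mv 1099 (cons (fin 1098 2 1034)
(mv 1102 (cons (cons (mv 1034 (cons (fin 1035 3 1034)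
(mv 1162 (cons (fin 1163 1 1098)
(mv 1167 (cons (fin 1166 0 1099)
(mv 1103 (cons (fin 1168 0 1100)
(mv 1104 (cons (fin 1036 3 1036)
(fin 1105 3 1037)))))))))))
(mv 1162 (cons (fin 1163 1 1098)
(mv 1167 (cons (fin 1166 0 1099)
(mv 1103 (cons (fin 1168 0 1100)
(mv 1104 (cons (fin 1036 3 1036)
(fin 1105 3 1037))))))))))
(cons (mv 1034 (cons (fin 1035 3 1034)
(mv 1167 (cons (fin 1166 0 1099)
(mv 1103 (cons (fin 1168 0 1100)
(mv 1104 (cons (fin 1036 3 1036)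
(fin 1105 3 1037)))))))))
(cons (mv 1034 (cons (fin 1035 3 1034)
(mv 1163 (cons (fin 1162 1 1098)
(mv 1103 (cons (fin 1164 1 1099)
(mv 1104 (cons (fin 1036 3 1036)
(fin 1105 3 1037)))))))))
(mv 1034 (cons (fin 1035 3 1034)
(mv 1163 (cons (fin 1162 1 1098)
(mv 1166 (cons (fin 1167 0 1099)
(mv 1230 (cons (fin 1294 7 1037)
(mv 1229 (cons (fin 1293 5 1037)
(mv 1231 (cons (fin 1295 4 1038)
(mv 1164 (cons (fin 1228 3 1163)
(fin 1165 0 1163)))))))))))))))))))))))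
(cons (cons (mv 1098 (cons (fin 1099 2 1034)
(mv 973 (cons (cons (mv 909 (cons (fin 1164 5 908)
(mv 844 (cons (fin 908 7 844)
(mv 845 (cons (fin 780 7 780)
(fin 1036 5 844)))))))
(mv 1165 (cons (cons (cons (mv 908 (cons (fin 972 7 908)
(mv 1164 (cons (fin 1228 5 972)
(mv 1230 (cons (fin 1166 4 973)
(mv 1229 (cons (fin 1294 4 1037)
(mv 1293 (cons (fin 1036 7 1036)
(fin 1357 7 1100)))))))))))
(mv 1164 (cons (fin 1228 5 972)
(mv 1230 (cons (fin 1166 4 973)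
(mv 1229 (cons (fin 1294 4 1037)
(mv 1293 (cons (fin 1036 7 1036)
(fin 1357 7 1100))))))))))
(cons (mv 908 (cons (fin 972 7 908)
(mv 1230 (cons (fin 1166 4 973)
(mv 1229 (cons (fin 1294 4 1037)
(mv 1293 (cons (fin 1036 7 1036)
(mv 1356 (cons (fin 1292 5 1100)
(mv 1357 (cons (fin 1164 7 1100)
(fin 1420 5 1164)))))))))))))
(mv 908 (cons (fin 972 7 908)
(mv 1230 (cons (fin 1166 4 973)
(mv 1229 (cons (fin 1294 4 1037)
(mv 1292 (cons (fin 1228 5 1036)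
(mv 1293 (cons (fin 1036 7 1036)
(fin 1356 5 1100)))))))))))))
(cons (cons (mv 908 (cons (fin 972 7 908)
(mv 1228 (cons (fin 1164 5 972)
(mv 1229 (cons (fin 1292 5 1036)
(mv 1293 (cons (fin 1036 7 1036)
(mv 1294 (cons (fin 1230 4 1037)
(fin 1358 4 1101)))))))))))
(mv 972 (cons (fin 908 7 908)
(mv 970 (cons (fin 971 0 970)
(mv 1036 (cons (fin 1229 7 972)
(mv 1164 (cons (fin 1228 5 972)
(mv 1163 (cons (fin 1227 5 971)
(mv 1162 (cons (fin 1097 3 1097)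
(fin 1161 2 1097))))))))))))))
(cons (mv 908 (cons (fin 972 7 908)
(mv 1228 (cons (fin 1164 5 972)
(mv 1229 (cons (fin 1292 5 1036)
(mv 1230 (cons (fin 1166 4 973)
(fin 1294 4 1037)))))))))
(mv 972 (cons (fin 908 7 908)
(mv 971 (cons (fin 970 0 970)
(mv 1164 (cons (fin 1228 5 972)
(mv 1036 (cons (fin 907 7 907)
(mv 1163 (cons (fin 1227 5 971)
(mv 1162 (cons (fin 1097 3 1097)
(fin 1161 2 1097))))))))))))))))))
(cons (mv 909 (cons (cons (mv 844 (cons (fin 908 7 844)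
(mv 845 (cons (fin 780 7 780)
(fin 1036 5 844)))))
(mv 846 (cons (fin 910 6 845)
(mv 908 (cons (fin 844 7 844)
(mv 1165 (cons (fin 972 7 908)
(mv 1230 (cons (fin 1166 4 973)
(mv 1229 (cons (fin 1294 4 1037)
(mv 1292 (cons (fin 1228 5 1036)
(mv 1293 (cons (fin 1036 7 1036)
(fin 1356 5 1100))))))))))))))))
(cons (mv 845 (cons (fin 1036 5 844)
(mv 846 (cons (fin 782 6 781)
(fin 910 6 845)))))
(mv 844 (cons (fin 908 7 844)
(mv 845 (cons (fin 780 7 780)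
(mv 846 (cons (fin 782 6 781)
(fin 910 6 845))))))))))
(cons (mv 909 (cons (fin 1164 5 908)
(mv 844 (cons (fin 908 7 844)
(mv 845 (cons (fin 780 7 780)
(mv 846 (cons (fin 782 6 781)
(fin 910 6 845)))))))))
(mv 909 (cons (fin 1164 5 908)
(mv 845 (cons (fin 1036 5 844)
(mv 846 (cons (fin 782 6 781)
(fin 910 6 845)))))))))))))
(mv 1099 (cons (fin 1098 2 1034)
(mv 1102 (cons (cons (mv 1034 (cons (fin 1035 3 1034)
(mv 1162 (cons (fin 1163 1 1098)
(mv 1166 (cons (fin 1167 0 1099)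
(mv 973 (cons (fin 1230 7 973)
(fin 909 4 909)))))))))
(mv 1034 (cons (fin 1035 3 1034)
(mv 1163 (cons (fin 1162 1 1098)
(mv 1103 (cons (fin 1164 1 1099)
(mv 1104 (cons (fin 1105 3 1037)
(mv 1168 (cons (fin 1167 0 1100)
(fin 1169 0 1101))))))))))))
(cons (mv 1034 (cons (fin 1035 3 1034)
(mv 1163 (cons (fin 1162 1 1098)
(mv 1164 (cons (fin 1103 1 1099)
(mv 973 (cons (fin 909 5 908)
(mv 1228 (cons (fin 1165 5 972)
(fin 1292 6 1036)))))))))))
(cons (mv 1034 (cons (fin 1035 3 1034)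
(mv 1166 (cons (fin 1167 0 1099)
(mv 973 (cons (fin 1230 7 973)
(fin 909 4 909)))))))
(mv 1162 (cons (fin 1163 1 1098)
(mv 1166 (cons (fin 1167 0 1099)
(mv 973 (cons (fin 1230 7 973)
(fin 909 4 909))))))))))))))
(cons (mv 1098 (cons (fin 1099 2 1034)
(mv 973 (cons (cons (mv 909 (cons (fin 1164 5 908)
(mv 845 (cons (fin 1036 5 844)
(fin 1102 4 845)))))
(mv 1165 (cons (cons (mv 908 (cons (fin 972 7 908)
(mv 1228 (cons (fin 1164 5 972)
(mv 1229 (cons (fin 1292 5 1036)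
(mv 1293 (cons (fin 1036 7 1036)
(fin 1102 6 1037)))))))))
(cons (mv 1228 (cons (fin 1164 5 972)
(mv 1229 (cons (fin 1292 5 1036)
(mv 1293 (cons (fin 1036 7 1036)
(fin 1102 6 1037)))))))
(mv 972 (cons (fin 908 7 908)
(mv 970 (cons (fin 971 0 970)
(mv 1229 (cons (fin 1036 7 972)
(mv 1230 (cons (fin 1294 4 1037)
(mv 1293 (cons (fin 1102 6 1037)
(mv 1356 (cons (fin 1292 5 1100)
(mv 1357 (cons (fin 1164 7 1100)
(fin 1420 5 1164)))))))))))))))))
(cons (cons (mv 972 (cons (fin 908 7 908)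
(mv 970 (cons (fin 971 0 970)
(mv 1229 (cons (fin 1036 7 972)
(mv 1228 (cons (fin 1292 5 1036)
(mv 1293 (cons (fin 1102 6 1037)
(mv 1294 (cons (fin 1230 4 1037)
(fin 1358 4 1101)))))))))))))
(mv 972 (cons (fin 908 7 908)
(mv 971 (cons (fin 970 0 970)
(mv 1164 (cons (fin 1228 5 972)
(mv 1036 (cons (fin 907 7 907)
(mv 1163 (cons (fin 1227 5 971)
(mv 1102 (cons (fin 1103 1 1099)
(fin 1162 2 1098))))))))))))))
(cons (mv 908 (cons (fin 972 7 908)
(mv 1228 (cons (fin 1164 5 972)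
(mv 1229 (cons (fin 1292 5 1036)
(mv 1293 (cons (fin 1102 6 1037)
(mv 1294 (cons (fin 1230 4 1037)
(fin 1358 4 1101)))))))))))
(mv 908 (cons (fin 972 7 908)
(mv 1228 (cons (fin 1164 5 972)
(mv 1229 (cons (fin 1292 5 1036)
(mv 1293 (cons (fin 1036 7 1036)
(mv 1294 (cons (fin 1230 4 1037)
(fin 1358 4 1101))))))))))))))))
(cons (mv 909 (cons (mv 845 (cons (fin 1036 5 844)
(fin 1102 4 845)))
(mv 908 (cons (fin 844 7 844)
(mv 910 (cons (fin 846 6 845)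
(mv 972 (cons (fin 1165 7 908)
(mv 911 (cons (fin 971 1 907)
(fin 912 1 908)))))))))))
(cons (mv 909 (cons (fin 1164 5 908)
(mv 844 (cons (fin 908 7 844)
(mv 845 (cons (fin 780 7 780)
(fin 1102 4 845)))))))
(mv 909 (cons (fin 1164 5 908)
(mv 844 (cons (fin 908 7 844)
(mv 845 (cons (fin 780 7 780)
(fin 1036 5 844)))))))))))))
(cons (mv 1099 (cons (fin 1098 2 1034)
(mv 1102 (cons (cons (mv 1034 (cons (fin 1035 3 1034)
(mv 1162 (cons (fin 1163 1 1098)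
(mv 1167 (cons (fin 1166 0 1099)
(mv 1103 (cons (fin 1168 0 1100)
(mv 1104 (cons (fin 1036 3 1036)
(fin 1105 3 1037)))))))))))
(cons (mv 1162 (cons (fin 1163 1 1098)
(mv 1167 (cons (fin 1166 0 1099)
(mv 1103 (cons (fin 1168 0 1100)
(mv 1104 (cons (fin 1036 3 1036)
(fin 1105 3 1037)))))))))
(mv 1034 (cons (fin 1035 3 1034)
(mv 1167 (cons (fin 1166 0 1099)
(mv 1103 (cons (fin 1168 0 1100)
(mv 1104 (cons (fin 1036 3 1036)
(fin 1105 3 1037)))))))))))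
(cons (mv 1034 (cons (fin 1035 3 1034)
(mv 1163 (cons (fin 1162 1 1098)
(mv 1103 (cons (fin 1164 1 1099)
(mv 1104 (cons (fin 1036 3 1036)
(fin 1105 3 1037)))))))))
(cons (mv 1034 (cons (fin 1035 3 1034)
(mv 1163 (cons (fin 1162 1 1098)
(mv 1166 (cons (fin 1167 0 1099)
(mv 973 (cons (fin 909 4 909)
(mv 1165 (cons (cons (mv 908 (cons (fin 972 7 908)
(mv 1164 (cons (fin 1228 5 972)
(mv 1227 (cons (fin 1226 1 1162)
(mv 1291 (cons (fin 1036 6 1035)
(fin 1355 6 1099)))))))))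
(mv 1164 (cons (fin 1228 5 972)
(mv 1227 (cons (fin 1226 1 1162)
(mv 1291 (cons (fin 1036 6 1035)
(fin 1355 6 1099))))))))
(cons (mv 972 (cons (fin 908 7 908)
(mv 1229 (cons (fin 1036 7 972)
(fin 1293 6 1037)))))
(mv 908 (cons (fin 972 7 908)
(mv 1228 (cons (fin 1164 5 972)
(mv 1229 (cons (fin 1292 5 1036)
(fin 1293 6 1037))))))))))))))))))
(mv 1034 (cons (fin 1035 3 1034)
(mv 1163 (cons (fin 1162 1 1098)
(mv 1103 (cons (fin 1164 1 1099)
(mv 1167 (cons (fin 1166 0 1099)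
(fin 1168 0 1100)))))))))))))))
(mv 1098 (cons (fin 1099 2 1034)
(mv 1164 (cons (cons (mv 973 (cons (fin 909 5 908)
(mv 1228 (cons (fin 1165 5 972)
(fin 1036 6 972)))))
(mv 1228 (cons (fin 1292 6 1036)
(mv 1036 (cons (cons (mv 971 (cons (fin 1035 7 971)
(mv 972 (cons (fin 907 7 907)
(mv 908 (cons (fin 844 4 844)
(fin 1165 4 908)))))))
(mv 1227 (cons (fin 1291 5 1035)
(mv 1229 (cons (fin 1293 4 1036)
(mv 972 (cons (fin 1165 7 972)
(mv 907 (cons (fin 971 7 907)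
(mv 908 (cons (fin 843 7 843)
(fin 844 4 844))))))))))))
(cons (mv 1227 (cons (fin 1291 5 1035)
(mv 1229 (cons (fin 1293 4 1036)
(mv 1165 (cons (fin 972 7 972)
(mv 1166 (cons (fin 1167 1 1163)
(fin 1226 2 1162)))))))))
(mv 1035 (cons (fin 971 7 971)
(mv 1034 (cons (fin 1097 1 1033)
(fin 1033 0 1033)))))))))))
(cons (mv 973 (cons (fin 909 5 908)
(mv 1165 (cons (cons (mv 908 (cons (fin 972 7 908)
(mv 1166 (cons (fin 1230 4 973)
(mv 1167 (cons (fin 1168 3 1100)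
(mv 1103 (cons (fin 1104 2 1100)
(mv 1231 (cons (fin 1232 0 1164)
(mv 1295 (cons (fin 1102 7 1038)
(mv 1294 (cons (fin 1358 5 1102)
(mv 1360 (cons (fin 1296 4 1103)
(mv 1359 (cons (fin 1424 4 1167)
(mv 1293 (cons (fin 1292 0 1292)
(mv 1229 (cons (fin 1036 7 1036)
(fin 1357 7 1100)))))))))))))))))))))))
(mv 1166 (cons (fin 1230 4 973)
(mv 1167 (cons (fin 1168 3 1100)
(mv 1103 (cons (fin 1104 2 1100)
(mv 1231 (cons (fin 1232 0 1164)
(mv 1295 (cons (fin 1102 7 1038)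
(mv 1294 (cons (fin 1358 5 1102)
(mv 1360 (cons (fin 1296 4 1103)
(mv 1359 (cons (fin 1424 4 1167)
(mv 1293 (cons (fin 1292 0 1292)
(mv 1229 (cons (fin 1036 7 1036)
(fin 1357 7 1100))))))))))))))))))))))
(cons (mv 972 (cons (fin 908 7 908)
(mv 970 (cons (fin 971 0 970)
(mv 1229 (cons (fin 1036 7 972)
(mv 1293 (cons (fin 1357 7 1100)
(fin 1102 6 1037)))))))))
(cons (mv 908 (cons (fin 972 7 908)
(mv 1166 (cons (fin 1230 4 973)
(mv 1167 (cons (fin 1168 3 1100)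
(mv 1103 (cons (fin 1104 2 1100)
(mv 1231 (cons (fin 1232 0 1164)
(mv 1295 (cons (fin 1102 7 1038)
(mv 1358 (cons (fin 1294 5 1102)
(mv 1359 (cons (fin 1422 5 1166)
(mv 1360 (cons (fin 1296 4 1103)
(fin 1424 4 1167)))))))))))))))))))
(mv 908 (cons (fin 972 7 908)
(mv 1230 (cons (fin 1166 4 973)
(mv 1229 (cons (fin 1294 4 1037)
(mv 1293 (cons (fin 1036 7 1036)
(fin 1357 7 1100)))))))))))))))
(cons (mv 973 (cons (fin 909 5 908)
(mv 1228 (cons (fin 1165 5 972)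
(fin 1292 6 1036)))))
(mv 973 (cons (fin 909 5 908)
(mv 1228 (cons (fin 1036 6 972)
(fin 1292 6 1036)))))))))))))))))
(cons (mv 1039 (cons (cons (mv 972 (cons (fin 973 3 972)
(mv 976 (cons (fin 977 2 973)
(mv 1036 (cons (fin 971 3 971)
(fin 975 2 972)))))))
(mv 972 (cons (fin 973 3 972)
(mv 1036 (cons (fin 971 3 971)
(mv 1104 (cons (fin 1103 0 1036)
(fin 1105 0 1037))))))))
(cons (mv 976 (cons (fin 977 2 973)
(mv 975 (cons (fin 1036 2 972)
(mv 1104 (cons (fin 1105 0 1037)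
(mv 911 (cons (fin 1168 7 911)
(fin 847 4 847)))))))))
(mv 972 (cons (fin 973 3 972)
(mv 976 (cons (fin 977 2 973)
(mv 1104 (cons (fin 1105 0 1037)
(mv 1168 (cons (mv 975 (cons (fin 911 7 911)
(fin 1232 7 975)))
(cons (mv 1167 (cons (fin 1231 5 975)
(mv 912 (cons (fin 1103 5 911)
(mv 847 (cons (fin 911 7 847)
(mv 848 (cons (fin 783 7 783)
(mv 849 (cons (fin 785 6 784)
(fin 913 6 848)))))))))))
(mv 975 (cons (fin 1232 7 975)
(mv 1167 (cons (fin 1231 5 975)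
(mv 912 (cons (fin 1103 5 911)
(mv 848 (cons (fin 784 5 783)
(mv 849 (cons (fin 785 6 784)
(fin 913 6 848)))))))))))))))))))))))
(cons (mv 1039 (cons (fin 1100 1 1036)
(mv 976 (cons (fin 977 2 973)
(mv 975 (cons (fin 1036 2 972)
(mv 1104 (cons (fin 1105 0 1037)
(mv 911 (cons (fin 1168 7 911)
(fin 847 4 847)))))))))))
(mv 1039 (cons (fin 1100 1 1036)
(mv 972 (cons (fin 973 3 972)
(mv 976 (cons (fin 977 2 973)
(mv 1104 (cons (fin 1105 0 1037)
(mv 1168 (cons (mv 975 (cons (fin 911 7 911)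
(fin 1232 7 975)))
(cons (mv 1167 (cons (fin 1231 5 975)
(mv 912 (cons (fin 1103 5 911)
(mv 847 (cons (fin 911 7 847)
(mv 848 (cons (fin 783 7 783)
(mv 849 (cons (fin 785 6 784)
(fin 913 6 848)))))))))))
(mv 975 (cons (fin 1232 7 975)
(mv 1167 (cons (fin 1231 5 975)
(mv 912 (cons (fin 1103 5 911)
(mv 848 (cons (fin 784 5 783)
(mv 849 (cons (fin 785 6 784)
(fin 913 6 848))))))))))))))))))))))))))
(mv 973 (cons (cons (cons (mv 909 (cons (cons (mv 844 (cons (fin 908 7 844)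
(mv 845 (cons (fin 780 7 780)
(mv 846 (cons (fin 782 6 781)
(fin 910 6 845)))))))
(mv 846 (cons (fin 910 6 845)
(mv 845 (cons (fin 782 6 781)
(mv 1102 (cons (fin 1038 4 845)
(fin 1166 4 909))))))))
(cons (mv 844 (cons (fin 908 7 844)
(mv 845 (cons (fin 780 7 780)
(mv 1102 (cons (fin 1038 4 845)
(fin 1166 4 909)))))))
(mv 846 (cons (fin 910 6 845)
(mv 908 (cons (fin 844 7 844)
(mv 1102 (cons (fin 1166 4 909)
(mv 1165 (cons (fin 972 7 908)
(mv 1228 (cons (fin 1164 5 972)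
(mv 1229 (cons (fin 1292 5 1036)
(mv 1293 (cons (fin 1038 6 1037)
(mv 1294 (cons (fin 1230 4 1037)
(fin 1358 4 1101))))))))))))))))))))
(mv 1165 (cons (cons (mv 908 (cons (fin 972 7 908)
(mv 1228 (cons (fin 1164 5 972)
(mv 1229 (cons (fin 1292 5 1036)
(mv 1230 (cons (fin 1166 4 973)
(fin 1294 4 1037)))))))))
(cons (mv 1228 (cons (fin 1164 5 972)
(mv 1229 (cons (fin 1292 5 1036)
(mv 1230 (cons (fin 1166 4 973)
(fin 1294 4 1037)))))))
(mv 972 (cons (fin 908 7 908)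
(mv 1038 (cons (fin 1039 3 972)
(mv 970 (cons (fin 971 0 970)
(mv 1164 (cons (fin 1228 5 972)
(mv 1229 (cons (fin 1036 7 972)
(mv 1102 (cons (fin 1293 6 1037)
(mv 1103 (cons (fin 1104 1 1100)
(mv 1163 (cons (fin 1162 2 1098)
(fin 1166 2 1099)))))))))))))))))))
(cons (mv 972 (cons (fin 908 7 908)
(mv 1038 (cons (fin 1039 3 972)
(mv 970 (cons (fin 971 0 970)
(mv 1166 (cons (fin 1230 4 973)
(mv 1229 (cons (fin 1036 7 972)
(mv 1293 (cons (fin 1102 6 1037)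
(mv 1356 (cons (fin 1292 5 1100)
(mv 1357 (cons (fin 1420 5 1164)
(mv 1358 (cons (fin 1294 4 1101)
(fin 1422 4 1165)))))))))))))))))))
(cons (mv 972 (cons (fin 908 7 908)
(mv 1038 (cons (fin 1039 3 972)
(mv 970 (cons (fin 971 0 970)
(mv 1164 (cons (fin 1228 5 972)
(mv 1229 (cons (fin 1036 7 972)
(mv 1293 (cons (fin 1102 6 1037)
(mv 1294 (cons (fin 1230 4 1037)
(fin 1358 4 1101)))))))))))))))
(mv 908 (cons (fin 972 7 908)
(mv 1164 (cons (fin 1228 5 972)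
(mv 1166 (cons (fin 1230 4 973)
(mv 1167 (cons (cons (mv 1103 (cons (fin 1104 2 1100)
(mv 1102 (cons (fin 1163 2 1099)
(mv 1168 (cons (fin 1169 3 1101)
(mv 1232 (cons (fin 1231 0 1164)
(fin 1233 0 1165)))))))))
(mv 1232 (cons (fin 1231 0 1164)
(mv 1168 (cons (fin 1233 0 1165)
(mv 1102 (cons (fin 1169 3 1101)
(mv 1163 (cons (fin 1162 2 1098)
(fin 1103 2 1099))))))))))
(cons (mv 1232 (cons (fin 1231 0 1164)
(mv 1168 (cons (fin 1233 0 1165)
(mv 1105 (cons (fin 1104 2 1101)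
(mv 1169 (cons (fin 1102 3 1101)
(fin 1106 2 1102)))))))))
(cons (mv 1103 (cons (fin 1104 2 1100)
(mv 1163 (cons (fin 1102 2 1099)
(mv 1098 (cons (fin 1099 3 1098)
(mv 1162 (cons (fin 1097 3 1097)
(mv 1226 (cons (fin 1225 1 1161)
(fin 1227 1 1162)))))))))))
(mv 1104 (cons (fin 1103 2 1100)
(mv 1168 (cons (fin 1105 2 1101)
(mv 1231 (cons (fin 1232 0 1164)
(fin 976 5 975))))))))))))))))))))))
(cons (mv 909 (cons (cons (mv 844 (cons (fin 908 7 844)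
(mv 845 (cons (fin 780 7 780)
(mv 846 (cons (fin 782 6 781)
(fin 910 6 845)))))))
(mv 846 (cons (fin 910 6 845)
(mv 845 (cons (fin 782 6 781)
(mv 1102 (cons (fin 1038 4 845)
(fin 1166 4 909))))))))
(cons (mv 844 (cons (fin 908 7 844)
(mv 845 (cons (fin 780 7 780)
(mv 1102 (cons (fin 1038 4 845)
(fin 1166 4 909)))))))
(mv 908 (cons (fin 844 7 844)
(mv 910 (cons (fin 846 6 845)
(mv 1102 (cons (fin 1166 4 909)
(mv 911 (cons (mv 972 (cons (fin 971 1 907)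
(fin 912 1 908)))
(mv 847 (cons (fin 848 2 844)
(mv 975 (cons (fin 976 0 908)
(mv 1039 (cons (fin 1038 5 846)
(fin 1104 4 847))))))))))))))))))
(mv 909 (cons (cons (mv 844 (cons (fin 908 7 844)
(mv 845 (cons (fin 780 7 780)
(mv 846 (cons (fin 782 6 781)
(fin 910 6 845)))))))
(mv 846 (cons (fin 910 6 845)
(mv 845 (cons (fin 782 6 781)
(mv 1102 (cons (fin 1038 4 845)
(fin 1166 4 909))))))))
(cons (mv 844 (cons (fin 908 7 844)
(mv 845 (cons (fin 780 7 780)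
(mv 1102 (cons (fin 1038 4 845)
(fin 1166 4 909)))))))
(mv 908 (cons (fin 844 7 844)
(mv 910 (cons (fin 846 6 845)
(mv 1166 (cons (fin 1102 4 909)
(mv 1165 (cons (fin 1230 4 973)
(mv 976 (cons (cons (mv 911 (cons (fin 975 0 908)
(mv 847 (cons (fin 848 2 844)
(mv 912 (cons (fin 977 0 909)
(fin 1104 7 847)))))))
(cons (mv 1228 (cons (fin 1164 5 972)
(mv 1229 (cons (fin 1292 5 1036)
(mv 1168 (cons (fin 1167 1 1164)
(mv 1226 (cons (fin 1227 2 1162)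
(mv 1104 (cons (mv 913 (cons (fin 977 6 912)
(mv 912 (cons (fin 849 6 848)
(mv 1169 (cons (fin 1105 4 912)
(fin 1233 4 976)))))))
(cons (mv 977 (cons (fin 913 6 912)
(mv 1039 (cons (fin 1038 2 973)
(mv 1232 (cons (fin 975 7 975)
(mv 1295 (cons (fin 1231 5 1039)
(mv 1296 (cons (fin 1103 7 1039)
(fin 1359 5 1103)))))))))))
(mv 1169 (cons (fin 1233 4 976)
(mv 1105 (cons (fin 912 4 912)
(mv 1039 (cons (fin 1038 0 1037)
(mv 1232 (cons (fin 975 7 975)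
(mv 1296 (cons (fin 1103 7 1039)
(fin 1360 6 1104))))))))))))))))))))))
(mv 1228 (cons (fin 1164 5 972)
(mv 1229 (cons (fin 1292 5 1036)
(mv 1167 (cons (fin 1168 1 1164)
(mv 1226 (cons (fin 1227 2 1162)
(mv 912 (cons (cons (mv 911 (cons (fin 977 0 909)
(mv 847 (cons (fin 848 2 844)
(fin 1104 7 847)))))
(mv 1103 (cons (fin 1104 5 911)
(mv 1039 (cons (fin 848 5 847)
(fin 1231 6 975))))))
(cons (mv 911 (cons (fin 977 0 909)
(mv 848 (cons (fin 847 2 844)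
(fin 849 2 845)))))
(mv 911 (cons (fin 977 0 909)
(mv 1104 (cons (fin 847 7 847)
(fin 1103 5 911))))))))))))))))))
(cons (mv 911 (cons (fin 975 0 908)
(mv 847 (cons (fin 848 2 844)
(mv 1104 (cons (fin 912 7 847)
(mv 1164 (cons (fin 1228 5 972)
(mv 1167 (cons (fin 1103 2 1100)
(mv 1168 (cons (fin 1105 2 1101)
(fin 1231 5 975)))))))))))))
(cons (mv 975 (cons (fin 911 0 908)
(mv 1164 (cons (fin 1228 5 972)
(mv 1167 (cons (cons (mv 1103 (cons (fin 1104 2 1100)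
(mv 1231 (cons (fin 1232 0 1164)
(fin 1039 6 975)))))
(cons (mv 1231 (cons (fin 1232 0 1164)
(mv 1039 (cons (fin 1103 6 975)
(mv 1038 (cons (fin 1036 2 972)
(fin 977 2 973)))))))
(mv 1104 (cons (fin 1103 2 1100)
(mv 1168 (cons (fin 1105 2 1101)
(mv 1232 (cons (fin 1233 0 1165)
(fin 1039 7 975)))))))))
(cons (mv 1103 (cons (fin 1104 2 1100)
(mv 1039 (cons (fin 1231 6 975)
(mv 1038 (cons (fin 1036 2 972)
(fin 977 2 973)))))))
(cons (mv 1232 (cons (fin 1231 0 1164)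
(mv 1168 (cons (fin 1233 0 1165)
(mv 1104 (cons (fin 1105 2 1101)
(fin 1039 7 975)))))))
(mv 1104 (cons (fin 1103 2 1100)
(mv 1168 (cons (fin 1105 2 1101)
(fin 1231 5 975)))))))))))))
(mv 911 (cons (fin 975 0 908)
(mv 848 (cons (fin 847 2 844)
(mv 912 (cons (fin 849 2 845)
(fin 977 0 909))))))))))))))))))))))))
(cons (cons (mv 1165 (cons (cons (mv 1164 (cons (fin 1228 5 972)
(mv 1166 (cons (fin 1230 4 973)
(mv 1102 (cons (fin 909 4 909)
(mv 1103 (cons (fin 1104 1 1100)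
(fin 1163 2 1099)))))))))
(mv 1228 (cons (fin 1164 5 972)
(mv 1229 (cons (fin 1292 5 1036)
(mv 972 (cons (fin 1036 7 972)
(mv 1038 (cons (fin 1039 3 972)
(mv 970 (cons (fin 971 0 970)
(mv 1293 (cons (fin 1102 6 1037)
(mv 1294 (cons (fin 1230 4 1037)
(fin 1358 4 1101))))))))))))))))
(cons (mv 1228 (cons (fin 1164 5 972)
(mv 1229 (cons (fin 1292 5 1036)
(mv 972 (cons (fin 1036 7 972)
(mv 1038 (cons (fin 1039 3 972)
(mv 970 (cons (fin 971 0 970)
(mv 1102 (cons (fin 1293 6 1037)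
(mv 909 (cons (fin 845 4 845)
(fin 1166 4 909)))))))))))))))
(cons (mv 1229 (cons (mv 1230 (cons (fin 1166 4 973)
(fin 1294 4 1037)))
(cons (mv 972 (cons (fin 1036 7 972)
(mv 1038 (cons (fin 1039 3 972)
(mv 970 (cons (fin 971 0 970)
(mv 1102 (cons (fin 1293 6 1037)
(mv 909 (cons (fin 845 4 845)
(fin 1166 4 909)))))))))))
(mv 972 (cons (fin 1036 7 972)
(mv 1038 (cons (fin 1039 3 972)
(mv 970 (cons (fin 971 0 970)
(mv 1293 (cons (fin 1102 6 1037)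
(mv 1294 (cons (fin 1230 4 1037)
(fin 1358 4 1101))))))))))))))
(mv 1228 (cons (fin 1164 5 972)
(mv 1229 (cons (fin 1292 5 1036)
(mv 1230 (cons (fin 1166 4 973)
(fin 1294 4 1037)))))))))))
(mv 909 (cons (cons (mv 844 (cons (fin 908 7 844)
(mv 845 (cons (fin 780 7 780)
(mv 846 (cons (fin 782 6 781)
(fin 910 6 845)))))))
(mv 846 (cons (fin 910 6 845)
(mv 845 (cons (fin 782 6 781)
(mv 780 (cons (fin 844 7 780)
(mv 716 (cons (fin 781 7 716)
(mv 1038 (cons (fin 1102 4 845)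
(mv 1039 (cons (fin 972 3 972)
(mv 976 (cons (fin 977 2 973)
(mv 975 (cons (fin 1036 2 972)
(mv 1104 (cons (fin 1105 0 1037)
(mv 911 (cons (fin 1168 7 911)
(fin 847 4 847))))))))))))))))))))))
(cons (mv 846 (cons (fin 910 6 845)
(mv 845 (cons (fin 782 6 781)
(mv 1038 (cons (fin 1102 4 845)
(mv 972 (cons (fin 1039 3 972)
(mv 781 (cons (fin 1036 5 780)
(mv 908 (cons (fin 1165 7 908)
(fin 717 5 716)))))))))))))
(cons (mv 844 (cons (fin 908 7 844)
(mv 845 (cons (fin 780 7 780)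
(mv 1038 (cons (fin 1102 4 845)
(mv 1039 (cons (fin 972 3 972)
(mv 976 (cons (fin 977 2 973)
(mv 975 (cons (fin 1036 2 972)
(mv 1104 (cons (fin 1105 0 1037)
(mv 911 (cons (fin 1168 7 911)
(fin 847 4 847)))))))))))))))))
(mv 908 (cons (fin 844 7 844)
(mv 910 (cons (fin 846 6 845)
(mv 972 (cons (fin 1165 7 908)
(mv 911 (cons (fin 971 1 907)
(fin 912 1 908))))))))))))))
(cons (mv 1165 (cons (cons (mv 908 (cons (fin 972 7 908)
(mv 844 (cons (fin 909 7 844)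
(mv 1228 (cons (fin 1164 5 972)
(mv 1229 (cons (fin 1292 5 1036)
(mv 1230 (cons (fin 1166 4 973)
(fin 1294 4 1037)))))))))))
(mv 972 (cons (fin 908 7 908)
(mv 1228 (cons (fin 1164 5 972)
(mv 1229 (cons (fin 1036 7 972)
(fin 1292 5 1036))))))))
(cons (mv 1164 (cons (fin 1228 5 972)
(mv 1166 (cons (fin 1230 4 973)
(mv 909 (cons (fin 1102 4 909)
(mv 844 (cons (fin 908 7 844)
(mv 845 (cons (fin 780 7 780)
(mv 846 (cons (fin 782 6 781)
(fin 910 6 845)))))))))))))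
(cons (mv 1164 (cons (fin 1228 5 972)
(mv 1166 (cons (fin 1230 4 973)
(mv 1102 (cons (fin 909 4 909)
(mv 1103 (cons (fin 1104 1 1100)
(fin 1163 2 1099)))))))))
(mv 908 (cons (fin 972 7 908)
(mv 909 (cons (fin 844 7 844)
(mv 1166 (cons (fin 1102 4 909)
(fin 1230 4 973)))))))))))
(mv 1165 (cons (cons (mv 908 (cons (fin 972 7 908)
(mv 844 (cons (fin 909 7 844)
(mv 1228 (cons (fin 1164 5 972)
(mv 1229 (cons (fin 1292 5 1036)
(mv 1230 (cons (fin 1166 4 973)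
(fin 1294 4 1037)))))))))))
(mv 1228 (cons (fin 1164 5 972)
(mv 1229 (cons (fin 1292 5 1036)
(mv 1230 (cons (fin 1166 4 973)
(fin 1294 4 1037))))))))
(cons (mv 972 (cons (fin 908 7 908)
(mv 1038 (cons (fin 1039 3 972)
(mv 970 (cons (fin 971 0 970)
(mv 1229 (cons (fin 1036 7 972)
(mv 1230 (cons (fin 1166 4 973)
(fin 1294 4 1037)))))))))))
(cons (mv 972 (cons (fin 908 7 908)
(mv 1038 (cons (fin 1039 3 972)
(mv 970 (cons (fin 971 0 970)
(mv 1228 (cons (fin 1164 5 972)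
(mv 1229 (cons (fin 1036 7 972)
(fin 1292 5 1036)))))))))))
(mv 1164 (cons (fin 1228 5 972)
(mv 1166 (cons (fin 1230 4 973)
(mv 1039 (cons (mv 972 (cons (fin 1038 3 972)
(fin 908 7 908)))
(cons (mv 1104 (cons (cons (mv 1038 (cons (fin 1105 0 1037)
(mv 1103 (cons (fin 1167 2 1100)
(fin 1036 0 1036)))))
(mv 1038 (cons (fin 1105 0 1037)
(mv 976 (cons (fin 977 2 973)
(mv 1036 (cons (fin 975 2 972)
(fin 1103 0 1036))))))))
(cons (mv 1103 (cons (fin 1167 2 1100)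
(mv 1038 (cons (fin 1036 0 1036)
(mv 976 (cons (fin 977 2 973)
(mv 912 (cons (fin 848 5 847)
(mv 849 (cons (fin 913 6 848)
(mv 911 (cons (fin 847 7 847)
(mv 1168 (cons (fin 975 7 911)
(mv 1232 (cons (fin 1296 7 1039)
(mv 1233 (cons (fin 1169 4 976)
(fin 1297 4 1040)))))))))))))))))))
(cons (mv 1167 (cons (fin 1103 2 1100)
(mv 1168 (cons (fin 1105 2 1101)
(mv 1231 (cons (fin 1232 0 1164)
(fin 976 5 975)))))))
(mv 1038 (cons (fin 1105 0 1037)
(mv 976 (cons (fin 977 2 973)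
(mv 975 (cons (fin 1036 2 972)
(mv 911 (cons (fin 1168 7 911)
(fin 847 4 847)))))))))))))
(mv 908 (cons (fin 972 7 908)
(mv 909 (cons (fin 844 7 844)
(mv 910 (cons (fin 846 6 845)
(mv 911 (cons (cons (mv 847 (cons (fin 848 2 844)
(mv 975 (cons (fin 976 0 908)
(fin 1104 4 847)))))
(mv 847 (cons (fin 848 2 844)
(mv 1104 (cons (fin 975 4 847)
(mv 1167 (cons (fin 1103 2 1100)
(mv 1168 (cons (fin 1105 2 1101)
(mv 1232 (cons (fin 1231 0 1164)
(fin 1233 0 1165))))))))))))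
(cons (mv 848 (cons (fin 847 2 844)
(mv 912 (cons (fin 849 2 845)
(mv 976 (cons (fin 977 0 909)
(fin 1103 5 847)))))))
(cons (mv 976 (cons (fin 975 0 908)
(mv 912 (cons (fin 977 0 909)
(mv 848 (cons (fin 849 2 845)
(fin 1103 5 847)))))))
(mv 975 (cons (fin 976 0 908)
(mv 1104 (cons (fin 847 4 847)
(mv 1103 (cons (fin 1167 2 1100)
(fin 1168 4 911)))))))))))))))))))))))))))))))))
(cons (mv 973 (cons (cons (mv 909 (cons (cons (mv 844 (cons (fin 908 7 844)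
(mv 780 (cons (fin 845 7 780)
(mv 846 (cons (fin 910 6 845)
(mv 1100 (cons (fin 1164 5 908)
(mv 1102 (cons (fin 1166 4 909)
(mv 1103 (cons (fin 1039 2 1036)
(mv 1036 (cons (fin 1035 3 1035)
(fin 1104 3 1036)))))))))))))))
(mv 844 (cons (fin 908 7 844)
(mv 845 (cons (fin 780 7 780)
(mv 846 (cons (fin 782 6 781)
(fin 910 6 845))))))))
(cons (mv 846 (cons (fin 910 6 845)
(mv 782 (cons (fin 845 6 781)
(mv 1100 (cons (fin 1164 5 908)
(mv 1102 (cons (fin 1166 4 909)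
(mv 1103 (cons (fin 1039 2 1036)
(mv 1036 (cons (fin 1035 3 1035)
(fin 1104 3 1036)))))))))))))
(cons (mv 844 (cons (fin 908 7 844)
(mv 780 (cons (fin 845 7 780)
(mv 1100 (cons (fin 1164 5 908)
(mv 1102 (cons (fin 1166 4 909)
(mv 1103 (cons (fin 1039 2 1036)
(mv 1036 (cons (fin 1035 3 1035)
(fin 1104 3 1036)))))))))))))
(mv 844 (cons (fin 908 7 844)
(mv 846 (cons (fin 910 6 845)
(mv 1100 (cons (fin 1164 5 908)
(mv 1102 (cons (fin 1166 4 909)
(mv 1103 (cons (fin 1039 2 1036)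
(mv 1036 (cons (fin 1035 3 1035)
(fin 1104 3 1036)))))))))))))))))
(cons (mv 1165 (cons (cons (mv 908 (cons (fin 972 7 908)
(mv 1228 (cons (fin 1164 5 972)
(mv 1229 (cons (fin 1292 5 1036)
(mv 1230 (cons (fin 1166 4 973)
(fin 1294 4 1037)))))))))
(mv 1228 (cons (fin 1164 5 972)
(mv 1229 (cons (fin 1292 5 1036)
(mv 1230 (cons (fin 1166 4 973)
(fin 1294 4 1037))))))))
(cons (mv 972 (cons (fin 908 7 908)
(mv 1229 (cons (fin 1036 7 972)
(mv 1230 (cons (fin 1166 4 973)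
(fin 1294 4 1037)))))))
(cons (mv 972 (cons (fin 908 7 908)
(mv 1228 (cons (fin 1164 5 972)
(mv 1229 (cons (fin 1036 7 972)
(fin 1292 5 1036)))))))
(mv 908 (cons (fin 972 7 908)
(mv 1164 (cons (fin 1228 5 972)
(mv 1166 (cons (fin 1230 4 973)
(mv 1167 (cons (mv 1100 (cons (fin 1099 3 1099)
(fin 1168 3 1100)))
(cons (mv 1103 (cons (fin 1104 2 1100)
(mv 1102 (cons (fin 1163 2 1099)
(mv 1168 (cons (fin 1169 3 1101)
(mv 1232 (cons (fin 1231 0 1164)
(fin 1233 0 1165)))))))))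
(mv 1099 (cons (fin 1100 3 1099)
(mv 1103 (cons (fin 1104 2 1100)
(mv 1163 (cons (fin 1098 3 1098)
(fin 1102 2 1099))))))))))))))))))))
(mv 909 (cons (cons (mv 844 (cons (fin 908 7 844)
(mv 845 (cons (fin 780 7 780)
(mv 846 (cons (fin 782 6 781)
(fin 910 6 845)))))))
(mv 846 (cons (fin 910 6 845)
(mv 845 (cons (fin 782 6 781)
(mv 780 (cons (fin 844 7 780)
(mv 781 (cons (fin 716 7 716)
(mv 1036 (cons (fin 972 5 780)
(fin 1100 5 844))))))))))))
(cons (mv 846 (cons (fin 910 6 845)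
(mv 845 (cons (fin 782 6 781)
(mv 1036 (cons (fin 1100 5 844)
(mv 972 (cons (fin 781 5 780)
(mv 1165 (cons (fin 908 7 908)
(fin 1229 7 972)))))))))))
(cons (mv 844 (cons (fin 908 7 844)
(mv 845 (cons (fin 780 7 780)
(mv 1036 (cons (fin 1100 5 844)
(mv 972 (cons (fin 781 5 780)
(mv 1165 (cons (fin 1229 7 972)
(mv 1166 (cons (fin 1102 4 909)
(fin 1230 4 973)))))))))))))
(mv 846 (cons (fin 910 6 845)
(mv 908 (cons (fin 844 7 844)
(mv 1165 (cons (fin 972 7 908)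
(mv 1166 (cons (fin 1102 4 909)
(fin 1230 4 973)))))))))))))))
(cons (cons (mv 1165 (cons (cons (mv 1164 (cons (fin 1228 5 972)
(mv 909 (cons (fin 1100 5 908)
(mv 1166 (cons (fin 1102 4 909)
(fin 1230 4 973)))))))
(mv 1166 (cons (fin 1230 4 973)
(mv 909 (cons (fin 1102 4 909)
(mv 846 (cons (fin 910 6 845)
(mv 845 (cons (fin 782 6 781)
(mv 780 (cons (fin 844 7 780)
(mv 781 (cons (fin 716 7 716)
(mv 1036 (cons (fin 972 5 780)
(fin 1100 5 844))))))))))))))))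
(cons (mv 1228 (cons (fin 1164 5 972)
(mv 1229 (cons (fin 1292 5 1036)
(mv 1036 (cons (fin 972 7 972)
(mv 1293 (cons (fin 1100 7 1036)
(mv 1294 (cons (fin 1230 4 1037)
(fin 1358 4 1101)))))))))))
(cons (mv 1228 (cons (fin 1164 5 972)
(mv 1229 (cons (fin 1292 5 1036)
(mv 1036 (cons (fin 972 7 972)
(mv 1100 (cons (fin 1293 7 1036)
(mv 909 (cons (fin 845 5 844)
(mv 846 (cons (fin 910 6 845)
(mv 1102 (cons (fin 1166 4 909)
(mv 1035 (cons (fin 1103 3 1035)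
(fin 1034 0 1034)))))))))))))))))
(mv 1164 (cons (fin 1228 5 972)
(mv 1166 (cons (fin 1230 4 973)
(mv 1102 (cons (fin 909 4 909)
(mv 1103 (cons (fin 1104 1 1100)
(fin 1163 2 1099)))))))))))))
(mv 909 (cons (cons (mv 844 (cons (fin 908 7 844)
(mv 845 (cons (fin 780 7 780)
(mv 846 (cons (fin 782 6 781)
(fin 910 6 845)))))))
(mv 846 (cons (fin 910 6 845)
(mv 845 (cons (fin 782 6 781)
(mv 1100 (cons (fin 1036 5 844)
(fin 1164 5 908))))))))
(cons (mv 844 (cons (fin 908 7 844)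
(mv 845 (cons (fin 780 7 780)
(mv 1100 (cons (fin 1036 5 844)
(fin 1164 5 908)))))))
(mv 846 (cons (fin 910 6 845)
(mv 908 (cons (fin 844 7 844)
(mv 1164 (cons (fin 1100 5 908)
(mv 1165 (cons (fin 972 7 908)
(fin 1228 5 972)))))))))))))
(cons (mv 1165 (cons (cons (mv 908 (cons (fin 972 7 908)
(mv 844 (cons (fin 909 7 844)
(mv 1228 (cons (fin 1164 5 972)
(mv 1229 (cons (fin 1292 5 1036)
(mv 1230 (cons (fin 1166 4 973)
(fin 1294 4 1037)))))))))))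
(mv 972 (cons (fin 908 7 908)
(mv 1228 (cons (fin 1164 5 972)
(mv 1229 (cons (fin 1036 7 972)
(fin 1292 5 1036))))))))
(cons (mv 1164 (cons (fin 1228 5 972)
(mv 1166 (cons (fin 1230 4 973)
(mv 909 (cons (fin 1102 4 909)
(mv 844 (cons (fin 908 7 844)
(mv 845 (cons (fin 780 7 780)
(mv 846 (cons (fin 782 6 781)
(fin 910 6 845)))))))))))))
(cons (mv 1164 (cons (fin 1228 5 972)
(mv 1166 (cons (fin 1230 4 973)
(mv 1102 (cons (fin 909 4 909)
(mv 1103 (cons (fin 1104 1 1100)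
(fin 1163 2 1099)))))))))
(mv 908 (cons (fin 972 7 908)
(mv 909 (cons (fin 844 7 844)
(mv 1166 (cons (fin 1102 4 909)
(fin 1230 4 973)))))))))))
(mv 909 (cons (cons (mv 844 (cons (fin 908 7 844)
(mv 780 (cons (fin 845 7 780)
(mv 846 (cons (fin 910 6 845)
(mv 1164 (cons (fin 1100 5 908)
(mv 1165 (cons (fin 1228 5 972)
(mv 1166 (cons (fin 1102 4 909)
(fin 1230 4 973)))))))))))))
(mv 846 (cons (fin 910 6 845)
(mv 782 (cons (fin 845 6 781)
(mv 1164 (cons (fin 1100 5 908)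
(mv 1165 (cons (fin 1228 5 972)
(mv 1166 (cons (fin 1102 4 909)
(fin 1230 4 973))))))))))))
(cons (mv 844 (cons (fin 908 7 844)
(mv 780 (cons (fin 845 7 780)
(mv 1164 (cons (fin 1100 5 908)
(mv 1165 (cons (fin 1228 5 972)
(mv 1166 (cons (fin 1102 4 909)
(fin 1230 4 973)))))))))))
(cons (mv 844 (cons (fin 908 7 844)
(mv 845 (cons (fin 780 7 780)
(mv 846 (cons (fin 782 6 781)
(fin 910 6 845)))))))
(mv 844 (cons (fin 908 7 844)
(mv 846 (cons (fin 910 6 845)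
(mv 1164 (cons (fin 1100 5 908)
(mv 1165 (cons (fin 1228 5 972)
(mv 1166 (cons (fin 1102 4 909)
(fin 1230 4 973)))))))))))))))))))
(cons (mv 973 (cons (cons (mv 909 (cons (cons (mv 844 (cons (fin 908 7 844)
(mv 780 (cons (fin 845 7 780)
(mv 846 (cons (fin 910 6 845)
(mv 1164 (cons (fin 1100 5 908)
(mv 1165 (cons (fin 1228 5 972)
(mv 1166 (cons (fin 1102 4 909)
(fin 1230 4 973)))))))))))))
(mv 844 (cons (fin 908 7 844)
(mv 845 (cons (fin 780 7 780)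
(mv 846 (cons (fin 782 6 781)
(fin 910 6 845))))))))
(cons (mv 846 (cons (fin 910 6 845)
(mv 782 (cons (fin 845 6 781)
(mv 1164 (cons (fin 1100 5 908)
(mv 1165 (cons (fin 1228 5 972)
(mv 1166 (cons (fin 1102 4 909)
(fin 1230 4 973)))))))))))
(cons (mv 844 (cons (fin 908 7 844)
(mv 780 (cons (fin 845 7 780)
(mv 1164 (cons (fin 1100 5 908)
(mv 1165 (cons (fin 1228 5 972)
(mv 1166 (cons (fin 1102 4 909)
(fin 1230 4 973)))))))))))
(mv 844 (cons (fin 908 7 844)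
(mv 846 (cons (fin 910 6 845)
(mv 1164 (cons (fin 1100 5 908)
(mv 1165 (cons (fin 1228 5 972)
(mv 1166 (cons (fin 1102 4 909)
(fin 1230 4 973)))))))))))))))
(cons (mv 1165 (cons (cons (mv 908 (cons (fin 972 7 908)
(mv 1228 (cons (fin 1164 5 972)
(mv 1229 (cons (fin 1292 5 1036)
(mv 1230 (cons (fin 1166 4 973)
(fin 1294 4 1037)))))))))
(mv 1228 (cons (fin 1164 5 972)
(mv 1229 (cons (fin 1292 5 1036)
(mv 1230 (cons (fin 1166 4 973)
(fin 1294 4 1037))))))))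
(cons (mv 972 (cons (fin 908 7 908)
(mv 1229 (cons (fin 1036 7 972)
(mv 1230 (cons (fin 1166 4 973)
(fin 1294 4 1037)))))))
(cons (mv 972 (cons (fin 908 7 908)
(mv 1228 (cons (fin 1164 5 972)
(mv 1229 (cons (fin 1036 7 972)
(fin 1292 5 1036)))))))
(mv 908 (cons (fin 972 7 908)
(mv 1164 (cons (fin 1228 5 972)
(mv 1166 (cons (fin 1230 4 973)
(mv 1167 (cons (mv 1100 (cons (fin 1099 3 1099)
(fin 1168 3 1100)))
(cons (mv 1103 (cons (fin 1104 2 1100)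
(mv 1102 (cons (fin 1163 2 1099)
(mv 1168 (cons (fin 1169 3 1101)
(mv 1232 (cons (fin 1231 0 1164)
(fin 1233 0 1165)))))))))
(mv 1099 (cons (fin 1100 3 1099)
(mv 1103 (cons (fin 1104 2 1100)
(mv 1163 (cons (fin 1098 3 1098)
(fin 1102 2 1099))))))))))))))))))))
(mv 909 (cons (cons (mv 844 (cons (fin 908 7 844)
(mv 845 (cons (fin 780 7 780)
(mv 846 (cons (fin 782 6 781)
(fin 910 6 845)))))))
(mv 846 (cons (fin 910 6 845)
(mv 845 (cons (fin 782 6 781)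
(mv 1100 (cons (fin 1036 5 844)
(fin 1164 5 908))))))))
(cons (mv 844 (cons (fin 908 7 844)
(mv 845 (cons (fin 780 7 780)
(mv 1100 (cons (fin 1036 5 844)
(fin 1164 5 908)))))))
(mv 844 (cons (fin 908 7 844)
(mv 846 (cons (fin 910 6 845)
(mv 1100 (cons (fin 1164 5 908)
(mv 1102 (cons (fin 1166 4 909)
(mv 1099 (cons (mv 1034 (cons (fin 1035 3 1034)
(mv 1098 (cons (fin 1033 3 1033)
(fin 1038 2 1034)))))
(cons (mv 1035 (cons (fin 1034 3 1034)
(mv 1036 (cons (fin 1103 3 1035)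
(mv 1163 (cons (fin 1162 1 1098)
(mv 1227 (cons (fin 972 6 971)
(fin 1291 6 1035)))))))))
(mv 1098 (cons (fin 1038 2 1034)
(mv 1162 (cons (fin 1161 1 1097)
(fin 1163 1 1098)))))))))))))))))))))
(cons (mv 909 (cons (cons (mv 844 (cons (fin 908 7 844)
(mv 845 (cons (fin 780 7 780)
(mv 846 (cons (fin 782 6 781)
(fin 910 6 845)))))))
(mv 846 (cons (fin 910 6 845)
(mv 845 (cons (fin 782 6 781)
(mv 1102 (cons (fin 1038 4 845)
(fin 1166 4 909))))))))
(cons (mv 844 (cons (fin 908 7 844)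
(mv 845 (cons (fin 780 7 780)
(mv 1102 (cons (fin 1038 4 845)
(fin 1166 4 909)))))))
(mv 846 (cons (fin 910 6 845)
(mv 908 (cons (fin 844 7 844)
(mv 1165 (cons (fin 972 7 908)
(mv 1166 (cons (fin 1102 4 909)
(fin 1230 4 973))))))))))))
(cons (mv 909 (cons (cons (mv 844 (cons (fin 908 7 844)
(mv 845 (cons (fin 780 7 780)
(mv 846 (cons (fin 782 6 781)
(fin 910 6 845)))))))
(mv 846 (cons (fin 910 6 845)
(mv 845 (cons (fin 782 6 781)
(mv 1100 (cons (fin 1036 5 844)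
(fin 1164 5 908))))))))
(cons (mv 844 (cons (fin 908 7 844)
(mv 845 (cons (fin 780 7 780)
(mv 1100 (cons (fin 1036 5 844)
(fin 1164 5 908)))))))
(mv 846 (cons (fin 910 6 845)
(mv 908 (cons (fin 844 7 844)
(mv 1164 (cons (fin 1100 5 908)
(mv 1165 (cons (fin 972 7 908)
(fin 1228 5 972))))))))))))
(mv 909 (cons (cons (mv 846 (cons (fin 910 6 845)
(mv 782 (cons (fin 845 6 781)
(mv 1164 (cons (fin 1100 5 908)
(mv 1165 (cons (fin 1228 5 972)
(mv 1166 (cons (fin 1102 4 909)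
(fin 1230 4 973)))))))))))
(mv 846 (cons (fin 910 6 845)
(mv 845 (cons (fin 782 6 781)
(mv 1102 (cons (fin 1038 4 845)
(fin 1166 4 909))))))))
(cons (mv 846 (cons (fin 910 6 845)
(mv 845 (cons (fin 782 6 781)
(mv 1100 (cons (fin 1036 5 844)
(fin 1164 5 908)))))))
(cons (mv 1100 (cons (fin 1164 5 908)
(mv 845 (cons (fin 1036 5 844)
(mv 1102 (cons (fin 1038 4 845)
(fin 1166 4 909)))))))
(mv 846 (cons (fin 910 6 845)
(mv 1164 (cons (fin 1100 5 908)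
(mv 1165 (cons (fin 1228 5 972)
(mv 1166 (cons (fin 1102 4 909)
(fin 1230 4 973)))))))))))))))))
(mv 1100 (cons (cons (cons (mv 1038 (cons (fin 1039 1 1036)
(mv 1099 (cons (fin 1098 2 1034)
(mv 1102 (cons (cons (mv 1034 (cons (fin 1035 3 1034)
(mv 1162 (cons (fin 1163 1 1098)
(mv 1167 (cons (fin 1166 0 1099)
(mv 1103 (cons (fin 1168 0 1100)
(mv 1104 (cons (fin 1036 3 1036)
(fin 1105 3 1037)))))))))))
(mv 1162 (cons (fin 1163 1 1098)
(mv 1167 (cons (fin 1166 0 1099)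
(mv 1103 (cons (fin 1168 0 1100)
(mv 1104 (cons (fin 1036 3 1036)
(fin 1105 3 1037))))))))))
(cons (mv 1034 (cons (fin 1035 3 1034)
(mv 1167 (cons (fin 1166 0 1099)
(mv 1103 (cons (fin 1168 0 1100)
(mv 1104 (cons (fin 1036 3 1036)
(fin 1105 3 1037)))))))))
(cons (mv 1034 (cons (fin 1035 3 1034)
(mv 1163 (cons (fin 1162 1 1098)
(mv 1103 (cons (fin 1164 1 1099)
(mv 1104 (cons (fin 1036 3 1036)
(fin 1105 3 1037)))))))))
(mv 1034 (cons (fin 1035 3 1034)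
(mv 1163 (cons (fin 1162 1 1098)
(mv 1166 (cons (fin 1167 0 1099)
(mv 1230 (cons (fin 1294 7 1037)
(mv 1229 (cons (fin 1293 5 1037)
(mv 1231 (cons (fin 1295 4 1038)
(mv 1164 (cons (fin 1228 3 1163)
(fin 1165 0 1163)))))))))))))))))))))))
(mv 1099 (cons (cons (mv 1038 (cons (fin 1098 2 1034)
(mv 1102 (cons (cons (mv 1034 (cons (fin 1035 3 1034)
(mv 1162 (cons (fin 1163 1 1098)
(mv 1167 (cons (fin 1166 0 1099)
(mv 1103 (cons (fin 1168 0 1100)
(mv 1104 (cons (fin 1036 3 1036)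
(fin 1105 3 1037)))))))))))
(mv 1162 (cons (fin 1163 1 1098)
(mv 1167 (cons (fin 1166 0 1099)
(mv 1103 (cons (fin 1168 0 1100)
(mv 1104 (cons (fin 1036 3 1036)
(fin 1105 3 1037))))))))))
(cons (mv 1034 (cons (fin 1035 3 1034)
(mv 1167 (cons (fin 1166 0 1099)
(mv 1103 (cons (fin 1168 0 1100)
(mv 1104 (cons (fin 1036 3 1036)
(fin 1105 3 1037)))))))))
(cons (mv 1034 (cons (fin 1035 3 1034)
(mv 1163 (cons (fin 1162 1 1098)
(mv 1103 (cons (fin 1164 1 1099)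
(mv 1104 (cons (fin 1036 3 1036)
(fin 1105 3 1037)))))))))
(mv 1034 (cons (fin 1035 3 1034)
(mv 1163 (cons (fin 1162 1 1098)
(mv 1166 (cons (fin 1167 0 1099)
(mv 1230 (cons (fin 1294 7 1037)
(mv 1229 (cons (fin 1293 5 1037)
(mv 1231 (cons (fin 1295 4 1038)
(mv 1164 (cons (fin 1228 3 1163)
(fin 1165 0 1163)))))))))))))))))))))
(cons (mv 1102 (cons (cons (mv 1034 (cons (fin 1035 3 1034)
(mv 1163 (cons (fin 1162 1 1098)
(mv 1103 (cons (fin 1164 1 1099)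
(mv 1167 (cons (fin 1166 0 1099)
(fin 1168 0 1100)))))))))
(cons (mv 1163 (cons (fin 1162 1 1098)
(mv 1103 (cons (fin 1164 1 1099)
(mv 1167 (cons (fin 1166 0 1099)
(fin 1168 0 1100)))))))
(mv 1035 (cons (fin 1034 3 1034)
(mv 1103 (cons (fin 1036 3 1035)
(mv 1167 (cons (fin 1166 0 1099)
(fin 1168 0 1100)))))))))
(cons (mv 1034 (cons (fin 1035 3 1034)
(mv 1163 (cons (fin 1162 1 1098)
(mv 1103 (cons (fin 1164 1 1099)
(mv 1104 (cons (fin 1036 3 1036)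
(mv 1168 (cons (fin 1167 0 1100)
(fin 1169 0 1101)))))))))))
(cons (mv 1034 (cons (fin 1035 3 1034)
(mv 1163 (cons (fin 1162 1 1098)
(mv 1103 (cons (fin 1164 1 1099)
(mv 1104 (cons (fin 1036 3 1036)
(mv 1105 (cons (fin 1038 3 1037)
(mv 1169 (cons (fin 1168 0 1101)
(fin 1170 0 1102)))))))))))))
(mv 1035 (cons (fin 1034 3 1034)
(mv 1163 (cons (fin 1162 1 1098)
(mv 1166 (cons (fin 1167 0 1099)
(mv 1230 (cons (fin 1294 7 1037)
(mv 1164 (cons (mv 971 (cons (fin 907 4 907)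
(fin 1228 4 971)))
(cons (mv 907 (cons (fin 971 4 907)
(mv 1165 (cons (fin 1231 0 1163)
(mv 1227 (cons (fin 1226 1 1162)
(mv 1036 (cons (fin 972 5 971)
(fin 1291 6 1035)))))))))
(mv 1165 (cons (fin 1231 0 1163)
(mv 1227 (cons (fin 1226 1 1162)
(mv 1036 (cons (fin 972 5 971)
(fin 1291 6 1035))))))))))))))))))))))
(mv 1098 (cons (mv 1033 (cons (fin 1034 3 1033)
(mv 1097 (cons (fin 1032 3 1032)
(fin 1036 2 1033)))))
(cons (mv 1033 (cons (fin 1034 3 1033)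
(mv 1162 (cons (fin 1161 1 1097)
(mv 1102 (cons (fin 1163 1 1098)
(mv 1166 (cons (fin 1165 0 1098)
(fin 1167 0 1099)))))))))
(mv 1036 (cons (fin 1097 2 1033)
(mv 1161 (cons (fin 1162 1 1097)
(mv 1165 (cons (fin 1166 0 1098)
(mv 972 (cons (fin 1229 7 972)
(fin 908 4 908))))))))))))))
(cons (mv 1098 (cons (fin 1038 2 1034)
(mv 1033 (cons (fin 1034 3 1033)
(mv 1097 (cons (fin 1032 3 1032)
(fin 1036 2 1033)))))))
(cons (mv 1098 (cons (fin 1038 2 1034)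
(mv 1036 (cons (fin 1097 2 1033)
(mv 1161 (cons (fin 1162 1 1097)
(mv 1165 (cons (fin 1166 0 1098)
(mv 972 (cons (fin 1229 7 972)
(fin 908 4 908)))))))))))
(mv 1098 (cons (fin 1038 2 1034)
(mv 1033 (cons (fin 1034 3 1033)
(mv 1032 (cons (fin 1097 3 1032)
(mv 1162 (cons (fin 1161 1 1097)
(mv 1102 (cons (fin 1163 1 1098)
(mv 1166 (cons (fin 1165 0 1098)
(fin 1167 0 1099))))))))))))))))))
(cons (mv 1102 (cons (mv 1103 (cons (fin 1039 2 1036)
(mv 1036 (cons (fin 1035 3 1035)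
(fin 1104 3 1036)))))
(cons (mv 1099 (cons (cons (mv 1034 (cons (fin 1035 3 1034)
(mv 1098 (cons (fin 1033 3 1033)
(mv 1162 (cons (fin 1161 1 1097)
(fin 1163 1 1098)))))))
(mv 1162 (cons (fin 1163 1 1098)
(mv 1098 (cons (fin 1161 1 1097)
(mv 1166 (cons (fin 1165 0 1098)
(fin 1167 0 1099))))))))
(cons (mv 1034 (cons (fin 1035 3 1034)
(mv 1098 (cons (fin 1033 3 1033)
(mv 1166 (cons (fin 1165 0 1098)
(fin 1167 0 1099)))))))
(mv 1035 (cons (fin 1034 3 1034)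
(mv 1163 (cons (fin 1162 1 1098)
(mv 1166 (cons (fin 1167 0 1099)
(mv 1230 (cons (fin 1294 7 1037)
(mv 1164 (cons (mv 971 (cons (fin 907 4 907)
(fin 1228 4 971)))
(cons (mv 907 (cons (fin 971 4 907)
(mv 1165 (cons (fin 1231 0 1163)
(mv 1227 (cons (fin 1226 1 1162)
(mv 1036 (cons (fin 972 5 971)
(fin 1291 6 1035)))))))))
(mv 1165 (cons (fin 1231 0 1163)
(mv 1227 (cons (fin 1226 1 1162)
(mv 1036 (cons (fin 972 5 971)
(fin 1291 6 1035)))))))))))))))))))))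
(mv 1103 (cons (fin 1039 2 1036)
(mv 1163 (cons (fin 1164 1 1099)
(mv 1099 (cons (fin 1162 1 1098)
(mv 1167 (cons (fin 1166 0 1099)
(fin 1168 0 1100))))))))))))
(mv 1038 (cons (fin 1039 1 1036)
(mv 1036 (cons (cons (mv 1098 (cons (fin 1099 2 1034)
(mv 1035 (cons (mv 1034 (cons (fin 1097 1 1033)
(fin 1033 0 1033)))
(mv 971 (cons (fin 970 3 970)
(mv 907 (cons (fin 843 4 843)
(mv 1164 (cons (fin 972 7 907)
(fin 1228 7 971)))))))))))
(cons (mv 972 (cons (mv 908 (cons (fin 844 4 844)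
(fin 1165 4 908)))
(cons (mv 908 (cons (fin 844 4 844)
(mv 845 (cons (fin 909 6 844)
(mv 907 (cons (fin 843 7 843)
(mv 971 (cons (fin 1164 7 907)
(mv 970 (cons (fin 1035 3 970)
(fin 969 0 969)))))))))))
(mv 1165 (cons (fin 1229 7 972)
(mv 1164 (cons (mv 907 (cons (fin 971 7 907)
(mv 1227 (cons (fin 1163 5 971)
(mv 1228 (cons (fin 1291 5 1035)
(fin 1292 6 1036)))))))
(cons (mv 971 (cons (fin 907 7 907)
(mv 970 (cons (fin 1035 3 970)
(fin 969 0 969)))))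
(mv 1227 (cons (fin 1163 5 971)
(mv 1228 (cons (fin 1291 5 1035)
(fin 1292 6 1036)))))))))))))
(mv 1035 (cons (mv 970 (cons (fin 971 3 970)
(mv 1034 (cons (fin 969 3 969)
(fin 1033 0 1033)))))
(cons (mv 971 (cons (fin 970 3 970)
(mv 907 (cons (fin 843 4 843)
(mv 1099 (cons (fin 1098 1 1034)
(fin 1164 4 907)))))))
(mv 1034 (cons (fin 1033 0 1033)
(mv 1098 (cons (fin 1097 1 1033)
(fin 1099 1 1034))))))))))
(cons (mv 1098 (cons (fin 1099 2 1034)
(mv 972 (cons (mv 908 (cons (fin 844 4 844)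
(fin 1165 4 908)))
(cons (mv 908 (cons (fin 844 4 844)
(mv 845 (cons (fin 909 6 844)
(mv 907 (cons (fin 843 7 843)
(mv 1164 (cons (fin 971 7 907)
(mv 1227 (cons (fin 1163 5 971)
(mv 1228 (cons (fin 1291 5 1035)
(fin 1292 6 1036)))))))))))))
(mv 1164 (cons (cons (mv 907 (cons (fin 971 7 907)
(mv 1163 (cons (fin 1227 5 971)
(mv 1161 (cons (fin 1162 2 1097)
(mv 1228 (cons (fin 1292 6 1036)
(mv 1229 (cons (fin 1165 7 972)
(fin 1293 4 1036)))))))))))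
(mv 907 (cons (fin 971 7 907)
(mv 1227 (cons (fin 1163 5 971)
(mv 1228 (cons (fin 1291 5 1035)
(fin 1292 6 1036))))))))
(cons (mv 907 (cons (fin 971 7 907)
(mv 1163 (cons (fin 1227 5 971)
(mv 1162 (cons (fin 1161 2 1097)
(mv 1165 (cons (fin 1097 3 1097)
(fin 1229 7 972)))))))))
(cons (mv 907 (cons (fin 971 7 907)
(mv 1228 (cons (fin 1292 6 1036)
(mv 1229 (cons (fin 1165 7 972)
(fin 1293 4 1036)))))))
(mv 1163 (cons (fin 1227 5 971)
(mv 1161 (cons (fin 1162 2 1097)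
(mv 1228 (cons (fin 1292 6 1036)
(mv 1229 (cons (fin 1165 7 972)
(fin 1293 4 1036))))))))))))))))))
(cons (mv 1165 (cons (mv 972 (cons (fin 1229 7 972)
(fin 908 4 908)))
(cons (mv 908 (cons (fin 972 4 908)
(mv 1035 (cons (mv 970 (cons (fin 971 3 970)
(mv 1034 (cons (fin 969 3 969)
(fin 1033 0 1033)))))
(cons (mv 971 (cons (fin 970 3 970)
(mv 907 (cons (fin 843 4 843)
(mv 1099 (cons (fin 1098 1 1034)
(fin 844 6 843)))))))
(mv 1034 (cons (fin 1033 0 1033)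
(mv 1098 (cons (fin 1097 1 1033)
(fin 1099 1 1034))))))))))
(mv 1099 (cons (fin 1098 2 1034)
(mv 1229 (cons (fin 1293 7 1036)
(mv 1228 (cons (fin 1292 5 1036)
(mv 1230 (cons (fin 1294 4 1037)
(mv 1227 (cons (mv 1163 (cons (fin 1162 3 1162)
(fin 1291 6 1035)))
(mv 1166 (cons (fin 1226 2 1162)
(fin 1167 2 1163))))))))))))))))
(mv 1098 (cons (fin 1099 2 1034)
(mv 1164 (cons (cons (mv 1228 (cons (fin 1292 6 1036)
(mv 1227 (cons (fin 1291 5 1035)
(mv 972 (cons (fin 1163 5 971)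
(mv 908 (cons (fin 844 4 844)
(fin 1165 4 908)))))))))
(cons (mv 1165 (cons (mv 972 (cons (fin 1229 7 972)
(fin 908 4 908)))
(cons (mv 972 (cons (fin 908 4 908)
(mv 1163 (cons (fin 1227 5 971)
(mv 1162 (cons (fin 1097 3 1097)
(fin 1161 2 1097)))))))
(mv 1229 (cons (fin 1293 7 1036)
(mv 1230 (cons (fin 1294 4 1037)
(mv 1163 (cons (fin 1162 0 1162)
(mv 1231 (cons (fin 1232 3 1164)
(fin 1166 0 1163))))))))))))
(mv 1228 (cons (fin 1292 6 1036)
(mv 1227 (cons (fin 1291 5 1035)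
(mv 1229 (cons (fin 1293 4 1036)
(mv 1230 (cons (mv 1163 (cons (fin 1162 3 1162)
(fin 1231 3 1163)))
(mv 1294 (cons (fin 1295 0 1227)
(fin 1165 4 1037)))))))))))))
(cons (mv 1228 (cons (fin 1292 6 1036)
(mv 1227 (cons (fin 1291 5 1035)
(mv 1163 (cons (fin 972 5 971)
(mv 1162 (cons (fin 1161 2 1097)
(mv 1229 (cons (fin 1230 3 1162)
(fin 1293 4 1036)))))))))))
(cons (mv 1228 (cons (fin 1292 6 1036)
(mv 1227 (cons (fin 1291 5 1035)
(mv 1229 (cons (fin 1293 4 1036)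
(mv 1165 (cons (fin 972 7 972)
(mv 1166 (cons (fin 1167 1 1163)
(fin 1226 2 1162)))))))))))
(mv 1228 (cons (fin 1292 6 1036)
(mv 1229 (cons (fin 1293 4 1036)
(mv 1165 (cons (fin 972 7 972)
(mv 1230 (cons (fin 1294 4 1037)
(mv 1163 (cons (fin 1231 3 1163)
(fin 1162 0 1162)))))))))))))))))))))))))
(cons (cons (mv 1039 (cons (fin 1038 1 1036)
(mv 1103 (cons (fin 1102 2 1036)
(mv 976 (cons (cons (mv 912 (cons (fin 848 5 847)
(mv 1167 (cons (fin 1104 5 911)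
(fin 975 6 911)))))
(mv 1167 (cons (fin 1231 6 975)
(mv 1168 (cons (mv 975 (cons (fin 1232 4 975)
(mv 1166 (cons (fin 1165 3 1100)
(fin 1230 5 974)))))
(cons (mv 1166 (cons (fin 1165 3 1100)
(mv 1169 (cons (cons (mv 1233 (cons (fin 1234 0 1166)
(fin 1104 4 976)))
(mv 1106 (cons (fin 1105 2 1102)
(mv 1170 (cons (fin 1107 2 1103)
(mv 1171 (cons (fin 1104 3 1103)
(mv 1235 (cons (fin 1234 0 1167)
(fin 1236 0 1168))))))))))
(cons (mv 1106 (cons (fin 1105 2 1102)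
(mv 1170 (cons (fin 1107 2 1103)
(mv 1234 (cons (fin 1233 0 1166)
(fin 1235 0 1167)))))))
(mv 1104 (cons (fin 1233 4 976)
(mv 913 (cons (fin 977 6 912)
(mv 1106 (cons (fin 1105 1 1102)
(mv 1170 (cons (fin 1171 3 1103)
(fin 1107 2 1103))))))))))))))
(mv 975 (cons (fin 1232 4 975)
(mv 911 (cons (fin 1104 7 911)
(mv 846 (cons (fin 910 7 846)
(mv 847 (cons (fin 782 7 782)
(fin 783 4 783)))))))))))))))
(cons (mv 912 (cons (fin 848 5 847)
(mv 1104 (cons (cons (mv 847 (cons (fin 911 7 847)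
(mv 849 (cons (fin 913 6 848)
(mv 1169 (cons (fin 1105 4 912)
(mv 1168 (cons (fin 1233 4 976)
(mv 1232 (cons (fin 975 7 975)
(fin 1296 7 1039)))))))))))
(cons (mv 849 (cons (fin 913 6 848)
(mv 1169 (cons (fin 1105 4 912)
(mv 1168 (cons (fin 1233 4 976)
(mv 1232 (cons (fin 975 7 975)
(fin 1296 7 1039)))))))))
(mv 847 (cons (fin 911 7 847)
(mv 1169 (cons (fin 1105 4 912)
(mv 1168 (cons (fin 1233 4 976)
(mv 1232 (cons (fin 975 7 975)
(fin 1296 7 1039)))))))))))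
(cons (mv 847 (cons (fin 911 7 847)
(mv 913 (cons (fin 849 6 848)
(mv 1168 (cons (fin 977 6 912)
(mv 1232 (cons (fin 975 7 975)
(fin 1296 7 1039)))))))))
(cons (mv 847 (cons (fin 911 7 847)
(mv 913 (cons (fin 849 6 848)
(mv 1105 (cons (fin 1169 4 912)
(mv 1106 (cons (fin 1107 3 1039)
(mv 1042 (cons (fin 1043 2 1039)
(mv 1170 (cons (fin 1171 0 1103)
(mv 978 (cons (fin 977 7 913)
(mv 915 (cons (fin 979 6 914)
(mv 914 (cons (fin 975 1 911)
(fin 851 6 850)))))))))))))))))))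
(mv 847 (cons (fin 911 7 847)
(mv 913 (cons (fin 849 6 848)
(mv 977 (cons (fin 1168 6 912)
(mv 978 (cons (fin 979 1 975)
(mv 1105 (cons (fin 1169 4 912)
(mv 1106 (cons (fin 1107 3 1039)
(mv 1042 (cons (fin 1043 2 1039)
(fin 1170 7 913)))))))))))))))))))))
(cons (mv 912 (cons (fin 848 5 847)
(mv 1167 (cons (fin 975 6 911)
(fin 1231 6 975)))))
(mv 912 (cons (fin 848 5 847)
(mv 1167 (cons (fin 1104 5 911)
(fin 1231 6 975)))))))))))))
(mv 1038 (cons (fin 1039 1 1036)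
(mv 1099 (cons (fin 1098 2 1034)
(mv 1102 (cons (cons (mv 1034 (cons (fin 1035 3 1034)
(mv 1162 (cons (fin 1163 1 1098)
(mv 1167 (cons (fin 1166 0 1099)
(mv 1103 (cons (fin 1168 0 1100)
(mv 1104 (cons (fin 1036 3 1036)
(fin 1105 3 1037)))))))))))
(cons (mv 1162 (cons (fin 1163 1 1098)
(mv 1167 (cons (fin 1166 0 1099)
(mv 1103 (cons (fin 1168 0 1100)
(mv 1104 (cons (fin 1036 3 1036)
(fin 1105 3 1037)))))))))
(mv 1034 (cons (fin 1035 3 1034)
(mv 1167 (cons (fin 1166 0 1099)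
(mv 1103 (cons (fin 1168 0 1100)
(mv 1104 (cons (fin 1036 3 1036)
(fin 1105 3 1037)))))))))))
(cons (mv 1034 (cons (fin 1035 3 1034)
(mv 1163 (cons (fin 1162 1 1098)
(mv 1103 (cons (fin 1164 1 1099)
(mv 1104 (cons (fin 1036 3 1036)
(fin 1105 3 1037)))))))))
(cons (mv 1034 (cons (fin 1035 3 1034)
(mv 1163 (cons (fin 1162 1 1098)
(mv 1166 (cons (fin 1167 0 1099)
(mv 1230 (cons (fin 1294 7 1037)
(mv 1229 (cons (fin 1293 5 1037)
(mv 1231 (cons (fin 1295 4 1038)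
(mv 1228 (cons (fin 1164 3 1163)
(mv 1291 (cons (fin 1292 1 1227)
(mv 1227 (cons (fin 1290 1 1226)
(fin 1036 6 1035)))))))))))))))))))
(mv 1034 (cons (fin 1035 3 1034)
(mv 1163 (cons (fin 1162 1 1098)
(mv 1103 (cons (fin 1164 1 1099)
(mv 1167 (cons (fin 1166 0 1099)
(fin 1168 0 1100))))))))))))))))))
(cons (mv 1038 (cons (fin 1039 1 1036)
(mv 1099 (cons (fin 1098 2 1034)
(mv 1102 (cons (cons (mv 1034 (cons (fin 1035 3 1034)
(mv 1163 (cons (fin 1162 1 1098)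
(mv 1103 (cons (fin 1164 1 1099)
(mv 1104 (cons (fin 1036 3 1036)
(fin 1105 3 1037)))))))))
(cons (mv 1163 (cons (fin 1162 1 1098)
(mv 1103 (cons (fin 1164 1 1099)
(mv 1104 (cons (fin 1036 3 1036)
(fin 1105 3 1037)))))))
(mv 1035 (cons (fin 1034 3 1034)
(mv 1036 (cons (fin 1103 3 1035)
(mv 971 (cons (fin 970 3 970)
(mv 907 (cons (fin 843 4 843)
(fin 1164 4 907)))))))))))
(cons (mv 1035 (cons (fin 1034 3 1034)
(mv 1163 (cons (fin 1162 1 1098)
(mv 971 (cons (mv 970 (cons (fin 1036 3 970)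
(fin 906 7 906)))
(mv 1164 (cons (fin 907 4 907)
(fin 1228 4 971)))))))))
(cons (mv 1034 (cons (fin 1035 3 1034)
(mv 1163 (cons (fin 1162 1 1098)
(mv 1103 (cons (fin 1164 1 1099)
(mv 1104 (cons (fin 1105 3 1037)
(mv 1168 (cons (fin 1167 0 1100)
(fin 1169 0 1101)))))))))))
(mv 1035 (cons (fin 1034 3 1034)
(mv 1036 (cons (fin 1103 3 1035)
(mv 970 (cons (fin 971 3 970)
(mv 1163 (cons (fin 1162 1 1098)
(mv 972 (cons (fin 908 5 907)
(fin 1227 6 971)))))))))))))))))))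
(mv 1038 (cons (fin 1039 1 1036)
(mv 1099 (cons (fin 1098 2 1034)
(mv 1102 (cons (cons (mv 1034 (cons (fin 1035 3 1034)
(mv 1163 (cons (fin 1162 1 1098)
(mv 1103 (cons (fin 1164 1 1099)
(mv 1104 (cons (fin 1036 3 1036)
(fin 1105 3 1037)))))))))
(cons (mv 1163 (cons (fin 1162 1 1098)
(mv 1103 (cons (fin 1164 1 1099)
(mv 1104 (cons (fin 1036 3 1036)
(fin 1105 3 1037)))))))
(mv 1035 (cons (fin 1034 3 1034)
(mv 1036 (cons (fin 1103 3 1035)
(mv 971 (cons (fin 970 3 970)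
(mv 907 (cons (fin 843 4 843)
(fin 1164 4 907)))))))))))
(cons (mv 1035 (cons (fin 1034 3 1034)
(mv 1163 (cons (fin 1162 1 1098)
(mv 971 (cons (mv 970 (cons (fin 1036 3 970)
(fin 906 7 906)))
(mv 1164 (cons (fin 907 4 907)
(fin 1228 4 971)))))))))
(cons (mv 1035 (cons (fin 1034 3 1034)
(mv 1163 (cons (fin 1162 1 1098)
(mv 1164 (cons (fin 1103 1 1099)
(mv 971 (cons (fin 907 4 907)
(fin 1228 4 971)))))))))
(mv 1035 (cons (fin 1034 3 1034)
(mv 1036 (cons (fin 1103 3 1035)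
(mv 970 (cons (fin 971 3 970)
(mv 1163 (cons (fin 1162 1 1098)
(mv 972 (cons (fin 908 5 907)
(fin 1227 6 971))))))))))))))))))))))))))
(cons (cons (mv 1100 (cons (cons (cons (mv 1038 (cons (fin 1039 1 1036)
(mv 1099 (cons (fin 1098 2 1034)
(mv 1102 (cons (cons (mv 1034 (cons (fin 1035 3 1034)
(mv 1162 (cons (fin 1163 1 1098)
(mv 1166 (cons (fin 1167 0 1099)
(mv 973 (cons (fin 1230 7 973)
(fin 909 4 909)))))))))
(mv 1162 (cons (fin 1163 1 1098)
(mv 1166 (cons (fin 1167 0 1099)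
(mv 973 (cons (fin 1230 7 973)
(fin 909 4 909))))))))
(cons (mv 1034 (cons (fin 1035 3 1034)
(mv 1163 (cons (fin 1162 1 1098)
(mv 1103 (cons (fin 1164 1 1099)
(mv 1104 (cons (fin 1036 3 1036)
(fin 1105 3 1037)))))))))
(mv 1034 (cons (fin 1035 3 1034)
(mv 1166 (cons (fin 1167 0 1099)
(mv 973 (cons (fin 1230 7 973)
(fin 909 4 909))))))))))))))
(mv 1102 (cons (mv 1103 (cons (fin 1039 2 1036)
(mv 1036 (cons (fin 1035 3 1035)
(fin 1104 3 1036)))))
(cons (mv 1099 (cons (cons (mv 1034 (cons (fin 1035 3 1034)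
(mv 1098 (cons (fin 1033 3 1033)
(mv 1162 (cons (fin 1161 1 1097)
(fin 1163 1 1098)))))))
(cons (mv 1163 (cons (fin 1162 1 1098)
(mv 1166 (cons (fin 1167 0 1099)
(mv 973 (cons (fin 909 4 909)
(mv 1294 (cons (fin 1230 7 1037)
(mv 1036 (cons (cons (mv 908 (cons (fin 972 5 907)
(mv 1097 (cons (fin 1098 2 1033)
(mv 1227 (cons (fin 1291 6 1035)
(mv 1228 (cons (fin 1164 6 972)
(mv 1292 (cons (fin 1035 4 1035)
(mv 1293 (cons (fin 1295 3 1227)
(mv 1226 (cons (fin 1225 0 1225)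
(fin 1229 0 1226)))))))))))))))
(mv 1097 (cons (fin 1098 2 1033)
(mv 1227 (cons (fin 1291 6 1035)
(mv 1228 (cons (fin 1164 6 972)
(mv 1292 (cons (fin 1035 4 1035)
(mv 1293 (cons (fin 1295 3 1227)
(mv 1226 (cons (fin 1225 0 1225)
(fin 1229 0 1226))))))))))))))
(cons (mv 972 (cons (fin 908 5 907)
(mv 1227 (cons (fin 1035 6 971)
(fin 1291 6 1035)))))
(cons (mv 972 (cons (fin 908 5 907)
(mv 1097 (cons (fin 1098 2 1033)
(mv 1164 (cons (fin 1228 6 972)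
(mv 971 (cons (fin 907 7 907)
(mv 970 (cons (fin 969 0 969)
(mv 906 (cons (fin 905 3 905)
(fin 1035 7 906)))))))))))))
(mv 972 (cons (fin 908 5 907)
(mv 1164 (cons (fin 1227 5 971)
(fin 1228 6 972)))))))))))))))))
(mv 1162 (cons (fin 1163 1 1098)
(mv 1098 (cons (fin 1161 1 1097)
(mv 1033 (cons (fin 1034 3 1033)
(mv 1097 (cons (fin 1032 3 1032)
(fin 1036 2 1033)))))))))))
(cons (mv 1034 (cons (fin 1035 3 1034)
(mv 1098 (cons (fin 1033 3 1033)
(mv 1036 (cons (fin 1097 2 1033)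
(mv 1166 (cons (fin 1167 0 1099)
(mv 973 (cons (fin 909 4 909)
(mv 1164 (cons (fin 1228 6 972)
(mv 1230 (cons (fin 1294 7 1037)
(mv 972 (cons (mv 908 (cons (fin 1163 5 907)
(fin 844 4 844)))
(cons (mv 907 (cons (fin 971 7 907)
(mv 908 (cons (fin 843 7 843)
(fin 844 4 844)))))
(mv 971 (cons (fin 907 7 907)
(mv 970 (cons (fin 969 0 969)
(mv 906 (cons (fin 905 3 905)
(fin 1163 4 906))))))))))))))))))))))))
(cons (mv 1034 (cons (fin 1035 3 1034)
(mv 1098 (cons (fin 1033 3 1033)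
(mv 1097 (cons (fin 1036 2 1033)
(mv 1161 (cons (fin 1160 1 1096)
(fin 1162 1 1097)))))))))
(mv 1035 (cons (fin 1034 3 1034)
(mv 1163 (cons (fin 1162 1 1098)
(mv 1166 (cons (fin 1167 0 1099)
(mv 909 (cons (fin 973 4 909)
(mv 1230 (cons (fin 1294 7 1037)
(mv 1164 (cons (mv 971 (cons (fin 907 4 907)
(fin 1228 4 971)))
(cons (mv 971 (cons (fin 907 4 907)
(mv 906 (cons (fin 970 7 906)
(mv 972 (cons (fin 908 6 907)
(mv 1227 (cons (fin 1036 5 971)
(mv 1290 (cons (fin 1226 5 1034)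
(mv 1291 (cons (fin 1354 5 1098)
(fin 1355 6 1099)))))))))))))
(mv 1228 (cons (fin 1292 7 1035)
(mv 1229 (cons (fin 1231 3 1163)
(mv 1036 (cons (fin 1293 4 1036)
(mv 972 (cons (fin 908 5 907)
(fin 1227 5 971))))))))))))))))))))))))))
(mv 1103 (cons (fin 1039 2 1036)
(mv 1163 (cons (fin 1164 1 1099)
(mv 1099 (cons (fin 1162 1 1098)
(mv 1167 (cons (fin 1166 0 1099)
(fin 1168 0 1100)))))))))))))
(cons (mv 1099 (cons (cons (mv 1038 (cons (fin 1098 2 1034)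
(mv 1102 (cons (cons (mv 1034 (cons (fin 1035 3 1034)
(mv 1162 (cons (fin 1163 1 1098)
(mv 1166 (cons (fin 1167 0 1099)
(mv 973 (cons (fin 1230 7 973)
(fin 909 4 909)))))))))
(mv 1162 (cons (fin 1163 1 1098)
(mv 1166 (cons (fin 1167 0 1099)
(mv 973 (cons (fin 1230 7 973)
(fin 909 4 909))))))))
(cons (mv 1034 (cons (fin 1035 3 1034)
(mv 1163 (cons (fin 1162 1 1098)
(mv 1103 (cons (fin 1164 1 1099)
(mv 1104 (cons (fin 1036 3 1036)
(fin 1105 3 1037)))))))))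
(mv 1034 (cons (fin 1035 3 1034)
(mv 1166 (cons (fin 1167 0 1099)
(mv 973 (cons (fin 1230 7 973)
(fin 909 4 909))))))))))))
(cons (mv 1102 (cons (cons (mv 1034 (cons (fin 1035 3 1034)
(mv 1162 (cons (fin 1163 1 1098)
(mv 1166 (cons (fin 1167 0 1099)
(mv 973 (cons (fin 909 4 909)
(mv 1230 (cons (fin 1038 7 973)
(fin 1294 7 1037)))))))))))
(mv 1162 (cons (fin 1163 1 1098)
(mv 1166 (cons (fin 1167 0 1099)
(mv 973 (cons (fin 909 4 909)
(mv 1230 (cons (fin 1038 7 973)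
(fin 1294 7 1037))))))))))
(cons (mv 1034 (cons (fin 1035 3 1034)
(mv 1163 (cons (fin 1162 1 1098)
(mv 1103 (cons (fin 1164 1 1099)
(mv 1104 (cons (fin 1036 3 1036)
(mv 1168 (cons (fin 1167 0 1100)
(fin 1169 0 1101)))))))))))
(cons (mv 1034 (cons (fin 1035 3 1034)
(mv 1166 (cons (fin 1167 0 1099)
(mv 973 (cons (fin 909 4 909)
(mv 1230 (cons (fin 1038 7 973)
(fin 1294 7 1037)))))))))
(mv 1034 (cons (fin 1035 3 1034)
(mv 1163 (cons (fin 1162 1 1098)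
(mv 1103 (cons (fin 1164 1 1099)
(mv 1104 (cons (fin 1036 3 1036)
(mv 1105 (cons (fin 1038 3 1037)
(mv 1169 (cons (fin 1168 0 1101)
(fin 1170 0 1102)))))))))))))))))
(mv 1102 (cons (cons (mv 1034 (cons (fin 1035 3 1034)
(mv 1033 (cons (fin 1098 3 1033)
(mv 1163 (cons (fin 1162 1 1098)
(mv 1103 (cons (fin 1164 1 1099)
(mv 1167 (cons (fin 1166 0 1099)
(fin 1168 0 1100)))))))))))
(mv 1162 (cons (fin 1163 1 1098)
(mv 1098 (cons (fin 1161 1 1097)
(mv 1033 (cons (fin 1034 3 1033)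
(mv 1097 (cons (fin 1032 3 1032)
(fin 1036 2 1033))))))))))
(cons (mv 1162 (cons (fin 1163 1 1098)
(mv 1098 (cons (fin 1161 1 1097)
(mv 1036 (cons (fin 1097 2 1033)
(mv 1103 (cons (fin 1035 3 1035)
(fin 1104 3 1036)))))))))
(cons (mv 1034 (cons (fin 1035 3 1034)
(mv 1098 (cons (fin 1033 3 1033)
(mv 1036 (cons (fin 1097 2 1033)
(mv 1103 (cons (fin 1104 3 1036)
(mv 1167 (cons (fin 1166 0 1099)
(fin 1168 0 1100)))))))))))
(mv 1034 (cons (fin 1035 3 1034)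
(mv 1163 (cons (fin 1162 1 1098)
(mv 1103 (cons (fin 1164 1 1099)
(mv 1167 (cons (fin 1166 0 1099)
(fin 1168 0 1100)))))))))))))))
(cons (mv 1098 (cons (fin 1038 2 1034)
(mv 1033 (cons (fin 1034 3 1033)
(mv 1097 (cons (fin 1032 3 1032)
(fin 1036 2 1033)))))))
(cons (mv 1098 (cons (fin 1038 2 1034)
(mv 1036 (cons (fin 1097 2 1033)
(mv 1162 (cons (fin 1161 1 1097)
(mv 1102 (cons (fin 1163 1 1098)
(mv 1103 (cons (fin 1035 3 1035)
(fin 1104 3 1036)))))))))))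
(mv 1098 (cons (fin 1038 2 1034)
(mv 1033 (cons (fin 1034 3 1033)
(mv 1097 (cons (fin 1032 3 1032)
(mv 1161 (cons (fin 1160 1 1096)
(fin 1162 1 1097)))))))))))))
(mv 1038 (cons (fin 1039 1 1036)
(mv 1099 (cons (fin 1098 2 1034)
(mv 1102 (cons (cons (mv 1034 (cons (fin 1035 3 1034)
(mv 1162 (cons (fin 1163 1 1098)
(mv 1166 (cons (fin 1167 0 1099)
(mv 973 (cons (fin 1230 7 973)
(fin 909 4 909)))))))))
(mv 1162 (cons (fin 1163 1 1098)
(mv 1166 (cons (fin 1167 0 1099)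
(mv 973 (cons (fin 1230 7 973)
(fin 909 4 909))))))))
(cons (mv 1035 (cons (fin 1034 3 1034)
(mv 1036 (cons (fin 1103 3 1035)
(mv 970 (cons (fin 971 3 970)
(mv 1163 (cons (fin 1162 1 1098)
(mv 972 (cons (fin 908 5 907)
(fin 1227 6 971)))))))))))
(mv 1034 (cons (fin 1035 3 1034)
(mv 1166 (cons (fin 1167 0 1099)
(mv 973 (cons (fin 1230 7 973)
(fin 909 4 909))))))))))))))))
(cons (cons (mv 1038 (cons (fin 1039 1 1036)
(mv 971 (cons (cons (cons (mv 1099 (cons (fin 1098 2 1034)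
(mv 1164 (cons (cons (mv 907 (cons (fin 1035 4 907)
(mv 972 (cons (fin 1036 7 907)
(mv 973 (cons (fin 970 0 970)
(fin 909 5 908)))))))
(mv 973 (cons (fin 909 5 908)
(mv 1228 (cons (fin 1036 6 972)
(fin 1292 6 1036))))))
(cons (mv 1035 (cons (fin 907 4 907)
(mv 1036 (cons (fin 970 3 970)
(fin 1228 7 971)))))
(mv 909 (cons (fin 973 5 908)
(mv 1035 (cons (fin 907 4 907)
(mv 1228 (cons (fin 1292 7 1035)
(fin 1163 4 971))))))))))))
(mv 972 (cons (cons (mv 970 (cons (fin 973 0 970)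
(mv 1036 (cons (fin 1035 3 970)
(fin 969 0 969)))))
(mv 1036 (cons (cons (mv 844 (cons (fin 908 4 844)
(mv 907 (cons (fin 1164 7 907)
(mv 843 (cons (fin 779 4 779)
(fin 1035 4 843)))))))
(mv 908 (cons (fin 844 4 844)
(mv 907 (cons (fin 843 7 843)
(mv 909 (cons (fin 845 6 844)
(mv 910 (cons (fin 911 1 907)
(mv 846 (cons (fin 847 2 843)
(fin 973 6 845))))))))))))
(cons (mv 908 (cons (fin 844 4 844)
(mv 909 (cons (fin 845 6 844)
(mv 910 (cons (fin 911 1 907)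
(mv 973 (cons (fin 1164 5 908)
(fin 846 6 845)))))))))
(mv 907 (cons (fin 1164 7 907)
(mv 843 (cons (fin 779 4 779)
(fin 1035 4 843)))))))))
(cons (mv 1036 (cons (mv 970 (cons (fin 1035 3 970)
(fin 969 0 969)))
(cons (mv 844 (cons (fin 908 4 844)
(mv 907 (cons (fin 1164 7 907)
(mv 843 (cons (fin 779 4 779)
(fin 1035 4 843)))))))
(mv 844 (cons (fin 908 4 844)
(mv 969 (cons (fin 970 0 969)
(mv 1164 (cons (fin 907 7 907)
(mv 1227 (cons (fin 1163 5 971)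
(mv 1228 (cons (fin 1291 5 1035)
(fin 1292 6 1036))))))))))))))
(mv 973 (cons (fin 970 0 970)
(mv 909 (cons (fin 1164 5 908)
(mv 844 (cons (fin 908 7 844)
(mv 845 (cons (fin 780 7 780)
(mv 846 (cons (fin 782 6 781)
(fin 910 6 845)))))))))))))))
(cons (mv 1099 (cons (fin 1098 2 1034)
(mv 970 (cons (cons (mv 972 (cons (fin 973 0 970)
(mv 1036 (cons (fin 1035 3 970)
(fin 969 0 969)))))
(mv 972 (cons (fin 973 0 970)
(mv 969 (cons (fin 1036 0 969)
(mv 904 (cons (fin 905 3 904)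
(mv 908 (cons (fin 909 2 905)
(mv 968 (cons (fin 903 3 903)
(fin 907 2 904))))))))))))
(cons (mv 1035 (cons (fin 1036 3 970)
(mv 906 (cons (fin 1163 7 906)
(mv 842 (cons (fin 907 7 842)
(fin 778 4 778)))))))
(mv 972 (cons (fin 973 0 970)
(mv 969 (cons (cons (mv 904 (cons (fin 905 3 904)
(mv 903 (cons (fin 968 3 903)
(mv 908 (cons (fin 909 2 905)
(mv 1032 (cons (fin 1033 1 968)
(mv 1035 (cons (fin 1163 6 907)
(mv 844 (cons (fin 780 5 779)
(fin 907 6 843)))))))))))))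
(mv 904 (cons (fin 905 3 904)
(mv 968 (cons (fin 903 3 903)
(mv 1032 (cons (fin 1031 1 967)
(fin 1033 1 968))))))))
(cons (mv 904 (cons (fin 905 3 904)
(mv 903 (cons (fin 968 3 903)
(mv 908 (cons (fin 909 2 905)
(mv 1035 (cons (fin 1163 6 907)
(mv 844 (cons (fin 780 5 779)
(fin 907 6 843)))))))))))
(cons (mv 908 (cons (fin 909 2 905)
(mv 907 (cons (fin 968 2 904)
(mv 1035 (cons (fin 844 6 843)
(fin 1163 6 907)))))))
(mv 904 (cons (fin 905 3 904)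
(mv 908 (cons (fin 909 2 905)
(mv 1032 (cons (fin 1033 1 968)
(mv 1035 (cons (fin 1163 6 907)
(mv 844 (cons (fin 780 5 779)
(fin 907 6 843))))))))))))))))))))))
(mv 1099 (cons (fin 1098 2 1034)
(mv 1035 (cons (cons (mv 907 (cons (fin 1164 4 907)
(mv 1036 (cons (fin 970 3 970)
(fin 843 4 843)))))
(mv 970 (cons (fin 1036 3 970)
(mv 906 (cons (fin 1163 7 906)
(mv 842 (cons (fin 907 7 842)
(fin 778 4 778))))))))
(cons (mv 907 (cons (fin 1164 4 907)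
(mv 842 (cons (fin 906 7 842)
(mv 843 (cons (fin 778 7 778)
(mv 844 (cons (fin 780 6 779)
(fin 908 6 843)))))))))
(mv 970 (cons (fin 1036 3 970)
(mv 906 (cons (fin 1163 7 906)
(mv 842 (cons (fin 778 4 778)
(fin 1034 4 842))))))))))))))
(cons (cons (mv 1099 (cons (fin 1098 2 1034)
(mv 1035 (cons (cons (mv 907 (cons (fin 1164 4 907)
(mv 842 (cons (fin 906 7 842)
(mv 843 (cons (fin 778 7 778)
(fin 1036 4 843)))))))
(mv 907 (cons (cons (mv 842 (cons (fin 906 7 842)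
(mv 843 (cons (fin 778 7 778)
(fin 1036 4 843)))))
(mv 842 (cons (fin 906 7 842)
(mv 908 (cons (fin 844 6 843)
(mv 1163 (cons (fin 972 6 907)
(mv 1226 (cons (fin 1162 5 970)
(mv 1227 (cons (fin 1290 5 1034)
(mv 1291 (cons (fin 1036 6 1035)
(mv 1292 (cons (fin 1228 4 1035)
(fin 1356 4 1099))))))))))))))))
(cons (mv 842 (cons (fin 906 7 842)
(mv 843 (cons (fin 778 7 778)
(mv 844 (cons (fin 780 6 779)
(fin 908 6 843)))))))
(mv 843 (cons (fin 1036 4 843)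
(mv 844 (cons (fin 780 6 779)
(fin 908 6 843)))))))))
(cons (mv 1163 (cons (cons (mv 908 (cons (fin 972 6 907)
(mv 1162 (cons (fin 1226 5 970)
(mv 1161 (cons (fin 1160 2 1096)
(fin 1164 2 1097)))))))
(mv 908 (cons (fin 972 6 907)
(mv 1226 (cons (fin 1162 5 970)
(mv 1227 (cons (fin 1290 5 1034)
(mv 1291 (cons (fin 1036 6 1035)
(mv 1292 (cons (fin 1228 4 1035)
(fin 1356 4 1099))))))))))))
(cons (mv 1162 (cons (fin 1226 5 970)
(mv 1161 (cons (fin 1160 2 1096)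
(fin 1164 2 1097)))))
(cons (mv 908 (cons (fin 972 6 907)
(mv 1228 (cons (fin 1164 4 971)
(mv 1227 (cons (fin 1292 4 1035)
(mv 1290 (cons (fin 1226 5 1034)
(mv 1291 (cons (fin 1354 5 1098)
(fin 1036 6 1035)))))))))))
(mv 972 (cons (fin 908 6 907)
(mv 1227 (cons (fin 1036 6 971)
(mv 1228 (cons (fin 1164 4 971)
(fin 1292 4 1035)))))))))))
(mv 907 (cons (fin 1164 4 907)
(mv 842 (cons (fin 906 7 842)
(mv 843 (cons (fin 778 7 778)
(mv 844 (cons (fin 780 6 779)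
(fin 908 6 843))))))))))))))
(mv 1099 (cons (fin 1098 2 1034)
(mv 1035 (cons (cons (mv 907 (cons (fin 1164 4 907)
(mv 842 (cons (fin 906 7 842)
(mv 778 (cons (fin 843 7 778)
(mv 908 (cons (fin 844 6 843)
(mv 972 (cons (fin 1163 6 907)
(mv 970 (cons (fin 973 0 970)
(mv 909 (cons (fin 910 1 906)
(fin 969 2 905)))))))))))))))
(mv 908 (cons (cons (mv 844 (cons (fin 907 6 843)
(mv 972 (cons (fin 780 5 779)
(fin 1163 6 907)))))
(mv 907 (cons (fin 844 6 843)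
(mv 906 (cons (fin 842 7 842)
(mv 970 (cons (fin 1163 7 906)
(mv 909 (cons (fin 969 1 905)
(fin 910 1 906))))))))))
(cons (mv 844 (cons (fin 907 6 843)
(mv 972 (cons (fin 780 5 779)
(mv 973 (cons (fin 970 0 970)
(fin 909 7 844)))))))
(cons (mv 972 (cons (fin 1163 6 907)
(mv 970 (cons (fin 973 0 970)
(mv 909 (cons (fin 969 2 905)
(mv 910 (cons (fin 907 1 906)
(fin 911 1 907)))))))))
(mv 972 (cons (fin 1163 6 907)
(mv 780 (cons (fin 844 5 779)
(mv 970 (cons (fin 973 0 970)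
(mv 969 (cons (fin 909 2 905)
(mv 904 (cons (fin 905 3 904)
(mv 968 (cons (fin 903 3 903)
(mv 1032 (cons (fin 1031 1 967)
(fin 1033 1 968))))))))))))))))))))
(cons (mv 1163 (cons (cons (mv 906 (cons (fin 970 7 906)
(mv 908 (cons (fin 972 6 907)
(mv 1162 (cons (fin 1226 5 970)
(mv 1161 (cons (fin 1160 2 1096)
(fin 1164 2 1097)))))))))
(cons (mv 908 (cons (fin 972 6 907)
(mv 970 (cons (fin 906 7 906)
(mv 1226 (cons (fin 1162 5 970)
(mv 1227 (cons (fin 1034 7 970)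
(fin 1290 5 1034)))))))))
(mv 908 (cons (fin 972 6 907)
(mv 1162 (cons (fin 1226 5 970)
(mv 1161 (cons (fin 1160 2 1096)
(fin 1164 2 1097)))))))))
(cons (mv 908 (cons (fin 972 6 907)
(mv 970 (cons (fin 906 7 906)
(mv 1164 (cons (fin 1228 4 971)
(mv 909 (cons (fin 973 5 908)
(mv 1227 (cons (fin 1034 7 970)
(mv 1290 (cons (fin 1226 5 1034)
(mv 1291 (cons (fin 1354 5 1098)
(fin 1355 6 1099)))))))))))))))
(cons (mv 906 (cons (fin 970 7 906)
(mv 1162 (cons (fin 1226 5 970)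
(mv 1161 (cons (fin 1160 2 1096)
(fin 1164 2 1097)))))))
(mv 908 (cons (fin 972 6 907)
(mv 970 (cons (fin 906 7 906)
(mv 1227 (cons (fin 1034 7 970)
(mv 1228 (cons (fin 1164 4 971)
(fin 1292 4 1035)))))))))))))
(cons (mv 907 (cons (fin 1164 4 907)
(mv 842 (cons (fin 906 7 842)
(mv 843 (cons (fin 778 7 778)
(mv 844 (cons (fin 780 6 779)
(fin 908 6 843)))))))))
(mv 1164 (cons (fin 907 4 907)
(mv 1228 (cons (fin 1292 7 1035)
(fin 1163 4 971))))))))))))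
(cons (mv 1099 (cons (fin 1098 2 1034)
(mv 973 (cons (cons (mv 909 (cons (fin 1164 5 908)
(mv 844 (cons (fin 908 7 844)
(mv 845 (cons (fin 780 7 780)
(fin 1036 5 844)))))))
(mv 972 (cons (fin 970 0 970)
(mv 1036 (cons (mv 908 (cons (fin 1163 5 907)
(fin 844 4 844)))
(mv 1164 (cons (fin 907 7 907)
(fin 1228 6 972))))))))
(cons (mv 970 (cons (fin 972 0 970)
(mv 909 (cons (mv 844 (cons (fin 908 7 844)
(mv 845 (cons (fin 780 7 780)
(fin 1036 5 844)))))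
(cons (mv 908 (cons (fin 844 7 844)
(mv 910 (cons (fin 907 1 906)
(fin 846 6 845)))))
(mv 845 (cons (fin 1036 5 844)
(mv 846 (cons (fin 782 6 781)
(fin 910 6 845))))))))))
(cons (mv 909 (cons (fin 1164 5 908)
(mv 844 (cons (fin 908 7 844)
(mv 845 (cons (fin 780 7 780)
(mv 846 (cons (fin 782 6 781)
(fin 910 6 845)))))))))
(mv 909 (cons (fin 1164 5 908)
(mv 845 (cons (fin 1036 5 844)
(mv 846 (cons (fin 782 6 781)
(fin 910 6 845)))))))))))))
(cons (mv 1099 (cons (fin 1098 2 1034)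
(mv 973 (cons (mv 909 (cons (fin 1164 5 908)
(mv 844 (cons (fin 908 7 844)
(mv 845 (cons (fin 780 7 780)
(fin 1036 5 844)))))))
(cons (mv 970 (cons (fin 972 0 970)
(mv 1035 (cons (fin 1036 3 970)
(mv 906 (cons (fin 1163 7 906)
(mv 842 (cons (fin 778 4 778)
(fin 1034 4 842)))))))))
(mv 909 (cons (fin 1164 5 908)
(mv 844 (cons (fin 908 7 844)
(mv 845 (cons (fin 780 7 780)
(mv 846 (cons (fin 782 6 781)
(fin 910 6 845))))))))))))))
(mv 1098 (cons (fin 1099 2 1034)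
(mv 973 (cons (cons (mv 909 (cons (fin 1164 5 908)
(mv 844 (cons (fin 908 7 844)
(mv 845 (cons (fin 780 7 780)
(fin 1036 5 844)))))))
(mv 1036 (cons (cons (mv 970 (cons (fin 1035 3 970)
(fin 972 0 970)))
(mv 1164 (cons (fin 1228 6 972)
(mv 907 (cons (fin 972 7 907)
(mv 1035 (cons (fin 843 4 843)
(mv 1034 (cons (fin 1097 1 1033)
(fin 1033 0 1033))))))))))
(cons (mv 972 (cons (fin 970 0 970)
(mv 1164 (cons (fin 907 7 907)
(fin 1228 6 972)))))
(mv 1035 (cons (fin 970 3 970)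
(mv 1034 (cons (fin 1097 1 1033)
(fin 1033 0 1033)))))))))
(cons (mv 970 (cons (fin 972 0 970)
(mv 1036 (cons (fin 1035 3 970)
(mv 909 (cons (fin 845 5 844)
(mv 908 (cons (fin 844 7 844)
(mv 910 (cons (fin 907 1 906)
(fin 846 6 845)))))))))))
(mv 909 (cons (fin 1164 5 908)
(mv 844 (cons (fin 908 7 844)
(mv 845 (cons (fin 780 7 780)
(mv 846 (cons (fin 782 6 781)
(fin 910 6 845)))))))))))))))))))))
(mv 1039 (cons (fin 1038 1 1036)
(mv 1103 (cons (fin 1102 2 1036)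
(mv 1167 (cons (cons (mv 976 (cons (fin 1231 6 975)
(mv 912 (cons (fin 848 5 847)
(fin 1104 5 911)))))
(mv 975 (cons (cons (mv 912 (cons (fin 976 6 911)
(mv 911 (cons (fin 848 6 847)
(mv 1104 (cons (fin 847 4 847)
(fin 1168 4 911)))))))
(cons (mv 1166 (cons (fin 1230 5 974)
(mv 1168 (cons (fin 1232 4 975)
(mv 911 (cons (fin 1104 4 911)
(mv 846 (cons (fin 910 7 846)
(mv 847 (cons (fin 782 7 782)
(mv 783 (cons (fin 976 4 783)
(mv 784 (cons (fin 720 6 719)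
(fin 848 6 783)))))))))))))))
(mv 1166 (cons (fin 1230 5 974)
(mv 1168 (cons (fin 1232 4 975)
(mv 911 (cons (fin 1104 4 911)
(mv 846 (cons (fin 910 7 846)
(mv 847 (cons (fin 782 7 782)
(mv 848 (cons (fin 784 6 783)
(fin 912 6 847)))))))))))))))
(cons (mv 912 (cons (fin 976 6 911)
(mv 911 (cons (fin 848 6 847)
(mv 846 (cons (fin 910 7 846)
(mv 847 (cons (fin 782 7 782)
(fin 1104 4 847)))))))))
(cons (mv 912 (cons (fin 976 6 911)
(mv 911 (cons (fin 848 6 847)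
(mv 910 (cons (fin 846 7 846)
(mv 1166 (cons (fin 1230 5 974)
(mv 1168 (cons (fin 1232 4 975)
(mv 909 (cons (mv 973 (cons (fin 972 1 908)
(fin 1164 5 908)))
(cons (mv 844 (cons (fin 845 3 844)
(mv 908 (cons (fin 843 3 843)
(mv 972 (cons (fin 971 1 907)
(fin 1036 4 844)))))))
(mv 844 (cons (fin 845 3 844)
(mv 908 (cons (fin 843 3 843)
(fin 973 7 844))))))))))))))))))
(mv 976 (cons (fin 912 6 911)
(mv 1166 (cons (fin 1230 5 974)
(mv 1168 (cons (fin 1232 4 975)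
(mv 1169 (cons (cons (mv 1233 (cons (fin 1234 0 1166)
(fin 1104 4 976)))
(mv 1106 (cons (fin 1105 2 1102)
(mv 1170 (cons (fin 1107 2 1103)
(mv 1171 (cons (fin 1104 3 1103)
(mv 1235 (cons (fin 1234 0 1167)
(fin 1236 0 1168))))))))))
(cons (mv 1106 (cons (fin 1105 2 1102)
(mv 1170 (cons (fin 1107 2 1103)
(mv 1234 (cons (fin 1233 0 1166)
(fin 1235 0 1167)))))))
(mv 1104 (cons (fin 1233 4 976)
(mv 913 (cons (fin 977 6 912)
(mv 1106 (cons (fin 1105 1 1102)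
(mv 1170 (cons (fin 1171 3 1103)
(fin 1107 2 1103)))))))))))))))))))))))
(cons (mv 1231 (cons (cons (mv 1104 (cons (fin 1295 6 1039)
(mv 1230 (cons (fin 1294 5 1038)
(mv 975 (cons (fin 1166 5 974)
(mv 911 (cons (fin 847 4 847)
(fin 1168 4 911)))))))))
(mv 1230 (cons (fin 1294 5 1038)
(mv 975 (cons (fin 1166 5 974)
(mv 1232 (cons (fin 1168 4 975)
(fin 1296 4 1039))))))))
(cons (mv 1104 (cons (fin 1295 6 1039)
(mv 1232 (cons (fin 1296 4 1039)
(mv 1168 (cons (fin 975 7 975)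
(mv 1233 (cons (fin 1297 4 1040)
(mv 1234 (cons (fin 1166 3 1166)
(fin 1235 3 1167)))))))))))
(mv 1230 (cons (fin 1294 5 1038)
(mv 1295 (cons (fin 1104 6 1039)
(mv 1296 (cons (fin 1232 4 1039)
(fin 1360 4 1103))))))))))
(mv 976 (cons (fin 1231 6 975)
(mv 912 (cons (fin 848 5 847)
(fin 975 6 911)))))))))))))
(cons (mv 1038 (cons (fin 1039 1 1036)
(mv 1099 (cons (fin 1098 2 1034)
(mv 1102 (cons (cons (mv 1034 (cons (fin 1035 3 1034)
(mv 1162 (cons (fin 1163 1 1098)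
(mv 1167 (cons (fin 1166 0 1099)
(mv 1103 (cons (fin 1168 0 1100)
(mv 1104 (cons (fin 1036 3 1036)
(fin 1105 3 1037)))))))))))
(cons (mv 1162 (cons (fin 1163 1 1098)
(mv 1167 (cons (fin 1166 0 1099)
(mv 1103 (cons (fin 1168 0 1100)
(mv 1104 (cons (fin 1036 3 1036)
(fin 1105 3 1037)))))))))
(mv 1034 (cons (fin 1035 3 1034)
(mv 1167 (cons (fin 1166 0 1099)
(mv 1103 (cons (fin 1168 0 1100)
(mv 1104 (cons (fin 1036 3 1036)
(fin 1105 3 1037)))))))))))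
(cons (mv 1034 (cons (fin 1035 3 1034)
(mv 1163 (cons (fin 1162 1 1098)
(mv 1103 (cons (fin 1164 1 1099)
(mv 1104 (cons (fin 1036 3 1036)
(fin 1105 3 1037)))))))))
(cons (mv 1034 (cons (fin 1035 3 1034)
(mv 1163 (cons (fin 1162 1 1098)
(mv 1166 (cons (fin 1167 0 1099)
(mv 1230 (cons (fin 1294 7 1037)
(mv 1229 (cons (fin 1293 5 1037)
(mv 1231 (cons (fin 1295 4 1038)
(mv 1228 (cons (fin 1164 3 1163)
(mv 1291 (cons (fin 1292 1 1227)
(mv 1227 (cons (fin 1290 1 1226)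
(fin 1036 6 1035)))))))))))))))))))
(mv 1034 (cons (fin 1035 3 1034)
(mv 1163 (cons (fin 1162 1 1098)
(mv 1103 (cons (fin 1164 1 1099)
(mv 1167 (cons (fin 1166 0 1099)
(fin 1168 0 1100)))))))))))))))))
(mv 1038 (cons (fin 1039 1 1036)
(mv 1099 (cons (fin 1098 2 1034)
(mv 1102 (cons (cons (mv 1034 (cons (fin 1035 3 1034)
(mv 1162 (cons (fin 1163 1 1098)
(mv 1166 (cons (fin 1167 0 1099)
(mv 973 (cons (fin 1230 7 973)
(fin 909 4 909)))))))))
(mv 1034 (cons (fin 1035 3 1034)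
(mv 1163 (cons (fin 1162 1 1098)
(mv 1103 (cons (fin 1164 1 1099)
(mv 1104 (cons (fin 1105 3 1037)
(mv 1168 (cons (fin 1167 0 1100)
(fin 1169 0 1101))))))))))))
(cons (mv 1034 (cons (fin 1035 3 1034)
(mv 1166 (cons (fin 1167 0 1099)
(mv 973 (cons (fin 1230 7 973)
(fin 909 4 909)))))))
(cons (mv 1035 (cons (fin 1034 3 1034)
(mv 1163 (cons (fin 1162 1 1098)
(mv 1164 (cons (fin 1103 1 1099)
(mv 971 (cons (fin 907 4 907)
(fin 1228 4 971)))))))))
(mv 1162 (cons (fin 1163 1 1098)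
(mv 1166 (cons (fin 1167 0 1099)
(mv 973 (cons (fin 1230 7 973)
(fin 909 4 909)))))))))))))))))))
(mv 1165 (cons (cons (cons (mv 973 (cons (cons (mv 908 (cons (fin 972 7 908)
(mv 844 (cons (fin 909 7 844)
(mv 1228 (cons (fin 1164 5 972)
(mv 1229 (cons (fin 1292 5 1036)
(mv 1230 (cons (fin 1166 4 973)
(fin 1294 4 1037)))))))))))
(mv 1164 (cons (fin 1228 5 972)
(mv 909 (cons (fin 1100 5 908)
(mv 844 (cons (fin 908 7 844)
(mv 845 (cons (fin 780 7 780)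
(mv 846 (cons (fin 782 6 781)
(fin 910 6 845))))))))))))
(cons (mv 972 (cons (fin 908 7 908)
(mv 1038 (cons (fin 1039 3 972)
(mv 970 (cons (fin 971 0 970)
(mv 1229 (cons (fin 1036 7 972)
(mv 1230 (cons (fin 1166 4 973)
(fin 1294 4 1037)))))))))))
(mv 1164 (cons (fin 1228 5 972)
(mv 1100 (cons (fin 909 5 908)
(mv 1038 (cons (fin 1039 1 1036)
(mv 1098 (cons (fin 1099 2 1034)
(mv 1230 (cons (fin 1166 4 973)
(mv 1229 (cons (fin 1294 4 1037)
(mv 1036 (cons (fin 972 7 972)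
(fin 1293 7 1036))))))))))))))))))
(mv 1229 (cons (cons (mv 972 (cons (fin 1036 7 972)
(mv 1292 (cons (fin 1228 5 1036)
(mv 1293 (cons (fin 1356 5 1100)
(mv 1294 (cons (fin 1230 4 1037)
(fin 1358 4 1101)))))))))
(mv 1292 (cons (fin 1228 5 1036)
(mv 1293 (cons (fin 1356 5 1100)
(mv 1294 (cons (fin 1230 4 1037)
(fin 1358 4 1101))))))))
(cons (mv 1036 (cons (fin 972 7 972)
(mv 1293 (cons (fin 1100 7 1036)
(mv 1294 (cons (fin 1230 4 1037)
(fin 1358 4 1101)))))))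
(cons (mv 1036 (cons (fin 972 7 972)
(mv 1292 (cons (fin 1228 5 1036)
(mv 1293 (cons (fin 1100 7 1036)
(fin 1356 5 1100)))))))
(mv 972 (cons (fin 1036 7 972)
(mv 1228 (cons (fin 1292 5 1036)
(mv 1230 (cons (fin 1294 4 1037)
(mv 1231 (cons (mv 1164 (cons (fin 1163 3 1163)
(fin 1232 3 1164)))
(cons (mv 1167 (cons (fin 1168 2 1164)
(mv 1166 (cons (fin 1227 2 1163)
(mv 1232 (cons (fin 1233 3 1165)
(mv 1296 (cons (fin 1295 0 1228)
(fin 1297 0 1229)))))))))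
(mv 1163 (cons (fin 1164 3 1163)
(mv 1167 (cons (fin 1168 2 1164)
(mv 1227 (cons (fin 1162 3 1162)
(fin 1166 2 1163)))))))))))))))))))))
(cons (mv 973 (cons (cons (mv 908 (cons (fin 972 7 908)
(mv 909 (cons (fin 844 7 844)
(mv 1164 (cons (fin 1100 5 908)
(fin 1228 5 972)))))))
(cons (mv 1164 (cons (fin 1228 5 972)
(mv 909 (cons (fin 1100 5 908)
(mv 844 (cons (fin 908 7 844)
(mv 845 (cons (fin 780 7 780)
(mv 846 (cons (fin 782 6 781)
(fin 910 6 845)))))))))))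
(mv 1166 (cons (fin 1230 4 973)
(mv 909 (cons (cons (mv 908 (cons (fin 844 7 844)
(fin 972 7 908)))
(mv 846 (cons (fin 910 6 845)
(mv 845 (cons (fin 782 6 781)
(mv 780 (cons (fin 844 7 780)
(mv 781 (cons (fin 716 7 716)
(mv 1036 (cons (fin 972 5 780)
(fin 1100 5 844))))))))))))
(cons (mv 844 (cons (fin 908 7 844)
(mv 845 (cons (fin 780 7 780)
(mv 846 (cons (fin 782 6 781)
(fin 910 6 845)))))))
(mv 846 (cons (fin 910 6 845)
(mv 845 (cons (fin 782 6 781)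
(mv 972 (cons (fin 908 7 908)
(mv 1036 (cons (fin 781 5 780)
(fin 1100 5 844))))))))))))))))
(cons (mv 1164 (cons (fin 1228 5 972)
(mv 1100 (cons (fin 909 5 908)
(mv 1038 (cons (fin 1039 1 1036)
(mv 1099 (cons (fin 1098 2 1034)
(mv 1166 (cons (fin 1167 3 1099)
(fin 1230 4 973)))))))))))
(cons (mv 908 (cons (fin 972 7 908)
(mv 1164 (cons (fin 1228 5 972)
(mv 1166 (cons (fin 1230 4 973)
(mv 1167 (cons (mv 1100 (cons (fin 1099 3 1099)
(fin 1168 3 1100)))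
(cons (mv 1104 (cons (fin 1103 2 1100)
(mv 1168 (cons (fin 1105 2 1101)
(mv 1231 (cons (fin 1232 0 1164)
(fin 976 5 975)))))))
(mv 1100 (cons (fin 1099 3 1099)
(mv 1039 (cons (fin 1038 1 1036)
(mv 1103 (cons (fin 1104 2 1100)
(mv 1231 (cons (fin 1232 0 1164)
(fin 976 6 975))))))))))))))))))
(mv 1164 (cons (fin 1228 5 972)
(mv 1166 (cons (fin 1230 4 973)
(mv 1039 (cons (mv 972 (cons (fin 1038 3 972)
(fin 908 7 908)))
(cons (mv 1104 (cons (cons (mv 1038 (cons (fin 1105 0 1037)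
(mv 1103 (cons (fin 1167 2 1100)
(fin 1036 0 1036)))))
(mv 1038 (cons (fin 1105 0 1037)
(mv 976 (cons (fin 977 2 973)
(mv 1036 (cons (fin 975 2 972)
(fin 1103 0 1036))))))))
(cons (mv 1103 (cons (fin 1167 2 1100)
(mv 1038 (cons (fin 1036 0 1036)
(mv 976 (cons (fin 977 2 973)
(mv 912 (cons (fin 848 5 847)
(mv 849 (cons (fin 913 6 848)
(mv 911 (cons (fin 847 7 847)
(mv 1168 (cons (fin 975 7 911)
(mv 1232 (cons (fin 1296 7 1039)
(mv 1233 (cons (fin 1169 4 976)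
(fin 1297 4 1040)))))))))))))))))))
(cons (mv 1167 (cons (fin 1103 2 1100)
(mv 1168 (cons (fin 1105 2 1101)
(mv 1231 (cons (fin 1232 0 1164)
(fin 976 5 975)))))))
(mv 1038 (cons (fin 1105 0 1037)
(mv 976 (cons (fin 977 2 973)
(mv 975 (cons (fin 1036 2 972)
(mv 911 (cons (fin 1168 7 911)
(fin 847 4 847)))))))))))))
(mv 908 (cons (fin 972 7 908)
(mv 909 (cons (fin 844 7 844)
(mv 910 (cons (fin 846 6 845)
(mv 911 (cons (cons (mv 847 (cons (fin 848 2 844)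
(mv 975 (cons (fin 976 0 908)
(fin 1104 4 847)))))
(mv 847 (cons (fin 848 2 844)
(mv 1104 (cons (fin 975 4 847)
(mv 1167 (cons (fin 1103 2 1100)
(mv 1168 (cons (fin 1105 2 1101)
(mv 1232 (cons (fin 1231 0 1164)
(fin 1233 0 1165))))))))))))
(cons (mv 848 (cons (fin 847 2 844)
(mv 912 (cons (fin 849 2 845)
(mv 976 (cons (fin 977 0 909)
(fin 1103 5 847)))))))
(cons (mv 976 (cons (fin 975 0 908)
(mv 912 (cons (fin 977 0 909)
(mv 848 (cons (fin 849 2 845)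
(fin 1103 5 847)))))))
(mv 975 (cons (fin 976 0 908)
(mv 1104 (cons (fin 847 4 847)
(mv 1103 (cons (fin 1167 2 1100)
(fin 1168 4 911))))))))))))))))))))))))))))
(cons (mv 1229 (cons (cons (mv 1228 (cons (fin 1292 5 1036)
(mv 973 (cons (fin 1164 5 972)
(mv 1230 (cons (fin 1166 4 973)
(fin 1294 4 1037)))))))
(cons (mv 1294 (cons (fin 1230 4 1037)
(mv 1293 (cons (fin 1358 4 1101)
(mv 1100 (cons (fin 1036 7 1036)
(mv 1038 (cons (fin 1039 1 1036)
(mv 1098 (cons (fin 1099 2 1034)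
(mv 1356 (cons (fin 1292 5 1100)
(mv 1357 (cons (fin 1164 7 1100)
(fin 1420 5 1164)))))))))))))))
(mv 1292 (cons (fin 1228 5 1036)
(mv 1293 (cons (fin 1356 5 1100)
(mv 1100 (cons (fin 1036 7 1036)
(mv 1038 (cons (fin 1039 1 1036)
(mv 1098 (cons (fin 1099 2 1034)
(mv 1357 (cons (fin 1164 7 1100)
(mv 1358 (cons (fin 1294 4 1101)
(fin 1422 4 1165)))))))))))))))))
(cons (mv 1230 (cons (fin 1294 4 1037)
(mv 973 (cons (fin 1166 4 973)
(mv 1164 (cons (fin 1228 5 972)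
(mv 909 (cons (fin 1100 5 908)
(mv 844 (cons (fin 908 7 844)
(mv 845 (cons (fin 780 7 780)
(mv 846 (cons (fin 782 6 781)
(fin 910 6 845)))))))))))))))
(cons (mv 1292 (cons (fin 1228 5 1036)
(mv 1293 (cons (fin 1356 5 1100)
(mv 1100 (cons (fin 1036 7 1036)
(mv 1038 (cons (fin 1039 1 1036)
(mv 1099 (cons (fin 1098 2 1034)
(mv 1164 (cons (fin 1357 7 1100)
(mv 973 (cons (fin 909 5 908)
(mv 1166 (cons (fin 1167 3 1099)
(fin 1230 4 973)))))))))))))))))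
(mv 1228 (cons (fin 1292 5 1036)
(mv 1230 (cons (fin 1294 4 1037)
(mv 1166 (cons (fin 973 4 973)
(mv 1167 (cons (fin 1168 1 1164)
(fin 1227 2 1163)))))))))))))
(mv 1230 (cons (mv 973 (cons (fin 1166 4 973)
(mv 908 (cons (fin 972 7 908)
(mv 909 (cons (fin 844 7 844)
(mv 846 (cons (fin 910 6 845)
(mv 845 (cons (fin 782 6 781)
(mv 1100 (cons (fin 1036 5 844)
(fin 1164 5 908)))))))))))))
(cons (mv 1229 (cons (fin 1294 4 1037)
(mv 1036 (cons (fin 972 7 972)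
(mv 1100 (cons (fin 1293 7 1036)
(mv 1038 (cons (fin 1039 1 1036)
(mv 1035 (cons (mv 970 (cons (fin 971 3 970)
(mv 1034 (cons (fin 969 3 969)
(fin 1033 0 1033)))))
(cons (mv 971 (cons (fin 970 3 970)
(mv 907 (cons (fin 843 4 843)
(mv 1099 (cons (fin 1098 1 1034)
(fin 1164 4 907)))))))
(mv 1034 (cons (fin 1033 0 1033)
(mv 1098 (cons (fin 1097 1 1033)
(fin 1099 1 1034))))))))))))))))
(mv 1166 (cons (fin 973 4 973)
(mv 1294 (cons (fin 1358 7 1101)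
(fin 1229 4 1037)))))))))))
(cons (cons (mv 973 (cons (cons (mv 908 (cons (fin 972 7 908)
(mv 909 (cons (fin 844 7 844)
(mv 1164 (cons (fin 1100 5 908)
(fin 1228 5 972)))))))
(cons (mv 1164 (cons (fin 1228 5 972)
(mv 909 (cons (fin 1100 5 908)
(mv 844 (cons (fin 908 7 844)
(mv 845 (cons (fin 780 7 780)
(mv 846 (cons (fin 782 6 781)
(fin 910 6 845)))))))))))
(mv 909 (cons (cons (mv 908 (cons (fin 844 7 844)
(fin 972 7 908)))
(mv 846 (cons (fin 910 6 845)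
(mv 845 (cons (fin 782 6 781)
(mv 780 (cons (fin 844 7 780)
(mv 781 (cons (fin 716 7 716)
(mv 1036 (cons (fin 972 5 780)
(fin 1100 5 844))))))))))))
(cons (mv 844 (cons (fin 908 7 844)
(mv 845 (cons (fin 780 7 780)
(mv 846 (cons (fin 782 6 781)
(fin 910 6 845)))))))
(mv 846 (cons (fin 910 6 845)
(mv 845 (cons (fin 782 6 781)
(mv 972 (cons (fin 908 7 908)
(mv 1036 (cons (fin 1229 7 972)
(fin 781 5 780))))))))))))))
(cons (mv 1164 (cons (fin 1228 5 972)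
(mv 1100 (cons (fin 909 5 908)
(mv 1038 (cons (fin 1039 1 1036)
(mv 1163 (cons (cons (mv 1098 (cons (fin 1099 2 1034)
(mv 1162 (cons (fin 1097 3 1097)
(fin 1161 2 1097)))))
(mv 1162 (cons (fin 1161 2 1097)
(mv 1098 (cons (fin 1097 3 1097)
(mv 1226 (cons (fin 1225 1 1161)
(mv 1227 (cons (fin 1166 1 1162)
(mv 1034 (cons (fin 970 4 970)
(fin 1291 4 1034))))))))))))
(cons (mv 1162 (cons (fin 1161 2 1097)
(mv 1226 (cons (fin 1225 1 1161)
(mv 1166 (cons (fin 1227 1 1162)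
(mv 1167 (cons (fin 1099 3 1099)
(fin 1168 3 1100)))))))))
(mv 1099 (cons (fin 1098 2 1034)
(mv 1166 (cons (fin 1167 3 1099)
(mv 1227 (cons (fin 1226 1 1162)
(mv 1036 (cons (fin 972 5 971)
(fin 1291 6 1035))))))))))))))))))
(cons (mv 972 (cons (fin 908 7 908)
(mv 1036 (cons (fin 1229 7 972)
(mv 1038 (cons (fin 1039 3 972)
(mv 971 (cons (fin 970 0 970)
(mv 1164 (cons (fin 1228 5 972)
(mv 1100 (cons (fin 907 7 907)
(mv 1098 (cons (fin 1099 2 1034)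
(mv 1163 (cons (fin 1227 5 971)
(mv 1162 (cons (fin 1097 3 1097)
(fin 1161 2 1097)))))))))))))))))))
(mv 972 (cons (fin 908 7 908)
(mv 1038 (cons (fin 1039 3 972)
(mv 970 (cons (fin 971 0 970)
(mv 1228 (cons (fin 1164 5 972)
(mv 1229 (cons (fin 1036 7 972)
(fin 1292 5 1036)))))))))))))))
(mv 973 (cons (cons (mv 908 (cons (fin 972 7 908)
(mv 844 (cons (fin 909 7 844)
(mv 1228 (cons (fin 1164 5 972)
(mv 1229 (cons (fin 1292 5 1036)
(mv 1230 (cons (fin 1166 4 973)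
(fin 1294 4 1037)))))))))))
(mv 1228 (cons (fin 1164 5 972)
(mv 1229 (cons (fin 1292 5 1036)
(mv 1230 (cons (fin 1166 4 973)
(fin 1294 4 1037))))))))
(cons (mv 972 (cons (fin 908 7 908)
(mv 1038 (cons (fin 1039 3 972)
(mv 970 (cons (fin 971 0 970)
(mv 1229 (cons (fin 1036 7 972)
(mv 1230 (cons (fin 1166 4 973)
(fin 1294 4 1037)))))))))))
(cons (mv 972 (cons (fin 908 7 908)
(mv 1038 (cons (fin 1039 3 972)
(mv 970 (cons (fin 971 0 970)
(mv 1228 (cons (fin 1164 5 972)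
(mv 1229 (cons (fin 1036 7 972)
(fin 1292 5 1036)))))))))))
(mv 1164 (cons (fin 1228 5 972)
(mv 1166 (cons (fin 1230 4 973)
(mv 1039 (cons (mv 972 (cons (fin 1038 3 972)
(fin 908 7 908)))
(cons (mv 1104 (cons (cons (mv 1038 (cons (fin 1105 0 1037)
(mv 1103 (cons (fin 1167 2 1100)
(fin 1036 0 1036)))))
(mv 1038 (cons (fin 1105 0 1037)
(mv 976 (cons (fin 977 2 973)
(mv 1036 (cons (fin 975 2 972)
(fin 1103 0 1036))))))))
(cons (mv 1103 (cons (fin 1167 2 1100)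
(mv 1038 (cons (fin 1036 0 1036)
(mv 976 (cons (fin 977 2 973)
(mv 912 (cons (fin 848 5 847)
(mv 849 (cons (fin 913 6 848)
(mv 911 (cons (fin 847 7 847)
(mv 1168 (cons (fin 975 7 911)
(mv 1232 (cons (fin 1296 7 1039)
(mv 1233 (cons (fin 1169 4 976)
(fin 1297 4 1040)))))))))))))))))))
(cons (mv 1167 (cons (fin 1103 2 1100)
(mv 1168 (cons (fin 1105 2 1101)
(mv 1231 (cons (fin 1232 0 1164)
(fin 976 5 975)))))))
(mv 1038 (cons (fin 1105 0 1037)
(mv 976 (cons (fin 977 2 973)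
(mv 975 (cons (fin 1036 2 972)
(mv 911 (cons (fin 1168 7 911)
(fin 847 4 847)))))))))))))
(mv 908 (cons (fin 972 7 908)
(mv 909 (cons (fin 844 7 844)
(mv 910 (cons (fin 846 6 845)
(mv 911 (cons (cons (mv 847 (cons (fin 848 2 844)
(mv 975 (cons (fin 976 0 908)
(fin 1104 4 847)))))
(mv 847 (cons (fin 848 2 844)
(mv 1104 (cons (fin 975 4 847)
(mv 1167 (cons (fin 1103 2 1100)
(mv 1168 (cons (fin 1105 2 1101)
(mv 1232 (cons (fin 1231 0 1164)
(fin 1233 0 1165))))))))))))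
(cons (mv 848 (cons (fin 847 2 844)
(mv 912 (cons (fin 849 2 845)
(mv 976 (cons (fin 977 0 909)
(fin 1103 5 847)))))))
(cons (mv 976 (cons (fin 975 0 908)
(mv 912 (cons (fin 977 0 909)
(mv 848 (cons (fin 849 2 845)
(fin 1103 5 847)))))))
(mv 975 (cons (fin 976 0 908)
(mv 1104 (cons (fin 847 4 847)
(mv 1103 (cons (fin 1167 2 1100)
(fin 1168 4 911)))))))))))))))))))))))))))))
(cons (mv 1229 (cons (cons (mv 972 (cons (fin 1036 7 972)
(mv 908 (cons (fin 973 7 908)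
(mv 1292 (cons (fin 1228 5 1036)
(mv 1293 (cons (fin 1356 5 1100)
(mv 1294 (cons (fin 1230 4 1037)
(fin 1358 4 1101)))))))))))
(mv 1228 (cons (fin 1292 5 1036)
(mv 1230 (cons (fin 1294 4 1037)
(mv 1166 (cons (fin 973 4 973)
(mv 1167 (cons (fin 1168 1 1164)
(fin 1227 2 1163))))))))))
(cons (mv 1036 (cons (fin 972 7 972)
(mv 1292 (cons (fin 1228 5 1036)
(mv 1293 (cons (fin 1100 7 1036)
(fin 1356 5 1100)))))))
(mv 972 (cons (fin 1036 7 972)
(mv 973 (cons (fin 908 7 908)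
(mv 1230 (cons (fin 1166 4 973)
(fin 1294 4 1037))))))))))
(cons (mv 1230 (cons (cons (mv 973 (cons (fin 1166 4 973)
(mv 908 (cons (fin 972 7 908)
(mv 844 (cons (fin 909 7 844)
(mv 1228 (cons (fin 1164 5 972)
(mv 1229 (cons (fin 1292 5 1036)
(fin 1294 4 1037)))))))))))
(mv 1229 (cons (fin 1294 4 1037)
(mv 1228 (cons (fin 1292 5 1036)
(mv 1231 (cons (mv 1164 (cons (fin 1163 3 1163)
(fin 1232 3 1164)))
(cons (mv 1167 (cons (fin 1168 2 1164)
(mv 1166 (cons (fin 1227 2 1163)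
(mv 1232 (cons (fin 1233 3 1165)
(mv 1296 (cons (fin 1295 0 1228)
(fin 1297 0 1229)))))))))
(mv 1163 (cons (fin 1164 3 1163)
(mv 1167 (cons (fin 1168 2 1164)
(mv 1227 (cons (fin 1162 3 1162)
(fin 1166 2 1163)))))))))))))))
(cons (mv 973 (cons (fin 1166 4 973)
(mv 908 (cons (fin 972 7 908)
(mv 909 (cons (fin 844 7 844)
(mv 1164 (cons (fin 1100 5 908)
(fin 1228 5 972)))))))))
(cons (mv 1229 (cons (fin 1294 4 1037)
(mv 1228 (cons (fin 1292 5 1036)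
(mv 1164 (cons (fin 973 5 972)
(mv 1163 (cons (fin 1231 3 1163)
(fin 1162 0 1162)))))))))
(mv 1166 (cons (fin 973 4 973)
(mv 1294 (cons (fin 1358 7 1101)
(fin 1229 4 1037)))))))))
(mv 1229 (cons (cons (mv 972 (cons (fin 1036 7 972)
(mv 908 (cons (fin 973 7 908)
(mv 1292 (cons (fin 1228 5 1036)
(mv 1293 (cons (fin 1356 5 1100)
(mv 1294 (cons (fin 1230 4 1037)
(fin 1358 4 1101)))))))))))
(mv 1228 (cons (fin 1292 5 1036)
(mv 1164 (cons (fin 973 5 972)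
(mv 1230 (cons (fin 1294 4 1037)
(mv 1163 (cons (fin 1231 3 1163)
(fin 1162 0 1162))))))))))
(cons (mv 1036 (cons (fin 972 7 972)
(mv 1100 (cons (fin 1293 7 1036)
(mv 1038 (cons (fin 1039 1 1036)
(mv 1230 (cons (fin 1294 4 1037)
(mv 1035 (cons (mv 970 (cons (fin 971 3 970)
(mv 1034 (cons (fin 969 3 969)
(fin 1033 0 1033)))))
(cons (mv 971 (cons (fin 970 3 970)
(mv 907 (cons (fin 843 4 843)
(mv 1099 (cons (fin 1098 1 1034)
(fin 1164 4 907)))))))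
(mv 1034 (cons (fin 1033 0 1033)
(mv 1098 (cons (fin 1097 1 1033)
(fin 1099 1 1034))))))))))))))))
(mv 972 (cons (fin 1036 7 972)
(mv 973 (cons (fin 908 7 908)
(mv 1228 (cons (fin 1164 5 972)
(fin 1292 5 1036))))))))))))))))
(cons (mv 1038 (cons (cons (cons (mv 1039 (cons (fin 1100 1 1036)
(mv 972 (cons (fin 973 3 972)
(mv 976 (cons (fin 977 2 973)
(mv 1104 (cons (fin 1105 0 1037)
(mv 1168 (cons (mv 975 (cons (fin 911 7 911)
(fin 1232 7 975)))
(cons (mv 1167 (cons (fin 1231 5 975)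
(mv 912 (cons (fin 1103 5 911)
(mv 847 (cons (fin 911 7 847)
(mv 848 (cons (fin 783 7 783)
(mv 849 (cons (fin 785 6 784)
(fin 913 6 848)))))))))))
(mv 975 (cons (fin 1232 7 975)
(mv 1167 (cons (fin 1231 5 975)
(mv 912 (cons (fin 1103 5 911)
(mv 848 (cons (fin 784 5 783)
(mv 849 (cons (fin 785 6 784)
(fin 913 6 848))))))))))))))))))))))
(mv 1165 (cons (cons (cons (mv 973 (cons (cons (mv 908 (cons (fin 972 7 908)
(mv 844 (cons (fin 909 7 844)
(mv 1164 (cons (fin 1228 5 972)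
(mv 1230 (cons (fin 1166 4 973)
(mv 1229 (cons (fin 1294 4 1037)
(mv 1102 (cons (fin 1293 6 1037)
(mv 1103 (cons (fin 1104 1 1100)
(mv 1163 (cons (fin 1100 1 1099)
(fin 1162 2 1098)))))))))))))))))
(cons (mv 908 (cons (fin 972 7 908)
(mv 844 (cons (fin 909 7 844)
(mv 1228 (cons (fin 1164 5 972)
(mv 1229 (cons (fin 1292 5 1036)
(mv 1293 (cons (fin 1102 6 1037)
(mv 1294 (cons (fin 1230 4 1037)
(fin 1358 4 1101)))))))))))))
(mv 908 (cons (fin 972 7 908)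
(mv 909 (cons (fin 844 7 844)
(mv 1102 (cons (fin 845 4 845)
(fin 1166 4 909)))))))))
(cons (mv 1164 (cons (fin 1228 5 972)
(mv 909 (cons (fin 1100 5 908)
(mv 1102 (cons (fin 845 4 845)
(fin 1166 4 909)))))))
(cons (mv 908 (cons (fin 972 7 908)
(mv 1164 (cons (fin 1228 5 972)
(mv 1230 (cons (fin 1166 4 973)
(mv 1229 (cons (fin 1294 4 1037)
(mv 1102 (cons (fin 1293 6 1037)
(mv 1103 (cons (fin 1104 1 1100)
(mv 1163 (cons (fin 1100 1 1099)
(fin 1162 2 1098)))))))))))))))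
(mv 908 (cons (fin 972 7 908)
(mv 844 (cons (fin 909 7 844)
(mv 1228 (cons (fin 1164 5 972)
(mv 1229 (cons (fin 1292 5 1036)
(mv 1230 (cons (fin 1166 4 973)
(fin 1294 4 1037)))))))))))))))
(mv 1229 (cons (cons (mv 1228 (cons (fin 1292 5 1036)
(mv 1293 (cons (fin 1102 6 1037)
(mv 1294 (cons (fin 1230 4 1037)
(fin 1358 4 1101)))))))
(mv 1228 (cons (fin 1292 5 1036)
(mv 1230 (cons (fin 1294 4 1037)
(mv 1231 (cons (mv 1164 (cons (fin 1163 3 1163)
(fin 1232 3 1164)))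
(mv 1167 (cons (fin 1168 2 1164)
(mv 1166 (cons (fin 1227 2 1163)
(mv 1295 (cons (fin 1296 0 1228)
(fin 1102 4 1038))))))))))))))
(cons (mv 1293 (cons (fin 1102 6 1037)
(mv 1294 (cons (fin 1230 4 1037)
(fin 1358 4 1101)))))
(cons (mv 1292 (cons (fin 1228 5 1036)
(mv 1293 (cons (fin 1356 5 1100)
(fin 1102 6 1037)))))
(mv 1292 (cons (fin 1228 5 1036)
(mv 1293 (cons (fin 1356 5 1100)
(mv 1294 (cons (fin 1230 4 1037)
(fin 1358 4 1101))))))))))))
(cons (mv 973 (cons (cons (mv 908 (cons (fin 972 7 908)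
(mv 909 (cons (fin 844 7 844)
(mv 1102 (cons (fin 845 4 845)
(fin 1166 4 909)))))))
(mv 908 (cons (fin 972 7 908)
(mv 909 (cons (fin 844 7 844)
(mv 1164 (cons (fin 1100 5 908)
(fin 1228 5 972))))))))
(cons (mv 1164 (cons (fin 1228 5 972)
(mv 909 (cons (fin 1100 5 908)
(mv 1102 (cons (fin 845 4 845)
(fin 1166 4 909)))))))
(mv 908 (cons (fin 972 7 908)
(mv 1164 (cons (fin 1228 5 972)
(mv 1166 (cons (fin 1230 4 973)
(mv 1167 (cons (mv 1100 (cons (fin 1099 3 1099)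
(fin 1168 3 1100)))
(mv 1103 (cons (fin 1104 2 1100)
(mv 1102 (cons (fin 1163 2 1099)
(mv 1231 (cons (fin 1232 0 1164)
(fin 1295 7 1038))))))))))))))))))
(mv 973 (cons (cons (mv 908 (cons (fin 972 7 908)
(mv 909 (cons (fin 844 7 844)
(mv 1102 (cons (fin 845 4 845)
(fin 1166 4 909)))))))
(mv 1164 (cons (fin 1228 5 972)
(mv 909 (cons (fin 1100 5 908)
(mv 1102 (cons (fin 845 4 845)
(fin 1166 4 909))))))))
(cons (mv 908 (cons (fin 972 7 908)
(mv 1229 (cons (mv 1228 (cons (fin 1164 5 972)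
(fin 1292 5 1036)))
(cons (mv 1293 (cons (fin 1102 6 1037)
(mv 1356 (cons (fin 1292 5 1100)
(mv 1357 (cons (fin 1420 5 1164)
(mv 1358 (cons (fin 1294 4 1101)
(fin 1422 4 1165)))))))))
(mv 1102 (cons (fin 1293 6 1037)
(mv 1164 (cons (fin 1228 5 972)
(mv 1103 (cons (fin 1104 1 1100)
(mv 1163 (cons (fin 1100 1 1099)
(fin 1162 2 1098))))))))))))))
(mv 908 (cons (fin 972 7 908)
(mv 909 (cons (fin 844 7 844)
(mv 1164 (cons (fin 1100 5 908)
(fin 1228 5 972))))))))))))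
(cons (cons (mv 1230 (cons (mv 973 (cons (fin 1166 4 973)
(mv 908 (cons (fin 972 7 908)
(mv 909 (cons (fin 844 7 844)
(mv 845 (cons (fin 1102 4 845)
(mv 846 (cons (fin 782 6 781)
(fin 910 6 845)))))))))))
(cons (mv 1229 (cons (fin 1294 4 1037)
(mv 1102 (cons (fin 1293 6 1037)
(mv 1103 (cons (mv 1104 (cons (fin 1105 3 1037)
(fin 1164 1 1100)))
(cons (mv 1231 (cons (cons (mv 1164 (cons (fin 1232 3 1164)
(mv 1163 (cons (fin 1100 1 1099)
(fin 1162 2 1098)))))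
(mv 1167 (cons (fin 1295 7 1038)
(mv 1168 (cons (fin 1100 0 1100)
(mv 1169 (cons (fin 1170 3 1102)
(fin 1232 2 1165))))))))
(cons (mv 1167 (cons (fin 1295 7 1038)
(mv 1100 (cons (fin 1168 0 1100)
(mv 1099 (cons (fin 1098 2 1034)
(mv 1163 (cons (fin 1162 1 1098)
(fin 1164 1 1099)))))))))
(mv 1167 (cons (fin 1295 7 1038)
(mv 1232 (cons (fin 1164 3 1164)
(mv 1168 (cons (fin 1169 2 1165)
(mv 1296 (cons (fin 1297 0 1229)
(fin 1360 7 1103))))))))))))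
(mv 1104 (cons (fin 1105 3 1037)
(mv 1168 (cons (fin 1169 0 1101)
(mv 1167 (cons (fin 1100 0 1100)
(mv 976 (cons (fin 912 5 911)
(fin 1231 5 975))))))))))))))))
(mv 1166 (cons (fin 973 4 973)
(mv 1294 (cons (fin 1358 7 1101)
(fin 1229 4 1037))))))))
(mv 1228 (cons (cons (mv 973 (cons (fin 1164 5 972)
(mv 908 (cons (fin 972 7 908)
(mv 844 (cons (fin 909 7 844)
(mv 1229 (cons (fin 1292 5 1036)
(mv 1230 (cons (fin 1166 4 973)
(fin 1294 4 1037)))))))))))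
(mv 1292 (cons (fin 1229 5 1036)
(mv 1164 (cons (fin 1100 6 1036)
(fin 1356 6 1100))))))
(cons (mv 1229 (cons (fin 1292 5 1036)
(mv 1230 (cons (fin 1294 4 1037)
(mv 1166 (cons (fin 973 4 973)
(mv 1167 (cons (fin 1168 1 1164)
(fin 1227 2 1163)))))))))
(cons (mv 1164 (cons (fin 973 5 972)
(mv 1227 (cons (cons (mv 1166 (cons (fin 1167 1 1163)
(mv 1226 (cons (fin 1163 1 1162)
(fin 1225 2 1161)))))
(mv 1226 (cons (fin 1225 2 1161)
(mv 1229 (cons (mv 1294 (cons (fin 1293 0 1226)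
(fin 1230 4 1037)))
(cons (mv 1161 (cons (fin 1162 3 1161)
(mv 1290 (cons (fin 1289 1 1225)
(mv 1230 (cons (fin 1291 1 1226)
(mv 1231 (cons (fin 1163 3 1163)
(fin 1232 3 1164)))))))))
(mv 1161 (cons (fin 1162 3 1161)
(mv 1289 (cons (fin 1290 1 1225)
(mv 1293 (cons (fin 1294 0 1226)
(mv 1357 (cons (fin 1100 7 1100)
(fin 1421 7 1164)))))))))))))))
(cons (mv 1166 (cons (fin 1167 1 1163)
(mv 1230 (cons (mv 1294 (cons (fin 1358 7 1101)
(fin 1229 4 1037)))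
(cons (mv 1163 (cons (fin 1231 0 1163)
(mv 1098 (cons (fin 1099 3 1098)
(mv 1162 (cons (fin 1097 3 1097)
(fin 1229 3 1162)))))))
(mv 1163 (cons (fin 1231 0 1163)
(mv 1098 (cons (fin 1099 3 1098)
(mv 1162 (cons (fin 1097 3 1097)
(mv 1161 (cons (fin 1100 2 1097)
(fin 1160 0 1160))))))))))))))
(mv 1166 (cons (fin 1167 1 1163)
(mv 1226 (cons (fin 1225 2 1161)
(fin 1229 2 1162))))))))))
(mv 1164 (cons (fin 973 5 972)
(mv 1292 (cons (fin 1100 6 1036)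
(fin 1356 6 1100))))))))))
(cons (mv 1229 (cons (cons (mv 1102 (cons (fin 1293 6 1037)
(mv 1228 (cons (fin 1292 5 1036)
(mv 973 (cons (fin 1164 5 972)
(mv 908 (cons (fin 972 7 908)
(mv 909 (cons (fin 844 7 844)
(fin 845 4 845)))))))))))
(mv 1228 (cons (fin 1292 5 1036)
(mv 973 (cons (fin 1164 5 972)
(mv 908 (cons (fin 972 7 908)
(mv 909 (cons (fin 844 7 844)
(mv 845 (cons (fin 1102 4 845)
(mv 846 (cons (fin 782 6 781)
(fin 910 6 845))))))))))))))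
(cons (mv 1102 (cons (fin 1293 6 1037)
(mv 1230 (cons (fin 1294 4 1037)
(mv 1103 (cons (mv 1104 (cons (fin 1105 3 1037)
(fin 1164 1 1100)))
(cons (mv 1231 (cons (cons (mv 1164 (cons (fin 1232 3 1164)
(mv 1163 (cons (fin 1100 1 1099)
(fin 1162 2 1098)))))
(mv 1167 (cons (fin 1295 7 1038)
(mv 1168 (cons (fin 1100 0 1100)
(mv 1169 (cons (fin 1170 3 1102)
(fin 1232 2 1165))))))))
(cons (mv 1167 (cons (fin 1295 7 1038)
(mv 1100 (cons (fin 1168 0 1100)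
(mv 1099 (cons (fin 1098 2 1034)
(mv 1163 (cons (fin 1162 1 1098)
(fin 1164 1 1099)))))))))
(mv 1167 (cons (fin 1295 7 1038)
(mv 1232 (cons (fin 1164 3 1164)
(mv 1168 (cons (fin 1169 2 1165)
(mv 1296 (cons (fin 1297 0 1229)
(fin 1360 7 1103))))))))))))
(mv 1104 (cons (fin 1105 3 1037)
(mv 1168 (cons (fin 1169 0 1101)
(mv 1167 (cons (fin 1100 0 1100)
(mv 976 (cons (fin 912 5 911)
(fin 1231 5 975))))))))))))))))
(cons (mv 1228 (cons (fin 1292 5 1036)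
(mv 1164 (cons (fin 973 5 972)
(mv 1230 (cons (fin 1294 4 1037)
(mv 1163 (cons (fin 1231 3 1163)
(fin 1162 0 1162)))))))))
(mv 1228 (cons (fin 1292 5 1036)
(mv 1293 (cons (fin 1102 6 1037)
(mv 1294 (cons (fin 1230 4 1037)
(fin 1358 4 1101)))))))))))
(mv 1229 (cons (cons (mv 1102 (cons (fin 1293 6 1037)
(mv 1228 (cons (fin 1292 5 1036)
(mv 1230 (cons (fin 1294 4 1037)
(mv 973 (cons (fin 1166 7 973)
(mv 908 (cons (fin 972 7 908)
(mv 909 (cons (fin 844 7 844)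
(fin 845 4 845)))))))))))))
(mv 1228 (cons (fin 1292 5 1036)
(mv 1230 (cons (fin 1294 4 1037)
(mv 973 (cons (fin 1166 4 973)
(mv 908 (cons (fin 972 7 908)
(mv 909 (cons (fin 844 7 844)
(mv 845 (cons (fin 1102 4 845)
(mv 846 (cons (fin 782 6 781)
(fin 910 6 845))))))))))))))))
(cons (mv 1292 (cons (fin 1228 5 1036)
(mv 1293 (cons (fin 1356 5 1100)
(fin 1102 6 1037)))))
(cons (mv 1102 (cons (fin 1293 6 1037)
(mv 1230 (cons (fin 1294 4 1037)
(mv 973 (cons (fin 1166 7 973)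
(mv 908 (cons (fin 972 7 908)
(mv 909 (cons (fin 844 7 844)
(fin 845 4 845)))))))))))
(mv 1228 (cons (fin 1292 5 1036)
(mv 1230 (cons (fin 1294 4 1037)
(mv 1166 (cons (fin 973 4 973)
(mv 1167 (cons (fin 1168 1 1164)
(fin 1227 2 1163))))))))))))))))))
(cons (mv 1039 (cons (cons (cons (mv 972 (cons (fin 973 3 972)
(mv 976 (cons (fin 977 2 973)
(mv 1104 (cons (fin 1105 0 1037)
(mv 1168 (cons (mv 975 (cons (fin 911 7 911)
(fin 1232 7 975)))
(cons (mv 1167 (cons (fin 1231 5 975)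
(mv 912 (cons (fin 1103 5 911)
(mv 847 (cons (fin 911 7 847)
(mv 848 (cons (fin 783 7 783)
(mv 849 (cons (fin 785 6 784)
(fin 913 6 848)))))))))))
(mv 975 (cons (fin 1232 7 975)
(mv 1167 (cons (fin 1231 5 975)
(mv 912 (cons (fin 1103 5 911)
(mv 848 (cons (fin 784 5 783)
(mv 849 (cons (fin 785 6 784)
(fin 913 6 848))))))))))))))))))))
(mv 976 (cons (fin 977 2 973)
(mv 1104 (cons (fin 1105 0 1037)
(mv 1168 (cons (mv 975 (cons (fin 911 7 911)
(fin 1232 7 975)))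
(cons (mv 1167 (cons (fin 1231 5 975)
(mv 912 (cons (fin 1103 5 911)
(mv 847 (cons (fin 911 7 847)
(mv 848 (cons (fin 783 7 783)
(mv 849 (cons (fin 785 6 784)
(fin 913 6 848)))))))))))
(mv 975 (cons (fin 1232 7 975)
(mv 1167 (cons (fin 1231 5 975)
(mv 912 (cons (fin 1103 5 911)
(mv 848 (cons (fin 784 5 783)
(mv 849 (cons (fin 785 6 784)
(fin 913 6 848)))))))))))))))))))
(cons (mv 973 (cons (fin 972 3 972)
(mv 976 (cons (fin 977 2 973)
(mv 909 (cons (mv 1102 (cons (fin 845 4 845)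
(fin 1166 4 909)))
(cons (mv 844 (cons (fin 908 7 844)
(mv 845 (cons (fin 780 7 780)
(mv 846 (cons (fin 782 6 781)
(fin 910 6 845)))))))
(mv 844 (cons (fin 908 7 844)
(mv 846 (cons (fin 910 6 845)
(mv 1166 (cons (fin 1102 4 909)
(mv 1165 (cons (fin 1230 4 973)
(mv 1228 (cons (fin 1164 5 972)
(mv 1229 (cons (fin 1292 5 1036)
(mv 1167 (cons (fin 1168 1 1164)
(mv 1103 (cons (fin 1231 6 975)
(mv 912 (cons (fin 848 5 847)
(fin 975 6 911))))))))))))))))))))))))))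
(mv 973 (cons (fin 972 3 972)
(mv 1104 (cons (fin 1105 0 1037)
(mv 909 (cons (mv 1102 (cons (fin 845 4 845)
(fin 1166 4 909)))
(cons (mv 844 (cons (fin 908 7 844)
(mv 845 (cons (fin 780 7 780)
(mv 846 (cons (fin 782 6 781)
(fin 910 6 845)))))))
(mv 844 (cons (fin 908 7 844)
(mv 846 (cons (fin 910 6 845)
(mv 1166 (cons (fin 1102 4 909)
(mv 1165 (cons (fin 1230 4 973)
(mv 1164 (cons (fin 1228 5 972)
(mv 1167 (cons (fin 1103 2 1100)
(mv 1232 (cons (fin 1231 0 1164)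
(mv 1168 (cons (fin 1233 0 1165)
(fin 975 7 975))))))))))))))))))))))))))
(cons (cons (mv 972 (cons (fin 973 3 972)
(mv 976 (cons (fin 977 2 973)
(mv 1104 (cons (fin 1105 0 1037)
(mv 912 (cons (mv 1103 (cons (fin 848 5 847)
(fin 1167 5 911)))
(cons (mv 847 (cons (fin 911 7 847)
(mv 848 (cons (fin 783 7 783)
(mv 849 (cons (fin 785 6 784)
(fin 913 6 848)))))))
(mv 847 (cons (fin 911 7 847)
(mv 849 (cons (fin 913 6 848)
(mv 1168 (cons (cons (mv 1167 (cons (fin 1103 5 911)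
(fin 1231 5 975)))
(mv 1233 (cons (fin 1169 4 976)
(mv 1232 (cons (fin 1297 4 1040)
(mv 1295 (cons (fin 1231 5 1039)
(mv 1296 (cons (fin 1103 7 1039)
(fin 1359 5 1103))))))))))
(cons (mv 1231 (cons (fin 1167 5 975)
(mv 1232 (cons (fin 1295 5 1039)
(mv 1233 (cons (fin 1169 4 976)
(fin 1297 4 1040)))))))
(mv 1103 (cons (fin 1167 5 911)
(mv 1169 (cons (fin 1102 0 1101)
(fin 1233 4 976)))))))))))))))))))))
(mv 972 (cons (fin 973 3 972)
(mv 976 (cons (fin 977 2 973)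
(mv 1104 (cons (fin 1105 0 1037)
(mv 1168 (cons (mv 975 (cons (fin 911 7 911)
(fin 1232 7 975)))
(cons (mv 1231 (cons (fin 1167 5 975)
(mv 1232 (cons (fin 1295 5 1039)
(mv 1233 (cons (fin 1169 4 976)
(fin 1297 4 1040)))))))
(mv 1167 (cons (fin 1231 5 975)
(mv 1169 (cons (fin 1233 4 976)
(mv 1102 (cons (fin 1166 3 1101)
(mv 912 (cons (cons (mv 911 (cons (fin 847 7 847)
(fin 975 7 911)))
(mv 849 (cons (fin 913 6 848)
(mv 848 (cons (fin 785 6 784)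
(mv 783 (cons (fin 847 7 783)
(mv 784 (cons (fin 719 7 719)
(fin 975 5 783))))))))))
(cons (mv 849 (cons (fin 913 6 848)
(mv 848 (cons (fin 785 6 784)
(mv 975 (cons (fin 911 7 911)
(fin 784 5 783)))))))
(mv 847 (cons (fin 911 7 847)
(mv 848 (cons (fin 783 7 783)
(mv 849 (cons (fin 785 6 784)
(fin 913 6 848))))))))))))))))))))))))))
(cons (mv 973 (cons (fin 972 3 972)
(mv 976 (cons (fin 977 2 973)
(mv 1104 (cons (fin 1105 0 1037)
(mv 912 (cons (mv 1103 (cons (fin 848 5 847)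
(fin 1167 5 911)))
(cons (mv 847 (cons (fin 911 7 847)
(mv 848 (cons (fin 783 7 783)
(mv 849 (cons (fin 785 6 784)
(fin 913 6 848)))))))
(mv 847 (cons (fin 911 7 847)
(mv 849 (cons (fin 913 6 848)
(mv 1103 (cons (fin 1167 5 911)
(mv 1165 (cons (mv 1164 (cons (fin 1102 1 1100)
(fin 1228 5 972)))
(cons (mv 1166 (cons (fin 1230 4 973)
(mv 909 (cons (fin 1102 4 909)
(mv 844 (cons (fin 908 7 844)
(mv 845 (cons (fin 780 7 780)
(mv 846 (cons (fin 782 6 781)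
(fin 910 6 845)))))))))))
(mv 1228 (cons (fin 1164 5 972)
(mv 1229 (cons (fin 1292 5 1036)
(mv 1230 (cons (fin 1166 4 973)
(fin 1294 4 1037)))))))))))))))))))))))))
(mv 972 (cons (fin 973 3 972)
(mv 976 (cons (fin 977 2 973)
(mv 1104 (cons (fin 1105 0 1037)
(mv 1168 (cons (mv 975 (cons (fin 911 7 911)
(fin 1232 7 975)))
(cons (mv 1233 (cons (fin 1169 4 976)
(mv 1232 (cons (fin 1297 4 1040)
(mv 1295 (cons (fin 1231 5 1039)
(mv 1296 (cons (fin 1103 7 1039)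
(fin 1359 5 1103)))))))))
(mv 911 (cons (fin 975 7 911)
(mv 912 (cons (fin 847 7 847)
(mv 848 (cons (fin 1103 5 847)
(mv 849 (cons (fin 785 6 784)
(fin 913 6 848))))))))))))))))))))))
(mv 1039 (cons (fin 1100 1 1036)
(mv 976 (cons (fin 977 2 973)
(mv 1104 (cons (fin 1105 0 1037)
(mv 1168 (cons (mv 975 (cons (fin 911 7 911)
(fin 1232 7 975)))
(cons (mv 1167 (cons (fin 1231 5 975)
(mv 912 (cons (fin 1103 5 911)
(mv 847 (cons (fin 911 7 847)
(mv 848 (cons (fin 783 7 783)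
(mv 849 (cons (fin 785 6 784)
(fin 913 6 848)))))))))))
(mv 975 (cons (fin 1232 7 975)
(mv 1167 (cons (fin 1231 5 975)
(mv 912 (cons (fin 1103 5 911)
(mv 848 (cons (fin 784 5 783)
(mv 849 (cons (fin 785 6 784)
(fin 913 6 848))))))))))))))))))))))
(cons (cons (mv 1039 (cons (fin 1100 1 1036)
(mv 973 (cons (fin 972 3 972)
(mv 976 (cons (fin 977 2 973)
(mv 909 (cons (mv 1102 (cons (fin 845 4 845)
(fin 1166 4 909)))
(cons (mv 844 (cons (fin 908 7 844)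
(mv 845 (cons (fin 780 7 780)
(mv 846 (cons (fin 782 6 781)
(fin 910 6 845)))))))
(mv 844 (cons (fin 908 7 844)
(mv 846 (cons (fin 910 6 845)
(mv 1166 (cons (fin 1102 4 909)
(mv 1165 (cons (fin 1230 4 973)
(mv 1228 (cons (fin 1164 5 972)
(mv 1229 (cons (fin 1292 5 1036)
(mv 1167 (cons (fin 1168 1 1164)
(mv 1103 (cons (fin 1231 6 975)
(mv 912 (cons (fin 848 5 847)
(fin 975 6 911))))))))))))))))))))))))))))
(mv 1100 (cons (fin 1039 1 1036)
(mv 1099 (cons (fin 1098 2 1034)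
(mv 1102 (cons (cons (mv 1034 (cons (fin 1035 3 1034)
(mv 1162 (cons (fin 1163 1 1098)
(mv 1166 (cons (fin 1167 0 1099)
(mv 973 (cons (fin 1230 7 973)
(fin 909 4 909)))))))))
(mv 1034 (cons (fin 1035 3 1034)
(mv 1163 (cons (fin 1162 1 1098)
(mv 1103 (cons (fin 1164 1 1099)
(mv 1104 (cons (fin 1105 3 1037)
(mv 1168 (cons (fin 1167 0 1100)
(fin 1169 0 1101))))))))))))
(cons (mv 1034 (cons (fin 1035 3 1034)
(mv 1163 (cons (fin 1162 1 1098)
(mv 1164 (cons (fin 1103 1 1099)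
(mv 973 (cons (fin 909 5 908)
(mv 1228 (cons (fin 1165 5 972)
(fin 1292 6 1036)))))))))))
(cons (mv 1034 (cons (fin 1035 3 1034)
(mv 1166 (cons (fin 1167 0 1099)
(mv 973 (cons (fin 1230 7 973)
(fin 909 4 909)))))))
(mv 1162 (cons (fin 1163 1 1098)
(mv 1166 (cons (fin 1167 0 1099)
(mv 973 (cons (fin 1230 7 973)
(fin 909 4 909))))))))))))))))
(cons (mv 1039 (cons (fin 1100 1 1036)
(mv 972 (cons (fin 973 3 972)
(mv 976 (cons (fin 977 2 973)
(mv 1104 (cons (fin 1105 0 1037)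
(mv 1168 (cons (mv 975 (cons (fin 911 7 911)
(fin 1232 7 975)))
(cons (mv 1231 (cons (fin 1167 5 975)
(mv 1232 (cons (fin 1295 5 1039)
(mv 1233 (cons (fin 1169 4 976)
(fin 1297 4 1040)))))))
(mv 1167 (cons (fin 1231 5 975)
(mv 1169 (cons (fin 1233 4 976)
(mv 1102 (cons (fin 1166 3 1101)
(mv 912 (cons (cons (mv 911 (cons (fin 847 7 847)
(fin 975 7 911)))
(mv 849 (cons (fin 913 6 848)
(mv 848 (cons (fin 785 6 784)
(mv 783 (cons (fin 847 7 783)
(mv 784 (cons (fin 719 7 719)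
(fin 975 5 783))))))))))
(cons (mv 849 (cons (fin 913 6 848)
(mv 848 (cons (fin 785 6 784)
(mv 975 (cons (fin 911 7 911)
(fin 784 5 783)))))))
(mv 847 (cons (fin 911 7 847)
(mv 848 (cons (fin 783 7 783)
(mv 849 (cons (fin 785 6 784)
(fin 913 6 848)))))))))))))))))))))))))))
(cons (mv 1039 (cons (fin 1100 1 1036)
(mv 973 (cons (fin 972 3 972)
(mv 976 (cons (fin 977 2 973)
(mv 1104 (cons (fin 1105 0 1037)
(mv 912 (cons (mv 1103 (cons (fin 848 5 847)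
(fin 1167 5 911)))
(cons (mv 847 (cons (fin 911 7 847)
(mv 848 (cons (fin 783 7 783)
(mv 849 (cons (fin 785 6 784)
(fin 913 6 848)))))))
(mv 847 (cons (fin 911 7 847)
(mv 849 (cons (fin 913 6 848)
(mv 1103 (cons (fin 1167 5 911)
(mv 1165 (cons (mv 1164 (cons (fin 1102 1 1100)
(fin 1228 5 972)))
(cons (mv 1166 (cons (fin 1230 4 973)
(mv 909 (cons (fin 1102 4 909)
(mv 844 (cons (fin 908 7 844)
(mv 845 (cons (fin 780 7 780)
(mv 846 (cons (fin 782 6 781)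
(fin 910 6 845)))))))))))
(mv 1228 (cons (fin 1164 5 972)
(mv 1229 (cons (fin 1292 5 1036)
(mv 1230 (cons (fin 1166 4 973)
(fin 1294 4 1037)))))))))))))))))))))))))))
(mv 1039 (cons (fin 1100 1 1036)
(mv 972 (cons (fin 973 3 972)
(mv 976 (cons (fin 977 2 973)
(mv 1104 (cons (fin 1105 0 1037)
(mv 1168 (cons (mv 975 (cons (fin 911 7 911)
(fin 1232 7 975)))
(cons (mv 1233 (cons (fin 1169 4 976)
(mv 1232 (cons (fin 1297 4 1040)
(mv 1295 (cons (fin 1231 5 1039)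
(mv 1296 (cons (fin 1103 7 1039)
(fin 1359 5 1103)))))))))
(mv 911 (cons (fin 975 7 911)
(mv 912 (cons (fin 847 7 847)
(mv 848 (cons (fin 1103 5 847)
(mv 849 (cons (fin 785 6 784)
(fin 913 6 848)))))))))))))))))))))))))
(cons (mv 1039 (cons (cons (mv 1038 (cons (fin 1100 1 1036)
(mv 976 (cons (fin 977 2 973)
(mv 975 (cons (fin 1036 2 972)
(mv 1104 (cons (fin 1105 0 1037)
(mv 911 (cons (fin 1168 7 911)
(fin 847 4 847)))))))))))
(cons (mv 1103 (cons (cons (mv 1102 (cons (fin 1100 2 1036)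
(mv 1104 (cons (fin 1036 3 1036)
(mv 1164 (cons (fin 1165 1 1100)
(mv 1168 (cons (fin 1169 0 1101)
(mv 975 (cons (fin 1232 7 975)
(fin 911 4 911)))))))))))
(cons (mv 1167 (cons (cons (mv 976 (cons (fin 1231 6 975)
(mv 912 (cons (fin 848 5 847)
(fin 1104 5 911)))))
(mv 975 (cons (cons (mv 912 (cons (fin 976 6 911)
(mv 848 (cons (fin 911 6 847)
(mv 1166 (cons (fin 1230 5 974)
(mv 1168 (cons (fin 1232 4 975)
(mv 1165 (cons (fin 1100 3 1100)
(mv 1104 (cons (fin 1164 2 1100)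
(fin 1105 2 1101)))))))))))))
(mv 1166 (cons (fin 1230 5 974)
(mv 1168 (cons (fin 1232 4 975)
(mv 911 (cons (fin 1104 4 911)
(mv 846 (cons (fin 910 7 846)
(mv 782 (cons (fin 847 7 782)
(mv 1165 (cons (fin 1100 3 1100)
(mv 1228 (cons (fin 1229 1 1164)
(mv 1164 (cons (fin 1227 1 1163)
(fin 973 5 972))))))))))))))))))
(cons (mv 912 (cons (fin 976 6 911)
(mv 911 (cons (fin 848 6 847)
(mv 846 (cons (fin 910 7 846)
(mv 847 (cons (fin 782 7 782)
(fin 1104 4 847)))))))))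
(cons (mv 912 (cons (fin 976 6 911)
(mv 848 (cons (fin 911 6 847)
(mv 1166 (cons (fin 1230 5 974)
(mv 1168 (cons (fin 1232 4 975)
(mv 1165 (cons (fin 1100 3 1100)
(mv 1228 (cons (fin 1229 1 1164)
(mv 1164 (cons (fin 1227 1 1163)
(fin 973 5 972)))))))))))))))
(mv 912 (cons (fin 976 6 911)
(mv 1166 (cons (fin 1230 5 974)
(mv 1168 (cons (fin 1232 4 975)
(mv 1165 (cons (fin 1100 3 1100)
(mv 1104 (cons (fin 1164 2 1100)
(fin 1105 2 1101))))))))))))))))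
(cons (mv 1231 (cons (cons (mv 1104 (cons (fin 1295 6 1039)
(mv 1230 (cons (fin 1294 5 1038)
(mv 975 (cons (fin 1166 5 974)
(mv 911 (cons (fin 847 4 847)
(fin 1168 4 911)))))))))
(mv 1230 (cons (fin 1294 5 1038)
(mv 975 (cons (fin 1166 5 974)
(mv 1232 (cons (fin 1168 4 975)
(fin 1296 4 1039))))))))
(cons (mv 1104 (cons (fin 1295 6 1039)
(mv 1232 (cons (fin 1296 4 1039)
(mv 1168 (cons (fin 975 7 975)
(mv 1233 (cons (fin 1297 4 1040)
(mv 1166 (cons (fin 1234 3 1166)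
(fin 1165 0 1165)))))))))))
(mv 1230 (cons (fin 1294 5 1038)
(mv 1295 (cons (fin 1104 6 1039)
(mv 1296 (cons (fin 1232 4 1039)
(fin 1360 4 1103))))))))))
(mv 976 (cons (fin 1231 6 975)
(mv 912 (cons (fin 848 5 847)
(fin 975 6 911))))))))
(mv 976 (cons (cons (mv 912 (cons (fin 848 5 847)
(mv 1167 (cons (fin 1104 5 911)
(fin 975 6 911)))))
(mv 1167 (cons (fin 1231 6 975)
(mv 975 (cons (cons (mv 1166 (cons (fin 1230 5 974)
(mv 911 (cons (fin 1102 5 910)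
(mv 847 (cons (fin 783 4 783)
(fin 1104 4 847)))))))
(mv 1168 (cons (fin 1232 4 975)
(mv 911 (cons (fin 1104 7 911)
(mv 846 (cons (fin 910 7 846)
(mv 847 (cons (fin 782 7 782)
(fin 783 4 783))))))))))
(cons (mv 1166 (cons (fin 1230 5 974)
(mv 1168 (cons (fin 1232 4 975)
(mv 1102 (cons (fin 1169 3 1101)
(mv 909 (cons (fin 973 4 909)
(mv 1104 (cons (fin 1036 3 1036)
(mv 1105 (cons (fin 1165 1 1101)
(fin 1106 1 1102)))))))))))))
(mv 1166 (cons (fin 1230 5 974)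
(mv 911 (cons (fin 1102 5 910)
(mv 846 (cons (fin 910 7 846)
(mv 847 (cons (fin 782 7 782)
(fin 783 4 783)))))))))))))))
(cons (mv 912 (cons (fin 848 5 847)
(mv 1104 (cons (cons (mv 847 (cons (fin 911 7 847)
(mv 849 (cons (fin 913 6 848)
(mv 1036 (cons (fin 1102 3 1036)
(mv 1169 (cons (fin 1105 4 912)
(mv 1168 (cons (fin 1233 4 976)
(mv 1232 (cons (fin 975 7 975)
(fin 1296 7 1039)))))))))))))
(cons (mv 849 (cons (fin 913 6 848)
(mv 1036 (cons (fin 1102 3 1036)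
(mv 1169 (cons (fin 1105 4 912)
(mv 1168 (cons (fin 1233 4 976)
(mv 1232 (cons (fin 975 7 975)
(fin 1296 7 1039)))))))))))
(mv 847 (cons (fin 911 7 847)
(mv 849 (cons (fin 913 6 848)
(mv 1169 (cons (fin 1105 4 912)
(mv 1168 (cons (fin 1233 4 976)
(mv 1232 (cons (fin 975 7 975)
(fin 1296 7 1039)))))))))))))
(cons (mv 847 (cons (fin 911 7 847)
(mv 849 (cons (fin 913 6 848)
(mv 1102 (cons (fin 1036 3 1036)
(mv 1165 (cons (fin 1164 1 1100)
(mv 1166 (cons (fin 1105 1 1101)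
(mv 973 (cons (fin 909 4 909)
(fin 1230 4 973)))))))))))))
(cons (mv 847 (cons (fin 911 7 847)
(mv 849 (cons (fin 913 6 848)
(mv 1102 (cons (fin 1036 3 1036)
(mv 1164 (cons (fin 1165 1 1100)
(mv 1168 (cons (fin 1169 0 1101)
(mv 1232 (cons (fin 975 7 975)
(fin 1296 7 1039)))))))))))))
(mv 847 (cons (fin 911 7 847)
(mv 1036 (cons (fin 1102 3 1036)
(mv 1169 (cons (fin 1105 4 912)
(mv 1168 (cons (fin 1233 4 976)
(mv 1232 (cons (fin 975 7 975)
(fin 1296 7 1039)))))))))))))))))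
(cons (mv 912 (cons (fin 848 5 847)
(mv 1167 (cons (fin 975 6 911)
(fin 1231 6 975)))))
(mv 912 (cons (fin 848 5 847)
(mv 1167 (cons (fin 1104 5 911)
(fin 1231 6 975)))))))))))
(cons (cons (mv 1102 (cons (fin 1100 2 1036)
(mv 1166 (cons (cons (mv 909 (cons (fin 973 4 909)
(mv 975 (cons (fin 911 5 910)
(mv 1230 (cons (fin 1294 7 1037)
(fin 1167 5 974)))))))
(mv 909 (cons (fin 973 4 909)
(mv 975 (cons (fin 911 5 910)
(mv 1167 (cons (mv 976 (cons (fin 912 6 911)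
(fin 1231 6 975)))
(mv 1168 (cons (fin 1169 3 1101)
(fin 1232 4 975))))))))))
(cons (mv 973 (cons (fin 909 4 909)
(mv 1230 (cons (fin 1294 7 1037)
(fin 1165 4 973)))))
(mv 975 (cons (fin 911 5 910)
(mv 1230 (cons (fin 1294 7 1037)
(fin 1167 5 974))))))))))
(mv 1102 (cons (fin 1100 2 1036)
(mv 1104 (cons (fin 1036 3 1036)
(mv 1164 (cons (fin 1165 1 1100)
(mv 1168 (cons (fin 1169 0 1101)
(mv 1232 (cons (fin 1296 7 1039)
(mv 1231 (cons (fin 1295 5 1039)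
(mv 976 (cons (fin 1167 5 975)
(mv 912 (cons (fin 848 5 847)
(mv 913 (cons (fin 849 6 848)
(fin 977 6 912))))))))))))))))))))
(cons (mv 1102 (cons (fin 1100 2 1036)
(mv 1104 (cons (fin 1036 3 1036)
(mv 1165 (cons (fin 1164 1 1100)
(mv 1105 (cons (fin 1166 1 1101)
(mv 1106 (cons (fin 1107 3 1039)
(mv 1170 (cons (fin 1169 0 1102)
(fin 1171 0 1103)))))))))))))
(mv 1102 (cons (fin 1100 2 1036)
(mv 1104 (cons (fin 1036 3 1036)
(mv 1168 (cons (fin 1169 0 1101)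
(mv 975 (cons (fin 1232 7 975)
(fin 911 4 911)))))))))))))
(mv 1038 (cons (cons (mv 976 (cons (fin 977 2 973)
(mv 975 (cons (fin 1036 2 972)
(mv 1104 (cons (fin 1105 0 1037)
(mv 911 (cons (fin 1168 7 911)
(fin 847 4 847)))))))))
(mv 976 (cons (fin 977 2 973)
(mv 975 (cons (fin 1036 2 972)
(mv 1103 (cons (mv 912 (cons (fin 848 5 847)
(fin 1167 6 911)))
(cons (mv 912 (cons (fin 848 5 847)
(mv 911 (cons (mv 847 (cons (fin 1102 5 846)
(fin 783 4 783)))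
(cons (mv 910 (cons (fin 846 7 846)
(mv 909 (cons (fin 908 0 908)
(mv 845 (cons (fin 844 3 844)
(mv 1102 (cons (fin 1166 5 910)
(fin 973 4 845)))))))))
(mv 846 (cons (fin 910 7 846)
(mv 847 (cons (fin 782 7 782)
(fin 783 4 783))))))))))
(mv 1167 (cons (fin 1231 6 975)
(mv 1166 (cons (fin 1230 5 974)
(mv 911 (cons (fin 1102 5 910)
(mv 846 (cons (fin 910 7 846)
(mv 847 (cons (fin 782 7 782)
(fin 783 4 783)))))))))))))))))))
(cons (mv 1104 (cons (fin 1105 0 1037)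
(mv 1103 (cons (fin 1036 0 1036)
(mv 1168 (cons (mv 975 (cons (fin 1232 7 975)
(fin 911 4 911)))
(cons (mv 911 (cons (fin 975 4 911)
(mv 1102 (cons (fin 1169 0 1101)
(mv 1165 (cons (fin 1164 1 1100)
(mv 1229 (cons (fin 1293 6 1037)
(mv 1228 (cons (fin 1292 5 1036)
(mv 1166 (cons (fin 1167 1 1164)
(mv 973 (cons (fin 1230 7 973)
(fin 909 4 909)))))))))))))))
(mv 1102 (cons (fin 1169 0 1101)
(mv 1165 (cons (fin 1164 1 1100)
(mv 1229 (cons (fin 1293 6 1037)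
(mv 1228 (cons (fin 1292 5 1036)
(mv 1166 (cons (fin 1167 1 1164)
(mv 973 (cons (fin 1230 7 973)
(fin 909 4 909))))))))))))))))))))
(cons (mv 976 (cons (fin 977 2 973)
(mv 1104 (cons (fin 1105 0 1037)
(mv 1168 (cons (mv 975 (cons (fin 911 7 911)
(fin 1232 7 975)))
(cons (mv 1167 (cons (fin 1231 5 975)
(mv 912 (cons (fin 1103 5 911)
(mv 847 (cons (fin 911 7 847)
(mv 848 (cons (fin 783 7 783)
(mv 849 (cons (fin 785 6 784)
(fin 913 6 848)))))))))))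
(mv 975 (cons (fin 1232 7 975)
(mv 1167 (cons (fin 1231 5 975)
(mv 912 (cons (fin 1103 5 911)
(mv 848 (cons (fin 784 5 783)
(mv 849 (cons (fin 785 6 784)
(fin 913 6 848))))))))))))))))))
(mv 976 (cons (fin 977 2 973)
(mv 1104 (cons (fin 1105 0 1037)
(mv 1103 (cons (fin 1036 0 1036)
(mv 912 (cons (fin 848 5 847)
(fin 1167 5 911)))))))))))))))
(cons (cons (mv 1038 (cons (fin 1100 1 1036)
(mv 976 (cons (fin 977 2 973)
(mv 975 (cons (fin 1036 2 972)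
(mv 1103 (cons (mv 912 (cons (fin 848 5 847)
(fin 1167 6 911)))
(cons (mv 912 (cons (fin 848 5 847)
(mv 911 (cons (mv 847 (cons (fin 1102 5 846)
(fin 783 4 783)))
(cons (mv 910 (cons (fin 846 7 846)
(mv 909 (cons (fin 908 0 908)
(mv 845 (cons (fin 844 3 844)
(mv 1102 (cons (fin 1166 5 910)
(fin 973 4 845)))))))))
(mv 846 (cons (fin 910 7 846)
(mv 847 (cons (fin 782 7 782)
(fin 783 4 783))))))))))
(mv 1167 (cons (fin 1231 6 975)
(mv 1166 (cons (fin 1230 5 974)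
(mv 911 (cons (fin 1102 5 910)
(mv 846 (cons (fin 910 7 846)
(mv 847 (cons (fin 782 7 782)
(fin 783 4 783))))))))))))))))))))
(mv 1038 (cons (fin 1100 1 1036)
(mv 1104 (cons (fin 1105 0 1037)
(mv 1103 (cons (fin 1036 0 1036)
(mv 1168 (cons (mv 975 (cons (fin 1232 7 975)
(fin 911 4 911)))
(cons (mv 911 (cons (fin 975 4 911)
(mv 1102 (cons (fin 1169 0 1101)
(mv 1165 (cons (fin 1164 1 1100)
(mv 1229 (cons (fin 1293 6 1037)
(mv 1228 (cons (fin 1292 5 1036)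
(mv 1166 (cons (fin 1167 1 1164)
(mv 973 (cons (fin 1230 7 973)
(fin 909 4 909)))))))))))))))
(mv 1102 (cons (fin 1169 0 1101)
(mv 1165 (cons (fin 1164 1 1100)
(mv 1229 (cons (fin 1293 6 1037)
(mv 1228 (cons (fin 1292 5 1036)
(mv 1166 (cons (fin 1167 1 1164)
(mv 973 (cons (fin 1230 7 973)
(fin 909 4 909)))))))))))))))))))))))
(cons (mv 1038 (cons (fin 1100 1 1036)
(mv 976 (cons (fin 977 2 973)
(mv 1104 (cons (fin 1105 0 1037)
(mv 1168 (cons (mv 975 (cons (fin 911 7 911)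
(fin 1232 7 975)))
(cons (mv 1167 (cons (fin 1231 5 975)
(mv 912 (cons (fin 1103 5 911)
(mv 847 (cons (fin 911 7 847)
(mv 848 (cons (fin 783 7 783)
(mv 849 (cons (fin 785 6 784)
(fin 913 6 848)))))))))))
(mv 975 (cons (fin 1232 7 975)
(mv 1167 (cons (fin 1231 5 975)
(mv 912 (cons (fin 1103 5 911)
(mv 848 (cons (fin 784 5 783)
(mv 849 (cons (fin 785 6 784)
(fin 913 6 848))))))))))))))))))))
(mv 1038 (cons (fin 1100 1 1036)
(mv 976 (cons (fin 977 2 973)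
(mv 1104 (cons (fin 1105 0 1037)
(mv 1103 (cons (fin 1036 0 1036)
(mv 912 (cons (fin 848 5 847)
(fin 1167 5 911)))))))))))))))
(mv 1039 (cons (cons (mv 1038 (cons (fin 1100 1 1036)
(mv 972 (cons (fin 973 3 972)
(mv 976 (cons (fin 977 2 973)
(mv 1036 (cons (fin 971 3 971)
(fin 975 2 972)))))))))
(cons (mv 1103 (cons (cons (mv 1102 (cons (fin 1100 2 1036)
(mv 1104 (cons (fin 1036 3 1036)
(mv 1164 (cons (fin 1165 1 1100)
(mv 1168 (cons (fin 1169 0 1101)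
(mv 975 (cons (fin 1232 7 975)
(fin 911 4 911)))))))))))
(cons (mv 1167 (cons (cons (mv 976 (cons (fin 1231 6 975)
(mv 912 (cons (fin 848 5 847)
(fin 1104 5 911)))))
(mv 975 (cons (cons (mv 912 (cons (fin 976 6 911)
(mv 848 (cons (fin 911 6 847)
(mv 1166 (cons (fin 1230 5 974)
(mv 1168 (cons (fin 1232 4 975)
(mv 1165 (cons (fin 1100 3 1100)
(mv 1104 (cons (fin 1164 2 1100)
(fin 1105 2 1101)))))))))))))
(mv 1166 (cons (fin 1230 5 974)
(mv 1168 (cons (fin 1232 4 975)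
(mv 911 (cons (fin 1104 4 911)
(mv 846 (cons (fin 910 7 846)
(mv 782 (cons (fin 847 7 782)
(mv 1165 (cons (fin 1100 3 1100)
(mv 1228 (cons (fin 1229 1 1164)
(mv 1164 (cons (fin 1227 1 1163)
(fin 973 5 972))))))))))))))))))
(cons (mv 912 (cons (fin 976 6 911)
(mv 911 (cons (fin 848 6 847)
(mv 846 (cons (fin 910 7 846)
(mv 847 (cons (fin 782 7 782)
(fin 1104 4 847)))))))))
(cons (mv 912 (cons (fin 976 6 911)
(mv 848 (cons (fin 911 6 847)
(mv 1166 (cons (fin 1230 5 974)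
(mv 1168 (cons (fin 1232 4 975)
(mv 1165 (cons (fin 1100 3 1100)
(mv 1228 (cons (fin 1229 1 1164)
(mv 1164 (cons (fin 1227 1 1163)
(fin 973 5 972)))))))))))))))
(mv 912 (cons (fin 976 6 911)
(mv 1166 (cons (fin 1230 5 974)
(mv 1168 (cons (fin 1232 4 975)
(mv 1165 (cons (fin 1100 3 1100)
(mv 1104 (cons (fin 1164 2 1100)
(fin 1105 2 1101))))))))))))))))
(cons (mv 1231 (cons (cons (mv 1104 (cons (fin 1295 6 1039)
(mv 1230 (cons (fin 1294 5 1038)
(mv 975 (cons (fin 1166 5 974)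
(mv 911 (cons (fin 847 4 847)
(fin 1168 4 911)))))))))
(mv 1230 (cons (fin 1294 5 1038)
(mv 975 (cons (fin 1166 5 974)
(mv 1232 (cons (fin 1168 4 975)
(fin 1296 4 1039))))))))
(cons (mv 1104 (cons (fin 1295 6 1039)
(mv 1232 (cons (fin 1296 4 1039)
(mv 1168 (cons (fin 975 7 975)
(mv 1233 (cons (fin 1297 4 1040)
(mv 1166 (cons (fin 1234 3 1166)
(fin 1165 0 1165)))))))))))
(mv 1230 (cons (fin 1294 5 1038)
(mv 1295 (cons (fin 1104 6 1039)
(mv 1296 (cons (fin 1232 4 1039)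
(fin 1360 4 1103))))))))))
(mv 976 (cons (fin 1231 6 975)
(mv 912 (cons (fin 848 5 847)
(fin 975 6 911))))))))
(mv 976 (cons (cons (mv 912 (cons (fin 848 5 847)
(mv 1167 (cons (fin 1104 5 911)
(fin 975 6 911)))))
(mv 1167 (cons (fin 1231 6 975)
(mv 975 (cons (cons (mv 1166 (cons (fin 1230 5 974)
(mv 911 (cons (fin 1102 5 910)
(mv 847 (cons (fin 783 4 783)
(fin 1104 4 847)))))))
(mv 1168 (cons (fin 1232 4 975)
(mv 911 (cons (fin 1104 7 911)
(mv 846 (cons (fin 910 7 846)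
(mv 847 (cons (fin 782 7 782)
(fin 783 4 783))))))))))
(cons (mv 1166 (cons (fin 1230 5 974)
(mv 1168 (cons (fin 1232 4 975)
(mv 1102 (cons (fin 1169 3 1101)
(mv 1104 (cons (fin 1036 3 1036)
(mv 1105 (cons (fin 1165 1 1101)
(fin 1106 1 1102)))))))))))
(mv 1166 (cons (fin 1230 5 974)
(mv 911 (cons (fin 1102 5 910)
(mv 846 (cons (fin 910 7 846)
(mv 847 (cons (fin 782 7 782)
(fin 783 4 783)))))))))))))))
(cons (mv 912 (cons (fin 848 5 847)
(mv 1104 (cons (cons (mv 847 (cons (fin 911 7 847)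
(mv 849 (cons (fin 913 6 848)
(mv 1036 (cons (fin 1102 3 1036)
(mv 1169 (cons (fin 1105 4 912)
(mv 1168 (cons (fin 1233 4 976)
(mv 1232 (cons (fin 975 7 975)
(fin 1296 7 1039)))))))))))))
(cons (mv 849 (cons (fin 913 6 848)
(mv 1036 (cons (fin 1102 3 1036)
(mv 1169 (cons (fin 1105 4 912)
(mv 1168 (cons (fin 1233 4 976)
(mv 1232 (cons (fin 975 7 975)
(fin 1296 7 1039)))))))))))
(mv 847 (cons (fin 911 7 847)
(mv 849 (cons (fin 913 6 848)
(mv 1169 (cons (fin 1105 4 912)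
(mv 1168 (cons (fin 1233 4 976)
(mv 1232 (cons (fin 975 7 975)
(fin 1296 7 1039)))))))))))))
(cons (mv 847 (cons (fin 911 7 847)
(mv 849 (cons (fin 913 6 848)
(mv 1102 (cons (fin 1036 3 1036)
(mv 1165 (cons (fin 1164 1 1100)
(mv 1166 (cons (fin 1105 1 1101)
(mv 1230 (cons (fin 1294 7 1037)
(fin 973 4 973)))))))))))))
(cons (mv 847 (cons (fin 911 7 847)
(mv 849 (cons (fin 913 6 848)
(mv 1102 (cons (fin 1036 3 1036)
(mv 1164 (cons (fin 1165 1 1100)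
(mv 1168 (cons (fin 1169 0 1101)
(mv 1232 (cons (fin 975 7 975)
(fin 1296 7 1039)))))))))))))
(mv 847 (cons (fin 911 7 847)
(mv 1036 (cons (fin 1102 3 1036)
(mv 1169 (cons (fin 1105 4 912)
(mv 1168 (cons (fin 1233 4 976)
(mv 1232 (cons (fin 975 7 975)
(fin 1296 7 1039)))))))))))))))))
(cons (mv 912 (cons (fin 848 5 847)
(mv 1167 (cons (fin 975 6 911)
(fin 1231 6 975)))))
(mv 912 (cons (fin 848 5 847)
(mv 1167 (cons (fin 1104 5 911)
(fin 1231 6 975)))))))))))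
(cons (cons (mv 1102 (cons (fin 1100 2 1036)
(mv 1167 (cons (mv 976 (cons (fin 1231 6 975)
(mv 912 (cons (fin 848 5 847)
(fin 975 6 911)))))
(cons (mv 1166 (cons (mv 975 (cons (fin 911 5 910)
(fin 1230 5 974)))
(cons (mv 975 (cons (fin 911 5 910)
(mv 1168 (cons (fin 1169 3 1101)
(fin 1232 4 975)))))
(mv 1168 (cons (fin 1169 3 1101)
(mv 1230 (cons (fin 1294 7 1037)
(mv 1165 (cons (fin 973 4 973)
(mv 1164 (cons (fin 1163 2 1099)
(mv 1228 (cons (fin 1227 1 1163)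
(fin 1229 1 1164))))))))))))))
(mv 1231 (cons (fin 976 6 975)
(mv 1230 (cons (fin 1294 5 1038)
(mv 1296 (cons (fin 1232 4 1039)
(mv 1295 (cons (fin 1360 4 1103)
(mv 1166 (cons (fin 1359 7 1102)
(mv 1165 (cons (fin 973 4 973)
(mv 1164 (cons (fin 1163 2 1099)
(mv 1228 (cons (fin 1227 1 1163)
(fin 1229 0 1228))))))))))))))))))))))
(mv 1102 (cons (fin 1100 2 1036)
(mv 1104 (cons (fin 1036 3 1036)
(mv 1164 (cons (fin 1165 1 1100)
(mv 1168 (cons (fin 1169 0 1101)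
(mv 1232 (cons (fin 1296 7 1039)
(mv 1231 (cons (fin 1295 5 1039)
(mv 976 (cons (fin 1167 5 975)
(mv 912 (cons (fin 848 5 847)
(mv 913 (cons (fin 849 6 848)
(fin 977 6 912))))))))))))))))))))
(cons (mv 1102 (cons (fin 1100 2 1036)
(mv 1104 (cons (fin 1036 3 1036)
(mv 1168 (cons (fin 1169 0 1101)
(mv 975 (cons (fin 1232 7 975)
(fin 911 4 911)))))))))
(mv 1102 (cons (fin 1100 2 1036)
(mv 1104 (cons (fin 1036 3 1036)
(mv 1165 (cons (fin 1164 1 1100)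
(mv 1105 (cons (fin 1166 1 1101)
(mv 1106 (cons (fin 1107 3 1039)
(mv 1170 (cons (fin 1169 0 1102)
(fin 1171 0 1103)))))))))))))))))
(mv 1038 (cons (cons (mv 972 (cons (fin 973 3 972)
(mv 976 (cons (fin 977 2 973)
(mv 1036 (cons (fin 971 3 971)
(fin 975 2 972)))))))
(mv 972 (cons (fin 973 3 972)
(mv 1036 (cons (fin 971 3 971)
(mv 1104 (cons (fin 1103 0 1036)
(fin 1105 0 1037))))))))
(cons (mv 976 (cons (fin 977 2 973)
(mv 975 (cons (fin 1036 2 972)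
(mv 1104 (cons (fin 1105 0 1037)
(mv 911 (cons (fin 1168 7 911)
(fin 847 4 847)))))))))
(mv 972 (cons (fin 973 3 972)
(mv 976 (cons (fin 977 2 973)
(mv 1104 (cons (fin 1105 0 1037)
(mv 1168 (cons (mv 975 (cons (fin 911 7 911)
(fin 1232 7 975)))
(cons (mv 1167 (cons (fin 1231 5 975)
(mv 912 (cons (fin 1103 5 911)
(mv 847 (cons (fin 911 7 847)
(mv 848 (cons (fin 783 7 783)
(mv 849 (cons (fin 785 6 784)
(fin 913 6 848)))))))))))
(mv 975 (cons (fin 1232 7 975)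
(mv 1167 (cons (fin 1231 5 975)
(mv 912 (cons (fin 1103 5 911)
(mv 848 (cons (fin 784 5 783)
(mv 849 (cons (fin 785 6 784)
(fin 913 6 848)))))))))))))))))))))))))
(cons (mv 1038 (cons (fin 1100 1 1036)
(mv 972 (cons (fin 973 3 972)
(mv 1036 (cons (fin 971 3 971)
(mv 1104 (cons (fin 1103 0 1036)
(fin 1105 0 1037)))))))))
(cons (mv 1038 (cons (fin 1100 1 1036)
(mv 976 (cons (fin 977 2 973)
(mv 975 (cons (fin 1036 2 972)
(mv 1104 (cons (fin 1105 0 1037)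
(mv 911 (cons (fin 1168 7 911)
(fin 847 4 847)))))))))))
(mv 1038 (cons (fin 1100 1 1036)
(mv 972 (cons (fin 973 3 972)
(mv 976 (cons (fin 977 2 973)
(mv 1104 (cons (fin 1105 0 1037)
(mv 1168 (cons (mv 975 (cons (fin 911 7 911)
(fin 1232 7 975)))
(cons (mv 1167 (cons (fin 1231 5 975)
(mv 912 (cons (fin 1103 5 911)
(mv 847 (cons (fin 911 7 847)
(mv 848 (cons (fin 783 7 783)
(mv 849 (cons (fin 785 6 784)
(fin 913 6 848)))))))))))
(mv 975 (cons (fin 1232 7 975)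
(mv 1167 (cons (fin 1231 5 975)
(mv 912 (cons (fin 1103 5 911)
(mv 848 (cons (fin 784 5 783)
(mv 849 (cons (fin 785 6 784)
(fin 913 6 848))))))))))))))))))))))))))))))
(cons (cons (cons (mv 973 (cons (cons (cons (mv 909 (cons (cons (mv 844 (cons (fin 908 7 844)
(mv 845 (cons (fin 780 7 780)
(mv 846 (cons (fin 782 6 781)
(fin 910 6 845)))))))
(mv 846 (cons (fin 910 6 845)
(mv 845 (cons (fin 782 6 781)
(mv 1102 (cons (fin 1038 4 845)
(fin 1166 4 909))))))))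
(cons (mv 844 (cons (fin 908 7 844)
(mv 845 (cons (fin 780 7 780)
(mv 1102 (cons (fin 1038 4 845)
(fin 1166 4 909)))))))
(mv 846 (cons (fin 910 6 845)
(mv 908 (cons (fin 844 7 844)
(mv 972 (cons (fin 1165 7 908)
(mv 1039 (cons (fin 1038 3 972)
(mv 1102 (cons (fin 1166 4 909)
(mv 1103 (cons (fin 1100 2 1036)
(mv 1104 (cons (fin 1036 3 1036)
(mv 1168 (cons (fin 1169 0 1101)
(mv 975 (cons (fin 1232 7 975)
(fin 911 4 911))))))))))))))))))))))
(mv 1165 (cons (cons (mv 908 (cons (fin 972 7 908)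
(mv 1230 (cons (fin 1166 4 973)
(mv 1229 (cons (fin 1294 4 1037)
(mv 1292 (cons (fin 1228 5 1036)
(mv 1293 (cons (fin 1356 5 1100)
(mv 1038 (cons (fin 1102 6 1037)
(mv 1100 (cons (fin 1039 1 1036)
(fin 1036 7 1036)))))))))))))))
(cons (mv 1230 (cons (fin 1166 4 973)
(mv 1229 (cons (fin 1294 4 1037)
(mv 1292 (cons (fin 1228 5 1036)
(mv 1293 (cons (fin 1356 5 1100)
(mv 1038 (cons (fin 1102 6 1037)
(mv 1100 (cons (fin 1039 1 1036)
(fin 1036 7 1036)))))))))))))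
(mv 972 (cons (fin 908 7 908)
(mv 1038 (cons (fin 1039 3 972)
(mv 970 (cons (fin 971 0 970)
(mv 1229 (cons (fin 1036 7 972)
(mv 1292 (cons (fin 1228 5 1036)
(mv 1293 (cons (fin 1356 5 1100)
(fin 1102 6 1037)))))))))))))))
(cons (cons (mv 972 (cons (fin 908 7 908)
(mv 1039 (cons (fin 1038 3 972)
(mv 1166 (cons (fin 1230 4 973)
(mv 1167 (cons (cons (mv 1100 (cons (fin 1168 3 1100)
(mv 1099 (cons (fin 1098 0 1098)
(fin 1102 0 1099)))))
(mv 1103 (cons (mv 976 (cons (fin 1231 6 975)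
(mv 912 (cons (fin 848 5 847)
(fin 1104 5 911)))))
(cons (mv 1102 (cons (fin 1100 2 1036)
(mv 1104 (cons (fin 1036 3 1036)
(fin 1105 1 1101)))))
(mv 976 (cons (fin 1231 6 975)
(mv 912 (cons (fin 848 5 847)
(fin 975 6 911)))))))))
(cons (mv 1168 (cons (cons (mv 1102 (cons (fin 1169 3 1101)
(mv 1104 (cons (fin 1105 2 1101)
(mv 1232 (cons (fin 1233 0 1165)
(fin 975 7 975)))))))
(mv 1102 (cons (fin 1169 3 1101)
(mv 1232 (cons (fin 1233 0 1165)
(mv 1103 (cons (fin 975 4 975)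
(mv 1231 (cons (fin 976 6 975)
(fin 1296 4 1039))))))))))
(cons (mv 1102 (cons (fin 1169 3 1101)
(mv 1104 (cons (fin 1105 2 1101)
(mv 976 (cons (fin 1231 5 975)
(mv 1103 (cons (fin 1036 3 1036)
(fin 912 5 911)))))))))
(mv 1104 (cons (fin 1105 2 1101)
(mv 1232 (cons (fin 1233 0 1165)
(fin 975 7 975))))))))
(mv 1168 (cons (fin 1100 3 1100)
(mv 1104 (cons (fin 1105 2 1101)
(mv 1232 (cons (fin 1233 0 1165)
(fin 975 7 975))))))))))))))))
(mv 972 (cons (fin 908 7 908)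
(mv 1166 (cons (fin 1230 4 973)
(mv 1229 (cons (fin 1036 7 972)
(mv 1292 (cons (fin 1228 5 1036)
(mv 1293 (cons (fin 1356 5 1100)
(mv 1357 (cons (fin 1102 6 1101)
(mv 1358 (cons (fin 1294 4 1101)
(fin 1422 4 1165))))))))))))))))
(cons (mv 908 (cons (fin 972 7 908)
(mv 1230 (cons (fin 1166 4 973)
(mv 1229 (cons (fin 1294 4 1037)
(mv 1292 (cons (fin 1228 5 1036)
(mv 1293 (cons (fin 1356 5 1100)
(mv 1038 (cons (fin 1102 6 1037)
(mv 1039 (cons (fin 1100 1 1036)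
(mv 976 (cons (fin 977 2 973)
(mv 1104 (cons (fin 1105 0 1037)
(mv 1231 (cons (fin 1232 1 1228)
(mv 1167 (cons (fin 1168 5 975)
(fin 1103 6 975)))))))))))))))))))))))
(mv 972 (cons (fin 908 7 908)
(mv 1038 (cons (fin 1039 3 972)
(mv 970 (cons (fin 971 0 970)
(mv 1229 (cons (fin 1036 7 972)
(mv 1230 (cons (fin 1166 4 973)
(fin 1294 4 1037))))))))))))))))
(cons (mv 909 (cons (cons (mv 844 (cons (fin 908 7 844)
(mv 845 (cons (fin 780 7 780)
(mv 846 (cons (fin 782 6 781)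
(fin 910 6 845)))))))
(mv 846 (cons (fin 910 6 845)
(mv 845 (cons (fin 782 6 781)
(mv 780 (cons (fin 844 7 780)
(mv 781 (cons (fin 716 7 716)
(mv 1036 (cons (fin 972 5 780)
(fin 1100 5 844))))))))))))
(cons (mv 846 (cons (fin 910 6 845)
(mv 845 (cons (fin 782 6 781)
(mv 1036 (cons (fin 1100 5 844)
(mv 972 (cons (fin 781 5 780)
(mv 1165 (cons (fin 908 7 908)
(fin 1229 7 972)))))))))))
(cons (mv 844 (cons (fin 908 7 844)
(mv 845 (cons (fin 780 7 780)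
(mv 1036 (cons (fin 1100 5 844)
(mv 972 (cons (fin 781 5 780)
(mv 1165 (cons (fin 1229 7 972)
(mv 1166 (cons (fin 1102 4 909)
(fin 1230 4 973)))))))))))))
(mv 846 (cons (fin 910 6 845)
(mv 908 (cons (fin 844 7 844)
(mv 1165 (cons (fin 972 7 908)
(mv 1166 (cons (fin 1102 4 909)
(fin 1230 4 973)))))))))))))
(mv 909 (cons (cons (mv 844 (cons (fin 908 7 844)
(mv 845 (cons (fin 780 7 780)
(mv 846 (cons (fin 782 6 781)
(fin 910 6 845)))))))
(mv 846 (cons (fin 910 6 845)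
(mv 845 (cons (fin 782 6 781)
(mv 1102 (cons (fin 1038 4 845)
(fin 1166 4 909))))))))
(cons (mv 844 (cons (fin 908 7 844)
(mv 845 (cons (fin 780 7 780)
(mv 1102 (cons (fin 1038 4 845)
(fin 1166 4 909)))))))
(mv 844 (cons (fin 908 7 844)
(mv 846 (cons (fin 910 6 845)
(mv 1102 (cons (fin 1166 4 909)
(mv 1103 (cons (cons (mv 1036 (cons (fin 1104 3 1036)
(mv 1035 (cons (fin 1100 3 1035)
(fin 1034 0 1034)))))
(mv 1036 (cons (fin 1104 3 1036)
(mv 1035 (cons (fin 1034 0 1034)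
(fin 1038 0 1035))))))
(cons (mv 1039 (cons (fin 1100 2 1036)
(mv 1104 (cons (mv 1038 (cons (fin 1105 3 1037)
(mv 976 (cons (fin 977 2 973)
(mv 912 (cons (fin 848 5 847)
(fin 1167 5 911)))))))
(mv 1168 (cons (fin 1169 0 1101)
(mv 975 (cons (fin 1232 7 975)
(fin 911 4 911)))))))))
(mv 1100 (cons (fin 1039 2 1036)
(mv 1035 (cons (fin 1036 3 1035)
(mv 1099 (cons (fin 1034 3 1034)
(mv 1098 (cons (fin 1038 2 1034)
(mv 1162 (cons (fin 1161 1 1097)
(fin 1163 1 1098)))))))))))))))))))))))))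
(cons (cons (mv 1038 (cons (mv 1039 (cons (fin 972 3 972)
(fin 1100 1 1036)))
(cons (mv 909 (cons (mv 844 (cons (fin 908 7 844)
(mv 845 (cons (fin 780 7 780)
(fin 1102 4 845)))))
(cons (mv 908 (cons (fin 844 7 844)
(mv 910 (cons (fin 846 6 845)
(mv 972 (cons (fin 1165 7 908)
(mv 911 (cons (fin 971 1 907)
(fin 912 1 908)))))))))
(mv 845 (cons (fin 1102 4 845)
(mv 846 (cons (fin 782 6 781)
(fin 910 6 845))))))))
(mv 1039 (cons (fin 1100 1 1036)
(mv 976 (cons (fin 977 2 973)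
(mv 975 (cons (fin 1036 2 972)
(mv 1104 (cons (fin 1105 0 1037)
(mv 911 (cons (fin 1168 7 911)
(fin 847 4 847))))))))))))))
(mv 909 (cons (cons (mv 846 (cons (fin 910 6 845)
(mv 845 (cons (fin 782 6 781)
(mv 1102 (cons (fin 1038 4 845)
(fin 1166 4 909)))))))
(mv 846 (cons (fin 910 6 845)
(mv 845 (cons (fin 782 6 781)
(mv 780 (cons (fin 844 7 780)
(mv 781 (cons (fin 716 7 716)
(mv 1036 (cons (fin 972 5 780)
(fin 1100 5 844))))))))))))
(cons (mv 1102 (cons (fin 1166 4 909)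
(mv 845 (cons (fin 1038 4 845)
(mv 780 (cons (fin 844 7 780)
(mv 781 (cons (fin 716 7 716)
(mv 1036 (cons (fin 972 5 780)
(fin 1100 5 844)))))))))))
(mv 846 (cons (fin 910 6 845)
(mv 1102 (cons (fin 1166 4 909)
(mv 1039 (cons (mv 1038 (cons (fin 972 3 972)
(fin 1100 1 1036)))
(cons (mv 1103 (cons (fin 1100 2 1036)
(mv 1104 (cons (fin 1036 3 1036)
(mv 1168 (cons (fin 1169 0 1101)
(mv 975 (cons (fin 1232 7 975)
(fin 911 4 911)))))))))
(mv 1038 (cons (fin 972 3 972)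
(mv 976 (cons (fin 977 2 973)
(mv 975 (cons (fin 1036 2 972)
(mv 847 (cons (fin 911 5 846)
(mv 1104 (cons (fin 1105 0 1037)
(mv 1168 (cons (fin 1232 7 975)
(mv 1169 (cons (fin 1103 0 1101)
(fin 1233 4 976))))))))))))))))))))))))))
(cons (mv 909 (cons (cons (mv 844 (cons (fin 908 7 844)
(mv 845 (cons (fin 780 7 780)
(mv 846 (cons (fin 782 6 781)
(fin 910 6 845)))))))
(mv 846 (cons (fin 910 6 845)
(mv 845 (cons (fin 782 6 781)
(mv 780 (cons (fin 844 7 780)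
(mv 781 (cons (fin 716 7 716)
(mv 1036 (cons (fin 972 5 780)
(fin 1100 5 844))))))))))))
(cons (mv 846 (cons (fin 910 6 845)
(mv 845 (cons (fin 782 6 781)
(mv 1036 (cons (fin 1100 5 844)
(mv 972 (cons (fin 781 5 780)
(mv 1165 (cons (fin 908 7 908)
(fin 1229 7 972)))))))))))
(cons (mv 908 (cons (fin 844 7 844)
(mv 972 (cons (fin 1165 7 908)
(mv 1038 (cons (fin 1039 3 972)
(mv 907 (cons (cons (mv 905 (cons (fin 906 0 905)
(mv 971 (cons (fin 970 0 970)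
(mv 910 (cons (fin 911 1 907)
(mv 843 (cons (fin 842 3 842)
(mv 779 (cons (fin 715 4 715)
(fin 1036 4 779)))))))))))
(mv 906 (cons (fin 905 0 905)
(mv 842 (cons (fin 841 3 841)
(mv 843 (cons (fin 910 3 842)
(mv 715 (cons (fin 779 4 715)
(mv 970 (cons (fin 969 1 905)
(mv 1034 (cons (fin 1098 6 842)
(mv 1033 (cons (fin 1097 5 841)
(mv 1035 (cons (fin 1036 2 969)
(fin 1099 4 842))))))))))))))))))
(cons (mv 906 (cons (fin 905 0 905)
(mv 842 (cons (fin 841 3 841)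
(mv 843 (cons (fin 910 3 842)
(mv 779 (cons (fin 715 4 715)
(mv 1036 (cons (fin 1100 7 843)
(fin 971 4 779)))))))))))
(cons (mv 971 (cons (fin 970 0 970)
(mv 910 (cons (fin 911 1 907)
(mv 843 (cons (fin 842 3 842)
(mv 779 (cons (fin 715 4 715)
(fin 1036 4 779)))))))))
(mv 906 (cons (fin 905 0 905)
(mv 970 (cons (fin 969 1 905)
(fin 971 0 970)))))))))))))))
(mv 844 (cons (fin 908 7 844)
(mv 845 (cons (fin 780 7 780)
(mv 782 (cons (fin 846 6 781)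
(mv 781 (cons (fin 718 6 717)
(mv 1036 (cons (fin 972 5 780)
(fin 1100 5 844)))))))))))))))
(mv 909 (cons (cons (mv 844 (cons (fin 908 7 844)
(mv 845 (cons (fin 780 7 780)
(mv 846 (cons (fin 782 6 781)
(fin 910 6 845)))))))
(mv 846 (cons (fin 910 6 845)
(mv 845 (cons (fin 782 6 781)
(mv 1102 (cons (fin 1038 4 845)
(fin 1166 4 909))))))))
(cons (mv 844 (cons (fin 908 7 844)
(mv 845 (cons (fin 780 7 780)
(mv 1102 (cons (fin 1038 4 845)
(fin 1166 4 909)))))))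
(mv 846 (cons (fin 910 6 845)
(mv 908 (cons (fin 844 7 844)
(mv 1165 (cons (fin 972 7 908)
(mv 1166 (cons (fin 1102 4 909)
(fin 1230 4 973))))))))))))))))
(mv 1100 (cons (cons (cons (mv 1038 (cons (fin 1039 1 1036)
(mv 1098 (cons (fin 1099 2 1034)
(mv 973 (cons (cons (mv 909 (cons (fin 1164 5 908)
(mv 845 (cons (fin 1036 5 844)
(fin 1102 4 845)))))
(mv 1165 (cons (cons (mv 908 (cons (fin 972 7 908)
(mv 1228 (cons (fin 1164 5 972)
(mv 1229 (cons (fin 1292 5 1036)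
(mv 1293 (cons (fin 1036 7 1036)
(fin 1102 6 1037)))))))))
(cons (mv 1228 (cons (fin 1164 5 972)
(mv 1229 (cons (fin 1292 5 1036)
(mv 1293 (cons (fin 1036 7 1036)
(fin 1102 6 1037)))))))
(mv 972 (cons (fin 908 7 908)
(mv 970 (cons (fin 971 0 970)
(mv 1229 (cons (fin 1036 7 972)
(mv 1230 (cons (fin 1294 4 1037)
(mv 1293 (cons (fin 1102 6 1037)
(mv 1356 (cons (fin 1292 5 1100)
(mv 1357 (cons (fin 1164 7 1100)
(fin 1420 5 1164)))))))))))))))))
(cons (cons (mv 972 (cons (fin 908 7 908)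
(mv 970 (cons (fin 971 0 970)
(mv 1229 (cons (fin 1036 7 972)
(mv 1228 (cons (fin 1292 5 1036)
(mv 1293 (cons (fin 1102 6 1037)
(mv 1294 (cons (fin 1230 4 1037)
(fin 1358 4 1101)))))))))))))
(mv 972 (cons (fin 908 7 908)
(mv 971 (cons (fin 970 0 970)
(mv 1164 (cons (fin 1228 5 972)
(mv 1036 (cons (fin 907 7 907)
(mv 1163 (cons (fin 1227 5 971)
(mv 1102 (cons (fin 1103 1 1099)
(fin 1162 2 1098))))))))))))))
(cons (mv 908 (cons (fin 972 7 908)
(mv 1228 (cons (fin 1164 5 972)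
(mv 1229 (cons (fin 1292 5 1036)
(mv 1293 (cons (fin 1102 6 1037)
(mv 1294 (cons (fin 1230 4 1037)
(fin 1358 4 1101)))))))))))
(mv 908 (cons (fin 972 7 908)
(mv 1228 (cons (fin 1164 5 972)
(mv 1229 (cons (fin 1292 5 1036)
(mv 1293 (cons (fin 1036 7 1036)
(mv 1294 (cons (fin 1230 4 1037)
(fin 1358 4 1101))))))))))))))))
(cons (mv 909 (cons (mv 845 (cons (fin 1036 5 844)
(fin 1102 4 845)))
(mv 908 (cons (fin 844 7 844)
(mv 910 (cons (fin 846 6 845)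
(mv 972 (cons (fin 1165 7 908)
(mv 911 (cons (fin 971 1 907)
(fin 912 1 908)))))))))))
(cons (mv 909 (cons (fin 1164 5 908)
(mv 844 (cons (fin 908 7 844)
(mv 845 (cons (fin 780 7 780)
(fin 1102 4 845)))))))
(mv 909 (cons (fin 1164 5 908)
(mv 844 (cons (fin 908 7 844)
(mv 845 (cons (fin 780 7 780)
(fin 1036 5 844)))))))))))))))
(cons (mv 1164 (cons (cons (mv 973 (cons (fin 909 5 908)
(mv 1228 (cons (fin 1165 5 972)
(fin 1036 6 972)))))
(mv 909 (cons (fin 973 5 908)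
(mv 1102 (cons (mv 1103 (cons (fin 1163 1 1099)
(fin 1039 2 1036)))
(cons (mv 1099 (cons (cons (mv 1034 (cons (fin 1035 3 1034)
(mv 1098 (cons (fin 1033 3 1033)
(mv 1097 (cons (fin 1036 2 1033)
(fin 1165 0 1097)))))))
(mv 1162 (cons (fin 1163 1 1098)
(mv 1098 (cons (fin 1161 1 1097)
(mv 1097 (cons (fin 1036 2 1033)
(fin 1165 0 1097))))))))
(cons (mv 1035 (cons (fin 1034 3 1034)
(mv 971 (cons (fin 907 4 907)
(mv 1163 (cons (fin 1162 1 1098)
(mv 906 (cons (fin 970 7 906)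
(mv 972 (cons (fin 908 6 907)
(mv 1227 (cons (fin 1036 5 971)
(mv 1290 (cons (fin 1226 5 1034)
(mv 1291 (cons (fin 1354 5 1098)
(fin 1355 6 1099)))))))))))))))))
(mv 1034 (cons (fin 1035 3 1034)
(mv 1098 (cons (fin 1033 3 1033)
(mv 1162 (cons (fin 1161 1 1097)
(fin 1163 1 1098))))))))))
(mv 1103 (cons (fin 1039 2 1036)
(mv 1036 (cons (fin 1035 3 1035)
(fin 1104 3 1036)))))))))))
(cons (mv 1228 (cons (fin 1292 6 1036)
(mv 1036 (cons (mv 971 (cons (fin 1035 7 971)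
(mv 972 (cons (fin 907 7 907)
(mv 908 (cons (fin 844 4 844)
(fin 1165 4 908)))))))
(cons (mv 1227 (cons (fin 1291 5 1035)
(mv 972 (cons (fin 1163 5 971)
(mv 908 (cons (fin 844 4 844)
(fin 1165 4 908)))))))
(mv 1035 (cons (fin 971 7 971)
(mv 1034 (cons (fin 1033 0 1033)
(fin 1102 0 1034))))))))))
(cons (mv 973 (cons (fin 909 5 908)
(mv 1228 (cons (fin 1165 5 972)
(fin 1292 6 1036)))))
(mv 973 (cons (fin 909 5 908)
(mv 1228 (cons (fin 1036 6 972)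
(fin 1292 6 1036)))))))))
(mv 1164 (cons (cons (mv 973 (cons (fin 909 5 908)
(mv 1228 (cons (fin 1165 5 972)
(fin 1036 6 972)))))
(mv 909 (cons (fin 973 5 908)
(mv 1163 (cons (cons (mv 1102 (cons (fin 1103 1 1099)
(mv 1162 (cons (fin 1099 1 1098)
(fin 1161 2 1097)))))
(mv 1102 (cons (fin 1103 1 1099)
(mv 1099 (cons (mv 1034 (cons (fin 1035 3 1034)
(mv 1098 (cons (fin 1033 3 1033)
(fin 1038 2 1034)))))
(cons (mv 1035 (cons (fin 1034 3 1034)
(mv 971 (cons (fin 907 4 907)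
(mv 906 (cons (fin 970 7 906)
(mv 972 (cons (fin 908 6 907)
(mv 1227 (cons (fin 1036 5 971)
(mv 1290 (cons (fin 1226 5 1034)
(mv 1291 (cons (fin 1354 5 1098)
(fin 1355 6 1099)))))))))))))))
(mv 1098 (cons (fin 1038 2 1034)
(mv 1097 (cons (fin 1036 2 1033)
(fin 1096 0 1096)))))))))))
(cons (mv 1162 (cons (fin 1161 2 1097)
(mv 1165 (cons (cons (mv 1097 (cons (fin 1098 3 1097)
(mv 1225 (cons (fin 1226 1 1161)
(mv 1229 (cons (fin 1230 0 1162)
(mv 1036 (cons (fin 972 7 972)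
(fin 1293 7 1036)))))))))
(mv 1098 (cons (fin 1097 3 1097)
(mv 1099 (cons (fin 1038 2 1034)
(mv 1033 (cons (fin 1034 3 1033)
(mv 1226 (cons (fin 1225 1 1161)
(mv 1035 (cons (fin 971 5 970)
(fin 1290 6 1034))))))))))))
(cons (mv 1225 (cons (fin 1226 1 1161)
(mv 1229 (cons (fin 1230 0 1162)
(mv 1036 (cons (fin 972 7 972)
(fin 1293 7 1036)))))))
(mv 1097 (cons (fin 1098 3 1097)
(mv 1229 (cons (fin 1230 0 1162)
(mv 1036 (cons (fin 972 7 972)
(fin 1293 7 1036))))))))))))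
(mv 1102 (cons (fin 1103 1 1099)
(mv 1162 (cons (fin 1161 2 1097)
(fin 1165 2 1098)))))))))))
(cons (mv 1228 (cons (fin 1292 6 1036)
(mv 1036 (cons (mv 971 (cons (fin 1035 7 971)
(mv 972 (cons (fin 907 7 907)
(mv 908 (cons (fin 844 4 844)
(fin 1165 4 908)))))))
(cons (mv 1227 (cons (fin 1291 5 1035)
(mv 972 (cons (fin 1163 5 971)
(mv 908 (cons (fin 844 4 844)
(fin 1165 4 908)))))))
(mv 1035 (cons (fin 971 7 971)
(mv 1034 (cons (fin 1033 0 1033)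
(fin 1102 0 1034))))))))))
(cons (mv 973 (cons (fin 909 5 908)
(mv 1228 (cons (fin 1165 5 972)
(fin 1292 6 1036)))))
(mv 973 (cons (fin 909 5 908)
(mv 1228 (cons (fin 1036 6 972)
(fin 1292 6 1036)))))))))))
(cons (mv 1038 (cons (fin 1039 1 1036)
(mv 1099 (cons (fin 1098 2 1034)
(mv 1035 (cons (cons (mv 1034 (cons (fin 1102 3 1034)
(mv 1033 (cons (fin 1032 0 1032)
(fin 1036 0 1033)))))
(mv 971 (cons (cons (mv 970 (cons (fin 1036 3 970)
(mv 906 (cons (fin 1163 7 906)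
(mv 842 (cons (fin 907 7 842)
(fin 778 4 778)))))))
(cons (mv 972 (cons (mv 908 (cons (fin 1163 6 907)
(mv 844 (cons (fin 780 5 779)
(fin 907 6 843)))))
(cons (mv 970 (cons (fin 973 0 970)
(mv 906 (cons (fin 1163 7 906)
(mv 842 (cons (fin 907 7 842)
(fin 778 4 778)))))))
(mv 973 (cons (fin 970 0 970)
(mv 908 (cons (fin 1165 7 908)
(mv 844 (cons (fin 909 7 844)
(fin 780 5 779))))))))))
(mv 907 (cons (cons (mv 842 (cons (fin 906 7 842)
(mv 843 (cons (fin 778 7 778)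
(fin 1036 4 843)))))
(mv 842 (cons (fin 906 7 842)
(mv 908 (cons (fin 844 6 843)
(mv 972 (cons (fin 1163 6 907)
(mv 1165 (cons (fin 973 7 908)
(fin 1036 4 908))))))))))
(cons (mv 842 (cons (fin 906 7 842)
(mv 843 (cons (fin 778 7 778)
(mv 844 (cons (fin 780 6 779)
(fin 908 6 843)))))))
(mv 843 (cons (fin 1036 4 843)
(mv 844 (cons (fin 780 6 779)
(fin 908 6 843))))))))))
(cons (mv 1036 (cons (fin 970 3 970)
(mv 907 (cons (fin 843 4 843)
(mv 842 (cons (fin 906 7 842)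
(mv 908 (cons (fin 844 6 843)
(mv 972 (cons (fin 1165 4 908)
(mv 909 (cons (fin 845 6 844)
(mv 910 (cons (fin 911 1 907)
(mv 846 (cons (fin 847 2 843)
(fin 973 6 845)))))))))))))))))
(cons (mv 970 (cons (fin 1036 3 970)
(mv 906 (cons (fin 1163 7 906)
(mv 842 (cons (fin 778 4 778)
(fin 1034 4 842)))))))
(mv 970 (cons (fin 1036 3 970)
(mv 972 (cons (fin 973 0 970)
(mv 908 (cons (fin 1163 6 907)
(mv 844 (cons (fin 780 5 779)
(fin 907 6 843))))))))))))))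
(cons (mv 1163 (cons (cons (mv 1102 (cons (fin 1162 1 1098)
(mv 1036 (cons (fin 1103 3 1035)
(mv 972 (cons (fin 908 5 907)
(fin 1227 6 971)))))))
(mv 1036 (cons (mv 972 (cons (fin 908 5 907)
(fin 1227 6 971)))
(cons (mv 971 (cons (fin 970 3 970)
(mv 843 (cons (fin 907 4 843)
(mv 1226 (cons (fin 1162 5 970)
(mv 1227 (cons (fin 1290 5 1034)
(fin 1291 6 1035)))))))))
(mv 908 (cons (fin 972 5 907)
(mv 971 (cons (fin 970 3 970)
(mv 907 (cons (fin 844 6 843)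
(fin 843 4 843)))))))))))
(cons (mv 1227 (cons (mv 1036 (cons (fin 972 6 971)
(fin 1291 6 1035)))
(cons (mv 1290 (cons (fin 1226 5 1034)
(mv 1291 (cons (fin 1354 5 1098)
(mv 1292 (cons (fin 1228 4 1035)
(fin 1356 4 1099)))))))
(mv 972 (cons (fin 1036 6 971)
(mv 908 (cons (fin 971 6 907)
(mv 973 (cons (fin 1165 7 908)
(mv 844 (cons (fin 909 7 844)
(fin 780 4 780))))))))))))
(cons (mv 1162 (cons (fin 1102 1 1098)
(mv 971 (cons (fin 1226 5 970)
(mv 906 (cons (fin 970 7 906)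
(mv 907 (cons (fin 842 7 842)
(mv 908 (cons (fin 844 6 843)
(fin 972 6 907)))))))))))
(mv 1102 (cons (fin 1162 1 1098)
(mv 1103 (cons (fin 1036 3 1035)
(mv 1104 (cons (fin 1105 3 1037)
(mv 1168 (cons (fin 1167 0 1100)
(fin 1169 0 1101)))))))))))))
(mv 1163 (cons (cons (mv 1102 (cons (fin 1034 3 1034)
(fin 1162 1 1098)))
(mv 1227 (cons (cons (mv 970 (cons (fin 1034 7 970)
(mv 906 (cons (fin 971 7 906)
(mv 1290 (cons (fin 1226 5 1034)
(mv 1291 (cons (fin 1354 5 1098)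
(mv 1292 (cons (fin 1228 4 1035)
(fin 1356 4 1099)))))))))))
(mv 970 (cons (fin 1034 7 970)
(mv 971 (cons (fin 906 7 906)
(mv 972 (cons (fin 973 0 970)
(fin 908 6 907))))))))
(cons (mv 1226 (cons (fin 1290 5 1034)
(mv 1162 (cons (fin 971 5 970)
(mv 1161 (cons (fin 1160 2 1096)
(mv 1228 (cons (fin 1229 3 1161)
(fin 1292 4 1035)))))))))
(mv 970 (cons (fin 1034 7 970)
(mv 1290 (cons (fin 1226 5 1034)
(mv 1291 (cons (fin 1354 5 1098)
(mv 1292 (cons (fin 1228 4 1035)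
(fin 1356 4 1099)))))))))))))
(cons (mv 1034 (cons (fin 1102 3 1034)
(mv 970 (cons (fin 1227 7 970)
(mv 906 (cons (fin 971 7 906)
(fin 842 4 842)))))))
(mv 1162 (cons (fin 1102 1 1098)
(mv 971 (cons (fin 1226 5 970)
(mv 906 (cons (fin 970 7 906)
(mv 907 (cons (fin 842 7 842)
(mv 908 (cons (fin 844 6 843)
(fin 972 6 907)))))))))))))))))))))
(cons (mv 1038 (cons (fin 1039 1 1036)
(mv 1098 (cons (fin 1099 2 1034)
(mv 973 (cons (cons (mv 909 (cons (fin 1164 5 908)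
(mv 844 (cons (fin 908 7 844)
(mv 845 (cons (fin 780 7 780)
(fin 1036 5 844)))))))
(mv 1165 (cons (cons (mv 908 (cons (fin 972 7 908)
(mv 1228 (cons (fin 1164 5 972)
(mv 1229 (cons (fin 1292 5 1036)
(mv 1293 (cons (fin 1036 7 1036)
(mv 1294 (cons (fin 1230 4 1037)
(fin 1358 4 1101)))))))))))
(cons (mv 1228 (cons (fin 1164 5 972)
(mv 1229 (cons (fin 1292 5 1036)
(mv 1293 (cons (fin 1036 7 1036)
(mv 1294 (cons (fin 1230 4 1037)
(fin 1358 4 1101)))))))))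
(mv 972 (cons (fin 908 7 908)
(mv 970 (cons (fin 971 0 970)
(mv 1229 (cons (fin 1036 7 972)
(mv 1294 (cons (fin 1230 4 1037)
(mv 1293 (cons (fin 1358 4 1101)
(mv 1356 (cons (fin 1292 5 1100)
(mv 1357 (cons (fin 1164 7 1100)
(fin 1420 5 1164)))))))))))))))))
(cons (mv 972 (cons (fin 908 7 908)
(mv 970 (cons (fin 971 0 970)
(mv 1229 (cons (fin 1036 7 972)
(mv 1292 (cons (fin 1228 5 1036)
(mv 1293 (cons (fin 1356 5 1100)
(mv 1294 (cons (fin 1230 4 1037)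
(fin 1358 4 1101)))))))))))))
(cons (mv 908 (cons (fin 972 7 908)
(mv 1229 (cons (cons (mv 1228 (cons (fin 1164 5 972)
(fin 1292 5 1036)))
(mv 1294 (cons (fin 1230 4 1037)
(mv 1293 (cons (fin 1358 4 1101)
(mv 1356 (cons (fin 1292 5 1100)
(mv 1357 (cons (fin 1164 7 1100)
(fin 1420 5 1164))))))))))
(cons (mv 1292 (cons (fin 1228 5 1036)
(mv 1293 (cons (fin 1356 5 1100)
(mv 1294 (cons (fin 1230 4 1037)
(fin 1358 4 1101)))))))
(mv 1164 (cons (fin 1228 5 972)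
(mv 1293 (cons (fin 1357 7 1100)
(mv 1294 (cons (fin 1230 4 1037)
(fin 1358 4 1101))))))))))))
(mv 972 (cons (fin 908 7 908)
(mv 971 (cons (fin 970 0 970)
(mv 1164 (cons (fin 1228 5 972)
(mv 1036 (cons (fin 907 7 907)
(mv 1163 (cons (fin 1227 5 971)
(mv 1162 (cons (fin 1097 3 1097)
(fin 1161 2 1097))))))))))))))))))
(cons (mv 909 (cons (mv 844 (cons (fin 908 7 844)
(mv 845 (cons (fin 780 7 780)
(fin 1036 5 844)))))
(cons (mv 908 (cons (fin 844 7 844)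
(mv 910 (cons (fin 846 6 845)
(mv 972 (cons (fin 1165 7 908)
(mv 911 (cons (fin 971 1 907)
(fin 912 1 908)))))))))
(mv 845 (cons (fin 1036 5 844)
(mv 846 (cons (fin 782 6 781)
(fin 910 6 845))))))))
(cons (mv 909 (cons (fin 1164 5 908)
(mv 844 (cons (fin 908 7 844)
(mv 845 (cons (fin 780 7 780)
(mv 846 (cons (fin 782 6 781)
(fin 910 6 845)))))))))
(mv 909 (cons (fin 1164 5 908)
(mv 845 (cons (fin 1036 5 844)
(mv 846 (cons (fin 782 6 781)
(fin 910 6 845)))))))))))))))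
(mv 1038 (cons (fin 1039 1 1036)
(mv 973 (cons (cons (mv 909 (cons (fin 1164 5 908)
(mv 845 (cons (fin 1036 5 844)
(fin 1102 4 845)))))
(mv 1165 (cons (cons (mv 908 (cons (fin 972 7 908)
(mv 1228 (cons (fin 1164 5 972)
(mv 1229 (cons (fin 1292 5 1036)
(mv 1293 (cons (fin 1036 7 1036)
(fin 1102 6 1037)))))))))
(cons (mv 1228 (cons (fin 1164 5 972)
(mv 1229 (cons (fin 1292 5 1036)
(mv 1293 (cons (fin 1036 7 1036)
(fin 1102 6 1037)))))))
(mv 972 (cons (fin 908 7 908)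
(mv 970 (cons (fin 971 0 970)
(mv 1229 (cons (fin 1036 7 972)
(mv 1230 (cons (fin 1294 4 1037)
(mv 1293 (cons (fin 1102 6 1037)
(mv 1356 (cons (fin 1292 5 1100)
(mv 1357 (cons (fin 1164 7 1100)
(fin 1420 5 1164)))))))))))))))))
(cons (cons (mv 972 (cons (fin 908 7 908)
(mv 970 (cons (fin 971 0 970)
(mv 1229 (cons (fin 1036 7 972)
(mv 1228 (cons (fin 1292 5 1036)
(mv 1293 (cons (fin 1102 6 1037)
(mv 1294 (cons (fin 1230 4 1037)
(fin 1358 4 1101)))))))))))))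
(mv 972 (cons (fin 908 7 908)
(mv 971 (cons (fin 970 0 970)
(mv 1164 (cons (fin 1228 5 972)
(mv 1036 (cons (fin 907 7 907)
(mv 1163 (cons (fin 1227 5 971)
(mv 1102 (cons (fin 1103 1 1099)
(fin 1162 2 1098))))))))))))))
(cons (mv 908 (cons (fin 972 7 908)
(mv 1228 (cons (fin 1164 5 972)
(mv 1229 (cons (fin 1292 5 1036)
(mv 1293 (cons (fin 1102 6 1037)
(mv 1294 (cons (fin 1230 4 1037)
(fin 1358 4 1101)))))))))))
(mv 908 (cons (fin 972 7 908)
(mv 1228 (cons (fin 1164 5 972)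
(mv 1229 (cons (fin 1292 5 1036)
(mv 1293 (cons (fin 1036 7 1036)
(mv 1294 (cons (fin 1230 4 1037)
(fin 1358 4 1101))))))))))))))))
(cons (mv 909 (cons (mv 845 (cons (fin 1036 5 844)
(fin 1102 4 845)))
(mv 908 (cons (fin 844 7 844)
(mv 910 (cons (fin 846 6 845)
(mv 972 (cons (fin 1165 7 908)
(mv 911 (cons (fin 971 1 907)
(fin 912 1 908)))))))))))
(cons (mv 909 (cons (fin 1164 5 908)
(mv 844 (cons (fin 908 7 844)
(mv 845 (cons (fin 780 7 780)
(fin 1102 4 845)))))))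
(mv 909 (cons (fin 1164 5 908)
(mv 844 (cons (fin 908 7 844)
(mv 845 (cons (fin 780 7 780)
(fin 1036 5 844))))))))))))))))
(cons (cons (mv 1038 (cons (fin 1039 1 1036)
(mv 1099 (cons (fin 1098 2 1034)
(mv 1102 (cons (cons (mv 1034 (cons (fin 1035 3 1034)
(mv 1163 (cons (fin 1162 1 1098)
(mv 1103 (cons (fin 1164 1 1099)
(mv 1104 (cons (fin 1036 3 1036)
(fin 1105 3 1037)))))))))
(cons (mv 1163 (cons (fin 1162 1 1098)
(mv 1103 (cons (fin 1164 1 1099)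
(mv 1104 (cons (fin 1036 3 1036)
(fin 1105 3 1037)))))))
(mv 1035 (cons (fin 1034 3 1034)
(mv 1036 (cons (fin 1103 3 1035)
(mv 971 (cons (fin 970 3 970)
(mv 907 (cons (fin 843 4 843)
(fin 1164 4 907)))))))))))
(cons (mv 1035 (cons (fin 1034 3 1034)
(mv 1163 (cons (fin 1162 1 1098)
(mv 971 (cons (mv 970 (cons (fin 1036 3 970)
(fin 906 7 906)))
(mv 1164 (cons (fin 907 4 907)
(fin 1228 4 971)))))))))
(cons (mv 1034 (cons (fin 1035 3 1034)
(mv 1163 (cons (fin 1162 1 1098)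
(mv 1103 (cons (fin 1164 1 1099)
(mv 1104 (cons (fin 1105 3 1037)
(mv 1168 (cons (fin 1167 0 1100)
(fin 1169 0 1101)))))))))))
(mv 1035 (cons (fin 1034 3 1034)
(mv 1036 (cons (fin 1103 3 1035)
(mv 970 (cons (fin 971 3 970)
(mv 1163 (cons (fin 1162 1 1098)
(mv 972 (cons (fin 908 5 907)
(fin 1227 6 971)))))))))))))))))))
(cons (mv 1038 (cons (fin 1039 1 1036)
(mv 1099 (cons (fin 1098 2 1034)
(mv 1102 (cons (cons (mv 1034 (cons (fin 1035 3 1034)
(mv 1163 (cons (fin 1162 1 1098)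
(mv 1103 (cons (fin 1164 1 1099)
(mv 1104 (cons (fin 1036 3 1036)
(fin 1105 3 1037)))))))))
(cons (mv 1163 (cons (fin 1162 1 1098)
(mv 1103 (cons (fin 1164 1 1099)
(mv 1104 (cons (fin 1036 3 1036)
(fin 1105 3 1037)))))))
(mv 1035 (cons (fin 1034 3 1034)
(mv 1036 (cons (fin 1103 3 1035)
(mv 971 (cons (fin 970 3 970)
(mv 907 (cons (fin 843 4 843)
(fin 1164 4 907)))))))))))
(cons (mv 1035 (cons (fin 1034 3 1034)
(mv 1162 (cons (fin 1163 1 1098)
(mv 973 (cons (mv 909 (cons (fin 1164 5 908)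
(fin 845 4 845)))
(cons (mv 971 (cons (mv 970 (cons (fin 1036 3 970)
(fin 972 0 970)))
(cons (mv 907 (cons (fin 1164 4 907)
(mv 842 (cons (fin 906 7 842)
(mv 843 (cons (fin 778 7 778)
(fin 1036 4 843)))))))
(mv 907 (cons (fin 1164 4 907)
(mv 842 (cons (fin 906 7 842)
(mv 778 (cons (fin 843 7 778)
(mv 908 (cons (fin 844 6 843)
(mv 972 (cons (fin 970 0 970)
(fin 1165 7 908))))))))))))))
(mv 909 (cons (fin 845 4 845)
(mv 908 (cons (fin 844 7 844)
(mv 910 (cons (fin 846 6 845)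
(mv 972 (cons (fin 1165 7 908)
(mv 911 (cons (fin 971 1 907)
(fin 912 1 908))))))))))))))))))
(cons (mv 1034 (cons (fin 1035 3 1034)
(mv 1163 (cons (fin 1162 1 1098)
(mv 1103 (cons (fin 1164 1 1099)
(mv 1104 (cons (fin 1105 3 1037)
(mv 1168 (cons (fin 1167 0 1100)
(fin 1169 0 1101)))))))))))
(mv 1035 (cons (fin 1034 3 1034)
(mv 1036 (cons (fin 1103 3 1035)
(mv 970 (cons (fin 971 3 970)
(mv 1163 (cons (fin 1162 1 1098)
(mv 972 (cons (fin 908 5 907)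
(fin 1227 6 971)))))))))))))))))))
(mv 1038 (cons (fin 1039 1 1036)
(mv 1099 (cons (fin 1098 2 1034)
(mv 1164 (cons (mv 973 (cons (fin 909 5 908)
(mv 1228 (cons (fin 1165 5 972)
(fin 1292 6 1036)))))
(cons (mv 973 (cons (fin 909 5 908)
(mv 1102 (cons (mv 1163 (cons (fin 1162 1 1098)
(fin 1103 1 1099)))
(cons (mv 1035 (cons (fin 1034 3 1034)
(mv 971 (cons (fin 907 4 907)
(mv 972 (cons (fin 970 0 970)
(mv 1165 (cons (fin 908 7 908)
(mv 1103 (cons (fin 1104 1 1100)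
(mv 1167 (cons (fin 1168 0 1100)
(mv 1229 (cons (fin 1293 6 1037)
(mv 1230 (cons (fin 1294 4 1037)
(mv 1231 (cons (fin 1232 3 1164)
(fin 1295 7 1038)))))))))))))))))))
(mv 1035 (cons (fin 1034 3 1034)
(mv 971 (cons (fin 907 4 907)
(mv 970 (cons (fin 972 0 970)
(mv 1163 (cons (fin 1162 1 1098)
(fin 906 7 906))))))))))))))
(mv 1163 (cons (mv 1102 (cons (fin 1162 1 1098)
(fin 1103 1 1099)))
(cons (mv 1102 (cons (fin 1103 1 1099)
(mv 1035 (cons (fin 1034 3 1034)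
(mv 971 (cons (fin 907 4 907)
(fin 1228 4 971)))))))
(mv 1161 (cons (fin 1162 2 1097)
(mv 1227 (cons (cons (mv 1228 (cons (fin 1292 6 1036)
(mv 971 (cons (fin 1035 4 971)
(mv 1291 (cons (fin 1355 6 1099)
(mv 1290 (cons (fin 1354 5 1098)
(mv 1229 (cons (fin 1230 1 1226)
(mv 1289 (cons (fin 1226 1 1225)
(fin 1288 2 1224)))))))))))))
(mv 1291 (cons (fin 1355 6 1099)
(mv 1290 (cons (fin 1354 5 1098)
(mv 1035 (cons (fin 1226 5 1034)
(mv 970 (cons (fin 1034 7 970)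
(mv 971 (cons (fin 906 7 906)
(fin 907 4 907))))))))))))
(cons (mv 1228 (cons (fin 1292 6 1036)
(mv 1035 (cons (fin 971 4 971)
(mv 970 (cons (fin 1034 7 970)
(mv 1226 (cons (fin 1290 5 1034)
(mv 1225 (cons (fin 1160 3 1160)
(fin 1224 2 1160)))))))))))
(cons (mv 1228 (cons (fin 1292 6 1036)
(mv 1291 (cons (fin 1355 6 1099)
(mv 1290 (cons (fin 1354 5 1098)
(mv 1229 (cons (fin 1230 1 1226)
(mv 1289 (cons (fin 1226 1 1225)
(fin 1288 2 1224)))))))))))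
(mv 1291 (cons (fin 1355 6 1099)
(mv 1292 (cons (fin 1228 6 1036)
(fin 1356 4 1099)))))))))))))))))))))))
(cons (mv 1038 (cons (fin 1039 1 1036)
(mv 1099 (cons (fin 1098 2 1034)
(mv 1102 (cons (cons (mv 1034 (cons (fin 1035 3 1034)
(mv 1163 (cons (fin 1162 1 1098)
(mv 1103 (cons (fin 1164 1 1099)
(mv 1104 (cons (fin 1036 3 1036)
(fin 1105 3 1037)))))))))
(cons (mv 1163 (cons (fin 1162 1 1098)
(mv 1103 (cons (fin 1164 1 1099)
(mv 1104 (cons (fin 1036 3 1036)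
(fin 1105 3 1037)))))))
(mv 1035 (cons (fin 1034 3 1034)
(mv 1036 (cons (fin 1103 3 1035)
(mv 971 (cons (fin 970 3 970)
(mv 907 (cons (fin 843 4 843)
(fin 1164 4 907)))))))))))
(cons (mv 1035 (cons (fin 1034 3 1034)
(mv 1163 (cons (fin 1162 1 1098)
(mv 1164 (cons (mv 971 (cons (fin 907 4 907)
(fin 1228 4 971)))
(cons (mv 909 (cons (fin 973 5 908)
(mv 971 (cons (fin 907 4 907)
(mv 970 (cons (fin 1036 3 970)
(fin 906 7 906)))))))
(mv 973 (cons (fin 909 5 908)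
(mv 1228 (cons (fin 1292 7 1035)
(fin 1165 5 972))))))))))))
(cons (mv 1034 (cons (fin 1035 3 1034)
(mv 1163 (cons (fin 1162 1 1098)
(mv 1103 (cons (fin 1164 1 1099)
(mv 1104 (cons (fin 1105 3 1037)
(mv 1168 (cons (fin 1167 0 1100)
(fin 1169 0 1101)))))))))))
(mv 1035 (cons (fin 1034 3 1034)
(mv 1103 (cons (fin 1036 3 1035)
(mv 1104 (cons (fin 1105 3 1037)
(mv 1168 (cons (fin 1167 0 1100)
(fin 1169 0 1101)))))))))))))))))
(cons (mv 1038 (cons (fin 1039 1 1036)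
(mv 1099 (cons (fin 1098 2 1034)
(mv 1164 (cons (cons (mv 973 (cons (fin 909 5 908)
(mv 1228 (cons (fin 1165 5 972)
(fin 1036 6 972)))))
(mv 973 (cons (fin 909 5 908)
(mv 972 (cons (mv 908 (cons (fin 1165 7 908)
(mv 844 (cons (fin 780 4 780)
(fin 1036 4 844)))))
(cons (mv 971 (cons (fin 970 0 970)
(mv 907 (cons (fin 1036 7 907)
(fin 1035 4 907)))))
(mv 971 (cons (fin 970 0 970)
(mv 1035 (cons (fin 907 4 907)
(mv 1102 (cons (fin 1034 3 1034)
(mv 1165 (cons (fin 908 7 908)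
(mv 1103 (cons (fin 1104 1 1100)
(mv 1167 (cons (fin 1168 0 1100)
(mv 1229 (cons (fin 1293 6 1037)
(mv 1230 (cons (fin 1294 4 1037)
(mv 1231 (cons (fin 1232 3 1164)
(fin 1295 7 1038)))))))))))))))))))))))))
(cons (mv 1228 (cons (fin 1292 6 1036)
(mv 1036 (cons (cons (mv 971 (cons (fin 1035 7 971)
(mv 972 (cons (fin 907 7 907)
(mv 908 (cons (fin 844 4 844)
(fin 1165 4 908)))))))
(mv 1227 (cons (fin 1291 5 1035)
(mv 1229 (cons (fin 1293 4 1036)
(mv 972 (cons (fin 1165 7 972)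
(mv 907 (cons (fin 971 7 907)
(mv 908 (cons (fin 843 7 843)
(fin 844 4 844))))))))))))
(cons (mv 1227 (cons (fin 1291 5 1035)
(mv 1229 (cons (fin 1293 4 1036)
(mv 1165 (cons (fin 972 7 972)
(mv 1225 (cons (fin 1226 2 1161)
(mv 1230 (cons (fin 1294 4 1037)
(mv 1231 (cons (fin 1232 3 1164)
(mv 1167 (cons (fin 1168 2 1164)
(mv 1295 (cons (fin 1296 0 1228)
(mv 1103 (cons (fin 1102 7 1038)
(fin 1104 6 1039)))))))))))))))))))
(mv 1035 (cons (fin 971 7 971)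
(mv 1034 (cons (fin 1102 3 1034)
(fin 1033 0 1033))))))))))
(cons (mv 973 (cons (fin 909 5 908)
(mv 1228 (cons (fin 1165 5 972)
(fin 1292 6 1036)))))
(mv 973 (cons (fin 909 5 908)
(mv 1228 (cons (fin 1036 6 972)
(fin 1292 6 1036)))))))))))))
(mv 1038 (cons (fin 1039 1 1036)
(mv 1099 (cons (fin 1098 2 1034)
(mv 1102 (cons (cons (mv 1034 (cons (fin 1035 3 1034)
(mv 1163 (cons (fin 1162 1 1098)
(mv 1103 (cons (fin 1164 1 1099)
(mv 1104 (cons (fin 1036 3 1036)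
(fin 1105 3 1037)))))))))
(mv 1163 (cons (fin 1162 1 1098)
(mv 1103 (cons (fin 1164 1 1099)
(mv 1104 (cons (fin 1036 3 1036)
(fin 1105 3 1037))))))))
(cons (mv 1035 (cons (fin 1034 3 1034)
(mv 1103 (cons (fin 1036 3 1035)
(mv 1104 (cons (fin 1105 3 1037)
(mv 1168 (cons (fin 1167 0 1100)
(fin 1169 0 1101)))))))))
(cons (mv 1035 (cons (fin 1034 3 1034)
(mv 1163 (cons (fin 1162 1 1098)
(mv 1227 (cons (mv 1036 (cons (fin 972 6 971)
(fin 1291 6 1035)))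
(cons (mv 1228 (cons (fin 1292 4 1035)
(mv 1290 (cons (fin 1226 5 1034)
(mv 1291 (cons (fin 1354 5 1098)
(mv 1164 (cons (fin 1355 6 1099)
(mv 973 (cons (fin 909 5 908)
(fin 1165 5 972)))))))))))
(mv 1036 (cons (fin 972 6 971)
(mv 1226 (cons (fin 1290 5 1034)
(mv 1228 (cons (fin 1292 4 1035)
(mv 1164 (cons (fin 973 6 972)
(mv 1225 (cons (fin 1224 2 1160)
(fin 1165 2 1161))))))))))))))))))
(mv 1034 (cons (fin 1035 3 1034)
(mv 1163 (cons (fin 1162 1 1098)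
(mv 1103 (cons (fin 1164 1 1099)
(mv 1104 (cons (fin 1105 3 1037)
(mv 1168 (cons (fin 1167 0 1100)
(fin 1169 0 1101)))))))))))))))))))))))))
(cons (mv 1100 (cons (cons (cons (mv 1038 (cons (fin 1039 1 1036)
(mv 1098 (cons (fin 1099 2 1034)
(mv 1164 (cons (cons (mv 973 (cons (fin 909 5 908)
(mv 1228 (cons (fin 1165 5 972)
(fin 1036 6 972)))))
(mv 1228 (cons (fin 1292 6 1036)
(mv 1036 (cons (mv 971 (cons (fin 1035 7 971)
(mv 972 (cons (fin 907 7 907)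
(mv 908 (cons (fin 844 4 844)
(fin 1165 4 908)))))))
(cons (mv 1227 (cons (fin 1291 5 1035)
(mv 972 (cons (fin 1163 5 971)
(mv 908 (cons (fin 844 4 844)
(fin 1165 4 908)))))))
(mv 1035 (cons (fin 971 7 971)
(mv 1034 (cons (fin 1097 1 1033)
(fin 1033 0 1033)))))))))))
(cons (mv 973 (cons (fin 909 5 908)
(mv 1165 (cons (cons (mv 908 (cons (fin 972 7 908)
(mv 1166 (cons (fin 1230 4 973)
(mv 1167 (cons (fin 1168 3 1100)
(mv 1103 (cons (fin 1104 2 1100)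
(mv 1102 (cons (fin 1163 1 1099)
(mv 1231 (cons (fin 1232 0 1164)
(fin 1295 7 1038)))))))))))))
(mv 972 (cons (fin 908 7 908)
(mv 971 (cons (fin 970 0 970)
(mv 1036 (cons (fin 907 7 907)
(mv 1163 (cons (fin 1227 5 971)
(mv 1102 (cons (fin 1103 1 1099)
(fin 1162 2 1098))))))))))))
(cons (mv 1166 (cons (fin 1230 4 973)
(mv 1167 (cons (fin 1168 3 1100)
(mv 1103 (cons (fin 1104 2 1100)
(mv 1102 (cons (fin 1163 1 1099)
(mv 1231 (cons (fin 1232 0 1164)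
(fin 1295 7 1038)))))))))))
(cons (mv 972 (cons (fin 908 7 908)
(mv 971 (cons (fin 970 0 970)
(mv 1036 (cons (fin 907 7 907)
(mv 1163 (cons (fin 1227 5 971)
(mv 1162 (cons (fin 1097 3 1097)
(fin 1161 2 1097)))))))))))
(mv 908 (cons (fin 972 7 908)
(mv 1166 (cons (fin 1230 4 973)
(mv 1167 (cons (fin 1168 3 1100)
(mv 1103 (cons (fin 1104 2 1100)
(mv 1231 (cons (fin 1232 0 1164)
(mv 1295 (cons (fin 1102 7 1038)
(mv 1358 (cons (fin 1294 5 1102)
(mv 1359 (cons (fin 1422 5 1166)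
(mv 1360 (cons (fin 1296 4 1103)
(fin 1424 4 1167)))))))))))))))))))))))))
(cons (mv 973 (cons (fin 909 5 908)
(mv 1228 (cons (fin 1165 5 972)
(fin 1292 6 1036)))))
(mv 973 (cons (fin 909 5 908)
(mv 1228 (cons (fin 1036 6 972)
(fin 1292 6 1036)))))))))))))
(mv 1102 (cons (mv 1103 (cons (fin 1039 2 1036)
(mv 1036 (cons (fin 1035 3 1035)
(fin 1104 3 1036)))))
(cons (mv 1099 (cons (cons (mv 1034 (cons (fin 1035 3 1034)
(mv 1033 (cons (fin 1098 3 1033)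
(mv 1162 (cons (fin 1163 1 1098)
(mv 1166 (cons (fin 1167 0 1099)
(mv 973 (cons (fin 909 4 909)
(mv 1230 (cons (fin 1294 7 1037)
(fin 1165 4 973)))))))))))))
(mv 1034 (cons (fin 1035 3 1034)
(mv 1098 (cons (fin 1033 3 1033)
(mv 1162 (cons (fin 1161 1 1097)
(fin 1163 1 1098))))))))
(cons (mv 1162 (cons (fin 1163 1 1098)
(mv 1098 (cons (fin 1161 1 1097)
(mv 1166 (cons (fin 1165 0 1098)
(fin 1167 0 1099)))))))
(cons (mv 1034 (cons (fin 1035 3 1034)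
(mv 1033 (cons (fin 1098 3 1033)
(mv 1166 (cons (fin 1167 0 1099)
(mv 973 (cons (fin 909 4 909)
(mv 1230 (cons (fin 1294 7 1037)
(fin 1165 4 973)))))))))))
(mv 1034 (cons (fin 1035 3 1034)
(mv 1162 (cons (fin 1163 1 1098)
(mv 1166 (cons (fin 1167 0 1099)
(mv 973 (cons (fin 909 4 909)
(mv 1230 (cons (fin 1294 7 1037)
(fin 1165 4 973)))))))))))))))
(mv 1103 (cons (fin 1039 2 1036)
(mv 1036 (cons (fin 1104 3 1036)
(mv 1163 (cons (fin 1164 1 1099)
(mv 1099 (cons (fin 1162 1 1098)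
(mv 1167 (cons (fin 1166 0 1099)
(fin 1168 0 1100)))))))))))))))
(cons (mv 1099 (cons (cons (mv 1098 (cons (fin 1038 2 1034)
(mv 1033 (cons (fin 1034 3 1033)
(mv 1097 (cons (fin 1032 3 1032)
(fin 1036 2 1033)))))))
(mv 1102 (cons (cons (mv 1034 (cons (fin 1035 3 1034)
(mv 1162 (cons (fin 1163 1 1098)
(mv 1166 (cons (fin 1167 0 1099)
(mv 973 (cons (fin 909 4 909)
(mv 1230 (cons (fin 1038 7 973)
(fin 1294 7 1037)))))))))))
(mv 1162 (cons (fin 1163 1 1098)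
(mv 1166 (cons (fin 1167 0 1099)
(mv 973 (cons (fin 909 4 909)
(mv 1230 (cons (fin 1038 7 973)
(fin 1294 7 1037))))))))))
(cons (mv 1034 (cons (fin 1035 3 1034)
(mv 1163 (cons (fin 1162 1 1098)
(mv 1103 (cons (fin 1164 1 1099)
(mv 1104 (cons (fin 1036 3 1036)
(mv 1168 (cons (fin 1167 0 1100)
(fin 1169 0 1101)))))))))))
(cons (mv 1034 (cons (fin 1035 3 1034)
(mv 1166 (cons (fin 1167 0 1099)
(mv 973 (cons (fin 909 4 909)
(mv 1230 (cons (fin 1038 7 973)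
(fin 1294 7 1037)))))))))
(mv 1034 (cons (fin 1035 3 1034)
(mv 1163 (cons (fin 1162 1 1098)
(mv 1103 (cons (fin 1164 1 1099)
(mv 1104 (cons (fin 1036 3 1036)
(mv 1105 (cons (fin 1038 3 1037)
(mv 1169 (cons (fin 1168 0 1101)
(fin 1170 0 1102))))))))))))))))))
(cons (mv 1098 (cons (mv 1033 (cons (fin 1034 3 1033)
(mv 1097 (cons (fin 1032 3 1032)
(fin 1036 2 1033)))))
(cons (mv 1033 (cons (fin 1034 3 1033)
(mv 1162 (cons (fin 1161 1 1097)
(mv 1102 (cons (fin 1163 1 1098)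
(mv 1166 (cons (fin 1165 0 1098)
(fin 1167 0 1099)))))))))
(mv 1036 (cons (fin 1097 2 1033)
(mv 1161 (cons (fin 1162 1 1097)
(mv 1166 (cons (fin 1165 0 1098)
(mv 1102 (cons (fin 1167 0 1099)
(mv 1103 (cons (fin 1035 3 1035)
(fin 1104 3 1036))))))))))))))
(cons (mv 1098 (cons (fin 1038 2 1034)
(mv 1036 (cons (fin 1097 2 1033)
(mv 1161 (cons (fin 1162 1 1097)
(mv 1166 (cons (fin 1165 0 1098)
(mv 1102 (cons (fin 1167 0 1099)
(mv 1103 (cons (fin 1035 3 1035)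
(fin 1104 3 1036)))))))))))))
(mv 1098 (cons (fin 1038 2 1034)
(mv 1033 (cons (fin 1034 3 1033)
(mv 1032 (cons (fin 1097 3 1032)
(mv 1162 (cons (fin 1161 1 1097)
(mv 1102 (cons (fin 1163 1 1098)
(mv 1166 (cons (fin 1165 0 1098)
(fin 1167 0 1099)))))))))))))))))
(cons (mv 1038 (cons (fin 1039 1 1036)
(mv 1099 (cons (fin 1098 2 1034)
(mv 1102 (cons (cons (mv 1034 (cons (fin 1035 3 1034)
(mv 1162 (cons (fin 1163 1 1098)
(mv 1166 (cons (fin 1167 0 1099)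
(mv 973 (cons (fin 1230 7 973)
(fin 909 4 909)))))))))
(mv 1035 (cons (fin 1034 3 1034)
(mv 1036 (cons (fin 1103 3 1035)
(mv 970 (cons (fin 971 3 970)
(mv 1163 (cons (fin 1162 1 1098)
(mv 972 (cons (fin 908 5 907)
(fin 1227 6 971))))))))))))
(cons (mv 1162 (cons (fin 1163 1 1098)
(mv 1166 (cons (fin 1167 0 1099)
(mv 973 (cons (fin 1230 7 973)
(fin 909 4 909)))))))
(mv 1034 (cons (fin 1035 3 1034)
(mv 1166 (cons (fin 1167 0 1099)
(mv 973 (cons (fin 1230 7 973)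
(fin 909 4 909))))))))))))))
(mv 1038 (cons (fin 1039 1 1036)
(mv 1099 (cons (fin 1098 2 1034)
(mv 1164 (cons (cons (mv 973 (cons (fin 909 5 908)
(mv 1228 (cons (fin 1165 5 972)
(fin 1036 6 972)))))
(mv 973 (cons (fin 909 5 908)
(mv 1165 (cons (mv 1166 (cons (fin 1167 3 1099)
(fin 1230 4 973)))
(mv 972 (cons (fin 908 7 908)
(mv 971 (cons (fin 970 0 970)
(mv 907 (cons (fin 1036 7 907)
(fin 1035 4 907))))))))))))
(cons (mv 1228 (cons (fin 1292 6 1036)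
(mv 1036 (cons (cons (mv 971 (cons (fin 1035 7 971)
(mv 972 (cons (fin 907 7 907)
(mv 908 (cons (fin 1163 5 907)
(fin 844 4 844)))))))
(mv 1227 (cons (fin 1291 5 1035)
(mv 972 (cons (fin 1163 5 971)
(mv 908 (cons (fin 844 4 844)
(fin 1165 4 908))))))))
(cons (mv 1035 (cons (fin 971 7 971)
(mv 1034 (cons (fin 1033 0 1033)
(mv 970 (cons (fin 969 3 969)
(mv 1227 (cons (fin 1163 7 970)
(fin 1291 5 1035)))))))))
(mv 971 (cons (fin 1035 7 971)
(mv 972 (cons (fin 907 7 907)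
(mv 908 (cons (fin 844 4 844)
(fin 1165 4 908))))))))))))
(cons (mv 973 (cons (fin 909 5 908)
(mv 1228 (cons (fin 1036 6 972)
(fin 1292 6 1036)))))
(mv 973 (cons (fin 909 5 908)
(mv 1228 (cons (fin 1165 5 972)
(fin 1292 6 1036))))))))))))))))
(cons (cons (mv 1039 (cons (fin 1038 1 1036)
(mv 1103 (cons (fin 1102 2 1036)
(mv 976 (cons (cons (mv 912 (cons (fin 848 5 847)
(mv 1167 (cons (fin 1104 5 911)
(fin 975 6 911)))))
(mv 1167 (cons (fin 1231 6 975)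
(mv 1166 (cons (cons (mv 975 (cons (fin 1230 5 974)
(mv 1168 (cons (fin 1165 3 1100)
(fin 1232 4 975)))))
(mv 975 (cons (fin 1230 5 974)
(mv 1168 (cons (fin 1232 4 975)
(mv 911 (cons (fin 1104 7 911)
(mv 846 (cons (fin 910 7 846)
(mv 847 (cons (fin 782 7 782)
(fin 783 4 783))))))))))))
(cons (mv 1165 (cons (fin 1168 3 1100)
(mv 1164 (cons (fin 1104 2 1100)
(mv 973 (cons (fin 909 5 908)
(fin 1228 5 972)))))))
(mv 1230 (cons (fin 975 5 974)
(mv 973 (cons (fin 1165 4 973)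
(mv 909 (cons (fin 1164 5 908)
(mv 844 (cons (fin 908 7 844)
(mv 845 (cons (fin 780 7 780)
(fin 1036 5 844)))))))))))))))))
(cons (mv 912 (cons (fin 848 5 847)
(mv 1104 (cons (cons (mv 847 (cons (fin 911 7 847)
(mv 849 (cons (fin 913 6 848)
(mv 1169 (cons (fin 1105 4 912)
(mv 1168 (cons (fin 1233 4 976)
(mv 1232 (cons (fin 975 7 975)
(fin 1296 7 1039)))))))))))
(cons (mv 849 (cons (fin 913 6 848)
(mv 1169 (cons (fin 1105 4 912)
(mv 1168 (cons (fin 1233 4 976)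
(mv 1232 (cons (fin 975 7 975)
(fin 1296 7 1039)))))))))
(mv 847 (cons (fin 911 7 847)
(mv 1169 (cons (fin 1105 4 912)
(mv 1168 (cons (fin 1233 4 976)
(mv 1232 (cons (fin 975 7 975)
(fin 1296 7 1039)))))))))))
(cons (mv 847 (cons (fin 911 7 847)
(mv 913 (cons (fin 849 6 848)
(mv 1168 (cons (fin 977 6 912)
(mv 1232 (cons (fin 975 7 975)
(fin 1296 7 1039)))))))))
(cons (mv 847 (cons (fin 911 7 847)
(mv 913 (cons (fin 849 6 848)
(mv 1105 (cons (fin 1169 4 912)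
(mv 1106 (cons (fin 1107 3 1039)
(mv 1042 (cons (fin 1043 2 1039)
(mv 1170 (cons (fin 1171 0 1103)
(mv 978 (cons (fin 977 7 913)
(mv 915 (cons (fin 979 6 914)
(mv 914 (cons (fin 975 1 911)
(fin 851 6 850)))))))))))))))))))
(mv 847 (cons (fin 911 7 847)
(mv 913 (cons (fin 849 6 848)
(mv 977 (cons (fin 1168 6 912)
(mv 978 (cons (fin 979 1 975)
(mv 1105 (cons (fin 1169 4 912)
(mv 1106 (cons (fin 1107 3 1039)
(mv 1042 (cons (fin 1043 2 1039)
(fin 1170 7 913)))))))))))))))))))))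
(cons (mv 912 (cons (fin 848 5 847)
(mv 1167 (cons (fin 975 6 911)
(fin 1231 6 975)))))
(mv 912 (cons (fin 848 5 847)
(mv 1167 (cons (fin 1104 5 911)
(fin 1231 6 975)))))))))))))
(mv 1038 (cons (fin 1039 1 1036)
(mv 1099 (cons (fin 1098 2 1034)
(mv 1102 (cons (cons (mv 1034 (cons (fin 1035 3 1034)
(mv 1162 (cons (fin 1163 1 1098)
(mv 1167 (cons (fin 1166 0 1099)
(mv 1103 (cons (fin 1168 0 1100)
(mv 1104 (cons (fin 1036 3 1036)
(fin 1105 3 1037)))))))))))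
(mv 1162 (cons (fin 1163 1 1098)
(mv 1167 (cons (fin 1166 0 1099)
(mv 1103 (cons (fin 1168 0 1100)
(mv 1104 (cons (fin 1036 3 1036)
(fin 1105 3 1037))))))))))
(cons (mv 1034 (cons (fin 1035 3 1034)
(mv 1167 (cons (fin 1166 0 1099)
(mv 1103 (cons (fin 1168 0 1100)
(mv 1104 (cons (fin 1036 3 1036)
(fin 1105 3 1037)))))))))
(cons (mv 1034 (cons (fin 1035 3 1034)
(mv 1163 (cons (fin 1162 1 1098)
(mv 1103 (cons (fin 1164 1 1099)
(mv 1104 (cons (fin 1036 3 1036)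
(fin 1105 3 1037)))))))))
(mv 1035 (cons (fin 1034 3 1034)
(mv 1163 (cons (fin 1162 1 1098)
(mv 1166 (cons (fin 1167 0 1099)
(mv 1230 (cons (fin 1294 7 1037)
(mv 1231 (cons (fin 1295 4 1038)
(mv 1164 (cons (fin 1165 0 1163)
(mv 971 (cons (fin 907 4 907)
(fin 1228 4 971))))))))))))))))))))))))
(cons (mv 1038 (cons (fin 1039 1 1036)
(mv 1099 (cons (fin 1098 2 1034)
(mv 1102 (cons (cons (mv 1034 (cons (fin 1035 3 1034)
(mv 1162 (cons (fin 1163 1 1098)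
(mv 1166 (cons (fin 1167 0 1099)
(mv 973 (cons (fin 1230 7 973)
(fin 909 4 909)))))))))
(mv 1034 (cons (fin 1035 3 1034)
(mv 1163 (cons (fin 1162 1 1098)
(mv 1103 (cons (fin 1164 1 1099)
(mv 1104 (cons (fin 1105 3 1037)
(mv 1168 (cons (fin 1167 0 1100)
(fin 1169 0 1101))))))))))))
(cons (mv 1034 (cons (fin 1035 3 1034)
(mv 1163 (cons (fin 1162 1 1098)
(mv 1164 (cons (fin 1103 1 1099)
(mv 973 (cons (fin 909 5 908)
(mv 1228 (cons (fin 1165 5 972)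
(fin 1292 6 1036)))))))))))
(cons (mv 1034 (cons (fin 1035 3 1034)
(mv 1166 (cons (fin 1167 0 1099)
(mv 973 (cons (fin 1230 7 973)
(fin 909 4 909)))))))
(mv 1162 (cons (fin 1163 1 1098)
(mv 1166 (cons (fin 1167 0 1099)
(mv 973 (cons (fin 1230 7 973)
(fin 909 4 909)))))))))))))))
(cons (mv 1038 (cons (fin 1039 1 1036)
(mv 1099 (cons (fin 1098 2 1034)
(mv 1102 (cons (cons (mv 1034 (cons (fin 1035 3 1034)
(mv 1163 (cons (fin 1162 1 1098)
(mv 1103 (cons (fin 1164 1 1099)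
(mv 1104 (cons (fin 1036 3 1036)
(fin 1105 3 1037)))))))))
(cons (mv 1163 (cons (fin 1162 1 1098)
(mv 1103 (cons (fin 1164 1 1099)
(mv 1104 (cons (fin 1036 3 1036)
(fin 1105 3 1037)))))))
(mv 1035 (cons (fin 1034 3 1034)
(mv 1036 (cons (fin 1103 3 1035)
(mv 971 (cons (fin 970 3 970)
(mv 907 (cons (fin 843 4 843)
(fin 1164 4 907)))))))))))
(cons (mv 1035 (cons (fin 1034 3 1034)
(mv 1162 (cons (fin 1163 1 1098)
(mv 1164 (cons (cons (mv 907 (cons (fin 971 4 907)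
(mv 973 (cons (fin 909 5 908)
(mv 1228 (cons (fin 1292 7 1035)
(fin 1165 5 972)))))))
(mv 971 (cons (fin 907 4 907)
(mv 970 (cons (fin 1036 3 970)
(mv 973 (cons (fin 972 0 970)
(fin 909 5 908))))))))
(cons (mv 971 (cons (fin 907 4 907)
(mv 1036 (cons (fin 970 3 970)
(fin 1228 7 971)))))
(mv 973 (cons (fin 909 5 908)
(mv 1228 (cons (fin 1292 7 1035)
(fin 1165 5 972))))))))))))
(cons (mv 1034 (cons (fin 1035 3 1034)
(mv 1163 (cons (fin 1162 1 1098)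
(mv 1103 (cons (fin 1164 1 1099)
(mv 1104 (cons (fin 1105 3 1037)
(mv 1168 (cons (fin 1167 0 1100)
(fin 1169 0 1101)))))))))))
(mv 1035 (cons (fin 1034 3 1034)
(mv 1036 (cons (fin 1103 3 1035)
(mv 970 (cons (fin 971 3 970)
(mv 1163 (cons (fin 1162 1 1098)
(mv 972 (cons (fin 908 5 907)
(fin 1227 6 971)))))))))))))))))))
(mv 1038 (cons (fin 1039 1 1036)
(mv 1099 (cons (fin 1098 2 1034)
(mv 1102 (cons (cons (mv 1034 (cons (fin 1035 3 1034)
(mv 1163 (cons (fin 1162 1 1098)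
(mv 1103 (cons (fin 1164 1 1099)
(mv 1104 (cons (fin 1036 3 1036)
(fin 1105 3 1037)))))))))
(cons (mv 1163 (cons (fin 1162 1 1098)
(mv 1103 (cons (fin 1164 1 1099)
(mv 1104 (cons (fin 1036 3 1036)
(fin 1105 3 1037)))))))
(mv 1035 (cons (fin 1034 3 1034)
(mv 1036 (cons (fin 1103 3 1035)
(mv 971 (cons (fin 970 3 970)
(mv 907 (cons (fin 843 4 843)
(fin 1164 4 907)))))))))))
(cons (mv 1035 (cons (fin 1034 3 1034)
(mv 1162 (cons (fin 1163 1 1098)
(mv 1164 (cons (cons (mv 907 (cons (fin 971 4 907)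
(mv 973 (cons (fin 909 5 908)
(mv 1228 (cons (fin 1292 7 1035)
(fin 1165 5 972)))))))
(mv 971 (cons (fin 907 4 907)
(mv 970 (cons (fin 1036 3 970)
(mv 973 (cons (fin 972 0 970)
(fin 909 5 908))))))))
(cons (mv 971 (cons (fin 907 4 907)
(mv 1036 (cons (fin 970 3 970)
(fin 1228 7 971)))))
(mv 973 (cons (fin 909 5 908)
(mv 1228 (cons (fin 1292 7 1035)
(fin 1165 5 972))))))))))))
(cons (mv 1034 (cons (fin 1035 3 1034)
(mv 1163 (cons (fin 1162 1 1098)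
(mv 1164 (cons (fin 1103 1 1099)
(mv 973 (cons (fin 909 5 908)
(mv 1228 (cons (fin 1165 5 972)
(fin 1292 6 1036)))))))))))
(mv 1035 (cons (fin 1034 3 1034)
(mv 1036 (cons (fin 1103 3 1035)
(mv 970 (cons (fin 971 3 970)
(mv 1163 (cons (fin 1162 1 1098)
(mv 972 (cons (fin 908 5 907)
(fin 1227 6 971))))))))))))))))))))))))
(cons (mv 1100 (cons (cons (cons (mv 1038 (cons (fin 1039 1 1036)
(mv 1099 (cons (fin 1098 2 1034)
(mv 1102 (cons (cons (mv 1034 (cons (fin 1035 3 1034)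
(mv 1162 (cons (fin 1163 1 1098)
(mv 1166 (cons (fin 1167 0 1099)
(mv 973 (cons (fin 1230 7 973)
(fin 909 4 909)))))))))
(mv 1034 (cons (fin 1035 3 1034)
(mv 1163 (cons (fin 1162 1 1098)
(mv 1103 (cons (fin 1164 1 1099)
(mv 1104 (cons (fin 1036 3 1036)
(fin 1105 3 1037))))))))))
(cons (mv 1162 (cons (fin 1163 1 1098)
(mv 1166 (cons (fin 1167 0 1099)
(mv 973 (cons (fin 1230 7 973)
(fin 909 4 909)))))))
(mv 1034 (cons (fin 1035 3 1034)
(mv 1166 (cons (fin 1167 0 1099)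
(mv 973 (cons (fin 1230 7 973)
(fin 909 4 909))))))))))))))
(mv 1102 (cons (cons (mv 1039 (cons (fin 1103 2 1036)
(mv 1099 (cons (cons (mv 1034 (cons (fin 1035 3 1034)
(mv 1033 (cons (fin 1098 3 1033)
(mv 1162 (cons (fin 1163 1 1098)
(mv 1166 (cons (fin 1167 0 1099)
(mv 973 (cons (fin 909 4 909)
(mv 1230 (cons (fin 1294 7 1037)
(fin 1165 4 973)))))))))))))
(mv 1034 (cons (fin 1035 3 1034)
(mv 1098 (cons (fin 1033 3 1033)
(mv 1162 (cons (fin 1161 1 1097)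
(fin 1163 1 1098))))))))
(cons (mv 1162 (cons (fin 1163 1 1098)
(mv 1098 (cons (fin 1161 1 1097)
(mv 1166 (cons (fin 1165 0 1098)
(fin 1167 0 1099)))))))
(cons (mv 1034 (cons (fin 1035 3 1034)
(mv 1033 (cons (fin 1098 3 1033)
(mv 1166 (cons (fin 1167 0 1099)
(mv 973 (cons (fin 909 4 909)
(mv 1230 (cons (fin 1294 7 1037)
(fin 1165 4 973)))))))))))
(mv 1034 (cons (fin 1035 3 1034)
(mv 1162 (cons (fin 1163 1 1098)
(mv 1166 (cons (fin 1167 0 1099)
(mv 973 (cons (fin 909 4 909)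
(mv 1230 (cons (fin 1294 7 1037)
(fin 1165 4 973)))))))))))))))))
(mv 1099 (cons (cons (mv 1034 (cons (fin 1035 3 1034)
(mv 1033 (cons (fin 1098 3 1033)
(mv 1162 (cons (fin 1163 1 1098)
(mv 1166 (cons (fin 1167 0 1099)
(mv 973 (cons (fin 909 4 909)
(mv 1230 (cons (fin 1294 7 1037)
(fin 1165 4 973)))))))))))))
(mv 1034 (cons (fin 1035 3 1034)
(mv 1098 (cons (fin 1033 3 1033)
(mv 1162 (cons (fin 1161 1 1097)
(fin 1163 1 1098))))))))
(cons (mv 1162 (cons (fin 1163 1 1098)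
(mv 1098 (cons (fin 1161 1 1097)
(mv 1166 (cons (fin 1165 0 1098)
(fin 1167 0 1099)))))))
(cons (mv 1034 (cons (fin 1035 3 1034)
(mv 1033 (cons (fin 1098 3 1033)
(mv 1166 (cons (fin 1167 0 1099)
(mv 973 (cons (fin 909 4 909)
(mv 1230 (cons (fin 1294 7 1037)
(fin 1165 4 973)))))))))))
(mv 1034 (cons (fin 1035 3 1034)
(mv 1162 (cons (fin 1163 1 1098)
(mv 1166 (cons (fin 1167 0 1099)
(mv 973 (cons (fin 909 4 909)
(mv 1230 (cons (fin 1294 7 1037)
(fin 1165 4 973))))))))))))))))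
(cons (mv 1103 (cons (fin 1039 2 1036)
(mv 1036 (cons (fin 1035 3 1035)
(fin 1104 3 1036)))))
(mv 1103 (cons (fin 1039 2 1036)
(mv 1036 (cons (fin 1104 3 1036)
(mv 1163 (cons (fin 1164 1 1099)
(mv 1099 (cons (fin 1162 1 1098)
(mv 1167 (cons (fin 1166 0 1099)
(fin 1168 0 1100)))))))))))))))
(cons (mv 1099 (cons (cons (mv 1038 (cons (fin 1098 2 1034)
(mv 1102 (cons (cons (mv 1034 (cons (fin 1035 3 1034)
(mv 1162 (cons (fin 1163 1 1098)
(mv 1166 (cons (fin 1167 0 1099)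
(mv 973 (cons (fin 1230 7 973)
(fin 909 4 909)))))))))
(mv 1034 (cons (fin 1035 3 1034)
(mv 1163 (cons (fin 1162 1 1098)
(mv 1103 (cons (fin 1164 1 1099)
(mv 1104 (cons (fin 1036 3 1036)
(fin 1105 3 1037))))))))))
(cons (mv 1162 (cons (fin 1163 1 1098)
(mv 1166 (cons (fin 1167 0 1099)
(mv 973 (cons (fin 1230 7 973)
(fin 909 4 909)))))))
(mv 1034 (cons (fin 1035 3 1034)
(mv 1166 (cons (fin 1167 0 1099)
(mv 973 (cons (fin 1230 7 973)
(fin 909 4 909))))))))))))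
(cons (mv 1102 (cons (cons (mv 1034 (cons (fin 1035 3 1034)
(mv 1162 (cons (fin 1163 1 1098)
(mv 1166 (cons (fin 1167 0 1099)
(mv 973 (cons (fin 909 4 909)
(mv 1230 (cons (fin 1038 7 973)
(fin 1294 7 1037)))))))))))
(mv 1034 (cons (fin 1035 3 1034)
(mv 1163 (cons (fin 1162 1 1098)
(mv 1103 (cons (fin 1164 1 1099)
(mv 1104 (cons (fin 1036 3 1036)
(mv 1168 (cons (fin 1167 0 1100)
(fin 1169 0 1101))))))))))))
(cons (mv 1162 (cons (fin 1163 1 1098)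
(mv 1166 (cons (fin 1167 0 1099)
(mv 973 (cons (fin 909 4 909)
(mv 1230 (cons (fin 1038 7 973)
(fin 1294 7 1037)))))))))
(cons (mv 1034 (cons (fin 1035 3 1034)
(mv 1166 (cons (fin 1167 0 1099)
(mv 973 (cons (fin 909 4 909)
(mv 1230 (cons (fin 1038 7 973)
(fin 1294 7 1037)))))))))
(mv 1034 (cons (fin 1035 3 1034)
(mv 1163 (cons (fin 1162 1 1098)
(mv 1103 (cons (fin 1164 1 1099)
(mv 1104 (cons (fin 1036 3 1036)
(mv 1105 (cons (fin 1038 3 1037)
(mv 1169 (cons (fin 1168 0 1101)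
(fin 1170 0 1102)))))))))))))))))
(mv 1098 (cons (mv 1033 (cons (fin 1034 3 1033)
(mv 1097 (cons (fin 1032 3 1032)
(fin 1036 2 1033)))))
(cons (mv 1033 (cons (fin 1034 3 1033)
(mv 1162 (cons (fin 1161 1 1097)
(mv 1102 (cons (fin 1163 1 1098)
(mv 1166 (cons (fin 1165 0 1098)
(fin 1167 0 1099)))))))))
(mv 1036 (cons (fin 1097 2 1033)
(mv 1161 (cons (fin 1162 1 1097)
(mv 1165 (cons (fin 1166 0 1098)
(mv 972 (cons (fin 1229 7 972)
(fin 908 4 908))))))))))))))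
(cons (mv 1098 (cons (fin 1038 2 1034)
(mv 1033 (cons (fin 1034 3 1033)
(mv 1097 (cons (fin 1032 3 1032)
(fin 1036 2 1033)))))))
(cons (mv 1098 (cons (fin 1038 2 1034)
(mv 1036 (cons (fin 1097 2 1033)
(mv 1161 (cons (fin 1162 1 1097)
(mv 1165 (cons (fin 1166 0 1098)
(mv 972 (cons (fin 1229 7 972)
(fin 908 4 908)))))))))))
(mv 1098 (cons (fin 1038 2 1034)
(mv 1033 (cons (fin 1034 3 1033)
(mv 1032 (cons (fin 1097 3 1032)
(mv 1162 (cons (fin 1161 1 1097)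
(mv 1102 (cons (fin 1163 1 1098)
(mv 1166 (cons (fin 1165 0 1098)
(fin 1167 0 1099)))))))))))))))))
(cons (mv 1038 (cons (fin 1039 1 1036)
(mv 1099 (cons (fin 1098 2 1034)
(mv 973 (cons (cons (mv 909 (cons (fin 1164 5 908)
(mv 844 (cons (fin 908 7 844)
(mv 845 (cons (fin 780 7 780)
(fin 1036 5 844)))))))
(mv 1165 (cons (cons (mv 908 (cons (fin 972 7 908)
(mv 1166 (cons (fin 1230 4 973)
(mv 1167 (cons (fin 1164 3 1099)
(fin 1168 3 1100)))))))
(mv 1166 (cons (fin 1230 4 973)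
(mv 1167 (cons (fin 1164 3 1099)
(fin 1168 3 1100))))))
(cons (mv 972 (cons (fin 908 7 908)
(mv 970 (cons (fin 971 0 970)
(mv 1229 (cons (fin 1036 7 972)
(mv 1294 (cons (fin 1230 4 1037)
(mv 1293 (cons (fin 1358 4 1101)
(mv 1356 (cons (fin 1292 5 1100)
(mv 1357 (cons (fin 1164 7 1100)
(fin 1420 5 1164)))))))))))))))
(cons (mv 972 (cons (fin 908 7 908)
(mv 971 (cons (fin 970 0 970)
(mv 1036 (cons (fin 1229 7 972)
(mv 907 (cons (fin 1164 7 907)
(mv 843 (cons (fin 779 4 779)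
(fin 1035 4 843)))))))))))
(mv 972 (cons (fin 908 7 908)
(mv 970 (cons (fin 971 0 970)
(mv 1229 (cons (fin 1036 7 972)
(mv 1230 (cons (fin 1166 4 973)
(fin 1294 4 1037))))))))))))))
(cons (mv 909 (cons (cons (mv 844 (cons (fin 908 7 844)
(mv 845 (cons (fin 780 7 780)
(fin 1036 5 844)))))
(mv 846 (cons (fin 910 6 845)
(mv 908 (cons (fin 844 7 844)
(mv 972 (cons (fin 1165 7 908)
(mv 970 (cons (fin 971 0 970)
(mv 1036 (cons (fin 1163 5 907)
(mv 907 (cons (fin 843 7 843)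
(mv 906 (cons (fin 969 1 905)
(fin 905 0 905))))))))))))))))
(cons (mv 845 (cons (fin 1036 5 844)
(mv 846 (cons (fin 782 6 781)
(fin 910 6 845)))))
(mv 844 (cons (fin 908 7 844)
(mv 845 (cons (fin 780 7 780)
(mv 846 (cons (fin 782 6 781)
(fin 910 6 845))))))))))
(cons (mv 909 (cons (fin 1164 5 908)
(mv 845 (cons (fin 1036 5 844)
(mv 846 (cons (fin 782 6 781)
(fin 910 6 845)))))))
(mv 909 (cons (fin 1164 5 908)
(mv 844 (cons (fin 908 7 844)
(mv 845 (cons (fin 780 7 780)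
(mv 846 (cons (fin 782 6 781)
(fin 910 6 845)))))))))))))))))
(mv 1039 (cons (fin 1038 1 1036)
(mv 1103 (cons (fin 1102 2 1036)
(mv 976 (cons (cons (mv 912 (cons (fin 848 5 847)
(mv 1167 (cons (fin 1104 5 911)
(fin 975 6 911)))))
(mv 1167 (cons (fin 1231 6 975)
(mv 1166 (cons (cons (mv 975 (cons (fin 1230 5 974)
(mv 1168 (cons (fin 1165 3 1100)
(fin 1232 4 975)))))
(mv 975 (cons (fin 1230 5 974)
(mv 1168 (cons (fin 1232 4 975)
(mv 911 (cons (fin 1104 7 911)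
(mv 846 (cons (fin 910 7 846)
(mv 847 (cons (fin 782 7 782)
(fin 783 4 783))))))))))))
(cons (mv 1168 (cons (fin 1165 3 1100)
(mv 975 (cons (fin 1232 4 975)
(mv 911 (cons (fin 1104 7 911)
(mv 846 (cons (fin 910 7 846)
(mv 847 (cons (fin 782 7 782)
(fin 783 4 783)))))))))))
(cons (mv 1230 (cons (fin 975 5 974)
(mv 973 (cons (fin 1165 4 973)
(mv 909 (cons (fin 1164 5 908)
(mv 844 (cons (fin 908 7 844)
(mv 845 (cons (fin 780 7 780)
(fin 1036 5 844)))))))))))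
(mv 1165 (cons (fin 1168 3 1100)
(mv 973 (cons (fin 1230 4 973)
(mv 1164 (cons (fin 1104 2 1100)
(fin 909 5 908))))))))))))))
(cons (mv 912 (cons (fin 848 5 847)
(mv 1104 (cons (cons (mv 847 (cons (fin 911 7 847)
(mv 849 (cons (fin 913 6 848)
(mv 1169 (cons (fin 1105 4 912)
(mv 1168 (cons (fin 1233 4 976)
(mv 1232 (cons (fin 975 7 975)
(fin 1296 7 1039)))))))))))
(cons (mv 849 (cons (fin 913 6 848)
(mv 1169 (cons (fin 1105 4 912)
(mv 1168 (cons (fin 1233 4 976)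
(mv 1232 (cons (fin 975 7 975)
(fin 1296 7 1039)))))))))
(mv 847 (cons (fin 911 7 847)
(mv 1169 (cons (fin 1105 4 912)
(mv 1168 (cons (fin 1233 4 976)
(mv 1232 (cons (fin 975 7 975)
(fin 1296 7 1039)))))))))))
(cons (mv 847 (cons (fin 911 7 847)
(mv 913 (cons (fin 849 6 848)
(mv 1168 (cons (fin 977 6 912)
(mv 1232 (cons (fin 975 7 975)
(fin 1296 7 1039)))))))))
(cons (mv 847 (cons (fin 911 7 847)
(mv 913 (cons (fin 849 6 848)
(mv 1105 (cons (fin 1169 4 912)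
(mv 1106 (cons (fin 1107 3 1039)
(mv 1042 (cons (fin 1043 2 1039)
(mv 1170 (cons (fin 1171 0 1103)
(mv 978 (cons (fin 977 7 913)
(mv 915 (cons (fin 979 6 914)
(mv 914 (cons (fin 975 1 911)
(fin 851 6 850)))))))))))))))))))
(mv 847 (cons (fin 911 7 847)
(mv 913 (cons (fin 849 6 848)
(mv 977 (cons (fin 1168 6 912)
(mv 978 (cons (fin 979 1 975)
(mv 1105 (cons (fin 1169 4 912)
(mv 1106 (cons (fin 1107 3 1039)
(mv 1042 (cons (fin 1043 2 1039)
(fin 1170 7 913)))))))))))))))))))))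
(cons (mv 912 (cons (fin 848 5 847)
(mv 1167 (cons (fin 975 6 911)
(fin 1231 6 975)))))
(mv 912 (cons (fin 848 5 847)
(mv 1167 (cons (fin 1104 5 911)
(fin 1231 6 975))))))))))))))))
(cons (cons (mv 1038 (cons (fin 1039 1 1036)
(mv 1099 (cons (fin 1098 2 1034)
(mv 1102 (cons (cons (mv 1034 (cons (fin 1035 3 1034)
(mv 1162 (cons (fin 1163 1 1098)
(mv 1167 (cons (fin 1166 0 1099)
(mv 1103 (cons (fin 1168 0 1100)
(mv 1104 (cons (fin 1036 3 1036)
(fin 1105 3 1037)))))))))))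
(cons (mv 1162 (cons (fin 1163 1 1098)
(mv 1167 (cons (fin 1166 0 1099)
(mv 1103 (cons (fin 1168 0 1100)
(mv 1104 (cons (fin 1036 3 1036)
(fin 1105 3 1037)))))))))
(mv 1034 (cons (fin 1035 3 1034)
(mv 1167 (cons (fin 1166 0 1099)
(mv 1103 (cons (fin 1168 0 1100)
(mv 1104 (cons (fin 1036 3 1036)
(fin 1105 3 1037)))))))))))
(cons (mv 1034 (cons (fin 1035 3 1034)
(mv 1163 (cons (fin 1162 1 1098)
(mv 1103 (cons (fin 1164 1 1099)
(mv 1104 (cons (fin 1036 3 1036)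
(fin 1105 3 1037)))))))))
(cons (mv 1035 (cons (fin 1034 3 1034)
(mv 1163 (cons (fin 1162 1 1098)
(mv 1166 (cons (fin 1167 0 1099)
(mv 1230 (cons (fin 1294 7 1037)
(mv 1229 (cons (fin 1293 5 1037)
(mv 1231 (cons (fin 1295 4 1038)
(mv 1164 (cons (fin 1165 0 1163)
(mv 971 (cons (fin 907 4 907)
(mv 970 (cons (fin 1036 3 970)
(fin 906 7 906)))))))))))))))))))
(mv 1034 (cons (fin 1035 3 1034)
(mv 1163 (cons (fin 1162 1 1098)
(mv 1103 (cons (fin 1164 1 1099)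
(mv 1167 (cons (fin 1166 0 1099)
(fin 1168 0 1100)))))))))))))))))
(mv 1038 (cons (fin 1039 1 1036)
(mv 1099 (cons (fin 1098 2 1034)
(mv 1102 (cons (cons (mv 1034 (cons (fin 1035 3 1034)
(mv 1162 (cons (fin 1163 1 1098)
(mv 1166 (cons (fin 1167 0 1099)
(mv 973 (cons (fin 1230 7 973)
(fin 909 4 909)))))))))
(mv 1035 (cons (fin 1034 3 1034)
(mv 1036 (cons (fin 1103 3 1035)
(mv 970 (cons (fin 971 3 970)
(mv 1163 (cons (fin 1162 1 1098)
(mv 972 (cons (fin 908 5 907)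
(fin 1227 6 971))))))))))))
(cons (mv 1162 (cons (fin 1163 1 1098)
(mv 1166 (cons (fin 1167 0 1099)
(mv 973 (cons (fin 1230 7 973)
(fin 909 4 909)))))))
(mv 1034 (cons (fin 1035 3 1034)
(mv 1166 (cons (fin 1167 0 1099)
(mv 973 (cons (fin 1230 7 973)
(fin 909 4 909)))))))))))))))
(cons (mv 1038 (cons (fin 1039 1 1036)
(mv 1099 (cons (fin 1098 2 1034)
(mv 1102 (cons (cons (mv 1034 (cons (fin 1035 3 1034)
(mv 1162 (cons (fin 1163 1 1098)
(mv 1166 (cons (fin 1167 0 1099)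
(mv 973 (cons (fin 1230 7 973)
(fin 909 4 909)))))))))
(mv 1034 (cons (fin 1035 3 1034)
(mv 1163 (cons (fin 1162 1 1098)
(mv 1103 (cons (fin 1164 1 1099)
(mv 1104 (cons (fin 1105 3 1037)
(mv 1168 (cons (fin 1167 0 1100)
(fin 1169 0 1101))))))))))))
(cons (mv 1035 (cons (fin 1034 3 1034)
(mv 1163 (cons (fin 1162 1 1098)
(mv 1164 (cons (fin 1103 1 1099)
(mv 971 (cons (fin 907 4 907)
(mv 970 (cons (fin 906 7 906)
(mv 972 (cons (fin 973 0 970)
(fin 908 6 907)))))))))))))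
(cons (mv 1034 (cons (fin 1035 3 1034)
(mv 1166 (cons (fin 1167 0 1099)
(mv 973 (cons (fin 1230 7 973)
(fin 909 4 909)))))))
(mv 1162 (cons (fin 1163 1 1098)
(mv 1166 (cons (fin 1167 0 1099)
(mv 973 (cons (fin 1230 7 973)
(fin 909 4 909)))))))))))))))
(cons (mv 1038 (cons (fin 1039 1 1036)
(mv 1099 (cons (fin 1098 2 1034)
(mv 1102 (cons (cons (mv 1034 (cons (fin 1035 3 1034)
(mv 1163 (cons (fin 1162 1 1098)
(mv 1103 (cons (fin 1164 1 1099)
(mv 1104 (cons (fin 1036 3 1036)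
(fin 1105 3 1037)))))))))
(cons (mv 1163 (cons (fin 1162 1 1098)
(mv 1103 (cons (fin 1164 1 1099)
(mv 1104 (cons (fin 1036 3 1036)
(fin 1105 3 1037)))))))
(mv 1035 (cons (fin 1034 3 1034)
(mv 1036 (cons (fin 1103 3 1035)
(mv 971 (cons (fin 970 3 970)
(mv 907 (cons (fin 843 4 843)
(fin 1164 4 907)))))))))))
(cons (mv 1035 (cons (fin 1034 3 1034)
(mv 1162 (cons (fin 1163 1 1098)
(mv 973 (cons (mv 909 (cons (fin 1164 5 908)
(fin 845 4 845)))
(cons (mv 971 (cons (mv 970 (cons (fin 1036 3 970)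
(fin 972 0 970)))
(cons (mv 907 (cons (fin 1164 4 907)
(mv 842 (cons (fin 906 7 842)
(mv 843 (cons (fin 778 7 778)
(fin 1036 4 843)))))))
(mv 907 (cons (fin 1164 4 907)
(mv 842 (cons (fin 906 7 842)
(mv 778 (cons (fin 843 7 778)
(mv 908 (cons (fin 844 6 843)
(mv 972 (cons (fin 970 0 970)
(fin 1165 7 908))))))))))))))
(mv 909 (cons (fin 845 4 845)
(mv 908 (cons (fin 844 7 844)
(mv 910 (cons (fin 846 6 845)
(mv 972 (cons (fin 1165 7 908)
(mv 911 (cons (fin 971 1 907)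
(fin 912 1 908))))))))))))))))))
(cons (mv 1034 (cons (fin 1035 3 1034)
(mv 1163 (cons (fin 1162 1 1098)
(mv 1103 (cons (fin 1164 1 1099)
(mv 1104 (cons (fin 1105 3 1037)
(mv 1168 (cons (fin 1167 0 1100)
(fin 1169 0 1101)))))))))))
(mv 1035 (cons (fin 1034 3 1034)
(mv 1036 (cons (fin 1103 3 1035)
(mv 970 (cons (fin 971 3 970)
(mv 1163 (cons (fin 1162 1 1098)
(mv 972 (cons (fin 908 5 907)
(fin 1227 6 971)))))))))))))))))))
(mv 1038 (cons (fin 1039 1 1036)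
(mv 1099 (cons (fin 1098 2 1034)
(mv 1102 (cons (cons (mv 1034 (cons (fin 1035 3 1034)
(mv 1163 (cons (fin 1162 1 1098)
(mv 1103 (cons (fin 1164 1 1099)
(mv 1104 (cons (fin 1036 3 1036)
(fin 1105 3 1037)))))))))
(cons (mv 1163 (cons (fin 1162 1 1098)
(mv 1103 (cons (fin 1164 1 1099)
(mv 1104 (cons (fin 1036 3 1036)
(fin 1105 3 1037)))))))
(mv 1035 (cons (fin 1034 3 1034)
(mv 1036 (cons (fin 1103 3 1035)
(mv 971 (cons (fin 970 3 970)
(mv 907 (cons (fin 843 4 843)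
(fin 1164 4 907)))))))))))
(cons (mv 1035 (cons (fin 1034 3 1034)
(mv 1162 (cons (fin 1163 1 1098)
(mv 971 (cons (cons (mv 907 (cons (fin 1164 4 907)
(mv 1036 (cons (fin 970 3 970)
(fin 843 4 843)))))
(mv 970 (cons (fin 1036 3 970)
(mv 973 (cons (fin 972 0 970)
(mv 909 (cons (fin 1164 5 908)
(fin 845 4 845))))))))
(cons (mv 907 (cons (fin 1164 4 907)
(mv 842 (cons (fin 906 7 842)
(mv 843 (cons (fin 778 7 778)
(mv 844 (cons (fin 780 6 779)
(fin 908 6 843)))))))))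
(mv 970 (cons (fin 1036 3 970)
(mv 973 (cons (fin 972 0 970)
(mv 909 (cons (fin 845 4 845)
(fin 1166 4 909))))))))))))))
(cons (mv 1035 (cons (fin 1034 3 1034)
(mv 1163 (cons (fin 1162 1 1098)
(mv 1164 (cons (fin 1103 1 1099)
(mv 971 (cons (fin 907 4 907)
(mv 970 (cons (fin 906 7 906)
(mv 972 (cons (fin 973 0 970)
(fin 908 6 907)))))))))))))
(mv 1035 (cons (fin 1034 3 1034)
(mv 1036 (cons (fin 1103 3 1035)
(mv 970 (cons (fin 971 3 970)
(mv 1163 (cons (fin 1162 1 1098)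
(mv 972 (cons (fin 908 5 907)
(fin 1227 6 971))))))))))))))))))))))))
(mv 1100 (cons (cons (cons (mv 1038 (cons (fin 1039 1 1036)
(mv 1099 (cons (fin 1098 2 1034)
(mv 1102 (cons (cons (mv 1034 (cons (fin 1035 3 1034)
(mv 1162 (cons (fin 1163 1 1098)
(mv 1167 (cons (fin 1166 0 1099)
(mv 1103 (cons (fin 1168 0 1100)
(mv 1104 (cons (fin 1036 3 1036)
(fin 1105 3 1037)))))))))))
(cons (mv 1162 (cons (fin 1163 1 1098)
(mv 1167 (cons (fin 1166 0 1099)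
(mv 1103 (cons (fin 1168 0 1100)
(mv 1104 (cons (fin 1036 3 1036)
(fin 1105 3 1037)))))))))
(mv 1034 (cons (fin 1035 3 1034)
(mv 1167 (cons (fin 1166 0 1099)
(mv 1103 (cons (fin 1168 0 1100)
(mv 1104 (cons (fin 1036 3 1036)
(fin 1105 3 1037)))))))))))
(cons (mv 1034 (cons (fin 1035 3 1034)
(mv 1163 (cons (fin 1162 1 1098)
(mv 1103 (cons (fin 1164 1 1099)
(mv 1104 (cons (fin 1036 3 1036)
(fin 1105 3 1037)))))))))
(cons (mv 1034 (cons (fin 1035 3 1034)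
(mv 1163 (cons (fin 1162 1 1098)
(mv 1166 (cons (fin 1167 0 1099)
(mv 973 (cons (fin 909 4 909)
(mv 1165 (cons (cons (mv 908 (cons (fin 972 7 908)
(mv 1164 (cons (fin 1228 5 972)
(mv 1227 (cons (fin 1226 1 1162)
(mv 1291 (cons (fin 1036 6 1035)
(fin 1355 6 1099)))))))))
(mv 1164 (cons (fin 1228 5 972)
(mv 1227 (cons (fin 1226 1 1162)
(mv 1291 (cons (fin 1036 6 1035)
(fin 1355 6 1099))))))))
(cons (mv 972 (cons (fin 908 7 908)
(mv 1229 (cons (fin 1036 7 972)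
(fin 1293 6 1037)))))
(mv 908 (cons (fin 972 7 908)
(mv 1228 (cons (fin 1164 5 972)
(mv 1229 (cons (fin 1292 5 1036)
(fin 1293 6 1037))))))))))))))))))
(mv 1034 (cons (fin 1035 3 1034)
(mv 1163 (cons (fin 1162 1 1098)
(mv 1103 (cons (fin 1164 1 1099)
(mv 1167 (cons (fin 1166 0 1099)
(fin 1168 0 1100)))))))))))))))))
(mv 1164 (cons (cons (mv 973 (cons (fin 909 5 908)
(mv 1228 (cons (fin 1165 5 972)
(fin 1036 6 972)))))
(mv 909 (cons (fin 973 5 908)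
(mv 1102 (cons (mv 1103 (cons (fin 1163 1 1099)
(fin 1039 2 1036)))
(cons (mv 1099 (cons (cons (mv 1034 (cons (fin 1035 3 1034)
(mv 1098 (cons (fin 1033 3 1033)
(mv 1097 (cons (fin 1036 2 1033)
(fin 1165 0 1097)))))))
(mv 1162 (cons (fin 1163 1 1098)
(mv 1098 (cons (fin 1161 1 1097)
(mv 1097 (cons (fin 1036 2 1033)
(fin 1165 0 1097))))))))
(cons (mv 1035 (cons (fin 1034 3 1034)
(mv 971 (cons (fin 907 4 907)
(mv 1163 (cons (fin 1162 1 1098)
(mv 906 (cons (fin 970 7 906)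
(mv 972 (cons (fin 908 6 907)
(mv 1166 (cons (fin 1167 0 1099)
(mv 1227 (cons (fin 1036 5 971)
(mv 1226 (cons (fin 1165 1 1162)
(fin 1290 5 1034)))))))))))))))))
(mv 1034 (cons (fin 1035 3 1034)
(mv 1098 (cons (fin 1033 3 1033)
(mv 1162 (cons (fin 1161 1 1097)
(fin 1163 1 1098))))))))))
(mv 1103 (cons (fin 1039 2 1036)
(mv 1036 (cons (fin 1035 3 1035)
(fin 1104 3 1036)))))))))))
(cons (mv 1228 (cons (fin 1292 6 1036)
(mv 1036 (cons (mv 971 (cons (fin 1035 7 971)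
(mv 972 (cons (fin 907 7 907)
(mv 908 (cons (fin 844 4 844)
(fin 1165 4 908)))))))
(cons (mv 1227 (cons (fin 1291 5 1035)
(mv 972 (cons (fin 1163 5 971)
(mv 908 (cons (fin 844 4 844)
(fin 1165 4 908)))))))
(mv 1035 (cons (fin 971 7 971)
(mv 1034 (cons (fin 1033 0 1033)
(fin 1102 0 1034))))))))))
(cons (mv 973 (cons (fin 909 5 908)
(mv 1228 (cons (fin 1165 5 972)
(fin 1292 6 1036)))))
(mv 973 (cons (fin 909 5 908)
(mv 1228 (cons (fin 1036 6 972)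
(fin 1292 6 1036))))))))))
(cons (mv 1164 (cons (cons (mv 973 (cons (fin 909 5 908)
(mv 1228 (cons (fin 1165 5 972)
(fin 1036 6 972)))))
(mv 909 (cons (fin 973 5 908)
(mv 1163 (cons (cons (mv 1102 (cons (fin 1103 1 1099)
(mv 1162 (cons (fin 1099 1 1098)
(fin 1161 2 1097)))))
(mv 1162 (cons (fin 1161 2 1097)
(mv 1165 (cons (cons (mv 1097 (cons (fin 1098 3 1097)
(mv 1226 (cons (fin 1225 1 1161)
(mv 1166 (cons (fin 1227 1 1162)
(mv 1167 (cons (fin 1099 3 1099)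
(fin 1168 3 1100)))))))))
(mv 1226 (cons (fin 1225 1 1161)
(mv 1166 (cons (fin 1227 1 1162)
(mv 1167 (cons (fin 1099 3 1099)
(fin 1168 3 1100))))))))
(cons (mv 1098 (cons (fin 1097 3 1097)
(mv 1099 (cons (fin 1166 3 1098)
(fin 1038 2 1034)))))
(cons (mv 1098 (cons (fin 1097 3 1097)
(mv 1226 (cons (fin 1225 1 1161)
(mv 1227 (cons (fin 1166 1 1162)
(mv 1034 (cons (fin 970 4 970)
(fin 1291 4 1034)))))))))
(mv 1098 (cons (fin 1097 3 1097)
(mv 1099 (cons (fin 1038 2 1034)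
(mv 1033 (cons (fin 1034 3 1033)
(mv 1226 (cons (fin 1225 1 1161)
(mv 1035 (cons (fin 971 5 970)
(fin 1290 6 1034))))))))))))))))))
(cons (mv 1102 (cons (fin 1103 1 1099)
(mv 1099 (cons (mv 1034 (cons (fin 1035 3 1034)
(mv 1098 (cons (fin 1033 3 1033)
(fin 1038 2 1034)))))
(cons (mv 1035 (cons (fin 1034 3 1034)
(mv 971 (cons (fin 907 4 907)
(mv 906 (cons (fin 970 7 906)
(mv 972 (cons (fin 908 6 907)
(mv 1166 (cons (fin 1167 0 1099)
(mv 1227 (cons (fin 1036 5 971)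
(mv 1226 (cons (fin 1165 1 1162)
(fin 1290 5 1034)))))))))))))))
(mv 1098 (cons (fin 1038 2 1034)
(mv 1097 (cons (fin 1036 2 1033)
(fin 1096 0 1096))))))))))
(mv 1102 (cons (fin 1103 1 1099)
(mv 1162 (cons (fin 1161 2 1097)
(fin 1165 2 1098)))))))))))
(cons (mv 1228 (cons (fin 1292 6 1036)
(mv 1036 (cons (mv 971 (cons (fin 1035 7 971)
(mv 972 (cons (fin 907 7 907)
(mv 908 (cons (fin 844 4 844)
(fin 1165 4 908)))))))
(cons (mv 1227 (cons (fin 1291 5 1035)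
(mv 972 (cons (fin 1163 5 971)
(mv 908 (cons (fin 844 4 844)
(fin 1165 4 908)))))))
(mv 1035 (cons (fin 971 7 971)
(mv 1034 (cons (fin 1033 0 1033)
(fin 1102 0 1034))))))))))
(cons (mv 973 (cons (fin 909 5 908)
(mv 1228 (cons (fin 1165 5 972)
(fin 1292 6 1036)))))
(mv 973 (cons (fin 909 5 908)
(mv 1228 (cons (fin 1036 6 972)
(fin 1292 6 1036)))))))))
(mv 1038 (cons (fin 1039 1 1036)
(mv 1099 (cons (fin 1098 2 1034)
(mv 1102 (cons (cons (mv 1034 (cons (fin 1035 3 1034)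
(mv 1162 (cons (fin 1163 1 1098)
(mv 1167 (cons (fin 1166 0 1099)
(mv 1103 (cons (fin 1168 0 1100)
(mv 1104 (cons (fin 1036 3 1036)
(fin 1105 3 1037)))))))))))
(cons (mv 1162 (cons (fin 1163 1 1098)
(mv 1167 (cons (fin 1166 0 1099)
(mv 1103 (cons (fin 1168 0 1100)
(mv 1104 (cons (fin 1036 3 1036)
(fin 1105 3 1037)))))))))
(mv 1035 (cons (fin 1034 3 1034)
(mv 1036 (cons (fin 1103 3 1035)
(mv 970 (cons (fin 971 3 970)
(mv 1163 (cons (fin 1162 1 1098)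
(mv 972 (cons (fin 908 5 907)
(fin 1227 6 971)))))))))))))
(cons (mv 1034 (cons (fin 1035 3 1034)
(mv 1167 (cons (fin 1166 0 1099)
(mv 1103 (cons (fin 1168 0 1100)
(mv 1104 (cons (fin 1036 3 1036)
(fin 1105 3 1037)))))))))
(cons (mv 1035 (cons (fin 1034 3 1034)
(mv 1162 (cons (fin 1163 1 1098)
(mv 1166 (cons (fin 1167 0 1099)
(mv 971 (cons (cons (mv 909 (cons (fin 973 4 909)
(mv 1036 (cons (fin 970 3 970)
(mv 907 (cons (fin 843 4 843)
(mv 842 (cons (fin 906 7 842)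
(mv 908 (cons (fin 844 6 843)
(mv 972 (cons (fin 845 6 844)
(fin 1165 4 908)))))))))))))
(cons (mv 907 (cons (mv 1036 (cons (fin 970 3 970)
(fin 843 4 843)))
(cons (mv 842 (cons (fin 906 7 842)
(mv 843 (cons (fin 778 7 778)
(mv 844 (cons (fin 780 6 779)
(fin 908 6 843)))))))
(mv 842 (cons (fin 906 7 842)
(mv 908 (cons (fin 844 6 843)
(mv 970 (cons (fin 1036 3 970)
(mv 909 (cons (fin 910 1 906)
(mv 969 (cons (fin 968 2 904)
(fin 972 2 905))))))))))))))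
(mv 973 (cons (fin 909 4 909)
(mv 972 (cons (fin 970 0 970)
(mv 908 (cons (fin 1165 7 908)
(mv 844 (cons (fin 780 5 779)
(fin 907 6 843)))))))))))
(cons (cons (mv 973 (cons (fin 909 4 909)
(mv 907 (cons (mv 842 (cons (fin 906 7 842)
(mv 843 (cons (fin 778 7 778)
(fin 1036 4 843)))))
(cons (mv 906 (cons (fin 842 7 842)
(mv 908 (cons (fin 844 6 843)
(mv 972 (cons (fin 905 0 905)
(fin 1165 7 908)))))))
(mv 843 (cons (fin 1036 4 843)
(mv 844 (cons (fin 780 6 779)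
(fin 908 6 843))))))))))
(mv 1036 (cons (fin 970 3 970)
(mv 907 (cons (fin 843 4 843)
(mv 906 (cons (fin 842 7 842)
(mv 908 (cons (fin 844 6 843)
(mv 972 (cons (fin 1165 4 908)
(mv 905 (cons (fin 904 0 904)
(fin 973 0 905))))))))))))))
(cons (mv 970 (cons (fin 1036 3 970)
(mv 973 (cons (fin 972 0 970)
(fin 909 4 909)))))
(mv 909 (cons (fin 973 4 909)
(mv 907 (cons (mv 1036 (cons (fin 970 3 970)
(fin 843 4 843)))
(cons (mv 842 (cons (fin 906 7 842)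
(mv 843 (cons (fin 778 7 778)
(mv 844 (cons (fin 780 6 779)
(fin 908 6 843)))))))
(mv 842 (cons (fin 906 7 842)
(mv 908 (cons (fin 844 6 843)
(mv 970 (cons (fin 1036 3 970)
(fin 910 1 906))))))))))))))))))))))
(mv 1035 (cons (fin 1034 3 1034)
(mv 1163 (cons (fin 1162 1 1098)
(mv 1166 (cons (fin 1167 0 1099)
(mv 971 (cons (cons (mv 906 (cons (fin 970 7 906)
(mv 907 (cons (fin 842 7 842)
(mv 908 (cons (fin 844 6 843)
(fin 972 6 907)))))))
(mv 970 (cons (fin 906 7 906)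
(mv 973 (cons (fin 972 0 970)
(fin 909 4 909))))))
(cons (mv 909 (cons (fin 973 4 909)
(mv 907 (cons (cons (mv 906 (cons (fin 842 7 842)
(fin 970 7 906)))
(mv 908 (cons (fin 844 6 843)
(mv 910 (cons (fin 970 1 906)
(mv 842 (cons (fin 843 3 842)
(mv 847 (cons (fin 846 2 843)
(mv 911 (cons (fin 848 2 844)
(mv 976 (cons (fin 975 0 908)
(mv 912 (cons (fin 977 0 909)
(fin 1104 7 847))))))))))))))))
(cons (mv 908 (cons (fin 844 6 843)
(mv 970 (cons (fin 910 1 906)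
(fin 906 7 906)))))
(mv 842 (cons (fin 906 7 842)
(mv 843 (cons (fin 778 7 778)
(mv 844 (cons (fin 780 6 779)
(fin 908 6 843))))))))))))
(cons (mv 908 (cons (fin 972 6 907)
(mv 907 (cons (fin 844 6 843)
(mv 842 (cons (fin 906 7 842)
(mv 843 (cons (fin 778 7 778)
(mv 909 (cons (fin 910 3 842)
(fin 973 4 909)))))))))))
(mv 908 (cons (fin 972 6 907)
(mv 907 (cons (fin 844 6 843)
(mv 909 (cons (fin 973 4 909)
(mv 910 (cons (fin 970 1 906)
(mv 842 (cons (fin 843 3 842)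
(mv 847 (cons (fin 846 2 843)
(mv 911 (cons (fin 848 2 844)
(mv 976 (cons (fin 975 0 908)
(mv 912 (cons (fin 977 0 909)
(fin 1104 7 847)))))))))))))))))))))))))))))))))))))))
(cons (cons (mv 1038 (cons (fin 1039 1 1036)
(mv 1099 (cons (fin 1098 2 1034)
(mv 1164 (cons (cons (mv 973 (cons (fin 909 5 908)
(mv 1228 (cons (fin 1165 5 972)
(fin 1036 6 972)))))
(mv 973 (cons (fin 909 5 908)
(mv 972 (cons (mv 908 (cons (fin 1165 7 908)
(mv 844 (cons (fin 780 4 780)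
(fin 1036 4 844)))))
(cons (mv 971 (cons (fin 970 0 970)
(mv 907 (cons (fin 1036 7 907)
(fin 1035 4 907)))))
(mv 908 (cons (fin 1165 7 908)
(mv 780 (cons (fin 844 4 780)
(mv 971 (cons (fin 970 0 970)
(mv 1035 (cons (fin 1163 6 907)
(fin 907 4 907)))))))))))))))
(cons (mv 1228 (cons (fin 1292 6 1036)
(mv 1036 (cons (cons (mv 971 (cons (fin 1035 7 971)
(mv 972 (cons (fin 907 7 907)
(mv 908 (cons (fin 1163 5 907)
(fin 844 4 844)))))))
(mv 1227 (cons (fin 1291 5 1035)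
(mv 972 (cons (fin 1163 5 971)
(mv 908 (cons (fin 844 4 844)
(fin 1165 4 908))))))))
(cons (mv 1035 (cons (fin 971 7 971)
(mv 1034 (cons (fin 1033 0 1033)
(mv 970 (cons (fin 969 3 969)
(mv 1227 (cons (fin 1163 7 970)
(fin 1291 5 1035)))))))))
(mv 971 (cons (fin 1035 7 971)
(mv 972 (cons (fin 907 7 907)
(mv 908 (cons (fin 844 4 844)
(fin 1165 4 908))))))))))))
(cons (mv 973 (cons (fin 909 5 908)
(mv 1228 (cons (fin 1036 6 972)
(fin 1292 6 1036)))))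
(mv 973 (cons (fin 909 5 908)
(mv 1228 (cons (fin 1165 5 972)
(fin 1292 6 1036)))))))))))))
(mv 1038 (cons (fin 1039 1 1036)
(mv 973 (cons (cons (mv 909 (cons (fin 1164 5 908)
(mv 845 (cons (fin 1036 5 844)
(fin 1102 4 845)))))
(mv 1165 (cons (cons (mv 908 (cons (fin 972 7 908)
(mv 1228 (cons (fin 1164 5 972)
(mv 1229 (cons (fin 1292 5 1036)
(mv 1293 (cons (fin 1036 7 1036)
(fin 1102 6 1037)))))))))
(cons (mv 1228 (cons (fin 1164 5 972)
(mv 1229 (cons (fin 1292 5 1036)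
(mv 1293 (cons (fin 1036 7 1036)
(fin 1102 6 1037)))))))
(mv 972 (cons (fin 908 7 908)
(mv 970 (cons (fin 971 0 970)
(mv 1229 (cons (fin 1036 7 972)
(mv 1293 (cons (fin 1102 6 1037)
(mv 1292 (cons (fin 1356 5 1100)
(mv 1357 (cons (fin 1164 7 1100)
(mv 1358 (cons (fin 1294 4 1101)
(fin 1422 4 1165)))))))))))))))))
(cons (cons (mv 972 (cons (fin 908 7 908)
(mv 970 (cons (fin 971 0 970)
(mv 1229 (cons (fin 1036 7 972)
(mv 1292 (cons (fin 1228 5 1036)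
(mv 1293 (cons (fin 1356 5 1100)
(fin 1102 6 1037)))))))))))
(mv 908 (cons (fin 972 7 908)
(mv 1229 (cons (cons (mv 1228 (cons (fin 1164 5 972)
(fin 1292 5 1036)))
(mv 1293 (cons (fin 1102 6 1037)
(mv 1292 (cons (fin 1356 5 1100)
(mv 1357 (cons (fin 1164 7 1100)
(mv 1358 (cons (fin 1294 4 1101)
(fin 1422 4 1165))))))))))
(cons (mv 1292 (cons (fin 1228 5 1036)
(mv 1293 (cons (fin 1356 5 1100)
(fin 1102 6 1037)))))
(mv 1102 (cons (fin 1293 6 1037)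
(mv 1164 (cons (fin 1228 5 972)
(mv 1103 (cons (fin 1163 1 1099)
(fin 1104 1 1100)))))))))))))
(cons (mv 972 (cons (fin 908 7 908)
(mv 971 (cons (fin 970 0 970)
(mv 1164 (cons (fin 1228 5 972)
(mv 1036 (cons (fin 907 7 907)
(mv 1163 (cons (fin 1227 5 971)
(mv 1102 (cons (fin 1103 1 1099)
(fin 1162 2 1098)))))))))))))
(mv 972 (cons (fin 908 7 908)
(mv 970 (cons (fin 971 0 970)
(mv 1228 (cons (fin 1164 5 972)
(mv 1229 (cons (fin 1036 7 972)
(fin 1292 5 1036))))))))))))))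
(cons (mv 909 (cons (mv 845 (cons (fin 1036 5 844)
(fin 1102 4 845)))
(mv 908 (cons (fin 844 7 844)
(mv 910 (cons (fin 846 6 845)
(mv 972 (cons (fin 1165 7 908)
(mv 911 (cons (fin 971 1 907)
(fin 912 1 908)))))))))))
(cons (mv 909 (cons (fin 1164 5 908)
(mv 1102 (cons (fin 845 4 845)
(fin 1166 4 909)))))
(mv 909 (cons (fin 1164 5 908)
(mv 844 (cons (fin 908 7 844)
(mv 845 (cons (fin 780 7 780)
(fin 1036 5 844))))))))))))))
(cons (mv 1038 (cons (fin 1039 1 1036)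
(mv 1099 (cons (fin 1098 2 1034)
(mv 1102 (cons (cons (mv 1034 (cons (fin 1035 3 1034)
(mv 1162 (cons (fin 1163 1 1098)
(mv 1167 (cons (fin 1166 0 1099)
(mv 1103 (cons (fin 1168 0 1100)
(mv 1104 (cons (fin 1036 3 1036)
(fin 1105 3 1037)))))))))))
(cons (mv 1162 (cons (fin 1163 1 1098)
(mv 1167 (cons (fin 1166 0 1099)
(mv 1103 (cons (fin 1168 0 1100)
(mv 1104 (cons (fin 1036 3 1036)
(fin 1105 3 1037)))))))))
(mv 1034 (cons (fin 1035 3 1034)
(mv 1167 (cons (fin 1166 0 1099)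
(mv 1103 (cons (fin 1168 0 1100)
(mv 1104 (cons (fin 1036 3 1036)
(fin 1105 3 1037)))))))))))
(cons (mv 1034 (cons (fin 1035 3 1034)
(mv 1163 (cons (fin 1162 1 1098)
(mv 1103 (cons (fin 1164 1 1099)
(mv 1104 (cons (fin 1036 3 1036)
(fin 1105 3 1037)))))))))
(cons (mv 1035 (cons (fin 1034 3 1034)
(mv 1163 (cons (fin 1162 1 1098)
(mv 1166 (cons (fin 1167 0 1099)
(mv 971 (cons (mv 970 (cons (fin 1036 3 970)
(fin 906 7 906)))
(mv 1164 (cons (fin 907 4 907)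
(fin 1228 4 971)))))))))))
(mv 1034 (cons (fin 1035 3 1034)
(mv 1163 (cons (fin 1162 1 1098)
(mv 1103 (cons (fin 1164 1 1099)
(mv 1167 (cons (fin 1166 0 1099)
(fin 1168 0 1100)))))))))))))))))
(cons (mv 1038 (cons (fin 1039 1 1036)
(mv 1099 (cons (fin 1098 2 1034)
(mv 1102 (cons (cons (mv 1034 (cons (fin 1035 3 1034)
(mv 1163 (cons (fin 1162 1 1098)
(mv 1103 (cons (fin 1164 1 1099)
(mv 1167 (cons (fin 1166 0 1099)
(fin 1168 0 1100)))))))))
(mv 1034 (cons (fin 1035 3 1034)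
(mv 1163 (cons (fin 1162 1 1098)
(mv 1164 (cons (fin 1103 1 1099)
(mv 973 (cons (fin 909 5 908)
(mv 1228 (cons (fin 1165 5 972)
(fin 1292 6 1036))))))))))))
(cons (mv 1035 (cons (fin 1034 3 1034)
(mv 1166 (cons (fin 1167 0 1099)
(mv 973 (cons (fin 909 4 909)
(mv 971 (cons (cons (mv 907 (cons (fin 1164 4 907)
(mv 842 (cons (fin 906 7 842)
(mv 778 (cons (fin 843 7 778)
(mv 908 (cons (fin 844 6 843)
(mv 972 (cons (fin 970 0 970)
(fin 1165 7 908)))))))))))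
(mv 972 (cons (fin 970 0 970)
(mv 908 (cons (fin 1165 7 908)
(mv 844 (cons (fin 780 5 779)
(fin 907 6 843))))))))
(cons (mv 972 (cons (fin 970 0 970)
(mv 1165 (cons (fin 908 7 908)
(mv 1228 (cons (fin 1164 5 972)
(mv 1229 (cons (fin 1292 5 1036)
(fin 1293 6 1037)))))))))
(cons (mv 907 (cons (fin 1164 4 907)
(mv 842 (cons (fin 906 7 842)
(mv 843 (cons (fin 778 7 778)
(mv 844 (cons (fin 780 6 779)
(fin 908 6 843)))))))))
(mv 970 (cons (fin 972 0 970)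
(mv 1164 (cons (fin 907 4 907)
(mv 1228 (cons (fin 1292 7 1035)
(fin 1165 5 972)))))))))))))))))
(cons (mv 1163 (cons (fin 1162 1 1098)
(mv 1103 (cons (fin 1164 1 1099)
(mv 1167 (cons (fin 1166 0 1099)
(fin 1168 0 1100)))))))
(mv 1035 (cons (fin 1034 3 1034)
(mv 1163 (cons (fin 1162 1 1098)
(mv 1166 (cons (fin 1167 0 1099)
(mv 971 (cons (cons (mv 906 (cons (fin 970 7 906)
(mv 907 (cons (fin 842 7 842)
(mv 908 (cons (fin 844 6 843)
(fin 972 6 907)))))))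
(mv 970 (cons (fin 906 7 906)
(mv 973 (cons (fin 972 0 970)
(fin 909 4 909))))))
(cons (mv 909 (cons (fin 973 4 909)
(mv 907 (cons (cons (mv 906 (cons (fin 842 7 842)
(fin 970 7 906)))
(mv 908 (cons (fin 844 6 843)
(mv 910 (cons (fin 970 1 906)
(mv 842 (cons (fin 843 3 842)
(mv 847 (cons (fin 846 2 843)
(mv 911 (cons (fin 848 2 844)
(mv 976 (cons (fin 975 0 908)
(mv 912 (cons (fin 977 0 909)
(fin 1104 7 847))))))))))))))))
(cons (mv 908 (cons (fin 844 6 843)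
(mv 970 (cons (fin 910 1 906)
(fin 906 7 906)))))
(mv 842 (cons (fin 906 7 842)
(mv 843 (cons (fin 778 7 778)
(mv 844 (cons (fin 780 6 779)
(fin 908 6 843))))))))))))
(cons (mv 908 (cons (fin 972 6 907)
(mv 907 (cons (fin 844 6 843)
(mv 842 (cons (fin 906 7 842)
(mv 843 (cons (fin 778 7 778)
(mv 909 (cons (fin 910 3 842)
(fin 973 4 909)))))))))))
(mv 908 (cons (fin 972 6 907)
(mv 907 (cons (fin 844 6 843)
(mv 909 (cons (fin 973 4 909)
(mv 910 (cons (fin 970 1 906)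
(mv 842 (cons (fin 843 3 842)
(mv 847 (cons (fin 846 2 843)
(mv 911 (cons (fin 848 2 844)
(mv 976 (cons (fin 975 0 908)
(mv 912 (cons (fin 977 0 909)
(fin 1104 7 847)))))))))))))))))))))))))))))))))))))
(mv 1038 (cons (fin 1039 1 1036)
(mv 1099 (cons (fin 1098 2 1034)
(mv 1102 (cons (cons (mv 1034 (cons (fin 1035 3 1034)
(mv 1167 (cons (fin 1166 0 1099)
(mv 1103 (cons (fin 1168 0 1100)
(mv 1104 (cons (fin 1036 3 1036)
(fin 1105 3 1037)))))))))
(mv 1167 (cons (fin 1166 0 1099)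
(mv 1103 (cons (fin 1168 0 1100)
(mv 1104 (cons (fin 1036 3 1036)
(fin 1105 3 1037))))))))
(cons (mv 1035 (cons (fin 1034 3 1034)
(mv 1036 (cons (fin 1103 3 1035)
(mv 971 (cons (fin 970 3 970)
(mv 907 (cons (fin 843 4 843)
(fin 1164 4 907)))))))))
(cons (mv 1035 (cons (fin 1034 3 1034)
(mv 1166 (cons (fin 1167 0 1099)
(mv 973 (cons (fin 909 4 909)
(mv 1164 (cons (mv 1228 (cons (fin 1292 7 1035)
(fin 1165 5 972)))
(mv 971 (cons (fin 907 4 907)
(mv 970 (cons (fin 1036 3 970)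
(fin 972 0 970)))))))))))))
(mv 1035 (cons (fin 1034 3 1034)
(mv 1166 (cons (fin 1167 0 1099)
(mv 973 (cons (fin 909 4 909)
(mv 971 (cons (cons (mv 907 (cons (fin 1164 4 907)
(mv 842 (cons (fin 906 7 842)
(mv 778 (cons (fin 843 7 778)
(mv 908 (cons (fin 844 6 843)
(mv 972 (cons (fin 970 0 970)
(fin 1165 7 908)))))))))))
(mv 972 (cons (fin 970 0 970)
(mv 908 (cons (fin 1165 7 908)
(mv 844 (cons (fin 780 5 779)
(fin 907 6 843))))))))
(cons (mv 972 (cons (fin 970 0 970)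
(mv 1165 (cons (fin 908 7 908)
(mv 1228 (cons (fin 1164 5 972)
(mv 1229 (cons (fin 1292 5 1036)
(fin 1293 6 1037)))))))))
(cons (mv 907 (cons (fin 1164 4 907)
(mv 842 (cons (fin 906 7 842)
(mv 843 (cons (fin 778 7 778)
(mv 844 (cons (fin 780 6 779)
(fin 908 6 843)))))))))
(mv 970 (cons (fin 972 0 970)
(mv 1164 (cons (fin 907 4 907)
(mv 1228 (cons (fin 1292 7 1035)
(fin 1165 5 972)))))))))))))))))))))))))))))))))
(cons (cons (mv 1100 (cons (cons (cons (mv 1038 (cons (fin 1039 1 1036)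
(mv 1099 (cons (fin 1098 2 1034)
(mv 1102 (cons (cons (mv 1034 (cons (fin 1035 3 1034)
(mv 1162 (cons (fin 1163 1 1098)
(mv 1166 (cons (fin 1167 0 1099)
(mv 973 (cons (fin 1230 7 973)
(fin 909 4 909)))))))))
(mv 1034 (cons (fin 1035 3 1034)
(mv 1163 (cons (fin 1162 1 1098)
(mv 1164 (cons (fin 1103 1 1099)
(mv 973 (cons (fin 909 5 908)
(mv 1228 (cons (fin 1165 5 972)
(fin 1036 6 972))))))))))))
(cons (mv 1162 (cons (fin 1163 1 1098)
(mv 1166 (cons (fin 1167 0 1099)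
(mv 973 (cons (fin 1230 7 973)
(fin 909 4 909)))))))
(cons (mv 1034 (cons (fin 1035 3 1034)
(mv 1166 (cons (fin 1167 0 1099)
(mv 973 (cons (fin 1230 7 973)
(fin 909 4 909)))))))
(mv 1034 (cons (fin 1035 3 1034)
(mv 1163 (cons (fin 1162 1 1098)
(mv 1103 (cons (fin 1164 1 1099)
(mv 1167 (cons (fin 1166 0 1099)
(fin 1168 0 1100)))))))))))))))))
(mv 1164 (cons (cons (mv 973 (cons (fin 909 5 908)
(mv 1228 (cons (fin 1165 5 972)
(fin 1036 6 972)))))
(mv 909 (cons (fin 973 5 908)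
(mv 1102 (cons (mv 1103 (cons (fin 1163 1 1099)
(fin 1039 2 1036)))
(cons (mv 1099 (cons (cons (mv 1034 (cons (fin 1035 3 1034)
(mv 1033 (cons (fin 1098 3 1033)
(mv 1163 (cons (fin 1162 1 1098)
(mv 1166 (cons (fin 1167 0 1099)
(mv 1230 (cons (fin 1294 7 1037)
(mv 1165 (cons (fin 1231 0 1163)
(mv 1227 (cons (fin 1226 1 1162)
(mv 1036 (cons (fin 972 5 971)
(fin 1291 6 1035)))))))))))))))))
(mv 1034 (cons (fin 1035 3 1034)
(mv 1098 (cons (fin 1033 3 1033)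
(mv 1097 (cons (fin 1036 2 1033)
(fin 1165 0 1097))))))))
(cons (mv 1162 (cons (fin 1163 1 1098)
(mv 1098 (cons (fin 1161 1 1097)
(mv 1097 (cons (fin 1036 2 1033)
(fin 1165 0 1097)))))))
(cons (mv 1034 (cons (fin 1035 3 1034)
(mv 1163 (cons (fin 1162 1 1098)
(mv 1166 (cons (fin 1167 0 1099)
(mv 1230 (cons (fin 1294 7 1037)
(mv 1165 (cons (fin 1231 0 1163)
(mv 1227 (cons (fin 1226 1 1162)
(mv 1036 (cons (fin 972 5 971)
(fin 1291 6 1035)))))))))))))))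
(mv 1034 (cons (fin 1035 3 1034)
(mv 1098 (cons (fin 1033 3 1033)
(mv 1162 (cons (fin 1161 1 1097)
(fin 1163 1 1098)))))))))))
(mv 1103 (cons (fin 1039 2 1036)
(mv 1035 (cons (fin 1036 3 1035)
(mv 1099 (cons (fin 1034 3 1034)
(mv 1167 (cons (fin 1166 0 1099)
(fin 1168 0 1100)))))))))))))))
(cons (mv 1228 (cons (fin 1292 6 1036)
(mv 1036 (cons (mv 971 (cons (fin 1035 7 971)
(mv 972 (cons (fin 907 7 907)
(mv 908 (cons (fin 844 4 844)
(fin 1165 4 908)))))))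
(cons (mv 1227 (cons (fin 1291 5 1035)
(mv 972 (cons (fin 1163 5 971)
(mv 908 (cons (fin 844 4 844)
(fin 1165 4 908)))))))
(mv 1035 (cons (fin 971 7 971)
(mv 1034 (cons (fin 1033 0 1033)
(fin 1102 0 1034))))))))))
(cons (mv 973 (cons (fin 909 5 908)
(mv 1228 (cons (fin 1165 5 972)
(fin 1292 6 1036)))))
(mv 973 (cons (fin 909 5 908)
(mv 1228 (cons (fin 1036 6 972)
(fin 1292 6 1036))))))))))
(cons (mv 1164 (cons (cons (mv 973 (cons (fin 909 5 908)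
(mv 1228 (cons (fin 1165 5 972)
(fin 1036 6 972)))))
(mv 909 (cons (fin 973 5 908)
(mv 1163 (cons (cons (mv 1102 (cons (fin 1103 1 1099)
(mv 1162 (cons (fin 1099 1 1098)
(fin 1161 2 1097)))))
(mv 1102 (cons (fin 1103 1 1099)
(mv 1099 (cons (mv 1034 (cons (fin 1035 3 1034)
(mv 1098 (cons (fin 1033 3 1033)
(fin 1038 2 1034)))))
(cons (mv 1034 (cons (fin 1035 3 1034)
(mv 1166 (cons (fin 1167 0 1099)
(mv 1230 (cons (fin 1294 7 1037)
(mv 1165 (cons (fin 1231 0 1163)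
(mv 1227 (cons (fin 1226 1 1162)
(mv 1036 (cons (fin 972 5 971)
(fin 1291 6 1035)))))))))))))
(mv 1038 (cons (fin 1098 2 1034)
(mv 1166 (cons (fin 1167 0 1099)
(mv 1230 (cons (fin 1294 7 1037)
(mv 1231 (cons (fin 1165 0 1163)
(fin 1295 4 1038)))))))))))))))
(cons (mv 1162 (cons (fin 1161 2 1097)
(mv 1165 (cons (cons (mv 1097 (cons (fin 1098 3 1097)
(mv 1225 (cons (fin 1226 1 1161)
(mv 1229 (cons (fin 1230 0 1162)
(mv 1036 (cons (fin 972 7 972)
(fin 1293 7 1036)))))))))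
(mv 1097 (cons (fin 1098 3 1097)
(mv 1226 (cons (fin 1225 1 1161)
(mv 1166 (cons (fin 1227 1 1162)
(mv 1167 (cons (fin 1099 3 1099)
(fin 1168 3 1100))))))))))
(cons (mv 1225 (cons (fin 1226 1 1161)
(mv 1229 (cons (fin 1230 0 1162)
(mv 1036 (cons (fin 972 7 972)
(fin 1293 7 1036)))))))
(mv 1097 (cons (fin 1098 3 1097)
(mv 1229 (cons (fin 1230 0 1162)
(mv 1036 (cons (fin 972 7 972)
(fin 1293 7 1036))))))))))))
(mv 1102 (cons (fin 1103 1 1099)
(mv 1162 (cons (fin 1161 2 1097)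
(fin 1165 2 1098)))))))))))
(cons (mv 1228 (cons (fin 1292 6 1036)
(mv 1036 (cons (mv 971 (cons (fin 1035 7 971)
(mv 972 (cons (fin 907 7 907)
(mv 908 (cons (fin 844 4 844)
(fin 1165 4 908)))))))
(cons (mv 1227 (cons (fin 1291 5 1035)
(mv 972 (cons (fin 1163 5 971)
(mv 908 (cons (fin 844 4 844)
(fin 1165 4 908)))))))
(mv 1035 (cons (fin 971 7 971)
(mv 1034 (cons (fin 1033 0 1033)
(fin 1102 0 1034))))))))))
(cons (mv 973 (cons (fin 909 5 908)
(mv 1228 (cons (fin 1165 5 972)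
(fin 1292 6 1036)))))
(mv 973 (cons (fin 909 5 908)
(mv 1228 (cons (fin 1036 6 972)
(fin 1292 6 1036)))))))))
(cons (mv 1038 (cons (fin 1039 1 1036)
(mv 1099 (cons (fin 1098 2 1034)
(mv 1102 (cons (cons (mv 1034 (cons (fin 1035 3 1034)
(mv 1162 (cons (fin 1163 1 1098)
(mv 1166 (cons (fin 1167 0 1099)
(mv 973 (cons (fin 1230 7 973)
(fin 909 4 909)))))))))
(mv 1035 (cons (fin 1034 3 1034)
(mv 1036 (cons (fin 1103 3 1035)
(mv 970 (cons (fin 971 3 970)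
(mv 1163 (cons (fin 1162 1 1098)
(mv 972 (cons (fin 908 5 907)
(fin 1227 6 971))))))))))))
(cons (mv 1162 (cons (fin 1163 1 1098)
(mv 1166 (cons (fin 1167 0 1099)
(mv 973 (cons (fin 1230 7 973)
(fin 909 4 909)))))))
(mv 1034 (cons (fin 1035 3 1034)
(mv 1166 (cons (fin 1167 0 1099)
(mv 973 (cons (fin 1230 7 973)
(fin 909 4 909))))))))))))))
(mv 1038 (cons (fin 1039 1 1036)
(mv 1098 (cons (fin 1099 2 1034)
(mv 973 (cons (cons (mv 909 (cons (fin 1164 5 908)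
(mv 844 (cons (fin 908 7 844)
(mv 845 (cons (fin 780 7 780)
(fin 1036 5 844)))))))
(mv 1165 (cons (cons (cons (mv 908 (cons (fin 972 7 908)
(mv 1164 (cons (fin 1228 5 972)
(mv 1230 (cons (fin 1166 4 973)
(mv 1229 (cons (fin 1294 4 1037)
(mv 1293 (cons (fin 1036 7 1036)
(fin 1357 7 1100)))))))))))
(mv 1164 (cons (fin 1228 5 972)
(mv 1230 (cons (fin 1166 4 973)
(mv 1229 (cons (fin 1294 4 1037)
(mv 1293 (cons (fin 1036 7 1036)
(fin 1357 7 1100))))))))))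
(cons (mv 908 (cons (fin 972 7 908)
(mv 1230 (cons (fin 1166 4 973)
(mv 1229 (cons (fin 1294 4 1037)
(mv 1293 (cons (fin 1036 7 1036)
(mv 1356 (cons (fin 1292 5 1100)
(mv 1357 (cons (fin 1164 7 1100)
(fin 1420 5 1164)))))))))))))
(mv 908 (cons (fin 972 7 908)
(mv 1230 (cons (fin 1166 4 973)
(mv 1229 (cons (fin 1294 4 1037)
(mv 1292 (cons (fin 1228 5 1036)
(mv 1293 (cons (fin 1036 7 1036)
(fin 1356 5 1100)))))))))))))
(cons (cons (mv 908 (cons (fin 972 7 908)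
(mv 1228 (cons (fin 1164 5 972)
(mv 1229 (cons (fin 1292 5 1036)
(mv 1293 (cons (fin 1036 7 1036)
(mv 1294 (cons (fin 1230 4 1037)
(fin 1358 4 1101)))))))))))
(mv 972 (cons (fin 908 7 908)
(mv 970 (cons (fin 971 0 970)
(mv 1036 (cons (fin 1229 7 972)
(mv 1164 (cons (fin 1228 5 972)
(mv 1163 (cons (fin 1227 5 971)
(mv 1162 (cons (fin 1097 3 1097)
(fin 1161 2 1097))))))))))))))
(cons (mv 908 (cons (fin 972 7 908)
(mv 1228 (cons (fin 1164 5 972)
(mv 1229 (cons (fin 1292 5 1036)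
(mv 1230 (cons (fin 1166 4 973)
(fin 1294 4 1037)))))))))
(mv 972 (cons (fin 908 7 908)
(mv 971 (cons (fin 970 0 970)
(mv 1164 (cons (fin 1228 5 972)
(mv 1036 (cons (fin 907 7 907)
(mv 1163 (cons (fin 1227 5 971)
(mv 1162 (cons (fin 1097 3 1097)
(fin 1161 2 1097))))))))))))))))))
(cons (mv 909 (cons (cons (mv 844 (cons (fin 908 7 844)
(mv 845 (cons (fin 780 7 780)
(fin 1036 5 844)))))
(mv 846 (cons (fin 910 6 845)
(mv 908 (cons (fin 844 7 844)
(mv 1165 (cons (fin 972 7 908)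
(mv 1230 (cons (fin 1166 4 973)
(mv 1229 (cons (fin 1294 4 1037)
(mv 1292 (cons (fin 1228 5 1036)
(mv 1293 (cons (fin 1036 7 1036)
(fin 1356 5 1100))))))))))))))))
(cons (mv 845 (cons (fin 1036 5 844)
(mv 846 (cons (fin 782 6 781)
(fin 910 6 845)))))
(mv 844 (cons (fin 908 7 844)
(mv 845 (cons (fin 780 7 780)
(mv 846 (cons (fin 782 6 781)
(fin 910 6 845))))))))))
(cons (mv 909 (cons (fin 1164 5 908)
(mv 844 (cons (fin 908 7 844)
(mv 845 (cons (fin 780 7 780)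
(mv 846 (cons (fin 782 6 781)
(fin 910 6 845)))))))))
(mv 909 (cons (fin 1164 5 908)
(mv 845 (cons (fin 1036 5 844)
(mv 846 (cons (fin 782 6 781)
(fin 910 6 845))))))))))))))))))
(cons (cons (mv 1038 (cons (fin 1039 1 1036)
(mv 1164 (cons (cons (mv 973 (cons (fin 909 5 908)
(mv 1228 (cons (fin 1165 5 972)
(fin 1036 6 972)))))
(mv 1228 (cons (fin 1292 6 1036)
(mv 1036 (cons (mv 971 (cons (fin 1035 7 971)
(mv 972 (cons (fin 907 7 907)
(mv 908 (cons (fin 844 4 844)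
(fin 1165 4 908)))))))
(cons (mv 1227 (cons (fin 1291 5 1035)
(mv 972 (cons (fin 1163 5 971)
(mv 908 (cons (fin 844 4 844)
(fin 1165 4 908)))))))
(mv 1035 (cons (fin 971 7 971)
(mv 1034 (cons (fin 1033 0 1033)
(fin 1102 0 1034)))))))))))
(cons (mv 973 (cons (fin 909 5 908)
(mv 1165 (cons (cons (mv 908 (cons (fin 972 7 908)
(mv 1230 (cons (fin 1166 4 973)
(mv 1229 (cons (fin 1294 4 1037)
(mv 1293 (cons (fin 1036 7 1036)
(fin 1357 7 1100)))))))))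
(mv 1230 (cons (fin 1166 4 973)
(mv 1229 (cons (fin 1294 4 1037)
(mv 1293 (cons (fin 1036 7 1036)
(fin 1357 7 1100))))))))
(cons (mv 972 (cons (fin 908 7 908)
(mv 970 (cons (fin 971 0 970)
(mv 1036 (cons (fin 1229 7 972)
(mv 1163 (cons (fin 1227 5 971)
(mv 1102 (cons (fin 1103 1 1099)
(fin 1162 2 1098)))))))))))
(cons (mv 972 (cons (fin 908 7 908)
(mv 971 (cons (fin 970 0 970)
(mv 1036 (cons (fin 907 7 907)
(mv 1163 (cons (fin 1227 5 971)
(mv 1102 (cons (fin 1103 1 1099)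
(fin 1162 2 1098)))))))))))
(mv 908 (cons (fin 972 7 908)
(mv 1230 (cons (fin 1166 4 973)
(mv 1229 (cons (fin 1294 4 1037)
(mv 1293 (cons (fin 1357 7 1100)
(fin 1102 6 1037)))))))))))))))
(cons (mv 973 (cons (fin 909 5 908)
(mv 1228 (cons (fin 1165 5 972)
(fin 1292 6 1036)))))
(mv 973 (cons (fin 909 5 908)
(mv 1228 (cons (fin 1036 6 972)
(fin 1292 6 1036)))))))))))
(cons (mv 1038 (cons (fin 1039 1 1036)
(mv 1099 (cons (fin 1098 2 1034)
(mv 1102 (cons (cons (mv 1034 (cons (fin 1035 3 1034)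
(mv 1163 (cons (fin 1162 1 1098)
(mv 1103 (cons (fin 1164 1 1099)
(mv 1167 (cons (fin 1166 0 1099)
(fin 1168 0 1100)))))))))
(mv 1163 (cons (fin 1162 1 1098)
(mv 1103 (cons (fin 1164 1 1099)
(mv 1167 (cons (fin 1166 0 1099)
(fin 1168 0 1100))))))))
(cons (mv 1035 (cons (fin 1034 3 1034)
(mv 1036 (cons (fin 1103 3 1035)
(mv 970 (cons (fin 971 3 970)
(mv 1166 (cons (fin 1167 0 1099)
(mv 1230 (cons (fin 1294 7 1037)
(mv 1229 (cons (fin 1293 5 1037)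
(mv 1165 (cons (fin 972 7 972)
(mv 1228 (cons (fin 1292 5 1036)
(mv 1226 (cons (fin 1227 2 1162)
(mv 1231 (cons (fin 1295 4 1038)
(mv 1232 (cons (fin 1164 3 1164)
(fin 1233 3 1165)))))))))))))))))))))))
(cons (mv 1035 (cons (fin 1034 3 1034)
(mv 1036 (cons (fin 1103 3 1035)
(mv 970 (cons (fin 971 3 970)
(mv 1163 (cons (fin 1162 1 1098)
(mv 972 (cons (fin 908 5 907)
(fin 1227 6 971)))))))))))
(mv 1034 (cons (fin 1035 3 1034)
(mv 1163 (cons (fin 1162 1 1098)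
(mv 1166 (cons (fin 1167 0 1099)
(mv 1230 (cons (fin 1294 7 1037)
(mv 1229 (cons (fin 1293 5 1037)
(mv 1231 (cons (fin 1295 4 1038)
(mv 1164 (cons (fin 1228 3 1163)
(fin 1165 0 1163)))))))))))))))))))))))
(mv 1038 (cons (fin 1039 1 1036)
(mv 1099 (cons (fin 1098 2 1034)
(mv 1102 (cons (cons (mv 1034 (cons (fin 1035 3 1034)
(mv 1162 (cons (fin 1163 1 1098)
(mv 1166 (cons (fin 1167 0 1099)
(mv 973 (cons (fin 1230 7 973)
(fin 909 4 909)))))))))
(mv 1034 (cons (fin 1035 3 1034)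
(mv 1163 (cons (fin 1162 1 1098)
(mv 1164 (cons (fin 1103 1 1099)
(mv 973 (cons (fin 909 5 908)
(mv 1228 (cons (fin 1165 5 972)
(fin 1292 6 1036))))))))))))
(cons (mv 1034 (cons (fin 1035 3 1034)
(mv 1166 (cons (fin 1167 0 1099)
(mv 973 (cons (fin 1230 7 973)
(fin 909 4 909)))))))
(cons (mv 1162 (cons (fin 1163 1 1098)
(mv 1166 (cons (fin 1167 0 1099)
(mv 973 (cons (fin 1230 7 973)
(fin 909 4 909)))))))
(mv 1034 (cons (fin 1035 3 1034)
(mv 1163 (cons (fin 1162 1 1098)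
(mv 1103 (cons (fin 1164 1 1099)
(mv 1167 (cons (fin 1166 0 1099)
(fin 1168 0 1100)))))))))))))))))))
(cons (mv 1038 (cons (fin 1039 1 1036)
(mv 1098 (cons (fin 1099 2 1034)
(mv 973 (cons (cons (mv 909 (cons (fin 1164 5 908)
(mv 845 (cons (fin 1036 5 844)
(fin 1102 4 845)))))
(mv 1165 (cons (cons (mv 908 (cons (fin 972 7 908)
(mv 1228 (cons (fin 1164 5 972)
(mv 1229 (cons (fin 1292 5 1036)
(mv 1293 (cons (fin 1036 7 1036)
(fin 1102 6 1037)))))))))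
(cons (mv 1228 (cons (fin 1164 5 972)
(mv 1229 (cons (fin 1292 5 1036)
(mv 1293 (cons (fin 1036 7 1036)
(fin 1102 6 1037)))))))
(mv 972 (cons (fin 908 7 908)
(mv 970 (cons (fin 971 0 970)
(mv 1229 (cons (fin 1036 7 972)
(mv 1230 (cons (fin 1294 4 1037)
(mv 1293 (cons (fin 1102 6 1037)
(mv 1356 (cons (fin 1292 5 1100)
(mv 1357 (cons (fin 1164 7 1100)
(fin 1420 5 1164)))))))))))))))))
(cons (cons (mv 972 (cons (fin 908 7 908)
(mv 970 (cons (fin 971 0 970)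
(mv 1229 (cons (fin 1036 7 972)
(mv 1228 (cons (fin 1292 5 1036)
(mv 1293 (cons (fin 1102 6 1037)
(mv 1294 (cons (fin 1230 4 1037)
(fin 1358 4 1101)))))))))))))
(mv 972 (cons (fin 908 7 908)
(mv 971 (cons (fin 970 0 970)
(mv 1164 (cons (fin 1228 5 972)
(mv 1036 (cons (fin 907 7 907)
(mv 1163 (cons (fin 1227 5 971)
(mv 1102 (cons (fin 1103 1 1099)
(fin 1162 2 1098))))))))))))))
(cons (mv 908 (cons (fin 972 7 908)
(mv 1228 (cons (fin 1164 5 972)
(mv 1229 (cons (fin 1292 5 1036)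
(mv 1293 (cons (fin 1102 6 1037)
(mv 1294 (cons (fin 1230 4 1037)
(fin 1358 4 1101)))))))))))
(mv 908 (cons (fin 972 7 908)
(mv 1228 (cons (fin 1164 5 972)
(mv 1229 (cons (fin 1292 5 1036)
(mv 1293 (cons (fin 1036 7 1036)
(mv 1294 (cons (fin 1230 4 1037)
(fin 1358 4 1101))))))))))))))))
(cons (mv 909 (cons (mv 845 (cons (fin 1036 5 844)
(fin 1102 4 845)))
(mv 908 (cons (fin 844 7 844)
(mv 910 (cons (fin 846 6 845)
(mv 972 (cons (fin 1165 7 908)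
(mv 911 (cons (fin 971 1 907)
(fin 912 1 908)))))))))))
(cons (mv 909 (cons (fin 1164 5 908)
(mv 844 (cons (fin 908 7 844)
(mv 845 (cons (fin 780 7 780)
(fin 1102 4 845)))))))
(mv 909 (cons (fin 1164 5 908)
(mv 844 (cons (fin 908 7 844)
(mv 845 (cons (fin 780 7 780)
(fin 1036 5 844)))))))))))))))
(cons (mv 1038 (cons (fin 1039 1 1036)
(mv 1099 (cons (fin 1098 2 1034)
(mv 1102 (cons (mv 1034 (cons (fin 1035 3 1034)
(mv 1166 (cons (fin 1167 0 1099)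
(mv 973 (cons (fin 1230 7 973)
(fin 909 4 909)))))))
(cons (mv 1035 (cons (fin 1034 3 1034)
(mv 1036 (cons (fin 1103 3 1035)
(mv 971 (cons (fin 970 3 970)
(mv 907 (cons (fin 843 4 843)
(fin 1164 4 907)))))))))
(mv 1166 (cons (fin 1167 0 1099)
(mv 973 (cons (fin 1230 7 973)
(fin 909 4 909))))))))))))
(mv 1038 (cons (fin 1039 1 1036)
(mv 1099 (cons (fin 1098 2 1034)
(mv 1102 (cons (cons (mv 1034 (cons (fin 1035 3 1034)
(mv 1163 (cons (fin 1162 1 1098)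
(mv 1103 (cons (fin 1164 1 1099)
(mv 1167 (cons (fin 1166 0 1099)
(fin 1168 0 1100)))))))))
(mv 1163 (cons (fin 1162 1 1098)
(mv 1103 (cons (fin 1164 1 1099)
(mv 1167 (cons (fin 1166 0 1099)
(fin 1168 0 1100))))))))
(cons (mv 1035 (cons (fin 1034 3 1034)
(mv 1036 (cons (fin 1103 3 1035)
(mv 971 (cons (fin 970 3 970)
(mv 907 (cons (fin 843 4 843)
(fin 1164 4 907)))))))))
(cons (mv 1034 (cons (fin 1035 3 1034)
(mv 1163 (cons (fin 1162 1 1098)
(mv 1166 (cons (fin 1167 0 1099)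
(mv 973 (cons (fin 909 4 909)
(mv 1165 (cons (cons (mv 908 (cons (fin 972 7 908)
(mv 1164 (cons (fin 1228 5 972)
(mv 1227 (cons (fin 1226 1 1162)
(mv 1291 (cons (fin 1036 6 1035)
(fin 1355 6 1099)))))))))
(mv 1164 (cons (fin 1228 5 972)
(mv 1227 (cons (fin 1226 1 1162)
(mv 1291 (cons (fin 1036 6 1035)
(fin 1355 6 1099))))))))
(cons (mv 972 (cons (fin 908 7 908)
(mv 1229 (cons (fin 1036 7 972)
(fin 1293 6 1037)))))
(mv 908 (cons (fin 972 7 908)
(mv 1228 (cons (fin 1164 5 972)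
(mv 1229 (cons (fin 1292 5 1036)
(fin 1293 6 1037))))))))))))))))))
(mv 1035 (cons (fin 1034 3 1034)
(mv 1036 (cons (fin 1103 3 1035)
(mv 970 (cons (fin 971 3 970)
(mv 1163 (cons (fin 1162 1 1098)
(mv 972 (cons (fin 908 5 907)
(fin 1227 6 971))))))))))))))))))))))))
(cons (mv 1100 (cons (cons (cons (cons (mv 1038 (cons (fin 1039 1 1036)
(mv 1098 (cons (fin 1099 2 1034)
(mv 1164 (cons (cons (mv 973 (cons (fin 909 5 908)
(mv 1228 (cons (fin 1165 5 972)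
(fin 1036 6 972)))))
(mv 1228 (cons (fin 1292 6 1036)
(mv 1036 (cons (mv 971 (cons (fin 1035 7 971)
(mv 972 (cons (fin 907 7 907)
(mv 908 (cons (fin 844 4 844)
(fin 1165 4 908)))))))
(cons (mv 1227 (cons (fin 1291 5 1035)
(mv 972 (cons (fin 1163 5 971)
(mv 908 (cons (fin 844 4 844)
(fin 1165 4 908)))))))
(mv 1035 (cons (fin 971 7 971)
(mv 1034 (cons (fin 1097 1 1033)
(fin 1033 0 1033)))))))))))
(cons (mv 973 (cons (fin 909 5 908)
(mv 1165 (cons (cons (mv 908 (cons (fin 972 7 908)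
(mv 1230 (cons (fin 1166 4 973)
(mv 1229 (cons (fin 1294 4 1037)
(mv 1293 (cons (fin 1036 7 1036)
(fin 1357 7 1100)))))))))
(mv 1230 (cons (fin 1166 4 973)
(mv 1229 (cons (fin 1294 4 1037)
(mv 1293 (cons (fin 1036 7 1036)
(fin 1357 7 1100))))))))
(cons (mv 972 (cons (fin 908 7 908)
(mv 970 (cons (fin 971 0 970)
(mv 1036 (cons (fin 1229 7 972)
(mv 1163 (cons (fin 1227 5 971)
(mv 1162 (cons (fin 1097 3 1097)
(fin 1161 2 1097)))))))))))
(cons (mv 972 (cons (fin 908 7 908)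
(mv 971 (cons (fin 970 0 970)
(mv 1036 (cons (fin 907 7 907)
(mv 1163 (cons (fin 1227 5 971)
(mv 1162 (cons (fin 1097 3 1097)
(fin 1161 2 1097)))))))))))
(mv 908 (cons (fin 972 7 908)
(mv 1230 (cons (fin 1166 4 973)
(mv 1229 (cons (fin 1294 4 1037)
(mv 1293 (cons (fin 1357 7 1100)
(fin 1102 6 1037)))))))))))))))
(cons (mv 973 (cons (fin 909 5 908)
(mv 1228 (cons (fin 1165 5 972)
(fin 1292 6 1036)))))
(mv 973 (cons (fin 909 5 908)
(mv 1228 (cons (fin 1036 6 972)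
(fin 1292 6 1036)))))))))))))
(mv 1164 (cons (cons (mv 973 (cons (fin 909 5 908)
(mv 1228 (cons (fin 1165 5 972)
(fin 1036 6 972)))))
(mv 973 (cons (fin 909 5 908)
(mv 1165 (cons (mv 908 (cons (fin 972 7 908)
(mv 1166 (cons (fin 1230 4 973)
(mv 1099 (cons (fin 1167 3 1099)
(fin 1098 0 1098)))))))
(cons (mv 972 (cons (fin 908 7 908)
(mv 1036 (cons (fin 1229 7 972)
(mv 907 (cons (fin 971 7 907)
(mv 1163 (cons (fin 1227 5 971)
(mv 1162 (cons (fin 1161 2 1097)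
(fin 1102 2 1098)))))))))))
(mv 1166 (cons (fin 1230 4 973)
(mv 1099 (cons (fin 1167 3 1099)
(fin 1098 0 1098)))))))))))
(cons (mv 1228 (cons (fin 1292 6 1036)
(mv 1036 (cons (mv 971 (cons (fin 1035 7 971)
(mv 972 (cons (fin 907 7 907)
(mv 908 (cons (fin 844 4 844)
(fin 1165 4 908)))))))
(cons (mv 1227 (cons (fin 1291 5 1035)
(mv 972 (cons (fin 1163 5 971)
(mv 908 (cons (fin 844 4 844)
(fin 1165 4 908)))))))
(mv 1035 (cons (fin 971 7 971)
(mv 1034 (cons (fin 1033 0 1033)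
(fin 1102 0 1034))))))))))
(cons (mv 973 (cons (fin 909 5 908)
(mv 1228 (cons (fin 1036 6 972)
(fin 1292 6 1036)))))
(mv 973 (cons (fin 909 5 908)
(mv 1228 (cons (fin 1165 5 972)
(fin 1292 6 1036))))))))))
(cons (mv 1038 (cons (fin 1039 1 1036)
(mv 1099 (cons (fin 1098 2 1034)
(mv 1102 (cons (cons (mv 1034 (cons (fin 1035 3 1034)
(mv 1162 (cons (fin 1163 1 1098)
(mv 1166 (cons (fin 1167 0 1099)
(mv 973 (cons (fin 1230 7 973)
(fin 909 4 909)))))))))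
(mv 1035 (cons (fin 1034 3 1034)
(mv 1163 (cons (fin 1162 1 1098)
(mv 1227 (cons (mv 1036 (cons (fin 972 6 971)
(fin 1291 6 1035)))
(cons (mv 1290 (cons (fin 1226 5 1034)
(mv 1291 (cons (fin 1354 5 1098)
(mv 1292 (cons (fin 1228 4 1035)
(fin 1356 4 1099)))))))
(mv 972 (cons (fin 1036 6 971)
(mv 908 (cons (fin 971 6 907)
(mv 973 (cons (fin 1165 7 908)
(mv 844 (cons (fin 909 7 844)
(fin 780 4 780)))))))))))))))))
(cons (mv 1162 (cons (fin 1163 1 1098)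
(mv 1166 (cons (fin 1167 0 1099)
(mv 973 (cons (fin 1230 7 973)
(fin 909 4 909)))))))
(cons (mv 1034 (cons (fin 1035 3 1034)
(mv 1166 (cons (fin 1167 0 1099)
(mv 973 (cons (fin 1230 7 973)
(fin 909 4 909)))))))
(mv 1035 (cons (fin 1034 3 1034)
(mv 1163 (cons (fin 1162 1 1098)
(mv 1166 (cons (fin 1167 0 1099)
(mv 1230 (cons (fin 1294 7 1037)
(mv 1229 (cons (fin 1293 5 1037)
(mv 1231 (cons (fin 1295 4 1038)
(mv 1036 (cons (mv 972 (cons (fin 1165 7 972)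
(fin 908 5 907)))
(cons (mv 970 (cons (fin 971 3 970)
(mv 1227 (cons (fin 1291 6 1035)
(mv 1226 (cons (fin 1290 5 1034)
(mv 1228 (cons (fin 1165 2 1162)
(fin 1292 4 1035)))))))))
(mv 972 (cons (fin 908 5 907)
(fin 1227 6 971))))))))))))))))))))))))))
(mv 1038 (cons (fin 1039 1 1036)
(mv 1164 (cons (cons (mv 973 (cons (fin 909 5 908)
(mv 1228 (cons (fin 1165 5 972)
(fin 1036 6 972)))))
(mv 1228 (cons (fin 1292 6 1036)
(mv 1036 (cons (mv 971 (cons (fin 1035 7 971)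
(mv 972 (cons (fin 907 7 907)
(mv 908 (cons (fin 844 4 844)
(fin 1165 4 908)))))))
(cons (mv 1227 (cons (fin 1291 5 1035)
(mv 972 (cons (fin 1163 5 971)
(mv 908 (cons (fin 844 4 844)
(fin 1165 4 908)))))))
(mv 1035 (cons (fin 971 7 971)
(mv 1034 (cons (fin 1033 0 1033)
(fin 1102 0 1034)))))))))))
(cons (mv 973 (cons (fin 909 5 908)
(mv 1165 (cons (cons (mv 908 (cons (fin 972 7 908)
(mv 1230 (cons (fin 1166 4 973)
(mv 1229 (cons (fin 1294 4 1037)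
(mv 1293 (cons (fin 1036 7 1036)
(fin 1357 7 1100)))))))))
(mv 1230 (cons (fin 1166 4 973)
(mv 1229 (cons (fin 1294 4 1037)
(mv 1293 (cons (fin 1036 7 1036)
(fin 1357 7 1100))))))))
(cons (mv 972 (cons (fin 908 7 908)
(mv 970 (cons (fin 971 0 970)
(mv 1036 (cons (fin 1229 7 972)
(mv 1163 (cons (fin 1227 5 971)
(mv 1162 (cons (fin 1161 2 1097)
(fin 1102 2 1098)))))))))))
(cons (mv 972 (cons (fin 908 7 908)
(mv 971 (cons (fin 970 0 970)
(mv 1036 (cons (fin 907 7 907)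
(mv 1163 (cons (fin 1227 5 971)
(mv 1162 (cons (fin 1161 2 1097)
(fin 1102 2 1098)))))))))))
(mv 908 (cons (fin 972 7 908)
(mv 1230 (cons (fin 1166 4 973)
(mv 1229 (cons (fin 1294 4 1037)
(mv 1293 (cons (fin 1357 7 1100)
(fin 1102 6 1037)))))))))))))))
(cons (mv 973 (cons (fin 909 5 908)
(mv 1228 (cons (fin 1165 5 972)
(fin 1292 6 1036)))))
(mv 973 (cons (fin 909 5 908)
(mv 1228 (cons (fin 1036 6 972)
(fin 1292 6 1036)))))))))))))
(cons (cons (mv 1038 (cons (fin 1039 1 1036)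
(mv 1099 (cons (fin 1098 2 1034)
(mv 1102 (cons (cons (mv 1034 (cons (fin 1035 3 1034)
(mv 1163 (cons (fin 1162 1 1098)
(mv 1166 (cons (fin 1167 0 1099)
(mv 1230 (cons (fin 1294 7 1037)
(mv 1229 (cons (fin 1293 5 1037)
(mv 1231 (cons (fin 1295 4 1038)
(mv 1164 (cons (fin 1228 3 1163)
(fin 1165 0 1163)))))))))))))))
(cons (mv 1163 (cons (fin 1162 1 1098)
(mv 1166 (cons (fin 1167 0 1099)
(mv 1230 (cons (fin 1294 7 1037)
(mv 1229 (cons (fin 1293 5 1037)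
(mv 1231 (cons (fin 1295 4 1038)
(mv 1164 (cons (fin 1228 3 1163)
(fin 1165 0 1163)))))))))))))
(mv 1035 (cons (fin 1034 3 1034)
(mv 1163 (cons (fin 1162 1 1098)
(mv 971 (cons (mv 970 (cons (fin 1036 3 970)
(fin 906 7 906)))
(mv 1164 (cons (fin 907 4 907)
(fin 1228 4 971)))))))))))
(cons (mv 1035 (cons (fin 1034 3 1034)
(mv 1166 (cons (fin 1167 0 1099)
(mv 1230 (cons (fin 1294 7 1037)
(mv 1229 (cons (fin 1293 5 1037)
(mv 1231 (cons (fin 1295 4 1038)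
(mv 1232 (cons (mv 1165 (cons (fin 1164 3 1164)
(fin 1233 3 1165)))
(cons (mv 1168 (cons (fin 1169 2 1165)
(mv 1297 (cons (fin 1296 0 1229)
(mv 1233 (cons (fin 1298 0 1230)
(fin 1104 4 1040)))))))
(mv 1164 (cons (fin 1165 3 1164)
(mv 971 (cons (fin 907 4 907)
(mv 1036 (cons (fin 970 3 970)
(fin 1228 7 971))))))))))))))))))))
(cons (mv 1035 (cons (fin 1034 3 1034)
(mv 1163 (cons (fin 1162 1 1098)
(mv 1166 (cons (fin 1167 0 1099)
(mv 1230 (cons (fin 1294 7 1037)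
(mv 1229 (cons (fin 1293 5 1037)
(mv 1231 (cons (fin 1295 4 1038)
(mv 1036 (cons (mv 972 (cons (fin 1165 7 972)
(fin 908 5 907)))
(cons (mv 970 (cons (fin 971 3 970)
(mv 1227 (cons (fin 1291 6 1035)
(mv 1226 (cons (fin 1290 5 1034)
(mv 1228 (cons (fin 1165 2 1162)
(fin 1292 4 1035)))))))))
(mv 972 (cons (fin 908 5 907)
(fin 1227 6 971))))))))))))))))))
(mv 1035 (cons (fin 1034 3 1034)
(mv 1163 (cons (fin 1162 1 1098)
(mv 1166 (cons (fin 1167 0 1099)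
(mv 1230 (cons (fin 1294 7 1037)
(mv 1229 (cons (fin 1293 5 1037)
(mv 1231 (cons (fin 1295 4 1038)
(mv 1164 (cons (fin 1165 0 1163)
(mv 971 (cons (fin 907 4 907)
(mv 970 (cons (fin 1036 3 970)
(fin 906 7 906)))))))))))))))))))))))))))
(mv 1038 (cons (fin 1039 1 1036)
(mv 1099 (cons (fin 1098 2 1034)
(mv 1102 (cons (cons (mv 1034 (cons (fin 1035 3 1034)
(mv 1162 (cons (fin 1163 1 1098)
(mv 1166 (cons (fin 1167 0 1099)
(mv 973 (cons (fin 1230 7 973)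
(fin 909 4 909)))))))))
(mv 1035 (cons (fin 1034 3 1034)
(mv 1162 (cons (fin 1163 1 1098)
(mv 973 (cons (mv 909 (cons (fin 1164 5 908)
(fin 845 4 845)))
(cons (mv 971 (cons (mv 970 (cons (fin 1036 3 970)
(fin 972 0 970)))
(cons (mv 907 (cons (fin 1164 4 907)
(mv 842 (cons (fin 906 7 842)
(mv 843 (cons (fin 778 7 778)
(fin 1036 4 843)))))))
(mv 907 (cons (fin 1164 4 907)
(mv 842 (cons (fin 906 7 842)
(mv 778 (cons (fin 843 7 778)
(mv 908 (cons (fin 844 6 843)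
(mv 972 (cons (fin 970 0 970)
(fin 1165 7 908))))))))))))))
(mv 909 (cons (fin 845 4 845)
(mv 908 (cons (fin 844 7 844)
(mv 910 (cons (fin 846 6 845)
(mv 972 (cons (fin 1165 7 908)
(mv 911 (cons (fin 971 1 907)
(fin 912 1 908)))))))))))))))))))
(cons (mv 1162 (cons (fin 1163 1 1098)
(mv 1166 (cons (fin 1167 0 1099)
(mv 973 (cons (fin 1230 7 973)
(fin 909 4 909)))))))
(cons (mv 1034 (cons (fin 1035 3 1034)
(mv 1166 (cons (fin 1167 0 1099)
(mv 973 (cons (fin 1230 7 973)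
(fin 909 4 909)))))))
(mv 1035 (cons (fin 1034 3 1034)
(mv 1163 (cons (fin 1162 1 1098)
(mv 1166 (cons (fin 1167 0 1099)
(mv 1230 (cons (fin 1294 7 1037)
(mv 1229 (cons (fin 1293 5 1037)
(mv 1231 (cons (fin 1295 4 1038)
(mv 1164 (cons (fin 1165 0 1163)
(mv 971 (cons (fin 907 4 907)
(mv 970 (cons (fin 1036 3 970)
(fin 906 7 906))))))))))))))))))))))))))))
(cons (mv 1038 (cons (fin 1039 1 1036)
(mv 1099 (cons (fin 1098 2 1034)
(mv 1102 (cons (cons (mv 1034 (cons (fin 1035 3 1034)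
(mv 1162 (cons (fin 1163 1 1098)
(mv 1166 (cons (fin 1167 0 1099)
(mv 973 (cons (fin 1230 7 973)
(fin 909 4 909)))))))))
(mv 1035 (cons (fin 1034 3 1034)
(mv 1163 (cons (fin 1162 1 1098)
(mv 1164 (cons (mv 971 (cons (fin 907 4 907)
(fin 1228 4 971)))
(cons (mv 971 (cons (fin 907 4 907)
(mv 970 (cons (fin 906 7 906)
(mv 972 (cons (fin 973 0 970)
(fin 908 6 907)))))))
(mv 973 (cons (fin 909 5 908)
(mv 1228 (cons (fin 1292 7 1035)
(fin 1165 5 972)))))))))))))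
(cons (mv 1034 (cons (fin 1035 3 1034)
(mv 1166 (cons (fin 1167 0 1099)
(mv 973 (cons (fin 1230 7 973)
(fin 909 4 909)))))))
(cons (mv 1162 (cons (fin 1163 1 1098)
(mv 1166 (cons (fin 1167 0 1099)
(mv 973 (cons (fin 1230 7 973)
(fin 909 4 909)))))))
(mv 1034 (cons (fin 1035 3 1034)
(mv 1163 (cons (fin 1162 1 1098)
(mv 1166 (cons (fin 1167 0 1099)
(mv 1230 (cons (fin 1294 7 1037)
(mv 1229 (cons (fin 1293 5 1037)
(mv 1231 (cons (fin 1295 4 1038)
(mv 1164 (cons (fin 1228 3 1163)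
(fin 1165 0 1163)))))))))))))))))))))))
(mv 1038 (cons (fin 1039 1 1036)
(mv 1099 (cons (fin 1098 2 1034)
(mv 1102 (cons (cons (mv 1034 (cons (fin 1035 3 1034)
(mv 1162 (cons (fin 1163 1 1098)
(mv 1166 (cons (fin 1167 0 1099)
(mv 973 (cons (fin 1230 7 973)
(fin 909 4 909)))))))))
(mv 1035 (cons (fin 1034 3 1034)
(mv 1162 (cons (fin 1163 1 1098)
(mv 971 (cons (cons (mv 907 (cons (fin 1164 4 907)
(mv 1036 (cons (fin 970 3 970)
(fin 843 4 843)))))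
(mv 970 (cons (fin 1036 3 970)
(mv 973 (cons (fin 972 0 970)
(mv 909 (cons (fin 845 4 845)
(mv 908 (cons (fin 844 7 844)
(mv 910 (cons (fin 907 1 906)
(fin 846 6 845))))))))))))
(cons (mv 970 (cons (fin 1036 3 970)
(mv 973 (cons (fin 972 0 970)
(mv 909 (cons (fin 1164 5 908)
(fin 845 4 845)))))))
(mv 907 (cons (fin 1164 4 907)
(mv 842 (cons (fin 906 7 842)
(mv 843 (cons (fin 778 7 778)
(mv 844 (cons (fin 780 6 779)
(fin 908 6 843)))))))))))))))))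
(cons (mv 1162 (cons (fin 1163 1 1098)
(mv 1166 (cons (fin 1167 0 1099)
(mv 973 (cons (fin 1230 7 973)
(fin 909 4 909)))))))
(cons (mv 1034 (cons (fin 1035 3 1034)
(mv 1166 (cons (fin 1167 0 1099)
(mv 973 (cons (fin 1230 7 973)
(fin 909 4 909)))))))
(mv 1034 (cons (fin 1035 3 1034)
(mv 1163 (cons (fin 1162 1 1098)
(mv 1166 (cons (fin 1167 0 1099)
(mv 1230 (cons (fin 1294 7 1037)
(mv 1229 (cons (fin 1293 5 1037)
(mv 1231 (cons (fin 1295 4 1038)
(mv 1228 (cons (fin 1164 3 1163)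
(mv 1291 (cons (fin 1292 1 1227)
(mv 1227 (cons (fin 1290 1 1226)
(fin 1036 6 1035))))))))))))))))))))))))))))))
(cons (cons (cons (mv 1038 (cons (fin 1039 1 1036)
(mv 1098 (cons (fin 1099 2 1034)
(mv 973 (cons (cons (mv 909 (cons (fin 1164 5 908)
(mv 844 (cons (fin 908 7 844)
(mv 845 (cons (fin 780 7 780)
(fin 1036 5 844)))))))
(mv 1165 (cons (cons (cons (mv 908 (cons (fin 972 7 908)
(mv 1164 (cons (fin 1228 5 972)
(mv 1230 (cons (fin 1166 4 973)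
(mv 1229 (cons (fin 1294 4 1037)
(mv 1293 (cons (fin 1036 7 1036)
(fin 1357 7 1100)))))))))))
(mv 1164 (cons (fin 1228 5 972)
(mv 1230 (cons (fin 1166 4 973)
(mv 1229 (cons (fin 1294 4 1037)
(mv 1293 (cons (fin 1036 7 1036)
(fin 1357 7 1100))))))))))
(cons (mv 908 (cons (fin 972 7 908)
(mv 1230 (cons (fin 1166 4 973)
(mv 1229 (cons (fin 1294 4 1037)
(mv 1293 (cons (fin 1036 7 1036)
(mv 1356 (cons (fin 1292 5 1100)
(mv 1357 (cons (fin 1164 7 1100)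
(fin 1420 5 1164)))))))))))))
(mv 908 (cons (fin 972 7 908)
(mv 1230 (cons (fin 1166 4 973)
(mv 1229 (cons (fin 1294 4 1037)
(mv 1292 (cons (fin 1228 5 1036)
(mv 1293 (cons (fin 1036 7 1036)
(fin 1356 5 1100)))))))))))))
(cons (cons (mv 908 (cons (fin 972 7 908)
(mv 1228 (cons (fin 1164 5 972)
(mv 1229 (cons (fin 1292 5 1036)
(mv 1293 (cons (fin 1036 7 1036)
(mv 1294 (cons (fin 1230 4 1037)
(fin 1358 4 1101)))))))))))
(mv 972 (cons (fin 908 7 908)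
(mv 970 (cons (fin 971 0 970)
(mv 1036 (cons (fin 1229 7 972)
(mv 1164 (cons (fin 1228 5 972)
(mv 1163 (cons (fin 1227 5 971)
(mv 1162 (cons (fin 1097 3 1097)
(fin 1161 2 1097))))))))))))))
(cons (mv 908 (cons (fin 972 7 908)
(mv 1228 (cons (fin 1164 5 972)
(mv 1229 (cons (fin 1292 5 1036)
(mv 1230 (cons (fin 1166 4 973)
(fin 1294 4 1037)))))))))
(mv 972 (cons (fin 908 7 908)
(mv 971 (cons (fin 970 0 970)
(mv 1164 (cons (fin 1228 5 972)
(mv 1036 (cons (fin 907 7 907)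
(mv 1163 (cons (fin 1227 5 971)
(mv 1162 (cons (fin 1097 3 1097)
(fin 1161 2 1097))))))))))))))))))
(cons (mv 909 (cons (cons (mv 844 (cons (fin 908 7 844)
(mv 845 (cons (fin 780 7 780)
(fin 1036 5 844)))))
(mv 846 (cons (fin 910 6 845)
(mv 908 (cons (fin 844 7 844)
(mv 1165 (cons (fin 972 7 908)
(mv 1230 (cons (fin 1166 4 973)
(mv 1229 (cons (fin 1294 4 1037)
(mv 1292 (cons (fin 1228 5 1036)
(mv 1293 (cons (fin 1036 7 1036)
(fin 1356 5 1100))))))))))))))))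
(cons (mv 845 (cons (fin 1036 5 844)
(mv 846 (cons (fin 782 6 781)
(fin 910 6 845)))))
(mv 844 (cons (fin 908 7 844)
(mv 845 (cons (fin 780 7 780)
(mv 846 (cons (fin 782 6 781)
(fin 910 6 845))))))))))
(cons (mv 909 (cons (fin 1164 5 908)
(mv 844 (cons (fin 908 7 844)
(mv 845 (cons (fin 780 7 780)
(mv 846 (cons (fin 782 6 781)
(fin 910 6 845)))))))))
(mv 909 (cons (fin 1164 5 908)
(mv 845 (cons (fin 1036 5 844)
(mv 846 (cons (fin 782 6 781)
(fin 910 6 845)))))))))))))))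
(mv 1038 (cons (fin 1039 1 1036)
(mv 1098 (cons (fin 1099 2 1034)
(mv 973 (cons (cons (mv 909 (cons (fin 1164 5 908)
(mv 845 (cons (fin 1036 5 844)
(fin 1102 4 845)))))
(mv 1165 (cons (cons (mv 908 (cons (fin 972 7 908)
(mv 1228 (cons (fin 1164 5 972)
(mv 1229 (cons (fin 1292 5 1036)
(mv 1293 (cons (fin 1036 7 1036)
(fin 1102 6 1037)))))))))
(cons (mv 1228 (cons (fin 1164 5 972)
(mv 1229 (cons (fin 1292 5 1036)
(mv 1293 (cons (fin 1036 7 1036)
(fin 1102 6 1037)))))))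
(mv 972 (cons (fin 908 7 908)
(mv 970 (cons (fin 971 0 970)
(mv 1229 (cons (fin 1036 7 972)
(mv 1230 (cons (fin 1294 4 1037)
(mv 1293 (cons (fin 1102 6 1037)
(mv 1356 (cons (fin 1292 5 1100)
(mv 1357 (cons (fin 1164 7 1100)
(fin 1420 5 1164)))))))))))))))))
(cons (mv 972 (cons (fin 908 7 908)
(mv 970 (cons (fin 971 0 970)
(mv 1229 (cons (fin 1036 7 972)
(mv 1228 (cons (fin 1292 5 1036)
(mv 1293 (cons (fin 1102 6 1037)
(mv 1294 (cons (fin 1230 4 1037)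
(fin 1358 4 1101)))))))))))))
(cons (mv 972 (cons (fin 908 7 908)
(mv 971 (cons (fin 970 0 970)
(mv 1164 (cons (fin 1228 5 972)
(mv 1036 (cons (fin 907 7 907)
(mv 1163 (cons (fin 1227 5 971)
(mv 1162 (cons (fin 1097 3 1097)
(fin 1161 2 1097)))))))))))))
(mv 908 (cons (fin 972 7 908)
(mv 1228 (cons (fin 1164 5 972)
(mv 1229 (cons (fin 1292 5 1036)
(mv 1293 (cons (fin 1102 6 1037)
(mv 1294 (cons (fin 1230 4 1037)
(fin 1358 4 1101))))))))))))))))
(cons (mv 909 (cons (mv 845 (cons (fin 1036 5 844)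
(fin 1102 4 845)))
(mv 908 (cons (fin 844 7 844)
(mv 910 (cons (fin 846 6 845)
(mv 972 (cons (fin 1165 7 908)
(mv 911 (cons (fin 971 1 907)
(fin 912 1 908)))))))))))
(cons (mv 909 (cons (fin 1164 5 908)
(mv 844 (cons (fin 908 7 844)
(mv 845 (cons (fin 780 7 780)
(fin 1102 4 845)))))))
(mv 909 (cons (fin 1164 5 908)
(mv 844 (cons (fin 908 7 844)
(mv 845 (cons (fin 780 7 780)
(fin 1036 5 844))))))))))))))))
(cons (mv 1038 (cons (fin 1039 1 1036)
(mv 1099 (cons (fin 1098 2 1034)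
(mv 1102 (cons (cons (mv 1034 (cons (fin 1035 3 1034)
(mv 1162 (cons (fin 1163 1 1098)
(mv 1166 (cons (fin 1167 0 1099)
(mv 973 (cons (fin 1230 7 973)
(fin 909 4 909)))))))))
(mv 1035 (cons (fin 1034 3 1034)
(mv 1163 (cons (fin 1162 1 1098)
(mv 1164 (cons (mv 971 (cons (fin 907 4 907)
(fin 1228 4 971)))
(cons (mv 909 (cons (fin 973 5 908)
(mv 971 (cons (fin 907 4 907)
(mv 970 (cons (fin 1036 3 970)
(fin 906 7 906)))))))
(mv 973 (cons (fin 909 5 908)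
(mv 1228 (cons (fin 1292 7 1035)
(fin 1165 5 972)))))))))))))
(cons (mv 1162 (cons (fin 1163 1 1098)
(mv 1166 (cons (fin 1167 0 1099)
(mv 973 (cons (fin 1230 7 973)
(fin 909 4 909)))))))
(cons (mv 1034 (cons (fin 1035 3 1034)
(mv 1166 (cons (fin 1167 0 1099)
(mv 973 (cons (fin 1230 7 973)
(fin 909 4 909)))))))
(mv 1034 (cons (fin 1035 3 1034)
(mv 1163 (cons (fin 1162 1 1098)
(mv 1166 (cons (fin 1167 0 1099)
(mv 1230 (cons (fin 1294 7 1037)
(mv 1229 (cons (fin 1293 5 1037)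
(mv 1231 (cons (fin 1295 4 1038)
(mv 1164 (cons (fin 1228 3 1163)
(fin 1165 0 1163)))))))))))))))))))))))
(mv 1038 (cons (fin 1039 1 1036)
(mv 1099 (cons (fin 1098 2 1034)
(mv 1102 (cons (cons (mv 1034 (cons (fin 1035 3 1034)
(mv 1162 (cons (fin 1163 1 1098)
(mv 1166 (cons (fin 1167 0 1099)
(mv 973 (cons (fin 1230 7 973)
(fin 909 4 909)))))))))
(mv 1035 (cons (fin 1034 3 1034)
(mv 1162 (cons (fin 1163 1 1098)
(mv 1164 (cons (cons (mv 907 (cons (fin 971 4 907)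
(mv 973 (cons (fin 909 5 908)
(mv 1228 (cons (fin 1292 7 1035)
(fin 1165 5 972)))))))
(mv 971 (cons (fin 907 4 907)
(mv 970 (cons (fin 1036 3 970)
(mv 973 (cons (fin 972 0 970)
(fin 909 5 908))))))))
(cons (mv 971 (cons (fin 907 4 907)
(mv 1036 (cons (fin 970 3 970)
(fin 1228 7 971)))))
(mv 973 (cons (fin 909 5 908)
(mv 1228 (cons (fin 1292 7 1035)
(fin 1165 5 972)))))))))))))
(cons (mv 1162 (cons (fin 1163 1 1098)
(mv 1166 (cons (fin 1167 0 1099)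
(mv 973 (cons (fin 1230 7 973)
(fin 909 4 909)))))))
(cons (mv 1034 (cons (fin 1035 3 1034)
(mv 1166 (cons (fin 1167 0 1099)
(mv 973 (cons (fin 1230 7 973)
(fin 909 4 909)))))))
(mv 1035 (cons (fin 1034 3 1034)
(mv 1163 (cons (fin 1162 1 1098)
(mv 1166 (cons (fin 1167 0 1099)
(mv 1230 (cons (fin 1294 7 1037)
(mv 1231 (cons (fin 1295 4 1038)
(mv 1164 (cons (fin 1165 0 1163)
(mv 971 (cons (fin 907 4 907)
(fin 1228 4 971)))))))))))))))))))))))))
(cons (cons (mv 1038 (cons (fin 1039 1 1036)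
(mv 1099 (cons (fin 1098 2 1034)
(mv 1102 (cons (cons (mv 1034 (cons (fin 1035 3 1034)
(mv 1166 (cons (fin 1167 0 1099)
(mv 973 (cons (fin 1230 7 973)
(fin 909 4 909)))))))
(mv 1035 (cons (fin 1034 3 1034)
(mv 1164 (cons (cons (mv 907 (cons (fin 971 4 907)
(mv 973 (cons (fin 909 5 908)
(mv 1228 (cons (fin 1292 7 1035)
(fin 1165 5 972)))))))
(mv 971 (cons (fin 907 4 907)
(mv 970 (cons (fin 1036 3 970)
(mv 973 (cons (fin 972 0 970)
(fin 909 5 908))))))))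
(cons (mv 973 (cons (fin 909 5 908)
(mv 1228 (cons (fin 1292 7 1035)
(fin 1165 5 972)))))
(mv 971 (cons (fin 907 4 907)
(mv 1036 (cons (fin 970 3 970)
(fin 1228 7 971)))))))))))
(cons (mv 1166 (cons (fin 1167 0 1099)
(mv 973 (cons (fin 1230 7 973)
(fin 909 4 909)))))
(mv 1034 (cons (fin 1035 3 1034)
(mv 1166 (cons (fin 1167 0 1099)
(mv 1230 (cons (fin 1294 7 1037)
(mv 1229 (cons (fin 1293 5 1037)
(mv 1231 (cons (fin 1295 4 1038)
(mv 1165 (cons (mv 1164 (cons (fin 1232 3 1164)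
(fin 1163 0 1163)))
(cons (mv 1036 (cons (fin 972 7 972)
(mv 1228 (cons (fin 1292 5 1036)
(mv 1227 (cons (fin 1226 2 1162)
(mv 1291 (cons (fin 1290 1 1226)
(fin 1163 6 1035)))))))))
(mv 1232 (cons (fin 1164 3 1164)
(fin 1233 3 1165)))))))))))))))))))))))
(mv 1038 (cons (fin 1039 1 1036)
(mv 1099 (cons (fin 1098 2 1034)
(mv 1102 (cons (cons (mv 1034 (cons (fin 1035 3 1034)
(mv 1163 (cons (fin 1162 1 1098)
(mv 1166 (cons (fin 1167 0 1099)
(mv 973 (cons (fin 909 4 909)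
(mv 1165 (cons (cons (mv 908 (cons (fin 972 7 908)
(mv 1164 (cons (fin 1228 5 972)
(mv 1227 (cons (fin 1226 1 1162)
(mv 1291 (cons (fin 1036 6 1035)
(fin 1355 6 1099)))))))))
(mv 1164 (cons (fin 1228 5 972)
(mv 1227 (cons (fin 1226 1 1162)
(mv 1291 (cons (fin 1036 6 1035)
(fin 1355 6 1099))))))))
(cons (mv 972 (cons (fin 908 7 908)
(mv 1229 (cons (fin 1036 7 972)
(fin 1293 6 1037)))))
(mv 908 (cons (fin 972 7 908)
(mv 1228 (cons (fin 1164 5 972)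
(mv 1229 (cons (fin 1292 5 1036)
(fin 1293 6 1037))))))))))))))))))
(cons (mv 1163 (cons (fin 1162 1 1098)
(mv 1166 (cons (fin 1167 0 1099)
(mv 973 (cons (fin 909 4 909)
(mv 1165 (cons (cons (mv 908 (cons (fin 972 7 908)
(mv 1164 (cons (fin 1228 5 972)
(mv 1227 (cons (fin 1226 1 1162)
(mv 1291 (cons (fin 1036 6 1035)
(fin 1355 6 1099)))))))))
(mv 1164 (cons (fin 1228 5 972)
(mv 1227 (cons (fin 1226 1 1162)
(mv 1291 (cons (fin 1036 6 1035)
(fin 1355 6 1099))))))))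
(cons (mv 972 (cons (fin 908 7 908)
(mv 1229 (cons (fin 1036 7 972)
(fin 1293 6 1037)))))
(mv 908 (cons (fin 972 7 908)
(mv 1228 (cons (fin 1164 5 972)
(mv 1229 (cons (fin 1292 5 1036)
(fin 1293 6 1037))))))))))))))))
(mv 1035 (cons (fin 1034 3 1034)
(mv 1162 (cons (fin 1163 1 1098)
(mv 1164 (cons (cons (mv 907 (cons (fin 971 4 907)
(mv 973 (cons (fin 909 5 908)
(mv 1228 (cons (fin 1292 7 1035)
(fin 1165 5 972)))))))
(mv 971 (cons (fin 907 4 907)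
(mv 970 (cons (fin 1036 3 970)
(mv 973 (cons (fin 972 0 970)
(fin 909 5 908))))))))
(cons (mv 971 (cons (fin 907 4 907)
(mv 1036 (cons (fin 970 3 970)
(fin 1228 7 971)))))
(mv 973 (cons (fin 909 5 908)
(mv 1228 (cons (fin 1292 7 1035)
(fin 1165 5 972))))))))))))))
(cons (cons (mv 1035 (cons (fin 1034 3 1034)
(mv 1166 (cons (fin 1167 0 1099)
(mv 973 (cons (fin 909 4 909)
(mv 1164 (cons (mv 1228 (cons (fin 1292 7 1035)
(fin 1165 5 972)))
(mv 971 (cons (fin 907 4 907)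
(mv 970 (cons (fin 1036 3 970)
(fin 972 0 970)))))))))))))
(mv 1035 (cons (fin 1034 3 1034)
(mv 1163 (cons (fin 1162 1 1098)
(mv 1166 (cons (fin 1167 0 1099)
(mv 971 (cons (mv 970 (cons (fin 1036 3 970)
(fin 906 7 906)))
(mv 1164 (cons (fin 907 4 907)
(fin 1228 4 971))))))))))))
(cons (mv 1035 (cons (fin 1034 3 1034)
(mv 1162 (cons (fin 1163 1 1098)
(mv 1166 (cons (fin 1167 0 1099)
(mv 971 (cons (cons (mv 909 (cons (fin 973 4 909)
(mv 1036 (cons (fin 970 3 970)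
(mv 907 (cons (fin 843 4 843)
(mv 842 (cons (fin 906 7 842)
(mv 908 (cons (fin 844 6 843)
(mv 972 (cons (fin 845 6 844)
(fin 1165 4 908)))))))))))))
(cons (mv 907 (cons (mv 1036 (cons (fin 970 3 970)
(fin 843 4 843)))
(cons (mv 842 (cons (fin 906 7 842)
(mv 843 (cons (fin 778 7 778)
(mv 844 (cons (fin 780 6 779)
(fin 908 6 843)))))))
(mv 842 (cons (fin 906 7 842)
(mv 908 (cons (fin 844 6 843)
(mv 970 (cons (fin 1036 3 970)
(mv 909 (cons (fin 910 1 906)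
(mv 969 (cons (fin 968 2 904)
(fin 972 2 905))))))))))))))
(mv 973 (cons (fin 909 4 909)
(mv 972 (cons (fin 970 0 970)
(mv 908 (cons (fin 1165 7 908)
(mv 844 (cons (fin 780 5 779)
(fin 907 6 843)))))))))))
(cons (cons (mv 973 (cons (fin 909 4 909)
(mv 907 (cons (mv 842 (cons (fin 906 7 842)
(mv 843 (cons (fin 778 7 778)
(fin 1036 4 843)))))
(cons (mv 906 (cons (fin 842 7 842)
(mv 908 (cons (fin 844 6 843)
(mv 972 (cons (fin 905 0 905)
(fin 1165 7 908)))))))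
(mv 843 (cons (fin 1036 4 843)
(mv 844 (cons (fin 780 6 779)
(fin 908 6 843))))))))))
(mv 1036 (cons (fin 970 3 970)
(mv 907 (cons (fin 843 4 843)
(mv 906 (cons (fin 842 7 842)
(mv 908 (cons (fin 844 6 843)
(mv 972 (cons (fin 1165 4 908)
(mv 905 (cons (fin 904 0 904)
(fin 973 0 905))))))))))))))
(cons (mv 970 (cons (fin 1036 3 970)
(mv 973 (cons (fin 972 0 970)
(fin 909 4 909)))))
(mv 909 (cons (fin 973 4 909)
(mv 907 (cons (mv 1036 (cons (fin 970 3 970)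
(fin 843 4 843)))
(cons (mv 842 (cons (fin 906 7 842)
(mv 843 (cons (fin 778 7 778)
(mv 844 (cons (fin 780 6 779)
(fin 908 6 843)))))))
(mv 842 (cons (fin 906 7 842)
(mv 908 (cons (fin 844 6 843)
(mv 970 (cons (fin 1036 3 970)
(fin 910 1 906))))))))))))))))))))))
(mv 1035 (cons (fin 1034 3 1034)
(mv 1162 (cons (fin 1163 1 1098)
(mv 1166 (cons (fin 1167 0 1099)
(mv 973 (cons (fin 909 4 909)
(mv 971 (cons (cons (mv 907 (cons (fin 1164 4 907)
(mv 842 (cons (fin 906 7 842)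
(mv 778 (cons (fin 843 7 778)
(mv 908 (cons (fin 844 6 843)
(mv 972 (cons (fin 970 0 970)
(fin 1165 7 908)))))))))))
(mv 972 (cons (fin 970 0 970)
(mv 908 (cons (fin 1165 7 908)
(mv 844 (cons (fin 780 5 779)
(fin 907 6 843))))))))
(cons (mv 972 (cons (fin 970 0 970)
(mv 1165 (cons (fin 908 7 908)
(mv 1228 (cons (fin 1164 5 972)
(mv 1229 (cons (fin 1292 5 1036)
(fin 1293 6 1037)))))))))
(cons (mv 907 (cons (fin 1164 4 907)
(mv 842 (cons (fin 906 7 842)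
(mv 843 (cons (fin 778 7 778)
(mv 844 (cons (fin 780 6 779)
(fin 908 6 843)))))))))
(mv 970 (cons (fin 972 0 970)
(mv 1164 (cons (fin 907 4 907)
(mv 1228 (cons (fin 1292 7 1035)
(fin 1165 5 972))))))))))))))))))))))))))))
(cons (mv 1038 (cons (fin 1039 1 1036)
(mv 1099 (cons (fin 1098 2 1034)
(mv 1102 (cons (cons (mv 1034 (cons (fin 1035 3 1034)
(mv 1166 (cons (fin 1167 0 1099)
(mv 973 (cons (fin 1230 7 973)
(fin 909 4 909)))))))
(mv 1035 (cons (fin 1034 3 1034)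
(mv 1164 (cons (cons (mv 907 (cons (fin 971 4 907)
(mv 973 (cons (fin 909 5 908)
(mv 1228 (cons (fin 1292 7 1035)
(fin 1165 5 972)))))))
(mv 971 (cons (fin 907 4 907)
(mv 970 (cons (fin 1036 3 970)
(mv 973 (cons (fin 972 0 970)
(fin 909 5 908))))))))
(cons (mv 971 (cons (fin 907 4 907)
(mv 1036 (cons (fin 970 3 970)
(fin 1228 7 971)))))
(mv 973 (cons (fin 909 5 908)
(mv 1228 (cons (fin 1292 7 1035)
(fin 1165 5 972)))))))))))
(cons (mv 1166 (cons (fin 1167 0 1099)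
(mv 973 (cons (fin 1230 7 973)
(fin 909 4 909)))))
(mv 1035 (cons (fin 1034 3 1034)
(mv 1166 (cons (fin 1167 0 1099)
(mv 1230 (cons (fin 1294 7 1037)
(mv 1229 (cons (fin 1293 5 1037)
(mv 1231 (cons (fin 1295 4 1038)
(mv 1232 (cons (mv 1165 (cons (fin 1164 3 1164)
(fin 1233 3 1165)))
(cons (mv 1168 (cons (fin 1169 2 1165)
(mv 1297 (cons (fin 1296 0 1229)
(mv 1233 (cons (fin 1298 0 1230)
(fin 1104 4 1040)))))))
(mv 1164 (cons (fin 1165 3 1164)
(mv 971 (cons (fin 907 4 907)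
(mv 1036 (cons (fin 970 3 970)
(fin 1228 7 971)))))))))))))))))))))))))))
(mv 1038 (cons (fin 1039 1 1036)
(mv 1099 (cons (fin 1098 2 1034)
(mv 1102 (cons (cons (mv 1034 (cons (fin 1035 3 1034)
(mv 1162 (cons (fin 1163 1 1098)
(mv 1166 (cons (fin 1167 0 1099)
(mv 973 (cons (fin 1230 7 973)
(fin 909 4 909)))))))))
(mv 1035 (cons (fin 1034 3 1034)
(mv 1163 (cons (fin 1162 1 1098)
(mv 1227 (cons (mv 1036 (cons (fin 972 6 971)
(fin 1291 6 1035)))
(cons (mv 1228 (cons (fin 1292 4 1035)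
(mv 1290 (cons (fin 1226 5 1034)
(mv 1291 (cons (fin 1354 5 1098)
(mv 1164 (cons (fin 1355 6 1099)
(mv 973 (cons (fin 909 5 908)
(fin 1165 5 972)))))))))))
(mv 1036 (cons (fin 972 6 971)
(mv 1226 (cons (fin 1290 5 1034)
(mv 1228 (cons (fin 1292 4 1035)
(mv 1164 (cons (fin 973 6 972)
(mv 1225 (cons (fin 1224 2 1160)
(fin 1165 2 1161)))))))))))))))))))
(cons (mv 1162 (cons (fin 1163 1 1098)
(mv 1166 (cons (fin 1167 0 1099)
(mv 973 (cons (fin 1230 7 973)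
(fin 909 4 909)))))))
(cons (mv 1034 (cons (fin 1035 3 1034)
(mv 1166 (cons (fin 1167 0 1099)
(mv 973 (cons (fin 1230 7 973)
(fin 909 4 909)))))))
(mv 1034 (cons (fin 1035 3 1034)
(mv 1163 (cons (fin 1162 1 1098)
(mv 1166 (cons (fin 1167 0 1099)
(mv 1230 (cons (fin 1294 7 1037)
(mv 1229 (cons (fin 1293 5 1037)
(mv 1231 (cons (fin 1295 4 1038)
(mv 1164 (cons (fin 1228 3 1163)
(fin 1165 0 1163))))))))))))))))))))))))))))
(mv 1100 (cons (cons (cons (mv 1038 (cons (fin 1039 1 1036)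
(mv 1098 (cons (fin 1099 2 1034)
(mv 1164 (cons (cons (mv 973 (cons (fin 909 5 908)
(mv 1228 (cons (fin 1165 5 972)
(fin 1036 6 972)))))
(mv 1228 (cons (fin 1292 6 1036)
(mv 1036 (cons (mv 971 (cons (fin 1035 7 971)
(mv 972 (cons (fin 907 7 907)
(mv 908 (cons (fin 844 4 844)
(fin 1165 4 908)))))))
(cons (mv 1227 (cons (fin 1291 5 1035)
(mv 972 (cons (fin 1163 5 971)
(mv 908 (cons (fin 844 4 844)
(fin 1165 4 908)))))))
(mv 1035 (cons (fin 971 7 971)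
(mv 1034 (cons (fin 1097 1 1033)
(fin 1033 0 1033)))))))))))
(cons (mv 973 (cons (fin 909 5 908)
(mv 1165 (cons (cons (mv 908 (cons (fin 972 7 908)
(mv 1166 (cons (fin 1230 4 973)
(mv 1167 (cons (fin 1168 3 1100)
(mv 1103 (cons (fin 1104 2 1100)
(mv 1102 (cons (fin 1163 1 1099)
(mv 1231 (cons (fin 1232 0 1164)
(fin 1295 7 1038)))))))))))))
(mv 1166 (cons (fin 1230 4 973)
(mv 1167 (cons (fin 1168 3 1100)
(mv 1103 (cons (fin 1104 2 1100)
(mv 1102 (cons (fin 1163 1 1099)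
(mv 1231 (cons (fin 1232 0 1164)
(fin 1295 7 1038))))))))))))
(cons (mv 972 (cons (fin 908 7 908)
(mv 970 (cons (fin 971 0 970)
(mv 1036 (cons (fin 1229 7 972)
(mv 1163 (cons (fin 1227 5 971)
(mv 1102 (cons (fin 1103 1 1099)
(fin 1162 2 1098)))))))))))
(cons (mv 972 (cons (fin 908 7 908)
(mv 970 (cons (fin 971 0 970)
(mv 1036 (cons (fin 1229 7 972)
(mv 1163 (cons (fin 1227 5 971)
(mv 1162 (cons (fin 1097 3 1097)
(fin 1161 2 1097)))))))))))
(mv 972 (cons (fin 908 7 908)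
(mv 970 (cons (fin 971 0 970)
(mv 1036 (cons (fin 1229 7 972)
(mv 1166 (cons (fin 1230 4 973)
(mv 1167 (cons (fin 1168 3 1100)
(mv 1103 (cons (fin 1104 2 1100)
(mv 1035 (cons (fin 1102 3 1035)
(mv 1034 (cons (fin 969 3 969)
(fin 1097 1 1033)))))))))))))))))))))))
(cons (mv 973 (cons (fin 909 5 908)
(mv 1228 (cons (fin 1165 5 972)
(fin 1292 6 1036)))))
(mv 973 (cons (fin 909 5 908)
(mv 1228 (cons (fin 1036 6 972)
(fin 1292 6 1036)))))))))))))
(mv 1164 (cons (cons (mv 973 (cons (fin 909 5 908)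
(mv 1228 (cons (fin 1165 5 972)
(fin 1036 6 972)))))
(mv 973 (cons (fin 909 5 908)
(mv 1165 (cons (mv 908 (cons (fin 972 7 908)
(mv 1166 (cons (fin 1230 4 973)
(mv 1099 (cons (fin 1167 3 1099)
(fin 1098 0 1098)))))))
(cons (mv 972 (cons (fin 908 7 908)
(mv 1036 (cons (fin 1229 7 972)
(mv 907 (cons (fin 971 7 907)
(mv 1163 (cons (fin 1227 5 971)
(mv 1102 (cons (fin 1103 1 1099)
(fin 1162 2 1098)))))))))))
(mv 1166 (cons (fin 1230 4 973)
(mv 1099 (cons (fin 1167 3 1099)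
(fin 1098 0 1098)))))))))))
(cons (mv 1228 (cons (fin 1292 6 1036)
(mv 1036 (cons (mv 971 (cons (fin 1035 7 971)
(mv 972 (cons (fin 907 7 907)
(mv 908 (cons (fin 844 4 844)
(fin 1165 4 908)))))))
(cons (mv 1227 (cons (fin 1291 5 1035)
(mv 972 (cons (fin 1163 5 971)
(mv 908 (cons (fin 844 4 844)
(fin 1165 4 908)))))))
(mv 1035 (cons (fin 971 7 971)
(mv 1034 (cons (fin 1033 0 1033)
(fin 1102 0 1034))))))))))
(cons (mv 973 (cons (fin 909 5 908)
(mv 1228 (cons (fin 1165 5 972)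
(fin 1292 6 1036)))))
(mv 973 (cons (fin 909 5 908)
(mv 1228 (cons (fin 1036 6 972)
(fin 1292 6 1036))))))))))
(cons (mv 1038 (cons (fin 1039 1 1036)
(mv 1099 (cons (fin 1098 2 1034)
(mv 1102 (cons (cons (mv 1034 (cons (fin 1035 3 1034)
(mv 1162 (cons (fin 1163 1 1098)
(mv 1166 (cons (fin 1167 0 1099)
(mv 973 (cons (fin 1230 7 973)
(fin 909 4 909)))))))))
(mv 1162 (cons (fin 1163 1 1098)
(mv 1166 (cons (fin 1167 0 1099)
(mv 973 (cons (fin 1230 7 973)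
(fin 909 4 909))))))))
(cons (mv 1035 (cons (fin 1034 3 1034)
(mv 1036 (cons (fin 1103 3 1035)
(mv 970 (cons (fin 971 3 970)
(mv 1163 (cons (fin 1162 1 1098)
(mv 972 (cons (fin 908 5 907)
(fin 1227 6 971)))))))))))
(mv 1034 (cons (fin 1035 3 1034)
(mv 1166 (cons (fin 1167 0 1099)
(mv 973 (cons (fin 1230 7 973)
(fin 909 4 909))))))))))))))
(cons (mv 1038 (cons (fin 1039 1 1036)
(mv 1099 (cons (fin 1098 2 1034)
(mv 1164 (cons (cons (mv 973 (cons (fin 909 5 908)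
(mv 1228 (cons (fin 1165 5 972)
(fin 1036 6 972)))))
(mv 973 (cons (fin 909 5 908)
(mv 1165 (cons (mv 1166 (cons (fin 1167 3 1099)
(fin 1230 4 973)))
(mv 972 (cons (fin 908 7 908)
(mv 971 (cons (fin 970 0 970)
(mv 907 (cons (fin 1036 7 907)
(fin 1035 4 907))))))))))))
(cons (mv 1228 (cons (fin 1292 6 1036)
(mv 1036 (cons (cons (mv 971 (cons (fin 1035 7 971)
(mv 972 (cons (fin 907 7 907)
(mv 908 (cons (fin 1163 5 907)
(fin 844 4 844)))))))
(mv 1227 (cons (fin 1291 5 1035)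
(mv 972 (cons (fin 1163 5 971)
(mv 908 (cons (fin 844 4 844)
(fin 1165 4 908))))))))
(cons (mv 1035 (cons (fin 971 7 971)
(mv 1034 (cons (fin 1033 0 1033)
(mv 970 (cons (fin 969 3 969)
(mv 1227 (cons (fin 1163 7 970)
(fin 1291 5 1035)))))))))
(mv 971 (cons (fin 1035 7 971)
(mv 972 (cons (fin 907 7 907)
(mv 908 (cons (fin 844 4 844)
(fin 1165 4 908))))))))))))
(cons (mv 973 (cons (fin 909 5 908)
(mv 1228 (cons (fin 1036 6 972)
(fin 1292 6 1036)))))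
(mv 973 (cons (fin 909 5 908)
(mv 1228 (cons (fin 1165 5 972)
(fin 1292 6 1036)))))))))))))
(mv 1038 (cons (fin 1039 1 1036)
(mv 1164 (cons (cons (mv 973 (cons (fin 909 5 908)
(mv 1228 (cons (fin 1165 5 972)
(fin 1036 6 972)))))
(mv 1228 (cons (fin 1292 6 1036)
(mv 1036 (cons (mv 971 (cons (fin 1035 7 971)
(mv 972 (cons (fin 907 7 907)
(mv 908 (cons (fin 844 4 844)
(fin 1165 4 908)))))))
(cons (mv 1227 (cons (fin 1291 5 1035)
(mv 972 (cons (fin 1163 5 971)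
(mv 908 (cons (fin 844 4 844)
(fin 1165 4 908)))))))
(mv 1035 (cons (fin 971 7 971)
(mv 1034 (cons (fin 1033 0 1033)
(fin 1102 0 1034)))))))))))
(cons (mv 973 (cons (fin 909 5 908)
(mv 1165 (cons (cons (mv 908 (cons (fin 972 7 908)
(mv 1166 (cons (fin 1230 4 973)
(mv 1167 (cons (fin 1168 3 1100)
(mv 1103 (cons (fin 1104 2 1100)
(mv 1102 (cons (fin 1163 1 1099)
(mv 1231 (cons (fin 1232 0 1164)
(fin 1295 7 1038)))))))))))))
(mv 1166 (cons (fin 1230 4 973)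
(mv 1167 (cons (fin 1168 3 1100)
(mv 1103 (cons (fin 1104 2 1100)
(mv 1102 (cons (fin 1163 1 1099)
(mv 1231 (cons (fin 1232 0 1164)
(fin 1295 7 1038))))))))))))
(cons (mv 972 (cons (fin 908 7 908)
(mv 970 (cons (fin 971 0 970)
(mv 1036 (cons (fin 1229 7 972)
(mv 1163 (cons (fin 1227 5 971)
(mv 1102 (cons (fin 1103 1 1099)
(fin 1162 2 1098)))))))))))
(mv 972 (cons (fin 908 7 908)
(mv 971 (cons (fin 970 0 970)
(mv 1036 (cons (fin 907 7 907)
(fin 1229 7 972))))))))))))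
(cons (mv 973 (cons (fin 909 5 908)
(mv 1228 (cons (fin 1165 5 972)
(fin 1292 6 1036)))))
(mv 973 (cons (fin 909 5 908)
(mv 1228 (cons (fin 1036 6 972)
(fin 1292 6 1036))))))))))))))
(cons (cons (mv 1038 (cons (fin 1039 1 1036)
(mv 1099 (cons (fin 1098 2 1034)
(mv 1102 (cons (cons (mv 1034 (cons (fin 1035 3 1034)
(mv 1162 (cons (fin 1163 1 1098)
(mv 1167 (cons (fin 1166 0 1099)
(mv 1103 (cons (fin 1168 0 1100)
(mv 1104 (cons (fin 1036 3 1036)
(fin 1105 3 1037)))))))))))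
(cons (mv 1162 (cons (fin 1163 1 1098)
(mv 1167 (cons (fin 1166 0 1099)
(mv 1103 (cons (fin 1168 0 1100)
(mv 1104 (cons (fin 1036 3 1036)
(fin 1105 3 1037)))))))))
(mv 1034 (cons (fin 1035 3 1034)
(mv 1167 (cons (fin 1166 0 1099)
(mv 1103 (cons (fin 1168 0 1100)
(mv 1104 (cons (fin 1036 3 1036)
(fin 1105 3 1037)))))))))))
(cons (mv 1034 (cons (fin 1035 3 1034)
(mv 1163 (cons (fin 1162 1 1098)
(mv 1103 (cons (fin 1164 1 1099)
(mv 1104 (cons (fin 1036 3 1036)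
(fin 1105 3 1037)))))))))
(cons (mv 1035 (cons (fin 1034 3 1034)
(mv 1163 (cons (fin 1162 1 1098)
(mv 1166 (cons (fin 1167 0 1099)
(mv 971 (cons (mv 970 (cons (fin 1036 3 970)
(fin 906 7 906)))
(mv 1164 (cons (fin 907 4 907)
(fin 1228 4 971)))))))))))
(mv 1034 (cons (fin 1035 3 1034)
(mv 1163 (cons (fin 1162 1 1098)
(mv 1103 (cons (fin 1164 1 1099)
(mv 1167 (cons (fin 1166 0 1099)
(fin 1168 0 1100)))))))))))))))))
(cons (mv 1038 (cons (fin 1039 1 1036)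
(mv 1099 (cons (fin 1098 2 1034)
(mv 1102 (cons (cons (mv 1034 (cons (fin 1035 3 1034)
(mv 1162 (cons (fin 1163 1 1098)
(mv 1166 (cons (fin 1167 0 1099)
(mv 973 (cons (fin 1230 7 973)
(fin 909 4 909)))))))))
(mv 1034 (cons (fin 1035 3 1034)
(mv 1163 (cons (fin 1162 1 1098)
(mv 1103 (cons (fin 1164 1 1099)
(mv 1104 (cons (fin 1105 3 1037)
(mv 1168 (cons (fin 1167 0 1100)
(fin 1169 0 1101))))))))))))
(cons (mv 1034 (cons (fin 1035 3 1034)
(mv 1163 (cons (fin 1162 1 1098)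
(mv 1164 (cons (fin 1103 1 1099)
(mv 973 (cons (fin 909 5 908)
(mv 1228 (cons (fin 1165 5 972)
(fin 1292 6 1036)))))))))))
(cons (mv 1034 (cons (fin 1035 3 1034)
(mv 1166 (cons (fin 1167 0 1099)
(mv 973 (cons (fin 1230 7 973)
(fin 909 4 909)))))))
(mv 1162 (cons (fin 1163 1 1098)
(mv 1166 (cons (fin 1167 0 1099)
(mv 973 (cons (fin 1230 7 973)
(fin 909 4 909)))))))))))))))
(mv 1038 (cons (fin 1039 1 1036)
(mv 1099 (cons (fin 1098 2 1034)
(mv 1102 (cons (cons (mv 1034 (cons (fin 1035 3 1034)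
(mv 1163 (cons (fin 1162 1 1098)
(mv 1103 (cons (fin 1164 1 1099)
(mv 1104 (cons (fin 1036 3 1036)
(fin 1105 3 1037)))))))))
(cons (mv 1163 (cons (fin 1162 1 1098)
(mv 1103 (cons (fin 1164 1 1099)
(mv 1104 (cons (fin 1036 3 1036)
(fin 1105 3 1037)))))))
(mv 1035 (cons (fin 1034 3 1034)
(mv 1036 (cons (fin 1103 3 1035)
(mv 971 (cons (fin 970 3 970)
(mv 907 (cons (fin 843 4 843)
(fin 1164 4 907)))))))))))
(cons (mv 1035 (cons (fin 1034 3 1034)
(mv 1162 (cons (fin 1163 1 1098)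
(mv 1164 (cons (cons (mv 907 (cons (fin 971 4 907)
(mv 973 (cons (fin 909 5 908)
(mv 1228 (cons (fin 1292 7 1035)
(fin 1165 5 972)))))))
(mv 971 (cons (fin 907 4 907)
(mv 970 (cons (fin 1036 3 970)
(mv 973 (cons (fin 972 0 970)
(fin 909 5 908))))))))
(cons (mv 971 (cons (fin 907 4 907)
(mv 1036 (cons (fin 970 3 970)
(fin 1228 7 971)))))
(mv 973 (cons (fin 909 5 908)
(mv 1228 (cons (fin 1292 7 1035)
(fin 1165 5 972))))))))))))
(cons (mv 1034 (cons (fin 1035 3 1034)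
(mv 1163 (cons (fin 1162 1 1098)
(mv 1103 (cons (fin 1164 1 1099)
(mv 1104 (cons (fin 1105 3 1037)
(mv 1168 (cons (fin 1167 0 1100)
(fin 1169 0 1101)))))))))))
(mv 1035 (cons (fin 1034 3 1034)
(mv 1036 (cons (fin 1103 3 1035)
(mv 970 (cons (fin 971 3 970)
(mv 1163 (cons (fin 1162 1 1098)
(mv 972 (cons (fin 908 5 907)
(fin 1227 6 971)))))))))))))))))))))
(cons (mv 1038 (cons (fin 1039 1 1036)
(mv 1098 (cons (fin 1099 2 1034)
(mv 973 (cons (cons (mv 909 (cons (fin 1164 5 908)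
(mv 845 (cons (fin 1036 5 844)
(fin 1102 4 845)))))
(mv 1165 (cons (cons (mv 908 (cons (fin 972 7 908)
(mv 1164 (cons (fin 1228 5 972)
(mv 1166 (cons (fin 1230 4 973)
(mv 1167 (cons (fin 1168 3 1100)
(mv 1103 (cons (fin 1104 2 1100)
(mv 1102 (cons (fin 1163 1 1099)
(mv 1231 (cons (fin 1232 0 1164)
(fin 1295 7 1038)))))))))))))))
(cons (mv 1164 (cons (fin 1228 5 972)
(mv 1166 (cons (fin 1230 4 973)
(mv 1167 (cons (fin 1168 3 1100)
(mv 1103 (cons (fin 1104 2 1100)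
(mv 1102 (cons (fin 1163 1 1099)
(mv 1231 (cons (fin 1232 0 1164)
(fin 1295 7 1038)))))))))))))
(mv 972 (cons (fin 908 7 908)
(mv 970 (cons (fin 971 0 970)
(mv 1166 (cons (fin 1230 4 973)
(mv 1167 (cons (fin 1168 3 1100)
(mv 1229 (cons (fin 1036 7 972)
(mv 1293 (cons (fin 1102 6 1037)
(mv 1356 (cons (fin 1292 5 1100)
(mv 1357 (cons (fin 1164 7 1100)
(fin 1420 5 1164)))))))))))))))))))
(cons (mv 972 (cons (fin 908 7 908)
(mv 970 (cons (fin 971 0 970)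
(mv 1166 (cons (fin 1230 4 973)
(mv 1167 (cons (fin 1168 3 1100)
(mv 1229 (cons (fin 1036 7 972)
(mv 1292 (cons (fin 1228 5 1036)
(mv 1293 (cons (fin 1356 5 1100)
(fin 1102 6 1037)))))))))))))))
(cons (mv 908 (cons (fin 972 7 908)
(mv 1228 (cons (fin 1164 5 972)
(mv 1229 (cons (fin 1292 5 1036)
(mv 1293 (cons (fin 1036 7 1036)
(fin 1102 6 1037)))))))))
(mv 972 (cons (fin 908 7 908)
(mv 970 (cons (fin 971 0 970)
(mv 1036 (cons (fin 1229 7 972)
(mv 1164 (cons (fin 1228 5 972)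
(mv 1163 (cons (fin 1227 5 971)
(mv 1162 (cons (fin 1097 3 1097)
(fin 1161 2 1097))))))))))))))))))
(cons (mv 909 (cons (mv 845 (cons (fin 1036 5 844)
(fin 1102 4 845)))
(cons (mv 846 (cons (fin 910 6 845)
(mv 908 (cons (fin 844 7 844)
(mv 1165 (cons (fin 972 7 908)
(mv 1166 (cons (fin 1102 4 909)
(fin 1230 4 973)))))))))
(mv 844 (cons (fin 908 7 844)
(mv 845 (cons (fin 780 7 780)
(fin 1036 5 844))))))))
(cons (mv 909 (cons (fin 1164 5 908)
(mv 844 (cons (fin 908 7 844)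
(mv 845 (cons (fin 780 7 780)
(fin 1036 5 844)))))))
(mv 909 (cons (fin 1164 5 908)
(mv 1102 (cons (fin 845 4 845)
(fin 1166 4 909)))))))))))))
(cons (mv 1038 (cons (fin 1039 1 1036)
(mv 1099 (cons (fin 1098 2 1034)
(mv 1102 (cons (mv 1034 (cons (fin 1035 3 1034)
(mv 1166 (cons (fin 1167 0 1099)
(mv 973 (cons (fin 1230 7 973)
(fin 909 4 909)))))))
(cons (mv 1166 (cons (fin 1167 0 1099)
(mv 973 (cons (fin 1230 7 973)
(fin 909 4 909)))))
(mv 1035 (cons (fin 1034 3 1034)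
(mv 1036 (cons (fin 1103 3 1035)
(mv 971 (cons (fin 970 3 970)
(mv 907 (cons (fin 843 4 843)
(fin 1164 4 907))))))))))))))))
(mv 1038 (cons (fin 1039 1 1036)
(mv 1099 (cons (fin 1098 2 1034)
(mv 1102 (cons (cons (mv 1034 (cons (fin 1035 3 1034)
(mv 1163 (cons (fin 1162 1 1098)
(mv 1103 (cons (fin 1164 1 1099)
(mv 1104 (cons (fin 1036 3 1036)
(fin 1105 3 1037)))))))))
(cons (mv 1163 (cons (fin 1162 1 1098)
(mv 1103 (cons (fin 1164 1 1099)
(mv 1104 (cons (fin 1036 3 1036)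
(fin 1105 3 1037)))))))
(mv 1035 (cons (fin 1034 3 1034)
(mv 1036 (cons (fin 1103 3 1035)
(mv 971 (cons (fin 970 3 970)
(mv 907 (cons (fin 843 4 843)
(fin 1164 4 907)))))))))))
(cons (mv 1035 (cons (fin 1034 3 1034)
(mv 1162 (cons (fin 1163 1 1098)
(mv 1164 (cons (cons (mv 907 (cons (fin 971 4 907)
(mv 973 (cons (fin 909 5 908)
(mv 1228 (cons (fin 1292 7 1035)
(fin 1165 5 972)))))))
(mv 971 (cons (fin 907 4 907)
(mv 970 (cons (fin 1036 3 970)
(mv 973 (cons (fin 972 0 970)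
(fin 909 5 908))))))))
(cons (mv 971 (cons (fin 907 4 907)
(mv 1036 (cons (fin 970 3 970)
(fin 1228 7 971)))))
(mv 973 (cons (fin 909 5 908)
(mv 1228 (cons (fin 1292 7 1035)
(fin 1165 5 972))))))))))))
(cons (mv 1034 (cons (fin 1035 3 1034)
(mv 1163 (cons (fin 1162 1 1098)
(mv 1164 (cons (fin 1103 1 1099)
(mv 973 (cons (fin 909 5 908)
(mv 1228 (cons (fin 1165 5 972)
(fin 1292 6 1036)))))))))))
(mv 1035 (cons (fin 1034 3 1034)
(mv 1036 (cons (fin 1103 3 1035)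
(mv 970 (cons (fin 971 3 970)
(mv 1163 (cons (fin 1162 1 1098)
(mv 972 (cons (fin 908 5 907)
(fin 1227 6 971))))))))))))))))))))))))))
(cons (mv 1100 (cons (cons (cons (mv 1038 (cons (fin 1039 1 1036)
(mv 1098 (cons (fin 1099 2 1034)
(mv 1164 (cons (cons (mv 973 (cons (fin 909 5 908)
(mv 1228 (cons (fin 1165 5 972)
(fin 1036 6 972)))))
(mv 1228 (cons (fin 1292 6 1036)
(mv 1036 (cons (mv 971 (cons (fin 1035 7 971)
(mv 972 (cons (fin 907 7 907)
(mv 908 (cons (fin 844 4 844)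
(fin 1165 4 908)))))))
(cons (mv 1227 (cons (fin 1291 5 1035)
(mv 972 (cons (fin 1163 5 971)
(mv 908 (cons (fin 844 4 844)
(fin 1165 4 908)))))))
(mv 1035 (cons (fin 971 7 971)
(mv 1034 (cons (fin 1097 1 1033)
(fin 1033 0 1033)))))))))))
(cons (mv 973 (cons (fin 909 5 908)
(mv 1165 (cons (cons (mv 908 (cons (fin 972 7 908)
(mv 1166 (cons (fin 1230 4 973)
(mv 1167 (cons (fin 1168 3 1100)
(mv 1103 (cons (fin 1104 2 1100)
(mv 1102 (cons (fin 1163 1 1099)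
(mv 1231 (cons (fin 1232 0 1164)
(fin 1295 7 1038)))))))))))))
(mv 1166 (cons (fin 1230 4 973)
(mv 1167 (cons (fin 1168 3 1100)
(mv 1103 (cons (fin 1104 2 1100)
(mv 1102 (cons (fin 1163 1 1099)
(mv 1231 (cons (fin 1232 0 1164)
(fin 1295 7 1038))))))))))))
(cons (mv 972 (cons (fin 908 7 908)
(mv 970 (cons (fin 971 0 970)
(mv 1036 (cons (fin 1229 7 972)
(mv 1163 (cons (fin 1227 5 971)
(mv 1102 (cons (fin 1103 1 1099)
(fin 1162 2 1098)))))))))))
(mv 908 (cons (fin 972 7 908)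
(mv 1230 (cons (fin 1166 4 973)
(mv 1229 (cons (fin 1294 4 1037)
(mv 1293 (cons (fin 1036 7 1036)
(fin 1357 7 1100))))))))))))))
(cons (mv 973 (cons (fin 909 5 908)
(mv 1228 (cons (fin 1165 5 972)
(fin 1292 6 1036)))))
(mv 973 (cons (fin 909 5 908)
(mv 1228 (cons (fin 1036 6 972)
(fin 1292 6 1036)))))))))))))
(mv 1164 (cons (cons (mv 973 (cons (fin 909 5 908)
(mv 1228 (cons (fin 1165 5 972)
(fin 1036 6 972)))))
(mv 973 (cons (fin 909 5 908)
(mv 1165 (cons (mv 908 (cons (fin 972 7 908)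
(mv 1166 (cons (fin 1230 4 973)
(mv 1099 (cons (fin 1167 3 1099)
(fin 1098 0 1098)))))))
(cons (mv 972 (cons (fin 908 7 908)
(mv 1036 (cons (fin 1229 7 972)
(mv 907 (cons (fin 971 7 907)
(mv 1163 (cons (fin 1227 5 971)
(mv 1102 (cons (fin 1103 1 1099)
(fin 1162 2 1098)))))))))))
(mv 1166 (cons (fin 1230 4 973)
(mv 1099 (cons (fin 1167 3 1099)
(fin 1098 0 1098)))))))))))
(cons (mv 1228 (cons (fin 1292 6 1036)
(mv 1036 (cons (mv 971 (cons (fin 1035 7 971)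
(mv 972 (cons (fin 907 7 907)
(mv 908 (cons (fin 844 4 844)
(fin 1165 4 908)))))))
(cons (mv 1227 (cons (fin 1291 5 1035)
(mv 972 (cons (fin 1163 5 971)
(mv 908 (cons (fin 844 4 844)
(fin 1165 4 908)))))))
(mv 1035 (cons (fin 971 7 971)
(mv 1034 (cons (fin 1033 0 1033)
(fin 1102 0 1034))))))))))
(cons (mv 973 (cons (fin 909 5 908)
(mv 1228 (cons (fin 1165 5 972)
(fin 1292 6 1036)))))
(mv 973 (cons (fin 909 5 908)
(mv 1228 (cons (fin 1036 6 972)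
(fin 1292 6 1036))))))))))
(cons (mv 1038 (cons (fin 1039 1 1036)
(mv 1099 (cons (fin 1098 2 1034)
(mv 1102 (cons (cons (mv 1034 (cons (fin 1035 3 1034)
(mv 1162 (cons (fin 1163 1 1098)
(mv 1166 (cons (fin 1167 0 1099)
(mv 973 (cons (fin 1230 7 973)
(fin 909 4 909)))))))))
(mv 1035 (cons (fin 1034 3 1034)
(mv 1036 (cons (fin 1103 3 1035)
(mv 970 (cons (fin 971 3 970)
(mv 1163 (cons (fin 1162 1 1098)
(mv 972 (cons (fin 908 5 907)
(fin 1227 6 971))))))))))))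
(cons (mv 1162 (cons (fin 1163 1 1098)
(mv 1166 (cons (fin 1167 0 1099)
(mv 973 (cons (fin 1230 7 973)
(fin 909 4 909)))))))
(mv 1034 (cons (fin 1035 3 1034)
(mv 1166 (cons (fin 1167 0 1099)
(mv 973 (cons (fin 1230 7 973)
(fin 909 4 909))))))))))))))
(cons (mv 1038 (cons (fin 1039 1 1036)
(mv 1099 (cons (fin 1098 2 1034)
(mv 1164 (cons (cons (mv 973 (cons (fin 909 5 908)
(mv 1228 (cons (fin 1165 5 972)
(fin 1036 6 972)))))
(mv 973 (cons (fin 909 5 908)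
(mv 1165 (cons (mv 1166 (cons (fin 1167 3 1099)
(fin 1230 4 973)))
(cons (mv 972 (cons (fin 908 7 908)
(mv 970 (cons (fin 971 0 970)
(mv 1229 (cons (fin 1036 7 972)
(mv 1293 (cons (fin 1357 7 1100)
(mv 1294 (cons (fin 1230 4 1037)
(fin 1358 4 1101)))))))))))
(mv 972 (cons (fin 908 7 908)
(mv 971 (cons (fin 970 0 970)
(mv 907 (cons (fin 1036 7 907)
(fin 1035 4 907)))))))))))))
(cons (mv 1228 (cons (fin 1292 6 1036)
(mv 1036 (cons (cons (mv 971 (cons (fin 1035 7 971)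
(mv 972 (cons (fin 907 7 907)
(mv 908 (cons (fin 1163 5 907)
(fin 844 4 844)))))))
(mv 1227 (cons (fin 1291 5 1035)
(mv 972 (cons (fin 1163 5 971)
(mv 908 (cons (fin 844 4 844)
(fin 1165 4 908))))))))
(cons (mv 1035 (cons (fin 971 7 971)
(mv 1034 (cons (fin 1033 0 1033)
(mv 970 (cons (fin 969 3 969)
(mv 1227 (cons (fin 1163 7 970)
(fin 1291 5 1035)))))))))
(mv 971 (cons (fin 1035 7 971)
(mv 972 (cons (fin 907 7 907)
(mv 908 (cons (fin 844 4 844)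
(fin 1165 4 908))))))))))))
(cons (mv 973 (cons (fin 909 5 908)
(mv 1228 (cons (fin 1036 6 972)
(fin 1292 6 1036)))))
(mv 973 (cons (fin 909 5 908)
(mv 1228 (cons (fin 1165 5 972)
(fin 1292 6 1036)))))))))))))
(mv 1038 (cons (fin 1039 1 1036)
(mv 1164 (cons (cons (mv 973 (cons (fin 909 5 908)
(mv 1228 (cons (fin 1165 5 972)
(fin 1036 6 972)))))
(mv 1228 (cons (fin 1292 6 1036)
(mv 1036 (cons (mv 971 (cons (fin 1035 7 971)
(mv 972 (cons (fin 907 7 907)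
(mv 908 (cons (fin 844 4 844)
(fin 1165 4 908)))))))
(cons (mv 1227 (cons (fin 1291 5 1035)
(mv 972 (cons (fin 1163 5 971)
(mv 908 (cons (fin 844 4 844)
(fin 1165 4 908)))))))
(mv 1035 (cons (fin 971 7 971)
(mv 1034 (cons (fin 1033 0 1033)
(fin 1102 0 1034)))))))))))
(cons (mv 973 (cons (fin 909 5 908)
(mv 1165 (cons (cons (mv 908 (cons (fin 972 7 908)
(mv 1166 (cons (fin 1230 4 973)
(mv 1167 (cons (fin 1168 3 1100)
(mv 1103 (cons (fin 1104 2 1100)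
(mv 1102 (cons (fin 1163 1 1099)
(mv 1231 (cons (fin 1232 0 1164)
(fin 1295 7 1038)))))))))))))
(mv 1166 (cons (fin 1230 4 973)
(mv 1167 (cons (fin 1168 3 1100)
(mv 1103 (cons (fin 1104 2 1100)
(mv 1102 (cons (fin 1163 1 1099)
(mv 1231 (cons (fin 1232 0 1164)
(fin 1295 7 1038))))))))))))
(cons (mv 972 (cons (fin 908 7 908)
(mv 970 (cons (fin 971 0 970)
(mv 1036 (cons (fin 1229 7 972)
(mv 1163 (cons (fin 1227 5 971)
(mv 1102 (cons (fin 1103 1 1099)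
(fin 1162 2 1098)))))))))))
(mv 908 (cons (fin 972 7 908)
(mv 1230 (cons (fin 1166 4 973)
(mv 1229 (cons (fin 1294 4 1037)
(mv 1293 (cons (fin 1036 7 1036)
(fin 1357 7 1100))))))))))))))
(cons (mv 973 (cons (fin 909 5 908)
(mv 1228 (cons (fin 1165 5 972)
(fin 1292 6 1036)))))
(mv 973 (cons (fin 909 5 908)
(mv 1228 (cons (fin 1036 6 972)
(fin 1292 6 1036))))))))))))))
(cons (cons (mv 1038 (cons (fin 1039 1 1036)
(mv 1099 (cons (fin 1098 2 1034)
(mv 1102 (cons (cons (mv 1034 (cons (fin 1035 3 1034)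
(mv 1162 (cons (fin 1163 1 1098)
(mv 1167 (cons (fin 1166 0 1099)
(mv 1103 (cons (fin 1168 0 1100)
(mv 1104 (cons (fin 1036 3 1036)
(fin 1105 3 1037)))))))))))
(mv 1162 (cons (fin 1163 1 1098)
(mv 1167 (cons (fin 1166 0 1099)
(mv 1103 (cons (fin 1168 0 1100)
(mv 1104 (cons (fin 1036 3 1036)
(fin 1105 3 1037))))))))))
(cons (mv 1034 (cons (fin 1035 3 1034)
(mv 1167 (cons (fin 1166 0 1099)
(mv 1103 (cons (fin 1168 0 1100)
(mv 1104 (cons (fin 1036 3 1036)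
(fin 1105 3 1037)))))))))
(cons (mv 1034 (cons (fin 1035 3 1034)
(mv 1163 (cons (fin 1162 1 1098)
(mv 1103 (cons (fin 1164 1 1099)
(mv 1104 (cons (fin 1036 3 1036)
(fin 1105 3 1037)))))))))
(mv 1034 (cons (fin 1035 3 1034)
(mv 1163 (cons (fin 1162 1 1098)
(mv 1166 (cons (fin 1167 0 1099)
(mv 1230 (cons (fin 1294 7 1037)
(mv 1229 (cons (fin 1293 5 1037)
(mv 1231 (cons (fin 1295 4 1038)
(mv 1164 (cons (fin 1228 3 1163)
(fin 1165 0 1163)))))))))))))))))))))))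
(cons (mv 1038 (cons (fin 1039 1 1036)
(mv 1099 (cons (fin 1098 2 1034)
(mv 1102 (cons (cons (mv 1034 (cons (fin 1035 3 1034)
(mv 1162 (cons (fin 1163 1 1098)
(mv 1166 (cons (fin 1167 0 1099)
(mv 973 (cons (fin 1230 7 973)
(fin 909 4 909)))))))))
(mv 1034 (cons (fin 1035 3 1034)
(mv 1163 (cons (fin 1162 1 1098)
(mv 1103 (cons (fin 1164 1 1099)
(mv 1104 (cons (fin 1105 3 1037)
(mv 1168 (cons (fin 1167 0 1100)
(fin 1169 0 1101))))))))))))
(cons (mv 1034 (cons (fin 1035 3 1034)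
(mv 1163 (cons (fin 1162 1 1098)
(mv 1164 (cons (fin 1103 1 1099)
(mv 973 (cons (fin 909 5 908)
(mv 1228 (cons (fin 1165 5 972)
(fin 1292 6 1036)))))))))))
(cons (mv 1034 (cons (fin 1035 3 1034)
(mv 1166 (cons (fin 1167 0 1099)
(mv 973 (cons (fin 1230 7 973)
(fin 909 4 909)))))))
(mv 1162 (cons (fin 1163 1 1098)
(mv 1166 (cons (fin 1167 0 1099)
(mv 973 (cons (fin 1230 7 973)
(fin 909 4 909)))))))))))))))
(mv 1038 (cons (fin 1039 1 1036)
(mv 1099 (cons (fin 1098 2 1034)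
(mv 1102 (cons (cons (mv 1034 (cons (fin 1035 3 1034)
(mv 1163 (cons (fin 1162 1 1098)
(mv 1103 (cons (fin 1164 1 1099)
(mv 1104 (cons (fin 1036 3 1036)
(fin 1105 3 1037)))))))))
(cons (mv 1163 (cons (fin 1162 1 1098)
(mv 1103 (cons (fin 1164 1 1099)
(mv 1104 (cons (fin 1036 3 1036)
(fin 1105 3 1037)))))))
(mv 1035 (cons (fin 1034 3 1034)
(mv 1036 (cons (fin 1103 3 1035)
(mv 971 (cons (fin 970 3 970)
(mv 907 (cons (fin 843 4 843)
(fin 1164 4 907)))))))))))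
(cons (mv 1035 (cons (fin 1034 3 1034)
(mv 1162 (cons (fin 1163 1 1098)
(mv 1164 (cons (cons (mv 907 (cons (fin 971 4 907)
(mv 973 (cons (fin 909 5 908)
(mv 1228 (cons (fin 1292 7 1035)
(fin 1165 5 972)))))))
(mv 971 (cons (fin 907 4 907)
(mv 970 (cons (fin 1036 3 970)
(mv 973 (cons (fin 972 0 970)
(fin 909 5 908))))))))
(cons (mv 971 (cons (fin 907 4 907)
(mv 1036 (cons (fin 970 3 970)
(fin 1228 7 971)))))
(mv 973 (cons (fin 909 5 908)
(mv 1228 (cons (fin 1292 7 1035)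
(fin 1165 5 972))))))))))))
(cons (mv 1034 (cons (fin 1035 3 1034)
(mv 1163 (cons (fin 1162 1 1098)
(mv 1103 (cons (fin 1164 1 1099)
(mv 1104 (cons (fin 1105 3 1037)
(mv 1168 (cons (fin 1167 0 1100)
(fin 1169 0 1101)))))))))))
(mv 1035 (cons (fin 1034 3 1034)
(mv 1036 (cons (fin 1103 3 1035)
(mv 970 (cons (fin 971 3 970)
(mv 1163 (cons (fin 1162 1 1098)
(mv 972 (cons (fin 908 5 907)
(fin 1227 6 971)))))))))))))))))))))
(cons (mv 1038 (cons (fin 1039 1 1036)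
(mv 1098 (cons (fin 1099 2 1034)
(mv 973 (cons (cons (mv 909 (cons (fin 1164 5 908)
(mv 845 (cons (fin 1036 5 844)
(fin 1102 4 845)))))
(mv 1165 (cons (cons (mv 908 (cons (fin 972 7 908)
(mv 1164 (cons (fin 1228 5 972)
(mv 1166 (cons (fin 1230 4 973)
(mv 1167 (cons (fin 1168 3 1100)
(mv 1103 (cons (fin 1104 2 1100)
(mv 1102 (cons (fin 1163 1 1099)
(mv 1231 (cons (fin 1232 0 1164)
(fin 1295 7 1038)))))))))))))))
(mv 1164 (cons (fin 1228 5 972)
(mv 1166 (cons (fin 1230 4 973)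
(mv 1167 (cons (fin 1168 3 1100)
(mv 1103 (cons (fin 1104 2 1100)
(mv 1102 (cons (fin 1163 1 1099)
(mv 1231 (cons (fin 1232 0 1164)
(fin 1295 7 1038))))))))))))))
(cons (mv 908 (cons (fin 972 7 908)
(mv 1230 (cons (fin 1166 4 973)
(mv 1229 (cons (fin 1294 4 1037)
(mv 1293 (cons (fin 1036 7 1036)
(fin 1102 6 1037)))))))))
(cons (mv 908 (cons (fin 972 7 908)
(mv 1228 (cons (fin 1164 5 972)
(mv 1229 (cons (fin 1292 5 1036)
(mv 1293 (cons (fin 1036 7 1036)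
(fin 1102 6 1037)))))))))
(mv 908 (cons (fin 972 7 908)
(mv 1164 (cons (fin 1228 5 972)
(mv 1230 (cons (fin 1166 4 973)
(mv 1229 (cons (fin 1294 4 1037)
(mv 1293 (cons (fin 1036 7 1036)
(fin 1357 7 1100))))))))))))))))
(cons (mv 909 (cons (mv 845 (cons (fin 1036 5 844)
(fin 1102 4 845)))
(cons (mv 844 (cons (fin 908 7 844)
(mv 845 (cons (fin 780 7 780)
(fin 1036 5 844)))))
(mv 908 (cons (fin 844 7 844)
(mv 1165 (cons (fin 972 7 908)
(mv 1166 (cons (fin 1102 4 909)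
(fin 1230 4 973))))))))))
(cons (mv 909 (cons (fin 1164 5 908)
(mv 844 (cons (fin 908 7 844)
(mv 845 (cons (fin 780 7 780)
(fin 1036 5 844)))))))
(mv 909 (cons (fin 1164 5 908)
(mv 1102 (cons (fin 845 4 845)
(fin 1166 4 909)))))))))))))
(cons (mv 1038 (cons (fin 1039 1 1036)
(mv 1098 (cons (fin 1099 2 1034)
(mv 1164 (cons (cons (mv 973 (cons (fin 909 5 908)
(mv 1228 (cons (fin 1165 5 972)
(fin 1036 6 972)))))
(mv 1228 (cons (fin 1292 6 1036)
(mv 1036 (cons (cons (mv 971 (cons (fin 1035 7 971)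
(mv 972 (cons (fin 907 7 907)
(mv 908 (cons (fin 844 4 844)
(fin 1165 4 908)))))))
(mv 1227 (cons (fin 1291 5 1035)
(mv 1229 (cons (fin 1293 4 1036)
(mv 972 (cons (fin 1165 7 972)
(mv 907 (cons (fin 971 7 907)
(mv 908 (cons (fin 843 7 843)
(fin 844 4 844))))))))))))
(cons (mv 1227 (cons (fin 1291 5 1035)
(mv 1229 (cons (fin 1293 4 1036)
(mv 1165 (cons (fin 972 7 972)
(mv 1166 (cons (fin 1167 1 1163)
(fin 1226 2 1162)))))))))
(mv 1035 (cons (fin 971 7 971)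
(mv 1034 (cons (fin 1097 1 1033)
(fin 1033 0 1033)))))))))))
(cons (mv 973 (cons (fin 909 5 908)
(mv 1165 (cons (cons (mv 908 (cons (fin 972 7 908)
(mv 1166 (cons (fin 1230 4 973)
(mv 1167 (cons (fin 1168 3 1100)
(mv 1103 (cons (fin 1104 2 1100)
(mv 1231 (cons (fin 1232 0 1164)
(mv 1295 (cons (fin 1102 7 1038)
(mv 1294 (cons (fin 1358 5 1102)
(mv 1360 (cons (fin 1296 4 1103)
(mv 1359 (cons (fin 1424 4 1167)
(mv 1293 (cons (fin 1292 0 1292)
(mv 1229 (cons (fin 1036 7 1036)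
(fin 1357 7 1100)))))))))))))))))))))))
(mv 1166 (cons (fin 1230 4 973)
(mv 1167 (cons (fin 1168 3 1100)
(mv 1103 (cons (fin 1104 2 1100)
(mv 1231 (cons (fin 1232 0 1164)
(mv 1295 (cons (fin 1102 7 1038)
(mv 1294 (cons (fin 1358 5 1102)
(mv 1360 (cons (fin 1296 4 1103)
(mv 1359 (cons (fin 1424 4 1167)
(mv 1293 (cons (fin 1292 0 1292)
(mv 1229 (cons (fin 1036 7 1036)
(fin 1357 7 1100))))))))))))))))))))))
(cons (mv 972 (cons (fin 908 7 908)
(mv 970 (cons (fin 971 0 970)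
(mv 1229 (cons (fin 1036 7 972)
(mv 1293 (cons (fin 1357 7 1100)
(fin 1102 6 1037)))))))))
(cons (mv 908 (cons (fin 972 7 908)
(mv 1166 (cons (fin 1230 4 973)
(mv 1167 (cons (fin 1168 3 1100)
(mv 1103 (cons (fin 1104 2 1100)
(mv 1231 (cons (fin 1232 0 1164)
(mv 1295 (cons (fin 1102 7 1038)
(mv 1358 (cons (fin 1294 5 1102)
(mv 1359 (cons (fin 1422 5 1166)
(mv 1360 (cons (fin 1296 4 1103)
(fin 1424 4 1167)))))))))))))))))))
(mv 908 (cons (fin 972 7 908)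
(mv 1230 (cons (fin 1166 4 973)
(mv 1229 (cons (fin 1294 4 1037)
(mv 1293 (cons (fin 1036 7 1036)
(fin 1357 7 1100)))))))))))))))
(cons (mv 973 (cons (fin 909 5 908)
(mv 1228 (cons (fin 1165 5 972)
(fin 1292 6 1036)))))
(mv 973 (cons (fin 909 5 908)
(mv 1228 (cons (fin 1036 6 972)
(fin 1292 6 1036)))))))))))))
(mv 1038 (cons (fin 1039 1 1036)
(mv 1098 (cons (fin 1099 2 1034)
(mv 1164 (cons (cons (mv 973 (cons (fin 909 5 908)
(mv 1228 (cons (fin 1165 5 972)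
(fin 1036 6 972)))))
(mv 1228 (cons (fin 1292 6 1036)
(mv 1036 (cons (mv 971 (cons (fin 1035 7 971)
(mv 972 (cons (fin 907 7 907)
(mv 908 (cons (fin 844 4 844)
(fin 1165 4 908)))))))
(cons (mv 1227 (cons (fin 1291 5 1035)
(mv 972 (cons (fin 1163 5 971)
(mv 908 (cons (fin 844 4 844)
(fin 1165 4 908)))))))
(mv 1035 (cons (fin 971 7 971)
(mv 1034 (cons (fin 1097 1 1033)
(fin 1033 0 1033)))))))))))
(cons (mv 973 (cons (fin 909 5 908)
(mv 1165 (cons (cons (mv 908 (cons (fin 972 7 908)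
(mv 1230 (cons (fin 1166 4 973)
(mv 1229 (cons (fin 1294 4 1037)
(mv 1293 (cons (fin 1036 7 1036)
(fin 1357 7 1100)))))))))
(mv 1230 (cons (fin 1166 4 973)
(mv 1229 (cons (fin 1294 4 1037)
(mv 1293 (cons (fin 1036 7 1036)
(fin 1357 7 1100))))))))
(cons (mv 972 (cons (fin 908 7 908)
(mv 970 (cons (fin 971 0 970)
(mv 1036 (cons (fin 1229 7 972)
(mv 1163 (cons (fin 1227 5 971)
(mv 1102 (cons (fin 1103 1 1099)
(fin 1162 2 1098)))))))))))
(cons (mv 972 (cons (fin 908 7 908)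
(mv 971 (cons (fin 970 0 970)
(mv 1036 (cons (fin 907 7 907)
(mv 1163 (cons (fin 1227 5 971)
(mv 1102 (cons (fin 1103 1 1099)
(fin 1162 2 1098)))))))))))
(mv 908 (cons (fin 972 7 908)
(mv 1230 (cons (fin 1166 4 973)
(mv 1229 (cons (fin 1294 4 1037)
(mv 1293 (cons (fin 1357 7 1100)
(fin 1102 6 1037)))))))))))))))
(cons (mv 973 (cons (fin 909 5 908)
(mv 1228 (cons (fin 1165 5 972)
(fin 1292 6 1036)))))
(mv 973 (cons (fin 909 5 908)
(mv 1228 (cons (fin 1036 6 972)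
(fin 1292 6 1036))))))))))))))))))
(cons (mv 1100 (cons (cons (cons (mv 1038 (cons (fin 1039 1 1036)
(mv 1098 (cons (fin 1099 2 1034)
(mv 1164 (cons (cons (mv 973 (cons (fin 909 5 908)
(mv 1228 (cons (fin 1165 5 972)
(fin 1036 6 972)))))
(mv 1228 (cons (fin 1292 6 1036)
(mv 1036 (cons (mv 971 (cons (fin 1035 7 971)
(mv 972 (cons (fin 907 7 907)
(mv 908 (cons (fin 844 4 844)
(fin 1165 4 908)))))))
(cons (mv 1227 (cons (fin 1291 5 1035)
(mv 972 (cons (fin 1163 5 971)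
(mv 908 (cons (fin 844 4 844)
(fin 1165 4 908)))))))
(mv 1035 (cons (fin 971 7 971)
(mv 1034 (cons (fin 1097 1 1033)
(fin 1033 0 1033)))))))))))
(cons (mv 973 (cons (fin 909 5 908)
(mv 1165 (cons (cons (mv 908 (cons (fin 972 7 908)
(mv 1230 (cons (fin 1166 4 973)
(mv 1229 (cons (fin 1294 4 1037)
(mv 1293 (cons (fin 1036 7 1036)
(fin 1357 7 1100)))))))))
(mv 1230 (cons (fin 1166 4 973)
(mv 1229 (cons (fin 1294 4 1037)
(mv 1293 (cons (fin 1036 7 1036)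
(fin 1357 7 1100))))))))
(cons (mv 972 (cons (fin 908 7 908)
(mv 970 (cons (fin 971 0 970)
(mv 1036 (cons (fin 1229 7 972)
(mv 1163 (cons (fin 1227 5 971)
(mv 1102 (cons (fin 1103 1 1099)
(fin 1162 2 1098)))))))))))
(cons (mv 972 (cons (fin 908 7 908)
(mv 971 (cons (fin 970 0 970)
(mv 1036 (cons (fin 907 7 907)
(mv 1163 (cons (fin 1227 5 971)
(mv 1102 (cons (fin 1103 1 1099)
(fin 1162 2 1098)))))))))))
(mv 908 (cons (fin 972 7 908)
(mv 1230 (cons (fin 1166 4 973)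
(mv 1229 (cons (fin 1294 4 1037)
(mv 1293 (cons (fin 1357 7 1100)
(fin 1102 6 1037)))))))))))))))
(cons (mv 973 (cons (fin 909 5 908)
(mv 1228 (cons (fin 1165 5 972)
(fin 1292 6 1036)))))
(mv 973 (cons (fin 909 5 908)
(mv 1228 (cons (fin 1036 6 972)
(fin 1292 6 1036)))))))))))))
(mv 1164 (cons (cons (mv 973 (cons (fin 909 5 908)
(mv 1228 (cons (fin 1165 5 972)
(fin 1036 6 972)))))
(mv 973 (cons (fin 909 5 908)
(mv 1165 (cons (mv 908 (cons (fin 972 7 908)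
(mv 1166 (cons (fin 1230 4 973)
(mv 1099 (cons (fin 1167 3 1099)
(fin 1098 0 1098)))))))
(cons (mv 1166 (cons (fin 1230 4 973)
(mv 1099 (cons (fin 1167 3 1099)
(fin 1098 0 1098)))))
(mv 972 (cons (fin 908 7 908)
(mv 1036 (cons (fin 1229 7 972)
(mv 907 (cons (fin 971 7 907)
(mv 1163 (cons (fin 1227 5 971)
(mv 1102 (cons (fin 1103 1 1099)
(fin 1162 2 1098)))))))))))))))))
(cons (mv 1228 (cons (fin 1292 6 1036)
(mv 1036 (cons (mv 971 (cons (fin 1035 7 971)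
(mv 972 (cons (fin 907 7 907)
(mv 908 (cons (fin 844 4 844)
(fin 1165 4 908)))))))
(cons (mv 1227 (cons (fin 1291 5 1035)
(mv 972 (cons (fin 1163 5 971)
(mv 908 (cons (fin 844 4 844)
(fin 1165 4 908)))))))
(mv 1035 (cons (fin 971 7 971)
(mv 1034 (cons (fin 1033 0 1033)
(fin 1102 0 1034))))))))))
(cons (mv 973 (cons (fin 909 5 908)
(mv 1228 (cons (fin 1165 5 972)
(fin 1292 6 1036)))))
(mv 973 (cons (fin 909 5 908)
(mv 1228 (cons (fin 1036 6 972)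
(fin 1292 6 1036))))))))))
(cons (mv 1038 (cons (fin 1039 1 1036)
(mv 1099 (cons (fin 1098 2 1034)
(mv 1102 (cons (cons (mv 1034 (cons (fin 1035 3 1034)
(mv 1162 (cons (fin 1163 1 1098)
(mv 1166 (cons (fin 1167 0 1099)
(mv 973 (cons (fin 1230 7 973)
(fin 909 4 909)))))))))
(mv 1162 (cons (fin 1163 1 1098)
(mv 1166 (cons (fin 1167 0 1099)
(mv 973 (cons (fin 1230 7 973)
(fin 909 4 909))))))))
(cons (mv 1035 (cons (fin 1034 3 1034)
(mv 1036 (cons (fin 1103 3 1035)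
(mv 970 (cons (fin 971 3 970)
(mv 1163 (cons (fin 1162 1 1098)
(mv 972 (cons (fin 908 5 907)
(fin 1227 6 971)))))))))))
(mv 1034 (cons (fin 1035 3 1034)
(mv 1166 (cons (fin 1167 0 1099)
(mv 973 (cons (fin 1230 7 973)
(fin 909 4 909))))))))))))))
(cons (mv 1038 (cons (fin 1039 1 1036)
(mv 1098 (cons (fin 1099 2 1034)
(mv 973 (cons (cons (mv 909 (cons (fin 1164 5 908)
(mv 844 (cons (fin 908 7 844)
(mv 845 (cons (fin 780 7 780)
(fin 1036 5 844)))))))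
(mv 1165 (cons (cons (mv 908 (cons (fin 972 7 908)
(mv 1164 (cons (fin 1228 5 972)
(mv 1230 (cons (fin 1166 4 973)
(mv 1229 (cons (fin 1294 4 1037)
(mv 1293 (cons (fin 1036 7 1036)
(fin 1357 7 1100)))))))))))
(cons (mv 1164 (cons (fin 1228 5 972)
(mv 1230 (cons (fin 1166 4 973)
(mv 1229 (cons (fin 1294 4 1037)
(mv 1293 (cons (fin 1036 7 1036)
(fin 1357 7 1100)))))))))
(mv 908 (cons (fin 972 7 908)
(mv 1230 (cons (fin 1166 4 973)
(mv 1229 (cons (fin 1294 4 1037)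
(mv 1293 (cons (fin 1036 7 1036)
(mv 1356 (cons (fin 1292 5 1100)
(mv 1357 (cons (fin 1164 7 1100)
(fin 1420 5 1164)))))))))))))))
(cons (cons (mv 908 (cons (fin 972 7 908)
(mv 1230 (cons (fin 1166 4 973)
(mv 1229 (cons (fin 1294 4 1037)
(mv 1292 (cons (fin 1228 5 1036)
(mv 1293 (cons (fin 1036 7 1036)
(fin 1356 5 1100)))))))))))
(mv 972 (cons (fin 908 7 908)
(mv 970 (cons (fin 971 0 970)
(mv 1036 (cons (fin 1229 7 972)
(mv 1164 (cons (fin 1228 5 972)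
(mv 1163 (cons (fin 1227 5 971)
(mv 1162 (cons (fin 1097 3 1097)
(fin 1161 2 1097))))))))))))))
(cons (mv 908 (cons (fin 972 7 908)
(mv 1228 (cons (fin 1164 5 972)
(mv 1229 (cons (fin 1292 5 1036)
(mv 1230 (cons (fin 1166 4 973)
(fin 1294 4 1037)))))))))
(mv 972 (cons (fin 908 7 908)
(mv 971 (cons (fin 970 0 970)
(mv 1164 (cons (fin 1228 5 972)
(mv 1036 (cons (fin 907 7 907)
(mv 1163 (cons (fin 1227 5 971)
(mv 1162 (cons (fin 1097 3 1097)
(fin 1161 2 1097))))))))))))))))))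
(cons (mv 909 (cons (cons (mv 844 (cons (fin 908 7 844)
(mv 845 (cons (fin 780 7 780)
(fin 1036 5 844)))))
(mv 846 (cons (fin 910 6 845)
(mv 908 (cons (fin 844 7 844)
(mv 1165 (cons (fin 972 7 908)
(mv 1230 (cons (fin 1166 4 973)
(mv 1229 (cons (fin 1294 4 1037)
(mv 1292 (cons (fin 1228 5 1036)
(mv 1293 (cons (fin 1036 7 1036)
(fin 1356 5 1100))))))))))))))))
(cons (mv 845 (cons (fin 1036 5 844)
(mv 846 (cons (fin 782 6 781)
(fin 910 6 845)))))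
(mv 844 (cons (fin 908 7 844)
(mv 845 (cons (fin 780 7 780)
(mv 846 (cons (fin 782 6 781)
(fin 910 6 845))))))))))
(cons (mv 909 (cons (fin 1164 5 908)
(mv 844 (cons (fin 908 7 844)
(mv 845 (cons (fin 780 7 780)
(mv 846 (cons (fin 782 6 781)
(fin 910 6 845)))))))))
(mv 909 (cons (fin 1164 5 908)
(mv 845 (cons (fin 1036 5 844)
(mv 846 (cons (fin 782 6 781)
(fin 910 6 845)))))))))))))))
(mv 1038 (cons (fin 1039 1 1036)
(mv 1164 (cons (cons (mv 973 (cons (fin 909 5 908)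
(mv 1228 (cons (fin 1165 5 972)
(fin 1036 6 972)))))
(mv 1228 (cons (fin 1292 6 1036)
(mv 1036 (cons (mv 971 (cons (fin 1035 7 971)
(mv 972 (cons (fin 907 7 907)
(mv 908 (cons (fin 844 4 844)
(fin 1165 4 908)))))))
(cons (mv 1227 (cons (fin 1291 5 1035)
(mv 972 (cons (fin 1163 5 971)
(mv 908 (cons (fin 844 4 844)
(fin 1165 4 908)))))))
(mv 1035 (cons (fin 971 7 971)
(mv 1034 (cons (fin 1033 0 1033)
(fin 1102 0 1034)))))))))))
(cons (mv 973 (cons (fin 909 5 908)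
(mv 1165 (cons (cons (mv 908 (cons (fin 972 7 908)
(mv 1230 (cons (fin 1166 4 973)
(mv 1229 (cons (fin 1294 4 1037)
(mv 1293 (cons (fin 1036 7 1036)
(fin 1357 7 1100)))))))))
(mv 1230 (cons (fin 1166 4 973)
(mv 1229 (cons (fin 1294 4 1037)
(mv 1293 (cons (fin 1036 7 1036)
(fin 1357 7 1100))))))))
(cons (mv 972 (cons (fin 908 7 908)
(mv 970 (cons (fin 971 0 970)
(mv 1036 (cons (fin 1229 7 972)
(mv 1163 (cons (fin 1227 5 971)
(mv 1102 (cons (fin 1103 1 1099)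
(fin 1162 2 1098)))))))))))
(cons (mv 972 (cons (fin 908 7 908)
(mv 971 (cons (fin 970 0 970)
(mv 1036 (cons (fin 907 7 907)
(mv 1163 (cons (fin 1227 5 971)
(mv 1102 (cons (fin 1103 1 1099)
(fin 1162 2 1098)))))))))))
(mv 908 (cons (fin 972 7 908)
(mv 1230 (cons (fin 1166 4 973)
(mv 1229 (cons (fin 1294 4 1037)
(mv 1293 (cons (fin 1357 7 1100)
(fin 1102 6 1037)))))))))))))))
(cons (mv 973 (cons (fin 909 5 908)
(mv 1228 (cons (fin 1165 5 972)
(fin 1292 6 1036)))))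
(mv 973 (cons (fin 909 5 908)
(mv 1228 (cons (fin 1036 6 972)
(fin 1292 6 1036))))))))))))))
(cons (cons (mv 1038 (cons (fin 1039 1 1036)
(mv 1099 (cons (fin 1098 2 1034)
(mv 1102 (cons (cons (mv 1034 (cons (fin 1035 3 1034)
(mv 1163 (cons (fin 1162 1 1098)
(mv 1103 (cons (fin 1164 1 1099)
(mv 1104 (cons (fin 1036 3 1036)
(fin 1105 3 1037)))))))))
(mv 1163 (cons (fin 1162 1 1098)
(mv 1103 (cons (fin 1164 1 1099)
(mv 1104 (cons (fin 1036 3 1036)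
(fin 1105 3 1037))))))))
(cons (mv 1035 (cons (fin 1034 3 1034)
(mv 1036 (cons (fin 1103 3 1035)
(mv 970 (cons (fin 971 3 970)
(mv 1166 (cons (fin 1167 0 1099)
(mv 1230 (cons (fin 1294 7 1037)
(mv 1229 (cons (fin 1293 5 1037)
(mv 1165 (cons (fin 972 7 972)
(mv 1228 (cons (fin 1292 5 1036)
(mv 1226 (cons (fin 1227 2 1162)
(mv 1231 (cons (fin 1295 4 1038)
(mv 1232 (cons (fin 1164 3 1164)
(fin 1233 3 1165)))))))))))))))))))))))
(cons (mv 1034 (cons (fin 1035 3 1034)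
(mv 1163 (cons (fin 1162 1 1098)
(mv 1166 (cons (fin 1167 0 1099)
(mv 1230 (cons (fin 1294 7 1037)
(mv 1229 (cons (fin 1293 5 1037)
(mv 1231 (cons (fin 1295 4 1038)
(mv 1164 (cons (fin 1228 3 1163)
(fin 1165 0 1163)))))))))))))))
(mv 1035 (cons (fin 1034 3 1034)
(mv 1036 (cons (fin 1103 3 1035)
(mv 970 (cons (fin 971 3 970)
(mv 1163 (cons (fin 1162 1 1098)
(mv 972 (cons (fin 908 5 907)
(fin 1227 6 971)))))))))))))))))))
(mv 1038 (cons (fin 1039 1 1036)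
(mv 1099 (cons (fin 1098 2 1034)
(mv 1102 (cons (cons (mv 1034 (cons (fin 1035 3 1034)
(mv 1162 (cons (fin 1163 1 1098)
(mv 1166 (cons (fin 1167 0 1099)
(mv 973 (cons (fin 1230 7 973)
(fin 909 4 909)))))))))
(mv 1034 (cons (fin 1035 3 1034)
(mv 1163 (cons (fin 1162 1 1098)
(mv 1164 (cons (fin 1103 1 1099)
(mv 973 (cons (fin 909 5 908)
(mv 1228 (cons (fin 1165 5 972)
(fin 1292 6 1036))))))))))))
(cons (mv 1034 (cons (fin 1035 3 1034)
(mv 1166 (cons (fin 1167 0 1099)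
(mv 973 (cons (fin 1230 7 973)
(fin 909 4 909)))))))
(cons (mv 1162 (cons (fin 1163 1 1098)
(mv 1166 (cons (fin 1167 0 1099)
(mv 973 (cons (fin 1230 7 973)
(fin 909 4 909)))))))
(mv 1034 (cons (fin 1035 3 1034)
(mv 1163 (cons (fin 1162 1 1098)
(mv 1164 (cons (fin 1103 1 1099)
(mv 1166 (cons (fin 1167 0 1099)
(mv 1228 (cons (fin 1292 6 1036)
(mv 1230 (cons (fin 1294 7 1037)
(mv 1229 (cons (fin 1231 3 1163)
(fin 1293 5 1037))))))))))))))))))))))))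
(cons (mv 1038 (cons (fin 1039 1 1036)
(mv 1098 (cons (fin 1099 2 1034)
(mv 973 (cons (cons (mv 909 (cons (fin 1164 5 908)
(mv 845 (cons (fin 1036 5 844)
(fin 1102 4 845)))))
(mv 1165 (cons (cons (mv 908 (cons (fin 972 7 908)
(mv 1228 (cons (fin 1164 5 972)
(mv 1229 (cons (fin 1292 5 1036)
(mv 1293 (cons (fin 1036 7 1036)
(fin 1102 6 1037)))))))))
(cons (mv 1228 (cons (fin 1164 5 972)
(mv 1229 (cons (fin 1292 5 1036)
(mv 1293 (cons (fin 1036 7 1036)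
(fin 1102 6 1037)))))))
(mv 972 (cons (fin 908 7 908)
(mv 970 (cons (fin 971 0 970)
(mv 1229 (cons (fin 1036 7 972)
(mv 1230 (cons (fin 1294 4 1037)
(mv 1293 (cons (fin 1102 6 1037)
(mv 1356 (cons (fin 1292 5 1100)
(mv 1357 (cons (fin 1164 7 1100)
(fin 1420 5 1164)))))))))))))))))
(cons (cons (mv 972 (cons (fin 908 7 908)
(mv 970 (cons (fin 971 0 970)
(mv 1229 (cons (fin 1036 7 972)
(mv 1228 (cons (fin 1292 5 1036)
(mv 1293 (cons (fin 1102 6 1037)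
(mv 1294 (cons (fin 1230 4 1037)
(fin 1358 4 1101)))))))))))))
(mv 972 (cons (fin 908 7 908)
(mv 971 (cons (fin 970 0 970)
(mv 1164 (cons (fin 1228 5 972)
(mv 1036 (cons (fin 907 7 907)
(mv 1163 (cons (fin 1227 5 971)
(mv 1102 (cons (fin 1103 1 1099)
(fin 1162 2 1098))))))))))))))
(cons (mv 908 (cons (fin 972 7 908)
(mv 1228 (cons (fin 1164 5 972)
(mv 1229 (cons (fin 1292 5 1036)
(mv 1293 (cons (fin 1102 6 1037)
(mv 1294 (cons (fin 1230 4 1037)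
(fin 1358 4 1101)))))))))))
(mv 908 (cons (fin 972 7 908)
(mv 1228 (cons (fin 1164 5 972)
(mv 1229 (cons (fin 1292 5 1036)
(mv 1293 (cons (fin 1036 7 1036)
(mv 1294 (cons (fin 1230 4 1037)
(fin 1358 4 1101))))))))))))))))
(cons (mv 909 (cons (mv 845 (cons (fin 1036 5 844)
(fin 1102 4 845)))
(mv 908 (cons (fin 844 7 844)
(mv 910 (cons (fin 846 6 845)
(mv 972 (cons (fin 1165 7 908)
(mv 911 (cons (fin 971 1 907)
(fin 912 1 908)))))))))))
(cons (mv 909 (cons (fin 1164 5 908)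
(mv 844 (cons (fin 908 7 844)
(mv 845 (cons (fin 780 7 780)
(fin 1102 4 845)))))))
(mv 909 (cons (fin 1164 5 908)
(mv 844 (cons (fin 908 7 844)
(mv 845 (cons (fin 780 7 780)
(fin 1036 5 844)))))))))))))))
(cons (mv 1038 (cons (fin 1039 1 1036)
(mv 1099 (cons (fin 1098 2 1034)
(mv 1102 (cons (mv 1034 (cons (fin 1035 3 1034)
(mv 1166 (cons (fin 1167 0 1099)
(mv 973 (cons (fin 1230 7 973)
(fin 909 4 909)))))))
(cons (mv 1166 (cons (fin 1167 0 1099)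
(mv 973 (cons (fin 1230 7 973)
(fin 909 4 909)))))
(mv 1035 (cons (fin 1034 3 1034)
(mv 1036 (cons (fin 1103 3 1035)
(mv 971 (cons (fin 970 3 970)
(mv 907 (cons (fin 843 4 843)
(fin 1164 4 907))))))))))))))))
(mv 1038 (cons (fin 1039 1 1036)
(mv 1099 (cons (fin 1098 2 1034)
(mv 1102 (cons (cons (mv 1034 (cons (fin 1035 3 1034)
(mv 1163 (cons (fin 1162 1 1098)
(mv 1103 (cons (fin 1164 1 1099)
(mv 1104 (cons (fin 1036 3 1036)
(fin 1105 3 1037)))))))))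
(cons (mv 1163 (cons (fin 1162 1 1098)
(mv 1103 (cons (fin 1164 1 1099)
(mv 1104 (cons (fin 1036 3 1036)
(fin 1105 3 1037)))))))
(mv 1035 (cons (fin 1034 3 1034)
(mv 1036 (cons (fin 1103 3 1035)
(mv 971 (cons (fin 970 3 970)
(mv 907 (cons (fin 843 4 843)
(fin 1164 4 907)))))))))))
(cons (mv 1034 (cons (fin 1035 3 1034)
(mv 1163 (cons (fin 1162 1 1098)
(mv 1166 (cons (fin 1167 0 1099)
(mv 973 (cons (fin 909 4 909)
(mv 1165 (cons (cons (mv 908 (cons (fin 972 7 908)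
(mv 1164 (cons (fin 1228 5 972)
(mv 1227 (cons (fin 1226 1 1162)
(mv 1291 (cons (fin 1036 6 1035)
(fin 1355 6 1099)))))))))
(mv 1164 (cons (fin 1228 5 972)
(mv 1227 (cons (fin 1226 1 1162)
(mv 1291 (cons (fin 1036 6 1035)
(fin 1355 6 1099))))))))
(cons (mv 972 (cons (fin 908 7 908)
(mv 1229 (cons (fin 1036 7 972)
(fin 1293 6 1037)))))
(mv 908 (cons (fin 972 7 908)
(mv 1228 (cons (fin 1164 5 972)
(mv 1229 (cons (fin 1292 5 1036)
(fin 1293 6 1037))))))))))))))))))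
(cons (mv 1034 (cons (fin 1035 3 1034)
(mv 1163 (cons (fin 1162 1 1098)
(mv 1164 (cons (fin 1103 1 1099)
(mv 973 (cons (fin 909 5 908)
(mv 1228 (cons (fin 1165 5 972)
(fin 1292 6 1036)))))))))))
(mv 1035 (cons (fin 1034 3 1034)
(mv 1036 (cons (fin 1103 3 1035)
(mv 970 (cons (fin 971 3 970)
(mv 1163 (cons (fin 1162 1 1098)
(mv 972 (cons (fin 908 5 907)
(fin 1227 6 971))))))))))))))))))))))))
(mv 973 (cons (cons (mv 909 (cons (cons (mv 844 (cons (fin 908 7 844)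
(mv 780 (cons (fin 845 7 780)
(mv 846 (cons (fin 910 6 845)
(mv 1100 (cons (fin 1164 5 908)
(mv 1038 (cons (fin 1039 1 1036)
(mv 1099 (cons (fin 1098 2 1034)
(mv 1102 (cons (fin 1166 4 909)
(mv 1035 (cons (fin 1034 3 1034)
(mv 1036 (cons (fin 1103 3 1035)
(mv 970 (cons (fin 971 3 970)
(mv 1163 (cons (fin 1162 1 1098)
(mv 1227 (cons (fin 972 6 971)
(fin 1291 6 1035)))))))))))))))))))))))))
(mv 844 (cons (fin 908 7 844)
(mv 845 (cons (fin 780 7 780)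
(mv 846 (cons (fin 782 6 781)
(fin 910 6 845))))))))
(cons (mv 846 (cons (fin 910 6 845)
(mv 782 (cons (fin 845 6 781)
(mv 1100 (cons (fin 1164 5 908)
(mv 1038 (cons (fin 1039 1 1036)
(mv 1099 (cons (fin 1098 2 1034)
(mv 1102 (cons (fin 1166 4 909)
(mv 1035 (cons (fin 1034 3 1034)
(mv 1036 (cons (fin 1103 3 1035)
(mv 970 (cons (fin 971 3 970)
(mv 1163 (cons (fin 1162 1 1098)
(mv 1227 (cons (fin 972 6 971)
(fin 1291 6 1035)))))))))))))))))))))))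
(cons (mv 844 (cons (fin 908 7 844)
(mv 780 (cons (fin 845 7 780)
(mv 1100 (cons (fin 1164 5 908)
(mv 1038 (cons (fin 1039 1 1036)
(mv 1099 (cons (fin 1098 2 1034)
(mv 1102 (cons (fin 1166 4 909)
(mv 1035 (cons (fin 1034 3 1034)
(mv 1036 (cons (fin 1103 3 1035)
(mv 970 (cons (fin 971 3 970)
(mv 1163 (cons (fin 1162 1 1098)
(mv 1227 (cons (fin 972 6 971)
(fin 1291 6 1035)))))))))))))))))))))))
(mv 844 (cons (fin 908 7 844)
(mv 846 (cons (fin 910 6 845)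
(mv 1100 (cons (fin 1164 5 908)
(mv 1038 (cons (fin 1039 1 1036)
(mv 1099 (cons (fin 1098 2 1034)
(mv 1102 (cons (fin 1166 4 909)
(mv 1035 (cons (fin 1034 3 1034)
(mv 1036 (cons (fin 1103 3 1035)
(mv 970 (cons (fin 971 3 970)
(mv 1163 (cons (fin 1162 1 1098)
(mv 1227 (cons (fin 972 6 971)
(fin 1291 6 1035)))))))))))))))))))))))))))
(cons (mv 1165 (cons (cons (mv 908 (cons (fin 972 7 908)
(mv 1228 (cons (fin 1164 5 972)
(mv 1229 (cons (fin 1292 5 1036)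
(mv 1230 (cons (fin 1166 4 973)
(fin 1294 4 1037)))))))))
(mv 1228 (cons (fin 1164 5 972)
(mv 1229 (cons (fin 1292 5 1036)
(mv 1230 (cons (fin 1166 4 973)
(fin 1294 4 1037))))))))
(cons (mv 972 (cons (fin 908 7 908)
(mv 1036 (cons (fin 1229 7 972)
(mv 1038 (cons (fin 1039 3 972)
(mv 971 (cons (fin 970 0 970)
(mv 1164 (cons (fin 1228 5 972)
(mv 1100 (cons (fin 907 7 907)
(mv 1098 (cons (fin 1099 2 1034)
(mv 1163 (cons (fin 1227 5 971)
(mv 1102 (cons (fin 1103 1 1099)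
(fin 1162 2 1098)))))))))))))))))))
(cons (mv 972 (cons (fin 908 7 908)
(mv 1038 (cons (fin 1039 3 972)
(mv 970 (cons (fin 971 0 970)
(mv 1166 (cons (fin 1230 4 973)
(mv 1229 (cons (fin 1036 7 972)
(mv 1293 (cons (fin 1102 6 1037)
(mv 1356 (cons (fin 1292 5 1100)
(mv 1357 (cons (fin 1420 5 1164)
(mv 1358 (cons (fin 1294 4 1101)
(fin 1422 4 1165)))))))))))))))))))
(mv 972 (cons (fin 908 7 908)
(mv 1038 (cons (fin 1039 3 972)
(mv 970 (cons (fin 971 0 970)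
(mv 1164 (cons (fin 1228 5 972)
(mv 1166 (cons (fin 1230 4 973)
(mv 1163 (cons (mv 1102 (cons (fin 1162 2 1098)
(fin 1103 2 1099)))
(cons (mv 1098 (cons (fin 1099 3 1098)
(mv 1097 (cons (fin 1162 3 1097)
(mv 1227 (cons (fin 1226 1 1162)
(mv 1036 (cons (fin 1100 5 971)
(mv 1034 (cons (fin 1035 1 1033)
(mv 906 (cons (fin 1161 5 905)
(mv 841 (cons (fin 905 7 841)
(mv 842 (cons (fin 777 7 777)
(fin 1033 5 841)))))))))))))))))
(mv 1099 (cons (fin 1098 3 1098)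
(mv 1102 (cons (fin 1103 2 1099)
(mv 1227 (cons (fin 1226 1 1162)
(mv 1035 (cons (fin 1034 7 970)
(fin 1036 6 971))))))))))))))))))))))))))
(mv 909 (cons (cons (mv 844 (cons (fin 908 7 844)
(mv 780 (cons (fin 845 7 780)
(mv 846 (cons (fin 910 6 845)
(mv 1100 (cons (fin 1164 5 908)
(mv 1102 (cons (fin 1166 4 909)
(mv 1103 (cons (fin 1039 2 1036)
(mv 1036 (cons (fin 1035 3 1035)
(fin 1104 3 1036)))))))))))))))
(mv 844 (cons (fin 908 7 844)
(mv 845 (cons (fin 780 7 780)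
(mv 846 (cons (fin 782 6 781)
(fin 910 6 845))))))))
(cons (mv 846 (cons (fin 910 6 845)
(mv 782 (cons (fin 845 6 781)
(mv 1100 (cons (fin 1164 5 908)
(mv 1102 (cons (fin 1166 4 909)
(mv 1103 (cons (fin 1039 2 1036)
(mv 1036 (cons (fin 1035 3 1035)
(fin 1104 3 1036)))))))))))))
(cons (mv 844 (cons (fin 908 7 844)
(mv 780 (cons (fin 845 7 780)
(mv 1100 (cons (fin 1164 5 908)
(mv 1102 (cons (fin 1166 4 909)
(mv 1103 (cons (fin 1039 2 1036)
(mv 1036 (cons (fin 1035 3 1035)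
(fin 1104 3 1036)))))))))))))
(mv 844 (cons (fin 908 7 844)
(mv 846 (cons (fin 910 6 845)
(mv 1100 (cons (fin 1164 5 908)
(mv 1102 (cons (fin 1166 4 909)
(mv 1103 (cons (fin 1039 2 1036)
(mv 1036 (cons (fin 1035 3 1035)
(fin 1104 3 1036)))))))))))))))))))
(cons (cons (mv 909 (cons (cons (mv 844 (cons (fin 908 7 844)
(mv 845 (cons (fin 780 7 780)
(mv 846 (cons (fin 782 6 781)
(fin 910 6 845)))))))
(mv 846 (cons (fin 910 6 845)
(mv 845 (cons (fin 782 6 781)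
(mv 1102 (cons (fin 1038 4 845)
(fin 1166 4 909))))))))
(cons (mv 844 (cons (fin 908 7 844)
(mv 845 (cons (fin 780 7 780)
(mv 1102 (cons (fin 1038 4 845)
(fin 1166 4 909)))))))
(mv 846 (cons (fin 910 6 845)
(mv 908 (cons (fin 844 7 844)
(mv 1102 (cons (fin 1166 4 909)
(mv 1165 (cons (fin 972 7 908)
(mv 1228 (cons (fin 1164 5 972)
(mv 1229 (cons (fin 1292 5 1036)
(mv 1293 (cons (fin 1038 6 1037)
(mv 1294 (cons (fin 1230 4 1037)
(fin 1358 4 1101))))))))))))))))))))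
(mv 909 (cons (cons (mv 844 (cons (fin 908 7 844)
(mv 845 (cons (fin 780 7 780)
(mv 846 (cons (fin 782 6 781)
(fin 910 6 845)))))))
(mv 846 (cons (fin 910 6 845)
(mv 845 (cons (fin 782 6 781)
(mv 1102 (cons (fin 1038 4 845)
(fin 1166 4 909))))))))
(cons (mv 844 (cons (fin 908 7 844)
(mv 845 (cons (fin 780 7 780)
(mv 1102 (cons (fin 1038 4 845)
(fin 1166 4 909)))))))
(mv 846 (cons (fin 910 6 845)
(mv 908 (cons (fin 844 7 844)
(mv 972 (cons (fin 1165 7 908)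
(mv 1039 (cons (fin 1038 3 972)
(mv 1102 (cons (fin 1166 4 909)
(mv 1103 (cons (fin 1100 2 1036)
(mv 1104 (cons (fin 1036 3 1036)
(mv 1168 (cons (fin 1169 0 1101)
(mv 975 (cons (fin 1232 7 975)
(fin 911 4 911)))))))))))))))))))))))
(cons (mv 909 (cons (cons (mv 846 (cons (fin 910 6 845)
(mv 782 (cons (fin 845 6 781)
(mv 1100 (cons (fin 1164 5 908)
(mv 1038 (cons (fin 1039 1 1036)
(mv 1099 (cons (fin 1098 2 1034)
(mv 1102 (cons (fin 1166 4 909)
(mv 1035 (cons (fin 1034 3 1034)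
(mv 1036 (cons (fin 1103 3 1035)
(mv 970 (cons (fin 971 3 970)
(mv 1163 (cons (fin 1162 1 1098)
(mv 1227 (cons (fin 972 6 971)
(fin 1291 6 1035)))))))))))))))))))))))
(mv 846 (cons (fin 910 6 845)
(mv 845 (cons (fin 782 6 781)
(mv 1102 (cons (fin 1038 4 845)
(fin 1166 4 909))))))))
(cons (mv 846 (cons (fin 910 6 845)
(mv 845 (cons (fin 782 6 781)
(mv 1100 (cons (fin 1036 5 844)
(fin 1164 5 908)))))))
(cons (mv 1100 (cons (fin 1164 5 908)
(mv 845 (cons (fin 1036 5 844)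
(mv 1038 (cons (fin 1039 1 1036)
(fin 1102 4 845)))))))
(mv 846 (cons (fin 910 6 845)
(mv 1100 (cons (fin 1164 5 908)
(mv 1038 (cons (fin 1039 1 1036)
(mv 1099 (cons (fin 1098 2 1034)
(mv 1102 (cons (fin 1166 4 909)
(mv 1035 (cons (fin 1034 3 1034)
(mv 1036 (cons (fin 1103 3 1035)
(mv 970 (cons (fin 971 3 970)
(mv 1163 (cons (fin 1162 1 1098)
(mv 1227 (cons (fin 972 6 971)
(fin 1291 6 1035)))))))))))))))))))))))))
(mv 909 (cons (cons (mv 844 (cons (fin 908 7 844)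
(mv 845 (cons (fin 780 7 780)
(mv 846 (cons (fin 782 6 781)
(fin 910 6 845)))))))
(mv 846 (cons (fin 910 6 845)
(mv 845 (cons (fin 782 6 781)
(mv 1100 (cons (fin 1036 5 844)
(fin 1164 5 908))))))))
(cons (mv 844 (cons (fin 908 7 844)
(mv 845 (cons (fin 780 7 780)
(mv 1100 (cons (fin 1036 5 844)
(fin 1164 5 908)))))))
(mv 846 (cons (fin 910 6 845)
(mv 908 (cons (fin 844 7 844)
(mv 972 (cons (fin 1165 7 908)
(mv 1038 (cons (fin 1039 3 972)
(mv 970 (cons (fin 971 0 970)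
(mv 1100 (cons (fin 1164 5 908)
(mv 1099 (cons (fin 1098 2 1034)
(mv 1036 (cons (fin 1163 5 907)
(mv 907 (cons (fin 843 7 843)
(mv 906 (cons (fin 969 1 905)
(fin 905 0 905))))))))))))))))))))))))))))))))))
def l97 : Lem := ⟨13254031944712882724506621310649321556018620670345837899455453023597314721787975009848330616026462815765143756135158089473467252075149308743152655366187148242124071246428482498451210046760672027239036899891323305324899173507745103325308665813954110541579506451753178596634830548552232523722901151470534797188661248, 667300851260783867636678970997020000476144648824832087387053697777595042843830422343332785054733346724935597242300167654949887944626596329130549762820260244333397652217339235245407366375659914537402080771385249908297199802594954302910392446203777073208023655993032860567721170772946113530602002491312026467740962476977583012353803300395918419763111846863726949420607044259759178624734200710357385567800263246926725197606233833472,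 667300851260783867636678970997020000476144648824832087387053697777595042843830422343332785054733346724935597242300167654949887944626596329130549762820260244333397652217339235245407366375659914537402080771385249908297199802594954302910392446203777073208023655993032860567721170772946113530602002491312026467740962476977583012353803300395918419763111846863726949420607044259759178624734200710357385567800263246926725197606233833472, 19, 33⟩
theorem l97_valid : l97.Valid :=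
  Lem.valid_of_chk t97 t97_valid [1037, 1040] c97 l97 (by decide +kernel)
end Crest.Agent.SnakyAux
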