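import Crest.Agent.S0047_aux.Checker

set_option autoImplicit false
set_option maxRecDepth 100000
namespace Crest.Agent.SnakyAux
open Cert
def t98 : Tbl := Tbl.nil
theorem t98_valid : t98.Valid := Tbl.valid_nil
def c98 : Cert :=
(mv 973 (cons (cons (cons (cons (mv 1038 (cons (cons (mv 1039 (cons (fin 972 3 972)
(mv 1100 (cons (fin 1101 1 1036)
(mv 1104 (cons (fin 1105 0 1037)
(mv 1036 (cons (fin 1099 1 1035)
(fin 1103 0 1036)))))))))
(mv 972 (cons (cons (cons (mv 971 (cons (fin 970 0 970)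
(mv 974 (cons (cons (mv 1034 (cons (fin 1035 1 970)
(mv 906 (cons (fin 907 3 906)
(mv 910 (cons (fin 911 2 907)
(mv 1101 (cons (fin 846 5 845)
(fin 1165 6 909)))))))))
(mv 1034 (cons (fin 1035 1 970)
(mv 907 (cons (fin 906 3 906)
(mv 975 (cons (fin 908 3 907)
(mv 976 (cons (fin 1036 1 972)
(fin 977 1 973))))))))))
(cons (mv 906 (cons (fin 907 3 906)
(mv 910 (cons (fin 911 2 907)
(mv 1101 (cons (fin 846 5 845)
(fin 1165 6 909)))))))
(mv 1034 (cons (fin 1035 1 970)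
(mv 910 (cons (fin 911 2 907)
(mv 1101 (cons (fin 846 5 845)
(fin 1165 6 909))))))))))))
(mv 908 (cons (cons (mv 1101 (cons (fin 1165 7 908)
(mv 844 (cons (fin 909 7 844)
(fin 1036 4 844)))))
(mv 844 (cons (fin 780 4 780)
(mv 1036 (cons (mv 1099 (cons (fin 1035 5 843)
(mv 1100 (cons (fin 1163 5 907)
(mv 1164 (cons (fin 1228 6 972)
(fin 909 6 908)))))))
(cons (mv 843 (cons (fin 779 7 779)
(mv 1100 (cons (fin 907 7 843)
(mv 1164 (cons (fin 1228 6 972)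
(fin 909 6 908)))))))
(mv 1035 (cons (fin 1099 5 843)
(mv 1034 (cons (fin 1033 2 969)
(fin 974 2 970)))))))))))
(cons (mv 1101 (cons (fin 1165 7 908)
(mv 909 (cons (cons (mv 1164 (cons (fin 1100 5 908)
(mv 910 (cons (fin 846 6 845)
(mv 911 (cons (fin 912 1 908)
(mv 975 (cons (fin 976 0 908)
(mv 974 (cons (fin 907 3 907)
(mv 847 (cons (fin 848 2 844)
(fin 783 5 782)))))))))))))
(mv 910 (cons (fin 846 6 845)
(mv 911 (cons (fin 912 1 908)
(mv 975 (cons (fin 976 0 908)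
(mv 974 (cons (fin 907 3 907)
(mv 847 (cons (fin 848 2 844)
(fin 783 5 782))))))))))))
(cons (mv 1100 (cons (fin 1164 5 908)
(mv 1098 (cons (fin 1099 2 1034)
(mv 1036 (cons (fin 845 5 844)
(mv 907 (cons (fin 843 7 843)
(mv 974 (cons (fin 975 3 907)
(fin 906 0 906)))))))))))
(mv 1164 (cons (fin 1100 5 908)
(mv 846 (cons (fin 910 6 845)
(mv 845 (cons (fin 782 6 781)
(mv 781 (cons (fin 1036 5 780)
(fin 717 5 716))))))))))))))
(cons (mv 1101 (cons (fin 1165 7 908)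
(mv 844 (cons (fin 909 7 844)
(fin 780 4 780)))))
(mv 1101 (cons (fin 1165 7 908)
(mv 844 (cons (fin 1036 4 844)
(fin 780 4 780))))))))))
(cons (mv 971 (cons (fin 970 0 970)
(mv 974 (cons (cons (mv 1034 (cons (fin 1035 1 970)
(mv 906 (cons (fin 907 3 906)
(mv 910 (cons (fin 911 2 907)
(mv 1101 (cons (fin 846 5 845)
(fin 1165 6 909)))))))))
(mv 1035 (cons (fin 1034 1 970)
(mv 1036 (cons (fin 975 1 971)
(mv 1098 (cons (fin 1099 1 1034)
(mv 907 (cons (fin 906 3 906)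
(mv 1100 (cons (fin 1164 7 907)
(fin 843 4 843))))))))))))
(cons (mv 906 (cons (fin 907 3 906)
(mv 910 (cons (fin 911 2 907)
(mv 1101 (cons (fin 846 5 845)
(fin 1165 6 909)))))))
(mv 1034 (cons (fin 1035 1 970)
(mv 910 (cons (fin 911 2 907)
(mv 1101 (cons (fin 846 5 845)
(fin 1165 6 909))))))))))))
(mv 971 (cons (fin 970 0 970)
(mv 974 (cons (cons (mv 1034 (cons (fin 1035 1 970)
(mv 906 (cons (fin 907 3 906)
(mv 911 (cons (fin 910 2 907)
(mv 975 (cons (fin 912 2 908)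
(mv 976 (cons (fin 1036 1 972)
(fin 977 1 973)))))))))))
(mv 906 (cons (fin 907 3 906)
(mv 911 (cons (fin 910 2 907)
(mv 975 (cons (fin 912 2 908)
(mv 976 (cons (fin 1036 1 972)
(fin 977 1 973))))))))))
(cons (mv 1034 (cons (fin 1035 1 970)
(mv 911 (cons (fin 910 2 907)
(mv 975 (cons (fin 912 2 908)
(mv 976 (cons (fin 1036 1 972)
(fin 977 1 973)))))))))
(cons (mv 1034 (cons (fin 1035 1 970)
(mv 907 (cons (fin 906 3 906)
(mv 975 (cons (fin 908 3 907)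
(mv 976 (cons (fin 1036 1 972)
(fin 977 1 973)))))))))
(mv 1034 (cons (fin 1035 1 970)
(mv 907 (cons (fin 906 3 906)
(mv 910 (cons (fin 911 2 907)
(mv 846 (cons (fin 782 5 781)
(mv 845 (cons (fin 781 7 781)
(mv 847 (cons (fin 783 6 782)
(mv 908 (cons (fin 844 1 843)
(fin 909 2 843)))))))))))))))))))))))
(cons (cons (mv 970 (cons (fin 971 0 970)
(mv 1101 (cons (cons (mv 1165 (cons (fin 908 7 908)
(mv 1228 (cons (fin 1164 5 972)
(mv 1229 (cons (fin 1292 5 1036)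
(fin 1036 7 972)))))))
(mv 909 (cons (cons (cons (mv 1164 (cons (fin 1100 5 908)
(mv 908 (cons (fin 844 7 844)
(mv 846 (cons (fin 910 6 845)
(mv 845 (cons (fin 782 6 781)
(mv 781 (cons (fin 1036 5 780)
(fin 717 5 716)))))))))))
(mv 908 (cons (fin 844 7 844)
(mv 846 (cons (fin 910 6 845)
(mv 845 (cons (fin 782 6 781)
(mv 781 (cons (fin 1036 5 780)
(fin 717 5 716))))))))))
(cons (mv 1164 (cons (fin 1100 5 908)
(mv 846 (cons (fin 910 6 845)
(mv 845 (cons (fin 782 6 781)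
(mv 781 (cons (fin 1036 5 780)
(mv 716 (cons (fin 780 7 716)
(mv 717 (cons (fin 908 5 716)
(fin 652 7 652)))))))))))))
(mv 1164 (cons (fin 1100 5 908)
(mv 846 (cons (fin 910 6 845)
(mv 845 (cons (fin 782 6 781)
(mv 780 (cons (fin 844 7 780)
(mv 781 (cons (fin 1036 5 780)
(fin 716 7 716)))))))))))))
(cons (cons (mv 1164 (cons (fin 1100 5 908)
(mv 844 (cons (fin 908 7 844)
(mv 845 (cons (fin 780 7 780)
(mv 781 (cons (fin 1036 5 780)
(mv 782 (cons (fin 846 6 781)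
(fin 718 6 717)))))))))))
(mv 1100 (cons (fin 1164 5 908)
(mv 1098 (cons (fin 1099 2 1034)
(mv 1036 (cons (fin 845 5 844)
(mv 908 (cons (fin 844 7 844)
(mv 907 (cons (fin 843 7 843)
(mv 906 (cons (fin 969 1 905)
(fin 905 0 905))))))))))))))
(cons (mv 1164 (cons (fin 1100 5 908)
(mv 844 (cons (fin 908 7 844)
(mv 845 (cons (fin 780 7 780)
(mv 846 (cons (fin 910 6 845)
(fin 782 6 781)))))))))
(mv 1100 (cons (fin 1164 5 908)
(mv 1099 (cons (fin 1098 2 1034)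
(mv 908 (cons (fin 844 7 844)
(mv 1036 (cons (fin 1163 5 907)
(mv 907 (cons (fin 843 7 843)
(mv 906 (cons (fin 969 1 905)
(fin 905 0 905))))))))))))))))))
(cons (mv 1165 (cons (cons (mv 1228 (cons (fin 1164 5 972)
(mv 1229 (cons (fin 1292 5 1036)
(fin 1036 7 972)))))
(mv 1230 (cons (fin 1166 4 973)
(mv 1164 (cons (fin 1228 5 972)
(mv 909 (cons (fin 1100 5 908)
(mv 846 (cons (fin 910 6 845)
(mv 845 (cons (fin 782 6 781)
(mv 780 (cons (fin 844 7 780)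
(mv 781 (cons (fin 1036 5 780)
(fin 716 7 716))))))))))))))))
(cons (mv 1229 (cons (fin 1036 7 972)
(mv 1230 (cons (fin 1294 4 1037)
(fin 1166 4 973)))))
(mv 1228 (cons (fin 1164 5 972)
(mv 1229 (cons (fin 1292 5 1036)
(mv 1230 (cons (fin 1294 4 1037)
(fin 1166 4 973))))))))))
(cons (mv 1165 (cons (fin 908 7 908)
(mv 1228 (cons (fin 1164 5 972)
(mv 1229 (cons (fin 1292 5 1036)
(mv 1230 (cons (fin 1294 4 1037)
(fin 1166 4 973)))))))))
(mv 1165 (cons (fin 908 7 908)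
(mv 1229 (cons (fin 1036 7 972)
(mv 1230 (cons (fin 1294 4 1037)
(fin 1166 4 973)))))))))))))
(mv 971 (cons (fin 970 0 970)
(mv 974 (cons (cons (mv 1034 (cons (fin 1035 1 970)
(mv 906 (cons (fin 907 3 906)
(mv 910 (cons (fin 911 2 907)
(mv 1101 (cons (fin 846 5 845)
(fin 1165 6 909)))))))))
(mv 1034 (cons (fin 1035 1 970)
(mv 907 (cons (fin 906 3 906)
(mv 975 (cons (fin 908 3 907)
(mv 976 (cons (fin 977 1 973)
(mv 912 (cons (fin 911 2 908)
(fin 913 2 909))))))))))))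
(cons (mv 1034 (cons (fin 1035 1 970)
(mv 907 (cons (fin 906 3 906)
(mv 908 (cons (fin 975 3 907)
(mv 1101 (cons (fin 1165 7 908)
(mv 844 (cons (fin 909 7 844)
(fin 780 4 780)))))))))))
(cons (mv 1034 (cons (fin 1035 1 970)
(mv 910 (cons (fin 911 2 907)
(mv 1101 (cons (fin 846 5 845)
(fin 1165 6 909)))))))
(mv 906 (cons (fin 907 3 906)
(mv 910 (cons (fin 911 2 907)
(mv 1101 (cons (fin 846 5 845)
(fin 1165 6 909))))))))))))))
(cons (mv 970 (cons (fin 971 0 970)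
(mv 1101 (cons (cons (mv 1165 (cons (fin 908 7 908)
(mv 1229 (cons (fin 1036 7 972)
(fin 974 6 973)))))
(mv 909 (cons (cons (mv 1164 (cons (fin 1100 5 908)
(mv 844 (cons (fin 908 7 844)
(mv 845 (cons (fin 780 7 780)
(mv 781 (cons (fin 1036 5 780)
(fin 974 4 781)))))))))
(cons (mv 844 (cons (fin 908 7 844)
(mv 845 (cons (fin 780 7 780)
(mv 781 (cons (fin 1036 5 780)
(fin 974 4 781)))))))
(mv 1100 (cons (fin 1164 5 908)
(mv 1098 (cons (fin 1099 2 1034)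
(mv 845 (cons (fin 1036 5 844)
(mv 846 (cons (fin 782 6 781)
(mv 781 (cons (fin 974 4 781)
(mv 716 (cons (fin 780 7 716)
(mv 717 (cons (fin 908 5 716)
(fin 652 7 652)))))))))))))))))
(cons (cons (mv 1100 (cons (fin 1164 5 908)
(mv 1098 (cons (fin 1099 2 1034)
(mv 845 (cons (fin 1036 5 844)
(mv 844 (cons (fin 780 7 780)
(mv 781 (cons (fin 974 4 781)
(mv 782 (cons (fin 846 6 781)
(fin 718 6 717)))))))))))))
(mv 1100 (cons (fin 1164 5 908)
(mv 1099 (cons (fin 1098 2 1034)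
(mv 908 (cons (fin 844 7 844)
(mv 1036 (cons (fin 1163 5 907)
(mv 907 (cons (fin 843 7 843)
(mv 974 (cons (fin 975 3 907)
(fin 906 0 906))))))))))))))
(cons (mv 1164 (cons (fin 1100 5 908)
(mv 844 (cons (fin 908 7 844)
(mv 845 (cons (fin 780 7 780)
(mv 781 (cons (fin 974 4 781)
(mv 782 (cons (fin 846 6 781)
(fin 718 6 717)))))))))))
(mv 1164 (cons (fin 1100 5 908)
(mv 844 (cons (fin 908 7 844)
(mv 845 (cons (fin 780 7 780)
(mv 781 (cons (fin 1036 5 780)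
(mv 782 (cons (fin 846 6 781)
(fin 718 6 717))))))))))))))))
(cons (mv 1165 (cons (mv 1229 (cons (fin 1036 7 972)
(fin 974 6 973)))
(mv 1164 (cons (fin 1228 5 972)
(mv 1166 (cons (fin 1230 4 973)
(mv 1100 (cons (fin 909 5 908)
(mv 1167 (cons (fin 1099 3 1099)
(fin 1168 3 1100)))))))))))
(cons (mv 1165 (cons (fin 908 7 908)
(mv 1228 (cons (fin 1164 5 972)
(mv 1229 (cons (fin 1292 5 1036)
(fin 974 6 973)))))))
(mv 1165 (cons (fin 908 7 908)
(mv 1228 (cons (fin 1164 5 972)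
(mv 1229 (cons (fin 1292 5 1036)
(fin 1036 7 972)))))))))))))
(cons (mv 971 (cons (fin 970 0 970)
(mv 974 (cons (cons (mv 1034 (cons (fin 1035 1 970)
(mv 906 (cons (fin 907 3 906)
(mv 911 (cons (fin 910 2 907)
(mv 975 (cons (fin 912 2 908)
(mv 976 (cons (fin 1036 1 972)
(fin 977 1 973)))))))))))
(cons (mv 906 (cons (fin 907 3 906)
(mv 911 (cons (fin 910 2 907)
(mv 975 (cons (fin 912 2 908)
(mv 976 (cons (fin 1036 1 972)
(fin 977 1 973)))))))))
(mv 1034 (cons (fin 1035 1 970)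
(mv 911 (cons (fin 910 2 907)
(mv 975 (cons (fin 912 2 908)
(mv 976 (cons (fin 1036 1 972)
(fin 977 1 973)))))))))))
(cons (mv 1034 (cons (fin 1035 1 970)
(mv 907 (cons (fin 906 3 906)
(mv 975 (cons (fin 908 3 907)
(mv 976 (cons (fin 1036 1 972)
(fin 977 1 973)))))))))
(cons (mv 1034 (cons (fin 1035 1 970)
(mv 907 (cons (fin 906 3 906)
(mv 910 (cons (fin 911 2 907)
(mv 1101 (cons (fin 1165 6 909)
(mv 909 (cons (cons (mv 1164 (cons (fin 1100 5 908)
(mv 908 (cons (fin 844 7 844)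
(mv 843 (cons (fin 842 3 842)
(mv 779 (cons (fin 1036 4 779)
(fin 715 4 715)))))))))
(mv 908 (cons (fin 844 7 844)
(mv 843 (cons (fin 842 3 842)
(mv 779 (cons (fin 1036 4 779)
(fin 715 4 715))))))))
(cons (mv 1100 (cons (fin 1164 5 908)
(mv 845 (cons (fin 1036 5 844)
(fin 781 4 781)))))
(mv 1164 (cons (fin 1100 5 908)
(mv 844 (cons (fin 908 7 844)
(mv 845 (cons (fin 780 7 780)
(fin 781 4 781))))))))))))))))))
(mv 1034 (cons (fin 1035 1 970)
(mv 907 (cons (fin 906 3 906)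
(mv 975 (cons (fin 908 3 907)
(mv 911 (cons (fin 910 2 907)
(fin 912 2 908)))))))))))))))
(mv 970 (cons (fin 971 0 970)
(mv 908 (cons (cons (mv 1101 (cons (fin 1165 7 908)
(mv 844 (cons (fin 909 7 844)
(fin 1036 4 844)))))
(mv 844 (cons (fin 780 4 780)
(mv 1036 (cons (cons (mv 1099 (cons (fin 1035 5 843)
(mv 1100 (cons (fin 1163 5 907)
(mv 1164 (cons (fin 1228 6 972)
(fin 909 6 908)))))))
(mv 843 (cons (fin 779 7 779)
(mv 845 (cons (fin 781 6 780)
(mv 1100 (cons (fin 909 5 844)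
(mv 1163 (cons (fin 1099 5 907)
(mv 1164 (cons (fin 1227 5 971)
(fin 1228 6 972))))))))))))
(cons (mv 843 (cons (fin 779 7 779)
(mv 845 (cons (fin 781 6 780)
(mv 909 (cons (fin 1100 5 844)
(mv 910 (cons (fin 911 3 843)
(fin 842 0 842)))))))))
(mv 1035 (cons (fin 1099 5 843)
(mv 1034 (cons (fin 969 3 969)
(fin 1033 2 969)))))))))))
(cons (mv 1101 (cons (fin 1165 7 908)
(mv 909 (cons (cons (mv 1164 (cons (fin 1100 5 908)
(mv 910 (cons (fin 846 6 845)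
(mv 911 (cons (fin 912 1 908)
(mv 975 (cons (fin 976 0 908)
(mv 847 (cons (fin 848 2 844)
(mv 783 (cons (fin 974 5 782)
(mv 782 (cons (fin 718 7 718)
(mv 720 (cons (fin 784 6 719)
(mv 719 (cons (fin 656 6 655)
(mv 781 (cons (fin 780 2 716)
(mv 845 (cons (fin 1036 5 780)
(fin 717 5 716)))))))))))))))))))))))
(mv 910 (cons (fin 846 6 845)
(mv 911 (cons (fin 912 1 908)
(mv 975 (cons (fin 976 0 908)
(mv 847 (cons (fin 848 2 844)
(mv 783 (cons (fin 974 5 782)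
(mv 782 (cons (fin 718 7 718)
(mv 720 (cons (fin 784 6 719)
(mv 719 (cons (fin 656 6 655)
(mv 781 (cons (fin 780 2 716)
(mv 845 (cons (fin 1036 5 780)
(fin 717 5 716))))))))))))))))))))))
(cons (mv 1100 (cons (fin 1164 5 908)
(mv 1098 (cons (fin 1099 2 1034)
(mv 845 (cons (fin 1036 5 844)
(mv 781 (cons (fin 717 5 716)
(fin 974 4 781)))))))))
(cons (mv 1164 (cons (fin 1100 5 908)
(mv 910 (cons (fin 846 6 845)
(mv 911 (cons (fin 912 1 908)
(mv 975 (cons (fin 976 0 908)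
(mv 847 (cons (fin 848 2 844)
(mv 783 (cons (fin 974 5 782)
(mv 718 (cons (fin 782 7 718)
(mv 719 (cons (fin 654 7 654)
(mv 720 (cons (fin 784 6 719)
(fin 656 6 655)))))))))))))))))))
(mv 1164 (cons (fin 1100 5 908)
(mv 846 (cons (fin 910 6 845)
(mv 845 (cons (fin 782 6 781)
(mv 781 (cons (fin 1036 5 780)
(fin 717 5 716)))))))))))))))
(cons (mv 1101 (cons (fin 1165 7 908)
(mv 844 (cons (fin 909 7 844)
(fin 780 4 780)))))
(mv 1101 (cons (fin 1165 7 908)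
(mv 844 (cons (fin 1036 4 844)
(fin 780 4 780)))))))))))))))))
(cons (mv 1039 (cons (cons (mv 1100 (cons (fin 1101 1 1036)
(mv 1104 (cons (fin 1105 0 1037)
(mv 1036 (cons (fin 1099 1 1035)
(fin 1103 0 1036)))))))
(mv 1100 (cons (fin 1101 1 1036)
(mv 1036 (cons (fin 1099 1 1035)
(mv 976 (cons (fin 975 2 972)
(fin 977 2 973))))))))
(cons (mv 1104 (cons (fin 1105 0 1037)
(mv 1103 (cons (fin 1036 0 1036)
(mv 976 (cons (fin 977 2 973)
(mv 1167 (cons (fin 912 5 911)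
(fin 1231 6 975)))))))))
(mv 1100 (cons (fin 1101 1 1036)
(mv 1104 (cons (fin 1105 0 1037)
(mv 976 (cons (fin 977 2 973)
(mv 912 (cons (mv 1103 (cons (fin 1167 5 911)
(fin 848 5 847)))
(cons (mv 911 (cons (fin 847 7 847)
(mv 1168 (cons (fin 975 7 911)
(mv 1231 (cons (fin 1167 5 975)
(mv 1232 (cons (fin 1295 5 1039)
(mv 1233 (cons (fin 1297 4 1040)
(fin 1169 4 976)))))))))))
(mv 1103 (cons (fin 848 5 847)
(mv 911 (cons (fin 847 7 847)
(mv 1168 (cons (fin 975 7 911)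
(mv 1232 (cons (fin 1296 7 1039)
(mv 1233 (cons (fin 1297 4 1040)
(fin 1169 4 976)))))))))))))))))))))))
(cons (mv 1039 (cons (fin 972 3 972)
(mv 1104 (cons (fin 1105 0 1037)
(mv 1103 (cons (fin 1036 0 1036)
(mv 976 (cons (fin 977 2 973)
(mv 1167 (cons (fin 912 5 911)
(fin 1231 6 975)))))))))))
(mv 1039 (cons (fin 972 3 972)
(mv 1100 (cons (fin 1101 1 1036)
(mv 1104 (cons (fin 1105 0 1037)
(mv 976 (cons (fin 977 2 973)
(mv 912 (cons (mv 1103 (cons (fin 1167 5 911)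
(fin 848 5 847)))
(cons (mv 911 (cons (fin 847 7 847)
(mv 1168 (cons (fin 975 7 911)
(mv 1231 (cons (fin 1167 5 975)
(mv 1232 (cons (fin 1295 5 1039)
(mv 1233 (cons (fin 1297 4 1040)
(fin 1169 4 976)))))))))))
(mv 1103 (cons (fin 848 5 847)
(mv 911 (cons (fin 847 7 847)
(mv 1168 (cons (fin 975 7 911)
(mv 1232 (cons (fin 1296 7 1039)
(mv 1233 (cons (fin 1297 4 1040)
(fin 1169 4 976))))))))))))))))))))))))))
(mv 1101 (cons (cons (cons (mv 1165 (cons (cons (mv 1228 (cons (fin 1164 5 972)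
(mv 1229 (cons (fin 1292 5 1036)
(mv 1230 (cons (fin 1294 4 1037)
(fin 1166 4 973)))))))
(mv 1230 (cons (fin 1166 4 973)
(mv 1229 (cons (fin 1294 4 1037)
(mv 974 (cons (fin 1038 6 973)
(fin 910 6 909))))))))
(cons (mv 1228 (cons (fin 1164 5 972)
(mv 1229 (cons (fin 1292 5 1036)
(mv 974 (cons (fin 1038 6 973)
(fin 910 6 909)))))))
(mv 1230 (cons (fin 1166 4 973)
(mv 1164 (cons (fin 1228 5 972)
(mv 974 (cons (fin 910 6 909)
(mv 909 (cons (fin 1100 5 908)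
(mv 844 (cons (fin 908 7 844)
(mv 845 (cons (fin 780 7 780)
(mv 781 (cons (fin 1038 4 781)
(mv 782 (cons (fin 846 6 781)
(fin 718 6 717))))))))))))))))))))
(mv 909 (cons (cons (mv 1164 (cons (fin 1100 5 908)
(mv 844 (cons (fin 908 7 844)
(mv 845 (cons (fin 780 7 780)
(mv 846 (cons (fin 910 6 845)
(fin 782 6 781)))))))))
(cons (mv 844 (cons (fin 908 7 844)
(mv 845 (cons (fin 780 7 780)
(mv 846 (cons (fin 910 6 845)
(fin 782 6 781)))))))
(mv 1100 (cons (fin 1164 5 908)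
(mv 1038 (cons (fin 1039 1 1036)
(mv 1098 (cons (fin 1099 2 1034)
(mv 908 (cons (fin 844 7 844)
(mv 845 (cons (fin 1036 5 844)
(mv 974 (cons (fin 781 4 781)
(mv 975 (cons (fin 976 3 908)
(mv 907 (cons (fin 906 0 906)
(fin 910 0 907)))))))))))))))))))
(cons (mv 1100 (cons (fin 1164 5 908)
(mv 1038 (cons (fin 1039 1 1036)
(mv 1098 (cons (fin 1099 2 1034)
(mv 910 (cons (fin 846 6 845)
(mv 845 (cons (fin 1036 5 844)
(mv 781 (cons (fin 974 4 781)
(mv 716 (cons (fin 780 7 716)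
(mv 717 (cons (fin 652 7 652)
(mv 718 (cons (fin 782 6 717)
(fin 654 6 653)))))))))))))))))))
(cons (mv 1100 (cons (fin 1164 5 908)
(mv 1038 (cons (fin 1039 1 1036)
(mv 1098 (cons (fin 1099 2 1034)
(mv 908 (cons (fin 844 7 844)
(mv 845 (cons (fin 1036 5 844)
(mv 781 (cons (fin 974 4 781)
(mv 782 (cons (fin 846 6 781)
(fin 718 6 717)))))))))))))))
(mv 1164 (cons (fin 1100 5 908)
(mv 908 (cons (fin 844 7 844)
(mv 910 (cons (fin 846 6 845)
(mv 911 (cons (cons (mv 975 (cons (fin 976 0 908)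
(mv 974 (cons (fin 907 0 907)
(mv 912 (cons (fin 913 1 909)
(mv 848 (cons (fin 847 2 844)
(fin 849 2 845)))))))))
(mv 848 (cons (fin 847 2 844)
(mv 912 (cons (fin 849 2 845)
(mv 974 (cons (fin 913 1 909)
(mv 907 (cons (fin 906 0 906)
(fin 975 0 907))))))))))
(cons (mv 848 (cons (fin 847 2 844)
(mv 912 (cons (fin 849 2 845)
(mv 977 (cons (fin 976 0 909)
(mv 913 (cons (fin 974 1 909)
(fin 978 0 910)))))))))
(cons (mv 975 (cons (fin 976 0 908)
(mv 907 (cons (fin 974 0 907)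
(mv 970 (cons (fin 971 1 906)
(mv 906 (cons (fin 969 1 905)
(mv 842 (cons (fin 841 3 841)
(fin 843 3 842)))))))))))
(mv 976 (cons (fin 975 0 908)
(mv 912 (cons (fin 977 0 909)
(mv 847 (cons (fin 848 2 844)
(fin 1104 7 847))))))))))))))))))))))
(cons (mv 1165 (cons (cons (mv 1228 (cons (fin 1164 5 972)
(mv 1229 (cons (fin 1292 5 1036)
(mv 1230 (cons (fin 1294 4 1037)
(fin 1166 4 973)))))))
(mv 1230 (cons (fin 1166 4 973)
(mv 1229 (cons (fin 1294 4 1037)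
(mv 974 (cons (fin 1038 6 973)
(fin 910 6 909))))))))
(cons (mv 1228 (cons (fin 1164 5 972)
(mv 1229 (cons (fin 1292 5 1036)
(mv 974 (cons (fin 1038 6 973)
(fin 910 6 909)))))))
(mv 1164 (cons (fin 1228 5 972)
(mv 1166 (cons (fin 1230 4 973)
(mv 974 (cons (fin 910 6 909)
(mv 1167 (cons (mv 1100 (cons (fin 1099 3 1099)
(fin 1168 3 1100)))
(mv 1231 (cons (fin 1232 0 1164)
(mv 1103 (cons (fin 1104 2 1100)
(mv 1039 (cons (fin 1038 7 974)
(fin 976 6 975))))))))))))))))))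
(mv 1165 (cons (cons (mv 1228 (cons (fin 1164 5 972)
(mv 1229 (cons (fin 1292 5 1036)
(mv 1230 (cons (fin 1294 4 1037)
(fin 1166 4 973)))))))
(mv 1230 (cons (fin 1166 4 973)
(mv 1229 (cons (fin 1294 4 1037)
(mv 974 (cons (fin 1038 6 973)
(fin 910 6 909))))))))
(cons (mv 1228 (cons (fin 1164 5 972)
(mv 1229 (cons (fin 1292 5 1036)
(mv 974 (cons (fin 1038 6 973)
(fin 910 6 909)))))))
(mv 1164 (cons (fin 1228 5 972)
(mv 1166 (cons (fin 1230 4 973)
(mv 910 (cons (fin 974 6 909)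
(mv 909 (cons (fin 846 6 845)
(mv 1104 (cons (cons (mv 1167 (cons (fin 1103 2 1100)
(mv 1231 (cons (fin 1232 0 1164)
(mv 1168 (cons (fin 1105 2 1101)
(fin 976 5 975)))))))
(cons (mv 844 (cons (fin 908 7 844)
(mv 845 (cons (fin 780 7 780)
(mv 912 (cons (fin 911 3 844)
(mv 842 (cons (fin 843 0 842)
(mv 976 (cons (mv 1169 (cons (fin 1105 4 912)
(mv 1168 (cons (fin 1233 4 976)
(mv 913 (cons (fin 977 6 912)
(fin 849 6 848)))))))
(cons (mv 1105 (cons (fin 1169 4 912)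
(mv 1039 (cons (fin 1038 0 1037)
(mv 848 (cons (fin 1103 5 847)
(mv 783 (cons (fin 847 7 783)
(mv 784 (cons (fin 975 5 783)
(fin 719 7 719)))))))))))
(mv 913 (cons (fin 849 6 848)
(mv 977 (cons (fin 1168 6 912)
(mv 1039 (cons (fin 1038 2 973)
(mv 848 (cons (fin 1103 5 847)
(mv 784 (cons (fin 975 5 783)
(fin 720 4 720))))))))))))))))))))))
(mv 844 (cons (fin 908 7 844)
(mv 845 (cons (fin 780 7 780)
(mv 911 (cons (fin 912 3 844)
(mv 842 (cons (fin 843 0 842)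
(mv 1168 (cons (cons (mv 1167 (cons (fin 1105 2 1101)
(mv 1231 (cons (fin 1232 0 1164)
(fin 976 5 975)))))
(mv 975 (cons (fin 976 7 911)
(mv 1039 (cons (fin 1232 7 975)
(fin 847 4 847))))))
(cons (mv 1167 (cons (fin 1105 2 1101)
(mv 1232 (cons (fin 1231 0 1164)
(fin 1233 0 1165)))))
(mv 1167 (cons (fin 1105 2 1101)
(mv 976 (cons (fin 1231 5 975)
(fin 975 7 911))))))))))))))))))
(cons (mv 1167 (cons (fin 1103 2 1100)
(mv 1231 (cons (fin 1232 0 1164)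
(mv 976 (cons (fin 1168 5 975)
(mv 908 (cons (fin 844 7 844)
(mv 911 (cons (fin 975 0 908)
(mv 912 (cons (fin 977 0 909)
(fin 847 7 847)))))))))))))
(cons (mv 1103 (cons (fin 1167 2 1100)
(mv 908 (cons (fin 844 7 844)
(mv 911 (cons (cons (mv 975 (cons (fin 976 0 908)
(mv 847 (cons (fin 848 2 844)
(fin 1039 4 847)))))
(cons (mv 847 (cons (fin 848 2 844)
(mv 1039 (cons (fin 975 4 847)
(mv 1038 (cons (fin 1036 0 1036)
(fin 1105 0 1037)))))))
(mv 976 (cons (fin 975 0 908)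
(mv 912 (cons (fin 977 0 909)
(mv 848 (cons (fin 849 2 845)
(fin 1039 5 847)))))))))
(cons (mv 975 (cons (fin 976 0 908)
(mv 1039 (cons (fin 847 4 847)
(mv 1038 (cons (fin 1036 0 1036)
(fin 1105 0 1037)))))))
(cons (mv 848 (cons (fin 847 2 844)
(mv 912 (cons (fin 849 2 845)
(mv 976 (cons (fin 977 0 909)
(fin 1039 5 847)))))))
(mv 976 (cons (fin 975 0 908)
(mv 912 (cons (fin 977 0 909)
(fin 847 7 847)))))))))))))
(mv 1167 (cons (fin 1103 2 1100)
(mv 1232 (cons (fin 1231 0 1164)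
(mv 1168 (cons (fin 1233 0 1165)
(fin 1105 2 1101))))))))))))))))))))))))
(cons (cons (mv 909 (cons (cons (mv 908 (cons (fin 844 7 844)
(mv 910 (cons (fin 846 6 845)
(mv 974 (cons (fin 1165 6 909)
(mv 975 (cons (fin 976 3 908)
(fin 907 0 907)))))))))
(mv 844 (cons (fin 908 7 844)
(mv 845 (cons (fin 780 7 780)
(mv 1100 (cons (fin 1036 5 844)
(mv 1038 (cons (fin 1039 1 1036)
(mv 1098 (cons (fin 1099 2 1034)
(mv 781 (cons (fin 974 4 781)
(mv 782 (cons (fin 846 6 781)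
(fin 718 6 717))))))))))))))))
(cons (mv 844 (cons (fin 908 7 844)
(mv 845 (cons (fin 780 7 780)
(mv 1100 (cons (fin 1036 5 844)
(mv 1038 (cons (fin 1039 1 1036)
(mv 1098 (cons (fin 1099 2 1034)
(mv 974 (cons (fin 781 4 781)
(mv 1165 (cons (fin 1229 6 973)
(fin 910 6 909)))))))))))))))
(cons (mv 845 (cons (mv 846 (cons (fin 910 6 845)
(fin 782 6 781)))
(cons (mv 1100 (cons (fin 1036 5 844)
(mv 1038 (cons (fin 1039 1 1036)
(mv 1098 (cons (fin 1099 2 1034)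
(mv 974 (cons (fin 781 4 781)
(mv 1165 (cons (fin 1229 6 973)
(fin 910 6 909)))))))))))
(mv 1100 (cons (fin 1036 5 844)
(mv 1038 (cons (fin 1039 1 1036)
(mv 1098 (cons (fin 1099 2 1034)
(mv 781 (cons (fin 974 4 781)
(mv 782 (cons (fin 846 6 781)
(fin 718 6 717))))))))))))))
(mv 844 (cons (fin 908 7 844)
(mv 845 (cons (fin 780 7 780)
(mv 846 (cons (fin 910 6 845)
(fin 782 6 781)))))))))))
(mv 1165 (cons (cons (mv 1228 (cons (fin 1164 5 972)
(mv 1229 (cons (fin 1292 5 1036)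
(mv 1230 (cons (fin 1294 4 1037)
(fin 1166 4 973)))))))
(mv 1230 (cons (fin 1166 4 973)
(mv 1229 (cons (fin 1294 4 1037)
(mv 1292 (cons (fin 1228 5 1036)
(mv 1356 (cons (fin 1293 5 1100)
(mv 1038 (cons (fin 974 6 973)
(mv 1039 (cons (fin 1100 1 1036)
(mv 1104 (cons (fin 1105 0 1037)
(mv 1103 (cons (fin 1036 0 1036)
(mv 976 (cons (fin 977 2 973)
(mv 1167 (cons (fin 912 5 911)
(fin 1231 6 975))))))))))))))))))))))
(cons (mv 1230 (cons (fin 1166 4 973)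
(mv 1229 (cons (fin 1294 4 1037)
(mv 1038 (cons (fin 974 6 973)
(mv 1100 (cons (fin 1039 1 1036)
(mv 1293 (cons (fin 1036 7 1036)
(mv 1164 (cons (fin 909 5 908)
(fin 1357 7 1100)))))))))))))
(cons (mv 1228 (cons (fin 1164 5 972)
(mv 1229 (cons (fin 1292 5 1036)
(mv 1038 (cons (fin 974 6 973)
(mv 1039 (cons (fin 1100 1 1036)
(mv 1104 (cons (fin 1105 0 1037)
(mv 1103 (cons (fin 1036 0 1036)
(mv 976 (cons (fin 977 2 973)
(mv 1167 (cons (fin 912 5 911)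
(fin 1231 6 975)))))))))))))))))
(mv 1164 (cons (fin 1228 5 972)
(mv 1166 (cons (fin 1230 4 973)
(mv 1100 (cons (fin 909 5 908)
(mv 1167 (cons (fin 1099 3 1099)
(fin 1168 3 1100))))))))))))))
(cons (mv 909 (cons (cons (mv 1164 (cons (fin 1100 5 908)
(mv 1228 (cons (fin 1165 5 972)
(mv 844 (cons (fin 908 7 844)
(mv 845 (cons (fin 780 7 780)
(mv 846 (cons (fin 910 6 845)
(fin 782 6 781)))))))))))
(mv 1100 (cons (fin 1164 5 908)
(mv 844 (cons (fin 908 7 844)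
(mv 845 (cons (fin 1036 5 844)
(fin 780 7 780))))))))
(cons (mv 908 (cons (fin 844 7 844)
(mv 910 (cons (fin 846 6 845)
(mv 1165 (cons (fin 974 6 909)
(mv 1228 (cons (fin 1164 5 972)
(mv 1229 (cons (fin 1292 5 1036)
(mv 1230 (cons (fin 1294 4 1037)
(fin 1166 4 973)))))))))))))
(cons (mv 908 (cons (fin 844 7 844)
(mv 910 (cons (fin 846 6 845)
(mv 974 (cons (fin 1165 6 909)
(mv 975 (cons (fin 976 3 908)
(fin 907 0 907)))))))))
(mv 1164 (cons (fin 1100 5 908)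
(mv 1165 (cons (fin 1228 5 972)
(mv 910 (cons (fin 974 6 909)
(fin 846 6 845)))))))))))
(mv 909 (cons (cons (mv 1164 (cons (fin 1100 5 908)
(mv 1228 (cons (fin 1165 5 972)
(mv 844 (cons (fin 908 7 844)
(mv 845 (cons (fin 780 7 780)
(mv 846 (cons (fin 910 6 845)
(fin 782 6 781)))))))))))
(mv 844 (cons (fin 908 7 844)
(mv 845 (cons (fin 780 7 780)
(mv 846 (cons (fin 910 6 845)
(fin 782 6 781))))))))
(cons (mv 1100 (cons (fin 1164 5 908)
(mv 1038 (cons (fin 1039 1 1036)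
(mv 1098 (cons (fin 1099 2 1034)
(mv 845 (cons (fin 1036 5 844)
(mv 846 (cons (fin 910 6 845)
(fin 782 6 781)))))))))))
(cons (mv 1100 (cons (fin 1164 5 908)
(mv 1038 (cons (fin 1039 1 1036)
(mv 1098 (cons (fin 1099 2 1034)
(mv 844 (cons (fin 908 7 844)
(mv 845 (cons (fin 1036 5 844)
(fin 780 7 780)))))))))))
(mv 908 (cons (fin 844 7 844)
(mv 910 (cons (fin 846 6 845)
(mv 1039 (cons (mv 1100 (cons (fin 1038 1 1036)
(fin 1164 5 908)))
(cons (mv 976 (cons (cons (mv 1038 (cons (fin 977 2 973)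
(mv 975 (cons (fin 911 0 908)
(fin 1036 2 972)))))
(mv 1038 (cons (fin 977 2 973)
(mv 1104 (cons (fin 1105 0 1037)
(mv 1036 (cons (fin 1103 0 1036)
(fin 975 2 972))))))))
(cons (mv 975 (cons (fin 911 0 908)
(mv 1038 (cons (fin 1036 2 972)
(mv 1104 (cons (fin 1105 0 1037)
(mv 1168 (cons (fin 1232 7 975)
(mv 1233 (cons (fin 1169 4 976)
(mv 1167 (cons (fin 1231 5 975)
(mv 912 (cons (fin 1103 5 911)
(mv 848 (cons (fin 784 5 783)
(mv 849 (cons (fin 913 6 848)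
(fin 785 6 784)))))))))))))))))))
(cons (mv 911 (cons (fin 975 0 908)
(mv 912 (cons (fin 977 0 909)
(mv 847 (cons (fin 848 2 844)
(fin 1104 7 847)))))))
(mv 1038 (cons (fin 977 2 973)
(mv 1104 (cons (fin 1105 0 1037)
(mv 1103 (cons (fin 1036 0 1036)
(mv 1167 (cons (fin 912 5 911)
(fin 1231 6 975)))))))))))))
(mv 1164 (cons (fin 1100 5 908)
(mv 1165 (cons (fin 1228 5 972)
(mv 1166 (cons (fin 1230 4 973)
(mv 1167 (cons (cons (mv 1231 (cons (fin 1232 0 1164)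
(mv 1103 (cons (fin 1104 2 1100)
(fin 976 6 975)))))
(mv 1231 (cons (fin 1232 0 1164)
(mv 976 (cons (fin 1103 6 975)
(mv 911 (cons (fin 975 0 908)
(mv 912 (cons (fin 977 0 909)
(mv 848 (cons (fin 847 2 844)
(fin 849 2 845))))))))))))
(cons (mv 1232 (cons (fin 1231 0 1164)
(mv 1168 (cons (fin 1233 0 1165)
(mv 1104 (cons (fin 1105 2 1101)
(fin 975 7 975)))))))
(cons (mv 1104 (cons (fin 1103 2 1100)
(mv 1168 (cons (fin 1105 2 1101)
(mv 1232 (cons (fin 1233 0 1165)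
(fin 975 7 975)))))))
(mv 1103 (cons (fin 1104 2 1100)
(mv 976 (cons (fin 1231 6 975)
(mv 975 (cons (fin 911 0 908)
(fin 912 6 911)))))))))))))))))))))))))))))))))
(cons (mv 1101 (cons (cons (mv 1165 (cons (cons (mv 1228 (cons (fin 1164 5 972)
(mv 1292 (cons (fin 1229 5 1036)
(mv 1230 (cons (fin 1166 4 973)
(mv 972 (cons (fin 908 7 908)
(mv 974 (cons (fin 910 6 909)
(mv 975 (cons (fin 1039 0 972)
(mv 1036 (cons (fin 1035 1 971)
(fin 976 1 972)))))))))))))))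
(mv 1228 (cons (fin 1164 5 972)
(mv 1229 (cons (fin 1292 5 1036)
(mv 1230 (cons (fin 1294 4 1037)
(fin 1166 4 973))))))))
(cons (mv 1230 (cons (fin 1166 4 973)
(mv 1294 (cons (fin 1229 4 1037)
(mv 972 (cons (fin 908 7 908)
(mv 974 (cons (fin 910 6 909)
(mv 975 (cons (fin 1039 0 972)
(mv 1036 (cons (fin 1035 1 971)
(fin 976 1 972)))))))))))))
(cons (mv 1228 (cons (fin 1164 5 972)
(mv 1292 (cons (fin 1229 5 1036)
(mv 972 (cons (fin 908 7 908)
(mv 974 (cons (fin 910 6 909)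
(mv 975 (cons (fin 1039 0 972)
(mv 1036 (cons (fin 1035 1 971)
(fin 976 1 972)))))))))))))
(mv 1228 (cons (fin 1164 5 972)
(mv 1230 (cons (fin 1166 4 973)
(mv 972 (cons (fin 908 7 908)
(mv 974 (cons (fin 910 6 909)
(mv 975 (cons (fin 1039 0 972)
(mv 1036 (cons (fin 1035 1 971)
(fin 976 1 972)))))))))))))))))
(cons (mv 909 (cons (cons (mv 1164 (cons (fin 1100 5 908)
(mv 844 (cons (fin 908 7 844)
(mv 845 (cons (fin 780 7 780)
(mv 846 (cons (fin 910 6 845)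
(fin 782 6 781)))))))))
(mv 844 (cons (fin 908 7 844)
(mv 845 (cons (fin 780 7 780)
(mv 846 (cons (fin 910 6 845)
(fin 782 6 781))))))))
(cons (mv 1100 (cons (fin 1164 5 908)
(mv 845 (cons (fin 1036 5 844)
(mv 846 (cons (fin 910 6 845)
(fin 782 6 781)))))))
(cons (mv 1100 (cons (fin 1164 5 908)
(mv 844 (cons (fin 908 7 844)
(mv 845 (cons (fin 1036 5 844)
(fin 780 7 780)))))))
(mv 1164 (cons (fin 1100 5 908)
(mv 908 (cons (fin 844 7 844)
(mv 910 (cons (fin 846 6 845)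
(mv 911 (cons (mv 972 (cons (fin 971 1 907)
(fin 912 1 908)))
(cons (mv 975 (cons (fin 976 0 908)
(mv 974 (cons (fin 907 0 907)
(mv 912 (cons (fin 913 1 909)
(mv 848 (cons (fin 847 2 844)
(fin 849 2 845)))))))))
(mv 971 (cons (fin 972 1 907)
(mv 975 (cons (fin 976 0 908)
(mv 907 (cons (fin 970 1 906)
(fin 974 0 907))))))))))))))))))))
(mv 1165 (cons (cons (mv 1228 (cons (fin 1164 5 972)
(mv 1229 (cons (fin 1292 5 1036)
(mv 1230 (cons (fin 1294 4 1037)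
(fin 1166 4 973)))))))
(mv 1230 (cons (fin 1166 4 973)
(mv 1229 (cons (fin 1294 4 1037)
(mv 1292 (cons (fin 1228 5 1036)
(mv 1293 (cons (fin 1356 5 1100)
(mv 1036 (cons (fin 1100 7 1036)
(fin 972 7 972))))))))))))
(cons (mv 1230 (cons (fin 1166 4 973)
(mv 1229 (cons (fin 1294 4 1037)
(mv 1036 (cons (fin 972 7 972)
(mv 1100 (cons (fin 1293 7 1036)
(mv 909 (cons (fin 1164 5 908)
(fin 845 5 844)))))))))))
(cons (mv 1228 (cons (fin 1164 5 972)
(mv 1229 (cons (fin 1292 5 1036)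
(mv 1036 (cons (fin 972 7 972)
(mv 1100 (cons (fin 1293 7 1036)
(mv 909 (cons (fin 845 5 844)
(mv 910 (cons (fin 974 6 909)
(fin 846 6 845)))))))))))))
(mv 1230 (cons (fin 1166 4 973)
(mv 1164 (cons (fin 1228 5 972)
(mv 909 (cons (fin 1100 5 908)
(mv 910 (cons (fin 974 6 909)
(fin 846 6 845)))))))))))))))
(cons (cons (mv 909 (cons (cons (mv 908 (cons (fin 844 7 844)
(mv 1165 (cons (fin 972 7 908)
(mv 910 (cons (fin 974 6 909)
(fin 846 6 845)))))))
(mv 910 (cons (fin 846 6 845)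
(mv 1165 (cons (fin 974 6 909)
(mv 1230 (cons (fin 1166 4 973)
(mv 1229 (cons (fin 1294 4 1037)
(mv 1292 (cons (fin 1228 5 1036)
(mv 1293 (cons (fin 1356 5 1100)
(mv 1036 (cons (fin 1100 7 1036)
(fin 972 7 972))))))))))))))))
(cons (mv 844 (cons (fin 908 7 844)
(mv 845 (cons (fin 780 7 780)
(mv 1036 (cons (fin 1100 5 844)
(mv 781 (cons (fin 972 5 780)
(mv 782 (cons (fin 846 6 781)
(fin 718 6 717)))))))))))
(cons (mv 844 (cons (fin 908 7 844)
(mv 845 (cons (fin 780 7 780)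
(mv 1036 (cons (fin 1100 5 844)
(mv 972 (cons (fin 781 5 780)
(mv 1165 (cons (fin 1229 7 972)
(mv 1230 (cons (fin 1166 4 973)
(mv 974 (cons (fin 910 6 909)
(mv 1035 (cons (fin 975 1 971)
(fin 1034 2 970)))))))))))))))))
(mv 908 (cons (fin 844 7 844)
(mv 910 (cons (fin 846 6 845)
(mv 974 (cons (fin 1165 6 909)
(mv 975 (cons (fin 976 3 908)
(fin 907 0 907)))))))))))))
(mv 1165 (cons (cons (mv 1228 (cons (fin 1164 5 972)
(mv 1229 (cons (fin 1292 5 1036)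
(mv 1230 (cons (fin 1294 4 1037)
(fin 1166 4 973)))))))
(mv 1230 (cons (fin 1166 4 973)
(mv 1229 (cons (fin 1294 4 1037)
(mv 972 (cons (fin 1036 7 972)
(fin 908 7 908))))))))
(cons (mv 1228 (cons (fin 1164 5 972)
(mv 1229 (cons (fin 1292 5 1036)
(mv 972 (cons (fin 1036 7 972)
(fin 908 7 908)))))))
(mv 1230 (cons (fin 1166 4 973)
(mv 1164 (cons (fin 1228 5 972)
(mv 908 (cons (fin 972 7 908)
(mv 909 (cons (fin 1100 5 908)
(fin 844 7 844)))))))))))))
(cons (mv 909 (cons (cons (mv 1164 (cons (fin 1100 5 908)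
(mv 1228 (cons (fin 1165 5 972)
(mv 844 (cons (fin 908 7 844)
(mv 845 (cons (fin 780 7 780)
(mv 846 (cons (fin 910 6 845)
(fin 782 6 781)))))))))))
(mv 1100 (cons (fin 1164 5 908)
(mv 844 (cons (fin 908 7 844)
(mv 845 (cons (fin 1036 5 844)
(fin 780 7 780))))))))
(cons (mv 908 (cons (fin 844 7 844)
(mv 910 (cons (fin 846 6 845)
(mv 1165 (cons (fin 974 6 909)
(mv 1228 (cons (fin 1164 5 972)
(mv 1229 (cons (fin 1292 5 1036)
(mv 1230 (cons (fin 1294 4 1037)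
(fin 1166 4 973)))))))))))))
(cons (mv 908 (cons (fin 844 7 844)
(mv 910 (cons (fin 846 6 845)
(mv 974 (cons (fin 1165 6 909)
(mv 975 (cons (fin 976 3 908)
(fin 907 0 907)))))))))
(mv 1164 (cons (fin 1100 5 908)
(mv 1165 (cons (fin 1228 5 972)
(mv 910 (cons (fin 974 6 909)
(fin 846 6 845)))))))))))
(mv 1165 (cons (cons (mv 1228 (cons (fin 1164 5 972)
(mv 1292 (cons (fin 1229 5 1036)
(mv 1230 (cons (fin 1166 4 973)
(mv 908 (cons (fin 972 7 908)
(mv 909 (cons (fin 844 7 844)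
(mv 910 (cons (fin 974 6 909)
(fin 846 6 845)))))))))))))
(mv 1230 (cons (fin 1166 4 973)
(mv 1294 (cons (fin 1229 4 1037)
(mv 908 (cons (fin 972 7 908)
(mv 909 (cons (fin 844 7 844)
(mv 910 (cons (fin 974 6 909)
(fin 846 6 845))))))))))))
(cons (mv 1228 (cons (fin 1164 5 972)
(mv 1292 (cons (fin 1229 5 1036)
(mv 908 (cons (fin 972 7 908)
(mv 909 (cons (fin 844 7 844)
(mv 910 (cons (fin 974 6 909)
(fin 846 6 845)))))))))))
(cons (mv 1228 (cons (fin 1164 5 972)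
(mv 1229 (cons (fin 1292 5 1036)
(mv 1230 (cons (fin 1294 4 1037)
(fin 1166 4 973)))))))
(mv 1228 (cons (fin 1164 5 972)
(mv 1230 (cons (fin 1166 4 973)
(mv 908 (cons (fin 972 7 908)
(mv 909 (cons (fin 844 7 844)
(mv 910 (cons (fin 974 6 909)
(fin 846 6 845)))))))))))))))))))
(cons (mv 1101 (cons (cons (mv 1165 (cons (cons (mv 1228 (cons (fin 1164 5 972)
(mv 1292 (cons (fin 1229 5 1036)
(mv 1230 (cons (fin 1166 4 973)
(mv 908 (cons (fin 972 7 908)
(mv 909 (cons (fin 844 7 844)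
(mv 910 (cons (fin 974 6 909)
(fin 846 6 845)))))))))))))
(mv 1228 (cons (fin 1164 5 972)
(mv 1229 (cons (fin 1292 5 1036)
(mv 1230 (cons (fin 1294 4 1037)
(fin 1166 4 973))))))))
(cons (mv 1230 (cons (fin 1166 4 973)
(mv 1294 (cons (fin 1229 4 1037)
(mv 908 (cons (fin 972 7 908)
(mv 909 (cons (fin 844 7 844)
(mv 910 (cons (fin 974 6 909)
(fin 846 6 845)))))))))))
(cons (mv 1228 (cons (fin 1164 5 972)
(mv 1292 (cons (fin 1229 5 1036)
(mv 908 (cons (fin 972 7 908)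
(mv 909 (cons (fin 844 7 844)
(mv 910 (cons (fin 974 6 909)
(fin 846 6 845)))))))))))
(mv 1228 (cons (fin 1164 5 972)
(mv 1230 (cons (fin 1166 4 973)
(mv 908 (cons (fin 972 7 908)
(mv 909 (cons (fin 844 7 844)
(mv 910 (cons (fin 974 6 909)
(fin 846 6 845)))))))))))))))
(cons (mv 909 (cons (cons (mv 1164 (cons (fin 1100 5 908)
(mv 844 (cons (fin 908 7 844)
(mv 845 (cons (fin 780 7 780)
(mv 846 (cons (fin 910 6 845)
(fin 782 6 781)))))))))
(mv 844 (cons (fin 908 7 844)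
(mv 845 (cons (fin 780 7 780)
(mv 846 (cons (fin 910 6 845)
(fin 782 6 781))))))))
(cons (mv 1100 (cons (fin 1164 5 908)
(mv 845 (cons (fin 1036 5 844)
(mv 846 (cons (fin 910 6 845)
(fin 782 6 781)))))))
(cons (mv 1100 (cons (fin 1164 5 908)
(mv 844 (cons (fin 908 7 844)
(mv 845 (cons (fin 1036 5 844)
(fin 780 7 780)))))))
(mv 1164 (cons (fin 1100 5 908)
(mv 908 (cons (fin 844 7 844)
(mv 910 (cons (fin 846 6 845)
(mv 911 (cons (mv 972 (cons (fin 971 1 907)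
(fin 912 1 908)))
(cons (mv 975 (cons (fin 976 0 908)
(mv 974 (cons (fin 907 0 907)
(mv 912 (cons (fin 913 1 909)
(mv 848 (cons (fin 847 2 844)
(fin 849 2 845)))))))))
(mv 971 (cons (fin 972 1 907)
(mv 975 (cons (fin 976 0 908)
(mv 907 (cons (fin 970 1 906)
(fin 974 0 907))))))))))))))))))))
(mv 1165 (cons (cons (mv 1228 (cons (fin 1164 5 972)
(mv 1229 (cons (fin 1292 5 1036)
(mv 1230 (cons (fin 1294 4 1037)
(fin 1166 4 973)))))))
(mv 1230 (cons (fin 1166 4 973)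
(mv 1229 (cons (fin 1294 4 1037)
(mv 972 (cons (fin 1036 7 972)
(fin 908 7 908))))))))
(cons (mv 1228 (cons (fin 1164 5 972)
(mv 1229 (cons (fin 1292 5 1036)
(mv 972 (cons (fin 1036 7 972)
(fin 908 7 908)))))))
(mv 1228 (cons (fin 1164 5 972)
(mv 1230 (cons (fin 1166 4 973)
(mv 972 (cons (fin 908 7 908)
(mv 974 (cons (fin 910 6 909)
(mv 971 (cons (mv 1034 (cons (fin 1035 1 970)
(mv 970 (cons (fin 1033 1 969)
(fin 1038 0 970)))))
(cons (mv 1035 (cons (fin 1034 1 970)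
(mv 1036 (cons (fin 975 1 971)
(mv 907 (cons (fin 906 3 906)
(mv 843 (cons (fin 1100 4 843)
(fin 779 4 779)))))))))
(mv 970 (cons (fin 1038 0 970)
(mv 906 (cons (fin 905 3 905)
(fin 907 3 906)))))))))))))))))))))
(cons (mv 1165 (cons (cons (mv 1228 (cons (fin 1164 5 972)
(mv 1229 (cons (fin 1292 5 1036)
(mv 1230 (cons (fin 1294 4 1037)
(fin 1166 4 973)))))))
(mv 1230 (cons (fin 1166 4 973)
(mv 1229 (cons (fin 1294 4 1037)
(mv 974 (cons (fin 1038 6 973)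
(fin 910 6 909))))))))
(cons (mv 1228 (cons (fin 1164 5 972)
(mv 1229 (cons (fin 1292 5 1036)
(mv 974 (cons (fin 1038 6 973)
(fin 910 6 909)))))))
(mv 1230 (cons (fin 1166 4 973)
(mv 1164 (cons (fin 1228 5 972)
(mv 909 (cons (fin 1100 5 908)
(mv 910 (cons (fin 974 6 909)
(fin 846 6 845))))))))))))
(cons (mv 1165 (cons (cons (mv 1228 (cons (fin 1164 5 972)
(mv 1229 (cons (fin 1292 5 1036)
(mv 1230 (cons (fin 1294 4 1037)
(fin 1166 4 973)))))))
(mv 1230 (cons (fin 1166 4 973)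
(mv 1229 (cons (fin 1294 4 1037)
(mv 972 (cons (fin 1036 7 972)
(fin 908 7 908))))))))
(cons (mv 1228 (cons (fin 1164 5 972)
(mv 1229 (cons (fin 1292 5 1036)
(mv 972 (cons (fin 1036 7 972)
(fin 908 7 908)))))))
(mv 1230 (cons (fin 1166 4 973)
(mv 1164 (cons (fin 1228 5 972)
(mv 908 (cons (fin 972 7 908)
(mv 909 (cons (fin 1100 5 908)
(fin 844 7 844))))))))))))
(mv 1165 (cons (cons (mv 1230 (cons (fin 1166 4 973)
(mv 1294 (cons (fin 1229 4 1037)
(mv 908 (cons (fin 972 7 908)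
(mv 909 (cons (fin 844 7 844)
(mv 910 (cons (fin 974 6 909)
(fin 846 6 845)))))))))))
(mv 1230 (cons (fin 1166 4 973)
(mv 1229 (cons (fin 1294 4 1037)
(mv 974 (cons (fin 1038 6 973)
(fin 910 6 909))))))))
(cons (mv 1230 (cons (fin 1166 4 973)
(mv 1229 (cons (fin 1294 4 1037)
(mv 972 (cons (fin 1036 7 972)
(fin 908 7 908)))))))
(cons (mv 972 (cons (fin 908 7 908)
(mv 1229 (cons (fin 1036 7 972)
(mv 974 (cons (fin 1038 6 973)
(fin 910 6 909)))))))
(mv 1230 (cons (fin 1166 4 973)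
(mv 908 (cons (fin 972 7 908)
(mv 909 (cons (fin 844 7 844)
(mv 910 (cons (fin 974 6 909)
(fin 846 6 845)))))))))))))))))
(mv 972 (cons (cons (cons (mv 1038 (cons (fin 1039 3 972)
(mv 971 (cons (fin 970 0 970)
(mv 974 (cons (cons (mv 1034 (cons (fin 1035 1 970)
(mv 906 (cons (fin 907 3 906)
(mv 911 (cons (fin 910 2 907)
(mv 975 (cons (fin 912 2 908)
(mv 976 (cons (fin 1036 1 972)
(fin 977 1 973)))))))))))
(mv 906 (cons (fin 907 3 906)
(mv 911 (cons (fin 910 2 907)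
(mv 975 (cons (fin 912 2 908)
(mv 976 (cons (fin 1036 1 972)
(fin 977 1 973))))))))))
(cons (mv 1034 (cons (fin 1035 1 970)
(mv 911 (cons (fin 910 2 907)
(mv 975 (cons (fin 912 2 908)
(mv 976 (cons (fin 1036 1 972)
(fin 977 1 973)))))))))
(cons (mv 1034 (cons (fin 1035 1 970)
(mv 907 (cons (fin 906 3 906)
(mv 975 (cons (fin 908 3 907)
(mv 976 (cons (fin 1036 1 972)
(fin 977 1 973)))))))))
(mv 1034 (cons (fin 1035 1 970)
(mv 907 (cons (fin 906 3 906)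
(mv 910 (cons (fin 911 2 907)
(mv 846 (cons (fin 782 5 781)
(mv 845 (cons (fin 781 7 781)
(mv 847 (cons (fin 783 6 782)
(mv 908 (cons (fin 844 1 843)
(fin 909 2 843)))))))))))))))))))))))
(mv 971 (cons (cons (mv 1038 (cons (fin 970 0 970)
(mv 974 (cons (cons (mv 1034 (cons (fin 1035 1 970)
(mv 906 (cons (fin 907 3 906)
(mv 911 (cons (fin 910 2 907)
(mv 975 (cons (fin 912 2 908)
(mv 976 (cons (fin 1036 1 972)
(fin 977 1 973)))))))))))
(mv 906 (cons (fin 907 3 906)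
(mv 911 (cons (fin 910 2 907)
(mv 975 (cons (fin 912 2 908)
(mv 976 (cons (fin 1036 1 972)
(fin 977 1 973))))))))))
(cons (mv 1034 (cons (fin 1035 1 970)
(mv 911 (cons (fin 910 2 907)
(mv 975 (cons (fin 912 2 908)
(mv 976 (cons (fin 1036 1 972)
(fin 977 1 973)))))))))
(cons (mv 1034 (cons (fin 1035 1 970)
(mv 907 (cons (fin 906 3 906)
(mv 975 (cons (fin 908 3 907)
(mv 976 (cons (fin 1036 1 972)
(fin 977 1 973)))))))))
(mv 1034 (cons (fin 1035 1 970)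
(mv 907 (cons (fin 906 3 906)
(mv 910 (cons (fin 911 2 907)
(mv 846 (cons (fin 782 5 781)
(mv 845 (cons (fin 781 7 781)
(mv 847 (cons (fin 783 6 782)
(mv 908 (cons (fin 844 1 843)
(fin 909 2 843)))))))))))))))))))))
(cons (mv 974 (cons (cons (mv 1034 (cons (fin 1035 1 970)
(mv 907 (cons (fin 906 3 906)
(mv 975 (cons (fin 908 3 907)
(mv 911 (cons (fin 910 2 907)
(fin 912 2 908)))))))))
(cons (mv 907 (cons (fin 906 3 906)
(mv 975 (cons (fin 908 3 907)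
(mv 911 (cons (fin 910 2 907)
(fin 912 2 908)))))))
(mv 1035 (cons (fin 1034 1 970)
(mv 975 (cons (fin 1036 1 971)
(mv 911 (cons (fin 910 2 907)
(fin 912 2 908)))))))))
(cons (mv 1034 (cons (fin 1035 1 970)
(mv 907 (cons (fin 906 3 906)
(mv 975 (cons (fin 908 3 907)
(mv 976 (cons (fin 1036 1 972)
(mv 912 (cons (fin 911 2 908)
(fin 913 2 909)))))))))))
(cons (mv 1034 (cons (fin 1035 1 970)
(mv 907 (cons (fin 906 3 906)
(mv 975 (cons (fin 908 3 907)
(mv 976 (cons (fin 1036 1 972)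
(mv 977 (cons (fin 1038 1 973)
(mv 913 (cons (fin 912 2 909)
(fin 914 2 910)))))))))))))
(mv 1035 (cons (fin 1034 1 970)
(mv 907 (cons (fin 906 3 906)
(mv 910 (cons (fin 911 2 907)
(mv 846 (cons (fin 782 5 781)
(mv 908 (cons (mv 1099 (cons (fin 1163 6 907)
(fin 844 6 843)))
(cons (mv 1163 (cons (fin 1099 6 907)
(mv 909 (cons (fin 847 2 843)
(mv 843 (cons (fin 842 3 842)
(mv 1036 (cons (fin 1100 7 843)
(fin 779 4 779)))))))))
(mv 909 (cons (fin 847 2 843)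
(mv 843 (cons (fin 842 3 842)
(mv 1036 (cons (fin 1100 7 843)
(fin 779 4 779))))))))))))))))))))))
(mv 970 (cons (mv 1033 (cons (fin 1034 1 969)
(mv 969 (cons (fin 1032 1 968)
(fin 1036 0 969)))))
(cons (mv 1033 (cons (fin 1034 1 969)
(mv 906 (cons (fin 905 3 905)
(mv 974 (cons (fin 907 3 906)
(mv 910 (cons (fin 909 2 906)
(fin 911 2 907)))))))))
(mv 1036 (cons (fin 969 0 969)
(mv 905 (cons (fin 906 3 905)
(mv 909 (cons (fin 910 2 906)
(mv 1100 (cons (fin 845 5 844)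
(fin 1164 6 908))))))))))))))
(cons (mv 970 (cons (fin 1038 0 970)
(mv 1033 (cons (fin 1034 1 969)
(mv 969 (cons (fin 1032 1 968)
(fin 1036 0 969)))))))
(cons (mv 970 (cons (fin 1038 0 970)
(mv 1036 (cons (fin 969 0 969)
(mv 905 (cons (fin 906 3 905)
(mv 909 (cons (fin 910 2 906)
(mv 1100 (cons (fin 845 5 844)
(fin 1164 6 908)))))))))))
(mv 970 (cons (fin 1038 0 970)
(mv 1033 (cons (fin 1034 1 969)
(mv 1032 (cons (fin 969 1 968)
(mv 906 (cons (fin 905 3 905)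
(mv 974 (cons (fin 907 3 906)
(mv 910 (cons (fin 909 2 906)
(fin 911 2 907))))))))))))))))))
(cons (mv 974 (cons (mv 975 (cons (fin 1039 0 972)
(mv 1036 (cons (fin 1035 1 971)
(fin 976 1 972)))))
(cons (mv 971 (cons (cons (mv 1034 (cons (fin 1035 1 970)
(mv 970 (cons (fin 1033 1 969)
(mv 906 (cons (fin 905 3 905)
(fin 907 3 906)))))))
(mv 906 (cons (fin 907 3 906)
(mv 970 (cons (fin 905 3 905)
(mv 910 (cons (fin 909 2 906)
(fin 911 2 907))))))))
(cons (mv 1034 (cons (fin 1035 1 970)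
(mv 970 (cons (fin 1033 1 969)
(mv 910 (cons (fin 909 2 906)
(fin 911 2 907)))))))
(mv 1035 (cons (fin 1034 1 970)
(mv 907 (cons (fin 906 3 906)
(mv 910 (cons (fin 911 2 907)
(mv 846 (cons (fin 782 5 781)
(mv 908 (cons (mv 1099 (cons (fin 1163 6 907)
(fin 844 6 843)))
(cons (mv 1163 (cons (fin 1099 6 907)
(mv 909 (cons (fin 847 2 843)
(mv 843 (cons (fin 842 3 842)
(mv 1036 (cons (fin 1100 7 843)
(fin 779 4 779)))))))))
(mv 909 (cons (fin 847 2 843)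
(mv 843 (cons (fin 842 3 842)
(mv 1036 (cons (fin 1100 7 843)
(fin 779 4 779)))))))))))))))))))))
(mv 975 (cons (fin 1039 0 972)
(mv 907 (cons (fin 908 3 907)
(mv 971 (cons (fin 906 3 906)
(mv 911 (cons (fin 910 2 907)
(fin 912 2 908))))))))))))
(mv 1038 (cons (fin 1039 3 972)
(mv 1036 (cons (cons (mv 970 (cons (fin 971 0 970)
(mv 1035 (cons (mv 1034 (cons (fin 969 3 969)
(fin 1033 2 969)))
(mv 1099 (cons (fin 1098 1 1034)
(mv 1163 (cons (fin 1227 6 971)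
(mv 908 (cons (fin 1100 5 907)
(fin 844 5 843)))))))))))
(cons (mv 1100 (cons (mv 1164 (cons (fin 1228 6 972)
(fin 909 6 908)))
(cons (mv 1164 (cons (fin 1228 6 972)
(mv 1229 (cons (fin 1165 4 972)
(mv 1163 (cons (fin 1227 5 971)
(mv 1099 (cons (fin 908 5 907)
(mv 1098 (cons (fin 1035 1 1034)
(fin 1097 2 1033)))))))))))
(mv 909 (cons (fin 845 5 844)
(mv 908 (cons (mv 1163 (cons (fin 1099 5 907)
(mv 843 (cons (fin 907 7 843)
(mv 844 (cons (fin 779 7 779)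
(fin 780 4 780)))))))
(cons (mv 1099 (cons (fin 1163 5 907)
(mv 1098 (cons (fin 1035 1 1034)
(fin 1097 2 1033)))))
(mv 843 (cons (fin 907 7 843)
(mv 844 (cons (fin 779 7 779)
(fin 780 4 780)))))))))))))
(mv 1035 (cons (mv 1098 (cons (fin 1099 1 1034)
(mv 1034 (cons (fin 1097 1 1033)
(fin 1033 2 969)))))
(cons (mv 1099 (cons (fin 1098 1 1034)
(mv 1163 (cons (fin 1227 6 971)
(mv 971 (cons (fin 970 3 970)
(fin 908 6 907)))))))
(mv 1034 (cons (fin 1033 2 969)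
(mv 970 (cons (fin 969 3 969)
(fin 971 3 970))))))))))
(cons (mv 970 (cons (fin 971 0 970)
(mv 1100 (cons (mv 1164 (cons (fin 1228 6 972)
(fin 909 6 908)))
(cons (mv 1164 (cons (fin 1228 6 972)
(mv 1229 (cons (fin 1165 4 972)
(mv 1163 (cons (fin 1227 5 971)
(mv 908 (cons (fin 1099 5 907)
(mv 843 (cons (fin 907 7 843)
(mv 844 (cons (fin 779 7 779)
(fin 780 4 780)))))))))))))
(mv 908 (cons (cons (mv 1163 (cons (fin 1099 5 907)
(mv 907 (cons (fin 843 7 843)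
(mv 905 (cons (fin 906 0 905)
(mv 844 (cons (fin 780 4 780)
(mv 845 (cons (fin 909 5 844)
(fin 781 6 780)))))))))))
(mv 1163 (cons (fin 1099 5 907)
(mv 843 (cons (fin 907 7 843)
(mv 844 (cons (fin 779 7 779)
(fin 780 4 780))))))))
(cons (mv 1163 (cons (fin 1099 5 907)
(mv 907 (cons (fin 843 7 843)
(mv 906 (cons (fin 905 0 905)
(mv 909 (cons (fin 969 1 905)
(fin 845 5 844)))))))))
(cons (mv 1163 (cons (fin 1099 5 907)
(mv 844 (cons (fin 780 4 780)
(mv 845 (cons (fin 909 5 844)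
(fin 781 6 780)))))))
(mv 907 (cons (fin 843 7 843)
(mv 905 (cons (fin 906 0 905)
(mv 844 (cons (fin 780 4 780)
(mv 845 (cons (fin 909 5 844)
(fin 781 6 780))))))))))))))))))
(cons (mv 909 (cons (mv 1100 (cons (fin 845 5 844)
(fin 1164 6 908)))
(cons (mv 1164 (cons (fin 1100 6 908)
(mv 1035 (cons (mv 1098 (cons (fin 1099 1 1034)
(mv 1034 (cons (fin 1097 1 1033)
(fin 1033 2 969)))))
(cons (mv 1099 (cons (fin 1098 1 1034)
(mv 1163 (cons (fin 1227 6 971)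
(mv 971 (cons (fin 970 3 970)
(fin 1228 4 971)))))))
(mv 1034 (cons (fin 1033 2 969)
(mv 970 (cons (fin 969 3 969)
(fin 971 3 970))))))))))
(mv 971 (cons (fin 970 0 970)
(mv 845 (cons (fin 781 5 780)
(mv 844 (cons (fin 780 7 780)
(mv 846 (cons (fin 782 6 781)
(mv 843 (cons (mv 907 (cons (fin 906 1 842)
(fin 779 4 779)))
(mv 910 (cons (fin 842 0 842)
(fin 911 0 843))))))))))))))))
(mv 970 (cons (fin 971 0 970)
(mv 908 (cons (cons (mv 844 (cons (fin 780 4 780)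
(mv 843 (cons (fin 779 7 779)
(mv 1100 (cons (fin 907 7 843)
(mv 1164 (cons (fin 1228 6 972)
(fin 909 6 908)))))))))
(cons (mv 909 (cons (mv 1100 (cons (fin 845 5 844)
(fin 1164 6 908)))
(cons (mv 1100 (cons (fin 1164 6 908)
(mv 907 (cons (fin 843 7 843)
(mv 906 (cons (fin 969 1 905)
(fin 905 0 905)))))))
(mv 845 (cons (fin 781 5 780)
(mv 846 (cons (fin 782 6 781)
(mv 907 (cons (fin 906 2 842)
(mv 847 (cons (fin 848 1 844)
(fin 910 2 843))))))))))))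
(mv 844 (cons (fin 780 4 780)
(mv 843 (cons (fin 779 7 779)
(mv 845 (cons (fin 781 6 780)
(mv 846 (cons (mv 907 (cons (fin 906 1 842)
(fin 847 1 843)))
(mv 782 (cons (fin 783 2 779)
(fin 909 6 781)))))))))))))
(cons (mv 844 (cons (fin 780 4 780)
(mv 843 (cons (fin 779 7 779)
(mv 907 (cons (fin 1100 7 843)
(mv 906 (cons (fin 905 0 905)
(mv 845 (cons (fin 846 1 842)
(fin 781 6 780)))))))))))
(cons (mv 844 (cons (fin 780 4 780)
(mv 843 (cons (fin 779 7 779)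
(mv 845 (cons (fin 781 6 780)
(mv 909 (cons (fin 1100 5 844)
(mv 910 (cons (fin 911 3 843)
(fin 842 0 842)))))))))))
(mv 844 (cons (fin 780 4 780)
(mv 845 (cons (fin 781 6 780)
(mv 909 (cons (fin 1100 5 844)
(mv 846 (cons (fin 782 6 781)
(mv 907 (cons (fin 847 1 843)
(fin 906 2 842)))))))))))))))))))))))))
(cons (cons (mv 1039 (cons (fin 1038 3 972)
(mv 975 (cons (fin 974 0 972)
(mv 1104 (cons (cons (mv 1168 (cons (fin 1232 7 975)
(mv 911 (cons (fin 976 7 911)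
(fin 1103 4 911)))))
(mv 911 (cons (fin 847 4 847)
(mv 912 (cons (mv 1103 (cons (fin 848 6 847)
(mv 910 (cons (fin 909 1 908)
(fin 846 7 846)))))
(cons (mv 910 (cons (fin 909 1 908)
(mv 913 (cons (cons (mv 849 (cons (fin 850 2 846)
(fin 976 6 848)))
(mv 978 (cons (fin 977 0 910)
(mv 914 (cons (fin 979 0 911)
(mv 915 (cons (fin 976 1 911)
(mv 851 (cons (fin 850 2 847)
(fin 852 2 848))))))))))
(cons (mv 978 (cons (fin 977 0 910)
(mv 914 (cons (fin 979 0 911)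
(mv 850 (cons (fin 849 2 846)
(fin 851 2 847)))))))
(mv 976 (cons (fin 849 6 848)
(mv 1169 (cons (fin 1105 4 912)
(mv 978 (cons (fin 977 3 910)
(mv 914 (cons (fin 915 1 911)
(fin 979 0 911))))))))))))))
(mv 1103 (cons (fin 848 6 847)
(mv 1167 (cons (fin 976 5 911)
(mv 1230 (cons (fin 1166 5 974)
(mv 1231 (cons (fin 1294 5 1038)
(fin 1295 6 1039)))))))))))))))
(cons (mv 1168 (cons (fin 1232 7 975)
(mv 976 (cons (cons (mv 1231 (cons (fin 1167 5 975)
(mv 1233 (cons (fin 1169 4 976)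
(mv 913 (cons (fin 977 6 912)
(mv 912 (cons (fin 849 6 848)
(mv 848 (cons (fin 1103 5 847)
(fin 784 5 783)))))))))))
(cons (mv 1233 (cons (fin 1169 4 976)
(mv 913 (cons (fin 977 6 912)
(mv 912 (cons (fin 849 6 848)
(mv 848 (cons (fin 1103 5 847)
(fin 784 5 783)))))))))
(mv 1231 (cons (fin 1167 5 975)
(mv 913 (cons (fin 977 6 912)
(mv 912 (cons (fin 849 6 848)
(mv 848 (cons (fin 1103 5 847)
(fin 784 5 783)))))))))))
(cons (mv 1231 (cons (fin 1167 5 975)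
(mv 1169 (cons (fin 1233 4 976)
(mv 912 (cons (fin 1105 4 912)
(mv 848 (cons (fin 1103 5 847)
(fin 784 5 783)))))))))
(cons (mv 1231 (cons (fin 1167 5 975)
(mv 1169 (cons (fin 1233 4 976)
(mv 977 (cons (fin 913 6 912)
(mv 978 (cons (fin 979 1 975)
(mv 1042 (cons (fin 1043 0 975)
(mv 914 (cons (fin 915 2 911)
(mv 1106 (cons (fin 1105 5 913)
(mv 1171 (cons (fin 1107 4 914)
(mv 1170 (cons (fin 1103 3 1103)
(fin 1235 4 978)))))))))))))))))))
(mv 1231 (cons (fin 1167 5 975)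
(mv 1169 (cons (fin 1233 4 976)
(mv 1105 (cons (fin 912 4 912)
(mv 1106 (cons (fin 1107 3 1039)
(mv 977 (cons (fin 913 6 912)
(mv 978 (cons (fin 979 1 975)
(mv 1042 (cons (fin 1043 0 975)
(fin 914 5 913)))))))))))))))))))))
(cons (mv 1168 (cons (fin 1232 7 975)
(mv 911 (cons (fin 1103 4 911)
(fin 847 4 847)))))
(mv 1168 (cons (fin 1232 7 975)
(mv 911 (cons (fin 976 7 911)
(fin 847 4 847)))))))))))))
(mv 1038 (cons (fin 1039 3 972)
(mv 971 (cons (fin 970 0 970)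
(mv 974 (cons (cons (mv 1034 (cons (fin 1035 1 970)
(mv 906 (cons (fin 907 3 906)
(mv 911 (cons (fin 910 2 907)
(mv 975 (cons (fin 912 2 908)
(mv 976 (cons (fin 1036 1 972)
(fin 977 1 973)))))))))))
(cons (mv 906 (cons (fin 907 3 906)
(mv 911 (cons (fin 910 2 907)
(mv 975 (cons (fin 912 2 908)
(mv 976 (cons (fin 1036 1 972)
(fin 977 1 973)))))))))
(mv 1034 (cons (fin 1035 1 970)
(mv 911 (cons (fin 910 2 907)
(mv 975 (cons (fin 912 2 908)
(mv 976 (cons (fin 1036 1 972)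
(fin 977 1 973)))))))))))
(cons (mv 1034 (cons (fin 1035 1 970)
(mv 907 (cons (fin 906 3 906)
(mv 975 (cons (fin 908 3 907)
(mv 976 (cons (fin 1036 1 972)
(fin 977 1 973)))))))))
(cons (mv 1034 (cons (fin 1035 1 970)
(mv 907 (cons (fin 906 3 906)
(mv 910 (cons (fin 911 2 907)
(mv 846 (cons (fin 782 5 781)
(mv 845 (cons (fin 781 7 781)
(mv 847 (cons (fin 783 6 782)
(mv 844 (cons (fin 908 1 843)
(mv 779 (cons (fin 780 3 779)
(mv 843 (cons (fin 778 3 778)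
(fin 1036 4 779)))))))))))))))))))
(mv 1034 (cons (fin 1035 1 970)
(mv 907 (cons (fin 906 3 906)
(mv 975 (cons (fin 908 3 907)
(mv 911 (cons (fin 910 2 907)
(fin 912 2 908))))))))))))))))))
(cons (mv 1038 (cons (fin 1039 3 972)
(mv 971 (cons (fin 970 0 970)
(mv 974 (cons (cons (mv 1034 (cons (fin 1035 1 970)
(mv 907 (cons (fin 906 3 906)
(mv 975 (cons (fin 908 3 907)
(mv 976 (cons (fin 1036 1 972)
(fin 977 1 973)))))))))
(cons (mv 907 (cons (fin 906 3 906)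
(mv 975 (cons (fin 908 3 907)
(mv 976 (cons (fin 1036 1 972)
(fin 977 1 973)))))))
(mv 1035 (cons (fin 1034 1 970)
(mv 1036 (cons (fin 975 1 971)
(mv 1099 (cons (fin 1098 1 1034)
(mv 1163 (cons (fin 1227 6 971)
(fin 908 6 907)))))))))))
(cons (mv 1035 (cons (fin 1034 1 970)
(mv 907 (cons (fin 906 3 906)
(mv 1099 (cons (mv 1098 (cons (fin 1036 1 1034)
(fin 1162 5 906)))
(mv 908 (cons (fin 1163 6 907)
(fin 844 6 843)))))))))
(cons (mv 1034 (cons (fin 1035 1 970)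
(mv 907 (cons (fin 906 3 906)
(mv 975 (cons (fin 908 3 907)
(mv 976 (cons (fin 977 1 973)
(mv 912 (cons (fin 911 2 908)
(fin 913 2 909)))))))))))
(mv 1035 (cons (fin 1034 1 970)
(mv 1036 (cons (fin 975 1 971)
(mv 1098 (cons (fin 1099 1 1034)
(mv 907 (cons (fin 906 3 906)
(mv 1100 (cons (fin 1164 7 907)
(fin 843 4 843)))))))))))))))))))
(mv 1038 (cons (fin 1039 3 972)
(mv 971 (cons (fin 970 0 970)
(mv 974 (cons (cons (mv 1034 (cons (fin 1035 1 970)
(mv 907 (cons (fin 906 3 906)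
(mv 975 (cons (fin 908 3 907)
(mv 976 (cons (fin 1036 1 972)
(fin 977 1 973)))))))))
(cons (mv 907 (cons (fin 906 3 906)
(mv 975 (cons (fin 908 3 907)
(mv 976 (cons (fin 1036 1 972)
(fin 977 1 973)))))))
(mv 1035 (cons (fin 1034 1 970)
(mv 1036 (cons (fin 975 1 971)
(mv 1099 (cons (fin 1098 1 1034)
(mv 1163 (cons (fin 1227 6 971)
(fin 908 6 907)))))))))))
(cons (mv 1035 (cons (fin 1034 1 970)
(mv 907 (cons (fin 906 3 906)
(mv 1099 (cons (mv 1098 (cons (fin 1036 1 1034)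
(fin 1162 5 906)))
(mv 908 (cons (fin 1163 6 907)
(fin 844 6 843)))))))))
(cons (mv 1035 (cons (fin 1034 1 970)
(mv 907 (cons (fin 906 3 906)
(mv 908 (cons (fin 975 3 907)
(mv 1099 (cons (fin 1163 6 907)
(fin 844 6 843)))))))))
(mv 1035 (cons (fin 1034 1 970)
(mv 1036 (cons (fin 975 1 971)
(mv 1098 (cons (fin 1099 1 1034)
(mv 907 (cons (fin 906 3 906)
(mv 1100 (cons (fin 1164 7 907)
(fin 843 4 843))))))))))))))))))))))))))
(cons (cons (mv 972 (cons (cons (cons (mv 1038 (cons (fin 1039 3 972)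
(mv 971 (cons (fin 970 0 970)
(mv 974 (cons (cons (mv 1034 (cons (fin 1035 1 970)
(mv 906 (cons (fin 907 3 906)
(mv 910 (cons (fin 911 2 907)
(mv 1101 (cons (fin 846 5 845)
(fin 1165 6 909)))))))))
(mv 906 (cons (fin 907 3 906)
(mv 910 (cons (fin 911 2 907)
(mv 1101 (cons (fin 846 5 845)
(fin 1165 6 909))))))))
(cons (mv 1034 (cons (fin 1035 1 970)
(mv 907 (cons (fin 906 3 906)
(mv 975 (cons (fin 908 3 907)
(mv 976 (cons (fin 1036 1 972)
(fin 977 1 973)))))))))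
(mv 1034 (cons (fin 1035 1 970)
(mv 910 (cons (fin 911 2 907)
(mv 1101 (cons (fin 846 5 845)
(fin 1165 6 909))))))))))))))
(mv 974 (cons (mv 975 (cons (fin 1039 0 972)
(mv 1036 (cons (fin 1035 1 971)
(fin 976 1 972)))))
(cons (mv 971 (cons (cons (mv 1034 (cons (fin 1035 1 970)
(mv 970 (cons (fin 1033 1 969)
(mv 906 (cons (fin 905 3 905)
(fin 907 3 906)))))))
(cons (mv 907 (cons (fin 906 3 906)
(mv 910 (cons (fin 911 2 907)
(mv 1101 (cons (fin 1165 6 909)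
(mv 782 (cons (fin 846 5 781)
(mv 1036 (cons (cons (mv 1164 (cons (fin 1100 7 907)
(mv 969 (cons (fin 970 0 969)
(mv 843 (cons (fin 779 4 779)
(mv 844 (cons (fin 908 4 844)
(mv 780 (cons (fin 1035 6 779)
(mv 781 (cons (fin 783 1 779)
(mv 842 (cons (fin 841 2 777)
(fin 845 2 778)))))))))))))))
(mv 969 (cons (fin 970 0 969)
(mv 843 (cons (fin 779 4 779)
(mv 844 (cons (fin 908 4 844)
(mv 780 (cons (fin 1035 6 779)
(mv 781 (cons (fin 783 1 779)
(mv 842 (cons (fin 841 2 777)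
(fin 845 2 778))))))))))))))
(cons (mv 1100 (cons (fin 1164 7 907)
(mv 843 (cons (fin 1035 4 843)
(fin 779 4 779)))))
(cons (mv 1100 (cons (fin 1164 7 907)
(mv 969 (cons (fin 970 0 969)
(mv 908 (cons (fin 844 4 844)
(mv 1099 (cons (fin 1163 5 907)
(mv 1098 (cons (fin 1097 2 1033)
(mv 1162 (cons (fin 1161 1 1097)
(fin 1035 5 906)))))))))))))
(mv 1100 (cons (fin 1164 7 907)
(mv 908 (cons (fin 843 7 843)
(fin 844 4 844)))))))))))))))))
(mv 906 (cons (fin 907 3 906)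
(mv 970 (cons (fin 905 3 905)
(mv 1033 (cons (fin 1034 1 969)
(mv 969 (cons (fin 1032 1 968)
(fin 1036 0 969)))))))))))
(cons (mv 1034 (cons (fin 1035 1 970)
(mv 970 (cons (fin 1033 1 969)
(mv 1036 (cons (fin 969 0 969)
(mv 910 (cons (fin 911 2 907)
(mv 1101 (cons (fin 1165 6 909)
(mv 908 (cons (fin 844 4 844)
(mv 846 (cons (fin 782 5 781)
(mv 1100 (cons (mv 1164 (cons (fin 907 7 907)
(fin 1228 6 972)))
(cons (mv 1163 (cons (fin 1099 5 907)
(mv 1164 (cons (fin 1227 5 971)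
(fin 1228 6 972)))))
(mv 1099 (cons (fin 1163 5 907)
(mv 1098 (cons (fin 1097 2 1033)
(mv 1162 (cons (fin 1161 1 1097)
(fin 907 6 906))))))))))))))))))))))))
(cons (mv 1034 (cons (fin 1035 1 970)
(mv 970 (cons (fin 1033 1 969)
(mv 969 (cons (fin 1036 0 969)
(mv 905 (cons (fin 904 3 904)
(fin 906 3 905)))))))))
(mv 1035 (cons (fin 1034 1 970)
(mv 907 (cons (fin 906 3 906)
(mv 910 (cons (fin 911 2 907)
(mv 1165 (cons (fin 1101 6 909)
(mv 846 (cons (fin 782 5 781)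
(mv 908 (cons (mv 1099 (cons (fin 1163 6 907)
(fin 844 6 843)))
(cons (mv 1099 (cons (fin 1163 6 907)
(mv 1162 (cons (fin 1098 5 906)
(mv 1100 (cons (fin 1164 4 907)
(mv 843 (cons (fin 1036 7 843)
(mv 778 (cons (fin 842 7 778)
(mv 779 (cons (fin 714 7 714)
(fin 715 4 715)))))))))))))
(mv 844 (cons (fin 780 5 779)
(mv 845 (cons (fin 847 1 843)
(mv 1036 (cons (fin 781 6 780)
(mv 1100 (cons (fin 1164 7 907)
(fin 843 7 843))))))))))))))))))))))))))
(mv 975 (cons (fin 1039 0 972)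
(mv 907 (cons (fin 908 3 907)
(mv 971 (cons (fin 906 3 906)
(mv 911 (cons (fin 910 2 907)
(fin 912 2 908)))))))))))))
(cons (mv 971 (cons (cons (mv 1038 (cons (fin 970 0 970)
(mv 974 (cons (cons (mv 1034 (cons (fin 1035 1 970)
(mv 906 (cons (fin 907 3 906)
(mv 910 (cons (fin 911 2 907)
(mv 1101 (cons (fin 846 5 845)
(fin 1165 6 909)))))))))
(mv 906 (cons (fin 907 3 906)
(mv 910 (cons (fin 911 2 907)
(mv 1101 (cons (fin 846 5 845)
(fin 1165 6 909))))))))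
(cons (mv 1034 (cons (fin 1035 1 970)
(mv 907 (cons (fin 906 3 906)
(mv 975 (cons (fin 908 3 907)
(mv 976 (cons (fin 1036 1 972)
(fin 977 1 973)))))))))
(mv 1034 (cons (fin 1035 1 970)
(mv 910 (cons (fin 911 2 907)
(mv 1101 (cons (fin 846 5 845)
(fin 1165 6 909))))))))))))
(cons (mv 974 (cons (cons (mv 1034 (cons (fin 1035 1 970)
(mv 906 (cons (fin 907 3 906)
(mv 910 (cons (fin 911 2 907)
(mv 1101 (cons (fin 1165 6 909)
(mv 846 (cons (fin 1038 5 845)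
(fin 782 5 781)))))))))))
(mv 906 (cons (fin 907 3 906)
(mv 910 (cons (fin 911 2 907)
(mv 1101 (cons (fin 1165 6 909)
(mv 846 (cons (fin 1038 5 845)
(fin 782 5 781))))))))))
(cons (mv 1034 (cons (fin 1035 1 970)
(mv 907 (cons (fin 906 3 906)
(mv 975 (cons (fin 908 3 907)
(mv 976 (cons (fin 1036 1 972)
(mv 912 (cons (fin 911 2 908)
(fin 913 2 909)))))))))))
(cons (mv 1034 (cons (fin 1035 1 970)
(mv 910 (cons (fin 911 2 907)
(mv 1101 (cons (fin 1165 6 909)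
(mv 846 (cons (fin 1038 5 845)
(fin 782 5 781)))))))))
(mv 1034 (cons (fin 1035 1 970)
(mv 907 (cons (fin 906 3 906)
(mv 975 (cons (fin 908 3 907)
(mv 976 (cons (fin 1036 1 972)
(mv 977 (cons (fin 1038 1 973)
(mv 913 (cons (fin 912 2 909)
(fin 914 2 910)))))))))))))))))
(mv 974 (cons (cons (mv 1034 (cons (fin 1035 1 970)
(mv 1033 (cons (fin 970 1 969)
(mv 907 (cons (fin 906 3 906)
(mv 975 (cons (fin 908 3 907)
(mv 911 (cons (fin 910 2 907)
(fin 912 2 908)))))))))))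
(mv 906 (cons (fin 907 3 906)
(mv 970 (cons (fin 905 3 905)
(mv 1033 (cons (fin 1034 1 969)
(mv 969 (cons (fin 1032 1 968)
(fin 1036 0 969))))))))))
(cons (mv 906 (cons (fin 907 3 906)
(mv 970 (cons (fin 905 3 905)
(mv 1036 (cons (fin 969 0 969)
(mv 975 (cons (fin 1035 1 971)
(fin 976 1 972)))))))))
(cons (mv 1034 (cons (fin 1035 1 970)
(mv 970 (cons (fin 1033 1 969)
(mv 1036 (cons (fin 969 0 969)
(mv 975 (cons (fin 976 1 972)
(mv 911 (cons (fin 910 2 907)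
(fin 912 2 908)))))))))))
(mv 1034 (cons (fin 1035 1 970)
(mv 907 (cons (fin 906 3 906)
(mv 975 (cons (fin 908 3 907)
(mv 911 (cons (fin 910 2 907)
(fin 912 2 908)))))))))))))))
(cons (mv 970 (cons (fin 1038 0 970)
(mv 1033 (cons (fin 1034 1 969)
(mv 969 (cons (fin 1032 1 968)
(fin 1036 0 969)))))))
(cons (mv 970 (cons (fin 1038 0 970)
(mv 1036 (cons (fin 969 0 969)
(mv 906 (cons (fin 905 3 905)
(mv 974 (cons (fin 907 3 906)
(mv 975 (cons (fin 1035 1 971)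
(fin 976 1 972)))))))))))
(mv 970 (cons (fin 1038 0 970)
(mv 1033 (cons (fin 1034 1 969)
(mv 969 (cons (fin 1032 1 968)
(mv 905 (cons (fin 904 3 904)
(fin 906 3 905)))))))))))))
(mv 1038 (cons (fin 1039 3 972)
(mv 971 (cons (fin 970 0 970)
(mv 974 (cons (cons (mv 1034 (cons (fin 1035 1 970)
(mv 906 (cons (fin 907 3 906)
(mv 910 (cons (fin 911 2 907)
(mv 1101 (cons (fin 846 5 845)
(fin 1165 6 909)))))))))
(mv 906 (cons (fin 907 3 906)
(mv 910 (cons (fin 911 2 907)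
(mv 1101 (cons (fin 846 5 845)
(fin 1165 6 909))))))))
(cons (mv 1035 (cons (fin 1034 1 970)
(mv 1036 (cons (fin 975 1 971)
(mv 1098 (cons (fin 1099 1 1034)
(mv 907 (cons (fin 906 3 906)
(mv 1100 (cons (fin 1164 7 907)
(fin 843 4 843)))))))))))
(mv 1034 (cons (fin 1035 1 970)
(mv 910 (cons (fin 911 2 907)
(mv 1101 (cons (fin 846 5 845)
(fin 1165 6 909))))))))))))))))
(cons (cons (mv 1038 (cons (fin 1039 3 972)
(mv 1099 (cons (cons (cons (mv 971 (cons (fin 970 0 970)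
(mv 908 (cons (cons (mv 1163 (cons (fin 1035 6 907)
(mv 1100 (cons (fin 1036 5 907)
(mv 1101 (cons (fin 1098 2 1034)
(fin 1165 7 908)))))))
(mv 1101 (cons (fin 1165 7 908)
(mv 844 (cons (fin 1036 4 844)
(fin 780 4 780))))))
(cons (mv 1035 (cons (fin 1163 6 907)
(mv 1036 (cons (fin 1098 1 1034)
(fin 844 5 843)))))
(mv 1165 (cons (fin 1101 7 908)
(mv 1035 (cons (fin 1163 6 907)
(mv 844 (cons (fin 780 5 779)
(fin 907 6 843))))))))))))
(mv 1100 (cons (cons (mv 1098 (cons (fin 1101 2 1034)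
(mv 1036 (cons (fin 1035 1 1034)
(fin 1097 2 1033)))))
(mv 1036 (cons (cons (mv 1228 (cons (fin 1164 6 972)
(mv 1163 (cons (fin 908 5 907)
(mv 1227 (cons (fin 1291 6 1035)
(fin 1035 6 971)))))))
(mv 1164 (cons (fin 1228 6 972)
(mv 1163 (cons (fin 1227 5 971)
(mv 1165 (cons (fin 1229 4 972)
(mv 1166 (cons (fin 1167 3 1099)
(mv 1230 (cons (fin 1231 0 1163)
(fin 1101 4 973))))))))))))
(cons (mv 1164 (cons (fin 1228 6 972)
(mv 1165 (cons (fin 1229 4 972)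
(mv 1166 (cons (fin 1167 3 1099)
(mv 1101 (cons (fin 908 7 908)
(fin 1230 4 973)))))))))
(mv 1163 (cons (fin 908 5 907)
(mv 1227 (cons (fin 1291 6 1035)
(fin 1035 6 971)))))))))
(cons (mv 1036 (cons (mv 1098 (cons (fin 1035 1 1034)
(fin 1097 2 1033)))
(cons (mv 1228 (cons (fin 1164 6 972)
(mv 1163 (cons (fin 908 5 907)
(mv 1227 (cons (fin 1291 6 1035)
(fin 1035 6 971)))))))
(mv 1228 (cons (fin 1164 6 972)
(mv 1097 (cons (fin 1098 2 1033)
(mv 908 (cons (fin 1163 5 907)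
(mv 843 (cons (fin 907 7 843)
(mv 844 (cons (fin 779 7 779)
(fin 780 4 780))))))))))))))
(mv 1101 (cons (fin 1098 2 1034)
(mv 1165 (cons (fin 908 7 908)
(mv 1228 (cons (fin 1164 5 972)
(mv 1229 (cons (fin 1292 5 1036)
(mv 1230 (cons (fin 1294 4 1037)
(fin 1166 4 973)))))))))))))))
(cons (mv 971 (cons (fin 970 0 970)
(mv 1098 (cons (cons (mv 1100 (cons (fin 1101 2 1034)
(mv 1036 (cons (fin 1035 1 1034)
(fin 1097 2 1033)))))
(mv 1100 (cons (fin 1101 2 1034)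
(mv 1097 (cons (fin 1036 2 1033)
(mv 1160 (cons (fin 1161 1 1096)
(mv 1164 (cons (fin 1165 0 1097)
(mv 1096 (cons (fin 1159 1 1095)
(fin 1163 0 1096))))))))))))
(cons (mv 1035 (cons (fin 1036 1 1034)
(mv 1162 (cons (fin 907 5 906)
(mv 1226 (cons (fin 1163 5 970)
(fin 1290 6 1034)))))))
(mv 1100 (cons (fin 1101 2 1034)
(mv 1097 (cons (cons (mv 1160 (cons (fin 1161 1 1096)
(mv 1159 (cons (fin 1096 1 1095)
(mv 1164 (cons (fin 1165 0 1097)
(mv 1032 (cons (fin 1033 3 1032)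
(mv 1035 (cons (fin 907 4 907)
(mv 1228 (cons (fin 1292 7 1035)
(fin 1163 4 971)))))))))))))
(mv 1160 (cons (fin 1161 1 1096)
(mv 1096 (cons (fin 1159 1 1095)
(mv 1032 (cons (fin 1031 3 1031)
(fin 1033 3 1032))))))))
(cons (mv 1160 (cons (fin 1161 1 1096)
(mv 1159 (cons (fin 1096 1 1095)
(mv 1164 (cons (fin 1165 0 1097)
(mv 1035 (cons (fin 907 4 907)
(mv 1228 (cons (fin 1292 7 1035)
(fin 1163 4 971)))))))))))
(cons (mv 1164 (cons (fin 1165 0 1097)
(mv 1163 (cons (fin 1096 0 1096)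
(mv 1035 (cons (fin 1228 4 971)
(fin 907 4 907)))))))
(mv 1160 (cons (fin 1161 1 1096)
(mv 1164 (cons (fin 1165 0 1097)
(mv 1032 (cons (fin 1033 3 1032)
(mv 1035 (cons (fin 907 4 907)
(mv 1228 (cons (fin 1292 7 1035)
(fin 1163 4 971))))))))))))))))))))))
(mv 971 (cons (fin 970 0 970)
(mv 1035 (cons (cons (mv 1163 (cons (fin 908 6 907)
(mv 1036 (cons (fin 1098 1 1034)
(fin 1227 6 971)))))
(mv 1098 (cons (fin 1036 1 1034)
(mv 1162 (cons (fin 907 5 906)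
(mv 1226 (cons (fin 1163 5 970)
(fin 1290 6 1034))))))))
(cons (mv 1163 (cons (fin 908 6 907)
(mv 1226 (cons (fin 1162 5 970)
(mv 1227 (cons (fin 1290 5 1034)
(mv 1228 (cons (fin 1292 4 1035)
(fin 1164 4 971)))))))))
(mv 1098 (cons (fin 1036 1 1034)
(mv 1162 (cons (fin 907 5 906)
(mv 1226 (cons (fin 1290 6 1034)
(fin 1034 6 970))))))))))))))
(cons (cons (mv 971 (cons (fin 970 0 970)
(mv 1035 (cons (cons (mv 1163 (cons (fin 908 6 907)
(mv 1226 (cons (fin 1162 5 970)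
(mv 1227 (cons (fin 1290 5 1034)
(fin 1036 6 971)))))))
(mv 1163 (cons (cons (mv 1226 (cons (fin 1162 5 970)
(mv 1227 (cons (fin 1290 5 1034)
(fin 1036 6 971)))))
(mv 1226 (cons (fin 1162 5 970)
(mv 1164 (cons (fin 1228 4 971)
(mv 907 (cons (fin 1100 4 907)
(mv 842 (cons (fin 906 7 842)
(mv 843 (cons (fin 778 7 778)
(mv 779 (cons (fin 1036 4 779)
(mv 780 (cons (fin 844 6 779)
(fin 716 6 715))))))))))))))))
(cons (mv 1226 (cons (fin 1162 5 970)
(mv 1227 (cons (fin 1290 5 1034)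
(mv 1228 (cons (fin 1292 4 1035)
(fin 1164 4 971)))))))
(mv 1227 (cons (fin 1036 6 971)
(mv 1228 (cons (fin 1292 4 1035)
(fin 1164 4 971)))))))))
(cons (mv 907 (cons (cons (mv 1164 (cons (fin 1100 4 907)
(mv 906 (cons (fin 842 7 842)
(mv 905 (cons (fin 904 0 904)
(fin 908 0 905)))))))
(mv 1164 (cons (fin 1100 4 907)
(mv 842 (cons (fin 906 7 842)
(mv 843 (cons (fin 778 7 778)
(mv 779 (cons (fin 1036 4 779)
(mv 780 (cons (fin 844 6 779)
(fin 716 6 715))))))))))))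
(cons (mv 906 (cons (fin 842 7 842)
(mv 905 (cons (fin 904 0 904)
(fin 908 0 905)))))
(cons (mv 1164 (cons (fin 1100 4 907)
(mv 844 (cons (fin 908 6 843)
(mv 843 (cons (fin 780 6 779)
(mv 778 (cons (fin 842 7 778)
(mv 779 (cons (fin 714 7 714)
(fin 1036 4 779)))))))))))
(mv 1100 (cons (fin 1164 4 907)
(mv 843 (cons (fin 1036 4 843)
(mv 844 (cons (fin 908 6 843)
(fin 780 6 779)))))))))))
(mv 1163 (cons (fin 908 6 907)
(mv 1226 (cons (fin 1162 5 970)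
(mv 1227 (cons (fin 1290 5 1034)
(mv 1228 (cons (fin 1292 4 1035)
(fin 1164 4 971))))))))))))))
(mv 971 (cons (fin 970 0 970)
(mv 1035 (cons (cons (mv 1163 (cons (fin 908 6 907)
(mv 1226 (cons (fin 1162 5 970)
(mv 1290 (cons (fin 1227 5 1034)
(mv 1164 (cons (fin 1228 4 971)
(mv 1100 (cons (fin 907 4 907)
(mv 1098 (cons (fin 1101 2 1034)
(mv 1165 (cons (fin 1166 3 1098)
(fin 1097 0 1097)))))))))))))))
(mv 1164 (cons (cons (mv 1228 (cons (fin 1163 4 971)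
(mv 1100 (cons (fin 1292 7 1035)
(fin 907 4 907)))))
(mv 1163 (cons (fin 1228 4 971)
(mv 1162 (cons (fin 1226 5 970)
(mv 1098 (cons (fin 907 5 906)
(mv 1165 (cons (fin 1097 3 1097)
(fin 1166 3 1098))))))))))
(cons (mv 1228 (cons (fin 1163 4 971)
(mv 1100 (cons (fin 1292 7 1035)
(mv 1101 (cons (fin 1098 2 1034)
(fin 1165 5 972)))))))
(cons (mv 1100 (cons (fin 907 4 907)
(mv 1098 (cons (fin 1101 2 1034)
(mv 1165 (cons (fin 1097 0 1097)
(mv 1166 (cons (fin 1163 3 1098)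
(fin 1167 3 1099)))))))))
(mv 1100 (cons (fin 907 4 907)
(mv 1292 (cons (fin 1228 7 1035)
(mv 1098 (cons (fin 1101 2 1034)
(mv 1097 (cons (fin 1165 0 1097)
(mv 1160 (cons (fin 1161 1 1096)
(mv 1096 (cons (fin 1159 1 1095)
(mv 1032 (cons (fin 1031 3 1031)
(fin 1033 3 1032))))))))))))))))))))
(cons (mv 907 (cons (cons (mv 1162 (cons (fin 1098 5 906)
(mv 1164 (cons (fin 1100 4 907)
(mv 906 (cons (fin 842 7 842)
(mv 905 (cons (fin 904 0 904)
(fin 908 0 905)))))))))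
(cons (mv 1164 (cons (fin 1100 4 907)
(mv 1098 (cons (fin 1162 5 906)
(mv 842 (cons (fin 906 7 842)
(mv 843 (cons (fin 1034 5 842)
(fin 778 7 778)))))))))
(mv 1164 (cons (fin 1100 4 907)
(mv 906 (cons (fin 842 7 842)
(mv 905 (cons (fin 904 0 904)
(fin 908 0 905)))))))))
(cons (mv 1164 (cons (fin 1100 4 907)
(mv 1098 (cons (fin 1162 5 906)
(mv 908 (cons (fin 844 6 843)
(mv 1165 (cons (fin 1101 7 908)
(mv 843 (cons (fin 1034 5 842)
(mv 778 (cons (fin 842 7 778)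
(mv 779 (cons (fin 714 7 714)
(fin 715 4 715)))))))))))))))
(cons (mv 1162 (cons (fin 1098 5 906)
(mv 906 (cons (fin 842 7 842)
(mv 905 (cons (fin 904 0 904)
(fin 908 0 905)))))))
(mv 1164 (cons (fin 1100 4 907)
(mv 1098 (cons (fin 1162 5 906)
(mv 843 (cons (fin 1034 5 842)
(mv 844 (cons (fin 908 6 843)
(fin 780 6 779)))))))))))))
(cons (mv 1163 (cons (fin 908 6 907)
(mv 1226 (cons (fin 1162 5 970)
(mv 1227 (cons (fin 1290 5 1034)
(mv 1228 (cons (fin 1292 4 1035)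
(fin 1164 4 971)))))))))
(mv 908 (cons (fin 1163 6 907)
(mv 844 (cons (fin 780 5 779)
(fin 907 6 843))))))))))))
(cons (mv 971 (cons (fin 970 0 970)
(mv 1101 (cons (cons (mv 1165 (cons (fin 908 7 908)
(mv 1228 (cons (fin 1164 5 972)
(mv 1229 (cons (fin 1292 5 1036)
(fin 1036 7 972)))))))
(mv 1100 (cons (fin 1098 2 1034)
(mv 1036 (cons (mv 1164 (cons (fin 907 7 907)
(fin 1228 6 972)))
(mv 908 (cons (fin 1163 5 907)
(fin 844 4 844))))))))
(cons (mv 1098 (cons (fin 1100 2 1034)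
(mv 1165 (cons (mv 1228 (cons (fin 1164 5 972)
(mv 1229 (cons (fin 1292 5 1036)
(fin 1036 7 972)))))
(cons (mv 1164 (cons (fin 1228 5 972)
(mv 1166 (cons (fin 1163 3 1098)
(fin 1230 4 973)))))
(mv 1229 (cons (fin 1036 7 972)
(mv 1230 (cons (fin 1294 4 1037)
(fin 1166 4 973))))))))))
(cons (mv 1165 (cons (fin 908 7 908)
(mv 1228 (cons (fin 1164 5 972)
(mv 1229 (cons (fin 1292 5 1036)
(mv 1230 (cons (fin 1294 4 1037)
(fin 1166 4 973)))))))))
(mv 1165 (cons (fin 908 7 908)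
(mv 1229 (cons (fin 1036 7 972)
(mv 1230 (cons (fin 1294 4 1037)
(fin 1166 4 973)))))))))))))
(cons (mv 971 (cons (fin 970 0 970)
(mv 1101 (cons (mv 1165 (cons (fin 908 7 908)
(mv 1228 (cons (fin 1164 5 972)
(mv 1229 (cons (fin 1292 5 1036)
(fin 1036 7 972)))))))
(cons (mv 1098 (cons (fin 1100 2 1034)
(mv 1035 (cons (fin 1036 1 1034)
(mv 1162 (cons (fin 907 5 906)
(mv 1226 (cons (fin 1290 6 1034)
(fin 1034 6 970)))))))))
(mv 1165 (cons (fin 908 7 908)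
(mv 1228 (cons (fin 1164 5 972)
(mv 1229 (cons (fin 1292 5 1036)
(mv 1230 (cons (fin 1294 4 1037)
(fin 1166 4 973))))))))))))))
(mv 970 (cons (fin 971 0 970)
(mv 1101 (cons (cons (mv 1165 (cons (fin 908 7 908)
(mv 1228 (cons (fin 1164 5 972)
(mv 1229 (cons (fin 1292 5 1036)
(fin 1036 7 972)))))))
(mv 1036 (cons (cons (mv 1098 (cons (fin 1035 1 1034)
(fin 1100 2 1034)))
(mv 908 (cons (fin 844 4 844)
(mv 1163 (cons (fin 1100 5 907)
(mv 1035 (cons (fin 1227 6 971)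
(mv 1034 (cons (fin 969 3 969)
(fin 1033 2 969))))))))))
(cons (mv 1100 (cons (fin 1098 2 1034)
(mv 908 (cons (fin 1163 5 907)
(fin 844 4 844)))))
(mv 1035 (cons (fin 1098 1 1034)
(mv 1034 (cons (fin 969 3 969)
(fin 1033 2 969)))))))))
(cons (mv 1098 (cons (fin 1100 2 1034)
(mv 1036 (cons (fin 1035 1 1034)
(mv 1165 (cons (fin 1229 7 972)
(mv 1164 (cons (fin 1228 5 972)
(mv 1166 (cons (fin 1163 3 1098)
(fin 1230 4 973)))))))))))
(mv 1165 (cons (fin 908 7 908)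
(mv 1228 (cons (fin 1164 5 972)
(mv 1229 (cons (fin 1292 5 1036)
(mv 1230 (cons (fin 1294 4 1037)
(fin 1166 4 973)))))))))))))))))))))
(mv 1039 (cons (fin 1038 3 972)
(mv 975 (cons (fin 974 0 972)
(mv 911 (cons (cons (mv 1104 (cons (fin 847 4 847)
(mv 1168 (cons (fin 1232 7 975)
(fin 976 7 911)))))
(mv 1103 (cons (cons (mv 1168 (cons (fin 1104 4 911)
(mv 1167 (cons (fin 1232 4 975)
(mv 976 (cons (fin 1231 6 975)
(fin 912 6 911)))))))
(cons (mv 910 (cons (fin 846 7 846)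
(mv 912 (cons (fin 848 6 847)
(mv 1167 (cons (fin 976 6 911)
(mv 1230 (cons (fin 1166 5 974)
(mv 1231 (cons (fin 1294 5 1038)
(mv 1295 (cons (fin 1104 6 1039)
(mv 1296 (cons (fin 1360 4 1103)
(fin 1232 4 1039)))))))))))))))
(mv 910 (cons (fin 846 7 846)
(mv 912 (cons (fin 848 6 847)
(mv 1167 (cons (fin 976 6 911)
(mv 1230 (cons (fin 1166 5 974)
(mv 1231 (cons (fin 1294 5 1038)
(mv 1232 (cons (fin 1296 4 1039)
(fin 1168 4 975)))))))))))))))
(cons (mv 1168 (cons (fin 1104 4 911)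
(mv 1167 (cons (fin 1232 4 975)
(mv 1230 (cons (fin 1166 5 974)
(mv 1231 (cons (fin 1294 5 1038)
(fin 976 6 975)))))))))
(cons (mv 1168 (cons (fin 1104 4 911)
(mv 1167 (cons (fin 1232 4 975)
(mv 1166 (cons (fin 1230 5 974)
(mv 910 (cons (fin 846 7 846)
(mv 912 (cons (fin 848 6 847)
(mv 1165 (cons (mv 1101 (cons (fin 1100 3 1100)
(fin 908 7 908)))
(cons (mv 1228 (cons (fin 1229 1 1164)
(mv 1164 (cons (fin 1227 1 1163)
(mv 1100 (cons (fin 1099 3 1099)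
(fin 1036 6 972)))))))
(mv 1228 (cons (fin 1229 1 1164)
(mv 1164 (cons (fin 1227 1 1163)
(fin 1101 5 972))))))))))))))))))
(mv 1104 (cons (fin 1168 4 911)
(mv 910 (cons (fin 846 7 846)
(mv 912 (cons (fin 848 6 847)
(mv 913 (cons (cons (mv 849 (cons (fin 850 2 846)
(fin 976 6 848)))
(mv 978 (cons (fin 977 0 910)
(mv 914 (cons (fin 979 0 911)
(mv 915 (cons (fin 976 1 911)
(mv 851 (cons (fin 850 2 847)
(fin 852 2 848))))))))))
(cons (mv 978 (cons (fin 977 0 910)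
(mv 914 (cons (fin 979 0 911)
(mv 850 (cons (fin 849 2 846)
(fin 851 2 847)))))))
(mv 976 (cons (fin 849 6 848)
(mv 1169 (cons (fin 1105 4 912)
(mv 978 (cons (fin 977 3 910)
(mv 914 (cons (fin 915 1 911)
(fin 979 0 911)))))))))))))))))))))))
(cons (mv 847 (cons (cons (mv 976 (cons (fin 783 4 783)
(mv 846 (cons (fin 782 7 782)
(mv 1103 (cons (fin 910 7 846)
(mv 1167 (cons (fin 1231 6 975)
(fin 912 6 911)))))))))
(mv 846 (cons (fin 782 7 782)
(mv 1103 (cons (fin 910 7 846)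
(mv 848 (cons (fin 912 6 847)
(fin 784 6 783))))))))
(cons (mv 976 (cons (fin 783 4 783)
(mv 848 (cons (fin 784 6 783)
(mv 912 (cons (fin 1103 5 847)
(mv 849 (cons (fin 785 6 784)
(mv 850 (cons (fin 910 1 846)
(fin 851 1 847)))))))))))
(mv 846 (cons (fin 782 7 782)
(mv 783 (cons (fin 976 4 783)
(mv 784 (cons (fin 848 6 783)
(fin 720 6 719))))))))))
(mv 1104 (cons (fin 847 4 847)
(mv 1168 (cons (fin 1232 7 975)
(fin 1103 4 911)))))))))))))
(cons (mv 1038 (cons (fin 1039 3 972)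
(mv 971 (cons (fin 970 0 970)
(mv 974 (cons (cons (mv 1034 (cons (fin 1035 1 970)
(mv 906 (cons (fin 907 3 906)
(mv 911 (cons (fin 910 2 907)
(mv 975 (cons (fin 912 2 908)
(mv 976 (cons (fin 1036 1 972)
(fin 977 1 973)))))))))))
(cons (mv 906 (cons (fin 907 3 906)
(mv 911 (cons (fin 910 2 907)
(mv 975 (cons (fin 912 2 908)
(mv 976 (cons (fin 1036 1 972)
(fin 977 1 973)))))))))
(mv 1034 (cons (fin 1035 1 970)
(mv 911 (cons (fin 910 2 907)
(mv 975 (cons (fin 912 2 908)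
(mv 976 (cons (fin 1036 1 972)
(fin 977 1 973)))))))))))
(cons (mv 1034 (cons (fin 1035 1 970)
(mv 907 (cons (fin 906 3 906)
(mv 975 (cons (fin 908 3 907)
(mv 976 (cons (fin 1036 1 972)
(fin 977 1 973)))))))))
(cons (mv 1034 (cons (fin 1035 1 970)
(mv 907 (cons (fin 906 3 906)
(mv 910 (cons (fin 911 2 907)
(mv 846 (cons (fin 782 5 781)
(mv 845 (cons (fin 781 7 781)
(mv 847 (cons (fin 783 6 782)
(mv 844 (cons (fin 908 1 843)
(mv 779 (cons (fin 780 3 779)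
(mv 843 (cons (fin 778 3 778)
(fin 1036 4 779)))))))))))))))))))
(mv 1034 (cons (fin 1035 1 970)
(mv 907 (cons (fin 906 3 906)
(mv 975 (cons (fin 908 3 907)
(mv 911 (cons (fin 910 2 907)
(fin 912 2 908)))))))))))))))))
(mv 1038 (cons (fin 1039 3 972)
(mv 971 (cons (fin 970 0 970)
(mv 974 (cons (cons (mv 1034 (cons (fin 1035 1 970)
(mv 906 (cons (fin 907 3 906)
(mv 910 (cons (fin 911 2 907)
(mv 1101 (cons (fin 846 5 845)
(fin 1165 6 909)))))))))
(mv 1034 (cons (fin 1035 1 970)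
(mv 907 (cons (fin 906 3 906)
(mv 975 (cons (fin 908 3 907)
(mv 976 (cons (fin 977 1 973)
(mv 912 (cons (fin 911 2 908)
(fin 913 2 909))))))))))))
(cons (mv 1034 (cons (fin 1035 1 970)
(mv 910 (cons (fin 911 2 907)
(mv 1101 (cons (fin 846 5 845)
(fin 1165 6 909)))))))
(cons (mv 1035 (cons (fin 1034 1 970)
(mv 907 (cons (fin 906 3 906)
(mv 908 (cons (fin 975 3 907)
(mv 1099 (cons (fin 1163 6 907)
(fin 844 6 843)))))))))
(mv 906 (cons (fin 907 3 906)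
(mv 910 (cons (fin 911 2 907)
(mv 1101 (cons (fin 846 5 845)
(fin 1165 6 909)))))))))))))))))))
(mv 909 (cons (cons (cons (mv 1101 (cons (cons (mv 1164 (cons (fin 1100 5 908)
(mv 1228 (cons (fin 1165 5 972)
(mv 844 (cons (fin 908 7 844)
(mv 845 (cons (fin 780 7 780)
(mv 846 (cons (fin 910 6 845)
(fin 782 6 781)))))))))))
(mv 908 (cons (fin 844 7 844)
(mv 1165 (cons (fin 972 7 908)
(mv 1228 (cons (fin 1164 5 972)
(mv 1229 (cons (fin 1292 5 1036)
(mv 1230 (cons (fin 1294 4 1037)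
(fin 1166 4 973))))))))))))
(cons (mv 1100 (cons (fin 1164 5 908)
(mv 1038 (cons (fin 1039 1 1036)
(mv 1098 (cons (fin 1099 2 1034)
(mv 845 (cons (fin 1036 5 844)
(mv 846 (cons (fin 910 6 845)
(fin 782 6 781)))))))))))
(mv 908 (cons (fin 844 7 844)
(mv 972 (cons (fin 1165 7 908)
(mv 1038 (cons (fin 1039 3 972)
(mv 970 (cons (fin 971 0 970)
(mv 846 (cons (fin 910 6 845)
(mv 845 (cons (fin 782 6 781)
(mv 1036 (cons (fin 1100 5 844)
(fin 781 5 780))))))))))))))))))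
(mv 845 (cons (cons (mv 1100 (cons (fin 1036 5 844)
(mv 780 (cons (fin 844 7 780)
(mv 781 (cons (fin 716 7 716)
(mv 782 (cons (fin 846 6 781)
(fin 718 6 717)))))))))
(mv 780 (cons (fin 844 7 780)
(mv 781 (cons (fin 716 7 716)
(mv 782 (cons (fin 846 6 781)
(fin 718 6 717))))))))
(cons (mv 1036 (cons (fin 1100 5 844)
(mv 781 (cons (fin 972 5 780)
(mv 782 (cons (fin 846 6 781)
(fin 718 6 717)))))))
(cons (mv 1036 (cons (fin 1100 5 844)
(mv 780 (cons (fin 844 7 780)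
(mv 781 (cons (fin 972 5 780)
(fin 716 7 716)))))))
(mv 1100 (cons (fin 1036 5 844)
(mv 844 (cons (fin 780 7 780)
(mv 846 (cons (fin 782 6 781)
(mv 847 (cons (mv 908 (cons (fin 907 1 843)
(fin 848 1 844)))
(cons (mv 911 (cons (fin 912 0 844)
(mv 910 (cons (fin 843 0 843)
(mv 848 (cons (fin 849 1 845)
(mv 784 (cons (fin 783 2 780)
(fin 785 2 781)))))))))
(mv 907 (cons (fin 908 1 843)
(mv 911 (cons (fin 912 0 844)
(mv 843 (cons (fin 906 1 842)
(fin 910 0 843)))))))))))))))))))))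
(cons (mv 1101 (cons (cons (mv 1164 (cons (fin 1100 5 908)
(mv 1165 (cons (fin 1228 5 972)
(mv 908 (cons (fin 972 7 908)
(fin 844 7 844)))))))
(cons (mv 908 (cons (fin 844 7 844)
(mv 1165 (cons (fin 972 7 908)
(mv 1228 (cons (fin 1164 5 972)
(mv 1229 (cons (fin 1292 5 1036)
(mv 1230 (cons (fin 1294 4 1037)
(fin 1166 4 973)))))))))))
(mv 910 (cons (fin 846 6 845)
(mv 1165 (cons (cons (mv 1164 (cons (fin 1228 5 972)
(fin 1100 5 908)))
(mv 1230 (cons (fin 1166 4 973)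
(mv 1229 (cons (fin 1294 4 1037)
(mv 1292 (cons (fin 1228 5 1036)
(mv 1293 (cons (fin 1356 5 1100)
(mv 1036 (cons (fin 1100 7 1036)
(fin 972 7 972))))))))))))
(cons (mv 1228 (cons (fin 1164 5 972)
(mv 1229 (cons (fin 1292 5 1036)
(mv 1230 (cons (fin 1294 4 1037)
(fin 1166 4 973)))))))
(mv 1230 (cons (fin 1166 4 973)
(mv 1229 (cons (fin 1294 4 1037)
(mv 1100 (cons (fin 1164 5 908)
(mv 1036 (cons (fin 1293 7 1036)
(fin 972 7 972))))))))))))))))
(cons (mv 908 (cons (fin 844 7 844)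
(mv 972 (cons (fin 1165 7 908)
(mv 1038 (cons (fin 1039 3 972)
(mv 971 (cons (fin 970 0 970)
(mv 910 (cons (fin 911 1 907)
(fin 846 6 845)))))))))))
(cons (mv 1164 (cons (fin 1100 5 908)
(mv 908 (cons (fin 844 7 844)
(mv 910 (cons (fin 846 6 845)
(mv 911 (cons (mv 972 (cons (fin 971 1 907)
(fin 912 1 908)))
(cons (mv 976 (cons (fin 975 0 908)
(mv 912 (cons (fin 977 0 909)
(mv 847 (cons (fin 848 2 844)
(fin 1104 7 847)))))))
(mv 972 (cons (fin 971 1 907)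
(mv 1039 (cons (fin 1038 3 972)
(mv 975 (cons (fin 976 0 908)
(mv 847 (cons (fin 848 2 844)
(fin 1104 4 847))))))))))))))))))
(mv 908 (cons (fin 844 7 844)
(mv 910 (cons (fin 846 6 845)
(mv 1039 (cons (mv 1100 (cons (fin 1038 1 1036)
(fin 1164 5 908)))
(cons (mv 976 (cons (cons (mv 1038 (cons (fin 977 2 973)
(mv 975 (cons (fin 911 0 908)
(fin 1036 2 972)))))
(mv 1038 (cons (fin 977 2 973)
(mv 1104 (cons (fin 1105 0 1037)
(mv 1036 (cons (fin 1103 0 1036)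
(fin 975 2 972))))))))
(cons (mv 975 (cons (fin 911 0 908)
(mv 1038 (cons (fin 1036 2 972)
(mv 1104 (cons (fin 1105 0 1037)
(mv 1168 (cons (fin 1232 7 975)
(mv 1233 (cons (fin 1169 4 976)
(mv 1167 (cons (fin 1231 5 975)
(mv 912 (cons (fin 1103 5 911)
(mv 848 (cons (fin 784 5 783)
(mv 849 (cons (fin 913 6 848)
(fin 785 6 784)))))))))))))))))))
(cons (mv 911 (cons (fin 975 0 908)
(mv 912 (cons (fin 977 0 909)
(mv 847 (cons (fin 848 2 844)
(fin 1104 7 847)))))))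
(mv 1038 (cons (fin 977 2 973)
(mv 1104 (cons (fin 1105 0 1037)
(mv 1103 (cons (fin 1036 0 1036)
(mv 1167 (cons (fin 912 5 911)
(fin 1231 6 975)))))))))))))
(mv 1164 (cons (fin 1100 5 908)
(mv 1165 (cons (fin 1228 5 972)
(mv 1166 (cons (fin 1230 4 973)
(mv 1167 (cons (cons (mv 1231 (cons (fin 1232 0 1164)
(mv 1103 (cons (fin 1104 2 1100)
(fin 976 6 975)))))
(mv 1231 (cons (fin 1232 0 1164)
(mv 976 (cons (fin 1103 6 975)
(mv 911 (cons (fin 975 0 908)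
(mv 912 (cons (fin 977 0 909)
(mv 848 (cons (fin 847 2 844)
(fin 849 2 845))))))))))))
(cons (mv 1232 (cons (fin 1231 0 1164)
(mv 1168 (cons (fin 1233 0 1165)
(mv 1104 (cons (fin 1105 2 1101)
(fin 975 7 975)))))))
(cons (mv 1104 (cons (fin 1103 2 1100)
(mv 1168 (cons (fin 1105 2 1101)
(mv 1232 (cons (fin 1233 0 1165)
(fin 975 7 975)))))))
(mv 1103 (cons (fin 1104 2 1100)
(mv 976 (cons (fin 1231 6 975)
(mv 975 (cons (fin 911 0 908)
(fin 912 6 911))))))))))))))))))))))))))))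
(cons (mv 845 (cons (cons (mv 844 (cons (fin 780 7 780)
(mv 1101 (cons (fin 908 7 844)
(mv 846 (cons (fin 910 6 845)
(fin 782 6 781)))))))
(cons (mv 782 (cons (fin 846 6 781)
(mv 781 (cons (fin 718 6 717)
(mv 972 (cons (fin 1036 5 780)
(mv 1038 (cons (fin 1039 3 972)
(mv 970 (cons (fin 971 0 970)
(mv 716 (cons (fin 780 7 716)
(mv 717 (cons (fin 908 5 716)
(fin 652 7 652)))))))))))))))
(mv 780 (cons (fin 844 7 780)
(mv 781 (cons (fin 716 7 716)
(mv 972 (cons (fin 1036 5 780)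
(mv 1038 (cons (fin 1039 3 972)
(mv 970 (cons (fin 971 0 970)
(mv 717 (cons (fin 908 5 716)
(mv 718 (cons (fin 782 6 717)
(fin 654 6 653)))))))))))))))))
(cons (mv 846 (cons (fin 782 6 781)
(mv 1101 (cons (fin 910 6 845)
(mv 908 (cons (fin 844 7 844)
(mv 1165 (cons (fin 972 7 908)
(mv 1228 (cons (fin 1164 5 972)
(mv 1229 (cons (fin 1292 5 1036)
(mv 1230 (cons (fin 1294 4 1037)
(fin 1166 4 973)))))))))))))))
(cons (mv 780 (cons (fin 844 7 780)
(mv 781 (cons (fin 716 7 716)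
(mv 972 (cons (fin 1036 5 780)
(mv 1038 (cons (fin 1039 3 972)
(mv 971 (cons (fin 970 0 970)
(mv 908 (cons (fin 717 5 716)
(mv 1101 (cons (fin 1165 7 908)
(mv 910 (cons (fin 911 1 907)
(fin 846 6 845)))))))))))))))))
(mv 844 (cons (fin 780 7 780)
(mv 846 (cons (fin 782 6 781)
(mv 910 (cons (fin 1101 6 845)
(mv 911 (cons (fin 912 3 844)
(fin 843 0 843)))))))))))))
(mv 846 (cons (mv 1101 (cons (fin 910 6 845)
(mv 1164 (cons (fin 1100 5 908)
(mv 1165 (cons (fin 1228 5 972)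
(mv 1230 (cons (fin 1166 4 973)
(mv 1229 (cons (fin 1294 4 1037)
(mv 972 (cons (fin 1036 7 972)
(fin 908 7 908)))))))))))))
(cons (mv 845 (cons (fin 782 6 781)
(mv 1036 (cons (fin 1100 5 844)
(mv 972 (cons (fin 781 5 780)
(mv 1038 (cons (fin 1039 3 972)
(mv 1035 (cons (mv 1098 (cons (fin 1099 1 1034)
(mv 1034 (cons (fin 1097 1 1033)
(fin 1033 2 969)))))
(cons (mv 1099 (cons (fin 1098 1 1034)
(mv 1163 (cons (fin 1227 6 971)
(mv 971 (cons (fin 970 3 970)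
(fin 908 6 907)))))))
(mv 1034 (cons (fin 1033 2 969)
(mv 970 (cons (fin 969 3 969)
(fin 971 3 970))))))))))))))))
(mv 910 (cons (fin 1101 6 845)
(mv 782 (cons (fin 718 5 717)
(fin 845 6 781)))))))))))
(cons (cons (mv 1101 (cons (cons (mv 1164 (cons (fin 1100 5 908)
(mv 1165 (cons (fin 1228 5 972)
(mv 908 (cons (fin 972 7 908)
(fin 844 7 844)))))))
(cons (mv 908 (cons (fin 844 7 844)
(mv 1165 (cons (fin 972 7 908)
(mv 1228 (cons (fin 1164 5 972)
(mv 1229 (cons (fin 1292 5 1036)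
(mv 1230 (cons (fin 1294 4 1037)
(fin 1166 4 973)))))))))))
(mv 1165 (cons (cons (mv 1164 (cons (fin 1228 5 972)
(fin 1100 5 908)))
(mv 1230 (cons (fin 1166 4 973)
(mv 1229 (cons (fin 1294 4 1037)
(mv 1292 (cons (fin 1228 5 1036)
(mv 1293 (cons (fin 1356 5 1100)
(mv 1036 (cons (fin 1100 7 1036)
(fin 972 7 972))))))))))))
(cons (mv 1228 (cons (fin 1164 5 972)
(mv 1229 (cons (fin 1292 5 1036)
(mv 1230 (cons (fin 1294 4 1037)
(fin 1166 4 973)))))))
(mv 1230 (cons (fin 1166 4 973)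
(mv 1229 (cons (fin 1294 4 1037)
(mv 1100 (cons (fin 1164 5 908)
(mv 1036 (cons (fin 845 5 844)
(fin 1293 7 1036))))))))))))))
(cons (mv 908 (cons (fin 844 7 844)
(mv 972 (cons (fin 1165 7 908)
(mv 1038 (cons (fin 1039 3 972)
(mv 907 (cons (cons (mv 970 (cons (fin 971 0 970)
(mv 906 (cons (fin 969 1 905)
(fin 905 0 905)))))
(mv 906 (cons (fin 905 0 905)
(mv 970 (cons (fin 969 1 905)
(mv 842 (cons (fin 841 3 841)
(mv 843 (cons (fin 910 3 842)
(mv 1034 (cons (fin 1098 6 842)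
(fin 779 6 778))))))))))))
(cons (mv 906 (cons (fin 905 0 905)
(mv 842 (cons (fin 841 3 841)
(mv 910 (cons (fin 843 3 842)
(mv 911 (cons (fin 971 1 907)
(fin 912 1 908)))))))))
(mv 971 (cons (fin 970 0 970)
(mv 910 (cons (fin 911 1 907)
(mv 843 (cons (fin 842 3 842)
(mv 1036 (cons (fin 1100 7 843)
(fin 779 4 779))))))))))))))))))
(cons (mv 1100 (cons (fin 1164 5 908)
(mv 1036 (cons (fin 845 5 844)
(mv 1038 (cons (fin 1039 1 1036)
(mv 1099 (cons (fin 1098 2 1034)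
(mv 908 (cons (fin 844 7 844)
(mv 972 (cons (fin 1163 5 907)
(mv 970 (cons (fin 971 0 970)
(mv 907 (cons (fin 843 7 843)
(mv 906 (cons (fin 969 1 905)
(fin 905 0 905)))))))))))))))))))
(mv 1100 (cons (fin 1164 5 908)
(mv 1038 (cons (fin 1039 1 1036)
(mv 1098 (cons (fin 1099 2 1034)
(mv 844 (cons (fin 908 7 844)
(mv 845 (cons (fin 1036 5 844)
(fin 780 7 780)))))))))))))))
(mv 1101 (cons (cons (mv 1164 (cons (fin 1100 5 908)
(mv 1228 (cons (fin 1165 5 972)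
(mv 844 (cons (fin 908 7 844)
(mv 845 (cons (fin 780 7 780)
(mv 846 (cons (fin 910 6 845)
(fin 782 6 781)))))))))))
(mv 844 (cons (fin 908 7 844)
(mv 845 (cons (fin 780 7 780)
(mv 846 (cons (fin 910 6 845)
(fin 782 6 781))))))))
(cons (mv 1100 (cons (fin 1164 5 908)
(mv 1038 (cons (fin 1039 1 1036)
(mv 1098 (cons (fin 1099 2 1034)
(mv 845 (cons (fin 1036 5 844)
(mv 846 (cons (fin 910 6 845)
(fin 782 6 781)))))))))))
(cons (mv 1100 (cons (fin 1164 5 908)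
(mv 1038 (cons (fin 1039 1 1036)
(mv 1098 (cons (fin 1099 2 1034)
(mv 844 (cons (fin 908 7 844)
(mv 845 (cons (fin 1036 5 844)
(fin 780 7 780)))))))))))
(mv 908 (cons (fin 844 7 844)
(mv 910 (cons (fin 846 6 845)
(mv 1039 (cons (mv 1100 (cons (fin 1038 1 1036)
(fin 1164 5 908)))
(cons (mv 976 (cons (cons (mv 1038 (cons (fin 977 2 973)
(mv 975 (cons (fin 911 0 908)
(fin 1036 2 972)))))
(mv 1038 (cons (fin 977 2 973)
(mv 1104 (cons (fin 1105 0 1037)
(mv 1036 (cons (fin 1103 0 1036)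
(fin 975 2 972))))))))
(cons (mv 975 (cons (fin 911 0 908)
(mv 1038 (cons (fin 1036 2 972)
(mv 1104 (cons (fin 1105 0 1037)
(mv 1168 (cons (fin 1232 7 975)
(mv 1233 (cons (fin 1169 4 976)
(mv 1167 (cons (fin 1231 5 975)
(mv 912 (cons (fin 1103 5 911)
(mv 848 (cons (fin 784 5 783)
(mv 849 (cons (fin 913 6 848)
(fin 785 6 784)))))))))))))))))))
(cons (mv 911 (cons (fin 975 0 908)
(mv 912 (cons (fin 977 0 909)
(mv 847 (cons (fin 848 2 844)
(fin 1104 7 847)))))))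
(mv 1038 (cons (fin 977 2 973)
(mv 1104 (cons (fin 1105 0 1037)
(mv 1103 (cons (fin 1036 0 1036)
(mv 1167 (cons (fin 912 5 911)
(fin 1231 6 975)))))))))))))
(mv 1164 (cons (fin 1100 5 908)
(mv 1165 (cons (fin 1228 5 972)
(mv 1166 (cons (fin 1230 4 973)
(mv 1167 (cons (cons (mv 1231 (cons (fin 1232 0 1164)
(mv 1103 (cons (fin 1104 2 1100)
(fin 976 6 975)))))
(mv 1231 (cons (fin 1232 0 1164)
(mv 976 (cons (fin 1103 6 975)
(mv 911 (cons (fin 975 0 908)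
(mv 912 (cons (fin 977 0 909)
(mv 848 (cons (fin 847 2 844)
(fin 849 2 845))))))))))))
(cons (mv 1232 (cons (fin 1231 0 1164)
(mv 1168 (cons (fin 1233 0 1165)
(mv 1104 (cons (fin 1105 2 1101)
(fin 975 7 975)))))))
(cons (mv 1104 (cons (fin 1103 2 1100)
(mv 1168 (cons (fin 1105 2 1101)
(mv 1232 (cons (fin 1233 0 1165)
(fin 975 7 975)))))))
(mv 1103 (cons (fin 1104 2 1100)
(mv 976 (cons (fin 1231 6 975)
(mv 975 (cons (fin 911 0 908)
(fin 912 6 911)))))))))))))))))))))))))))))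
(cons (mv 845 (cons (cons (mv 1100 (cons (fin 1036 5 844)
(mv 1164 (cons (fin 1101 5 908)
(mv 780 (cons (fin 844 7 780)
(mv 781 (cons (fin 716 7 716)
(mv 782 (cons (fin 846 6 781)
(fin 718 6 717)))))))))))
(mv 844 (cons (fin 780 7 780)
(mv 846 (cons (fin 782 6 781)
(mv 910 (cons (fin 1101 6 845)
(mv 911 (cons (fin 912 3 844)
(fin 843 0 843))))))))))
(cons (mv 1036 (cons (fin 1100 5 844)
(mv 780 (cons (fin 844 7 780)
(mv 781 (cons (fin 972 5 780)
(fin 716 7 716)))))))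
(mv 1100 (cons (fin 1036 5 844)
(mv 1101 (cons (fin 1164 5 908)
(mv 846 (cons (fin 910 6 845)
(fin 782 6 781))))))))))
(cons (mv 846 (cons (cons (mv 1101 (cons (fin 910 6 845)
(mv 1164 (cons (fin 1100 5 908)
(mv 1228 (cons (fin 1165 5 972)
(mv 844 (cons (fin 908 7 844)
(mv 845 (cons (fin 780 7 780)
(fin 782 6 781)))))))))))
(mv 845 (cons (fin 782 6 781)
(mv 844 (cons (fin 780 7 780)
(mv 847 (cons (mv 908 (cons (fin 907 1 843)
(fin 848 1 844)))
(cons (mv 911 (cons (fin 912 0 844)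
(mv 910 (cons (fin 843 0 843)
(mv 848 (cons (fin 849 1 845)
(mv 784 (cons (fin 783 2 780)
(fin 785 2 781)))))))))
(mv 907 (cons (fin 908 1 843)
(mv 911 (cons (fin 912 0 844)
(mv 843 (cons (fin 906 1 842)
(fin 910 0 843)))))))))))))))
(cons (mv 1101 (cons (fin 910 6 845)
(mv 1164 (cons (fin 1100 5 908)
(mv 1165 (cons (fin 1228 5 972)
(mv 908 (cons (fin 972 7 908)
(fin 844 7 844)))))))))
(cons (mv 845 (cons (fin 782 6 781)
(mv 844 (cons (fin 780 7 780)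
(mv 908 (cons (fin 1101 7 844)
(mv 907 (cons (fin 847 1 843)
(fin 906 2 842)))))))))
(mv 910 (cons (fin 1101 6 845)
(mv 782 (cons (fin 718 5 717)
(fin 845 6 781)))))))))
(mv 845 (cons (cons (mv 1100 (cons (fin 1036 5 844)
(mv 1164 (cons (fin 1101 5 908)
(mv 780 (cons (fin 844 7 780)
(mv 781 (cons (fin 716 7 716)
(mv 782 (cons (fin 846 6 781)
(fin 718 6 717)))))))))))
(mv 844 (cons (fin 780 7 780)
(mv 908 (cons (fin 1101 7 844)
(mv 846 (cons (fin 782 6 781)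
(mv 907 (cons (fin 847 1 843)
(fin 906 2 842))))))))))
(cons (mv 1036 (cons (fin 1100 5 844)
(mv 972 (cons (fin 781 5 780)
(mv 1038 (cons (fin 1039 3 972)
(mv 846 (cons (fin 782 6 781)
(mv 1035 (cons (mv 1098 (cons (fin 1099 1 1034)
(mv 1034 (cons (fin 1097 1 1033)
(fin 1033 2 969)))))
(cons (mv 1099 (cons (fin 1098 1 1034)
(mv 1163 (cons (fin 1227 6 971)
(mv 971 (cons (fin 970 3 970)
(fin 908 6 907)))))))
(mv 1034 (cons (fin 1033 2 969)
(mv 970 (cons (fin 969 3 969)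
(fin 971 3 970))))))))))))))))
(mv 1100 (cons (fin 1036 5 844)
(mv 1101 (cons (fin 1164 5 908)
(mv 844 (cons (fin 908 7 844)
(fin 780 7 780))))))))))))))))
(cons (mv 1038 (cons (cons (cons (mv 1039 (cons (fin 972 3 972)
(mv 1100 (cons (fin 1101 1 1036)
(mv 1104 (cons (fin 1105 0 1037)
(mv 976 (cons (fin 977 2 973)
(mv 912 (cons (mv 1103 (cons (fin 1167 5 911)
(fin 848 5 847)))
(cons (mv 911 (cons (fin 847 7 847)
(mv 1168 (cons (fin 975 7 911)
(mv 1231 (cons (fin 1167 5 975)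
(mv 1232 (cons (fin 1295 5 1039)
(mv 1233 (cons (fin 1297 4 1040)
(fin 1169 4 976)))))))))))
(mv 1103 (cons (fin 848 5 847)
(mv 911 (cons (fin 847 7 847)
(mv 1168 (cons (fin 975 7 911)
(mv 1232 (cons (fin 1296 7 1039)
(mv 1233 (cons (fin 1297 4 1040)
(fin 1169 4 976))))))))))))))))))))))
(mv 909 (cons (cons (cons (mv 1101 (cons (cons (mv 1164 (cons (fin 1100 5 908)
(mv 1228 (cons (fin 1165 5 972)
(mv 908 (cons (fin 844 7 844)
(mv 846 (cons (fin 910 6 845)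
(mv 845 (cons (fin 782 6 781)
(mv 974 (cons (fin 781 4 781)
(mv 975 (cons (fin 976 3 908)
(mv 907 (cons (fin 972 3 907)
(fin 906 0 906)))))))))))))))))
(cons (mv 1164 (cons (fin 1100 5 908)
(mv 1228 (cons (fin 1165 5 972)
(mv 844 (cons (fin 908 7 844)
(mv 845 (cons (fin 780 7 780)
(mv 781 (cons (fin 974 4 781)
(mv 782 (cons (fin 846 6 781)
(fin 718 6 717)))))))))))))
(mv 1164 (cons (fin 1100 5 908)
(mv 1165 (cons (fin 1228 5 972)
(mv 974 (cons (fin 1229 6 973)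
(fin 910 6 909)))))))))
(cons (mv 908 (cons (fin 844 7 844)
(mv 1165 (cons (fin 972 7 908)
(mv 974 (cons (fin 1229 6 973)
(fin 910 6 909)))))))
(cons (mv 1164 (cons (fin 1100 5 908)
(mv 908 (cons (fin 844 7 844)
(mv 846 (cons (fin 910 6 845)
(mv 845 (cons (fin 782 6 781)
(mv 974 (cons (fin 781 4 781)
(mv 975 (cons (fin 976 3 908)
(mv 907 (cons (fin 972 3 907)
(fin 906 0 906)))))))))))))))
(mv 1164 (cons (fin 1100 5 908)
(mv 1228 (cons (fin 1165 5 972)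
(mv 844 (cons (fin 908 7 844)
(mv 845 (cons (fin 780 7 780)
(mv 846 (cons (fin 910 6 845)
(fin 782 6 781)))))))))))))))
(mv 845 (cons (cons (mv 844 (cons (fin 780 7 780)
(mv 781 (cons (fin 974 4 781)
(mv 782 (cons (fin 846 6 781)
(fin 718 6 717)))))))
(mv 844 (cons (fin 780 7 780)
(mv 846 (cons (fin 782 6 781)
(mv 847 (cons (mv 908 (cons (fin 907 1 843)
(fin 848 1 844)))
(mv 911 (cons (fin 912 0 844)
(mv 910 (cons (fin 843 0 843)
(mv 783 (cons (fin 784 2 780)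
(fin 974 6 782))))))))))))))
(cons (mv 781 (cons (fin 974 4 781)
(mv 782 (cons (fin 846 6 781)
(fin 718 6 717)))))
(cons (mv 780 (cons (fin 844 7 780)
(mv 781 (cons (fin 716 7 716)
(fin 974 4 781)))))
(mv 780 (cons (fin 844 7 780)
(mv 781 (cons (fin 716 7 716)
(mv 782 (cons (fin 846 6 781)
(fin 718 6 717))))))))))))
(cons (mv 1101 (cons (cons (mv 1164 (cons (fin 1100 5 908)
(mv 1165 (cons (fin 1228 5 972)
(mv 974 (cons (fin 1229 6 973)
(fin 910 6 909)))))))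
(mv 1164 (cons (fin 1100 5 908)
(mv 1165 (cons (fin 1228 5 972)
(mv 908 (cons (fin 972 7 908)
(fin 844 7 844))))))))
(cons (mv 908 (cons (fin 844 7 844)
(mv 1165 (cons (fin 972 7 908)
(mv 974 (cons (fin 1229 6 973)
(fin 910 6 909)))))))
(mv 1164 (cons (fin 1100 5 908)
(mv 908 (cons (fin 844 7 844)
(mv 910 (cons (fin 846 6 845)
(mv 911 (cons (mv 972 (cons (fin 971 1 907)
(fin 912 1 908)))
(mv 975 (cons (fin 976 0 908)
(mv 974 (cons (fin 907 0 907)
(mv 847 (cons (fin 848 2 844)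
(fin 783 5 782))))))))))))))))))
(mv 1101 (cons (cons (mv 1164 (cons (fin 1100 5 908)
(mv 1165 (cons (fin 1228 5 972)
(mv 974 (cons (fin 1229 6 973)
(fin 910 6 909)))))))
(mv 908 (cons (fin 844 7 844)
(mv 1165 (cons (fin 972 7 908)
(mv 974 (cons (fin 1229 6 973)
(fin 910 6 909))))))))
(cons (mv 1164 (cons (fin 1100 5 908)
(mv 845 (cons (mv 844 (cons (fin 908 7 844)
(fin 780 7 780)))
(cons (mv 781 (cons (fin 974 4 781)
(mv 716 (cons (fin 780 7 716)
(mv 717 (cons (fin 652 7 652)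
(mv 718 (cons (fin 782 6 717)
(fin 654 6 653)))))))))
(mv 974 (cons (fin 781 4 781)
(mv 908 (cons (fin 844 7 844)
(mv 975 (cons (fin 976 3 908)
(mv 907 (cons (fin 972 3 907)
(fin 906 0 906))))))))))))))
(mv 1164 (cons (fin 1100 5 908)
(mv 1165 (cons (fin 1228 5 972)
(mv 908 (cons (fin 972 7 908)
(fin 844 7 844))))))))))))
(cons (cons (mv 846 (cons (mv 1101 (cons (fin 910 6 845)
(mv 1164 (cons (fin 1100 5 908)
(mv 1165 (cons (fin 1228 5 972)
(mv 1229 (cons (fin 974 6 973)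
(mv 1230 (cons (fin 1294 4 1037)
(fin 1166 4 973)))))))))))
(cons (mv 845 (cons (fin 782 6 781)
(mv 974 (cons (fin 781 4 781)
(mv 975 (cons (mv 976 (cons (fin 977 1 973)
(fin 908 3 908)))
(cons (mv 847 (cons (cons (mv 908 (cons (fin 848 1 844)
(mv 907 (cons (fin 972 3 907)
(fin 906 0 906)))))
(mv 911 (cons (fin 783 5 782)
(mv 912 (cons (fin 972 2 908)
(mv 913 (cons (fin 914 1 910)
(fin 848 0 845))))))))
(cons (mv 911 (cons (fin 783 5 782)
(mv 972 (cons (fin 912 2 908)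
(mv 971 (cons (fin 970 0 970)
(mv 907 (cons (fin 906 3 906)
(fin 908 3 907)))))))))
(mv 911 (cons (fin 783 5 782)
(mv 848 (cons (fin 908 1 844)
(mv 912 (cons (fin 913 0 845)
(mv 784 (cons (fin 785 2 781)
(fin 720 5 719))))))))))))
(mv 976 (cons (fin 977 1 973)
(mv 912 (cons (fin 913 2 909)
(mv 911 (cons (fin 972 2 908)
(mv 1104 (cons (fin 1168 7 911)
(fin 847 7 847))))))))))))))))
(mv 910 (cons (fin 1101 6 845)
(mv 782 (cons (fin 718 5 717)
(fin 845 6 781))))))))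
(mv 844 (cons (cons (mv 1101 (cons (fin 908 7 844)
(mv 1164 (cons (fin 1100 5 908)
(mv 1228 (cons (fin 1165 5 972)
(mv 845 (cons (fin 780 7 780)
(mv 846 (cons (fin 910 6 845)
(fin 782 6 781)))))))))))
(mv 780 (cons (fin 845 7 780)
(mv 908 (cons (fin 972 4 780)
(fin 716 4 716))))))
(cons (mv 845 (cons (fin 780 7 780)
(mv 846 (cons (fin 782 6 781)
(mv 910 (cons (fin 1101 6 845)
(mv 911 (cons (fin 912 3 844)
(fin 843 0 843)))))))))
(cons (mv 908 (cons (fin 1101 7 844)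
(mv 843 (cons (cons (mv 910 (cons (fin 911 3 843)
(mv 842 (cons (fin 907 3 842)
(fin 841 0 841)))))
(mv 842 (cons (fin 841 0 841)
(mv 845 (cons (mv 782 (cons (fin 781 2 778)
(fin 846 6 781)))
(cons (mv 905 (cons (fin 906 1 841)
(mv 778 (cons (fin 777 3 777)
(mv 846 (cons (fin 779 3 778)
(mv 847 (cons (fin 907 1 843)
(fin 848 1 844)))))))))
(mv 905 (cons (fin 906 1 841)
(mv 777 (cons (fin 778 3 777)
(mv 781 (cons (fin 782 2 778)
(mv 717 (cons (fin 972 5 716)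
(fin 653 5 652)))))))))))))))
(cons (mv 910 (cons (fin 911 3 843)
(mv 846 (cons (mv 782 (cons (fin 718 5 717)
(fin 845 6 781)))
(cons (mv 907 (cons (fin 847 2 843)
(mv 970 (cons (fin 971 1 906)
(mv 906 (cons (fin 969 1 905)
(fin 845 1 842)))))))
(mv 907 (cons (fin 847 2 843)
(mv 970 (cons (fin 971 1 906)
(mv 906 (cons (fin 969 1 905)
(mv 905 (cons (fin 972 0 905)
(fin 904 2 840))))))))))))))
(mv 910 (cons (fin 911 3 843)
(mv 842 (cons (fin 841 0 841)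
(fin 845 0 842))))))))))
(mv 908 (cons (fin 1101 7 844)
(mv 780 (cons (fin 972 4 780)
(fin 716 4 716))))))))))
(cons (mv 845 (cons (cons (mv 974 (cons (fin 781 4 781)
(mv 844 (cons (fin 780 7 780)
(mv 1101 (cons (fin 908 7 844)
(mv 1164 (cons (fin 1100 5 908)
(mv 1165 (cons (fin 1228 5 972)
(fin 1229 6 973)))))))))))
(mv 844 (cons (fin 780 7 780)
(mv 1101 (cons (fin 908 7 844)
(mv 1164 (cons (fin 1100 5 908)
(mv 1165 (cons (fin 1228 5 972)
(mv 1229 (cons (fin 974 6 973)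
(mv 1230 (cons (fin 1294 4 1037)
(fin 1166 4 973))))))))))))))
(cons (mv 974 (cons (fin 781 4 781)
(mv 846 (cons (fin 782 6 781)
(mv 975 (cons (mv 976 (cons (fin 977 1 973)
(fin 908 3 908)))
(cons (mv 847 (cons (cons (mv 908 (cons (fin 848 1 844)
(mv 907 (cons (fin 972 3 907)
(fin 906 0 906)))))
(mv 911 (cons (fin 783 5 782)
(mv 912 (cons (fin 972 2 908)
(mv 913 (cons (fin 914 1 910)
(fin 848 0 845))))))))
(cons (mv 911 (cons (fin 783 5 782)
(mv 972 (cons (fin 912 2 908)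
(mv 971 (cons (fin 970 0 970)
(mv 907 (cons (fin 906 3 906)
(fin 908 3 907)))))))))
(mv 911 (cons (fin 783 5 782)
(mv 848 (cons (fin 908 1 844)
(mv 912 (cons (fin 913 0 845)
(mv 784 (cons (fin 785 2 781)
(fin 720 5 719))))))))))))
(mv 976 (cons (fin 977 1 973)
(mv 912 (cons (fin 913 2 909)
(mv 911 (cons (fin 972 2 908)
(mv 1104 (cons (fin 1168 7 911)
(fin 847 7 847))))))))))))))))
(cons (mv 844 (cons (fin 780 7 780)
(mv 908 (cons (fin 1101 7 844)
(mv 846 (cons (fin 782 6 781)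
(mv 907 (cons (fin 847 1 843)
(fin 906 2 842)))))))))
(mv 844 (cons (fin 780 7 780)
(mv 781 (cons (fin 974 4 781)
(mv 782 (cons (fin 846 6 781)
(fin 718 6 717)))))))))))
(mv 845 (cons (cons (mv 974 (cons (fin 781 4 781)
(mv 844 (cons (fin 780 7 780)
(mv 846 (cons (fin 782 6 781)
(mv 1101 (cons (fin 910 5 845)
(mv 1164 (cons (fin 1100 5 908)
(mv 1165 (cons (fin 1228 5 972)
(fin 1229 6 973)))))))))))))
(mv 844 (cons (fin 780 7 780)
(mv 846 (cons (fin 782 6 781)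
(mv 1101 (cons (fin 910 6 845)
(mv 1164 (cons (fin 1100 5 908)
(mv 1165 (cons (fin 1228 5 972)
(mv 1229 (cons (fin 974 6 973)
(mv 1230 (cons (fin 1294 4 1037)
(fin 1166 4 973))))))))))))))))
(cons (mv 780 (cons (fin 844 7 780)
(mv 781 (cons (fin 716 7 716)
(fin 974 4 781)))))
(cons (mv 974 (cons (fin 781 4 781)
(mv 846 (cons (fin 782 6 781)
(mv 1101 (cons (fin 910 5 845)
(mv 1164 (cons (fin 1100 5 908)
(mv 1165 (cons (fin 1228 5 972)
(fin 1229 6 973)))))))))))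
(mv 844 (cons (fin 780 7 780)
(mv 846 (cons (fin 782 6 781)
(mv 910 (cons (fin 1101 6 845)
(mv 911 (cons (fin 912 3 844)
(fin 843 0 843))))))))))))))))))
(cons (mv 1039 (cons (cons (cons (mv 1100 (cons (fin 1101 1 1036)
(mv 1104 (cons (fin 1105 0 1037)
(mv 976 (cons (fin 977 2 973)
(mv 912 (cons (mv 1103 (cons (fin 1167 5 911)
(fin 848 5 847)))
(cons (mv 911 (cons (fin 847 7 847)
(mv 1168 (cons (fin 975 7 911)
(mv 1231 (cons (fin 1167 5 975)
(mv 1232 (cons (fin 1295 5 1039)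
(mv 1233 (cons (fin 1297 4 1040)
(fin 1169 4 976)))))))))))
(mv 1103 (cons (fin 848 5 847)
(mv 911 (cons (fin 847 7 847)
(mv 1168 (cons (fin 975 7 911)
(mv 1232 (cons (fin 1296 7 1039)
(mv 1233 (cons (fin 1297 4 1040)
(fin 1169 4 976))))))))))))))))))))
(mv 1104 (cons (fin 1105 0 1037)
(mv 976 (cons (fin 977 2 973)
(mv 912 (cons (mv 1103 (cons (fin 1167 5 911)
(fin 848 5 847)))
(cons (mv 911 (cons (fin 847 7 847)
(mv 1168 (cons (fin 975 7 911)
(mv 1231 (cons (fin 1167 5 975)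
(mv 1232 (cons (fin 1295 5 1039)
(mv 1233 (cons (fin 1297 4 1040)
(fin 1169 4 976)))))))))))
(mv 1103 (cons (fin 848 5 847)
(mv 911 (cons (fin 847 7 847)
(mv 1168 (cons (fin 975 7 911)
(mv 1232 (cons (fin 1296 7 1039)
(mv 1233 (cons (fin 1297 4 1040)
(fin 1169 4 976)))))))))))))))))))
(cons (mv 1101 (cons (fin 1100 1 1036)
(mv 1104 (cons (fin 1105 0 1037)
(mv 1165 (cons (mv 974 (cons (fin 1229 6 973)
(fin 910 6 909)))
(cons (mv 1228 (cons (fin 1164 5 972)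
(mv 1229 (cons (fin 1292 5 1036)
(mv 1230 (cons (fin 1294 4 1037)
(fin 1166 4 973)))))))
(mv 1228 (cons (fin 1164 5 972)
(mv 1230 (cons (fin 1166 4 973)
(mv 910 (cons (fin 974 6 909)
(mv 909 (cons (fin 846 6 845)
(mv 844 (cons (fin 908 7 844)
(mv 845 (cons (fin 780 7 780)
(mv 911 (cons (fin 912 3 844)
(mv 975 (cons (fin 847 4 847)
(mv 1168 (cons (fin 1232 7 975)
(fin 1103 4 911))))))))))))))))))))))))))
(mv 1101 (cons (fin 1100 1 1036)
(mv 976 (cons (fin 977 2 973)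
(mv 1165 (cons (mv 974 (cons (fin 1229 6 973)
(fin 910 6 909)))
(cons (mv 1228 (cons (fin 1164 5 972)
(mv 1229 (cons (fin 1292 5 1036)
(mv 1230 (cons (fin 1294 4 1037)
(fin 1166 4 973)))))))
(mv 1228 (cons (fin 1164 5 972)
(mv 1230 (cons (fin 1166 4 973)
(mv 910 (cons (fin 974 6 909)
(mv 909 (cons (fin 846 6 845)
(mv 908 (cons (fin 844 7 844)
(mv 911 (cons (fin 975 0 908)
(mv 848 (cons (fin 847 2 844)
(mv 912 (cons (fin 849 2 845)
(fin 1103 5 847))))))))))))))))))))))))))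
(cons (cons (mv 1100 (cons (fin 1101 1 1036)
(mv 1104 (cons (fin 1105 0 1037)
(mv 976 (cons (fin 977 2 973)
(mv 1168 (cons (mv 975 (cons (fin 1232 7 975)
(fin 911 7 911)))
(cons (mv 1231 (cons (fin 1167 5 975)
(mv 1232 (cons (fin 1295 5 1039)
(mv 1233 (cons (fin 1297 4 1040)
(fin 1169 4 976)))))))
(mv 1231 (cons (fin 1167 5 975)
(mv 1233 (cons (fin 1169 4 976)
(mv 912 (cons (cons (mv 911 (cons (fin 975 7 911)
(fin 847 7 847)))
(mv 849 (cons (fin 913 6 848)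
(mv 848 (cons (fin 785 6 784)
(mv 783 (cons (fin 847 7 783)
(mv 784 (cons (fin 975 5 783)
(fin 719 7 719))))))))))
(cons (mv 847 (cons (fin 911 7 847)
(mv 848 (cons (fin 783 7 783)
(mv 849 (cons (fin 913 6 848)
(fin 785 6 784)))))))
(mv 975 (cons (fin 911 7 911)
(mv 913 (cons (fin 974 2 909)
(fin 849 6 848)))))))))))))))))))))
(mv 1100 (cons (fin 1101 1 1036)
(mv 1104 (cons (fin 1105 0 1037)
(mv 976 (cons (fin 977 2 973)
(mv 912 (cons (mv 1103 (cons (fin 1167 5 911)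
(fin 848 5 847)))
(cons (mv 847 (cons (fin 911 7 847)
(mv 848 (cons (fin 783 7 783)
(mv 849 (cons (fin 913 6 848)
(fin 785 6 784)))))))
(mv 911 (cons (fin 847 7 847)
(mv 913 (cons (fin 849 6 848)
(mv 974 (cons (fin 910 1 909)
(mv 1168 (cons (cons (mv 1167 (cons (fin 1231 5 975)
(fin 1103 5 911)))
(mv 1233 (cons (fin 1169 4 976)
(mv 1232 (cons (fin 1297 4 1040)
(mv 1295 (cons (fin 1231 5 1039)
(mv 1296 (cons (fin 1359 5 1103)
(fin 1103 7 1039))))))))))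
(cons (mv 1233 (cons (fin 1169 4 976)
(mv 1232 (cons (fin 1297 4 1040)
(mv 1103 (cons (fin 1167 5 911)
(fin 1296 7 1039)))))))
(mv 1231 (cons (fin 1167 5 975)
(mv 1232 (cons (fin 1295 5 1039)
(mv 1233 (cons (fin 1297 4 1040)
(fin 1169 4 976))))))))))))))))))))))))))
(cons (mv 1101 (cons (fin 1100 1 1036)
(mv 1104 (cons (fin 1105 0 1037)
(mv 976 (cons (fin 977 2 973)
(mv 1168 (cons (mv 975 (cons (fin 1232 7 975)
(fin 911 7 911)))
(cons (mv 1231 (cons (fin 1167 5 975)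
(mv 1232 (cons (fin 1295 5 1039)
(mv 1233 (cons (fin 1297 4 1040)
(fin 1169 4 976)))))))
(mv 1231 (cons (fin 1167 5 975)
(mv 1233 (cons (fin 1169 4 976)
(mv 975 (cons (fin 911 7 911)
(mv 909 (cons (mv 908 (cons (fin 974 3 908)
(fin 844 7 844)))
(cons (mv 910 (cons (fin 846 6 845)
(mv 1165 (cons (fin 974 6 909)
(mv 1228 (cons (fin 1164 5 972)
(mv 1229 (cons (fin 1292 5 1036)
(mv 1230 (cons (fin 1294 4 1037)
(fin 1166 4 973)))))))))))
(mv 844 (cons (fin 908 7 844)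
(mv 845 (cons (fin 780 7 780)
(mv 846 (cons (fin 910 6 845)
(fin 782 6 781)))))))))))))))))))))))))
(mv 1100 (cons (fin 1101 1 1036)
(mv 1104 (cons (fin 1105 0 1037)
(mv 976 (cons (fin 977 2 973)
(mv 912 (cons (mv 1103 (cons (fin 1167 5 911)
(fin 848 5 847)))
(cons (mv 849 (cons (fin 913 6 848)
(mv 848 (cons (fin 785 6 784)
(mv 783 (cons (fin 847 7 783)
(mv 784 (cons (fin 975 5 783)
(fin 719 7 719)))))))))
(mv 1167 (cons (fin 1103 5 911)
(mv 1168 (cons (fin 1231 5 975)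
(mv 1232 (cons (fin 975 7 975)
(mv 1233 (cons (fin 1297 4 1040)
(fin 1169 4 976))))))))))))))))))))))
(mv 1039 (cons (fin 972 3 972)
(mv 1104 (cons (fin 1105 0 1037)
(mv 976 (cons (fin 977 2 973)
(mv 912 (cons (mv 1103 (cons (fin 1167 5 911)
(fin 848 5 847)))
(cons (mv 911 (cons (fin 847 7 847)
(mv 1168 (cons (fin 975 7 911)
(mv 1231 (cons (fin 1167 5 975)
(mv 1232 (cons (fin 1295 5 1039)
(mv 1233 (cons (fin 1297 4 1040)
(fin 1169 4 976)))))))))))
(mv 1103 (cons (fin 848 5 847)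
(mv 911 (cons (fin 847 7 847)
(mv 1168 (cons (fin 975 7 911)
(mv 1232 (cons (fin 1296 7 1039)
(mv 1233 (cons (fin 1297 4 1040)
(fin 1169 4 976))))))))))))))))))))))
(cons (cons (mv 1039 (cons (fin 972 3 972)
(mv 1101 (cons (fin 1100 1 1036)
(mv 1104 (cons (fin 1105 0 1037)
(mv 1165 (cons (mv 974 (cons (fin 1229 6 973)
(fin 910 6 909)))
(cons (mv 1228 (cons (fin 1164 5 972)
(mv 1229 (cons (fin 1292 5 1036)
(mv 1230 (cons (fin 1294 4 1037)
(fin 1166 4 973)))))))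
(mv 1228 (cons (fin 1164 5 972)
(mv 1230 (cons (fin 1166 4 973)
(mv 910 (cons (fin 974 6 909)
(mv 909 (cons (fin 846 6 845)
(mv 844 (cons (fin 908 7 844)
(mv 845 (cons (fin 780 7 780)
(mv 911 (cons (fin 912 3 844)
(mv 975 (cons (fin 847 4 847)
(mv 1168 (cons (fin 1232 7 975)
(fin 1103 4 911))))))))))))))))))))))))))))
(mv 972 (cons (fin 1039 3 972)
(mv 971 (cons (fin 970 0 970)
(mv 974 (cons (cons (mv 1034 (cons (fin 1035 1 970)
(mv 906 (cons (fin 907 3 906)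
(mv 910 (cons (fin 911 2 907)
(mv 1101 (cons (fin 846 5 845)
(fin 1165 6 909)))))))))
(mv 1034 (cons (fin 1035 1 970)
(mv 907 (cons (fin 906 3 906)
(mv 975 (cons (fin 908 3 907)
(mv 976 (cons (fin 977 1 973)
(mv 912 (cons (fin 911 2 908)
(fin 913 2 909))))))))))))
(cons (mv 1034 (cons (fin 1035 1 970)
(mv 907 (cons (fin 906 3 906)
(mv 908 (cons (fin 975 3 907)
(mv 1101 (cons (fin 1165 7 908)
(mv 844 (cons (fin 909 7 844)
(fin 780 4 780)))))))))))
(cons (mv 1034 (cons (fin 1035 1 970)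
(mv 910 (cons (fin 911 2 907)
(mv 1101 (cons (fin 846 5 845)
(fin 1165 6 909)))))))
(mv 906 (cons (fin 907 3 906)
(mv 910 (cons (fin 911 2 907)
(mv 1101 (cons (fin 846 5 845)
(fin 1165 6 909))))))))))))))))
(cons (mv 1039 (cons (fin 972 3 972)
(mv 1100 (cons (fin 1101 1 1036)
(mv 1104 (cons (fin 1105 0 1037)
(mv 976 (cons (fin 977 2 973)
(mv 912 (cons (mv 1103 (cons (fin 1167 5 911)
(fin 848 5 847)))
(cons (mv 847 (cons (fin 911 7 847)
(mv 848 (cons (fin 783 7 783)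
(mv 849 (cons (fin 913 6 848)
(fin 785 6 784)))))))
(mv 911 (cons (fin 847 7 847)
(mv 913 (cons (fin 849 6 848)
(mv 974 (cons (fin 910 1 909)
(mv 1168 (cons (cons (mv 1167 (cons (fin 1231 5 975)
(fin 1103 5 911)))
(mv 1233 (cons (fin 1169 4 976)
(mv 1232 (cons (fin 1297 4 1040)
(mv 1295 (cons (fin 1231 5 1039)
(mv 1296 (cons (fin 1359 5 1103)
(fin 1103 7 1039))))))))))
(cons (mv 1233 (cons (fin 1169 4 976)
(mv 1232 (cons (fin 1297 4 1040)
(mv 1103 (cons (fin 1167 5 911)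
(fin 1296 7 1039)))))))
(mv 1231 (cons (fin 1167 5 975)
(mv 1232 (cons (fin 1295 5 1039)
(mv 1233 (cons (fin 1297 4 1040)
(fin 1169 4 976)))))))))))))))))))))))))))
(cons (mv 1039 (cons (fin 972 3 972)
(mv 1101 (cons (fin 1100 1 1036)
(mv 1104 (cons (fin 1105 0 1037)
(mv 976 (cons (fin 977 2 973)
(mv 1168 (cons (mv 975 (cons (fin 1232 7 975)
(fin 911 7 911)))
(cons (mv 1231 (cons (fin 1167 5 975)
(mv 1232 (cons (fin 1295 5 1039)
(mv 1233 (cons (fin 1297 4 1040)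
(fin 1169 4 976)))))))
(mv 1231 (cons (fin 1167 5 975)
(mv 1233 (cons (fin 1169 4 976)
(mv 975 (cons (fin 911 7 911)
(mv 909 (cons (mv 908 (cons (fin 974 3 908)
(fin 844 7 844)))
(cons (mv 910 (cons (fin 846 6 845)
(mv 1165 (cons (fin 974 6 909)
(mv 1228 (cons (fin 1164 5 972)
(mv 1229 (cons (fin 1292 5 1036)
(mv 1230 (cons (fin 1294 4 1037)
(fin 1166 4 973)))))))))))
(mv 844 (cons (fin 908 7 844)
(mv 845 (cons (fin 780 7 780)
(mv 846 (cons (fin 910 6 845)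
(fin 782 6 781)))))))))))))))))))))))))))
(mv 1039 (cons (fin 972 3 972)
(mv 1100 (cons (fin 1101 1 1036)
(mv 1104 (cons (fin 1105 0 1037)
(mv 976 (cons (fin 977 2 973)
(mv 912 (cons (mv 1103 (cons (fin 1167 5 911)
(fin 848 5 847)))
(cons (mv 849 (cons (fin 913 6 848)
(mv 848 (cons (fin 785 6 784)
(mv 783 (cons (fin 847 7 783)
(mv 784 (cons (fin 975 5 783)
(fin 719 7 719)))))))))
(mv 1167 (cons (fin 1103 5 911)
(mv 1168 (cons (fin 1231 5 975)
(mv 1232 (cons (fin 975 7 975)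
(mv 1233 (cons (fin 1297 4 1040)
(fin 1169 4 976)))))))))))))))))))))))))
(cons (mv 1039 (cons (cons (mv 1038 (cons (fin 972 3 972)
(mv 1104 (cons (fin 1105 0 1037)
(mv 1103 (cons (fin 1036 0 1036)
(mv 976 (cons (fin 977 2 973)
(mv 1167 (cons (fin 912 5 911)
(fin 1231 6 975)))))))))))
(cons (mv 975 (cons (cons (mv 974 (cons (fin 972 0 972)
(mv 976 (cons (fin 1036 1 972)
(mv 908 (cons (fin 909 3 908)
(mv 912 (cons (fin 913 2 909)
(mv 1103 (cons (fin 848 5 847)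
(fin 1167 6 911)))))))))))
(cons (mv 911 (cons (cons (mv 1104 (cons (fin 847 4 847)
(mv 1168 (cons (fin 1232 7 975)
(fin 976 7 911)))))
(mv 1103 (cons (cons (mv 1168 (cons (fin 1104 4 911)
(mv 1232 (cons (fin 1167 4 975)
(mv 910 (cons (fin 846 7 846)
(mv 912 (cons (fin 848 6 847)
(mv 909 (cons (fin 972 1 908)
(mv 976 (cons (fin 908 0 908)
(fin 977 0 909)))))))))))))
(mv 910 (cons (fin 846 7 846)
(mv 912 (cons (fin 848 6 847)
(mv 1167 (cons (fin 976 6 911)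
(mv 1230 (cons (fin 1166 5 974)
(mv 1294 (cons (fin 1231 5 1038)
(mv 909 (cons (fin 972 1 908)
(mv 844 (cons (fin 845 3 844)
(mv 908 (cons (fin 843 3 843)
(fin 1101 7 844))))))))))))))))))
(cons (mv 1168 (cons (fin 1104 4 911)
(mv 1167 (cons (fin 1232 4 975)
(mv 1230 (cons (fin 1166 5 974)
(mv 1231 (cons (fin 1294 5 1038)
(fin 976 6 975)))))))))
(cons (mv 1168 (cons (fin 1104 4 911)
(mv 1232 (cons (fin 1167 4 975)
(mv 910 (cons (fin 846 7 846)
(mv 912 (cons (fin 848 6 847)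
(mv 909 (cons (fin 972 1 908)
(mv 844 (cons (fin 845 3 844)
(mv 908 (cons (fin 843 3 843)
(fin 1101 7 844)))))))))))))))
(mv 1168 (cons (fin 1104 4 911)
(mv 910 (cons (fin 846 7 846)
(mv 912 (cons (fin 848 6 847)
(mv 909 (cons (fin 972 1 908)
(mv 976 (cons (fin 908 0 908)
(fin 977 0 909))))))))))))))))
(cons (mv 847 (cons (cons (mv 976 (cons (fin 783 4 783)
(mv 846 (cons (fin 782 7 782)
(mv 1103 (cons (fin 910 7 846)
(mv 1167 (cons (fin 1231 6 975)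
(fin 912 6 911)))))))))
(mv 846 (cons (fin 782 7 782)
(mv 1103 (cons (fin 910 7 846)
(mv 848 (cons (fin 912 6 847)
(fin 784 6 783))))))))
(cons (mv 976 (cons (fin 783 4 783)
(mv 848 (cons (fin 784 6 783)
(mv 912 (cons (fin 1103 5 847)
(mv 849 (cons (fin 785 6 784)
(mv 910 (cons (fin 850 1 846)
(fin 909 2 845)))))))))))
(mv 846 (cons (fin 782 7 782)
(mv 783 (cons (fin 976 4 783)
(mv 784 (cons (fin 848 6 783)
(fin 720 6 719))))))))))
(mv 1104 (cons (fin 847 4 847)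
(mv 1168 (cons (fin 1232 7 975)
(fin 1103 4 911))))))))
(mv 1104 (cons (cons (mv 1168 (cons (fin 1232 7 975)
(mv 911 (cons (fin 976 7 911)
(fin 1103 4 911)))))
(mv 911 (cons (fin 847 4 847)
(mv 1103 (cons (cons (mv 910 (cons (fin 846 7 846)
(mv 1167 (cons (fin 974 7 910)
(mv 1231 (cons (fin 1295 6 1039)
(fin 976 6 975)))))))
(mv 912 (cons (fin 848 6 847)
(mv 1167 (cons (fin 976 5 911)
(mv 1230 (cons (fin 1166 5 974)
(mv 1231 (cons (fin 1294 5 1038)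
(fin 1295 6 1039))))))))))
(cons (mv 910 (cons (fin 846 7 846)
(mv 912 (cons (fin 848 6 847)
(mv 974 (cons (fin 913 1 909)
(mv 1165 (cons (fin 1101 6 909)
(mv 976 (cons (fin 1036 1 972)
(mv 977 (cons (fin 909 3 909)
(fin 978 3 910)))))))))))))
(mv 910 (cons (fin 846 7 846)
(mv 1167 (cons (fin 974 7 910)
(mv 1230 (cons (fin 1166 5 974)
(mv 1231 (cons (fin 1294 5 1038)
(fin 1295 6 1039)))))))))))))))
(cons (mv 1168 (cons (fin 1232 7 975)
(mv 976 (cons (cons (mv 1231 (cons (fin 1167 5 975)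
(mv 1233 (cons (fin 1169 4 976)
(mv 1036 (cons (fin 974 1 972)
(mv 913 (cons (fin 977 6 912)
(mv 912 (cons (fin 849 6 848)
(mv 848 (cons (fin 1103 5 847)
(fin 784 5 783)))))))))))))
(cons (mv 1233 (cons (fin 1169 4 976)
(mv 1036 (cons (fin 974 1 972)
(mv 913 (cons (fin 977 6 912)
(mv 912 (cons (fin 849 6 848)
(mv 848 (cons (fin 1103 5 847)
(fin 784 5 783)))))))))))
(mv 1231 (cons (fin 1167 5 975)
(mv 1233 (cons (fin 1169 4 976)
(mv 913 (cons (fin 977 6 912)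
(mv 912 (cons (fin 849 6 848)
(mv 848 (cons (fin 1103 5 847)
(fin 784 5 783)))))))))))))
(cons (mv 1231 (cons (fin 1167 5 975)
(mv 1233 (cons (fin 1169 4 976)
(mv 974 (cons (fin 1036 1 972)
(mv 909 (cons (fin 908 3 908)
(mv 910 (cons (fin 977 3 909)
(mv 1101 (cons (fin 1165 6 909)
(fin 846 6 845)))))))))))))
(cons (mv 1231 (cons (fin 1167 5 975)
(mv 1233 (cons (fin 1169 4 976)
(mv 974 (cons (fin 1036 1 972)
(mv 908 (cons (fin 909 3 908)
(mv 912 (cons (fin 913 2 909)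
(mv 848 (cons (fin 1103 5 847)
(fin 784 5 783)))))))))))))
(mv 1231 (cons (fin 1167 5 975)
(mv 1036 (cons (fin 974 1 972)
(mv 913 (cons (fin 977 6 912)
(mv 912 (cons (fin 849 6 848)
(mv 848 (cons (fin 1103 5 847)
(fin 784 5 783)))))))))))))))))
(cons (mv 1168 (cons (fin 1232 7 975)
(mv 911 (cons (fin 1103 4 911)
(fin 847 4 847)))))
(mv 1168 (cons (fin 1232 7 975)
(mv 911 (cons (fin 976 7 911)
(fin 847 4 847)))))))))))
(cons (cons (mv 974 (cons (fin 972 0 972)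
(mv 910 (cons (cons (mv 1165 (cons (fin 1101 6 909)
(mv 1103 (cons (fin 1167 7 910)
(mv 846 (cons (fin 782 5 781)
(fin 911 7 846)))))))
(mv 1165 (cons (fin 1101 6 909)
(mv 1103 (cons (fin 1167 7 910)
(mv 911 (cons (mv 1104 (cons (fin 1168 4 911)
(fin 847 4 847)))
(mv 912 (cons (fin 913 1 909)
(fin 848 6 847))))))))))
(cons (mv 1101 (cons (fin 1165 6 909)
(mv 846 (cons (fin 782 5 781)
(fin 909 6 845)))))
(mv 1103 (cons (fin 1167 7 910)
(mv 846 (cons (fin 782 5 781)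
(fin 911 7 846))))))))))
(mv 974 (cons (fin 972 0 972)
(mv 976 (cons (fin 1036 1 972)
(mv 908 (cons (fin 909 3 908)
(mv 912 (cons (fin 913 2 909)
(mv 848 (cons (fin 784 5 783)
(mv 847 (cons (fin 783 7 783)
(mv 1104 (cons (fin 911 7 847)
(mv 1168 (cons (fin 1232 7 975)
(mv 1169 (cons (fin 1233 4 976)
(fin 1105 4 912))))))))))))))))))))
(cons (mv 974 (cons (fin 972 0 972)
(mv 976 (cons (fin 1036 1 972)
(mv 909 (cons (fin 908 3 908)
(mv 977 (cons (fin 910 3 909)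
(mv 978 (cons (fin 979 1 975)
(mv 914 (cons (fin 913 2 910)
(fin 915 2 911)))))))))))))
(mv 974 (cons (fin 972 0 972)
(mv 976 (cons (fin 1036 1 972)
(mv 912 (cons (fin 913 2 909)
(mv 1103 (cons (fin 848 5 847)
(fin 1167 6 911)))))))))))))
(mv 1038 (cons (cons (mv 1104 (cons (fin 1105 0 1037)
(mv 1103 (cons (fin 1036 0 1036)
(mv 976 (cons (fin 977 2 973)
(mv 1167 (cons (fin 912 5 911)
(fin 1231 6 975)))))))))
(mv 1104 (cons (fin 1105 0 1037)
(mv 1103 (cons (fin 1036 0 1036)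
(mv 975 (cons (mv 1168 (cons (fin 1232 7 975)
(fin 911 4 911)))
(cons (mv 1168 (cons (fin 1232 7 975)
(mv 1167 (cons (mv 1231 (cons (fin 974 7 974)
(fin 1295 6 1039)))
(cons (mv 1166 (cons (fin 1230 5 974)
(mv 1165 (cons (fin 1164 2 1100)
(mv 1229 (cons (fin 1228 1 1164)
(mv 974 (cons (fin 910 7 910)
(fin 1101 6 973)))))))))
(mv 1230 (cons (fin 1166 5 974)
(mv 1231 (cons (fin 1294 5 1038)
(fin 1295 6 1039))))))))))
(mv 911 (cons (fin 847 4 847)
(mv 910 (cons (fin 846 7 846)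
(mv 1167 (cons (fin 974 7 910)
(mv 1230 (cons (fin 1166 5 974)
(mv 1231 (cons (fin 1294 5 1038)
(fin 1295 6 1039)))))))))))))))))))
(cons (mv 976 (cons (fin 977 2 973)
(mv 975 (cons (fin 1036 2 972)
(mv 912 (cons (mv 1103 (cons (fin 848 5 847)
(fin 1167 6 911)))
(cons (mv 1167 (cons (fin 1103 6 911)
(mv 974 (cons (fin 913 2 909)
(mv 909 (cons (fin 908 3 908)
(mv 845 (cons (fin 781 4 781)
(mv 844 (cons (fin 780 7 780)
(mv 910 (cons (fin 911 3 844)
(mv 1101 (cons (fin 846 5 845)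
(fin 1165 6 909)))))))))))))))
(mv 974 (cons (fin 913 2 909)
(mv 909 (cons (fin 908 3 908)
(mv 845 (cons (fin 781 4 781)
(mv 844 (cons (fin 780 7 780)
(mv 910 (cons (fin 911 3 844)
(mv 1101 (cons (fin 846 5 845)
(fin 1165 6 909))))))))))))))))))))
(cons (mv 1104 (cons (fin 1105 0 1037)
(mv 976 (cons (fin 977 2 973)
(mv 912 (cons (mv 1103 (cons (fin 1167 5 911)
(fin 848 5 847)))
(cons (mv 911 (cons (fin 847 7 847)
(mv 1168 (cons (fin 975 7 911)
(mv 1231 (cons (fin 1167 5 975)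
(mv 1232 (cons (fin 1295 5 1039)
(mv 1233 (cons (fin 1297 4 1040)
(fin 1169 4 976)))))))))))
(mv 1103 (cons (fin 848 5 847)
(mv 911 (cons (fin 847 7 847)
(mv 1168 (cons (fin 975 7 911)
(mv 1232 (cons (fin 1296 7 1039)
(mv 1233 (cons (fin 1297 4 1040)
(fin 1169 4 976))))))))))))))))))
(mv 1104 (cons (fin 1105 0 1037)
(mv 976 (cons (fin 977 2 973)
(mv 975 (cons (fin 1036 2 972)
(mv 1168 (cons (fin 1232 7 975)
(fin 911 7 911)))))))))))))))
(cons (cons (mv 1038 (cons (fin 972 3 972)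
(mv 1104 (cons (fin 1105 0 1037)
(mv 1103 (cons (fin 1036 0 1036)
(mv 975 (cons (mv 1168 (cons (fin 1232 7 975)
(fin 911 4 911)))
(cons (mv 1168 (cons (fin 1232 7 975)
(mv 1167 (cons (mv 1231 (cons (fin 974 7 974)
(fin 1295 6 1039)))
(cons (mv 1166 (cons (fin 1230 5 974)
(mv 1165 (cons (fin 1164 2 1100)
(mv 1229 (cons (fin 1228 1 1164)
(mv 974 (cons (fin 910 7 910)
(fin 1101 6 973)))))))))
(mv 1230 (cons (fin 1166 5 974)
(mv 1231 (cons (fin 1294 5 1038)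
(fin 1295 6 1039))))))))))
(mv 911 (cons (fin 847 4 847)
(mv 910 (cons (fin 846 7 846)
(mv 1167 (cons (fin 974 7 910)
(mv 1230 (cons (fin 1166 5 974)
(mv 1231 (cons (fin 1294 5 1038)
(fin 1295 6 1039))))))))))))))))))))
(mv 1038 (cons (fin 972 3 972)
(mv 976 (cons (fin 977 2 973)
(mv 975 (cons (fin 1036 2 972)
(mv 912 (cons (mv 1103 (cons (fin 848 5 847)
(fin 1167 6 911)))
(cons (mv 1167 (cons (fin 1103 6 911)
(mv 974 (cons (fin 913 2 909)
(mv 909 (cons (fin 908 3 908)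
(mv 845 (cons (fin 781 4 781)
(mv 844 (cons (fin 780 7 780)
(mv 910 (cons (fin 911 3 844)
(mv 1101 (cons (fin 846 5 845)
(fin 1165 6 909)))))))))))))))
(mv 974 (cons (fin 913 2 909)
(mv 909 (cons (fin 908 3 908)
(mv 845 (cons (fin 781 4 781)
(mv 844 (cons (fin 780 7 780)
(mv 910 (cons (fin 911 3 844)
(mv 1101 (cons (fin 846 5 845)
(fin 1165 6 909)))))))))))))))))))))))
(cons (mv 1038 (cons (fin 972 3 972)
(mv 1104 (cons (fin 1105 0 1037)
(mv 976 (cons (fin 977 2 973)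
(mv 912 (cons (mv 1103 (cons (fin 1167 5 911)
(fin 848 5 847)))
(cons (mv 911 (cons (fin 847 7 847)
(mv 1168 (cons (fin 975 7 911)
(mv 1231 (cons (fin 1167 5 975)
(mv 1232 (cons (fin 1295 5 1039)
(mv 1233 (cons (fin 1297 4 1040)
(fin 1169 4 976)))))))))))
(mv 1103 (cons (fin 848 5 847)
(mv 911 (cons (fin 847 7 847)
(mv 1168 (cons (fin 975 7 911)
(mv 1232 (cons (fin 1296 7 1039)
(mv 1233 (cons (fin 1297 4 1040)
(fin 1169 4 976))))))))))))))))))))
(mv 1038 (cons (fin 972 3 972)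
(mv 1104 (cons (fin 1105 0 1037)
(mv 976 (cons (fin 977 2 973)
(mv 975 (cons (fin 1036 2 972)
(mv 1168 (cons (fin 1232 7 975)
(fin 911 7 911)))))))))))))))
(mv 1039 (cons (cons (mv 1038 (cons (fin 972 3 972)
(mv 1100 (cons (fin 1101 1 1036)
(mv 1104 (cons (fin 1105 0 1037)
(mv 1036 (cons (fin 1099 1 1035)
(fin 1103 0 1036)))))))))
(cons (mv 975 (cons (cons (mv 974 (cons (fin 972 0 972)
(mv 976 (cons (fin 1036 1 972)
(mv 908 (cons (fin 909 3 908)
(mv 912 (cons (fin 913 2 909)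
(mv 1103 (cons (fin 848 5 847)
(fin 1167 6 911)))))))))))
(cons (mv 911 (cons (cons (mv 1104 (cons (fin 847 4 847)
(mv 1168 (cons (fin 1232 7 975)
(fin 976 7 911)))))
(mv 1103 (cons (cons (mv 1168 (cons (fin 1104 4 911)
(mv 1232 (cons (fin 1167 4 975)
(mv 910 (cons (fin 846 7 846)
(mv 912 (cons (fin 848 6 847)
(mv 909 (cons (fin 972 1 908)
(mv 976 (cons (fin 908 0 908)
(fin 977 0 909)))))))))))))
(mv 910 (cons (fin 846 7 846)
(mv 912 (cons (fin 848 6 847)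
(mv 1167 (cons (fin 976 6 911)
(mv 1230 (cons (fin 1166 5 974)
(mv 1294 (cons (fin 1231 5 1038)
(mv 909 (cons (fin 972 1 908)
(mv 844 (cons (fin 845 3 844)
(mv 908 (cons (fin 843 3 843)
(fin 1101 7 844))))))))))))))))))
(cons (mv 1168 (cons (fin 1104 4 911)
(mv 1167 (cons (fin 1232 4 975)
(mv 1230 (cons (fin 1166 5 974)
(mv 1231 (cons (fin 1294 5 1038)
(fin 976 6 975)))))))))
(cons (mv 1168 (cons (fin 1104 4 911)
(mv 1232 (cons (fin 1167 4 975)
(mv 910 (cons (fin 846 7 846)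
(mv 912 (cons (fin 848 6 847)
(mv 909 (cons (fin 972 1 908)
(mv 844 (cons (fin 845 3 844)
(mv 908 (cons (fin 843 3 843)
(fin 1101 7 844)))))))))))))))
(mv 1168 (cons (fin 1104 4 911)
(mv 910 (cons (fin 846 7 846)
(mv 912 (cons (fin 848 6 847)
(mv 909 (cons (fin 972 1 908)
(mv 976 (cons (fin 908 0 908)
(fin 977 0 909))))))))))))))))
(cons (mv 847 (cons (cons (mv 976 (cons (fin 783 4 783)
(mv 846 (cons (fin 782 7 782)
(mv 1103 (cons (fin 910 7 846)
(mv 1167 (cons (fin 1231 6 975)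
(fin 912 6 911)))))))))
(mv 846 (cons (fin 782 7 782)
(mv 1103 (cons (fin 910 7 846)
(mv 848 (cons (fin 912 6 847)
(fin 784 6 783))))))))
(cons (mv 976 (cons (fin 783 4 783)
(mv 848 (cons (fin 784 6 783)
(mv 912 (cons (fin 1103 5 847)
(mv 849 (cons (fin 785 6 784)
(mv 910 (cons (fin 850 1 846)
(fin 909 2 845)))))))))))
(mv 846 (cons (fin 782 7 782)
(mv 783 (cons (fin 976 4 783)
(mv 784 (cons (fin 848 6 783)
(fin 720 6 719))))))))))
(mv 1104 (cons (fin 847 4 847)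
(mv 1168 (cons (fin 1232 7 975)
(fin 1103 4 911))))))))
(mv 1104 (cons (cons (mv 1168 (cons (fin 1232 7 975)
(mv 911 (cons (fin 976 7 911)
(fin 1103 4 911)))))
(mv 911 (cons (fin 847 4 847)
(mv 1103 (cons (cons (mv 910 (cons (fin 846 7 846)
(mv 1167 (cons (fin 974 7 910)
(mv 1231 (cons (fin 1295 6 1039)
(fin 976 6 975)))))))
(mv 912 (cons (fin 848 6 847)
(mv 1167 (cons (fin 976 5 911)
(mv 1230 (cons (fin 1166 5 974)
(mv 1231 (cons (fin 1294 5 1038)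
(fin 1295 6 1039))))))))))
(cons (mv 910 (cons (fin 846 7 846)
(mv 912 (cons (fin 848 6 847)
(mv 974 (cons (fin 913 1 909)
(mv 976 (cons (fin 1036 1 972)
(mv 977 (cons (fin 909 3 909)
(fin 978 3 910)))))))))))
(mv 910 (cons (fin 846 7 846)
(mv 1167 (cons (fin 974 7 910)
(mv 1230 (cons (fin 1166 5 974)
(mv 1231 (cons (fin 1294 5 1038)
(fin 1295 6 1039)))))))))))))))
(cons (mv 1168 (cons (fin 1232 7 975)
(mv 976 (cons (cons (mv 1231 (cons (fin 1167 5 975)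
(mv 1233 (cons (fin 1169 4 976)
(mv 1036 (cons (fin 974 1 972)
(mv 913 (cons (fin 977 6 912)
(mv 912 (cons (fin 849 6 848)
(mv 848 (cons (fin 1103 5 847)
(fin 784 5 783)))))))))))))
(cons (mv 1233 (cons (fin 1169 4 976)
(mv 1036 (cons (fin 974 1 972)
(mv 913 (cons (fin 977 6 912)
(mv 912 (cons (fin 849 6 848)
(mv 848 (cons (fin 1103 5 847)
(fin 784 5 783)))))))))))
(mv 1231 (cons (fin 1167 5 975)
(mv 1233 (cons (fin 1169 4 976)
(mv 913 (cons (fin 977 6 912)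
(mv 912 (cons (fin 849 6 848)
(mv 848 (cons (fin 1103 5 847)
(fin 784 5 783)))))))))))))
(cons (mv 1231 (cons (fin 1167 5 975)
(mv 1233 (cons (fin 1169 4 976)
(mv 974 (cons (fin 1036 1 972)
(mv 909 (cons (fin 908 3 908)
(mv 910 (cons (fin 977 3 909)
(mv 846 (cons (fin 782 5 781)
(fin 1101 6 845)))))))))))))
(cons (mv 1231 (cons (fin 1167 5 975)
(mv 1233 (cons (fin 1169 4 976)
(mv 974 (cons (fin 1036 1 972)
(mv 908 (cons (fin 909 3 908)
(mv 912 (cons (fin 913 2 909)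
(mv 848 (cons (fin 1103 5 847)
(fin 784 5 783)))))))))))))
(mv 1231 (cons (fin 1167 5 975)
(mv 1036 (cons (fin 974 1 972)
(mv 913 (cons (fin 977 6 912)
(mv 912 (cons (fin 849 6 848)
(mv 848 (cons (fin 1103 5 847)
(fin 784 5 783)))))))))))))))))
(cons (mv 1168 (cons (fin 1232 7 975)
(mv 911 (cons (fin 1103 4 911)
(fin 847 4 847)))))
(mv 1168 (cons (fin 1232 7 975)
(mv 911 (cons (fin 976 7 911)
(fin 847 4 847)))))))))))
(cons (cons (mv 974 (cons (fin 972 0 972)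
(mv 911 (cons (mv 1104 (cons (fin 847 4 847)
(mv 1168 (cons (fin 1232 7 975)
(fin 1103 4 911)))))
(cons (mv 910 (cons (mv 1103 (cons (fin 1167 7 910)
(fin 846 7 846)))
(cons (mv 1103 (cons (fin 1167 7 910)
(mv 912 (cons (fin 913 1 909)
(fin 848 6 847)))))
(mv 912 (cons (fin 913 1 909)
(mv 846 (cons (fin 782 5 781)
(mv 909 (cons (fin 1101 6 845)
(mv 908 (cons (fin 907 0 907)
(mv 844 (cons (fin 843 3 843)
(fin 845 3 844))))))))))))))
(mv 847 (cons (fin 1104 4 847)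
(mv 846 (cons (fin 782 7 782)
(mv 784 (cons (fin 848 6 783)
(mv 783 (cons (fin 720 6 719)
(mv 910 (cons (fin 719 5 718)
(mv 909 (cons (fin 1101 6 845)
(mv 908 (cons (fin 907 0 907)
(mv 844 (cons (fin 843 3 843)
(fin 845 2 780))))))))))))))))))))))
(mv 974 (cons (fin 972 0 972)
(mv 976 (cons (fin 1036 1 972)
(mv 908 (cons (fin 909 3 908)
(mv 912 (cons (fin 913 2 909)
(mv 848 (cons (fin 784 5 783)
(mv 847 (cons (fin 783 7 783)
(mv 1104 (cons (fin 911 7 847)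
(mv 1168 (cons (fin 1232 7 975)
(mv 1169 (cons (fin 1233 4 976)
(fin 1105 4 912))))))))))))))))))))
(cons (mv 974 (cons (fin 972 0 972)
(mv 976 (cons (fin 1036 1 972)
(mv 912 (cons (fin 913 2 909)
(mv 1103 (cons (fin 848 5 847)
(fin 1167 6 911)))))))))
(mv 974 (cons (fin 972 0 972)
(mv 976 (cons (fin 1036 1 972)
(mv 909 (cons (fin 908 3 908)
(mv 977 (cons (fin 910 3 909)
(mv 978 (cons (fin 979 1 975)
(mv 914 (cons (fin 913 2 910)
(fin 915 2 911)))))))))))))))))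
(mv 1038 (cons (cons (mv 1100 (cons (fin 1101 1 1036)
(mv 1104 (cons (fin 1105 0 1037)
(mv 1036 (cons (fin 1099 1 1035)
(fin 1103 0 1036)))))))
(mv 1100 (cons (fin 1101 1 1036)
(mv 1036 (cons (fin 1099 1 1035)
(mv 976 (cons (fin 975 2 972)
(fin 977 2 973))))))))
(cons (mv 1104 (cons (fin 1105 0 1037)
(mv 1103 (cons (fin 1036 0 1036)
(mv 976 (cons (fin 977 2 973)
(mv 1167 (cons (fin 912 5 911)
(fin 1231 6 975)))))))))
(mv 1100 (cons (fin 1101 1 1036)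
(mv 1104 (cons (fin 1105 0 1037)
(mv 976 (cons (fin 977 2 973)
(mv 912 (cons (mv 1103 (cons (fin 1167 5 911)
(fin 848 5 847)))
(cons (mv 911 (cons (fin 847 7 847)
(mv 1168 (cons (fin 975 7 911)
(mv 1231 (cons (fin 1167 5 975)
(mv 1232 (cons (fin 1295 5 1039)
(mv 1233 (cons (fin 1297 4 1040)
(fin 1169 4 976)))))))))))
(mv 1103 (cons (fin 848 5 847)
(mv 911 (cons (fin 847 7 847)
(mv 1168 (cons (fin 975 7 911)
(mv 1232 (cons (fin 1296 7 1039)
(mv 1233 (cons (fin 1297 4 1040)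
(fin 1169 4 976)))))))))))))))))))))))))
(cons (mv 1038 (cons (fin 972 3 972)
(mv 1100 (cons (fin 1101 1 1036)
(mv 1036 (cons (fin 1099 1 1035)
(mv 976 (cons (fin 975 2 972)
(fin 977 2 973)))))))))
(cons (mv 1038 (cons (fin 972 3 972)
(mv 1104 (cons (fin 1105 0 1037)
(mv 1103 (cons (fin 1036 0 1036)
(mv 976 (cons (fin 977 2 973)
(mv 1167 (cons (fin 912 5 911)
(fin 1231 6 975)))))))))))
(mv 1038 (cons (fin 972 3 972)
(mv 1100 (cons (fin 1101 1 1036)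
(mv 1104 (cons (fin 1105 0 1037)
(mv 976 (cons (fin 977 2 973)
(mv 912 (cons (mv 1103 (cons (fin 1167 5 911)
(fin 848 5 847)))
(cons (mv 911 (cons (fin 847 7 847)
(mv 1168 (cons (fin 975 7 911)
(mv 1231 (cons (fin 1167 5 975)
(mv 1232 (cons (fin 1295 5 1039)
(mv 1233 (cons (fin 1297 4 1040)
(fin 1169 4 976)))))))))))
(mv 1103 (cons (fin 848 5 847)
(mv 911 (cons (fin 847 7 847)
(mv 1168 (cons (fin 975 7 911)
(mv 1232 (cons (fin 1296 7 1039)
(mv 1233 (cons (fin 1297 4 1040)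
(fin 1169 4 976))))))))))))))))))))))))))))))
(cons (cons (cons (mv 1101 (cons (cons (cons (mv 1165 (cons (cons (mv 1228 (cons (fin 1164 5 972)
(mv 1229 (cons (fin 1292 5 1036)
(mv 1230 (cons (fin 1294 4 1037)
(fin 1166 4 973)))))))
(mv 1230 (cons (fin 1166 4 973)
(mv 1229 (cons (fin 1294 4 1037)
(mv 974 (cons (fin 1038 6 973)
(fin 910 6 909))))))))
(cons (mv 1228 (cons (fin 1164 5 972)
(mv 1229 (cons (fin 1292 5 1036)
(mv 974 (cons (fin 1038 6 973)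
(fin 910 6 909)))))))
(mv 1230 (cons (fin 1166 4 973)
(mv 1164 (cons (fin 1228 5 972)
(mv 1100 (cons (fin 909 5 908)
(mv 1039 (cons (fin 1038 1 1036)
(mv 974 (cons (fin 910 6 909)
(mv 975 (cons (fin 972 0 972)
(mv 976 (cons (fin 1036 1 972)
(mv 912 (cons (fin 913 2 909)
(mv 1103 (cons (fin 848 5 847)
(fin 1167 6 911))))))))))))))))))))))
(mv 909 (cons (cons (mv 1164 (cons (fin 1100 5 908)
(mv 846 (cons (fin 910 6 845)
(mv 845 (cons (fin 782 6 781)
(mv 780 (cons (fin 844 7 780)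
(mv 781 (cons (fin 716 7 716)
(mv 1038 (cons (fin 974 4 781)
(mv 972 (cons (fin 1039 3 972)
(fin 1036 5 780)))))))))))))))
(cons (mv 846 (cons (fin 910 6 845)
(mv 845 (cons (fin 782 6 781)
(mv 780 (cons (fin 844 7 780)
(mv 781 (cons (fin 716 7 716)
(mv 1038 (cons (fin 974 4 781)
(mv 972 (cons (fin 1039 3 972)
(fin 1036 5 780)))))))))))))
(mv 1100 (cons (fin 1164 5 908)
(mv 1038 (cons (fin 1039 1 1036)
(mv 1098 (cons (fin 1099 2 1034)
(mv 845 (cons (fin 1036 5 844)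
(mv 780 (cons (fin 844 7 780)
(mv 781 (cons (fin 716 7 716)
(fin 974 4 781)))))))))))))))
(cons (cons (mv 1100 (cons (fin 1164 5 908)
(mv 1039 (cons (fin 1038 1 1036)
(mv 910 (cons (fin 846 6 845)
(mv 911 (cons (cons (mv 972 (cons (fin 912 1 908)
(mv 971 (cons (fin 970 2 906)
(fin 974 2 907)))))
(mv 975 (cons (mv 1104 (cons (fin 847 4 847)
(mv 1168 (cons (fin 1232 7 975)
(fin 976 7 911)))))
(cons (mv 974 (cons (fin 972 0 972)
(mv 976 (cons (fin 1036 1 972)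
(fin 977 3 909)))))
(mv 1104 (cons (fin 847 4 847)
(mv 1168 (cons (fin 1232 7 975)
(fin 1103 4 911)))))))))
(cons (mv 912 (cons (cons (mv 974 (cons (fin 913 1 909)
(mv 976 (cons (fin 977 0 909)
(mv 848 (cons (fin 849 2 845)
(fin 1103 5 847)))))))
(mv 974 (cons (fin 913 1 909)
(mv 848 (cons (fin 849 2 845)
(mv 975 (cons (fin 1103 6 847)
(mv 847 (cons (fin 1104 4 847)
(fin 784 6 783))))))))))
(cons (mv 974 (cons (fin 913 1 909)
(mv 976 (cons (fin 977 0 909)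
(mv 1104 (cons (fin 847 7 847)
(mv 975 (cons (fin 1036 1 972)
(fin 1168 7 911)))))))))
(mv 976 (cons (fin 977 0 909)
(mv 848 (cons (fin 849 2 845)
(fin 1103 5 847))))))))
(mv 912 (cons (fin 972 1 908)
(mv 976 (cons (fin 977 0 909)
(mv 848 (cons (fin 849 2 845)
(fin 1103 5 847))))))))))))))))
(mv 1100 (cons (fin 1164 5 908)
(mv 910 (cons (fin 846 6 845)
(mv 845 (cons (fin 1036 5 844)
(mv 780 (cons (fin 844 7 780)
(mv 781 (cons (fin 716 7 716)
(mv 717 (cons (fin 974 4 717)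
(mv 718 (cons (fin 782 6 717)
(fin 654 6 653))))))))))))))))
(cons (mv 1164 (cons (fin 1100 5 908)
(mv 846 (cons (fin 910 6 845)
(mv 845 (cons (fin 782 6 781)
(mv 780 (cons (fin 844 7 780)
(mv 781 (cons (fin 716 7 716)
(mv 1038 (cons (fin 974 4 781)
(mv 1039 (cons (fin 972 3 972)
(mv 1104 (cons (fin 1105 0 1037)
(mv 976 (cons (fin 977 2 973)
(mv 847 (cons (fin 848 3 780)
(mv 911 (cons (fin 912 7 847)
(fin 975 4 847)))))))))))))))))))))))
(mv 1100 (cons (fin 1164 5 908)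
(mv 1038 (cons (fin 1039 1 1036)
(mv 1098 (cons (fin 1099 2 1034)
(mv 845 (cons (fin 1036 5 844)
(mv 846 (cons (fin 910 6 845)
(fin 782 6 781))))))))))))))))
(cons (mv 1165 (cons (cons (mv 1228 (cons (fin 1164 5 972)
(mv 1229 (cons (fin 1292 5 1036)
(mv 1230 (cons (fin 1294 4 1037)
(fin 1166 4 973)))))))
(mv 1230 (cons (fin 1166 4 973)
(mv 1229 (cons (fin 1294 4 1037)
(mv 1292 (cons (fin 1228 5 1036)
(mv 1293 (cons (fin 1356 5 1100)
(mv 1036 (cons (fin 1100 7 1036)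
(fin 972 7 972))))))))))))
(cons (mv 1230 (cons (fin 1166 4 973)
(mv 1229 (cons (fin 1294 4 1037)
(mv 1036 (cons (fin 972 7 972)
(mv 1100 (cons (fin 1293 7 1036)
(mv 909 (cons (fin 1164 5 908)
(fin 845 5 844)))))))))))
(cons (mv 1228 (cons (fin 1164 5 972)
(mv 1229 (cons (fin 1292 5 1036)
(mv 1036 (cons (fin 972 7 972)
(mv 1100 (cons (fin 1293 7 1036)
(mv 909 (cons (fin 845 5 844)
(mv 910 (cons (fin 974 6 909)
(fin 846 6 845)))))))))))))
(mv 1230 (cons (fin 1166 4 973)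
(mv 1164 (cons (fin 1228 5 972)
(mv 909 (cons (fin 1100 5 908)
(mv 910 (cons (fin 974 6 909)
(fin 846 6 845)))))))))))))
(mv 1165 (cons (cons (mv 1228 (cons (fin 1164 5 972)
(mv 1229 (cons (fin 1292 5 1036)
(mv 1230 (cons (fin 1294 4 1037)
(fin 1166 4 973)))))))
(mv 1230 (cons (fin 1166 4 973)
(mv 1229 (cons (fin 1294 4 1037)
(mv 974 (cons (fin 1038 6 973)
(fin 910 6 909))))))))
(cons (mv 1228 (cons (fin 1164 5 972)
(mv 1229 (cons (fin 1292 5 1036)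
(mv 974 (cons (fin 1038 6 973)
(fin 910 6 909)))))))
(mv 1228 (cons (fin 1164 5 972)
(mv 1230 (cons (fin 1166 4 973)
(mv 974 (cons (fin 910 6 909)
(mv 975 (cons (cons (mv 1036 (cons (fin 976 1 972)
(mv 1035 (cons (fin 972 1 971)
(fin 1034 2 970)))))
(mv 1036 (cons (fin 976 1 972)
(mv 1035 (cons (fin 1034 2 970)
(fin 1038 2 971))))))
(cons (mv 1039 (cons (fin 972 0 972)
(mv 976 (cons (mv 1038 (cons (fin 977 1 973)
(mv 1104 (cons (fin 1105 0 1037)
(mv 1168 (cons (fin 1232 7 975)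
(fin 911 7 911)))))))
(mv 912 (cons (fin 913 2 909)
(mv 1103 (cons (fin 848 5 847)
(fin 1167 6 911)))))))))
(mv 972 (cons (fin 1039 0 972)
(mv 1035 (cons (fin 1036 1 971)
(mv 971 (cons (fin 1034 1 970)
(mv 970 (cons (fin 1038 0 970)
(mv 906 (cons (fin 905 3 905)
(fin 907 3 906)))))))))))))))))))))))))
(cons (cons (mv 1038 (cons (mv 1039 (cons (fin 1100 1 1036)
(fin 972 3 972)))
(cons (mv 1165 (cons (mv 1228 (cons (fin 1164 5 972)
(mv 1229 (cons (fin 1292 5 1036)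
(fin 974 6 973)))))
(cons (mv 1164 (cons (fin 1228 5 972)
(mv 1166 (cons (fin 1230 4 973)
(mv 1100 (cons (fin 909 5 908)
(mv 1167 (cons (fin 1099 3 1099)
(fin 1168 3 1100)))))))))
(mv 1229 (cons (fin 974 6 973)
(mv 1230 (cons (fin 1294 4 1037)
(fin 1166 4 973))))))))
(mv 1039 (cons (fin 972 3 972)
(mv 1104 (cons (fin 1105 0 1037)
(mv 1103 (cons (fin 1036 0 1036)
(mv 976 (cons (fin 977 2 973)
(mv 1167 (cons (fin 912 5 911)
(fin 1231 6 975))))))))))))))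
(mv 1165 (cons (cons (mv 1230 (cons (fin 1166 4 973)
(mv 1229 (cons (fin 1294 4 1037)
(mv 974 (cons (fin 1038 6 973)
(fin 910 6 909)))))))
(mv 1230 (cons (fin 1166 4 973)
(mv 1229 (cons (fin 1294 4 1037)
(mv 1292 (cons (fin 1228 5 1036)
(mv 1293 (cons (fin 1356 5 1100)
(mv 1036 (cons (fin 1100 7 1036)
(fin 972 7 972))))))))))))
(cons (mv 974 (cons (fin 910 6 909)
(mv 1229 (cons (fin 1038 6 973)
(mv 1292 (cons (fin 1228 5 1036)
(mv 1293 (cons (fin 1356 5 1100)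
(mv 1036 (cons (fin 1100 7 1036)
(fin 972 7 972)))))))))))
(mv 1230 (cons (fin 1166 4 973)
(mv 974 (cons (fin 910 6 909)
(mv 1039 (cons (mv 1038 (cons (fin 1100 1 1036)
(fin 972 3 972)))
(cons (mv 975 (cons (fin 972 0 972)
(mv 976 (cons (fin 1036 1 972)
(mv 912 (cons (fin 913 2 909)
(mv 1103 (cons (fin 848 5 847)
(fin 1167 6 911)))))))))
(mv 1038 (cons (fin 1100 1 1036)
(mv 1104 (cons (fin 1105 0 1037)
(mv 1103 (cons (fin 1036 0 1036)
(mv 1231 (cons (fin 1167 7 974)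
(mv 976 (cons (fin 977 2 973)
(mv 912 (cons (fin 848 5 847)
(mv 913 (cons (fin 975 2 909)
(fin 849 6 848))))))))))))))))))))))))))
(cons (mv 1165 (cons (cons (mv 1228 (cons (fin 1164 5 972)
(mv 1229 (cons (fin 1292 5 1036)
(mv 1230 (cons (fin 1294 4 1037)
(fin 1166 4 973)))))))
(mv 1230 (cons (fin 1166 4 973)
(mv 1229 (cons (fin 1294 4 1037)
(mv 1292 (cons (fin 1228 5 1036)
(mv 1293 (cons (fin 1356 5 1100)
(mv 1036 (cons (fin 1100 7 1036)
(fin 972 7 972))))))))))))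
(cons (mv 1230 (cons (fin 1166 4 973)
(mv 1229 (cons (fin 1294 4 1037)
(mv 1036 (cons (fin 972 7 972)
(mv 1100 (cons (fin 1293 7 1036)
(mv 909 (cons (fin 1164 5 908)
(fin 845 5 844)))))))))))
(cons (mv 1164 (cons (fin 1228 5 972)
(mv 1100 (cons (fin 909 5 908)
(mv 1038 (cons (fin 1039 1 1036)
(mv 1163 (cons (cons (mv 1161 (cons (fin 1162 2 1097)
(mv 1099 (cons (fin 1098 2 1034)
(mv 1166 (cons (fin 1167 3 1099)
(mv 1227 (cons (fin 1226 1 1162)
(mv 1291 (cons (fin 1355 6 1099)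
(fin 1036 6 1035)))))))))))
(mv 1162 (cons (fin 1161 2 1097)
(mv 1226 (cons (fin 1225 1 1161)
(mv 1227 (cons (fin 1166 1 1162)
(mv 1355 (cons (fin 1291 6 1099)
(mv 1098 (cons (fin 1097 3 1097)
(mv 1034 (cons (fin 970 4 970)
(mv 1033 (cons (fin 969 7 969)
(mv 1035 (cons (fin 1036 0 1033)
(fin 971 6 970))))))))))))))))))
(cons (mv 1162 (cons (fin 1161 2 1097)
(mv 1226 (cons (fin 1225 1 1161)
(mv 1227 (cons (fin 1166 1 1162)
(mv 1291 (cons (fin 1355 6 1099)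
(mv 1036 (cons (fin 972 5 971)
(fin 1099 6 1035)))))))))))
(cons (mv 1099 (cons (fin 1098 2 1034)
(mv 1166 (cons (fin 1167 3 1099)
(mv 1227 (cons (fin 1226 1 1162)
(mv 1291 (cons (fin 1355 6 1099)
(fin 1036 6 1035)))))))))
(mv 1162 (cons (fin 1161 2 1097)
(mv 1098 (cons (fin 1097 3 1097)
(fin 1099 2 1034)))))))))))))))
(mv 1228 (cons (fin 1164 5 972)
(mv 1229 (cons (fin 1292 5 1036)
(mv 1294 (cons (fin 1230 4 1037)
(mv 1293 (cons (fin 1358 4 1101)
(mv 1036 (cons (fin 1100 7 1036)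
(fin 972 7 972)))))))))))))))
(mv 1165 (cons (cons (mv 1228 (cons (fin 1164 5 972)
(mv 1229 (cons (fin 1292 5 1036)
(mv 1230 (cons (fin 1294 4 1037)
(fin 1166 4 973)))))))
(mv 1230 (cons (fin 1166 4 973)
(mv 1229 (cons (fin 1294 4 1037)
(mv 974 (cons (fin 1038 6 973)
(fin 910 6 909))))))))
(cons (mv 1228 (cons (fin 1164 5 972)
(mv 1229 (cons (fin 1292 5 1036)
(mv 974 (cons (fin 1038 6 973)
(fin 910 6 909)))))))
(mv 1230 (cons (fin 1166 4 973)
(mv 1164 (cons (fin 1228 5 972)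
(mv 909 (cons (fin 1100 5 908)
(mv 910 (cons (fin 974 6 909)
(fin 846 6 845))))))))))))))))
(mv 972 (cons (cons (cons (mv 1038 (cons (fin 1039 3 972)
(mv 970 (cons (fin 971 0 970)
(mv 1101 (cons (cons (mv 1165 (cons (fin 908 7 908)
(mv 1229 (cons (fin 1036 7 972)
(fin 974 6 973)))))
(mv 909 (cons (cons (mv 1164 (cons (fin 1100 5 908)
(mv 844 (cons (fin 908 7 844)
(mv 845 (cons (fin 780 7 780)
(mv 781 (cons (fin 1036 5 780)
(fin 974 4 781)))))))))
(cons (mv 844 (cons (fin 908 7 844)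
(mv 845 (cons (fin 780 7 780)
(mv 781 (cons (fin 1036 5 780)
(fin 974 4 781)))))))
(mv 1100 (cons (fin 1164 5 908)
(mv 1098 (cons (fin 1099 2 1034)
(mv 845 (cons (fin 1036 5 844)
(mv 846 (cons (fin 782 6 781)
(mv 781 (cons (fin 974 4 781)
(mv 716 (cons (fin 780 7 716)
(mv 717 (cons (fin 908 5 716)
(fin 652 7 652)))))))))))))))))
(cons (cons (mv 1100 (cons (fin 1164 5 908)
(mv 1098 (cons (fin 1099 2 1034)
(mv 845 (cons (fin 1036 5 844)
(mv 844 (cons (fin 780 7 780)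
(mv 781 (cons (fin 974 4 781)
(mv 782 (cons (fin 846 6 781)
(fin 718 6 717)))))))))))))
(mv 1100 (cons (fin 1164 5 908)
(mv 1099 (cons (fin 1098 2 1034)
(mv 908 (cons (fin 844 7 844)
(mv 1036 (cons (fin 1163 5 907)
(mv 907 (cons (fin 843 7 843)
(mv 974 (cons (fin 975 3 907)
(fin 906 0 906))))))))))))))
(cons (mv 1164 (cons (fin 1100 5 908)
(mv 844 (cons (fin 908 7 844)
(mv 845 (cons (fin 780 7 780)
(mv 781 (cons (fin 974 4 781)
(mv 782 (cons (fin 846 6 781)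
(fin 718 6 717)))))))))))
(mv 1164 (cons (fin 1100 5 908)
(mv 844 (cons (fin 908 7 844)
(mv 845 (cons (fin 780 7 780)
(mv 781 (cons (fin 1036 5 780)
(mv 782 (cons (fin 846 6 781)
(fin 718 6 717))))))))))))))))
(cons (mv 1165 (cons (mv 1229 (cons (fin 1036 7 972)
(fin 974 6 973)))
(mv 1164 (cons (fin 1228 5 972)
(mv 1166 (cons (fin 1230 4 973)
(mv 1100 (cons (fin 909 5 908)
(mv 1167 (cons (fin 1099 3 1099)
(fin 1168 3 1100)))))))))))
(cons (mv 1165 (cons (fin 908 7 908)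
(mv 1228 (cons (fin 1164 5 972)
(mv 1229 (cons (fin 1292 5 1036)
(fin 974 6 973)))))))
(mv 1165 (cons (fin 908 7 908)
(mv 1228 (cons (fin 1164 5 972)
(mv 1229 (cons (fin 1292 5 1036)
(fin 1036 7 972)))))))))))))))
(cons (mv 908 (cons (cons (mv 1101 (cons (fin 1165 7 908)
(mv 844 (cons (fin 909 7 844)
(fin 1036 4 844)))))
(mv 1165 (cons (fin 1101 7 908)
(mv 974 (cons (mv 975 (cons (fin 907 3 907)
(fin 1039 0 972)))
(cons (mv 971 (cons (cons (mv 1034 (cons (fin 1035 1 970)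
(mv 970 (cons (fin 1033 1 969)
(mv 969 (cons (fin 1036 0 969)
(fin 909 2 905)))))))
(mv 906 (cons (fin 907 3 906)
(mv 970 (cons (fin 905 3 905)
(mv 969 (cons (fin 1036 0 969)
(fin 909 2 905))))))))
(cons (mv 1035 (cons (fin 1034 1 970)
(mv 1099 (cons (fin 1163 6 907)
(mv 907 (cons (fin 906 3 906)
(mv 1162 (cons (fin 1098 5 906)
(mv 1100 (cons (fin 1164 4 907)
(mv 843 (cons (fin 1036 7 843)
(mv 778 (cons (fin 842 7 778)
(mv 779 (cons (fin 714 7 714)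
(fin 715 4 715)))))))))))))))))
(mv 1034 (cons (fin 1035 1 970)
(mv 970 (cons (fin 1033 1 969)
(mv 906 (cons (fin 905 3 905)
(fin 907 3 906))))))))))
(mv 975 (cons (fin 1039 0 972)
(mv 1036 (cons (fin 1035 1 971)
(fin 976 1 972)))))))))))
(cons (mv 844 (cons (fin 780 4 780)
(mv 1036 (cons (mv 1099 (cons (fin 1035 5 843)
(mv 1100 (cons (fin 1163 5 907)
(mv 1164 (cons (fin 1228 6 972)
(fin 909 6 908)))))))
(cons (mv 843 (cons (fin 779 7 779)
(mv 1100 (cons (fin 907 7 843)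
(mv 1164 (cons (fin 1228 6 972)
(fin 909 6 908)))))))
(mv 1035 (cons (fin 1099 5 843)
(mv 1034 (cons (fin 1033 2 969)
(fin 974 2 970))))))))))
(cons (mv 1101 (cons (fin 1165 7 908)
(mv 844 (cons (fin 909 7 844)
(fin 780 4 780)))))
(mv 1101 (cons (fin 1165 7 908)
(mv 844 (cons (fin 1036 4 844)
(fin 780 4 780)))))))))
(mv 908 (cons (cons (mv 1101 (cons (fin 1165 7 908)
(mv 844 (cons (fin 909 7 844)
(fin 1036 4 844)))))
(mv 1165 (cons (fin 1101 7 908)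
(mv 907 (cons (cons (mv 974 (cons (fin 975 3 907)
(mv 906 (cons (fin 971 3 906)
(fin 905 0 905)))))
(mv 974 (cons (fin 975 3 907)
(mv 971 (cons (mv 1034 (cons (fin 1035 1 970)
(mv 970 (cons (fin 1033 1 969)
(fin 1038 0 970)))))
(cons (mv 1035 (cons (fin 1034 1 970)
(mv 1099 (cons (fin 1163 6 907)
(mv 1162 (cons (fin 1098 5 906)
(mv 1100 (cons (fin 1164 4 907)
(mv 843 (cons (fin 1036 7 843)
(mv 778 (cons (fin 842 7 778)
(mv 779 (cons (fin 714 7 714)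
(fin 715 4 715)))))))))))))))
(mv 970 (cons (fin 1038 0 970)
(mv 969 (cons (fin 1036 0 969)
(fin 968 2 904)))))))))))
(cons (mv 906 (cons (fin 905 0 905)
(mv 909 (cons (cons (mv 969 (cons (fin 970 1 905)
(mv 841 (cons (fin 842 3 841)
(mv 845 (cons (fin 846 2 842)
(mv 1036 (cons (fin 1100 5 844)
(fin 781 5 780)))))))))
(mv 970 (cons (fin 969 1 905)
(mv 971 (cons (fin 1038 0 970)
(mv 1033 (cons (fin 1034 1 969)
(mv 842 (cons (fin 841 3 841)
(mv 1035 (cons (fin 1099 7 842)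
(fin 778 4 778))))))))))))
(cons (mv 841 (cons (fin 842 3 841)
(mv 845 (cons (fin 846 2 842)
(mv 1036 (cons (fin 1100 5 844)
(fin 781 5 780)))))))
(mv 969 (cons (fin 970 1 905)
(mv 845 (cons (fin 846 2 842)
(mv 1036 (cons (fin 1100 5 844)
(fin 781 5 780))))))))))))
(mv 974 (cons (fin 975 3 907)
(mv 906 (cons (fin 905 0 905)
(fin 909 0 906)))))))))))
(cons (mv 844 (cons (fin 780 4 780)
(mv 1036 (cons (mv 1099 (cons (fin 1035 5 843)
(mv 1100 (cons (fin 1163 5 907)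
(mv 1164 (cons (fin 1228 6 972)
(fin 909 6 908)))))))
(cons (mv 843 (cons (fin 779 7 779)
(mv 1100 (cons (fin 907 7 843)
(mv 1164 (cons (fin 1228 6 972)
(fin 909 6 908)))))))
(mv 1035 (cons (fin 1099 5 843)
(mv 1034 (cons (fin 1033 2 969)
(fin 974 2 970))))))))))
(cons (mv 1101 (cons (fin 1165 7 908)
(mv 844 (cons (fin 909 7 844)
(fin 780 4 780)))))
(mv 1101 (cons (fin 1165 7 908)
(mv 844 (cons (fin 1036 4 844)
(fin 780 4 780)))))))))))
(cons (mv 1038 (cons (fin 1039 3 972)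
(mv 971 (cons (fin 970 0 970)
(mv 1035 (cons (cons (mv 1034 (cons (fin 974 1 970)
(mv 1033 (cons (fin 1032 2 968)
(fin 1036 2 969)))))
(mv 1099 (cons (cons (mv 1098 (cons (fin 1036 1 1034)
(mv 1162 (cons (fin 907 5 906)
(mv 1226 (cons (fin 1163 5 970)
(fin 1290 6 1034)))))))
(cons (mv 1100 (cons (mv 1164 (cons (fin 907 4 907)
(mv 1228 (cons (fin 1292 7 1035)
(fin 1163 4 971)))))
(cons (mv 1098 (cons (fin 1101 2 1034)
(mv 1162 (cons (fin 907 5 906)
(mv 1226 (cons (fin 1163 5 970)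
(fin 1290 6 1034)))))))
(mv 1101 (cons (fin 1098 2 1034)
(mv 1164 (cons (fin 909 5 908)
(mv 1228 (cons (fin 1165 5 972)
(fin 1292 7 1035))))))))))
(mv 1163 (cons (cons (mv 1226 (cons (fin 1162 5 970)
(mv 1227 (cons (fin 1290 5 1034)
(fin 1036 6 971)))))
(mv 1226 (cons (fin 1162 5 970)
(mv 1164 (cons (fin 1228 4 971)
(mv 1100 (cons (fin 907 4 907)
(mv 909 (cons (fin 1101 5 908)
(fin 1036 6 908))))))))))
(cons (mv 1226 (cons (fin 1162 5 970)
(mv 1227 (cons (fin 1290 5 1034)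
(mv 1228 (cons (fin 1292 4 1035)
(fin 1164 4 971)))))))
(mv 1227 (cons (fin 1036 6 971)
(mv 1228 (cons (fin 1292 4 1035)
(fin 1164 4 971))))))))))
(cons (mv 1036 (cons (fin 1098 1 1034)
(mv 1163 (cons (fin 1227 6 971)
(mv 1226 (cons (fin 1162 5 970)
(mv 1164 (cons (fin 1228 4 971)
(mv 1100 (cons (fin 909 6 908)
(mv 1165 (cons (fin 1229 4 972)
(mv 1166 (cons (fin 1167 3 1099)
(mv 1230 (cons (fin 1231 0 1163)
(fin 1101 4 973)))))))))))))))))
(cons (mv 1098 (cons (fin 1036 1 1034)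
(mv 1162 (cons (fin 907 5 906)
(mv 1226 (cons (fin 1290 6 1034)
(fin 1034 6 970)))))))
(mv 1098 (cons (fin 1036 1 1034)
(mv 1100 (cons (fin 1101 2 1034)
(mv 1164 (cons (fin 907 4 907)
(mv 1228 (cons (fin 1292 7 1035)
(fin 1163 4 971))))))))))))))
(cons (mv 907 (cons (cons (mv 974 (cons (fin 906 3 906)
(mv 1036 (cons (fin 975 1 971)
(mv 1100 (cons (fin 1164 7 907)
(fin 843 4 843)))))))
(mv 1036 (cons (mv 1100 (cons (fin 1164 7 907)
(fin 843 4 843)))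
(cons (mv 1099 (cons (fin 1098 1 1034)
(mv 1227 (cons (fin 1163 6 971)
(mv 842 (cons (fin 906 7 842)
(mv 843 (cons (fin 778 7 778)
(fin 779 4 779)))))))))
(mv 1164 (cons (fin 1100 7 907)
(mv 1099 (cons (fin 1098 1 1034)
(mv 1163 (cons (fin 1228 4 971)
(fin 1227 6 971)))))))))))
(cons (mv 843 (cons (mv 1036 (cons (fin 1100 4 843)
(fin 779 4 779)))
(cons (mv 778 (cons (fin 842 7 778)
(mv 779 (cons (fin 714 7 714)
(mv 780 (cons (fin 844 6 779)
(fin 716 6 715)))))))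
(mv 1100 (cons (fin 1036 4 843)
(mv 1164 (cons (fin 1099 4 907)
(mv 1101 (cons (fin 909 5 908)
(mv 1228 (cons (fin 1165 5 972)
(fin 1292 6 1036))))))))))))
(cons (mv 906 (cons (fin 974 3 906)
(mv 1099 (cons (fin 842 7 842)
(mv 1162 (cons (fin 1098 5 906)
(mv 1163 (cons (fin 1226 5 970)
(mv 1164 (cons (fin 1228 4 971)
(fin 1100 4 907)))))))))))
(mv 974 (cons (fin 906 3 906)
(mv 975 (cons (fin 1036 1 971)
(mv 976 (cons (fin 977 1 973)
(mv 912 (cons (fin 911 2 908)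
(fin 913 2 909)))))))))))))
(mv 907 (cons (cons (mv 974 (cons (fin 1034 1 970)
(fin 906 3 906)))
(mv 843 (cons (cons (mv 1098 (cons (fin 1034 5 842)
(mv 1162 (cons (fin 1099 5 906)
(mv 778 (cons (fin 842 7 778)
(mv 779 (cons (fin 714 7 714)
(mv 780 (cons (fin 844 6 779)
(fin 716 6 715)))))))))))
(mv 1098 (cons (fin 1034 5 842)
(mv 1099 (cons (fin 1162 5 906)
(mv 1100 (cons (fin 1101 2 1034)
(fin 1164 4 907))))))))
(cons (mv 842 (cons (fin 778 7 778)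
(mv 906 (cons (fin 1099 7 842)
(mv 905 (cons (fin 904 0 904)
(mv 844 (cons (fin 845 1 841)
(fin 780 6 779)))))))))
(mv 1098 (cons (fin 1034 5 842)
(mv 778 (cons (fin 842 7 778)
(mv 779 (cons (fin 714 7 714)
(mv 780 (cons (fin 844 6 779)
(fin 716 6 715)))))))))))))
(cons (mv 1034 (cons (fin 974 1 970)
(mv 1098 (cons (fin 843 5 842)
(mv 1162 (cons (fin 1099 5 906)
(fin 1226 6 970)))))))
(mv 906 (cons (fin 974 3 906)
(mv 1099 (cons (fin 842 7 842)
(mv 1162 (cons (fin 1098 5 906)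
(mv 1163 (cons (fin 1226 5 970)
(mv 1164 (cons (fin 1228 4 971)
(fin 1100 4 907)))))))))))))))))))))
(cons (mv 1038 (cons (fin 1039 3 972)
(mv 970 (cons (fin 971 0 970)
(mv 1101 (cons (cons (mv 1165 (cons (fin 908 7 908)
(mv 1228 (cons (fin 1164 5 972)
(mv 1229 (cons (fin 1292 5 1036)
(fin 1036 7 972)))))))
(mv 909 (cons (cons (mv 1164 (cons (fin 1100 5 908)
(mv 844 (cons (fin 908 7 844)
(mv 845 (cons (fin 780 7 780)
(mv 781 (cons (fin 1036 5 780)
(mv 782 (cons (fin 846 6 781)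
(fin 718 6 717)))))))))))
(cons (mv 844 (cons (fin 908 7 844)
(mv 845 (cons (fin 780 7 780)
(mv 781 (cons (fin 1036 5 780)
(mv 782 (cons (fin 846 6 781)
(fin 718 6 717)))))))))
(mv 1100 (cons (fin 1164 5 908)
(mv 1098 (cons (fin 1099 2 1034)
(mv 845 (cons (fin 1036 5 844)
(mv 782 (cons (fin 846 6 781)
(mv 781 (cons (fin 718 6 717)
(mv 716 (cons (fin 780 7 716)
(mv 717 (cons (fin 908 5 716)
(fin 652 7 652)))))))))))))))))
(cons (mv 1100 (cons (fin 1164 5 908)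
(mv 1098 (cons (fin 1099 2 1034)
(mv 845 (cons (fin 1036 5 844)
(mv 780 (cons (fin 844 7 780)
(mv 781 (cons (fin 716 7 716)
(mv 782 (cons (fin 846 6 781)
(fin 718 6 717)))))))))))))
(cons (mv 1164 (cons (fin 1100 5 908)
(mv 845 (cons (cons (mv 844 (cons (fin 908 7 844)
(fin 780 7 780)))
(mv 782 (cons (fin 846 6 781)
(mv 781 (cons (fin 718 6 717)
(mv 716 (cons (fin 780 7 716)
(mv 717 (cons (fin 908 5 716)
(fin 652 7 652))))))))))
(cons (mv 780 (cons (fin 844 7 780)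
(mv 781 (cons (fin 716 7 716)
(mv 782 (cons (fin 846 6 781)
(fin 718 6 717)))))))
(mv 908 (cons (fin 844 7 844)
(mv 781 (cons (fin 717 5 716)
(mv 782 (cons (fin 846 6 781)
(fin 718 6 717))))))))))))
(mv 1100 (cons (fin 1164 5 908)
(mv 1099 (cons (fin 1098 2 1034)
(mv 908 (cons (fin 844 7 844)
(mv 1036 (cons (fin 1163 5 907)
(mv 907 (cons (fin 843 7 843)
(mv 906 (cons (fin 969 1 905)
(fin 905 0 905))))))))))))))))))
(cons (mv 1165 (cons (mv 1228 (cons (fin 1164 5 972)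
(mv 1229 (cons (fin 1292 5 1036)
(fin 1036 7 972)))))
(cons (mv 1164 (cons (fin 1228 5 972)
(mv 1166 (cons (fin 1230 4 973)
(mv 1100 (cons (fin 909 5 908)
(mv 1167 (cons (fin 1099 3 1099)
(fin 1168 3 1100)))))))))
(mv 1229 (cons (fin 1036 7 972)
(mv 1230 (cons (fin 1294 4 1037)
(fin 1166 4 973))))))))
(cons (mv 1165 (cons (fin 908 7 908)
(mv 1228 (cons (fin 1164 5 972)
(mv 1229 (cons (fin 1292 5 1036)
(mv 1230 (cons (fin 1294 4 1037)
(fin 1166 4 973)))))))))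
(mv 1165 (cons (fin 908 7 908)
(mv 1229 (cons (fin 1036 7 972)
(mv 1230 (cons (fin 1294 4 1037)
(fin 1166 4 973)))))))))))))))
(mv 1038 (cons (fin 1039 3 972)
(mv 1101 (cons (cons (mv 1165 (cons (fin 908 7 908)
(mv 1229 (cons (fin 1036 7 972)
(fin 974 6 973)))))
(mv 909 (cons (cons (mv 1164 (cons (fin 1100 5 908)
(mv 844 (cons (fin 908 7 844)
(mv 845 (cons (fin 780 7 780)
(mv 781 (cons (fin 1036 5 780)
(fin 974 4 781)))))))))
(cons (mv 844 (cons (fin 908 7 844)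
(mv 845 (cons (fin 780 7 780)
(mv 781 (cons (fin 1036 5 780)
(fin 974 4 781)))))))
(mv 1100 (cons (fin 1164 5 908)
(mv 1098 (cons (fin 1099 2 1034)
(mv 845 (cons (fin 1036 5 844)
(mv 846 (cons (fin 782 6 781)
(mv 781 (cons (fin 974 4 781)
(mv 716 (cons (fin 780 7 716)
(mv 717 (cons (fin 908 5 716)
(fin 652 7 652)))))))))))))))))
(cons (cons (mv 1100 (cons (fin 1164 5 908)
(mv 1098 (cons (fin 1099 2 1034)
(mv 845 (cons (fin 1036 5 844)
(mv 844 (cons (fin 780 7 780)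
(mv 781 (cons (fin 974 4 781)
(mv 782 (cons (fin 846 6 781)
(fin 718 6 717)))))))))))))
(mv 1100 (cons (fin 1164 5 908)
(mv 1099 (cons (fin 1098 2 1034)
(mv 908 (cons (fin 844 7 844)
(mv 1036 (cons (fin 1163 5 907)
(mv 907 (cons (fin 843 7 843)
(mv 974 (cons (fin 975 3 907)
(fin 906 0 906))))))))))))))
(cons (mv 1164 (cons (fin 1100 5 908)
(mv 844 (cons (fin 908 7 844)
(mv 845 (cons (fin 780 7 780)
(mv 781 (cons (fin 974 4 781)
(mv 782 (cons (fin 846 6 781)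
(fin 718 6 717)))))))))))
(mv 1164 (cons (fin 1100 5 908)
(mv 844 (cons (fin 908 7 844)
(mv 845 (cons (fin 780 7 780)
(mv 781 (cons (fin 1036 5 780)
(mv 782 (cons (fin 846 6 781)
(fin 718 6 717))))))))))))))))
(cons (mv 1165 (cons (mv 1229 (cons (fin 1036 7 972)
(fin 974 6 973)))
(mv 1164 (cons (fin 1228 5 972)
(mv 1166 (cons (fin 1230 4 973)
(mv 1100 (cons (fin 909 5 908)
(mv 1167 (cons (fin 1099 3 1099)
(fin 1168 3 1100)))))))))))
(cons (mv 1165 (cons (fin 908 7 908)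
(mv 1228 (cons (fin 1164 5 972)
(mv 1229 (cons (fin 1292 5 1036)
(fin 974 6 973)))))))
(mv 1165 (cons (fin 908 7 908)
(mv 1228 (cons (fin 1164 5 972)
(mv 1229 (cons (fin 1292 5 1036)
(fin 1036 7 972))))))))))))))))
(cons (cons (mv 1038 (cons (fin 1039 3 972)
(mv 971 (cons (fin 970 0 970)
(mv 974 (cons (cons (mv 1034 (cons (fin 1035 1 970)
(mv 907 (cons (fin 906 3 906)
(mv 975 (cons (fin 908 3 907)
(mv 976 (cons (fin 1036 1 972)
(fin 977 1 973)))))))))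
(cons (mv 907 (cons (fin 906 3 906)
(mv 975 (cons (fin 908 3 907)
(mv 976 (cons (fin 1036 1 972)
(fin 977 1 973)))))))
(mv 1035 (cons (fin 1034 1 970)
(mv 1036 (cons (fin 975 1 971)
(mv 1099 (cons (fin 1098 1 1034)
(mv 1163 (cons (fin 1227 6 971)
(fin 908 6 907)))))))))))
(cons (mv 1035 (cons (fin 1034 1 970)
(mv 907 (cons (fin 906 3 906)
(mv 1099 (cons (mv 1098 (cons (fin 1036 1 1034)
(fin 1162 5 906)))
(mv 908 (cons (fin 1163 6 907)
(fin 844 6 843)))))))))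
(cons (mv 1034 (cons (fin 1035 1 970)
(mv 907 (cons (fin 906 3 906)
(mv 975 (cons (fin 908 3 907)
(mv 976 (cons (fin 977 1 973)
(mv 912 (cons (fin 911 2 908)
(fin 913 2 909)))))))))))
(mv 1035 (cons (fin 1034 1 970)
(mv 1036 (cons (fin 975 1 971)
(mv 1098 (cons (fin 1099 1 1034)
(mv 907 (cons (fin 906 3 906)
(mv 1100 (cons (fin 1164 7 907)
(fin 843 4 843)))))))))))))))))))
(cons (mv 1038 (cons (fin 1039 3 972)
(mv 971 (cons (fin 970 0 970)
(mv 974 (cons (cons (mv 1034 (cons (fin 1035 1 970)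
(mv 907 (cons (fin 906 3 906)
(mv 975 (cons (fin 908 3 907)
(mv 976 (cons (fin 1036 1 972)
(fin 977 1 973)))))))))
(cons (mv 907 (cons (fin 906 3 906)
(mv 975 (cons (fin 908 3 907)
(mv 976 (cons (fin 1036 1 972)
(fin 977 1 973)))))))
(mv 1035 (cons (fin 1034 1 970)
(mv 1036 (cons (fin 975 1 971)
(mv 1099 (cons (fin 1098 1 1034)
(mv 1163 (cons (fin 1227 6 971)
(fin 908 6 907)))))))))))
(cons (mv 1035 (cons (fin 1034 1 970)
(mv 906 (cons (fin 907 3 906)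
(mv 1101 (cons (mv 1165 (cons (fin 908 7 908)
(fin 1229 6 973)))
(cons (mv 1099 (cons (mv 1098 (cons (fin 1036 1 1034)
(fin 1100 2 1034)))
(cons (mv 1163 (cons (fin 908 6 907)
(mv 1226 (cons (fin 1162 5 970)
(mv 1227 (cons (fin 1290 5 1034)
(fin 1036 6 971)))))))
(mv 1163 (cons (fin 908 6 907)
(mv 1226 (cons (fin 1162 5 970)
(mv 1290 (cons (fin 1227 5 1034)
(mv 1164 (cons (fin 1228 4 971)
(mv 1100 (cons (fin 1098 2 1034)
(fin 909 5 908))))))))))))))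
(mv 1165 (cons (fin 1229 6 973)
(mv 1164 (cons (fin 1228 5 972)
(mv 1166 (cons (fin 1230 4 973)
(mv 1100 (cons (fin 909 5 908)
(mv 1167 (cons (fin 1099 3 1099)
(fin 1168 3 1100))))))))))))))))))
(cons (mv 1034 (cons (fin 1035 1 970)
(mv 907 (cons (fin 906 3 906)
(mv 975 (cons (fin 908 3 907)
(mv 976 (cons (fin 977 1 973)
(mv 912 (cons (fin 911 2 908)
(fin 913 2 909)))))))))))
(mv 1035 (cons (fin 1034 1 970)
(mv 1036 (cons (fin 975 1 971)
(mv 1098 (cons (fin 1099 1 1034)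
(mv 907 (cons (fin 906 3 906)
(mv 1100 (cons (fin 1164 7 907)
(fin 843 4 843)))))))))))))))))))
(mv 1038 (cons (fin 1039 3 972)
(mv 971 (cons (fin 970 0 970)
(mv 908 (cons (mv 1101 (cons (fin 1165 7 908)
(mv 844 (cons (fin 909 7 844)
(fin 780 4 780)))))
(cons (mv 1101 (cons (fin 1165 7 908)
(mv 974 (cons (mv 907 (cons (fin 906 3 906)
(fin 975 3 907)))
(cons (mv 1035 (cons (fin 1034 1 970)
(mv 1099 (cons (fin 1163 6 907)
(mv 1100 (cons (fin 1098 2 1034)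
(mv 909 (cons (fin 1164 5 908)
(mv 975 (cons (fin 976 3 908)
(mv 911 (cons (fin 912 2 908)
(mv 845 (cons (fin 781 4 781)
(mv 846 (cons (fin 782 6 781)
(mv 847 (cons (fin 848 1 844)
(fin 783 5 782)))))))))))))))))))
(mv 1035 (cons (fin 1034 1 970)
(mv 1099 (cons (fin 1163 6 907)
(mv 1098 (cons (fin 1100 2 1034)
(mv 907 (cons (fin 906 3 906)
(fin 1162 5 906))))))))))))))
(mv 907 (cons (mv 974 (cons (fin 906 3 906)
(fin 975 3 907)))
(cons (mv 974 (cons (fin 975 3 907)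
(mv 1035 (cons (fin 1034 1 970)
(mv 1099 (cons (fin 1163 6 907)
(fin 844 6 843)))))))
(mv 905 (cons (fin 906 0 905)
(mv 843 (cons (cons (mv 844 (cons (fin 780 4 780)
(mv 1099 (cons (fin 1035 6 843)
(mv 779 (cons (fin 715 4 715)
(mv 778 (cons (fin 714 7 714)
(mv 845 (cons (fin 846 3 778)
(mv 777 (cons (fin 842 3 777)
(fin 776 0 776)))))))))))))
(mv 779 (cons (fin 715 4 715)
(mv 778 (cons (fin 714 7 714)
(mv 1035 (cons (fin 842 7 778)
(mv 1098 (cons (fin 1034 5 842)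
(mv 1099 (cons (fin 1162 5 906)
(fin 1163 6 907))))))))))))
(cons (mv 844 (cons (fin 780 4 780)
(mv 1035 (cons (fin 1099 6 843)
(mv 1098 (cons (fin 1034 5 842)
(mv 842 (cons (fin 778 7 778)
(mv 841 (cons (fin 904 1 840)
(fin 840 0 840)))))))))))
(cons (mv 844 (cons (fin 780 4 780)
(mv 779 (cons (fin 715 4 715)
(mv 778 (cons (fin 714 7 714)
(mv 845 (cons (fin 846 3 778)
(mv 777 (cons (fin 842 3 777)
(fin 776 0 776)))))))))))
(mv 779 (cons (fin 715 4 715)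
(mv 780 (cons (fin 844 4 780)
(fin 716 6 715)))))))))))))))))))))))
(cons (mv 1038 (cons (fin 1039 3 972)
(mv 971 (cons (fin 970 0 970)
(mv 974 (cons (cons (mv 1034 (cons (fin 1035 1 970)
(mv 907 (cons (fin 906 3 906)
(mv 975 (cons (fin 908 3 907)
(mv 976 (cons (fin 1036 1 972)
(fin 977 1 973)))))))))
(cons (mv 907 (cons (fin 906 3 906)
(mv 975 (cons (fin 908 3 907)
(mv 976 (cons (fin 1036 1 972)
(fin 977 1 973)))))))
(mv 1035 (cons (fin 1034 1 970)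
(mv 1036 (cons (fin 975 1 971)
(mv 1099 (cons (fin 1098 1 1034)
(mv 1163 (cons (fin 1227 6 971)
(fin 908 6 907)))))))))))
(cons (mv 1035 (cons (fin 1034 1 970)
(mv 907 (cons (fin 906 3 906)
(mv 908 (cons (mv 1099 (cons (fin 1163 6 907)
(fin 844 6 843)))
(cons (mv 1165 (cons (fin 1101 7 908)
(mv 1099 (cons (fin 1163 6 907)
(mv 1098 (cons (fin 1036 1 1034)
(fin 1162 5 906)))))))
(mv 1101 (cons (fin 1165 7 908)
(mv 844 (cons (fin 780 5 779)
(fin 909 7 844))))))))))))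
(cons (mv 1034 (cons (fin 1035 1 970)
(mv 907 (cons (fin 906 3 906)
(mv 975 (cons (fin 908 3 907)
(mv 976 (cons (fin 977 1 973)
(mv 912 (cons (fin 911 2 908)
(fin 913 2 909)))))))))))
(mv 1035 (cons (fin 1034 1 970)
(mv 975 (cons (fin 1036 1 971)
(mv 976 (cons (fin 977 1 973)
(mv 912 (cons (fin 911 2 908)
(fin 913 2 909)))))))))))))))))
(cons (mv 1038 (cons (fin 1039 3 972)
(mv 971 (cons (fin 970 0 970)
(mv 908 (cons (cons (mv 1101 (cons (fin 1165 7 908)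
(mv 844 (cons (fin 909 7 844)
(fin 1036 4 844)))))
(mv 1101 (cons (fin 1165 7 908)
(mv 1100 (cons (mv 1164 (cons (fin 909 5 908)
(mv 1228 (cons (fin 1292 6 1036)
(fin 1036 6 972)))))
(cons (mv 1099 (cons (fin 1098 2 1034)
(mv 1163 (cons (fin 1036 5 907)
(fin 1035 6 907)))))
(mv 1099 (cons (fin 1098 2 1034)
(mv 1035 (cons (fin 1163 6 907)
(mv 974 (cons (fin 1034 1 970)
(mv 909 (cons (fin 1164 5 908)
(mv 975 (cons (fin 976 3 908)
(mv 911 (cons (fin 912 2 908)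
(mv 845 (cons (fin 781 4 781)
(mv 846 (cons (fin 782 6 781)
(mv 847 (cons (fin 848 1 844)
(fin 783 5 782)))))))))))))))))))))))))
(cons (mv 844 (cons (fin 780 4 780)
(mv 1036 (cons (cons (mv 1099 (cons (fin 1035 5 843)
(mv 1100 (cons (fin 1163 5 907)
(mv 1164 (cons (fin 1228 6 972)
(fin 909 6 908)))))))
(mv 843 (cons (fin 779 7 779)
(mv 845 (cons (fin 781 6 780)
(mv 1100 (cons (fin 909 5 844)
(mv 1163 (cons (fin 1099 5 907)
(mv 1164 (cons (fin 1227 5 971)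
(fin 1228 6 972))))))))))))
(cons (mv 843 (cons (fin 779 7 779)
(mv 845 (cons (fin 781 6 780)
(mv 909 (cons (fin 1100 5 844)
(mv 841 (cons (fin 842 0 841)
(mv 846 (cons (fin 782 6 781)
(mv 847 (cons (fin 848 1 844)
(mv 911 (cons (fin 912 0 844)
(mv 783 (cons (fin 784 2 780)
(mv 975 (cons (fin 974 5 782)
(fin 976 4 783)))))))))))))))))))
(mv 1035 (cons (fin 1099 5 843)
(mv 1034 (cons (fin 974 1 970)
(fin 1033 2 969))))))))))
(cons (mv 1101 (cons (fin 1165 7 908)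
(mv 844 (cons (fin 909 7 844)
(fin 780 4 780)))))
(mv 1101 (cons (fin 1165 7 908)
(mv 844 (cons (fin 1036 4 844)
(fin 780 4 780)))))))))))))
(mv 1038 (cons (fin 1039 3 972)
(mv 971 (cons (fin 970 0 970)
(mv 974 (cons (cons (mv 1034 (cons (fin 1035 1 970)
(mv 907 (cons (fin 906 3 906)
(mv 975 (cons (fin 908 3 907)
(mv 976 (cons (fin 1036 1 972)
(fin 977 1 973)))))))))
(mv 907 (cons (fin 906 3 906)
(mv 975 (cons (fin 908 3 907)
(mv 976 (cons (fin 1036 1 972)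
(fin 977 1 973))))))))
(cons (mv 1035 (cons (fin 1034 1 970)
(mv 975 (cons (fin 1036 1 971)
(mv 976 (cons (fin 977 1 973)
(mv 912 (cons (fin 911 2 908)
(fin 913 2 909)))))))))
(cons (mv 1035 (cons (fin 1034 1 970)
(mv 907 (cons (fin 906 3 906)
(mv 843 (cons (mv 1036 (cons (fin 1100 4 843)
(fin 779 4 779)))
(cons (mv 844 (cons (fin 780 6 779)
(mv 778 (cons (fin 842 7 778)
(mv 779 (cons (fin 714 7 714)
(mv 908 (cons (fin 715 4 715)
(mv 1101 (cons (fin 1165 7 908)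
(fin 909 7 844)))))))))))
(mv 1036 (cons (fin 1100 4 843)
(mv 842 (cons (fin 778 7 778)
(mv 844 (cons (fin 780 6 779)
(mv 908 (cons (fin 1101 4 844)
(mv 841 (cons (fin 840 0 840)
(fin 909 0 841))))))))))))))))))
(mv 1034 (cons (fin 1035 1 970)
(mv 907 (cons (fin 906 3 906)
(mv 975 (cons (fin 908 3 907)
(mv 976 (cons (fin 977 1 973)
(mv 912 (cons (fin 911 2 908)
(fin 913 2 909)))))))))))))))))))))))))
(cons (mv 972 (cons (cons (cons (mv 1038 (cons (fin 1039 3 972)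
(mv 970 (cons (fin 971 0 970)
(mv 908 (cons (cons (mv 1101 (cons (fin 1165 7 908)
(mv 844 (cons (fin 909 7 844)
(fin 1036 4 844)))))
(mv 844 (cons (fin 780 4 780)
(mv 1036 (cons (mv 1099 (cons (fin 1035 5 843)
(mv 1100 (cons (fin 1163 5 907)
(mv 1164 (cons (fin 1228 6 972)
(fin 909 6 908)))))))
(cons (mv 843 (cons (fin 779 7 779)
(mv 1100 (cons (fin 907 7 843)
(mv 1164 (cons (fin 1228 6 972)
(fin 909 6 908)))))))
(mv 1035 (cons (fin 1099 5 843)
(mv 1034 (cons (fin 969 3 969)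
(fin 1033 2 969)))))))))))
(cons (mv 1101 (cons (fin 1165 7 908)
(mv 909 (cons (cons (mv 1164 (cons (fin 1100 5 908)
(mv 910 (cons (fin 846 6 845)
(mv 911 (cons (fin 912 1 908)
(mv 975 (cons (fin 976 0 908)
(mv 974 (cons (fin 907 3 907)
(mv 847 (cons (fin 848 2 844)
(fin 783 5 782)))))))))))))
(mv 1100 (cons (fin 1164 5 908)
(mv 1099 (cons (fin 1098 2 1034)
(mv 1036 (cons (fin 1163 5 907)
(mv 907 (cons (fin 843 7 843)
(mv 974 (cons (fin 975 3 907)
(fin 906 0 906))))))))))))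
(cons (mv 910 (cons (fin 846 6 845)
(mv 911 (cons (fin 912 1 908)
(mv 975 (cons (fin 976 0 908)
(mv 974 (cons (fin 907 3 907)
(mv 847 (cons (fin 848 2 844)
(fin 783 5 782)))))))))))
(cons (mv 1100 (cons (fin 1164 5 908)
(mv 1099 (cons (fin 1098 2 1034)
(mv 1036 (cons (fin 1163 5 907)
(mv 907 (cons (fin 843 7 843)
(mv 906 (cons (fin 969 1 905)
(fin 905 0 905)))))))))))
(mv 1164 (cons (fin 1100 5 908)
(mv 910 (cons (fin 846 6 845)
(mv 911 (cons (fin 912 1 908)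
(mv 975 (cons (fin 976 0 908)
(mv 847 (cons (fin 848 2 844)
(mv 783 (cons (fin 974 5 782)
(mv 718 (cons (fin 782 7 718)
(mv 719 (cons (fin 654 7 654)
(mv 720 (cons (fin 784 6 719)
(fin 656 6 655)))))))))))))))))))))))))
(cons (mv 1101 (cons (fin 1165 7 908)
(mv 844 (cons (fin 909 7 844)
(fin 780 4 780)))))
(mv 1101 (cons (fin 1165 7 908)
(mv 844 (cons (fin 1036 4 844)
(fin 780 4 780)))))))))))))
(mv 974 (cons (mv 975 (cons (fin 1039 0 972)
(mv 1036 (cons (fin 1035 1 971)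
(fin 976 1 972)))))
(cons (mv 971 (cons (cons (mv 1034 (cons (fin 1035 1 970)
(mv 1033 (cons (fin 970 1 969)
(mv 906 (cons (fin 907 3 906)
(mv 910 (cons (fin 911 2 907)
(mv 1101 (cons (fin 1165 6 909)
(mv 846 (cons (fin 782 5 781)
(fin 909 6 845)))))))))))))
(mv 1034 (cons (fin 1035 1 970)
(mv 970 (cons (fin 1033 1 969)
(mv 906 (cons (fin 905 3 905)
(fin 907 3 906))))))))
(cons (mv 906 (cons (fin 907 3 906)
(mv 970 (cons (fin 905 3 905)
(mv 910 (cons (fin 909 2 906)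
(fin 911 2 907)))))))
(cons (mv 1034 (cons (fin 1035 1 970)
(mv 1033 (cons (fin 970 1 969)
(mv 910 (cons (fin 911 2 907)
(mv 1101 (cons (fin 1165 6 909)
(mv 846 (cons (fin 782 5 781)
(fin 909 6 845)))))))))))
(mv 1034 (cons (fin 1035 1 970)
(mv 906 (cons (fin 907 3 906)
(mv 910 (cons (fin 911 2 907)
(mv 1101 (cons (fin 1165 6 909)
(mv 846 (cons (fin 782 5 781)
(fin 909 6 845)))))))))))))))
(mv 975 (cons (fin 1039 0 972)
(mv 1036 (cons (fin 976 1 972)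
(mv 907 (cons (fin 908 3 907)
(mv 971 (cons (fin 906 3 906)
(mv 911 (cons (fin 910 2 907)
(fin 912 2 908)))))))))))))))
(cons (mv 971 (cons (cons (mv 970 (cons (fin 1038 0 970)
(mv 1033 (cons (fin 1034 1 969)
(mv 969 (cons (fin 1032 1 968)
(fin 1036 0 969)))))))
(mv 974 (cons (cons (mv 1034 (cons (fin 1035 1 970)
(mv 906 (cons (fin 907 3 906)
(mv 910 (cons (fin 911 2 907)
(mv 1101 (cons (fin 1165 6 909)
(mv 846 (cons (fin 1038 5 845)
(fin 782 5 781)))))))))))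
(mv 906 (cons (fin 907 3 906)
(mv 910 (cons (fin 911 2 907)
(mv 1101 (cons (fin 1165 6 909)
(mv 846 (cons (fin 1038 5 845)
(fin 782 5 781))))))))))
(cons (mv 1034 (cons (fin 1035 1 970)
(mv 907 (cons (fin 906 3 906)
(mv 975 (cons (fin 908 3 907)
(mv 976 (cons (fin 1036 1 972)
(mv 912 (cons (fin 911 2 908)
(fin 913 2 909)))))))))))
(cons (mv 1034 (cons (fin 1035 1 970)
(mv 910 (cons (fin 911 2 907)
(mv 1101 (cons (fin 1165 6 909)
(mv 846 (cons (fin 1038 5 845)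
(fin 782 5 781)))))))))
(mv 1034 (cons (fin 1035 1 970)
(mv 907 (cons (fin 906 3 906)
(mv 975 (cons (fin 908 3 907)
(mv 976 (cons (fin 1036 1 972)
(mv 977 (cons (fin 1038 1 973)
(mv 913 (cons (fin 912 2 909)
(fin 914 2 910))))))))))))))))))
(cons (mv 970 (cons (mv 1033 (cons (fin 1034 1 969)
(mv 969 (cons (fin 1032 1 968)
(fin 1036 0 969)))))
(cons (mv 1033 (cons (fin 1034 1 969)
(mv 906 (cons (fin 905 3 905)
(mv 974 (cons (fin 907 3 906)
(mv 910 (cons (fin 909 2 906)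
(fin 911 2 907)))))))))
(mv 1036 (cons (fin 969 0 969)
(mv 905 (cons (fin 906 3 905)
(mv 910 (cons (fin 909 2 906)
(mv 974 (cons (fin 911 2 907)
(mv 975 (cons (fin 1035 1 971)
(fin 976 1 972))))))))))))))
(cons (mv 970 (cons (fin 1038 0 970)
(mv 1036 (cons (fin 969 0 969)
(mv 905 (cons (fin 906 3 905)
(mv 910 (cons (fin 909 2 906)
(mv 974 (cons (fin 911 2 907)
(mv 975 (cons (fin 1035 1 971)
(fin 976 1 972)))))))))))))
(mv 970 (cons (fin 1038 0 970)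
(mv 1033 (cons (fin 1034 1 969)
(mv 1032 (cons (fin 969 1 968)
(mv 906 (cons (fin 905 3 905)
(mv 974 (cons (fin 907 3 906)
(mv 910 (cons (fin 909 2 906)
(fin 911 2 907)))))))))))))))))
(cons (mv 1038 (cons (fin 1039 3 972)
(mv 971 (cons (fin 970 0 970)
(mv 974 (cons (cons (mv 1034 (cons (fin 1035 1 970)
(mv 906 (cons (fin 907 3 906)
(mv 910 (cons (fin 911 2 907)
(mv 1101 (cons (fin 846 5 845)
(fin 1165 6 909)))))))))
(mv 1035 (cons (fin 1034 1 970)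
(mv 1036 (cons (fin 975 1 971)
(mv 1098 (cons (fin 1099 1 1034)
(mv 907 (cons (fin 906 3 906)
(mv 1100 (cons (fin 1164 7 907)
(fin 843 4 843))))))))))))
(cons (mv 906 (cons (fin 907 3 906)
(mv 910 (cons (fin 911 2 907)
(mv 1101 (cons (fin 846 5 845)
(fin 1165 6 909)))))))
(mv 1034 (cons (fin 1035 1 970)
(mv 910 (cons (fin 911 2 907)
(mv 1101 (cons (fin 846 5 845)
(fin 1165 6 909))))))))))))))
(mv 1038 (cons (fin 1039 3 972)
(mv 971 (cons (fin 970 0 970)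
(mv 908 (cons (cons (mv 1101 (cons (fin 1165 7 908)
(mv 844 (cons (fin 909 7 844)
(fin 1036 4 844)))))
(mv 1101 (cons (fin 1165 7 908)
(mv 909 (cons (mv 910 (cons (fin 911 1 907)
(fin 846 6 845)))
(mv 1100 (cons (fin 1164 5 908)
(mv 1099 (cons (fin 1098 2 1034)
(mv 1163 (cons (fin 1036 5 907)
(fin 1035 6 907))))))))))))
(cons (mv 844 (cons (fin 780 4 780)
(mv 1036 (cons (cons (mv 1099 (cons (fin 1035 5 843)
(mv 1100 (cons (fin 1163 5 907)
(mv 1164 (cons (fin 907 7 907)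
(fin 1228 6 972)))))))
(mv 843 (cons (fin 779 7 779)
(mv 1100 (cons (fin 907 7 843)
(mv 1164 (cons (fin 1228 6 972)
(fin 909 6 908))))))))
(cons (mv 1035 (cons (fin 1099 5 843)
(mv 1034 (cons (fin 1033 2 969)
(mv 1098 (cons (fin 1097 1 1033)
(mv 843 (cons (fin 907 5 842)
(fin 779 7 779)))))))))
(mv 1099 (cons (fin 1035 5 843)
(mv 1100 (cons (fin 1163 5 907)
(mv 1164 (cons (fin 1228 6 972)
(fin 909 6 908))))))))))))
(cons (mv 1101 (cons (fin 1165 7 908)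
(mv 844 (cons (fin 1036 4 844)
(fin 780 4 780)))))
(mv 1101 (cons (fin 1165 7 908)
(mv 844 (cons (fin 909 7 844)
(fin 780 4 780))))))))))))))))
(cons (cons (mv 1039 (cons (fin 1038 3 972)
(mv 975 (cons (fin 974 0 972)
(mv 1104 (cons (cons (mv 1168 (cons (fin 1232 7 975)
(mv 911 (cons (fin 976 7 911)
(fin 1103 4 911)))))
(mv 911 (cons (fin 847 4 847)
(mv 910 (cons (cons (mv 1103 (cons (fin 846 7 846)
(mv 912 (cons (fin 909 1 908)
(fin 848 6 847)))))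
(mv 1103 (cons (fin 846 7 846)
(mv 912 (cons (fin 848 6 847)
(mv 1167 (cons (fin 976 5 911)
(mv 1230 (cons (fin 1166 5 974)
(mv 1231 (cons (fin 1294 5 1038)
(fin 1295 6 1039))))))))))))
(cons (mv 909 (cons (fin 912 1 908)
(mv 908 (cons (fin 976 0 908)
(mv 1101 (cons (fin 1165 7 908)
(fin 844 7 844)))))))
(mv 846 (cons (fin 1103 7 846)
(mv 1101 (cons (fin 909 6 845)
(mv 1165 (cons (fin 908 7 908)
(mv 1228 (cons (fin 1164 5 972)
(mv 1229 (cons (fin 1292 5 1036)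
(fin 1036 7 972)))))))))))))))))
(cons (mv 1168 (cons (fin 1232 7 975)
(mv 976 (cons (cons (mv 1231 (cons (fin 1167 5 975)
(mv 1233 (cons (fin 1169 4 976)
(mv 913 (cons (fin 977 6 912)
(mv 912 (cons (fin 849 6 848)
(mv 848 (cons (fin 1103 5 847)
(fin 784 5 783)))))))))))
(cons (mv 1233 (cons (fin 1169 4 976)
(mv 913 (cons (fin 977 6 912)
(mv 912 (cons (fin 849 6 848)
(mv 848 (cons (fin 1103 5 847)
(fin 784 5 783)))))))))
(mv 1231 (cons (fin 1167 5 975)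
(mv 913 (cons (fin 977 6 912)
(mv 912 (cons (fin 849 6 848)
(mv 848 (cons (fin 1103 5 847)
(fin 784 5 783)))))))))))
(cons (mv 1231 (cons (fin 1167 5 975)
(mv 1169 (cons (fin 1233 4 976)
(mv 912 (cons (fin 1105 4 912)
(mv 848 (cons (fin 1103 5 847)
(fin 784 5 783)))))))))
(cons (mv 1231 (cons (fin 1167 5 975)
(mv 1169 (cons (fin 1233 4 976)
(mv 977 (cons (fin 913 6 912)
(mv 978 (cons (fin 979 1 975)
(mv 1042 (cons (fin 1043 0 975)
(mv 914 (cons (fin 915 2 911)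
(mv 1106 (cons (fin 1105 5 913)
(mv 1171 (cons (fin 1107 4 914)
(mv 1170 (cons (fin 1103 3 1103)
(fin 1235 4 978)))))))))))))))))))
(mv 1231 (cons (fin 1167 5 975)
(mv 1169 (cons (fin 1233 4 976)
(mv 1105 (cons (fin 912 4 912)
(mv 1106 (cons (fin 1107 3 1039)
(mv 977 (cons (fin 913 6 912)
(mv 978 (cons (fin 979 1 975)
(mv 1042 (cons (fin 1043 0 975)
(fin 914 5 913)))))))))))))))))))))
(cons (mv 1168 (cons (fin 1232 7 975)
(mv 911 (cons (fin 1103 4 911)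
(fin 847 4 847)))))
(mv 1168 (cons (fin 1232 7 975)
(mv 911 (cons (fin 976 7 911)
(fin 847 4 847)))))))))))))
(mv 1038 (cons (fin 1039 3 972)
(mv 971 (cons (fin 970 0 970)
(mv 974 (cons (cons (mv 1034 (cons (fin 1035 1 970)
(mv 906 (cons (fin 907 3 906)
(mv 911 (cons (fin 910 2 907)
(mv 975 (cons (fin 912 2 908)
(mv 976 (cons (fin 1036 1 972)
(fin 977 1 973)))))))))))
(mv 906 (cons (fin 907 3 906)
(mv 911 (cons (fin 910 2 907)
(mv 975 (cons (fin 912 2 908)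
(mv 976 (cons (fin 1036 1 972)
(fin 977 1 973))))))))))
(cons (mv 1034 (cons (fin 1035 1 970)
(mv 911 (cons (fin 910 2 907)
(mv 975 (cons (fin 912 2 908)
(mv 976 (cons (fin 1036 1 972)
(fin 977 1 973)))))))))
(cons (mv 1034 (cons (fin 1035 1 970)
(mv 907 (cons (fin 906 3 906)
(mv 975 (cons (fin 908 3 907)
(mv 976 (cons (fin 1036 1 972)
(fin 977 1 973)))))))))
(mv 1035 (cons (fin 1034 1 970)
(mv 907 (cons (fin 906 3 906)
(mv 910 (cons (fin 911 2 907)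
(mv 846 (cons (fin 782 5 781)
(mv 847 (cons (fin 783 6 782)
(mv 908 (cons (fin 909 2 843)
(mv 1099 (cons (fin 1163 6 907)
(fin 844 6 843))))))))))))))))))))))))
(cons (mv 1038 (cons (fin 1039 3 972)
(mv 971 (cons (fin 970 0 970)
(mv 974 (cons (cons (mv 1034 (cons (fin 1035 1 970)
(mv 906 (cons (fin 907 3 906)
(mv 910 (cons (fin 911 2 907)
(mv 1101 (cons (fin 846 5 845)
(fin 1165 6 909)))))))))
(mv 1034 (cons (fin 1035 1 970)
(mv 907 (cons (fin 906 3 906)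
(mv 975 (cons (fin 908 3 907)
(mv 976 (cons (fin 977 1 973)
(mv 912 (cons (fin 911 2 908)
(fin 913 2 909))))))))))))
(cons (mv 1034 (cons (fin 1035 1 970)
(mv 907 (cons (fin 906 3 906)
(mv 908 (cons (fin 975 3 907)
(mv 1101 (cons (fin 1165 7 908)
(mv 844 (cons (fin 909 7 844)
(fin 780 4 780)))))))))))
(cons (mv 1034 (cons (fin 1035 1 970)
(mv 910 (cons (fin 911 2 907)
(mv 1101 (cons (fin 846 5 845)
(fin 1165 6 909)))))))
(mv 906 (cons (fin 907 3 906)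
(mv 910 (cons (fin 911 2 907)
(mv 1101 (cons (fin 846 5 845)
(fin 1165 6 909)))))))))))))))
(cons (mv 1038 (cons (fin 1039 3 972)
(mv 971 (cons (fin 970 0 970)
(mv 974 (cons (cons (mv 1034 (cons (fin 1035 1 970)
(mv 907 (cons (fin 906 3 906)
(mv 975 (cons (fin 908 3 907)
(mv 976 (cons (fin 1036 1 972)
(fin 977 1 973)))))))))
(cons (mv 907 (cons (fin 906 3 906)
(mv 975 (cons (fin 908 3 907)
(mv 976 (cons (fin 1036 1 972)
(fin 977 1 973)))))))
(mv 1035 (cons (fin 1034 1 970)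
(mv 1036 (cons (fin 975 1 971)
(mv 1099 (cons (fin 1098 1 1034)
(mv 1163 (cons (fin 1227 6 971)
(fin 908 6 907)))))))))))
(cons (mv 1035 (cons (fin 1034 1 970)
(mv 906 (cons (fin 907 3 906)
(mv 908 (cons (cons (mv 1163 (cons (fin 1099 6 907)
(mv 1101 (cons (fin 1165 7 908)
(mv 844 (cons (fin 780 5 779)
(fin 909 7 844)))))))
(mv 1099 (cons (fin 1163 6 907)
(mv 1098 (cons (fin 1036 1 1034)
(mv 1101 (cons (fin 1100 2 1034)
(fin 1165 7 908))))))))
(cons (mv 1099 (cons (fin 1163 6 907)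
(mv 1036 (cons (fin 1098 1 1034)
(fin 844 5 843)))))
(mv 1101 (cons (fin 1165 7 908)
(mv 844 (cons (fin 780 5 779)
(fin 909 7 844))))))))))))
(cons (mv 1034 (cons (fin 1035 1 970)
(mv 907 (cons (fin 906 3 906)
(mv 975 (cons (fin 908 3 907)
(mv 976 (cons (fin 977 1 973)
(mv 912 (cons (fin 911 2 908)
(fin 913 2 909)))))))))))
(mv 1035 (cons (fin 1034 1 970)
(mv 1036 (cons (fin 975 1 971)
(mv 1098 (cons (fin 1099 1 1034)
(mv 907 (cons (fin 906 3 906)
(mv 1100 (cons (fin 1164 7 907)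
(fin 843 4 843)))))))))))))))))))
(mv 1038 (cons (fin 1039 3 972)
(mv 971 (cons (fin 970 0 970)
(mv 974 (cons (cons (mv 1034 (cons (fin 1035 1 970)
(mv 907 (cons (fin 906 3 906)
(mv 975 (cons (fin 908 3 907)
(mv 976 (cons (fin 1036 1 972)
(fin 977 1 973)))))))))
(cons (mv 907 (cons (fin 906 3 906)
(mv 975 (cons (fin 908 3 907)
(mv 976 (cons (fin 1036 1 972)
(fin 977 1 973)))))))
(mv 1035 (cons (fin 1034 1 970)
(mv 1036 (cons (fin 975 1 971)
(mv 1099 (cons (fin 1098 1 1034)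
(mv 1163 (cons (fin 1227 6 971)
(fin 908 6 907)))))))))))
(cons (mv 1035 (cons (fin 1034 1 970)
(mv 906 (cons (fin 907 3 906)
(mv 908 (cons (cons (mv 1163 (cons (fin 1099 6 907)
(mv 1101 (cons (fin 1165 7 908)
(mv 844 (cons (fin 780 5 779)
(fin 909 7 844)))))))
(mv 1099 (cons (fin 1163 6 907)
(mv 1098 (cons (fin 1036 1 1034)
(mv 1101 (cons (fin 1100 2 1034)
(fin 1165 7 908))))))))
(cons (mv 1099 (cons (fin 1163 6 907)
(mv 1036 (cons (fin 1098 1 1034)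
(fin 844 5 843)))))
(mv 1101 (cons (fin 1165 7 908)
(mv 844 (cons (fin 780 5 779)
(fin 909 7 844))))))))))))
(cons (mv 1034 (cons (fin 1035 1 970)
(mv 907 (cons (fin 906 3 906)
(mv 908 (cons (fin 975 3 907)
(mv 1101 (cons (fin 1165 7 908)
(mv 844 (cons (fin 909 7 844)
(fin 780 4 780)))))))))))
(mv 1035 (cons (fin 1034 1 970)
(mv 1036 (cons (fin 975 1 971)
(mv 1098 (cons (fin 1099 1 1034)
(mv 907 (cons (fin 906 3 906)
(mv 1100 (cons (fin 1164 7 907)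
(fin 843 4 843))))))))))))))))))))))))
(cons (mv 972 (cons (cons (cons (mv 1038 (cons (fin 1039 3 972)
(mv 971 (cons (fin 970 0 970)
(mv 974 (cons (cons (mv 1034 (cons (fin 1035 1 970)
(mv 906 (cons (fin 907 3 906)
(mv 910 (cons (fin 911 2 907)
(mv 1101 (cons (fin 846 5 845)
(fin 1165 6 909)))))))))
(mv 1034 (cons (fin 1035 1 970)
(mv 907 (cons (fin 906 3 906)
(mv 975 (cons (fin 908 3 907)
(mv 976 (cons (fin 1036 1 972)
(fin 977 1 973))))))))))
(cons (mv 906 (cons (fin 907 3 906)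
(mv 910 (cons (fin 911 2 907)
(mv 1101 (cons (fin 846 5 845)
(fin 1165 6 909)))))))
(mv 1034 (cons (fin 1035 1 970)
(mv 910 (cons (fin 911 2 907)
(mv 1101 (cons (fin 846 5 845)
(fin 1165 6 909))))))))))))))
(mv 974 (cons (cons (mv 1039 (cons (fin 975 0 972)
(mv 971 (cons (cons (mv 1034 (cons (fin 1035 1 970)
(mv 1033 (cons (fin 970 1 969)
(mv 906 (cons (fin 907 3 906)
(mv 910 (cons (fin 911 2 907)
(mv 1101 (cons (fin 1165 6 909)
(mv 846 (cons (fin 782 5 781)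
(fin 909 6 845)))))))))))))
(mv 1034 (cons (fin 1035 1 970)
(mv 970 (cons (fin 1033 1 969)
(mv 906 (cons (fin 905 3 905)
(fin 907 3 906))))))))
(cons (mv 906 (cons (fin 907 3 906)
(mv 970 (cons (fin 905 3 905)
(mv 910 (cons (fin 909 2 906)
(fin 911 2 907)))))))
(cons (mv 1034 (cons (fin 1035 1 970)
(mv 1033 (cons (fin 970 1 969)
(mv 910 (cons (fin 911 2 907)
(mv 1101 (cons (fin 1165 6 909)
(mv 846 (cons (fin 782 5 781)
(fin 909 6 845)))))))))))
(mv 1034 (cons (fin 1035 1 970)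
(mv 906 (cons (fin 907 3 906)
(mv 910 (cons (fin 911 2 907)
(mv 1101 (cons (fin 1165 6 909)
(mv 846 (cons (fin 782 5 781)
(fin 909 6 845)))))))))))))))))
(mv 971 (cons (cons (mv 1034 (cons (fin 1035 1 970)
(mv 1033 (cons (fin 970 1 969)
(mv 906 (cons (fin 907 3 906)
(mv 910 (cons (fin 911 2 907)
(mv 1101 (cons (fin 1165 6 909)
(mv 846 (cons (fin 782 5 781)
(fin 909 6 845)))))))))))))
(mv 1034 (cons (fin 1035 1 970)
(mv 970 (cons (fin 1033 1 969)
(mv 906 (cons (fin 905 3 905)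
(fin 907 3 906))))))))
(cons (mv 906 (cons (fin 907 3 906)
(mv 970 (cons (fin 905 3 905)
(mv 910 (cons (fin 909 2 906)
(fin 911 2 907)))))))
(cons (mv 1034 (cons (fin 1035 1 970)
(mv 1033 (cons (fin 970 1 969)
(mv 910 (cons (fin 911 2 907)
(mv 1101 (cons (fin 1165 6 909)
(mv 846 (cons (fin 782 5 781)
(fin 909 6 845)))))))))))
(mv 1034 (cons (fin 1035 1 970)
(mv 906 (cons (fin 907 3 906)
(mv 910 (cons (fin 911 2 907)
(mv 1101 (cons (fin 1165 6 909)
(mv 846 (cons (fin 782 5 781)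
(fin 909 6 845))))))))))))))))
(cons (mv 975 (cons (fin 1039 0 972)
(mv 1036 (cons (fin 1035 1 971)
(fin 976 1 972)))))
(mv 975 (cons (fin 1039 0 972)
(mv 1036 (cons (fin 976 1 972)
(mv 907 (cons (fin 908 3 907)
(mv 971 (cons (fin 906 3 906)
(mv 911 (cons (fin 910 2 907)
(fin 912 2 908)))))))))))))))
(cons (mv 971 (cons (cons (mv 1038 (cons (fin 970 0 970)
(mv 974 (cons (cons (mv 1034 (cons (fin 1035 1 970)
(mv 906 (cons (fin 907 3 906)
(mv 910 (cons (fin 911 2 907)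
(mv 1101 (cons (fin 846 5 845)
(fin 1165 6 909)))))))))
(mv 1034 (cons (fin 1035 1 970)
(mv 907 (cons (fin 906 3 906)
(mv 975 (cons (fin 908 3 907)
(mv 976 (cons (fin 1036 1 972)
(fin 977 1 973))))))))))
(cons (mv 906 (cons (fin 907 3 906)
(mv 910 (cons (fin 911 2 907)
(mv 1101 (cons (fin 846 5 845)
(fin 1165 6 909)))))))
(mv 1034 (cons (fin 1035 1 970)
(mv 910 (cons (fin 911 2 907)
(mv 1101 (cons (fin 846 5 845)
(fin 1165 6 909))))))))))))
(cons (mv 974 (cons (cons (mv 1034 (cons (fin 1035 1 970)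
(mv 906 (cons (fin 907 3 906)
(mv 910 (cons (fin 911 2 907)
(mv 1101 (cons (fin 1165 6 909)
(mv 846 (cons (fin 1038 5 845)
(fin 782 5 781)))))))))))
(mv 1034 (cons (fin 1035 1 970)
(mv 907 (cons (fin 906 3 906)
(mv 975 (cons (fin 908 3 907)
(mv 976 (cons (fin 1036 1 972)
(mv 912 (cons (fin 911 2 908)
(fin 913 2 909))))))))))))
(cons (mv 906 (cons (fin 907 3 906)
(mv 910 (cons (fin 911 2 907)
(mv 1101 (cons (fin 1165 6 909)
(mv 846 (cons (fin 1038 5 845)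
(fin 782 5 781)))))))))
(cons (mv 1034 (cons (fin 1035 1 970)
(mv 910 (cons (fin 911 2 907)
(mv 1101 (cons (fin 1165 6 909)
(mv 846 (cons (fin 1038 5 845)
(fin 782 5 781)))))))))
(mv 1034 (cons (fin 1035 1 970)
(mv 907 (cons (fin 906 3 906)
(mv 975 (cons (fin 908 3 907)
(mv 976 (cons (fin 1036 1 972)
(mv 977 (cons (fin 1038 1 973)
(mv 913 (cons (fin 912 2 909)
(fin 914 2 910)))))))))))))))))
(mv 970 (cons (mv 1033 (cons (fin 1034 1 969)
(mv 969 (cons (fin 1032 1 968)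
(fin 1036 0 969)))))
(cons (mv 1033 (cons (fin 1034 1 969)
(mv 906 (cons (fin 905 3 905)
(mv 974 (cons (fin 907 3 906)
(mv 910 (cons (fin 909 2 906)
(fin 911 2 907)))))))))
(mv 1036 (cons (fin 969 0 969)
(mv 905 (cons (fin 906 3 905)
(mv 909 (cons (fin 910 2 906)
(mv 1100 (cons (fin 845 5 844)
(fin 1164 6 908))))))))))))))
(cons (mv 970 (cons (fin 1038 0 970)
(mv 1033 (cons (fin 1034 1 969)
(mv 969 (cons (fin 1032 1 968)
(fin 1036 0 969)))))))
(cons (mv 970 (cons (fin 1038 0 970)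
(mv 1036 (cons (fin 969 0 969)
(mv 905 (cons (fin 906 3 905)
(mv 909 (cons (fin 910 2 906)
(mv 1100 (cons (fin 845 5 844)
(fin 1164 6 908)))))))))))
(mv 970 (cons (fin 1038 0 970)
(mv 1033 (cons (fin 1034 1 969)
(mv 1032 (cons (fin 969 1 968)
(mv 906 (cons (fin 905 3 905)
(mv 974 (cons (fin 907 3 906)
(mv 910 (cons (fin 909 2 906)
(fin 911 2 907)))))))))))))))))
(cons (mv 1038 (cons (fin 1039 3 972)
(mv 971 (cons (fin 970 0 970)
(mv 1101 (cons (cons (mv 1165 (cons (fin 908 7 908)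
(mv 1228 (cons (fin 1164 5 972)
(mv 1229 (cons (fin 1292 5 1036)
(fin 1036 7 972)))))))
(mv 909 (cons (cons (mv 1164 (cons (fin 1100 5 908)
(mv 910 (cons (fin 846 6 845)
(mv 911 (cons (fin 908 1 907)
(fin 912 1 908)))))))
(mv 910 (cons (fin 846 6 845)
(mv 911 (cons (fin 908 1 907)
(fin 912 1 908))))))
(cons (mv 1100 (cons (fin 1164 5 908)
(mv 1098 (cons (fin 1099 2 1034)
(mv 845 (cons (fin 1036 5 844)
(mv 782 (cons (fin 846 6 781)
(mv 781 (cons (fin 718 6 717)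
(mv 716 (cons (fin 780 7 716)
(mv 717 (cons (fin 908 5 716)
(fin 652 7 652)))))))))))))))
(cons (mv 1100 (cons (fin 1164 5 908)
(mv 1099 (cons (fin 1098 2 1034)
(mv 1036 (cons (fin 845 5 844)
(mv 1163 (cons (fin 908 5 907)
(mv 1227 (cons (fin 1291 6 1035)
(fin 1035 6 971)))))))))))
(mv 1100 (cons (fin 1164 5 908)
(mv 1098 (cons (fin 1099 2 1034)
(mv 845 (cons (fin 1036 5 844)
(mv 846 (cons (fin 910 6 845)
(fin 782 6 781))))))))))))))
(cons (mv 1165 (cons (cons (mv 1228 (cons (fin 1164 5 972)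
(mv 1229 (cons (fin 1292 5 1036)
(fin 1036 7 972)))))
(mv 1230 (cons (fin 1166 4 973)
(mv 1164 (cons (fin 1228 5 972)
(mv 1100 (cons (fin 909 5 908)
(mv 1098 (cons (fin 1099 2 1034)
(mv 1036 (cons (fin 907 7 907)
(mv 1163 (cons (fin 1227 5 971)
(mv 1162 (cons (fin 1097 3 1097)
(fin 1161 2 1097))))))))))))))))
(cons (mv 1229 (cons (fin 1036 7 972)
(mv 1230 (cons (fin 1294 4 1037)
(fin 1166 4 973)))))
(mv 1228 (cons (fin 1164 5 972)
(mv 1229 (cons (fin 1292 5 1036)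
(mv 1230 (cons (fin 1294 4 1037)
(fin 1166 4 973))))))))))
(cons (mv 1165 (cons (fin 908 7 908)
(mv 1229 (cons (fin 1036 7 972)
(mv 1230 (cons (fin 1294 4 1037)
(fin 1166 4 973)))))))
(mv 1165 (cons (fin 908 7 908)
(mv 1228 (cons (fin 1164 5 972)
(mv 1229 (cons (fin 1292 5 1036)
(mv 1230 (cons (fin 1294 4 1037)
(fin 1166 4 973)))))))))))))))))
(mv 1039 (cons (fin 1038 3 972)
(mv 975 (cons (fin 974 0 972)
(mv 1104 (cons (cons (mv 1168 (cons (fin 1232 7 975)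
(mv 911 (cons (fin 976 7 911)
(fin 1103 4 911)))))
(mv 911 (cons (fin 847 4 847)
(mv 910 (cons (cons (mv 1103 (cons (fin 846 7 846)
(mv 912 (cons (fin 909 1 908)
(fin 848 6 847)))))
(mv 1103 (cons (fin 846 7 846)
(mv 912 (cons (fin 848 6 847)
(mv 1167 (cons (fin 976 5 911)
(mv 1230 (cons (fin 1166 5 974)
(mv 1231 (cons (fin 1294 5 1038)
(fin 1295 6 1039))))))))))))
(cons (mv 912 (cons (fin 909 1 908)
(mv 1103 (cons (fin 848 6 847)
(mv 1167 (cons (fin 976 5 911)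
(mv 1230 (cons (fin 1166 5 974)
(mv 1231 (cons (fin 1294 5 1038)
(fin 1295 6 1039)))))))))))
(cons (mv 846 (cons (fin 1103 7 846)
(mv 1101 (cons (fin 909 6 845)
(mv 1165 (cons (fin 908 7 908)
(mv 1228 (cons (fin 1164 5 972)
(mv 1229 (cons (fin 1292 5 1036)
(fin 1036 7 972)))))))))))
(mv 909 (cons (fin 912 1 908)
(mv 1101 (cons (fin 846 6 845)
(mv 908 (cons (fin 976 0 908)
(fin 1165 7 908))))))))))))))
(cons (mv 1168 (cons (fin 1232 7 975)
(mv 976 (cons (cons (mv 1231 (cons (fin 1167 5 975)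
(mv 1233 (cons (fin 1169 4 976)
(mv 913 (cons (fin 977 6 912)
(mv 912 (cons (fin 849 6 848)
(mv 848 (cons (fin 1103 5 847)
(fin 784 5 783)))))))))))
(cons (mv 1233 (cons (fin 1169 4 976)
(mv 913 (cons (fin 977 6 912)
(mv 912 (cons (fin 849 6 848)
(mv 848 (cons (fin 1103 5 847)
(fin 784 5 783)))))))))
(mv 1231 (cons (fin 1167 5 975)
(mv 913 (cons (fin 977 6 912)
(mv 912 (cons (fin 849 6 848)
(mv 848 (cons (fin 1103 5 847)
(fin 784 5 783)))))))))))
(cons (mv 1231 (cons (fin 1167 5 975)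
(mv 1169 (cons (fin 1233 4 976)
(mv 912 (cons (fin 1105 4 912)
(mv 848 (cons (fin 1103 5 847)
(fin 784 5 783)))))))))
(cons (mv 1231 (cons (fin 1167 5 975)
(mv 1169 (cons (fin 1233 4 976)
(mv 977 (cons (fin 913 6 912)
(mv 978 (cons (fin 979 1 975)
(mv 1042 (cons (fin 1043 0 975)
(mv 914 (cons (fin 915 2 911)
(mv 1106 (cons (fin 1105 5 913)
(mv 1171 (cons (fin 1107 4 914)
(mv 1170 (cons (fin 1103 3 1103)
(fin 1235 4 978)))))))))))))))))))
(mv 1231 (cons (fin 1167 5 975)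
(mv 1169 (cons (fin 1233 4 976)
(mv 1105 (cons (fin 912 4 912)
(mv 1106 (cons (fin 1107 3 1039)
(mv 977 (cons (fin 913 6 912)
(mv 978 (cons (fin 979 1 975)
(mv 1042 (cons (fin 1043 0 975)
(fin 914 5 913)))))))))))))))))))))
(cons (mv 1168 (cons (fin 1232 7 975)
(mv 911 (cons (fin 1103 4 911)
(fin 847 4 847)))))
(mv 1168 (cons (fin 1232 7 975)
(mv 911 (cons (fin 976 7 911)
(fin 847 4 847))))))))))))))))
(cons (cons (mv 1038 (cons (fin 1039 3 972)
(mv 971 (cons (fin 970 0 970)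
(mv 974 (cons (cons (mv 1034 (cons (fin 1035 1 970)
(mv 906 (cons (fin 907 3 906)
(mv 911 (cons (fin 910 2 907)
(mv 975 (cons (fin 912 2 908)
(mv 976 (cons (fin 1036 1 972)
(fin 977 1 973)))))))))))
(cons (mv 906 (cons (fin 907 3 906)
(mv 911 (cons (fin 910 2 907)
(mv 975 (cons (fin 912 2 908)
(mv 976 (cons (fin 1036 1 972)
(fin 977 1 973)))))))))
(mv 1034 (cons (fin 1035 1 970)
(mv 911 (cons (fin 910 2 907)
(mv 975 (cons (fin 912 2 908)
(mv 976 (cons (fin 1036 1 972)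
(fin 977 1 973)))))))))))
(cons (mv 1034 (cons (fin 1035 1 970)
(mv 907 (cons (fin 906 3 906)
(mv 975 (cons (fin 908 3 907)
(mv 976 (cons (fin 1036 1 972)
(fin 977 1 973)))))))))
(cons (mv 1035 (cons (fin 1034 1 970)
(mv 907 (cons (fin 906 3 906)
(mv 910 (cons (fin 911 2 907)
(mv 846 (cons (fin 782 5 781)
(mv 845 (cons (fin 781 7 781)
(mv 847 (cons (fin 783 6 782)
(mv 908 (cons (fin 909 2 843)
(mv 1099 (cons (fin 1163 6 907)
(mv 1098 (cons (fin 1036 1 1034)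
(fin 1162 5 906)))))))))))))))))))
(mv 1034 (cons (fin 1035 1 970)
(mv 907 (cons (fin 906 3 906)
(mv 975 (cons (fin 908 3 907)
(mv 911 (cons (fin 910 2 907)
(fin 912 2 908)))))))))))))))))
(mv 1038 (cons (fin 1039 3 972)
(mv 971 (cons (fin 970 0 970)
(mv 974 (cons (cons (mv 1034 (cons (fin 1035 1 970)
(mv 906 (cons (fin 907 3 906)
(mv 910 (cons (fin 911 2 907)
(mv 1101 (cons (fin 846 5 845)
(fin 1165 6 909)))))))))
(mv 1035 (cons (fin 1034 1 970)
(mv 1036 (cons (fin 975 1 971)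
(mv 1098 (cons (fin 1099 1 1034)
(mv 907 (cons (fin 906 3 906)
(mv 1100 (cons (fin 1164 7 907)
(fin 843 4 843))))))))))))
(cons (mv 906 (cons (fin 907 3 906)
(mv 910 (cons (fin 911 2 907)
(mv 1101 (cons (fin 846 5 845)
(fin 1165 6 909)))))))
(mv 1034 (cons (fin 1035 1 970)
(mv 910 (cons (fin 911 2 907)
(mv 1101 (cons (fin 846 5 845)
(fin 1165 6 909)))))))))))))))
(cons (mv 1038 (cons (fin 1039 3 972)
(mv 971 (cons (fin 970 0 970)
(mv 974 (cons (cons (mv 1034 (cons (fin 1035 1 970)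
(mv 906 (cons (fin 907 3 906)
(mv 910 (cons (fin 911 2 907)
(mv 1101 (cons (fin 846 5 845)
(fin 1165 6 909)))))))))
(mv 1034 (cons (fin 1035 1 970)
(mv 907 (cons (fin 906 3 906)
(mv 975 (cons (fin 908 3 907)
(mv 976 (cons (fin 977 1 973)
(mv 912 (cons (fin 911 2 908)
(fin 913 2 909))))))))))))
(cons (mv 1035 (cons (fin 1034 1 970)
(mv 907 (cons (fin 906 3 906)
(mv 908 (cons (fin 975 3 907)
(mv 1099 (cons (fin 1163 6 907)
(mv 1098 (cons (fin 1162 5 906)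
(mv 1100 (cons (fin 1101 2 1034)
(fin 1164 4 907)))))))))))))
(cons (mv 1034 (cons (fin 1035 1 970)
(mv 910 (cons (fin 911 2 907)
(mv 1101 (cons (fin 846 5 845)
(fin 1165 6 909)))))))
(mv 906 (cons (fin 907 3 906)
(mv 910 (cons (fin 911 2 907)
(mv 1101 (cons (fin 846 5 845)
(fin 1165 6 909)))))))))))))))
(cons (mv 1038 (cons (fin 1039 3 972)
(mv 971 (cons (fin 970 0 970)
(mv 974 (cons (cons (mv 1034 (cons (fin 1035 1 970)
(mv 907 (cons (fin 906 3 906)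
(mv 975 (cons (fin 908 3 907)
(mv 976 (cons (fin 1036 1 972)
(fin 977 1 973)))))))))
(cons (mv 907 (cons (fin 906 3 906)
(mv 975 (cons (fin 908 3 907)
(mv 976 (cons (fin 1036 1 972)
(fin 977 1 973)))))))
(mv 1035 (cons (fin 1034 1 970)
(mv 1036 (cons (fin 975 1 971)
(mv 1099 (cons (fin 1098 1 1034)
(mv 1163 (cons (fin 1227 6 971)
(fin 908 6 907)))))))))))
(cons (mv 1035 (cons (fin 1034 1 970)
(mv 906 (cons (fin 907 3 906)
(mv 1101 (cons (mv 1165 (cons (fin 908 7 908)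
(fin 1229 6 973)))
(cons (mv 1099 (cons (mv 1098 (cons (fin 1036 1 1034)
(fin 1100 2 1034)))
(cons (mv 1163 (cons (fin 908 6 907)
(mv 1226 (cons (fin 1162 5 970)
(mv 1227 (cons (fin 1290 5 1034)
(fin 1036 6 971)))))))
(mv 1163 (cons (fin 908 6 907)
(mv 1226 (cons (fin 1162 5 970)
(mv 1290 (cons (fin 1227 5 1034)
(mv 1164 (cons (fin 1228 4 971)
(mv 1100 (cons (fin 1098 2 1034)
(fin 909 5 908))))))))))))))
(mv 1165 (cons (fin 1229 6 973)
(mv 1164 (cons (fin 1228 5 972)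
(mv 1166 (cons (fin 1230 4 973)
(mv 1100 (cons (fin 909 5 908)
(mv 1167 (cons (fin 1099 3 1099)
(fin 1168 3 1100))))))))))))))))))
(cons (mv 1034 (cons (fin 1035 1 970)
(mv 907 (cons (fin 906 3 906)
(mv 975 (cons (fin 908 3 907)
(mv 976 (cons (fin 977 1 973)
(mv 912 (cons (fin 911 2 908)
(fin 913 2 909)))))))))))
(mv 1035 (cons (fin 1034 1 970)
(mv 1036 (cons (fin 975 1 971)
(mv 1098 (cons (fin 1099 1 1034)
(mv 907 (cons (fin 906 3 906)
(mv 1100 (cons (fin 1164 7 907)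
(fin 843 4 843)))))))))))))))))))
(mv 1038 (cons (fin 1039 3 972)
(mv 971 (cons (fin 970 0 970)
(mv 974 (cons (cons (mv 1034 (cons (fin 1035 1 970)
(mv 907 (cons (fin 906 3 906)
(mv 975 (cons (fin 908 3 907)
(mv 976 (cons (fin 1036 1 972)
(fin 977 1 973)))))))))
(cons (mv 907 (cons (fin 906 3 906)
(mv 975 (cons (fin 908 3 907)
(mv 976 (cons (fin 1036 1 972)
(fin 977 1 973)))))))
(mv 1035 (cons (fin 1034 1 970)
(mv 1036 (cons (fin 975 1 971)
(mv 1099 (cons (fin 1098 1 1034)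
(mv 1163 (cons (fin 1227 6 971)
(fin 908 6 907)))))))))))
(cons (mv 1035 (cons (fin 1034 1 970)
(mv 906 (cons (fin 907 3 906)
(mv 1099 (cons (cons (mv 1163 (cons (fin 908 6 907)
(mv 1036 (cons (fin 1098 1 1034)
(fin 1227 6 971)))))
(mv 1098 (cons (fin 1036 1 1034)
(mv 1101 (cons (fin 1100 2 1034)
(mv 1165 (cons (fin 908 7 908)
(fin 1229 6 973))))))))
(cons (mv 1163 (cons (fin 908 6 907)
(mv 1226 (cons (fin 1162 5 970)
(mv 1227 (cons (fin 1290 5 1034)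
(mv 1228 (cons (fin 1292 4 1035)
(fin 1164 4 971)))))))))
(mv 1098 (cons (fin 1036 1 1034)
(mv 1101 (cons (fin 1100 2 1034)
(mv 1165 (cons (fin 1229 6 973)
(fin 910 6 909))))))))))))))
(cons (mv 1035 (cons (fin 1034 1 970)
(mv 907 (cons (fin 906 3 906)
(mv 908 (cons (fin 975 3 907)
(mv 1099 (cons (fin 1163 6 907)
(mv 1098 (cons (fin 1162 5 906)
(mv 1100 (cons (fin 1101 2 1034)
(fin 1164 4 907)))))))))))))
(mv 1035 (cons (fin 1034 1 970)
(mv 1036 (cons (fin 975 1 971)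
(mv 1098 (cons (fin 1099 1 1034)
(mv 907 (cons (fin 906 3 906)
(mv 1100 (cons (fin 1164 7 907)
(fin 843 4 843))))))))))))))))))))))))
(mv 972 (cons (cons (cons (mv 1038 (cons (fin 1039 3 972)
(mv 971 (cons (fin 970 0 970)
(mv 974 (cons (cons (mv 1034 (cons (fin 1035 1 970)
(mv 906 (cons (fin 907 3 906)
(mv 911 (cons (fin 910 2 907)
(mv 975 (cons (fin 912 2 908)
(mv 976 (cons (fin 1036 1 972)
(fin 977 1 973)))))))))))
(cons (mv 906 (cons (fin 907 3 906)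
(mv 911 (cons (fin 910 2 907)
(mv 975 (cons (fin 912 2 908)
(mv 976 (cons (fin 1036 1 972)
(fin 977 1 973)))))))))
(mv 1034 (cons (fin 1035 1 970)
(mv 911 (cons (fin 910 2 907)
(mv 975 (cons (fin 912 2 908)
(mv 976 (cons (fin 1036 1 972)
(fin 977 1 973)))))))))))
(cons (mv 1034 (cons (fin 1035 1 970)
(mv 907 (cons (fin 906 3 906)
(mv 975 (cons (fin 908 3 907)
(mv 976 (cons (fin 1036 1 972)
(fin 977 1 973)))))))))
(cons (mv 1034 (cons (fin 1035 1 970)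
(mv 907 (cons (fin 906 3 906)
(mv 910 (cons (fin 911 2 907)
(mv 1101 (cons (fin 1165 6 909)
(mv 909 (cons (cons (mv 1164 (cons (fin 1100 5 908)
(mv 908 (cons (fin 844 7 844)
(mv 843 (cons (fin 842 3 842)
(mv 779 (cons (fin 1036 4 779)
(fin 715 4 715)))))))))
(mv 908 (cons (fin 844 7 844)
(mv 843 (cons (fin 842 3 842)
(mv 779 (cons (fin 1036 4 779)
(fin 715 4 715))))))))
(cons (mv 1100 (cons (fin 1164 5 908)
(mv 845 (cons (fin 1036 5 844)
(fin 781 4 781)))))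
(mv 1164 (cons (fin 1100 5 908)
(mv 844 (cons (fin 908 7 844)
(mv 845 (cons (fin 780 7 780)
(fin 781 4 781))))))))))))))))))
(mv 1034 (cons (fin 1035 1 970)
(mv 907 (cons (fin 906 3 906)
(mv 975 (cons (fin 908 3 907)
(mv 911 (cons (fin 910 2 907)
(fin 912 2 908)))))))))))))))))
(mv 908 (cons (cons (mv 1101 (cons (fin 1165 7 908)
(mv 844 (cons (fin 909 7 844)
(fin 1036 4 844)))))
(mv 1165 (cons (fin 1101 7 908)
(mv 974 (cons (mv 975 (cons (fin 907 3 907)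
(fin 1039 0 972)))
(cons (mv 971 (cons (cons (mv 1034 (cons (fin 1035 1 970)
(mv 970 (cons (fin 1033 1 969)
(mv 969 (cons (fin 1036 0 969)
(fin 909 2 905)))))))
(mv 906 (cons (fin 907 3 906)
(mv 970 (cons (fin 905 3 905)
(mv 969 (cons (fin 1036 0 969)
(fin 909 2 905))))))))
(cons (mv 1035 (cons (fin 1034 1 970)
(mv 1099 (cons (fin 1163 6 907)
(mv 907 (cons (fin 906 3 906)
(mv 1162 (cons (fin 1098 5 906)
(mv 1100 (cons (fin 1164 4 907)
(mv 910 (cons (fin 911 2 907)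
(mv 843 (cons (fin 1036 7 843)
(mv 842 (cons (fin 909 3 842)
(fin 778 7 778)))))))))))))))))
(mv 1034 (cons (fin 1035 1 970)
(mv 970 (cons (fin 1033 1 969)
(mv 906 (cons (fin 905 3 905)
(fin 907 3 906))))))))))
(mv 975 (cons (fin 1039 0 972)
(mv 1036 (cons (fin 1035 1 971)
(fin 976 1 972)))))))))))
(cons (mv 844 (cons (fin 780 4 780)
(mv 1036 (cons (mv 1099 (cons (fin 1035 5 843)
(mv 1100 (cons (fin 1163 5 907)
(mv 1164 (cons (fin 1228 6 972)
(fin 909 6 908)))))))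
(cons (mv 843 (cons (fin 779 7 779)
(mv 1100 (cons (fin 907 7 843)
(mv 1164 (cons (fin 1228 6 972)
(fin 909 6 908)))))))
(mv 1035 (cons (fin 1099 5 843)
(mv 1034 (cons (fin 1033 2 969)
(fin 974 2 970))))))))))
(cons (mv 1101 (cons (fin 1165 7 908)
(mv 844 (cons (fin 909 7 844)
(fin 780 4 780)))))
(mv 1101 (cons (fin 1165 7 908)
(mv 844 (cons (fin 1036 4 844)
(fin 780 4 780))))))))))
(cons (mv 908 (cons (cons (mv 1101 (cons (fin 1165 7 908)
(mv 844 (cons (fin 909 7 844)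
(fin 1036 4 844)))))
(mv 1165 (cons (fin 1101 7 908)
(mv 907 (cons (cons (mv 974 (cons (fin 975 3 907)
(mv 906 (cons (fin 971 3 906)
(fin 905 0 905)))))
(mv 906 (cons (fin 905 0 905)
(mv 909 (cons (cons (mv 969 (cons (fin 970 1 905)
(mv 842 (cons (fin 841 3 841)
(mv 910 (cons (fin 843 3 842)
(mv 911 (cons (fin 971 1 907)
(fin 912 1 908)))))))))
(mv 842 (cons (fin 841 3 841)
(mv 910 (cons (fin 843 3 842)
(mv 911 (cons (fin 971 1 907)
(fin 912 1 908))))))))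
(cons (mv 970 (cons (fin 969 1 905)
(mv 971 (cons (fin 910 1 906)
(fin 1038 0 970)))))
(cons (mv 970 (cons (fin 969 1 905)
(mv 842 (cons (fin 841 3 841)
(mv 843 (cons (fin 910 3 842)
(mv 1034 (cons (fin 1098 6 842)
(fin 779 6 778)))))))))
(mv 970 (cons (fin 969 1 905)
(mv 971 (cons (fin 1038 0 970)
(mv 1033 (cons (fin 1034 1 969)
(mv 842 (cons (fin 841 3 841)
(mv 1035 (cons (fin 1099 7 842)
(fin 778 4 778))))))))))))))))))
(cons (mv 974 (cons (fin 975 3 907)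
(mv 971 (cons (mv 1034 (cons (fin 1035 1 970)
(mv 970 (cons (fin 1033 1 969)
(fin 1038 0 970)))))
(cons (mv 1035 (cons (fin 1034 1 970)
(mv 1099 (cons (fin 1163 6 907)
(mv 1162 (cons (fin 1098 5 906)
(mv 1100 (cons (fin 1164 4 907)
(mv 910 (cons (fin 911 2 907)
(mv 843 (cons (fin 1036 7 843)
(mv 842 (cons (fin 909 3 842)
(fin 778 7 778)))))))))))))))
(mv 970 (cons (fin 1038 0 970)
(mv 969 (cons (fin 1036 0 969)
(fin 968 2 904))))))))))
(mv 974 (cons (fin 975 3 907)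
(mv 906 (cons (fin 905 0 905)
(fin 909 0 906)))))))))))
(cons (mv 844 (cons (fin 780 4 780)
(mv 1036 (cons (mv 1099 (cons (fin 1035 5 843)
(mv 1100 (cons (fin 1163 5 907)
(mv 1164 (cons (fin 1228 6 972)
(fin 909 6 908)))))))
(cons (mv 843 (cons (fin 779 7 779)
(mv 1100 (cons (fin 907 7 843)
(mv 1164 (cons (fin 1228 6 972)
(fin 909 6 908)))))))
(mv 1035 (cons (fin 1099 5 843)
(mv 1034 (cons (fin 1033 2 969)
(fin 974 2 970))))))))))
(cons (mv 1101 (cons (fin 1165 7 908)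
(mv 844 (cons (fin 909 7 844)
(fin 780 4 780)))))
(mv 1101 (cons (fin 1165 7 908)
(mv 844 (cons (fin 1036 4 844)
(fin 780 4 780)))))))))
(mv 1038 (cons (fin 1039 3 972)
(mv 971 (cons (fin 970 0 970)
(mv 974 (cons (cons (mv 1034 (cons (fin 1035 1 970)
(mv 906 (cons (fin 907 3 906)
(mv 911 (cons (fin 910 2 907)
(mv 975 (cons (fin 912 2 908)
(mv 976 (cons (fin 1036 1 972)
(fin 977 1 973)))))))))))
(cons (mv 906 (cons (fin 907 3 906)
(mv 911 (cons (fin 910 2 907)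
(mv 975 (cons (fin 912 2 908)
(mv 976 (cons (fin 1036 1 972)
(fin 977 1 973)))))))))
(mv 1035 (cons (fin 1034 1 970)
(mv 1036 (cons (fin 975 1 971)
(mv 1098 (cons (fin 1099 1 1034)
(mv 907 (cons (fin 906 3 906)
(mv 1100 (cons (fin 1164 7 907)
(fin 843 4 843)))))))))))))
(cons (mv 1034 (cons (fin 1035 1 970)
(mv 911 (cons (fin 910 2 907)
(mv 975 (cons (fin 912 2 908)
(mv 976 (cons (fin 1036 1 972)
(fin 977 1 973)))))))))
(cons (mv 1035 (cons (fin 1034 1 970)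
(mv 906 (cons (fin 907 3 906)
(mv 910 (cons (fin 911 2 907)
(mv 1099 (cons (cons (mv 1165 (cons (fin 1101 6 909)
(mv 1036 (cons (fin 1098 1 1034)
(mv 1163 (cons (fin 1227 6 971)
(mv 1226 (cons (fin 1162 5 970)
(mv 1164 (cons (fin 1228 4 971)
(mv 1100 (cons (fin 1229 4 972)
(fin 909 6 908)))))))))))))
(cons (mv 1163 (cons (mv 1036 (cons (fin 1098 1 1034)
(fin 1227 6 971)))
(cons (mv 1226 (cons (fin 1162 5 970)
(mv 1227 (cons (fin 1290 5 1034)
(mv 1228 (cons (fin 1292 4 1035)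
(fin 1164 4 971)))))))
(mv 1226 (cons (fin 1162 5 970)
(mv 1164 (cons (fin 1228 4 971)
(mv 1098 (cons (fin 1036 1 1034)
(mv 1165 (cons (fin 1166 3 1098)
(mv 1097 (cons (fin 1096 0 1096)
(fin 1100 0 1097))))))))))))))
(mv 1101 (cons (fin 1165 6 909)
(mv 1100 (cons (fin 1098 2 1034)
(mv 1164 (cons (fin 909 5 908)
(mv 1228 (cons (fin 1292 7 1035)
(fin 1163 4 971)))))))))))
(cons (cons (mv 1101 (cons (fin 1165 6 909)
(mv 1163 (cons (mv 1226 (cons (fin 1162 5 970)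
(mv 1227 (cons (fin 1290 5 1034)
(fin 1036 6 971)))))
(cons (mv 1162 (cons (fin 1226 5 970)
(mv 1164 (cons (fin 1228 4 971)
(mv 1100 (cons (fin 1161 2 1097)
(fin 909 5 908)))))))
(mv 1227 (cons (fin 1036 6 971)
(mv 1228 (cons (fin 1292 4 1035)
(fin 1164 4 971))))))))))
(mv 1036 (cons (fin 1098 1 1034)
(mv 1163 (cons (fin 1227 6 971)
(mv 1162 (cons (fin 1226 5 970)
(mv 1164 (cons (fin 1228 4 971)
(mv 1100 (cons (fin 909 6 908)
(mv 1161 (cons (fin 1160 2 1096)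
(fin 1101 2 1097))))))))))))))
(cons (mv 1098 (cons (fin 1036 1 1034)
(mv 1101 (cons (fin 1100 2 1034)
(fin 1165 6 909)))))
(mv 1165 (cons (fin 1101 6 909)
(mv 1163 (cons (mv 1036 (cons (fin 1098 1 1034)
(fin 1227 6 971)))
(cons (mv 1226 (cons (fin 1162 5 970)
(mv 1227 (cons (fin 1290 5 1034)
(mv 1228 (cons (fin 1292 4 1035)
(fin 1164 4 971)))))))
(mv 1226 (cons (fin 1162 5 970)
(mv 1164 (cons (fin 1228 4 971)
(mv 1098 (cons (fin 1036 1 1034)
(fin 1166 3 1098))))))))))))))))))))))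
(mv 1035 (cons (fin 1034 1 970)
(mv 907 (cons (fin 906 3 906)
(mv 910 (cons (fin 911 2 907)
(mv 1099 (cons (cons (mv 1162 (cons (fin 1098 5 906)
(mv 1163 (cons (fin 1226 5 970)
(mv 1164 (cons (fin 1228 4 971)
(fin 1100 4 907)))))))
(mv 1098 (cons (fin 1162 5 906)
(mv 1101 (cons (fin 1100 2 1034)
(fin 1165 6 909))))))
(cons (mv 1165 (cons (fin 1101 6 909)
(mv 1163 (cons (cons (mv 1162 (cons (fin 1226 5 970)
(fin 1098 5 906)))
(mv 1164 (cons (fin 1228 4 971)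
(mv 1166 (cons (fin 1098 3 1098)
(mv 1226 (cons (fin 1227 1 1162)
(mv 1231 (cons (fin 1230 0 1163)
(mv 1167 (cons (fin 1232 0 1164)
(mv 1104 (cons (fin 1103 2 1100)
(mv 1168 (cons (fin 1105 2 1101)
(fin 976 5 975))))))))))))))))
(cons (mv 1164 (cons (fin 1228 4 971)
(mv 1098 (cons (fin 1166 3 1098)
(fin 1162 5 906)))))
(mv 1226 (cons (fin 1162 5 970)
(mv 1227 (cons (fin 1290 5 1034)
(mv 1228 (cons (fin 1292 4 1035)
(fin 1164 4 971))))))))))))
(cons (mv 1164 (cons (fin 1100 4 907)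
(mv 1163 (cons (fin 1228 4 971)
(mv 1226 (cons (fin 1162 5 970)
(mv 1227 (cons (fin 1290 5 1034)
(mv 1165 (cons (fin 1166 1 1162)
(fin 1101 6 909)))))))))))
(mv 1164 (cons (fin 1100 4 907)
(mv 1163 (cons (fin 1228 4 971)
(mv 1165 (cons (fin 1101 6 909)
(mv 1166 (cons (fin 1098 3 1098)
(mv 1226 (cons (fin 1227 1 1162)
(mv 1231 (cons (fin 1230 0 1163)
(mv 1167 (cons (fin 1232 0 1164)
(mv 1104 (cons (fin 1103 2 1100)
(mv 1168 (cons (fin 1105 2 1101)
(fin 976 5 975)))))))))))))))))))))))))))))))))))))))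
(cons (cons (mv 1038 (cons (fin 1039 3 972)
(mv 971 (cons (fin 970 0 970)
(mv 908 (cons (cons (mv 1101 (cons (fin 1165 7 908)
(mv 844 (cons (fin 909 7 844)
(fin 1036 4 844)))))
(mv 1101 (cons (fin 1165 7 908)
(mv 1100 (cons (mv 1164 (cons (fin 909 5 908)
(mv 1228 (cons (fin 1292 6 1036)
(fin 1036 6 972)))))
(cons (mv 1099 (cons (fin 1098 2 1034)
(mv 1163 (cons (fin 1036 5 907)
(fin 1035 6 907)))))
(mv 1164 (cons (fin 909 5 908)
(mv 1292 (cons (fin 1228 6 1036)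
(mv 1099 (cons (fin 1098 2 1034)
(mv 1035 (cons (fin 907 4 907)
(fin 1163 6 907)))))))))))))))
(cons (mv 844 (cons (fin 780 4 780)
(mv 1036 (cons (cons (mv 1099 (cons (fin 1035 5 843)
(mv 1100 (cons (fin 1163 5 907)
(mv 1164 (cons (fin 907 7 907)
(fin 1228 6 972)))))))
(mv 843 (cons (fin 779 7 779)
(mv 1100 (cons (fin 907 7 843)
(mv 1164 (cons (fin 1228 6 972)
(fin 909 6 908))))))))
(cons (mv 1035 (cons (fin 1099 5 843)
(mv 1034 (cons (fin 1033 2 969)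
(mv 1098 (cons (fin 1097 1 1033)
(mv 843 (cons (fin 907 5 842)
(fin 779 7 779)))))))))
(mv 1099 (cons (fin 1035 5 843)
(mv 1100 (cons (fin 1163 5 907)
(mv 1164 (cons (fin 1228 6 972)
(fin 909 6 908))))))))))))
(cons (mv 1101 (cons (fin 1165 7 908)
(mv 844 (cons (fin 1036 4 844)
(fin 780 4 780)))))
(mv 1101 (cons (fin 1165 7 908)
(mv 844 (cons (fin 909 7 844)
(fin 780 4 780)))))))))))))
(mv 1038 (cons (fin 1039 3 972)
(mv 1101 (cons (cons (mv 1165 (cons (fin 908 7 908)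
(mv 1229 (cons (fin 1036 7 972)
(fin 974 6 973)))))
(mv 909 (cons (cons (mv 1164 (cons (fin 1100 5 908)
(mv 844 (cons (fin 908 7 844)
(mv 845 (cons (fin 780 7 780)
(mv 781 (cons (fin 1036 5 780)
(fin 974 4 781)))))))))
(cons (mv 844 (cons (fin 908 7 844)
(mv 845 (cons (fin 780 7 780)
(mv 781 (cons (fin 1036 5 780)
(fin 974 4 781)))))))
(mv 1100 (cons (fin 1164 5 908)
(mv 1098 (cons (fin 1099 2 1034)
(mv 845 (cons (fin 1036 5 844)
(mv 781 (cons (fin 974 4 781)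
(mv 780 (cons (fin 716 7 716)
(mv 717 (cons (fin 908 5 716)
(mv 718 (cons (fin 782 6 717)
(fin 654 6 653)))))))))))))))))
(cons (cons (mv 1100 (cons (fin 1164 5 908)
(mv 1098 (cons (fin 1099 2 1034)
(mv 845 (cons (fin 1036 5 844)
(mv 780 (cons (fin 844 7 780)
(mv 781 (cons (fin 716 7 716)
(fin 974 4 781)))))))))))
(mv 1164 (cons (fin 1100 5 908)
(mv 845 (cons (cons (mv 844 (cons (fin 908 7 844)
(fin 780 7 780)))
(mv 781 (cons (fin 974 4 781)
(mv 780 (cons (fin 716 7 716)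
(mv 717 (cons (fin 908 5 716)
(mv 718 (cons (fin 782 6 717)
(fin 654 6 653))))))))))
(cons (mv 780 (cons (fin 844 7 780)
(mv 781 (cons (fin 716 7 716)
(fin 974 4 781)))))
(mv 974 (cons (fin 781 4 781)
(mv 908 (cons (fin 844 7 844)
(mv 975 (cons (fin 907 3 907)
(fin 976 3 908)))))))))))))
(cons (mv 1100 (cons (fin 1164 5 908)
(mv 1099 (cons (fin 1098 2 1034)
(mv 908 (cons (fin 844 7 844)
(mv 1036 (cons (fin 1163 5 907)
(mv 907 (cons (fin 843 7 843)
(mv 974 (cons (fin 975 3 907)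
(fin 906 0 906)))))))))))))
(mv 1100 (cons (fin 1164 5 908)
(mv 1098 (cons (fin 1099 2 1034)
(mv 844 (cons (fin 908 7 844)
(mv 845 (cons (fin 1036 5 844)
(fin 780 7 780))))))))))))))
(cons (mv 1165 (cons (mv 1229 (cons (fin 1036 7 972)
(fin 974 6 973)))
(mv 1164 (cons (fin 1228 5 972)
(mv 1166 (cons (fin 1230 4 973)
(mv 1100 (cons (fin 909 5 908)
(mv 1167 (cons (fin 1099 3 1099)
(fin 1168 3 1100)))))))))))
(cons (mv 1165 (cons (fin 908 7 908)
(mv 974 (cons (fin 1229 6 973)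
(fin 910 6 909)))))
(mv 1165 (cons (fin 908 7 908)
(mv 1228 (cons (fin 1164 5 972)
(mv 1229 (cons (fin 1292 5 1036)
(fin 1036 7 972))))))))))))))
(cons (mv 1038 (cons (fin 1039 3 972)
(mv 971 (cons (fin 970 0 970)
(mv 974 (cons (cons (mv 1034 (cons (fin 1035 1 970)
(mv 906 (cons (fin 907 3 906)
(mv 911 (cons (fin 910 2 907)
(mv 975 (cons (fin 912 2 908)
(mv 976 (cons (fin 1036 1 972)
(fin 977 1 973)))))))))))
(cons (mv 906 (cons (fin 907 3 906)
(mv 911 (cons (fin 910 2 907)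
(mv 975 (cons (fin 912 2 908)
(mv 976 (cons (fin 1036 1 972)
(fin 977 1 973)))))))))
(mv 1034 (cons (fin 1035 1 970)
(mv 911 (cons (fin 910 2 907)
(mv 975 (cons (fin 912 2 908)
(mv 976 (cons (fin 1036 1 972)
(fin 977 1 973)))))))))))
(cons (mv 1034 (cons (fin 1035 1 970)
(mv 907 (cons (fin 906 3 906)
(mv 975 (cons (fin 908 3 907)
(mv 976 (cons (fin 1036 1 972)
(fin 977 1 973)))))))))
(cons (mv 1035 (cons (fin 1034 1 970)
(mv 907 (cons (fin 906 3 906)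
(mv 910 (cons (fin 911 2 907)
(mv 1099 (cons (mv 1098 (cons (fin 1036 1 1034)
(fin 1162 5 906)))
(mv 908 (cons (fin 1163 6 907)
(fin 844 6 843)))))))))))
(mv 1034 (cons (fin 1035 1 970)
(mv 907 (cons (fin 906 3 906)
(mv 975 (cons (fin 908 3 907)
(mv 911 (cons (fin 910 2 907)
(fin 912 2 908)))))))))))))))))
(cons (mv 1038 (cons (fin 1039 3 972)
(mv 971 (cons (fin 970 0 970)
(mv 974 (cons (cons (mv 1034 (cons (fin 1035 1 970)
(mv 907 (cons (fin 906 3 906)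
(mv 975 (cons (fin 908 3 907)
(mv 911 (cons (fin 910 2 907)
(fin 912 2 908)))))))))
(mv 1034 (cons (fin 1035 1 970)
(mv 907 (cons (fin 906 3 906)
(mv 908 (cons (fin 975 3 907)
(mv 1101 (cons (fin 1165 7 908)
(mv 844 (cons (fin 909 7 844)
(fin 780 4 780))))))))))))
(cons (mv 1035 (cons (fin 1034 1 970)
(mv 910 (cons (fin 911 2 907)
(mv 1101 (cons (fin 1165 6 909)
(mv 1099 (cons (cons (mv 1163 (cons (fin 908 6 907)
(mv 1226 (cons (fin 1162 5 970)
(mv 1290 (cons (fin 1227 5 1034)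
(mv 1164 (cons (fin 1228 4 971)
(mv 1100 (cons (fin 1098 2 1034)
(fin 909 5 908)))))))))))
(mv 1100 (cons (fin 1098 2 1034)
(mv 1164 (cons (fin 909 5 908)
(mv 1228 (cons (fin 1292 7 1035)
(fin 1163 4 971))))))))
(cons (mv 1100 (cons (fin 1098 2 1034)
(mv 909 (cons (fin 1164 5 908)
(mv 844 (cons (fin 908 7 844)
(mv 845 (cons (fin 780 7 780)
(fin 781 4 781)))))))))
(cons (mv 1163 (cons (fin 908 6 907)
(mv 1226 (cons (fin 1162 5 970)
(mv 1227 (cons (fin 1290 5 1034)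
(mv 1228 (cons (fin 1292 4 1035)
(fin 1164 4 971)))))))))
(mv 1098 (cons (fin 1100 2 1034)
(mv 908 (cons (fin 1163 6 907)
(mv 844 (cons (fin 780 5 779)
(fin 909 7 844)))))))))))))))))
(cons (mv 907 (cons (fin 906 3 906)
(mv 975 (cons (fin 908 3 907)
(mv 911 (cons (fin 910 2 907)
(fin 912 2 908)))))))
(mv 1035 (cons (fin 1034 1 970)
(mv 907 (cons (fin 906 3 906)
(mv 910 (cons (fin 911 2 907)
(mv 1099 (cons (cons (mv 1162 (cons (fin 1098 5 906)
(mv 1163 (cons (fin 1226 5 970)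
(mv 1164 (cons (fin 1228 4 971)
(fin 1100 4 907)))))))
(mv 1098 (cons (fin 1162 5 906)
(mv 1101 (cons (fin 1100 2 1034)
(fin 1165 6 909))))))
(cons (mv 1165 (cons (fin 1101 6 909)
(mv 1163 (cons (cons (mv 1162 (cons (fin 1226 5 970)
(fin 1098 5 906)))
(mv 1164 (cons (fin 1228 4 971)
(mv 1166 (cons (fin 1098 3 1098)
(mv 1226 (cons (fin 1227 1 1162)
(mv 1231 (cons (fin 1230 0 1163)
(mv 1167 (cons (fin 1232 0 1164)
(mv 1104 (cons (fin 1103 2 1100)
(mv 1168 (cons (fin 1105 2 1101)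
(fin 976 5 975))))))))))))))))
(cons (mv 1164 (cons (fin 1228 4 971)
(mv 1098 (cons (fin 1166 3 1098)
(fin 1162 5 906)))))
(mv 1226 (cons (fin 1162 5 970)
(mv 1227 (cons (fin 1290 5 1034)
(mv 1228 (cons (fin 1292 4 1035)
(fin 1164 4 971))))))))))))
(cons (mv 1164 (cons (fin 1100 4 907)
(mv 1163 (cons (fin 1228 4 971)
(mv 1226 (cons (fin 1162 5 970)
(mv 1227 (cons (fin 1290 5 1034)
(mv 1165 (cons (fin 1166 1 1162)
(fin 1101 6 909)))))))))))
(mv 1164 (cons (fin 1100 4 907)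
(mv 1163 (cons (fin 1228 4 971)
(mv 1165 (cons (fin 1101 6 909)
(mv 1166 (cons (fin 1098 3 1098)
(mv 1226 (cons (fin 1227 1 1162)
(mv 1231 (cons (fin 1230 0 1163)
(mv 1167 (cons (fin 1232 0 1164)
(mv 1104 (cons (fin 1103 2 1100)
(mv 1168 (cons (fin 1105 2 1101)
(fin 976 5 975)))))))))))))))))))))))))))))))))))))
(mv 1038 (cons (fin 1039 3 972)
(mv 971 (cons (fin 970 0 970)
(mv 974 (cons (cons (mv 1034 (cons (fin 1035 1 970)
(mv 911 (cons (fin 910 2 907)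
(mv 975 (cons (fin 912 2 908)
(mv 976 (cons (fin 1036 1 972)
(fin 977 1 973)))))))))
(mv 911 (cons (fin 910 2 907)
(mv 975 (cons (fin 912 2 908)
(mv 976 (cons (fin 1036 1 972)
(fin 977 1 973))))))))
(cons (mv 1035 (cons (fin 1034 1 970)
(mv 1036 (cons (fin 975 1 971)
(mv 1099 (cons (fin 1098 1 1034)
(mv 1163 (cons (fin 1227 6 971)
(fin 908 6 907)))))))))
(cons (mv 1035 (cons (fin 1034 1 970)
(mv 910 (cons (fin 911 2 907)
(mv 1101 (cons (fin 1165 6 909)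
(mv 908 (cons (mv 844 (cons (fin 780 5 779)
(fin 909 7 844)))
(mv 1099 (cons (fin 1163 6 907)
(mv 1098 (cons (fin 1036 1 1034)
(fin 1100 2 1034)))))))))))))
(mv 1035 (cons (fin 1034 1 970)
(mv 910 (cons (fin 911 2 907)
(mv 1101 (cons (fin 1165 6 909)
(mv 1099 (cons (cons (mv 1163 (cons (fin 908 6 907)
(mv 1226 (cons (fin 1162 5 970)
(mv 1290 (cons (fin 1227 5 1034)
(mv 1164 (cons (fin 1228 4 971)
(mv 1100 (cons (fin 1098 2 1034)
(fin 909 5 908)))))))))))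
(mv 1100 (cons (fin 1098 2 1034)
(mv 1164 (cons (fin 909 5 908)
(mv 1228 (cons (fin 1292 7 1035)
(fin 1163 4 971))))))))
(cons (mv 1100 (cons (fin 1098 2 1034)
(mv 909 (cons (fin 1164 5 908)
(mv 844 (cons (fin 908 7 844)
(mv 845 (cons (fin 780 7 780)
(fin 781 4 781)))))))))
(cons (mv 1163 (cons (fin 908 6 907)
(mv 1226 (cons (fin 1162 5 970)
(mv 1227 (cons (fin 1290 5 1034)
(mv 1228 (cons (fin 1292 4 1035)
(fin 1164 4 971)))))))))
(mv 1098 (cons (fin 1100 2 1034)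
(mv 908 (cons (fin 1163 6 907)
(mv 844 (cons (fin 780 5 779)
(fin 909 7 844)))))))))))))))))))))))))))))))))
(cons (cons (mv 972 (cons (cons (cons (mv 1038 (cons (fin 1039 3 972)
(mv 971 (cons (fin 970 0 970)
(mv 974 (cons (cons (mv 1034 (cons (fin 1035 1 970)
(mv 906 (cons (fin 907 3 906)
(mv 910 (cons (fin 911 2 907)
(mv 1101 (cons (fin 846 5 845)
(fin 1165 6 909)))))))))
(mv 1034 (cons (fin 1035 1 970)
(mv 907 (cons (fin 906 3 906)
(mv 908 (cons (fin 975 3 907)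
(mv 1101 (cons (fin 1165 7 908)
(mv 844 (cons (fin 909 7 844)
(fin 1036 4 844))))))))))))
(cons (mv 906 (cons (fin 907 3 906)
(mv 910 (cons (fin 911 2 907)
(mv 1101 (cons (fin 846 5 845)
(fin 1165 6 909)))))))
(cons (mv 1034 (cons (fin 1035 1 970)
(mv 910 (cons (fin 911 2 907)
(mv 1101 (cons (fin 846 5 845)
(fin 1165 6 909)))))))
(mv 1034 (cons (fin 1035 1 970)
(mv 907 (cons (fin 906 3 906)
(mv 975 (cons (fin 908 3 907)
(mv 911 (cons (fin 910 2 907)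
(fin 912 2 908)))))))))))))))))
(mv 908 (cons (cons (mv 1101 (cons (fin 1165 7 908)
(mv 844 (cons (fin 909 7 844)
(fin 1036 4 844)))))
(mv 1165 (cons (fin 1101 7 908)
(mv 974 (cons (mv 975 (cons (fin 907 3 907)
(fin 1039 0 972)))
(cons (mv 971 (cons (cons (mv 1034 (cons (fin 1035 1 970)
(mv 1033 (cons (fin 970 1 969)
(mv 907 (cons (fin 906 3 906)
(mv 910 (cons (fin 911 2 907)
(mv 846 (cons (fin 782 5 781)
(mv 909 (cons (fin 847 2 843)
(mv 843 (cons (fin 842 3 842)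
(mv 1036 (cons (fin 1100 7 843)
(fin 779 4 779)))))))))))))))))
(mv 1034 (cons (fin 1035 1 970)
(mv 970 (cons (fin 1033 1 969)
(mv 969 (cons (fin 1036 0 969)
(fin 909 2 905))))))))
(cons (mv 906 (cons (fin 907 3 906)
(mv 970 (cons (fin 905 3 905)
(mv 969 (cons (fin 1036 0 969)
(fin 909 2 905)))))))
(cons (mv 1034 (cons (fin 1035 1 970)
(mv 907 (cons (fin 906 3 906)
(mv 910 (cons (fin 911 2 907)
(mv 846 (cons (fin 782 5 781)
(mv 909 (cons (fin 847 2 843)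
(mv 843 (cons (fin 842 3 842)
(mv 1036 (cons (fin 1100 7 843)
(fin 779 4 779)))))))))))))))
(mv 1034 (cons (fin 1035 1 970)
(mv 970 (cons (fin 1033 1 969)
(mv 906 (cons (fin 905 3 905)
(fin 907 3 906)))))))))))
(mv 975 (cons (fin 1039 0 972)
(mv 1035 (cons (fin 1036 1 971)
(mv 971 (cons (fin 1034 1 970)
(mv 911 (cons (fin 910 2 907)
(fin 912 2 908)))))))))))))))
(cons (mv 844 (cons (fin 780 4 780)
(mv 1036 (cons (mv 1099 (cons (fin 1035 5 843)
(mv 1100 (cons (fin 1163 5 907)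
(mv 1164 (cons (fin 1228 6 972)
(fin 909 6 908)))))))
(cons (mv 843 (cons (fin 779 7 779)
(mv 1100 (cons (fin 907 7 843)
(mv 1164 (cons (fin 1228 6 972)
(fin 909 6 908)))))))
(mv 1035 (cons (fin 1099 5 843)
(mv 1034 (cons (fin 1033 2 969)
(fin 974 2 970))))))))))
(cons (mv 1101 (cons (fin 1165 7 908)
(mv 844 (cons (fin 909 7 844)
(fin 780 4 780)))))
(mv 1101 (cons (fin 1165 7 908)
(mv 844 (cons (fin 1036 4 844)
(fin 780 4 780))))))))))
(cons (mv 908 (cons (cons (mv 1101 (cons (fin 1165 7 908)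
(mv 844 (cons (fin 909 7 844)
(fin 1036 4 844)))))
(mv 1165 (cons (fin 1101 7 908)
(mv 907 (cons (cons (mv 974 (cons (fin 975 3 907)
(mv 906 (cons (fin 971 3 906)
(fin 905 0 905)))))
(mv 974 (cons (fin 975 3 907)
(mv 971 (cons (mv 1034 (cons (fin 1035 1 970)
(mv 970 (cons (fin 1033 1 969)
(fin 1038 0 970)))))
(cons (mv 1034 (cons (fin 1035 1 970)
(mv 910 (cons (fin 911 2 907)
(mv 846 (cons (fin 782 5 781)
(mv 909 (cons (fin 847 2 843)
(mv 843 (cons (fin 842 3 842)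
(mv 1036 (cons (fin 1100 7 843)
(fin 779 4 779)))))))))))))
(mv 1038 (cons (fin 970 0 970)
(mv 910 (cons (fin 911 2 907)
(mv 846 (cons (fin 782 5 781)
(mv 847 (cons (fin 909 2 843)
(fin 783 6 782)))))))))))))))
(cons (mv 906 (cons (fin 905 0 905)
(mv 909 (cons (cons (mv 969 (cons (fin 970 1 905)
(mv 841 (cons (fin 842 3 841)
(mv 845 (cons (fin 846 2 842)
(mv 1036 (cons (fin 1100 5 844)
(fin 781 5 780)))))))))
(mv 969 (cons (fin 970 1 905)
(mv 842 (cons (fin 841 3 841)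
(mv 910 (cons (fin 843 3 842)
(mv 911 (cons (fin 971 1 907)
(fin 912 1 908))))))))))
(cons (mv 841 (cons (fin 842 3 841)
(mv 845 (cons (fin 846 2 842)
(mv 1036 (cons (fin 1100 5 844)
(fin 781 5 780)))))))
(mv 969 (cons (fin 970 1 905)
(mv 845 (cons (fin 846 2 842)
(mv 1036 (cons (fin 1100 5 844)
(fin 781 5 780))))))))))))
(mv 974 (cons (fin 975 3 907)
(mv 906 (cons (fin 905 0 905)
(fin 909 0 906)))))))))))
(cons (mv 844 (cons (fin 780 4 780)
(mv 1036 (cons (mv 1099 (cons (fin 1035 5 843)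
(mv 1100 (cons (fin 1163 5 907)
(mv 1164 (cons (fin 1228 6 972)
(fin 909 6 908)))))))
(cons (mv 843 (cons (fin 779 7 779)
(mv 1100 (cons (fin 907 7 843)
(mv 1164 (cons (fin 1228 6 972)
(fin 909 6 908)))))))
(mv 1035 (cons (fin 1099 5 843)
(mv 1034 (cons (fin 1033 2 969)
(fin 974 2 970))))))))))
(cons (mv 1101 (cons (fin 1165 7 908)
(mv 844 (cons (fin 909 7 844)
(fin 780 4 780)))))
(mv 1101 (cons (fin 1165 7 908)
(mv 844 (cons (fin 1036 4 844)
(fin 780 4 780)))))))))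
(cons (mv 1038 (cons (fin 1039 3 972)
(mv 971 (cons (fin 970 0 970)
(mv 974 (cons (cons (mv 1034 (cons (fin 1035 1 970)
(mv 906 (cons (fin 907 3 906)
(mv 910 (cons (fin 911 2 907)
(mv 1101 (cons (fin 846 5 845)
(fin 1165 6 909)))))))))
(mv 1035 (cons (fin 1034 1 970)
(mv 1036 (cons (fin 975 1 971)
(mv 1098 (cons (fin 1099 1 1034)
(mv 907 (cons (fin 906 3 906)
(mv 1100 (cons (fin 1164 7 907)
(fin 843 4 843))))))))))))
(cons (mv 906 (cons (fin 907 3 906)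
(mv 910 (cons (fin 911 2 907)
(mv 1101 (cons (fin 846 5 845)
(fin 1165 6 909)))))))
(mv 1034 (cons (fin 1035 1 970)
(mv 910 (cons (fin 911 2 907)
(mv 1101 (cons (fin 846 5 845)
(fin 1165 6 909))))))))))))))
(mv 1038 (cons (fin 1039 3 972)
(mv 970 (cons (fin 971 0 970)
(mv 1101 (cons (cons (mv 1165 (cons (fin 908 7 908)
(mv 1228 (cons (fin 1164 5 972)
(mv 1229 (cons (fin 1292 5 1036)
(fin 1036 7 972)))))))
(mv 909 (cons (cons (cons (mv 1164 (cons (fin 1100 5 908)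
(mv 908 (cons (fin 844 7 844)
(mv 846 (cons (fin 910 6 845)
(mv 845 (cons (fin 782 6 781)
(mv 781 (cons (fin 1036 5 780)
(fin 717 5 716)))))))))))
(mv 908 (cons (fin 844 7 844)
(mv 846 (cons (fin 910 6 845)
(mv 845 (cons (fin 782 6 781)
(mv 781 (cons (fin 1036 5 780)
(fin 717 5 716))))))))))
(cons (mv 1164 (cons (fin 1100 5 908)
(mv 846 (cons (fin 910 6 845)
(mv 845 (cons (fin 782 6 781)
(mv 781 (cons (fin 1036 5 780)
(mv 716 (cons (fin 780 7 716)
(mv 717 (cons (fin 908 5 716)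
(fin 652 7 652)))))))))))))
(mv 1164 (cons (fin 1100 5 908)
(mv 846 (cons (fin 910 6 845)
(mv 845 (cons (fin 782 6 781)
(mv 780 (cons (fin 844 7 780)
(mv 781 (cons (fin 1036 5 780)
(fin 716 7 716)))))))))))))
(cons (cons (mv 1164 (cons (fin 1100 5 908)
(mv 844 (cons (fin 908 7 844)
(mv 845 (cons (fin 780 7 780)
(mv 781 (cons (fin 1036 5 780)
(mv 782 (cons (fin 846 6 781)
(fin 718 6 717)))))))))))
(mv 1100 (cons (fin 1164 5 908)
(mv 1098 (cons (fin 1099 2 1034)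
(mv 1036 (cons (fin 845 5 844)
(mv 908 (cons (fin 844 7 844)
(mv 907 (cons (fin 843 7 843)
(mv 906 (cons (fin 969 1 905)
(fin 905 0 905))))))))))))))
(cons (mv 1164 (cons (fin 1100 5 908)
(mv 844 (cons (fin 908 7 844)
(mv 845 (cons (fin 780 7 780)
(mv 846 (cons (fin 910 6 845)
(fin 782 6 781)))))))))
(mv 1100 (cons (fin 1164 5 908)
(mv 1099 (cons (fin 1098 2 1034)
(mv 908 (cons (fin 844 7 844)
(mv 1036 (cons (fin 1163 5 907)
(mv 907 (cons (fin 843 7 843)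
(mv 906 (cons (fin 969 1 905)
(fin 905 0 905))))))))))))))))))
(cons (mv 1165 (cons (cons (mv 1228 (cons (fin 1164 5 972)
(mv 1229 (cons (fin 1292 5 1036)
(fin 1036 7 972)))))
(mv 1230 (cons (fin 1166 4 973)
(mv 1164 (cons (fin 1228 5 972)
(mv 909 (cons (fin 1100 5 908)
(mv 846 (cons (fin 910 6 845)
(mv 845 (cons (fin 782 6 781)
(mv 780 (cons (fin 844 7 780)
(mv 781 (cons (fin 1036 5 780)
(fin 716 7 716))))))))))))))))
(cons (mv 1229 (cons (fin 1036 7 972)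
(mv 1230 (cons (fin 1294 4 1037)
(fin 1166 4 973)))))
(mv 1228 (cons (fin 1164 5 972)
(mv 1229 (cons (fin 1292 5 1036)
(mv 1230 (cons (fin 1294 4 1037)
(fin 1166 4 973))))))))))
(cons (mv 1165 (cons (fin 908 7 908)
(mv 1228 (cons (fin 1164 5 972)
(mv 1229 (cons (fin 1292 5 1036)
(mv 1230 (cons (fin 1294 4 1037)
(fin 1166 4 973)))))))))
(mv 1165 (cons (fin 908 7 908)
(mv 1229 (cons (fin 1036 7 972)
(mv 1230 (cons (fin 1294 4 1037)
(fin 1166 4 973))))))))))))))))))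
(cons (cons (mv 1038 (cons (fin 1039 3 972)
(mv 908 (cons (cons (mv 1101 (cons (fin 1165 7 908)
(mv 844 (cons (fin 909 7 844)
(fin 1036 4 844)))))
(mv 844 (cons (fin 780 4 780)
(mv 1036 (cons (mv 1099 (cons (fin 1035 5 843)
(mv 1100 (cons (fin 1163 5 907)
(mv 1164 (cons (fin 1228 6 972)
(fin 909 6 908)))))))
(cons (mv 843 (cons (fin 779 7 779)
(mv 1100 (cons (fin 907 7 843)
(mv 1164 (cons (fin 1228 6 972)
(fin 909 6 908)))))))
(mv 1035 (cons (fin 1099 5 843)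
(mv 1034 (cons (fin 1033 2 969)
(fin 974 2 970)))))))))))
(cons (mv 1101 (cons (fin 1165 7 908)
(mv 909 (cons (cons (mv 1164 (cons (fin 1100 5 908)
(mv 846 (cons (fin 910 6 845)
(mv 845 (cons (fin 782 6 781)
(mv 781 (cons (fin 1036 5 780)
(fin 717 5 716)))))))))
(mv 846 (cons (fin 910 6 845)
(mv 845 (cons (fin 782 6 781)
(mv 781 (cons (fin 1036 5 780)
(fin 717 5 716))))))))
(cons (mv 1100 (cons (fin 1164 5 908)
(mv 1098 (cons (fin 1099 2 1034)
(mv 1036 (cons (fin 845 5 844)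
(mv 907 (cons (fin 843 7 843)
(mv 974 (cons (fin 975 3 907)
(fin 906 0 906)))))))))))
(cons (mv 1100 (cons (fin 1164 5 908)
(mv 1099 (cons (fin 1098 2 1034)
(mv 1036 (cons (fin 1163 5 907)
(mv 907 (cons (fin 843 7 843)
(mv 974 (cons (fin 975 3 907)
(fin 906 0 906)))))))))))
(mv 1164 (cons (fin 1100 5 908)
(mv 846 (cons (fin 910 6 845)
(mv 845 (cons (fin 782 6 781)
(mv 781 (cons (fin 717 5 716)
(fin 974 4 781)))))))))))))))
(cons (mv 1101 (cons (fin 1165 7 908)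
(mv 844 (cons (fin 909 7 844)
(fin 780 4 780)))))
(mv 1101 (cons (fin 1165 7 908)
(mv 844 (cons (fin 1036 4 844)
(fin 780 4 780)))))))))))
(cons (mv 1038 (cons (fin 1039 3 972)
(mv 971 (cons (fin 970 0 970)
(mv 974 (cons (cons (mv 1034 (cons (fin 1035 1 970)
(mv 907 (cons (fin 906 3 906)
(mv 975 (cons (fin 908 3 907)
(mv 911 (cons (fin 910 2 907)
(fin 912 2 908)))))))))
(mv 907 (cons (fin 906 3 906)
(mv 975 (cons (fin 908 3 907)
(mv 911 (cons (fin 910 2 907)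
(fin 912 2 908))))))))
(cons (mv 1035 (cons (fin 1034 1 970)
(mv 1036 (cons (fin 975 1 971)
(mv 1098 (cons (fin 1099 1 1034)
(mv 910 (cons (fin 911 2 907)
(mv 846 (cons (fin 782 5 781)
(mv 845 (cons (fin 781 7 781)
(mv 909 (cons (fin 1100 5 844)
(mv 844 (cons (fin 780 7 780)
(mv 842 (cons (fin 843 0 842)
(mv 847 (cons (fin 783 6 782)
(mv 848 (cons (fin 908 1 844)
(fin 849 1 845)))))))))))))))))))))))
(cons (mv 1035 (cons (fin 1034 1 970)
(mv 1036 (cons (fin 975 1 971)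
(mv 1098 (cons (fin 1099 1 1034)
(mv 907 (cons (fin 906 3 906)
(mv 1100 (cons (fin 1164 7 907)
(fin 843 4 843)))))))))))
(mv 1034 (cons (fin 1035 1 970)
(mv 907 (cons (fin 906 3 906)
(mv 910 (cons (fin 911 2 907)
(mv 846 (cons (fin 782 5 781)
(mv 845 (cons (fin 781 7 781)
(mv 847 (cons (fin 783 6 782)
(mv 908 (cons (fin 844 1 843)
(fin 909 2 843)))))))))))))))))))))))
(mv 1038 (cons (fin 1039 3 972)
(mv 971 (cons (fin 970 0 970)
(mv 974 (cons (cons (mv 1034 (cons (fin 1035 1 970)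
(mv 906 (cons (fin 907 3 906)
(mv 910 (cons (fin 911 2 907)
(mv 1101 (cons (fin 846 5 845)
(fin 1165 6 909)))))))))
(mv 1034 (cons (fin 1035 1 970)
(mv 907 (cons (fin 906 3 906)
(mv 908 (cons (fin 975 3 907)
(mv 1101 (cons (fin 1165 7 908)
(mv 844 (cons (fin 909 7 844)
(fin 780 4 780))))))))))))
(cons (mv 1034 (cons (fin 1035 1 970)
(mv 910 (cons (fin 911 2 907)
(mv 1101 (cons (fin 846 5 845)
(fin 1165 6 909)))))))
(cons (mv 906 (cons (fin 907 3 906)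
(mv 910 (cons (fin 911 2 907)
(mv 1101 (cons (fin 846 5 845)
(fin 1165 6 909)))))))
(mv 1034 (cons (fin 1035 1 970)
(mv 907 (cons (fin 906 3 906)
(mv 975 (cons (fin 908 3 907)
(mv 911 (cons (fin 910 2 907)
(fin 912 2 908)))))))))))))))))))
(cons (mv 1038 (cons (fin 1039 3 972)
(mv 970 (cons (fin 971 0 970)
(mv 1101 (cons (cons (mv 1165 (cons (fin 908 7 908)
(mv 1229 (cons (fin 1036 7 972)
(fin 974 6 973)))))
(mv 909 (cons (cons (mv 1164 (cons (fin 1100 5 908)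
(mv 844 (cons (fin 908 7 844)
(mv 845 (cons (fin 780 7 780)
(mv 781 (cons (fin 1036 5 780)
(fin 974 4 781)))))))))
(cons (mv 844 (cons (fin 908 7 844)
(mv 845 (cons (fin 780 7 780)
(mv 781 (cons (fin 1036 5 780)
(fin 974 4 781)))))))
(mv 1100 (cons (fin 1164 5 908)
(mv 1098 (cons (fin 1099 2 1034)
(mv 845 (cons (fin 1036 5 844)
(mv 846 (cons (fin 782 6 781)
(mv 781 (cons (fin 974 4 781)
(mv 716 (cons (fin 780 7 716)
(mv 717 (cons (fin 908 5 716)
(fin 652 7 652)))))))))))))))))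
(cons (cons (mv 1100 (cons (fin 1164 5 908)
(mv 1098 (cons (fin 1099 2 1034)
(mv 845 (cons (fin 1036 5 844)
(mv 844 (cons (fin 780 7 780)
(mv 781 (cons (fin 974 4 781)
(mv 782 (cons (fin 846 6 781)
(fin 718 6 717)))))))))))))
(mv 1100 (cons (fin 1164 5 908)
(mv 1099 (cons (fin 1098 2 1034)
(mv 908 (cons (fin 844 7 844)
(mv 1036 (cons (fin 1163 5 907)
(mv 907 (cons (fin 843 7 843)
(mv 974 (cons (fin 975 3 907)
(fin 906 0 906))))))))))))))
(cons (mv 1164 (cons (fin 1100 5 908)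
(mv 844 (cons (fin 908 7 844)
(mv 845 (cons (fin 780 7 780)
(mv 781 (cons (fin 974 4 781)
(mv 782 (cons (fin 846 6 781)
(fin 718 6 717)))))))))))
(mv 1164 (cons (fin 1100 5 908)
(mv 844 (cons (fin 908 7 844)
(mv 845 (cons (fin 780 7 780)
(mv 781 (cons (fin 1036 5 780)
(mv 782 (cons (fin 846 6 781)
(fin 718 6 717))))))))))))))))
(cons (mv 1165 (cons (mv 1229 (cons (fin 1036 7 972)
(fin 974 6 973)))
(mv 1164 (cons (fin 1228 5 972)
(mv 1166 (cons (fin 1230 4 973)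
(mv 1100 (cons (fin 909 5 908)
(mv 1167 (cons (fin 1099 3 1099)
(fin 1168 3 1100)))))))))))
(cons (mv 1165 (cons (fin 908 7 908)
(mv 1228 (cons (fin 1164 5 972)
(mv 1229 (cons (fin 1292 5 1036)
(fin 974 6 973)))))))
(mv 1165 (cons (fin 908 7 908)
(mv 1228 (cons (fin 1164 5 972)
(mv 1229 (cons (fin 1292 5 1036)
(fin 1036 7 972)))))))))))))))
(cons (mv 1038 (cons (fin 1039 3 972)
(mv 971 (cons (fin 970 0 970)
(mv 974 (cons (mv 1034 (cons (fin 1035 1 970)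
(mv 910 (cons (fin 911 2 907)
(mv 1101 (cons (fin 846 5 845)
(fin 1165 6 909)))))))
(cons (mv 1035 (cons (fin 1034 1 970)
(mv 1036 (cons (fin 975 1 971)
(mv 1099 (cons (fin 1098 1 1034)
(mv 1163 (cons (fin 1227 6 971)
(fin 908 6 907)))))))))
(mv 910 (cons (fin 911 2 907)
(mv 1101 (cons (fin 846 5 845)
(fin 1165 6 909))))))))))))
(mv 1038 (cons (fin 1039 3 972)
(mv 971 (cons (fin 970 0 970)
(mv 974 (cons (cons (mv 1034 (cons (fin 1035 1 970)
(mv 907 (cons (fin 906 3 906)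
(mv 975 (cons (fin 908 3 907)
(mv 911 (cons (fin 910 2 907)
(fin 912 2 908)))))))))
(mv 907 (cons (fin 906 3 906)
(mv 975 (cons (fin 908 3 907)
(mv 911 (cons (fin 910 2 907)
(fin 912 2 908))))))))
(cons (mv 1035 (cons (fin 1034 1 970)
(mv 1036 (cons (fin 975 1 971)
(mv 1099 (cons (fin 1098 1 1034)
(mv 1163 (cons (fin 1227 6 971)
(fin 908 6 907)))))))))
(cons (mv 1034 (cons (fin 1035 1 970)
(mv 907 (cons (fin 906 3 906)
(mv 910 (cons (fin 911 2 907)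
(mv 1101 (cons (fin 1165 6 909)
(mv 909 (cons (cons (mv 1164 (cons (fin 1100 5 908)
(mv 908 (cons (fin 844 7 844)
(mv 843 (cons (fin 842 3 842)
(mv 779 (cons (fin 1036 4 779)
(fin 715 4 715)))))))))
(mv 908 (cons (fin 844 7 844)
(mv 843 (cons (fin 842 3 842)
(mv 779 (cons (fin 1036 4 779)
(fin 715 4 715))))))))
(cons (mv 1100 (cons (fin 1164 5 908)
(mv 845 (cons (fin 1036 5 844)
(fin 781 4 781)))))
(mv 1164 (cons (fin 1100 5 908)
(mv 844 (cons (fin 908 7 844)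
(mv 845 (cons (fin 780 7 780)
(fin 781 4 781))))))))))))))))))
(mv 1035 (cons (fin 1034 1 970)
(mv 1036 (cons (fin 975 1 971)
(mv 1098 (cons (fin 1099 1 1034)
(mv 907 (cons (fin 906 3 906)
(mv 1100 (cons (fin 1164 7 907)
(fin 843 4 843))))))))))))))))))))))))
(cons (mv 972 (cons (cons (cons (cons (mv 1038 (cons (fin 1039 3 972)
(mv 970 (cons (fin 971 0 970)
(mv 908 (cons (cons (mv 1101 (cons (fin 1165 7 908)
(mv 844 (cons (fin 909 7 844)
(fin 1036 4 844)))))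
(mv 844 (cons (fin 780 4 780)
(mv 1036 (cons (mv 1099 (cons (fin 1035 5 843)
(mv 1100 (cons (fin 1163 5 907)
(mv 1164 (cons (fin 1228 6 972)
(fin 909 6 908)))))))
(cons (mv 843 (cons (fin 779 7 779)
(mv 1100 (cons (fin 907 7 843)
(mv 1164 (cons (fin 1228 6 972)
(fin 909 6 908)))))))
(mv 1035 (cons (fin 1099 5 843)
(mv 1034 (cons (fin 969 3 969)
(fin 1033 2 969)))))))))))
(cons (mv 1101 (cons (fin 1165 7 908)
(mv 909 (cons (cons (mv 1164 (cons (fin 1100 5 908)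
(mv 846 (cons (fin 910 6 845)
(mv 845 (cons (fin 782 6 781)
(mv 781 (cons (fin 1036 5 780)
(fin 717 5 716)))))))))
(mv 846 (cons (fin 910 6 845)
(mv 845 (cons (fin 782 6 781)
(mv 781 (cons (fin 1036 5 780)
(fin 717 5 716))))))))
(cons (mv 1100 (cons (fin 1164 5 908)
(mv 1098 (cons (fin 1099 2 1034)
(mv 1036 (cons (fin 845 5 844)
(mv 907 (cons (fin 843 7 843)
(mv 906 (cons (fin 969 1 905)
(fin 905 0 905)))))))))))
(cons (mv 1100 (cons (fin 1164 5 908)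
(mv 1099 (cons (fin 1098 2 1034)
(mv 1036 (cons (fin 1163 5 907)
(mv 907 (cons (fin 843 7 843)
(mv 906 (cons (fin 969 1 905)
(fin 905 0 905)))))))))))
(mv 1164 (cons (fin 1100 5 908)
(mv 846 (cons (fin 910 6 845)
(mv 845 (cons (fin 782 6 781)
(mv 781 (cons (fin 717 5 716)
(fin 974 4 781)))))))))))))))
(cons (mv 1101 (cons (fin 1165 7 908)
(mv 844 (cons (fin 909 7 844)
(fin 780 4 780)))))
(mv 1101 (cons (fin 1165 7 908)
(mv 844 (cons (fin 1036 4 844)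
(fin 780 4 780)))))))))))))
(mv 908 (cons (cons (mv 1101 (cons (fin 1165 7 908)
(mv 844 (cons (fin 909 7 844)
(fin 1036 4 844)))))
(mv 1101 (cons (fin 1165 7 908)
(mv 909 (cons (mv 1164 (cons (fin 1100 5 908)
(mv 910 (cons (fin 846 6 845)
(mv 971 (cons (fin 911 1 907)
(fin 970 2 906)))))))
(cons (mv 1100 (cons (fin 1164 5 908)
(mv 1036 (cons (fin 845 5 844)
(mv 1163 (cons (fin 1099 5 907)
(mv 907 (cons (fin 843 7 843)
(mv 906 (cons (fin 905 0 905)
(fin 974 0 906)))))))))))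
(mv 910 (cons (fin 846 6 845)
(mv 971 (cons (fin 911 1 907)
(fin 970 2 906)))))))))))
(cons (mv 844 (cons (fin 780 4 780)
(mv 1036 (cons (mv 1099 (cons (fin 1035 5 843)
(mv 1100 (cons (fin 1163 5 907)
(mv 1164 (cons (fin 1228 6 972)
(fin 909 6 908)))))))
(cons (mv 843 (cons (fin 779 7 779)
(mv 1100 (cons (fin 907 7 843)
(mv 1164 (cons (fin 1228 6 972)
(fin 909 6 908)))))))
(mv 1035 (cons (fin 1099 5 843)
(mv 1034 (cons (fin 1033 2 969)
(fin 974 2 970))))))))))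
(cons (mv 1101 (cons (fin 1165 7 908)
(mv 844 (cons (fin 1036 4 844)
(fin 780 4 780)))))
(mv 1101 (cons (fin 1165 7 908)
(mv 844 (cons (fin 909 7 844)
(fin 780 4 780))))))))))
(cons (mv 1038 (cons (fin 1039 3 972)
(mv 971 (cons (fin 970 0 970)
(mv 974 (cons (cons (mv 1034 (cons (fin 1035 1 970)
(mv 906 (cons (fin 907 3 906)
(mv 910 (cons (fin 911 2 907)
(mv 1101 (cons (fin 846 5 845)
(fin 1165 6 909)))))))))
(mv 1035 (cons (fin 1034 1 970)
(mv 907 (cons (fin 906 3 906)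
(mv 843 (cons (mv 1036 (cons (fin 1100 4 843)
(fin 779 4 779)))
(cons (mv 778 (cons (fin 842 7 778)
(mv 779 (cons (fin 714 7 714)
(mv 780 (cons (fin 844 6 779)
(fin 716 6 715)))))))
(mv 1100 (cons (fin 1036 4 843)
(mv 1164 (cons (fin 1099 4 907)
(mv 1101 (cons (fin 909 5 908)
(mv 1228 (cons (fin 1165 5 972)
(fin 1292 6 1036)))))))))))))))))
(cons (mv 906 (cons (fin 907 3 906)
(mv 910 (cons (fin 911 2 907)
(mv 1101 (cons (fin 846 5 845)
(fin 1165 6 909)))))))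
(cons (mv 1034 (cons (fin 1035 1 970)
(mv 910 (cons (fin 911 2 907)
(mv 1101 (cons (fin 846 5 845)
(fin 1165 6 909)))))))
(mv 1035 (cons (fin 1034 1 970)
(mv 907 (cons (fin 906 3 906)
(mv 910 (cons (fin 911 2 907)
(mv 846 (cons (fin 782 5 781)
(mv 845 (cons (fin 781 7 781)
(mv 847 (cons (fin 783 6 782)
(mv 1036 (cons (mv 1100 (cons (fin 909 5 844)
(fin 1164 7 907)))
(cons (mv 1098 (cons (fin 1099 1 1034)
(mv 843 (cons (fin 779 4 779)
(mv 842 (cons (fin 778 7 778)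
(mv 844 (cons (fin 909 0 842)
(fin 780 6 779)))))))))
(mv 1100 (cons (fin 1164 7 907)
(fin 843 4 843))))))))))))))))))))))))))
(mv 1038 (cons (fin 1039 3 972)
(mv 908 (cons (cons (mv 1101 (cons (fin 1165 7 908)
(mv 844 (cons (fin 909 7 844)
(fin 1036 4 844)))))
(mv 844 (cons (fin 780 4 780)
(mv 1036 (cons (mv 1099 (cons (fin 1035 5 843)
(mv 1100 (cons (fin 1163 5 907)
(mv 1164 (cons (fin 1228 6 972)
(fin 909 6 908)))))))
(cons (mv 843 (cons (fin 779 7 779)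
(mv 1100 (cons (fin 907 7 843)
(mv 1164 (cons (fin 1228 6 972)
(fin 909 6 908)))))))
(mv 1035 (cons (fin 1099 5 843)
(mv 1034 (cons (fin 1033 2 969)
(fin 974 2 970)))))))))))
(cons (mv 1101 (cons (fin 1165 7 908)
(mv 909 (cons (cons (mv 1164 (cons (fin 1100 5 908)
(mv 846 (cons (fin 910 6 845)
(mv 845 (cons (fin 782 6 781)
(mv 781 (cons (fin 1036 5 780)
(fin 717 5 716)))))))))
(mv 846 (cons (fin 910 6 845)
(mv 845 (cons (fin 782 6 781)
(mv 781 (cons (fin 1036 5 780)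
(fin 717 5 716))))))))
(cons (mv 1100 (cons (fin 1164 5 908)
(mv 1098 (cons (fin 1099 2 1034)
(mv 1036 (cons (fin 845 5 844)
(mv 907 (cons (fin 843 7 843)
(mv 906 (cons (fin 905 0 905)
(fin 974 0 906)))))))))))
(cons (mv 1100 (cons (fin 1164 5 908)
(mv 1099 (cons (fin 1098 2 1034)
(mv 1036 (cons (fin 1163 5 907)
(mv 907 (cons (fin 843 7 843)
(mv 906 (cons (fin 905 0 905)
(fin 974 0 906)))))))))))
(mv 1164 (cons (fin 1100 5 908)
(mv 846 (cons (fin 910 6 845)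
(mv 845 (cons (fin 782 6 781)
(mv 781 (cons (fin 717 5 716)
(fin 974 4 781)))))))))))))))
(cons (mv 1101 (cons (fin 1165 7 908)
(mv 844 (cons (fin 909 7 844)
(fin 780 4 780)))))
(mv 1101 (cons (fin 1165 7 908)
(mv 844 (cons (fin 1036 4 844)
(fin 780 4 780)))))))))))))
(cons (cons (mv 1038 (cons (fin 1039 3 972)
(mv 971 (cons (fin 970 0 970)
(mv 974 (cons (cons (mv 1034 (cons (fin 1035 1 970)
(mv 907 (cons (fin 906 3 906)
(mv 910 (cons (fin 911 2 907)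
(mv 846 (cons (fin 782 5 781)
(mv 845 (cons (fin 781 7 781)
(mv 847 (cons (fin 783 6 782)
(mv 908 (cons (fin 844 1 843)
(fin 909 2 843)))))))))))))))
(cons (mv 907 (cons (fin 906 3 906)
(mv 910 (cons (fin 911 2 907)
(mv 846 (cons (fin 782 5 781)
(mv 845 (cons (fin 781 7 781)
(mv 847 (cons (fin 783 6 782)
(mv 908 (cons (fin 844 1 843)
(fin 909 2 843)))))))))))))
(mv 1035 (cons (fin 1034 1 970)
(mv 907 (cons (fin 906 3 906)
(mv 1099 (cons (mv 1098 (cons (fin 1036 1 1034)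
(fin 1162 5 906)))
(mv 908 (cons (fin 1163 6 907)
(fin 844 6 843)))))))))))
(cons (mv 1035 (cons (fin 1034 1 970)
(mv 910 (cons (fin 911 2 907)
(mv 846 (cons (fin 782 5 781)
(mv 845 (cons (fin 781 7 781)
(mv 847 (cons (fin 783 6 782)
(mv 848 (cons (mv 909 (cons (fin 908 1 844)
(fin 849 1 845)))
(cons (mv 912 (cons (fin 913 0 845)
(mv 785 (cons (fin 784 2 781)
(mv 849 (cons (fin 786 2 782)
(fin 976 6 784)))))))
(mv 908 (cons (fin 909 1 844)
(mv 1099 (cons (fin 1163 6 907)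
(mv 1036 (cons (fin 1098 1 1034)
(fin 844 5 843))))))))))))))))))))
(cons (mv 1035 (cons (fin 1034 1 970)
(mv 907 (cons (fin 906 3 906)
(mv 910 (cons (fin 911 2 907)
(mv 846 (cons (fin 782 5 781)
(mv 845 (cons (fin 781 7 781)
(mv 847 (cons (fin 783 6 782)
(mv 1036 (cons (mv 1100 (cons (fin 909 5 844)
(fin 1164 7 907)))
(cons (mv 1098 (cons (fin 1099 1 1034)
(mv 843 (cons (fin 779 4 779)
(mv 842 (cons (fin 778 7 778)
(mv 844 (cons (fin 909 0 842)
(fin 780 6 779)))))))))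
(mv 1100 (cons (fin 1164 7 907)
(fin 843 4 843))))))))))))))))))
(mv 1035 (cons (fin 1034 1 970)
(mv 907 (cons (fin 906 3 906)
(mv 910 (cons (fin 911 2 907)
(mv 846 (cons (fin 782 5 781)
(mv 845 (cons (fin 781 7 781)
(mv 847 (cons (fin 783 6 782)
(mv 908 (cons (fin 909 2 843)
(mv 1099 (cons (fin 1163 6 907)
(mv 1098 (cons (fin 1036 1 1034)
(fin 1162 5 906)))))))))))))))))))))))))))
(mv 1038 (cons (fin 1039 3 972)
(mv 971 (cons (fin 970 0 970)
(mv 974 (cons (cons (mv 1034 (cons (fin 1035 1 970)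
(mv 906 (cons (fin 907 3 906)
(mv 910 (cons (fin 911 2 907)
(mv 1101 (cons (fin 846 5 845)
(fin 1165 6 909)))))))))
(mv 1035 (cons (fin 1034 1 970)
(mv 906 (cons (fin 907 3 906)
(mv 1101 (cons (mv 1165 (cons (fin 908 7 908)
(fin 1229 6 973)))
(cons (mv 1099 (cons (mv 1098 (cons (fin 1036 1 1034)
(fin 1100 2 1034)))
(cons (mv 1163 (cons (fin 908 6 907)
(mv 1226 (cons (fin 1162 5 970)
(mv 1227 (cons (fin 1290 5 1034)
(fin 1036 6 971)))))))
(mv 1163 (cons (fin 908 6 907)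
(mv 1226 (cons (fin 1162 5 970)
(mv 1290 (cons (fin 1227 5 1034)
(mv 1164 (cons (fin 1228 4 971)
(mv 1100 (cons (fin 1098 2 1034)
(fin 909 5 908))))))))))))))
(mv 1165 (cons (fin 1229 6 973)
(mv 1164 (cons (fin 1228 5 972)
(mv 1166 (cons (fin 1230 4 973)
(mv 1100 (cons (fin 909 5 908)
(mv 1167 (cons (fin 1099 3 1099)
(fin 1168 3 1100)))))))))))))))))))
(cons (mv 906 (cons (fin 907 3 906)
(mv 910 (cons (fin 911 2 907)
(mv 1101 (cons (fin 846 5 845)
(fin 1165 6 909)))))))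
(cons (mv 1034 (cons (fin 1035 1 970)
(mv 910 (cons (fin 911 2 907)
(mv 1101 (cons (fin 846 5 845)
(fin 1165 6 909)))))))
(mv 1035 (cons (fin 1034 1 970)
(mv 907 (cons (fin 906 3 906)
(mv 910 (cons (fin 911 2 907)
(mv 846 (cons (fin 782 5 781)
(mv 845 (cons (fin 781 7 781)
(mv 847 (cons (fin 783 6 782)
(mv 908 (cons (fin 909 2 843)
(mv 1099 (cons (fin 1163 6 907)
(mv 1098 (cons (fin 1036 1 1034)
(fin 1162 5 906))))))))))))))))))))))))))))
(cons (mv 1038 (cons (fin 1039 3 972)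
(mv 971 (cons (fin 970 0 970)
(mv 974 (cons (cons (mv 1034 (cons (fin 1035 1 970)
(mv 906 (cons (fin 907 3 906)
(mv 910 (cons (fin 911 2 907)
(mv 1101 (cons (fin 846 5 845)
(fin 1165 6 909)))))))))
(mv 1035 (cons (fin 1034 1 970)
(mv 907 (cons (fin 906 3 906)
(mv 908 (cons (mv 1099 (cons (fin 1163 6 907)
(fin 844 6 843)))
(cons (mv 1099 (cons (fin 1163 6 907)
(mv 1098 (cons (fin 1162 5 906)
(mv 1100 (cons (fin 1101 2 1034)
(fin 1164 4 907)))))))
(mv 1101 (cons (fin 1165 7 908)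
(mv 844 (cons (fin 780 5 779)
(fin 909 7 844)))))))))))))
(cons (mv 1034 (cons (fin 1035 1 970)
(mv 910 (cons (fin 911 2 907)
(mv 1101 (cons (fin 846 5 845)
(fin 1165 6 909)))))))
(cons (mv 906 (cons (fin 907 3 906)
(mv 910 (cons (fin 911 2 907)
(mv 1101 (cons (fin 846 5 845)
(fin 1165 6 909)))))))
(mv 1034 (cons (fin 1035 1 970)
(mv 907 (cons (fin 906 3 906)
(mv 910 (cons (fin 911 2 907)
(mv 846 (cons (fin 782 5 781)
(mv 845 (cons (fin 781 7 781)
(mv 847 (cons (fin 783 6 782)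
(mv 908 (cons (fin 844 1 843)
(fin 909 2 843)))))))))))))))))))))))
(mv 1038 (cons (fin 1039 3 972)
(mv 971 (cons (fin 970 0 970)
(mv 974 (cons (cons (mv 1034 (cons (fin 1035 1 970)
(mv 906 (cons (fin 907 3 906)
(mv 910 (cons (fin 911 2 907)
(mv 1101 (cons (fin 846 5 845)
(fin 1165 6 909)))))))))
(mv 1035 (cons (fin 1034 1 970)
(mv 906 (cons (fin 907 3 906)
(mv 1099 (cons (cons (mv 1163 (cons (fin 908 6 907)
(mv 1036 (cons (fin 1098 1 1034)
(fin 1227 6 971)))))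
(mv 1098 (cons (fin 1036 1 1034)
(mv 1101 (cons (fin 1100 2 1034)
(mv 1165 (cons (fin 1229 6 973)
(mv 1164 (cons (fin 1228 5 972)
(mv 1166 (cons (fin 1163 3 1098)
(fin 1230 4 973))))))))))))
(cons (mv 1098 (cons (fin 1036 1 1034)
(mv 1101 (cons (fin 1100 2 1034)
(mv 1165 (cons (fin 908 7 908)
(fin 1229 6 973)))))))
(mv 1163 (cons (fin 908 6 907)
(mv 1226 (cons (fin 1162 5 970)
(mv 1227 (cons (fin 1290 5 1034)
(mv 1228 (cons (fin 1292 4 1035)
(fin 1164 4 971)))))))))))))))))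
(cons (mv 906 (cons (fin 907 3 906)
(mv 910 (cons (fin 911 2 907)
(mv 1101 (cons (fin 846 5 845)
(fin 1165 6 909)))))))
(cons (mv 1034 (cons (fin 1035 1 970)
(mv 910 (cons (fin 911 2 907)
(mv 1101 (cons (fin 846 5 845)
(fin 1165 6 909)))))))
(mv 1034 (cons (fin 1035 1 970)
(mv 907 (cons (fin 906 3 906)
(mv 910 (cons (fin 911 2 907)
(mv 846 (cons (fin 782 5 781)
(mv 845 (cons (fin 781 7 781)
(mv 847 (cons (fin 783 6 782)
(mv 844 (cons (fin 908 1 843)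
(mv 779 (cons (fin 780 3 779)
(mv 843 (cons (fin 778 3 778)
(fin 1036 4 779))))))))))))))))))))))))))))))
(cons (cons (cons (mv 1038 (cons (fin 1039 3 972)
(mv 970 (cons (fin 971 0 970)
(mv 1101 (cons (cons (mv 1165 (cons (fin 908 7 908)
(mv 1228 (cons (fin 1164 5 972)
(mv 1229 (cons (fin 1292 5 1036)
(fin 1036 7 972)))))))
(mv 909 (cons (cons (cons (mv 1164 (cons (fin 1100 5 908)
(mv 908 (cons (fin 844 7 844)
(mv 846 (cons (fin 910 6 845)
(mv 845 (cons (fin 782 6 781)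
(mv 781 (cons (fin 1036 5 780)
(fin 717 5 716)))))))))))
(mv 908 (cons (fin 844 7 844)
(mv 846 (cons (fin 910 6 845)
(mv 845 (cons (fin 782 6 781)
(mv 781 (cons (fin 1036 5 780)
(fin 717 5 716))))))))))
(cons (mv 1164 (cons (fin 1100 5 908)
(mv 846 (cons (fin 910 6 845)
(mv 845 (cons (fin 782 6 781)
(mv 781 (cons (fin 1036 5 780)
(mv 716 (cons (fin 780 7 716)
(mv 717 (cons (fin 908 5 716)
(fin 652 7 652)))))))))))))
(mv 1164 (cons (fin 1100 5 908)
(mv 846 (cons (fin 910 6 845)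
(mv 845 (cons (fin 782 6 781)
(mv 780 (cons (fin 844 7 780)
(mv 781 (cons (fin 1036 5 780)
(fin 716 7 716)))))))))))))
(cons (cons (mv 1164 (cons (fin 1100 5 908)
(mv 844 (cons (fin 908 7 844)
(mv 845 (cons (fin 780 7 780)
(mv 781 (cons (fin 1036 5 780)
(mv 782 (cons (fin 846 6 781)
(fin 718 6 717)))))))))))
(mv 1100 (cons (fin 1164 5 908)
(mv 1098 (cons (fin 1099 2 1034)
(mv 1036 (cons (fin 845 5 844)
(mv 908 (cons (fin 844 7 844)
(mv 907 (cons (fin 843 7 843)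
(mv 906 (cons (fin 969 1 905)
(fin 905 0 905))))))))))))))
(cons (mv 1164 (cons (fin 1100 5 908)
(mv 844 (cons (fin 908 7 844)
(mv 845 (cons (fin 780 7 780)
(mv 846 (cons (fin 910 6 845)
(fin 782 6 781)))))))))
(mv 1100 (cons (fin 1164 5 908)
(mv 1099 (cons (fin 1098 2 1034)
(mv 908 (cons (fin 844 7 844)
(mv 1036 (cons (fin 1163 5 907)
(mv 907 (cons (fin 843 7 843)
(mv 906 (cons (fin 969 1 905)
(fin 905 0 905))))))))))))))))))
(cons (mv 1165 (cons (cons (mv 1228 (cons (fin 1164 5 972)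
(mv 1229 (cons (fin 1292 5 1036)
(fin 1036 7 972)))))
(mv 1230 (cons (fin 1166 4 973)
(mv 1164 (cons (fin 1228 5 972)
(mv 909 (cons (fin 1100 5 908)
(mv 846 (cons (fin 910 6 845)
(mv 845 (cons (fin 782 6 781)
(mv 780 (cons (fin 844 7 780)
(mv 781 (cons (fin 1036 5 780)
(fin 716 7 716))))))))))))))))
(cons (mv 1229 (cons (fin 1036 7 972)
(mv 1230 (cons (fin 1294 4 1037)
(fin 1166 4 973)))))
(mv 1228 (cons (fin 1164 5 972)
(mv 1229 (cons (fin 1292 5 1036)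
(mv 1230 (cons (fin 1294 4 1037)
(fin 1166 4 973))))))))))
(cons (mv 1165 (cons (fin 908 7 908)
(mv 1228 (cons (fin 1164 5 972)
(mv 1229 (cons (fin 1292 5 1036)
(mv 1230 (cons (fin 1294 4 1037)
(fin 1166 4 973)))))))))
(mv 1165 (cons (fin 908 7 908)
(mv 1229 (cons (fin 1036 7 972)
(mv 1230 (cons (fin 1294 4 1037)
(fin 1166 4 973)))))))))))))))
(mv 1038 (cons (fin 1039 3 972)
(mv 970 (cons (fin 971 0 970)
(mv 1101 (cons (cons (mv 1165 (cons (fin 908 7 908)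
(mv 1229 (cons (fin 1036 7 972)
(fin 974 6 973)))))
(mv 909 (cons (cons (mv 1164 (cons (fin 1100 5 908)
(mv 844 (cons (fin 908 7 844)
(mv 845 (cons (fin 780 7 780)
(mv 781 (cons (fin 1036 5 780)
(fin 974 4 781)))))))))
(cons (mv 844 (cons (fin 908 7 844)
(mv 845 (cons (fin 780 7 780)
(mv 781 (cons (fin 1036 5 780)
(fin 974 4 781)))))))
(mv 1100 (cons (fin 1164 5 908)
(mv 1098 (cons (fin 1099 2 1034)
(mv 845 (cons (fin 1036 5 844)
(mv 846 (cons (fin 782 6 781)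
(mv 781 (cons (fin 974 4 781)
(mv 716 (cons (fin 780 7 716)
(mv 717 (cons (fin 908 5 716)
(fin 652 7 652)))))))))))))))))
(cons (mv 1100 (cons (fin 1164 5 908)
(mv 1098 (cons (fin 1099 2 1034)
(mv 845 (cons (fin 1036 5 844)
(mv 844 (cons (fin 780 7 780)
(mv 781 (cons (fin 974 4 781)
(mv 782 (cons (fin 846 6 781)
(fin 718 6 717)))))))))))))
(cons (mv 1100 (cons (fin 1164 5 908)
(mv 1099 (cons (fin 1098 2 1034)
(mv 908 (cons (fin 844 7 844)
(mv 1036 (cons (fin 1163 5 907)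
(mv 907 (cons (fin 843 7 843)
(mv 906 (cons (fin 969 1 905)
(fin 905 0 905)))))))))))))
(mv 1164 (cons (fin 1100 5 908)
(mv 844 (cons (fin 908 7 844)
(mv 845 (cons (fin 780 7 780)
(mv 781 (cons (fin 974 4 781)
(mv 782 (cons (fin 846 6 781)
(fin 718 6 717))))))))))))))))
(cons (mv 1165 (cons (mv 1229 (cons (fin 1036 7 972)
(fin 974 6 973)))
(mv 1164 (cons (fin 1228 5 972)
(mv 1166 (cons (fin 1230 4 973)
(mv 1100 (cons (fin 909 5 908)
(mv 1167 (cons (fin 1099 3 1099)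
(fin 1168 3 1100)))))))))))
(cons (mv 1165 (cons (fin 908 7 908)
(mv 1228 (cons (fin 1164 5 972)
(mv 1229 (cons (fin 1292 5 1036)
(fin 974 6 973)))))))
(mv 1165 (cons (fin 908 7 908)
(mv 1228 (cons (fin 1164 5 972)
(mv 1229 (cons (fin 1292 5 1036)
(fin 1036 7 972))))))))))))))))
(cons (mv 1038 (cons (fin 1039 3 972)
(mv 971 (cons (fin 970 0 970)
(mv 974 (cons (cons (mv 1034 (cons (fin 1035 1 970)
(mv 906 (cons (fin 907 3 906)
(mv 910 (cons (fin 911 2 907)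
(mv 1101 (cons (fin 846 5 845)
(fin 1165 6 909)))))))))
(mv 1035 (cons (fin 1034 1 970)
(mv 907 (cons (fin 906 3 906)
(mv 908 (cons (mv 1099 (cons (fin 1163 6 907)
(fin 844 6 843)))
(cons (mv 1165 (cons (fin 1101 7 908)
(mv 1099 (cons (fin 1163 6 907)
(mv 1098 (cons (fin 1036 1 1034)
(fin 1162 5 906)))))))
(mv 1101 (cons (fin 1165 7 908)
(mv 844 (cons (fin 780 5 779)
(fin 909 7 844)))))))))))))
(cons (mv 906 (cons (fin 907 3 906)
(mv 910 (cons (fin 911 2 907)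
(mv 1101 (cons (fin 846 5 845)
(fin 1165 6 909)))))))
(cons (mv 1034 (cons (fin 1035 1 970)
(mv 910 (cons (fin 911 2 907)
(mv 1101 (cons (fin 846 5 845)
(fin 1165 6 909)))))))
(mv 1034 (cons (fin 1035 1 970)
(mv 907 (cons (fin 906 3 906)
(mv 910 (cons (fin 911 2 907)
(mv 846 (cons (fin 782 5 781)
(mv 845 (cons (fin 781 7 781)
(mv 847 (cons (fin 783 6 782)
(mv 908 (cons (fin 844 1 843)
(fin 909 2 843)))))))))))))))))))))))
(mv 1038 (cons (fin 1039 3 972)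
(mv 971 (cons (fin 970 0 970)
(mv 974 (cons (cons (mv 1034 (cons (fin 1035 1 970)
(mv 906 (cons (fin 907 3 906)
(mv 910 (cons (fin 911 2 907)
(mv 1101 (cons (fin 846 5 845)
(fin 1165 6 909)))))))))
(mv 1035 (cons (fin 1034 1 970)
(mv 906 (cons (fin 907 3 906)
(mv 908 (cons (cons (mv 1163 (cons (fin 1099 6 907)
(mv 1101 (cons (fin 1165 7 908)
(mv 844 (cons (fin 780 5 779)
(fin 909 7 844)))))))
(mv 1099 (cons (fin 1163 6 907)
(mv 1098 (cons (fin 1036 1 1034)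
(mv 1101 (cons (fin 1100 2 1034)
(fin 1165 7 908))))))))
(cons (mv 1099 (cons (fin 1163 6 907)
(mv 1036 (cons (fin 1098 1 1034)
(fin 844 5 843)))))
(mv 1101 (cons (fin 1165 7 908)
(mv 844 (cons (fin 780 5 779)
(fin 909 7 844)))))))))))))
(cons (mv 906 (cons (fin 907 3 906)
(mv 910 (cons (fin 911 2 907)
(mv 1101 (cons (fin 846 5 845)
(fin 1165 6 909)))))))
(cons (mv 1034 (cons (fin 1035 1 970)
(mv 910 (cons (fin 911 2 907)
(mv 1101 (cons (fin 846 5 845)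
(fin 1165 6 909)))))))
(mv 1035 (cons (fin 1034 1 970)
(mv 907 (cons (fin 906 3 906)
(mv 910 (cons (fin 911 2 907)
(mv 846 (cons (fin 782 5 781)
(mv 847 (cons (fin 783 6 782)
(mv 908 (cons (fin 909 2 843)
(mv 1099 (cons (fin 1163 6 907)
(fin 844 6 843)))))))))))))))))))))))))
(cons (cons (mv 1038 (cons (fin 1039 3 972)
(mv 971 (cons (fin 970 0 970)
(mv 974 (cons (cons (mv 1034 (cons (fin 1035 1 970)
(mv 910 (cons (fin 911 2 907)
(mv 1101 (cons (fin 846 5 845)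
(fin 1165 6 909)))))))
(mv 1035 (cons (fin 1034 1 970)
(mv 908 (cons (cons (mv 1163 (cons (fin 1099 6 907)
(mv 1101 (cons (fin 1165 7 908)
(mv 844 (cons (fin 780 5 779)
(fin 909 7 844)))))))
(mv 1099 (cons (fin 1163 6 907)
(mv 1098 (cons (fin 1036 1 1034)
(mv 1101 (cons (fin 1100 2 1034)
(fin 1165 7 908))))))))
(cons (mv 1101 (cons (fin 1165 7 908)
(mv 844 (cons (fin 780 5 779)
(fin 909 7 844)))))
(mv 1099 (cons (fin 1163 6 907)
(mv 1036 (cons (fin 1098 1 1034)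
(fin 844 5 843)))))))))))
(cons (mv 910 (cons (fin 911 2 907)
(mv 1101 (cons (fin 846 5 845)
(fin 1165 6 909)))))
(mv 1034 (cons (fin 1035 1 970)
(mv 910 (cons (fin 911 2 907)
(mv 846 (cons (fin 782 5 781)
(mv 845 (cons (fin 781 7 781)
(mv 847 (cons (fin 783 6 782)
(mv 909 (cons (mv 908 (cons (fin 848 1 844)
(fin 907 2 843)))
(cons (mv 1036 (cons (fin 1100 5 844)
(mv 844 (cons (fin 780 7 780)
(mv 843 (cons (fin 842 0 842)
(mv 779 (cons (fin 778 3 778)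
(fin 907 4 779)))))))))
(mv 848 (cons (fin 908 1 844)
(fin 849 1 845)))))))))))))))))))))))
(mv 1038 (cons (fin 1039 3 972)
(mv 971 (cons (fin 970 0 970)
(mv 974 (cons (cons (mv 1034 (cons (fin 1035 1 970)
(mv 907 (cons (fin 906 3 906)
(mv 910 (cons (fin 911 2 907)
(mv 1101 (cons (fin 1165 6 909)
(mv 909 (cons (cons (mv 1164 (cons (fin 1100 5 908)
(mv 908 (cons (fin 844 7 844)
(mv 843 (cons (fin 842 3 842)
(mv 779 (cons (fin 1036 4 779)
(fin 715 4 715)))))))))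
(mv 908 (cons (fin 844 7 844)
(mv 843 (cons (fin 842 3 842)
(mv 779 (cons (fin 1036 4 779)
(fin 715 4 715))))))))
(cons (mv 1100 (cons (fin 1164 5 908)
(mv 845 (cons (fin 1036 5 844)
(fin 781 4 781)))))
(mv 1164 (cons (fin 1100 5 908)
(mv 844 (cons (fin 908 7 844)
(mv 845 (cons (fin 780 7 780)
(fin 781 4 781))))))))))))))))))
(cons (mv 907 (cons (fin 906 3 906)
(mv 910 (cons (fin 911 2 907)
(mv 1101 (cons (fin 1165 6 909)
(mv 909 (cons (cons (mv 1164 (cons (fin 1100 5 908)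
(mv 908 (cons (fin 844 7 844)
(mv 843 (cons (fin 842 3 842)
(mv 779 (cons (fin 1036 4 779)
(fin 715 4 715)))))))))
(mv 908 (cons (fin 844 7 844)
(mv 843 (cons (fin 842 3 842)
(mv 779 (cons (fin 1036 4 779)
(fin 715 4 715))))))))
(cons (mv 1100 (cons (fin 1164 5 908)
(mv 845 (cons (fin 1036 5 844)
(fin 781 4 781)))))
(mv 1164 (cons (fin 1100 5 908)
(mv 844 (cons (fin 908 7 844)
(mv 845 (cons (fin 780 7 780)
(fin 781 4 781))))))))))))))))
(mv 1035 (cons (fin 1034 1 970)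
(mv 906 (cons (fin 907 3 906)
(mv 908 (cons (cons (mv 1163 (cons (fin 1099 6 907)
(mv 1101 (cons (fin 1165 7 908)
(mv 844 (cons (fin 780 5 779)
(fin 909 7 844)))))))
(mv 1099 (cons (fin 1163 6 907)
(mv 1098 (cons (fin 1036 1 1034)
(mv 1101 (cons (fin 1100 2 1034)
(fin 1165 7 908))))))))
(cons (mv 1099 (cons (fin 1163 6 907)
(mv 1036 (cons (fin 1098 1 1034)
(fin 844 5 843)))))
(mv 1101 (cons (fin 1165 7 908)
(mv 844 (cons (fin 780 5 779)
(fin 909 7 844))))))))))))))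
(cons (cons (mv 1035 (cons (fin 1034 1 970)
(mv 910 (cons (fin 911 2 907)
(mv 1101 (cons (fin 1165 6 909)
(mv 908 (cons (mv 844 (cons (fin 780 5 779)
(fin 909 7 844)))
(mv 1099 (cons (fin 1163 6 907)
(mv 1098 (cons (fin 1036 1 1034)
(fin 1100 2 1034)))))))))))))
(mv 1035 (cons (fin 1034 1 970)
(mv 907 (cons (fin 906 3 906)
(mv 910 (cons (fin 911 2 907)
(mv 1099 (cons (mv 1098 (cons (fin 1036 1 1034)
(fin 1162 5 906)))
(mv 908 (cons (fin 1163 6 907)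
(fin 844 6 843))))))))))))
(cons (mv 1035 (cons (fin 1034 1 970)
(mv 906 (cons (fin 907 3 906)
(mv 910 (cons (fin 911 2 907)
(mv 1099 (cons (cons (mv 1165 (cons (fin 1101 6 909)
(mv 1036 (cons (fin 1098 1 1034)
(mv 1163 (cons (fin 1227 6 971)
(mv 1226 (cons (fin 1162 5 970)
(mv 1164 (cons (fin 1228 4 971)
(mv 1100 (cons (fin 1229 4 972)
(fin 909 6 908)))))))))))))
(cons (mv 1163 (cons (mv 1036 (cons (fin 1098 1 1034)
(fin 1227 6 971)))
(cons (mv 1226 (cons (fin 1162 5 970)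
(mv 1227 (cons (fin 1290 5 1034)
(mv 1228 (cons (fin 1292 4 1035)
(fin 1164 4 971)))))))
(mv 1226 (cons (fin 1162 5 970)
(mv 1164 (cons (fin 1228 4 971)
(mv 1098 (cons (fin 1036 1 1034)
(mv 1165 (cons (fin 1166 3 1098)
(mv 1097 (cons (fin 1096 0 1096)
(fin 1100 0 1097))))))))))))))
(mv 1101 (cons (fin 1165 6 909)
(mv 1100 (cons (fin 1098 2 1034)
(mv 1164 (cons (fin 909 5 908)
(mv 1228 (cons (fin 1292 7 1035)
(fin 1163 4 971)))))))))))
(cons (cons (mv 1101 (cons (fin 1165 6 909)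
(mv 1163 (cons (mv 1226 (cons (fin 1162 5 970)
(mv 1227 (cons (fin 1290 5 1034)
(fin 1036 6 971)))))
(cons (mv 1162 (cons (fin 1226 5 970)
(mv 1164 (cons (fin 1228 4 971)
(mv 1100 (cons (fin 1161 2 1097)
(fin 909 5 908)))))))
(mv 1227 (cons (fin 1036 6 971)
(mv 1228 (cons (fin 1292 4 1035)
(fin 1164 4 971))))))))))
(mv 1036 (cons (fin 1098 1 1034)
(mv 1163 (cons (fin 1227 6 971)
(mv 1162 (cons (fin 1226 5 970)
(mv 1164 (cons (fin 1228 4 971)
(mv 1100 (cons (fin 909 6 908)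
(mv 1161 (cons (fin 1160 2 1096)
(fin 1101 2 1097))))))))))))))
(cons (mv 1098 (cons (fin 1036 1 1034)
(mv 1101 (cons (fin 1100 2 1034)
(fin 1165 6 909)))))
(mv 1165 (cons (fin 1101 6 909)
(mv 1163 (cons (mv 1036 (cons (fin 1098 1 1034)
(fin 1227 6 971)))
(cons (mv 1226 (cons (fin 1162 5 970)
(mv 1227 (cons (fin 1290 5 1034)
(mv 1228 (cons (fin 1292 4 1035)
(fin 1164 4 971)))))))
(mv 1226 (cons (fin 1162 5 970)
(mv 1164 (cons (fin 1228 4 971)
(mv 1098 (cons (fin 1036 1 1034)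
(fin 1166 3 1098))))))))))))))))))))))
(mv 1035 (cons (fin 1034 1 970)
(mv 906 (cons (fin 907 3 906)
(mv 910 (cons (fin 911 2 907)
(mv 1101 (cons (fin 1165 6 909)
(mv 1099 (cons (cons (mv 1163 (cons (fin 908 6 907)
(mv 1226 (cons (fin 1162 5 970)
(mv 1290 (cons (fin 1227 5 1034)
(mv 1164 (cons (fin 1228 4 971)
(mv 1100 (cons (fin 1098 2 1034)
(fin 909 5 908)))))))))))
(mv 1100 (cons (fin 1098 2 1034)
(mv 1164 (cons (fin 909 5 908)
(mv 1228 (cons (fin 1292 7 1035)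
(fin 1163 4 971))))))))
(cons (mv 1100 (cons (fin 1098 2 1034)
(mv 909 (cons (fin 1164 5 908)
(mv 844 (cons (fin 908 7 844)
(mv 845 (cons (fin 780 7 780)
(fin 781 4 781)))))))))
(cons (mv 1163 (cons (fin 908 6 907)
(mv 1226 (cons (fin 1162 5 970)
(mv 1227 (cons (fin 1290 5 1034)
(mv 1228 (cons (fin 1292 4 1035)
(fin 1164 4 971)))))))))
(mv 1098 (cons (fin 1100 2 1034)
(mv 908 (cons (fin 1163 6 907)
(mv 844 (cons (fin 780 5 779)
(fin 909 7 844))))))))))))))))))))))))))))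
(cons (mv 1038 (cons (fin 1039 3 972)
(mv 971 (cons (fin 970 0 970)
(mv 974 (cons (cons (mv 1034 (cons (fin 1035 1 970)
(mv 910 (cons (fin 911 2 907)
(mv 1101 (cons (fin 846 5 845)
(fin 1165 6 909)))))))
(mv 1035 (cons (fin 1034 1 970)
(mv 908 (cons (cons (mv 1163 (cons (fin 1099 6 907)
(mv 1101 (cons (fin 1165 7 908)
(mv 844 (cons (fin 780 5 779)
(fin 909 7 844)))))))
(mv 1099 (cons (fin 1163 6 907)
(mv 1098 (cons (fin 1036 1 1034)
(mv 1101 (cons (fin 1100 2 1034)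
(fin 1165 7 908))))))))
(cons (mv 1099 (cons (fin 1163 6 907)
(mv 1036 (cons (fin 1098 1 1034)
(fin 844 5 843)))))
(mv 1101 (cons (fin 1165 7 908)
(mv 844 (cons (fin 780 5 779)
(fin 909 7 844)))))))))))
(cons (mv 910 (cons (fin 911 2 907)
(mv 1101 (cons (fin 846 5 845)
(fin 1165 6 909)))))
(mv 1035 (cons (fin 1034 1 970)
(mv 910 (cons (fin 911 2 907)
(mv 846 (cons (fin 782 5 781)
(mv 845 (cons (fin 781 7 781)
(mv 847 (cons (fin 783 6 782)
(mv 848 (cons (mv 909 (cons (fin 908 1 844)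
(fin 849 1 845)))
(cons (mv 912 (cons (fin 913 0 845)
(mv 785 (cons (fin 784 2 781)
(mv 849 (cons (fin 786 2 782)
(fin 976 6 784)))))))
(mv 908 (cons (fin 909 1 844)
(mv 1099 (cons (fin 1163 6 907)
(mv 1036 (cons (fin 1098 1 1034)
(fin 844 5 843)))))))))))))))))))))))))))
(mv 1038 (cons (fin 1039 3 972)
(mv 971 (cons (fin 970 0 970)
(mv 974 (cons (cons (mv 1034 (cons (fin 1035 1 970)
(mv 906 (cons (fin 907 3 906)
(mv 910 (cons (fin 911 2 907)
(mv 1101 (cons (fin 846 5 845)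
(fin 1165 6 909)))))))))
(mv 1035 (cons (fin 1034 1 970)
(mv 907 (cons (fin 906 3 906)
(mv 843 (cons (mv 1036 (cons (fin 1100 4 843)
(fin 779 4 779)))
(cons (mv 844 (cons (fin 780 6 779)
(mv 778 (cons (fin 842 7 778)
(mv 779 (cons (fin 714 7 714)
(mv 908 (cons (fin 715 4 715)
(mv 1101 (cons (fin 1165 7 908)
(fin 909 7 844)))))))))))
(mv 1036 (cons (fin 1100 4 843)
(mv 842 (cons (fin 778 7 778)
(mv 844 (cons (fin 780 6 779)
(mv 908 (cons (fin 1101 4 844)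
(mv 841 (cons (fin 840 0 840)
(fin 909 0 841)))))))))))))))))))
(cons (mv 906 (cons (fin 907 3 906)
(mv 910 (cons (fin 911 2 907)
(mv 1101 (cons (fin 846 5 845)
(fin 1165 6 909)))))))
(cons (mv 1034 (cons (fin 1035 1 970)
(mv 910 (cons (fin 911 2 907)
(mv 1101 (cons (fin 846 5 845)
(fin 1165 6 909)))))))
(mv 1034 (cons (fin 1035 1 970)
(mv 907 (cons (fin 906 3 906)
(mv 910 (cons (fin 911 2 907)
(mv 846 (cons (fin 782 5 781)
(mv 845 (cons (fin 781 7 781)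
(mv 847 (cons (fin 783 6 782)
(mv 908 (cons (fin 844 1 843)
(fin 909 2 843))))))))))))))))))))))))))))
(mv 972 (cons (cons (cons (mv 1038 (cons (fin 1039 3 972)
(mv 970 (cons (fin 971 0 970)
(mv 908 (cons (cons (mv 1101 (cons (fin 1165 7 908)
(mv 844 (cons (fin 909 7 844)
(fin 1036 4 844)))))
(mv 844 (cons (fin 780 4 780)
(mv 1036 (cons (mv 1099 (cons (fin 1035 5 843)
(mv 1100 (cons (fin 1163 5 907)
(mv 1164 (cons (fin 1228 6 972)
(fin 909 6 908)))))))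
(cons (mv 843 (cons (fin 779 7 779)
(mv 1100 (cons (fin 907 7 843)
(mv 1164 (cons (fin 1228 6 972)
(fin 909 6 908)))))))
(mv 1035 (cons (fin 1099 5 843)
(mv 1034 (cons (fin 969 3 969)
(fin 1033 2 969)))))))))))
(cons (mv 1101 (cons (fin 1165 7 908)
(mv 909 (cons (cons (mv 1164 (cons (fin 1100 5 908)
(mv 910 (cons (fin 846 6 845)
(mv 911 (cons (fin 912 1 908)
(mv 975 (cons (fin 976 0 908)
(mv 974 (cons (fin 907 3 907)
(mv 847 (cons (fin 848 2 844)
(fin 783 5 782)))))))))))))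
(mv 910 (cons (fin 846 6 845)
(mv 911 (cons (fin 912 1 908)
(mv 975 (cons (fin 976 0 908)
(mv 974 (cons (fin 907 3 907)
(mv 847 (cons (fin 848 2 844)
(fin 783 5 782))))))))))))
(cons (mv 1100 (cons (fin 1164 5 908)
(mv 1098 (cons (fin 1099 2 1034)
(mv 1036 (cons (fin 845 5 844)
(mv 907 (cons (fin 843 7 843)
(mv 974 (cons (fin 975 3 907)
(fin 906 0 906)))))))))))
(cons (mv 1100 (cons (fin 1164 5 908)
(mv 1098 (cons (fin 1099 2 1034)
(mv 1036 (cons (fin 845 5 844)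
(mv 907 (cons (fin 843 7 843)
(mv 906 (cons (fin 969 1 905)
(fin 905 0 905)))))))))))
(mv 1100 (cons (fin 1164 5 908)
(mv 1098 (cons (fin 1099 2 1034)
(mv 1036 (cons (fin 845 5 844)
(mv 910 (cons (fin 846 6 845)
(mv 911 (cons (fin 912 1 908)
(mv 975 (cons (fin 976 0 908)
(mv 1035 (cons (fin 974 1 971)
(mv 1034 (cons (fin 1097 1 1033)
(fin 969 3 969)))))))))))))))))))))))
(cons (mv 1101 (cons (fin 1165 7 908)
(mv 844 (cons (fin 909 7 844)
(fin 780 4 780)))))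
(mv 1101 (cons (fin 1165 7 908)
(mv 844 (cons (fin 1036 4 844)
(fin 780 4 780)))))))))))))
(mv 908 (cons (cons (mv 1101 (cons (fin 1165 7 908)
(mv 844 (cons (fin 909 7 844)
(fin 1036 4 844)))))
(mv 1101 (cons (fin 1165 7 908)
(mv 909 (cons (mv 1164 (cons (fin 1100 5 908)
(mv 910 (cons (fin 846 6 845)
(mv 971 (cons (fin 911 1 907)
(fin 970 2 906)))))))
(cons (mv 1100 (cons (fin 1164 5 908)
(mv 1036 (cons (fin 845 5 844)
(mv 1163 (cons (fin 1099 5 907)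
(mv 907 (cons (fin 843 7 843)
(mv 974 (cons (fin 975 3 907)
(fin 906 0 906)))))))))))
(mv 910 (cons (fin 846 6 845)
(mv 971 (cons (fin 911 1 907)
(fin 970 2 906)))))))))))
(cons (mv 844 (cons (fin 780 4 780)
(mv 1036 (cons (mv 1099 (cons (fin 1035 5 843)
(mv 1100 (cons (fin 1163 5 907)
(mv 1164 (cons (fin 1228 6 972)
(fin 909 6 908)))))))
(cons (mv 843 (cons (fin 779 7 779)
(mv 1100 (cons (fin 907 7 843)
(mv 1164 (cons (fin 1228 6 972)
(fin 909 6 908)))))))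
(mv 1035 (cons (fin 1099 5 843)
(mv 1034 (cons (fin 1033 2 969)
(fin 974 2 970))))))))))
(cons (mv 1101 (cons (fin 1165 7 908)
(mv 844 (cons (fin 909 7 844)
(fin 780 4 780)))))
(mv 1101 (cons (fin 1165 7 908)
(mv 844 (cons (fin 1036 4 844)
(fin 780 4 780))))))))))
(cons (mv 1038 (cons (fin 1039 3 972)
(mv 971 (cons (fin 970 0 970)
(mv 974 (cons (cons (mv 1034 (cons (fin 1035 1 970)
(mv 906 (cons (fin 907 3 906)
(mv 910 (cons (fin 911 2 907)
(mv 1101 (cons (fin 846 5 845)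
(fin 1165 6 909)))))))))
(mv 906 (cons (fin 907 3 906)
(mv 910 (cons (fin 911 2 907)
(mv 1101 (cons (fin 846 5 845)
(fin 1165 6 909))))))))
(cons (mv 1035 (cons (fin 1034 1 970)
(mv 1036 (cons (fin 975 1 971)
(mv 1098 (cons (fin 1099 1 1034)
(mv 907 (cons (fin 906 3 906)
(mv 1100 (cons (fin 1164 7 907)
(fin 843 4 843)))))))))))
(mv 1034 (cons (fin 1035 1 970)
(mv 910 (cons (fin 911 2 907)
(mv 1101 (cons (fin 846 5 845)
(fin 1165 6 909))))))))))))))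
(cons (mv 1038 (cons (fin 1039 3 972)
(mv 971 (cons (fin 970 0 970)
(mv 908 (cons (cons (mv 1101 (cons (fin 1165 7 908)
(mv 844 (cons (fin 909 7 844)
(fin 1036 4 844)))))
(mv 1101 (cons (fin 1165 7 908)
(mv 909 (cons (mv 910 (cons (fin 911 1 907)
(fin 846 6 845)))
(mv 1100 (cons (fin 1164 5 908)
(mv 1099 (cons (fin 1098 2 1034)
(mv 1163 (cons (fin 1036 5 907)
(fin 1035 6 907))))))))))))
(cons (mv 844 (cons (fin 780 4 780)
(mv 1036 (cons (cons (mv 1099 (cons (fin 1035 5 843)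
(mv 1100 (cons (fin 1163 5 907)
(mv 1164 (cons (fin 907 7 907)
(fin 1228 6 972)))))))
(mv 843 (cons (fin 779 7 779)
(mv 1100 (cons (fin 907 7 843)
(mv 1164 (cons (fin 1228 6 972)
(fin 909 6 908))))))))
(cons (mv 1035 (cons (fin 1099 5 843)
(mv 1034 (cons (fin 1033 2 969)
(mv 1098 (cons (fin 1097 1 1033)
(mv 843 (cons (fin 907 5 842)
(fin 779 7 779)))))))))
(mv 1099 (cons (fin 1035 5 843)
(mv 1100 (cons (fin 1163 5 907)
(mv 1164 (cons (fin 1228 6 972)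
(fin 909 6 908))))))))))))
(cons (mv 1101 (cons (fin 1165 7 908)
(mv 844 (cons (fin 1036 4 844)
(fin 780 4 780)))))
(mv 1101 (cons (fin 1165 7 908)
(mv 844 (cons (fin 909 7 844)
(fin 780 4 780)))))))))))))
(mv 1038 (cons (fin 1039 3 972)
(mv 908 (cons (cons (mv 1101 (cons (fin 1165 7 908)
(mv 844 (cons (fin 909 7 844)
(fin 1036 4 844)))))
(mv 844 (cons (fin 780 4 780)
(mv 1036 (cons (mv 1099 (cons (fin 1035 5 843)
(mv 1100 (cons (fin 1163 5 907)
(mv 1164 (cons (fin 1228 6 972)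
(fin 909 6 908)))))))
(cons (mv 843 (cons (fin 779 7 779)
(mv 1100 (cons (fin 907 7 843)
(mv 1164 (cons (fin 1228 6 972)
(fin 909 6 908)))))))
(mv 1035 (cons (fin 1099 5 843)
(mv 1034 (cons (fin 1033 2 969)
(fin 974 2 970)))))))))))
(cons (mv 1101 (cons (fin 1165 7 908)
(mv 909 (cons (cons (mv 1164 (cons (fin 1100 5 908)
(mv 910 (cons (fin 846 6 845)
(mv 911 (cons (fin 912 1 908)
(mv 975 (cons (fin 976 0 908)
(mv 974 (cons (fin 907 3 907)
(mv 847 (cons (fin 848 2 844)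
(fin 783 5 782)))))))))))))
(mv 910 (cons (fin 846 6 845)
(mv 911 (cons (fin 912 1 908)
(mv 975 (cons (fin 976 0 908)
(mv 974 (cons (fin 907 3 907)
(mv 847 (cons (fin 848 2 844)
(fin 783 5 782))))))))))))
(cons (mv 1100 (cons (fin 1164 5 908)
(mv 1098 (cons (fin 1099 2 1034)
(mv 1036 (cons (fin 845 5 844)
(mv 907 (cons (fin 843 7 843)
(mv 974 (cons (fin 975 3 907)
(fin 906 0 906)))))))))))
(mv 1100 (cons (fin 1164 5 908)
(mv 1099 (cons (fin 1098 2 1034)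
(mv 1036 (cons (fin 1163 5 907)
(fin 845 5 844))))))))))))
(cons (mv 1101 (cons (fin 1165 7 908)
(mv 844 (cons (fin 909 7 844)
(fin 780 4 780)))))
(mv 1101 (cons (fin 1165 7 908)
(mv 844 (cons (fin 1036 4 844)
(fin 780 4 780))))))))))))))
(cons (cons (mv 1038 (cons (fin 1039 3 972)
(mv 971 (cons (fin 970 0 970)
(mv 974 (cons (cons (mv 1034 (cons (fin 1035 1 970)
(mv 906 (cons (fin 907 3 906)
(mv 911 (cons (fin 910 2 907)
(mv 975 (cons (fin 912 2 908)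
(mv 976 (cons (fin 1036 1 972)
(fin 977 1 973)))))))))))
(cons (mv 906 (cons (fin 907 3 906)
(mv 911 (cons (fin 910 2 907)
(mv 975 (cons (fin 912 2 908)
(mv 976 (cons (fin 1036 1 972)
(fin 977 1 973)))))))))
(mv 1034 (cons (fin 1035 1 970)
(mv 911 (cons (fin 910 2 907)
(mv 975 (cons (fin 912 2 908)
(mv 976 (cons (fin 1036 1 972)
(fin 977 1 973)))))))))))
(cons (mv 1034 (cons (fin 1035 1 970)
(mv 907 (cons (fin 906 3 906)
(mv 975 (cons (fin 908 3 907)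
(mv 976 (cons (fin 1036 1 972)
(fin 977 1 973)))))))))
(cons (mv 1035 (cons (fin 1034 1 970)
(mv 907 (cons (fin 906 3 906)
(mv 910 (cons (fin 911 2 907)
(mv 1099 (cons (mv 1098 (cons (fin 1036 1 1034)
(fin 1162 5 906)))
(mv 908 (cons (fin 1163 6 907)
(fin 844 6 843)))))))))))
(mv 1034 (cons (fin 1035 1 970)
(mv 907 (cons (fin 906 3 906)
(mv 975 (cons (fin 908 3 907)
(mv 911 (cons (fin 910 2 907)
(fin 912 2 908)))))))))))))))))
(cons (mv 1038 (cons (fin 1039 3 972)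
(mv 971 (cons (fin 970 0 970)
(mv 974 (cons (cons (mv 1034 (cons (fin 1035 1 970)
(mv 906 (cons (fin 907 3 906)
(mv 910 (cons (fin 911 2 907)
(mv 1101 (cons (fin 846 5 845)
(fin 1165 6 909)))))))))
(mv 1034 (cons (fin 1035 1 970)
(mv 907 (cons (fin 906 3 906)
(mv 975 (cons (fin 908 3 907)
(mv 976 (cons (fin 977 1 973)
(mv 912 (cons (fin 911 2 908)
(fin 913 2 909))))))))))))
(cons (mv 1034 (cons (fin 1035 1 970)
(mv 907 (cons (fin 906 3 906)
(mv 908 (cons (fin 975 3 907)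
(mv 1101 (cons (fin 1165 7 908)
(mv 844 (cons (fin 909 7 844)
(fin 780 4 780)))))))))))
(cons (mv 1034 (cons (fin 1035 1 970)
(mv 910 (cons (fin 911 2 907)
(mv 1101 (cons (fin 846 5 845)
(fin 1165 6 909)))))))
(mv 906 (cons (fin 907 3 906)
(mv 910 (cons (fin 911 2 907)
(mv 1101 (cons (fin 846 5 845)
(fin 1165 6 909)))))))))))))))
(mv 1038 (cons (fin 1039 3 972)
(mv 971 (cons (fin 970 0 970)
(mv 974 (cons (cons (mv 1034 (cons (fin 1035 1 970)
(mv 907 (cons (fin 906 3 906)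
(mv 975 (cons (fin 908 3 907)
(mv 976 (cons (fin 1036 1 972)
(fin 977 1 973)))))))))
(cons (mv 907 (cons (fin 906 3 906)
(mv 975 (cons (fin 908 3 907)
(mv 976 (cons (fin 1036 1 972)
(fin 977 1 973)))))))
(mv 1035 (cons (fin 1034 1 970)
(mv 1036 (cons (fin 975 1 971)
(mv 1099 (cons (fin 1098 1 1034)
(mv 1163 (cons (fin 1227 6 971)
(fin 908 6 907)))))))))))
(cons (mv 1035 (cons (fin 1034 1 970)
(mv 906 (cons (fin 907 3 906)
(mv 908 (cons (cons (mv 1163 (cons (fin 1099 6 907)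
(mv 1101 (cons (fin 1165 7 908)
(mv 844 (cons (fin 780 5 779)
(fin 909 7 844)))))))
(mv 1099 (cons (fin 1163 6 907)
(mv 1098 (cons (fin 1036 1 1034)
(mv 1101 (cons (fin 1100 2 1034)
(fin 1165 7 908))))))))
(cons (mv 1099 (cons (fin 1163 6 907)
(mv 1036 (cons (fin 1098 1 1034)
(fin 844 5 843)))))
(mv 1101 (cons (fin 1165 7 908)
(mv 844 (cons (fin 780 5 779)
(fin 909 7 844))))))))))))
(cons (mv 1034 (cons (fin 1035 1 970)
(mv 907 (cons (fin 906 3 906)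
(mv 975 (cons (fin 908 3 907)
(mv 976 (cons (fin 977 1 973)
(mv 912 (cons (fin 911 2 908)
(fin 913 2 909)))))))))))
(mv 1035 (cons (fin 1034 1 970)
(mv 1036 (cons (fin 975 1 971)
(mv 1098 (cons (fin 1099 1 1034)
(mv 907 (cons (fin 906 3 906)
(mv 1100 (cons (fin 1164 7 907)
(fin 843 4 843)))))))))))))))))))))
(cons (mv 1038 (cons (fin 1039 3 972)
(mv 970 (cons (fin 971 0 970)
(mv 1101 (cons (cons (mv 1165 (cons (fin 908 7 908)
(mv 1229 (cons (fin 1036 7 972)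
(fin 974 6 973)))))
(mv 909 (cons (cons (mv 1164 (cons (fin 1100 5 908)
(mv 908 (cons (fin 844 7 844)
(mv 910 (cons (fin 846 6 845)
(mv 911 (cons (fin 912 1 908)
(mv 975 (cons (fin 976 0 908)
(mv 974 (cons (fin 907 3 907)
(mv 847 (cons (fin 848 2 844)
(fin 783 5 782)))))))))))))))
(cons (mv 908 (cons (fin 844 7 844)
(mv 910 (cons (fin 846 6 845)
(mv 911 (cons (fin 912 1 908)
(mv 975 (cons (fin 976 0 908)
(mv 974 (cons (fin 907 3 907)
(mv 847 (cons (fin 848 2 844)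
(fin 783 5 782)))))))))))))
(mv 1100 (cons (fin 1164 5 908)
(mv 1098 (cons (fin 1099 2 1034)
(mv 910 (cons (fin 846 6 845)
(mv 911 (cons (fin 912 1 908)
(mv 845 (cons (fin 1036 5 844)
(mv 781 (cons (fin 974 4 781)
(mv 716 (cons (fin 780 7 716)
(mv 717 (cons (fin 908 5 716)
(fin 652 7 652)))))))))))))))))))
(cons (mv 1100 (cons (fin 1164 5 908)
(mv 1098 (cons (fin 1099 2 1034)
(mv 910 (cons (fin 846 6 845)
(mv 911 (cons (fin 912 1 908)
(mv 845 (cons (fin 1036 5 844)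
(mv 780 (cons (fin 844 7 780)
(mv 781 (cons (fin 716 7 716)
(fin 974 4 781)))))))))))))))
(cons (mv 1164 (cons (fin 1100 5 908)
(mv 844 (cons (fin 908 7 844)
(mv 845 (cons (fin 780 7 780)
(mv 781 (cons (fin 1036 5 780)
(fin 974 4 781)))))))))
(mv 1100 (cons (fin 1164 5 908)
(mv 1098 (cons (fin 1099 2 1034)
(mv 1036 (cons (fin 845 5 844)
(mv 908 (cons (fin 844 7 844)
(mv 907 (cons (fin 843 7 843)
(mv 906 (cons (fin 969 1 905)
(fin 905 0 905))))))))))))))))))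
(cons (mv 1165 (cons (mv 1229 (cons (fin 1036 7 972)
(fin 974 6 973)))
(cons (mv 1230 (cons (fin 1166 4 973)
(mv 1164 (cons (fin 1228 5 972)
(mv 909 (cons (fin 1100 5 908)
(mv 910 (cons (fin 974 6 909)
(fin 846 6 845)))))))))
(mv 1228 (cons (fin 1164 5 972)
(mv 1229 (cons (fin 1292 5 1036)
(fin 1036 7 972))))))))
(cons (mv 1165 (cons (fin 908 7 908)
(mv 1228 (cons (fin 1164 5 972)
(mv 1229 (cons (fin 1292 5 1036)
(fin 1036 7 972)))))))
(mv 1165 (cons (fin 908 7 908)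
(mv 974 (cons (fin 1229 6 973)
(fin 910 6 909)))))))))))))
(cons (mv 1038 (cons (fin 1039 3 972)
(mv 971 (cons (fin 970 0 970)
(mv 974 (cons (mv 1034 (cons (fin 1035 1 970)
(mv 910 (cons (fin 911 2 907)
(mv 1101 (cons (fin 846 5 845)
(fin 1165 6 909)))))))
(cons (mv 910 (cons (fin 911 2 907)
(mv 1101 (cons (fin 846 5 845)
(fin 1165 6 909)))))
(mv 1035 (cons (fin 1034 1 970)
(mv 1036 (cons (fin 975 1 971)
(mv 1099 (cons (fin 1098 1 1034)
(mv 1163 (cons (fin 1227 6 971)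
(fin 908 6 907))))))))))))))))
(mv 1038 (cons (fin 1039 3 972)
(mv 971 (cons (fin 970 0 970)
(mv 974 (cons (cons (mv 1034 (cons (fin 1035 1 970)
(mv 907 (cons (fin 906 3 906)
(mv 975 (cons (fin 908 3 907)
(mv 976 (cons (fin 1036 1 972)
(fin 977 1 973)))))))))
(cons (mv 907 (cons (fin 906 3 906)
(mv 975 (cons (fin 908 3 907)
(mv 976 (cons (fin 1036 1 972)
(fin 977 1 973)))))))
(mv 1035 (cons (fin 1034 1 970)
(mv 1036 (cons (fin 975 1 971)
(mv 1099 (cons (fin 1098 1 1034)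
(mv 1163 (cons (fin 1227 6 971)
(fin 908 6 907)))))))))))
(cons (mv 1035 (cons (fin 1034 1 970)
(mv 906 (cons (fin 907 3 906)
(mv 908 (cons (cons (mv 1163 (cons (fin 1099 6 907)
(mv 1101 (cons (fin 1165 7 908)
(mv 844 (cons (fin 780 5 779)
(fin 909 7 844)))))))
(mv 1099 (cons (fin 1163 6 907)
(mv 1098 (cons (fin 1036 1 1034)
(mv 1101 (cons (fin 1100 2 1034)
(fin 1165 7 908))))))))
(cons (mv 1099 (cons (fin 1163 6 907)
(mv 1036 (cons (fin 1098 1 1034)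
(fin 844 5 843)))))
(mv 1101 (cons (fin 1165 7 908)
(mv 844 (cons (fin 780 5 779)
(fin 909 7 844))))))))))))
(cons (mv 1034 (cons (fin 1035 1 970)
(mv 907 (cons (fin 906 3 906)
(mv 908 (cons (fin 975 3 907)
(mv 1101 (cons (fin 1165 7 908)
(mv 844 (cons (fin 909 7 844)
(fin 780 4 780)))))))))))
(mv 1035 (cons (fin 1034 1 970)
(mv 1036 (cons (fin 975 1 971)
(mv 1098 (cons (fin 1099 1 1034)
(mv 907 (cons (fin 906 3 906)
(mv 1100 (cons (fin 1164 7 907)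
(fin 843 4 843))))))))))))))))))))))))))
(cons (mv 972 (cons (cons (cons (mv 1038 (cons (fin 1039 3 972)
(mv 970 (cons (fin 971 0 970)
(mv 908 (cons (cons (mv 1101 (cons (fin 1165 7 908)
(mv 844 (cons (fin 909 7 844)
(fin 1036 4 844)))))
(mv 844 (cons (fin 780 4 780)
(mv 1036 (cons (mv 1099 (cons (fin 1035 5 843)
(mv 1100 (cons (fin 1163 5 907)
(mv 1164 (cons (fin 1228 6 972)
(fin 909 6 908)))))))
(cons (mv 843 (cons (fin 779 7 779)
(mv 1100 (cons (fin 907 7 843)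
(mv 1164 (cons (fin 1228 6 972)
(fin 909 6 908)))))))
(mv 1035 (cons (fin 1099 5 843)
(mv 1034 (cons (fin 969 3 969)
(fin 1033 2 969)))))))))))
(cons (mv 1101 (cons (fin 1165 7 908)
(mv 909 (cons (cons (mv 1164 (cons (fin 1100 5 908)
(mv 910 (cons (fin 846 6 845)
(mv 911 (cons (fin 912 1 908)
(mv 975 (cons (fin 976 0 908)
(mv 974 (cons (fin 907 3 907)
(mv 847 (cons (fin 848 2 844)
(fin 783 5 782)))))))))))))
(mv 910 (cons (fin 846 6 845)
(mv 911 (cons (fin 912 1 908)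
(mv 975 (cons (fin 976 0 908)
(mv 974 (cons (fin 907 3 907)
(mv 847 (cons (fin 848 2 844)
(fin 783 5 782))))))))))))
(cons (mv 1100 (cons (fin 1164 5 908)
(mv 1098 (cons (fin 1099 2 1034)
(mv 1036 (cons (fin 845 5 844)
(mv 907 (cons (fin 843 7 843)
(mv 974 (cons (fin 975 3 907)
(fin 906 0 906)))))))))))
(mv 1164 (cons (fin 1100 5 908)
(mv 846 (cons (fin 910 6 845)
(mv 845 (cons (fin 782 6 781)
(mv 781 (cons (fin 1036 5 780)
(fin 717 5 716))))))))))))))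
(cons (mv 1101 (cons (fin 1165 7 908)
(mv 844 (cons (fin 909 7 844)
(fin 780 4 780)))))
(mv 1101 (cons (fin 1165 7 908)
(mv 844 (cons (fin 1036 4 844)
(fin 780 4 780)))))))))))))
(mv 908 (cons (cons (mv 1101 (cons (fin 1165 7 908)
(mv 844 (cons (fin 909 7 844)
(fin 1036 4 844)))))
(mv 1101 (cons (fin 1165 7 908)
(mv 909 (cons (mv 1164 (cons (fin 1100 5 908)
(mv 910 (cons (fin 846 6 845)
(mv 971 (cons (fin 911 1 907)
(fin 970 2 906)))))))
(cons (mv 1100 (cons (fin 1164 5 908)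
(mv 1036 (cons (fin 845 5 844)
(mv 1163 (cons (fin 1099 5 907)
(mv 907 (cons (fin 843 7 843)
(mv 974 (cons (fin 975 3 907)
(fin 906 0 906)))))))))))
(mv 910 (cons (fin 846 6 845)
(mv 971 (cons (fin 911 1 907)
(fin 970 2 906)))))))))))
(cons (mv 844 (cons (fin 780 4 780)
(mv 1036 (cons (mv 1099 (cons (fin 1035 5 843)
(mv 1100 (cons (fin 1163 5 907)
(mv 1164 (cons (fin 1228 6 972)
(fin 909 6 908)))))))
(cons (mv 843 (cons (fin 779 7 779)
(mv 1100 (cons (fin 907 7 843)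
(mv 1164 (cons (fin 1228 6 972)
(fin 909 6 908)))))))
(mv 1035 (cons (fin 1099 5 843)
(mv 1034 (cons (fin 1033 2 969)
(fin 974 2 970))))))))))
(cons (mv 1101 (cons (fin 1165 7 908)
(mv 844 (cons (fin 909 7 844)
(fin 780 4 780)))))
(mv 1101 (cons (fin 1165 7 908)
(mv 844 (cons (fin 1036 4 844)
(fin 780 4 780))))))))))
(cons (mv 1038 (cons (fin 1039 3 972)
(mv 971 (cons (fin 970 0 970)
(mv 974 (cons (cons (mv 1034 (cons (fin 1035 1 970)
(mv 906 (cons (fin 907 3 906)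
(mv 910 (cons (fin 911 2 907)
(mv 1101 (cons (fin 846 5 845)
(fin 1165 6 909)))))))))
(mv 1035 (cons (fin 1034 1 970)
(mv 1036 (cons (fin 975 1 971)
(mv 1098 (cons (fin 1099 1 1034)
(mv 907 (cons (fin 906 3 906)
(mv 1100 (cons (fin 1164 7 907)
(fin 843 4 843))))))))))))
(cons (mv 906 (cons (fin 907 3 906)
(mv 910 (cons (fin 911 2 907)
(mv 1101 (cons (fin 846 5 845)
(fin 1165 6 909)))))))
(mv 1034 (cons (fin 1035 1 970)
(mv 910 (cons (fin 911 2 907)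
(mv 1101 (cons (fin 846 5 845)
(fin 1165 6 909))))))))))))))
(cons (mv 1038 (cons (fin 1039 3 972)
(mv 971 (cons (fin 970 0 970)
(mv 908 (cons (cons (mv 1101 (cons (fin 1165 7 908)
(mv 844 (cons (fin 909 7 844)
(fin 1036 4 844)))))
(mv 1101 (cons (fin 1165 7 908)
(mv 909 (cons (mv 910 (cons (fin 911 1 907)
(fin 846 6 845)))
(cons (mv 1100 (cons (fin 1164 5 908)
(mv 1098 (cons (fin 1099 2 1034)
(mv 845 (cons (fin 1036 5 844)
(mv 781 (cons (fin 717 5 716)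
(mv 782 (cons (fin 846 6 781)
(fin 718 6 717)))))))))))
(mv 1100 (cons (fin 1164 5 908)
(mv 1099 (cons (fin 1098 2 1034)
(mv 1163 (cons (fin 1036 5 907)
(fin 1035 6 907)))))))))))))
(cons (mv 844 (cons (fin 780 4 780)
(mv 1036 (cons (cons (mv 1099 (cons (fin 1035 5 843)
(mv 1100 (cons (fin 1163 5 907)
(mv 1164 (cons (fin 907 7 907)
(fin 1228 6 972)))))))
(mv 843 (cons (fin 779 7 779)
(mv 1100 (cons (fin 907 7 843)
(mv 1164 (cons (fin 1228 6 972)
(fin 909 6 908))))))))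
(cons (mv 1035 (cons (fin 1099 5 843)
(mv 1034 (cons (fin 1033 2 969)
(mv 1098 (cons (fin 1097 1 1033)
(mv 843 (cons (fin 907 5 842)
(fin 779 7 779)))))))))
(mv 1099 (cons (fin 1035 5 843)
(mv 1100 (cons (fin 1163 5 907)
(mv 1164 (cons (fin 1228 6 972)
(fin 909 6 908))))))))))))
(cons (mv 1101 (cons (fin 1165 7 908)
(mv 844 (cons (fin 1036 4 844)
(fin 780 4 780)))))
(mv 1101 (cons (fin 1165 7 908)
(mv 844 (cons (fin 909 7 844)
(fin 780 4 780)))))))))))))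
(mv 1038 (cons (fin 1039 3 972)
(mv 908 (cons (cons (mv 1101 (cons (fin 1165 7 908)
(mv 844 (cons (fin 909 7 844)
(fin 1036 4 844)))))
(mv 844 (cons (fin 780 4 780)
(mv 1036 (cons (mv 1099 (cons (fin 1035 5 843)
(mv 1100 (cons (fin 1163 5 907)
(mv 1164 (cons (fin 1228 6 972)
(fin 909 6 908)))))))
(cons (mv 843 (cons (fin 779 7 779)
(mv 1100 (cons (fin 907 7 843)
(mv 1164 (cons (fin 1228 6 972)
(fin 909 6 908)))))))
(mv 1035 (cons (fin 1099 5 843)
(mv 1034 (cons (fin 1033 2 969)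
(fin 974 2 970)))))))))))
(cons (mv 1101 (cons (fin 1165 7 908)
(mv 909 (cons (cons (mv 1164 (cons (fin 1100 5 908)
(mv 910 (cons (fin 846 6 845)
(mv 911 (cons (fin 912 1 908)
(mv 975 (cons (fin 976 0 908)
(mv 974 (cons (fin 907 3 907)
(mv 847 (cons (fin 848 2 844)
(fin 783 5 782)))))))))))))
(mv 910 (cons (fin 846 6 845)
(mv 911 (cons (fin 912 1 908)
(mv 975 (cons (fin 976 0 908)
(mv 974 (cons (fin 907 3 907)
(mv 847 (cons (fin 848 2 844)
(fin 783 5 782))))))))))))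
(cons (mv 1100 (cons (fin 1164 5 908)
(mv 1098 (cons (fin 1099 2 1034)
(mv 1036 (cons (fin 845 5 844)
(mv 907 (cons (fin 843 7 843)
(mv 974 (cons (fin 975 3 907)
(fin 906 0 906)))))))))))
(mv 1164 (cons (fin 1100 5 908)
(mv 846 (cons (fin 910 6 845)
(mv 845 (cons (fin 782 6 781)
(mv 781 (cons (fin 1036 5 780)
(fin 717 5 716))))))))))))))
(cons (mv 1101 (cons (fin 1165 7 908)
(mv 844 (cons (fin 909 7 844)
(fin 780 4 780)))))
(mv 1101 (cons (fin 1165 7 908)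
(mv 844 (cons (fin 1036 4 844)
(fin 780 4 780))))))))))))))
(cons (cons (mv 1038 (cons (fin 1039 3 972)
(mv 971 (cons (fin 970 0 970)
(mv 974 (cons (cons (mv 1034 (cons (fin 1035 1 970)
(mv 906 (cons (fin 907 3 906)
(mv 911 (cons (fin 910 2 907)
(mv 975 (cons (fin 912 2 908)
(mv 976 (cons (fin 1036 1 972)
(fin 977 1 973)))))))))))
(mv 906 (cons (fin 907 3 906)
(mv 911 (cons (fin 910 2 907)
(mv 975 (cons (fin 912 2 908)
(mv 976 (cons (fin 1036 1 972)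
(fin 977 1 973))))))))))
(cons (mv 1034 (cons (fin 1035 1 970)
(mv 911 (cons (fin 910 2 907)
(mv 975 (cons (fin 912 2 908)
(mv 976 (cons (fin 1036 1 972)
(fin 977 1 973)))))))))
(cons (mv 1034 (cons (fin 1035 1 970)
(mv 907 (cons (fin 906 3 906)
(mv 975 (cons (fin 908 3 907)
(mv 976 (cons (fin 1036 1 972)
(fin 977 1 973)))))))))
(mv 1034 (cons (fin 1035 1 970)
(mv 907 (cons (fin 906 3 906)
(mv 910 (cons (fin 911 2 907)
(mv 846 (cons (fin 782 5 781)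
(mv 845 (cons (fin 781 7 781)
(mv 847 (cons (fin 783 6 782)
(mv 908 (cons (fin 844 1 843)
(fin 909 2 843)))))))))))))))))))))))
(cons (mv 1038 (cons (fin 1039 3 972)
(mv 971 (cons (fin 970 0 970)
(mv 974 (cons (cons (mv 1034 (cons (fin 1035 1 970)
(mv 906 (cons (fin 907 3 906)
(mv 910 (cons (fin 911 2 907)
(mv 1101 (cons (fin 846 5 845)
(fin 1165 6 909)))))))))
(mv 1034 (cons (fin 1035 1 970)
(mv 907 (cons (fin 906 3 906)
(mv 975 (cons (fin 908 3 907)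
(mv 976 (cons (fin 977 1 973)
(mv 912 (cons (fin 911 2 908)
(fin 913 2 909))))))))))))
(cons (mv 1034 (cons (fin 1035 1 970)
(mv 907 (cons (fin 906 3 906)
(mv 908 (cons (fin 975 3 907)
(mv 1101 (cons (fin 1165 7 908)
(mv 844 (cons (fin 909 7 844)
(fin 780 4 780)))))))))))
(cons (mv 1034 (cons (fin 1035 1 970)
(mv 910 (cons (fin 911 2 907)
(mv 1101 (cons (fin 846 5 845)
(fin 1165 6 909)))))))
(mv 906 (cons (fin 907 3 906)
(mv 910 (cons (fin 911 2 907)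
(mv 1101 (cons (fin 846 5 845)
(fin 1165 6 909)))))))))))))))
(mv 1038 (cons (fin 1039 3 972)
(mv 971 (cons (fin 970 0 970)
(mv 974 (cons (cons (mv 1034 (cons (fin 1035 1 970)
(mv 907 (cons (fin 906 3 906)
(mv 975 (cons (fin 908 3 907)
(mv 976 (cons (fin 1036 1 972)
(fin 977 1 973)))))))))
(cons (mv 907 (cons (fin 906 3 906)
(mv 975 (cons (fin 908 3 907)
(mv 976 (cons (fin 1036 1 972)
(fin 977 1 973)))))))
(mv 1035 (cons (fin 1034 1 970)
(mv 1036 (cons (fin 975 1 971)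
(mv 1099 (cons (fin 1098 1 1034)
(mv 1163 (cons (fin 1227 6 971)
(fin 908 6 907)))))))))))
(cons (mv 1035 (cons (fin 1034 1 970)
(mv 906 (cons (fin 907 3 906)
(mv 908 (cons (cons (mv 1163 (cons (fin 1099 6 907)
(mv 1101 (cons (fin 1165 7 908)
(mv 844 (cons (fin 780 5 779)
(fin 909 7 844)))))))
(mv 1099 (cons (fin 1163 6 907)
(mv 1098 (cons (fin 1036 1 1034)
(mv 1101 (cons (fin 1100 2 1034)
(fin 1165 7 908))))))))
(cons (mv 1099 (cons (fin 1163 6 907)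
(mv 1036 (cons (fin 1098 1 1034)
(fin 844 5 843)))))
(mv 1101 (cons (fin 1165 7 908)
(mv 844 (cons (fin 780 5 779)
(fin 909 7 844))))))))))))
(cons (mv 1034 (cons (fin 1035 1 970)
(mv 907 (cons (fin 906 3 906)
(mv 975 (cons (fin 908 3 907)
(mv 976 (cons (fin 977 1 973)
(mv 912 (cons (fin 911 2 908)
(fin 913 2 909)))))))))))
(mv 1035 (cons (fin 1034 1 970)
(mv 1036 (cons (fin 975 1 971)
(mv 1098 (cons (fin 1099 1 1034)
(mv 907 (cons (fin 906 3 906)
(mv 1100 (cons (fin 1164 7 907)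
(fin 843 4 843)))))))))))))))))))))
(cons (mv 1038 (cons (fin 1039 3 972)
(mv 970 (cons (fin 971 0 970)
(mv 1101 (cons (cons (mv 1165 (cons (fin 908 7 908)
(mv 1229 (cons (fin 1036 7 972)
(fin 974 6 973)))))
(mv 909 (cons (cons (mv 1164 (cons (fin 1100 5 908)
(mv 908 (cons (fin 844 7 844)
(mv 910 (cons (fin 846 6 845)
(mv 911 (cons (fin 912 1 908)
(mv 975 (cons (fin 976 0 908)
(mv 974 (cons (fin 907 3 907)
(mv 847 (cons (fin 848 2 844)
(fin 783 5 782)))))))))))))))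
(mv 908 (cons (fin 844 7 844)
(mv 910 (cons (fin 846 6 845)
(mv 911 (cons (fin 912 1 908)
(mv 975 (cons (fin 976 0 908)
(mv 974 (cons (fin 907 3 907)
(mv 847 (cons (fin 848 2 844)
(fin 783 5 782))))))))))))))
(cons (mv 1164 (cons (fin 1100 5 908)
(mv 846 (cons (fin 910 6 845)
(mv 845 (cons (fin 782 6 781)
(mv 781 (cons (fin 1036 5 780)
(fin 974 4 781)))))))))
(cons (mv 1164 (cons (fin 1100 5 908)
(mv 844 (cons (fin 908 7 844)
(mv 845 (cons (fin 780 7 780)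
(mv 781 (cons (fin 1036 5 780)
(fin 974 4 781)))))))))
(mv 1164 (cons (fin 1100 5 908)
(mv 908 (cons (fin 844 7 844)
(mv 846 (cons (fin 910 6 845)
(mv 845 (cons (fin 782 6 781)
(mv 781 (cons (fin 1036 5 780)
(fin 717 5 716))))))))))))))))
(cons (mv 1165 (cons (mv 1229 (cons (fin 1036 7 972)
(fin 974 6 973)))
(cons (mv 1228 (cons (fin 1164 5 972)
(mv 1229 (cons (fin 1292 5 1036)
(fin 1036 7 972)))))
(mv 1164 (cons (fin 1228 5 972)
(mv 909 (cons (fin 1100 5 908)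
(mv 910 (cons (fin 974 6 909)
(fin 846 6 845))))))))))
(cons (mv 1165 (cons (fin 908 7 908)
(mv 1228 (cons (fin 1164 5 972)
(mv 1229 (cons (fin 1292 5 1036)
(fin 1036 7 972)))))))
(mv 1165 (cons (fin 908 7 908)
(mv 974 (cons (fin 1229 6 973)
(fin 910 6 909)))))))))))))
(cons (mv 1038 (cons (fin 1039 3 972)
(mv 970 (cons (fin 971 0 970)
(mv 908 (cons (cons (mv 1101 (cons (fin 1165 7 908)
(mv 844 (cons (fin 909 7 844)
(fin 1036 4 844)))))
(mv 844 (cons (fin 780 4 780)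
(mv 1036 (cons (cons (mv 1099 (cons (fin 1035 5 843)
(mv 1100 (cons (fin 1163 5 907)
(mv 1164 (cons (fin 1228 6 972)
(fin 909 6 908)))))))
(mv 843 (cons (fin 779 7 779)
(mv 845 (cons (fin 781 6 780)
(mv 1100 (cons (fin 909 5 844)
(mv 1163 (cons (fin 1099 5 907)
(mv 1164 (cons (fin 1227 5 971)
(fin 1228 6 972))))))))))))
(cons (mv 843 (cons (fin 779 7 779)
(mv 845 (cons (fin 781 6 780)
(mv 909 (cons (fin 1100 5 844)
(mv 910 (cons (fin 911 3 843)
(fin 842 0 842)))))))))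
(mv 1035 (cons (fin 1099 5 843)
(mv 1034 (cons (fin 969 3 969)
(fin 1033 2 969)))))))))))
(cons (mv 1101 (cons (fin 1165 7 908)
(mv 909 (cons (cons (mv 1164 (cons (fin 1100 5 908)
(mv 910 (cons (fin 846 6 845)
(mv 911 (cons (fin 912 1 908)
(mv 975 (cons (fin 976 0 908)
(mv 847 (cons (fin 848 2 844)
(mv 783 (cons (fin 974 5 782)
(mv 782 (cons (fin 718 7 718)
(mv 720 (cons (fin 784 6 719)
(mv 719 (cons (fin 656 6 655)
(mv 781 (cons (fin 780 2 716)
(mv 845 (cons (fin 1036 5 780)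
(fin 717 5 716)))))))))))))))))))))))
(mv 910 (cons (fin 846 6 845)
(mv 911 (cons (fin 912 1 908)
(mv 975 (cons (fin 976 0 908)
(mv 847 (cons (fin 848 2 844)
(mv 783 (cons (fin 974 5 782)
(mv 782 (cons (fin 718 7 718)
(mv 720 (cons (fin 784 6 719)
(mv 719 (cons (fin 656 6 655)
(mv 781 (cons (fin 780 2 716)
(mv 845 (cons (fin 1036 5 780)
(fin 717 5 716))))))))))))))))))))))
(cons (mv 1100 (cons (fin 1164 5 908)
(mv 1098 (cons (fin 1099 2 1034)
(mv 845 (cons (fin 1036 5 844)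
(mv 781 (cons (fin 717 5 716)
(fin 974 4 781)))))))))
(cons (mv 1164 (cons (fin 1100 5 908)
(mv 910 (cons (fin 846 6 845)
(mv 911 (cons (fin 912 1 908)
(mv 975 (cons (fin 976 0 908)
(mv 847 (cons (fin 848 2 844)
(mv 783 (cons (fin 974 5 782)
(mv 718 (cons (fin 782 7 718)
(mv 719 (cons (fin 654 7 654)
(mv 720 (cons (fin 784 6 719)
(fin 656 6 655)))))))))))))))))))
(mv 1164 (cons (fin 1100 5 908)
(mv 846 (cons (fin 910 6 845)
(mv 845 (cons (fin 782 6 781)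
(mv 781 (cons (fin 1036 5 780)
(fin 717 5 716)))))))))))))))
(cons (mv 1101 (cons (fin 1165 7 908)
(mv 844 (cons (fin 909 7 844)
(fin 780 4 780)))))
(mv 1101 (cons (fin 1165 7 908)
(mv 844 (cons (fin 1036 4 844)
(fin 780 4 780)))))))))))))
(mv 1038 (cons (fin 1039 3 972)
(mv 970 (cons (fin 971 0 970)
(mv 908 (cons (cons (mv 1101 (cons (fin 1165 7 908)
(mv 844 (cons (fin 909 7 844)
(fin 1036 4 844)))))
(mv 844 (cons (fin 780 4 780)
(mv 1036 (cons (mv 1099 (cons (fin 1035 5 843)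
(mv 1100 (cons (fin 1163 5 907)
(mv 1164 (cons (fin 1228 6 972)
(fin 909 6 908)))))))
(cons (mv 843 (cons (fin 779 7 779)
(mv 1100 (cons (fin 907 7 843)
(mv 1164 (cons (fin 1228 6 972)
(fin 909 6 908)))))))
(mv 1035 (cons (fin 1099 5 843)
(mv 1034 (cons (fin 969 3 969)
(fin 1033 2 969)))))))))))
(cons (mv 1101 (cons (fin 1165 7 908)
(mv 909 (cons (cons (mv 1164 (cons (fin 1100 5 908)
(mv 846 (cons (fin 910 6 845)
(mv 845 (cons (fin 782 6 781)
(mv 781 (cons (fin 1036 5 780)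
(fin 717 5 716)))))))))
(mv 846 (cons (fin 910 6 845)
(mv 845 (cons (fin 782 6 781)
(mv 781 (cons (fin 1036 5 780)
(fin 717 5 716))))))))
(cons (mv 1100 (cons (fin 1164 5 908)
(mv 1098 (cons (fin 1099 2 1034)
(mv 1036 (cons (fin 845 5 844)
(mv 907 (cons (fin 843 7 843)
(mv 974 (cons (fin 975 3 907)
(fin 906 0 906)))))))))))
(cons (mv 1100 (cons (fin 1164 5 908)
(mv 1099 (cons (fin 1098 2 1034)
(mv 1036 (cons (fin 1163 5 907)
(mv 907 (cons (fin 843 7 843)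
(mv 974 (cons (fin 975 3 907)
(fin 906 0 906)))))))))))
(mv 1164 (cons (fin 1100 5 908)
(mv 846 (cons (fin 910 6 845)
(mv 845 (cons (fin 782 6 781)
(mv 781 (cons (fin 717 5 716)
(fin 974 4 781)))))))))))))))
(cons (mv 1101 (cons (fin 1165 7 908)
(mv 844 (cons (fin 909 7 844)
(fin 780 4 780)))))
(mv 1101 (cons (fin 1165 7 908)
(mv 844 (cons (fin 1036 4 844)
(fin 780 4 780))))))))))))))))))
(cons (mv 972 (cons (cons (cons (mv 1038 (cons (fin 1039 3 972)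
(mv 970 (cons (fin 971 0 970)
(mv 908 (cons (cons (mv 1101 (cons (fin 1165 7 908)
(mv 844 (cons (fin 909 7 844)
(fin 1036 4 844)))))
(mv 844 (cons (fin 780 4 780)
(mv 1036 (cons (mv 1099 (cons (fin 1035 5 843)
(mv 1100 (cons (fin 1163 5 907)
(mv 1164 (cons (fin 1228 6 972)
(fin 909 6 908)))))))
(cons (mv 843 (cons (fin 779 7 779)
(mv 1100 (cons (fin 907 7 843)
(mv 1164 (cons (fin 1228 6 972)
(fin 909 6 908)))))))
(mv 1035 (cons (fin 1099 5 843)
(mv 1034 (cons (fin 969 3 969)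
(fin 1033 2 969)))))))))))
(cons (mv 1101 (cons (fin 1165 7 908)
(mv 909 (cons (cons (mv 1164 (cons (fin 1100 5 908)
(mv 846 (cons (fin 910 6 845)
(mv 845 (cons (fin 782 6 781)
(mv 781 (cons (fin 1036 5 780)
(fin 717 5 716)))))))))
(mv 846 (cons (fin 910 6 845)
(mv 845 (cons (fin 782 6 781)
(mv 781 (cons (fin 1036 5 780)
(fin 717 5 716))))))))
(cons (mv 1100 (cons (fin 1164 5 908)
(mv 1098 (cons (fin 1099 2 1034)
(mv 1036 (cons (fin 845 5 844)
(mv 907 (cons (fin 843 7 843)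
(mv 974 (cons (fin 975 3 907)
(fin 906 0 906)))))))))))
(cons (mv 1100 (cons (fin 1164 5 908)
(mv 1099 (cons (fin 1098 2 1034)
(mv 1036 (cons (fin 1163 5 907)
(mv 907 (cons (fin 843 7 843)
(mv 974 (cons (fin 975 3 907)
(fin 906 0 906)))))))))))
(mv 1164 (cons (fin 1100 5 908)
(mv 846 (cons (fin 910 6 845)
(mv 845 (cons (fin 782 6 781)
(mv 781 (cons (fin 717 5 716)
(fin 974 4 781)))))))))))))))
(cons (mv 1101 (cons (fin 1165 7 908)
(mv 844 (cons (fin 909 7 844)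
(fin 780 4 780)))))
(mv 1101 (cons (fin 1165 7 908)
(mv 844 (cons (fin 1036 4 844)
(fin 780 4 780)))))))))))))
(mv 908 (cons (cons (mv 1101 (cons (fin 1165 7 908)
(mv 844 (cons (fin 909 7 844)
(fin 1036 4 844)))))
(mv 1101 (cons (fin 1165 7 908)
(mv 909 (cons (mv 1164 (cons (fin 1100 5 908)
(mv 910 (cons (fin 846 6 845)
(mv 971 (cons (fin 911 1 907)
(fin 970 2 906)))))))
(cons (mv 910 (cons (fin 846 6 845)
(mv 971 (cons (fin 911 1 907)
(fin 970 2 906)))))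
(mv 1100 (cons (fin 1164 5 908)
(mv 1036 (cons (fin 845 5 844)
(mv 1163 (cons (fin 1099 5 907)
(mv 907 (cons (fin 843 7 843)
(mv 974 (cons (fin 975 3 907)
(fin 906 0 906)))))))))))))))))
(cons (mv 844 (cons (fin 780 4 780)
(mv 1036 (cons (mv 1099 (cons (fin 1035 5 843)
(mv 1100 (cons (fin 1163 5 907)
(mv 1164 (cons (fin 1228 6 972)
(fin 909 6 908)))))))
(cons (mv 843 (cons (fin 779 7 779)
(mv 1100 (cons (fin 907 7 843)
(mv 1164 (cons (fin 1228 6 972)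
(fin 909 6 908)))))))
(mv 1035 (cons (fin 1099 5 843)
(mv 1034 (cons (fin 1033 2 969)
(fin 974 2 970))))))))))
(cons (mv 1101 (cons (fin 1165 7 908)
(mv 844 (cons (fin 909 7 844)
(fin 780 4 780)))))
(mv 1101 (cons (fin 1165 7 908)
(mv 844 (cons (fin 1036 4 844)
(fin 780 4 780))))))))))
(cons (mv 1038 (cons (fin 1039 3 972)
(mv 971 (cons (fin 970 0 970)
(mv 974 (cons (cons (mv 1034 (cons (fin 1035 1 970)
(mv 906 (cons (fin 907 3 906)
(mv 910 (cons (fin 911 2 907)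
(mv 1101 (cons (fin 846 5 845)
(fin 1165 6 909)))))))))
(mv 906 (cons (fin 907 3 906)
(mv 910 (cons (fin 911 2 907)
(mv 1101 (cons (fin 846 5 845)
(fin 1165 6 909))))))))
(cons (mv 1035 (cons (fin 1034 1 970)
(mv 1036 (cons (fin 975 1 971)
(mv 1098 (cons (fin 1099 1 1034)
(mv 907 (cons (fin 906 3 906)
(mv 1100 (cons (fin 1164 7 907)
(fin 843 4 843)))))))))))
(mv 1034 (cons (fin 1035 1 970)
(mv 910 (cons (fin 911 2 907)
(mv 1101 (cons (fin 846 5 845)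
(fin 1165 6 909))))))))))))))
(cons (mv 1038 (cons (fin 1039 3 972)
(mv 970 (cons (fin 971 0 970)
(mv 1101 (cons (cons (mv 1165 (cons (fin 908 7 908)
(mv 1228 (cons (fin 1164 5 972)
(mv 1229 (cons (fin 1292 5 1036)
(fin 1036 7 972)))))))
(mv 909 (cons (cons (mv 1164 (cons (fin 1100 5 908)
(mv 908 (cons (fin 844 7 844)
(mv 846 (cons (fin 910 6 845)
(mv 845 (cons (fin 782 6 781)
(mv 781 (cons (fin 1036 5 780)
(fin 717 5 716)))))))))))
(cons (mv 908 (cons (fin 844 7 844)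
(mv 846 (cons (fin 910 6 845)
(mv 845 (cons (fin 782 6 781)
(mv 781 (cons (fin 1036 5 780)
(fin 717 5 716)))))))))
(mv 1164 (cons (fin 1100 5 908)
(mv 846 (cons (fin 910 6 845)
(mv 845 (cons (fin 782 6 781)
(mv 781 (cons (fin 1036 5 780)
(mv 716 (cons (fin 780 7 716)
(mv 717 (cons (fin 908 5 716)
(fin 652 7 652)))))))))))))))
(cons (cons (mv 1164 (cons (fin 1100 5 908)
(mv 846 (cons (fin 910 6 845)
(mv 845 (cons (fin 782 6 781)
(mv 780 (cons (fin 844 7 780)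
(mv 781 (cons (fin 1036 5 780)
(fin 716 7 716)))))))))))
(mv 1100 (cons (fin 1164 5 908)
(mv 1098 (cons (fin 1099 2 1034)
(mv 1036 (cons (fin 845 5 844)
(mv 908 (cons (fin 844 7 844)
(mv 907 (cons (fin 843 7 843)
(mv 906 (cons (fin 969 1 905)
(fin 905 0 905))))))))))))))
(cons (mv 1164 (cons (fin 1100 5 908)
(mv 844 (cons (fin 908 7 844)
(mv 845 (cons (fin 780 7 780)
(mv 846 (cons (fin 910 6 845)
(fin 782 6 781)))))))))
(mv 1100 (cons (fin 1164 5 908)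
(mv 1099 (cons (fin 1098 2 1034)
(mv 908 (cons (fin 844 7 844)
(mv 1036 (cons (fin 1163 5 907)
(mv 907 (cons (fin 843 7 843)
(mv 906 (cons (fin 969 1 905)
(fin 905 0 905))))))))))))))))))
(cons (mv 1165 (cons (cons (mv 1228 (cons (fin 1164 5 972)
(mv 1229 (cons (fin 1292 5 1036)
(fin 1036 7 972)))))
(mv 1230 (cons (fin 1166 4 973)
(mv 1164 (cons (fin 1228 5 972)
(mv 909 (cons (fin 1100 5 908)
(mv 846 (cons (fin 910 6 845)
(mv 845 (cons (fin 782 6 781)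
(mv 780 (cons (fin 844 7 780)
(mv 781 (cons (fin 1036 5 780)
(fin 716 7 716))))))))))))))))
(cons (mv 1229 (cons (fin 1036 7 972)
(mv 1230 (cons (fin 1294 4 1037)
(fin 1166 4 973)))))
(mv 1228 (cons (fin 1164 5 972)
(mv 1229 (cons (fin 1292 5 1036)
(mv 1230 (cons (fin 1294 4 1037)
(fin 1166 4 973))))))))))
(cons (mv 1165 (cons (fin 908 7 908)
(mv 1228 (cons (fin 1164 5 972)
(mv 1229 (cons (fin 1292 5 1036)
(mv 1230 (cons (fin 1294 4 1037)
(fin 1166 4 973)))))))))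
(mv 1165 (cons (fin 908 7 908)
(mv 1229 (cons (fin 1036 7 972)
(mv 1230 (cons (fin 1294 4 1037)
(fin 1166 4 973)))))))))))))))
(mv 1038 (cons (fin 1039 3 972)
(mv 908 (cons (cons (mv 1101 (cons (fin 1165 7 908)
(mv 844 (cons (fin 909 7 844)
(fin 1036 4 844)))))
(mv 844 (cons (fin 780 4 780)
(mv 1036 (cons (mv 1099 (cons (fin 1035 5 843)
(mv 1100 (cons (fin 1163 5 907)
(mv 1164 (cons (fin 1228 6 972)
(fin 909 6 908)))))))
(cons (mv 843 (cons (fin 779 7 779)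
(mv 1100 (cons (fin 907 7 843)
(mv 1164 (cons (fin 1228 6 972)
(fin 909 6 908)))))))
(mv 1035 (cons (fin 1099 5 843)
(mv 1034 (cons (fin 1033 2 969)
(fin 974 2 970)))))))))))
(cons (mv 1101 (cons (fin 1165 7 908)
(mv 909 (cons (cons (mv 1164 (cons (fin 1100 5 908)
(mv 846 (cons (fin 910 6 845)
(mv 845 (cons (fin 782 6 781)
(mv 781 (cons (fin 1036 5 780)
(fin 717 5 716)))))))))
(mv 846 (cons (fin 910 6 845)
(mv 845 (cons (fin 782 6 781)
(mv 781 (cons (fin 1036 5 780)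
(fin 717 5 716))))))))
(cons (mv 1100 (cons (fin 1164 5 908)
(mv 1098 (cons (fin 1099 2 1034)
(mv 1036 (cons (fin 845 5 844)
(mv 907 (cons (fin 843 7 843)
(mv 974 (cons (fin 975 3 907)
(fin 906 0 906)))))))))))
(cons (mv 1100 (cons (fin 1164 5 908)
(mv 1099 (cons (fin 1098 2 1034)
(mv 1036 (cons (fin 1163 5 907)
(mv 907 (cons (fin 843 7 843)
(mv 974 (cons (fin 975 3 907)
(fin 906 0 906)))))))))))
(mv 1164 (cons (fin 1100 5 908)
(mv 846 (cons (fin 910 6 845)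
(mv 845 (cons (fin 782 6 781)
(mv 781 (cons (fin 717 5 716)
(fin 974 4 781)))))))))))))))
(cons (mv 1101 (cons (fin 1165 7 908)
(mv 844 (cons (fin 909 7 844)
(fin 780 4 780)))))
(mv 1101 (cons (fin 1165 7 908)
(mv 844 (cons (fin 1036 4 844)
(fin 780 4 780))))))))))))))
(cons (cons (mv 1038 (cons (fin 1039 3 972)
(mv 971 (cons (fin 970 0 970)
(mv 974 (cons (cons (mv 1034 (cons (fin 1035 1 970)
(mv 907 (cons (fin 906 3 906)
(mv 975 (cons (fin 908 3 907)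
(mv 976 (cons (fin 1036 1 972)
(fin 977 1 973)))))))))
(mv 907 (cons (fin 906 3 906)
(mv 975 (cons (fin 908 3 907)
(mv 976 (cons (fin 1036 1 972)
(fin 977 1 973))))))))
(cons (mv 1035 (cons (fin 1034 1 970)
(mv 1036 (cons (fin 975 1 971)
(mv 1098 (cons (fin 1099 1 1034)
(mv 910 (cons (fin 911 2 907)
(mv 846 (cons (fin 782 5 781)
(mv 845 (cons (fin 781 7 781)
(mv 909 (cons (fin 1100 5 844)
(mv 844 (cons (fin 780 7 780)
(mv 842 (cons (fin 843 0 842)
(mv 847 (cons (fin 783 6 782)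
(mv 848 (cons (fin 908 1 844)
(fin 849 1 845)))))))))))))))))))))))
(cons (mv 1034 (cons (fin 1035 1 970)
(mv 907 (cons (fin 906 3 906)
(mv 910 (cons (fin 911 2 907)
(mv 846 (cons (fin 782 5 781)
(mv 845 (cons (fin 781 7 781)
(mv 847 (cons (fin 783 6 782)
(mv 908 (cons (fin 844 1 843)
(fin 909 2 843)))))))))))))))
(mv 1035 (cons (fin 1034 1 970)
(mv 1036 (cons (fin 975 1 971)
(mv 1098 (cons (fin 1099 1 1034)
(mv 907 (cons (fin 906 3 906)
(mv 1100 (cons (fin 1164 7 907)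
(fin 843 4 843)))))))))))))))))))
(mv 1038 (cons (fin 1039 3 972)
(mv 971 (cons (fin 970 0 970)
(mv 974 (cons (cons (mv 1034 (cons (fin 1035 1 970)
(mv 906 (cons (fin 907 3 906)
(mv 910 (cons (fin 911 2 907)
(mv 1101 (cons (fin 846 5 845)
(fin 1165 6 909)))))))))
(mv 1034 (cons (fin 1035 1 970)
(mv 907 (cons (fin 906 3 906)
(mv 908 (cons (fin 975 3 907)
(mv 1101 (cons (fin 1165 7 908)
(mv 844 (cons (fin 909 7 844)
(fin 780 4 780))))))))))))
(cons (mv 1034 (cons (fin 1035 1 970)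
(mv 910 (cons (fin 911 2 907)
(mv 1101 (cons (fin 846 5 845)
(fin 1165 6 909)))))))
(cons (mv 906 (cons (fin 907 3 906)
(mv 910 (cons (fin 911 2 907)
(mv 1101 (cons (fin 846 5 845)
(fin 1165 6 909)))))))
(mv 1034 (cons (fin 1035 1 970)
(mv 907 (cons (fin 906 3 906)
(mv 908 (cons (fin 975 3 907)
(mv 910 (cons (fin 911 2 907)
(mv 844 (cons (fin 780 4 780)
(mv 846 (cons (fin 782 5 781)
(mv 845 (cons (fin 847 1 843)
(fin 781 7 781))))))))))))))))))))))))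
(cons (mv 1038 (cons (fin 1039 3 972)
(mv 970 (cons (fin 971 0 970)
(mv 1101 (cons (cons (mv 1165 (cons (fin 908 7 908)
(mv 1229 (cons (fin 1036 7 972)
(fin 974 6 973)))))
(mv 909 (cons (cons (mv 1164 (cons (fin 1100 5 908)
(mv 844 (cons (fin 908 7 844)
(mv 845 (cons (fin 780 7 780)
(mv 781 (cons (fin 1036 5 780)
(fin 974 4 781)))))))))
(cons (mv 844 (cons (fin 908 7 844)
(mv 845 (cons (fin 780 7 780)
(mv 781 (cons (fin 1036 5 780)
(fin 974 4 781)))))))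
(mv 1100 (cons (fin 1164 5 908)
(mv 1098 (cons (fin 1099 2 1034)
(mv 845 (cons (fin 1036 5 844)
(mv 846 (cons (fin 782 6 781)
(mv 781 (cons (fin 974 4 781)
(mv 716 (cons (fin 780 7 716)
(mv 717 (cons (fin 908 5 716)
(fin 652 7 652)))))))))))))))))
(cons (cons (mv 1100 (cons (fin 1164 5 908)
(mv 1098 (cons (fin 1099 2 1034)
(mv 845 (cons (fin 1036 5 844)
(mv 844 (cons (fin 780 7 780)
(mv 781 (cons (fin 974 4 781)
(mv 782 (cons (fin 846 6 781)
(fin 718 6 717)))))))))))))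
(mv 1100 (cons (fin 1164 5 908)
(mv 1099 (cons (fin 1098 2 1034)
(mv 908 (cons (fin 844 7 844)
(mv 1036 (cons (fin 1163 5 907)
(mv 907 (cons (fin 843 7 843)
(mv 974 (cons (fin 975 3 907)
(fin 906 0 906))))))))))))))
(cons (mv 1164 (cons (fin 1100 5 908)
(mv 844 (cons (fin 908 7 844)
(mv 845 (cons (fin 780 7 780)
(mv 781 (cons (fin 974 4 781)
(mv 782 (cons (fin 846 6 781)
(fin 718 6 717)))))))))))
(mv 1164 (cons (fin 1100 5 908)
(mv 844 (cons (fin 908 7 844)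
(mv 845 (cons (fin 780 7 780)
(mv 781 (cons (fin 1036 5 780)
(mv 782 (cons (fin 846 6 781)
(fin 718 6 717))))))))))))))))
(cons (mv 1165 (cons (mv 1229 (cons (fin 1036 7 972)
(fin 974 6 973)))
(mv 1164 (cons (fin 1228 5 972)
(mv 1166 (cons (fin 1230 4 973)
(mv 1100 (cons (fin 909 5 908)
(mv 1167 (cons (fin 1099 3 1099)
(fin 1168 3 1100)))))))))))
(cons (mv 1165 (cons (fin 908 7 908)
(mv 1228 (cons (fin 1164 5 972)
(mv 1229 (cons (fin 1292 5 1036)
(fin 974 6 973)))))))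
(mv 1165 (cons (fin 908 7 908)
(mv 1228 (cons (fin 1164 5 972)
(mv 1229 (cons (fin 1292 5 1036)
(fin 1036 7 972)))))))))))))))
(cons (mv 1038 (cons (fin 1039 3 972)
(mv 971 (cons (fin 970 0 970)
(mv 974 (cons (mv 1034 (cons (fin 1035 1 970)
(mv 910 (cons (fin 911 2 907)
(mv 1101 (cons (fin 846 5 845)
(fin 1165 6 909)))))))
(cons (mv 910 (cons (fin 911 2 907)
(mv 1101 (cons (fin 846 5 845)
(fin 1165 6 909)))))
(mv 1035 (cons (fin 1034 1 970)
(mv 1036 (cons (fin 975 1 971)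
(mv 1099 (cons (fin 1098 1 1034)
(mv 1163 (cons (fin 1227 6 971)
(fin 908 6 907))))))))))))))))
(mv 1038 (cons (fin 1039 3 972)
(mv 971 (cons (fin 970 0 970)
(mv 974 (cons (cons (mv 1034 (cons (fin 1035 1 970)
(mv 907 (cons (fin 906 3 906)
(mv 975 (cons (fin 908 3 907)
(mv 976 (cons (fin 1036 1 972)
(fin 977 1 973)))))))))
(cons (mv 907 (cons (fin 906 3 906)
(mv 975 (cons (fin 908 3 907)
(mv 976 (cons (fin 1036 1 972)
(fin 977 1 973)))))))
(mv 1035 (cons (fin 1034 1 970)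
(mv 1036 (cons (fin 975 1 971)
(mv 1099 (cons (fin 1098 1 1034)
(mv 1163 (cons (fin 1227 6 971)
(fin 908 6 907)))))))))))
(cons (mv 1034 (cons (fin 1035 1 970)
(mv 907 (cons (fin 906 3 906)
(mv 910 (cons (fin 911 2 907)
(mv 1101 (cons (fin 1165 6 909)
(mv 909 (cons (cons (mv 1164 (cons (fin 1100 5 908)
(mv 908 (cons (fin 844 7 844)
(mv 843 (cons (fin 842 3 842)
(mv 779 (cons (fin 1036 4 779)
(fin 715 4 715)))))))))
(mv 908 (cons (fin 844 7 844)
(mv 843 (cons (fin 842 3 842)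
(mv 779 (cons (fin 1036 4 779)
(fin 715 4 715))))))))
(cons (mv 1100 (cons (fin 1164 5 908)
(mv 845 (cons (fin 1036 5 844)
(fin 781 4 781)))))
(mv 1164 (cons (fin 1100 5 908)
(mv 844 (cons (fin 908 7 844)
(mv 845 (cons (fin 780 7 780)
(fin 781 4 781))))))))))))))))))
(cons (mv 1034 (cons (fin 1035 1 970)
(mv 907 (cons (fin 906 3 906)
(mv 908 (cons (fin 975 3 907)
(mv 1101 (cons (fin 1165 7 908)
(mv 844 (cons (fin 909 7 844)
(fin 780 4 780)))))))))))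
(mv 1035 (cons (fin 1034 1 970)
(mv 1036 (cons (fin 975 1 971)
(mv 1098 (cons (fin 1099 1 1034)
(mv 907 (cons (fin 906 3 906)
(mv 1100 (cons (fin 1164 7 907)
(fin 843 4 843))))))))))))))))))))))))
(mv 1101 (cons (cons (mv 1165 (cons (cons (mv 1228 (cons (fin 1164 5 972)
(mv 1292 (cons (fin 1229 5 1036)
(mv 1230 (cons (fin 1166 4 973)
(mv 972 (cons (fin 908 7 908)
(mv 1038 (cons (fin 1039 3 972)
(mv 971 (cons (fin 970 0 970)
(mv 974 (cons (fin 910 6 909)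
(mv 1035 (cons (fin 1034 1 970)
(mv 1036 (cons (fin 975 1 971)
(mv 1098 (cons (fin 1099 1 1034)
(mv 907 (cons (fin 906 3 906)
(mv 843 (cons (fin 1100 4 843)
(fin 779 4 779)))))))))))))))))))))))))
(mv 1228 (cons (fin 1164 5 972)
(mv 1229 (cons (fin 1292 5 1036)
(mv 1230 (cons (fin 1294 4 1037)
(fin 1166 4 973))))))))
(cons (mv 1230 (cons (fin 1166 4 973)
(mv 1294 (cons (fin 1229 4 1037)
(mv 972 (cons (fin 908 7 908)
(mv 1038 (cons (fin 1039 3 972)
(mv 971 (cons (fin 970 0 970)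
(mv 974 (cons (fin 910 6 909)
(mv 1035 (cons (fin 1034 1 970)
(mv 1036 (cons (fin 975 1 971)
(mv 1098 (cons (fin 1099 1 1034)
(mv 907 (cons (fin 906 3 906)
(mv 843 (cons (fin 1100 4 843)
(fin 779 4 779)))))))))))))))))))))))
(cons (mv 1228 (cons (fin 1164 5 972)
(mv 1292 (cons (fin 1229 5 1036)
(mv 972 (cons (fin 908 7 908)
(mv 1038 (cons (fin 1039 3 972)
(mv 971 (cons (fin 970 0 970)
(mv 974 (cons (fin 910 6 909)
(mv 1035 (cons (fin 1034 1 970)
(mv 1036 (cons (fin 975 1 971)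
(mv 1098 (cons (fin 1099 1 1034)
(mv 907 (cons (fin 906 3 906)
(mv 843 (cons (fin 1100 4 843)
(fin 779 4 779)))))))))))))))))))))))
(mv 1228 (cons (fin 1164 5 972)
(mv 1230 (cons (fin 1166 4 973)
(mv 972 (cons (fin 908 7 908)
(mv 1038 (cons (fin 1039 3 972)
(mv 971 (cons (fin 970 0 970)
(mv 974 (cons (fin 910 6 909)
(mv 1035 (cons (fin 1034 1 970)
(mv 1036 (cons (fin 975 1 971)
(mv 1098 (cons (fin 1099 1 1034)
(mv 907 (cons (fin 906 3 906)
(mv 843 (cons (fin 1100 4 843)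
(fin 779 4 779)))))))))))))))))))))))))))
(cons (mv 909 (cons (cons (mv 1164 (cons (fin 1100 5 908)
(mv 844 (cons (fin 908 7 844)
(mv 845 (cons (fin 780 7 780)
(mv 846 (cons (fin 910 6 845)
(fin 782 6 781)))))))))
(mv 844 (cons (fin 908 7 844)
(mv 845 (cons (fin 780 7 780)
(mv 846 (cons (fin 910 6 845)
(fin 782 6 781))))))))
(cons (mv 1100 (cons (fin 1164 5 908)
(mv 1036 (cons (fin 845 5 844)
(mv 1038 (cons (fin 1039 1 1036)
(mv 1099 (cons (fin 1098 2 1034)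
(mv 908 (cons (fin 844 7 844)
(mv 972 (cons (fin 1163 5 907)
(mv 970 (cons (fin 971 0 970)
(mv 907 (cons (fin 843 7 843)
(mv 974 (cons (fin 975 3 907)
(fin 906 0 906)))))))))))))))))))
(cons (mv 1100 (cons (fin 1164 5 908)
(mv 1038 (cons (fin 1039 1 1036)
(mv 1098 (cons (fin 1099 2 1034)
(mv 910 (cons (fin 846 6 845)
(mv 845 (cons (fin 1036 5 844)
(mv 781 (cons (fin 974 4 781)
(mv 716 (cons (fin 780 7 716)
(mv 717 (cons (fin 652 7 652)
(mv 718 (cons (fin 782 6 717)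
(fin 654 6 653)))))))))))))))))))
(mv 1100 (cons (fin 1164 5 908)
(mv 1038 (cons (fin 1039 1 1036)
(mv 1098 (cons (fin 1099 2 1034)
(mv 908 (cons (fin 844 7 844)
(mv 910 (cons (fin 846 6 845)
(mv 907 (cons (mv 974 (cons (fin 906 0 906)
(fin 975 0 907)))
(cons (mv 970 (cons (fin 971 1 906)
(mv 969 (cons (fin 906 1 905)
(mv 843 (cons (fin 842 3 842)
(mv 1036 (cons (fin 972 7 843)
(mv 1034 (cons (fin 1035 3 969)
(mv 1162 (cons (fin 905 7 905)
(mv 1225 (cons (fin 1161 5 969)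
(mv 1226 (cons (fin 1289 5 1033)
(fin 1033 7 969)))))))))))))))))
(mv 971 (cons (fin 970 1 906)
(mv 974 (cons (fin 975 0 907)
(mv 843 (cons (fin 842 3 842)
(mv 1035 (cons (fin 1034 5 842)
(fin 1036 4 843))))))))))))))))))))))))))
(mv 1165 (cons (cons (mv 1228 (cons (fin 1164 5 972)
(mv 1292 (cons (fin 1229 5 1036)
(mv 1230 (cons (fin 1166 4 973)
(mv 972 (cons (fin 908 7 908)
(mv 974 (cons (fin 910 6 909)
(mv 975 (cons (fin 1039 0 972)
(mv 1036 (cons (fin 1035 1 971)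
(fin 976 1 972)))))))))))))))
(mv 1228 (cons (fin 1164 5 972)
(mv 1229 (cons (fin 1292 5 1036)
(mv 1230 (cons (fin 1294 4 1037)
(fin 1166 4 973))))))))
(cons (mv 1230 (cons (fin 1166 4 973)
(mv 1294 (cons (fin 1229 4 1037)
(mv 972 (cons (fin 908 7 908)
(mv 974 (cons (fin 910 6 909)
(mv 975 (cons (fin 1039 0 972)
(mv 1036 (cons (fin 1035 1 971)
(fin 976 1 972)))))))))))))
(cons (mv 1228 (cons (fin 1164 5 972)
(mv 1292 (cons (fin 1229 5 1036)
(mv 972 (cons (fin 908 7 908)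
(mv 974 (cons (fin 910 6 909)
(mv 975 (cons (fin 1039 0 972)
(mv 1036 (cons (fin 1035 1 971)
(fin 976 1 972)))))))))))))
(mv 1228 (cons (fin 1164 5 972)
(mv 1230 (cons (fin 1166 4 973)
(mv 972 (cons (fin 908 7 908)
(mv 974 (cons (fin 910 6 909)
(mv 975 (cons (fin 1039 0 972)
(mv 1036 (cons (fin 1035 1 971)
(fin 976 1 972)))))))))))))))))))
(cons (cons (mv 1165 (cons (cons (mv 1228 (cons (fin 1164 5 972)
(mv 1229 (cons (fin 1292 5 1036)
(mv 1230 (cons (fin 1294 4 1037)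
(fin 1166 4 973)))))))
(mv 1230 (cons (fin 1166 4 973)
(mv 1229 (cons (fin 1294 4 1037)
(mv 974 (cons (fin 1038 6 973)
(fin 910 6 909))))))))
(cons (mv 1228 (cons (fin 1164 5 972)
(mv 1229 (cons (fin 1292 5 1036)
(mv 974 (cons (fin 1038 6 973)
(fin 910 6 909)))))))
(mv 1230 (cons (fin 1166 4 973)
(mv 1164 (cons (fin 1228 5 972)
(mv 974 (cons (fin 910 6 909)
(mv 909 (cons (fin 1100 5 908)
(mv 844 (cons (fin 908 7 844)
(mv 845 (cons (fin 780 7 780)
(mv 781 (cons (fin 1038 4 781)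
(mv 782 (cons (fin 846 6 781)
(fin 718 6 717))))))))))))))))))))
(mv 1165 (cons (cons (mv 1228 (cons (fin 1164 5 972)
(mv 1229 (cons (fin 1292 5 1036)
(mv 1230 (cons (fin 1294 4 1037)
(fin 1166 4 973)))))))
(mv 1230 (cons (fin 1166 4 973)
(mv 1229 (cons (fin 1294 4 1037)
(mv 974 (cons (fin 1038 6 973)
(fin 910 6 909))))))))
(cons (mv 1228 (cons (fin 1164 5 972)
(mv 1229 (cons (fin 1292 5 1036)
(mv 974 (cons (fin 1038 6 973)
(fin 910 6 909)))))))
(mv 1230 (cons (fin 1166 4 973)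
(mv 1164 (cons (fin 1228 5 972)
(mv 1100 (cons (fin 909 5 908)
(mv 1039 (cons (fin 1038 1 1036)
(mv 974 (cons (fin 910 6 909)
(mv 975 (cons (fin 972 0 972)
(mv 976 (cons (fin 1036 1 972)
(mv 912 (cons (fin 913 2 909)
(mv 1103 (cons (fin 848 5 847)
(fin 1167 6 911)))))))))))))))))))))))
(cons (mv 1165 (cons (cons (mv 1230 (cons (fin 1166 4 973)
(mv 1294 (cons (fin 1229 4 1037)
(mv 972 (cons (fin 908 7 908)
(mv 1038 (cons (fin 1039 3 972)
(mv 971 (cons (fin 970 0 970)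
(mv 974 (cons (fin 910 6 909)
(mv 1035 (cons (fin 1034 1 970)
(mv 1036 (cons (fin 975 1 971)
(mv 1098 (cons (fin 1099 1 1034)
(mv 907 (cons (fin 906 3 906)
(mv 843 (cons (fin 1100 4 843)
(fin 779 4 779)))))))))))))))))))))))
(mv 1230 (cons (fin 1166 4 973)
(mv 1229 (cons (fin 1294 4 1037)
(mv 974 (cons (fin 1038 6 973)
(fin 910 6 909))))))))
(cons (mv 1230 (cons (fin 1166 4 973)
(mv 1229 (cons (fin 1294 4 1037)
(mv 972 (cons (fin 1036 7 972)
(fin 908 7 908)))))))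
(cons (mv 972 (cons (fin 908 7 908)
(mv 1229 (cons (fin 1036 7 972)
(mv 1038 (cons (fin 1039 3 972)
(fin 974 6 973)))))))
(mv 1230 (cons (fin 1166 4 973)
(mv 972 (cons (fin 908 7 908)
(mv 1038 (cons (fin 1039 3 972)
(mv 971 (cons (fin 970 0 970)
(mv 974 (cons (fin 910 6 909)
(mv 1035 (cons (fin 1034 1 970)
(mv 1036 (cons (fin 975 1 971)
(mv 1098 (cons (fin 1099 1 1034)
(mv 907 (cons (fin 906 3 906)
(mv 843 (cons (fin 1100 4 843)
(fin 779 4 779)))))))))))))))))))))))))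
(mv 1165 (cons (cons (mv 1228 (cons (fin 1164 5 972)
(mv 1229 (cons (fin 1292 5 1036)
(mv 1230 (cons (fin 1294 4 1037)
(fin 1166 4 973)))))))
(mv 1230 (cons (fin 1166 4 973)
(mv 1229 (cons (fin 1294 4 1037)
(mv 972 (cons (fin 1036 7 972)
(fin 908 7 908))))))))
(cons (mv 1228 (cons (fin 1164 5 972)
(mv 1229 (cons (fin 1292 5 1036)
(mv 972 (cons (fin 1036 7 972)
(fin 908 7 908)))))))
(mv 1230 (cons (fin 1166 4 973)
(mv 1164 (cons (fin 1228 5 972)
(mv 1100 (cons (fin 909 5 908)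
(mv 1038 (cons (fin 1039 1 1036)
(mv 1098 (cons (fin 1099 2 1034)
(mv 972 (cons (fin 908 7 908)
(mv 971 (cons (fin 970 0 970)
(mv 1036 (cons (fin 907 7 907)
(mv 1163 (cons (fin 1227 5 971)
(mv 1162 (cons (fin 1097 3 1097)
(fin 1161 2 1097))))))))))))))))))))))))))))))))))
def l98 : Lem := ⟨13254031944712882724506621310649321556018620670345837899455453023597314721787975009848330616026462815765143756135158089473467252075149308743152655366187148242124071246428482498451210046760672027239036899891323305324899173507745103325308665813954110541579506451753178596634830548552232523722901151470534797188661248, 49543270713279570413209564606750784250165507793299105741139439115545629034669761570479984757948004523303386671730033284926656040819747283094772756388922026193258052897088157625480660455259319660512700055833938515626907638974470073679229510254651421420124442533469497683908811021636794188798686878631793258538226253003245069945088210896514328582496583759605213055318254023757367856636565457395251885338947223552,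 49543270713279570413209564606750784250165507793299105741139439115545629034669761570479984757948004523303386671730033284926656040819747283094772756388922026193258052897088157625480660455259319660512700055833938515626907638974470073679229510254651421420124442533469497683908811021636794188798686878631793258538226253003245069945088210896514328582496583759605213055318254023757367856636565457395251885338947223552, 19, 33⟩
theorem l98_valid : l98.Valid :=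
  Lem.valid_of_chk t98 t98_valid [1037, 1040] c98 l98 (by decide +kernel)
end Crest.Agent.SnakyAux
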