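import Crest.Agent.S0047_aux.Checker

set_option autoImplicit false
set_option maxRecDepth 100000
namespace Crest.Agent.SnakyAux
open Cert
def t99 : Tbl := Tbl.nil
theorem t99_valid : t99.Valid := Tbl.valid_nil
def c99 : Cert :=
(mv 1039 (cons (cons (cons (cons (mv 1038 (cons (cons (mv 972 (cons (fin 973 3 972)
(mv 1104 (cons (fin 1105 0 1037)
(mv 976 (cons (fin 977 2 973)
(mv 1100 (cons (fin 1101 1 1036)
(mv 912 (cons (mv 1103 (cons (fin 848 5 847)
(fin 1167 5 911)))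
(cons (mv 847 (cons (fin 911 7 847)
(mv 848 (cons (fin 783 7 783)
(mv 849 (cons (fin 785 6 784)
(fin 913 6 848)))))))
(mv 849 (cons (fin 913 6 848)
(mv 1103 (cons (fin 1167 5 911)
(mv 911 (cons (fin 847 7 847)
(mv 975 (cons (fin 1168 7 911)
(mv 910 (cons (fin 846 7 846)
(mv 1102 (cons (fin 1166 5 910)
(mv 909 (cons (fin 908 0 908)
(mv 845 (cons (fin 844 3 844)
(fin 974 7 845))))))))))))))))))))))))))))
(cons (mv 973 (cons (fin 972 3 972)
(mv 1104 (cons (fin 1105 0 1037)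
(mv 1101 (cons (fin 1100 1 1036)
(mv 909 (cons (mv 1102 (cons (fin 845 4 845)
(fin 1166 4 909)))
(cons (mv 844 (cons (fin 908 7 844)
(mv 845 (cons (fin 780 7 780)
(mv 846 (cons (fin 782 6 781)
(fin 910 6 845)))))))
(mv 910 (cons (fin 846 6 845)
(mv 1102 (cons (fin 1166 4 909)
(mv 974 (cons (fin 1165 5 909)
(mv 847 (cons (fin 911 6 846)
(mv 1103 (cons (fin 1167 4 910)
(mv 1168 (cons (fin 1169 0 1101)
(mv 1232 (cons (fin 975 7 975)
(fin 1296 7 1039))))))))))))))))))))))))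
(mv 976 (cons (fin 977 2 973)
(mv 973 (cons (fin 972 3 972)
(mv 1101 (cons (fin 1100 1 1036)
(mv 909 (cons (mv 1102 (cons (fin 845 4 845)
(fin 1166 4 909)))
(cons (mv 844 (cons (fin 908 7 844)
(mv 845 (cons (fin 780 7 780)
(mv 846 (cons (fin 782 6 781)
(fin 910 6 845)))))))
(mv 910 (cons (fin 846 6 845)
(mv 1102 (cons (fin 1166 4 909)
(mv 974 (cons (fin 1165 5 909)
(mv 908 (cons (fin 975 3 908)
(fin 844 7 844))))))))))))))))))))
(cons (cons (mv 972 (cons (fin 973 3 972)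
(mv 976 (cons (fin 977 2 973)
(mv 1104 (cons (fin 1105 0 1037)
(mv 912 (cons (mv 1103 (cons (fin 848 5 847)
(fin 1167 5 911)))
(cons (mv 847 (cons (fin 911 7 847)
(mv 848 (cons (fin 783 7 783)
(mv 849 (cons (fin 785 6 784)
(fin 913 6 848)))))))
(mv 849 (cons (fin 913 6 848)
(mv 1103 (cons (fin 1167 5 911)
(mv 911 (cons (fin 847 7 847)
(mv 975 (cons (fin 1168 7 911)
(mv 910 (cons (fin 846 7 846)
(mv 1102 (cons (fin 1166 5 910)
(mv 909 (cons (fin 908 0 908)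
(mv 845 (cons (fin 844 3 844)
(fin 974 7 845))))))))))))))))))))))))))
(mv 976 (cons (fin 977 2 973)
(mv 1100 (cons (fin 1101 1 1036)
(mv 1104 (cons (fin 1105 0 1037)
(mv 912 (cons (mv 1103 (cons (fin 848 5 847)
(fin 1167 5 911)))
(cons (mv 847 (cons (fin 911 7 847)
(mv 848 (cons (fin 783 7 783)
(mv 849 (cons (fin 785 6 784)
(fin 913 6 848)))))))
(mv 849 (cons (fin 913 6 848)
(mv 1103 (cons (fin 1167 5 911)
(mv 911 (cons (fin 847 7 847)
(mv 975 (cons (fin 1168 7 911)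
(mv 910 (cons (fin 846 7 846)
(mv 1102 (cons (fin 1166 5 910)
(mv 909 (cons (fin 908 0 908)
(mv 845 (cons (fin 844 3 844)
(fin 974 7 845)))))))))))))))))))))))))))
(cons (mv 976 (cons (fin 977 2 973)
(mv 972 (cons (fin 973 3 972)
(mv 1100 (cons (fin 1101 1 1036)
(mv 1104 (cons (fin 1105 0 1037)
(mv 912 (cons (mv 1103 (cons (fin 848 5 847)
(fin 1167 5 911)))
(cons (mv 847 (cons (fin 911 7 847)
(mv 848 (cons (fin 783 7 783)
(mv 849 (cons (fin 785 6 784)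
(fin 913 6 848)))))))
(mv 849 (cons (fin 913 6 848)
(mv 1103 (cons (fin 1167 5 911)
(mv 911 (cons (fin 847 7 847)
(mv 1168 (cons (fin 975 7 911)
(mv 1232 (cons (fin 1296 7 1039)
(mv 1233 (cons (fin 1169 4 976)
(fin 1297 4 1040))))))))))))))))))))))))
(mv 972 (cons (fin 973 3 972)
(mv 976 (cons (fin 977 2 973)
(mv 1100 (cons (fin 1101 1 1036)
(mv 1104 (cons (fin 1105 0 1037)
(mv 1168 (cons (cons (mv 1167 (cons (fin 1231 5 975)
(mv 912 (cons (fin 1103 5 911)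
(mv 849 (cons (fin 913 6 848)
(mv 848 (cons (fin 785 6 784)
(mv 847 (cons (fin 783 7 783)
(fin 911 7 847)))))))))))
(mv 1233 (cons (fin 1169 4 976)
(mv 1232 (cons (fin 1297 4 1040)
(mv 1295 (cons (fin 1231 5 1039)
(mv 1296 (cons (fin 1103 7 1039)
(fin 1359 5 1103))))))))))
(cons (mv 1233 (cons (fin 1169 4 976)
(mv 1232 (cons (fin 1297 4 1040)
(mv 1103 (cons (fin 1296 7 1039)
(mv 912 (cons (fin 848 5 847)
(fin 1167 5 911)))))))))
(mv 1233 (cons (fin 1169 4 976)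
(mv 1231 (cons (fin 1167 5 975)
(mv 1232 (cons (fin 1295 5 1039)
(fin 1297 4 1040))))))))))))))))))))))
(mv 1038 (cons (cons (mv 972 (cons (fin 973 3 972)
(mv 1104 (cons (fin 1105 0 1037)
(mv 976 (cons (fin 977 2 973)
(mv 1100 (cons (fin 1101 1 1036)
(mv 1168 (cons (mv 975 (cons (fin 911 7 911)
(fin 1232 7 975)))
(cons (mv 1169 (cons (fin 1233 4 976)
(mv 1167 (cons (fin 1231 5 975)
(mv 912 (cons (fin 1103 5 911)
(mv 849 (cons (fin 913 6 848)
(mv 848 (cons (fin 785 6 784)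
(mv 847 (cons (fin 783 7 783)
(fin 911 7 847)))))))))))))
(mv 1167 (cons (fin 1231 5 975)
(mv 912 (cons (fin 1103 5 911)
(mv 849 (cons (fin 913 6 848)
(mv 785 (cons (fin 848 6 784)
(mv 1232 (cons (fin 975 7 975)
(mv 1233 (cons (fin 1169 4 976)
(fin 1297 4 1040))))))))))))))))))))))))
(cons (mv 973 (cons (fin 972 3 972)
(mv 1104 (cons (fin 1105 0 1037)
(mv 1101 (cons (fin 1100 1 1036)
(mv 1165 (cons (mv 974 (cons (fin 910 6 909)
(fin 1229 6 973)))
(mv 1164 (cons (fin 1228 5 972)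
(mv 1102 (cons (fin 1103 1 1100)
(mv 909 (cons (fin 845 4 845)
(fin 1166 4 909)))))))))))))))
(mv 976 (cons (fin 977 2 973)
(mv 973 (cons (fin 972 3 972)
(mv 1101 (cons (fin 1100 1 1036)
(mv 1165 (cons (mv 974 (cons (fin 910 6 909)
(fin 1229 6 973)))
(mv 1164 (cons (fin 1228 5 972)
(mv 1166 (cons (fin 1230 4 973)
(mv 1102 (cons (fin 909 4 909)
(mv 1163 (cons (fin 1162 2 1098)
(fin 1103 2 1099)))))))))))))))))))
(cons (mv 1104 (cons (fin 1105 0 1037)
(mv 976 (cons (fin 977 2 973)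
(mv 1100 (cons (fin 1101 1 1036)
(mv 1168 (cons (mv 975 (cons (fin 911 7 911)
(fin 1232 7 975)))
(cons (mv 1169 (cons (fin 1233 4 976)
(mv 1167 (cons (fin 1231 5 975)
(mv 912 (cons (fin 1103 5 911)
(mv 849 (cons (fin 913 6 848)
(mv 848 (cons (fin 785 6 784)
(mv 847 (cons (fin 783 7 783)
(fin 911 7 847)))))))))))))
(mv 1167 (cons (fin 1231 5 975)
(mv 912 (cons (fin 1103 5 911)
(mv 849 (cons (fin 913 6 848)
(mv 785 (cons (fin 848 6 784)
(mv 1232 (cons (fin 975 7 975)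
(mv 1233 (cons (fin 1169 4 976)
(fin 1297 4 1040))))))))))))))))))))))
(cons (mv 976 (cons (fin 977 2 973)
(mv 1104 (cons (fin 1105 0 1037)
(mv 972 (cons (fin 973 3 972)
(mv 1168 (cons (mv 975 (cons (fin 911 7 911)
(fin 1232 7 975)))
(cons (mv 1169 (cons (fin 1233 4 976)
(mv 1167 (cons (fin 1231 5 975)
(mv 912 (cons (fin 1103 5 911)
(mv 849 (cons (fin 913 6 848)
(mv 848 (cons (fin 785 6 784)
(mv 847 (cons (fin 783 7 783)
(fin 911 7 847)))))))))))))
(mv 1167 (cons (fin 1231 5 975)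
(mv 912 (cons (fin 1103 5 911)
(mv 849 (cons (fin 913 6 848)
(mv 785 (cons (fin 848 6 784)
(mv 1232 (cons (fin 975 7 975)
(mv 1233 (cons (fin 1169 4 976)
(fin 1297 4 1040))))))))))))))))))))))
(mv 976 (cons (fin 977 2 973)
(mv 1100 (cons (fin 1101 1 1036)
(mv 1104 (cons (fin 1105 0 1037)
(mv 972 (cons (fin 973 3 972)
(mv 912 (cons (cons (mv 847 (cons (fin 911 7 847)
(mv 848 (cons (fin 783 7 783)
(mv 849 (cons (fin 785 6 784)
(fin 913 6 848)))))))
(mv 849 (cons (fin 913 6 848)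
(mv 848 (cons (fin 785 6 784)
(mv 784 (cons (fin 975 5 783)
(mv 783 (cons (fin 719 7 719)
(fin 847 7 783))))))))))
(cons (mv 849 (cons (fin 913 6 848)
(mv 848 (cons (fin 785 6 784)
(mv 975 (cons (fin 784 5 783)
(mv 1168 (cons (fin 911 7 911)
(fin 1232 7 975)))))))))
(mv 911 (cons (fin 847 7 847)
(mv 1168 (cons (fin 975 7 911)
(mv 1233 (cons (fin 1169 4 976)
(mv 1231 (cons (fin 1167 5 975)
(mv 1232 (cons (fin 1295 5 1039)
(fin 1297 4 1040)))))))))))))))))))))))))))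
(cons (mv 973 (cons (cons (cons (mv 972 (cons (fin 1038 3 972)
(mv 975 (cons (fin 974 0 972)
(mv 1101 (cons (cons (mv 908 (cons (fin 1165 7 908)
(mv 844 (cons (fin 909 7 844)
(fin 780 4 780)))))
(mv 909 (cons (cons (mv 844 (cons (fin 908 7 844)
(mv 780 (cons (fin 845 7 780)
(mv 1102 (cons (fin 1166 4 909)
(mv 1100 (cons (fin 1103 2 1036)
(fin 1164 5 908)))))))))
(mv 846 (cons (fin 910 6 845)
(mv 782 (cons (fin 845 6 781)
(mv 847 (cons (fin 911 7 782)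
(mv 1102 (cons (fin 1166 4 909)
(mv 1100 (cons (fin 1103 2 1036)
(fin 1164 5 908))))))))))))
(cons (mv 1100 (cons (fin 1164 5 908)
(mv 846 (cons (fin 910 6 845)
(mv 845 (cons (fin 782 6 781)
(mv 844 (cons (fin 780 7 780)
(fin 908 7 844)))))))))
(cons (mv 844 (cons (fin 908 7 844)
(mv 845 (cons (fin 780 7 780)
(mv 846 (cons (fin 782 6 781)
(fin 910 6 845)))))))
(mv 1102 (cons (fin 1166 4 909)
(mv 1100 (cons (fin 1103 2 1036)
(fin 1164 5 908))))))))))
(cons (mv 1166 (cons (cons (mv 909 (cons (fin 1102 4 909)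
(mv 846 (cons (fin 910 6 845)
(mv 782 (cons (fin 845 6 781)
(mv 847 (cons (fin 911 7 782)
(mv 1164 (cons (fin 1100 5 908)
(mv 1165 (cons (fin 1228 5 972)
(fin 1230 4 973)))))))))))))
(mv 1165 (cons (fin 1230 4 973)
(mv 1164 (cons (fin 1228 5 972)
(mv 1100 (cons (fin 909 5 908)
(mv 1099 (cons (fin 1167 3 1099)
(fin 1098 0 1098))))))))))
(cons (mv 1230 (cons (fin 1165 4 973)
(mv 1103 (cons (fin 1167 5 974)
(mv 1102 (cons (fin 1100 2 1036)
(fin 1294 7 1037)))))))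
(cons (mv 1102 (cons (fin 909 4 909)
(mv 1103 (cons (fin 1100 2 1036)
(fin 911 5 910)))))
(mv 909 (cons (fin 1102 4 909)
(mv 846 (cons (fin 910 6 845)
(mv 845 (cons (fin 782 6 781)
(mv 1230 (cons (fin 1165 4 973)
(mv 780 (cons (fin 844 7 780)
(mv 781 (cons (fin 716 7 716)
(mv 1103 (cons (fin 1167 5 974)
(mv 848 (cons (fin 847 3 780)
(mv 912 (cons (fin 976 5 847)
(fin 911 6 847)))))))))))))))))))))))
(mv 1165 (cons (fin 908 7 908)
(mv 1228 (cons (fin 1164 5 972)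
(mv 1230 (cons (fin 1166 4 973)
(mv 1229 (cons (fin 1292 5 1036)
(fin 1294 4 1037))))))))))))))))
(mv 1101 (cons (cons (mv 909 (cons (cons (mv 844 (cons (fin 908 7 844)
(mv 780 (cons (fin 845 7 780)
(mv 1102 (cons (fin 1166 4 909)
(mv 1100 (cons (fin 1103 2 1036)
(fin 1164 5 908)))))))))
(mv 846 (cons (fin 910 6 845)
(mv 782 (cons (fin 845 6 781)
(mv 1102 (cons (fin 1166 4 909)
(mv 1100 (cons (fin 1103 2 1036)
(fin 1164 5 908))))))))))
(cons (mv 844 (cons (fin 908 7 844)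
(mv 780 (cons (fin 845 7 780)
(mv 910 (cons (fin 846 6 845)
(mv 1102 (cons (fin 1166 4 909)
(mv 974 (cons (fin 1165 6 909)
(mv 972 (cons (fin 975 0 972)
(mv 911 (cons (fin 912 1 908)
(fin 971 2 907)))))))))))))))
(cons (mv 846 (cons (fin 910 6 845)
(mv 782 (cons (fin 845 6 781)
(mv 908 (cons (fin 844 7 844)
(mv 1164 (cons (fin 1100 5 908)
(mv 1165 (cons (fin 972 7 908)
(fin 1228 5 972)))))))))))
(mv 844 (cons (fin 908 7 844)
(mv 1102 (cons (fin 1166 4 909)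
(mv 1100 (cons (fin 1103 2 1036)
(fin 1164 5 908)))))))))))
(cons (mv 1165 (cons (cons (mv 908 (cons (fin 972 7 908)
(mv 1230 (cons (fin 1166 4 973)
(mv 910 (cons (fin 974 6 909)
(mv 1229 (cons (fin 1294 4 1037)
(mv 1228 (cons (fin 1164 5 972)
(fin 1292 5 1036)))))))))))
(mv 1164 (cons (fin 1228 5 972)
(mv 974 (cons (fin 910 6 909)
(mv 972 (cons (fin 975 0 972)
(fin 908 7 908))))))))
(cons (mv 972 (cons (fin 908 7 908)
(mv 974 (cons (fin 975 0 972)
(fin 910 6 909)))))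
(cons (mv 1230 (cons (fin 1166 4 973)
(mv 908 (cons (fin 972 7 908)
(mv 1229 (cons (fin 1294 4 1037)
(mv 1228 (cons (fin 1164 5 972)
(fin 1292 5 1036)))))))))
(mv 1228 (cons (fin 1164 5 972)
(mv 910 (cons (fin 974 6 909)
(mv 1229 (cons (fin 1292 5 1036)
(mv 1230 (cons (fin 1166 4 973)
(fin 1294 4 1037)))))))))))))
(mv 909 (cons (cons (mv 844 (cons (fin 908 7 844)
(mv 780 (cons (fin 845 7 780)
(mv 1102 (cons (fin 1166 4 909)
(mv 1100 (cons (fin 1103 2 1036)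
(fin 1164 5 908)))))))))
(mv 846 (cons (fin 910 6 845)
(mv 782 (cons (fin 845 6 781)
(mv 1102 (cons (fin 1166 4 909)
(mv 1100 (cons (fin 1103 2 1036)
(fin 1164 5 908))))))))))
(cons (mv 844 (cons (fin 908 7 844)
(mv 845 (cons (fin 780 7 780)
(mv 846 (cons (fin 782 6 781)
(fin 910 6 845)))))))
(mv 846 (cons (fin 910 6 845)
(mv 1100 (cons (fin 1164 5 908)
(mv 1102 (cons (fin 1103 2 1036)
(fin 1166 4 909))))))))))))
(cons (cons (mv 1165 (cons (cons (mv 908 (cons (fin 972 7 908)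
(mv 844 (cons (fin 909 7 844)
(mv 1230 (cons (fin 1166 4 973)
(mv 1228 (cons (fin 1164 5 972)
(mv 1229 (cons (fin 1292 5 1036)
(fin 1294 4 1037)))))))))))
(mv 908 (cons (fin 972 7 908)
(mv 909 (cons (fin 844 7 844)
(mv 1164 (cons (fin 1100 5 908)
(fin 1228 5 972))))))))
(cons (mv 1166 (cons (fin 1230 4 973)
(mv 909 (cons (fin 1102 4 909)
(mv 908 (cons (fin 844 7 844)
(fin 972 7 908)))))))
(cons (mv 1164 (cons (fin 1228 5 972)
(mv 909 (cons (fin 1100 5 908)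
(mv 1166 (cons (fin 1102 4 909)
(fin 1230 4 973)))))))
(mv 1230 (cons (fin 1166 4 973)
(mv 908 (cons (fin 972 7 908)
(mv 1229 (cons (fin 1294 4 1037)
(mv 1228 (cons (fin 1164 5 972)
(fin 1292 5 1036)))))))))))))
(mv 909 (cons (cons (mv 844 (cons (fin 908 7 844)
(mv 780 (cons (fin 845 7 780)
(mv 910 (cons (fin 846 6 845)
(mv 1100 (cons (fin 1164 5 908)
(mv 1102 (cons (fin 1103 2 1036)
(mv 974 (cons (fin 1165 6 909)
(mv 972 (cons (fin 975 0 972)
(mv 911 (cons (fin 912 1 908)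
(fin 971 2 907)))))))))))))))))
(mv 908 (cons (fin 844 7 844)
(mv 1164 (cons (fin 1100 5 908)
(mv 1165 (cons (fin 972 7 908)
(fin 1228 5 972))))))))
(cons (mv 910 (cons (fin 846 6 845)
(mv 1100 (cons (fin 1164 5 908)
(mv 1102 (cons (fin 1103 2 1036)
(mv 974 (cons (fin 1165 6 909)
(mv 972 (cons (fin 975 0 972)
(mv 911 (cons (fin 912 1 908)
(fin 971 2 907)))))))))))))
(mv 846 (cons (fin 910 6 845)
(mv 845 (cons (fin 782 6 781)
(mv 844 (cons (fin 780 7 780)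
(fin 908 7 844)))))))))))
(cons (mv 1165 (cons (cons (mv 1164 (cons (fin 1228 5 972)
(mv 909 (cons (fin 1100 5 908)
(mv 910 (cons (fin 846 6 845)
(fin 974 6 909)))))))
(mv 1166 (cons (fin 1230 4 973)
(mv 909 (cons (fin 1102 4 909)
(mv 910 (cons (fin 846 6 845)
(fin 974 6 909))))))))
(cons (mv 1164 (cons (fin 1228 5 972)
(mv 909 (cons (fin 1100 5 908)
(mv 1166 (cons (fin 1102 4 909)
(fin 1230 4 973)))))))
(mv 1230 (cons (fin 1166 4 973)
(mv 910 (cons (fin 974 6 909)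
(mv 1229 (cons (fin 1294 4 1037)
(mv 1228 (cons (fin 1164 5 972)
(fin 1292 5 1036))))))))))))
(mv 909 (cons (cons (mv 844 (cons (fin 908 7 844)
(mv 780 (cons (fin 845 7 780)
(mv 1102 (cons (fin 1166 4 909)
(mv 1100 (cons (fin 1103 2 1036)
(mv 910 (cons (fin 846 6 845)
(mv 974 (cons (fin 1165 6 909)
(mv 972 (cons (fin 975 0 972)
(mv 911 (cons (fin 912 1 908)
(fin 971 2 907)))))))))))))))))
(mv 908 (cons (fin 844 7 844)
(mv 1166 (cons (fin 1102 4 909)
(mv 1165 (cons (fin 972 7 908)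
(fin 1230 4 973))))))))
(cons (mv 910 (cons (fin 846 6 845)
(mv 1102 (cons (fin 1166 4 909)
(mv 1100 (cons (fin 1103 2 1036)
(mv 974 (cons (fin 1165 6 909)
(mv 972 (cons (fin 975 0 972)
(mv 911 (cons (fin 912 1 908)
(fin 971 2 907)))))))))))))
(mv 846 (cons (fin 910 6 845)
(mv 845 (cons (fin 782 6 781)
(mv 844 (cons (fin 780 7 780)
(fin 908 7 844)))))))))))))))
(cons (mv 1101 (cons (cons (mv 1038 (cons (fin 1100 1 1036)
(mv 976 (cons (fin 977 2 973)
(mv 909 (cons (cons (mv 1102 (cons (fin 845 4 845)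
(fin 1166 4 909)))
(mv 844 (cons (fin 908 7 844)
(mv 780 (cons (fin 845 7 780)
(mv 910 (cons (fin 846 6 845)
(mv 1165 (cons (fin 974 6 909)
(mv 1228 (cons (fin 1164 5 972)
(mv 1166 (cons (fin 1230 4 973)
(mv 1229 (cons (fin 1292 5 1036)
(mv 1226 (cons (fin 1227 2 1162)
(mv 1167 (cons (fin 1168 1 1164)
(mv 1103 (cons (fin 1231 6 975)
(mv 912 (cons (fin 848 5 847)
(fin 975 6 911))))))))))))))))))))))))
(cons (mv 846 (cons (fin 910 6 845)
(mv 1166 (cons (fin 1102 4 909)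
(mv 844 (cons (fin 908 7 844)
(mv 1165 (cons (fin 1230 4 973)
(mv 1229 (cons (fin 974 6 973)
(mv 1228 (cons (fin 1164 5 972)
(fin 1292 5 1036)))))))))))))
(mv 845 (cons (fin 1102 4 845)
(mv 844 (cons (fin 780 7 780)
(fin 908 7 844))))))))))))
(mv 909 (cons (cons (mv 844 (cons (fin 908 7 844)
(mv 780 (cons (fin 845 7 780)
(mv 1102 (cons (fin 1166 4 909)
(mv 910 (cons (fin 846 6 845)
(mv 1165 (cons (fin 974 6 909)
(mv 1228 (cons (fin 1164 5 972)
(mv 1229 (cons (fin 1292 5 1036)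
(mv 1293 (cons (fin 1038 6 1037)
(mv 1294 (cons (fin 1230 4 1037)
(fin 1358 4 1101)))))))))))))))))))
(mv 844 (cons (fin 908 7 844)
(mv 780 (cons (fin 845 7 780)
(mv 1166 (cons (fin 1102 4 909)
(mv 1165 (cons (fin 1230 4 973)
(mv 1228 (cons (fin 1164 5 972)
(mv 1229 (cons (fin 1292 5 1036)
(mv 1226 (cons (fin 1227 2 1162)
(mv 1038 (cons (fin 974 6 973)
(mv 1167 (cons (fin 1168 1 1164)
(mv 976 (cons (fin 977 2 973)
(mv 1103 (cons (fin 1231 6 975)
(mv 912 (cons (fin 848 5 847)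
(fin 975 6 911))))))))))))))))))))))))))
(cons (mv 846 (cons (fin 910 6 845)
(mv 845 (cons (fin 782 6 781)
(mv 844 (cons (fin 780 7 780)
(fin 908 7 844)))))))
(cons (mv 1102 (cons (fin 1166 4 909)
(mv 845 (cons (fin 1038 4 845)
(mv 846 (cons (fin 782 6 781)
(fin 910 6 845)))))))
(mv 846 (cons (fin 910 6 845)
(mv 844 (cons (fin 908 7 844)
(mv 1166 (cons (fin 1102 4 909)
(mv 1165 (cons (fin 1230 4 973)
(mv 1228 (cons (fin 1164 5 972)
(mv 1229 (cons (fin 1292 5 1036)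
(mv 1226 (cons (fin 1227 2 1162)
(mv 1038 (cons (fin 974 6 973)
(mv 1167 (cons (fin 1168 1 1164)
(mv 976 (cons (fin 977 2 973)
(mv 1103 (cons (fin 1231 6 975)
(mv 912 (cons (fin 848 5 847)
(fin 975 6 911))))))))))))))))))))))))))))))
(cons (mv 909 (cons (mv 844 (cons (fin 908 7 844)
(mv 780 (cons (fin 845 7 780)
(mv 1102 (cons (fin 1166 4 909)
(mv 1100 (cons (fin 1103 2 1036)
(fin 1164 5 908)))))))))
(cons (mv 846 (cons (fin 910 6 845)
(mv 845 (cons (fin 782 6 781)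
(mv 844 (cons (fin 780 7 780)
(fin 908 7 844)))))))
(mv 1102 (cons (fin 1166 4 909)
(mv 1100 (cons (fin 1103 2 1036)
(fin 1164 5 908))))))))
(cons (mv 1100 (cons (fin 1038 1 1036)
(mv 1102 (cons (fin 1103 2 1036)
(mv 1099 (cons (cons (mv 1034 (cons (fin 1035 3 1034)
(mv 1033 (cons (fin 1098 3 1033)
(mv 1166 (cons (fin 1167 0 1099)
(mv 1230 (cons (fin 1294 7 1037)
(fin 1165 4 973)))))))))
(mv 1162 (cons (fin 1163 1 1098)
(mv 1098 (cons (fin 1161 1 1097)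
(mv 1034 (cons (fin 1033 3 1033)
(fin 1035 3 1034))))))))
(cons (mv 1166 (cons (fin 1167 0 1099)
(mv 1165 (cons (fin 1098 0 1098)
(fin 1230 4 973)))))
(mv 1166 (cons (fin 1167 0 1099)
(mv 1230 (cons (fin 1294 7 1037)
(fin 1165 4 973))))))))))))
(mv 1100 (cons (fin 1038 1 1036)
(mv 909 (cons (fin 1164 5 908)
(mv 844 (cons (fin 908 7 844)
(mv 845 (cons (fin 780 7 780)
(mv 846 (cons (fin 782 6 781)
(fin 910 6 845)))))))))))))))
(mv 972 (cons (fin 1038 3 972)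
(mv 974 (cons (fin 975 0 972)
(mv 971 (cons (cons (mv 906 (cons (fin 907 3 906)
(mv 970 (cons (fin 905 3 905)
(mv 1034 (cons (fin 1033 1 969)
(fin 1035 1 970)))))))
(mv 910 (cons (fin 911 2 907)
(mv 970 (cons (fin 909 2 906)
(mv 1034 (cons (fin 1033 1 969)
(fin 1035 1 970))))))))
(cons (mv 910 (cons (fin 911 2 907)
(mv 909 (cons (fin 970 2 906)
(mv 846 (cons (fin 782 5 781)
(mv 907 (cons (fin 906 3 906)
(mv 908 (cons (fin 847 2 843)
(mv 843 (cons (fin 842 3 842)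
(mv 780 (cons (fin 844 4 780)
(mv 779 (cons (fin 716 6 715)
(fin 715 4 715)))))))))))))))))
(mv 907 (cons (fin 906 3 906)
(mv 1035 (cons (fin 1034 1 970)
(mv 910 (cons (fin 911 2 907)
(mv 782 (cons (fin 846 5 781)
(mv 844 (cons (mv 780 (cons (fin 908 5 779)
(fin 843 6 779)))
(cons (mv 1099 (cons (fin 908 6 843)
(mv 1162 (cons (fin 1098 5 906)
(mv 1164 (cons (fin 1100 4 907)
(mv 1163 (cons (fin 1226 5 970)
(fin 1228 4 971)))))))))
(mv 843 (cons (fin 780 6 779)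
(mv 842 (cons (fin 778 7 778)
(mv 845 (cons (fin 781 2 778)
(fin 909 0 842)))))))))))))))))))))))))))
(cons (cons (mv 972 (cons (fin 1038 3 972)
(mv 1101 (cons (cons (mv 908 (cons (fin 1165 7 908)
(mv 844 (cons (fin 909 7 844)
(fin 780 4 780)))))
(mv 909 (cons (cons (mv 844 (cons (fin 908 7 844)
(mv 780 (cons (fin 845 7 780)
(mv 1102 (cons (fin 1166 4 909)
(mv 1100 (cons (fin 1103 2 1036)
(fin 1164 5 908)))))))))
(mv 846 (cons (fin 910 6 845)
(mv 782 (cons (fin 845 6 781)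
(mv 1102 (cons (fin 1166 4 909)
(mv 1100 (cons (fin 1103 2 1036)
(fin 1164 5 908))))))))))
(cons (mv 844 (cons (fin 908 7 844)
(mv 845 (cons (fin 780 7 780)
(mv 846 (cons (fin 782 6 781)
(fin 910 6 845)))))))
(mv 846 (cons (fin 910 6 845)
(mv 1100 (cons (fin 1164 5 908)
(mv 1102 (cons (fin 1103 2 1036)
(fin 1166 4 909)))))))))))
(cons (mv 1166 (cons (cons (mv 909 (cons (fin 1102 4 909)
(mv 846 (cons (fin 910 6 845)
(mv 782 (cons (fin 845 6 781)
(mv 1164 (cons (fin 1100 5 908)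
(mv 1165 (cons (fin 1228 5 972)
(fin 1230 4 973)))))))))))
(cons (mv 1165 (cons (fin 1230 4 973)
(mv 1164 (cons (fin 1228 5 972)
(mv 1100 (cons (fin 909 5 908)
(mv 1099 (cons (fin 1167 3 1099)
(fin 1098 0 1098)))))))))
(mv 1230 (cons (fin 1165 4 973)
(mv 1102 (cons (fin 1294 7 1037)
(mv 1100 (cons (fin 1103 2 1036)
(mv 1099 (cons (fin 1167 0 1099)
(mv 1162 (cons (fin 1163 1 1098)
(mv 1098 (cons (fin 1161 1 1097)
(mv 1034 (cons (fin 1033 3 1033)
(fin 1035 3 1034)))))))))))))))))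
(cons (mv 1102 (cons (fin 909 4 909)
(mv 1230 (cons (fin 1294 7 1037)
(mv 1100 (cons (fin 1103 2 1036)
(mv 1099 (cons (fin 1167 0 1099)
(mv 1162 (cons (fin 1163 1 1098)
(mv 1098 (cons (fin 1161 1 1097)
(mv 1034 (cons (fin 1033 3 1033)
(fin 1035 3 1034)))))))))))))))
(cons (mv 1102 (cons (fin 909 4 909)
(mv 1100 (cons (fin 1103 2 1036)
(mv 1099 (cons (fin 1167 0 1099)
(mv 1098 (cons (fin 1165 0 1098)
(mv 1162 (cons (fin 1161 1 1097)
(fin 1163 1 1098)))))))))))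
(mv 1102 (cons (fin 909 4 909)
(mv 1230 (cons (fin 1294 7 1037)
(fin 1165 4 973)))))))))
(mv 1165 (cons (fin 908 7 908)
(mv 1228 (cons (fin 1164 5 972)
(mv 1230 (cons (fin 1166 4 973)
(mv 1229 (cons (fin 1292 5 1036)
(fin 1294 4 1037))))))))))))))
(mv 972 (cons (fin 1038 3 972)
(mv 974 (cons (fin 975 0 972)
(mv 910 (cons (mv 911 (cons (fin 971 2 907)
(mv 912 (cons (fin 909 1 908)
(fin 913 1 909)))))
(cons (mv 1101 (cons (fin 1165 6 909)
(mv 846 (cons (fin 782 5 781)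
(fin 909 6 845)))))
(mv 782 (cons (fin 846 5 781)
(mv 971 (cons (fin 911 2 907)
(mv 1101 (cons (fin 1165 6 909)
(mv 906 (cons (fin 907 3 906)
(mv 970 (cons (fin 905 3 905)
(mv 1034 (cons (fin 1033 1 969)
(fin 1035 1 970)))))))))))))))))))))
(cons (mv 1038 (cons (fin 972 3 972)
(mv 1101 (cons (fin 1100 1 1036)
(mv 976 (cons (fin 977 2 973)
(mv 1165 (cons (mv 974 (cons (fin 910 6 909)
(fin 1229 6 973)))
(cons (mv 1228 (cons (fin 1164 5 972)
(mv 1166 (cons (fin 1230 4 973)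
(mv 1229 (cons (fin 1292 5 1036)
(mv 1226 (cons (fin 1227 2 1162)
(mv 1102 (cons (fin 1293 6 1037)
(mv 1167 (cons (fin 1168 1 1164)
(mv 1103 (cons (fin 1231 6 975)
(mv 975 (cons (fin 911 5 910)
(fin 912 6 911)))))))))))))))))
(mv 1164 (cons (fin 1228 5 972)
(mv 910 (cons (fin 974 6 909)
(mv 1166 (cons (fin 1230 4 973)
(mv 1163 (cons (mv 1102 (cons (fin 1162 2 1098)
(fin 1103 2 1099)))
(cons (mv 1098 (cons (fin 1099 3 1098)
(mv 1162 (cons (fin 1097 3 1097)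
(mv 1226 (cons (fin 1225 1 1161)
(fin 1227 1 1162)))))))
(mv 1226 (cons (fin 1227 1 1162)
(mv 1103 (cons (fin 1102 2 1099)
(mv 1098 (cons (fin 1099 3 1098)
(mv 1167 (cons (fin 1231 6 975)
(mv 912 (cons (fin 848 5 847)
(fin 975 6 911)))))))))))))))))))))))))))))
(mv 1038 (cons (fin 972 3 972)
(mv 1101 (cons (fin 1100 1 1036)
(mv 976 (cons (fin 977 2 973)
(mv 909 (cons (mv 1102 (cons (fin 845 4 845)
(fin 1166 4 909)))
(cons (mv 844 (cons (fin 908 7 844)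
(mv 845 (cons (fin 780 7 780)
(mv 782 (cons (fin 846 6 781)
(mv 781 (cons (fin 718 6 717)
(fin 974 4 781)))))))))
(mv 844 (cons (fin 908 7 844)
(mv 1166 (cons (fin 1102 4 909)
(mv 1165 (cons (fin 1230 4 973)
(mv 1229 (cons (fin 974 6 973)
(mv 1228 (cons (fin 1164 5 972)
(fin 1292 5 1036))))))))))))))))))))))))
(mv 1038 (cons (cons (mv 972 (cons (fin 973 3 972)
(mv 1104 (cons (fin 1105 0 1037)
(mv 976 (cons (fin 977 2 973)
(mv 1100 (cons (fin 1101 1 1036)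
(mv 1168 (cons (mv 975 (cons (fin 911 7 911)
(fin 1232 7 975)))
(cons (mv 1169 (cons (fin 1233 4 976)
(mv 1167 (cons (fin 1231 5 975)
(mv 912 (cons (fin 1103 5 911)
(mv 849 (cons (fin 913 6 848)
(mv 848 (cons (fin 785 6 784)
(mv 847 (cons (fin 783 7 783)
(fin 911 7 847)))))))))))))
(mv 1167 (cons (fin 1231 5 975)
(mv 912 (cons (fin 1103 5 911)
(mv 849 (cons (fin 913 6 848)
(mv 785 (cons (fin 848 6 784)
(mv 1232 (cons (fin 975 7 975)
(mv 1233 (cons (fin 1169 4 976)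
(fin 1297 4 1040))))))))))))))))))))))))
(cons (mv 1101 (cons (fin 1100 1 1036)
(mv 973 (cons (fin 972 3 972)
(mv 976 (cons (fin 977 2 973)
(mv 1165 (cons (mv 974 (cons (fin 910 6 909)
(fin 1229 6 973)))
(cons (mv 1228 (cons (fin 1164 5 972)
(mv 1166 (cons (fin 1230 4 973)
(mv 1229 (cons (fin 1292 5 1036)
(mv 1226 (cons (fin 1227 2 1162)
(mv 1102 (cons (fin 1293 6 1037)
(mv 1167 (cons (fin 1168 1 1164)
(mv 1103 (cons (fin 1231 6 975)
(mv 975 (cons (fin 911 5 910)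
(fin 912 6 911)))))))))))))))))
(mv 1164 (cons (fin 1228 5 972)
(mv 910 (cons (fin 974 6 909)
(mv 1166 (cons (fin 1230 4 973)
(mv 1163 (cons (mv 1102 (cons (fin 1162 2 1098)
(fin 1103 2 1099)))
(cons (mv 1098 (cons (fin 1099 3 1098)
(mv 1162 (cons (fin 1097 3 1097)
(mv 1226 (cons (fin 1225 1 1161)
(fin 1227 1 1162)))))))
(mv 1226 (cons (fin 1227 1 1162)
(mv 1103 (cons (fin 1102 2 1099)
(mv 1098 (cons (fin 1099 3 1098)
(mv 1167 (cons (fin 1231 6 975)
(mv 912 (cons (fin 848 5 847)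
(fin 975 6 911)))))))))))))))))))))))))))))
(mv 973 (cons (fin 972 3 972)
(mv 1101 (cons (fin 1100 1 1036)
(mv 1104 (cons (fin 1105 0 1037)
(mv 1165 (cons (mv 974 (cons (fin 910 6 909)
(fin 1229 6 973)))
(cons (mv 1164 (cons (fin 1228 5 972)
(mv 1102 (cons (fin 1103 1 1100)
(mv 1230 (cons (fin 1166 7 973)
(mv 1229 (cons (fin 1293 6 1037)
(fin 1294 4 1037)))))))))
(mv 910 (cons (fin 974 6 909)
(mv 1166 (cons (fin 1230 4 973)
(mv 1164 (cons (fin 1228 5 972)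
(mv 1103 (cons (fin 1102 1 1100)
(fin 1167 2 1100))))))))))))))))))))
(cons (cons (mv 976 (cons (fin 977 2 973)
(mv 972 (cons (fin 973 3 972)
(mv 1104 (cons (fin 1105 0 1037)
(mv 1168 (cons (mv 975 (cons (fin 911 7 911)
(fin 1232 7 975)))
(cons (mv 1169 (cons (fin 1233 4 976)
(mv 1167 (cons (fin 1231 5 975)
(mv 912 (cons (fin 1103 5 911)
(mv 849 (cons (fin 913 6 848)
(mv 848 (cons (fin 785 6 784)
(mv 847 (cons (fin 783 7 783)
(fin 911 7 847)))))))))))))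
(mv 1167 (cons (fin 1231 5 975)
(mv 912 (cons (fin 1103 5 911)
(mv 849 (cons (fin 913 6 848)
(mv 785 (cons (fin 848 6 784)
(mv 1232 (cons (fin 975 7 975)
(mv 1233 (cons (fin 1169 4 976)
(fin 1297 4 1040))))))))))))))))))))))
(mv 1100 (cons (fin 1101 1 1036)
(mv 976 (cons (fin 977 2 973)
(mv 1104 (cons (fin 1105 0 1037)
(mv 1168 (cons (mv 975 (cons (fin 911 7 911)
(fin 1232 7 975)))
(cons (mv 1169 (cons (fin 1233 4 976)
(mv 1167 (cons (fin 1231 5 975)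
(mv 912 (cons (fin 1103 5 911)
(mv 849 (cons (fin 913 6 848)
(mv 848 (cons (fin 785 6 784)
(mv 847 (cons (fin 783 7 783)
(fin 911 7 847)))))))))))))
(mv 1167 (cons (fin 1231 5 975)
(mv 912 (cons (fin 1103 5 911)
(mv 849 (cons (fin 913 6 848)
(mv 785 (cons (fin 848 6 784)
(mv 1232 (cons (fin 975 7 975)
(mv 1233 (cons (fin 1169 4 976)
(fin 1297 4 1040)))))))))))))))))))))))
(cons (mv 1100 (cons (fin 1101 1 1036)
(mv 972 (cons (fin 973 3 972)
(mv 976 (cons (fin 977 2 973)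
(mv 1104 (cons (fin 1105 0 1037)
(mv 912 (cons (cons (mv 847 (cons (fin 911 7 847)
(mv 848 (cons (fin 783 7 783)
(mv 849 (cons (fin 785 6 784)
(fin 913 6 848)))))))
(mv 849 (cons (fin 913 6 848)
(mv 848 (cons (fin 785 6 784)
(mv 784 (cons (fin 975 5 783)
(mv 783 (cons (fin 719 7 719)
(fin 847 7 783))))))))))
(cons (mv 849 (cons (fin 913 6 848)
(mv 848 (cons (fin 785 6 784)
(mv 975 (cons (fin 784 5 783)
(mv 1168 (cons (fin 911 7 911)
(fin 1232 7 975)))))))))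
(mv 911 (cons (fin 847 7 847)
(mv 1168 (cons (fin 975 7 911)
(mv 1233 (cons (fin 1169 4 976)
(mv 1231 (cons (fin 1167 5 975)
(mv 1232 (cons (fin 1295 5 1039)
(fin 1297 4 1040))))))))))))))))))))))
(mv 972 (cons (fin 973 3 972)
(mv 1100 (cons (fin 1101 1 1036)
(mv 976 (cons (fin 977 2 973)
(mv 1104 (cons (fin 1105 0 1037)
(mv 1168 (cons (mv 975 (cons (fin 911 7 911)
(fin 1232 7 975)))
(cons (mv 1233 (cons (fin 1169 4 976)
(mv 1232 (cons (fin 1297 4 1040)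
(mv 1295 (cons (fin 1231 5 1039)
(mv 1296 (cons (fin 1103 7 1039)
(fin 1359 5 1103)))))))))
(mv 1169 (cons (fin 1233 4 976)
(mv 911 (cons (fin 975 7 911)
(mv 912 (cons (fin 847 7 847)
(mv 848 (cons (fin 1103 5 847)
(mv 849 (cons (fin 785 6 784)
(fin 913 6 848))))))))))))))))))))))))))))
(cons (cons (mv 1038 (cons (cons (mv 972 (cons (fin 973 3 972)
(mv 1104 (cons (fin 1105 0 1037)
(mv 976 (cons (fin 977 2 973)
(mv 1100 (cons (fin 1101 1 1036)
(mv 1168 (cons (mv 975 (cons (fin 911 7 911)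
(fin 1232 7 975)))
(mv 1169 (cons (fin 1233 4 976)
(mv 1167 (cons (fin 1231 5 975)
(mv 1103 (cons (fin 912 5 911)
(mv 1170 (cons (fin 1102 3 1102)
(fin 1171 3 1103)))))))))))))))))))
(cons (mv 976 (cons (fin 977 2 973)
(mv 1104 (cons (fin 1105 0 1037)
(mv 1100 (cons (fin 1101 1 1036)
(mv 1168 (cons (mv 975 (cons (fin 911 7 911)
(fin 1232 7 975)))
(mv 1169 (cons (fin 1233 4 976)
(mv 1167 (cons (fin 1231 5 975)
(mv 1103 (cons (fin 912 5 911)
(mv 1170 (cons (fin 1102 3 1102)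
(fin 1171 3 1103)))))))))))))))))
(mv 1104 (cons (fin 1105 0 1037)
(mv 976 (cons (fin 977 2 973)
(mv 972 (cons (fin 973 3 972)
(mv 1168 (cons (mv 975 (cons (fin 911 7 911)
(fin 1232 7 975)))
(mv 1169 (cons (fin 1233 4 976)
(mv 1167 (cons (fin 1231 5 975)
(mv 1103 (cons (fin 912 5 911)
(mv 1170 (cons (fin 1102 3 1102)
(fin 1171 3 1103)))))))))))))))))))
(cons (cons (mv 1101 (cons (fin 1100 1 1036)
(mv 1104 (cons (fin 1105 0 1037)
(mv 973 (cons (fin 972 3 972)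
(mv 1165 (cons (mv 974 (cons (fin 910 6 909)
(fin 1229 6 973)))
(mv 1164 (cons (fin 1228 5 972)
(mv 1102 (cons (fin 1103 1 1100)
(mv 909 (cons (fin 845 4 845)
(fin 1166 4 909)))))))))))))))
(mv 976 (cons (fin 977 2 973)
(mv 1101 (cons (fin 1100 1 1036)
(mv 973 (cons (fin 972 3 972)
(mv 909 (cons (cons (mv 1102 (cons (fin 845 4 845)
(fin 1166 4 909)))
(mv 844 (cons (fin 908 7 844)
(mv 780 (cons (fin 845 7 780)
(mv 910 (cons (fin 846 6 845)
(mv 1165 (cons (fin 974 6 909)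
(mv 1228 (cons (fin 1164 5 972)
(mv 1166 (cons (fin 1230 4 973)
(mv 1229 (cons (fin 1292 5 1036)
(mv 1226 (cons (fin 1227 2 1162)
(mv 1167 (cons (fin 1168 1 1164)
(mv 1103 (cons (fin 1231 6 975)
(mv 912 (cons (fin 848 5 847)
(fin 975 6 911))))))))))))))))))))))))
(cons (mv 846 (cons (fin 910 6 845)
(mv 1166 (cons (fin 1102 4 909)
(mv 844 (cons (fin 908 7 844)
(mv 1165 (cons (fin 1230 4 973)
(mv 1229 (cons (fin 974 6 973)
(mv 1228 (cons (fin 1164 5 972)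
(fin 1292 5 1036)))))))))))))
(mv 845 (cons (fin 1102 4 845)
(mv 844 (cons (fin 780 7 780)
(fin 908 7 844)))))))))))))))
(cons (mv 976 (cons (fin 977 2 973)
(mv 1104 (cons (fin 1105 0 1037)
(mv 1101 (cons (fin 1100 1 1036)
(mv 972 (cons (fin 973 3 972)
(mv 1168 (cons (mv 975 (cons (fin 911 7 911)
(fin 1232 7 975)))
(mv 1169 (cons (fin 1233 4 976)
(mv 1167 (cons (fin 1231 5 975)
(mv 1166 (cons (fin 1102 3 1101)
(mv 1229 (cons (fin 1230 1 1165)
(mv 1165 (cons (fin 1228 1 1164)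
(fin 974 6 973)))))))))))))))))))))
(mv 1104 (cons (fin 1105 0 1037)
(mv 976 (cons (fin 977 2 973)
(mv 1100 (cons (fin 1101 1 1036)
(mv 972 (cons (fin 973 3 972)
(mv 1168 (cons (mv 975 (cons (fin 911 7 911)
(fin 1232 7 975)))
(cons (mv 1233 (cons (fin 1169 4 976)
(mv 1167 (cons (fin 1231 5 975)
(mv 1103 (cons (fin 912 5 911)
(mv 1232 (cons (fin 1296 7 1039)
(fin 1297 4 1040)))))))))
(mv 1169 (cons (fin 1233 4 976)
(mv 975 (cons (fin 911 7 911)
(mv 1167 (cons (fin 1231 5 975)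
(mv 912 (cons (fin 1103 5 911)
(mv 848 (cons (fin 784 5 783)
(mv 849 (cons (fin 785 6 784)
(fin 913 6 848))))))))))))))))))))))))))))
(mv 1101 (cons (cons (cons (mv 1038 (cons (fin 1100 1 1036)
(mv 973 (cons (fin 972 3 972)
(mv 1104 (cons (fin 1105 0 1037)
(mv 1165 (cons (mv 974 (cons (fin 910 6 909)
(fin 1229 6 973)))
(mv 1164 (cons (fin 1228 5 972)
(mv 1102 (cons (fin 1103 1 1100)
(mv 909 (cons (fin 845 4 845)
(fin 1166 4 909)))))))))))))))
(mv 973 (cons (cons (mv 1165 (cons (cons (mv 908 (cons (fin 972 7 908)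
(mv 844 (cons (fin 909 7 844)
(mv 1230 (cons (fin 1166 4 973)
(mv 910 (cons (fin 974 6 909)
(mv 1229 (cons (fin 1294 4 1037)
(mv 1228 (cons (fin 1164 5 972)
(fin 1292 5 1036)))))))))))))
(mv 1164 (cons (fin 1228 5 972)
(mv 909 (cons (fin 1100 5 908)
(mv 908 (cons (fin 844 7 844)
(fin 972 7 908))))))))
(cons (mv 910 (cons (fin 974 6 909)
(mv 909 (cons (fin 846 6 845)
(mv 908 (cons (fin 844 7 844)
(fin 972 7 908)))))))
(cons (mv 1166 (cons (fin 1230 4 973)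
(mv 909 (cons (fin 1102 4 909)
(mv 910 (cons (fin 846 6 845)
(fin 974 6 909)))))))
(mv 910 (cons (fin 974 6 909)
(mv 908 (cons (fin 972 7 908)
(mv 1230 (cons (fin 1166 4 973)
(mv 1228 (cons (fin 1164 5 972)
(mv 1229 (cons (fin 1292 5 1036)
(fin 1294 4 1037)))))))))))))))
(cons (mv 909 (cons (cons (mv 844 (cons (fin 908 7 844)
(mv 780 (cons (fin 845 7 780)
(mv 1102 (cons (fin 1166 4 909)
(mv 1100 (cons (fin 1103 2 1036)
(fin 1164 5 908)))))))))
(mv 846 (cons (fin 910 6 845)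
(mv 782 (cons (fin 845 6 781)
(mv 1102 (cons (fin 1166 4 909)
(mv 1100 (cons (fin 1103 2 1036)
(fin 1164 5 908))))))))))
(cons (mv 1100 (cons (fin 1164 5 908)
(mv 846 (cons (fin 910 6 845)
(mv 845 (cons (fin 782 6 781)
(mv 844 (cons (fin 780 7 780)
(fin 908 7 844)))))))))
(cons (mv 844 (cons (fin 908 7 844)
(mv 845 (cons (fin 780 7 780)
(mv 846 (cons (fin 782 6 781)
(fin 910 6 845)))))))
(mv 1102 (cons (fin 1166 4 909)
(mv 1100 (cons (fin 1103 2 1036)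
(fin 1164 5 908)))))))))
(mv 1165 (cons (cons (mv 910 (cons (fin 974 6 909)
(mv 908 (cons (fin 972 7 908)
(mv 1230 (cons (fin 1166 4 973)
(mv 1228 (cons (fin 1164 5 972)
(mv 1229 (cons (fin 1292 5 1036)
(fin 1294 4 1037)))))))))))
(mv 972 (cons (fin 908 7 908)
(mv 974 (cons (fin 975 0 972)
(fin 910 6 909))))))
(cons (mv 910 (cons (fin 974 6 909)
(mv 1230 (cons (fin 1166 4 973)
(mv 1228 (cons (fin 1164 5 972)
(mv 1229 (cons (fin 1292 5 1036)
(fin 1294 4 1037)))))))))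
(mv 1230 (cons (fin 1166 4 973)
(mv 908 (cons (fin 972 7 908)
(mv 1229 (cons (fin 1294 4 1037)
(mv 1228 (cons (fin 1164 5 972)
(fin 1292 5 1036))))))))))))))
(cons (cons (mv 909 (cons (cons (mv 844 (cons (fin 908 7 844)
(mv 780 (cons (fin 845 7 780)
(mv 910 (cons (fin 846 6 845)
(mv 1100 (cons (fin 1164 5 908)
(mv 1102 (cons (fin 1103 2 1036)
(mv 974 (cons (fin 1165 6 909)
(mv 972 (cons (fin 975 0 972)
(mv 911 (cons (fin 912 1 908)
(fin 971 2 907)))))))))))))))))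
(mv 908 (cons (fin 844 7 844)
(mv 1164 (cons (fin 1100 5 908)
(mv 1165 (cons (fin 972 7 908)
(fin 1228 5 972))))))))
(cons (mv 910 (cons (fin 846 6 845)
(mv 1100 (cons (fin 1164 5 908)
(mv 1102 (cons (fin 1103 2 1036)
(mv 974 (cons (fin 1165 6 909)
(mv 972 (cons (fin 975 0 972)
(mv 911 (cons (fin 912 1 908)
(fin 971 2 907)))))))))))))
(mv 846 (cons (fin 910 6 845)
(mv 845 (cons (fin 782 6 781)
(mv 844 (cons (fin 780 7 780)
(fin 908 7 844))))))))))
(mv 1165 (cons (cons (mv 908 (cons (fin 972 7 908)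
(mv 844 (cons (fin 909 7 844)
(mv 1230 (cons (fin 1166 4 973)
(mv 1228 (cons (fin 1164 5 972)
(mv 1229 (cons (fin 1292 5 1036)
(fin 1294 4 1037)))))))))))
(mv 908 (cons (fin 972 7 908)
(mv 909 (cons (fin 844 7 844)
(mv 1164 (cons (fin 1100 5 908)
(fin 1228 5 972))))))))
(cons (mv 1166 (cons (fin 1230 4 973)
(mv 909 (cons (fin 1102 4 909)
(mv 908 (cons (fin 844 7 844)
(fin 972 7 908)))))))
(cons (mv 1164 (cons (fin 1228 5 972)
(mv 909 (cons (fin 1100 5 908)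
(mv 1166 (cons (fin 1102 4 909)
(fin 1230 4 973)))))))
(mv 1166 (cons (fin 1230 4 973)
(mv 972 (cons (fin 908 7 908)
(mv 1228 (cons (fin 1164 5 972)
(mv 975 (cons (fin 974 0 972)
(mv 1229 (cons (fin 1292 5 1036)
(mv 1226 (cons (fin 1227 2 1162)
(mv 1168 (cons (fin 1167 1 1164)
(mv 1104 (cons (fin 1232 7 975)
(mv 911 (cons (fin 847 4 847)
(fin 1103 4 911))))))))))))))))))))))))
(cons (mv 909 (cons (cons (mv 844 (cons (fin 908 7 844)
(mv 780 (cons (fin 845 7 780)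
(mv 1102 (cons (fin 1166 4 909)
(mv 1100 (cons (fin 1103 2 1036)
(mv 910 (cons (fin 846 6 845)
(mv 974 (cons (fin 1165 6 909)
(mv 972 (cons (fin 975 0 972)
(mv 911 (cons (fin 912 1 908)
(fin 971 2 907)))))))))))))))))
(mv 908 (cons (fin 844 7 844)
(mv 1166 (cons (fin 1102 4 909)
(mv 1165 (cons (fin 972 7 908)
(fin 1230 4 973))))))))
(cons (mv 910 (cons (fin 846 6 845)
(mv 1102 (cons (fin 1166 4 909)
(mv 1100 (cons (fin 1103 2 1036)
(mv 974 (cons (fin 1165 6 909)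
(mv 972 (cons (fin 975 0 972)
(mv 911 (cons (fin 912 1 908)
(fin 971 2 907)))))))))))))
(mv 846 (cons (fin 910 6 845)
(mv 845 (cons (fin 782 6 781)
(mv 844 (cons (fin 780 7 780)
(fin 908 7 844))))))))))
(mv 1165 (cons (cons (mv 1164 (cons (fin 1228 5 972)
(mv 909 (cons (fin 1100 5 908)
(mv 910 (cons (fin 846 6 845)
(fin 974 6 909)))))))
(mv 1166 (cons (fin 1230 4 973)
(mv 909 (cons (fin 1102 4 909)
(mv 910 (cons (fin 846 6 845)
(fin 974 6 909))))))))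
(cons (mv 1164 (cons (fin 1228 5 972)
(mv 909 (cons (fin 1100 5 908)
(mv 1166 (cons (fin 1102 4 909)
(fin 1230 4 973)))))))
(mv 1166 (cons (fin 1230 4 973)
(mv 974 (cons (fin 910 6 909)
(mv 1228 (cons (fin 1164 5 972)
(mv 975 (cons (fin 972 0 972)
(mv 1229 (cons (fin 1292 5 1036)
(mv 1226 (cons (fin 1227 2 1162)
(mv 1168 (cons (fin 1167 1 1164)
(mv 1104 (cons (fin 1232 7 975)
(mv 911 (cons (fin 847 4 847)
(fin 1103 4 911)))))))))))))))))))))))))))
(cons (mv 973 (cons (cons (mv 972 (cons (fin 1038 3 972)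
(mv 974 (cons (fin 975 0 972)
(mv 1165 (cons (fin 908 7 908)
(fin 910 6 909)))))))
(mv 1165 (cons (cons (mv 1164 (cons (fin 1228 5 972)
(mv 1166 (cons (fin 1230 4 973)
(mv 909 (cons (fin 1102 4 909)
(mv 910 (cons (fin 846 6 845)
(fin 974 6 909)))))))))
(cons (mv 910 (cons (fin 974 6 909)
(mv 909 (cons (fin 846 6 845)
(mv 1164 (cons (fin 1228 5 972)
(mv 844 (cons (fin 908 7 844)
(mv 845 (cons (fin 780 7 780)
(mv 842 (cons (fin 843 0 842)
(mv 1038 (cons (fin 1102 4 845)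
(mv 1104 (cons (fin 1105 0 1037)
(mv 911 (cons (fin 912 3 844)
(mv 975 (cons (fin 847 4 847)
(mv 1168 (cons (fin 1232 7 975)
(fin 1103 4 911)))))))))))))))))))))))
(mv 1164 (cons (fin 1228 5 972)
(mv 1166 (cons (fin 1230 4 973)
(mv 909 (cons (fin 1102 4 909)
(mv 846 (cons (fin 910 6 845)
(mv 845 (cons (fin 782 6 781)
(mv 844 (cons (fin 780 7 780)
(fin 908 7 844)))))))))))))))
(cons (cons (mv 1166 (cons (fin 1230 4 973)
(mv 909 (cons (fin 1102 4 909)
(mv 844 (cons (fin 908 7 844)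
(mv 780 (cons (fin 845 7 780)
(mv 1228 (cons (fin 1164 5 972)
(mv 1229 (cons (fin 1292 5 1036)
(mv 1226 (cons (fin 1227 2 1162)
(mv 1038 (cons (fin 974 6 973)
(mv 1168 (cons (fin 1167 1 1164)
(mv 1104 (cons (fin 1105 0 1037)
(mv 975 (cons (fin 1232 7 975)
(mv 911 (cons (fin 847 4 847)
(fin 1103 4 911)))))))))))))))))))))))))
(mv 910 (cons (fin 974 6 909)
(mv 909 (cons (fin 846 6 845)
(mv 1166 (cons (fin 1102 4 909)
(fin 1230 4 973))))))))
(cons (mv 1166 (cons (fin 1230 4 973)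
(mv 1164 (cons (fin 1228 5 972)
(mv 974 (cons (fin 910 6 909)
(mv 1038 (cons (fin 1229 6 973)
(mv 1104 (cons (fin 1105 0 1037)
(mv 1103 (cons (fin 1102 1 1100)
(fin 1167 2 1100)))))))))))))
(mv 910 (cons (fin 974 6 909)
(mv 846 (cons (fin 909 6 845)
(mv 1230 (cons (fin 1166 4 973)
(mv 1228 (cons (fin 1164 5 972)
(mv 1229 (cons (fin 1292 5 1036)
(fin 1294 4 1037))))))))))))))))
(cons (mv 1165 (cons (cons (mv 908 (cons (fin 972 7 908)
(mv 844 (cons (fin 909 7 844)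
(mv 1230 (cons (fin 1166 4 973)
(mv 910 (cons (fin 974 6 909)
(mv 1229 (cons (fin 1294 4 1037)
(mv 1228 (cons (fin 1164 5 972)
(fin 1292 5 1036)))))))))))))
(mv 1164 (cons (fin 1228 5 972)
(mv 910 (cons (fin 974 6 909)
(mv 909 (cons (fin 846 6 845)
(mv 908 (cons (fin 844 7 844)
(fin 972 7 908))))))))))
(cons (mv 1166 (cons (fin 1230 4 973)
(mv 909 (cons (fin 1102 4 909)
(mv 910 (cons (fin 846 6 845)
(fin 974 6 909)))))))
(cons (mv 1164 (cons (fin 1228 5 972)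
(mv 1166 (cons (fin 1230 4 973)
(mv 909 (cons (fin 1102 4 909)
(mv 908 (cons (fin 844 7 844)
(fin 972 7 908)))))))))
(mv 908 (cons (fin 972 7 908)
(mv 910 (cons (fin 974 6 909)
(mv 1228 (cons (fin 1164 5 972)
(mv 1230 (cons (fin 1166 4 973)
(mv 1229 (cons (fin 1292 5 1036)
(fin 1294 4 1037)))))))))))))))
(cons (mv 972 (cons (fin 1038 3 972)
(mv 974 (cons (fin 975 0 972)
(mv 971 (cons (mv 906 (cons (fin 907 3 906)
(mv 905 (cons (fin 970 3 905)
(mv 910 (cons (fin 911 2 907)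
(mv 846 (cons (fin 782 5 781)
(fin 909 6 845)))))))))
(cons (mv 1034 (cons (fin 1035 1 970)
(mv 970 (cons (fin 1033 1 969)
(mv 906 (cons (fin 905 3 905)
(fin 907 3 906)))))))
(mv 910 (cons (fin 911 2 907)
(mv 846 (cons (fin 782 5 781)
(fin 909 6 845))))))))))))
(mv 972 (cons (fin 1038 3 972)
(mv 908 (cons (fin 1165 7 908)
(mv 844 (cons (fin 909 7 844)
(fin 780 4 780)))))))))))
(mv 1100 (cons (fin 1038 1 1036)
(mv 1102 (cons (fin 1103 2 1036)
(mv 1099 (cons (cons (mv 1034 (cons (fin 1035 3 1034)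
(mv 1098 (cons (fin 1033 3 1033)
(mv 1162 (cons (fin 1161 1 1097)
(fin 1163 1 1098)))))))
(mv 1166 (cons (fin 1167 0 1099)
(mv 1098 (cons (fin 1165 0 1098)
(mv 1034 (cons (fin 1033 3 1033)
(fin 1035 3 1034))))))))
(cons (mv 1166 (cons (fin 1167 0 1099)
(mv 1098 (cons (fin 1165 0 1098)
(mv 1162 (cons (fin 1161 1 1097)
(fin 1163 1 1098)))))))
(mv 1166 (cons (fin 1167 0 1099)
(mv 1035 (cons (fin 1034 3 1034)
(mv 1163 (cons (fin 1162 1 1098)
(mv 1230 (cons (fin 1294 7 1037)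
(mv 1228 (cons (mv 1164 (cons (fin 1292 7 1035)
(fin 971 4 971)))
(cons (mv 1227 (cons (fin 1292 4 1035)
(mv 1290 (cons (fin 1226 5 1034)
(mv 1291 (cons (fin 1229 1 1226)
(fin 1354 5 1098)))))))
(mv 971 (cons (fin 1164 4 971)
(mv 908 (cons (fin 972 6 907)
(mv 907 (cons (fin 844 6 843)
(mv 906 (cons (fin 842 7 842)
(fin 970 7 906)))))))))))))))))))))))))))))
(cons (cons (mv 1038 (cons (fin 1100 1 1036)
(mv 973 (cons (fin 972 3 972)
(mv 1104 (cons (fin 1105 0 1037)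
(mv 1165 (cons (mv 974 (cons (fin 910 6 909)
(fin 1229 6 973)))
(mv 1164 (cons (fin 1228 5 972)
(mv 1166 (cons (fin 1230 4 973)
(mv 1167 (cons (fin 1103 2 1100)
(mv 1232 (cons (fin 1231 0 1164)
(mv 1168 (cons (fin 1233 0 1165)
(fin 975 7 975)))))))))))))))))))
(mv 1038 (cons (fin 1100 1 1036)
(mv 1104 (cons (fin 1105 0 1037)
(mv 1165 (cons (cons (mv 974 (cons (fin 1229 6 973)
(mv 910 (cons (fin 846 5 845)
(fin 1102 5 909)))))
(mv 1229 (cons (cons (mv 1228 (cons (fin 1292 5 1036)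
(mv 973 (cons (fin 1164 5 972)
(mv 1230 (cons (fin 1166 4 973)
(fin 1294 4 1037)))))))
(cons (mv 1228 (cons (fin 1292 5 1036)
(mv 973 (cons (fin 1164 5 972)
(mv 1102 (cons (fin 1293 6 1037)
(mv 909 (cons (fin 845 4 845)
(fin 1166 4 909)))))))))
(mv 1102 (cons (fin 1293 6 1037)
(mv 1103 (cons (fin 1164 1 1100)
(mv 1230 (cons (fin 1294 4 1037)
(mv 1166 (cons (fin 973 7 973)
(fin 975 6 974)))))))))))
(cons (mv 1230 (cons (fin 1294 4 1037)
(mv 973 (cons (fin 1166 4 973)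
(mv 1292 (cons (fin 1228 5 1036)
(mv 1293 (cons (fin 1356 5 1100)
(fin 1102 6 1037)))))))))
(cons (mv 1102 (cons (fin 1293 6 1037)
(mv 1103 (cons (fin 1164 1 1100)
(mv 1230 (cons (fin 1294 4 1037)
(mv 975 (cons (fin 1166 6 974)
(mv 1168 (cons (fin 1169 0 1101)
(fin 1232 7 975)))))))))))
(mv 1230 (cons (fin 1294 4 1037)
(mv 1102 (cons (fin 1293 6 1037)
(mv 1103 (cons (fin 1164 1 1100)
(mv 1228 (cons (fin 1292 5 1036)
(mv 1168 (cons (fin 1169 0 1101)
(mv 1232 (cons (fin 975 7 975)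
(fin 1296 7 1039))))))))))))))))))
(cons (mv 973 (cons (cons (mv 1164 (cons (fin 1228 5 972)
(mv 1102 (cons (fin 1103 1 1100)
(mv 909 (cons (fin 845 4 845)
(fin 1166 4 909)))))))
(mv 1164 (cons (fin 1228 5 972)
(mv 1102 (cons (fin 1103 1 1100)
(mv 910 (cons (fin 974 5 909)
(mv 909 (cons (fin 846 6 845)
(fin 845 4 845))))))))))
(cons (mv 910 (cons (fin 974 6 909)
(mv 909 (cons (fin 846 6 845)
(mv 1102 (cons (fin 845 4 845)
(fin 1166 4 909)))))))
(cons (mv 1166 (cons (fin 1230 4 973)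
(mv 1164 (cons (fin 1228 5 972)
(mv 1103 (cons (fin 1167 2 1100)
(mv 910 (cons (fin 974 6 909)
(mv 909 (cons (fin 846 6 845)
(mv 844 (cons (fin 908 7 844)
(mv 845 (cons (fin 780 7 780)
(mv 842 (cons (fin 843 0 842)
(mv 911 (cons (fin 912 3 844)
(mv 975 (cons (fin 847 4 847)
(fin 1168 4 911)))))))))))))))))))))
(mv 910 (cons (fin 974 6 909)
(mv 1166 (cons (fin 1230 4 973)
(mv 1164 (cons (fin 1228 5 972)
(mv 1103 (cons (fin 1102 1 1100)
(fin 1167 2 1100)))))))))))))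
(mv 974 (cons (fin 1229 6 973)
(mv 910 (cons (fin 846 5 845)
(fin 973 6 909)))))))))))))
(cons (mv 1038 (cons (fin 1100 1 1036)
(mv 973 (cons (fin 972 3 972)
(mv 1104 (cons (fin 1105 0 1037)
(mv 909 (cons (cons (mv 1102 (cons (fin 845 4 845)
(fin 1166 4 909)))
(mv 844 (cons (fin 908 7 844)
(mv 780 (cons (fin 845 7 780)
(mv 910 (cons (fin 846 6 845)
(mv 1165 (cons (fin 974 6 909)
(mv 1228 (cons (fin 1164 5 972)
(mv 1166 (cons (fin 1230 4 973)
(mv 1229 (cons (fin 1292 5 1036)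
(mv 1168 (cons (fin 1167 1 1164)
(mv 1232 (cons (fin 975 7 975)
(mv 1295 (cons (fin 1231 5 1039)
(mv 1297 (cons (fin 1233 4 1040)
(mv 1296 (cons (fin 1359 5 1103)
(fin 1361 4 1104))))))))))))))))))))))))))
(cons (mv 846 (cons (fin 910 6 845)
(mv 1166 (cons (fin 1102 4 909)
(mv 844 (cons (fin 908 7 844)
(mv 1165 (cons (fin 1230 4 973)
(mv 1229 (cons (fin 974 6 973)
(mv 1228 (cons (fin 1164 5 972)
(fin 1292 5 1036)))))))))))))
(mv 845 (cons (fin 1102 4 845)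
(mv 844 (cons (fin 780 7 780)
(fin 908 7 844))))))))))))))
(cons (mv 1038 (cons (fin 1100 1 1036)
(mv 973 (cons (fin 972 3 972)
(mv 1104 (cons (fin 1105 0 1037)
(mv 909 (cons (mv 1102 (cons (fin 845 4 845)
(fin 1166 4 909)))
(cons (mv 844 (cons (fin 908 7 844)
(mv 845 (cons (fin 780 7 780)
(mv 846 (cons (fin 782 6 781)
(fin 910 6 845)))))))
(mv 908 (cons (fin 844 7 844)
(mv 1102 (cons (fin 1166 4 909)
(mv 910 (cons (fin 846 6 845)
(mv 907 (cons (mv 974 (cons (fin 906 0 906)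
(fin 975 0 907)))
(cons (mv 842 (cons (fin 843 3 842)
(mv 906 (cons (fin 841 3 841)
(mv 970 (cons (fin 969 1 905)
(fin 971 1 906)))))))
(mv 970 (cons (fin 971 1 906)
(mv 975 (cons (fin 974 0 907)
(mv 842 (cons (fin 843 3 842)
(mv 911 (cons (fin 847 5 846)
(mv 1168 (cons (fin 1232 7 975)
(fin 1103 4 911)))))))))))))))))))))))))))))
(mv 1038 (cons (fin 1100 1 1036)
(mv 973 (cons (fin 972 3 972)
(mv 1104 (cons (fin 1105 0 1037)
(mv 1165 (cons (mv 974 (cons (fin 910 6 909)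
(fin 1229 6 973)))
(cons (mv 1228 (cons (fin 1164 5 972)
(mv 1229 (cons (fin 1292 5 1036)
(mv 1293 (cons (fin 1102 6 1037)
(mv 1294 (cons (fin 1230 4 1037)
(fin 1358 4 1101)))))))))
(mv 1164 (cons (fin 1228 5 972)
(mv 1102 (cons (fin 1103 1 1100)
(mv 910 (cons (fin 974 5 909)
(mv 909 (cons (fin 846 6 845)
(fin 845 4 845))))))))))))))))))))))))
(cons (mv 1038 (cons (cons (mv 972 (cons (fin 973 3 972)
(mv 1104 (cons (fin 1105 0 1037)
(mv 976 (cons (fin 977 2 973)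
(mv 1100 (cons (fin 1101 1 1036)
(mv 1168 (cons (mv 975 (cons (fin 911 7 911)
(fin 1232 7 975)))
(cons (mv 1169 (cons (fin 1233 4 976)
(mv 1167 (cons (fin 1231 5 975)
(mv 912 (cons (fin 1103 5 911)
(mv 849 (cons (fin 913 6 848)
(mv 848 (cons (fin 785 6 784)
(mv 847 (cons (fin 783 7 783)
(fin 911 7 847)))))))))))))
(mv 1167 (cons (fin 1231 5 975)
(mv 912 (cons (fin 1103 5 911)
(mv 849 (cons (fin 913 6 848)
(mv 785 (cons (fin 848 6 784)
(mv 1232 (cons (fin 975 7 975)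
(mv 1233 (cons (fin 1169 4 976)
(fin 1297 4 1040))))))))))))))))))))))))
(mv 1101 (cons (fin 1100 1 1036)
(mv 973 (cons (fin 972 3 972)
(mv 976 (cons (fin 977 2 973)
(mv 909 (cons (mv 1102 (cons (fin 845 4 845)
(fin 1166 4 909)))
(cons (mv 844 (cons (fin 908 7 844)
(mv 845 (cons (fin 780 7 780)
(mv 782 (cons (fin 846 6 781)
(mv 781 (cons (fin 718 6 717)
(fin 974 4 781)))))))))
(mv 844 (cons (fin 908 7 844)
(mv 1166 (cons (fin 1102 4 909)
(mv 1165 (cons (fin 1230 4 973)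
(mv 1229 (cons (fin 974 6 973)
(mv 1228 (cons (fin 1164 5 972)
(fin 1292 5 1036)))))))))))))))))))))
(cons (mv 973 (cons (fin 972 3 972)
(mv 1101 (cons (fin 1100 1 1036)
(mv 1104 (cons (fin 1105 0 1037)
(mv 1165 (cons (cons (mv 1164 (cons (fin 1228 5 972)
(mv 1102 (cons (fin 1103 1 1100)
(mv 1229 (cons (fin 974 6 973)
(fin 1293 6 1037)))))))
(mv 1166 (cons (fin 1230 4 973)
(mv 909 (cons (fin 1102 4 909)
(mv 844 (cons (fin 908 7 844)
(mv 780 (cons (fin 845 7 780)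
(mv 1164 (cons (fin 1228 5 972)
(mv 1167 (cons (fin 1103 2 1100)
(mv 1232 (cons (fin 1231 0 1164)
(mv 1168 (cons (fin 1233 0 1165)
(fin 975 7 975))))))))))))))))))
(cons (mv 974 (cons (fin 1229 6 973)
(mv 1166 (cons (fin 1230 4 973)
(mv 909 (cons (fin 1102 7 909)
(mv 845 (cons (fin 781 4 781)
(mv 844 (cons (fin 780 7 780)
(fin 908 7 844)))))))))))
(mv 1166 (cons (fin 1230 4 973)
(mv 1164 (cons (fin 1228 5 972)
(mv 1167 (cons (fin 1103 2 1100)
(mv 974 (cons (fin 1229 6 973)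
(mv 1232 (cons (fin 1231 0 1164)
(mv 1168 (cons (fin 1233 0 1165)
(fin 975 7 975))))))))))))))))))))))
(cons (mv 1100 (cons (fin 1101 1 1036)
(mv 976 (cons (fin 977 2 973)
(mv 1104 (cons (fin 1105 0 1037)
(mv 1168 (cons (mv 975 (cons (fin 911 7 911)
(fin 1232 7 975)))
(cons (mv 1169 (cons (fin 1233 4 976)
(mv 1167 (cons (fin 1231 5 975)
(mv 912 (cons (fin 1103 5 911)
(mv 849 (cons (fin 913 6 848)
(mv 848 (cons (fin 785 6 784)
(mv 847 (cons (fin 783 7 783)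
(fin 911 7 847)))))))))))))
(mv 1167 (cons (fin 1231 5 975)
(mv 912 (cons (fin 1103 5 911)
(mv 849 (cons (fin 913 6 848)
(mv 785 (cons (fin 848 6 784)
(mv 1232 (cons (fin 975 7 975)
(mv 1233 (cons (fin 1169 4 976)
(fin 1297 4 1040))))))))))))))))))))))
(mv 976 (cons (fin 977 2 973)
(mv 972 (cons (fin 973 3 972)
(mv 1104 (cons (fin 1105 0 1037)
(mv 1168 (cons (mv 975 (cons (fin 911 7 911)
(fin 1232 7 975)))
(cons (mv 1169 (cons (fin 1233 4 976)
(mv 1167 (cons (fin 1231 5 975)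
(mv 912 (cons (fin 1103 5 911)
(mv 849 (cons (fin 913 6 848)
(mv 848 (cons (fin 785 6 784)
(mv 847 (cons (fin 783 7 783)
(fin 911 7 847)))))))))))))
(mv 1167 (cons (fin 1231 5 975)
(mv 912 (cons (fin 1103 5 911)
(mv 849 (cons (fin 913 6 848)
(mv 785 (cons (fin 848 6 784)
(mv 1232 (cons (fin 975 7 975)
(mv 1233 (cons (fin 1169 4 976)
(fin 1297 4 1040))))))))))))))))))))))))))
(cons (mv 1038 (cons (cons (mv 972 (cons (fin 973 3 972)
(mv 1104 (cons (fin 1105 0 1037)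
(mv 976 (cons (fin 977 2 973)
(mv 1100 (cons (fin 1101 1 1036)
(mv 912 (cons (mv 1103 (cons (fin 848 5 847)
(fin 1167 5 911)))
(cons (mv 849 (cons (fin 913 6 848)
(mv 848 (cons (fin 785 6 784)
(mv 784 (cons (fin 975 5 783)
(mv 783 (cons (fin 719 7 719)
(fin 847 7 783)))))))))
(mv 849 (cons (fin 913 6 848)
(mv 1167 (cons (fin 1103 5 911)
(mv 1168 (cons (fin 1231 5 975)
(mv 1232 (cons (fin 975 7 975)
(mv 1233 (cons (fin 1169 4 976)
(fin 1297 4 1040))))))))))))))))))))))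
(cons (mv 976 (cons (fin 977 2 973)
(mv 1104 (cons (fin 1105 0 1037)
(mv 972 (cons (fin 973 3 972)
(mv 912 (cons (mv 1103 (cons (fin 848 5 847)
(fin 1167 5 911)))
(cons (mv 849 (cons (fin 913 6 848)
(mv 848 (cons (fin 785 6 784)
(mv 784 (cons (fin 975 5 783)
(mv 783 (cons (fin 719 7 719)
(fin 847 7 783)))))))))
(mv 849 (cons (fin 913 6 848)
(mv 1167 (cons (fin 1103 5 911)
(mv 1168 (cons (fin 1231 5 975)
(mv 1232 (cons (fin 975 7 975)
(mv 1233 (cons (fin 1169 4 976)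
(fin 1297 4 1040))))))))))))))))))))
(mv 1104 (cons (fin 1105 0 1037)
(mv 976 (cons (fin 977 2 973)
(mv 1100 (cons (fin 1101 1 1036)
(mv 912 (cons (mv 1103 (cons (fin 848 5 847)
(fin 1167 5 911)))
(cons (mv 849 (cons (fin 913 6 848)
(mv 848 (cons (fin 785 6 784)
(mv 784 (cons (fin 975 5 783)
(mv 783 (cons (fin 719 7 719)
(fin 847 7 783)))))))))
(mv 849 (cons (fin 913 6 848)
(mv 1167 (cons (fin 1103 5 911)
(mv 1168 (cons (fin 1231 5 975)
(mv 1232 (cons (fin 975 7 975)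
(mv 1233 (cons (fin 1169 4 976)
(fin 1297 4 1040))))))))))))))))))))))
(cons (mv 1101 (cons (fin 1100 1 1036)
(mv 1104 (cons (fin 1105 0 1037)
(mv 973 (cons (fin 972 3 972)
(mv 1165 (cons (mv 974 (cons (fin 910 6 909)
(fin 1229 6 973)))
(mv 1164 (cons (fin 1228 5 972)
(mv 1102 (cons (fin 1103 1 1100)
(mv 909 (cons (fin 845 4 845)
(fin 1166 4 909)))))))))))))))
(cons (mv 976 (cons (fin 977 2 973)
(mv 1101 (cons (fin 1100 1 1036)
(mv 973 (cons (fin 972 3 972)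
(mv 909 (cons (cons (mv 1102 (cons (fin 845 4 845)
(fin 1166 4 909)))
(mv 844 (cons (fin 908 7 844)
(mv 780 (cons (fin 845 7 780)
(mv 910 (cons (fin 846 6 845)
(mv 1165 (cons (fin 974 6 909)
(mv 1228 (cons (fin 1164 5 972)
(mv 1166 (cons (fin 1230 4 973)
(mv 1229 (cons (fin 1292 5 1036)
(mv 1226 (cons (fin 1227 2 1162)
(mv 1167 (cons (fin 1168 1 1164)
(mv 1103 (cons (fin 1231 6 975)
(mv 912 (cons (fin 848 5 847)
(fin 975 6 911))))))))))))))))))))))))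
(cons (mv 846 (cons (fin 910 6 845)
(mv 1166 (cons (fin 1102 4 909)
(mv 844 (cons (fin 908 7 844)
(mv 1165 (cons (fin 1230 4 973)
(mv 1229 (cons (fin 974 6 973)
(mv 1228 (cons (fin 1164 5 972)
(fin 1292 5 1036)))))))))))))
(mv 845 (cons (fin 1102 4 845)
(mv 844 (cons (fin 780 7 780)
(fin 908 7 844))))))))))))))
(mv 976 (cons (fin 977 2 973)
(mv 1104 (cons (fin 1105 0 1037)
(mv 1101 (cons (fin 1100 1 1036)
(mv 972 (cons (fin 973 3 972)
(mv 1168 (cons (cons (mv 975 (cons (fin 1232 7 975)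
(mv 1169 (cons (fin 1233 4 976)
(mv 1167 (cons (fin 1231 5 975)
(mv 1166 (cons (fin 1102 3 1101)
(mv 1229 (cons (fin 1230 1 1165)
(mv 1165 (cons (fin 1228 1 1164)
(fin 974 6 973)))))))))))))
(mv 1167 (cons (fin 1231 5 975)
(mv 1169 (cons (fin 1233 4 976)
(mv 1166 (cons (fin 1102 3 1101)
(mv 1229 (cons (fin 1230 1 1165)
(mv 1165 (cons (fin 1228 1 1164)
(fin 974 6 973))))))))))))
(cons (mv 1233 (cons (fin 1169 4 976)
(mv 1232 (cons (fin 975 7 975)
(fin 1297 4 1040)))))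
(mv 1232 (cons (fin 975 7 975)
(mv 1231 (cons (fin 1167 5 975)
(fin 1295 5 1039))))))))))))))))))))
(mv 1038 (cons (cons (mv 972 (cons (fin 973 3 972)
(mv 1104 (cons (fin 1105 0 1037)
(mv 976 (cons (fin 977 2 973)
(mv 1101 (cons (fin 1100 1 1036)
(mv 1168 (cons (mv 975 (cons (fin 911 7 911)
(fin 1232 7 975)))
(mv 1169 (cons (fin 1233 4 976)
(mv 1102 (cons (fin 1103 0 1101)
(mv 1167 (cons (fin 1166 3 1101)
(fin 1231 5 975)))))))))))))))))
(cons (mv 973 (cons (fin 972 3 972)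
(mv 976 (cons (fin 977 2 973)
(mv 1104 (cons (fin 1105 0 1037)
(mv 1168 (cons (mv 975 (cons (fin 911 7 911)
(fin 1232 7 975)))
(cons (mv 1233 (cons (fin 1169 4 976)
(mv 1167 (cons (fin 1231 5 975)
(mv 1232 (cons (fin 1297 4 1040)
(mv 1103 (cons (fin 1296 7 1039)
(mv 1166 (cons (fin 1165 0 1165)
(mv 1234 (cons (fin 1235 3 1167)
(mv 1102 (cons (fin 1230 7 973)
(mv 974 (cons (fin 909 7 909)
(fin 910 4 910)))))))))))))))))
(mv 1169 (cons (fin 1233 4 976)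
(mv 911 (cons (fin 975 7 911)
(mv 1167 (cons (fin 1231 5 975)
(mv 1170 (cons (mv 1103 (cons (fin 1102 3 1102)
(fin 1171 3 1103)))
(cons (mv 1235 (cons (fin 1234 0 1167)
(mv 1107 (cons (fin 1106 2 1103)
(mv 1171 (cons (fin 1108 2 1104)
(fin 1236 0 1168)))))))
(mv 1234 (cons (fin 1235 0 1167)
(mv 1102 (cons (fin 1103 3 1102)
(mv 1106 (cons (fin 1107 2 1103)
(mv 909 (cons (fin 845 4 845)
(mv 1166 (cons (fin 974 7 909)
(fin 1230 7 973)))))))))))))))))))))))))))))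
(mv 976 (cons (fin 977 2 973)
(mv 1101 (cons (fin 1100 1 1036)
(mv 1104 (cons (fin 1105 0 1037)
(mv 1168 (cons (mv 975 (cons (fin 911 7 911)
(fin 1232 7 975)))
(mv 1169 (cons (fin 1233 4 976)
(mv 1102 (cons (fin 1103 0 1101)
(mv 1167 (cons (fin 1166 3 1101)
(fin 1231 5 975)))))))))))))))))
(cons (cons (mv 1101 (cons (fin 1100 1 1036)
(mv 976 (cons (fin 977 2 973)
(mv 973 (cons (fin 972 3 972)
(mv 909 (cons (cons (mv 1102 (cons (fin 845 4 845)
(fin 1166 4 909)))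
(mv 844 (cons (fin 908 7 844)
(mv 780 (cons (fin 845 7 780)
(mv 910 (cons (fin 846 6 845)
(mv 1165 (cons (fin 974 6 909)
(mv 1228 (cons (fin 1164 5 972)
(mv 1230 (cons (fin 1166 4 973)
(mv 1229 (cons (fin 1292 5 1036)
(fin 1294 4 1037))))))))))))))))
(cons (mv 846 (cons (fin 910 6 845)
(mv 1166 (cons (fin 1102 4 909)
(mv 844 (cons (fin 908 7 844)
(mv 1165 (cons (fin 1230 4 973)
(mv 1229 (cons (fin 974 6 973)
(mv 1228 (cons (fin 1164 5 972)
(fin 1292 5 1036)))))))))))))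
(mv 845 (cons (fin 1102 4 845)
(mv 844 (cons (fin 780 7 780)
(fin 908 7 844))))))))))))))
(mv 1104 (cons (fin 1105 0 1037)
(mv 1101 (cons (fin 1100 1 1036)
(mv 973 (cons (fin 972 3 972)
(mv 1165 (cons (mv 974 (cons (fin 910 6 909)
(fin 1229 6 973)))
(mv 1164 (cons (fin 1228 5 972)
(mv 1102 (cons (fin 1103 1 1100)
(mv 909 (cons (fin 845 4 845)
(fin 1166 4 909))))))))))))))))
(cons (mv 1104 (cons (fin 1105 0 1037)
(mv 976 (cons (fin 977 2 973)
(mv 1101 (cons (fin 1100 1 1036)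
(mv 973 (cons (fin 972 3 972)
(mv 1168 (cons (mv 975 (cons (fin 911 7 911)
(fin 1232 7 975)))
(cons (mv 1169 (cons (fin 1233 4 976)
(mv 1231 (cons (fin 1167 5 975)
(mv 1232 (cons (fin 1295 5 1039)
(mv 1103 (cons (fin 1296 7 1039)
(mv 1170 (cons (fin 1171 3 1103)
(mv 1229 (cons (fin 1230 2 1165)
(mv 1165 (cons (fin 974 6 973)
(mv 1228 (cons (fin 1164 5 972)
(fin 1292 5 1036)))))))))))))))))
(mv 1169 (cons (fin 1233 4 976)
(mv 911 (cons (fin 975 7 911)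
(mv 1167 (cons (fin 1231 5 975)
(mv 1165 (cons (mv 974 (cons (fin 910 6 909)
(fin 1229 6 973)))
(mv 1164 (cons (fin 1228 5 972)
(mv 1166 (cons (fin 1103 2 1100)
(fin 1230 4 973))))))))))))))))))))))))
(mv 976 (cons (fin 977 2 973)
(mv 1104 (cons (fin 1105 0 1037)
(mv 1100 (cons (fin 1101 1 1036)
(mv 973 (cons (fin 972 3 972)
(mv 909 (cons (cons (mv 845 (cons (fin 1102 4 845)
(mv 781 (cons (fin 974 4 781)
(mv 782 (cons (fin 718 6 717)
(fin 846 6 781)))))))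
(mv 975 (cons (mv 1168 (cons (fin 911 7 911)
(fin 1232 7 975)))
(cons (mv 1168 (cons (fin 1232 7 975)
(mv 1167 (cons (fin 1231 5 975)
(mv 1169 (cons (fin 1233 4 976)
(mv 974 (cons (fin 908 3 908)
(mv 1103 (cons (fin 910 7 910)
(mv 1170 (cons (fin 1102 3 1102)
(fin 1171 3 1103)))))))))))))
(mv 908 (cons (fin 974 3 908)
(mv 911 (cons (fin 910 0 908)
(fin 847 4 847)))))))))
(cons (mv 974 (cons (cons (mv 908 (cons (fin 975 3 908)
(mv 845 (cons (fin 781 4 781)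
(mv 906 (cons (fin 907 0 906)
(mv 780 (cons (fin 844 7 780)
(mv 846 (cons (fin 782 6 781)
(mv 910 (cons (fin 1103 4 846)
(mv 847 (cons (fin 848 1 844)
(fin 783 6 782)))))))))))))))
(mv 845 (cons (fin 781 4 781)
(mv 846 (cons (fin 782 6 781)
(mv 780 (cons (fin 844 7 780)
(mv 910 (cons (fin 1103 4 846)
(mv 847 (cons (fin 783 6 782)
(mv 908 (cons (fin 848 1 844)
(fin 907 2 843))))))))))))))
(cons (mv 975 (cons (fin 908 3 908)
(mv 1168 (cons (fin 911 7 911)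
(fin 1232 7 975)))))
(mv 845 (cons (fin 781 4 781)
(mv 846 (cons (fin 782 6 781)
(mv 844 (cons (fin 780 7 780)
(mv 910 (cons (fin 1103 4 846)
(mv 843 (cons (fin 842 0 842)
(fin 911 0 843))))))))))))))
(mv 845 (cons (fin 1102 4 845)
(mv 782 (cons (fin 846 6 781)
(mv 781 (cons (fin 718 6 717)
(mv 780 (cons (fin 716 7 716)
(fin 844 7 780))))))))))))))))))))))))))))
(cons (cons (cons (mv 1104 (cons (cons (cons (mv 1038 (cons (fin 1105 0 1037)
(mv 976 (cons (fin 977 2 973)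
(mv 1100 (cons (fin 1101 1 1036)
(mv 912 (cons (mv 1103 (cons (fin 848 5 847)
(fin 1167 5 911)))
(cons (mv 847 (cons (fin 911 7 847)
(mv 848 (cons (fin 783 7 783)
(mv 849 (cons (fin 785 6 784)
(fin 913 6 848)))))))
(mv 849 (cons (fin 913 6 848)
(mv 1103 (cons (fin 1167 5 911)
(mv 911 (cons (fin 847 7 847)
(mv 975 (cons (fin 1168 7 911)
(mv 910 (cons (fin 846 7 846)
(mv 1102 (cons (fin 1166 5 910)
(mv 909 (cons (fin 908 0 908)
(mv 845 (cons (fin 844 3 844)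
(fin 974 7 845))))))))))))))))))))))))))
(mv 1168 (cons (cons (mv 975 (cons (fin 1232 7 975)
(mv 911 (cons (fin 976 7 911)
(fin 847 4 847)))))
(mv 976 (cons (mv 911 (cons (fin 975 7 911)
(mv 912 (cons (fin 847 7 847)
(mv 1103 (cons (fin 848 5 847)
(fin 1167 5 911)))))))
(cons (mv 1169 (cons (fin 1233 4 976)
(mv 912 (cons (fin 1105 4 912)
(mv 913 (cons (fin 849 6 848)
(fin 977 6 912)))))))
(mv 977 (cons (fin 913 6 912)
(mv 1167 (cons (fin 1231 5 975)
(mv 978 (cons (fin 979 1 975)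
(mv 1169 (cons (fin 1233 4 976)
(mv 975 (cons (fin 911 7 911)
(mv 1042 (cons (fin 1043 0 975)
(mv 914 (cons (fin 915 2 911)
(mv 1105 (cons (fin 1106 5 913)
(mv 1166 (cons (fin 1165 2 1101)
(mv 1230 (cons (fin 1229 1 1165)
(fin 1103 5 974)))))))))))))))))))))))))
(cons (mv 976 (cons (cons (mv 1167 (cons (fin 1231 5 975)
(mv 912 (cons (fin 1103 5 911)
(mv 1169 (cons (fin 1105 4 912)
(fin 1233 4 976)))))))
(mv 1169 (cons (fin 1233 4 976)
(mv 912 (cons (fin 1105 4 912)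
(mv 913 (cons (fin 849 6 848)
(fin 977 6 912))))))))
(cons (mv 913 (cons (fin 977 6 912)
(mv 849 (cons (fin 912 6 848)
(mv 1231 (cons (fin 1167 5 975)
(mv 1232 (cons (fin 1295 5 1039)
(mv 1296 (cons (fin 1103 7 1039)
(mv 1297 (cons (fin 1233 4 1040)
(fin 1361 4 1104)))))))))))))
(cons (mv 1167 (cons (fin 1231 5 975)
(mv 912 (cons (fin 1103 5 911)
(mv 913 (cons (fin 849 6 848)
(fin 977 6 912)))))))
(mv 1231 (cons (fin 1167 5 975)
(mv 1169 (cons (fin 1233 4 976)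
(mv 1232 (cons (fin 1295 5 1039)
(mv 1103 (cons (fin 1296 7 1039)
(mv 1102 (cons (fin 1101 0 1101)
(mv 1170 (cons (fin 1171 3 1103)
(fin 1105 0 1102)))))))))))))))))
(mv 975 (cons (fin 1232 7 975)
(mv 911 (cons (fin 847 4 847)
(fin 1103 4 911)))))))))
(cons (mv 975 (cons (cons (mv 1168 (cons (fin 1232 7 975)
(mv 911 (cons (fin 976 7 911)
(fin 847 4 847)))))
(mv 1168 (cons (fin 1232 7 975)
(mv 976 (cons (mv 977 (cons (fin 1038 2 973)
(fin 913 6 912)))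
(cons (mv 1169 (cons (fin 1233 4 976)
(mv 1167 (cons (fin 1231 5 975)
(mv 912 (cons (fin 1103 5 911)
(mv 848 (cons (fin 784 5 783)
(mv 849 (cons (fin 785 6 784)
(fin 913 6 848)))))))))))
(mv 1167 (cons (fin 1231 5 975)
(mv 912 (cons (fin 1103 5 911)
(mv 784 (cons (fin 848 5 783)
(mv 1038 (cons (fin 977 2 973)
(mv 1169 (cons (fin 1233 4 976)
(mv 1101 (cons (fin 1100 1 1036)
(mv 1166 (cons (fin 1102 3 1101)
(mv 1229 (cons (fin 1230 1 1165)
(mv 1165 (cons (fin 1228 1 1164)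
(fin 974 6 973)))))))))))))))))))))))))
(cons (mv 911 (cons (fin 847 4 847)
(mv 1103 (cons (cons (mv 846 (cons (fin 910 7 846)
(mv 848 (cons (fin 912 6 847)
(mv 1166 (cons (fin 1102 5 910)
(mv 1167 (cons (fin 1230 5 974)
(mv 1231 (cons (fin 976 6 975)
(fin 1295 6 1039)))))))))))
(cons (mv 1102 (cons (fin 1166 5 910)
(mv 1100 (cons (fin 1101 2 1036)
(mv 910 (cons (fin 846 7 846)
(mv 1167 (cons (fin 974 7 910)
(mv 1231 (cons (fin 976 6 975)
(fin 1295 6 1039)))))))))))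
(mv 848 (cons (fin 912 6 847)
(mv 1166 (cons (fin 1102 5 910)
(mv 1167 (cons (fin 1230 5 974)
(mv 1231 (cons (fin 976 6 975)
(fin 1295 6 1039)))))))))))
(cons (mv 846 (cons (fin 910 7 846)
(mv 912 (cons (fin 848 6 847)
(mv 976 (cons (fin 1167 5 911)
(mv 977 (cons (fin 1038 2 973)
(mv 978 (cons (fin 979 3 911)
(mv 913 (cons (fin 849 6 848)
(mv 914 (cons (fin 974 1 910)
(fin 915 1 911)))))))))))))))
(cons (mv 912 (cons (fin 848 6 847)
(mv 1102 (cons (fin 1166 5 910)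
(mv 1101 (cons (fin 1100 2 1036)
(mv 910 (cons (fin 846 7 846)
(mv 1165 (cons (fin 1164 1 1100)
(mv 974 (cons (fin 1038 5 909)
(mv 913 (cons (fin 914 1 910)
(mv 849 (cons (fin 850 2 846)
(fin 976 6 848)))))))))))))))))
(mv 910 (cons (fin 846 7 846)
(mv 848 (cons (fin 912 6 847)
(mv 974 (cons (fin 1167 7 910)
(mv 1102 (cons (fin 1166 5 910)
(mv 1101 (cons (fin 1100 2 1036)
(mv 1165 (cons (fin 1164 1 1100)
(fin 1038 5 909)))))))))))))))))))
(mv 911 (cons (fin 847 4 847)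
(mv 1168 (cons (fin 1232 7 975)
(fin 1103 4 911))))))))
(cons (mv 1038 (cons (fin 1105 0 1037)
(mv 976 (cons (fin 977 2 973)
(mv 1100 (cons (fin 1101 1 1036)
(mv 912 (cons (mv 1103 (cons (fin 848 5 847)
(fin 1167 5 911)))
(cons (mv 847 (cons (fin 911 7 847)
(mv 848 (cons (fin 783 7 783)
(mv 849 (cons (fin 785 6 784)
(fin 913 6 848)))))))
(mv 849 (cons (fin 913 6 848)
(mv 847 (cons (fin 911 7 847)
(mv 1168 (cons (cons (mv 1167 (cons (fin 1103 5 911)
(fin 1231 5 975)))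
(mv 1233 (cons (fin 1169 4 976)
(mv 1232 (cons (fin 1297 4 1040)
(mv 1295 (cons (fin 1231 5 1039)
(mv 1296 (cons (fin 1103 7 1039)
(fin 1359 5 1103))))))))))
(cons (mv 1233 (cons (fin 1169 4 976)
(mv 1231 (cons (fin 1167 5 975)
(mv 1232 (cons (fin 1295 5 1039)
(fin 1297 4 1040)))))))
(mv 1233 (cons (fin 1169 4 976)
(mv 1103 (cons (fin 1167 5 911)
(mv 1232 (cons (fin 1296 7 1039)
(fin 1297 4 1040)))))))))))))))))))))))
(mv 1105 (cons (fin 1038 0 1037)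
(mv 1106 (cons (fin 1107 3 1039)
(mv 1103 (cons (cons (mv 1166 (cons (fin 1167 1 1102)
(mv 1102 (cons (fin 1165 1 1101)
(mv 1170 (cons (fin 1169 0 1102)
(fin 1171 0 1103)))))))
(cons (mv 1170 (cons (fin 1171 0 1103)
(mv 1102 (cons (fin 1169 0 1102)
(mv 1101 (cons (fin 1100 2 1036)
(mv 1165 (cons (fin 1164 1 1100)
(fin 1166 1 1101)))))))))
(mv 1042 (cons (fin 1043 2 1039)
(mv 1170 (cons (fin 1171 0 1103)
(mv 1169 (cons (fin 1102 0 1102)
(mv 978 (cons (fin 914 5 913)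
(fin 1233 5 977)))))))))))
(cons (mv 1166 (cons (fin 1167 1 1102)
(mv 1102 (cons (fin 1165 1 1101)
(mv 1042 (cons (fin 1043 2 1039)
(mv 1230 (cons (fin 1294 6 1038)
(mv 975 (cons (fin 911 5 910)
(mv 1101 (cons (fin 1100 2 1036)
(mv 1168 (cons (fin 1169 0 1101)
(fin 1232 7 975)))))))))))))))
(cons (mv 1042 (cons (fin 1043 2 1039)
(mv 1170 (cons (fin 1171 0 1103)
(mv 1167 (cons (fin 1166 1 1102)
(mv 1231 (cons (fin 1295 6 1039)
(mv 1230 (cons (fin 1294 5 1038)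
(mv 1168 (cons (fin 1169 1 1166)
(mv 1232 (cons (fin 975 7 975)
(fin 1296 7 1039)))))))))))))))
(mv 1167 (cons (fin 1166 1 1102)
(mv 1042 (cons (fin 1043 2 1039)
(mv 1231 (cons (fin 1295 6 1039)
(mv 1230 (cons (fin 1294 5 1038)
(mv 1232 (cons (fin 1296 4 1039)
(mv 975 (cons (fin 1168 7 975)
(mv 911 (cons (fin 847 4 847)
(mv 910 (cons (fin 846 7 846)
(fin 974 7 910))))))))))))))))))))))))))))
(cons (cons (mv 1038 (cons (fin 1105 0 1037)
(mv 976 (cons (fin 977 2 973)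
(mv 1101 (cons (fin 1100 1 1036)
(mv 912 (cons (mv 1103 (cons (fin 848 5 847)
(fin 1167 5 911)))
(cons (mv 847 (cons (fin 911 7 847)
(mv 848 (cons (fin 783 7 783)
(mv 849 (cons (fin 785 6 784)
(fin 913 6 848)))))))
(mv 911 (cons (fin 847 7 847)
(mv 913 (cons (fin 849 6 848)
(mv 1103 (cons (fin 1167 5 911)
(mv 914 (cons (mv 975 (cons (fin 974 1 910)
(fin 915 1 911)))
(cons (mv 979 (cons (fin 978 0 911)
(mv 851 (cons (fin 850 2 847)
(mv 915 (cons (fin 852 2 848)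
(fin 980 0 912)))))))
(mv 978 (cons (fin 979 0 911)
(mv 974 (cons (fin 975 1 910)
(mv 850 (cons (fin 851 2 847)
(mv 910 (cons (fin 846 5 845)
(mv 1165 (cons (fin 1102 5 909)
(fin 1229 6 973)))))))))))))))))))))))))))))
(cons (mv 1038 (cons (fin 1105 0 1037)
(mv 976 (cons (fin 977 2 973)
(mv 1100 (cons (fin 1101 1 1036)
(mv 912 (cons (mv 1103 (cons (fin 848 5 847)
(fin 1167 5 911)))
(cons (mv 849 (cons (fin 913 6 848)
(mv 848 (cons (fin 785 6 784)
(mv 784 (cons (fin 975 5 783)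
(mv 783 (cons (fin 719 7 719)
(fin 847 7 783)))))))))
(mv 849 (cons (fin 913 6 848)
(mv 1167 (cons (fin 1103 5 911)
(mv 1168 (cons (fin 1231 5 975)
(mv 1232 (cons (fin 975 7 975)
(mv 1233 (cons (fin 1169 4 976)
(fin 1297 4 1040))))))))))))))))))))
(mv 1038 (cons (fin 1105 0 1037)
(mv 976 (cons (fin 977 2 973)
(mv 912 (cons (mv 1103 (cons (fin 848 5 847)
(fin 1167 5 911)))
(cons (mv 847 (cons (fin 911 7 847)
(mv 848 (cons (fin 783 7 783)
(mv 849 (cons (fin 785 6 784)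
(fin 913 6 848)))))))
(mv 849 (cons (fin 913 6 848)
(mv 1103 (cons (fin 1167 5 911)
(mv 911 (cons (fin 847 7 847)
(mv 975 (cons (fin 1168 7 911)
(mv 910 (cons (fin 846 7 846)
(mv 1102 (cons (fin 1166 5 910)
(mv 909 (cons (fin 908 0 908)
(mv 845 (cons (fin 844 3 844)
(fin 974 7 845))))))))))))))))))))))))))
(cons (mv 1038 (cons (fin 1105 0 1037)
(mv 976 (cons (fin 977 2 973)
(mv 1100 (cons (fin 1101 1 1036)
(mv 1168 (cons (mv 975 (cons (fin 911 7 911)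
(fin 1232 7 975)))
(mv 1169 (cons (fin 1233 4 976)
(mv 1167 (cons (fin 1231 5 975)
(mv 1103 (cons (fin 912 5 911)
(mv 1170 (cons (fin 1102 3 1102)
(fin 1171 3 1103)))))))))))))))))
(cons (mv 1038 (cons (fin 1105 0 1037)
(mv 976 (cons (fin 977 2 973)
(mv 1100 (cons (fin 1101 1 1036)
(mv 1168 (cons (mv 975 (cons (fin 911 7 911)
(fin 1232 7 975)))
(cons (mv 1233 (cons (fin 1169 4 976)
(mv 1231 (cons (fin 1167 5 975)
(mv 1232 (cons (fin 1295 5 1039)
(fin 1297 4 1040)))))))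
(mv 1167 (cons (fin 1231 5 975)
(mv 1169 (cons (fin 1233 4 976)
(mv 912 (cons (cons (mv 911 (cons (fin 847 7 847)
(fin 975 7 911)))
(mv 849 (cons (fin 913 6 848)
(mv 848 (cons (fin 785 6 784)
(mv 784 (cons (fin 975 5 783)
(mv 783 (cons (fin 719 7 719)
(fin 847 7 783))))))))))
(cons (mv 849 (cons (fin 913 6 848)
(mv 848 (cons (fin 785 6 784)
(mv 847 (cons (fin 783 7 783)
(fin 911 7 847)))))))
(mv 975 (cons (fin 911 7 911)
(mv 849 (cons (fin 913 6 848)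
(mv 848 (cons (fin 784 5 783)
(fin 785 6 784)))))))))))))))))))))))
(mv 1038 (cons (fin 1105 0 1037)
(mv 976 (cons (fin 977 2 973)
(mv 1100 (cons (fin 1101 1 1036)
(mv 1168 (cons (mv 975 (cons (fin 911 7 911)
(fin 1232 7 975)))
(cons (mv 1233 (cons (fin 1169 4 976)
(mv 1232 (cons (fin 1297 4 1040)
(mv 1295 (cons (fin 1231 5 1039)
(mv 1296 (cons (fin 1103 7 1039)
(fin 1359 5 1103)))))))))
(mv 1169 (cons (fin 1233 4 976)
(mv 911 (cons (fin 975 7 911)
(mv 912 (cons (fin 847 7 847)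
(mv 848 (cons (fin 1103 5 847)
(mv 849 (cons (fin 785 6 784)
(fin 913 6 848)))))))))))))))))))))))))
(mv 1038 (cons (cons (cons (mv 1100 (cons (fin 1101 1 1036)
(mv 1104 (cons (fin 1105 0 1037)
(mv 972 (cons (fin 973 3 972)
(mv 976 (cons (fin 977 2 973)
(mv 1168 (cons (mv 975 (cons (fin 911 7 911)
(fin 1232 7 975)))
(cons (mv 1169 (cons (fin 1233 4 976)
(mv 1167 (cons (fin 1231 5 975)
(mv 912 (cons (fin 1103 5 911)
(mv 849 (cons (fin 913 6 848)
(mv 848 (cons (fin 785 6 784)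
(mv 847 (cons (fin 783 7 783)
(fin 911 7 847)))))))))))))
(mv 1167 (cons (fin 1231 5 975)
(mv 912 (cons (fin 1103 5 911)
(mv 849 (cons (fin 913 6 848)
(mv 785 (cons (fin 848 6 784)
(mv 1232 (cons (fin 975 7 975)
(mv 1233 (cons (fin 1169 4 976)
(fin 1297 4 1040))))))))))))))))))))))))
(mv 973 (cons (fin 972 3 972)
(mv 976 (cons (fin 977 2 973)
(mv 1101 (cons (fin 1100 1 1036)
(mv 909 (cons (mv 1102 (cons (fin 845 4 845)
(fin 1166 4 909)))
(cons (mv 844 (cons (fin 908 7 844)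
(mv 845 (cons (fin 780 7 780)
(mv 846 (cons (fin 782 6 781)
(fin 910 6 845)))))))
(mv 846 (cons (fin 910 6 845)
(mv 1166 (cons (fin 1102 4 909)
(mv 844 (cons (fin 908 7 844)
(mv 1165 (cons (fin 1230 4 973)
(mv 1228 (cons (fin 1164 5 972)
(mv 1229 (cons (fin 1292 5 1036)
(mv 1226 (cons (fin 1227 2 1162)
(mv 1167 (cons (fin 1168 1 1164)
(mv 1103 (cons (fin 1231 6 975)
(mv 912 (cons (fin 848 5 847)
(fin 975 6 911)))))))))))))))))))))))))))))))
(cons (mv 1104 (cons (fin 1105 0 1037)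
(mv 973 (cons (fin 972 3 972)
(mv 1101 (cons (fin 1100 1 1036)
(mv 909 (cons (mv 1102 (cons (fin 845 4 845)
(fin 1166 4 909)))
(cons (mv 844 (cons (fin 908 7 844)
(mv 845 (cons (fin 780 7 780)
(mv 846 (cons (fin 782 6 781)
(fin 910 6 845)))))))
(mv 846 (cons (fin 910 6 845)
(mv 1166 (cons (fin 1102 4 909)
(mv 844 (cons (fin 908 7 844)
(mv 1165 (cons (fin 1230 4 973)
(mv 1164 (cons (fin 1228 5 972)
(mv 1167 (cons (fin 1103 2 1100)
(mv 1232 (cons (fin 1231 0 1164)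
(mv 1168 (cons (fin 1233 0 1165)
(fin 975 7 975))))))))))))))))))))))))))
(mv 972 (cons (fin 973 3 972)
(mv 1104 (cons (fin 1105 0 1037)
(mv 976 (cons (fin 977 2 973)
(mv 1168 (cons (mv 975 (cons (fin 911 7 911)
(fin 1232 7 975)))
(cons (mv 1169 (cons (fin 1233 4 976)
(mv 1167 (cons (fin 1231 5 975)
(mv 912 (cons (fin 1103 5 911)
(mv 849 (cons (fin 913 6 848)
(mv 848 (cons (fin 785 6 784)
(mv 847 (cons (fin 783 7 783)
(fin 911 7 847)))))))))))))
(mv 1167 (cons (fin 1231 5 975)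
(mv 912 (cons (fin 1103 5 911)
(mv 849 (cons (fin 913 6 848)
(mv 785 (cons (fin 848 6 784)
(mv 1232 (cons (fin 975 7 975)
(mv 1233 (cons (fin 1169 4 976)
(fin 1297 4 1040))))))))))))))))))))))))
(cons (cons (mv 1104 (cons (fin 1105 0 1037)
(mv 1100 (cons (fin 1101 1 1036)
(mv 976 (cons (fin 977 2 973)
(mv 1168 (cons (mv 975 (cons (fin 911 7 911)
(fin 1232 7 975)))
(cons (mv 1169 (cons (fin 1233 4 976)
(mv 1167 (cons (fin 1231 5 975)
(mv 912 (cons (fin 1103 5 911)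
(mv 849 (cons (fin 913 6 848)
(mv 848 (cons (fin 785 6 784)
(mv 847 (cons (fin 783 7 783)
(fin 911 7 847)))))))))))))
(mv 1167 (cons (fin 1231 5 975)
(mv 912 (cons (fin 1103 5 911)
(mv 849 (cons (fin 913 6 848)
(mv 785 (cons (fin 848 6 784)
(mv 1232 (cons (fin 975 7 975)
(mv 1233 (cons (fin 1169 4 976)
(fin 1297 4 1040))))))))))))))))))))))
(mv 1104 (cons (fin 1105 0 1037)
(mv 972 (cons (fin 973 3 972)
(mv 1100 (cons (fin 1101 1 1036)
(mv 976 (cons (fin 977 2 973)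
(mv 912 (cons (cons (mv 847 (cons (fin 911 7 847)
(mv 848 (cons (fin 783 7 783)
(mv 849 (cons (fin 785 6 784)
(fin 913 6 848)))))))
(mv 849 (cons (fin 913 6 848)
(mv 848 (cons (fin 785 6 784)
(mv 784 (cons (fin 975 5 783)
(mv 783 (cons (fin 719 7 719)
(fin 847 7 783))))))))))
(cons (mv 849 (cons (fin 913 6 848)
(mv 848 (cons (fin 785 6 784)
(mv 975 (cons (fin 784 5 783)
(mv 1168 (cons (fin 911 7 911)
(fin 1232 7 975)))))))))
(mv 911 (cons (fin 847 7 847)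
(mv 1168 (cons (fin 975 7 911)
(mv 1233 (cons (fin 1169 4 976)
(mv 1231 (cons (fin 1167 5 975)
(mv 1232 (cons (fin 1295 5 1039)
(fin 1297 4 1040)))))))))))))))))))))))
(cons (mv 972 (cons (fin 973 3 972)
(mv 1104 (cons (fin 1105 0 1037)
(mv 1100 (cons (fin 1101 1 1036)
(mv 976 (cons (fin 977 2 973)
(mv 1168 (cons (cons (mv 1169 (cons (fin 1233 4 976)
(mv 1167 (cons (fin 1231 5 975)
(mv 912 (cons (fin 1103 5 911)
(mv 849 (cons (fin 913 6 848)
(mv 848 (cons (fin 785 6 784)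
(mv 847 (cons (fin 783 7 783)
(fin 911 7 847)))))))))))))
(mv 1233 (cons (fin 1169 4 976)
(mv 1232 (cons (fin 1297 4 1040)
(mv 1295 (cons (fin 1231 5 1039)
(mv 1296 (cons (fin 1103 7 1039)
(fin 1359 5 1103))))))))))
(cons (mv 1233 (cons (fin 1169 4 976)
(mv 1232 (cons (fin 1297 4 1040)
(mv 1103 (cons (fin 1296 7 1039)
(mv 912 (cons (fin 848 5 847)
(fin 1167 5 911)))))))))
(cons (mv 1167 (cons (fin 1231 5 975)
(mv 912 (cons (fin 1103 5 911)
(mv 849 (cons (fin 913 6 848)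
(mv 848 (cons (fin 785 6 784)
(mv 847 (cons (fin 783 7 783)
(fin 911 7 847)))))))))))
(mv 1233 (cons (fin 1169 4 976)
(mv 1231 (cons (fin 1167 5 975)
(mv 1232 (cons (fin 1295 5 1039)
(fin 1297 4 1040)))))))))))))))))))
(cons (mv 1104 (cons (fin 1105 0 1037)
(mv 972 (cons (fin 973 3 972)
(mv 1100 (cons (fin 1101 1 1036)
(mv 976 (cons (fin 977 2 973)
(mv 1168 (cons (mv 975 (cons (fin 911 7 911)
(fin 1232 7 975)))
(cons (mv 1233 (cons (fin 1169 4 976)
(mv 1232 (cons (fin 1297 4 1040)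
(mv 1295 (cons (fin 1231 5 1039)
(mv 1296 (cons (fin 1103 7 1039)
(fin 1359 5 1103)))))))))
(mv 1169 (cons (fin 1233 4 976)
(mv 911 (cons (fin 975 7 911)
(mv 912 (cons (fin 847 7 847)
(mv 848 (cons (fin 1103 5 847)
(mv 849 (cons (fin 785 6 784)
(fin 913 6 848))))))))))))))))))))))
(mv 973 (cons (fin 972 3 972)
(mv 976 (cons (fin 977 2 973)
(mv 1101 (cons (fin 1100 1 1036)
(mv 1104 (cons (fin 1105 0 1037)
(mv 909 (cons (mv 1102 (cons (fin 845 4 845)
(fin 1166 4 909)))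
(cons (mv 844 (cons (fin 908 7 844)
(mv 845 (cons (fin 780 7 780)
(mv 846 (cons (fin 782 6 781)
(fin 910 6 845)))))))
(mv 910 (cons (fin 846 6 845)
(mv 1102 (cons (fin 1166 4 909)
(mv 908 (cons (fin 844 7 844)
(mv 911 (cons (fin 975 0 908)
(mv 847 (cons (fin 848 2 844)
(fin 912 7 847))))))))))))))))))))))))))))
(cons (mv 1038 (cons (cons (mv 972 (cons (fin 973 3 972)
(mv 1104 (cons (fin 1105 0 1037)
(mv 976 (cons (fin 977 2 973)
(mv 1100 (cons (fin 1101 1 1036)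
(mv 1168 (cons (cons (mv 1167 (cons (fin 1231 5 975)
(mv 912 (cons (fin 1103 5 911)
(mv 849 (cons (fin 913 6 848)
(mv 848 (cons (fin 785 6 784)
(mv 847 (cons (fin 783 7 783)
(fin 911 7 847)))))))))))
(mv 1233 (cons (fin 1169 4 976)
(mv 1232 (cons (fin 1297 4 1040)
(mv 1295 (cons (fin 1231 5 1039)
(mv 1296 (cons (fin 1103 7 1039)
(fin 1359 5 1103))))))))))
(cons (mv 1233 (cons (fin 1169 4 976)
(mv 1232 (cons (fin 1297 4 1040)
(mv 1103 (cons (fin 1296 7 1039)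
(mv 912 (cons (fin 848 5 847)
(fin 1167 5 911)))))))))
(mv 1233 (cons (fin 1169 4 976)
(mv 1231 (cons (fin 1167 5 975)
(mv 1232 (cons (fin 1295 5 1039)
(fin 1297 4 1040))))))))))))))))))
(mv 976 (cons (fin 977 2 973)
(mv 1104 (cons (fin 1105 0 1037)
(mv 972 (cons (fin 973 3 972)
(mv 1168 (cons (cons (mv 1167 (cons (fin 1231 5 975)
(mv 912 (cons (fin 1103 5 911)
(mv 849 (cons (fin 913 6 848)
(mv 848 (cons (fin 785 6 784)
(mv 847 (cons (fin 783 7 783)
(fin 911 7 847)))))))))))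
(mv 1233 (cons (fin 1169 4 976)
(mv 1232 (cons (fin 1297 4 1040)
(mv 1295 (cons (fin 1231 5 1039)
(mv 1296 (cons (fin 1103 7 1039)
(fin 1359 5 1103))))))))))
(cons (mv 1233 (cons (fin 1169 4 976)
(mv 1232 (cons (fin 1297 4 1040)
(mv 1103 (cons (fin 1296 7 1039)
(mv 912 (cons (fin 848 5 847)
(fin 1167 5 911)))))))))
(mv 1233 (cons (fin 1169 4 976)
(mv 1231 (cons (fin 1167 5 975)
(mv 1232 (cons (fin 1295 5 1039)
(fin 1297 4 1040)))))))))))))))))
(cons (mv 1104 (cons (fin 1105 0 1037)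
(mv 976 (cons (fin 977 2 973)
(mv 1100 (cons (fin 1101 1 1036)
(mv 912 (cons (mv 1103 (cons (fin 848 5 847)
(fin 1167 5 911)))
(cons (mv 847 (cons (fin 911 7 847)
(mv 848 (cons (fin 783 7 783)
(mv 849 (cons (fin 785 6 784)
(fin 913 6 848)))))))
(mv 849 (cons (fin 913 6 848)
(mv 847 (cons (fin 911 7 847)
(mv 1168 (cons (cons (mv 1167 (cons (fin 1103 5 911)
(fin 1231 5 975)))
(mv 1233 (cons (fin 1169 4 976)
(mv 1232 (cons (fin 1297 4 1040)
(mv 1295 (cons (fin 1231 5 1039)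
(mv 1296 (cons (fin 1103 7 1039)
(fin 1359 5 1103))))))))))
(cons (mv 1233 (cons (fin 1169 4 976)
(mv 1231 (cons (fin 1167 5 975)
(mv 1232 (cons (fin 1295 5 1039)
(fin 1297 4 1040)))))))
(mv 1233 (cons (fin 1169 4 976)
(mv 1103 (cons (fin 1167 5 911)
(mv 1232 (cons (fin 1296 7 1039)
(fin 1297 4 1040)))))))))))))))))))))))
(cons (mv 1101 (cons (fin 1100 1 1036)
(mv 973 (cons (fin 972 3 972)
(mv 976 (cons (fin 977 2 973)
(mv 1165 (cons (mv 974 (cons (fin 910 6 909)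
(fin 1229 6 973)))
(cons (mv 1164 (cons (fin 1228 5 972)
(mv 1166 (cons (fin 1230 4 973)
(mv 909 (cons (fin 1102 4 909)
(mv 846 (cons (fin 910 6 845)
(mv 845 (cons (fin 782 6 781)
(mv 844 (cons (fin 780 7 780)
(fin 908 7 844)))))))))))))
(mv 1166 (cons (fin 1230 4 973)
(mv 909 (cons (fin 1102 4 909)
(mv 844 (cons (fin 908 7 844)
(mv 780 (cons (fin 845 7 780)
(mv 1229 (cons (fin 974 6 973)
(mv 1228 (cons (fin 1164 5 972)
(fin 1292 5 1036))))))))))))))))))))))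
(mv 973 (cons (fin 972 3 972)
(mv 1101 (cons (fin 1100 1 1036)
(mv 1104 (cons (fin 1105 0 1037)
(mv 1165 (cons (mv 974 (cons (fin 910 6 909)
(fin 1229 6 973)))
(mv 1164 (cons (fin 1228 5 972)
(mv 1102 (cons (fin 1103 1 1100)
(mv 909 (cons (fin 845 4 845)
(fin 1166 4 909)))))))))))))))))))
(cons (mv 912 (cons (cons (cons (mv 976 (cons (cons (mv 848 (cons (fin 1103 5 847)
(mv 784 (cons (fin 975 5 783)
(mv 783 (cons (fin 719 7 719)
(fin 847 7 783)))))))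
(mv 1104 (cons (cons (mv 847 (cons (fin 911 7 847)
(mv 1105 (cons (fin 1169 4 912)
(mv 1106 (cons (fin 1107 3 1039)
(mv 913 (cons (fin 849 6 848)
(mv 1103 (cons (fin 1167 5 911)
(mv 1170 (cons (fin 1171 0 1103)
(mv 977 (cons (fin 1168 6 912)
(mv 1042 (cons (fin 1043 2 1039)
(fin 978 7 913)))))))))))))))))
(cons (mv 847 (cons (fin 911 7 847)
(mv 1105 (cons (fin 1169 4 912)
(mv 1106 (cons (fin 1107 3 1039)
(mv 913 (cons (fin 849 6 848)
(mv 977 (cons (fin 1168 6 912)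
(mv 978 (cons (fin 979 1 975)
(mv 1042 (cons (fin 1170 7 913)
(mv 1043 (cons (fin 1103 2 1039)
(fin 975 0 975)))))))))))))))))
(mv 849 (cons (fin 913 6 848)
(mv 1103 (cons (fin 1167 5 911)
(mv 1169 (cons (fin 1105 4 912)
(mv 1168 (cons (fin 1233 4 976)
(mv 1232 (cons (fin 975 7 975)
(fin 1296 7 1039)))))))))))))
(cons (cons (mv 1105 (cons (fin 1169 4 912)
(mv 1106 (cons (fin 1107 3 1039)
(mv 913 (cons (fin 849 6 848)
(mv 847 (cons (fin 911 7 847)
(mv 977 (cons (fin 1168 6 912)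
(mv 978 (cons (fin 979 1 975)
(mv 1042 (cons (fin 1170 7 913)
(mv 975 (cons (fin 1043 0 975)
(mv 914 (cons (fin 915 1 911)
(fin 974 2 910)))))))))))))))))))
(mv 1103 (cons (fin 1167 5 911)
(mv 1105 (cons (fin 1169 4 912)
(mv 1106 (cons (fin 1107 3 1039)
(mv 911 (cons (fin 847 7 847)
(mv 1170 (cons (fin 1171 0 1103)
(mv 975 (cons (fin 1168 7 911)
(mv 1102 (cons (fin 1166 5 910)
(mv 1100 (cons (fin 1101 2 1036)
(mv 910 (cons (fin 846 7 846)
(mv 977 (cons (fin 978 3 910)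
(fin 909 0 909))))))))))))))))))))))
(cons (mv 849 (cons (fin 913 6 848)
(mv 1103 (cons (fin 1167 5 911)
(mv 911 (cons (fin 847 7 847)
(mv 975 (cons (fin 1168 7 911)
(mv 910 (cons (fin 846 7 846)
(mv 977 (cons (fin 978 3 910)
(fin 909 0 909)))))))))))))
(mv 847 (cons (fin 911 7 847)
(mv 1105 (cons (fin 1169 4 912)
(mv 1106 (cons (fin 1107 3 1039)
(mv 913 (cons (fin 849 6 848)
(mv 1103 (cons (fin 1167 5 911)
(mv 1042 (cons (fin 1043 2 1039)
(mv 1170 (cons (fin 1171 0 1103)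
(mv 978 (cons (fin 977 7 913)
(mv 915 (cons (fin 979 6 914)
(mv 914 (cons (fin 975 1 911)
(fin 851 6 850))))))))))))))))))))))))))
(cons (mv 1104 (cons (cons (cons (mv 847 (cons (fin 911 7 847)
(mv 783 (cons (fin 848 7 783)
(mv 1105 (cons (fin 1169 4 912)
(mv 1106 (cons (fin 1107 3 1039)
(mv 913 (cons (fin 849 6 848)
(mv 977 (cons (fin 1168 6 912)
(mv 978 (cons (fin 979 1 975)
(mv 1042 (cons (fin 1170 7 913)
(mv 975 (cons (fin 1043 0 975)
(mv 914 (cons (fin 915 1 911)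
(fin 974 2 910)))))))))))))))))))))
(mv 849 (cons (fin 913 6 848)
(mv 785 (cons (fin 848 6 784)
(mv 1169 (cons (fin 1105 4 912)
(mv 1168 (cons (fin 1233 4 976)
(mv 1231 (cons (fin 1167 5 975)
(mv 1232 (cons (fin 975 7 975)
(fin 1295 5 1039))))))))))))))
(cons (mv 1105 (cons (fin 1169 4 912)
(mv 1106 (cons (fin 1107 3 1039)
(mv 847 (cons (fin 911 7 847)
(mv 848 (cons (fin 783 7 783)
(mv 784 (cons (fin 975 5 783)
(mv 785 (cons (fin 721 6 720)
(fin 849 6 784)))))))))))))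
(mv 847 (cons (fin 911 7 847)
(mv 783 (cons (fin 848 7 783)
(mv 1169 (cons (fin 1105 4 912)
(mv 1168 (cons (fin 1233 4 976)
(mv 913 (cons (fin 977 6 912)
(mv 1231 (cons (fin 1167 5 975)
(mv 1232 (cons (fin 975 7 975)
(fin 1295 5 1039)))))))))))))))))
(cons (cons (mv 849 (cons (fin 913 6 848)
(mv 785 (cons (fin 848 6 784)
(mv 911 (cons (fin 847 7 847)
(mv 1168 (cons (fin 975 7 911)
(mv 1233 (cons (fin 1169 4 976)
(mv 1231 (cons (fin 1167 5 975)
(mv 1232 (cons (fin 1295 5 1039)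
(fin 1297 4 1040)))))))))))))))
(mv 847 (cons (fin 911 7 847)
(mv 783 (cons (fin 848 7 783)
(mv 913 (cons (fin 849 6 848)
(mv 1168 (cons (fin 977 6 912)
(mv 1231 (cons (fin 1167 5 975)
(mv 1232 (cons (fin 975 7 975)
(fin 1295 5 1039))))))))))))))
(cons (mv 849 (cons (fin 913 6 848)
(mv 848 (cons (fin 785 6 784)
(mv 847 (cons (fin 783 7 783)
(fin 911 7 847)))))))
(mv 1105 (cons (fin 1169 4 912)
(mv 1106 (cons (fin 1107 3 1039)
(mv 913 (cons (fin 849 6 848)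
(mv 847 (cons (fin 911 7 847)
(mv 977 (cons (fin 1168 6 912)
(mv 978 (cons (fin 979 1 975)
(mv 1042 (cons (fin 1170 7 913)
(mv 975 (cons (fin 1043 0 975)
(mv 914 (cons (fin 915 1 911)
(fin 974 2 910)))))))))))))))))))))))
(cons (mv 848 (cons (fin 1103 5 847)
(mv 783 (cons (fin 847 7 783)
(mv 784 (cons (fin 719 7 719)
(mv 785 (cons (fin 721 6 720)
(fin 849 6 784)))))))))
(mv 848 (cons (fin 1103 5 847)
(mv 784 (cons (fin 975 5 783)
(mv 785 (cons (fin 721 6 720)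
(fin 849 6 784)))))))))))
(cons (mv 911 (cons (cons (mv 975 (cons (cons (mv 848 (cons (fin 1103 6 847)
(mv 847 (cons (fin 784 6 783)
(fin 1104 4 847)))))
(mv 847 (cons (fin 1104 4 847)
(mv 784 (cons (fin 848 6 783)
(mv 720 (cons (fin 783 6 719)
(mv 846 (cons (fin 782 7 782)
(mv 845 (cons (fin 844 0 844)
(mv 913 (cons (fin 910 3 845)
(fin 914 3 846))))))))))))))
(cons (mv 1103 (cons (fin 848 6 847)
(mv 1102 (cons (fin 1166 5 910)
(mv 1100 (cons (fin 1101 2 1036)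
(mv 1104 (cons (fin 1168 4 911)
(mv 910 (cons (fin 846 7 846)
(mv 974 (cons (fin 1167 7 910)
(mv 973 (cons (fin 913 1 909)
(fin 972 2 908)))))))))))))))
(cons (mv 847 (cons (fin 1104 4 847)
(mv 846 (cons (fin 782 7 782)
(mv 844 (cons (fin 845 0 844)
(mv 910 (cons (fin 1103 7 846)
(mv 913 (cons (fin 914 3 846)
(mv 973 (cons (fin 974 1 909)
(mv 909 (cons (fin 972 1 908)
(fin 1101 6 845)))))))))))))))
(mv 848 (cons (fin 1103 6 847)
(mv 784 (cons (fin 720 5 719)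
(fin 847 6 783)))))))))
(cons (mv 910 (cons (cons (cons (mv 913 (cons (cons (mv 845 (cons (fin 846 3 845)
(mv 844 (cons (fin 909 3 844)
(mv 978 (cons (fin 977 0 910)
(mv 850 (cons (fin 849 2 846)
(mv 914 (cons (fin 851 2 847)
(fin 979 0 911)))))))))))
(mv 977 (cons (fin 978 0 910)
(mv 849 (cons (fin 850 2 846)
(mv 909 (cons (fin 848 2 845)
(mv 973 (cons (fin 972 1 908)
(fin 974 1 909))))))))))
(cons (mv 973 (cons (fin 974 1 909)
(mv 909 (cons (fin 972 1 908)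
(mv 845 (cons (fin 844 3 844)
(fin 846 3 845)))))))
(mv 977 (cons (fin 978 0 910)
(mv 850 (cons (fin 849 2 846)
(mv 973 (cons (fin 974 1 909)
(mv 914 (cons (fin 851 2 847)
(mv 846 (cons (fin 845 3 845)
(fin 847 3 846))))))))))))))
(mv 909 (cons (cons (mv 844 (cons (fin 845 3 844)
(mv 843 (cons (fin 908 3 843)
(mv 848 (cons (fin 849 2 845)
(mv 973 (cons (fin 972 1 908)
(mv 846 (cons (fin 1101 6 845)
(mv 782 (cons (fin 718 5 717)
(fin 974 5 781)))))))))))))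
(mv 844 (cons (fin 845 3 844)
(mv 908 (cons (fin 843 3 843)
(mv 848 (cons (fin 847 2 844)
(fin 849 2 845))))))))
(cons (mv 848 (cons (fin 849 2 845)
(mv 847 (cons (fin 908 2 844)
(mv 973 (cons (fin 972 1 908)
(mv 846 (cons (fin 1101 6 845)
(mv 782 (cons (fin 718 5 717)
(fin 974 5 781)))))))))))
(cons (mv 972 (cons (fin 973 1 908)
(mv 908 (cons (fin 971 1 907)
(mv 844 (cons (fin 843 3 843)
(fin 845 3 844)))))))
(mv 844 (cons (fin 845 3 844)
(mv 848 (cons (fin 849 2 845)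
(mv 973 (cons (fin 972 1 908)
(mv 846 (cons (fin 1101 6 845)
(mv 782 (cons (fin 718 5 717)
(fin 974 5 781))))))))))))))))
(cons (mv 913 (cons (cons (mv 977 (cons (fin 978 0 910)
(mv 850 (cons (fin 849 2 846)
(mv 973 (cons (fin 974 1 909)
(mv 914 (cons (fin 851 2 847)
(mv 846 (cons (fin 845 3 845)
(fin 847 3 846)))))))))))
(mv 978 (cons (fin 977 0 910)
(mv 850 (cons (fin 849 2 846)
(mv 914 (cons (fin 851 2 847)
(fin 979 0 911))))))))
(cons (mv 978 (cons (fin 977 0 910)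
(mv 846 (cons (fin 845 3 845)
(mv 914 (cons (fin 847 3 846)
(fin 979 0 911)))))))
(cons (mv 850 (cons (fin 849 2 846)
(mv 846 (cons (fin 845 3 845)
(mv 914 (cons (fin 847 3 846)
(fin 851 2 847)))))))
(mv 849 (cons (fin 850 2 846)
(mv 977 (cons (fin 978 0 910)
(mv 846 (cons (fin 845 3 845)
(mv 974 (cons (fin 973 1 909)
(mv 782 (cons (cons (mv 717 (cons (fin 781 7 717)
(mv 718 (cons (fin 653 7 653)
(mv 719 (cons (fin 655 6 654)
(fin 783 6 718)))))))
(mv 781 (cons (fin 717 7 717)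
(mv 848 (cons (fin 847 3 781)
(mv 784 (cons (fin 783 0 781)
(fin 720 4 720))))))))
(cons (mv 717 (cons (fin 781 7 717)
(mv 718 (cons (fin 653 7 653)
(mv 655 (cons (fin 719 6 654)
(mv 654 (cons (fin 591 6 590)
(fin 847 4 654)))))))))
(cons (mv 719 (cons (fin 783 6 718)
(mv 718 (cons (fin 655 6 654)
(mv 653 (cons (fin 717 7 653)
(mv 654 (cons (fin 589 7 589)
(fin 847 4 654)))))))))
(mv 719 (cons (fin 783 6 718)
(mv 718 (cons (fin 655 6 654)
(mv 654 (cons (fin 847 4 654)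
(mv 653 (cons (fin 589 7 589)
(mv 651 (cons (fin 652 0 651)
(mv 720 (cons (fin 721 3 653)
(mv 784 (cons (fin 785 7 720)
(fin 848 4 720)))))))))))))))))))))))))))))))
(mv 913 (cons (cons (mv 845 (cons (fin 846 3 845)
(mv 844 (cons (fin 909 3 844)
(mv 978 (cons (fin 977 0 910)
(mv 850 (cons (fin 849 2 846)
(mv 914 (cons (fin 851 2 847)
(fin 979 0 911)))))))))))
(mv 978 (cons (fin 977 0 910)
(mv 846 (cons (fin 845 3 845)
(mv 914 (cons (fin 847 3 846)
(fin 979 0 911))))))))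
(cons (mv 978 (cons (fin 977 0 910)
(mv 849 (cons (fin 850 2 846)
(mv 848 (cons (fin 909 2 845)
(mv 914 (cons (fin 979 0 911)
(mv 915 (cons (fin 847 3 847)
(fin 916 3 848)))))))))))
(mv 845 (cons (fin 846 3 845)
(mv 909 (cons (fin 844 3 844)
(mv 849 (cons (fin 848 2 845)
(fin 850 2 846))))))))))))
(cons (cons (mv 913 (cons (cons (mv 973 (cons (fin 974 1 909)
(mv 909 (cons (fin 972 1 908)
(mv 849 (cons (fin 848 2 845)
(fin 850 2 846)))))))
(mv 978 (cons (fin 977 0 910)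
(mv 849 (cons (fin 850 2 846)
(mv 848 (cons (fin 909 2 845)
(mv 914 (cons (fin 979 0 911)
(mv 847 (cons (fin 846 3 846)
(fin 915 3 847))))))))))))
(cons (mv 977 (cons (fin 978 0 910)
(mv 973 (cons (fin 974 1 909)
(mv 909 (cons (fin 972 1 908)
(mv 846 (cons (fin 1101 6 845)
(mv 718 (cons (fin 782 5 717)
(mv 847 (cons (fin 914 3 846)
(mv 908 (cons (fin 907 2 843)
(fin 848 2 844)))))))))))))))
(mv 973 (cons (fin 974 1 909)
(mv 850 (cons (fin 849 2 846)
(mv 978 (cons (fin 977 0 910)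
(mv 914 (cons (fin 851 2 847)
(fin 979 0 911))))))))))))
(mv 913 (cons (cons (mv 973 (cons (fin 974 1 909)
(mv 909 (cons (fin 972 1 908)
(mv 845 (cons (fin 844 3 844)
(fin 846 3 845)))))))
(mv 977 (cons (fin 978 0 910)
(mv 973 (cons (fin 974 1 909)
(mv 909 (cons (fin 972 1 908)
(mv 844 (cons (fin 845 3 844)
(mv 908 (cons (fin 843 3 843)
(fin 1101 7 844))))))))))))
(cons (mv 978 (cons (fin 977 0 910)
(mv 846 (cons (fin 845 3 845)
(mv 914 (cons (fin 847 3 846)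
(fin 979 0 911)))))))
(mv 977 (cons (fin 978 0 910)
(mv 973 (cons (fin 974 1 909)
(mv 909 (cons (fin 972 1 908)
(mv 846 (cons (fin 1101 6 845)
(mv 718 (cons (fin 782 5 717)
(mv 847 (cons (fin 914 3 846)
(mv 908 (cons (fin 907 2 843)
(fin 848 2 844)))))))))))))))))))
(cons (mv 909 (cons (cons (mv 844 (cons (fin 845 3 844)
(mv 843 (cons (fin 908 3 843)
(mv 848 (cons (fin 849 2 845)
(mv 973 (cons (fin 972 1 908)
(mv 913 (cons (fin 974 1 909)
(mv 978 (cons (fin 977 0 910)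
(mv 914 (cons (fin 979 0 911)
(mv 851 (cons (fin 850 2 847)
(mv 915 (cons (fin 847 3 847)
(fin 852 2 848)))))))))))))))))))
(mv 844 (cons (fin 845 3 844)
(mv 908 (cons (fin 843 3 843)
(mv 848 (cons (fin 847 2 844)
(fin 849 2 845))))))))
(cons (mv 848 (cons (fin 849 2 845)
(mv 847 (cons (fin 908 2 844)
(mv 973 (cons (fin 972 1 908)
(mv 913 (cons (fin 974 1 909)
(mv 914 (cons (fin 915 3 847)
(mv 978 (cons (fin 977 0 910)
(fin 979 0 911)))))))))))))
(cons (mv 972 (cons (fin 973 1 908)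
(mv 908 (cons (fin 971 1 907)
(mv 844 (cons (fin 843 3 843)
(fin 845 3 844)))))))
(mv 844 (cons (fin 845 3 844)
(mv 848 (cons (fin 849 2 845)
(mv 973 (cons (fin 972 1 908)
(mv 913 (cons (fin 974 1 909)
(mv 978 (cons (fin 977 0 910)
(mv 914 (cons (fin 979 0 911)
(mv 851 (cons (fin 850 2 847)
(mv 915 (cons (fin 847 3 847)
(fin 852 2 848)))))))))))))))))))))
(cons (mv 913 (cons (cons (mv 845 (cons (fin 846 3 845)
(mv 844 (cons (fin 909 3 844)
(mv 978 (cons (fin 977 0 910)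
(mv 850 (cons (fin 849 2 846)
(mv 914 (cons (fin 851 2 847)
(fin 979 0 911)))))))))))
(cons (mv 977 (cons (fin 978 0 910)
(mv 849 (cons (fin 850 2 846)
(mv 973 (cons (fin 974 1 909)
(mv 909 (cons (fin 972 1 908)
(mv 844 (cons (fin 845 3 844)
(mv 908 (cons (fin 843 3 843)
(fin 1101 7 844)))))))))))))
(mv 973 (cons (fin 974 1 909)
(mv 909 (cons (fin 972 1 908)
(mv 977 (cons (fin 978 0 910)
(mv 846 (cons (fin 1101 6 845)
(mv 718 (cons (fin 782 5 717)
(mv 914 (cons (fin 847 3 846)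
(mv 850 (cons (fin 849 2 846)
(fin 851 2 847)))))))))))))))))
(cons (mv 849 (cons (fin 850 2 846)
(mv 973 (cons (fin 974 1 909)
(mv 909 (cons (fin 972 1 908)
(mv 845 (cons (fin 844 3 844)
(fin 846 3 845)))))))))
(cons (mv 845 (cons (fin 846 3 845)
(mv 909 (cons (fin 844 3 844)
(mv 973 (cons (fin 972 1 908)
(fin 974 1 909)))))))
(mv 977 (cons (fin 978 0 910)
(mv 850 (cons (fin 849 2 846)
(mv 846 (cons (fin 845 3 845)
(mv 914 (cons (fin 847 3 846)
(fin 851 2 847)))))))))))))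
(mv 913 (cons (cons (mv 845 (cons (fin 846 3 845)
(mv 844 (cons (fin 909 3 844)
(mv 978 (cons (fin 977 0 910)
(mv 850 (cons (fin 849 2 846)
(mv 914 (cons (fin 851 2 847)
(fin 979 0 911)))))))))))
(mv 977 (cons (fin 978 0 910)
(mv 845 (cons (fin 846 3 845)
(mv 909 (cons (fin 844 3 844)
(mv 973 (cons (fin 972 1 908)
(fin 974 1 909))))))))))
(cons (mv 973 (cons (fin 974 1 909)
(mv 909 (cons (fin 972 1 908)
(mv 849 (cons (fin 848 2 845)
(fin 850 2 846)))))))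
(mv 978 (cons (fin 977 0 910)
(mv 850 (cons (fin 849 2 846)
(mv 914 (cons (fin 851 2 847)
(fin 979 0 911)))))))))))))))
(mv 910 (cons (cons (cons (mv 913 (cons (cons (mv 845 (cons (fin 846 3 845)
(mv 844 (cons (fin 909 3 844)
(mv 977 (cons (fin 978 0 910)
(mv 849 (cons (fin 850 2 846)
(mv 974 (cons (fin 973 1 909)
(mv 975 (cons (fin 914 1 910)
(mv 1103 (cons (fin 1167 7 910)
(fin 848 6 847)))))))))))))))
(cons (mv 845 (cons (fin 846 3 845)
(mv 844 (cons (fin 909 3 844)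
(mv 978 (cons (fin 977 0 910)
(mv 850 (cons (fin 849 2 846)
(mv 914 (cons (fin 851 2 847)
(fin 979 0 911)))))))))))
(mv 977 (cons (fin 978 0 910)
(mv 973 (cons (fin 974 1 909)
(mv 909 (cons (fin 972 1 908)
(mv 849 (cons (fin 848 2 845)
(fin 850 2 846)))))))))))
(cons (mv 845 (cons (fin 846 3 845)
(mv 844 (cons (fin 909 3 844)
(mv 977 (cons (fin 978 0 910)
(mv 974 (cons (fin 973 1 909)
(mv 975 (cons (fin 914 1 910)
(mv 1103 (cons (fin 1167 7 910)
(fin 848 6 847)))))))))))))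
(cons (mv 973 (cons (fin 974 1 909)
(mv 909 (cons (fin 972 1 908)
(mv 845 (cons (fin 844 3 844)
(fin 846 3 845)))))))
(mv 845 (cons (fin 846 3 845)
(mv 977 (cons (fin 978 0 910)
(mv 974 (cons (fin 973 1 909)
(mv 849 (cons (fin 850 2 846)
(mv 975 (cons (fin 914 1 910)
(mv 1103 (cons (fin 1167 7 910)
(fin 848 6 847)))))))))))))))))
(mv 909 (cons (cons (mv 844 (cons (fin 845 3 844)
(mv 843 (cons (fin 908 3 843)
(mv 848 (cons (fin 849 2 845)
(mv 973 (cons (fin 972 1 908)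
(mv 975 (cons (fin 1103 6 847)
(mv 720 (cons (fin 784 5 719)
(mv 846 (cons (fin 1101 6 845)
(mv 782 (cons (fin 718 5 717)
(fin 974 5 781)))))))))))))))))
(mv 844 (cons (fin 845 3 844)
(mv 908 (cons (fin 843 3 843)
(mv 848 (cons (fin 849 2 845)
(mv 971 (cons (fin 972 1 907)
(mv 907 (cons (fin 970 1 906)
(mv 975 (cons (fin 974 0 907)
(fin 1103 6 847))))))))))))))
(cons (mv 848 (cons (fin 849 2 845)
(mv 973 (cons (fin 972 1 908)
(mv 975 (cons (fin 1103 6 847)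
(mv 720 (cons (fin 784 5 719)
(mv 846 (cons (fin 1101 6 845)
(mv 782 (cons (fin 718 5 717)
(fin 974 5 781)))))))))))))
(cons (mv 848 (cons (fin 849 2 845)
(mv 975 (cons (fin 1103 6 847)
(mv 720 (cons (fin 784 5 719)
(mv 908 (cons (mv 844 (cons (fin 843 3 843)
(fin 845 3 844)))
(cons (mv 907 (cons (fin 974 0 907)
(mv 970 (cons (fin 971 1 906)
(mv 906 (cons (fin 969 1 905)
(mv 842 (cons (fin 841 3 841)
(fin 843 3 842)))))))))
(mv 907 (cons (fin 974 0 907)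
(mv 970 (cons (fin 971 1 906)
(mv 906 (cons (fin 969 1 905)
(mv 845 (cons (fin 844 3 844)
(fin 846 2 842))))))))))))))))))
(mv 972 (cons (fin 973 1 908)
(mv 908 (cons (fin 971 1 907)
(mv 844 (cons (fin 843 3 843)
(fin 845 3 844))))))))))))
(cons (mv 913 (cons (cons (mv 845 (cons (fin 846 3 845)
(mv 977 (cons (fin 978 0 910)
(mv 974 (cons (fin 973 1 909)
(mv 849 (cons (fin 850 2 846)
(mv 975 (cons (fin 914 1 910)
(mv 1103 (cons (fin 1167 7 910)
(fin 848 6 847)))))))))))))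
(cons (mv 845 (cons (fin 846 3 845)
(mv 850 (cons (fin 849 2 846)
(mv 978 (cons (fin 977 0 910)
(mv 914 (cons (fin 851 2 847)
(fin 979 0 911)))))))))
(mv 849 (cons (fin 850 2 846)
(mv 974 (cons (fin 973 1 909)
(mv 977 (cons (fin 978 0 910)
(mv 975 (cons (fin 914 1 910)
(mv 1103 (cons (fin 1167 7 910)
(fin 848 6 847)))))))))))))
(cons (mv 974 (cons (fin 973 1 909)
(mv 845 (cons (fin 846 3 845)
(mv 914 (cons (fin 975 1 910)
(mv 978 (cons (fin 977 0 910)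
(fin 979 0 911)))))))))
(cons (mv 849 (cons (fin 850 2 846)
(mv 845 (cons (fin 846 3 845)
(mv 974 (cons (fin 973 1 909)
(mv 975 (cons (fin 914 1 910)
(mv 1103 (cons (fin 1167 7 910)
(fin 848 6 847)))))))))))
(mv 977 (cons (fin 978 0 910)
(mv 846 (cons (fin 845 3 845)
(mv 849 (cons (fin 850 2 846)
(mv 975 (cons (fin 1103 7 846)
(mv 974 (cons (fin 973 1 909)
(fin 782 4 782)))))))))))))))
(cons (mv 913 (cons (cons (mv 845 (cons (fin 846 3 845)
(mv 844 (cons (fin 909 3 844)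
(mv 978 (cons (fin 977 0 910)
(mv 850 (cons (fin 849 2 846)
(mv 914 (cons (fin 851 2 847)
(fin 979 0 911)))))))))))
(mv 977 (cons (fin 978 0 910)
(mv 845 (cons (fin 846 3 845)
(mv 909 (cons (fin 844 3 844)
(mv 973 (cons (fin 972 1 908)
(fin 974 1 909))))))))))
(cons (mv 973 (cons (fin 974 1 909)
(mv 909 (cons (fin 972 1 908)
(mv 849 (cons (fin 848 2 845)
(fin 850 2 846)))))))
(mv 978 (cons (fin 977 0 910)
(mv 850 (cons (fin 849 2 846)
(mv 914 (cons (fin 851 2 847)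
(fin 979 0 911))))))))))
(mv 913 (cons (cons (mv 845 (cons (fin 846 3 845)
(mv 844 (cons (fin 909 3 844)
(mv 977 (cons (fin 978 0 910)
(mv 850 (cons (fin 849 2 846)
(mv 914 (cons (fin 851 2 847)
(mv 975 (cons (fin 974 1 910)
(mv 722 (cons (fin 786 5 721)
(mv 1103 (cons (fin 848 6 847)
(mv 1166 (cons (fin 1102 5 910)
(mv 1168 (cons (fin 1104 4 911)
(mv 1167 (cons (fin 1230 5 974)
(fin 1232 4 975)))))))))))))))))))))))
(mv 849 (cons (fin 850 2 846)
(mv 848 (cons (fin 909 2 845)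
(mv 978 (cons (fin 977 0 910)
(mv 975 (cons (fin 1103 6 847)
(mv 914 (cons (fin 974 1 910)
(fin 979 0 911))))))))))))
(cons (mv 977 (cons (fin 978 0 910)
(mv 846 (cons (fin 845 3 845)
(mv 975 (cons (fin 1103 7 846)
(mv 974 (cons (fin 914 1 910)
(fin 782 4 782)))))))))
(cons (mv 845 (cons (fin 846 3 845)
(mv 844 (cons (fin 909 3 844)
(mv 850 (cons (fin 849 2 846)
(mv 914 (cons (fin 851 2 847)
(mv 975 (cons (fin 974 1 910)
(mv 1103 (cons (fin 848 6 847)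
(mv 1166 (cons (fin 1102 5 910)
(mv 1168 (cons (fin 1104 4 911)
(mv 1167 (cons (fin 1230 5 974)
(fin 1232 4 975)))))))))))))))))))
(mv 849 (cons (fin 850 2 846)
(mv 909 (cons (fin 848 2 845)
(mv 845 (cons (fin 844 3 844)
(fin 846 3 845))))))))))))))
(cons (cons (mv 913 (cons (cons (mv 977 (cons (fin 978 0 910)
(mv 973 (cons (fin 974 1 909)
(mv 909 (cons (fin 972 1 908)
(mv 849 (cons (fin 848 2 845)
(fin 850 2 846)))))))))
(cons (mv 977 (cons (fin 978 0 910)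
(mv 849 (cons (fin 850 2 846)
(mv 909 (cons (fin 848 2 845)
(mv 972 (cons (fin 973 1 908)
(mv 908 (cons (fin 971 1 907)
(mv 844 (cons (fin 843 3 843)
(fin 845 3 844)))))))))))))
(mv 849 (cons (fin 850 2 846)
(mv 848 (cons (fin 909 2 845)
(mv 978 (cons (fin 977 0 910)
(mv 975 (cons (fin 1103 6 847)
(mv 914 (cons (fin 974 1 910)
(fin 979 0 911)))))))))))))
(cons (mv 977 (cons (fin 978 0 910)
(mv 973 (cons (fin 974 1 909)
(mv 909 (cons (fin 972 1 908)
(mv 844 (cons (fin 845 3 844)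
(mv 908 (cons (fin 843 3 843)
(fin 1101 7 844)))))))))))
(cons (mv 973 (cons (fin 974 1 909)
(mv 909 (cons (fin 972 1 908)
(mv 849 (cons (fin 848 2 845)
(fin 850 2 846)))))))
(mv 849 (cons (fin 850 2 846)
(mv 974 (cons (fin 973 1 909)
(mv 977 (cons (fin 978 0 910)
(mv 975 (cons (fin 914 1 910)
(mv 1103 (cons (fin 1167 7 910)
(fin 848 6 847)))))))))))))))
(mv 913 (cons (cons (mv 845 (cons (fin 846 3 845)
(mv 844 (cons (fin 909 3 844)
(mv 977 (cons (fin 978 0 910)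
(mv 850 (cons (fin 849 2 846)
(mv 974 (cons (fin 973 1 909)
(mv 914 (cons (fin 975 1 910)
(fin 851 2 847)))))))))))))
(mv 850 (cons (fin 849 2 846)
(mv 978 (cons (fin 977 0 910)
(mv 914 (cons (fin 851 2 847)
(fin 979 0 911))))))))
(cons (mv 849 (cons (fin 850 2 846)
(mv 973 (cons (fin 974 1 909)
(mv 909 (cons (fin 972 1 908)
(mv 845 (cons (fin 844 3 844)
(fin 846 3 845)))))))))
(mv 845 (cons (fin 846 3 845)
(mv 844 (cons (fin 909 3 844)
(mv 978 (cons (fin 977 0 910)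
(mv 974 (cons (fin 973 1 909)
(mv 914 (cons (fin 975 1 910)
(fin 979 0 911)))))))))))))))
(cons (mv 913 (cons (cons (mv 973 (cons (fin 974 1 909)
(mv 909 (cons (fin 972 1 908)
(mv 849 (cons (fin 848 2 845)
(fin 850 2 846)))))))
(mv 977 (cons (fin 978 0 910)
(mv 849 (cons (fin 850 2 846)
(mv 909 (cons (fin 848 2 845)
(mv 973 (cons (fin 972 1 908)
(mv 1101 (cons (fin 846 6 845)
(mv 1100 (cons (fin 1164 5 908)
(mv 1102 (cons (fin 1103 2 1036)
(fin 1166 4 909))))))))))))))))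
(cons (mv 849 (cons (fin 850 2 846)
(mv 848 (cons (fin 909 2 845)
(mv 978 (cons (fin 977 0 910)
(mv 975 (cons (fin 1103 6 847)
(mv 914 (cons (fin 974 1 910)
(fin 979 0 911)))))))))))
(cons (mv 977 (cons (fin 978 0 910)
(mv 973 (cons (fin 974 1 909)
(mv 909 (cons (fin 972 1 908)
(mv 1101 (cons (fin 846 6 845)
(mv 1100 (cons (fin 1164 5 908)
(mv 1102 (cons (fin 1103 2 1036)
(fin 1166 4 909)))))))))))))
(mv 973 (cons (fin 974 1 909)
(mv 850 (cons (fin 849 2 846)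
(mv 978 (cons (fin 977 0 910)
(mv 914 (cons (fin 851 2 847)
(fin 979 0 911)))))))))))))
(cons (mv 913 (cons (cons (mv 845 (cons (fin 846 3 845)
(mv 844 (cons (fin 909 3 844)
(mv 977 (cons (fin 978 0 910)
(mv 974 (cons (fin 973 1 909)
(mv 975 (cons (fin 914 1 910)
(mv 1103 (cons (fin 1167 7 910)
(fin 848 6 847)))))))))))))
(cons (mv 977 (cons (fin 978 0 910)
(mv 909 (cons (mv 845 (cons (fin 844 3 844)
(fin 846 3 845)))
(cons (mv 973 (cons (fin 972 1 908)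
(mv 1101 (cons (fin 846 6 845)
(mv 1100 (cons (fin 1164 5 908)
(mv 1102 (cons (fin 1103 2 1036)
(fin 1166 4 909)))))))))
(mv 972 (cons (fin 973 1 908)
(mv 908 (cons (fin 971 1 907)
(mv 844 (cons (fin 843 3 843)
(fin 845 3 844))))))))))))
(mv 977 (cons (fin 978 0 910)
(mv 846 (cons (fin 845 3 845)
(mv 975 (cons (fin 1103 7 846)
(mv 974 (cons (fin 914 1 910)
(fin 782 4 782)))))))))))
(cons (mv 977 (cons (fin 978 0 910)
(mv 973 (cons (fin 974 1 909)
(mv 909 (cons (fin 972 1 908)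
(mv 844 (cons (fin 845 3 844)
(mv 908 (cons (fin 843 3 843)
(fin 1101 7 844)))))))))))
(cons (mv 977 (cons (fin 978 0 910)
(mv 973 (cons (fin 974 1 909)
(mv 909 (cons (fin 972 1 908)
(mv 1101 (cons (fin 846 6 845)
(mv 1100 (cons (fin 1164 5 908)
(mv 1102 (cons (fin 1103 2 1036)
(fin 1166 4 909)))))))))))))
(mv 973 (cons (fin 974 1 909)
(mv 909 (cons (fin 972 1 908)
(mv 845 (cons (fin 844 3 844)
(fin 846 3 845)))))))))))
(mv 909 (cons (cons (mv 844 (cons (fin 845 3 844)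
(mv 843 (cons (fin 908 3 843)
(mv 848 (cons (fin 849 2 845)
(mv 973 (cons (fin 972 1 908)
(mv 975 (cons (fin 1103 6 847)
(mv 720 (cons (fin 784 5 719)
(mv 1101 (cons (fin 846 6 845)
(mv 1164 (cons (fin 1100 5 908)
(mv 1166 (cons (fin 1102 4 909)
(mv 1165 (cons (fin 1228 5 972)
(fin 1230 4 973)))))))))))))))))))))
(mv 845 (cons (fin 844 3 844)
(mv 849 (cons (fin 848 2 845)
(mv 913 (cons (fin 846 3 845)
(fin 850 2 846))))))))
(cons (mv 973 (cons (fin 972 1 908)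
(mv 848 (cons (fin 849 2 845)
(mv 1101 (cons (fin 846 6 845)
(mv 975 (cons (fin 1103 6 847)
(mv 720 (cons (fin 784 5 719)
(mv 1166 (cons (fin 1102 4 909)
(mv 844 (cons (fin 908 7 844)
(mv 1165 (cons (fin 1230 4 973)
(mv 1164 (cons (fin 1100 5 908)
(fin 1228 5 972)))))))))))))))))))
(cons (mv 848 (cons (fin 849 2 845)
(mv 973 (cons (fin 972 1 908)
(mv 975 (cons (fin 1103 6 847)
(mv 720 (cons (fin 784 5 719)
(mv 846 (cons (fin 1101 6 845)
(mv 845 (cons (fin 913 3 845)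
(fin 782 6 781)))))))))))))
(mv 972 (cons (fin 973 1 908)
(mv 908 (cons (fin 971 1 907)
(mv 844 (cons (fin 843 3 843)
(fin 845 3 844))))))))))))))))))
(cons (mv 975 (cons (cons (mv 847 (cons (fin 1104 4 847)
(mv 846 (cons (fin 782 7 782)
(mv 844 (cons (fin 845 0 844)
(mv 910 (cons (fin 1103 7 846)
(mv 913 (cons (fin 914 3 846)
(mv 973 (cons (fin 974 1 909)
(mv 909 (cons (fin 972 1 908)
(fin 1101 6 845)))))))))))))))
(mv 910 (cons (mv 846 (cons (fin 1103 7 846)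
(mv 782 (cons (fin 847 7 782)
(fin 718 4 718)))))
(mv 973 (cons (mv 972 (cons (fin 909 1 908)
(fin 974 2 908)))
(cons (mv 909 (cons (fin 972 1 908)
(mv 844 (cons (fin 845 3 844)
(mv 908 (cons (fin 843 3 843)
(fin 1101 7 844)))))))
(mv 913 (cons (fin 974 1 909)
(mv 978 (cons (fin 977 0 910)
(mv 850 (cons (fin 849 2 846)
(mv 914 (cons (fin 851 2 847)
(fin 979 0 911)))))))))))))))
(cons (mv 1103 (cons (cons (mv 1102 (cons (fin 1166 5 910)
(mv 1100 (cons (fin 1101 2 1036)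
(mv 1104 (cons (fin 1168 4 911)
(mv 910 (cons (fin 846 7 846)
(mv 974 (cons (fin 1167 7 910)
(mv 973 (cons (fin 913 1 909)
(fin 972 2 908)))))))))))))
(mv 910 (cons (fin 846 7 846)
(mv 1102 (cons (fin 1166 5 910)
(mv 1100 (cons (fin 1101 2 1036)
(mv 974 (cons (fin 1167 7 910)
(mv 973 (cons (fin 913 1 909)
(fin 972 2 908))))))))))))
(cons (mv 1168 (cons (fin 1104 4 911)
(mv 1166 (cons (fin 1102 5 910)
(mv 1167 (cons (fin 1230 5 974)
(fin 1232 4 975)))))))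
(cons (mv 1104 (cons (fin 1168 4 911)
(mv 910 (cons (fin 846 7 846)
(mv 974 (cons (fin 1167 7 910)
(mv 973 (cons (fin 913 1 909)
(fin 972 2 908)))))))))
(mv 910 (cons (fin 846 7 846)
(mv 1102 (cons (fin 1166 5 910)
(mv 1101 (cons (fin 1100 2 1036)
(mv 1104 (cons (fin 1168 4 911)
(mv 1165 (cons (fin 1164 1 1100)
(mv 973 (cons (fin 974 6 909)
(mv 972 (cons (fin 909 1 908)
(fin 908 7 908)))))))))))))))))))
(cons (mv 847 (cons (fin 1104 4 847)
(mv 846 (cons (fin 782 7 782)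
(mv 845 (cons (fin 844 0 844)
(mv 913 (cons (fin 910 3 845)
(fin 914 3 846)))))))))
(mv 1104 (cons (fin 847 4 847)
(mv 1168 (cons (fin 1232 7 975)
(fin 1103 4 911)))))))))
(cons (mv 975 (cons (cons (mv 848 (cons (fin 1103 6 847)
(mv 847 (cons (fin 784 6 783)
(fin 1104 4 847)))))
(mv 1103 (cons (fin 848 6 847)
(mv 1168 (cons (fin 1104 4 911)
(mv 1166 (cons (fin 1102 5 910)
(mv 1167 (cons (fin 1230 5 974)
(fin 1232 4 975))))))))))
(cons (mv 847 (cons (fin 1104 4 847)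
(mv 784 (cons (fin 848 6 783)
(mv 783 (cons (fin 720 6 719)
(mv 782 (cons (fin 718 7 718)
(fin 846 7 782)))))))))
(cons (mv 1104 (cons (fin 847 4 847)
(mv 1168 (cons (fin 1232 7 975)
(fin 1103 4 911)))))
(mv 848 (cons (fin 1103 6 847)
(mv 784 (cons (fin 720 5 719)
(fin 847 6 783)))))))))
(mv 975 (cons (cons (mv 848 (cons (fin 1103 6 847)
(mv 847 (cons (fin 784 6 783)
(fin 1104 4 847)))))
(mv 847 (cons (fin 1104 4 847)
(mv 784 (cons (fin 848 6 783)
(mv 720 (cons (fin 783 6 719)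
(mv 913 (cons (cons (mv 914 (cons (fin 974 1 910)
(mv 850 (cons (fin 851 2 847)
(mv 849 (cons (fin 910 2 846)
(mv 978 (cons (fin 979 0 911)
(mv 785 (cons (fin 977 7 720)
(fin 1042 7 785)))))))))))
(mv 849 (cons (mv 850 (cons (fin 910 2 846)
(mv 851 (cons (fin 852 1 848)
(fin 914 2 847)))))
(mv 785 (cons (fin 977 7 720)
(mv 656 (cons (fin 721 7 656)
(fin 592 4 592))))))))
(cons (mv 910 (cons (mv 973 (cons (fin 974 1 909)
(mv 909 (cons (fin 972 1 908)
(mv 844 (cons (fin 845 3 844)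
(mv 908 (cons (fin 843 3 843)
(fin 1101 7 844)))))))))
(mv 977 (cons (fin 978 0 910)
(mv 849 (cons (fin 850 2 846)
(fin 785 7 720)))))))
(cons (mv 914 (cons (fin 974 1 910)
(mv 851 (cons (fin 850 2 847)
(mv 979 (cons (fin 978 0 911)
(mv 915 (cons (fin 852 2 848)
(fin 980 0 912)))))))))
(mv 974 (cons (fin 914 1 910)
(mv 973 (cons (fin 910 1 909)
(fin 972 2 908))))))))))))))))
(cons (mv 1104 (cons (fin 847 4 847)
(mv 1168 (cons (fin 1232 7 975)
(fin 1103 4 911)))))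
(cons (mv 848 (cons (fin 1103 6 847)
(mv 784 (cons (fin 720 5 719)
(fin 847 6 783)))))
(mv 1103 (cons (fin 848 6 847)
(mv 1166 (cons (fin 1102 5 910)
(mv 1168 (cons (fin 1104 4 911)
(mv 1167 (cons (fin 1230 5 974)
(fin 1232 4 975)))))))))))))))))
(mv 976 (cons (cons (cons (mv 1104 (cons (cons (cons (mv 847 (cons (fin 911 7 847)
(mv 783 (cons (fin 848 7 783)
(mv 1105 (cons (fin 1169 4 912)
(mv 1106 (cons (fin 1107 3 1039)
(mv 913 (cons (fin 849 6 848)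
(mv 977 (cons (fin 1168 6 912)
(mv 978 (cons (fin 979 1 975)
(mv 1042 (cons (fin 1170 7 913)
(mv 975 (cons (fin 1043 0 975)
(mv 914 (cons (fin 915 1 911)
(fin 974 2 910)))))))))))))))))))))
(mv 849 (cons (fin 913 6 848)
(mv 785 (cons (fin 848 6 784)
(mv 1169 (cons (fin 1105 4 912)
(mv 1168 (cons (fin 1233 4 976)
(mv 1231 (cons (fin 1167 5 975)
(mv 1232 (cons (fin 975 7 975)
(fin 1295 5 1039))))))))))))))
(cons (mv 1105 (cons (fin 1169 4 912)
(mv 1106 (cons (fin 1107 3 1039)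
(mv 847 (cons (fin 911 7 847)
(mv 848 (cons (fin 783 7 783)
(mv 784 (cons (fin 975 5 783)
(mv 785 (cons (fin 721 6 720)
(fin 849 6 784)))))))))))))
(mv 847 (cons (fin 911 7 847)
(mv 783 (cons (fin 848 7 783)
(mv 1169 (cons (fin 1105 4 912)
(mv 1168 (cons (fin 1233 4 976)
(mv 913 (cons (fin 977 6 912)
(mv 1231 (cons (fin 1167 5 975)
(mv 1232 (cons (fin 975 7 975)
(fin 1295 5 1039)))))))))))))))))
(cons (cons (mv 849 (cons (fin 913 6 848)
(mv 785 (cons (fin 848 6 784)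
(mv 911 (cons (fin 847 7 847)
(mv 1168 (cons (fin 975 7 911)
(mv 1233 (cons (fin 1169 4 976)
(mv 1231 (cons (fin 1167 5 975)
(mv 1232 (cons (fin 1295 5 1039)
(fin 1297 4 1040)))))))))))))))
(mv 847 (cons (fin 911 7 847)
(mv 783 (cons (fin 848 7 783)
(mv 913 (cons (fin 849 6 848)
(mv 1168 (cons (fin 977 6 912)
(mv 1231 (cons (fin 1167 5 975)
(mv 1232 (cons (fin 975 7 975)
(fin 1295 5 1039))))))))))))))
(cons (mv 849 (cons (fin 913 6 848)
(mv 848 (cons (fin 785 6 784)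
(mv 847 (cons (fin 783 7 783)
(fin 911 7 847)))))))
(mv 1105 (cons (fin 1169 4 912)
(mv 1106 (cons (fin 1107 3 1039)
(mv 913 (cons (fin 849 6 848)
(mv 847 (cons (fin 911 7 847)
(mv 977 (cons (fin 1168 6 912)
(mv 978 (cons (fin 979 1 975)
(mv 1042 (cons (fin 1170 7 913)
(mv 975 (cons (fin 1043 0 975)
(mv 914 (cons (fin 915 1 911)
(fin 974 2 910)))))))))))))))))))))))
(mv 848 (cons (mv 783 (cons (fin 847 7 783)
(mv 784 (cons (fin 719 7 719)
(fin 975 5 783)))))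
(cons (mv 847 (cons (fin 783 7 783)
(mv 849 (cons (fin 785 6 784)
(mv 846 (cons (cons (mv 913 (cons (fin 845 0 845)
(fin 914 0 846)))
(mv 781 (cons (fin 782 3 781)
(mv 780 (cons (fin 845 3 780)
(mv 910 (cons (fin 909 1 845)
(mv 850 (cons (fin 911 1 846)
(mv 915 (cons (fin 914 0 847)
(mv 787 (cons (fin 786 2 783)
(mv 851 (cons (fin 788 2 784)
(fin 916 0 848))))))))))))))))
(cons (mv 909 (cons (fin 910 1 845)
(mv 914 (cons (fin 913 0 846)
(mv 781 (cons (fin 782 3 781)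
(mv 850 (cons (fin 915 0 847)
(mv 787 (cons (fin 786 2 783)
(mv 851 (cons (fin 911 1 847)
(fin 788 2 784)))))))))))))
(mv 845 (cons (fin 913 0 845)
(mv 781 (cons (fin 780 3 780)
(fin 782 3 781))))))))))))
(mv 785 (cons (fin 849 6 784)
(mv 784 (cons (fin 975 5 783)
(fin 721 6 720)))))))))
(cons (mv 1104 (cons (cons (mv 1105 (cons (fin 1169 4 912)
(mv 1106 (cons (fin 1107 3 1039)
(mv 913 (cons (fin 849 6 848)
(mv 847 (cons (fin 911 7 847)
(mv 977 (cons (fin 1168 6 912)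
(mv 978 (cons (fin 979 1 975)
(mv 1042 (cons (fin 1170 7 913)
(mv 975 (cons (fin 1043 0 975)
(mv 914 (cons (fin 915 1 911)
(fin 974 2 910)))))))))))))))))))
(cons (mv 1105 (cons (fin 1169 4 912)
(mv 1106 (cons (fin 1107 3 1039)
(mv 913 (cons (fin 849 6 848)
(mv 977 (cons (fin 1168 6 912)
(mv 978 (cons (fin 979 1 975)
(mv 1042 (cons (fin 1170 7 913)
(mv 975 (cons (fin 1043 0 975)
(mv 914 (cons (fin 915 1 911)
(fin 974 2 910)))))))))))))))))
(mv 847 (cons (fin 911 7 847)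
(mv 1169 (cons (fin 1105 4 912)
(mv 1168 (cons (fin 1233 4 976)
(mv 1231 (cons (fin 1167 5 975)
(mv 1232 (cons (fin 975 7 975)
(fin 1295 5 1039)))))))))))))
(cons (cons (mv 849 (cons (fin 913 6 848)
(mv 911 (cons (fin 847 7 847)
(mv 1168 (cons (fin 975 7 911)
(mv 1233 (cons (fin 1169 4 976)
(mv 1231 (cons (fin 1167 5 975)
(mv 1232 (cons (fin 1295 5 1039)
(fin 1297 4 1040)))))))))))))
(mv 847 (cons (fin 911 7 847)
(mv 913 (cons (fin 849 6 848)
(mv 1168 (cons (fin 977 6 912)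
(mv 1231 (cons (fin 1167 5 975)
(mv 1232 (cons (fin 975 7 975)
(fin 1295 5 1039))))))))))))
(cons (mv 913 (cons (fin 849 6 848)
(mv 911 (cons (fin 847 7 847)
(mv 1105 (cons (fin 1169 4 912)
(mv 1106 (cons (fin 1107 3 1039)
(mv 977 (cons (mv 910 (cons (fin 909 0 909)
(fin 978 0 910)))
(cons (mv 910 (cons (fin 909 0 909)
(mv 974 (cons (fin 973 1 909)
(mv 845 (cons (fin 846 3 845)
(mv 914 (cons (fin 975 1 910)
(mv 851 (cons (fin 850 2 847)
(mv 915 (cons (fin 916 1 912)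
(fin 852 2 848)))))))))))))
(mv 978 (cons (fin 979 3 911)
(mv 1042 (cons (fin 1170 7 913)
(mv 975 (cons (fin 1043 0 975)
(mv 914 (cons (fin 974 1 910)
(fin 915 1 911))))))))))))))))))))
(mv 1105 (cons (fin 1169 4 912)
(mv 1106 (cons (fin 1107 3 1039)
(mv 913 (cons (fin 849 6 848)
(mv 911 (cons (fin 847 7 847)
(mv 977 (cons (fin 1168 6 912)
(mv 978 (cons (fin 979 3 911)
(fin 910 0 910)))))))))))))))))
(mv 1104 (cons (cons (mv 849 (cons (fin 913 6 848)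
(mv 785 (cons (fin 848 6 784)
(mv 1169 (cons (fin 1105 4 912)
(mv 1168 (cons (fin 1233 4 976)
(mv 975 (cons (fin 911 7 911)
(fin 1232 7 975)))))))))))
(mv 1169 (cons (fin 1105 4 912)
(mv 1168 (cons (fin 1233 4 976)
(mv 975 (cons (fin 911 7 911)
(fin 1232 7 975))))))))
(cons (mv 849 (cons (fin 913 6 848)
(mv 848 (cons (fin 785 6 784)
(mv 975 (cons (fin 784 5 783)
(mv 1168 (cons (fin 911 7 911)
(fin 1232 7 975)))))))))
(cons (mv 1105 (cons (fin 1169 4 912)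
(mv 1106 (cons (fin 1107 3 1039)
(mv 848 (cons (mv 849 (cons (fin 785 6 784)
(fin 913 6 848)))
(cons (mv 784 (cons (fin 975 5 783)
(mv 719 (cons (fin 783 7 719)
(mv 720 (cons (fin 655 7 655)
(mv 721 (cons (fin 657 6 656)
(fin 785 6 720)))))))))
(mv 784 (cons (fin 975 5 783)
(mv 719 (cons (fin 783 7 719)
(mv 720 (cons (fin 655 7 655)
(mv 913 (cons (fin 849 6 848)
(fin 977 4 720))))))))))))))))
(mv 913 (cons (fin 849 6 848)
(mv 1169 (cons (fin 1105 4 912)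
(mv 1168 (cons (fin 977 6 912)
(fin 1233 4 976)))))))))))))
(cons (cons (mv 847 (cons (mv 783 (cons (fin 848 7 783)
(mv 911 (cons (fin 1104 7 847)
(fin 719 4 719)))))
(cons (mv 848 (cons (fin 783 7 783)
(mv 975 (cons (fin 784 5 783)
(mv 974 (cons (mv 973 (cons (fin 913 2 909)
(fin 972 0 972)))
(cons (mv 846 (cons (cons (mv 845 (cons (fin 913 0 845)
(mv 908 (cons (fin 909 1 844)
(mv 844 (cons (fin 907 1 843)
(mv 780 (cons (fin 779 3 779)
(fin 781 3 780)))))))))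
(mv 910 (cons (fin 782 4 782)
(mv 909 (cons (fin 977 3 909)
(mv 908 (cons (fin 845 1 844)
(fin 907 2 843))))))))
(cons (mv 910 (cons (fin 782 4 782)
(mv 977 (cons (fin 909 3 909)
(mv 978 (cons (fin 979 1 975)
(mv 914 (cons (fin 913 2 910)
(fin 915 2 911)))))))))
(mv 782 (cons (fin 910 4 782)
(mv 913 (cons (fin 845 0 845)
(mv 914 (cons (fin 915 3 847)
(fin 977 2 910))))))))))
(mv 973 (cons (fin 972 0 972)
(mv 909 (cons (fin 908 3 908)
(mv 910 (cons (fin 977 3 909)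
(mv 846 (cons (fin 782 5 781)
(fin 1101 6 845))))))))))))))))
(mv 1104 (cons (fin 911 7 847)
(mv 1169 (cons (fin 1105 4 912)
(mv 1168 (cons (fin 1233 4 976)
(mv 913 (cons (fin 977 6 912)
(mv 1231 (cons (fin 1167 5 975)
(mv 1232 (cons (fin 975 7 975)
(fin 1295 5 1039))))))))))))))))
(mv 849 (cons (cons (mv 785 (cons (fin 848 6 784)
(mv 913 (cons (fin 721 5 720)
(fin 977 5 784)))))
(mv 848 (cons (fin 785 6 784)
(mv 847 (cons (fin 783 7 783)
(mv 911 (cons (fin 1104 7 847)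
(mv 910 (cons (fin 850 1 846)
(fin 909 2 845))))))))))
(cons (mv 913 (cons (fin 1104 6 848)
(mv 850 (cons (cons (mv 851 (cons (fin 852 1 848)
(mv 911 (cons (fin 848 1 847)
(fin 910 2 846)))))
(mv 851 (cons (fin 852 1 848)
(mv 848 (cons (mv 783 (cons (fin 784 3 783)
(fin 847 7 783)))
(cons (mv 915 (cons (fin 916 0 848)
(mv 847 (cons (fin 914 3 847)
(mv 787 (cons (fin 786 2 783)
(fin 788 2 784)))))))
(mv 787 (cons (fin 788 2 784)
(mv 784 (cons (fin 783 3 783)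
(mv 720 (cons (fin 656 4 656)
(fin 977 4 720)))))))))))))
(cons (mv 911 (cons (fin 910 2 846)
(mv 847 (cons (mv 783 (cons (fin 848 7 783)
(fin 719 4 719)))
(cons (mv 846 (cons (fin 914 3 846)
(mv 845 (cons (fin 844 0 844)
(fin 848 0 845)))))
(mv 914 (cons (fin 846 3 846)
(mv 719 (cons (fin 783 4 719)
(mv 979 (cons (fin 978 0 911)
(mv 915 (cons (fin 980 0 912)
(mv 916 (cons (fin 917 3 849)
(fin 977 1 912))))))))))))))))
(mv 911 (cons (fin 910 2 846)
(mv 851 (cons (fin 852 1 848)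
(fin 914 2 847))))))))))
(mv 913 (cons (fin 1104 6 848)
(mv 785 (cons (fin 721 5 720)
(fin 977 5 784)))))))))
(cons (mv 848 (cons (cons (mv 783 (cons (fin 847 7 783)
(mv 784 (cons (fin 719 7 719)
(fin 975 5 783)))))
(mv 849 (cons (fin 785 6 784)
(mv 783 (cons (fin 847 7 783)
(mv 1104 (cons (fin 913 6 848)
(mv 1169 (cons (fin 1105 4 912)
(mv 1168 (cons (fin 1233 4 976)
(mv 1231 (cons (fin 1167 5 975)
(mv 1232 (cons (fin 975 7 975)
(fin 1295 5 1039))))))))))))))))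
(cons (mv 785 (cons (fin 849 6 784)
(mv 784 (cons (fin 975 5 783)
(fin 721 6 720)))))
(mv 783 (cons (fin 847 7 783)
(mv 784 (cons (fin 719 7 719)
(mv 785 (cons (fin 721 6 720)
(fin 849 6 784))))))))))
(mv 848 (cons (cons (mv 783 (cons (fin 847 7 783)
(mv 784 (cons (fin 719 7 719)
(fin 975 5 783)))))
(mv 785 (cons (fin 849 6 784)
(mv 847 (cons (fin 783 7 783)
(mv 1104 (cons (fin 911 7 847)
(mv 1169 (cons (fin 1105 4 912)
(mv 1168 (cons (fin 1233 4 976)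
(mv 1231 (cons (fin 1167 5 975)
(mv 1232 (cons (fin 975 7 975)
(fin 1295 5 1039))))))))))))))))
(cons (mv 784 (cons (fin 975 5 783)
(mv 785 (cons (fin 721 6 720)
(fin 849 6 784)))))
(mv 783 (cons (fin 847 7 783)
(mv 784 (cons (fin 719 7 719)
(mv 785 (cons (fin 721 6 720)
(fin 849 6 784))))))))))))))))
(cons (cons (mv 911 (cons (cons (cons (mv 1104 (cons (cons (mv 847 (cons (fin 976 7 847)
(fin 975 4 847)))
(mv 976 (cons (cons (mv 975 (cons (fin 1168 7 911)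
(mv 1105 (cons (fin 1169 4 912)
(mv 1106 (cons (fin 1107 3 1039)
(mv 1103 (cons (fin 1167 5 911)
(mv 846 (cons (fin 910 7 846)
(mv 1042 (cons (fin 1043 2 1039)
(mv 1170 (cons (fin 1171 0 1103)
(mv 913 (cons (fin 849 6 848)
(mv 914 (cons (fin 974 1 910)
(fin 915 1 911)))))))))))))))))))
(cons (mv 1105 (cons (fin 1169 4 912)
(mv 1106 (cons (fin 1107 3 1039)
(mv 1103 (cons (fin 1167 5 911)
(mv 913 (cons (fin 849 6 848)
(mv 1170 (cons (fin 1171 0 1103)
(mv 1042 (cons (fin 1043 2 1039)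
(mv 977 (cons (fin 978 7 913)
(mv 910 (cons (fin 909 0 909)
(mv 846 (cons (fin 845 3 845)
(fin 975 7 846)))))))))))))))))))
(mv 1103 (cons (fin 1167 5 911)
(mv 1105 (cons (fin 1169 4 912)
(mv 1106 (cons (fin 1107 3 1039)
(mv 913 (cons (fin 849 6 848)
(mv 1170 (cons (fin 1171 0 1103)
(mv 977 (cons (fin 1168 6 912)
(mv 1042 (cons (fin 1043 2 1039)
(fin 978 7 913)))))))))))))))))
(cons (mv 975 (cons (fin 1168 7 911)
(mv 1105 (cons (fin 1169 4 912)
(mv 1106 (cons (fin 1107 3 1039)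
(mv 913 (cons (fin 849 6 848)
(mv 974 (cons (fin 914 1 910)
(fin 973 2 909)))))))))))
(cons (mv 975 (cons (fin 1168 7 911)
(mv 1105 (cons (fin 1169 4 912)
(mv 1106 (cons (fin 1107 3 1039)
(mv 1103 (cons (fin 1167 5 911)
(mv 910 (cons (fin 846 7 846)
(mv 977 (cons (fin 978 3 910)
(fin 909 0 909)))))))))))))
(mv 975 (cons (fin 1168 7 911)
(mv 849 (cons (fin 913 6 848)
(mv 1103 (cons (fin 1167 5 911)
(mv 910 (cons (fin 846 7 846)
(mv 977 (cons (fin 978 3 910)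
(fin 909 0 909))))))))))))))))
(cons (mv 975 (cons (fin 847 4 847)
(mv 1168 (cons (fin 1232 7 975)
(fin 1103 4 911)))))
(mv 976 (cons (fin 847 7 847)
(mv 1103 (cons (fin 1167 5 911)
(mv 1105 (cons (fin 1169 4 912)
(mv 1106 (cons (fin 1107 3 1039)
(mv 913 (cons (fin 849 6 848)
(mv 1170 (cons (fin 1171 0 1103)
(mv 977 (cons (fin 1168 6 912)
(mv 1042 (cons (fin 1043 2 1039)
(fin 978 7 913))))))))))))))))))))
(mv 910 (cons (cons (cons (mv 913 (cons (cons (mv 845 (cons (fin 846 3 845)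
(mv 844 (cons (fin 909 3 844)
(mv 977 (cons (fin 978 0 910)
(mv 849 (cons (fin 850 2 846)
(mv 973 (cons (fin 974 1 909)
(mv 785 (cons (fin 976 5 784)
(mv 722 (cons (fin 786 6 721)
(mv 721 (cons (fin 658 6 657)
(mv 720 (cons (fin 656 7 656)
(fin 784 7 720)))))))))))))))))))
(mv 849 (cons (fin 850 2 846)
(mv 977 (cons (fin 978 0 910)
(mv 976 (cons (fin 909 0 909)
(fin 785 5 784))))))))
(cons (mv 845 (cons (fin 846 3 845)
(mv 844 (cons (fin 909 3 844)
(mv 850 (cons (fin 849 2 846)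
(mv 974 (cons (fin 973 1 909)
(mv 914 (cons (fin 975 1 910)
(fin 851 2 847)))))))))))
(cons (mv 977 (cons (fin 978 0 910)
(mv 909 (cons (fin 976 0 909)
(mv 973 (cons (fin 972 1 908)
(fin 974 1 909)))))))
(mv 845 (cons (fin 846 3 845)
(mv 849 (cons (fin 850 2 846)
(mv 977 (cons (fin 978 0 910)
(mv 973 (cons (fin 974 1 909)
(mv 785 (cons (fin 976 5 784)
(mv 722 (cons (fin 786 6 721)
(mv 721 (cons (fin 658 6 657)
(mv 720 (cons (fin 656 7 656)
(fin 784 7 720)))))))))))))))))))))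
(mv 909 (cons (cons (mv 844 (cons (fin 845 3 844)
(mv 843 (cons (fin 908 3 843)
(mv 976 (cons (fin 977 0 909)
(mv 973 (cons (fin 972 1 908)
(mv 846 (cons (fin 1101 6 845)
(mv 782 (cons (fin 718 5 717)
(fin 974 5 781)))))))))))))
(mv 844 (cons (fin 845 3 844)
(mv 908 (cons (fin 843 3 843)
(mv 976 (cons (fin 975 0 908)
(fin 977 0 909))))))))
(cons (mv 972 (cons (fin 973 1 908)
(mv 908 (cons (fin 971 1 907)
(mv 844 (cons (fin 843 3 843)
(fin 845 3 844)))))))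
(cons (mv 976 (cons (fin 977 0 909)
(mv 908 (cons (fin 975 0 908)
(mv 972 (cons (fin 971 1 907)
(fin 973 1 908)))))))
(mv 973 (cons (fin 972 1 908)
(mv 844 (cons (fin 845 3 844)
(mv 846 (cons (fin 1101 6 845)
(mv 782 (cons (fin 718 5 717)
(fin 974 5 781))))))))))))))
(cons (mv 913 (cons (cons (mv 845 (cons (fin 846 3 845)
(mv 849 (cons (fin 850 2 846)
(mv 977 (cons (fin 978 0 910)
(mv 973 (cons (fin 974 1 909)
(mv 785 (cons (fin 976 5 784)
(mv 722 (cons (fin 786 6 721)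
(mv 721 (cons (fin 658 6 657)
(mv 720 (cons (fin 656 7 656)
(fin 784 7 720)))))))))))))))))
(mv 977 (cons (fin 978 0 910)
(mv 849 (cons (fin 850 2 846)
(mv 973 (cons (fin 974 1 909)
(mv 785 (cons (fin 976 5 784)
(mv 722 (cons (fin 786 6 721)
(mv 721 (cons (fin 658 6 657)
(mv 720 (cons (fin 656 7 656)
(fin 784 7 720))))))))))))))))
(cons (mv 849 (cons (fin 850 2 846)
(mv 977 (cons (fin 978 0 910)
(mv 845 (cons (fin 846 3 845)
(mv 785 (cons (fin 976 5 784)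
(mv 722 (cons (fin 786 6 721)
(mv 721 (cons (fin 658 6 657)
(mv 720 (cons (fin 656 7 656)
(fin 784 7 720)))))))))))))))
(cons (mv 973 (cons (fin 974 1 909)
(mv 849 (cons (fin 850 2 846)
(mv 846 (cons (fin 845 3 845)
(mv 847 (cons (fin 914 3 846)
(mv 975 (cons (fin 782 7 782)
(fin 1103 7 846)))))))))))
(mv 845 (cons (fin 846 3 845)
(mv 974 (cons (fin 973 1 909)
(mv 978 (cons (fin 977 0 910)
(mv 914 (cons (fin 975 1 910)
(fin 979 0 911)))))))))))))
(cons (mv 909 (cons (cons (mv 844 (cons (fin 845 3 844)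
(mv 843 (cons (fin 908 3 843)
(mv 976 (cons (fin 977 0 909)
(mv 973 (cons (fin 972 1 908)
(mv 913 (cons (fin 974 1 909)
(mv 850 (cons (fin 849 2 846)
(mv 914 (cons (fin 851 2 847)
(mv 915 (cons (fin 975 1 911)
(mv 979 (cons (fin 978 0 911)
(fin 980 0 912)))))))))))))))))))
(mv 844 (cons (fin 845 3 844)
(mv 908 (cons (fin 843 3 843)
(mv 976 (cons (fin 975 0 908)
(fin 977 0 909))))))))
(cons (mv 972 (cons (fin 973 1 908)
(mv 908 (cons (fin 971 1 907)
(mv 844 (cons (fin 843 3 843)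
(fin 845 3 844)))))))
(cons (mv 976 (cons (fin 977 0 909)
(mv 908 (cons (fin 975 0 908)
(mv 972 (cons (fin 971 1 907)
(fin 973 1 908)))))))
(mv 973 (cons (fin 972 1 908)
(mv 844 (cons (fin 845 3 844)
(mv 913 (cons (fin 974 1 909)
(mv 977 (cons (fin 976 0 909)
(fin 978 0 910)))))))))))))
(mv 913 (cons (cons (mv 845 (cons (fin 846 3 845)
(mv 844 (cons (fin 909 3 844)
(mv 977 (cons (fin 978 0 910)
(mv 849 (cons (fin 850 2 846)
(mv 785 (cons (fin 976 5 784)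
(mv 722 (cons (fin 786 6 721)
(mv 721 (cons (fin 658 6 657)
(mv 720 (cons (fin 656 7 656)
(fin 784 7 720)))))))))))))))))
(cons (mv 849 (cons (fin 850 2 846)
(mv 977 (cons (fin 978 0 910)
(mv 976 (cons (fin 909 0 909)
(fin 785 5 784)))))))
(mv 845 (cons (fin 846 3 845)
(mv 844 (cons (fin 909 3 844)
(mv 850 (cons (fin 849 2 846)
(mv 914 (cons (fin 851 2 847)
(mv 975 (cons (fin 974 1 910)
(mv 979 (cons (fin 978 0 911)
(mv 915 (cons (fin 976 1 911)
(fin 980 0 912)))))))))))))))))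
(cons (cons (mv 849 (cons (fin 850 2 846)
(mv 845 (cons (fin 846 3 845)
(mv 909 (cons (fin 844 3 844)
(mv 976 (cons (fin 977 0 909)
(mv 975 (cons (fin 908 0 908)
(mv 914 (cons (fin 974 1 910)
(fin 915 1 911)))))))))))))
(mv 845 (cons (fin 846 3 845)
(mv 909 (cons (fin 844 3 844)
(mv 977 (cons (fin 976 0 909)
(fin 978 0 910))))))))
(cons (mv 977 (cons (fin 978 0 910)
(mv 849 (cons (fin 850 2 846)
(mv 845 (cons (fin 846 3 845)
(mv 785 (cons (fin 976 5 784)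
(mv 722 (cons (fin 786 6 721)
(mv 721 (cons (fin 658 6 657)
(mv 720 (cons (fin 656 7 656)
(fin 784 7 720)))))))))))))))
(mv 849 (cons (fin 850 2 846)
(mv 977 (cons (fin 978 0 910)
(mv 846 (cons (fin 845 3 845)
(mv 847 (cons (fin 914 3 846)
(mv 975 (cons (fin 782 7 782)
(fin 1103 7 846))))))))))))))))))
(cons (cons (mv 913 (cons (cons (mv 845 (cons (fin 846 3 845)
(mv 844 (cons (fin 909 3 844)
(mv 850 (cons (fin 849 2 846)
(mv 974 (cons (fin 973 1 909)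
(mv 914 (cons (fin 975 1 910)
(fin 851 2 847)))))))))))
(mv 849 (cons (fin 850 2 846)
(mv 973 (cons (fin 974 1 909)
(mv 909 (cons (fin 972 1 908)
(mv 844 (cons (fin 845 3 844)
(mv 908 (cons (fin 843 3 843)
(fin 1101 7 844))))))))))))
(cons (mv 846 (cons (fin 845 3 845)
(mv 849 (cons (fin 850 2 846)
(mv 975 (cons (fin 1103 7 846)
(mv 847 (cons (fin 914 3 846)
(fin 782 7 782)))))))))
(cons (mv 849 (cons (fin 850 2 846)
(mv 973 (cons (fin 974 1 909)
(mv 909 (cons (fin 972 1 908)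
(mv 846 (cons (fin 1101 6 845)
(mv 718 (cons (fin 782 5 717)
(mv 975 (cons (fin 1103 7 846)
(mv 908 (cons (fin 976 0 908)
(mv 847 (cons (fin 914 3 846)
(fin 907 2 843)))))))))))))))))
(mv 973 (cons (fin 974 1 909)
(mv 909 (cons (fin 972 1 908)
(mv 845 (cons (fin 844 3 844)
(fin 846 3 845)))))))))))
(mv 913 (cons (cons (mv 973 (cons (fin 974 1 909)
(mv 909 (cons (fin 972 1 908)
(mv 977 (cons (fin 976 0 909)
(fin 978 0 910)))))))
(cons (mv 977 (cons (fin 978 0 910)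
(mv 909 (cons (fin 976 0 909)
(mv 973 (cons (fin 972 1 908)
(mv 849 (cons (fin 850 2 846)
(mv 846 (cons (fin 1101 6 845)
(mv 782 (cons (fin 718 5 717)
(mv 847 (cons (fin 914 3 846)
(fin 975 7 782)))))))))))))))
(mv 849 (cons (fin 850 2 846)
(mv 977 (cons (fin 978 0 910)
(mv 976 (cons (fin 909 0 909)
(fin 785 5 784)))))))))
(cons (mv 849 (cons (fin 850 2 846)
(mv 973 (cons (fin 974 1 909)
(mv 909 (cons (fin 972 1 908)
(mv 846 (cons (fin 1101 6 845)
(mv 718 (cons (fin 782 5 717)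
(mv 975 (cons (fin 1103 7 846)
(mv 908 (cons (fin 976 0 908)
(mv 847 (cons (fin 914 3 846)
(fin 907 2 843)))))))))))))))))
(cons (mv 973 (cons (fin 974 1 909)
(mv 977 (cons (fin 978 0 910)
(mv 849 (cons (fin 850 2 846)
(mv 785 (cons (fin 976 5 784)
(mv 722 (cons (fin 786 6 721)
(mv 721 (cons (fin 658 6 657)
(mv 720 (cons (fin 656 7 656)
(fin 784 7 720)))))))))))))))
(mv 849 (cons (fin 850 2 846)
(mv 973 (cons (fin 974 1 909)
(mv 909 (cons (fin 972 1 908)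
(mv 977 (cons (fin 978 0 910)
(mv 846 (cons (fin 1101 6 845)
(mv 782 (cons (fin 718 5 717)
(mv 847 (cons (fin 914 3 846)
(fin 975 7 782))))))))))))))))))))
(cons (mv 913 (cons (cons (mv 845 (cons (fin 846 3 845)
(mv 844 (cons (fin 909 3 844)
(mv 977 (cons (fin 978 0 910)
(mv 849 (cons (fin 850 2 846)
(mv 973 (cons (fin 974 1 909)
(mv 785 (cons (fin 976 5 784)
(mv 722 (cons (fin 786 6 721)
(mv 721 (cons (fin 658 6 657)
(mv 720 (cons (fin 656 7 656)
(fin 784 7 720)))))))))))))))))))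
(mv 849 (cons (fin 850 2 846)
(mv 977 (cons (fin 978 0 910)
(mv 976 (cons (fin 909 0 909)
(fin 785 5 784))))))))
(cons (mv 973 (cons (fin 974 1 909)
(mv 909 (cons (fin 972 1 908)
(mv 845 (cons (fin 844 3 844)
(fin 846 3 845)))))))
(mv 849 (cons (fin 850 2 846)
(mv 977 (cons (fin 978 0 910)
(mv 973 (cons (fin 974 1 909)
(mv 785 (cons (fin 976 5 784)
(mv 722 (cons (fin 786 6 721)
(mv 721 (cons (fin 658 6 657)
(mv 720 (cons (fin 656 7 656)
(fin 784 7 720))))))))))))))))))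
(cons (mv 909 (cons (cons (mv 844 (cons (fin 845 3 844)
(mv 843 (cons (fin 908 3 843)
(mv 976 (cons (fin 977 0 909)
(mv 973 (cons (fin 972 1 908)
(mv 846 (cons (fin 1101 6 845)
(mv 782 (cons (fin 718 5 717)
(mv 975 (cons (fin 847 7 782)
(fin 1103 7 846)))))))))))))))
(mv 844 (cons (fin 845 3 844)
(mv 908 (cons (fin 843 3 843)
(mv 976 (cons (fin 975 0 908)
(fin 977 0 909))))))))
(cons (mv 972 (cons (fin 973 1 908)
(mv 908 (cons (fin 971 1 907)
(mv 844 (cons (fin 843 3 843)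
(fin 845 3 844)))))))
(cons (mv 976 (cons (fin 977 0 909)
(mv 908 (cons (fin 975 0 908)
(mv 972 (cons (fin 971 1 907)
(fin 973 1 908)))))))
(mv 972 (cons (fin 973 1 908)
(mv 845 (cons (fin 844 3 844)
(mv 976 (cons (fin 977 0 909)
(mv 846 (cons (fin 913 3 845)
(mv 975 (cons (fin 1103 7 846)
(mv 847 (cons (fin 782 7 782)
(fin 783 4 783)))))))))))))))))
(mv 913 (cons (cons (mv 845 (cons (fin 846 3 845)
(mv 844 (cons (fin 909 3 844)
(mv 977 (cons (fin 978 0 910)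
(mv 850 (cons (fin 849 2 846)
(mv 974 (cons (fin 973 1 909)
(mv 914 (cons (fin 975 1 910)
(fin 851 2 847)))))))))))))
(cons (mv 849 (cons (fin 850 2 846)
(mv 977 (cons (fin 978 0 910)
(mv 973 (cons (fin 974 1 909)
(mv 909 (cons (fin 972 1 908)
(mv 844 (cons (fin 845 3 844)
(mv 908 (cons (fin 843 3 843)
(fin 1101 7 844)))))))))))))
(mv 845 (cons (fin 846 3 845)
(mv 844 (cons (fin 909 3 844)
(mv 850 (cons (fin 849 2 846)
(mv 978 (cons (fin 977 0 910)
(mv 914 (cons (fin 851 2 847)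
(fin 979 0 911)))))))))))))
(cons (cons (mv 849 (cons (fin 850 2 846)
(mv 973 (cons (fin 974 1 909)
(mv 909 (cons (fin 972 1 908)
(mv 977 (cons (fin 978 0 910)
(mv 846 (cons (fin 1101 6 845)
(mv 782 (cons (fin 718 5 717)
(mv 847 (cons (fin 914 3 846)
(fin 975 7 782)))))))))))))))
(mv 849 (cons (fin 850 2 846)
(mv 973 (cons (fin 974 1 909)
(mv 909 (cons (fin 972 1 908)
(mv 845 (cons (fin 844 3 844)
(fin 846 3 845))))))))))
(cons (mv 845 (cons (fin 846 3 845)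
(mv 844 (cons (fin 909 3 844)
(mv 978 (cons (fin 977 0 910)
(mv 974 (cons (fin 973 1 909)
(mv 914 (cons (fin 975 1 910)
(fin 979 0 911)))))))))))
(mv 977 (cons (fin 978 0 910)
(mv 849 (cons (fin 850 2 846)
(mv 846 (cons (fin 845 3 845)
(mv 973 (cons (fin 974 1 909)
(mv 975 (cons (fin 1103 7 846)
(mv 847 (cons (fin 914 3 846)
(fin 782 7 782)))))))))))))))))))))))
(cons (mv 910 (cons (cons (cons (mv 913 (cons (cons (mv 845 (cons (fin 846 3 845)
(mv 844 (cons (fin 909 3 844)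
(mv 977 (cons (fin 978 0 910)
(mv 849 (cons (fin 850 2 846)
(mv 976 (cons (fin 785 5 784)
(fin 1104 6 848)))))))))))
(mv 973 (cons (fin 974 1 909)
(mv 909 (cons (fin 972 1 908)
(mv 845 (cons (fin 844 3 844)
(fin 846 3 845))))))))
(cons (mv 977 (cons (fin 978 0 910)
(mv 909 (cons (fin 976 0 909)
(mv 973 (cons (fin 972 1 908)
(fin 974 1 909)))))))
(mv 973 (cons (fin 974 1 909)
(mv 845 (cons (fin 846 3 845)
(mv 977 (cons (fin 978 0 910)
(mv 849 (cons (fin 850 2 846)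
(mv 976 (cons (fin 785 5 784)
(fin 1104 6 848))))))))))))))
(mv 909 (cons (cons (mv 844 (cons (fin 845 3 844)
(mv 843 (cons (fin 908 3 843)
(mv 976 (cons (fin 977 0 909)
(mv 973 (cons (fin 972 1 908)
(mv 846 (cons (fin 1101 6 845)
(mv 782 (cons (fin 718 5 717)
(fin 974 5 781)))))))))))))
(mv 844 (cons (fin 845 3 844)
(mv 908 (cons (fin 843 3 843)
(mv 976 (cons (fin 975 0 908)
(fin 977 0 909))))))))
(cons (mv 972 (cons (fin 973 1 908)
(mv 908 (cons (fin 971 1 907)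
(mv 844 (cons (fin 843 3 843)
(fin 845 3 844)))))))
(cons (mv 976 (cons (fin 977 0 909)
(mv 908 (cons (fin 975 0 908)
(mv 972 (cons (fin 971 1 907)
(fin 973 1 908)))))))
(mv 973 (cons (fin 972 1 908)
(mv 844 (cons (fin 845 3 844)
(mv 846 (cons (fin 1101 6 845)
(mv 782 (cons (fin 718 5 717)
(fin 974 5 781))))))))))))))
(cons (mv 913 (cons (cons (cons (mv 973 (cons (fin 974 1 909)
(mv 845 (cons (fin 846 3 845)
(mv 977 (cons (fin 978 0 910)
(mv 849 (cons (fin 850 2 846)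
(mv 976 (cons (fin 785 5 784)
(fin 1104 6 848)))))))))))
(mv 845 (cons (fin 846 3 845)
(mv 849 (cons (fin 850 2 846)
(mv 977 (cons (fin 978 0 910)
(mv 976 (cons (fin 785 5 784)
(fin 1104 6 848))))))))))
(cons (mv 849 (cons (fin 850 2 846)
(mv 845 (cons (fin 846 3 845)
(mv 976 (cons (fin 1104 6 848)
(mv 785 (cons (fin 721 5 720)
(fin 977 5 784)))))))))
(mv 973 (cons (fin 974 1 909)
(mv 977 (cons (fin 978 0 910)
(mv 849 (cons (fin 850 2 846)
(mv 976 (cons (fin 785 5 784)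
(fin 1104 6 848)))))))))))
(cons (cons (mv 845 (cons (fin 846 3 845)
(mv 974 (cons (fin 973 1 909)
(mv 977 (cons (fin 978 0 910)
(mv 914 (cons (fin 975 1 910)
(mv 851 (cons (fin 850 2 847)
(mv 915 (cons (fin 852 2 848)
(mv 916 (cons (fin 976 1 912)
(mv 980 (cons (fin 979 0 912)
(fin 981 0 913)))))))))))))))))
(mv 973 (cons (fin 974 1 909)
(mv 846 (cons (fin 845 3 845)
(mv 978 (cons (fin 977 0 910)
(mv 975 (cons (fin 1103 7 846)
(mv 914 (cons (fin 979 0 911)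
(mv 976 (cons (fin 915 1 911)
(mv 1104 (cons (fin 1168 7 911)
(fin 849 6 848))))))))))))))))
(cons (mv 845 (cons (fin 846 3 845)
(mv 974 (cons (fin 973 1 909)
(mv 849 (cons (fin 850 2 846)
(mv 975 (cons (fin 914 1 910)
(mv 1104 (cons (fin 976 6 848)
(mv 1103 (cons (fin 1167 7 910)
(fin 1168 4 911)))))))))))))
(mv 973 (cons (fin 974 1 909)
(mv 978 (cons (fin 977 0 910)
(mv 845 (cons (fin 846 3 845)
(mv 914 (cons (fin 979 0 911)
(mv 850 (cons (fin 849 2 846)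
(fin 851 2 847)))))))))))))))
(mv 913 (cons (cons (mv 845 (cons (fin 846 3 845)
(mv 844 (cons (fin 909 3 844)
(mv 977 (cons (fin 978 0 910)
(mv 849 (cons (fin 850 2 846)
(mv 976 (cons (fin 785 5 784)
(fin 1104 6 848)))))))))))
(mv 849 (cons (fin 850 2 846)
(mv 845 (cons (fin 846 3 845)
(mv 909 (cons (fin 844 3 844)
(mv 976 (cons (fin 1104 6 848)
(mv 721 (cons (fin 785 5 720)
(mv 975 (cons (fin 908 0 908)
(mv 914 (cons (fin 974 1 910)
(fin 915 1 911))))))))))))))))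
(cons (mv 977 (cons (fin 978 0 910)
(mv 909 (cons (fin 976 0 909)
(mv 845 (cons (fin 844 3 844)
(fin 846 3 845)))))))
(cons (mv 849 (cons (fin 850 2 846)
(mv 977 (cons (fin 978 0 910)
(mv 976 (cons (fin 909 0 909)
(fin 785 5 784)))))))
(mv 977 (cons (fin 978 0 910)
(mv 846 (cons (fin 845 3 845)
(mv 849 (cons (fin 850 2 846)
(mv 975 (cons (fin 1103 7 846)
(mv 782 (cons (fin 718 4 718)
(fin 974 4 782)))))))))))))))))
(cons (cons (mv 913 (cons (cons (mv 977 (cons (fin 978 0 910)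
(mv 909 (cons (fin 976 0 909)
(mv 973 (cons (fin 972 1 908)
(fin 974 1 909)))))))
(mv 973 (cons (fin 974 1 909)
(mv 909 (cons (fin 972 1 908)
(mv 844 (cons (fin 845 3 844)
(mv 908 (cons (fin 843 3 843)
(fin 1101 7 844))))))))))
(cons (mv 849 (cons (fin 850 2 846)
(mv 977 (cons (fin 978 0 910)
(mv 976 (cons (fin 909 0 909)
(fin 785 5 784)))))))
(mv 973 (cons (fin 974 1 909)
(mv 977 (cons (fin 978 0 910)
(mv 849 (cons (fin 850 2 846)
(mv 976 (cons (fin 785 5 784)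
(fin 1104 6 848))))))))))))
(mv 913 (cons (cons (mv 973 (cons (fin 974 1 909)
(mv 909 (cons (fin 972 1 908)
(mv 845 (cons (fin 844 3 844)
(fin 846 3 845)))))))
(cons (mv 845 (cons (fin 846 3 845)
(mv 909 (cons (fin 844 3 844)
(mv 849 (cons (fin 850 2 846)
(mv 972 (cons (fin 973 1 908)
(mv 908 (cons (fin 971 1 907)
(mv 976 (cons (fin 975 0 908)
(fin 1104 6 848)))))))))))))
(mv 849 (cons (fin 850 2 846)
(mv 845 (cons (fin 846 3 845)
(mv 909 (cons (fin 844 3 844)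
(mv 976 (cons (fin 1104 6 848)
(mv 721 (cons (fin 785 5 720)
(mv 975 (cons (fin 908 0 908)
(mv 914 (cons (fin 974 1 910)
(fin 915 1 911)))))))))))))))))
(cons (mv 973 (cons (fin 974 1 909)
(mv 909 (cons (fin 972 1 908)
(mv 844 (cons (fin 845 3 844)
(mv 908 (cons (fin 843 3 843)
(fin 1101 7 844)))))))))
(cons (mv 849 (cons (fin 850 2 846)
(mv 973 (cons (fin 974 1 909)
(mv 909 (cons (fin 972 1 908)
(mv 976 (cons (fin 1104 6 848)
(mv 721 (cons (fin 785 5 720)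
(mv 908 (cons (fin 975 0 908)
(mv 844 (cons (fin 843 3 843)
(fin 1101 7 844)))))))))))))))
(mv 845 (cons (fin 846 3 845)
(mv 974 (cons (fin 973 1 909)
(mv 849 (cons (fin 850 2 846)
(mv 975 (cons (fin 914 1 910)
(mv 1104 (cons (fin 976 6 848)
(mv 1103 (cons (fin 1167 7 910)
(fin 1168 4 911))))))))))))))))))
(cons (mv 913 (cons (cons (mv 973 (cons (fin 974 1 909)
(mv 909 (cons (fin 972 1 908)
(mv 977 (cons (fin 976 0 909)
(fin 978 0 910)))))))
(cons (mv 977 (cons (fin 978 0 910)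
(mv 909 (cons (fin 976 0 909)
(mv 973 (cons (fin 972 1 908)
(mv 849 (cons (fin 850 2 846)
(mv 1101 (cons (fin 846 6 845)
(mv 1100 (cons (fin 1164 5 908)
(mv 1102 (cons (fin 1103 2 1036)
(fin 1166 4 909)))))))))))))))
(mv 849 (cons (fin 850 2 846)
(mv 977 (cons (fin 978 0 910)
(mv 976 (cons (fin 909 0 909)
(fin 785 5 784)))))))))
(cons (mv 849 (cons (fin 850 2 846)
(mv 973 (cons (fin 974 1 909)
(mv 909 (cons (fin 972 1 908)
(mv 976 (cons (fin 1104 6 848)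
(mv 721 (cons (fin 785 5 720)
(mv 908 (cons (fin 975 0 908)
(mv 844 (cons (fin 843 3 843)
(fin 1101 7 844)))))))))))))))
(cons (mv 973 (cons (fin 974 1 909)
(mv 909 (cons (fin 972 1 908)
(mv 977 (cons (fin 978 0 910)
(mv 849 (cons (fin 850 2 846)
(mv 1101 (cons (fin 846 6 845)
(mv 1100 (cons (fin 1164 5 908)
(mv 1102 (cons (fin 1103 2 1036)
(fin 1166 4 909)))))))))))))))
(mv 977 (cons (fin 978 0 910)
(mv 973 (cons (fin 974 1 909)
(mv 849 (cons (fin 850 2 846)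
(mv 976 (cons (fin 785 5 784)
(fin 1104 6 848)))))))))))))
(cons (mv 913 (cons (cons (mv 845 (cons (fin 846 3 845)
(mv 844 (cons (fin 909 3 844)
(mv 977 (cons (fin 978 0 910)
(mv 850 (cons (fin 849 2 846)
(mv 974 (cons (fin 973 1 909)
(mv 914 (cons (fin 975 1 910)
(fin 851 2 847)))))))))))))
(mv 850 (cons (fin 849 2 846)
(mv 978 (cons (fin 977 0 910)
(mv 914 (cons (fin 851 2 847)
(fin 979 0 911))))))))
(cons (mv 849 (cons (fin 850 2 846)
(mv 973 (cons (fin 974 1 909)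
(mv 909 (cons (fin 972 1 908)
(mv 845 (cons (fin 844 3 844)
(fin 846 3 845)))))))))
(mv 845 (cons (fin 846 3 845)
(mv 844 (cons (fin 909 3 844)
(mv 978 (cons (fin 977 0 910)
(mv 974 (cons (fin 973 1 909)
(mv 914 (cons (fin 975 1 910)
(fin 979 0 911))))))))))))))
(mv 909 (cons (cons (mv 844 (cons (fin 845 3 844)
(mv 843 (cons (fin 908 3 843)
(mv 976 (cons (fin 977 0 909)
(mv 973 (cons (fin 972 1 908)
(mv 846 (cons (fin 1101 6 845)
(mv 718 (cons (fin 782 5 717)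
(mv 1103 (cons (fin 975 7 846)
(mv 1167 (cons (fin 1104 5 911)
(fin 1231 6 975)))))))))))))))))
(mv 972 (cons (fin 973 1 908)
(mv 908 (cons (fin 971 1 907)
(mv 844 (cons (fin 843 3 843)
(fin 845 3 844))))))))
(cons (mv 844 (cons (fin 845 3 844)
(mv 908 (cons (fin 843 3 843)
(mv 976 (cons (fin 975 0 908)
(fin 977 0 909)))))))
(cons (mv 976 (cons (fin 977 0 909)
(mv 908 (cons (fin 975 0 908)
(mv 972 (cons (fin 971 1 907)
(fin 973 1 908)))))))
(mv 972 (cons (fin 973 1 908)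
(mv 845 (cons (fin 844 3 844)
(mv 976 (cons (fin 977 0 909)
(mv 846 (cons (fin 913 3 845)
(mv 1103 (cons (fin 975 7 846)
(mv 1167 (cons (fin 1104 5 911)
(fin 1231 6 975))))))))))))))))))))))
(cons (mv 976 (cons (cons (mv 1104 (cons (fin 847 7 847)
(mv 1103 (cons (fin 1167 5 911)
(mv 1105 (cons (fin 1169 4 912)
(mv 1106 (cons (fin 1107 3 1039)
(mv 913 (cons (fin 849 6 848)
(mv 1170 (cons (fin 1171 0 1103)
(mv 977 (cons (fin 1168 6 912)
(mv 1042 (cons (fin 1043 2 1039)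
(fin 978 7 913)))))))))))))))))
(mv 910 (cons (cons (mv 909 (cons (fin 977 0 909)
(mv 972 (cons (fin 973 1 908)
(mv 908 (cons (fin 971 1 907)
(mv 844 (cons (fin 843 3 843)
(fin 845 3 844)))))))))
(mv 913 (cons (cons (mv 845 (cons (fin 846 3 845)
(mv 909 (cons (fin 844 3 844)
(mv 973 (cons (fin 972 1 908)
(fin 974 1 909)))))))
(mv 850 (cons (fin 849 2 846)
(mv 846 (cons (fin 845 3 845)
(mv 914 (cons (fin 847 3 846)
(fin 851 2 847))))))))
(cons (mv 849 (cons (fin 850 2 846)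
(mv 973 (cons (fin 974 1 909)
(mv 909 (cons (fin 972 1 908)
(mv 844 (cons (fin 845 3 844)
(mv 908 (cons (fin 843 3 843)
(fin 1101 7 844)))))))))))
(mv 849 (cons (fin 850 2 846)
(mv 973 (cons (fin 974 1 909)
(mv 909 (cons (fin 972 1 908)
(mv 721 (cons (fin 785 5 720)
(mv 1101 (cons (fin 846 6 845)
(mv 1100 (cons (fin 1164 5 908)
(mv 1102 (cons (fin 1103 2 1036)
(fin 1166 4 909)))))))))))))))))))
(cons (mv 913 (cons (cons (mv 845 (cons (fin 846 3 845)
(mv 977 (cons (fin 978 0 910)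
(mv 849 (cons (fin 850 2 846)
(fin 785 5 784)))))))
(mv 846 (cons (fin 845 3 845)
(mv 850 (cons (fin 849 2 846)
(mv 914 (cons (fin 847 3 846)
(fin 851 2 847))))))))
(cons (mv 973 (cons (fin 974 1 909)
(mv 977 (cons (fin 978 0 910)
(mv 846 (cons (fin 845 3 845)
(mv 914 (cons (fin 847 3 846)
(mv 915 (cons (fin 916 1 912)
(mv 851 (cons (fin 850 2 847)
(fin 852 2 848)))))))))))))
(cons (mv 849 (cons (fin 850 2 846)
(mv 785 (cons (fin 721 5 720)
(fin 977 5 784)))))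
(mv 973 (cons (fin 974 1 909)
(mv 846 (cons (fin 845 3 845)
(mv 978 (cons (fin 977 0 910)
(mv 914 (cons (fin 847 3 846)
(fin 979 0 911)))))))))))))
(mv 977 (cons (fin 909 0 909)
(mv 978 (cons (fin 979 3 911)
(fin 913 0 910)))))))))
(cons (mv 1104 (cons (cons (mv 1103 (cons (fin 1167 5 911)
(mv 1105 (cons (fin 1169 4 912)
(mv 1106 (cons (fin 1107 3 1039)
(mv 913 (cons (fin 849 6 848)
(mv 1170 (cons (fin 1171 0 1103)
(mv 977 (cons (fin 1168 6 912)
(mv 1042 (cons (fin 1043 2 1039)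
(fin 978 7 913)))))))))))))))
(mv 1105 (cons (fin 1169 4 912)
(mv 1106 (cons (fin 1107 3 1039)
(mv 913 (cons (fin 849 6 848)
(mv 977 (cons (fin 1168 6 912)
(mv 978 (cons (fin 979 3 911)
(fin 910 0 910))))))))))))
(cons (mv 1167 (cons (fin 1103 5 911)
(mv 1169 (cons (fin 1105 4 912)
(mv 1168 (cons (fin 1231 5 975)
(fin 1233 4 976)))))))
(cons (mv 1103 (cons (fin 1167 5 911)
(mv 913 (cons (fin 849 6 848)
(mv 977 (cons (fin 1168 6 912)
(mv 978 (cons (fin 979 3 911)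
(fin 910 0 910)))))))))
(mv 913 (cons (fin 849 6 848)
(mv 1105 (cons (fin 1169 4 912)
(mv 1106 (cons (fin 1107 3 1039)
(mv 1103 (cons (fin 1167 5 911)
(mv 1170 (cons (fin 1171 0 1103)
(mv 1042 (cons (fin 1043 2 1039)
(mv 978 (cons (fin 977 7 913)
(mv 979 (cons (fin 914 0 911)
(fin 915 6 914)))))))))))))))))))))
(cons (mv 1104 (cons (fin 847 7 847)
(mv 1167 (cons (fin 1103 5 911)
(mv 1169 (cons (fin 1105 4 912)
(mv 1168 (cons (fin 1231 5 975)
(fin 1233 4 976)))))))))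
(mv 1104 (cons (fin 847 7 847)
(mv 913 (cons (fin 849 6 848)
(mv 1105 (cons (fin 1169 4 912)
(mv 1106 (cons (fin 1107 3 1039)
(mv 977 (cons (fin 1168 6 912)
(mv 978 (cons (fin 979 3 911)
(fin 910 0 910)))))))))))))))))
(mv 975 (cons (cons (mv 847 (cons (fin 1104 4 847)
(mv 846 (cons (fin 782 7 782)
(mv 844 (cons (fin 845 0 844)
(mv 910 (cons (fin 1103 7 846)
(mv 913 (cons (fin 914 3 846)
(mv 973 (cons (fin 974 1 909)
(mv 909 (cons (fin 972 1 908)
(fin 1101 6 845)))))))))))))))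
(mv 910 (cons (mv 846 (cons (fin 1103 7 846)
(mv 782 (cons (fin 847 7 782)
(fin 718 4 718)))))
(mv 973 (cons (mv 972 (cons (fin 909 1 908)
(fin 974 2 908)))
(cons (mv 909 (cons (fin 972 1 908)
(mv 844 (cons (fin 845 3 844)
(mv 908 (cons (fin 843 3 843)
(fin 1101 7 844)))))))
(mv 913 (cons (fin 974 1 909)
(mv 978 (cons (fin 977 0 910)
(mv 850 (cons (fin 849 2 846)
(mv 914 (cons (fin 851 2 847)
(fin 979 0 911)))))))))))))))
(cons (mv 1103 (cons (cons (mv 1102 (cons (fin 1166 5 910)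
(mv 1100 (cons (fin 1101 2 1036)
(mv 1104 (cons (fin 1168 4 911)
(mv 910 (cons (fin 846 7 846)
(mv 974 (cons (fin 1167 7 910)
(mv 973 (cons (fin 913 1 909)
(fin 972 2 908)))))))))))))
(mv 910 (cons (fin 846 7 846)
(mv 1102 (cons (fin 1166 5 910)
(mv 1100 (cons (fin 1101 2 1036)
(mv 974 (cons (fin 1167 7 910)
(mv 973 (cons (fin 913 1 909)
(fin 972 2 908))))))))))))
(cons (mv 1168 (cons (fin 1104 4 911)
(mv 1166 (cons (fin 1102 5 910)
(mv 1167 (cons (fin 1230 5 974)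
(fin 1232 4 975)))))))
(cons (mv 1104 (cons (fin 1168 4 911)
(mv 910 (cons (fin 846 7 846)
(mv 974 (cons (fin 1167 7 910)
(mv 973 (cons (fin 913 1 909)
(fin 972 2 908)))))))))
(mv 910 (cons (fin 846 7 846)
(mv 1102 (cons (fin 1166 5 910)
(mv 1101 (cons (fin 1100 2 1036)
(mv 1104 (cons (fin 1168 4 911)
(mv 1165 (cons (fin 1164 1 1100)
(mv 973 (cons (fin 974 6 909)
(mv 972 (cons (fin 909 1 908)
(fin 908 7 908)))))))))))))))))))
(cons (mv 847 (cons (fin 1104 4 847)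
(mv 846 (cons (fin 782 7 782)
(mv 845 (cons (fin 844 0 844)
(mv 913 (cons (fin 910 3 845)
(fin 914 3 846)))))))))
(mv 1104 (cons (fin 847 4 847)
(mv 1168 (cons (fin 1232 7 975)
(fin 1103 4 911))))))))))))
(cons (cons (mv 910 (cons (cons (mv 909 (cons (cons (mv 844 (cons (fin 845 3 844)
(mv 843 (cons (fin 908 3 843)
(mv 976 (cons (fin 977 0 909)
(mv 972 (cons (fin 973 1 908)
(mv 847 (cons (fin 1104 7 847)
(mv 783 (cons (fin 719 4 719)
(fin 975 4 783)))))))))))))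
(mv 844 (cons (fin 845 3 844)
(mv 843 (cons (fin 908 3 843)
(mv 973 (cons (fin 972 1 908)
(mv 846 (cons (fin 1101 6 845)
(mv 782 (cons (fin 718 5 717)
(fin 974 5 781))))))))))))
(cons (mv 976 (cons (fin 977 0 909)
(mv 908 (cons (fin 975 0 908)
(mv 844 (cons (fin 843 3 843)
(fin 845 3 844)))))))
(cons (mv 976 (cons (fin 977 0 909)
(mv 908 (cons (fin 975 0 908)
(mv 972 (cons (fin 971 1 907)
(fin 973 1 908)))))))
(mv 976 (cons (fin 977 0 909)
(mv 844 (cons (fin 845 3 844)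
(mv 847 (cons (fin 1104 7 847)
(mv 783 (cons (fin 719 4 719)
(fin 975 4 783)))))))))))))
(cons (mv 975 (cons (cons (mv 846 (cons (fin 1103 7 846)
(mv 847 (cons (fin 782 7 782)
(fin 1104 4 847)))))
(mv 847 (cons (fin 1104 4 847)
(mv 783 (cons (fin 976 4 783)
(mv 782 (cons (fin 718 7 718)
(fin 846 7 782))))))))
(cons (mv 846 (cons (fin 1103 7 846)
(mv 782 (cons (fin 847 7 782)
(fin 718 4 718)))))
(cons (mv 846 (cons (fin 1103 7 846)
(mv 782 (cons (fin 718 4 718)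
(fin 974 4 782)))))
(mv 847 (cons (fin 1104 4 847)
(mv 783 (cons (fin 976 4 783)
(mv 720 (cons (fin 784 6 719)
(mv 719 (cons (fin 974 5 718)
(fin 656 6 655)))))))))))))
(mv 909 (cons (cons (mv 844 (cons (fin 845 3 844)
(mv 843 (cons (fin 908 3 843)
(mv 976 (cons (fin 977 0 909)
(mv 972 (cons (fin 973 1 908)
(mv 1104 (cons (fin 847 7 847)
(mv 1167 (cons (fin 1103 5 911)
(mv 1169 (cons (fin 1105 4 912)
(mv 1168 (cons (fin 1231 5 975)
(fin 1233 4 976)))))))))))))))))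
(mv 976 (cons (fin 977 0 909)
(mv 844 (cons (fin 845 3 844)
(mv 843 (cons (fin 908 3 843)
(mv 1104 (cons (fin 847 7 847)
(mv 1167 (cons (fin 1103 5 911)
(mv 1169 (cons (fin 1105 4 912)
(mv 1168 (cons (fin 1231 5 975)
(fin 1233 4 976))))))))))))))))
(cons (mv 972 (cons (fin 973 1 908)
(mv 908 (cons (fin 971 1 907)
(mv 844 (cons (fin 843 3 843)
(fin 845 3 844)))))))
(cons (mv 972 (cons (fin 973 1 908)
(mv 908 (cons (fin 971 1 907)
(mv 976 (cons (fin 977 0 909)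
(mv 1104 (cons (fin 847 7 847)
(mv 1167 (cons (fin 1103 5 911)
(mv 1169 (cons (fin 1105 4 912)
(mv 1168 (cons (fin 1231 5 975)
(fin 1233 4 976)))))))))))))))
(mv 976 (cons (fin 977 0 909)
(mv 844 (cons (fin 845 3 844)
(mv 847 (cons (fin 1104 7 847)
(mv 973 (cons (fin 972 1 908)
(mv 719 (cons (fin 783 4 719)
(mv 846 (cons (fin 1101 6 845)
(mv 782 (cons (fin 718 5 717)
(fin 974 5 781)))))))))))))))))))))
(cons (mv 975 (cons (cons (mv 846 (cons (fin 1103 7 846)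
(mv 847 (cons (fin 782 7 782)
(fin 1104 4 847)))))
(mv 1104 (cons (fin 847 4 847)
(mv 1168 (cons (fin 1232 7 975)
(fin 1103 4 911))))))
(cons (mv 847 (cons (fin 1104 4 847)
(mv 782 (cons (fin 846 7 782)
(mv 783 (cons (fin 718 7 718)
(mv 719 (cons (fin 974 5 718)
(mv 720 (cons (fin 656 6 655)
(fin 784 6 719)))))))))))
(cons (mv 846 (cons (fin 1103 7 846)
(mv 782 (cons (fin 847 7 782)
(fin 718 4 718)))))
(mv 846 (cons (fin 1103 7 846)
(mv 782 (cons (fin 718 4 718)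
(fin 974 4 782)))))))))
(cons (mv 909 (cons (cons (mv 844 (cons (fin 845 3 844)
(mv 843 (cons (fin 908 3 843)
(mv 976 (cons (fin 977 0 909)
(mv 973 (cons (fin 972 1 908)
(mv 846 (cons (fin 1101 6 845)
(mv 782 (cons (fin 718 5 717)
(fin 974 5 781)))))))))))))
(mv 844 (cons (fin 845 3 844)
(mv 908 (cons (fin 843 3 843)
(mv 976 (cons (fin 975 0 908)
(fin 977 0 909))))))))
(cons (mv 972 (cons (fin 973 1 908)
(mv 908 (cons (fin 971 1 907)
(mv 844 (cons (fin 843 3 843)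
(fin 845 3 844)))))))
(cons (mv 976 (cons (fin 977 0 909)
(mv 908 (cons (fin 975 0 908)
(mv 972 (cons (fin 971 1 907)
(fin 973 1 908)))))))
(mv 973 (cons (fin 972 1 908)
(mv 844 (cons (fin 845 3 844)
(mv 846 (cons (fin 1101 6 845)
(mv 782 (cons (fin 718 5 717)
(fin 974 5 781)))))))))))))
(mv 909 (cons (cons (mv 844 (cons (fin 845 3 844)
(mv 843 (cons (fin 908 3 843)
(mv 976 (cons (fin 977 0 909)
(mv 972 (cons (fin 973 1 908)
(mv 847 (cons (fin 1104 7 847)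
(mv 783 (cons (fin 719 4 719)
(fin 975 4 783)))))))))))))
(mv 844 (cons (fin 845 3 844)
(mv 908 (cons (fin 843 3 843)
(mv 972 (cons (fin 971 1 907)
(fin 973 1 908))))))))
(cons (mv 976 (cons (fin 977 0 909)
(mv 908 (cons (fin 975 0 908)
(mv 844 (cons (fin 843 3 843)
(fin 845 3 844)))))))
(cons (mv 976 (cons (fin 977 0 909)
(mv 908 (cons (fin 975 0 908)
(mv 972 (cons (fin 971 1 907)
(fin 973 1 908)))))))
(mv 976 (cons (fin 977 0 909)
(mv 844 (cons (fin 845 3 844)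
(mv 847 (cons (fin 1104 7 847)
(mv 783 (cons (fin 719 4 719)
(fin 975 4 783)))))))))))))))))
(mv 1104 (cons (cons (mv 847 (cons (fin 976 7 847)
(fin 975 4 847)))
(mv 976 (cons (cons (mv 975 (cons (fin 1168 7 911)
(mv 1105 (cons (fin 1169 4 912)
(mv 1106 (cons (fin 1107 3 1039)
(mv 1103 (cons (fin 1167 5 911)
(mv 1170 (cons (fin 1171 0 1103)
(mv 1042 (cons (fin 1043 2 1039)
(mv 913 (cons (fin 849 6 848)
(mv 914 (cons (fin 974 1 910)
(fin 915 1 911)))))))))))))))))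
(mv 1105 (cons (fin 1169 4 912)
(mv 1106 (cons (fin 1107 3 1039)
(mv 1103 (cons (fin 1167 5 911)
(mv 1170 (cons (fin 1171 0 1103)
(mv 1042 (cons (fin 1043 2 1039)
(mv 913 (cons (fin 849 6 848)
(mv 978 (cons (fin 977 7 913)
(mv 979 (cons (fin 914 0 911)
(fin 915 6 914))))))))))))))))))
(cons (mv 849 (cons (fin 913 6 848)
(mv 1169 (cons (fin 1105 4 912)
(mv 1168 (cons (fin 975 7 911)
(fin 1233 4 976)))))))
(cons (mv 1168 (cons (fin 975 7 911)
(mv 1169 (cons (fin 1105 4 912)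
(fin 1233 4 976)))))
(mv 849 (cons (fin 913 6 848)
(mv 1168 (cons (fin 975 7 911)
(mv 1167 (cons (fin 1103 5 911)
(fin 1231 5 975))))))))))))
(cons (mv 975 (cons (fin 847 4 847)
(mv 1168 (cons (fin 1232 7 975)
(fin 1103 4 911)))))
(mv 976 (cons (fin 847 7 847)
(mv 1103 (cons (fin 1167 5 911)
(mv 1105 (cons (fin 1169 4 912)
(mv 1106 (cons (fin 1107 3 1039)
(mv 913 (cons (fin 849 6 848)
(mv 1170 (cons (fin 1171 0 1103)
(mv 977 (cons (fin 1168 6 912)
(mv 1042 (cons (fin 1043 2 1039)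
(fin 978 7 913)))))))))))))))))))))
(cons (mv 913 (cons (cons (cons (mv 910 (cons (cons (mv 845 (cons (fin 846 3 845)
(mv 844 (cons (fin 909 3 844)
(mv 977 (cons (fin 978 0 910)
(mv 849 (cons (fin 850 2 846)
(mv 976 (cons (fin 785 5 784)
(fin 1104 6 848)))))))))))
(cons (mv 973 (cons (fin 974 1 909)
(mv 909 (cons (fin 972 1 908)
(mv 977 (cons (fin 976 0 909)
(fin 978 0 910)))))))
(mv 845 (cons (fin 846 3 845)
(mv 844 (cons (fin 909 3 844)
(mv 973 (cons (fin 974 1 909)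
(mv 850 (cons (fin 849 2 846)
(mv 914 (cons (fin 851 2 847)
(mv 979 (cons (fin 978 0 911)
(mv 915 (cons (fin 980 0 912)
(mv 976 (cons (fin 975 1 911)
(mv 722 (cons (fin 786 4 722)
(mv 1104 (cons (fin 847 7 847)
(mv 1107 (cons (fin 1043 7 850)
(mv 1105 (cons (fin 1106 3 1039)
(fin 1169 4 912)))))))))))))))))))))))))))
(cons (mv 849 (cons (fin 850 2 846)
(mv 845 (cons (fin 846 3 845)
(mv 844 (cons (fin 909 3 844)
(mv 976 (cons (fin 1104 6 848)
(mv 785 (cons (fin 721 5 720)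
(fin 977 5 784)))))))))))
(cons (mv 973 (cons (fin 974 1 909)
(mv 909 (cons (fin 972 1 908)
(mv 845 (cons (fin 844 3 844)
(fin 846 3 845)))))))
(mv 977 (cons (fin 978 0 910)
(mv 973 (cons (fin 974 1 909)
(mv 845 (cons (fin 846 3 845)
(mv 849 (cons (fin 850 2 846)
(mv 976 (cons (fin 785 5 784)
(fin 1104 6 848)))))))))))))))
(mv 914 (cons (cons (mv 846 (cons (fin 847 3 846)
(mv 978 (cons (fin 979 0 911)
(mv 850 (cons (fin 851 2 847)
(mv 975 (cons (fin 974 1 910)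
(mv 976 (cons (fin 915 1 911)
(mv 1104 (cons (fin 1168 7 911)
(fin 849 6 848)))))))))))))
(mv 846 (cons (fin 847 3 846)
(mv 979 (cons (fin 978 0 911)
(mv 851 (cons (fin 850 2 847)
(mv 915 (cons (fin 852 2 848)
(fin 980 0 912))))))))))
(cons (mv 978 (cons (fin 979 0 911)
(mv 975 (cons (fin 974 1 910)
(mv 850 (cons (fin 851 2 847)
(mv 976 (cons (fin 915 1 911)
(mv 1104 (cons (fin 1168 7 911)
(fin 849 6 848)))))))))))
(mv 975 (cons (fin 974 1 910)
(mv 847 (cons (fin 846 3 846)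
(fin 1104 4 847)))))))))
(cons (mv 910 (cons (cons (mv 845 (cons (fin 846 3 845)
(mv 844 (cons (fin 909 3 844)
(mv 977 (cons (fin 978 0 910)
(mv 849 (cons (fin 850 2 846)
(mv 976 (cons (fin 785 5 784)
(fin 1104 6 848)))))))))))
(mv 973 (cons (fin 974 1 909)
(mv 909 (cons (fin 972 1 908)
(mv 845 (cons (fin 844 3 844)
(fin 846 3 845))))))))
(cons (mv 977 (cons (fin 978 0 910)
(mv 909 (cons (fin 976 0 909)
(mv 973 (cons (fin 972 1 908)
(fin 974 1 909)))))))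
(mv 973 (cons (fin 974 1 909)
(mv 845 (cons (fin 846 3 845)
(mv 977 (cons (fin 978 0 910)
(mv 849 (cons (fin 850 2 846)
(mv 976 (cons (fin 785 5 784)
(fin 1104 6 848))))))))))))))
(mv 910 (cons (cons (mv 845 (cons (fin 846 3 845)
(mv 844 (cons (fin 909 3 844)
(mv 977 (cons (fin 978 0 910)
(mv 849 (cons (fin 850 2 846)
(mv 973 (cons (fin 974 1 909)
(mv 785 (cons (fin 976 5 784)
(mv 722 (cons (fin 786 6 721)
(mv 721 (cons (fin 658 6 657)
(mv 720 (cons (fin 656 7 656)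
(fin 784 7 720)))))))))))))))))))
(mv 849 (cons (fin 850 2 846)
(mv 977 (cons (fin 978 0 910)
(mv 976 (cons (fin 909 0 909)
(fin 785 5 784))))))))
(cons (mv 973 (cons (fin 974 1 909)
(mv 909 (cons (fin 972 1 908)
(mv 845 (cons (fin 844 3 844)
(fin 846 3 845)))))))
(mv 849 (cons (fin 850 2 846)
(mv 977 (cons (fin 978 0 910)
(mv 973 (cons (fin 974 1 909)
(mv 785 (cons (fin 976 5 784)
(mv 722 (cons (fin 786 6 721)
(mv 658 (cons (fin 721 6 657)
(mv 784 (cons (fin 720 7 720)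
(mv 846 (cons (fin 845 3 845)
(mv 847 (cons (fin 914 3 846)
(mv 782 (cons (fin 975 7 782)
(mv 718 (cons (fin 654 4 654)
(mv 717 (cons (fin 783 3 717)
(fin 653 7 653))))))))))))))))))))))))))))))
(cons (cons (mv 910 (cons (cons (mv 973 (cons (fin 974 1 909)
(mv 909 (cons (fin 972 1 908)
(mv 845 (cons (fin 844 3 844)
(fin 846 3 845)))))))
(mv 977 (cons (fin 978 0 910)
(mv 849 (cons (fin 850 2 846)
(mv 973 (cons (fin 974 1 909)
(mv 909 (cons (fin 972 1 908)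
(mv 844 (cons (fin 845 3 844)
(mv 908 (cons (fin 843 3 843)
(fin 1101 7 844))))))))))))))
(cons (mv 845 (cons (fin 846 3 845)
(mv 844 (cons (fin 909 3 844)
(mv 978 (cons (fin 977 0 910)
(mv 850 (cons (fin 849 2 846)
(mv 914 (cons (fin 851 2 847)
(fin 979 0 911)))))))))))
(cons (mv 977 (cons (fin 978 0 910)
(mv 973 (cons (fin 974 1 909)
(mv 909 (cons (fin 972 1 908)
(mv 849 (cons (fin 850 2 846)
(mv 846 (cons (fin 1101 6 845)
(mv 782 (cons (fin 718 5 717)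
(mv 847 (cons (fin 914 3 846)
(fin 975 7 782)))))))))))))))
(mv 849 (cons (fin 850 2 846)
(mv 845 (cons (fin 846 3 845)
(mv 978 (cons (fin 977 0 910)
(mv 974 (cons (fin 973 1 909)
(mv 914 (cons (fin 975 1 910)
(fin 979 0 911)))))))))))))))
(mv 914 (cons (cons (mv 846 (cons (fin 847 3 846)
(mv 845 (cons (fin 910 3 845)
(mv 978 (cons (fin 979 0 911)
(mv 851 (cons (fin 850 2 847)
(mv 975 (cons (fin 974 1 910)
(mv 915 (cons (fin 976 1 911)
(fin 852 2 848)))))))))))))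
(mv 850 (cons (fin 851 2 847)
(mv 978 (cons (fin 979 0 911)
(mv 910 (cons (fin 977 0 910)
(mv 846 (cons (fin 845 3 845)
(fin 847 3 846))))))))))
(cons (mv 974 (cons (fin 975 1 910)
(mv 910 (cons (fin 973 1 909)
(mv 978 (cons (fin 977 0 910)
(fin 979 0 911)))))))
(cons (mv 850 (cons (fin 851 2 847)
(mv 974 (cons (fin 975 1 910)
(mv 910 (cons (fin 973 1 909)
(mv 846 (cons (fin 845 3 845)
(fin 847 3 846)))))))))
(mv 846 (cons (fin 847 3 846)
(mv 978 (cons (fin 979 0 911)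
(mv 851 (cons (fin 850 2 847)
(mv 975 (cons (fin 974 1 910)
(mv 915 (cons (fin 976 1 911)
(fin 852 2 848))))))))))))))))
(cons (mv 1104 (cons (mv 976 (cons (fin 847 7 847)
(fin 849 6 848)))
(cons (mv 847 (cons (fin 975 4 847)
(mv 846 (cons (fin 914 3 846)
(mv 845 (cons (fin 910 3 845)
(fin 844 0 844)))))))
(mv 849 (cons (fin 976 6 848)
(mv 850 (cons (fin 910 2 846)
(mv 851 (cons (fin 852 1 848)
(fin 914 2 847))))))))))
(cons (mv 1104 (cons (cons (mv 976 (cons (fin 847 7 847)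
(fin 849 6 848)))
(mv 975 (cons (fin 847 4 847)
(mv 1168 (cons (fin 1232 7 975)
(mv 914 (cons (fin 974 1 910)
(mv 850 (cons (fin 851 2 847)
(mv 849 (cons (fin 910 2 846)
(mv 978 (cons (fin 979 0 911)
(mv 1042 (cons (fin 785 7 785)
(fin 1106 7 849))))))))))))))))
(cons (mv 849 (cons (fin 976 6 848)
(mv 850 (cons (fin 910 2 846)
(mv 851 (cons (fin 852 1 848)
(fin 914 2 847)))))))
(mv 847 (cons (fin 976 7 847)
(fin 975 4 847))))))
(mv 1104 (cons (mv 976 (cons (fin 847 7 847)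
(fin 849 6 848)))
(cons (mv 847 (cons (fin 975 4 847)
(mv 846 (cons (fin 914 3 846)
(mv 845 (cons (fin 910 3 845)
(fin 844 0 844)))))))
(mv 976 (cons (fin 849 6 848)
(mv 1168 (cons (fin 975 7 911)
(fin 977 6 912)))))))))))))
(cons (mv 1104 (cons (cons (mv 847 (cons (fin 976 7 847)
(fin 975 4 847)))
(mv 976 (cons (cons (mv 975 (cons (fin 1168 7 911)
(mv 1105 (cons (fin 1169 4 912)
(mv 1106 (cons (fin 1107 3 1039)
(mv 1103 (cons (fin 1167 5 911)
(mv 846 (cons (fin 910 7 846)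
(mv 1042 (cons (fin 1043 2 1039)
(mv 1170 (cons (fin 1171 0 1103)
(mv 913 (cons (fin 849 6 848)
(mv 1102 (cons (fin 1166 5 910)
(mv 1100 (cons (fin 1101 2 1036)
(mv 914 (cons (fin 915 1 911)
(mv 978 (cons (fin 979 0 911)
(fin 977 7 913)))))))))))))))))))))))))
(mv 1105 (cons (fin 1169 4 912)
(mv 1106 (cons (fin 1107 3 1039)
(mv 1103 (cons (fin 1167 5 911)
(mv 1170 (cons (fin 1171 0 1103)
(mv 1042 (cons (fin 1043 2 1039)
(mv 913 (cons (fin 849 6 848)
(mv 977 (cons (fin 978 7 913)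
(mv 910 (cons (fin 909 0 909)
(mv 846 (cons (fin 845 3 845)
(fin 975 7 846))))))))))))))))))))
(cons (mv 849 (cons (fin 913 6 848)
(mv 1169 (cons (fin 1105 4 912)
(mv 1168 (cons (fin 975 7 911)
(fin 1233 4 976)))))))
(cons (mv 1103 (cons (fin 1167 5 911)
(mv 913 (cons (fin 849 6 848)
(mv 1105 (cons (fin 1169 4 912)
(mv 1106 (cons (fin 1107 3 1039)
(mv 977 (cons (fin 1168 6 912)
(mv 978 (cons (fin 979 3 911)
(fin 910 0 910)))))))))))))
(mv 975 (cons (fin 1168 7 911)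
(mv 1103 (cons (fin 1167 5 911)
(mv 1102 (cons (fin 1166 5 910)
(mv 1100 (cons (fin 1101 2 1036)
(mv 910 (cons (fin 846 7 846)
(mv 977 (cons (fin 978 3 910)
(fin 909 0 909))))))))))))))))))
(cons (mv 975 (cons (fin 847 4 847)
(mv 1168 (cons (fin 1232 7 975)
(fin 1103 4 911)))))
(mv 976 (cons (fin 847 7 847)
(mv 1103 (cons (fin 1167 5 911)
(mv 913 (cons (fin 849 6 848)
(mv 1105 (cons (fin 1169 4 912)
(mv 1106 (cons (fin 1107 3 1039)
(mv 977 (cons (fin 1168 6 912)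
(mv 978 (cons (fin 979 3 911)
(fin 910 0 910))))))))))))))))))
(mv 975 (cons (cons (mv 847 (cons (fin 1104 4 847)
(mv 783 (cons (fin 976 4 783)
(mv 782 (cons (fin 718 7 718)
(fin 846 7 782)))))))
(mv 1103 (cons (cons (mv 846 (cons (fin 910 7 846)
(mv 782 (cons (fin 847 7 782)
(mv 1167 (cons (fin 976 6 911)
(mv 1166 (cons (fin 1102 5 910)
(fin 1230 5 974)))))))))
(cons (mv 1102 (cons (fin 1166 5 910)
(mv 1101 (cons (fin 1100 2 1036)
(mv 846 (cons (fin 910 7 846)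
(mv 847 (cons (fin 782 7 782)
(mv 844 (cons (fin 845 0 844)
(mv 976 (cons (fin 783 4 783)
(mv 913 (cons (fin 914 3 846)
(mv 973 (cons (fin 974 2 909)
(mv 908 (cons (fin 909 7 844)
(mv 972 (cons (fin 1165 7 908)
(fin 780 4 780)))))))))))))))))))))
(mv 910 (cons (fin 846 7 846)
(mv 1102 (cons (fin 1166 5 910)
(mv 1100 (cons (fin 1101 2 1036)
(mv 974 (cons (fin 1167 7 910)
(mv 973 (cons (fin 913 1 909)
(fin 972 2 908)))))))))))))
(cons (cons (mv 976 (cons (fin 1167 6 911)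
(mv 1102 (cons (fin 1166 5 910)
(mv 1101 (cons (fin 1100 2 1036)
(mv 847 (cons (fin 783 4 783)
(mv 846 (cons (fin 782 7 782)
(mv 844 (cons (fin 845 0 844)
(mv 913 (cons (fin 914 3 846)
(mv 973 (cons (fin 974 2 909)
(mv 908 (cons (fin 909 7 844)
(mv 972 (cons (fin 1165 7 908)
(fin 780 4 780)))))))))))))))))))))
(mv 1167 (cons (fin 976 6 911)
(mv 1166 (cons (fin 1102 5 910)
(fin 1230 5 974))))))
(cons (mv 846 (cons (fin 910 7 846)
(mv 782 (cons (fin 847 7 782)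
(mv 1167 (cons (fin 976 6 911)
(mv 1230 (cons (fin 1166 5 974)
(mv 1232 (cons (fin 1168 4 975)
(mv 1231 (cons (fin 1294 5 1038)
(fin 1296 4 1039)))))))))))))
(mv 976 (cons (fin 1167 6 911)
(mv 846 (cons (fin 910 7 846)
(mv 847 (cons (fin 782 7 782)
(fin 783 4 783))))))))))))
(cons (mv 1103 (cons (cons (mv 846 (cons (fin 910 7 846)
(mv 1104 (cons (fin 1168 4 911)
(mv 976 (cons (fin 1167 5 911)
(mv 1105 (cons (fin 1169 4 912)
(mv 1106 (cons (fin 1107 3 1039)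
(mv 1042 (cons (fin 1043 2 1039)
(mv 1170 (cons (fin 1171 0 1103)
(mv 913 (cons (fin 849 6 848)
(mv 974 (cons (fin 914 1 910)
(fin 973 2 909)))))))))))))))))))
(mv 910 (cons (fin 846 7 846)
(mv 1104 (cons (fin 1168 4 911)
(mv 1102 (cons (fin 1166 5 910)
(mv 1101 (cons (fin 1100 2 1036)
(mv 1165 (cons (fin 1164 1 1100)
(mv 973 (cons (fin 974 6 909)
(mv 972 (cons (fin 909 1 908)
(fin 908 7 908))))))))))))))))
(cons (mv 1102 (cons (fin 1166 5 910)
(mv 1100 (cons (fin 1101 2 1036)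
(mv 910 (cons (fin 846 7 846)
(mv 1167 (cons (fin 974 7 910)
(fin 976 6 911)))))))))
(cons (mv 976 (cons (fin 1167 6 911)
(mv 1104 (cons (fin 1168 7 911)
(mv 1102 (cons (fin 1166 5 910)
(mv 1100 (cons (fin 1101 2 1036)
(mv 1105 (cons (fin 1169 4 912)
(mv 1106 (cons (fin 1107 3 1039)
(mv 913 (cons (fin 849 6 848)
(mv 974 (cons (fin 914 1 910)
(fin 973 2 909)))))))))))))))))
(mv 1167 (cons (fin 976 6 911)
(mv 1166 (cons (fin 1102 5 910)
(fin 1230 5 974)))))))))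
(cons (mv 847 (cons (fin 1104 4 847)
(mv 846 (cons (fin 782 7 782)
(mv 844 (cons (fin 845 0 844)
(mv 910 (cons (fin 1103 7 846)
(mv 913 (cons (fin 914 3 846)
(mv 973 (cons (fin 974 1 909)
(mv 909 (cons (fin 972 1 908)
(fin 1101 6 845)))))))))))))))
(mv 847 (cons (fin 1104 4 847)
(mv 783 (cons (fin 976 4 783)
(mv 720 (cons (fin 784 6 719)
(mv 719 (cons (fin 656 6 655)
(mv 718 (cons (fin 654 7 654)
(fin 782 7 718))))))))))))))))))))
(mv 911 (cons (cons (cons (mv 848 (cons (cons (mv 1103 (cons (fin 976 5 847)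
(fin 975 6 847)))
(mv 976 (cons (mv 783 (cons (fin 847 7 783)
(mv 784 (cons (fin 719 7 719)
(fin 975 5 783)))))
(cons (mv 783 (cons (fin 847 7 783)
(mv 849 (cons (fin 785 6 784)
(mv 850 (cons (fin 851 1 847)
(mv 910 (cons (fin 909 2 845)
(fin 913 2 846)))))))))
(mv 784 (cons (fin 975 5 783)
(mv 785 (cons (fin 721 6 720)
(fin 849 6 784)))))))))
(cons (mv 975 (cons (fin 1103 6 847)
(mv 784 (cons (fin 720 5 719)
(fin 847 6 783)))))
(mv 976 (cons (fin 1103 5 847)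
(mv 783 (cons (fin 847 7 783)
(mv 719 (cons (fin 784 7 719)
(mv 849 (cons (fin 785 6 784)
(mv 910 (cons (fin 909 2 845)
(mv 850 (cons (fin 851 1 847)
(fin 913 2 846))))))))))))))))
(cons (mv 910 (cons (cons (cons (mv 913 (cons (cons (mv 845 (cons (fin 846 3 845)
(mv 844 (cons (fin 909 3 844)
(mv 977 (cons (fin 978 0 910)
(mv 849 (cons (fin 850 2 846)
(mv 973 (cons (fin 974 1 909)
(mv 785 (cons (fin 976 5 784)
(mv 722 (cons (fin 786 6 721)
(mv 721 (cons (fin 658 6 657)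
(mv 720 (cons (fin 656 7 656)
(fin 784 7 720)))))))))))))))))))
(mv 849 (cons (fin 850 2 846)
(mv 977 (cons (fin 978 0 910)
(mv 976 (cons (fin 909 0 909)
(fin 785 5 784))))))))
(cons (mv 845 (cons (fin 846 3 845)
(mv 844 (cons (fin 909 3 844)
(mv 850 (cons (fin 849 2 846)
(mv 974 (cons (fin 973 1 909)
(mv 914 (cons (fin 975 1 910)
(fin 851 2 847)))))))))))
(cons (mv 977 (cons (fin 978 0 910)
(mv 909 (cons (fin 976 0 909)
(mv 973 (cons (fin 972 1 908)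
(fin 974 1 909)))))))
(mv 845 (cons (fin 846 3 845)
(mv 849 (cons (fin 850 2 846)
(mv 977 (cons (fin 978 0 910)
(mv 973 (cons (fin 974 1 909)
(mv 785 (cons (fin 976 5 784)
(mv 722 (cons (fin 786 6 721)
(mv 721 (cons (fin 658 6 657)
(mv 720 (cons (fin 656 7 656)
(fin 784 7 720)))))))))))))))))))))
(mv 909 (cons (cons (mv 844 (cons (fin 845 3 844)
(mv 843 (cons (fin 908 3 843)
(mv 976 (cons (fin 977 0 909)
(mv 973 (cons (fin 972 1 908)
(mv 846 (cons (fin 1101 6 845)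
(mv 782 (cons (fin 718 5 717)
(fin 974 5 781)))))))))))))
(mv 844 (cons (fin 845 3 844)
(mv 908 (cons (fin 843 3 843)
(mv 976 (cons (fin 975 0 908)
(fin 977 0 909))))))))
(cons (mv 972 (cons (fin 973 1 908)
(mv 908 (cons (fin 971 1 907)
(mv 844 (cons (fin 843 3 843)
(fin 845 3 844)))))))
(cons (mv 976 (cons (fin 977 0 909)
(mv 908 (cons (fin 975 0 908)
(mv 972 (cons (fin 971 1 907)
(fin 973 1 908)))))))
(mv 973 (cons (fin 972 1 908)
(mv 844 (cons (fin 845 3 844)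
(mv 846 (cons (fin 1101 6 845)
(mv 782 (cons (fin 718 5 717)
(fin 974 5 781))))))))))))))
(cons (mv 913 (cons (cons (mv 845 (cons (fin 846 3 845)
(mv 849 (cons (fin 850 2 846)
(mv 977 (cons (fin 978 0 910)
(mv 973 (cons (fin 974 1 909)
(mv 785 (cons (fin 976 5 784)
(mv 722 (cons (fin 786 6 721)
(mv 721 (cons (fin 658 6 657)
(mv 720 (cons (fin 656 7 656)
(fin 784 7 720)))))))))))))))))
(mv 977 (cons (fin 978 0 910)
(mv 849 (cons (fin 850 2 846)
(mv 973 (cons (fin 974 1 909)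
(mv 785 (cons (fin 976 5 784)
(mv 722 (cons (fin 786 6 721)
(mv 721 (cons (fin 658 6 657)
(mv 720 (cons (fin 656 7 656)
(fin 784 7 720))))))))))))))))
(cons (mv 849 (cons (fin 850 2 846)
(mv 977 (cons (fin 978 0 910)
(mv 845 (cons (fin 846 3 845)
(mv 785 (cons (fin 976 5 784)
(mv 722 (cons (fin 786 6 721)
(mv 721 (cons (fin 658 6 657)
(mv 720 (cons (fin 656 7 656)
(fin 784 7 720)))))))))))))))
(cons (mv 973 (cons (fin 974 1 909)
(mv 849 (cons (fin 850 2 846)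
(mv 846 (cons (fin 845 3 845)
(mv 847 (cons (fin 914 3 846)
(mv 975 (cons (fin 782 7 782)
(fin 1103 7 846)))))))))))
(mv 845 (cons (fin 846 3 845)
(mv 974 (cons (fin 973 1 909)
(mv 978 (cons (fin 977 0 910)
(mv 914 (cons (fin 975 1 910)
(fin 979 0 911)))))))))))))
(cons (mv 909 (cons (cons (mv 844 (cons (fin 845 3 844)
(mv 843 (cons (fin 908 3 843)
(mv 976 (cons (fin 977 0 909)
(mv 973 (cons (fin 972 1 908)
(mv 913 (cons (fin 974 1 909)
(mv 850 (cons (fin 849 2 846)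
(mv 914 (cons (fin 851 2 847)
(mv 915 (cons (fin 975 1 911)
(mv 979 (cons (fin 978 0 911)
(fin 980 0 912)))))))))))))))))))
(mv 844 (cons (fin 845 3 844)
(mv 908 (cons (fin 843 3 843)
(mv 976 (cons (fin 975 0 908)
(fin 977 0 909))))))))
(cons (mv 972 (cons (fin 973 1 908)
(mv 908 (cons (fin 971 1 907)
(mv 844 (cons (fin 843 3 843)
(fin 845 3 844)))))))
(cons (mv 976 (cons (fin 977 0 909)
(mv 908 (cons (fin 975 0 908)
(mv 972 (cons (fin 971 1 907)
(fin 973 1 908)))))))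
(mv 973 (cons (fin 972 1 908)
(mv 844 (cons (fin 845 3 844)
(mv 913 (cons (fin 974 1 909)
(mv 977 (cons (fin 976 0 909)
(fin 978 0 910)))))))))))))
(mv 913 (cons (cons (mv 845 (cons (fin 846 3 845)
(mv 844 (cons (fin 909 3 844)
(mv 977 (cons (fin 978 0 910)
(mv 849 (cons (fin 850 2 846)
(mv 785 (cons (fin 976 5 784)
(mv 722 (cons (fin 786 6 721)
(mv 721 (cons (fin 658 6 657)
(mv 720 (cons (fin 656 7 656)
(fin 784 7 720)))))))))))))))))
(cons (mv 849 (cons (fin 850 2 846)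
(mv 977 (cons (fin 978 0 910)
(mv 976 (cons (fin 909 0 909)
(fin 785 5 784)))))))
(mv 845 (cons (fin 846 3 845)
(mv 844 (cons (fin 909 3 844)
(mv 850 (cons (fin 849 2 846)
(mv 914 (cons (fin 851 2 847)
(mv 975 (cons (fin 974 1 910)
(mv 979 (cons (fin 978 0 911)
(mv 915 (cons (fin 976 1 911)
(fin 980 0 912)))))))))))))))))
(cons (cons (mv 849 (cons (fin 850 2 846)
(mv 845 (cons (fin 846 3 845)
(mv 909 (cons (fin 844 3 844)
(mv 976 (cons (fin 977 0 909)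
(mv 975 (cons (fin 908 0 908)
(mv 914 (cons (fin 974 1 910)
(fin 915 1 911)))))))))))))
(mv 845 (cons (fin 846 3 845)
(mv 909 (cons (fin 844 3 844)
(mv 977 (cons (fin 976 0 909)
(fin 978 0 910))))))))
(cons (mv 977 (cons (fin 978 0 910)
(mv 849 (cons (fin 850 2 846)
(mv 845 (cons (fin 846 3 845)
(mv 785 (cons (fin 976 5 784)
(mv 722 (cons (fin 786 6 721)
(mv 721 (cons (fin 658 6 657)
(mv 720 (cons (fin 656 7 656)
(fin 784 7 720)))))))))))))))
(mv 849 (cons (fin 850 2 846)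
(mv 977 (cons (fin 978 0 910)
(mv 846 (cons (fin 845 3 845)
(mv 847 (cons (fin 914 3 846)
(mv 975 (cons (fin 782 7 782)
(fin 1103 7 846))))))))))))))))))
(cons (cons (mv 913 (cons (cons (mv 845 (cons (fin 846 3 845)
(mv 844 (cons (fin 909 3 844)
(mv 850 (cons (fin 849 2 846)
(mv 974 (cons (fin 973 1 909)
(mv 914 (cons (fin 975 1 910)
(fin 851 2 847)))))))))))
(mv 849 (cons (fin 850 2 846)
(mv 973 (cons (fin 974 1 909)
(mv 909 (cons (fin 972 1 908)
(mv 844 (cons (fin 845 3 844)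
(mv 908 (cons (fin 843 3 843)
(fin 1101 7 844))))))))))))
(cons (mv 846 (cons (fin 845 3 845)
(mv 849 (cons (fin 850 2 846)
(mv 975 (cons (fin 1103 7 846)
(mv 847 (cons (fin 914 3 846)
(fin 782 7 782)))))))))
(cons (mv 849 (cons (fin 850 2 846)
(mv 973 (cons (fin 974 1 909)
(mv 909 (cons (fin 972 1 908)
(mv 846 (cons (fin 1101 6 845)
(mv 718 (cons (fin 782 5 717)
(mv 975 (cons (fin 1103 7 846)
(mv 908 (cons (fin 976 0 908)
(mv 847 (cons (fin 914 3 846)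
(fin 907 2 843)))))))))))))))))
(mv 973 (cons (fin 974 1 909)
(mv 909 (cons (fin 972 1 908)
(mv 845 (cons (fin 844 3 844)
(fin 846 3 845)))))))))))
(mv 913 (cons (cons (mv 973 (cons (fin 974 1 909)
(mv 909 (cons (fin 972 1 908)
(mv 977 (cons (fin 976 0 909)
(fin 978 0 910)))))))
(cons (mv 977 (cons (fin 978 0 910)
(mv 909 (cons (fin 976 0 909)
(mv 973 (cons (fin 972 1 908)
(mv 849 (cons (fin 850 2 846)
(mv 846 (cons (fin 1101 6 845)
(mv 782 (cons (fin 718 5 717)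
(mv 847 (cons (fin 914 3 846)
(fin 975 7 782)))))))))))))))
(mv 849 (cons (fin 850 2 846)
(mv 977 (cons (fin 978 0 910)
(mv 976 (cons (fin 909 0 909)
(fin 785 5 784)))))))))
(cons (mv 849 (cons (fin 850 2 846)
(mv 973 (cons (fin 974 1 909)
(mv 909 (cons (fin 972 1 908)
(mv 846 (cons (fin 1101 6 845)
(mv 718 (cons (fin 782 5 717)
(mv 975 (cons (fin 1103 7 846)
(mv 908 (cons (fin 976 0 908)
(mv 847 (cons (fin 914 3 846)
(fin 907 2 843)))))))))))))))))
(cons (mv 973 (cons (fin 974 1 909)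
(mv 977 (cons (fin 978 0 910)
(mv 849 (cons (fin 850 2 846)
(mv 785 (cons (fin 976 5 784)
(mv 722 (cons (fin 786 6 721)
(mv 721 (cons (fin 658 6 657)
(mv 720 (cons (fin 656 7 656)
(fin 784 7 720)))))))))))))))
(mv 849 (cons (fin 850 2 846)
(mv 973 (cons (fin 974 1 909)
(mv 909 (cons (fin 972 1 908)
(mv 977 (cons (fin 978 0 910)
(mv 846 (cons (fin 1101 6 845)
(mv 782 (cons (fin 718 5 717)
(mv 847 (cons (fin 914 3 846)
(fin 975 7 782))))))))))))))))))))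
(cons (mv 913 (cons (cons (mv 845 (cons (fin 846 3 845)
(mv 844 (cons (fin 909 3 844)
(mv 977 (cons (fin 978 0 910)
(mv 849 (cons (fin 850 2 846)
(mv 973 (cons (fin 974 1 909)
(mv 785 (cons (fin 976 5 784)
(mv 722 (cons (fin 786 6 721)
(mv 721 (cons (fin 658 6 657)
(mv 720 (cons (fin 656 7 656)
(fin 784 7 720)))))))))))))))))))
(mv 849 (cons (fin 850 2 846)
(mv 977 (cons (fin 978 0 910)
(mv 976 (cons (fin 909 0 909)
(fin 785 5 784))))))))
(cons (mv 973 (cons (fin 974 1 909)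
(mv 909 (cons (fin 972 1 908)
(mv 845 (cons (fin 844 3 844)
(fin 846 3 845)))))))
(mv 849 (cons (fin 850 2 846)
(mv 977 (cons (fin 978 0 910)
(mv 973 (cons (fin 974 1 909)
(mv 785 (cons (fin 976 5 784)
(mv 722 (cons (fin 786 6 721)
(mv 721 (cons (fin 658 6 657)
(mv 720 (cons (fin 656 7 656)
(fin 784 7 720))))))))))))))))))
(cons (mv 909 (cons (cons (mv 844 (cons (fin 845 3 844)
(mv 843 (cons (fin 908 3 843)
(mv 976 (cons (fin 977 0 909)
(mv 973 (cons (fin 972 1 908)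
(mv 846 (cons (fin 1101 6 845)
(mv 782 (cons (fin 718 5 717)
(mv 975 (cons (fin 847 7 782)
(fin 1103 7 846)))))))))))))))
(mv 844 (cons (fin 845 3 844)
(mv 908 (cons (fin 843 3 843)
(mv 976 (cons (fin 975 0 908)
(fin 977 0 909))))))))
(cons (mv 972 (cons (fin 973 1 908)
(mv 908 (cons (fin 971 1 907)
(mv 844 (cons (fin 843 3 843)
(fin 845 3 844)))))))
(cons (mv 976 (cons (fin 977 0 909)
(mv 908 (cons (fin 975 0 908)
(mv 972 (cons (fin 971 1 907)
(fin 973 1 908)))))))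
(mv 972 (cons (fin 973 1 908)
(mv 845 (cons (fin 844 3 844)
(mv 976 (cons (fin 977 0 909)
(mv 846 (cons (fin 913 3 845)
(mv 975 (cons (fin 1103 7 846)
(mv 847 (cons (fin 782 7 782)
(fin 783 4 783)))))))))))))))))
(mv 913 (cons (cons (mv 845 (cons (fin 846 3 845)
(mv 844 (cons (fin 909 3 844)
(mv 977 (cons (fin 978 0 910)
(mv 850 (cons (fin 849 2 846)
(mv 974 (cons (fin 973 1 909)
(mv 914 (cons (fin 975 1 910)
(fin 851 2 847)))))))))))))
(cons (mv 849 (cons (fin 850 2 846)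
(mv 977 (cons (fin 978 0 910)
(mv 973 (cons (fin 974 1 909)
(mv 909 (cons (fin 972 1 908)
(mv 844 (cons (fin 845 3 844)
(mv 908 (cons (fin 843 3 843)
(fin 1101 7 844)))))))))))))
(mv 845 (cons (fin 846 3 845)
(mv 844 (cons (fin 909 3 844)
(mv 850 (cons (fin 849 2 846)
(mv 978 (cons (fin 977 0 910)
(mv 914 (cons (fin 851 2 847)
(fin 979 0 911)))))))))))))
(cons (cons (mv 849 (cons (fin 850 2 846)
(mv 973 (cons (fin 974 1 909)
(mv 909 (cons (fin 972 1 908)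
(mv 977 (cons (fin 978 0 910)
(mv 846 (cons (fin 1101 6 845)
(mv 782 (cons (fin 718 5 717)
(mv 847 (cons (fin 914 3 846)
(fin 975 7 782)))))))))))))))
(mv 849 (cons (fin 850 2 846)
(mv 973 (cons (fin 974 1 909)
(mv 909 (cons (fin 972 1 908)
(mv 845 (cons (fin 844 3 844)
(fin 846 3 845))))))))))
(cons (mv 845 (cons (fin 846 3 845)
(mv 844 (cons (fin 909 3 844)
(mv 978 (cons (fin 977 0 910)
(mv 974 (cons (fin 973 1 909)
(mv 914 (cons (fin 975 1 910)
(fin 979 0 911)))))))))))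
(mv 977 (cons (fin 978 0 910)
(mv 849 (cons (fin 850 2 846)
(mv 846 (cons (fin 845 3 845)
(mv 973 (cons (fin 974 1 909)
(mv 975 (cons (fin 1103 7 846)
(mv 847 (cons (fin 914 3 846)
(fin 782 7 782))))))))))))))))))))))
(mv 910 (cons (cons (cons (mv 909 (cons (cons (mv 844 (cons (fin 845 3 844)
(mv 843 (cons (fin 908 3 843)
(mv 976 (cons (fin 977 0 909)
(mv 848 (cons (fin 849 2 845)
(mv 972 (cons (fin 973 1 908)
(mv 784 (cons (fin 975 5 783)
(mv 783 (cons (fin 719 7 719)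
(fin 847 7 783)))))))))))))))
(cons (mv 844 (cons (fin 845 3 844)
(mv 843 (cons (fin 908 3 843)
(mv 976 (cons (fin 977 0 909)
(mv 848 (cons (fin 849 2 845)
(mv 783 (cons (fin 847 7 783)
(mv 784 (cons (fin 719 7 719)
(fin 975 5 783)))))))))))))
(mv 848 (cons (fin 849 2 845)
(mv 847 (cons (fin 908 2 844)
(mv 844 (cons (fin 845 3 844)
(mv 784 (cons (fin 975 6 783)
(mv 656 (cons (fin 720 5 655)
(mv 973 (cons (fin 972 1 908)
(mv 913 (cons (fin 974 1 909)
(mv 846 (cons (fin 914 3 846)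
(fin 1101 6 845)))))))))))))))))))
(cons (mv 972 (cons (fin 973 1 908)
(mv 908 (cons (fin 971 1 907)
(mv 844 (cons (fin 843 3 843)
(fin 845 3 844)))))))
(cons (mv 976 (cons (fin 977 0 909)
(mv 908 (cons (fin 975 0 908)
(mv 848 (cons (fin 847 2 844)
(fin 849 2 845)))))))
(mv 972 (cons (fin 973 1 908)
(mv 844 (cons (fin 845 3 844)
(mv 976 (cons (fin 977 0 909)
(mv 848 (cons (fin 849 2 845)
(mv 783 (cons (fin 847 7 783)
(mv 784 (cons (fin 719 7 719)
(fin 975 5 783)))))))))))))))))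
(mv 913 (cons (cons (mv 845 (cons (fin 846 3 845)
(mv 977 (cons (fin 978 0 910)
(mv 849 (cons (fin 850 2 846)
(mv 973 (cons (fin 974 1 909)
(mv 785 (cons (fin 976 5 784)
(mv 722 (cons (fin 786 6 721)
(mv 721 (cons (fin 658 6 657)
(mv 720 (cons (fin 656 7 656)
(fin 784 7 720)))))))))))))))))
(mv 849 (cons (fin 850 2 846)
(mv 977 (cons (fin 978 0 910)
(mv 845 (cons (fin 846 3 845)
(mv 785 (cons (fin 976 5 784)
(mv 722 (cons (fin 786 6 721)
(mv 721 (cons (fin 658 6 657)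
(mv 720 (cons (fin 656 7 656)
(fin 784 7 720))))))))))))))))
(cons (mv 977 (cons (fin 978 0 910)
(mv 849 (cons (fin 850 2 846)
(mv 973 (cons (fin 974 1 909)
(mv 785 (cons (fin 976 5 784)
(mv 722 (cons (fin 786 6 721)
(mv 721 (cons (fin 658 6 657)
(mv 720 (cons (fin 656 7 656)
(fin 784 7 720)))))))))))))))
(cons (mv 849 (cons (fin 850 2 846)
(mv 846 (cons (fin 845 3 845)
(mv 973 (cons (fin 974 1 909)
(mv 847 (cons (fin 914 3 846)
(mv 782 (cons (fin 975 7 782)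
(mv 781 (cons (fin 848 3 781)
(mv 718 (cons (fin 654 4 654)
(mv 779 (cons (fin 780 0 779)
(mv 653 (cons (fin 717 7 653)
(mv 719 (cons (fin 655 6 654)
(mv 783 (cons (fin 976 4 719)
(mv 720 (cons (fin 721 1 717)
(fin 656 6 655)))))))))))))))))))))))))
(mv 845 (cons (fin 846 3 845)
(mv 978 (cons (fin 977 0 910)
(mv 974 (cons (fin 973 1 909)
(mv 914 (cons (fin 975 1 910)
(fin 979 0 911))))))))))))))
(cons (mv 909 (cons (cons (mv 844 (cons (fin 845 3 844)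
(mv 843 (cons (fin 908 3 843)
(mv 976 (cons (fin 977 0 909)
(mv 848 (cons (fin 849 2 845)
(mv 972 (cons (fin 973 1 908)
(mv 784 (cons (fin 975 5 783)
(mv 783 (cons (fin 719 7 719)
(fin 847 7 783)))))))))))))))
(cons (mv 844 (cons (fin 845 3 844)
(mv 843 (cons (fin 908 3 843)
(mv 976 (cons (fin 977 0 909)
(mv 848 (cons (fin 849 2 845)
(mv 783 (cons (fin 847 7 783)
(mv 784 (cons (fin 719 7 719)
(fin 975 5 783)))))))))))))
(mv 848 (cons (fin 849 2 845)
(mv 847 (cons (fin 908 2 844)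
(mv 844 (cons (fin 845 3 844)
(mv 784 (cons (fin 975 6 783)
(mv 656 (cons (fin 720 5 655)
(mv 973 (cons (fin 972 1 908)
(mv 846 (cons (fin 1101 6 845)
(mv 782 (cons (fin 718 5 717)
(fin 974 5 781)))))))))))))))))))
(cons (mv 972 (cons (fin 973 1 908)
(mv 908 (cons (fin 971 1 907)
(mv 844 (cons (fin 843 3 843)
(fin 845 3 844)))))))
(cons (mv 976 (cons (fin 977 0 909)
(mv 908 (cons (fin 975 0 908)
(mv 848 (cons (fin 847 2 844)
(fin 849 2 845)))))))
(mv 972 (cons (fin 973 1 908)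
(mv 844 (cons (fin 845 3 844)
(mv 976 (cons (fin 977 0 909)
(mv 848 (cons (fin 849 2 845)
(mv 783 (cons (fin 847 7 783)
(mv 784 (cons (fin 719 7 719)
(fin 975 5 783)))))))))))))))))
(cons (mv 913 (cons (cons (mv 845 (cons (fin 846 3 845)
(mv 844 (cons (fin 909 3 844)
(mv 977 (cons (fin 978 0 910)
(mv 849 (cons (fin 850 2 846)
(mv 785 (cons (fin 976 5 784)
(mv 722 (cons (fin 786 6 721)
(mv 721 (cons (fin 658 6 657)
(mv 720 (cons (fin 656 7 656)
(fin 784 7 720)))))))))))))))))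
(cons (mv 845 (cons (fin 846 3 845)
(mv 844 (cons (fin 909 3 844)
(mv 978 (cons (fin 977 0 910)
(mv 914 (cons (fin 979 0 911)
(mv 851 (cons (fin 850 2 847)
(mv 975 (cons (fin 974 1 910)
(mv 915 (cons (fin 976 1 911)
(fin 852 2 848)))))))))))))))
(mv 977 (cons (fin 978 0 910)
(mv 909 (cons (fin 976 0 909)
(mv 849 (cons (fin 848 2 845)
(fin 850 2 846)))))))))
(cons (cons (mv 849 (cons (fin 850 2 846)
(mv 848 (cons (fin 909 2 845)
(mv 845 (cons (fin 846 3 845)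
(mv 785 (cons (fin 976 6 784)
(mv 721 (cons (fin 657 5 656)
(mv 656 (cons (fin 720 7 656)
(mv 914 (cons (fin 978 4 721)
(mv 915 (cons (fin 847 3 847)
(fin 916 3 848)))))))))))))))))
(mv 845 (cons (fin 846 3 845)
(mv 909 (cons (fin 844 3 844)
(mv 849 (cons (fin 848 2 845)
(fin 850 2 846))))))))
(cons (mv 977 (cons (fin 978 0 910)
(mv 909 (cons (fin 976 0 909)
(mv 845 (cons (fin 844 3 844)
(fin 846 3 845)))))))
(mv 845 (cons (fin 846 3 845)
(mv 849 (cons (fin 850 2 846)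
(mv 977 (cons (fin 978 0 910)
(mv 785 (cons (fin 976 5 784)
(mv 722 (cons (fin 786 6 721)
(mv 721 (cons (fin 658 6 657)
(mv 720 (cons (fin 656 7 656)
(fin 784 7 720)))))))))))))))))))
(mv 909 (cons (cons (mv 844 (cons (fin 845 3 844)
(mv 843 (cons (fin 908 3 843)
(mv 976 (cons (fin 977 0 909)
(mv 973 (cons (fin 972 1 908)
(mv 913 (cons (fin 974 1 909)
(mv 846 (cons (fin 1101 6 845)
(mv 718 (cons (fin 782 5 717)
(mv 847 (cons (fin 914 3 846)
(mv 783 (cons (fin 848 7 783)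
(fin 719 4 719)))))))))))))))))))
(mv 844 (cons (fin 845 3 844)
(mv 908 (cons (fin 843 3 843)
(mv 976 (cons (fin 975 0 908)
(fin 977 0 909))))))))
(cons (mv 972 (cons (fin 973 1 908)
(mv 908 (cons (fin 971 1 907)
(mv 844 (cons (fin 843 3 843)
(fin 845 3 844)))))))
(cons (mv 976 (cons (fin 977 0 909)
(mv 908 (cons (fin 975 0 908)
(mv 972 (cons (fin 971 1 907)
(fin 973 1 908)))))))
(mv 972 (cons (fin 973 1 908)
(mv 845 (cons (fin 844 3 844)
(mv 977 (cons (fin 976 0 909)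
(mv 913 (cons (fin 846 3 845)
(fin 978 0 910))))))))))))))))
(cons (cons (mv 909 (cons (cons (mv 844 (cons (fin 845 3 844)
(mv 843 (cons (fin 908 3 843)
(mv 848 (cons (fin 849 2 845)
(mv 973 (cons (fin 972 1 908)
(mv 913 (cons (fin 974 1 909)
(mv 846 (cons (fin 1101 6 845)
(mv 718 (cons (fin 782 5 717)
(mv 847 (cons (fin 914 3 846)
(mv 784 (cons (fin 975 6 783)
(mv 656 (cons (fin 720 5 655)
(mv 783 (cons (fin 976 7 783)
(mv 719 (cons (fin 654 7 654)
(fin 655 5 654)))))))))))))))))))))))))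
(mv 844 (cons (fin 845 3 844)
(mv 908 (cons (fin 843 3 843)
(mv 848 (cons (fin 847 2 844)
(fin 849 2 845))))))))
(cons (mv 972 (cons (fin 973 1 908)
(mv 908 (cons (fin 971 1 907)
(mv 844 (cons (fin 843 3 843)
(fin 845 3 844)))))))
(cons (mv 848 (cons (fin 849 2 845)
(mv 847 (cons (fin 908 2 844)
(mv 972 (cons (fin 973 1 908)
(mv 784 (cons (fin 975 6 783)
(mv 656 (cons (fin 720 5 655)
(mv 783 (cons (fin 976 7 783)
(mv 719 (cons (fin 974 5 718)
(fin 655 4 655)))))))))))))))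
(mv 972 (cons (fin 973 1 908)
(mv 845 (cons (fin 844 3 844)
(mv 849 (cons (fin 848 2 845)
(mv 913 (cons (fin 846 3 845)
(fin 850 2 846)))))))))))))
(cons (mv 909 (cons (cons (mv 976 (cons (fin 977 0 909)
(mv 908 (cons (fin 975 0 908)
(mv 848 (cons (fin 847 2 844)
(fin 849 2 845)))))))
(mv 972 (cons (fin 973 1 908)
(mv 908 (cons (fin 971 1 907)
(mv 848 (cons (fin 847 2 844)
(fin 849 2 845))))))))
(cons (mv 976 (cons (fin 977 0 909)
(mv 908 (cons (fin 975 0 908)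
(mv 972 (cons (fin 971 1 907)
(fin 973 1 908)))))))
(mv 972 (cons (fin 973 1 908)
(mv 848 (cons (fin 849 2 845)
(mv 976 (cons (fin 977 0 909)
(mv 783 (cons (fin 847 7 783)
(mv 784 (cons (fin 719 7 719)
(fin 975 5 783))))))))))))))
(mv 913 (cons (cons (mv 845 (cons (fin 846 3 845)
(mv 844 (cons (fin 909 3 844)
(mv 977 (cons (fin 978 0 910)
(mv 850 (cons (fin 849 2 846)
(mv 974 (cons (fin 973 1 909)
(mv 914 (cons (fin 975 1 910)
(fin 851 2 847)))))))))))))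
(mv 849 (cons (fin 850 2 846)
(mv 848 (cons (fin 909 2 845)
(mv 977 (cons (fin 978 0 910)
(mv 974 (cons (fin 973 1 909)
(mv 720 (cons (fin 784 4 720)
(mv 914 (cons (fin 975 1 910)
(mv 915 (cons (fin 847 3 847)
(fin 916 3 848))))))))))))))))
(cons (mv 845 (cons (fin 846 3 845)
(mv 844 (cons (fin 909 3 844)
(mv 850 (cons (fin 849 2 846)
(mv 978 (cons (fin 977 0 910)
(mv 914 (cons (fin 851 2 847)
(fin 979 0 911)))))))))))
(cons (mv 973 (cons (fin 974 1 909)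
(mv 909 (cons (fin 972 1 908)
(mv 845 (cons (fin 844 3 844)
(fin 846 3 845)))))))
(mv 845 (cons (fin 846 3 845)
(mv 849 (cons (fin 850 2 846)
(mv 974 (cons (fin 973 1 909)
(mv 978 (cons (fin 977 0 910)
(mv 914 (cons (fin 975 1 910)
(fin 979 0 911)))))))))))))))))
(cons (mv 913 (cons (cons (mv 845 (cons (fin 846 3 845)
(mv 844 (cons (fin 909 3 844)
(mv 977 (cons (fin 978 0 910)
(mv 849 (cons (fin 850 2 846)
(mv 973 (cons (fin 974 1 909)
(mv 785 (cons (fin 976 5 784)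
(mv 722 (cons (fin 786 6 721)
(mv 721 (cons (fin 658 6 657)
(mv 720 (cons (fin 656 7 656)
(fin 784 7 720)))))))))))))))))))
(mv 849 (cons (fin 850 2 846)
(mv 977 (cons (fin 978 0 910)
(mv 976 (cons (fin 909 0 909)
(fin 785 5 784))))))))
(cons (mv 973 (cons (fin 974 1 909)
(mv 909 (cons (fin 972 1 908)
(mv 845 (cons (fin 844 3 844)
(fin 846 3 845)))))))
(mv 849 (cons (fin 850 2 846)
(mv 977 (cons (fin 978 0 910)
(mv 973 (cons (fin 974 1 909)
(mv 785 (cons (fin 976 5 784)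
(mv 722 (cons (fin 786 6 721)
(mv 658 (cons (fin 721 6 657)
(mv 784 (cons (fin 720 7 720)
(mv 846 (cons (fin 845 3 845)
(mv 847 (cons (fin 914 3 846)
(mv 782 (cons (fin 975 7 782)
(mv 718 (cons (fin 654 4 654)
(mv 717 (cons (fin 783 3 717)
(fin 653 7 653))))))))))))))))))))))))))))
(cons (mv 909 (cons (cons (mv 844 (cons (fin 845 3 844)
(mv 843 (cons (fin 908 3 843)
(mv 976 (cons (fin 977 0 909)
(mv 848 (cons (fin 849 2 845)
(mv 973 (cons (fin 972 1 908)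
(mv 783 (cons (fin 847 7 783)
(mv 719 (cons (fin 784 7 719)
(mv 846 (cons (fin 1101 6 845)
(mv 974 (cons (fin 913 1 909)
(fin 782 5 781)))))))))))))))))))
(cons (mv 844 (cons (fin 845 3 844)
(mv 843 (cons (fin 908 3 843)
(mv 977 (cons (fin 976 0 909)
(mv 849 (cons (fin 848 2 845)
(mv 913 (cons (fin 850 2 846)
(fin 978 0 910)))))))))))
(mv 976 (cons (fin 977 0 909)
(mv 972 (cons (fin 973 1 908)
(mv 908 (cons (fin 971 1 907)
(mv 848 (cons (fin 847 2 844)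
(fin 849 2 845)))))))))))
(cons (mv 844 (cons (fin 845 3 844)
(mv 843 (cons (fin 908 3 843)
(mv 976 (cons (fin 977 0 909)
(mv 973 (cons (fin 972 1 908)
(mv 913 (cons (fin 974 1 909)
(mv 846 (cons (fin 1101 6 845)
(mv 718 (cons (fin 782 5 717)
(mv 914 (cons (fin 847 3 846)
(mv 850 (cons (fin 849 2 846)
(fin 851 2 847)))))))))))))))))))
(cons (mv 972 (cons (fin 973 1 908)
(mv 908 (cons (fin 971 1 907)
(mv 844 (cons (fin 843 3 843)
(fin 845 3 844)))))))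
(mv 844 (cons (fin 845 3 844)
(mv 848 (cons (fin 849 2 845)
(mv 973 (cons (fin 972 1 908)
(mv 976 (cons (fin 977 0 909)
(mv 846 (cons (fin 1101 6 845)
(mv 974 (cons (fin 913 1 909)
(fin 782 5 781)))))))))))))))))
(mv 909 (cons (cons (mv 844 (cons (fin 845 3 844)
(mv 843 (cons (fin 908 3 843)
(mv 976 (cons (fin 977 0 909)
(mv 848 (cons (fin 849 2 845)
(mv 972 (cons (fin 973 1 908)
(mv 784 (cons (fin 975 5 783)
(mv 721 (cons (fin 785 6 720)
(mv 720 (cons (fin 657 6 656)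
(mv 719 (cons (fin 655 7 655)
(fin 783 7 719)))))))))))))))))))
(mv 848 (cons (fin 849 2 845)
(mv 976 (cons (fin 977 0 909)
(mv 975 (cons (fin 908 0 908)
(fin 784 5 783))))))))
(cons (mv 972 (cons (fin 973 1 908)
(mv 908 (cons (fin 971 1 907)
(mv 844 (cons (fin 843 3 843)
(fin 845 3 844)))))))
(mv 848 (cons (fin 849 2 845)
(mv 976 (cons (fin 977 0 909)
(mv 972 (cons (fin 973 1 908)
(mv 784 (cons (fin 975 5 783)
(mv 721 (cons (fin 785 6 720)
(mv 720 (cons (fin 657 6 656)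
(mv 719 (cons (fin 655 7 655)
(fin 783 7 719)))))))))))))))))))))))))
(cons (mv 910 (cons (cons (cons (mv 909 (cons (cons (mv 844 (cons (fin 845 3 844)
(mv 843 (cons (fin 908 3 843)
(mv 976 (cons (fin 977 0 909)
(mv 848 (cons (fin 849 2 845)
(fin 1103 5 847)))))))))
(mv 844 (cons (fin 845 3 844)
(mv 843 (cons (fin 908 3 843)
(mv 976 (cons (fin 977 0 909)
(mv 973 (cons (fin 972 1 908)
(mv 913 (cons (fin 974 1 909)
(mv 846 (cons (fin 1101 6 845)
(mv 718 (cons (fin 782 5 717)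
(mv 914 (cons (fin 847 3 846)
(mv 850 (cons (fin 849 2 846)
(fin 851 2 847))))))))))))))))))))
(cons (mv 972 (cons (fin 973 1 908)
(mv 908 (cons (fin 971 1 907)
(mv 848 (cons (fin 847 2 844)
(fin 849 2 845)))))))
(cons (mv 844 (cons (fin 845 3 844)
(mv 843 (cons (fin 908 3 843)
(mv 973 (cons (fin 972 1 908)
(mv 976 (cons (fin 977 0 909)
(mv 846 (cons (fin 1101 6 845)
(mv 974 (cons (fin 913 1 909)
(fin 782 5 781)))))))))))))
(mv 976 (cons (fin 977 0 909)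
(mv 848 (cons (fin 849 2 845)
(fin 1103 5 847)))))))))
(mv 913 (cons (cons (mv 845 (cons (fin 846 3 845)
(mv 977 (cons (fin 978 0 910)
(mv 849 (cons (fin 850 2 846)
(mv 973 (cons (fin 974 1 909)
(mv 785 (cons (fin 976 5 784)
(mv 722 (cons (fin 786 6 721)
(mv 721 (cons (fin 658 6 657)
(mv 720 (cons (fin 656 7 656)
(fin 784 7 720)))))))))))))))))
(mv 849 (cons (fin 850 2 846)
(mv 977 (cons (fin 978 0 910)
(mv 973 (cons (fin 974 1 909)
(mv 785 (cons (fin 976 5 784)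
(mv 722 (cons (fin 786 6 721)
(mv 721 (cons (fin 658 6 657)
(mv 720 (cons (fin 656 7 656)
(fin 784 7 720))))))))))))))))
(cons (mv 846 (cons (fin 845 3 845)
(mv 849 (cons (fin 850 2 846)
(mv 847 (cons (fin 914 3 846)
(mv 974 (cons (fin 973 1 909)
(mv 783 (cons (fin 719 5 718)
(mv 848 (cons (fin 976 7 783)
(mv 785 (cons (fin 786 2 782)
(mv 657 (cons (fin 721 5 656)
(mv 782 (cons (fin 781 3 781)
(mv 718 (cons (fin 654 4 654)
(mv 717 (cons (fin 784 3 717)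
(fin 653 7 653)))))))))))))))))))))))
(cons (mv 973 (cons (fin 974 1 909)
(mv 978 (cons (fin 977 0 910)
(mv 846 (cons (fin 845 3 845)
(mv 914 (cons (fin 847 3 846)
(fin 979 0 911)))))))))
(mv 977 (cons (fin 978 0 910)
(mv 849 (cons (fin 850 2 846)
(mv 845 (cons (fin 846 3 845)
(mv 785 (cons (fin 976 5 784)
(mv 722 (cons (fin 786 6 721)
(mv 721 (cons (fin 658 6 657)
(mv 720 (cons (fin 656 7 656)
(fin 784 7 720))))))))))))))))))))
(cons (mv 909 (cons (cons (mv 844 (cons (fin 845 3 844)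
(mv 843 (cons (fin 908 3 843)
(mv 976 (cons (fin 977 0 909)
(mv 848 (cons (fin 849 2 845)
(fin 1103 5 847)))))))))
(mv 844 (cons (fin 845 3 844)
(mv 843 (cons (fin 908 3 843)
(mv 976 (cons (fin 977 0 909)
(mv 973 (cons (fin 972 1 908)
(mv 846 (cons (fin 1101 6 845)
(mv 782 (cons (fin 718 5 717)
(fin 974 5 781))))))))))))))
(cons (mv 972 (cons (fin 973 1 908)
(mv 908 (cons (fin 971 1 907)
(mv 844 (cons (fin 843 3 843)
(fin 845 3 844)))))))
(mv 976 (cons (fin 977 0 909)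
(mv 848 (cons (fin 849 2 845)
(fin 1103 5 847))))))))
(cons (mv 913 (cons (cons (mv 845 (cons (fin 846 3 845)
(mv 844 (cons (fin 909 3 844)
(mv 978 (cons (fin 977 0 910)
(mv 850 (cons (fin 849 2 846)
(mv 914 (cons (fin 851 2 847)
(fin 979 0 911)))))))))))
(mv 977 (cons (fin 978 0 910)
(mv 849 (cons (fin 850 2 846)
(mv 909 (cons (fin 848 2 845)
(mv 973 (cons (fin 972 1 908)
(fin 974 1 909))))))))))
(cons (mv 973 (cons (fin 974 1 909)
(mv 909 (cons (fin 972 1 908)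
(mv 845 (cons (fin 844 3 844)
(fin 846 3 845)))))))
(mv 977 (cons (fin 978 0 910)
(mv 850 (cons (fin 849 2 846)
(mv 973 (cons (fin 974 1 909)
(mv 914 (cons (fin 851 2 847)
(mv 846 (cons (fin 845 3 845)
(fin 847 3 846))))))))))))))
(mv 913 (cons (cons (mv 845 (cons (fin 846 3 845)
(mv 844 (cons (fin 909 3 844)
(mv 977 (cons (fin 978 0 910)
(mv 849 (cons (fin 850 2 846)
(mv 973 (cons (fin 974 1 909)
(mv 785 (cons (fin 976 5 784)
(mv 722 (cons (fin 786 6 721)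
(mv 721 (cons (fin 658 6 657)
(mv 720 (cons (fin 656 7 656)
(fin 784 7 720)))))))))))))))))))
(mv 849 (cons (fin 850 2 846)
(mv 977 (cons (fin 978 0 910)
(mv 976 (cons (fin 909 0 909)
(fin 785 5 784))))))))
(cons (mv 973 (cons (fin 974 1 909)
(mv 909 (cons (fin 972 1 908)
(mv 845 (cons (fin 844 3 844)
(fin 846 3 845)))))))
(mv 849 (cons (fin 850 2 846)
(mv 977 (cons (fin 978 0 910)
(mv 973 (cons (fin 974 1 909)
(mv 785 (cons (fin 976 5 784)
(mv 722 (cons (fin 786 6 721)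
(mv 721 (cons (fin 658 6 657)
(mv 720 (cons (fin 656 7 656)
(fin 784 7 720)))))))))))))))))))))
(cons (cons (mv 913 (cons (cons (mv 845 (cons (fin 846 3 845)
(mv 844 (cons (fin 909 3 844)
(mv 977 (cons (fin 978 0 910)
(mv 849 (cons (fin 850 2 846)
(mv 785 (cons (fin 976 5 784)
(mv 722 (cons (fin 786 6 721)
(mv 721 (cons (fin 658 6 657)
(mv 720 (cons (fin 656 7 656)
(fin 784 7 720)))))))))))))))))
(mv 845 (cons (fin 846 3 845)
(mv 909 (cons (fin 844 3 844)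
(mv 977 (cons (fin 976 0 909)
(fin 978 0 910))))))))
(cons (mv 849 (cons (fin 850 2 846)
(mv 848 (cons (fin 909 2 845)
(mv 976 (cons (fin 1103 5 847)
(fin 785 6 784)))))))
(cons (mv 845 (cons (fin 846 3 845)
(mv 977 (cons (fin 978 0 910)
(mv 849 (cons (fin 850 2 846)
(mv 785 (cons (fin 976 5 784)
(mv 722 (cons (fin 786 6 721)
(mv 721 (cons (fin 658 6 657)
(mv 720 (cons (fin 656 7 656)
(fin 784 7 720)))))))))))))))
(mv 849 (cons (fin 850 2 846)
(mv 848 (cons (fin 909 2 845)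
(mv 845 (cons (fin 846 3 845)
(mv 978 (cons (fin 977 0 910)
(mv 914 (cons (fin 979 0 911)
(mv 915 (cons (fin 847 3 847)
(fin 916 3 848)))))))))))))))))
(mv 909 (cons (cons (mv 844 (cons (fin 845 3 844)
(mv 843 (cons (fin 908 3 843)
(mv 973 (cons (fin 972 1 908)
(mv 976 (cons (fin 977 0 909)
(mv 846 (cons (fin 1101 6 845)
(mv 974 (cons (fin 913 1 909)
(fin 782 5 781)))))))))))))
(cons (mv 844 (cons (fin 845 3 844)
(mv 908 (cons (fin 843 3 843)
(mv 976 (cons (fin 977 0 909)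
(mv 848 (cons (fin 847 2 844)
(fin 1103 5 847)))))))))
(mv 976 (cons (fin 977 0 909)
(mv 972 (cons (fin 973 1 908)
(mv 908 (cons (fin 971 1 907)
(mv 848 (cons (fin 847 2 844)
(fin 1103 5 847)))))))))))
(cons (mv 844 (cons (fin 845 3 844)
(mv 843 (cons (fin 908 3 843)
(mv 973 (cons (fin 972 1 908)
(mv 913 (cons (fin 974 1 909)
(mv 846 (cons (fin 1101 6 845)
(mv 718 (cons (fin 782 5 717)
(mv 914 (cons (fin 847 3 846)
(mv 978 (cons (fin 977 0 910)
(fin 979 0 911)))))))))))))))))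
(cons (mv 972 (cons (fin 973 1 908)
(mv 908 (cons (fin 971 1 907)
(mv 844 (cons (fin 843 3 843)
(fin 845 3 844)))))))
(mv 844 (cons (fin 845 3 844)
(mv 976 (cons (fin 977 0 909)
(mv 973 (cons (fin 972 1 908)
(mv 848 (cons (fin 1103 5 847)
(mv 846 (cons (fin 1101 6 845)
(mv 974 (cons (fin 913 1 909)
(fin 782 5 781))))))))))))))))))
(cons (mv 909 (cons (mv 972 (cons (fin 973 1 908)
(mv 908 (cons (fin 971 1 907)
(mv 848 (cons (fin 847 2 844)
(fin 849 2 845)))))))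
(cons (mv 976 (cons (fin 977 0 909)
(mv 848 (cons (fin 849 2 845)
(fin 1103 5 847)))))
(mv 973 (cons (fin 972 1 908)
(mv 976 (cons (fin 977 0 909)
(mv 846 (cons (fin 1101 6 845)
(mv 974 (cons (fin 913 1 909)
(fin 782 5 781))))))))))))
(cons (mv 909 (cons (cons (mv 844 (cons (fin 845 3 844)
(mv 843 (cons (fin 908 3 843)
(mv 848 (cons (fin 849 2 845)
(mv 973 (cons (fin 972 1 908)
(mv 976 (cons (fin 1103 5 847)
(mv 783 (cons (fin 847 7 783)
(mv 719 (cons (fin 784 7 719)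
(mv 846 (cons (fin 1101 6 845)
(mv 974 (cons (fin 913 1 909)
(fin 782 5 781)))))))))))))))))))
(mv 848 (cons (fin 849 2 845)
(mv 847 (cons (fin 908 2 844)
(mv 976 (cons (fin 783 7 783)
(fin 1103 5 847))))))))
(cons (mv 972 (cons (fin 973 1 908)
(mv 908 (cons (fin 971 1 907)
(mv 844 (cons (fin 843 3 843)
(fin 845 3 844)))))))
(mv 844 (cons (fin 845 3 844)
(mv 848 (cons (fin 849 2 845)
(mv 973 (cons (fin 972 1 908)
(mv 976 (cons (fin 1103 5 847)
(mv 846 (cons (fin 1101 6 845)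
(mv 974 (cons (fin 913 1 909)
(fin 782 5 781))))))))))))))))
(mv 909 (cons (cons (mv 844 (cons (fin 845 3 844)
(mv 843 (cons (fin 908 3 843)
(mv 976 (cons (fin 977 0 909)
(mv 848 (cons (fin 849 2 845)
(fin 1103 5 847)))))))))
(mv 844 (cons (fin 845 3 844)
(mv 843 (cons (fin 908 3 843)
(mv 976 (cons (fin 977 0 909)
(mv 973 (cons (fin 972 1 908)
(mv 974 (cons (fin 913 1 909)
(mv 1101 (cons (fin 1165 6 909)
(mv 1100 (cons (fin 1164 5 908)
(mv 1102 (cons (fin 1103 2 1036)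
(fin 1166 4 909))))))))))))))))))
(cons (mv 972 (cons (fin 973 1 908)
(mv 908 (cons (fin 971 1 907)
(mv 844 (cons (fin 843 3 843)
(fin 845 3 844)))))))
(mv 976 (cons (fin 977 0 909)
(mv 848 (cons (fin 849 2 845)
(fin 1103 5 847)))))))))))))
(cons (mv 975 (cons (cons (mv 848 (cons (fin 1103 6 847)
(mv 784 (cons (fin 720 5 719)
(fin 847 6 783)))))
(mv 847 (cons (cons (mv 784 (cons (fin 848 6 783)
(mv 720 (cons (fin 783 6 719)
(mv 846 (cons (fin 782 7 782)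
(mv 845 (cons (fin 844 0 844)
(mv 913 (cons (fin 910 3 845)
(fin 914 3 846)))))))))))
(mv 784 (cons (fin 848 6 783)
(mv 720 (cons (fin 783 6 719)
(mv 913 (cons (cons (mv 914 (cons (fin 974 1 910)
(mv 850 (cons (fin 851 2 847)
(mv 849 (cons (fin 910 2 846)
(mv 978 (cons (fin 979 0 911)
(mv 785 (cons (fin 977 7 720)
(fin 1042 7 785)))))))))))
(mv 849 (cons (mv 850 (cons (fin 910 2 846)
(mv 851 (cons (fin 852 1 848)
(fin 914 2 847)))))
(mv 785 (cons (fin 977 7 720)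
(mv 656 (cons (fin 721 7 656)
(fin 592 4 592))))))))
(cons (mv 910 (cons (mv 973 (cons (fin 974 1 909)
(mv 909 (cons (fin 972 1 908)
(mv 844 (cons (fin 845 3 844)
(mv 908 (cons (fin 843 3 843)
(fin 1101 7 844)))))))))
(mv 977 (cons (fin 978 0 910)
(mv 849 (cons (fin 850 2 846)
(fin 785 7 720)))))))
(cons (mv 914 (cons (fin 974 1 910)
(mv 851 (cons (fin 850 2 847)
(mv 979 (cons (fin 978 0 911)
(mv 915 (cons (fin 852 2 848)
(fin 980 0 912)))))))))
(mv 974 (cons (fin 914 1 910)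
(mv 973 (cons (fin 910 1 909)
(fin 972 2 908))))))))))))))
(cons (mv 846 (cons (fin 782 7 782)
(mv 845 (cons (fin 844 0 844)
(mv 913 (cons (fin 910 3 845)
(fin 914 3 846)))))))
(mv 782 (cons (fin 846 7 782)
(mv 783 (cons (fin 718 7 718)
(mv 784 (cons (fin 720 6 719)
(fin 848 6 783)))))))))))
(cons (mv 910 (cons (mv 846 (cons (fin 1103 7 846)
(mv 782 (cons (fin 847 7 782)
(fin 718 4 718)))))
(mv 973 (cons (mv 972 (cons (fin 909 1 908)
(fin 974 2 908)))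
(cons (mv 909 (cons (fin 972 1 908)
(mv 844 (cons (fin 845 3 844)
(mv 908 (cons (fin 843 3 843)
(fin 1101 7 844)))))))
(mv 913 (cons (fin 974 1 909)
(mv 978 (cons (fin 977 0 910)
(mv 850 (cons (fin 849 2 846)
(mv 914 (cons (fin 851 2 847)
(fin 979 0 911))))))))))))))
(mv 1103 (cons (fin 848 6 847)
(mv 1102 (cons (fin 1166 5 910)
(mv 1100 (cons (fin 1101 2 1036)
(mv 910 (cons (fin 846 7 846)
(mv 974 (cons (fin 1167 7 910)
(mv 973 (cons (fin 913 1 909)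
(fin 972 2 908))))))))))))))))
(mv 848 (cons (cons (mv 1103 (cons (fin 976 5 847)
(fin 975 6 847)))
(mv 976 (cons (cons (mv 783 (cons (fin 847 7 783)
(mv 784 (cons (fin 719 7 719)
(fin 975 5 783)))))
(mv 847 (cons (fin 783 7 783)
(mv 849 (cons (fin 785 6 784)
(mv 850 (cons (fin 851 1 847)
(mv 786 (cons (fin 787 2 783)
(mv 914 (cons (fin 915 0 847)
(mv 846 (cons (fin 913 3 846)
(mv 782 (cons (fin 781 3 781)
(fin 975 7 782))))))))))))))))
(cons (mv 785 (cons (fin 849 6 784)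
(mv 784 (cons (fin 975 5 783)
(fin 721 6 720)))))
(mv 783 (cons (fin 847 7 783)
(mv 784 (cons (fin 719 7 719)
(mv 785 (cons (fin 721 6 720)
(fin 849 6 784)))))))))))
(cons (mv 975 (cons (fin 1103 6 847)
(mv 784 (cons (fin 720 5 719)
(fin 847 6 783)))))
(mv 976 (cons (fin 1103 5 847)
(mv 783 (cons (fin 847 7 783)
(mv 784 (cons (fin 719 7 719)
(mv 785 (cons (fin 721 6 720)
(fin 849 6 784)))))))))))))))
(cons (cons (mv 848 (cons (cons (mv 1103 (cons (fin 976 5 847)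
(fin 975 6 847)))
(mv 976 (cons (mv 783 (cons (fin 847 7 783)
(mv 784 (cons (fin 719 7 719)
(fin 975 5 783)))))
(cons (mv 847 (cons (fin 783 7 783)
(mv 849 (cons (fin 785 6 784)
(mv 910 (cons (fin 850 1 846)
(fin 909 2 845)))))))
(mv 785 (cons (fin 849 6 784)
(mv 784 (cons (fin 975 5 783)
(fin 721 6 720)))))))))
(cons (mv 975 (cons (fin 1103 6 847)
(mv 784 (cons (fin 720 5 719)
(fin 847 6 783)))))
(mv 976 (cons (fin 1103 5 847)
(mv 783 (cons (fin 847 7 783)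
(mv 784 (cons (fin 719 7 719)
(mv 785 (cons (fin 721 6 720)
(fin 849 6 784))))))))))))
(cons (mv 910 (cons (cons (cons (mv 909 (cons (cons (mv 844 (cons (fin 845 3 844)
(mv 843 (cons (fin 908 3 843)
(mv 976 (cons (fin 977 0 909)
(mv 848 (cons (fin 849 2 845)
(fin 1103 5 847)))))))))
(mv 848 (cons (fin 849 2 845)
(mv 844 (cons (fin 845 3 844)
(mv 843 (cons (fin 908 3 843)
(mv 975 (cons (fin 1103 6 847)
(mv 720 (cons (fin 784 5 719)
(mv 973 (cons (fin 972 1 908)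
(mv 913 (cons (fin 974 1 909)
(mv 1101 (cons (fin 846 6 845)
(mv 977 (cons (fin 978 0 910)
(mv 1166 (cons (fin 1102 4 909)
(mv 1164 (cons (fin 1100 5 908)
(mv 1165 (cons (fin 1228 5 972)
(fin 1230 4 973))))))))))))))))))))))))))
(cons (mv 972 (cons (fin 973 1 908)
(mv 908 (cons (fin 971 1 907)
(mv 844 (cons (fin 843 3 843)
(fin 845 3 844)))))))
(mv 848 (cons (fin 849 2 845)
(mv 976 (cons (fin 977 0 909)
(fin 1103 5 847))))))))
(mv 913 (cons (cons (mv 845 (cons (fin 846 3 845)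
(mv 977 (cons (fin 978 0 910)
(mv 849 (cons (fin 850 2 846)
(mv 973 (cons (fin 974 1 909)
(mv 785 (cons (fin 976 5 784)
(mv 722 (cons (fin 786 6 721)
(mv 721 (cons (fin 658 6 657)
(mv 720 (cons (fin 656 7 656)
(fin 784 7 720)))))))))))))))))
(cons (mv 849 (cons (fin 850 2 846)
(mv 977 (cons (fin 978 0 910)
(mv 845 (cons (fin 846 3 845)
(mv 785 (cons (fin 976 5 784)
(mv 722 (cons (fin 786 6 721)
(mv 721 (cons (fin 658 6 657)
(mv 720 (cons (fin 656 7 656)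
(fin 784 7 720)))))))))))))))
(mv 973 (cons (fin 974 1 909)
(mv 849 (cons (fin 850 2 846)
(mv 846 (cons (fin 845 3 845)
(mv 1103 (cons (fin 975 7 846)
(mv 976 (cons (fin 848 5 847)
(mv 785 (cons (fin 721 5 720)
(fin 977 5 784)))))))))))))))
(cons (mv 977 (cons (fin 978 0 910)
(mv 973 (cons (fin 974 1 909)
(mv 849 (cons (fin 850 2 846)
(mv 785 (cons (fin 976 5 784)
(mv 722 (cons (fin 786 6 721)
(mv 721 (cons (fin 658 6 657)
(mv 720 (cons (fin 656 7 656)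
(fin 784 7 720)))))))))))))))
(cons (mv 845 (cons (fin 846 3 845)
(mv 977 (cons (fin 978 0 910)
(mv 974 (cons (fin 973 1 909)
(mv 975 (cons (fin 914 1 910)
(mv 1103 (cons (fin 1167 7 910)
(fin 848 6 847)))))))))))
(mv 973 (cons (fin 974 1 909)
(mv 846 (cons (fin 845 3 845)
(mv 850 (cons (fin 849 2 846)
(mv 975 (cons (fin 1103 7 846)
(mv 914 (cons (fin 851 2 847)
(mv 718 (cons (fin 782 4 718)
(mv 979 (cons (fin 978 0 911)
(mv 915 (cons (fin 976 1 911)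
(fin 980 0 912))))))))))))))))))))))
(cons (mv 909 (cons (cons (mv 844 (cons (fin 845 3 844)
(mv 843 (cons (fin 908 3 843)
(mv 976 (cons (fin 977 0 909)
(mv 848 (cons (fin 849 2 845)
(fin 1103 5 847)))))))))
(mv 848 (cons (fin 849 2 845)
(mv 844 (cons (fin 845 3 844)
(mv 843 (cons (fin 908 3 843)
(mv 975 (cons (fin 1103 6 847)
(mv 720 (cons (fin 784 5 719)
(mv 973 (cons (fin 972 1 908)
(mv 846 (cons (fin 1101 6 845)
(mv 782 (cons (fin 718 5 717)
(fin 974 5 781))))))))))))))))))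
(cons (mv 972 (cons (fin 973 1 908)
(mv 908 (cons (fin 971 1 907)
(mv 844 (cons (fin 843 3 843)
(fin 845 3 844)))))))
(mv 848 (cons (fin 849 2 845)
(mv 976 (cons (fin 977 0 909)
(fin 1103 5 847))))))))
(mv 909 (cons (cons (mv 844 (cons (fin 845 3 844)
(mv 843 (cons (fin 908 3 843)
(mv 976 (cons (fin 977 0 909)
(mv 848 (cons (fin 849 2 845)
(mv 972 (cons (fin 973 1 908)
(mv 784 (cons (fin 975 5 783)
(mv 721 (cons (fin 785 6 720)
(mv 720 (cons (fin 657 6 656)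
(mv 719 (cons (fin 655 7 655)
(fin 783 7 719)))))))))))))))))))
(mv 848 (cons (fin 849 2 845)
(mv 976 (cons (fin 977 0 909)
(mv 975 (cons (fin 908 0 908)
(fin 784 5 783))))))))
(cons (mv 972 (cons (fin 973 1 908)
(mv 908 (cons (fin 971 1 907)
(mv 844 (cons (fin 843 3 843)
(fin 845 3 844)))))))
(mv 848 (cons (fin 849 2 845)
(mv 976 (cons (fin 977 0 909)
(mv 972 (cons (fin 973 1 908)
(mv 784 (cons (fin 975 5 783)
(mv 721 (cons (fin 785 6 720)
(mv 720 (cons (fin 657 6 656)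
(mv 719 (cons (fin 655 7 655)
(fin 783 7 719))))))))))))))))))))
(cons (cons (mv 913 (cons (cons (mv 845 (cons (fin 846 3 845)
(mv 844 (cons (fin 909 3 844)
(mv 977 (cons (fin 978 0 910)
(mv 849 (cons (fin 850 2 846)
(mv 973 (cons (fin 974 1 909)
(mv 785 (cons (fin 976 5 784)
(mv 722 (cons (fin 786 6 721)
(mv 721 (cons (fin 658 6 657)
(mv 720 (cons (fin 656 7 656)
(fin 784 7 720)))))))))))))))))))
(mv 849 (cons (fin 850 2 846)
(mv 977 (cons (fin 978 0 910)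
(mv 976 (cons (fin 909 0 909)
(fin 785 5 784))))))))
(cons (mv 973 (cons (fin 974 1 909)
(mv 909 (cons (fin 972 1 908)
(mv 845 (cons (fin 844 3 844)
(fin 846 3 845)))))))
(mv 849 (cons (fin 850 2 846)
(mv 977 (cons (fin 978 0 910)
(mv 973 (cons (fin 974 1 909)
(mv 785 (cons (fin 976 5 784)
(mv 722 (cons (fin 786 6 721)
(mv 721 (cons (fin 658 6 657)
(mv 720 (cons (fin 656 7 656)
(fin 784 7 720))))))))))))))))))
(mv 913 (cons (cons (mv 845 (cons (fin 846 3 845)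
(mv 844 (cons (fin 909 3 844)
(mv 977 (cons (fin 978 0 910)
(mv 849 (cons (fin 850 2 846)
(mv 974 (cons (fin 973 1 909)
(mv 975 (cons (fin 914 1 910)
(mv 1103 (cons (fin 1167 7 910)
(fin 848 6 847)))))))))))))))
(cons (mv 845 (cons (fin 846 3 845)
(mv 844 (cons (fin 909 3 844)
(mv 978 (cons (fin 977 0 910)
(mv 850 (cons (fin 849 2 846)
(mv 914 (cons (fin 851 2 847)
(fin 979 0 911)))))))))))
(mv 977 (cons (fin 978 0 910)
(mv 973 (cons (fin 974 1 909)
(mv 909 (cons (fin 972 1 908)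
(mv 849 (cons (fin 848 2 845)
(fin 850 2 846)))))))))))
(cons (mv 845 (cons (fin 846 3 845)
(mv 844 (cons (fin 909 3 844)
(mv 977 (cons (fin 978 0 910)
(mv 974 (cons (fin 973 1 909)
(mv 975 (cons (fin 914 1 910)
(mv 1103 (cons (fin 1167 7 910)
(fin 848 6 847)))))))))))))
(cons (mv 973 (cons (fin 974 1 909)
(mv 909 (cons (fin 972 1 908)
(mv 845 (cons (fin 844 3 844)
(fin 846 3 845)))))))
(mv 845 (cons (fin 846 3 845)
(mv 977 (cons (fin 978 0 910)
(mv 974 (cons (fin 973 1 909)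
(mv 849 (cons (fin 850 2 846)
(mv 975 (cons (fin 914 1 910)
(mv 1103 (cons (fin 1167 7 910)
(fin 848 6 847))))))))))))))))))
(cons (mv 1103 (cons (mv 848 (cons (fin 976 5 847)
(fin 975 6 847)))
(cons (mv 848 (cons (fin 976 5 847)
(mv 849 (cons (fin 909 2 845)
(mv 850 (cons (fin 851 1 847)
(fin 913 2 846)))))))
(mv 846 (cons (fin 975 7 846)
(mv 845 (cons (fin 913 3 845)
(mv 844 (cons (fin 909 3 844)
(fin 843 0 843))))))))))
(cons (mv 1103 (cons (mv 848 (cons (fin 976 5 847)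
(fin 975 6 847)))
(cons (mv 976 (cons (fin 848 5 847)
(mv 909 (cons (fin 977 0 909)
(mv 972 (cons (fin 973 1 908)
(mv 908 (cons (fin 971 1 907)
(mv 844 (cons (fin 843 3 843)
(fin 845 3 844)))))))))))
(mv 846 (cons (fin 975 7 846)
(mv 845 (cons (fin 913 3 845)
(mv 844 (cons (fin 909 3 844)
(fin 843 0 843))))))))))
(mv 1103 (cons (cons (mv 848 (cons (fin 976 5 847)
(fin 975 6 847)))
(mv 848 (cons (fin 976 5 847)
(mv 849 (cons (fin 909 2 845)
(mv 850 (cons (fin 851 1 847)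
(fin 913 2 846))))))))
(cons (mv 975 (cons (fin 846 7 846)
(mv 1167 (cons (fin 974 7 910)
(fin 976 6 911)))))
(mv 975 (cons (fin 846 7 846)
(fin 848 6 847)))))))))))
(mv 848 (cons (cons (mv 1103 (cons (fin 976 5 847)
(fin 975 6 847)))
(mv 847 (cons (cons (mv 783 (cons (fin 976 7 783)
(mv 784 (cons (fin 975 6 783)
(mv 656 (cons (fin 720 5 655)
(mv 719 (cons (fin 655 4 655)
(mv 910 (cons (fin 974 5 718)
(mv 908 (cons (fin 909 2 844)
(mv 718 (cons (fin 654 7 654)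
(mv 717 (cons (fin 716 0 716)
(mv 785 (cons (fin 782 3 717)
(fin 786 3 718)))))))))))))))))))
(mv 783 (cons (fin 976 7 783)
(mv 719 (cons (fin 655 4 655)
(mv 656 (cons (fin 720 6 655)
(mv 910 (cons (fin 974 5 718)
(mv 909 (cons (fin 908 2 844)
(mv 654 (cons (fin 718 7 654)
(mv 844 (cons (fin 845 3 844)
(mv 973 (cons (fin 972 1 908)
(mv 1101 (cons (fin 846 6 845)
(mv 1164 (cons (fin 1100 5 908)
(mv 1166 (cons (fin 1102 4 909)
(mv 1165 (cons (fin 1228 5 972)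
(fin 1230 4 973))))))))))))))))))))))))))
(cons (mv 784 (cons (fin 975 6 783)
(mv 720 (cons (fin 656 5 655)
(mv 655 (cons (fin 719 7 655)
(mv 913 (cons (fin 977 4 720)
(mv 846 (cons (fin 914 3 846)
(fin 845 0 845)))))))))))
(cons (mv 784 (cons (fin 975 6 783)
(mv 720 (cons (fin 656 5 655)
(mv 783 (cons (fin 976 7 783)
(mv 913 (cons (fin 977 4 720)
(mv 846 (cons (fin 914 3 846)
(fin 845 0 845)))))))))))
(mv 783 (cons (fin 976 7 783)
(mv 784 (cons (fin 975 6 783)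
(mv 719 (cons (fin 655 4 655)
(mv 910 (cons (fin 974 5 718)
(mv 908 (cons (fin 909 2 844)
(mv 718 (cons (fin 654 7 654)
(mv 717 (cons (fin 716 0 716)
(mv 785 (cons (fin 782 3 717)
(fin 786 3 718))))))))))))))))))))))
(cons (mv 976 (cons (fin 1103 5 847)
(mv 977 (cons (cons (mv 783 (cons (fin 847 7 783)
(mv 719 (cons (fin 784 7 719)
(mv 978 (cons (fin 979 3 911)
(mv 910 (cons (fin 909 0 909)
(fin 913 0 910)))))))))
(mv 783 (cons (fin 847 7 783)
(mv 909 (cons (fin 910 0 909)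
(mv 784 (cons (fin 719 7 719)
(mv 721 (cons (fin 785 6 720)
(mv 720 (cons (fin 657 6 656)
(fin 913 4 720))))))))))))
(cons (mv 978 (cons (fin 979 3 911)
(mv 910 (cons (fin 909 0 909)
(fin 913 0 910)))))
(cons (mv 783 (cons (fin 847 7 783)
(mv 784 (cons (fin 719 7 719)
(mv 978 (cons (fin 979 3 911)
(mv 720 (cons (fin 913 4 720)
(mv 721 (cons (fin 657 6 656)
(fin 785 6 720)))))))))))
(mv 978 (cons (fin 979 3 911)
(mv 909 (cons (fin 910 0 909)
(mv 784 (cons (cons (mv 783 (cons (fin 719 7 719)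
(fin 847 7 783)))
(mv 721 (cons (fin 785 6 720)
(mv 720 (cons (fin 657 6 656)
(mv 656 (cons (fin 847 5 655)
(mv 655 (cons (fin 591 7 591)
(fin 719 7 655))))))))))
(cons (mv 721 (cons (fin 785 6 720)
(mv 720 (cons (fin 657 6 656)
(mv 719 (cons (fin 655 7 655)
(fin 783 7 719)))))))
(mv 847 (cons (fin 783 7 783)
(mv 721 (cons (fin 785 6 720)
(mv 720 (cons (fin 656 5 655)
(fin 657 6 656))))))))))))))))))))
(mv 975 (cons (fin 1103 6 847)
(mv 784 (cons (fin 720 5 719)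
(fin 847 6 783))))))))))
(cons (cons (mv 910 (cons (cons (cons (mv 909 (cons (cons (mv 844 (cons (fin 845 3 844)
(mv 843 (cons (fin 908 3 843)
(mv 976 (cons (fin 977 0 909)
(mv 848 (cons (fin 849 2 845)
(fin 1103 5 847)))))))))
(mv 844 (cons (fin 845 3 844)
(mv 843 (cons (fin 908 3 843)
(mv 976 (cons (fin 977 0 909)
(mv 973 (cons (fin 972 1 908)
(mv 913 (cons (fin 974 1 909)
(mv 846 (cons (fin 1101 6 845)
(mv 718 (cons (fin 782 5 717)
(mv 975 (cons (fin 1103 7 846)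
(mv 914 (cons (fin 847 3 846)
(fin 915 1 911))))))))))))))))))))
(cons (mv 972 (cons (fin 973 1 908)
(mv 908 (cons (fin 971 1 907)
(mv 844 (cons (fin 843 3 843)
(fin 845 3 844)))))))
(mv 976 (cons (fin 977 0 909)
(mv 848 (cons (fin 849 2 845)
(fin 1103 5 847))))))))
(mv 913 (cons (cons (mv 845 (cons (fin 846 3 845)
(mv 977 (cons (fin 978 0 910)
(mv 849 (cons (fin 850 2 846)
(mv 973 (cons (fin 974 1 909)
(mv 785 (cons (fin 976 5 784)
(mv 722 (cons (fin 786 6 721)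
(mv 721 (cons (fin 658 6 657)
(mv 720 (cons (fin 656 7 656)
(fin 784 7 720)))))))))))))))))
(mv 849 (cons (fin 850 2 846)
(mv 977 (cons (fin 978 0 910)
(mv 973 (cons (fin 974 1 909)
(mv 785 (cons (fin 976 5 784)
(mv 722 (cons (fin 786 6 721)
(mv 721 (cons (fin 658 6 657)
(mv 720 (cons (fin 656 7 656)
(fin 784 7 720))))))))))))))))
(cons (mv 977 (cons (fin 978 0 910)
(mv 849 (cons (fin 850 2 846)
(mv 845 (cons (fin 846 3 845)
(mv 785 (cons (fin 976 5 784)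
(mv 722 (cons (fin 786 6 721)
(mv 721 (cons (fin 658 6 657)
(mv 720 (cons (fin 656 7 656)
(fin 784 7 720)))))))))))))))
(cons (mv 849 (cons (fin 850 2 846)
(mv 973 (cons (fin 974 1 909)
(mv 846 (cons (fin 845 3 845)
(mv 847 (cons (fin 914 3 846)
(mv 975 (cons (fin 782 7 782)
(fin 1103 7 846)))))))))))
(mv 845 (cons (fin 846 3 845)
(mv 977 (cons (fin 978 0 910)
(mv 974 (cons (fin 973 1 909)
(mv 975 (cons (fin 914 1 910)
(mv 1103 (cons (fin 1167 7 910)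
(fin 848 6 847))))))))))))))))
(cons (mv 909 (cons (cons (mv 844 (cons (fin 845 3 844)
(mv 843 (cons (fin 908 3 843)
(mv 976 (cons (fin 977 0 909)
(mv 848 (cons (fin 849 2 845)
(fin 1103 5 847)))))))))
(mv 844 (cons (fin 845 3 844)
(mv 843 (cons (fin 908 3 843)
(mv 976 (cons (fin 977 0 909)
(mv 973 (cons (fin 972 1 908)
(mv 846 (cons (fin 1101 6 845)
(mv 782 (cons (fin 718 5 717)
(fin 974 5 781))))))))))))))
(cons (mv 972 (cons (fin 973 1 908)
(mv 908 (cons (fin 971 1 907)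
(mv 844 (cons (fin 843 3 843)
(fin 845 3 844)))))))
(mv 976 (cons (fin 977 0 909)
(mv 848 (cons (fin 849 2 845)
(fin 1103 5 847))))))))
(mv 913 (cons (cons (mv 845 (cons (fin 846 3 845)
(mv 844 (cons (fin 909 3 844)
(mv 977 (cons (fin 978 0 910)
(mv 849 (cons (fin 850 2 846)
(mv 973 (cons (fin 974 1 909)
(mv 785 (cons (fin 976 5 784)
(mv 722 (cons (fin 786 6 721)
(mv 721 (cons (fin 658 6 657)
(mv 720 (cons (fin 656 7 656)
(fin 784 7 720)))))))))))))))))))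
(mv 849 (cons (fin 850 2 846)
(mv 977 (cons (fin 978 0 910)
(mv 976 (cons (fin 909 0 909)
(fin 785 5 784))))))))
(cons (mv 845 (cons (fin 846 3 845)
(mv 844 (cons (fin 909 3 844)
(mv 850 (cons (fin 849 2 846)
(mv 974 (cons (fin 973 1 909)
(mv 914 (cons (fin 975 1 910)
(fin 851 2 847)))))))))))
(cons (mv 977 (cons (fin 978 0 910)
(mv 909 (cons (fin 976 0 909)
(mv 973 (cons (fin 972 1 908)
(fin 974 1 909)))))))
(mv 845 (cons (fin 846 3 845)
(mv 849 (cons (fin 850 2 846)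
(mv 977 (cons (fin 978 0 910)
(mv 973 (cons (fin 974 1 909)
(mv 785 (cons (fin 976 5 784)
(mv 722 (cons (fin 786 6 721)
(mv 721 (cons (fin 658 6 657)
(mv 720 (cons (fin 656 7 656)
(fin 784 7 720)))))))))))))))))))))))
(cons (cons (mv 909 (cons (cons (mv 844 (cons (fin 845 3 844)
(mv 843 (cons (fin 908 3 843)
(mv 976 (cons (fin 977 0 909)
(mv 848 (cons (fin 849 2 845)
(fin 1103 5 847)))))))))
(mv 844 (cons (fin 845 3 844)
(mv 843 (cons (fin 908 3 843)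
(mv 976 (cons (fin 977 0 909)
(mv 973 (cons (fin 972 1 908)
(mv 913 (cons (fin 974 1 909)
(mv 850 (cons (fin 849 2 846)
(mv 914 (cons (fin 851 2 847)
(mv 915 (cons (fin 975 1 911)
(mv 979 (cons (fin 978 0 911)
(fin 980 0 912))))))))))))))))))))
(cons (mv 972 (cons (fin 973 1 908)
(mv 908 (cons (fin 971 1 907)
(mv 844 (cons (fin 843 3 843)
(fin 845 3 844)))))))
(mv 976 (cons (fin 977 0 909)
(mv 848 (cons (fin 849 2 845)
(fin 1103 5 847))))))))
(mv 913 (cons (cons (mv 845 (cons (fin 846 3 845)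
(mv 844 (cons (fin 909 3 844)
(mv 977 (cons (fin 978 0 910)
(mv 849 (cons (fin 850 2 846)
(mv 974 (cons (fin 973 1 909)
(mv 975 (cons (fin 914 1 910)
(mv 1103 (cons (fin 1167 7 910)
(fin 848 6 847)))))))))))))))
(mv 973 (cons (fin 974 1 909)
(mv 909 (cons (fin 972 1 908)
(mv 849 (cons (fin 848 2 845)
(fin 850 2 846))))))))
(cons (mv 977 (cons (fin 978 0 910)
(mv 845 (cons (fin 846 3 845)
(mv 909 (cons (fin 844 3 844)
(mv 849 (cons (fin 848 2 845)
(fin 850 2 846)))))))))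
(cons (mv 973 (cons (fin 974 1 909)
(mv 909 (cons (fin 972 1 908)
(mv 845 (cons (fin 844 3 844)
(fin 846 3 845)))))))
(mv 977 (cons (fin 978 0 910)
(mv 849 (cons (fin 850 2 846)
(mv 973 (cons (fin 974 1 909)
(mv 846 (cons (fin 845 3 845)
(mv 847 (cons (fin 914 3 846)
(mv 975 (cons (fin 782 7 782)
(fin 1103 7 846))))))))))))))))))
(cons (mv 848 (cons (mv 1103 (cons (fin 976 5 847)
(fin 975 6 847)))
(mv 849 (cons (fin 909 2 845)
(mv 850 (cons (fin 847 1 846)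
(fin 851 1 847)))))))
(mv 909 (cons (cons (mv 844 (cons (fin 845 3 844)
(mv 843 (cons (fin 908 3 843)
(mv 976 (cons (fin 977 0 909)
(mv 972 (cons (fin 973 1 908)
(mv 848 (cons (fin 1103 5 847)
(mv 784 (cons (fin 975 5 783)
(mv 721 (cons (fin 785 6 720)
(mv 720 (cons (fin 657 6 656)
(mv 656 (cons (fin 847 5 655)
(mv 655 (cons (fin 591 7 591)
(fin 719 7 655)))))))))))))))))))))
(mv 976 (cons (fin 977 0 909)
(mv 908 (cons (fin 975 0 908)
(mv 848 (cons (fin 847 2 844)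
(fin 1103 5 847))))))))
(cons (mv 972 (cons (fin 973 1 908)
(mv 908 (cons (fin 971 1 907)
(mv 844 (cons (fin 843 3 843)
(fin 845 3 844)))))))
(mv 844 (cons (fin 845 3 844)
(mv 976 (cons (fin 977 0 909)
(mv 972 (cons (fin 973 1 908)
(mv 848 (cons (fin 1103 5 847)
(mv 784 (cons (fin 975 5 783)
(mv 721 (cons (fin 785 6 720)
(mv 720 (cons (fin 657 6 656)
(mv 656 (cons (fin 847 5 655)
(mv 655 (cons (fin 591 7 591)
(fin 719 7 655))))))))))))))))))))))))))
(mv 910 (cons (cons (cons (mv 909 (cons (cons (mv 844 (cons (fin 845 3 844)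
(mv 843 (cons (fin 908 3 843)
(mv 976 (cons (fin 977 0 909)
(mv 848 (cons (fin 849 2 845)
(fin 1103 5 847)))))))))
(mv 844 (cons (fin 845 3 844)
(mv 843 (cons (fin 908 3 843)
(mv 976 (cons (fin 977 0 909)
(mv 973 (cons (fin 972 1 908)
(mv 913 (cons (fin 974 1 909)
(mv 846 (cons (fin 1101 6 845)
(mv 718 (cons (fin 782 5 717)
(mv 975 (cons (fin 1103 7 846)
(mv 914 (cons (fin 847 3 846)
(fin 915 1 911))))))))))))))))))))
(cons (mv 972 (cons (fin 973 1 908)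
(mv 908 (cons (fin 971 1 907)
(mv 844 (cons (fin 843 3 843)
(fin 845 3 844)))))))
(mv 976 (cons (fin 977 0 909)
(mv 848 (cons (fin 849 2 845)
(fin 1103 5 847))))))))
(mv 913 (cons (cons (mv 845 (cons (fin 846 3 845)
(mv 977 (cons (fin 978 0 910)
(mv 849 (cons (fin 850 2 846)
(mv 973 (cons (fin 974 1 909)
(mv 785 (cons (fin 976 5 784)
(mv 722 (cons (fin 786 6 721)
(mv 721 (cons (fin 658 6 657)
(mv 657 (cons (fin 848 5 656)
(mv 656 (cons (fin 592 7 592)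
(fin 720 7 656)))))))))))))))))))
(mv 849 (cons (fin 850 2 846)
(mv 977 (cons (fin 978 0 910)
(mv 973 (cons (fin 974 1 909)
(mv 785 (cons (fin 976 5 784)
(mv 722 (cons (fin 786 6 721)
(mv 721 (cons (fin 658 6 657)
(mv 657 (cons (fin 848 5 656)
(mv 656 (cons (fin 592 7 592)
(fin 720 7 656))))))))))))))))))
(cons (mv 977 (cons (fin 978 0 910)
(mv 849 (cons (fin 850 2 846)
(mv 845 (cons (fin 846 3 845)
(mv 785 (cons (fin 976 5 784)
(mv 722 (cons (fin 786 6 721)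
(mv 721 (cons (fin 658 6 657)
(mv 657 (cons (fin 848 5 656)
(mv 656 (cons (fin 592 7 592)
(fin 720 7 656)))))))))))))))))
(cons (mv 849 (cons (fin 850 2 846)
(mv 973 (cons (fin 974 1 909)
(mv 846 (cons (fin 845 3 845)
(mv 847 (cons (fin 914 3 846)
(mv 975 (cons (fin 782 7 782)
(fin 1103 7 846)))))))))))
(mv 845 (cons (fin 846 3 845)
(mv 977 (cons (fin 978 0 910)
(mv 974 (cons (fin 973 1 909)
(mv 975 (cons (fin 914 1 910)
(mv 1103 (cons (fin 1167 7 910)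
(fin 848 6 847))))))))))))))))
(cons (mv 909 (cons (cons (mv 844 (cons (fin 845 3 844)
(mv 843 (cons (fin 908 3 843)
(mv 976 (cons (fin 977 0 909)
(mv 848 (cons (fin 849 2 845)
(fin 1103 5 847)))))))))
(mv 844 (cons (fin 845 3 844)
(mv 843 (cons (fin 908 3 843)
(mv 976 (cons (fin 977 0 909)
(mv 973 (cons (fin 972 1 908)
(mv 846 (cons (fin 1101 6 845)
(mv 782 (cons (fin 718 5 717)
(fin 974 5 781))))))))))))))
(cons (mv 972 (cons (fin 973 1 908)
(mv 908 (cons (fin 971 1 907)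
(mv 844 (cons (fin 843 3 843)
(fin 845 3 844)))))))
(mv 976 (cons (fin 977 0 909)
(mv 848 (cons (fin 849 2 845)
(fin 1103 5 847))))))))
(mv 913 (cons (cons (mv 845 (cons (fin 846 3 845)
(mv 844 (cons (fin 909 3 844)
(mv 977 (cons (fin 978 0 910)
(mv 850 (cons (fin 849 2 846)
(mv 974 (cons (fin 973 1 909)
(mv 914 (cons (fin 975 1 910)
(fin 851 2 847)))))))))))))
(mv 849 (cons (fin 850 2 846)
(mv 977 (cons (fin 978 0 910)
(mv 976 (cons (fin 909 0 909)
(fin 785 5 784))))))))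
(cons (mv 845 (cons (fin 846 3 845)
(mv 844 (cons (fin 909 3 844)
(mv 850 (cons (fin 849 2 846)
(mv 974 (cons (fin 973 1 909)
(mv 914 (cons (fin 975 1 910)
(fin 851 2 847)))))))))))
(cons (mv 977 (cons (fin 978 0 910)
(mv 909 (cons (fin 976 0 909)
(mv 973 (cons (fin 972 1 908)
(fin 974 1 909)))))))
(mv 845 (cons (fin 846 3 845)
(mv 849 (cons (fin 850 2 846)
(mv 978 (cons (fin 977 0 910)
(mv 974 (cons (fin 973 1 909)
(mv 914 (cons (fin 975 1 910)
(fin 979 0 911)))))))))))))))))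
(cons (cons (mv 913 (cons (cons (mv 845 (cons (fin 846 3 845)
(mv 844 (cons (fin 909 3 844)
(mv 977 (cons (fin 978 0 910)
(mv 849 (cons (fin 850 2 846)
(mv 974 (cons (fin 973 1 909)
(mv 975 (cons (fin 914 1 910)
(mv 1103 (cons (fin 1167 7 910)
(fin 848 6 847)))))))))))))))
(mv 973 (cons (fin 974 1 909)
(mv 909 (cons (fin 972 1 908)
(mv 849 (cons (fin 848 2 845)
(fin 850 2 846))))))))
(cons (mv 977 (cons (fin 978 0 910)
(mv 845 (cons (fin 846 3 845)
(mv 909 (cons (fin 844 3 844)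
(mv 849 (cons (fin 848 2 845)
(fin 850 2 846)))))))))
(cons (mv 973 (cons (fin 974 1 909)
(mv 909 (cons (fin 972 1 908)
(mv 845 (cons (fin 844 3 844)
(fin 846 3 845)))))))
(mv 977 (cons (fin 978 0 910)
(mv 849 (cons (fin 850 2 846)
(mv 973 (cons (fin 974 1 909)
(mv 846 (cons (fin 845 3 845)
(mv 847 (cons (fin 914 3 846)
(mv 975 (cons (fin 782 7 782)
(fin 1103 7 846)))))))))))))))))
(mv 909 (cons (cons (mv 844 (cons (fin 845 3 844)
(mv 843 (cons (fin 908 3 843)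
(mv 976 (cons (fin 977 0 909)
(mv 848 (cons (fin 849 2 845)
(fin 1103 5 847)))))))))
(mv 844 (cons (fin 845 3 844)
(mv 843 (cons (fin 908 3 843)
(mv 976 (cons (fin 977 0 909)
(mv 973 (cons (fin 972 1 908)
(mv 913 (cons (fin 974 1 909)
(mv 850 (cons (fin 849 2 846)
(mv 914 (cons (fin 851 2 847)
(mv 915 (cons (fin 975 1 911)
(mv 979 (cons (fin 978 0 911)
(fin 980 0 912))))))))))))))))))))
(cons (mv 972 (cons (fin 973 1 908)
(mv 908 (cons (fin 971 1 907)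
(mv 844 (cons (fin 843 3 843)
(fin 845 3 844)))))))
(mv 976 (cons (fin 977 0 909)
(mv 848 (cons (fin 849 2 845)
(fin 1103 5 847)))))))))
(cons (mv 848 (cons (mv 1103 (cons (fin 976 5 847)
(fin 975 6 847)))
(mv 849 (cons (fin 909 2 845)
(mv 850 (cons (fin 847 1 846)
(fin 851 1 847)))))))
(mv 909 (cons (cons (mv 844 (cons (fin 845 3 844)
(mv 843 (cons (fin 908 3 843)
(mv 976 (cons (fin 977 0 909)
(mv 972 (cons (fin 973 1 908)
(mv 1103 (cons (fin 848 5 847)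
(mv 975 (cons (fin 846 7 846)
(fin 1167 6 911)))))))))))))
(mv 976 (cons (fin 977 0 909)
(mv 908 (cons (fin 975 0 908)
(mv 848 (cons (fin 847 2 844)
(fin 1103 5 847))))))))
(cons (mv 972 (cons (fin 973 1 908)
(mv 908 (cons (fin 971 1 907)
(mv 844 (cons (fin 843 3 843)
(fin 845 3 844)))))))
(mv 844 (cons (fin 845 3 844)
(mv 976 (cons (fin 977 0 909)
(mv 972 (cons (fin 973 1 908)
(mv 1103 (cons (fin 848 5 847)
(mv 975 (cons (fin 846 7 846)
(fin 1167 6 911)))))))))))))))))))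
(cons (mv 848 (cons (cons (mv 1103 (cons (fin 976 5 847)
(fin 975 6 847)))
(mv 976 (cons (mv 783 (cons (fin 847 7 783)
(mv 784 (cons (fin 719 7 719)
(fin 975 5 783)))))
(cons (mv 785 (cons (fin 849 6 784)
(mv 784 (cons (fin 975 5 783)
(fin 721 6 720)))))
(mv 783 (cons (fin 847 7 783)
(mv 849 (cons (fin 785 6 784)
(mv 910 (cons (fin 909 2 845)
(mv 850 (cons (fin 851 1 847)
(fin 913 2 846)))))))))))))
(cons (mv 975 (cons (fin 1103 6 847)
(mv 847 (cons (fin 784 6 783)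
(mv 782 (cons (fin 846 7 782)
(mv 783 (cons (fin 718 7 718)
(mv 780 (cons (fin 781 0 780)
(mv 719 (cons (fin 655 4 655)
(mv 849 (cons (fin 850 3 782)
(mv 910 (cons (fin 909 2 845)
(fin 974 5 718)))))))))))))))))
(mv 976 (cons (fin 1103 5 847)
(mv 783 (cons (fin 847 7 783)
(mv 719 (cons (fin 784 7 719)
(mv 849 (cons (fin 785 6 784)
(mv 910 (cons (fin 909 2 845)
(mv 850 (cons (fin 851 1 847)
(fin 913 2 846))))))))))))))))
(mv 848 (cons (cons (mv 1103 (cons (fin 976 5 847)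
(fin 975 6 847)))
(mv 847 (cons (cons (mv 783 (cons (fin 976 7 783)
(mv 784 (cons (fin 975 6 783)
(mv 656 (cons (fin 720 5 655)
(mv 719 (cons (fin 655 4 655)
(mv 910 (cons (fin 974 5 718)
(mv 849 (cons (fin 850 1 846)
(fin 909 2 845)))))))))))))
(mv 783 (cons (fin 976 7 783)
(mv 719 (cons (fin 655 4 655)
(mv 656 (cons (fin 720 6 655)
(mv 910 (cons (fin 974 5 718)
(mv 849 (cons (fin 850 1 846)
(fin 909 2 845))))))))))))
(cons (mv 784 (cons (fin 975 6 783)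
(mv 720 (cons (fin 656 5 655)
(mv 655 (cons (fin 719 7 655)
(mv 913 (cons (fin 977 4 720)
(mv 846 (cons (fin 914 3 846)
(fin 845 0 845)))))))))))
(cons (mv 784 (cons (fin 975 6 783)
(mv 720 (cons (fin 656 5 655)
(mv 783 (cons (fin 976 7 783)
(mv 913 (cons (fin 977 4 720)
(mv 846 (cons (fin 914 3 846)
(fin 845 0 845)))))))))))
(mv 783 (cons (fin 976 7 783)
(mv 784 (cons (fin 975 6 783)
(mv 719 (cons (fin 655 4 655)
(mv 910 (cons (fin 974 5 718)
(mv 849 (cons (fin 850 1 846)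
(fin 909 2 845))))))))))))))))
(cons (mv 976 (cons (fin 1103 5 847)
(mv 783 (cons (fin 847 7 783)
(mv 719 (cons (fin 784 7 719)
(mv 910 (cons (cons (mv 909 (cons (fin 849 2 845)
(fin 977 0 909)))
(mv 913 (cons (mv 845 (cons (fin 846 3 845)
(mv 978 (cons (fin 977 0 910)
(mv 850 (cons (fin 849 2 846)
(mv 914 (cons (fin 851 2 847)
(fin 979 0 911)))))))))
(cons (mv 846 (cons (fin 845 3 845)
(mv 974 (cons (fin 973 1 909)
(fin 782 6 718)))))
(mv 850 (cons (fin 849 2 846)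
(mv 978 (cons (fin 977 0 910)
(mv 914 (cons (fin 851 2 847)
(fin 979 0 911)))))))))))
(cons (mv 849 (cons (fin 909 2 845)
(mv 850 (cons (fin 851 1 847)
(fin 913 2 846)))))
(mv 909 (cons (fin 977 0 909)
(mv 972 (cons (fin 973 1 908)
(mv 908 (cons (fin 971 1 907)
(mv 844 (cons (fin 843 3 843)
(fin 845 3 844))))))))))))))))))
(mv 975 (cons (fin 1103 6 847)
(mv 784 (cons (fin 720 5 719)
(fin 847 6 783))))))))))))))
(cons (mv 976 (cons (cons (mv 848 (cons (fin 1103 5 847)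
(mv 783 (cons (fin 847 7 783)
(mv 784 (cons (fin 719 7 719)
(mv 785 (cons (fin 721 6 720)
(fin 849 6 784)))))))))
(mv 1104 (cons (cons (mv 847 (cons (fin 911 7 847)
(mv 1103 (cons (fin 1167 5 911)
(mv 913 (cons (fin 849 6 848)
(mv 1105 (cons (fin 1169 4 912)
(mv 1106 (cons (fin 1107 3 1039)
(mv 977 (cons (fin 1168 6 912)
(mv 978 (cons (fin 979 1 975)
(mv 1042 (cons (fin 1043 2 1039)
(fin 1170 7 913)))))))))))))))))
(cons (mv 847 (cons (fin 911 7 847)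
(mv 913 (cons (fin 849 6 848)
(mv 1169 (cons (fin 1105 4 912)
(mv 1168 (cons (fin 977 6 912)
(fin 1233 4 976)))))))))
(mv 1167 (cons (fin 1103 5 911)
(mv 847 (cons (fin 911 7 847)
(mv 1168 (cons (fin 1231 5 975)
(mv 1169 (cons (fin 1105 4 912)
(fin 1233 4 976)))))))))))
(cons (mv 913 (cons (fin 849 6 848)
(mv 847 (cons (fin 911 7 847)
(mv 1168 (cons (fin 977 6 912)
(mv 1167 (cons (fin 1103 5 911)
(fin 1231 5 975)))))))))
(cons (mv 1103 (cons (fin 1167 5 911)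
(mv 1105 (cons (fin 1169 4 912)
(mv 1106 (cons (fin 1107 3 1039)
(mv 913 (cons (fin 849 6 848)
(mv 1170 (cons (fin 1171 0 1103)
(mv 977 (cons (fin 1168 6 912)
(mv 1042 (cons (fin 1043 2 1039)
(fin 978 7 913)))))))))))))))
(mv 913 (cons (fin 849 6 848)
(mv 911 (cons (fin 847 7 847)
(mv 1105 (cons (fin 1169 4 912)
(mv 1106 (cons (fin 1107 3 1039)
(mv 1103 (cons (fin 1167 5 911)
(mv 1170 (cons (fin 1171 0 1103)
(mv 1042 (cons (fin 1043 2 1039)
(mv 978 (cons (fin 977 7 913)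
(mv 979 (cons (fin 914 0 911)
(fin 915 6 914))))))))))))))))))))))))
(cons (mv 849 (cons (cons (mv 785 (cons (fin 848 6 784)
(mv 913 (cons (fin 721 5 720)
(fin 977 5 784)))))
(mv 848 (cons (fin 785 6 784)
(mv 847 (cons (fin 783 7 783)
(mv 911 (cons (fin 1104 7 847)
(mv 910 (cons (fin 850 1 846)
(fin 909 2 845))))))))))
(cons (mv 913 (cons (fin 1104 6 848)
(mv 850 (cons (cons (mv 851 (cons (fin 852 1 848)
(mv 911 (cons (fin 848 1 847)
(fin 910 2 846)))))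
(mv 851 (cons (fin 852 1 848)
(mv 848 (cons (mv 783 (cons (fin 784 3 783)
(fin 847 7 783)))
(cons (mv 915 (cons (fin 916 0 848)
(mv 847 (cons (fin 914 3 847)
(mv 787 (cons (fin 786 2 783)
(fin 788 2 784)))))))
(mv 787 (cons (fin 788 2 784)
(mv 784 (cons (fin 783 3 783)
(mv 720 (cons (fin 656 4 656)
(fin 977 4 720)))))))))))))
(cons (mv 911 (cons (fin 910 2 846)
(mv 847 (cons (mv 783 (cons (fin 848 7 783)
(fin 719 4 719)))
(cons (mv 846 (cons (fin 914 3 846)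
(mv 845 (cons (fin 844 0 844)
(fin 848 0 845)))))
(mv 914 (cons (fin 846 3 846)
(mv 719 (cons (fin 783 4 719)
(mv 979 (cons (fin 978 0 911)
(mv 915 (cons (fin 980 0 912)
(mv 916 (cons (fin 917 3 849)
(fin 977 1 912))))))))))))))))
(mv 911 (cons (fin 910 2 846)
(mv 851 (cons (fin 852 1 848)
(fin 914 2 847))))))))))
(mv 913 (cons (fin 1104 6 848)
(mv 785 (cons (fin 721 5 720)
(fin 977 5 784))))))))
(mv 1103 (cons (fin 848 5 847)
(mv 1167 (cons (fin 1104 5 911)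
(fin 1231 6 975))))))))
(mv 976 (cons (cons (mv 848 (cons (fin 1103 5 847)
(mv 783 (cons (fin 847 7 783)
(mv 784 (cons (fin 719 7 719)
(fin 975 5 783)))))))
(mv 1104 (cons (cons (cons (mv 849 (cons (fin 913 6 848)
(mv 1103 (cons (fin 1167 5 911)
(mv 1169 (cons (fin 1105 4 912)
(mv 1168 (cons (fin 1233 4 976)
(mv 1232 (cons (fin 975 7 975)
(fin 1296 7 1039)))))))))))
(mv 1105 (cons (fin 1169 4 912)
(mv 1106 (cons (fin 1107 3 1039)
(mv 913 (cons (fin 849 6 848)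
(mv 977 (cons (fin 1168 6 912)
(mv 978 (cons (fin 979 1 975)
(mv 1042 (cons (fin 1170 7 913)
(mv 1043 (cons (fin 1103 2 1039)
(fin 975 0 975))))))))))))))))
(cons (mv 1105 (cons (fin 1169 4 912)
(mv 1106 (cons (fin 1107 3 1039)
(mv 913 (cons (fin 849 6 848)
(mv 977 (cons (fin 1168 6 912)
(mv 978 (cons (fin 979 1 975)
(mv 1042 (cons (fin 1170 7 913)
(mv 975 (cons (fin 1043 0 975)
(mv 914 (cons (fin 915 1 911)
(fin 974 2 910)))))))))))))))))
(mv 1103 (cons (fin 1167 5 911)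
(mv 1169 (cons (fin 1105 4 912)
(mv 1168 (cons (fin 1233 4 976)
(mv 1232 (cons (fin 975 7 975)
(fin 1296 7 1039)))))))))))
(cons (cons (mv 849 (cons (fin 913 6 848)
(mv 1167 (cons (fin 1103 5 911)
(mv 1168 (cons (fin 1231 5 975)
(mv 1232 (cons (fin 975 7 975)
(mv 1233 (cons (fin 1169 4 976)
(fin 1297 4 1040)))))))))))
(mv 1103 (cons (fin 1167 5 911)
(mv 913 (cons (fin 849 6 848)
(mv 1168 (cons (fin 977 6 912)
(mv 1232 (cons (fin 975 7 975)
(fin 1296 7 1039))))))))))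
(cons (mv 913 (cons (fin 849 6 848)
(mv 1105 (cons (fin 1169 4 912)
(mv 1106 (cons (fin 1107 3 1039)
(mv 1103 (cons (fin 1167 5 911)
(mv 1170 (cons (fin 1171 0 1103)
(mv 1042 (cons (fin 1043 2 1039)
(mv 978 (cons (fin 977 7 913)
(mv 915 (cons (fin 979 6 914)
(mv 914 (cons (fin 975 1 911)
(fin 851 6 850)))))))))))))))))))
(mv 1103 (cons (fin 1167 5 911)
(mv 1105 (cons (fin 1169 4 912)
(mv 1106 (cons (fin 1107 3 1039)
(mv 913 (cons (fin 849 6 848)
(mv 1170 (cons (fin 1171 0 1103)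
(mv 977 (cons (fin 1168 6 912)
(mv 1042 (cons (fin 1043 2 1039)
(fin 978 7 913))))))))))))))))))))
(cons (mv 848 (cons (cons (mv 783 (cons (fin 847 7 783)
(mv 784 (cons (fin 719 7 719)
(fin 975 5 783)))))
(mv 849 (cons (fin 785 6 784)
(mv 783 (cons (fin 847 7 783)
(mv 1104 (cons (fin 913 6 848)
(mv 1169 (cons (fin 1105 4 912)
(mv 1168 (cons (fin 1233 4 976)
(mv 1231 (cons (fin 1167 5 975)
(mv 1232 (cons (fin 975 7 975)
(fin 1295 5 1039))))))))))))))))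
(cons (mv 785 (cons (fin 849 6 784)
(mv 784 (cons (fin 975 5 783)
(fin 721 6 720)))))
(mv 783 (cons (fin 847 7 783)
(mv 784 (cons (fin 719 7 719)
(mv 785 (cons (fin 721 6 720)
(fin 849 6 784))))))))))
(mv 848 (cons (fin 1103 5 847)
(mv 783 (cons (fin 847 7 783)
(mv 784 (cons (fin 719 7 719)
(mv 785 (cons (fin 721 6 720)
(fin 849 6 784)))))))))))))))
(cons (cons (cons (mv 976 (cons (cons (mv 848 (cons (fin 1103 5 847)
(mv 784 (cons (fin 975 5 783)
(mv 785 (cons (fin 721 6 720)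
(fin 849 6 784)))))))
(mv 1104 (cons (cons (mv 849 (cons (fin 913 6 848)
(mv 785 (cons (fin 848 6 784)
(mv 1169 (cons (fin 1105 4 912)
(mv 1168 (cons (fin 1233 4 976)
(mv 975 (cons (fin 911 7 911)
(fin 1232 7 975)))))))))))
(mv 1169 (cons (fin 1105 4 912)
(mv 1168 (cons (fin 1233 4 976)
(mv 975 (cons (fin 911 7 911)
(fin 1232 7 975))))))))
(cons (mv 849 (cons (fin 913 6 848)
(mv 848 (cons (fin 785 6 784)
(mv 975 (cons (fin 784 5 783)
(mv 1168 (cons (fin 911 7 911)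
(fin 1232 7 975)))))))))
(cons (mv 1105 (cons (fin 1169 4 912)
(mv 1106 (cons (fin 1107 3 1039)
(mv 848 (cons (mv 849 (cons (fin 785 6 784)
(fin 913 6 848)))
(cons (mv 784 (cons (fin 975 5 783)
(mv 719 (cons (fin 783 7 719)
(mv 720 (cons (fin 655 7 655)
(mv 721 (cons (fin 657 6 656)
(fin 785 6 720)))))))))
(mv 784 (cons (fin 975 5 783)
(mv 719 (cons (fin 783 7 719)
(mv 720 (cons (fin 655 7 655)
(mv 913 (cons (fin 849 6 848)
(fin 977 4 720))))))))))))))))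
(mv 913 (cons (fin 849 6 848)
(mv 1169 (cons (fin 1105 4 912)
(mv 1168 (cons (fin 977 6 912)
(fin 1233 4 976))))))))))))
(cons (mv 1104 (cons (cons (mv 1103 (cons (fin 1167 5 911)
(mv 1105 (cons (fin 1169 4 912)
(mv 1106 (cons (fin 1107 3 1039)
(mv 913 (cons (fin 849 6 848)
(mv 1170 (cons (fin 1171 0 1103)
(mv 977 (cons (fin 1168 6 912)
(mv 1042 (cons (fin 1043 2 1039)
(fin 978 7 913)))))))))))))))
(mv 849 (cons (fin 913 6 848)
(mv 1169 (cons (fin 1105 4 912)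
(mv 1168 (cons (fin 1233 4 976)
(mv 975 (cons (fin 911 7 911)
(fin 1232 7 975))))))))))
(cons (mv 1105 (cons (fin 1169 4 912)
(mv 1106 (cons (fin 1107 3 1039)
(mv 1167 (cons (fin 1103 5 911)
(mv 1168 (cons (fin 1231 5 975)
(mv 975 (cons (fin 911 7 911)
(fin 1232 7 975)))))))))))
(cons (mv 1103 (cons (fin 1167 5 911)
(mv 913 (cons (fin 849 6 848)
(mv 1168 (cons (fin 977 6 912)
(mv 975 (cons (fin 911 7 911)
(fin 1232 7 975)))))))))
(mv 913 (cons (fin 849 6 848)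
(mv 1105 (cons (fin 1169 4 912)
(mv 1106 (cons (fin 1107 3 1039)
(mv 1103 (cons (fin 1167 5 911)
(mv 1170 (cons (fin 1171 0 1103)
(mv 1042 (cons (fin 1043 2 1039)
(mv 978 (cons (fin 977 7 913)
(mv 915 (cons (fin 979 6 914)
(mv 914 (cons (fin 975 1 911)
(fin 851 6 850)))))))))))))))))))))))
(mv 1103 (cons (fin 848 5 847)
(mv 1167 (cons (fin 1104 5 911)
(fin 1231 6 975))))))))
(mv 976 (cons (cons (mv 848 (cons (fin 1103 5 847)
(mv 784 (cons (fin 975 5 783)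
(mv 783 (cons (fin 719 7 719)
(fin 847 7 783)))))))
(mv 1104 (cons (cons (mv 847 (cons (fin 911 7 847)
(mv 1105 (cons (fin 1169 4 912)
(mv 1106 (cons (fin 1107 3 1039)
(mv 913 (cons (fin 849 6 848)
(mv 977 (cons (fin 1168 6 912)
(mv 978 (cons (fin 979 1 975)
(mv 1042 (cons (fin 1170 7 913)
(mv 1043 (cons (fin 1103 2 1039)
(fin 975 0 975)))))))))))))))))
(cons (mv 1105 (cons (fin 1169 4 912)
(mv 1106 (cons (fin 1107 3 1039)
(mv 913 (cons (fin 849 6 848)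
(mv 977 (cons (fin 1168 6 912)
(mv 978 (cons (fin 979 1 975)
(mv 1042 (cons (fin 1170 7 913)
(mv 1043 (cons (fin 1103 2 1039)
(fin 975 0 975)))))))))))))))
(mv 1169 (cons (fin 1105 4 912)
(mv 847 (cons (fin 911 7 847)
(mv 1168 (cons (fin 1233 4 976)
(mv 1232 (cons (fin 975 7 975)
(mv 1296 (cons (fin 1103 7 1039)
(mv 1295 (cons (fin 1231 5 1039)
(fin 1359 5 1103)))))))))))))))
(cons (cons (mv 849 (cons (fin 913 6 848)
(mv 911 (cons (fin 847 7 847)
(mv 1168 (cons (fin 975 7 911)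
(mv 1233 (cons (fin 1169 4 976)
(mv 1232 (cons (fin 1297 4 1040)
(mv 1295 (cons (fin 1231 5 1039)
(mv 1296 (cons (fin 1103 7 1039)
(fin 1359 5 1103)))))))))))))))
(mv 847 (cons (fin 911 7 847)
(mv 913 (cons (fin 849 6 848)
(mv 1168 (cons (fin 977 6 912)
(mv 1232 (cons (fin 975 7 975)
(mv 1296 (cons (fin 1103 7 1039)
(mv 1295 (cons (fin 1231 5 1039)
(fin 1359 5 1103))))))))))))))
(cons (mv 913 (cons (fin 849 6 848)
(mv 911 (cons (fin 847 7 847)
(mv 1105 (cons (fin 1169 4 912)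
(mv 1106 (cons (fin 1107 3 1039)
(mv 910 (cons (cons (mv 977 (cons (fin 909 0 909)
(fin 978 0 910)))
(mv 845 (cons (fin 846 3 845)
(mv 844 (cons (fin 909 3 844)
(mv 974 (cons (fin 973 1 909)
(mv 914 (cons (fin 975 1 910)
(mv 978 (cons (fin 979 0 911)
(mv 851 (cons (fin 850 2 847)
(mv 915 (cons (fin 852 2 848)
(fin 1042 6 850))))))))))))))))
(cons (mv 973 (cons (fin 974 1 909)
(mv 909 (cons (fin 972 1 908)
(fin 977 0 909)))))
(mv 973 (cons (fin 974 1 909)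
(mv 978 (cons (fin 977 0 910)
(mv 845 (cons (fin 846 3 845)
(mv 914 (cons (fin 979 0 911)
(mv 851 (cons (fin 850 2 847)
(mv 915 (cons (fin 975 1 911)
(fin 852 2 848))))))))))))))))))))))))
(mv 847 (cons (fin 911 7 847)
(mv 913 (cons (fin 849 6 848)
(mv 1169 (cons (fin 1105 4 912)
(mv 1168 (cons (fin 977 6 912)
(fin 1233 4 976))))))))))))))
(cons (mv 1104 (cons (cons (mv 847 (cons (fin 911 7 847)
(mv 783 (cons (fin 848 7 783)
(mv 1105 (cons (fin 1169 4 912)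
(mv 1106 (cons (fin 1107 3 1039)
(mv 913 (cons (fin 849 6 848)
(mv 977 (cons (fin 1168 6 912)
(mv 978 (cons (fin 979 1 975)
(mv 1042 (cons (fin 1170 7 913)
(mv 975 (cons (fin 1043 0 975)
(mv 914 (cons (fin 915 1 911)
(fin 974 2 910)))))))))))))))))))))
(cons (mv 849 (cons (fin 913 6 848)
(mv 848 (cons (fin 785 6 784)
(mv 1105 (cons (fin 1169 4 912)
(mv 1106 (cons (fin 1107 3 1039)
(mv 783 (cons (fin 847 7 783)
(mv 784 (cons (fin 719 7 719)
(fin 975 5 783)))))))))))))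
(mv 1105 (cons (fin 1169 4 912)
(mv 1106 (cons (fin 1107 3 1039)
(mv 849 (cons (fin 913 6 848)
(mv 848 (cons (fin 785 6 784)
(mv 975 (cons (fin 784 5 783)
(mv 1168 (cons (fin 911 7 911)
(fin 1232 7 975)))))))))))))))
(cons (cons (mv 847 (cons (fin 911 7 847)
(mv 848 (cons (fin 783 7 783)
(mv 1105 (cons (fin 1169 4 912)
(mv 1106 (cons (fin 1107 3 1039)
(mv 785 (cons (fin 849 6 784)
(mv 784 (cons (fin 975 5 783)
(fin 721 6 720)))))))))))))
(mv 847 (cons (fin 911 7 847)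
(mv 848 (cons (fin 783 7 783)
(mv 1169 (cons (fin 1105 4 912)
(mv 975 (cons (fin 784 5 783)
(mv 1168 (cons (fin 1232 7 975)
(fin 1233 4 976))))))))))))
(cons (mv 849 (cons (fin 913 6 848)
(mv 848 (cons (fin 785 6 784)
(mv 847 (cons (fin 783 7 783)
(fin 911 7 847)))))))
(mv 847 (cons (fin 911 7 847)
(mv 1105 (cons (fin 1169 4 912)
(mv 1106 (cons (fin 1107 3 1039)
(mv 913 (cons (fin 849 6 848)
(mv 977 (cons (fin 1168 6 912)
(mv 978 (cons (fin 979 1 975)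
(mv 1042 (cons (fin 1170 7 913)
(mv 975 (cons (fin 1043 0 975)
(mv 914 (cons (fin 915 1 911)
(fin 974 2 910)))))))))))))))))))))))
(cons (mv 848 (cons (fin 1103 5 847)
(mv 784 (cons (fin 975 5 783)
(mv 785 (cons (fin 721 6 720)
(fin 849 6 784)))))))
(mv 848 (cons (fin 1103 5 847)
(mv 783 (cons (fin 847 7 783)
(mv 784 (cons (fin 719 7 719)
(mv 785 (cons (fin 721 6 720)
(fin 849 6 784))))))))))))))
(cons (mv 976 (cons (cons (mv 848 (cons (fin 1103 5 847)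
(mv 783 (cons (fin 847 7 783)
(mv 784 (cons (fin 719 7 719)
(fin 975 5 783)))))))
(mv 847 (cons (mv 783 (cons (fin 848 7 783)
(mv 911 (cons (fin 1104 7 847)
(fin 719 4 719)))))
(cons (mv 848 (cons (fin 783 7 783)
(mv 975 (cons (fin 784 5 783)
(mv 974 (cons (mv 973 (cons (fin 913 2 909)
(fin 972 0 972)))
(cons (mv 846 (cons (cons (mv 845 (cons (fin 913 0 845)
(mv 908 (cons (fin 909 1 844)
(mv 844 (cons (fin 907 1 843)
(mv 780 (cons (fin 779 3 779)
(fin 781 3 780)))))))))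
(mv 910 (cons (fin 782 4 782)
(mv 909 (cons (fin 977 3 909)
(mv 908 (cons (fin 845 1 844)
(fin 907 2 843))))))))
(cons (mv 910 (cons (fin 782 4 782)
(mv 977 (cons (fin 909 3 909)
(mv 978 (cons (fin 979 1 975)
(mv 914 (cons (fin 913 2 910)
(fin 915 2 911)))))))))
(mv 782 (cons (fin 910 4 782)
(mv 913 (cons (fin 845 0 845)
(mv 914 (cons (fin 915 3 847)
(fin 977 2 910))))))))))
(mv 973 (cons (fin 972 0 972)
(mv 909 (cons (fin 908 3 908)
(mv 910 (cons (fin 977 3 909)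
(mv 846 (cons (fin 782 5 781)
(fin 1101 6 845))))))))))))))))
(mv 1104 (cons (fin 911 7 847)
(mv 1169 (cons (fin 1105 4 912)
(mv 1168 (cons (fin 1233 4 976)
(mv 913 (cons (fin 977 6 912)
(mv 1231 (cons (fin 1167 5 975)
(mv 1232 (cons (fin 975 7 975)
(fin 1295 5 1039)))))))))))))))))
(cons (mv 1104 (cons (cons (mv 847 (cons (fin 911 7 847)
(mv 1169 (cons (fin 1105 4 912)
(mv 1103 (cons (fin 1167 5 911)
(mv 1168 (cons (fin 1233 4 976)
(mv 1232 (cons (fin 975 7 975)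
(fin 1296 7 1039)))))))))))
(cons (mv 1169 (cons (fin 1105 4 912)
(mv 847 (cons (fin 911 7 847)
(mv 1168 (cons (fin 1233 4 976)
(mv 913 (cons (fin 977 6 912)
(mv 1232 (cons (fin 975 7 975)
(mv 1296 (cons (fin 1103 7 1039)
(mv 1295 (cons (fin 1231 5 1039)
(fin 1359 5 1103)))))))))))))))
(mv 1169 (cons (fin 1105 4 912)
(mv 1103 (cons (fin 1167 5 911)
(mv 1168 (cons (fin 1233 4 976)
(mv 1232 (cons (fin 975 7 975)
(fin 1296 7 1039)))))))))))
(cons (cons (mv 1169 (cons (fin 1105 4 912)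
(mv 847 (cons (fin 911 7 847)
(mv 1168 (cons (fin 1233 4 976)
(mv 913 (cons (fin 977 6 912)
(mv 1231 (cons (fin 1167 5 975)
(mv 1232 (cons (fin 975 7 975)
(fin 1295 5 1039)))))))))))))
(mv 1103 (cons (fin 1167 5 911)
(mv 911 (cons (fin 847 7 847)
(mv 975 (cons (fin 1168 7 911)
(mv 910 (cons (fin 846 7 846)
(mv 977 (cons (fin 978 3 910)
(fin 909 0 909))))))))))))
(cons (mv 911 (cons (fin 847 7 847)
(mv 1103 (cons (fin 1167 5 911)
(mv 1105 (cons (fin 1169 4 912)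
(mv 1106 (cons (fin 1107 3 1039)
(mv 1042 (cons (fin 1043 2 1039)
(mv 1170 (cons (fin 1171 0 1103)
(mv 978 (cons (cons (mv 977 (cons (fin 979 3 911)
(fin 913 7 913)))
(mv 979 (cons (fin 915 6 914)
(mv 913 (cons (fin 914 0 911)
(mv 910 (cons (cons (mv 846 (cons (fin 845 3 845)
(fin 975 7 846)))
(mv 973 (cons (fin 974 1 909)
(mv 909 (cons (fin 972 1 908)
(mv 844 (cons (fin 845 3 844)
(mv 908 (cons (fin 843 3 843)
(fin 975 0 908))))))))))
(cons (mv 973 (cons (fin 974 1 909)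
(mv 909 (cons (fin 972 1 908)
(mv 845 (cons (fin 844 3 844)
(fin 846 3 845)))))))
(mv 846 (cons (fin 975 7 846)
(mv 973 (cons (fin 974 1 909)
(mv 909 (cons (fin 972 1 908)
(fin 1101 6 845)))))))))))))))
(cons (mv 977 (cons (fin 913 7 913)
(mv 910 (cons (fin 975 3 910)
(fin 909 0 909)))))
(mv 979 (cons (fin 977 3 911)
(fin 915 6 914))))))))))))))))))
(mv 1169 (cons (fin 1105 4 912)
(mv 847 (cons (fin 911 7 847)
(mv 1168 (cons (fin 1233 4 976)
(mv 1167 (cons (fin 1103 5 911)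
(fin 1231 5 975)))))))))))))
(mv 1103 (cons (fin 848 5 847)
(mv 1167 (cons (fin 1104 5 911)
(fin 1231 6 975))))))))
(mv 911 (cons (cons (mv 975 (cons (cons (mv 848 (cons (fin 1103 6 847)
(mv 847 (cons (fin 784 6 783)
(fin 1104 4 847)))))
(mv 847 (cons (fin 1104 4 847)
(mv 783 (cons (fin 976 4 783)
(mv 784 (cons (fin 720 6 719)
(fin 848 6 783))))))))
(cons (mv 848 (cons (fin 1103 6 847)
(mv 784 (cons (fin 720 5 719)
(fin 976 5 783)))))
(mv 847 (cons (fin 1104 4 847)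
(mv 782 (cons (fin 846 7 782)
(mv 783 (cons (fin 718 7 718)
(fin 976 4 783))))))))))
(cons (mv 976 (cons (cons (mv 847 (cons (fin 1104 7 847)
(mv 848 (cons (fin 783 7 783)
(fin 1103 5 847)))))
(mv 1104 (cons (fin 847 7 847)
(mv 1167 (cons (fin 1103 5 911)
(mv 1169 (cons (fin 1105 4 912)
(mv 1168 (cons (fin 1231 5 975)
(fin 1233 4 976))))))))))
(cons (mv 848 (cons (fin 1103 5 847)
(mv 783 (cons (fin 847 7 783)
(mv 784 (cons (fin 719 7 719)
(mv 785 (cons (fin 721 6 720)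
(fin 849 6 784)))))))))
(cons (mv 1103 (cons (fin 848 5 847)
(mv 1167 (cons (fin 1104 5 911)
(fin 1231 6 975)))))
(mv 847 (cons (fin 1104 7 847)
(mv 783 (cons (fin 848 7 783)
(fin 719 4 719)))))))))
(mv 975 (cons (cons (mv 848 (cons (fin 1103 6 847)
(mv 784 (cons (fin 720 5 719)
(fin 847 6 783)))))
(mv 847 (cons (fin 1104 4 847)
(mv 782 (cons (fin 846 7 782)
(mv 783 (cons (fin 718 7 718)
(mv 784 (cons (fin 720 6 719)
(fin 848 6 783))))))))))
(cons (mv 1103 (cons (fin 848 6 847)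
(mv 1102 (cons (fin 1166 5 910)
(mv 1100 (cons (fin 1101 2 1036)
(mv 1168 (cons (fin 1104 4 911)
(mv 910 (cons (fin 846 7 846)
(mv 1167 (cons (fin 974 7 910)
(fin 1232 4 975)))))))))))))
(mv 1104 (cons (fin 847 4 847)
(mv 1168 (cons (fin 1232 7 975)
(fin 1103 4 911))))))))))
(cons (cons (mv 910 (cons (cons (mv 909 (cons (cons (mv 844 (cons (fin 845 3 844)
(mv 843 (cons (fin 908 3 843)
(mv 976 (cons (fin 977 0 909)
(mv 972 (cons (fin 973 1 908)
(mv 847 (cons (fin 1104 7 847)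
(mv 783 (cons (fin 719 4 719)
(fin 975 4 783)))))))))))))
(mv 844 (cons (fin 845 3 844)
(mv 843 (cons (fin 908 3 843)
(mv 973 (cons (fin 972 1 908)
(mv 846 (cons (fin 1101 6 845)
(mv 782 (cons (fin 718 5 717)
(fin 974 5 781))))))))))))
(cons (mv 976 (cons (fin 977 0 909)
(mv 908 (cons (fin 975 0 908)
(mv 844 (cons (fin 843 3 843)
(fin 845 3 844)))))))
(cons (mv 976 (cons (fin 977 0 909)
(mv 908 (cons (fin 975 0 908)
(mv 972 (cons (fin 971 1 907)
(fin 973 1 908)))))))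
(mv 976 (cons (fin 977 0 909)
(mv 844 (cons (fin 845 3 844)
(mv 847 (cons (fin 1104 7 847)
(mv 783 (cons (fin 719 4 719)
(fin 975 4 783)))))))))))))
(cons (mv 975 (cons (cons (mv 846 (cons (fin 1103 7 846)
(mv 847 (cons (fin 782 7 782)
(fin 1104 4 847)))))
(mv 847 (cons (fin 1104 4 847)
(mv 783 (cons (fin 976 4 783)
(mv 782 (cons (fin 718 7 718)
(fin 846 7 782))))))))
(cons (mv 846 (cons (fin 1103 7 846)
(mv 782 (cons (fin 847 7 782)
(fin 718 4 718)))))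
(cons (mv 846 (cons (fin 1103 7 846)
(mv 782 (cons (fin 718 4 718)
(fin 974 4 782)))))
(mv 847 (cons (fin 1104 4 847)
(mv 783 (cons (fin 976 4 783)
(mv 720 (cons (fin 784 6 719)
(mv 719 (cons (fin 974 5 718)
(fin 656 6 655)))))))))))))
(mv 909 (cons (cons (mv 844 (cons (fin 845 3 844)
(mv 843 (cons (fin 908 3 843)
(mv 976 (cons (fin 977 0 909)
(mv 972 (cons (fin 973 1 908)
(mv 1104 (cons (fin 847 7 847)
(mv 1167 (cons (fin 1103 5 911)
(mv 1169 (cons (fin 1105 4 912)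
(mv 1168 (cons (fin 1231 5 975)
(fin 1233 4 976)))))))))))))))))
(mv 976 (cons (fin 977 0 909)
(mv 844 (cons (fin 845 3 844)
(mv 843 (cons (fin 908 3 843)
(mv 1104 (cons (fin 847 7 847)
(mv 1167 (cons (fin 1103 5 911)
(mv 1169 (cons (fin 1105 4 912)
(mv 1168 (cons (fin 1231 5 975)
(fin 1233 4 976))))))))))))))))
(cons (mv 972 (cons (fin 973 1 908)
(mv 908 (cons (fin 971 1 907)
(mv 844 (cons (fin 843 3 843)
(fin 845 3 844)))))))
(cons (mv 972 (cons (fin 973 1 908)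
(mv 908 (cons (fin 971 1 907)
(mv 976 (cons (fin 977 0 909)
(mv 1104 (cons (fin 847 7 847)
(mv 1167 (cons (fin 1103 5 911)
(mv 1169 (cons (fin 1105 4 912)
(mv 1168 (cons (fin 1231 5 975)
(fin 1233 4 976)))))))))))))))
(mv 976 (cons (fin 977 0 909)
(mv 844 (cons (fin 845 3 844)
(mv 847 (cons (fin 1104 7 847)
(mv 973 (cons (fin 972 1 908)
(mv 719 (cons (fin 783 4 719)
(mv 846 (cons (fin 1101 6 845)
(mv 782 (cons (fin 718 5 717)
(fin 974 5 781)))))))))))))))))))))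
(cons (mv 975 (cons (cons (mv 846 (cons (fin 1103 7 846)
(mv 847 (cons (fin 782 7 782)
(fin 1104 4 847)))))
(mv 1104 (cons (fin 847 4 847)
(mv 1168 (cons (fin 1232 7 975)
(fin 1103 4 911))))))
(cons (mv 847 (cons (fin 1104 4 847)
(mv 782 (cons (fin 846 7 782)
(mv 783 (cons (fin 718 7 718)
(mv 719 (cons (fin 974 5 718)
(mv 720 (cons (fin 656 6 655)
(fin 784 6 719)))))))))))
(cons (mv 846 (cons (fin 1103 7 846)
(mv 782 (cons (fin 847 7 782)
(fin 718 4 718)))))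
(mv 846 (cons (fin 1103 7 846)
(mv 782 (cons (fin 718 4 718)
(fin 974 4 782)))))))))
(cons (mv 909 (cons (cons (mv 844 (cons (fin 845 3 844)
(mv 843 (cons (fin 908 3 843)
(mv 976 (cons (fin 977 0 909)
(mv 973 (cons (fin 972 1 908)
(mv 846 (cons (fin 1101 6 845)
(mv 782 (cons (fin 718 5 717)
(fin 974 5 781)))))))))))))
(mv 844 (cons (fin 845 3 844)
(mv 908 (cons (fin 843 3 843)
(mv 976 (cons (fin 975 0 908)
(fin 977 0 909))))))))
(cons (mv 972 (cons (fin 973 1 908)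
(mv 908 (cons (fin 971 1 907)
(mv 844 (cons (fin 843 3 843)
(fin 845 3 844)))))))
(cons (mv 976 (cons (fin 977 0 909)
(mv 908 (cons (fin 975 0 908)
(mv 972 (cons (fin 971 1 907)
(fin 973 1 908)))))))
(mv 973 (cons (fin 972 1 908)
(mv 844 (cons (fin 845 3 844)
(mv 846 (cons (fin 1101 6 845)
(mv 782 (cons (fin 718 5 717)
(fin 974 5 781)))))))))))))
(mv 909 (cons (cons (mv 844 (cons (fin 845 3 844)
(mv 843 (cons (fin 908 3 843)
(mv 976 (cons (fin 977 0 909)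
(mv 972 (cons (fin 973 1 908)
(mv 847 (cons (fin 1104 7 847)
(mv 783 (cons (fin 719 4 719)
(fin 975 4 783)))))))))))))
(mv 844 (cons (fin 845 3 844)
(mv 908 (cons (fin 843 3 843)
(mv 972 (cons (fin 971 1 907)
(fin 973 1 908))))))))
(cons (mv 976 (cons (fin 977 0 909)
(mv 908 (cons (fin 975 0 908)
(mv 844 (cons (fin 843 3 843)
(fin 845 3 844)))))))
(cons (mv 976 (cons (fin 977 0 909)
(mv 908 (cons (fin 975 0 908)
(mv 972 (cons (fin 971 1 907)
(fin 973 1 908)))))))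
(mv 976 (cons (fin 977 0 909)
(mv 844 (cons (fin 845 3 844)
(mv 847 (cons (fin 1104 7 847)
(mv 783 (cons (fin 719 4 719)
(fin 975 4 783)))))))))))))))))
(mv 847 (cons (cons (mv 1104 (cons (fin 976 7 847)
(fin 975 4 847)))
(mv 975 (cons (cons (mv 783 (cons (fin 976 4 783)
(mv 784 (cons (fin 720 6 719)
(fin 848 6 783)))))
(mv 846 (cons (fin 782 7 782)
(mv 848 (cons (fin 784 6 783)
(mv 845 (cons (fin 844 0 844)
(mv 909 (cons (fin 908 1 844)
(mv 780 (cons (fin 781 3 780)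
(mv 849 (cons (fin 910 1 845)
(mv 785 (cons (fin 786 2 782)
(fin 976 6 784))))))))))))))))
(cons (mv 783 (cons (fin 976 4 783)
(mv 782 (cons (fin 718 7 718)
(fin 846 7 782)))))
(mv 782 (cons (fin 846 7 782)
(mv 783 (cons (fin 718 7 718)
(mv 784 (cons (fin 720 6 719)
(fin 848 6 783)))))))))))
(cons (mv 976 (cons (fin 1104 7 847)
(mv 783 (cons (fin 848 7 783)
(fin 719 4 719)))))
(mv 975 (cons (fin 1104 4 847)
(mv 782 (cons (fin 846 7 782)
(mv 783 (cons (fin 718 7 718)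
(mv 784 (cons (fin 720 6 719)
(fin 848 6 783)))))))))))))
(cons (mv 1103 (cons (cons (mv 848 (cons (fin 976 5 847)
(fin 975 6 847)))
(mv 975 (cons (cons (mv 846 (cons (fin 910 7 846)
(mv 1104 (cons (fin 1168 4 911)
(mv 1167 (cons (fin 976 5 911)
(mv 1166 (cons (fin 1102 5 910)
(fin 1230 5 974)))))))))
(mv 910 (cons (fin 846 7 846)
(mv 1104 (cons (fin 1168 4 911)
(mv 1102 (cons (fin 1166 5 910)
(mv 1101 (cons (fin 1100 2 1036)
(mv 1165 (cons (fin 1164 1 1100)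
(mv 973 (cons (fin 974 6 909)
(mv 972 (cons (fin 909 1 908)
(fin 908 7 908))))))))))))))))
(cons (mv 1102 (cons (fin 1166 5 910)
(mv 1100 (cons (fin 1101 2 1036)
(mv 910 (cons (fin 846 7 846)
(mv 1167 (cons (fin 974 7 910)
(fin 976 6 911)))))))))
(cons (mv 1167 (cons (fin 976 6 911)
(mv 1166 (cons (fin 1102 5 910)
(fin 1230 5 974)))))
(mv 976 (cons (fin 1167 6 911)
(mv 1104 (cons (fin 1168 7 911)
(mv 910 (cons (fin 846 7 846)
(mv 977 (cons (fin 978 3 910)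
(fin 909 0 909))))))))))))))
(cons (mv 976 (cons (fin 848 5 847)
(mv 1167 (cons (fin 1104 5 911)
(fin 1231 6 975)))))
(mv 975 (cons (fin 848 6 847)
(mv 1102 (cons (fin 1166 5 910)
(mv 1100 (cons (fin 1101 2 1036)
(mv 1168 (cons (fin 1104 4 911)
(mv 910 (cons (fin 846 7 846)
(mv 1167 (cons (fin 974 7 910)
(fin 1232 4 975))))))))))))))))
(mv 848 (cons (cons (mv 1103 (cons (fin 976 5 847)
(fin 975 6 847)))
(mv 976 (cons (mv 783 (cons (fin 847 7 783)
(mv 784 (cons (fin 719 7 719)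
(fin 975 5 783)))))
(cons (mv 847 (cons (fin 783 7 783)
(mv 849 (cons (fin 785 6 784)
(mv 910 (cons (fin 850 1 846)
(fin 909 2 845)))))))
(mv 785 (cons (fin 849 6 784)
(mv 784 (cons (fin 975 5 783)
(fin 721 6 720)))))))))
(cons (mv 975 (cons (fin 1103 6 847)
(mv 784 (cons (fin 720 5 719)
(fin 847 6 783)))))
(mv 976 (cons (fin 1103 5 847)
(mv 783 (cons (fin 847 7 783)
(mv 784 (cons (fin 719 7 719)
(mv 785 (cons (fin 721 6 720)
(fin 849 6 784))))))))))))))))))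
(cons (cons (mv 976 (cons (cons (cons (mv 848 (cons (fin 1103 5 847)
(mv 783 (cons (fin 847 7 783)
(mv 849 (cons (fin 785 6 784)
(mv 1104 (cons (fin 913 6 848)
(mv 1169 (cons (fin 1105 4 912)
(mv 1168 (cons (fin 1233 4 976)
(mv 975 (cons (fin 911 7 911)
(fin 1232 7 975)))))))))))))))
(mv 1104 (cons (cons (mv 847 (cons (fin 911 7 847)
(mv 783 (cons (fin 848 7 783)
(mv 1105 (cons (fin 1169 4 912)
(mv 1106 (cons (fin 1107 3 1039)
(mv 913 (cons (fin 849 6 848)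
(mv 977 (cons (fin 1168 6 912)
(mv 978 (cons (fin 979 1 975)
(mv 1042 (cons (fin 1170 7 913)
(mv 975 (cons (fin 1043 0 975)
(mv 914 (cons (fin 915 1 911)
(fin 974 2 910)))))))))))))))))))))
(cons (mv 849 (cons (fin 913 6 848)
(mv 785 (cons (fin 848 6 784)
(mv 1169 (cons (fin 1105 4 912)
(mv 1168 (cons (fin 1233 4 976)
(mv 1231 (cons (fin 1167 5 975)
(mv 1232 (cons (fin 975 7 975)
(fin 1295 5 1039)))))))))))))
(mv 1169 (cons (fin 1105 4 912)
(mv 847 (cons (fin 911 7 847)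
(mv 783 (cons (fin 848 7 783)
(mv 1168 (cons (fin 1233 4 976)
(mv 1231 (cons (fin 1167 5 975)
(mv 1232 (cons (fin 975 7 975)
(fin 1295 5 1039)))))))))))))))
(cons (cons (mv 849 (cons (fin 913 6 848)
(mv 785 (cons (fin 848 6 784)
(mv 911 (cons (fin 847 7 847)
(mv 1168 (cons (fin 975 7 911)
(mv 1233 (cons (fin 1169 4 976)
(mv 1231 (cons (fin 1167 5 975)
(mv 1232 (cons (fin 1295 5 1039)
(fin 1297 4 1040)))))))))))))))
(mv 847 (cons (fin 911 7 847)
(mv 783 (cons (fin 848 7 783)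
(mv 913 (cons (fin 849 6 848)
(mv 1168 (cons (fin 977 6 912)
(mv 1231 (cons (fin 1167 5 975)
(mv 1232 (cons (fin 975 7 975)
(fin 1295 5 1039))))))))))))))
(cons (mv 849 (cons (fin 913 6 848)
(mv 848 (cons (fin 785 6 784)
(mv 847 (cons (fin 783 7 783)
(fin 911 7 847)))))))
(mv 1105 (cons (fin 1169 4 912)
(mv 1106 (cons (fin 1107 3 1039)
(mv 913 (cons (fin 849 6 848)
(mv 847 (cons (fin 911 7 847)
(mv 977 (cons (fin 1168 6 912)
(mv 978 (cons (fin 979 1 975)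
(mv 1042 (cons (fin 1170 7 913)
(mv 975 (cons (fin 1043 0 975)
(mv 914 (cons (fin 915 1 911)
(fin 974 2 910))))))))))))))))))))))))
(cons (mv 1104 (cons (cons (mv 847 (cons (fin 911 7 847)
(mv 1105 (cons (fin 1169 4 912)
(mv 1106 (cons (fin 1107 3 1039)
(mv 913 (cons (fin 849 6 848)
(mv 1103 (cons (fin 1167 5 911)
(mv 1170 (cons (fin 1171 0 1103)
(mv 1042 (cons (fin 1043 2 1039)
(mv 977 (cons (fin 978 7 913)
(fin 1168 6 912)))))))))))))))))
(cons (mv 849 (cons (fin 913 6 848)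
(mv 1169 (cons (fin 1105 4 912)
(mv 847 (cons (fin 911 7 847)
(mv 1168 (cons (fin 1233 4 976)
(mv 1232 (cons (fin 975 7 975)
(mv 1296 (cons (fin 1103 7 1039)
(mv 1295 (cons (fin 1231 5 1039)
(fin 1359 5 1103)))))))))))))))
(mv 1105 (cons (fin 1169 4 912)
(mv 1106 (cons (fin 1107 3 1039)
(mv 913 (cons (fin 849 6 848)
(mv 1103 (cons (fin 1167 5 911)
(mv 1170 (cons (fin 1171 0 1103)
(mv 1042 (cons (fin 1043 2 1039)
(mv 977 (cons (fin 978 7 913)
(fin 1168 6 912)))))))))))))))))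
(cons (cons (mv 1105 (cons (fin 1169 4 912)
(mv 1106 (cons (fin 1107 3 1039)
(mv 913 (cons (fin 849 6 848)
(mv 847 (cons (fin 911 7 847)
(mv 977 (cons (fin 1168 6 912)
(mv 978 (cons (fin 979 1 975)
(mv 1042 (cons (fin 1170 7 913)
(mv 975 (cons (fin 1043 0 975)
(mv 914 (cons (fin 915 1 911)
(fin 974 2 910)))))))))))))))))))
(mv 1103 (cons (fin 1167 5 911)
(mv 1105 (cons (fin 1169 4 912)
(mv 1106 (cons (fin 1107 3 1039)
(mv 911 (cons (fin 847 7 847)
(mv 1170 (cons (fin 1171 0 1103)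
(mv 975 (cons (fin 1168 7 911)
(mv 1102 (cons (fin 1166 5 910)
(mv 1100 (cons (fin 1101 2 1036)
(mv 910 (cons (fin 846 7 846)
(mv 977 (cons (fin 978 3 910)
(fin 909 0 909))))))))))))))))))))))
(cons (mv 847 (cons (fin 911 7 847)
(mv 1103 (cons (fin 1167 5 911)
(mv 913 (cons (fin 849 6 848)
(mv 1168 (cons (fin 977 6 912)
(mv 1232 (cons (fin 975 7 975)
(fin 1296 7 1039)))))))))))
(mv 913 (cons (fin 849 6 848)
(mv 1105 (cons (fin 1169 4 912)
(mv 1106 (cons (fin 1107 3 1039)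
(mv 847 (cons (fin 911 7 847)
(mv 1103 (cons (fin 1167 5 911)
(mv 1170 (cons (fin 1171 0 1103)
(mv 1042 (cons (fin 1043 2 1039)
(mv 978 (cons (fin 977 7 913)
(mv 915 (cons (fin 979 6 914)
(mv 914 (cons (fin 975 1 911)
(fin 851 6 850)))))))))))))))))))))))))
(mv 848 (cons (fin 1103 5 847)
(mv 847 (cons (fin 783 7 783)
(mv 849 (cons (fin 785 6 784)
(mv 846 (cons (cons (mv 913 (cons (fin 845 0 845)
(fin 914 0 846)))
(mv 781 (cons (fin 782 3 781)
(mv 780 (cons (fin 845 3 780)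
(mv 910 (cons (fin 909 1 845)
(mv 850 (cons (fin 911 1 846)
(mv 915 (cons (fin 914 0 847)
(mv 787 (cons (fin 786 2 783)
(mv 851 (cons (fin 788 2 784)
(fin 916 0 848))))))))))))))))
(cons (mv 909 (cons (fin 910 1 845)
(mv 914 (cons (fin 913 0 846)
(mv 781 (cons (fin 782 3 781)
(mv 850 (cons (fin 915 0 847)
(mv 787 (cons (fin 786 2 783)
(mv 851 (cons (fin 911 1 847)
(fin 788 2 784)))))))))))))
(mv 845 (cons (fin 913 0 845)
(mv 781 (cons (fin 780 3 780)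
(fin 782 3 781))))))))))))))))
(cons (cons (mv 848 (cons (fin 1103 5 847)
(mv 849 (cons (fin 785 6 784)
(mv 1104 (cons (fin 913 6 848)
(mv 1169 (cons (fin 1105 4 912)
(mv 1168 (cons (fin 1233 4 976)
(mv 975 (cons (fin 911 7 911)
(fin 1232 7 975)))))))))))))
(mv 848 (cons (fin 1103 5 847)
(mv 847 (cons (fin 783 7 783)
(mv 1104 (cons (fin 911 7 847)
(mv 1169 (cons (fin 1105 4 912)
(mv 1168 (cons (fin 1233 4 976)
(mv 913 (cons (fin 977 6 912)
(mv 845 (cons (fin 846 0 845)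
(mv 914 (cons (fin 915 3 847)
(mv 1231 (cons (fin 1167 5 975)
(mv 1232 (cons (fin 975 7 975)
(fin 1295 5 1039))))))))))))))))))))))
(cons (mv 848 (cons (fin 1103 5 847)
(mv 849 (cons (fin 785 6 784)
(mv 783 (cons (fin 847 7 783)
(mv 1104 (cons (fin 913 6 848)
(mv 1169 (cons (fin 1105 4 912)
(mv 1168 (cons (fin 1233 4 976)
(mv 1231 (cons (fin 1167 5 975)
(mv 1232 (cons (fin 975 7 975)
(fin 1295 5 1039)))))))))))))))))
(mv 848 (cons (fin 1103 5 847)
(mv 785 (cons (fin 849 6 784)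
(mv 847 (cons (fin 783 7 783)
(mv 1104 (cons (fin 911 7 847)
(mv 1169 (cons (fin 1105 4 912)
(mv 1168 (cons (fin 1233 4 976)
(mv 1231 (cons (fin 1167 5 975)
(mv 1232 (cons (fin 975 7 975)
(fin 1295 5 1039)))))))))))))))))))))
(mv 976 (cons (cons (mv 848 (cons (fin 1103 5 847)
(mv 784 (cons (fin 975 5 783)
(mv 783 (cons (fin 719 7 719)
(fin 847 7 783)))))))
(mv 1104 (cons (cons (cons (mv 847 (cons (fin 911 7 847)
(mv 1169 (cons (fin 1105 4 912)
(mv 1103 (cons (fin 1167 5 911)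
(mv 1168 (cons (fin 1233 4 976)
(mv 1232 (cons (fin 975 7 975)
(fin 1296 7 1039)))))))))))
(mv 849 (cons (fin 913 6 848)
(mv 847 (cons (fin 911 7 847)
(mv 1169 (cons (fin 1105 4 912)
(mv 1168 (cons (fin 1233 4 976)
(mv 1232 (cons (fin 975 7 975)
(mv 1296 (cons (fin 1103 7 1039)
(mv 1295 (cons (fin 1231 5 1039)
(fin 1359 5 1103))))))))))))))))
(cons (mv 1105 (cons (fin 1169 4 912)
(mv 1106 (cons (fin 1107 3 1039)
(mv 913 (cons (fin 849 6 848)
(mv 911 (cons (fin 847 7 847)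
(mv 975 (cons (fin 1168 7 911)
(mv 974 (cons (fin 914 1 910)
(fin 973 2 909)))))))))))))
(mv 1103 (cons (fin 1167 5 911)
(mv 1169 (cons (fin 1105 4 912)
(mv 849 (cons (fin 913 6 848)
(mv 1168 (cons (fin 1233 4 976)
(mv 1232 (cons (fin 975 7 975)
(fin 1296 7 1039)))))))))))))
(cons (cons (mv 847 (cons (fin 911 7 847)
(mv 1167 (cons (fin 1103 5 911)
(mv 849 (cons (fin 913 6 848)
(mv 1168 (cons (fin 1231 5 975)
(mv 1232 (cons (fin 975 7 975)
(mv 1233 (cons (fin 1169 4 976)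
(fin 1297 4 1040)))))))))))))
(mv 1103 (cons (fin 1167 5 911)
(mv 911 (cons (fin 847 7 847)
(mv 849 (cons (fin 913 6 848)
(mv 975 (cons (fin 1168 7 911)
(mv 1102 (cons (fin 1166 5 910)
(mv 1101 (cons (fin 1100 2 1036)
(mv 910 (cons (fin 846 7 846)
(mv 1165 (cons (fin 1164 1 1100)
(mv 908 (cons (fin 909 0 908)
(mv 973 (cons (fin 972 7 908)
(fin 974 6 909))))))))))))))))))))))
(cons (mv 847 (cons (fin 911 7 847)
(mv 1169 (cons (fin 1105 4 912)
(mv 1167 (cons (fin 1103 5 911)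
(mv 1168 (cons (fin 1231 5 975)
(fin 1233 4 976)))))))))
(mv 1103 (cons (fin 1167 5 911)
(mv 911 (cons (fin 847 7 847)
(mv 913 (cons (fin 849 6 848)
(mv 1105 (cons (fin 1169 4 912)
(mv 1106 (cons (fin 1107 3 1039)
(mv 1042 (cons (fin 1043 2 1039)
(mv 1170 (cons (fin 1171 0 1103)
(mv 914 (cons (mv 975 (cons (fin 974 1 910)
(fin 915 1 911)))
(cons (mv 978 (cons (fin 979 0 911)
(mv 851 (cons (fin 850 2 847)
(fin 915 6 850)))))
(mv 978 (cons (fin 979 0 911)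
(mv 850 (cons (fin 851 2 847)
(mv 910 (cons (mv 974 (cons (fin 973 1 909)
(fin 975 1 910)))
(cons (mv 973 (cons (fin 974 1 909)
(mv 909 (cons (fin 972 1 908)
(mv 845 (cons (fin 844 3 844)
(fin 846 3 845)))))))
(mv 846 (cons (fin 845 3 845)
(fin 975 7 846))))))))))))))))))))))))))))))))
(cons (mv 1104 (cons (cons (mv 847 (cons (fin 911 7 847)
(mv 783 (cons (fin 848 7 783)
(mv 1169 (cons (fin 1105 4 912)
(mv 849 (cons (fin 913 6 848)
(mv 1168 (cons (fin 1233 4 976)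
(mv 1231 (cons (fin 1167 5 975)
(mv 1232 (cons (fin 975 7 975)
(fin 1295 5 1039)))))))))))))))
(cons (mv 1105 (cons (fin 1169 4 912)
(mv 1106 (cons (fin 1107 3 1039)
(mv 849 (cons (fin 913 6 848)
(mv 848 (cons (fin 785 6 784)
(mv 784 (cons (fin 975 5 783)
(mv 783 (cons (fin 719 7 719)
(fin 847 7 783)))))))))))))
(mv 849 (cons (fin 913 6 848)
(mv 785 (cons (fin 848 6 784)
(mv 1169 (cons (fin 1105 4 912)
(mv 1168 (cons (fin 1233 4 976)
(mv 975 (cons (fin 911 7 911)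
(fin 1232 7 975)))))))))))))
(cons (cons (mv 1169 (cons (fin 1105 4 912)
(mv 847 (cons (fin 911 7 847)
(mv 783 (cons (fin 848 7 783)
(mv 1168 (cons (fin 1233 4 976)
(mv 1231 (cons (fin 1167 5 975)
(mv 1232 (cons (fin 975 7 975)
(fin 1295 5 1039)))))))))))))
(mv 849 (cons (fin 913 6 848)
(mv 785 (cons (fin 848 6 784)
(mv 911 (cons (fin 847 7 847)
(mv 1168 (cons (fin 975 7 911)
(mv 1233 (cons (fin 1169 4 976)
(mv 1231 (cons (fin 1167 5 975)
(mv 1232 (cons (fin 1295 5 1039)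
(fin 1297 4 1040))))))))))))))))
(cons (mv 847 (cons (fin 911 7 847)
(mv 848 (cons (fin 783 7 783)
(mv 849 (cons (fin 785 6 784)
(fin 913 6 848)))))))
(mv 1105 (cons (fin 1169 4 912)
(mv 1106 (cons (fin 1107 3 1039)
(mv 913 (cons (fin 849 6 848)
(mv 911 (cons (fin 847 7 847)
(mv 975 (cons (fin 1168 7 911)
(mv 974 (cons (fin 914 1 910)
(fin 973 2 909)))))))))))))))))
(cons (mv 848 (cons (fin 1103 5 847)
(mv 783 (cons (fin 847 7 783)
(mv 784 (cons (fin 719 7 719)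
(mv 785 (cons (fin 721 6 720)
(fin 849 6 784)))))))))
(mv 848 (cons (fin 1103 5 847)
(mv 784 (cons (fin 975 5 783)
(mv 785 (cons (fin 721 6 720)
(fin 849 6 784))))))))))))
(cons (mv 976 (cons (cons (mv 848 (cons (fin 1103 5 847)
(mv 784 (cons (fin 975 5 783)
(mv 785 (cons (fin 721 6 720)
(fin 849 6 784)))))))
(mv 1104 (cons (cons (mv 847 (cons (fin 911 7 847)
(mv 1105 (cons (fin 1169 4 912)
(mv 1106 (cons (fin 1107 3 1039)
(mv 913 (cons (fin 849 6 848)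
(mv 977 (cons (fin 1168 6 912)
(mv 978 (cons (fin 979 1 975)
(mv 1042 (cons (fin 1170 7 913)
(mv 975 (cons (fin 1043 0 975)
(mv 914 (cons (fin 915 1 911)
(fin 974 2 910)))))))))))))))))))
(cons (mv 849 (cons (fin 913 6 848)
(mv 785 (cons (fin 848 6 784)
(mv 1169 (cons (fin 1105 4 912)
(mv 1168 (cons (fin 1233 4 976)
(mv 1231 (cons (fin 1167 5 975)
(mv 1232 (cons (fin 975 7 975)
(fin 1295 5 1039)))))))))))))
(mv 1169 (cons (fin 1105 4 912)
(mv 847 (cons (fin 911 7 847)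
(mv 1168 (cons (fin 1233 4 976)
(mv 1231 (cons (fin 1167 5 975)
(mv 1232 (cons (fin 975 7 975)
(fin 1295 5 1039)))))))))))))
(cons (cons (mv 849 (cons (fin 913 6 848)
(mv 785 (cons (fin 848 6 784)
(mv 911 (cons (fin 847 7 847)
(mv 1168 (cons (fin 975 7 911)
(mv 1233 (cons (fin 1169 4 976)
(mv 1231 (cons (fin 1167 5 975)
(mv 1232 (cons (fin 1295 5 1039)
(fin 1297 4 1040)))))))))))))))
(mv 847 (cons (fin 911 7 847)
(mv 913 (cons (fin 849 6 848)
(mv 1168 (cons (fin 977 6 912)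
(mv 1231 (cons (fin 1167 5 975)
(mv 1232 (cons (fin 975 7 975)
(fin 1295 5 1039))))))))))))
(cons (mv 913 (cons (fin 849 6 848)
(mv 911 (cons (fin 847 7 847)
(mv 1105 (cons (fin 1169 4 912)
(mv 1106 (cons (fin 1107 3 1039)
(mv 977 (cons (mv 910 (cons (fin 909 0 909)
(fin 978 0 910)))
(cons (mv 910 (cons (fin 909 0 909)
(mv 974 (cons (fin 973 1 909)
(mv 845 (cons (fin 846 3 845)
(mv 914 (cons (fin 975 1 910)
(mv 851 (cons (fin 850 2 847)
(mv 915 (cons (fin 916 1 912)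
(fin 852 2 848)))))))))))))
(mv 978 (cons (fin 979 3 911)
(mv 1042 (cons (fin 1170 7 913)
(mv 975 (cons (fin 1043 0 975)
(mv 914 (cons (fin 974 1 910)
(fin 915 1 911))))))))))))))))))))
(mv 1105 (cons (fin 1169 4 912)
(mv 1106 (cons (fin 1107 3 1039)
(mv 913 (cons (fin 849 6 848)
(mv 911 (cons (fin 847 7 847)
(mv 977 (cons (fin 1168 6 912)
(mv 978 (cons (fin 979 3 911)
(fin 910 0 910))))))))))))))))))
(cons (mv 1104 (cons (cons (cons (mv 847 (cons (fin 911 7 847)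
(mv 1105 (cons (fin 1169 4 912)
(mv 1106 (cons (fin 1107 3 1039)
(mv 913 (cons (fin 849 6 848)
(mv 1103 (cons (fin 1167 5 911)
(mv 1170 (cons (fin 1171 0 1103)
(mv 1042 (cons (fin 1043 2 1039)
(mv 977 (cons (fin 978 7 913)
(fin 1168 6 912)))))))))))))))))
(mv 849 (cons (fin 913 6 848)
(mv 1169 (cons (fin 1105 4 912)
(mv 847 (cons (fin 911 7 847)
(mv 1168 (cons (fin 1233 4 976)
(mv 1232 (cons (fin 975 7 975)
(mv 1296 (cons (fin 1103 7 1039)
(mv 1295 (cons (fin 1231 5 1039)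
(fin 1359 5 1103))))))))))))))))
(cons (mv 1105 (cons (fin 1169 4 912)
(mv 1106 (cons (fin 1107 3 1039)
(mv 913 (cons (fin 849 6 848)
(mv 847 (cons (fin 911 7 847)
(mv 977 (cons (fin 1168 6 912)
(mv 978 (cons (fin 979 1 975)
(mv 1042 (cons (fin 1170 7 913)
(mv 975 (cons (fin 1043 0 975)
(mv 914 (cons (fin 915 1 911)
(fin 974 2 910)))))))))))))))))))
(mv 849 (cons (fin 913 6 848)
(mv 1169 (cons (fin 1105 4 912)
(mv 1103 (cons (fin 1167 5 911)
(mv 1168 (cons (fin 1233 4 976)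
(mv 1232 (cons (fin 975 7 975)
(fin 1296 7 1039)))))))))))))
(cons (cons (mv 1105 (cons (fin 1169 4 912)
(mv 1106 (cons (fin 1107 3 1039)
(mv 911 (cons (fin 847 7 847)
(mv 1103 (cons (fin 1167 5 911)
(mv 1170 (cons (fin 1171 0 1103)
(mv 1042 (cons (fin 1043 2 1039)
(mv 975 (cons (fin 1168 7 911)
(mv 1102 (cons (fin 1166 5 910)
(mv 1100 (cons (fin 1101 2 1036)
(mv 910 (cons (fin 846 7 846)
(mv 977 (cons (fin 978 3 910)
(fin 909 0 909)))))))))))))))))))))))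
(mv 847 (cons (fin 911 7 847)
(mv 849 (cons (fin 913 6 848)
(mv 1167 (cons (fin 1103 5 911)
(mv 1168 (cons (fin 1231 5 975)
(mv 1232 (cons (fin 975 7 975)
(mv 1233 (cons (fin 1169 4 976)
(fin 1297 4 1040))))))))))))))
(cons (mv 1103 (cons (fin 1167 5 911)
(mv 847 (cons (fin 911 7 847)
(mv 913 (cons (fin 849 6 848)
(mv 1168 (cons (fin 977 6 912)
(mv 1232 (cons (fin 975 7 975)
(fin 1296 7 1039)))))))))))
(mv 913 (cons (fin 849 6 848)
(mv 1105 (cons (fin 1169 4 912)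
(mv 1106 (cons (fin 1107 3 1039)
(mv 1103 (cons (fin 1167 5 911)
(mv 1170 (cons (fin 1171 0 1103)
(mv 1042 (cons (fin 1043 2 1039)
(mv 847 (cons (fin 911 7 847)
(mv 978 (cons (fin 977 7 913)
(mv 915 (cons (fin 979 6 914)
(mv 914 (cons (fin 975 1 911)
(fin 851 6 850)))))))))))))))))))))))))
(mv 1103 (cons (fin 848 5 847)
(mv 1167 (cons (fin 1104 5 911)
(fin 1231 6 975))))))))
(mv 976 (cons (cons (mv 848 (cons (fin 1103 5 847)
(mv 784 (cons (fin 975 5 783)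
(mv 783 (cons (fin 719 7 719)
(fin 847 7 783)))))))
(mv 1104 (cons (cons (cons (mv 847 (cons (fin 911 7 847)
(mv 1105 (cons (fin 1169 4 912)
(mv 1106 (cons (fin 1107 3 1039)
(mv 913 (cons (fin 849 6 848)
(mv 1103 (cons (fin 1167 5 911)
(mv 1170 (cons (fin 1171 0 1103)
(mv 1042 (cons (fin 1043 2 1039)
(mv 1168 (cons (fin 977 6 912)
(mv 1232 (cons (fin 975 7 975)
(fin 1296 7 1039)))))))))))))))))))
(mv 849 (cons (fin 913 6 848)
(mv 1169 (cons (fin 1105 4 912)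
(mv 847 (cons (fin 911 7 847)
(mv 1168 (cons (fin 1233 4 976)
(mv 1232 (cons (fin 975 7 975)
(mv 1296 (cons (fin 1103 7 1039)
(mv 1295 (cons (fin 1231 5 1039)
(fin 1359 5 1103))))))))))))))))
(cons (mv 1105 (cons (fin 1169 4 912)
(mv 1106 (cons (fin 1107 3 1039)
(mv 913 (cons (fin 849 6 848)
(mv 847 (cons (fin 911 7 847)
(mv 1168 (cons (fin 977 6 912)
(mv 1231 (cons (fin 1167 5 975)
(mv 1232 (cons (fin 975 7 975)
(fin 1295 5 1039)))))))))))))))
(mv 849 (cons (fin 913 6 848)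
(mv 1169 (cons (fin 1105 4 912)
(mv 1103 (cons (fin 1167 5 911)
(mv 1168 (cons (fin 1233 4 976)
(mv 1232 (cons (fin 975 7 975)
(fin 1296 7 1039)))))))))))))
(cons (cons (mv 1105 (cons (fin 1169 4 912)
(mv 1106 (cons (fin 1107 3 1039)
(mv 911 (cons (fin 847 7 847)
(mv 1103 (cons (fin 1167 5 911)
(mv 1170 (cons (fin 1171 0 1103)
(mv 1042 (cons (fin 1043 2 1039)
(mv 975 (cons (fin 1168 7 911)
(mv 1102 (cons (fin 1166 5 910)
(mv 1100 (cons (fin 1101 2 1036)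
(mv 910 (cons (fin 846 7 846)
(mv 909 (cons (fin 908 0 908)
(fin 977 0 909)))))))))))))))))))))))
(mv 847 (cons (fin 911 7 847)
(mv 849 (cons (fin 913 6 848)
(mv 1167 (cons (fin 1103 5 911)
(mv 1168 (cons (fin 1231 5 975)
(mv 1232 (cons (fin 975 7 975)
(mv 1233 (cons (fin 1169 4 976)
(fin 1297 4 1040))))))))))))))
(cons (mv 1103 (cons (fin 1167 5 911)
(mv 847 (cons (fin 911 7 847)
(mv 913 (cons (fin 849 6 848)
(mv 1168 (cons (fin 977 6 912)
(mv 1232 (cons (fin 975 7 975)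
(fin 1296 7 1039)))))))))))
(cons (mv 913 (cons (fin 849 6 848)
(mv 911 (cons (fin 847 7 847)
(mv 1103 (cons (fin 1167 5 911)
(mv 1105 (cons (fin 1169 4 912)
(mv 1106 (cons (fin 1107 3 1039)
(mv 1042 (cons (fin 1043 2 1039)
(mv 1170 (cons (fin 1171 0 1103)
(mv 975 (cons (mv 914 (cons (fin 974 1 910)
(fin 915 1 911)))
(mv 1102 (cons (fin 1166 5 910)
(mv 1100 (cons (fin 1101 2 1036)
(mv 910 (cons (fin 846 7 846)
(mv 909 (cons (fin 908 0 908)
(fin 977 0 909)))))))))))))))))))))))))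
(mv 1105 (cons (fin 1169 4 912)
(mv 1106 (cons (fin 1107 3 1039)
(mv 913 (cons (fin 849 6 848)
(mv 847 (cons (fin 911 7 847)
(mv 1168 (cons (fin 977 6 912)
(mv 1167 (cons (fin 1103 5 911)
(fin 1231 5 975)))))))))))))))))))
(cons (mv 1104 (cons (cons (cons (mv 847 (cons (fin 911 7 847)
(mv 783 (cons (fin 848 7 783)
(mv 1105 (cons (fin 1169 4 912)
(mv 1106 (cons (fin 1107 3 1039)
(mv 913 (cons (fin 849 6 848)
(mv 1168 (cons (fin 977 6 912)
(mv 1231 (cons (fin 1167 5 975)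
(mv 1232 (cons (fin 975 7 975)
(fin 1295 5 1039)))))))))))))))))
(mv 849 (cons (fin 913 6 848)
(mv 785 (cons (fin 848 6 784)
(mv 1169 (cons (fin 1105 4 912)
(mv 1168 (cons (fin 1233 4 976)
(mv 1231 (cons (fin 1167 5 975)
(mv 1232 (cons (fin 975 7 975)
(fin 1295 5 1039))))))))))))))
(cons (mv 1105 (cons (fin 1169 4 912)
(mv 1106 (cons (fin 1107 3 1039)
(mv 847 (cons (fin 911 7 847)
(mv 848 (cons (fin 783 7 783)
(mv 784 (cons (fin 975 5 783)
(mv 785 (cons (fin 721 6 720)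
(fin 849 6 784)))))))))))))
(mv 847 (cons (fin 911 7 847)
(mv 783 (cons (fin 848 7 783)
(mv 1169 (cons (fin 1105 4 912)
(mv 1168 (cons (fin 1233 4 976)
(mv 913 (cons (fin 977 6 912)
(mv 1231 (cons (fin 1167 5 975)
(mv 1232 (cons (fin 975 7 975)
(fin 1295 5 1039)))))))))))))))))
(cons (cons (mv 849 (cons (fin 913 6 848)
(mv 785 (cons (fin 848 6 784)
(mv 911 (cons (fin 847 7 847)
(mv 1168 (cons (fin 975 7 911)
(mv 1233 (cons (fin 1169 4 976)
(mv 1231 (cons (fin 1167 5 975)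
(mv 1232 (cons (fin 1295 5 1039)
(fin 1297 4 1040)))))))))))))))
(mv 847 (cons (fin 911 7 847)
(mv 783 (cons (fin 848 7 783)
(mv 913 (cons (fin 849 6 848)
(mv 1168 (cons (fin 977 6 912)
(mv 1231 (cons (fin 1167 5 975)
(mv 1232 (cons (fin 975 7 975)
(fin 1295 5 1039))))))))))))))
(cons (mv 849 (cons (fin 913 6 848)
(mv 848 (cons (fin 785 6 784)
(mv 847 (cons (fin 783 7 783)
(fin 911 7 847)))))))
(mv 1105 (cons (fin 1169 4 912)
(mv 1106 (cons (fin 1107 3 1039)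
(mv 913 (cons (fin 849 6 848)
(mv 847 (cons (fin 911 7 847)
(mv 1168 (cons (fin 977 6 912)
(mv 1231 (cons (fin 1167 5 975)
(mv 1232 (cons (fin 975 7 975)
(fin 1295 5 1039)))))))))))))))))))
(cons (mv 848 (cons (fin 1103 5 847)
(mv 783 (cons (fin 847 7 783)
(mv 784 (cons (fin 719 7 719)
(mv 785 (cons (fin 721 6 720)
(fin 849 6 784)))))))))
(mv 848 (cons (fin 1103 5 847)
(mv 784 (cons (fin 975 5 783)
(mv 785 (cons (fin 721 6 720)
(fin 849 6 784))))))))))))))))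
(mv 976 (cons (cons (cons (mv 1038 (cons (fin 977 2 973)
(mv 972 (cons (fin 973 3 972)
(mv 1104 (cons (fin 1105 0 1037)
(mv 912 (cons (mv 1103 (cons (fin 848 5 847)
(fin 1167 5 911)))
(cons (mv 847 (cons (fin 911 7 847)
(mv 848 (cons (fin 783 7 783)
(mv 849 (cons (fin 785 6 784)
(fin 913 6 848)))))))
(mv 849 (cons (fin 913 6 848)
(mv 1103 (cons (fin 1167 5 911)
(mv 911 (cons (fin 847 7 847)
(mv 975 (cons (fin 1168 7 911)
(mv 910 (cons (fin 846 7 846)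
(mv 1102 (cons (fin 1166 5 910)
(mv 909 (cons (fin 908 0 908)
(mv 845 (cons (fin 844 3 844)
(fin 974 7 845))))))))))))))))))))))))))
(mv 912 (cons (cons (mv 848 (cons (fin 1103 5 847)
(mv 784 (cons (fin 975 5 783)
(mv 783 (cons (fin 719 7 719)
(fin 847 7 783)))))))
(mv 1104 (cons (cons (cons (mv 847 (cons (fin 911 7 847)
(mv 1105 (cons (fin 1169 4 912)
(mv 1106 (cons (fin 1107 3 1039)
(mv 913 (cons (fin 849 6 848)
(mv 1103 (cons (fin 1167 5 911)
(mv 1170 (cons (fin 1171 0 1103)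
(mv 1042 (cons (fin 1043 2 1039)
(mv 977 (cons (fin 978 7 913)
(fin 1168 6 912)))))))))))))))))
(mv 849 (cons (fin 913 6 848)
(mv 1169 (cons (fin 1105 4 912)
(mv 847 (cons (fin 911 7 847)
(mv 1168 (cons (fin 1233 4 976)
(mv 1232 (cons (fin 975 7 975)
(mv 1296 (cons (fin 1103 7 1039)
(mv 1295 (cons (fin 1231 5 1039)
(fin 1359 5 1103))))))))))))))))
(cons (mv 1105 (cons (fin 1169 4 912)
(mv 1106 (cons (fin 1107 3 1039)
(mv 913 (cons (fin 849 6 848)
(mv 1103 (cons (fin 1167 5 911)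
(mv 1170 (cons (fin 1171 0 1103)
(mv 1042 (cons (fin 1043 2 1039)
(mv 977 (cons (fin 978 7 913)
(fin 1168 6 912)))))))))))))))
(mv 849 (cons (fin 913 6 848)
(mv 1169 (cons (fin 1105 4 912)
(mv 847 (cons (fin 911 7 847)
(mv 1168 (cons (fin 1233 4 976)
(mv 1231 (cons (fin 1167 5 975)
(mv 1232 (cons (fin 975 7 975)
(fin 1295 5 1039)))))))))))))))
(cons (cons (mv 1105 (cons (fin 1169 4 912)
(mv 1106 (cons (fin 1107 3 1039)
(mv 1103 (cons (fin 1167 5 911)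
(mv 1170 (cons (fin 1171 0 1103)
(mv 1042 (cons (fin 1043 2 1039)
(mv 911 (cons (fin 847 7 847)
(mv 975 (cons (fin 1168 7 911)
(mv 910 (cons (fin 846 7 846)
(mv 977 (cons (fin 978 3 910)
(fin 909 0 909)))))))))))))))))))
(mv 847 (cons (fin 911 7 847)
(mv 849 (cons (fin 913 6 848)
(mv 1167 (cons (fin 1103 5 911)
(mv 1168 (cons (fin 1231 5 975)
(mv 1232 (cons (fin 975 7 975)
(mv 1233 (cons (fin 1169 4 976)
(fin 1297 4 1040))))))))))))))
(cons (mv 1103 (cons (fin 1167 5 911)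
(mv 847 (cons (fin 911 7 847)
(mv 913 (cons (fin 849 6 848)
(mv 1168 (cons (fin 977 6 912)
(mv 1232 (cons (fin 975 7 975)
(fin 1296 7 1039)))))))))))
(mv 913 (cons (fin 849 6 848)
(mv 1105 (cons (fin 1169 4 912)
(mv 1106 (cons (fin 1107 3 1039)
(mv 1103 (cons (fin 1167 5 911)
(mv 1170 (cons (fin 1171 0 1103)
(mv 1042 (cons (fin 1043 2 1039)
(mv 847 (cons (fin 911 7 847)
(mv 978 (cons (fin 977 7 913)
(mv 915 (cons (fin 979 6 914)
(mv 914 (cons (fin 975 1 911)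
(fin 851 6 850))))))))))))))))))))))))))
(cons (mv 1104 (cons (cons (cons (mv 847 (cons (fin 911 7 847)
(mv 783 (cons (fin 848 7 783)
(mv 1105 (cons (fin 1169 4 912)
(mv 1106 (cons (fin 1107 3 1039)
(mv 913 (cons (fin 849 6 848)
(mv 977 (cons (fin 1168 6 912)
(mv 978 (cons (fin 979 1 975)
(mv 1042 (cons (fin 1170 7 913)
(mv 975 (cons (fin 1043 0 975)
(mv 914 (cons (fin 915 1 911)
(fin 974 2 910)))))))))))))))))))))
(mv 849 (cons (fin 913 6 848)
(mv 785 (cons (fin 848 6 784)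
(mv 1169 (cons (fin 1105 4 912)
(mv 1168 (cons (fin 1233 4 976)
(mv 1231 (cons (fin 1167 5 975)
(mv 1232 (cons (fin 975 7 975)
(fin 1295 5 1039))))))))))))))
(cons (mv 1105 (cons (fin 1169 4 912)
(mv 1106 (cons (fin 1107 3 1039)
(mv 847 (cons (fin 911 7 847)
(mv 848 (cons (fin 783 7 783)
(mv 784 (cons (fin 975 5 783)
(mv 785 (cons (fin 721 6 720)
(fin 849 6 784)))))))))))))
(mv 847 (cons (fin 911 7 847)
(mv 783 (cons (fin 848 7 783)
(mv 1169 (cons (fin 1105 4 912)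
(mv 1168 (cons (fin 1233 4 976)
(mv 913 (cons (fin 977 6 912)
(mv 1231 (cons (fin 1167 5 975)
(mv 1232 (cons (fin 975 7 975)
(fin 1295 5 1039)))))))))))))))))
(cons (cons (mv 849 (cons (fin 913 6 848)
(mv 785 (cons (fin 848 6 784)
(mv 911 (cons (fin 847 7 847)
(mv 1168 (cons (fin 975 7 911)
(mv 1233 (cons (fin 1169 4 976)
(mv 1231 (cons (fin 1167 5 975)
(mv 1232 (cons (fin 1295 5 1039)
(fin 1297 4 1040)))))))))))))))
(mv 847 (cons (fin 911 7 847)
(mv 783 (cons (fin 848 7 783)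
(mv 913 (cons (fin 849 6 848)
(mv 1168 (cons (fin 977 6 912)
(mv 1231 (cons (fin 1167 5 975)
(mv 1232 (cons (fin 975 7 975)
(fin 1295 5 1039))))))))))))))
(cons (mv 849 (cons (fin 913 6 848)
(mv 848 (cons (fin 785 6 784)
(mv 847 (cons (fin 783 7 783)
(fin 911 7 847)))))))
(mv 849 (cons (fin 913 6 848)
(mv 1169 (cons (fin 1105 4 912)
(mv 847 (cons (fin 911 7 847)
(mv 1168 (cons (fin 1233 4 976)
(mv 1231 (cons (fin 1167 5 975)
(mv 1232 (cons (fin 975 7 975)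
(fin 1295 5 1039)))))))))))))))))
(cons (mv 848 (cons (fin 1103 5 847)
(mv 783 (cons (fin 847 7 783)
(mv 784 (cons (fin 719 7 719)
(mv 785 (cons (fin 721 6 720)
(fin 849 6 784)))))))))
(mv 848 (cons (fin 1103 5 847)
(mv 784 (cons (fin 975 5 783)
(mv 785 (cons (fin 721 6 720)
(fin 849 6 784))))))))))))
(cons (mv 1103 (cons (cons (mv 912 (cons (fin 848 5 847)
(mv 1167 (cons (fin 1104 5 911)
(fin 975 6 911)))))
(mv 912 (cons (fin 848 5 847)
(mv 1104 (cons (mv 1105 (cons (fin 1038 0 1037)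
(fin 1169 4 912)))
(cons (mv 849 (cons (fin 913 6 848)
(mv 911 (cons (fin 847 7 847)
(mv 975 (cons (fin 1168 7 911)
(mv 910 (cons (fin 846 7 846)
(mv 1102 (cons (fin 1166 5 910)
(mv 909 (cons (fin 908 0 908)
(mv 973 (cons (fin 972 1 908)
(mv 845 (cons (fin 844 3 844)
(fin 1038 4 845)))))))))))))))))
(mv 847 (cons (fin 911 7 847)
(mv 1169 (cons (fin 1105 4 912)
(mv 849 (cons (fin 913 6 848)
(mv 1168 (cons (fin 1233 4 976)
(mv 1232 (cons (fin 975 7 975)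
(fin 1296 7 1039)))))))))))))))))
(cons (mv 1167 (cons (fin 1231 6 975)
(mv 975 (cons (cons (mv 910 (cons (fin 974 7 910)
(mv 911 (cons (fin 846 7 846)
(mv 1168 (cons (fin 1104 7 911)
(fin 1232 4 975)))))))
(mv 910 (cons (fin 974 7 910)
(mv 911 (cons (fin 846 7 846)
(mv 1166 (cons (fin 1102 5 910)
(fin 1230 5 974))))))))
(cons (mv 1166 (cons (fin 1230 5 974)
(mv 911 (cons (fin 1102 5 910)
(mv 1168 (cons (fin 1104 7 911)
(fin 1232 4 975)))))))
(mv 1168 (cons (fin 1232 4 975)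
(mv 974 (cons (fin 910 7 910)
(mv 1166 (cons (fin 1230 5 974)
(mv 973 (cons (fin 972 0 972)
(mv 909 (cons (fin 908 3 908)
(mv 1102 (cons (fin 1038 7 909)
(mv 1169 (cons (fin 1170 3 1102)
(mv 1233 (cons (fin 1234 0 1166)
(fin 1104 4 976))))))))))))))))))))))
(cons (mv 1167 (cons (fin 1231 6 975)
(mv 912 (cons (fin 848 5 847)
(fin 975 6 911)))))
(mv 912 (cons (fin 848 5 847)
(mv 1167 (cons (fin 1104 5 911)
(fin 1231 6 975)))))))))
(cons (mv 977 (cons (fin 1038 2 973)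
(mv 978 (cons (fin 979 1 975)
(mv 975 (cons (mv 910 (cons (fin 911 3 910)
(mv 974 (cons (fin 909 3 909)
(mv 914 (cons (fin 913 2 910)
(fin 915 2 911)))))))
(cons (mv 1042 (cons (fin 1043 0 975)
(mv 914 (cons (fin 915 2 911)
(mv 913 (cons (fin 974 2 910)
(mv 1106 (cons (fin 849 7 849)
(fin 1170 7 913)))))))))
(mv 911 (cons (fin 910 3 910)
(mv 847 (cons (fin 783 4 783)
(fin 1104 4 847))))))))))))
(mv 977 (cons (fin 1038 2 973)
(mv 978 (cons (fin 979 1 975)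
(mv 975 (cons (cons (mv 910 (cons (fin 911 3 910)
(mv 974 (cons (fin 909 3 909)
(mv 914 (cons (fin 913 2 910)
(fin 915 2 911)))))))
(mv 1042 (cons (fin 1043 0 975)
(mv 914 (cons (fin 915 2 911)
(mv 913 (cons (fin 974 2 910)
(mv 1106 (cons (fin 849 7 849)
(fin 1170 7 913))))))))))
(cons (mv 910 (cons (fin 911 3 910)
(mv 974 (cons (fin 909 3 909)
(mv 1042 (cons (fin 1043 0 975)
(mv 782 (cons (fin 846 4 782)
(mv 1103 (cons (fin 1167 7 910)
(mv 973 (cons (fin 972 0 972)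
(mv 912 (cons (fin 913 2 909)
(fin 848 5 847)))))))))))))))
(cons (mv 1042 (cons (fin 1043 0 975)
(mv 914 (cons (fin 915 2 911)
(mv 911 (cons (fin 910 3 910)
(mv 847 (cons (fin 783 4 783)
(mv 784 (cons (fin 848 6 783)
(mv 846 (cons (fin 782 7 782)
(mv 913 (cons (fin 912 3 846)
(mv 1106 (cons (fin 849 7 849)
(fin 1170 7 913)))))))))))))))))
(mv 911 (cons (fin 910 3 910)
(mv 1042 (cons (fin 1043 0 975)
(mv 847 (cons (fin 783 4 783)
(mv 914 (cons (fin 915 2 911)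
(mv 782 (cons (fin 846 7 782)
(mv 848 (cons (fin 784 6 783)
(mv 1103 (cons (fin 912 5 847)
(mv 1166 (cons (fin 1102 5 910)
(mv 1167 (cons (fin 1230 5 974)
(fin 1231 6 975))))))))))))))))))))))))))))))
(cons (cons (mv 977 (cons (fin 1038 2 973)
(mv 978 (cons (fin 979 1 975)
(mv 912 (cons (cons (mv 848 (cons (fin 1103 5 847)
(mv 783 (cons (fin 847 7 783)
(mv 784 (cons (fin 719 7 719)
(mv 785 (cons (fin 721 6 720)
(fin 849 6 784)))))))))
(mv 1104 (cons (mv 913 (cons (fin 849 6 848)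
(fin 1168 6 912)))
(cons (mv 847 (cons (fin 911 7 847)
(mv 1169 (cons (fin 1105 4 912)
(mv 1167 (cons (fin 1103 5 911)
(mv 1168 (cons (fin 1231 5 975)
(fin 1233 4 976)))))))))
(mv 1105 (cons (fin 1169 4 912)
(mv 1106 (cons (fin 1107 3 1039)
(mv 913 (cons (fin 849 6 848)
(mv 911 (cons (fin 910 0 910)
(fin 847 7 847)))))))))))))
(cons (mv 911 (cons (mv 910 (cons (fin 909 0 909)
(fin 913 0 910)))
(mv 847 (cons (fin 1104 7 847)
(mv 783 (cons (fin 848 7 783)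
(fin 719 4 719)))))))
(mv 848 (cons (fin 1103 5 847)
(mv 785 (cons (fin 849 6 784)
(mv 784 (cons (fin 721 6 720)
(mv 719 (cons (fin 783 7 719)
(mv 720 (cons (fin 655 7 655)
(fin 913 4 720))))))))))))))))))
(mv 977 (cons (fin 1038 2 973)
(mv 978 (cons (fin 979 1 975)
(mv 1103 (cons (cons (mv 912 (cons (fin 848 5 847)
(mv 1167 (cons (fin 1104 5 911)
(fin 975 6 911)))))
(mv 912 (cons (fin 848 5 847)
(mv 1104 (cons (mv 913 (cons (fin 849 6 848)
(fin 1168 6 912)))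
(cons (mv 1169 (cons (fin 1105 4 912)
(mv 1168 (cons (fin 1233 4 976)
(mv 1232 (cons (fin 975 7 975)
(fin 1296 7 1039)))))))
(mv 1105 (cons (fin 1169 4 912)
(mv 1106 (cons (fin 1107 3 1039)
(mv 913 (cons (fin 849 6 848)
(mv 1042 (cons (fin 1043 2 1039)
(fin 1170 7 913)))))))))))))))
(cons (mv 1167 (cons (fin 1231 6 975)
(mv 1168 (cons (cons (mv 913 (cons (fin 1104 6 912)
(mv 785 (cons (fin 849 5 784)
(mv 975 (cons (fin 1232 4 975)
(mv 914 (cons (fin 974 2 910)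
(fin 915 2 911)))))))))
(mv 1104 (cons (fin 913 6 912)
(mv 1232 (cons (fin 1296 7 1039)
(mv 1233 (cons (fin 1169 4 976)
(fin 1297 4 1040))))))))
(cons (mv 975 (cons (fin 1232 4 975)
(mv 1166 (cons (fin 1230 5 974)
(mv 974 (cons (fin 910 7 910)
(mv 914 (cons (fin 913 2 910)
(fin 915 2 911)))))))))
(cons (mv 1104 (cons (fin 913 6 912)
(mv 1169 (cons (fin 1233 4 976)
(mv 1170 (cons (fin 1102 3 1102)
(fin 1171 3 1103)))))))
(mv 1232 (cons (fin 975 4 975)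
(mv 1296 (cons (fin 1104 7 1039)
(fin 1360 7 1103)))))))))))
(cons (mv 1167 (cons (fin 1231 6 975)
(mv 912 (cons (fin 848 5 847)
(fin 1104 5 911)))))
(mv 912 (cons (fin 848 5 847)
(mv 1167 (cons (fin 975 6 911)
(fin 1231 6 975))))))))))))))
(cons (mv 977 (cons (fin 1038 2 973)
(mv 978 (cons (fin 979 1 975)
(mv 912 (cons (cons (mv 848 (cons (fin 1103 5 847)
(mv 784 (cons (fin 975 5 783)
(mv 783 (cons (fin 719 7 719)
(fin 847 7 783)))))))
(mv 1104 (cons (cons (mv 847 (cons (fin 911 7 847)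
(mv 1169 (cons (fin 1105 4 912)
(mv 1103 (cons (fin 1167 5 911)
(mv 1168 (cons (fin 1233 4 976)
(mv 1232 (cons (fin 975 7 975)
(fin 1296 7 1039)))))))))))
(cons (mv 1169 (cons (fin 1105 4 912)
(mv 1103 (cons (fin 1167 5 911)
(mv 1168 (cons (fin 1233 4 976)
(mv 1232 (cons (fin 975 7 975)
(fin 1296 7 1039)))))))))
(mv 1105 (cons (fin 1169 4 912)
(mv 1106 (cons (fin 1107 3 1039)
(mv 911 (cons (fin 847 7 847)
(mv 910 (cons (fin 975 3 910)
(fin 909 0 909)))))))))))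
(cons (mv 847 (cons (fin 911 7 847)
(mv 1167 (cons (fin 1103 5 911)
(mv 1168 (cons (fin 1231 5 975)
(mv 1232 (cons (fin 975 7 975)
(mv 1233 (cons (fin 1169 4 976)
(fin 1297 4 1040)))))))))))
(cons (mv 1103 (cons (fin 1167 5 911)
(mv 911 (cons (fin 847 7 847)
(mv 910 (cons (fin 975 3 910)
(fin 909 0 909)))))))
(mv 847 (cons (fin 911 7 847)
(mv 1169 (cons (fin 1105 4 912)
(mv 1167 (cons (fin 1103 5 911)
(mv 1168 (cons (fin 1231 5 975)
(fin 1233 4 976))))))))))))))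
(cons (mv 911 (cons (mv 910 (cons (fin 975 3 910)
(fin 909 0 909)))
(mv 847 (cons (fin 1104 7 847)
(mv 783 (cons (fin 848 7 783)
(fin 719 4 719)))))))
(cons (mv 848 (cons (fin 1103 5 847)
(mv 783 (cons (fin 847 7 783)
(mv 784 (cons (fin 719 7 719)
(mv 785 (cons (fin 721 6 720)
(fin 849 6 784)))))))))
(mv 848 (cons (fin 1103 5 847)
(mv 784 (cons (fin 975 5 783)
(mv 785 (cons (fin 721 6 720)
(fin 849 6 784)))))))))))))))
(cons (mv 977 (cons (fin 1038 2 973)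
(mv 978 (cons (fin 979 1 975)
(mv 975 (cons (cons (mv 910 (cons (fin 911 3 910)
(mv 974 (cons (fin 909 3 909)
(mv 914 (cons (fin 913 2 910)
(fin 915 2 911)))))))
(mv 1042 (cons (fin 1043 0 975)
(mv 914 (cons (fin 915 2 911)
(mv 913 (cons (fin 974 2 910)
(mv 1106 (cons (fin 1170 7 913)
(mv 1104 (cons (fin 1168 6 912)
(mv 1105 (cons (fin 1107 3 1039)
(fin 1169 5 913))))))))))))))
(cons (mv 910 (cons (fin 911 3 910)
(mv 974 (cons (fin 909 3 909)
(mv 1042 (cons (fin 1043 0 975)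
(mv 782 (cons (fin 846 4 782)
(mv 1103 (cons (fin 1167 7 910)
(mv 973 (cons (fin 972 0 972)
(mv 912 (cons (fin 913 2 909)
(fin 848 5 847)))))))))))))))
(mv 1042 (cons (fin 1043 0 975)
(mv 914 (cons (fin 915 2 911)
(mv 911 (cons (fin 910 3 910)
(mv 847 (cons (fin 783 4 783)
(fin 1104 4 847))))))))))))))))
(mv 977 (cons (fin 1038 2 973)
(mv 978 (cons (fin 979 1 975)
(mv 1103 (cons (cons (mv 912 (cons (fin 848 5 847)
(mv 1167 (cons (fin 1104 5 911)
(fin 975 6 911)))))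
(mv 1167 (cons (fin 1231 6 975)
(mv 975 (cons (cons (mv 914 (cons (fin 915 2 911)
(mv 913 (cons (fin 974 2 910)
(mv 1168 (cons (fin 1104 6 912)
(fin 1232 4 975)))))))
(mv 914 (cons (fin 915 2 911)
(mv 913 (cons (fin 974 2 910)
(mv 1166 (cons (fin 1230 5 974)
(mv 911 (cons (fin 1102 5 910)
(mv 847 (cons (fin 783 4 783)
(fin 1104 4 847))))))))))))
(cons (mv 1166 (cons (fin 1230 5 974)
(mv 911 (cons (fin 1102 5 910)
(mv 1168 (cons (fin 1104 7 911)
(fin 1232 4 975)))))))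
(mv 1168 (cons (fin 1232 4 975)
(mv 914 (cons (fin 915 2 911)
(mv 913 (cons (fin 974 2 910)
(mv 1166 (cons (fin 1230 5 974)
(mv 911 (cons (fin 1102 5 910)
(mv 849 (cons (fin 785 5 784)
(mv 1042 (cons (fin 1043 0 975)
(fin 1106 7 849)))))))))))))))))))))
(cons (mv 912 (cons (fin 848 5 847)
(mv 1104 (cons (mv 913 (cons (fin 849 6 848)
(fin 1168 6 912)))
(cons (mv 847 (cons (fin 911 7 847)
(mv 1169 (cons (fin 1105 4 912)
(mv 1168 (cons (fin 1233 4 976)
(mv 1232 (cons (fin 975 7 975)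
(fin 1296 7 1039)))))))))
(mv 1105 (cons (fin 1169 4 912)
(mv 1106 (cons (fin 1107 3 1039)
(mv 913 (cons (fin 849 6 848)
(mv 1170 (cons (fin 1171 0 1103)
(fin 1042 7 913))))))))))))))
(cons (mv 912 (cons (fin 848 5 847)
(mv 1167 (cons (fin 1104 5 911)
(fin 1231 6 975)))))
(mv 1167 (cons (fin 1231 6 975)
(mv 912 (cons (fin 848 5 847)
(fin 975 6 911)))))))))))))))))))))
(cons (cons (mv 1038 (cons (cons (cons (mv 972 (cons (fin 973 3 972)
(mv 1104 (cons (fin 1105 0 1037)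
(mv 976 (cons (fin 977 2 973)
(mv 1100 (cons (fin 1101 1 1036)
(mv 912 (cons (mv 1103 (cons (fin 848 5 847)
(fin 1167 5 911)))
(cons (mv 847 (cons (fin 911 7 847)
(mv 848 (cons (fin 783 7 783)
(mv 849 (cons (fin 785 6 784)
(fin 913 6 848)))))))
(mv 849 (cons (fin 913 6 848)
(mv 1103 (cons (fin 1167 5 911)
(mv 911 (cons (fin 847 7 847)
(mv 1168 (cons (fin 975 7 911)
(mv 1232 (cons (fin 1296 7 1039)
(mv 1233 (cons (fin 1169 4 976)
(fin 1297 4 1040))))))))))))))))))))))))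
(mv 1101 (cons (fin 1100 1 1036)
(mv 973 (cons (fin 972 3 972)
(mv 1104 (cons (fin 1105 0 1037)
(mv 1165 (cons (mv 974 (cons (fin 910 6 909)
(fin 1229 6 973)))
(mv 1164 (cons (fin 1228 5 972)
(mv 1166 (cons (fin 1230 4 973)
(mv 1167 (cons (fin 1103 2 1100)
(mv 1232 (cons (fin 1231 0 1164)
(mv 1168 (cons (fin 1233 0 1165)
(fin 975 7 975))))))))))))))))))))
(cons (mv 973 (cons (fin 972 3 972)
(mv 1101 (cons (fin 1100 1 1036)
(mv 976 (cons (fin 977 2 973)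
(mv 1165 (cons (mv 974 (cons (fin 910 6 909)
(fin 1229 6 973)))
(cons (mv 1228 (cons (fin 1164 5 972)
(mv 1166 (cons (fin 1230 4 973)
(mv 1229 (cons (fin 1292 5 1036)
(mv 1226 (cons (fin 1227 2 1162)
(mv 1167 (cons (fin 1168 1 1164)
(mv 1103 (cons (fin 1231 6 975)
(mv 912 (cons (fin 848 5 847)
(fin 975 6 911)))))))))))))))
(mv 1164 (cons (fin 1228 5 972)
(mv 910 (cons (fin 974 6 909)
(mv 909 (cons (fin 846 6 845)
(mv 1166 (cons (fin 1230 4 973)
(mv 844 (cons (fin 908 7 844)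
(mv 845 (cons (fin 780 7 780)
(mv 842 (cons (fin 843 0 842)
(mv 912 (cons (fin 911 3 844)
(mv 848 (cons (fin 1103 5 847)
(mv 784 (cons (fin 975 5 783)
(mv 783 (cons (fin 719 7 719)
(fin 847 7 783))))))))))))))))))))))))))))))))
(mv 1100 (cons (fin 1101 1 1036)
(mv 1104 (cons (fin 1105 0 1037)
(mv 976 (cons (fin 977 2 973)
(mv 912 (cons (mv 1103 (cons (fin 848 5 847)
(fin 1167 5 911)))
(cons (mv 847 (cons (fin 911 7 847)
(mv 848 (cons (fin 783 7 783)
(mv 849 (cons (fin 785 6 784)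
(fin 913 6 848)))))))
(mv 849 (cons (fin 913 6 848)
(mv 1103 (cons (fin 1167 5 911)
(mv 911 (cons (fin 847 7 847)
(mv 1168 (cons (fin 975 7 911)
(mv 1232 (cons (fin 1296 7 1039)
(mv 1233 (cons (fin 1169 4 976)
(fin 1297 4 1040))))))))))))))))))))))))
(cons (cons (mv 1104 (cons (fin 1105 0 1037)
(mv 972 (cons (fin 973 3 972)
(mv 976 (cons (fin 977 2 973)
(mv 912 (cons (mv 1103 (cons (fin 848 5 847)
(fin 1167 5 911)))
(cons (mv 847 (cons (fin 911 7 847)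
(mv 848 (cons (fin 783 7 783)
(mv 849 (cons (fin 785 6 784)
(fin 913 6 848)))))))
(mv 849 (cons (fin 913 6 848)
(mv 1103 (cons (fin 1167 5 911)
(mv 911 (cons (fin 847 7 847)
(mv 1168 (cons (fin 975 7 911)
(mv 1232 (cons (fin 1296 7 1039)
(mv 1233 (cons (fin 1169 4 976)
(fin 1297 4 1040))))))))))))))))))))))
(mv 1104 (cons (fin 1105 0 1037)
(mv 1100 (cons (fin 1101 1 1036)
(mv 972 (cons (fin 973 3 972)
(mv 976 (cons (fin 977 2 973)
(mv 1168 (cons (cons (mv 1167 (cons (fin 1231 5 975)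
(mv 912 (cons (fin 1103 5 911)
(mv 849 (cons (fin 913 6 848)
(mv 848 (cons (fin 785 6 784)
(mv 847 (cons (fin 783 7 783)
(fin 911 7 847)))))))))))
(mv 1233 (cons (fin 1169 4 976)
(mv 1232 (cons (fin 1297 4 1040)
(mv 1295 (cons (fin 1231 5 1039)
(mv 1296 (cons (fin 1103 7 1039)
(fin 1359 5 1103))))))))))
(cons (mv 1233 (cons (fin 1169 4 976)
(mv 1232 (cons (fin 1297 4 1040)
(mv 1103 (cons (fin 1296 7 1039)
(mv 912 (cons (fin 848 5 847)
(fin 1167 5 911)))))))))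
(mv 1233 (cons (fin 1169 4 976)
(mv 1231 (cons (fin 1167 5 975)
(mv 1232 (cons (fin 1295 5 1039)
(fin 1297 4 1040)))))))))))))))))))
(cons (mv 1100 (cons (fin 1101 1 1036)
(mv 1104 (cons (fin 1105 0 1037)
(mv 972 (cons (fin 973 3 972)
(mv 976 (cons (fin 977 2 973)
(mv 912 (cons (cons (mv 847 (cons (fin 911 7 847)
(mv 848 (cons (fin 783 7 783)
(mv 849 (cons (fin 785 6 784)
(fin 913 6 848)))))))
(mv 849 (cons (fin 913 6 848)
(mv 848 (cons (fin 785 6 784)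
(mv 784 (cons (fin 975 5 783)
(mv 783 (cons (fin 719 7 719)
(fin 847 7 783))))))))))
(cons (mv 849 (cons (fin 913 6 848)
(mv 848 (cons (fin 785 6 784)
(mv 975 (cons (fin 784 5 783)
(mv 1168 (cons (fin 911 7 911)
(fin 1232 7 975)))))))))
(mv 911 (cons (fin 847 7 847)
(mv 1168 (cons (fin 975 7 911)
(mv 1233 (cons (fin 1169 4 976)
(mv 1231 (cons (fin 1167 5 975)
(mv 1232 (cons (fin 1295 5 1039)
(fin 1297 4 1040))))))))))))))))))))))
(cons (mv 1104 (cons (fin 1105 0 1037)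
(mv 1100 (cons (fin 1101 1 1036)
(mv 972 (cons (fin 973 3 972)
(mv 976 (cons (fin 977 2 973)
(mv 1168 (cons (mv 975 (cons (fin 911 7 911)
(fin 1232 7 975)))
(cons (mv 1233 (cons (fin 1169 4 976)
(mv 1232 (cons (fin 1297 4 1040)
(mv 1295 (cons (fin 1231 5 1039)
(mv 1296 (cons (fin 1103 7 1039)
(fin 1359 5 1103)))))))))
(mv 1169 (cons (fin 1233 4 976)
(mv 911 (cons (fin 975 7 911)
(mv 912 (cons (fin 847 7 847)
(mv 848 (cons (fin 1103 5 847)
(mv 849 (cons (fin 785 6 784)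
(fin 913 6 848))))))))))))))))))))))
(mv 1100 (cons (fin 1101 1 1036)
(mv 1104 (cons (fin 1105 0 1037)
(mv 973 (cons (fin 972 3 972)
(mv 976 (cons (fin 977 2 973)
(mv 912 (cons (mv 1103 (cons (fin 848 5 847)
(fin 1167 5 911)))
(cons (mv 847 (cons (fin 911 7 847)
(mv 848 (cons (fin 783 7 783)
(mv 849 (cons (fin 785 6 784)
(fin 913 6 848)))))))
(mv 913 (cons (fin 849 6 848)
(mv 1103 (cons (fin 1167 5 911)
(mv 974 (cons (fin 975 2 909)
(mv 911 (cons (fin 910 1 909)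
(fin 847 7 847)))))))))))))))))))))))))
(mv 1038 (cons (cons (mv 1104 (cons (fin 1105 0 1037)
(mv 1100 (cons (fin 1101 1 1036)
(mv 972 (cons (fin 973 3 972)
(mv 976 (cons (fin 977 2 973)
(mv 912 (cons (cons (mv 847 (cons (fin 911 7 847)
(mv 848 (cons (fin 783 7 783)
(mv 849 (cons (fin 785 6 784)
(fin 913 6 848)))))))
(mv 849 (cons (fin 913 6 848)
(mv 848 (cons (fin 785 6 784)
(mv 784 (cons (fin 975 5 783)
(mv 783 (cons (fin 719 7 719)
(fin 847 7 783))))))))))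
(cons (mv 849 (cons (fin 913 6 848)
(mv 848 (cons (fin 785 6 784)
(mv 975 (cons (fin 784 5 783)
(mv 1168 (cons (fin 911 7 911)
(fin 1232 7 975)))))))))
(mv 911 (cons (fin 847 7 847)
(mv 1168 (cons (fin 975 7 911)
(mv 1233 (cons (fin 1169 4 976)
(mv 1231 (cons (fin 1167 5 975)
(mv 1232 (cons (fin 1295 5 1039)
(fin 1297 4 1040))))))))))))))))))))))
(mv 1104 (cons (fin 1105 0 1037)
(mv 976 (cons (fin 977 2 973)
(mv 1100 (cons (fin 1101 1 1036)
(mv 1168 (cons (mv 975 (cons (fin 911 7 911)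
(fin 1232 7 975)))
(cons (mv 1233 (cons (fin 1169 4 976)
(mv 1231 (cons (fin 1167 5 975)
(mv 1232 (cons (fin 1295 5 1039)
(fin 1297 4 1040)))))))
(mv 1167 (cons (fin 1231 5 975)
(mv 1169 (cons (fin 1233 4 976)
(mv 912 (cons (cons (mv 911 (cons (fin 847 7 847)
(fin 975 7 911)))
(mv 849 (cons (fin 913 6 848)
(mv 848 (cons (fin 785 6 784)
(mv 784 (cons (fin 975 5 783)
(mv 783 (cons (fin 719 7 719)
(fin 847 7 783))))))))))
(cons (mv 849 (cons (fin 913 6 848)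
(mv 848 (cons (fin 785 6 784)
(mv 847 (cons (fin 783 7 783)
(fin 911 7 847)))))))
(mv 975 (cons (fin 911 7 911)
(mv 849 (cons (fin 913 6 848)
(mv 848 (cons (fin 784 5 783)
(fin 785 6 784))))))))))))))))))))))))
(cons (mv 1104 (cons (fin 1105 0 1037)
(mv 976 (cons (fin 977 2 973)
(mv 972 (cons (fin 973 3 972)
(mv 912 (cons (cons (mv 847 (cons (fin 911 7 847)
(mv 848 (cons (fin 783 7 783)
(mv 849 (cons (fin 785 6 784)
(fin 913 6 848)))))))
(mv 849 (cons (fin 913 6 848)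
(mv 848 (cons (fin 785 6 784)
(mv 784 (cons (fin 975 5 783)
(mv 783 (cons (fin 719 7 719)
(fin 847 7 783))))))))))
(cons (mv 849 (cons (fin 913 6 848)
(mv 848 (cons (fin 785 6 784)
(mv 975 (cons (fin 784 5 783)
(mv 1168 (cons (fin 911 7 911)
(fin 1232 7 975)))))))))
(mv 911 (cons (fin 847 7 847)
(mv 1168 (cons (fin 975 7 911)
(mv 1233 (cons (fin 1169 4 976)
(mv 1231 (cons (fin 1167 5 975)
(mv 1232 (cons (fin 1295 5 1039)
(fin 1297 4 1040))))))))))))))))))))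
(cons (mv 973 (cons (fin 972 3 972)
(mv 1101 (cons (fin 1100 1 1036)
(mv 1104 (cons (fin 1105 0 1037)
(mv 909 (cons (cons (mv 1102 (cons (fin 845 4 845)
(fin 1166 4 909)))
(mv 844 (cons (fin 908 7 844)
(mv 780 (cons (fin 845 7 780)
(mv 910 (cons (fin 846 6 845)
(mv 1165 (cons (fin 974 6 909)
(mv 1228 (cons (fin 1164 5 972)
(mv 1166 (cons (fin 1230 4 973)
(mv 1229 (cons (fin 1292 5 1036)
(mv 1168 (cons (fin 1167 1 1164)
(mv 1232 (cons (fin 975 7 975)
(mv 1295 (cons (fin 1231 5 1039)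
(mv 1297 (cons (fin 1233 4 1040)
(mv 1296 (cons (fin 1359 5 1103)
(fin 1361 4 1104))))))))))))))))))))))))))
(cons (mv 846 (cons (fin 910 6 845)
(mv 1166 (cons (fin 1102 4 909)
(mv 844 (cons (fin 908 7 844)
(mv 1165 (cons (fin 1230 4 973)
(mv 1229 (cons (fin 974 6 973)
(mv 1228 (cons (fin 1164 5 972)
(fin 1292 5 1036)))))))))))))
(mv 845 (cons (fin 1102 4 845)
(mv 844 (cons (fin 780 7 780)
(fin 908 7 844))))))))))))))
(mv 1101 (cons (fin 1100 1 1036)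
(mv 973 (cons (fin 972 3 972)
(mv 976 (cons (fin 977 2 973)
(mv 909 (cons (cons (mv 1102 (cons (fin 845 4 845)
(fin 1166 4 909)))
(mv 844 (cons (fin 908 7 844)
(mv 780 (cons (fin 845 7 780)
(mv 910 (cons (fin 846 6 845)
(mv 1165 (cons (fin 974 6 909)
(mv 1228 (cons (fin 1164 5 972)
(mv 1230 (cons (fin 1166 4 973)
(mv 1229 (cons (fin 1292 5 1036)
(fin 1294 4 1037))))))))))))))))
(cons (mv 846 (cons (fin 910 6 845)
(mv 1166 (cons (fin 1102 4 909)
(mv 844 (cons (fin 908 7 844)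
(mv 1165 (cons (fin 1230 4 973)
(mv 1229 (cons (fin 974 6 973)
(mv 1228 (cons (fin 1164 5 972)
(fin 1292 5 1036)))))))))))))
(mv 845 (cons (fin 1102 4 845)
(mv 844 (cons (fin 780 7 780)
(fin 908 7 844)))))))))))))))))))
(cons (mv 1038 (cons (cons (mv 972 (cons (fin 973 3 972)
(mv 1104 (cons (fin 1105 0 1037)
(mv 976 (cons (fin 977 2 973)
(mv 1100 (cons (fin 1101 1 1036)
(mv 912 (cons (mv 1103 (cons (fin 848 5 847)
(fin 1167 5 911)))
(cons (mv 847 (cons (fin 911 7 847)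
(mv 848 (cons (fin 783 7 783)
(mv 849 (cons (fin 785 6 784)
(fin 913 6 848)))))))
(mv 849 (cons (fin 913 6 848)
(mv 1103 (cons (fin 1167 5 911)
(mv 911 (cons (fin 847 7 847)
(mv 1168 (cons (fin 975 7 911)
(mv 1232 (cons (fin 1296 7 1039)
(mv 1233 (cons (fin 1169 4 976)
(fin 1297 4 1040))))))))))))))))))))))))
(mv 1101 (cons (fin 1100 1 1036)
(mv 973 (cons (fin 972 3 972)
(mv 1104 (cons (fin 1105 0 1037)
(mv 1165 (cons (mv 974 (cons (fin 910 6 909)
(fin 1229 6 973)))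
(cons (mv 1228 (cons (fin 1164 5 972)
(mv 1229 (cons (fin 1292 5 1036)
(mv 1293 (cons (fin 1102 6 1037)
(mv 1294 (cons (fin 1230 4 1037)
(fin 1358 4 1101)))))))))
(mv 1164 (cons (fin 1228 5 972)
(mv 1102 (cons (fin 1103 1 1100)
(mv 910 (cons (fin 974 5 909)
(mv 909 (cons (fin 846 6 845)
(fin 845 4 845)))))))))))))))))))
(cons (mv 973 (cons (fin 972 3 972)
(mv 1101 (cons (fin 1100 1 1036)
(mv 976 (cons (fin 977 2 973)
(mv 909 (cons (cons (mv 845 (cons (fin 1102 4 845)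
(mv 844 (cons (fin 780 7 780)
(fin 908 7 844)))))
(mv 844 (cons (fin 908 7 844)
(mv 910 (cons (fin 846 6 845)
(mv 1165 (cons (fin 974 6 909)
(mv 1228 (cons (fin 1164 5 972)
(mv 1229 (cons (fin 1292 5 1036)
(mv 1293 (cons (fin 1102 6 1037)
(mv 1294 (cons (fin 1230 4 1037)
(fin 1358 4 1101))))))))))))))))
(cons (mv 846 (cons (fin 910 6 845)
(mv 845 (cons (fin 782 6 781)
(fin 1102 4 845)))))
(mv 844 (cons (fin 908 7 844)
(mv 845 (cons (fin 780 7 780)
(mv 846 (cons (fin 782 6 781)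
(fin 910 6 845))))))))))))))))
(cons (mv 1104 (cons (fin 1105 0 1037)
(mv 972 (cons (fin 973 3 972)
(mv 976 (cons (fin 977 2 973)
(mv 912 (cons (mv 1103 (cons (fin 848 5 847)
(fin 1167 5 911)))
(cons (mv 847 (cons (fin 911 7 847)
(mv 848 (cons (fin 783 7 783)
(mv 849 (cons (fin 785 6 784)
(fin 913 6 848)))))))
(mv 849 (cons (fin 913 6 848)
(mv 1103 (cons (fin 1167 5 911)
(mv 911 (cons (fin 847 7 847)
(mv 1168 (cons (fin 975 7 911)
(mv 1232 (cons (fin 1296 7 1039)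
(mv 1233 (cons (fin 1169 4 976)
(fin 1297 4 1040))))))))))))))))))))))
(mv 1100 (cons (fin 1101 1 1036)
(mv 1104 (cons (fin 1105 0 1037)
(mv 976 (cons (fin 977 2 973)
(mv 912 (cons (mv 1103 (cons (fin 848 5 847)
(fin 1167 5 911)))
(cons (mv 847 (cons (fin 911 7 847)
(mv 848 (cons (fin 783 7 783)
(mv 849 (cons (fin 785 6 784)
(fin 913 6 848)))))))
(mv 849 (cons (fin 913 6 848)
(mv 1103 (cons (fin 1167 5 911)
(mv 911 (cons (fin 847 7 847)
(mv 1168 (cons (fin 975 7 911)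
(mv 1232 (cons (fin 1296 7 1039)
(mv 1233 (cons (fin 1169 4 976)
(fin 1297 4 1040))))))))))))))))))))))))))
(cons (mv 1038 (cons (cons (mv 972 (cons (fin 973 3 972)
(mv 1104 (cons (fin 1105 0 1037)
(mv 976 (cons (fin 977 2 973)
(mv 1100 (cons (fin 1101 1 1036)
(mv 1168 (cons (mv 975 (cons (fin 911 7 911)
(fin 1232 7 975)))
(cons (mv 1233 (cons (fin 1169 4 976)
(mv 1232 (cons (fin 1297 4 1040)
(mv 1295 (cons (fin 1231 5 1039)
(mv 1296 (cons (fin 1103 7 1039)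
(fin 1359 5 1103)))))))))
(mv 1169 (cons (fin 1233 4 976)
(mv 911 (cons (fin 975 7 911)
(mv 912 (cons (fin 847 7 847)
(mv 848 (cons (fin 1103 5 847)
(mv 849 (cons (fin 785 6 784)
(fin 913 6 848))))))))))))))))))))))
(mv 976 (cons (fin 977 2 973)
(mv 1104 (cons (fin 1105 0 1037)
(mv 1100 (cons (fin 1101 1 1036)
(mv 1168 (cons (mv 975 (cons (fin 911 7 911)
(fin 1232 7 975)))
(cons (mv 1233 (cons (fin 1169 4 976)
(mv 1232 (cons (fin 1297 4 1040)
(mv 1295 (cons (fin 1231 5 1039)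
(mv 1296 (cons (fin 1103 7 1039)
(fin 1359 5 1103)))))))))
(mv 1169 (cons (fin 1233 4 976)
(mv 911 (cons (fin 975 7 911)
(mv 912 (cons (fin 847 7 847)
(mv 848 (cons (fin 1103 5 847)
(mv 849 (cons (fin 785 6 784)
(fin 913 6 848)))))))))))))))))))))
(cons (mv 1104 (cons (fin 1105 0 1037)
(mv 976 (cons (fin 977 2 973)
(mv 972 (cons (fin 973 3 972)
(mv 1168 (cons (mv 975 (cons (fin 911 7 911)
(fin 1232 7 975)))
(cons (mv 1233 (cons (fin 1169 4 976)
(mv 1232 (cons (fin 1297 4 1040)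
(mv 1295 (cons (fin 1231 5 1039)
(mv 1296 (cons (fin 1103 7 1039)
(fin 1359 5 1103)))))))))
(mv 1169 (cons (fin 1233 4 976)
(mv 911 (cons (fin 975 7 911)
(mv 912 (cons (fin 847 7 847)
(mv 848 (cons (fin 1103 5 847)
(mv 849 (cons (fin 785 6 784)
(fin 913 6 848))))))))))))))))))))
(cons (mv 976 (cons (fin 977 2 973)
(mv 1101 (cons (fin 1100 1 1036)
(mv 973 (cons (fin 972 3 972)
(mv 909 (cons (cons (mv 1102 (cons (fin 845 4 845)
(fin 1166 4 909)))
(mv 844 (cons (fin 908 7 844)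
(mv 780 (cons (fin 845 7 780)
(mv 910 (cons (fin 846 6 845)
(mv 1165 (cons (fin 974 6 909)
(mv 1228 (cons (fin 1164 5 972)
(mv 1230 (cons (fin 1166 4 973)
(mv 1229 (cons (fin 1292 5 1036)
(fin 1294 4 1037))))))))))))))))
(cons (mv 846 (cons (fin 910 6 845)
(mv 1166 (cons (fin 1102 4 909)
(mv 844 (cons (fin 908 7 844)
(mv 1165 (cons (fin 1230 4 973)
(mv 1229 (cons (fin 974 6 973)
(mv 1228 (cons (fin 1164 5 972)
(fin 1292 5 1036)))))))))))))
(mv 845 (cons (fin 1102 4 845)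
(mv 844 (cons (fin 780 7 780)
(fin 908 7 844))))))))))))))
(mv 1101 (cons (fin 1100 1 1036)
(mv 1104 (cons (fin 1105 0 1037)
(mv 973 (cons (fin 972 3 972)
(mv 1165 (cons (mv 974 (cons (fin 910 6 909)
(fin 1229 6 973)))
(mv 1164 (cons (fin 1228 5 972)
(mv 1102 (cons (fin 1103 1 1100)
(mv 909 (cons (fin 845 4 845)
(fin 1166 4 909)))))))))))))))))))
(mv 1038 (cons (cons (mv 973 (cons (fin 972 3 972)
(mv 1100 (cons (fin 1101 1 1036)
(mv 976 (cons (fin 977 2 973)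
(mv 1104 (cons (fin 1105 0 1037)
(mv 912 (cons (mv 1103 (cons (fin 848 5 847)
(fin 1167 5 911)))
(cons (mv 847 (cons (fin 911 7 847)
(mv 848 (cons (fin 783 7 783)
(mv 849 (cons (fin 785 6 784)
(fin 913 6 848)))))))
(mv 913 (cons (fin 849 6 848)
(mv 1103 (cons (fin 1167 5 911)
(mv 974 (cons (fin 975 2 909)
(mv 911 (cons (fin 910 1 909)
(fin 847 7 847))))))))))))))))))))
(cons (mv 1104 (cons (fin 1105 0 1037)
(mv 976 (cons (fin 977 2 973)
(mv 1101 (cons (fin 1100 1 1036)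
(mv 912 (cons (mv 1103 (cons (fin 848 5 847)
(fin 1167 5 911)))
(cons (mv 847 (cons (fin 911 7 847)
(mv 848 (cons (fin 783 7 783)
(mv 849 (cons (fin 785 6 784)
(fin 913 6 848)))))))
(mv 911 (cons (fin 847 7 847)
(mv 913 (cons (fin 849 6 848)
(mv 1103 (cons (fin 1167 5 911)
(mv 914 (cons (mv 975 (cons (fin 974 1 910)
(fin 915 1 911)))
(cons (mv 979 (cons (fin 978 0 911)
(mv 851 (cons (fin 850 2 847)
(mv 915 (cons (fin 852 2 848)
(fin 980 0 912)))))))
(mv 978 (cons (fin 979 0 911)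
(mv 974 (cons (fin 975 1 910)
(mv 850 (cons (fin 851 2 847)
(mv 910 (cons (fin 846 5 845)
(mv 1165 (cons (fin 1102 5 909)
(fin 1229 6 973)))))))))))))))))))))))))))))
(mv 976 (cons (fin 977 2 973)
(mv 1104 (cons (fin 1105 0 1037)
(mv 973 (cons (fin 972 3 972)
(mv 912 (cons (mv 1103 (cons (fin 848 5 847)
(fin 1167 5 911)))
(cons (mv 847 (cons (fin 911 7 847)
(mv 848 (cons (fin 783 7 783)
(mv 849 (cons (fin 785 6 784)
(fin 913 6 848)))))))
(mv 913 (cons (fin 849 6 848)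
(mv 1103 (cons (fin 1167 5 911)
(mv 974 (cons (fin 975 2 909)
(mv 911 (cons (fin 910 1 909)
(fin 847 7 847))))))))))))))))))))
(cons (cons (mv 1104 (cons (fin 1105 0 1037)
(mv 1101 (cons (fin 1100 1 1036)
(mv 973 (cons (fin 972 3 972)
(mv 1165 (cons (mv 974 (cons (fin 910 6 909)
(fin 1229 6 973)))
(mv 1164 (cons (fin 1228 5 972)
(mv 1102 (cons (fin 1103 1 1100)
(mv 909 (cons (fin 845 4 845)
(fin 1166 4 909)))))))))))))))
(mv 1101 (cons (fin 1100 1 1036)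
(mv 976 (cons (fin 977 2 973)
(mv 973 (cons (fin 972 3 972)
(mv 909 (cons (cons (mv 1102 (cons (fin 845 4 845)
(fin 1166 4 909)))
(mv 844 (cons (fin 908 7 844)
(mv 780 (cons (fin 845 7 780)
(mv 910 (cons (fin 846 6 845)
(mv 1165 (cons (fin 974 6 909)
(mv 1228 (cons (fin 1164 5 972)
(mv 1230 (cons (fin 1166 4 973)
(mv 1229 (cons (fin 1292 5 1036)
(fin 1294 4 1037))))))))))))))))
(cons (mv 846 (cons (fin 910 6 845)
(mv 1166 (cons (fin 1102 4 909)
(mv 844 (cons (fin 908 7 844)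
(mv 1165 (cons (fin 1230 4 973)
(mv 1229 (cons (fin 974 6 973)
(mv 1228 (cons (fin 1164 5 972)
(fin 1292 5 1036)))))))))))))
(mv 845 (cons (fin 1102 4 845)
(mv 844 (cons (fin 780 7 780)
(fin 908 7 844)))))))))))))))
(cons (mv 973 (cons (fin 972 3 972)
(mv 976 (cons (fin 977 2 973)
(mv 1101 (cons (fin 1100 1 1036)
(mv 1104 (cons (fin 1105 0 1037)
(mv 909 (cons (mv 1102 (cons (fin 845 4 845)
(fin 1166 4 909)))
(cons (mv 844 (cons (fin 908 7 844)
(mv 845 (cons (fin 780 7 780)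
(mv 846 (cons (fin 782 6 781)
(fin 910 6 845)))))))
(mv 910 (cons (fin 846 6 845)
(mv 1102 (cons (fin 1166 4 909)
(mv 908 (cons (fin 844 7 844)
(mv 911 (cons (fin 975 0 908)
(mv 847 (cons (fin 848 2 844)
(fin 912 7 847))))))))))))))))))))))
(mv 1101 (cons (fin 1100 1 1036)
(mv 973 (cons (fin 972 3 972)
(mv 976 (cons (fin 977 2 973)
(mv 1104 (cons (fin 1105 0 1037)
(mv 912 (cons (mv 1103 (cons (fin 848 5 847)
(fin 1167 5 911)))
(cons (mv 847 (cons (fin 911 7 847)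
(mv 783 (cons (fin 848 7 783)
(mv 913 (cons (fin 849 6 848)
(mv 974 (cons (fin 975 2 909)
(mv 1165 (cons (fin 1229 6 973)
(mv 1164 (cons (fin 1228 5 972)
(mv 1166 (cons (fin 1230 4 973)
(mv 909 (cons (fin 1102 7 909)
(mv 845 (cons (fin 781 4 781)
(mv 844 (cons (fin 780 7 780)
(fin 908 7 844)))))))))))))))))))))
(mv 913 (cons (fin 849 6 848)
(mv 1103 (cons (fin 1167 5 911)
(mv 974 (cons (fin 975 2 909)
(mv 847 (cons (fin 911 7 847)
(mv 1165 (cons (fin 1229 6 973)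
(mv 1164 (cons (fin 1102 1 1100)
(fin 1228 5 972))))))))))))))))))))))))))))))))))
def l99 : Lem := ⟨13254031944712882724506621310649321556018620670345837899455453023597314721787975009848330616026462815765143756135158089473467252075149308743152655366187148242124071246428482498451210046760672027239036899891323305324899173507745103325308665813954110541579506451753178596634830548552232523722901151470534797188661248, 96334137498043609131642182571534142694610233006853019104586168229123361124221274871534157389671443753178490197424084349805069369636235610661696162776886052208099190508855014309895217666536998114648278188837395121513438837828660398797168327619979889041348228838081161445514937776983712627321464908481978372730629114339547042735785259644293667601473718390537421321019109032274431116622778493612978722802772213760, 96334137498043609131642182571534142694610233006853019104586168229123361124221274871534157389671443753178490197424084349805069369636235610661696162776886052208099190508855014309895217666536998114648278188837395121513438837828660398797168327619979889041348228838081161445514937776983712627321464908481978372730629114339547042735785259644293667601473718390537421321019109032274431116622778493612978722802772213760,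 19, 33⟩
theorem l99_valid : l99.Valid :=
  Lem.valid_of_chk t99 t99_valid [1037, 1040] c99 l99 (by decide +kernel)
end Crest.Agent.SnakyAux
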