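import Crest.Agent.S0047_aux.Checker
import Crest.Agent.S0047_aux.L96
import Crest.Agent.S0047_aux.L97
import Crest.Agent.S0047_aux.L98
import Crest.Agent.S0047_aux.L99
import Crest.Agent.S0047_aux.L100
import Crest.Agent.S0047_aux.L101
import Crest.Agent.S0047_aux.L102
import Crest.Agent.S0047_aux.L103
import Crest.Agent.S0047_aux.L104
import Crest.Agent.S0047_aux.L105
import Crest.Agent.S0047_aux.L106
import Crest.Agent.S0047_aux.L107
import Crest.Agent.S0047_aux.L108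
import Crest.Agent.S0047_aux.L109
import Crest.Agent.S0047_aux.L110
import Crest.Agent.S0047_aux.L111
import Crest.Agent.S0047_aux.L112
import Crest.Agent.S0047_aux.L113
import Crest.Agent.S0047_aux.L114
import Crest.Agent.S0047_aux.L115
import Crest.Agent.S0047_aux.L116
import Crest.Agent.S0047_aux.L117
import Crest.Agent.S0047_aux.L118
import Crest.Agent.S0047_aux.L119
import Crest.Agent.S0047_aux.L120
import Crest.Agent.S0047_aux.L121
import Crest.Agent.S0047_aux.L122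
import Crest.Agent.S0047_aux.L123
import Crest.Agent.S0047_aux.L124
import Crest.Agent.S0047_aux.L125
import Crest.Agent.S0047_aux.L126
import Crest.Agent.S0047_aux.L127
import Crest.Agent.S0047_aux.L128
set_option autoImplicit false
set_option maxRecDepth 100000
namespace Crest.Agent.SnakyAux
open Cert
def t129 : Tbl := (Tbl.node (Tbl.node (Tbl.node (Tbl.node (Tbl.node (Tbl.node (Tbl.leaf l96) (Tbl.leaf l128)) (Tbl.leaf l112)) (Tbl.node (Tbl.leaf l104) (Tbl.leaf l120))) (Tbl.node (Tbl.node (Tbl.leaf l100) (Tbl.leaf l116)) (Tbl.node (Tbl.leaf l108) (Tbl.leaf l124)))) (Tbl.node (Tbl.node (Tbl.node (Tbl.leaf l98) (Tbl.leaf l114)) (Tbl.node (Tbl.leaf l106) (Tbl.leaf l122))) (Tbl.node (Tbl.node (Tbl.leaf l102) (Tbl.leaf l118)) (Tbl.node (Tbl.leaf l110) (Tbl.leaf l126))))) (Tbl.node (Tbl.node (Tbl.node (Tbl.node (Tbl.leaf l97) (Tbl.leaf l113)) (Tbl.node (Tbl.leaf l105) (Tbl.leaf l121))) (Tbl.node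 (Tbl.node (Tbl.leaf l101) (Tbl.leaf l117)) (Tbl.node (Tbl.leaf l109) (Tbl.leaf l125)))) (Tbl.node (Tbl.node (Tbl.node (Tbl.leaf l99) (Tbl.leaf l115)) (Tbl.node (Tbl.leaf l107) (Tbl.leaf l123))) (Tbl.node (Tbl.node (Tbl.leaf l103) (Tbl.leaf l119)) (Tbl.node (Tbl.leaf l111) (Tbl.leaf l127))))))
theorem t129_valid : t129.Valid := (Tbl.valid_node (Tbl.valid_node (Tbl.valid_node (Tbl.valid_node (Tbl.valid_node (Tbl.valid_node (Tbl.valid_leaf l96_valid) (Tbl.valid_leaf l128_valid)) (Tbl.valid_leaf l112_valid)) (Tbl.valid_node (Tbl.valid_leaf l104_valid) (Tbl.valid_leaf l120_valid))) (Tbl.valid_node (Tbl.valid_node (Tbl.valid_leaf l100_valid) (Tbl.valid_leaf l116_valid)) (Tbl.valid_node (Tbl.valid_leaf l108_valid) (Tbl.valid_leaf l124_valid)))) (Tbl.valid_node (Tbl.valid_node (Tbl.valid_node (Tbl.valid_leaf l98_valid) (Tbl.valid_leaf l114_valid)) (Tbl.valid_node (Tbl.valid_leaf l106_valid) (Tbl.valid_leaf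 l122_valid))) (Tbl.valid_node (Tbl.valid_node (Tbl.valid_leaf l102_valid) (Tbl.valid_leaf l118_valid)) (Tbl.valid_node (Tbl.valid_leaf l110_valid) (Tbl.valid_leaf l126_valid))))) (Tbl.valid_node (Tbl.valid_node (Tbl.valid_node (Tbl.valid_node (Tbl.valid_leaf l97_valid) (Tbl.valid_leaf l113_valid)) (Tbl.valid_node (Tbl.valid_leaf l105_valid) (Tbl.valid_leaf l121_valid))) (Tbl.valid_node (Tbl.valid_node (Tbl.valid_leaf l101_valid) (Tbl.valid_leaf l117_valid)) (Tbl.valid_node (Tbl.valid_leaf l109_valid) (Tbl.valid_leaf l125_valid)))) (Tbl.valid_node (Tbl.valid_node (Tbl.valid_node (Tbl.valid_leaf l99_valid) (Tbl.valid_leaf l115_valid)) (Tbl.valid_node (Tbl.valid_leaf l107_valid) (Tbl.valid_leaf l123_valid))) (Tbl.valid_node (Tbl.valid_node (Tbl.valid_leaf l103_valid) (Tbl.valid_leaf l119_valid)) (Tbl.valid_node (Tbl.valid_leaf l111_valid) (Tbl.valid_leaf l127_valid))))))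
def c129 : Cert :=
(mv 1037 (cons (cons (cons (cons (cons (mv 976 (cons (cons (cons (mv 1039 (cons (cons (mv 1038 (cons (fin 977 2 973)
(mv 972 (cons (fin 973 3 972)
(mv 1036 (cons (fin 971 3 971)
(fin 975 2 972)))))))
(cons (mv 1103 (cons (cons (mv 912 (cons (fin 848 5 847)
(mv 1167 (cons (fin 1104 5 911)
(fin 975 6 911)))))
(mv 1167 (cons (fin 1231 6 975)
(mv 975 (cons (mv 910 (cons (fin 974 7 910)
(mv 911 (cons (fin 846 7 846)
(mv 847 (cons (fin 783 4 783)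
(fin 1104 4 847)))))))
(cons (mv 1166 (cons (fin 1230 5 974)
(mv 911 (cons (fin 1102 5 910)
(mv 847 (cons (fin 783 4 783)
(fin 1104 4 847)))))))
(mv 974 (cons (fin 910 7 910)
(mv 973 (cons (fin 1036 1 972)
(fin 972 0 972)))))))))))
(cons (mv 912 (cons (fin 848 5 847)
(mv 1104 (cons (cons (mv 847 (cons (fin 911 7 847)
(mv 849 (cons (fin 913 6 848)
(mv 1169 (cons (fin 1105 4 912)
(mv 1168 (cons (fin 1233 4 976)
(mv 1232 (cons (fin 975 7 975)
(fin 1296 7 1039)))))))))))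
(cons (mv 849 (cons (fin 913 6 848)
(mv 1169 (cons (fin 1105 4 912)
(mv 1168 (cons (fin 1233 4 976)
(mv 1232 (cons (fin 975 7 975)
(fin 1296 7 1039)))))))))
(mv 847 (cons (fin 911 7 847)
(mv 913 (cons (fin 849 6 848)
(mv 1168 (cons (fin 977 6 912)
(mv 1232 (cons (fin 975 7 975)
(fin 1296 7 1039)))))))))))
(cons (mv 847 (cons (fin 911 7 847)
(mv 1169 (cons (fin 1105 4 912)
(mv 1168 (cons (fin 1233 4 976)
(mv 1232 (cons (fin 975 7 975)
(fin 1296 7 1039)))))))))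
(cons (mv 847 (cons (fin 911 7 847)
(mv 913 (cons (fin 849 6 848)
(mv 1105 (cons (fin 1169 4 912)
(mv 1106 (cons (fin 1107 3 1039)
(mv 1042 (cons (fin 1043 2 1039)
(mv 1170 (cons (fin 1171 0 1103)
(mv 978 (cons (fin 977 7 913)
(mv 915 (cons (fin 979 6 914)
(mv 914 (cons (fin 975 1 911)
(fin 851 6 850)))))))))))))))))))
(mv 847 (cons (fin 911 7 847)
(mv 913 (cons (fin 849 6 848)
(mv 977 (cons (fin 1168 6 912)
(mv 978 (cons (fin 979 1 975)
(mv 1105 (cons (fin 1169 4 912)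
(mv 1106 (cons (fin 1107 3 1039)
(mv 1042 (cons (fin 1043 2 1039)
(fin 1170 7 913)))))))))))))))))))))
(cons (mv 912 (cons (fin 848 5 847)
(mv 1167 (cons (fin 1104 5 911)
(fin 1231 6 975)))))
(mv 912 (cons (fin 848 5 847)
(mv 1167 (cons (fin 975 6 911)
(fin 1231 6 975)))))))))
(mv 1038 (cons (cons (mv 972 (cons (fin 973 3 972)
(mv 1036 (cons (fin 971 3 971)
(fin 975 2 972)))))
(mv 972 (cons (fin 973 3 972)
(mv 1100 (cons (fin 1101 1 1036)
(mv 1104 (cons (fin 1105 0 1037)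
(mv 912 (cons (mv 1103 (cons (fin 848 5 847)
(fin 1167 5 911)))
(cons (mv 847 (cons (fin 911 7 847)
(mv 848 (cons (fin 783 7 783)
(mv 849 (cons (fin 785 6 784)
(fin 913 6 848)))))))
(mv 847 (cons (fin 911 7 847)
(mv 849 (cons (fin 913 6 848)
(mv 1167 (cons (fin 1103 5 911)
(mv 1168 (cons (fin 1231 5 975)
(mv 1232 (cons (fin 975 7 975)
(mv 1233 (cons (fin 1169 4 976)
(fin 1297 4 1040)))))))))))))))))))))))
(cons (mv 975 (cons (fin 1036 2 972)
(mv 1100 (cons (fin 1101 1 1036)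
(mv 1104 (cons (fin 1105 0 1037)
(mv 911 (cons (fin 1168 7 911)
(fin 847 4 847)))))))))
(mv 972 (cons (fin 973 3 972)
(mv 1036 (cons (fin 971 3 971)
(mv 1100 (cons (fin 1099 1 1035)
(fin 1101 1 1036))))))))))))
(cons (mv 1038 (cons (fin 977 2 973)
(mv 972 (cons (fin 973 3 972)
(mv 1036 (cons (fin 971 3 971)
(mv 1100 (cons (fin 1099 1 1035)
(fin 1101 1 1036)))))))))
(cons (mv 1038 (cons (fin 977 2 973)
(mv 972 (cons (fin 973 3 972)
(mv 1100 (cons (fin 1101 1 1036)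
(mv 1104 (cons (fin 1105 0 1037)
(mv 912 (cons (mv 1103 (cons (fin 848 5 847)
(fin 1167 5 911)))
(cons (mv 847 (cons (fin 911 7 847)
(mv 848 (cons (fin 783 7 783)
(mv 849 (cons (fin 785 6 784)
(fin 913 6 848)))))))
(mv 847 (cons (fin 911 7 847)
(mv 849 (cons (fin 913 6 848)
(mv 1167 (cons (fin 1103 5 911)
(mv 1168 (cons (fin 1231 5 975)
(mv 1232 (cons (fin 975 7 975)
(mv 1233 (cons (fin 1169 4 976)
(fin 1297 4 1040))))))))))))))))))))))))
(mv 1038 (cons (fin 977 2 973)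
(mv 975 (cons (fin 1036 2 972)
(mv 1100 (cons (fin 1101 1 1036)
(mv 1104 (cons (fin 1105 0 1037)
(mv 911 (cons (fin 1168 7 911)
(fin 847 4 847)))))))))))))))
(cons (mv 1104 (cons (cons (mv 912 (cons (cons (mv 847 (cons (fin 911 7 847)
(mv 783 (cons (fin 848 7 783)
(mv 849 (cons (fin 913 6 848)
(mv 1167 (cons (fin 1103 5 911)
(mv 1168 (cons (fin 1231 5 975)
(mv 1169 (cons (fin 1105 4 912)
(fin 1233 4 976)))))))))))))
(cons (mv 849 (cons (fin 913 6 848)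
(mv 785 (cons (fin 848 6 784)
(mv 1167 (cons (fin 1103 5 911)
(mv 1168 (cons (fin 1231 5 975)
(mv 1169 (cons (fin 1105 4 912)
(fin 1233 4 976)))))))))))
(mv 847 (cons (fin 911 7 847)
(mv 783 (cons (fin 848 7 783)
(mv 1167 (cons (fin 1103 5 911)
(mv 1168 (cons (fin 1231 5 975)
(mv 1169 (cons (fin 1105 4 912)
(fin 1233 4 976)))))))))))))
(cons (cons (mv 847 (cons (fin 911 7 847)
(mv 783 (cons (fin 848 7 783)
(mv 913 (cons (fin 849 6 848)
(mv 1167 (cons (fin 1103 5 911)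
(mv 1168 (cons (fin 1231 5 975)
(fin 977 6 912)))))))))))
(mv 847 (cons (fin 911 7 847)
(mv 783 (cons (fin 848 7 783)
(mv 913 (cons (fin 849 6 848)
(mv 1168 (cons (fin 977 6 912)
(mv 1169 (cons (fin 1105 4 912)
(fin 1233 4 976))))))))))))
(cons (mv 847 (cons (fin 911 7 847)
(mv 848 (cons (fin 783 7 783)
(mv 849 (cons (fin 785 6 784)
(fin 913 6 848)))))))
(mv 847 (cons (fin 911 7 847)
(mv 849 (cons (fin 913 6 848)
(mv 1167 (cons (fin 1103 5 911)
(mv 1168 (cons (fin 1231 5 975)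
(mv 1169 (cons (fin 1105 4 912)
(fin 1233 4 976)))))))))))))))
(cons (mv 1168 (cons (cons (mv 911 (cons (fin 975 7 911)
(mv 913 (cons (fin 977 6 912)
(mv 1231 (cons (fin 1167 5 975)
(mv 1232 (cons (fin 1295 5 1039)
(mv 1233 (cons (fin 1169 4 976)
(fin 1297 4 1040)))))))))))
(mv 975 (cons (fin 911 7 911)
(mv 977 (cons (fin 913 6 912)
(mv 974 (cons (fin 1038 1 973)
(mv 909 (cons (fin 910 3 909)
(mv 973 (cons (fin 908 3 908)
(fin 1036 1 972))))))))))))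
(cons (mv 913 (cons (fin 977 6 912)
(mv 1231 (cons (fin 1167 5 975)
(mv 1232 (cons (fin 1295 5 1039)
(mv 1233 (cons (fin 1169 4 976)
(fin 1297 4 1040)))))))))
(mv 911 (cons (fin 975 7 911)
(mv 1231 (cons (fin 1167 5 975)
(mv 1232 (cons (fin 1295 5 1039)
(mv 1233 (cons (fin 1169 4 976)
(fin 1297 4 1040))))))))))))
(mv 912 (cons (cons (mv 847 (cons (fin 911 7 847)
(mv 848 (cons (fin 783 7 783)
(mv 849 (cons (fin 785 6 784)
(fin 913 6 848)))))))
(mv 913 (cons (fin 849 6 848)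
(mv 1103 (cons (fin 1167 5 911)
(mv 1105 (cons (fin 1169 4 912)
(mv 1102 (cons (fin 1038 3 1037)
(mv 1101 (cons (fin 1036 3 1036)
(mv 973 (cons (mv 1166 (cons (fin 1165 1 1101)
(fin 909 4 909)))
(cons (mv 974 (cons (fin 975 2 909)
(mv 910 (cons (fin 911 1 909)
(fin 1165 6 909)))))
(mv 909 (cons (fin 1166 4 909)
(mv 844 (cons (fin 908 7 844)
(mv 780 (cons (fin 845 7 780)
(mv 910 (cons (fin 846 6 845)
(mv 911 (cons (fin 972 1 908)
(fin 974 1 909)))))))))))))))))))))))))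
(cons (mv 911 (cons (fin 847 7 847)
(mv 1103 (cons (fin 1167 5 911)
(mv 1105 (cons (fin 1169 4 912)
(mv 1102 (cons (fin 1038 3 1037)
(mv 1101 (cons (fin 1036 3 1036)
(mv 1166 (cons (fin 1165 1 1101)
(mv 909 (cons (fin 973 4 909)
(mv 910 (cons (fin 977 0 909)
(mv 844 (cons (fin 845 3 844)
(mv 908 (cons (fin 843 3 843)
(fin 975 0 908)))))))))))))))))))))
(mv 849 (cons (fin 913 6 848)
(mv 848 (cons (fin 785 6 784)
(mv 847 (cons (fin 783 7 783)
(mv 1103 (cons (fin 1167 5 911)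
(mv 1105 (cons (fin 1169 4 912)
(mv 1102 (cons (fin 1038 3 1037)
(mv 1101 (cons (fin 1036 3 1036)
(mv 1166 (cons (fin 1165 1 1101)
(mv 909 (cons (fin 973 4 909)
(mv 846 (cons (fin 910 1 845)
(mv 781 (cons (fin 782 3 781)
(mv 845 (cons (fin 780 3 780)
(fin 908 1 844))))))))))))))))))))))))))))))
(cons (cons (mv 1168 (cons (cons (mv 913 (cons (fin 977 6 912)
(mv 849 (cons (fin 912 6 848)
(mv 1231 (cons (fin 1167 5 975)
(mv 1232 (cons (fin 1295 5 1039)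
(mv 1233 (cons (fin 1169 4 976)
(fin 1297 4 1040)))))))))))
(mv 913 (cons (fin 977 6 912)
(mv 912 (cons (fin 849 6 848)
(mv 1167 (cons (fin 1103 5 911)
(fin 1231 5 975))))))))
(cons (mv 913 (cons (fin 977 6 912)
(mv 912 (cons (fin 849 6 848)
(mv 1169 (cons (fin 1105 4 912)
(fin 1233 4 976)))))))
(cons (mv 1167 (cons (fin 1231 5 975)
(mv 912 (cons (fin 1103 5 911)
(mv 1169 (cons (fin 1105 4 912)
(fin 1233 4 976)))))))
(mv 913 (cons (fin 977 6 912)
(mv 1231 (cons (fin 1167 5 975)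
(mv 1232 (cons (fin 1295 5 1039)
(mv 1233 (cons (fin 1169 4 976)
(fin 1297 4 1040)))))))))))))
(mv 1168 (cons (cons (mv 911 (cons (fin 975 7 911)
(mv 847 (cons (fin 912 7 847)
(mv 1231 (cons (fin 1167 5 975)
(mv 1232 (cons (fin 1295 5 1039)
(mv 1233 (cons (fin 1169 4 976)
(fin 1297 4 1040)))))))))))
(mv 911 (cons (fin 975 7 911)
(mv 912 (cons (fin 847 7 847)
(mv 1167 (cons (fin 1103 5 911)
(fin 1231 5 975))))))))
(cons (mv 911 (cons (fin 975 7 911)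
(mv 912 (cons (fin 847 7 847)
(mv 1169 (cons (fin 1105 4 912)
(fin 1233 4 976)))))))
(cons (mv 1167 (cons (fin 1231 5 975)
(mv 912 (cons (fin 1103 5 911)
(mv 1169 (cons (fin 1105 4 912)
(fin 1233 4 976)))))))
(mv 911 (cons (fin 975 7 911)
(mv 1231 (cons (fin 1167 5 975)
(mv 1232 (cons (fin 1295 5 1039)
(mv 1233 (cons (fin 1169 4 976)
(fin 1297 4 1040))))))))))))))
(cons (mv 912 (cons (cons (mv 847 (cons (fin 911 7 847)
(mv 783 (cons (fin 848 7 783)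
(mv 913 (cons (fin 849 6 848)
(mv 1167 (cons (fin 1103 5 911)
(mv 1168 (cons (fin 1231 5 975)
(fin 977 6 912)))))))))))
(mv 913 (cons (fin 849 6 848)
(mv 1167 (cons (fin 1103 5 911)
(mv 1168 (cons (fin 1231 5 975)
(fin 977 6 912))))))))
(cons (mv 911 (cons (fin 847 7 847)
(mv 1167 (cons (fin 1103 5 911)
(mv 1168 (cons (fin 975 7 911)
(fin 1231 5 975)))))))
(mv 847 (cons (fin 911 7 847)
(mv 848 (cons (fin 783 7 783)
(mv 849 (cons (fin 785 6 784)
(fin 913 6 848))))))))))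
(mv 912 (cons (cons (mv 847 (cons (fin 911 7 847)
(mv 783 (cons (fin 848 7 783)
(mv 913 (cons (fin 849 6 848)
(mv 1168 (cons (fin 977 6 912)
(mv 1169 (cons (fin 1105 4 912)
(fin 1233 4 976)))))))))))
(mv 913 (cons (fin 849 6 848)
(mv 1168 (cons (fin 977 6 912)
(mv 1169 (cons (fin 1105 4 912)
(fin 1233 4 976))))))))
(cons (mv 911 (cons (fin 847 7 847)
(mv 1168 (cons (fin 975 7 911)
(mv 1169 (cons (fin 1105 4 912)
(fin 1233 4 976)))))))
(mv 847 (cons (fin 911 7 847)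
(mv 848 (cons (fin 783 7 783)
(mv 849 (cons (fin 785 6 784)
(fin 913 6 848))))))))))))))
(mv 1104 (cons (cons (cons (mv 912 (cons (cons (mv 847 (cons (fin 911 7 847)
(mv 783 (cons (fin 848 7 783)
(mv 849 (cons (fin 913 6 848)
(mv 1167 (cons (fin 1103 5 911)
(mv 1168 (cons (fin 1231 5 975)
(mv 1169 (cons (fin 1105 4 912)
(fin 1233 4 976)))))))))))))
(cons (mv 849 (cons (fin 913 6 848)
(mv 785 (cons (fin 848 6 784)
(mv 1167 (cons (fin 1103 5 911)
(mv 1168 (cons (fin 1231 5 975)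
(mv 1169 (cons (fin 1105 4 912)
(fin 1233 4 976)))))))))))
(mv 847 (cons (fin 911 7 847)
(mv 783 (cons (fin 848 7 783)
(mv 1167 (cons (fin 1103 5 911)
(mv 1168 (cons (fin 1231 5 975)
(mv 1169 (cons (fin 1105 4 912)
(fin 1233 4 976)))))))))))))
(cons (cons (mv 847 (cons (fin 911 7 847)
(mv 783 (cons (fin 848 7 783)
(mv 913 (cons (fin 849 6 848)
(mv 1168 (cons (fin 977 6 912)
(mv 1169 (cons (fin 1105 4 912)
(fin 1233 4 976)))))))))))
(mv 847 (cons (fin 911 7 847)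
(mv 783 (cons (fin 848 7 783)
(mv 913 (cons (fin 849 6 848)
(mv 1167 (cons (fin 1103 5 911)
(mv 1168 (cons (fin 1231 5 975)
(fin 977 6 912))))))))))))
(cons (mv 847 (cons (fin 911 7 847)
(mv 848 (cons (fin 783 7 783)
(mv 849 (cons (fin 785 6 784)
(fin 913 6 848)))))))
(mv 847 (cons (fin 911 7 847)
(mv 849 (cons (fin 913 6 848)
(mv 1167 (cons (fin 1103 5 911)
(mv 1168 (cons (fin 1231 5 975)
(mv 1169 (cons (fin 1105 4 912)
(fin 1233 4 976)))))))))))))))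
(mv 1168 (cons (cons (mv 911 (cons (fin 975 7 911)
(mv 913 (cons (fin 977 6 912)
(mv 1231 (cons (fin 1167 5 975)
(mv 1232 (cons (fin 1295 5 1039)
(mv 1233 (cons (fin 1169 4 976)
(fin 1297 4 1040)))))))))))
(cons (mv 913 (cons (fin 977 6 912)
(mv 1231 (cons (fin 1167 5 975)
(mv 1232 (cons (fin 1295 5 1039)
(mv 1233 (cons (fin 1169 4 976)
(fin 1297 4 1040)))))))))
(mv 913 (cons (fin 977 6 912)
(mv 975 (cons (fin 911 7 911)
(mv 1232 (cons (fin 1039 7 975)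
(mv 1233 (cons (fin 1169 4 976)
(fin 1297 4 1040)))))))))))
(cons (mv 913 (cons (fin 977 6 912)
(mv 975 (cons (fin 911 7 911)
(mv 1231 (cons (fin 1167 5 975)
(mv 1232 (cons (fin 1039 7 975)
(fin 1295 5 1039)))))))))
(cons (mv 911 (cons (fin 975 7 911)
(mv 1231 (cons (fin 1167 5 975)
(mv 1232 (cons (fin 1295 5 1039)
(mv 1233 (cons (fin 1169 4 976)
(fin 1297 4 1040)))))))))
(mv 911 (cons (fin 975 7 911)
(mv 913 (cons (fin 977 6 912)
(mv 1167 (cons (fin 1231 5 975)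
(mv 1169 (cons (fin 1233 4 976)
(mv 1170 (cons (mv 1103 (cons (fin 1102 3 1102)
(fin 1171 3 1103)))
(cons (mv 1106 (cons (fin 1107 2 1103)
(mv 1105 (cons (fin 1166 2 1102)
(mv 1171 (cons (fin 1172 3 1104)
(mv 1235 (cons (fin 1234 0 1167)
(fin 1236 0 1168)))))))))
(mv 1102 (cons (fin 1103 3 1102)
(mv 1106 (cons (fin 1107 2 1103)
(mv 1166 (cons (fin 1101 3 1101)
(fin 1105 2 1102)))))))))))))))))))))))
(cons (mv 912 (cons (cons (mv 847 (cons (fin 911 7 847)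
(mv 848 (cons (fin 783 7 783)
(mv 849 (cons (fin 785 6 784)
(fin 913 6 848)))))))
(mv 849 (cons (fin 913 6 848)
(mv 848 (cons (fin 785 6 784)
(mv 1103 (cons (fin 1039 5 847)
(fin 1167 5 911))))))))
(cons (mv 847 (cons (fin 911 7 847)
(mv 848 (cons (fin 783 7 783)
(mv 1103 (cons (fin 1039 5 847)
(fin 1167 5 911)))))))
(mv 847 (cons (fin 911 7 847)
(mv 913 (cons (fin 849 6 848)
(mv 1103 (cons (fin 1167 5 911)
(mv 1105 (cons (fin 1169 4 912)
(mv 1106 (cons (cons (mv 1039 (cons (fin 1107 3 1039)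
(mv 1042 (cons (fin 1043 2 1039)
(mv 1170 (cons (fin 1171 0 1103)
(mv 978 (cons (fin 977 7 913)
(mv 915 (cons (fin 979 6 914)
(mv 914 (cons (fin 975 1 911)
(fin 851 6 850)))))))))))))
(mv 1042 (cons (fin 1043 2 1039)
(mv 1170 (cons (fin 1171 0 1103)
(mv 978 (cons (fin 977 7 913)
(mv 915 (cons (fin 979 6 914)
(mv 914 (cons (fin 975 1 911)
(fin 851 6 850))))))))))))
(cons (mv 1107 (cons (fin 1039 3 1039)
(mv 1171 (cons (fin 1170 0 1103)
(fin 1172 0 1104)))))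
(mv 1043 (cons (fin 1042 2 1039)
(mv 1107 (cons (fin 1039 3 1039)
(fin 1044 2 1040)))))))))))))))))))
(mv 1168 (cons (cons (mv 913 (cons (fin 977 6 912)
(mv 849 (cons (fin 912 6 848)
(mv 1169 (cons (fin 1233 4 976)
(mv 1231 (cons (fin 1167 5 975)
(mv 1232 (cons (fin 1295 5 1039)
(mv 1039 (cons (fin 975 7 975)
(mv 1103 (cons (fin 1296 7 1039)
(mv 1102 (cons (fin 1101 0 1101)
(mv 1170 (cons (fin 1171 3 1103)
(fin 1105 0 1102)))))))))))))))))))
(cons (mv 913 (cons (fin 977 6 912)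
(mv 849 (cons (fin 912 6 848)
(mv 1233 (cons (fin 1169 4 976)
(mv 1232 (cons (fin 1297 4 1040)
(mv 1039 (cons (fin 975 7 975)
(mv 1295 (cons (fin 1231 5 1039)
(mv 1296 (cons (fin 1103 7 1039)
(fin 1359 5 1103)))))))))))))))
(mv 913 (cons (fin 977 6 912)
(mv 849 (cons (fin 912 6 848)
(mv 1231 (cons (fin 1167 5 975)
(mv 1232 (cons (fin 1295 5 1039)
(mv 1039 (cons (fin 975 7 975)
(mv 1296 (cons (fin 1103 7 1039)
(mv 1297 (cons (fin 1233 4 1040)
(fin 1361 4 1104)))))))))))))))))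
(cons (cons (mv 913 (cons (fin 977 6 912)
(mv 912 (cons (fin 849 6 848)
(mv 1169 (cons (fin 1105 4 912)
(fin 1233 4 976)))))))
(mv 913 (cons (fin 977 6 912)
(mv 912 (cons (fin 849 6 848)
(mv 1167 (cons (fin 1103 5 911)
(fin 1231 5 975))))))))
(cons (mv 1167 (cons (fin 1231 5 975)
(mv 912 (cons (fin 1103 5 911)
(mv 1169 (cons (fin 1105 4 912)
(fin 1233 4 976)))))))
(mv 913 (cons (fin 977 6 912)
(mv 1169 (cons (fin 1233 4 976)
(mv 1231 (cons (fin 1167 5 975)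
(mv 1232 (cons (fin 1295 5 1039)
(mv 1039 (cons (fin 975 7 975)
(mv 1103 (cons (fin 1296 7 1039)
(mv 1102 (cons (fin 1101 0 1101)
(mv 1170 (cons (fin 1171 3 1103)
(fin 1105 0 1102)))))))))))))))))))))))
(cons (cons (mv 912 (cons (cons (mv 847 (cons (fin 911 7 847)
(mv 783 (cons (fin 848 7 783)
(mv 913 (cons (fin 849 6 848)
(mv 1168 (cons (fin 977 6 912)
(mv 1169 (cons (fin 1105 4 912)
(fin 1233 4 976)))))))))))
(cons (mv 849 (cons (fin 913 6 848)
(mv 848 (cons (fin 785 6 784)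
(mv 783 (cons (fin 847 7 783)
(mv 784 (cons (fin 719 7 719)
(mv 1039 (cons (fin 975 5 783)
(fin 1103 5 847)))))))))))
(mv 847 (cons (fin 911 7 847)
(mv 848 (cons (fin 783 7 783)
(mv 785 (cons (fin 849 6 784)
(mv 784 (cons (fin 721 6 720)
(mv 1039 (cons (fin 975 5 783)
(fin 1103 5 847)))))))))))))
(cons (mv 849 (cons (fin 913 6 848)
(mv 848 (cons (fin 785 6 784)
(mv 1039 (cons (fin 1103 5 847)
(mv 975 (cons (fin 784 5 783)
(mv 1168 (cons (fin 911 7 911)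
(fin 1232 7 975)))))))))))
(cons (mv 847 (cons (fin 911 7 847)
(mv 848 (cons (fin 783 7 783)
(mv 1039 (cons (fin 1103 5 847)
(mv 975 (cons (fin 784 5 783)
(mv 1168 (cons (fin 1232 7 975)
(mv 1169 (cons (fin 1105 4 912)
(fin 1233 4 976)))))))))))))
(mv 847 (cons (fin 911 7 847)
(mv 913 (cons (fin 849 6 848)
(mv 1168 (cons (fin 977 6 912)
(mv 1169 (cons (fin 1105 4 912)
(fin 1233 4 976)))))))))))))
(mv 1168 (cons (cons (mv 911 (cons (fin 975 7 911)
(mv 847 (cons (fin 912 7 847)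
(mv 1231 (cons (fin 1167 5 975)
(mv 1232 (cons (fin 1295 5 1039)
(mv 1233 (cons (fin 1169 4 976)
(fin 1297 4 1040)))))))))))
(mv 911 (cons (fin 975 7 911)
(mv 912 (cons (fin 847 7 847)
(mv 1169 (cons (fin 1105 4 912)
(fin 1233 4 976))))))))
(cons (mv 911 (cons (fin 975 7 911)
(mv 912 (cons (fin 847 7 847)
(mv 1167 (cons (fin 1103 5 911)
(fin 1231 5 975)))))))
(cons (mv 1167 (cons (fin 1231 5 975)
(mv 912 (cons (fin 1103 5 911)
(mv 1169 (cons (fin 1105 4 912)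
(fin 1233 4 976)))))))
(mv 911 (cons (fin 975 7 911)
(mv 1231 (cons (fin 1167 5 975)
(mv 1232 (cons (fin 1295 5 1039)
(mv 1233 (cons (fin 1169 4 976)
(fin 1297 4 1040))))))))))))))
(cons (mv 912 (cons (cons (mv 847 (cons (fin 911 7 847)
(mv 783 (cons (fin 848 7 783)
(mv 913 (cons (fin 849 6 848)
(mv 1167 (cons (fin 1103 5 911)
(mv 1168 (cons (fin 1231 5 975)
(fin 977 6 912)))))))))))
(mv 849 (cons (fin 913 6 848)
(mv 848 (cons (fin 785 6 784)
(mv 1103 (cons (fin 1039 5 847)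
(fin 1167 5 911))))))))
(cons (mv 847 (cons (fin 911 7 847)
(mv 848 (cons (fin 783 7 783)
(mv 1103 (cons (fin 1039 5 847)
(fin 1167 5 911)))))))
(cons (mv 847 (cons (fin 911 7 847)
(mv 848 (cons (fin 783 7 783)
(mv 849 (cons (fin 785 6 784)
(fin 913 6 848)))))))
(mv 847 (cons (fin 911 7 847)
(mv 913 (cons (fin 849 6 848)
(mv 1167 (cons (fin 1103 5 911)
(mv 1168 (cons (fin 1231 5 975)
(fin 977 6 912)))))))))))))
(mv 1168 (cons (cons (mv 911 (cons (fin 975 7 911)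
(mv 847 (cons (fin 912 7 847)
(mv 913 (cons (fin 977 6 912)
(mv 1231 (cons (fin 1167 5 975)
(mv 1232 (cons (fin 1295 5 1039)
(mv 1233 (cons (fin 1169 4 976)
(fin 1297 4 1040)))))))))))))
(mv 913 (cons (fin 977 6 912)
(mv 849 (cons (fin 912 6 848)
(mv 1231 (cons (fin 1167 5 975)
(mv 1232 (cons (fin 1295 5 1039)
(mv 1233 (cons (fin 1169 4 976)
(fin 1297 4 1040))))))))))))
(cons (mv 911 (cons (fin 975 7 911)
(mv 912 (cons (fin 847 7 847)
(mv 913 (cons (fin 849 6 848)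
(fin 977 6 912)))))))
(cons (mv 911 (cons (fin 975 7 911)
(mv 847 (cons (fin 912 7 847)
(mv 1231 (cons (fin 1167 5 975)
(mv 1232 (cons (fin 1295 5 1039)
(mv 1233 (cons (fin 1169 4 976)
(fin 1297 4 1040)))))))))))
(mv 911 (cons (fin 975 7 911)
(mv 913 (cons (fin 977 6 912)
(mv 1231 (cons (fin 1167 5 975)
(mv 1232 (cons (fin 1295 5 1039)
(mv 1233 (cons (fin 1169 4 976)
(fin 1297 4 1040)))))))))))))))))))))
(cons (mv 1104 (cons (cons (cons (mv 912 (cons (cons (mv 847 (cons (fin 911 7 847)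
(mv 783 (cons (fin 848 7 783)
(mv 849 (cons (fin 913 6 848)
(mv 1103 (cons (fin 1167 5 911)
(mv 1105 (cons (fin 1169 4 912)
(mv 1038 (cons (fin 1102 3 1037)
(fin 1039 0 1037)))))))))))))
(mv 847 (cons (fin 911 7 847)
(mv 848 (cons (fin 783 7 783)
(mv 849 (cons (fin 785 6 784)
(fin 913 6 848))))))))
(cons (mv 849 (cons (fin 913 6 848)
(mv 785 (cons (fin 848 6 784)
(mv 1103 (cons (fin 1167 5 911)
(mv 1105 (cons (fin 1169 4 912)
(mv 1038 (cons (fin 1102 3 1037)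
(fin 1039 0 1037)))))))))))
(cons (mv 847 (cons (fin 911 7 847)
(mv 783 (cons (fin 848 7 783)
(mv 1103 (cons (fin 1167 5 911)
(mv 1105 (cons (fin 1169 4 912)
(mv 1038 (cons (fin 1102 3 1037)
(fin 1039 0 1037)))))))))))
(mv 847 (cons (fin 911 7 847)
(mv 849 (cons (fin 913 6 848)
(mv 1103 (cons (fin 1167 5 911)
(mv 1105 (cons (fin 1169 4 912)
(mv 1038 (cons (fin 1102 3 1037)
(fin 1039 0 1037)))))))))))))))
(mv 1168 (cons (cons (mv 911 (cons (fin 975 7 911)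
(mv 1231 (cons (fin 1167 5 975)
(mv 1232 (cons (fin 1295 5 1039)
(mv 1233 (cons (fin 1169 4 976)
(fin 1297 4 1040)))))))))
(mv 1231 (cons (fin 1167 5 975)
(mv 1232 (cons (fin 1295 5 1039)
(mv 1233 (cons (fin 1169 4 976)
(fin 1297 4 1040))))))))
(cons (mv 975 (cons (fin 911 7 911)
(mv 1039 (cons (fin 1232 7 975)
(mv 1038 (cons (fin 1036 2 972)
(fin 1105 0 1037)))))))
(mv 911 (cons (fin 975 7 911)
(mv 1167 (cons (fin 1231 5 975)
(mv 1169 (cons (fin 1233 4 976)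
(mv 1170 (cons (mv 1103 (cons (fin 1102 3 1102)
(fin 1171 3 1103)))
(cons (mv 1106 (cons (fin 1107 2 1103)
(mv 1105 (cons (fin 1166 2 1102)
(mv 1038 (cons (fin 1039 0 1037)
(mv 1171 (cons (fin 1172 3 1104)
(mv 1235 (cons (fin 1234 0 1167)
(fin 1236 0 1168)))))))))))
(mv 1102 (cons (fin 1103 3 1102)
(mv 1106 (cons (fin 1107 2 1103)
(mv 1166 (cons (fin 1101 3 1101)
(fin 1105 2 1102))))))))))))))))))))
(cons (mv 912 (cons (cons (mv 847 (cons (fin 911 7 847)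
(mv 848 (cons (fin 783 7 783)
(mv 849 (cons (fin 785 6 784)
(fin 913 6 848)))))))
(mv 849 (cons (fin 913 6 848)
(mv 848 (cons (fin 785 6 784)
(mv 1103 (cons (fin 1039 5 847)
(fin 1167 5 911))))))))
(cons (mv 847 (cons (fin 911 7 847)
(mv 848 (cons (fin 783 7 783)
(mv 1103 (cons (fin 1039 5 847)
(fin 1167 5 911)))))))
(mv 849 (cons (fin 913 6 848)
(mv 911 (cons (fin 847 7 847)
(mv 1103 (cons (fin 1167 5 911)
(mv 1168 (cons (fin 975 7 911)
(mv 1233 (cons (fin 1169 4 976)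
(mv 1232 (cons (fin 1297 4 1040)
(mv 1295 (cons (fin 1231 5 1039)
(mv 1296 (cons (fin 1039 7 1039)
(fin 1359 5 1103))))))))))))))))))))
(mv 912 (cons (cons (mv 847 (cons (fin 911 7 847)
(mv 848 (cons (fin 783 7 783)
(mv 849 (cons (fin 785 6 784)
(fin 913 6 848)))))))
(mv 849 (cons (fin 913 6 848)
(mv 848 (cons (fin 785 6 784)
(mv 783 (cons (fin 847 7 783)
(mv 719 (cons (fin 784 7 719)
(mv 1039 (cons (fin 1103 5 847)
(mv 1105 (cons (fin 1038 0 1037)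
(fin 1169 4 912))))))))))))))
(cons (mv 849 (cons (fin 913 6 848)
(mv 785 (cons (fin 848 6 784)
(mv 1169 (cons (fin 1105 4 912)
(mv 1168 (cons (fin 1233 4 976)
(mv 975 (cons (fin 911 7 911)
(mv 1039 (cons (fin 1232 7 975)
(mv 1038 (cons (fin 1036 2 972)
(mv 973 (cons (fin 972 3 972)
(mv 1101 (cons (fin 1100 1 1036)
(mv 1102 (cons (fin 1103 0 1101)
(mv 909 (cons (fin 845 4 845)
(fin 1166 4 909)))))))))))))))))))))))
(cons (mv 847 (cons (fin 911 7 847)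
(mv 848 (cons (fin 783 7 783)
(mv 1039 (cons (fin 1103 5 847)
(mv 1105 (cons (fin 1038 0 1037)
(fin 1169 4 912)))))))))
(mv 849 (cons (fin 913 6 848)
(mv 911 (cons (fin 847 7 847)
(mv 975 (cons (fin 1168 7 911)
(mv 1105 (cons (fin 1169 4 912)
(mv 1038 (cons (fin 1039 0 1037)
(mv 1102 (cons (fin 1103 3 1037)
(mv 974 (cons (fin 1166 6 910)
(mv 973 (cons (fin 1036 1 972)
(fin 972 2 908)))))))))))))))))))))))
(cons (cons (mv 912 (cons (cons (mv 849 (cons (fin 913 6 848)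
(mv 785 (cons (fin 848 6 784)
(mv 1103 (cons (fin 1167 5 911)
(mv 1105 (cons (fin 1169 4 912)
(mv 1038 (cons (fin 1102 3 1037)
(fin 1039 0 1037)))))))))))
(cons (mv 849 (cons (fin 913 6 848)
(mv 848 (cons (fin 785 6 784)
(mv 783 (cons (fin 847 7 783)
(mv 784 (cons (fin 719 7 719)
(mv 781 (cons (fin 782 0 781)
(mv 850 (cons (fin 851 3 783)
(mv 1039 (cons (fin 975 5 783)
(mv 1105 (cons (fin 1038 0 1037)
(fin 1169 4 912)))))))))))))))))
(mv 849 (cons (fin 913 6 848)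
(mv 848 (cons (fin 785 6 784)
(mv 1103 (cons (fin 1039 5 847)
(fin 1167 5 911)))))))))
(cons (mv 1103 (cons (fin 1167 5 911)
(mv 1039 (cons (fin 848 5 847)
(mv 1038 (cons (fin 1036 0 1036)
(fin 1105 0 1037)))))))
(cons (mv 849 (cons (fin 913 6 848)
(mv 1103 (cons (fin 1167 5 911)
(mv 1105 (cons (fin 1169 4 912)
(mv 1038 (cons (fin 1102 3 1037)
(fin 1039 0 1037)))))))))
(mv 849 (cons (fin 913 6 848)
(mv 785 (cons (fin 848 6 784)
(mv 1167 (cons (fin 1103 5 911)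
(mv 1168 (cons (fin 1231 5 975)
(mv 1169 (cons (fin 1105 4 912)
(fin 1233 4 976)))))))))))))))
(mv 912 (cons (cons (mv 847 (cons (fin 911 7 847)
(mv 848 (cons (fin 783 7 783)
(mv 849 (cons (fin 785 6 784)
(fin 913 6 848)))))))
(mv 849 (cons (fin 913 6 848)
(mv 848 (cons (fin 785 6 784)
(mv 1103 (cons (fin 1039 5 847)
(fin 1167 5 911))))))))
(cons (mv 847 (cons (fin 911 7 847)
(mv 848 (cons (fin 783 7 783)
(mv 1103 (cons (fin 1039 5 847)
(fin 1167 5 911)))))))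
(mv 849 (cons (fin 913 6 848)
(mv 911 (cons (fin 847 7 847)
(mv 1167 (cons (fin 1103 5 911)
(mv 1168 (cons (fin 975 7 911)
(fin 1231 5 975)))))))))))))
(cons (mv 912 (cons (cons (mv 847 (cons (fin 911 7 847)
(mv 783 (cons (fin 848 7 783)
(mv 849 (cons (fin 913 6 848)
(mv 1167 (cons (fin 1103 5 911)
(mv 1168 (cons (fin 1231 5 975)
(mv 1169 (cons (fin 1105 4 912)
(fin 1233 4 976)))))))))))))
(mv 849 (cons (fin 913 6 848)
(mv 785 (cons (fin 848 6 784)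
(mv 1167 (cons (fin 1103 5 911)
(mv 1168 (cons (fin 1231 5 975)
(mv 1169 (cons (fin 1105 4 912)
(fin 1233 4 976))))))))))))
(cons (mv 847 (cons (fin 911 7 847)
(mv 783 (cons (fin 848 7 783)
(mv 1167 (cons (fin 1103 5 911)
(mv 1168 (cons (fin 1231 5 975)
(mv 1169 (cons (fin 1105 4 912)
(fin 1233 4 976)))))))))))
(cons (mv 847 (cons (fin 911 7 847)
(mv 848 (cons (fin 783 7 783)
(mv 849 (cons (fin 785 6 784)
(fin 913 6 848)))))))
(mv 847 (cons (fin 911 7 847)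
(mv 849 (cons (fin 913 6 848)
(mv 1167 (cons (fin 1103 5 911)
(mv 1168 (cons (fin 1231 5 975)
(mv 1169 (cons (fin 1105 4 912)
(fin 1233 4 976)))))))))))))))
(mv 1168 (cons (cons (mv 911 (cons (fin 975 7 911)
(mv 847 (cons (fin 912 7 847)
(mv 1231 (cons (fin 1167 5 975)
(mv 1232 (cons (fin 1295 5 1039)
(mv 1233 (cons (fin 1169 4 976)
(fin 1297 4 1040)))))))))))
(mv 1167 (cons (fin 1231 5 975)
(mv 1169 (cons (fin 1233 4 976)
(mv 912 (cons (fin 1105 4 912)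
(mv 847 (cons (fin 911 7 847)
(mv 848 (cons (fin 783 7 783)
(mv 849 (cons (fin 785 6 784)
(fin 913 6 848))))))))))))))
(cons (mv 975 (cons (fin 911 7 911)
(mv 1039 (cons (fin 1232 7 975)
(mv 1038 (cons (fin 1036 2 972)
(fin 1105 0 1037)))))))
(mv 1167 (cons (fin 1231 5 975)
(mv 1169 (cons (fin 1233 4 976)
(mv 1105 (cons (fin 912 4 912)
(mv 1106 (cons (fin 1107 1 1103)
(fin 1166 2 1102))))))))))))))))
(cons (mv 1038 (cons (cons (mv 1039 (cons (fin 977 2 973)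
(mv 972 (cons (fin 973 3 972)
(mv 1036 (cons (fin 971 3 971)
(fin 975 2 972)))))))
(cons (mv 974 (cons (cons (mv 975 (cons (fin 977 1 973)
(mv 1036 (cons (fin 973 1 972)
(fin 1035 2 971)))))
(mv 910 (cons (cons (mv 846 (cons (fin 1101 5 845)
(mv 781 (cons (fin 845 7 781)
(mv 782 (cons (fin 717 7 717)
(fin 973 5 781)))))))
(mv 1102 (cons (cons (cons (mv 845 (cons (fin 909 7 845)
(mv 847 (cons (fin 911 6 846)
(mv 1101 (cons (fin 1165 5 909)
(mv 1167 (cons (fin 1103 4 910)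
(mv 1166 (cons (fin 1231 4 974)
(mv 1230 (cons (fin 973 7 973)
(fin 1294 7 1037)))))))))))))
(mv 845 (cons (fin 909 7 845)
(mv 847 (cons (fin 911 6 846)
(mv 1167 (cons (fin 1103 4 910)
(mv 1166 (cons (fin 1231 4 974)
(mv 1230 (cons (fin 973 7 973)
(mv 1293 (cons (fin 1229 5 1037)
(mv 1294 (cons (fin 1101 7 1037)
(fin 1357 5 1101))))))))))))))))
(cons (mv 845 (cons (fin 909 7 845)
(mv 847 (cons (fin 911 6 846)
(mv 1167 (cons (fin 1103 4 910)
(mv 1166 (cons (fin 1231 4 974)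
(mv 1229 (cons (fin 1165 5 973)
(mv 1230 (cons (fin 973 7 973)
(fin 1293 5 1037)))))))))))))
(mv 847 (cons (fin 911 6 846)
(mv 1101 (cons (fin 1165 5 909)
(mv 1167 (cons (fin 1103 4 910)
(mv 1166 (cons (fin 1231 4 974)
(mv 1230 (cons (fin 973 7 973)
(fin 1294 7 1037)))))))))))))
(cons (cons (mv 847 (cons (fin 911 6 846)
(mv 909 (cons (fin 845 7 845)
(mv 1165 (cons (fin 1101 5 909)
(mv 1166 (cons (fin 973 7 909)
(fin 1229 5 973)))))))))
(mv 845 (cons (fin 909 7 845)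
(mv 1101 (cons (fin 1165 5 909)
(mv 1167 (cons (fin 1103 4 910)
(mv 1166 (cons (fin 1231 4 974)
(mv 1230 (cons (fin 973 7 973)
(fin 1294 7 1037))))))))))))
(cons (mv 845 (cons (fin 909 7 845)
(mv 847 (cons (fin 911 6 846)
(mv 1165 (cons (fin 1101 5 909)
(mv 1166 (cons (fin 1229 5 973)
(mv 1167 (cons (fin 1103 4 910)
(fin 1231 4 974)))))))))))
(mv 909 (cons (fin 845 7 845)
(mv 911 (cons (fin 847 6 846)
(mv 912 (cons (fin 977 0 909)
(mv 973 (cons (fin 972 1 908)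
(fin 913 1 909))))))))))))))
(cons (mv 1102 (cons (cons (mv 845 (cons (fin 909 7 845)
(mv 781 (cons (fin 846 7 781)
(mv 847 (cons (fin 911 6 846)
(mv 1167 (cons (fin 1103 4 910)
(mv 1166 (cons (fin 1231 4 974)
(mv 1229 (cons (fin 1165 5 973)
(mv 1230 (cons (fin 973 7 973)
(fin 1293 5 1037)))))))))))))))
(mv 847 (cons (fin 911 6 846)
(mv 783 (cons (fin 846 6 782)
(mv 848 (cons (fin 912 7 783)
(mv 1167 (cons (fin 1103 4 910)
(mv 1166 (cons (fin 1231 4 974)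
(mv 1229 (cons (fin 1165 5 973)
(mv 1230 (cons (fin 973 7 973)
(fin 1293 5 1037))))))))))))))))
(cons (mv 845 (cons (fin 909 7 845)
(mv 781 (cons (fin 846 7 781)
(mv 1167 (cons (fin 1103 4 910)
(mv 1166 (cons (fin 1231 4 974)
(mv 1229 (cons (fin 1165 5 973)
(mv 1230 (cons (fin 973 7 973)
(fin 1293 5 1037)))))))))))))
(cons (mv 845 (cons (fin 909 7 845)
(mv 846 (cons (fin 781 7 781)
(mv 847 (cons (fin 783 6 782)
(fin 911 6 846)))))))
(mv 845 (cons (fin 909 7 845)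
(mv 847 (cons (fin 911 6 846)
(mv 1167 (cons (fin 1103 4 910)
(mv 1166 (cons (fin 1231 4 974)
(mv 1229 (cons (fin 1165 5 973)
(mv 1230 (cons (fin 973 7 973)
(fin 1293 5 1037)))))))))))))))))
(cons (mv 846 (cons (fin 1101 5 845)
(mv 781 (cons (fin 845 7 781)
(mv 782 (cons (fin 717 7 717)
(mv 783 (cons (fin 719 6 718)
(fin 847 6 782)))))))))
(mv 846 (cons (fin 1101 5 845)
(mv 782 (cons (fin 973 5 781)
(mv 783 (cons (fin 719 6 718)
(fin 847 6 782))))))))))))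
(cons (mv 1101 (cons (cons (mv 910 (cons (fin 846 5 845)
(mv 1165 (cons (fin 1102 5 909)
(fin 973 6 909)))))
(mv 1165 (cons (fin 1229 6 973)
(mv 973 (cons (cons (mv 908 (cons (fin 972 7 908)
(mv 909 (cons (fin 975 3 908)
(fin 844 7 844)))))
(mv 908 (cons (fin 972 7 908)
(mv 909 (cons (fin 844 7 844)
(mv 845 (cons (fin 781 4 781)
(fin 1102 4 845))))))))
(cons (mv 975 (cons (fin 1036 1 972)
(mv 912 (cons (fin 913 2 909)
(mv 911 (cons (fin 972 2 908)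
(mv 1166 (cons (fin 1102 6 910)
(fin 1230 4 973)))))))))
(mv 975 (cons (fin 1036 1 972)
(mv 908 (cons (fin 909 3 908)
(mv 912 (cons (fin 913 2 909)
(mv 1166 (cons (fin 1230 4 973)
(mv 1102 (cons (fin 911 6 910)
(mv 1167 (cons (fin 1231 4 974)
(mv 1100 (cons (fin 1168 3 1100)
(fin 1099 0 1099)))))))))))))))))))))
(cons (mv 910 (cons (fin 846 5 845)
(mv 1102 (cons (cons (mv 845 (cons (fin 909 7 845)
(mv 847 (cons (fin 911 6 846)
(mv 1167 (cons (fin 1103 4 910)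
(mv 1166 (cons (fin 1231 4 974)
(mv 1230 (cons (fin 973 7 973)
(fin 1294 7 1037)))))))))))
(cons (mv 847 (cons (fin 911 6 846)
(mv 1167 (cons (fin 1103 4 910)
(mv 1166 (cons (fin 1231 4 974)
(mv 1230 (cons (fin 973 7 973)
(fin 1294 7 1037)))))))))
(mv 845 (cons (fin 909 7 845)
(mv 1167 (cons (fin 1103 4 910)
(mv 1166 (cons (fin 1231 4 974)
(mv 1230 (cons (fin 973 7 973)
(fin 1294 7 1037)))))))))))
(cons (mv 845 (cons (fin 909 7 845)
(mv 911 (cons (fin 847 6 846)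
(mv 975 (cons (fin 1166 6 910)
(mv 1036 (cons (fin 973 1 972)
(fin 1035 2 971)))))))))
(cons (mv 847 (cons (fin 911 6 846)
(mv 909 (cons (fin 845 7 845)
(mv 1103 (cons (fin 1167 4 910)
(mv 1036 (cons (fin 1035 0 1035)
(mv 973 (cons (fin 975 1 972)
(mv 908 (cons (fin 844 7 844)
(mv 907 (cons (fin 906 0 906)
(mv 843 (cons (fin 842 3 842)
(mv 971 (cons (fin 970 1 906)
(mv 972 (cons (fin 1100 7 843)
(fin 779 4 779)))))))))))))))))))))
(mv 845 (cons (fin 909 7 845)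
(mv 911 (cons (fin 847 6 846)
(mv 1166 (cons (fin 975 6 910)
(mv 1167 (cons (fin 1103 4 910)
(fin 1231 4 974)))))))))))))))
(cons (mv 910 (cons (fin 846 5 845)
(mv 1165 (cons (fin 1102 5 909)
(fin 1229 6 973)))))
(mv 910 (cons (fin 846 5 845)
(mv 1165 (cons (fin 973 6 909)
(fin 1229 6 973)))))))))
(mv 975 (cons (fin 977 1 973)
(mv 1035 (cons (fin 1036 2 971)
(mv 910 (cons (cons (mv 846 (cons (fin 1101 5 845)
(mv 781 (cons (fin 845 7 781)
(mv 782 (cons (fin 717 7 717)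
(mv 783 (cons (fin 719 6 718)
(fin 847 6 782)))))))))
(mv 1102 (cons (mv 911 (cons (fin 847 6 846)
(fin 1166 6 910)))
(cons (mv 845 (cons (fin 909 7 845)
(mv 1165 (cons (fin 1101 5 909)
(mv 1166 (cons (fin 1229 5 973)
(mv 1167 (cons (fin 1103 4 910)
(fin 1231 4 974)))))))))
(mv 909 (cons (fin 845 7 845)
(mv 908 (cons (fin 907 0 907)
(fin 911 0 908)))))))))
(cons (mv 909 (cons (mv 908 (cons (fin 907 0 907)
(fin 911 0 908)))
(mv 845 (cons (fin 1102 7 845)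
(mv 781 (cons (fin 846 7 781)
(fin 717 4 717)))))))
(mv 846 (cons (fin 1101 5 845)
(mv 783 (cons (fin 847 6 782)
(mv 782 (cons (fin 719 6 718)
(mv 717 (cons (fin 781 7 717)
(mv 718 (cons (fin 653 7 653)
(fin 911 4 718)))))))))))))))))))))
(mv 1039 (cons (cons (mv 972 (cons (fin 973 3 972)
(mv 1036 (cons (fin 971 3 971)
(fin 975 2 972)))))
(mv 973 (cons (fin 972 3 972)
(mv 1101 (cons (fin 1100 1 1036)
(mv 909 (cons (mv 1102 (cons (fin 845 4 845)
(fin 1166 4 909)))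
(cons (mv 844 (cons (fin 908 7 844)
(mv 845 (cons (fin 780 7 780)
(mv 846 (cons (fin 782 6 781)
(fin 910 6 845)))))))
(mv 844 (cons (fin 908 7 844)
(mv 846 (cons (fin 910 6 845)
(mv 1166 (cons (fin 1102 4 909)
(mv 1165 (cons (fin 1230 4 973)
(mv 1229 (cons (fin 974 6 973)
(mv 1228 (cons (fin 1292 5 1036)
(mv 1167 (cons (fin 1168 1 1164)
(mv 1103 (cons (fin 1231 6 975)
(mv 912 (cons (fin 848 5 847)
(fin 975 6 911)))))))))))))))))))))))))))
(cons (mv 1036 (cons (fin 975 2 972)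
(mv 1100 (cons (fin 1099 1 1035)
(fin 1101 1 1036)))))
(mv 972 (cons (fin 973 3 972)
(mv 1036 (cons (fin 971 3 971)
(mv 1100 (cons (fin 1099 1 1035)
(fin 1101 1 1036))))))))))))
(cons (mv 1039 (cons (fin 977 2 973)
(mv 972 (cons (fin 973 3 972)
(mv 1036 (cons (fin 971 3 971)
(mv 1100 (cons (fin 1099 1 1035)
(fin 1101 1 1036)))))))))
(cons (mv 1039 (cons (fin 977 2 973)
(mv 973 (cons (fin 972 3 972)
(mv 1101 (cons (fin 1100 1 1036)
(mv 909 (cons (mv 1102 (cons (fin 845 4 845)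
(fin 1166 4 909)))
(cons (mv 844 (cons (fin 908 7 844)
(mv 845 (cons (fin 780 7 780)
(mv 846 (cons (fin 782 6 781)
(fin 910 6 845)))))))
(mv 844 (cons (fin 908 7 844)
(mv 846 (cons (fin 910 6 845)
(mv 1166 (cons (fin 1102 4 909)
(mv 1165 (cons (fin 1230 4 973)
(mv 1229 (cons (fin 974 6 973)
(mv 1228 (cons (fin 1292 5 1036)
(mv 1167 (cons (fin 1168 1 1164)
(mv 1103 (cons (fin 1231 6 975)
(mv 912 (cons (fin 848 5 847)
(fin 975 6 911))))))))))))))))))))))))))))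
(mv 1039 (cons (fin 977 2 973)
(mv 1036 (cons (fin 975 2 972)
(mv 1100 (cons (fin 1099 1 1035)
(fin 1101 1 1036)))))))))))
(mv 1038 (cons (cons (mv 1039 (cons (fin 977 2 973)
(mv 972 (cons (fin 973 3 972)
(mv 1036 (cons (fin 971 3 971)
(fin 975 2 972)))))))
(cons (mv 974 (cons (cons (mv 975 (cons (fin 977 1 973)
(mv 1036 (cons (fin 973 1 972)
(fin 1035 2 971)))))
(mv 910 (cons (cons (mv 846 (cons (fin 1101 5 845)
(mv 781 (cons (fin 845 7 781)
(mv 782 (cons (fin 717 7 717)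
(fin 973 5 781)))))))
(mv 1102 (cons (cons (mv 845 (cons (fin 909 7 845)
(mv 847 (cons (fin 911 6 846)
(mv 1101 (cons (fin 1165 5 909)
(mv 1103 (cons (fin 1167 4 910)
(mv 1036 (cons (fin 1104 3 1036)
(fin 1035 0 1035)))))))))))
(cons (mv 845 (cons (fin 909 7 845)
(mv 847 (cons (fin 911 6 846)
(mv 1103 (cons (fin 1167 4 910)
(mv 1036 (cons (fin 1035 0 1035)
(mv 1104 (cons (fin 1101 3 1036)
(fin 1105 3 1037)))))))))))
(mv 845 (cons (fin 909 7 845)
(mv 847 (cons (fin 911 6 846)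
(mv 1167 (cons (fin 1103 4 910)
(mv 1166 (cons (fin 1231 4 974)
(mv 1229 (cons (fin 1165 5 973)
(mv 1230 (cons (fin 973 7 973)
(fin 1293 5 1037)))))))))))))))
(cons (cons (mv 847 (cons (fin 911 6 846)
(mv 1101 (cons (fin 1165 5 909)
(mv 1103 (cons (fin 1167 4 910)
(mv 1036 (cons (fin 1104 3 1036)
(fin 1035 0 1035)))))))))
(mv 845 (cons (fin 909 7 845)
(mv 847 (cons (fin 911 6 846)
(mv 1165 (cons (fin 1101 5 909)
(mv 1166 (cons (fin 1229 5 973)
(mv 1230 (cons (fin 973 7 973)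
(mv 1231 (cons (fin 1167 4 974)
(fin 1295 4 1038))))))))))))))
(cons (mv 847 (cons (fin 911 6 846)
(mv 909 (cons (fin 845 7 845)
(mv 1165 (cons (fin 1101 5 909)
(mv 1166 (cons (fin 973 7 909)
(fin 1229 5 973)))))))))
(mv 845 (cons (fin 909 7 845)
(mv 1101 (cons (fin 1165 5 909)
(mv 1103 (cons (fin 1167 4 910)
(mv 1036 (cons (fin 1104 3 1036)
(fin 1035 0 1035))))))))))))))
(cons (mv 1102 (cons (cons (mv 845 (cons (fin 909 7 845)
(mv 781 (cons (fin 846 7 781)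
(mv 847 (cons (fin 911 6 846)
(mv 1167 (cons (fin 1103 4 910)
(mv 1166 (cons (fin 1231 4 974)
(mv 1229 (cons (fin 1165 5 973)
(mv 1230 (cons (fin 973 7 973)
(fin 1293 5 1037)))))))))))))))
(mv 847 (cons (fin 911 6 846)
(mv 783 (cons (fin 846 6 782)
(mv 1167 (cons (fin 1103 4 910)
(mv 1166 (cons (fin 1231 4 974)
(mv 1229 (cons (fin 1165 5 973)
(mv 1230 (cons (fin 973 7 973)
(fin 1293 5 1037))))))))))))))
(cons (mv 845 (cons (fin 909 7 845)
(mv 846 (cons (fin 781 7 781)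
(mv 847 (cons (fin 783 6 782)
(fin 911 6 846)))))))
(cons (mv 845 (cons (fin 909 7 845)
(mv 781 (cons (fin 846 7 781)
(mv 1167 (cons (fin 1103 4 910)
(mv 1166 (cons (fin 1231 4 974)
(mv 1229 (cons (fin 1165 5 973)
(mv 1230 (cons (fin 973 7 973)
(fin 1293 5 1037)))))))))))))
(mv 845 (cons (fin 909 7 845)
(mv 847 (cons (fin 911 6 846)
(mv 1167 (cons (fin 1103 4 910)
(mv 1166 (cons (fin 1231 4 974)
(mv 1229 (cons (fin 1165 5 973)
(mv 1230 (cons (fin 973 7 973)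
(fin 1293 5 1037)))))))))))))))))
(cons (mv 846 (cons (fin 1101 5 845)
(mv 781 (cons (fin 845 7 781)
(mv 782 (cons (fin 717 7 717)
(mv 783 (cons (fin 719 6 718)
(fin 847 6 782)))))))))
(mv 846 (cons (fin 1101 5 845)
(mv 782 (cons (fin 973 5 781)
(mv 783 (cons (fin 719 6 718)
(fin 847 6 782))))))))))))
(cons (mv 975 (cons (fin 977 1 973)
(mv 1101 (cons (cons (mv 910 (cons (fin 846 5 845)
(mv 1165 (cons (fin 1102 5 909)
(fin 973 6 909)))))
(mv 1165 (cons (fin 1229 6 973)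
(mv 973 (cons (mv 908 (cons (fin 909 3 908)
(fin 972 7 908)))
(cons (mv 1166 (cons (fin 1230 4 973)
(mv 1102 (cons (fin 909 7 909)
(fin 911 6 910)))))
(mv 908 (cons (fin 972 7 908)
(mv 1166 (cons (fin 1230 4 973)
(mv 1102 (cons (fin 911 6 910)
(mv 1167 (cons (fin 1231 4 974)
(mv 1100 (cons (fin 1168 3 1100)
(fin 1099 0 1099)))))))))))))))))
(cons (mv 910 (cons (fin 846 5 845)
(mv 1102 (cons (mv 911 (cons (fin 847 6 846)
(fin 1166 6 910)))
(cons (mv 845 (cons (fin 909 7 845)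
(mv 1167 (cons (fin 1103 4 910)
(mv 1166 (cons (fin 1231 4 974)
(mv 1230 (cons (fin 973 7 973)
(fin 1294 7 1037)))))))))
(mv 845 (cons (fin 909 7 845)
(mv 911 (cons (fin 847 6 846)
(mv 1103 (cons (fin 1167 4 910)
(mv 1104 (cons (fin 1105 3 1037)
(fin 1168 7 911))))))))))))))
(cons (mv 910 (cons (fin 846 5 845)
(mv 1165 (cons (fin 973 6 909)
(fin 1229 6 973)))))
(mv 910 (cons (fin 846 5 845)
(mv 1165 (cons (fin 1102 5 909)
(fin 1229 6 973)))))))))))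
(mv 975 (cons (fin 977 1 973)
(mv 1035 (cons (fin 1036 2 971)
(mv 910 (cons (cons (mv 846 (cons (fin 1101 5 845)
(mv 781 (cons (fin 845 7 781)
(mv 782 (cons (fin 717 7 717)
(mv 783 (cons (fin 719 6 718)
(fin 847 6 782)))))))))
(mv 1102 (cons (mv 911 (cons (fin 847 6 846)
(fin 1166 6 910)))
(cons (mv 845 (cons (fin 909 7 845)
(mv 1165 (cons (fin 1101 5 909)
(mv 1166 (cons (fin 1229 5 973)
(mv 1167 (cons (fin 1103 4 910)
(fin 1231 4 974)))))))))
(mv 845 (cons (fin 909 7 845)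
(mv 911 (cons (fin 847 6 846)
(mv 1101 (cons (fin 1165 5 909)
(mv 1103 (cons (fin 1167 4 910)
(mv 1104 (cons (fin 1105 3 1037)
(fin 1168 7 911)))))))))))))))
(cons (mv 909 (cons (mv 908 (cons (fin 907 0 907)
(fin 911 0 908)))
(mv 845 (cons (fin 1102 7 845)
(mv 781 (cons (fin 846 7 781)
(fin 717 4 717)))))))
(mv 846 (cons (fin 1101 5 845)
(mv 783 (cons (fin 847 6 782)
(mv 782 (cons (fin 719 6 718)
(mv 717 (cons (fin 781 7 717)
(mv 718 (cons (fin 653 7 653)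
(fin 911 4 718)))))))))))))))))))))
(mv 1039 (cons (cons (mv 972 (cons (fin 973 3 972)
(mv 1036 (cons (fin 971 3 971)
(fin 975 2 972)))))
(mv 972 (cons (fin 973 3 972)
(mv 1101 (cons (fin 1100 1 1036)
(mv 1104 (cons (fin 1105 0 1037)
(mv 1168 (cons (mv 975 (cons (fin 911 7 911)
(fin 1232 7 975)))
(mv 1167 (cons (fin 1231 5 975)
(mv 1169 (cons (fin 1233 4 976)
(mv 1102 (cons (fin 1166 3 1101)
(fin 1103 0 1101))))))))))))))))
(cons (mv 975 (cons (fin 1036 2 972)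
(mv 1100 (cons (fin 1101 1 1036)
(mv 1104 (cons (fin 1105 0 1037)
(mv 911 (cons (fin 1168 7 911)
(fin 847 4 847)))))))))
(mv 972 (cons (fin 973 3 972)
(mv 1036 (cons (fin 971 3 971)
(mv 1100 (cons (fin 1099 1 1035)
(fin 1101 1 1036))))))))))))
(cons (mv 1039 (cons (fin 977 2 973)
(mv 972 (cons (fin 973 3 972)
(mv 1036 (cons (fin 971 3 971)
(mv 1100 (cons (fin 1099 1 1035)
(fin 1101 1 1036)))))))))
(cons (mv 1039 (cons (fin 977 2 973)
(mv 972 (cons (fin 973 3 972)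
(mv 1101 (cons (fin 1100 1 1036)
(mv 1104 (cons (fin 1105 0 1037)
(mv 1168 (cons (mv 975 (cons (fin 911 7 911)
(fin 1232 7 975)))
(mv 1167 (cons (fin 1231 5 975)
(mv 1169 (cons (fin 1233 4 976)
(mv 1102 (cons (fin 1166 3 1101)
(fin 1103 0 1101)))))))))))))))))
(mv 1039 (cons (fin 977 2 973)
(mv 975 (cons (fin 1036 2 972)
(mv 1100 (cons (fin 1101 1 1036)
(mv 1104 (cons (fin 1105 0 1037)
(mv 911 (cons (fin 1168 7 911)
(fin 847 4 847))))))))))))))))))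
(cons (cons (mv 1039 (cons (mv 1038 (cons (fin 977 2 973)
(mv 972 (cons (fin 973 3 972)
(mv 1036 (cons (fin 971 3 971)
(mv 1100 (cons (fin 1099 1 1035)
(fin 1101 1 1036)))))))))
(cons (mv 912 (cons (cons (mv 848 (cons (fin 1103 5 847)
(mv 783 (cons (fin 847 7 783)
(mv 784 (cons (fin 719 7 719)
(mv 785 (cons (fin 721 6 720)
(fin 849 6 784)))))))))
(mv 1104 (cons (cons (mv 847 (cons (fin 911 7 847)
(mv 849 (cons (fin 913 6 848)
(mv 1167 (cons (fin 1103 5 911)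
(mv 1168 (cons (fin 1231 5 975)
(mv 1169 (cons (fin 1105 4 912)
(fin 1233 4 976)))))))))))
(cons (mv 847 (cons (fin 911 7 847)
(mv 913 (cons (fin 849 6 848)
(mv 1168 (cons (fin 977 6 912)
(mv 1169 (cons (fin 1105 4 912)
(fin 1233 4 976)))))))))
(mv 847 (cons (fin 911 7 847)
(mv 1167 (cons (fin 1103 5 911)
(mv 1168 (cons (fin 1231 5 975)
(mv 1169 (cons (fin 1105 4 912)
(fin 1233 4 976)))))))))))
(cons (cons (mv 847 (cons (fin 911 7 847)
(mv 913 (cons (fin 849 6 848)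
(mv 1103 (cons (fin 1167 5 911)
(mv 1168 (cons (fin 977 6 912)
(mv 1232 (cons (fin 1296 7 1039)
(mv 1233 (cons (fin 1169 4 976)
(fin 1297 4 1040)))))))))))))
(mv 847 (cons (fin 911 7 847)
(mv 913 (cons (fin 849 6 848)
(mv 1167 (cons (fin 1103 5 911)
(mv 1168 (cons (fin 1231 5 975)
(fin 977 6 912))))))))))
(cons (mv 849 (cons (fin 913 6 848)
(mv 1167 (cons (fin 1103 5 911)
(mv 1168 (cons (fin 1231 5 975)
(mv 1169 (cons (fin 1105 4 912)
(fin 1233 4 976)))))))))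
(mv 911 (cons (fin 847 7 847)
(mv 913 (cons (fin 849 6 848)
(mv 1103 (cons (fin 1167 5 911)
(mv 1105 (cons (fin 1169 4 912)
(mv 1106 (cons (fin 1107 3 1039)
(mv 1042 (cons (fin 1043 2 1039)
(mv 1170 (cons (fin 1171 0 1103)
(mv 978 (cons (fin 977 7 913)
(mv 979 (cons (fin 914 0 911)
(fin 915 6 914))))))))))))))))))))))))
(cons (mv 847 (cons (cons (mv 783 (cons (fin 848 7 783)
(mv 911 (cons (fin 1104 7 847)
(fin 719 4 719)))))
(mv 848 (cons (fin 783 7 783)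
(mv 849 (cons (fin 785 6 784)
(mv 846 (cons (cons (mv 913 (cons (fin 845 0 845)
(fin 914 0 846)))
(mv 781 (cons (fin 782 3 781)
(mv 780 (cons (fin 845 3 780)
(mv 910 (cons (fin 909 1 845)
(mv 850 (cons (fin 911 1 846)
(mv 787 (cons (fin 786 2 783)
(mv 851 (cons (fin 788 2 784)
(mv 915 (cons (fin 914 0 847)
(fin 916 0 848))))))))))))))))
(cons (mv 781 (cons (fin 782 3 781)
(mv 909 (cons (fin 910 1 845)
(mv 914 (cons (fin 913 0 846)
(mv 850 (cons (fin 915 0 847)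
(mv 787 (cons (fin 786 2 783)
(mv 851 (cons (fin 911 1 847)
(fin 788 2 784)))))))))))))
(mv 781 (cons (fin 782 3 781)
(mv 845 (cons (fin 780 3 780)
(fin 913 0 845)))))))))))))
(cons (mv 1104 (cons (fin 911 7 847)
(mv 913 (cons (fin 849 6 848)
(mv 1168 (cons (fin 977 6 912)
(mv 1169 (cons (fin 1105 4 912)
(fin 1233 4 976)))))))))
(mv 848 (cons (fin 783 7 783)
(mv 849 (cons (fin 785 6 784)
(mv 913 (cons (fin 1104 6 848)
(mv 846 (cons (fin 845 0 845)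
(fin 914 0 846))))))))))))
(mv 1103 (cons (fin 848 5 847)
(mv 1167 (cons (fin 1104 5 911)
(fin 1231 6 975))))))))
(mv 1038 (cons (cons (mv 972 (cons (fin 973 3 972)
(mv 1036 (cons (fin 971 3 971)
(mv 1100 (cons (fin 1099 1 1035)
(fin 1101 1 1036)))))))
(mv 972 (cons (fin 973 3 972)
(mv 1036 (cons (fin 971 3 971)
(mv 1104 (cons (fin 1103 0 1036)
(fin 1105 0 1037))))))))
(cons (mv 1100 (cons (fin 1101 1 1036)
(mv 1036 (cons (fin 1099 1 1035)
(mv 1104 (cons (fin 1103 0 1036)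
(fin 1105 0 1037)))))))
(mv 972 (cons (fin 973 3 972)
(mv 1100 (cons (fin 1101 1 1036)
(mv 1104 (cons (fin 1105 0 1037)
(mv 912 (cons (mv 1103 (cons (fin 848 5 847)
(fin 1167 5 911)))
(cons (mv 847 (cons (fin 911 7 847)
(mv 848 (cons (fin 783 7 783)
(mv 849 (cons (fin 785 6 784)
(fin 913 6 848)))))))
(mv 847 (cons (fin 911 7 847)
(mv 849 (cons (fin 913 6 848)
(mv 1168 (cons (cons (mv 1167 (cons (fin 1103 5 911)
(fin 1231 5 975)))
(mv 1233 (cons (fin 1169 4 976)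
(mv 1232 (cons (fin 1297 4 1040)
(mv 1295 (cons (fin 1231 5 1039)
(mv 1296 (cons (fin 1103 7 1039)
(fin 1359 5 1103))))))))))
(cons (mv 1231 (cons (fin 1167 5 975)
(mv 1232 (cons (fin 1295 5 1039)
(mv 1233 (cons (fin 1169 4 976)
(fin 1297 4 1040)))))))
(mv 1103 (cons (fin 1167 5 911)
(mv 1232 (cons (fin 1296 7 1039)
(mv 1233 (cons (fin 1169 4 976)
(fin 1297 4 1040)))))))))))))))))))))))))))))
(cons (mv 1039 (cons (cons (mv 1038 (cons (fin 977 2 973)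
(mv 972 (cons (fin 973 3 972)
(mv 1036 (cons (fin 971 3 971)
(fin 975 2 972)))))))
(cons (mv 1103 (cons (cons (mv 912 (cons (fin 848 5 847)
(mv 1167 (cons (fin 1104 5 911)
(fin 975 6 911)))))
(mv 1167 (cons (fin 1231 6 975)
(mv 975 (cons (mv 910 (cons (fin 974 7 910)
(mv 911 (cons (fin 846 7 846)
(mv 847 (cons (fin 783 4 783)
(fin 1104 4 847)))))))
(cons (mv 1166 (cons (fin 1230 5 974)
(mv 911 (cons (fin 1102 5 910)
(mv 847 (cons (fin 783 4 783)
(fin 1104 4 847)))))))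
(mv 974 (cons (fin 910 7 910)
(mv 973 (cons (fin 1036 1 972)
(fin 972 0 972)))))))))))
(cons (mv 912 (cons (fin 848 5 847)
(mv 1104 (cons (cons (mv 847 (cons (fin 911 7 847)
(mv 913 (cons (fin 849 6 848)
(mv 1105 (cons (fin 1169 4 912)
(mv 1106 (cons (fin 1107 3 1039)
(mv 1042 (cons (fin 1043 2 1039)
(mv 1170 (cons (fin 1171 0 1103)
(mv 978 (cons (fin 977 7 913)
(mv 915 (cons (fin 979 6 914)
(mv 914 (cons (fin 975 1 911)
(fin 851 6 850)))))))))))))))))))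
(mv 913 (cons (fin 849 6 848)
(mv 1105 (cons (fin 1169 4 912)
(mv 1106 (cons (fin 1107 3 1039)
(mv 1042 (cons (fin 1043 2 1039)
(mv 1170 (cons (fin 1171 0 1103)
(mv 978 (cons (fin 977 7 913)
(mv 915 (cons (fin 979 6 914)
(mv 914 (cons (fin 975 1 911)
(fin 851 6 850))))))))))))))))))
(cons (mv 849 (cons (fin 913 6 848)
(mv 911 (cons (fin 847 7 847)
(mv 1102 (cons (mv 1101 (cons (fin 1036 3 1036)
(fin 1100 2 1036)))
(mv 975 (cons (fin 1166 5 910)
(mv 910 (cons (fin 846 7 846)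
(mv 909 (cons (fin 908 0 908)
(fin 977 0 909)))))))))))))
(cons (mv 911 (cons (fin 847 7 847)
(mv 1105 (cons (fin 1169 4 912)
(mv 1106 (cons (fin 1107 3 1039)
(mv 1042 (cons (fin 1043 2 1039)
(mv 1170 (cons (fin 1171 0 1103)
(mv 1102 (cons (mv 1101 (cons (fin 1036 3 1036)
(fin 1100 2 1036)))
(mv 1166 (cons (fin 1165 1 1101)
(fin 975 5 910)))))))))))))))
(mv 911 (cons (fin 847 7 847)
(mv 913 (cons (fin 849 6 848)
(mv 1105 (cons (fin 1169 4 912)
(mv 1106 (cons (fin 1107 3 1039)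
(mv 1042 (cons (fin 1043 2 1039)
(mv 1170 (cons (fin 1171 0 1103)
(mv 978 (cons (fin 977 7 913)
(mv 979 (cons (fin 914 0 911)
(fin 915 6 914)))))))))))))))))))))))
(cons (mv 912 (cons (fin 848 5 847)
(mv 1167 (cons (fin 1104 5 911)
(fin 1231 6 975)))))
(mv 912 (cons (fin 848 5 847)
(mv 1167 (cons (fin 975 6 911)
(fin 1231 6 975)))))))))
(mv 1038 (cons (cons (mv 972 (cons (fin 973 3 972)
(mv 1036 (cons (fin 971 3 971)
(fin 975 2 972)))))
(mv 973 (cons (fin 972 3 972)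
(mv 1100 (cons (fin 1101 1 1036)
(mv 1104 (cons (fin 1105 0 1037)
(mv 912 (cons (mv 1103 (cons (fin 848 5 847)
(fin 1167 5 911)))
(cons (mv 847 (cons (fin 911 7 847)
(mv 848 (cons (fin 783 7 783)
(mv 849 (cons (fin 785 6 784)
(fin 913 6 848)))))))
(mv 911 (cons (fin 847 7 847)
(mv 913 (cons (fin 849 6 848)
(mv 974 (cons (fin 910 1 909)
(fin 975 2 909)))))))))))))))))
(cons (mv 1036 (cons (fin 975 2 972)
(mv 1100 (cons (fin 1099 1 1035)
(fin 1101 1 1036)))))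
(mv 972 (cons (fin 973 3 972)
(mv 1036 (cons (fin 971 3 971)
(mv 1100 (cons (fin 1099 1 1035)
(fin 1101 1 1036))))))))))))
(cons (mv 1038 (cons (fin 977 2 973)
(mv 972 (cons (fin 973 3 972)
(mv 1036 (cons (fin 971 3 971)
(mv 1100 (cons (fin 1099 1 1035)
(fin 1101 1 1036)))))))))
(cons (mv 1038 (cons (fin 977 2 973)
(mv 973 (cons (fin 972 3 972)
(mv 1100 (cons (fin 1101 1 1036)
(mv 1104 (cons (fin 1105 0 1037)
(mv 912 (cons (mv 1103 (cons (fin 848 5 847)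
(fin 1167 5 911)))
(cons (mv 847 (cons (fin 911 7 847)
(mv 848 (cons (fin 783 7 783)
(mv 849 (cons (fin 785 6 784)
(fin 913 6 848)))))))
(mv 911 (cons (fin 847 7 847)
(mv 913 (cons (fin 849 6 848)
(mv 974 (cons (fin 910 1 909)
(fin 975 2 909))))))))))))))))))
(mv 1038 (cons (fin 977 2 973)
(mv 1036 (cons (fin 975 2 972)
(mv 1100 (cons (fin 1099 1 1035)
(fin 1101 1 1036)))))))))))
(mv 1038 (cons (cons (mv 1039 (cons (fin 977 2 973)
(mv 972 (cons (fin 973 3 972)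
(mv 1036 (cons (fin 971 3 971)
(fin 975 2 972)))))))
(cons (mv 974 (cons (cons (mv 975 (cons (fin 977 1 973)
(mv 1036 (cons (fin 973 1 972)
(fin 1035 2 971)))))
(mv 910 (cons (cons (mv 846 (cons (fin 1101 5 845)
(mv 781 (cons (fin 845 7 781)
(mv 782 (cons (fin 717 7 717)
(fin 973 5 781)))))))
(mv 1102 (cons (cons (mv 845 (cons (fin 909 7 845)
(mv 847 (cons (fin 911 6 846)
(mv 1165 (cons (fin 1101 5 909)
(mv 1166 (cons (fin 1229 5 973)
(mv 1230 (cons (fin 973 7 973)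
(mv 1231 (cons (fin 1167 4 974)
(fin 1295 4 1038)))))))))))))
(cons (mv 847 (cons (fin 911 6 846)
(mv 909 (cons (fin 845 7 845)
(mv 1166 (cons (fin 973 7 909)
(mv 1231 (cons (fin 1167 4 974)
(mv 1230 (cons (fin 1295 4 1038)
(mv 1293 (cons (fin 1229 5 1037)
(mv 1294 (cons (fin 1101 7 1037)
(fin 1357 5 1101)))))))))))))))
(mv 847 (cons (fin 911 6 846)
(mv 909 (cons (fin 845 7 845)
(mv 1166 (cons (fin 973 7 909)
(mv 1229 (cons (fin 1165 5 973)
(mv 1230 (cons (fin 1293 5 1037)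
(mv 1231 (cons (fin 1167 4 974)
(fin 1295 4 1038)))))))))))))))
(cons (mv 847 (cons (fin 911 6 846)
(mv 1165 (cons (fin 1101 5 909)
(mv 1166 (cons (fin 1229 5 973)
(mv 1230 (cons (fin 973 7 973)
(mv 1231 (cons (fin 1167 4 974)
(fin 1295 4 1038)))))))))))
(cons (mv 845 (cons (fin 909 7 845)
(mv 1165 (cons (fin 1101 5 909)
(mv 1166 (cons (fin 1229 5 973)
(mv 1230 (cons (fin 973 7 973)
(mv 1231 (cons (fin 1167 4 974)
(fin 1295 4 1038)))))))))))
(mv 909 (cons (fin 845 7 845)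
(mv 911 (cons (fin 847 6 846)
(mv 912 (cons (fin 977 0 909)
(mv 849 (cons (fin 848 2 845)
(mv 913 (cons (fin 850 2 846)
(fin 1104 6 848))))))))))))))))
(cons (mv 846 (cons (cons (mv 781 (cons (fin 845 7 781)
(mv 782 (cons (fin 717 7 717)
(fin 973 5 781)))))
(mv 781 (cons (fin 845 7 781)
(mv 847 (cons (fin 783 6 782)
(mv 911 (cons (fin 1102 6 846)
(mv 912 (cons (fin 1104 7 847)
(mv 913 (cons (fin 914 3 846)
(fin 973 1 909))))))))))))
(cons (mv 782 (cons (fin 973 5 781)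
(mv 783 (cons (fin 719 6 718)
(fin 847 6 782)))))
(mv 781 (cons (fin 845 7 781)
(mv 717 (cons (fin 782 7 717)
(mv 847 (cons (fin 783 6 782)
(mv 911 (cons (fin 1102 6 846)
(mv 912 (cons (fin 1104 7 847)
(mv 909 (cons (fin 977 0 909)
(mv 848 (cons (fin 849 1 845)
(fin 908 2 844))))))))))))))))))
(cons (mv 846 (cons (fin 1101 5 845)
(mv 781 (cons (fin 845 7 781)
(mv 717 (cons (fin 782 7 717)
(mv 847 (cons (fin 783 6 782)
(mv 911 (cons (fin 1102 6 846)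
(mv 912 (cons (fin 1104 7 847)
(mv 909 (cons (fin 977 0 909)
(mv 848 (cons (fin 849 1 845)
(fin 908 2 844)))))))))))))))))
(mv 846 (cons (fin 1101 5 845)
(mv 782 (cons (fin 973 5 781)
(mv 783 (cons (fin 719 6 718)
(fin 847 6 782))))))))))))
(cons (mv 1101 (cons (cons (mv 910 (cons (fin 846 5 845)
(mv 1165 (cons (fin 1102 5 909)
(fin 973 6 909)))))
(mv 910 (cons (fin 846 5 845)
(mv 1102 (cons (cons (mv 845 (cons (fin 909 7 845)
(mv 911 (cons (fin 847 6 846)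
(mv 975 (cons (fin 1166 6 910)
(mv 1036 (cons (fin 973 1 972)
(fin 1035 2 971)))))))))
(cons (mv 911 (cons (fin 847 6 846)
(mv 975 (cons (fin 1166 6 910)
(mv 1036 (cons (fin 973 1 972)
(fin 1035 2 971)))))))
(mv 909 (cons (fin 845 7 845)
(mv 973 (cons (fin 1166 7 909)
(mv 908 (cons (fin 975 3 908)
(fin 844 7 844)))))))))
(cons (mv 909 (cons (fin 845 7 845)
(mv 911 (cons (fin 847 6 846)
(mv 908 (cons (fin 975 0 908)
(mv 844 (cons (fin 843 3 843)
(fin 973 7 844)))))))))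
(cons (mv 845 (cons (fin 909 7 845)
(mv 911 (cons (fin 847 6 846)
(mv 1166 (cons (fin 975 6 910)
(mv 1230 (cons (fin 1294 7 1037)
(mv 1231 (cons (fin 1167 4 974)
(fin 1295 4 1038)))))))))))
(mv 847 (cons (fin 911 6 846)
(mv 909 (cons (fin 845 7 845)
(mv 1166 (cons (fin 973 7 909)
(mv 1230 (cons (fin 1294 7 1037)
(mv 1231 (cons (fin 1167 4 974)
(fin 1295 4 1038))))))))))))))))))
(cons (mv 1165 (cons (fin 1229 6 973)
(mv 973 (cons (cons (mv 908 (cons (fin 972 7 908)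
(mv 909 (cons (fin 975 3 908)
(fin 844 7 844)))))
(mv 908 (cons (fin 972 7 908)
(mv 909 (cons (fin 844 7 844)
(mv 845 (cons (fin 781 4 781)
(fin 1102 4 845))))))))
(cons (mv 975 (cons (fin 1036 1 972)
(mv 912 (cons (fin 913 2 909)
(mv 911 (cons (fin 972 2 908)
(mv 847 (cons (fin 1104 7 847)
(fin 783 5 782)))))))))
(mv 975 (cons (fin 1036 1 972)
(mv 908 (cons (fin 909 3 908)
(mv 912 (cons (fin 913 2 909)
(mv 1166 (cons (fin 1230 4 973)
(mv 911 (cons (fin 1102 6 910)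
(mv 847 (cons (fin 1104 7 847)
(fin 783 5 782))))))))))))))))))
(cons (mv 910 (cons (fin 846 5 845)
(mv 1165 (cons (fin 1102 5 909)
(fin 1229 6 973)))))
(mv 910 (cons (fin 846 5 845)
(mv 1165 (cons (fin 973 6 909)
(fin 1229 6 973)))))))))
(mv 975 (cons (fin 977 1 973)
(mv 1035 (cons (fin 1036 2 971)
(mv 911 (cons (mv 847 (cons (fin 783 5 782)
(mv 1102 (cons (fin 910 6 846)
(fin 1166 6 910)))))
(cons (mv 1102 (cons (fin 1166 6 910)
(mv 1104 (cons (fin 1168 7 911)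
(mv 910 (cons (mv 909 (cons (fin 908 0 908)
(fin 845 7 845)))
(mv 1101 (cons (fin 846 5 845)
(fin 1165 5 909)))))))))
(mv 847 (cons (fin 783 5 782)
(mv 1104 (cons (fin 912 7 847)
(fin 1168 7 911)))))))))))))))
(mv 1039 (cons (cons (mv 972 (cons (fin 973 3 972)
(mv 1036 (cons (fin 971 3 971)
(fin 975 2 972)))))
(mv 972 (cons (fin 973 3 972)
(mv 1100 (cons (fin 1101 1 1036)
(mv 1104 (cons (fin 1105 0 1037)
(mv 1168 (cons (mv 975 (cons (fin 911 7 911)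
(fin 1232 7 975)))
(cons (mv 1231 (cons (fin 1167 5 975)
(mv 1232 (cons (fin 1295 5 1039)
(mv 1233 (cons (fin 1169 4 976)
(fin 1297 4 1040)))))))
(mv 1167 (cons (fin 1231 5 975)
(mv 1169 (cons (fin 1233 4 976)
(mv 912 (cons (cons (mv 911 (cons (fin 847 7 847)
(fin 975 7 911)))
(mv 849 (cons (fin 913 6 848)
(mv 848 (cons (fin 785 6 784)
(mv 783 (cons (fin 847 7 783)
(mv 784 (cons (fin 719 7 719)
(fin 975 5 783))))))))))
(cons (mv 847 (cons (fin 911 7 847)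
(mv 848 (cons (fin 783 7 783)
(mv 849 (cons (fin 785 6 784)
(fin 913 6 848)))))))
(mv 849 (cons (fin 913 6 848)
(mv 848 (cons (fin 785 6 784)
(mv 975 (cons (fin 911 7 911)
(fin 784 5 783))))))))))))))))))))))))
(cons (mv 975 (cons (fin 1036 2 972)
(mv 1100 (cons (fin 1101 1 1036)
(mv 1104 (cons (fin 1105 0 1037)
(mv 911 (cons (fin 1168 7 911)
(fin 847 4 847)))))))))
(mv 972 (cons (fin 973 3 972)
(mv 1036 (cons (fin 971 3 971)
(mv 1100 (cons (fin 1099 1 1035)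
(fin 1101 1 1036))))))))))))
(cons (mv 1039 (cons (fin 977 2 973)
(mv 972 (cons (fin 973 3 972)
(mv 1036 (cons (fin 971 3 971)
(mv 1100 (cons (fin 1099 1 1035)
(fin 1101 1 1036)))))))))
(cons (mv 1039 (cons (fin 977 2 973)
(mv 972 (cons (fin 973 3 972)
(mv 1100 (cons (fin 1101 1 1036)
(mv 1104 (cons (fin 1105 0 1037)
(mv 1168 (cons (mv 975 (cons (fin 911 7 911)
(fin 1232 7 975)))
(cons (mv 1231 (cons (fin 1167 5 975)
(mv 1232 (cons (fin 1295 5 1039)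
(mv 1233 (cons (fin 1169 4 976)
(fin 1297 4 1040)))))))
(mv 1167 (cons (fin 1231 5 975)
(mv 1169 (cons (fin 1233 4 976)
(mv 912 (cons (cons (mv 911 (cons (fin 847 7 847)
(fin 975 7 911)))
(mv 849 (cons (fin 913 6 848)
(mv 848 (cons (fin 785 6 784)
(mv 783 (cons (fin 847 7 783)
(mv 784 (cons (fin 719 7 719)
(fin 975 5 783))))))))))
(cons (mv 847 (cons (fin 911 7 847)
(mv 848 (cons (fin 783 7 783)
(mv 849 (cons (fin 785 6 784)
(fin 913 6 848)))))))
(mv 849 (cons (fin 913 6 848)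
(mv 848 (cons (fin 785 6 784)
(mv 975 (cons (fin 911 7 911)
(fin 784 5 783)))))))))))))))))))))))))
(mv 1039 (cons (fin 977 2 973)
(mv 975 (cons (fin 1036 2 972)
(mv 1100 (cons (fin 1101 1 1036)
(mv 1104 (cons (fin 1105 0 1037)
(mv 911 (cons (fin 1168 7 911)
(fin 847 4 847)))))))))))))))))
(cons (cons (mv 1039 (cons (cons (mv 1038 (cons (fin 977 2 973)
(mv 972 (cons (fin 973 3 972)
(mv 1036 (cons (fin 971 3 971)
(fin 975 2 972)))))))
(cons (mv 1103 (cons (cons (mv 912 (cons (fin 848 5 847)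
(mv 1167 (cons (fin 1104 5 911)
(fin 975 6 911)))))
(mv 912 (cons (fin 848 5 847)
(mv 1104 (cons (cons (mv 849 (cons (fin 913 6 848)
(mv 1169 (cons (fin 1105 4 912)
(mv 1168 (cons (fin 1233 4 976)
(mv 1232 (cons (fin 975 7 975)
(fin 1296 7 1039)))))))))
(mv 913 (cons (fin 849 6 848)
(mv 1168 (cons (fin 977 6 912)
(mv 1232 (cons (fin 975 7 975)
(fin 1296 7 1039))))))))
(cons (mv 1169 (cons (fin 1105 4 912)
(mv 1168 (cons (fin 1233 4 976)
(mv 1232 (cons (fin 975 7 975)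
(fin 1296 7 1039)))))))
(cons (mv 913 (cons (fin 849 6 848)
(mv 1105 (cons (fin 1169 4 912)
(mv 1106 (cons (fin 1107 3 1039)
(mv 1042 (cons (fin 1043 2 1039)
(mv 1170 (cons (fin 1171 0 1103)
(mv 978 (cons (fin 977 7 913)
(mv 915 (cons (fin 979 6 914)
(mv 914 (cons (fin 975 1 911)
(fin 851 6 850)))))))))))))))))
(mv 913 (cons (fin 849 6 848)
(mv 977 (cons (fin 1168 6 912)
(mv 978 (cons (fin 979 1 975)
(mv 1105 (cons (fin 1169 4 912)
(mv 1106 (cons (fin 1107 3 1039)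
(mv 1042 (cons (fin 1043 2 1039)
(fin 1170 7 913))))))))))))))))))))
(cons (mv 1167 (cons (fin 1231 6 975)
(mv 975 (cons (mv 974 (cons (fin 910 7 910)
(mv 973 (cons (fin 1036 1 972)
(fin 972 0 972)))))
(mv 1166 (cons (fin 1230 5 974)
(mv 1168 (cons (fin 1232 4 975)
(mv 1169 (cons (mv 1102 (cons (fin 1101 3 1101)
(fin 1170 3 1102)))
(mv 1233 (cons (fin 1234 0 1166)
(fin 1104 4 976)))))))))))))
(cons (mv 912 (cons (fin 848 5 847)
(mv 1167 (cons (fin 975 6 911)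
(fin 1231 6 975)))))
(mv 912 (cons (fin 848 5 847)
(mv 1167 (cons (fin 1104 5 911)
(fin 1231 6 975)))))))))
(mv 1038 (cons (cons (mv 972 (cons (fin 973 3 972)
(mv 1036 (cons (fin 971 3 971)
(fin 975 2 972)))))
(mv 972 (cons (fin 973 3 972)
(mv 1101 (cons (fin 1100 1 1036)
(mv 1104 (cons (fin 1105 0 1037)
(mv 1103 (cons (mv 912 (cons (fin 848 5 847)
(fin 1167 5 911)))
(cons (mv 848 (cons (fin 912 5 847)
(mv 1168 (cons (mv 1169 (cons (fin 1102 0 1101)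
(fin 1233 4 976)))
(mv 1232 (cons (fin 975 7 975)
(fin 1296 7 1039)))))))
(mv 1167 (cons (fin 1231 6 975)
(mv 1168 (cons (mv 1169 (cons (fin 1102 0 1101)
(fin 1233 4 976)))
(mv 1232 (cons (fin 975 7 975)
(fin 1296 7 1039)))))))))))))))))
(cons (mv 975 (cons (fin 1036 2 972)
(mv 1100 (cons (fin 1101 1 1036)
(mv 1104 (cons (fin 1105 0 1037)
(mv 1168 (cons (fin 1232 7 975)
(mv 1167 (cons (fin 1231 5 975)
(mv 912 (cons (fin 1103 5 911)
(mv 848 (cons (fin 784 5 783)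
(mv 849 (cons (fin 785 6 784)
(fin 913 6 848)))))))))))))))))
(mv 972 (cons (fin 973 3 972)
(mv 1036 (cons (fin 971 3 971)
(mv 1100 (cons (fin 1099 1 1035)
(fin 1101 1 1036))))))))))))
(cons (mv 1038 (cons (fin 977 2 973)
(mv 972 (cons (fin 973 3 972)
(mv 1036 (cons (fin 971 3 971)
(mv 1100 (cons (fin 1099 1 1035)
(fin 1101 1 1036)))))))))
(cons (mv 1038 (cons (fin 977 2 973)
(mv 972 (cons (fin 973 3 972)
(mv 1101 (cons (fin 1100 1 1036)
(mv 1104 (cons (fin 1105 0 1037)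
(mv 1103 (cons (mv 912 (cons (fin 848 5 847)
(fin 1167 5 911)))
(cons (mv 848 (cons (fin 912 5 847)
(mv 1168 (cons (mv 1169 (cons (fin 1102 0 1101)
(fin 1233 4 976)))
(mv 1232 (cons (fin 975 7 975)
(fin 1296 7 1039)))))))
(mv 1167 (cons (fin 1231 6 975)
(mv 1168 (cons (mv 1169 (cons (fin 1102 0 1101)
(fin 1233 4 976)))
(mv 1232 (cons (fin 975 7 975)
(fin 1296 7 1039))))))))))))))))))
(mv 1038 (cons (fin 977 2 973)
(mv 975 (cons (fin 1036 2 972)
(mv 1100 (cons (fin 1101 1 1036)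
(mv 1104 (cons (fin 1105 0 1037)
(mv 1168 (cons (fin 1232 7 975)
(mv 1167 (cons (fin 1231 5 975)
(mv 912 (cons (fin 1103 5 911)
(mv 848 (cons (fin 784 5 783)
(mv 849 (cons (fin 785 6 784)
(fin 913 6 848)))))))))))))))))))))))
(mv 1039 (cons (cons (mv 1038 (cons (fin 977 2 973)
(mv 972 (cons (fin 973 3 972)
(mv 1036 (cons (fin 971 3 971)
(fin 975 2 972)))))))
(mv 912 (cons (cons (mv 848 (cons (fin 1103 5 847)
(mv 783 (cons (fin 847 7 783)
(mv 784 (cons (fin 719 7 719)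
(fin 975 5 783)))))))
(mv 1104 (cons (cons (mv 847 (cons (fin 911 7 847)
(mv 849 (cons (fin 913 6 848)
(mv 1169 (cons (fin 1105 4 912)
(mv 1168 (cons (fin 1233 4 976)
(mv 1232 (cons (fin 975 7 975)
(mv 1295 (cons (fin 1231 5 1039)
(mv 1296 (cons (fin 1103 7 1039)
(fin 1359 5 1103)))))))))))))))
(cons (mv 849 (cons (fin 913 6 848)
(mv 1169 (cons (fin 1105 4 912)
(mv 1168 (cons (fin 1233 4 976)
(mv 1232 (cons (fin 975 7 975)
(mv 1295 (cons (fin 1231 5 1039)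
(mv 1296 (cons (fin 1103 7 1039)
(fin 1359 5 1103)))))))))))))
(mv 847 (cons (fin 911 7 847)
(mv 1169 (cons (fin 1105 4 912)
(mv 1168 (cons (fin 1233 4 976)
(mv 1232 (cons (fin 975 7 975)
(mv 1295 (cons (fin 1231 5 1039)
(mv 1296 (cons (fin 1103 7 1039)
(fin 1359 5 1103)))))))))))))))
(cons (cons (mv 847 (cons (fin 911 7 847)
(mv 913 (cons (fin 849 6 848)
(mv 1168 (cons (fin 977 6 912)
(mv 1169 (cons (fin 1233 4 976)
(mv 1232 (cons (fin 975 7 975)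
(mv 1295 (cons (fin 1231 5 1039)
(mv 1296 (cons (fin 1103 7 1039)
(fin 1359 5 1103)))))))))))))))
(mv 847 (cons (fin 911 7 847)
(mv 913 (cons (fin 849 6 848)
(mv 1168 (cons (fin 977 6 912)
(mv 1232 (cons (fin 975 7 975)
(mv 1231 (cons (fin 1295 5 1039)
(mv 1296 (cons (fin 1103 7 1039)
(mv 1297 (cons (fin 1233 4 1040)
(fin 1361 4 1104))))))))))))))))
(cons (mv 911 (cons (fin 847 7 847)
(mv 913 (cons (fin 849 6 848)
(mv 1105 (cons (fin 1169 4 912)
(mv 1106 (cons (fin 1107 3 1039)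
(mv 910 (cons (cons (mv 977 (cons (fin 909 0 909)
(fin 978 0 910)))
(mv 845 (cons (fin 846 3 845)
(mv 844 (cons (fin 909 3 844)
(mv 974 (cons (fin 973 1 909)
(mv 914 (cons (fin 975 1 910)
(mv 851 (cons (fin 850 2 847)
(mv 915 (cons (fin 852 2 848)
(mv 978 (cons (fin 979 0 911)
(fin 1042 6 850))))))))))))))))
(cons (mv 845 (cons (fin 846 3 845)
(mv 909 (cons (fin 844 3 844)
(fin 977 0 909)))))
(mv 845 (cons (fin 846 3 845)
(mv 973 (cons (fin 974 1 909)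
(mv 978 (cons (fin 977 0 910)
(mv 914 (cons (fin 979 0 911)
(mv 851 (cons (fin 850 2 847)
(mv 915 (cons (fin 975 1 911)
(fin 852 2 848))))))))))))))))))))))))
(mv 847 (cons (fin 911 7 847)
(mv 913 (cons (fin 849 6 848)
(mv 1168 (cons (fin 977 6 912)
(mv 1169 (cons (fin 1105 4 912)
(fin 1233 4 976))))))))))))))
(cons (mv 1104 (cons (cons (mv 847 (cons (fin 911 7 847)
(mv 783 (cons (fin 848 7 783)
(mv 913 (cons (fin 849 6 848)
(mv 977 (cons (fin 1168 6 912)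
(mv 978 (cons (fin 979 1 975)
(mv 1105 (cons (fin 1169 4 912)
(mv 1106 (cons (fin 1107 3 1039)
(mv 1042 (cons (fin 1170 7 913)
(mv 975 (cons (fin 1043 0 975)
(mv 914 (cons (fin 915 1 911)
(fin 974 2 910)))))))))))))))))))))
(cons (mv 849 (cons (fin 913 6 848)
(mv 848 (cons (fin 785 6 784)
(mv 783 (cons (fin 847 7 783)
(mv 784 (cons (fin 719 7 719)
(fin 975 5 783)))))))))
(mv 849 (cons (fin 913 6 848)
(mv 785 (cons (fin 848 6 784)
(mv 1169 (cons (fin 1105 4 912)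
(mv 1168 (cons (fin 1233 4 976)
(mv 975 (cons (fin 911 7 911)
(fin 1232 7 975)))))))))))))
(cons (cons (mv 847 (cons (fin 911 7 847)
(mv 848 (cons (fin 783 7 783)
(mv 784 (cons (fin 975 5 783)
(mv 785 (cons (fin 721 6 720)
(fin 849 6 784)))))))))
(mv 847 (cons (fin 911 7 847)
(mv 848 (cons (fin 783 7 783)
(mv 975 (cons (fin 784 5 783)
(mv 1168 (cons (fin 1232 7 975)
(mv 1169 (cons (fin 1105 4 912)
(fin 1233 4 976))))))))))))
(cons (mv 847 (cons (fin 911 7 847)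
(mv 783 (cons (fin 848 7 783)
(mv 913 (cons (fin 849 6 848)
(mv 1168 (cons (fin 977 6 912)
(mv 1169 (cons (fin 1105 4 912)
(fin 1233 4 976)))))))))))
(mv 847 (cons (fin 911 7 847)
(mv 913 (cons (fin 849 6 848)
(mv 977 (cons (fin 1168 6 912)
(mv 978 (cons (fin 979 1 975)
(mv 1105 (cons (fin 1169 4 912)
(mv 1106 (cons (fin 1107 3 1039)
(mv 1042 (cons (fin 1170 7 913)
(mv 975 (cons (fin 1043 0 975)
(mv 914 (cons (fin 915 1 911)
(fin 974 2 910)))))))))))))))))))))))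
(cons (mv 848 (cons (fin 1103 5 847)
(mv 784 (cons (fin 975 5 783)
(mv 785 (cons (fin 721 6 720)
(fin 849 6 784)))))))
(mv 848 (cons (fin 1103 5 847)
(mv 783 (cons (fin 847 7 783)
(mv 784 (cons (fin 719 7 719)
(mv 785 (cons (fin 721 6 720)
(fin 849 6 784))))))))))))))
(cons (mv 1038 (cons (cons (mv 972 (cons (fin 973 3 972)
(mv 1036 (cons (fin 971 3 971)
(fin 975 2 972)))))
(mv 972 (cons (fin 973 3 972)
(mv 1100 (cons (fin 1101 1 1036)
(mv 1104 (cons (fin 1105 0 1037)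
(mv 1168 (cons (mv 975 (cons (fin 911 7 911)
(fin 1232 7 975)))
(cons (mv 1233 (cons (fin 1169 4 976)
(mv 1232 (cons (fin 1297 4 1040)
(mv 1295 (cons (fin 1231 5 1039)
(mv 1296 (cons (fin 1103 7 1039)
(fin 1359 5 1103)))))))))
(mv 911 (cons (fin 975 7 911)
(mv 912 (cons (fin 847 7 847)
(mv 848 (cons (fin 1103 5 847)
(mv 849 (cons (fin 785 6 784)
(fin 913 6 848)))))))))))))))))))
(cons (mv 975 (cons (fin 1036 2 972)
(mv 1100 (cons (fin 1101 1 1036)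
(mv 1104 (cons (fin 1105 0 1037)
(mv 911 (cons (fin 1168 7 911)
(fin 847 4 847)))))))))
(mv 972 (cons (fin 973 3 972)
(mv 1036 (cons (fin 971 3 971)
(mv 1100 (cons (fin 1099 1 1035)
(fin 1101 1 1036))))))))))
(cons (mv 1038 (cons (fin 977 2 973)
(mv 972 (cons (fin 973 3 972)
(mv 1036 (cons (fin 971 3 971)
(mv 1100 (cons (fin 1099 1 1035)
(fin 1101 1 1036)))))))))
(mv 1038 (cons (fin 977 2 973)
(mv 975 (cons (fin 1036 2 972)
(mv 1100 (cons (fin 1101 1 1036)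
(mv 1104 (cons (fin 1105 0 1037)
(mv 911 (cons (fin 1168 7 911)
(fin 847 4 847))))))))))))))))
(cons (mv 1039 (cons (cons (mv 1038 (cons (fin 977 2 973)
(mv 972 (cons (fin 973 3 972)
(mv 1036 (cons (fin 971 3 971)
(fin 975 2 972)))))))
(mv 912 (cons (cons (mv 848 (cons (fin 1103 5 847)
(mv 783 (cons (fin 847 7 783)
(mv 784 (cons (fin 719 7 719)
(fin 975 5 783)))))))
(mv 1104 (cons (cons (mv 847 (cons (fin 911 7 847)
(mv 849 (cons (fin 913 6 848)
(mv 1103 (cons (fin 1167 5 911)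
(mv 1169 (cons (fin 1105 4 912)
(mv 1168 (cons (fin 1233 4 976)
(mv 1232 (cons (fin 975 7 975)
(fin 1296 7 1039)))))))))))))
(cons (mv 849 (cons (fin 913 6 848)
(mv 1103 (cons (fin 1167 5 911)
(mv 1169 (cons (fin 1105 4 912)
(mv 1168 (cons (fin 1233 4 976)
(mv 1232 (cons (fin 975 7 975)
(fin 1296 7 1039)))))))))))
(mv 847 (cons (fin 911 7 847)
(mv 1103 (cons (fin 1167 5 911)
(mv 1169 (cons (fin 1105 4 912)
(mv 1168 (cons (fin 1233 4 976)
(mv 1232 (cons (fin 975 7 975)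
(fin 1296 7 1039)))))))))))))
(cons (cons (mv 847 (cons (fin 911 7 847)
(mv 913 (cons (fin 849 6 848)
(mv 977 (cons (fin 1168 6 912)
(mv 978 (cons (fin 979 1 975)
(mv 1105 (cons (fin 1169 4 912)
(mv 1106 (cons (fin 1107 3 1039)
(mv 1042 (cons (fin 1170 7 913)
(mv 975 (cons (fin 1043 0 975)
(mv 914 (cons (fin 915 1 911)
(fin 974 2 910)))))))))))))))))))
(mv 847 (cons (fin 911 7 847)
(mv 913 (cons (fin 849 6 848)
(mv 1103 (cons (fin 1167 5 911)
(mv 1168 (cons (fin 977 6 912)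
(mv 1232 (cons (fin 975 7 975)
(fin 1296 7 1039))))))))))))
(cons (mv 847 (cons (fin 911 7 847)
(mv 913 (cons (fin 849 6 848)
(mv 977 (cons (fin 1168 6 912)
(mv 978 (cons (fin 979 1 975)
(mv 1103 (cons (fin 1167 5 911)
(mv 1105 (cons (fin 1169 4 912)
(mv 1106 (cons (fin 1107 3 1039)
(mv 1042 (cons (fin 1043 2 1039)
(fin 1170 7 913)))))))))))))))))
(mv 847 (cons (fin 911 7 847)
(mv 913 (cons (fin 849 6 848)
(mv 1103 (cons (fin 1167 5 911)
(mv 1105 (cons (fin 1169 4 912)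
(mv 1106 (cons (fin 1107 3 1039)
(mv 1042 (cons (fin 1043 2 1039)
(mv 1170 (cons (fin 1171 0 1103)
(mv 978 (cons (fin 977 7 913)
(mv 915 (cons (fin 979 6 914)
(mv 914 (cons (fin 975 1 911)
(fin 851 6 850))))))))))))))))))))))))))
(cons (mv 1104 (cons (cons (mv 847 (cons (fin 911 7 847)
(mv 783 (cons (fin 848 7 783)
(mv 913 (cons (fin 849 6 848)
(mv 977 (cons (fin 1168 6 912)
(mv 978 (cons (fin 979 1 975)
(mv 1105 (cons (fin 1169 4 912)
(mv 1106 (cons (fin 1107 3 1039)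
(mv 1042 (cons (fin 1170 7 913)
(mv 975 (cons (fin 1043 0 975)
(mv 914 (cons (fin 915 1 911)
(fin 974 2 910)))))))))))))))))))))
(cons (mv 849 (cons (fin 913 6 848)
(mv 848 (cons (fin 785 6 784)
(mv 783 (cons (fin 847 7 783)
(mv 784 (cons (fin 719 7 719)
(fin 975 5 783)))))))))
(mv 849 (cons (fin 913 6 848)
(mv 785 (cons (fin 848 6 784)
(mv 1169 (cons (fin 1105 4 912)
(mv 1168 (cons (fin 1233 4 976)
(mv 975 (cons (fin 911 7 911)
(fin 1232 7 975)))))))))))))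
(cons (cons (mv 847 (cons (fin 911 7 847)
(mv 848 (cons (fin 783 7 783)
(mv 784 (cons (fin 975 5 783)
(mv 785 (cons (fin 721 6 720)
(fin 849 6 784)))))))))
(mv 847 (cons (fin 911 7 847)
(mv 848 (cons (fin 783 7 783)
(mv 975 (cons (fin 784 5 783)
(mv 1168 (cons (fin 1232 7 975)
(mv 1169 (cons (fin 1105 4 912)
(fin 1233 4 976))))))))))))
(cons (mv 847 (cons (fin 911 7 847)
(mv 783 (cons (fin 848 7 783)
(mv 913 (cons (fin 849 6 848)
(mv 1168 (cons (fin 977 6 912)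
(mv 1169 (cons (fin 1105 4 912)
(fin 1233 4 976)))))))))))
(mv 847 (cons (fin 911 7 847)
(mv 913 (cons (fin 849 6 848)
(mv 977 (cons (fin 1168 6 912)
(mv 978 (cons (fin 979 1 975)
(mv 1105 (cons (fin 1169 4 912)
(mv 1106 (cons (fin 1107 3 1039)
(mv 1042 (cons (fin 1170 7 913)
(mv 975 (cons (fin 1043 0 975)
(mv 914 (cons (fin 915 1 911)
(fin 974 2 910)))))))))))))))))))))))
(cons (mv 848 (cons (fin 1103 5 847)
(mv 783 (cons (fin 847 7 783)
(mv 784 (cons (fin 719 7 719)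
(mv 785 (cons (fin 721 6 720)
(fin 849 6 784)))))))))
(mv 848 (cons (fin 1103 5 847)
(mv 784 (cons (fin 975 5 783)
(mv 785 (cons (fin 721 6 720)
(fin 849 6 784))))))))))))
(cons (mv 1038 (cons (cons (mv 972 (cons (fin 973 3 972)
(mv 1036 (cons (fin 971 3 971)
(fin 975 2 972)))))
(mv 972 (cons (fin 973 3 972)
(mv 1100 (cons (fin 1101 1 1036)
(mv 1104 (cons (fin 1105 0 1037)
(mv 912 (cons (mv 1103 (cons (fin 848 5 847)
(fin 1167 5 911)))
(cons (mv 847 (cons (fin 911 7 847)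
(mv 848 (cons (fin 783 7 783)
(mv 849 (cons (fin 785 6 784)
(fin 913 6 848)))))))
(mv 849 (cons (fin 913 6 848)
(mv 911 (cons (fin 847 7 847)
(mv 975 (cons (fin 1168 7 911)
(mv 1103 (cons (fin 1167 5 911)
(mv 910 (cons (fin 846 7 846)
(mv 909 (cons (fin 908 0 908)
(mv 845 (cons (fin 844 3 844)
(mv 1102 (cons (fin 974 7 845)
(fin 1166 5 910)))))))))))))))))))))))))))
(cons (mv 975 (cons (fin 1036 2 972)
(mv 1100 (cons (fin 1101 1 1036)
(mv 1104 (cons (fin 1105 0 1037)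
(mv 911 (cons (fin 1168 7 911)
(fin 847 4 847)))))))))
(mv 972 (cons (fin 973 3 972)
(mv 1036 (cons (fin 971 3 971)
(mv 1100 (cons (fin 1099 1 1035)
(fin 1101 1 1036))))))))))
(mv 1038 (cons (fin 977 2 973)
(mv 972 (cons (fin 973 3 972)
(mv 1036 (cons (fin 971 3 971)
(mv 1100 (cons (fin 1099 1 1035)
(fin 1101 1 1036))))))))))))
(mv 1039 (cons (cons (mv 1038 (cons (fin 977 2 973)
(mv 972 (cons (fin 973 3 972)
(mv 1036 (cons (fin 971 3 971)
(fin 975 2 972)))))))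
(cons (mv 1103 (cons (cons (mv 912 (cons (fin 848 5 847)
(mv 1167 (cons (fin 1104 5 911)
(fin 975 6 911)))))
(mv 1167 (cons (fin 1231 6 975)
(mv 975 (cons (mv 910 (cons (fin 974 7 910)
(mv 911 (cons (fin 846 7 846)
(mv 847 (cons (fin 783 4 783)
(fin 1104 4 847)))))))
(cons (mv 1166 (cons (fin 1230 5 974)
(mv 911 (cons (fin 1102 5 910)
(mv 847 (cons (fin 783 4 783)
(fin 1104 4 847)))))))
(mv 974 (cons (fin 910 7 910)
(mv 973 (cons (fin 1036 1 972)
(fin 972 0 972)))))))))))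
(cons (mv 912 (cons (fin 848 5 847)
(mv 1104 (cons (cons (mv 847 (cons (fin 911 7 847)
(mv 849 (cons (fin 913 6 848)
(mv 1169 (cons (fin 1105 4 912)
(mv 1168 (cons (fin 1233 4 976)
(mv 1232 (cons (fin 975 7 975)
(fin 1296 7 1039)))))))))))
(cons (mv 849 (cons (fin 913 6 848)
(mv 1169 (cons (fin 1105 4 912)
(mv 1168 (cons (fin 1233 4 976)
(mv 1232 (cons (fin 975 7 975)
(fin 1296 7 1039)))))))))
(mv 847 (cons (fin 911 7 847)
(mv 913 (cons (fin 849 6 848)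
(mv 1168 (cons (fin 977 6 912)
(mv 1232 (cons (fin 975 7 975)
(fin 1296 7 1039)))))))))))
(cons (mv 847 (cons (fin 911 7 847)
(mv 1169 (cons (fin 1105 4 912)
(mv 1168 (cons (fin 1233 4 976)
(mv 1232 (cons (fin 975 7 975)
(fin 1296 7 1039)))))))))
(cons (mv 847 (cons (fin 911 7 847)
(mv 913 (cons (fin 849 6 848)
(mv 1105 (cons (fin 1169 4 912)
(mv 1106 (cons (fin 1107 3 1039)
(mv 1042 (cons (fin 1043 2 1039)
(mv 1170 (cons (fin 1171 0 1103)
(mv 978 (cons (fin 977 7 913)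
(mv 915 (cons (fin 979 6 914)
(mv 914 (cons (fin 975 1 911)
(fin 851 6 850)))))))))))))))))))
(mv 847 (cons (fin 911 7 847)
(mv 913 (cons (fin 849 6 848)
(mv 977 (cons (fin 1168 6 912)
(mv 978 (cons (fin 979 1 975)
(mv 1105 (cons (fin 1169 4 912)
(mv 1106 (cons (fin 1107 3 1039)
(mv 1042 (cons (fin 1043 2 1039)
(fin 1170 7 913)))))))))))))))))))))
(cons (mv 912 (cons (fin 848 5 847)
(mv 1167 (cons (fin 1104 5 911)
(fin 1231 6 975)))))
(mv 912 (cons (fin 848 5 847)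
(mv 1167 (cons (fin 975 6 911)
(fin 1231 6 975)))))))))
(mv 1038 (cons (cons (mv 972 (cons (fin 973 3 972)
(mv 1036 (cons (fin 971 3 971)
(fin 975 2 972)))))
(mv 972 (cons (fin 973 3 972)
(mv 1104 (cons (fin 1105 0 1037)
(mv 912 (cons (mv 1103 (cons (fin 848 5 847)
(fin 1167 5 911)))
(cons (mv 847 (cons (fin 911 7 847)
(mv 848 (cons (fin 783 7 783)
(mv 849 (cons (fin 785 6 784)
(fin 913 6 848)))))))
(mv 847 (cons (fin 911 7 847)
(mv 849 (cons (fin 913 6 848)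
(mv 1167 (cons (fin 1103 5 911)
(mv 1168 (cons (fin 1231 5 975)
(mv 1232 (cons (fin 975 7 975)
(mv 1233 (cons (fin 1169 4 976)
(fin 1297 4 1040)))))))))))))))))))))
(cons (mv 975 (cons (fin 1036 2 972)
(mv 1104 (cons (fin 1105 0 1037)
(mv 911 (cons (fin 1168 7 911)
(fin 847 4 847)))))))
(mv 972 (cons (fin 973 3 972)
(mv 1036 (cons (fin 971 3 971)
(mv 1104 (cons (fin 1103 0 1036)
(fin 1105 0 1037))))))))))))
(cons (mv 1038 (cons (fin 977 2 973)
(mv 972 (cons (fin 973 3 972)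
(mv 1036 (cons (fin 971 3 971)
(mv 1104 (cons (fin 1103 0 1036)
(fin 1105 0 1037)))))))))
(cons (mv 1038 (cons (fin 977 2 973)
(mv 972 (cons (fin 973 3 972)
(mv 1104 (cons (fin 1105 0 1037)
(mv 912 (cons (mv 1103 (cons (fin 848 5 847)
(fin 1167 5 911)))
(cons (mv 847 (cons (fin 911 7 847)
(mv 848 (cons (fin 783 7 783)
(mv 849 (cons (fin 785 6 784)
(fin 913 6 848)))))))
(mv 847 (cons (fin 911 7 847)
(mv 849 (cons (fin 913 6 848)
(mv 1167 (cons (fin 1103 5 911)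
(mv 1168 (cons (fin 1231 5 975)
(mv 1232 (cons (fin 975 7 975)
(mv 1233 (cons (fin 1169 4 976)
(fin 1297 4 1040))))))))))))))))))))))
(mv 1038 (cons (fin 977 2 973)
(mv 975 (cons (fin 1036 2 972)
(mv 1104 (cons (fin 1105 0 1037)
(mv 911 (cons (fin 1168 7 911)
(fin 847 4 847))))))))))))))))))
(ref 25 0))
(cons (mv 1104 (cons (cons (cons (mv 1039 (cons (cons (mv 1038 (cons (fin 1105 0 1037)
(mv 1100 (cons (fin 1101 1 1036)
(mv 1036 (cons (fin 1099 1 1035)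
(fin 1103 0 1036)))))))
(cons (mv 975 (cons (cons (mv 1168 (cons (fin 1232 7 975)
(mv 911 (cons (fin 976 7 911)
(fin 1103 4 911)))))
(mv 911 (cons (fin 847 4 847)
(mv 1103 (cons (mv 1166 (cons (fin 1102 5 910)
(mv 1167 (cons (fin 1230 5 974)
(mv 1231 (cons (fin 1295 6 1039)
(fin 976 6 975)))))))
(cons (mv 910 (cons (fin 846 7 846)
(mv 1167 (cons (fin 974 7 910)
(mv 1231 (cons (fin 1295 6 1039)
(fin 976 6 975)))))))
(mv 1102 (cons (fin 1166 5 910)
(mv 1101 (cons (fin 1036 3 1036)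
(fin 1100 2 1036)))))))))))
(cons (mv 1168 (cons (fin 1232 7 975)
(mv 976 (cons (cons (mv 1231 (cons (fin 1167 5 975)
(mv 1233 (cons (fin 1169 4 976)
(mv 913 (cons (fin 977 6 912)
(mv 912 (cons (fin 849 6 848)
(mv 848 (cons (fin 1103 5 847)
(fin 784 5 783)))))))))))
(cons (mv 1233 (cons (fin 1169 4 976)
(mv 913 (cons (fin 977 6 912)
(mv 912 (cons (fin 849 6 848)
(mv 848 (cons (fin 1103 5 847)
(fin 784 5 783)))))))))
(mv 1231 (cons (fin 1167 5 975)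
(mv 1169 (cons (fin 1233 4 976)
(mv 912 (cons (fin 1105 4 912)
(mv 848 (cons (fin 1103 5 847)
(fin 784 5 783)))))))))))
(cons (mv 1231 (cons (fin 1167 5 975)
(mv 913 (cons (fin 977 6 912)
(mv 912 (cons (fin 849 6 848)
(mv 848 (cons (fin 1103 5 847)
(fin 784 5 783)))))))))
(cons (mv 1231 (cons (fin 1167 5 975)
(mv 1169 (cons (fin 1233 4 976)
(mv 977 (cons (fin 913 6 912)
(mv 978 (cons (fin 979 1 975)
(mv 1042 (cons (fin 1043 0 975)
(mv 914 (cons (fin 915 2 911)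
(mv 1106 (cons (fin 1105 5 913)
(mv 1171 (cons (fin 1107 4 914)
(mv 1170 (cons (fin 1103 3 1103)
(fin 1235 4 978)))))))))))))))))))
(mv 1231 (cons (fin 1167 5 975)
(mv 1169 (cons (fin 1233 4 976)
(mv 1105 (cons (fin 912 4 912)
(mv 1106 (cons (fin 1107 3 1039)
(mv 977 (cons (fin 913 6 912)
(mv 978 (cons (fin 979 1 975)
(mv 1042 (cons (fin 1043 0 975)
(fin 914 5 913)))))))))))))))))))))
(cons (mv 1168 (cons (fin 1232 7 975)
(mv 911 (cons (fin 976 7 911)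
(fin 847 4 847)))))
(mv 1168 (cons (fin 1232 7 975)
(mv 911 (cons (fin 1103 4 911)
(fin 847 4 847)))))))))
(mv 1038 (cons (cons (mv 1100 (cons (fin 1101 1 1036)
(mv 1036 (cons (fin 1099 1 1035)
(fin 1103 0 1036)))))
(mv 1100 (cons (fin 1101 1 1036)
(mv 972 (cons (fin 973 3 972)
(mv 976 (cons (fin 977 2 973)
(mv 1168 (cons (mv 975 (cons (fin 1232 7 975)
(fin 911 7 911)))
(cons (mv 1231 (cons (fin 1167 5 975)
(mv 1232 (cons (fin 1295 5 1039)
(mv 1233 (cons (fin 1297 4 1040)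
(fin 1169 4 976)))))))
(mv 1231 (cons (fin 1167 5 975)
(mv 1233 (cons (fin 1169 4 976)
(mv 911 (cons (fin 975 7 911)
(mv 912 (cons (fin 847 7 847)
(mv 848 (cons (fin 1103 5 847)
(mv 849 (cons (fin 913 6 848)
(fin 785 6 784)))))))))))))))))))))))
(cons (mv 1103 (cons (fin 1036 0 1036)
(mv 972 (cons (fin 973 3 972)
(mv 976 (cons (fin 977 2 973)
(mv 1167 (cons (fin 912 5 911)
(fin 1231 6 975)))))))))
(mv 1100 (cons (fin 1101 1 1036)
(mv 1036 (cons (fin 1099 1 1035)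
(mv 972 (cons (fin 971 3 971)
(fin 973 3 972))))))))))))
(cons (mv 1038 (cons (fin 1105 0 1037)
(mv 1100 (cons (fin 1101 1 1036)
(mv 1036 (cons (fin 1099 1 1035)
(mv 972 (cons (fin 971 3 971)
(fin 973 3 972)))))))))
(cons (mv 1038 (cons (fin 1105 0 1037)
(mv 1100 (cons (fin 1101 1 1036)
(mv 972 (cons (fin 973 3 972)
(mv 976 (cons (fin 977 2 973)
(mv 1168 (cons (mv 975 (cons (fin 1232 7 975)
(fin 911 7 911)))
(cons (mv 1231 (cons (fin 1167 5 975)
(mv 1232 (cons (fin 1295 5 1039)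
(mv 1233 (cons (fin 1297 4 1040)
(fin 1169 4 976)))))))
(mv 1231 (cons (fin 1167 5 975)
(mv 1233 (cons (fin 1169 4 976)
(mv 911 (cons (fin 975 7 911)
(mv 912 (cons (fin 847 7 847)
(mv 848 (cons (fin 1103 5 847)
(mv 849 (cons (fin 913 6 848)
(fin 785 6 784))))))))))))))))))))))))
(mv 1038 (cons (fin 1105 0 1037)
(mv 1103 (cons (fin 1036 0 1036)
(mv 972 (cons (fin 973 3 972)
(mv 976 (cons (fin 977 2 973)
(mv 1167 (cons (fin 912 5 911)
(fin 1231 6 975)))))))))))))))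
(cons (mv 976 (cons (cons (mv 1168 (cons (cons (mv 1231 (cons (fin 1167 5 975)
(mv 1295 (cons (fin 1232 5 1039)
(mv 1233 (cons (fin 1169 4 976)
(mv 911 (cons (fin 975 7 911)
(mv 912 (cons (fin 847 7 847)
(mv 913 (cons (fin 977 6 912)
(fin 849 6 848)))))))))))))
(cons (mv 1233 (cons (fin 1169 4 976)
(mv 1297 (cons (fin 1232 4 1040)
(mv 911 (cons (fin 975 7 911)
(mv 912 (cons (fin 847 7 847)
(mv 913 (cons (fin 977 6 912)
(fin 849 6 848)))))))))))
(mv 1231 (cons (fin 1167 5 975)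
(mv 1295 (cons (fin 1232 5 1039)
(mv 911 (cons (fin 975 7 911)
(mv 912 (cons (fin 847 7 847)
(mv 913 (cons (fin 977 6 912)
(fin 849 6 848)))))))))))))
(cons (cons (mv 1231 (cons (fin 1167 5 975)
(mv 1295 (cons (fin 1232 5 1039)
(mv 1169 (cons (fin 1233 4 976)
(mv 911 (cons (fin 975 7 911)
(mv 912 (cons (fin 847 7 847)
(fin 1105 4 912)))))))))))
(mv 1231 (cons (fin 1167 5 975)
(mv 1295 (cons (fin 1232 5 1039)
(mv 1169 (cons (fin 1233 4 976)
(mv 912 (cons (fin 1105 4 912)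
(mv 913 (cons (fin 977 6 912)
(fin 849 6 848))))))))))))
(cons (mv 1231 (cons (fin 1167 5 975)
(mv 1232 (cons (fin 1295 5 1039)
(mv 1233 (cons (fin 1297 4 1040)
(fin 1169 4 976)))))))
(mv 1231 (cons (fin 1167 5 975)
(mv 1233 (cons (fin 1169 4 976)
(mv 911 (cons (fin 975 7 911)
(mv 912 (cons (fin 847 7 847)
(mv 913 (cons (fin 977 6 912)
(fin 849 6 848)))))))))))))))
(cons (mv 912 (cons (cons (mv 1167 (cons (fin 1103 5 911)
(mv 1169 (cons (fin 1105 4 912)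
(mv 847 (cons (fin 911 7 847)
(mv 848 (cons (fin 783 7 783)
(mv 849 (cons (fin 913 6 848)
(fin 785 6 784)))))))))))
(mv 1103 (cons (fin 1167 5 911)
(mv 1105 (cons (fin 1169 4 912)
(mv 1102 (cons (fin 1038 3 1037)
(mv 1165 (cons (fin 1166 1 1101)
(mv 1101 (cons (fin 1164 1 1100)
(fin 1036 3 1036))))))))))))
(cons (mv 1169 (cons (fin 1105 4 912)
(mv 847 (cons (fin 911 7 847)
(mv 848 (cons (fin 783 7 783)
(mv 849 (cons (fin 913 6 848)
(fin 785 6 784)))))))))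
(mv 1167 (cons (fin 1103 5 911)
(mv 847 (cons (fin 911 7 847)
(mv 848 (cons (fin 783 7 783)
(mv 849 (cons (fin 913 6 848)
(fin 785 6 784))))))))))))
(mv 1168 (cons (cons (mv 1231 (cons (fin 1167 5 975)
(mv 1232 (cons (fin 1295 5 1039)
(mv 1233 (cons (fin 1297 4 1040)
(fin 1169 4 976)))))))
(mv 1169 (cons (fin 1233 4 976)
(mv 975 (cons (fin 911 7 911)
(mv 977 (cons (fin 913 6 912)
(mv 974 (cons (fin 1038 1 973)
(mv 973 (cons (fin 1036 1 972)
(mv 1101 (cons (mv 910 (cons (fin 909 3 909)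
(fin 1165 6 909)))
(cons (mv 1102 (cons (fin 1103 0 1101)
(mv 1166 (cons (fin 1167 3 1101)
(fin 909 4 909)))))
(mv 1165 (cons (fin 910 6 909)
(mv 1228 (cons (fin 1164 5 972)
(mv 1292 (cons (fin 1229 5 1036)
(mv 1166 (cons (fin 1230 4 973)
(mv 1167 (cons (fin 1100 3 1100)
(fin 1102 3 1101)))))))))))))))))))))))))
(cons (mv 1167 (cons (fin 1231 5 975)
(mv 975 (cons (fin 911 7 911)
(mv 977 (cons (fin 913 6 912)
(mv 974 (cons (fin 1038 1 973)
(mv 973 (cons (fin 1036 1 972)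
(mv 910 (cons (fin 909 3 909)
(mv 1165 (cons (fin 1101 6 909)
(mv 1166 (cons (fin 1105 2 1101)
(mv 1228 (cons (fin 1229 1 1164)
(mv 1164 (cons (fin 1227 1 1163)
(fin 1103 2 1100)))))))))))))))))))))
(mv 1233 (cons (fin 1169 4 976)
(mv 1232 (cons (fin 1297 4 1040)
(mv 1231 (cons (fin 1295 5 1039)
(mv 975 (cons (fin 911 7 911)
(mv 977 (cons (fin 913 6 912)
(mv 974 (cons (fin 1038 1 973)
(mv 973 (cons (fin 1036 1 972)
(mv 910 (cons (fin 909 3 909)
(mv 1165 (cons (fin 1101 6 909)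
(mv 1230 (cons (fin 1166 3 1165)
(mv 1293 (cons (fin 1294 1 1229)
(mv 1229 (cons (fin 1292 1 1228)
(fin 1164 3 1164))))))))))))))))))))))))))))))
(cons (cons (mv 912 (cons (cons (mv 1169 (cons (fin 1105 4 912)
(mv 1233 (cons (fin 1168 4 976)
(mv 847 (cons (fin 911 7 847)
(mv 848 (cons (fin 783 7 783)
(mv 849 (cons (fin 913 6 848)
(fin 785 6 784)))))))))))
(mv 1169 (cons (fin 1105 4 912)
(mv 1168 (cons (fin 1233 4 976)
(mv 911 (cons (fin 975 7 911)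
(fin 847 7 847))))))))
(cons (mv 1169 (cons (fin 1105 4 912)
(mv 1168 (cons (fin 1233 4 976)
(mv 913 (cons (fin 977 6 912)
(fin 849 6 848)))))))
(cons (mv 911 (cons (fin 847 7 847)
(mv 1168 (cons (fin 975 7 911)
(mv 913 (cons (fin 977 6 912)
(fin 849 6 848)))))))
(mv 1169 (cons (fin 1105 4 912)
(mv 847 (cons (fin 911 7 847)
(mv 848 (cons (fin 783 7 783)
(mv 849 (cons (fin 913 6 848)
(fin 785 6 784)))))))))))))
(mv 912 (cons (cons (mv 1167 (cons (fin 1103 5 911)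
(mv 1231 (cons (fin 1168 5 975)
(mv 847 (cons (fin 911 7 847)
(mv 848 (cons (fin 783 7 783)
(mv 849 (cons (fin 913 6 848)
(fin 785 6 784)))))))))))
(mv 1167 (cons (fin 1103 5 911)
(mv 1168 (cons (fin 1231 5 975)
(mv 911 (cons (fin 975 7 911)
(fin 847 7 847))))))))
(cons (mv 1167 (cons (fin 1103 5 911)
(mv 1168 (cons (fin 1231 5 975)
(mv 913 (cons (fin 977 6 912)
(fin 849 6 848)))))))
(cons (mv 911 (cons (fin 847 7 847)
(mv 1168 (cons (fin 975 7 911)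
(mv 913 (cons (fin 977 6 912)
(fin 849 6 848)))))))
(mv 1167 (cons (fin 1103 5 911)
(mv 847 (cons (fin 911 7 847)
(mv 848 (cons (fin 783 7 783)
(mv 849 (cons (fin 913 6 848)
(fin 785 6 784))))))))))))))
(cons (mv 1168 (cons (cons (mv 1231 (cons (fin 1167 5 975)
(mv 1295 (cons (fin 1232 5 1039)
(mv 1169 (cons (fin 1233 4 976)
(mv 911 (cons (fin 975 7 911)
(mv 912 (cons (fin 847 7 847)
(fin 1105 4 912)))))))))))
(mv 1169 (cons (fin 1233 4 976)
(mv 911 (cons (fin 975 7 911)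
(mv 912 (cons (fin 847 7 847)
(fin 1105 4 912))))))))
(cons (mv 1167 (cons (fin 1231 5 975)
(mv 911 (cons (fin 975 7 911)
(mv 912 (cons (fin 1103 5 911)
(fin 847 7 847)))))))
(mv 1231 (cons (fin 1167 5 975)
(mv 1232 (cons (fin 1295 5 1039)
(mv 1233 (cons (fin 1297 4 1040)
(fin 1169 4 976))))))))))
(mv 1168 (cons (cons (mv 1231 (cons (fin 1167 5 975)
(mv 1295 (cons (fin 1232 5 1039)
(mv 1169 (cons (fin 1233 4 976)
(mv 912 (cons (fin 1105 4 912)
(mv 913 (cons (fin 977 6 912)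
(fin 849 6 848)))))))))))
(mv 1169 (cons (fin 1233 4 976)
(mv 912 (cons (fin 1105 4 912)
(mv 913 (cons (fin 977 6 912)
(fin 849 6 848))))))))
(cons (mv 1167 (cons (fin 1231 5 975)
(mv 912 (cons (fin 1103 5 911)
(mv 913 (cons (fin 977 6 912)
(fin 849 6 848)))))))
(mv 1231 (cons (fin 1167 5 975)
(mv 1232 (cons (fin 1295 5 1039)
(mv 1233 (cons (fin 1297 4 1040)
(fin 1169 4 976))))))))))))))
(mv 976 (cons (cons (cons (mv 1168 (cons (cons (mv 1231 (cons (fin 1167 5 975)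
(mv 1295 (cons (fin 1232 5 1039)
(mv 1233 (cons (fin 1169 4 976)
(mv 911 (cons (fin 975 7 911)
(mv 912 (cons (fin 847 7 847)
(mv 913 (cons (fin 977 6 912)
(fin 849 6 848)))))))))))))
(cons (mv 1233 (cons (fin 1169 4 976)
(mv 1297 (cons (fin 1232 4 1040)
(mv 911 (cons (fin 975 7 911)
(mv 912 (cons (fin 847 7 847)
(mv 913 (cons (fin 977 6 912)
(fin 849 6 848)))))))))))
(mv 1231 (cons (fin 1167 5 975)
(mv 1295 (cons (fin 1232 5 1039)
(mv 911 (cons (fin 975 7 911)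
(mv 912 (cons (fin 847 7 847)
(mv 913 (cons (fin 977 6 912)
(fin 849 6 848)))))))))))))
(cons (cons (mv 1231 (cons (fin 1167 5 975)
(mv 1295 (cons (fin 1232 5 1039)
(mv 1169 (cons (fin 1233 4 976)
(mv 912 (cons (fin 1105 4 912)
(mv 913 (cons (fin 977 6 912)
(fin 849 6 848)))))))))))
(mv 1231 (cons (fin 1167 5 975)
(mv 1295 (cons (fin 1232 5 1039)
(mv 1169 (cons (fin 1233 4 976)
(mv 911 (cons (fin 975 7 911)
(mv 912 (cons (fin 847 7 847)
(fin 1105 4 912))))))))))))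
(cons (mv 1231 (cons (fin 1167 5 975)
(mv 1232 (cons (fin 1295 5 1039)
(mv 1233 (cons (fin 1297 4 1040)
(fin 1169 4 976)))))))
(mv 1231 (cons (fin 1167 5 975)
(mv 1233 (cons (fin 1169 4 976)
(mv 911 (cons (fin 975 7 911)
(mv 912 (cons (fin 847 7 847)
(mv 913 (cons (fin 977 6 912)
(fin 849 6 848)))))))))))))))
(mv 912 (cons (cons (mv 1167 (cons (fin 1103 5 911)
(mv 1169 (cons (fin 1105 4 912)
(mv 847 (cons (fin 911 7 847)
(mv 848 (cons (fin 783 7 783)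
(mv 849 (cons (fin 913 6 848)
(fin 785 6 784)))))))))))
(cons (mv 1169 (cons (fin 1105 4 912)
(mv 847 (cons (fin 911 7 847)
(mv 848 (cons (fin 783 7 783)
(mv 849 (cons (fin 913 6 848)
(fin 785 6 784)))))))))
(mv 1169 (cons (fin 1105 4 912)
(mv 1103 (cons (fin 1167 5 911)
(mv 848 (cons (fin 1039 5 847)
(mv 849 (cons (fin 913 6 848)
(fin 785 6 784)))))))))))
(cons (mv 1169 (cons (fin 1105 4 912)
(mv 1103 (cons (fin 1167 5 911)
(mv 847 (cons (fin 911 7 847)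
(mv 848 (cons (fin 1039 5 847)
(fin 783 7 783)))))))))
(cons (mv 1167 (cons (fin 1103 5 911)
(mv 847 (cons (fin 911 7 847)
(mv 848 (cons (fin 783 7 783)
(mv 849 (cons (fin 913 6 848)
(fin 785 6 784)))))))))
(mv 1167 (cons (fin 1103 5 911)
(mv 1169 (cons (fin 1105 4 912)
(mv 911 (cons (fin 847 7 847)
(mv 913 (cons (fin 849 6 848)
(mv 914 (cons (mv 975 (cons (fin 974 1 910)
(fin 915 1 911)))
(cons (mv 978 (cons (fin 979 0 911)
(mv 977 (cons (fin 910 0 910)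
(mv 915 (cons (fin 916 1 912)
(mv 851 (cons (fin 850 2 847)
(fin 852 2 848)))))))))
(mv 974 (cons (fin 975 1 910)
(mv 978 (cons (fin 979 0 911)
(mv 910 (cons (fin 973 1 909)
(fin 977 0 910)))))))))))))))))))))))
(cons (mv 1168 (cons (cons (mv 1231 (cons (fin 1167 5 975)
(mv 1232 (cons (fin 1295 5 1039)
(mv 1233 (cons (fin 1297 4 1040)
(fin 1169 4 976)))))))
(mv 1233 (cons (fin 1169 4 976)
(mv 1232 (cons (fin 1297 4 1040)
(mv 975 (cons (fin 1039 7 975)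
(fin 911 7 911))))))))
(cons (mv 1231 (cons (fin 1167 5 975)
(mv 1232 (cons (fin 1295 5 1039)
(mv 975 (cons (fin 1039 7 975)
(fin 911 7 911)))))))
(mv 1231 (cons (fin 1167 5 975)
(mv 1169 (cons (fin 1233 4 976)
(mv 975 (cons (fin 911 7 911)
(mv 977 (cons (fin 913 6 912)
(mv 978 (cons (cons (mv 1039 (cons (fin 979 1 975)
(mv 1042 (cons (fin 1043 0 975)
(mv 914 (cons (fin 915 2 911)
(mv 1106 (cons (fin 1105 5 913)
(mv 1171 (cons (fin 1107 4 914)
(mv 1170 (cons (fin 1103 3 1103)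
(fin 1235 4 978)))))))))))))
(mv 1042 (cons (fin 1043 0 975)
(mv 914 (cons (fin 915 2 911)
(mv 1106 (cons (fin 1105 5 913)
(mv 1171 (cons (fin 1107 4 914)
(mv 1170 (cons (fin 1103 3 1103)
(fin 1235 4 978))))))))))))
(cons (mv 979 (cons (fin 1039 1 975)
(mv 915 (cons (fin 914 2 911)
(fin 916 2 912)))))
(mv 1043 (cons (fin 1042 0 975)
(mv 979 (cons (fin 1039 1 975)
(fin 1044 0 976)))))))))))))))))))
(mv 912 (cons (cons (mv 1169 (cons (fin 1105 4 912)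
(mv 1233 (cons (fin 1168 4 976)
(mv 913 (cons (fin 849 6 848)
(mv 847 (cons (fin 911 7 847)
(mv 848 (cons (fin 783 7 783)
(mv 1039 (cons (fin 1103 5 847)
(mv 975 (cons (fin 784 5 783)
(mv 974 (cons (fin 973 2 909)
(mv 914 (cons (fin 915 1 911)
(fin 977 2 910)))))))))))))))))))
(cons (mv 1169 (cons (fin 1105 4 912)
(mv 1233 (cons (fin 1168 4 976)
(mv 849 (cons (fin 913 6 848)
(mv 848 (cons (fin 785 6 784)
(mv 1039 (cons (fin 1103 5 847)
(mv 783 (cons (fin 847 7 783)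
(mv 784 (cons (fin 975 5 783)
(fin 719 7 719)))))))))))))))
(mv 1169 (cons (fin 1105 4 912)
(mv 1233 (cons (fin 1168 4 976)
(mv 847 (cons (fin 911 7 847)
(mv 848 (cons (fin 783 7 783)
(mv 1039 (cons (fin 1103 5 847)
(mv 784 (cons (fin 975 5 783)
(mv 785 (cons (fin 849 6 784)
(fin 721 6 720)))))))))))))))))
(cons (cons (mv 1169 (cons (fin 1105 4 912)
(mv 1168 (cons (fin 1233 4 976)
(mv 913 (cons (fin 977 6 912)
(fin 849 6 848)))))))
(mv 1169 (cons (fin 1105 4 912)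
(mv 1168 (cons (fin 1233 4 976)
(mv 911 (cons (fin 975 7 911)
(fin 847 7 847))))))))
(cons (mv 911 (cons (fin 847 7 847)
(mv 1168 (cons (fin 975 7 911)
(mv 913 (cons (fin 977 6 912)
(fin 849 6 848)))))))
(mv 1169 (cons (fin 1105 4 912)
(mv 913 (cons (fin 849 6 848)
(mv 847 (cons (fin 911 7 847)
(mv 848 (cons (fin 783 7 783)
(mv 1039 (cons (fin 1103 5 847)
(mv 975 (cons (fin 784 5 783)
(mv 974 (cons (fin 973 2 909)
(mv 914 (cons (fin 915 1 911)
(fin 977 2 910)))))))))))))))))))))))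
(cons (cons (mv 1168 (cons (cons (mv 1231 (cons (fin 1167 5 975)
(mv 1295 (cons (fin 1232 5 1039)
(mv 1169 (cons (fin 1233 4 976)
(mv 912 (cons (fin 1105 4 912)
(mv 913 (cons (fin 977 6 912)
(fin 849 6 848)))))))))))
(cons (mv 1233 (cons (fin 1169 4 976)
(mv 1232 (cons (fin 1297 4 1040)
(mv 1295 (cons (fin 1231 5 1039)
(mv 1296 (cons (fin 1359 5 1103)
(mv 1039 (cons (fin 1103 7 1039)
(fin 975 7 975)))))))))))
(mv 1231 (cons (fin 1167 5 975)
(mv 1232 (cons (fin 1295 5 1039)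
(mv 1297 (cons (fin 1233 4 1040)
(mv 1296 (cons (fin 1361 4 1104)
(mv 1039 (cons (fin 1103 7 1039)
(fin 975 7 975)))))))))))))
(cons (mv 1233 (cons (fin 1169 4 976)
(mv 1232 (cons (fin 1297 4 1040)
(mv 1039 (cons (fin 975 7 975)
(mv 1103 (cons (fin 1296 7 1039)
(mv 912 (cons (fin 1167 5 911)
(fin 848 5 847)))))))))))
(cons (mv 1231 (cons (fin 1167 5 975)
(mv 1232 (cons (fin 1295 5 1039)
(mv 1039 (cons (fin 975 7 975)
(mv 1103 (cons (fin 1296 7 1039)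
(mv 912 (cons (fin 848 5 847)
(mv 913 (cons (fin 977 6 912)
(fin 849 6 848)))))))))))))
(mv 1231 (cons (fin 1167 5 975)
(mv 1169 (cons (fin 1233 4 976)
(mv 912 (cons (fin 1105 4 912)
(mv 913 (cons (fin 977 6 912)
(fin 849 6 848)))))))))))))
(mv 912 (cons (cons (mv 1167 (cons (fin 1103 5 911)
(mv 1231 (cons (fin 1168 5 975)
(mv 847 (cons (fin 911 7 847)
(mv 848 (cons (fin 783 7 783)
(mv 849 (cons (fin 913 6 848)
(fin 785 6 784)))))))))))
(mv 1167 (cons (fin 1103 5 911)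
(mv 1168 (cons (fin 1231 5 975)
(mv 913 (cons (fin 977 6 912)
(fin 849 6 848))))))))
(cons (mv 1167 (cons (fin 1103 5 911)
(mv 1168 (cons (fin 1231 5 975)
(mv 911 (cons (fin 975 7 911)
(fin 847 7 847)))))))
(cons (mv 911 (cons (fin 847 7 847)
(mv 1168 (cons (fin 975 7 911)
(mv 913 (cons (fin 977 6 912)
(fin 849 6 848)))))))
(mv 1167 (cons (fin 1103 5 911)
(mv 847 (cons (fin 911 7 847)
(mv 848 (cons (fin 783 7 783)
(mv 849 (cons (fin 913 6 848)
(fin 785 6 784))))))))))))))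
(cons (mv 1168 (cons (cons (mv 1231 (cons (fin 1167 5 975)
(mv 1295 (cons (fin 1232 5 1039)
(mv 1169 (cons (fin 1233 4 976)
(mv 911 (cons (fin 975 7 911)
(mv 912 (cons (fin 847 7 847)
(fin 1105 4 912)))))))))))
(mv 1233 (cons (fin 1169 4 976)
(mv 1232 (cons (fin 1297 4 1040)
(mv 975 (cons (fin 1039 7 975)
(fin 911 7 911))))))))
(cons (mv 1231 (cons (fin 1167 5 975)
(mv 1232 (cons (fin 1295 5 1039)
(mv 975 (cons (fin 1039 7 975)
(fin 911 7 911)))))))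
(cons (mv 1231 (cons (fin 1167 5 975)
(mv 1232 (cons (fin 1295 5 1039)
(mv 1233 (cons (fin 1297 4 1040)
(fin 1169 4 976)))))))
(mv 1231 (cons (fin 1167 5 975)
(mv 1169 (cons (fin 1233 4 976)
(mv 911 (cons (fin 975 7 911)
(mv 912 (cons (fin 847 7 847)
(fin 1105 4 912)))))))))))))
(mv 912 (cons (cons (mv 1167 (cons (fin 1103 5 911)
(mv 1231 (cons (fin 1168 5 975)
(mv 1169 (cons (fin 1105 4 912)
(mv 847 (cons (fin 911 7 847)
(mv 848 (cons (fin 783 7 783)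
(mv 849 (cons (fin 913 6 848)
(fin 785 6 784)))))))))))))
(mv 1169 (cons (fin 1105 4 912)
(mv 1233 (cons (fin 1168 4 976)
(mv 847 (cons (fin 911 7 847)
(mv 848 (cons (fin 783 7 783)
(mv 849 (cons (fin 913 6 848)
(fin 785 6 784))))))))))))
(cons (mv 1167 (cons (fin 1103 5 911)
(mv 1168 (cons (fin 1231 5 975)
(mv 1169 (cons (fin 1233 4 976)
(fin 1105 4 912)))))))
(cons (mv 1167 (cons (fin 1103 5 911)
(mv 1231 (cons (fin 1168 5 975)
(mv 847 (cons (fin 911 7 847)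
(mv 848 (cons (fin 783 7 783)
(mv 849 (cons (fin 913 6 848)
(fin 785 6 784)))))))))))
(mv 1167 (cons (fin 1103 5 911)
(mv 1169 (cons (fin 1105 4 912)
(mv 847 (cons (fin 911 7 847)
(mv 848 (cons (fin 783 7 783)
(mv 849 (cons (fin 913 6 848)
(fin 785 6 784)))))))))))))))))))))
(cons (mv 976 (cons (cons (cons (mv 1168 (cons (cons (mv 1231 (cons (fin 1167 5 975)
(mv 1295 (cons (fin 1232 5 1039)
(mv 1233 (cons (fin 1169 4 976)
(mv 975 (cons (fin 911 7 911)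
(mv 977 (cons (fin 913 6 912)
(mv 1038 (cons (fin 974 1 973)
(fin 1039 2 973)))))))))))))
(mv 1231 (cons (fin 1167 5 975)
(mv 1232 (cons (fin 1295 5 1039)
(mv 1233 (cons (fin 1297 4 1040)
(fin 1169 4 976))))))))
(cons (mv 1233 (cons (fin 1169 4 976)
(mv 1297 (cons (fin 1232 4 1040)
(mv 975 (cons (fin 911 7 911)
(mv 977 (cons (fin 913 6 912)
(mv 1038 (cons (fin 974 1 973)
(fin 1039 2 973)))))))))))
(cons (mv 1231 (cons (fin 1167 5 975)
(mv 1295 (cons (fin 1232 5 1039)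
(mv 975 (cons (fin 911 7 911)
(mv 977 (cons (fin 913 6 912)
(mv 1038 (cons (fin 974 1 973)
(fin 1039 2 973)))))))))))
(mv 1231 (cons (fin 1167 5 975)
(mv 1233 (cons (fin 1169 4 976)
(mv 975 (cons (fin 911 7 911)
(mv 977 (cons (fin 913 6 912)
(mv 1038 (cons (fin 974 1 973)
(fin 1039 2 973)))))))))))))))
(mv 912 (cons (cons (mv 1167 (cons (fin 1103 5 911)
(mv 847 (cons (fin 911 7 847)
(mv 848 (cons (fin 783 7 783)
(mv 849 (cons (fin 913 6 848)
(fin 785 6 784)))))))))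
(mv 847 (cons (fin 911 7 847)
(mv 848 (cons (fin 783 7 783)
(mv 849 (cons (fin 913 6 848)
(fin 785 6 784))))))))
(cons (mv 1103 (cons (fin 1167 5 911)
(mv 1039 (cons (fin 848 5 847)
(mv 1038 (cons (fin 1036 0 1036)
(fin 977 2 973)))))))
(mv 1167 (cons (fin 1103 5 911)
(mv 911 (cons (fin 847 7 847)
(mv 913 (cons (fin 849 6 848)
(mv 914 (cons (mv 975 (cons (fin 974 1 910)
(fin 915 1 911)))
(cons (mv 978 (cons (fin 979 0 911)
(mv 977 (cons (fin 910 0 910)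
(mv 1038 (cons (fin 1039 2 973)
(mv 915 (cons (fin 916 1 912)
(mv 851 (cons (fin 850 2 847)
(fin 852 2 848)))))))))))
(mv 974 (cons (fin 975 1 910)
(mv 978 (cons (fin 979 0 911)
(mv 910 (cons (fin 973 1 909)
(fin 977 0 910))))))))))))))))))))
(cons (mv 1168 (cons (cons (mv 1231 (cons (fin 1167 5 975)
(mv 1232 (cons (fin 1295 5 1039)
(mv 1233 (cons (fin 1297 4 1040)
(fin 1169 4 976)))))))
(mv 1233 (cons (fin 1169 4 976)
(mv 1232 (cons (fin 1297 4 1040)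
(mv 975 (cons (fin 1039 7 975)
(fin 911 7 911))))))))
(cons (mv 1231 (cons (fin 1167 5 975)
(mv 1232 (cons (fin 1295 5 1039)
(mv 975 (cons (fin 1039 7 975)
(fin 911 7 911)))))))
(mv 1233 (cons (fin 1169 4 976)
(mv 1167 (cons (fin 1231 5 975)
(mv 975 (cons (fin 911 7 911)
(mv 912 (cons (fin 1103 5 911)
(mv 849 (cons (fin 913 6 848)
(mv 848 (cons (fin 785 6 784)
(mv 783 (cons (fin 847 7 783)
(mv 784 (cons (fin 1039 5 783)
(fin 719 7 719))))))))))))))))))))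
(mv 1168 (cons (cons (mv 1231 (cons (fin 1167 5 975)
(mv 1232 (cons (fin 1295 5 1039)
(mv 1233 (cons (fin 1297 4 1040)
(fin 1169 4 976)))))))
(mv 1233 (cons (fin 1169 4 976)
(mv 1232 (cons (fin 1297 4 1040)
(mv 1295 (cons (fin 1231 5 1039)
(mv 1359 (cons (fin 1296 5 1103)
(mv 1039 (cons (fin 975 7 975)
(mv 977 (cons (fin 1038 2 973)
(fin 913 6 912))))))))))))))
(cons (mv 1233 (cons (fin 1169 4 976)
(mv 1297 (cons (fin 1232 4 1040)
(mv 913 (cons (fin 977 6 912)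
(mv 912 (cons (fin 849 6 848)
(mv 1103 (cons (fin 1167 5 911)
(mv 1039 (cons (fin 848 5 847)
(mv 1038 (cons (fin 1036 0 1036)
(mv 1101 (cons (fin 1100 1 1036)
(mv 973 (cons (fin 972 3 972)
(mv 974 (cons (fin 975 2 909)
(mv 1165 (cons (fin 1229 6 973)
(fin 910 6 909)))))))))))))))))))))))
(cons (mv 1231 (cons (fin 1167 5 975)
(mv 1232 (cons (fin 1295 5 1039)
(mv 1039 (cons (fin 975 7 975)
(mv 977 (cons (fin 1038 2 973)
(fin 913 6 912)))))))))
(mv 1233 (cons (fin 1169 4 976)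
(mv 1167 (cons (fin 1231 5 975)
(mv 1103 (cons (fin 912 5 911)
(mv 977 (cons (fin 913 6 912)
(mv 1038 (cons (fin 1039 2 973)
(mv 974 (cons (fin 975 1 973)
(mv 1102 (cons (fin 910 4 910)
(mv 1101 (cons (fin 1036 3 1036)
(fin 1100 0 1100)))))))))))))))))))))))
(cons (cons (mv 1168 (cons (cons (mv 1233 (cons (fin 1169 4 976)
(mv 1297 (cons (fin 1232 4 1040)
(mv 975 (cons (fin 911 7 911)
(mv 977 (cons (fin 913 6 912)
(mv 1038 (cons (fin 974 1 973)
(fin 1039 2 973)))))))))))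
(cons (mv 1233 (cons (fin 1169 4 976)
(mv 1232 (cons (fin 1297 4 1040)
(mv 1295 (cons (fin 1231 5 1039)
(mv 1296 (cons (fin 1359 5 1103)
(mv 1293 (cons (fin 1294 2 1229)
(mv 1234 (cons (fin 1235 1 1231)
(mv 1039 (cons (fin 1103 7 1039)
(mv 977 (cons (fin 1038 2 973)
(fin 913 6 912)))))))))))))))))
(mv 1233 (cons (fin 1169 4 976)
(mv 1232 (cons (fin 1297 4 1040)
(mv 975 (cons (fin 1039 7 975)
(fin 911 7 911)))))))))
(cons (mv 975 (cons (fin 911 7 911)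
(mv 1039 (cons (fin 1232 7 975)
(mv 1038 (cons (fin 1036 2 972)
(fin 977 2 973)))))))
(cons (mv 1233 (cons (fin 1169 4 976)
(mv 975 (cons (fin 911 7 911)
(mv 977 (cons (fin 913 6 912)
(mv 1038 (cons (fin 974 1 973)
(fin 1039 2 973)))))))))
(mv 1233 (cons (fin 1169 4 976)
(mv 1297 (cons (fin 1232 4 1040)
(mv 911 (cons (fin 975 7 911)
(mv 912 (cons (fin 847 7 847)
(mv 913 (cons (fin 977 6 912)
(fin 849 6 848)))))))))))))))
(mv 1168 (cons (cons (mv 1231 (cons (fin 1167 5 975)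
(mv 1232 (cons (fin 1295 5 1039)
(mv 1233 (cons (fin 1297 4 1040)
(fin 1169 4 976)))))))
(mv 1233 (cons (fin 1169 4 976)
(mv 1232 (cons (fin 1297 4 1040)
(mv 975 (cons (fin 1039 7 975)
(fin 911 7 911))))))))
(cons (mv 1231 (cons (fin 1167 5 975)
(mv 1232 (cons (fin 1295 5 1039)
(mv 975 (cons (fin 1039 7 975)
(fin 911 7 911)))))))
(mv 1233 (cons (fin 1169 4 976)
(mv 1167 (cons (fin 1231 5 975)
(mv 911 (cons (fin 975 7 911)
(mv 912 (cons (fin 1103 5 911)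
(fin 847 7 847)))))))))))))
(cons (mv 1168 (cons (cons (mv 1231 (cons (fin 1167 5 975)
(mv 1295 (cons (fin 1232 5 1039)
(mv 1233 (cons (fin 1169 4 976)
(mv 911 (cons (fin 975 7 911)
(mv 912 (cons (fin 847 7 847)
(mv 913 (cons (fin 977 6 912)
(fin 849 6 848)))))))))))))
(mv 1233 (cons (fin 1169 4 976)
(mv 1297 (cons (fin 1232 4 1040)
(mv 911 (cons (fin 975 7 911)
(mv 912 (cons (fin 847 7 847)
(mv 913 (cons (fin 977 6 912)
(fin 849 6 848))))))))))))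
(cons (mv 1231 (cons (fin 1167 5 975)
(mv 1295 (cons (fin 1232 5 1039)
(mv 911 (cons (fin 975 7 911)
(mv 912 (cons (fin 847 7 847)
(mv 913 (cons (fin 977 6 912)
(fin 849 6 848)))))))))))
(cons (mv 1231 (cons (fin 1167 5 975)
(mv 1232 (cons (fin 1295 5 1039)
(mv 1233 (cons (fin 1297 4 1040)
(fin 1169 4 976)))))))
(mv 1231 (cons (fin 1167 5 975)
(mv 1233 (cons (fin 1169 4 976)
(mv 911 (cons (fin 975 7 911)
(mv 912 (cons (fin 847 7 847)
(mv 913 (cons (fin 977 6 912)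
(fin 849 6 848)))))))))))))))
(mv 912 (cons (cons (mv 1167 (cons (fin 1103 5 911)
(mv 1231 (cons (fin 1168 5 975)
(mv 847 (cons (fin 911 7 847)
(mv 848 (cons (fin 783 7 783)
(mv 849 (cons (fin 913 6 848)
(fin 785 6 784)))))))))))
(mv 911 (cons (fin 847 7 847)
(mv 913 (cons (fin 849 6 848)
(mv 1168 (cons (fin 977 6 912)
(mv 1231 (cons (fin 1167 5 975)
(mv 1232 (cons (fin 1295 5 1039)
(mv 1233 (cons (fin 1297 4 1040)
(fin 1169 4 976))))))))))))))
(cons (mv 1103 (cons (fin 1167 5 911)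
(mv 1039 (cons (fin 848 5 847)
(mv 1038 (cons (fin 1036 0 1036)
(fin 977 2 973)))))))
(mv 911 (cons (fin 847 7 847)
(mv 913 (cons (fin 849 6 848)
(mv 977 (cons (fin 1168 6 912)
(mv 978 (cons (fin 979 3 911)
(fin 910 0 910))))))))))))))))
(cons (mv 1038 (cons (cons (mv 1039 (cons (fin 1105 0 1037)
(mv 1100 (cons (fin 1101 1 1036)
(mv 1036 (cons (fin 1099 1 1035)
(fin 1103 0 1036)))))))
(cons (mv 1102 (cons (cons (mv 1103 (cons (fin 1105 3 1037)
(mv 1036 (cons (fin 1101 3 1036)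
(fin 1035 0 1035)))))
(mv 1166 (cons (cons (mv 1230 (cons (fin 973 7 973)
(mv 1293 (cons (fin 1229 5 1037)
(mv 1294 (cons (fin 1357 5 1101)
(fin 1101 7 1037)))))))
(mv 974 (cons (cons (cons (mv 1229 (cons (fin 1165 5 973)
(mv 1231 (cons (fin 1167 4 974)
(mv 973 (cons (fin 909 7 909)
(mv 911 (cons (fin 975 6 910)
(mv 910 (cons (fin 847 6 846)
(mv 846 (cons (fin 1101 5 845)
(fin 782 5 781)))))))))))))
(mv 1229 (cons (fin 1165 5 973)
(mv 1231 (cons (fin 1167 4 974)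
(mv 911 (cons (fin 975 6 910)
(mv 910 (cons (fin 847 6 846)
(mv 846 (cons (fin 1101 5 845)
(mv 781 (cons (fin 845 7 781)
(mv 782 (cons (fin 973 5 781)
(fin 717 7 717))))))))))))))))
(cons (mv 1229 (cons (fin 1165 5 973)
(mv 1231 (cons (fin 1167 4 974)
(mv 911 (cons (fin 975 6 910)
(mv 910 (cons (fin 847 6 846)
(mv 845 (cons (fin 909 7 845)
(mv 846 (cons (fin 1101 5 845)
(fin 781 7 781)))))))))))))
(mv 1231 (cons (fin 1167 4 974)
(mv 973 (cons (fin 909 7 909)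
(mv 911 (cons (fin 975 6 910)
(mv 910 (cons (fin 847 6 846)
(mv 846 (cons (fin 1101 5 845)
(fin 782 5 781)))))))))))))
(cons (cons (mv 1231 (cons (fin 1167 4 974)
(mv 1165 (cons (fin 1229 5 973)
(mv 909 (cons (fin 973 7 909)
(mv 910 (cons (fin 1101 5 909)
(fin 845 7 845)))))))))
(mv 1229 (cons (fin 1165 5 973)
(mv 973 (cons (fin 909 7 909)
(mv 911 (cons (fin 975 6 910)
(mv 910 (cons (fin 847 6 846)
(mv 846 (cons (fin 1101 5 845)
(fin 782 5 781))))))))))))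
(cons (mv 1229 (cons (fin 1165 5 973)
(mv 1231 (cons (fin 1167 4 974)
(mv 909 (cons (fin 973 7 909)
(mv 910 (cons (fin 845 7 845)
(mv 911 (cons (fin 975 6 910)
(fin 847 6 846)))))))))))
(mv 1165 (cons (fin 1229 5 973)
(mv 1167 (cons (fin 1231 4 974)
(mv 1168 (cons (fin 1105 2 1101)
(mv 1101 (cons (fin 1100 3 1100)
(fin 1169 3 1101))))))))))))))
(cons (mv 974 (cons (cons (mv 1229 (cons (fin 1165 5 973)
(mv 1293 (cons (fin 1230 5 1037)
(mv 1231 (cons (fin 1167 4 974)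
(mv 911 (cons (fin 975 6 910)
(mv 910 (cons (fin 847 6 846)
(mv 845 (cons (fin 909 7 845)
(mv 846 (cons (fin 1101 5 845)
(fin 781 7 781)))))))))))))))
(mv 1231 (cons (fin 1167 4 974)
(mv 1295 (cons (fin 1230 4 1038)
(mv 1232 (cons (fin 1168 5 1039)
(mv 911 (cons (fin 975 6 910)
(mv 910 (cons (fin 847 6 846)
(mv 845 (cons (fin 909 7 845)
(mv 846 (cons (fin 1101 5 845)
(fin 781 7 781))))))))))))))))
(cons (mv 1229 (cons (fin 1165 5 973)
(mv 1293 (cons (fin 1230 5 1037)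
(mv 911 (cons (fin 975 6 910)
(mv 910 (cons (fin 847 6 846)
(mv 845 (cons (fin 909 7 845)
(mv 846 (cons (fin 1101 5 845)
(fin 781 7 781)))))))))))))
(cons (mv 1229 (cons (fin 1165 5 973)
(mv 1230 (cons (fin 1293 5 1037)
(mv 1231 (cons (fin 1295 4 1038)
(fin 1167 4 974)))))))
(mv 1229 (cons (fin 1165 5 973)
(mv 1231 (cons (fin 1167 4 974)
(mv 911 (cons (fin 975 6 910)
(mv 910 (cons (fin 847 6 846)
(mv 845 (cons (fin 909 7 845)
(mv 846 (cons (fin 1101 5 845)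
(fin 781 7 781)))))))))))))))))
(cons (mv 1230 (cons (fin 973 7 973)
(mv 1293 (cons (fin 1229 5 1037)
(mv 1294 (cons (fin 1357 5 1101)
(mv 1295 (cons (fin 1359 4 1102)
(fin 1231 4 1038)))))))))
(mv 1230 (cons (fin 973 7 973)
(mv 1294 (cons (fin 1101 7 1037)
(mv 1295 (cons (fin 1359 4 1102)
(fin 1231 4 1038))))))))))))
(cons (mv 973 (cons (cons (mv 1166 (cons (fin 1230 7 973)
(mv 909 (cons (fin 974 7 909)
(fin 1101 4 909)))))
(mv 909 (cons (fin 845 4 845)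
(mv 1101 (cons (cons (mv 1164 (cons (fin 1100 5 908)
(mv 1165 (cons (fin 1103 1 1100)
(fin 1228 5 972)))))
(mv 1164 (cons (fin 1100 5 908)
(mv 1165 (cons (fin 1228 5 972)
(mv 1229 (cons (fin 1293 6 1037)
(fin 974 6 973))))))))
(cons (mv 1103 (cons (fin 1036 3 1036)
(mv 1168 (cons (fin 1169 0 1101)
(mv 1167 (cons (fin 1100 0 1100)
(mv 910 (cons (fin 974 4 910)
(fin 846 6 845)))))))))
(mv 1103 (cons (fin 1036 3 1036)
(mv 1164 (cons (fin 1165 1 1100)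
(mv 1168 (cons (fin 1169 0 1101)
(mv 910 (cons (fin 846 6 845)
(mv 974 (cons (fin 1167 4 910)
(mv 911 (cons (fin 847 6 846)
(mv 972 (cons (fin 912 1 908)
(fin 971 2 907)))))))))))))))))))))
(cons (mv 1166 (cons (fin 1230 7 973)
(mv 974 (cons (cons (mv 1229 (cons (fin 1165 5 973)
(mv 1231 (cons (fin 1167 4 974)
(mv 911 (cons (fin 975 6 910)
(mv 910 (cons (fin 847 6 846)
(mv 846 (cons (fin 1101 5 845)
(fin 782 5 781)))))))))))
(cons (mv 1231 (cons (fin 1167 4 974)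
(mv 911 (cons (fin 975 6 910)
(mv 910 (cons (fin 847 6 846)
(mv 846 (cons (fin 1101 5 845)
(fin 782 5 781)))))))))
(mv 1229 (cons (fin 1165 5 973)
(mv 911 (cons (fin 975 6 910)
(mv 910 (cons (fin 847 6 846)
(mv 846 (cons (fin 1101 5 845)
(fin 782 5 781)))))))))))
(cons (mv 1229 (cons (fin 1165 5 973)
(mv 1167 (cons (fin 1231 4 974)
(mv 1103 (cons (fin 910 4 910)
(mv 1036 (cons (fin 1101 3 1036)
(fin 1035 0 1035)))))))))
(cons (mv 1231 (cons (fin 1167 4 974)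
(mv 1165 (cons (fin 1229 5 973)
(mv 975 (cons (fin 911 6 910)
(mv 1036 (cons (fin 1035 2 971)
(mv 1101 (cons (fin 1103 3 1036)
(mv 1164 (cons (fin 1228 5 972)
(mv 1163 (cons (fin 1162 2 1098)
(mv 1227 (cons (fin 1226 1 1162)
(mv 1099 (cons (fin 1098 3 1098)
(mv 1100 (cons (fin 972 5 971)
(fin 1291 6 1035)))))))))))))))))))))
(mv 1229 (cons (fin 1165 5 973)
(mv 1167 (cons (fin 1231 4 974)
(mv 910 (cons (fin 1103 4 910)
(mv 911 (cons (fin 975 6 910)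
(fin 847 6 846)))))))))))))))
(cons (mv 1166 (cons (fin 1230 7 973)
(mv 909 (cons (fin 974 7 909)
(fin 845 4 845)))))
(mv 1166 (cons (fin 1230 7 973)
(mv 909 (cons (fin 1101 4 909)
(fin 845 4 845)))))))))
(mv 1103 (cons (fin 1105 3 1037)
(mv 1035 (cons (fin 1036 0 1035)
(mv 1166 (cons (cons (mv 1230 (cons (fin 973 7 973)
(mv 1293 (cons (fin 1229 5 1037)
(mv 1294 (cons (fin 1357 5 1101)
(mv 1295 (cons (fin 1359 4 1102)
(fin 1231 4 1038)))))))))
(mv 974 (cons (mv 1167 (cons (fin 1231 4 974)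
(fin 910 4 910)))
(cons (mv 1229 (cons (fin 1165 5 973)
(mv 909 (cons (fin 973 7 909)
(mv 910 (cons (fin 845 7 845)
(mv 911 (cons (fin 975 6 910)
(fin 847 6 846)))))))))
(mv 1165 (cons (fin 1229 5 973)
(mv 1164 (cons (fin 1163 2 1099)
(fin 1167 2 1100)))))))))
(cons (mv 1165 (cons (mv 1164 (cons (fin 1163 2 1099)
(fin 1167 2 1100)))
(mv 1229 (cons (fin 974 5 973)
(mv 1293 (cons (fin 1230 5 1037)
(fin 1357 6 1101)))))))
(mv 1230 (cons (fin 973 7 973)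
(mv 1295 (cons (fin 1231 4 1038)
(mv 1294 (cons (fin 1359 4 1102)
(mv 1357 (cons (fin 1293 5 1101)
(mv 1358 (cons (fin 1421 5 1165)
(fin 1167 6 1102)))))))))))))))))))))
(mv 1039 (cons (cons (mv 1100 (cons (fin 1101 1 1036)
(mv 1036 (cons (fin 1099 1 1035)
(fin 1103 0 1036)))))
(mv 1101 (cons (fin 1100 1 1036)
(mv 973 (cons (fin 972 3 972)
(mv 1165 (cons (mv 974 (cons (fin 1229 6 973)
(fin 910 6 909)))
(cons (mv 1228 (cons (fin 1164 5 972)
(mv 1229 (cons (fin 1292 5 1036)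
(mv 1230 (cons (fin 1294 4 1037)
(fin 1166 4 973)))))))
(mv 1228 (cons (fin 1164 5 972)
(mv 1230 (cons (fin 1166 4 973)
(mv 910 (cons (fin 974 6 909)
(mv 909 (cons (fin 846 6 845)
(mv 845 (cons (fin 1102 4 845)
(mv 844 (cons (fin 780 7 780)
(mv 911 (cons (fin 912 3 844)
(mv 975 (cons (fin 847 4 847)
(mv 1168 (cons (fin 1232 7 975)
(fin 1103 4 911)))))))))))))))))))))))))))
(cons (mv 1036 (cons (fin 1103 0 1036)
(mv 972 (cons (fin 971 3 971)
(fin 973 3 972)))))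
(mv 1100 (cons (fin 1101 1 1036)
(mv 1036 (cons (fin 1099 1 1035)
(mv 972 (cons (fin 971 3 971)
(fin 973 3 972))))))))))))
(cons (mv 1039 (cons (fin 1105 0 1037)
(mv 1100 (cons (fin 1101 1 1036)
(mv 1036 (cons (fin 1099 1 1035)
(mv 972 (cons (fin 971 3 971)
(fin 973 3 972)))))))))
(cons (mv 1039 (cons (fin 1105 0 1037)
(mv 1101 (cons (fin 1100 1 1036)
(mv 973 (cons (fin 972 3 972)
(mv 1165 (cons (mv 974 (cons (fin 1229 6 973)
(fin 910 6 909)))
(cons (mv 1228 (cons (fin 1164 5 972)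
(mv 1229 (cons (fin 1292 5 1036)
(mv 1230 (cons (fin 1294 4 1037)
(fin 1166 4 973)))))))
(mv 1228 (cons (fin 1164 5 972)
(mv 1230 (cons (fin 1166 4 973)
(mv 910 (cons (fin 974 6 909)
(mv 909 (cons (fin 846 6 845)
(mv 845 (cons (fin 1102 4 845)
(mv 844 (cons (fin 780 7 780)
(mv 911 (cons (fin 912 3 844)
(mv 975 (cons (fin 847 4 847)
(mv 1168 (cons (fin 1232 7 975)
(fin 1103 4 911))))))))))))))))))))))))))))
(mv 1039 (cons (fin 1105 0 1037)
(mv 1036 (cons (fin 1103 0 1036)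
(mv 972 (cons (fin 971 3 971)
(fin 973 3 972)))))))))))
(mv 1038 (cons (cons (mv 1039 (cons (fin 1105 0 1037)
(mv 1100 (cons (fin 1101 1 1036)
(mv 1036 (cons (fin 1099 1 1035)
(fin 1103 0 1036)))))))
(cons (mv 1102 (cons (cons (mv 1103 (cons (fin 1105 3 1037)
(mv 1036 (cons (fin 1101 3 1036)
(fin 1035 0 1035)))))
(mv 1166 (cons (cons (mv 1230 (cons (fin 973 7 973)
(mv 1293 (cons (fin 1229 5 1037)
(mv 1294 (cons (fin 1357 5 1101)
(fin 1101 7 1037)))))))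
(mv 974 (cons (cons (mv 1229 (cons (fin 1165 5 973)
(mv 1231 (cons (fin 1167 4 974)
(mv 973 (cons (fin 909 7 909)
(mv 975 (cons (fin 911 6 910)
(mv 1036 (cons (fin 976 1 972)
(fin 1035 2 971)))))))))))
(cons (mv 1229 (cons (fin 1165 5 973)
(mv 1231 (cons (fin 1167 4 974)
(mv 975 (cons (fin 911 6 910)
(mv 1036 (cons (fin 1035 2 971)
(mv 976 (cons (fin 973 1 972)
(fin 977 1 973)))))))))))
(mv 1229 (cons (fin 1165 5 973)
(mv 1231 (cons (fin 1167 4 974)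
(mv 911 (cons (fin 975 6 910)
(mv 910 (cons (fin 847 6 846)
(mv 845 (cons (fin 909 7 845)
(mv 846 (cons (fin 1101 5 845)
(fin 781 7 781)))))))))))))))
(cons (cons (mv 1231 (cons (fin 1167 4 974)
(mv 973 (cons (fin 909 7 909)
(mv 975 (cons (fin 911 6 910)
(mv 1036 (cons (fin 976 1 972)
(fin 1035 2 971)))))))))
(mv 1229 (cons (fin 1165 5 973)
(mv 1231 (cons (fin 1167 4 974)
(mv 909 (cons (fin 973 7 909)
(mv 910 (cons (fin 845 7 845)
(mv 846 (cons (fin 1101 5 845)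
(mv 847 (cons (fin 911 6 846)
(fin 783 6 782))))))))))))))
(cons (mv 1231 (cons (fin 1167 4 974)
(mv 1165 (cons (fin 1229 5 973)
(mv 909 (cons (fin 973 7 909)
(mv 910 (cons (fin 1101 5 909)
(fin 845 7 845)))))))))
(mv 1229 (cons (fin 1165 5 973)
(mv 973 (cons (fin 909 7 909)
(mv 975 (cons (fin 911 6 910)
(mv 1036 (cons (fin 976 1 972)
(fin 1035 2 971))))))))))))))
(cons (mv 974 (cons (cons (mv 1229 (cons (fin 1165 5 973)
(mv 1293 (cons (fin 1230 5 1037)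
(mv 1231 (cons (fin 1167 4 974)
(mv 911 (cons (fin 975 6 910)
(mv 910 (cons (fin 847 6 846)
(mv 845 (cons (fin 909 7 845)
(mv 846 (cons (fin 1101 5 845)
(fin 781 7 781)))))))))))))))
(mv 1231 (cons (fin 1167 4 974)
(mv 1295 (cons (fin 1230 4 1038)
(mv 911 (cons (fin 975 6 910)
(mv 910 (cons (fin 847 6 846)
(mv 845 (cons (fin 909 7 845)
(mv 846 (cons (fin 1101 5 845)
(fin 781 7 781))))))))))))))
(cons (mv 1229 (cons (fin 1165 5 973)
(mv 1230 (cons (fin 1293 5 1037)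
(mv 1231 (cons (fin 1295 4 1038)
(fin 1167 4 974)))))))
(cons (mv 1229 (cons (fin 1165 5 973)
(mv 1293 (cons (fin 1230 5 1037)
(mv 911 (cons (fin 975 6 910)
(mv 910 (cons (fin 847 6 846)
(mv 845 (cons (fin 909 7 845)
(mv 846 (cons (fin 1101 5 845)
(fin 781 7 781)))))))))))))
(mv 1229 (cons (fin 1165 5 973)
(mv 1231 (cons (fin 1167 4 974)
(mv 911 (cons (fin 975 6 910)
(mv 910 (cons (fin 847 6 846)
(mv 845 (cons (fin 909 7 845)
(mv 846 (cons (fin 1101 5 845)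
(fin 781 7 781)))))))))))))))))
(cons (mv 1230 (cons (fin 973 7 973)
(mv 1293 (cons (fin 1229 5 1037)
(mv 1294 (cons (fin 1357 5 1101)
(mv 1295 (cons (fin 1359 4 1102)
(fin 1231 4 1038)))))))))
(mv 1230 (cons (fin 973 7 973)
(mv 1294 (cons (fin 1101 7 1037)
(mv 1295 (cons (fin 1359 4 1102)
(fin 1231 4 1038))))))))))))
(cons (mv 1103 (cons (fin 1105 3 1037)
(mv 973 (cons (cons (mv 1166 (cons (fin 1230 7 973)
(mv 909 (cons (fin 974 7 909)
(fin 1101 4 909)))))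
(mv 909 (cons (fin 845 4 845)
(mv 1101 (cons (mv 1164 (cons (fin 1165 1 1100)
(fin 1100 5 908)))
(cons (mv 910 (cons (fin 846 6 845)
(mv 974 (cons (fin 1165 5 909)
(fin 1167 4 910)))))
(mv 1164 (cons (fin 1100 5 908)
(mv 910 (cons (fin 846 6 845)
(mv 974 (cons (fin 1167 4 910)
(mv 911 (cons (fin 847 6 846)
(mv 972 (cons (fin 912 1 908)
(fin 971 2 907)))))))))))))))))
(cons (mv 1166 (cons (fin 1230 7 973)
(mv 974 (cons (mv 1167 (cons (fin 1231 4 974)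
(fin 910 4 910)))
(cons (mv 1229 (cons (fin 1165 5 973)
(mv 911 (cons (fin 975 6 910)
(mv 910 (cons (fin 847 6 846)
(mv 846 (cons (fin 1101 5 845)
(fin 782 5 781)))))))))
(mv 1229 (cons (fin 1165 5 973)
(mv 1167 (cons (fin 1231 4 974)
(mv 975 (cons (fin 911 6 910)
(mv 976 (cons (fin 977 1 973)
(fin 912 5 911))))))))))))))
(cons (mv 1166 (cons (fin 1230 7 973)
(mv 909 (cons (fin 1101 4 909)
(fin 845 4 845)))))
(mv 1166 (cons (fin 1230 7 973)
(mv 909 (cons (fin 974 7 909)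
(fin 845 4 845)))))))))))
(mv 1103 (cons (fin 1105 3 1037)
(mv 1035 (cons (fin 1036 0 1035)
(mv 1166 (cons (cons (mv 1230 (cons (fin 973 7 973)
(mv 1293 (cons (fin 1229 5 1037)
(mv 1294 (cons (fin 1357 5 1101)
(mv 1295 (cons (fin 1359 4 1102)
(fin 1231 4 1038)))))))))
(mv 974 (cons (mv 1167 (cons (fin 1231 4 974)
(fin 910 4 910)))
(cons (mv 1229 (cons (fin 1165 5 973)
(mv 909 (cons (fin 973 7 909)
(mv 910 (cons (fin 845 7 845)
(mv 911 (cons (fin 975 6 910)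
(fin 847 6 846)))))))))
(mv 1229 (cons (fin 1165 5 973)
(mv 1167 (cons (fin 1231 4 974)
(mv 973 (cons (fin 909 7 909)
(mv 975 (cons (fin 911 6 910)
(mv 976 (cons (fin 977 1 973)
(fin 912 5 911)))))))))))))))
(cons (mv 1165 (cons (mv 1164 (cons (fin 1163 2 1099)
(fin 1167 2 1100)))
(mv 1229 (cons (fin 974 5 973)
(mv 1293 (cons (fin 1230 5 1037)
(fin 1357 6 1101)))))))
(mv 1230 (cons (fin 973 7 973)
(mv 1295 (cons (fin 1231 4 1038)
(mv 1294 (cons (fin 1359 4 1102)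
(mv 1357 (cons (fin 1293 5 1101)
(mv 1358 (cons (fin 1421 5 1165)
(fin 1167 6 1102)))))))))))))))))))))
(mv 1039 (cons (cons (mv 1100 (cons (fin 1101 1 1036)
(mv 1036 (cons (fin 1099 1 1035)
(fin 1103 0 1036)))))
(mv 1100 (cons (fin 1101 1 1036)
(mv 973 (cons (fin 972 3 972)
(mv 976 (cons (fin 977 2 973)
(mv 912 (cons (mv 1103 (cons (fin 1167 5 911)
(fin 848 5 847)))
(mv 911 (cons (fin 847 7 847)
(mv 913 (cons (fin 849 6 848)
(mv 974 (cons (fin 910 1 909)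
(fin 975 2 909))))))))))))))))
(cons (mv 1103 (cons (fin 1036 0 1036)
(mv 972 (cons (fin 973 3 972)
(mv 976 (cons (fin 977 2 973)
(mv 1167 (cons (fin 912 5 911)
(fin 1231 6 975)))))))))
(mv 1100 (cons (fin 1101 1 1036)
(mv 1036 (cons (fin 1099 1 1035)
(mv 972 (cons (fin 971 3 971)
(fin 973 3 972))))))))))))
(cons (mv 1039 (cons (fin 1105 0 1037)
(mv 1100 (cons (fin 1101 1 1036)
(mv 1036 (cons (fin 1099 1 1035)
(mv 972 (cons (fin 971 3 971)
(fin 973 3 972)))))))))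
(cons (mv 1039 (cons (fin 1105 0 1037)
(mv 1100 (cons (fin 1101 1 1036)
(mv 973 (cons (fin 972 3 972)
(mv 976 (cons (fin 977 2 973)
(mv 912 (cons (mv 1103 (cons (fin 1167 5 911)
(fin 848 5 847)))
(mv 911 (cons (fin 847 7 847)
(mv 913 (cons (fin 849 6 848)
(mv 974 (cons (fin 910 1 909)
(fin 975 2 909)))))))))))))))))
(mv 1039 (cons (fin 1105 0 1037)
(mv 1103 (cons (fin 1036 0 1036)
(mv 972 (cons (fin 973 3 972)
(mv 976 (cons (fin 977 2 973)
(mv 1167 (cons (fin 912 5 911)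
(fin 1231 6 975))))))))))))))))))
(cons (cons (mv 1039 (cons (mv 1038 (cons (fin 1105 0 1037)
(mv 1100 (cons (fin 1101 1 1036)
(mv 1036 (cons (fin 1099 1 1035)
(mv 972 (cons (fin 971 3 971)
(fin 973 3 972)))))))))
(cons (mv 1168 (cons (cons (mv 1232 (cons (fin 975 7 975)
(mv 1295 (cons (fin 1231 5 1039)
(mv 1296 (cons (fin 1359 5 1103)
(mv 1297 (cons (fin 1361 4 1104)
(fin 1233 4 1040)))))))))
(mv 976 (cons (cons (mv 1231 (cons (fin 1167 5 975)
(mv 1233 (cons (fin 1169 4 976)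
(mv 911 (cons (fin 975 7 911)
(mv 912 (cons (fin 847 7 847)
(mv 913 (cons (fin 977 6 912)
(fin 849 6 848)))))))))))
(cons (mv 1231 (cons (fin 1167 5 975)
(mv 1169 (cons (fin 1233 4 976)
(mv 912 (cons (fin 1105 4 912)
(mv 913 (cons (fin 977 6 912)
(fin 849 6 848)))))))))
(mv 1231 (cons (fin 1167 5 975)
(mv 911 (cons (fin 975 7 911)
(mv 912 (cons (fin 847 7 847)
(mv 913 (cons (fin 977 6 912)
(fin 849 6 848)))))))))))
(cons (cons (mv 1231 (cons (fin 1167 5 975)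
(mv 1169 (cons (fin 1233 4 976)
(mv 975 (cons (fin 911 7 911)
(mv 912 (cons (fin 1105 4 912)
(mv 848 (cons (fin 784 5 783)
(mv 849 (cons (fin 913 6 848)
(fin 785 6 784)))))))))))))
(mv 1231 (cons (fin 1167 5 975)
(mv 1169 (cons (fin 1233 4 976)
(mv 911 (cons (fin 975 7 911)
(mv 912 (cons (fin 847 7 847)
(fin 1105 4 912))))))))))
(cons (mv 1233 (cons (fin 1169 4 976)
(mv 911 (cons (fin 975 7 911)
(mv 912 (cons (fin 847 7 847)
(mv 913 (cons (fin 977 6 912)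
(fin 849 6 848)))))))))
(mv 1167 (cons (fin 1231 5 975)
(mv 1169 (cons (fin 1233 4 976)
(mv 975 (cons (fin 911 7 911)
(mv 977 (cons (fin 913 6 912)
(mv 978 (cons (fin 979 1 975)
(mv 1042 (cons (fin 1043 0 975)
(mv 914 (cons (fin 915 2 911)
(mv 1106 (cons (fin 1105 5 913)
(mv 1107 (cons (fin 1170 2 1103)
(fin 1171 4 914))))))))))))))))))))))))
(cons (mv 1231 (cons (cons (mv 1295 (cons (fin 1232 5 1039)
(mv 1167 (cons (fin 976 5 975)
(fin 1359 6 1103)))))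
(mv 1232 (cons (fin 1295 5 1039)
(mv 1233 (cons (fin 1297 4 1040)
(mv 1230 (cons (cons (mv 1169 (cons (fin 1229 2 1165)
(fin 1170 2 1166)))
(mv 1293 (cons (fin 1294 1 1229)
(mv 1292 (cons (fin 1229 1 1228)
(mv 1166 (cons (fin 1165 3 1165)
(mv 1234 (cons (fin 1167 3 1166)
(mv 1299 (cons (fin 1298 0 1231)
(mv 1235 (cons (fin 1300 0 1232)
(mv 1171 (cons (fin 1170 2 1167)
(fin 1172 2 1168))))))))))))))))
(cons (mv 1293 (cons (fin 1294 1 1229)
(mv 1165 (cons (fin 1166 3 1165)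
(mv 1170 (cons (fin 1169 2 1166)
(mv 1234 (cons (fin 1171 2 1167)
(mv 1299 (cons (fin 1298 0 1231)
(mv 1235 (cons (fin 1167 3 1167)
(fin 1300 0 1232)))))))))))))
(mv 1293 (cons (fin 1294 1 1229)
(mv 1229 (cons (fin 1292 1 1228)
(fin 1169 2 1165)))))))))))))
(cons (mv 976 (cons (fin 1167 5 975)
(mv 1169 (cons (fin 1233 4 976)
(mv 912 (cons (fin 1105 4 912)
(mv 913 (cons (fin 977 6 912)
(fin 849 6 848)))))))))
(mv 1232 (cons (fin 1295 5 1039)
(mv 1233 (cons (fin 1297 4 1040)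
(mv 1169 (cons (fin 976 4 976)
(mv 1230 (cons (fin 1229 2 1165)
(fin 1170 2 1166))))))))))))
(mv 975 (cons (fin 1232 7 975)
(mv 911 (cons (fin 976 7 911)
(fin 847 4 847))))))))
(mv 1038 (cons (cons (mv 1100 (cons (fin 1101 1 1036)
(mv 1036 (cons (fin 1099 1 1035)
(mv 972 (cons (fin 971 3 971)
(fin 973 3 972)))))))
(mv 1100 (cons (fin 1101 1 1036)
(mv 1036 (cons (fin 1099 1 1035)
(mv 976 (cons (fin 975 2 972)
(fin 977 2 973))))))))
(cons (mv 972 (cons (fin 973 3 972)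
(mv 1036 (cons (fin 971 3 971)
(mv 976 (cons (fin 975 2 972)
(fin 977 2 973)))))))
(mv 1100 (cons (fin 1101 1 1036)
(mv 972 (cons (fin 973 3 972)
(mv 976 (cons (fin 977 2 973)
(mv 1168 (cons (mv 975 (cons (fin 1232 7 975)
(fin 911 7 911)))
(cons (mv 1231 (cons (fin 1167 5 975)
(mv 1232 (cons (fin 1295 5 1039)
(mv 1233 (cons (fin 1297 4 1040)
(fin 1169 4 976)))))))
(mv 1231 (cons (fin 1167 5 975)
(mv 1233 (cons (fin 1169 4 976)
(mv 912 (cons (cons (mv 911 (cons (fin 975 7 911)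
(fin 847 7 847)))
(mv 849 (cons (fin 913 6 848)
(mv 848 (cons (fin 785 6 784)
(mv 783 (cons (fin 847 7 783)
(mv 784 (cons (fin 975 5 783)
(fin 719 7 719))))))))))
(cons (mv 847 (cons (fin 911 7 847)
(mv 848 (cons (fin 783 7 783)
(mv 849 (cons (fin 913 6 848)
(fin 785 6 784)))))))
(mv 975 (cons (fin 911 7 911)
(mv 848 (cons (fin 784 5 783)
(mv 849 (cons (fin 913 6 848)
(fin 785 6 784)))))))))))))))))))))))))))))
(cons (mv 1039 (cons (cons (mv 1038 (cons (fin 1105 0 1037)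
(mv 1100 (cons (fin 1101 1 1036)
(mv 1036 (cons (fin 1099 1 1035)
(fin 1103 0 1036)))))))
(cons (mv 975 (cons (cons (mv 1168 (cons (fin 1232 7 975)
(mv 911 (cons (fin 976 7 911)
(fin 1103 4 911)))))
(mv 911 (cons (fin 847 4 847)
(mv 1103 (cons (mv 1166 (cons (fin 1102 5 910)
(mv 1167 (cons (fin 1230 5 974)
(mv 1231 (cons (fin 1295 6 1039)
(fin 976 6 975)))))))
(cons (mv 910 (cons (fin 846 7 846)
(mv 1167 (cons (fin 974 7 910)
(mv 1231 (cons (fin 1295 6 1039)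
(fin 976 6 975)))))))
(mv 1102 (cons (fin 1166 5 910)
(mv 1101 (cons (fin 1036 3 1036)
(fin 1100 2 1036)))))))))))
(cons (mv 1168 (cons (fin 1232 7 975)
(mv 976 (cons (cons (mv 1231 (cons (fin 1167 5 975)
(mv 1169 (cons (fin 1233 4 976)
(mv 977 (cons (fin 913 6 912)
(mv 978 (cons (fin 979 1 975)
(mv 1042 (cons (fin 1043 0 975)
(mv 914 (cons (fin 915 2 911)
(mv 1106 (cons (fin 1105 5 913)
(mv 1171 (cons (fin 1107 4 914)
(mv 1170 (cons (fin 1103 3 1103)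
(fin 1235 4 978)))))))))))))))))))
(mv 1169 (cons (fin 1233 4 976)
(mv 977 (cons (fin 913 6 912)
(mv 978 (cons (fin 979 1 975)
(mv 1042 (cons (fin 1043 0 975)
(mv 914 (cons (fin 915 2 911)
(mv 1106 (cons (fin 1105 5 913)
(mv 1171 (cons (fin 1107 4 914)
(mv 1170 (cons (fin 1103 3 1103)
(fin 1235 4 978))))))))))))))))))
(cons (mv 1233 (cons (fin 1169 4 976)
(mv 1167 (cons (fin 1231 5 975)
(mv 974 (cons (mv 973 (cons (fin 1036 1 972)
(fin 972 0 972)))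
(mv 1103 (cons (fin 910 7 910)
(mv 1166 (cons (fin 1230 5 974)
(mv 1165 (cons (fin 1164 2 1100)
(fin 1105 2 1101)))))))))))))
(cons (mv 1167 (cons (fin 1231 5 975)
(mv 977 (cons (fin 913 6 912)
(mv 978 (cons (fin 979 1 975)
(mv 1042 (cons (fin 1043 0 975)
(mv 914 (cons (fin 915 2 911)
(mv 974 (cons (mv 973 (cons (fin 1036 1 972)
(fin 972 0 972)))
(mv 910 (cons (fin 909 3 909)
(fin 1103 7 910)))))))))))))))
(mv 1167 (cons (fin 1231 5 975)
(mv 1169 (cons (fin 1233 4 976)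
(mv 977 (cons (fin 913 6 912)
(mv 978 (cons (fin 979 1 975)
(mv 1042 (cons (fin 1043 0 975)
(mv 914 (cons (fin 915 2 911)
(mv 1106 (cons (fin 1105 5 913)
(mv 1107 (cons (fin 1170 2 1103)
(fin 1171 4 914)))))))))))))))))))))))
(cons (mv 1168 (cons (fin 1232 7 975)
(mv 911 (cons (fin 976 7 911)
(fin 847 4 847)))))
(mv 1168 (cons (fin 1232 7 975)
(mv 911 (cons (fin 1103 4 911)
(fin 847 4 847)))))))))
(mv 1038 (cons (cons (mv 1100 (cons (fin 1101 1 1036)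
(mv 1036 (cons (fin 1099 1 1035)
(fin 1103 0 1036)))))
(mv 1101 (cons (fin 1100 1 1036)
(mv 972 (cons (fin 973 3 972)
(mv 976 (cons (fin 977 2 973)
(mv 1168 (cons (mv 975 (cons (fin 1232 7 975)
(fin 911 7 911)))
(cons (mv 1231 (cons (fin 1167 5 975)
(mv 1232 (cons (fin 1295 5 1039)
(mv 1233 (cons (fin 1297 4 1040)
(fin 1169 4 976)))))))
(mv 1167 (cons (fin 1231 5 975)
(mv 1169 (cons (fin 1233 4 976)
(mv 1102 (cons (fin 1166 3 1101)
(fin 1103 0 1101)))))))))))))))))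
(cons (mv 1036 (cons (fin 1103 0 1036)
(mv 972 (cons (fin 971 3 971)
(fin 973 3 972)))))
(mv 1100 (cons (fin 1101 1 1036)
(mv 1036 (cons (fin 1099 1 1035)
(mv 972 (cons (fin 971 3 971)
(fin 973 3 972))))))))))))
(cons (mv 1038 (cons (fin 1105 0 1037)
(mv 1100 (cons (fin 1101 1 1036)
(mv 1036 (cons (fin 1099 1 1035)
(mv 972 (cons (fin 971 3 971)
(fin 973 3 972)))))))))
(cons (mv 1038 (cons (fin 1105 0 1037)
(mv 1101 (cons (fin 1100 1 1036)
(mv 972 (cons (fin 973 3 972)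
(mv 976 (cons (fin 977 2 973)
(mv 1168 (cons (mv 975 (cons (fin 1232 7 975)
(fin 911 7 911)))
(cons (mv 1231 (cons (fin 1167 5 975)
(mv 1232 (cons (fin 1295 5 1039)
(mv 1233 (cons (fin 1297 4 1040)
(fin 1169 4 976)))))))
(mv 1167 (cons (fin 1231 5 975)
(mv 1169 (cons (fin 1233 4 976)
(mv 1102 (cons (fin 1166 3 1101)
(fin 1103 0 1101))))))))))))))))))
(mv 1038 (cons (fin 1105 0 1037)
(mv 1036 (cons (fin 1103 0 1036)
(mv 972 (cons (fin 971 3 971)
(fin 973 3 972)))))))))))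
(mv 1038 (cons (cons (mv 1039 (cons (fin 1105 0 1037)
(mv 1100 (cons (fin 1101 1 1036)
(mv 1036 (cons (fin 1099 1 1035)
(fin 1103 0 1036)))))))
(cons (mv 1102 (cons (cons (mv 1103 (cons (fin 1105 3 1037)
(mv 1036 (cons (fin 1101 3 1036)
(fin 1035 0 1035)))))
(mv 1166 (cons (cons (mv 1230 (cons (fin 973 7 973)
(mv 1293 (cons (fin 1229 5 1037)
(mv 1294 (cons (fin 1357 5 1101)
(fin 1101 7 1037)))))))
(mv 974 (cons (cons (mv 1229 (cons (fin 1165 5 973)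
(mv 1231 (cons (fin 1167 4 974)
(mv 909 (cons (fin 973 7 909)
(mv 910 (cons (fin 845 7 845)
(mv 846 (cons (fin 1101 5 845)
(mv 847 (cons (fin 911 6 846)
(fin 783 6 782)))))))))))))
(cons (mv 1231 (cons (fin 1167 4 974)
(mv 1165 (cons (fin 1229 5 973)
(mv 910 (cons (fin 1101 5 909)
(mv 847 (cons (fin 911 6 846)
(mv 846 (cons (fin 783 6 782)
(mv 781 (cons (fin 845 7 781)
(mv 782 (cons (fin 973 5 781)
(fin 717 7 717)))))))))))))))
(mv 1231 (cons (fin 1167 4 974)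
(mv 1165 (cons (fin 1229 5 973)
(mv 910 (cons (fin 1101 5 909)
(mv 845 (cons (fin 909 7 845)
(mv 846 (cons (fin 781 7 781)
(mv 847 (cons (fin 911 6 846)
(fin 783 6 782)))))))))))))))
(cons (mv 1231 (cons (fin 1167 4 974)
(mv 909 (cons (fin 973 7 909)
(mv 910 (cons (fin 845 7 845)
(mv 846 (cons (fin 1101 5 845)
(mv 847 (cons (fin 911 6 846)
(fin 783 6 782)))))))))))
(cons (mv 1229 (cons (fin 1165 5 973)
(mv 909 (cons (fin 973 7 909)
(mv 910 (cons (fin 845 7 845)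
(mv 846 (cons (fin 1101 5 845)
(mv 847 (cons (fin 911 6 846)
(fin 783 6 782)))))))))))
(mv 1165 (cons (fin 1229 5 973)
(mv 1167 (cons (fin 1231 4 974)
(mv 1168 (cons (fin 1105 2 1101)
(mv 1233 (cons (fin 1232 0 1165)
(mv 1169 (cons (fin 1234 0 1166)
(fin 976 4 976))))))))))))))))
(cons (mv 1230 (cons (cons (mv 1293 (cons (fin 1229 5 1037)
(mv 1294 (cons (fin 1357 5 1101)
(fin 1101 7 1037)))))
(mv 1293 (cons (fin 1229 5 1037)
(mv 1231 (cons (fin 1295 4 1038)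
(mv 1167 (cons (fin 974 4 974)
(mv 1168 (cons (fin 976 5 975)
(mv 1169 (cons (fin 1170 1 1166)
(fin 1101 3 1101))))))))))))
(cons (mv 1294 (cons (fin 1101 7 1037)
(mv 1295 (cons (fin 1359 4 1102)
(fin 1231 4 1038)))))
(mv 1293 (cons (fin 1229 5 1037)
(mv 1357 (cons (fin 1294 5 1101)
(mv 1231 (cons (fin 1295 4 1038)
(mv 1167 (cons (fin 974 4 974)
(mv 1168 (cons (fin 976 5 975)
(mv 1165 (cons (fin 1105 2 1101)
(mv 1232 (cons (fin 1233 3 1165)
(fin 1164 0 1164))))))))))))))))))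
(cons (mv 1230 (cons (fin 973 7 973)
(mv 1293 (cons (fin 1229 5 1037)
(mv 1357 (cons (fin 1294 5 1101)
(mv 1231 (cons (fin 1295 4 1038)
(mv 1167 (cons (fin 974 4 974)
(mv 1168 (cons (fin 976 5 975)
(mv 1165 (cons (fin 1105 2 1101)
(mv 1232 (cons (fin 1233 3 1165)
(fin 1164 0 1164)))))))))))))))))
(mv 1230 (cons (fin 973 7 973)
(mv 1294 (cons (fin 1101 7 1037)
(mv 1295 (cons (fin 1359 4 1102)
(fin 1231 4 1038))))))))))))
(cons (mv 973 (cons (cons (mv 1166 (cons (fin 1230 7 973)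
(mv 909 (cons (fin 974 7 909)
(fin 1101 4 909)))))
(mv 1166 (cons (fin 1230 7 973)
(mv 974 (cons (cons (mv 1229 (cons (fin 1165 5 973)
(mv 1167 (cons (fin 1231 4 974)
(mv 1103 (cons (fin 910 4 910)
(mv 1036 (cons (fin 1101 3 1036)
(fin 1035 0 1035)))))))))
(cons (mv 1167 (cons (fin 1231 4 974)
(mv 1103 (cons (fin 910 4 910)
(mv 1036 (cons (fin 1101 3 1036)
(fin 1035 0 1035)))))))
(mv 1165 (cons (fin 1229 5 973)
(mv 1101 (cons (fin 910 5 909)
(mv 1164 (cons (fin 1103 1 1100)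
(fin 1228 5 972)))))))))
(cons (mv 1165 (cons (fin 1229 5 973)
(mv 1167 (cons (fin 1231 4 974)
(mv 1164 (cons (fin 1103 2 1100)
(mv 1228 (cons (fin 1227 1 1163)
(fin 1101 5 972)))))))))
(cons (mv 1229 (cons (fin 1165 5 973)
(mv 1167 (cons (fin 1231 4 974)
(mv 910 (cons (fin 1103 4 910)
(mv 846 (cons (fin 782 5 781)
(mv 847 (cons (fin 911 6 846)
(fin 783 6 782)))))))))))
(mv 1231 (cons (fin 1167 4 974)
(mv 1165 (cons (fin 1229 5 973)
(mv 910 (cons (fin 1101 5 909)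
(mv 846 (cons (fin 782 5 781)
(mv 847 (cons (fin 911 6 846)
(fin 783 6 782))))))))))))))))))
(cons (mv 909 (cons (fin 845 4 845)
(mv 1101 (cons (cons (mv 1164 (cons (fin 1100 5 908)
(mv 1165 (cons (fin 1103 1 1100)
(fin 1228 5 972)))))
(mv 1164 (cons (fin 1100 5 908)
(mv 1165 (cons (fin 1228 5 972)
(mv 1229 (cons (fin 1293 6 1037)
(fin 974 6 973))))))))
(cons (mv 1103 (cons (fin 1036 3 1036)
(mv 1168 (cons (fin 1169 0 1101)
(mv 1167 (cons (fin 1100 0 1100)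
(mv 1231 (cons (fin 976 5 975)
(fin 1295 7 1038)))))))))
(mv 1103 (cons (fin 1036 3 1036)
(mv 1164 (cons (fin 1165 1 1100)
(mv 1168 (cons (fin 1169 0 1101)
(mv 910 (cons (fin 846 6 845)
(mv 1167 (cons (fin 974 4 910)
(mv 1231 (cons (fin 976 5 975)
(fin 1295 7 1038))))))))))))))))))
(cons (mv 1166 (cons (fin 1230 7 973)
(mv 909 (cons (fin 974 7 909)
(fin 845 4 845)))))
(mv 1166 (cons (fin 1230 7 973)
(mv 909 (cons (fin 1101 4 909)
(fin 845 4 845)))))))))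
(mv 1103 (cons (fin 1105 3 1037)
(mv 1035 (cons (fin 1036 0 1035)
(mv 1167 (cons (mv 1231 (cons (fin 1295 7 1038)
(mv 974 (cons (fin 1166 4 974)
(fin 910 4 910)))))
(cons (mv 974 (cons (fin 910 4 910)
(mv 976 (cons (fin 912 5 911)
(mv 1166 (cons (mv 1165 (cons (fin 1164 2 1100)
(fin 1229 5 973)))
(mv 973 (cons (fin 1230 7 973)
(fin 909 7 909)))))))))
(mv 1231 (cons (fin 1295 7 1038)
(mv 976 (cons (fin 1168 5 975)
(fin 912 5 911)))))))))))))))
(mv 1039 (cons (cons (mv 1100 (cons (fin 1101 1 1036)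
(mv 1036 (cons (fin 1099 1 1035)
(fin 1103 0 1036)))))
(mv 1100 (cons (fin 1101 1 1036)
(mv 972 (cons (fin 973 3 972)
(mv 976 (cons (fin 977 2 973)
(mv 912 (cons (mv 1103 (cons (fin 1167 5 911)
(fin 848 5 847)))
(cons (mv 847 (cons (fin 911 7 847)
(mv 848 (cons (fin 783 7 783)
(mv 849 (cons (fin 913 6 848)
(fin 785 6 784)))))))
(mv 911 (cons (fin 847 7 847)
(mv 913 (cons (fin 849 6 848)
(mv 1168 (cons (cons (mv 1167 (cons (fin 1231 5 975)
(fin 1103 5 911)))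
(mv 1233 (cons (fin 1169 4 976)
(mv 1232 (cons (fin 1297 4 1040)
(mv 1295 (cons (fin 1231 5 1039)
(mv 1296 (cons (fin 1359 5 1103)
(fin 1103 7 1039))))))))))
(cons (mv 1231 (cons (fin 1167 5 975)
(mv 1232 (cons (fin 1295 5 1039)
(mv 1233 (cons (fin 1297 4 1040)
(fin 1169 4 976)))))))
(mv 1233 (cons (fin 1169 4 976)
(mv 1232 (cons (fin 1297 4 1040)
(mv 1103 (cons (fin 1167 5 911)
(fin 1296 7 1039))))))))))))))))))))))))
(cons (mv 1103 (cons (fin 1036 0 1036)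
(mv 972 (cons (fin 973 3 972)
(mv 976 (cons (fin 977 2 973)
(mv 1167 (cons (fin 912 5 911)
(fin 1231 6 975)))))))))
(mv 1100 (cons (fin 1101 1 1036)
(mv 1036 (cons (fin 1099 1 1035)
(mv 972 (cons (fin 971 3 971)
(fin 973 3 972))))))))))))
(cons (mv 1039 (cons (fin 1105 0 1037)
(mv 1100 (cons (fin 1101 1 1036)
(mv 1036 (cons (fin 1099 1 1035)
(mv 972 (cons (fin 971 3 971)
(fin 973 3 972)))))))))
(cons (mv 1039 (cons (fin 1105 0 1037)
(mv 1100 (cons (fin 1101 1 1036)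
(mv 972 (cons (fin 973 3 972)
(mv 976 (cons (fin 977 2 973)
(mv 912 (cons (mv 1103 (cons (fin 1167 5 911)
(fin 848 5 847)))
(cons (mv 847 (cons (fin 911 7 847)
(mv 848 (cons (fin 783 7 783)
(mv 849 (cons (fin 913 6 848)
(fin 785 6 784)))))))
(mv 911 (cons (fin 847 7 847)
(mv 913 (cons (fin 849 6 848)
(mv 1168 (cons (cons (mv 1167 (cons (fin 1231 5 975)
(fin 1103 5 911)))
(mv 1233 (cons (fin 1169 4 976)
(mv 1232 (cons (fin 1297 4 1040)
(mv 1295 (cons (fin 1231 5 1039)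
(mv 1296 (cons (fin 1359 5 1103)
(fin 1103 7 1039))))))))))
(cons (mv 1231 (cons (fin 1167 5 975)
(mv 1232 (cons (fin 1295 5 1039)
(mv 1233 (cons (fin 1297 4 1040)
(fin 1169 4 976)))))))
(mv 1233 (cons (fin 1169 4 976)
(mv 1232 (cons (fin 1297 4 1040)
(mv 1103 (cons (fin 1167 5 911)
(fin 1296 7 1039)))))))))))))))))))))))))
(mv 1039 (cons (fin 1105 0 1037)
(mv 1103 (cons (fin 1036 0 1036)
(mv 972 (cons (fin 973 3 972)
(mv 976 (cons (fin 977 2 973)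
(mv 1167 (cons (fin 912 5 911)
(fin 1231 6 975)))))))))))))))))
(cons (cons (mv 1039 (cons (cons (mv 1038 (cons (fin 1105 0 1037)
(mv 1100 (cons (fin 1101 1 1036)
(mv 1036 (cons (fin 1099 1 1035)
(fin 1103 0 1036)))))))
(cons (mv 975 (cons (cons (mv 1168 (cons (fin 1232 7 975)
(mv 911 (cons (fin 976 7 911)
(fin 1103 4 911)))))
(mv 1168 (cons (fin 1232 7 975)
(mv 976 (cons (cons (mv 1233 (cons (fin 1169 4 976)
(mv 913 (cons (fin 977 6 912)
(mv 912 (cons (fin 849 6 848)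
(mv 848 (cons (fin 1103 5 847)
(fin 784 5 783)))))))))
(mv 1169 (cons (fin 1233 4 976)
(mv 912 (cons (fin 1105 4 912)
(mv 848 (cons (fin 1103 5 847)
(fin 784 5 783))))))))
(cons (mv 913 (cons (fin 977 6 912)
(mv 912 (cons (fin 849 6 848)
(mv 848 (cons (fin 1103 5 847)
(fin 784 5 783)))))))
(cons (mv 1169 (cons (fin 1233 4 976)
(mv 977 (cons (fin 913 6 912)
(mv 978 (cons (fin 979 1 975)
(mv 1042 (cons (fin 1043 0 975)
(mv 914 (cons (fin 915 2 911)
(mv 1106 (cons (fin 1105 5 913)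
(mv 1171 (cons (fin 1107 4 914)
(mv 1170 (cons (fin 1103 3 1103)
(fin 1235 4 978)))))))))))))))))
(mv 1169 (cons (fin 1233 4 976)
(mv 1105 (cons (fin 912 4 912)
(mv 1106 (cons (fin 1107 3 1039)
(mv 977 (cons (fin 913 6 912)
(mv 978 (cons (fin 979 1 975)
(mv 1042 (cons (fin 1043 0 975)
(fin 914 5 913))))))))))))))))))))
(cons (mv 911 (cons (fin 847 4 847)
(mv 1103 (cons (mv 1102 (cons (fin 1166 5 910)
(mv 1101 (cons (fin 1036 3 1036)
(fin 1100 2 1036)))))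
(mv 910 (cons (fin 846 7 846)
(mv 912 (cons (fin 848 6 847)
(mv 913 (cons (mv 974 (cons (fin 973 1 909)
(fin 914 1 910)))
(mv 849 (cons (fin 850 2 846)
(fin 976 6 848)))))))))))))
(cons (mv 1168 (cons (fin 1232 7 975)
(mv 911 (cons (fin 1103 4 911)
(fin 847 4 847)))))
(mv 1168 (cons (fin 1232 7 975)
(mv 911 (cons (fin 976 7 911)
(fin 847 4 847)))))))))
(mv 1038 (cons (cons (mv 1100 (cons (fin 1101 1 1036)
(mv 1036 (cons (fin 1099 1 1035)
(fin 1103 0 1036)))))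
(mv 1100 (cons (fin 1101 1 1036)
(mv 973 (cons (fin 972 3 972)
(mv 976 (cons (fin 977 2 973)
(mv 975 (cons (mv 1168 (cons (fin 1232 7 975)
(fin 911 7 911)))
(cons (mv 1232 (cons (fin 1168 7 975)
(mv 912 (cons (mv 913 (cons (fin 974 2 909)
(fin 849 6 848)))
(mv 848 (cons (fin 1103 5 847)
(fin 784 5 783)))))))
(mv 911 (cons (fin 847 4 847)
(mv 912 (cons (mv 913 (cons (fin 974 2 909)
(fin 849 6 848)))
(mv 848 (cons (fin 1103 5 847)
(fin 784 5 783)))))))))))))))))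
(cons (mv 1103 (cons (fin 1036 0 1036)
(mv 972 (cons (fin 973 3 972)
(mv 976 (cons (fin 977 2 973)
(mv 912 (cons (fin 848 5 847)
(mv 911 (cons (fin 847 7 847)
(mv 1168 (cons (fin 975 7 911)
(mv 1232 (cons (fin 1296 7 1039)
(mv 1233 (cons (fin 1297 4 1040)
(fin 1169 4 976)))))))))))))))))
(mv 1100 (cons (fin 1101 1 1036)
(mv 1036 (cons (fin 1099 1 1035)
(mv 972 (cons (fin 971 3 971)
(fin 973 3 972))))))))))))
(cons (mv 1038 (cons (fin 1105 0 1037)
(mv 1100 (cons (fin 1101 1 1036)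
(mv 1036 (cons (fin 1099 1 1035)
(mv 972 (cons (fin 971 3 971)
(fin 973 3 972)))))))))
(cons (mv 1038 (cons (fin 1105 0 1037)
(mv 1100 (cons (fin 1101 1 1036)
(mv 973 (cons (fin 972 3 972)
(mv 976 (cons (fin 977 2 973)
(mv 975 (cons (mv 1168 (cons (fin 1232 7 975)
(fin 911 7 911)))
(cons (mv 1232 (cons (fin 1168 7 975)
(mv 912 (cons (mv 913 (cons (fin 974 2 909)
(fin 849 6 848)))
(mv 848 (cons (fin 1103 5 847)
(fin 784 5 783)))))))
(mv 911 (cons (fin 847 4 847)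
(mv 912 (cons (mv 913 (cons (fin 974 2 909)
(fin 849 6 848)))
(mv 848 (cons (fin 1103 5 847)
(fin 784 5 783))))))))))))))))))
(mv 1038 (cons (fin 1105 0 1037)
(mv 1103 (cons (fin 1036 0 1036)
(mv 972 (cons (fin 973 3 972)
(mv 976 (cons (fin 977 2 973)
(mv 912 (cons (fin 848 5 847)
(mv 911 (cons (fin 847 7 847)
(mv 1168 (cons (fin 975 7 911)
(mv 1232 (cons (fin 1296 7 1039)
(mv 1233 (cons (fin 1297 4 1040)
(fin 1169 4 976)))))))))))))))))))))))
(mv 1039 (cons (cons (mv 1038 (cons (fin 1105 0 1037)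
(mv 1100 (cons (fin 1101 1 1036)
(mv 1036 (cons (fin 1099 1 1035)
(fin 1103 0 1036)))))))
(mv 1168 (cons (cons (mv 1232 (cons (fin 975 7 975)
(mv 1295 (cons (fin 1231 5 1039)
(mv 1296 (cons (fin 1359 5 1103)
(fin 1103 7 1039)))))))
(mv 976 (cons (cons (mv 1231 (cons (fin 1167 5 975)
(mv 1233 (cons (fin 1169 4 976)
(mv 913 (cons (fin 977 6 912)
(mv 912 (cons (fin 849 6 848)
(mv 848 (cons (fin 1103 5 847)
(mv 783 (cons (fin 847 7 783)
(mv 784 (cons (fin 975 5 783)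
(fin 719 7 719)))))))))))))))
(cons (mv 1233 (cons (fin 1169 4 976)
(mv 913 (cons (fin 977 6 912)
(mv 912 (cons (fin 849 6 848)
(mv 848 (cons (fin 1103 5 847)
(mv 783 (cons (fin 847 7 783)
(mv 784 (cons (fin 975 5 783)
(fin 719 7 719)))))))))))))
(mv 1231 (cons (fin 1167 5 975)
(mv 913 (cons (fin 977 6 912)
(mv 912 (cons (fin 849 6 848)
(mv 848 (cons (fin 1103 5 847)
(mv 783 (cons (fin 847 7 783)
(mv 784 (cons (fin 975 5 783)
(fin 719 7 719)))))))))))))))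
(cons (cons (mv 1231 (cons (fin 1167 5 975)
(mv 1169 (cons (fin 1233 4 976)
(mv 912 (cons (fin 1105 4 912)
(mv 913 (cons (fin 849 6 848)
(mv 848 (cons (fin 1103 5 847)
(mv 783 (cons (fin 847 7 783)
(mv 784 (cons (fin 975 5 783)
(fin 719 7 719)))))))))))))))
(mv 1231 (cons (fin 1167 5 975)
(mv 1169 (cons (fin 1233 4 976)
(mv 912 (cons (fin 1105 4 912)
(mv 848 (cons (fin 1103 5 847)
(mv 847 (cons (fin 783 7 783)
(mv 784 (cons (fin 975 5 783)
(mv 785 (cons (fin 849 6 784)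
(fin 721 6 720))))))))))))))))
(cons (mv 1167 (cons (fin 1231 5 975)
(mv 1169 (cons (fin 1233 4 976)
(mv 977 (cons (fin 913 6 912)
(mv 978 (cons (fin 979 1 975)
(mv 1166 (cons (cons (mv 1105 (cons (fin 1165 2 1101)
(fin 1106 2 1102)))
(mv 1229 (cons (fin 1230 1 1165)
(mv 1228 (cons (fin 1165 1 1164)
(mv 1102 (cons (fin 1101 3 1101)
(mv 1170 (cons (fin 1103 3 1102)
(mv 1235 (cons (fin 1234 0 1167)
(mv 1171 (cons (fin 1236 0 1168)
(mv 1106 (cons (fin 1107 2 1103)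
(fin 1042 4 978))))))))))))))))
(cons (mv 1229 (cons (fin 1230 1 1165)
(mv 1165 (cons (fin 1228 1 1164)
(fin 1105 2 1101)))))
(mv 1229 (cons (fin 1230 1 1165)
(mv 1101 (cons (fin 1102 3 1101)
(mv 1106 (cons (fin 1105 2 1102)
(mv 1170 (cons (fin 1107 2 1103)
(mv 1235 (cons (fin 1234 0 1167)
(mv 1171 (cons (fin 1103 3 1103)
(fin 1236 0 1168))))))))))))))))))))))))
(mv 1231 (cons (fin 1167 5 975)
(mv 1169 (cons (fin 1233 4 976)
(mv 912 (cons (fin 1105 4 912)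
(mv 913 (cons (fin 977 6 912)
(fin 849 6 848))))))))))))))
(cons (mv 976 (cons (cons (mv 1231 (cons (fin 1167 5 975)
(mv 1295 (cons (fin 1232 5 1039)
(mv 1169 (cons (fin 1233 4 976)
(mv 1105 (cons (fin 912 4 912)
(mv 1106 (cons (fin 1107 3 1039)
(mv 977 (cons (fin 913 6 912)
(mv 978 (cons (fin 979 1 975)
(mv 1042 (cons (fin 914 5 913)
(mv 1103 (cons (fin 1043 2 1039)
(mv 1170 (cons (fin 1171 3 1103)
(fin 1102 0 1102)))))))))))))))))))))
(cons (mv 1233 (cons (fin 1169 4 976)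
(mv 1232 (cons (fin 1297 4 1040)
(mv 1295 (cons (fin 1231 5 1039)
(mv 1296 (cons (fin 1359 5 1103)
(fin 1103 7 1039)))))))))
(mv 1233 (cons (fin 1169 4 976)
(mv 1297 (cons (fin 1232 4 1040)
(mv 913 (cons (fin 977 6 912)
(mv 912 (cons (fin 849 6 848)
(mv 1103 (cons (fin 1167 5 911)
(fin 848 5 847)))))))))))))
(cons (cons (mv 1231 (cons (fin 1167 5 975)
(mv 1232 (cons (fin 1295 5 1039)
(mv 1296 (cons (fin 1103 7 1039)
(mv 1297 (cons (fin 1361 4 1104)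
(fin 1233 4 1040)))))))))
(mv 1231 (cons (fin 1167 5 975)
(mv 1232 (cons (fin 1295 5 1039)
(mv 1103 (cons (fin 1296 7 1039)
(mv 912 (cons (fin 848 5 847)
(mv 913 (cons (fin 977 6 912)
(fin 849 6 848))))))))))))
(cons (mv 1231 (cons (fin 1167 5 975)
(mv 1295 (cons (fin 1232 5 1039)
(mv 1169 (cons (fin 1233 4 976)
(mv 912 (cons (fin 1105 4 912)
(mv 913 (cons (fin 977 6 912)
(fin 849 6 848)))))))))))
(mv 1231 (cons (fin 1167 5 975)
(mv 1169 (cons (fin 1233 4 976)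
(mv 1105 (cons (fin 912 4 912)
(mv 1106 (cons (fin 1107 3 1039)
(mv 977 (cons (fin 913 6 912)
(mv 978 (cons (fin 979 1 975)
(mv 1042 (cons (fin 914 5 913)
(mv 1103 (cons (fin 1043 2 1039)
(mv 1170 (cons (fin 1171 3 1103)
(fin 1102 0 1102)))))))))))))))))))))))
(cons (mv 1232 (cons (fin 975 7 975)
(mv 1296 (cons (fin 1103 7 1039)
(mv 1297 (cons (fin 1361 4 1104)
(fin 1233 4 1040)))))))
(mv 1232 (cons (fin 975 7 975)
(mv 1295 (cons (fin 1231 5 1039)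
(mv 1296 (cons (fin 1359 5 1103)
(mv 1297 (cons (fin 1361 4 1104)
(fin 1233 4 1040))))))))))))))
(cons (mv 1038 (cons (cons (mv 1100 (cons (fin 1101 1 1036)
(mv 1036 (cons (fin 1099 1 1035)
(fin 1103 0 1036)))))
(mv 1100 (cons (fin 1101 1 1036)
(mv 972 (cons (fin 973 3 972)
(mv 976 (cons (fin 977 2 973)
(mv 912 (cons (mv 1103 (cons (fin 1167 5 911)
(fin 848 5 847)))
(cons (mv 849 (cons (fin 913 6 848)
(mv 848 (cons (fin 785 6 784)
(mv 783 (cons (fin 847 7 783)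
(mv 784 (cons (fin 975 5 783)
(fin 719 7 719)))))))))
(mv 1167 (cons (fin 1103 5 911)
(mv 1168 (cons (fin 1231 5 975)
(mv 1232 (cons (fin 975 7 975)
(mv 1233 (cons (fin 1297 4 1040)
(fin 1169 4 976)))))))))))))))))))
(cons (mv 1103 (cons (fin 1036 0 1036)
(mv 972 (cons (fin 973 3 972)
(mv 976 (cons (fin 977 2 973)
(mv 1167 (cons (fin 912 5 911)
(fin 1231 6 975)))))))))
(mv 1100 (cons (fin 1101 1 1036)
(mv 1036 (cons (fin 1099 1 1035)
(mv 972 (cons (fin 971 3 971)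
(fin 973 3 972))))))))))
(cons (mv 1038 (cons (fin 1105 0 1037)
(mv 1100 (cons (fin 1101 1 1036)
(mv 1036 (cons (fin 1099 1 1035)
(mv 972 (cons (fin 971 3 971)
(fin 973 3 972)))))))))
(mv 1038 (cons (fin 1105 0 1037)
(mv 1103 (cons (fin 1036 0 1036)
(mv 972 (cons (fin 973 3 972)
(mv 976 (cons (fin 977 2 973)
(mv 1167 (cons (fin 912 5 911)
(fin 1231 6 975))))))))))))))))
(cons (mv 1039 (cons (cons (mv 1038 (cons (fin 1105 0 1037)
(mv 1100 (cons (fin 1101 1 1036)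
(mv 1036 (cons (fin 1099 1 1035)
(fin 1103 0 1036)))))))
(mv 1168 (cons (cons (mv 1232 (cons (fin 975 7 975)
(mv 1295 (cons (fin 1231 5 1039)
(mv 1296 (cons (fin 1359 5 1103)
(fin 1103 7 1039)))))))
(mv 976 (cons (cons (mv 1231 (cons (fin 1167 5 975)
(mv 1233 (cons (fin 1169 4 976)
(mv 975 (cons (fin 911 7 911)
(mv 913 (cons (fin 977 6 912)
(mv 912 (cons (fin 849 6 848)
(mv 848 (cons (fin 1103 5 847)
(fin 784 5 783)))))))))))))
(cons (mv 1233 (cons (fin 1169 4 976)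
(mv 975 (cons (fin 911 7 911)
(mv 913 (cons (fin 977 6 912)
(mv 912 (cons (fin 849 6 848)
(mv 848 (cons (fin 1103 5 847)
(fin 784 5 783)))))))))))
(mv 1231 (cons (fin 1167 5 975)
(mv 975 (cons (fin 911 7 911)
(mv 913 (cons (fin 977 6 912)
(mv 912 (cons (fin 849 6 848)
(mv 848 (cons (fin 1103 5 847)
(fin 784 5 783)))))))))))))
(cons (cons (mv 1231 (cons (fin 1167 5 975)
(mv 1169 (cons (fin 1233 4 976)
(mv 1105 (cons (fin 912 4 912)
(mv 1106 (cons (fin 1107 3 1039)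
(mv 977 (cons (fin 913 6 912)
(mv 978 (cons (fin 979 1 975)
(mv 1042 (cons (fin 914 5 913)
(mv 1103 (cons (fin 1043 2 1039)
(mv 1170 (cons (fin 1171 3 1103)
(fin 1102 0 1102)))))))))))))))))))
(mv 1231 (cons (fin 1167 5 975)
(mv 1169 (cons (fin 1233 4 976)
(mv 975 (cons (fin 911 7 911)
(mv 912 (cons (fin 1105 4 912)
(mv 848 (cons (fin 1103 5 847)
(fin 784 5 783))))))))))))
(cons (mv 1231 (cons (fin 1167 5 975)
(mv 1169 (cons (fin 1233 4 976)
(mv 1105 (cons (fin 912 4 912)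
(mv 1106 (cons (fin 1107 3 1039)
(mv 975 (cons (fin 911 7 911)
(mv 977 (cons (fin 913 6 912)
(mv 978 (cons (fin 979 1 975)
(mv 1042 (cons (fin 1043 0 975)
(fin 914 5 913)))))))))))))))))
(mv 1231 (cons (fin 1167 5 975)
(mv 1169 (cons (fin 1233 4 976)
(mv 975 (cons (fin 911 7 911)
(mv 977 (cons (fin 913 6 912)
(mv 978 (cons (fin 979 1 975)
(mv 1042 (cons (fin 1043 0 975)
(mv 914 (cons (fin 915 2 911)
(mv 1106 (cons (fin 1105 5 913)
(mv 1171 (cons (fin 1107 4 914)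
(mv 1170 (cons (fin 1103 3 1103)
(fin 1235 4 978))))))))))))))))))))))))))
(cons (mv 976 (cons (cons (mv 1231 (cons (fin 1167 5 975)
(mv 1295 (cons (fin 1232 5 1039)
(mv 1169 (cons (fin 1233 4 976)
(mv 1105 (cons (fin 912 4 912)
(mv 1106 (cons (fin 1107 3 1039)
(mv 977 (cons (fin 913 6 912)
(mv 978 (cons (fin 979 1 975)
(mv 1042 (cons (fin 914 5 913)
(mv 1103 (cons (fin 1043 2 1039)
(mv 1170 (cons (fin 1171 3 1103)
(fin 1102 0 1102)))))))))))))))))))))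
(cons (mv 1233 (cons (fin 1169 4 976)
(mv 1232 (cons (fin 1297 4 1040)
(mv 1295 (cons (fin 1231 5 1039)
(mv 1296 (cons (fin 1359 5 1103)
(fin 1103 7 1039)))))))))
(mv 1233 (cons (fin 1169 4 976)
(mv 1297 (cons (fin 1232 4 1040)
(mv 913 (cons (fin 977 6 912)
(mv 912 (cons (fin 849 6 848)
(mv 1103 (cons (fin 1167 5 911)
(fin 848 5 847)))))))))))))
(cons (cons (mv 1231 (cons (fin 1167 5 975)
(mv 1232 (cons (fin 1295 5 1039)
(mv 1296 (cons (fin 1103 7 1039)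
(mv 1297 (cons (fin 1361 4 1104)
(fin 1233 4 1040)))))))))
(mv 1231 (cons (fin 1167 5 975)
(mv 1232 (cons (fin 1295 5 1039)
(mv 1103 (cons (fin 1296 7 1039)
(mv 912 (cons (fin 848 5 847)
(mv 913 (cons (fin 977 6 912)
(fin 849 6 848))))))))))))
(cons (mv 1231 (cons (fin 1167 5 975)
(mv 1295 (cons (fin 1232 5 1039)
(mv 1169 (cons (fin 1233 4 976)
(mv 912 (cons (fin 1105 4 912)
(mv 913 (cons (fin 977 6 912)
(fin 849 6 848)))))))))))
(mv 1231 (cons (fin 1167 5 975)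
(mv 1169 (cons (fin 1233 4 976)
(mv 1105 (cons (fin 912 4 912)
(mv 1106 (cons (fin 1107 3 1039)
(mv 977 (cons (fin 913 6 912)
(mv 978 (cons (fin 979 1 975)
(mv 1042 (cons (fin 914 5 913)
(mv 1103 (cons (fin 1043 2 1039)
(mv 1170 (cons (fin 1171 3 1103)
(fin 1102 0 1102)))))))))))))))))))))))
(cons (mv 1232 (cons (fin 975 7 975)
(mv 1295 (cons (fin 1231 5 1039)
(mv 1296 (cons (fin 1359 5 1103)
(mv 1297 (cons (fin 1361 4 1104)
(fin 1233 4 1040)))))))))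
(mv 1232 (cons (fin 975 7 975)
(mv 1296 (cons (fin 1103 7 1039)
(mv 1297 (cons (fin 1361 4 1104)
(fin 1233 4 1040))))))))))))
(cons (mv 1038 (cons (cons (mv 1100 (cons (fin 1101 1 1036)
(mv 1036 (cons (fin 1099 1 1035)
(fin 1103 0 1036)))))
(mv 1100 (cons (fin 1101 1 1036)
(mv 972 (cons (fin 973 3 972)
(mv 976 (cons (fin 977 2 973)
(mv 1168 (cons (mv 975 (cons (fin 1232 7 975)
(fin 911 7 911)))
(cons (mv 1231 (cons (fin 1167 5 975)
(mv 1232 (cons (fin 1295 5 1039)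
(mv 1233 (cons (fin 1297 4 1040)
(fin 1169 4 976)))))))
(mv 1233 (cons (fin 1169 4 976)
(mv 1167 (cons (fin 1231 5 975)
(mv 1103 (cons (fin 912 5 911)
(mv 975 (cons (fin 911 7 911)
(mv 1166 (cons (fin 1230 5 974)
(mv 1165 (cons (fin 1164 2 1100)
(mv 1229 (cons (fin 1228 1 1164)
(mv 974 (cons (fin 1102 5 973)
(fin 910 7 910)))))))))))))))))))))))))))
(cons (mv 1103 (cons (fin 1036 0 1036)
(mv 972 (cons (fin 973 3 972)
(mv 976 (cons (fin 977 2 973)
(mv 1167 (cons (fin 912 5 911)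
(fin 1231 6 975)))))))))
(mv 1100 (cons (fin 1101 1 1036)
(mv 1036 (cons (fin 1099 1 1035)
(mv 972 (cons (fin 971 3 971)
(fin 973 3 972))))))))))
(mv 1038 (cons (fin 1105 0 1037)
(mv 1100 (cons (fin 1101 1 1036)
(mv 1036 (cons (fin 1099 1 1035)
(mv 972 (cons (fin 971 3 971)
(fin 973 3 972))))))))))))
(mv 1039 (cons (cons (mv 1038 (cons (fin 1105 0 1037)
(mv 1100 (cons (fin 1101 1 1036)
(mv 1036 (cons (fin 1099 1 1035)
(fin 1103 0 1036)))))))
(cons (mv 975 (cons (cons (mv 1168 (cons (fin 1232 7 975)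
(mv 911 (cons (fin 976 7 911)
(fin 1103 4 911)))))
(mv 911 (cons (fin 847 4 847)
(mv 1103 (cons (mv 1166 (cons (fin 1102 5 910)
(mv 1167 (cons (fin 1230 5 974)
(mv 1231 (cons (fin 1295 6 1039)
(fin 976 6 975)))))))
(cons (mv 910 (cons (fin 846 7 846)
(mv 1167 (cons (fin 974 7 910)
(mv 1231 (cons (fin 1295 6 1039)
(fin 976 6 975)))))))
(mv 1102 (cons (fin 1166 5 910)
(mv 1101 (cons (fin 1036 3 1036)
(fin 1100 2 1036)))))))))))
(cons (mv 1168 (cons (fin 1232 7 975)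
(mv 976 (cons (cons (mv 1231 (cons (fin 1167 5 975)
(mv 1233 (cons (fin 1169 4 976)
(mv 913 (cons (fin 977 6 912)
(mv 912 (cons (fin 849 6 848)
(mv 848 (cons (fin 1103 5 847)
(fin 784 5 783)))))))))))
(cons (mv 1233 (cons (fin 1169 4 976)
(mv 913 (cons (fin 977 6 912)
(mv 912 (cons (fin 849 6 848)
(mv 848 (cons (fin 1103 5 847)
(fin 784 5 783)))))))))
(mv 1231 (cons (fin 1167 5 975)
(mv 1169 (cons (fin 1233 4 976)
(mv 912 (cons (fin 1105 4 912)
(mv 848 (cons (fin 1103 5 847)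
(fin 784 5 783)))))))))))
(cons (mv 1231 (cons (fin 1167 5 975)
(mv 913 (cons (fin 977 6 912)
(mv 912 (cons (fin 849 6 848)
(mv 848 (cons (fin 1103 5 847)
(fin 784 5 783)))))))))
(cons (mv 1231 (cons (fin 1167 5 975)
(mv 1169 (cons (fin 1233 4 976)
(mv 977 (cons (fin 913 6 912)
(mv 978 (cons (fin 979 1 975)
(mv 1042 (cons (fin 1043 0 975)
(mv 914 (cons (fin 915 2 911)
(mv 1106 (cons (fin 1105 5 913)
(mv 1171 (cons (fin 1107 4 914)
(mv 1170 (cons (fin 1103 3 1103)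
(fin 1235 4 978)))))))))))))))))))
(mv 1231 (cons (fin 1167 5 975)
(mv 1169 (cons (fin 1233 4 976)
(mv 1105 (cons (fin 912 4 912)
(mv 1106 (cons (fin 1107 3 1039)
(mv 977 (cons (fin 913 6 912)
(mv 978 (cons (fin 979 1 975)
(mv 1042 (cons (fin 1043 0 975)
(fin 914 5 913)))))))))))))))))))))
(cons (mv 1168 (cons (fin 1232 7 975)
(mv 911 (cons (fin 976 7 911)
(fin 847 4 847)))))
(mv 1168 (cons (fin 1232 7 975)
(mv 911 (cons (fin 1103 4 911)
(fin 847 4 847)))))))))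
(mv 1038 (cons (cons (mv 1100 (cons (fin 1101 1 1036)
(mv 1036 (cons (fin 1099 1 1035)
(fin 1103 0 1036)))))
(mv 1100 (cons (fin 1101 1 1036)
(mv 976 (cons (fin 977 2 973)
(mv 1168 (cons (mv 975 (cons (fin 1232 7 975)
(fin 911 7 911)))
(cons (mv 1231 (cons (fin 1167 5 975)
(mv 1232 (cons (fin 1295 5 1039)
(mv 1233 (cons (fin 1297 4 1040)
(fin 1169 4 976)))))))
(mv 1231 (cons (fin 1167 5 975)
(mv 1233 (cons (fin 1169 4 976)
(mv 911 (cons (fin 975 7 911)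
(mv 912 (cons (fin 847 7 847)
(mv 848 (cons (fin 1103 5 847)
(mv 849 (cons (fin 913 6 848)
(fin 785 6 784)))))))))))))))))))))
(cons (mv 1103 (cons (fin 1036 0 1036)
(mv 976 (cons (fin 977 2 973)
(mv 1167 (cons (fin 912 5 911)
(fin 1231 6 975)))))))
(mv 1100 (cons (fin 1101 1 1036)
(mv 1036 (cons (fin 1099 1 1035)
(mv 976 (cons (fin 975 2 972)
(fin 977 2 973))))))))))))
(cons (mv 1038 (cons (fin 1105 0 1037)
(mv 1100 (cons (fin 1101 1 1036)
(mv 1036 (cons (fin 1099 1 1035)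
(mv 976 (cons (fin 975 2 972)
(fin 977 2 973)))))))))
(cons (mv 1038 (cons (fin 1105 0 1037)
(mv 1100 (cons (fin 1101 1 1036)
(mv 976 (cons (fin 977 2 973)
(mv 1168 (cons (mv 975 (cons (fin 1232 7 975)
(fin 911 7 911)))
(cons (mv 1231 (cons (fin 1167 5 975)
(mv 1232 (cons (fin 1295 5 1039)
(mv 1233 (cons (fin 1297 4 1040)
(fin 1169 4 976)))))))
(mv 1231 (cons (fin 1167 5 975)
(mv 1233 (cons (fin 1169 4 976)
(mv 911 (cons (fin 975 7 911)
(mv 912 (cons (fin 847 7 847)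
(mv 848 (cons (fin 1103 5 847)
(mv 849 (cons (fin 913 6 848)
(fin 785 6 784))))))))))))))))))))))
(mv 1038 (cons (fin 1105 0 1037)
(mv 1103 (cons (fin 1036 0 1036)
(mv 976 (cons (fin 977 2 973)
(mv 1167 (cons (fin 912 5 911)
(fin 1231 6 975))))))))))))))))))
(mv 1104 (cons (cons (cons (mv 1039 (cons (cons (mv 1038 (cons (fin 1105 0 1037)
(mv 972 (cons (fin 973 3 972)
(mv 1036 (cons (fin 971 3 971)
(fin 1103 0 1036)))))))
(mv 975 (cons (cons (mv 911 (cons (fin 847 4 847)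
(mv 1168 (cons (fin 976 7 911)
(fin 1232 7 975)))))
(mv 911 (cons (fin 847 4 847)
(mv 1103 (cons (mv 848 (cons (fin 912 6 847)
(mv 1102 (cons (fin 1166 5 910)
(mv 1101 (cons (fin 1036 3 1036)
(fin 1100 2 1036)))))))
(cons (mv 1102 (cons (fin 1166 5 910)
(mv 1101 (cons (fin 1036 3 1036)
(fin 1100 2 1036)))))
(mv 912 (cons (fin 848 6 847)
(mv 976 (cons (fin 1167 5 911)
(mv 913 (cons (fin 849 6 848)
(mv 914 (cons (fin 974 1 910)
(fin 915 1 911)))))))))))))))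
(cons (mv 1168 (cons (fin 1232 7 975)
(mv 976 (cons (cons (mv 913 (cons (fin 977 6 912)
(mv 912 (cons (fin 849 6 848)
(mv 848 (cons (fin 784 5 783)
(fin 1103 5 847)))))))
(mv 1167 (cons (fin 1231 5 975)
(mv 912 (cons (fin 1103 5 911)
(mv 1169 (cons (fin 1105 4 912)
(fin 1233 4 976))))))))
(cons (mv 977 (cons (fin 913 6 912)
(mv 978 (cons (fin 979 1 975)
(mv 914 (cons (fin 915 2 911)
(mv 1042 (cons (fin 1043 0 975)
(mv 1167 (cons (fin 1231 5 975)
(mv 1169 (cons (fin 1233 4 976)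
(mv 1105 (cons (fin 1106 5 913)
(mv 1166 (cons (fin 1165 2 1101)
(mv 1230 (cons (fin 1229 1 1165)
(fin 1103 5 974)))))))))))))))))))
(mv 913 (cons (fin 977 6 912)
(mv 912 (cons (fin 849 6 848)
(mv 1169 (cons (fin 1105 4 912)
(fin 1233 4 976))))))))))))
(mv 911 (cons (fin 847 4 847)
(mv 1168 (cons (fin 1232 7 975)
(fin 1103 4 911)))))))))
(cons (mv 1038 (cons (cons (mv 972 (cons (fin 973 3 972)
(mv 1036 (cons (fin 971 3 971)
(fin 1103 0 1036)))))
(mv 972 (cons (fin 973 3 972)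
(mv 976 (cons (fin 977 2 973)
(mv 1100 (cons (fin 1101 1 1036)
(mv 1168 (cons (mv 975 (cons (fin 911 7 911)
(fin 1232 7 975)))
(cons (mv 1167 (cons (fin 1231 5 975)
(mv 912 (cons (fin 1103 5 911)
(mv 847 (cons (fin 911 7 847)
(mv 848 (cons (fin 783 7 783)
(mv 849 (cons (fin 785 6 784)
(fin 913 6 848)))))))))))
(mv 975 (cons (fin 1232 7 975)
(mv 1167 (cons (fin 1231 5 975)
(mv 912 (cons (fin 1103 5 911)
(mv 848 (cons (fin 784 5 783)
(mv 849 (cons (fin 785 6 784)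
(fin 913 6 848)))))))))))))))))))))
(cons (mv 976 (cons (fin 977 2 973)
(mv 1036 (cons (fin 975 2 972)
(fin 1103 0 1036)))))
(mv 972 (cons (fin 973 3 972)
(mv 976 (cons (fin 977 2 973)
(mv 1036 (cons (fin 971 3 971)
(fin 975 2 972))))))))))
(cons (mv 1038 (cons (fin 1105 0 1037)
(mv 972 (cons (fin 973 3 972)
(mv 976 (cons (fin 977 2 973)
(mv 1036 (cons (fin 971 3 971)
(fin 975 2 972)))))))))
(mv 1038 (cons (fin 1105 0 1037)
(mv 972 (cons (fin 973 3 972)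
(mv 976 (cons (fin 977 2 973)
(mv 1100 (cons (fin 1101 1 1036)
(mv 1168 (cons (mv 975 (cons (fin 911 7 911)
(fin 1232 7 975)))
(cons (mv 1167 (cons (fin 1231 5 975)
(mv 912 (cons (fin 1103 5 911)
(mv 847 (cons (fin 911 7 847)
(mv 848 (cons (fin 783 7 783)
(mv 849 (cons (fin 785 6 784)
(fin 913 6 848)))))))))))
(mv 975 (cons (fin 1232 7 975)
(mv 1167 (cons (fin 1231 5 975)
(mv 912 (cons (fin 1103 5 911)
(mv 848 (cons (fin 784 5 783)
(mv 849 (cons (fin 785 6 784)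
(fin 913 6 848))))))))))))))))))))))))))
(cons (mv 976 (cons (cons (mv 1168 (cons (cons (mv 911 (cons (fin 975 7 911)
(mv 847 (cons (fin 912 7 847)
(mv 913 (cons (fin 977 6 912)
(mv 1231 (cons (fin 1167 5 975)
(mv 1232 (cons (fin 1295 5 1039)
(mv 1233 (cons (fin 1169 4 976)
(fin 1297 4 1040)))))))))))))
(mv 911 (cons (fin 975 7 911)
(mv 912 (cons (fin 847 7 847)
(mv 913 (cons (fin 849 6 848)
(fin 977 6 912))))))))
(cons (mv 911 (cons (fin 975 7 911)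
(mv 847 (cons (fin 912 7 847)
(mv 1231 (cons (fin 1167 5 975)
(mv 1232 (cons (fin 1295 5 1039)
(mv 1233 (cons (fin 1169 4 976)
(fin 1297 4 1040)))))))))))
(cons (mv 913 (cons (fin 977 6 912)
(mv 849 (cons (fin 912 6 848)
(mv 1231 (cons (fin 1167 5 975)
(mv 1232 (cons (fin 1295 5 1039)
(mv 1233 (cons (fin 1169 4 976)
(fin 1297 4 1040)))))))))))
(mv 911 (cons (fin 975 7 911)
(mv 913 (cons (fin 977 6 912)
(mv 1231 (cons (fin 1167 5 975)
(mv 1232 (cons (fin 1295 5 1039)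
(mv 1233 (cons (fin 1169 4 976)
(fin 1297 4 1040)))))))))))))))
(cons (mv 912 (cons (cons (mv 847 (cons (fin 911 7 847)
(mv 783 (cons (fin 848 7 783)
(mv 849 (cons (fin 913 6 848)
(mv 1103 (cons (fin 1167 5 911)
(mv 1105 (cons (fin 1169 4 912)
(mv 1102 (cons (fin 1038 3 1037)
(mv 1101 (cons (fin 1036 3 1036)
(mv 1165 (cons (fin 1164 1 1100)
(fin 1166 1 1101)))))))))))))))))
(mv 847 (cons (fin 911 7 847)
(mv 783 (cons (fin 848 7 783)
(mv 1103 (cons (fin 1167 5 911)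
(mv 1105 (cons (fin 1169 4 912)
(mv 1102 (cons (fin 1038 3 1037)
(mv 1101 (cons (fin 1036 3 1036)
(mv 1165 (cons (fin 1164 1 1100)
(fin 1166 1 1101))))))))))))))))
(cons (mv 849 (cons (fin 913 6 848)
(mv 785 (cons (fin 848 6 784)
(mv 1103 (cons (fin 1167 5 911)
(mv 1105 (cons (fin 1169 4 912)
(mv 1102 (cons (fin 1038 3 1037)
(mv 1101 (cons (fin 1036 3 1036)
(mv 1165 (cons (fin 1164 1 1100)
(fin 1166 1 1101)))))))))))))))
(cons (mv 847 (cons (fin 911 7 847)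
(mv 848 (cons (fin 783 7 783)
(mv 849 (cons (fin 785 6 784)
(fin 913 6 848)))))))
(mv 847 (cons (fin 911 7 847)
(mv 849 (cons (fin 913 6 848)
(mv 1103 (cons (fin 1167 5 911)
(mv 1105 (cons (fin 1169 4 912)
(mv 1102 (cons (fin 1038 3 1037)
(mv 1101 (cons (fin 1036 3 1036)
(mv 1165 (cons (fin 1164 1 1100)
(fin 1166 1 1101)))))))))))))))))))
(mv 1168 (cons (cons (mv 911 (cons (fin 975 7 911)
(mv 913 (cons (fin 977 6 912)
(mv 1231 (cons (fin 1167 5 975)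
(mv 1232 (cons (fin 1295 5 1039)
(mv 1233 (cons (fin 1169 4 976)
(fin 1297 4 1040)))))))))))
(mv 975 (cons (fin 911 7 911)
(mv 977 (cons (fin 913 6 912)
(mv 974 (cons (fin 1038 1 973)
(mv 909 (cons (fin 910 3 909)
(mv 973 (cons (fin 908 3 908)
(fin 1036 1 972))))))))))))
(cons (mv 913 (cons (fin 977 6 912)
(mv 1231 (cons (fin 1167 5 975)
(mv 1232 (cons (fin 1295 5 1039)
(mv 1233 (cons (fin 1169 4 976)
(fin 1297 4 1040)))))))))
(mv 911 (cons (fin 975 7 911)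
(mv 1231 (cons (fin 1167 5 975)
(mv 1232 (cons (fin 1295 5 1039)
(mv 1233 (cons (fin 1169 4 976)
(fin 1297 4 1040))))))))))))))
(cons (cons (mv 912 (cons (cons (mv 847 (cons (fin 911 7 847)
(mv 783 (cons (fin 848 7 783)
(mv 913 (cons (fin 849 6 848)
(mv 1168 (cons (fin 977 6 912)
(mv 1169 (cons (fin 1105 4 912)
(fin 1233 4 976)))))))))))
(mv 911 (cons (fin 847 7 847)
(mv 1168 (cons (fin 975 7 911)
(mv 1169 (cons (fin 1105 4 912)
(fin 1233 4 976))))))))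
(cons (mv 913 (cons (fin 849 6 848)
(mv 1168 (cons (fin 977 6 912)
(mv 1169 (cons (fin 1105 4 912)
(fin 1233 4 976)))))))
(mv 847 (cons (fin 911 7 847)
(mv 848 (cons (fin 783 7 783)
(mv 849 (cons (fin 785 6 784)
(fin 913 6 848))))))))))
(mv 912 (cons (cons (mv 847 (cons (fin 911 7 847)
(mv 783 (cons (fin 848 7 783)
(mv 913 (cons (fin 849 6 848)
(mv 1167 (cons (fin 1103 5 911)
(mv 1168 (cons (fin 1231 5 975)
(fin 977 6 912)))))))))))
(mv 911 (cons (fin 847 7 847)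
(mv 1167 (cons (fin 1103 5 911)
(mv 1168 (cons (fin 975 7 911)
(fin 1231 5 975))))))))
(cons (mv 913 (cons (fin 849 6 848)
(mv 1167 (cons (fin 1103 5 911)
(mv 1168 (cons (fin 1231 5 975)
(fin 977 6 912)))))))
(mv 847 (cons (fin 911 7 847)
(mv 848 (cons (fin 783 7 783)
(mv 849 (cons (fin 785 6 784)
(fin 913 6 848)))))))))))
(cons (mv 1168 (cons (cons (mv 911 (cons (fin 975 7 911)
(mv 847 (cons (fin 912 7 847)
(mv 1231 (cons (fin 1167 5 975)
(mv 1232 (cons (fin 1295 5 1039)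
(mv 1233 (cons (fin 1169 4 976)
(fin 1297 4 1040)))))))))))
(mv 911 (cons (fin 975 7 911)
(mv 912 (cons (fin 847 7 847)
(mv 1169 (cons (fin 1105 4 912)
(fin 1233 4 976))))))))
(cons (mv 911 (cons (fin 975 7 911)
(mv 912 (cons (fin 847 7 847)
(mv 1167 (cons (fin 1103 5 911)
(fin 1231 5 975)))))))
(cons (mv 1167 (cons (fin 1231 5 975)
(mv 912 (cons (fin 1103 5 911)
(mv 1169 (cons (fin 1105 4 912)
(fin 1233 4 976)))))))
(mv 911 (cons (fin 975 7 911)
(mv 1231 (cons (fin 1167 5 975)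
(mv 1232 (cons (fin 1295 5 1039)
(mv 1233 (cons (fin 1169 4 976)
(fin 1297 4 1040)))))))))))))
(mv 1168 (cons (cons (mv 913 (cons (fin 977 6 912)
(mv 849 (cons (fin 912 6 848)
(mv 1231 (cons (fin 1167 5 975)
(mv 1232 (cons (fin 1295 5 1039)
(mv 1233 (cons (fin 1169 4 976)
(fin 1297 4 1040)))))))))))
(mv 913 (cons (fin 977 6 912)
(mv 912 (cons (fin 849 6 848)
(mv 1169 (cons (fin 1105 4 912)
(fin 1233 4 976))))))))
(cons (mv 913 (cons (fin 977 6 912)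
(mv 912 (cons (fin 849 6 848)
(mv 1167 (cons (fin 1103 5 911)
(fin 1231 5 975)))))))
(cons (mv 1167 (cons (fin 1231 5 975)
(mv 912 (cons (fin 1103 5 911)
(mv 1169 (cons (fin 1105 4 912)
(fin 1233 4 976)))))))
(mv 913 (cons (fin 977 6 912)
(mv 1231 (cons (fin 1167 5 975)
(mv 1232 (cons (fin 1295 5 1039)
(mv 1233 (cons (fin 1169 4 976)
(fin 1297 4 1040)))))))))))))))))
(mv 976 (cons (cons (mv 1168 (cons (cons (mv 911 (cons (fin 975 7 911)
(mv 847 (cons (fin 912 7 847)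
(mv 913 (cons (fin 977 6 912)
(mv 1231 (cons (fin 1167 5 975)
(mv 1232 (cons (fin 1295 5 1039)
(mv 1233 (cons (fin 1169 4 976)
(fin 1297 4 1040)))))))))))))
(mv 911 (cons (fin 975 7 911)
(mv 912 (cons (fin 847 7 847)
(mv 913 (cons (fin 849 6 848)
(fin 977 6 912))))))))
(cons (mv 913 (cons (fin 977 6 912)
(mv 849 (cons (fin 912 6 848)
(mv 1231 (cons (fin 1167 5 975)
(mv 1232 (cons (fin 1295 5 1039)
(mv 1233 (cons (fin 1169 4 976)
(fin 1297 4 1040)))))))))))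
(cons (mv 911 (cons (fin 975 7 911)
(mv 847 (cons (fin 912 7 847)
(mv 1231 (cons (fin 1167 5 975)
(mv 1232 (cons (fin 1295 5 1039)
(mv 1233 (cons (fin 1169 4 976)
(fin 1297 4 1040)))))))))))
(mv 911 (cons (fin 975 7 911)
(mv 913 (cons (fin 977 6 912)
(mv 1231 (cons (fin 1167 5 975)
(mv 1232 (cons (fin 1295 5 1039)
(mv 1233 (cons (fin 1169 4 976)
(fin 1297 4 1040)))))))))))))))
(cons (mv 912 (cons (cons (mv 847 (cons (fin 911 7 847)
(mv 848 (cons (fin 783 7 783)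
(mv 849 (cons (fin 785 6 784)
(fin 913 6 848)))))))
(mv 849 (cons (fin 913 6 848)
(mv 848 (cons (fin 785 6 784)
(mv 1103 (cons (fin 1039 5 847)
(fin 1167 5 911))))))))
(cons (mv 847 (cons (fin 911 7 847)
(mv 848 (cons (fin 783 7 783)
(mv 1103 (cons (fin 1039 5 847)
(fin 1167 5 911)))))))
(mv 847 (cons (fin 911 7 847)
(mv 913 (cons (fin 849 6 848)
(mv 1103 (cons (fin 1167 5 911)
(mv 1105 (cons (fin 1169 4 912)
(mv 1106 (cons (cons (mv 1039 (cons (fin 1107 3 1039)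
(mv 1042 (cons (fin 1043 2 1039)
(mv 1170 (cons (fin 1171 0 1103)
(mv 978 (cons (fin 977 7 913)
(mv 915 (cons (fin 979 6 914)
(mv 914 (cons (fin 975 1 911)
(fin 851 6 850)))))))))))))
(mv 1042 (cons (fin 1043 2 1039)
(mv 1170 (cons (fin 1171 0 1103)
(mv 978 (cons (fin 977 7 913)
(mv 915 (cons (fin 979 6 914)
(mv 914 (cons (fin 975 1 911)
(fin 851 6 850))))))))))))
(cons (mv 1107 (cons (fin 1039 3 1039)
(mv 1171 (cons (fin 1170 0 1103)
(fin 1172 0 1104)))))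
(mv 1043 (cons (fin 1042 2 1039)
(mv 1107 (cons (fin 1039 3 1039)
(fin 1044 2 1040)))))))))))))))))))
(mv 1168 (cons (cons (mv 911 (cons (fin 975 7 911)
(mv 913 (cons (fin 977 6 912)
(mv 1231 (cons (fin 1167 5 975)
(mv 1232 (cons (fin 1295 5 1039)
(mv 1233 (cons (fin 1169 4 976)
(fin 1297 4 1040)))))))))))
(cons (mv 913 (cons (fin 977 6 912)
(mv 1231 (cons (fin 1167 5 975)
(mv 1232 (cons (fin 1295 5 1039)
(mv 1233 (cons (fin 1169 4 976)
(fin 1297 4 1040)))))))))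
(mv 913 (cons (fin 977 6 912)
(mv 975 (cons (fin 911 7 911)
(mv 1232 (cons (fin 1039 7 975)
(mv 1233 (cons (fin 1169 4 976)
(fin 1297 4 1040)))))))))))
(cons (mv 913 (cons (fin 977 6 912)
(mv 975 (cons (fin 911 7 911)
(mv 1231 (cons (fin 1167 5 975)
(mv 1232 (cons (fin 1039 7 975)
(fin 1295 5 1039)))))))))
(cons (mv 911 (cons (fin 975 7 911)
(mv 1231 (cons (fin 1167 5 975)
(mv 1232 (cons (fin 1295 5 1039)
(mv 1233 (cons (fin 1169 4 976)
(fin 1297 4 1040)))))))))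
(mv 911 (cons (fin 975 7 911)
(mv 913 (cons (fin 977 6 912)
(mv 1167 (cons (fin 1231 5 975)
(mv 1169 (cons (fin 1233 4 976)
(mv 1166 (cons (mv 1105 (cons (fin 1165 2 1101)
(fin 1106 2 1102)))
(cons (mv 1101 (cons (fin 1102 3 1101)
(mv 1165 (cons (fin 1100 3 1100)
(mv 1229 (cons (fin 1228 1 1164)
(fin 1230 1 1165)))))))
(mv 1101 (cons (fin 1102 3 1101)
(mv 1106 (cons (fin 1105 2 1102)
(mv 1170 (cons (fin 1107 2 1103)
(mv 1171 (cons (fin 1103 3 1103)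
(mv 1235 (cons (fin 1234 0 1167)
(fin 1236 0 1168))))))))))))))))))))))))))))
(cons (cons (mv 912 (cons (cons (mv 847 (cons (fin 911 7 847)
(mv 783 (cons (fin 848 7 783)
(mv 913 (cons (fin 849 6 848)
(mv 1168 (cons (fin 977 6 912)
(mv 1169 (cons (fin 1105 4 912)
(fin 1233 4 976)))))))))))
(cons (mv 849 (cons (fin 913 6 848)
(mv 848 (cons (fin 785 6 784)
(mv 783 (cons (fin 847 7 783)
(mv 784 (cons (fin 719 7 719)
(mv 1039 (cons (fin 975 5 783)
(fin 1103 5 847)))))))))))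
(mv 847 (cons (fin 911 7 847)
(mv 848 (cons (fin 783 7 783)
(mv 785 (cons (fin 849 6 784)
(mv 784 (cons (fin 721 6 720)
(mv 1039 (cons (fin 975 5 783)
(fin 1103 5 847)))))))))))))
(cons (mv 849 (cons (fin 913 6 848)
(mv 848 (cons (fin 785 6 784)
(mv 1039 (cons (fin 1103 5 847)
(mv 975 (cons (fin 784 5 783)
(mv 1168 (cons (fin 911 7 911)
(fin 1232 7 975)))))))))))
(cons (mv 847 (cons (fin 911 7 847)
(mv 848 (cons (fin 783 7 783)
(mv 1039 (cons (fin 1103 5 847)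
(mv 975 (cons (fin 784 5 783)
(mv 1168 (cons (fin 1232 7 975)
(mv 1169 (cons (fin 1105 4 912)
(fin 1233 4 976)))))))))))))
(mv 847 (cons (fin 911 7 847)
(mv 913 (cons (fin 849 6 848)
(mv 1168 (cons (fin 977 6 912)
(mv 1169 (cons (fin 1105 4 912)
(fin 1233 4 976)))))))))))))
(mv 1168 (cons (cons (mv 913 (cons (fin 977 6 912)
(mv 849 (cons (fin 912 6 848)
(mv 1169 (cons (fin 1233 4 976)
(mv 1231 (cons (fin 1167 5 975)
(mv 1232 (cons (fin 1295 5 1039)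
(mv 1039 (cons (fin 975 7 975)
(mv 1103 (cons (fin 1296 7 1039)
(mv 1102 (cons (fin 1101 0 1101)
(mv 1170 (cons (fin 1171 3 1103)
(fin 1105 0 1102)))))))))))))))))))
(cons (mv 913 (cons (fin 977 6 912)
(mv 849 (cons (fin 912 6 848)
(mv 1233 (cons (fin 1169 4 976)
(mv 1232 (cons (fin 1297 4 1040)
(mv 1039 (cons (fin 975 7 975)
(mv 1295 (cons (fin 1231 5 1039)
(mv 1296 (cons (fin 1103 7 1039)
(fin 1359 5 1103)))))))))))))))
(mv 913 (cons (fin 977 6 912)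
(mv 849 (cons (fin 912 6 848)
(mv 1231 (cons (fin 1167 5 975)
(mv 1232 (cons (fin 1295 5 1039)
(mv 1039 (cons (fin 975 7 975)
(mv 1296 (cons (fin 1103 7 1039)
(mv 1297 (cons (fin 1233 4 1040)
(fin 1361 4 1104)))))))))))))))))
(cons (cons (mv 913 (cons (fin 977 6 912)
(mv 912 (cons (fin 849 6 848)
(mv 1169 (cons (fin 1105 4 912)
(fin 1233 4 976)))))))
(mv 913 (cons (fin 977 6 912)
(mv 912 (cons (fin 849 6 848)
(mv 1167 (cons (fin 1103 5 911)
(fin 1231 5 975))))))))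
(cons (mv 1167 (cons (fin 1231 5 975)
(mv 912 (cons (fin 1103 5 911)
(mv 1169 (cons (fin 1105 4 912)
(fin 1233 4 976)))))))
(mv 913 (cons (fin 977 6 912)
(mv 1169 (cons (fin 1233 4 976)
(mv 1231 (cons (fin 1167 5 975)
(mv 1232 (cons (fin 1295 5 1039)
(mv 1039 (cons (fin 975 7 975)
(mv 1103 (cons (fin 1296 7 1039)
(mv 1102 (cons (fin 1101 0 1101)
(mv 1170 (cons (fin 1171 3 1103)
(fin 1105 0 1102))))))))))))))))))))))
(cons (mv 912 (cons (cons (mv 847 (cons (fin 911 7 847)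
(mv 783 (cons (fin 848 7 783)
(mv 913 (cons (fin 849 6 848)
(mv 1167 (cons (fin 1103 5 911)
(mv 1168 (cons (fin 1231 5 975)
(fin 977 6 912)))))))))))
(mv 849 (cons (fin 913 6 848)
(mv 848 (cons (fin 785 6 784)
(mv 1103 (cons (fin 1039 5 847)
(fin 1167 5 911))))))))
(cons (mv 847 (cons (fin 911 7 847)
(mv 848 (cons (fin 783 7 783)
(mv 1103 (cons (fin 1039 5 847)
(fin 1167 5 911)))))))
(cons (mv 847 (cons (fin 911 7 847)
(mv 848 (cons (fin 783 7 783)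
(mv 849 (cons (fin 785 6 784)
(fin 913 6 848)))))))
(mv 847 (cons (fin 911 7 847)
(mv 913 (cons (fin 849 6 848)
(mv 1167 (cons (fin 1103 5 911)
(mv 1168 (cons (fin 1231 5 975)
(fin 977 6 912)))))))))))))
(mv 1168 (cons (cons (mv 911 (cons (fin 975 7 911)
(mv 847 (cons (fin 912 7 847)
(mv 1231 (cons (fin 1167 5 975)
(mv 1232 (cons (fin 1295 5 1039)
(mv 1233 (cons (fin 1169 4 976)
(fin 1297 4 1040)))))))))))
(mv 911 (cons (fin 975 7 911)
(mv 912 (cons (fin 847 7 847)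
(mv 1169 (cons (fin 1105 4 912)
(fin 1233 4 976))))))))
(cons (mv 911 (cons (fin 975 7 911)
(mv 912 (cons (fin 847 7 847)
(mv 1167 (cons (fin 1103 5 911)
(fin 1231 5 975)))))))
(cons (mv 1167 (cons (fin 1231 5 975)
(mv 912 (cons (fin 1103 5 911)
(mv 1169 (cons (fin 1105 4 912)
(fin 1233 4 976)))))))
(mv 911 (cons (fin 975 7 911)
(mv 1231 (cons (fin 1167 5 975)
(mv 1232 (cons (fin 1295 5 1039)
(mv 1233 (cons (fin 1169 4 976)
(fin 1297 4 1040)))))))))))))))))))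
(cons (cons (mv 976 (cons (cons (cons (mv 1168 (cons (cons (mv 911 (cons (fin 975 7 911)
(mv 847 (cons (fin 912 7 847)
(mv 913 (cons (fin 977 6 912)
(mv 1231 (cons (fin 1167 5 975)
(mv 1232 (cons (fin 1295 5 1039)
(mv 1233 (cons (fin 1169 4 976)
(fin 1297 4 1040)))))))))))))
(cons (mv 913 (cons (fin 977 6 912)
(mv 849 (cons (fin 912 6 848)
(mv 1231 (cons (fin 1167 5 975)
(mv 1232 (cons (fin 1295 5 1039)
(mv 1233 (cons (fin 1169 4 976)
(fin 1297 4 1040)))))))))))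
(mv 911 (cons (fin 975 7 911)
(mv 847 (cons (fin 912 7 847)
(mv 977 (cons (fin 913 6 912)
(mv 1039 (cons (fin 1038 2 973)
(mv 978 (cons (fin 979 1 975)
(mv 1233 (cons (fin 1169 4 976)
(mv 1232 (cons (fin 1297 4 1040)
(mv 1295 (cons (fin 1231 5 1039)
(mv 1296 (cons (fin 1103 7 1039)
(fin 1359 5 1103)))))))))))))))))))))
(cons (mv 911 (cons (fin 975 7 911)
(mv 847 (cons (fin 912 7 847)
(mv 1231 (cons (fin 1167 5 975)
(mv 1232 (cons (fin 1295 5 1039)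
(mv 1233 (cons (fin 1169 4 976)
(fin 1297 4 1040)))))))))))
(cons (mv 911 (cons (fin 975 7 911)
(mv 912 (cons (fin 847 7 847)
(mv 913 (cons (fin 849 6 848)
(fin 977 6 912)))))))
(mv 911 (cons (fin 975 7 911)
(mv 913 (cons (fin 977 6 912)
(mv 1231 (cons (fin 1167 5 975)
(mv 1232 (cons (fin 1295 5 1039)
(mv 1233 (cons (fin 1169 4 976)
(fin 1297 4 1040)))))))))))))))
(mv 912 (cons (cons (mv 847 (cons (fin 911 7 847)
(mv 848 (cons (fin 783 7 783)
(mv 849 (cons (fin 785 6 784)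
(fin 913 6 848)))))))
(mv 849 (cons (fin 913 6 848)
(mv 848 (cons (fin 785 6 784)
(mv 1103 (cons (fin 1039 5 847)
(fin 1167 5 911))))))))
(cons (mv 847 (cons (fin 911 7 847)
(mv 848 (cons (fin 783 7 783)
(mv 1103 (cons (fin 1039 5 847)
(fin 1167 5 911)))))))
(mv 911 (cons (fin 847 7 847)
(mv 913 (cons (fin 849 6 848)
(mv 1103 (cons (fin 1167 5 911)
(mv 914 (cons (mv 975 (cons (fin 974 1 910)
(fin 915 1 911)))
(cons (mv 850 (cons (fin 851 2 847)
(mv 978 (cons (fin 979 0 911)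
(mv 910 (cons (fin 977 0 910)
(mv 973 (cons (fin 974 1 909)
(mv 909 (cons (fin 972 1 908)
(mv 844 (cons (fin 845 3 844)
(mv 908 (cons (fin 843 3 843)
(fin 1101 7 844)))))))))))))))
(mv 850 (cons (fin 851 2 847)
(mv 915 (cons (fin 975 1 911)
(mv 979 (cons (fin 978 0 911)
(fin 980 0 912))))))))))))))))))))
(cons (mv 1168 (cons (cons (mv 911 (cons (fin 975 7 911)
(mv 913 (cons (fin 977 6 912)
(mv 1231 (cons (fin 1167 5 975)
(mv 1232 (cons (fin 1295 5 1039)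
(mv 1233 (cons (fin 1169 4 976)
(fin 1297 4 1040)))))))))))
(cons (mv 913 (cons (fin 977 6 912)
(mv 1231 (cons (fin 1167 5 975)
(mv 1232 (cons (fin 1295 5 1039)
(mv 1233 (cons (fin 1169 4 976)
(fin 1297 4 1040)))))))))
(mv 911 (cons (fin 975 7 911)
(mv 1231 (cons (fin 1167 5 975)
(mv 1232 (cons (fin 1295 5 1039)
(mv 1233 (cons (fin 1169 4 976)
(fin 1297 4 1040)))))))))))
(cons (cons (mv 913 (cons (fin 977 6 912)
(mv 975 (cons (fin 911 7 911)
(mv 1039 (cons (fin 1232 7 975)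
(mv 1038 (cons (fin 1036 2 972)
(mv 972 (cons (fin 973 3 972)
(mv 1101 (cons (fin 1100 1 1036)
(mv 1169 (cons (fin 1233 4 976)
(mv 1102 (cons (fin 1103 0 1101)
(mv 1166 (cons (fin 1167 3 1101)
(fin 1230 6 974)))))))))))))))))))
(mv 913 (cons (fin 977 6 912)
(mv 975 (cons (fin 911 7 911)
(mv 1039 (cons (fin 1232 7 975)
(mv 1036 (cons (fin 1038 2 972)
(mv 974 (cons (fin 973 1 972)
(mv 1167 (cons (fin 1231 5 975)
(mv 1103 (cons (fin 910 7 910)
(mv 1101 (cons (fin 1102 3 1036)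
(mv 1166 (cons (fin 1230 5 974)
(mv 1165 (cons (fin 1100 3 1100)
(fin 1164 2 1100))))))))))))))))))))))
(cons (mv 911 (cons (fin 975 7 911)
(mv 977 (cons (fin 913 6 912)
(mv 1039 (cons (fin 1038 2 973)
(mv 978 (cons (fin 979 1 975)
(mv 1233 (cons (fin 1169 4 976)
(mv 1232 (cons (fin 1297 4 1040)
(mv 1295 (cons (fin 1231 5 1039)
(mv 1296 (cons (fin 1103 7 1039)
(fin 1359 5 1103)))))))))))))))))
(mv 975 (cons (fin 911 7 911)
(mv 977 (cons (fin 913 6 912)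
(mv 1038 (cons (fin 974 1 973)
(fin 1039 2 973)))))))))))
(mv 1168 (cons (cons (mv 911 (cons (fin 975 7 911)
(mv 847 (cons (fin 912 7 847)
(mv 1231 (cons (fin 1167 5 975)
(mv 1232 (cons (fin 1295 5 1039)
(mv 1233 (cons (fin 1169 4 976)
(fin 1297 4 1040)))))))))))
(mv 1167 (cons (fin 1231 5 975)
(mv 912 (cons (fin 1103 5 911)
(mv 847 (cons (fin 911 7 847)
(mv 848 (cons (fin 783 7 783)
(mv 849 (cons (fin 785 6 784)
(fin 913 6 848))))))))))))
(cons (mv 975 (cons (fin 911 7 911)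
(mv 1039 (cons (fin 1232 7 975)
(mv 1038 (cons (fin 1036 2 972)
(mv 973 (cons (fin 972 3 972)
(mv 1101 (cons (fin 1100 1 1036)
(mv 1169 (cons (fin 1233 4 976)
(mv 1102 (cons (fin 1103 0 1101)
(mv 909 (cons (fin 845 4 845)
(fin 1166 4 909)))))))))))))))))
(mv 1167 (cons (fin 1231 5 975)
(mv 1103 (cons (fin 912 5 911)
(mv 1169 (cons (fin 1233 4 976)
(mv 1102 (cons (fin 1170 3 1102)
(fin 1101 0 1101))))))))))))))
(cons (cons (mv 1168 (cons (cons (mv 913 (cons (fin 977 6 912)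
(mv 849 (cons (fin 912 6 848)
(mv 1167 (cons (fin 1231 5 975)
(mv 1233 (cons (fin 1169 4 976)
(mv 1232 (cons (fin 1297 4 1040)
(mv 1039 (cons (fin 975 7 975)
(mv 1103 (cons (fin 1296 7 1039)
(mv 1036 (cons (fin 1038 0 1036)
(mv 1101 (cons (fin 1102 3 1036)
(mv 1165 (cons (fin 1166 0 1165)
(mv 972 (cons (fin 1229 7 972)
(mv 908 (cons (fin 973 7 908)
(fin 844 4 844)))))))))))))))))))))))))
(cons (mv 913 (cons (fin 977 6 912)
(mv 849 (cons (fin 912 6 848)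
(mv 1233 (cons (fin 1169 4 976)
(mv 1232 (cons (fin 1297 4 1040)
(mv 1039 (cons (fin 975 7 975)
(mv 1295 (cons (fin 1231 5 1039)
(mv 1296 (cons (fin 1103 7 1039)
(fin 1359 5 1103)))))))))))))))
(mv 1167 (cons (fin 1231 5 975)
(mv 1103 (cons (fin 912 5 911)
(mv 1169 (cons (fin 1233 4 976)
(mv 1102 (cons (fin 1170 3 1102)
(fin 1101 0 1101)))))))))))
(cons (mv 913 (cons (fin 977 6 912)
(mv 912 (cons (fin 849 6 848)
(mv 1103 (cons (fin 1167 5 911)
(mv 1039 (cons (fin 848 5 847)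
(mv 1232 (cons (fin 975 7 975)
(fin 1296 7 1039)))))))))))
(cons (mv 913 (cons (fin 977 6 912)
(mv 1167 (cons (fin 1231 5 975)
(mv 1233 (cons (fin 1169 4 976)
(mv 1232 (cons (fin 1297 4 1040)
(mv 1039 (cons (fin 975 7 975)
(mv 1103 (cons (fin 1296 7 1039)
(mv 1036 (cons (fin 1038 0 1036)
(mv 1101 (cons (fin 1102 3 1036)
(mv 1165 (cons (fin 1166 0 1165)
(mv 972 (cons (fin 1229 7 972)
(mv 908 (cons (fin 973 7 908)
(fin 844 4 844)))))))))))))))))))))))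
(mv 913 (cons (fin 977 6 912)
(mv 849 (cons (fin 912 6 848)
(mv 1231 (cons (fin 1167 5 975)
(mv 1232 (cons (fin 1295 5 1039)
(mv 1233 (cons (fin 1169 4 976)
(fin 1297 4 1040)))))))))))))))
(mv 1168 (cons (cons (mv 911 (cons (fin 975 7 911)
(mv 847 (cons (fin 912 7 847)
(mv 977 (cons (fin 913 6 912)
(mv 1039 (cons (fin 1038 2 973)
(mv 978 (cons (fin 979 1 975)
(mv 1233 (cons (fin 1169 4 976)
(mv 1232 (cons (fin 1297 4 1040)
(mv 1295 (cons (fin 1231 5 1039)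
(mv 1296 (cons (fin 1103 7 1039)
(fin 1359 5 1103)))))))))))))))))))
(mv 977 (cons (fin 913 6 912)
(mv 1039 (cons (fin 1038 2 973)
(mv 978 (cons (fin 979 1 975)
(mv 1233 (cons (fin 1169 4 976)
(mv 1232 (cons (fin 1297 4 1040)
(mv 1295 (cons (fin 1231 5 1039)
(mv 1296 (cons (fin 1103 7 1039)
(fin 1359 5 1103))))))))))))))))
(cons (mv 975 (cons (fin 911 7 911)
(mv 1039 (cons (fin 1232 7 975)
(mv 1038 (cons (fin 1036 2 972)
(mv 973 (cons (fin 972 3 972)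
(mv 1101 (cons (fin 1100 1 1036)
(mv 1169 (cons (fin 1233 4 976)
(mv 1102 (cons (fin 1103 0 1101)
(mv 909 (cons (fin 845 4 845)
(fin 1166 4 909)))))))))))))))))
(mv 911 (cons (fin 975 7 911)
(mv 912 (cons (fin 847 7 847)
(mv 913 (cons (fin 849 6 848)
(fin 977 6 912)))))))))))
(cons (mv 1168 (cons (cons (mv 911 (cons (fin 975 7 911)
(mv 847 (cons (fin 912 7 847)
(mv 1231 (cons (fin 1167 5 975)
(mv 1232 (cons (fin 1295 5 1039)
(mv 1233 (cons (fin 1169 4 976)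
(fin 1297 4 1040)))))))))))
(mv 1167 (cons (fin 1231 5 975)
(mv 1103 (cons (fin 912 5 911)
(mv 1169 (cons (fin 1233 4 976)
(mv 1102 (cons (fin 1170 3 1102)
(fin 1101 0 1101))))))))))
(cons (mv 911 (cons (fin 975 7 911)
(mv 847 (cons (fin 912 7 847)
(mv 1233 (cons (fin 1169 4 976)
(mv 1232 (cons (fin 1297 4 1040)
(mv 1295 (cons (fin 1231 5 1039)
(mv 1296 (cons (fin 1359 5 1103)
(mv 1039 (cons (fin 1103 7 1039)
(mv 1038 (cons (fin 977 2 973)
(mv 972 (cons (fin 973 3 972)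
(mv 1036 (cons (fin 971 3 971)
(mv 1100 (cons (fin 1099 1 1035)
(fin 1101 1 1036)))))))))))))))))))))))
(cons (mv 911 (cons (fin 975 7 911)
(mv 912 (cons (fin 847 7 847)
(mv 1103 (cons (fin 1167 5 911)
(mv 1039 (cons (fin 848 5 847)
(mv 1038 (cons (fin 977 2 973)
(fin 1036 0 1036)))))))))))
(mv 911 (cons (fin 975 7 911)
(mv 1231 (cons (fin 1167 5 975)
(mv 1232 (cons (fin 1295 5 1039)
(mv 1233 (cons (fin 1169 4 976)
(fin 1297 4 1040)))))))))))))
(cons (mv 1168 (cons (cons (mv 911 (cons (fin 975 7 911)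
(mv 847 (cons (fin 912 7 847)
(mv 913 (cons (fin 977 6 912)
(mv 1231 (cons (fin 1167 5 975)
(mv 1232 (cons (fin 1295 5 1039)
(mv 1233 (cons (fin 1169 4 976)
(fin 1297 4 1040)))))))))))))
(mv 911 (cons (fin 975 7 911)
(mv 912 (cons (fin 847 7 847)
(mv 913 (cons (fin 849 6 848)
(fin 977 6 912))))))))
(cons (mv 911 (cons (fin 975 7 911)
(mv 847 (cons (fin 912 7 847)
(mv 1231 (cons (fin 1167 5 975)
(mv 1232 (cons (fin 1295 5 1039)
(mv 1233 (cons (fin 1169 4 976)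
(fin 1297 4 1040)))))))))))
(cons (mv 913 (cons (fin 977 6 912)
(mv 849 (cons (fin 912 6 848)
(mv 1231 (cons (fin 1167 5 975)
(mv 1232 (cons (fin 1295 5 1039)
(mv 1233 (cons (fin 1169 4 976)
(fin 1297 4 1040)))))))))))
(mv 911 (cons (fin 975 7 911)
(mv 913 (cons (fin 977 6 912)
(mv 1231 (cons (fin 1167 5 975)
(mv 1232 (cons (fin 1295 5 1039)
(mv 1233 (cons (fin 1169 4 976)
(fin 1297 4 1040)))))))))))))))
(mv 912 (cons (cons (mv 847 (cons (fin 911 7 847)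
(mv 783 (cons (fin 848 7 783)
(mv 913 (cons (fin 849 6 848)
(mv 1103 (cons (fin 1167 5 911)
(mv 1168 (cons (fin 977 6 912)
(mv 1233 (cons (fin 1169 4 976)
(mv 1232 (cons (fin 1297 4 1040)
(mv 1295 (cons (fin 1231 5 1039)
(mv 1296 (cons (fin 1039 7 1039)
(fin 1359 5 1103)))))))))))))))))))
(cons (mv 847 (cons (fin 911 7 847)
(mv 783 (cons (fin 848 7 783)
(mv 913 (cons (fin 849 6 848)
(mv 1168 (cons (fin 977 6 912)
(mv 1231 (cons (fin 1167 5 975)
(mv 1232 (cons (fin 1295 5 1039)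
(mv 1233 (cons (fin 1169 4 976)
(fin 1297 4 1040)))))))))))))))
(mv 847 (cons (fin 911 7 847)
(mv 848 (cons (fin 783 7 783)
(mv 1103 (cons (fin 1039 5 847)
(fin 1167 5 911)))))))))
(cons (mv 847 (cons (fin 911 7 847)
(mv 848 (cons (fin 783 7 783)
(mv 849 (cons (fin 785 6 784)
(fin 913 6 848)))))))
(cons (mv 849 (cons (fin 913 6 848)
(mv 848 (cons (fin 785 6 784)
(mv 1103 (cons (fin 1039 5 847)
(fin 1167 5 911)))))))
(mv 847 (cons (fin 911 7 847)
(mv 913 (cons (fin 849 6 848)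
(mv 1103 (cons (fin 1167 5 911)
(mv 1168 (cons (fin 977 6 912)
(mv 1233 (cons (fin 1169 4 976)
(mv 1232 (cons (fin 1297 4 1040)
(mv 1295 (cons (fin 1231 5 1039)
(mv 1296 (cons (fin 1039 7 1039)
(fin 1359 5 1103))))))))))))))))))))))))))
(mv 1038 (cons (cons (mv 1039 (cons (fin 1105 0 1037)
(mv 972 (cons (fin 973 3 972)
(mv 1036 (cons (fin 971 3 971)
(fin 1103 0 1036)))))))
(cons (mv 1102 (cons (cons (mv 1103 (cons (fin 1105 3 1037)
(mv 1036 (cons (fin 1101 3 1036)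
(fin 1035 0 1035)))))
(mv 1166 (cons (cons (mv 973 (cons (fin 1230 7 973)
(mv 909 (cons (fin 974 7 909)
(fin 845 4 845)))))
(mv 974 (cons (cons (mv 909 (cons (fin 973 7 909)
(mv 845 (cons (fin 910 7 845)
(mv 911 (cons (fin 975 6 910)
(mv 1165 (cons (fin 1229 5 973)
(mv 1167 (cons (fin 1231 4 974)
(mv 1168 (cons (fin 1105 2 1101)
(mv 1101 (cons (fin 1100 3 1100)
(fin 1169 3 1101)))))))))))))))
(mv 911 (cons (fin 975 6 910)
(mv 847 (cons (fin 910 6 846)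
(mv 1165 (cons (fin 1229 5 973)
(mv 1167 (cons (fin 1231 4 974)
(mv 1168 (cons (fin 1105 2 1101)
(mv 1101 (cons (fin 1100 3 1100)
(fin 1169 3 1101))))))))))))))
(cons (mv 909 (cons (fin 973 7 909)
(mv 910 (cons (fin 845 7 845)
(mv 911 (cons (fin 847 6 846)
(fin 975 6 910)))))))
(cons (mv 909 (cons (fin 973 7 909)
(mv 845 (cons (fin 910 7 845)
(mv 1165 (cons (fin 1229 5 973)
(mv 1167 (cons (fin 1231 4 974)
(mv 1168 (cons (fin 1105 2 1101)
(mv 1101 (cons (fin 1100 3 1100)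
(fin 1169 3 1101)))))))))))))
(mv 909 (cons (fin 973 7 909)
(mv 911 (cons (fin 975 6 910)
(mv 1165 (cons (fin 1229 5 973)
(mv 1167 (cons (fin 1231 4 974)
(mv 1168 (cons (fin 1105 2 1101)
(mv 1101 (cons (fin 1100 3 1100)
(fin 1169 3 1101))))))))))))))))))
(cons (mv 974 (cons (cons (mv 911 (cons (fin 975 6 910)
(mv 847 (cons (fin 910 6 846)
(mv 1165 (cons (fin 1229 5 973)
(mv 1167 (cons (fin 1231 4 974)
(mv 1168 (cons (fin 1105 2 1101)
(mv 1101 (cons (fin 1100 3 1100)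
(fin 1169 3 1101)))))))))))))
(cons (mv 911 (cons (fin 975 6 910)
(mv 847 (cons (fin 910 6 846)
(mv 1231 (cons (fin 1167 4 974)
(mv 1230 (cons (fin 1295 4 1038)
(mv 1293 (cons (fin 1229 5 1037)
(mv 1294 (cons (fin 1101 7 1037)
(fin 1357 5 1101)))))))))))))
(mv 911 (cons (fin 975 6 910)
(mv 910 (cons (fin 847 6 846)
(mv 845 (cons (fin 909 7 845)
(mv 1101 (cons (fin 1165 5 909)
(mv 1230 (cons (fin 1294 7 1037)
(mv 1231 (cons (fin 1167 4 974)
(fin 1295 4 1038)))))))))))))))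
(cons (cons (mv 911 (cons (fin 975 6 910)
(mv 910 (cons (fin 847 6 846)
(mv 1165 (cons (fin 1101 5 909)
(fin 1229 5 973)))))))
(mv 1165 (cons (fin 1229 5 973)
(mv 1101 (cons (fin 910 5 909)
(mv 1167 (cons (fin 1231 4 974)
(mv 1100 (cons (fin 1168 3 1100)
(fin 1099 0 1099))))))))))
(cons (mv 911 (cons (fin 975 6 910)
(mv 847 (cons (fin 910 6 846)
(mv 1229 (cons (fin 1165 5 973)
(mv 1230 (cons (fin 1293 5 1037)
(mv 1231 (cons (fin 1167 4 974)
(fin 1295 4 1038)))))))))))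
(mv 911 (cons (fin 975 6 910)
(mv 1165 (cons (fin 1229 5 973)
(mv 1167 (cons (fin 1231 4 974)
(mv 1168 (cons (fin 1105 2 1101)
(mv 1101 (cons (fin 1100 3 1100)
(fin 1169 3 1101)))))))))))))))
(cons (mv 973 (cons (fin 1230 7 973)
(mv 909 (cons (fin 845 4 845)
(fin 1101 4 909)))))
(mv 1230 (cons (fin 973 7 973)
(mv 1101 (cons (fin 1294 7 1037)
(mv 1229 (cons (fin 1293 5 1037)
(mv 974 (cons (fin 1165 5 973)
(mv 1231 (cons (fin 1167 4 974)
(fin 1295 4 1038))))))))))))))))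
(cons (mv 973 (cons (cons (mv 909 (cons (fin 845 4 845)
(mv 1166 (cons (fin 974 7 909)
(fin 1230 7 973)))))
(mv 909 (cons (fin 845 4 845)
(mv 1101 (cons (cons (mv 844 (cons (fin 908 7 844)
(mv 1036 (cons (fin 1103 3 1036)
(mv 1034 (cons (fin 1035 0 1034)
(mv 1164 (cons (fin 1100 5 908)
(mv 1165 (cons (fin 1228 5 972)
(mv 974 (cons (fin 910 5 909)
(fin 1229 6 973)))))))))))))
(cons (mv 844 (cons (fin 908 7 844)
(mv 1164 (cons (fin 1100 5 908)
(mv 1165 (cons (fin 1228 5 972)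
(mv 974 (cons (fin 910 5 909)
(fin 1229 6 973)))))))))
(mv 844 (cons (fin 908 7 844)
(mv 1036 (cons (fin 1103 3 1036)
(mv 1035 (cons (fin 1034 0 1034)
(mv 970 (cons (fin 971 3 970)
(mv 974 (cons (fin 975 2 971)
(mv 1165 (cons (fin 910 5 909)
(fin 1229 6 973)))))))))))))))
(cons (mv 1036 (cons (fin 1103 3 1036)
(mv 1034 (cons (fin 1035 0 1034)
(mv 1164 (cons (fin 1100 5 908)
(mv 1165 (cons (fin 1228 5 972)
(mv 974 (cons (fin 910 5 909)
(fin 1229 6 973)))))))))))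
(cons (mv 844 (cons (fin 908 7 844)
(mv 1036 (cons (fin 1103 3 1036)
(mv 1035 (cons (fin 1034 0 1034)
(mv 970 (cons (fin 971 3 970)
(mv 974 (cons (fin 975 2 971)
(mv 1099 (cons (fin 1098 1 1034)
(mv 1100 (cons (fin 1164 5 908)
(mv 1163 (cons (fin 1162 1 1098)
(mv 1227 (cons (fin 972 6 971)
(fin 1291 6 1035)))))))))))))))))))
(mv 844 (cons (fin 908 7 844)
(mv 1036 (cons (fin 1103 3 1036)
(mv 1034 (cons (fin 1035 0 1034)
(mv 1164 (cons (fin 1100 5 908)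
(mv 1165 (cons (fin 1228 5 972)
(mv 1229 (cons (fin 972 7 972)
(fin 1293 6 1037))))))))))))))))))))
(cons (mv 1166 (cons (fin 1230 7 973)
(mv 974 (cons (cons (mv 911 (cons (fin 975 6 910)
(mv 847 (cons (fin 910 6 846)
(mv 1165 (cons (fin 1229 5 973)
(mv 1167 (cons (fin 1231 4 974)
(mv 1103 (cons (fin 1164 2 1100)
(mv 1036 (cons (fin 1101 3 1036)
(fin 1035 0 1035)))))))))))))
(mv 911 (cons (fin 975 6 910)
(mv 910 (cons (fin 847 6 846)
(mv 1167 (cons (fin 1103 4 910)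
(fin 1231 4 974))))))))
(cons (mv 911 (cons (fin 975 6 910)
(mv 910 (cons (fin 847 6 846)
(mv 1165 (cons (fin 1101 5 909)
(fin 1229 5 973)))))))
(cons (mv 1165 (cons (fin 1229 5 973)
(mv 910 (cons (fin 1101 5 909)
(mv 1167 (cons (fin 1103 4 910)
(fin 1231 4 974)))))))
(mv 911 (cons (fin 975 6 910)
(mv 1165 (cons (fin 1229 5 973)
(mv 1167 (cons (fin 1231 4 974)
(mv 1103 (cons (fin 1164 2 1100)
(mv 1036 (cons (fin 1101 3 1036)
(fin 1035 0 1035)))))))))))))))))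
(mv 909 (cons (fin 845 4 845)
(mv 1166 (cons (fin 1230 7 973)
(fin 1101 4 909))))))))
(mv 1103 (cons (fin 1105 3 1037)
(mv 1035 (cons (fin 1036 0 1035)
(mv 1166 (cons (cons (mv 973 (cons (fin 1230 7 973)
(mv 909 (cons (fin 974 7 909)
(fin 845 4 845)))))
(mv 974 (cons (mv 1167 (cons (fin 910 4 910)
(fin 1231 4 974)))
(cons (mv 909 (cons (fin 973 7 909)
(mv 910 (cons (fin 845 7 845)
(mv 911 (cons (fin 847 6 846)
(fin 975 6 910)))))))
(mv 909 (cons (fin 973 7 909)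
(mv 911 (cons (fin 975 6 910)
(mv 1165 (cons (fin 1229 5 973)
(mv 1164 (cons (fin 1163 2 1099)
(fin 1167 2 1100)))))))))))))
(cons (mv 1165 (cons (mv 1164 (cons (fin 1163 2 1099)
(fin 1167 2 1100)))
(cons (mv 974 (cons (fin 1229 5 973)
(mv 1167 (cons (fin 910 4 910)
(fin 1231 4 974)))))
(mv 1163 (cons (fin 1164 2 1099)
(mv 1229 (cons (fin 974 5 973)
(mv 1293 (cons (fin 1230 5 1037)
(fin 1357 6 1101))))))))))
(mv 1230 (cons (fin 973 7 973)
(mv 1229 (cons (fin 1293 5 1037)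
(mv 1295 (cons (fin 1231 4 1038)
(mv 1294 (cons (fin 1359 4 1102)
(mv 1167 (cons (fin 1358 6 1102)
(mv 1165 (cons (fin 1164 2 1100)
(mv 1168 (cons (fin 1228 1 1164)
(fin 1169 1 1165)))))))))))))))))))))))))
(mv 1039 (cons (cons (mv 972 (cons (fin 973 3 972)
(mv 1036 (cons (fin 971 3 971)
(fin 1103 0 1036)))))
(mv 973 (cons (fin 972 3 972)
(mv 1101 (cons (fin 1100 1 1036)
(mv 1165 (cons (mv 974 (cons (fin 910 6 909)
(fin 1229 6 973)))
(mv 1164 (cons (fin 1228 5 972)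
(mv 1102 (cons (fin 1103 1 1100)
(mv 909 (cons (fin 845 4 845)
(fin 1166 4 909))))))))))))))
(cons (mv 1036 (cons (fin 1103 0 1036)
(mv 1100 (cons (fin 1099 1 1035)
(fin 1101 1 1036)))))
(mv 972 (cons (fin 973 3 972)
(mv 1036 (cons (fin 971 3 971)
(mv 1100 (cons (fin 1099 1 1035)
(fin 1101 1 1036))))))))))))
(cons (mv 1039 (cons (fin 1105 0 1037)
(mv 972 (cons (fin 973 3 972)
(mv 1036 (cons (fin 971 3 971)
(mv 1100 (cons (fin 1099 1 1035)
(fin 1101 1 1036)))))))))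
(cons (mv 1039 (cons (fin 1105 0 1037)
(mv 973 (cons (fin 972 3 972)
(mv 1101 (cons (fin 1100 1 1036)
(mv 1165 (cons (mv 974 (cons (fin 910 6 909)
(fin 1229 6 973)))
(mv 1164 (cons (fin 1228 5 972)
(mv 1102 (cons (fin 1103 1 1100)
(mv 909 (cons (fin 845 4 845)
(fin 1166 4 909)))))))))))))))
(mv 1039 (cons (fin 1105 0 1037)
(mv 1036 (cons (fin 1103 0 1036)
(mv 1100 (cons (fin 1099 1 1035)
(fin 1101 1 1036))))))))))))
(cons (mv 1038 (cons (cons (mv 1039 (cons (fin 1105 0 1037)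
(mv 972 (cons (fin 973 3 972)
(mv 1036 (cons (fin 971 3 971)
(fin 1103 0 1036)))))))
(cons (mv 1102 (cons (cons (mv 1103 (cons (fin 1105 3 1037)
(mv 1036 (cons (fin 1101 3 1036)
(fin 1035 0 1035)))))
(mv 973 (cons (cons (mv 909 (cons (fin 845 4 845)
(mv 1166 (cons (fin 974 7 909)
(fin 1230 7 973)))))
(mv 909 (cons (fin 845 4 845)
(mv 1101 (cons (cons (mv 844 (cons (fin 908 7 844)
(mv 1164 (cons (fin 1100 5 908)
(mv 1165 (cons (fin 1228 5 972)
(mv 974 (cons (fin 910 5 909)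
(fin 1229 6 973)))))))))
(mv 1164 (cons (fin 1100 5 908)
(mv 1165 (cons (fin 1228 5 972)
(mv 974 (cons (fin 910 5 909)
(fin 1229 6 973))))))))
(cons (mv 908 (cons (fin 844 7 844)
(mv 1165 (cons (fin 972 7 908)
(mv 974 (cons (fin 910 5 909)
(fin 1229 6 973)))))))
(mv 908 (cons (fin 844 7 844)
(mv 1100 (cons (fin 1164 5 908)
(mv 1099 (cons (fin 1098 2 1034)
(mv 1035 (cons (fin 1034 3 1034)
(mv 1163 (cons (fin 1162 1 1098)
(mv 972 (cons (fin 1036 5 907)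
(fin 971 6 907)))))))))))))))))))
(cons (mv 1166 (cons (fin 1230 7 973)
(mv 974 (cons (mv 911 (cons (fin 975 6 910)
(mv 910 (cons (fin 847 6 846)
(mv 1165 (cons (fin 1101 5 909)
(fin 1229 5 973)))))))
(cons (mv 1165 (cons (fin 1229 5 973)
(mv 1101 (cons (fin 910 5 909)
(mv 908 (cons (fin 972 7 908)
(mv 1164 (cons (fin 1228 5 972)
(mv 1163 (cons (fin 1162 2 1098)
(mv 1099 (cons (fin 1098 3 1098)
(mv 1167 (cons (fin 1100 3 1099)
(fin 1231 4 974)))))))))))))))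
(mv 975 (cons (fin 911 6 910)
(mv 976 (cons (fin 1036 1 972)
(fin 977 1 973))))))))))
(mv 909 (cons (fin 845 4 845)
(mv 1166 (cons (fin 1230 7 973)
(fin 1101 4 909)))))))))
(cons (mv 1103 (cons (fin 1105 3 1037)
(mv 973 (cons (cons (mv 909 (cons (fin 845 4 845)
(mv 1166 (cons (fin 974 7 909)
(fin 1230 7 973)))))
(mv 909 (cons (fin 845 4 845)
(mv 1101 (cons (mv 1164 (cons (fin 1165 1 1100)
(fin 1100 5 908)))
(cons (mv 908 (cons (fin 844 7 844)
(mv 972 (cons (fin 1165 7 908)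
(mv 971 (cons (fin 970 0 970)
(mv 910 (cons (fin 911 1 907)
(mv 974 (cons (fin 1167 4 910)
(mv 907 (cons (fin 906 3 906)
(fin 975 3 907)))))))))))))
(mv 908 (cons (fin 844 7 844)
(mv 1100 (cons (fin 1164 5 908)
(mv 1099 (cons (fin 1098 2 1034)
(mv 1035 (cons (fin 1034 3 1034)
(mv 1163 (cons (fin 1162 1 1098)
(mv 971 (cons (fin 972 6 907)
(mv 906 (cons (fin 970 7 906)
(mv 907 (cons (fin 974 0 906)
(fin 842 7 842)))))))))))))))))))))))
(cons (mv 1166 (cons (fin 1230 7 973)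
(mv 1165 (cons (mv 1164 (cons (fin 1101 1 1100)
(fin 1163 2 1099)))
(cons (mv 974 (cons (fin 1229 5 973)
(mv 910 (cons (fin 1101 5 909)
(fin 1167 4 910)))))
(mv 1164 (cons (fin 1163 2 1099)
(fin 1167 2 1100))))))))
(mv 909 (cons (fin 845 4 845)
(mv 1166 (cons (fin 1230 7 973)
(fin 1101 4 909))))))))))
(cons (mv 1103 (cons (fin 1105 3 1037)
(mv 1035 (cons (fin 1036 0 1035)
(mv 1166 (cons (cons (mv 973 (cons (fin 1230 7 973)
(mv 909 (cons (fin 974 7 909)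
(fin 845 4 845)))))
(mv 974 (cons (mv 1167 (cons (fin 910 4 910)
(fin 1231 4 974)))
(cons (mv 909 (cons (fin 973 7 909)
(mv 910 (cons (fin 845 7 845)
(mv 911 (cons (fin 847 6 846)
(fin 975 6 910)))))))
(mv 909 (cons (fin 973 7 909)
(mv 911 (cons (fin 975 6 910)
(mv 1165 (cons (fin 1229 5 973)
(mv 1164 (cons (fin 1163 2 1099)
(fin 1167 2 1100)))))))))))))
(cons (mv 1165 (cons (mv 1164 (cons (fin 1163 2 1099)
(fin 1167 2 1100)))
(cons (mv 974 (cons (fin 1229 5 973)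
(mv 1167 (cons (fin 910 4 910)
(fin 1231 4 974)))))
(mv 1163 (cons (fin 1164 2 1099)
(mv 1229 (cons (fin 974 5 973)
(mv 1293 (cons (fin 1230 5 1037)
(fin 1357 6 1101))))))))))
(mv 1230 (cons (fin 973 7 973)
(mv 1229 (cons (fin 1293 5 1037)
(mv 1295 (cons (fin 1231 4 1038)
(mv 1294 (cons (fin 1359 4 1102)
(mv 1227 (cons (fin 1228 0 1227)
(mv 1296 (cons (fin 1297 3 1229)
(mv 1358 (cons (fin 1167 6 1102)
(mv 1421 (cons (fin 1357 5 1165)
(mv 1422 (cons (fin 1165 7 1165)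
(fin 1485 5 1229))))))))))))))))))))))))))
(mv 1103 (cons (fin 1105 3 1037)
(mv 1101 (cons (fin 1036 3 1036)
(mv 1164 (cons (fin 1165 1 1100)
(mv 1100 (cons (fin 1163 1 1099)
(mv 973 (cons (fin 909 5 908)
(mv 1099 (cons (fin 1098 2 1034)
(mv 1166 (cons (fin 1167 0 1099)
(fin 1230 7 973)))))))))))))))))))
(mv 1039 (cons (cons (mv 972 (cons (fin 973 3 972)
(mv 1036 (cons (fin 971 3 971)
(fin 1103 0 1036)))))
(mv 972 (cons (fin 973 3 972)
(mv 976 (cons (fin 977 2 973)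
(mv 1101 (cons (fin 1100 1 1036)
(mv 912 (cons (mv 1103 (cons (fin 848 5 847)
(fin 1167 5 911)))
(cons (mv 847 (cons (fin 911 7 847)
(mv 848 (cons (fin 783 7 783)
(mv 849 (cons (fin 785 6 784)
(fin 913 6 848)))))))
(mv 911 (cons (fin 847 7 847)
(mv 913 (cons (fin 849 6 848)
(mv 1103 (cons (fin 1167 5 911)
(mv 914 (cons (mv 975 (cons (fin 974 1 910)
(fin 915 1 911)))
(cons (mv 851 (cons (fin 850 2 847)
(mv 915 (cons (fin 852 2 848)
(mv 979 (cons (fin 978 0 911)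
(fin 980 0 912)))))))
(mv 850 (cons (fin 851 2 847)
(mv 974 (cons (fin 975 1 910)
(mv 978 (cons (fin 979 0 911)
(mv 1165 (cons (fin 1229 6 973)
(mv 1102 (cons (fin 1164 1 1100)
(fin 910 5 909))))))))))))))))))))))))))))))
(cons (mv 976 (cons (fin 977 2 973)
(mv 1036 (cons (fin 975 2 972)
(fin 1103 0 1036)))))
(mv 972 (cons (fin 973 3 972)
(mv 976 (cons (fin 977 2 973)
(mv 1036 (cons (fin 971 3 971)
(fin 975 2 972))))))))))))
(cons (mv 1039 (cons (fin 1105 0 1037)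
(mv 972 (cons (fin 973 3 972)
(mv 976 (cons (fin 977 2 973)
(mv 1036 (cons (fin 971 3 971)
(fin 975 2 972)))))))))
(cons (mv 1039 (cons (fin 1105 0 1037)
(mv 972 (cons (fin 973 3 972)
(mv 976 (cons (fin 977 2 973)
(mv 1101 (cons (fin 1100 1 1036)
(mv 912 (cons (mv 1103 (cons (fin 848 5 847)
(fin 1167 5 911)))
(cons (mv 847 (cons (fin 911 7 847)
(mv 848 (cons (fin 783 7 783)
(mv 849 (cons (fin 785 6 784)
(fin 913 6 848)))))))
(mv 911 (cons (fin 847 7 847)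
(mv 913 (cons (fin 849 6 848)
(mv 1103 (cons (fin 1167 5 911)
(mv 914 (cons (mv 975 (cons (fin 974 1 910)
(fin 915 1 911)))
(cons (mv 851 (cons (fin 850 2 847)
(mv 915 (cons (fin 852 2 848)
(mv 979 (cons (fin 978 0 911)
(fin 980 0 912)))))))
(mv 850 (cons (fin 851 2 847)
(mv 974 (cons (fin 975 1 910)
(mv 978 (cons (fin 979 0 911)
(mv 1165 (cons (fin 1229 6 973)
(mv 1102 (cons (fin 1164 1 1100)
(fin 910 5 909)))))))))))))))))))))))))))))))
(mv 1039 (cons (fin 1105 0 1037)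
(mv 976 (cons (fin 977 2 973)
(mv 1036 (cons (fin 975 2 972)
(fin 1103 0 1036)))))))))))
(mv 1039 (cons (cons (mv 1038 (cons (fin 1105 0 1037)
(mv 972 (cons (fin 973 3 972)
(mv 976 (cons (fin 977 2 973)
(mv 1036 (cons (fin 971 3 971)
(fin 975 2 972)))))))))
(mv 1168 (cons (cons (mv 975 (cons (fin 1232 7 975)
(mv 911 (cons (fin 976 7 911)
(fin 847 4 847)))))
(mv 976 (cons (cons (mv 911 (cons (fin 975 7 911)
(mv 912 (cons (fin 847 7 847)
(mv 913 (cons (fin 849 6 848)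
(fin 977 6 912)))))))
(mv 913 (cons (fin 977 6 912)
(mv 912 (cons (fin 849 6 848)
(mv 1169 (cons (fin 1105 4 912)
(fin 1233 4 976))))))))
(cons (mv 911 (cons (fin 975 7 911)
(mv 912 (cons (fin 847 7 847)
(mv 1169 (cons (fin 1105 4 912)
(fin 1233 4 976)))))))
(mv 975 (cons (fin 911 7 911)
(mv 977 (cons (fin 913 6 912)
(mv 978 (cons (fin 979 1 975)
(mv 914 (cons (fin 915 2 911)
(mv 1042 (cons (fin 1043 0 975)
(mv 1167 (cons (fin 1231 5 975)
(mv 1169 (cons (fin 1233 4 976)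
(mv 1106 (cons (fin 1105 5 913)
(mv 1107 (cons (fin 1170 2 1103)
(fin 1171 4 914)))))))))))))))))))))))
(cons (mv 1231 (cons (cons (mv 976 (cons (fin 1167 5 975)
(mv 913 (cons (fin 977 6 912)
(mv 849 (cons (fin 912 6 848)
(mv 1232 (cons (fin 1295 5 1039)
(mv 1233 (cons (fin 1169 4 976)
(fin 1297 4 1040)))))))))))
(mv 1232 (cons (fin 1295 5 1039)
(mv 1233 (cons (fin 1297 4 1040)
(mv 1230 (cons (mv 1169 (cons (fin 1229 2 1165)
(fin 1170 2 1166)))
(cons (mv 1165 (cons (fin 1166 3 1165)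
(mv 1229 (cons (fin 1164 3 1164)
(mv 1293 (cons (fin 1292 1 1228)
(fin 1294 1 1229)))))))
(mv 1165 (cons (fin 1166 3 1165)
(mv 1170 (cons (fin 1169 2 1166)
(mv 1234 (cons (fin 1171 2 1167)
(mv 1235 (cons (fin 1167 3 1167)
(mv 1299 (cons (fin 1298 0 1231)
(fin 1300 0 1232)))))))))))))))))))
(cons (mv 976 (cons (fin 1167 5 975)
(mv 913 (cons (fin 977 6 912)
(mv 912 (cons (fin 849 6 848)
(mv 1169 (cons (fin 1105 4 912)
(fin 1233 4 976)))))))))
(cons (mv 1232 (cons (fin 1295 5 1039)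
(mv 1233 (cons (fin 1297 4 1040)
(mv 1169 (cons (fin 976 4 976)
(mv 1170 (cons (fin 1171 1 1167)
(fin 1230 2 1166)))))))))
(mv 1167 (cons (fin 976 5 975)
(mv 1295 (cons (fin 1232 5 1039)
(fin 1359 6 1103)))))))))
(mv 1232 (cons (fin 975 7 975)
(mv 1295 (cons (fin 1231 5 1039)
(mv 1296 (cons (fin 1359 5 1103)
(mv 1297 (cons (fin 1233 4 1040)
(fin 1361 4 1104)))))))))))))
(cons (mv 1038 (cons (cons (mv 972 (cons (fin 973 3 972)
(mv 976 (cons (fin 977 2 973)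
(mv 1036 (cons (fin 971 3 971)
(fin 975 2 972)))))))
(mv 972 (cons (fin 973 3 972)
(mv 1036 (cons (fin 971 3 971)
(mv 1100 (cons (fin 1099 1 1035)
(fin 1101 1 1036))))))))
(cons (mv 976 (cons (fin 977 2 973)
(mv 975 (cons (fin 1036 2 972)
(mv 911 (cons (fin 1168 7 911)
(fin 847 4 847)))))))
(mv 972 (cons (fin 973 3 972)
(mv 976 (cons (fin 977 2 973)
(mv 1100 (cons (fin 1101 1 1036)
(mv 1168 (cons (mv 975 (cons (fin 911 7 911)
(fin 1232 7 975)))
(cons (mv 1231 (cons (fin 1167 5 975)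
(mv 1232 (cons (fin 1295 5 1039)
(mv 1233 (cons (fin 1169 4 976)
(fin 1297 4 1040)))))))
(mv 1167 (cons (fin 1231 5 975)
(mv 1169 (cons (fin 1233 4 976)
(mv 912 (cons (cons (mv 911 (cons (fin 847 7 847)
(fin 975 7 911)))
(mv 849 (cons (fin 913 6 848)
(mv 848 (cons (fin 785 6 784)
(mv 783 (cons (fin 847 7 783)
(mv 784 (cons (fin 719 7 719)
(fin 975 5 783))))))))))
(cons (mv 847 (cons (fin 911 7 847)
(mv 848 (cons (fin 783 7 783)
(mv 849 (cons (fin 785 6 784)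
(fin 913 6 848)))))))
(mv 849 (cons (fin 913 6 848)
(mv 848 (cons (fin 785 6 784)
(mv 975 (cons (fin 911 7 911)
(fin 784 5 783))))))))))))))))))))))))))
(cons (mv 1038 (cons (fin 1105 0 1037)
(mv 972 (cons (fin 973 3 972)
(mv 976 (cons (fin 977 2 973)
(mv 1036 (cons (fin 971 3 971)
(mv 1100 (cons (fin 1099 1 1035)
(fin 1101 1 1036)))))))))))
(mv 1038 (cons (fin 1105 0 1037)
(mv 972 (cons (fin 973 3 972)
(mv 1036 (cons (fin 971 3 971)
(mv 1100 (cons (fin 1099 1 1035)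
(fin 1101 1 1036))))))))))))))))
(cons (cons (mv 1103 (cons (cons (mv 1038 (cons (cons (mv 1039 (cons (fin 1036 0 1036)
(fin 1105 0 1037)))
(mv 1102 (cons (fin 1105 3 1037)
(mv 1036 (cons (fin 1101 3 1036)
(fin 1035 0 1035))))))
(cons (mv 1036 (cons (fin 1039 0 1036)
(mv 1102 (cons (fin 1101 3 1036)
(fin 1035 0 1035)))))
(mv 1105 (cons (fin 1102 3 1037)
(fin 1039 0 1037))))))
(cons (mv 1102 (cons (cons (mv 1101 (cons (fin 1036 3 1036)
(mv 1039 (cons (fin 1100 2 1036)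
(mv 1164 (cons (fin 1165 1 1100)
(mv 1168 (cons (fin 1169 0 1101)
(mv 1232 (cons (fin 1296 7 1039)
(mv 1231 (cons (fin 1295 5 1039)
(mv 976 (cons (fin 1167 5 975)
(mv 912 (cons (fin 848 5 847)
(mv 913 (cons (fin 849 6 848)
(fin 977 6 912)))))))))))))))))))
(cons (mv 1105 (cons (cons (mv 1165 (cons (fin 1166 1 1101)
(mv 1169 (cons (fin 1170 0 1102)
(mv 976 (cons (fin 912 4 912)
(mv 1233 (cons (fin 1297 7 1040)
(fin 1168 4 976)))))))))
(mv 1166 (cons (fin 1165 1 1101)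
(mv 1106 (cons (fin 1167 1 1102)
(mv 1042 (cons (fin 1043 2 1039)
(mv 1107 (cons (fin 1039 3 1039)
(mv 1171 (cons (fin 1170 0 1103)
(fin 1172 0 1104))))))))))))
(cons (mv 1169 (cons (fin 1170 0 1102)
(mv 976 (cons (fin 912 4 912)
(mv 1233 (cons (fin 1297 7 1040)
(fin 1168 4 976)))))))
(mv 1166 (cons (fin 1165 1 1101)
(mv 1106 (cons (fin 1167 1 1102)
(mv 1043 (cons (fin 1042 2 1039)
(mv 1107 (cons (fin 1039 3 1039)
(fin 1044 2 1040))))))))))))
(mv 1101 (cons (fin 1036 3 1036)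
(mv 1039 (cons (fin 1100 2 1036)
(mv 1165 (cons (fin 1164 1 1100)
(mv 1105 (cons (fin 1166 1 1101)
(mv 1169 (cons (fin 1168 0 1101)
(fin 1170 0 1102)))))))))))))
(cons (mv 1101 (cons (fin 1036 3 1036)
(mv 1039 (cons (fin 1100 2 1036)
(mv 1165 (cons (fin 1164 1 1100)
(mv 1166 (cons (fin 1105 1 1101)
(mv 973 (cons (fin 909 4 909)
(fin 1230 4 973)))))))))))
(cons (mv 1101 (cons (fin 1036 3 1036)
(mv 1039 (cons (fin 1100 2 1036)
(mv 1168 (cons (fin 1169 0 1101)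
(mv 1232 (cons (fin 1296 7 1039)
(mv 1231 (cons (fin 1295 5 1039)
(mv 976 (cons (fin 1167 5 975)
(mv 912 (cons (fin 848 5 847)
(mv 913 (cons (fin 849 6 848)
(fin 977 6 912)))))))))))))))))
(mv 1101 (cons (fin 1036 3 1036)
(mv 1164 (cons (fin 1165 1 1100)
(mv 1100 (cons (fin 1163 1 1099)
(mv 1168 (cons (fin 1167 0 1100)
(fin 1169 0 1101)))))))))))))
(mv 1102 (cons (mv 1036 (cons (fin 1101 3 1036)
(mv 1038 (cons (fin 1105 3 1037)
(fin 1035 0 1035)))))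
(cons (mv 1105 (cons (fin 1038 3 1037)
(mv 1165 (cons (fin 1166 1 1101)
(mv 1169 (cons (fin 1170 0 1102)
(mv 976 (cons (fin 912 4 912)
(mv 1233 (cons (fin 1297 7 1040)
(fin 1168 4 976)))))))))))
(mv 1101 (cons (fin 1036 3 1036)
(mv 1164 (cons (fin 1165 1 1100)
(mv 1100 (cons (fin 1163 1 1099)
(mv 1168 (cons (fin 1167 0 1100)
(fin 1169 0 1101))))))))))))))
(cons (mv 976 (cons (cons (mv 912 (cons (fin 1167 5 911)
(mv 847 (cons (fin 911 7 847)
(mv 848 (cons (fin 783 7 783)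
(fin 1039 5 847)))))))
(mv 1168 (cons (cons (mv 913 (cons (fin 977 6 912)
(mv 1167 (cons (fin 1231 5 975)
(mv 1169 (cons (fin 1233 4 976)
(mv 1102 (cons (fin 1170 3 1102)
(fin 1101 0 1101)))))))))
(cons (mv 913 (cons (fin 977 6 912)
(mv 1169 (cons (fin 1233 4 976)
(mv 1102 (cons (fin 1101 0 1101)
(mv 1170 (cons (fin 1167 3 1102)
(fin 1171 3 1103)))))))))
(mv 913 (cons (fin 977 6 912)
(mv 1233 (cons (fin 1169 4 976)
(mv 1232 (cons (fin 1297 4 1040)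
(mv 1295 (cons (fin 1231 5 1039)
(mv 1296 (cons (fin 1039 7 1039)
(fin 1359 5 1103)))))))))))))
(cons (mv 913 (cons (fin 977 6 912)
(mv 1231 (cons (fin 1167 5 975)
(mv 1232 (cons (fin 1295 5 1039)
(mv 1296 (cons (fin 1039 7 1039)
(mv 1297 (cons (fin 1233 4 1040)
(fin 1361 4 1104)))))))))))
(cons (mv 1167 (cons (fin 1231 5 975)
(mv 1169 (cons (fin 1233 4 976)
(mv 1102 (cons (fin 1170 3 1102)
(fin 1101 0 1101)))))))
(mv 913 (cons (fin 977 6 912)
(mv 1231 (cons (fin 1167 5 975)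
(mv 1232 (cons (fin 1295 5 1039)
(mv 1039 (cons (fin 1296 7 1039)
(mv 1038 (cons (fin 1036 0 1036)
(mv 972 (cons (fin 973 3 972)
(mv 1101 (cons (fin 1100 1 1036)
(mv 1102 (cons (fin 1169 0 1101)
(mv 1165 (cons (fin 1164 1 1100)
(mv 974 (cons (fin 910 5 909)
(fin 1229 6 973))))))))))))))))))))))))))
(cons (mv 1039 (cons (mv 1038 (cons (fin 977 2 973)
(fin 1036 0 1036)))
(cons (mv 912 (cons (fin 848 5 847)
(mv 847 (cons (fin 911 7 847)
(mv 913 (cons (fin 849 6 848)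
(mv 1168 (cons (fin 977 6 912)
(mv 1232 (cons (fin 1296 7 1039)
(mv 1233 (cons (fin 1169 4 976)
(fin 1297 4 1040)))))))))))))
(mv 912 (cons (fin 848 5 847)
(mv 911 (cons (fin 847 7 847)
(mv 913 (cons (fin 849 6 848)
(mv 1038 (cons (fin 1036 0 1036)
(mv 973 (cons (fin 972 3 972)
(mv 974 (cons (fin 910 1 909)
(mv 1101 (cons (fin 1100 1 1036)
(mv 1165 (cons (fin 1229 6 973)
(mv 1164 (cons (fin 1102 1 1100)
(fin 1228 5 972))))))))))))))))))))))
(mv 912 (cons (fin 1167 5 911)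
(mv 847 (cons (fin 911 7 847)
(mv 848 (cons (fin 783 7 783)
(mv 849 (cons (fin 785 6 784)
(fin 913 6 848))))))))))))
(cons (mv 976 (cons (cons (mv 912 (cons (fin 1167 5 911)
(mv 847 (cons (fin 911 7 847)
(mv 848 (cons (fin 783 7 783)
(fin 1039 5 847)))))))
(mv 1168 (cons (cons (mv 913 (cons (fin 977 6 912)
(mv 1167 (cons (fin 1231 5 975)
(mv 1169 (cons (fin 1233 4 976)
(mv 1170 (cons (fin 1171 3 1103)
(mv 1106 (cons (fin 1107 2 1103)
(mv 1166 (cons (fin 1105 1 1102)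
(mv 1165 (cons (fin 1164 2 1100)
(mv 1229 (cons (fin 1228 1 1164)
(fin 1230 1 1165)))))))))))))))))
(mv 913 (cons (fin 977 6 912)
(mv 1233 (cons (fin 1169 4 976)
(mv 1232 (cons (fin 1297 4 1040)
(mv 1039 (cons (fin 1296 7 1039)
(mv 1038 (cons (fin 1036 0 1036)
(fin 1105 0 1037))))))))))))
(cons (mv 913 (cons (fin 977 6 912)
(mv 1231 (cons (fin 1167 5 975)
(mv 1232 (cons (fin 1295 5 1039)
(mv 1039 (cons (fin 1296 7 1039)
(mv 1038 (cons (fin 1036 0 1036)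
(fin 1105 0 1037)))))))))))
(cons (mv 1167 (cons (fin 1231 5 975)
(mv 1169 (cons (fin 1233 4 976)
(mv 1170 (cons (fin 1171 3 1103)
(mv 1106 (cons (fin 1107 2 1103)
(mv 1166 (cons (fin 1105 1 1102)
(mv 1165 (cons (fin 1164 2 1100)
(mv 1229 (cons (fin 1228 1 1164)
(fin 1230 1 1165)))))))))))))))
(mv 913 (cons (fin 977 6 912)
(mv 1167 (cons (fin 1231 5 975)
(mv 1233 (cons (fin 1169 4 976)
(mv 1232 (cons (fin 1297 4 1040)
(mv 1296 (cons (fin 1039 7 1039)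
(fin 1360 7 1103))))))))))))))))
(cons (mv 1039 (cons (mv 1038 (cons (fin 977 2 973)
(fin 1036 0 1036)))
(cons (mv 912 (cons (fin 848 5 847)
(mv 847 (cons (fin 911 7 847)
(mv 913 (cons (fin 849 6 848)
(mv 977 (cons (fin 1168 6 912)
(mv 978 (cons (fin 979 1 975)
(mv 1105 (cons (fin 1169 4 912)
(mv 1106 (cons (fin 1107 3 1039)
(mv 1042 (cons (fin 1043 2 1039)
(fin 1170 7 913)))))))))))))))))
(mv 1038 (cons (fin 1036 0 1036)
(fin 1105 0 1037))))))
(mv 912 (cons (fin 1167 5 911)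
(mv 847 (cons (fin 911 7 847)
(mv 783 (cons (fin 848 7 783)
(mv 913 (cons (fin 849 6 848)
(mv 1168 (cons (fin 977 6 912)
(mv 1169 (cons (fin 1105 4 912)
(fin 1233 4 976))))))))))))))))
(mv 1105 (cons (cons (mv 1038 (cons (fin 1102 3 1037)
(fin 1039 0 1037)))
(mv 1106 (cons (cons (mv 1039 (cons (fin 1107 3 1039)
(mv 1042 (cons (fin 1043 2 1039)
(mv 1166 (cons (fin 1167 1 1102)
(mv 1102 (cons (fin 1165 1 1101)
(mv 1170 (cons (fin 1169 0 1102)
(fin 1171 0 1103)))))))))))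
(cons (mv 1039 (cons (fin 1107 3 1039)
(mv 1042 (cons (fin 1043 2 1039)
(mv 1170 (cons (fin 1171 0 1103)
(mv 1102 (cons (fin 1169 0 1102)
(mv 1101 (cons (fin 1100 2 1036)
(mv 1165 (cons (fin 1164 1 1100)
(fin 1166 1 1101)))))))))))))
(mv 1042 (cons (fin 1043 2 1039)
(mv 1166 (cons (fin 1167 1 1102)
(mv 1102 (cons (fin 1165 1 1101)
(mv 1170 (cons (fin 1169 0 1102)
(fin 1171 0 1103)))))))))))
(cons (mv 1039 (cons (fin 1107 3 1039)
(mv 1042 (cons (fin 1043 2 1039)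
(mv 1167 (cons (fin 1166 1 1102)
(mv 976 (cons (fin 912 5 911)
(fin 1231 6 975)))))))))
(cons (mv 1039 (cons (fin 1107 3 1039)
(mv 1042 (cons (fin 1043 2 1039)
(mv 1170 (cons (fin 1171 0 1103)
(mv 1169 (cons (fin 1102 0 1102)
(mv 978 (cons (fin 914 5 913)
(fin 1233 5 977)))))))))))
(mv 1039 (cons (fin 1107 3 1039)
(mv 1166 (cons (fin 1167 1 1102)
(mv 1102 (cons (fin 1165 1 1101)
(mv 1170 (cons (fin 1169 0 1102)
(fin 1171 0 1103))))))))))))))
(cons (mv 1102 (cons (fin 1038 3 1037)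
(mv 1165 (cons (fin 1166 1 1101)
(mv 1101 (cons (fin 1164 1 1100)
(mv 1169 (cons (fin 1168 0 1101)
(fin 1170 0 1102)))))))))
(mv 1039 (cons (fin 1038 0 1037)
(mv 1106 (cons (fin 1107 3 1039)
(mv 1042 (cons (fin 1043 2 1039)
(mv 1167 (cons (fin 1166 1 1102)
(mv 976 (cons (fin 912 5 911)
(fin 1231 6 975))))))))))))))))))
(cons (mv 1039 (cons (cons (mv 1038 (cons (fin 1105 0 1037)
(mv 972 (cons (fin 973 3 972)
(mv 1036 (cons (fin 971 3 971)
(fin 1103 0 1036)))))))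
(cons (mv 975 (cons (cons (mv 911 (cons (fin 847 4 847)
(mv 1168 (cons (fin 976 7 911)
(fin 1232 7 975)))))
(mv 1168 (cons (fin 1232 7 975)
(mv 976 (cons (cons (mv 913 (cons (fin 977 6 912)
(mv 912 (cons (fin 849 6 848)
(mv 848 (cons (fin 784 5 783)
(fin 1103 5 847)))))))
(mv 1169 (cons (fin 1233 4 976)
(mv 912 (cons (fin 1105 4 912)
(mv 848 (cons (fin 784 5 783)
(fin 1103 5 847))))))))
(cons (mv 977 (cons (fin 913 6 912)
(mv 978 (cons (fin 979 1 975)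
(mv 914 (cons (fin 915 2 911)
(mv 1042 (cons (fin 1043 0 975)
(mv 1169 (cons (fin 1233 4 976)
(mv 1106 (cons (fin 1105 5 913)
(mv 1171 (cons (fin 1107 4 914)
(mv 1170 (cons (fin 1103 3 1103)
(fin 1235 4 978)))))))))))))))))
(mv 913 (cons (fin 977 6 912)
(mv 912 (cons (fin 849 6 848)
(mv 1169 (cons (fin 1105 4 912)
(fin 1233 4 976)))))))))))))
(cons (mv 911 (cons (fin 847 4 847)
(mv 912 (cons (mv 848 (cons (fin 1103 6 847)
(mv 784 (cons (fin 720 5 719)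
(fin 976 5 783)))))
(cons (mv 913 (cons (cons (mv 849 (cons (fin 976 6 848)
(mv 850 (cons (fin 910 2 846)
(mv 851 (cons (fin 852 1 848)
(fin 914 2 847)))))))
(mv 914 (cons (fin 974 1 910)
(mv 850 (cons (fin 851 2 847)
(mv 849 (cons (fin 910 2 846)
(mv 978 (cons (fin 979 0 911)
(mv 785 (cons (fin 1042 7 785)
(fin 721 4 721))))))))))))
(cons (mv 849 (cons (fin 976 6 848)
(mv 910 (cons (fin 850 2 846)
(mv 973 (cons (fin 974 1 909)
(mv 909 (cons (fin 972 1 908)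
(mv 844 (cons (fin 845 3 844)
(mv 908 (cons (fin 843 3 843)
(fin 1101 7 844)))))))))))))
(cons (mv 914 (cons (fin 974 1 910)
(mv 850 (cons (fin 851 2 847)
(mv 915 (cons (fin 976 1 911)
(mv 979 (cons (fin 978 0 911)
(fin 980 0 912)))))))))
(mv 849 (cons (fin 976 6 848)
(mv 914 (cons (fin 974 1 910)
(mv 978 (cons (fin 979 0 911)
(mv 785 (cons (fin 721 4 721)
(mv 977 (cons (fin 910 0 910)
(fin 1042 4 785)))))))))))))))
(mv 1103 (cons (fin 848 6 847)
(mv 1102 (cons (fin 1166 5 910)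
(mv 1101 (cons (fin 1036 3 1036)
(fin 1100 2 1036))))))))))))
(mv 911 (cons (fin 847 4 847)
(mv 1168 (cons (fin 1232 7 975)
(fin 1103 4 911))))))))
(mv 1038 (cons (cons (mv 972 (cons (fin 973 3 972)
(mv 1036 (cons (fin 971 3 971)
(fin 1103 0 1036)))))
(mv 972 (cons (fin 973 3 972)
(mv 976 (cons (fin 977 2 973)
(mv 1100 (cons (fin 1101 1 1036)
(mv 1168 (cons (mv 975 (cons (fin 911 7 911)
(fin 1232 7 975)))
(cons (mv 1233 (cons (fin 1169 4 976)
(mv 1232 (cons (fin 1297 4 1040)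
(mv 1295 (cons (fin 1231 5 1039)
(mv 1296 (cons (fin 1103 7 1039)
(fin 1359 5 1103)))))))))
(mv 911 (cons (fin 975 7 911)
(mv 912 (cons (fin 847 7 847)
(mv 848 (cons (fin 1103 5 847)
(mv 849 (cons (fin 785 6 784)
(fin 913 6 848)))))))))))))))))))
(cons (mv 976 (cons (fin 977 2 973)
(mv 1036 (cons (fin 975 2 972)
(fin 1103 0 1036)))))
(mv 972 (cons (fin 973 3 972)
(mv 976 (cons (fin 977 2 973)
(mv 1036 (cons (fin 971 3 971)
(fin 975 2 972))))))))))))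
(cons (mv 1038 (cons (fin 1105 0 1037)
(mv 972 (cons (fin 973 3 972)
(mv 976 (cons (fin 977 2 973)
(mv 1036 (cons (fin 971 3 971)
(fin 975 2 972)))))))))
(cons (mv 1038 (cons (fin 1105 0 1037)
(mv 972 (cons (fin 973 3 972)
(mv 976 (cons (fin 977 2 973)
(mv 1100 (cons (fin 1101 1 1036)
(mv 1168 (cons (mv 975 (cons (fin 911 7 911)
(fin 1232 7 975)))
(cons (mv 1233 (cons (fin 1169 4 976)
(mv 1232 (cons (fin 1297 4 1040)
(mv 1295 (cons (fin 1231 5 1039)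
(mv 1296 (cons (fin 1103 7 1039)
(fin 1359 5 1103)))))))))
(mv 911 (cons (fin 975 7 911)
(mv 912 (cons (fin 847 7 847)
(mv 848 (cons (fin 1103 5 847)
(mv 849 (cons (fin 785 6 784)
(fin 913 6 848))))))))))))))))))))
(mv 1038 (cons (fin 1105 0 1037)
(mv 976 (cons (fin 977 2 973)
(mv 1036 (cons (fin 975 2 972)
(fin 1103 0 1036)))))))))))
(mv 1039 (cons (cons (mv 1038 (cons (fin 1105 0 1037)
(mv 972 (cons (fin 973 3 972)
(mv 1036 (cons (fin 971 3 971)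
(fin 1103 0 1036)))))))
(mv 975 (cons (cons (mv 911 (cons (fin 847 4 847)
(mv 1168 (cons (fin 976 7 911)
(fin 1232 7 975)))))
(mv 1168 (cons (fin 1232 7 975)
(mv 976 (cons (cons (mv 913 (cons (fin 977 6 912)
(mv 912 (cons (fin 849 6 848)
(mv 848 (cons (fin 784 5 783)
(fin 1103 5 847)))))))
(mv 1169 (cons (fin 1233 4 976)
(mv 912 (cons (fin 1105 4 912)
(mv 848 (cons (fin 784 5 783)
(fin 1103 5 847))))))))
(cons (mv 977 (cons (fin 913 6 912)
(mv 978 (cons (fin 979 1 975)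
(mv 914 (cons (fin 915 2 911)
(mv 1042 (cons (fin 1043 0 975)
(mv 1169 (cons (fin 1233 4 976)
(mv 1106 (cons (fin 1105 5 913)
(mv 1171 (cons (fin 1107 4 914)
(mv 1170 (cons (fin 1103 3 1103)
(fin 1235 4 978)))))))))))))))))
(mv 913 (cons (fin 977 6 912)
(mv 912 (cons (fin 849 6 848)
(mv 1169 (cons (fin 1105 4 912)
(fin 1233 4 976)))))))))))))
(cons (mv 911 (cons (fin 847 4 847)
(mv 1103 (cons (mv 848 (cons (fin 912 6 847)
(mv 1102 (cons (fin 1166 5 910)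
(mv 1101 (cons (fin 1036 3 1036)
(fin 1100 2 1036)))))))
(cons (mv 1102 (cons (fin 1166 5 910)
(mv 1101 (cons (fin 1036 3 1036)
(fin 1100 2 1036)))))
(mv 912 (cons (fin 848 6 847)
(mv 976 (cons (fin 1167 5 911)
(mv 913 (cons (fin 849 6 848)
(mv 914 (cons (fin 974 1 910)
(fin 915 1 911))))))))))))))
(mv 911 (cons (fin 847 4 847)
(mv 1168 (cons (fin 1232 7 975)
(fin 1103 4 911)))))))))
(cons (mv 1038 (cons (cons (mv 972 (cons (fin 973 3 972)
(mv 1036 (cons (fin 971 3 971)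
(fin 1103 0 1036)))))
(mv 972 (cons (fin 973 3 972)
(mv 976 (cons (fin 977 2 973)
(mv 1100 (cons (fin 1101 1 1036)
(mv 912 (cons (mv 1103 (cons (fin 848 5 847)
(fin 1167 5 911)))
(cons (mv 847 (cons (fin 911 7 847)
(mv 848 (cons (fin 783 7 783)
(mv 849 (cons (fin 785 6 784)
(fin 913 6 848)))))))
(mv 849 (cons (fin 913 6 848)
(mv 911 (cons (fin 847 7 847)
(mv 1103 (cons (fin 1167 5 911)
(mv 1168 (cons (fin 975 7 911)
(mv 1232 (cons (fin 1296 7 1039)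
(mv 1233 (cons (fin 1169 4 976)
(fin 1297 4 1040)))))))))))))))))))))))
(cons (mv 976 (cons (fin 977 2 973)
(mv 1036 (cons (fin 975 2 972)
(fin 1103 0 1036)))))
(mv 972 (cons (fin 973 3 972)
(mv 976 (cons (fin 977 2 973)
(mv 1036 (cons (fin 971 3 971)
(fin 975 2 972))))))))))
(cons (mv 1038 (cons (fin 1105 0 1037)
(mv 972 (cons (fin 973 3 972)
(mv 976 (cons (fin 977 2 973)
(mv 1036 (cons (fin 971 3 971)
(fin 975 2 972)))))))))
(mv 1038 (cons (fin 1105 0 1037)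
(mv 972 (cons (fin 973 3 972)
(mv 976 (cons (fin 977 2 973)
(mv 1100 (cons (fin 1101 1 1036)
(mv 912 (cons (mv 1103 (cons (fin 848 5 847)
(fin 1167 5 911)))
(cons (mv 847 (cons (fin 911 7 847)
(mv 848 (cons (fin 783 7 783)
(mv 849 (cons (fin 785 6 784)
(fin 913 6 848)))))))
(mv 849 (cons (fin 913 6 848)
(mv 911 (cons (fin 847 7 847)
(mv 1103 (cons (fin 1167 5 911)
(mv 1168 (cons (fin 975 7 911)
(mv 1232 (cons (fin 1296 7 1039)
(mv 1233 (cons (fin 1169 4 976)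
(fin 1297 4 1040))))))))))))))))))))))))))))))
(cons (cons (mv 1039 (cons (cons (mv 1038 (cons (fin 1105 0 1037)
(mv 972 (cons (fin 973 3 972)
(mv 1036 (cons (fin 971 3 971)
(fin 1103 0 1036)))))))
(mv 1168 (cons (cons (mv 975 (cons (fin 1232 7 975)
(mv 976 (cons (cons (mv 913 (cons (fin 977 6 912)
(mv 912 (cons (fin 849 6 848)
(mv 848 (cons (fin 784 5 783)
(fin 1103 5 847)))))))
(mv 1167 (cons (fin 1231 5 975)
(mv 912 (cons (fin 1103 5 911)
(mv 1169 (cons (fin 1105 4 912)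
(fin 1233 4 976))))))))
(cons (mv 977 (cons (fin 913 6 912)
(mv 978 (cons (fin 979 1 975)
(mv 914 (cons (fin 915 2 911)
(mv 1042 (cons (fin 1043 0 975)
(mv 1167 (cons (fin 1231 5 975)
(mv 1169 (cons (fin 1233 4 976)
(mv 1105 (cons (fin 1106 5 913)
(mv 1166 (cons (fin 1165 2 1101)
(mv 1230 (cons (fin 1229 1 1165)
(fin 1103 5 974)))))))))))))))))))
(mv 913 (cons (fin 977 6 912)
(mv 912 (cons (fin 849 6 848)
(mv 1169 (cons (fin 1105 4 912)
(fin 1233 4 976))))))))))))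
(cons (mv 976 (cons (cons (mv 913 (cons (fin 977 6 912)
(mv 912 (cons (fin 849 6 848)
(mv 1103 (cons (fin 848 5 847)
(fin 1167 5 911)))))))
(mv 913 (cons (fin 977 6 912)
(mv 912 (cons (fin 849 6 848)
(mv 1169 (cons (fin 1105 4 912)
(fin 1233 4 976))))))))
(cons (mv 1167 (cons (fin 1231 5 975)
(mv 912 (cons (fin 1103 5 911)
(mv 1169 (cons (fin 1105 4 912)
(fin 1233 4 976)))))))
(mv 913 (cons (fin 977 6 912)
(mv 1167 (cons (fin 1231 5 975)
(mv 1169 (cons (fin 1233 4 976)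
(mv 1166 (cons (mv 1105 (cons (fin 1165 2 1101)
(fin 1106 2 1102)))
(cons (mv 1101 (cons (fin 1102 3 1101)
(mv 1165 (cons (fin 1100 3 1100)
(mv 1229 (cons (fin 1228 1 1164)
(fin 1230 1 1165)))))))
(mv 1101 (cons (fin 1102 3 1101)
(mv 1106 (cons (fin 1105 2 1102)
(mv 1170 (cons (fin 1107 2 1103)
(mv 1103 (cons (fin 1171 3 1103)
(mv 1230 (cons (fin 1229 1 1165)
(fin 975 5 974)))))))))))))))))))))))
(mv 976 (cons (cons (mv 913 (cons (fin 977 6 912)
(mv 849 (cons (fin 912 6 848)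
(mv 1169 (cons (fin 1233 4 976)
(mv 1231 (cons (fin 1167 5 975)
(mv 1232 (cons (fin 1295 5 1039)
(mv 1103 (cons (fin 1296 7 1039)
(mv 1102 (cons (fin 1101 0 1101)
(mv 1170 (cons (fin 1171 3 1103)
(fin 1105 0 1102)))))))))))))))))
(cons (mv 913 (cons (fin 977 6 912)
(mv 849 (cons (fin 912 6 848)
(mv 1233 (cons (fin 1169 4 976)
(mv 1232 (cons (fin 1297 4 1040)
(mv 1295 (cons (fin 1231 5 1039)
(mv 1296 (cons (fin 1103 7 1039)
(fin 1359 5 1103)))))))))))))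
(mv 913 (cons (fin 977 6 912)
(mv 912 (cons (fin 849 6 848)
(mv 1103 (cons (fin 848 5 847)
(fin 1167 5 911)))))))))
(cons (mv 1167 (cons (fin 1231 5 975)
(mv 912 (cons (fin 1103 5 911)
(mv 1169 (cons (fin 1105 4 912)
(fin 1233 4 976)))))))
(cons (mv 913 (cons (fin 977 6 912)
(mv 849 (cons (fin 912 6 848)
(mv 1231 (cons (fin 1167 5 975)
(mv 1232 (cons (fin 1295 5 1039)
(mv 1233 (cons (fin 1169 4 976)
(fin 1297 4 1040)))))))))))
(mv 913 (cons (fin 977 6 912)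
(mv 1169 (cons (fin 1233 4 976)
(mv 1231 (cons (fin 1167 5 975)
(mv 1232 (cons (fin 1295 5 1039)
(mv 1103 (cons (fin 1296 7 1039)
(mv 1102 (cons (fin 1101 0 1101)
(mv 1170 (cons (fin 1171 3 1103)
(fin 1105 0 1102)))))))))))))))))))))
(cons (cons (mv 1232 (cons (fin 975 7 975)
(mv 1231 (cons (fin 1295 5 1039)
(mv 1296 (cons (fin 1103 7 1039)
(mv 1297 (cons (fin 1233 4 1040)
(fin 1361 4 1104)))))))))
(mv 975 (cons (fin 1232 7 975)
(mv 976 (cons (cons (mv 913 (cons (fin 977 6 912)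
(mv 912 (cons (fin 849 6 848)
(mv 848 (cons (fin 784 5 783)
(fin 1103 5 847)))))))
(mv 1169 (cons (fin 1233 4 976)
(mv 912 (cons (fin 1105 4 912)
(mv 848 (cons (fin 784 5 783)
(fin 1103 5 847))))))))
(cons (mv 977 (cons (fin 913 6 912)
(mv 978 (cons (fin 979 1 975)
(mv 914 (cons (fin 915 2 911)
(mv 1042 (cons (fin 1043 0 975)
(mv 1169 (cons (fin 1233 4 976)
(mv 1106 (cons (fin 1105 5 913)
(mv 1171 (cons (fin 1107 4 914)
(mv 1170 (cons (fin 1103 3 1103)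
(fin 1235 4 978)))))))))))))))))
(mv 913 (cons (fin 977 6 912)
(mv 912 (cons (fin 849 6 848)
(mv 1169 (cons (fin 1105 4 912)
(fin 1233 4 976)))))))))))))
(cons (mv 1232 (cons (fin 975 7 975)
(mv 1103 (cons (fin 1296 7 1039)
(mv 1231 (cons (fin 1295 5 1039)
(mv 976 (cons (fin 1167 5 975)
(mv 912 (cons (fin 848 5 847)
(mv 913 (cons (fin 849 6 848)
(fin 977 6 912)))))))))))))
(mv 1232 (cons (fin 975 7 975)
(mv 1231 (cons (fin 1295 5 1039)
(mv 976 (cons (fin 1167 5 975)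
(mv 1233 (cons (fin 1169 4 976)
(fin 1297 4 1040))))))))))))))
(cons (mv 1038 (cons (cons (mv 972 (cons (fin 973 3 972)
(mv 1036 (cons (fin 971 3 971)
(fin 1103 0 1036)))))
(mv 972 (cons (fin 973 3 972)
(mv 976 (cons (fin 977 2 973)
(mv 1100 (cons (fin 1101 1 1036)
(mv 912 (cons (mv 1103 (cons (fin 848 5 847)
(fin 1167 5 911)))
(cons (mv 849 (cons (fin 913 6 848)
(mv 848 (cons (fin 785 6 784)
(mv 783 (cons (fin 847 7 783)
(mv 784 (cons (fin 719 7 719)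
(fin 975 5 783)))))))))
(mv 849 (cons (fin 913 6 848)
(mv 1167 (cons (fin 1103 5 911)
(mv 1168 (cons (fin 1231 5 975)
(mv 1232 (cons (fin 975 7 975)
(mv 1233 (cons (fin 1169 4 976)
(fin 1297 4 1040)))))))))))))))))))))
(cons (mv 976 (cons (fin 977 2 973)
(mv 1036 (cons (fin 975 2 972)
(fin 1103 0 1036)))))
(mv 972 (cons (fin 973 3 972)
(mv 976 (cons (fin 977 2 973)
(mv 1036 (cons (fin 971 3 971)
(fin 975 2 972))))))))))
(mv 1038 (cons (fin 1105 0 1037)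
(mv 972 (cons (fin 973 3 972)
(mv 976 (cons (fin 977 2 973)
(mv 1036 (cons (fin 971 3 971)
(fin 975 2 972))))))))))))
(mv 1039 (cons (cons (mv 1038 (cons (fin 1105 0 1037)
(mv 972 (cons (fin 973 3 972)
(mv 1036 (cons (fin 971 3 971)
(fin 1103 0 1036)))))))
(mv 1168 (cons (cons (mv 975 (cons (fin 1232 7 975)
(mv 911 (cons (fin 976 7 911)
(fin 847 4 847)))))
(mv 976 (cons (cons (mv 911 (cons (fin 975 7 911)
(mv 912 (cons (fin 847 7 847)
(mv 913 (cons (fin 849 6 848)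
(fin 977 6 912)))))))
(mv 913 (cons (fin 977 6 912)
(mv 912 (cons (fin 849 6 848)
(mv 1103 (cons (fin 848 5 847)
(fin 1167 5 911))))))))
(cons (mv 911 (cons (fin 975 7 911)
(mv 912 (cons (fin 847 7 847)
(mv 1103 (cons (fin 848 5 847)
(fin 1167 5 911)))))))
(mv 975 (cons (fin 911 7 911)
(mv 977 (cons (fin 913 6 912)
(mv 978 (cons (fin 979 1 975)
(mv 914 (cons (fin 915 2 911)
(mv 1042 (cons (fin 1043 0 975)
(mv 1167 (cons (fin 1231 5 975)
(mv 1169 (cons (fin 1233 4 976)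
(mv 1105 (cons (fin 1106 5 913)
(mv 1166 (cons (fin 1165 2 1101)
(mv 1230 (cons (fin 1229 1 1165)
(fin 1103 5 974)))))))))))))))))))))))))
(cons (mv 976 (cons (cons (mv 913 (cons (fin 977 6 912)
(mv 849 (cons (fin 912 6 848)
(mv 1169 (cons (fin 1233 4 976)
(mv 1231 (cons (fin 1167 5 975)
(mv 1232 (cons (fin 1295 5 1039)
(mv 1170 (cons (fin 1171 1 1167)
(mv 1229 (cons (fin 1230 2 1165)
(mv 1296 (cons (fin 1103 7 1039)
(mv 1360 (cons (fin 1105 6 1104)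
(mv 1361 (cons (fin 1297 4 1104)
(fin 1425 4 1168)))))))))))))))))))))
(cons (mv 913 (cons (fin 977 6 912)
(mv 849 (cons (fin 912 6 848)
(mv 1233 (cons (fin 1169 4 976)
(mv 1232 (cons (fin 1297 4 1040)
(mv 1295 (cons (fin 1231 5 1039)
(mv 1296 (cons (fin 1103 7 1039)
(fin 1359 5 1103)))))))))))))
(mv 913 (cons (fin 977 6 912)
(mv 912 (cons (fin 849 6 848)
(mv 1103 (cons (fin 848 5 847)
(fin 1167 5 911)))))))))
(cons (mv 1167 (cons (fin 1231 5 975)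
(mv 912 (cons (fin 1103 5 911)
(mv 1169 (cons (fin 1105 4 912)
(fin 1233 4 976)))))))
(cons (mv 913 (cons (fin 977 6 912)
(mv 1169 (cons (fin 1233 4 976)
(mv 1231 (cons (fin 1167 5 975)
(mv 1232 (cons (fin 1295 5 1039)
(mv 1170 (cons (fin 1171 1 1167)
(mv 1229 (cons (fin 1230 2 1165)
(mv 1296 (cons (fin 1103 7 1039)
(mv 1360 (cons (fin 1105 6 1104)
(mv 1361 (cons (fin 1297 4 1104)
(fin 1425 4 1168)))))))))))))))))))
(mv 913 (cons (fin 977 6 912)
(mv 849 (cons (fin 912 6 848)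
(mv 1231 (cons (fin 1167 5 975)
(mv 1232 (cons (fin 1295 5 1039)
(mv 1233 (cons (fin 1169 4 976)
(fin 1297 4 1040)))))))))))))))
(mv 975 (cons (fin 1232 7 975)
(mv 911 (cons (fin 847 4 847)
(fin 1103 4 911)))))))))
(cons (mv 1038 (cons (cons (mv 972 (cons (fin 973 3 972)
(mv 1036 (cons (fin 971 3 971)
(fin 1103 0 1036)))))
(mv 972 (cons (fin 973 3 972)
(mv 976 (cons (fin 977 2 973)
(mv 1168 (cons (mv 975 (cons (fin 911 7 911)
(fin 1232 7 975)))
(cons (mv 1167 (cons (fin 1231 5 975)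
(mv 912 (cons (fin 1103 5 911)
(mv 847 (cons (fin 911 7 847)
(mv 848 (cons (fin 783 7 783)
(mv 849 (cons (fin 785 6 784)
(fin 913 6 848)))))))))))
(mv 975 (cons (fin 1232 7 975)
(mv 1167 (cons (fin 1231 5 975)
(mv 912 (cons (fin 1103 5 911)
(mv 848 (cons (fin 784 5 783)
(mv 849 (cons (fin 785 6 784)
(fin 913 6 848)))))))))))))))))))
(cons (mv 976 (cons (fin 977 2 973)
(mv 1036 (cons (fin 975 2 972)
(fin 1103 0 1036)))))
(mv 972 (cons (fin 973 3 972)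
(mv 976 (cons (fin 977 2 973)
(mv 1036 (cons (fin 971 3 971)
(fin 975 2 972))))))))))
(mv 1038 (cons (fin 1105 0 1037)
(mv 972 (cons (fin 973 3 972)
(mv 976 (cons (fin 977 2 973)
(mv 1036 (cons (fin 971 3 971)
(fin 975 2 972)))))))))))))
(cons (mv 1039 (cons (cons (mv 1038 (cons (fin 1105 0 1037)
(mv 972 (cons (fin 973 3 972)
(mv 1036 (cons (fin 971 3 971)
(fin 1103 0 1036)))))))
(mv 1168 (cons (cons (mv 975 (cons (fin 1232 7 975)
(mv 911 (cons (fin 976 7 911)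
(fin 1103 4 911)))))
(mv 976 (cons (cons (mv 911 (cons (fin 975 7 911)
(mv 913 (cons (fin 977 6 912)
(mv 912 (cons (fin 849 6 848)
(mv 1103 (cons (fin 848 5 847)
(fin 1167 5 911)))))))))
(mv 911 (cons (fin 975 7 911)
(mv 913 (cons (fin 977 6 912)
(mv 912 (cons (fin 849 6 848)
(mv 1169 (cons (fin 1105 4 912)
(fin 1233 4 976))))))))))
(cons (mv 913 (cons (fin 977 6 912)
(mv 912 (cons (fin 849 6 848)
(mv 1103 (cons (fin 848 5 847)
(fin 1167 5 911)))))))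
(cons (mv 911 (cons (fin 975 7 911)
(mv 1167 (cons (fin 1231 5 975)
(mv 912 (cons (fin 1103 5 911)
(mv 1169 (cons (fin 1105 4 912)
(fin 1233 4 976)))))))))
(mv 975 (cons (fin 911 7 911)
(mv 977 (cons (fin 913 6 912)
(mv 978 (cons (fin 979 1 975)
(mv 914 (cons (fin 915 2 911)
(mv 1042 (cons (fin 1043 0 975)
(mv 1167 (cons (fin 1231 5 975)
(mv 1169 (cons (fin 1233 4 976)
(mv 1105 (cons (fin 1106 5 913)
(mv 1166 (cons (fin 1165 2 1101)
(mv 1230 (cons (fin 1229 1 1165)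
(fin 1103 5 974))))))))))))))))))))))))))
(cons (mv 976 (cons (cons (mv 913 (cons (fin 977 6 912)
(mv 849 (cons (fin 912 6 848)
(mv 1169 (cons (fin 1233 4 976)
(mv 1231 (cons (fin 1167 5 975)
(mv 1232 (cons (fin 1295 5 1039)
(mv 1103 (cons (fin 1296 7 1039)
(mv 1102 (cons (fin 1101 0 1101)
(mv 1170 (cons (fin 1171 3 1103)
(fin 1105 0 1102)))))))))))))))))
(cons (mv 913 (cons (fin 977 6 912)
(mv 849 (cons (fin 912 6 848)
(mv 1233 (cons (fin 1169 4 976)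
(mv 1232 (cons (fin 1297 4 1040)
(mv 1295 (cons (fin 1231 5 1039)
(mv 1296 (cons (fin 1103 7 1039)
(fin 1359 5 1103)))))))))))))
(mv 913 (cons (fin 977 6 912)
(mv 912 (cons (fin 849 6 848)
(mv 1103 (cons (fin 848 5 847)
(fin 1167 5 911)))))))))
(cons (mv 1167 (cons (fin 1231 5 975)
(mv 912 (cons (fin 1103 5 911)
(mv 1169 (cons (fin 1105 4 912)
(fin 1233 4 976)))))))
(cons (mv 913 (cons (fin 977 6 912)
(mv 849 (cons (fin 912 6 848)
(mv 1231 (cons (fin 1167 5 975)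
(mv 1232 (cons (fin 1295 5 1039)
(mv 1233 (cons (fin 1169 4 976)
(fin 1297 4 1040)))))))))))
(mv 913 (cons (fin 977 6 912)
(mv 1169 (cons (fin 1233 4 976)
(mv 1231 (cons (fin 1167 5 975)
(mv 1232 (cons (fin 1295 5 1039)
(mv 1103 (cons (fin 1296 7 1039)
(mv 1102 (cons (fin 1101 0 1101)
(mv 1170 (cons (fin 1171 3 1103)
(fin 1105 0 1102)))))))))))))))))))
(cons (mv 1232 (cons (fin 975 7 975)
(mv 1231 (cons (fin 1295 5 1039)
(mv 1296 (cons (fin 1103 7 1039)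
(mv 1297 (cons (fin 1233 4 1040)
(fin 1361 4 1104)))))))))
(mv 975 (cons (fin 1232 7 975)
(mv 976 (cons (fin 911 7 911)
(mv 913 (cons (fin 977 6 912)
(mv 912 (cons (fin 849 6 848)
(mv 1169 (cons (fin 1105 4 912)
(fin 1233 4 976))))))))))))))))
(cons (mv 1038 (cons (cons (mv 972 (cons (fin 973 3 972)
(mv 1036 (cons (fin 971 3 971)
(fin 1103 0 1036)))))
(mv 972 (cons (fin 973 3 972)
(mv 976 (cons (fin 977 2 973)
(mv 1100 (cons (fin 1101 1 1036)
(mv 1168 (cons (mv 975 (cons (fin 911 7 911)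
(fin 1232 7 975)))
(mv 1167 (cons (fin 1231 5 975)
(mv 1103 (cons (fin 912 5 911)
(mv 1169 (cons (fin 1233 4 976)
(mv 1170 (cons (fin 1102 3 1102)
(fin 1171 3 1103))))))))))))))))))
(cons (mv 976 (cons (fin 977 2 973)
(mv 1036 (cons (fin 975 2 972)
(fin 1103 0 1036)))))
(mv 972 (cons (fin 973 3 972)
(mv 976 (cons (fin 977 2 973)
(mv 1036 (cons (fin 971 3 971)
(fin 975 2 972))))))))))
(mv 1038 (cons (fin 1105 0 1037)
(mv 972 (cons (fin 973 3 972)
(mv 976 (cons (fin 977 2 973)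
(mv 1036 (cons (fin 971 3 971)
(fin 975 2 972))))))))))))
(mv 1039 (cons (cons (mv 1038 (cons (fin 1105 0 1037)
(mv 972 (cons (fin 973 3 972)
(mv 1036 (cons (fin 971 3 971)
(fin 1103 0 1036)))))))
(mv 1168 (cons (cons (mv 975 (cons (fin 1232 7 975)
(mv 911 (cons (fin 976 7 911)
(fin 847 4 847)))))
(mv 976 (cons (cons (mv 911 (cons (fin 975 7 911)
(mv 912 (cons (fin 847 7 847)
(mv 913 (cons (fin 849 6 848)
(fin 977 6 912)))))))
(mv 913 (cons (fin 977 6 912)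
(mv 912 (cons (fin 849 6 848)
(mv 1103 (cons (fin 848 5 847)
(fin 1167 5 911))))))))
(cons (mv 911 (cons (fin 975 7 911)
(mv 912 (cons (fin 847 7 847)
(mv 1103 (cons (fin 848 5 847)
(fin 1167 5 911)))))))
(mv 975 (cons (fin 911 7 911)
(mv 977 (cons (fin 913 6 912)
(mv 978 (cons (fin 979 1 975)
(mv 914 (cons (fin 915 2 911)
(mv 1042 (cons (fin 1043 0 975)
(mv 1167 (cons (fin 1231 5 975)
(mv 1169 (cons (fin 1233 4 976)
(mv 1106 (cons (fin 1105 5 913)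
(mv 1107 (cons (fin 1170 2 1103)
(fin 1171 4 914)))))))))))))))))))))))
(cons (mv 976 (cons (cons (mv 913 (cons (fin 977 6 912)
(mv 849 (cons (fin 912 6 848)
(mv 1169 (cons (fin 1233 4 976)
(mv 1231 (cons (fin 1167 5 975)
(mv 1232 (cons (fin 1295 5 1039)
(mv 1103 (cons (fin 1296 7 1039)
(mv 1102 (cons (fin 1101 0 1101)
(mv 1170 (cons (fin 1171 3 1103)
(fin 1105 0 1102)))))))))))))))))
(cons (mv 913 (cons (fin 977 6 912)
(mv 849 (cons (fin 912 6 848)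
(mv 1233 (cons (fin 1169 4 976)
(mv 1232 (cons (fin 1297 4 1040)
(mv 1295 (cons (fin 1231 5 1039)
(mv 1296 (cons (fin 1103 7 1039)
(fin 1359 5 1103)))))))))))))
(mv 913 (cons (fin 977 6 912)
(mv 912 (cons (fin 849 6 848)
(mv 1103 (cons (fin 848 5 847)
(fin 1167 5 911)))))))))
(cons (mv 1167 (cons (fin 1231 5 975)
(mv 912 (cons (fin 1103 5 911)
(mv 1169 (cons (fin 1105 4 912)
(fin 1233 4 976)))))))
(cons (mv 913 (cons (fin 977 6 912)
(mv 1169 (cons (fin 1233 4 976)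
(mv 1231 (cons (fin 1167 5 975)
(mv 1232 (cons (fin 1295 5 1039)
(mv 1103 (cons (fin 1296 7 1039)
(mv 1102 (cons (fin 1101 0 1101)
(mv 1170 (cons (fin 1171 3 1103)
(fin 1105 0 1102)))))))))))))))
(mv 913 (cons (fin 977 6 912)
(mv 849 (cons (fin 912 6 848)
(mv 1231 (cons (fin 1167 5 975)
(mv 1232 (cons (fin 1295 5 1039)
(mv 1233 (cons (fin 1169 4 976)
(fin 1297 4 1040)))))))))))))))
(mv 975 (cons (fin 1232 7 975)
(mv 911 (cons (fin 847 4 847)
(fin 1103 4 911)))))))))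
(cons (mv 1038 (cons (cons (mv 972 (cons (fin 973 3 972)
(mv 1036 (cons (fin 971 3 971)
(fin 1103 0 1036)))))
(mv 972 (cons (fin 973 3 972)
(mv 976 (cons (fin 977 2 973)
(mv 1100 (cons (fin 1101 1 1036)
(mv 912 (cons (mv 1103 (cons (fin 848 5 847)
(fin 1167 5 911)))
(cons (mv 847 (cons (fin 911 7 847)
(mv 848 (cons (fin 783 7 783)
(mv 849 (cons (fin 785 6 784)
(fin 913 6 848)))))))
(mv 847 (cons (fin 911 7 847)
(mv 849 (cons (fin 913 6 848)
(mv 1167 (cons (fin 1103 5 911)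
(mv 1168 (cons (fin 1231 5 975)
(mv 1232 (cons (fin 975 7 975)
(mv 1233 (cons (fin 1169 4 976)
(fin 1297 4 1040)))))))))))))))))))))))
(cons (mv 976 (cons (fin 977 2 973)
(mv 1036 (cons (fin 975 2 972)
(fin 1103 0 1036)))))
(mv 972 (cons (fin 973 3 972)
(mv 976 (cons (fin 977 2 973)
(mv 1036 (cons (fin 971 3 971)
(fin 975 2 972))))))))))
(mv 1038 (cons (fin 1105 0 1037)
(mv 972 (cons (fin 973 3 972)
(mv 976 (cons (fin 977 2 973)
(mv 1036 (cons (fin 971 3 971)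
(fin 975 2 972)))))))))))))))))))
(cons (cons (ref 21 0)
(ref 14 0))
(cons (ref 27 0)
(cons (ref 31 0)
(ref 11 0)))))
(cons (cons (cons (ref 12 0)
(ref 6 0))
(cons (ref 22 0)
(ref 18 0)))
(cons (cons (ref 29 0)
(ref 16 0))
(cons (ref 1 0)
(cons (ref 8 0)
(ref 4 0))))))
(cons (cons (cons (cons (ref 24 0)
(ref 3 0))
(cons (ref 10 0)
(ref 0 0)))
(cons (cons (ref 19 0)
(ref 30 0))
(cons (ref 17 0)
(cons (ref 2 0)
(ref 9 0)))))
(cons (cons (cons (ref 5 0)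
(ref 13 0))
(cons (ref 7 0)
(cons (ref 23 0)
(ref 26 0))))
(cons (cons (ref 28 0)
(ref 32 0))
(cons (mv 976 (cons (cons (cons (mv 1039 (cons (cons (mv 1038 (cons (fin 977 2 973)
(mv 1100 (cons (fin 1101 1 1036)
(mv 1036 (cons (fin 1099 1 1035)
(fin 975 2 972)))))))
(mv 1103 (cons (cons (mv 1167 (cons (fin 1231 6 975)
(mv 912 (cons (fin 1104 5 911)
(fin 848 5 847)))))
(mv 1167 (cons (fin 1231 6 975)
(mv 975 (cons (mv 1232 (cons (fin 1168 4 975)
(mv 974 (cons (fin 910 7 910)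
(mv 973 (cons (fin 1036 1 972)
(fin 972 0 972)))))))
(cons (mv 974 (cons (fin 910 7 910)
(mv 973 (cons (fin 1036 1 972)
(fin 972 0 972)))))
(mv 1168 (cons (fin 1232 4 975)
(mv 1104 (cons (fin 911 7 911)
(mv 1169 (cons (fin 1233 4 976)
(mv 1170 (cons (fin 1102 3 1102)
(fin 1171 3 1103)))))))))))))))
(cons (mv 912 (cons (fin 848 5 847)
(mv 1104 (cons (cons (mv 1169 (cons (fin 1105 4 912)
(mv 1168 (cons (fin 1233 4 976)
(mv 1232 (cons (fin 1296 7 1039)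
(fin 975 7 975)))))))
(mv 911 (cons (fin 847 7 847)
(mv 1168 (cons (fin 975 7 911)
(mv 913 (cons (fin 977 6 912)
(fin 849 6 848))))))))
(cons (mv 1105 (cons (fin 1169 4 912)
(mv 1106 (cons (fin 1107 3 1039)
(mv 1170 (cons (fin 1171 0 1103)
(mv 1042 (cons (fin 1043 2 1039)
(mv 911 (cons (fin 847 7 847)
(mv 913 (cons (fin 849 6 848)
(mv 977 (cons (fin 978 7 913)
(mv 910 (cons (fin 909 0 909)
(mv 846 (cons (fin 845 3 845)
(fin 975 7 846)))))))))))))))))))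
(mv 1169 (cons (fin 1105 4 912)
(mv 1168 (cons (fin 1233 4 976)
(mv 913 (cons (fin 977 6 912)
(fin 849 6 848))))))))))))
(mv 1167 (cons (fin 1231 6 975)
(mv 912 (cons (fin 848 5 847)
(fin 975 6 911)))))))))
(cons (mv 1038 (cons (cons (mv 1100 (cons (fin 1101 1 1036)
(mv 1036 (cons (fin 1099 1 1035)
(fin 975 2 972)))))
(mv 1100 (cons (fin 1101 1 1036)
(mv 1104 (cons (fin 1105 0 1037)
(mv 972 (cons (fin 973 3 972)
(mv 912 (cons (mv 1103 (cons (fin 1167 5 911)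
(fin 848 5 847)))
(cons (mv 911 (cons (fin 847 7 847)
(mv 1168 (cons (fin 975 7 911)
(mv 1231 (cons (fin 1167 5 975)
(mv 1232 (cons (fin 1295 5 1039)
(mv 1233 (cons (fin 1297 4 1040)
(fin 1169 4 976)))))))))))
(mv 1103 (cons (fin 848 5 847)
(mv 911 (cons (fin 847 7 847)
(mv 1168 (cons (fin 975 7 911)
(mv 1232 (cons (fin 1296 7 1039)
(mv 1233 (cons (fin 1297 4 1040)
(fin 1169 4 976)))))))))))))))))))))
(cons (mv 1104 (cons (fin 1105 0 1037)
(mv 1036 (cons (fin 1103 0 1036)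
(fin 975 2 972)))))
(mv 1100 (cons (fin 1101 1 1036)
(mv 1104 (cons (fin 1105 0 1037)
(mv 1036 (cons (fin 1099 1 1035)
(fin 1103 0 1036))))))))))
(cons (mv 1038 (cons (fin 977 2 973)
(mv 1100 (cons (fin 1101 1 1036)
(mv 1104 (cons (fin 1105 0 1037)
(mv 1036 (cons (fin 1099 1 1035)
(fin 1103 0 1036)))))))))
(mv 1038 (cons (fin 977 2 973)
(mv 1100 (cons (fin 1101 1 1036)
(mv 1104 (cons (fin 1105 0 1037)
(mv 972 (cons (fin 973 3 972)
(mv 912 (cons (mv 1103 (cons (fin 1167 5 911)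
(fin 848 5 847)))
(cons (mv 911 (cons (fin 847 7 847)
(mv 1168 (cons (fin 975 7 911)
(mv 1231 (cons (fin 1167 5 975)
(mv 1232 (cons (fin 1295 5 1039)
(mv 1233 (cons (fin 1297 4 1040)
(fin 1169 4 976)))))))))))
(mv 1103 (cons (fin 848 5 847)
(mv 911 (cons (fin 847 7 847)
(mv 1168 (cons (fin 975 7 911)
(mv 1232 (cons (fin 1296 7 1039)
(mv 1233 (cons (fin 1297 4 1040)
(fin 1169 4 976))))))))))))))))))))))))))
(cons (mv 1104 (cons (cons (mv 912 (cons (cons (mv 1167 (cons (fin 1103 5 911)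
(mv 1231 (cons (fin 1168 5 975)
(mv 1169 (cons (fin 1105 4 912)
(mv 847 (cons (fin 911 7 847)
(mv 848 (cons (fin 783 7 783)
(mv 849 (cons (fin 913 6 848)
(fin 785 6 784)))))))))))))
(mv 1167 (cons (fin 1103 5 911)
(mv 1168 (cons (fin 1231 5 975)
(mv 1169 (cons (fin 1233 4 976)
(fin 1105 4 912))))))))
(cons (mv 1167 (cons (fin 1103 5 911)
(mv 1231 (cons (fin 1168 5 975)
(mv 847 (cons (fin 911 7 847)
(mv 848 (cons (fin 783 7 783)
(mv 849 (cons (fin 913 6 848)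
(fin 785 6 784)))))))))))
(cons (mv 1169 (cons (fin 1105 4 912)
(mv 1233 (cons (fin 1168 4 976)
(mv 847 (cons (fin 911 7 847)
(mv 848 (cons (fin 783 7 783)
(mv 849 (cons (fin 913 6 848)
(fin 785 6 784)))))))))))
(mv 1167 (cons (fin 1103 5 911)
(mv 1169 (cons (fin 1105 4 912)
(mv 847 (cons (fin 911 7 847)
(mv 848 (cons (fin 783 7 783)
(mv 849 (cons (fin 913 6 848)
(fin 785 6 784)))))))))))))))
(cons (mv 1168 (cons (cons (mv 1231 (cons (fin 1167 5 975)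
(mv 1295 (cons (fin 1232 5 1039)
(mv 1233 (cons (fin 1169 4 976)
(mv 975 (cons (fin 911 7 911)
(mv 977 (cons (fin 913 6 912)
(mv 974 (cons (fin 1038 1 973)
(mv 973 (cons (fin 1036 1 972)
(mv 909 (cons (fin 908 3 908)
(fin 910 3 909)))))))))))))))))
(mv 1231 (cons (fin 1167 5 975)
(mv 1295 (cons (fin 1232 5 1039)
(mv 975 (cons (fin 911 7 911)
(mv 977 (cons (fin 913 6 912)
(mv 974 (cons (fin 1038 1 973)
(mv 973 (cons (fin 1036 1 972)
(mv 909 (cons (fin 908 3 908)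
(fin 910 3 909))))))))))))))))
(cons (mv 1233 (cons (fin 1169 4 976)
(mv 1297 (cons (fin 1232 4 1040)
(mv 975 (cons (fin 911 7 911)
(mv 977 (cons (fin 913 6 912)
(mv 974 (cons (fin 1038 1 973)
(mv 973 (cons (fin 1036 1 972)
(mv 909 (cons (fin 908 3 908)
(fin 910 3 909)))))))))))))))
(cons (mv 1231 (cons (fin 1167 5 975)
(mv 1232 (cons (fin 1295 5 1039)
(mv 1233 (cons (fin 1297 4 1040)
(fin 1169 4 976)))))))
(mv 1231 (cons (fin 1167 5 975)
(mv 1233 (cons (fin 1169 4 976)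
(mv 975 (cons (fin 911 7 911)
(mv 977 (cons (fin 913 6 912)
(mv 974 (cons (fin 1038 1 973)
(mv 973 (cons (fin 1036 1 972)
(mv 909 (cons (fin 908 3 908)
(fin 910 3 909)))))))))))))))))))
(mv 912 (cons (cons (mv 1167 (cons (fin 1103 5 911)
(mv 1169 (cons (fin 1105 4 912)
(mv 847 (cons (fin 911 7 847)
(mv 848 (cons (fin 783 7 783)
(mv 849 (cons (fin 913 6 848)
(fin 785 6 784)))))))))))
(mv 1103 (cons (fin 1167 5 911)
(mv 1105 (cons (fin 1169 4 912)
(mv 1102 (cons (fin 1038 3 1037)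
(mv 1165 (cons (fin 1166 1 1101)
(mv 1101 (cons (fin 1164 1 1100)
(fin 1036 3 1036))))))))))))
(cons (mv 1169 (cons (fin 1105 4 912)
(mv 847 (cons (fin 911 7 847)
(mv 848 (cons (fin 783 7 783)
(mv 849 (cons (fin 913 6 848)
(fin 785 6 784)))))))))
(mv 1167 (cons (fin 1103 5 911)
(mv 847 (cons (fin 911 7 847)
(mv 848 (cons (fin 783 7 783)
(mv 849 (cons (fin 913 6 848)
(fin 785 6 784))))))))))))))
(cons (cons (mv 1168 (cons (cons (mv 1231 (cons (fin 1167 5 975)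
(mv 1295 (cons (fin 1232 5 1039)
(mv 1169 (cons (fin 1233 4 976)
(mv 912 (cons (fin 1105 4 912)
(mv 913 (cons (fin 977 6 912)
(fin 849 6 848)))))))))))
(mv 1167 (cons (fin 1231 5 975)
(mv 912 (cons (fin 1103 5 911)
(mv 913 (cons (fin 977 6 912)
(fin 849 6 848))))))))
(cons (mv 1169 (cons (fin 1233 4 976)
(mv 912 (cons (fin 1105 4 912)
(mv 913 (cons (fin 977 6 912)
(fin 849 6 848)))))))
(mv 1231 (cons (fin 1167 5 975)
(mv 1232 (cons (fin 1295 5 1039)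
(mv 1233 (cons (fin 1297 4 1040)
(fin 1169 4 976))))))))))
(mv 1168 (cons (cons (mv 1231 (cons (fin 1167 5 975)
(mv 1295 (cons (fin 1232 5 1039)
(mv 1169 (cons (fin 1233 4 976)
(mv 911 (cons (fin 975 7 911)
(mv 912 (cons (fin 847 7 847)
(fin 1105 4 912)))))))))))
(mv 1167 (cons (fin 1231 5 975)
(mv 911 (cons (fin 975 7 911)
(mv 912 (cons (fin 1103 5 911)
(fin 847 7 847))))))))
(cons (mv 1169 (cons (fin 1233 4 976)
(mv 911 (cons (fin 975 7 911)
(mv 912 (cons (fin 847 7 847)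
(fin 1105 4 912)))))))
(mv 1231 (cons (fin 1167 5 975)
(mv 1232 (cons (fin 1295 5 1039)
(mv 1233 (cons (fin 1297 4 1040)
(fin 1169 4 976)))))))))))
(cons (mv 912 (cons (cons (mv 1167 (cons (fin 1103 5 911)
(mv 1231 (cons (fin 1168 5 975)
(mv 847 (cons (fin 911 7 847)
(mv 848 (cons (fin 783 7 783)
(mv 849 (cons (fin 913 6 848)
(fin 785 6 784)))))))))))
(mv 1167 (cons (fin 1103 5 911)
(mv 1168 (cons (fin 1231 5 975)
(mv 913 (cons (fin 977 6 912)
(fin 849 6 848))))))))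
(cons (mv 1167 (cons (fin 1103 5 911)
(mv 1168 (cons (fin 1231 5 975)
(mv 911 (cons (fin 975 7 911)
(fin 847 7 847)))))))
(cons (mv 911 (cons (fin 847 7 847)
(mv 1168 (cons (fin 975 7 911)
(mv 913 (cons (fin 977 6 912)
(fin 849 6 848)))))))
(mv 1167 (cons (fin 1103 5 911)
(mv 847 (cons (fin 911 7 847)
(mv 848 (cons (fin 783 7 783)
(mv 849 (cons (fin 913 6 848)
(fin 785 6 784)))))))))))))
(mv 912 (cons (cons (mv 1169 (cons (fin 1105 4 912)
(mv 1233 (cons (fin 1168 4 976)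
(mv 847 (cons (fin 911 7 847)
(mv 848 (cons (fin 783 7 783)
(mv 849 (cons (fin 913 6 848)
(fin 785 6 784)))))))))))
(mv 1169 (cons (fin 1105 4 912)
(mv 1168 (cons (fin 1233 4 976)
(mv 913 (cons (fin 977 6 912)
(fin 849 6 848))))))))
(cons (mv 1169 (cons (fin 1105 4 912)
(mv 1168 (cons (fin 1233 4 976)
(mv 911 (cons (fin 975 7 911)
(fin 847 7 847)))))))
(cons (mv 911 (cons (fin 847 7 847)
(mv 1168 (cons (fin 975 7 911)
(mv 913 (cons (fin 977 6 912)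
(fin 849 6 848)))))))
(mv 1169 (cons (fin 1105 4 912)
(mv 847 (cons (fin 911 7 847)
(mv 848 (cons (fin 783 7 783)
(mv 849 (cons (fin 913 6 848)
(fin 785 6 784)))))))))))))))))
(mv 1104 (cons (cons (mv 912 (cons (cons (mv 1167 (cons (fin 1103 5 911)
(mv 1231 (cons (fin 1168 5 975)
(mv 1169 (cons (fin 1105 4 912)
(mv 847 (cons (fin 911 7 847)
(mv 848 (cons (fin 783 7 783)
(mv 849 (cons (fin 913 6 848)
(fin 785 6 784)))))))))))))
(mv 1167 (cons (fin 1103 5 911)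
(mv 1168 (cons (fin 1231 5 975)
(mv 1169 (cons (fin 1233 4 976)
(fin 1105 4 912))))))))
(cons (mv 1169 (cons (fin 1105 4 912)
(mv 1233 (cons (fin 1168 4 976)
(mv 847 (cons (fin 911 7 847)
(mv 848 (cons (fin 783 7 783)
(mv 849 (cons (fin 913 6 848)
(fin 785 6 784)))))))))))
(cons (mv 1167 (cons (fin 1103 5 911)
(mv 1231 (cons (fin 1168 5 975)
(mv 847 (cons (fin 911 7 847)
(mv 848 (cons (fin 783 7 783)
(mv 849 (cons (fin 913 6 848)
(fin 785 6 784)))))))))))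
(mv 1167 (cons (fin 1103 5 911)
(mv 1169 (cons (fin 1105 4 912)
(mv 847 (cons (fin 911 7 847)
(mv 848 (cons (fin 783 7 783)
(mv 849 (cons (fin 913 6 848)
(fin 785 6 784)))))))))))))))
(cons (mv 1168 (cons (cons (mv 1231 (cons (fin 1167 5 975)
(mv 1232 (cons (fin 1295 5 1039)
(mv 1233 (cons (fin 1297 4 1040)
(fin 1169 4 976)))))))
(mv 1233 (cons (fin 1169 4 976)
(mv 1232 (cons (fin 1297 4 1040)
(mv 975 (cons (fin 1039 7 975)
(fin 911 7 911))))))))
(cons (mv 1231 (cons (fin 1167 5 975)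
(mv 1232 (cons (fin 1295 5 1039)
(mv 975 (cons (fin 1039 7 975)
(fin 911 7 911)))))))
(mv 1231 (cons (fin 1167 5 975)
(mv 1169 (cons (fin 1233 4 976)
(mv 975 (cons (fin 911 7 911)
(mv 977 (cons (fin 913 6 912)
(mv 978 (cons (cons (mv 1039 (cons (fin 979 1 975)
(mv 1042 (cons (fin 1043 0 975)
(mv 914 (cons (fin 915 2 911)
(mv 1106 (cons (fin 1105 5 913)
(mv 1171 (cons (fin 1107 4 914)
(mv 1170 (cons (fin 1103 3 1103)
(fin 1235 4 978)))))))))))))
(mv 1042 (cons (fin 1043 0 975)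
(mv 914 (cons (fin 915 2 911)
(mv 1106 (cons (fin 1105 5 913)
(mv 1171 (cons (fin 1107 4 914)
(mv 1170 (cons (fin 1103 3 1103)
(fin 1235 4 978))))))))))))
(cons (mv 979 (cons (fin 1039 1 975)
(mv 915 (cons (fin 914 2 911)
(fin 916 2 912)))))
(mv 1043 (cons (fin 1042 0 975)
(mv 979 (cons (fin 1039 1 975)
(fin 1044 0 976)))))))))))))))))))
(mv 912 (cons (cons (mv 1167 (cons (fin 1103 5 911)
(mv 1169 (cons (fin 1105 4 912)
(mv 847 (cons (fin 911 7 847)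
(mv 848 (cons (fin 783 7 783)
(mv 849 (cons (fin 913 6 848)
(fin 785 6 784)))))))))))
(cons (mv 1169 (cons (fin 1105 4 912)
(mv 847 (cons (fin 911 7 847)
(mv 848 (cons (fin 783 7 783)
(mv 849 (cons (fin 913 6 848)
(fin 785 6 784)))))))))
(mv 1169 (cons (fin 1105 4 912)
(mv 1103 (cons (fin 1167 5 911)
(mv 848 (cons (fin 1039 5 847)
(mv 849 (cons (fin 913 6 848)
(fin 785 6 784)))))))))))
(cons (mv 1169 (cons (fin 1105 4 912)
(mv 1103 (cons (fin 1167 5 911)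
(mv 847 (cons (fin 911 7 847)
(mv 848 (cons (fin 1039 5 847)
(fin 783 7 783)))))))))
(cons (mv 1167 (cons (fin 1103 5 911)
(mv 847 (cons (fin 911 7 847)
(mv 848 (cons (fin 783 7 783)
(mv 849 (cons (fin 913 6 848)
(fin 785 6 784)))))))))
(mv 1167 (cons (fin 1103 5 911)
(mv 1169 (cons (fin 1105 4 912)
(mv 911 (cons (fin 847 7 847)
(mv 913 (cons (fin 849 6 848)
(mv 910 (cons (mv 977 (cons (fin 909 0 909)
(fin 978 0 910)))
(cons (mv 973 (cons (fin 974 1 909)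
(mv 909 (cons (fin 972 1 908)
(mv 845 (cons (fin 844 3 844)
(fin 846 3 845)))))))
(mv 973 (cons (fin 974 1 909)
(mv 978 (cons (fin 977 0 910)
(mv 914 (cons (fin 979 0 911)
(mv 915 (cons (fin 975 1 911)
(mv 851 (cons (fin 850 2 847)
(fin 852 2 848))))))))))))))))))))))))))))
(cons (cons (mv 1168 (cons (cons (mv 1231 (cons (fin 1167 5 975)
(mv 1295 (cons (fin 1232 5 1039)
(mv 1169 (cons (fin 1233 4 976)
(mv 912 (cons (fin 1105 4 912)
(mv 913 (cons (fin 977 6 912)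
(fin 849 6 848)))))))))))
(cons (mv 1233 (cons (fin 1169 4 976)
(mv 1232 (cons (fin 1297 4 1040)
(mv 1295 (cons (fin 1231 5 1039)
(mv 1296 (cons (fin 1359 5 1103)
(mv 1039 (cons (fin 1103 7 1039)
(fin 975 7 975)))))))))))
(mv 1231 (cons (fin 1167 5 975)
(mv 1232 (cons (fin 1295 5 1039)
(mv 1297 (cons (fin 1233 4 1040)
(mv 1296 (cons (fin 1361 4 1104)
(mv 1039 (cons (fin 1103 7 1039)
(fin 975 7 975)))))))))))))
(cons (mv 1233 (cons (fin 1169 4 976)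
(mv 1232 (cons (fin 1297 4 1040)
(mv 1039 (cons (fin 975 7 975)
(mv 1103 (cons (fin 1296 7 1039)
(mv 912 (cons (fin 1167 5 911)
(fin 848 5 847)))))))))))
(cons (mv 1231 (cons (fin 1167 5 975)
(mv 1232 (cons (fin 1295 5 1039)
(mv 1039 (cons (fin 975 7 975)
(mv 1103 (cons (fin 1296 7 1039)
(mv 912 (cons (fin 848 5 847)
(mv 913 (cons (fin 977 6 912)
(fin 849 6 848)))))))))))))
(mv 1231 (cons (fin 1167 5 975)
(mv 1169 (cons (fin 1233 4 976)
(mv 912 (cons (fin 1105 4 912)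
(mv 913 (cons (fin 977 6 912)
(fin 849 6 848)))))))))))))
(mv 912 (cons (cons (mv 1169 (cons (fin 1105 4 912)
(mv 1233 (cons (fin 1168 4 976)
(mv 913 (cons (fin 849 6 848)
(mv 847 (cons (fin 911 7 847)
(mv 848 (cons (fin 783 7 783)
(mv 1039 (cons (fin 1103 5 847)
(mv 975 (cons (fin 784 5 783)
(mv 974 (cons (fin 973 2 909)
(mv 914 (cons (fin 915 1 911)
(fin 977 2 910)))))))))))))))))))
(cons (mv 1169 (cons (fin 1105 4 912)
(mv 1233 (cons (fin 1168 4 976)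
(mv 849 (cons (fin 913 6 848)
(mv 848 (cons (fin 785 6 784)
(mv 1039 (cons (fin 1103 5 847)
(mv 783 (cons (fin 847 7 783)
(mv 784 (cons (fin 975 5 783)
(fin 719 7 719)))))))))))))))
(mv 1169 (cons (fin 1105 4 912)
(mv 1233 (cons (fin 1168 4 976)
(mv 847 (cons (fin 911 7 847)
(mv 848 (cons (fin 783 7 783)
(mv 1039 (cons (fin 1103 5 847)
(mv 784 (cons (fin 975 5 783)
(mv 785 (cons (fin 849 6 784)
(fin 721 6 720)))))))))))))))))
(cons (cons (mv 1169 (cons (fin 1105 4 912)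
(mv 1168 (cons (fin 1233 4 976)
(mv 913 (cons (fin 977 6 912)
(fin 849 6 848)))))))
(mv 1169 (cons (fin 1105 4 912)
(mv 1168 (cons (fin 1233 4 976)
(mv 911 (cons (fin 975 7 911)
(fin 847 7 847))))))))
(cons (mv 911 (cons (fin 847 7 847)
(mv 1168 (cons (fin 975 7 911)
(mv 913 (cons (fin 977 6 912)
(fin 849 6 848)))))))
(mv 1169 (cons (fin 1105 4 912)
(mv 913 (cons (fin 849 6 848)
(mv 847 (cons (fin 911 7 847)
(mv 848 (cons (fin 783 7 783)
(mv 1039 (cons (fin 1103 5 847)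
(mv 975 (cons (fin 784 5 783)
(mv 974 (cons (fin 973 2 909)
(mv 914 (cons (fin 915 1 911)
(fin 977 2 910))))))))))))))))))))))
(cons (mv 1168 (cons (cons (mv 1231 (cons (fin 1167 5 975)
(mv 1295 (cons (fin 1232 5 1039)
(mv 1169 (cons (fin 1233 4 976)
(mv 911 (cons (fin 975 7 911)
(mv 912 (cons (fin 847 7 847)
(fin 1105 4 912)))))))))))
(mv 1233 (cons (fin 1169 4 976)
(mv 1232 (cons (fin 1297 4 1040)
(mv 975 (cons (fin 1039 7 975)
(fin 911 7 911))))))))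
(cons (mv 1231 (cons (fin 1167 5 975)
(mv 1232 (cons (fin 1295 5 1039)
(mv 975 (cons (fin 1039 7 975)
(fin 911 7 911)))))))
(cons (mv 1231 (cons (fin 1167 5 975)
(mv 1232 (cons (fin 1295 5 1039)
(mv 1233 (cons (fin 1297 4 1040)
(fin 1169 4 976)))))))
(mv 1231 (cons (fin 1167 5 975)
(mv 1169 (cons (fin 1233 4 976)
(mv 911 (cons (fin 975 7 911)
(mv 912 (cons (fin 847 7 847)
(fin 1105 4 912)))))))))))))
(mv 912 (cons (cons (mv 1167 (cons (fin 1103 5 911)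
(mv 1231 (cons (fin 1168 5 975)
(mv 847 (cons (fin 911 7 847)
(mv 848 (cons (fin 783 7 783)
(mv 849 (cons (fin 913 6 848)
(fin 785 6 784)))))))))))
(mv 1167 (cons (fin 1103 5 911)
(mv 1168 (cons (fin 1231 5 975)
(mv 913 (cons (fin 977 6 912)
(fin 849 6 848))))))))
(cons (mv 1167 (cons (fin 1103 5 911)
(mv 1168 (cons (fin 1231 5 975)
(mv 911 (cons (fin 975 7 911)
(fin 847 7 847)))))))
(cons (mv 911 (cons (fin 847 7 847)
(mv 1168 (cons (fin 975 7 911)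
(mv 913 (cons (fin 977 6 912)
(fin 849 6 848)))))))
(mv 1167 (cons (fin 1103 5 911)
(mv 847 (cons (fin 911 7 847)
(mv 848 (cons (fin 783 7 783)
(mv 849 (cons (fin 913 6 848)
(fin 785 6 784)))))))))))))))))))
(cons (cons (mv 1104 (cons (cons (cons (mv 912 (cons (cons (mv 1167 (cons (fin 1103 5 911)
(mv 1231 (cons (fin 1168 5 975)
(mv 1169 (cons (fin 1105 4 912)
(mv 847 (cons (fin 911 7 847)
(mv 848 (cons (fin 783 7 783)
(mv 849 (cons (fin 913 6 848)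
(fin 785 6 784)))))))))))))
(cons (mv 1169 (cons (fin 1105 4 912)
(mv 1233 (cons (fin 1168 4 976)
(mv 847 (cons (fin 911 7 847)
(mv 848 (cons (fin 783 7 783)
(mv 849 (cons (fin 913 6 848)
(fin 785 6 784)))))))))))
(mv 1167 (cons (fin 1103 5 911)
(mv 1231 (cons (fin 1168 5 975)
(mv 1105 (cons (fin 1169 4 912)
(mv 1039 (cons (fin 1038 0 1037)
(mv 1106 (cons (fin 1107 3 1039)
(mv 849 (cons (fin 913 6 848)
(mv 848 (cons (fin 785 6 784)
(mv 783 (cons (fin 847 7 783)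
(mv 784 (cons (fin 975 5 783)
(fin 719 7 719)))))))))))))))))))))
(cons (mv 1167 (cons (fin 1103 5 911)
(mv 1231 (cons (fin 1168 5 975)
(mv 847 (cons (fin 911 7 847)
(mv 848 (cons (fin 783 7 783)
(mv 849 (cons (fin 913 6 848)
(fin 785 6 784)))))))))))
(cons (mv 1167 (cons (fin 1103 5 911)
(mv 1168 (cons (fin 1231 5 975)
(mv 1169 (cons (fin 1233 4 976)
(fin 1105 4 912)))))))
(mv 1167 (cons (fin 1103 5 911)
(mv 1169 (cons (fin 1105 4 912)
(mv 847 (cons (fin 911 7 847)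
(mv 848 (cons (fin 783 7 783)
(mv 849 (cons (fin 913 6 848)
(fin 785 6 784)))))))))))))))
(mv 1168 (cons (cons (mv 1231 (cons (fin 1167 5 975)
(mv 1232 (cons (fin 1295 5 1039)
(mv 1233 (cons (fin 1297 4 1040)
(fin 1169 4 976)))))))
(mv 1233 (cons (fin 1169 4 976)
(mv 1232 (cons (fin 1297 4 1040)
(mv 975 (cons (fin 1039 7 975)
(fin 911 7 911))))))))
(cons (mv 1231 (cons (fin 1167 5 975)
(mv 1232 (cons (fin 1295 5 1039)
(mv 975 (cons (fin 1039 7 975)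
(fin 911 7 911)))))))
(mv 1167 (cons (fin 1231 5 975)
(mv 1169 (cons (fin 1233 4 976)
(mv 975 (cons (fin 911 7 911)
(mv 1170 (cons (mv 1103 (cons (fin 1102 3 1102)
(fin 1171 3 1103)))
(cons (mv 1234 (cons (fin 1235 0 1167)
(mv 1106 (cons (fin 1107 2 1103)
(mv 1166 (cons (fin 1105 2 1102)
(mv 1101 (cons (fin 1102 3 1101)
(mv 1165 (cons (fin 1100 3 1100)
(mv 1228 (cons (fin 1229 1 1164)
(mv 1164 (cons (fin 1227 1 1163)
(fin 973 5 972)))))))))))))))
(mv 1234 (cons (fin 1235 0 1167)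
(mv 1171 (cons (fin 1103 3 1103)
(mv 1107 (cons (fin 1106 2 1103)
(fin 1108 2 1104))))))))))))))))))))
(cons (mv 912 (cons (cons (mv 1167 (cons (fin 1103 5 911)
(mv 1169 (cons (fin 1105 4 912)
(mv 847 (cons (fin 911 7 847)
(mv 848 (cons (fin 783 7 783)
(mv 849 (cons (fin 913 6 848)
(fin 785 6 784)))))))))))
(cons (mv 1169 (cons (fin 1105 4 912)
(mv 847 (cons (fin 911 7 847)
(mv 848 (cons (fin 783 7 783)
(mv 849 (cons (fin 913 6 848)
(fin 785 6 784)))))))))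
(mv 1167 (cons (fin 1103 5 911)
(mv 847 (cons (fin 911 7 847)
(mv 848 (cons (fin 783 7 783)
(mv 849 (cons (fin 913 6 848)
(fin 785 6 784)))))))))))
(cons (cons (mv 1169 (cons (fin 1105 4 912)
(mv 1103 (cons (fin 1167 5 911)
(mv 1039 (cons (fin 848 5 847)
(mv 1038 (cons (fin 1036 0 1036)
(mv 1100 (cons (fin 1101 1 1036)
(mv 973 (cons (fin 972 3 972)
(mv 913 (cons (fin 849 6 848)
(mv 974 (cons (fin 975 2 909)
(mv 910 (cons (fin 911 1 909)
(fin 846 4 846)))))))))))))))))))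
(mv 1169 (cons (fin 1105 4 912)
(mv 1103 (cons (fin 1167 5 911)
(mv 1039 (cons (fin 848 5 847)
(mv 1036 (cons (fin 1038 0 1036)
(mv 1102 (cons (fin 1101 3 1036)
(mv 911 (cons (fin 847 7 847)
(mv 975 (cons (fin 1166 5 910)
(mv 973 (cons (fin 974 1 972)
(mv 910 (cons (fin 846 7 846)
(mv 909 (cons (fin 972 1 908)
(fin 908 0 908))))))))))))))))))))))
(cons (mv 1167 (cons (fin 1103 5 911)
(mv 1105 (cons (fin 1169 4 912)
(mv 1039 (cons (fin 1038 0 1037)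
(mv 1106 (cons (fin 1107 3 1039)
(mv 849 (cons (fin 913 6 848)
(mv 848 (cons (fin 785 6 784)
(mv 783 (cons (fin 847 7 783)
(mv 784 (cons (fin 975 5 783)
(fin 719 7 719)))))))))))))))))
(mv 1103 (cons (fin 1167 5 911)
(mv 1105 (cons (fin 1169 4 912)
(mv 1038 (cons (fin 1102 3 1037)
(fin 1039 0 1037)))))))))))
(mv 912 (cons (cons (mv 1167 (cons (fin 1103 5 911)
(mv 1231 (cons (fin 1168 5 975)
(mv 847 (cons (fin 911 7 847)
(mv 848 (cons (fin 783 7 783)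
(mv 849 (cons (fin 913 6 848)
(fin 785 6 784)))))))))))
(mv 911 (cons (fin 847 7 847)
(mv 1168 (cons (fin 975 7 911)
(mv 1231 (cons (fin 1167 5 975)
(mv 1232 (cons (fin 1295 5 1039)
(mv 1233 (cons (fin 1297 4 1040)
(fin 1169 4 976))))))))))))
(cons (mv 1103 (cons (fin 1167 5 911)
(mv 1039 (cons (fin 848 5 847)
(mv 1038 (cons (fin 1036 0 1036)
(mv 1101 (cons (fin 1100 1 1036)
(mv 973 (cons (fin 972 3 972)
(mv 913 (cons (fin 849 6 848)
(mv 974 (cons (fin 975 2 909)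
(mv 1165 (cons (fin 1229 6 973)
(fin 910 6 909)))))))))))))))))
(mv 911 (cons (fin 847 7 847)
(mv 975 (cons (fin 1168 7 911)
(mv 913 (cons (fin 849 6 848)
(mv 974 (cons (fin 914 1 910)
(fin 973 2 909))))))))))))))
(cons (cons (mv 912 (cons (cons (mv 1169 (cons (fin 1105 4 912)
(mv 1233 (cons (fin 1168 4 976)
(mv 911 (cons (fin 847 7 847)
(mv 849 (cons (fin 913 6 848)
(mv 848 (cons (fin 785 6 784)
(mv 1039 (cons (fin 1103 5 847)
(mv 975 (cons (fin 784 5 783)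
(mv 1036 (cons (fin 1038 2 972)
(mv 973 (cons (fin 974 1 972)
(mv 909 (cons (fin 910 2 845)
(mv 1100 (cons (fin 845 5 844)
(mv 1164 (cons (fin 1101 5 908)
(fin 1228 6 972)))))))))))))))))))))))))
(cons (mv 1169 (cons (fin 1105 4 912)
(mv 1233 (cons (fin 1168 4 976)
(mv 849 (cons (fin 913 6 848)
(mv 848 (cons (fin 785 6 784)
(mv 1039 (cons (fin 1103 5 847)
(mv 783 (cons (fin 847 7 783)
(mv 784 (cons (fin 975 5 783)
(fin 719 7 719)))))))))))))))
(mv 911 (cons (fin 847 7 847)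
(mv 975 (cons (fin 1168 7 911)
(mv 913 (cons (fin 849 6 848)
(mv 974 (cons (fin 914 1 910)
(fin 973 2 909)))))))))))
(cons (mv 1169 (cons (fin 1105 4 912)
(mv 1168 (cons (fin 1233 4 976)
(mv 975 (cons (fin 911 7 911)
(mv 1039 (cons (fin 1232 7 975)
(mv 848 (cons (fin 1103 5 847)
(fin 784 5 783)))))))))))
(cons (mv 1169 (cons (fin 1105 4 912)
(mv 911 (cons (fin 847 7 847)
(mv 849 (cons (fin 913 6 848)
(mv 848 (cons (fin 785 6 784)
(mv 1039 (cons (fin 1103 5 847)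
(mv 975 (cons (fin 784 5 783)
(mv 1036 (cons (fin 1038 2 972)
(mv 973 (cons (fin 974 1 972)
(mv 909 (cons (fin 910 2 845)
(mv 1100 (cons (fin 845 5 844)
(mv 1164 (cons (fin 1101 5 908)
(fin 1228 6 972)))))))))))))))))))))))
(mv 1169 (cons (fin 1105 4 912)
(mv 1233 (cons (fin 1168 4 976)
(mv 847 (cons (fin 911 7 847)
(mv 848 (cons (fin 783 7 783)
(mv 849 (cons (fin 913 6 848)
(fin 785 6 784)))))))))))))))
(mv 912 (cons (cons (mv 1167 (cons (fin 1103 5 911)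
(mv 1231 (cons (fin 1168 5 975)
(mv 1105 (cons (fin 1169 4 912)
(mv 1039 (cons (fin 1038 0 1037)
(mv 1106 (cons (fin 1107 3 1039)
(mv 849 (cons (fin 913 6 848)
(mv 848 (cons (fin 785 6 784)
(mv 783 (cons (fin 847 7 783)
(mv 784 (cons (fin 975 5 783)
(fin 719 7 719)))))))))))))))))))
(mv 1105 (cons (fin 1169 4 912)
(mv 1039 (cons (fin 1038 0 1037)
(mv 1106 (cons (fin 1107 3 1039)
(mv 849 (cons (fin 913 6 848)
(mv 848 (cons (fin 785 6 784)
(mv 783 (cons (fin 847 7 783)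
(mv 784 (cons (fin 975 5 783)
(fin 719 7 719))))))))))))))))
(cons (mv 1103 (cons (fin 1167 5 911)
(mv 1039 (cons (fin 848 5 847)
(mv 1038 (cons (fin 1036 0 1036)
(mv 1101 (cons (fin 1100 1 1036)
(mv 973 (cons (fin 972 3 972)
(mv 913 (cons (fin 849 6 848)
(mv 974 (cons (fin 975 2 909)
(mv 1165 (cons (fin 1229 6 973)
(fin 910 6 909)))))))))))))))))
(mv 1167 (cons (fin 1103 5 911)
(mv 1168 (cons (fin 1231 5 975)
(mv 1169 (cons (fin 1233 4 976)
(fin 1105 4 912)))))))))))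
(cons (mv 912 (cons (cons (mv 1167 (cons (fin 1103 5 911)
(mv 1231 (cons (fin 1168 5 975)
(mv 847 (cons (fin 911 7 847)
(mv 848 (cons (fin 783 7 783)
(mv 849 (cons (fin 913 6 848)
(fin 785 6 784)))))))))))
(mv 911 (cons (fin 847 7 847)
(mv 975 (cons (fin 1168 7 911)
(mv 913 (cons (fin 849 6 848)
(mv 974 (cons (fin 914 1 910)
(fin 973 2 909))))))))))
(cons (mv 1167 (cons (fin 1103 5 911)
(mv 1231 (cons (fin 1168 5 975)
(mv 849 (cons (fin 913 6 848)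
(mv 848 (cons (fin 785 6 784)
(mv 783 (cons (fin 847 7 783)
(mv 784 (cons (fin 719 7 719)
(mv 1039 (cons (fin 975 5 783)
(mv 1038 (cons (fin 1105 0 1037)
(mv 1100 (cons (fin 1101 1 1036)
(mv 1036 (cons (fin 1099 1 1035)
(mv 972 (cons (fin 971 3 971)
(fin 973 3 972)))))))))))))))))))))))
(cons (mv 1167 (cons (fin 1103 5 911)
(mv 1168 (cons (fin 1231 5 975)
(mv 975 (cons (fin 911 7 911)
(mv 1039 (cons (fin 1232 7 975)
(mv 1038 (cons (fin 1105 0 1037)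
(fin 1036 2 972)))))))))))
(mv 1167 (cons (fin 1103 5 911)
(mv 847 (cons (fin 911 7 847)
(mv 848 (cons (fin 783 7 783)
(mv 849 (cons (fin 913 6 848)
(fin 785 6 784)))))))))))))
(cons (mv 912 (cons (cons (mv 1167 (cons (fin 1103 5 911)
(mv 1231 (cons (fin 1168 5 975)
(mv 1169 (cons (fin 1105 4 912)
(mv 847 (cons (fin 911 7 847)
(mv 848 (cons (fin 783 7 783)
(mv 849 (cons (fin 913 6 848)
(fin 785 6 784)))))))))))))
(mv 1167 (cons (fin 1103 5 911)
(mv 1168 (cons (fin 1231 5 975)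
(mv 1169 (cons (fin 1233 4 976)
(fin 1105 4 912))))))))
(cons (mv 1167 (cons (fin 1103 5 911)
(mv 1231 (cons (fin 1168 5 975)
(mv 847 (cons (fin 911 7 847)
(mv 848 (cons (fin 783 7 783)
(mv 849 (cons (fin 913 6 848)
(fin 785 6 784)))))))))))
(cons (mv 1169 (cons (fin 1105 4 912)
(mv 1233 (cons (fin 1168 4 976)
(mv 847 (cons (fin 911 7 847)
(mv 848 (cons (fin 783 7 783)
(mv 849 (cons (fin 913 6 848)
(fin 785 6 784)))))))))))
(mv 1167 (cons (fin 1103 5 911)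
(mv 1169 (cons (fin 1105 4 912)
(mv 847 (cons (fin 911 7 847)
(mv 848 (cons (fin 783 7 783)
(mv 849 (cons (fin 913 6 848)
(fin 785 6 784)))))))))))))))
(mv 1168 (cons (cons (mv 1231 (cons (fin 1167 5 975)
(mv 1295 (cons (fin 1232 5 1039)
(mv 1169 (cons (fin 1233 4 976)
(mv 975 (cons (fin 911 7 911)
(mv 912 (cons (fin 1105 4 912)
(mv 849 (cons (fin 913 6 848)
(mv 848 (cons (fin 785 6 784)
(mv 783 (cons (fin 847 7 783)
(mv 784 (cons (fin 1039 5 783)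
(fin 719 7 719)))))))))))))))))))
(cons (mv 1231 (cons (fin 1167 5 975)
(mv 1295 (cons (fin 1232 5 1039)
(mv 1169 (cons (fin 1233 4 976)
(mv 912 (cons (fin 1105 4 912)
(mv 847 (cons (fin 911 7 847)
(mv 848 (cons (fin 783 7 783)
(mv 849 (cons (fin 913 6 848)
(fin 785 6 784)))))))))))))))
(mv 1231 (cons (fin 1167 5 975)
(mv 1232 (cons (fin 1295 5 1039)
(mv 975 (cons (fin 1039 7 975)
(fin 911 7 911)))))))))
(cons (mv 1231 (cons (fin 1167 5 975)
(mv 1232 (cons (fin 1295 5 1039)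
(mv 1233 (cons (fin 1297 4 1040)
(fin 1169 4 976)))))))
(cons (mv 1233 (cons (fin 1169 4 976)
(mv 1232 (cons (fin 1297 4 1040)
(mv 975 (cons (fin 1039 7 975)
(fin 911 7 911)))))))
(mv 1231 (cons (fin 1167 5 975)
(mv 1169 (cons (fin 1233 4 976)
(mv 975 (cons (fin 911 7 911)
(mv 912 (cons (fin 1105 4 912)
(mv 849 (cons (fin 913 6 848)
(mv 848 (cons (fin 785 6 784)
(mv 783 (cons (fin 847 7 783)
(mv 784 (cons (fin 1039 5 783)
(fin 719 7 719))))))))))))))))))))))))))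
(mv 1038 (cons (cons (mv 1039 (cons (fin 977 2 973)
(mv 1100 (cons (fin 1101 1 1036)
(mv 1036 (cons (fin 1099 1 1035)
(fin 975 2 972)))))))
(cons (mv 974 (cons (cons (mv 975 (cons (fin 977 1 973)
(mv 1036 (cons (fin 973 1 972)
(fin 1035 2 971)))))
(mv 910 (cons (cons (mv 1101 (cons (fin 846 5 845)
(mv 1165 (cons (fin 1102 5 909)
(fin 1229 6 973)))))
(mv 1102 (cons (cons (mv 1165 (cons (fin 1101 5 909)
(mv 1229 (cons (fin 1166 5 973)
(mv 1167 (cons (fin 1103 4 910)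
(mv 909 (cons (fin 845 7 845)
(mv 911 (cons (fin 847 6 846)
(mv 912 (cons (fin 977 0 909)
(mv 973 (cons (fin 972 1 908)
(fin 913 1 909)))))))))))))))
(mv 1167 (cons (fin 1103 4 910)
(mv 1231 (cons (fin 1166 4 974)
(mv 909 (cons (fin 845 7 845)
(mv 911 (cons (fin 847 6 846)
(mv 912 (cons (fin 977 0 909)
(mv 973 (cons (fin 972 1 908)
(fin 913 1 909))))))))))))))
(cons (mv 1165 (cons (fin 1101 5 909)
(mv 1166 (cons (fin 1229 5 973)
(mv 1167 (cons (fin 1231 4 974)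
(fin 1103 4 910)))))))
(cons (mv 1165 (cons (fin 1101 5 909)
(mv 1229 (cons (fin 1166 5 973)
(mv 909 (cons (fin 845 7 845)
(mv 911 (cons (fin 847 6 846)
(mv 912 (cons (fin 977 0 909)
(mv 973 (cons (fin 972 1 908)
(fin 913 1 909)))))))))))))
(mv 1165 (cons (fin 1101 5 909)
(mv 1167 (cons (fin 1103 4 910)
(mv 909 (cons (fin 845 7 845)
(mv 911 (cons (fin 847 6 846)
(mv 912 (cons (fin 977 0 909)
(mv 973 (cons (fin 972 1 908)
(fin 913 1 909))))))))))))))))))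
(cons (mv 1102 (cons (cons (mv 1167 (cons (fin 1103 4 910)
(mv 1231 (cons (fin 1166 4 974)
(mv 909 (cons (fin 845 7 845)
(mv 911 (cons (fin 847 6 846)
(mv 912 (cons (fin 977 0 909)
(mv 973 (cons (fin 972 1 908)
(fin 913 1 909)))))))))))))
(cons (mv 1167 (cons (fin 1103 4 910)
(mv 1231 (cons (fin 1166 4 974)
(mv 847 (cons (fin 911 6 846)
(mv 846 (cons (fin 783 6 782)
(mv 781 (cons (fin 845 7 781)
(mv 782 (cons (fin 973 5 781)
(fin 717 7 717)))))))))))))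
(mv 1167 (cons (fin 1103 4 910)
(mv 1166 (cons (fin 1231 4 974)
(mv 1229 (cons (fin 1165 5 973)
(mv 973 (cons (fin 909 7 909)
(mv 846 (cons (fin 782 5 781)
(mv 847 (cons (fin 911 6 846)
(fin 783 6 782)))))))))))))))
(cons (cons (mv 1167 (cons (fin 1103 4 910)
(mv 1166 (cons (fin 1231 4 974)
(mv 909 (cons (fin 973 7 909)
(fin 845 7 845)))))))
(mv 909 (cons (fin 845 7 845)
(mv 973 (cons (fin 1166 7 909)
(mv 911 (cons (fin 847 6 846)
(mv 972 (cons (fin 912 1 908)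
(fin 971 2 907))))))))))
(cons (mv 1167 (cons (fin 1103 4 910)
(mv 1231 (cons (fin 1166 4 974)
(mv 845 (cons (fin 909 7 845)
(mv 846 (cons (fin 781 7 781)
(mv 847 (cons (fin 911 6 846)
(fin 783 6 782)))))))))))
(mv 1167 (cons (fin 1103 4 910)
(mv 909 (cons (fin 845 7 845)
(mv 911 (cons (fin 847 6 846)
(mv 912 (cons (fin 977 0 909)
(mv 973 (cons (fin 972 1 908)
(fin 913 1 909)))))))))))))))
(cons (mv 1101 (cons (fin 846 5 845)
(mv 1165 (cons (fin 1229 6 973)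
(fin 973 6 909)))))
(mv 846 (cons (fin 1101 5 845)
(mv 973 (cons (fin 782 5 781)
(mv 845 (cons (fin 781 7 781)
(mv 1102 (cons (fin 909 7 845)
(mv 847 (cons (fin 911 6 846)
(fin 783 6 782))))))))))))))))
(cons (mv 1101 (cons (cons (mv 1165 (cons (fin 1229 6 973)
(mv 910 (cons (fin 1102 5 909)
(fin 846 5 845)))))
(mv 1165 (cons (fin 1229 6 973)
(mv 973 (cons (cons (mv 1228 (cons (fin 1164 5 972)
(mv 1036 (cons (fin 975 1 972)
(mv 1034 (cons (fin 1035 2 970)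
(mv 908 (cons (fin 972 7 908)
(mv 909 (cons (fin 844 7 844)
(mv 1102 (cons (fin 1166 7 909)
(fin 845 4 845)))))))))))))
(cons (mv 1228 (cons (fin 1164 5 972)
(mv 908 (cons (fin 972 7 908)
(mv 909 (cons (fin 844 7 844)
(mv 1102 (cons (fin 1166 7 909)
(fin 845 4 845)))))))))
(mv 1228 (cons (fin 1164 5 972)
(mv 1036 (cons (fin 975 1 972)
(mv 1035 (cons (fin 1034 2 970)
(mv 1098 (cons (fin 1099 1 1034)
(mv 1102 (cons (fin 1103 0 1035)
(mv 909 (cons (fin 1166 7 909)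
(fin 845 4 845)))))))))))))))
(cons (mv 1036 (cons (fin 975 1 972)
(mv 1034 (cons (fin 1035 2 970)
(mv 908 (cons (fin 972 7 908)
(mv 909 (cons (fin 844 7 844)
(mv 1102 (cons (fin 1166 7 909)
(fin 845 4 845)))))))))))
(cons (mv 1228 (cons (fin 1164 5 972)
(mv 1036 (cons (fin 975 1 972)
(mv 1035 (cons (fin 1034 2 970)
(mv 1098 (cons (fin 1099 1 1034)
(mv 1102 (cons (fin 1103 0 1035)
(mv 971 (cons (fin 970 3 970)
(mv 972 (cons (fin 908 7 908)
(mv 907 (cons (fin 906 3 906)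
(mv 843 (cons (fin 1100 4 843)
(fin 779 4 779)))))))))))))))))))
(mv 1228 (cons (fin 1164 5 972)
(mv 1036 (cons (fin 975 1 972)
(mv 1034 (cons (fin 1035 2 970)
(mv 908 (cons (fin 972 7 908)
(mv 909 (cons (fin 844 7 844)
(mv 845 (cons (fin 1100 5 844)
(fin 781 4 781))))))))))))))))))))
(cons (mv 910 (cons (fin 846 5 845)
(mv 1102 (cons (cons (mv 1167 (cons (fin 1103 4 910)
(mv 1231 (cons (fin 1166 4 974)
(mv 909 (cons (fin 845 7 845)
(mv 911 (cons (fin 847 6 846)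
(mv 975 (cons (fin 908 0 908)
(mv 1036 (cons (fin 973 1 972)
(fin 1035 2 971)))))))))))))
(mv 1167 (cons (fin 1103 4 910)
(mv 1166 (cons (fin 1231 4 974)
(mv 911 (cons (fin 975 6 910)
(fin 847 6 846))))))))
(cons (mv 1167 (cons (fin 1103 4 910)
(mv 1166 (cons (fin 1231 4 974)
(mv 909 (cons (fin 973 7 909)
(fin 845 7 845)))))))
(cons (mv 909 (cons (fin 845 7 845)
(mv 1166 (cons (fin 973 7 909)
(mv 911 (cons (fin 975 6 910)
(fin 847 6 846)))))))
(mv 1167 (cons (fin 1103 4 910)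
(mv 909 (cons (fin 845 7 845)
(mv 911 (cons (fin 847 6 846)
(mv 975 (cons (fin 908 0 908)
(mv 1036 (cons (fin 973 1 972)
(fin 1035 2 971)))))))))))))))))
(mv 1165 (cons (fin 1229 6 973)
(mv 910 (cons (fin 846 5 845)
(fin 973 6 909))))))))
(mv 975 (cons (fin 977 1 973)
(mv 1035 (cons (fin 1036 2 971)
(mv 910 (cons (cons (mv 1101 (cons (fin 846 5 845)
(mv 1165 (cons (fin 1102 5 909)
(fin 1229 6 973)))))
(mv 1102 (cons (mv 911 (cons (fin 1166 6 910)
(fin 847 6 846)))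
(cons (mv 1165 (cons (fin 1101 5 909)
(mv 1166 (cons (fin 1229 5 973)
(mv 1167 (cons (fin 1231 4 974)
(fin 1103 4 910)))))))
(mv 1165 (cons (fin 1101 5 909)
(mv 1167 (cons (fin 1103 4 910)
(mv 909 (cons (fin 845 7 845)
(mv 908 (cons (fin 907 0 907)
(fin 911 0 908)))))))))))))
(cons (mv 909 (cons (mv 908 (cons (fin 907 0 907)
(fin 911 0 908)))
(cons (mv 1102 (cons (fin 845 7 845)
(mv 911 (cons (fin 1166 6 910)
(fin 847 6 846)))))
(mv 907 (cons (fin 908 0 907)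
(mv 845 (cons (fin 1102 7 845)
(mv 781 (cons (fin 846 7 781)
(fin 717 4 717))))))))))
(mv 846 (cons (fin 1101 5 845)
(mv 845 (cons (fin 781 7 781)
(mv 783 (cons (fin 847 6 782)
(mv 782 (cons (fin 719 6 718)
(mv 911 (cons (fin 718 4 718)
(mv 909 (cons (fin 908 0 908)
(mv 912 (cons (fin 844 3 844)
(fin 913 3 845)))))))))))))))))))))))))
(mv 1039 (cons (cons (mv 1100 (cons (fin 1101 1 1036)
(mv 1036 (cons (fin 1099 1 1035)
(fin 975 2 972)))))
(mv 1101 (cons (fin 1100 1 1036)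
(mv 973 (cons (fin 972 3 972)
(mv 909 (cons (mv 1102 (cons (fin 1166 4 909)
(fin 845 4 845)))
(mv 908 (cons (fin 844 7 844)
(mv 974 (cons (fin 975 3 908)
(mv 1165 (cons (fin 1229 6 973)
(fin 910 6 909))))))))))))))
(cons (mv 1036 (cons (fin 975 2 972)
(mv 972 (cons (fin 971 3 971)
(fin 973 3 972)))))
(mv 1100 (cons (fin 1101 1 1036)
(mv 1036 (cons (fin 1099 1 1035)
(mv 972 (cons (fin 971 3 971)
(fin 973 3 972))))))))))))
(cons (mv 1039 (cons (fin 977 2 973)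
(mv 1100 (cons (fin 1101 1 1036)
(mv 1036 (cons (fin 1099 1 1035)
(mv 972 (cons (fin 971 3 971)
(fin 973 3 972)))))))))
(cons (mv 1039 (cons (fin 977 2 973)
(mv 1101 (cons (fin 1100 1 1036)
(mv 973 (cons (fin 972 3 972)
(mv 909 (cons (mv 1102 (cons (fin 1166 4 909)
(fin 845 4 845)))
(mv 908 (cons (fin 844 7 844)
(mv 974 (cons (fin 975 3 908)
(mv 1165 (cons (fin 1229 6 973)
(fin 910 6 909)))))))))))))))
(mv 1039 (cons (fin 977 2 973)
(mv 1036 (cons (fin 975 2 972)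
(mv 972 (cons (fin 971 3 971)
(fin 973 3 972))))))))))))
(cons (mv 1038 (cons (cons (mv 1039 (cons (fin 977 2 973)
(mv 1100 (cons (fin 1101 1 1036)
(mv 1036 (cons (fin 1099 1 1035)
(fin 975 2 972)))))))
(cons (mv 974 (cons (cons (mv 975 (cons (fin 977 1 973)
(mv 1036 (cons (fin 973 1 972)
(fin 1035 2 971)))))
(mv 1101 (cons (cons (mv 1165 (cons (fin 1229 6 973)
(mv 910 (cons (fin 1102 5 909)
(fin 846 5 845)))))
(mv 1165 (cons (fin 1229 6 973)
(mv 973 (cons (cons (mv 1228 (cons (fin 1164 5 972)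
(mv 908 (cons (fin 972 7 908)
(mv 909 (cons (fin 844 7 844)
(mv 1102 (cons (fin 1166 7 909)
(fin 845 4 845)))))))))
(mv 908 (cons (fin 972 7 908)
(mv 909 (cons (fin 844 7 844)
(mv 1102 (cons (fin 1166 7 909)
(fin 845 4 845))))))))
(cons (mv 1164 (cons (fin 1228 5 972)
(mv 909 (cons (fin 1100 5 908)
(mv 1102 (cons (fin 1166 7 909)
(fin 845 4 845)))))))
(mv 1164 (cons (fin 1228 5 972)
(mv 972 (cons (fin 908 7 908)
(mv 971 (cons (fin 970 0 970)
(mv 1035 (cons (fin 1034 1 970)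
(mv 907 (cons (fin 906 3 906)
(mv 1100 (cons (fin 1036 7 907)
(fin 1099 4 907)))))))))))))))))))
(cons (mv 910 (cons (fin 846 5 845)
(mv 1102 (cons (mv 1167 (cons (fin 1103 4 910)
(mv 1166 (cons (fin 1231 4 974)
(mv 909 (cons (fin 973 7 909)
(fin 845 7 845)))))))
(cons (mv 909 (cons (fin 845 7 845)
(mv 973 (cons (fin 1166 7 909)
(mv 1164 (cons (fin 1100 5 908)
(mv 908 (cons (fin 844 7 844)
(mv 907 (cons (fin 906 0 906)
(mv 971 (cons (fin 970 1 906)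
(mv 911 (cons (fin 972 1 907)
(fin 847 6 846)))))))))))))))
(mv 1103 (cons (fin 1167 4 910)
(mv 1104 (cons (fin 1036 3 1036)
(fin 1105 3 1037))))))))))
(mv 1165 (cons (fin 1229 6 973)
(mv 910 (cons (fin 846 5 845)
(fin 973 6 909)))))))))
(cons (mv 975 (cons (fin 977 1 973)
(mv 1101 (cons (cons (mv 1165 (cons (fin 1229 6 973)
(mv 910 (cons (fin 1102 5 909)
(fin 846 5 845)))))
(mv 1165 (cons (fin 1229 6 973)
(mv 973 (cons (mv 908 (cons (fin 909 3 908)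
(fin 972 7 908)))
(cons (mv 1164 (cons (fin 1228 5 972)
(mv 1100 (cons (fin 909 5 908)
(mv 1099 (cons (fin 1098 2 1034)
(mv 1166 (cons (fin 1167 3 1099)
(mv 1102 (cons (fin 911 6 910)
(mv 1163 (cons (fin 1162 1 1098)
(fin 1103 1 1099)))))))))))))
(mv 1164 (cons (fin 1228 5 972)
(mv 972 (cons (fin 908 7 908)
(mv 971 (cons (fin 970 0 970)
(mv 1035 (cons (fin 1034 1 970)
(mv 907 (cons (fin 906 3 906)
(mv 1099 (cons (fin 1100 4 907)
(mv 1162 (cons (fin 1098 5 906)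
(mv 1163 (cons (fin 1102 2 1098)
(fin 1226 5 970)))))))))))))))))))))))
(cons (mv 910 (cons (fin 846 5 845)
(mv 909 (cons (mv 908 (cons (fin 973 3 908)
(fin 907 0 907)))
(cons (mv 1102 (cons (fin 845 7 845)
(mv 1166 (cons (fin 973 7 909)
(fin 911 6 910)))))
(mv 908 (cons (fin 907 0 907)
(fin 911 0 908))))))))
(mv 1165 (cons (fin 1229 6 973)
(mv 910 (cons (fin 846 5 845)
(fin 973 6 909))))))))))
(cons (mv 975 (cons (fin 977 1 973)
(mv 1035 (cons (fin 1036 2 971)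
(mv 910 (cons (cons (mv 1101 (cons (fin 846 5 845)
(mv 1165 (cons (fin 1102 5 909)
(fin 1229 6 973)))))
(mv 1102 (cons (mv 911 (cons (fin 1166 6 910)
(fin 847 6 846)))
(cons (mv 1165 (cons (fin 1101 5 909)
(mv 1166 (cons (fin 1229 5 973)
(mv 1167 (cons (fin 1231 4 974)
(fin 1103 4 910)))))))
(mv 1165 (cons (fin 1101 5 909)
(mv 1167 (cons (fin 1103 4 910)
(mv 909 (cons (fin 845 7 845)
(mv 908 (cons (fin 907 0 907)
(fin 911 0 908)))))))))))))
(cons (mv 909 (cons (mv 908 (cons (fin 907 0 907)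
(fin 911 0 908)))
(cons (mv 1102 (cons (fin 845 7 845)
(mv 911 (cons (fin 1166 6 910)
(fin 847 6 846)))))
(mv 907 (cons (fin 908 0 907)
(mv 845 (cons (fin 1102 7 845)
(mv 781 (cons (fin 846 7 781)
(fin 717 4 717))))))))))
(mv 846 (cons (fin 1101 5 845)
(mv 845 (cons (fin 781 7 781)
(mv 783 (cons (fin 847 6 782)
(mv 782 (cons (fin 719 6 718)
(mv 843 (cons (fin 844 2 779)
(mv 784 (cons (fin 785 1 781)
(mv 718 (cons (fin 911 4 718)
(mv 653 (cons (fin 717 7 653)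
(mv 654 (cons (fin 909 5 653)
(fin 589 7 589))))))))))))))))))))))))))
(mv 975 (cons (fin 977 1 973)
(mv 973 (cons (fin 1036 1 972)
(mv 908 (cons (fin 909 3 908)
(mv 972 (cons (fin 907 3 907)
(mv 1101 (cons (fin 1165 7 908)
(mv 971 (cons (fin 970 0 970)
(mv 910 (cons (fin 911 2 907)
(fin 846 5 845)))))))))))))))))))
(mv 1039 (cons (cons (mv 1100 (cons (fin 1101 1 1036)
(mv 1036 (cons (fin 1099 1 1035)
(fin 975 2 972)))))
(mv 1100 (cons (fin 1101 1 1036)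
(mv 1104 (cons (fin 1105 0 1037)
(mv 973 (cons (fin 972 3 972)
(mv 1168 (cons (mv 975 (cons (fin 1232 7 975)
(fin 911 7 911)))
(cons (mv 1231 (cons (fin 1167 5 975)
(mv 1232 (cons (fin 1295 5 1039)
(mv 1233 (cons (fin 1297 4 1040)
(fin 1169 4 976)))))))
(mv 1167 (cons (fin 1231 5 975)
(mv 1169 (cons (fin 1233 4 976)
(mv 975 (cons (fin 911 7 911)
(mv 1170 (cons (mv 1103 (cons (fin 1102 3 1102)
(fin 1171 3 1103)))
(cons (mv 1235 (cons (fin 1234 0 1167)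
(mv 1171 (cons (fin 1236 0 1168)
(mv 1107 (cons (fin 1106 2 1103)
(fin 1108 2 1104)))))))
(mv 1234 (cons (fin 1235 0 1167)
(mv 1102 (cons (fin 1103 3 1102)
(mv 1106 (cons (fin 1107 2 1103)
(mv 909 (cons (fin 845 4 845)
(mv 974 (cons (fin 908 3 908)
(fin 1166 7 909))))))))))))))))))))))))))))))
(cons (mv 1104 (cons (fin 1105 0 1037)
(mv 1036 (cons (fin 1103 0 1036)
(fin 975 2 972)))))
(mv 1100 (cons (fin 1101 1 1036)
(mv 1104 (cons (fin 1105 0 1037)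
(mv 1036 (cons (fin 1099 1 1035)
(fin 1103 0 1036))))))))))))
(cons (mv 1039 (cons (fin 977 2 973)
(mv 1100 (cons (fin 1101 1 1036)
(mv 1104 (cons (fin 1105 0 1037)
(mv 1036 (cons (fin 1099 1 1035)
(fin 1103 0 1036)))))))))
(cons (mv 1039 (cons (fin 977 2 973)
(mv 1100 (cons (fin 1101 1 1036)
(mv 1104 (cons (fin 1105 0 1037)
(mv 973 (cons (fin 972 3 972)
(mv 1168 (cons (mv 975 (cons (fin 1232 7 975)
(fin 911 7 911)))
(cons (mv 1231 (cons (fin 1167 5 975)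
(mv 1232 (cons (fin 1295 5 1039)
(mv 1233 (cons (fin 1297 4 1040)
(fin 1169 4 976)))))))
(mv 1167 (cons (fin 1231 5 975)
(mv 1169 (cons (fin 1233 4 976)
(mv 975 (cons (fin 911 7 911)
(mv 1170 (cons (mv 1103 (cons (fin 1102 3 1102)
(fin 1171 3 1103)))
(cons (mv 1235 (cons (fin 1234 0 1167)
(mv 1171 (cons (fin 1236 0 1168)
(mv 1107 (cons (fin 1106 2 1103)
(fin 1108 2 1104)))))))
(mv 1234 (cons (fin 1235 0 1167)
(mv 1102 (cons (fin 1103 3 1102)
(mv 1106 (cons (fin 1107 2 1103)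
(mv 909 (cons (fin 845 4 845)
(mv 974 (cons (fin 908 3 908)
(fin 1166 7 909)))))))))))))))))))))))))))))))
(mv 1039 (cons (fin 977 2 973)
(mv 1104 (cons (fin 1105 0 1037)
(mv 1036 (cons (fin 1103 0 1036)
(fin 975 2 972)))))))))))
(mv 1039 (cons (cons (mv 1038 (cons (fin 977 2 973)
(mv 1100 (cons (fin 1101 1 1036)
(mv 1104 (cons (fin 1105 0 1037)
(mv 1036 (cons (fin 1099 1 1035)
(fin 1103 0 1036)))))))))
(mv 912 (cons (cons (mv 1103 (cons (fin 848 5 847)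
(mv 1167 (cons (fin 1104 5 911)
(fin 1231 6 975)))))
(mv 1104 (cons (cons (mv 1167 (cons (fin 1103 5 911)
(mv 1168 (cons (fin 1231 5 975)
(mv 1169 (cons (fin 1233 4 976)
(fin 1105 4 912)))))))
(mv 1169 (cons (fin 1105 4 912)
(mv 1168 (cons (fin 1233 4 976)
(mv 913 (cons (fin 977 6 912)
(fin 849 6 848))))))))
(cons (mv 1167 (cons (fin 1103 5 911)
(mv 1168 (cons (fin 1231 5 975)
(mv 913 (cons (fin 977 6 912)
(fin 849 6 848)))))))
(mv 1103 (cons (fin 1167 5 911)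
(mv 1105 (cons (fin 1169 4 912)
(mv 1106 (cons (fin 1107 3 1039)
(mv 1170 (cons (fin 1171 0 1103)
(mv 1042 (cons (fin 1043 2 1039)
(mv 911 (cons (fin 847 7 847)
(mv 913 (cons (fin 849 6 848)
(mv 978 (cons (fin 977 7 913)
(mv 979 (cons (fin 914 0 911)
(fin 915 6 914)))))))))))))))))))))))
(cons (mv 847 (cons (cons (mv 1104 (cons (fin 911 7 847)
(mv 1169 (cons (fin 1105 4 912)
(mv 1233 (cons (fin 1168 4 976)
(mv 848 (cons (fin 783 7 783)
(mv 849 (cons (fin 913 6 848)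
(fin 785 6 784)))))))))))
(mv 848 (cons (fin 783 7 783)
(mv 849 (cons (fin 785 6 784)
(mv 846 (cons (mv 913 (cons (fin 845 0 845)
(fin 914 0 846)))
(cons (mv 909 (cons (fin 910 1 845)
(mv 845 (cons (fin 908 1 844)
(mv 781 (cons (fin 780 3 780)
(fin 782 3 781)))))))
(mv 909 (cons (fin 910 1 845)
(mv 914 (cons (fin 913 0 846)
(mv 850 (cons (fin 915 0 847)
(mv 851 (cons (fin 911 1 847)
(mv 787 (cons (fin 786 2 783)
(fin 788 2 784)))))))))))))))))))
(cons (mv 1104 (cons (fin 911 7 847)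
(mv 1169 (cons (fin 1105 4 912)
(mv 1168 (cons (fin 1233 4 976)
(mv 913 (cons (fin 977 6 912)
(fin 849 6 848)))))))))
(cons (mv 848 (cons (fin 783 7 783)
(mv 849 (cons (fin 785 6 784)
(mv 913 (cons (fin 1104 6 848)
(mv 914 (cons (fin 915 3 847)
(fin 846 0 846)))))))))
(mv 911 (cons (fin 1104 7 847)
(mv 783 (cons (fin 848 7 783)
(fin 719 4 719)))))))))
(mv 848 (cons (fin 1103 5 847)
(mv 783 (cons (fin 847 7 783)
(mv 784 (cons (fin 719 7 719)
(mv 785 (cons (fin 849 6 784)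
(fin 721 6 720)))))))))))))
(cons (mv 1038 (cons (cons (mv 1100 (cons (fin 1101 1 1036)
(mv 1104 (cons (fin 1105 0 1037)
(mv 1036 (cons (fin 1099 1 1035)
(fin 1103 0 1036)))))))
(mv 1100 (cons (fin 1101 1 1036)
(mv 1036 (cons (fin 1099 1 1035)
(mv 972 (cons (fin 971 3 971)
(fin 973 3 972))))))))
(cons (mv 1104 (cons (fin 1105 0 1037)
(mv 1103 (cons (fin 1036 0 1036)
(mv 1167 (cons (fin 912 5 911)
(fin 1231 6 975)))))))
(mv 1100 (cons (fin 1101 1 1036)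
(mv 1104 (cons (fin 1105 0 1037)
(mv 972 (cons (fin 973 3 972)
(mv 912 (cons (mv 1103 (cons (fin 1167 5 911)
(fin 848 5 847)))
(cons (mv 847 (cons (fin 911 7 847)
(mv 848 (cons (fin 783 7 783)
(mv 849 (cons (fin 913 6 848)
(fin 785 6 784)))))))
(mv 911 (cons (fin 847 7 847)
(mv 913 (cons (fin 849 6 848)
(mv 1168 (cons (cons (mv 1167 (cons (fin 1231 5 975)
(fin 1103 5 911)))
(mv 1233 (cons (fin 1169 4 976)
(mv 1232 (cons (fin 1297 4 1040)
(mv 1295 (cons (fin 1231 5 1039)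
(mv 1296 (cons (fin 1359 5 1103)
(fin 1103 7 1039))))))))))
(cons (mv 1231 (cons (fin 1167 5 975)
(mv 1232 (cons (fin 1295 5 1039)
(mv 1233 (cons (fin 1297 4 1040)
(fin 1169 4 976)))))))
(mv 1233 (cons (fin 1169 4 976)
(mv 1232 (cons (fin 1297 4 1040)
(mv 1103 (cons (fin 1167 5 911)
(fin 1296 7 1039))))))))))))))))))))))))))
(cons (mv 1038 (cons (fin 977 2 973)
(mv 1100 (cons (fin 1101 1 1036)
(mv 1104 (cons (fin 1105 0 1037)
(mv 1036 (cons (fin 1099 1 1035)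
(mv 972 (cons (fin 971 3 971)
(fin 973 3 972)))))))))))
(mv 1038 (cons (fin 977 2 973)
(mv 1100 (cons (fin 1101 1 1036)
(mv 1036 (cons (fin 1099 1 1035)
(mv 972 (cons (fin 971 3 971)
(fin 973 3 972))))))))))))))))
(cons (cons (mv 975 (cons (cons (mv 1038 (cons (cons (mv 1039 (cons (fin 1036 2 972)
(fin 977 2 973)))
(mv 974 (cons (fin 977 1 973)
(mv 1036 (cons (fin 973 1 972)
(fin 1035 2 971))))))
(cons (mv 1036 (cons (fin 1039 2 972)
(mv 974 (cons (fin 973 1 972)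
(fin 1035 2 971)))))
(mv 977 (cons (fin 974 1 973)
(fin 1039 2 973))))))
(cons (mv 974 (cons (cons (mv 973 (cons (fin 1036 1 972)
(mv 1039 (cons (fin 972 0 972)
(mv 908 (cons (fin 909 3 908)
(mv 912 (cons (fin 913 2 909)
(mv 848 (cons (fin 784 5 783)
(mv 847 (cons (fin 783 7 783)
(mv 1104 (cons (fin 911 7 847)
(mv 1168 (cons (fin 1232 7 975)
(mv 1169 (cons (fin 1233 4 976)
(fin 1105 4 912)))))))))))))))))))
(cons (mv 977 (cons (cons (mv 909 (cons (fin 910 3 909)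
(mv 913 (cons (fin 914 2 910)
(mv 1104 (cons (fin 1168 6 912)
(mv 849 (cons (fin 785 5 784)
(fin 912 6 848)))))))))
(mv 910 (cons (fin 909 3 909)
(mv 978 (cons (fin 911 3 910)
(mv 1042 (cons (fin 1043 0 975)
(mv 979 (cons (fin 1039 1 975)
(mv 915 (cons (fin 914 2 911)
(fin 916 2 912))))))))))))
(cons (mv 913 (cons (fin 914 2 910)
(mv 1104 (cons (fin 1168 6 912)
(mv 849 (cons (fin 785 5 784)
(fin 912 6 848)))))))
(mv 910 (cons (fin 909 3 909)
(mv 978 (cons (fin 911 3 910)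
(mv 1043 (cons (fin 1042 0 975)
(mv 979 (cons (fin 1039 1 975)
(fin 1044 0 976))))))))))))
(mv 973 (cons (fin 1036 1 972)
(mv 1039 (cons (fin 972 0 972)
(mv 909 (cons (fin 908 3 908)
(mv 977 (cons (fin 910 3 909)
(mv 913 (cons (fin 912 2 909)
(fin 914 2 910)))))))))))))
(cons (mv 973 (cons (fin 1036 1 972)
(mv 1039 (cons (fin 972 0 972)
(mv 909 (cons (fin 908 3 908)
(mv 910 (cons (fin 977 3 909)
(mv 1101 (cons (fin 1165 6 909)
(fin 846 6 845)))))))))))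
(cons (mv 973 (cons (fin 1036 1 972)
(mv 1039 (cons (fin 972 0 972)
(mv 912 (cons (fin 913 2 909)
(mv 848 (cons (fin 784 5 783)
(mv 847 (cons (fin 783 7 783)
(mv 1104 (cons (fin 911 7 847)
(mv 1168 (cons (fin 1232 7 975)
(mv 1169 (cons (fin 1233 4 976)
(fin 1105 4 912)))))))))))))))))
(mv 973 (cons (fin 1036 1 972)
(mv 908 (cons (fin 909 3 908)
(mv 972 (cons (fin 907 3 907)
(mv 912 (cons (fin 911 2 908)
(fin 913 2 909)))))))))))))
(mv 974 (cons (mv 1036 (cons (fin 973 1 972)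
(mv 1038 (cons (fin 977 1 973)
(fin 1035 2 971)))))
(cons (mv 977 (cons (fin 1038 1 973)
(mv 909 (cons (fin 910 3 909)
(mv 913 (cons (fin 914 2 910)
(mv 1104 (cons (fin 1168 6 912)
(mv 849 (cons (fin 785 5 784)
(fin 912 6 848)))))))))))
(mv 973 (cons (fin 1036 1 972)
(mv 908 (cons (fin 909 3 908)
(mv 972 (cons (fin 907 3 907)
(mv 912 (cons (fin 911 2 908)
(fin 913 2 909))))))))))))))
(cons (mv 1104 (cons (cons (mv 1168 (cons (fin 911 7 911)
(mv 1231 (cons (fin 1167 5 975)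
(mv 1232 (cons (fin 1295 5 1039)
(fin 1039 7 975)))))))
(mv 912 (cons (cons (mv 1169 (cons (fin 1105 4 912)
(mv 911 (cons (fin 847 7 847)
(mv 913 (cons (fin 849 6 848)
(mv 974 (cons (fin 914 1 910)
(fin 973 2 909)))))))))
(cons (mv 1169 (cons (fin 1105 4 912)
(mv 913 (cons (fin 849 6 848)
(mv 974 (cons (fin 973 2 909)
(mv 914 (cons (fin 911 1 910)
(fin 915 1 911)))))))))
(mv 1169 (cons (fin 1105 4 912)
(mv 849 (cons (fin 913 6 848)
(mv 848 (cons (fin 785 6 784)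
(mv 783 (cons (fin 847 7 783)
(mv 784 (cons (fin 1039 5 783)
(fin 719 7 719)))))))))))))
(cons (mv 1169 (cons (fin 1105 4 912)
(mv 847 (cons (fin 911 7 847)
(mv 848 (cons (fin 783 7 783)
(mv 784 (cons (fin 1039 5 783)
(mv 785 (cons (fin 849 6 784)
(fin 721 6 720)))))))))))
(cons (mv 911 (cons (fin 847 7 847)
(mv 913 (cons (fin 849 6 848)
(mv 974 (cons (fin 914 1 910)
(fin 973 2 909)))))))
(mv 1169 (cons (fin 1105 4 912)
(mv 847 (cons (fin 911 7 847)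
(mv 848 (cons (fin 783 7 783)
(mv 1039 (cons (fin 784 5 783)
(mv 1038 (cons (fin 1036 2 972)
(mv 1100 (cons (fin 1101 1 1036)
(mv 973 (cons (fin 972 3 972)
(mv 974 (cons (fin 913 2 909)
(mv 909 (cons (fin 908 3 908)
(mv 1102 (cons (fin 1166 7 909)
(fin 845 4 845))))))))))))))))))))))))))
(cons (mv 1039 (cons (mv 1038 (cons (fin 1105 0 1037)
(fin 1036 2 972)))
(cons (mv 1168 (cons (fin 1232 7 975)
(mv 1231 (cons (fin 1167 5 975)
(mv 1169 (cons (fin 1233 4 976)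
(mv 912 (cons (fin 1105 4 912)
(mv 848 (cons (fin 784 5 783)
(mv 849 (cons (fin 913 6 848)
(fin 785 6 784)))))))))))))
(mv 1168 (cons (fin 1232 7 975)
(mv 1167 (cons (fin 1231 5 975)
(mv 1169 (cons (fin 1233 4 976)
(mv 1038 (cons (fin 1036 2 972)
(mv 1101 (cons (fin 1100 1 1036)
(mv 1102 (cons (fin 1166 3 1101)
(mv 973 (cons (fin 972 3 972)
(mv 909 (cons (fin 845 4 845)
(mv 908 (cons (fin 974 3 908)
(fin 844 7 844))))))))))))))))))))))
(mv 1168 (cons (fin 911 7 911)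
(mv 1231 (cons (fin 1167 5 975)
(mv 1232 (cons (fin 1295 5 1039)
(mv 1233 (cons (fin 1297 4 1040)
(fin 1169 4 976))))))))))))
(cons (mv 1104 (cons (cons (mv 1168 (cons (fin 911 7 911)
(mv 1231 (cons (fin 1167 5 975)
(mv 1232 (cons (fin 1295 5 1039)
(fin 1039 7 975)))))))
(mv 912 (cons (cons (mv 1169 (cons (fin 1105 4 912)
(mv 911 (cons (fin 847 7 847)
(mv 913 (cons (fin 849 6 848)
(mv 914 (cons (fin 915 1 911)
(mv 978 (cons (fin 979 0 911)
(mv 910 (cons (fin 977 3 910)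
(mv 909 (cons (fin 908 0 908)
(mv 845 (cons (fin 844 3 844)
(fin 846 3 845)))))))))))))))))
(mv 1169 (cons (fin 1105 4 912)
(mv 849 (cons (fin 913 6 848)
(mv 848 (cons (fin 785 6 784)
(mv 1039 (cons (fin 784 5 783)
(mv 1038 (cons (fin 1036 2 972)
(fin 977 2 973))))))))))))
(cons (mv 1169 (cons (fin 1105 4 912)
(mv 847 (cons (fin 911 7 847)
(mv 848 (cons (fin 783 7 783)
(mv 1039 (cons (fin 784 5 783)
(mv 1038 (cons (fin 1036 2 972)
(fin 977 2 973)))))))))))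
(cons (mv 911 (cons (fin 847 7 847)
(mv 913 (cons (fin 849 6 848)
(mv 914 (cons (fin 915 1 911)
(mv 978 (cons (fin 979 0 911)
(mv 910 (cons (fin 977 3 910)
(mv 909 (cons (fin 908 0 908)
(mv 845 (cons (fin 844 3 844)
(fin 846 3 845)))))))))))))))
(mv 1169 (cons (fin 1105 4 912)
(mv 911 (cons (fin 847 7 847)
(mv 849 (cons (fin 913 6 848)
(mv 848 (cons (fin 785 6 784)
(mv 784 (cons (fin 1039 5 783)
(fin 720 5 719))))))))))))))))
(cons (mv 1039 (cons (mv 1038 (cons (fin 1105 0 1037)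
(fin 1036 2 972)))
(cons (mv 1168 (cons (fin 1232 7 975)
(mv 1231 (cons (fin 1167 5 975)
(mv 1169 (cons (fin 1233 4 976)
(mv 1105 (cons (fin 912 4 912)
(mv 1106 (cons (fin 1107 3 1039)
(mv 977 (cons (fin 913 6 912)
(mv 978 (cons (fin 979 1 975)
(mv 1042 (cons (fin 1043 0 975)
(fin 914 5 913)))))))))))))))))
(mv 1038 (cons (fin 1036 2 972)
(fin 977 2 973))))))
(mv 1168 (cons (fin 911 7 911)
(mv 1231 (cons (fin 1167 5 975)
(mv 1295 (cons (fin 1232 5 1039)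
(mv 1169 (cons (fin 1233 4 976)
(mv 912 (cons (fin 1105 4 912)
(mv 913 (cons (fin 977 6 912)
(fin 849 6 848))))))))))))))))
(mv 977 (cons (cons (mv 1038 (cons (fin 974 1 973)
(fin 1039 2 973)))
(mv 978 (cons (cons (mv 1039 (cons (fin 979 1 975)
(mv 1042 (cons (fin 1043 0 975)
(mv 910 (cons (fin 911 3 910)
(mv 974 (cons (fin 909 3 909)
(mv 914 (cons (fin 913 2 910)
(fin 915 2 911)))))))))))
(cons (mv 1039 (cons (fin 979 1 975)
(mv 1042 (cons (fin 1043 0 975)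
(mv 914 (cons (fin 915 2 911)
(mv 974 (cons (fin 913 2 910)
(mv 973 (cons (fin 972 0 972)
(mv 909 (cons (fin 908 3 908)
(fin 910 3 909)))))))))))))
(mv 1042 (cons (fin 1043 0 975)
(mv 910 (cons (fin 911 3 910)
(mv 974 (cons (fin 909 3 909)
(mv 914 (cons (fin 913 2 910)
(fin 915 2 911)))))))))))
(cons (mv 1039 (cons (fin 979 1 975)
(mv 1042 (cons (fin 1043 0 975)
(mv 911 (cons (fin 910 3 910)
(mv 1104 (cons (fin 1168 7 911)
(fin 847 4 847)))))))))
(cons (mv 1039 (cons (fin 979 1 975)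
(mv 1042 (cons (fin 1043 0 975)
(mv 914 (cons (fin 915 2 911)
(mv 913 (cons (fin 974 2 910)
(mv 1106 (cons (fin 1170 7 913)
(fin 849 7 849)))))))))))
(mv 1039 (cons (fin 979 1 975)
(mv 910 (cons (fin 911 3 910)
(mv 974 (cons (fin 909 3 909)
(mv 914 (cons (fin 913 2 910)
(fin 915 2 911))))))))))))))
(cons (mv 974 (cons (fin 1038 1 973)
(mv 909 (cons (fin 910 3 909)
(mv 973 (cons (fin 908 3 908)
(mv 913 (cons (fin 912 2 909)
(fin 914 2 910)))))))))
(mv 1039 (cons (fin 1038 2 973)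
(mv 978 (cons (fin 979 1 975)
(mv 1042 (cons (fin 1043 0 975)
(mv 911 (cons (fin 910 3 910)
(mv 1104 (cons (fin 1168 7 911)
(fin 847 4 847))))))))))))))))))
(cons (mv 1039 (cons (cons (mv 1038 (cons (fin 977 2 973)
(mv 1100 (cons (fin 1101 1 1036)
(mv 1036 (cons (fin 1099 1 1035)
(fin 975 2 972)))))))
(cons (mv 1103 (cons (cons (mv 1167 (cons (fin 1231 6 975)
(mv 912 (cons (fin 1104 5 911)
(fin 848 5 847)))))
(mv 912 (cons (fin 848 5 847)
(mv 1104 (cons (cons (mv 1169 (cons (fin 1105 4 912)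
(mv 1168 (cons (fin 1233 4 976)
(mv 1232 (cons (fin 1296 7 1039)
(fin 975 7 975)))))))
(mv 913 (cons (fin 849 6 848)
(mv 1168 (cons (fin 977 6 912)
(mv 1232 (cons (fin 1296 7 1039)
(fin 975 7 975))))))))
(cons (mv 1105 (cons (fin 1169 4 912)
(mv 1106 (cons (fin 1107 3 1039)
(mv 1170 (cons (fin 1171 0 1103)
(mv 1042 (cons (fin 1043 2 1039)
(mv 913 (cons (fin 849 6 848)
(mv 978 (cons (fin 977 7 913)
(mv 915 (cons (fin 979 6 914)
(mv 914 (cons (fin 975 1 911)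
(fin 851 6 850)))))))))))))))))
(mv 1169 (cons (fin 1105 4 912)
(mv 1168 (cons (fin 1233 4 976)
(mv 913 (cons (fin 977 6 912)
(fin 849 6 848)))))))))))))
(cons (mv 1167 (cons (fin 1231 6 975)
(mv 1168 (cons (mv 1232 (cons (fin 975 4 975)
(mv 1296 (cons (fin 1360 7 1103)
(fin 1104 7 1039)))))
(cons (mv 1169 (cons (cons (mv 1233 (cons (fin 1104 4 976)
(mv 1234 (cons (fin 1166 0 1166)
(mv 1235 (cons (fin 1236 3 1168)
(fin 1170 0 1167)))))))
(mv 1170 (cons (fin 1102 3 1102)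
(mv 1234 (cons (fin 1235 0 1167)
(mv 1233 (cons (fin 1166 0 1166)
(mv 1106 (cons (fin 1107 2 1103)
(mv 1297 (cons (fin 1042 5 1041)
(fin 1361 6 1105))))))))))))
(cons (mv 1233 (cons (fin 1104 4 976)
(mv 1166 (cons (fin 1234 0 1166)
(mv 1101 (cons (fin 1102 3 1101)
(mv 1165 (cons (fin 1100 3 1100)
(mv 1228 (cons (fin 1229 1 1164)
(mv 1164 (cons (fin 1227 1 1163)
(fin 973 5 972)))))))))))))
(cons (mv 1170 (cons (fin 1102 3 1102)
(mv 1234 (cons (fin 1235 0 1167)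
(mv 1171 (cons (fin 1104 3 1103)
(mv 1107 (cons (fin 1106 2 1103)
(fin 1108 2 1104)))))))))
(mv 1233 (cons (fin 1104 4 976)
(mv 1170 (cons (fin 1102 3 1102)
(mv 1106 (cons (fin 1107 2 1103)
(mv 1297 (cons (fin 1361 6 1105)
(mv 1105 (cons (fin 1166 2 1102)
(fin 1042 6 1041)))))))))))))))
(mv 975 (cons (fin 1232 4 975)
(mv 974 (cons (fin 910 7 910)
(mv 973 (cons (fin 1036 1 972)
(fin 972 0 972))))))))))))
(mv 1167 (cons (fin 1231 6 975)
(mv 912 (cons (fin 848 5 847)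
(fin 975 6 911))))))))
(mv 1038 (cons (cons (mv 1100 (cons (fin 1101 1 1036)
(mv 1036 (cons (fin 1099 1 1035)
(fin 975 2 972)))))
(mv 1100 (cons (fin 1101 1 1036)
(mv 1104 (cons (fin 1105 0 1037)
(mv 972 (cons (fin 973 3 972)
(mv 912 (cons (mv 1103 (cons (fin 1167 5 911)
(fin 848 5 847)))
(cons (mv 849 (cons (fin 913 6 848)
(mv 848 (cons (fin 785 6 784)
(mv 783 (cons (fin 847 7 783)
(mv 784 (cons (fin 975 5 783)
(fin 719 7 719)))))))))
(mv 1167 (cons (fin 1103 5 911)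
(mv 1168 (cons (fin 1231 5 975)
(mv 1232 (cons (fin 975 7 975)
(mv 1233 (cons (fin 1297 4 1040)
(fin 1169 4 976)))))))))))))))))))
(cons (mv 1104 (cons (fin 1105 0 1037)
(mv 1036 (cons (fin 1103 0 1036)
(fin 975 2 972)))))
(mv 1100 (cons (fin 1101 1 1036)
(mv 1104 (cons (fin 1105 0 1037)
(mv 1036 (cons (fin 1099 1 1035)
(fin 1103 0 1036))))))))))))
(cons (mv 1038 (cons (fin 977 2 973)
(mv 1100 (cons (fin 1101 1 1036)
(mv 1104 (cons (fin 1105 0 1037)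
(mv 1036 (cons (fin 1099 1 1035)
(fin 1103 0 1036)))))))))
(cons (mv 1038 (cons (fin 977 2 973)
(mv 1100 (cons (fin 1101 1 1036)
(mv 1104 (cons (fin 1105 0 1037)
(mv 972 (cons (fin 973 3 972)
(mv 912 (cons (mv 1103 (cons (fin 1167 5 911)
(fin 848 5 847)))
(cons (mv 849 (cons (fin 913 6 848)
(mv 848 (cons (fin 785 6 784)
(mv 783 (cons (fin 847 7 783)
(mv 784 (cons (fin 975 5 783)
(fin 719 7 719)))))))))
(mv 1167 (cons (fin 1103 5 911)
(mv 1168 (cons (fin 1231 5 975)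
(mv 1232 (cons (fin 975 7 975)
(mv 1233 (cons (fin 1297 4 1040)
(fin 1169 4 976))))))))))))))))))))
(mv 1038 (cons (fin 977 2 973)
(mv 1104 (cons (fin 1105 0 1037)
(mv 1036 (cons (fin 1103 0 1036)
(fin 975 2 972)))))))))))
(mv 1039 (cons (cons (mv 1038 (cons (fin 977 2 973)
(mv 1100 (cons (fin 1101 1 1036)
(mv 1036 (cons (fin 1099 1 1035)
(fin 975 2 972)))))))
(mv 1103 (cons (cons (mv 1167 (cons (fin 1231 6 975)
(mv 912 (cons (fin 1104 5 911)
(fin 848 5 847)))))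
(mv 912 (cons (fin 848 5 847)
(mv 1104 (cons (cons (mv 1169 (cons (fin 1105 4 912)
(mv 1168 (cons (fin 1233 4 976)
(mv 1232 (cons (fin 1296 7 1039)
(fin 975 7 975)))))))
(mv 913 (cons (fin 849 6 848)
(mv 1168 (cons (fin 977 6 912)
(mv 1232 (cons (fin 1296 7 1039)
(fin 975 7 975))))))))
(cons (mv 1105 (cons (fin 1169 4 912)
(mv 1106 (cons (fin 1107 3 1039)
(mv 1170 (cons (fin 1171 0 1103)
(mv 1042 (cons (fin 1043 2 1039)
(mv 913 (cons (fin 849 6 848)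
(mv 978 (cons (fin 977 7 913)
(mv 915 (cons (fin 979 6 914)
(mv 914 (cons (fin 975 1 911)
(fin 851 6 850)))))))))))))))))
(mv 1169 (cons (fin 1105 4 912)
(mv 1168 (cons (fin 1233 4 976)
(mv 913 (cons (fin 977 6 912)
(fin 849 6 848)))))))))))))
(cons (mv 1167 (cons (fin 1231 6 975)
(mv 975 (cons (mv 1232 (cons (fin 1168 4 975)
(mv 974 (cons (fin 910 7 910)
(mv 973 (cons (fin 1036 1 972)
(fin 972 0 972)))))))
(cons (mv 974 (cons (fin 910 7 910)
(mv 973 (cons (fin 1036 1 972)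
(fin 972 0 972)))))
(mv 1168 (cons (fin 1232 4 975)
(mv 1104 (cons (fin 911 7 911)
(mv 1169 (cons (fin 1233 4 976)
(mv 1170 (cons (fin 1102 3 1102)
(fin 1171 3 1103))))))))))))))
(mv 1167 (cons (fin 1231 6 975)
(mv 912 (cons (fin 848 5 847)
(fin 975 6 911)))))))))
(cons (mv 1038 (cons (cons (mv 1100 (cons (fin 1101 1 1036)
(mv 1036 (cons (fin 1099 1 1035)
(fin 975 2 972)))))
(mv 1100 (cons (fin 1101 1 1036)
(mv 1104 (cons (fin 1105 0 1037)
(mv 972 (cons (fin 973 3 972)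
(mv 1168 (cons (mv 975 (cons (fin 1232 7 975)
(fin 911 7 911)))
(cons (mv 1231 (cons (fin 1167 5 975)
(mv 1232 (cons (fin 1295 5 1039)
(mv 1233 (cons (fin 1297 4 1040)
(fin 1169 4 976)))))))
(mv 1233 (cons (fin 1169 4 976)
(mv 1167 (cons (fin 1231 5 975)
(mv 975 (cons (fin 911 7 911)
(mv 912 (cons (fin 1103 5 911)
(mv 848 (cons (fin 784 5 783)
(mv 849 (cons (fin 913 6 848)
(fin 785 6 784)))))))))))))))))))))))
(cons (mv 1104 (cons (fin 1105 0 1037)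
(mv 1036 (cons (fin 1103 0 1036)
(fin 975 2 972)))))
(mv 1100 (cons (fin 1101 1 1036)
(mv 1104 (cons (fin 1105 0 1037)
(mv 1036 (cons (fin 1099 1 1035)
(fin 1103 0 1036))))))))))
(cons (mv 1038 (cons (fin 977 2 973)
(mv 1100 (cons (fin 1101 1 1036)
(mv 1104 (cons (fin 1105 0 1037)
(mv 1036 (cons (fin 1099 1 1035)
(fin 1103 0 1036)))))))))
(mv 1038 (cons (fin 977 2 973)
(mv 1100 (cons (fin 1101 1 1036)
(mv 1104 (cons (fin 1105 0 1037)
(mv 972 (cons (fin 973 3 972)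
(mv 1168 (cons (mv 975 (cons (fin 1232 7 975)
(fin 911 7 911)))
(cons (mv 1231 (cons (fin 1167 5 975)
(mv 1232 (cons (fin 1295 5 1039)
(mv 1233 (cons (fin 1297 4 1040)
(fin 1169 4 976)))))))
(mv 1233 (cons (fin 1169 4 976)
(mv 1167 (cons (fin 1231 5 975)
(mv 975 (cons (fin 911 7 911)
(mv 912 (cons (fin 1103 5 911)
(mv 848 (cons (fin 784 5 783)
(mv 849 (cons (fin 913 6 848)
(fin 785 6 784))))))))))))))))))))))))))))))
(cons (cons (mv 1039 (cons (cons (mv 1038 (cons (fin 977 2 973)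
(mv 1100 (cons (fin 1101 1 1036)
(mv 1036 (cons (fin 1099 1 1035)
(fin 975 2 972)))))))
(mv 912 (cons (cons (mv 1103 (cons (fin 848 5 847)
(mv 1104 (cons (cons (mv 1169 (cons (fin 1105 4 912)
(mv 1168 (cons (fin 1233 4 976)
(mv 1232 (cons (fin 1296 7 1039)
(fin 975 7 975)))))))
(mv 911 (cons (fin 847 7 847)
(mv 1168 (cons (fin 975 7 911)
(mv 913 (cons (fin 977 6 912)
(fin 849 6 848))))))))
(cons (mv 1105 (cons (fin 1169 4 912)
(mv 1106 (cons (fin 1107 3 1039)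
(mv 1170 (cons (fin 1171 0 1103)
(mv 1042 (cons (fin 1043 2 1039)
(mv 911 (cons (fin 847 7 847)
(mv 913 (cons (fin 849 6 848)
(mv 977 (cons (fin 978 7 913)
(mv 910 (cons (fin 909 0 909)
(mv 846 (cons (fin 845 3 845)
(fin 975 7 846)))))))))))))))))))
(mv 1169 (cons (fin 1105 4 912)
(mv 1168 (cons (fin 1233 4 976)
(mv 913 (cons (fin 977 6 912)
(fin 849 6 848))))))))))))
(cons (mv 1104 (cons (cons (mv 1169 (cons (fin 1105 4 912)
(mv 1168 (cons (fin 1233 4 976)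
(mv 975 (cons (fin 1232 7 975)
(fin 911 7 911)))))))
(mv 1169 (cons (fin 1105 4 912)
(mv 1168 (cons (fin 1233 4 976)
(mv 913 (cons (fin 977 6 912)
(fin 849 6 848))))))))
(cons (mv 911 (cons (fin 847 7 847)
(mv 1168 (cons (fin 975 7 911)
(mv 913 (cons (fin 977 6 912)
(fin 849 6 848)))))))
(mv 1169 (cons (fin 1105 4 912)
(mv 911 (cons (fin 847 7 847)
(mv 913 (cons (fin 849 6 848)
(mv 910 (cons (mv 977 (cons (fin 909 0 909)
(fin 978 0 910)))
(cons (mv 973 (cons (fin 974 1 909)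
(mv 909 (cons (fin 972 1 908)
(mv 845 (cons (fin 844 3 844)
(fin 846 3 845)))))))
(mv 973 (cons (fin 974 1 909)
(mv 978 (cons (fin 977 0 910)
(mv 914 (cons (fin 979 0 911)
(mv 975 (cons (fin 915 1 911)
(mv 846 (cons (fin 845 3 845)
(fin 1103 7 846)))))))))))))))))))))))
(mv 1104 (cons (cons (mv 1169 (cons (fin 1105 4 912)
(mv 1233 (cons (fin 1168 4 976)
(mv 913 (cons (fin 849 6 848)
(mv 847 (cons (fin 911 7 847)
(mv 848 (cons (fin 783 7 783)
(mv 975 (cons (fin 784 5 783)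
(mv 974 (cons (fin 973 2 909)
(mv 914 (cons (fin 915 1 911)
(fin 977 2 910)))))))))))))))))
(cons (mv 1169 (cons (fin 1105 4 912)
(mv 1233 (cons (fin 1168 4 976)
(mv 849 (cons (fin 913 6 848)
(mv 848 (cons (fin 785 6 784)
(mv 783 (cons (fin 847 7 783)
(mv 784 (cons (fin 975 5 783)
(fin 719 7 719)))))))))))))
(mv 1169 (cons (fin 1105 4 912)
(mv 1168 (cons (fin 1233 4 976)
(mv 975 (cons (fin 1232 7 975)
(fin 911 7 911)))))))))
(cons (mv 911 (cons (fin 847 7 847)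
(mv 1168 (cons (fin 975 7 911)
(mv 913 (cons (fin 977 6 912)
(fin 849 6 848)))))))
(cons (mv 1169 (cons (fin 1105 4 912)
(mv 1233 (cons (fin 1168 4 976)
(mv 847 (cons (fin 911 7 847)
(mv 848 (cons (fin 783 7 783)
(mv 849 (cons (fin 913 6 848)
(fin 785 6 784)))))))))))
(mv 1169 (cons (fin 1105 4 912)
(mv 913 (cons (fin 849 6 848)
(mv 847 (cons (fin 911 7 847)
(mv 848 (cons (fin 783 7 783)
(mv 975 (cons (fin 784 5 783)
(mv 974 (cons (fin 973 2 909)
(mv 914 (cons (fin 915 1 911)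
(fin 977 2 910)))))))))))))))))))))
(cons (cons (mv 848 (cons (fin 1103 5 847)
(mv 847 (cons (fin 783 7 783)
(mv 784 (cons (fin 975 5 783)
(mv 785 (cons (fin 849 6 784)
(fin 721 6 720)))))))))
(mv 1103 (cons (fin 848 5 847)
(mv 1104 (cons (cons (mv 1169 (cons (fin 1105 4 912)
(mv 1168 (cons (fin 1233 4 976)
(mv 1232 (cons (fin 1296 7 1039)
(fin 975 7 975)))))))
(mv 913 (cons (fin 849 6 848)
(mv 1168 (cons (fin 977 6 912)
(mv 1232 (cons (fin 1296 7 1039)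
(fin 975 7 975))))))))
(cons (mv 1105 (cons (fin 1169 4 912)
(mv 1106 (cons (fin 1107 3 1039)
(mv 1170 (cons (fin 1171 0 1103)
(mv 1042 (cons (fin 1043 2 1039)
(mv 913 (cons (fin 849 6 848)
(mv 978 (cons (fin 977 7 913)
(mv 915 (cons (fin 979 6 914)
(mv 914 (cons (fin 975 1 911)
(fin 851 6 850)))))))))))))))))
(mv 1169 (cons (fin 1105 4 912)
(mv 1168 (cons (fin 1233 4 976)
(mv 913 (cons (fin 977 6 912)
(fin 849 6 848)))))))))))))
(cons (mv 848 (cons (fin 1103 5 847)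
(mv 975 (cons (fin 784 5 783)
(mv 847 (cons (fin 783 7 783)
(mv 1104 (cons (fin 911 7 847)
(mv 1168 (cons (fin 1232 7 975)
(mv 1169 (cons (fin 1233 4 976)
(fin 1105 4 912)))))))))))))
(mv 848 (cons (fin 1103 5 847)
(mv 847 (cons (fin 783 7 783)
(mv 1104 (cons (fin 911 7 847)
(mv 849 (cons (fin 913 6 848)
(fin 785 6 784))))))))))))))
(cons (mv 1038 (cons (cons (mv 1100 (cons (fin 1101 1 1036)
(mv 1036 (cons (fin 1099 1 1035)
(fin 975 2 972)))))
(mv 1100 (cons (fin 1101 1 1036)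
(mv 1104 (cons (fin 1105 0 1037)
(mv 972 (cons (fin 973 3 972)
(mv 1168 (cons (mv 975 (cons (fin 1232 7 975)
(fin 911 7 911)))
(cons (mv 1233 (cons (fin 1169 4 976)
(mv 1232 (cons (fin 1297 4 1040)
(mv 1295 (cons (fin 1231 5 1039)
(mv 1296 (cons (fin 1359 5 1103)
(fin 1103 7 1039)))))))))
(mv 1233 (cons (fin 1169 4 976)
(mv 911 (cons (fin 975 7 911)
(mv 912 (cons (fin 847 7 847)
(mv 848 (cons (fin 1103 5 847)
(mv 849 (cons (fin 913 6 848)
(fin 785 6 784)))))))))))))))))))))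
(cons (mv 1104 (cons (fin 1105 0 1037)
(mv 1036 (cons (fin 1103 0 1036)
(fin 975 2 972)))))
(mv 1100 (cons (fin 1101 1 1036)
(mv 1104 (cons (fin 1105 0 1037)
(mv 1036 (cons (fin 1099 1 1035)
(fin 1103 0 1036))))))))))
(mv 1038 (cons (fin 977 2 973)
(mv 1100 (cons (fin 1101 1 1036)
(mv 1104 (cons (fin 1105 0 1037)
(mv 1036 (cons (fin 1099 1 1035)
(fin 1103 0 1036))))))))))))
(mv 1039 (cons (cons (mv 1038 (cons (fin 977 2 973)
(mv 1100 (cons (fin 1101 1 1036)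
(mv 1036 (cons (fin 1099 1 1035)
(fin 975 2 972)))))))
(mv 912 (cons (cons (mv 1103 (cons (fin 848 5 847)
(mv 1167 (cons (fin 1104 5 911)
(fin 1231 6 975)))))
(mv 1104 (cons (cons (mv 1167 (cons (fin 1103 5 911)
(mv 1168 (cons (fin 1231 5 975)
(mv 1169 (cons (fin 1233 4 976)
(fin 1105 4 912)))))))
(mv 1169 (cons (fin 1105 4 912)
(mv 1168 (cons (fin 1233 4 976)
(mv 975 (cons (fin 1232 7 975)
(fin 911 7 911))))))))
(cons (mv 1167 (cons (fin 1103 5 911)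
(mv 1168 (cons (fin 1231 5 975)
(mv 975 (cons (fin 1232 7 975)
(fin 911 7 911)))))))
(mv 1103 (cons (fin 1167 5 911)
(mv 1105 (cons (fin 1169 4 912)
(mv 1106 (cons (fin 1107 3 1039)
(mv 1170 (cons (fin 1171 0 1103)
(mv 1042 (cons (fin 1043 2 1039)
(mv 911 (cons (fin 847 7 847)
(mv 913 (cons (fin 849 6 848)
(mv 977 (cons (fin 978 7 913)
(mv 910 (cons (fin 909 0 909)
(mv 846 (cons (fin 845 3 845)
(fin 975 7 846)))))))))))))))))))))))))
(cons (mv 1104 (cons (cons (mv 1169 (cons (fin 1105 4 912)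
(mv 1233 (cons (fin 1168 4 976)
(mv 913 (cons (fin 849 6 848)
(mv 847 (cons (fin 911 7 847)
(mv 848 (cons (fin 783 7 783)
(mv 914 (cons (fin 915 3 847)
(mv 845 (cons (fin 846 0 845)
(mv 784 (cons (fin 975 5 783)
(mv 720 (cons (fin 977 4 720)
(mv 721 (cons (fin 785 6 720)
(fin 657 6 656)))))))))))))))))))))
(cons (mv 1169 (cons (fin 1105 4 912)
(mv 1233 (cons (fin 1168 4 976)
(mv 849 (cons (fin 913 6 848)
(mv 848 (cons (fin 785 6 784)
(mv 783 (cons (fin 847 7 783)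
(mv 784 (cons (fin 975 5 783)
(fin 719 7 719)))))))))))))
(mv 1169 (cons (fin 1105 4 912)
(mv 1168 (cons (fin 1233 4 976)
(mv 975 (cons (fin 1232 7 975)
(fin 911 7 911)))))))))
(cons (mv 911 (cons (fin 847 7 847)
(mv 1168 (cons (fin 975 7 911)
(mv 913 (cons (fin 977 6 912)
(fin 849 6 848)))))))
(cons (mv 1169 (cons (fin 1105 4 912)
(mv 913 (cons (fin 849 6 848)
(mv 847 (cons (fin 911 7 847)
(mv 848 (cons (fin 783 7 783)
(mv 914 (cons (fin 915 3 847)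
(mv 845 (cons (fin 846 0 845)
(mv 784 (cons (fin 975 5 783)
(mv 720 (cons (fin 977 4 720)
(mv 721 (cons (fin 785 6 720)
(fin 657 6 656)))))))))))))))))))
(mv 1169 (cons (fin 1105 4 912)
(mv 1233 (cons (fin 1168 4 976)
(mv 847 (cons (fin 911 7 847)
(mv 848 (cons (fin 783 7 783)
(mv 849 (cons (fin 913 6 848)
(fin 785 6 784)))))))))))))))
(mv 1103 (cons (fin 848 5 847)
(mv 1167 (cons (fin 1231 6 975)
(fin 975 6 911)))))))))
(cons (mv 1038 (cons (cons (mv 1100 (cons (fin 1101 1 1036)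
(mv 1036 (cons (fin 1099 1 1035)
(fin 975 2 972)))))
(mv 1100 (cons (fin 1101 1 1036)
(mv 1104 (cons (fin 1105 0 1037)
(mv 912 (cons (mv 1103 (cons (fin 1167 5 911)
(fin 848 5 847)))
(cons (mv 911 (cons (fin 847 7 847)
(mv 1168 (cons (fin 975 7 911)
(mv 1231 (cons (fin 1167 5 975)
(mv 1232 (cons (fin 1295 5 1039)
(mv 1233 (cons (fin 1297 4 1040)
(fin 1169 4 976)))))))))))
(mv 1103 (cons (fin 848 5 847)
(mv 911 (cons (fin 847 7 847)
(mv 1168 (cons (fin 975 7 911)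
(mv 1232 (cons (fin 1296 7 1039)
(mv 1233 (cons (fin 1297 4 1040)
(fin 1169 4 976)))))))))))))))))))
(cons (mv 1104 (cons (fin 1105 0 1037)
(mv 1036 (cons (fin 1103 0 1036)
(fin 975 2 972)))))
(mv 1100 (cons (fin 1101 1 1036)
(mv 1104 (cons (fin 1105 0 1037)
(mv 1036 (cons (fin 1099 1 1035)
(fin 1103 0 1036))))))))))
(mv 1038 (cons (fin 977 2 973)
(mv 1100 (cons (fin 1101 1 1036)
(mv 1104 (cons (fin 1105 0 1037)
(mv 1036 (cons (fin 1099 1 1035)
(fin 1103 0 1036)))))))))))))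
(cons (mv 1039 (cons (cons (mv 1038 (cons (fin 977 2 973)
(mv 1100 (cons (fin 1101 1 1036)
(mv 1036 (cons (fin 1099 1 1035)
(fin 975 2 972)))))))
(mv 912 (cons (cons (mv 1103 (cons (fin 848 5 847)
(mv 1167 (cons (fin 1104 5 911)
(fin 975 6 911)))))
(mv 1104 (cons (cons (mv 1167 (cons (fin 1103 5 911)
(mv 1169 (cons (fin 1105 4 912)
(mv 1168 (cons (fin 1233 4 976)
(mv 975 (cons (fin 1232 7 975)
(fin 911 7 911)))))))))
(mv 1167 (cons (fin 1103 5 911)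
(mv 1169 (cons (fin 1105 4 912)
(mv 1168 (cons (fin 1233 4 976)
(mv 913 (cons (fin 977 6 912)
(fin 849 6 848))))))))))
(cons (mv 1169 (cons (fin 1105 4 912)
(mv 1168 (cons (fin 1233 4 976)
(mv 975 (cons (fin 1232 7 975)
(fin 911 7 911)))))))
(cons (mv 1167 (cons (fin 1103 5 911)
(mv 911 (cons (fin 847 7 847)
(mv 1168 (cons (fin 975 7 911)
(mv 913 (cons (fin 977 6 912)
(fin 849 6 848)))))))))
(mv 1103 (cons (fin 1167 5 911)
(mv 1105 (cons (fin 1169 4 912)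
(mv 1106 (cons (fin 1107 3 1039)
(mv 1170 (cons (fin 1171 0 1103)
(mv 1042 (cons (fin 1043 2 1039)
(mv 911 (cons (fin 847 7 847)
(mv 913 (cons (fin 849 6 848)
(mv 977 (cons (fin 978 7 913)
(mv 910 (cons (fin 909 0 909)
(mv 846 (cons (fin 845 3 845)
(fin 975 7 846))))))))))))))))))))))))))
(cons (mv 1104 (cons (cons (mv 1169 (cons (fin 1105 4 912)
(mv 1233 (cons (fin 1168 4 976)
(mv 913 (cons (fin 849 6 848)
(mv 847 (cons (fin 911 7 847)
(mv 848 (cons (fin 783 7 783)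
(mv 975 (cons (fin 784 5 783)
(mv 974 (cons (fin 973 2 909)
(mv 914 (cons (fin 915 1 911)
(fin 977 2 910)))))))))))))))))
(cons (mv 1169 (cons (fin 1105 4 912)
(mv 1233 (cons (fin 1168 4 976)
(mv 849 (cons (fin 913 6 848)
(mv 848 (cons (fin 785 6 784)
(mv 783 (cons (fin 847 7 783)
(mv 784 (cons (fin 975 5 783)
(fin 719 7 719)))))))))))))
(mv 1169 (cons (fin 1105 4 912)
(mv 1168 (cons (fin 1233 4 976)
(mv 975 (cons (fin 1232 7 975)
(fin 911 7 911)))))))))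
(cons (mv 911 (cons (fin 847 7 847)
(mv 1168 (cons (fin 975 7 911)
(mv 913 (cons (fin 977 6 912)
(fin 849 6 848)))))))
(cons (mv 1169 (cons (fin 1105 4 912)
(mv 1233 (cons (fin 1168 4 976)
(mv 847 (cons (fin 911 7 847)
(mv 848 (cons (fin 783 7 783)
(mv 849 (cons (fin 913 6 848)
(fin 785 6 784)))))))))))
(mv 1169 (cons (fin 1105 4 912)
(mv 913 (cons (fin 849 6 848)
(mv 847 (cons (fin 911 7 847)
(mv 848 (cons (fin 783 7 783)
(mv 975 (cons (fin 784 5 783)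
(mv 974 (cons (fin 973 2 909)
(mv 914 (cons (fin 915 1 911)
(fin 977 2 910)))))))))))))))))))
(cons (mv 848 (cons (fin 1103 5 847)
(mv 847 (cons (fin 783 7 783)
(mv 784 (cons (fin 975 5 783)
(mv 785 (cons (fin 849 6 784)
(fin 721 6 720)))))))))
(mv 1103 (cons (fin 848 5 847)
(mv 1104 (cons (fin 1167 5 911)
(mv 1169 (cons (fin 1105 4 912)
(mv 1168 (cons (fin 1233 4 976)
(mv 913 (cons (fin 977 6 912)
(fin 849 6 848))))))))))))))))
(cons (mv 1038 (cons (cons (mv 1100 (cons (fin 1101 1 1036)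
(mv 1036 (cons (fin 1099 1 1035)
(fin 975 2 972)))))
(mv 1100 (cons (fin 1101 1 1036)
(mv 1104 (cons (fin 1105 0 1037)
(mv 972 (cons (fin 973 3 972)
(mv 912 (cons (mv 1103 (cons (fin 1167 5 911)
(fin 848 5 847)))
(mv 911 (cons (fin 847 7 847)
(mv 975 (cons (fin 1168 7 911)
(mv 913 (cons (fin 849 6 848)
(mv 914 (cons (fin 974 1 910)
(fin 915 1 911))))))))))))))))))
(cons (mv 1104 (cons (fin 1105 0 1037)
(mv 1036 (cons (fin 1103 0 1036)
(fin 975 2 972)))))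
(mv 1100 (cons (fin 1101 1 1036)
(mv 1104 (cons (fin 1105 0 1037)
(mv 1036 (cons (fin 1099 1 1035)
(fin 1103 0 1036))))))))))
(mv 1038 (cons (fin 977 2 973)
(mv 1100 (cons (fin 1101 1 1036)
(mv 1104 (cons (fin 1105 0 1037)
(mv 1036 (cons (fin 1099 1 1035)
(fin 1103 0 1036))))))))))))
(mv 1039 (cons (cons (mv 1038 (cons (fin 977 2 973)
(mv 1100 (cons (fin 1101 1 1036)
(mv 1036 (cons (fin 1099 1 1035)
(fin 975 2 972)))))))
(mv 912 (cons (cons (mv 1103 (cons (fin 848 5 847)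
(mv 1167 (cons (fin 1104 5 911)
(fin 1231 6 975)))))
(mv 1104 (cons (cons (mv 1167 (cons (fin 1103 5 911)
(mv 1168 (cons (fin 1231 5 975)
(mv 1169 (cons (fin 1233 4 976)
(fin 1105 4 912)))))))
(mv 1169 (cons (fin 1105 4 912)
(mv 1168 (cons (fin 1233 4 976)
(mv 975 (cons (fin 1232 7 975)
(fin 911 7 911))))))))
(cons (mv 1167 (cons (fin 1103 5 911)
(mv 1168 (cons (fin 1231 5 975)
(mv 975 (cons (fin 1232 7 975)
(fin 911 7 911)))))))
(mv 1103 (cons (fin 1167 5 911)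
(mv 1105 (cons (fin 1169 4 912)
(mv 1106 (cons (fin 1107 3 1039)
(mv 1170 (cons (fin 1171 0 1103)
(mv 1042 (cons (fin 1043 2 1039)
(mv 911 (cons (fin 847 7 847)
(mv 913 (cons (fin 849 6 848)
(mv 978 (cons (fin 977 7 913)
(mv 979 (cons (fin 914 0 911)
(fin 915 6 914)))))))))))))))))))))))
(cons (mv 1104 (cons (cons (mv 1169 (cons (fin 1105 4 912)
(mv 1233 (cons (fin 1168 4 976)
(mv 913 (cons (fin 849 6 848)
(mv 847 (cons (fin 911 7 847)
(mv 848 (cons (fin 783 7 783)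
(mv 975 (cons (fin 784 5 783)
(mv 974 (cons (fin 973 2 909)
(mv 914 (cons (fin 915 1 911)
(fin 977 2 910)))))))))))))))))
(cons (mv 1169 (cons (fin 1105 4 912)
(mv 1233 (cons (fin 1168 4 976)
(mv 849 (cons (fin 913 6 848)
(mv 848 (cons (fin 785 6 784)
(mv 783 (cons (fin 847 7 783)
(mv 784 (cons (fin 975 5 783)
(fin 719 7 719)))))))))))))
(mv 1169 (cons (fin 1105 4 912)
(mv 1168 (cons (fin 1233 4 976)
(mv 975 (cons (fin 1232 7 975)
(fin 911 7 911)))))))))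
(cons (mv 911 (cons (fin 847 7 847)
(mv 1168 (cons (fin 975 7 911)
(mv 913 (cons (fin 977 6 912)
(fin 849 6 848)))))))
(cons (mv 1169 (cons (fin 1105 4 912)
(mv 913 (cons (fin 849 6 848)
(mv 847 (cons (fin 911 7 847)
(mv 848 (cons (fin 783 7 783)
(mv 975 (cons (fin 784 5 783)
(mv 974 (cons (fin 973 2 909)
(mv 914 (cons (fin 915 1 911)
(fin 977 2 910)))))))))))))))
(mv 1169 (cons (fin 1105 4 912)
(mv 1233 (cons (fin 1168 4 976)
(mv 847 (cons (fin 911 7 847)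
(mv 848 (cons (fin 783 7 783)
(mv 849 (cons (fin 913 6 848)
(fin 785 6 784)))))))))))))))
(mv 1103 (cons (fin 848 5 847)
(mv 1167 (cons (fin 1231 6 975)
(fin 975 6 911)))))))))
(cons (mv 1038 (cons (cons (mv 1100 (cons (fin 1101 1 1036)
(mv 1036 (cons (fin 1099 1 1035)
(fin 975 2 972)))))
(mv 1100 (cons (fin 1101 1 1036)
(mv 1104 (cons (fin 1105 0 1037)
(mv 972 (cons (fin 973 3 972)
(mv 1168 (cons (mv 975 (cons (fin 1232 7 975)
(fin 911 7 911)))
(cons (mv 1231 (cons (fin 1167 5 975)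
(mv 1232 (cons (fin 1295 5 1039)
(mv 1233 (cons (fin 1297 4 1040)
(fin 1169 4 976)))))))
(mv 1231 (cons (fin 1167 5 975)
(mv 1233 (cons (fin 1169 4 976)
(mv 911 (cons (fin 975 7 911)
(mv 912 (cons (fin 847 7 847)
(mv 848 (cons (fin 1103 5 847)
(mv 849 (cons (fin 913 6 848)
(fin 785 6 784)))))))))))))))))))))))
(cons (mv 1104 (cons (fin 1105 0 1037)
(mv 1036 (cons (fin 1103 0 1036)
(fin 975 2 972)))))
(mv 1100 (cons (fin 1101 1 1036)
(mv 1104 (cons (fin 1105 0 1037)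
(mv 1036 (cons (fin 1099 1 1035)
(fin 1103 0 1036))))))))))
(mv 1038 (cons (fin 977 2 973)
(mv 1100 (cons (fin 1101 1 1036)
(mv 1104 (cons (fin 1105 0 1037)
(mv 1036 (cons (fin 1099 1 1035)
(fin 1103 0 1036)))))))))))))))))
(cons (ref 20 0)
(ref 15 0))))))))
def l129 : Lem := ⟨11781361728633673532894774498354952494238773929196300355071513798753168641589311119865182769801300280680127783231251635087526446289021607771691249214388576215221396663491984443067742263787264024212477244347842938066577043117995647400274369612403653814737339068225047641453182709824206687753689912418253153056587776, 394905588026741979415690654078929858780534967068801850037517473832661866248751490112553198487621159735681428412755998610806154825397637096404126210305759773457224464628978703894212420100033768500443026061452824641057272505996213900741715001222984325503750121229378062162630844793838758075766403741686755839766892033110953789045136876957854189629480165608179190432985553020287928709318707383721865230290478250716386821394476632775684859735529740600983259525743577661440,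 394905588026741979415690654078929858780534967068801850037517473832661866248751490112553198487621159735681428412755998610806154825397637096404126210305759773457224464628978703894212420100033768500443026061452824641057272505996213900741715001222984325503750121229378062162630844793838758075766403741686755839766892033110953789045136876957854189629480165608179190432985553020287928709318707383721865230290478250716386821394476632775684859735529740600983259525743577661440, 20, 33⟩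
theorem l129_valid : l129.Valid :=
  Lem.valid_of_chk t129 t129_valid [1040] c129 l129 (by decide +kernel)
end Crest.Agent.SnakyAux
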