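import Crest.Agent.S0047_aux.Checker

set_option autoImplicit false
set_option maxRecDepth 100000
namespace Crest.Agent.SnakyAux
open Cert
def t13 : Tbl := Tbl.nil
theorem t13_valid : t13.Valid := Tbl.valid_nil
def c13 : Cert :=
(mv 975 (cons (cons (cons (mv 1104 (cons (cons (mv 911 (cons (fin 847 4 847)
(mv 1168 (cons (fin 976 7 911)
(fin 1232 7 975)))))
(mv 1168 (cons (fin 1232 7 975)
(mv 976 (cons (mv 913 (cons (fin 977 6 912)
(mv 912 (cons (fin 849 6 848)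
(mv 848 (cons (fin 784 5 783)
(fin 1103 5 847)))))))
(cons (mv 1167 (cons (fin 1231 5 975)
(mv 912 (cons (fin 1103 5 911)
(mv 1169 (cons (fin 1105 4 912)
(fin 1233 4 976)))))))
(mv 977 (cons (fin 913 6 912)
(mv 978 (cons (fin 1038 1 974)
(fin 979 1 975)))))))))))
(cons (mv 847 (cons (fin 911 4 847)
(mv 974 (cons (cons (mv 973 (cons (fin 972 0 972)
(mv 1041 (cons (fin 1038 3 973)
(fin 976 0 973)))))
(mv 910 (cons (cons (mv 846 (cons (fin 782 4 782)
(mv 1038 (cons (fin 783 6 782)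
(fin 1103 4 846)))))
(mv 1103 (cons (fin 1167 7 910)
(mv 976 (cons (cons (mv 848 (cons (fin 912 5 847)
(mv 977 (cons (fin 909 3 909)
(mv 978 (cons (fin 1038 1 974)
(fin 979 1 975)))))))
(mv 977 (cons (fin 909 3 909)
(mv 978 (cons (fin 1038 1 974)
(fin 979 1 975))))))
(cons (mv 912 (cons (fin 848 5 847)
(mv 849 (cons (fin 913 6 848)
(mv 1105 (cons (fin 1169 4 912)
(mv 1106 (cons (fin 1038 3 1038)
(fin 1107 3 1039)))))))))
(mv 848 (cons (fin 912 5 847)
(mv 977 (cons (fin 909 3 909)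
(mv 913 (cons (fin 914 2 910)
(mv 849 (cons (fin 785 5 784)
(fin 1041 5 848)))))))))))))))
(cons (mv 846 (cons (fin 782 4 782)
(mv 1038 (cons (fin 783 6 782)
(mv 845 (cons (fin 781 7 781)
(mv 909 (cons (fin 1102 7 845)
(mv 848 (cons (fin 908 1 844)
(fin 849 1 845)))))))))))
(mv 846 (cons (fin 782 4 782)
(mv 1103 (cons (fin 1167 7 910)
(mv 848 (cons (cons (mv 849 (cons (fin 909 1 845)
(mv 785 (cons (fin 786 2 782)
(mv 784 (cons (fin 845 2 781)
(mv 912 (cons (fin 976 5 783)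
(mv 657 (cons (fin 721 5 656)
(mv 913 (cons (fin 914 0 846)
(mv 720 (cons (fin 977 7 720)
(fin 656 4 656)))))))))))))))
(mv 912 (cons (fin 976 5 847)
(mv 845 (cons (fin 913 0 845)
(mv 780 (cons (fin 781 3 780)
(mv 784 (cons (fin 785 2 781)
(mv 844 (cons (fin 779 3 779)
(fin 783 2 780))))))))))))
(cons (mv 849 (cons (fin 909 1 845)
(mv 785 (cons (fin 786 2 782)
(mv 784 (cons (fin 845 2 781)
(mv 913 (cons (fin 914 0 846)
(mv 720 (cons (fin 977 7 720)
(fin 656 4 656)))))))))))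
(cons (mv 849 (cons (fin 909 1 845)
(mv 785 (cons (fin 786 2 782)
(mv 912 (cons (fin 976 5 847)
(mv 721 (cons (fin 657 5 656)
(mv 913 (cons (fin 914 0 846)
(mv 658 (cons (fin 722 6 657)
(mv 720 (cons (fin 656 7 656)
(mv 977 (cons (fin 784 7 720)
(fin 1041 5 848)))))))))))))))))
(mv 909 (cons (fin 849 1 845)
(mv 908 (cons (fin 845 1 844)
(fin 907 2 843)))))))))))))))))
(cons (mv 972 (cons (fin 973 0 972)
(mv 910 (cons (cons (mv 846 (cons (fin 782 4 782)
(mv 1038 (cons (fin 783 6 782)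
(fin 1103 4 846)))))
(mv 1103 (cons (fin 1167 7 910)
(mv 976 (cons (cons (mv 848 (cons (fin 912 5 847)
(mv 977 (cons (fin 909 3 909)
(mv 978 (cons (fin 1038 1 974)
(fin 979 1 975)))))))
(mv 977 (cons (fin 909 3 909)
(mv 978 (cons (fin 1038 1 974)
(fin 979 1 975))))))
(cons (mv 912 (cons (fin 848 5 847)
(mv 849 (cons (fin 913 6 848)
(mv 1105 (cons (fin 1169 4 912)
(mv 1106 (cons (fin 1038 3 1038)
(fin 1107 3 1039)))))))))
(mv 848 (cons (fin 912 5 847)
(mv 977 (cons (fin 909 3 909)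
(mv 914 (cons (fin 913 2 910)
(mv 978 (cons (fin 979 1 975)
(fin 915 2 911)))))))))))))))
(cons (mv 846 (cons (fin 782 4 782)
(mv 1038 (cons (fin 783 6 782)
(mv 845 (cons (fin 781 7 781)
(mv 909 (cons (fin 1102 7 845)
(mv 848 (cons (fin 908 1 844)
(fin 849 1 845)))))))))))
(mv 846 (cons (fin 782 4 782)
(mv 1103 (cons (fin 1167 7 910)
(mv 848 (cons (cons (mv 849 (cons (fin 909 1 845)
(mv 785 (cons (fin 786 2 782)
(mv 784 (cons (fin 845 2 781)
(mv 912 (cons (fin 976 5 783)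
(mv 657 (cons (fin 721 5 656)
(mv 913 (cons (fin 914 0 846)
(mv 720 (cons (fin 977 7 720)
(fin 656 4 656)))))))))))))))
(cons (mv 912 (cons (fin 976 5 847)
(mv 845 (cons (fin 913 0 845)
(mv 780 (cons (fin 781 3 780)
(mv 784 (cons (fin 785 2 781)
(mv 844 (cons (fin 779 3 779)
(fin 783 2 780)))))))))))
(mv 849 (cons (fin 909 1 845)
(mv 785 (cons (fin 786 2 782)
(mv 784 (cons (fin 845 2 781)
(mv 913 (cons (fin 914 0 846)
(mv 720 (cons (fin 977 7 720)
(fin 656 4 656)))))))))))))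
(cons (cons (mv 849 (cons (fin 909 1 845)
(mv 785 (cons (fin 786 2 782)
(mv 912 (cons (fin 976 5 847)
(mv 721 (cons (fin 657 5 656)
(mv 913 (cons (fin 914 0 846)
(mv 720 (cons (fin 656 7 656)
(mv 722 (cons (fin 658 6 657)
(mv 784 (cons (fin 977 7 720)
(mv 723 (cons (fin 783 1 719)
(fin 724 1 720)))))))))))))))))))
(mv 849 (cons (fin 909 1 845)
(mv 785 (cons (fin 786 2 782)
(mv 912 (cons (fin 976 5 847)
(mv 913 (cons (fin 845 0 845)
(fin 914 0 846))))))))))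
(cons (mv 849 (cons (fin 909 1 845)
(mv 912 (cons (fin 976 5 847)
(mv 913 (cons (fin 845 0 845)
(fin 914 0 846)))))))
(mv 909 (cons (fin 849 1 845)
(mv 908 (cons (fin 845 1 844)
(fin 907 2 843))))))))))))))))))
(cons (mv 973 (cons (fin 972 0 972)
(mv 1038 (cons (fin 1041 3 973)
(mv 910 (cons (mv 846 (cons (fin 783 6 782)
(fin 782 4 782)))
(mv 1103 (cons (fin 1167 7 910)
(mv 1105 (cons (fin 1106 3 1038)
(mv 1102 (cons (mv 909 (cons (fin 845 7 845)
(fin 1166 7 909)))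
(mv 1101 (cons (fin 1100 2 1036)
(fin 1165 5 909)))))))))))))))
(mv 973 (cons (fin 972 0 972)
(mv 976 (cons (fin 1041 0 973)
(mv 908 (cons (fin 909 3 908)
(mv 912 (cons (fin 913 2 909)
(mv 848 (cons (fin 783 7 783)
(fin 784 5 783)))))))))))))))))
(mv 911 (cons (fin 847 4 847)
(mv 1168 (cons (fin 1232 7 975)
(fin 1103 4 911))))))))
(cons (mv 974 (cons (cons (mv 973 (cons (fin 972 0 972)
(mv 1041 (cons (fin 1038 3 973)
(fin 976 0 973)))))
(mv 910 (cons (cons (mv 846 (cons (fin 782 4 782)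
(mv 1103 (cons (fin 911 7 846)
(fin 1167 7 910)))))
(mv 846 (cons (fin 782 4 782)
(mv 1038 (cons (cons (mv 781 (cons (fin 845 7 781)
(mv 847 (cons (fin 783 6 782)
(mv 911 (cons (fin 1102 5 846)
(mv 848 (cons (fin 784 6 783)
(mv 849 (cons (fin 909 1 845)
(fin 850 1 846)))))))))))
(cons (mv 845 (cons (fin 781 7 781)
(mv 909 (cons (fin 1102 7 845)
(mv 908 (cons (fin 907 0 907)
(mv 976 (cons (fin 977 3 909)
(fin 911 0 908)))))))))
(mv 847 (cons (fin 783 6 782)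
(mv 911 (cons (fin 1102 5 846)
(mv 848 (cons (fin 784 6 783)
(mv 849 (cons (fin 909 1 845)
(fin 850 1 846)))))))))))
(cons (mv 781 (cons (fin 845 7 781)
(mv 847 (cons (fin 783 6 782)
(mv 848 (cons (cons (mv 784 (cons (fin 911 6 783)
(mv 849 (cons (fin 909 1 845)
(mv 785 (cons (fin 786 2 782)
(mv 912 (cons (fin 976 5 783)
(mv 657 (cons (fin 721 5 656)
(mv 913 (cons (fin 914 0 846)
(mv 720 (cons (fin 977 7 720)
(fin 656 4 656)))))))))))))))
(mv 784 (cons (fin 911 6 783)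
(mv 976 (cons (fin 912 5 783)
(mv 977 (cons (fin 978 1 974)
(mv 913 (cons (fin 914 2 910)
(mv 849 (cons (fin 1041 7 784)
(fin 785 5 784))))))))))))
(cons (mv 784 (cons (fin 911 6 783)
(mv 976 (cons (fin 912 5 783)
(mv 977 (cons (fin 909 3 909)
(fin 978 1 974)))))))
(cons (mv 849 (cons (fin 909 1 845)
(mv 785 (cons (fin 786 2 782)
(mv 912 (cons (fin 976 6 784)
(mv 721 (cons (fin 657 5 656)
(mv 913 (cons (fin 914 0 846)
(mv 658 (cons (fin 722 6 657)
(mv 720 (cons (fin 656 7 656)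
(mv 977 (cons (fin 784 7 720)
(mv 1041 (cons (fin 978 2 974)
(fin 1105 7 848)))))))))))))))))))
(mv 849 (cons (fin 909 1 845)
(mv 785 (cons (fin 786 2 782)
(mv 850 (cons (fin 911 1 846)
(mv 914 (cons (fin 913 0 846)
(fin 915 0 847)))))))))))))))))
(cons (mv 783 (cons (fin 847 6 782)
(mv 845 (cons (fin 781 7 781)
(mv 1102 (cons (fin 909 7 845)
(mv 1101 (cons (fin 1041 1 1037)
(fin 1165 5 909)))))))))
(mv 781 (cons (fin 845 7 781)
(mv 847 (cons (fin 783 6 782)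
(mv 911 (cons (fin 1102 5 846)
(mv 848 (cons (fin 784 6 783)
(mv 849 (cons (fin 850 1 846)
(mv 785 (cons (fin 786 2 782)
(mv 913 (cons (fin 914 0 846)
(mv 976 (cons (fin 977 5 784)
(fin 912 6 784))))))))))))))))))))))))
(cons (mv 1103 (cons (fin 1167 7 910)
(mv 911 (cons (cons (mv 848 (cons (fin 912 6 847)
(mv 784 (cons (fin 847 6 783)
(mv 1102 (cons (fin 1166 5 910)
(mv 1101 (cons (fin 1100 2 1036)
(mv 1038 (cons (fin 1041 1 1037)
(fin 1165 5 909)))))))))))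
(mv 848 (cons (fin 912 6 847)
(mv 847 (cons (fin 784 6 783)
(mv 783 (cons (fin 719 5 718)
(fin 1038 5 782))))))))
(cons (mv 1102 (cons (fin 1166 5 910)
(mv 847 (cons (fin 1038 5 846)
(mv 783 (cons (fin 719 5 718)
(fin 976 4 783)))))))
(cons (mv 848 (cons (fin 912 6 847)
(mv 1102 (cons (fin 1166 5 910)
(mv 1101 (cons (fin 1100 2 1036)
(mv 1038 (cons (fin 1041 1 1037)
(fin 1165 5 909)))))))))
(mv 848 (cons (fin 912 6 847)
(mv 847 (cons (fin 784 6 783)
(mv 783 (cons (fin 719 5 718)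
(fin 976 4 783)))))))))))))
(mv 846 (cons (fin 782 4 782)
(mv 1103 (cons (fin 1167 7 910)
(fin 1038 4 846)))))))))
(cons (mv 972 (cons (fin 973 0 972)
(mv 910 (cons (cons (mv 846 (cons (fin 782 4 782)
(mv 1103 (cons (fin 911 7 846)
(fin 1167 7 910)))))
(mv 846 (cons (fin 782 4 782)
(mv 1038 (cons (cons (mv 781 (cons (fin 845 7 781)
(mv 847 (cons (fin 783 6 782)
(mv 911 (cons (fin 1102 5 846)
(mv 848 (cons (fin 784 6 783)
(mv 849 (cons (fin 909 1 845)
(fin 850 1 846)))))))))))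
(cons (mv 845 (cons (fin 781 7 781)
(mv 909 (cons (fin 1102 7 845)
(mv 908 (cons (fin 907 0 907)
(mv 911 (cons (fin 971 1 907)
(fin 976 0 908)))))))))
(mv 847 (cons (fin 783 6 782)
(mv 911 (cons (fin 1102 5 846)
(mv 848 (cons (fin 784 6 783)
(mv 849 (cons (fin 909 1 845)
(fin 850 1 846)))))))))))
(cons (mv 781 (cons (fin 845 7 781)
(mv 847 (cons (fin 783 6 782)
(mv 848 (cons (cons (mv 784 (cons (fin 911 6 783)
(mv 849 (cons (fin 909 1 845)
(mv 785 (cons (fin 786 2 782)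
(mv 912 (cons (fin 976 5 783)
(mv 657 (cons (fin 721 5 656)
(mv 913 (cons (fin 914 0 846)
(mv 720 (cons (fin 977 7 720)
(fin 656 4 656)))))))))))))))
(cons (mv 911 (cons (fin 784 6 783)
(mv 849 (cons (fin 850 1 846)
(mv 785 (cons (fin 786 2 782)
(mv 913 (cons (fin 914 0 846)
(mv 976 (cons (fin 977 5 784)
(fin 912 6 784)))))))))))
(mv 784 (cons (fin 911 6 783)
(mv 976 (cons (fin 912 5 783)
(mv 977 (cons (fin 909 3 909)
(fin 978 1 974)))))))))
(cons (mv 849 (cons (fin 909 1 845)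
(mv 785 (cons (fin 786 2 782)
(mv 913 (cons (fin 914 0 846)
(mv 976 (cons (fin 977 5 784)
(fin 912 6 784)))))))))
(cons (mv 784 (cons (fin 911 6 783)
(mv 849 (cons (fin 909 1 845)
(mv 785 (cons (fin 786 2 782)
(mv 913 (cons (fin 914 0 846)
(mv 720 (cons (fin 977 7 720)
(fin 656 4 656)))))))))))
(mv 784 (cons (fin 911 6 783)
(mv 849 (cons (fin 909 1 845)
(mv 786 (cons (fin 785 2 782)
(mv 787 (cons (fin 850 2 783)
(mv 912 (cons (fin 976 5 783)
(mv 913 (cons (fin 914 0 846)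
(mv 720 (cons (fin 656 4 656)
(mv 719 (cons (fin 655 7 655)
(mv 721 (cons (fin 722 0 719)
(fin 657 6 656)))))))))))))))))))))))))))
(cons (mv 783 (cons (fin 847 6 782)
(mv 845 (cons (fin 781 7 781)
(mv 1102 (cons (fin 909 7 845)
(mv 1165 (cons (fin 1101 5 909)
(mv 1166 (cons (fin 1229 5 973)
(fin 1230 6 974)))))))))))
(mv 781 (cons (fin 845 7 781)
(mv 847 (cons (fin 783 6 782)
(mv 911 (cons (fin 1102 5 846)
(mv 848 (cons (fin 784 6 783)
(mv 849 (cons (fin 850 1 846)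
(mv 785 (cons (fin 786 2 782)
(mv 913 (cons (fin 914 0 846)
(mv 976 (cons (fin 977 5 784)
(fin 912 6 784))))))))))))))))))))))))
(cons (mv 1103 (cons (fin 1167 7 910)
(mv 911 (cons (cons (mv 848 (cons (fin 912 6 847)
(mv 784 (cons (fin 847 6 783)
(mv 1102 (cons (fin 1166 5 910)
(mv 1101 (cons (fin 1100 2 1036)
(mv 1038 (cons (fin 1165 5 909)
(mv 909 (cons (fin 845 7 845)
(mv 908 (cons (fin 971 1 907)
(fin 907 0 907)))))))))))))))
(mv 848 (cons (fin 912 6 847)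
(mv 847 (cons (fin 784 6 783)
(mv 783 (cons (fin 719 5 718)
(fin 1038 5 782))))))))
(cons (mv 1102 (cons (fin 1166 5 910)
(mv 847 (cons (fin 1038 5 846)
(mv 783 (cons (fin 719 5 718)
(fin 976 4 783)))))))
(cons (mv 848 (cons (fin 912 6 847)
(mv 1102 (cons (fin 1166 5 910)
(mv 1101 (cons (fin 1100 2 1036)
(mv 1038 (cons (fin 1165 5 909)
(mv 909 (cons (fin 845 7 845)
(mv 908 (cons (fin 971 1 907)
(fin 907 0 907)))))))))))))
(mv 848 (cons (fin 912 6 847)
(mv 847 (cons (fin 784 6 783)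
(mv 783 (cons (fin 719 5 718)
(fin 976 4 783)))))))))))))
(mv 846 (cons (fin 782 4 782)
(mv 1103 (cons (fin 1167 7 910)
(fin 1038 4 846))))))))))
(cons (mv 973 (cons (fin 972 0 972)
(mv 976 (cons (fin 1041 0 973)
(mv 908 (cons (fin 909 3 908)
(mv 912 (cons (fin 913 2 909)
(mv 848 (cons (fin 784 5 783)
(fin 1103 5 847)))))))))))
(mv 972 (cons (fin 973 0 972)
(mv 910 (cons (cons (mv 846 (cons (fin 782 4 782)
(mv 1103 (cons (fin 911 7 846)
(fin 1167 7 910)))))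
(mv 846 (cons (fin 782 4 782)
(mv 1038 (cons (cons (mv 781 (cons (fin 845 7 781)
(mv 847 (cons (fin 783 6 782)
(mv 911 (cons (fin 1102 5 846)
(mv 848 (cons (fin 784 6 783)
(mv 849 (cons (fin 909 1 845)
(fin 850 1 846)))))))))))
(cons (mv 845 (cons (fin 781 7 781)
(mv 909 (cons (fin 1102 7 845)
(mv 908 (cons (fin 907 0 907)
(mv 911 (cons (fin 971 1 907)
(mv 844 (cons (fin 843 3 843)
(fin 912 3 844)))))))))))
(mv 847 (cons (fin 783 6 782)
(mv 911 (cons (fin 1102 5 846)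
(mv 848 (cons (fin 784 6 783)
(mv 849 (cons (fin 909 1 845)
(fin 850 1 846)))))))))))
(cons (mv 845 (cons (fin 781 7 781)
(mv 847 (cons (fin 783 6 782)
(mv 848 (cons (mv 784 (cons (fin 785 2 781)
(fin 911 6 783)))
(mv 909 (cons (fin 908 1 844)
(fin 849 1 845)))))))))
(cons (mv 783 (cons (fin 847 6 782)
(mv 845 (cons (fin 781 7 781)
(mv 1102 (cons (fin 909 7 845)
(mv 1101 (cons (fin 1041 1 1037)
(fin 1165 5 909)))))))))
(mv 781 (cons (fin 845 7 781)
(mv 847 (cons (fin 783 6 782)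
(mv 1102 (cons (fin 911 5 846)
(mv 1101 (cons (fin 1041 1 1037)
(fin 1165 5 909))))))))))))))))
(cons (mv 1103 (cons (fin 1167 7 910)
(mv 911 (cons (cons (mv 848 (cons (fin 912 6 847)
(mv 784 (cons (fin 847 6 783)
(mv 1102 (cons (fin 1166 5 910)
(mv 1101 (cons (fin 1100 2 1036)
(mv 1038 (cons (fin 1041 1 1037)
(fin 1165 5 909)))))))))))
(cons (mv 848 (cons (fin 912 6 847)
(mv 847 (cons (fin 784 6 783)
(mv 783 (cons (fin 719 5 718)
(fin 1038 5 782)))))))
(mv 1102 (cons (fin 1166 5 910)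
(mv 847 (cons (fin 1038 5 846)
(mv 783 (cons (fin 719 5 718)
(mv 784 (cons (fin 720 6 719)
(fin 848 6 783)))))))))))
(cons (mv 1102 (cons (fin 1166 5 910)
(mv 1038 (cons (fin 847 5 846)
(mv 1101 (cons (fin 1041 1 1037)
(fin 1100 2 1036)))))))
(cons (mv 848 (cons (fin 912 6 847)
(mv 1102 (cons (fin 1166 5 910)
(mv 1101 (cons (fin 1100 2 1036)
(mv 1038 (cons (fin 1041 1 1037)
(fin 1165 5 909)))))))))
(mv 848 (cons (fin 912 6 847)
(mv 847 (cons (fin 784 6 783)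
(mv 719 (cons (fin 783 5 718)
(mv 908 (cons (fin 909 2 844)
(mv 1102 (cons (fin 1166 5 910)
(mv 1100 (cons (fin 1101 2 1036)
(mv 1036 (cons (cons (mv 843 (cons (fin 907 7 843)
(mv 844 (cons (fin 779 7 779)
(mv 1099 (cons (fin 1035 5 843)
(fin 1163 5 907)))))))
(mv 1099 (cons (fin 1163 5 907)
(mv 844 (cons (fin 1035 5 843)
(mv 779 (cons (fin 843 7 779)
(mv 780 (cons (fin 715 7 715)
(mv 781 (cons (fin 717 6 716)
(fin 845 6 780))))))))))))
(cons (mv 907 (cons (fin 843 7 843)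
(mv 1164 (cons (fin 971 7 907)
(mv 1227 (cons (fin 1163 5 971)
(mv 1228 (cons (fin 1291 5 1035)
(mv 1229 (cons (fin 1165 4 972)
(fin 1293 4 1036)))))))))))
(cons (mv 843 (cons (fin 907 7 843)
(mv 844 (cons (fin 779 7 779)
(mv 781 (cons (fin 845 6 780)
(mv 780 (cons (fin 717 6 716)
(mv 1035 (cons (fin 971 5 779)
(fin 1099 5 843)))))))))))
(mv 1163 (cons (fin 1099 5 907)
(mv 1164 (cons (fin 1227 5 971)
(mv 971 (cons (fin 907 7 907)
(mv 1228 (cons (fin 1035 7 971)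
(mv 1229 (cons (fin 1165 4 972)
(fin 1293 4 1036)))))))))))))))))))))))))))))))))
(mv 846 (cons (fin 782 4 782)
(mv 1103 (cons (fin 1167 7 910)
(fin 1038 4 846))))))))))))))
(mv 974 (cons (cons (mv 973 (cons (fin 972 0 972)
(mv 1041 (cons (fin 1038 3 973)
(fin 976 0 973)))))
(mv 976 (cons (cons (mv 1103 (cons (mv 912 (cons (fin 848 5 847)
(fin 1167 6 911)))
(cons (mv 848 (cons (fin 912 5 847)
(mv 977 (cons (mv 978 (cons (fin 1038 1 974)
(fin 979 1 975)))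
(mv 909 (cons (fin 910 3 909)
(mv 913 (cons (fin 914 2 910)
(mv 849 (cons (fin 785 5 784)
(mv 1041 (cons (fin 784 7 784)
(fin 1104 5 848)))))))))))))
(mv 1167 (cons (fin 910 7 910)
(fin 1231 6 975))))))
(cons (mv 977 (cons (mv 978 (cons (fin 1038 1 974)
(fin 979 1 975)))
(mv 909 (cons (fin 910 3 909)
(mv 913 (cons (fin 914 2 910)
(mv 849 (cons (fin 785 5 784)
(mv 1104 (cons (fin 1041 5 848)
(fin 912 6 848)))))))))))
(mv 912 (cons (mv 848 (cons (fin 784 5 783)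
(fin 1103 5 847)))
(cons (mv 848 (cons (fin 784 5 783)
(mv 783 (cons (fin 847 7 783)
(mv 849 (cons (fin 785 6 784)
(mv 1104 (cons (fin 913 6 848)
(mv 1105 (cons (fin 1041 4 848)
(fin 1169 4 912)))))))))))
(mv 1104 (cons (cons (mv 849 (cons (fin 913 6 848)
(mv 1103 (cons (fin 1167 5 911)
(mv 1105 (cons (fin 1169 4 912)
(mv 1106 (cons (fin 1038 3 1038)
(fin 1107 3 1039)))))))))
(mv 849 (cons (fin 913 6 848)
(mv 1105 (cons (fin 1169 4 912)
(mv 1106 (cons (fin 1107 3 1039)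
(mv 1038 (cons (fin 1103 3 1038)
(fin 1041 0 1038))))))))))
(cons (mv 849 (cons (fin 913 6 848)
(mv 1168 (cons (fin 1232 7 975)
(mv 1169 (cons (fin 1105 4 912)
(fin 1233 4 976)))))))
(cons (mv 849 (cons (fin 913 6 848)
(mv 1167 (cons (fin 1103 5 911)
(mv 1168 (cons (fin 1232 7 975)
(fin 1231 5 975)))))))
(mv 1103 (cons (fin 1167 5 911)
(mv 1105 (cons (fin 1169 4 912)
(mv 1106 (cons (fin 1038 3 1038)
(fin 1107 3 1039))))))))))))))))
(cons (cons (mv 977 (cons (mv 978 (cons (fin 1038 1 974)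
(fin 979 1 975)))
(mv 909 (cons (fin 910 3 909)
(mv 913 (cons (fin 914 2 910)
(mv 849 (cons (fin 785 5 784)
(mv 1104 (cons (fin 1041 5 848)
(fin 1168 6 912)))))))))))
(mv 1103 (cons (mv 912 (cons (fin 848 5 847)
(fin 1167 6 911)))
(cons (mv 848 (cons (fin 912 5 847)
(mv 977 (cons (mv 978 (cons (fin 1038 1 974)
(fin 979 1 975)))
(cons (mv 910 (cons (fin 909 3 909)
(mv 846 (cons (fin 782 4 782)
(fin 1038 4 846)))))
(mv 909 (cons (fin 910 3 909)
(mv 914 (cons (fin 913 2 910)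
(mv 978 (cons (fin 979 1 975)
(fin 915 2 911))))))))))))
(mv 1167 (cons (fin 910 7 910)
(fin 1231 6 975)))))))
(cons (mv 1103 (cons (mv 912 (cons (fin 848 5 847)
(fin 1167 6 911)))
(cons (mv 912 (cons (fin 848 5 847)
(mv 1104 (cons (mv 849 (cons (fin 913 6 848)
(mv 1168 (cons (fin 1232 7 975)
(mv 1169 (cons (fin 1105 4 912)
(fin 1233 4 976)))))))
(cons (mv 913 (cons (fin 849 6 848)
(mv 914 (cons (fin 915 1 911)
(fin 977 2 910)))))
(mv 1168 (cons (fin 1232 7 975)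
(mv 1169 (cons (fin 1105 4 912)
(fin 1233 4 976))))))))))
(mv 1167 (cons (fin 910 7 910)
(fin 1231 6 975))))))
(mv 1103 (cons (mv 912 (cons (fin 848 5 847)
(fin 1167 6 911)))
(cons (mv 848 (cons (fin 912 5 847)
(mv 910 (cons (mv 846 (cons (fin 782 4 782)
(fin 1038 4 846)))
(cons (mv 977 (cons (fin 909 3 909)
(mv 978 (cons (fin 1038 1 974)
(fin 979 1 975)))))
(mv 846 (cons (fin 782 4 782)
(mv 909 (cons (fin 977 3 909)
(mv 847 (cons (fin 849 1 845)
(mv 908 (cons (fin 845 1 844)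
(fin 907 2 843))))))))))))))
(mv 1167 (cons (fin 910 7 910)
(fin 1231 6 975)))))))))))
(cons (mv 973 (cons (fin 972 0 972)
(mv 976 (cons (cons (mv 908 (cons (fin 909 3 908)
(mv 912 (cons (fin 913 2 909)
(mv 848 (cons (fin 784 5 783)
(fin 1103 5 847)))))))
(mv 909 (cons (fin 908 3 908)
(mv 910 (cons (fin 977 3 909)
(mv 846 (cons (fin 782 4 782)
(mv 1103 (cons (fin 1167 7 910)
(fin 1038 4 846))))))))))
(cons (mv 912 (cons (fin 913 2 909)
(mv 848 (cons (fin 784 5 783)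
(fin 1103 5 847)))))
(mv 908 (cons (fin 909 3 908)
(mv 913 (cons (fin 912 2 909)
(mv 977 (cons (fin 914 2 910)
(mv 978 (cons (fin 1038 1 974)
(fin 979 1 975))))))))))))))
(cons (mv 973 (cons (fin 972 0 972)
(mv 1038 (cons (fin 1041 3 973)
(mv 910 (cons (mv 846 (cons (fin 782 4 782)
(fin 1103 4 846)))
(cons (mv 846 (cons (fin 782 4 782)
(mv 783 (cons (fin 847 6 782)
(mv 845 (cons (fin 781 7 781)
(mv 1102 (cons (fin 909 7 845)
(mv 1165 (cons (fin 1101 5 909)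
(mv 1166 (cons (fin 1229 5 973)
(fin 1230 6 974)))))))))))))
(mv 1103 (cons (fin 1167 7 910)
(mv 1102 (cons (mv 909 (cons (fin 845 7 845)
(fin 1166 7 909)))
(mv 1101 (cons (fin 1100 2 1036)
(fin 1165 5 909))))))))))))))
(mv 973 (cons (fin 972 0 972)
(mv 976 (cons (fin 1041 0 973)
(mv 908 (cons (fin 909 3 908)
(mv 912 (cons (fin 913 2 909)
(mv 848 (cons (fin 784 5 783)
(fin 1103 5 847)))))))))))))))))
(cons (cons (mv 1104 (cons (cons (mv 911 (cons (fin 847 4 847)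
(mv 1168 (cons (fin 976 7 911)
(fin 1232 7 975)))))
(mv 911 (cons (fin 847 4 847)
(mv 1103 (cons (cons (mv 846 (cons (fin 910 7 846)
(mv 848 (cons (fin 912 6 847)
(mv 1102 (cons (fin 1166 5 910)
(mv 1101 (cons (fin 1100 2 1036)
(fin 1041 2 1037)))))))))
(mv 846 (cons (fin 910 7 846)
(mv 1102 (cons (fin 1166 5 910)
(mv 1101 (cons (fin 1100 2 1036)
(fin 1041 2 1037))))))))
(cons (mv 846 (cons (fin 910 7 846)
(mv 912 (cons (fin 848 6 847)
(mv 976 (cons (fin 1167 5 911)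
(mv 849 (cons (fin 913 6 848)
(mv 1105 (cons (fin 1169 4 912)
(mv 1106 (cons (fin 1038 3 1038)
(fin 1107 3 1039)))))))))))))
(mv 848 (cons (fin 912 6 847)
(mv 1102 (cons (fin 1166 5 910)
(mv 1101 (cons (fin 1100 2 1036)
(fin 1041 2 1037)))))))))))))
(cons (mv 1168 (cons (fin 1232 7 975)
(mv 976 (cons (mv 913 (cons (fin 977 6 912)
(mv 912 (cons (fin 849 6 848)
(mv 848 (cons (fin 784 5 783)
(fin 1103 5 847)))))))
(cons (mv 1167 (cons (fin 1231 5 975)
(mv 912 (cons (fin 1103 5 911)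
(mv 1169 (cons (fin 1105 4 912)
(fin 1233 4 976)))))))
(mv 977 (cons (fin 913 6 912)
(mv 978 (cons (fin 1038 1 974)
(fin 979 1 975))))))))))
(mv 911 (cons (fin 847 4 847)
(mv 1168 (cons (fin 1232 7 975)
(fin 1103 4 911))))))))
(mv 974 (cons (cons (mv 973 (cons (fin 972 0 972)
(mv 1041 (cons (fin 1038 3 973)
(fin 976 0 973)))))
(mv 1103 (cons (cons (mv 910 (cons (fin 1167 7 910)
(mv 846 (cons (fin 911 7 846)
(fin 782 4 782)))))
(mv 911 (cons (cons (mv 846 (cons (fin 910 7 846)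
(mv 848 (cons (fin 912 6 847)
(mv 1102 (cons (fin 1166 5 910)
(mv 1101 (cons (fin 1100 2 1036)
(mv 1041 (cons (fin 1038 1 1037)
(fin 1104 2 1037)))))))))))
(cons (mv 848 (cons (fin 912 6 847)
(mv 1102 (cons (fin 1166 5 910)
(mv 1101 (cons (fin 1100 2 1036)
(mv 1041 (cons (fin 1038 1 1037)
(fin 1104 2 1037)))))))))
(mv 848 (cons (fin 912 6 847)
(mv 910 (cons (fin 846 7 846)
(mv 1102 (cons (fin 1166 5 910)
(mv 1101 (cons (fin 1100 2 1036)
(mv 1038 (cons (fin 1041 1 1037)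
(fin 1165 5 909)))))))))))))
(cons (mv 846 (cons (fin 910 7 846)
(mv 912 (cons (fin 848 6 847)
(mv 913 (cons (fin 914 1 910)
(mv 1104 (cons (fin 1168 4 911)
(mv 976 (cons (fin 849 6 848)
(mv 1105 (cons (fin 1169 4 912)
(mv 1106 (cons (fin 1038 3 1038)
(fin 1107 3 1039)))))))))))))))
(cons (mv 846 (cons (fin 910 7 846)
(mv 1102 (cons (fin 1166 5 910)
(mv 1101 (cons (fin 1100 2 1036)
(mv 1041 (cons (fin 1038 1 1037)
(fin 1104 2 1037)))))))))
(mv 846 (cons (fin 910 7 846)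
(mv 848 (cons (fin 912 6 847)
(mv 1102 (cons (fin 1166 5 910)
(mv 1101 (cons (fin 1100 2 1036)
(mv 1104 (cons (fin 1041 2 1037)
(fin 1168 4 911))))))))))))))))
(cons (mv 1167 (cons (mv 976 (cons (fin 912 6 911)
(fin 1231 6 975)))
(cons (mv 912 (cons (fin 976 6 911)
(mv 911 (cons (fin 848 6 847)
(mv 1166 (cons (fin 1102 5 910)
(fin 1230 5 974)))))))
(mv 1038 (cons (fin 1231 7 974)
(mv 1166 (cons (fin 1230 5 974)
(mv 911 (cons (fin 1102 5 910)
(mv 1168 (cons (fin 1104 4 911)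
(fin 1232 4 975))))))))))))
(mv 910 (cons (fin 1167 7 910)
(mv 846 (cons (fin 782 4 782)
(fin 1038 4 846)))))))))
(cons (mv 972 (cons (fin 973 0 972)
(mv 1103 (cons (cons (mv 910 (cons (fin 1167 7 910)
(mv 846 (cons (fin 911 7 846)
(fin 782 4 782)))))
(mv 911 (cons (cons (mv 846 (cons (fin 910 7 846)
(mv 912 (cons (fin 848 6 847)
(mv 913 (cons (fin 914 1 910)
(mv 1102 (cons (fin 1166 5 910)
(mv 1100 (cons (fin 1101 2 1036)
(mv 1104 (cons (fin 1168 4 911)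
(mv 976 (cons (fin 849 6 848)
(mv 1105 (cons (fin 1169 4 912)
(mv 1106 (cons (fin 1038 3 1038)
(fin 1107 3 1039)))))))))))))))))))
(cons (mv 912 (cons (fin 848 6 847)
(mv 913 (cons (fin 914 1 910)
(mv 1102 (cons (fin 1166 5 910)
(mv 1100 (cons (fin 1101 2 1036)
(mv 1104 (cons (fin 1168 4 911)
(mv 976 (cons (fin 849 6 848)
(mv 1105 (cons (fin 1169 4 912)
(mv 1106 (cons (fin 1038 3 1038)
(fin 1107 3 1039)))))))))))))))))
(mv 848 (cons (fin 912 6 847)
(mv 910 (cons (fin 846 7 846)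
(mv 1102 (cons (fin 1166 5 910)
(mv 1101 (cons (fin 1100 2 1036)
(mv 1038 (cons (fin 1165 5 909)
(mv 909 (cons (fin 845 7 845)
(mv 908 (cons (fin 971 1 907)
(fin 907 0 907)))))))))))))))))
(cons (mv 910 (cons (fin 846 7 846)
(mv 1102 (cons (fin 1166 5 910)
(mv 1101 (cons (fin 1100 2 1036)
(mv 1038 (cons (fin 1165 5 909)
(mv 909 (cons (fin 845 7 845)
(mv 908 (cons (fin 971 1 907)
(fin 907 0 907)))))))))))))
(cons (mv 846 (cons (fin 910 7 846)
(mv 912 (cons (fin 848 6 847)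
(mv 913 (cons (fin 914 1 910)
(mv 1104 (cons (fin 1168 4 911)
(mv 976 (cons (fin 849 6 848)
(mv 1105 (cons (fin 1169 4 912)
(mv 1106 (cons (fin 1038 3 1038)
(fin 1107 3 1039)))))))))))))))
(mv 910 (cons (fin 846 7 846)
(mv 912 (cons (fin 848 6 847)
(mv 913 (cons (fin 914 1 910)
(mv 849 (cons (fin 850 2 846)
(mv 1104 (cons (fin 976 6 848)
(fin 1168 4 911))))))))))))))))
(cons (mv 1167 (cons (mv 976 (cons (fin 912 6 911)
(fin 1231 6 975)))
(cons (mv 912 (cons (fin 976 6 911)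
(mv 911 (cons (fin 848 6 847)
(mv 1166 (cons (fin 1102 5 910)
(fin 1230 5 974)))))))
(mv 1038 (cons (fin 1231 7 974)
(mv 1166 (cons (fin 1230 5 974)
(mv 911 (cons (fin 1102 5 910)
(mv 1168 (cons (fin 1104 4 911)
(fin 1232 4 975))))))))))))
(mv 910 (cons (fin 1167 7 910)
(mv 846 (cons (fin 782 4 782)
(fin 1038 4 846))))))))))
(cons (mv 972 (cons (fin 973 0 972)
(mv 1103 (cons (cons (mv 910 (cons (fin 1167 7 910)
(mv 846 (cons (fin 911 7 846)
(fin 782 4 782)))))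
(mv 911 (cons (cons (mv 846 (cons (fin 910 7 846)
(mv 848 (cons (fin 912 6 847)
(mv 1102 (cons (fin 1166 5 910)
(mv 1101 (cons (fin 1100 2 1036)
(mv 1041 (cons (fin 1038 1 1037)
(fin 1104 2 1037)))))))))))
(cons (mv 910 (cons (fin 846 7 846)
(mv 912 (cons (fin 848 6 847)
(mv 913 (cons (fin 914 1 910)
(mv 849 (cons (fin 850 2 846)
(mv 977 (cons (fin 978 0 910)
(mv 1104 (cons (fin 1041 5 848)
(fin 1168 4 911)))))))))))))
(mv 848 (cons (fin 912 6 847)
(mv 1102 (cons (fin 1166 5 910)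
(mv 1101 (cons (fin 1100 2 1036)
(mv 1041 (cons (fin 1038 1 1037)
(fin 1104 2 1037)))))))))))
(cons (mv 848 (cons (fin 912 6 847)
(mv 910 (cons (fin 846 7 846)
(mv 1102 (cons (fin 1166 5 910)
(mv 1101 (cons (fin 1100 2 1036)
(mv 1038 (cons (fin 1041 1 1037)
(fin 1165 5 909)))))))))))
(cons (mv 846 (cons (fin 910 7 846)
(mv 1102 (cons (fin 1166 5 910)
(mv 1101 (cons (fin 1100 2 1036)
(mv 1041 (cons (fin 1038 1 1037)
(fin 1104 2 1037)))))))))
(mv 848 (cons (fin 912 6 847)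
(mv 910 (cons (fin 846 7 846)
(mv 1102 (cons (fin 1166 5 910)
(mv 1101 (cons (fin 1100 2 1036)
(mv 1038 (cons (fin 1165 5 909)
(mv 909 (cons (fin 845 7 845)
(mv 908 (cons (fin 971 1 907)
(fin 907 0 907))))))))))))))))))))
(cons (mv 1167 (cons (cons (mv 1038 (cons (fin 1231 7 974)
(mv 1166 (cons (fin 1230 5 974)
(mv 911 (cons (fin 1102 5 910)
(mv 1168 (cons (fin 1104 4 911)
(fin 1232 4 975)))))))))
(mv 1166 (cons (fin 1230 5 974)
(mv 911 (cons (fin 1102 5 910)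
(mv 1168 (cons (fin 1104 4 911)
(fin 1232 4 975))))))))
(cons (mv 1038 (cons (fin 1231 7 974)
(mv 1166 (cons (fin 1230 5 974)
(mv 1102 (cons (fin 911 5 910)
(mv 1101 (cons (fin 1041 1 1037)
(fin 1100 2 1036)))))))))
(cons (mv 1168 (cons (fin 1232 4 975)
(mv 1104 (cons (fin 911 4 911)
(mv 1231 (cons (fin 1038 7 974)
(fin 1295 6 1039)))))))
(mv 1166 (cons (fin 1230 5 974)
(mv 1168 (cons (fin 1232 4 975)
(mv 1231 (cons (fin 1038 7 974)
(mv 1104 (cons (fin 1295 6 1039)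
(mv 1105 (cons (fin 1106 1 1102)
(fin 1165 2 1101)))))))))))))))
(mv 910 (cons (fin 1167 7 910)
(mv 846 (cons (fin 782 4 782)
(fin 1038 4 846))))))))))
(mv 973 (cons (fin 972 0 972)
(mv 976 (cons (fin 1041 0 973)
(mv 908 (cons (fin 909 3 908)
(mv 912 (cons (fin 913 2 909)
(mv 848 (cons (fin 784 5 783)
(fin 1103 5 847))))))))))))))))
(cons (mv 974 (cons (cons (mv 973 (cons (fin 972 0 972)
(mv 1041 (cons (fin 1038 3 973)
(fin 976 0 973)))))
(mv 976 (cons (cons (mv 977 (cons (mv 978 (cons (fin 1038 1 974)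
(fin 979 1 975)))
(mv 909 (cons (fin 910 3 909)
(mv 913 (cons (fin 914 2 910)
(mv 849 (cons (fin 785 5 784)
(mv 1104 (cons (fin 1041 5 848)
(fin 912 6 848)))))))))))
(cons (mv 911 (cons (mv 847 (cons (fin 783 4 783)
(fin 1104 4 847)))
(cons (mv 1104 (cons (fin 1168 7 911)
(mv 912 (cons (mv 913 (cons (fin 914 1 910)
(fin 849 6 848)))
(mv 848 (cons (fin 784 5 783)
(mv 1105 (cons (fin 1041 4 848)
(fin 1169 4 912)))))))))
(mv 847 (cons (fin 783 4 783)
(mv 846 (cons (fin 782 7 782)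
(mv 848 (cons (fin 784 6 783)
(mv 1038 (cons (fin 1102 5 846)
(mv 912 (cons (mv 845 (cons (fin 844 0 844)
(fin 913 0 845)))
(cons (mv 785 (cons (fin 849 6 784)
(mv 845 (cons (fin 844 0 844)
(mv 781 (cons (fin 780 3 780)
(fin 910 7 781)))))))
(mv 849 (cons (fin 785 6 784)
(mv 850 (cons (fin 910 1 846)
(fin 851 1 847)))))))))))))))))))
(mv 977 (cons (mv 978 (cons (fin 1038 1 974)
(fin 979 1 975)))
(cons (mv 910 (cons (fin 909 3 909)
(mv 782 (cons (fin 846 4 782)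
(mv 913 (cons (fin 914 2 910)
(mv 849 (cons (fin 785 5 784)
(mv 1041 (cons (cons (mv 784 (cons (fin 848 7 784)
(mv 850 (cons (fin 786 6 785)
(mv 912 (cons (fin 911 2 846)
(mv 851 (cons (fin 852 1 848)
(mv 1105 (cons (fin 1169 7 912)
(mv 1106 (cons (fin 1038 0 1038)
(fin 1170 4 913)))))))))))))
(mv 850 (cons (fin 786 6 785)
(mv 912 (cons (fin 911 2 846)
(mv 851 (cons (fin 852 1 848)
(mv 1105 (cons (fin 1169 7 912)
(mv 1106 (cons (fin 1038 0 1038)
(fin 1170 4 913))))))))))))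
(cons (mv 848 (cons (fin 784 7 784)
(mv 1105 (cons (fin 912 7 848)
(mv 1106 (cons (fin 1038 0 1038)
(fin 1170 4 913)))))))
(mv 848 (cons (fin 784 7 784)
(mv 850 (cons (fin 786 6 785)
(mv 847 (cons (fin 783 3 782)
(fin 911 1 846))))))))))))))))))
(mv 909 (cons (fin 910 3 909)
(mv 914 (cons (fin 913 2 910)
(mv 978 (cons (fin 979 1 975)
(fin 915 2 911))))))))))))
(cons (mv 1104 (cons (mv 911 (cons (fin 1168 7 911)
(fin 847 4 847)))
(cons (mv 847 (cons (fin 911 4 847)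
(mv 912 (cons (mv 848 (cons (fin 783 7 783)
(fin 784 5 783)))
(mv 913 (cons (fin 849 6 848)
(mv 914 (cons (fin 915 1 911)
(fin 977 2 910)))))))))
(mv 1168 (cons (fin 1232 7 975)
(mv 913 (cons (fin 977 6 912)
(mv 912 (cons (fin 849 6 848)
(mv 1169 (cons (fin 1105 4 912)
(fin 1233 4 976))))))))))))
(cons (mv 977 (cons (mv 978 (cons (fin 1038 1 974)
(fin 979 1 975)))
(mv 909 (cons (fin 910 3 909)
(mv 913 (cons (fin 914 2 910)
(mv 849 (cons (fin 785 5 784)
(mv 1104 (cons (fin 1041 5 848)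
(fin 1168 6 912)))))))))))
(mv 1104 (cons (mv 911 (cons (fin 1168 7 911)
(fin 847 4 847)))
(cons (mv 1168 (cons (fin 1232 7 975)
(mv 1167 (cons (fin 1231 5 975)
(mv 1169 (cons (fin 1233 4 976)
(mv 1105 (cons (fin 912 4 912)
(mv 1106 (cons (fin 1107 3 1039)
(fin 1166 2 1102)))))))))))
(mv 847 (cons (fin 911 4 847)
(mv 912 (cons (mv 848 (cons (fin 783 7 783)
(fin 784 5 783)))
(cons (mv 1105 (cons (fin 1169 4 912)
(mv 1106 (cons (fin 1107 3 1039)
(mv 1038 (cons (fin 1041 0 1038)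
(mv 977 (cons (fin 978 1 974)
(mv 910 (cons (fin 909 3 909)
(mv 846 (cons (fin 783 6 782)
(fin 782 4 782)))))))))))))
(mv 848 (cons (fin 784 5 783)
(mv 1105 (cons (fin 1041 4 848)
(fin 1169 4 912))))))))))))))))))
(cons (mv 973 (cons (fin 972 0 972)
(mv 976 (cons (cons (mv 908 (cons (fin 909 3 908)
(mv 912 (cons (fin 913 2 909)
(mv 848 (cons (fin 784 5 783)
(mv 785 (cons (fin 849 6 784)
(mv 847 (cons (fin 783 7 783)
(mv 911 (cons (fin 1104 7 847)
(mv 846 (cons (fin 782 7 782)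
(mv 845 (cons (fin 844 0 844)
(mv 781 (cons (fin 780 3 780)
(mv 1038 (cons (fin 910 7 781)
(fin 1102 5 846)))))))))))))))))))))
(mv 909 (cons (fin 908 3 908)
(mv 977 (cons (fin 910 3 909)
(mv 978 (cons (fin 1038 1 974)
(fin 979 1 975))))))))
(cons (mv 912 (cons (fin 913 2 909)
(mv 848 (cons (fin 784 5 783)
(mv 785 (cons (fin 849 6 784)
(mv 847 (cons (fin 783 7 783)
(mv 911 (cons (fin 1104 7 847)
(mv 846 (cons (fin 782 7 782)
(mv 845 (cons (fin 844 0 844)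
(mv 781 (cons (fin 780 3 780)
(mv 1038 (cons (fin 910 7 781)
(fin 1102 5 846)))))))))))))))))))
(mv 908 (cons (fin 909 3 908)
(mv 912 (cons (fin 913 2 909)
(mv 848 (cons (fin 784 5 783)
(mv 785 (cons (fin 849 6 784)
(mv 847 (cons (fin 783 7 783)
(mv 1104 (cons (fin 911 7 847)
(mv 1168 (cons (fin 1232 7 975)
(mv 1169 (cons (fin 1105 4 912)
(fin 1233 4 976))))))))))))))))))))))
(cons (mv 1038 (cons (mv 973 (cons (fin 1041 3 973)
(fin 972 0 972)))
(cons (mv 1102 (cons (mv 911 (cons (fin 847 5 846)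
(fin 1166 6 910)))
(cons (mv 1041 (cons (fin 1101 1 1037)
(mv 977 (cons (fin 978 2 974)
(mv 1105 (cons (fin 1106 0 1038)
(mv 1166 (cons (fin 1230 6 974)
(mv 1165 (cons (fin 1229 5 973)
(mv 1167 (cons (fin 1231 4 974)
(mv 1168 (cons (fin 1104 2 1101)
(mv 1232 (cons (fin 1233 0 1165)
(fin 1169 5 976)))))))))))))))))
(mv 847 (cons (fin 911 5 846)
(mv 1101 (cons (fin 1041 1 1037)
(mv 910 (cons (fin 1165 5 909)
(mv 846 (cons (fin 783 6 782)
(fin 782 4 782))))))))))))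
(mv 972 (cons (fin 973 0 972)
(mv 1102 (cons (mv 911 (cons (fin 847 5 846)
(fin 1166 6 910)))
(cons (mv 1166 (cons (fin 1230 6 974)
(mv 1165 (cons (fin 1229 5 973)
(mv 910 (cons (fin 1101 5 909)
(mv 845 (cons (fin 909 7 845)
(mv 846 (cons (fin 781 7 781)
(fin 782 4 782)))))))))))
(mv 910 (cons (cons (mv 782 (cons (fin 846 4 782)
(mv 909 (cons (fin 845 7 845)
(mv 908 (cons (fin 907 0 907)
(mv 911 (cons (fin 971 1 907)
(fin 847 5 846)))))))))
(mv 782 (cons (fin 846 4 782)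
(mv 909 (cons (fin 845 7 845)
(mv 908 (cons (fin 907 0 907)
(mv 971 (cons (fin 911 1 907)
(mv 969 (cons (fin 970 2 905)
(mv 1101 (cons (fin 1165 5 909)
(mv 1099 (cons (fin 1100 2 1035)
(mv 1035 (cons (fin 1163 6 907)
(mv 844 (cons (fin 780 5 779)
(fin 1036 5 843))))))))))))))))))))
(cons (mv 845 (cons (fin 909 7 845)
(mv 846 (cons (fin 781 7 781)
(fin 782 4 782)))))
(cons (mv 909 (cons (fin 845 7 845)
(mv 908 (cons (fin 907 0 907)
(mv 911 (cons (fin 971 1 907)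
(fin 847 5 846)))))))
(mv 846 (cons (fin 782 4 782)
(mv 847 (cons (fin 911 5 846)
(fin 783 6 782)))))))))))))))))
(mv 973 (cons (fin 972 0 972)
(mv 976 (cons (fin 1041 0 973)
(mv 908 (cons (fin 909 3 908)
(mv 912 (cons (fin 913 2 909)
(mv 848 (cons (fin 784 5 783)
(mv 785 (cons (fin 849 6 784)
(mv 847 (cons (fin 783 7 783)
(mv 1104 (cons (fin 911 7 847)
(mv 1168 (cons (fin 1232 7 975)
(mv 1169 (cons (fin 1105 4 912)
(fin 1233 4 976)))))))))))))))))))))))))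
(mv 911 (cons (cons (mv 847 (cons (fin 1104 4 847)
(mv 782 (cons (fin 846 7 782)
(mv 718 (cons (fin 783 7 718)
(mv 848 (cons (fin 784 6 783)
(mv 1102 (cons (fin 1038 5 846)
(mv 1103 (cons (fin 1166 5 910)
(fin 912 6 847)))))))))))))
(cons (mv 1103 (cons (cons (mv 846 (cons (fin 910 7 846)
(mv 848 (cons (fin 912 6 847)
(mv 1102 (cons (fin 1166 5 910)
(mv 1101 (cons (fin 1100 2 1036)
(mv 1041 (cons (fin 1038 1 1037)
(fin 1104 2 1037)))))))))))
(cons (mv 848 (cons (fin 912 6 847)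
(mv 910 (cons (fin 846 7 846)
(mv 974 (cons (fin 1167 7 910)
(mv 972 (cons (fin 973 0 972)
(mv 1102 (cons (fin 1166 5 910)
(mv 1101 (cons (fin 1100 2 1036)
(mv 1038 (cons (fin 1041 1 1037)
(fin 1165 5 909)))))))))))))))
(mv 848 (cons (fin 912 6 847)
(mv 910 (cons (fin 846 7 846)
(mv 1104 (cons (fin 1168 4 911)
(mv 1167 (cons (fin 974 7 910)
(mv 1230 (cons (fin 1166 5 974)
(mv 1231 (cons (fin 1294 5 1038)
(fin 1295 6 1039)))))))))))))))
(cons (mv 848 (cons (fin 912 6 847)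
(mv 1102 (cons (fin 1166 5 910)
(mv 1101 (cons (fin 1100 2 1036)
(mv 1041 (cons (fin 1038 1 1037)
(fin 1104 2 1037)))))))))
(cons (mv 848 (cons (fin 912 6 847)
(mv 910 (cons (fin 846 7 846)
(mv 1167 (cons (fin 974 7 910)
(mv 1168 (cons (fin 1104 4 911)
(fin 1232 4 975)))))))))
(mv 846 (cons (fin 910 7 846)
(mv 1102 (cons (fin 1166 5 910)
(mv 1101 (cons (fin 1100 2 1036)
(mv 1041 (cons (fin 1038 1 1037)
(fin 1104 2 1037)))))))))))))
(mv 1103 (cons (cons (mv 846 (cons (fin 910 7 846)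
(mv 847 (cons (fin 782 7 782)
(mv 848 (cons (fin 784 6 783)
(fin 912 6 847)))))))
(mv 848 (cons (fin 912 6 847)
(mv 847 (cons (fin 784 6 783)
(mv 1102 (cons (fin 1038 5 846)
(fin 1166 5 910))))))))
(cons (mv 846 (cons (fin 910 7 846)
(mv 847 (cons (fin 782 7 782)
(mv 1102 (cons (fin 1038 5 846)
(fin 1166 5 910)))))))
(mv 848 (cons (fin 912 6 847)
(mv 910 (cons (fin 846 7 846)
(mv 974 (cons (fin 1167 7 910)
(mv 972 (cons (fin 973 0 972)
(mv 1102 (cons (fin 1166 5 910)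
(mv 1101 (cons (fin 1100 2 1036)
(mv 1038 (cons (fin 1041 1 1037)
(fin 1165 5 909))))))))))))))))))))
(cons (mv 847 (cons (fin 1104 4 847)
(mv 782 (cons (fin 846 7 782)
(mv 783 (cons (fin 718 7 718)
(mv 784 (cons (fin 720 6 719)
(fin 848 6 783)))))))))
(cons (mv 847 (cons (fin 1104 4 847)
(mv 784 (cons (fin 848 6 783)
(mv 783 (cons (fin 720 6 719)
(mv 1038 (cons (fin 974 5 782)
(fin 1102 5 846)))))))))
(mv 847 (cons (fin 1104 4 847)
(mv 782 (cons (fin 846 7 782)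
(mv 783 (cons (fin 718 7 718)
(mv 1038 (cons (fin 974 5 782)
(fin 1102 5 846))))))))))))))))
(cons (cons (mv 1104 (cons (cons (mv 911 (cons (fin 847 4 847)
(mv 1168 (cons (fin 976 7 911)
(fin 1232 7 975)))))
(mv 911 (cons (fin 847 4 847)
(mv 1103 (cons (cons (mv 846 (cons (fin 910 7 846)
(mv 848 (cons (fin 912 6 847)
(mv 1102 (cons (fin 1166 5 910)
(mv 1101 (cons (fin 1100 2 1036)
(fin 1041 2 1037)))))))))
(mv 846 (cons (fin 910 7 846)
(mv 1102 (cons (fin 1166 5 910)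
(mv 1101 (cons (fin 1100 2 1036)
(fin 1041 2 1037))))))))
(cons (mv 846 (cons (fin 910 7 846)
(mv 912 (cons (fin 848 6 847)
(mv 976 (cons (fin 1167 5 911)
(mv 913 (cons (fin 849 6 848)
(mv 914 (cons (fin 974 1 910)
(fin 915 1 911)))))))))))
(mv 848 (cons (fin 912 6 847)
(mv 1102 (cons (fin 1166 5 910)
(mv 1101 (cons (fin 1100 2 1036)
(fin 1041 2 1037)))))))))))))
(cons (mv 1168 (cons (fin 1232 7 975)
(mv 976 (cons (cons (mv 913 (cons (fin 977 6 912)
(mv 912 (cons (fin 849 6 848)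
(mv 848 (cons (fin 784 5 783)
(fin 1103 5 847)))))))
(mv 1167 (cons (fin 1231 5 975)
(mv 912 (cons (fin 1103 5 911)
(mv 1169 (cons (fin 1105 4 912)
(fin 1233 4 976))))))))
(cons (mv 977 (cons (fin 913 6 912)
(mv 978 (cons (fin 979 1 975)
(mv 914 (cons (fin 915 2 911)
(mv 1167 (cons (fin 1231 5 975)
(mv 1169 (cons (fin 1233 4 976)
(mv 1041 (cons (fin 1105 6 913)
(mv 786 (cons (fin 850 5 785)
(mv 974 (cons (fin 973 0 973)
(mv 910 (cons (fin 909 3 909)
(fin 1103 7 910)))))))))))))))))))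
(mv 913 (cons (fin 977 6 912)
(mv 912 (cons (fin 849 6 848)
(mv 1169 (cons (fin 1105 4 912)
(fin 1233 4 976))))))))))))
(mv 911 (cons (fin 847 4 847)
(mv 1168 (cons (fin 1232 7 975)
(fin 1103 4 911))))))))
(cons (mv 1104 (cons (cons (mv 911 (cons (fin 847 4 847)
(mv 1168 (cons (fin 976 7 911)
(fin 1232 7 975)))))
(mv 1168 (cons (fin 1232 7 975)
(mv 976 (cons (mv 913 (cons (fin 977 6 912)
(mv 912 (cons (fin 849 6 848)
(mv 848 (cons (fin 784 5 783)
(fin 1103 5 847)))))))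
(cons (mv 1167 (cons (fin 1231 5 975)
(mv 912 (cons (fin 1103 5 911)
(mv 1169 (cons (fin 1105 4 912)
(fin 1233 4 976)))))))
(mv 977 (cons (fin 913 6 912)
(mv 978 (cons (fin 1038 1 974)
(fin 979 1 975)))))))))))
(cons (mv 911 (cons (fin 847 4 847)
(mv 1103 (cons (cons (mv 846 (cons (fin 910 7 846)
(mv 848 (cons (fin 912 6 847)
(mv 1166 (cons (fin 1102 5 910)
(mv 1167 (cons (fin 1230 5 974)
(mv 1231 (cons (fin 976 6 975)
(fin 1295 6 1039)))))))))))
(mv 846 (cons (fin 910 7 846)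
(mv 1166 (cons (fin 1102 5 910)
(mv 1167 (cons (fin 1230 5 974)
(mv 1231 (cons (fin 976 6 975)
(fin 1295 6 1039))))))))))
(cons (mv 846 (cons (fin 910 7 846)
(mv 912 (cons (fin 848 6 847)
(mv 976 (cons (fin 1167 5 911)
(mv 849 (cons (fin 913 6 848)
(mv 1105 (cons (fin 1169 4 912)
(mv 1106 (cons (fin 1038 3 1038)
(fin 1107 3 1039)))))))))))))
(cons (mv 848 (cons (fin 912 6 847)
(mv 1166 (cons (fin 1102 5 910)
(mv 1167 (cons (fin 1230 5 974)
(mv 1231 (cons (fin 976 6 975)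
(fin 1295 6 1039)))))))))
(mv 910 (cons (fin 846 7 846)
(mv 912 (cons (fin 848 6 847)
(mv 1102 (cons (fin 1166 5 910)
(mv 1101 (cons (fin 1100 2 1036)
(mv 1165 (cons (fin 1164 1 1100)
(mv 974 (cons (fin 1038 5 909)
(mv 913 (cons (fin 973 1 909)
(fin 914 1 910)))))))))))))))))))))
(mv 911 (cons (fin 847 4 847)
(mv 1168 (cons (fin 1232 7 975)
(fin 1103 4 911))))))))
(mv 1104 (cons (cons (mv 911 (cons (fin 847 4 847)
(mv 1168 (cons (fin 976 7 911)
(fin 1232 7 975)))))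
(mv 1168 (cons (fin 1232 7 975)
(mv 976 (cons (mv 913 (cons (fin 977 6 912)
(mv 912 (cons (fin 849 6 848)
(mv 848 (cons (fin 784 5 783)
(fin 1103 5 847)))))))
(cons (mv 1169 (cons (fin 1233 4 976)
(mv 912 (cons (fin 1105 4 912)
(mv 848 (cons (fin 784 5 783)
(fin 1103 5 847)))))))
(mv 977 (cons (fin 913 6 912)
(mv 978 (cons (fin 1038 1 974)
(fin 979 1 975)))))))))))
(cons (mv 911 (cons (fin 847 4 847)
(mv 1103 (cons (cons (mv 846 (cons (fin 910 7 846)
(mv 848 (cons (fin 912 6 847)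
(mv 1102 (cons (fin 1166 5 910)
(mv 1101 (cons (fin 1100 2 1036)
(fin 1041 2 1037)))))))))
(mv 846 (cons (fin 910 7 846)
(mv 912 (cons (fin 848 6 847)
(mv 1105 (cons (mv 1106 (cons (fin 1038 3 1038)
(fin 1107 3 1039)))
(mv 976 (cons (fin 1169 4 912)
(mv 913 (cons (fin 849 6 848)
(mv 914 (cons (fin 974 1 910)
(fin 915 1 911))))))))))))))
(cons (mv 846 (cons (fin 910 7 846)
(mv 1102 (cons (fin 1166 5 910)
(mv 1101 (cons (fin 1100 2 1036)
(fin 1041 2 1037)))))))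
(mv 848 (cons (fin 912 6 847)
(mv 1102 (cons (fin 1166 5 910)
(mv 1101 (cons (fin 1100 2 1036)
(fin 1041 2 1037))))))))))))
(mv 911 (cons (fin 847 4 847)
(mv 1168 (cons (fin 1232 7 975)
(fin 1103 4 911))))))))))
(cons (cons (mv 1104 (cons (cons (mv 911 (cons (fin 847 4 847)
(mv 1168 (cons (fin 976 7 911)
(fin 1232 7 975)))))
(mv 911 (cons (fin 847 4 847)
(mv 1103 (cons (cons (mv 846 (cons (fin 910 7 846)
(mv 912 (cons (fin 848 6 847)
(mv 976 (cons (fin 1167 5 911)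
(mv 849 (cons (fin 913 6 848)
(mv 1105 (cons (fin 1169 4 912)
(mv 1106 (cons (fin 1038 3 1038)
(fin 1107 3 1039)))))))))))))
(mv 910 (cons (fin 846 7 846)
(mv 974 (cons (fin 1167 7 910)
(mv 973 (cons (fin 972 0 972)
(mv 1041 (cons (fin 1038 3 973)
(fin 976 0 973))))))))))
(cons (mv 912 (cons (fin 848 6 847)
(mv 976 (cons (fin 1167 5 911)
(mv 849 (cons (fin 913 6 848)
(mv 1105 (cons (fin 1169 4 912)
(mv 1106 (cons (fin 1038 3 1038)
(fin 1107 3 1039)))))))))))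
(cons (mv 846 (cons (fin 910 7 846)
(mv 912 (cons (fin 848 6 847)
(mv 1105 (cons (mv 1106 (cons (fin 1038 3 1038)
(fin 1107 3 1039)))
(mv 976 (cons (fin 1169 4 912)
(mv 913 (cons (fin 849 6 848)
(mv 914 (cons (fin 974 1 910)
(fin 915 1 911)))))))))))))
(mv 848 (cons (fin 912 6 847)
(mv 910 (cons (fin 846 7 846)
(mv 1167 (cons (fin 974 7 910)
(mv 1230 (cons (fin 1166 5 974)
(mv 1231 (cons (fin 1294 5 1038)
(fin 1295 6 1039))))))))))))))))))
(cons (mv 1168 (cons (fin 1232 7 975)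
(mv 976 (cons (mv 913 (cons (fin 977 6 912)
(mv 912 (cons (fin 849 6 848)
(mv 848 (cons (fin 784 5 783)
(fin 1103 5 847)))))))
(cons (mv 1167 (cons (fin 1231 5 975)
(mv 912 (cons (fin 1103 5 911)
(mv 1169 (cons (fin 1105 4 912)
(fin 1233 4 976)))))))
(mv 977 (cons (fin 913 6 912)
(mv 978 (cons (fin 1038 1 974)
(fin 979 1 975))))))))))
(mv 911 (cons (fin 847 4 847)
(mv 1168 (cons (fin 1232 7 975)
(fin 1103 4 911))))))))
(mv 1104 (cons (cons (mv 911 (cons (fin 847 4 847)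
(mv 1168 (cons (fin 976 7 911)
(fin 1232 7 975)))))
(mv 911 (cons (fin 847 4 847)
(mv 1103 (cons (cons (mv 846 (cons (fin 910 7 846)
(mv 1102 (cons (fin 1166 5 910)
(mv 1101 (cons (fin 1100 2 1036)
(fin 1041 2 1037)))))))
(mv 910 (cons (fin 846 7 846)
(mv 974 (cons (fin 1167 7 910)
(mv 973 (cons (fin 972 0 972)
(mv 1041 (cons (fin 1038 3 973)
(fin 976 0 973))))))))))
(cons (mv 1102 (cons (fin 1166 5 910)
(mv 1101 (cons (fin 1100 2 1036)
(fin 1041 2 1037)))))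
(mv 846 (cons (fin 910 7 846)
(mv 1166 (cons (fin 1102 5 910)
(mv 1167 (cons (fin 1230 5 974)
(mv 1231 (cons (fin 976 6 975)
(fin 1295 6 1039)))))))))))))))
(cons (mv 1168 (cons (fin 1232 7 975)
(mv 976 (cons (mv 977 (cons (fin 913 6 912)
(mv 978 (cons (fin 1038 1 974)
(fin 979 1 975)))))
(mv 1167 (cons (fin 1231 5 975)
(mv 1169 (cons (fin 1233 4 976)
(mv 1103 (cons (mv 1102 (cons (fin 1170 3 1102)
(fin 1101 0 1101)))
(mv 910 (cons (fin 974 7 910)
(mv 1166 (cons (fin 1230 5 974)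
(mv 1105 (cons (fin 1106 1 1102)
(fin 1165 2 1101)))))))))))))))))
(mv 911 (cons (fin 847 4 847)
(mv 1168 (cons (fin 1232 7 975)
(fin 1103 4 911)))))))))
(cons (mv 1104 (cons (cons (mv 911 (cons (fin 847 4 847)
(mv 1168 (cons (fin 976 7 911)
(fin 1232 7 975)))))
(mv 911 (cons (fin 847 4 847)
(mv 1103 (cons (mv 848 (cons (fin 912 6 847)
(mv 1102 (cons (fin 1166 5 910)
(mv 1101 (cons (fin 1100 2 1036)
(fin 1041 2 1037)))))))
(cons (mv 1102 (cons (fin 1166 5 910)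
(mv 1101 (cons (fin 1100 2 1036)
(fin 1041 2 1037)))))
(mv 912 (cons (fin 848 6 847)
(mv 976 (cons (fin 1167 5 911)
(mv 849 (cons (fin 913 6 848)
(mv 1105 (cons (fin 1169 4 912)
(mv 1106 (cons (fin 1038 3 1038)
(fin 1107 3 1039)))))))))))))))))
(cons (mv 1168 (cons (fin 1232 7 975)
(mv 976 (cons (mv 913 (cons (fin 977 6 912)
(mv 912 (cons (fin 849 6 848)
(mv 848 (cons (fin 784 5 783)
(fin 1103 5 847)))))))
(cons (mv 1167 (cons (fin 1231 5 975)
(mv 912 (cons (fin 1103 5 911)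
(mv 1169 (cons (fin 1105 4 912)
(fin 1233 4 976)))))))
(mv 977 (cons (fin 913 6 912)
(mv 978 (cons (fin 1038 1 974)
(fin 979 1 975))))))))))
(mv 911 (cons (fin 847 4 847)
(mv 1168 (cons (fin 1232 7 975)
(fin 1103 4 911))))))))
(mv 1104 (cons (cons (mv 911 (cons (fin 847 4 847)
(mv 1168 (cons (fin 976 7 911)
(fin 1232 7 975)))))
(mv 911 (cons (fin 847 4 847)
(mv 1103 (cons (cons (mv 846 (cons (fin 910 7 846)
(mv 912 (cons (fin 848 6 847)
(mv 976 (cons (fin 1167 5 911)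
(mv 849 (cons (fin 913 6 848)
(mv 1105 (cons (fin 1169 4 912)
(mv 1106 (cons (fin 1038 3 1038)
(fin 1107 3 1039)))))))))))))
(mv 910 (cons (fin 846 7 846)
(mv 974 (cons (fin 1167 7 910)
(mv 973 (cons (fin 972 0 972)
(mv 1041 (cons (fin 1038 3 973)
(fin 976 0 973))))))))))
(cons (mv 912 (cons (fin 848 6 847)
(mv 976 (cons (fin 1167 5 911)
(mv 849 (cons (fin 913 6 848)
(mv 1105 (cons (fin 1169 4 912)
(mv 1106 (cons (fin 1038 3 1038)
(fin 1107 3 1039)))))))))))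
(cons (mv 846 (cons (fin 910 7 846)
(mv 912 (cons (fin 848 6 847)
(mv 1105 (cons (mv 1106 (cons (fin 1038 3 1038)
(fin 1107 3 1039)))
(mv 976 (cons (fin 1169 4 912)
(mv 913 (cons (fin 849 6 848)
(mv 914 (cons (fin 974 1 910)
(fin 915 1 911)))))))))))))
(mv 910 (cons (fin 846 7 846)
(mv 912 (cons (fin 848 6 847)
(mv 974 (cons (fin 1167 7 910)
(mv 913 (cons (fin 973 1 909)
(fin 914 1 910))))))))))))))))
(cons (mv 1168 (cons (fin 1232 7 975)
(mv 976 (cons (mv 913 (cons (fin 977 6 912)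
(mv 912 (cons (fin 849 6 848)
(mv 848 (cons (fin 784 5 783)
(fin 1103 5 847)))))))
(cons (mv 1167 (cons (fin 1231 5 975)
(mv 912 (cons (fin 1103 5 911)
(mv 1169 (cons (fin 1105 4 912)
(fin 1233 4 976)))))))
(mv 977 (cons (fin 913 6 912)
(mv 978 (cons (fin 1038 1 974)
(fin 979 1 975))))))))))
(mv 911 (cons (fin 847 4 847)
(mv 1168 (cons (fin 1232 7 975)
(fin 1103 4 911)))))))))))))
def l13 : Lem := ⟨17672042592950510299342161747532428741358160893794450532607270698129752962383966679797774154701950421020191674846877452631289669433532411657536873821582864322832094995237976664601613395680896036318715866521764407099865564676993471100411554418605480722106008602337571462179774064736310031630534868627379729584881664, 1236295817811015980840907946461463395171335043620014248642891499797609250111659436657543874777534610684448836787004020457752896765042819382596749982660963155802878567059462661662839684215816794372434386782911659788237852993799491627943467572615140596269611049660143813608975182737691081648123094007597061190436205656922715039408276209883349500548684035564496757857986323009649609153003388928,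 1236295817811015980840907946461463395171335043620014248642891499797609250111659436657543874777534610684448836787004020457752896765042819382596749982660963155802878567059462661662839684215816794372434386782911659788237852993799491627943467572615140596269611049660143813608975182737691081648123094007597061190436205656922715039408276209883349500548684035564496757857986323009649609153003388928, 19, 33⟩
theorem l13_valid : l13.Valid :=
  Lem.valid_of_chk t13 t13_valid [1039, 1040] c13 l13 (by decide +kernel)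
end Crest.Agent.SnakyAux
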