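import Crest.Agent.S0047_aux.Checker

set_option autoImplicit false
set_option maxRecDepth 100000
namespace Crest.Agent.SnakyAux
open Cert
def t14 : Tbl := Tbl.nil
theorem t14_valid : t14.Valid := Tbl.valid_nil
def c14 : Cert :=
(mv 1038 (cons (cons (cons (mv 1041 (cons (cons (mv 973 (cons (fin 974 3 973)
(mv 977 (cons (fin 978 2 974)
(mv 976 (cons (fin 1037 2 973)
(mv 1101 (cons (fin 1102 1 1037)
(mv 1105 (cons (fin 1106 0 1038)
(mv 912 (cons (fin 1169 7 912)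
(fin 848 4 848)))))))))))))
(cons (mv 973 (cons (fin 974 3 973)
(mv 1101 (cons (fin 1102 1 1037)
(mv 1037 (cons (fin 1100 1 1036)
(mv 1105 (cons (fin 1104 0 1037)
(fin 1106 0 1038)))))))))
(mv 973 (cons (fin 974 3 973)
(mv 977 (cons (fin 978 2 974)
(mv 1037 (cons (fin 976 2 973)
(mv 1101 (cons (fin 1100 1 1036)
(fin 1102 1 1037)))))))))))
(cons (mv 973 (cons (fin 974 3 973)
(mv 977 (cons (fin 978 2 974)
(mv 976 (cons (fin 1037 2 973)
(mv 1105 (cons (fin 1106 0 1038)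
(mv 912 (cons (fin 1169 7 912)
(fin 848 4 848)))))))))))
(cons (mv 977 (cons (fin 978 2 974)
(mv 976 (cons (fin 1037 2 973)
(mv 1101 (cons (fin 1102 1 1037)
(mv 1105 (cons (fin 1106 0 1038)
(mv 912 (cons (fin 1169 7 912)
(fin 848 4 848)))))))))))
(mv 973 (cons (fin 974 3 973)
(mv 977 (cons (fin 978 2 974)
(mv 1101 (cons (fin 1102 1 1037)
(mv 1105 (cons (fin 1106 0 1038)
(mv 913 (cons (mv 1104 (cons (fin 849 5 848)
(fin 1168 5 912)))
(cons (mv 848 (cons (fin 912 7 848)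
(mv 849 (cons (fin 784 7 784)
(mv 850 (cons (fin 786 6 785)
(fin 914 6 849)))))))
(mv 848 (cons (fin 912 7 848)
(mv 850 (cons (fin 914 6 849)
(mv 1168 (cons (fin 1104 5 912)
(mv 1169 (cons (fin 1232 5 976)
(mv 1233 (cons (fin 976 7 976)
(mv 1234 (cons (fin 1170 4 977)
(fin 1298 4 1041))))))))))))))))))))))))))))
(cons (mv 1037 (cons (cons (mv 976 (cons (fin 977 2 973)
(mv 975 (cons (fin 1036 2 972)
(mv 1100 (cons (fin 1101 1 1036)
(mv 1104 (cons (fin 1105 0 1037)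
(mv 911 (cons (fin 1168 7 911)
(fin 847 4 847)))))))))))
(mv 1100 (cons (fin 1101 1 1036)
(mv 1036 (cons (fin 1099 1 1035)
(mv 1104 (cons (fin 1103 0 1036)
(fin 1105 0 1037))))))))
(cons (mv 976 (cons (fin 977 2 973)
(mv 1036 (cons (fin 975 2 972)
(mv 1100 (cons (fin 1099 1 1035)
(fin 1101 1 1036)))))))
(cons (mv 976 (cons (fin 977 2 973)
(mv 975 (cons (fin 1036 2 972)
(mv 1104 (cons (fin 1105 0 1037)
(mv 911 (cons (fin 1168 7 911)
(fin 847 4 847)))))))))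
(mv 976 (cons (fin 977 2 973)
(mv 1100 (cons (fin 1101 1 1036)
(mv 1104 (cons (fin 1105 0 1037)
(mv 912 (cons (mv 1103 (cons (fin 848 5 847)
(fin 1167 5 911)))
(cons (mv 847 (cons (fin 911 7 847)
(mv 848 (cons (fin 783 7 783)
(mv 849 (cons (fin 785 6 784)
(fin 913 6 848)))))))
(mv 847 (cons (fin 911 7 847)
(mv 849 (cons (fin 913 6 848)
(mv 1167 (cons (fin 1103 5 911)
(mv 1168 (cons (fin 1231 5 975)
(mv 1232 (cons (fin 975 7 975)
(mv 1233 (cons (fin 1169 4 976)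
(fin 1297 4 1040))))))))))))))))))))))))))
(mv 1041 (cons (cons (cons (mv 973 (cons (fin 974 3 973)
(mv 977 (cons (fin 978 2 974)
(mv 1101 (cons (fin 1102 1 1037)
(mv 1105 (cons (fin 1106 0 1038)
(mv 913 (cons (mv 1104 (cons (fin 849 5 848)
(fin 1168 5 912)))
(cons (mv 848 (cons (fin 912 7 848)
(mv 849 (cons (fin 784 7 784)
(mv 850 (cons (fin 786 6 785)
(fin 914 6 849)))))))
(mv 848 (cons (fin 912 7 848)
(mv 850 (cons (fin 914 6 849)
(mv 1168 (cons (fin 1104 5 912)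
(mv 1169 (cons (fin 1232 5 976)
(mv 1233 (cons (fin 976 7 976)
(mv 1234 (cons (fin 1170 4 977)
(fin 1298 4 1041))))))))))))))))))))))))
(mv 973 (cons (fin 974 3 973)
(mv 1102 (cons (fin 1101 1 1037)
(mv 1105 (cons (fin 1106 0 1038)
(mv 1166 (cons (cons (mv 975 (cons (fin 1230 6 974)
(mv 911 (cons (fin 847 5 846)
(fin 1103 5 910)))))
(mv 1103 (cons (cons (mv 911 (cons (fin 975 5 910)
(mv 1104 (cons (fin 1165 1 1101)
(mv 1169 (cons (fin 1170 0 1102)
(mv 976 (cons (fin 1233 7 976)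
(fin 912 4 912)))))))))
(mv 975 (cons (fin 911 5 910)
(mv 1167 (cons (mv 976 (cons (fin 912 6 911)
(fin 1231 6 975)))
(cons (mv 1231 (cons (fin 1295 7 1038)
(mv 1232 (cons (fin 1168 4 975)
(fin 1296 4 1039)))))
(mv 976 (cons (fin 912 6 911)
(mv 1168 (cons (fin 1232 4 975)
(mv 1169 (cons (fin 1170 3 1102)
(fin 1233 7 976)))))))))))))
(cons (mv 1104 (cons (fin 1165 1 1101)
(mv 1169 (cons (fin 1170 0 1102)
(mv 976 (cons (fin 1233 7 976)
(fin 912 4 912)))))))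
(cons (mv 911 (cons (fin 975 5 910)
(mv 1104 (cons (fin 1165 1 1101)
(mv 1169 (cons (fin 1170 0 1102)
(mv 1233 (cons (fin 1297 7 1040)
(mv 1232 (cons (fin 1296 5 1040)
(mv 1234 (cons (fin 1298 4 1041)
(mv 1167 (cons (fin 1231 3 1166)
(fin 1168 0 1166)))))))))))))))
(mv 911 (cons (fin 975 5 910)
(mv 1165 (cons (fin 1104 1 1101)
(mv 1164 (cons (fin 1163 2 1099)
(mv 1167 (cons (mv 1231 (cons (fin 1232 0 1164)
(fin 1295 7 1038)))
(mv 1100 (cons (fin 1099 3 1099)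
(mv 1228 (cons (fin 1227 1 1163)
(mv 1229 (cons (fin 1168 1 1164)
(mv 1293 (cons (fin 1357 7 1100)
(fin 1036 4 1036))))))))))))))))))))))
(cons (mv 1230 (cons (cons (mv 1103 (cons (fin 1294 6 1038)
(mv 1104 (cons (fin 1165 1 1101)
(mv 1169 (cons (fin 1170 0 1102)
(mv 976 (cons (fin 1233 7 976)
(fin 912 4 912)))))))))
(mv 1229 (cons (fin 1293 5 1037)
(mv 1231 (cons (fin 1295 4 1038)
(mv 1232 (cons (mv 1165 (cons (fin 1164 3 1164)
(fin 1233 3 1165)))
(mv 1168 (cons (fin 1169 2 1165)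
(mv 1296 (cons (fin 1297 0 1229)
(fin 1104 6 1040))))))))))))
(cons (mv 1103 (cons (fin 1294 6 1038)
(mv 1104 (cons (fin 1165 1 1101)
(mv 1229 (cons (fin 1293 5 1037)
(mv 1231 (cons (fin 1295 4 1038)
(mv 1167 (cons (fin 976 6 975)
(mv 1228 (cons (fin 1227 2 1163)
(fin 1168 2 1164)))))))))))))
(cons (mv 1103 (cons (fin 1294 6 1038)
(mv 1229 (cons (fin 1293 5 1037)
(mv 1231 (cons (fin 1295 4 1038)
(mv 976 (cons (fin 1167 6 975)
(mv 912 (cons (fin 848 5 847)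
(mv 1169 (cons (fin 1233 7 976)
(fin 1104 4 912)))))))))))))
(mv 1103 (cons (fin 1294 6 1038)
(mv 1229 (cons (fin 1293 5 1037)
(mv 1231 (cons (fin 1295 4 1038)
(mv 976 (cons (fin 1167 6 975)
(mv 848 (cons (fin 912 5 847)
(mv 1233 (cons (fin 1169 7 976)
(mv 1232 (cons (fin 1165 3 1165)
(mv 1297 (cons (fin 1296 0 1229)
(fin 1298 0 1230)))))))))))))))))))))
(mv 1230 (cons (fin 975 6 974)
(mv 1231 (cons (fin 1295 4 1038)
(mv 1293 (cons (fin 1229 5 1037)
(mv 1294 (cons (fin 1357 5 1101)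
(mv 1233 (cons (fin 1232 1 1229)
(mv 1169 (cons (fin 976 7 976)
(mv 1234 (cons (fin 1298 4 1041)
(mv 1167 (cons (fin 1168 0 1166)
(mv 1297 (cons (fin 1104 7 1040)
(mv 1358 (cons (fin 1422 6 1166)
(mv 1359 (cons (fin 1423 4 1166)
(mv 1360 (cons (fin 1361 3 1293)
(fin 1296 5 1104)))))))))))))))))))))))))))))))))))
(cons (mv 973 (cons (fin 974 3 973)
(mv 977 (cons (fin 978 2 974)
(mv 1105 (cons (fin 1106 0 1038)
(mv 913 (cons (mv 1104 (cons (fin 849 5 848)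
(fin 1168 5 912)))
(cons (mv 848 (cons (fin 912 7 848)
(mv 849 (cons (fin 784 7 784)
(mv 850 (cons (fin 786 6 785)
(fin 914 6 849)))))))
(mv 848 (cons (fin 912 7 848)
(mv 850 (cons (fin 914 6 849)
(mv 1168 (cons (fin 1104 5 912)
(mv 1169 (cons (fin 1232 5 976)
(mv 1233 (cons (fin 976 7 976)
(mv 1234 (cons (fin 1170 4 977)
(fin 1298 4 1041))))))))))))))))))))))
(cons (mv 974 (cons (fin 973 3 973)
(mv 977 (cons (fin 978 2 974)
(mv 1101 (cons (fin 1102 1 1037)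
(mv 913 (cons (cons (mv 849 (cons (fin 1104 5 848)
(mv 784 (cons (fin 848 7 784)
(mv 785 (cons (fin 720 7 720)
(fin 976 5 784)))))))
(mv 976 (cons (cons (mv 975 (cons (fin 914 2 910)
(mv 910 (cons (fin 909 3 909)
(mv 846 (cons (fin 782 4 782)
(fin 1103 4 846)))))))
(mv 1104 (cons (fin 1168 6 912)
(mv 912 (cons (mv 848 (cons (fin 1103 5 847)
(fin 784 4 784)))
(cons (mv 847 (cons (fin 911 7 847)
(mv 848 (cons (fin 783 7 783)
(fin 784 4 784)))))
(mv 911 (cons (fin 847 7 847)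
(mv 910 (cons (fin 909 0 909)
(mv 846 (cons (fin 845 3 845)
(fin 1103 4 846)))))))))))))
(cons (mv 975 (cons (fin 914 2 910)
(mv 910 (cons (fin 909 3 909)
(mv 846 (cons (fin 782 4 782)
(mv 781 (cons (fin 845 7 781)
(mv 847 (cons (fin 783 6 782)
(mv 1104 (cons (fin 1168 6 912)
(fin 911 4 847)))))))))))))
(mv 914 (cons (fin 975 2 910)
(mv 915 (cons (fin 916 1 912)
(mv 1104 (cons (fin 1168 6 912)
(mv 912 (cons (mv 847 (cons (fin 848 3 847)
(fin 911 7 847)))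
(cons (mv 851 (cons (fin 852 2 848)
(mv 911 (cons (fin 850 2 847)
(fin 847 7 847)))))
(mv 848 (cons (fin 1103 5 847)
(fin 784 4 784))))))))))))))))
(cons (mv 849 (cons (mv 784 (cons (fin 848 7 784)
(mv 785 (cons (fin 720 7 720)
(fin 976 5 784)))))
(cons (mv 786 (cons (fin 850 6 785)
(mv 848 (cons (fin 784 7 784)
(mv 846 (cons (mv 847 (cons (fin 914 0 846)
(mv 910 (cons (fin 909 1 845)
(fin 783 6 782)))))
(cons (mv 910 (cons (fin 1103 4 846)
(mv 781 (cons (fin 845 7 781)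
(mv 782 (cons (fin 717 7 717)
(fin 975 4 782)))))))
(mv 847 (cons (fin 914 0 846)
(mv 781 (cons (fin 782 3 781)
(mv 845 (cons (fin 780 3 780)
(fin 912 0 845))))))))))))))
(mv 785 (cons (fin 976 5 784)
(mv 786 (cons (fin 722 6 721)
(fin 850 6 785))))))))
(cons (mv 849 (cons (fin 1104 5 848)
(mv 784 (cons (fin 848 7 784)
(mv 785 (cons (fin 720 7 720)
(mv 786 (cons (fin 722 6 721)
(fin 850 6 785)))))))))
(mv 849 (cons (fin 1104 5 848)
(mv 785 (cons (fin 976 5 784)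
(mv 786 (cons (fin 722 6 721)
(fin 850 6 785)))))))))))))))))
(mv 977 (cons (fin 978 2 974)
(mv 1101 (cons (fin 1102 1 1037)
(mv 1105 (cons (fin 1106 0 1038)
(mv 913 (cons (mv 1104 (cons (fin 849 5 848)
(fin 1168 5 912)))
(cons (mv 848 (cons (fin 912 7 848)
(mv 849 (cons (fin 784 7 784)
(mv 850 (cons (fin 786 6 785)
(fin 914 6 849)))))))
(mv 848 (cons (fin 912 7 848)
(mv 850 (cons (fin 914 6 849)
(mv 1168 (cons (fin 1104 5 912)
(mv 1169 (cons (fin 1232 5 976)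
(mv 1233 (cons (fin 976 7 976)
(mv 1234 (cons (fin 1170 4 977)
(fin 1298 4 1041)))))))))))))))))))))))))
(cons (cons (mv 973 (cons (fin 974 3 973)
(mv 977 (cons (fin 978 2 974)
(mv 1101 (cons (fin 1102 1 1037)
(mv 1105 (cons (fin 1106 0 1038)
(mv 913 (cons (mv 1104 (cons (fin 849 5 848)
(fin 1168 5 912)))
(cons (mv 848 (cons (fin 912 7 848)
(mv 849 (cons (fin 784 7 784)
(mv 850 (cons (fin 786 6 785)
(fin 914 6 849)))))))
(mv 848 (cons (fin 912 7 848)
(mv 850 (cons (fin 914 6 849)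
(mv 1169 (cons (cons (mv 1168 (cons (fin 1104 5 912)
(fin 1232 5 976)))
(mv 1234 (cons (fin 1170 4 977)
(mv 1233 (cons (fin 1298 4 1041)
(mv 1296 (cons (fin 1232 5 1040)
(mv 1297 (cons (fin 1104 7 1040)
(fin 1360 5 1104))))))))))
(cons (mv 1232 (cons (fin 1168 5 976)
(mv 1233 (cons (fin 1296 5 1040)
(mv 1234 (cons (fin 1170 4 977)
(fin 1298 4 1041)))))))
(mv 1104 (cons (fin 1168 5 912)
(mv 1233 (cons (fin 1297 7 1040)
(mv 1234 (cons (fin 1170 4 977)
(fin 1298 4 1041)))))))))))))))))))))))))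
(mv 973 (cons (fin 974 3 973)
(mv 977 (cons (fin 978 2 974)
(mv 1101 (cons (fin 1102 1 1037)
(mv 1105 (cons (fin 1106 0 1038)
(mv 1169 (cons (mv 976 (cons (fin 912 7 912)
(fin 1233 7 976)))
(cons (mv 1232 (cons (fin 1168 5 976)
(mv 1233 (cons (fin 1296 5 1040)
(mv 1234 (cons (fin 1170 4 977)
(fin 1298 4 1041)))))))
(mv 1168 (cons (fin 1232 5 976)
(mv 1170 (cons (fin 1234 4 977)
(mv 913 (cons (cons (mv 912 (cons (fin 848 7 848)
(fin 976 7 912)))
(mv 850 (cons (fin 914 6 849)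
(mv 849 (cons (fin 786 6 785)
(mv 784 (cons (fin 848 7 784)
(mv 785 (cons (fin 720 7 720)
(fin 976 5 784))))))))))
(cons (mv 848 (cons (fin 912 7 848)
(mv 849 (cons (fin 784 7 784)
(mv 850 (cons (fin 786 6 785)
(fin 914 6 849)))))))
(mv 850 (cons (fin 914 6 849)
(mv 849 (cons (fin 786 6 785)
(mv 976 (cons (fin 912 7 912)
(fin 785 5 784))))))))))))))))))))))))))
(cons (mv 973 (cons (fin 974 3 973)
(mv 977 (cons (fin 978 2 974)
(mv 1101 (cons (fin 1102 1 1037)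
(mv 1105 (cons (fin 1106 0 1038)
(mv 1169 (cons (mv 976 (cons (fin 912 7 912)
(fin 1233 7 976)))
(cons (mv 1234 (cons (fin 1170 4 977)
(mv 1233 (cons (fin 1298 4 1041)
(mv 1296 (cons (fin 1232 5 1040)
(mv 1297 (cons (fin 1104 7 1040)
(fin 1360 5 1104)))))))))
(mv 912 (cons (fin 976 7 912)
(mv 913 (cons (fin 848 7 848)
(mv 849 (cons (fin 1104 5 848)
(mv 850 (cons (fin 786 6 785)
(fin 914 6 849))))))))))))))))))))
(cons (mv 973 (cons (fin 974 3 973)
(mv 977 (cons (fin 978 2 974)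
(mv 1101 (cons (fin 1102 1 1037)
(mv 1105 (cons (fin 1106 0 1038)
(mv 913 (cons (mv 1104 (cons (fin 849 5 848)
(fin 1168 5 912)))
(cons (mv 850 (cons (fin 914 6 849)
(mv 849 (cons (fin 786 6 785)
(mv 784 (cons (fin 848 7 784)
(mv 785 (cons (fin 720 7 720)
(fin 976 5 784)))))))))
(mv 850 (cons (fin 914 6 849)
(mv 1168 (cons (fin 1104 5 912)
(mv 1169 (cons (fin 1232 5 976)
(mv 1233 (cons (fin 976 7 976)
(mv 1234 (cons (fin 1170 4 977)
(fin 1298 4 1041))))))))))))))))))))))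
(mv 973 (cons (fin 974 3 973)
(mv 977 (cons (fin 978 2 974)
(mv 1101 (cons (fin 1102 1 1037)
(mv 1105 (cons (fin 1106 0 1038)
(mv 1169 (cons (mv 976 (cons (fin 912 7 912)
(fin 1233 7 976)))
(mv 1168 (cons (fin 1232 5 976)
(mv 1104 (cons (fin 913 5 912)
(mv 1170 (cons (fin 1234 4 977)
(mv 1171 (cons (fin 1103 3 1103)
(fin 1172 3 1104))))))))))))))))))))))))))
(cons (mv 1041 (cons (cons (mv 973 (cons (fin 974 3 973)
(mv 977 (cons (fin 978 2 974)
(mv 976 (cons (fin 1037 2 973)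
(mv 1105 (cons (fin 1106 0 1038)
(mv 912 (cons (fin 1169 7 912)
(fin 848 4 848)))))))))))
(cons (mv 973 (cons (fin 974 3 973)
(mv 1105 (cons (fin 1106 0 1038)
(mv 1104 (cons (fin 1037 0 1037)
(mv 976 (cons (mv 912 (cons (fin 848 4 848)
(fin 1169 4 912)))
(cons (mv 1169 (cons (fin 1233 7 976)
(mv 1168 (cons (mv 975 (cons (fin 911 7 911)
(fin 1232 7 975)))
(cons (mv 975 (cons (fin 911 7 911)
(mv 1167 (cons (fin 1231 5 975)
(mv 1166 (cons (fin 1165 2 1101)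
(mv 1230 (cons (fin 1229 1 1165)
(fin 1103 5 974)))))))))
(mv 1231 (cons (fin 1167 5 975)
(mv 1232 (cons (fin 1295 5 1039)
(fin 1296 6 1040))))))))))
(mv 912 (cons (fin 848 4 848)
(mv 847 (cons (fin 911 7 847)
(mv 849 (cons (fin 913 6 848)
(mv 1167 (cons (fin 1103 5 911)
(mv 1168 (cons (fin 1231 5 975)
(mv 1232 (cons (fin 975 7 975)
(fin 1296 6 1040))))))))))))))))))))))
(mv 973 (cons (fin 974 3 973)
(mv 977 (cons (fin 978 2 974)
(mv 976 (cons (fin 1037 2 973)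
(mv 1104 (cons (mv 913 (cons (fin 849 5 848)
(fin 1168 6 912)))
(cons (mv 913 (cons (fin 849 5 848)
(mv 912 (cons (mv 848 (cons (fin 1103 5 847)
(fin 784 4 784)))
(cons (mv 911 (cons (fin 847 7 847)
(mv 910 (cons (fin 909 0 909)
(mv 846 (cons (fin 845 3 845)
(mv 1103 (cons (fin 975 7 846)
(fin 1167 5 911)))))))))
(mv 847 (cons (fin 911 7 847)
(mv 848 (cons (fin 783 7 783)
(fin 784 4 784))))))))))
(mv 1168 (cons (fin 1232 6 976)
(mv 911 (cons (fin 975 7 911)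
(mv 912 (cons (fin 847 7 847)
(mv 848 (cons (fin 1103 5 847)
(fin 784 4 784))))))))))))))))))))
(cons (mv 977 (cons (fin 978 2 974)
(mv 976 (cons (fin 1037 2 973)
(mv 1105 (cons (fin 1106 0 1038)
(mv 912 (cons (fin 1169 7 912)
(fin 848 4 848)))))))))
(cons (mv 973 (cons (fin 974 3 973)
(mv 977 (cons (fin 978 2 974)
(mv 1105 (cons (fin 1106 0 1038)
(mv 1169 (cons (mv 976 (cons (fin 912 7 912)
(fin 1233 7 976)))
(cons (mv 1168 (cons (fin 1232 5 976)
(mv 913 (cons (fin 1104 5 912)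
(mv 848 (cons (fin 912 7 848)
(mv 849 (cons (fin 784 7 784)
(mv 850 (cons (fin 786 6 785)
(fin 914 6 849)))))))))))
(mv 976 (cons (fin 1233 7 976)
(mv 1168 (cons (fin 1232 5 976)
(mv 913 (cons (fin 1104 5 912)
(mv 849 (cons (fin 785 5 784)
(mv 850 (cons (fin 786 6 785)
(fin 914 6 849))))))))))))))))))))
(mv 973 (cons (fin 974 3 973)
(mv 977 (cons (fin 978 2 974)
(mv 1105 (cons (fin 1106 0 1038)
(mv 1104 (cons (fin 1037 0 1037)
(mv 913 (cons (fin 849 5 848)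
(fin 1168 5 912)))))))))))))))
(cons (mv 1041 (cons (cons (mv 973 (cons (fin 974 3 973)
(mv 1101 (cons (fin 1102 1 1037)
(mv 1037 (cons (fin 1100 1 1036)
(mv 1105 (cons (fin 1104 0 1037)
(fin 1106 0 1038)))))))))
(cons (mv 974 (cons (fin 973 3 973)
(mv 1101 (cons (fin 1102 1 1037)
(mv 1037 (cons (fin 1100 1 1036)
(mv 910 (cons (fin 846 5 845)
(mv 1165 (cons (fin 1229 6 973)
(mv 975 (cons (mv 1036 (cons (fin 1035 2 971)
(fin 976 2 972)))
(cons (mv 1103 (cons (fin 1167 7 910)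
(mv 911 (cons (mv 847 (cons (fin 783 5 782)
(fin 1104 4 847)))
(cons (mv 912 (cons (fin 848 6 847)
(mv 913 (cons (fin 914 1 910)
(mv 849 (cons (fin 850 2 846)
(mv 1104 (cons (fin 976 6 848)
(fin 1168 4 911)))))))))
(mv 847 (cons (fin 783 5 782)
(mv 848 (cons (fin 784 6 783)
(fin 912 6 847))))))))))
(mv 1036 (cons (fin 1035 2 971)
(mv 1103 (cons (fin 1104 0 1036)
(fin 1167 7 910))))))))))))))))))
(mv 973 (cons (fin 974 3 973)
(mv 1105 (cons (fin 1106 0 1038)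
(mv 1104 (cons (fin 1037 0 1037)
(mv 976 (cons (mv 912 (cons (fin 848 4 848)
(fin 1169 4 912)))
(cons (mv 1169 (cons (fin 1233 7 976)
(mv 1168 (cons (mv 975 (cons (fin 911 7 911)
(fin 1232 7 975)))
(cons (mv 975 (cons (fin 911 7 911)
(mv 1167 (cons (fin 1231 5 975)
(mv 1166 (cons (fin 1165 2 1101)
(mv 1230 (cons (fin 1229 1 1165)
(fin 1103 5 974)))))))))
(mv 1231 (cons (fin 1167 5 975)
(mv 1232 (cons (fin 1295 5 1039)
(fin 1296 6 1040))))))))))
(mv 912 (cons (fin 848 4 848)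
(mv 847 (cons (fin 911 7 847)
(mv 849 (cons (fin 913 6 848)
(mv 1167 (cons (fin 1103 5 911)
(mv 1168 (cons (fin 1231 5 975)
(mv 1232 (cons (fin 975 7 975)
(fin 1296 6 1040))))))))))))))))))))))))
(cons (mv 1101 (cons (fin 1102 1 1037)
(mv 1037 (cons (fin 1100 1 1036)
(mv 1105 (cons (fin 1104 0 1037)
(fin 1106 0 1038)))))))
(cons (mv 973 (cons (fin 974 3 973)
(mv 1102 (cons (fin 1101 1 1037)
(mv 1105 (cons (fin 1106 0 1038)
(mv 1166 (cons (cons (mv 975 (cons (fin 1230 6 974)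
(mv 911 (cons (fin 847 5 846)
(fin 1103 5 910)))))
(mv 1103 (cons (cons (mv 911 (cons (fin 975 5 910)
(mv 1104 (cons (fin 1165 1 1101)
(mv 1169 (cons (fin 1170 0 1102)
(mv 976 (cons (fin 1233 7 976)
(fin 912 4 912)))))))))
(mv 975 (cons (fin 911 5 910)
(mv 1167 (cons (mv 976 (cons (fin 912 6 911)
(fin 1231 6 975)))
(cons (mv 1231 (cons (fin 1295 7 1038)
(mv 1232 (cons (fin 1168 4 975)
(fin 1296 4 1039)))))
(mv 976 (cons (fin 912 6 911)
(mv 1168 (cons (fin 1232 4 975)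
(mv 1169 (cons (fin 1170 3 1102)
(fin 1233 7 976)))))))))))))
(cons (mv 1104 (cons (fin 1165 1 1101)
(mv 1169 (cons (fin 1170 0 1102)
(mv 976 (cons (fin 1233 7 976)
(fin 912 4 912)))))))
(cons (mv 911 (cons (fin 975 5 910)
(mv 1104 (cons (fin 1165 1 1101)
(mv 1169 (cons (fin 1170 0 1102)
(mv 1233 (cons (fin 1297 7 1040)
(mv 1232 (cons (fin 1296 5 1040)
(mv 1234 (cons (fin 1298 4 1041)
(mv 1167 (cons (fin 1231 3 1166)
(fin 1168 0 1166)))))))))))))))
(mv 911 (cons (fin 975 5 910)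
(mv 1165 (cons (fin 1104 1 1101)
(mv 1164 (cons (fin 1163 2 1099)
(mv 1167 (cons (mv 1231 (cons (fin 1232 0 1164)
(fin 1295 7 1038)))
(mv 1100 (cons (fin 1099 3 1099)
(mv 1228 (cons (fin 1227 1 1163)
(mv 1229 (cons (fin 1168 1 1164)
(mv 1293 (cons (fin 1357 7 1100)
(fin 1036 4 1036))))))))))))))))))))))
(cons (mv 1230 (cons (cons (mv 1103 (cons (fin 1294 6 1038)
(mv 1104 (cons (fin 1165 1 1101)
(mv 1169 (cons (fin 1170 0 1102)
(mv 976 (cons (fin 1233 7 976)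
(fin 912 4 912)))))))))
(mv 1229 (cons (fin 1293 5 1037)
(mv 1231 (cons (fin 1295 4 1038)
(mv 1232 (cons (mv 1165 (cons (fin 1164 3 1164)
(fin 1233 3 1165)))
(mv 1168 (cons (fin 1169 2 1165)
(mv 1296 (cons (fin 1297 0 1229)
(fin 1104 6 1040))))))))))))
(cons (mv 1103 (cons (fin 1294 6 1038)
(mv 1104 (cons (fin 1165 1 1101)
(mv 1229 (cons (fin 1293 5 1037)
(mv 1231 (cons (fin 1295 4 1038)
(mv 1167 (cons (fin 976 6 975)
(mv 1228 (cons (fin 1227 2 1163)
(fin 1168 2 1164)))))))))))))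
(cons (mv 1103 (cons (fin 1294 6 1038)
(mv 1229 (cons (fin 1293 5 1037)
(mv 1231 (cons (fin 1295 4 1038)
(mv 976 (cons (fin 1167 6 975)
(mv 912 (cons (fin 848 5 847)
(mv 1169 (cons (fin 1233 7 976)
(fin 1104 4 912)))))))))))))
(mv 1103 (cons (fin 1294 6 1038)
(mv 1229 (cons (fin 1293 5 1037)
(mv 1231 (cons (fin 1295 4 1038)
(mv 976 (cons (fin 1167 6 975)
(mv 848 (cons (fin 912 5 847)
(mv 1233 (cons (fin 1169 7 976)
(mv 1232 (cons (fin 1165 3 1165)
(mv 1297 (cons (fin 1296 0 1229)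
(fin 1298 0 1230)))))))))))))))))))))
(mv 1230 (cons (fin 975 6 974)
(mv 1231 (cons (fin 1295 4 1038)
(mv 1293 (cons (fin 1229 5 1037)
(mv 1294 (cons (fin 1357 5 1101)
(mv 1233 (cons (fin 1232 1 1229)
(mv 1169 (cons (fin 976 7 976)
(mv 1234 (cons (fin 1298 4 1041)
(mv 1167 (cons (fin 1168 0 1166)
(mv 1297 (cons (fin 1104 7 1040)
(mv 1358 (cons (fin 1422 6 1166)
(mv 1359 (cons (fin 1423 4 1166)
(mv 1360 (cons (fin 1361 3 1293)
(fin 1296 5 1104))))))))))))))))))))))))))))))))))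
(mv 974 (cons (fin 973 3 973)
(mv 1102 (cons (fin 1101 1 1037)
(mv 1105 (cons (fin 1106 0 1038)
(mv 910 (cons (cons (mv 1103 (cons (fin 846 4 846)
(fin 1167 4 910)))
(mv 845 (cons (fin 909 7 845)
(mv 781 (cons (fin 846 7 781)
(mv 911 (cons (fin 847 6 846)
(mv 1166 (cons (fin 975 6 910)
(mv 1167 (cons (fin 1231 4 974)
(mv 1229 (cons (fin 1165 5 973)
(mv 1230 (cons (fin 1293 5 1037)
(mv 1169 (cons (fin 1168 1 1165)
(mv 1233 (cons (fin 976 7 976)
(mv 1296 (cons (fin 1232 5 1040)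
(mv 1297 (cons (fin 1360 5 1104)
(mv 1298 (cons (fin 1234 4 1041)
(fin 1362 4 1105))))))))))))))))))))))))))
(cons (mv 845 (cons (fin 909 7 845)
(mv 847 (cons (fin 911 6 846)
(mv 1167 (cons (fin 1103 4 910)
(mv 1166 (cons (fin 1231 4 974)
(mv 1229 (cons (fin 1165 5 973)
(mv 1230 (cons (fin 1293 5 1037)
(fin 975 6 974)))))))))))))
(mv 845 (cons (fin 909 7 845)
(mv 846 (cons (fin 781 7 781)
(fin 1103 4 846))))))))))))))))))
(mv 1041 (cons (cons (mv 973 (cons (fin 974 3 973)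
(mv 977 (cons (fin 978 2 974)
(mv 1037 (cons (fin 976 2 973)
(mv 1101 (cons (fin 1100 1 1036)
(fin 1102 1 1037)))))))))
(cons (mv 974 (cons (fin 973 3 973)
(mv 1101 (cons (fin 1102 1 1037)
(mv 1037 (cons (fin 1100 1 1036)
(mv 910 (cons (fin 846 5 845)
(mv 1165 (cons (fin 1229 6 973)
(mv 975 (cons (mv 1036 (cons (fin 1035 2 971)
(fin 976 2 972)))
(cons (mv 1103 (cons (fin 1167 7 910)
(mv 911 (cons (mv 847 (cons (fin 783 5 782)
(fin 1104 4 847)))
(cons (mv 912 (cons (fin 848 6 847)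
(mv 913 (cons (fin 914 1 910)
(mv 849 (cons (fin 850 2 846)
(mv 1104 (cons (fin 976 6 848)
(fin 1168 4 911)))))))))
(mv 847 (cons (fin 783 5 782)
(mv 848 (cons (fin 784 6 783)
(fin 912 6 847))))))))))
(mv 1036 (cons (fin 1035 2 971)
(mv 1103 (cons (fin 1104 0 1036)
(fin 1167 7 910))))))))))))))))))
(mv 973 (cons (fin 974 3 973)
(mv 977 (cons (fin 978 2 974)
(mv 976 (cons (fin 1037 2 973)
(mv 1104 (cons (mv 913 (cons (fin 849 5 848)
(fin 1168 6 912)))
(cons (mv 913 (cons (fin 849 5 848)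
(mv 912 (cons (mv 848 (cons (fin 1103 5 847)
(fin 784 4 784)))
(cons (mv 911 (cons (fin 847 7 847)
(mv 910 (cons (fin 909 0 909)
(mv 846 (cons (fin 845 3 845)
(mv 1103 (cons (fin 975 7 846)
(fin 1167 5 911)))))))))
(mv 847 (cons (fin 911 7 847)
(mv 848 (cons (fin 783 7 783)
(fin 784 4 784))))))))))
(mv 1168 (cons (fin 1232 6 976)
(mv 911 (cons (fin 975 7 911)
(mv 912 (cons (fin 847 7 847)
(mv 848 (cons (fin 1103 5 847)
(fin 784 4 784))))))))))))))))))))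
(cons (mv 977 (cons (fin 978 2 974)
(mv 1037 (cons (fin 976 2 973)
(mv 1101 (cons (fin 1100 1 1036)
(fin 1102 1 1037)))))))
(cons (mv 974 (cons (fin 973 3 973)
(mv 977 (cons (fin 978 2 974)
(mv 1101 (cons (fin 1102 1 1037)
(mv 913 (cons (cons (mv 849 (cons (fin 1104 5 848)
(mv 784 (cons (fin 848 7 784)
(mv 785 (cons (fin 720 7 720)
(fin 976 5 784)))))))
(mv 976 (cons (cons (mv 975 (cons (fin 914 2 910)
(mv 910 (cons (fin 909 3 909)
(mv 846 (cons (fin 782 4 782)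
(fin 1103 4 846)))))))
(mv 1104 (cons (fin 1168 6 912)
(mv 912 (cons (mv 848 (cons (fin 1103 5 847)
(fin 784 4 784)))
(cons (mv 847 (cons (fin 911 7 847)
(mv 848 (cons (fin 783 7 783)
(fin 784 4 784)))))
(mv 911 (cons (fin 847 7 847)
(mv 910 (cons (fin 909 0 909)
(mv 846 (cons (fin 845 3 845)
(fin 1103 4 846)))))))))))))
(cons (mv 975 (cons (fin 914 2 910)
(mv 910 (cons (fin 909 3 909)
(mv 846 (cons (fin 782 4 782)
(mv 781 (cons (fin 845 7 781)
(mv 847 (cons (fin 783 6 782)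
(mv 1104 (cons (fin 1168 6 912)
(fin 911 4 847)))))))))))))
(mv 914 (cons (fin 975 2 910)
(mv 915 (cons (fin 916 1 912)
(mv 1104 (cons (fin 1168 6 912)
(mv 912 (cons (mv 847 (cons (fin 848 3 847)
(fin 911 7 847)))
(cons (mv 851 (cons (fin 852 2 848)
(mv 911 (cons (fin 850 2 847)
(fin 847 7 847)))))
(mv 848 (cons (fin 1103 5 847)
(fin 784 4 784))))))))))))))))
(cons (mv 849 (cons (mv 784 (cons (fin 848 7 784)
(mv 785 (cons (fin 720 7 720)
(fin 976 5 784)))))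
(cons (mv 786 (cons (fin 850 6 785)
(mv 848 (cons (fin 784 7 784)
(mv 846 (cons (mv 847 (cons (fin 914 0 846)
(mv 910 (cons (fin 909 1 845)
(fin 783 6 782)))))
(cons (mv 910 (cons (fin 1103 4 846)
(mv 781 (cons (fin 845 7 781)
(mv 782 (cons (fin 717 7 717)
(fin 975 4 782)))))))
(mv 847 (cons (fin 914 0 846)
(mv 781 (cons (fin 782 3 781)
(mv 845 (cons (fin 780 3 780)
(fin 912 0 845))))))))))))))
(mv 785 (cons (fin 976 5 784)
(mv 786 (cons (fin 722 6 721)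
(fin 850 6 785))))))))
(cons (mv 849 (cons (fin 1104 5 848)
(mv 784 (cons (fin 848 7 784)
(mv 785 (cons (fin 720 7 720)
(mv 786 (cons (fin 722 6 721)
(fin 850 6 785)))))))))
(mv 849 (cons (fin 1104 5 848)
(mv 785 (cons (fin 976 5 784)
(mv 786 (cons (fin 722 6 721)
(fin 850 6 785)))))))))))))))))
(mv 974 (cons (fin 973 3 973)
(mv 977 (cons (fin 978 2 974)
(mv 1101 (cons (fin 1102 1 1037)
(mv 1037 (cons (fin 1100 1 1036)
(mv 910 (cons (fin 846 5 845)
(mv 1229 (cons (fin 1165 6 973)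
(mv 1103 (cons (mv 1167 (cons (fin 975 7 910)
(fin 1231 7 974)))
(cons (mv 1036 (cons (fin 1104 0 1036)
(mv 1035 (cons (fin 975 2 971)
(mv 970 (cons (fin 971 3 970)
(mv 1034 (cons (fin 969 3 969)
(mv 1098 (cons (fin 1097 1 1033)
(fin 1099 1 1034)))))))))))
(mv 1104 (cons (fin 1036 0 1036)
(mv 849 (cons (fin 913 5 848)
(mv 1231 (cons (fin 1167 7 974)
(mv 1232 (cons (fin 1168 6 976)
(mv 1230 (cons (cons (mv 1292 (cons (fin 1293 1 1228)
(mv 1228 (cons (fin 1291 1 1227)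
(mv 1296 (cons (fin 1295 0 1228)
(fin 1297 0 1229)))))))
(mv 1296 (cons (fin 1297 0 1229)
(mv 1228 (cons (fin 1295 0 1228)
(mv 1227 (cons (mv 1163 (cons (fin 1162 3 1162)
(fin 1164 3 1163)))
(mv 1291 (cons (fin 1290 1 1226)
(fin 1292 1 1227))))))))))
(cons (mv 1293 (cons (fin 1292 1 1228)
(mv 1233 (cons (fin 1294 1 1229)
(mv 1234 (cons (mv 1170 (cons (fin 1169 2 1166)
(fin 1171 2 1167)))
(mv 1298 (cons (fin 1297 0 1230)
(fin 1299 0 1231)))))))))
(cons (mv 1297 (cons (fin 1296 0 1229)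
(mv 1233 (cons (fin 1298 0 1230)
(mv 1234 (cons (mv 1170 (cons (fin 1169 2 1166)
(fin 1171 2 1167)))
(mv 1294 (cons (fin 1293 1 1229)
(fin 1295 1 1230)))))))))
(mv 1292 (cons (fin 1293 1 1228)
(mv 1228 (cons (fin 1291 1 1227)
(mv 1227 (cons (mv 1163 (cons (fin 1162 3 1162)
(fin 1164 3 1163)))
(mv 1295 (cons (fin 1294 0 1227)
(fin 1296 0 1228)))))))))))))))))))))))))))))))))))))))))))
(cons (cons (mv 1041 (cons (cons (mv 973 (cons (fin 974 3 973)
(mv 977 (cons (fin 978 2 974)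
(mv 1101 (cons (fin 1102 1 1037)
(mv 1037 (cons (fin 1100 1 1036)
(mv 1105 (cons (fin 1104 0 1037)
(fin 1106 0 1038)))))))))))
(cons (mv 974 (cons (fin 973 3 973)
(mv 977 (cons (fin 978 2 974)
(mv 1101 (cons (fin 1102 1 1037)
(mv 1037 (cons (fin 1100 1 1036)
(mv 910 (cons (fin 846 5 845)
(mv 1229 (cons (fin 1165 6 973)
(mv 1103 (cons (mv 1167 (cons (fin 975 7 910)
(fin 1231 7 974)))
(cons (mv 1036 (cons (fin 1104 0 1036)
(mv 1035 (cons (fin 975 2 971)
(mv 970 (cons (fin 971 3 970)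
(mv 1034 (cons (fin 969 3 969)
(mv 1098 (cons (fin 1097 1 1033)
(fin 1099 1 1034)))))))))))
(mv 1104 (cons (fin 1036 0 1036)
(mv 849 (cons (fin 913 5 848)
(mv 1231 (cons (fin 1167 7 974)
(mv 1232 (cons (fin 1168 6 976)
(mv 1230 (cons (cons (mv 1292 (cons (fin 1293 1 1228)
(mv 1228 (cons (fin 1291 1 1227)
(mv 1296 (cons (fin 1295 0 1228)
(fin 1297 0 1229)))))))
(mv 1296 (cons (fin 1297 0 1229)
(mv 1228 (cons (fin 1295 0 1228)
(mv 1227 (cons (mv 1163 (cons (fin 1162 3 1162)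
(fin 1164 3 1163)))
(mv 1291 (cons (fin 1290 1 1226)
(fin 1292 1 1227))))))))))
(cons (mv 1293 (cons (fin 1292 1 1228)
(mv 1233 (cons (fin 1294 1 1229)
(mv 1234 (cons (mv 1170 (cons (fin 1169 2 1166)
(fin 1171 2 1167)))
(mv 1298 (cons (fin 1297 0 1230)
(fin 1299 0 1231)))))))))
(cons (mv 1297 (cons (fin 1296 0 1229)
(mv 1233 (cons (fin 1298 0 1230)
(mv 1234 (cons (mv 1170 (cons (fin 1169 2 1166)
(fin 1171 2 1167)))
(mv 1294 (cons (fin 1293 1 1229)
(fin 1295 1 1230)))))))))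
(mv 1292 (cons (fin 1293 1 1228)
(mv 1228 (cons (fin 1291 1 1227)
(mv 1227 (cons (mv 1163 (cons (fin 1162 3 1162)
(fin 1164 3 1163)))
(mv 1295 (cons (fin 1294 0 1227)
(fin 1296 0 1228))))))))))))))))))))))))))))))))))))
(mv 973 (cons (fin 974 3 973)
(mv 977 (cons (fin 978 2 974)
(mv 1105 (cons (fin 1106 0 1038)
(mv 1104 (cons (fin 1037 0 1037)
(mv 913 (cons (fin 849 5 848)
(fin 1168 5 912)))))))))))))
(cons (cons (mv 973 (cons (fin 974 3 973)
(mv 1101 (cons (fin 1102 1 1037)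
(mv 1037 (cons (fin 1100 1 1036)
(mv 1105 (cons (fin 1104 0 1037)
(fin 1106 0 1038)))))))))
(mv 977 (cons (fin 978 2 974)
(mv 1101 (cons (fin 1102 1 1037)
(mv 1037 (cons (fin 1100 1 1036)
(mv 1105 (cons (fin 1104 0 1037)
(fin 1106 0 1038))))))))))
(cons (mv 973 (cons (fin 974 3 973)
(mv 977 (cons (fin 978 2 974)
(mv 1101 (cons (fin 1102 1 1037)
(mv 1105 (cons (fin 1106 0 1038)
(mv 913 (cons (mv 1104 (cons (fin 849 5 848)
(fin 1168 5 912)))
(cons (mv 848 (cons (fin 912 7 848)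
(mv 849 (cons (fin 784 7 784)
(mv 850 (cons (fin 786 6 785)
(fin 914 6 849)))))))
(mv 848 (cons (fin 912 7 848)
(mv 850 (cons (fin 914 6 849)
(mv 1169 (cons (cons (mv 1168 (cons (fin 1104 5 912)
(fin 1232 5 976)))
(mv 1234 (cons (fin 1170 4 977)
(mv 1233 (cons (fin 1298 4 1041)
(mv 1296 (cons (fin 1232 5 1040)
(mv 1297 (cons (fin 1104 7 1040)
(fin 1360 5 1104))))))))))
(cons (mv 1232 (cons (fin 1168 5 976)
(mv 1233 (cons (fin 1296 5 1040)
(mv 1234 (cons (fin 1170 4 977)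
(fin 1298 4 1041)))))))
(mv 1104 (cons (fin 1168 5 912)
(mv 1233 (cons (fin 1297 7 1040)
(mv 1234 (cons (fin 1170 4 977)
(fin 1298 4 1041)))))))))))))))))))))))))
(mv 974 (cons (fin 973 3 973)
(mv 977 (cons (fin 978 2 974)
(mv 1102 (cons (fin 1101 1 1037)
(mv 1105 (cons (fin 1106 0 1038)
(mv 1166 (cons (mv 975 (cons (fin 911 6 910)
(fin 1230 6 974)))
(cons (mv 1165 (cons (fin 1229 5 973)
(mv 1167 (cons (fin 1231 4 974)
(mv 910 (cons (fin 1103 4 910)
(mv 845 (cons (fin 909 7 845)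
(mv 846 (cons (fin 781 7 781)
(mv 847 (cons (fin 783 6 782)
(fin 911 6 846)))))))))))))
(mv 975 (cons (fin 1230 6 974)
(mv 1165 (cons (fin 1229 5 973)
(mv 1167 (cons (fin 1231 4 974)
(mv 910 (cons (fin 1103 7 910)
(mv 845 (cons (fin 909 7 845)
(mv 846 (cons (fin 781 7 781)
(fin 782 4 782))))))))))))))))))))))))))))
(cons (mv 1041 (cons (cons (mv 973 (cons (fin 974 3 973)
(mv 977 (cons (fin 978 2 974)
(mv 976 (cons (fin 1037 2 973)
(mv 1101 (cons (fin 1102 1 1037)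
(mv 1105 (cons (fin 1106 0 1038)
(mv 912 (cons (fin 1169 7 912)
(fin 848 4 848)))))))))))))
(cons (mv 974 (cons (fin 973 3 973)
(mv 1102 (cons (fin 1101 1 1037)
(mv 1105 (cons (fin 1106 0 1038)
(mv 910 (cons (cons (mv 1103 (cons (fin 846 4 846)
(fin 1167 4 910)))
(mv 845 (cons (fin 909 7 845)
(mv 781 (cons (fin 846 7 781)
(mv 911 (cons (fin 847 6 846)
(mv 1166 (cons (fin 975 6 910)
(mv 1167 (cons (fin 1231 4 974)
(mv 1229 (cons (fin 1165 5 973)
(mv 1230 (cons (fin 1293 5 1037)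
(mv 1169 (cons (fin 1168 1 1165)
(mv 1233 (cons (fin 976 7 976)
(mv 1296 (cons (fin 1232 5 1040)
(mv 1297 (cons (fin 1360 5 1104)
(mv 1298 (cons (fin 1234 4 1041)
(fin 1362 4 1105))))))))))))))))))))))))))
(cons (mv 845 (cons (fin 909 7 845)
(mv 847 (cons (fin 911 6 846)
(mv 1167 (cons (fin 1103 4 910)
(mv 1166 (cons (fin 1231 4 974)
(mv 1229 (cons (fin 1165 5 973)
(mv 1230 (cons (fin 1293 5 1037)
(fin 975 6 974)))))))))))))
(mv 845 (cons (fin 909 7 845)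
(mv 846 (cons (fin 781 7 781)
(fin 1103 4 846))))))))))))))
(mv 973 (cons (fin 974 3 973)
(mv 977 (cons (fin 978 2 974)
(mv 976 (cons (fin 1037 2 973)
(mv 1105 (cons (fin 1106 0 1038)
(mv 912 (cons (fin 1169 7 912)
(fin 848 4 848)))))))))))))
(cons (mv 977 (cons (fin 978 2 974)
(mv 976 (cons (fin 1037 2 973)
(mv 1101 (cons (fin 1102 1 1037)
(mv 1105 (cons (fin 1106 0 1038)
(mv 912 (cons (fin 1169 7 912)
(fin 848 4 848)))))))))))
(cons (mv 973 (cons (fin 974 3 973)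
(mv 977 (cons (fin 978 2 974)
(mv 1037 (cons (fin 976 2 973)
(mv 1101 (cons (fin 1100 1 1036)
(fin 1102 1 1037)))))))))
(mv 974 (cons (fin 973 3 973)
(mv 977 (cons (fin 978 2 974)
(mv 1102 (cons (fin 1101 1 1037)
(mv 1105 (cons (fin 1106 0 1038)
(mv 1166 (cons (mv 975 (cons (fin 911 6 910)
(fin 1230 6 974)))
(cons (mv 1165 (cons (fin 1229 5 973)
(mv 1167 (cons (fin 1231 4 974)
(mv 910 (cons (fin 1103 4 910)
(mv 845 (cons (fin 909 7 845)
(mv 846 (cons (fin 781 7 781)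
(mv 847 (cons (fin 783 6 782)
(fin 911 6 846)))))))))))))
(mv 975 (cons (fin 1230 6 974)
(mv 1165 (cons (fin 1229 5 973)
(mv 1167 (cons (fin 1231 4 974)
(mv 910 (cons (fin 1103 7 910)
(mv 845 (cons (fin 909 7 845)
(mv 846 (cons (fin 781 7 781)
(fin 782 4 782))))))))))))))))))))))))))))
(mv 1041 (cons (cons (mv 973 (cons (fin 974 3 973)
(mv 977 (cons (fin 978 2 974)
(mv 976 (cons (fin 1037 2 973)
(mv 1101 (cons (fin 1102 1 1037)
(mv 1105 (cons (fin 1106 0 1038)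
(mv 912 (cons (fin 1169 7 912)
(fin 848 4 848)))))))))))))
(cons (mv 973 (cons (fin 974 3 973)
(mv 977 (cons (fin 978 2 974)
(mv 1037 (cons (fin 976 2 973)
(mv 1101 (cons (fin 1100 1 1036)
(fin 1102 1 1037)))))))))
(mv 973 (cons (fin 974 3 973)
(mv 1101 (cons (fin 1102 1 1037)
(mv 1037 (cons (fin 1100 1 1036)
(mv 1105 (cons (fin 1104 0 1037)
(fin 1106 0 1038)))))))))))
(cons (mv 973 (cons (fin 974 3 973)
(mv 977 (cons (fin 978 2 974)
(mv 976 (cons (fin 1037 2 973)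
(mv 1105 (cons (fin 1106 0 1038)
(mv 912 (cons (fin 1169 7 912)
(fin 848 4 848)))))))))))
(cons (mv 977 (cons (fin 978 2 974)
(mv 976 (cons (fin 1037 2 973)
(mv 1101 (cons (fin 1102 1 1037)
(mv 1105 (cons (fin 1106 0 1038)
(mv 912 (cons (fin 1169 7 912)
(fin 848 4 848)))))))))))
(mv 973 (cons (fin 974 3 973)
(mv 977 (cons (fin 978 2 974)
(mv 1101 (cons (fin 1102 1 1037)
(mv 1105 (cons (fin 1106 0 1038)
(mv 1169 (cons (mv 976 (cons (fin 912 7 912)
(fin 1233 7 976)))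
(cons (mv 1234 (cons (fin 1170 4 977)
(mv 1233 (cons (fin 1298 4 1041)
(mv 1296 (cons (fin 1232 5 1040)
(mv 1297 (cons (fin 1104 7 1040)
(fin 1360 5 1104)))))))))
(mv 912 (cons (fin 976 7 912)
(mv 913 (cons (fin 848 7 848)
(mv 849 (cons (fin 1104 5 848)
(mv 850 (cons (fin 786 6 785)
(fin 914 6 849))))))))))))))))))))))))))
(cons (cons (mv 1041 (cons (cons (mv 973 (cons (fin 974 3 973)
(mv 977 (cons (fin 978 2 974)
(mv 976 (cons (fin 1037 2 973)
(mv 1101 (cons (fin 1102 1 1037)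
(mv 1105 (cons (fin 1106 0 1038)
(mv 1169 (cons (fin 1233 7 976)
(mv 1168 (cons (fin 1232 5 976)
(mv 913 (cons (fin 1104 5 912)
(mv 849 (cons (fin 785 5 784)
(mv 850 (cons (fin 786 6 785)
(fin 914 6 849)))))))))))))))))))))
(cons (mv 973 (cons (fin 974 3 973)
(mv 1101 (cons (fin 1102 1 1037)
(mv 1037 (cons (fin 1100 1 1036)
(mv 1105 (cons (fin 1104 0 1037)
(fin 1106 0 1038)))))))))
(mv 973 (cons (fin 974 3 973)
(mv 977 (cons (fin 978 2 974)
(mv 1037 (cons (fin 976 2 973)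
(mv 1101 (cons (fin 1100 1 1036)
(fin 1102 1 1037)))))))))))
(cons (mv 973 (cons (fin 974 3 973)
(mv 977 (cons (fin 978 2 974)
(mv 976 (cons (fin 1037 2 973)
(mv 1105 (cons (fin 1106 0 1038)
(mv 1169 (cons (fin 1233 7 976)
(mv 1168 (cons (fin 1232 5 976)
(mv 913 (cons (fin 1104 5 912)
(mv 849 (cons (fin 785 5 784)
(mv 850 (cons (fin 786 6 785)
(fin 914 6 849)))))))))))))))))))
(cons (mv 977 (cons (fin 978 2 974)
(mv 976 (cons (fin 1037 2 973)
(mv 1101 (cons (fin 1102 1 1037)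
(mv 1105 (cons (fin 1106 0 1038)
(mv 1169 (cons (fin 1233 7 976)
(mv 1168 (cons (fin 1232 5 976)
(mv 913 (cons (fin 1104 5 912)
(mv 849 (cons (fin 785 5 784)
(mv 850 (cons (fin 786 6 785)
(fin 914 6 849)))))))))))))))))))
(mv 973 (cons (fin 974 3 973)
(mv 977 (cons (fin 978 2 974)
(mv 1101 (cons (fin 1102 1 1037)
(mv 1105 (cons (fin 1106 0 1038)
(mv 913 (cons (mv 1104 (cons (fin 849 5 848)
(fin 1168 5 912)))
(cons (mv 850 (cons (fin 914 6 849)
(mv 849 (cons (fin 786 6 785)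
(mv 784 (cons (fin 848 7 784)
(mv 785 (cons (fin 720 7 720)
(fin 976 5 784)))))))))
(mv 850 (cons (fin 914 6 849)
(mv 1168 (cons (fin 1104 5 912)
(mv 1169 (cons (fin 1232 5 976)
(mv 1233 (cons (fin 976 7 976)
(mv 1234 (cons (fin 1170 4 977)
(fin 1298 4 1041))))))))))))))))))))))))))
(mv 1041 (cons (cons (mv 973 (cons (fin 974 3 973)
(mv 977 (cons (fin 978 2 974)
(mv 976 (cons (fin 1037 2 973)
(mv 1101 (cons (fin 1102 1 1037)
(mv 1105 (cons (fin 1106 0 1038)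
(mv 1169 (cons (fin 912 7 912)
(fin 1233 7 976)))))))))))))
(cons (mv 973 (cons (fin 974 3 973)
(mv 1101 (cons (fin 1102 1 1037)
(mv 1037 (cons (fin 1100 1 1036)
(mv 1105 (cons (fin 1104 0 1037)
(fin 1106 0 1038)))))))))
(mv 973 (cons (fin 974 3 973)
(mv 977 (cons (fin 978 2 974)
(mv 1037 (cons (fin 976 2 973)
(mv 1101 (cons (fin 1100 1 1036)
(fin 1102 1 1037)))))))))))
(cons (mv 973 (cons (fin 974 3 973)
(mv 977 (cons (fin 978 2 974)
(mv 976 (cons (fin 1037 2 973)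
(mv 1105 (cons (fin 1106 0 1038)
(mv 1169 (cons (fin 912 7 912)
(fin 1233 7 976)))))))))))
(cons (mv 977 (cons (fin 978 2 974)
(mv 976 (cons (fin 1037 2 973)
(mv 1101 (cons (fin 1102 1 1037)
(mv 1105 (cons (fin 1106 0 1038)
(mv 1169 (cons (fin 912 7 912)
(fin 1233 7 976)))))))))))
(mv 973 (cons (fin 974 3 973)
(mv 977 (cons (fin 978 2 974)
(mv 1101 (cons (fin 1102 1 1037)
(mv 1105 (cons (fin 1106 0 1038)
(mv 1169 (cons (mv 976 (cons (fin 912 7 912)
(fin 1233 7 976)))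
(mv 1168 (cons (fin 1232 5 976)
(mv 1104 (cons (fin 913 5 912)
(mv 1170 (cons (fin 1234 4 977)
(mv 1171 (cons (fin 1103 3 1103)
(fin 1172 3 1104))))))))))))))))))))))))
(cons (mv 1041 (cons (cons (mv 973 (cons (fin 974 3 973)
(mv 977 (cons (fin 978 2 974)
(mv 976 (cons (fin 1037 2 973)
(mv 1101 (cons (fin 1102 1 1037)
(mv 1105 (cons (fin 1106 0 1038)
(mv 912 (cons (fin 1169 7 912)
(fin 848 4 848)))))))))))))
(cons (mv 973 (cons (fin 974 3 973)
(mv 977 (cons (fin 978 2 974)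
(mv 1037 (cons (fin 976 2 973)
(mv 1101 (cons (fin 1100 1 1036)
(fin 1102 1 1037)))))))))
(mv 973 (cons (fin 974 3 973)
(mv 1101 (cons (fin 1102 1 1037)
(mv 1037 (cons (fin 1100 1 1036)
(mv 1105 (cons (fin 1104 0 1037)
(fin 1106 0 1038)))))))))))
(cons (mv 973 (cons (fin 974 3 973)
(mv 977 (cons (fin 978 2 974)
(mv 976 (cons (fin 1037 2 973)
(mv 1105 (cons (fin 1106 0 1038)
(mv 912 (cons (fin 1169 7 912)
(fin 848 4 848)))))))))))
(cons (mv 977 (cons (fin 978 2 974)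
(mv 976 (cons (fin 1037 2 973)
(mv 1101 (cons (fin 1102 1 1037)
(mv 1105 (cons (fin 1106 0 1038)
(mv 912 (cons (fin 1169 7 912)
(fin 848 4 848)))))))))))
(mv 973 (cons (fin 974 3 973)
(mv 977 (cons (fin 978 2 974)
(mv 1101 (cons (fin 1102 1 1037)
(mv 1105 (cons (fin 1106 0 1038)
(mv 913 (cons (mv 1104 (cons (fin 849 5 848)
(fin 1168 5 912)))
(cons (mv 848 (cons (fin 912 7 848)
(mv 849 (cons (fin 784 7 784)
(mv 850 (cons (fin 786 6 785)
(fin 914 6 849)))))))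
(mv 850 (cons (fin 914 6 849)
(mv 912 (cons (fin 848 7 848)
(mv 976 (cons (fin 1169 7 912)
(mv 1104 (cons (fin 1168 5 912)
(mv 911 (cons (fin 847 7 847)
(mv 910 (cons (fin 909 0 909)
(mv 846 (cons (fin 845 3 845)
(mv 1103 (cons (fin 975 7 846)
(fin 1167 5 911))))))))))))))))))))))))))))))))
(mv 1041 (cons (cons (mv 973 (cons (fin 974 3 973)
(mv 977 (cons (fin 978 2 974)
(mv 1037 (cons (fin 976 2 973)
(mv 1101 (cons (fin 1100 1 1036)
(fin 1102 1 1037)))))))))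
(mv 973 (cons (fin 974 3 973)
(mv 1101 (cons (fin 1102 1 1037)
(mv 1037 (cons (fin 1100 1 1036)
(mv 1105 (cons (fin 1104 0 1037)
(fin 1106 0 1038))))))))))
(cons (mv 973 (cons (fin 974 3 973)
(mv 977 (cons (fin 978 2 974)
(mv 1037 (cons (fin 976 2 973)
(mv 1105 (cons (fin 1104 0 1037)
(fin 1106 0 1038)))))))))
(cons (mv 977 (cons (fin 978 2 974)
(mv 1037 (cons (fin 976 2 973)
(mv 1101 (cons (fin 1100 1 1036)
(fin 1102 1 1037)))))))
(mv 973 (cons (fin 974 3 973)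
(mv 977 (cons (fin 978 2 974)
(mv 1102 (cons (fin 1101 1 1037)
(mv 1105 (cons (fin 1106 0 1038)
(mv 913 (cons (mv 1104 (cons (fin 849 5 848)
(fin 1168 5 912)))
(cons (mv 848 (cons (fin 912 7 848)
(mv 849 (cons (fin 784 7 784)
(mv 850 (cons (fin 786 6 785)
(fin 914 6 849)))))))
(mv 850 (cons (fin 914 6 849)
(mv 912 (cons (fin 848 7 848)
(mv 1104 (cons (fin 1168 5 912)
(mv 1166 (cons (cons (mv 975 (cons (fin 1230 6 974)
(mv 911 (cons (fin 847 5 846)
(fin 1103 5 910)))))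
(mv 1230 (cons (fin 975 6 974)
(mv 1293 (cons (fin 1229 5 1037)
(mv 1294 (cons (fin 1357 5 1101)
(mv 1295 (cons (fin 1231 4 1038)
(fin 1359 4 1102))))))))))
(cons (mv 1103 (cons (fin 1165 1 1101)
(mv 911 (cons (fin 975 5 910)
(mv 976 (cons (fin 847 7 847)
(fin 1167 5 911)))))))
(mv 1230 (cons (mv 1103 (cons (fin 1165 1 1101)
(fin 1294 6 1038)))
(cons (mv 1293 (cons (fin 1229 5 1037)
(mv 1294 (cons (fin 1357 5 1101)
(mv 1295 (cons (fin 1231 4 1038)
(fin 1359 4 1102)))))))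
(mv 1165 (cons (fin 1103 1 1101)
(mv 1229 (cons (fin 1293 5 1037)
(mv 1231 (cons (fin 1295 4 1038)
(mv 1164 (cons (fin 1232 3 1164)
(fin 1163 0 1163)))))))))))))))))))))))))))))))))))))))))
def l14 : Lem := ⟨17672042592950510299342161747532428741358160893794450532607270698129752962383966679797774154701950421020191674846877452631289669433532411657536873821582864322832094995237976664601613395680896036318715866521764407099865564676993471100411554418605480722106008602337571462179774064736310031630534868627379729584881664, 348156965875191583286908300099652503668734665832045295511127015332148148606230130572565181352514928632245407413501340029151857035013819999359652727868602075888199874734151000351241589211556952276468473248966559297944870401661956974579163346066117515312077277450746104758581172725474393703110530351501287931492420038529495383191601427771531244529396767244950848087005539675362981686136290382689039544734848554192041240388429676544,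 348156965875191583286908300099652503668734665832045295511127015332148148606230130572565181352514928632245407413501340029151857035013819999359652727868602075888199874734151000351241589211556952276468473248966559297944870401661956974579163346066117515312077277450746104758581172725474393703110530351501287931492420038529495383191601427771531244529396767244950848087005539675362981686136290382689039544734848554192041240388429676544, 19, 33⟩
theorem l14_valid : l14.Valid :=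
  Lem.valid_of_chk t14 t14_valid [1039, 1040] c14 l14 (by decide +kernel)
end Crest.Agent.SnakyAux
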