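import Crest.Agent.S0047_aux.Checker

set_option autoImplicit false
set_option maxRecDepth 100000
namespace Crest.Agent.SnakyAux
open Cert
def t15 : Tbl := Tbl.nil
theorem t15_valid : t15.Valid := Tbl.valid_nil
def c15 : Cert :=
(mv 1038 (cons (cons (cons (mv 1037 (cons (cons (mv 972 (cons (fin 973 3 972)
(mv 971 (cons (fin 1036 3 971)
(mv 977 (cons (fin 976 2 973)
(mv 1041 (cons (fin 978 2 974)
(mv 1101 (cons (fin 1100 1 1036)
(fin 1102 1 1037)))))))))))
(mv 976 (cons (fin 977 2 973)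
(mv 975 (cons (fin 1036 2 972)
(mv 1101 (cons (fin 1100 1 1036)
(mv 1102 (cons (fin 1041 1 1037)
(mv 911 (cons (fin 847 5 846)
(mv 1166 (cons (fin 1103 5 910)
(fin 974 6 910))))))))))))))
(cons (mv 972 (cons (fin 973 3 972)
(mv 976 (cons (fin 977 2 973)
(mv 1036 (cons (fin 971 3 971)
(fin 975 2 972)))))))
(cons (mv 972 (cons (fin 973 3 972)
(mv 1036 (cons (fin 971 3 971)
(mv 1100 (cons (fin 1099 1 1035)
(fin 1101 1 1036)))))))
(mv 972 (cons (fin 973 3 972)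
(mv 977 (cons (fin 976 2 973)
(mv 1041 (cons (fin 978 2 974)
(mv 1101 (cons (fin 1100 1 1036)
(fin 1102 1 1037)))))))))))))
(cons (mv 974 (cons (cons (mv 973 (cons (fin 1041 3 973)
(mv 972 (cons (fin 971 0 971)
(fin 975 0 972)))))
(mv 1103 (cons (cons (mv 910 (cons (fin 846 4 846)
(mv 1167 (cons (fin 975 7 910)
(fin 1231 7 974)))))
(mv 910 (cons (fin 846 4 846)
(mv 1102 (cons (mv 1101 (cons (fin 1041 1 1037)
(fin 1100 2 1036)))
(mv 845 (cons (fin 909 7 845)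
(mv 911 (cons (fin 847 6 846)
(mv 975 (cons (fin 1166 5 910)
(mv 912 (cons (fin 848 6 847)
(mv 913 (cons (fin 914 1 910)
(mv 849 (cons (fin 850 2 846)
(mv 1104 (cons (fin 976 6 848)
(fin 1168 4 911))))))))))))))))))))
(cons (mv 1167 (cons (fin 1231 7 974)
(mv 975 (cons (mv 912 (cons (fin 976 6 911)
(mv 911 (cons (fin 848 6 847)
(mv 847 (cons (fin 783 5 782)
(fin 1102 5 846)))))))
(cons (mv 1166 (cons (fin 1230 5 974)
(mv 911 (cons (fin 1102 5 910)
(mv 847 (cons (fin 783 5 782)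
(fin 1104 4 847)))))))
(mv 976 (cons (fin 912 6 911)
(mv 977 (cons (fin 978 1 974)
(mv 913 (cons (fin 914 2 910)
(mv 1168 (cons (fin 1104 6 912)
(fin 1232 4 975))))))))))))))
(mv 910 (cons (fin 846 4 846)
(mv 1167 (cons (fin 1231 7 974)
(fin 1102 4 910)))))))))
(cons (mv 1103 (cons (cons (mv 910 (cons (fin 846 4 846)
(mv 1167 (cons (fin 975 7 910)
(fin 1231 7 974)))))
(mv 910 (cons (fin 846 4 846)
(mv 1102 (cons (mv 1101 (cons (fin 1100 2 1036)
(fin 1165 5 909)))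
(mv 845 (cons (fin 909 7 845)
(mv 911 (cons (fin 847 6 846)
(mv 975 (cons (fin 1166 5 910)
(mv 912 (cons (fin 848 6 847)
(mv 913 (cons (fin 973 1 909)
(fin 914 1 910))))))))))))))))
(cons (mv 1167 (cons (fin 1231 7 974)
(mv 975 (cons (cons (mv 912 (cons (fin 976 6 911)
(mv 848 (cons (fin 911 6 847)
(mv 973 (cons (fin 972 0 972)
(mv 1166 (cons (fin 1230 5 974)
(mv 1102 (cons (fin 909 7 909)
(mv 1100 (cons (fin 1101 2 1036)
(mv 1165 (cons (fin 1229 5 973)
(mv 1164 (cons (fin 1099 3 1099)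
(fin 1163 2 1099)))))))))))))))))
(mv 972 (cons (fin 973 0 972)
(mv 1166 (cons (fin 1230 5 974)
(mv 911 (cons (fin 1102 5 910)
(mv 847 (cons (fin 783 5 782)
(fin 1104 4 847))))))))))
(cons (mv 912 (cons (fin 976 6 911)
(mv 911 (cons (fin 848 6 847)
(mv 847 (cons (fin 783 5 782)
(fin 1102 5 846)))))))
(cons (mv 912 (cons (fin 976 6 911)
(mv 973 (cons (fin 972 0 972)
(mv 1166 (cons (fin 1230 5 974)
(mv 1102 (cons (fin 909 7 909)
(mv 1100 (cons (fin 1101 2 1036)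
(mv 1165 (cons (fin 1229 5 973)
(mv 1164 (cons (fin 1099 3 1099)
(fin 1163 2 1099)))))))))))))))
(mv 912 (cons (fin 976 6 911)
(mv 911 (cons (fin 848 6 847)
(mv 847 (cons (fin 783 5 782)
(fin 1104 4 847)))))))))))))
(mv 910 (cons (fin 846 4 846)
(mv 1167 (cons (fin 1231 7 974)
(fin 1102 4 910))))))))
(mv 973 (cons (fin 1041 3 973)
(mv 971 (cons (fin 972 0 971)
(mv 1102 (cons (cons (mv 909 (cons (fin 1166 7 909)
(mv 845 (cons (fin 910 7 845)
(fin 781 4 781)))))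
(mv 910 (cons (mv 1103 (cons (fin 846 4 846)
(fin 1167 4 910)))
(cons (mv 845 (cons (fin 909 7 845)
(mv 846 (cons (fin 781 7 781)
(mv 847 (cons (fin 783 6 782)
(fin 911 6 846)))))))
(mv 845 (cons (fin 909 7 845)
(mv 847 (cons (fin 911 6 846)
(mv 1101 (cons (fin 1165 5 909)
(mv 1100 (cons (fin 1099 2 1035)
(fin 1103 2 1036)))))))))))))
(cons (mv 1103 (cons (mv 910 (cons (fin 846 4 846)
(fin 1167 4 910)))
(cons (mv 910 (cons (fin 846 4 846)
(mv 1101 (cons (fin 1100 2 1036)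
(fin 1165 5 909)))))
(mv 1100 (cons (fin 1101 2 1036)
(mv 1166 (cons (cons (mv 1165 (cons (fin 1229 5 973)
(mv 1163 (cons (fin 1164 2 1099)
(mv 1230 (cons (fin 1294 6 1038)
(mv 1231 (cons (fin 1167 7 974)
(fin 1295 4 1038)))))))))
(mv 1165 (cons (fin 1229 5 973)
(mv 1164 (cons (fin 1163 2 1099)
(mv 1167 (cons (fin 1099 3 1099)
(fin 1104 2 1100))))))))
(cons (mv 1229 (cons (fin 1165 5 973)
(mv 1230 (cons (fin 1293 5 1037)
(fin 1294 6 1038)))))
(mv 1230 (cons (fin 1294 6 1038)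
(mv 1231 (cons (fin 1167 7 974)
(fin 1295 4 1038)))))))))))))
(mv 1166 (cons (fin 909 7 909)
(mv 1165 (cons (fin 1229 5 973)
(mv 1231 (cons (fin 1167 4 974)
(mv 1230 (cons (fin 1295 4 1038)
(mv 1103 (cons (fin 1294 6 1038)
(mv 1101 (cons (fin 1100 2 1036)
(mv 1164 (cons (fin 1104 1 1100)
(fin 1163 2 1099)))))))))))))))))))))))))
(mv 1037 (cons (cons (mv 972 (cons (fin 973 3 972)
(mv 976 (cons (fin 977 2 973)
(mv 1036 (cons (fin 971 3 971)
(fin 975 2 972)))))))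
(mv 972 (cons (fin 973 3 972)
(mv 1036 (cons (fin 971 3 971)
(mv 1100 (cons (fin 1099 1 1035)
(fin 1101 1 1036))))))))
(cons (mv 976 (cons (fin 977 2 973)
(mv 1036 (cons (fin 975 2 972)
(mv 1100 (cons (fin 1099 1 1035)
(fin 1101 1 1036)))))))
(mv 972 (cons (fin 973 3 972)
(mv 976 (cons (fin 977 2 973)
(mv 1101 (cons (fin 1100 1 1036)
(mv 974 (cons (cons (mv 910 (cons (fin 846 5 845)
(mv 1165 (cons (fin 1102 5 909)
(fin 1229 6 973)))))
(mv 1165 (cons (fin 1229 6 973)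
(mv 912 (cons (cons (mv 848 (cons (fin 1103 5 847)
(mv 783 (cons (fin 847 7 783)
(mv 784 (cons (fin 719 7 719)
(fin 975 5 783)))))))
(mv 848 (cons (cons (mv 783 (cons (fin 847 7 783)
(mv 784 (cons (fin 719 7 719)
(fin 975 5 783)))))
(mv 785 (cons (fin 849 6 784)
(mv 847 (cons (fin 783 7 783)
(mv 911 (cons (fin 1104 7 847)
(mv 975 (cons (fin 1102 5 846)
(mv 846 (cons (fin 782 7 782)
(mv 845 (cons (fin 844 0 844)
(fin 913 0 845))))))))))))))
(cons (mv 784 (cons (fin 975 5 783)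
(mv 785 (cons (fin 721 6 720)
(fin 849 6 784)))))
(mv 783 (cons (fin 847 7 783)
(mv 784 (cons (fin 719 7 719)
(mv 785 (cons (fin 721 6 720)
(fin 849 6 784)))))))))))
(cons (mv 1104 (cons (cons (mv 847 (cons (fin 911 7 847)
(mv 849 (cons (fin 913 6 848)
(mv 1103 (cons (fin 1167 5 911)
(mv 1102 (cons (fin 1164 1 1100)
(mv 1168 (cons (fin 1169 0 1101)
(mv 1232 (cons (fin 975 7 975)
(fin 1296 7 1039)))))))))))))
(cons (mv 849 (cons (fin 913 6 848)
(mv 911 (cons (fin 847 7 847)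
(mv 1168 (cons (fin 975 7 911)
(mv 1167 (cons (fin 1231 5 975)
(mv 1233 (cons (fin 1169 4 976)
(mv 1232 (cons (fin 1166 0 1165)
(fin 1297 4 1040)))))))))))))
(mv 849 (cons (fin 913 6 848)
(mv 911 (cons (fin 847 7 847)
(mv 1168 (cons (fin 975 7 911)
(mv 1233 (cons (fin 1169 4 976)
(mv 1232 (cons (fin 1297 4 1040)
(mv 1295 (cons (fin 1231 5 1039)
(mv 1296 (cons (fin 1103 7 1039)
(fin 1359 5 1103)))))))))))))))))
(cons (cons (mv 849 (cons (fin 913 6 848)
(mv 1103 (cons (fin 1167 5 911)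
(mv 1102 (cons (fin 1164 1 1100)
(mv 1168 (cons (fin 1169 0 1101)
(mv 1232 (cons (fin 975 7 975)
(fin 1296 7 1039)))))))))))
(mv 847 (cons (fin 911 7 847)
(mv 1103 (cons (fin 1167 5 911)
(mv 1102 (cons (fin 1164 1 1100)
(mv 1168 (cons (fin 1169 0 1101)
(mv 1232 (cons (fin 975 7 975)
(fin 1296 7 1039))))))))))))
(cons (mv 847 (cons (fin 911 7 847)
(mv 849 (cons (fin 913 6 848)
(mv 1167 (cons (fin 1103 5 911)
(mv 1168 (cons (fin 1231 5 975)
(mv 1233 (cons (fin 1169 4 976)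
(mv 1232 (cons (fin 1166 0 1165)
(fin 1297 4 1040)))))))))))))
(mv 911 (cons (fin 847 7 847)
(mv 913 (cons (fin 849 6 848)
(mv 914 (cons (fin 975 1 910)
(mv 851 (cons (fin 850 2 847)
(mv 915 (cons (fin 852 2 848)
(mv 979 (cons (fin 978 0 911)
(fin 980 0 912)))))))))))))))))
(cons (mv 848 (cons (fin 1103 5 847)
(mv 783 (cons (fin 847 7 783)
(mv 784 (cons (fin 719 7 719)
(mv 785 (cons (fin 721 6 720)
(fin 849 6 784)))))))))
(mv 848 (cons (fin 1103 5 847)
(mv 784 (cons (fin 975 5 783)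
(mv 785 (cons (fin 721 6 720)
(fin 849 6 784))))))))))))))
(cons (mv 910 (cons (fin 846 5 845)
(mv 911 (cons (cons (mv 847 (cons (fin 1102 6 846)
(mv 783 (cons (fin 719 5 718)
(fin 975 5 782)))))
(mv 975 (cons (cons (mv 908 (cons (fin 909 0 908)
(mv 1102 (cons (fin 1166 6 910)
(mv 1103 (cons (fin 1167 7 910)
(mv 912 (cons (fin 848 5 847)
(mv 913 (cons (fin 914 1 910)
(mv 849 (cons (fin 850 2 846)
(fin 1104 6 848)))))))))))))
(mv 909 (cons (fin 908 0 908)
(mv 1102 (cons (fin 845 7 845)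
(fin 1166 6 910))))))
(cons (mv 908 (cons (fin 909 0 908)
(mv 1103 (cons (fin 1167 7 910)
(mv 912 (cons (fin 848 5 847)
(mv 913 (cons (fin 914 1 910)
(mv 849 (cons (fin 850 2 846)
(fin 1104 6 848)))))))))))
(mv 1102 (cons (fin 1166 6 910)
(mv 1103 (cons (fin 1167 7 910)
(mv 912 (cons (fin 848 5 847)
(mv 913 (cons (fin 914 1 910)
(mv 849 (cons (fin 850 2 846)
(fin 1104 6 848)))))))))))))))
(cons (mv 975 (cons (mv 847 (cons (fin 783 5 782)
(fin 1104 4 847)))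
(cons (mv 908 (cons (fin 909 0 908)
(mv 1103 (cons (fin 1167 7 910)
(mv 912 (cons (fin 848 5 847)
(mv 913 (cons (fin 914 1 910)
(mv 849 (cons (fin 850 2 846)
(fin 1104 6 848)))))))))))
(mv 847 (cons (fin 783 5 782)
(mv 848 (cons (fin 784 6 783)
(mv 1103 (cons (fin 1167 7 910)
(fin 912 5 847))))))))))
(mv 847 (cons (fin 1102 6 846)
(mv 719 (cons (fin 783 5 718)
(mv 912 (cons (fin 1104 7 847)
(mv 848 (cons (fin 1103 5 847)
(mv 849 (cons (fin 850 1 846)
(fin 909 2 845))))))))))))))))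
(cons (mv 1165 (cons (fin 1229 6 973)
(mv 910 (cons (fin 1102 5 909)
(mv 912 (cons (cons (mv 848 (cons (fin 1103 5 847)
(mv 783 (cons (fin 847 7 783)
(mv 784 (cons (fin 719 7 719)
(fin 975 5 783)))))))
(mv 848 (cons (mv 783 (cons (fin 847 7 783)
(mv 784 (cons (fin 719 7 719)
(fin 975 5 783)))))
(cons (mv 783 (cons (fin 847 7 783)
(mv 849 (cons (fin 785 6 784)
(mv 911 (cons (fin 909 2 845)
(mv 850 (cons (fin 851 1 847)
(fin 913 2 846)))))))))
(mv 784 (cons (fin 975 5 783)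
(mv 785 (cons (fin 721 6 720)
(fin 849 6 784)))))))))
(cons (mv 1104 (cons (cons (mv 847 (cons (fin 911 7 847)
(mv 849 (cons (fin 913 6 848)
(mv 1167 (cons (fin 1103 5 911)
(mv 1168 (cons (fin 1231 5 975)
(mv 1232 (cons (fin 975 7 975)
(mv 1233 (cons (fin 1166 0 1165)
(fin 1169 4 976)))))))))))))
(cons (mv 849 (cons (fin 913 6 848)
(mv 911 (cons (fin 847 7 847)
(mv 1168 (cons (fin 975 7 911)
(mv 1233 (cons (fin 1169 4 976)
(mv 1232 (cons (fin 1297 4 1040)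
(mv 1295 (cons (fin 1231 5 1039)
(mv 1296 (cons (fin 1103 7 1039)
(fin 1359 5 1103)))))))))))))))
(mv 849 (cons (fin 913 6 848)
(mv 911 (cons (fin 847 7 847)
(mv 1168 (cons (fin 975 7 911)
(mv 1167 (cons (fin 1231 5 975)
(mv 1233 (cons (fin 1169 4 976)
(mv 1232 (cons (fin 1166 0 1165)
(fin 1297 4 1040)))))))))))))))
(cons (cons (mv 849 (cons (fin 913 6 848)
(mv 1167 (cons (fin 1103 5 911)
(mv 1168 (cons (fin 1231 5 975)
(mv 1232 (cons (fin 975 7 975)
(mv 1233 (cons (fin 1166 0 1165)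
(fin 1169 4 976)))))))))))
(mv 847 (cons (fin 911 7 847)
(mv 1167 (cons (fin 1103 5 911)
(mv 1168 (cons (fin 1231 5 975)
(mv 1232 (cons (fin 975 7 975)
(mv 1233 (cons (fin 1166 0 1165)
(fin 1169 4 976))))))))))))
(cons (mv 847 (cons (fin 911 7 847)
(mv 849 (cons (fin 913 6 848)
(mv 1167 (cons (fin 1103 5 911)
(mv 1168 (cons (fin 1231 5 975)
(mv 1233 (cons (fin 1169 4 976)
(mv 1232 (cons (fin 1166 0 1165)
(fin 1297 4 1040)))))))))))))
(mv 911 (cons (fin 847 7 847)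
(mv 913 (cons (fin 849 6 848)
(mv 914 (cons (fin 975 1 910)
(mv 851 (cons (fin 850 2 847)
(mv 915 (cons (fin 852 2 848)
(mv 979 (cons (fin 978 0 911)
(fin 980 0 912)))))))))))))))))
(cons (mv 848 (cons (fin 1103 5 847)
(mv 783 (cons (fin 847 7 783)
(mv 719 (cons (fin 784 7 719)
(mv 849 (cons (fin 785 6 784)
(mv 911 (cons (fin 909 2 845)
(mv 850 (cons (fin 851 1 847)
(fin 913 2 846)))))))))))))
(mv 848 (cons (fin 1103 5 847)
(mv 784 (cons (fin 975 5 783)
(mv 785 (cons (fin 721 6 720)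
(fin 849 6 784)))))))))))))))
(mv 910 (cons (fin 846 5 845)
(mv 1165 (cons (fin 1229 6 973)
(mv 912 (cons (cons (mv 848 (cons (fin 1103 5 847)
(mv 783 (cons (fin 847 7 783)
(mv 784 (cons (fin 719 7 719)
(fin 975 5 783)))))))
(mv 848 (cons (mv 783 (cons (fin 847 7 783)
(mv 784 (cons (fin 719 7 719)
(fin 975 5 783)))))
(cons (mv 783 (cons (fin 847 7 783)
(mv 849 (cons (fin 785 6 784)
(mv 911 (cons (fin 909 2 845)
(mv 850 (cons (fin 851 1 847)
(fin 913 2 846)))))))))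
(mv 784 (cons (fin 975 5 783)
(mv 785 (cons (fin 721 6 720)
(fin 849 6 784)))))))))
(cons (mv 1104 (cons (cons (mv 847 (cons (fin 911 7 847)
(mv 849 (cons (fin 913 6 848)
(mv 1167 (cons (fin 1103 5 911)
(mv 1168 (cons (fin 1231 5 975)
(mv 1232 (cons (fin 975 7 975)
(mv 1233 (cons (fin 1166 0 1165)
(fin 1169 4 976)))))))))))))
(cons (mv 849 (cons (fin 913 6 848)
(mv 911 (cons (fin 847 7 847)
(mv 1168 (cons (fin 975 7 911)
(mv 1233 (cons (fin 1169 4 976)
(mv 1232 (cons (fin 1297 4 1040)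
(mv 1295 (cons (fin 1231 5 1039)
(mv 1296 (cons (fin 1103 7 1039)
(fin 1359 5 1103)))))))))))))))
(mv 849 (cons (fin 913 6 848)
(mv 911 (cons (fin 847 7 847)
(mv 1168 (cons (fin 975 7 911)
(mv 1167 (cons (fin 1231 5 975)
(mv 1233 (cons (fin 1169 4 976)
(mv 1232 (cons (fin 1166 0 1165)
(fin 1297 4 1040)))))))))))))))
(cons (cons (mv 849 (cons (fin 913 6 848)
(mv 1167 (cons (fin 1103 5 911)
(mv 1168 (cons (fin 1231 5 975)
(mv 1232 (cons (fin 975 7 975)
(mv 1233 (cons (fin 1166 0 1165)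
(fin 1169 4 976)))))))))))
(mv 847 (cons (fin 911 7 847)
(mv 1167 (cons (fin 1103 5 911)
(mv 1168 (cons (fin 1231 5 975)
(mv 1232 (cons (fin 975 7 975)
(mv 1233 (cons (fin 1166 0 1165)
(fin 1169 4 976))))))))))))
(cons (mv 847 (cons (fin 911 7 847)
(mv 849 (cons (fin 913 6 848)
(mv 1167 (cons (fin 1103 5 911)
(mv 1168 (cons (fin 1231 5 975)
(mv 1233 (cons (fin 1169 4 976)
(mv 1232 (cons (fin 1166 0 1165)
(fin 1297 4 1040)))))))))))))
(mv 911 (cons (fin 847 7 847)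
(mv 913 (cons (fin 849 6 848)
(mv 914 (cons (fin 975 1 910)
(mv 851 (cons (fin 850 2 847)
(mv 915 (cons (fin 852 2 848)
(mv 979 (cons (fin 978 0 911)
(fin 980 0 912)))))))))))))))))
(cons (mv 848 (cons (fin 1103 5 847)
(mv 783 (cons (fin 847 7 783)
(mv 719 (cons (fin 784 7 719)
(mv 849 (cons (fin 785 6 784)
(mv 911 (cons (fin 909 2 845)
(mv 850 (cons (fin 851 1 847)
(fin 913 2 846)))))))))))))
(mv 848 (cons (fin 1103 5 847)
(mv 784 (cons (fin 975 5 783)
(mv 785 (cons (fin 721 6 720)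
(fin 849 6 784))))))))))))))))))))))))))))))
(cons (mv 1037 (cons (cons (mv 976 (cons (fin 977 2 973)
(mv 975 (cons (fin 1036 2 972)
(mv 1101 (cons (fin 1100 1 1036)
(mv 1102 (cons (fin 1041 1 1037)
(mv 911 (cons (fin 847 5 846)
(mv 1166 (cons (fin 1103 5 910)
(fin 974 6 910)))))))))))))
(mv 1100 (cons (fin 1101 1 1036)
(mv 1036 (cons (fin 1099 1 1035)
(mv 971 (cons (fin 972 3 971)
(mv 1035 (cons (fin 970 3 970)
(mv 1103 (cons (fin 1102 0 1035)
(fin 1104 0 1036))))))))))))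
(cons (mv 976 (cons (fin 977 2 973)
(mv 1036 (cons (fin 975 2 972)
(mv 971 (cons (fin 972 3 971)
(mv 1035 (cons (fin 970 3 970)
(mv 1099 (cons (fin 1098 1 1034)
(fin 1100 1 1035)))))))))))
(cons (mv 976 (cons (fin 977 2 973)
(mv 1036 (cons (fin 975 2 972)
(mv 971 (cons (fin 972 3 971)
(mv 1035 (cons (fin 970 3 970)
(mv 1103 (cons (fin 1102 0 1035)
(fin 1104 0 1036)))))))))))
(mv 977 (cons (fin 976 2 973)
(mv 1041 (cons (fin 978 2 974)
(mv 1101 (cons (fin 1100 1 1036)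
(fin 1102 1 1037)))))))))))
(cons (mv 1037 (cons (cons (mv 972 (cons (fin 973 3 972)
(mv 976 (cons (fin 977 2 973)
(mv 1036 (cons (fin 971 3 971)
(fin 975 2 972)))))))
(mv 972 (cons (fin 973 3 972)
(mv 1036 (cons (fin 971 3 971)
(mv 1099 (cons (fin 1100 1 1035)
(mv 1035 (cons (fin 1098 1 1034)
(mv 1103 (cons (fin 1102 0 1035)
(fin 1104 0 1036))))))))))))
(cons (mv 976 (cons (fin 977 2 973)
(mv 1036 (cons (fin 975 2 972)
(mv 971 (cons (fin 972 3 971)
(mv 1035 (cons (fin 970 3 970)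
(mv 1099 (cons (fin 1098 1 1034)
(fin 1100 1 1035)))))))))))
(cons (mv 976 (cons (fin 977 2 973)
(mv 1036 (cons (fin 975 2 972)
(mv 1099 (cons (fin 1100 1 1035)
(mv 1035 (cons (fin 1098 1 1034)
(mv 1103 (cons (fin 1102 0 1035)
(fin 1104 0 1036)))))))))))
(mv 973 (cons (fin 972 3 972)
(mv 977 (cons (fin 976 2 973)
(mv 1041 (cons (fin 974 3 973)
(fin 978 2 974)))))))))))
(mv 1037 (cons (cons (mv 972 (cons (fin 973 3 972)
(mv 1036 (cons (fin 971 3 971)
(mv 1100 (cons (fin 1099 1 1035)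
(fin 1101 1 1036)))))))
(cons (mv 1100 (cons (fin 1101 1 1036)
(mv 1036 (cons (fin 1099 1 1035)
(mv 971 (cons (fin 972 3 971)
(mv 975 (cons (fin 976 2 972)
(mv 1035 (cons (fin 970 3 970)
(fin 974 2 971)))))))))))
(mv 972 (cons (fin 973 3 972)
(mv 1036 (cons (fin 971 3 971)
(mv 975 (cons (fin 976 2 972)
(mv 974 (cons (fin 1035 2 971)
(mv 1099 (cons (fin 1100 1 1035)
(mv 1103 (cons (fin 1104 0 1036)
(mv 910 (cons (fin 1167 7 910)
(fin 846 4 846)))))))))))))))))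
(cons (mv 1100 (cons (fin 1101 1 1036)
(mv 1036 (cons (fin 1099 1 1035)
(mv 975 (cons (fin 976 2 972)
(mv 974 (cons (fin 1035 2 971)
(mv 973 (cons (fin 1041 3 973)
(mv 845 (cons (fin 909 5 844)
(mv 1103 (cons (fin 1104 0 1036)
(mv 910 (cons (fin 1167 7 910)
(fin 846 4 846)))))))))))))))))
(cons (mv 972 (cons (fin 973 3 972)
(mv 1036 (cons (fin 971 3 971)
(mv 975 (cons (fin 976 2 972)
(mv 974 (cons (fin 1035 2 971)
(mv 1103 (cons (fin 1104 0 1036)
(mv 910 (cons (fin 1167 7 910)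
(fin 846 4 846)))))))))))))
(mv 973 (cons (fin 972 3 972)
(mv 974 (cons (fin 1041 3 973)
(mv 1101 (cons (fin 1100 1 1036)
(mv 910 (cons (fin 846 5 845)
(fin 1165 6 909))))))))))))))))
(cons (cons (mv 1037 (cons (cons (mv 972 (cons (fin 973 3 972)
(mv 1036 (cons (fin 971 3 971)
(mv 1100 (cons (fin 1099 1 1035)
(fin 1101 1 1036)))))))
(cons (mv 972 (cons (fin 973 3 972)
(mv 1036 (cons (fin 971 3 971)
(mv 1099 (cons (fin 1100 1 1035)
(mv 1035 (cons (fin 1098 1 1034)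
(mv 1103 (cons (fin 1102 0 1035)
(fin 1104 0 1036)))))))))))
(mv 1100 (cons (fin 1101 1 1036)
(mv 1036 (cons (fin 1099 1 1035)
(mv 971 (cons (fin 972 3 971)
(mv 1035 (cons (fin 970 3 970)
(mv 1103 (cons (fin 1102 0 1035)
(fin 1104 0 1036)))))))))))))
(cons (mv 1100 (cons (fin 1101 1 1036)
(mv 1036 (cons (fin 1099 1 1035)
(mv 1103 (cons (fin 1104 0 1036)
(mv 1035 (cons (fin 1102 0 1035)
(mv 970 (cons (fin 971 3 970)
(mv 974 (cons (fin 975 2 971)
(mv 973 (cons (fin 1041 3 973)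
(fin 1034 2 970)))))))))))))))
(cons (mv 972 (cons (fin 973 3 972)
(mv 1036 (cons (fin 971 3 971)
(mv 1103 (cons (fin 1104 0 1036)
(mv 1035 (cons (fin 1102 0 1035)
(mv 846 (cons (cons (mv 974 (cons (fin 975 2 971)
(fin 910 4 846)))
(mv 1099 (cons (fin 1098 1 1034)
(mv 844 (cons (fin 908 5 843)
(mv 1163 (cons (fin 1227 6 971)
(mv 911 (cons (cons (mv 910 (cons (fin 975 7 846)
(mv 845 (cons (fin 843 0 843)
(mv 912 (cons (fin 909 3 844)
(fin 913 3 845)))))))
(mv 845 (cons (cons (mv 843 (cons (fin 910 0 843)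
(mv 778 (cons (fin 779 3 778)
(mv 777 (cons (fin 842 3 777)
(mv 783 (cons (fin 782 2 779)
(mv 847 (cons (fin 784 2 780)
(fin 912 0 844)))))))))))
(mv 847 (cons (fin 912 0 844)
(mv 780 (cons (fin 779 3 779)
(mv 784 (cons (fin 783 2 780)
(mv 848 (cons (fin 781 3 780)
(fin 785 2 781))))))))))
(cons (mv 843 (cons (fin 910 0 843)
(mv 778 (cons (fin 779 3 778)
(mv 782 (cons (fin 783 2 779)
(mv 842 (cons (fin 777 3 777)
(fin 781 2 778)))))))))
(cons (mv 843 (cons (fin 910 0 843)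
(mv 778 (cons (fin 779 3 778)
(mv 842 (cons (fin 777 3 777)
(mv 906 (cons (fin 905 1 841)
(fin 907 1 842)))))))))
(mv 843 (cons (fin 910 0 843)
(mv 782 (cons (fin 783 2 779)
(mv 781 (cons (fin 842 2 778)
(mv 847 (cons (fin 912 0 844)
(mv 848 (cons (fin 780 3 780)
(fin 849 3 781))))))))))))))))
(cons (mv 847 (cons (cons (mv 782 (cons (fin 975 7 782)
(mv 654 (cons (fin 718 4 654)
(mv 845 (cons (fin 912 0 844)
(mv 783 (cons (fin 843 2 779)
(fin 784 2 780)))))))))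
(cons (mv 975 (cons (fin 782 7 782)
(mv 848 (cons (fin 784 6 783)
(fin 912 6 847)))))
(mv 845 (cons (fin 912 0 844)
(mv 779 (cons (fin 780 3 779)
(mv 783 (cons (fin 784 2 780)
(mv 843 (cons (fin 778 3 778)
(fin 782 2 779)))))))))))
(cons (mv 975 (cons (fin 782 7 782)
(mv 784 (cons (fin 848 6 783)
(mv 783 (cons (fin 845 2 780)
(fin 720 6 719)))))))
(cons (mv 845 (cons (fin 912 0 844)
(mv 779 (cons (fin 780 3 779)
(mv 778 (cons (fin 843 3 778)
(mv 784 (cons (fin 783 2 780)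
(mv 848 (cons (fin 785 2 781)
(fin 975 6 783)))))))))))
(mv 782 (cons (fin 975 7 782)
(mv 654 (cons (fin 718 4 654)
(mv 845 (cons (fin 912 0 844)
(mv 779 (cons (fin 780 3 779)
(mv 843 (cons (fin 778 3 778)
(fin 783 2 779)))))))))))))))
(cons (mv 975 (cons (fin 910 7 846)
(mv 847 (cons (fin 782 7 782)
(mv 848 (cons (fin 784 6 783)
(fin 912 6 847)))))))
(mv 975 (cons (fin 910 7 846)
(mv 847 (cons (fin 782 7 782)
(mv 784 (cons (fin 848 6 783)
(mv 783 (cons (fin 845 2 780)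
(fin 720 6 719))))))))))))))))))))
(cons (mv 975 (cons (fin 974 2 971)
(mv 847 (cons (cons (mv 911 (cons (fin 782 7 782)
(mv 848 (cons (fin 784 6 783)
(fin 912 6 847)))))
(mv 1099 (cons (fin 1098 1 1034)
(mv 844 (cons (fin 908 5 843)
(mv 1163 (cons (fin 1227 6 971)
(mv 845 (cons (cons (mv 779 (cons (fin 780 3 779)
(mv 783 (cons (fin 784 2 780)
(mv 843 (cons (fin 778 3 778)
(fin 782 2 779)))))))
(mv 783 (cons (fin 784 2 780)
(mv 843 (cons (fin 782 2 779)
(mv 778 (cons (fin 779 3 778)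
(mv 842 (cons (fin 777 3 777)
(mv 906 (cons (fin 905 1 841)
(fin 907 1 842))))))))))))
(cons (mv 780 (cons (fin 779 3 779)
(mv 848 (cons (fin 781 3 780)
(mv 785 (cons (fin 784 2 781)
(mv 849 (cons (fin 786 2 782)
(mv 913 (cons (fin 912 0 845)
(fin 914 0 846)))))))))))
(cons (mv 784 (cons (fin 783 2 780)
(mv 848 (cons (fin 785 2 781)
(mv 781 (cons (fin 780 3 780)
(mv 849 (cons (fin 782 3 781)
(mv 913 (cons (fin 912 0 845)
(fin 914 0 846)))))))))))
(mv 779 (cons (fin 780 3 779)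
(mv 843 (cons (fin 778 3 778)
(mv 782 (cons (fin 783 2 779)
(mv 842 (cons (fin 781 2 778)
(mv 906 (cons (fin 905 1 841)
(fin 907 1 842))))))))))))))))))))))
(cons (mv 1099 (cons (fin 1098 1 1034)
(mv 908 (cons (fin 844 5 843)
(mv 1163 (cons (fin 1227 6 971)
(mv 848 (cons (cons (mv 911 (cons (fin 784 6 783)
(fin 912 6 847)))
(mv 845 (cons (fin 909 1 844)
(mv 780 (cons (fin 781 3 780)
(mv 785 (cons (fin 784 2 781)
(mv 849 (cons (fin 786 2 782)
(mv 913 (cons (fin 912 0 845)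
(fin 914 0 846))))))))))))
(cons (mv 845 (cons (fin 909 1 844)
(mv 912 (cons (fin 913 0 845)
(fin 911 6 847)))))
(mv 784 (cons (fin 911 6 783)
(mv 845 (cons (fin 909 1 844)
(fin 785 2 781))))))))))))))
(cons (mv 911 (cons (fin 782 7 782)
(mv 844 (cons (mv 908 (cons (fin 1099 5 843)
(fin 1101 4 844)))
(cons (mv 845 (cons (fin 912 0 844)
(mv 779 (cons (fin 780 3 779)
(mv 843 (cons (fin 778 3 778)
(mv 906 (cons (fin 907 1 842)
(mv 842 (cons (fin 905 1 841)
(mv 1034 (cons (fin 970 6 778)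
(mv 1098 (cons (fin 1097 1 1033)
(fin 1099 1 1034)))))))))))))))
(mv 845 (cons (fin 912 0 844)
(mv 908 (cons (fin 907 1 843)
(fin 781 6 780))))))))))
(mv 911 (cons (fin 782 7 782)
(mv 784 (cons (fin 848 6 783)
(mv 783 (cons (fin 720 6 719)
(mv 785 (cons (fin 786 1 782)
(mv 844 (cons (fin 845 2 780)
(mv 908 (cons (fin 1099 5 843)
(fin 1101 4 844)))))))))))))))))))
(mv 910 (cons (fin 974 4 846)
(mv 1098 (cons (fin 1099 1 1034)
(mv 1034 (cons (fin 1097 1 1033)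
(mv 970 (cons (fin 969 3 969)
(mv 844 (cons (cons (mv 908 (cons (fin 1101 4 844)
(mv 779 (cons (fin 843 7 779)
(mv 715 (cons (fin 780 7 715)
(mv 845 (cons (fin 781 6 780)
(mv 907 (cons (fin 847 1 843)
(mv 906 (cons (fin 905 2 841)
(fin 909 2 842)))))))))))))
(cons (mv 843 (cons (cons (mv 845 (cons (fin 911 0 843)
(mv 778 (cons (fin 779 3 778)
(mv 842 (cons (fin 777 3 777)
(fin 909 0 842)))))))
(mv 906 (cons (fin 907 6 842)
(mv 841 (cons (fin 905 7 841)
(mv 842 (cons (fin 777 7 777)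
(fin 779 6 778))))))))
(cons (mv 845 (cons (fin 911 0 843)
(mv 779 (cons (fin 778 3 778)
(mv 783 (cons (fin 782 2 779)
(mv 847 (cons (fin 780 3 779)
(fin 784 2 780)))))))))
(mv 845 (cons (fin 911 0 843)
(mv 782 (cons (fin 783 2 779)
(mv 842 (cons (fin 781 2 778)
(fin 909 0 842))))))))))
(mv 908 (cons (fin 1101 4 844)
(mv 845 (cons (fin 781 6 780)
(mv 847 (cons (fin 907 1 843)
(mv 779 (cons (fin 780 3 779)
(mv 784 (cons (fin 783 2 780)
(mv 848 (cons (fin 909 1 844)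
(fin 785 2 781)))))))))))))))
(cons (mv 908 (cons (fin 1101 4 844)
(mv 843 (cons (fin 779 7 779)
(mv 906 (cons (fin 907 6 842)
(mv 841 (cons (fin 905 7 841)
(mv 842 (cons (fin 909 0 841)
(fin 777 7 777)))))))))))
(cons (mv 908 (cons (fin 1101 4 844)
(mv 845 (cons (fin 781 6 780)
(mv 843 (cons (fin 911 0 843)
(mv 907 (cons (fin 906 1 842)
(fin 847 1 843)))))))))
(mv 908 (cons (fin 1101 4 844)
(mv 779 (cons (fin 843 7 779)
(mv 780 (cons (fin 715 7 715)
(mv 781 (cons (fin 717 6 716)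
(fin 845 6 780))))))))))))))))))))))))))))))))
(mv 973 (cons (fin 972 3 972)
(mv 974 (cons (fin 1041 3 973)
(mv 1101 (cons (fin 1100 1 1036)
(mv 910 (cons (fin 846 5 845)
(fin 1165 6 909)))))))))))))
(cons (mv 1037 (cons (cons (mv 972 (cons (fin 973 3 972)
(mv 971 (cons (fin 1036 3 971)
(mv 977 (cons (fin 976 2 973)
(mv 1041 (cons (fin 978 2 974)
(mv 1101 (cons (fin 1100 1 1036)
(fin 1102 1 1037)))))))))))
(mv 972 (cons (fin 973 3 972)
(mv 1036 (cons (fin 971 3 971)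
(mv 1100 (cons (fin 1099 1 1035)
(fin 1101 1 1036))))))))
(cons (mv 972 (cons (fin 973 3 972)
(mv 976 (cons (fin 977 2 973)
(mv 1036 (cons (fin 971 3 971)
(fin 975 2 972)))))))
(cons (mv 976 (cons (fin 977 2 973)
(mv 975 (cons (fin 1036 2 972)
(mv 1101 (cons (fin 1100 1 1036)
(mv 1102 (cons (fin 1041 1 1037)
(mv 911 (cons (fin 847 5 846)
(mv 1166 (cons (fin 1103 5 910)
(fin 1230 6 974)))))))))))))
(mv 972 (cons (fin 973 3 972)
(mv 977 (cons (fin 976 2 973)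
(mv 1041 (cons (fin 978 2 974)
(mv 1101 (cons (fin 1100 1 1036)
(fin 1102 1 1037)))))))))))))
(mv 1041 (cons (cons (mv 973 (cons (fin 974 3 973)
(mv 977 (cons (fin 978 2 974)
(mv 1037 (cons (fin 976 2 973)
(mv 1101 (cons (fin 1100 1 1036)
(fin 1102 1 1037)))))))))
(cons (mv 974 (cons (fin 973 3 973)
(mv 1101 (cons (fin 1102 1 1037)
(mv 1037 (cons (fin 1100 1 1036)
(mv 910 (cons (fin 846 5 845)
(mv 1165 (cons (fin 1229 6 973)
(mv 975 (cons (mv 1036 (cons (fin 1035 2 971)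
(fin 976 2 972)))
(cons (mv 1103 (cons (fin 1167 7 910)
(mv 911 (cons (mv 847 (cons (fin 783 5 782)
(fin 1104 4 847)))
(cons (mv 912 (cons (fin 848 6 847)
(mv 913 (cons (fin 914 1 910)
(mv 849 (cons (fin 850 2 846)
(mv 1104 (cons (fin 976 6 848)
(fin 1168 4 911)))))))))
(mv 847 (cons (fin 783 5 782)
(mv 848 (cons (fin 784 6 783)
(fin 912 6 847))))))))))
(mv 1036 (cons (fin 1035 2 971)
(mv 1103 (cons (fin 1104 0 1036)
(fin 1167 7 910))))))))))))))))))
(mv 973 (cons (fin 974 3 973)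
(mv 977 (cons (fin 978 2 974)
(mv 976 (cons (fin 1037 2 973)
(mv 1104 (cons (mv 913 (cons (fin 849 5 848)
(fin 1168 6 912)))
(cons (mv 913 (cons (fin 849 5 848)
(mv 912 (cons (mv 848 (cons (fin 1103 5 847)
(fin 784 4 784)))
(cons (mv 911 (cons (fin 847 7 847)
(mv 910 (cons (fin 909 0 909)
(mv 846 (cons (fin 845 3 845)
(mv 1103 (cons (fin 975 7 846)
(fin 1167 5 911)))))))))
(mv 847 (cons (fin 911 7 847)
(mv 848 (cons (fin 783 7 783)
(fin 784 4 784))))))))))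
(mv 1168 (cons (fin 1232 6 976)
(mv 911 (cons (fin 975 7 911)
(mv 912 (cons (fin 847 7 847)
(mv 848 (cons (fin 1103 5 847)
(fin 784 4 784))))))))))))))))))))
(cons (mv 977 (cons (fin 978 2 974)
(mv 1037 (cons (fin 976 2 973)
(mv 1101 (cons (fin 1100 1 1036)
(fin 1102 1 1037)))))))
(cons (mv 974 (cons (fin 973 3 973)
(mv 977 (cons (fin 978 2 974)
(mv 1101 (cons (fin 1102 1 1037)
(mv 913 (cons (cons (mv 849 (cons (fin 1104 5 848)
(mv 784 (cons (fin 848 7 784)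
(mv 785 (cons (fin 720 7 720)
(fin 976 5 784)))))))
(mv 976 (cons (cons (mv 975 (cons (fin 914 2 910)
(mv 910 (cons (fin 909 3 909)
(mv 846 (cons (fin 782 4 782)
(fin 1103 4 846)))))))
(mv 1104 (cons (fin 1168 6 912)
(mv 912 (cons (mv 848 (cons (fin 1103 5 847)
(fin 784 4 784)))
(cons (mv 847 (cons (fin 911 7 847)
(mv 848 (cons (fin 783 7 783)
(fin 784 4 784)))))
(mv 911 (cons (fin 847 7 847)
(mv 910 (cons (fin 909 0 909)
(mv 846 (cons (fin 845 3 845)
(fin 1103 4 846)))))))))))))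
(cons (mv 975 (cons (fin 914 2 910)
(mv 910 (cons (fin 909 3 909)
(mv 846 (cons (fin 782 4 782)
(mv 781 (cons (fin 845 7 781)
(mv 847 (cons (fin 783 6 782)
(mv 1104 (cons (fin 1168 6 912)
(fin 911 4 847)))))))))))))
(mv 914 (cons (fin 975 2 910)
(mv 915 (cons (fin 916 1 912)
(mv 1104 (cons (fin 1168 6 912)
(mv 912 (cons (mv 847 (cons (fin 848 3 847)
(fin 911 7 847)))
(cons (mv 851 (cons (fin 852 2 848)
(mv 911 (cons (fin 850 2 847)
(fin 847 7 847)))))
(mv 848 (cons (fin 1103 5 847)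
(fin 784 4 784))))))))))))))))
(cons (mv 849 (cons (mv 784 (cons (fin 848 7 784)
(mv 785 (cons (fin 720 7 720)
(fin 976 5 784)))))
(cons (mv 786 (cons (fin 850 6 785)
(mv 848 (cons (fin 784 7 784)
(mv 846 (cons (mv 847 (cons (fin 914 0 846)
(mv 910 (cons (fin 909 1 845)
(fin 783 6 782)))))
(cons (mv 910 (cons (fin 1103 4 846)
(mv 781 (cons (fin 845 7 781)
(mv 782 (cons (fin 717 7 717)
(fin 975 4 782)))))))
(mv 847 (cons (fin 914 0 846)
(mv 781 (cons (fin 782 3 781)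
(mv 845 (cons (fin 780 3 780)
(fin 912 0 845))))))))))))))
(mv 785 (cons (fin 976 5 784)
(mv 786 (cons (fin 722 6 721)
(fin 850 6 785))))))))
(cons (mv 849 (cons (fin 1104 5 848)
(mv 784 (cons (fin 848 7 784)
(mv 785 (cons (fin 720 7 720)
(mv 786 (cons (fin 722 6 721)
(fin 850 6 785)))))))))
(mv 849 (cons (fin 1104 5 848)
(mv 785 (cons (fin 976 5 784)
(mv 786 (cons (fin 722 6 721)
(fin 850 6 785)))))))))))))))))
(mv 974 (cons (fin 973 3 973)
(mv 977 (cons (fin 978 2 974)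
(mv 1101 (cons (fin 1102 1 1037)
(mv 1037 (cons (fin 1100 1 1036)
(mv 910 (cons (fin 846 5 845)
(mv 1229 (cons (fin 1165 6 973)
(mv 1103 (cons (mv 1167 (cons (fin 975 7 910)
(fin 1231 7 974)))
(cons (mv 1036 (cons (fin 1104 0 1036)
(mv 1035 (cons (fin 975 2 971)
(mv 970 (cons (fin 971 3 970)
(mv 1034 (cons (fin 969 3 969)
(mv 1098 (cons (fin 1097 1 1033)
(fin 1099 1 1034)))))))))))
(mv 1104 (cons (fin 1036 0 1036)
(mv 849 (cons (fin 913 5 848)
(mv 1231 (cons (fin 1167 7 974)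
(mv 1232 (cons (fin 1168 6 976)
(mv 1230 (cons (cons (mv 1292 (cons (fin 1293 1 1228)
(mv 1228 (cons (fin 1291 1 1227)
(mv 1296 (cons (fin 1295 0 1228)
(fin 1297 0 1229)))))))
(mv 1296 (cons (fin 1297 0 1229)
(mv 1228 (cons (fin 1295 0 1228)
(mv 1227 (cons (mv 1163 (cons (fin 1162 3 1162)
(fin 1164 3 1163)))
(mv 1291 (cons (fin 1290 1 1226)
(fin 1292 1 1227))))))))))
(cons (mv 1293 (cons (fin 1292 1 1228)
(mv 1233 (cons (fin 1294 1 1229)
(mv 1234 (cons (mv 1170 (cons (fin 1169 2 1166)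
(fin 1171 2 1167)))
(mv 1298 (cons (fin 1297 0 1230)
(fin 1299 0 1231)))))))))
(cons (mv 1297 (cons (fin 1296 0 1229)
(mv 1233 (cons (fin 1298 0 1230)
(mv 1234 (cons (mv 1170 (cons (fin 1169 2 1166)
(fin 1171 2 1167)))
(mv 1294 (cons (fin 1293 1 1229)
(fin 1295 1 1230)))))))))
(mv 1292 (cons (fin 1293 1 1228)
(mv 1228 (cons (fin 1291 1 1227)
(mv 1227 (cons (mv 1163 (cons (fin 1162 3 1162)
(fin 1164 3 1163)))
(mv 1295 (cons (fin 1294 0 1227)
(fin 1296 0 1228))))))))))))))))))))))))))))))))))))))))))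
(cons (cons (mv 1041 (cons (cons (mv 973 (cons (fin 974 3 973)
(mv 977 (cons (fin 978 2 974)
(mv 1037 (cons (fin 972 3 972)
(fin 976 2 973)))))))
(cons (mv 973 (cons (fin 974 3 973)
(mv 1037 (cons (fin 972 3 972)
(mv 1102 (cons (fin 1101 1 1037)
(mv 845 (cons (fin 909 4 845)
(mv 1166 (cons (fin 1230 7 973)
(mv 1103 (cons (mv 1036 (cons (fin 1035 0 1035)
(fin 1104 0 1036)))
(cons (mv 975 (cons (fin 911 5 910)
(mv 1167 (cons (mv 976 (cons (fin 912 6 911)
(fin 1231 6 975)))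
(cons (mv 976 (cons (fin 912 6 911)
(mv 1168 (cons (fin 1232 4 975)
(mv 1169 (cons (fin 1170 3 1102)
(mv 1233 (cons (fin 1234 0 1166)
(fin 1104 4 976)))))))))
(mv 1231 (cons (fin 1295 7 1038)
(mv 1232 (cons (fin 1168 4 975)
(fin 1296 4 1039))))))))))
(mv 975 (cons (fin 911 5 910)
(mv 1036 (cons (fin 976 2 972)
(fin 1035 0 1035))))))))))))))))))
(mv 977 (cons (fin 978 2 974)
(mv 976 (cons (fin 1037 2 973)
(mv 1101 (cons (fin 1102 1 1037)
(mv 1104 (cons (mv 913 (cons (fin 849 5 848)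
(fin 1168 6 912)))
(cons (mv 849 (cons (fin 913 5 848)
(mv 912 (cons (mv 848 (cons (fin 1103 5 847)
(fin 785 6 784)))
(cons (mv 911 (cons (fin 847 7 847)
(mv 910 (cons (fin 909 0 909)
(mv 1103 (cons (fin 1167 5 911)
(mv 846 (cons (fin 975 7 846)
(fin 974 4 846)))))))))
(mv 848 (cons (fin 785 6 784)
(fin 784 4 784))))))))
(mv 1168 (cons (fin 1232 6 976)
(mv 911 (cons (fin 975 7 911)
(mv 912 (cons (fin 847 7 847)
(mv 848 (cons (fin 1103 5 847)
(fin 784 4 784))))))))))))))))))))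
(cons (mv 977 (cons (fin 978 2 974)
(mv 1037 (cons (fin 976 2 973)
(mv 972 (cons (fin 973 3 972)
(mv 1036 (cons (fin 971 3 971)
(mv 1102 (cons (fin 1101 1 1037)
(mv 1103 (cons (fin 1035 0 1035)
(fin 1104 0 1036)))))))))))))
(cons (mv 974 (cons (fin 973 3 973)
(mv 977 (cons (fin 978 2 974)
(mv 1101 (cons (fin 1102 1 1037)
(mv 910 (cons (cons (mv 846 (cons (fin 1103 4 846)
(mv 781 (cons (fin 845 7 781)
(mv 782 (cons (fin 717 7 717)
(fin 975 4 782)))))))
(mv 975 (cons (cons (mv 976 (cons (fin 909 3 909)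
(mv 913 (cons (fin 914 2 910)
(mv 849 (cons (fin 785 5 784)
(fin 1104 5 848)))))))
(mv 1103 (cons (fin 1167 7 910)
(mv 911 (cons (mv 847 (cons (fin 783 5 782)
(fin 1104 4 847)))
(cons (mv 847 (cons (fin 783 5 782)
(mv 848 (cons (fin 784 6 783)
(fin 912 6 847)))))
(mv 912 (cons (fin 848 6 847)
(mv 913 (cons (fin 914 1 910)
(mv 849 (cons (fin 850 2 846)
(fin 1104 5 848)))))))))))))
(cons (mv 976 (cons (fin 909 3 909)
(mv 913 (cons (fin 914 2 910)
(mv 849 (cons (fin 785 5 784)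
(mv 786 (cons (fin 850 6 785)
(mv 848 (cons (fin 784 7 784)
(mv 1103 (cons (fin 1167 7 910)
(fin 912 5 847)))))))))))))
(mv 909 (cons (fin 976 3 909)
(mv 908 (cons (fin 907 0 907)
(mv 1103 (cons (fin 1167 7 910)
(mv 911 (cons (mv 847 (cons (fin 848 2 844)
(fin 783 5 782)))
(cons (mv 844 (cons (fin 843 3 843)
(mv 912 (cons (fin 845 3 844)
(fin 848 6 847)))))
(mv 847 (cons (fin 783 5 782)
(fin 1104 4 847))))))))))))))))
(cons (mv 846 (cons (mv 781 (cons (fin 845 7 781)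
(mv 782 (cons (fin 717 7 717)
(fin 975 4 782)))))
(cons (mv 781 (cons (fin 845 7 781)
(mv 847 (cons (fin 783 6 782)
(mv 849 (cons (mv 848 (cons (fin 909 1 845)
(mv 913 (cons (fin 914 0 846)
(fin 784 7 784)))))
(cons (mv 913 (cons (fin 1104 5 848)
(mv 785 (cons (fin 976 5 784)
(mv 786 (cons (fin 722 6 721)
(fin 850 6 785)))))))
(mv 848 (cons (fin 909 1 845)
(mv 785 (cons (fin 786 2 782)
(mv 850 (cons (fin 911 1 846)
(mv 912 (cons (fin 976 6 784)
(mv 915 (cons (fin 914 0 847)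
(mv 851 (cons (fin 916 0 848)
(mv 788 (cons (fin 787 2 784)
(mv 852 (cons (fin 784 3 784)
(fin 789 2 785))))))))))))))))))))))))
(mv 782 (cons (fin 975 4 782)
(mv 783 (cons (fin 719 6 718)
(fin 847 6 782))))))))
(cons (mv 846 (cons (fin 1103 4 846)
(mv 781 (cons (fin 845 7 781)
(mv 782 (cons (fin 717 7 717)
(mv 783 (cons (fin 719 6 718)
(fin 847 6 782)))))))))
(mv 846 (cons (fin 1103 4 846)
(mv 782 (cons (fin 975 4 782)
(mv 783 (cons (fin 719 6 718)
(fin 847 6 782)))))))))))))))))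
(mv 974 (cons (fin 973 3 973)
(mv 977 (cons (fin 978 2 974)
(mv 1102 (cons (fin 1101 1 1037)
(mv 910 (cons (cons (mv 1103 (cons (fin 846 4 846)
(fin 1167 4 910)))
(mv 845 (cons (fin 909 7 845)
(mv 781 (cons (fin 846 7 781)
(mv 911 (cons (fin 847 6 846)
(mv 1166 (cons (fin 975 6 910)
(mv 1229 (cons (fin 1165 5 973)
(mv 1230 (cons (fin 1293 5 1037)
(mv 1231 (cons (fin 1167 4 974)
(fin 1295 4 1038))))))))))))))))
(cons (mv 845 (cons (fin 909 7 845)
(mv 847 (cons (fin 911 6 846)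
(mv 1167 (cons (fin 1103 4 910)
(mv 1166 (cons (fin 1231 4 974)
(mv 1229 (cons (fin 1165 5 973)
(mv 1230 (cons (fin 1293 5 1037)
(fin 975 6 974)))))))))))))
(mv 845 (cons (fin 909 7 845)
(mv 846 (cons (fin 781 7 781)
(fin 1103 4 846))))))))))))))))))
(mv 1037 (cons (cons (mv 972 (cons (fin 973 3 972)
(mv 971 (cons (fin 1036 3 971)
(mv 977 (cons (fin 976 2 973)
(mv 1041 (cons (fin 978 2 974)
(mv 1101 (cons (fin 1100 1 1036)
(fin 1102 1 1037)))))))))))
(cons (mv 972 (cons (fin 973 3 972)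
(mv 976 (cons (fin 977 2 973)
(mv 1036 (cons (fin 971 3 971)
(mv 1099 (cons (fin 1100 1 1035)
(mv 1035 (cons (fin 1098 1 1034)
(mv 1103 (cons (fin 1102 0 1035)
(fin 1104 0 1036)))))))))))))
(mv 976 (cons (fin 977 2 973)
(mv 1100 (cons (fin 1101 1 1036)
(mv 1036 (cons (fin 1099 1 1035)
(mv 971 (cons (fin 972 3 971)
(mv 1035 (cons (fin 970 3 970)
(mv 1103 (cons (fin 1102 0 1035)
(fin 1104 0 1036)))))))))))))))
(cons (cons (mv 972 (cons (fin 973 3 972)
(mv 977 (cons (fin 976 2 973)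
(mv 1036 (cons (fin 971 3 971)
(mv 1041 (cons (fin 978 2 974)
(mv 1102 (cons (fin 1101 1 1037)
(mv 1103 (cons (fin 1035 0 1035)
(fin 1104 0 1036)))))))))))))
(mv 976 (cons (fin 977 2 973)
(mv 1100 (cons (fin 1101 1 1036)
(mv 1036 (cons (fin 1099 1 1035)
(mv 1103 (cons (fin 1104 0 1036)
(mv 848 (cons (fin 912 5 847)
(mv 1102 (cons (fin 1035 0 1035)
(mv 1167 (cons (fin 1231 6 975)
(mv 974 (cons (fin 910 4 910)
(mv 973 (cons (fin 1041 3 973)
(mv 909 (cons (fin 1166 7 909)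
(fin 845 5 844))))))))))))))))))))))
(cons (mv 972 (cons (fin 973 3 972)
(mv 1036 (cons (fin 971 3 971)
(mv 1100 (cons (fin 1099 1 1035)
(fin 1101 1 1036)))))))
(mv 972 (cons (fin 973 3 972)
(mv 977 (cons (fin 976 2 973)
(mv 1041 (cons (fin 978 2 974)
(mv 1101 (cons (fin 1100 1 1036)
(fin 1102 1 1037))))))))))))))
(cons (mv 1037 (cons (cons (mv 972 (cons (fin 973 3 972)
(mv 971 (cons (fin 1036 3 971)
(mv 977 (cons (fin 976 2 973)
(mv 1041 (cons (fin 978 2 974)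
(mv 1101 (cons (fin 1100 1 1036)
(fin 1102 1 1037)))))))))))
(mv 976 (cons (fin 977 2 973)
(mv 975 (cons (fin 1036 2 972)
(mv 1101 (cons (fin 1100 1 1036)
(mv 1102 (cons (fin 1041 1 1037)
(mv 911 (cons (fin 847 5 846)
(mv 1166 (cons (fin 974 6 910)
(fin 1230 6 974))))))))))))))
(cons (mv 972 (cons (fin 973 3 972)
(mv 976 (cons (fin 977 2 973)
(mv 1036 (cons (fin 971 3 971)
(fin 975 2 972)))))))
(cons (mv 972 (cons (fin 973 3 972)
(mv 1036 (cons (fin 971 3 971)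
(mv 1100 (cons (fin 1099 1 1035)
(fin 1101 1 1036)))))))
(mv 972 (cons (fin 973 3 972)
(mv 977 (cons (fin 976 2 973)
(mv 1041 (cons (fin 978 2 974)
(mv 1101 (cons (fin 1100 1 1036)
(fin 1102 1 1037)))))))))))))
(mv 1037 (cons (cons (mv 972 (cons (fin 973 3 972)
(mv 976 (cons (fin 977 2 973)
(mv 975 (cons (fin 1036 2 972)
(mv 1101 (cons (fin 1100 1 1036)
(mv 1102 (cons (fin 1041 1 1037)
(mv 911 (cons (fin 847 5 846)
(mv 1166 (cons (fin 1103 5 910)
(fin 974 6 910)))))))))))))))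
(cons (mv 972 (cons (fin 973 3 972)
(mv 976 (cons (fin 977 2 973)
(mv 1036 (cons (fin 975 2 972)
(mv 1099 (cons (fin 1100 1 1035)
(mv 1035 (cons (fin 1098 1 1034)
(mv 1103 (cons (fin 1102 0 1035)
(fin 1104 0 1036)))))))))))))
(mv 973 (cons (fin 972 3 972)
(mv 974 (cons (fin 1041 3 973)
(mv 1100 (cons (fin 1101 1 1036)
(mv 1036 (cons (fin 1099 1 1035)
(mv 1035 (cons (fin 1034 2 970)
(fin 975 2 971)))))))))))))
(cons (mv 976 (cons (fin 977 2 973)
(mv 975 (cons (fin 1036 2 972)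
(mv 1101 (cons (fin 1100 1 1036)
(mv 1102 (cons (fin 1041 1 1037)
(mv 911 (cons (fin 847 5 846)
(mv 1166 (cons (fin 1103 5 910)
(fin 974 6 910)))))))))))))
(cons (mv 973 (cons (fin 972 3 972)
(mv 974 (cons (fin 1041 3 973)
(mv 976 (cons (fin 977 2 973)
(mv 975 (cons (fin 1036 1 972)
(mv 908 (cons (fin 909 3 908)
(mv 912 (cons (fin 913 2 909)
(mv 848 (cons (fin 784 5 783)
(fin 1103 5 847)))))))))))))))
(mv 972 (cons (fin 973 3 972)
(mv 977 (cons (fin 976 2 973)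
(mv 1041 (cons (fin 978 2 974)
(mv 1101 (cons (fin 1100 1 1036)
(fin 1102 1 1037))))))))))))))))))
def l15 : Lem := ⟨17672042592950510299342161747532428741358160893794450532607270698129752962383966679797774154701950421020191674846877452631289669433532411657536873821582864322832094995237976664601613395680896036318715866521764407099865564676993471100411554418605480722106008602337571462179774064736310031630534868627379729584881664, 12582417958928144887269438372730011873920638178303537382289362801039800577071369735258406746540891245792652009293223107736992155803802174174730822751445300442742260248948286696848956772038330699681293014363917920494155255463886470846906394642946562052587735238891497850655174577312850736583490441715745985934665095210818849614342219213750435956123340306956052711624735839090445034308025050036935678883212034048, 12582417958928144887269438372730011873920638178303537382289362801039800577071369735258406746540891245792652009293223107736992155803802174174730822751445300442742260248948286696848956772038330699681293014363917920494155255463886470846906394642946562052587735238891497850655174577312850736583490441715745985934665095210818849614342219213750435956123340306956052711624735839090445034308025050036935678883212034048,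 19, 33⟩
theorem l15_valid : l15.Valid :=
  Lem.valid_of_chk t15 t15_valid [1039, 1040] c15 l15 (by decide +kernel)
end Crest.Agent.SnakyAux
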