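import Crest.Agent.S0047_aux.Checker

set_option autoImplicit false
set_option maxRecDepth 100000
namespace Crest.Agent.SnakyAux
open Cert
def t16 : Tbl := Tbl.nil
theorem t16_valid : t16.Valid := Tbl.valid_nil
def c16 : Cert :=
(mv 1038 (cons (cons (cons (mv 1037 (cons (cons (mv 972 (cons (fin 973 3 972)
(mv 976 (cons (fin 977 2 973)
(mv 1101 (cons (fin 1100 1 1036)
(mv 1041 (cons (fin 1102 1 1037)
(mv 1105 (cons (fin 1104 0 1037)
(fin 1106 0 1038)))))))))))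
(cons (mv 976 (cons (fin 977 2 973)
(mv 1101 (cons (fin 1100 1 1036)
(mv 1041 (cons (fin 1102 1 1037)
(mv 1105 (cons (fin 1104 0 1037)
(fin 1106 0 1038)))))))))
(mv 972 (cons (fin 973 3 972)
(mv 977 (cons (fin 976 2 973)
(mv 1041 (cons (fin 978 2 974)
(mv 1105 (cons (fin 1104 0 1037)
(fin 1106 0 1038)))))))))))
(cons (mv 972 (cons (fin 973 3 972)
(mv 1101 (cons (fin 1100 1 1036)
(mv 1041 (cons (fin 1102 1 1037)
(mv 1105 (cons (fin 1104 0 1037)
(fin 1106 0 1038)))))))))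
(cons (mv 972 (cons (fin 973 3 972)
(mv 977 (cons (fin 976 2 973)
(mv 1041 (cons (fin 978 2 974)
(mv 1101 (cons (fin 1100 1 1036)
(fin 1102 1 1037)))))))))
(mv 972 (cons (fin 973 3 972)
(mv 976 (cons (fin 977 2 973)
(mv 1100 (cons (fin 1101 1 1036)
(mv 1104 (cons (fin 1105 0 1037)
(mv 912 (cons (mv 1103 (cons (fin 848 5 847)
(fin 1167 5 911)))
(cons (mv 847 (cons (fin 911 7 847)
(mv 848 (cons (fin 783 7 783)
(mv 849 (cons (fin 785 6 784)
(fin 913 6 848)))))))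
(mv 847 (cons (fin 911 7 847)
(mv 849 (cons (fin 913 6 848)
(mv 1167 (cons (fin 1103 5 911)
(mv 1168 (cons (fin 1231 5 975)
(mv 1232 (cons (fin 975 7 975)
(mv 1233 (cons (fin 1169 4 976)
(fin 1297 4 1040))))))))))))))))))))))))))))
(mv 974 (cons (cons (mv 973 (cons (fin 1041 3 973)
(mv 972 (cons (fin 971 0 971)
(fin 975 0 972)))))
(mv 1103 (cons (cons (mv 910 (cons (fin 846 4 846)
(mv 1167 (cons (fin 975 7 910)
(fin 1231 7 974)))))
(mv 910 (cons (fin 846 4 846)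
(mv 1102 (cons (mv 1101 (cons (fin 1100 2 1036)
(fin 1165 5 909)))
(mv 845 (cons (fin 909 7 845)
(mv 911 (cons (fin 847 6 846)
(mv 975 (cons (fin 1166 5 910)
(mv 912 (cons (fin 848 6 847)
(mv 913 (cons (fin 973 1 909)
(fin 914 1 910))))))))))))))))
(cons (mv 1167 (cons (fin 1231 7 974)
(mv 975 (cons (cons (mv 912 (cons (fin 976 6 911)
(mv 848 (cons (fin 911 6 847)
(mv 973 (cons (fin 972 0 972)
(mv 1166 (cons (fin 1230 5 974)
(mv 1102 (cons (fin 909 7 909)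
(mv 1100 (cons (fin 1101 2 1036)
(mv 1165 (cons (fin 1229 5 973)
(mv 1104 (cons (fin 1105 1 1101)
(fin 1164 2 1100)))))))))))))))))
(mv 972 (cons (fin 973 0 972)
(mv 1166 (cons (fin 1230 5 974)
(mv 911 (cons (fin 1102 5 910)
(mv 847 (cons (fin 783 5 782)
(fin 1104 4 847))))))))))
(cons (mv 912 (cons (fin 976 6 911)
(mv 911 (cons (fin 848 6 847)
(mv 847 (cons (fin 783 5 782)
(fin 1102 5 846)))))))
(cons (mv 912 (cons (fin 976 6 911)
(mv 973 (cons (fin 972 0 972)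
(mv 1166 (cons (fin 1230 5 974)
(mv 1102 (cons (fin 909 7 909)
(mv 1100 (cons (fin 1101 2 1036)
(mv 1165 (cons (fin 1229 5 973)
(mv 1104 (cons (fin 1105 1 1101)
(fin 1164 2 1100)))))))))))))))
(mv 912 (cons (fin 976 6 911)
(mv 911 (cons (fin 848 6 847)
(mv 847 (cons (fin 783 5 782)
(fin 1104 4 847)))))))))))))
(mv 910 (cons (fin 846 4 846)
(mv 1167 (cons (fin 1231 7 974)
(fin 1102 4 910)))))))))
(cons (mv 1103 (cons (cons (mv 910 (cons (fin 846 4 846)
(mv 1167 (cons (fin 975 7 910)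
(fin 1231 7 974)))))
(mv 910 (cons (fin 846 4 846)
(mv 1102 (cons (mv 1101 (cons (fin 1041 1 1037)
(fin 1100 2 1036)))
(mv 845 (cons (fin 909 7 845)
(mv 911 (cons (fin 847 6 846)
(mv 975 (cons (fin 1166 5 910)
(mv 912 (cons (fin 848 6 847)
(mv 913 (cons (fin 914 1 910)
(mv 849 (cons (fin 850 2 846)
(mv 1104 (cons (fin 976 6 848)
(fin 1168 4 911))))))))))))))))))))
(cons (mv 1167 (cons (fin 1231 7 974)
(mv 975 (cons (mv 912 (cons (fin 976 6 911)
(mv 911 (cons (fin 848 6 847)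
(mv 847 (cons (fin 783 5 782)
(fin 1102 5 846)))))))
(cons (mv 1166 (cons (fin 1230 5 974)
(mv 911 (cons (fin 1102 5 910)
(mv 847 (cons (fin 783 5 782)
(fin 1104 4 847)))))))
(mv 976 (cons (fin 912 6 911)
(mv 977 (cons (fin 978 1 974)
(mv 913 (cons (fin 914 2 910)
(mv 1168 (cons (fin 1104 6 912)
(fin 1232 4 975))))))))))))))
(mv 910 (cons (fin 846 4 846)
(mv 1167 (cons (fin 1231 7 974)
(fin 1102 4 910))))))))
(mv 973 (cons (fin 1041 3 973)
(mv 971 (cons (fin 972 0 971)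
(mv 1102 (cons (cons (mv 909 (cons (fin 1166 7 909)
(mv 845 (cons (fin 910 7 845)
(fin 781 4 781)))))
(mv 910 (cons (mv 1103 (cons (fin 846 4 846)
(fin 1167 4 910)))
(cons (mv 845 (cons (fin 909 7 845)
(mv 846 (cons (fin 781 7 781)
(mv 847 (cons (fin 783 6 782)
(fin 911 6 846)))))))
(mv 845 (cons (fin 909 7 845)
(mv 847 (cons (fin 911 6 846)
(mv 1101 (cons (fin 1165 5 909)
(mv 1100 (cons (fin 1099 2 1035)
(fin 1103 2 1036)))))))))))))
(cons (mv 1103 (cons (mv 910 (cons (fin 846 4 846)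
(fin 1167 4 910)))
(cons (mv 910 (cons (fin 846 4 846)
(mv 1101 (cons (fin 1100 2 1036)
(fin 1165 5 909)))))
(mv 1100 (cons (fin 1101 2 1036)
(mv 1166 (cons (mv 1165 (cons (fin 1229 5 973)
(mv 1104 (cons (fin 1105 1 1101)
(mv 1164 (cons (fin 1163 2 1099)
(fin 1167 2 1100)))))))
(cons (mv 1229 (cons (fin 1165 5 973)
(mv 1230 (cons (fin 1293 5 1037)
(fin 1294 6 1038)))))
(mv 1230 (cons (fin 1294 6 1038)
(mv 1231 (cons (fin 1167 7 974)
(fin 1295 4 1038)))))))))))))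
(mv 1166 (cons (fin 909 7 909)
(mv 1165 (cons (fin 1229 5 973)
(mv 1231 (cons (fin 1167 4 974)
(mv 1230 (cons (fin 1295 4 1038)
(mv 1103 (cons (fin 1294 6 1038)
(mv 1101 (cons (fin 1100 2 1036)
(mv 1104 (cons (fin 1164 1 1100)
(fin 1105 1 1101))))))))))))))))))))))))))
(cons (mv 1037 (cons (cons (cons (mv 972 (cons (fin 973 3 972)
(mv 976 (cons (fin 977 2 973)
(mv 1100 (cons (fin 1101 1 1036)
(mv 1104 (cons (fin 1105 0 1037)
(mv 912 (cons (mv 1103 (cons (fin 848 5 847)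
(fin 1167 5 911)))
(cons (mv 847 (cons (fin 911 7 847)
(mv 848 (cons (fin 783 7 783)
(mv 849 (cons (fin 785 6 784)
(fin 913 6 848)))))))
(mv 847 (cons (fin 911 7 847)
(mv 849 (cons (fin 913 6 848)
(mv 1167 (cons (fin 1103 5 911)
(mv 1168 (cons (fin 1231 5 975)
(mv 1232 (cons (fin 975 7 975)
(mv 1233 (cons (fin 1169 4 976)
(fin 1297 4 1040))))))))))))))))))))))))
(mv 976 (cons (fin 977 2 973)
(mv 1100 (cons (fin 1101 1 1036)
(mv 1104 (cons (fin 1105 0 1037)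
(mv 912 (cons (mv 1103 (cons (fin 848 5 847)
(fin 1167 5 911)))
(cons (mv 847 (cons (fin 911 7 847)
(mv 848 (cons (fin 783 7 783)
(mv 849 (cons (fin 785 6 784)
(fin 913 6 848)))))))
(mv 847 (cons (fin 911 7 847)
(mv 849 (cons (fin 913 6 848)
(mv 1167 (cons (fin 1103 5 911)
(mv 1168 (cons (fin 1231 5 975)
(mv 1232 (cons (fin 975 7 975)
(mv 1233 (cons (fin 1169 4 976)
(fin 1297 4 1040)))))))))))))))))))))))
(cons (mv 972 (cons (fin 973 3 972)
(mv 976 (cons (fin 977 2 973)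
(mv 1104 (cons (fin 1105 0 1037)
(mv 912 (cons (mv 1103 (cons (fin 848 5 847)
(fin 1167 5 911)))
(cons (mv 847 (cons (fin 911 7 847)
(mv 848 (cons (fin 783 7 783)
(mv 849 (cons (fin 785 6 784)
(fin 913 6 848)))))))
(mv 847 (cons (fin 911 7 847)
(mv 849 (cons (fin 913 6 848)
(mv 1167 (cons (fin 1103 5 911)
(mv 1168 (cons (fin 1231 5 975)
(mv 1232 (cons (fin 975 7 975)
(mv 1233 (cons (fin 1169 4 976)
(fin 1297 4 1040))))))))))))))))))))))
(mv 972 (cons (fin 973 3 972)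
(mv 1101 (cons (fin 1100 1 1036)
(mv 1104 (cons (fin 1105 0 1037)
(mv 1165 (cons (cons (mv 974 (cons (fin 1229 6 973)
(mv 910 (cons (fin 846 5 845)
(fin 1102 5 909)))))
(mv 1102 (cons (cons (mv 910 (cons (fin 974 5 909)
(mv 1103 (cons (fin 1164 1 1100)
(mv 1168 (cons (fin 1169 0 1101)
(mv 975 (cons (fin 1232 7 975)
(fin 911 4 911)))))))))
(mv 974 (cons (fin 910 5 909)
(mv 1166 (cons (mv 975 (cons (fin 911 6 910)
(fin 1230 6 974)))
(cons (mv 1230 (cons (fin 1294 7 1037)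
(mv 1231 (cons (fin 1167 4 974)
(fin 1295 4 1038)))))
(mv 975 (cons (fin 911 6 910)
(mv 1167 (cons (fin 1231 4 974)
(mv 1168 (cons (fin 1169 3 1101)
(fin 1232 7 975)))))))))))))
(cons (mv 1103 (cons (fin 1164 1 1100)
(mv 1168 (cons (fin 1169 0 1101)
(mv 975 (cons (fin 1232 7 975)
(fin 911 4 911)))))))
(cons (mv 910 (cons (fin 974 5 909)
(mv 1103 (cons (fin 1164 1 1100)
(mv 1168 (cons (fin 1169 0 1101)
(mv 1232 (cons (fin 1296 7 1039)
(mv 1231 (cons (fin 1295 5 1039)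
(mv 1233 (cons (fin 1297 4 1040)
(mv 1166 (cons (fin 1230 3 1165)
(fin 1167 0 1165)))))))))))))))
(mv 910 (cons (fin 974 5 909)
(mv 1164 (cons (fin 1103 1 1100)
(mv 1163 (cons (fin 1162 2 1098)
(mv 1166 (cons (mv 1230 (cons (fin 1231 0 1163)
(fin 1294 7 1037)))
(mv 1099 (cons (fin 1098 3 1098)
(mv 1227 (cons (fin 1226 1 1162)
(mv 1228 (cons (fin 1167 1 1163)
(mv 1035 (cons (fin 971 4 971)
(fin 1292 4 1035))))))))))))))))))))))
(cons (mv 1229 (cons (cons (mv 1102 (cons (fin 1293 6 1037)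
(mv 1103 (cons (fin 1164 1 1100)
(mv 1168 (cons (fin 1169 0 1101)
(mv 975 (cons (fin 1232 7 975)
(fin 911 4 911)))))))))
(mv 1228 (cons (fin 1292 5 1036)
(mv 1230 (cons (fin 1294 4 1037)
(mv 1231 (cons (mv 1164 (cons (fin 1163 3 1163)
(fin 1232 3 1164)))
(mv 1167 (cons (fin 1168 2 1164)
(mv 1295 (cons (fin 1296 0 1228)
(fin 1103 6 1039))))))))))))
(cons (mv 1102 (cons (fin 1293 6 1037)
(mv 1103 (cons (fin 1164 1 1100)
(mv 1228 (cons (fin 1292 5 1036)
(mv 1230 (cons (fin 1294 4 1037)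
(mv 1166 (cons (fin 975 6 974)
(mv 1227 (cons (fin 1226 2 1162)
(fin 1167 2 1163)))))))))))))
(cons (mv 1102 (cons (fin 1293 6 1037)
(mv 1228 (cons (fin 1292 5 1036)
(mv 1230 (cons (fin 1294 4 1037)
(mv 975 (cons (fin 1166 6 974)
(mv 911 (cons (fin 847 5 846)
(mv 1168 (cons (fin 1232 7 975)
(fin 1103 4 911)))))))))))))
(mv 1102 (cons (fin 1293 6 1037)
(mv 1228 (cons (fin 1292 5 1036)
(mv 1230 (cons (fin 1294 4 1037)
(mv 975 (cons (fin 1166 6 974)
(mv 847 (cons (fin 911 5 846)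
(mv 1232 (cons (fin 1168 7 975)
(mv 1231 (cons (fin 1164 3 1164)
(mv 1296 (cons (fin 1295 0 1228)
(fin 1297 0 1229)))))))))))))))))))))
(mv 1229 (cons (fin 974 6 973)
(mv 1230 (cons (fin 1294 4 1037)
(mv 1292 (cons (fin 1228 5 1036)
(mv 1293 (cons (fin 1356 5 1100)
(mv 1232 (cons (fin 1231 1 1228)
(mv 1168 (cons (fin 975 7 975)
(mv 1233 (cons (fin 1297 4 1040)
(mv 1166 (cons (fin 1167 0 1165)
(mv 1296 (cons (fin 1103 7 1039)
(mv 1357 (cons (fin 1421 6 1165)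
(mv 1358 (cons (fin 1422 4 1165)
(mv 1359 (cons (fin 1360 3 1292)
(fin 1295 5 1103))))))))))))))))))))))))))))))))))))
(cons (cons (mv 973 (cons (fin 972 3 972)
(mv 976 (cons (fin 977 2 973)
(mv 1100 (cons (fin 1101 1 1036)
(mv 909 (cons (cons (mv 845 (cons (fin 1102 4 845)
(mv 780 (cons (fin 844 7 780)
(mv 781 (cons (fin 716 7 716)
(fin 974 4 781)))))))
(mv 974 (cons (cons (mv 975 (cons (fin 908 3 908)
(mv 912 (cons (fin 913 2 909)
(mv 848 (cons (fin 784 5 783)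
(fin 1103 5 847)))))))
(mv 1102 (cons (fin 1166 7 909)
(mv 910 (cons (mv 846 (cons (fin 782 5 781)
(fin 1103 4 846)))
(cons (mv 846 (cons (fin 782 5 781)
(mv 847 (cons (fin 783 6 782)
(fin 911 6 846)))))
(mv 911 (cons (fin 847 6 846)
(mv 912 (cons (fin 913 1 909)
(mv 848 (cons (fin 849 2 845)
(fin 1103 5 847)))))))))))))
(cons (mv 975 (cons (fin 908 3 908)
(mv 912 (cons (fin 913 2 909)
(mv 848 (cons (fin 784 5 783)
(mv 785 (cons (fin 849 6 784)
(mv 847 (cons (fin 783 7 783)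
(mv 1102 (cons (fin 1166 7 909)
(fin 911 5 846)))))))))))))
(mv 908 (cons (fin 975 3 908)
(mv 907 (cons (fin 906 0 906)
(mv 1102 (cons (fin 1166 7 909)
(mv 910 (cons (mv 846 (cons (fin 847 2 843)
(fin 782 5 781)))
(cons (mv 843 (cons (fin 842 3 842)
(mv 911 (cons (fin 844 3 843)
(fin 847 6 846)))))
(mv 846 (cons (fin 782 5 781)
(fin 1103 4 846))))))))))))))))
(cons (mv 845 (cons (mv 780 (cons (fin 844 7 780)
(mv 781 (cons (fin 716 7 716)
(fin 974 4 781)))))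
(cons (mv 780 (cons (fin 844 7 780)
(mv 846 (cons (fin 782 6 781)
(mv 848 (cons (mv 847 (cons (fin 908 1 844)
(mv 912 (cons (fin 913 0 845)
(fin 783 7 783)))))
(cons (mv 912 (cons (fin 1103 5 847)
(mv 784 (cons (fin 975 5 783)
(mv 785 (cons (fin 721 6 720)
(fin 849 6 784)))))))
(mv 847 (cons (fin 908 1 844)
(mv 784 (cons (fin 785 2 781)
(mv 849 (cons (fin 910 1 845)
(mv 911 (cons (fin 975 6 783)
(mv 914 (cons (fin 913 0 846)
(mv 850 (cons (fin 915 0 847)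
(mv 787 (cons (fin 786 2 783)
(mv 851 (cons (fin 783 3 783)
(fin 788 2 784))))))))))))))))))))))))
(mv 781 (cons (fin 974 4 781)
(mv 782 (cons (fin 718 6 717)
(fin 846 6 781))))))))
(cons (mv 845 (cons (fin 1102 4 845)
(mv 780 (cons (fin 844 7 780)
(mv 781 (cons (fin 716 7 716)
(mv 782 (cons (fin 718 6 717)
(fin 846 6 781)))))))))
(mv 845 (cons (fin 1102 4 845)
(mv 781 (cons (fin 974 4 781)
(mv 782 (cons (fin 718 6 717)
(fin 846 6 781)))))))))))))))))
(mv 972 (cons (fin 973 3 972)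
(mv 976 (cons (fin 977 2 973)
(mv 1100 (cons (fin 1101 1 1036)
(mv 1104 (cons (fin 1105 0 1037)
(mv 912 (cons (mv 1103 (cons (fin 848 5 847)
(fin 1167 5 911)))
(cons (mv 847 (cons (fin 911 7 847)
(mv 848 (cons (fin 783 7 783)
(mv 849 (cons (fin 785 6 784)
(fin 913 6 848)))))))
(mv 847 (cons (fin 911 7 847)
(mv 849 (cons (fin 913 6 848)
(mv 1168 (cons (cons (mv 1167 (cons (fin 1103 5 911)
(fin 1231 5 975)))
(mv 1233 (cons (fin 1169 4 976)
(mv 1232 (cons (fin 1297 4 1040)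
(mv 1295 (cons (fin 1231 5 1039)
(mv 1296 (cons (fin 1103 7 1039)
(fin 1359 5 1103))))))))))
(cons (mv 1231 (cons (fin 1167 5 975)
(mv 1232 (cons (fin 1295 5 1039)
(mv 1233 (cons (fin 1169 4 976)
(fin 1297 4 1040)))))))
(mv 1103 (cons (fin 1167 5 911)
(mv 1232 (cons (fin 1296 7 1039)
(mv 1233 (cons (fin 1169 4 976)
(fin 1297 4 1040))))))))))))))))))))))))))
(cons (mv 972 (cons (fin 973 3 972)
(mv 976 (cons (fin 977 2 973)
(mv 1100 (cons (fin 1101 1 1036)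
(mv 1104 (cons (fin 1105 0 1037)
(mv 1168 (cons (mv 975 (cons (fin 911 7 911)
(fin 1232 7 975)))
(cons (mv 1231 (cons (fin 1167 5 975)
(mv 1232 (cons (fin 1295 5 1039)
(mv 1233 (cons (fin 1169 4 976)
(fin 1297 4 1040)))))))
(mv 1167 (cons (fin 1231 5 975)
(mv 1169 (cons (fin 1233 4 976)
(mv 912 (cons (cons (mv 911 (cons (fin 847 7 847)
(fin 975 7 911)))
(mv 849 (cons (fin 913 6 848)
(mv 848 (cons (fin 785 6 784)
(mv 783 (cons (fin 847 7 783)
(mv 784 (cons (fin 719 7 719)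
(fin 975 5 783))))))))))
(cons (mv 847 (cons (fin 911 7 847)
(mv 848 (cons (fin 783 7 783)
(mv 849 (cons (fin 785 6 784)
(fin 913 6 848)))))))
(mv 849 (cons (fin 913 6 848)
(mv 848 (cons (fin 785 6 784)
(mv 975 (cons (fin 911 7 911)
(fin 784 5 783)))))))))))))))))))))))))
(cons (mv 972 (cons (fin 973 3 972)
(mv 976 (cons (fin 977 2 973)
(mv 1100 (cons (fin 1101 1 1036)
(mv 1104 (cons (fin 1105 0 1037)
(mv 912 (cons (mv 1103 (cons (fin 848 5 847)
(fin 1167 5 911)))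
(cons (mv 849 (cons (fin 913 6 848)
(mv 848 (cons (fin 785 6 784)
(mv 783 (cons (fin 847 7 783)
(mv 784 (cons (fin 719 7 719)
(fin 975 5 783)))))))))
(mv 849 (cons (fin 913 6 848)
(mv 1167 (cons (fin 1103 5 911)
(mv 1168 (cons (fin 1231 5 975)
(mv 1232 (cons (fin 975 7 975)
(mv 1233 (cons (fin 1169 4 976)
(fin 1297 4 1040))))))))))))))))))))))
(mv 972 (cons (fin 973 3 972)
(mv 976 (cons (fin 977 2 973)
(mv 1100 (cons (fin 1101 1 1036)
(mv 1104 (cons (fin 1105 0 1037)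
(mv 1168 (cons (mv 975 (cons (fin 911 7 911)
(fin 1232 7 975)))
(mv 1167 (cons (fin 1231 5 975)
(mv 1103 (cons (fin 912 5 911)
(mv 1169 (cons (fin 1233 4 976)
(mv 1170 (cons (fin 1102 3 1102)
(fin 1171 3 1103))))))))))))))))))))))))
(cons (mv 1041 (cons (cons (mv 977 (cons (fin 978 2 974)
(mv 976 (cons (fin 1037 2 973)
(mv 1101 (cons (fin 1102 1 1037)
(mv 1105 (cons (fin 1106 0 1038)
(mv 912 (cons (fin 1169 7 912)
(fin 848 4 848)))))))))))
(mv 1101 (cons (fin 1102 1 1037)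
(mv 1037 (cons (fin 1100 1 1036)
(mv 1105 (cons (fin 1104 0 1037)
(fin 1106 0 1038))))))))
(cons (mv 977 (cons (fin 978 2 974)
(mv 1037 (cons (fin 976 2 973)
(mv 1101 (cons (fin 1100 1 1036)
(fin 1102 1 1037)))))))
(cons (mv 977 (cons (fin 978 2 974)
(mv 976 (cons (fin 1037 2 973)
(mv 1105 (cons (fin 1106 0 1038)
(mv 912 (cons (fin 1169 7 912)
(fin 848 4 848)))))))))
(mv 977 (cons (fin 978 2 974)
(mv 1101 (cons (fin 1102 1 1037)
(mv 1105 (cons (fin 1106 0 1038)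
(mv 913 (cons (mv 1104 (cons (fin 849 5 848)
(fin 1168 5 912)))
(cons (mv 848 (cons (fin 912 7 848)
(mv 849 (cons (fin 784 7 784)
(mv 850 (cons (fin 786 6 785)
(fin 914 6 849)))))))
(mv 848 (cons (fin 912 7 848)
(mv 850 (cons (fin 914 6 849)
(mv 1168 (cons (fin 1104 5 912)
(mv 1169 (cons (fin 1232 5 976)
(mv 1233 (cons (fin 976 7 976)
(mv 1234 (cons (fin 1170 4 977)
(fin 1298 4 1041))))))))))))))))))))))))))
(mv 1037 (cons (cons (mv 972 (cons (fin 973 3 972)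
(mv 1101 (cons (fin 1100 1 1036)
(mv 1041 (cons (fin 1102 1 1037)
(mv 1105 (cons (fin 1104 0 1037)
(fin 1106 0 1038)))))))))
(mv 1101 (cons (fin 1100 1 1036)
(mv 1041 (cons (fin 1102 1 1037)
(mv 1105 (cons (fin 1104 0 1037)
(fin 1106 0 1038))))))))
(cons (mv 973 (cons (fin 972 3 972)
(mv 1041 (cons (fin 974 3 973)
(mv 1105 (cons (fin 1104 0 1037)
(fin 1106 0 1038)))))))
(cons (mv 973 (cons (fin 972 3 972)
(mv 974 (cons (fin 1041 3 973)
(mv 1101 (cons (fin 1100 1 1036)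
(mv 910 (cons (fin 846 5 845)
(fin 1165 6 909)))))))))
(mv 972 (cons (fin 973 3 972)
(mv 1101 (cons (fin 1100 1 1036)
(mv 1104 (cons (fin 1105 0 1037)
(mv 975 (cons (cons (mv 911 (cons (fin 847 4 847)
(mv 1168 (cons (fin 976 7 911)
(fin 1232 7 975)))))
(mv 1168 (cons (fin 1232 7 975)
(mv 1102 (cons (cons (mv 1103 (cons (fin 1169 0 1101)
(mv 1165 (cons (fin 1164 1 1100)
(mv 974 (cons (fin 910 5 909)
(fin 1229 6 973)))))))
(mv 1166 (cons (fin 1230 6 974)
(mv 1165 (cons (mv 974 (cons (fin 910 5 909)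
(fin 1229 5 973)))
(cons (mv 910 (cons (fin 974 5 909)
(mv 1164 (cons (fin 1103 1 1100)
(mv 1163 (cons (fin 1162 2 1098)
(mv 1099 (cons (fin 1098 3 1098)
(mv 1227 (cons (fin 1226 1 1162)
(mv 1228 (cons (fin 1167 1 1163)
(mv 1035 (cons (fin 971 4 971)
(fin 1292 4 1035)))))))))))))))
(mv 1103 (cons (fin 1164 1 1100)
(mv 1229 (cons (fin 1293 6 1037)
(mv 1228 (cons (fin 1167 1 1164)
(fin 1292 5 1036)))))))))))))
(cons (mv 1166 (cons (fin 1230 6 974)
(mv 1167 (cons (fin 1169 3 1101)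
(mv 1231 (cons (fin 976 5 975)
(fin 974 4 974)))))))
(mv 1103 (cons (fin 1169 0 1101)
(mv 1165 (cons (fin 1164 1 1100)
(mv 1166 (cons (fin 1230 6 974)
(mv 1229 (cons (fin 1293 6 1037)
(mv 1228 (cons (fin 1167 1 1164)
(fin 1292 5 1036)))))))))))))))))
(cons (mv 911 (cons (fin 847 4 847)
(mv 1103 (cons (cons (mv 846 (cons (fin 910 7 846)
(mv 848 (cons (fin 912 6 847)
(mv 1102 (cons (fin 1166 5 910)
(mv 1165 (cons (fin 1164 1 1100)
(mv 1229 (cons (fin 974 6 973)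
(fin 1293 6 1037)))))))))))
(mv 848 (cons (fin 912 6 847)
(mv 1102 (cons (fin 1166 5 910)
(mv 1165 (cons (fin 1164 1 1100)
(mv 1229 (cons (fin 974 6 973)
(fin 1293 6 1037))))))))))
(cons (mv 846 (cons (fin 910 7 846)
(mv 912 (cons (fin 848 6 847)
(mv 976 (cons (fin 1167 5 911)
(mv 913 (cons (fin 849 6 848)
(mv 914 (cons (fin 974 1 910)
(fin 915 1 911)))))))))))
(cons (mv 846 (cons (fin 910 7 846)
(mv 1102 (cons (fin 1166 5 910)
(mv 1165 (cons (fin 1164 1 1100)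
(mv 1229 (cons (fin 974 6 973)
(fin 1293 6 1037)))))))))
(mv 846 (cons (fin 910 7 846)
(mv 848 (cons (fin 912 6 847)
(mv 1166 (cons (fin 1102 5 910)
(mv 1167 (cons (fin 1230 5 974)
(mv 1231 (cons (fin 976 6 975)
(fin 1295 6 1039)))))))))))))))))
(mv 911 (cons (fin 847 4 847)
(mv 1168 (cons (fin 1232 7 975)
(fin 1103 4 911)))))))))))))))))))))
(cons (cons (mv 1041 (cons (cons (mv 973 (cons (fin 974 3 973)
(mv 977 (cons (fin 978 2 974)
(mv 1037 (cons (fin 972 3 972)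
(fin 976 2 973)))))))
(mv 973 (cons (fin 974 3 973)
(mv 1037 (cons (fin 972 3 972)
(mv 1105 (cons (fin 1104 0 1037)
(fin 1106 0 1038))))))))
(cons (mv 977 (cons (fin 978 2 974)
(mv 976 (cons (fin 1037 2 973)
(mv 1105 (cons (fin 1106 0 1038)
(mv 912 (cons (fin 1169 7 912)
(fin 848 4 848)))))))))
(mv 973 (cons (fin 974 3 973)
(mv 977 (cons (fin 978 2 974)
(mv 1105 (cons (fin 1106 0 1038)
(mv 1169 (cons (mv 976 (cons (fin 912 7 912)
(fin 1233 7 976)))
(cons (mv 1168 (cons (fin 1232 5 976)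
(mv 913 (cons (fin 1104 5 912)
(mv 848 (cons (fin 912 7 848)
(mv 849 (cons (fin 784 7 784)
(mv 850 (cons (fin 786 6 785)
(fin 914 6 849)))))))))))
(mv 976 (cons (fin 1233 7 976)
(mv 1168 (cons (fin 1232 5 976)
(mv 913 (cons (fin 1104 5 912)
(mv 849 (cons (fin 785 5 784)
(mv 850 (cons (fin 786 6 785)
(fin 914 6 849)))))))))))))))))))))))
(cons (mv 1037 (cons (cons (mv 972 (cons (fin 973 3 972)
(mv 977 (cons (fin 976 2 973)
(mv 1041 (cons (fin 978 2 974)
(mv 1101 (cons (fin 1100 1 1036)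
(fin 1102 1 1037)))))))))
(mv 977 (cons (fin 976 2 973)
(mv 1041 (cons (fin 978 2 974)
(mv 1101 (cons (fin 1100 1 1036)
(fin 1102 1 1037))))))))
(cons (mv 973 (cons (fin 972 3 972)
(mv 977 (cons (fin 976 2 973)
(mv 1041 (cons (fin 974 3 973)
(fin 978 2 974)))))))
(cons (mv 973 (cons (fin 972 3 972)
(mv 974 (cons (fin 1041 3 973)
(mv 1101 (cons (fin 1100 1 1036)
(mv 910 (cons (fin 846 5 845)
(fin 1165 6 909)))))))))
(mv 972 (cons (fin 973 3 972)
(mv 976 (cons (fin 977 2 973)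
(mv 1101 (cons (fin 1100 1 1036)
(mv 974 (cons (cons (mv 910 (cons (fin 846 5 845)
(mv 1165 (cons (fin 1102 5 909)
(fin 1229 6 973)))))
(mv 1165 (cons (fin 1229 6 973)
(mv 912 (cons (cons (mv 848 (cons (fin 1103 5 847)
(mv 783 (cons (fin 847 7 783)
(mv 784 (cons (fin 719 7 719)
(fin 975 5 783)))))))
(mv 848 (cons (cons (mv 783 (cons (fin 847 7 783)
(mv 784 (cons (fin 719 7 719)
(fin 975 5 783)))))
(mv 785 (cons (fin 849 6 784)
(mv 847 (cons (fin 783 7 783)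
(mv 911 (cons (fin 1104 7 847)
(mv 975 (cons (fin 1102 5 846)
(mv 846 (cons (fin 782 7 782)
(mv 845 (cons (fin 844 0 844)
(fin 913 0 845))))))))))))))
(cons (mv 784 (cons (fin 975 5 783)
(mv 785 (cons (fin 721 6 720)
(fin 849 6 784)))))
(mv 783 (cons (fin 847 7 783)
(mv 784 (cons (fin 719 7 719)
(mv 785 (cons (fin 721 6 720)
(fin 849 6 784)))))))))))
(cons (mv 1104 (cons (cons (mv 847 (cons (fin 911 7 847)
(mv 849 (cons (fin 913 6 848)
(mv 1103 (cons (fin 1167 5 911)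
(mv 1102 (cons (fin 1164 1 1100)
(mv 1168 (cons (fin 1169 0 1101)
(mv 1232 (cons (fin 975 7 975)
(fin 1296 7 1039)))))))))))))
(cons (mv 849 (cons (fin 913 6 848)
(mv 911 (cons (fin 847 7 847)
(mv 1168 (cons (fin 975 7 911)
(mv 1167 (cons (fin 1231 5 975)
(mv 1233 (cons (fin 1169 4 976)
(mv 1232 (cons (fin 1166 0 1165)
(fin 1297 4 1040)))))))))))))
(mv 849 (cons (fin 913 6 848)
(mv 911 (cons (fin 847 7 847)
(mv 1168 (cons (fin 975 7 911)
(mv 1233 (cons (fin 1169 4 976)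
(mv 1232 (cons (fin 1297 4 1040)
(mv 1295 (cons (fin 1231 5 1039)
(mv 1296 (cons (fin 1103 7 1039)
(fin 1359 5 1103)))))))))))))))))
(cons (cons (mv 849 (cons (fin 913 6 848)
(mv 1103 (cons (fin 1167 5 911)
(mv 1102 (cons (fin 1164 1 1100)
(mv 1168 (cons (fin 1169 0 1101)
(mv 1232 (cons (fin 975 7 975)
(fin 1296 7 1039)))))))))))
(mv 847 (cons (fin 911 7 847)
(mv 1103 (cons (fin 1167 5 911)
(mv 1102 (cons (fin 1164 1 1100)
(mv 1168 (cons (fin 1169 0 1101)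
(mv 1232 (cons (fin 975 7 975)
(fin 1296 7 1039))))))))))))
(cons (mv 847 (cons (fin 911 7 847)
(mv 849 (cons (fin 913 6 848)
(mv 1167 (cons (fin 1103 5 911)
(mv 1168 (cons (fin 1231 5 975)
(mv 1233 (cons (fin 1169 4 976)
(mv 1232 (cons (fin 1166 0 1165)
(fin 1297 4 1040)))))))))))))
(mv 911 (cons (fin 847 7 847)
(mv 913 (cons (fin 849 6 848)
(mv 914 (cons (fin 975 1 910)
(mv 851 (cons (fin 850 2 847)
(mv 915 (cons (fin 852 2 848)
(mv 979 (cons (fin 978 0 911)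
(fin 980 0 912)))))))))))))))))
(cons (mv 848 (cons (fin 1103 5 847)
(mv 783 (cons (fin 847 7 783)
(mv 784 (cons (fin 719 7 719)
(mv 785 (cons (fin 721 6 720)
(fin 849 6 784)))))))))
(mv 848 (cons (fin 1103 5 847)
(mv 784 (cons (fin 975 5 783)
(mv 785 (cons (fin 721 6 720)
(fin 849 6 784))))))))))))))
(cons (mv 910 (cons (fin 846 5 845)
(mv 911 (cons (cons (mv 847 (cons (fin 1102 6 846)
(mv 783 (cons (fin 719 5 718)
(fin 975 5 782)))))
(mv 975 (cons (cons (mv 908 (cons (fin 909 0 908)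
(mv 1102 (cons (fin 1166 6 910)
(mv 1103 (cons (fin 1167 7 910)
(mv 912 (cons (fin 848 5 847)
(mv 913 (cons (fin 914 1 910)
(mv 849 (cons (fin 850 2 846)
(fin 1104 6 848)))))))))))))
(mv 909 (cons (fin 908 0 908)
(mv 1102 (cons (fin 845 7 845)
(fin 1166 6 910))))))
(cons (mv 908 (cons (fin 909 0 908)
(mv 1103 (cons (fin 1167 7 910)
(mv 912 (cons (fin 848 5 847)
(mv 913 (cons (fin 914 1 910)
(mv 849 (cons (fin 850 2 846)
(fin 1104 6 848)))))))))))
(mv 1102 (cons (fin 1166 6 910)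
(mv 1103 (cons (fin 1167 7 910)
(mv 912 (cons (fin 848 5 847)
(mv 913 (cons (fin 914 1 910)
(mv 849 (cons (fin 850 2 846)
(fin 1104 6 848)))))))))))))))
(cons (mv 975 (cons (mv 847 (cons (fin 783 5 782)
(fin 1104 4 847)))
(cons (mv 908 (cons (fin 909 0 908)
(mv 1103 (cons (fin 1167 7 910)
(mv 912 (cons (fin 848 5 847)
(mv 913 (cons (fin 914 1 910)
(mv 849 (cons (fin 850 2 846)
(fin 1104 6 848)))))))))))
(mv 847 (cons (fin 783 5 782)
(mv 848 (cons (fin 784 6 783)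
(mv 1103 (cons (fin 1167 7 910)
(fin 912 5 847))))))))))
(mv 847 (cons (fin 1102 6 846)
(mv 719 (cons (fin 783 5 718)
(mv 912 (cons (fin 1104 7 847)
(mv 848 (cons (fin 1103 5 847)
(mv 849 (cons (fin 850 1 846)
(fin 909 2 845))))))))))))))))
(cons (mv 1165 (cons (fin 1229 6 973)
(mv 910 (cons (fin 1102 5 909)
(mv 912 (cons (cons (mv 848 (cons (fin 1103 5 847)
(mv 783 (cons (fin 847 7 783)
(mv 784 (cons (fin 719 7 719)
(fin 975 5 783)))))))
(mv 848 (cons (mv 783 (cons (fin 847 7 783)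
(mv 784 (cons (fin 719 7 719)
(fin 975 5 783)))))
(cons (mv 783 (cons (fin 847 7 783)
(mv 849 (cons (fin 785 6 784)
(mv 911 (cons (fin 909 2 845)
(mv 850 (cons (fin 851 1 847)
(fin 913 2 846)))))))))
(mv 784 (cons (fin 975 5 783)
(mv 785 (cons (fin 721 6 720)
(fin 849 6 784)))))))))
(cons (mv 1104 (cons (cons (mv 847 (cons (fin 911 7 847)
(mv 849 (cons (fin 913 6 848)
(mv 1167 (cons (fin 1103 5 911)
(mv 1168 (cons (fin 1231 5 975)
(mv 1232 (cons (fin 975 7 975)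
(mv 1233 (cons (fin 1166 0 1165)
(fin 1169 4 976)))))))))))))
(cons (mv 849 (cons (fin 913 6 848)
(mv 911 (cons (fin 847 7 847)
(mv 1168 (cons (fin 975 7 911)
(mv 1233 (cons (fin 1169 4 976)
(mv 1232 (cons (fin 1297 4 1040)
(mv 1295 (cons (fin 1231 5 1039)
(mv 1296 (cons (fin 1103 7 1039)
(fin 1359 5 1103)))))))))))))))
(mv 849 (cons (fin 913 6 848)
(mv 911 (cons (fin 847 7 847)
(mv 1168 (cons (fin 975 7 911)
(mv 1167 (cons (fin 1231 5 975)
(mv 1233 (cons (fin 1169 4 976)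
(mv 1232 (cons (fin 1166 0 1165)
(fin 1297 4 1040)))))))))))))))
(cons (cons (mv 849 (cons (fin 913 6 848)
(mv 1167 (cons (fin 1103 5 911)
(mv 1168 (cons (fin 1231 5 975)
(mv 1232 (cons (fin 975 7 975)
(mv 1233 (cons (fin 1166 0 1165)
(fin 1169 4 976)))))))))))
(mv 847 (cons (fin 911 7 847)
(mv 1167 (cons (fin 1103 5 911)
(mv 1168 (cons (fin 1231 5 975)
(mv 1232 (cons (fin 975 7 975)
(mv 1233 (cons (fin 1166 0 1165)
(fin 1169 4 976))))))))))))
(cons (mv 847 (cons (fin 911 7 847)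
(mv 849 (cons (fin 913 6 848)
(mv 1167 (cons (fin 1103 5 911)
(mv 1168 (cons (fin 1231 5 975)
(mv 1233 (cons (fin 1169 4 976)
(mv 1232 (cons (fin 1166 0 1165)
(fin 1297 4 1040)))))))))))))
(mv 911 (cons (fin 847 7 847)
(mv 913 (cons (fin 849 6 848)
(mv 914 (cons (fin 975 1 910)
(mv 851 (cons (fin 850 2 847)
(mv 915 (cons (fin 852 2 848)
(mv 979 (cons (fin 978 0 911)
(fin 980 0 912)))))))))))))))))
(cons (mv 848 (cons (fin 1103 5 847)
(mv 783 (cons (fin 847 7 783)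
(mv 719 (cons (fin 784 7 719)
(mv 849 (cons (fin 785 6 784)
(mv 911 (cons (fin 909 2 845)
(mv 850 (cons (fin 851 1 847)
(fin 913 2 846)))))))))))))
(mv 848 (cons (fin 1103 5 847)
(mv 784 (cons (fin 975 5 783)
(mv 785 (cons (fin 721 6 720)
(fin 849 6 784)))))))))))))))
(mv 910 (cons (fin 846 5 845)
(mv 1165 (cons (fin 1229 6 973)
(mv 912 (cons (cons (mv 848 (cons (fin 1103 5 847)
(mv 783 (cons (fin 847 7 783)
(mv 784 (cons (fin 719 7 719)
(fin 975 5 783)))))))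
(mv 848 (cons (mv 783 (cons (fin 847 7 783)
(mv 784 (cons (fin 719 7 719)
(fin 975 5 783)))))
(cons (mv 783 (cons (fin 847 7 783)
(mv 849 (cons (fin 785 6 784)
(mv 911 (cons (fin 909 2 845)
(mv 850 (cons (fin 851 1 847)
(fin 913 2 846)))))))))
(mv 784 (cons (fin 975 5 783)
(mv 785 (cons (fin 721 6 720)
(fin 849 6 784)))))))))
(cons (mv 1104 (cons (cons (mv 847 (cons (fin 911 7 847)
(mv 849 (cons (fin 913 6 848)
(mv 1167 (cons (fin 1103 5 911)
(mv 1168 (cons (fin 1231 5 975)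
(mv 1232 (cons (fin 975 7 975)
(mv 1233 (cons (fin 1166 0 1165)
(fin 1169 4 976)))))))))))))
(cons (mv 849 (cons (fin 913 6 848)
(mv 911 (cons (fin 847 7 847)
(mv 1168 (cons (fin 975 7 911)
(mv 1233 (cons (fin 1169 4 976)
(mv 1232 (cons (fin 1297 4 1040)
(mv 1295 (cons (fin 1231 5 1039)
(mv 1296 (cons (fin 1103 7 1039)
(fin 1359 5 1103)))))))))))))))
(mv 849 (cons (fin 913 6 848)
(mv 911 (cons (fin 847 7 847)
(mv 1168 (cons (fin 975 7 911)
(mv 1167 (cons (fin 1231 5 975)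
(mv 1233 (cons (fin 1169 4 976)
(mv 1232 (cons (fin 1166 0 1165)
(fin 1297 4 1040)))))))))))))))
(cons (cons (mv 849 (cons (fin 913 6 848)
(mv 1167 (cons (fin 1103 5 911)
(mv 1168 (cons (fin 1231 5 975)
(mv 1232 (cons (fin 975 7 975)
(mv 1233 (cons (fin 1166 0 1165)
(fin 1169 4 976)))))))))))
(mv 847 (cons (fin 911 7 847)
(mv 1167 (cons (fin 1103 5 911)
(mv 1168 (cons (fin 1231 5 975)
(mv 1232 (cons (fin 975 7 975)
(mv 1233 (cons (fin 1166 0 1165)
(fin 1169 4 976))))))))))))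
(cons (mv 847 (cons (fin 911 7 847)
(mv 849 (cons (fin 913 6 848)
(mv 1167 (cons (fin 1103 5 911)
(mv 1168 (cons (fin 1231 5 975)
(mv 1233 (cons (fin 1169 4 976)
(mv 1232 (cons (fin 1166 0 1165)
(fin 1297 4 1040)))))))))))))
(mv 911 (cons (fin 847 7 847)
(mv 913 (cons (fin 849 6 848)
(mv 914 (cons (fin 975 1 910)
(mv 851 (cons (fin 850 2 847)
(mv 915 (cons (fin 852 2 848)
(mv 979 (cons (fin 978 0 911)
(fin 980 0 912)))))))))))))))))
(cons (mv 848 (cons (fin 1103 5 847)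
(mv 783 (cons (fin 847 7 783)
(mv 719 (cons (fin 784 7 719)
(mv 849 (cons (fin 785 6 784)
(mv 911 (cons (fin 909 2 845)
(mv 850 (cons (fin 851 1 847)
(fin 913 2 846)))))))))))))
(mv 848 (cons (fin 1103 5 847)
(mv 784 (cons (fin 975 5 783)
(mv 785 (cons (fin 721 6 720)
(fin 849 6 784)))))))))))))))))))))))))))))
(mv 1041 (cons (cons (mv 973 (cons (fin 974 3 973)
(mv 977 (cons (fin 978 2 974)
(mv 1037 (cons (fin 972 3 972)
(mv 1101 (cons (fin 1100 1 1036)
(fin 1102 1 1037)))))))))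
(mv 973 (cons (fin 974 3 973)
(mv 977 (cons (fin 978 2 974)
(mv 1037 (cons (fin 972 3 972)
(mv 1105 (cons (fin 1104 0 1037)
(fin 1106 0 1038))))))))))
(cons (mv 977 (cons (fin 978 2 974)
(mv 1101 (cons (fin 1102 1 1037)
(mv 1037 (cons (fin 1100 1 1036)
(mv 1105 (cons (fin 1104 0 1037)
(fin 1106 0 1038)))))))))
(cons (mv 973 (cons (fin 974 3 973)
(mv 1037 (cons (fin 972 3 972)
(mv 1101 (cons (fin 1100 1 1036)
(fin 1102 1 1037)))))))
(mv 973 (cons (fin 974 3 973)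
(mv 977 (cons (fin 978 2 974)
(mv 1101 (cons (fin 1102 1 1037)
(mv 1105 (cons (fin 1106 0 1038)
(mv 913 (cons (mv 1104 (cons (fin 849 5 848)
(fin 1168 5 912)))
(cons (mv 848 (cons (fin 912 7 848)
(mv 849 (cons (fin 784 7 784)
(mv 850 (cons (fin 786 6 785)
(fin 914 6 849)))))))
(mv 848 (cons (fin 912 7 848)
(mv 850 (cons (fin 914 6 849)
(mv 1169 (cons (cons (mv 1168 (cons (fin 1104 5 912)
(fin 1232 5 976)))
(mv 1234 (cons (fin 1170 4 977)
(mv 1233 (cons (fin 1298 4 1041)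
(mv 1296 (cons (fin 1232 5 1040)
(mv 1297 (cons (fin 1104 7 1040)
(fin 1360 5 1104))))))))))
(cons (mv 1232 (cons (fin 1168 5 976)
(mv 1233 (cons (fin 1296 5 1040)
(mv 1234 (cons (fin 1170 4 977)
(fin 1298 4 1041)))))))
(mv 1104 (cons (fin 1168 5 912)
(mv 1233 (cons (fin 1297 7 1040)
(mv 1234 (cons (fin 1170 4 977)
(fin 1298 4 1041)))))))))))))))))))))))))))))))
(cons (mv 1041 (cons (cons (mv 973 (cons (fin 974 3 973)
(mv 977 (cons (fin 978 2 974)
(mv 1037 (cons (fin 972 3 972)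
(fin 976 2 973)))))))
(mv 973 (cons (fin 974 3 973)
(mv 1037 (cons (fin 972 3 972)
(mv 1101 (cons (fin 1100 1 1036)
(fin 1102 1 1037))))))))
(cons (mv 977 (cons (fin 978 2 974)
(mv 976 (cons (fin 1037 2 973)
(mv 1101 (cons (fin 1102 1 1037)
(mv 1105 (cons (fin 1106 0 1038)
(mv 912 (cons (fin 1169 7 912)
(fin 848 4 848)))))))))))
(mv 973 (cons (fin 974 3 973)
(mv 977 (cons (fin 978 2 974)
(mv 1101 (cons (fin 1102 1 1037)
(mv 1105 (cons (fin 1106 0 1038)
(mv 1169 (cons (mv 976 (cons (fin 912 7 912)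
(fin 1233 7 976)))
(cons (mv 1232 (cons (fin 1168 5 976)
(mv 1233 (cons (fin 1296 5 1040)
(mv 1234 (cons (fin 1170 4 977)
(fin 1298 4 1041)))))))
(mv 1168 (cons (fin 1232 5 976)
(mv 1170 (cons (fin 1234 4 977)
(mv 913 (cons (cons (mv 912 (cons (fin 848 7 848)
(fin 976 7 912)))
(mv 850 (cons (fin 914 6 849)
(mv 849 (cons (fin 786 6 785)
(mv 784 (cons (fin 848 7 784)
(mv 785 (cons (fin 720 7 720)
(fin 976 5 784))))))))))
(cons (mv 848 (cons (fin 912 7 848)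
(mv 849 (cons (fin 784 7 784)
(mv 850 (cons (fin 786 6 785)
(fin 914 6 849)))))))
(mv 850 (cons (fin 914 6 849)
(mv 849 (cons (fin 786 6 785)
(mv 976 (cons (fin 912 7 912)
(fin 785 5 784))))))))))))))))))))))))))))
(cons (mv 1037 (cons (cons (mv 972 (cons (fin 973 3 972)
(mv 976 (cons (fin 977 2 973)
(mv 1101 (cons (fin 1100 1 1036)
(mv 1041 (cons (fin 1102 1 1037)
(mv 1105 (cons (fin 1104 0 1037)
(fin 1106 0 1038)))))))))))
(cons (mv 972 (cons (fin 973 3 972)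
(mv 977 (cons (fin 976 2 973)
(mv 1041 (cons (fin 978 2 974)
(mv 1105 (cons (fin 1104 0 1037)
(fin 1106 0 1038)))))))))
(mv 976 (cons (fin 977 2 973)
(mv 1101 (cons (fin 1100 1 1036)
(mv 1041 (cons (fin 1102 1 1037)
(mv 1105 (cons (fin 1104 0 1037)
(fin 1106 0 1038)))))))))))
(cons (mv 972 (cons (fin 973 3 972)
(mv 1101 (cons (fin 1100 1 1036)
(mv 1041 (cons (fin 1102 1 1037)
(mv 1105 (cons (fin 1104 0 1037)
(fin 1106 0 1038)))))))))
(cons (mv 972 (cons (fin 973 3 972)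
(mv 977 (cons (fin 976 2 973)
(mv 1041 (cons (fin 978 2 974)
(mv 1101 (cons (fin 1100 1 1036)
(fin 1102 1 1037)))))))))
(mv 972 (cons (fin 973 3 972)
(mv 976 (cons (fin 977 2 973)
(mv 1100 (cons (fin 1101 1 1036)
(mv 1104 (cons (fin 1105 0 1037)
(mv 1168 (cons (mv 975 (cons (fin 911 7 911)
(fin 1232 7 975)))
(cons (mv 1231 (cons (fin 1167 5 975)
(mv 1232 (cons (fin 1295 5 1039)
(mv 1233 (cons (fin 1169 4 976)
(fin 1297 4 1040)))))))
(mv 975 (cons (fin 911 7 911)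
(mv 1167 (cons (fin 1231 5 975)
(mv 1169 (cons (fin 1233 4 976)
(mv 1166 (cons (cons (mv 1230 (cons (fin 1229 1 1165)
(fin 1103 5 974)))
(mv 1165 (cons (mv 1164 (cons (fin 1099 3 1099)
(fin 1103 2 1100)))
(cons (mv 1229 (cons (fin 1228 1 1164)
(mv 1102 (cons (fin 974 5 973)
(mv 1170 (cons (fin 1103 3 1102)
(mv 1107 (cons (fin 1106 2 1103)
(mv 1171 (cons (fin 1108 2 1104)
(mv 1235 (cons (fin 1234 0 1167)
(fin 1236 0 1168)))))))))))))
(mv 1164 (cons (fin 1099 3 1099)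
(mv 1228 (cons (fin 1227 1 1163)
(fin 1229 1 1164)))))))))
(cons (mv 1230 (cons (fin 1229 1 1165)
(fin 1102 6 974)))
(mv 1230 (cons (fin 1103 5 974)
(fin 1102 6 974)))))))))))))))))))))))))))
(mv 1037 (cons (cons (mv 972 (cons (fin 973 3 972)
(mv 976 (cons (fin 977 2 973)
(mv 1101 (cons (fin 1100 1 1036)
(mv 1041 (cons (fin 1102 1 1037)
(mv 1105 (cons (fin 1104 0 1037)
(fin 1106 0 1038)))))))))))
(cons (mv 976 (cons (fin 977 2 973)
(mv 1101 (cons (fin 1100 1 1036)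
(mv 1041 (cons (fin 1102 1 1037)
(mv 1105 (cons (fin 1104 0 1037)
(fin 1106 0 1038)))))))))
(mv 972 (cons (fin 973 3 972)
(mv 977 (cons (fin 976 2 973)
(mv 1041 (cons (fin 978 2 974)
(mv 1105 (cons (fin 1104 0 1037)
(fin 1106 0 1038)))))))))))
(cons (mv 972 (cons (fin 973 3 972)
(mv 977 (cons (fin 976 2 973)
(mv 1041 (cons (fin 978 2 974)
(mv 1101 (cons (fin 1100 1 1036)
(fin 1102 1 1037)))))))))
(cons (mv 972 (cons (fin 973 3 972)
(mv 1101 (cons (fin 1100 1 1036)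
(mv 1041 (cons (fin 1102 1 1037)
(mv 1105 (cons (fin 1104 0 1037)
(fin 1106 0 1038)))))))))
(mv 972 (cons (fin 973 3 972)
(mv 976 (cons (fin 977 2 973)
(mv 1100 (cons (fin 1101 1 1036)
(mv 1104 (cons (fin 1105 0 1037)
(mv 912 (cons (mv 1103 (cons (fin 848 5 847)
(fin 1167 5 911)))
(cons (mv 847 (cons (fin 911 7 847)
(mv 848 (cons (fin 783 7 783)
(mv 849 (cons (fin 785 6 784)
(fin 913 6 848)))))))
(mv 911 (cons (fin 847 7 847)
(mv 913 (cons (fin 849 6 848)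
(mv 1103 (cons (fin 1167 5 911)
(mv 910 (cons (cons (mv 846 (cons (fin 845 3 845)
(fin 975 7 846)))
(mv 909 (cons (mv 908 (cons (fin 971 1 907)
(fin 975 0 908)))
(cons (mv 845 (cons (fin 844 3 844)
(mv 974 (cons (fin 1102 7 845)
(mv 914 (cons (fin 975 1 910)
(mv 851 (cons (fin 850 2 847)
(mv 915 (cons (fin 852 2 848)
(mv 979 (cons (fin 978 0 911)
(fin 980 0 912)))))))))))))
(mv 844 (cons (fin 845 3 844)
(mv 908 (cons (fin 843 3 843)
(fin 971 1 907)))))))))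
(cons (mv 846 (cons (fin 845 3 845)
(fin 974 4 846)))
(mv 846 (cons (fin 975 7 846)
(fin 974 4 846))))))))))))))))))))))))))))))))
def l16 : Lem := ⟨17672042592950510299342161747532428741358160893794450532607270698129752962383966679797774154701950421020191674846877452631289669433532411657536873821582864322832094995237976664601613395680896036318715866521764407099865564676993471100411554418605480722106008602337571462179774064736310031630534868627379729584881664, 174078482937595791593124478214113672372437776858211890548241233941833075635995618958332726865870165109749720181370390410562719464541009306337031786706977354506527567455559664696325938013694872022275493342936698132399204408979190573217283519029688962183092066273531638465441346583859390437541692904978087227399025672917674818441701477342855477717328729094528644047201604157601449612705666422265762905728162748836656734064726769664, 174078482937595791593124478214113672372437776858211890548241233941833075635995618958332726865870165109749720181370390410562719464541009306337031786706977354506527567455559664696325938013694872022275493342936698132399204408979190573217283519029688962183092066273531638465441346583859390437541692904978087227399025672917674818441701477342855477717328729094528644047201604157601449612705666422265762905728162748836656734064726769664,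 19, 33⟩
theorem l16_valid : l16.Valid :=
  Lem.valid_of_chk t16 t16_valid [1039, 1040] c16 l16 (by decide +kernel)
end Crest.Agent.SnakyAux
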