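import Crest.Agent.S0047_aux.Checker

set_option autoImplicit false
set_option maxRecDepth 100000
namespace Crest.Agent.SnakyAux
open Cert
def t17 : Tbl := Tbl.nil
theorem t17_valid : t17.Valid := Tbl.valid_nil
def c17 : Cert :=
(mv 1038 (cons (cons (cons (mv 1041 (cons (cons (mv 973 (cons (fin 974 3 973)
(mv 977 (cons (fin 978 2 974)
(mv 1037 (cons (fin 972 3 972)
(fin 976 2 973)))))))
(mv 973 (cons (fin 974 3 973)
(mv 1037 (cons (fin 972 3 972)
(mv 1105 (cons (fin 1104 0 1037)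
(fin 1106 0 1038))))))))
(cons (mv 977 (cons (fin 978 2 974)
(mv 976 (cons (fin 1037 2 973)
(mv 1101 (cons (fin 1102 1 1037)
(mv 1105 (cons (fin 1106 0 1038)
(mv 912 (cons (fin 1169 7 912)
(fin 848 4 848)))))))))))
(mv 973 (cons (fin 974 3 973)
(mv 977 (cons (fin 978 2 974)
(mv 1101 (cons (fin 1102 1 1037)
(mv 1105 (cons (fin 1106 0 1038)
(mv 913 (cons (mv 1104 (cons (fin 849 5 848)
(fin 1168 5 912)))
(cons (mv 848 (cons (fin 912 7 848)
(mv 849 (cons (fin 784 7 784)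
(mv 850 (cons (fin 786 6 785)
(fin 914 6 849)))))))
(mv 848 (cons (fin 912 7 848)
(mv 850 (cons (fin 914 6 849)
(mv 1168 (cons (fin 1104 5 912)
(mv 1169 (cons (fin 1232 5 976)
(mv 1233 (cons (fin 976 7 976)
(mv 1234 (cons (fin 1170 4 977)
(fin 1298 4 1041)))))))))))))))))))))))))))
(mv 1037 (cons (cons (mv 972 (cons (fin 973 3 972)
(mv 976 (cons (fin 977 2 973)
(mv 1036 (cons (fin 971 3 971)
(fin 975 2 972)))))))
(mv 972 (cons (fin 973 3 972)
(mv 1036 (cons (fin 971 3 971)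
(mv 1104 (cons (fin 1103 0 1036)
(fin 1105 0 1037))))))))
(cons (mv 976 (cons (fin 977 2 973)
(mv 975 (cons (fin 1036 2 972)
(mv 1104 (cons (fin 1105 0 1037)
(mv 911 (cons (fin 1168 7 911)
(fin 847 4 847)))))))))
(mv 972 (cons (fin 973 3 972)
(mv 976 (cons (fin 977 2 973)
(mv 1104 (cons (fin 1105 0 1037)
(mv 1168 (cons (mv 975 (cons (fin 911 7 911)
(fin 1232 7 975)))
(cons (mv 1167 (cons (fin 1231 5 975)
(mv 912 (cons (fin 1103 5 911)
(mv 847 (cons (fin 911 7 847)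
(mv 848 (cons (fin 783 7 783)
(mv 849 (cons (fin 785 6 784)
(fin 913 6 848)))))))))))
(mv 975 (cons (fin 1232 7 975)
(mv 1167 (cons (fin 1231 5 975)
(mv 912 (cons (fin 1103 5 911)
(mv 848 (cons (fin 784 5 783)
(mv 849 (cons (fin 785 6 784)
(fin 913 6 848))))))))))))))))))))))))
(cons (mv 1041 (cons (cons (cons (mv 973 (cons (fin 974 3 973)
(mv 977 (cons (fin 978 2 974)
(mv 1101 (cons (fin 1102 1 1037)
(mv 1105 (cons (fin 1106 0 1038)
(mv 913 (cons (mv 1104 (cons (fin 849 5 848)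
(fin 1168 5 912)))
(cons (mv 848 (cons (fin 912 7 848)
(mv 849 (cons (fin 784 7 784)
(mv 850 (cons (fin 786 6 785)
(fin 914 6 849)))))))
(mv 848 (cons (fin 912 7 848)
(mv 850 (cons (fin 914 6 849)
(mv 1168 (cons (fin 1104 5 912)
(mv 1169 (cons (fin 1232 5 976)
(mv 1233 (cons (fin 976 7 976)
(mv 1234 (cons (fin 1170 4 977)
(fin 1298 4 1041))))))))))))))))))))))))
(mv 977 (cons (fin 978 2 974)
(mv 1101 (cons (fin 1102 1 1037)
(mv 1105 (cons (fin 1106 0 1038)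
(mv 913 (cons (mv 1104 (cons (fin 849 5 848)
(fin 1168 5 912)))
(cons (mv 848 (cons (fin 912 7 848)
(mv 849 (cons (fin 784 7 784)
(mv 850 (cons (fin 786 6 785)
(fin 914 6 849)))))))
(mv 848 (cons (fin 912 7 848)
(mv 850 (cons (fin 914 6 849)
(mv 1168 (cons (fin 1104 5 912)
(mv 1169 (cons (fin 1232 5 976)
(mv 1233 (cons (fin 976 7 976)
(mv 1234 (cons (fin 1170 4 977)
(fin 1298 4 1041)))))))))))))))))))))))
(cons (mv 973 (cons (fin 974 3 973)
(mv 1102 (cons (fin 1101 1 1037)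
(mv 1105 (cons (fin 1106 0 1038)
(mv 1169 (cons (cons (mv 976 (cons (fin 1233 7 976)
(mv 912 (cons (fin 848 4 848)
(fin 1104 4 912)))))
(mv 1104 (cons (cons (mv 912 (cons (fin 976 4 912)
(mv 1103 (cons (fin 1170 0 1102)
(mv 1166 (cons (fin 1165 1 1101)
(mv 975 (cons (fin 911 5 910)
(fin 1230 6 974)))))))))
(mv 976 (cons (fin 912 4 912)
(mv 1168 (cons (mv 975 (cons (fin 911 7 911)
(fin 1232 7 975)))
(cons (mv 1231 (cons (fin 1167 5 975)
(mv 1232 (cons (fin 1295 5 1039)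
(fin 1296 6 1040)))))
(mv 975 (cons (fin 911 7 911)
(mv 1166 (cons (fin 1230 6 974)
(mv 1167 (cons (fin 1165 2 1101)
(fin 1231 5 975)))))))))))))
(cons (mv 1103 (cons (fin 1170 0 1102)
(mv 1166 (cons (fin 1165 1 1101)
(mv 975 (cons (fin 911 5 910)
(fin 1230 6 974)))))))
(cons (mv 912 (cons (fin 976 4 912)
(mv 1103 (cons (fin 1170 0 1102)
(mv 1166 (cons (fin 1165 1 1101)
(mv 1230 (cons (fin 1294 6 1038)
(mv 1229 (cons (fin 1293 5 1037)
(mv 1168 (cons (fin 1167 1 1165)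
(mv 1231 (cons (fin 1232 2 1165)
(fin 1295 4 1038)))))))))))))))
(mv 912 (cons (fin 976 4 912)
(mv 1170 (cons (fin 1103 0 1102)
(mv 1171 (cons (fin 1172 3 1104)
(mv 1168 (cons (mv 1232 (cons (fin 1231 1 1167)
(fin 975 7 975)))
(mv 1107 (cons (fin 1108 2 1104)
(mv 1235 (cons (fin 1236 0 1168)
(mv 1234 (cons (fin 1167 0 1167)
(mv 1043 (cons (fin 979 5 978)
(fin 1298 5 1042))))))))))))))))))))))
(cons (mv 1233 (cons (cons (cons (mv 1104 (cons (fin 1297 7 1040)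
(mv 1103 (cons (fin 1170 0 1102)
(mv 1165 (cons (fin 1166 1 1101)
(mv 1232 (cons (fin 1296 5 1040)
(mv 1168 (cons (fin 975 7 975)
(mv 1231 (cons (fin 1295 5 1039)
(mv 1229 (cons (fin 1230 2 1165)
(mv 1234 (cons (fin 1298 4 1041)
(mv 1235 (cons (fin 1167 3 1167)
(fin 1236 3 1168)))))))))))))))))))
(mv 1232 (cons (fin 1296 5 1040)
(mv 1234 (cons (fin 1298 4 1041)
(mv 1231 (cons (mv 1170 (cons (fin 1230 2 1166)
(fin 1171 2 1167)))
(cons (mv 1166 (cons (fin 1167 3 1166)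
(mv 1230 (cons (fin 1165 3 1165)
(fin 975 6 974)))))
(mv 1166 (cons (fin 1167 3 1166)
(mv 1170 (cons (fin 1171 2 1167)
(mv 1104 (cons (fin 1103 0 1102)
(mv 1168 (cons (fin 975 7 975)
(fin 1295 5 1039)))))))))))))))))
(cons (mv 1232 (cons (fin 1296 5 1040)
(mv 1298 (cons (fin 1234 4 1041)
(mv 1297 (cons (fin 1362 4 1105)
(mv 1230 (cons (fin 1231 0 1230)
(mv 1166 (cons (fin 975 6 974)
(mv 1229 (cons (fin 1293 5 1037)
(mv 1168 (cons (fin 1167 1 1165)
(mv 1294 (cons (fin 1103 6 1038)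
(mv 1359 (cons (fin 1295 4 1102)
(mv 1358 (cons (fin 1423 4 1166)
(mv 1361 (cons (fin 1360 2 1294)
(fin 1425 7 1168)))))))))))))))))))))))
(mv 1104 (cons (fin 1297 7 1040)
(mv 1103 (cons (fin 1170 0 1102)
(mv 1166 (cons (fin 1165 1 1101)
(mv 975 (cons (fin 911 5 910)
(fin 1230 6 974)))))))))))
(cons (cons (mv 1104 (cons (fin 1297 7 1040)
(mv 1103 (cons (fin 1170 0 1102)
(mv 1166 (cons (fin 1165 1 1101)
(mv 1230 (cons (fin 1294 6 1038)
(mv 1229 (cons (fin 1293 5 1037)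
(mv 1167 (cons (fin 1168 1 1165)
(mv 1227 (cons (fin 1228 2 1163)
(mv 1231 (cons (fin 1295 7 1038)
(mv 1232 (cons (fin 1234 3 1166)
(fin 1296 5 1040)))))))))))))))))))
(mv 1104 (cons (fin 1297 7 1040)
(mv 1103 (cons (fin 1170 0 1102)
(mv 1232 (cons (fin 1296 5 1040)
(mv 1168 (cons (fin 975 7 975)
(mv 1231 (cons (fin 1295 5 1039)
(mv 1229 (cons (fin 1230 2 1165)
(mv 1234 (cons (fin 1298 4 1041)
(mv 1235 (cons (fin 1167 3 1167)
(fin 1236 3 1168))))))))))))))))))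
(cons (mv 1104 (cons (fin 1297 7 1040)
(mv 1232 (cons (fin 1296 5 1040)
(mv 975 (cons (fin 1168 7 975)
(mv 847 (cons (fin 911 5 846)
(mv 1230 (cons (fin 1166 6 974)
(mv 1231 (cons (fin 1170 2 1166)
(mv 1234 (cons (fin 1298 4 1041)
(mv 1294 (cons (fin 1293 1 1229)
(fin 1295 1 1230)))))))))))))))))
(mv 1104 (cons (fin 1297 7 1040)
(mv 1103 (cons (fin 1170 0 1102)
(mv 1165 (cons (fin 1166 1 1101)
(mv 1232 (cons (fin 1296 5 1040)
(mv 1168 (cons (fin 975 7 975)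
(mv 1231 (cons (fin 1295 5 1039)
(mv 1234 (cons (fin 1298 4 1041)
(mv 1235 (cons (fin 1167 3 1167)
(fin 1236 3 1168)))))))))))))))))))))
(mv 1233 (cons (fin 976 7 976)
(mv 1232 (cons (fin 1296 5 1040)
(mv 1298 (cons (fin 1234 4 1041)
(mv 1297 (cons (fin 1362 4 1105)
(mv 1230 (cons (fin 1231 0 1230)
(mv 1166 (cons (fin 975 6 974)
(mv 1229 (cons (fin 1293 5 1037)
(mv 1168 (cons (fin 1167 1 1165)
(mv 1294 (cons (fin 1103 6 1038)
(mv 1359 (cons (fin 1295 4 1102)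
(mv 1358 (cons (fin 1423 4 1166)
(mv 1361 (cons (fin 1360 2 1294)
(fin 1425 7 1168))))))))))))))))))))))))))))))))))
(mv 974 (cons (fin 973 3 973)
(mv 977 (cons (fin 978 2 974)
(mv 1101 (cons (fin 1102 1 1037)
(mv 910 (cons (cons (mv 846 (cons (fin 1103 4 846)
(mv 781 (cons (fin 845 7 781)
(mv 782 (cons (fin 717 7 717)
(fin 975 4 782)))))))
(mv 975 (cons (cons (mv 976 (cons (fin 909 3 909)
(mv 913 (cons (fin 914 2 910)
(mv 849 (cons (fin 785 5 784)
(fin 1104 5 848)))))))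
(mv 1103 (cons (fin 1167 7 910)
(mv 911 (cons (mv 847 (cons (fin 783 5 782)
(fin 1104 4 847)))
(cons (mv 847 (cons (fin 783 5 782)
(mv 848 (cons (fin 784 6 783)
(fin 912 6 847)))))
(mv 912 (cons (fin 848 6 847)
(mv 913 (cons (fin 914 1 910)
(mv 849 (cons (fin 850 2 846)
(fin 1104 5 848)))))))))))))
(cons (mv 976 (cons (fin 909 3 909)
(mv 913 (cons (fin 914 2 910)
(mv 849 (cons (fin 785 5 784)
(mv 786 (cons (fin 850 6 785)
(mv 848 (cons (fin 784 7 784)
(mv 1103 (cons (fin 1167 7 910)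
(fin 912 5 847)))))))))))))
(mv 909 (cons (fin 976 3 909)
(mv 908 (cons (fin 907 0 907)
(mv 1103 (cons (fin 1167 7 910)
(mv 911 (cons (mv 847 (cons (fin 848 2 844)
(fin 783 5 782)))
(cons (mv 844 (cons (fin 843 3 843)
(mv 912 (cons (fin 845 3 844)
(fin 848 6 847)))))
(mv 847 (cons (fin 783 5 782)
(fin 1104 4 847))))))))))))))))
(cons (mv 846 (cons (mv 781 (cons (fin 845 7 781)
(mv 782 (cons (fin 717 7 717)
(fin 975 4 782)))))
(cons (mv 781 (cons (fin 845 7 781)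
(mv 847 (cons (fin 783 6 782)
(mv 849 (cons (mv 848 (cons (fin 909 1 845)
(mv 913 (cons (fin 914 0 846)
(fin 784 7 784)))))
(cons (mv 913 (cons (fin 1104 5 848)
(mv 785 (cons (fin 976 5 784)
(mv 786 (cons (fin 722 6 721)
(fin 850 6 785)))))))
(mv 848 (cons (fin 909 1 845)
(mv 785 (cons (fin 786 2 782)
(mv 850 (cons (fin 911 1 846)
(mv 912 (cons (fin 976 6 784)
(mv 915 (cons (fin 914 0 847)
(mv 851 (cons (fin 916 0 848)
(mv 788 (cons (fin 787 2 784)
(mv 852 (cons (fin 784 3 784)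
(fin 789 2 785))))))))))))))))))))))))
(mv 782 (cons (fin 975 4 782)
(mv 783 (cons (fin 719 6 718)
(fin 847 6 782))))))))
(cons (mv 846 (cons (fin 1103 4 846)
(mv 781 (cons (fin 845 7 781)
(mv 782 (cons (fin 717 7 717)
(mv 783 (cons (fin 719 6 718)
(fin 847 6 782)))))))))
(mv 846 (cons (fin 1103 4 846)
(mv 782 (cons (fin 975 4 782)
(mv 783 (cons (fin 719 6 718)
(fin 847 6 782)))))))))))))))))))
(cons (cons (mv 973 (cons (fin 974 3 973)
(mv 977 (cons (fin 978 2 974)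
(mv 1105 (cons (fin 1106 0 1038)
(mv 913 (cons (mv 1104 (cons (fin 849 5 848)
(fin 1168 5 912)))
(cons (mv 848 (cons (fin 912 7 848)
(mv 849 (cons (fin 784 7 784)
(mv 850 (cons (fin 786 6 785)
(fin 914 6 849)))))))
(mv 848 (cons (fin 912 7 848)
(mv 850 (cons (fin 914 6 849)
(mv 1168 (cons (fin 1104 5 912)
(mv 1169 (cons (fin 1232 5 976)
(mv 1233 (cons (fin 976 7 976)
(mv 1234 (cons (fin 1170 4 977)
(fin 1298 4 1041))))))))))))))))))))))
(mv 973 (cons (fin 974 3 973)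
(mv 977 (cons (fin 978 2 974)
(mv 1101 (cons (fin 1102 1 1037)
(mv 1105 (cons (fin 1106 0 1038)
(mv 913 (cons (mv 1104 (cons (fin 849 5 848)
(fin 1168 5 912)))
(cons (mv 848 (cons (fin 912 7 848)
(mv 849 (cons (fin 784 7 784)
(mv 850 (cons (fin 786 6 785)
(fin 914 6 849)))))))
(mv 848 (cons (fin 912 7 848)
(mv 850 (cons (fin 914 6 849)
(mv 1169 (cons (cons (mv 1168 (cons (fin 1104 5 912)
(fin 1232 5 976)))
(mv 1234 (cons (fin 1170 4 977)
(mv 1233 (cons (fin 1298 4 1041)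
(mv 1296 (cons (fin 1232 5 1040)
(mv 1297 (cons (fin 1104 7 1040)
(fin 1360 5 1104))))))))))
(cons (mv 1232 (cons (fin 1168 5 976)
(mv 1233 (cons (fin 1296 5 1040)
(mv 1234 (cons (fin 1170 4 977)
(fin 1298 4 1041)))))))
(mv 1104 (cons (fin 1168 5 912)
(mv 1233 (cons (fin 1297 7 1040)
(mv 1234 (cons (fin 1170 4 977)
(fin 1298 4 1041))))))))))))))))))))))))))
(cons (mv 973 (cons (fin 974 3 973)
(mv 977 (cons (fin 978 2 974)
(mv 1101 (cons (fin 1102 1 1037)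
(mv 1105 (cons (fin 1106 0 1038)
(mv 1169 (cons (mv 976 (cons (fin 912 7 912)
(fin 1233 7 976)))
(cons (mv 1232 (cons (fin 1168 5 976)
(mv 1233 (cons (fin 1296 5 1040)
(mv 1234 (cons (fin 1170 4 977)
(fin 1298 4 1041)))))))
(mv 1168 (cons (fin 1232 5 976)
(mv 1170 (cons (fin 1234 4 977)
(mv 913 (cons (cons (mv 912 (cons (fin 848 7 848)
(fin 976 7 912)))
(mv 850 (cons (fin 914 6 849)
(mv 849 (cons (fin 786 6 785)
(mv 784 (cons (fin 848 7 784)
(mv 785 (cons (fin 720 7 720)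
(fin 976 5 784))))))))))
(cons (mv 848 (cons (fin 912 7 848)
(mv 849 (cons (fin 784 7 784)
(mv 850 (cons (fin 786 6 785)
(fin 914 6 849)))))))
(mv 850 (cons (fin 914 6 849)
(mv 849 (cons (fin 786 6 785)
(mv 976 (cons (fin 912 7 912)
(fin 785 5 784)))))))))))))))))))))))))
(cons (mv 973 (cons (fin 974 3 973)
(mv 977 (cons (fin 978 2 974)
(mv 1101 (cons (fin 1102 1 1037)
(mv 1105 (cons (fin 1106 0 1038)
(mv 913 (cons (mv 1104 (cons (fin 849 5 848)
(fin 1168 5 912)))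
(cons (mv 850 (cons (fin 914 6 849)
(mv 849 (cons (fin 786 6 785)
(mv 784 (cons (fin 848 7 784)
(mv 785 (cons (fin 720 7 720)
(fin 976 5 784)))))))))
(mv 850 (cons (fin 914 6 849)
(mv 1168 (cons (fin 1104 5 912)
(mv 1169 (cons (fin 1232 5 976)
(mv 1233 (cons (fin 976 7 976)
(mv 1234 (cons (fin 1170 4 977)
(fin 1298 4 1041))))))))))))))))))))))
(mv 973 (cons (fin 974 3 973)
(mv 977 (cons (fin 978 2 974)
(mv 1101 (cons (fin 1102 1 1037)
(mv 1105 (cons (fin 1106 0 1038)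
(mv 1169 (cons (mv 976 (cons (fin 912 7 912)
(fin 1233 7 976)))
(mv 1168 (cons (fin 1232 5 976)
(mv 1104 (cons (fin 913 5 912)
(mv 1170 (cons (fin 1234 4 977)
(mv 1171 (cons (fin 1103 3 1103)
(fin 1172 3 1104))))))))))))))))))))))))
(cons (mv 1041 (cons (cons (mv 977 (cons (fin 978 2 974)
(mv 976 (cons (fin 1037 2 973)
(mv 1101 (cons (fin 1102 1 1037)
(mv 1105 (cons (fin 1106 0 1038)
(mv 912 (cons (fin 1169 7 912)
(fin 848 4 848)))))))))))
(cons (mv 1101 (cons (fin 1102 1 1037)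
(mv 1105 (cons (fin 1106 0 1038)
(mv 1104 (cons (fin 1037 0 1037)
(mv 976 (cons (mv 912 (cons (fin 848 4 848)
(fin 1169 4 912)))
(cons (mv 1169 (cons (fin 1233 7 976)
(mv 1168 (cons (mv 975 (cons (fin 911 7 911)
(fin 1232 7 975)))
(cons (mv 975 (cons (fin 911 7 911)
(mv 1167 (cons (fin 1231 5 975)
(mv 1166 (cons (fin 1165 2 1101)
(mv 1230 (cons (fin 1229 1 1165)
(fin 1103 5 974)))))))))
(mv 1231 (cons (fin 1167 5 975)
(mv 1232 (cons (fin 1295 5 1039)
(fin 1296 6 1040))))))))))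
(mv 912 (cons (fin 848 4 848)
(mv 847 (cons (fin 911 7 847)
(mv 849 (cons (fin 913 6 848)
(mv 1167 (cons (fin 1103 5 911)
(mv 1168 (cons (fin 1231 5 975)
(mv 1232 (cons (fin 975 7 975)
(fin 1296 6 1040))))))))))))))))))))))
(mv 977 (cons (fin 978 2 974)
(mv 976 (cons (fin 1037 2 973)
(mv 1101 (cons (fin 1102 1 1037)
(mv 1104 (cons (mv 913 (cons (fin 849 5 848)
(fin 1168 6 912)))
(cons (mv 849 (cons (fin 913 5 848)
(mv 912 (cons (mv 848 (cons (fin 1103 5 847)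
(fin 785 6 784)))
(cons (mv 911 (cons (fin 847 7 847)
(mv 910 (cons (fin 909 0 909)
(mv 1103 (cons (fin 1167 5 911)
(mv 846 (cons (fin 975 7 846)
(fin 974 4 846)))))))))
(mv 848 (cons (fin 785 6 784)
(fin 784 4 784))))))))
(mv 1168 (cons (fin 1232 6 976)
(mv 911 (cons (fin 975 7 911)
(mv 912 (cons (fin 847 7 847)
(mv 848 (cons (fin 1103 5 847)
(fin 784 4 784))))))))))))))))))))
(cons (mv 977 (cons (fin 978 2 974)
(mv 976 (cons (fin 1037 2 973)
(mv 1105 (cons (fin 1106 0 1038)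
(mv 912 (cons (fin 1169 7 912)
(fin 848 4 848)))))))))
(cons (mv 977 (cons (fin 978 2 974)
(mv 1101 (cons (fin 1102 1 1037)
(mv 1105 (cons (fin 1106 0 1038)
(mv 913 (cons (mv 1104 (cons (fin 849 5 848)
(fin 1168 5 912)))
(cons (mv 848 (cons (fin 912 7 848)
(mv 849 (cons (fin 784 7 784)
(mv 850 (cons (fin 786 6 785)
(fin 914 6 849)))))))
(mv 848 (cons (fin 912 7 848)
(mv 850 (cons (fin 914 6 849)
(mv 1168 (cons (fin 1104 5 912)
(mv 1169 (cons (fin 1232 5 976)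
(mv 1233 (cons (fin 976 7 976)
(mv 1234 (cons (fin 1170 4 977)
(fin 1298 4 1041))))))))))))))))))))))
(mv 977 (cons (fin 978 2 974)
(mv 1101 (cons (fin 1102 1 1037)
(mv 1105 (cons (fin 1106 0 1038)
(mv 1104 (cons (fin 1037 0 1037)
(mv 913 (cons (fin 849 5 848)
(fin 1168 5 912)))))))))))))))
(mv 1041 (cons (cons (mv 973 (cons (fin 974 3 973)
(mv 1037 (cons (fin 972 3 972)
(mv 1105 (cons (fin 1104 0 1037)
(fin 1106 0 1038)))))))
(mv 973 (cons (fin 974 3 973)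
(mv 1037 (cons (fin 972 3 972)
(mv 1102 (cons (fin 1101 1 1037)
(mv 845 (cons (fin 909 4 845)
(mv 1166 (cons (fin 1230 7 973)
(mv 1103 (cons (mv 1036 (cons (fin 1035 0 1035)
(fin 1104 0 1036)))
(cons (mv 975 (cons (fin 911 5 910)
(mv 1167 (cons (mv 976 (cons (fin 912 6 911)
(fin 1231 6 975)))
(cons (mv 976 (cons (fin 912 6 911)
(mv 1168 (cons (fin 1232 4 975)
(mv 1169 (cons (fin 1170 3 1102)
(mv 1233 (cons (fin 1234 0 1166)
(fin 1104 4 976)))))))))
(mv 1231 (cons (fin 1295 7 1038)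
(mv 1232 (cons (fin 1168 4 975)
(fin 1296 4 1039))))))))))
(mv 975 (cons (fin 911 5 910)
(mv 1036 (cons (fin 976 2 972)
(fin 1035 0 1035)))))))))))))))))))
(cons (mv 1101 (cons (fin 1102 1 1037)
(mv 1105 (cons (fin 1106 0 1038)
(mv 1104 (cons (fin 1037 0 1037)
(mv 976 (cons (mv 912 (cons (fin 848 4 848)
(fin 1169 4 912)))
(cons (mv 1169 (cons (fin 1233 7 976)
(mv 1168 (cons (mv 975 (cons (fin 911 7 911)
(fin 1232 7 975)))
(cons (mv 975 (cons (fin 911 7 911)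
(mv 1167 (cons (fin 1231 5 975)
(mv 1166 (cons (fin 1165 2 1101)
(mv 1230 (cons (fin 1229 1 1165)
(fin 1103 5 974)))))))))
(mv 1231 (cons (fin 1167 5 975)
(mv 1232 (cons (fin 1295 5 1039)
(fin 1296 6 1040))))))))))
(mv 912 (cons (fin 848 4 848)
(mv 847 (cons (fin 911 7 847)
(mv 849 (cons (fin 913 6 848)
(mv 1167 (cons (fin 1103 5 911)
(mv 1168 (cons (fin 1231 5 975)
(mv 1232 (cons (fin 975 7 975)
(fin 1296 6 1040))))))))))))))))))))))
(cons (mv 973 (cons (fin 974 3 973)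
(mv 1102 (cons (fin 1101 1 1037)
(mv 1105 (cons (fin 1106 0 1038)
(mv 1169 (cons (cons (mv 976 (cons (fin 1233 7 976)
(mv 912 (cons (fin 848 4 848)
(fin 1104 4 912)))))
(mv 1104 (cons (cons (mv 912 (cons (fin 976 4 912)
(mv 1103 (cons (fin 1170 0 1102)
(mv 1166 (cons (fin 1165 1 1101)
(mv 975 (cons (fin 911 5 910)
(fin 1230 6 974)))))))))
(mv 976 (cons (fin 912 4 912)
(mv 1168 (cons (mv 975 (cons (fin 911 7 911)
(fin 1232 7 975)))
(cons (mv 1231 (cons (fin 1167 5 975)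
(mv 1232 (cons (fin 1295 5 1039)
(fin 1296 6 1040)))))
(mv 975 (cons (fin 911 7 911)
(mv 1166 (cons (fin 1230 6 974)
(mv 1167 (cons (fin 1165 2 1101)
(fin 1231 5 975)))))))))))))
(cons (mv 1103 (cons (fin 1170 0 1102)
(mv 1166 (cons (fin 1165 1 1101)
(mv 975 (cons (fin 911 5 910)
(fin 1230 6 974)))))))
(cons (mv 912 (cons (fin 976 4 912)
(mv 1103 (cons (fin 1170 0 1102)
(mv 1166 (cons (fin 1165 1 1101)
(mv 1230 (cons (fin 1294 6 1038)
(mv 1229 (cons (fin 1293 5 1037)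
(mv 1168 (cons (fin 1167 1 1165)
(mv 1231 (cons (fin 1232 2 1165)
(fin 1295 4 1038)))))))))))))))
(mv 912 (cons (fin 976 4 912)
(mv 1170 (cons (fin 1103 0 1102)
(mv 1171 (cons (fin 1172 3 1104)
(mv 1168 (cons (mv 1232 (cons (fin 1231 1 1167)
(fin 975 7 975)))
(mv 1107 (cons (fin 1108 2 1104)
(mv 1235 (cons (fin 1236 0 1168)
(mv 1234 (cons (fin 1167 0 1167)
(mv 1043 (cons (fin 979 5 978)
(fin 1298 5 1042))))))))))))))))))))))
(cons (mv 1233 (cons (cons (cons (mv 1104 (cons (fin 1297 7 1040)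
(mv 1103 (cons (fin 1170 0 1102)
(mv 1165 (cons (fin 1166 1 1101)
(mv 1232 (cons (fin 1296 5 1040)
(mv 1168 (cons (fin 975 7 975)
(mv 1231 (cons (fin 1295 5 1039)
(mv 1229 (cons (fin 1230 2 1165)
(mv 1234 (cons (fin 1298 4 1041)
(mv 1235 (cons (fin 1167 3 1167)
(fin 1236 3 1168)))))))))))))))))))
(mv 1232 (cons (fin 1296 5 1040)
(mv 1234 (cons (fin 1298 4 1041)
(mv 1231 (cons (mv 1170 (cons (fin 1230 2 1166)
(fin 1171 2 1167)))
(cons (mv 1166 (cons (fin 1167 3 1166)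
(mv 1230 (cons (fin 1165 3 1165)
(fin 975 6 974)))))
(mv 1166 (cons (fin 1167 3 1166)
(mv 1170 (cons (fin 1171 2 1167)
(mv 1104 (cons (fin 1103 0 1102)
(mv 1168 (cons (fin 975 7 975)
(fin 1295 5 1039)))))))))))))))))
(cons (mv 1232 (cons (fin 1296 5 1040)
(mv 1298 (cons (fin 1234 4 1041)
(mv 1297 (cons (fin 1362 4 1105)
(mv 1230 (cons (fin 1231 0 1230)
(mv 1166 (cons (fin 975 6 974)
(mv 1229 (cons (fin 1293 5 1037)
(mv 1168 (cons (fin 1167 1 1165)
(mv 1294 (cons (fin 1103 6 1038)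
(mv 1359 (cons (fin 1295 4 1102)
(mv 1358 (cons (fin 1423 4 1166)
(mv 1361 (cons (fin 1360 2 1294)
(fin 1425 7 1168)))))))))))))))))))))))
(mv 1104 (cons (fin 1297 7 1040)
(mv 1103 (cons (fin 1170 0 1102)
(mv 1166 (cons (fin 1165 1 1101)
(mv 975 (cons (fin 911 5 910)
(fin 1230 6 974)))))))))))
(cons (cons (mv 1104 (cons (fin 1297 7 1040)
(mv 1103 (cons (fin 1170 0 1102)
(mv 1166 (cons (fin 1165 1 1101)
(mv 1230 (cons (fin 1294 6 1038)
(mv 1229 (cons (fin 1293 5 1037)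
(mv 1167 (cons (fin 1168 1 1165)
(mv 1227 (cons (fin 1228 2 1163)
(mv 1231 (cons (fin 1295 7 1038)
(mv 1232 (cons (fin 1234 3 1166)
(fin 1296 5 1040)))))))))))))))))))
(mv 1104 (cons (fin 1297 7 1040)
(mv 1103 (cons (fin 1170 0 1102)
(mv 1232 (cons (fin 1296 5 1040)
(mv 1168 (cons (fin 975 7 975)
(mv 1231 (cons (fin 1295 5 1039)
(mv 1229 (cons (fin 1230 2 1165)
(mv 1234 (cons (fin 1298 4 1041)
(mv 1235 (cons (fin 1167 3 1167)
(fin 1236 3 1168))))))))))))))))))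
(cons (mv 1104 (cons (fin 1297 7 1040)
(mv 1232 (cons (fin 1296 5 1040)
(mv 975 (cons (fin 1168 7 975)
(mv 847 (cons (fin 911 5 846)
(mv 1230 (cons (fin 1166 6 974)
(mv 1231 (cons (fin 1170 2 1166)
(mv 1234 (cons (fin 1298 4 1041)
(mv 1294 (cons (fin 1293 1 1229)
(fin 1295 1 1230)))))))))))))))))
(mv 1104 (cons (fin 1297 7 1040)
(mv 1103 (cons (fin 1170 0 1102)
(mv 1165 (cons (fin 1166 1 1101)
(mv 1232 (cons (fin 1296 5 1040)
(mv 1168 (cons (fin 975 7 975)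
(mv 1231 (cons (fin 1295 5 1039)
(mv 1234 (cons (fin 1298 4 1041)
(mv 1235 (cons (fin 1167 3 1167)
(fin 1236 3 1168)))))))))))))))))))))
(mv 1233 (cons (fin 976 7 976)
(mv 1232 (cons (fin 1296 5 1040)
(mv 1298 (cons (fin 1234 4 1041)
(mv 1297 (cons (fin 1362 4 1105)
(mv 1230 (cons (fin 1231 0 1230)
(mv 1166 (cons (fin 975 6 974)
(mv 1229 (cons (fin 1293 5 1037)
(mv 1168 (cons (fin 1167 1 1165)
(mv 1294 (cons (fin 1103 6 1038)
(mv 1359 (cons (fin 1295 4 1102)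
(mv 1358 (cons (fin 1423 4 1166)
(mv 1361 (cons (fin 1360 2 1294)
(fin 1425 7 1168))))))))))))))))))))))))))))))))))
(mv 973 (cons (fin 974 3 973)
(mv 1037 (cons (fin 972 3 972)
(mv 1102 (cons (fin 1101 1 1037)
(mv 845 (cons (fin 909 4 845)
(mv 1105 (cons (fin 1106 0 1038)
(mv 1166 (cons (fin 1230 7 973)
(mv 975 (cons (mv 911 (cons (fin 847 5 846)
(fin 1103 5 910)))
(cons (mv 1036 (cons (fin 976 2 972)
(mv 1035 (cons (fin 1103 0 1035)
(mv 970 (cons (fin 971 3 970)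
(mv 1034 (cons (fin 969 3 969)
(mv 1098 (cons (fin 1097 1 1033)
(fin 1099 1 1034)))))))))))
(mv 847 (cons (fin 911 5 846)
(mv 976 (cons (fin 1036 2 972)
(mv 848 (cons (fin 912 4 848)
(mv 1169 (cons (fin 1233 7 976)
(mv 846 (cons (cons (mv 780 (cons (fin 781 3 780)
(mv 784 (cons (fin 785 2 781)
(mv 844 (cons (fin 779 3 779)
(fin 783 2 780)))))))
(mv 784 (cons (fin 785 2 781)
(mv 844 (cons (fin 783 2 780)
(mv 843 (cons (mv 779 (cons (fin 778 3 778)
(fin 780 3 779)))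
(mv 907 (cons (fin 906 1 842)
(fin 908 1 843))))))))))
(cons (mv 781 (cons (fin 780 3 780)
(mv 849 (cons (fin 782 3 781)
(mv 850 (cons (mv 786 (cons (fin 785 2 782)
(fin 787 2 783)))
(mv 914 (cons (fin 913 0 846)
(fin 915 0 847)))))))))
(cons (mv 785 (cons (fin 784 2 781)
(mv 849 (cons (fin 786 2 782)
(mv 850 (cons (mv 782 (cons (fin 781 3 781)
(fin 783 3 782)))
(mv 914 (cons (fin 913 0 846)
(fin 915 0 847)))))))))
(mv 780 (cons (fin 781 3 780)
(mv 844 (cons (fin 779 3 779)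
(mv 843 (cons (mv 783 (cons (fin 782 2 779)
(fin 784 2 780)))
(mv 907 (cons (fin 906 1 842)
(fin 908 1 843)))))))))))))))))))))))))))))))))))))))))))
(cons (cons (mv 1041 (cons (cons (mv 973 (cons (fin 974 3 973)
(mv 977 (cons (fin 978 2 974)
(mv 1037 (cons (fin 972 3 972)
(fin 976 2 973)))))))
(cons (mv 973 (cons (fin 974 3 973)
(mv 1037 (cons (fin 972 3 972)
(mv 1102 (cons (fin 1101 1 1037)
(mv 845 (cons (fin 909 4 845)
(mv 1166 (cons (fin 1230 7 973)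
(mv 1103 (cons (mv 1036 (cons (fin 1035 0 1035)
(fin 1104 0 1036)))
(cons (mv 975 (cons (fin 911 5 910)
(mv 1167 (cons (mv 976 (cons (fin 912 6 911)
(fin 1231 6 975)))
(cons (mv 976 (cons (fin 912 6 911)
(mv 1168 (cons (fin 1232 4 975)
(mv 1169 (cons (fin 1170 3 1102)
(mv 1233 (cons (fin 1234 0 1166)
(fin 1104 4 976)))))))))
(mv 1231 (cons (fin 1295 7 1038)
(mv 1232 (cons (fin 1168 4 975)
(fin 1296 4 1039))))))))))
(mv 975 (cons (fin 911 5 910)
(mv 1036 (cons (fin 976 2 972)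
(fin 1035 0 1035))))))))))))))))))
(mv 977 (cons (fin 978 2 974)
(mv 976 (cons (fin 1037 2 973)
(mv 1101 (cons (fin 1102 1 1037)
(mv 1104 (cons (mv 913 (cons (fin 849 5 848)
(fin 1168 6 912)))
(cons (mv 849 (cons (fin 913 5 848)
(mv 912 (cons (mv 848 (cons (fin 1103 5 847)
(fin 785 6 784)))
(cons (mv 911 (cons (fin 847 7 847)
(mv 910 (cons (fin 909 0 909)
(mv 1103 (cons (fin 1167 5 911)
(mv 846 (cons (fin 975 7 846)
(fin 974 4 846)))))))))
(mv 848 (cons (fin 785 6 784)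
(fin 784 4 784))))))))
(mv 1168 (cons (fin 1232 6 976)
(mv 911 (cons (fin 975 7 911)
(mv 912 (cons (fin 847 7 847)
(mv 848 (cons (fin 1103 5 847)
(fin 784 4 784))))))))))))))))))))
(cons (mv 977 (cons (fin 978 2 974)
(mv 1037 (cons (fin 976 2 973)
(mv 972 (cons (fin 973 3 972)
(mv 1036 (cons (fin 971 3 971)
(mv 1102 (cons (fin 1101 1 1037)
(mv 1103 (cons (fin 1035 0 1035)
(fin 1104 0 1036)))))))))))))
(cons (mv 974 (cons (fin 973 3 973)
(mv 977 (cons (fin 978 2 974)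
(mv 1101 (cons (fin 1102 1 1037)
(mv 910 (cons (cons (mv 846 (cons (fin 1103 4 846)
(mv 781 (cons (fin 845 7 781)
(mv 782 (cons (fin 717 7 717)
(fin 975 4 782)))))))
(mv 975 (cons (cons (mv 976 (cons (fin 909 3 909)
(mv 913 (cons (fin 914 2 910)
(mv 849 (cons (fin 785 5 784)
(fin 1104 5 848)))))))
(mv 1103 (cons (fin 1167 7 910)
(mv 911 (cons (mv 847 (cons (fin 783 5 782)
(fin 1104 4 847)))
(cons (mv 847 (cons (fin 783 5 782)
(mv 848 (cons (fin 784 6 783)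
(fin 912 6 847)))))
(mv 912 (cons (fin 848 6 847)
(mv 913 (cons (fin 914 1 910)
(mv 849 (cons (fin 850 2 846)
(fin 1104 5 848)))))))))))))
(cons (mv 976 (cons (fin 909 3 909)
(mv 913 (cons (fin 914 2 910)
(mv 849 (cons (fin 785 5 784)
(mv 786 (cons (fin 850 6 785)
(mv 848 (cons (fin 784 7 784)
(mv 1103 (cons (fin 1167 7 910)
(fin 912 5 847)))))))))))))
(mv 909 (cons (fin 976 3 909)
(mv 908 (cons (fin 907 0 907)
(mv 1103 (cons (fin 1167 7 910)
(mv 911 (cons (mv 847 (cons (fin 848 2 844)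
(fin 783 5 782)))
(cons (mv 844 (cons (fin 843 3 843)
(mv 912 (cons (fin 845 3 844)
(fin 848 6 847)))))
(mv 847 (cons (fin 783 5 782)
(fin 1104 4 847))))))))))))))))
(cons (mv 846 (cons (mv 781 (cons (fin 845 7 781)
(mv 782 (cons (fin 717 7 717)
(fin 975 4 782)))))
(cons (mv 781 (cons (fin 845 7 781)
(mv 847 (cons (fin 783 6 782)
(mv 849 (cons (mv 848 (cons (fin 909 1 845)
(mv 913 (cons (fin 914 0 846)
(fin 784 7 784)))))
(cons (mv 913 (cons (fin 1104 5 848)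
(mv 785 (cons (fin 976 5 784)
(mv 786 (cons (fin 722 6 721)
(fin 850 6 785)))))))
(mv 848 (cons (fin 909 1 845)
(mv 785 (cons (fin 786 2 782)
(mv 850 (cons (fin 911 1 846)
(mv 912 (cons (fin 976 6 784)
(mv 915 (cons (fin 914 0 847)
(mv 851 (cons (fin 916 0 848)
(mv 788 (cons (fin 787 2 784)
(mv 852 (cons (fin 784 3 784)
(fin 789 2 785))))))))))))))))))))))))
(mv 782 (cons (fin 975 4 782)
(mv 783 (cons (fin 719 6 718)
(fin 847 6 782))))))))
(cons (mv 846 (cons (fin 1103 4 846)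
(mv 781 (cons (fin 845 7 781)
(mv 782 (cons (fin 717 7 717)
(mv 783 (cons (fin 719 6 718)
(fin 847 6 782)))))))))
(mv 846 (cons (fin 1103 4 846)
(mv 782 (cons (fin 975 4 782)
(mv 783 (cons (fin 719 6 718)
(fin 847 6 782)))))))))))))))))
(mv 974 (cons (fin 973 3 973)
(mv 977 (cons (fin 978 2 974)
(mv 1102 (cons (fin 1101 1 1037)
(mv 910 (cons (cons (mv 1103 (cons (fin 846 4 846)
(fin 1167 4 910)))
(mv 845 (cons (fin 909 7 845)
(mv 781 (cons (fin 846 7 781)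
(mv 911 (cons (fin 847 6 846)
(mv 1166 (cons (fin 975 6 910)
(mv 1229 (cons (fin 1165 5 973)
(mv 1230 (cons (fin 1293 5 1037)
(mv 1231 (cons (fin 1167 4 974)
(fin 1295 4 1038))))))))))))))))
(cons (mv 845 (cons (fin 909 7 845)
(mv 847 (cons (fin 911 6 846)
(mv 1167 (cons (fin 1103 4 910)
(mv 1166 (cons (fin 1231 4 974)
(mv 1229 (cons (fin 1165 5 973)
(mv 1230 (cons (fin 1293 5 1037)
(fin 975 6 974)))))))))))))
(mv 845 (cons (fin 909 7 845)
(mv 846 (cons (fin 781 7 781)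
(fin 1103 4 846))))))))))))))))))
(cons (mv 1041 (cons (cons (mv 973 (cons (fin 974 3 973)
(mv 977 (cons (fin 978 2 974)
(mv 1037 (cons (fin 972 3 972)
(mv 1105 (cons (fin 1104 0 1037)
(fin 1106 0 1038)))))))))
(mv 974 (cons (fin 973 3 973)
(mv 977 (cons (fin 978 2 974)
(mv 1102 (cons (fin 1101 1 1037)
(mv 910 (cons (cons (mv 1103 (cons (fin 846 4 846)
(fin 1167 4 910)))
(mv 845 (cons (fin 909 7 845)
(mv 781 (cons (fin 846 7 781)
(mv 911 (cons (fin 847 6 846)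
(mv 1166 (cons (fin 975 6 910)
(mv 1229 (cons (fin 1165 5 973)
(mv 1230 (cons (fin 1293 5 1037)
(mv 1231 (cons (fin 1167 4 974)
(fin 1295 4 1038))))))))))))))))
(cons (mv 845 (cons (fin 909 7 845)
(mv 847 (cons (fin 911 6 846)
(mv 1167 (cons (fin 1103 4 910)
(mv 1166 (cons (fin 1231 4 974)
(mv 1229 (cons (fin 1165 5 973)
(mv 1230 (cons (fin 1293 5 1037)
(fin 975 6 974)))))))))))))
(mv 845 (cons (fin 909 7 845)
(mv 846 (cons (fin 781 7 781)
(fin 1103 4 846)))))))))))))))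
(cons (mv 977 (cons (fin 978 2 974)
(mv 1101 (cons (fin 1102 1 1037)
(mv 1105 (cons (fin 1106 0 1038)
(mv 1104 (cons (fin 1037 0 1037)
(mv 913 (cons (fin 849 5 848)
(fin 1168 5 912)))))))))))
(mv 973 (cons (fin 974 3 973)
(mv 1037 (cons (fin 972 3 972)
(mv 1105 (cons (fin 1104 0 1037)
(fin 1106 0 1038))))))))))
(mv 1041 (cons (cons (mv 973 (cons (fin 974 3 973)
(mv 977 (cons (fin 978 2 974)
(mv 1037 (cons (fin 972 3 972)
(fin 976 2 973)))))))
(mv 973 (cons (fin 974 3 973)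
(mv 1037 (cons (fin 972 3 972)
(mv 1102 (cons (fin 1101 1 1037)
(mv 845 (cons (fin 909 4 845)
(mv 1105 (cons (fin 1106 0 1038)
(mv 1166 (cons (fin 1230 7 973)
(mv 975 (cons (mv 911 (cons (fin 847 5 846)
(fin 1103 5 910)))
(cons (mv 1036 (cons (fin 976 2 972)
(mv 1035 (cons (fin 1103 0 1035)
(mv 970 (cons (fin 971 3 970)
(mv 1034 (cons (fin 969 3 969)
(mv 1098 (cons (fin 1097 1 1033)
(fin 1099 1 1034)))))))))))
(mv 847 (cons (fin 911 5 846)
(mv 976 (cons (fin 1036 2 972)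
(mv 848 (cons (fin 912 4 848)
(mv 1169 (cons (fin 1233 7 976)
(mv 846 (cons (cons (mv 780 (cons (fin 781 3 780)
(mv 784 (cons (fin 785 2 781)
(mv 844 (cons (fin 779 3 779)
(fin 783 2 780)))))))
(mv 784 (cons (fin 785 2 781)
(mv 844 (cons (fin 783 2 780)
(mv 843 (cons (mv 779 (cons (fin 778 3 778)
(fin 780 3 779)))
(mv 907 (cons (fin 906 1 842)
(fin 908 1 843))))))))))
(cons (mv 781 (cons (fin 780 3 780)
(mv 849 (cons (fin 782 3 781)
(mv 850 (cons (mv 786 (cons (fin 785 2 782)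
(fin 787 2 783)))
(mv 914 (cons (fin 913 0 846)
(fin 915 0 847)))))))))
(cons (mv 785 (cons (fin 784 2 781)
(mv 849 (cons (fin 786 2 782)
(mv 850 (cons (mv 782 (cons (fin 781 3 781)
(fin 783 3 782)))
(mv 914 (cons (fin 913 0 846)
(fin 915 0 847)))))))))
(mv 780 (cons (fin 781 3 780)
(mv 844 (cons (fin 779 3 779)
(mv 843 (cons (mv 783 (cons (fin 782 2 779)
(fin 784 2 780)))
(mv 907 (cons (fin 906 1 842)
(fin 908 1 843)))))))))))))))))))))))))))))))))))))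
(cons (mv 977 (cons (fin 978 2 974)
(mv 976 (cons (fin 1037 2 973)
(mv 1101 (cons (fin 1102 1 1037)
(mv 1105 (cons (fin 1106 0 1038)
(mv 912 (cons (fin 1169 7 912)
(fin 848 4 848)))))))))))
(cons (mv 973 (cons (fin 974 3 973)
(mv 977 (cons (fin 978 2 974)
(mv 1101 (cons (fin 1102 1 1037)
(mv 1105 (cons (fin 1106 0 1038)
(mv 1169 (cons (mv 976 (cons (fin 912 7 912)
(fin 1233 7 976)))
(cons (mv 1232 (cons (fin 1168 5 976)
(mv 1233 (cons (fin 1296 5 1040)
(mv 1234 (cons (fin 1170 4 977)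
(fin 1298 4 1041)))))))
(mv 1168 (cons (fin 1232 5 976)
(mv 1170 (cons (fin 1234 4 977)
(mv 913 (cons (cons (mv 912 (cons (fin 848 7 848)
(fin 976 7 912)))
(mv 850 (cons (fin 914 6 849)
(mv 849 (cons (fin 786 6 785)
(mv 784 (cons (fin 848 7 784)
(mv 785 (cons (fin 720 7 720)
(fin 976 5 784))))))))))
(cons (mv 848 (cons (fin 912 7 848)
(mv 849 (cons (fin 784 7 784)
(mv 850 (cons (fin 786 6 785)
(fin 914 6 849)))))))
(mv 850 (cons (fin 914 6 849)
(mv 849 (cons (fin 786 6 785)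
(mv 976 (cons (fin 912 7 912)
(fin 785 5 784)))))))))))))))))))))))))
(mv 974 (cons (fin 973 3 973)
(mv 977 (cons (fin 978 2 974)
(mv 1102 (cons (fin 1101 1 1037)
(mv 1105 (cons (fin 1106 0 1038)
(mv 910 (cons (cons (mv 1103 (cons (fin 846 4 846)
(fin 1167 4 910)))
(mv 845 (cons (fin 909 7 845)
(mv 781 (cons (fin 846 7 781)
(mv 911 (cons (fin 847 6 846)
(mv 1166 (cons (fin 975 6 910)
(mv 1229 (cons (fin 1165 5 973)
(mv 1230 (cons (fin 1293 5 1037)
(mv 1231 (cons (fin 1167 4 974)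
(fin 1295 4 1038))))))))))))))))
(cons (mv 845 (cons (fin 909 7 845)
(mv 847 (cons (fin 911 6 846)
(mv 1167 (cons (fin 1103 4 910)
(mv 1166 (cons (fin 1231 4 974)
(mv 1229 (cons (fin 1165 5 973)
(mv 1230 (cons (fin 1293 5 1037)
(fin 975 6 974)))))))))))))
(mv 845 (cons (fin 909 7 845)
(mv 846 (cons (fin 781 7 781)
(fin 1103 4 846))))))))))))))))))))))
(cons (mv 1041 (cons (cons (mv 973 (cons (fin 974 3 973)
(mv 977 (cons (fin 978 2 974)
(mv 1037 (cons (fin 972 3 972)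
(fin 976 2 973)))))))
(mv 973 (cons (fin 974 3 973)
(mv 1037 (cons (fin 972 3 972)
(mv 1105 (cons (fin 1104 0 1037)
(fin 1106 0 1038))))))))
(cons (mv 977 (cons (fin 978 2 974)
(mv 976 (cons (fin 1037 2 973)
(mv 1101 (cons (fin 1102 1 1037)
(mv 1105 (cons (fin 1106 0 1038)
(mv 912 (cons (fin 1169 7 912)
(fin 848 4 848)))))))))))
(mv 973 (cons (fin 974 3 973)
(mv 977 (cons (fin 978 2 974)
(mv 1101 (cons (fin 1102 1 1037)
(mv 1105 (cons (fin 1106 0 1038)
(mv 1169 (cons (mv 976 (cons (fin 912 7 912)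
(fin 1233 7 976)))
(cons (mv 1234 (cons (fin 1170 4 977)
(mv 1233 (cons (fin 1298 4 1041)
(mv 1296 (cons (fin 1232 5 1040)
(mv 1297 (cons (fin 1104 7 1040)
(fin 1360 5 1104)))))))))
(mv 912 (cons (fin 976 7 912)
(mv 913 (cons (fin 848 7 848)
(mv 849 (cons (fin 1104 5 848)
(mv 850 (cons (fin 786 6 785)
(fin 914 6 849)))))))))))))))))))))))
(cons (mv 1041 (cons (cons (mv 973 (cons (fin 974 3 973)
(mv 977 (cons (fin 978 2 974)
(mv 1037 (cons (fin 972 3 972)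
(fin 976 2 973)))))))
(mv 973 (cons (fin 974 3 973)
(mv 1037 (cons (fin 972 3 972)
(mv 1105 (cons (fin 1104 0 1037)
(fin 1106 0 1038))))))))
(cons (mv 977 (cons (fin 978 2 974)
(mv 976 (cons (fin 1037 2 973)
(mv 1101 (cons (fin 1102 1 1037)
(mv 1105 (cons (fin 1106 0 1038)
(mv 912 (cons (fin 1169 7 912)
(fin 848 4 848)))))))))))
(mv 973 (cons (fin 974 3 973)
(mv 977 (cons (fin 978 2 974)
(mv 1101 (cons (fin 1102 1 1037)
(mv 1105 (cons (fin 1106 0 1038)
(mv 1169 (cons (mv 976 (cons (fin 912 7 912)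
(fin 1233 7 976)))
(mv 1168 (cons (fin 1232 5 976)
(mv 1104 (cons (fin 913 5 912)
(mv 1170 (cons (fin 1234 4 977)
(mv 1171 (cons (fin 1103 3 1103)
(fin 1172 3 1104))))))))))))))))))))))
(mv 1041 (cons (cons (mv 973 (cons (fin 974 3 973)
(mv 977 (cons (fin 978 2 974)
(mv 1037 (cons (fin 972 3 972)
(fin 976 2 973)))))))
(mv 973 (cons (fin 974 3 973)
(mv 1037 (cons (fin 972 3 972)
(mv 1105 (cons (fin 1104 0 1037)
(fin 1106 0 1038))))))))
(cons (mv 977 (cons (fin 978 2 974)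
(mv 976 (cons (fin 1037 2 973)
(mv 1101 (cons (fin 1102 1 1037)
(mv 1105 (cons (fin 1106 0 1038)
(mv 912 (cons (fin 1169 7 912)
(fin 848 4 848)))))))))))
(mv 973 (cons (fin 974 3 973)
(mv 977 (cons (fin 978 2 974)
(mv 1102 (cons (fin 1101 1 1037)
(mv 1105 (cons (fin 1106 0 1038)
(mv 1169 (cons (mv 976 (cons (fin 912 7 912)
(fin 1233 7 976)))
(mv 1168 (cons (fin 1232 5 976)
(mv 1170 (cons (fin 1234 4 977)
(mv 1103 (cons (fin 1167 3 1102)
(fin 1104 0 1102)))))))))))))))))))))))))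
def l17 : Lem := ⟨17672042592950510299342161747532428741358160893794450532607270698129752962383966679797774154701950421020191674846877452631289669433532411657536873821582864322832094995237976664601613395680896036318715866521764407099865564676993471100411554418605480722106008602337571462179774064736310031630534868627379729584881664, 1160523219583971943824144869185166985478347896546944340670710602818725043034824031948805106963102717444852724026936085606170936799696935999010378428440319095576167250587711968185108192424416151711561776142038726121428297585713156669285518627683387496118191580412468197334165260393111196296355552553114281255322418501250800766062814452682626725444197877538573025716690407983312470526732335565074250629209930743197719078437816107008, 1160523219583971943824144869185166985478347896546944340670710602818725043034824031948805106963102717444852724026936085606170936799696935999010378428440319095576167250587711968185108192424416151711561776142038726121428297585713156669285518627683387496118191580412468197334165260393111196296355552553114281255322418501250800766062814452682626725444197877538573025716690407983312470526732335565074250629209930743197719078437816107008,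 19, 33⟩
theorem l17_valid : l17.Valid :=
  Lem.valid_of_chk t17 t17_valid [1039, 1040] c17 l17 (by decide +kernel)
end Crest.Agent.SnakyAux
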