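import Crest.Agent.S0047_aux.Checker
import Crest.Agent.S0047_aux.L11
import Crest.Agent.S0047_aux.L12
import Crest.Agent.S0047_aux.L13
import Crest.Agent.S0047_aux.L14
import Crest.Agent.S0047_aux.L15
import Crest.Agent.S0047_aux.L16
import Crest.Agent.S0047_aux.L17
set_option autoImplicit false
set_option maxRecDepth 100000
namespace Crest.Agent.SnakyAux
open Cert
def t18 : Tbl := (Tbl.node (Tbl.node (Tbl.node (Tbl.leaf l11) (Tbl.leaf l15)) (Tbl.node (Tbl.leaf l13) (Tbl.leaf l17))) (Tbl.node (Tbl.node (Tbl.leaf l12) (Tbl.leaf l16)) (Tbl.leaf l14)))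
theorem t18_valid : t18.Valid := (Tbl.valid_node (Tbl.valid_node (Tbl.valid_node (Tbl.valid_leaf l11_valid) (Tbl.valid_leaf l15_valid)) (Tbl.valid_node (Tbl.valid_leaf l13_valid) (Tbl.valid_leaf l17_valid))) (Tbl.valid_node (Tbl.valid_node (Tbl.valid_leaf l12_valid) (Tbl.valid_leaf l16_valid)) (Tbl.valid_leaf l14_valid)))
def c18 : Cert :=
(mv 1039 (cons (cons (cons (cons (mv 1038 (cons (cons (mv 1037 (cons (cons (mv 972 (cons (fin 973 3 972)
(mv 971 (cons (fin 1036 3 971)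
(mv 976 (cons (fin 977 2 973)
(mv 1101 (cons (fin 1100 1 1036)
(mv 1041 (cons (fin 1102 1 1037)
(mv 1105 (cons (fin 1104 0 1037)
(fin 1106 0 1038)))))))))))))
(cons (mv 976 (cons (fin 977 2 973)
(mv 975 (cons (fin 1036 2 972)
(mv 1100 (cons (fin 1101 1 1036)
(mv 1104 (cons (fin 1105 0 1037)
(mv 911 (cons (fin 1168 7 911)
(fin 847 4 847)))))))))))
(mv 972 (cons (fin 973 3 972)
(mv 971 (cons (fin 1036 3 971)
(mv 977 (cons (fin 976 2 973)
(mv 1041 (cons (fin 978 2 974)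
(mv 1105 (cons (fin 1104 0 1037)
(fin 1106 0 1038)))))))))))))
(cons (mv 972 (cons (fin 973 3 972)
(mv 971 (cons (fin 1036 3 971)
(mv 1101 (cons (fin 1100 1 1036)
(mv 1041 (cons (fin 1102 1 1037)
(mv 1105 (cons (fin 1104 0 1037)
(fin 1106 0 1038)))))))))))
(cons (mv 972 (cons (fin 973 3 972)
(mv 971 (cons (fin 1036 3 971)
(mv 977 (cons (fin 976 2 973)
(mv 1041 (cons (fin 978 2 974)
(mv 1101 (cons (fin 1100 1 1036)
(fin 1102 1 1037)))))))))))
(mv 972 (cons (fin 973 3 972)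
(mv 976 (cons (fin 977 2 973)
(mv 1101 (cons (fin 1100 1 1036)
(mv 1041 (cons (fin 1102 1 1037)
(mv 1105 (cons (fin 1104 0 1037)
(fin 1106 0 1038)))))))))))))))
(cons (mv 1041 (cons (cons (mv 973 (cons (fin 974 3 973)
(mv 977 (cons (fin 978 2 974)
(mv 1101 (cons (fin 1102 1 1037)
(mv 1105 (cons (fin 1106 0 1038)
(mv 913 (cons (mv 1104 (cons (fin 849 5 848)
(fin 1168 5 912)))
(cons (mv 848 (cons (fin 912 7 848)
(mv 849 (cons (fin 784 7 784)
(mv 850 (cons (fin 786 6 785)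
(fin 914 6 849)))))))
(mv 848 (cons (fin 912 7 848)
(mv 850 (cons (fin 914 6 849)
(mv 1168 (cons (fin 1104 5 912)
(mv 1169 (cons (fin 1232 5 976)
(mv 1233 (cons (fin 976 7 976)
(mv 1234 (cons (fin 1170 4 977)
(fin 1298 4 1041))))))))))))))))))))))))
(cons (mv 977 (cons (fin 978 2 974)
(mv 1101 (cons (fin 1102 1 1037)
(mv 1105 (cons (fin 1106 0 1038)
(mv 913 (cons (mv 1104 (cons (fin 849 5 848)
(fin 1168 5 912)))
(cons (mv 848 (cons (fin 912 7 848)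
(mv 849 (cons (fin 784 7 784)
(mv 850 (cons (fin 786 6 785)
(fin 914 6 849)))))))
(mv 848 (cons (fin 912 7 848)
(mv 850 (cons (fin 914 6 849)
(mv 1168 (cons (fin 1104 5 912)
(mv 1169 (cons (fin 1232 5 976)
(mv 1233 (cons (fin 976 7 976)
(mv 1234 (cons (fin 1170 4 977)
(fin 1298 4 1041))))))))))))))))))))))
(mv 974 (cons (fin 973 3 973)
(mv 1102 (cons (fin 1101 1 1037)
(mv 1105 (cons (fin 1106 0 1038)
(mv 1166 (cons (mv 975 (cons (fin 911 6 910)
(fin 1230 6 974)))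
(mv 1165 (cons (fin 1229 5 973)
(mv 1103 (cons (fin 1104 1 1101)
(mv 910 (cons (fin 846 4 846)
(fin 1167 4 910)))))))))))))))))
(cons (mv 973 (cons (fin 974 3 973)
(mv 977 (cons (fin 978 2 974)
(mv 1105 (cons (fin 1106 0 1038)
(mv 913 (cons (mv 1104 (cons (fin 849 5 848)
(fin 1168 5 912)))
(cons (mv 848 (cons (fin 912 7 848)
(mv 849 (cons (fin 784 7 784)
(mv 850 (cons (fin 786 6 785)
(fin 914 6 849)))))))
(mv 848 (cons (fin 912 7 848)
(mv 850 (cons (fin 914 6 849)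
(mv 1168 (cons (fin 1104 5 912)
(mv 1169 (cons (fin 1232 5 976)
(mv 1233 (cons (fin 976 7 976)
(mv 1234 (cons (fin 1170 4 977)
(fin 1298 4 1041))))))))))))))))))))))
(cons (mv 974 (cons (fin 973 3 973)
(mv 977 (cons (fin 978 2 974)
(mv 1102 (cons (fin 1101 1 1037)
(mv 910 (cons (cons (mv 1103 (cons (fin 846 4 846)
(fin 1167 4 910)))
(mv 845 (cons (fin 909 7 845)
(mv 781 (cons (fin 846 7 781)
(mv 911 (cons (fin 847 6 846)
(mv 1166 (cons (fin 975 6 910)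
(mv 1167 (cons (fin 1231 4 974)
(mv 1229 (cons (fin 1165 5 973)
(mv 1230 (cons (fin 1293 5 1037)
(mv 1168 (cons (fin 1169 1 1165)
(mv 1104 (cons (fin 1232 6 976)
(mv 913 (cons (fin 849 5 848)
(fin 976 6 912))))))))))))))))))))))
(cons (mv 845 (cons (fin 909 7 845)
(mv 847 (cons (fin 911 6 846)
(mv 1167 (cons (fin 1103 4 910)
(mv 1166 (cons (fin 1231 4 974)
(mv 1229 (cons (fin 1165 5 973)
(mv 1230 (cons (fin 1293 5 1037)
(fin 975 6 974)))))))))))))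
(mv 845 (cons (fin 909 7 845)
(mv 846 (cons (fin 781 7 781)
(fin 1103 4 846))))))))))))))
(mv 973 (cons (fin 974 3 973)
(mv 977 (cons (fin 978 2 974)
(mv 1101 (cons (fin 1102 1 1037)
(mv 1105 (cons (fin 1106 0 1038)
(mv 913 (cons (cons (mv 848 (cons (fin 912 7 848)
(mv 849 (cons (fin 784 7 784)
(mv 850 (cons (fin 786 6 785)
(fin 914 6 849)))))))
(mv 850 (cons (fin 914 6 849)
(mv 849 (cons (fin 786 6 785)
(mv 784 (cons (fin 848 7 784)
(mv 785 (cons (fin 720 7 720)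
(fin 976 5 784))))))))))
(cons (mv 850 (cons (fin 914 6 849)
(mv 849 (cons (fin 786 6 785)
(mv 976 (cons (fin 785 5 784)
(mv 1169 (cons (fin 912 7 912)
(fin 1233 7 976)))))))))
(mv 912 (cons (fin 848 7 848)
(mv 1169 (cons (fin 976 7 912)
(mv 1232 (cons (fin 1168 5 976)
(mv 1233 (cons (fin 1296 5 1040)
(mv 1234 (cons (fin 1170 4 977)
(fin 1298 4 1041))))))))))))))))))))))))))
(mv 1037 (cons (cons (mv 972 (cons (fin 973 3 972)
(mv 976 (cons (fin 977 2 973)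
(mv 1036 (cons (fin 971 3 971)
(fin 975 2 972)))))))
(mv 972 (cons (fin 973 3 972)
(mv 1036 (cons (fin 971 3 971)
(mv 1100 (cons (fin 1099 1 1035)
(fin 1101 1 1036))))))))
(cons (mv 976 (cons (fin 977 2 973)
(mv 975 (cons (fin 1036 2 972)
(mv 1100 (cons (fin 1101 1 1036)
(mv 1104 (cons (fin 1105 0 1037)
(mv 911 (cons (fin 1168 7 911)
(fin 847 4 847)))))))))))
(mv 972 (cons (fin 973 3 972)
(mv 976 (cons (fin 977 2 973)
(mv 1100 (cons (fin 1101 1 1036)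
(mv 1104 (cons (fin 1105 0 1037)
(mv 912 (cons (mv 1103 (cons (fin 848 5 847)
(fin 1167 5 911)))
(cons (mv 847 (cons (fin 911 7 847)
(mv 848 (cons (fin 783 7 783)
(mv 849 (cons (fin 785 6 784)
(fin 913 6 848)))))))
(mv 847 (cons (fin 911 7 847)
(mv 849 (cons (fin 913 6 848)
(mv 1167 (cons (fin 1103 5 911)
(mv 1168 (cons (fin 1231 5 975)
(mv 1232 (cons (fin 975 7 975)
(mv 1233 (cons (fin 1169 4 976)
(fin 1297 4 1040)))))))))))))))))))))))))))))
(cons (cons (mv 1037 (cons (cons (mv 976 (cons (fin 977 2 973)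
(mv 975 (cons (fin 1036 2 972)
(mv 1100 (cons (fin 1101 1 1036)
(mv 1104 (cons (fin 1105 0 1037)
(mv 911 (cons (fin 1168 7 911)
(fin 847 4 847)))))))))))
(mv 976 (cons (fin 977 2 973)
(mv 975 (cons (fin 1036 2 972)
(mv 1101 (cons (fin 1100 1 1036)
(mv 1102 (cons (fin 1041 1 1037)
(mv 911 (cons (fin 847 5 846)
(mv 1166 (cons (fin 1103 5 910)
(fin 974 6 910))))))))))))))
(cons (mv 1100 (cons (fin 1101 1 1036)
(mv 1036 (cons (fin 1099 1 1035)
(mv 1104 (cons (fin 1103 0 1036)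
(fin 1105 0 1037)))))))
(cons (mv 976 (cons (fin 977 2 973)
(mv 975 (cons (fin 1036 2 972)
(mv 1104 (cons (fin 1105 0 1037)
(mv 911 (cons (fin 1168 7 911)
(fin 847 4 847)))))))))
(mv 976 (cons (fin 977 2 973)
(mv 1101 (cons (fin 1100 1 1036)
(mv 1041 (cons (fin 1102 1 1037)
(mv 1105 (cons (fin 1104 0 1037)
(fin 1106 0 1038)))))))))))))
(mv 1037 (cons (cons (mv 972 (cons (fin 973 3 972)
(mv 971 (cons (fin 1036 3 971)
(mv 977 (cons (fin 976 2 973)
(mv 1041 (cons (fin 978 2 974)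
(mv 1105 (cons (fin 1104 0 1037)
(fin 1106 0 1038)))))))))))
(mv 972 (cons (fin 973 3 972)
(mv 1036 (cons (fin 971 3 971)
(mv 1104 (cons (fin 1103 0 1036)
(fin 1105 0 1037))))))))
(cons (mv 972 (cons (fin 973 3 972)
(mv 976 (cons (fin 977 2 973)
(mv 1036 (cons (fin 971 3 971)
(fin 975 2 972)))))))
(cons (mv 976 (cons (fin 977 2 973)
(mv 975 (cons (fin 1036 2 972)
(mv 1104 (cons (fin 1105 0 1037)
(mv 911 (cons (fin 1168 7 911)
(fin 847 4 847)))))))))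
(mv 972 (cons (fin 973 3 972)
(mv 977 (cons (fin 976 2 973)
(mv 1041 (cons (fin 978 2 974)
(mv 1105 (cons (fin 1104 0 1037)
(fin 1106 0 1038))))))))))))))
(cons (mv 1037 (cons (cons (mv 972 (cons (fin 973 3 972)
(mv 971 (cons (fin 1036 3 971)
(mv 1101 (cons (fin 1100 1 1036)
(mv 1041 (cons (fin 1102 1 1037)
(mv 1105 (cons (fin 1104 0 1037)
(fin 1106 0 1038)))))))))))
(mv 1100 (cons (fin 1101 1 1036)
(mv 1036 (cons (fin 1099 1 1035)
(mv 1104 (cons (fin 1103 0 1036)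
(fin 1105 0 1037))))))))
(cons (mv 972 (cons (fin 973 3 972)
(mv 1036 (cons (fin 971 3 971)
(mv 1104 (cons (fin 1103 0 1036)
(fin 1105 0 1037)))))))
(cons (mv 972 (cons (fin 973 3 972)
(mv 1036 (cons (fin 971 3 971)
(mv 1100 (cons (fin 1099 1 1035)
(fin 1101 1 1036)))))))
(mv 972 (cons (fin 973 3 972)
(mv 1101 (cons (fin 1100 1 1036)
(mv 1041 (cons (fin 1102 1 1037)
(mv 1105 (cons (fin 1104 0 1037)
(fin 1106 0 1038)))))))))))))
(mv 1037 (cons (cons (mv 972 (cons (fin 973 3 972)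
(mv 971 (cons (fin 1036 3 971)
(mv 977 (cons (fin 976 2 973)
(mv 1041 (cons (fin 978 2 974)
(mv 1101 (cons (fin 1100 1 1036)
(fin 1102 1 1037)))))))))))
(mv 976 (cons (fin 977 2 973)
(mv 975 (cons (fin 1036 2 972)
(mv 1101 (cons (fin 1100 1 1036)
(mv 1102 (cons (fin 1041 1 1037)
(mv 911 (cons (fin 847 5 846)
(mv 1166 (cons (fin 1103 5 910)
(fin 974 6 910))))))))))))))
(cons (mv 972 (cons (fin 973 3 972)
(mv 976 (cons (fin 977 2 973)
(mv 1036 (cons (fin 971 3 971)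
(fin 975 2 972)))))))
(cons (mv 972 (cons (fin 973 3 972)
(mv 1036 (cons (fin 971 3 971)
(mv 1100 (cons (fin 1099 1 1035)
(fin 1101 1 1036)))))))
(mv 972 (cons (fin 973 3 972)
(mv 977 (cons (fin 976 2 973)
(mv 1041 (cons (fin 978 2 974)
(mv 1101 (cons (fin 1100 1 1036)
(fin 1102 1 1037)))))))))))))))))
(cons (ref 1 0)
(mv 1038 (cons (cons (cons (mv 1041 (cons (cons (mv 973 (cons (fin 974 3 973)
(mv 977 (cons (fin 978 2 974)
(mv 1037 (cons (fin 972 3 972)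
(mv 1101 (cons (fin 1100 1 1036)
(fin 1102 1 1037)))))))))
(mv 973 (cons (fin 974 3 973)
(mv 977 (cons (fin 978 2 974)
(mv 1037 (cons (fin 972 3 972)
(mv 1105 (cons (fin 1104 0 1037)
(fin 1106 0 1038))))))))))
(cons (mv 977 (cons (fin 978 2 974)
(mv 1101 (cons (fin 1102 1 1037)
(mv 1037 (cons (fin 1100 1 1036)
(mv 1105 (cons (fin 1104 0 1037)
(fin 1106 0 1038)))))))))
(cons (mv 973 (cons (fin 974 3 973)
(mv 1037 (cons (fin 972 3 972)
(mv 1101 (cons (fin 1100 1 1036)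
(fin 1102 1 1037)))))))
(mv 973 (cons (fin 974 3 973)
(mv 977 (cons (fin 978 2 974)
(mv 1101 (cons (fin 1102 1 1037)
(mv 1105 (cons (fin 1106 0 1038)
(mv 913 (cons (mv 1104 (cons (fin 849 5 848)
(fin 1168 5 912)))
(cons (mv 848 (cons (fin 912 7 848)
(mv 849 (cons (fin 784 7 784)
(mv 850 (cons (fin 786 6 785)
(fin 914 6 849)))))))
(mv 848 (cons (fin 912 7 848)
(mv 850 (cons (fin 914 6 849)
(mv 1169 (cons (cons (mv 1168 (cons (fin 1104 5 912)
(fin 1232 5 976)))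
(mv 1234 (cons (fin 1170 4 977)
(mv 1233 (cons (fin 1298 4 1041)
(mv 1296 (cons (fin 1232 5 1040)
(mv 1297 (cons (fin 1104 7 1040)
(fin 1360 5 1104))))))))))
(cons (mv 1232 (cons (fin 1168 5 976)
(mv 1233 (cons (fin 1296 5 1040)
(mv 1234 (cons (fin 1170 4 977)
(fin 1298 4 1041)))))))
(mv 1104 (cons (fin 1168 5 912)
(mv 1233 (cons (fin 1297 7 1040)
(mv 1234 (cons (fin 1170 4 977)
(fin 1298 4 1041)))))))))))))))))))))))))))))
(mv 1037 (cons (cons (mv 972 (cons (fin 973 3 972)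
(mv 1036 (cons (fin 971 3 971)
(mv 1100 (cons (fin 1099 1 1035)
(fin 1101 1 1036)))))))
(mv 1100 (cons (fin 1101 1 1036)
(mv 1036 (cons (fin 1099 1 1035)
(mv 1104 (cons (fin 1103 0 1036)
(fin 1105 0 1037))))))))
(cons (mv 972 (cons (fin 973 3 972)
(mv 1036 (cons (fin 971 3 971)
(mv 1104 (cons (fin 1103 0 1036)
(fin 1105 0 1037)))))))
(mv 972 (cons (fin 973 3 972)
(mv 1101 (cons (fin 1100 1 1036)
(mv 1104 (cons (fin 1105 0 1037)
(mv 1165 (cons (cons (mv 974 (cons (fin 1229 6 973)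
(mv 910 (cons (fin 846 5 845)
(fin 1102 5 909)))))
(mv 1102 (cons (cons (mv 910 (cons (fin 974 5 909)
(mv 1103 (cons (fin 1164 1 1100)
(mv 1168 (cons (fin 1169 0 1101)
(mv 975 (cons (fin 1232 7 975)
(fin 911 4 911)))))))))
(mv 974 (cons (fin 910 5 909)
(mv 1166 (cons (mv 975 (cons (fin 911 6 910)
(fin 1230 6 974)))
(cons (mv 1230 (cons (fin 1294 7 1037)
(mv 1231 (cons (fin 1167 4 974)
(fin 1295 4 1038)))))
(mv 975 (cons (fin 911 6 910)
(mv 1167 (cons (fin 1231 4 974)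
(mv 1168 (cons (fin 1169 3 1101)
(fin 1232 7 975)))))))))))))
(cons (mv 1103 (cons (fin 1164 1 1100)
(mv 1168 (cons (fin 1169 0 1101)
(mv 975 (cons (fin 1232 7 975)
(fin 911 4 911)))))))
(cons (mv 910 (cons (fin 974 5 909)
(mv 1103 (cons (fin 1164 1 1100)
(mv 1168 (cons (fin 1169 0 1101)
(mv 1232 (cons (fin 1296 7 1039)
(mv 1231 (cons (fin 1295 5 1039)
(mv 1233 (cons (fin 1297 4 1040)
(mv 1166 (cons (fin 1230 3 1165)
(fin 1167 0 1165)))))))))))))))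
(mv 910 (cons (fin 974 5 909)
(mv 1164 (cons (fin 1103 1 1100)
(mv 1163 (cons (fin 1162 2 1098)
(mv 1166 (cons (mv 1230 (cons (fin 1231 0 1163)
(fin 1294 7 1037)))
(mv 1099 (cons (fin 1098 3 1098)
(mv 1227 (cons (fin 1226 1 1162)
(mv 1228 (cons (fin 1167 1 1163)
(mv 1035 (cons (fin 971 4 971)
(fin 1292 4 1035))))))))))))))))))))))
(cons (mv 1229 (cons (cons (mv 1102 (cons (fin 1293 6 1037)
(mv 1103 (cons (fin 1164 1 1100)
(mv 1168 (cons (fin 1169 0 1101)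
(mv 975 (cons (fin 1232 7 975)
(fin 911 4 911)))))))))
(mv 1228 (cons (fin 1292 5 1036)
(mv 1230 (cons (fin 1294 4 1037)
(mv 1231 (cons (mv 1164 (cons (fin 1163 3 1163)
(fin 1232 3 1164)))
(mv 1167 (cons (fin 1168 2 1164)
(mv 1295 (cons (fin 1296 0 1228)
(fin 1103 6 1039))))))))))))
(cons (mv 1102 (cons (fin 1293 6 1037)
(mv 1103 (cons (fin 1164 1 1100)
(mv 1228 (cons (fin 1292 5 1036)
(mv 1230 (cons (fin 1294 4 1037)
(mv 1166 (cons (fin 975 6 974)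
(mv 1227 (cons (fin 1226 2 1162)
(fin 1167 2 1163)))))))))))))
(cons (mv 1102 (cons (fin 1293 6 1037)
(mv 1228 (cons (fin 1292 5 1036)
(mv 1230 (cons (fin 1294 4 1037)
(mv 975 (cons (fin 1166 6 974)
(mv 911 (cons (fin 847 5 846)
(mv 1168 (cons (fin 1232 7 975)
(fin 1103 4 911)))))))))))))
(mv 1102 (cons (fin 1293 6 1037)
(mv 1228 (cons (fin 1292 5 1036)
(mv 1230 (cons (fin 1294 4 1037)
(mv 975 (cons (fin 1166 6 974)
(mv 847 (cons (fin 911 5 846)
(mv 1232 (cons (fin 1168 7 975)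
(mv 1231 (cons (fin 1164 3 1164)
(mv 1296 (cons (fin 1295 0 1228)
(fin 1297 0 1229)))))))))))))))))))))
(mv 1229 (cons (fin 974 6 973)
(mv 1230 (cons (fin 1294 4 1037)
(mv 1292 (cons (fin 1228 5 1036)
(mv 1293 (cons (fin 1356 5 1100)
(mv 1232 (cons (fin 1231 1 1228)
(mv 1168 (cons (fin 975 7 975)
(mv 1233 (cons (fin 1297 4 1040)
(mv 1166 (cons (fin 1167 0 1165)
(mv 1296 (cons (fin 1103 7 1039)
(mv 1357 (cons (fin 1421 6 1165)
(mv 1358 (cons (fin 1422 4 1165)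
(mv 1359 (cons (fin 1360 3 1292)
(fin 1295 5 1103))))))))))))))))))))))))))))))))))))))
(cons (mv 1041 (cons (cons (mv 973 (cons (fin 974 3 973)
(mv 977 (cons (fin 978 2 974)
(mv 1101 (cons (fin 1102 1 1037)
(mv 1105 (cons (fin 1106 0 1038)
(mv 913 (cons (mv 1104 (cons (fin 849 5 848)
(fin 1168 5 912)))
(cons (mv 848 (cons (fin 912 7 848)
(mv 849 (cons (fin 784 7 784)
(mv 850 (cons (fin 786 6 785)
(fin 914 6 849)))))))
(mv 848 (cons (fin 912 7 848)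
(mv 850 (cons (fin 914 6 849)
(mv 1169 (cons (cons (mv 1168 (cons (fin 1104 5 912)
(fin 1232 5 976)))
(mv 1234 (cons (fin 1170 4 977)
(mv 1233 (cons (fin 1298 4 1041)
(mv 1296 (cons (fin 1232 5 1040)
(mv 1297 (cons (fin 1104 7 1040)
(fin 1360 5 1104))))))))))
(cons (mv 1232 (cons (fin 1168 5 976)
(mv 1233 (cons (fin 1296 5 1040)
(mv 1234 (cons (fin 1170 4 977)
(fin 1298 4 1041)))))))
(mv 1104 (cons (fin 1168 5 912)
(mv 1233 (cons (fin 1297 7 1040)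
(mv 1234 (cons (fin 1170 4 977)
(fin 1298 4 1041)))))))))))))))))))))))))
(mv 973 (cons (fin 974 3 973)
(mv 977 (cons (fin 978 2 974)
(mv 1105 (cons (fin 1106 0 1038)
(mv 913 (cons (mv 1104 (cons (fin 849 5 848)
(fin 1168 5 912)))
(cons (mv 848 (cons (fin 912 7 848)
(mv 849 (cons (fin 784 7 784)
(mv 850 (cons (fin 786 6 785)
(fin 914 6 849)))))))
(mv 848 (cons (fin 912 7 848)
(mv 850 (cons (fin 914 6 849)
(mv 1169 (cons (cons (mv 1168 (cons (fin 1104 5 912)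
(fin 1232 5 976)))
(mv 1234 (cons (fin 1170 4 977)
(mv 1233 (cons (fin 1298 4 1041)
(mv 1296 (cons (fin 1232 5 1040)
(mv 1297 (cons (fin 1104 7 1040)
(fin 1360 5 1104))))))))))
(cons (mv 1232 (cons (fin 1168 5 976)
(mv 1233 (cons (fin 1296 5 1040)
(mv 1234 (cons (fin 1170 4 977)
(fin 1298 4 1041)))))))
(mv 1104 (cons (fin 1168 5 912)
(mv 1233 (cons (fin 1297 7 1040)
(mv 1234 (cons (fin 1170 4 977)
(fin 1298 4 1041))))))))))))))))))))))))
(cons (mv 977 (cons (fin 978 2 974)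
(mv 1101 (cons (fin 1102 1 1037)
(mv 1105 (cons (fin 1106 0 1038)
(mv 913 (cons (mv 1104 (cons (fin 849 5 848)
(fin 1168 5 912)))
(cons (mv 848 (cons (fin 912 7 848)
(mv 849 (cons (fin 784 7 784)
(mv 850 (cons (fin 786 6 785)
(fin 914 6 849)))))))
(mv 848 (cons (fin 912 7 848)
(mv 850 (cons (fin 914 6 849)
(mv 1169 (cons (cons (mv 1168 (cons (fin 1104 5 912)
(fin 1232 5 976)))
(mv 1234 (cons (fin 1170 4 977)
(mv 1233 (cons (fin 1298 4 1041)
(mv 1296 (cons (fin 1232 5 1040)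
(mv 1297 (cons (fin 1104 7 1040)
(fin 1360 5 1104))))))))))
(cons (mv 1232 (cons (fin 1168 5 976)
(mv 1233 (cons (fin 1296 5 1040)
(mv 1234 (cons (fin 1170 4 977)
(fin 1298 4 1041)))))))
(mv 1104 (cons (fin 1168 5 912)
(mv 1233 (cons (fin 1297 7 1040)
(mv 1234 (cons (fin 1170 4 977)
(fin 1298 4 1041)))))))))))))))))))))))
(cons (mv 974 (cons (fin 973 3 973)
(mv 977 (cons (fin 978 2 974)
(mv 1102 (cons (fin 1101 1 1037)
(mv 1166 (cons (mv 975 (cons (fin 911 6 910)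
(fin 1230 6 974)))
(cons (mv 1165 (cons (fin 1229 5 973)
(mv 1167 (cons (fin 1231 4 974)
(mv 910 (cons (fin 1103 4 910)
(mv 845 (cons (fin 909 7 845)
(mv 846 (cons (fin 781 7 781)
(mv 847 (cons (fin 783 6 782)
(fin 911 6 846)))))))))))))
(mv 975 (cons (fin 1230 6 974)
(mv 1165 (cons (fin 1229 5 973)
(mv 1167 (cons (fin 1231 4 974)
(mv 910 (cons (fin 1103 7 910)
(mv 845 (cons (fin 909 7 845)
(mv 846 (cons (fin 781 7 781)
(fin 782 4 782))))))))))))))))))))))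
(mv 974 (cons (fin 973 3 973)
(mv 1102 (cons (fin 1101 1 1037)
(mv 1105 (cons (fin 1106 0 1038)
(mv 1166 (cons (mv 975 (cons (fin 911 6 910)
(fin 1230 6 974)))
(mv 1165 (cons (fin 1229 5 973)
(mv 1103 (cons (fin 1104 1 1101)
(mv 910 (cons (fin 846 4 846)
(fin 1167 4 910)))))))))))))))))))
(mv 1037 (cons (cons (mv 972 (cons (fin 973 3 972)
(mv 1036 (cons (fin 971 3 971)
(mv 1104 (cons (fin 1103 0 1036)
(fin 1105 0 1037)))))))
(mv 1104 (cons (fin 1105 0 1037)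
(mv 1036 (cons (fin 1103 0 1036)
(mv 971 (cons (fin 972 3 971)
(mv 1035 (cons (fin 970 3 970)
(mv 1099 (cons (fin 1098 1 1034)
(fin 1100 1 1035))))))))))))
(cons (mv 973 (cons (fin 972 3 972)
(mv 974 (cons (fin 1041 3 973)
(mv 1102 (cons (mv 909 (cons (fin 1166 7 909)
(fin 845 4 845)))
(cons (mv 909 (cons (fin 845 4 845)
(mv 910 (cons (mv 846 (cons (fin 782 5 781)
(fin 1103 4 846)))
(cons (mv 911 (cons (fin 847 6 846)
(mv 912 (cons (fin 913 1 909)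
(mv 848 (cons (fin 849 2 845)
(mv 1103 (cons (fin 975 6 847)
(fin 1167 4 910)))))))))
(mv 846 (cons (fin 782 5 781)
(mv 847 (cons (fin 783 6 782)
(fin 911 6 846))))))))))
(mv 1166 (cons (fin 1230 7 973)
(mv 911 (cons (fin 975 6 910)
(mv 910 (cons (fin 847 6 846)
(mv 846 (cons (fin 782 5 781)
(fin 1103 4 846))))))))))))))))
(cons (mv 1104 (cons (fin 1105 0 1037)
(mv 1036 (cons (fin 1103 0 1036)
(mv 1099 (cons (fin 1100 1 1035)
(mv 1035 (cons (fin 1098 1 1034)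
(mv 970 (cons (fin 971 3 970)
(mv 974 (cons (fin 975 2 971)
(mv 973 (cons (fin 1041 3 973)
(fin 1034 2 970)))))))))))))))
(mv 973 (cons (fin 972 3 972)
(mv 1041 (cons (fin 974 3 973)
(mv 1105 (cons (fin 1104 0 1037)
(fin 1106 0 1038)))))))))))))
(cons (cons (mv 1037 (cons (cons (mv 1100 (cons (fin 1101 1 1036)
(mv 1036 (cons (fin 1099 1 1035)
(mv 1104 (cons (fin 1103 0 1036)
(fin 1105 0 1037)))))))
(mv 1104 (cons (fin 1105 0 1037)
(mv 1036 (cons (fin 1103 0 1036)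
(mv 971 (cons (fin 972 3 971)
(mv 1035 (cons (fin 970 3 970)
(mv 1099 (cons (fin 1098 1 1034)
(fin 1100 1 1035))))))))))))
(cons (mv 1101 (cons (fin 1100 1 1036)
(mv 1102 (cons (fin 1041 1 1037)
(mv 974 (cons (mv 910 (cons (fin 846 5 845)
(fin 1165 5 909)))
(cons (mv 1165 (cons (fin 1229 6 973)
(mv 1166 (cons (mv 975 (cons (fin 911 6 910)
(fin 1230 6 974)))
(cons (mv 975 (cons (fin 911 6 910)
(mv 1035 (cons (fin 1036 2 971)
(mv 1167 (cons (fin 1231 4 974)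
(mv 1168 (cons (fin 1169 3 1101)
(mv 1232 (cons (fin 1233 0 1165)
(fin 1103 4 975)))))))))))
(mv 1230 (cons (fin 1294 7 1037)
(mv 1231 (cons (fin 1167 4 974)
(fin 1295 4 1038))))))))))
(mv 910 (cons (fin 846 5 845)
(mv 845 (cons (fin 909 7 845)
(mv 847 (cons (fin 911 6 846)
(mv 1167 (cons (fin 1103 4 910)
(mv 1166 (cons (fin 1231 4 974)
(mv 1230 (cons (fin 1294 7 1037)
(fin 975 6 974))))))))))))))))))))
(cons (mv 1104 (cons (fin 1105 0 1037)
(mv 1103 (cons (fin 1036 0 1036)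
(mv 975 (cons (mv 911 (cons (fin 847 4 847)
(fin 1168 4 911)))
(cons (mv 1168 (cons (fin 1232 7 975)
(mv 1167 (cons (mv 974 (cons (fin 910 7 910)
(fin 1231 7 974)))
(cons (mv 974 (cons (fin 910 7 910)
(mv 1166 (cons (fin 1230 5 974)
(mv 1165 (cons (fin 1164 2 1100)
(mv 1229 (cons (fin 1228 1 1164)
(fin 1102 5 973)))))))))
(mv 1230 (cons (fin 1166 5 974)
(mv 1231 (cons (fin 1294 5 1038)
(fin 1295 6 1039))))))))))
(mv 911 (cons (fin 847 4 847)
(mv 846 (cons (fin 910 7 846)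
(mv 848 (cons (fin 912 6 847)
(mv 1102 (cons (fin 1166 5 910)
(mv 1101 (cons (fin 1041 1 1037)
(mv 1165 (cons (fin 1164 1 1100)
(mv 1229 (cons (fin 974 6 973)
(fin 1293 6 1037))))))))))))))))))))))
(mv 1101 (cons (fin 1100 1 1036)
(mv 1041 (cons (fin 1102 1 1037)
(mv 1105 (cons (fin 1104 0 1037)
(fin 1106 0 1038)))))))))))
(mv 1037 (cons (cons (mv 972 (cons (fin 973 3 972)
(mv 1036 (cons (fin 971 3 971)
(mv 1100 (cons (fin 1099 1 1035)
(fin 1101 1 1036)))))))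
(cons (mv 972 (cons (fin 973 3 972)
(mv 1036 (cons (fin 971 3 971)
(mv 1099 (cons (fin 1100 1 1035)
(mv 1035 (cons (fin 1098 1 1034)
(mv 1103 (cons (fin 1102 0 1035)
(fin 1104 0 1036)))))))))))
(mv 1100 (cons (fin 1101 1 1036)
(mv 1036 (cons (fin 1099 1 1035)
(mv 971 (cons (fin 972 3 971)
(mv 1035 (cons (fin 970 3 970)
(mv 1103 (cons (fin 1102 0 1035)
(fin 1104 0 1036)))))))))))))
(cons (mv 1100 (cons (fin 1101 1 1036)
(mv 1036 (cons (fin 1099 1 1035)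
(mv 1103 (cons (fin 1104 0 1036)
(mv 1035 (cons (fin 1102 0 1035)
(mv 970 (cons (fin 971 3 970)
(mv 974 (cons (fin 975 2 971)
(mv 973 (cons (fin 1041 3 973)
(fin 1034 2 970)))))))))))))))
(cons (mv 972 (cons (fin 973 3 972)
(mv 1036 (cons (fin 971 3 971)
(mv 1103 (cons (fin 1104 0 1036)
(mv 1035 (cons (fin 1102 0 1035)
(mv 846 (cons (cons (mv 974 (cons (fin 975 2 971)
(fin 910 4 846)))
(mv 1099 (cons (fin 1098 1 1034)
(mv 844 (cons (fin 908 5 843)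
(mv 1163 (cons (fin 1227 6 971)
(mv 911 (cons (cons (mv 910 (cons (fin 975 7 846)
(mv 845 (cons (fin 843 0 843)
(mv 912 (cons (fin 909 3 844)
(fin 913 3 845)))))))
(mv 845 (cons (cons (mv 843 (cons (fin 910 0 843)
(mv 778 (cons (fin 779 3 778)
(mv 777 (cons (fin 842 3 777)
(mv 783 (cons (fin 782 2 779)
(mv 847 (cons (fin 784 2 780)
(fin 912 0 844)))))))))))
(mv 847 (cons (fin 912 0 844)
(mv 780 (cons (fin 779 3 779)
(mv 784 (cons (fin 783 2 780)
(mv 848 (cons (fin 781 3 780)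
(fin 785 2 781))))))))))
(cons (mv 843 (cons (fin 910 0 843)
(mv 778 (cons (fin 779 3 778)
(mv 782 (cons (fin 783 2 779)
(mv 842 (cons (fin 777 3 777)
(fin 781 2 778)))))))))
(cons (mv 843 (cons (fin 910 0 843)
(mv 778 (cons (fin 779 3 778)
(mv 842 (cons (fin 777 3 777)
(mv 906 (cons (fin 905 1 841)
(fin 907 1 842)))))))))
(mv 843 (cons (fin 910 0 843)
(mv 782 (cons (fin 783 2 779)
(mv 781 (cons (fin 842 2 778)
(mv 847 (cons (fin 912 0 844)
(mv 848 (cons (fin 780 3 780)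
(fin 849 3 781))))))))))))))))
(cons (mv 847 (cons (cons (mv 782 (cons (fin 975 7 782)
(mv 654 (cons (fin 718 4 654)
(mv 845 (cons (fin 912 0 844)
(mv 783 (cons (fin 843 2 779)
(fin 784 2 780)))))))))
(cons (mv 975 (cons (fin 782 7 782)
(mv 848 (cons (fin 784 6 783)
(fin 912 6 847)))))
(mv 845 (cons (fin 912 0 844)
(mv 779 (cons (fin 780 3 779)
(mv 783 (cons (fin 784 2 780)
(mv 843 (cons (fin 778 3 778)
(fin 782 2 779)))))))))))
(cons (mv 975 (cons (fin 782 7 782)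
(mv 784 (cons (fin 848 6 783)
(mv 783 (cons (fin 845 2 780)
(fin 720 6 719)))))))
(cons (mv 845 (cons (fin 912 0 844)
(mv 779 (cons (fin 780 3 779)
(mv 778 (cons (fin 843 3 778)
(mv 784 (cons (fin 783 2 780)
(mv 848 (cons (fin 785 2 781)
(fin 975 6 783)))))))))))
(mv 782 (cons (fin 975 7 782)
(mv 654 (cons (fin 718 4 654)
(mv 845 (cons (fin 912 0 844)
(mv 779 (cons (fin 780 3 779)
(mv 843 (cons (fin 778 3 778)
(fin 783 2 779)))))))))))))))
(cons (mv 975 (cons (fin 910 7 846)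
(mv 847 (cons (fin 782 7 782)
(mv 848 (cons (fin 784 6 783)
(fin 912 6 847)))))))
(mv 975 (cons (fin 910 7 846)
(mv 847 (cons (fin 782 7 782)
(mv 784 (cons (fin 848 6 783)
(mv 783 (cons (fin 845 2 780)
(fin 720 6 719))))))))))))))))))))
(cons (mv 975 (cons (fin 974 2 971)
(mv 847 (cons (cons (mv 911 (cons (fin 782 7 782)
(mv 848 (cons (fin 784 6 783)
(fin 912 6 847)))))
(mv 1099 (cons (fin 1098 1 1034)
(mv 844 (cons (fin 908 5 843)
(mv 1163 (cons (fin 1227 6 971)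
(mv 845 (cons (cons (mv 779 (cons (fin 780 3 779)
(mv 783 (cons (fin 784 2 780)
(mv 843 (cons (fin 778 3 778)
(fin 782 2 779)))))))
(mv 783 (cons (fin 784 2 780)
(mv 843 (cons (fin 782 2 779)
(mv 778 (cons (fin 779 3 778)
(mv 842 (cons (fin 777 3 777)
(mv 906 (cons (fin 905 1 841)
(fin 907 1 842))))))))))))
(cons (mv 780 (cons (fin 779 3 779)
(mv 848 (cons (fin 781 3 780)
(mv 785 (cons (fin 784 2 781)
(mv 849 (cons (fin 786 2 782)
(mv 913 (cons (fin 912 0 845)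
(fin 914 0 846)))))))))))
(cons (mv 784 (cons (fin 783 2 780)
(mv 848 (cons (fin 785 2 781)
(mv 781 (cons (fin 780 3 780)
(mv 849 (cons (fin 782 3 781)
(mv 913 (cons (fin 912 0 845)
(fin 914 0 846)))))))))))
(mv 779 (cons (fin 780 3 779)
(mv 843 (cons (fin 778 3 778)
(mv 782 (cons (fin 783 2 779)
(mv 842 (cons (fin 781 2 778)
(mv 906 (cons (fin 905 1 841)
(fin 907 1 842))))))))))))))))))))))
(cons (mv 1099 (cons (fin 1098 1 1034)
(mv 908 (cons (fin 844 5 843)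
(mv 1163 (cons (fin 1227 6 971)
(mv 848 (cons (cons (mv 911 (cons (fin 784 6 783)
(fin 912 6 847)))
(mv 845 (cons (fin 909 1 844)
(mv 780 (cons (fin 781 3 780)
(mv 785 (cons (fin 784 2 781)
(mv 849 (cons (fin 786 2 782)
(mv 913 (cons (fin 912 0 845)
(fin 914 0 846))))))))))))
(cons (mv 845 (cons (fin 909 1 844)
(mv 912 (cons (fin 913 0 845)
(fin 911 6 847)))))
(mv 784 (cons (fin 911 6 783)
(mv 845 (cons (fin 909 1 844)
(fin 785 2 781))))))))))))))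
(cons (mv 911 (cons (fin 782 7 782)
(mv 844 (cons (mv 908 (cons (fin 1099 5 843)
(fin 1101 4 844)))
(cons (mv 845 (cons (fin 912 0 844)
(mv 779 (cons (fin 780 3 779)
(mv 843 (cons (fin 778 3 778)
(mv 906 (cons (fin 907 1 842)
(mv 842 (cons (fin 905 1 841)
(mv 1034 (cons (fin 970 6 778)
(mv 1098 (cons (fin 1097 1 1033)
(fin 1099 1 1034)))))))))))))))
(mv 845 (cons (fin 912 0 844)
(mv 908 (cons (fin 907 1 843)
(fin 781 6 780))))))))))
(mv 911 (cons (fin 782 7 782)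
(mv 784 (cons (fin 848 6 783)
(mv 783 (cons (fin 720 6 719)
(mv 785 (cons (fin 786 1 782)
(mv 844 (cons (fin 845 2 780)
(mv 908 (cons (fin 1099 5 843)
(fin 1101 4 844)))))))))))))))))))
(mv 910 (cons (fin 974 4 846)
(mv 1098 (cons (fin 1099 1 1034)
(mv 1034 (cons (fin 1097 1 1033)
(mv 970 (cons (fin 969 3 969)
(mv 844 (cons (cons (mv 908 (cons (fin 1101 4 844)
(mv 779 (cons (fin 843 7 779)
(mv 715 (cons (fin 780 7 715)
(mv 845 (cons (fin 781 6 780)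
(mv 907 (cons (fin 847 1 843)
(mv 906 (cons (fin 905 2 841)
(fin 909 2 842)))))))))))))
(cons (mv 843 (cons (cons (mv 845 (cons (fin 911 0 843)
(mv 778 (cons (fin 779 3 778)
(mv 842 (cons (fin 777 3 777)
(fin 909 0 842)))))))
(mv 906 (cons (fin 907 6 842)
(mv 841 (cons (fin 905 7 841)
(mv 842 (cons (fin 777 7 777)
(fin 779 6 778))))))))
(cons (mv 845 (cons (fin 911 0 843)
(mv 779 (cons (fin 778 3 778)
(mv 783 (cons (fin 782 2 779)
(mv 847 (cons (fin 780 3 779)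
(fin 784 2 780)))))))))
(mv 845 (cons (fin 911 0 843)
(mv 782 (cons (fin 783 2 779)
(mv 842 (cons (fin 781 2 778)
(fin 909 0 842))))))))))
(mv 908 (cons (fin 1101 4 844)
(mv 845 (cons (fin 781 6 780)
(mv 847 (cons (fin 907 1 843)
(mv 779 (cons (fin 780 3 779)
(mv 784 (cons (fin 783 2 780)
(mv 848 (cons (fin 909 1 844)
(fin 785 2 781)))))))))))))))
(cons (mv 908 (cons (fin 1101 4 844)
(mv 843 (cons (fin 779 7 779)
(mv 906 (cons (fin 907 6 842)
(mv 841 (cons (fin 905 7 841)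
(mv 842 (cons (fin 909 0 841)
(fin 777 7 777)))))))))))
(cons (mv 908 (cons (fin 1101 4 844)
(mv 845 (cons (fin 781 6 780)
(mv 843 (cons (fin 911 0 843)
(mv 907 (cons (fin 906 1 842)
(fin 847 1 843)))))))))
(mv 908 (cons (fin 1101 4 844)
(mv 779 (cons (fin 843 7 779)
(mv 780 (cons (fin 715 7 715)
(mv 781 (cons (fin 717 6 716)
(fin 845 6 780))))))))))))))))))))))))))))))))
(mv 973 (cons (fin 972 3 972)
(mv 974 (cons (fin 1041 3 973)
(mv 1101 (cons (fin 1100 1 1036)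
(mv 910 (cons (fin 846 5 845)
(fin 1165 6 909))))))))))))))
(cons (mv 1037 (cons (mv 972 (cons (fin 973 3 972)
(mv 1036 (cons (fin 971 3 971)
(mv 1100 (cons (fin 1099 1 1035)
(fin 1101 1 1036)))))))
(cons (mv 1101 (cons (fin 1100 1 1036)
(mv 1102 (cons (fin 1041 1 1037)
(mv 974 (cons (mv 910 (cons (fin 846 5 845)
(fin 1165 5 909)))
(cons (mv 1165 (cons (fin 1229 6 973)
(mv 1166 (cons (mv 975 (cons (fin 911 6 910)
(fin 1230 6 974)))
(cons (mv 975 (cons (fin 911 6 910)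
(mv 1035 (cons (fin 1036 2 971)
(mv 1167 (cons (fin 1231 4 974)
(mv 1168 (cons (fin 1169 3 1101)
(mv 1232 (cons (fin 1233 0 1165)
(fin 1103 4 975)))))))))))
(mv 1230 (cons (fin 1294 7 1037)
(mv 1231 (cons (fin 1167 4 974)
(fin 1295 4 1038))))))))))
(mv 910 (cons (fin 846 5 845)
(mv 845 (cons (fin 909 7 845)
(mv 847 (cons (fin 911 6 846)
(mv 1167 (cons (fin 1103 4 910)
(mv 1166 (cons (fin 1231 4 974)
(mv 1230 (cons (fin 1294 7 1037)
(fin 975 6 974))))))))))))))))))))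
(mv 973 (cons (fin 972 3 972)
(mv 974 (cons (fin 1041 3 973)
(mv 1102 (cons (mv 909 (cons (fin 1166 7 909)
(fin 845 4 845)))
(cons (mv 909 (cons (fin 845 4 845)
(mv 910 (cons (mv 846 (cons (fin 782 5 781)
(fin 1103 4 846)))
(cons (mv 911 (cons (fin 847 6 846)
(mv 912 (cons (fin 913 1 909)
(mv 848 (cons (fin 849 2 845)
(mv 1103 (cons (fin 975 6 847)
(fin 1167 4 910)))))))))
(mv 846 (cons (fin 782 5 781)
(mv 847 (cons (fin 783 6 782)
(fin 911 6 846))))))))))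
(mv 1166 (cons (fin 1230 7 973)
(mv 911 (cons (fin 975 6 910)
(mv 910 (cons (fin 847 6 846)
(mv 846 (cons (fin 782 5 781)
(fin 1103 4 846)))))))))))))))))))
(cons (mv 1037 (cons (cons (mv 972 (cons (fin 973 3 972)
(mv 1036 (cons (fin 971 3 971)
(mv 1100 (cons (fin 1099 1 1035)
(fin 1101 1 1036)))))))
(mv 1100 (cons (fin 1101 1 1036)
(mv 1036 (cons (fin 1099 1 1035)
(mv 1104 (cons (fin 1103 0 1036)
(fin 1105 0 1037))))))))
(cons (mv 972 (cons (fin 973 3 972)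
(mv 1036 (cons (fin 971 3 971)
(mv 1104 (cons (fin 1103 0 1036)
(fin 1105 0 1037)))))))
(mv 973 (cons (fin 972 3 972)
(mv 974 (cons (fin 1041 3 973)
(mv 1101 (cons (fin 1100 1 1036)
(mv 910 (cons (fin 846 5 845)
(fin 1165 6 909))))))))))))
(mv 1037 (cons (cons (mv 972 (cons (fin 973 3 972)
(mv 971 (cons (fin 1036 3 971)
(mv 1101 (cons (fin 1100 1 1036)
(mv 1041 (cons (fin 1102 1 1037)
(mv 1105 (cons (fin 1104 0 1037)
(fin 1106 0 1038)))))))))))
(mv 972 (cons (fin 973 3 972)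
(mv 1036 (cons (fin 971 3 971)
(mv 1100 (cons (fin 1099 1 1035)
(fin 1101 1 1036))))))))
(cons (mv 972 (cons (fin 973 3 972)
(mv 1036 (cons (fin 971 3 971)
(mv 1104 (cons (fin 1103 0 1036)
(fin 1105 0 1037)))))))
(cons (mv 1100 (cons (fin 1101 1 1036)
(mv 1036 (cons (fin 1099 1 1035)
(mv 1104 (cons (fin 1103 0 1036)
(fin 1105 0 1037)))))))
(mv 972 (cons (fin 973 3 972)
(mv 1101 (cons (fin 1100 1 1036)
(mv 1041 (cons (fin 1102 1 1037)
(mv 1105 (cons (fin 1104 0 1037)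
(fin 1106 0 1038))))))))))))))))))))
(cons (cons (mv 1038 (cons (cons (cons (mv 1041 (cons (cons (mv 973 (cons (fin 974 3 973)
(mv 977 (cons (fin 978 2 974)
(mv 1037 (cons (fin 972 3 972)
(fin 976 2 973)))))))
(mv 973 (cons (fin 974 3 973)
(mv 1037 (cons (fin 972 3 972)
(mv 1101 (cons (fin 1100 1 1036)
(fin 1102 1 1037))))))))
(cons (mv 977 (cons (fin 978 2 974)
(mv 976 (cons (fin 1037 2 973)
(mv 1101 (cons (fin 1102 1 1037)
(mv 1105 (cons (fin 1106 0 1038)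
(mv 912 (cons (fin 1169 7 912)
(fin 848 4 848)))))))))))
(mv 973 (cons (fin 974 3 973)
(mv 977 (cons (fin 978 2 974)
(mv 1101 (cons (fin 1102 1 1037)
(mv 1105 (cons (fin 1106 0 1038)
(mv 913 (cons (cons (mv 848 (cons (fin 912 7 848)
(mv 849 (cons (fin 784 7 784)
(mv 850 (cons (fin 786 6 785)
(fin 914 6 849)))))))
(mv 850 (cons (fin 914 6 849)
(mv 849 (cons (fin 786 6 785)
(mv 784 (cons (fin 848 7 784)
(mv 785 (cons (fin 720 7 720)
(fin 976 5 784))))))))))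
(cons (mv 850 (cons (fin 914 6 849)
(mv 849 (cons (fin 786 6 785)
(mv 976 (cons (fin 785 5 784)
(mv 1169 (cons (fin 912 7 912)
(fin 1233 7 976)))))))))
(mv 912 (cons (fin 848 7 848)
(mv 1169 (cons (fin 976 7 912)
(mv 1232 (cons (fin 1168 5 976)
(mv 1233 (cons (fin 1296 5 1040)
(mv 1234 (cons (fin 1170 4 977)
(fin 1298 4 1041)))))))))))))))))))))))))
(mv 1037 (cons (cons (mv 972 (cons (fin 973 3 972)
(mv 976 (cons (fin 977 2 973)
(mv 1036 (cons (fin 971 3 971)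
(fin 975 2 972)))))))
(mv 972 (cons (fin 973 3 972)
(mv 1036 (cons (fin 971 3 971)
(mv 1100 (cons (fin 1099 1 1035)
(fin 1101 1 1036))))))))
(cons (mv 976 (cons (fin 977 2 973)
(mv 1036 (cons (fin 975 2 972)
(mv 1100 (cons (fin 1099 1 1035)
(fin 1101 1 1036)))))))
(mv 973 (cons (fin 972 3 972)
(mv 976 (cons (fin 977 2 973)
(mv 1100 (cons (fin 1101 1 1036)
(mv 909 (cons (cons (mv 845 (cons (fin 1102 4 845)
(mv 780 (cons (fin 844 7 780)
(mv 781 (cons (fin 716 7 716)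
(fin 974 4 781)))))))
(mv 974 (cons (cons (mv 975 (cons (fin 908 3 908)
(mv 912 (cons (fin 913 2 909)
(mv 848 (cons (fin 784 5 783)
(fin 1103 5 847)))))))
(mv 1102 (cons (fin 1166 7 909)
(mv 910 (cons (mv 846 (cons (fin 782 5 781)
(fin 1103 4 846)))
(cons (mv 846 (cons (fin 782 5 781)
(mv 847 (cons (fin 783 6 782)
(fin 911 6 846)))))
(mv 911 (cons (fin 847 6 846)
(mv 912 (cons (fin 913 1 909)
(mv 848 (cons (fin 849 2 845)
(fin 1103 5 847)))))))))))))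
(cons (mv 975 (cons (fin 908 3 908)
(mv 912 (cons (fin 913 2 909)
(mv 848 (cons (fin 784 5 783)
(mv 785 (cons (fin 849 6 784)
(mv 847 (cons (fin 783 7 783)
(mv 1102 (cons (fin 1166 7 909)
(fin 911 5 846)))))))))))))
(mv 908 (cons (fin 975 3 908)
(mv 907 (cons (fin 906 0 906)
(mv 1102 (cons (fin 1166 7 909)
(mv 910 (cons (mv 846 (cons (fin 847 2 843)
(fin 782 5 781)))
(cons (mv 843 (cons (fin 842 3 842)
(mv 911 (cons (fin 844 3 843)
(fin 847 6 846)))))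
(mv 846 (cons (fin 782 5 781)
(fin 1103 4 846))))))))))))))))
(cons (mv 845 (cons (mv 780 (cons (fin 844 7 780)
(mv 781 (cons (fin 716 7 716)
(fin 974 4 781)))))
(cons (mv 780 (cons (fin 844 7 780)
(mv 846 (cons (fin 782 6 781)
(mv 848 (cons (mv 847 (cons (fin 908 1 844)
(mv 912 (cons (fin 913 0 845)
(fin 783 7 783)))))
(cons (mv 912 (cons (fin 1103 5 847)
(mv 784 (cons (fin 975 5 783)
(mv 785 (cons (fin 721 6 720)
(fin 849 6 784)))))))
(mv 847 (cons (fin 908 1 844)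
(mv 784 (cons (fin 785 2 781)
(mv 849 (cons (fin 910 1 845)
(mv 911 (cons (fin 975 6 783)
(mv 914 (cons (fin 913 0 846)
(mv 850 (cons (fin 915 0 847)
(mv 787 (cons (fin 786 2 783)
(mv 851 (cons (fin 783 3 783)
(fin 788 2 784))))))))))))))))))))))))
(mv 781 (cons (fin 974 4 781)
(mv 782 (cons (fin 718 6 717)
(fin 846 6 781))))))))
(cons (mv 845 (cons (fin 1102 4 845)
(mv 780 (cons (fin 844 7 780)
(mv 781 (cons (fin 716 7 716)
(mv 782 (cons (fin 718 6 717)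
(fin 846 6 781)))))))))
(mv 845 (cons (fin 1102 4 845)
(mv 781 (cons (fin 974 4 781)
(mv 782 (cons (fin 718 6 717)
(fin 846 6 781)))))))))))))))))))))
(cons (mv 1041 (cons (cons (mv 973 (cons (fin 974 3 973)
(mv 977 (cons (fin 978 2 974)
(mv 1101 (cons (fin 1102 1 1037)
(mv 1105 (cons (fin 1106 0 1038)
(mv 913 (cons (cons (mv 848 (cons (fin 912 7 848)
(mv 849 (cons (fin 784 7 784)
(mv 850 (cons (fin 786 6 785)
(fin 914 6 849)))))))
(mv 850 (cons (fin 914 6 849)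
(mv 849 (cons (fin 786 6 785)
(mv 784 (cons (fin 848 7 784)
(mv 785 (cons (fin 720 7 720)
(fin 976 5 784))))))))))
(cons (mv 850 (cons (fin 914 6 849)
(mv 849 (cons (fin 786 6 785)
(mv 976 (cons (fin 785 5 784)
(mv 1169 (cons (fin 912 7 912)
(fin 1233 7 976)))))))))
(mv 912 (cons (fin 848 7 848)
(mv 1169 (cons (fin 976 7 912)
(mv 1232 (cons (fin 1168 5 976)
(mv 1233 (cons (fin 1296 5 1040)
(mv 1234 (cons (fin 1170 4 977)
(fin 1298 4 1041))))))))))))))))))))))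
(mv 977 (cons (fin 978 2 974)
(mv 1101 (cons (fin 1102 1 1037)
(mv 1105 (cons (fin 1106 0 1038)
(mv 1169 (cons (mv 976 (cons (fin 912 7 912)
(fin 1233 7 976)))
(cons (mv 1232 (cons (fin 1168 5 976)
(mv 1233 (cons (fin 1296 5 1040)
(mv 1234 (cons (fin 1170 4 977)
(fin 1298 4 1041)))))))
(mv 1168 (cons (fin 1232 5 976)
(mv 1170 (cons (fin 1234 4 977)
(mv 913 (cons (cons (mv 912 (cons (fin 848 7 848)
(fin 976 7 912)))
(mv 850 (cons (fin 914 6 849)
(mv 849 (cons (fin 786 6 785)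
(mv 784 (cons (fin 848 7 784)
(mv 785 (cons (fin 720 7 720)
(fin 976 5 784))))))))))
(cons (mv 848 (cons (fin 912 7 848)
(mv 849 (cons (fin 784 7 784)
(mv 850 (cons (fin 786 6 785)
(fin 914 6 849)))))))
(mv 850 (cons (fin 914 6 849)
(mv 849 (cons (fin 786 6 785)
(mv 976 (cons (fin 912 7 912)
(fin 785 5 784))))))))))))))))))))))))
(cons (mv 973 (cons (fin 974 3 973)
(mv 977 (cons (fin 978 2 974)
(mv 1105 (cons (fin 1106 0 1038)
(mv 1169 (cons (mv 976 (cons (fin 912 7 912)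
(fin 1233 7 976)))
(cons (mv 1232 (cons (fin 1168 5 976)
(mv 1233 (cons (fin 1296 5 1040)
(mv 1234 (cons (fin 1170 4 977)
(fin 1298 4 1041)))))))
(mv 1168 (cons (fin 1232 5 976)
(mv 1170 (cons (fin 1234 4 977)
(mv 913 (cons (cons (mv 912 (cons (fin 848 7 848)
(fin 976 7 912)))
(mv 850 (cons (fin 914 6 849)
(mv 849 (cons (fin 786 6 785)
(mv 784 (cons (fin 848 7 784)
(mv 785 (cons (fin 720 7 720)
(fin 976 5 784))))))))))
(cons (mv 848 (cons (fin 912 7 848)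
(mv 849 (cons (fin 784 7 784)
(mv 850 (cons (fin 786 6 785)
(fin 914 6 849)))))))
(mv 850 (cons (fin 914 6 849)
(mv 849 (cons (fin 786 6 785)
(mv 976 (cons (fin 912 7 912)
(fin 785 5 784)))))))))))))))))))))))
(cons (mv 974 (cons (fin 973 3 973)
(mv 1102 (cons (fin 1101 1 1037)
(mv 1105 (cons (fin 1106 0 1038)
(mv 910 (cons (cons (mv 1103 (cons (fin 846 4 846)
(fin 1167 4 910)))
(mv 845 (cons (fin 909 7 845)
(mv 781 (cons (fin 846 7 781)
(mv 911 (cons (fin 847 6 846)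
(mv 1166 (cons (fin 975 6 910)
(mv 1167 (cons (fin 1231 4 974)
(mv 1229 (cons (fin 1165 5 973)
(mv 1230 (cons (fin 1293 5 1037)
(mv 1169 (cons (fin 1168 1 1165)
(mv 1233 (cons (fin 976 7 976)
(mv 1296 (cons (fin 1232 5 1040)
(mv 1297 (cons (fin 1360 5 1104)
(mv 1298 (cons (fin 1234 4 1041)
(fin 1362 4 1105))))))))))))))))))))))))))
(cons (mv 845 (cons (fin 909 7 845)
(mv 847 (cons (fin 911 6 846)
(mv 1167 (cons (fin 1103 4 910)
(mv 1166 (cons (fin 1231 4 974)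
(mv 1229 (cons (fin 1165 5 973)
(mv 1230 (cons (fin 1293 5 1037)
(fin 975 6 974)))))))))))))
(mv 845 (cons (fin 909 7 845)
(mv 846 (cons (fin 781 7 781)
(fin 1103 4 846))))))))))))))
(mv 974 (cons (fin 973 3 973)
(mv 977 (cons (fin 978 2 974)
(mv 1102 (cons (fin 1101 1 1037)
(mv 910 (cons (cons (mv 1103 (cons (fin 846 4 846)
(fin 1167 4 910)))
(mv 845 (cons (fin 909 7 845)
(mv 781 (cons (fin 846 7 781)
(mv 911 (cons (fin 847 6 846)
(mv 1166 (cons (fin 975 6 910)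
(mv 1229 (cons (fin 1165 5 973)
(mv 1230 (cons (fin 1293 5 1037)
(mv 1231 (cons (fin 1167 4 974)
(fin 1295 4 1038))))))))))))))))
(cons (mv 845 (cons (fin 909 7 845)
(mv 847 (cons (fin 911 6 846)
(mv 1167 (cons (fin 1103 4 910)
(mv 1166 (cons (fin 1231 4 974)
(mv 1229 (cons (fin 1165 5 973)
(mv 1230 (cons (fin 1293 5 1037)
(fin 975 6 974)))))))))))))
(mv 845 (cons (fin 909 7 845)
(mv 846 (cons (fin 781 7 781)
(fin 1103 4 846))))))))))))))))))
(mv 1037 (cons (cons (mv 976 (cons (fin 977 2 973)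
(mv 975 (cons (fin 1036 2 972)
(mv 1101 (cons (fin 1100 1 1036)
(mv 1102 (cons (fin 1041 1 1037)
(mv 911 (cons (fin 847 5 846)
(mv 1166 (cons (fin 1103 5 910)
(fin 974 6 910)))))))))))))
(mv 976 (cons (fin 977 2 973)
(mv 1036 (cons (fin 975 2 972)
(mv 971 (cons (fin 972 3 971)
(mv 1035 (cons (fin 970 3 970)
(mv 1099 (cons (fin 1098 1 1034)
(fin 1100 1 1035))))))))))))
(cons (mv 1101 (cons (fin 1100 1 1036)
(mv 1102 (cons (fin 1041 1 1037)
(mv 974 (cons (mv 910 (cons (fin 846 5 845)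
(fin 1165 5 909)))
(cons (mv 1165 (cons (fin 1229 6 973)
(mv 1166 (cons (mv 975 (cons (fin 911 6 910)
(fin 1230 6 974)))
(cons (mv 975 (cons (fin 911 6 910)
(mv 1035 (cons (fin 1036 2 971)
(mv 1167 (cons (fin 1231 4 974)
(mv 1168 (cons (fin 1169 3 1101)
(mv 1232 (cons (fin 1233 0 1165)
(fin 1103 4 975)))))))))))
(mv 1230 (cons (fin 1294 7 1037)
(mv 1231 (cons (fin 1167 4 974)
(fin 1295 4 1038))))))))))
(mv 910 (cons (fin 846 5 845)
(mv 845 (cons (fin 909 7 845)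
(mv 847 (cons (fin 911 6 846)
(mv 1167 (cons (fin 1103 4 910)
(mv 1166 (cons (fin 1231 4 974)
(mv 1230 (cons (fin 1294 7 1037)
(fin 975 6 974))))))))))))))))))))
(cons (mv 976 (cons (fin 977 2 973)
(mv 1036 (cons (fin 975 2 972)
(mv 971 (cons (fin 972 3 971)
(mv 1035 (cons (fin 970 3 970)
(mv 1098 (cons (fin 1099 1 1034)
(mv 1034 (cons (fin 1097 1 1033)
(mv 1102 (cons (fin 1101 0 1034)
(fin 1103 0 1035)))))))))))))))
(mv 977 (cons (fin 976 2 973)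
(mv 1041 (cons (fin 978 2 974)
(mv 1101 (cons (fin 1100 1 1036)
(fin 1102 1 1037)))))))))))))
(cons (cons (mv 1037 (cons (cons (mv 972 (cons (fin 973 3 972)
(mv 976 (cons (fin 977 2 973)
(mv 1036 (cons (fin 971 3 971)
(fin 975 2 972)))))))
(mv 976 (cons (fin 977 2 973)
(mv 1036 (cons (fin 975 2 972)
(mv 971 (cons (fin 972 3 971)
(mv 1035 (cons (fin 970 3 970)
(mv 1099 (cons (fin 1098 1 1034)
(fin 1100 1 1035))))))))))))
(cons (mv 973 (cons (fin 972 3 972)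
(mv 974 (cons (fin 1041 3 973)
(mv 1102 (cons (mv 909 (cons (fin 1166 7 909)
(fin 845 4 845)))
(cons (mv 909 (cons (fin 845 4 845)
(mv 910 (cons (mv 846 (cons (fin 782 5 781)
(fin 1103 4 846)))
(cons (mv 911 (cons (fin 847 6 846)
(mv 912 (cons (fin 913 1 909)
(mv 848 (cons (fin 849 2 845)
(mv 1103 (cons (fin 975 6 847)
(fin 1167 4 910)))))))))
(mv 846 (cons (fin 782 5 781)
(mv 847 (cons (fin 783 6 782)
(fin 911 6 846))))))))))
(mv 1166 (cons (fin 1230 7 973)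
(mv 911 (cons (fin 975 6 910)
(mv 910 (cons (fin 847 6 846)
(mv 846 (cons (fin 782 5 781)
(fin 1103 4 846))))))))))))))))
(cons (mv 976 (cons (fin 977 2 973)
(mv 975 (cons (fin 1036 2 972)
(mv 1103 (cons (mv 912 (cons (fin 848 5 847)
(fin 1167 6 911)))
(cons (mv 848 (cons (fin 912 5 847)
(mv 911 (cons (mv 847 (cons (fin 1102 5 846)
(fin 784 6 783)))
(cons (mv 910 (cons (fin 846 7 846)
(mv 909 (cons (fin 908 0 908)
(mv 1102 (cons (fin 1166 5 910)
(mv 845 (cons (fin 974 7 845)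
(fin 973 4 845)))))))))
(mv 847 (cons (fin 784 6 783)
(fin 783 4 783))))))))
(mv 1167 (cons (fin 1231 6 975)
(mv 910 (cons (fin 974 7 910)
(mv 911 (cons (fin 846 7 846)
(mv 847 (cons (fin 1102 5 846)
(fin 783 4 783))))))))))))))))
(mv 973 (cons (fin 972 3 972)
(mv 977 (cons (fin 976 2 973)
(mv 1041 (cons (fin 974 3 973)
(fin 978 2 974)))))))))))
(mv 1037 (cons (cons (mv 972 (cons (fin 973 3 972)
(mv 1036 (cons (fin 971 3 971)
(mv 1100 (cons (fin 1099 1 1035)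
(fin 1101 1 1036)))))))
(cons (mv 1100 (cons (fin 1101 1 1036)
(mv 1036 (cons (fin 1099 1 1035)
(mv 971 (cons (fin 972 3 971)
(mv 975 (cons (fin 976 2 972)
(mv 1035 (cons (fin 970 3 970)
(fin 974 2 971)))))))))))
(mv 972 (cons (fin 973 3 972)
(mv 1036 (cons (fin 971 3 971)
(mv 975 (cons (fin 976 2 972)
(mv 1035 (cons (fin 974 2 971)
(mv 1099 (cons (fin 1098 1 1034)
(fin 1100 1 1035)))))))))))))
(cons (mv 1100 (cons (fin 1101 1 1036)
(mv 1036 (cons (fin 1099 1 1035)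
(mv 975 (cons (fin 976 2 972)
(mv 974 (cons (fin 1035 2 971)
(mv 973 (cons (fin 1041 3 973)
(mv 845 (cons (fin 909 5 844)
(mv 1164 (cons (fin 1228 6 972)
(mv 910 (cons (mv 846 (cons (fin 781 7 781)
(fin 782 5 781)))
(mv 1103 (cons (fin 1167 7 910)
(mv 911 (cons (mv 847 (cons (fin 783 5 782)
(fin 1102 5 846)))
(mv 912 (cons (fin 913 1 909)
(fin 848 6 847)))))))))))))))))))))))
(cons (mv 972 (cons (fin 973 3 972)
(mv 1036 (cons (fin 971 3 971)
(mv 975 (cons (fin 976 2 972)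
(mv 1035 (cons (fin 974 2 971)
(mv 1098 (cons (fin 1099 1 1034)
(mv 1034 (cons (fin 1097 1 1033)
(mv 1102 (cons (fin 1101 0 1034)
(fin 1103 0 1035)))))))))))))))
(mv 973 (cons (fin 972 3 972)
(mv 974 (cons (fin 1041 3 973)
(mv 1101 (cons (fin 1100 1 1036)
(mv 910 (cons (fin 846 5 845)
(fin 1165 6 909))))))))))))))
(cons (mv 1037 (cons (mv 972 (cons (fin 973 3 972)
(mv 1036 (cons (fin 971 3 971)
(mv 1100 (cons (fin 1099 1 1035)
(fin 1101 1 1036)))))))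
(cons (mv 1101 (cons (fin 1100 1 1036)
(mv 1102 (cons (fin 1041 1 1037)
(mv 974 (cons (mv 910 (cons (fin 846 5 845)
(fin 1165 5 909)))
(cons (mv 1165 (cons (fin 1229 6 973)
(mv 1166 (cons (mv 975 (cons (fin 911 6 910)
(fin 1230 6 974)))
(cons (mv 975 (cons (fin 911 6 910)
(mv 1035 (cons (fin 1036 2 971)
(mv 1167 (cons (fin 1231 4 974)
(mv 1168 (cons (fin 1169 3 1101)
(mv 1232 (cons (fin 1233 0 1165)
(fin 1103 4 975)))))))))))
(mv 1230 (cons (fin 1294 7 1037)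
(mv 1231 (cons (fin 1167 4 974)
(fin 1295 4 1038))))))))))
(mv 910 (cons (fin 846 5 845)
(mv 845 (cons (fin 909 7 845)
(mv 847 (cons (fin 911 6 846)
(mv 1167 (cons (fin 1103 4 910)
(mv 1166 (cons (fin 1231 4 974)
(mv 1230 (cons (fin 1294 7 1037)
(fin 975 6 974))))))))))))))))))))
(mv 973 (cons (fin 972 3 972)
(mv 974 (cons (fin 1041 3 973)
(mv 1102 (cons (mv 909 (cons (fin 1166 7 909)
(fin 845 4 845)))
(cons (mv 909 (cons (fin 845 4 845)
(mv 910 (cons (mv 846 (cons (fin 782 5 781)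
(fin 1103 4 846)))
(cons (mv 911 (cons (fin 847 6 846)
(mv 912 (cons (fin 913 1 909)
(mv 848 (cons (fin 849 2 845)
(mv 1103 (cons (fin 975 6 847)
(fin 1167 4 910)))))))))
(mv 846 (cons (fin 782 5 781)
(mv 847 (cons (fin 783 6 782)
(fin 911 6 846))))))))))
(mv 1166 (cons (fin 1230 7 973)
(mv 911 (cons (fin 975 6 910)
(mv 910 (cons (fin 847 6 846)
(mv 846 (cons (fin 782 5 781)
(fin 1103 4 846)))))))))))))))))))
(cons (mv 1037 (cons (cons (mv 972 (cons (fin 973 3 972)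
(mv 971 (cons (fin 1036 3 971)
(mv 977 (cons (fin 976 2 973)
(mv 1041 (cons (fin 978 2 974)
(mv 1101 (cons (fin 1100 1 1036)
(fin 1102 1 1037)))))))))))
(mv 972 (cons (fin 973 3 972)
(mv 1036 (cons (fin 971 3 971)
(mv 1100 (cons (fin 1099 1 1035)
(fin 1101 1 1036))))))))
(cons (mv 972 (cons (fin 973 3 972)
(mv 976 (cons (fin 977 2 973)
(mv 1036 (cons (fin 971 3 971)
(fin 975 2 972)))))))
(cons (mv 976 (cons (fin 977 2 973)
(mv 975 (cons (fin 1036 2 972)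
(mv 1101 (cons (fin 1100 1 1036)
(mv 1102 (cons (fin 1041 1 1037)
(mv 911 (cons (fin 847 5 846)
(mv 1166 (cons (fin 1103 5 910)
(fin 1230 6 974)))))))))))))
(mv 972 (cons (fin 973 3 972)
(mv 977 (cons (fin 976 2 973)
(mv 1041 (cons (fin 978 2 974)
(mv 1101 (cons (fin 1100 1 1036)
(fin 1102 1 1037)))))))))))))
(mv 1037 (cons (cons (mv 972 (cons (fin 973 3 972)
(mv 976 (cons (fin 977 2 973)
(mv 1036 (cons (fin 971 3 971)
(fin 975 2 972)))))))
(mv 972 (cons (fin 973 3 972)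
(mv 1036 (cons (fin 971 3 971)
(mv 1100 (cons (fin 1099 1 1035)
(fin 1101 1 1036))))))))
(cons (mv 976 (cons (fin 977 2 973)
(mv 1036 (cons (fin 975 2 972)
(mv 1100 (cons (fin 1099 1 1035)
(fin 1101 1 1036)))))))
(mv 973 (cons (fin 972 3 972)
(mv 974 (cons (fin 1041 3 973)
(mv 976 (cons (fin 977 2 973)
(mv 1101 (cons (fin 1100 1 1036)
(mv 910 (cons (fin 846 5 845)
(fin 1165 6 909)))))))))))))))))))
(ref 0 0))
(cons (ref 2 0)
(mv 1038 (cons (cons (cons (mv 1037 (cons (cons (mv 972 (cons (fin 973 3 972)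
(mv 971 (cons (fin 1036 3 971)
(mv 976 (cons (fin 977 2 973)
(mv 1101 (cons (fin 1100 1 1036)
(mv 1041 (cons (fin 1102 1 1037)
(mv 1105 (cons (fin 1104 0 1037)
(fin 1106 0 1038)))))))))))))
(cons (mv 972 (cons (fin 973 3 972)
(mv 971 (cons (fin 1036 3 971)
(mv 977 (cons (fin 976 2 973)
(mv 1041 (cons (fin 978 2 974)
(mv 1105 (cons (fin 1104 0 1037)
(fin 1106 0 1038)))))))))))
(mv 976 (cons (fin 977 2 973)
(mv 1100 (cons (fin 1101 1 1036)
(mv 1036 (cons (fin 1099 1 1035)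
(mv 1104 (cons (fin 1103 0 1036)
(fin 1105 0 1037)))))))))))
(cons (mv 972 (cons (fin 973 3 972)
(mv 971 (cons (fin 1036 3 971)
(mv 977 (cons (fin 976 2 973)
(mv 1041 (cons (fin 978 2 974)
(mv 1101 (cons (fin 1100 1 1036)
(fin 1102 1 1037)))))))))))
(cons (mv 972 (cons (fin 973 3 972)
(mv 971 (cons (fin 1036 3 971)
(mv 1101 (cons (fin 1100 1 1036)
(mv 1041 (cons (fin 1102 1 1037)
(mv 1105 (cons (fin 1104 0 1037)
(fin 1106 0 1038)))))))))))
(mv 972 (cons (fin 973 3 972)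
(mv 976 (cons (fin 977 2 973)
(mv 1101 (cons (fin 1100 1 1036)
(mv 1041 (cons (fin 1102 1 1037)
(mv 1105 (cons (fin 1104 0 1037)
(fin 1106 0 1038)))))))))))))))
(mv 974 (cons (cons (mv 973 (cons (fin 1041 3 973)
(mv 971 (cons (fin 972 0 971)
(mv 1102 (cons (cons (mv 909 (cons (fin 1166 7 909)
(mv 845 (cons (fin 910 7 845)
(fin 781 4 781)))))
(mv 910 (cons (mv 1103 (cons (fin 846 4 846)
(fin 1167 4 910)))
(cons (mv 845 (cons (fin 909 7 845)
(mv 846 (cons (fin 781 7 781)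
(mv 847 (cons (fin 783 6 782)
(fin 911 6 846)))))))
(mv 845 (cons (fin 909 7 845)
(mv 847 (cons (fin 911 6 846)
(mv 1101 (cons (fin 1165 5 909)
(mv 1100 (cons (fin 1099 2 1035)
(fin 1103 2 1036)))))))))))))
(cons (mv 1101 (cons (mv 1100 (cons (fin 1099 2 1035)
(fin 1103 2 1036)))
(cons (mv 910 (cons (fin 1165 5 909)
(mv 1103 (cons (fin 846 4 846)
(fin 1167 4 910)))))
(mv 1099 (cons (fin 1100 2 1035)
(mv 1165 (cons (fin 910 5 909)
(mv 1229 (cons (fin 1166 5 973)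
(fin 1293 6 1037))))))))))
(mv 1166 (cons (fin 909 7 909)
(mv 1165 (cons (fin 1229 5 973)
(mv 1231 (cons (fin 1167 4 974)
(mv 1230 (cons (fin 1295 4 1038)
(mv 1103 (cons (fin 1294 6 1038)
(mv 1101 (cons (fin 1100 2 1036)
(mv 1104 (cons (fin 1164 1 1100)
(fin 1105 1 1101))))))))))))))))))))))
(mv 910 (cons (cons (mv 846 (cons (fin 1103 4 846)
(mv 781 (cons (fin 845 7 781)
(mv 782 (cons (fin 717 7 717)
(mv 783 (cons (fin 719 6 718)
(fin 847 6 782)))))))))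
(mv 846 (cons (cons (mv 781 (cons (fin 845 7 781)
(mv 782 (cons (fin 717 7 717)
(mv 783 (cons (fin 719 6 718)
(fin 847 6 782)))))))
(mv 847 (cons (fin 783 6 782)
(mv 911 (cons (fin 1102 6 846)
(mv 912 (cons (mv 913 (cons (fin 914 3 846)
(fin 973 1 909)))
(mv 976 (cons (fin 1104 7 847)
(mv 909 (cons (fin 977 0 909)
(mv 848 (cons (fin 849 1 845)
(fin 908 2 844))))))))))))))
(cons (mv 782 (cons (cons (mv 781 (cons (fin 717 7 717)
(fin 845 7 781)))
(mv 719 (cons (fin 783 6 718)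
(mv 718 (cons (fin 655 6 654)
(mv 653 (cons (fin 717 7 653)
(mv 654 (cons (fin 589 7 589)
(mv 909 (cons (fin 845 5 653)
(fin 973 5 717))))))))))))
(cons (mv 717 (cons (fin 781 7 717)
(mv 718 (cons (fin 653 7 653)
(mv 719 (cons (fin 655 6 654)
(fin 783 6 718)))))))
(mv 719 (cons (fin 783 6 718)
(mv 718 (cons (fin 655 6 654)
(mv 845 (cons (fin 781 7 781)
(mv 909 (cons (fin 1102 7 845)
(fin 654 5 653))))))))))))
(mv 845 (cons (fin 781 7 781)
(mv 911 (cons (mv 1102 (cons (fin 909 7 845)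
(fin 847 6 846)))
(cons (mv 844 (cons (fin 843 0 843)
(mv 912 (cons (fin 909 3 844)
(fin 913 3 845)))))
(mv 844 (cons (fin 843 0 843)
(mv 847 (cons (fin 912 0 844)
(fin 1102 6 846))))))))))))))
(cons (mv 1102 (cons (cons (mv 845 (cons (fin 909 7 845)
(mv 847 (cons (fin 911 6 846)
(mv 1101 (cons (fin 1165 5 909)
(mv 1100 (cons (fin 1099 2 1035)
(fin 1103 2 1036)))))))))
(cons (mv 847 (cons (fin 911 6 846)
(mv 909 (cons (fin 845 7 845)
(mv 1165 (cons (fin 1101 5 909)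
(mv 1166 (cons (fin 973 7 909)
(fin 1229 5 973)))))))))
(mv 847 (cons (fin 911 6 846)
(mv 909 (cons (fin 845 7 845)
(mv 1103 (cons (fin 1167 4 910)
(mv 1166 (cons (fin 973 7 909)
(mv 1229 (cons (fin 1165 5 973)
(mv 1230 (cons (fin 1293 5 1037)
(fin 1294 6 1038)))))))))))))))
(cons (mv 847 (cons (fin 911 6 846)
(mv 1101 (cons (fin 1165 5 909)
(mv 1100 (cons (fin 1099 2 1035)
(fin 1103 2 1036)))))))
(cons (mv 847 (cons (fin 911 6 846)
(mv 909 (cons (fin 845 7 845)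
(mv 1166 (cons (fin 973 7 909)
(mv 1167 (cons (fin 1103 4 910)
(fin 1231 4 974)))))))))
(mv 845 (cons (fin 909 7 845)
(mv 1101 (cons (fin 1165 5 909)
(mv 1100 (cons (fin 1099 2 1035)
(fin 1103 2 1036)))))))))))
(cons (mv 846 (cons (fin 1103 4 846)
(mv 847 (cons (fin 783 6 782)
(mv 911 (cons (fin 1102 6 846)
(mv 912 (cons (mv 913 (cons (fin 914 3 846)
(fin 973 1 909)))
(mv 976 (cons (fin 1104 7 847)
(mv 909 (cons (fin 977 0 909)
(mv 848 (cons (fin 849 1 845)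
(fin 908 2 844)))))))))))))))
(mv 846 (cons (fin 1103 4 846)
(mv 782 (cons (cons (mv 781 (cons (fin 717 7 717)
(fin 845 7 781)))
(mv 719 (cons (fin 783 6 718)
(mv 718 (cons (fin 655 6 654)
(mv 653 (cons (fin 717 7 653)
(mv 654 (cons (fin 589 7 589)
(mv 909 (cons (fin 845 5 653)
(fin 973 5 717))))))))))))
(cons (mv 717 (cons (fin 781 7 717)
(mv 718 (cons (fin 653 7 653)
(mv 719 (cons (fin 655 6 654)
(fin 783 6 718)))))))
(mv 719 (cons (fin 783 6 718)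
(mv 718 (cons (fin 655 6 654)
(mv 845 (cons (fin 781 7 781)
(mv 909 (cons (fin 1102 7 845)
(fin 654 5 653)))))))))))))))))))
(cons (mv 1102 (cons (mv 1101 (cons (fin 1041 1 1037)
(mv 1100 (cons (fin 1099 2 1035)
(fin 1103 2 1036)))))
(cons (mv 910 (cons (mv 1103 (cons (fin 846 4 846)
(fin 1167 4 910)))
(cons (mv 845 (cons (fin 909 7 845)
(mv 846 (cons (fin 781 7 781)
(mv 847 (cons (fin 783 6 782)
(fin 911 6 846)))))))
(mv 845 (cons (fin 909 7 845)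
(mv 847 (cons (fin 911 6 846)
(mv 1166 (cons (cons (mv 1167 (cons (fin 1103 4 910)
(fin 1231 4 974)))
(mv 1229 (cons (fin 1165 5 973)
(mv 1230 (cons (fin 1293 5 1037)
(mv 1294 (cons (fin 1103 6 1038)
(mv 1295 (cons (fin 1231 4 1038)
(fin 1359 4 1102))))))))))
(cons (mv 1229 (cons (fin 1165 5 973)
(mv 1230 (cons (fin 1293 5 1037)
(mv 1231 (cons (fin 1167 4 974)
(fin 1295 4 1038)))))))
(mv 1103 (cons (fin 1167 4 910)
(mv 1229 (cons (fin 1165 5 973)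
(mv 1230 (cons (fin 1293 5 1037)
(fin 1294 6 1038)))))))))))))))))
(mv 1101 (cons (fin 1041 1 1037)
(mv 910 (cons (fin 1165 5 909)
(mv 845 (cons (fin 909 7 845)
(mv 846 (cons (fin 781 7 781)
(mv 847 (cons (fin 783 6 782)
(fin 911 6 846))))))))))))))
(cons (mv 1041 (cons (fin 973 3 973)
(mv 977 (cons (fin 978 2 974)
(mv 1101 (cons (fin 1102 1 1037)
(mv 1105 (cons (fin 1106 0 1038)
(mv 913 (cons (mv 1104 (cons (fin 849 5 848)
(fin 1168 5 912)))
(cons (mv 848 (cons (fin 912 7 848)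
(mv 849 (cons (fin 784 7 784)
(mv 850 (cons (fin 786 6 785)
(fin 914 6 849)))))))
(mv 848 (cons (fin 912 7 848)
(mv 850 (cons (fin 914 6 849)
(mv 1168 (cons (fin 1104 5 912)
(mv 1169 (cons (fin 1232 5 976)
(mv 1233 (cons (fin 976 7 976)
(mv 1234 (cons (fin 1170 4 977)
(fin 1298 4 1041))))))))))))))))))))))))
(mv 1041 (cons (fin 973 3 973)
(mv 977 (cons (fin 978 2 974)
(mv 1105 (cons (fin 1106 0 1038)
(mv 1169 (cons (mv 976 (cons (fin 912 7 912)
(fin 1233 7 976)))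
(cons (mv 1168 (cons (fin 1232 5 976)
(mv 913 (cons (fin 1104 5 912)
(mv 848 (cons (fin 912 7 848)
(mv 849 (cons (fin 784 7 784)
(mv 850 (cons (fin 786 6 785)
(fin 914 6 849)))))))))))
(mv 976 (cons (fin 1233 7 976)
(mv 1168 (cons (fin 1232 5 976)
(mv 913 (cons (fin 1104 5 912)
(mv 849 (cons (fin 785 5 784)
(mv 850 (cons (fin 786 6 785)
(fin 914 6 849)))))))))))))))))))))))))
(cons (mv 1037 (cons (cons (mv 972 (cons (fin 973 3 972)
(mv 976 (cons (fin 977 2 973)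
(mv 1036 (cons (fin 971 3 971)
(mv 1100 (cons (fin 1099 1 1035)
(fin 1101 1 1036)))))))))
(mv 972 (cons (fin 973 3 972)
(mv 976 (cons (fin 977 2 973)
(mv 1036 (cons (fin 971 3 971)
(mv 1104 (cons (fin 1103 0 1036)
(fin 1105 0 1037))))))))))
(cons (mv 976 (cons (fin 977 2 973)
(mv 1100 (cons (fin 1101 1 1036)
(mv 1036 (cons (fin 1099 1 1035)
(mv 1104 (cons (fin 1103 0 1036)
(fin 1105 0 1037)))))))))
(cons (mv 972 (cons (fin 973 3 972)
(mv 1036 (cons (fin 971 3 971)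
(mv 1100 (cons (fin 1099 1 1035)
(fin 1101 1 1036)))))))
(mv 972 (cons (fin 973 3 972)
(mv 976 (cons (fin 977 2 973)
(mv 1100 (cons (fin 1101 1 1036)
(mv 1104 (cons (fin 1105 0 1037)
(mv 912 (cons (mv 1103 (cons (fin 848 5 847)
(fin 1167 5 911)))
(cons (mv 847 (cons (fin 911 7 847)
(mv 848 (cons (fin 783 7 783)
(mv 849 (cons (fin 785 6 784)
(fin 913 6 848)))))))
(mv 847 (cons (fin 911 7 847)
(mv 849 (cons (fin 913 6 848)
(mv 1168 (cons (cons (mv 1167 (cons (fin 1103 5 911)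
(fin 1231 5 975)))
(mv 1233 (cons (fin 1169 4 976)
(mv 1232 (cons (fin 1297 4 1040)
(mv 1295 (cons (fin 1231 5 1039)
(mv 1296 (cons (fin 1103 7 1039)
(fin 1359 5 1103))))))))))
(cons (mv 1231 (cons (fin 1167 5 975)
(mv 1232 (cons (fin 1295 5 1039)
(mv 1233 (cons (fin 1169 4 976)
(fin 1297 4 1040)))))))
(mv 1103 (cons (fin 1167 5 911)
(mv 1232 (cons (fin 1296 7 1039)
(mv 1233 (cons (fin 1169 4 976)
(fin 1297 4 1040)))))))))))))))))))))))))))))
(cons (mv 1037 (cons (cons (mv 972 (cons (fin 973 3 972)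
(mv 971 (cons (fin 1036 3 971)
(mv 977 (cons (fin 976 2 973)
(mv 1041 (cons (fin 978 2 974)
(mv 1105 (cons (fin 1104 0 1037)
(fin 1106 0 1038)))))))))))
(mv 976 (cons (fin 977 2 973)
(mv 1104 (cons (fin 1105 0 1037)
(mv 1036 (cons (fin 1103 0 1036)
(mv 971 (cons (fin 972 3 971)
(mv 1035 (cons (fin 970 3 970)
(mv 1099 (cons (fin 1098 1 1034)
(fin 1100 1 1035))))))))))))))
(cons (mv 973 (cons (fin 972 3 972)
(mv 977 (cons (fin 976 2 973)
(mv 1041 (cons (fin 974 3 973)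
(fin 978 2 974)))))))
(cons (mv 976 (cons (fin 977 2 973)
(mv 1104 (cons (fin 1105 0 1037)
(mv 1103 (cons (fin 1036 0 1036)
(mv 912 (cons (fin 848 5 847)
(fin 1167 5 911)))))))))
(mv 972 (cons (fin 973 3 972)
(mv 1036 (cons (fin 971 3 971)
(mv 1104 (cons (fin 1103 0 1036)
(fin 1105 0 1037)))))))))))
(mv 1037 (cons (cons (mv 972 (cons (fin 973 3 972)
(mv 971 (cons (fin 1036 3 971)
(mv 977 (cons (fin 976 2 973)
(mv 1041 (cons (fin 978 2 974)
(mv 1101 (cons (fin 1100 1 1036)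
(fin 1102 1 1037)))))))))))
(cons (mv 972 (cons (fin 973 3 972)
(mv 976 (cons (fin 977 2 973)
(mv 1036 (cons (fin 971 3 971)
(mv 1099 (cons (fin 1100 1 1035)
(mv 1035 (cons (fin 1098 1 1034)
(mv 1103 (cons (fin 1102 0 1035)
(fin 1104 0 1036)))))))))))))
(mv 976 (cons (fin 977 2 973)
(mv 1100 (cons (fin 1101 1 1036)
(mv 1036 (cons (fin 1099 1 1035)
(mv 971 (cons (fin 972 3 971)
(mv 1035 (cons (fin 970 3 970)
(mv 1103 (cons (fin 1102 0 1035)
(fin 1104 0 1036)))))))))))))))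
(cons (cons (mv 972 (cons (fin 973 3 972)
(mv 977 (cons (fin 976 2 973)
(mv 1036 (cons (fin 971 3 971)
(mv 1041 (cons (fin 978 2 974)
(mv 1102 (cons (fin 1101 1 1037)
(mv 1103 (cons (fin 1035 0 1035)
(fin 1104 0 1036)))))))))))))
(mv 976 (cons (fin 977 2 973)
(mv 1100 (cons (fin 1101 1 1036)
(mv 1036 (cons (fin 1099 1 1035)
(mv 1103 (cons (fin 1104 0 1036)
(mv 848 (cons (fin 912 5 847)
(mv 1102 (cons (fin 1035 0 1035)
(mv 1167 (cons (fin 1231 6 975)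
(mv 974 (cons (fin 910 4 910)
(mv 973 (cons (fin 1041 3 973)
(mv 909 (cons (fin 1166 7 909)
(fin 845 5 844))))))))))))))))))))))
(cons (mv 972 (cons (fin 973 3 972)
(mv 1036 (cons (fin 971 3 971)
(mv 1100 (cons (fin 1099 1 1035)
(fin 1101 1 1036)))))))
(mv 972 (cons (fin 973 3 972)
(mv 977 (cons (fin 976 2 973)
(mv 1041 (cons (fin 978 2 974)
(mv 1101 (cons (fin 1100 1 1036)
(fin 1102 1 1037))))))))))))))))
(cons (cons (mv 1037 (cons (cons (mv 976 (cons (fin 977 2 973)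
(mv 1100 (cons (fin 1101 1 1036)
(mv 1036 (cons (fin 1099 1 1035)
(mv 1104 (cons (fin 1103 0 1036)
(fin 1105 0 1037)))))))))
(mv 976 (cons (fin 977 2 973)
(mv 1104 (cons (fin 1105 0 1037)
(mv 1036 (cons (fin 1103 0 1036)
(mv 971 (cons (fin 972 3 971)
(mv 1035 (cons (fin 970 3 970)
(mv 1099 (cons (fin 1098 1 1034)
(fin 1100 1 1035))))))))))))))
(cons (mv 977 (cons (fin 976 2 973)
(mv 1041 (cons (fin 978 2 974)
(mv 1101 (cons (fin 1100 1 1036)
(fin 1102 1 1037)))))))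
(cons (mv 976 (cons (fin 977 2 973)
(mv 1104 (cons (fin 1105 0 1037)
(mv 1103 (cons (fin 1036 0 1036)
(mv 912 (cons (fin 848 5 847)
(fin 1167 5 911)))))))))
(mv 1100 (cons (fin 1101 1 1036)
(mv 1036 (cons (fin 1099 1 1035)
(mv 1104 (cons (fin 1103 0 1036)
(fin 1105 0 1037)))))))))))
(mv 1037 (cons (cons (mv 972 (cons (fin 973 3 972)
(mv 971 (cons (fin 1036 3 971)
(mv 1101 (cons (fin 1100 1 1036)
(mv 1041 (cons (fin 1102 1 1037)
(mv 1105 (cons (fin 1104 0 1037)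
(fin 1106 0 1038)))))))))))
(mv 972 (cons (fin 973 3 972)
(mv 1036 (cons (fin 971 3 971)
(mv 1104 (cons (fin 1103 0 1036)
(fin 1105 0 1037))))))))
(cons (mv 1100 (cons (fin 1101 1 1036)
(mv 1036 (cons (fin 1099 1 1035)
(mv 1104 (cons (fin 1103 0 1036)
(fin 1105 0 1037)))))))
(cons (mv 972 (cons (fin 973 3 972)
(mv 1036 (cons (fin 971 3 971)
(mv 1100 (cons (fin 1099 1 1035)
(fin 1101 1 1036)))))))
(mv 972 (cons (fin 973 3 972)
(mv 1101 (cons (fin 1100 1 1036)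
(mv 1041 (cons (fin 1102 1 1037)
(mv 1105 (cons (fin 1104 0 1037)
(fin 1106 0 1038))))))))))))))
(cons (mv 1041 (cons (cons (mv 973 (cons (fin 974 3 973)
(mv 977 (cons (fin 978 2 974)
(mv 1037 (cons (fin 972 3 972)
(fin 976 2 973)))))))
(mv 973 (cons (fin 974 3 973)
(mv 1037 (cons (fin 972 3 972)
(mv 1101 (cons (fin 1100 1 1036)
(fin 1102 1 1037))))))))
(cons (mv 977 (cons (fin 978 2 974)
(mv 976 (cons (fin 1037 2 973)
(mv 1101 (cons (fin 1102 1 1037)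
(mv 1105 (cons (fin 1106 0 1038)
(mv 912 (cons (fin 1169 7 912)
(fin 848 4 848)))))))))))
(mv 973 (cons (fin 974 3 973)
(mv 977 (cons (fin 978 2 974)
(mv 1101 (cons (fin 1102 1 1037)
(mv 1105 (cons (fin 1106 0 1038)
(mv 1169 (cons (mv 976 (cons (fin 912 7 912)
(fin 1233 7 976)))
(cons (mv 1232 (cons (fin 1168 5 976)
(mv 1233 (cons (fin 1296 5 1040)
(mv 1234 (cons (fin 1170 4 977)
(fin 1298 4 1041)))))))
(mv 1168 (cons (fin 1232 5 976)
(mv 1170 (cons (fin 1234 4 977)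
(mv 913 (cons (cons (mv 912 (cons (fin 848 7 848)
(fin 976 7 912)))
(mv 850 (cons (fin 914 6 849)
(mv 849 (cons (fin 786 6 785)
(mv 784 (cons (fin 848 7 784)
(mv 785 (cons (fin 720 7 720)
(fin 976 5 784))))))))))
(cons (mv 848 (cons (fin 912 7 848)
(mv 849 (cons (fin 784 7 784)
(mv 850 (cons (fin 786 6 785)
(fin 914 6 849)))))))
(mv 850 (cons (fin 914 6 849)
(mv 849 (cons (fin 786 6 785)
(mv 976 (cons (fin 912 7 912)
(fin 785 5 784))))))))))))))))))))))))))))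
(cons (mv 1041 (cons (cons (mv 973 (cons (fin 974 3 973)
(mv 977 (cons (fin 978 2 974)
(mv 1037 (cons (fin 972 3 972)
(fin 976 2 973)))))))
(mv 973 (cons (fin 974 3 973)
(mv 1037 (cons (fin 972 3 972)
(mv 1105 (cons (fin 1104 0 1037)
(fin 1106 0 1038))))))))
(cons (mv 977 (cons (fin 978 2 974)
(mv 976 (cons (fin 1037 2 973)
(mv 1101 (cons (fin 1102 1 1037)
(mv 1105 (cons (fin 1106 0 1038)
(mv 912 (cons (fin 1169 7 912)
(fin 848 4 848)))))))))))
(mv 973 (cons (fin 974 3 973)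
(mv 977 (cons (fin 978 2 974)
(mv 1101 (cons (fin 1102 1 1037)
(mv 1105 (cons (fin 1106 0 1038)
(mv 1169 (cons (mv 976 (cons (fin 912 7 912)
(fin 1233 7 976)))
(cons (mv 1168 (cons (fin 1232 5 976)
(mv 913 (cons (fin 1104 5 912)
(mv 848 (cons (fin 912 7 848)
(mv 849 (cons (fin 784 7 784)
(mv 850 (cons (fin 786 6 785)
(fin 914 6 849)))))))))))
(mv 976 (cons (fin 1233 7 976)
(mv 1168 (cons (fin 1232 5 976)
(mv 913 (cons (fin 1104 5 912)
(mv 849 (cons (fin 785 5 784)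
(mv 850 (cons (fin 786 6 785)
(fin 914 6 849)))))))))))))))))))))))))
(mv 1041 (cons (cons (mv 973 (cons (fin 974 3 973)
(mv 977 (cons (fin 978 2 974)
(mv 976 (cons (fin 1037 2 973)
(mv 1101 (cons (fin 1102 1 1037)
(mv 1105 (cons (fin 1106 0 1038)
(mv 912 (cons (fin 1169 7 912)
(fin 848 4 848)))))))))))))
(cons (mv 973 (cons (fin 974 3 973)
(mv 977 (cons (fin 978 2 974)
(mv 1037 (cons (fin 976 2 973)
(mv 1101 (cons (fin 1100 1 1036)
(fin 1102 1 1037)))))))))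
(mv 973 (cons (fin 974 3 973)
(mv 1101 (cons (fin 1102 1 1037)
(mv 1037 (cons (fin 1100 1 1036)
(mv 1105 (cons (fin 1104 0 1037)
(fin 1106 0 1038)))))))))))
(cons (mv 973 (cons (fin 974 3 973)
(mv 977 (cons (fin 978 2 974)
(mv 976 (cons (fin 1037 2 973)
(mv 1105 (cons (fin 1106 0 1038)
(mv 912 (cons (fin 1169 7 912)
(fin 848 4 848)))))))))))
(cons (mv 977 (cons (fin 978 2 974)
(mv 976 (cons (fin 1037 2 973)
(mv 1101 (cons (fin 1102 1 1037)
(mv 1105 (cons (fin 1106 0 1038)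
(mv 912 (cons (fin 1169 7 912)
(fin 848 4 848)))))))))))
(mv 973 (cons (fin 974 3 973)
(mv 977 (cons (fin 978 2 974)
(mv 1101 (cons (fin 1102 1 1037)
(mv 1105 (cons (fin 1106 0 1038)
(mv 1169 (cons (mv 976 (cons (fin 912 7 912)
(fin 1233 7 976)))
(cons (mv 1168 (cons (fin 1232 5 976)
(mv 913 (cons (fin 1104 5 912)
(mv 848 (cons (fin 912 7 848)
(mv 849 (cons (fin 784 7 784)
(mv 850 (cons (fin 786 6 785)
(fin 914 6 849)))))))))))
(mv 976 (cons (fin 1233 7 976)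
(mv 1168 (cons (fin 1232 5 976)
(mv 913 (cons (fin 1104 5 912)
(mv 849 (cons (fin 785 5 784)
(mv 850 (cons (fin 786 6 785)
(fin 914 6 849))))))))))))))))))))))))))))))))))
(cons (cons (cons (mv 1038 (cons (cons (cons (mv 1037 (cons (cons (mv 972 (cons (fin 973 3 972)
(mv 971 (cons (fin 1036 3 971)
(mv 976 (cons (fin 977 2 973)
(mv 1101 (cons (fin 1100 1 1036)
(mv 1041 (cons (fin 1102 1 1037)
(mv 1105 (cons (fin 1104 0 1037)
(fin 1106 0 1038)))))))))))))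
(cons (mv 976 (cons (fin 977 2 973)
(mv 975 (cons (fin 1036 2 972)
(mv 1100 (cons (fin 1101 1 1036)
(mv 1104 (cons (fin 1105 0 1037)
(mv 911 (cons (fin 1168 7 911)
(fin 847 4 847)))))))))))
(mv 972 (cons (fin 973 3 972)
(mv 971 (cons (fin 1036 3 971)
(mv 977 (cons (fin 976 2 973)
(mv 1041 (cons (fin 978 2 974)
(mv 1105 (cons (fin 1104 0 1037)
(fin 1106 0 1038)))))))))))))
(cons (mv 972 (cons (fin 973 3 972)
(mv 971 (cons (fin 1036 3 971)
(mv 1101 (cons (fin 1100 1 1036)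
(mv 1041 (cons (fin 1102 1 1037)
(mv 1105 (cons (fin 1104 0 1037)
(fin 1106 0 1038)))))))))))
(cons (mv 972 (cons (fin 973 3 972)
(mv 971 (cons (fin 1036 3 971)
(mv 977 (cons (fin 976 2 973)
(mv 1041 (cons (fin 978 2 974)
(mv 1101 (cons (fin 1100 1 1036)
(fin 1102 1 1037)))))))))))
(mv 972 (cons (fin 973 3 972)
(mv 976 (cons (fin 977 2 973)
(mv 1101 (cons (fin 1100 1 1036)
(mv 1041 (cons (fin 1102 1 1037)
(mv 1105 (cons (fin 1104 0 1037)
(fin 1106 0 1038)))))))))))))))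
(mv 1102 (cons (cons (cons (mv 1101 (cons (fin 1041 1 1037)
(mv 1099 (cons (fin 1100 2 1035)
(mv 974 (cons (cons (mv 910 (cons (fin 1165 5 909)
(mv 845 (cons (fin 909 7 845)
(mv 846 (cons (fin 781 7 781)
(mv 847 (cons (fin 783 6 782)
(fin 911 6 846)))))))))
(mv 1166 (cons (mv 975 (cons (fin 911 6 910)
(fin 1230 6 974)))
(cons (mv 909 (cons (fin 973 7 909)
(mv 1229 (cons (fin 1165 5 973)
(mv 1230 (cons (fin 1293 5 1037)
(mv 1231 (cons (fin 1167 4 974)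
(fin 1295 4 1038)))))))))
(mv 909 (cons (fin 973 7 909)
(mv 975 (cons (fin 911 6 910)
(mv 1165 (cons (fin 1229 5 973)
(mv 1167 (cons (fin 1231 4 974)
(mv 1168 (cons (fin 1169 3 1101)
(mv 1104 (cons (fin 1105 2 1101)
(fin 1232 7 975)))))))))))))))))
(cons (mv 973 (cons (mv 972 (cons (fin 971 0 971)
(fin 975 0 972)))
(mv 909 (cons (fin 1166 7 909)
(mv 845 (cons (fin 910 7 845)
(fin 781 4 781)))))))
(mv 910 (cons (fin 1165 5 909)
(mv 847 (cons (fin 911 6 846)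
(mv 846 (cons (fin 783 6 782)
(mv 781 (cons (fin 845 7 781)
(mv 782 (cons (fin 717 7 717)
(fin 975 4 782))))))))))))))))))
(mv 1166 (cons (cons (mv 975 (cons (fin 1230 6 974)
(mv 911 (cons (fin 847 5 846)
(fin 974 6 910)))))
(mv 1230 (cons (cons (mv 1229 (cons (fin 1293 5 1037)
(mv 974 (cons (fin 1165 5 973)
(mv 1231 (cons (fin 1167 4 974)
(fin 1295 4 1038)))))))
(mv 1231 (cons (fin 1295 4 1038)
(mv 1167 (cons (fin 974 4 974)
(mv 1168 (cons (mv 1169 (cons (fin 1101 3 1101)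
(fin 1170 1 1166)))
(mv 1104 (cons (fin 976 5 975)
(mv 1165 (cons (fin 1105 2 1101)
(mv 1164 (cons (fin 1163 0 1163)
(fin 1232 0 1164))))))))))))))
(cons (mv 1294 (cons (mv 1293 (cons (fin 1229 5 1037)
(fin 1357 5 1101)))
(cons (mv 1359 (cons (fin 1295 4 1102)
(mv 1358 (cons (fin 1423 4 1166)
(mv 1165 (cons (fin 1101 7 1101)
(mv 1229 (cons (fin 1422 7 1165)
(fin 974 5 973)))))))))
(mv 1357 (cons (fin 1293 5 1101)
(mv 1358 (cons (fin 1421 5 1165)
(mv 1359 (cons (fin 1295 4 1102)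
(fin 1423 4 1166))))))))))
(cons (mv 1229 (cons (fin 1293 5 1037)
(mv 1167 (cons (mv 974 (cons (fin 1165 5 973)
(fin 1231 4 974)))
(cons (mv 1168 (cons (fin 1169 1 1165)
(mv 1228 (cons (fin 1165 1 1164)
(fin 1227 2 1163)))))
(mv 1168 (cons (fin 1169 1 1165)
(mv 1228 (cons (fin 1227 2 1163)
(fin 1231 2 1164))))))))))
(mv 1293 (cons (fin 1229 5 1037)
(mv 1294 (cons (fin 1357 5 1101)
(mv 1295 (cons (fin 1231 4 1038)
(fin 1359 4 1102))))))))))))
(cons (mv 974 (cons (cons (mv 909 (cons (fin 973 7 909)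
(mv 910 (cons (fin 845 7 845)
(mv 911 (cons (fin 847 6 846)
(fin 975 6 910)))))))
(mv 909 (cons (fin 973 7 909)
(mv 910 (cons (fin 845 7 845)
(mv 1165 (cons (fin 1101 5 909)
(fin 1229 5 973))))))))
(cons (mv 911 (cons (fin 975 6 910)
(mv 910 (cons (fin 847 6 846)
(mv 1165 (cons (fin 1101 5 909)
(fin 1229 5 973)))))))
(mv 973 (cons (fin 909 7 909)
(mv 972 (cons (fin 971 0 971)
(fin 975 0 972))))))))
(mv 1230 (cons (fin 975 6 974)
(mv 1293 (cons (fin 1229 5 1037)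
(mv 1294 (cons (fin 1357 5 1101)
(mv 1295 (cons (fin 1231 4 1038)
(fin 1359 4 1102)))))))))))))
(cons (mv 974 (cons (cons (mv 973 (cons (fin 1041 3 973)
(mv 972 (cons (fin 971 0 971)
(fin 975 0 972)))))
(mv 1166 (cons (mv 975 (cons (fin 911 6 910)
(fin 1230 6 974)))
(cons (mv 1229 (cons (fin 1165 5 973)
(mv 1230 (cons (fin 1293 5 1037)
(mv 1231 (cons (fin 1167 4 974)
(fin 1295 4 1038)))))))
(mv 911 (cons (fin 975 6 910)
(mv 910 (cons (fin 847 6 846)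
(mv 845 (cons (fin 909 7 845)
(mv 846 (cons (fin 781 7 781)
(mv 843 (cons (fin 844 0 843)
(mv 913 (cons (fin 912 3 845)
(mv 1165 (cons (fin 1229 5 973)
(mv 1041 (cons (cons (mv 977 (cons (fin 978 2 974)
(mv 849 (cons (fin 1104 5 848)
(mv 784 (cons (fin 848 7 784)
(mv 785 (cons (fin 720 7 720)
(fin 976 5 784)))))))))
(mv 1105 (cons (fin 1106 0 1038)
(mv 1167 (cons (fin 1231 4 974)
(mv 1168 (cons (fin 1104 2 1101)
(mv 1233 (cons (fin 1232 0 1165)
(mv 1169 (cons (fin 1234 0 1166)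
(fin 976 7 976))))))))))))
(cons (mv 977 (cons (fin 978 2 974)
(mv 1105 (cons (fin 1106 0 1038)
(mv 850 (cons (fin 914 6 849)
(mv 849 (cons (fin 786 6 785)
(mv 784 (cons (fin 848 7 784)
(mv 785 (cons (fin 720 7 720)
(fin 976 5 784)))))))))))))
(mv 977 (cons (fin 978 2 974)
(mv 849 (cons (fin 1104 5 848)
(mv 784 (cons (fin 848 7 784)
(mv 720 (cons (fin 785 7 720)
(mv 850 (cons (fin 786 6 785)
(mv 1105 (cons (fin 1106 0 1038)
(fin 914 6 849))))))))))))))))))))))))))))))))))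
(cons (mv 1166 (cons (mv 975 (cons (fin 911 6 910)
(fin 1230 6 974)))
(cons (mv 909 (cons (fin 973 7 909)
(mv 845 (cons (fin 910 7 845)
(mv 1229 (cons (fin 1165 5 973)
(mv 1230 (cons (fin 1293 5 1037)
(mv 1231 (cons (fin 1167 4 974)
(fin 1295 4 1038)))))))))))
(mv 909 (cons (fin 973 7 909)
(mv 910 (cons (fin 845 7 845)
(mv 911 (cons (fin 847 6 846)
(fin 975 6 910))))))))))
(mv 973 (cons (fin 1041 3 973)
(mv 909 (cons (fin 1166 7 909)
(mv 845 (cons (fin 910 7 845)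
(fin 781 4 781))))))))))
(cons (mv 1041 (cons (fin 1101 1 1037)
(mv 973 (cons (fin 974 3 973)
(mv 977 (cons (fin 978 2 974)
(mv 1105 (cons (fin 1106 0 1038)
(mv 913 (cons (mv 1104 (cons (fin 849 5 848)
(fin 1168 5 912)))
(cons (mv 848 (cons (fin 912 7 848)
(mv 849 (cons (fin 784 7 784)
(mv 850 (cons (fin 786 6 785)
(fin 914 6 849)))))))
(mv 848 (cons (fin 912 7 848)
(mv 850 (cons (fin 914 6 849)
(mv 1168 (cons (fin 1104 5 912)
(mv 1169 (cons (fin 1232 5 976)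
(mv 1233 (cons (fin 976 7 976)
(mv 1234 (cons (fin 1170 4 977)
(fin 1298 4 1041))))))))))))))))))))))))
(mv 1041 (cons (fin 1101 1 1037)
(mv 977 (cons (fin 978 2 974)
(mv 1105 (cons (fin 1106 0 1038)
(mv 913 (cons (mv 1104 (cons (fin 849 5 848)
(fin 1168 5 912)))
(cons (mv 848 (cons (fin 912 7 848)
(mv 849 (cons (fin 784 7 784)
(mv 850 (cons (fin 786 6 785)
(fin 914 6 849)))))))
(mv 848 (cons (fin 912 7 848)
(mv 850 (cons (fin 914 6 849)
(mv 1168 (cons (fin 1104 5 912)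
(mv 1169 (cons (fin 1232 5 976)
(mv 1233 (cons (fin 976 7 976)
(mv 1234 (cons (fin 1170 4 977)
(fin 1298 4 1041)))))))))))))))))))))))))
(cons (cons (mv 1041 (cons (fin 1101 1 1037)
(mv 974 (cons (fin 973 3 973)
(mv 977 (cons (fin 978 2 974)
(mv 1166 (cons (mv 975 (cons (fin 911 6 910)
(fin 1230 6 974)))
(cons (mv 1167 (cons (fin 1231 4 974)
(mv 1229 (cons (fin 1165 5 973)
(mv 1230 (cons (fin 1293 5 1037)
(mv 1168 (cons (fin 1169 1 1165)
(mv 1104 (cons (fin 1232 6 976)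
(mv 913 (cons (fin 849 5 848)
(fin 976 6 912)))))))))))))
(mv 911 (cons (fin 975 6 910)
(mv 910 (cons (fin 847 6 846)
(mv 845 (cons (fin 909 7 845)
(mv 846 (cons (fin 781 7 781)
(mv 843 (cons (fin 844 0 843)
(mv 913 (cons (fin 912 3 845)
(mv 849 (cons (fin 1104 5 848)
(mv 784 (cons (fin 848 7 784)
(mv 785 (cons (fin 720 7 720)
(fin 976 5 784))))))))))))))))))))))))))))
(mv 1041 (cons (fin 1101 1 1037)
(mv 973 (cons (fin 974 3 973)
(mv 977 (cons (fin 978 2 974)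
(mv 1105 (cons (fin 1106 0 1038)
(mv 1169 (cons (mv 976 (cons (fin 912 7 912)
(fin 1233 7 976)))
(cons (mv 1168 (cons (fin 1232 5 976)
(mv 1234 (cons (fin 1170 4 977)
(mv 1233 (cons (fin 1298 4 1041)
(mv 1166 (cons (fin 1167 0 1166)
(mv 1230 (cons (fin 975 6 974)
(mv 1235 (cons (fin 1236 3 1168)
(mv 1293 (cons (fin 1229 5 1037)
(mv 1294 (cons (fin 1357 5 1101)
(mv 1295 (cons (fin 1231 4 1038)
(fin 1359 4 1102)))))))))))))))))))
(mv 1168 (cons (fin 1232 5 976)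
(mv 1170 (cons (fin 1234 4 977)
(mv 913 (cons (cons (mv 912 (cons (fin 848 7 848)
(fin 976 7 912)))
(mv 850 (cons (fin 914 6 849)
(mv 849 (cons (fin 786 6 785)
(mv 784 (cons (fin 848 7 784)
(mv 785 (cons (fin 720 7 720)
(fin 976 5 784))))))))))
(cons (mv 850 (cons (fin 914 6 849)
(mv 849 (cons (fin 786 6 785)
(mv 976 (cons (fin 912 7 912)
(fin 785 5 784)))))))
(mv 848 (cons (fin 912 7 848)
(mv 849 (cons (fin 784 7 784)
(mv 850 (cons (fin 786 6 785)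
(fin 914 6 849))))))))))))))))))))))))))
(cons (mv 1041 (cons (fin 1101 1 1037)
(mv 973 (cons (fin 974 3 973)
(mv 977 (cons (fin 978 2 974)
(mv 1105 (cons (fin 1106 0 1038)
(mv 1169 (cons (mv 976 (cons (fin 912 7 912)
(fin 1233 7 976)))
(cons (mv 1234 (cons (fin 1170 4 977)
(mv 1233 (cons (fin 1298 4 1041)
(mv 1296 (cons (fin 1232 5 1040)
(mv 1297 (cons (fin 1104 7 1040)
(fin 1360 5 1104)))))))))
(mv 912 (cons (fin 976 7 912)
(mv 913 (cons (fin 848 7 848)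
(mv 849 (cons (fin 1104 5 848)
(mv 850 (cons (fin 786 6 785)
(fin 914 6 849))))))))))))))))))))
(cons (mv 1041 (cons (fin 1101 1 1037)
(mv 973 (cons (fin 974 3 973)
(mv 977 (cons (fin 978 2 974)
(mv 1105 (cons (fin 1106 0 1038)
(mv 913 (cons (mv 1104 (cons (fin 849 5 848)
(fin 1168 5 912)))
(cons (mv 848 (cons (fin 912 7 848)
(mv 849 (cons (fin 784 7 784)
(mv 850 (cons (fin 786 6 785)
(fin 914 6 849)))))))
(mv 850 (cons (fin 914 6 849)
(mv 912 (cons (fin 848 7 848)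
(mv 1104 (cons (fin 1168 5 912)
(mv 1169 (cons (fin 976 7 912)
(mv 1233 (cons (fin 1297 7 1040)
(mv 1234 (cons (fin 1170 4 977)
(fin 1298 4 1041))))))))))))))))))))))))
(mv 1041 (cons (fin 1101 1 1037)
(mv 974 (cons (fin 973 3 973)
(mv 977 (cons (fin 978 2 974)
(mv 1105 (cons (fin 1106 0 1038)
(mv 913 (cons (mv 1104 (cons (fin 849 5 848)
(fin 1168 5 912)))
(cons (mv 848 (cons (fin 912 7 848)
(mv 784 (cons (fin 849 7 784)
(mv 914 (cons (fin 850 6 849)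
(mv 975 (cons (fin 976 2 910)
(mv 911 (cons (fin 847 5 846)
(fin 1166 6 910)))))))))))
(mv 848 (cons (fin 912 7 848)
(mv 914 (cons (fin 850 6 849)
(mv 975 (cons (fin 976 2 910)
(mv 911 (cons (fin 847 5 846)
(fin 1166 6 910))))))))))))))))))))))))))
(cons (mv 1037 (cons (cons (mv 972 (cons (fin 973 3 972)
(mv 976 (cons (fin 977 2 973)
(mv 1036 (cons (fin 971 3 971)
(fin 975 2 972)))))))
(mv 972 (cons (fin 973 3 972)
(mv 1036 (cons (fin 971 3 971)
(mv 1100 (cons (fin 1099 1 1035)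
(fin 1101 1 1036))))))))
(cons (mv 976 (cons (fin 977 2 973)
(mv 975 (cons (fin 1036 2 972)
(mv 1100 (cons (fin 1101 1 1036)
(mv 1104 (cons (fin 1105 0 1037)
(mv 911 (cons (fin 1168 7 911)
(fin 847 4 847)))))))))))
(mv 972 (cons (fin 973 3 972)
(mv 976 (cons (fin 977 2 973)
(mv 1100 (cons (fin 1101 1 1036)
(mv 1104 (cons (fin 1105 0 1037)
(mv 1168 (cons (mv 975 (cons (fin 911 7 911)
(fin 1232 7 975)))
(cons (mv 1231 (cons (fin 1167 5 975)
(mv 1232 (cons (fin 1295 5 1039)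
(mv 1233 (cons (fin 1169 4 976)
(fin 1297 4 1040)))))))
(mv 1167 (cons (fin 1231 5 975)
(mv 1169 (cons (fin 1233 4 976)
(mv 912 (cons (cons (mv 911 (cons (fin 847 7 847)
(fin 975 7 911)))
(mv 849 (cons (fin 913 6 848)
(mv 848 (cons (fin 785 6 784)
(mv 783 (cons (fin 847 7 783)
(mv 784 (cons (fin 719 7 719)
(fin 975 5 783))))))))))
(cons (mv 847 (cons (fin 911 7 847)
(mv 848 (cons (fin 783 7 783)
(mv 849 (cons (fin 785 6 784)
(fin 913 6 848)))))))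
(mv 849 (cons (fin 913 6 848)
(mv 848 (cons (fin 785 6 784)
(mv 975 (cons (fin 911 7 911)
(fin 784 5 783))))))))))))))))))))))))))))
(mv 1037 (cons (cons (mv 976 (cons (fin 977 2 973)
(mv 975 (cons (fin 1036 2 972)
(mv 1100 (cons (fin 1101 1 1036)
(mv 1104 (cons (fin 1105 0 1037)
(mv 911 (cons (fin 1168 7 911)
(fin 847 4 847)))))))))))
(mv 976 (cons (fin 977 2 973)
(mv 975 (cons (fin 1036 2 972)
(mv 1104 (cons (fin 1105 0 1037)
(mv 911 (cons (fin 1168 7 911)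
(fin 847 4 847))))))))))
(cons (mv 1101 (cons (fin 1100 1 1036)
(mv 1041 (cons (fin 1102 1 1037)
(mv 1105 (cons (fin 1104 0 1037)
(fin 1106 0 1038)))))))
(mv 976 (cons (fin 977 2 973)
(mv 975 (cons (fin 1036 2 972)
(mv 1101 (cons (fin 1100 1 1036)
(mv 1102 (cons (fin 1041 1 1037)
(mv 911 (cons (fin 847 5 846)
(mv 1166 (cons (fin 974 6 910)
(fin 1230 6 974))))))))))))))))))
(cons (cons (mv 1037 (cons (cons (mv 972 (cons (fin 973 3 972)
(mv 971 (cons (fin 1036 3 971)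
(mv 1101 (cons (fin 1100 1 1036)
(mv 1041 (cons (fin 1102 1 1037)
(mv 1105 (cons (fin 1104 0 1037)
(fin 1106 0 1038)))))))))))
(cons (mv 1100 (cons (fin 1101 1 1036)
(mv 1036 (cons (fin 1099 1 1035)
(mv 971 (cons (fin 972 3 971)
(mv 975 (cons (fin 976 2 972)
(mv 1035 (cons (fin 970 3 970)
(fin 974 2 971)))))))))))
(mv 972 (cons (fin 973 3 972)
(mv 1036 (cons (fin 971 3 971)
(mv 975 (cons (fin 976 2 972)
(mv 1035 (cons (fin 974 2 971)
(mv 1099 (cons (fin 1098 1 1034)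
(fin 1100 1 1035)))))))))))))
(cons (mv 1100 (cons (fin 1101 1 1036)
(mv 1036 (cons (fin 1099 1 1035)
(mv 975 (cons (fin 976 2 972)
(mv 974 (cons (fin 1035 2 971)
(mv 1041 (cons (fin 973 3 973)
(mv 1105 (cons (fin 1104 0 1037)
(fin 1106 0 1038)))))))))))))
(cons (mv 972 (cons (fin 973 3 972)
(mv 1036 (cons (fin 971 3 971)
(mv 975 (cons (fin 976 2 972)
(mv 974 (cons (fin 1035 2 971)
(mv 1104 (cons (fin 1105 0 1037)
(mv 911 (cons (fin 847 4 847)
(mv 1102 (cons (fin 1166 6 910)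
(mv 1101 (cons (fin 1041 1 1037)
(mv 910 (cons (fin 846 5 845)
(fin 1165 5 909)))))))))))))))))))
(mv 972 (cons (fin 973 3 972)
(mv 1101 (cons (fin 1100 1 1036)
(mv 1041 (cons (fin 1102 1 1037)
(mv 1105 (cons (fin 1104 0 1037)
(fin 1106 0 1038)))))))))))))
(mv 1037 (cons (cons (mv 972 (cons (fin 973 3 972)
(mv 971 (cons (fin 1036 3 971)
(mv 977 (cons (fin 976 2 973)
(mv 1041 (cons (fin 978 2 974)
(mv 1105 (cons (fin 1104 0 1037)
(fin 1106 0 1038)))))))))))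
(mv 976 (cons (fin 977 2 973)
(mv 975 (cons (fin 1036 2 972)
(mv 1104 (cons (fin 1105 0 1037)
(mv 911 (cons (fin 1168 7 911)
(fin 847 4 847))))))))))
(cons (mv 973 (cons (fin 972 3 972)
(mv 1041 (cons (fin 974 3 973)
(mv 1105 (cons (fin 1104 0 1037)
(fin 1106 0 1038)))))))
(mv 972 (cons (fin 973 3 972)
(mv 976 (cons (fin 977 2 973)
(mv 1036 (cons (fin 971 3 971)
(fin 975 2 972)))))))))))
(cons (mv 1037 (cons (cons (mv 972 (cons (fin 973 3 972)
(mv 971 (cons (fin 1036 3 971)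
(mv 977 (cons (fin 976 2 973)
(mv 1041 (cons (fin 978 2 974)
(mv 1101 (cons (fin 1100 1 1036)
(fin 1102 1 1037)))))))))))
(mv 976 (cons (fin 977 2 973)
(mv 975 (cons (fin 1036 2 972)
(mv 1101 (cons (fin 1100 1 1036)
(mv 1102 (cons (fin 1041 1 1037)
(mv 911 (cons (fin 847 5 846)
(mv 1166 (cons (fin 974 6 910)
(fin 1230 6 974))))))))))))))
(cons (mv 972 (cons (fin 973 3 972)
(mv 976 (cons (fin 977 2 973)
(mv 1036 (cons (fin 971 3 971)
(fin 975 2 972)))))))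
(cons (mv 972 (cons (fin 973 3 972)
(mv 1036 (cons (fin 971 3 971)
(mv 1100 (cons (fin 1099 1 1035)
(fin 1101 1 1036)))))))
(mv 972 (cons (fin 973 3 972)
(mv 977 (cons (fin 976 2 973)
(mv 1041 (cons (fin 978 2 974)
(mv 1101 (cons (fin 1100 1 1036)
(fin 1102 1 1037)))))))))))))
(mv 1041 (cons (cons (mv 973 (cons (fin 974 3 973)
(mv 977 (cons (fin 978 2 974)
(mv 1037 (cons (fin 972 3 972)
(mv 1101 (cons (fin 1100 1 1036)
(fin 1102 1 1037)))))))))
(mv 977 (cons (fin 978 2 974)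
(mv 1101 (cons (fin 1102 1 1037)
(mv 1037 (cons (fin 1100 1 1036)
(mv 1105 (cons (fin 1104 0 1037)
(fin 1106 0 1038))))))))))
(cons (mv 973 (cons (fin 974 3 973)
(mv 977 (cons (fin 978 2 974)
(mv 1037 (cons (fin 972 3 972)
(mv 1105 (cons (fin 1104 0 1037)
(fin 1106 0 1038)))))))))
(cons (mv 973 (cons (fin 974 3 973)
(mv 1037 (cons (fin 972 3 972)
(mv 1101 (cons (fin 1100 1 1036)
(fin 1102 1 1037)))))))
(mv 973 (cons (fin 974 3 973)
(mv 977 (cons (fin 978 2 974)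
(mv 1101 (cons (fin 1102 1 1037)
(mv 1105 (cons (fin 1106 0 1038)
(mv 913 (cons (mv 1104 (cons (fin 849 5 848)
(fin 1168 5 912)))
(cons (mv 848 (cons (fin 912 7 848)
(mv 849 (cons (fin 784 7 784)
(mv 850 (cons (fin 786 6 785)
(fin 914 6 849)))))))
(mv 848 (cons (fin 912 7 848)
(mv 850 (cons (fin 914 6 849)
(mv 1169 (cons (cons (mv 1168 (cons (fin 1104 5 912)
(fin 1232 5 976)))
(mv 1234 (cons (fin 1170 4 977)
(mv 1233 (cons (fin 1298 4 1041)
(mv 1296 (cons (fin 1232 5 1040)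
(mv 1297 (cons (fin 1104 7 1040)
(fin 1360 5 1104))))))))))
(cons (mv 1232 (cons (fin 1168 5 976)
(mv 1233 (cons (fin 1296 5 1040)
(mv 1234 (cons (fin 1170 4 977)
(fin 1298 4 1041)))))))
(mv 1104 (cons (fin 1168 5 912)
(mv 1233 (cons (fin 1297 7 1040)
(mv 1234 (cons (fin 1170 4 977)
(fin 1298 4 1041)))))))))))))))))))))))))))))))))
(mv 1038 (cons (cons (cons (mv 1037 (cons (cons (mv 972 (cons (fin 973 3 972)
(mv 971 (cons (fin 1036 3 971)
(mv 1101 (cons (fin 1100 1 1036)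
(mv 1041 (cons (fin 1102 1 1037)
(mv 1105 (cons (fin 1104 0 1037)
(fin 1106 0 1038)))))))))))
(mv 1100 (cons (fin 1101 1 1036)
(mv 1036 (cons (fin 1099 1 1035)
(mv 1104 (cons (fin 1103 0 1036)
(fin 1105 0 1037))))))))
(cons (mv 972 (cons (fin 973 3 972)
(mv 1036 (cons (fin 971 3 971)
(mv 1104 (cons (fin 1103 0 1036)
(fin 1105 0 1037)))))))
(cons (mv 972 (cons (fin 973 3 972)
(mv 1036 (cons (fin 971 3 971)
(mv 1100 (cons (fin 1099 1 1035)
(fin 1101 1 1036)))))))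
(mv 972 (cons (fin 973 3 972)
(mv 1101 (cons (fin 1100 1 1036)
(mv 1041 (cons (fin 1102 1 1037)
(mv 1105 (cons (fin 1104 0 1037)
(fin 1106 0 1038)))))))))))))
(mv 1102 (cons (cons (mv 1041 (cons (fin 1101 1 1037)
(mv 974 (cons (fin 973 3 973)
(mv 1105 (cons (fin 1106 0 1038)
(mv 1166 (cons (mv 975 (cons (fin 911 6 910)
(fin 1230 6 974)))
(mv 1165 (cons (fin 1229 5 973)
(mv 1103 (cons (fin 1104 1 1101)
(mv 910 (cons (fin 846 4 846)
(fin 1167 4 910)))))))))))))))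
(mv 975 (cons (cons (mv 911 (cons (fin 847 5 846)
(mv 1166 (cons (fin 1103 5 910)
(fin 974 6 910)))))
(mv 1166 (cons (fin 1230 6 974)
(mv 974 (cons (mv 973 (cons (fin 1041 3 973)
(fin 972 0 972)))
(mv 1165 (cons (fin 1229 5 973)
(mv 1167 (cons (fin 1231 4 974)
(mv 910 (cons (fin 1103 7 910)
(mv 845 (cons (fin 909 7 845)
(mv 846 (cons (fin 781 7 781)
(fin 782 4 782))))))))))))))))
(cons (mv 911 (cons (fin 847 5 846)
(mv 1103 (cons (cons (mv 846 (cons (fin 910 7 846)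
(mv 848 (cons (fin 912 6 847)
(mv 1168 (cons (fin 1104 4 911)
(mv 1167 (cons (fin 1232 4 975)
(mv 1231 (cons (fin 974 7 974)
(fin 1295 7 1038)))))))))))
(mv 846 (cons (fin 910 7 846)
(mv 912 (cons (fin 848 6 847)
(mv 1167 (cons (fin 976 6 911)
(mv 1231 (cons (fin 974 7 974)
(fin 1295 7 1038))))))))))
(cons (mv 848 (cons (fin 912 6 847)
(mv 1168 (cons (fin 1104 4 911)
(mv 1167 (cons (fin 1232 4 975)
(mv 1231 (cons (fin 974 7 974)
(fin 1295 7 1038)))))))))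
(cons (mv 846 (cons (fin 910 7 846)
(mv 1168 (cons (fin 1104 4 911)
(mv 1167 (cons (fin 1232 4 975)
(mv 1231 (cons (fin 974 7 974)
(fin 1295 7 1038)))))))))
(mv 846 (cons (fin 910 7 846)
(mv 912 (cons (fin 848 6 847)
(mv 1104 (cons (fin 1168 4 911)
(mv 1105 (cons (fin 1106 3 1038)
(mv 1169 (cons (fin 1170 0 1102)
(fin 976 4 912)))))))))))))))))
(cons (mv 911 (cons (fin 847 5 846)
(mv 1166 (cons (fin 1103 5 910)
(fin 1230 6 974)))))
(mv 911 (cons (fin 847 5 846)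
(mv 1166 (cons (fin 974 6 910)
(fin 1230 6 974))))))))))
(cons (mv 975 (cons (cons (mv 911 (cons (fin 847 5 846)
(mv 1166 (cons (fin 1103 5 910)
(fin 974 6 910)))))
(mv 1166 (cons (fin 1230 6 974)
(mv 974 (cons (mv 973 (cons (fin 972 0 972)
(fin 909 7 909)))
(mv 1165 (cons (fin 1229 5 973)
(mv 910 (cons (fin 1101 5 909)
(mv 846 (cons (fin 782 4 782)
(fin 1103 4 846))))))))))))
(cons (mv 911 (cons (fin 847 5 846)
(mv 1103 (cons (cons (mv 846 (cons (fin 910 7 846)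
(mv 848 (cons (fin 912 6 847)
(mv 1100 (cons (fin 1101 2 1036)
(mv 1168 (cons (fin 1104 4 911)
(mv 1167 (cons (fin 1232 4 975)
(mv 1231 (cons (fin 974 7 974)
(fin 1295 7 1038)))))))))))))
(cons (mv 846 (cons (fin 910 7 846)
(mv 912 (cons (fin 848 6 847)
(mv 1100 (cons (fin 1101 2 1036)
(mv 1167 (cons (fin 976 6 911)
(mv 1231 (cons (fin 974 7 974)
(fin 1295 7 1038)))))))))))
(mv 848 (cons (fin 912 6 847)
(mv 1100 (cons (fin 1101 2 1036)
(mv 1168 (cons (fin 1104 4 911)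
(mv 1167 (cons (fin 1232 4 975)
(mv 1231 (cons (fin 974 7 974)
(fin 1295 7 1038)))))))))))))
(cons (mv 846 (cons (fin 910 7 846)
(mv 1100 (cons (fin 1101 2 1036)
(mv 1168 (cons (fin 1104 4 911)
(mv 1167 (cons (fin 1232 4 975)
(mv 1231 (cons (fin 974 7 974)
(fin 1295 7 1038)))))))))))
(cons (mv 846 (cons (fin 910 7 846)
(mv 848 (cons (fin 912 6 847)
(mv 1168 (cons (fin 1104 4 911)
(mv 1167 (cons (fin 1232 4 975)
(mv 1231 (cons (fin 974 7 974)
(fin 1295 7 1038)))))))))))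
(mv 846 (cons (fin 910 7 846)
(mv 912 (cons (fin 848 6 847)
(mv 1100 (cons (fin 1101 2 1036)
(mv 1104 (cons (fin 1168 4 911)
(mv 1105 (cons (fin 1106 3 1038)
(mv 1169 (cons (fin 1170 0 1102)
(fin 976 4 912)))))))))))))))))))
(cons (mv 911 (cons (fin 847 5 846)
(mv 1166 (cons (fin 974 6 910)
(fin 1230 6 974)))))
(mv 911 (cons (fin 847 5 846)
(mv 1166 (cons (fin 1103 5 910)
(fin 1230 6 974)))))))))
(cons (mv 1101 (cons (fin 1041 1 1037)
(mv 1100 (cons (fin 1099 2 1035)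
(fin 1103 2 1036)))))
(mv 1041 (cons (fin 1101 1 1037)
(mv 974 (cons (fin 973 3 973)
(mv 1105 (cons (fin 1106 0 1038)
(mv 1166 (cons (mv 975 (cons (fin 911 6 910)
(fin 1230 6 974)))
(mv 1165 (cons (fin 1229 5 973)
(mv 1167 (cons (fin 1231 4 974)
(mv 1168 (cons (fin 1104 2 1101)
(mv 1233 (cons (fin 1232 0 1165)
(mv 1169 (cons (fin 1234 0 1166)
(fin 976 7 976))))))))))))))))))))))))
(cons (mv 1037 (cons (cons (mv 972 (cons (fin 973 3 972)
(mv 1036 (cons (fin 971 3 971)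
(mv 1100 (cons (fin 1099 1 1035)
(fin 1101 1 1036)))))))
(mv 1100 (cons (fin 1101 1 1036)
(mv 1036 (cons (fin 1099 1 1035)
(mv 1104 (cons (fin 1103 0 1036)
(fin 1105 0 1037))))))))
(cons (mv 972 (cons (fin 973 3 972)
(mv 1036 (cons (fin 971 3 971)
(mv 1104 (cons (fin 1103 0 1036)
(fin 1105 0 1037)))))))
(mv 972 (cons (fin 973 3 972)
(mv 1101 (cons (fin 1100 1 1036)
(mv 1104 (cons (fin 1105 0 1037)
(mv 975 (cons (cons (mv 911 (cons (fin 847 4 847)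
(mv 1168 (cons (fin 976 7 911)
(fin 1232 7 975)))))
(mv 1168 (cons (fin 1232 7 975)
(mv 1102 (cons (cons (mv 1103 (cons (fin 1169 0 1101)
(mv 1165 (cons (fin 1164 1 1100)
(mv 974 (cons (fin 910 5 909)
(fin 1229 6 973)))))))
(mv 1166 (cons (fin 1230 6 974)
(mv 1165 (cons (mv 974 (cons (fin 910 5 909)
(fin 1229 5 973)))
(cons (mv 910 (cons (fin 974 5 909)
(mv 1164 (cons (fin 1103 1 1100)
(mv 1163 (cons (fin 1162 2 1098)
(mv 1099 (cons (fin 1098 3 1098)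
(mv 1227 (cons (fin 1226 1 1162)
(mv 1228 (cons (fin 1167 1 1163)
(mv 1035 (cons (fin 971 4 971)
(fin 1292 4 1035)))))))))))))))
(mv 1103 (cons (fin 1164 1 1100)
(mv 1229 (cons (fin 1293 6 1037)
(mv 1228 (cons (fin 1167 1 1164)
(fin 1292 5 1036)))))))))))))
(cons (mv 1166 (cons (fin 1230 6 974)
(mv 1167 (cons (fin 1169 3 1101)
(mv 1231 (cons (fin 976 5 975)
(fin 974 4 974)))))))
(mv 1103 (cons (fin 1169 0 1101)
(mv 1165 (cons (fin 1164 1 1100)
(mv 1166 (cons (fin 1230 6 974)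
(mv 1229 (cons (fin 1293 6 1037)
(mv 1228 (cons (fin 1167 1 1164)
(fin 1292 5 1036)))))))))))))))))
(cons (mv 911 (cons (fin 847 4 847)
(mv 1103 (cons (cons (mv 846 (cons (fin 910 7 846)
(mv 848 (cons (fin 912 6 847)
(mv 1102 (cons (fin 1166 5 910)
(mv 1165 (cons (fin 1164 1 1100)
(mv 1229 (cons (fin 974 6 973)
(fin 1293 6 1037)))))))))))
(mv 848 (cons (fin 912 6 847)
(mv 1102 (cons (fin 1166 5 910)
(mv 1165 (cons (fin 1164 1 1100)
(mv 1229 (cons (fin 974 6 973)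
(fin 1293 6 1037))))))))))
(cons (mv 846 (cons (fin 910 7 846)
(mv 912 (cons (fin 848 6 847)
(mv 976 (cons (fin 1167 5 911)
(mv 913 (cons (fin 849 6 848)
(mv 914 (cons (fin 974 1 910)
(fin 915 1 911)))))))))))
(cons (mv 846 (cons (fin 910 7 846)
(mv 1102 (cons (fin 1166 5 910)
(mv 1165 (cons (fin 1164 1 1100)
(mv 1229 (cons (fin 974 6 973)
(fin 1293 6 1037)))))))))
(mv 846 (cons (fin 910 7 846)
(mv 848 (cons (fin 912 6 847)
(mv 1166 (cons (fin 1102 5 910)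
(mv 1167 (cons (fin 1230 5 974)
(mv 1231 (cons (fin 976 6 975)
(fin 1295 6 1039)))))))))))))))))
(mv 911 (cons (fin 847 4 847)
(mv 1168 (cons (fin 1232 7 975)
(fin 1103 4 911)))))))))))))))))
(cons (mv 1037 (cons (cons (mv 1100 (cons (fin 1101 1 1036)
(mv 1036 (cons (fin 1099 1 1035)
(mv 1104 (cons (fin 1103 0 1036)
(fin 1105 0 1037)))))))
(mv 1100 (cons (fin 1101 1 1036)
(mv 1036 (cons (fin 1099 1 1035)
(mv 971 (cons (fin 972 3 971)
(mv 975 (cons (fin 976 2 972)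
(mv 1035 (cons (fin 970 3 970)
(fin 974 2 971))))))))))))
(cons (mv 1104 (cons (fin 1105 0 1037)
(mv 1036 (cons (fin 1103 0 1036)
(mv 971 (cons (fin 972 3 971)
(mv 975 (cons (fin 976 2 972)
(mv 1035 (cons (fin 970 3 970)
(fin 974 2 971)))))))))))
(mv 1101 (cons (fin 1100 1 1036)
(mv 1041 (cons (fin 1102 1 1037)
(mv 1105 (cons (fin 1104 0 1037)
(fin 1106 0 1038))))))))))
(mv 1037 (cons (cons (mv 972 (cons (fin 973 3 972)
(mv 1036 (cons (fin 971 3 971)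
(mv 1104 (cons (fin 1103 0 1036)
(fin 1105 0 1037)))))))
(mv 972 (cons (fin 973 3 972)
(mv 1036 (cons (fin 971 3 971)
(mv 975 (cons (fin 976 2 972)
(mv 1035 (cons (fin 974 2 971)
(mv 1099 (cons (fin 1098 1 1034)
(fin 1100 1 1035))))))))))))
(cons (mv 1104 (cons (fin 1105 0 1037)
(mv 1036 (cons (fin 1103 0 1036)
(mv 971 (cons (fin 972 3 971)
(mv 975 (cons (fin 976 2 972)
(mv 1035 (cons (fin 970 3 970)
(fin 974 2 971)))))))))))
(cons (mv 1104 (cons (fin 1105 0 1037)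
(mv 1036 (cons (fin 1103 0 1036)
(mv 975 (cons (fin 976 2 972)
(mv 847 (cons (fin 911 4 847)
(mv 1035 (cons (fin 974 2 971)
(mv 1099 (cons (fin 1098 1 1034)
(fin 1100 1 1035)))))))))))))
(mv 973 (cons (fin 972 3 972)
(mv 1041 (cons (fin 974 3 973)
(mv 1105 (cons (fin 1104 0 1037)
(fin 1106 0 1038))))))))))))))
(cons (cons (mv 1037 (cons (cons (mv 972 (cons (fin 973 3 972)
(mv 1036 (cons (fin 971 3 971)
(mv 1100 (cons (fin 1099 1 1035)
(fin 1101 1 1036)))))))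
(cons (mv 1100 (cons (fin 1101 1 1036)
(mv 1036 (cons (fin 1099 1 1035)
(mv 971 (cons (fin 972 3 971)
(mv 975 (cons (fin 976 2 972)
(mv 1035 (cons (fin 970 3 970)
(fin 974 2 971)))))))))))
(mv 972 (cons (fin 973 3 972)
(mv 1036 (cons (fin 971 3 971)
(mv 975 (cons (fin 976 2 972)
(mv 974 (cons (fin 1035 2 971)
(mv 1099 (cons (fin 1100 1 1035)
(mv 1103 (cons (fin 1104 0 1036)
(mv 910 (cons (fin 1167 7 910)
(fin 846 4 846)))))))))))))))))
(cons (mv 1100 (cons (fin 1101 1 1036)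
(mv 1036 (cons (fin 1099 1 1035)
(mv 975 (cons (fin 976 2 972)
(mv 974 (cons (fin 1035 2 971)
(mv 973 (cons (fin 1041 3 973)
(mv 845 (cons (fin 909 5 844)
(mv 1103 (cons (fin 1104 0 1036)
(mv 910 (cons (fin 1167 7 910)
(fin 846 4 846)))))))))))))))))
(cons (mv 972 (cons (fin 973 3 972)
(mv 1036 (cons (fin 971 3 971)
(mv 975 (cons (fin 976 2 972)
(mv 974 (cons (fin 1035 2 971)
(mv 1103 (cons (fin 1104 0 1036)
(mv 910 (cons (fin 1167 7 910)
(fin 846 4 846)))))))))))))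
(mv 973 (cons (fin 972 3 972)
(mv 974 (cons (fin 1041 3 973)
(mv 1101 (cons (fin 1100 1 1036)
(mv 910 (cons (fin 846 5 845)
(fin 1165 6 909)))))))))))))
(cons (mv 1037 (cons (cons (mv 972 (cons (fin 973 3 972)
(mv 1036 (cons (fin 971 3 971)
(mv 1100 (cons (fin 1099 1 1035)
(fin 1101 1 1036)))))))
(cons (mv 1100 (cons (fin 1101 1 1036)
(mv 1036 (cons (fin 1099 1 1035)
(mv 971 (cons (fin 972 3 971)
(mv 975 (cons (fin 976 2 972)
(mv 1035 (cons (fin 970 3 970)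
(fin 974 2 971)))))))))))
(mv 972 (cons (fin 973 3 972)
(mv 1036 (cons (fin 971 3 971)
(mv 975 (cons (fin 976 2 972)
(mv 1035 (cons (fin 974 2 971)
(mv 1099 (cons (fin 1098 1 1034)
(fin 1100 1 1035)))))))))))))
(cons (mv 1100 (cons (fin 1101 1 1036)
(mv 1036 (cons (fin 1099 1 1035)
(mv 975 (cons (fin 976 2 972)
(mv 974 (cons (fin 1035 2 971)
(mv 973 (cons (fin 1041 3 973)
(mv 845 (cons (fin 909 5 844)
(mv 1164 (cons (fin 1228 6 972)
(mv 910 (cons (mv 846 (cons (fin 781 7 781)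
(fin 782 5 781)))
(mv 1103 (cons (fin 1167 7 910)
(mv 911 (cons (mv 847 (cons (fin 783 5 782)
(fin 1102 5 846)))
(mv 912 (cons (fin 913 1 909)
(fin 848 6 847)))))))))))))))))))))))
(cons (mv 972 (cons (fin 973 3 972)
(mv 1036 (cons (fin 971 3 971)
(mv 975 (cons (fin 976 2 972)
(mv 1035 (cons (fin 974 2 971)
(mv 1098 (cons (fin 1099 1 1034)
(mv 1034 (cons (fin 1097 1 1033)
(mv 1102 (cons (fin 1101 0 1034)
(fin 1103 0 1035)))))))))))))))
(mv 973 (cons (fin 972 3 972)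
(mv 974 (cons (fin 1041 3 973)
(mv 1101 (cons (fin 1100 1 1036)
(mv 910 (cons (fin 846 5 845)
(fin 1165 6 909)))))))))))))
(mv 1041 (cons (cons (mv 973 (cons (fin 974 3 973)
(mv 1101 (cons (fin 1102 1 1037)
(mv 1037 (cons (fin 1100 1 1036)
(mv 1105 (cons (fin 1104 0 1037)
(fin 1106 0 1038)))))))))
(cons (mv 974 (cons (fin 973 3 973)
(mv 1101 (cons (fin 1102 1 1037)
(mv 1037 (cons (fin 1100 1 1036)
(mv 910 (cons (fin 846 5 845)
(mv 1165 (cons (fin 1229 6 973)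
(mv 975 (cons (mv 1036 (cons (fin 1035 2 971)
(fin 976 2 972)))
(cons (mv 1103 (cons (fin 1167 7 910)
(mv 911 (cons (mv 847 (cons (fin 783 5 782)
(fin 1104 4 847)))
(cons (mv 912 (cons (fin 848 6 847)
(mv 913 (cons (fin 914 1 910)
(mv 849 (cons (fin 850 2 846)
(mv 1104 (cons (fin 976 6 848)
(fin 1168 4 911)))))))))
(mv 847 (cons (fin 783 5 782)
(mv 848 (cons (fin 784 6 783)
(fin 912 6 847))))))))))
(mv 1036 (cons (fin 1035 2 971)
(mv 1103 (cons (fin 1104 0 1036)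
(fin 1167 7 910))))))))))))))))))
(mv 973 (cons (fin 974 3 973)
(mv 1105 (cons (fin 1106 0 1038)
(mv 1104 (cons (fin 1037 0 1037)
(mv 976 (cons (mv 912 (cons (fin 848 4 848)
(fin 1169 4 912)))
(cons (mv 1169 (cons (fin 1233 7 976)
(mv 1168 (cons (mv 975 (cons (fin 911 7 911)
(fin 1232 7 975)))
(cons (mv 975 (cons (fin 911 7 911)
(mv 1167 (cons (fin 1231 5 975)
(mv 1166 (cons (fin 1165 2 1101)
(mv 1230 (cons (fin 1229 1 1165)
(fin 1103 5 974)))))))))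
(mv 1231 (cons (fin 1167 5 975)
(mv 1232 (cons (fin 1295 5 1039)
(fin 1296 6 1040))))))))))
(mv 912 (cons (fin 848 4 848)
(mv 847 (cons (fin 911 7 847)
(mv 849 (cons (fin 913 6 848)
(mv 1167 (cons (fin 1103 5 911)
(mv 1168 (cons (fin 1231 5 975)
(mv 1232 (cons (fin 975 7 975)
(fin 1296 6 1040))))))))))))))))))))))))
(cons (mv 1101 (cons (fin 1102 1 1037)
(mv 1037 (cons (fin 1100 1 1036)
(mv 1105 (cons (fin 1104 0 1037)
(fin 1106 0 1038)))))))
(cons (mv 973 (cons (fin 974 3 973)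
(mv 1102 (cons (fin 1101 1 1037)
(mv 1105 (cons (fin 1106 0 1038)
(mv 1166 (cons (cons (mv 975 (cons (fin 1230 6 974)
(mv 911 (cons (fin 847 5 846)
(fin 1103 5 910)))))
(mv 1103 (cons (cons (mv 911 (cons (fin 975 5 910)
(mv 1104 (cons (fin 1165 1 1101)
(mv 1169 (cons (fin 1170 0 1102)
(mv 976 (cons (fin 1233 7 976)
(fin 912 4 912)))))))))
(mv 975 (cons (fin 911 5 910)
(mv 1167 (cons (mv 976 (cons (fin 912 6 911)
(fin 1231 6 975)))
(cons (mv 1231 (cons (fin 1295 7 1038)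
(mv 1232 (cons (fin 1168 4 975)
(fin 1296 4 1039)))))
(mv 976 (cons (fin 912 6 911)
(mv 1168 (cons (fin 1232 4 975)
(mv 1169 (cons (fin 1170 3 1102)
(fin 1233 7 976)))))))))))))
(cons (mv 1104 (cons (fin 1165 1 1101)
(mv 1169 (cons (fin 1170 0 1102)
(mv 976 (cons (fin 1233 7 976)
(fin 912 4 912)))))))
(cons (mv 911 (cons (fin 975 5 910)
(mv 1104 (cons (fin 1165 1 1101)
(mv 1169 (cons (fin 1170 0 1102)
(mv 1233 (cons (fin 1297 7 1040)
(mv 1232 (cons (fin 1296 5 1040)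
(mv 1234 (cons (fin 1298 4 1041)
(mv 1167 (cons (fin 1231 3 1166)
(fin 1168 0 1166)))))))))))))))
(mv 911 (cons (fin 975 5 910)
(mv 1165 (cons (fin 1104 1 1101)
(mv 1164 (cons (fin 1163 2 1099)
(mv 1167 (cons (mv 1231 (cons (fin 1232 0 1164)
(fin 1295 7 1038)))
(mv 1100 (cons (fin 1099 3 1099)
(mv 1228 (cons (fin 1227 1 1163)
(mv 1229 (cons (fin 1168 1 1164)
(mv 1293 (cons (fin 1357 7 1100)
(fin 1036 4 1036))))))))))))))))))))))
(cons (mv 1230 (cons (cons (mv 1103 (cons (fin 1294 6 1038)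
(mv 1104 (cons (fin 1165 1 1101)
(mv 1169 (cons (fin 1170 0 1102)
(mv 976 (cons (fin 1233 7 976)
(fin 912 4 912)))))))))
(mv 1229 (cons (fin 1293 5 1037)
(mv 1231 (cons (fin 1295 4 1038)
(mv 1232 (cons (mv 1165 (cons (fin 1164 3 1164)
(fin 1233 3 1165)))
(mv 1168 (cons (fin 1169 2 1165)
(mv 1296 (cons (fin 1297 0 1229)
(fin 1104 6 1040))))))))))))
(cons (mv 1103 (cons (fin 1294 6 1038)
(mv 1104 (cons (fin 1165 1 1101)
(mv 1229 (cons (fin 1293 5 1037)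
(mv 1231 (cons (fin 1295 4 1038)
(mv 1167 (cons (fin 976 6 975)
(mv 1228 (cons (fin 1227 2 1163)
(fin 1168 2 1164)))))))))))))
(cons (mv 1103 (cons (fin 1294 6 1038)
(mv 1229 (cons (fin 1293 5 1037)
(mv 1231 (cons (fin 1295 4 1038)
(mv 976 (cons (fin 1167 6 975)
(mv 912 (cons (fin 848 5 847)
(mv 1169 (cons (fin 1233 7 976)
(fin 1104 4 912)))))))))))))
(mv 1103 (cons (fin 1294 6 1038)
(mv 1229 (cons (fin 1293 5 1037)
(mv 1231 (cons (fin 1295 4 1038)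
(mv 976 (cons (fin 1167 6 975)
(mv 848 (cons (fin 912 5 847)
(mv 1233 (cons (fin 1169 7 976)
(mv 1232 (cons (fin 1165 3 1165)
(mv 1297 (cons (fin 1296 0 1229)
(fin 1298 0 1230)))))))))))))))))))))
(mv 1230 (cons (fin 975 6 974)
(mv 1231 (cons (fin 1295 4 1038)
(mv 1293 (cons (fin 1229 5 1037)
(mv 1294 (cons (fin 1357 5 1101)
(mv 1233 (cons (fin 1232 1 1229)
(mv 1169 (cons (fin 976 7 976)
(mv 1234 (cons (fin 1298 4 1041)
(mv 1167 (cons (fin 1168 0 1166)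
(mv 1297 (cons (fin 1104 7 1040)
(mv 1358 (cons (fin 1422 6 1166)
(mv 1359 (cons (fin 1423 4 1166)
(mv 1360 (cons (fin 1361 3 1293)
(fin 1296 5 1104))))))))))))))))))))))))))))))))))
(mv 974 (cons (fin 973 3 973)
(mv 1102 (cons (fin 1101 1 1037)
(mv 1105 (cons (fin 1106 0 1038)
(mv 910 (cons (cons (mv 1103 (cons (fin 846 4 846)
(fin 1167 4 910)))
(mv 845 (cons (fin 909 7 845)
(mv 781 (cons (fin 846 7 781)
(mv 911 (cons (fin 847 6 846)
(mv 1166 (cons (fin 975 6 910)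
(mv 1167 (cons (fin 1231 4 974)
(mv 1229 (cons (fin 1165 5 973)
(mv 1230 (cons (fin 1293 5 1037)
(mv 1169 (cons (fin 1168 1 1165)
(mv 1233 (cons (fin 976 7 976)
(mv 1296 (cons (fin 1232 5 1040)
(mv 1297 (cons (fin 1360 5 1104)
(mv 1298 (cons (fin 1234 4 1041)
(fin 1362 4 1105))))))))))))))))))))))))))
(cons (mv 845 (cons (fin 909 7 845)
(mv 847 (cons (fin 911 6 846)
(mv 1167 (cons (fin 1103 4 910)
(mv 1166 (cons (fin 1231 4 974)
(mv 1229 (cons (fin 1165 5 973)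
(mv 1230 (cons (fin 1293 5 1037)
(fin 975 6 974)))))))))))))
(mv 845 (cons (fin 909 7 845)
(mv 846 (cons (fin 781 7 781)
(fin 1103 4 846))))))))))))))))))))
(cons (mv 1041 (cons (cons (mv 973 (cons (fin 974 3 973)
(mv 1037 (cons (fin 972 3 972)
(mv 1105 (cons (fin 1104 0 1037)
(fin 1106 0 1038)))))))
(mv 973 (cons (fin 974 3 973)
(mv 1037 (cons (fin 972 3 972)
(mv 1102 (cons (fin 1101 1 1037)
(mv 845 (cons (fin 909 4 845)
(mv 1166 (cons (fin 1230 7 973)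
(mv 1103 (cons (mv 1036 (cons (fin 1035 0 1035)
(fin 1104 0 1036)))
(cons (mv 975 (cons (fin 911 5 910)
(mv 1167 (cons (mv 976 (cons (fin 912 6 911)
(fin 1231 6 975)))
(cons (mv 976 (cons (fin 912 6 911)
(mv 1168 (cons (fin 1232 4 975)
(mv 1169 (cons (fin 1170 3 1102)
(mv 1233 (cons (fin 1234 0 1166)
(fin 1104 4 976)))))))))
(mv 1231 (cons (fin 1295 7 1038)
(mv 1232 (cons (fin 1168 4 975)
(fin 1296 4 1039))))))))))
(mv 975 (cons (fin 911 5 910)
(mv 1036 (cons (fin 976 2 972)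
(fin 1035 0 1035)))))))))))))))))))
(cons (mv 1101 (cons (fin 1102 1 1037)
(mv 1105 (cons (fin 1106 0 1038)
(mv 1104 (cons (fin 1037 0 1037)
(mv 976 (cons (mv 912 (cons (fin 848 4 848)
(fin 1169 4 912)))
(cons (mv 1169 (cons (fin 1233 7 976)
(mv 1168 (cons (mv 975 (cons (fin 911 7 911)
(fin 1232 7 975)))
(cons (mv 975 (cons (fin 911 7 911)
(mv 1167 (cons (fin 1231 5 975)
(mv 1166 (cons (fin 1165 2 1101)
(mv 1230 (cons (fin 1229 1 1165)
(fin 1103 5 974)))))))))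
(mv 1231 (cons (fin 1167 5 975)
(mv 1232 (cons (fin 1295 5 1039)
(fin 1296 6 1040))))))))))
(mv 912 (cons (fin 848 4 848)
(mv 847 (cons (fin 911 7 847)
(mv 849 (cons (fin 913 6 848)
(mv 1167 (cons (fin 1103 5 911)
(mv 1168 (cons (fin 1231 5 975)
(mv 1232 (cons (fin 975 7 975)
(fin 1296 6 1040))))))))))))))))))))))
(cons (mv 973 (cons (fin 974 3 973)
(mv 1102 (cons (fin 1101 1 1037)
(mv 1105 (cons (fin 1106 0 1038)
(mv 1169 (cons (cons (mv 976 (cons (fin 1233 7 976)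
(mv 912 (cons (fin 848 4 848)
(fin 1104 4 912)))))
(mv 1104 (cons (cons (mv 912 (cons (fin 976 4 912)
(mv 1103 (cons (fin 1170 0 1102)
(mv 1166 (cons (fin 1165 1 1101)
(mv 975 (cons (fin 911 5 910)
(fin 1230 6 974)))))))))
(mv 976 (cons (fin 912 4 912)
(mv 1168 (cons (mv 975 (cons (fin 911 7 911)
(fin 1232 7 975)))
(cons (mv 1231 (cons (fin 1167 5 975)
(mv 1232 (cons (fin 1295 5 1039)
(fin 1296 6 1040)))))
(mv 975 (cons (fin 911 7 911)
(mv 1166 (cons (fin 1230 6 974)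
(mv 1167 (cons (fin 1165 2 1101)
(fin 1231 5 975)))))))))))))
(cons (mv 1103 (cons (fin 1170 0 1102)
(mv 1166 (cons (fin 1165 1 1101)
(mv 975 (cons (fin 911 5 910)
(fin 1230 6 974)))))))
(cons (mv 912 (cons (fin 976 4 912)
(mv 1103 (cons (fin 1170 0 1102)
(mv 1166 (cons (fin 1165 1 1101)
(mv 1230 (cons (fin 1294 6 1038)
(mv 1229 (cons (fin 1293 5 1037)
(mv 1168 (cons (fin 1167 1 1165)
(mv 1231 (cons (fin 1232 2 1165)
(fin 1295 4 1038)))))))))))))))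
(mv 912 (cons (fin 976 4 912)
(mv 1170 (cons (fin 1103 0 1102)
(mv 1171 (cons (fin 1172 3 1104)
(mv 1168 (cons (mv 1232 (cons (fin 1231 1 1167)
(fin 975 7 975)))
(mv 1107 (cons (fin 1108 2 1104)
(mv 1235 (cons (fin 1236 0 1168)
(mv 1234 (cons (fin 1167 0 1167)
(mv 1043 (cons (fin 979 5 978)
(fin 1298 5 1042))))))))))))))))))))))
(cons (mv 1233 (cons (cons (cons (mv 1104 (cons (fin 1297 7 1040)
(mv 1103 (cons (fin 1170 0 1102)
(mv 1165 (cons (fin 1166 1 1101)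
(mv 1232 (cons (fin 1296 5 1040)
(mv 1168 (cons (fin 975 7 975)
(mv 1231 (cons (fin 1295 5 1039)
(mv 1229 (cons (fin 1230 2 1165)
(mv 1234 (cons (fin 1298 4 1041)
(mv 1235 (cons (fin 1167 3 1167)
(fin 1236 3 1168)))))))))))))))))))
(mv 1232 (cons (fin 1296 5 1040)
(mv 1234 (cons (fin 1298 4 1041)
(mv 1231 (cons (mv 1170 (cons (fin 1230 2 1166)
(fin 1171 2 1167)))
(cons (mv 1166 (cons (fin 1167 3 1166)
(mv 1230 (cons (fin 1165 3 1165)
(fin 975 6 974)))))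
(mv 1166 (cons (fin 1167 3 1166)
(mv 1170 (cons (fin 1171 2 1167)
(mv 1104 (cons (fin 1103 0 1102)
(mv 1168 (cons (fin 975 7 975)
(fin 1295 5 1039)))))))))))))))))
(cons (mv 1232 (cons (fin 1296 5 1040)
(mv 1298 (cons (fin 1234 4 1041)
(mv 1297 (cons (fin 1362 4 1105)
(mv 1230 (cons (fin 1231 0 1230)
(mv 1166 (cons (fin 975 6 974)
(mv 1229 (cons (fin 1293 5 1037)
(mv 1168 (cons (fin 1167 1 1165)
(mv 1294 (cons (fin 1103 6 1038)
(mv 1359 (cons (fin 1295 4 1102)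
(mv 1358 (cons (fin 1423 4 1166)
(mv 1361 (cons (fin 1360 2 1294)
(fin 1425 7 1168)))))))))))))))))))))))
(mv 1104 (cons (fin 1297 7 1040)
(mv 1103 (cons (fin 1170 0 1102)
(mv 1166 (cons (fin 1165 1 1101)
(mv 975 (cons (fin 911 5 910)
(fin 1230 6 974)))))))))))
(cons (cons (mv 1104 (cons (fin 1297 7 1040)
(mv 1103 (cons (fin 1170 0 1102)
(mv 1166 (cons (fin 1165 1 1101)
(mv 1230 (cons (fin 1294 6 1038)
(mv 1229 (cons (fin 1293 5 1037)
(mv 1167 (cons (fin 1168 1 1165)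
(mv 1227 (cons (fin 1228 2 1163)
(mv 1231 (cons (fin 1295 7 1038)
(mv 1232 (cons (fin 1234 3 1166)
(fin 1296 5 1040)))))))))))))))))))
(mv 1104 (cons (fin 1297 7 1040)
(mv 1103 (cons (fin 1170 0 1102)
(mv 1232 (cons (fin 1296 5 1040)
(mv 1168 (cons (fin 975 7 975)
(mv 1231 (cons (fin 1295 5 1039)
(mv 1229 (cons (fin 1230 2 1165)
(mv 1234 (cons (fin 1298 4 1041)
(mv 1235 (cons (fin 1167 3 1167)
(fin 1236 3 1168))))))))))))))))))
(cons (mv 1104 (cons (fin 1297 7 1040)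
(mv 1232 (cons (fin 1296 5 1040)
(mv 975 (cons (fin 1168 7 975)
(mv 847 (cons (fin 911 5 846)
(mv 1230 (cons (fin 1166 6 974)
(mv 1231 (cons (fin 1170 2 1166)
(mv 1234 (cons (fin 1298 4 1041)
(mv 1294 (cons (fin 1293 1 1229)
(fin 1295 1 1230)))))))))))))))))
(mv 1104 (cons (fin 1297 7 1040)
(mv 1103 (cons (fin 1170 0 1102)
(mv 1165 (cons (fin 1166 1 1101)
(mv 1232 (cons (fin 1296 5 1040)
(mv 1168 (cons (fin 975 7 975)
(mv 1231 (cons (fin 1295 5 1039)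
(mv 1234 (cons (fin 1298 4 1041)
(mv 1235 (cons (fin 1167 3 1167)
(fin 1236 3 1168)))))))))))))))))))))
(mv 1233 (cons (fin 976 7 976)
(mv 1232 (cons (fin 1296 5 1040)
(mv 1298 (cons (fin 1234 4 1041)
(mv 1297 (cons (fin 1362 4 1105)
(mv 1230 (cons (fin 1231 0 1230)
(mv 1166 (cons (fin 975 6 974)
(mv 1229 (cons (fin 1293 5 1037)
(mv 1168 (cons (fin 1167 1 1165)
(mv 1294 (cons (fin 1103 6 1038)
(mv 1359 (cons (fin 1295 4 1102)
(mv 1358 (cons (fin 1423 4 1166)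
(mv 1361 (cons (fin 1360 2 1294)
(fin 1425 7 1168))))))))))))))))))))))))))))))))))
(mv 973 (cons (fin 974 3 973)
(mv 1037 (cons (fin 972 3 972)
(mv 1102 (cons (fin 1101 1 1037)
(mv 845 (cons (fin 909 4 845)
(mv 1105 (cons (fin 1106 0 1038)
(mv 1166 (cons (fin 1230 7 973)
(mv 975 (cons (mv 911 (cons (fin 847 5 846)
(fin 1103 5 910)))
(cons (mv 1036 (cons (fin 976 2 972)
(mv 1035 (cons (fin 1103 0 1035)
(mv 970 (cons (fin 971 3 970)
(mv 1034 (cons (fin 969 3 969)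
(mv 1098 (cons (fin 1097 1 1033)
(fin 1099 1 1034)))))))))))
(mv 847 (cons (fin 911 5 846)
(mv 976 (cons (fin 1036 2 972)
(mv 848 (cons (fin 912 4 848)
(mv 1169 (cons (fin 1233 7 976)
(mv 846 (cons (cons (mv 780 (cons (fin 781 3 780)
(mv 784 (cons (fin 785 2 781)
(mv 844 (cons (fin 779 3 779)
(fin 783 2 780)))))))
(mv 784 (cons (fin 785 2 781)
(mv 844 (cons (fin 783 2 780)
(mv 843 (cons (mv 779 (cons (fin 778 3 778)
(fin 780 3 779)))
(mv 907 (cons (fin 906 1 842)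
(fin 908 1 843))))))))))
(cons (mv 781 (cons (fin 780 3 780)
(mv 849 (cons (fin 782 3 781)
(mv 850 (cons (mv 786 (cons (fin 785 2 782)
(fin 787 2 783)))
(mv 914 (cons (fin 913 0 846)
(fin 915 0 847)))))))))
(cons (mv 785 (cons (fin 784 2 781)
(mv 849 (cons (fin 786 2 782)
(mv 850 (cons (mv 782 (cons (fin 781 3 781)
(fin 783 3 782)))
(mv 914 (cons (fin 913 0 846)
(fin 915 0 847)))))))))
(mv 780 (cons (fin 781 3 780)
(mv 844 (cons (fin 779 3 779)
(mv 843 (cons (mv 783 (cons (fin 782 2 779)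
(fin 784 2 780)))
(mv 907 (cons (fin 906 1 842)
(fin 908 1 843))))))))))))))))))))))))))))))))))))))))
(cons (mv 1037 (cons (cons (mv 972 (cons (fin 973 3 972)
(mv 971 (cons (fin 1036 3 971)
(mv 1101 (cons (fin 1100 1 1036)
(mv 1041 (cons (fin 1102 1 1037)
(mv 1105 (cons (fin 1104 0 1037)
(fin 1106 0 1038)))))))))))
(cons (mv 1100 (cons (fin 1101 1 1036)
(mv 1036 (cons (fin 1099 1 1035)
(mv 971 (cons (fin 972 3 971)
(mv 975 (cons (fin 976 2 972)
(mv 1035 (cons (fin 970 3 970)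
(fin 974 2 971)))))))))))
(mv 972 (cons (fin 973 3 972)
(mv 1036 (cons (fin 971 3 971)
(mv 975 (cons (fin 976 2 972)
(mv 1035 (cons (fin 974 2 971)
(mv 1099 (cons (fin 1098 1 1034)
(fin 1100 1 1035)))))))))))))
(cons (mv 1100 (cons (fin 1101 1 1036)
(mv 1036 (cons (fin 1099 1 1035)
(mv 975 (cons (fin 976 2 972)
(mv 974 (cons (fin 1035 2 971)
(mv 1041 (cons (fin 973 3 973)
(mv 1105 (cons (fin 1104 0 1037)
(fin 1106 0 1038)))))))))))))
(cons (mv 972 (cons (fin 973 3 972)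
(mv 1036 (cons (fin 971 3 971)
(mv 975 (cons (fin 976 2 972)
(mv 974 (cons (fin 1035 2 971)
(mv 1104 (cons (fin 1105 0 1037)
(mv 911 (cons (fin 847 4 847)
(mv 1102 (cons (fin 1166 6 910)
(mv 1101 (cons (fin 1041 1 1037)
(mv 910 (cons (fin 846 5 845)
(fin 1165 5 909)))))))))))))))))))
(mv 972 (cons (fin 973 3 972)
(mv 1101 (cons (fin 1100 1 1036)
(mv 1041 (cons (fin 1102 1 1037)
(mv 1105 (cons (fin 1104 0 1037)
(fin 1106 0 1038)))))))))))))
(mv 1037 (cons (cons (mv 972 (cons (fin 973 3 972)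
(mv 971 (cons (fin 1036 3 971)
(mv 1101 (cons (fin 1100 1 1036)
(mv 1041 (cons (fin 1102 1 1037)
(mv 1105 (cons (fin 1104 0 1037)
(fin 1106 0 1038)))))))))))
(mv 1100 (cons (fin 1101 1 1036)
(mv 1104 (cons (fin 1105 0 1037)
(mv 1036 (cons (fin 1103 0 1036)
(mv 971 (cons (fin 972 3 971)
(mv 975 (cons (fin 976 2 972)
(mv 1035 (cons (fin 970 3 970)
(fin 974 2 971))))))))))))))
(cons (mv 972 (cons (fin 973 3 972)
(mv 1036 (cons (fin 971 3 971)
(mv 975 (cons (fin 976 2 972)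
(mv 974 (cons (fin 1035 2 971)
(mv 1101 (cons (fin 1100 1 1036)
(mv 844 (cons (fin 908 4 844)
(mv 846 (cons (fin 910 5 845)
(mv 1102 (cons (fin 1041 1 1037)
(mv 911 (cons (fin 847 5 846)
(fin 1166 6 910)))))))))))))))))))
(cons (mv 972 (cons (fin 973 3 972)
(mv 1036 (cons (fin 971 3 971)
(mv 1104 (cons (fin 1103 0 1036)
(fin 1105 0 1037)))))))
(mv 1101 (cons (fin 1100 1 1036)
(mv 1041 (cons (fin 1102 1 1037)
(mv 1105 (cons (fin 1104 0 1037)
(fin 1106 0 1038)))))))))))))))))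
(cons (ref 4 0)
(mv 1038 (cons (cons (cons (mv 1037 (cons (cons (mv 976 (cons (fin 977 2 973)
(mv 975 (cons (fin 1036 2 972)
(mv 1100 (cons (fin 1101 1 1036)
(mv 1104 (cons (fin 1105 0 1037)
(mv 911 (cons (fin 1168 7 911)
(fin 847 4 847)))))))))))
(mv 976 (cons (fin 977 2 973)
(mv 975 (cons (fin 1036 2 972)
(mv 1101 (cons (fin 1100 1 1036)
(mv 1102 (cons (fin 1041 1 1037)
(mv 911 (cons (fin 847 5 846)
(mv 1166 (cons (fin 1103 5 910)
(fin 974 6 910))))))))))))))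
(cons (mv 1100 (cons (fin 1101 1 1036)
(mv 1036 (cons (fin 1099 1 1035)
(mv 1104 (cons (fin 1103 0 1036)
(fin 1105 0 1037)))))))
(cons (mv 976 (cons (fin 977 2 973)
(mv 975 (cons (fin 1036 2 972)
(mv 1104 (cons (fin 1105 0 1037)
(mv 911 (cons (fin 1168 7 911)
(fin 847 4 847)))))))))
(mv 976 (cons (fin 977 2 973)
(mv 1101 (cons (fin 1100 1 1036)
(mv 1041 (cons (fin 1102 1 1037)
(mv 1105 (cons (fin 1104 0 1037)
(fin 1106 0 1038)))))))))))))
(mv 1102 (cons (cons (mv 1101 (cons (fin 1041 1 1037)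
(mv 1100 (cons (fin 1099 2 1035)
(fin 1103 2 1036)))))
(mv 1166 (cons (cons (mv 975 (cons (fin 1230 6 974)
(mv 911 (cons (fin 847 5 846)
(fin 1103 5 910)))))
(mv 1230 (cons (cons (mv 1103 (cons (fin 1294 6 1038)
(mv 1229 (cons (fin 1293 5 1037)
(mv 974 (cons (fin 1165 5 973)
(mv 910 (cons (fin 846 4 846)
(fin 1167 4 910)))))))))
(mv 1229 (cons (fin 1293 5 1037)
(mv 974 (cons (fin 1165 5 973)
(mv 1231 (cons (fin 1167 4 974)
(fin 1295 4 1038))))))))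
(cons (mv 1103 (cons (fin 1294 6 1038)
(mv 1231 (cons (fin 1295 4 1038)
(mv 1167 (cons (fin 974 7 974)
(fin 976 6 975)))))))
(cons (mv 1103 (cons (fin 1294 6 1038)
(mv 1229 (cons (fin 1293 5 1037)
(mv 1231 (cons (fin 1295 4 1038)
(mv 1167 (cons (fin 976 6 975)
(mv 1168 (cons (fin 1169 1 1165)
(fin 1228 2 1164)))))))))))
(mv 1103 (cons (fin 1294 6 1038)
(mv 1229 (cons (fin 1293 5 1037)
(mv 1165 (cons (fin 974 5 973)
(mv 1104 (cons (fin 1105 1 1101)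
(mv 1163 (cons (fin 1164 2 1099)
(mv 1231 (cons (fin 1295 4 1038)
(mv 1232 (cons (fin 1233 3 1165)
(mv 1168 (cons (fin 1169 2 1165)
(fin 1296 7 1039))))))))))))))))))))))
(cons (mv 974 (cons (cons (mv 911 (cons (fin 975 6 910)
(mv 910 (cons (fin 847 6 846)
(mv 1103 (cons (fin 846 4 846)
(fin 1167 4 910)))))))
(cons (mv 1165 (cons (fin 1229 5 973)
(mv 1167 (cons (fin 1231 4 974)
(mv 910 (cons (fin 1103 4 910)
(mv 845 (cons (fin 909 7 845)
(mv 846 (cons (fin 781 7 781)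
(mv 782 (cons (fin 975 4 782)
(mv 783 (cons (fin 719 6 718)
(fin 847 6 782)))))))))))))))
(mv 1165 (cons (fin 1229 5 973)
(mv 1167 (cons (fin 1231 4 974)
(mv 910 (cons (fin 1103 4 910)
(mv 845 (cons (fin 909 7 845)
(mv 846 (cons (fin 781 7 781)
(mv 847 (cons (fin 783 6 782)
(fin 911 6 846)))))))))))))))
(cons (mv 911 (cons (fin 975 6 910)
(mv 910 (cons (fin 847 6 846)
(mv 845 (cons (fin 909 7 845)
(mv 846 (cons (fin 781 7 781)
(fin 1103 4 846)))))))))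
(cons (mv 911 (cons (fin 975 6 910)
(mv 910 (cons (fin 847 6 846)
(mv 845 (cons (fin 909 7 845)
(mv 846 (cons (fin 781 7 781)
(mv 843 (cons (fin 844 0 843)
(mv 913 (cons (fin 912 3 845)
(mv 1165 (cons (fin 1229 5 973)
(mv 1041 (cons (cons (mv 977 (cons (fin 978 2 974)
(mv 849 (cons (fin 1104 5 848)
(mv 784 (cons (fin 848 7 784)
(mv 785 (cons (fin 720 7 720)
(fin 976 5 784)))))))))
(mv 1105 (cons (fin 1106 0 1038)
(mv 1167 (cons (fin 1231 4 974)
(mv 1168 (cons (fin 1104 2 1101)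
(mv 1233 (cons (fin 1232 0 1165)
(mv 1169 (cons (fin 1234 0 1166)
(fin 976 7 976))))))))))))
(cons (mv 977 (cons (fin 978 2 974)
(mv 1105 (cons (fin 1106 0 1038)
(mv 850 (cons (fin 914 6 849)
(mv 849 (cons (fin 786 6 785)
(mv 784 (cons (fin 848 7 784)
(mv 785 (cons (fin 720 7 720)
(fin 976 5 784)))))))))))))
(mv 977 (cons (fin 978 2 974)
(mv 849 (cons (fin 1104 5 848)
(mv 784 (cons (fin 848 7 784)
(mv 720 (cons (fin 785 7 720)
(mv 850 (cons (fin 786 6 785)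
(mv 1105 (cons (fin 1106 0 1038)
(fin 914 6 849))))))))))))))))))))))))))))))
(mv 975 (cons (fin 911 6 910)
(mv 1165 (cons (fin 1229 5 973)
(mv 1167 (cons (fin 1231 4 974)
(mv 1103 (cons (cons (mv 1104 (cons (fin 1105 1 1101)
(fin 1164 2 1100)))
(mv 976 (cons (fin 912 6 911)
(mv 977 (cons (fin 978 1 974)
(mv 913 (cons (fin 914 2 910)
(mv 785 (cons (fin 849 5 784)
(mv 1163 (cons (fin 1164 2 1099)
(mv 1168 (cons (fin 1232 4 975)
(mv 1169 (cons (fin 1170 3 1102)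
(mv 1105 (cons (fin 1106 2 1102)
(mv 1233 (cons (fin 1234 0 1166)
(fin 1041 7 976))))))))))))))))))))
(cons (mv 912 (cons (fin 976 6 911)
(mv 1105 (cons (fin 1104 1 1101)
(mv 1106 (cons (fin 1041 0 1038)
(mv 1168 (cons (fin 1169 2 1102)
(fin 1232 4 975)))))))))
(mv 1164 (cons (fin 1163 2 1099)
(fin 1104 2 1100))))))))))))))))
(mv 975 (cons (fin 1230 6 974)
(mv 911 (cons (fin 847 5 846)
(fin 974 6 910)))))))))
(cons (mv 975 (cons (cons (mv 911 (cons (fin 847 5 846)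
(mv 1166 (cons (fin 1103 5 910)
(fin 974 6 910)))))
(mv 1166 (cons (fin 1230 6 974)
(mv 974 (cons (cons (mv 1165 (cons (fin 1229 5 973)
(mv 910 (cons (fin 1101 5 909)
(mv 846 (cons (fin 782 4 782)
(fin 1103 4 846)))))))
(mv 1167 (cons (fin 1231 4 974)
(mv 910 (cons (fin 1103 7 910)
(mv 845 (cons (fin 909 7 845)
(mv 846 (cons (fin 781 7 781)
(fin 782 4 782))))))))))
(cons (mv 1165 (cons (fin 1229 5 973)
(mv 1167 (cons (fin 1231 4 974)
(mv 1103 (cons (mv 1104 (cons (fin 1105 1 1101)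
(fin 1164 2 1100)))
(cons (mv 912 (cons (fin 976 6 911)
(mv 1100 (cons (fin 1101 2 1036)
(mv 1164 (cons (fin 1099 3 1099)
(fin 1163 2 1099)))))))
(mv 912 (cons (fin 976 6 911)
(mv 1100 (cons (fin 1101 2 1036)
(mv 1105 (cons (fin 1104 1 1101)
(mv 1168 (cons (fin 1232 4 975)
(mv 1169 (cons (fin 1170 3 1102)
(fin 1106 2 1102))))))))))))))))))
(mv 1165 (cons (fin 1229 5 973)
(mv 910 (cons (fin 1101 5 909)
(mv 845 (cons (fin 909 7 845)
(mv 846 (cons (fin 781 7 781)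
(fin 782 4 782)))))))))))))))
(cons (mv 911 (cons (fin 847 5 846)
(mv 1103 (cons (cons (mv 846 (cons (fin 910 7 846)
(mv 848 (cons (fin 912 6 847)
(mv 1100 (cons (fin 1101 2 1036)
(mv 1168 (cons (fin 1104 4 911)
(mv 1167 (cons (fin 1232 4 975)
(mv 1231 (cons (fin 974 7 974)
(fin 1295 7 1038)))))))))))))
(cons (mv 846 (cons (fin 910 7 846)
(mv 912 (cons (fin 848 6 847)
(mv 1100 (cons (fin 1101 2 1036)
(mv 1167 (cons (fin 976 6 911)
(mv 1231 (cons (fin 974 7 974)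
(fin 1295 7 1038)))))))))))
(mv 848 (cons (fin 912 6 847)
(mv 1100 (cons (fin 1101 2 1036)
(mv 1168 (cons (fin 1104 4 911)
(mv 1167 (cons (fin 1232 4 975)
(mv 1231 (cons (fin 974 7 974)
(fin 1295 7 1038)))))))))))))
(cons (mv 846 (cons (fin 910 7 846)
(mv 1100 (cons (fin 1101 2 1036)
(mv 1168 (cons (fin 1104 4 911)
(mv 1167 (cons (fin 1232 4 975)
(mv 1231 (cons (fin 974 7 974)
(fin 1295 7 1038)))))))))))
(cons (mv 846 (cons (fin 910 7 846)
(mv 848 (cons (fin 912 6 847)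
(mv 1168 (cons (fin 1104 4 911)
(mv 1167 (cons (fin 1232 4 975)
(mv 1231 (cons (fin 974 7 974)
(fin 1295 7 1038)))))))))))
(mv 846 (cons (fin 910 7 846)
(mv 912 (cons (fin 848 6 847)
(mv 1100 (cons (fin 1101 2 1036)
(mv 1104 (cons (fin 1168 4 911)
(mv 1105 (cons (fin 1106 3 1038)
(mv 1169 (cons (fin 1170 0 1102)
(fin 976 4 912)))))))))))))))))))
(cons (mv 911 (cons (fin 847 5 846)
(mv 1166 (cons (fin 974 6 910)
(fin 1230 6 974)))))
(mv 911 (cons (fin 847 5 846)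
(mv 1166 (cons (fin 1103 5 910)
(fin 1230 6 974)))))))))
(mv 1041 (cons (fin 1101 1 1037)
(mv 977 (cons (fin 978 2 974)
(mv 1105 (cons (fin 1106 0 1038)
(mv 913 (cons (mv 1104 (cons (fin 849 5 848)
(fin 1168 5 912)))
(cons (mv 848 (cons (fin 912 7 848)
(mv 849 (cons (fin 784 7 784)
(mv 850 (cons (fin 786 6 785)
(fin 914 6 849)))))))
(mv 848 (cons (fin 912 7 848)
(mv 850 (cons (fin 914 6 849)
(mv 1168 (cons (fin 1104 5 912)
(mv 1169 (cons (fin 1232 5 976)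
(mv 1233 (cons (fin 976 7 976)
(mv 1234 (cons (fin 1170 4 977)
(fin 1298 4 1041))))))))))))))))))))))))))
(cons (mv 1037 (cons (cons (mv 976 (cons (fin 977 2 973)
(mv 975 (cons (fin 1036 2 972)
(mv 1100 (cons (fin 1101 1 1036)
(mv 1104 (cons (fin 1105 0 1037)
(mv 911 (cons (fin 1168 7 911)
(fin 847 4 847)))))))))))
(mv 976 (cons (fin 977 2 973)
(mv 1036 (cons (fin 975 2 972)
(mv 1100 (cons (fin 1099 1 1035)
(fin 1101 1 1036))))))))
(cons (mv 1100 (cons (fin 1101 1 1036)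
(mv 1036 (cons (fin 1099 1 1035)
(mv 1104 (cons (fin 1103 0 1036)
(fin 1105 0 1037)))))))
(cons (mv 976 (cons (fin 977 2 973)
(mv 975 (cons (fin 1036 2 972)
(mv 1104 (cons (fin 1105 0 1037)
(mv 911 (cons (fin 1168 7 911)
(fin 847 4 847)))))))))
(mv 976 (cons (fin 977 2 973)
(mv 1100 (cons (fin 1101 1 1036)
(mv 1104 (cons (fin 1105 0 1037)
(mv 912 (cons (mv 1103 (cons (fin 848 5 847)
(fin 1167 5 911)))
(cons (mv 847 (cons (fin 911 7 847)
(mv 848 (cons (fin 783 7 783)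
(mv 849 (cons (fin 785 6 784)
(fin 913 6 848)))))))
(mv 847 (cons (fin 911 7 847)
(mv 849 (cons (fin 913 6 848)
(mv 1167 (cons (fin 1103 5 911)
(mv 1168 (cons (fin 1231 5 975)
(mv 1232 (cons (fin 975 7 975)
(mv 1233 (cons (fin 1169 4 976)
(fin 1297 4 1040))))))))))))))))))))))))))
(cons (mv 1037 (cons (cons (mv 1100 (cons (fin 1101 1 1036)
(mv 1036 (cons (fin 1099 1 1035)
(mv 1104 (cons (fin 1103 0 1036)
(fin 1105 0 1037)))))))
(mv 1100 (cons (fin 1101 1 1036)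
(mv 1036 (cons (fin 1099 1 1035)
(mv 971 (cons (fin 972 3 971)
(mv 975 (cons (fin 976 2 972)
(mv 1035 (cons (fin 970 3 970)
(fin 974 2 971))))))))))))
(cons (mv 1104 (cons (fin 1105 0 1037)
(mv 1036 (cons (fin 1103 0 1036)
(mv 971 (cons (fin 972 3 971)
(mv 975 (cons (fin 976 2 972)
(mv 1035 (cons (fin 970 3 970)
(fin 974 2 971)))))))))))
(mv 1101 (cons (fin 1100 1 1036)
(mv 1041 (cons (fin 1102 1 1037)
(mv 1105 (cons (fin 1104 0 1037)
(fin 1106 0 1038))))))))))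
(mv 1037 (cons (cons (mv 976 (cons (fin 977 2 973)
(mv 975 (cons (fin 1036 2 972)
(mv 1104 (cons (fin 1105 0 1037)
(mv 911 (cons (fin 1168 7 911)
(fin 847 4 847)))))))))
(mv 1104 (cons (fin 1105 0 1037)
(mv 1036 (cons (fin 1103 0 1036)
(mv 971 (cons (fin 972 3 971)
(mv 1035 (cons (fin 970 3 970)
(mv 1099 (cons (fin 1098 1 1034)
(fin 1100 1 1035))))))))))))
(cons (mv 976 (cons (fin 977 2 973)
(mv 1036 (cons (fin 975 2 972)
(mv 971 (cons (fin 972 3 971)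
(mv 1035 (cons (fin 970 3 970)
(mv 1099 (cons (fin 1098 1 1034)
(fin 1100 1 1035)))))))))))
(mv 977 (cons (fin 976 2 973)
(mv 1041 (cons (fin 978 2 974)
(mv 1105 (cons (fin 1104 0 1037)
(fin 1106 0 1038)))))))))))))
(cons (cons (mv 1037 (cons (cons (mv 976 (cons (fin 977 2 973)
(mv 975 (cons (fin 1036 2 972)
(mv 1101 (cons (fin 1100 1 1036)
(mv 1102 (cons (fin 1041 1 1037)
(mv 911 (cons (fin 847 5 846)
(mv 1166 (cons (fin 1103 5 910)
(fin 974 6 910)))))))))))))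
(mv 1100 (cons (fin 1101 1 1036)
(mv 1036 (cons (fin 1099 1 1035)
(mv 971 (cons (fin 972 3 971)
(mv 1035 (cons (fin 970 3 970)
(mv 1103 (cons (fin 1102 0 1035)
(fin 1104 0 1036))))))))))))
(cons (mv 976 (cons (fin 977 2 973)
(mv 1036 (cons (fin 975 2 972)
(mv 971 (cons (fin 972 3 971)
(mv 1035 (cons (fin 970 3 970)
(mv 1099 (cons (fin 1098 1 1034)
(fin 1100 1 1035)))))))))))
(cons (mv 976 (cons (fin 977 2 973)
(mv 1036 (cons (fin 975 2 972)
(mv 971 (cons (fin 972 3 971)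
(mv 1035 (cons (fin 970 3 970)
(mv 1103 (cons (fin 1102 0 1035)
(fin 1104 0 1036)))))))))))
(mv 977 (cons (fin 976 2 973)
(mv 1041 (cons (fin 978 2 974)
(mv 1101 (cons (fin 1100 1 1036)
(fin 1102 1 1037)))))))))))
(cons (mv 1037 (cons (cons (mv 976 (cons (fin 977 2 973)
(mv 975 (cons (fin 1036 2 972)
(mv 1101 (cons (fin 1100 1 1036)
(mv 1102 (cons (fin 1041 1 1037)
(mv 911 (cons (fin 847 5 846)
(mv 1166 (cons (fin 1103 5 910)
(fin 974 6 910)))))))))))))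
(mv 976 (cons (fin 977 2 973)
(mv 1036 (cons (fin 975 2 972)
(mv 971 (cons (fin 972 3 971)
(mv 1035 (cons (fin 970 3 970)
(mv 1099 (cons (fin 1098 1 1034)
(fin 1100 1 1035))))))))))))
(cons (mv 1101 (cons (fin 1100 1 1036)
(mv 1102 (cons (fin 1041 1 1037)
(mv 974 (cons (mv 910 (cons (fin 846 5 845)
(fin 1165 5 909)))
(cons (mv 1165 (cons (fin 1229 6 973)
(mv 1166 (cons (mv 975 (cons (fin 911 6 910)
(fin 1230 6 974)))
(cons (mv 975 (cons (fin 911 6 910)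
(mv 1035 (cons (fin 1036 2 971)
(mv 1167 (cons (fin 1231 4 974)
(mv 1168 (cons (fin 1169 3 1101)
(mv 1232 (cons (fin 1233 0 1165)
(fin 1103 4 975)))))))))))
(mv 1230 (cons (fin 1294 7 1037)
(mv 1231 (cons (fin 1167 4 974)
(fin 1295 4 1038))))))))))
(mv 910 (cons (fin 846 5 845)
(mv 845 (cons (fin 909 7 845)
(mv 847 (cons (fin 911 6 846)
(mv 1167 (cons (fin 1103 4 910)
(mv 1166 (cons (fin 1231 4 974)
(mv 1230 (cons (fin 1294 7 1037)
(fin 975 6 974))))))))))))))))))))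
(cons (mv 976 (cons (fin 977 2 973)
(mv 1036 (cons (fin 975 2 972)
(mv 971 (cons (fin 972 3 971)
(mv 1035 (cons (fin 970 3 970)
(mv 1098 (cons (fin 1099 1 1034)
(mv 1034 (cons (fin 1097 1 1033)
(mv 1102 (cons (fin 1101 0 1034)
(fin 1103 0 1035)))))))))))))))
(mv 977 (cons (fin 976 2 973)
(mv 1041 (cons (fin 978 2 974)
(mv 1101 (cons (fin 1100 1 1036)
(fin 1102 1 1037)))))))))))
(mv 1037 (cons (cons (mv 1100 (cons (fin 1101 1 1036)
(mv 1036 (cons (fin 1099 1 1035)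
(mv 1104 (cons (fin 1103 0 1036)
(fin 1105 0 1037)))))))
(mv 1104 (cons (fin 1105 0 1037)
(mv 1036 (cons (fin 1103 0 1036)
(mv 971 (cons (fin 972 3 971)
(mv 1035 (cons (fin 970 3 970)
(mv 1099 (cons (fin 1098 1 1034)
(fin 1100 1 1035))))))))))))
(cons (mv 1101 (cons (fin 1100 1 1036)
(mv 1102 (cons (fin 1041 1 1037)
(mv 974 (cons (mv 910 (cons (fin 846 5 845)
(fin 1165 5 909)))
(cons (mv 1165 (cons (fin 1229 6 973)
(mv 1166 (cons (mv 975 (cons (fin 911 6 910)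
(fin 1230 6 974)))
(cons (mv 975 (cons (fin 911 6 910)
(mv 1035 (cons (fin 1036 2 971)
(mv 1167 (cons (fin 1231 4 974)
(mv 1168 (cons (fin 1169 3 1101)
(mv 1232 (cons (fin 1233 0 1165)
(fin 1103 4 975)))))))))))
(mv 1230 (cons (fin 1294 7 1037)
(mv 1231 (cons (fin 1167 4 974)
(fin 1295 4 1038))))))))))
(mv 910 (cons (fin 846 5 845)
(mv 845 (cons (fin 909 7 845)
(mv 847 (cons (fin 911 6 846)
(mv 1167 (cons (fin 1103 4 910)
(mv 1166 (cons (fin 1231 4 974)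
(mv 1230 (cons (fin 1294 7 1037)
(fin 975 6 974))))))))))))))))))))
(cons (mv 1104 (cons (fin 1105 0 1037)
(mv 1103 (cons (fin 1036 0 1036)
(mv 975 (cons (mv 911 (cons (fin 847 4 847)
(fin 1168 4 911)))
(cons (mv 1168 (cons (fin 1232 7 975)
(mv 1167 (cons (mv 974 (cons (fin 910 7 910)
(fin 1231 7 974)))
(cons (mv 974 (cons (fin 910 7 910)
(mv 1166 (cons (fin 1230 5 974)
(mv 1165 (cons (fin 1164 2 1100)
(mv 1229 (cons (fin 1228 1 1164)
(fin 1102 5 973)))))))))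
(mv 1230 (cons (fin 1166 5 974)
(mv 1231 (cons (fin 1294 5 1038)
(fin 1295 6 1039))))))))))
(mv 911 (cons (fin 847 4 847)
(mv 846 (cons (fin 910 7 846)
(mv 848 (cons (fin 912 6 847)
(mv 1102 (cons (fin 1166 5 910)
(mv 1101 (cons (fin 1041 1 1037)
(mv 1165 (cons (fin 1164 1 1100)
(mv 1229 (cons (fin 974 6 973)
(fin 1293 6 1037))))))))))))))))))))))
(mv 1101 (cons (fin 1100 1 1036)
(mv 1041 (cons (fin 1102 1 1037)
(mv 1105 (cons (fin 1104 0 1037)
(fin 1106 0 1038)))))))))))))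
(cons (mv 1041 (cons (cons (mv 977 (cons (fin 978 2 974)
(mv 976 (cons (fin 1037 2 973)
(mv 1101 (cons (fin 1102 1 1037)
(mv 1105 (cons (fin 1106 0 1038)
(mv 912 (cons (fin 1169 7 912)
(fin 848 4 848)))))))))))
(cons (mv 1101 (cons (fin 1102 1 1037)
(mv 1105 (cons (fin 1106 0 1038)
(mv 1104 (cons (fin 1037 0 1037)
(mv 976 (cons (mv 912 (cons (fin 848 4 848)
(fin 1169 4 912)))
(cons (mv 1169 (cons (fin 1233 7 976)
(mv 1168 (cons (mv 975 (cons (fin 911 7 911)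
(fin 1232 7 975)))
(cons (mv 975 (cons (fin 911 7 911)
(mv 1167 (cons (fin 1231 5 975)
(mv 1166 (cons (fin 1165 2 1101)
(mv 1230 (cons (fin 1229 1 1165)
(fin 1103 5 974)))))))))
(mv 1231 (cons (fin 1167 5 975)
(mv 1232 (cons (fin 1295 5 1039)
(fin 1296 6 1040))))))))))
(mv 912 (cons (fin 848 4 848)
(mv 847 (cons (fin 911 7 847)
(mv 849 (cons (fin 913 6 848)
(mv 1167 (cons (fin 1103 5 911)
(mv 1168 (cons (fin 1231 5 975)
(mv 1232 (cons (fin 975 7 975)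
(fin 1296 6 1040))))))))))))))))))))))
(mv 977 (cons (fin 978 2 974)
(mv 976 (cons (fin 1037 2 973)
(mv 1101 (cons (fin 1102 1 1037)
(mv 1104 (cons (mv 913 (cons (fin 849 5 848)
(fin 1168 6 912)))
(cons (mv 849 (cons (fin 913 5 848)
(mv 912 (cons (mv 848 (cons (fin 1103 5 847)
(fin 785 6 784)))
(cons (mv 911 (cons (fin 847 7 847)
(mv 910 (cons (fin 909 0 909)
(mv 1103 (cons (fin 1167 5 911)
(mv 846 (cons (fin 975 7 846)
(fin 974 4 846)))))))))
(mv 848 (cons (fin 785 6 784)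
(fin 784 4 784))))))))
(mv 1168 (cons (fin 1232 6 976)
(mv 911 (cons (fin 975 7 911)
(mv 912 (cons (fin 847 7 847)
(mv 848 (cons (fin 1103 5 847)
(fin 784 4 784))))))))))))))))))))
(cons (mv 977 (cons (fin 978 2 974)
(mv 976 (cons (fin 1037 2 973)
(mv 1105 (cons (fin 1106 0 1038)
(mv 912 (cons (fin 1169 7 912)
(fin 848 4 848)))))))))
(cons (mv 977 (cons (fin 978 2 974)
(mv 1101 (cons (fin 1102 1 1037)
(mv 1105 (cons (fin 1106 0 1038)
(mv 913 (cons (mv 1104 (cons (fin 849 5 848)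
(fin 1168 5 912)))
(cons (mv 848 (cons (fin 912 7 848)
(mv 849 (cons (fin 784 7 784)
(mv 850 (cons (fin 786 6 785)
(fin 914 6 849)))))))
(mv 848 (cons (fin 912 7 848)
(mv 850 (cons (fin 914 6 849)
(mv 1168 (cons (fin 1104 5 912)
(mv 1169 (cons (fin 1232 5 976)
(mv 1233 (cons (fin 976 7 976)
(mv 1234 (cons (fin 1170 4 977)
(fin 1298 4 1041))))))))))))))))))))))
(mv 977 (cons (fin 978 2 974)
(mv 1101 (cons (fin 1102 1 1037)
(mv 1105 (cons (fin 1106 0 1038)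
(mv 1104 (cons (fin 1037 0 1037)
(mv 913 (cons (fin 849 5 848)
(fin 1168 5 912)))))))))))))))
(cons (mv 1037 (cons (cons (mv 976 (cons (fin 977 2 973)
(mv 975 (cons (fin 1036 2 972)
(mv 1100 (cons (fin 1101 1 1036)
(mv 1104 (cons (fin 1105 0 1037)
(mv 911 (cons (fin 1168 7 911)
(fin 847 4 847)))))))))))
(mv 976 (cons (fin 977 2 973)
(mv 975 (cons (fin 1036 2 972)
(mv 1104 (cons (fin 1105 0 1037)
(mv 911 (cons (fin 1168 7 911)
(fin 847 4 847))))))))))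
(cons (mv 1101 (cons (fin 1100 1 1036)
(mv 1041 (cons (fin 1102 1 1037)
(mv 1105 (cons (fin 1104 0 1037)
(fin 1106 0 1038)))))))
(mv 976 (cons (fin 977 2 973)
(mv 975 (cons (fin 1036 2 972)
(mv 1101 (cons (fin 1100 1 1036)
(mv 1102 (cons (fin 1041 1 1037)
(mv 911 (cons (fin 847 5 846)
(mv 1166 (cons (fin 974 6 910)
(fin 1230 6 974))))))))))))))))
(mv 1037 (cons (cons (mv 976 (cons (fin 977 2 973)
(mv 1100 (cons (fin 1101 1 1036)
(mv 1036 (cons (fin 1099 1 1035)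
(mv 1104 (cons (fin 1103 0 1036)
(fin 1105 0 1037)))))))))
(mv 976 (cons (fin 977 2 973)
(mv 1104 (cons (fin 1105 0 1037)
(mv 1036 (cons (fin 1103 0 1036)
(mv 971 (cons (fin 972 3 971)
(mv 1035 (cons (fin 970 3 970)
(mv 1099 (cons (fin 1098 1 1034)
(fin 1100 1 1035))))))))))))))
(cons (mv 977 (cons (fin 976 2 973)
(mv 1041 (cons (fin 978 2 974)
(mv 1101 (cons (fin 1100 1 1036)
(fin 1102 1 1037)))))))
(cons (mv 976 (cons (fin 977 2 973)
(mv 1104 (cons (fin 1105 0 1037)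
(mv 1103 (cons (fin 1036 0 1036)
(mv 912 (cons (fin 848 5 847)
(fin 1167 5 911)))))))))
(mv 1100 (cons (fin 1101 1 1036)
(mv 1036 (cons (fin 1099 1 1035)
(mv 1104 (cons (fin 1103 0 1036)
(fin 1105 0 1037))))))))))))))))))
(cons (cons (mv 1038 (cons (cons (cons (mv 1037 (cons (cons (mv 972 (cons (fin 973 3 972)
(mv 971 (cons (fin 1036 3 971)
(mv 977 (cons (fin 976 2 973)
(mv 1041 (cons (fin 978 2 974)
(mv 1105 (cons (fin 1104 0 1037)
(fin 1106 0 1038)))))))))))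
(mv 972 (cons (fin 973 3 972)
(mv 1036 (cons (fin 971 3 971)
(mv 1104 (cons (fin 1103 0 1036)
(fin 1105 0 1037))))))))
(cons (mv 972 (cons (fin 973 3 972)
(mv 976 (cons (fin 977 2 973)
(mv 1036 (cons (fin 971 3 971)
(fin 975 2 972)))))))
(cons (mv 976 (cons (fin 977 2 973)
(mv 975 (cons (fin 1036 2 972)
(mv 1104 (cons (fin 1105 0 1037)
(mv 911 (cons (fin 1168 7 911)
(fin 847 4 847)))))))))
(mv 972 (cons (fin 973 3 972)
(mv 977 (cons (fin 976 2 973)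
(mv 1041 (cons (fin 978 2 974)
(mv 1105 (cons (fin 1104 0 1037)
(fin 1106 0 1038)))))))))))))
(mv 974 (cons (cons (mv 973 (cons (fin 1041 3 973)
(mv 972 (cons (fin 971 0 971)
(fin 975 0 972)))))
(mv 910 (cons (cons (mv 846 (cons (fin 1103 4 846)
(mv 781 (cons (fin 845 7 781)
(mv 782 (cons (fin 717 7 717)
(fin 975 4 782)))))))
(mv 846 (cons (cons (mv 781 (cons (fin 845 7 781)
(mv 782 (cons (fin 717 7 717)
(fin 975 4 782)))))
(mv 781 (cons (fin 845 7 781)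
(mv 847 (cons (fin 783 6 782)
(mv 911 (cons (fin 1102 6 846)
(mv 975 (cons (fin 1104 4 847)
(mv 848 (cons (fin 784 6 783)
(mv 849 (cons (fin 909 1 845)
(fin 850 1 846))))))))))))))
(cons (mv 782 (cons (fin 975 4 782)
(mv 783 (cons (fin 719 6 718)
(fin 847 6 782)))))
(mv 781 (cons (fin 845 7 781)
(mv 782 (cons (fin 717 7 717)
(mv 783 (cons (fin 719 6 718)
(fin 847 6 782)))))))))))
(cons (mv 1102 (cons (cons (mv 845 (cons (fin 909 7 845)
(mv 847 (cons (fin 911 6 846)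
(mv 1167 (cons (fin 1103 4 910)
(mv 1166 (cons (fin 1231 4 974)
(mv 1229 (cons (fin 1165 5 973)
(mv 1230 (cons (fin 1293 5 1037)
(fin 975 6 974)))))))))))))
(cons (mv 845 (cons (fin 909 7 845)
(mv 911 (cons (fin 847 6 846)
(mv 1166 (cons (fin 975 6 910)
(mv 1229 (cons (fin 1165 5 973)
(mv 1230 (cons (fin 1293 5 1037)
(mv 1294 (cons (fin 1103 6 1038)
(mv 1295 (cons (fin 1231 4 1038)
(fin 1359 4 1102)))))))))))))))
(mv 845 (cons (fin 909 7 845)
(mv 911 (cons (fin 847 6 846)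
(mv 1166 (cons (fin 975 6 910)
(mv 1229 (cons (fin 1165 5 973)
(mv 1230 (cons (fin 1293 5 1037)
(mv 1231 (cons (fin 1167 4 974)
(fin 1295 4 1038)))))))))))))))
(cons (cons (mv 845 (cons (fin 909 7 845)
(mv 1167 (cons (fin 1103 4 910)
(mv 1166 (cons (fin 1231 4 974)
(mv 1229 (cons (fin 1165 5 973)
(mv 1230 (cons (fin 1293 5 1037)
(fin 975 6 974)))))))))))
(mv 847 (cons (fin 911 6 846)
(mv 1167 (cons (fin 1103 4 910)
(mv 1166 (cons (fin 1231 4 974)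
(mv 1229 (cons (fin 1165 5 973)
(mv 1230 (cons (fin 1293 5 1037)
(fin 975 6 974))))))))))))
(cons (mv 845 (cons (fin 909 7 845)
(mv 847 (cons (fin 911 6 846)
(mv 1166 (cons (cons (mv 1167 (cons (fin 1103 4 910)
(fin 1231 4 974)))
(mv 1229 (cons (fin 1165 5 973)
(mv 1230 (cons (fin 1293 5 1037)
(mv 1294 (cons (fin 1103 6 1038)
(mv 1295 (cons (fin 1231 4 1038)
(fin 1359 4 1102))))))))))
(cons (mv 1229 (cons (fin 1165 5 973)
(mv 1230 (cons (fin 1293 5 1037)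
(mv 1231 (cons (fin 1167 4 974)
(fin 1295 4 1038)))))))
(mv 1103 (cons (fin 1167 4 910)
(mv 1229 (cons (fin 1165 5 973)
(mv 1230 (cons (fin 1293 5 1037)
(fin 1294 6 1038))))))))))))))
(mv 845 (cons (fin 909 7 845)
(mv 911 (cons (fin 847 6 846)
(mv 1103 (cons (fin 1167 4 910)
(mv 1104 (cons (cons (mv 975 (cons (fin 1168 4 911)
(mv 912 (cons (fin 848 6 847)
(mv 913 (cons (fin 914 1 910)
(mv 849 (cons (fin 850 2 846)
(fin 976 6 848)))))))))
(mv 1105 (cons (fin 1106 3 1038)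
(mv 1169 (cons (fin 1170 0 1102)
(mv 912 (cons (fin 976 4 912)
(mv 975 (cons (fin 848 6 847)
(mv 913 (cons (fin 914 1 910)
(mv 849 (cons (fin 850 2 846)
(mv 977 (cons (fin 978 0 910)
(fin 1041 5 848))))))))))))))))
(cons (mv 1105 (cons (fin 1106 3 1038)
(mv 1169 (cons (fin 1170 0 1102)
(mv 976 (cons (fin 912 4 912)
(mv 1233 (cons (fin 1041 7 976)
(fin 1297 7 1040)))))))))
(cons (mv 975 (cons (fin 1168 4 911)
(mv 912 (cons (fin 848 6 847)
(mv 913 (cons (fin 914 1 910)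
(mv 849 (cons (fin 850 2 846)
(mv 977 (cons (fin 978 0 910)
(fin 1041 5 848)))))))))))
(mv 1105 (cons (fin 1106 3 1038)
(mv 1168 (cons (fin 975 4 911)
(mv 1169 (cons (fin 1170 0 1102)
(mv 1233 (cons (fin 1297 7 1040)
(fin 976 4 976)))))))))))))))))))))))
(cons (mv 846 (cons (fin 1103 4 846)
(mv 781 (cons (fin 845 7 781)
(mv 782 (cons (fin 717 7 717)
(mv 783 (cons (fin 719 6 718)
(fin 847 6 782)))))))))
(mv 846 (cons (fin 1103 4 846)
(mv 782 (cons (fin 975 4 782)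
(mv 783 (cons (fin 719 6 718)
(fin 847 6 782))))))))))))
(cons (mv 1103 (cons (cons (mv 910 (cons (fin 846 4 846)
(mv 1167 (cons (fin 975 7 910)
(fin 1231 7 974)))))
(mv 910 (cons (fin 846 4 846)
(mv 1102 (cons (cons (mv 845 (cons (fin 909 7 845)
(mv 911 (cons (fin 847 6 846)
(mv 975 (cons (fin 1166 5 910)
(mv 912 (cons (fin 848 6 847)
(mv 913 (cons (fin 973 1 909)
(fin 914 1 910)))))))))))
(cons (mv 909 (cons (fin 845 7 845)
(mv 973 (cons (fin 1166 7 909)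
(mv 972 (cons (fin 971 0 971)
(fin 975 0 972)))))))
(mv 911 (cons (fin 847 6 846)
(mv 975 (cons (fin 1166 5 910)
(mv 912 (cons (fin 848 6 847)
(mv 913 (cons (fin 973 1 909)
(fin 914 1 910)))))))))))
(cons (mv 845 (cons (fin 909 7 845)
(mv 911 (cons (fin 847 6 846)
(mv 912 (cons (mv 848 (cons (fin 976 5 847)
(fin 975 6 847)))
(cons (mv 913 (cons (fin 973 1 909)
(mv 849 (cons (fin 850 2 846)
(mv 914 (cons (fin 975 1 910)
(mv 978 (cons (fin 977 0 910)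
(fin 979 0 911)))))))))
(mv 848 (cons (fin 976 5 847)
(mv 913 (cons (fin 973 1 909)
(mv 850 (cons (fin 849 2 846)
(mv 914 (cons (fin 851 2 847)
(mv 978 (cons (fin 977 0 910)
(fin 979 0 911))))))))))))))))))
(cons (mv 847 (cons (fin 911 6 846)
(mv 909 (cons (fin 845 7 845)
(mv 1166 (cons (fin 973 7 909)
(mv 1229 (cons (fin 1165 5 973)
(mv 1230 (cons (fin 1293 5 1037)
(fin 1294 6 1038)))))))))))
(mv 845 (cons (fin 909 7 845)
(mv 911 (cons (fin 847 6 846)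
(mv 975 (cons (fin 1166 5 910)
(mv 912 (cons (fin 848 6 847)
(mv 913 (cons (fin 914 1 910)
(mv 849 (cons (fin 850 2 846)
(mv 1104 (cons (fin 976 6 848)
(fin 1168 4 911))))))))))))))))))))))
(cons (mv 1167 (cons (fin 1231 7 974)
(mv 975 (cons (cons (mv 912 (cons (fin 976 6 911)
(mv 848 (cons (fin 911 6 847)
(mv 973 (cons (fin 972 0 972)
(mv 1166 (cons (fin 1230 5 974)
(mv 1102 (cons (fin 909 7 909)
(mv 1165 (cons (fin 1229 5 973)
(mv 1104 (cons (fin 1105 1 1101)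
(fin 1164 2 1100)))))))))))))))
(mv 972 (cons (fin 973 0 972)
(mv 1166 (cons (fin 1230 5 974)
(mv 911 (cons (fin 1102 5 910)
(mv 847 (cons (fin 783 5 782)
(fin 1104 4 847))))))))))
(cons (mv 912 (cons (fin 976 6 911)
(mv 911 (cons (fin 848 6 847)
(mv 847 (cons (fin 783 5 782)
(fin 1102 5 846)))))))
(cons (mv 912 (cons (fin 976 6 911)
(mv 973 (cons (fin 972 0 972)
(mv 1166 (cons (fin 1230 5 974)
(mv 1102 (cons (fin 909 7 909)
(mv 1165 (cons (fin 1229 5 973)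
(mv 1104 (cons (fin 1105 1 1101)
(fin 1164 2 1100)))))))))))))
(mv 912 (cons (fin 976 6 911)
(mv 911 (cons (fin 848 6 847)
(mv 847 (cons (fin 783 5 782)
(fin 1104 4 847)))))))))))))
(mv 910 (cons (fin 846 4 846)
(mv 1167 (cons (fin 1231 7 974)
(fin 1102 4 910))))))))
(mv 973 (cons (fin 1041 3 973)
(mv 971 (cons (fin 972 0 971)
(mv 910 (cons (cons (mv 846 (cons (fin 1103 4 846)
(mv 781 (cons (fin 845 7 781)
(mv 717 (cons (fin 782 7 717)
(mv 847 (cons (fin 783 6 782)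
(mv 911 (cons (fin 1102 6 846)
(mv 912 (cons (fin 913 1 909)
(mv 976 (cons (fin 1104 7 847)
(mv 909 (cons (fin 977 0 909)
(mv 848 (cons (fin 849 1 845)
(fin 908 2 844)))))))))))))))))))
(cons (mv 1102 (cons (mv 909 (cons (fin 845 7 845)
(fin 1166 7 909)))
(cons (mv 847 (cons (fin 911 6 846)
(mv 1166 (cons (cons (mv 1167 (cons (fin 1103 4 910)
(fin 1231 4 974)))
(mv 1229 (cons (fin 1165 5 973)
(mv 1230 (cons (fin 1293 5 1037)
(mv 1294 (cons (fin 1103 6 1038)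
(mv 1295 (cons (fin 1231 4 1038)
(fin 1359 4 1102))))))))))
(cons (mv 1229 (cons (fin 1165 5 973)
(mv 1230 (cons (fin 1293 5 1037)
(mv 1231 (cons (fin 1167 4 974)
(fin 1295 4 1038)))))))
(mv 1103 (cons (fin 1167 4 910)
(mv 1229 (cons (fin 1165 5 973)
(mv 1230 (cons (fin 1293 5 1037)
(fin 1294 6 1038))))))))))))
(mv 909 (cons (fin 845 7 845)
(mv 911 (cons (fin 847 6 846)
(mv 912 (cons (fin 913 1 909)
(mv 848 (cons (fin 849 2 845)
(mv 976 (cons (fin 977 0 909)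
(fin 1103 5 847))))))))))))))
(mv 845 (cons (cons (mv 781 (cons (fin 846 7 781)
(fin 909 4 781)))
(mv 846 (cons (fin 781 7 781)
(mv 847 (cons (fin 783 6 782)
(mv 911 (cons (fin 1102 6 846)
(mv 844 (cons (fin 843 0 843)
(fin 912 0 844))))))))))
(cons (mv 911 (cons (cons (mv 1102 (cons (fin 909 7 845)
(fin 847 6 846)))
(mv 912 (cons (fin 913 1 909)
(mv 844 (cons (fin 909 3 844)
(mv 846 (cons (fin 843 0 843)
(fin 847 0 844))))))))
(cons (mv 847 (cons (fin 1102 6 846)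
(mv 783 (cons (fin 719 5 718)
(fin 846 6 782)))))
(mv 909 (cons (fin 1102 7 845)
(mv 912 (cons (fin 844 3 844)
(fin 913 1 909))))))))
(mv 909 (cons (fin 1102 7 845)
(fin 781 4 781))))))))
(cons (mv 846 (cons (fin 1103 4 846)
(mv 781 (cons (fin 845 7 781)
(mv 782 (cons (fin 717 7 717)
(mv 783 (cons (fin 719 6 718)
(fin 847 6 782)))))))))
(cons (mv 846 (cons (fin 1103 4 846)
(mv 783 (cons (fin 847 6 782)
(mv 782 (cons (fin 719 6 718)
(mv 717 (cons (fin 781 7 717)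
(mv 718 (cons (fin 653 7 653)
(fin 909 5 717)))))))))))
(mv 846 (cons (fin 1103 4 846)
(mv 781 (cons (fin 845 7 781)
(mv 782 (cons (fin 717 7 717)
(mv 718 (cons (fin 909 5 717)
(mv 719 (cons (fin 655 6 654)
(fin 783 6 718)))))))))))))))))))))))
(cons (mv 1037 (cons (cons (mv 972 (cons (fin 973 3 972)
(mv 976 (cons (fin 977 2 973)
(mv 1036 (cons (fin 971 3 971)
(fin 975 2 972)))))))
(mv 972 (cons (fin 973 3 972)
(mv 1036 (cons (fin 971 3 971)
(mv 1104 (cons (fin 1103 0 1036)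
(fin 1105 0 1037))))))))
(cons (mv 976 (cons (fin 977 2 973)
(mv 975 (cons (fin 1036 2 972)
(mv 1104 (cons (fin 1105 0 1037)
(mv 911 (cons (fin 1168 7 911)
(fin 847 4 847)))))))))
(mv 972 (cons (fin 973 3 972)
(mv 976 (cons (fin 977 2 973)
(mv 1104 (cons (fin 1105 0 1037)
(mv 912 (cons (mv 1103 (cons (fin 848 5 847)
(fin 1167 5 911)))
(cons (mv 847 (cons (fin 911 7 847)
(mv 848 (cons (fin 783 7 783)
(mv 849 (cons (fin 785 6 784)
(fin 913 6 848)))))))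
(mv 847 (cons (fin 911 7 847)
(mv 849 (cons (fin 913 6 848)
(mv 1167 (cons (fin 1103 5 911)
(mv 1168 (cons (fin 1231 5 975)
(mv 1232 (cons (fin 975 7 975)
(mv 1233 (cons (fin 1169 4 976)
(fin 1297 4 1040)))))))))))))))))))))))))
(cons (mv 1037 (cons (cons (mv 976 (cons (fin 977 2 973)
(mv 975 (cons (fin 1036 2 972)
(mv 1104 (cons (fin 1105 0 1037)
(mv 911 (cons (fin 1168 7 911)
(fin 847 4 847)))))))))
(mv 1104 (cons (fin 1105 0 1037)
(mv 1036 (cons (fin 1103 0 1036)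
(mv 971 (cons (fin 972 3 971)
(mv 1035 (cons (fin 970 3 970)
(mv 1099 (cons (fin 1098 1 1034)
(fin 1100 1 1035))))))))))))
(cons (mv 976 (cons (fin 977 2 973)
(mv 1036 (cons (fin 975 2 972)
(mv 971 (cons (fin 972 3 971)
(mv 1035 (cons (fin 970 3 970)
(mv 1099 (cons (fin 1098 1 1034)
(fin 1100 1 1035)))))))))))
(mv 977 (cons (fin 976 2 973)
(mv 1041 (cons (fin 978 2 974)
(mv 1105 (cons (fin 1104 0 1037)
(fin 1106 0 1038))))))))))
(mv 1037 (cons (cons (mv 972 (cons (fin 973 3 972)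
(mv 1036 (cons (fin 971 3 971)
(mv 1104 (cons (fin 1103 0 1036)
(fin 1105 0 1037)))))))
(mv 972 (cons (fin 973 3 972)
(mv 1036 (cons (fin 971 3 971)
(mv 975 (cons (fin 976 2 972)
(mv 1035 (cons (fin 974 2 971)
(mv 1099 (cons (fin 1098 1 1034)
(fin 1100 1 1035))))))))))))
(cons (mv 1104 (cons (fin 1105 0 1037)
(mv 1036 (cons (fin 1103 0 1036)
(mv 971 (cons (fin 972 3 971)
(mv 975 (cons (fin 976 2 972)
(mv 1035 (cons (fin 970 3 970)
(fin 974 2 971)))))))))))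
(cons (mv 1104 (cons (fin 1105 0 1037)
(mv 1036 (cons (fin 1103 0 1036)
(mv 975 (cons (fin 976 2 972)
(mv 847 (cons (fin 911 4 847)
(mv 1035 (cons (fin 974 2 971)
(mv 1099 (cons (fin 1098 1 1034)
(fin 1100 1 1035)))))))))))))
(mv 973 (cons (fin 972 3 972)
(mv 1041 (cons (fin 974 3 973)
(mv 1105 (cons (fin 1104 0 1037)
(fin 1106 0 1038))))))))))))))
(cons (cons (mv 1037 (cons (cons (mv 972 (cons (fin 973 3 972)
(mv 976 (cons (fin 977 2 973)
(mv 1036 (cons (fin 971 3 971)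
(fin 975 2 972)))))))
(mv 972 (cons (fin 973 3 972)
(mv 1036 (cons (fin 971 3 971)
(mv 1099 (cons (fin 1100 1 1035)
(mv 1035 (cons (fin 1098 1 1034)
(mv 1103 (cons (fin 1102 0 1035)
(fin 1104 0 1036))))))))))))
(cons (mv 976 (cons (fin 977 2 973)
(mv 1036 (cons (fin 975 2 972)
(mv 971 (cons (fin 972 3 971)
(mv 1035 (cons (fin 970 3 970)
(mv 1099 (cons (fin 1098 1 1034)
(fin 1100 1 1035)))))))))))
(cons (mv 976 (cons (fin 977 2 973)
(mv 1036 (cons (fin 975 2 972)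
(mv 1099 (cons (fin 1100 1 1035)
(mv 1035 (cons (fin 1098 1 1034)
(mv 1103 (cons (fin 1102 0 1035)
(fin 1104 0 1036)))))))))))
(mv 973 (cons (fin 972 3 972)
(mv 977 (cons (fin 976 2 973)
(mv 1041 (cons (fin 974 3 973)
(fin 978 2 974)))))))))))
(cons (mv 1037 (cons (cons (mv 972 (cons (fin 973 3 972)
(mv 1036 (cons (fin 971 3 971)
(mv 1104 (cons (fin 1103 0 1036)
(fin 1105 0 1037)))))))
(mv 1104 (cons (fin 1105 0 1037)
(mv 1036 (cons (fin 1103 0 1036)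
(mv 971 (cons (fin 972 3 971)
(mv 1035 (cons (fin 970 3 970)
(mv 1099 (cons (fin 1098 1 1034)
(fin 1100 1 1035))))))))))))
(cons (mv 973 (cons (fin 972 3 972)
(mv 974 (cons (fin 1041 3 973)
(mv 1102 (cons (mv 909 (cons (fin 1166 7 909)
(fin 845 4 845)))
(cons (mv 909 (cons (fin 845 4 845)
(mv 910 (cons (mv 846 (cons (fin 782 5 781)
(fin 1103 4 846)))
(cons (mv 911 (cons (fin 847 6 846)
(mv 912 (cons (fin 913 1 909)
(mv 848 (cons (fin 849 2 845)
(mv 1103 (cons (fin 975 6 847)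
(fin 1167 4 910)))))))))
(mv 846 (cons (fin 782 5 781)
(mv 847 (cons (fin 783 6 782)
(fin 911 6 846))))))))))
(mv 1166 (cons (fin 1230 7 973)
(mv 911 (cons (fin 975 6 910)
(mv 910 (cons (fin 847 6 846)
(mv 846 (cons (fin 782 5 781)
(fin 1103 4 846))))))))))))))))
(cons (mv 1104 (cons (fin 1105 0 1037)
(mv 1036 (cons (fin 1103 0 1036)
(mv 1099 (cons (fin 1100 1 1035)
(mv 1035 (cons (fin 1098 1 1034)
(mv 970 (cons (fin 971 3 970)
(mv 974 (cons (fin 975 2 971)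
(mv 973 (cons (fin 1041 3 973)
(fin 1034 2 970)))))))))))))))
(mv 973 (cons (fin 972 3 972)
(mv 1041 (cons (fin 974 3 973)
(mv 1105 (cons (fin 1104 0 1037)
(fin 1106 0 1038)))))))))))
(mv 1037 (cons (cons (mv 972 (cons (fin 973 3 972)
(mv 976 (cons (fin 977 2 973)
(mv 1036 (cons (fin 971 3 971)
(fin 975 2 972)))))))
(mv 976 (cons (fin 977 2 973)
(mv 1036 (cons (fin 975 2 972)
(mv 971 (cons (fin 972 3 971)
(mv 1035 (cons (fin 970 3 970)
(mv 1099 (cons (fin 1098 1 1034)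
(fin 1100 1 1035))))))))))))
(cons (mv 973 (cons (fin 972 3 972)
(mv 974 (cons (fin 1041 3 973)
(mv 1102 (cons (mv 909 (cons (fin 1166 7 909)
(fin 845 4 845)))
(cons (mv 909 (cons (fin 845 4 845)
(mv 910 (cons (mv 846 (cons (fin 782 5 781)
(fin 1103 4 846)))
(cons (mv 911 (cons (fin 847 6 846)
(mv 912 (cons (fin 913 1 909)
(mv 848 (cons (fin 849 2 845)
(mv 1103 (cons (fin 975 6 847)
(fin 1167 4 910)))))))))
(mv 846 (cons (fin 782 5 781)
(mv 847 (cons (fin 783 6 782)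
(fin 911 6 846))))))))))
(mv 1166 (cons (fin 1230 7 973)
(mv 911 (cons (fin 975 6 910)
(mv 910 (cons (fin 847 6 846)
(mv 846 (cons (fin 782 5 781)
(fin 1103 4 846))))))))))))))))
(cons (mv 976 (cons (fin 977 2 973)
(mv 975 (cons (fin 1036 2 972)
(mv 1103 (cons (mv 912 (cons (fin 848 5 847)
(fin 1167 6 911)))
(cons (mv 848 (cons (fin 912 5 847)
(mv 911 (cons (mv 847 (cons (fin 1102 5 846)
(fin 784 6 783)))
(cons (mv 910 (cons (fin 846 7 846)
(mv 909 (cons (fin 908 0 908)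
(mv 1102 (cons (fin 1166 5 910)
(mv 845 (cons (fin 974 7 845)
(fin 973 4 845)))))))))
(mv 847 (cons (fin 784 6 783)
(fin 783 4 783))))))))
(mv 1167 (cons (fin 1231 6 975)
(mv 910 (cons (fin 974 7 910)
(mv 911 (cons (fin 846 7 846)
(mv 847 (cons (fin 1102 5 846)
(fin 783 4 783))))))))))))))))
(mv 973 (cons (fin 972 3 972)
(mv 977 (cons (fin 976 2 973)
(mv 1041 (cons (fin 974 3 973)
(fin 978 2 974)))))))))))))
(cons (mv 1041 (cons (cons (mv 973 (cons (fin 974 3 973)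
(mv 977 (cons (fin 978 2 974)
(mv 976 (cons (fin 1037 2 973)
(mv 1105 (cons (fin 1106 0 1038)
(mv 912 (cons (fin 1169 7 912)
(fin 848 4 848)))))))))))
(cons (mv 973 (cons (fin 974 3 973)
(mv 1105 (cons (fin 1106 0 1038)
(mv 1104 (cons (fin 1037 0 1037)
(mv 976 (cons (mv 912 (cons (fin 848 4 848)
(fin 1169 4 912)))
(cons (mv 1169 (cons (fin 1233 7 976)
(mv 1168 (cons (mv 975 (cons (fin 911 7 911)
(fin 1232 7 975)))
(cons (mv 975 (cons (fin 911 7 911)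
(mv 1167 (cons (fin 1231 5 975)
(mv 1166 (cons (fin 1165 2 1101)
(mv 1230 (cons (fin 1229 1 1165)
(fin 1103 5 974)))))))))
(mv 1231 (cons (fin 1167 5 975)
(mv 1232 (cons (fin 1295 5 1039)
(fin 1296 6 1040))))))))))
(mv 912 (cons (fin 848 4 848)
(mv 847 (cons (fin 911 7 847)
(mv 849 (cons (fin 913 6 848)
(mv 1167 (cons (fin 1103 5 911)
(mv 1168 (cons (fin 1231 5 975)
(mv 1232 (cons (fin 975 7 975)
(fin 1296 6 1040))))))))))))))))))))))
(mv 973 (cons (fin 974 3 973)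
(mv 977 (cons (fin 978 2 974)
(mv 976 (cons (fin 1037 2 973)
(mv 1104 (cons (mv 913 (cons (fin 849 5 848)
(fin 1168 6 912)))
(cons (mv 913 (cons (fin 849 5 848)
(mv 912 (cons (mv 848 (cons (fin 1103 5 847)
(fin 784 4 784)))
(cons (mv 911 (cons (fin 847 7 847)
(mv 910 (cons (fin 909 0 909)
(mv 846 (cons (fin 845 3 845)
(mv 1103 (cons (fin 975 7 846)
(fin 1167 5 911)))))))))
(mv 847 (cons (fin 911 7 847)
(mv 848 (cons (fin 783 7 783)
(fin 784 4 784))))))))))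
(mv 1168 (cons (fin 1232 6 976)
(mv 911 (cons (fin 975 7 911)
(mv 912 (cons (fin 847 7 847)
(mv 848 (cons (fin 1103 5 847)
(fin 784 4 784))))))))))))))))))))
(cons (mv 977 (cons (fin 978 2 974)
(mv 976 (cons (fin 1037 2 973)
(mv 1105 (cons (fin 1106 0 1038)
(mv 912 (cons (fin 1169 7 912)
(fin 848 4 848)))))))))
(cons (mv 973 (cons (fin 974 3 973)
(mv 977 (cons (fin 978 2 974)
(mv 1105 (cons (fin 1106 0 1038)
(mv 1169 (cons (mv 976 (cons (fin 912 7 912)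
(fin 1233 7 976)))
(cons (mv 1168 (cons (fin 1232 5 976)
(mv 913 (cons (fin 1104 5 912)
(mv 848 (cons (fin 912 7 848)
(mv 849 (cons (fin 784 7 784)
(mv 850 (cons (fin 786 6 785)
(fin 914 6 849)))))))))))
(mv 976 (cons (fin 1233 7 976)
(mv 1168 (cons (fin 1232 5 976)
(mv 913 (cons (fin 1104 5 912)
(mv 849 (cons (fin 785 5 784)
(mv 850 (cons (fin 786 6 785)
(fin 914 6 849))))))))))))))))))))
(mv 973 (cons (fin 974 3 973)
(mv 977 (cons (fin 978 2 974)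
(mv 1105 (cons (fin 1106 0 1038)
(mv 1104 (cons (fin 1037 0 1037)
(mv 913 (cons (fin 849 5 848)
(fin 1168 5 912)))))))))))))))
(cons (mv 1037 (cons (cons (mv 972 (cons (fin 973 3 972)
(mv 971 (cons (fin 1036 3 971)
(mv 977 (cons (fin 976 2 973)
(mv 1041 (cons (fin 978 2 974)
(mv 1105 (cons (fin 1104 0 1037)
(fin 1106 0 1038)))))))))))
(mv 976 (cons (fin 977 2 973)
(mv 1104 (cons (fin 1105 0 1037)
(mv 1036 (cons (fin 1103 0 1036)
(mv 971 (cons (fin 972 3 971)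
(mv 1035 (cons (fin 970 3 970)
(mv 1099 (cons (fin 1098 1 1034)
(fin 1100 1 1035))))))))))))))
(cons (mv 973 (cons (fin 972 3 972)
(mv 977 (cons (fin 976 2 973)
(mv 1041 (cons (fin 974 3 973)
(fin 978 2 974)))))))
(cons (mv 976 (cons (fin 977 2 973)
(mv 1104 (cons (fin 1105 0 1037)
(mv 1103 (cons (fin 1036 0 1036)
(mv 912 (cons (fin 848 5 847)
(fin 1167 5 911)))))))))
(mv 972 (cons (fin 973 3 972)
(mv 1036 (cons (fin 971 3 971)
(mv 1104 (cons (fin 1103 0 1036)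
(fin 1105 0 1037)))))))))))
(mv 1037 (cons (cons (mv 972 (cons (fin 973 3 972)
(mv 971 (cons (fin 1036 3 971)
(mv 977 (cons (fin 976 2 973)
(mv 1041 (cons (fin 978 2 974)
(mv 1105 (cons (fin 1104 0 1037)
(fin 1106 0 1038)))))))))))
(mv 976 (cons (fin 977 2 973)
(mv 975 (cons (fin 1036 2 972)
(mv 1104 (cons (fin 1105 0 1037)
(mv 911 (cons (fin 1168 7 911)
(fin 847 4 847))))))))))
(cons (mv 973 (cons (fin 972 3 972)
(mv 1041 (cons (fin 974 3 973)
(mv 1105 (cons (fin 1104 0 1037)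
(fin 1106 0 1038)))))))
(mv 972 (cons (fin 973 3 972)
(mv 976 (cons (fin 977 2 973)
(mv 1036 (cons (fin 971 3 971)
(fin 975 2 972)))))))))))))))
(mv 1038 (cons (cons (mv 1037 (cons (cons (mv 972 (cons (fin 973 3 972)
(mv 971 (cons (fin 1036 3 971)
(mv 976 (cons (fin 977 2 973)
(mv 1101 (cons (fin 1100 1 1036)
(mv 1041 (cons (fin 1102 1 1037)
(mv 1105 (cons (fin 1104 0 1037)
(fin 1106 0 1038)))))))))))))
(cons (mv 972 (cons (fin 973 3 972)
(mv 971 (cons (fin 1036 3 971)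
(mv 977 (cons (fin 976 2 973)
(mv 1041 (cons (fin 978 2 974)
(mv 1101 (cons (fin 1100 1 1036)
(fin 1102 1 1037)))))))))))
(mv 972 (cons (fin 973 3 972)
(mv 971 (cons (fin 1036 3 971)
(mv 1101 (cons (fin 1100 1 1036)
(mv 1041 (cons (fin 1102 1 1037)
(mv 1105 (cons (fin 1104 0 1037)
(fin 1106 0 1038)))))))))))))
(cons (mv 972 (cons (fin 973 3 972)
(mv 971 (cons (fin 1036 3 971)
(mv 977 (cons (fin 976 2 973)
(mv 1041 (cons (fin 978 2 974)
(mv 1105 (cons (fin 1104 0 1037)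
(fin 1106 0 1038)))))))))))
(cons (mv 976 (cons (fin 977 2 973)
(mv 975 (cons (fin 1036 2 972)
(mv 1100 (cons (fin 1101 1 1036)
(mv 1104 (cons (fin 1105 0 1037)
(mv 911 (cons (fin 1168 7 911)
(fin 847 4 847)))))))))))
(mv 972 (cons (fin 973 3 972)
(mv 976 (cons (fin 977 2 973)
(mv 1101 (cons (fin 1100 1 1036)
(mv 1041 (cons (fin 1102 1 1037)
(mv 1105 (cons (fin 1104 0 1037)
(fin 1106 0 1038)))))))))))))))
(cons (mv 1103 (cons (cons (cons (mv 1102 (cons (mv 1101 (cons (fin 1041 1 1037)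
(fin 1100 2 1036)))
(mv 975 (cons (mv 911 (cons (fin 847 5 846)
(fin 1166 5 910)))
(cons (mv 1166 (cons (fin 1230 6 974)
(mv 1167 (cons (mv 976 (cons (fin 912 6 911)
(fin 1231 6 975)))
(cons (mv 912 (cons (fin 976 6 911)
(mv 1168 (cons (fin 1232 4 975)
(mv 1169 (cons (fin 1170 3 1102)
(mv 1105 (cons (fin 1106 2 1102)
(mv 1104 (cons (fin 1165 1 1101)
(mv 1233 (cons (fin 1234 0 1166)
(fin 1297 7 1040)))))))))))))
(mv 1168 (cons (fin 1232 4 975)
(mv 1169 (cons (fin 1170 3 1102)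
(mv 1105 (cons (fin 1106 2 1102)
(mv 1104 (cons (fin 1165 1 1101)
(mv 1233 (cons (fin 1234 0 1166)
(fin 1297 7 1040))))))))))))))))
(mv 847 (cons (fin 911 5 846)
(mv 1167 (cons (mv 976 (cons (fin 912 6 911)
(fin 1231 6 975)))
(cons (mv 1231 (cons (fin 1295 7 1038)
(mv 1232 (cons (fin 1168 4 975)
(fin 1296 4 1039)))))
(mv 976 (cons (fin 912 6 911)
(mv 977 (cons (fin 978 1 974)
(mv 1168 (cons (fin 1232 4 975)
(mv 1104 (cons (fin 913 6 912)
(mv 1169 (cons (fin 1170 3 1102)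
(fin 1233 4 976)))))))))))))))))))))
(cons (mv 976 (cons (cons (mv 912 (cons (fin 848 5 847)
(mv 1167 (cons (fin 1104 5 911)
(fin 975 6 911)))))
(mv 912 (cons (fin 848 5 847)
(mv 1104 (cons (mv 1105 (cons (fin 1106 3 1038)
(fin 1169 4 912)))
(mv 847 (cons (fin 911 7 847)
(mv 913 (cons (fin 849 6 848)
(mv 977 (cons (fin 1168 6 912)
(mv 978 (cons (fin 975 1 974)
(fin 979 1 975))))))))))))))
(cons (mv 1167 (cons (fin 1231 6 975)
(mv 975 (cons (cons (mv 977 (cons (fin 978 1 974)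
(mv 1166 (cons (fin 1230 5 974)
(mv 911 (cons (fin 1102 5 910)
(mv 847 (cons (fin 783 4 783)
(fin 1104 4 847)))))))))
(mv 977 (cons (fin 978 1 974)
(mv 1168 (cons (fin 1232 4 975)
(mv 1104 (cons (fin 911 7 911)
(fin 913 6 912))))))))
(cons (mv 1166 (cons (fin 1230 5 974)
(mv 911 (cons (fin 1102 5 910)
(mv 847 (cons (fin 783 4 783)
(fin 1104 4 847)))))))
(cons (mv 977 (cons (fin 978 1 974)
(mv 1166 (cons (fin 1230 5 974)
(mv 1168 (cons (fin 1232 4 975)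
(mv 1104 (cons (fin 913 6 912)
(mv 1105 (cons (fin 1106 3 1038)
(fin 1165 2 1101)))))))))))
(mv 977 (cons (fin 978 1 974)
(mv 1166 (cons (fin 1230 5 974)
(mv 911 (cons (fin 1102 5 910)
(mv 846 (cons (fin 910 7 846)
(mv 847 (cons (fin 782 7 782)
(fin 783 4 783)))))))))))))))))
(cons (mv 912 (cons (fin 848 5 847)
(mv 1167 (cons (fin 975 6 911)
(fin 1231 6 975)))))
(mv 912 (cons (fin 848 5 847)
(mv 1167 (cons (fin 1104 5 911)
(fin 1231 6 975)))))))))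
(mv 1105 (cons (cons (mv 1106 (cons (fin 1104 3 1038)
(fin 1041 0 1038)))
(mv 975 (cons (cons (cons (mv 976 (cons (mv 912 (cons (fin 848 5 847)
(fin 1167 6 911)))
(cons (mv 977 (cons (fin 978 1 974)
(mv 1167 (cons (fin 1231 6 975)
(mv 1166 (cons (fin 1230 5 974)
(mv 1168 (cons (fin 1232 4 975)
(mv 1104 (cons (fin 1165 2 1101)
(fin 911 7 911)))))))))))
(mv 912 (cons (fin 848 5 847)
(mv 977 (cons (fin 978 1 974)
(mv 1169 (cons (fin 1041 7 912)
(fin 1104 4 912))))))))))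
(mv 1167 (cons (cons (mv 1166 (cons (fin 1230 5 974)
(mv 1168 (cons (fin 1232 4 975)
(mv 1104 (cons (fin 1165 2 1101)
(fin 911 4 911)))))))
(mv 1230 (cons (fin 1166 5 974)
(mv 1231 (cons (fin 1294 5 1038)
(mv 1295 (cons (fin 1104 6 1039)
(mv 1296 (cons (fin 1232 4 1039)
(fin 1360 4 1103))))))))))
(cons (mv 1230 (cons (fin 1166 5 974)
(mv 1231 (cons (fin 1294 5 1038)
(mv 1104 (cons (fin 1295 6 1039)
(mv 911 (cons (fin 847 4 847)
(fin 1168 4 911)))))))))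
(cons (mv 1168 (cons (fin 1232 4 975)
(mv 911 (cons (fin 1104 4 911)
(mv 846 (cons (fin 910 7 846)
(mv 847 (cons (fin 782 7 782)
(mv 848 (cons (fin 784 6 783)
(fin 912 6 847)))))))))))
(mv 1230 (cons (fin 1166 5 974)
(mv 1231 (cons (fin 1294 5 1038)
(mv 1232 (cons (fin 1168 4 975)
(fin 1296 4 1039))))))))))))
(cons (mv 976 (cons (mv 912 (cons (fin 848 5 847)
(fin 1167 6 911)))
(cons (mv 977 (cons (fin 978 1 974)
(mv 1167 (cons (fin 1231 6 975)
(mv 1166 (cons (fin 1230 5 974)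
(mv 1168 (cons (fin 1232 4 975)
(mv 1104 (cons (fin 1165 2 1101)
(fin 913 6 912)))))))))))
(mv 912 (cons (fin 848 5 847)
(mv 977 (cons (fin 978 1 974)
(mv 1169 (cons (fin 1041 7 912)
(fin 1104 4 912))))))))))
(mv 911 (cons (mv 1104 (cons (fin 847 4 847)
(fin 1168 4 911)))
(cons (mv 846 (cons (fin 910 7 846)
(mv 847 (cons (fin 782 7 782)
(mv 848 (cons (fin 784 6 783)
(fin 912 6 847)))))))
(mv 846 (cons (fin 910 7 846)
(mv 912 (cons (fin 848 6 847)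
(mv 1104 (cons (fin 1168 4 911)
(mv 976 (cons (fin 1169 4 912)
(mv 913 (cons (fin 849 6 848)
(mv 914 (cons (fin 915 1 911)
(mv 978 (cons (fin 977 1 974)
(fin 979 0 911))))))))))))))))))))
(cons (cons (mv 911 (cons (cons (mv 846 (cons (fin 910 7 846)
(mv 782 (cons (fin 847 7 782)
(mv 912 (cons (fin 848 6 847)
(mv 1167 (cons (fin 976 6 911)
(mv 1230 (cons (fin 1166 5 974)
(mv 1231 (cons (fin 1294 5 1038)
(mv 1232 (cons (fin 1168 4 975)
(fin 1296 4 1039)))))))))))))))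
(mv 846 (cons (fin 910 7 846)
(mv 847 (cons (fin 782 7 782)
(mv 783 (cons (fin 976 4 783)
(mv 784 (cons (fin 720 6 719)
(fin 848 6 783))))))))))
(cons (mv 846 (cons (fin 910 7 846)
(mv 847 (cons (fin 782 7 782)
(mv 976 (cons (fin 783 4 783)
(mv 1167 (cons (fin 912 6 911)
(fin 1231 6 975)))))))))
(cons (mv 912 (cons (fin 848 6 847)
(mv 1167 (cons (fin 976 6 911)
(mv 1230 (cons (fin 1166 5 974)
(mv 1231 (cons (fin 1294 5 1038)
(mv 1232 (cons (fin 1168 4 975)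
(fin 1296 4 1039)))))))))))
(mv 846 (cons (fin 910 7 846)
(mv 847 (cons (fin 782 7 782)
(mv 848 (cons (fin 784 6 783)
(fin 912 6 847)))))))))))
(mv 911 (cons (mv 1104 (cons (fin 847 4 847)
(fin 1168 4 911)))
(cons (mv 846 (cons (fin 910 7 846)
(mv 847 (cons (fin 782 7 782)
(mv 783 (cons (fin 976 4 783)
(mv 784 (cons (fin 720 6 719)
(fin 848 6 783)))))))))
(mv 846 (cons (fin 910 7 846)
(mv 1168 (cons (fin 1104 4 911)
(mv 1167 (cons (fin 1232 4 975)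
(mv 1230 (cons (fin 1166 5 974)
(mv 1231 (cons (fin 1294 5 1038)
(fin 976 6 975)))))))))))))))
(cons (mv 912 (cons (mv 848 (cons (fin 976 5 847)
(fin 911 6 847)))
(cons (mv 911 (cons (fin 848 6 847)
(mv 846 (cons (fin 910 7 846)
(mv 847 (cons (fin 782 7 782)
(fin 1104 4 847)))))))
(mv 976 (cons (fin 1167 6 911)
(mv 977 (cons (fin 978 1 974)
(mv 1169 (cons (fin 1041 7 912)
(fin 1104 4 912))))))))))
(mv 1167 (cons (mv 976 (cons (fin 912 6 911)
(fin 1231 6 975)))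
(mv 1166 (cons (fin 1230 5 974)
(mv 1168 (cons (fin 1232 4 975)
(mv 1104 (cons (fin 1165 2 1101)
(fin 911 4 911))))))))))))))
(cons (mv 1041 (cons (fin 1106 0 1038)
(mv 977 (cons (fin 978 2 974)
(mv 913 (cons (cons (mv 848 (cons (fin 912 7 848)
(mv 849 (cons (fin 784 7 784)
(mv 850 (cons (fin 786 6 785)
(fin 914 6 849)))))))
(mv 850 (cons (fin 914 6 849)
(mv 849 (cons (fin 786 6 785)
(mv 784 (cons (fin 848 7 784)
(mv 785 (cons (fin 720 7 720)
(fin 976 5 784))))))))))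
(cons (mv 850 (cons (fin 914 6 849)
(mv 849 (cons (fin 786 6 785)
(mv 976 (cons (fin 785 5 784)
(mv 1169 (cons (fin 912 7 912)
(fin 1233 7 976)))))))))
(mv 912 (cons (fin 848 7 848)
(mv 976 (cons (fin 1169 7 912)
(mv 1167 (cons (fin 975 6 911)
(fin 1231 6 975))))))))))))))
(mv 1104 (cons (fin 1106 3 1038)
(mv 976 (cons (mv 912 (cons (fin 848 5 847)
(fin 1167 5 911)))
(cons (mv 1167 (cons (fin 1231 6 975)
(mv 1168 (cons (mv 975 (cons (fin 911 7 911)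
(fin 1232 7 975)))
(cons (mv 913 (cons (fin 977 6 912)
(mv 1165 (cons (fin 1166 2 1101)
(mv 1232 (cons (fin 1296 7 1039)
(mv 1233 (cons (fin 1169 4 976)
(fin 1297 4 1040)))))))))
(mv 913 (cons (fin 977 6 912)
(mv 975 (cons (fin 911 7 911)
(mv 1166 (cons (fin 1165 2 1101)
(fin 1230 5 974))))))))))))
(mv 912 (cons (fin 848 5 847)
(fin 1169 4 912)))))))))))))
(cons (cons (mv 1102 (cons (mv 1101 (cons (fin 1041 1 1037)
(fin 1100 2 1036)))
(mv 1167 (cons (cons (mv 1231 (cons (fin 1295 7 1038)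
(mv 1230 (cons (fin 1294 5 1038)
(mv 975 (cons (fin 1166 5 974)
(mv 1232 (cons (fin 1168 4 975)
(fin 1296 4 1039)))))))))
(cons (mv 975 (cons (mv 911 (cons (fin 847 5 846)
(fin 1166 5 910)))
(cons (mv 911 (cons (fin 847 5 846)
(mv 1168 (cons (fin 1104 4 911)
(fin 1232 4 975)))))
(mv 1166 (cons (fin 1230 5 974)
(mv 1168 (cons (fin 1232 4 975)
(mv 1169 (cons (fin 1170 3 1102)
(mv 1105 (cons (fin 1106 2 1102)
(mv 1104 (cons (fin 1165 1 1101)
(mv 1233 (cons (fin 1234 0 1166)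
(fin 1297 7 1040))))))))))))))))
(mv 1231 (cons (fin 1295 7 1038)
(mv 1230 (cons (fin 1294 5 1038)
(mv 1232 (cons (fin 1296 4 1039)
(mv 1229 (cons (mv 1168 (cons (fin 1228 2 1164)
(fin 1169 2 1165)))
(mv 1293 (cons (fin 1292 1 1228)
(fin 1166 5 1037)))))))))))))
(cons (cons (mv 1231 (cons (fin 1295 7 1038)
(mv 1230 (cons (fin 1294 5 1038)
(mv 1232 (cons (fin 1296 4 1039)
(mv 1168 (cons (fin 975 4 975)
(mv 1169 (cons (fin 1170 3 1102)
(fin 1229 2 1165)))))))))))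
(mv 1231 (cons (fin 1295 7 1038)
(mv 1232 (cons (fin 1296 4 1039)
(mv 975 (cons (fin 1168 4 975)
(mv 911 (cons (fin 847 5 846)
(fin 1166 5 910))))))))))
(cons (mv 1231 (cons (fin 1295 7 1038)
(mv 1230 (cons (fin 1294 5 1038)
(mv 1166 (cons (fin 975 5 974)
(mv 1229 (cons (fin 1293 5 1037)
(mv 1227 (cons (fin 1228 2 1163)
(mv 1232 (cons (fin 1296 4 1039)
(mv 1165 (cons (fin 1164 3 1164)
(fin 1233 3 1165)))))))))))))))
(mv 1231 (cons (fin 1295 7 1038)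
(mv 1230 (cons (fin 1294 5 1038)
(mv 1166 (cons (fin 975 5 974)
(mv 1229 (cons (fin 1293 5 1037)
(mv 1168 (cons (fin 1169 1 1165)
(fin 1228 2 1164)))))))))))))))))
(mv 1102 (cons (mv 1101 (cons (fin 1041 1 1037)
(fin 1100 2 1036)))
(mv 975 (cons (mv 911 (cons (fin 847 5 846)
(fin 1166 5 910)))
(cons (mv 1166 (cons (fin 1230 6 974)
(mv 1167 (cons (mv 976 (cons (fin 912 6 911)
(fin 1231 6 975)))
(cons (mv 976 (cons (fin 912 6 911)
(mv 977 (cons (fin 978 1 974)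
(mv 1168 (cons (fin 1232 4 975)
(mv 1104 (cons (fin 913 6 912)
(mv 1169 (cons (fin 1170 3 1102)
(fin 1233 4 976)))))))))))
(mv 1231 (cons (fin 1295 7 1038)
(mv 1232 (cons (fin 1168 4 975)
(fin 1296 4 1039))))))))))
(mv 911 (cons (fin 847 5 846)
(mv 846 (cons (fin 910 7 846)
(mv 848 (cons (fin 912 6 847)
(mv 1168 (cons (fin 1104 4 911)
(mv 1167 (cons (fin 1232 4 975)
(mv 1231 (cons (fin 1295 7 1038)
(fin 976 6 975)))))))))))))))))))
(cons (mv 1102 (cons (mv 1101 (cons (fin 1041 1 1037)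
(fin 1100 2 1036)))
(cons (mv 975 (cons (mv 911 (cons (fin 847 5 846)
(fin 1166 5 910)))
(cons (mv 1166 (cons (fin 1230 6 974)
(mv 1167 (cons (mv 976 (cons (fin 912 6 911)
(fin 1231 6 975)))
(cons (mv 976 (cons (fin 912 6 911)
(mv 977 (cons (fin 978 1 974)
(mv 1168 (cons (fin 1232 4 975)
(mv 1169 (cons (fin 1170 3 1102)
(mv 1105 (cons (fin 1106 2 1102)
(mv 1233 (cons (fin 1234 0 1166)
(fin 1041 7 976)))))))))))))
(mv 1231 (cons (fin 1295 7 1038)
(mv 1232 (cons (fin 1168 4 975)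
(fin 1296 4 1039))))))))))
(mv 911 (cons (fin 847 5 846)
(mv 846 (cons (fin 910 7 846)
(mv 912 (cons (fin 848 6 847)
(mv 1167 (cons (fin 976 6 911)
(mv 1231 (cons (fin 1295 7 1038)
(mv 1232 (cons (fin 1168 4 975)
(fin 1296 4 1039))))))))))))))))
(mv 1101 (cons (fin 1100 2 1036)
(mv 975 (cons (mv 911 (cons (fin 847 5 846)
(fin 1166 5 910)))
(cons (mv 911 (cons (fin 847 5 846)
(mv 846 (cons (fin 910 7 846)
(mv 912 (cons (fin 848 6 847)
(mv 1167 (cons (fin 976 6 911)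
(mv 1231 (cons (fin 1295 7 1038)
(mv 1232 (cons (fin 1168 4 975)
(fin 1296 4 1039)))))))))))))
(mv 1166 (cons (fin 1230 6 974)
(mv 1167 (cons (mv 976 (cons (fin 912 6 911)
(fin 1231 6 975)))
(mv 1168 (cons (fin 1169 3 1101)
(fin 1232 4 975)))))))))))))))
(mv 1102 (cons (mv 1101 (cons (fin 1041 1 1037)
(fin 1100 2 1036)))
(cons (mv 1105 (cons (cons (mv 1106 (cons (fin 1104 3 1038)
(fin 1041 0 1038)))
(mv 1166 (cons (mv 975 (cons (fin 911 5 910)
(fin 1230 6 974)))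
(cons (mv 911 (cons (fin 975 5 910)
(mv 1104 (cons (fin 1165 1 1101)
(mv 1169 (cons (fin 1170 0 1102)
(mv 976 (cons (fin 912 4 912)
(mv 1233 (cons (fin 1041 7 976)
(fin 1297 7 1040)))))))))))
(mv 1104 (cons (fin 1165 1 1101)
(mv 1169 (cons (fin 1170 0 1102)
(mv 912 (cons (fin 976 4 912)
(mv 1230 (cons (fin 1294 6 1038)
(mv 1229 (cons (fin 1293 5 1037)
(mv 1231 (cons (fin 1295 4 1038)
(mv 1232 (cons (fin 1168 2 1165)
(mv 1297 (cons (fin 1296 0 1229)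
(fin 1233 7 1040)))))))))))))))))))))
(cons (mv 1041 (cons (fin 1106 0 1038)
(mv 977 (cons (fin 978 2 974)
(mv 912 (cons (mv 848 (cons (fin 913 7 848)
(fin 976 5 847)))
(cons (mv 1169 (cons (fin 976 7 912)
(mv 1170 (cons (fin 1234 4 977)
(mv 1232 (cons (fin 1168 5 976)
(mv 1233 (cons (fin 1296 5 1040)
(mv 1171 (cons (fin 1172 1 1168)
(mv 1230 (cons (fin 1231 2 1166)
(mv 1166 (cons (fin 975 6 974)
(fin 1294 6 1038)))))))))))))))
(mv 913 (cons (fin 848 7 848)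
(mv 850 (cons (fin 914 6 849)
(mv 849 (cons (fin 786 6 785)
(mv 851 (cons (fin 852 1 848)
(mv 911 (cons (fin 910 2 846)
(mv 975 (cons (fin 847 5 846)
(fin 1166 5 910))))))))))))))))))))
(mv 1104 (cons (fin 1106 3 1038)
(mv 1165 (cons (fin 1166 1 1101)
(mv 1169 (cons (fin 1170 0 1102)
(mv 976 (cons (fin 912 4 912)
(mv 1233 (cons (fin 1297 7 1040)
(fin 1168 4 976))))))))))))))
(mv 1101 (cons (fin 1100 2 1036)
(mv 1104 (cons (mv 1105 (cons (fin 1106 3 1038)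
(mv 1165 (cons (fin 1164 1 1100)
(fin 1166 1 1101)))))
(cons (mv 1164 (cons (fin 1165 1 1100)
(mv 1168 (cons (fin 1169 0 1101)
(mv 975 (cons (fin 1232 7 975)
(fin 911 4 911)))))))
(mv 1105 (cons (fin 1106 3 1038)
(mv 1169 (cons (fin 1168 0 1101)
(fin 1170 0 1102))))))))))))))))
(cons (cons (cons (mv 1102 (cons (mv 1101 (cons (fin 1041 1 1037)
(fin 1100 2 1036)))
(cons (mv 1105 (cons (cons (mv 1106 (cons (fin 1104 3 1038)
(fin 1041 0 1038)))
(mv 1166 (cons (mv 975 (cons (fin 911 5 910)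
(fin 1230 6 974)))
(mv 1104 (cons (fin 1165 1 1101)
(mv 1169 (cons (fin 1170 0 1102)
(mv 976 (cons (fin 912 4 912)
(mv 1233 (cons (fin 1041 7 976)
(fin 1297 7 1040))))))))))))
(cons (mv 1041 (cons (fin 1106 0 1038)
(mv 977 (cons (fin 978 2 974)
(mv 976 (cons (mv 912 (cons (fin 1169 7 912)
(fin 848 5 847)))
(cons (mv 1169 (cons (fin 1233 7 976)
(mv 1168 (cons (fin 1232 5 976)
(mv 1170 (cons (fin 1167 3 1102)
(fin 1234 4 977)))))))
(mv 912 (cons (fin 848 5 847)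
(mv 975 (cons (fin 1167 6 911)
(mv 911 (cons (fin 847 5 846)
(fin 1166 5 910))))))))))))))
(mv 1104 (cons (fin 1106 3 1038)
(mv 1165 (cons (fin 1166 1 1101)
(mv 1169 (cons (fin 1170 0 1102)
(mv 976 (cons (fin 912 4 912)
(mv 1233 (cons (fin 1297 7 1040)
(fin 1168 4 976))))))))))))))
(mv 1101 (cons (fin 1100 2 1036)
(mv 975 (cons (mv 911 (cons (fin 847 5 846)
(fin 1166 5 910)))
(cons (mv 1166 (cons (fin 1230 6 974)
(mv 1104 (cons (mv 1105 (cons (fin 1106 3 1038)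
(fin 1165 1 1101)))
(mv 1168 (cons (fin 1169 0 1101)
(fin 1232 7 975)))))))
(mv 911 (cons (fin 847 5 846)
(mv 846 (cons (fin 910 7 846)
(mv 912 (cons (fin 848 6 847)
(mv 976 (cons (fin 1167 6 911)
(mv 977 (cons (fin 978 1 974)
(mv 1104 (cons (fin 1168 7 911)
(mv 1105 (cons (fin 1106 3 1038)
(fin 1169 4 912)))))))))))))))))))))))
(mv 1102 (cons (mv 1101 (cons (fin 1041 1 1037)
(fin 1100 2 1036)))
(cons (mv 1105 (cons (cons (mv 1106 (cons (fin 1104 3 1038)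
(fin 1041 0 1038)))
(mv 1104 (cons (cons (mv 1165 (cons (fin 1166 1 1101)
(mv 1169 (cons (fin 1170 0 1102)
(mv 976 (cons (fin 912 4 912)
(mv 1233 (cons (fin 1041 7 976)
(fin 1297 7 1040)))))))))
(mv 1166 (cons (fin 1165 1 1101)
(mv 1230 (cons (fin 1294 6 1038)
(mv 1229 (cons (fin 1293 5 1037)
(mv 1231 (cons (fin 1295 4 1038)
(mv 976 (cons (fin 1167 6 975)
(mv 912 (cons (fin 848 5 847)
(mv 847 (cons (fin 911 7 847)
(mv 913 (cons (fin 849 6 848)
(mv 977 (cons (fin 1168 6 912)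
(mv 978 (cons (fin 979 1 975)
(fin 1041 2 974))))))))))))))))))))))
(cons (mv 1169 (cons (fin 1170 0 1102)
(mv 976 (cons (fin 912 4 912)
(mv 1233 (cons (fin 1041 7 976)
(fin 1297 7 1040)))))))
(mv 1166 (cons (fin 1165 1 1101)
(mv 1169 (cons (fin 1170 0 1102)
(mv 1230 (cons (fin 1294 6 1038)
(mv 1229 (cons (fin 1293 5 1037)
(mv 1167 (cons (fin 1168 1 1165)
(mv 1227 (cons (fin 1228 2 1163)
(mv 1231 (cons (fin 1295 7 1038)
(mv 1232 (cons (fin 1296 4 1039)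
(mv 1233 (cons (fin 1234 3 1166)
(fin 1297 7 1040)))))))))))))))))))))))
(cons (mv 1041 (cons (fin 1106 0 1038)
(mv 977 (cons (fin 978 2 974)
(mv 1169 (cons (mv 976 (cons (fin 912 7 912)
(fin 1233 7 976)))
(mv 1168 (cons (fin 1232 5 976)
(mv 1170 (cons (fin 1167 3 1102)
(fin 1234 4 977)))))))))))
(mv 1104 (cons (fin 1106 3 1038)
(mv 1165 (cons (fin 1166 1 1101)
(mv 1169 (cons (fin 1170 0 1102)
(mv 976 (cons (fin 912 4 912)
(mv 1233 (cons (fin 1297 7 1040)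
(fin 1168 4 976))))))))))))))
(mv 1101 (cons (fin 1100 2 1036)
(mv 1104 (cons (mv 1105 (cons (fin 1106 3 1038)
(mv 1165 (cons (fin 1164 1 1100)
(fin 1166 1 1101)))))
(cons (mv 1164 (cons (fin 1165 1 1100)
(mv 1168 (cons (fin 1169 0 1101)
(mv 1232 (cons (fin 1296 7 1039)
(mv 1231 (cons (fin 1295 5 1039)
(mv 976 (cons (fin 1167 5 975)
(mv 912 (cons (fin 848 5 847)
(mv 913 (cons (fin 849 6 848)
(fin 977 6 912)))))))))))))))
(mv 1105 (cons (fin 1106 3 1038)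
(mv 1169 (cons (fin 1168 0 1101)
(fin 1170 0 1102))))))))))))))
(cons (mv 1102 (cons (mv 1101 (cons (fin 1041 1 1037)
(fin 1100 2 1036)))
(cons (mv 976 (cons (cons (mv 912 (cons (fin 848 5 847)
(mv 1167 (cons (fin 1104 5 911)
(fin 975 6 911)))))
(mv 912 (cons (fin 848 5 847)
(mv 1104 (cons (mv 1105 (cons (fin 1106 3 1038)
(fin 1169 4 912)))
(mv 913 (cons (fin 849 6 848)
(mv 977 (cons (fin 1168 6 912)
(mv 978 (cons (fin 975 1 974)
(fin 979 1 975))))))))))))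
(cons (mv 1167 (cons (fin 1231 6 975)
(mv 1168 (cons (cons (mv 975 (cons (fin 1232 4 975)
(mv 977 (cons (fin 978 1 974)
(mv 913 (cons (fin 1104 6 912)
(mv 785 (cons (fin 849 5 784)
(mv 1166 (cons (fin 1230 5 974)
(mv 1169 (cons (fin 1170 3 1102)
(mv 1105 (cons (fin 1106 2 1102)
(mv 1233 (cons (fin 1234 0 1166)
(fin 1041 7 976)))))))))))))))))
(cons (mv 1169 (cons (fin 1170 3 1102)
(mv 1104 (cons (fin 1233 4 976)
(mv 913 (cons (fin 977 6 912)
(mv 1105 (cons (fin 1106 3 1038)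
(mv 1166 (cons (fin 1165 1 1101)
(mv 1230 (cons (fin 1229 1 1165)
(fin 1294 6 1038)))))))))))))
(mv 975 (cons (fin 1232 4 975)
(mv 977 (cons (fin 978 1 974)
(mv 1104 (cons (fin 913 6 912)
(mv 1105 (cons (fin 1106 3 1038)
(mv 1166 (cons (fin 1165 1 1101)
(fin 1230 5 974)))))))))))))
(cons (mv 975 (cons (fin 1232 4 975)
(mv 977 (cons (fin 978 1 974)
(mv 1166 (cons (fin 1230 5 974)
(mv 1169 (cons (fin 1170 3 1102)
(mv 1105 (cons (fin 1106 2 1102)
(mv 1233 (cons (fin 1234 0 1166)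
(fin 1041 7 976)))))))))))))
(cons (mv 975 (cons (fin 1232 4 975)
(mv 1166 (cons (fin 1230 5 974)
(mv 1169 (cons (fin 1170 3 1102)
(mv 1233 (cons (fin 1234 0 1166)
(fin 1104 4 976)))))))))
(mv 975 (cons (fin 1232 4 975)
(mv 977 (cons (fin 978 1 974)
(mv 1104 (cons (fin 913 6 912)
(mv 1169 (cons (fin 1170 3 1102)
(fin 1233 4 976)))))))))))))))
(cons (mv 912 (cons (fin 848 5 847)
(mv 1167 (cons (fin 1104 5 911)
(fin 1231 6 975)))))
(mv 912 (cons (fin 848 5 847)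
(mv 1167 (cons (fin 975 6 911)
(fin 1231 6 975)))))))))
(mv 1101 (cons (fin 1100 2 1036)
(mv 1104 (cons (mv 1105 (cons (fin 1106 3 1038)
(mv 1165 (cons (fin 1164 1 1100)
(fin 1166 1 1101)))))
(cons (mv 1164 (cons (fin 1165 1 1100)
(mv 1168 (cons (fin 1169 0 1101)
(mv 1232 (cons (fin 975 7 975)
(fin 1296 7 1039)))))))
(mv 1105 (cons (fin 1106 3 1038)
(mv 1169 (cons (fin 1168 0 1101)
(fin 1170 0 1102)))))))))))))
(mv 1105 (cons (cons (mv 1106 (cons (fin 1104 3 1038)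
(fin 1041 0 1038)))
(mv 1102 (cons (mv 1101 (cons (fin 1041 1 1037)
(fin 1100 2 1036)))
(cons (mv 1166 (cons (mv 975 (cons (fin 911 5 910)
(fin 1230 6 974)))
(cons (mv 911 (cons (fin 975 5 910)
(mv 1104 (cons (fin 1165 1 1101)
(mv 1169 (cons (fin 1170 0 1102)
(mv 976 (cons (fin 912 4 912)
(mv 1233 (cons (fin 1041 7 976)
(fin 1297 7 1040)))))))))))
(mv 1104 (cons (fin 1165 1 1101)
(mv 1169 (cons (fin 1170 0 1102)
(mv 976 (cons (fin 912 4 912)
(mv 1233 (cons (fin 1041 7 976)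
(fin 1297 7 1040))))))))))))
(mv 1100 (cons (fin 1101 2 1036)
(mv 1166 (cons (mv 975 (cons (fin 911 5 910)
(fin 1230 6 974)))
(cons (mv 911 (cons (fin 975 5 910)
(mv 1165 (cons (fin 1104 1 1101)
(mv 1164 (cons (fin 1163 2 1099)
(mv 1167 (cons (fin 1099 3 1099)
(mv 1231 (cons (fin 1232 0 1164)
(fin 1295 7 1038)))))))))))
(mv 1104 (cons (fin 1165 1 1101)
(mv 1169 (cons (fin 1170 0 1102)
(mv 976 (cons (fin 912 4 912)
(mv 1230 (cons (fin 1294 6 1038)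
(mv 1231 (cons (fin 1167 6 975)
(fin 1295 4 1038))))))))))))))))))))
(cons (mv 1104 (cons (fin 1106 3 1038)
(mv 1167 (cons (mv 976 (cons (fin 912 5 911)
(fin 1231 6 975)))
(cons (mv 1231 (cons (fin 1295 6 1039)
(mv 1230 (cons (fin 1294 5 1038)
(mv 1166 (cons (fin 975 5 974)
(mv 1165 (cons (fin 1102 1 1101)
(fin 1164 2 1100)))))))))
(mv 912 (cons (fin 976 5 911)
(mv 1166 (cons (mv 1165 (cons (fin 1102 1 1101)
(fin 1164 2 1100)))
(cons (mv 975 (cons (fin 1230 5 974)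
(mv 911 (cons (fin 1102 5 910)
(fin 848 6 847)))))
(mv 975 (cons (fin 1230 5 974)
(mv 911 (cons (fin 848 6 847)
(fin 847 4 847)))))))))))))))
(mv 1041 (cons (fin 1106 0 1038)
(mv 977 (cons (fin 978 2 974)
(mv 1102 (cons (fin 1101 1 1037)
(mv 912 (cons (mv 848 (cons (fin 913 7 848)
(fin 976 5 847)))
(cons (mv 913 (cons (fin 848 7 848)
(mv 850 (cons (fin 914 6 849)
(mv 849 (cons (fin 786 6 785)
(mv 851 (cons (fin 852 1 848)
(mv 911 (cons (fin 910 2 846)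
(mv 975 (cons (fin 847 5 846)
(fin 1166 5 910)))))))))))))
(mv 976 (cons (fin 1169 7 912)
(mv 1167 (cons (fin 975 6 911)
(fin 1231 6 975)))))))))))))))))))
(cons (cons (mv 1102 (cons (mv 1101 (cons (fin 1041 1 1037)
(fin 1100 2 1036)))
(mv 1167 (cons (mv 1231 (cons (fin 1295 7 1038)
(fin 976 6 975)))
(cons (mv 975 (cons (cons (mv 847 (cons (fin 911 5 846)
(mv 976 (cons (fin 912 6 911)
(mv 977 (cons (fin 978 1 974)
(mv 1168 (cons (fin 1232 4 975)
(mv 1104 (cons (fin 913 6 912)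
(mv 1169 (cons (fin 1170 3 1102)
(fin 1233 4 976)))))))))))))
(mv 976 (cons (fin 912 6 911)
(mv 977 (cons (fin 978 1 974)
(mv 1168 (cons (fin 1232 4 975)
(mv 1104 (cons (fin 913 6 912)
(mv 1169 (cons (fin 1170 3 1102)
(fin 1233 4 976))))))))))))
(cons (mv 911 (cons (fin 847 5 846)
(mv 1168 (cons (fin 1104 4 911)
(fin 1232 4 975)))))
(mv 911 (cons (fin 847 5 846)
(mv 912 (cons (fin 848 6 847)
(fin 976 6 911))))))))
(mv 1231 (cons (fin 1295 7 1038)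
(mv 1230 (cons (fin 1294 5 1038)
(mv 1232 (cons (fin 1296 4 1039)
(mv 1168 (cons (fin 975 4 975)
(mv 1169 (cons (fin 1170 3 1102)
(fin 1229 2 1165))))))))))))))))
(mv 1102 (cons (mv 1101 (cons (fin 1041 1 1037)
(fin 1100 2 1036)))
(cons (mv 1105 (cons (cons (mv 1106 (cons (fin 1104 3 1038)
(fin 1041 0 1038)))
(mv 1166 (cons (mv 975 (cons (fin 911 5 910)
(fin 1230 6 974)))
(cons (mv 911 (cons (fin 975 5 910)
(mv 1104 (cons (fin 1165 1 1101)
(mv 1169 (cons (fin 1170 0 1102)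
(mv 976 (cons (fin 912 4 912)
(mv 1233 (cons (fin 1041 7 976)
(fin 1297 7 1040)))))))))))
(mv 1104 (cons (fin 1165 1 1101)
(mv 1169 (cons (fin 1170 0 1102)
(mv 976 (cons (fin 912 4 912)
(mv 1233 (cons (fin 1041 7 976)
(fin 1297 7 1040)))))))))))))
(cons (mv 1041 (cons (fin 1106 0 1038)
(mv 977 (cons (fin 978 2 974)
(mv 976 (cons (mv 912 (cons (fin 1169 7 912)
(fin 848 5 847)))
(cons (mv 1167 (cons (fin 1231 6 975)
(mv 1169 (cons (fin 1233 7 976)
(mv 1170 (cons (fin 1168 3 1102)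
(fin 1234 4 977)))))))
(mv 912 (cons (fin 848 5 847)
(mv 1167 (cons (fin 975 6 911)
(fin 1231 6 975))))))))))))
(mv 1104 (cons (fin 1106 3 1038)
(mv 1165 (cons (fin 1166 1 1101)
(mv 1169 (cons (fin 1170 0 1102)
(mv 976 (cons (fin 912 4 912)
(mv 1233 (cons (fin 1297 7 1040)
(fin 1168 4 976))))))))))))))
(mv 1101 (cons (fin 1100 2 1036)
(mv 1104 (cons (mv 1105 (cons (fin 1106 3 1038)
(mv 1165 (cons (fin 1164 1 1100)
(fin 1166 1 1101)))))
(cons (mv 1165 (cons (fin 1164 1 1100)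
(mv 1168 (cons (fin 1169 0 1101)
(mv 975 (cons (fin 911 4 911)
(mv 1166 (cons (fin 1230 6 974)
(mv 1229 (cons (fin 1293 6 1037)
(mv 1167 (cons (fin 1228 1 1164)
(mv 976 (cons (fin 912 5 911)
(fin 1231 5 975)))))))))))))))
(mv 1105 (cons (fin 1106 3 1038)
(mv 1169 (cons (fin 1168 0 1101)
(fin 1170 0 1102))))))))))))))
(cons (mv 1102 (cons (mv 1101 (cons (fin 1041 1 1037)
(fin 1100 2 1036)))
(mv 975 (cons (mv 911 (cons (fin 847 5 846)
(fin 1166 5 910)))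
(mv 1167 (cons (mv 976 (cons (fin 912 6 911)
(fin 1231 6 975)))
(cons (mv 1231 (cons (fin 1295 7 1038)
(mv 1232 (cons (fin 1168 4 975)
(fin 1296 4 1039)))))
(mv 976 (cons (fin 912 6 911)
(mv 977 (cons (fin 978 1 974)
(mv 1168 (cons (fin 1232 4 975)
(mv 1104 (cons (fin 913 6 912)
(mv 1169 (cons (fin 1170 3 1102)
(fin 1233 4 976))))))))))))))))))
(mv 1102 (cons (mv 1101 (cons (fin 1041 1 1037)
(fin 1100 2 1036)))
(mv 975 (cons (mv 911 (cons (fin 847 5 846)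
(fin 1166 5 910)))
(cons (mv 1166 (cons (fin 1230 6 974)
(mv 1167 (cons (mv 976 (cons (fin 912 6 911)
(fin 1231 6 975)))
(cons (mv 976 (cons (fin 912 6 911)
(mv 977 (cons (fin 978 1 974)
(mv 1168 (cons (fin 1232 4 975)
(mv 1104 (cons (fin 913 6 912)
(mv 1105 (cons (fin 1106 3 1038)
(fin 1165 1 1101)))))))))))
(mv 1231 (cons (fin 1295 7 1038)
(mv 1232 (cons (fin 1168 4 975)
(fin 1296 4 1039))))))))))
(mv 911 (cons (fin 847 5 846)
(mv 846 (cons (fin 910 7 846)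
(mv 848 (cons (fin 912 6 847)
(mv 1168 (cons (fin 1104 4 911)
(mv 1167 (cons (fin 1232 4 975)
(mv 1231 (cons (fin 1295 7 1038)
(fin 976 6 975)))))))))))))))))))))))
(mv 1037 (cons (cons (mv 972 (cons (fin 973 3 972)
(mv 976 (cons (fin 977 2 973)
(mv 1036 (cons (fin 971 3 971)
(fin 975 2 972)))))))
(mv 972 (cons (fin 973 3 972)
(mv 1036 (cons (fin 971 3 971)
(mv 1100 (cons (fin 1099 1 1035)
(fin 1101 1 1036))))))))
(cons (mv 976 (cons (fin 977 2 973)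
(mv 975 (cons (fin 1036 2 972)
(mv 1100 (cons (fin 1101 1 1036)
(mv 1104 (cons (fin 1105 0 1037)
(mv 911 (cons (fin 1168 7 911)
(fin 847 4 847)))))))))))
(mv 972 (cons (fin 973 3 972)
(mv 976 (cons (fin 977 2 973)
(mv 1100 (cons (fin 1101 1 1036)
(mv 1104 (cons (fin 1105 0 1037)
(mv 1168 (cons (mv 975 (cons (fin 911 7 911)
(fin 1232 7 975)))
(cons (mv 1167 (cons (fin 1231 5 975)
(mv 912 (cons (fin 1103 5 911)
(mv 847 (cons (fin 911 7 847)
(mv 848 (cons (fin 783 7 783)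
(mv 849 (cons (fin 785 6 784)
(fin 913 6 848)))))))))))
(mv 975 (cons (fin 1232 7 975)
(mv 1167 (cons (fin 1231 5 975)
(mv 912 (cons (fin 1103 5 911)
(mv 848 (cons (fin 784 5 783)
(mv 849 (cons (fin 785 6 784)
(fin 913 6 848)))))))))))))))))))))))))))
(cons (mv 1037 (cons (cons (mv 972 (cons (fin 973 3 972)
(mv 971 (cons (fin 1036 3 971)
(mv 977 (cons (fin 976 2 973)
(mv 1041 (cons (fin 978 2 974)
(mv 1101 (cons (fin 1100 1 1036)
(fin 1102 1 1037)))))))))))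
(mv 972 (cons (fin 973 3 972)
(mv 1036 (cons (fin 971 3 971)
(mv 1100 (cons (fin 1099 1 1035)
(fin 1101 1 1036))))))))
(cons (mv 972 (cons (fin 973 3 972)
(mv 976 (cons (fin 977 2 973)
(mv 1036 (cons (fin 971 3 971)
(fin 975 2 972)))))))
(cons (mv 976 (cons (fin 977 2 973)
(mv 975 (cons (fin 1036 2 972)
(mv 1101 (cons (fin 1100 1 1036)
(mv 1102 (cons (fin 1041 1 1037)
(mv 911 (cons (fin 847 5 846)
(mv 1166 (cons (fin 1103 5 910)
(fin 1230 6 974)))))))))))))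
(mv 972 (cons (fin 973 3 972)
(mv 977 (cons (fin 976 2 973)
(mv 1041 (cons (fin 978 2 974)
(mv 1101 (cons (fin 1100 1 1036)
(fin 1102 1 1037)))))))))))))
(cons (mv 1037 (cons (cons (mv 972 (cons (fin 973 3 972)
(mv 971 (cons (fin 1036 3 971)
(mv 1101 (cons (fin 1100 1 1036)
(mv 1041 (cons (fin 1102 1 1037)
(mv 1105 (cons (fin 1104 0 1037)
(fin 1106 0 1038)))))))))))
(mv 972 (cons (fin 973 3 972)
(mv 1036 (cons (fin 971 3 971)
(mv 1100 (cons (fin 1099 1 1035)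
(fin 1101 1 1036))))))))
(cons (mv 972 (cons (fin 973 3 972)
(mv 1036 (cons (fin 971 3 971)
(mv 1104 (cons (fin 1103 0 1036)
(fin 1105 0 1037)))))))
(cons (mv 1100 (cons (fin 1101 1 1036)
(mv 1036 (cons (fin 1099 1 1035)
(mv 1104 (cons (fin 1103 0 1036)
(fin 1105 0 1037)))))))
(mv 972 (cons (fin 973 3 972)
(mv 1101 (cons (fin 1100 1 1036)
(mv 1041 (cons (fin 1102 1 1037)
(mv 1105 (cons (fin 1104 0 1037)
(fin 1106 0 1038)))))))))))))
(mv 1037 (cons (cons (mv 972 (cons (fin 973 3 972)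
(mv 971 (cons (fin 1036 3 971)
(mv 977 (cons (fin 976 2 973)
(mv 1041 (cons (fin 978 2 974)
(mv 1105 (cons (fin 1104 0 1037)
(fin 1106 0 1038)))))))))))
(mv 972 (cons (fin 973 3 972)
(mv 976 (cons (fin 977 2 973)
(mv 1036 (cons (fin 971 3 971)
(fin 975 2 972))))))))
(cons (mv 972 (cons (fin 973 3 972)
(mv 1036 (cons (fin 971 3 971)
(mv 1104 (cons (fin 1103 0 1036)
(fin 1105 0 1037)))))))
(cons (mv 976 (cons (fin 977 2 973)
(mv 975 (cons (fin 1036 2 972)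
(mv 1104 (cons (fin 1105 0 1037)
(mv 911 (cons (fin 1168 7 911)
(fin 847 4 847)))))))))
(mv 972 (cons (fin 973 3 972)
(mv 977 (cons (fin 976 2 973)
(mv 1041 (cons (fin 978 2 974)
(mv 1105 (cons (fin 1104 0 1037)
(fin 1106 0 1038))))))))))))))))))
(cons (mv 1038 (cons (cons (mv 1037 (cons (cons (mv 972 (cons (fin 973 3 972)
(mv 971 (cons (fin 1036 3 971)
(mv 977 (cons (fin 976 2 973)
(mv 1041 (cons (fin 978 2 974)
(mv 1105 (cons (fin 1104 0 1037)
(fin 1106 0 1038)))))))))))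
(mv 972 (cons (fin 973 3 972)
(mv 1036 (cons (fin 971 3 971)
(mv 1100 (cons (fin 1099 1 1035)
(fin 1101 1 1036))))))))
(cons (mv 976 (cons (fin 977 2 973)
(mv 975 (cons (fin 1036 2 972)
(mv 1100 (cons (fin 1101 1 1036)
(mv 1104 (cons (fin 1105 0 1037)
(mv 911 (cons (fin 1168 7 911)
(fin 847 4 847)))))))))))
(mv 972 (cons (fin 973 3 972)
(mv 977 (cons (fin 976 2 973)
(mv 1041 (cons (fin 978 2 974)
(mv 1105 (cons (fin 1104 0 1037)
(fin 1106 0 1038))))))))))))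
(cons (mv 975 (cons (cons (cons (mv 974 (cons (mv 973 (cons (fin 1041 3 973)
(fin 972 0 972)))
(mv 1103 (cons (mv 910 (cons (fin 1167 7 910)
(fin 846 4 846)))
(cons (mv 846 (cons (fin 910 4 846)
(mv 911 (cons (mv 847 (cons (fin 782 7 782)
(fin 783 5 782)))
(mv 912 (cons (fin 848 6 847)
(mv 913 (cons (fin 914 1 910)
(mv 1104 (cons (fin 1168 4 911)
(mv 976 (cons (fin 849 6 848)
(mv 1105 (cons (fin 1106 3 1038)
(fin 1169 4 912)))))))))))))))
(mv 1167 (cons (fin 1231 7 974)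
(mv 912 (cons (fin 976 6 911)
(mv 911 (cons (fin 848 6 847)
(mv 847 (cons (fin 783 5 782)
(fin 1104 4 847))))))))))))))
(cons (mv 1104 (cons (cons (mv 911 (cons (fin 847 4 847)
(mv 1168 (cons (fin 976 7 911)
(fin 1232 7 975)))))
(mv 1168 (cons (fin 1232 7 975)
(mv 976 (cons (mv 977 (cons (fin 978 1 974)
(fin 913 6 912)))
(mv 1167 (cons (fin 1231 5 975)
(mv 912 (cons (fin 1103 5 911)
(mv 1169 (cons (fin 1105 4 912)
(fin 1233 4 976))))))))))))
(cons (mv 911 (cons (fin 847 4 847)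
(mv 1103 (cons (cons (mv 846 (cons (fin 910 7 846)
(mv 912 (cons (fin 848 6 847)
(mv 976 (cons (fin 1167 5 911)
(mv 1105 (cons (fin 1106 3 1038)
(fin 1169 4 912)))))))))
(cons (mv 910 (cons (fin 846 7 846)
(mv 1105 (cons (fin 1106 3 1038)
(mv 1167 (cons (fin 974 7 910)
(mv 1231 (cons (fin 976 6 975)
(fin 1295 6 1039)))))))))
(mv 912 (cons (fin 848 6 847)
(mv 976 (cons (fin 1167 5 911)
(mv 1105 (cons (fin 1106 3 1038)
(fin 1169 4 912)))))))))
(cons (mv 846 (cons (fin 910 7 846)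
(mv 912 (cons (fin 848 6 847)
(mv 976 (cons (fin 1167 5 911)
(mv 913 (cons (fin 849 6 848)
(mv 914 (cons (fin 974 1 910)
(fin 915 1 911)))))))))))
(cons (mv 846 (cons (fin 910 7 846)
(mv 912 (cons (fin 848 6 847)
(mv 1105 (cons (fin 1106 3 1038)
(mv 976 (cons (fin 1169 4 912)
(mv 913 (cons (fin 849 6 848)
(mv 914 (cons (fin 974 1 910)
(fin 915 1 911)))))))))))))
(mv 848 (cons (fin 912 6 847)
(mv 910 (cons (fin 846 7 846)
(mv 1105 (cons (fin 1106 3 1038)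
(mv 1167 (cons (fin 974 7 910)
(mv 1230 (cons (fin 1166 5 974)
(mv 1231 (cons (fin 1294 5 1038)
(fin 1295 6 1039)))))))))))))))))))
(mv 911 (cons (fin 847 4 847)
(mv 1168 (cons (fin 1232 7 975)
(fin 1103 4 911))))))))
(mv 977 (cons (cons (mv 978 (cons (fin 976 1 974)
(fin 1041 2 974)))
(mv 1103 (cons (cons (cons (mv 1104 (cons (mv 911 (cons (fin 847 4 847)
(fin 1168 4 911)))
(cons (mv 911 (cons (fin 847 4 847)
(mv 846 (cons (fin 910 7 846)
(mv 912 (cons (fin 848 6 847)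
(mv 976 (cons (fin 1167 5 911)
(mv 1105 (cons (fin 1106 3 1038)
(fin 1169 4 912)))))))))))
(mv 1105 (cons (fin 1106 3 1038)
(mv 1168 (cons (fin 1232 7 975)
(mv 913 (cons (fin 1041 5 912)
(fin 976 6 912))))))))))
(mv 911 (cons (cons (mv 846 (cons (fin 910 7 846)
(mv 782 (cons (fin 847 7 782)
(mv 912 (cons (fin 848 6 847)
(mv 1167 (cons (fin 976 6 911)
(mv 1230 (cons (fin 1166 5 974)
(mv 1231 (cons (fin 1294 5 1038)
(mv 1232 (cons (fin 1168 4 975)
(fin 1296 4 1039)))))))))))))))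
(mv 846 (cons (fin 910 7 846)
(mv 847 (cons (fin 782 7 782)
(mv 783 (cons (fin 976 4 783)
(mv 784 (cons (fin 720 6 719)
(fin 848 6 783))))))))))
(cons (mv 846 (cons (fin 910 7 846)
(mv 847 (cons (fin 782 7 782)
(mv 976 (cons (fin 783 4 783)
(mv 1167 (cons (fin 912 6 911)
(fin 1231 6 975)))))))))
(cons (mv 912 (cons (fin 848 6 847)
(mv 1167 (cons (fin 976 6 911)
(mv 1230 (cons (fin 1166 5 974)
(mv 1231 (cons (fin 1294 5 1038)
(mv 1232 (cons (fin 1168 4 975)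
(fin 1296 4 1039)))))))))))
(mv 846 (cons (fin 910 7 846)
(mv 847 (cons (fin 782 7 782)
(mv 848 (cons (fin 784 6 783)
(fin 912 6 847))))))))))))
(cons (mv 1104 (cons (mv 911 (cons (fin 847 4 847)
(fin 1168 4 911)))
(cons (mv 911 (cons (fin 847 4 847)
(mv 846 (cons (fin 910 7 846)
(mv 912 (cons (fin 848 6 847)
(mv 1105 (cons (fin 1106 3 1038)
(mv 976 (cons (fin 1169 4 912)
(mv 913 (cons (fin 849 6 848)
(mv 914 (cons (fin 915 1 911)
(mv 850 (cons (fin 851 2 847)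
(fin 1041 6 849)))))))))))))))))
(mv 1105 (cons (fin 1106 3 1038)
(mv 1168 (cons (fin 1232 7 975)
(mv 913 (cons (fin 1041 5 912)
(fin 976 6 912))))))))))
(mv 1167 (cons (mv 976 (cons (fin 912 6 911)
(fin 1231 6 975)))
(cons (mv 1230 (cons (fin 1166 5 974)
(mv 1231 (cons (fin 1294 5 1038)
(mv 1232 (cons (fin 1168 4 975)
(fin 1296 4 1039)))))))
(mv 976 (cons (fin 912 6 911)
(mv 1166 (cons (fin 1230 5 974)
(mv 1168 (cons (fin 1232 4 975)
(mv 1104 (cons (fin 913 6 912)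
(mv 1105 (cons (fin 1106 3 1038)
(fin 1165 2 1101))))))))))))))))
(cons (cons (mv 1167 (cons (cons (mv 1166 (cons (fin 1230 5 974)
(mv 1168 (cons (fin 1232 4 975)
(mv 911 (cons (fin 1104 4 911)
(mv 846 (cons (fin 910 7 846)
(mv 847 (cons (fin 782 7 782)
(mv 848 (cons (fin 784 6 783)
(fin 912 6 847)))))))))))))
(mv 1230 (cons (fin 1166 5 974)
(mv 1231 (cons (fin 1294 5 1038)
(mv 1295 (cons (fin 1104 6 1039)
(mv 1296 (cons (fin 1232 4 1039)
(fin 1360 4 1103))))))))))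
(cons (mv 1230 (cons (fin 1166 5 974)
(mv 1231 (cons (fin 1294 5 1038)
(mv 1104 (cons (fin 1295 6 1039)
(mv 911 (cons (fin 847 4 847)
(fin 1168 4 911)))))))))
(cons (mv 1168 (cons (fin 1232 4 975)
(mv 911 (cons (fin 1104 4 911)
(mv 846 (cons (fin 910 7 846)
(mv 847 (cons (fin 782 7 782)
(mv 848 (cons (fin 784 6 783)
(fin 912 6 847)))))))))))
(mv 1230 (cons (fin 1166 5 974)
(mv 1231 (cons (fin 1294 5 1038)
(mv 1232 (cons (fin 1168 4 975)
(fin 1296 4 1039)))))))))))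
(mv 1167 (cons (mv 976 (cons (fin 912 6 911)
(fin 1231 6 975)))
(cons (mv 1230 (cons (fin 1166 5 974)
(mv 1231 (cons (fin 1294 5 1038)
(mv 1295 (cons (fin 1104 6 1039)
(mv 1296 (cons (fin 1232 4 1039)
(fin 1360 4 1103)))))))))
(mv 912 (cons (fin 976 6 911)
(mv 911 (cons (fin 848 6 847)
(mv 846 (cons (fin 910 7 846)
(mv 847 (cons (fin 782 7 782)
(fin 1104 4 847)))))))))))))
(cons (mv 1168 (cons (mv 1104 (cons (fin 1232 7 975)
(fin 911 4 911)))
(cons (mv 1167 (cons (fin 1232 4 975)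
(mv 1230 (cons (fin 1166 5 974)
(mv 1231 (cons (fin 1294 5 1038)
(fin 976 6 975)))))))
(mv 911 (cons (fin 1104 4 911)
(mv 846 (cons (fin 910 7 846)
(mv 847 (cons (fin 782 7 782)
(mv 783 (cons (fin 976 4 783)
(mv 784 (cons (fin 720 6 719)
(fin 848 6 783))))))))))))))
(mv 911 (cons (mv 1104 (cons (fin 847 4 847)
(fin 1168 4 911)))
(cons (mv 846 (cons (fin 910 7 846)
(mv 847 (cons (fin 782 7 782)
(mv 848 (cons (fin 784 6 783)
(fin 912 6 847)))))))
(mv 846 (cons (fin 910 7 846)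
(mv 912 (cons (fin 848 6 847)
(mv 976 (cons (fin 1167 6 911)
(mv 1104 (cons (fin 1168 7 911)
(mv 1105 (cons (fin 1106 3 1038)
(fin 1169 4 912)))))))))))))))))))
(cons (mv 1041 (cons (fin 978 2 974)
(mv 1105 (cons (fin 1106 0 1038)
(mv 913 (cons (mv 1104 (cons (fin 849 5 848)
(fin 1168 5 912)))
(cons (mv 848 (cons (fin 912 7 848)
(mv 849 (cons (fin 784 7 784)
(mv 850 (cons (fin 786 6 785)
(fin 914 6 849)))))))
(mv 848 (cons (fin 912 7 848)
(mv 850 (cons (fin 914 6 849)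
(mv 1169 (cons (cons (mv 1168 (cons (fin 1104 5 912)
(fin 1232 5 976)))
(mv 1234 (cons (fin 1170 4 977)
(mv 1233 (cons (fin 1298 4 1041)
(mv 1296 (cons (fin 1232 5 1040)
(mv 1297 (cons (fin 1104 7 1040)
(fin 1360 5 1104))))))))))
(cons (mv 1232 (cons (fin 1168 5 976)
(mv 1233 (cons (fin 1296 5 1040)
(mv 1234 (cons (fin 1170 4 977)
(fin 1298 4 1041)))))))
(mv 1104 (cons (fin 1168 5 912)
(mv 847 (cons (fin 911 4 847)
(mv 1233 (cons (fin 1297 7 1040)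
(mv 1234 (cons (fin 1170 4 977)
(fin 1298 4 1041)))))))))))))))))))))))
(mv 976 (cons (fin 978 1 974)
(mv 1104 (cons (mv 911 (cons (fin 1168 7 911)
(fin 847 4 847)))
(cons (mv 847 (cons (fin 911 4 847)
(mv 912 (cons (mv 848 (cons (fin 783 7 783)
(fin 784 5 783)))
(mv 849 (cons (fin 913 6 848)
(mv 1103 (cons (fin 1167 5 911)
(mv 1105 (cons (fin 1106 3 1038)
(fin 1169 4 912)))))))))))
(mv 1168 (cons (fin 1232 7 975)
(fin 913 6 912)))))))))))))
(cons (mv 974 (cons (mv 973 (cons (fin 1041 3 973)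
(fin 972 0 972)))
(mv 911 (cons (cons (mv 847 (cons (fin 783 5 782)
(mv 782 (cons (fin 846 7 782)
(mv 848 (cons (fin 784 6 783)
(mv 1103 (cons (fin 912 6 847)
(mv 1167 (cons (fin 910 7 910)
(fin 1231 7 974)))))))))))
(cons (mv 1103 (cons (mv 910 (cons (fin 846 7 846)
(fin 1167 7 910)))
(cons (mv 912 (cons (fin 848 6 847)
(mv 1167 (cons (fin 1231 7 974)
(fin 976 6 911)))))
(mv 910 (cons (fin 846 7 846)
(mv 912 (cons (fin 848 6 847)
(mv 913 (cons (fin 914 1 910)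
(mv 849 (cons (fin 850 2 846)
(mv 977 (cons (fin 978 0 910)
(mv 976 (cons (fin 909 3 909)
(fin 785 5 784))))))))))))))))
(mv 847 (cons (fin 783 5 782)
(mv 846 (cons (fin 782 7 782)
(mv 848 (cons (fin 784 6 783)
(mv 845 (cons (mv 781 (cons (fin 780 3 780)
(fin 910 7 781)))
(mv 912 (cons (fin 844 0 844)
(fin 913 0 845)))))))))))))
(cons (cons (mv 847 (cons (fin 783 5 782)
(mv 846 (cons (fin 782 7 782)
(mv 848 (cons (fin 784 6 783)
(mv 912 (cons (fin 1103 6 847)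
(mv 845 (cons (fin 844 0 844)
(fin 913 0 845)))))))))))
(mv 847 (cons (fin 783 5 782)
(mv 848 (cons (fin 784 6 783)
(mv 1103 (cons (fin 912 6 847)
(mv 1167 (cons (fin 910 7 910)
(fin 1231 7 974))))))))))
(cons (mv 847 (cons (fin 783 5 782)
(mv 846 (cons (fin 782 7 782)
(mv 848 (cons (fin 784 6 783)
(mv 910 (cons (fin 1103 7 846)
(mv 849 (cons (fin 909 1 845)
(fin 850 1 846)))))))))))
(mv 847 (cons (fin 783 5 782)
(mv 846 (cons (fin 782 7 782)
(mv 910 (cons (fin 1103 7 846)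
(mv 845 (cons (fin 781 7 781)
(mv 844 (cons (fin 843 0 843)
(fin 912 0 844)))))))))))))))))
(cons (mv 974 (cons (mv 973 (cons (fin 1041 3 973)
(fin 972 0 972)))
(cons (mv 1103 (cons (mv 910 (cons (fin 1167 7 910)
(fin 846 4 846)))
(cons (mv 910 (cons (fin 846 4 846)
(mv 911 (cons (mv 847 (cons (fin 783 5 782)
(fin 1104 4 847)))
(cons (mv 912 (cons (fin 848 6 847)
(mv 913 (cons (fin 914 1 910)
(mv 849 (cons (fin 850 2 846)
(mv 977 (cons (fin 978 0 910)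
(mv 1104 (cons (fin 1041 5 848)
(fin 1168 4 911)))))))))))
(mv 847 (cons (fin 783 5 782)
(mv 848 (cons (fin 784 6 783)
(fin 912 6 847))))))))))
(mv 1167 (cons (fin 1231 7 974)
(mv 1166 (cons (fin 1230 5 974)
(mv 1168 (cons (fin 1232 4 975)
(mv 911 (cons (fin 1104 4 911)
(mv 847 (cons (fin 783 5 782)
(mv 848 (cons (fin 784 6 783)
(fin 912 6 847))))))))))))))))
(mv 973 (cons (fin 972 0 972)
(mv 1103 (cons (mv 910 (cons (fin 1167 7 910)
(fin 846 4 846)))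
(cons (mv 1167 (cons (fin 1231 7 974)
(mv 1166 (cons (fin 1230 5 974)
(mv 1168 (cons (fin 1232 4 975)
(mv 911 (cons (fin 1104 4 911)
(mv 847 (cons (fin 783 5 782)
(mv 848 (cons (fin 784 6 783)
(fin 912 6 847)))))))))))))
(mv 910 (cons (fin 846 4 846)
(mv 911 (cons (mv 847 (cons (fin 783 5 782)
(fin 1104 4 847)))
(mv 912 (cons (fin 913 1 909)
(fin 848 6 847)))))))))))))))
(mv 974 (cons (mv 973 (cons (fin 1041 3 973)
(fin 972 0 972)))
(cons (mv 977 (cons (cons (mv 978 (cons (fin 976 1 974)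
(fin 1041 2 974)))
(mv 910 (cons (mv 846 (cons (fin 782 4 782)
(fin 1103 4 846)))
(cons (mv 976 (cons (fin 909 3 909)
(mv 913 (cons (fin 914 2 910)
(mv 785 (cons (fin 849 5 784)
(mv 1103 (cons (fin 1167 7 910)
(mv 912 (cons (fin 848 5 847)
(mv 1104 (cons (fin 1168 6 912)
(mv 1105 (cons (fin 1106 3 1038)
(fin 1169 4 912)))))))))))))))
(mv 782 (cons (fin 846 4 782)
(mv 976 (cons (fin 909 3 909)
(mv 913 (cons (fin 914 2 910)
(mv 849 (cons (fin 785 5 784)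
(mv 1104 (cons (fin 1041 5 848)
(fin 912 6 848)))))))))))))))
(cons (mv 1041 (cons (fin 978 2 974)
(mv 1105 (cons (fin 1106 0 1038)
(mv 1168 (cons (mv 1104 (cons (fin 1232 7 975)
(fin 913 5 912)))
(cons (mv 913 (cons (fin 1104 5 912)
(mv 848 (cons (fin 912 7 848)
(mv 849 (cons (fin 784 7 784)
(mv 850 (cons (fin 786 6 785)
(fin 914 6 849)))))))))
(mv 1169 (cons (fin 1232 5 976)
(mv 1234 (cons (fin 1170 4 977)
(mv 1233 (cons (fin 1298 4 1041)
(mv 1167 (cons (fin 1166 0 1166)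
(mv 1103 (cons (fin 910 7 910)
(fin 1231 7 974))))))))))))))))))
(mv 976 (cons (fin 978 1 974)
(mv 909 (cons (fin 910 3 909)
(mv 913 (cons (fin 914 2 910)
(mv 849 (cons (fin 785 5 784)
(mv 1104 (cons (fin 912 6 848)
(fin 1168 6 912))))))))))))))
(mv 973 (cons (fin 972 0 972)
(mv 976 (cons (mv 908 (cons (fin 909 3 908)
(mv 912 (cons (fin 913 2 909)
(mv 848 (cons (fin 784 5 783)
(fin 1103 5 847)))))))
(cons (mv 909 (cons (fin 908 3 908)
(mv 977 (cons (fin 910 3 909)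
(fin 978 1 974)))))
(mv 912 (cons (fin 913 2 909)
(mv 848 (cons (fin 784 5 783)
(fin 1103 5 847))))))))))))))))
(cons (cons (mv 974 (cons (mv 973 (cons (fin 1041 3 973)
(fin 972 0 972)))
(cons (mv 977 (cons (cons (mv 978 (cons (fin 976 1 974)
(fin 1041 2 974)))
(mv 976 (cons (cons (mv 909 (cons (fin 910 3 909)
(mv 913 (cons (fin 914 2 910)
(mv 849 (cons (fin 785 5 784)
(mv 1104 (cons (fin 1041 5 848)
(fin 912 6 848)))))))))
(mv 910 (cons (fin 909 3 909)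
(mv 846 (cons (fin 782 4 782)
(mv 781 (cons (fin 845 7 781)
(mv 847 (cons (fin 783 6 782)
(mv 911 (cons (fin 1104 4 847)
(mv 848 (cons (fin 784 6 783)
(mv 849 (cons (fin 850 1 846)
(mv 785 (cons (fin 786 2 782)
(fin 912 6 784))))))))))))))))))
(cons (mv 913 (cons (fin 914 2 910)
(mv 849 (cons (fin 785 5 784)
(mv 1104 (cons (fin 1041 5 848)
(fin 912 6 848)))))))
(cons (mv 910 (cons (fin 909 3 909)
(mv 846 (cons (fin 782 4 782)
(mv 845 (cons (fin 781 7 781)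
(mv 847 (cons (fin 783 6 782)
(mv 913 (cons (fin 914 2 910)
(mv 912 (cons (fin 911 3 845)
(fin 848 0 845)))))))))))))
(mv 909 (cons (fin 910 3 909)
(mv 913 (cons (fin 914 2 910)
(mv 849 (cons (fin 785 5 784)
(mv 1104 (cons (fin 1041 5 848)
(fin 1168 6 912))))))))))))))
(cons (mv 1041 (cons (fin 978 2 974)
(mv 1105 (cons (fin 1106 0 1038)
(mv 913 (cons (mv 1104 (cons (fin 849 5 848)
(fin 1168 5 912)))
(cons (mv 848 (cons (fin 912 7 848)
(mv 849 (cons (fin 784 7 784)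
(mv 850 (cons (fin 786 6 785)
(fin 914 6 849)))))))
(mv 912 (cons (fin 848 7 848)
(mv 914 (cons (fin 911 1 910)
(fin 850 6 849))))))))))))
(mv 976 (cons (fin 978 1 974)
(mv 909 (cons (fin 910 3 909)
(mv 913 (cons (fin 914 2 910)
(mv 849 (cons (fin 785 5 784)
(mv 1104 (cons (fin 912 6 848)
(fin 1168 6 912))))))))))))))
(mv 973 (cons (fin 972 0 972)
(mv 976 (cons (cons (mv 908 (cons (fin 909 3 908)
(mv 912 (cons (fin 913 2 909)
(mv 848 (cons (fin 784 5 783)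
(mv 785 (cons (fin 849 6 784)
(mv 847 (cons (fin 783 7 783)
(mv 911 (cons (fin 1104 7 847)
(mv 846 (cons (fin 782 7 782)
(mv 845 (cons (fin 844 0 844)
(mv 781 (cons (fin 780 3 780)
(fin 910 7 781)))))))))))))))))))
(mv 912 (cons (fin 913 2 909)
(mv 848 (cons (fin 784 5 783)
(mv 785 (cons (fin 849 6 784)
(mv 847 (cons (fin 783 7 783)
(mv 911 (cons (fin 1104 7 847)
(mv 846 (cons (fin 782 7 782)
(mv 845 (cons (fin 844 0 844)
(mv 781 (cons (fin 780 3 780)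
(fin 910 7 781))))))))))))))))))
(cons (mv 909 (cons (fin 908 3 908)
(mv 977 (cons (fin 910 3 909)
(fin 978 1 974)))))
(mv 908 (cons (fin 909 3 908)
(mv 912 (cons (fin 913 2 909)
(mv 848 (cons (fin 784 5 783)
(mv 785 (cons (fin 849 6 784)
(mv 847 (cons (fin 783 7 783)
(mv 977 (cons (fin 978 1 974)
(mv 1104 (cons (fin 911 7 847)
(mv 1168 (cons (fin 1232 7 975)
(mv 1169 (cons (fin 1105 4 912)
(fin 1233 4 976)))))))))))))))))))))))))))
(cons (mv 977 (cons (cons (mv 978 (cons (fin 976 1 974)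
(fin 1041 2 974)))
(mv 974 (cons (mv 973 (cons (fin 1041 3 973)
(fin 972 0 972)))
(cons (mv 910 (cons (mv 846 (cons (fin 782 4 782)
(fin 1103 4 846)))
(mv 976 (cons (fin 909 3 909)
(mv 913 (cons (fin 914 2 910)
(mv 849 (cons (fin 785 5 784)
(mv 1104 (cons (fin 1041 5 848)
(fin 1168 6 912)))))))))))
(mv 972 (cons (fin 973 0 972)
(mv 910 (cons (mv 846 (cons (fin 782 4 782)
(fin 1103 4 846)))
(mv 909 (cons (fin 976 3 909)
(mv 908 (cons (fin 907 0 907)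
(mv 911 (cons (fin 971 1 907)
(mv 847 (cons (fin 848 2 844)
(fin 783 5 782)))))))))))))))))
(cons (mv 976 (cons (fin 978 1 974)
(mv 911 (cons (mv 847 (cons (fin 783 4 783)
(fin 1104 4 847)))
(cons (mv 847 (cons (fin 783 4 783)
(mv 784 (cons (fin 848 6 783)
(mv 846 (cons (fin 782 7 782)
(mv 910 (cons (fin 1103 7 846)
(mv 909 (cons (fin 974 3 909)
(fin 908 0 908)))))))))))
(mv 1168 (cons (fin 1104 7 911)
(mv 910 (cons (mv 909 (cons (fin 974 3 909)
(fin 908 0 908)))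
(cons (mv 846 (cons (fin 1103 7 846)
(mv 782 (cons (fin 718 4 718)
(fin 974 4 782)))))
(mv 908 (cons (fin 909 0 908)
(mv 1103 (cons (fin 846 7 846)
(mv 1167 (cons (fin 1231 6 975)
(fin 1232 4 975)))))))))))))))))
(mv 1041 (cons (fin 978 2 974)
(mv 974 (cons (fin 973 3 973)
(mv 1105 (cons (fin 1106 0 1038)
(mv 1168 (cons (mv 1104 (cons (fin 1232 7 975)
(fin 913 5 912)))
(cons (mv 1169 (cons (fin 1232 5 976)
(mv 1234 (cons (fin 1170 4 977)
(mv 1233 (cons (fin 1298 4 1041)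
(mv 1167 (cons (fin 1166 0 1166)
(mv 1103 (cons (fin 910 7 910)
(fin 1231 7 974)))))))))))
(mv 1104 (cons (fin 913 5 912)
(mv 911 (cons (fin 847 4 847)
(fin 1103 4 911)))))))))))))))))
(mv 974 (cons (mv 973 (cons (fin 1041 3 973)
(fin 972 0 972)))
(mv 911 (cons (mv 847 (cons (fin 783 5 782)
(fin 1104 4 847)))
(cons (mv 1103 (cons (cons (mv 848 (cons (fin 912 6 847)
(mv 1167 (cons (fin 1231 7 974)
(mv 1168 (cons (fin 1104 4 911)
(fin 1232 4 975)))))))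
(mv 912 (cons (fin 848 6 847)
(mv 913 (cons (fin 914 1 910)
(mv 1104 (cons (fin 1168 4 911)
(mv 976 (cons (fin 849 6 848)
(mv 1105 (cons (fin 1106 3 1038)
(fin 1169 4 912))))))))))))
(cons (mv 912 (cons (fin 848 6 847)
(mv 1167 (cons (fin 1231 7 974)
(fin 976 6 911)))))
(mv 1167 (cons (fin 1231 7 974)
(mv 1168 (cons (fin 1104 4 911)
(fin 1232 4 975))))))))
(mv 847 (cons (fin 783 5 782)
(mv 846 (cons (fin 782 7 782)
(mv 848 (cons (fin 784 6 783)
(mv 912 (cons (fin 1103 6 847)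
(mv 845 (cons (fin 844 0 844)
(fin 913 0 845))))))))))))))))))
(cons (mv 974 (cons (mv 973 (cons (fin 1041 3 973)
(fin 972 0 972)))
(cons (mv 977 (cons (cons (mv 978 (cons (fin 976 1 974)
(fin 1041 2 974)))
(mv 910 (cons (mv 846 (cons (fin 782 4 782)
(fin 1103 4 846)))
(cons (mv 976 (cons (fin 909 3 909)
(mv 913 (cons (fin 914 2 910)
(mv 785 (cons (fin 849 5 784)
(mv 1103 (cons (fin 1167 7 910)
(mv 1104 (cons (fin 1168 6 912)
(mv 847 (cons (fin 911 4 847)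
(mv 1105 (cons (fin 1106 3 1038)
(mv 1169 (cons (fin 912 4 912)
(mv 1233 (cons (fin 1041 7 976)
(fin 1297 7 1040)))))))))))))))))))
(mv 782 (cons (fin 846 4 782)
(mv 976 (cons (fin 909 3 909)
(mv 913 (cons (fin 914 2 910)
(mv 849 (cons (fin 785 5 784)
(mv 1104 (cons (fin 1041 5 848)
(fin 912 6 848)))))))))))))))
(cons (mv 1041 (cons (fin 978 2 974)
(mv 1105 (cons (fin 1106 0 1038)
(mv 1104 (cons (mv 913 (cons (fin 849 5 848)
(fin 1168 5 912)))
(cons (mv 911 (cons (fin 847 4 847)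
(mv 913 (cons (fin 849 5 848)
(mv 914 (cons (fin 912 1 910)
(fin 850 6 849)))))))
(mv 911 (cons (fin 847 4 847)
(mv 1168 (cons (fin 1232 7 975)
(fin 1103 4 911))))))))))))
(mv 976 (cons (fin 978 1 974)
(mv 909 (cons (fin 910 3 909)
(mv 913 (cons (fin 914 2 910)
(mv 849 (cons (fin 785 5 784)
(mv 1104 (cons (fin 912 6 848)
(fin 1168 6 912))))))))))))))
(mv 973 (cons (fin 972 0 972)
(mv 976 (cons (cons (mv 908 (cons (fin 909 3 908)
(mv 913 (cons (fin 912 2 909)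
(mv 977 (cons (fin 978 1 974)
(fin 914 2 910)))))))
(mv 909 (cons (fin 908 3 908)
(mv 845 (cons (fin 781 4 781)
(mv 912 (cons (fin 913 2 909)
(mv 1103 (cons (fin 1167 6 911)
(mv 910 (cons (fin 846 4 846)
(mv 911 (cons (fin 844 3 844)
(mv 847 (cons (fin 1104 7 847)
(fin 783 5 782))))))))))))))))
(cons (mv 913 (cons (fin 912 2 909)
(mv 977 (cons (fin 978 1 974)
(fin 914 2 910)))))
(mv 909 (cons (fin 908 3 908)
(mv 977 (cons (fin 910 3 909)
(fin 978 1 974)))))))))))))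
(cons (mv 974 (cons (mv 973 (cons (fin 1041 3 973)
(fin 972 0 972)))
(cons (mv 1103 (cons (mv 1167 (cons (fin 910 7 910)
(fin 1231 7 974)))
(cons (mv 911 (cons (mv 847 (cons (fin 783 5 782)
(fin 1104 4 847)))
(cons (mv 847 (cons (fin 783 5 782)
(mv 848 (cons (fin 784 6 783)
(fin 912 6 847)))))
(mv 912 (cons (fin 848 6 847)
(mv 913 (cons (fin 914 1 910)
(mv 1104 (cons (fin 1168 4 911)
(mv 849 (cons (fin 976 6 848)
(mv 910 (cons (fin 850 2 846)
(mv 977 (cons (fin 978 0 910)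
(fin 1041 5 848))))))))))))))))
(mv 1167 (cons (fin 1231 7 974)
(mv 912 (cons (fin 976 6 911)
(mv 911 (cons (fin 848 6 847)
(mv 847 (cons (fin 783 5 782)
(fin 1104 4 847))))))))))))
(mv 972 (cons (fin 973 0 972)
(mv 1103 (cons (mv 1167 (cons (fin 910 7 910)
(fin 1231 7 974)))
(mv 911 (cons (mv 847 (cons (fin 783 5 782)
(fin 1104 4 847)))
(cons (mv 847 (cons (fin 783 5 782)
(mv 848 (cons (fin 784 6 783)
(fin 912 6 847)))))
(mv 912 (cons (fin 848 6 847)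
(mv 913 (cons (fin 914 1 910)
(mv 1104 (cons (fin 1168 4 911)
(mv 976 (cons (fin 849 6 848)
(mv 1105 (cons (fin 1106 3 1038)
(fin 1169 4 912)))))))))))))))))))))
(mv 974 (cons (mv 973 (cons (fin 1041 3 973)
(fin 972 0 972)))
(mv 1103 (cons (mv 910 (cons (fin 1167 7 910)
(fin 846 4 846)))
(cons (mv 910 (cons (fin 846 4 846)
(mv 911 (cons (mv 847 (cons (fin 783 5 782)
(fin 1104 4 847)))
(cons (mv 912 (cons (fin 848 6 847)
(mv 1104 (cons (fin 1168 4 911)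
(mv 1105 (cons (fin 1106 3 1038)
(mv 976 (cons (fin 1169 4 912)
(mv 909 (cons (fin 977 3 909)
(fin 908 0 908)))))))))))
(mv 847 (cons (fin 783 5 782)
(mv 848 (cons (fin 784 6 783)
(fin 912 6 847))))))))))
(mv 1167 (cons (fin 1231 7 974)
(mv 912 (cons (fin 976 6 911)
(mv 911 (cons (fin 848 6 847)
(mv 847 (cons (fin 783 5 782)
(fin 1104 4 847)))))))))))))))))))
(mv 1037 (cons (cons (mv 972 (cons (fin 973 3 972)
(mv 976 (cons (fin 977 2 973)
(mv 1036 (cons (fin 971 3 971)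
(fin 975 2 972)))))))
(mv 972 (cons (fin 973 3 972)
(mv 1036 (cons (fin 971 3 971)
(mv 1100 (cons (fin 1099 1 1035)
(fin 1101 1 1036))))))))
(cons (mv 976 (cons (fin 977 2 973)
(mv 975 (cons (fin 1036 2 972)
(mv 1100 (cons (fin 1101 1 1036)
(mv 1104 (cons (fin 1105 0 1037)
(mv 911 (cons (fin 1168 7 911)
(fin 847 4 847)))))))))))
(mv 972 (cons (fin 973 3 972)
(mv 976 (cons (fin 977 2 973)
(mv 1100 (cons (fin 1101 1 1036)
(mv 1104 (cons (fin 1105 0 1037)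
(mv 912 (cons (mv 1103 (cons (fin 848 5 847)
(fin 1167 5 911)))
(cons (mv 847 (cons (fin 911 7 847)
(mv 848 (cons (fin 783 7 783)
(mv 849 (cons (fin 785 6 784)
(fin 913 6 848)))))))
(mv 847 (cons (fin 911 7 847)
(mv 849 (cons (fin 913 6 848)
(mv 1167 (cons (fin 1103 5 911)
(mv 1168 (cons (fin 1231 5 975)
(mv 1232 (cons (fin 975 7 975)
(mv 1233 (cons (fin 1169 4 976)
(fin 1297 4 1040)))))))))))))))))))))))))))))
(cons (mv 1037 (cons (cons (mv 972 (cons (fin 973 3 972)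
(mv 1036 (cons (fin 971 3 971)
(mv 1100 (cons (fin 1099 1 1035)
(fin 1101 1 1036)))))))
(mv 1100 (cons (fin 1101 1 1036)
(mv 1036 (cons (fin 1099 1 1035)
(mv 1104 (cons (fin 1103 0 1036)
(fin 1105 0 1037))))))))
(cons (mv 972 (cons (fin 973 3 972)
(mv 1036 (cons (fin 971 3 971)
(mv 1104 (cons (fin 1103 0 1036)
(fin 1105 0 1037)))))))
(mv 973 (cons (fin 972 3 972)
(mv 974 (cons (fin 1041 3 973)
(mv 1101 (cons (fin 1100 1 1036)
(mv 910 (cons (fin 846 5 845)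
(fin 1165 6 909))))))))))))
(cons (mv 1037 (cons (cons (mv 972 (cons (fin 973 3 972)
(mv 976 (cons (fin 977 2 973)
(mv 1036 (cons (fin 971 3 971)
(fin 975 2 972)))))))
(mv 972 (cons (fin 973 3 972)
(mv 1036 (cons (fin 971 3 971)
(mv 1100 (cons (fin 1099 1 1035)
(fin 1101 1 1036))))))))
(cons (mv 976 (cons (fin 977 2 973)
(mv 1036 (cons (fin 975 2 972)
(mv 1100 (cons (fin 1099 1 1035)
(fin 1101 1 1036)))))))
(mv 973 (cons (fin 972 3 972)
(mv 974 (cons (fin 1041 3 973)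
(mv 976 (cons (fin 977 2 973)
(mv 1101 (cons (fin 1100 1 1036)
(mv 910 (cons (fin 846 5 845)
(fin 1165 6 909))))))))))))))
(mv 1037 (cons (cons (mv 976 (cons (fin 977 2 973)
(mv 975 (cons (fin 1036 2 972)
(mv 1100 (cons (fin 1101 1 1036)
(mv 1104 (cons (fin 1105 0 1037)
(mv 911 (cons (fin 1168 7 911)
(fin 847 4 847)))))))))))
(mv 1100 (cons (fin 1101 1 1036)
(mv 1036 (cons (fin 1099 1 1035)
(mv 1104 (cons (fin 1103 0 1036)
(fin 1105 0 1037))))))))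
(cons (mv 976 (cons (fin 977 2 973)
(mv 1036 (cons (fin 975 2 972)
(mv 1100 (cons (fin 1099 1 1035)
(fin 1101 1 1036)))))))
(cons (mv 976 (cons (fin 977 2 973)
(mv 975 (cons (fin 1036 2 972)
(mv 1104 (cons (fin 1105 0 1037)
(mv 911 (cons (fin 1168 7 911)
(fin 847 4 847)))))))))
(mv 977 (cons (fin 976 2 973)
(mv 1041 (cons (fin 978 2 974)
(mv 1105 (cons (fin 1104 0 1037)
(fin 1106 0 1038)))))))))))))))
(ref 3 0)))))
(cons (cons (cons (ref 6 0)
(cons (mv 1038 (cons (cons (mv 1037 (cons (cons (mv 972 (cons (fin 973 3 972)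
(mv 971 (cons (fin 1036 3 971)
(mv 976 (cons (fin 977 2 973)
(mv 1101 (cons (fin 1100 1 1036)
(mv 1041 (cons (fin 1102 1 1037)
(mv 1105 (cons (fin 1104 0 1037)
(fin 1106 0 1038)))))))))))))
(cons (mv 972 (cons (fin 973 3 972)
(mv 971 (cons (fin 1036 3 971)
(mv 977 (cons (fin 976 2 973)
(mv 1041 (cons (fin 978 2 974)
(mv 1105 (cons (fin 1104 0 1037)
(fin 1106 0 1038)))))))))))
(mv 976 (cons (fin 977 2 973)
(mv 975 (cons (fin 1036 2 972)
(mv 1100 (cons (fin 1101 1 1036)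
(mv 1104 (cons (fin 1105 0 1037)
(mv 1168 (cons (fin 1232 7 975)
(mv 1167 (cons (fin 1231 5 975)
(mv 912 (cons (fin 1103 5 911)
(mv 848 (cons (fin 784 5 783)
(mv 849 (cons (fin 785 6 784)
(fin 913 6 848)))))))))))))))))))))
(cons (mv 972 (cons (fin 973 3 972)
(mv 971 (cons (fin 1036 3 971)
(mv 1101 (cons (fin 1100 1 1036)
(mv 1041 (cons (fin 1102 1 1037)
(mv 1105 (cons (fin 1104 0 1037)
(fin 1106 0 1038)))))))))))
(cons (mv 972 (cons (fin 973 3 972)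
(mv 971 (cons (fin 1036 3 971)
(mv 977 (cons (fin 976 2 973)
(mv 1041 (cons (fin 978 2 974)
(mv 1101 (cons (fin 1100 1 1036)
(fin 1102 1 1037)))))))))))
(mv 972 (cons (fin 973 3 972)
(mv 976 (cons (fin 977 2 973)
(mv 1101 (cons (fin 1100 1 1036)
(mv 1041 (cons (fin 1102 1 1037)
(mv 1105 (cons (fin 1104 0 1037)
(fin 1106 0 1038)))))))))))))))
(cons (mv 974 (cons (cons (mv 973 (cons (fin 1041 3 973)
(mv 972 (cons (fin 971 0 971)
(fin 975 0 972)))))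
(mv 1103 (cons (cons (mv 910 (cons (fin 846 4 846)
(mv 1167 (cons (fin 975 7 910)
(fin 1231 7 974)))))
(mv 910 (cons (fin 846 4 846)
(mv 1102 (cons (mv 1101 (cons (fin 1100 2 1036)
(fin 1165 5 909)))
(mv 909 (cons (fin 845 7 845)
(mv 973 (cons (fin 1166 7 909)
(mv 972 (cons (fin 971 0 971)
(fin 975 0 972))))))))))))
(cons (mv 1167 (cons (fin 1231 7 974)
(mv 975 (cons (cons (mv 912 (cons (fin 976 6 911)
(mv 973 (cons (fin 972 0 972)
(mv 1166 (cons (fin 1230 5 974)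
(mv 1102 (cons (fin 909 7 909)
(mv 1100 (cons (fin 1101 2 1036)
(mv 1165 (cons (fin 1229 5 973)
(mv 1104 (cons (fin 1105 1 1101)
(fin 1164 2 1100)))))))))))))))
(mv 973 (cons (fin 972 0 972)
(mv 1166 (cons (fin 1230 5 974)
(mv 1102 (cons (fin 909 7 909)
(mv 1100 (cons (fin 1101 2 1036)
(mv 1165 (cons (fin 1229 5 973)
(mv 1104 (cons (fin 1105 1 1101)
(fin 1164 2 1100))))))))))))))
(cons (mv 972 (cons (fin 973 0 972)
(mv 976 (cons (fin 912 6 911)
(mv 977 (cons (fin 978 1 974)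
(mv 913 (cons (fin 914 2 910)
(mv 1168 (cons (fin 1104 6 912)
(fin 1232 4 975)))))))))))
(cons (mv 976 (cons (fin 912 6 911)
(mv 977 (cons (fin 978 1 974)
(mv 913 (cons (fin 914 2 910)
(mv 1168 (cons (fin 1104 6 912)
(fin 1232 4 975)))))))))
(mv 912 (cons (fin 976 6 911)
(mv 973 (cons (fin 972 0 972)
(mv 1166 (cons (fin 1230 5 974)
(mv 1102 (cons (fin 909 7 909)
(mv 1100 (cons (fin 1101 2 1036)
(mv 1165 (cons (fin 1229 5 973)
(mv 1164 (cons (fin 1099 3 1099)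
(fin 1163 2 1099)))))))))))))))))))))
(mv 910 (cons (fin 846 4 846)
(mv 1167 (cons (fin 1231 7 974)
(fin 1102 4 910)))))))))
(cons (mv 1103 (cons (cons (mv 910 (cons (fin 846 4 846)
(mv 1167 (cons (fin 975 7 910)
(fin 1231 7 974)))))
(mv 910 (cons (fin 846 4 846)
(mv 1102 (cons (mv 1101 (cons (fin 1041 1 1037)
(fin 1100 2 1036)))
(cons (mv 909 (cons (fin 845 7 845)
(mv 1166 (cons (mv 1230 (cons (fin 975 6 974)
(fin 1294 6 1038)))
(cons (mv 1165 (cons (fin 1229 5 973)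
(mv 1105 (cons (fin 1104 1 1101)
(mv 1041 (cons (fin 1106 0 1038)
(mv 977 (cons (fin 978 2 974)
(mv 976 (cons (fin 975 3 909)
(mv 912 (cons (fin 1169 7 912)
(fin 848 5 847)))))))))))))
(mv 1165 (cons (fin 1229 5 973)
(mv 1105 (cons (fin 1104 1 1101)
(mv 1041 (cons (fin 1106 0 1038)
(mv 977 (cons (fin 978 2 974)
(mv 1163 (cons (fin 1164 2 1099)
(mv 1230 (cons (fin 1294 6 1038)
(mv 1231 (cons (fin 1295 4 1038)
(mv 1233 (cons (fin 1232 3 1165)
(mv 1169 (cons (fin 976 7 976)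
(mv 1234 (cons (fin 1170 4 977)
(fin 1298 4 1041))))))))))))))))))))))))))
(mv 1101 (cons (fin 1100 2 1036)
(fin 1165 5 909)))))))))
(cons (mv 1167 (cons (fin 1231 7 974)
(mv 975 (cons (cons (mv 976 (cons (fin 912 6 911)
(mv 977 (cons (fin 978 1 974)
(mv 913 (cons (fin 914 2 910)
(mv 1168 (cons (fin 1104 6 912)
(fin 1232 4 975)))))))))
(mv 1166 (cons (fin 1230 5 974)
(mv 1168 (cons (fin 1232 4 975)
(mv 1102 (cons (mv 1101 (cons (fin 1169 3 1101)
(fin 1041 1 1037)))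
(mv 1165 (cons (fin 1229 5 973)
(mv 1104 (cons (fin 1105 1 1101)
(fin 1164 2 1100))))))))))))
(cons (mv 976 (cons (fin 912 6 911)
(mv 977 (cons (fin 978 1 974)
(mv 913 (cons (fin 914 2 910)
(mv 849 (cons (fin 785 5 784)
(mv 1104 (cons (fin 1041 5 848)
(mv 1105 (cons (fin 1106 3 1038)
(mv 1166 (cons (fin 1230 5 974)
(mv 1165 (cons (fin 1102 1 1101)
(fin 1164 2 1100)))))))))))))))))
(mv 912 (cons (fin 976 6 911)
(mv 1166 (cons (fin 1230 5 974)
(mv 1168 (cons (fin 1232 4 975)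
(mv 1165 (cons (cons (mv 1229 (cons (fin 1228 1 1164)
(fin 1102 5 973)))
(mv 1100 (cons (fin 1101 3 1100)
(mv 1164 (cons (fin 1099 3 1099)
(mv 1163 (cons (fin 1102 2 1099)
(mv 1227 (cons (fin 1226 1 1162)
(fin 1228 1 1163))))))))))
(cons (mv 1100 (cons (fin 1101 3 1100)
(mv 1164 (cons (fin 1099 3 1099)
(mv 1228 (cons (fin 1227 1 1163)
(fin 1229 1 1164)))))))
(mv 1100 (cons (fin 1101 3 1100)
(mv 1102 (cons (fin 1229 5 973)
(mv 1164 (cons (fin 1099 3 1099)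
(fin 1163 2 1099)))))))))))))))))))))
(cons (mv 910 (cons (fin 846 4 846)
(mv 1167 (cons (fin 975 7 910)
(fin 1102 4 910)))))
(mv 910 (cons (fin 846 4 846)
(mv 1167 (cons (fin 1231 7 974)
(fin 1102 4 910)))))))))
(mv 973 (cons (fin 1041 3 973)
(mv 971 (cons (fin 972 0 971)
(mv 1102 (cons (cons (mv 909 (cons (fin 1166 7 909)
(mv 845 (cons (fin 910 7 845)
(fin 781 4 781)))))
(mv 910 (cons (mv 1103 (cons (fin 846 4 846)
(fin 1167 4 910)))
(cons (mv 1101 (cons (fin 1165 5 909)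
(mv 1099 (cons (fin 1100 2 1035)
(mv 846 (cons (cons (mv 845 (cons (fin 781 7 781)
(fin 909 7 845)))
(mv 783 (cons (fin 847 6 782)
(mv 782 (cons (fin 719 6 718)
(mv 717 (cons (fin 781 7 717)
(mv 718 (cons (fin 653 7 653)
(fin 909 5 717))))))))))
(cons (mv 781 (cons (fin 845 7 781)
(mv 782 (cons (fin 717 7 717)
(mv 783 (cons (fin 719 6 718)
(fin 847 6 782)))))))
(mv 783 (cons (fin 847 6 782)
(mv 782 (cons (fin 719 6 718)
(mv 909 (cons (fin 845 7 845)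
(fin 718 5 717))))))))))))))
(mv 845 (cons (fin 909 7 845)
(mv 1101 (cons (fin 1165 5 909)
(mv 1100 (cons (fin 1099 2 1035)
(fin 1103 2 1036)))))))))))
(cons (mv 1103 (cons (mv 910 (cons (fin 846 4 846)
(fin 1167 4 910)))
(cons (mv 910 (cons (fin 846 4 846)
(mv 1101 (cons (fin 1100 2 1036)
(fin 1165 5 909)))))
(mv 1100 (cons (fin 1101 2 1036)
(mv 1166 (cons (mv 1165 (cons (fin 1229 5 973)
(mv 1104 (cons (fin 1105 1 1101)
(mv 1164 (cons (fin 1163 2 1099)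
(fin 1167 2 1100)))))))
(cons (mv 1229 (cons (fin 1165 5 973)
(mv 1230 (cons (fin 1293 5 1037)
(fin 1294 6 1038)))))
(mv 1230 (cons (fin 1294 6 1038)
(mv 1231 (cons (fin 1167 7 974)
(fin 1295 4 1038)))))))))))))
(mv 1166 (cons (fin 909 7 909)
(mv 1165 (cons (fin 1229 5 973)
(mv 1231 (cons (fin 1167 4 974)
(mv 1230 (cons (fin 1295 4 1038)
(mv 1103 (cons (fin 1294 6 1038)
(mv 1101 (cons (fin 1100 2 1036)
(mv 1104 (cons (fin 1164 1 1100)
(fin 1105 1 1101)))))))))))))))))))))))))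
(mv 1037 (cons (cons (mv 972 (cons (fin 973 3 972)
(mv 976 (cons (fin 977 2 973)
(mv 1036 (cons (fin 971 3 971)
(fin 975 2 972)))))))
(mv 972 (cons (fin 973 3 972)
(mv 1036 (cons (fin 971 3 971)
(mv 1100 (cons (fin 1099 1 1035)
(fin 1101 1 1036))))))))
(cons (mv 976 (cons (fin 977 2 973)
(mv 975 (cons (fin 1036 2 972)
(mv 1100 (cons (fin 1101 1 1036)
(mv 1104 (cons (fin 1105 0 1037)
(mv 1168 (cons (fin 1232 7 975)
(mv 1167 (cons (fin 1231 5 975)
(mv 912 (cons (fin 1103 5 911)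
(mv 848 (cons (fin 784 5 783)
(mv 849 (cons (fin 785 6 784)
(fin 913 6 848)))))))))))))))))))
(mv 972 (cons (fin 973 3 972)
(mv 976 (cons (fin 977 2 973)
(mv 1100 (cons (fin 1101 1 1036)
(mv 1104 (cons (fin 1105 0 1037)
(mv 912 (cons (mv 1103 (cons (fin 848 5 847)
(fin 1167 5 911)))
(cons (mv 849 (cons (fin 913 6 848)
(mv 848 (cons (fin 785 6 784)
(mv 783 (cons (fin 847 7 783)
(mv 784 (cons (fin 719 7 719)
(fin 975 5 783)))))))))
(mv 849 (cons (fin 913 6 848)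
(mv 1167 (cons (fin 1103 5 911)
(mv 1168 (cons (fin 1231 5 975)
(mv 1232 (cons (fin 975 7 975)
(mv 1233 (cons (fin 1169 4 976)
(fin 1297 4 1040)))))))))))))))))))))))))))
(cons (cons (mv 1037 (cons (cons (mv 972 (cons (fin 973 3 972)
(mv 971 (cons (fin 1036 3 971)
(mv 977 (cons (fin 976 2 973)
(mv 1041 (cons (fin 978 2 974)
(mv 1105 (cons (fin 1104 0 1037)
(fin 1106 0 1038)))))))))))
(mv 972 (cons (fin 973 3 972)
(mv 1036 (cons (fin 971 3 971)
(mv 1104 (cons (fin 1103 0 1036)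
(fin 1105 0 1037))))))))
(cons (mv 976 (cons (fin 977 2 973)
(mv 975 (cons (fin 1036 2 972)
(mv 1104 (cons (fin 1105 0 1037)
(mv 1168 (cons (fin 1232 7 975)
(mv 1167 (cons (fin 1231 5 975)
(mv 912 (cons (fin 1103 5 911)
(mv 848 (cons (fin 784 5 783)
(mv 849 (cons (fin 785 6 784)
(fin 913 6 848)))))))))))))))))
(cons (mv 972 (cons (fin 973 3 972)
(mv 976 (cons (fin 977 2 973)
(mv 1036 (cons (fin 971 3 971)
(fin 975 2 972)))))))
(mv 972 (cons (fin 973 3 972)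
(mv 977 (cons (fin 976 2 973)
(mv 1041 (cons (fin 978 2 974)
(mv 1105 (cons (fin 1104 0 1037)
(fin 1106 0 1038)))))))))))))
(mv 1037 (cons (cons (mv 976 (cons (fin 977 2 973)
(mv 975 (cons (fin 1036 2 972)
(mv 1100 (cons (fin 1101 1 1036)
(mv 1104 (cons (fin 1105 0 1037)
(mv 1168 (cons (fin 1232 7 975)
(mv 1167 (cons (fin 1231 5 975)
(mv 912 (cons (fin 1103 5 911)
(mv 848 (cons (fin 784 5 783)
(mv 849 (cons (fin 785 6 784)
(fin 913 6 848)))))))))))))))))))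
(mv 1100 (cons (fin 1101 1 1036)
(mv 1036 (cons (fin 1099 1 1035)
(mv 1104 (cons (fin 1103 0 1036)
(fin 1105 0 1037))))))))
(cons (mv 976 (cons (fin 977 2 973)
(mv 975 (cons (fin 1036 2 972)
(mv 1104 (cons (fin 1105 0 1037)
(mv 1168 (cons (fin 1232 7 975)
(mv 1167 (cons (fin 1231 5 975)
(mv 912 (cons (fin 1103 5 911)
(mv 848 (cons (fin 784 5 783)
(mv 849 (cons (fin 785 6 784)
(fin 913 6 848)))))))))))))))))
(cons (mv 976 (cons (fin 977 2 973)
(mv 1036 (cons (fin 975 2 972)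
(mv 1100 (cons (fin 1099 1 1035)
(fin 1101 1 1036)))))))
(mv 976 (cons (fin 977 2 973)
(mv 1101 (cons (fin 1100 1 1036)
(mv 1041 (cons (fin 1102 1 1037)
(mv 1105 (cons (fin 1104 0 1037)
(fin 1106 0 1038))))))))))))))
(cons (mv 1037 (cons (cons (mv 972 (cons (fin 973 3 972)
(mv 971 (cons (fin 1036 3 971)
(mv 977 (cons (fin 976 2 973)
(mv 1041 (cons (fin 978 2 974)
(mv 1101 (cons (fin 1100 1 1036)
(fin 1102 1 1037)))))))))))
(mv 972 (cons (fin 973 3 972)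
(mv 976 (cons (fin 977 2 973)
(mv 1036 (cons (fin 971 3 971)
(fin 975 2 972))))))))
(cons (mv 976 (cons (fin 977 2 973)
(mv 1036 (cons (fin 975 2 972)
(mv 1100 (cons (fin 1099 1 1035)
(fin 1101 1 1036)))))))
(cons (mv 972 (cons (fin 973 3 972)
(mv 1036 (cons (fin 971 3 971)
(mv 1100 (cons (fin 1099 1 1035)
(fin 1101 1 1036)))))))
(mv 972 (cons (fin 973 3 972)
(mv 977 (cons (fin 976 2 973)
(mv 1041 (cons (fin 978 2 974)
(mv 1101 (cons (fin 1100 1 1036)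
(fin 1102 1 1037)))))))))))))
(mv 1037 (cons (cons (mv 972 (cons (fin 973 3 972)
(mv 971 (cons (fin 1036 3 971)
(mv 1101 (cons (fin 1100 1 1036)
(mv 1041 (cons (fin 1102 1 1037)
(mv 1105 (cons (fin 1104 0 1037)
(fin 1106 0 1038)))))))))))
(mv 972 (cons (fin 973 3 972)
(mv 1036 (cons (fin 971 3 971)
(mv 1104 (cons (fin 1103 0 1036)
(fin 1105 0 1037))))))))
(cons (mv 1100 (cons (fin 1101 1 1036)
(mv 1036 (cons (fin 1099 1 1035)
(mv 1104 (cons (fin 1103 0 1036)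
(fin 1105 0 1037)))))))
(cons (mv 972 (cons (fin 973 3 972)
(mv 1036 (cons (fin 971 3 971)
(mv 1100 (cons (fin 1099 1 1035)
(fin 1101 1 1036)))))))
(mv 972 (cons (fin 973 3 972)
(mv 1101 (cons (fin 1100 1 1036)
(mv 1041 (cons (fin 1102 1 1037)
(mv 1105 (cons (fin 1104 0 1037)
(fin 1106 0 1038)))))))))))))))))
(mv 1038 (cons (cons (mv 1037 (cons (cons (mv 972 (cons (fin 973 3 972)
(mv 971 (cons (fin 1036 3 971)
(mv 976 (cons (fin 977 2 973)
(mv 1101 (cons (fin 1100 1 1036)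
(mv 1041 (cons (fin 1102 1 1037)
(mv 1105 (cons (fin 1104 0 1037)
(fin 1106 0 1038)))))))))))))
(cons (mv 972 (cons (fin 973 3 972)
(mv 971 (cons (fin 1036 3 971)
(mv 977 (cons (fin 976 2 973)
(mv 1041 (cons (fin 978 2 974)
(mv 1105 (cons (fin 1104 0 1037)
(fin 1106 0 1038)))))))))))
(mv 976 (cons (fin 977 2 973)
(mv 975 (cons (fin 1036 2 972)
(mv 1100 (cons (fin 1101 1 1036)
(mv 1104 (cons (fin 1105 0 1037)
(mv 911 (cons (fin 1168 7 911)
(fin 847 4 847)))))))))))))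
(cons (mv 972 (cons (fin 973 3 972)
(mv 971 (cons (fin 1036 3 971)
(mv 977 (cons (fin 976 2 973)
(mv 1041 (cons (fin 978 2 974)
(mv 1101 (cons (fin 1100 1 1036)
(fin 1102 1 1037)))))))))))
(cons (mv 972 (cons (fin 973 3 972)
(mv 971 (cons (fin 1036 3 971)
(mv 1101 (cons (fin 1100 1 1036)
(mv 1041 (cons (fin 1102 1 1037)
(mv 1105 (cons (fin 1104 0 1037)
(fin 1106 0 1038)))))))))))
(mv 972 (cons (fin 973 3 972)
(mv 976 (cons (fin 977 2 973)
(mv 1101 (cons (fin 1100 1 1036)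
(mv 1041 (cons (fin 1102 1 1037)
(mv 1105 (cons (fin 1104 0 1037)
(fin 1106 0 1038)))))))))))))))
(cons (mv 1102 (cons (cons (mv 1101 (cons (fin 1041 1 1037)
(mv 1100 (cons (fin 1099 2 1035)
(fin 1103 2 1036)))))
(mv 975 (cons (cons (mv 911 (cons (fin 847 5 846)
(mv 1166 (cons (fin 1103 5 910)
(fin 974 6 910)))))
(mv 1166 (cons (fin 1230 6 974)
(mv 974 (cons (mv 973 (cons (fin 972 0 972)
(fin 909 7 909)))
(mv 1165 (cons (fin 1229 5 973)
(mv 910 (cons (fin 1101 5 909)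
(mv 846 (cons (fin 782 4 782)
(fin 1103 4 846))))))))))))
(cons (mv 911 (cons (fin 847 5 846)
(mv 1103 (cons (cons (mv 846 (cons (fin 910 7 846)
(mv 1100 (cons (fin 1101 2 1036)
(mv 1168 (cons (fin 1104 4 911)
(mv 1167 (cons (fin 1232 4 975)
(mv 1231 (cons (fin 974 7 974)
(fin 1295 7 1038)))))))))))
(cons (mv 910 (cons (fin 846 7 846)
(mv 974 (cons (fin 1167 7 910)
(mv 1101 (cons (fin 1100 2 1036)
(fin 1165 5 909)))))))
(mv 1100 (cons (fin 1101 2 1036)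
(mv 1168 (cons (fin 1104 4 911)
(mv 1167 (cons (fin 1232 4 975)
(mv 1231 (cons (fin 974 7 974)
(fin 1295 7 1038)))))))))))
(cons (mv 846 (cons (fin 910 7 846)
(mv 1168 (cons (fin 1104 4 911)
(mv 1167 (cons (fin 1232 4 975)
(mv 1231 (cons (fin 974 7 974)
(fin 1295 7 1038)))))))))
(cons (mv 910 (cons (fin 846 7 846)
(mv 1101 (cons (fin 1100 2 1036)
(mv 974 (cons (fin 1165 5 909)
(mv 909 (cons (fin 845 7 845)
(mv 908 (cons (fin 907 0 907)
(fin 976 0 908)))))))))))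
(mv 846 (cons (fin 910 7 846)
(mv 1100 (cons (fin 1101 2 1036)
(mv 1168 (cons (fin 1104 4 911)
(mv 1167 (cons (fin 1232 4 975)
(mv 1231 (cons (fin 1295 7 1038)
(fin 976 6 975)))))))))))))))))
(cons (mv 911 (cons (fin 847 5 846)
(mv 1166 (cons (fin 1103 5 910)
(fin 1230 6 974)))))
(mv 911 (cons (fin 847 5 846)
(mv 1166 (cons (fin 974 6 910)
(fin 1230 6 974))))))))))
(cons (mv 975 (cons (cons (mv 911 (cons (fin 847 5 846)
(mv 1166 (cons (fin 1103 5 910)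
(fin 974 6 910)))))
(mv 1166 (cons (fin 1230 6 974)
(mv 974 (cons (mv 973 (cons (fin 1041 3 973)
(fin 972 0 972)))
(cons (mv 1165 (cons (fin 1229 5 973)
(mv 1167 (cons (fin 1231 4 974)
(mv 910 (cons (fin 1103 7 910)
(mv 782 (cons (fin 846 4 782)
(mv 909 (cons (fin 845 7 845)
(mv 907 (cons (fin 908 0 907)
(mv 977 (cons (fin 976 3 909)
(mv 1041 (cons (fin 978 2 974)
(mv 1105 (cons (fin 1106 0 1038)
(mv 1168 (cons (fin 1104 2 1101)
(mv 1232 (cons (fin 1233 0 1165)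
(fin 1169 5 976)))))))))))))))))))))))
(mv 973 (cons (fin 972 0 972)
(fin 909 7 909)))))))))
(cons (mv 911 (cons (fin 847 5 846)
(mv 974 (cons (mv 973 (cons (fin 1041 3 973)
(fin 972 0 972)))
(mv 910 (cons (mv 846 (cons (fin 1103 7 846)
(fin 782 4 782)))
(cons (mv 782 (cons (fin 846 4 782)
(mv 909 (cons (fin 845 7 845)
(mv 908 (cons (fin 907 0 907)
(fin 976 0 908)))))))
(mv 909 (cons (fin 845 7 845)
(mv 908 (cons (fin 907 0 907)
(fin 976 0 908))))))))))))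
(cons (mv 911 (cons (fin 847 5 846)
(mv 1166 (cons (fin 1103 5 910)
(fin 1230 6 974)))))
(mv 911 (cons (fin 847 5 846)
(mv 1166 (cons (fin 974 6 910)
(fin 1230 6 974)))))))))
(mv 1041 (cons (fin 1101 1 1037)
(mv 973 (cons (fin 974 3 973)
(mv 977 (cons (fin 978 2 974)
(mv 1105 (cons (fin 1106 0 1038)
(mv 913 (cons (mv 1104 (cons (fin 849 5 848)
(fin 1168 5 912)))
(cons (mv 850 (cons (fin 914 6 849)
(mv 849 (cons (fin 786 6 785)
(mv 784 (cons (fin 848 7 784)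
(mv 785 (cons (fin 720 7 720)
(fin 976 5 784)))))))))
(mv 850 (cons (fin 914 6 849)
(mv 1168 (cons (fin 1104 5 912)
(mv 1169 (cons (fin 1232 5 976)
(mv 1233 (cons (fin 976 7 976)
(mv 1234 (cons (fin 1170 4 977)
(fin 1298 4 1041)))))))))))))))))))))))))
(mv 1037 (cons (cons (mv 972 (cons (fin 973 3 972)
(mv 976 (cons (fin 977 2 973)
(mv 1036 (cons (fin 971 3 971)
(fin 975 2 972)))))))
(mv 972 (cons (fin 973 3 972)
(mv 1036 (cons (fin 971 3 971)
(mv 1100 (cons (fin 1099 1 1035)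
(fin 1101 1 1036))))))))
(cons (mv 976 (cons (fin 977 2 973)
(mv 975 (cons (fin 1036 2 972)
(mv 1100 (cons (fin 1101 1 1036)
(mv 1104 (cons (fin 1105 0 1037)
(mv 911 (cons (fin 1168 7 911)
(fin 847 4 847)))))))))))
(mv 972 (cons (fin 973 3 972)
(mv 976 (cons (fin 977 2 973)
(mv 1100 (cons (fin 1101 1 1036)
(mv 1104 (cons (fin 1105 0 1037)
(mv 1168 (cons (mv 975 (cons (fin 911 7 911)
(fin 1232 7 975)))
(cons (mv 1231 (cons (fin 1167 5 975)
(mv 1232 (cons (fin 1295 5 1039)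
(mv 1233 (cons (fin 1169 4 976)
(fin 1297 4 1040)))))))
(mv 975 (cons (fin 911 7 911)
(mv 1167 (cons (fin 1231 5 975)
(mv 1169 (cons (fin 1233 4 976)
(mv 1166 (cons (cons (mv 1230 (cons (fin 1229 1 1165)
(fin 1103 5 974)))
(mv 1165 (cons (mv 1164 (cons (fin 1099 3 1099)
(fin 1103 2 1100)))
(cons (mv 1229 (cons (fin 1228 1 1164)
(mv 1102 (cons (fin 974 5 973)
(mv 1170 (cons (fin 1103 3 1102)
(mv 1107 (cons (fin 1106 2 1103)
(mv 1171 (cons (fin 1108 2 1104)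
(mv 1235 (cons (fin 1234 0 1167)
(fin 1236 0 1168)))))))))))))
(mv 1164 (cons (fin 1099 3 1099)
(mv 1228 (cons (fin 1227 1 1163)
(fin 1229 1 1164)))))))))
(cons (mv 1230 (cons (fin 1229 1 1165)
(fin 1102 6 974)))
(mv 1230 (cons (fin 1103 5 974)
(fin 1102 6 974))))))))))))))))))))))))))))
(cons (cons (mv 1037 (cons (cons (mv 972 (cons (fin 973 3 972)
(mv 971 (cons (fin 1036 3 971)
(mv 977 (cons (fin 976 2 973)
(mv 1041 (cons (fin 978 2 974)
(mv 1105 (cons (fin 1104 0 1037)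
(fin 1106 0 1038)))))))))))
(mv 972 (cons (fin 973 3 972)
(mv 976 (cons (fin 977 2 973)
(mv 1036 (cons (fin 971 3 971)
(fin 975 2 972))))))))
(cons (mv 976 (cons (fin 977 2 973)
(mv 975 (cons (fin 1036 2 972)
(mv 1104 (cons (fin 1105 0 1037)
(mv 911 (cons (fin 1168 7 911)
(fin 847 4 847)))))))))
(cons (mv 972 (cons (fin 973 3 972)
(mv 1036 (cons (fin 971 3 971)
(mv 1104 (cons (fin 1103 0 1036)
(fin 1105 0 1037)))))))
(mv 972 (cons (fin 973 3 972)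
(mv 977 (cons (fin 976 2 973)
(mv 1041 (cons (fin 978 2 974)
(mv 1105 (cons (fin 1104 0 1037)
(fin 1106 0 1038)))))))))))))
(mv 1037 (cons (cons (mv 976 (cons (fin 977 2 973)
(mv 975 (cons (fin 1036 2 972)
(mv 1100 (cons (fin 1101 1 1036)
(mv 1104 (cons (fin 1105 0 1037)
(mv 911 (cons (fin 1168 7 911)
(fin 847 4 847)))))))))))
(mv 976 (cons (fin 977 2 973)
(mv 975 (cons (fin 1036 2 972)
(mv 1101 (cons (fin 1100 1 1036)
(mv 1102 (cons (fin 1041 1 1037)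
(mv 911 (cons (fin 847 5 846)
(mv 1166 (cons (fin 1103 5 910)
(fin 974 6 910))))))))))))))
(cons (mv 976 (cons (fin 977 2 973)
(mv 975 (cons (fin 1036 2 972)
(mv 1104 (cons (fin 1105 0 1037)
(mv 911 (cons (fin 1168 7 911)
(fin 847 4 847)))))))))
(cons (mv 1100 (cons (fin 1101 1 1036)
(mv 1036 (cons (fin 1099 1 1035)
(mv 1104 (cons (fin 1103 0 1036)
(fin 1105 0 1037)))))))
(mv 976 (cons (fin 977 2 973)
(mv 1101 (cons (fin 1100 1 1036)
(mv 1041 (cons (fin 1102 1 1037)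
(mv 1105 (cons (fin 1104 0 1037)
(fin 1106 0 1038))))))))))))))
(cons (mv 1037 (cons (cons (mv 972 (cons (fin 973 3 972)
(mv 971 (cons (fin 1036 3 971)
(mv 1101 (cons (fin 1100 1 1036)
(mv 1041 (cons (fin 1102 1 1037)
(mv 1105 (cons (fin 1104 0 1037)
(fin 1106 0 1038)))))))))))
(mv 972 (cons (fin 973 3 972)
(mv 1036 (cons (fin 971 3 971)
(mv 1104 (cons (fin 1103 0 1036)
(fin 1105 0 1037))))))))
(cons (mv 1100 (cons (fin 1101 1 1036)
(mv 1036 (cons (fin 1099 1 1035)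
(mv 1104 (cons (fin 1103 0 1036)
(fin 1105 0 1037)))))))
(cons (mv 972 (cons (fin 973 3 972)
(mv 1036 (cons (fin 971 3 971)
(mv 1100 (cons (fin 1099 1 1035)
(fin 1101 1 1036)))))))
(mv 972 (cons (fin 973 3 972)
(mv 1101 (cons (fin 1100 1 1036)
(mv 1041 (cons (fin 1102 1 1037)
(mv 1105 (cons (fin 1104 0 1037)
(fin 1106 0 1038)))))))))))))
(mv 1037 (cons (cons (mv 972 (cons (fin 973 3 972)
(mv 971 (cons (fin 1036 3 971)
(mv 977 (cons (fin 976 2 973)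
(mv 1041 (cons (fin 978 2 974)
(mv 1101 (cons (fin 1100 1 1036)
(fin 1102 1 1037)))))))))))
(mv 972 (cons (fin 973 3 972)
(mv 976 (cons (fin 977 2 973)
(mv 1036 (cons (fin 971 3 971)
(fin 975 2 972))))))))
(cons (mv 976 (cons (fin 977 2 973)
(mv 975 (cons (fin 1036 2 972)
(mv 1101 (cons (fin 1100 1 1036)
(mv 1102 (cons (fin 1041 1 1037)
(mv 911 (cons (fin 847 5 846)
(mv 1166 (cons (fin 1103 5 910)
(fin 974 6 910)))))))))))))
(cons (mv 972 (cons (fin 973 3 972)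
(mv 1036 (cons (fin 971 3 971)
(mv 1100 (cons (fin 1099 1 1035)
(fin 1101 1 1036)))))))
(mv 972 (cons (fin 973 3 972)
(mv 977 (cons (fin 976 2 973)
(mv 1041 (cons (fin 978 2 974)
(mv 1101 (cons (fin 1100 1 1036)
(fin 1102 1 1037)))))))))))))))))))
(cons (cons (mv 1038 (cons (cons (mv 1037 (cons (cons (mv 972 (cons (fin 973 3 972)
(mv 971 (cons (fin 1036 3 971)
(mv 976 (cons (fin 977 2 973)
(mv 1101 (cons (fin 1100 1 1036)
(mv 1041 (cons (fin 1102 1 1037)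
(mv 1105 (cons (fin 1104 0 1037)
(fin 1106 0 1038)))))))))))))
(cons (mv 976 (cons (fin 977 2 973)
(mv 975 (cons (fin 1036 2 972)
(mv 1100 (cons (fin 1101 1 1036)
(mv 1104 (cons (fin 1105 0 1037)
(mv 911 (cons (fin 1168 7 911)
(fin 847 4 847)))))))))))
(mv 972 (cons (fin 973 3 972)
(mv 971 (cons (fin 1036 3 971)
(mv 977 (cons (fin 976 2 973)
(mv 1041 (cons (fin 978 2 974)
(mv 1105 (cons (fin 1104 0 1037)
(fin 1106 0 1038)))))))))))))
(cons (mv 972 (cons (fin 973 3 972)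
(mv 971 (cons (fin 1036 3 971)
(mv 977 (cons (fin 976 2 973)
(mv 1041 (cons (fin 978 2 974)
(mv 1101 (cons (fin 1100 1 1036)
(fin 1102 1 1037)))))))))))
(cons (mv 972 (cons (fin 973 3 972)
(mv 971 (cons (fin 1036 3 971)
(mv 1101 (cons (fin 1100 1 1036)
(mv 1041 (cons (fin 1102 1 1037)
(mv 1105 (cons (fin 1104 0 1037)
(fin 1106 0 1038)))))))))))
(mv 972 (cons (fin 973 3 972)
(mv 976 (cons (fin 977 2 973)
(mv 1101 (cons (fin 1100 1 1036)
(mv 1041 (cons (fin 1102 1 1037)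
(mv 1105 (cons (fin 1104 0 1037)
(fin 1106 0 1038)))))))))))))))
(cons (mv 1102 (cons (cons (mv 1101 (cons (fin 1041 1 1037)
(mv 1100 (cons (fin 1099 2 1035)
(fin 1103 2 1036)))))
(mv 975 (cons (cons (mv 911 (cons (fin 847 5 846)
(mv 1166 (cons (fin 1103 5 910)
(fin 974 6 910)))))
(mv 1166 (cons (fin 1230 6 974)
(mv 974 (cons (mv 973 (cons (fin 972 0 972)
(fin 909 7 909)))
(mv 1165 (cons (fin 1229 5 973)
(mv 910 (cons (fin 1101 5 909)
(mv 846 (cons (fin 782 4 782)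
(fin 1103 4 846))))))))))))
(cons (mv 911 (cons (fin 847 5 846)
(mv 1103 (cons (cons (mv 846 (cons (fin 910 7 846)
(mv 912 (cons (fin 848 6 847)
(mv 1100 (cons (fin 1101 2 1036)
(mv 1104 (cons (fin 1168 4 911)
(mv 1105 (cons (fin 1106 3 1038)
(mv 1169 (cons (fin 1170 0 1102)
(fin 976 4 912)))))))))))))
(cons (mv 848 (cons (fin 912 6 847)
(mv 910 (cons (fin 846 7 846)
(mv 1101 (cons (fin 1100 2 1036)
(mv 974 (cons (fin 1165 5 909)
(mv 909 (cons (fin 845 7 845)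
(mv 908 (cons (fin 907 0 907)
(fin 976 0 908)))))))))))))
(mv 912 (cons (fin 848 6 847)
(mv 1100 (cons (fin 1101 2 1036)
(mv 1104 (cons (fin 1168 4 911)
(mv 1105 (cons (fin 1106 3 1038)
(mv 1169 (cons (fin 1170 0 1102)
(fin 976 4 912)))))))))))))
(cons (mv 846 (cons (fin 910 7 846)
(mv 912 (cons (fin 848 6 847)
(mv 1104 (cons (fin 1168 4 911)
(mv 1105 (cons (fin 1106 3 1038)
(mv 1169 (cons (fin 1170 0 1102)
(fin 976 4 912)))))))))))
(cons (mv 910 (cons (fin 846 7 846)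
(mv 1101 (cons (fin 1100 2 1036)
(mv 974 (cons (fin 1165 5 909)
(mv 909 (cons (fin 845 7 845)
(mv 908 (cons (fin 907 0 907)
(fin 976 0 908)))))))))))
(mv 848 (cons (fin 912 6 847)
(mv 910 (cons (fin 846 7 846)
(mv 1101 (cons (fin 1100 2 1036)
(mv 974 (cons (fin 1165 5 909)
(mv 909 (cons (fin 845 7 845)
(mv 908 (cons (fin 907 0 907)
(mv 972 (cons (fin 971 1 907)
(fin 973 0 972)))))))))))))))))))))
(cons (mv 911 (cons (fin 847 5 846)
(mv 1166 (cons (fin 1103 5 910)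
(fin 1230 6 974)))))
(mv 911 (cons (fin 847 5 846)
(mv 1166 (cons (fin 974 6 910)
(fin 1230 6 974))))))))))
(cons (mv 975 (cons (cons (mv 911 (cons (fin 847 5 846)
(mv 1166 (cons (fin 1103 5 910)
(fin 974 6 910)))))
(mv 1166 (cons (fin 1230 6 974)
(mv 974 (cons (mv 973 (cons (fin 1041 3 973)
(fin 972 0 972)))
(cons (mv 1165 (cons (fin 1229 5 973)
(mv 910 (cons (mv 846 (cons (fin 782 4 782)
(fin 1103 4 846)))
(cons (mv 909 (cons (fin 845 7 845)
(mv 907 (cons (fin 908 0 907)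
(mv 977 (cons (fin 976 3 909)
(mv 1041 (cons (fin 978 2 974)
(mv 1105 (cons (fin 1106 0 1038)
(mv 1104 (cons (fin 1103 1 1101)
(mv 913 (cons (fin 849 5 848)
(fin 1168 5 912)))))))))))))))
(mv 845 (cons (fin 909 7 845)
(mv 846 (cons (fin 781 7 781)
(fin 782 4 782))))))))))
(mv 973 (cons (fin 972 0 972)
(fin 909 7 909)))))))))
(cons (mv 911 (cons (fin 847 5 846)
(mv 1103 (cons (cons (mv 846 (cons (fin 910 7 846)
(mv 912 (cons (fin 848 6 847)
(mv 1104 (cons (fin 1168 4 911)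
(mv 1105 (cons (fin 1106 3 1038)
(mv 1169 (cons (fin 1170 0 1102)
(fin 976 4 912)))))))))))
(mv 848 (cons (fin 912 6 847)
(mv 910 (cons (fin 846 7 846)
(mv 974 (cons (mv 973 (cons (fin 1041 3 973)
(fin 972 0 972)))
(mv 909 (cons (fin 845 7 845)
(mv 908 (cons (fin 907 0 907)
(fin 976 0 908))))))))))))
(cons (mv 912 (cons (fin 848 6 847)
(mv 1104 (cons (fin 1168 4 911)
(mv 1105 (cons (fin 1106 3 1038)
(mv 1169 (cons (fin 1170 0 1102)
(fin 976 4 912)))))))))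
(cons (mv 910 (cons (fin 846 7 846)
(mv 1104 (cons (fin 1168 4 911)
(mv 1105 (cons (fin 1106 3 1038)
(mv 1169 (cons (fin 1170 0 1102)
(mv 1233 (cons (fin 1297 7 1040)
(mv 976 (cons (fin 1041 7 976)
(mv 909 (cons (fin 908 0 908)
(mv 974 (cons (fin 977 3 909)
(fin 845 7 845)))))))))))))))))
(mv 910 (cons (fin 846 7 846)
(mv 912 (cons (fin 848 6 847)
(mv 1104 (cons (fin 1168 4 911)
(mv 1105 (cons (fin 1106 3 1038)
(mv 1169 (cons (fin 1170 0 1102)
(mv 1233 (cons (fin 1297 7 1040)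
(mv 974 (cons (mv 913 (cons (fin 973 1 909)
(fin 914 1 910)))
(cons (mv 845 (cons (fin 909 7 845)
(mv 913 (cons (fin 914 1 910)
(mv 849 (cons (fin 850 2 846)
(mv 977 (cons (fin 978 0 910)
(fin 1041 5 848)))))))))
(mv 973 (cons (fin 1041 3 973)
(fin 972 2 908))))))))))))))))))))))))
(cons (mv 911 (cons (fin 847 5 846)
(mv 1166 (cons (fin 1103 5 910)
(fin 1230 6 974)))))
(mv 911 (cons (fin 847 5 846)
(mv 1166 (cons (fin 974 6 910)
(fin 1230 6 974)))))))))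
(mv 1041 (cons (fin 1101 1 1037)
(mv 973 (cons (fin 974 3 973)
(mv 977 (cons (fin 978 2 974)
(mv 1105 (cons (fin 1106 0 1038)
(mv 913 (cons (mv 1104 (cons (fin 849 5 848)
(fin 1168 5 912)))
(cons (mv 848 (cons (fin 912 7 848)
(mv 849 (cons (fin 784 7 784)
(mv 850 (cons (fin 786 6 785)
(fin 914 6 849)))))))
(mv 848 (cons (fin 912 7 848)
(mv 850 (cons (fin 914 6 849)
(mv 1168 (cons (fin 1104 5 912)
(mv 1169 (cons (fin 1232 5 976)
(mv 1233 (cons (fin 976 7 976)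
(mv 1234 (cons (fin 1170 4 977)
(fin 1298 4 1041)))))))))))))))))))))))))))
(mv 1037 (cons (cons (mv 972 (cons (fin 973 3 972)
(mv 976 (cons (fin 977 2 973)
(mv 1036 (cons (fin 971 3 971)
(fin 975 2 972)))))))
(mv 972 (cons (fin 973 3 972)
(mv 1036 (cons (fin 971 3 971)
(mv 1100 (cons (fin 1099 1 1035)
(fin 1101 1 1036))))))))
(cons (mv 976 (cons (fin 977 2 973)
(mv 975 (cons (fin 1036 2 972)
(mv 1100 (cons (fin 1101 1 1036)
(mv 1104 (cons (fin 1105 0 1037)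
(mv 911 (cons (fin 1168 7 911)
(fin 847 4 847)))))))))))
(mv 972 (cons (fin 973 3 972)
(mv 976 (cons (fin 977 2 973)
(mv 1100 (cons (fin 1101 1 1036)
(mv 1104 (cons (fin 1105 0 1037)
(mv 1168 (cons (mv 975 (cons (fin 911 7 911)
(fin 1232 7 975)))
(cons (mv 1233 (cons (fin 1169 4 976)
(mv 1232 (cons (fin 1297 4 1040)
(mv 1295 (cons (fin 1231 5 1039)
(mv 1296 (cons (fin 1103 7 1039)
(fin 1359 5 1103)))))))))
(mv 911 (cons (fin 975 7 911)
(mv 912 (cons (fin 847 7 847)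
(mv 848 (cons (fin 1103 5 847)
(mv 849 (cons (fin 785 6 784)
(fin 913 6 848)))))))))))))))))))))))))
(cons (cons (mv 1037 (cons (cons (mv 976 (cons (fin 977 2 973)
(mv 975 (cons (fin 1036 2 972)
(mv 1100 (cons (fin 1101 1 1036)
(mv 1104 (cons (fin 1105 0 1037)
(mv 911 (cons (fin 1168 7 911)
(fin 847 4 847)))))))))))
(mv 976 (cons (fin 977 2 973)
(mv 975 (cons (fin 1036 2 972)
(mv 1101 (cons (fin 1100 1 1036)
(mv 1102 (cons (fin 1041 1 1037)
(mv 911 (cons (fin 847 5 846)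
(mv 1166 (cons (fin 1103 5 910)
(fin 974 6 910))))))))))))))
(cons (mv 976 (cons (fin 977 2 973)
(mv 975 (cons (fin 1036 2 972)
(mv 1104 (cons (fin 1105 0 1037)
(mv 911 (cons (fin 1168 7 911)
(fin 847 4 847)))))))))
(cons (mv 1100 (cons (fin 1101 1 1036)
(mv 1036 (cons (fin 1099 1 1035)
(mv 1104 (cons (fin 1103 0 1036)
(fin 1105 0 1037)))))))
(mv 976 (cons (fin 977 2 973)
(mv 1101 (cons (fin 1100 1 1036)
(mv 1041 (cons (fin 1102 1 1037)
(mv 1105 (cons (fin 1104 0 1037)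
(fin 1106 0 1038)))))))))))))
(mv 1037 (cons (cons (mv 972 (cons (fin 973 3 972)
(mv 971 (cons (fin 1036 3 971)
(mv 977 (cons (fin 976 2 973)
(mv 1041 (cons (fin 978 2 974)
(mv 1105 (cons (fin 1104 0 1037)
(fin 1106 0 1038)))))))))))
(mv 972 (cons (fin 973 3 972)
(mv 976 (cons (fin 977 2 973)
(mv 1036 (cons (fin 971 3 971)
(fin 975 2 972))))))))
(cons (mv 976 (cons (fin 977 2 973)
(mv 975 (cons (fin 1036 2 972)
(mv 1104 (cons (fin 1105 0 1037)
(mv 911 (cons (fin 1168 7 911)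
(fin 847 4 847)))))))))
(cons (mv 972 (cons (fin 973 3 972)
(mv 1036 (cons (fin 971 3 971)
(mv 1104 (cons (fin 1103 0 1036)
(fin 1105 0 1037)))))))
(mv 972 (cons (fin 973 3 972)
(mv 977 (cons (fin 976 2 973)
(mv 1041 (cons (fin 978 2 974)
(mv 1105 (cons (fin 1104 0 1037)
(fin 1106 0 1038))))))))))))))
(cons (mv 1037 (cons (cons (mv 972 (cons (fin 973 3 972)
(mv 971 (cons (fin 1036 3 971)
(mv 1101 (cons (fin 1100 1 1036)
(mv 1041 (cons (fin 1102 1 1037)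
(mv 1105 (cons (fin 1104 0 1037)
(fin 1106 0 1038)))))))))))
(mv 1100 (cons (fin 1101 1 1036)
(mv 1036 (cons (fin 1099 1 1035)
(mv 1104 (cons (fin 1103 0 1036)
(fin 1105 0 1037))))))))
(cons (mv 972 (cons (fin 973 3 972)
(mv 1036 (cons (fin 971 3 971)
(mv 1104 (cons (fin 1103 0 1036)
(fin 1105 0 1037)))))))
(cons (mv 972 (cons (fin 973 3 972)
(mv 1036 (cons (fin 971 3 971)
(mv 1100 (cons (fin 1099 1 1035)
(fin 1101 1 1036)))))))
(mv 972 (cons (fin 973 3 972)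
(mv 1101 (cons (fin 1100 1 1036)
(mv 1041 (cons (fin 1102 1 1037)
(mv 1105 (cons (fin 1104 0 1037)
(fin 1106 0 1038)))))))))))))
(mv 1037 (cons (cons (mv 972 (cons (fin 973 3 972)
(mv 971 (cons (fin 1036 3 971)
(mv 977 (cons (fin 976 2 973)
(mv 1041 (cons (fin 978 2 974)
(mv 1101 (cons (fin 1100 1 1036)
(fin 1102 1 1037)))))))))))
(mv 976 (cons (fin 977 2 973)
(mv 975 (cons (fin 1036 2 972)
(mv 1101 (cons (fin 1100 1 1036)
(mv 1102 (cons (fin 1041 1 1037)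
(mv 911 (cons (fin 847 5 846)
(mv 1166 (cons (fin 1103 5 910)
(fin 974 6 910))))))))))))))
(cons (mv 972 (cons (fin 973 3 972)
(mv 976 (cons (fin 977 2 973)
(mv 1036 (cons (fin 971 3 971)
(fin 975 2 972)))))))
(cons (mv 972 (cons (fin 973 3 972)
(mv 1036 (cons (fin 971 3 971)
(mv 1100 (cons (fin 1099 1 1035)
(fin 1101 1 1036)))))))
(mv 972 (cons (fin 973 3 972)
(mv 977 (cons (fin 976 2 973)
(mv 1041 (cons (fin 978 2 974)
(mv 1101 (cons (fin 1100 1 1036)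
(fin 1102 1 1037)))))))))))))))))
(mv 1038 (cons (cons (mv 1037 (cons (cons (mv 972 (cons (fin 973 3 972)
(mv 971 (cons (fin 1036 3 971)
(mv 976 (cons (fin 977 2 973)
(mv 1101 (cons (fin 1100 1 1036)
(mv 1041 (cons (fin 1102 1 1037)
(mv 1105 (cons (fin 1104 0 1037)
(fin 1106 0 1038)))))))))))))
(cons (mv 976 (cons (fin 977 2 973)
(mv 975 (cons (fin 1036 2 972)
(mv 1101 (cons (fin 1100 1 1036)
(mv 1041 (cons (fin 1102 1 1037)
(mv 1105 (cons (fin 1104 0 1037)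
(fin 1106 0 1038)))))))))))
(mv 972 (cons (fin 973 3 972)
(mv 971 (cons (fin 1036 3 971)
(mv 977 (cons (fin 976 2 973)
(mv 1041 (cons (fin 978 2 974)
(mv 1105 (cons (fin 1104 0 1037)
(fin 1106 0 1038)))))))))))))
(cons (cons (mv 972 (cons (fin 973 3 972)
(mv 971 (cons (fin 1036 3 971)
(mv 1101 (cons (fin 1100 1 1036)
(mv 1041 (cons (fin 1102 1 1037)
(mv 1105 (cons (fin 1104 0 1037)
(fin 1106 0 1038)))))))))))
(mv 972 (cons (fin 973 3 972)
(mv 971 (cons (fin 1036 3 971)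
(mv 977 (cons (fin 976 2 973)
(mv 1041 (cons (fin 978 2 974)
(mv 1101 (cons (fin 1100 1 1036)
(fin 1102 1 1037))))))))))))
(cons (mv 972 (cons (fin 973 3 972)
(mv 976 (cons (fin 977 2 973)
(mv 1101 (cons (fin 1100 1 1036)
(mv 1041 (cons (fin 1102 1 1037)
(mv 1105 (cons (fin 1104 0 1037)
(fin 1106 0 1038)))))))))))
(mv 972 (cons (fin 973 3 972)
(mv 976 (cons (fin 977 2 973)
(mv 1036 (cons (fin 971 3 971)
(fin 975 2 972)))))))))))
(cons (mv 974 (cons (cons (mv 973 (cons (fin 1041 3 973)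
(mv 972 (cons (fin 971 0 971)
(fin 975 0 972)))))
(mv 1103 (cons (cons (mv 910 (cons (fin 846 4 846)
(mv 1167 (cons (fin 975 7 910)
(fin 1231 7 974)))))
(mv 910 (cons (fin 846 4 846)
(mv 1102 (cons (mv 1101 (cons (fin 1100 2 1036)
(fin 1165 5 909)))
(mv 845 (cons (fin 909 7 845)
(mv 911 (cons (fin 847 6 846)
(mv 975 (cons (fin 1166 5 910)
(mv 912 (cons (fin 848 6 847)
(mv 913 (cons (fin 973 1 909)
(fin 914 1 910))))))))))))))))
(cons (mv 1167 (cons (fin 1231 7 974)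
(mv 975 (cons (cons (mv 912 (cons (fin 976 6 911)
(mv 848 (cons (fin 911 6 847)
(mv 973 (cons (fin 972 0 972)
(mv 1166 (cons (fin 1230 5 974)
(mv 1102 (cons (fin 909 7 909)
(mv 1100 (cons (fin 1101 2 1036)
(mv 1165 (cons (fin 1229 5 973)
(mv 1104 (cons (fin 1105 1 1101)
(fin 1164 2 1100)))))))))))))))))
(mv 972 (cons (fin 973 0 972)
(mv 1166 (cons (fin 1230 5 974)
(mv 911 (cons (fin 1102 5 910)
(mv 847 (cons (fin 783 5 782)
(fin 1104 4 847))))))))))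
(cons (mv 912 (cons (fin 976 6 911)
(mv 911 (cons (fin 848 6 847)
(mv 847 (cons (fin 783 5 782)
(fin 1102 5 846)))))))
(cons (mv 912 (cons (fin 976 6 911)
(mv 973 (cons (fin 972 0 972)
(mv 1166 (cons (fin 1230 5 974)
(mv 1102 (cons (fin 909 7 909)
(mv 1100 (cons (fin 1101 2 1036)
(mv 1165 (cons (fin 1229 5 973)
(mv 1104 (cons (fin 1105 1 1101)
(fin 1164 2 1100)))))))))))))))
(mv 912 (cons (fin 976 6 911)
(mv 911 (cons (fin 848 6 847)
(mv 847 (cons (fin 783 5 782)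
(fin 1104 4 847)))))))))))))
(mv 910 (cons (fin 846 4 846)
(mv 1167 (cons (fin 1231 7 974)
(fin 1102 4 910)))))))))
(cons (mv 1103 (cons (cons (mv 910 (cons (fin 846 4 846)
(mv 1167 (cons (fin 975 7 910)
(fin 1231 7 974)))))
(mv 910 (cons (fin 846 4 846)
(mv 1102 (cons (mv 1101 (cons (fin 1041 1 1037)
(fin 1100 2 1036)))
(mv 845 (cons (fin 909 7 845)
(mv 911 (cons (fin 847 6 846)
(mv 975 (cons (fin 1166 5 910)
(mv 912 (cons (fin 848 6 847)
(mv 913 (cons (fin 914 1 910)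
(mv 849 (cons (fin 850 2 846)
(mv 976 (cons (fin 1104 6 848)
(mv 785 (cons (fin 721 5 720)
(fin 977 5 784))))))))))))))))))))))
(cons (mv 1167 (cons (fin 1231 7 974)
(mv 1102 (cons (mv 1101 (cons (fin 1041 1 1037)
(fin 1100 2 1036)))
(mv 1166 (cons (mv 975 (cons (fin 911 5 910)
(fin 1230 5 974)))
(mv 1165 (cons (fin 1229 5 973)
(mv 1104 (cons (fin 1105 1 1101)
(fin 1164 2 1100)))))))))))
(mv 910 (cons (fin 846 4 846)
(mv 1167 (cons (fin 1231 7 974)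
(fin 1102 4 910))))))))
(mv 973 (cons (fin 1041 3 973)
(mv 971 (cons (fin 972 0 971)
(mv 1102 (cons (cons (mv 909 (cons (fin 1166 7 909)
(mv 845 (cons (fin 910 7 845)
(fin 781 4 781)))))
(mv 910 (cons (mv 1103 (cons (fin 846 4 846)
(fin 1167 4 910)))
(cons (mv 845 (cons (fin 909 7 845)
(mv 846 (cons (fin 781 7 781)
(mv 847 (cons (fin 783 6 782)
(fin 911 6 846)))))))
(mv 845 (cons (fin 909 7 845)
(mv 847 (cons (fin 911 6 846)
(mv 1101 (cons (fin 1165 5 909)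
(mv 1100 (cons (fin 1099 2 1035)
(fin 1103 2 1036)))))))))))))
(cons (mv 1103 (cons (mv 910 (cons (fin 846 4 846)
(fin 1167 4 910)))
(cons (mv 910 (cons (fin 846 4 846)
(mv 1101 (cons (fin 1100 2 1036)
(fin 1165 5 909)))))
(mv 1100 (cons (fin 1101 2 1036)
(mv 1166 (cons (mv 1165 (cons (fin 1229 5 973)
(mv 1104 (cons (fin 1105 1 1101)
(mv 1164 (cons (fin 1163 2 1099)
(fin 1167 2 1100)))))))
(cons (mv 1229 (cons (fin 1165 5 973)
(mv 1230 (cons (fin 1293 5 1037)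
(fin 1294 6 1038)))))
(mv 1230 (cons (fin 1294 6 1038)
(mv 1231 (cons (fin 1167 7 974)
(fin 1295 4 1038)))))))))))))
(mv 1166 (cons (fin 909 7 909)
(mv 1165 (cons (fin 1229 5 973)
(mv 1231 (cons (fin 1167 4 974)
(mv 1230 (cons (fin 1295 4 1038)
(mv 1103 (cons (fin 1294 6 1038)
(mv 1101 (cons (fin 1100 2 1036)
(mv 1104 (cons (fin 1164 1 1100)
(fin 1105 1 1101)))))))))))))))))))))))))
(mv 1037 (cons (cons (mv 972 (cons (fin 973 3 972)
(mv 976 (cons (fin 977 2 973)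
(mv 1036 (cons (fin 971 3 971)
(fin 975 2 972)))))))
(mv 972 (cons (fin 973 3 972)
(mv 1036 (cons (fin 971 3 971)
(mv 1100 (cons (fin 1099 1 1035)
(fin 1101 1 1036))))))))
(cons (mv 976 (cons (fin 977 2 973)
(mv 1036 (cons (fin 975 2 972)
(mv 1100 (cons (fin 1099 1 1035)
(fin 1101 1 1036)))))))
(mv 972 (cons (fin 973 3 972)
(mv 976 (cons (fin 977 2 973)
(mv 1100 (cons (fin 1101 1 1036)
(mv 1104 (cons (fin 1105 0 1037)
(mv 912 (cons (mv 1103 (cons (fin 848 5 847)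
(fin 1167 5 911)))
(cons (mv 847 (cons (fin 911 7 847)
(mv 848 (cons (fin 783 7 783)
(mv 849 (cons (fin 785 6 784)
(fin 913 6 848)))))))
(mv 911 (cons (fin 847 7 847)
(mv 913 (cons (fin 849 6 848)
(mv 1103 (cons (fin 1167 5 911)
(mv 910 (cons (cons (mv 846 (cons (fin 845 3 845)
(fin 975 7 846)))
(mv 909 (cons (mv 908 (cons (fin 971 1 907)
(fin 975 0 908)))
(cons (mv 845 (cons (fin 844 3 844)
(mv 974 (cons (fin 1102 7 845)
(mv 914 (cons (fin 975 1 910)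
(mv 851 (cons (fin 850 2 847)
(mv 915 (cons (fin 852 2 848)
(mv 979 (cons (fin 978 0 911)
(fin 980 0 912)))))))))))))
(mv 844 (cons (fin 845 3 844)
(mv 908 (cons (fin 843 3 843)
(fin 971 1 907)))))))))
(cons (mv 846 (cons (fin 845 3 845)
(fin 974 4 846)))
(mv 846 (cons (fin 975 7 846)
(fin 974 4 846))))))))))))))))))))))))))))
(cons (cons (mv 1037 (cons (cons (mv 976 (cons (fin 977 2 973)
(mv 975 (cons (fin 1036 2 972)
(mv 1101 (cons (fin 1100 1 1036)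
(mv 1041 (cons (fin 1102 1 1037)
(mv 1105 (cons (fin 1104 0 1037)
(fin 1106 0 1038)))))))))))
(mv 1100 (cons (fin 1101 1 1036)
(mv 1036 (cons (fin 1099 1 1035)
(mv 1104 (cons (fin 1103 0 1036)
(fin 1105 0 1037))))))))
(cons (mv 976 (cons (fin 977 2 973)
(mv 1036 (cons (fin 975 2 972)
(mv 1104 (cons (fin 1103 0 1036)
(fin 1105 0 1037)))))))
(cons (mv 976 (cons (fin 977 2 973)
(mv 975 (cons (fin 1036 2 972)
(mv 1101 (cons (fin 1100 1 1036)
(mv 1102 (cons (fin 1041 1 1037)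
(mv 911 (cons (fin 847 5 846)
(mv 1166 (cons (fin 1103 5 910)
(fin 974 6 910)))))))))))))
(mv 976 (cons (fin 977 2 973)
(mv 1101 (cons (fin 1100 1 1036)
(mv 1041 (cons (fin 1102 1 1037)
(mv 1105 (cons (fin 1104 0 1037)
(fin 1106 0 1038)))))))))))))
(mv 1037 (cons (cons (mv 972 (cons (fin 973 3 972)
(mv 971 (cons (fin 1036 3 971)
(mv 977 (cons (fin 976 2 973)
(mv 1041 (cons (fin 978 2 974)
(mv 1105 (cons (fin 1104 0 1037)
(fin 1106 0 1038)))))))))))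
(mv 972 (cons (fin 973 3 972)
(mv 1036 (cons (fin 971 3 971)
(mv 1104 (cons (fin 1103 0 1036)
(fin 1105 0 1037))))))))
(cons (mv 976 (cons (fin 977 2 973)
(mv 1036 (cons (fin 975 2 972)
(mv 1104 (cons (fin 1103 0 1036)
(fin 1105 0 1037)))))))
(cons (mv 972 (cons (fin 973 3 972)
(mv 976 (cons (fin 977 2 973)
(mv 1036 (cons (fin 971 3 971)
(fin 975 2 972)))))))
(mv 972 (cons (fin 973 3 972)
(mv 977 (cons (fin 976 2 973)
(mv 1041 (cons (fin 978 2 974)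
(mv 1105 (cons (fin 1104 0 1037)
(fin 1106 0 1038))))))))))))))
(cons (mv 1037 (cons (cons (mv 972 (cons (fin 973 3 972)
(mv 971 (cons (fin 1036 3 971)
(mv 977 (cons (fin 976 2 973)
(mv 1041 (cons (fin 978 2 974)
(mv 1101 (cons (fin 1100 1 1036)
(fin 1102 1 1037)))))))))))
(mv 976 (cons (fin 977 2 973)
(mv 975 (cons (fin 1036 2 972)
(mv 1101 (cons (fin 1100 1 1036)
(mv 1102 (cons (fin 1041 1 1037)
(mv 911 (cons (fin 847 5 846)
(mv 1166 (cons (fin 1103 5 910)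
(fin 974 6 910))))))))))))))
(cons (mv 972 (cons (fin 973 3 972)
(mv 976 (cons (fin 977 2 973)
(mv 1036 (cons (fin 971 3 971)
(fin 975 2 972)))))))
(cons (mv 972 (cons (fin 973 3 972)
(mv 1036 (cons (fin 971 3 971)
(mv 1100 (cons (fin 1099 1 1035)
(fin 1101 1 1036)))))))
(mv 972 (cons (fin 973 3 972)
(mv 977 (cons (fin 976 2 973)
(mv 1041 (cons (fin 978 2 974)
(mv 1101 (cons (fin 1100 1 1036)
(fin 1102 1 1037)))))))))))))
(mv 1037 (cons (cons (mv 972 (cons (fin 973 3 972)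
(mv 971 (cons (fin 1036 3 971)
(mv 1101 (cons (fin 1100 1 1036)
(mv 1041 (cons (fin 1102 1 1037)
(mv 1105 (cons (fin 1104 0 1037)
(fin 1106 0 1038)))))))))))
(mv 1100 (cons (fin 1101 1 1036)
(mv 1036 (cons (fin 1099 1 1035)
(mv 1104 (cons (fin 1103 0 1036)
(fin 1105 0 1037))))))))
(cons (mv 972 (cons (fin 973 3 972)
(mv 1036 (cons (fin 971 3 971)
(mv 1104 (cons (fin 1103 0 1036)
(fin 1105 0 1037)))))))
(cons (mv 972 (cons (fin 973 3 972)
(mv 1036 (cons (fin 971 3 971)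
(mv 1100 (cons (fin 1099 1 1035)
(fin 1101 1 1036)))))))
(mv 972 (cons (fin 973 3 972)
(mv 1101 (cons (fin 1100 1 1036)
(mv 1041 (cons (fin 1102 1 1037)
(mv 1105 (cons (fin 1104 0 1037)
(fin 1106 0 1038))))))))))))))))))
(cons (mv 1038 (cons (cons (cons (mv 1037 (cons (cons (mv 972 (cons (fin 973 3 972)
(mv 971 (cons (fin 1036 3 971)
(mv 976 (cons (fin 977 2 973)
(mv 1101 (cons (fin 1100 1 1036)
(mv 1041 (cons (fin 1102 1 1037)
(mv 1105 (cons (fin 1104 0 1037)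
(fin 1106 0 1038)))))))))))))
(cons (mv 976 (cons (fin 977 2 973)
(mv 975 (cons (fin 1036 2 972)
(mv 1100 (cons (fin 1101 1 1036)
(mv 1104 (cons (fin 1105 0 1037)
(mv 1168 (cons (fin 911 7 911)
(fin 1232 7 975)))))))))))
(mv 972 (cons (fin 973 3 972)
(mv 971 (cons (fin 1036 3 971)
(mv 977 (cons (fin 976 2 973)
(mv 1041 (cons (fin 978 2 974)
(mv 1105 (cons (fin 1104 0 1037)
(fin 1106 0 1038)))))))))))))
(cons (mv 972 (cons (fin 973 3 972)
(mv 971 (cons (fin 1036 3 971)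
(mv 1101 (cons (fin 1100 1 1036)
(mv 1041 (cons (fin 1102 1 1037)
(mv 1105 (cons (fin 1104 0 1037)
(fin 1106 0 1038)))))))))))
(cons (mv 972 (cons (fin 973 3 972)
(mv 971 (cons (fin 1036 3 971)
(mv 977 (cons (fin 976 2 973)
(mv 1041 (cons (fin 978 2 974)
(mv 1101 (cons (fin 1100 1 1036)
(fin 1102 1 1037)))))))))))
(mv 972 (cons (fin 973 3 972)
(mv 976 (cons (fin 977 2 973)
(mv 1101 (cons (fin 1100 1 1036)
(mv 1041 (cons (fin 1102 1 1037)
(mv 1105 (cons (fin 1104 0 1037)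
(fin 1106 0 1038)))))))))))))))
(mv 974 (cons (cons (mv 973 (cons (fin 1041 3 973)
(mv 972 (cons (fin 971 0 971)
(fin 975 0 972)))))
(mv 1103 (cons (cons (mv 910 (cons (fin 846 4 846)
(mv 1167 (cons (fin 975 7 910)
(fin 1231 7 974)))))
(mv 910 (cons (fin 846 4 846)
(mv 1102 (cons (mv 1101 (cons (fin 1100 2 1036)
(fin 1165 5 909)))
(mv 909 (cons (fin 845 7 845)
(mv 973 (cons (fin 1166 7 909)
(mv 972 (cons (fin 971 0 971)
(fin 975 0 972))))))))))))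
(cons (mv 1167 (cons (fin 1231 7 974)
(mv 975 (cons (cons (mv 912 (cons (fin 976 6 911)
(mv 848 (cons (fin 911 6 847)
(mv 973 (cons (fin 972 0 972)
(mv 1166 (cons (fin 1230 5 974)
(mv 1102 (cons (fin 909 7 909)
(mv 1100 (cons (fin 1101 2 1036)
(mv 1165 (cons (fin 1229 5 973)
(mv 1104 (cons (fin 1105 1 1101)
(fin 1164 2 1100)))))))))))))))))
(mv 912 (cons (fin 976 6 911)
(mv 911 (cons (fin 848 6 847)
(mv 1168 (cons (fin 1104 4 911)
(fin 1232 4 975))))))))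
(cons (mv 972 (cons (fin 973 0 972)
(mv 1166 (cons (fin 1230 5 974)
(mv 911 (cons (fin 1102 5 910)
(mv 1168 (cons (fin 1104 4 911)
(fin 1232 4 975)))))))))
(cons (mv 912 (cons (fin 976 6 911)
(mv 848 (cons (fin 911 6 847)
(mv 973 (cons (fin 972 0 972)
(mv 1166 (cons (fin 1230 5 974)
(mv 1102 (cons (fin 909 7 909)
(mv 1100 (cons (fin 1101 2 1036)
(mv 1165 (cons (fin 1229 5 973)
(mv 1164 (cons (fin 1099 3 1099)
(fin 1163 2 1099)))))))))))))))))
(mv 912 (cons (fin 976 6 911)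
(mv 973 (cons (fin 972 0 972)
(mv 1166 (cons (fin 1230 5 974)
(mv 1102 (cons (fin 909 7 909)
(mv 1100 (cons (fin 1101 2 1036)
(mv 1165 (cons (fin 1229 5 973)
(mv 1104 (cons (fin 1105 1 1101)
(fin 1164 2 1100)))))))))))))))))))))
(mv 910 (cons (fin 846 4 846)
(mv 1167 (cons (fin 1231 7 974)
(fin 1102 4 910)))))))))
(cons (mv 1103 (cons (cons (mv 910 (cons (fin 846 4 846)
(mv 1167 (cons (fin 975 7 910)
(fin 1231 7 974)))))
(mv 910 (cons (fin 846 4 846)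
(mv 1102 (cons (mv 1101 (cons (fin 1041 1 1037)
(fin 1100 2 1036)))
(cons (mv 909 (cons (fin 845 7 845)
(mv 975 (cons (mv 1166 (cons (fin 911 5 910)
(fin 1230 6 974)))
(cons (mv 908 (cons (fin 907 0 907)
(mv 976 (cons (fin 977 3 909)
(fin 911 0 908)))))
(mv 907 (cons (fin 908 0 907)
(mv 977 (cons (fin 976 3 909)
(mv 1041 (cons (fin 978 2 974)
(mv 1105 (cons (fin 1106 0 1038)
(mv 1166 (cons (fin 1230 6 974)
(mv 1165 (cons (fin 1104 1 1101)
(fin 1229 5 973))))))))))))))))))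
(mv 1101 (cons (fin 1100 2 1036)
(fin 1165 5 909)))))))))
(cons (mv 1167 (cons (fin 1231 7 974)
(mv 975 (cons (cons (mv 912 (cons (fin 976 6 911)
(mv 911 (cons (fin 848 6 847)
(mv 1166 (cons (fin 1102 5 910)
(fin 1230 5 974)))))))
(mv 912 (cons (fin 976 6 911)
(mv 911 (cons (fin 848 6 847)
(mv 1168 (cons (fin 1104 4 911)
(fin 1232 4 975))))))))
(cons (mv 1166 (cons (fin 1230 5 974)
(mv 911 (cons (fin 1102 5 910)
(mv 1168 (cons (fin 1104 4 911)
(fin 1232 4 975)))))))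
(mv 976 (cons (fin 912 6 911)
(mv 977 (cons (fin 978 1 974)
(mv 913 (cons (fin 914 2 910)
(mv 1168 (cons (fin 1104 6 912)
(fin 1232 4 975))))))))))))))
(mv 910 (cons (fin 846 4 846)
(mv 1167 (cons (fin 1231 7 974)
(fin 1102 4 910))))))))
(mv 973 (cons (fin 1041 3 973)
(mv 972 (cons (fin 971 0 971)
(mv 1102 (cons (cons (mv 909 (cons (fin 1166 7 909)
(mv 845 (cons (fin 910 7 845)
(fin 781 4 781)))))
(mv 1103 (cons (mv 910 (cons (fin 846 4 846)
(fin 1167 4 910)))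
(cons (mv 910 (cons (fin 846 4 846)
(mv 1101 (cons (fin 1100 2 1036)
(fin 1165 5 909)))))
(mv 1100 (cons (fin 1101 2 1036)
(mv 1166 (cons (mv 1165 (cons (fin 1229 5 973)
(mv 1104 (cons (fin 1105 1 1101)
(mv 1164 (cons (fin 1163 2 1099)
(fin 1167 2 1100)))))))
(cons (mv 1229 (cons (fin 1165 5 973)
(mv 1230 (cons (fin 1293 5 1037)
(fin 1294 6 1038)))))
(mv 1230 (cons (fin 1294 6 1038)
(mv 1231 (cons (fin 1167 7 974)
(fin 1295 4 1038))))))))))))))
(cons (mv 1101 (cons (mv 1100 (cons (fin 1099 2 1035)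
(fin 1103 2 1036)))
(cons (mv 910 (cons (fin 1165 5 909)
(mv 1103 (cons (fin 846 4 846)
(fin 1167 4 910)))))
(mv 1100 (cons (fin 1099 2 1035)
(mv 1165 (cons (fin 910 5 909)
(mv 1036 (cons (fin 908 4 908)
(mv 1164 (cons (fin 909 6 908)
(fin 1229 4 972))))))))))))
(mv 1166 (cons (fin 909 7 909)
(mv 1165 (cons (fin 1229 5 973)
(mv 1231 (cons (fin 1167 4 974)
(mv 1230 (cons (fin 1295 4 1038)
(mv 1103 (cons (fin 1294 6 1038)
(mv 1101 (cons (fin 1100 2 1036)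
(mv 1104 (cons (fin 1164 1 1100)
(fin 1105 1 1101))))))))))))))))))))))))))
(cons (mv 1037 (cons (cons (mv 972 (cons (fin 973 3 972)
(mv 976 (cons (fin 977 2 973)
(mv 1036 (cons (fin 971 3 971)
(fin 975 2 972)))))))
(mv 972 (cons (fin 973 3 972)
(mv 1036 (cons (fin 971 3 971)
(mv 1100 (cons (fin 1099 1 1035)
(fin 1101 1 1036))))))))
(cons (mv 976 (cons (fin 977 2 973)
(mv 975 (cons (fin 1036 2 972)
(mv 1100 (cons (fin 1101 1 1036)
(mv 1104 (cons (fin 1105 0 1037)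
(mv 1168 (cons (fin 911 7 911)
(fin 1232 7 975)))))))))))
(mv 972 (cons (fin 973 3 972)
(mv 976 (cons (fin 977 2 973)
(mv 1100 (cons (fin 1101 1 1036)
(mv 1104 (cons (fin 1105 0 1037)
(mv 1168 (cons (mv 975 (cons (fin 911 7 911)
(fin 1232 7 975)))
(mv 1167 (cons (fin 1231 5 975)
(mv 1103 (cons (fin 912 5 911)
(mv 1169 (cons (fin 1233 4 976)
(mv 1170 (cons (fin 1102 3 1102)
(fin 1171 3 1103))))))))))))))))))))))
(mv 1037 (cons (cons (mv 976 (cons (fin 977 2 973)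
(mv 975 (cons (fin 1036 2 972)
(mv 1100 (cons (fin 1101 1 1036)
(mv 1104 (cons (fin 1105 0 1037)
(mv 1168 (cons (fin 911 7 911)
(fin 1232 7 975)))))))))))
(mv 1100 (cons (fin 1101 1 1036)
(mv 1036 (cons (fin 1099 1 1035)
(mv 1104 (cons (fin 1103 0 1036)
(fin 1105 0 1037))))))))
(cons (mv 976 (cons (fin 977 2 973)
(mv 975 (cons (fin 1036 2 972)
(mv 1104 (cons (fin 1105 0 1037)
(mv 1168 (cons (fin 911 7 911)
(fin 1232 7 975)))))))))
(cons (mv 976 (cons (fin 977 2 973)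
(mv 975 (cons (fin 1036 2 972)
(mv 1101 (cons (fin 1100 1 1036)
(mv 1102 (cons (fin 1041 1 1037)
(mv 1166 (cons (fin 1230 6 974)
(mv 911 (cons (fin 1103 5 910)
(fin 974 6 910)))))))))))))
(mv 976 (cons (fin 977 2 973)
(mv 1101 (cons (fin 1100 1 1036)
(mv 1041 (cons (fin 1102 1 1037)
(mv 1105 (cons (fin 1104 0 1037)
(fin 1106 0 1038)))))))))))))))
(cons (cons (mv 1037 (cons (cons (mv 972 (cons (fin 973 3 972)
(mv 971 (cons (fin 1036 3 971)
(mv 977 (cons (fin 976 2 973)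
(mv 1041 (cons (fin 978 2 974)
(mv 1105 (cons (fin 1104 0 1037)
(fin 1106 0 1038)))))))))))
(mv 972 (cons (fin 973 3 972)
(mv 1036 (cons (fin 971 3 971)
(mv 1104 (cons (fin 1103 0 1036)
(fin 1105 0 1037))))))))
(cons (mv 976 (cons (fin 977 2 973)
(mv 975 (cons (fin 1036 2 972)
(mv 1104 (cons (fin 1105 0 1037)
(mv 1168 (cons (fin 911 7 911)
(fin 1232 7 975)))))))))
(cons (mv 972 (cons (fin 973 3 972)
(mv 976 (cons (fin 977 2 973)
(mv 1036 (cons (fin 971 3 971)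
(fin 975 2 972)))))))
(mv 972 (cons (fin 973 3 972)
(mv 977 (cons (fin 976 2 973)
(mv 1041 (cons (fin 978 2 974)
(mv 1105 (cons (fin 1104 0 1037)
(fin 1106 0 1038)))))))))))))
(mv 1037 (cons (cons (mv 972 (cons (fin 973 3 972)
(mv 971 (cons (fin 1036 3 971)
(mv 1101 (cons (fin 1100 1 1036)
(mv 1041 (cons (fin 1102 1 1037)
(mv 1105 (cons (fin 1104 0 1037)
(fin 1106 0 1038)))))))))))
(mv 1100 (cons (fin 1101 1 1036)
(mv 1036 (cons (fin 1099 1 1035)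
(mv 1104 (cons (fin 1103 0 1036)
(fin 1105 0 1037))))))))
(cons (mv 972 (cons (fin 973 3 972)
(mv 1036 (cons (fin 971 3 971)
(mv 1104 (cons (fin 1103 0 1036)
(fin 1105 0 1037)))))))
(cons (mv 972 (cons (fin 973 3 972)
(mv 1036 (cons (fin 971 3 971)
(mv 1100 (cons (fin 1099 1 1035)
(fin 1101 1 1036)))))))
(mv 972 (cons (fin 973 3 972)
(mv 1101 (cons (fin 1100 1 1036)
(mv 1041 (cons (fin 1102 1 1037)
(mv 1105 (cons (fin 1104 0 1037)
(fin 1106 0 1038))))))))))))))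
(cons (mv 1037 (cons (cons (mv 972 (cons (fin 973 3 972)
(mv 971 (cons (fin 1036 3 971)
(mv 977 (cons (fin 976 2 973)
(mv 1041 (cons (fin 978 2 974)
(mv 1101 (cons (fin 1100 1 1036)
(fin 1102 1 1037)))))))))))
(mv 976 (cons (fin 977 2 973)
(mv 975 (cons (fin 1036 2 972)
(mv 1101 (cons (fin 1100 1 1036)
(mv 1102 (cons (fin 1041 1 1037)
(mv 1166 (cons (fin 1230 6 974)
(mv 911 (cons (fin 1103 5 910)
(fin 974 6 910))))))))))))))
(cons (mv 972 (cons (fin 973 3 972)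
(mv 976 (cons (fin 977 2 973)
(mv 1036 (cons (fin 971 3 971)
(fin 975 2 972)))))))
(cons (mv 972 (cons (fin 973 3 972)
(mv 1036 (cons (fin 971 3 971)
(mv 1100 (cons (fin 1099 1 1035)
(fin 1101 1 1036)))))))
(mv 972 (cons (fin 973 3 972)
(mv 977 (cons (fin 976 2 973)
(mv 1041 (cons (fin 978 2 974)
(mv 1101 (cons (fin 1100 1 1036)
(fin 1102 1 1037)))))))))))))
(mv 1037 (cons (cons (mv 972 (cons (fin 973 3 972)
(mv 976 (cons (fin 977 2 973)
(mv 1101 (cons (fin 1100 1 1036)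
(mv 1041 (cons (fin 1102 1 1037)
(mv 1105 (cons (fin 1104 0 1037)
(fin 1106 0 1038)))))))))))
(cons (mv 976 (cons (fin 977 2 973)
(mv 1101 (cons (fin 1100 1 1036)
(mv 1041 (cons (fin 1102 1 1037)
(mv 1105 (cons (fin 1104 0 1037)
(fin 1106 0 1038)))))))))
(mv 972 (cons (fin 973 3 972)
(mv 977 (cons (fin 976 2 973)
(mv 1041 (cons (fin 978 2 974)
(mv 1105 (cons (fin 1104 0 1037)
(fin 1106 0 1038)))))))))))
(cons (mv 972 (cons (fin 973 3 972)
(mv 1101 (cons (fin 1100 1 1036)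
(mv 1041 (cons (fin 1102 1 1037)
(mv 1105 (cons (fin 1104 0 1037)
(fin 1106 0 1038)))))))))
(cons (mv 972 (cons (fin 973 3 972)
(mv 977 (cons (fin 976 2 973)
(mv 1041 (cons (fin 978 2 974)
(mv 1101 (cons (fin 1100 1 1036)
(fin 1102 1 1037)))))))))
(mv 972 (cons (fin 973 3 972)
(mv 976 (cons (fin 977 2 973)
(mv 1100 (cons (fin 1101 1 1036)
(mv 1104 (cons (fin 1105 0 1037)
(mv 1168 (cons (mv 975 (cons (fin 911 7 911)
(fin 1232 7 975)))
(mv 1167 (cons (fin 1231 5 975)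
(mv 1103 (cons (fin 912 5 911)
(mv 1169 (cons (fin 1233 4 976)
(mv 1170 (cons (fin 1102 3 1102)
(fin 1171 3 1103)))))))))))))))))))))))))))
(mv 1038 (cons (cons (mv 1037 (cons (cons (mv 972 (cons (fin 973 3 972)
(mv 971 (cons (fin 1036 3 971)
(mv 976 (cons (fin 977 2 973)
(mv 1101 (cons (fin 1100 1 1036)
(mv 1041 (cons (fin 1102 1 1037)
(mv 1105 (cons (fin 1104 0 1037)
(fin 1106 0 1038)))))))))))))
(cons (mv 976 (cons (fin 977 2 973)
(mv 975 (cons (fin 1036 2 972)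
(mv 1100 (cons (fin 1101 1 1036)
(mv 1104 (cons (fin 1105 0 1037)
(mv 911 (cons (fin 1168 7 911)
(fin 847 4 847)))))))))))
(mv 972 (cons (fin 973 3 972)
(mv 971 (cons (fin 1036 3 971)
(mv 977 (cons (fin 976 2 973)
(mv 1041 (cons (fin 978 2 974)
(mv 1105 (cons (fin 1104 0 1037)
(fin 1106 0 1038)))))))))))))
(cons (mv 972 (cons (fin 973 3 972)
(mv 971 (cons (fin 1036 3 971)
(mv 977 (cons (fin 976 2 973)
(mv 1041 (cons (fin 978 2 974)
(mv 1101 (cons (fin 1100 1 1036)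
(fin 1102 1 1037)))))))))))
(cons (mv 972 (cons (fin 973 3 972)
(mv 971 (cons (fin 1036 3 971)
(mv 1101 (cons (fin 1100 1 1036)
(mv 1041 (cons (fin 1102 1 1037)
(mv 1105 (cons (fin 1104 0 1037)
(fin 1106 0 1038)))))))))))
(mv 972 (cons (fin 973 3 972)
(mv 976 (cons (fin 977 2 973)
(mv 1101 (cons (fin 1100 1 1036)
(mv 1041 (cons (fin 1102 1 1037)
(mv 1105 (cons (fin 1104 0 1037)
(fin 1106 0 1038)))))))))))))))
(cons (mv 974 (cons (cons (mv 973 (cons (fin 1041 3 973)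
(mv 972 (cons (fin 971 0 971)
(fin 975 0 972)))))
(mv 1103 (cons (cons (mv 910 (cons (fin 846 4 846)
(mv 1167 (cons (fin 975 7 910)
(fin 1231 7 974)))))
(mv 910 (cons (fin 846 4 846)
(mv 1102 (cons (mv 1101 (cons (fin 1100 2 1036)
(fin 1165 5 909)))
(mv 845 (cons (fin 909 7 845)
(mv 911 (cons (fin 847 6 846)
(mv 975 (cons (fin 1166 5 910)
(mv 973 (cons (fin 972 0 972)
(mv 912 (cons (fin 913 1 909)
(mv 1104 (cons (fin 1168 4 911)
(mv 1105 (cons (fin 1106 3 1038)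
(mv 1169 (cons (fin 1170 0 1102)
(fin 976 4 912))))))))))))))))))))))
(cons (mv 1167 (cons (fin 1231 7 974)
(mv 975 (cons (cons (mv 912 (cons (fin 976 6 911)
(mv 972 (cons (fin 973 0 972)
(mv 1166 (cons (fin 1230 5 974)
(mv 911 (cons (fin 1102 5 910)
(mv 847 (cons (fin 783 5 782)
(fin 1104 4 847)))))))))))
(cons (mv 912 (cons (fin 976 6 911)
(mv 972 (cons (fin 973 0 972)
(mv 1168 (cons (fin 1232 4 975)
(mv 911 (cons (fin 1104 4 911)
(mv 847 (cons (fin 783 5 782)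
(fin 1102 5 846)))))))))))
(mv 972 (cons (fin 973 0 972)
(mv 1166 (cons (fin 1230 5 974)
(mv 911 (cons (fin 1102 5 910)
(mv 847 (cons (fin 783 5 782)
(fin 1104 4 847)))))))))))
(cons (cons (mv 912 (cons (fin 976 6 911)
(mv 1166 (cons (fin 1230 5 974)
(mv 911 (cons (fin 1102 5 910)
(mv 847 (cons (fin 783 5 782)
(fin 1104 4 847)))))))))
(mv 912 (cons (fin 976 6 911)
(mv 973 (cons (fin 972 0 972)
(mv 1166 (cons (fin 1230 5 974)
(mv 1102 (cons (fin 909 7 909)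
(mv 1100 (cons (fin 1101 2 1036)
(mv 1165 (cons (fin 1229 5 973)
(mv 1104 (cons (fin 1105 1 1101)
(fin 1164 2 1100))))))))))))))))
(cons (mv 912 (cons (fin 976 6 911)
(mv 972 (cons (fin 973 0 972)
(mv 1166 (cons (fin 1230 5 974)
(mv 1168 (cons (fin 1232 4 975)
(mv 1104 (cons (fin 911 4 911)
(mv 1105 (cons (fin 1106 3 1038)
(fin 1165 2 1101)))))))))))))
(mv 912 (cons (fin 976 6 911)
(mv 972 (cons (fin 973 0 972)
(mv 1166 (cons (fin 1230 5 974)
(mv 1102 (cons (fin 911 5 910)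
(mv 1100 (cons (fin 1101 2 1036)
(mv 1165 (cons (fin 1229 5 973)
(mv 1164 (cons (fin 1099 3 1099)
(fin 1163 2 1099)))))))))))))))))))))
(mv 910 (cons (fin 846 4 846)
(mv 1167 (cons (fin 1231 7 974)
(fin 1102 4 910)))))))))
(cons (mv 1103 (cons (cons (mv 910 (cons (fin 846 4 846)
(mv 1167 (cons (fin 975 7 910)
(fin 1231 7 974)))))
(mv 910 (cons (fin 846 4 846)
(mv 1102 (cons (mv 1101 (cons (fin 1041 1 1037)
(fin 1100 2 1036)))
(cons (mv 845 (cons (fin 909 7 845)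
(mv 911 (cons (fin 847 6 846)
(mv 975 (cons (fin 1166 5 910)
(mv 1104 (cons (fin 1168 4 911)
(mv 1105 (cons (fin 1106 3 1038)
(mv 1169 (cons (fin 1170 0 1102)
(mv 912 (cons (fin 976 4 912)
(mv 913 (cons (fin 914 1 910)
(mv 849 (cons (fin 850 2 846)
(mv 977 (cons (fin 978 0 910)
(fin 1041 5 848)))))))))))))))))))))
(mv 1101 (cons (fin 1100 2 1036)
(fin 1165 5 909)))))))))
(cons (mv 1167 (cons (fin 1231 7 974)
(mv 975 (cons (cons (mv 912 (cons (fin 976 6 911)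
(mv 1166 (cons (fin 1230 5 974)
(mv 911 (cons (fin 1102 5 910)
(mv 847 (cons (fin 783 5 782)
(fin 1104 4 847)))))))))
(cons (mv 912 (cons (fin 976 6 911)
(mv 1168 (cons (fin 1232 4 975)
(mv 911 (cons (fin 1104 4 911)
(mv 847 (cons (fin 783 5 782)
(fin 1102 5 846)))))))))
(mv 1166 (cons (fin 1230 5 974)
(mv 911 (cons (fin 1102 5 910)
(mv 847 (cons (fin 783 5 782)
(fin 1104 4 847)))))))))
(cons (mv 912 (cons (fin 976 6 911)
(mv 1166 (cons (fin 1230 5 974)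
(mv 1168 (cons (fin 1232 4 975)
(mv 1104 (cons (fin 911 4 911)
(mv 1105 (cons (fin 1106 3 1038)
(fin 1165 2 1101)))))))))))
(cons (mv 976 (cons (fin 912 6 911)
(mv 977 (cons (fin 978 1 974)
(mv 913 (cons (fin 914 2 910)
(mv 1168 (cons (fin 1104 6 912)
(fin 1232 4 975)))))))))
(mv 912 (cons (fin 976 6 911)
(mv 1166 (cons (fin 1230 5 974)
(mv 1102 (cons (fin 911 5 910)
(mv 1101 (cons (fin 1041 1 1037)
(fin 1100 2 1036)))))))))))))))
(mv 910 (cons (fin 846 4 846)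
(mv 1167 (cons (fin 1231 7 974)
(fin 1102 4 910))))))))
(mv 973 (cons (fin 1041 3 973)
(mv 971 (cons (fin 972 0 971)
(mv 1102 (cons (cons (mv 909 (cons (fin 1166 7 909)
(mv 845 (cons (fin 910 7 845)
(fin 781 4 781)))))
(mv 910 (cons (mv 1103 (cons (fin 846 4 846)
(fin 1167 4 910)))
(cons (mv 845 (cons (fin 909 7 845)
(mv 846 (cons (fin 781 7 781)
(mv 847 (cons (fin 783 6 782)
(fin 911 6 846)))))))
(mv 845 (cons (fin 909 7 845)
(mv 847 (cons (fin 911 6 846)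
(mv 1101 (cons (fin 1165 5 909)
(mv 1100 (cons (fin 1099 2 1035)
(fin 1103 2 1036)))))))))))))
(cons (mv 1103 (cons (mv 910 (cons (fin 846 4 846)
(fin 1167 4 910)))
(cons (mv 910 (cons (fin 846 4 846)
(mv 1101 (cons (fin 1100 2 1036)
(fin 1165 5 909)))))
(mv 1100 (cons (fin 1101 2 1036)
(mv 1166 (cons (mv 1165 (cons (fin 1229 5 973)
(mv 1104 (cons (fin 1105 1 1101)
(mv 1164 (cons (fin 1163 2 1099)
(fin 1167 2 1100)))))))
(cons (mv 1229 (cons (fin 1165 5 973)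
(mv 1230 (cons (fin 1293 5 1037)
(fin 1294 6 1038)))))
(mv 1230 (cons (fin 1294 6 1038)
(mv 1231 (cons (fin 1167 7 974)
(fin 1295 4 1038)))))))))))))
(mv 1166 (cons (fin 909 7 909)
(mv 1165 (cons (fin 1229 5 973)
(mv 1231 (cons (fin 1167 4 974)
(mv 1230 (cons (fin 1295 4 1038)
(mv 1103 (cons (fin 1294 6 1038)
(mv 1101 (cons (fin 1100 2 1036)
(mv 1104 (cons (fin 1164 1 1100)
(fin 1105 1 1101)))))))))))))))))))))))))
(mv 1037 (cons (cons (mv 972 (cons (fin 973 3 972)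
(mv 976 (cons (fin 977 2 973)
(mv 1036 (cons (fin 971 3 971)
(fin 975 2 972)))))))
(mv 972 (cons (fin 973 3 972)
(mv 1036 (cons (fin 971 3 971)
(mv 1100 (cons (fin 1099 1 1035)
(fin 1101 1 1036))))))))
(cons (mv 976 (cons (fin 977 2 973)
(mv 975 (cons (fin 1036 2 972)
(mv 1100 (cons (fin 1101 1 1036)
(mv 1104 (cons (fin 1105 0 1037)
(mv 911 (cons (fin 1168 7 911)
(fin 847 4 847)))))))))))
(mv 972 (cons (fin 973 3 972)
(mv 976 (cons (fin 977 2 973)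
(mv 1100 (cons (fin 1101 1 1036)
(mv 1104 (cons (fin 1105 0 1037)
(mv 1168 (cons (mv 975 (cons (fin 911 7 911)
(fin 1232 7 975)))
(mv 1167 (cons (fin 1231 5 975)
(mv 1103 (cons (fin 912 5 911)
(mv 1169 (cons (fin 1233 4 976)
(mv 1170 (cons (fin 1102 3 1102)
(fin 1171 3 1103))))))))))))))))))))))))
(cons (cons (mv 1037 (cons (cons (mv 976 (cons (fin 977 2 973)
(mv 975 (cons (fin 1036 2 972)
(mv 1100 (cons (fin 1101 1 1036)
(mv 1104 (cons (fin 1105 0 1037)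
(mv 911 (cons (fin 1168 7 911)
(fin 847 4 847)))))))))))
(mv 976 (cons (fin 977 2 973)
(mv 975 (cons (fin 1036 2 972)
(mv 1101 (cons (fin 1100 1 1036)
(mv 1102 (cons (fin 1041 1 1037)
(mv 911 (cons (fin 847 5 846)
(mv 1166 (cons (fin 1103 5 910)
(fin 974 6 910))))))))))))))
(cons (mv 976 (cons (fin 977 2 973)
(mv 975 (cons (fin 1036 2 972)
(mv 1104 (cons (fin 1105 0 1037)
(mv 911 (cons (fin 1168 7 911)
(fin 847 4 847)))))))))
(cons (mv 1100 (cons (fin 1101 1 1036)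
(mv 1036 (cons (fin 1099 1 1035)
(mv 1104 (cons (fin 1103 0 1036)
(fin 1105 0 1037)))))))
(mv 976 (cons (fin 977 2 973)
(mv 1101 (cons (fin 1100 1 1036)
(mv 1041 (cons (fin 1102 1 1037)
(mv 1105 (cons (fin 1104 0 1037)
(fin 1106 0 1038)))))))))))))
(mv 1037 (cons (cons (mv 972 (cons (fin 973 3 972)
(mv 971 (cons (fin 1036 3 971)
(mv 977 (cons (fin 976 2 973)
(mv 1041 (cons (fin 978 2 974)
(mv 1105 (cons (fin 1104 0 1037)
(fin 1106 0 1038)))))))))))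
(mv 972 (cons (fin 973 3 972)
(mv 976 (cons (fin 977 2 973)
(mv 1036 (cons (fin 971 3 971)
(fin 975 2 972))))))))
(cons (mv 976 (cons (fin 977 2 973)
(mv 975 (cons (fin 1036 2 972)
(mv 1104 (cons (fin 1105 0 1037)
(mv 911 (cons (fin 1168 7 911)
(fin 847 4 847)))))))))
(cons (mv 972 (cons (fin 973 3 972)
(mv 1036 (cons (fin 971 3 971)
(mv 1104 (cons (fin 1103 0 1036)
(fin 1105 0 1037)))))))
(mv 972 (cons (fin 973 3 972)
(mv 977 (cons (fin 976 2 973)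
(mv 1041 (cons (fin 978 2 974)
(mv 1105 (cons (fin 1104 0 1037)
(fin 1106 0 1038))))))))))))))
(cons (mv 1037 (cons (cons (mv 972 (cons (fin 973 3 972)
(mv 971 (cons (fin 1036 3 971)
(mv 1101 (cons (fin 1100 1 1036)
(mv 1041 (cons (fin 1102 1 1037)
(mv 1105 (cons (fin 1104 0 1037)
(fin 1106 0 1038)))))))))))
(mv 1100 (cons (fin 1101 1 1036)
(mv 1036 (cons (fin 1099 1 1035)
(mv 1104 (cons (fin 1103 0 1036)
(fin 1105 0 1037))))))))
(cons (mv 972 (cons (fin 973 3 972)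
(mv 1036 (cons (fin 971 3 971)
(mv 1104 (cons (fin 1103 0 1036)
(fin 1105 0 1037)))))))
(cons (mv 972 (cons (fin 973 3 972)
(mv 1036 (cons (fin 971 3 971)
(mv 1100 (cons (fin 1099 1 1035)
(fin 1101 1 1036)))))))
(mv 972 (cons (fin 973 3 972)
(mv 1101 (cons (fin 1100 1 1036)
(mv 1041 (cons (fin 1102 1 1037)
(mv 1105 (cons (fin 1104 0 1037)
(fin 1106 0 1038)))))))))))))
(mv 1037 (cons (cons (mv 972 (cons (fin 973 3 972)
(mv 971 (cons (fin 1036 3 971)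
(mv 977 (cons (fin 976 2 973)
(mv 1041 (cons (fin 978 2 974)
(mv 1101 (cons (fin 1100 1 1036)
(fin 1102 1 1037)))))))))))
(mv 976 (cons (fin 977 2 973)
(mv 975 (cons (fin 1036 2 972)
(mv 1101 (cons (fin 1100 1 1036)
(mv 1102 (cons (fin 1041 1 1037)
(mv 911 (cons (fin 847 5 846)
(mv 1166 (cons (fin 1103 5 910)
(fin 974 6 910))))))))))))))
(cons (mv 972 (cons (fin 973 3 972)
(mv 976 (cons (fin 977 2 973)
(mv 1036 (cons (fin 971 3 971)
(fin 975 2 972)))))))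
(cons (mv 972 (cons (fin 973 3 972)
(mv 1036 (cons (fin 971 3 971)
(mv 1100 (cons (fin 1099 1 1035)
(fin 1101 1 1036)))))))
(mv 972 (cons (fin 973 3 972)
(mv 977 (cons (fin 976 2 973)
(mv 1041 (cons (fin 978 2 974)
(mv 1101 (cons (fin 1100 1 1036)
(fin 1102 1 1037))))))))))))))))))))
(cons (cons (cons (mv 1038 (cons (cons (mv 1037 (cons (cons (mv 972 (cons (fin 973 3 972)
(mv 971 (cons (fin 1036 3 971)
(mv 976 (cons (fin 977 2 973)
(mv 1101 (cons (fin 1100 1 1036)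
(mv 1041 (cons (fin 1102 1 1037)
(mv 1105 (cons (fin 1104 0 1037)
(fin 1106 0 1038)))))))))))))
(cons (mv 976 (cons (fin 977 2 973)
(mv 975 (cons (fin 1036 2 972)
(mv 1100 (cons (fin 1101 1 1036)
(mv 1104 (cons (fin 1105 0 1037)
(mv 911 (cons (fin 1168 7 911)
(fin 847 4 847)))))))))))
(mv 972 (cons (fin 973 3 972)
(mv 971 (cons (fin 1036 3 971)
(mv 977 (cons (fin 976 2 973)
(mv 1041 (cons (fin 978 2 974)
(mv 1105 (cons (fin 1104 0 1037)
(fin 1106 0 1038)))))))))))))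
(cons (mv 972 (cons (fin 973 3 972)
(mv 971 (cons (fin 1036 3 971)
(mv 977 (cons (fin 976 2 973)
(mv 1041 (cons (fin 978 2 974)
(mv 1101 (cons (fin 1100 1 1036)
(fin 1102 1 1037)))))))))))
(cons (mv 972 (cons (fin 973 3 972)
(mv 971 (cons (fin 1036 3 971)
(mv 1101 (cons (fin 1100 1 1036)
(mv 1041 (cons (fin 1102 1 1037)
(mv 1105 (cons (fin 1104 0 1037)
(fin 1106 0 1038)))))))))))
(mv 972 (cons (fin 973 3 972)
(mv 976 (cons (fin 977 2 973)
(mv 1101 (cons (fin 1100 1 1036)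
(mv 1041 (cons (fin 1102 1 1037)
(mv 1105 (cons (fin 1104 0 1037)
(fin 1106 0 1038)))))))))))))))
(cons (mv 1102 (cons (cons (mv 1101 (cons (fin 1041 1 1037)
(mv 1100 (cons (fin 1099 2 1035)
(fin 1103 2 1036)))))
(mv 975 (cons (cons (mv 911 (cons (fin 847 5 846)
(mv 1166 (cons (fin 1103 5 910)
(fin 974 6 910)))))
(mv 1166 (cons (fin 1230 6 974)
(mv 974 (cons (mv 973 (cons (fin 972 0 972)
(fin 909 7 909)))
(mv 1165 (cons (fin 1229 5 973)
(mv 910 (cons (fin 1101 5 909)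
(mv 846 (cons (fin 782 4 782)
(fin 1103 4 846))))))))))))
(cons (mv 911 (cons (fin 847 5 846)
(mv 1103 (cons (cons (mv 846 (cons (fin 910 7 846)
(mv 912 (cons (fin 848 6 847)
(mv 976 (cons (fin 1167 6 911)
(mv 977 (cons (fin 978 1 974)
(mv 1100 (cons (fin 1101 2 1036)
(mv 1104 (cons (fin 1168 7 911)
(mv 1105 (cons (fin 1106 3 1038)
(fin 1169 4 912)))))))))))))))
(cons (mv 912 (cons (fin 848 6 847)
(mv 976 (cons (fin 1167 6 911)
(mv 977 (cons (fin 978 1 974)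
(mv 1100 (cons (fin 1101 2 1036)
(mv 1104 (cons (fin 1168 7 911)
(mv 1105 (cons (fin 1106 3 1038)
(fin 1169 4 912)))))))))))))
(mv 848 (cons (fin 912 6 847)
(mv 910 (cons (fin 846 7 846)
(mv 974 (cons (fin 1167 7 910)
(mv 1101 (cons (fin 1100 2 1036)
(fin 1165 5 909)))))))))))
(cons (mv 910 (cons (fin 846 7 846)
(mv 974 (cons (fin 1167 7 910)
(mv 1101 (cons (fin 1100 2 1036)
(fin 1165 5 909)))))))
(cons (mv 846 (cons (fin 910 7 846)
(mv 912 (cons (fin 848 6 847)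
(mv 976 (cons (fin 1167 6 911)
(mv 977 (cons (fin 978 1 974)
(mv 1104 (cons (fin 1168 7 911)
(mv 1105 (cons (fin 1106 3 1038)
(fin 1169 4 912)))))))))))))
(mv 846 (cons (fin 910 7 846)
(mv 912 (cons (fin 848 6 847)
(mv 1100 (cons (fin 1101 2 1036)
(mv 1104 (cons (fin 1168 4 911)
(mv 1105 (cons (fin 1106 3 1038)
(mv 1169 (cons (fin 1170 0 1102)
(fin 976 4 912)))))))))))))))))))
(cons (mv 911 (cons (fin 847 5 846)
(mv 1166 (cons (fin 974 6 910)
(fin 1230 6 974)))))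
(mv 911 (cons (fin 847 5 846)
(mv 1166 (cons (fin 1103 5 910)
(fin 1230 6 974))))))))))
(cons (mv 975 (cons (cons (mv 911 (cons (fin 847 5 846)
(mv 1166 (cons (fin 1103 5 910)
(fin 974 6 910)))))
(mv 1166 (cons (fin 1230 6 974)
(mv 974 (cons (mv 973 (cons (fin 1041 3 973)
(fin 972 0 972)))
(cons (mv 1165 (cons (fin 1229 5 973)
(mv 1103 (cons (mv 910 (cons (fin 1167 7 910)
(fin 846 4 846)))
(cons (mv 1104 (cons (fin 1105 1 1101)
(mv 1164 (cons (fin 1163 2 1099)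
(fin 1167 2 1100)))))
(mv 910 (cons (fin 846 4 846)
(mv 909 (cons (fin 845 7 845)
(mv 907 (cons (fin 908 0 907)
(mv 977 (cons (fin 976 3 909)
(mv 1041 (cons (fin 978 2 974)
(mv 1105 (cons (fin 1104 1 1101)
(fin 1106 0 1038))))))))))))))))))
(mv 973 (cons (fin 972 0 972)
(fin 909 7 909)))))))))
(cons (mv 911 (cons (fin 847 5 846)
(mv 1103 (cons (cons (mv 846 (cons (fin 910 7 846)
(mv 912 (cons (fin 848 6 847)
(mv 976 (cons (fin 1167 6 911)
(mv 977 (cons (fin 978 1 974)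
(mv 1104 (cons (fin 1168 7 911)
(mv 1105 (cons (fin 1106 3 1038)
(fin 1169 4 912)))))))))))))
(mv 912 (cons (fin 848 6 847)
(mv 976 (cons (fin 1167 6 911)
(mv 977 (cons (fin 978 1 974)
(mv 1104 (cons (fin 1168 7 911)
(mv 1105 (cons (fin 1106 3 1038)
(fin 1169 4 912))))))))))))
(cons (mv 848 (cons (fin 912 6 847)
(mv 910 (cons (fin 846 7 846)
(mv 974 (cons (fin 1167 7 910)
(mv 973 (cons (fin 1041 3 973)
(fin 972 0 972)))))))))
(cons (mv 910 (cons (fin 846 7 846)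
(mv 974 (cons (fin 1167 7 910)
(mv 973 (cons (fin 1041 3 973)
(fin 972 0 972)))))))
(mv 846 (cons (fin 910 7 846)
(mv 912 (cons (fin 848 6 847)
(mv 1104 (cons (fin 1168 4 911)
(mv 1105 (cons (fin 1106 3 1038)
(mv 1169 (cons (fin 1170 0 1102)
(fin 976 4 912)))))))))))))))))
(cons (mv 911 (cons (fin 847 5 846)
(mv 1166 (cons (fin 1103 5 910)
(fin 1230 6 974)))))
(mv 911 (cons (fin 847 5 846)
(mv 1166 (cons (fin 974 6 910)
(fin 1230 6 974)))))))))
(mv 1041 (cons (fin 1101 1 1037)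
(mv 973 (cons (fin 974 3 973)
(mv 977 (cons (fin 978 2 974)
(mv 1105 (cons (fin 1106 0 1038)
(mv 913 (cons (mv 1104 (cons (fin 849 5 848)
(fin 1168 5 912)))
(cons (mv 848 (cons (fin 912 7 848)
(mv 849 (cons (fin 784 7 784)
(mv 850 (cons (fin 786 6 785)
(fin 914 6 849)))))))
(mv 848 (cons (fin 912 7 848)
(mv 850 (cons (fin 914 6 849)
(mv 1168 (cons (fin 1104 5 912)
(mv 1169 (cons (fin 1232 5 976)
(mv 1233 (cons (fin 976 7 976)
(mv 1234 (cons (fin 1170 4 977)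
(fin 1298 4 1041)))))))))))))))))))))))))))
(mv 1037 (cons (cons (mv 972 (cons (fin 973 3 972)
(mv 976 (cons (fin 977 2 973)
(mv 1036 (cons (fin 971 3 971)
(fin 975 2 972)))))))
(mv 972 (cons (fin 973 3 972)
(mv 1036 (cons (fin 971 3 971)
(mv 1100 (cons (fin 1099 1 1035)
(fin 1101 1 1036))))))))
(cons (mv 976 (cons (fin 977 2 973)
(mv 975 (cons (fin 1036 2 972)
(mv 1100 (cons (fin 1101 1 1036)
(mv 1104 (cons (fin 1105 0 1037)
(mv 911 (cons (fin 1168 7 911)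
(fin 847 4 847)))))))))))
(mv 972 (cons (fin 973 3 972)
(mv 976 (cons (fin 977 2 973)
(mv 1100 (cons (fin 1101 1 1036)
(mv 1104 (cons (fin 1105 0 1037)
(mv 912 (cons (mv 1103 (cons (fin 848 5 847)
(fin 1167 5 911)))
(cons (mv 847 (cons (fin 911 7 847)
(mv 848 (cons (fin 783 7 783)
(mv 849 (cons (fin 785 6 784)
(fin 913 6 848)))))))
(mv 849 (cons (fin 913 6 848)
(mv 911 (cons (fin 847 7 847)
(mv 975 (cons (fin 1168 7 911)
(mv 1103 (cons (fin 1167 5 911)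
(mv 910 (cons (fin 846 7 846)
(mv 909 (cons (fin 908 0 908)
(mv 845 (cons (fin 844 3 844)
(mv 1102 (cons (fin 974 7 845)
(fin 1166 5 910)))))))))))))))))))))))))))))))))
(cons (cons (mv 1037 (cons (cons (mv 976 (cons (fin 977 2 973)
(mv 975 (cons (fin 1036 2 972)
(mv 1100 (cons (fin 1101 1 1036)
(mv 1104 (cons (fin 1105 0 1037)
(mv 911 (cons (fin 1168 7 911)
(fin 847 4 847)))))))))))
(mv 976 (cons (fin 977 2 973)
(mv 975 (cons (fin 1036 2 972)
(mv 1101 (cons (fin 1100 1 1036)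
(mv 1102 (cons (fin 1041 1 1037)
(mv 911 (cons (fin 847 5 846)
(mv 1166 (cons (fin 1103 5 910)
(fin 974 6 910))))))))))))))
(cons (mv 976 (cons (fin 977 2 973)
(mv 975 (cons (fin 1036 2 972)
(mv 1104 (cons (fin 1105 0 1037)
(mv 911 (cons (fin 1168 7 911)
(fin 847 4 847)))))))))
(cons (mv 1100 (cons (fin 1101 1 1036)
(mv 1036 (cons (fin 1099 1 1035)
(mv 1104 (cons (fin 1103 0 1036)
(fin 1105 0 1037)))))))
(mv 976 (cons (fin 977 2 973)
(mv 1101 (cons (fin 1100 1 1036)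
(mv 1041 (cons (fin 1102 1 1037)
(mv 1105 (cons (fin 1104 0 1037)
(fin 1106 0 1038)))))))))))))
(mv 1037 (cons (cons (mv 972 (cons (fin 973 3 972)
(mv 971 (cons (fin 1036 3 971)
(mv 977 (cons (fin 976 2 973)
(mv 1041 (cons (fin 978 2 974)
(mv 1105 (cons (fin 1104 0 1037)
(fin 1106 0 1038)))))))))))
(mv 972 (cons (fin 973 3 972)
(mv 976 (cons (fin 977 2 973)
(mv 1036 (cons (fin 971 3 971)
(fin 975 2 972))))))))
(cons (mv 976 (cons (fin 977 2 973)
(mv 975 (cons (fin 1036 2 972)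
(mv 1104 (cons (fin 1105 0 1037)
(mv 911 (cons (fin 1168 7 911)
(fin 847 4 847)))))))))
(cons (mv 972 (cons (fin 973 3 972)
(mv 1036 (cons (fin 971 3 971)
(mv 1104 (cons (fin 1103 0 1036)
(fin 1105 0 1037)))))))
(mv 972 (cons (fin 973 3 972)
(mv 977 (cons (fin 976 2 973)
(mv 1041 (cons (fin 978 2 974)
(mv 1105 (cons (fin 1104 0 1037)
(fin 1106 0 1038))))))))))))))
(cons (mv 1037 (cons (cons (mv 972 (cons (fin 973 3 972)
(mv 971 (cons (fin 1036 3 971)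
(mv 1101 (cons (fin 1100 1 1036)
(mv 1041 (cons (fin 1102 1 1037)
(mv 1105 (cons (fin 1104 0 1037)
(fin 1106 0 1038)))))))))))
(mv 1100 (cons (fin 1101 1 1036)
(mv 1036 (cons (fin 1099 1 1035)
(mv 1104 (cons (fin 1103 0 1036)
(fin 1105 0 1037))))))))
(cons (mv 972 (cons (fin 973 3 972)
(mv 1036 (cons (fin 971 3 971)
(mv 1104 (cons (fin 1103 0 1036)
(fin 1105 0 1037)))))))
(cons (mv 972 (cons (fin 973 3 972)
(mv 1036 (cons (fin 971 3 971)
(mv 1100 (cons (fin 1099 1 1035)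
(fin 1101 1 1036)))))))
(mv 972 (cons (fin 973 3 972)
(mv 1101 (cons (fin 1100 1 1036)
(mv 1041 (cons (fin 1102 1 1037)
(mv 1105 (cons (fin 1104 0 1037)
(fin 1106 0 1038)))))))))))))
(mv 1037 (cons (cons (mv 972 (cons (fin 973 3 972)
(mv 971 (cons (fin 1036 3 971)
(mv 977 (cons (fin 976 2 973)
(mv 1041 (cons (fin 978 2 974)
(mv 1101 (cons (fin 1100 1 1036)
(fin 1102 1 1037)))))))))))
(mv 976 (cons (fin 977 2 973)
(mv 975 (cons (fin 1036 2 972)
(mv 1101 (cons (fin 1100 1 1036)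
(mv 1102 (cons (fin 1041 1 1037)
(mv 911 (cons (fin 847 5 846)
(mv 1166 (cons (fin 1103 5 910)
(fin 974 6 910))))))))))))))
(cons (mv 972 (cons (fin 973 3 972)
(mv 976 (cons (fin 977 2 973)
(mv 1036 (cons (fin 971 3 971)
(fin 975 2 972)))))))
(cons (mv 972 (cons (fin 973 3 972)
(mv 1036 (cons (fin 971 3 971)
(mv 1100 (cons (fin 1099 1 1035)
(fin 1101 1 1036)))))))
(mv 972 (cons (fin 973 3 972)
(mv 977 (cons (fin 976 2 973)
(mv 1041 (cons (fin 978 2 974)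
(mv 1101 (cons (fin 1100 1 1036)
(fin 1102 1 1037)))))))))))))))))
(mv 1038 (cons (cons (mv 1037 (cons (cons (mv 972 (cons (fin 973 3 972)
(mv 971 (cons (fin 1036 3 971)
(mv 976 (cons (fin 977 2 973)
(mv 1101 (cons (fin 1100 1 1036)
(mv 1041 (cons (fin 1102 1 1037)
(mv 1105 (cons (fin 1104 0 1037)
(fin 1106 0 1038)))))))))))))
(cons (mv 972 (cons (fin 973 3 972)
(mv 971 (cons (fin 1036 3 971)
(mv 1101 (cons (fin 1100 1 1036)
(mv 1041 (cons (fin 1102 1 1037)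
(mv 1105 (cons (fin 1104 0 1037)
(fin 1106 0 1038)))))))))))
(mv 972 (cons (fin 973 3 972)
(mv 971 (cons (fin 1036 3 971)
(mv 977 (cons (fin 976 2 973)
(mv 1041 (cons (fin 978 2 974)
(mv 1101 (cons (fin 1100 1 1036)
(fin 1102 1 1037)))))))))))))
(cons (mv 976 (cons (fin 977 2 973)
(mv 975 (cons (fin 1036 2 972)
(mv 1100 (cons (fin 1101 1 1036)
(mv 1104 (cons (fin 1105 0 1037)
(mv 911 (cons (fin 1168 7 911)
(fin 847 4 847)))))))))))
(cons (mv 972 (cons (fin 973 3 972)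
(mv 971 (cons (fin 1036 3 971)
(mv 977 (cons (fin 976 2 973)
(mv 1041 (cons (fin 978 2 974)
(mv 1105 (cons (fin 1104 0 1037)
(fin 1106 0 1038)))))))))))
(mv 972 (cons (fin 973 3 972)
(mv 976 (cons (fin 977 2 973)
(mv 1101 (cons (fin 1100 1 1036)
(mv 1041 (cons (fin 1102 1 1037)
(mv 1105 (cons (fin 1104 0 1037)
(fin 1106 0 1038)))))))))))))))
(cons (mv 1102 (cons (cons (mv 1101 (cons (fin 1041 1 1037)
(mv 1100 (cons (fin 1099 2 1035)
(fin 1103 2 1036)))))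
(mv 975 (cons (cons (mv 911 (cons (fin 847 5 846)
(mv 1166 (cons (fin 1103 5 910)
(fin 974 6 910)))))
(mv 1166 (cons (fin 1230 6 974)
(mv 974 (cons (mv 973 (cons (fin 972 0 972)
(fin 909 7 909)))
(mv 1165 (cons (fin 1229 5 973)
(mv 910 (cons (fin 1101 5 909)
(mv 1167 (cons (fin 1103 7 910)
(fin 1231 4 974))))))))))))
(cons (mv 911 (cons (fin 847 5 846)
(mv 1103 (cons (cons (mv 848 (cons (fin 912 6 847)
(mv 1100 (cons (fin 1101 2 1036)
(mv 1168 (cons (fin 1104 4 911)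
(mv 1167 (cons (fin 1232 4 975)
(mv 974 (cons (fin 910 7 910)
(fin 1231 7 974)))))))))))
(mv 912 (cons (fin 848 6 847)
(mv 976 (cons (fin 1167 6 911)
(mv 977 (cons (fin 978 1 974)
(mv 910 (cons (fin 909 0 909)
(mv 1101 (cons (fin 1100 2 1036)
(mv 974 (cons (fin 1165 5 909)
(mv 913 (cons (fin 973 1 909)
(fin 914 1 910))))))))))))))))
(cons (mv 1100 (cons (fin 1101 2 1036)
(mv 1168 (cons (fin 1104 4 911)
(mv 1167 (cons (fin 1232 4 975)
(mv 974 (cons (fin 910 7 910)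
(fin 1231 7 974)))))))))
(cons (mv 848 (cons (fin 912 6 847)
(mv 1168 (cons (fin 1104 4 911)
(mv 1167 (cons (fin 1232 4 975)
(mv 974 (cons (fin 910 7 910)
(fin 1231 7 974)))))))))
(mv 912 (cons (fin 848 6 847)
(mv 1100 (cons (fin 1101 2 1036)
(mv 1104 (cons (fin 1168 4 911)
(mv 1105 (cons (fin 1106 3 1038)
(mv 1169 (cons (fin 1170 0 1102)
(fin 976 4 912)))))))))))))))))
(cons (mv 911 (cons (fin 847 5 846)
(mv 1166 (cons (fin 974 6 910)
(fin 1230 6 974)))))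
(mv 911 (cons (fin 847 5 846)
(mv 1166 (cons (fin 1103 5 910)
(fin 1230 6 974))))))))))
(cons (mv 975 (cons (cons (mv 911 (cons (fin 847 5 846)
(mv 1166 (cons (fin 1103 5 910)
(fin 974 6 910)))))
(mv 1166 (cons (fin 1230 6 974)
(mv 974 (cons (mv 973 (cons (fin 1041 3 973)
(fin 972 0 972)))
(cons (mv 1165 (cons (fin 1229 5 973)
(mv 1167 (cons (fin 1231 4 974)
(mv 910 (cons (fin 1103 7 910)
(mv 909 (cons (fin 845 7 845)
(mv 907 (cons (fin 908 0 907)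
(mv 977 (cons (fin 976 3 909)
(mv 1041 (cons (fin 978 2 974)
(mv 1105 (cons (fin 1106 0 1038)
(mv 1168 (cons (fin 1104 2 1101)
(mv 1232 (cons (fin 1233 0 1165)
(fin 1169 5 976)))))))))))))))))))))
(mv 973 (cons (fin 972 0 972)
(fin 909 7 909)))))))))
(cons (mv 911 (cons (fin 847 5 846)
(mv 1103 (cons (cons (mv 848 (cons (fin 912 6 847)
(mv 1104 (cons (fin 1168 4 911)
(mv 1105 (cons (fin 1106 3 1038)
(mv 1169 (cons (fin 1170 0 1102)
(mv 1233 (cons (fin 1297 7 1040)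
(mv 1041 (cons (fin 976 7 976)
(mv 974 (cons (fin 973 3 973)
(mv 1167 (cons (fin 910 7 910)
(fin 1231 7 974)))))))))))))))))
(mv 912 (cons (fin 848 6 847)
(mv 1167 (cons (fin 976 6 911)
(mv 974 (cons (fin 910 7 910)
(fin 1231 7 974))))))))
(cons (mv 1104 (cons (fin 1168 4 911)
(mv 1105 (cons (fin 1106 3 1038)
(mv 1169 (cons (fin 1170 0 1102)
(mv 1233 (cons (fin 1297 7 1040)
(mv 1041 (cons (fin 976 7 976)
(mv 974 (cons (fin 973 3 973)
(mv 1167 (cons (fin 910 7 910)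
(fin 1231 7 974)))))))))))))))
(cons (mv 912 (cons (fin 848 6 847)
(mv 1104 (cons (fin 1168 4 911)
(mv 1105 (cons (fin 1106 3 1038)
(mv 1169 (cons (fin 1170 0 1102)
(fin 976 4 912)))))))))
(mv 848 (cons (fin 912 6 847)
(mv 1168 (cons (fin 1104 4 911)
(mv 1167 (cons (fin 1232 4 975)
(mv 974 (cons (fin 910 7 910)
(fin 1231 7 974)))))))))))))))
(cons (mv 911 (cons (fin 847 5 846)
(mv 1166 (cons (fin 1103 5 910)
(fin 1230 6 974)))))
(mv 911 (cons (fin 847 5 846)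
(mv 1166 (cons (fin 974 6 910)
(fin 1230 6 974)))))))))
(mv 1041 (cons (fin 1101 1 1037)
(mv 973 (cons (fin 974 3 973)
(mv 977 (cons (fin 978 2 974)
(mv 1105 (cons (fin 1106 0 1038)
(mv 1169 (cons (cons (mv 976 (cons (fin 912 7 912)
(fin 1233 7 976)))
(mv 1168 (cons (fin 1232 5 976)
(mv 913 (cons (fin 1104 5 912)
(mv 848 (cons (fin 912 7 848)
(mv 784 (cons (fin 849 7 784)
(mv 1234 (cons (fin 1170 4 977)
(mv 1233 (cons (fin 1298 4 1041)
(mv 1166 (cons (fin 1167 0 1166)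
(mv 1230 (cons (fin 975 6 974)
(mv 1293 (cons (fin 1229 5 1037)
(mv 1294 (cons (fin 1357 5 1101)
(mv 1295 (cons (fin 1231 4 1038)
(fin 1359 4 1102))))))))))))))))))))))))
(cons (mv 912 (cons (fin 976 7 912)
(mv 913 (cons (fin 848 7 848)
(mv 1104 (cons (fin 849 5 848)
(fin 1168 5 912)))))))
(mv 976 (cons (fin 1233 7 976)
(mv 1168 (cons (fin 1232 5 976)
(mv 913 (cons (fin 1104 5 912)
(mv 849 (cons (fin 785 5 784)
(mv 850 (cons (fin 786 6 785)
(fin 914 6 849)))))))))))))))))))))))))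
(mv 1037 (cons (cons (mv 972 (cons (fin 973 3 972)
(mv 976 (cons (fin 977 2 973)
(mv 1036 (cons (fin 971 3 971)
(fin 975 2 972)))))))
(mv 972 (cons (fin 973 3 972)
(mv 1036 (cons (fin 971 3 971)
(mv 1100 (cons (fin 1099 1 1035)
(fin 1101 1 1036))))))))
(cons (mv 976 (cons (fin 977 2 973)
(mv 975 (cons (fin 1036 2 972)
(mv 1100 (cons (fin 1101 1 1036)
(mv 1104 (cons (fin 1105 0 1037)
(mv 911 (cons (fin 1168 7 911)
(fin 847 4 847)))))))))))
(mv 972 (cons (fin 973 3 972)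
(mv 976 (cons (fin 977 2 973)
(mv 1100 (cons (fin 1101 1 1036)
(mv 1104 (cons (fin 1105 0 1037)
(mv 1168 (cons (mv 975 (cons (fin 911 7 911)
(fin 1232 7 975)))
(cons (mv 1167 (cons (fin 1231 5 975)
(mv 912 (cons (fin 1103 5 911)
(mv 847 (cons (fin 911 7 847)
(mv 848 (cons (fin 783 7 783)
(mv 849 (cons (fin 785 6 784)
(fin 913 6 848)))))))))))
(mv 975 (cons (fin 1232 7 975)
(mv 1167 (cons (fin 1231 5 975)
(mv 912 (cons (fin 1103 5 911)
(mv 848 (cons (fin 784 5 783)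
(mv 849 (cons (fin 785 6 784)
(fin 913 6 848)))))))))))))))))))))))))))
(cons (cons (mv 1037 (cons (cons (mv 976 (cons (fin 977 2 973)
(mv 975 (cons (fin 1036 2 972)
(mv 1100 (cons (fin 1101 1 1036)
(mv 1104 (cons (fin 1105 0 1037)
(mv 911 (cons (fin 1168 7 911)
(fin 847 4 847)))))))))))
(mv 976 (cons (fin 977 2 973)
(mv 975 (cons (fin 1036 2 972)
(mv 1101 (cons (fin 1100 1 1036)
(mv 1102 (cons (fin 1041 1 1037)
(mv 911 (cons (fin 847 5 846)
(mv 1166 (cons (fin 1103 5 910)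
(fin 974 6 910))))))))))))))
(cons (mv 1100 (cons (fin 1101 1 1036)
(mv 1036 (cons (fin 1099 1 1035)
(mv 1104 (cons (fin 1103 0 1036)
(fin 1105 0 1037)))))))
(cons (mv 976 (cons (fin 977 2 973)
(mv 975 (cons (fin 1036 2 972)
(mv 1104 (cons (fin 1105 0 1037)
(mv 911 (cons (fin 1168 7 911)
(fin 847 4 847)))))))))
(mv 976 (cons (fin 977 2 973)
(mv 1101 (cons (fin 1100 1 1036)
(mv 1041 (cons (fin 1102 1 1037)
(mv 1105 (cons (fin 1104 0 1037)
(fin 1106 0 1038)))))))))))))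
(mv 1037 (cons (cons (mv 972 (cons (fin 973 3 972)
(mv 971 (cons (fin 1036 3 971)
(mv 1101 (cons (fin 1100 1 1036)
(mv 1041 (cons (fin 1102 1 1037)
(mv 1105 (cons (fin 1104 0 1037)
(fin 1106 0 1038)))))))))))
(mv 1100 (cons (fin 1101 1 1036)
(mv 1036 (cons (fin 1099 1 1035)
(mv 1104 (cons (fin 1103 0 1036)
(fin 1105 0 1037))))))))
(cons (mv 972 (cons (fin 973 3 972)
(mv 1036 (cons (fin 971 3 971)
(mv 1100 (cons (fin 1099 1 1035)
(fin 1101 1 1036)))))))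
(cons (mv 972 (cons (fin 973 3 972)
(mv 1036 (cons (fin 971 3 971)
(mv 1104 (cons (fin 1103 0 1036)
(fin 1105 0 1037)))))))
(mv 972 (cons (fin 973 3 972)
(mv 1101 (cons (fin 1100 1 1036)
(mv 1041 (cons (fin 1102 1 1037)
(mv 1105 (cons (fin 1104 0 1037)
(fin 1106 0 1038))))))))))))))
(cons (mv 1037 (cons (cons (mv 972 (cons (fin 973 3 972)
(mv 971 (cons (fin 1036 3 971)
(mv 977 (cons (fin 976 2 973)
(mv 1041 (cons (fin 978 2 974)
(mv 1101 (cons (fin 1100 1 1036)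
(fin 1102 1 1037)))))))))))
(mv 976 (cons (fin 977 2 973)
(mv 975 (cons (fin 1036 2 972)
(mv 1101 (cons (fin 1100 1 1036)
(mv 1102 (cons (fin 1041 1 1037)
(mv 911 (cons (fin 847 5 846)
(mv 1166 (cons (fin 1103 5 910)
(fin 974 6 910))))))))))))))
(cons (mv 972 (cons (fin 973 3 972)
(mv 1036 (cons (fin 971 3 971)
(mv 1100 (cons (fin 1099 1 1035)
(fin 1101 1 1036)))))))
(cons (mv 972 (cons (fin 973 3 972)
(mv 976 (cons (fin 977 2 973)
(mv 1036 (cons (fin 971 3 971)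
(fin 975 2 972)))))))
(mv 972 (cons (fin 973 3 972)
(mv 977 (cons (fin 976 2 973)
(mv 1041 (cons (fin 978 2 974)
(mv 1101 (cons (fin 1100 1 1036)
(fin 1102 1 1037)))))))))))))
(mv 1037 (cons (cons (mv 972 (cons (fin 973 3 972)
(mv 971 (cons (fin 1036 3 971)
(mv 977 (cons (fin 976 2 973)
(mv 1041 (cons (fin 978 2 974)
(mv 1105 (cons (fin 1104 0 1037)
(fin 1106 0 1038)))))))))))
(mv 972 (cons (fin 973 3 972)
(mv 1036 (cons (fin 971 3 971)
(mv 1104 (cons (fin 1103 0 1036)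
(fin 1105 0 1037))))))))
(cons (mv 972 (cons (fin 973 3 972)
(mv 976 (cons (fin 977 2 973)
(mv 1036 (cons (fin 971 3 971)
(fin 975 2 972)))))))
(cons (mv 976 (cons (fin 977 2 973)
(mv 975 (cons (fin 1036 2 972)
(mv 1104 (cons (fin 1105 0 1037)
(mv 911 (cons (fin 1168 7 911)
(fin 847 4 847)))))))))
(mv 972 (cons (fin 973 3 972)
(mv 977 (cons (fin 976 2 973)
(mv 1041 (cons (fin 978 2 974)
(mv 1105 (cons (fin 1104 0 1037)
(fin 1106 0 1038))))))))))))))))))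
(cons (mv 1038 (cons (cons (mv 1037 (cons (cons (mv 972 (cons (fin 973 3 972)
(mv 971 (cons (fin 1036 3 971)
(mv 976 (cons (fin 977 2 973)
(mv 1101 (cons (fin 1100 1 1036)
(mv 1041 (cons (fin 1102 1 1037)
(mv 1105 (cons (fin 1104 0 1037)
(fin 1106 0 1038)))))))))))))
(cons (mv 972 (cons (fin 973 3 972)
(mv 971 (cons (fin 1036 3 971)
(mv 977 (cons (fin 976 2 973)
(mv 1041 (cons (fin 978 2 974)
(mv 1101 (cons (fin 1100 1 1036)
(fin 1102 1 1037)))))))))))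
(mv 972 (cons (fin 973 3 972)
(mv 971 (cons (fin 1036 3 971)
(mv 1101 (cons (fin 1100 1 1036)
(mv 1041 (cons (fin 1102 1 1037)
(mv 1105 (cons (fin 1104 0 1037)
(fin 1106 0 1038)))))))))))))
(cons (mv 976 (cons (fin 977 2 973)
(mv 975 (cons (fin 1036 2 972)
(mv 1100 (cons (fin 1101 1 1036)
(mv 1104 (cons (fin 1105 0 1037)
(mv 911 (cons (fin 1168 7 911)
(fin 847 4 847)))))))))))
(cons (mv 972 (cons (fin 973 3 972)
(mv 971 (cons (fin 1036 3 971)
(mv 977 (cons (fin 976 2 973)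
(mv 1041 (cons (fin 978 2 974)
(mv 1105 (cons (fin 1104 0 1037)
(fin 1106 0 1038)))))))))))
(mv 972 (cons (fin 973 3 972)
(mv 976 (cons (fin 977 2 973)
(mv 1101 (cons (fin 1100 1 1036)
(mv 1041 (cons (fin 1102 1 1037)
(mv 1105 (cons (fin 1104 0 1037)
(fin 1106 0 1038)))))))))))))))
(cons (mv 1102 (cons (cons (mv 1101 (cons (fin 1041 1 1037)
(mv 1100 (cons (fin 1099 2 1035)
(fin 1103 2 1036)))))
(mv 975 (cons (cons (mv 911 (cons (fin 847 5 846)
(mv 1166 (cons (fin 1103 5 910)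
(fin 974 6 910)))))
(mv 1166 (cons (fin 1230 6 974)
(mv 974 (cons (mv 973 (cons (fin 972 0 972)
(fin 909 7 909)))
(mv 1165 (cons (fin 1229 5 973)
(mv 1167 (cons (fin 1231 4 974)
(mv 1103 (cons (mv 1104 (cons (fin 1105 1 1101)
(fin 1164 2 1100)))
(cons (mv 912 (cons (fin 976 6 911)
(mv 1100 (cons (fin 1101 2 1036)
(mv 1164 (cons (fin 1099 3 1099)
(fin 1163 2 1099)))))))
(mv 912 (cons (fin 976 6 911)
(mv 1100 (cons (fin 1101 2 1036)
(mv 1105 (cons (fin 1104 1 1101)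
(mv 1168 (cons (fin 1232 4 975)
(mv 1169 (cons (fin 1170 3 1102)
(fin 1106 2 1102)))))))))))))))))))))))
(cons (mv 911 (cons (fin 847 5 846)
(mv 1103 (cons (cons (mv 848 (cons (fin 912 6 847)
(mv 1100 (cons (fin 1101 2 1036)
(mv 1168 (cons (fin 1104 4 911)
(mv 1167 (cons (fin 1232 4 975)
(mv 1231 (cons (fin 974 7 974)
(fin 1295 7 1038)))))))))))
(mv 912 (cons (fin 848 6 847)
(mv 1100 (cons (fin 1101 2 1036)
(mv 1167 (cons (fin 976 6 911)
(mv 1231 (cons (fin 974 7 974)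
(fin 1295 7 1038))))))))))
(cons (mv 1100 (cons (fin 1101 2 1036)
(mv 1168 (cons (fin 1104 4 911)
(mv 1167 (cons (fin 1232 4 975)
(mv 1231 (cons (fin 974 7 974)
(fin 1295 7 1038)))))))))
(cons (mv 848 (cons (fin 912 6 847)
(mv 1168 (cons (fin 1104 4 911)
(mv 1167 (cons (fin 1232 4 975)
(mv 1231 (cons (fin 974 7 974)
(fin 1295 7 1038)))))))))
(mv 912 (cons (fin 848 6 847)
(mv 1100 (cons (fin 1101 2 1036)
(mv 1104 (cons (fin 1168 4 911)
(mv 1105 (cons (fin 1106 3 1038)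
(mv 1169 (cons (fin 1170 0 1102)
(fin 976 4 912)))))))))))))))))
(cons (mv 911 (cons (fin 847 5 846)
(mv 1166 (cons (fin 974 6 910)
(fin 1230 6 974)))))
(mv 911 (cons (fin 847 5 846)
(mv 1166 (cons (fin 1103 5 910)
(fin 1230 6 974))))))))))
(cons (mv 975 (cons (cons (mv 911 (cons (fin 847 5 846)
(mv 1166 (cons (fin 1103 5 910)
(fin 974 6 910)))))
(mv 1166 (cons (fin 1230 6 974)
(mv 974 (cons (mv 973 (cons (fin 1041 3 973)
(fin 972 0 972)))
(cons (mv 1165 (cons (fin 1229 5 973)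
(mv 1167 (cons (fin 1231 4 974)
(mv 1103 (cons (cons (mv 1104 (cons (fin 1105 1 1101)
(fin 1164 2 1100)))
(mv 976 (cons (fin 912 6 911)
(mv 977 (cons (fin 978 1 974)
(mv 913 (cons (fin 914 2 910)
(mv 785 (cons (fin 849 5 784)
(mv 1163 (cons (fin 1164 2 1099)
(mv 1168 (cons (fin 1232 4 975)
(mv 1169 (cons (fin 1170 3 1102)
(mv 1105 (cons (fin 1106 2 1102)
(mv 1233 (cons (fin 1234 0 1166)
(fin 1041 7 976))))))))))))))))))))
(cons (mv 912 (cons (fin 976 6 911)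
(mv 1105 (cons (fin 1104 1 1101)
(mv 1106 (cons (fin 1041 0 1038)
(mv 1168 (cons (fin 1169 2 1102)
(fin 1232 4 975)))))))))
(mv 1164 (cons (fin 1163 2 1099)
(fin 1104 2 1100))))))))))
(mv 973 (cons (fin 972 0 972)
(fin 909 7 909)))))))))
(cons (mv 911 (cons (fin 847 5 846)
(mv 1103 (cons (cons (mv 848 (cons (fin 912 6 847)
(mv 1168 (cons (fin 1104 4 911)
(mv 1167 (cons (fin 1232 4 975)
(mv 1231 (cons (fin 974 7 974)
(fin 1295 7 1038)))))))))
(mv 912 (cons (fin 848 6 847)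
(mv 1167 (cons (fin 976 6 911)
(mv 1231 (cons (fin 974 7 974)
(fin 1295 7 1038))))))))
(cons (mv 1168 (cons (fin 1104 4 911)
(mv 1167 (cons (fin 1232 4 975)
(mv 1231 (cons (fin 974 7 974)
(fin 1295 7 1038)))))))
(mv 912 (cons (fin 848 6 847)
(mv 1104 (cons (fin 1168 4 911)
(mv 1105 (cons (fin 1106 3 1038)
(mv 1169 (cons (fin 1170 0 1102)
(fin 976 4 912))))))))))))))
(cons (mv 911 (cons (fin 847 5 846)
(mv 1166 (cons (fin 1103 5 910)
(fin 1230 6 974)))))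
(mv 911 (cons (fin 847 5 846)
(mv 1166 (cons (fin 974 6 910)
(fin 1230 6 974)))))))))
(mv 1041 (cons (fin 1101 1 1037)
(mv 973 (cons (fin 974 3 973)
(mv 977 (cons (fin 978 2 974)
(mv 1105 (cons (fin 1106 0 1038)
(mv 1169 (cons (cons (mv 976 (cons (fin 912 7 912)
(fin 1233 7 976)))
(mv 1168 (cons (fin 1232 5 976)
(mv 913 (cons (fin 1104 5 912)
(mv 848 (cons (fin 912 7 848)
(mv 784 (cons (fin 849 7 784)
(mv 1234 (cons (fin 1170 4 977)
(mv 1233 (cons (fin 1298 4 1041)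
(mv 1166 (cons (fin 1167 0 1166)
(mv 1230 (cons (fin 975 6 974)
(mv 1293 (cons (fin 1229 5 1037)
(mv 1294 (cons (fin 1357 5 1101)
(mv 1295 (cons (fin 1231 4 1038)
(fin 1359 4 1102))))))))))))))))))))))))
(cons (mv 912 (cons (fin 976 7 912)
(mv 913 (cons (fin 848 7 848)
(mv 1104 (cons (fin 849 5 848)
(fin 1168 5 912)))))))
(mv 976 (cons (fin 1233 7 976)
(mv 1168 (cons (fin 1232 5 976)
(mv 913 (cons (fin 1104 5 912)
(mv 849 (cons (fin 785 5 784)
(mv 850 (cons (fin 786 6 785)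
(fin 914 6 849)))))))))))))))))))))))))
(mv 1037 (cons (cons (mv 972 (cons (fin 973 3 972)
(mv 976 (cons (fin 977 2 973)
(mv 1036 (cons (fin 971 3 971)
(fin 975 2 972)))))))
(mv 972 (cons (fin 973 3 972)
(mv 1036 (cons (fin 971 3 971)
(mv 1100 (cons (fin 1099 1 1035)
(fin 1101 1 1036))))))))
(cons (mv 976 (cons (fin 977 2 973)
(mv 975 (cons (fin 1036 2 972)
(mv 1100 (cons (fin 1101 1 1036)
(mv 1104 (cons (fin 1105 0 1037)
(mv 911 (cons (fin 1168 7 911)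
(fin 847 4 847)))))))))))
(mv 972 (cons (fin 973 3 972)
(mv 976 (cons (fin 977 2 973)
(mv 1100 (cons (fin 1101 1 1036)
(mv 1104 (cons (fin 1105 0 1037)
(mv 1168 (cons (mv 975 (cons (fin 911 7 911)
(fin 1232 7 975)))
(cons (mv 1167 (cons (fin 1231 5 975)
(mv 912 (cons (fin 1103 5 911)
(mv 847 (cons (fin 911 7 847)
(mv 848 (cons (fin 783 7 783)
(mv 849 (cons (fin 785 6 784)
(fin 913 6 848)))))))))))
(mv 975 (cons (fin 1232 7 975)
(mv 1167 (cons (fin 1231 5 975)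
(mv 912 (cons (fin 1103 5 911)
(mv 848 (cons (fin 784 5 783)
(mv 849 (cons (fin 785 6 784)
(fin 913 6 848)))))))))))))))))))))))))))
(cons (cons (mv 1037 (cons (cons (mv 976 (cons (fin 977 2 973)
(mv 975 (cons (fin 1036 2 972)
(mv 1100 (cons (fin 1101 1 1036)
(mv 1104 (cons (fin 1105 0 1037)
(mv 911 (cons (fin 1168 7 911)
(fin 847 4 847)))))))))))
(mv 976 (cons (fin 977 2 973)
(mv 975 (cons (fin 1036 2 972)
(mv 1101 (cons (fin 1100 1 1036)
(mv 1102 (cons (fin 1041 1 1037)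
(mv 911 (cons (fin 847 5 846)
(mv 1166 (cons (fin 1103 5 910)
(fin 974 6 910))))))))))))))
(cons (mv 1100 (cons (fin 1101 1 1036)
(mv 1036 (cons (fin 1099 1 1035)
(mv 1104 (cons (fin 1103 0 1036)
(fin 1105 0 1037)))))))
(cons (mv 976 (cons (fin 977 2 973)
(mv 975 (cons (fin 1036 2 972)
(mv 1104 (cons (fin 1105 0 1037)
(mv 911 (cons (fin 1168 7 911)
(fin 847 4 847)))))))))
(mv 976 (cons (fin 977 2 973)
(mv 1101 (cons (fin 1100 1 1036)
(mv 1041 (cons (fin 1102 1 1037)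
(mv 1105 (cons (fin 1104 0 1037)
(fin 1106 0 1038)))))))))))))
(mv 1037 (cons (cons (mv 972 (cons (fin 973 3 972)
(mv 971 (cons (fin 1036 3 971)
(mv 977 (cons (fin 976 2 973)
(mv 1041 (cons (fin 978 2 974)
(mv 1101 (cons (fin 1100 1 1036)
(fin 1102 1 1037)))))))))))
(mv 976 (cons (fin 977 2 973)
(mv 975 (cons (fin 1036 2 972)
(mv 1101 (cons (fin 1100 1 1036)
(mv 1102 (cons (fin 1041 1 1037)
(mv 911 (cons (fin 847 5 846)
(mv 1166 (cons (fin 1103 5 910)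
(fin 974 6 910))))))))))))))
(cons (mv 972 (cons (fin 973 3 972)
(mv 1036 (cons (fin 971 3 971)
(mv 1100 (cons (fin 1099 1 1035)
(fin 1101 1 1036)))))))
(cons (mv 972 (cons (fin 973 3 972)
(mv 976 (cons (fin 977 2 973)
(mv 1036 (cons (fin 971 3 971)
(fin 975 2 972)))))))
(mv 972 (cons (fin 973 3 972)
(mv 977 (cons (fin 976 2 973)
(mv 1041 (cons (fin 978 2 974)
(mv 1101 (cons (fin 1100 1 1036)
(fin 1102 1 1037))))))))))))))
(cons (mv 1037 (cons (cons (mv 972 (cons (fin 973 3 972)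
(mv 971 (cons (fin 1036 3 971)
(mv 1101 (cons (fin 1100 1 1036)
(mv 1041 (cons (fin 1102 1 1037)
(mv 1105 (cons (fin 1104 0 1037)
(fin 1106 0 1038)))))))))))
(mv 1100 (cons (fin 1101 1 1036)
(mv 1036 (cons (fin 1099 1 1035)
(mv 1104 (cons (fin 1103 0 1036)
(fin 1105 0 1037))))))))
(cons (mv 972 (cons (fin 973 3 972)
(mv 1036 (cons (fin 971 3 971)
(mv 1100 (cons (fin 1099 1 1035)
(fin 1101 1 1036)))))))
(cons (mv 972 (cons (fin 973 3 972)
(mv 1036 (cons (fin 971 3 971)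
(mv 1104 (cons (fin 1103 0 1036)
(fin 1105 0 1037)))))))
(mv 972 (cons (fin 973 3 972)
(mv 1101 (cons (fin 1100 1 1036)
(mv 1041 (cons (fin 1102 1 1037)
(mv 1105 (cons (fin 1104 0 1037)
(fin 1106 0 1038)))))))))))))
(mv 1037 (cons (cons (mv 972 (cons (fin 973 3 972)
(mv 971 (cons (fin 1036 3 971)
(mv 977 (cons (fin 976 2 973)
(mv 1041 (cons (fin 978 2 974)
(mv 1105 (cons (fin 1104 0 1037)
(fin 1106 0 1038)))))))))))
(mv 972 (cons (fin 973 3 972)
(mv 1036 (cons (fin 971 3 971)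
(mv 1104 (cons (fin 1103 0 1036)
(fin 1105 0 1037))))))))
(cons (mv 972 (cons (fin 973 3 972)
(mv 976 (cons (fin 977 2 973)
(mv 1036 (cons (fin 971 3 971)
(fin 975 2 972)))))))
(cons (mv 976 (cons (fin 977 2 973)
(mv 975 (cons (fin 1036 2 972)
(mv 1104 (cons (fin 1105 0 1037)
(mv 911 (cons (fin 1168 7 911)
(fin 847 4 847)))))))))
(mv 972 (cons (fin 973 3 972)
(mv 977 (cons (fin 976 2 973)
(mv 1041 (cons (fin 978 2 974)
(mv 1105 (cons (fin 1104 0 1037)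
(fin 1106 0 1038)))))))))))))))))
(ref 5 0)))
(cons (cons (mv 1038 (cons (cons (mv 1037 (cons (cons (mv 972 (cons (fin 973 3 972)
(mv 971 (cons (fin 1036 3 971)
(mv 976 (cons (fin 977 2 973)
(mv 1101 (cons (fin 1100 1 1036)
(mv 1041 (cons (fin 1102 1 1037)
(mv 1105 (cons (fin 1104 0 1037)
(fin 1106 0 1038)))))))))))))
(cons (mv 972 (cons (fin 973 3 972)
(mv 971 (cons (fin 1036 3 971)
(mv 1101 (cons (fin 1100 1 1036)
(mv 1041 (cons (fin 1102 1 1037)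
(mv 1105 (cons (fin 1104 0 1037)
(fin 1106 0 1038)))))))))))
(mv 972 (cons (fin 973 3 972)
(mv 971 (cons (fin 1036 3 971)
(mv 977 (cons (fin 976 2 973)
(mv 1041 (cons (fin 978 2 974)
(mv 1101 (cons (fin 1100 1 1036)
(fin 1102 1 1037)))))))))))))
(cons (mv 972 (cons (fin 973 3 972)
(mv 971 (cons (fin 1036 3 971)
(mv 977 (cons (fin 976 2 973)
(mv 1041 (cons (fin 978 2 974)
(mv 1105 (cons (fin 1104 0 1037)
(fin 1106 0 1038)))))))))))
(cons (mv 976 (cons (fin 977 2 973)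
(mv 975 (cons (fin 1036 2 972)
(mv 1100 (cons (fin 1101 1 1036)
(mv 1104 (cons (fin 1105 0 1037)
(mv 911 (cons (fin 1168 7 911)
(fin 847 4 847)))))))))))
(mv 972 (cons (fin 973 3 972)
(mv 976 (cons (fin 977 2 973)
(mv 1101 (cons (fin 1100 1 1036)
(mv 1041 (cons (fin 1102 1 1037)
(mv 1105 (cons (fin 1104 0 1037)
(fin 1106 0 1038)))))))))))))))
(cons (mv 974 (cons (cons (mv 973 (cons (fin 1041 3 973)
(mv 972 (cons (fin 971 0 971)
(fin 975 0 972)))))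
(mv 1103 (cons (cons (mv 910 (cons (fin 846 4 846)
(mv 1167 (cons (fin 975 7 910)
(fin 1231 7 974)))))
(mv 910 (cons (fin 846 4 846)
(mv 1102 (cons (mv 1101 (cons (fin 1100 2 1036)
(fin 1165 5 909)))
(mv 845 (cons (fin 909 7 845)
(mv 911 (cons (fin 847 6 846)
(mv 912 (cons (mv 848 (cons (fin 976 5 847)
(fin 975 6 847)))
(cons (mv 913 (cons (fin 973 1 909)
(mv 849 (cons (fin 850 2 846)
(mv 914 (cons (fin 975 1 910)
(mv 978 (cons (fin 977 0 910)
(fin 979 0 911)))))))))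
(mv 848 (cons (fin 976 5 847)
(mv 913 (cons (fin 973 1 909)
(mv 850 (cons (fin 849 2 846)
(mv 914 (cons (fin 851 2 847)
(mv 978 (cons (fin 977 0 910)
(fin 979 0 911)))))))))))))))))))))))
(cons (mv 1167 (cons (fin 1231 7 974)
(mv 975 (cons (mv 912 (cons (fin 976 6 911)
(mv 911 (cons (fin 848 6 847)
(mv 847 (cons (fin 783 5 782)
(fin 1102 5 846)))))))
(cons (mv 972 (cons (fin 973 0 972)
(mv 1168 (cons (fin 1232 4 975)
(mv 911 (cons (fin 1104 4 911)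
(mv 847 (cons (fin 783 5 782)
(fin 1102 5 846)))))))))
(mv 972 (cons (fin 973 0 972)
(mv 976 (cons (fin 912 6 911)
(mv 977 (cons (fin 978 1 974)
(mv 913 (cons (fin 914 2 910)
(mv 1168 (cons (fin 1104 6 912)
(fin 1232 4 975))))))))))))))))
(mv 910 (cons (fin 846 4 846)
(mv 1167 (cons (fin 1231 7 974)
(fin 1102 4 910)))))))))
(cons (mv 1103 (cons (cons (mv 910 (cons (fin 846 4 846)
(mv 1167 (cons (fin 975 7 910)
(fin 1231 7 974)))))
(mv 910 (cons (fin 846 4 846)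
(mv 1102 (cons (mv 1101 (cons (fin 1041 1 1037)
(fin 1100 2 1036)))
(cons (mv 845 (cons (fin 909 7 845)
(mv 911 (cons (fin 847 6 846)
(mv 1104 (cons (cons (mv 975 (cons (fin 1168 4 911)
(mv 912 (cons (fin 848 6 847)
(mv 913 (cons (fin 914 1 910)
(mv 849 (cons (fin 850 2 846)
(fin 976 6 848)))))))))
(mv 1105 (cons (fin 1106 3 1038)
(mv 1169 (cons (fin 1170 0 1102)
(mv 912 (cons (fin 976 4 912)
(mv 975 (cons (fin 848 6 847)
(mv 913 (cons (fin 914 1 910)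
(mv 849 (cons (fin 850 2 846)
(mv 977 (cons (fin 978 0 910)
(fin 1041 5 848))))))))))))))))
(cons (mv 1105 (cons (fin 1106 3 1038)
(mv 1169 (cons (fin 1170 0 1102)
(mv 976 (cons (fin 912 4 912)
(mv 1233 (cons (fin 1041 7 976)
(fin 1297 7 1040)))))))))
(cons (mv 975 (cons (fin 1168 4 911)
(mv 912 (cons (fin 848 6 847)
(mv 913 (cons (fin 914 1 910)
(mv 849 (cons (fin 850 2 846)
(mv 977 (cons (fin 978 0 910)
(fin 1041 5 848)))))))))))
(mv 1105 (cons (fin 1106 3 1038)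
(mv 1168 (cons (fin 975 4 911)
(mv 1169 (cons (fin 1170 0 1102)
(mv 1233 (cons (fin 1297 7 1040)
(fin 976 4 976)))))))))))))))))
(mv 1101 (cons (fin 1100 2 1036)
(fin 1165 5 909)))))))))
(cons (mv 1167 (cons (fin 1231 7 974)
(mv 975 (cons (mv 912 (cons (fin 976 6 911)
(mv 911 (cons (fin 848 6 847)
(mv 847 (cons (fin 783 5 782)
(fin 1102 5 846)))))))
(cons (mv 1168 (cons (fin 1232 4 975)
(mv 911 (cons (fin 1104 4 911)
(mv 847 (cons (fin 783 5 782)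
(fin 1102 5 846)))))))
(mv 976 (cons (fin 912 6 911)
(mv 977 (cons (fin 978 1 974)
(mv 913 (cons (fin 914 2 910)
(mv 1168 (cons (fin 1104 6 912)
(fin 1232 4 975))))))))))))))
(mv 910 (cons (fin 846 4 846)
(mv 1167 (cons (fin 1231 7 974)
(fin 1102 4 910))))))))
(mv 973 (cons (fin 1041 3 973)
(mv 971 (cons (fin 972 0 971)
(mv 910 (cons (cons (cons (mv 846 (cons (fin 1103 4 846)
(mv 781 (cons (fin 845 7 781)
(mv 717 (cons (fin 782 7 717)
(mv 847 (cons (fin 783 6 782)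
(mv 911 (cons (fin 1102 6 846)
(mv 912 (cons (fin 913 1 909)
(mv 976 (cons (fin 1104 7 847)
(mv 909 (cons (fin 977 0 909)
(mv 848 (cons (fin 849 1 845)
(fin 908 2 844)))))))))))))))))))
(mv 845 (cons (cons (mv 781 (cons (fin 846 7 781)
(fin 909 4 781)))
(mv 846 (cons (fin 781 7 781)
(mv 847 (cons (fin 783 6 782)
(mv 911 (cons (fin 1102 6 846)
(mv 844 (cons (fin 843 0 843)
(fin 912 0 844))))))))))
(cons (mv 911 (cons (cons (mv 1102 (cons (fin 909 7 845)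
(fin 847 6 846)))
(mv 912 (cons (fin 913 1 909)
(mv 844 (cons (fin 909 3 844)
(mv 846 (cons (fin 843 0 843)
(fin 847 0 844))))))))
(cons (mv 909 (cons (fin 1102 7 845)
(mv 912 (cons (fin 844 3 844)
(fin 913 1 909)))))
(mv 847 (cons (fin 1102 6 846)
(mv 783 (cons (fin 719 5 718)
(fin 846 6 782))))))))
(mv 909 (cons (fin 1102 7 845)
(fin 781 4 781)))))))
(cons (mv 911 (cons (cons (mv 847 (cons (fin 1102 6 846)
(mv 719 (cons (fin 783 5 718)
(mv 912 (cons (fin 913 1 909)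
(mv 976 (cons (fin 1104 7 847)
(mv 848 (cons (fin 1103 5 847)
(mv 849 (cons (fin 850 1 846)
(fin 909 2 845)))))))))))))
(mv 912 (cons (fin 913 1 909)
(mv 909 (cons (mv 845 (cons (fin 844 3 844)
(fin 781 4 781)))
(mv 848 (cons (fin 849 2 845)
(mv 976 (cons (fin 977 0 909)
(fin 1103 5 847))))))))))
(cons (mv 1102 (cons (fin 847 6 846)
(mv 845 (cons (fin 909 7 845)
(mv 1101 (cons (fin 1165 5 909)
(mv 1100 (cons (fin 1099 2 1035)
(fin 1103 2 1036)))))))))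
(cons (mv 847 (cons (fin 1102 6 846)
(mv 719 (cons (fin 783 5 718)
(mv 912 (cons (fin 913 1 909)
(mv 976 (cons (fin 1104 7 847)
(mv 848 (cons (fin 1103 5 847)
(mv 849 (cons (fin 850 1 846)
(fin 785 6 784)))))))))))))
(mv 847 (cons (fin 1102 6 846)
(mv 719 (cons (fin 783 5 718)
(mv 912 (cons (fin 913 1 909)
(mv 976 (cons (fin 1104 7 847)
(mv 909 (cons (fin 977 0 909)
(mv 845 (cons (fin 844 3 844)
(fin 781 4 781)))))))))))))))))
(mv 846 (cons (fin 1103 4 846)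
(mv 781 (cons (fin 845 7 781)
(mv 782 (cons (fin 717 7 717)
(mv 783 (cons (fin 719 6 718)
(fin 847 6 782)))))))))))
(cons (cons (mv 846 (cons (fin 1103 4 846)
(mv 783 (cons (fin 847 6 782)
(mv 782 (cons (fin 719 6 718)
(mv 717 (cons (fin 781 7 717)
(mv 718 (cons (fin 653 7 653)
(fin 909 5 717)))))))))))
(mv 846 (cons (fin 1103 4 846)
(mv 847 (cons (fin 783 6 782)
(mv 911 (cons (fin 1102 6 846)
(mv 912 (cons (fin 913 1 909)
(mv 844 (cons (fin 845 0 844)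
(mv 976 (cons (fin 1104 7 847)
(mv 909 (cons (fin 977 0 909)
(mv 848 (cons (fin 849 1 845)
(fin 908 2 844))))))))))))))))))
(cons (mv 846 (cons (fin 1103 4 846)
(mv 781 (cons (fin 845 7 781)
(mv 782 (cons (fin 717 7 717)
(mv 718 (cons (fin 909 5 717)
(mv 719 (cons (fin 655 6 654)
(fin 783 6 718)))))))))))
(mv 1103 (cons (fin 846 4 846)
(mv 1167 (cons (fin 1231 7 974)
(fin 1102 4 910))))))))))))))))
(mv 1037 (cons (cons (mv 972 (cons (fin 973 3 972)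
(mv 976 (cons (fin 977 2 973)
(mv 1036 (cons (fin 971 3 971)
(fin 975 2 972)))))))
(mv 972 (cons (fin 973 3 972)
(mv 1036 (cons (fin 971 3 971)
(mv 1100 (cons (fin 1099 1 1035)
(fin 1101 1 1036))))))))
(cons (mv 976 (cons (fin 977 2 973)
(mv 975 (cons (fin 1036 2 972)
(mv 1100 (cons (fin 1101 1 1036)
(mv 1104 (cons (fin 1105 0 1037)
(mv 911 (cons (fin 1168 7 911)
(fin 847 4 847)))))))))))
(mv 972 (cons (fin 973 3 972)
(mv 976 (cons (fin 977 2 973)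
(mv 1100 (cons (fin 1101 1 1036)
(mv 1104 (cons (fin 1105 0 1037)
(mv 912 (cons (mv 1103 (cons (fin 848 5 847)
(fin 1167 5 911)))
(cons (mv 847 (cons (fin 911 7 847)
(mv 848 (cons (fin 783 7 783)
(mv 849 (cons (fin 785 6 784)
(fin 913 6 848)))))))
(mv 847 (cons (fin 911 7 847)
(mv 849 (cons (fin 913 6 848)
(mv 1167 (cons (fin 1103 5 911)
(mv 1168 (cons (fin 1231 5 975)
(mv 1232 (cons (fin 975 7 975)
(mv 1233 (cons (fin 1169 4 976)
(fin 1297 4 1040)))))))))))))))))))))))))))))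
(cons (cons (mv 1037 (cons (cons (mv 972 (cons (fin 973 3 972)
(mv 971 (cons (fin 1036 3 971)
(mv 1101 (cons (fin 1100 1 1036)
(mv 1041 (cons (fin 1102 1 1037)
(mv 1105 (cons (fin 1104 0 1037)
(fin 1106 0 1038)))))))))))
(mv 972 (cons (fin 973 3 972)
(mv 1036 (cons (fin 971 3 971)
(mv 1104 (cons (fin 1103 0 1036)
(fin 1105 0 1037))))))))
(cons (mv 972 (cons (fin 973 3 972)
(mv 1036 (cons (fin 971 3 971)
(mv 1100 (cons (fin 1099 1 1035)
(fin 1101 1 1036)))))))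
(cons (mv 1100 (cons (fin 1101 1 1036)
(mv 1036 (cons (fin 1099 1 1035)
(mv 1104 (cons (fin 1103 0 1036)
(fin 1105 0 1037)))))))
(mv 972 (cons (fin 973 3 972)
(mv 1101 (cons (fin 1100 1 1036)
(mv 1041 (cons (fin 1102 1 1037)
(mv 1105 (cons (fin 1104 0 1037)
(fin 1106 0 1038)))))))))))))
(mv 1037 (cons (cons (mv 972 (cons (fin 973 3 972)
(mv 971 (cons (fin 1036 3 971)
(mv 977 (cons (fin 976 2 973)
(mv 1041 (cons (fin 978 2 974)
(mv 1105 (cons (fin 1104 0 1037)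
(fin 1106 0 1038)))))))))))
(mv 972 (cons (fin 973 3 972)
(mv 1036 (cons (fin 971 3 971)
(mv 1104 (cons (fin 1103 0 1036)
(fin 1105 0 1037))))))))
(cons (mv 972 (cons (fin 973 3 972)
(mv 976 (cons (fin 977 2 973)
(mv 1036 (cons (fin 971 3 971)
(fin 975 2 972)))))))
(cons (mv 976 (cons (fin 977 2 973)
(mv 975 (cons (fin 1036 2 972)
(mv 1104 (cons (fin 1105 0 1037)
(mv 911 (cons (fin 1168 7 911)
(fin 847 4 847)))))))))
(mv 972 (cons (fin 973 3 972)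
(mv 977 (cons (fin 976 2 973)
(mv 1041 (cons (fin 978 2 974)
(mv 1105 (cons (fin 1104 0 1037)
(fin 1106 0 1038))))))))))))))
(cons (mv 1037 (cons (cons (mv 972 (cons (fin 973 3 972)
(mv 971 (cons (fin 1036 3 971)
(mv 977 (cons (fin 976 2 973)
(mv 1041 (cons (fin 978 2 974)
(mv 1101 (cons (fin 1100 1 1036)
(fin 1102 1 1037)))))))))))
(mv 972 (cons (fin 973 3 972)
(mv 976 (cons (fin 977 2 973)
(mv 1036 (cons (fin 971 3 971)
(fin 975 2 972))))))))
(cons (mv 972 (cons (fin 973 3 972)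
(mv 1036 (cons (fin 971 3 971)
(mv 1100 (cons (fin 1099 1 1035)
(fin 1101 1 1036)))))))
(cons (mv 976 (cons (fin 977 2 973)
(mv 1036 (cons (fin 975 2 972)
(mv 1100 (cons (fin 1099 1 1035)
(fin 1101 1 1036)))))))
(mv 972 (cons (fin 973 3 972)
(mv 977 (cons (fin 976 2 973)
(mv 1041 (cons (fin 978 2 974)
(mv 1101 (cons (fin 1100 1 1036)
(fin 1102 1 1037)))))))))))))
(mv 1037 (cons (cons (mv 976 (cons (fin 977 2 973)
(mv 975 (cons (fin 1036 2 972)
(mv 1100 (cons (fin 1101 1 1036)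
(mv 1104 (cons (fin 1105 0 1037)
(mv 911 (cons (fin 1168 7 911)
(fin 847 4 847)))))))))))
(mv 976 (cons (fin 977 2 973)
(mv 1036 (cons (fin 975 2 972)
(mv 1100 (cons (fin 1099 1 1035)
(fin 1101 1 1036))))))))
(cons (mv 1100 (cons (fin 1101 1 1036)
(mv 1036 (cons (fin 1099 1 1035)
(mv 1104 (cons (fin 1103 0 1036)
(fin 1105 0 1037)))))))
(cons (mv 976 (cons (fin 977 2 973)
(mv 975 (cons (fin 1036 2 972)
(mv 1104 (cons (fin 1105 0 1037)
(mv 911 (cons (fin 1168 7 911)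
(fin 847 4 847)))))))))
(mv 976 (cons (fin 977 2 973)
(mv 1101 (cons (fin 1100 1 1036)
(mv 1041 (cons (fin 1102 1 1037)
(mv 1105 (cons (fin 1104 0 1037)
(fin 1106 0 1038)))))))))))))))))
(mv 1038 (cons (cons (mv 1037 (cons (cons (mv 972 (cons (fin 973 3 972)
(mv 971 (cons (fin 1036 3 971)
(mv 976 (cons (fin 977 2 973)
(mv 1101 (cons (fin 1100 1 1036)
(mv 1041 (cons (fin 1102 1 1037)
(mv 1105 (cons (fin 1104 0 1037)
(fin 1106 0 1038)))))))))))))
(cons (mv 972 (cons (fin 973 3 972)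
(mv 971 (cons (fin 1036 3 971)
(mv 977 (cons (fin 976 2 973)
(mv 1041 (cons (fin 978 2 974)
(mv 1105 (cons (fin 1104 0 1037)
(fin 1106 0 1038)))))))))))
(mv 976 (cons (fin 977 2 973)
(mv 975 (cons (fin 1036 2 972)
(mv 1100 (cons (fin 1101 1 1036)
(mv 1104 (cons (fin 1105 0 1037)
(mv 911 (cons (fin 1168 7 911)
(fin 847 4 847)))))))))))))
(cons (mv 972 (cons (fin 973 3 972)
(mv 971 (cons (fin 1036 3 971)
(mv 977 (cons (fin 976 2 973)
(mv 1041 (cons (fin 978 2 974)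
(mv 1101 (cons (fin 1100 1 1036)
(fin 1102 1 1037)))))))))))
(cons (mv 972 (cons (fin 973 3 972)
(mv 971 (cons (fin 1036 3 971)
(mv 1101 (cons (fin 1100 1 1036)
(mv 1041 (cons (fin 1102 1 1037)
(mv 1105 (cons (fin 1104 0 1037)
(fin 1106 0 1038)))))))))))
(mv 972 (cons (fin 973 3 972)
(mv 976 (cons (fin 977 2 973)
(mv 1101 (cons (fin 1100 1 1036)
(mv 1041 (cons (fin 1102 1 1037)
(mv 1105 (cons (fin 1104 0 1037)
(fin 1106 0 1038)))))))))))))))
(cons (mv 1102 (cons (cons (mv 1101 (cons (fin 1041 1 1037)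
(mv 1100 (cons (fin 1099 2 1035)
(fin 1103 2 1036)))))
(mv 975 (cons (cons (mv 911 (cons (fin 847 5 846)
(mv 1166 (cons (fin 1103 5 910)
(fin 974 6 910)))))
(mv 1166 (cons (fin 1230 6 974)
(mv 974 (cons (mv 973 (cons (fin 972 0 972)
(fin 909 7 909)))
(mv 1165 (cons (fin 1229 5 973)
(mv 910 (cons (fin 1101 5 909)
(mv 846 (cons (fin 782 4 782)
(fin 1103 4 846))))))))))))
(cons (mv 911 (cons (fin 847 5 846)
(mv 1103 (cons (cons (mv 846 (cons (fin 910 7 846)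
(mv 848 (cons (fin 912 6 847)
(mv 1100 (cons (fin 1101 2 1036)
(mv 1168 (cons (fin 1104 4 911)
(mv 1167 (cons (fin 1232 4 975)
(mv 1231 (cons (fin 974 7 974)
(fin 1295 7 1038)))))))))))))
(cons (mv 846 (cons (fin 910 7 846)
(mv 912 (cons (fin 848 6 847)
(mv 1100 (cons (fin 1101 2 1036)
(mv 1167 (cons (fin 976 6 911)
(mv 1231 (cons (fin 974 7 974)
(fin 1295 7 1038)))))))))))
(mv 848 (cons (fin 912 6 847)
(mv 1100 (cons (fin 1101 2 1036)
(mv 1168 (cons (fin 1104 4 911)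
(mv 1167 (cons (fin 1232 4 975)
(mv 1231 (cons (fin 974 7 974)
(fin 1295 7 1038)))))))))))))
(cons (mv 846 (cons (fin 910 7 846)
(mv 1100 (cons (fin 1101 2 1036)
(mv 1168 (cons (fin 1104 4 911)
(mv 1167 (cons (fin 1232 4 975)
(mv 1231 (cons (fin 974 7 974)
(fin 1295 7 1038)))))))))))
(cons (mv 846 (cons (fin 910 7 846)
(mv 848 (cons (fin 912 6 847)
(mv 1168 (cons (fin 1104 4 911)
(mv 1167 (cons (fin 1232 4 975)
(mv 1231 (cons (fin 974 7 974)
(fin 1295 7 1038)))))))))))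
(mv 846 (cons (fin 910 7 846)
(mv 912 (cons (fin 848 6 847)
(mv 1100 (cons (fin 1101 2 1036)
(mv 1104 (cons (fin 1168 4 911)
(mv 1105 (cons (fin 1106 3 1038)
(mv 1169 (cons (fin 1170 0 1102)
(fin 976 4 912)))))))))))))))))))
(cons (mv 911 (cons (fin 847 5 846)
(mv 1166 (cons (fin 974 6 910)
(fin 1230 6 974)))))
(mv 911 (cons (fin 847 5 846)
(mv 1166 (cons (fin 1103 5 910)
(fin 1230 6 974))))))))))
(cons (mv 975 (cons (cons (mv 911 (cons (fin 847 5 846)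
(mv 1166 (cons (fin 1103 5 910)
(fin 974 6 910)))))
(mv 1166 (cons (fin 1230 6 974)
(mv 974 (cons (mv 973 (cons (fin 1041 3 973)
(fin 972 0 972)))
(cons (mv 1165 (cons (fin 1229 5 973)
(mv 1167 (cons (fin 1231 4 974)
(mv 910 (cons (fin 1103 7 910)
(mv 782 (cons (fin 846 4 782)
(mv 909 (cons (fin 845 7 845)
(mv 907 (cons (fin 908 0 907)
(mv 977 (cons (fin 976 3 909)
(mv 1041 (cons (fin 978 2 974)
(mv 1105 (cons (fin 1106 0 1038)
(mv 1168 (cons (fin 1104 2 1101)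
(mv 1232 (cons (fin 1233 0 1165)
(fin 1169 5 976)))))))))))))))))))))))
(mv 973 (cons (fin 972 0 972)
(fin 909 7 909)))))))))
(cons (mv 911 (cons (fin 847 5 846)
(mv 1103 (cons (cons (mv 846 (cons (fin 910 7 846)
(mv 848 (cons (fin 912 6 847)
(mv 1168 (cons (fin 1104 4 911)
(mv 1167 (cons (fin 1232 4 975)
(mv 1231 (cons (fin 974 7 974)
(fin 1295 7 1038)))))))))))
(mv 848 (cons (fin 912 6 847)
(mv 1168 (cons (fin 1104 4 911)
(mv 1167 (cons (fin 1232 4 975)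
(mv 1231 (cons (fin 974 7 974)
(fin 1295 7 1038))))))))))
(cons (mv 846 (cons (fin 910 7 846)
(mv 912 (cons (fin 848 6 847)
(mv 1167 (cons (fin 976 6 911)
(mv 1231 (cons (fin 974 7 974)
(fin 1295 7 1038)))))))))
(cons (mv 846 (cons (fin 910 7 846)
(mv 1168 (cons (fin 1104 4 911)
(mv 1167 (cons (fin 1232 4 975)
(mv 1231 (cons (fin 974 7 974)
(fin 1295 7 1038)))))))))
(mv 846 (cons (fin 910 7 846)
(mv 912 (cons (fin 848 6 847)
(mv 1104 (cons (fin 1168 4 911)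
(mv 1105 (cons (fin 1106 3 1038)
(mv 1169 (cons (fin 1170 0 1102)
(fin 976 4 912)))))))))))))))))
(cons (mv 911 (cons (fin 847 5 846)
(mv 1166 (cons (fin 1103 5 910)
(fin 1230 6 974)))))
(mv 911 (cons (fin 847 5 846)
(mv 1166 (cons (fin 974 6 910)
(fin 1230 6 974)))))))))
(mv 1041 (cons (fin 1101 1 1037)
(mv 974 (cons (fin 973 3 973)
(mv 977 (cons (fin 978 2 974)
(mv 1105 (cons (fin 1106 0 1038)
(mv 1169 (cons (mv 976 (cons (fin 912 7 912)
(fin 1233 7 976)))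
(cons (mv 1168 (cons (fin 1232 5 976)
(mv 1234 (cons (fin 1170 4 977)
(mv 1233 (cons (fin 1298 4 1041)
(mv 1104 (cons (fin 1297 7 1040)
(mv 1166 (cons (fin 1167 0 1166)
(mv 975 (cons (fin 911 6 910)
(fin 1230 6 974)))))))))))))
(mv 912 (cons (fin 976 7 912)
(mv 1168 (cons (fin 1232 5 976)
(mv 1170 (cons (fin 1234 4 977)
(mv 1166 (cons (mv 975 (cons (fin 911 6 910)
(fin 1230 6 974)))
(mv 1165 (cons (fin 1229 5 973)
(mv 1167 (cons (fin 1104 2 1101)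
(fin 1231 4 974)))))))))))))))))))))))))))
(mv 1037 (cons (cons (mv 972 (cons (fin 973 3 972)
(mv 976 (cons (fin 977 2 973)
(mv 1036 (cons (fin 971 3 971)
(fin 975 2 972)))))))
(mv 972 (cons (fin 973 3 972)
(mv 1036 (cons (fin 971 3 971)
(mv 1100 (cons (fin 1099 1 1035)
(fin 1101 1 1036))))))))
(cons (mv 976 (cons (fin 977 2 973)
(mv 975 (cons (fin 1036 2 972)
(mv 1100 (cons (fin 1101 1 1036)
(mv 1104 (cons (fin 1105 0 1037)
(mv 911 (cons (fin 1168 7 911)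
(fin 847 4 847)))))))))))
(mv 972 (cons (fin 973 3 972)
(mv 976 (cons (fin 977 2 973)
(mv 1100 (cons (fin 1101 1 1036)
(mv 1104 (cons (fin 1105 0 1037)
(mv 1168 (cons (mv 975 (cons (fin 911 7 911)
(fin 1232 7 975)))
(mv 1167 (cons (fin 1231 5 975)
(mv 1103 (cons (fin 912 5 911)
(mv 1169 (cons (fin 1233 4 976)
(mv 1170 (cons (fin 1102 3 1102)
(fin 1171 3 1103))))))))))))))))))))))))
(cons (cons (mv 1037 (cons (cons (mv 972 (cons (fin 973 3 972)
(mv 971 (cons (fin 1036 3 971)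
(mv 977 (cons (fin 976 2 973)
(mv 1041 (cons (fin 978 2 974)
(mv 1105 (cons (fin 1104 0 1037)
(fin 1106 0 1038)))))))))))
(mv 972 (cons (fin 973 3 972)
(mv 1036 (cons (fin 971 3 971)
(mv 1104 (cons (fin 1103 0 1036)
(fin 1105 0 1037))))))))
(cons (mv 972 (cons (fin 973 3 972)
(mv 976 (cons (fin 977 2 973)
(mv 1036 (cons (fin 971 3 971)
(fin 975 2 972)))))))
(cons (mv 976 (cons (fin 977 2 973)
(mv 975 (cons (fin 1036 2 972)
(mv 1104 (cons (fin 1105 0 1037)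
(mv 911 (cons (fin 1168 7 911)
(fin 847 4 847)))))))))
(mv 972 (cons (fin 973 3 972)
(mv 977 (cons (fin 976 2 973)
(mv 1041 (cons (fin 978 2 974)
(mv 1105 (cons (fin 1104 0 1037)
(fin 1106 0 1038)))))))))))))
(mv 1037 (cons (cons (mv 976 (cons (fin 977 2 973)
(mv 975 (cons (fin 1036 2 972)
(mv 1100 (cons (fin 1101 1 1036)
(mv 1104 (cons (fin 1105 0 1037)
(mv 911 (cons (fin 1168 7 911)
(fin 847 4 847)))))))))))
(mv 976 (cons (fin 977 2 973)
(mv 975 (cons (fin 1036 2 972)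
(mv 1101 (cons (fin 1100 1 1036)
(mv 1102 (cons (fin 1041 1 1037)
(mv 911 (cons (fin 847 5 846)
(mv 1166 (cons (fin 1103 5 910)
(fin 974 6 910))))))))))))))
(cons (mv 1100 (cons (fin 1101 1 1036)
(mv 1036 (cons (fin 1099 1 1035)
(mv 1104 (cons (fin 1103 0 1036)
(fin 1105 0 1037)))))))
(cons (mv 976 (cons (fin 977 2 973)
(mv 975 (cons (fin 1036 2 972)
(mv 1104 (cons (fin 1105 0 1037)
(mv 911 (cons (fin 1168 7 911)
(fin 847 4 847)))))))))
(mv 976 (cons (fin 977 2 973)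
(mv 1101 (cons (fin 1100 1 1036)
(mv 1041 (cons (fin 1102 1 1037)
(mv 1105 (cons (fin 1104 0 1037)
(fin 1106 0 1038))))))))))))))
(cons (mv 1037 (cons (cons (mv 972 (cons (fin 973 3 972)
(mv 971 (cons (fin 1036 3 971)
(mv 977 (cons (fin 976 2 973)
(mv 1041 (cons (fin 978 2 974)
(mv 1101 (cons (fin 1100 1 1036)
(fin 1102 1 1037)))))))))))
(mv 972 (cons (fin 973 3 972)
(mv 976 (cons (fin 977 2 973)
(mv 1036 (cons (fin 971 3 971)
(fin 975 2 972))))))))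
(cons (mv 976 (cons (fin 977 2 973)
(mv 975 (cons (fin 1036 2 972)
(mv 1101 (cons (fin 1100 1 1036)
(mv 1102 (cons (fin 1041 1 1037)
(mv 911 (cons (fin 847 5 846)
(mv 1166 (cons (fin 1103 5 910)
(fin 974 6 910)))))))))))))
(cons (mv 972 (cons (fin 973 3 972)
(mv 1036 (cons (fin 971 3 971)
(mv 1100 (cons (fin 1099 1 1035)
(fin 1101 1 1036)))))))
(mv 972 (cons (fin 973 3 972)
(mv 977 (cons (fin 976 2 973)
(mv 1041 (cons (fin 978 2 974)
(mv 1101 (cons (fin 1100 1 1036)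
(fin 1102 1 1037)))))))))))))
(mv 1037 (cons (cons (mv 972 (cons (fin 973 3 972)
(mv 971 (cons (fin 1036 3 971)
(mv 1101 (cons (fin 1100 1 1036)
(mv 1041 (cons (fin 1102 1 1037)
(mv 1105 (cons (fin 1104 0 1037)
(fin 1106 0 1038)))))))))))
(mv 972 (cons (fin 973 3 972)
(mv 1036 (cons (fin 971 3 971)
(mv 1104 (cons (fin 1103 0 1036)
(fin 1105 0 1037))))))))
(cons (mv 1100 (cons (fin 1101 1 1036)
(mv 1036 (cons (fin 1099 1 1035)
(mv 1104 (cons (fin 1103 0 1036)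
(fin 1105 0 1037)))))))
(cons (mv 972 (cons (fin 973 3 972)
(mv 1036 (cons (fin 971 3 971)
(mv 1100 (cons (fin 1099 1 1035)
(fin 1101 1 1036)))))))
(mv 972 (cons (fin 973 3 972)
(mv 1101 (cons (fin 1100 1 1036)
(mv 1041 (cons (fin 1102 1 1037)
(mv 1105 (cons (fin 1104 0 1037)
(fin 1106 0 1038))))))))))))))))))
(cons (mv 1038 (cons (cons (cons (mv 1037 (cons (cons (mv 972 (cons (fin 973 3 972)
(mv 976 (cons (fin 977 2 973)
(mv 975 (cons (fin 1036 2 972)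
(mv 1100 (cons (fin 1101 1 1036)
(mv 1104 (cons (fin 1105 0 1037)
(mv 911 (cons (fin 1168 7 911)
(fin 847 4 847)))))))))))))
(cons (mv 972 (cons (fin 973 3 972)
(mv 976 (cons (fin 977 2 973)
(mv 975 (cons (fin 1036 2 972)
(mv 1104 (cons (fin 1105 0 1037)
(mv 911 (cons (fin 1168 7 911)
(fin 847 4 847)))))))))))
(mv 972 (cons (fin 973 3 972)
(mv 1100 (cons (fin 1101 1 1036)
(mv 1036 (cons (fin 1099 1 1035)
(mv 1104 (cons (fin 1103 0 1036)
(fin 1105 0 1037)))))))))))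
(cons (mv 972 (cons (fin 973 3 972)
(mv 976 (cons (fin 977 2 973)
(mv 975 (cons (fin 1036 2 972)
(mv 1101 (cons (fin 1100 1 1036)
(mv 1102 (cons (fin 1041 1 1037)
(mv 911 (cons (fin 847 5 846)
(mv 1166 (cons (fin 1103 5 910)
(fin 974 6 910)))))))))))))))
(cons (mv 976 (cons (fin 977 2 973)
(mv 975 (cons (fin 1036 2 972)
(mv 1100 (cons (fin 1101 1 1036)
(mv 1104 (cons (fin 1105 0 1037)
(mv 911 (cons (fin 1168 7 911)
(fin 847 4 847)))))))))))
(mv 972 (cons (fin 973 3 972)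
(mv 976 (cons (fin 977 2 973)
(mv 1101 (cons (fin 1100 1 1036)
(mv 1041 (cons (fin 1102 1 1037)
(mv 1105 (cons (fin 1104 0 1037)
(fin 1106 0 1038)))))))))))))))
(mv 1102 (cons (cons (mv 1101 (cons (fin 1041 1 1037)
(mv 1100 (cons (fin 1099 2 1035)
(fin 1103 2 1036)))))
(mv 975 (cons (cons (mv 911 (cons (fin 847 5 846)
(mv 1166 (cons (fin 1103 5 910)
(fin 974 6 910)))))
(mv 1166 (cons (fin 1230 6 974)
(mv 974 (cons (mv 973 (cons (fin 972 0 972)
(fin 909 7 909)))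
(mv 1165 (cons (fin 1229 5 973)
(mv 910 (cons (fin 1101 5 909)
(mv 846 (cons (fin 782 4 782)
(fin 1103 4 846))))))))))))
(cons (mv 911 (cons (fin 847 5 846)
(mv 1103 (cons (cons (mv 846 (cons (fin 910 7 846)
(mv 848 (cons (fin 912 6 847)
(mv 1100 (cons (fin 1101 2 1036)
(mv 1168 (cons (fin 1104 4 911)
(mv 1167 (cons (fin 1232 4 975)
(mv 1231 (cons (fin 974 7 974)
(fin 1295 7 1038)))))))))))))
(cons (mv 846 (cons (fin 910 7 846)
(mv 912 (cons (fin 848 6 847)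
(mv 1100 (cons (fin 1101 2 1036)
(mv 1167 (cons (fin 976 6 911)
(mv 1231 (cons (fin 974 7 974)
(fin 1295 7 1038)))))))))))
(mv 848 (cons (fin 912 6 847)
(mv 1100 (cons (fin 1101 2 1036)
(mv 1168 (cons (fin 1104 4 911)
(mv 1167 (cons (fin 1232 4 975)
(mv 1231 (cons (fin 974 7 974)
(fin 1295 7 1038)))))))))))))
(cons (mv 846 (cons (fin 910 7 846)
(mv 1100 (cons (fin 1101 2 1036)
(mv 1168 (cons (fin 1104 4 911)
(mv 1167 (cons (fin 1232 4 975)
(mv 1231 (cons (fin 974 7 974)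
(fin 1295 7 1038)))))))))))
(cons (mv 846 (cons (fin 910 7 846)
(mv 848 (cons (fin 912 6 847)
(mv 1168 (cons (fin 1104 4 911)
(mv 1167 (cons (fin 1232 4 975)
(mv 1231 (cons (fin 974 7 974)
(fin 1295 7 1038)))))))))))
(mv 846 (cons (fin 910 7 846)
(mv 912 (cons (fin 848 6 847)
(mv 1100 (cons (fin 1101 2 1036)
(mv 1104 (cons (fin 1168 4 911)
(mv 1105 (cons (fin 1106 3 1038)
(mv 1169 (cons (fin 1170 0 1102)
(fin 976 4 912)))))))))))))))))))
(cons (mv 911 (cons (fin 847 5 846)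
(mv 1166 (cons (fin 974 6 910)
(fin 1230 6 974)))))
(mv 911 (cons (fin 847 5 846)
(mv 1166 (cons (fin 1103 5 910)
(fin 1230 6 974))))))))))
(cons (mv 975 (cons (cons (mv 911 (cons (fin 847 5 846)
(mv 1166 (cons (fin 1103 5 910)
(fin 974 6 910)))))
(mv 1166 (cons (fin 1230 6 974)
(mv 974 (cons (mv 973 (cons (fin 1041 3 973)
(fin 972 0 972)))
(cons (mv 1165 (cons (fin 1229 5 973)
(mv 1167 (cons (fin 1231 4 974)
(mv 910 (cons (fin 1103 7 910)
(mv 782 (cons (fin 846 4 782)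
(mv 909 (cons (fin 845 7 845)
(mv 907 (cons (fin 908 0 907)
(mv 977 (cons (fin 976 3 909)
(mv 1041 (cons (fin 978 2 974)
(mv 1105 (cons (fin 1106 0 1038)
(mv 1168 (cons (fin 1104 2 1101)
(mv 1232 (cons (fin 1233 0 1165)
(fin 1169 5 976)))))))))))))))))))))))
(mv 973 (cons (fin 972 0 972)
(fin 909 7 909)))))))))
(cons (mv 911 (cons (fin 847 5 846)
(mv 1103 (cons (cons (mv 846 (cons (fin 910 7 846)
(mv 848 (cons (fin 912 6 847)
(mv 1168 (cons (fin 1104 4 911)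
(mv 1167 (cons (fin 1232 4 975)
(mv 1231 (cons (fin 974 7 974)
(fin 1295 7 1038)))))))))))
(mv 848 (cons (fin 912 6 847)
(mv 1168 (cons (fin 1104 4 911)
(mv 1167 (cons (fin 1232 4 975)
(mv 1231 (cons (fin 974 7 974)
(fin 1295 7 1038))))))))))
(cons (mv 846 (cons (fin 910 7 846)
(mv 912 (cons (fin 848 6 847)
(mv 1167 (cons (fin 976 6 911)
(mv 1231 (cons (fin 974 7 974)
(fin 1295 7 1038)))))))))
(cons (mv 846 (cons (fin 910 7 846)
(mv 1168 (cons (fin 1104 4 911)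
(mv 1167 (cons (fin 1232 4 975)
(mv 1231 (cons (fin 974 7 974)
(fin 1295 7 1038)))))))))
(mv 846 (cons (fin 910 7 846)
(mv 912 (cons (fin 848 6 847)
(mv 1104 (cons (fin 1168 4 911)
(mv 1105 (cons (fin 1106 3 1038)
(mv 1169 (cons (fin 1170 0 1102)
(fin 976 4 912)))))))))))))))))
(cons (mv 911 (cons (fin 847 5 846)
(mv 1166 (cons (fin 1103 5 910)
(fin 1230 6 974)))))
(mv 911 (cons (fin 847 5 846)
(mv 1166 (cons (fin 974 6 910)
(fin 1230 6 974)))))))))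
(mv 1041 (cons (fin 1101 1 1037)
(mv 973 (cons (fin 974 3 973)
(mv 977 (cons (fin 978 2 974)
(mv 1105 (cons (fin 1106 0 1038)
(mv 913 (cons (mv 1104 (cons (fin 849 5 848)
(fin 1168 5 912)))
(cons (mv 848 (cons (fin 912 7 848)
(mv 849 (cons (fin 784 7 784)
(mv 850 (cons (fin 786 6 785)
(fin 914 6 849)))))))
(mv 848 (cons (fin 912 7 848)
(mv 850 (cons (fin 914 6 849)
(mv 1168 (cons (fin 1104 5 912)
(mv 1169 (cons (fin 1232 5 976)
(mv 1233 (cons (fin 976 7 976)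
(mv 1234 (cons (fin 1170 4 977)
(fin 1298 4 1041))))))))))))))))))))))))))))
(cons (mv 1037 (cons (cons (mv 972 (cons (fin 973 3 972)
(mv 976 (cons (fin 977 2 973)
(mv 975 (cons (fin 1036 2 972)
(mv 1100 (cons (fin 1101 1 1036)
(mv 1104 (cons (fin 1105 0 1037)
(mv 911 (cons (fin 1168 7 911)
(fin 847 4 847)))))))))))))
(cons (mv 972 (cons (fin 973 3 972)
(mv 1100 (cons (fin 1101 1 1036)
(mv 1036 (cons (fin 1099 1 1035)
(mv 1104 (cons (fin 1103 0 1036)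
(fin 1105 0 1037)))))))))
(mv 972 (cons (fin 973 3 972)
(mv 976 (cons (fin 977 2 973)
(mv 1036 (cons (fin 975 2 972)
(mv 1100 (cons (fin 1099 1 1035)
(fin 1101 1 1036)))))))))))
(cons (mv 972 (cons (fin 973 3 972)
(mv 976 (cons (fin 977 2 973)
(mv 975 (cons (fin 1036 2 972)
(mv 1104 (cons (fin 1105 0 1037)
(mv 911 (cons (fin 1168 7 911)
(fin 847 4 847)))))))))))
(cons (mv 976 (cons (fin 977 2 973)
(mv 975 (cons (fin 1036 2 972)
(mv 1100 (cons (fin 1101 1 1036)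
(mv 1104 (cons (fin 1105 0 1037)
(mv 911 (cons (fin 1168 7 911)
(fin 847 4 847)))))))))))
(mv 972 (cons (fin 973 3 972)
(mv 976 (cons (fin 977 2 973)
(mv 1100 (cons (fin 1101 1 1036)
(mv 1104 (cons (fin 1105 0 1037)
(mv 912 (cons (mv 1103 (cons (fin 848 5 847)
(fin 1167 5 911)))
(cons (mv 847 (cons (fin 911 7 847)
(mv 848 (cons (fin 783 7 783)
(mv 849 (cons (fin 785 6 784)
(fin 913 6 848)))))))
(mv 847 (cons (fin 911 7 847)
(mv 849 (cons (fin 913 6 848)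
(mv 1167 (cons (fin 1103 5 911)
(mv 1168 (cons (fin 1231 5 975)
(mv 1232 (cons (fin 975 7 975)
(mv 1233 (cons (fin 1169 4 976)
(fin 1297 4 1040))))))))))))))))))))))))))))
(mv 1037 (cons (cons (mv 972 (cons (fin 973 3 972)
(mv 976 (cons (fin 977 2 973)
(mv 975 (cons (fin 1036 2 972)
(mv 1104 (cons (fin 1105 0 1037)
(mv 911 (cons (fin 1168 7 911)
(fin 847 4 847)))))))))))
(mv 973 (cons (fin 972 3 972)
(mv 974 (cons (fin 1041 3 973)
(mv 1104 (cons (fin 1105 0 1037)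
(mv 1036 (cons (fin 1103 0 1036)
(mv 1035 (cons (fin 1034 2 970)
(fin 975 2 971))))))))))))
(cons (mv 973 (cons (fin 972 3 972)
(mv 974 (cons (fin 1041 3 973)
(mv 976 (cons (fin 977 2 973)
(mv 975 (cons (fin 1036 1 972)
(mv 908 (cons (fin 909 3 908)
(mv 912 (cons (fin 913 2 909)
(mv 848 (cons (fin 784 5 783)
(fin 1103 5 847)))))))))))))))
(cons (mv 976 (cons (fin 977 2 973)
(mv 975 (cons (fin 1036 2 972)
(mv 1104 (cons (fin 1105 0 1037)
(mv 911 (cons (fin 1168 7 911)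
(fin 847 4 847)))))))))
(mv 972 (cons (fin 973 3 972)
(mv 977 (cons (fin 976 2 973)
(mv 1041 (cons (fin 978 2 974)
(mv 1105 (cons (fin 1104 0 1037)
(fin 1106 0 1038)))))))))))))))
(cons (cons (mv 1037 (cons (cons (mv 972 (cons (fin 973 3 972)
(mv 1100 (cons (fin 1101 1 1036)
(mv 1036 (cons (fin 1099 1 1035)
(mv 1104 (cons (fin 1103 0 1036)
(fin 1105 0 1037)))))))))
(cons (mv 972 (cons (fin 973 3 972)
(mv 1104 (cons (fin 1105 0 1037)
(mv 1036 (cons (fin 1103 0 1036)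
(mv 975 (cons (fin 976 2 972)
(mv 847 (cons (fin 911 4 847)
(mv 1035 (cons (fin 974 2 971)
(mv 1099 (cons (fin 1098 1 1034)
(fin 1100 1 1035)))))))))))))))
(mv 973 (cons (fin 972 3 972)
(mv 974 (cons (fin 1041 3 973)
(mv 1100 (cons (fin 1101 1 1036)
(mv 1036 (cons (fin 1099 1 1035)
(mv 975 (cons (fin 976 1 972)
(fin 1035 2 971)))))))))))))
(cons (mv 1100 (cons (fin 1101 1 1036)
(mv 1036 (cons (fin 1099 1 1035)
(mv 1104 (cons (fin 1103 0 1036)
(fin 1105 0 1037)))))))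
(cons (mv 972 (cons (fin 973 3 972)
(mv 1104 (cons (fin 1105 0 1037)
(mv 1036 (cons (fin 1103 0 1036)
(mv 975 (cons (fin 976 2 972)
(mv 911 (cons (fin 847 4 847)
(mv 974 (cons (fin 1035 2 971)
(mv 1102 (cons (fin 1166 6 910)
(mv 1101 (cons (fin 1041 1 1037)
(mv 910 (cons (fin 846 5 845)
(fin 1165 5 909)))))))))))))))))))
(mv 972 (cons (fin 973 3 972)
(mv 1101 (cons (fin 1100 1 1036)
(mv 1041 (cons (fin 1102 1 1037)
(mv 1105 (cons (fin 1104 0 1037)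
(fin 1106 0 1038)))))))))))))
(mv 1037 (cons (cons (mv 972 (cons (fin 973 3 972)
(mv 976 (cons (fin 977 2 973)
(mv 975 (cons (fin 1036 2 972)
(mv 1101 (cons (fin 1100 1 1036)
(mv 1102 (cons (fin 1041 1 1037)
(mv 911 (cons (fin 847 5 846)
(mv 1166 (cons (fin 1103 5 910)
(fin 974 6 910)))))))))))))))
(cons (mv 972 (cons (fin 973 3 972)
(mv 976 (cons (fin 977 2 973)
(mv 1036 (cons (fin 975 2 972)
(mv 1099 (cons (fin 1100 1 1035)
(mv 1035 (cons (fin 1098 1 1034)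
(mv 1103 (cons (fin 1102 0 1035)
(fin 1104 0 1036)))))))))))))
(mv 973 (cons (fin 972 3 972)
(mv 974 (cons (fin 1041 3 973)
(mv 1100 (cons (fin 1101 1 1036)
(mv 1036 (cons (fin 1099 1 1035)
(mv 1035 (cons (fin 1034 2 970)
(fin 975 2 971)))))))))))))
(cons (mv 976 (cons (fin 977 2 973)
(mv 975 (cons (fin 1036 2 972)
(mv 1101 (cons (fin 1100 1 1036)
(mv 1102 (cons (fin 1041 1 1037)
(mv 911 (cons (fin 847 5 846)
(mv 1166 (cons (fin 1103 5 910)
(fin 974 6 910)))))))))))))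
(cons (mv 973 (cons (fin 972 3 972)
(mv 974 (cons (fin 1041 3 973)
(mv 976 (cons (fin 977 2 973)
(mv 975 (cons (fin 1036 1 972)
(mv 908 (cons (fin 909 3 908)
(mv 912 (cons (fin 913 2 909)
(mv 848 (cons (fin 784 5 783)
(fin 1103 5 847)))))))))))))))
(mv 972 (cons (fin 973 3 972)
(mv 977 (cons (fin 976 2 973)
(mv 1041 (cons (fin 978 2 974)
(mv 1101 (cons (fin 1100 1 1036)
(fin 1102 1 1037))))))))))))))
(cons (mv 1037 (cons (cons (mv 976 (cons (fin 977 2 973)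
(mv 975 (cons (fin 1036 2 972)
(mv 1100 (cons (fin 1101 1 1036)
(mv 1104 (cons (fin 1105 0 1037)
(mv 911 (cons (fin 1168 7 911)
(fin 847 4 847)))))))))))
(mv 976 (cons (fin 977 2 973)
(mv 975 (cons (fin 1036 2 972)
(mv 1101 (cons (fin 1100 1 1036)
(mv 1102 (cons (fin 1041 1 1037)
(mv 911 (cons (fin 847 5 846)
(mv 1166 (cons (fin 1103 5 910)
(fin 974 6 910))))))))))))))
(cons (mv 1100 (cons (fin 1101 1 1036)
(mv 1036 (cons (fin 1099 1 1035)
(mv 1104 (cons (fin 1103 0 1036)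
(fin 1105 0 1037)))))))
(cons (mv 976 (cons (fin 977 2 973)
(mv 975 (cons (fin 1036 2 972)
(mv 1104 (cons (fin 1105 0 1037)
(mv 911 (cons (fin 1168 7 911)
(fin 847 4 847)))))))))
(mv 976 (cons (fin 977 2 973)
(mv 1101 (cons (fin 1100 1 1036)
(mv 1041 (cons (fin 1102 1 1037)
(mv 1105 (cons (fin 1104 0 1037)
(fin 1106 0 1038)))))))))))))
(cons (mv 1041 (cons (cons (mv 973 (cons (fin 974 3 973)
(mv 977 (cons (fin 978 2 974)
(mv 1037 (cons (fin 972 3 972)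
(mv 1101 (cons (fin 1100 1 1036)
(fin 1102 1 1037)))))))))
(mv 973 (cons (fin 974 3 973)
(mv 977 (cons (fin 978 2 974)
(mv 1037 (cons (fin 972 3 972)
(mv 1105 (cons (fin 1104 0 1037)
(fin 1106 0 1038))))))))))
(cons (mv 977 (cons (fin 978 2 974)
(mv 1101 (cons (fin 1102 1 1037)
(mv 1037 (cons (fin 1100 1 1036)
(mv 1105 (cons (fin 1104 0 1037)
(fin 1106 0 1038)))))))))
(cons (mv 973 (cons (fin 974 3 973)
(mv 1037 (cons (fin 972 3 972)
(mv 1101 (cons (fin 1100 1 1036)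
(fin 1102 1 1037)))))))
(mv 973 (cons (fin 974 3 973)
(mv 977 (cons (fin 978 2 974)
(mv 1101 (cons (fin 1102 1 1037)
(mv 1105 (cons (fin 1106 0 1038)
(mv 913 (cons (mv 1104 (cons (fin 849 5 848)
(fin 1168 5 912)))
(cons (mv 848 (cons (fin 912 7 848)
(mv 849 (cons (fin 784 7 784)
(mv 850 (cons (fin 786 6 785)
(fin 914 6 849)))))))
(mv 848 (cons (fin 912 7 848)
(mv 850 (cons (fin 914 6 849)
(mv 1169 (cons (cons (mv 1168 (cons (fin 1104 5 912)
(fin 1232 5 976)))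
(mv 1234 (cons (fin 1170 4 977)
(mv 1233 (cons (fin 1298 4 1041)
(mv 1296 (cons (fin 1232 5 1040)
(mv 1297 (cons (fin 1104 7 1040)
(fin 1360 5 1104))))))))))
(cons (mv 1232 (cons (fin 1168 5 976)
(mv 1233 (cons (fin 1296 5 1040)
(mv 1234 (cons (fin 1170 4 977)
(fin 1298 4 1041)))))))
(mv 1104 (cons (fin 1168 5 912)
(mv 1233 (cons (fin 1297 7 1040)
(mv 1234 (cons (fin 1170 4 977)
(fin 1298 4 1041)))))))))))))))))))))))))))))
(mv 1041 (cons (cons (mv 973 (cons (fin 974 3 973)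
(mv 977 (cons (fin 978 2 974)
(mv 1037 (cons (fin 972 3 972)
(fin 976 2 973)))))))
(mv 973 (cons (fin 974 3 973)
(mv 1037 (cons (fin 972 3 972)
(mv 1101 (cons (fin 1100 1 1036)
(fin 1102 1 1037))))))))
(cons (mv 977 (cons (fin 978 2 974)
(mv 976 (cons (fin 1037 2 973)
(mv 1101 (cons (fin 1102 1 1037)
(mv 1105 (cons (fin 1106 0 1038)
(mv 912 (cons (fin 1169 7 912)
(fin 848 4 848)))))))))))
(mv 973 (cons (fin 974 3 973)
(mv 977 (cons (fin 978 2 974)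
(mv 1101 (cons (fin 1102 1 1037)
(mv 1105 (cons (fin 1106 0 1038)
(mv 1169 (cons (mv 976 (cons (fin 912 7 912)
(fin 1233 7 976)))
(cons (mv 1232 (cons (fin 1168 5 976)
(mv 1233 (cons (fin 1296 5 1040)
(mv 1234 (cons (fin 1170 4 977)
(fin 1298 4 1041)))))))
(mv 1168 (cons (fin 1232 5 976)
(mv 1170 (cons (fin 1234 4 977)
(mv 913 (cons (cons (mv 912 (cons (fin 848 7 848)
(fin 976 7 912)))
(mv 850 (cons (fin 914 6 849)
(mv 849 (cons (fin 786 6 785)
(mv 784 (cons (fin 848 7 784)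
(mv 785 (cons (fin 720 7 720)
(fin 976 5 784))))))))))
(cons (mv 848 (cons (fin 912 7 848)
(mv 849 (cons (fin 784 7 784)
(mv 850 (cons (fin 786 6 785)
(fin 914 6 849)))))))
(mv 850 (cons (fin 914 6 849)
(mv 849 (cons (fin 786 6 785)
(mv 976 (cons (fin 912 7 912)
(fin 785 5 784)))))))))))))))))))))))))))))))))
(mv 1038 (cons (cons (cons (mv 1037 (cons (cons (mv 972 (cons (fin 973 3 972)
(mv 971 (cons (fin 1036 3 971)
(mv 976 (cons (fin 977 2 973)
(mv 1101 (cons (fin 1100 1 1036)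
(mv 1041 (cons (fin 1102 1 1037)
(mv 1105 (cons (fin 1104 0 1037)
(fin 1106 0 1038)))))))))))))
(cons (mv 972 (cons (fin 973 3 972)
(mv 971 (cons (fin 1036 3 971)
(mv 1101 (cons (fin 1100 1 1036)
(mv 1041 (cons (fin 1102 1 1037)
(mv 1105 (cons (fin 1104 0 1037)
(fin 1106 0 1038)))))))))))
(mv 972 (cons (fin 973 3 972)
(mv 971 (cons (fin 1036 3 971)
(mv 977 (cons (fin 976 2 973)
(mv 1041 (cons (fin 978 2 974)
(mv 1101 (cons (fin 1100 1 1036)
(fin 1102 1 1037)))))))))))))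
(cons (mv 976 (cons (fin 977 2 973)
(mv 975 (cons (fin 1036 2 972)
(mv 1100 (cons (fin 1101 1 1036)
(mv 1104 (cons (fin 1105 0 1037)
(mv 911 (cons (fin 1168 7 911)
(fin 847 4 847)))))))))))
(cons (mv 972 (cons (fin 973 3 972)
(mv 971 (cons (fin 1036 3 971)
(mv 977 (cons (fin 976 2 973)
(mv 1041 (cons (fin 978 2 974)
(mv 1105 (cons (fin 1104 0 1037)
(fin 1106 0 1038)))))))))))
(mv 972 (cons (fin 973 3 972)
(mv 976 (cons (fin 977 2 973)
(mv 1101 (cons (fin 1100 1 1036)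
(mv 1041 (cons (fin 1102 1 1037)
(mv 1105 (cons (fin 1104 0 1037)
(fin 1106 0 1038)))))))))))))))
(mv 974 (cons (cons (mv 973 (cons (fin 1041 3 973)
(mv 972 (cons (fin 971 0 971)
(fin 975 0 972)))))
(mv 1103 (cons (cons (mv 910 (cons (fin 846 4 846)
(mv 1167 (cons (fin 975 7 910)
(fin 1231 7 974)))))
(mv 910 (cons (fin 846 4 846)
(mv 1102 (cons (cons (mv 845 (cons (fin 909 7 845)
(mv 911 (cons (fin 847 6 846)
(mv 975 (cons (fin 1166 5 910)
(mv 912 (cons (fin 848 6 847)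
(mv 913 (cons (fin 973 1 909)
(fin 914 1 910)))))))))))
(cons (mv 909 (cons (fin 845 7 845)
(mv 973 (cons (fin 1166 7 909)
(mv 972 (cons (fin 971 0 971)
(fin 975 0 972)))))))
(mv 911 (cons (fin 847 6 846)
(mv 975 (cons (fin 1166 5 910)
(mv 912 (cons (fin 848 6 847)
(mv 913 (cons (fin 973 1 909)
(fin 914 1 910)))))))))))
(cons (mv 909 (cons (fin 845 7 845)
(mv 911 (cons (fin 847 6 846)
(mv 973 (cons (fin 1166 7 909)
(mv 912 (cons (fin 972 1 908)
(fin 913 1 909)))))))))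
(cons (mv 845 (cons (fin 909 7 845)
(mv 911 (cons (fin 847 6 846)
(mv 1100 (cons (fin 1101 2 1036)
(mv 912 (cons (mv 848 (cons (fin 976 5 847)
(fin 975 6 847)))
(cons (mv 913 (cons (fin 973 1 909)
(mv 849 (cons (fin 850 2 846)
(mv 914 (cons (fin 975 1 910)
(mv 978 (cons (fin 977 0 910)
(fin 979 0 911)))))))))
(mv 848 (cons (fin 976 5 847)
(mv 913 (cons (fin 973 1 909)
(mv 850 (cons (fin 849 2 846)
(mv 914 (cons (fin 851 2 847)
(mv 978 (cons (fin 977 0 910)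
(fin 979 0 911))))))))))))))))))))
(mv 845 (cons (fin 909 7 845)
(mv 911 (cons (fin 847 6 846)
(mv 975 (cons (fin 1166 5 910)
(mv 912 (cons (fin 848 6 847)
(mv 913 (cons (fin 914 1 910)
(mv 849 (cons (fin 850 2 846)
(mv 1104 (cons (fin 976 6 848)
(fin 1168 4 911))))))))))))))))))))))
(cons (mv 1167 (cons (fin 1231 7 974)
(mv 975 (cons (cons (mv 912 (cons (fin 976 6 911)
(mv 848 (cons (fin 911 6 847)
(mv 973 (cons (fin 972 0 972)
(mv 1166 (cons (fin 1230 5 974)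
(mv 1102 (cons (fin 909 7 909)
(mv 1101 (cons (fin 1100 2 1036)
(mv 1168 (cons (fin 1169 3 1101)
(fin 1232 4 975)))))))))))))))
(mv 972 (cons (fin 973 0 972)
(mv 1166 (cons (fin 1230 5 974)
(mv 911 (cons (fin 1102 5 910)
(mv 847 (cons (fin 783 5 782)
(fin 1104 4 847))))))))))
(cons (mv 912 (cons (fin 976 6 911)
(mv 911 (cons (fin 848 6 847)
(mv 847 (cons (fin 783 5 782)
(fin 1102 5 846)))))))
(cons (mv 912 (cons (fin 976 6 911)
(mv 973 (cons (fin 972 0 972)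
(mv 1166 (cons (fin 1230 5 974)
(mv 1102 (cons (fin 909 7 909)
(mv 1100 (cons (fin 1101 2 1036)
(mv 1168 (cons (fin 1232 4 975)
(mv 1169 (cons (fin 1170 3 1102)
(mv 1105 (cons (fin 1106 2 1102)
(mv 1233 (cons (fin 1234 0 1166)
(mv 1297 (cons (fin 1104 7 1040)
(mv 1360 (cons (fin 1296 5 1104)
(mv 1361 (cons (fin 1424 5 1168)
(mv 1362 (cons (fin 1298 4 1105)
(fin 1426 4 1169)))))))))))))))))))))))))))
(mv 912 (cons (fin 976 6 911)
(mv 911 (cons (fin 848 6 847)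
(mv 847 (cons (fin 783 5 782)
(fin 1104 4 847)))))))))))))
(mv 910 (cons (fin 846 4 846)
(mv 1167 (cons (fin 1231 7 974)
(fin 1102 4 910)))))))))
(cons (mv 1103 (cons (cons (mv 910 (cons (fin 846 4 846)
(mv 1167 (cons (fin 975 7 910)
(fin 1231 7 974)))))
(mv 910 (cons (fin 846 4 846)
(mv 1102 (cons (mv 1101 (cons (fin 1041 1 1037)
(fin 1100 2 1036)))
(mv 845 (cons (fin 909 7 845)
(mv 911 (cons (fin 847 6 846)
(mv 975 (cons (fin 1166 5 910)
(mv 912 (cons (fin 848 6 847)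
(mv 913 (cons (fin 914 1 910)
(mv 849 (cons (fin 850 2 846)
(mv 1104 (cons (fin 976 6 848)
(fin 1168 4 911))))))))))))))))))))
(cons (mv 1167 (cons (fin 1231 7 974)
(mv 975 (cons (mv 912 (cons (fin 976 6 911)
(mv 911 (cons (fin 848 6 847)
(mv 847 (cons (fin 783 5 782)
(fin 1102 5 846)))))))
(cons (mv 1166 (cons (fin 1230 5 974)
(mv 911 (cons (fin 1102 5 910)
(mv 847 (cons (fin 783 5 782)
(fin 1104 4 847)))))))
(mv 976 (cons (fin 912 6 911)
(mv 977 (cons (fin 978 1 974)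
(mv 913 (cons (fin 914 2 910)
(mv 1168 (cons (fin 1104 6 912)
(fin 1232 4 975))))))))))))))
(mv 910 (cons (fin 846 4 846)
(mv 1167 (cons (fin 1231 7 974)
(fin 1102 4 910))))))))
(mv 973 (cons (fin 1041 3 973)
(mv 971 (cons (fin 972 0 971)
(mv 910 (cons (cons (cons (mv 846 (cons (fin 1103 4 846)
(mv 781 (cons (fin 845 7 781)
(mv 717 (cons (fin 782 7 717)
(mv 847 (cons (fin 783 6 782)
(mv 911 (cons (fin 1102 6 846)
(mv 912 (cons (fin 913 1 909)
(mv 976 (cons (fin 1104 7 847)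
(mv 909 (cons (fin 977 0 909)
(mv 848 (cons (fin 849 1 845)
(fin 908 2 844)))))))))))))))))))
(mv 909 (cons (cons (mv 845 (cons (fin 1102 7 845)
(fin 781 4 781)))
(mv 1102 (cons (fin 1166 7 909)
(mv 847 (cons (fin 911 6 846)
(mv 846 (cons (fin 783 6 782)
(mv 782 (cons (fin 718 5 717)
(mv 781 (cons (fin 717 7 717)
(mv 779 (cons (fin 780 0 779)
(mv 907 (cons (fin 908 2 843)
(mv 843 (cons (mv 714 (cons (fin 778 7 714)
(mv 715 (cons (fin 650 7 650)
(mv 970 (cons (fin 906 5 714)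
(fin 1034 5 778)))))))
(cons (mv 1034 (cons (fin 970 5 778)
(mv 1035 (cons (fin 1098 5 842)
(mv 1100 (cons (fin 1036 4 843)
(mv 1099 (cons (fin 1101 3 1034)
(fin 1164 4 907)))))))))
(mv 778 (cons (fin 714 7 714)
(mv 1035 (cons (fin 842 7 778)
(mv 1100 (cons (fin 1036 4 843)
(mv 1099 (cons (fin 1101 2 1035)
(fin 1164 4 907)))))))))))))))))))))))))))
(cons (mv 781 (cons (fin 845 4 781)
(mv 846 (cons (mv 782 (cons (fin 717 7 717)
(fin 718 5 717)))
(mv 847 (cons (fin 783 6 782)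
(mv 848 (cons (fin 849 1 845)
(mv 908 (cons (fin 907 2 843)
(fin 911 2 844)))))))))))
(mv 1102 (cons (fin 845 7 845)
(fin 1166 7 909)))))))
(cons (mv 911 (cons (cons (mv 847 (cons (fin 1102 6 846)
(mv 719 (cons (fin 783 5 718)
(mv 912 (cons (fin 913 1 909)
(mv 976 (cons (fin 1104 7 847)
(mv 848 (cons (fin 1103 5 847)
(mv 849 (cons (fin 850 1 846)
(fin 909 2 845)))))))))))))
(mv 912 (cons (fin 913 1 909)
(mv 909 (cons (mv 845 (cons (fin 844 3 844)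
(fin 781 4 781)))
(mv 848 (cons (fin 849 2 845)
(mv 976 (cons (fin 977 0 909)
(fin 1103 5 847))))))))))
(cons (mv 1102 (cons (fin 847 6 846)
(mv 909 (cons (fin 845 7 845)
(fin 1166 7 909)))))
(mv 847 (cons (fin 1102 6 846)
(mv 719 (cons (fin 783 5 718)
(mv 912 (cons (fin 913 1 909)
(mv 976 (cons (fin 1104 7 847)
(mv 848 (cons (fin 1103 5 847)
(mv 849 (cons (fin 850 1 846)
(fin 785 6 784))))))))))))))))
(mv 846 (cons (fin 1103 4 846)
(mv 781 (cons (fin 845 7 781)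
(mv 782 (cons (fin 717 7 717)
(mv 783 (cons (fin 719 6 718)
(fin 847 6 782)))))))))))
(cons (cons (mv 846 (cons (fin 1103 4 846)
(mv 783 (cons (fin 847 6 782)
(mv 782 (cons (fin 719 6 718)
(mv 717 (cons (fin 781 7 717)
(mv 718 (cons (fin 653 7 653)
(fin 909 5 717)))))))))))
(mv 846 (cons (fin 1103 4 846)
(mv 783 (cons (fin 847 6 782)
(mv 782 (cons (fin 719 6 718)
(mv 909 (cons (fin 718 5 717)
(mv 1102 (cons (fin 845 7 845)
(fin 1166 7 909))))))))))))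
(cons (mv 846 (cons (fin 1103 4 846)
(mv 781 (cons (fin 845 7 781)
(mv 782 (cons (fin 717 7 717)
(mv 718 (cons (fin 909 5 717)
(mv 719 (cons (fin 655 6 654)
(fin 783 6 718)))))))))))
(mv 846 (cons (fin 1103 4 846)
(mv 781 (cons (fin 845 7 781)
(mv 782 (cons (fin 717 7 717)
(mv 909 (cons (fin 718 5 717)
(mv 1102 (cons (fin 1166 7 909)
(mv 847 (cons (fin 911 6 846)
(mv 779 (cons (fin 780 0 779)
(mv 907 (cons (fin 908 2 843)
(mv 843 (cons (mv 714 (cons (fin 778 7 714)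
(mv 715 (cons (fin 650 7 650)
(mv 970 (cons (fin 906 5 714)
(fin 1034 5 778)))))))
(cons (mv 1034 (cons (fin 970 5 778)
(mv 1035 (cons (fin 1098 5 842)
(mv 1100 (cons (fin 1036 4 843)
(mv 1099 (cons (fin 1101 3 1034)
(fin 1164 4 907)))))))))
(mv 778 (cons (fin 714 7 714)
(mv 1035 (cons (fin 842 7 778)
(mv 1100 (cons (fin 1036 4 843)
(mv 1099 (cons (fin 1101 2 1035)
(fin 1164 4 907))))))))))))))))))))))))))))))))))))))))
(cons (mv 1037 (cons (cons (mv 972 (cons (fin 973 3 972)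
(mv 976 (cons (fin 977 2 973)
(mv 1036 (cons (fin 971 3 971)
(fin 975 2 972)))))))
(mv 972 (cons (fin 973 3 972)
(mv 1036 (cons (fin 971 3 971)
(mv 1100 (cons (fin 1099 1 1035)
(fin 1101 1 1036))))))))
(cons (mv 976 (cons (fin 977 2 973)
(mv 975 (cons (fin 1036 2 972)
(mv 1100 (cons (fin 1101 1 1036)
(mv 1104 (cons (fin 1105 0 1037)
(mv 911 (cons (fin 1168 7 911)
(fin 847 4 847)))))))))))
(mv 972 (cons (fin 973 3 972)
(mv 976 (cons (fin 977 2 973)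
(mv 1100 (cons (fin 1101 1 1036)
(mv 1104 (cons (fin 1105 0 1037)
(mv 912 (cons (mv 1103 (cons (fin 848 5 847)
(fin 1167 5 911)))
(cons (mv 847 (cons (fin 911 7 847)
(mv 848 (cons (fin 783 7 783)
(mv 849 (cons (fin 785 6 784)
(fin 913 6 848)))))))
(mv 847 (cons (fin 911 7 847)
(mv 849 (cons (fin 913 6 848)
(mv 1167 (cons (fin 1103 5 911)
(mv 1168 (cons (fin 1231 5 975)
(mv 1232 (cons (fin 975 7 975)
(mv 1233 (cons (fin 1169 4 976)
(fin 1297 4 1040)))))))))))))))))))))))))))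
(mv 1037 (cons (cons (mv 976 (cons (fin 977 2 973)
(mv 975 (cons (fin 1036 2 972)
(mv 1100 (cons (fin 1101 1 1036)
(mv 1104 (cons (fin 1105 0 1037)
(mv 911 (cons (fin 1168 7 911)
(fin 847 4 847)))))))))))
(mv 976 (cons (fin 977 2 973)
(mv 975 (cons (fin 1036 2 972)
(mv 1101 (cons (fin 1100 1 1036)
(mv 1102 (cons (fin 1041 1 1037)
(mv 911 (cons (fin 847 5 846)
(mv 1166 (cons (fin 1103 5 910)
(fin 974 6 910))))))))))))))
(cons (mv 1100 (cons (fin 1101 1 1036)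
(mv 1036 (cons (fin 1099 1 1035)
(mv 1104 (cons (fin 1103 0 1036)
(fin 1105 0 1037)))))))
(cons (mv 976 (cons (fin 977 2 973)
(mv 975 (cons (fin 1036 2 972)
(mv 1104 (cons (fin 1105 0 1037)
(mv 911 (cons (fin 1168 7 911)
(fin 847 4 847)))))))))
(mv 976 (cons (fin 977 2 973)
(mv 1101 (cons (fin 1100 1 1036)
(mv 1041 (cons (fin 1102 1 1037)
(mv 1105 (cons (fin 1104 0 1037)
(fin 1106 0 1038)))))))))))))))
(cons (cons (mv 1037 (cons (cons (mv 972 (cons (fin 973 3 972)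
(mv 971 (cons (fin 1036 3 971)
(mv 1101 (cons (fin 1100 1 1036)
(mv 1041 (cons (fin 1102 1 1037)
(mv 1105 (cons (fin 1104 0 1037)
(fin 1106 0 1038)))))))))))
(mv 1100 (cons (fin 1101 1 1036)
(mv 1036 (cons (fin 1099 1 1035)
(mv 1104 (cons (fin 1103 0 1036)
(fin 1105 0 1037))))))))
(cons (mv 972 (cons (fin 973 3 972)
(mv 1036 (cons (fin 971 3 971)
(mv 1100 (cons (fin 1099 1 1035)
(fin 1101 1 1036)))))))
(cons (mv 972 (cons (fin 973 3 972)
(mv 1036 (cons (fin 971 3 971)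
(mv 1104 (cons (fin 1103 0 1036)
(fin 1105 0 1037)))))))
(mv 972 (cons (fin 973 3 972)
(mv 1101 (cons (fin 1100 1 1036)
(mv 1041 (cons (fin 1102 1 1037)
(mv 1105 (cons (fin 1104 0 1037)
(fin 1106 0 1038)))))))))))))
(mv 1037 (cons (cons (mv 972 (cons (fin 973 3 972)
(mv 971 (cons (fin 1036 3 971)
(mv 977 (cons (fin 976 2 973)
(mv 1041 (cons (fin 978 2 974)
(mv 1101 (cons (fin 1100 1 1036)
(fin 1102 1 1037)))))))))))
(mv 976 (cons (fin 977 2 973)
(mv 975 (cons (fin 1036 2 972)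
(mv 1101 (cons (fin 1100 1 1036)
(mv 1102 (cons (fin 1041 1 1037)
(mv 911 (cons (fin 847 5 846)
(mv 1166 (cons (fin 1103 5 910)
(fin 974 6 910))))))))))))))
(cons (mv 972 (cons (fin 973 3 972)
(mv 1036 (cons (fin 971 3 971)
(mv 1100 (cons (fin 1099 1 1035)
(fin 1101 1 1036)))))))
(cons (mv 972 (cons (fin 973 3 972)
(mv 976 (cons (fin 977 2 973)
(mv 1036 (cons (fin 971 3 971)
(fin 975 2 972)))))))
(mv 972 (cons (fin 973 3 972)
(mv 977 (cons (fin 976 2 973)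
(mv 1041 (cons (fin 978 2 974)
(mv 1101 (cons (fin 1100 1 1036)
(fin 1102 1 1037))))))))))))))
(cons (mv 1037 (cons (cons (mv 972 (cons (fin 973 3 972)
(mv 971 (cons (fin 1036 3 971)
(mv 977 (cons (fin 976 2 973)
(mv 1041 (cons (fin 978 2 974)
(mv 1105 (cons (fin 1104 0 1037)
(fin 1106 0 1038)))))))))))
(mv 972 (cons (fin 973 3 972)
(mv 1036 (cons (fin 971 3 971)
(mv 1104 (cons (fin 1103 0 1036)
(fin 1105 0 1037))))))))
(cons (mv 972 (cons (fin 973 3 972)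
(mv 976 (cons (fin 977 2 973)
(mv 1036 (cons (fin 971 3 971)
(fin 975 2 972)))))))
(cons (mv 976 (cons (fin 977 2 973)
(mv 975 (cons (fin 1036 2 972)
(mv 1104 (cons (fin 1105 0 1037)
(mv 911 (cons (fin 1168 7 911)
(fin 847 4 847)))))))))
(mv 972 (cons (fin 973 3 972)
(mv 977 (cons (fin 976 2 973)
(mv 1041 (cons (fin 978 2 974)
(mv 1105 (cons (fin 1104 0 1037)
(fin 1106 0 1038)))))))))))))
(mv 1041 (cons (cons (mv 973 (cons (fin 974 3 973)
(mv 977 (cons (fin 978 2 974)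
(mv 1037 (cons (fin 972 3 972)
(fin 976 2 973)))))))
(mv 973 (cons (fin 974 3 973)
(mv 1037 (cons (fin 972 3 972)
(mv 1101 (cons (fin 1100 1 1036)
(fin 1102 1 1037))))))))
(cons (mv 977 (cons (fin 978 2 974)
(mv 976 (cons (fin 1037 2 973)
(mv 1101 (cons (fin 1102 1 1037)
(mv 1105 (cons (fin 1106 0 1038)
(mv 912 (cons (fin 1169 7 912)
(fin 848 4 848)))))))))))
(mv 973 (cons (fin 974 3 973)
(mv 977 (cons (fin 978 2 974)
(mv 1101 (cons (fin 1102 1 1037)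
(mv 1105 (cons (fin 1106 0 1038)
(mv 913 (cons (mv 1104 (cons (fin 849 5 848)
(fin 1168 5 912)))
(cons (mv 848 (cons (fin 912 7 848)
(mv 849 (cons (fin 784 7 784)
(mv 850 (cons (fin 786 6 785)
(fin 914 6 849)))))))
(mv 848 (cons (fin 912 7 848)
(mv 850 (cons (fin 914 6 849)
(mv 1168 (cons (fin 1104 5 912)
(mv 1169 (cons (fin 1232 5 976)
(mv 1233 (cons (fin 976 7 976)
(mv 1234 (cons (fin 1170 4 977)
(fin 1298 4 1041)))))))))))))))))))))))))))))))))))))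
def l18 : Lem := ⟨11781361728633673532894774498354952494238773929196300355071513798753168641589311119865182769801300280680127783231251635087526446289021607771691249214388576215221396663491984443067742263787264024212477244347842938066577043117995647400274369612403653814737339068225047641453182709824206687753689912418253153056587776, 3655648141689511622632252067309026639981822490326158882847983284322542768317872302879412592601649688869433053624053962485234977105294738710776572809880469685213496861544046177817391898510959606881347210776664748598783143085711729515916212811080887827506818975500463117775415875702518984053799134628592432657309168190422356326942222181067568774888963651534879368048588763058139285777522002016082397507926880266258742603146613227520, 3655648141689511622632252067309026639981822490326158882847983284322542768317872302879412592601649688869433053624053962485234977105294738710776572809880469685213496861544046177817391898510959606881347210776664748598783143085711729515916212811080887827506818975500463117775415875702518984053799134628592432657309168190422356326942222181067568774888963651534879368048588763058139285777522002016082397507926880266258742603146613227520,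 20, 33⟩
theorem l18_valid : l18.Valid :=
  Lem.valid_of_chk t18 t18_valid [1040] c18 l18 (by decide +kernel)
end Crest.Agent.SnakyAux
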