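import Crest.Agent.S0047_aux.Checker

set_option autoImplicit false
set_option maxRecDepth 100000
namespace Crest.Agent.SnakyAux
open Cert
def t25 : Tbl := Tbl.nil
theorem t25_valid : t25.Valid := Tbl.valid_nil
def c25 : Cert :=
(mv 976 (cons (cons (cons (cons (mv 912 (cons (cons (cons (mv 848 (cons (cons (cons (mv 783 (cons (fin 847 7 783)
(mv 719 (cons (fin 784 7 719)
(mv 785 (cons (fin 849 6 784)
(mv 1103 (cons (fin 1039 5 847)
(mv 1104 (cons (fin 1167 5 911)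
(mv 1105 (cons (fin 1041 4 848)
(fin 1169 4 912)))))))))))))
(mv 785 (cons (fin 849 6 784)
(mv 721 (cons (fin 784 6 720)
(mv 1103 (cons (fin 1039 5 847)
(mv 1104 (cons (fin 1167 5 911)
(mv 1105 (cons (fin 1041 4 848)
(fin 1169 4 912))))))))))))
(cons (mv 783 (cons (fin 847 7 783)
(mv 719 (cons (fin 784 7 719)
(mv 1103 (cons (fin 1039 5 847)
(mv 1104 (cons (fin 1167 5 911)
(mv 1105 (cons (fin 1041 4 848)
(fin 1169 4 912)))))))))))
(mv 783 (cons (fin 847 7 783)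
(mv 719 (cons (fin 784 7 719)
(mv 849 (cons (fin 785 6 784)
(mv 1041 (cons (fin 1105 4 848)
(mv 1104 (cons (fin 913 6 848)
(mv 1167 (cons (fin 1103 5 911)
(mv 1168 (cons (fin 1231 5 975)
(mv 911 (cons (fin 975 7 911)
(mv 850 (cons (fin 851 1 847)
(mv 909 (cons (fin 910 2 845)
(mv 1232 (cons (fin 977 6 976)
(mv 1233 (cons (fin 1169 4 976)
(fin 1297 4 1040)))))))))))))))))))))))))))
(cons (cons (mv 783 (cons (fin 847 7 783)
(mv 719 (cons (fin 784 7 719)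
(mv 849 (cons (fin 785 6 784)
(mv 1039 (cons (fin 1103 5 847)
(mv 1104 (cons (fin 913 6 848)
(mv 1169 (cons (fin 1105 4 912)
(mv 1168 (cons (fin 1233 4 976)
(mv 975 (cons (fin 911 7 911)
(fin 1232 7 975)))))))))))))))))
(mv 783 (cons (fin 847 7 783)
(mv 719 (cons (fin 784 7 719)
(mv 849 (cons (fin 785 6 784)
(mv 1104 (cons (fin 913 6 848)
(mv 1105 (cons (fin 1041 4 848)
(fin 1169 4 912))))))))))))
(cons (mv 783 (cons (fin 847 7 783)
(mv 719 (cons (fin 784 7 719)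
(mv 849 (cons (fin 785 6 784)
(mv 1103 (cons (fin 1039 5 847)
(mv 1104 (cons (fin 1167 5 911)
(fin 913 6 848)))))))))))
(cons (mv 783 (cons (fin 847 7 783)
(mv 785 (cons (fin 849 6 784)
(mv 1103 (cons (fin 1039 5 847)
(mv 1104 (cons (fin 1167 5 911)
(mv 1105 (cons (fin 1041 4 848)
(fin 1169 4 912)))))))))))
(mv 783 (cons (fin 847 7 783)
(mv 784 (cons (fin 719 7 719)
(mv 785 (cons (fin 721 6 720)
(fin 849 6 784))))))))))))
(mv 1104 (cons (cons (mv 847 (cons (fin 911 7 847)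
(mv 849 (cons (fin 913 6 848)
(mv 1167 (cons (fin 1103 5 911)
(mv 1168 (cons (fin 1231 5 975)
(mv 1169 (cons (fin 1105 4 912)
(fin 1233 4 976)))))))))))
(cons (mv 849 (cons (fin 913 6 848)
(mv 1167 (cons (fin 1103 5 911)
(mv 1168 (cons (fin 1231 5 975)
(mv 1169 (cons (fin 1105 4 912)
(fin 1233 4 976)))))))))
(mv 847 (cons (fin 911 7 847)
(mv 1167 (cons (fin 1103 5 911)
(mv 1168 (cons (fin 1231 5 975)
(mv 1169 (cons (fin 1105 4 912)
(fin 1233 4 976)))))))))))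
(cons (mv 847 (cons (fin 911 7 847)
(mv 913 (cons (fin 849 6 848)
(mv 1168 (cons (fin 977 6 912)
(mv 1169 (cons (fin 1105 4 912)
(fin 1233 4 976)))))))))
(cons (mv 847 (cons (fin 911 7 847)
(mv 913 (cons (fin 849 6 848)
(mv 1167 (cons (fin 1103 5 911)
(mv 1168 (cons (fin 1231 5 975)
(fin 977 6 912)))))))))
(mv 847 (cons (fin 911 7 847)
(mv 849 (cons (fin 913 6 848)
(mv 1103 (cons (fin 1167 5 911)
(mv 1105 (cons (fin 1169 4 912)
(mv 1102 (cons (mv 1041 (cons (fin 1101 2 1037)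
(fin 1042 2 1038)))
(cons (mv 1037 (cons (fin 1038 3 1037)
(mv 1101 (cons (fin 1036 3 1036)
(mv 1165 (cons (fin 1164 1 1100)
(fin 1166 1 1101)))))))
(mv 1038 (cons (fin 1037 3 1037)
(mv 1039 (cons (fin 1106 3 1038)
(mv 1041 (cons (fin 1042 1 1038)
(mv 973 (cons (fin 974 3 973)
(mv 977 (cons (fin 978 2 974)
(mv 1166 (cons (fin 1165 1 1101)
(mv 1230 (cons (fin 975 6 974)
(fin 1294 6 1038)))))))))))))))))))))))))))))))
(cons (mv 848 (cons (cons (mv 783 (cons (fin 847 7 783)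
(mv 784 (cons (fin 719 7 719)
(mv 785 (cons (fin 721 6 720)
(fin 849 6 784)))))))
(mv 785 (cons (fin 849 6 784)
(mv 784 (cons (fin 721 6 720)
(mv 1039 (cons (fin 975 5 783)
(fin 1103 5 847))))))))
(cons (mv 783 (cons (fin 847 7 783)
(mv 784 (cons (fin 719 7 719)
(mv 1039 (cons (fin 975 5 783)
(fin 1103 5 847)))))))
(mv 783 (cons (fin 847 7 783)
(mv 785 (cons (fin 849 6 784)
(mv 1039 (cons (fin 1103 5 847)
(mv 1041 (cons (fin 1105 4 848)
(mv 1038 (cons (mv 977 (cons (fin 1037 2 973)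
(fin 978 2 974)))
(cons (mv 973 (cons (fin 974 3 973)
(mv 1037 (cons (fin 972 3 972)
(mv 1101 (cons (fin 1100 1 1036)
(fin 1102 1 1037)))))))
(mv 973 (cons (fin 974 3 973)
(mv 978 (cons (fin 977 2 974)
(mv 1042 (cons (fin 979 2 975)
(mv 1043 (cons (fin 975 3 975)
(mv 1107 (cons (fin 1106 0 1039)
(fin 1108 0 1040)))))))))))))))))))))))))
(mv 1104 (cons (cons (mv 849 (cons (fin 913 6 848)
(mv 785 (cons (fin 848 6 784)
(mv 1105 (cons (fin 1169 4 912)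
(mv 1167 (cons (fin 1103 5 911)
(mv 1168 (cons (fin 1231 5 975)
(mv 975 (cons (fin 911 7 911)
(mv 1039 (cons (fin 1232 7 975)
(mv 1038 (cons (fin 1037 0 1037)
(mv 1106 (cons (fin 1107 3 1039)
(fin 1041 0 1038)))))))))))))))))))
(cons (mv 849 (cons (fin 913 6 848)
(mv 785 (cons (fin 848 6 784)
(mv 1169 (cons (fin 1105 4 912)
(mv 1168 (cons (fin 1233 4 976)
(mv 975 (cons (fin 911 7 911)
(mv 1231 (cons (fin 1167 5 975)
(mv 1232 (cons (fin 1039 7 975)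
(fin 1295 5 1039)))))))))))))))
(mv 1103 (cons (fin 1167 5 911)
(mv 848 (cons (fin 1039 5 847)
(mv 1105 (cons (fin 1041 4 848)
(fin 1169 4 912)))))))))
(cons (cons (mv 849 (cons (fin 913 6 848)
(mv 785 (cons (fin 848 6 784)
(mv 1167 (cons (fin 1103 5 911)
(mv 1168 (cons (fin 1231 5 975)
(mv 975 (cons (fin 911 7 911)
(mv 1232 (cons (fin 1039 7 975)
(mv 1233 (cons (fin 1169 4 976)
(fin 1297 4 1040)))))))))))))))
(mv 849 (cons (fin 913 6 848)
(mv 848 (cons (fin 785 6 784)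
(mv 1105 (cons (fin 1041 4 848)
(fin 1169 4 912))))))))
(cons (mv 849 (cons (fin 913 6 848)
(mv 785 (cons (fin 848 6 784)
(mv 1167 (cons (fin 1103 5 911)
(mv 1168 (cons (fin 1231 5 975)
(mv 975 (cons (fin 911 7 911)
(mv 1232 (cons (fin 1039 7 975)
(mv 1041 (cons (fin 977 6 976)
(mv 973 (cons (fin 974 0 973)
(mv 1042 (cons (fin 1043 3 975)
(mv 1296 (cons (fin 1105 6 1040)
(mv 1297 (cons (fin 1233 4 1040)
(fin 1361 4 1104)))))))))))))))))))))))
(mv 849 (cons (fin 913 6 848)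
(mv 1105 (cons (fin 1169 4 912)
(mv 1167 (cons (fin 1103 5 911)
(mv 1168 (cons (fin 1231 5 975)
(mv 975 (cons (fin 911 7 911)
(mv 1039 (cons (fin 1232 7 975)
(mv 1038 (cons (fin 1037 0 1037)
(mv 1106 (cons (fin 1107 3 1039)
(fin 1041 0 1038)))))))))))))))))))))))
(cons (cons (mv 1104 (cons (cons (mv 847 (cons (fin 911 7 847)
(mv 783 (cons (fin 848 7 783)
(mv 1103 (cons (fin 1167 5 911)
(mv 1169 (cons (fin 1105 4 912)
(mv 1168 (cons (fin 1233 4 976)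
(mv 977 (cons (fin 913 6 912)
(mv 1041 (cons (fin 1232 6 976)
(mv 1042 (cons (fin 1043 1 1039)
(mv 1102 (cons (fin 1039 1 1038)
(fin 1101 2 1037)))))))))))))))))))
(cons (mv 1103 (cons (fin 1167 5 911)
(mv 848 (cons (fin 1039 5 847)
(mv 1105 (cons (fin 1041 4 848)
(fin 1169 4 912)))))))
(mv 847 (cons (fin 911 7 847)
(mv 783 (cons (fin 848 7 783)
(mv 1169 (cons (fin 1105 4 912)
(mv 1168 (cons (fin 1233 4 976)
(mv 977 (cons (fin 913 6 912)
(mv 1231 (cons (fin 1167 5 975)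
(mv 1232 (cons (fin 1295 5 1039)
(fin 1041 6 976)))))))))))))))))
(cons (cons (mv 847 (cons (fin 911 7 847)
(mv 783 (cons (fin 848 7 783)
(mv 1167 (cons (fin 1103 5 911)
(mv 1168 (cons (fin 1231 5 975)
(mv 977 (cons (fin 913 6 912)
(mv 1232 (cons (fin 1041 6 976)
(mv 1233 (cons (fin 1169 4 976)
(fin 1297 4 1040)))))))))))))))
(mv 847 (cons (fin 911 7 847)
(mv 783 (cons (fin 848 7 783)
(mv 1169 (cons (fin 1105 4 912)
(mv 1168 (cons (fin 1233 4 976)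
(mv 977 (cons (fin 913 6 912)
(mv 1232 (cons (fin 1041 6 976)
(mv 1039 (cons (fin 975 7 975)
(mv 978 (cons (fin 979 1 975)
(mv 1037 (cons (fin 1038 2 973)
(mv 1295 (cons (fin 1231 5 1039)
(mv 1296 (cons (fin 1103 7 1039)
(fin 1359 5 1103))))))))))))))))))))))))
(cons (mv 847 (cons (fin 911 7 847)
(mv 848 (cons (fin 783 7 783)
(mv 1103 (cons (fin 1039 5 847)
(fin 1167 5 911)))))))
(mv 847 (cons (fin 911 7 847)
(mv 1103 (cons (fin 1167 5 911)
(mv 1169 (cons (fin 1105 4 912)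
(mv 1168 (cons (fin 1233 4 976)
(mv 977 (cons (fin 913 6 912)
(mv 1041 (cons (fin 1232 6 976)
(mv 1042 (cons (fin 1043 1 1039)
(mv 1102 (cons (fin 1039 1 1038)
(fin 1101 2 1037)))))))))))))))))))))
(mv 848 (cons (cons (mv 783 (cons (fin 847 7 783)
(mv 719 (cons (fin 784 7 719)
(mv 849 (cons (fin 785 6 784)
(mv 1104 (cons (fin 913 6 848)
(mv 1105 (cons (fin 1041 4 848)
(fin 1169 4 912)))))))))))
(cons (mv 785 (cons (fin 849 6 784)
(mv 784 (cons (fin 721 6 720)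
(mv 1041 (cons (fin 977 4 784)
(fin 1105 4 848)))))))
(mv 783 (cons (fin 847 7 783)
(mv 784 (cons (fin 719 7 719)
(mv 1041 (cons (fin 977 4 784)
(fin 1105 4 848)))))))))
(cons (mv 783 (cons (fin 847 7 783)
(mv 719 (cons (fin 784 7 719)
(mv 849 (cons (fin 785 6 784)
(mv 1104 (cons (fin 913 6 848)
(mv 1169 (cons (fin 1105 4 912)
(mv 1168 (cons (fin 1233 4 976)
(mv 975 (cons (fin 911 7 911)
(mv 1231 (cons (fin 1167 5 975)
(mv 1232 (cons (fin 1039 7 975)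
(fin 1295 5 1039)))))))))))))))))))
(cons (mv 783 (cons (fin 847 7 783)
(mv 784 (cons (fin 719 7 719)
(mv 785 (cons (fin 721 6 720)
(fin 849 6 784)))))))
(mv 783 (cons (fin 847 7 783)
(mv 849 (cons (fin 785 6 784)
(mv 1104 (cons (fin 913 6 848)
(mv 1105 (cons (fin 1041 4 848)
(fin 1169 4 912))))))))))))))
(cons (mv 848 (cons (cons (mv 783 (cons (fin 847 7 783)
(mv 719 (cons (fin 784 7 719)
(mv 849 (cons (fin 785 6 784)
(mv 1103 (cons (fin 1039 5 847)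
(mv 1104 (cons (fin 1167 5 911)
(fin 913 6 848)))))))))))
(mv 785 (cons (fin 849 6 784)
(mv 784 (cons (fin 721 6 720)
(mv 1039 (cons (fin 975 5 783)
(fin 1103 5 847))))))))
(cons (mv 783 (cons (fin 847 7 783)
(mv 784 (cons (fin 719 7 719)
(mv 1039 (cons (fin 975 5 783)
(fin 1103 5 847)))))))
(cons (mv 783 (cons (fin 847 7 783)
(mv 784 (cons (fin 719 7 719)
(mv 785 (cons (fin 721 6 720)
(fin 849 6 784)))))))
(mv 783 (cons (fin 847 7 783)
(mv 849 (cons (fin 785 6 784)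
(mv 1103 (cons (fin 1039 5 847)
(mv 1104 (cons (fin 1167 5 911)
(fin 913 6 848)))))))))))))
(mv 1104 (cons (cons (mv 847 (cons (fin 911 7 847)
(mv 783 (cons (fin 848 7 783)
(mv 849 (cons (fin 913 6 848)
(mv 1167 (cons (fin 1103 5 911)
(mv 1168 (cons (fin 1231 5 975)
(mv 1169 (cons (fin 1105 4 912)
(fin 1233 4 976)))))))))))))
(cons (mv 847 (cons (fin 911 7 847)
(mv 783 (cons (fin 848 7 783)
(mv 1167 (cons (fin 1103 5 911)
(mv 1168 (cons (fin 1231 5 975)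
(mv 1169 (cons (fin 1105 4 912)
(fin 1233 4 976)))))))))))
(mv 849 (cons (fin 913 6 848)
(mv 785 (cons (fin 848 6 784)
(mv 1167 (cons (fin 1103 5 911)
(mv 1168 (cons (fin 1231 5 975)
(mv 1169 (cons (fin 1105 4 912)
(fin 1233 4 976)))))))))))))
(cons (cons (mv 847 (cons (fin 911 7 847)
(mv 783 (cons (fin 848 7 783)
(mv 913 (cons (fin 849 6 848)
(mv 1167 (cons (fin 1103 5 911)
(mv 1168 (cons (fin 1231 5 975)
(fin 977 6 912)))))))))))
(mv 847 (cons (fin 911 7 847)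
(mv 783 (cons (fin 848 7 783)
(mv 913 (cons (fin 849 6 848)
(mv 1168 (cons (fin 977 6 912)
(mv 1169 (cons (fin 1105 4 912)
(fin 1233 4 976))))))))))))
(cons (mv 847 (cons (fin 911 7 847)
(mv 848 (cons (fin 783 7 783)
(mv 849 (cons (fin 785 6 784)
(fin 913 6 848)))))))
(mv 847 (cons (fin 911 7 847)
(mv 849 (cons (fin 913 6 848)
(mv 1167 (cons (fin 1103 5 911)
(mv 1168 (cons (fin 1231 5 975)
(mv 1169 (cons (fin 1105 4 912)
(fin 1233 4 976)))))))))))))))))))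
(mv 1039 (cons (cons (cons (mv 977 (cons (cons (mv 978 (cons (fin 979 1 975)
(mv 1038 (cons (fin 975 1 974)
(fin 1037 2 973)))))
(mv 978 (cons (fin 979 1 975)
(mv 975 (cons (cons (mv 910 (cons (fin 911 3 910)
(mv 914 (cons (fin 915 2 911)
(mv 974 (cons (fin 909 3 909)
(fin 913 2 910)))))))
(mv 914 (cons (fin 915 2 911)
(mv 913 (cons (fin 974 2 910)
(mv 849 (cons (fin 785 5 784)
(mv 1042 (cons (fin 1043 0 975)
(fin 1106 7 849))))))))))
(cons (mv 910 (cons (fin 911 3 910)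
(mv 974 (cons (fin 909 3 909)
(mv 973 (cons (fin 972 0 972)
(fin 1041 0 973)))))))
(mv 911 (cons (fin 910 3 910)
(mv 847 (cons (fin 783 4 783)
(fin 1104 4 847)))))))))))
(cons (mv 1038 (cons (fin 1037 2 973)
(mv 1041 (cons (cons (mv 973 (cons (fin 974 3 973)
(mv 1101 (cons (fin 1102 1 1037)
(mv 1105 (cons (fin 1106 0 1038)
(mv 1169 (cons (fin 1233 7 976)
(mv 1168 (cons (fin 1232 5 976)
(mv 913 (cons (fin 1104 5 912)
(mv 849 (cons (fin 785 5 784)
(mv 850 (cons (fin 786 6 785)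
(fin 914 6 849)))))))))))))))))
(mv 1101 (cons (fin 1102 1 1037)
(mv 1105 (cons (fin 1106 0 1038)
(mv 1169 (cons (fin 1233 7 976)
(mv 1168 (cons (fin 1232 5 976)
(mv 913 (cons (fin 1104 5 912)
(mv 849 (cons (fin 785 5 784)
(mv 850 (cons (fin 786 6 785)
(fin 914 6 849))))))))))))))))
(cons (mv 973 (cons (fin 974 3 973)
(mv 1102 (cons (fin 1101 1 1037)
(mv 1042 (cons (fin 1103 1 1038)
(mv 1043 (cons (fin 975 3 975)
(fin 1044 3 976)))))))))
(mv 973 (cons (fin 974 3 973)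
(mv 1105 (cons (fin 1106 0 1038)
(mv 1169 (cons (fin 1233 7 976)
(mv 1168 (cons (fin 1232 5 976)
(mv 913 (cons (fin 1104 5 912)
(mv 849 (cons (fin 785 5 784)
(mv 850 (cons (fin 786 6 785)
(fin 914 6 849))))))))))))))))))))
(mv 978 (cons (fin 979 1 975)
(mv 1038 (cons (fin 1037 2 973)
(fin 1041 2 974))))))))
(cons (mv 1103 (cons (cons (cons (mv 1167 (cons (fin 1231 6 975)
(mv 975 (cons (mv 910 (cons (fin 974 7 910)
(mv 911 (cons (fin 846 7 846)
(mv 847 (cons (fin 783 4 783)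
(fin 1104 4 847)))))))
(cons (mv 1166 (cons (fin 1230 5 974)
(mv 911 (cons (fin 1102 5 910)
(mv 847 (cons (fin 783 4 783)
(fin 1104 4 847)))))))
(mv 974 (cons (fin 910 7 910)
(mv 973 (cons (fin 972 0 972)
(fin 1041 0 973))))))))))
(mv 1102 (cons (cons (mv 1041 (cons (fin 1042 1 1038)
(mv 1101 (cons (fin 1038 1 1037)
(fin 1100 2 1036)))))
(mv 1101 (cons (fin 1100 2 1036)
(mv 1104 (cons (cons (mv 1036 (cons (fin 1037 3 1036)
(mv 1164 (cons (fin 1165 1 1100)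
(mv 1168 (cons (fin 1169 0 1101)
(mv 975 (cons (fin 911 7 911)
(fin 1232 7 975)))))))))
(mv 1036 (cons (fin 1037 3 1036)
(mv 1165 (cons (fin 1164 1 1100)
(mv 1105 (cons (fin 1166 1 1101)
(mv 1106 (cons (fin 1038 3 1038)
(fin 1107 3 1039))))))))))
(cons (mv 1164 (cons (fin 1165 1 1100)
(mv 1168 (cons (fin 1169 0 1101)
(mv 975 (cons (fin 911 7 911)
(fin 1232 7 975)))))))
(mv 1036 (cons (fin 1037 3 1036)
(mv 1168 (cons (fin 1169 0 1101)
(mv 975 (cons (fin 911 7 911)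
(fin 1232 7 975)))))))))))))
(cons (mv 1041 (cons (fin 1042 1 1038)
(mv 1038 (cons (cons (mv 973 (cons (fin 974 3 973)
(mv 1037 (cons (fin 972 3 972)
(mv 1036 (cons (fin 975 2 972)
(fin 1035 0 1035)))))))
(mv 1105 (cons (fin 1106 0 1038)
(mv 1037 (cons (fin 1104 3 1037)
(mv 1036 (cons (fin 975 2 972)
(fin 1035 0 1035))))))))
(cons (mv 974 (cons (fin 973 3 973)
(mv 910 (cons (fin 846 4 846)
(mv 845 (cons (fin 909 7 845)
(mv 911 (cons (fin 847 6 846)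
(mv 1105 (cons (fin 1106 0 1038)
(mv 1166 (cons (fin 975 5 910)
(mv 1165 (cons (fin 1104 1 1101)
(fin 1229 5 973)))))))))))))))
(mv 973 (cons (fin 974 3 973)
(mv 1037 (cons (fin 972 3 972)
(mv 1036 (cons (fin 1035 0 1035)
(fin 1104 0 1036))))))))))))
(mv 1041 (cons (fin 1042 1 1038)
(mv 1101 (cons (fin 1100 2 1036)
(fin 1104 2 1037)))))))))
(cons (mv 1167 (cons (fin 1231 6 975)
(mv 975 (cons (cons (mv 910 (cons (fin 974 7 910)
(mv 911 (cons (fin 846 7 846)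
(mv 847 (cons (fin 783 4 783)
(fin 1104 4 847)))))))
(mv 1166 (cons (fin 1230 5 974)
(mv 1168 (cons (fin 1232 4 975)
(mv 911 (cons (fin 1104 7 911)
(mv 846 (cons (fin 910 7 846)
(mv 847 (cons (fin 782 7 782)
(fin 783 4 783))))))))))))
(cons (mv 1166 (cons (fin 1230 5 974)
(mv 1168 (cons (fin 1232 4 975)
(mv 1104 (cons (fin 911 7 911)
(mv 1105 (cons (fin 1106 1 1102)
(fin 1165 2 1101)))))))))
(mv 974 (cons (fin 910 7 910)
(mv 973 (cons (fin 972 0 972)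
(fin 1041 0 973))))))))))
(cons (mv 1167 (cons (fin 1231 6 975)
(mv 975 (cons (mv 910 (cons (fin 974 7 910)
(mv 911 (cons (fin 846 7 846)
(mv 847 (cons (fin 783 4 783)
(fin 1104 4 847)))))))
(cons (mv 1166 (cons (fin 1230 5 974)
(mv 911 (cons (fin 1102 5 910)
(mv 847 (cons (fin 783 4 783)
(fin 1104 4 847)))))))
(mv 974 (cons (fin 910 7 910)
(mv 973 (cons (fin 972 0 972)
(mv 909 (cons (fin 908 3 908)
(mv 1036 (cons (fin 1037 1 972)
(mv 1166 (cons (fin 1230 5 974)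
(mv 1102 (cons (fin 1038 7 909)
(mv 1101 (cons (fin 1100 2 1036)
(mv 1168 (cons (fin 1169 3 1101)
(fin 1232 4 975))))))))))))))))))))))
(mv 1167 (cons (fin 1231 6 975)
(mv 1102 (cons (cons (mv 1041 (cons (fin 1042 1 1038)
(mv 1101 (cons (fin 1038 1 1037)
(fin 1100 2 1036)))))
(mv 1041 (cons (fin 1042 1 1038)
(mv 1038 (cons (mv 974 (cons (fin 973 3 973)
(fin 910 4 910)))
(cons (mv 1105 (cons (fin 1106 0 1038)
(mv 1037 (cons (fin 1104 3 1037)
(mv 972 (cons (fin 973 3 972)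
(mv 1036 (cons (fin 971 3 971)
(fin 1035 0 1035)))))))))
(mv 910 (cons (fin 974 4 910)
(mv 1105 (cons (fin 1106 0 1038)
(mv 1104 (cons (fin 1037 3 1037)
(mv 1166 (cons (fin 1165 1 1101)
(mv 1169 (cons (fin 1233 7 976)
(mv 1230 (cons (fin 1294 6 1038)
(mv 1229 (cons (fin 1168 1 1165)
(fin 1293 5 1037)))))))))))))))))))))
(cons (mv 1101 (cons (fin 1100 2 1036)
(mv 1104 (cons (cons (mv 1036 (cons (fin 1037 3 1036)
(mv 1165 (cons (fin 1164 1 1100)
(mv 1105 (cons (fin 1166 1 1101)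
(mv 1106 (cons (fin 1038 3 1038)
(fin 1107 3 1039)))))))))
(mv 1165 (cons (fin 1164 1 1100)
(mv 1105 (cons (fin 1166 1 1101)
(mv 1106 (cons (fin 1038 3 1038)
(fin 1107 3 1039))))))))
(cons (mv 1037 (cons (fin 1036 3 1036)
(mv 1038 (cons (fin 1105 3 1037)
(mv 910 (cons (fin 974 4 910)
(mv 973 (cons (fin 972 3 972)
(mv 909 (cons (fin 846 6 845)
(fin 845 4 845)))))))))))
(mv 1036 (cons (fin 1037 3 1036)
(mv 1165 (cons (fin 1164 1 1100)
(mv 1168 (cons (fin 1169 0 1101)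
(mv 1232 (cons (fin 1296 7 1039)
(mv 1233 (cons (fin 1166 0 1165)
(fin 1297 4 1040))))))))))))))))
(mv 1041 (cons (fin 1042 1 1038)
(mv 1101 (cons (fin 1100 2 1036)
(fin 1104 2 1037)))))))))))))
(cons (cons (mv 1167 (cons (fin 1231 6 975)
(mv 975 (cons (cons (mv 910 (cons (fin 974 7 910)
(mv 911 (cons (fin 846 7 846)
(mv 1166 (cons (fin 1102 5 910)
(fin 1230 5 974)))))))
(mv 1166 (cons (fin 1230 5 974)
(mv 911 (cons (fin 1102 5 910)
(mv 846 (cons (fin 910 7 846)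
(mv 847 (cons (fin 782 7 782)
(fin 783 4 783))))))))))
(cons (mv 1166 (cons (fin 1230 5 974)
(mv 1102 (cons (fin 911 5 910)
(mv 1041 (cons (fin 1042 1 1038)
(mv 1101 (cons (fin 1038 1 1037)
(fin 1100 2 1036)))))))))
(mv 974 (cons (fin 910 7 910)
(mv 973 (cons (fin 972 0 972)
(fin 1041 0 973))))))))))
(mv 1167 (cons (fin 1231 6 975)
(mv 975 (cons (cons (mv 1166 (cons (fin 1230 5 974)
(mv 911 (cons (fin 1102 5 910)
(mv 847 (cons (fin 783 4 783)
(fin 1104 4 847)))))))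
(mv 1168 (cons (fin 1232 4 975)
(mv 911 (cons (fin 1104 7 911)
(mv 846 (cons (fin 910 7 846)
(mv 847 (cons (fin 782 7 782)
(fin 783 4 783))))))))))
(cons (mv 1166 (cons (fin 1230 5 974)
(mv 1168 (cons (fin 1232 4 975)
(mv 1101 (cons (mv 1100 (cons (fin 1165 3 1100)
(fin 1102 2 1036)))
(cons (mv 1165 (cons (fin 1100 3 1100)
(mv 1104 (cons (fin 1164 2 1100)
(fin 1105 2 1101)))))
(mv 1102 (cons (fin 1169 3 1101)
(mv 1041 (cons (fin 1038 1 1037)
(fin 1042 1 1038))))))))))))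
(mv 1166 (cons (fin 1230 5 974)
(mv 911 (cons (fin 1102 5 910)
(mv 846 (cons (fin 910 7 846)
(mv 847 (cons (fin 782 7 782)
(fin 783 4 783)))))))))))))))
(cons (mv 1167 (cons (fin 1231 6 975)
(mv 975 (cons (cons (mv 910 (cons (fin 974 7 910)
(mv 911 (cons (fin 846 7 846)
(mv 847 (cons (fin 783 4 783)
(fin 1104 4 847)))))))
(mv 1168 (cons (fin 1232 4 975)
(mv 911 (cons (fin 1104 7 911)
(mv 846 (cons (fin 910 7 846)
(mv 847 (cons (fin 782 7 782)
(fin 783 4 783))))))))))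
(cons (mv 1168 (cons (fin 1232 4 975)
(mv 911 (cons (fin 1104 7 911)
(mv 847 (cons (fin 783 4 783)
(mv 782 (cons (fin 846 7 782)
(mv 784 (cons (fin 848 6 783)
(mv 1038 (cons (fin 1102 5 846)
(mv 1037 (cons (fin 1036 2 972)
(mv 973 (cons (fin 972 3 972)
(mv 1041 (cons (fin 974 3 973)
(mv 1042 (cons (fin 1043 3 975)
(mv 1106 (cons (fin 1105 0 1038)
(fin 1107 0 1039)))))))))))))))))))))))
(mv 974 (cons (fin 910 7 910)
(mv 973 (cons (fin 972 0 972)
(fin 1041 0 973))))))))))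
(cons (mv 1167 (cons (fin 1231 6 975)
(mv 975 (cons (cons (mv 1166 (cons (fin 1230 5 974)
(mv 911 (cons (fin 1102 5 910)
(mv 847 (cons (fin 783 4 783)
(fin 1104 4 847)))))))
(mv 1168 (cons (fin 1232 4 975)
(mv 911 (cons (fin 1104 7 911)
(mv 847 (cons (fin 783 4 783)
(mv 782 (cons (fin 846 7 782)
(mv 784 (cons (fin 848 6 783)
(mv 1038 (cons (fin 1102 5 846)
(mv 1037 (cons (fin 1036 2 972)
(mv 973 (cons (fin 972 3 972)
(mv 1041 (cons (fin 974 3 973)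
(mv 1042 (cons (fin 1043 3 975)
(mv 1106 (cons (fin 1105 0 1038)
(fin 1107 0 1039))))))))))))))))))))))))
(cons (mv 1166 (cons (fin 1230 5 974)
(mv 1168 (cons (fin 1232 4 975)
(mv 1101 (cons (mv 1100 (cons (fin 1165 3 1100)
(fin 1102 2 1036)))
(cons (mv 1165 (cons (fin 1100 3 1100)
(mv 1104 (cons (fin 1164 2 1100)
(fin 1105 2 1101)))))
(mv 1102 (cons (fin 1169 3 1101)
(mv 1041 (cons (fin 1038 1 1037)
(fin 1042 1 1038))))))))))))
(cons (mv 1166 (cons (fin 1230 5 974)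
(mv 1102 (cons (fin 911 5 910)
(mv 1041 (cons (fin 1042 1 1038)
(mv 1101 (cons (fin 1038 1 1037)
(fin 1100 2 1036)))))))))
(mv 1166 (cons (fin 1230 5 974)
(mv 1168 (cons (fin 1232 4 975)
(mv 1104 (cons (fin 911 7 911)
(mv 1105 (cons (fin 1106 1 1102)
(fin 1165 2 1101)))))))))))))))
(mv 1167 (cons (fin 1231 6 975)
(mv 975 (cons (mv 910 (cons (fin 974 7 910)
(mv 1166 (cons (fin 1230 5 974)
(mv 911 (cons (fin 1102 5 910)
(mv 847 (cons (fin 783 4 783)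
(fin 1104 4 847)))))))))
(cons (mv 1166 (cons (fin 1230 5 974)
(mv 911 (cons (fin 1102 5 910)
(mv 847 (cons (fin 783 4 783)
(fin 1104 4 847)))))))
(mv 974 (cons (fin 910 7 910)
(mv 973 (cons (fin 972 0 972)
(fin 1041 0 973)))))))))))))))
(mv 975 (cons (cons (cons (mv 911 (cons (mv 847 (cons (fin 783 4 783)
(fin 1104 4 847)))
(cons (mv 847 (cons (fin 783 4 783)
(mv 784 (cons (fin 848 6 783)
(mv 846 (cons (fin 782 7 782)
(mv 910 (cons (fin 1103 7 846)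
(mv 909 (cons (fin 908 0 908)
(mv 977 (cons (fin 974 3 909)
(fin 978 3 910)))))))))))))
(mv 1104 (cons (fin 1168 7 911)
(mv 1103 (cons (mv 846 (cons (fin 910 7 846)
(mv 1102 (cons (fin 1166 5 910)
(mv 1041 (cons (fin 1042 1 1038)
(fin 1101 2 1037)))))))
(cons (mv 910 (cons (fin 846 7 846)
(mv 1167 (cons (fin 974 7 910)
(fin 1231 6 975)))))
(mv 1102 (cons (fin 1166 5 910)
(mv 1041 (cons (fin 1042 1 1038)
(fin 1101 2 1037)))))))))))))
(mv 974 (cons (mv 973 (cons (fin 972 0 972)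
(fin 1041 0 973)))
(cons (mv 973 (cons (fin 972 0 972)
(mv 909 (cons (fin 908 3 908)
(mv 910 (cons (fin 977 3 909)
(mv 782 (cons (fin 846 4 782)
(mv 1037 (cons (fin 1036 1 972)
(mv 1101 (cons (fin 1165 6 909)
(mv 1100 (cons (fin 1164 5 908)
(mv 1102 (cons (fin 1103 2 1036)
(fin 1166 4 909)))))))))))))))))
(mv 977 (cons (cons (mv 909 (cons (fin 910 3 909)
(mv 913 (cons (fin 914 2 910)
(mv 785 (cons (fin 849 5 784)
(mv 978 (cons (fin 979 1 975)
(mv 1042 (cons (fin 1041 3 974)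
(fin 1043 0 975)))))))))))
(mv 909 (cons (fin 910 3 909)
(mv 913 (cons (fin 914 2 910)
(mv 849 (cons (fin 785 5 784)
(mv 1104 (cons (fin 1041 5 848)
(fin 1168 6 912))))))))))
(cons (mv 909 (cons (fin 910 3 909)
(mv 914 (cons (fin 913 2 910)
(mv 978 (cons (fin 979 1 975)
(fin 915 2 911)))))))
(cons (mv 909 (cons (fin 910 3 909)
(mv 978 (cons (fin 979 1 975)
(mv 1042 (cons (fin 1041 3 974)
(fin 1043 0 975)))))))
(mv 913 (cons (fin 914 2 910)
(mv 785 (cons (fin 849 5 784)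
(mv 978 (cons (fin 979 1 975)
(mv 1042 (cons (fin 1041 3 974)
(fin 1043 0 975)))))))))))))))))
(cons (mv 911 (cons (mv 847 (cons (fin 783 4 783)
(fin 1104 4 847)))
(cons (mv 847 (cons (fin 783 4 783)
(mv 784 (cons (fin 848 6 783)
(mv 846 (cons (fin 782 7 782)
(mv 1103 (cons (fin 910 7 846)
(mv 1166 (cons (fin 1102 5 910)
(mv 1167 (cons (fin 1230 5 974)
(fin 1231 6 975)))))))))))))
(mv 1103 (cons (cons (mv 846 (cons (fin 910 7 846)
(mv 1102 (cons (fin 1166 5 910)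
(mv 1041 (cons (fin 1042 1 1038)
(mv 1101 (cons (fin 1100 2 1036)
(fin 1104 2 1037)))))))))
(mv 846 (cons (fin 910 7 846)
(mv 1166 (cons (fin 1102 5 910)
(mv 1167 (cons (fin 1230 5 974)
(fin 1231 6 975))))))))
(cons (mv 846 (cons (fin 910 7 846)
(mv 1167 (cons (fin 1231 6 975)
(mv 1168 (cons (fin 1104 7 911)
(fin 1232 4 975)))))))
(mv 1102 (cons (fin 1166 5 910)
(mv 1041 (cons (fin 1042 1 1038)
(mv 1101 (cons (fin 1100 2 1036)
(fin 1104 2 1037)))))))))))))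
(mv 911 (cons (mv 847 (cons (fin 783 4 783)
(fin 1104 4 847)))
(cons (mv 847 (cons (fin 783 4 783)
(mv 784 (cons (fin 848 6 783)
(mv 846 (cons (fin 782 7 782)
(mv 910 (cons (fin 1103 7 846)
(mv 909 (cons (fin 908 0 908)
(mv 977 (cons (fin 974 3 909)
(fin 978 3 910)))))))))))))
(mv 1104 (cons (fin 1168 7 911)
(mv 1103 (cons (cons (mv 846 (cons (fin 910 7 846)
(mv 1166 (cons (fin 1102 5 910)
(mv 1167 (cons (fin 1230 5 974)
(fin 1231 6 975)))))))
(mv 910 (cons (fin 846 7 846)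
(mv 908 (cons (fin 909 0 908)
(mv 977 (cons (fin 978 3 910)
(mv 1102 (cons (fin 1166 5 910)
(mv 1101 (cons (fin 1100 2 1036)
(mv 1037 (cons (fin 1036 3 1036)
(mv 1165 (cons (fin 1164 1 1100)
(mv 973 (cons (fin 972 7 908)
(fin 974 6 909))))))))))))))))))
(cons (mv 1166 (cons (fin 1102 5 910)
(mv 1167 (cons (fin 1230 5 974)
(fin 1231 6 975)))))
(mv 910 (cons (fin 846 7 846)
(mv 1167 (cons (fin 974 7 910)
(fin 1231 6 975)))))))))))))))
(cons (cons (mv 974 (cons (mv 973 (cons (fin 972 0 972)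
(fin 1041 0 973)))
(cons (mv 973 (cons (fin 972 0 972)
(mv 909 (cons (fin 908 3 908)
(mv 910 (cons (fin 977 3 909)
(mv 782 (cons (fin 846 4 782)
(mv 1037 (cons (fin 1036 1 972)
(mv 1101 (cons (fin 1165 6 909)
(mv 1100 (cons (fin 1164 5 908)
(mv 1102 (cons (fin 1103 2 1036)
(fin 1166 4 909)))))))))))))))))
(mv 1041 (cons (fin 1042 3 974)
(mv 977 (cons (cons (mv 909 (cons (fin 910 3 909)
(mv 914 (cons (fin 913 2 910)
(mv 978 (cons (fin 979 1 975)
(fin 915 2 911)))))))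
(mv 910 (cons (fin 909 3 909)
(mv 782 (cons (fin 846 4 782)
(mv 913 (cons (fin 914 2 910)
(mv 849 (cons (fin 785 5 784)
(mv 848 (cons (fin 784 7 784)
(mv 850 (cons (fin 786 6 785)
(mv 847 (cons (fin 783 3 782)
(fin 911 1 846))))))))))))))))
(cons (mv 914 (cons (fin 913 2 910)
(mv 978 (cons (fin 979 1 975)
(fin 915 2 911)))))
(mv 910 (cons (fin 909 3 909)
(mv 978 (cons (fin 911 3 910)
(fin 979 1 975)))))))))))))
(mv 974 (cons (mv 973 (cons (fin 972 0 972)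
(fin 1041 0 973)))
(cons (mv 973 (cons (fin 972 0 972)
(mv 909 (cons (fin 908 3 908)
(mv 910 (cons (fin 977 3 909)
(mv 846 (cons (fin 782 4 782)
(mv 1037 (cons (fin 1036 1 972)
(fin 1101 6 845)))))))))))
(mv 1041 (cons (fin 1042 3 974)
(mv 977 (cons (mv 909 (cons (fin 910 3 909)
(mv 913 (cons (fin 914 2 910)
(mv 849 (cons (fin 785 5 784)
(fin 1104 5 848)))))))
(cons (mv 910 (cons (fin 909 3 909)
(mv 978 (cons (fin 911 3 910)
(fin 979 1 975)))))
(mv 913 (cons (fin 914 2 910)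
(mv 849 (cons (fin 785 5 784)
(fin 1104 5 848))))))))))))))
(cons (mv 977 (cons (cons (mv 978 (cons (fin 979 1 975)
(mv 914 (cons (fin 915 2 911)
(mv 913 (cons (fin 974 2 910)
(mv 849 (cons (fin 785 5 784)
(mv 1042 (cons (fin 1043 0 975)
(fin 1106 7 849)))))))))))
(cons (mv 1041 (cons (mv 974 (cons (fin 1042 3 974)
(fin 973 0 973)))
(cons (mv 974 (cons (fin 973 0 973)
(mv 913 (cons (fin 914 2 910)
(mv 849 (cons (fin 785 5 784)
(fin 1104 5 848)))))))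
(mv 1042 (cons (fin 1043 3 975)
(mv 1103 (cons (fin 1102 1 1038)
(mv 1106 (cons (fin 1107 0 1039)
(mv 849 (cons (fin 913 4 849)
(mv 1167 (cons (fin 1231 6 975)
(mv 1166 (cons (fin 1230 5 974)
(mv 1104 (cons (fin 1105 1 1102)
(mv 911 (cons (fin 1168 7 911)
(fin 847 4 847))))))))))))))))))))
(mv 978 (cons (fin 979 1 975)
(mv 914 (cons (fin 915 2 911)
(mv 1042 (cons (fin 1043 0 975)
(mv 1041 (cons (mv 850 (cons (fin 786 5 785)
(fin 1105 5 849)))
(cons (mv 786 (cons (fin 850 5 785)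
(mv 1103 (cons (fin 1102 1 1038)
(mv 1106 (cons (fin 1107 0 1039)
(mv 849 (cons (fin 913 7 849)
(mv 1167 (cons (fin 1231 6 975)
(mv 1166 (cons (fin 1230 5 974)
(mv 1168 (cons (fin 1232 4 975)
(mv 911 (cons (fin 1104 7 911)
(mv 847 (cons (fin 783 4 783)
(mv 846 (cons (fin 782 7 782)
(mv 848 (cons (fin 785 2 782)
(fin 784 6 783)))))))))))))))))))))))
(mv 1103 (cons (fin 1102 1 1038)
(mv 1105 (cons (fin 1169 6 913)
(mv 1106 (cons (fin 1107 0 1039)
(mv 849 (cons (fin 913 7 849)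
(mv 1167 (cons (fin 1231 6 975)
(mv 1166 (cons (fin 1104 1 1102)
(fin 1230 5 974))))))))))))))))))))))))
(cons (mv 978 (cons (fin 979 1 975)
(mv 914 (cons (fin 915 2 911)
(mv 913 (cons (fin 974 2 910)
(mv 849 (cons (fin 785 5 784)
(mv 1104 (cons (fin 1041 5 848)
(fin 1168 6 912)))))))))))
(cons (mv 978 (cons (fin 979 1 975)
(mv 914 (cons (fin 915 2 911)
(mv 1042 (cons (fin 1043 0 975)
(mv 1041 (cons (fin 974 3 974)
(mv 850 (cons (fin 786 5 785)
(fin 1105 5 849)))))))))))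
(mv 978 (cons (fin 979 1 975)
(mv 1042 (cons (fin 1043 0 975)
(mv 1041 (cons (fin 974 3 974)
(mv 1103 (cons (fin 1102 1 1038)
(mv 1106 (cons (fin 1107 0 1039)
(mv 849 (cons (fin 913 4 849)
(mv 1167 (cons (fin 1231 6 975)
(mv 1166 (cons (fin 1230 5 974)
(mv 1104 (cons (fin 1105 1 1102)
(mv 911 (cons (fin 1168 7 911)
(fin 847 4 847)))))))))))))))))))))))))
(mv 974 (cons (mv 973 (cons (fin 972 0 972)
(fin 1041 0 973)))
(cons (mv 973 (cons (fin 972 0 972)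
(mv 909 (cons (fin 908 3 908)
(mv 910 (cons (fin 977 3 909)
(mv 1037 (cons (fin 1036 1 972)
(mv 1101 (cons (fin 1165 6 909)
(mv 1100 (cons (fin 1164 5 908)
(mv 1102 (cons (fin 1103 2 1036)
(fin 1166 4 909)))))))))))))))
(mv 1041 (cons (fin 1042 3 974)
(mv 977 (cons (mv 909 (cons (fin 910 3 909)
(mv 913 (cons (fin 914 2 910)
(mv 849 (cons (fin 785 5 784)
(fin 1104 5 848)))))))
(cons (mv 910 (cons (fin 909 3 909)
(mv 978 (cons (fin 911 3 910)
(fin 979 1 975)))))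
(mv 913 (cons (fin 914 2 910)
(mv 849 (cons (fin 785 5 784)
(fin 1104 5 848)))))))))))))))))))
(cons (cons (mv 1103 (cons (cons (cons (mv 1167 (cons (fin 1231 6 975)
(mv 975 (cons (mv 910 (cons (fin 974 7 910)
(mv 911 (cons (fin 846 7 846)
(mv 847 (cons (fin 783 4 783)
(fin 1104 4 847)))))))
(cons (mv 1166 (cons (fin 1230 5 974)
(mv 911 (cons (fin 1102 5 910)
(mv 847 (cons (fin 783 4 783)
(fin 1104 4 847)))))))
(mv 974 (cons (fin 910 7 910)
(mv 973 (cons (fin 972 0 972)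
(fin 1041 0 973))))))))))
(mv 1102 (cons (cons (mv 1041 (cons (fin 1042 1 1038)
(mv 1101 (cons (fin 1038 1 1037)
(fin 1100 2 1036)))))
(mv 1101 (cons (fin 1100 2 1036)
(mv 1104 (cons (mv 1164 (cons (fin 1165 1 1100)
(mv 1168 (cons (fin 1169 0 1101)
(mv 975 (cons (fin 911 7 911)
(fin 1232 7 975)))))))
(cons (mv 1165 (cons (fin 1164 1 1100)
(mv 1105 (cons (fin 1166 1 1101)
(mv 1106 (cons (fin 1038 3 1038)
(fin 1107 3 1039)))))))
(mv 1168 (cons (fin 1169 0 1101)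
(mv 975 (cons (fin 911 7 911)
(fin 1232 7 975)))))))))))
(cons (mv 1041 (cons (fin 1042 1 1038)
(mv 1038 (cons (cons (mv 973 (cons (fin 974 3 973)
(mv 977 (cons (fin 978 2 974)
(mv 1105 (cons (fin 1106 0 1038)
(mv 1169 (cons (fin 1233 7 976)
(mv 1168 (cons (fin 1232 5 976)
(mv 913 (cons (fin 1104 5 912)
(mv 849 (cons (fin 785 5 784)
(mv 850 (cons (fin 786 6 785)
(fin 914 6 849)))))))))))))))))
(mv 977 (cons (fin 978 2 974)
(mv 1105 (cons (fin 1106 0 1038)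
(mv 1169 (cons (fin 1233 7 976)
(mv 1168 (cons (fin 1232 5 976)
(mv 913 (cons (fin 1104 5 912)
(mv 849 (cons (fin 785 5 784)
(mv 850 (cons (fin 786 6 785)
(fin 914 6 849))))))))))))))))
(cons (mv 974 (cons (fin 973 3 973)
(mv 910 (cons (fin 846 4 846)
(mv 845 (cons (fin 909 7 845)
(mv 911 (cons (fin 847 6 846)
(mv 1105 (cons (fin 1106 0 1038)
(mv 1166 (cons (fin 975 5 910)
(mv 1165 (cons (fin 1104 1 1101)
(fin 1229 5 973)))))))))))))))
(cons (mv 974 (cons (fin 973 3 973)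
(mv 910 (cons (fin 846 4 846)
(mv 845 (cons (fin 909 7 845)
(mv 911 (cons (fin 847 6 846)
(mv 975 (cons (fin 1166 5 910)
(mv 977 (cons (fin 978 3 910)
(mv 913 (cons (fin 914 2 910)
(mv 849 (cons (fin 785 5 784)
(fin 1104 5 848)))))))))))))))))
(mv 974 (cons (fin 973 3 973)
(mv 910 (cons (fin 846 4 846)
(mv 845 (cons (fin 909 7 845)
(mv 911 (cons (fin 847 6 846)
(mv 977 (cons (fin 978 2 974)
(mv 1105 (cons (fin 1106 0 1038)
(mv 1166 (cons (fin 975 5 910)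
(mv 1165 (cons (fin 1229 5 973)
(mv 1163 (cons (fin 1164 2 1099)
(mv 1230 (cons (fin 1294 6 1038)
(mv 1231 (cons (fin 1295 4 1038)
(mv 1233 (cons (fin 1232 3 1165)
(fin 1169 7 976)))))))))))))))))))))))))))))))
(mv 1041 (cons (fin 1042 1 1038)
(mv 1101 (cons (fin 1100 2 1036)
(fin 1104 2 1037)))))))))
(cons (mv 1102 (cons (cons (mv 1041 (cons (fin 1042 1 1038)
(mv 1101 (cons (fin 1038 1 1037)
(fin 1100 2 1036)))))
(mv 1101 (cons (fin 1100 2 1036)
(mv 1104 (cons (mv 1164 (cons (fin 1165 1 1100)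
(mv 1168 (cons (fin 1169 0 1101)
(mv 975 (cons (fin 911 7 911)
(fin 1232 7 975)))))))
(cons (mv 1165 (cons (fin 1164 1 1100)
(mv 1105 (cons (fin 1166 1 1101)
(mv 1106 (cons (fin 1038 3 1038)
(fin 1107 3 1039)))))))
(mv 1168 (cons (fin 1169 0 1101)
(mv 975 (cons (fin 911 7 911)
(fin 1232 7 975)))))))))))
(cons (mv 1041 (cons (fin 1042 1 1038)
(mv 1038 (cons (mv 973 (cons (fin 974 3 973)
(mv 977 (cons (fin 978 2 974)
(mv 1105 (cons (fin 1106 0 1038)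
(mv 1169 (cons (fin 1233 7 976)
(mv 1168 (cons (fin 1232 5 976)
(mv 913 (cons (fin 1104 5 912)
(mv 849 (cons (fin 785 5 784)
(mv 850 (cons (fin 786 6 785)
(fin 914 6 849)))))))))))))))))
(cons (mv 977 (cons (fin 978 2 974)
(mv 1105 (cons (fin 1106 0 1038)
(mv 1169 (cons (fin 1233 7 976)
(mv 1168 (cons (fin 1232 5 976)
(mv 913 (cons (fin 1104 5 912)
(mv 849 (cons (fin 785 5 784)
(mv 850 (cons (fin 786 6 785)
(fin 914 6 849)))))))))))))))
(mv 974 (cons (fin 973 3 973)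
(mv 910 (cons (fin 846 4 846)
(fin 1167 4 910))))))))))
(mv 1041 (cons (fin 1042 1 1038)
(mv 1101 (cons (fin 1100 2 1036)
(fin 1104 2 1037))))))))
(cons (mv 1167 (cons (fin 1231 6 975)
(mv 975 (cons (cons (mv 910 (cons (fin 974 7 910)
(mv 911 (cons (fin 846 7 846)
(mv 847 (cons (fin 783 4 783)
(fin 1104 4 847)))))))
(mv 1166 (cons (fin 1230 5 974)
(mv 1168 (cons (fin 1232 4 975)
(mv 911 (cons (fin 1104 7 911)
(mv 846 (cons (fin 910 7 846)
(mv 847 (cons (fin 782 7 782)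
(fin 783 4 783))))))))))))
(cons (mv 1166 (cons (fin 1230 5 974)
(mv 1168 (cons (fin 1232 4 975)
(mv 1104 (cons (fin 911 7 911)
(mv 1105 (cons (fin 1106 1 1102)
(fin 1165 2 1101)))))))))
(mv 974 (cons (fin 910 7 910)
(mv 973 (cons (fin 972 0 972)
(fin 1041 0 973))))))))))
(mv 1167 (cons (fin 1231 6 975)
(mv 975 (cons (cons (mv 910 (cons (fin 974 7 910)
(mv 911 (cons (fin 846 7 846)
(mv 847 (cons (fin 783 4 783)
(fin 1104 4 847)))))))
(mv 1166 (cons (fin 1230 5 974)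
(mv 911 (cons (fin 1102 5 910)
(mv 847 (cons (fin 783 4 783)
(fin 1104 4 847))))))))
(cons (mv 974 (cons (fin 910 7 910)
(mv 973 (cons (fin 972 0 972)
(mv 909 (cons (fin 908 3 908)
(mv 1166 (cons (fin 1230 5 974)
(mv 1038 (cons (fin 1102 7 909)
(mv 781 (cons (fin 845 4 781)
(mv 977 (cons (fin 978 1 974)
(mv 913 (cons (fin 914 2 910)
(mv 1168 (cons (fin 1104 6 912)
(fin 1232 4 975)))))))))))))))))))
(mv 910 (cons (fin 974 7 910)
(mv 911 (cons (fin 846 7 846)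
(mv 1166 (cons (fin 1102 5 910)
(fin 1230 5 974)))))))))))))))
(cons (cons (mv 1167 (cons (fin 1231 6 975)
(mv 1041 (cons (cons (mv 1042 (cons (fin 1102 1 1038)
(mv 978 (cons (fin 979 2 975)
(mv 977 (cons (fin 1038 2 974)
(mv 1043 (cons (fin 1044 3 976)
(fin 1104 1 1039)))))))))
(cons (mv 1038 (cons (cons (mv 973 (cons (fin 974 3 973)
(mv 977 (cons (fin 978 2 974)
(mv 1101 (cons (fin 1102 1 1037)
(mv 1105 (cons (fin 1106 0 1038)
(mv 1169 (cons (fin 1233 7 976)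
(mv 1168 (cons (fin 1232 5 976)
(mv 913 (cons (fin 1104 5 912)
(mv 849 (cons (fin 785 5 784)
(mv 850 (cons (fin 786 6 785)
(fin 914 6 849)))))))))))))))))))
(mv 973 (cons (fin 974 3 973)
(mv 977 (cons (fin 978 2 974)
(mv 1105 (cons (fin 1106 0 1038)
(mv 1169 (cons (fin 1233 7 976)
(mv 1168 (cons (fin 1232 5 976)
(mv 913 (cons (fin 1104 5 912)
(mv 849 (cons (fin 785 5 784)
(mv 850 (cons (fin 786 6 785)
(fin 914 6 849))))))))))))))))))
(cons (mv 974 (cons (fin 973 3 973)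
(mv 910 (cons (fin 846 4 846)
(fin 1102 4 910)))))
(mv 977 (cons (fin 978 2 974)
(mv 1101 (cons (fin 1102 1 1037)
(mv 1105 (cons (fin 1106 0 1038)
(mv 1169 (cons (fin 1233 7 976)
(mv 1168 (cons (fin 1232 5 976)
(mv 913 (cons (fin 1104 5 912)
(mv 849 (cons (fin 785 5 784)
(mv 850 (cons (fin 786 6 785)
(fin 914 6 849))))))))))))))))))))
(mv 1042 (cons (cons (mv 978 (cons (fin 979 2 975)
(mv 977 (cons (fin 1038 2 974)
(mv 1043 (cons (fin 1044 3 976)
(fin 1104 1 1039)))))))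
(mv 978 (cons (fin 979 2 975)
(mv 977 (cons (fin 1038 2 974)
(mv 1106 (cons (fin 1107 0 1039)
(mv 913 (cons (fin 849 4 849)
(mv 1104 (cons (fin 1168 6 912)
(mv 1105 (cons (fin 1166 1 1102)
(mv 914 (cons (fin 850 5 849)
(fin 1169 5 913))))))))))))))))
(cons (mv 1043 (cons (fin 1104 1 1039)
(mv 1107 (cons (fin 1106 0 1039)
(fin 1108 0 1040)))))
(mv 978 (cons (fin 979 2 975)
(mv 977 (cons (fin 1038 2 974)
(mv 1043 (cons (fin 1044 3 976)
(mv 1107 (cons (fin 1106 0 1039)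
(fin 1108 0 1040))))))))))))))
(cons (mv 1042 (cons (fin 1102 1 1038)
(mv 978 (cons (fin 979 2 975)
(mv 1043 (cons (fin 1104 1 1039)
(mv 1107 (cons (fin 1106 0 1039)
(fin 1108 0 1040)))))))))
(cons (mv 1042 (cons (fin 1102 1 1038)
(mv 1043 (cons (fin 1104 1 1039)
(mv 1107 (cons (fin 1106 0 1039)
(fin 1108 0 1040)))))))
(mv 1042 (cons (fin 1102 1 1038)
(mv 978 (cons (fin 979 2 975)
(mv 977 (cons (fin 1038 2 974)
(mv 1043 (cons (fin 1044 3 976)
(mv 1107 (cons (fin 1106 0 1039)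
(fin 1108 0 1040)))))))))))))))))
(mv 1167 (cons (fin 1231 6 975)
(mv 975 (cons (cons (mv 910 (cons (fin 974 7 910)
(mv 911 (cons (fin 846 7 846)
(mv 1166 (cons (fin 1102 5 910)
(fin 1230 5 974)))))))
(mv 1166 (cons (fin 1230 5 974)
(mv 911 (cons (fin 1102 5 910)
(mv 846 (cons (fin 910 7 846)
(mv 847 (cons (fin 782 7 782)
(fin 783 4 783))))))))))
(cons (mv 1166 (cons (fin 1230 5 974)
(mv 1102 (cons (fin 911 5 910)
(mv 1041 (cons (fin 1042 1 1038)
(mv 1101 (cons (fin 1038 1 1037)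
(fin 1100 2 1036)))))))))
(mv 974 (cons (fin 910 7 910)
(mv 973 (cons (fin 972 0 972)
(fin 1041 0 973)))))))))))
(cons (mv 1167 (cons (fin 1231 6 975)
(mv 975 (cons (cons (mv 1166 (cons (fin 1230 5 974)
(mv 911 (cons (fin 1102 5 910)
(mv 847 (cons (fin 783 4 783)
(fin 1104 4 847)))))))
(mv 1168 (cons (fin 1232 4 975)
(mv 911 (cons (fin 1104 7 911)
(mv 846 (cons (fin 910 7 846)
(mv 847 (cons (fin 782 7 782)
(fin 783 4 783))))))))))
(cons (mv 1166 (cons (fin 1230 5 974)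
(mv 1168 (cons (fin 1232 4 975)
(mv 1104 (cons (mv 1105 (cons (fin 1106 1 1102)
(fin 1165 2 1101)))
(cons (mv 913 (cons (fin 977 6 912)
(mv 1165 (cons (fin 1164 2 1100)
(mv 1101 (cons (fin 1100 3 1100)
(mv 1102 (cons (fin 1169 3 1101)
(fin 1041 2 1037)))))))))
(mv 977 (cons (fin 913 6 912)
(mv 978 (cons (fin 1038 1 974)
(fin 979 1 975))))))))))))
(mv 1166 (cons (fin 1230 5 974)
(mv 911 (cons (fin 1102 5 910)
(mv 846 (cons (fin 910 7 846)
(mv 847 (cons (fin 782 7 782)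
(fin 783 4 783))))))))))))))
(cons (mv 1167 (cons (fin 1231 6 975)
(mv 975 (cons (cons (mv 910 (cons (fin 974 7 910)
(mv 911 (cons (fin 846 7 846)
(mv 847 (cons (fin 783 4 783)
(fin 1104 4 847)))))))
(mv 1168 (cons (fin 1232 4 975)
(mv 911 (cons (fin 1104 7 911)
(mv 846 (cons (fin 910 7 846)
(mv 847 (cons (fin 782 7 782)
(fin 783 4 783))))))))))
(cons (mv 1168 (cons (fin 1232 4 975)
(mv 1104 (cons (fin 911 7 911)
(mv 977 (cons (fin 913 6 912)
(mv 978 (cons (fin 1038 1 974)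
(fin 979 1 975)))))))))
(mv 974 (cons (fin 910 7 910)
(mv 973 (cons (fin 972 0 972)
(fin 1041 0 973))))))))))
(mv 1167 (cons (fin 1231 6 975)
(mv 975 (cons (cons (mv 1166 (cons (fin 1230 5 974)
(mv 911 (cons (fin 1102 5 910)
(mv 847 (cons (fin 783 4 783)
(fin 1104 4 847)))))))
(mv 1168 (cons (fin 1232 4 975)
(mv 1104 (cons (fin 911 7 911)
(mv 977 (cons (fin 913 6 912)
(mv 978 (cons (fin 1038 1 974)
(fin 979 1 975))))))))))
(cons (mv 1166 (cons (fin 1230 5 974)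
(mv 1168 (cons (fin 1232 4 975)
(mv 1104 (cons (mv 1105 (cons (fin 1106 1 1102)
(fin 1165 2 1101)))
(cons (mv 913 (cons (fin 977 6 912)
(mv 1165 (cons (fin 1164 2 1100)
(mv 1101 (cons (fin 1100 3 1100)
(mv 1102 (cons (fin 1169 3 1101)
(fin 1041 2 1037)))))))))
(mv 977 (cons (fin 913 6 912)
(mv 978 (cons (fin 1038 1 974)
(fin 979 1 975))))))))))))
(mv 1166 (cons (fin 1230 5 974)
(mv 1102 (cons (fin 911 5 910)
(mv 1041 (cons (fin 1042 1 1038)
(mv 1101 (cons (fin 1038 1 1037)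
(fin 1100 2 1036)))))))))))))))))))
(mv 977 (cons (cons (mv 978 (cons (fin 979 1 975)
(mv 1038 (cons (fin 975 1 974)
(fin 1037 2 973)))))
(mv 978 (cons (fin 979 1 975)
(mv 975 (cons (cons (mv 910 (cons (fin 911 3 910)
(mv 914 (cons (fin 915 2 911)
(mv 974 (cons (fin 909 3 909)
(fin 913 2 910)))))))
(mv 914 (cons (fin 915 2 911)
(mv 913 (cons (fin 974 2 910)
(mv 849 (cons (fin 785 5 784)
(mv 1042 (cons (fin 1043 0 975)
(fin 1106 7 849))))))))))
(cons (mv 910 (cons (fin 911 3 910)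
(mv 974 (cons (fin 909 3 909)
(mv 973 (cons (fin 972 0 972)
(fin 1041 0 973)))))))
(mv 911 (cons (fin 910 3 910)
(mv 847 (cons (fin 783 4 783)
(fin 1104 4 847)))))))))))
(cons (mv 1038 (cons (fin 1037 2 973)
(mv 1041 (cons (cons (mv 973 (cons (fin 974 3 973)
(mv 1101 (cons (fin 1102 1 1037)
(mv 1105 (cons (fin 1106 0 1038)
(mv 1169 (cons (fin 1233 7 976)
(mv 1168 (cons (fin 1232 5 976)
(mv 913 (cons (fin 1104 5 912)
(mv 849 (cons (fin 785 5 784)
(mv 850 (cons (fin 786 6 785)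
(fin 914 6 849)))))))))))))))))
(mv 1101 (cons (fin 1102 1 1037)
(mv 1105 (cons (fin 1106 0 1038)
(mv 1169 (cons (fin 1233 7 976)
(mv 1168 (cons (fin 1232 5 976)
(mv 913 (cons (fin 1104 5 912)
(mv 849 (cons (fin 785 5 784)
(mv 850 (cons (fin 786 6 785)
(fin 914 6 849))))))))))))))))
(cons (mv 974 (cons (fin 973 3 973)
(mv 975 (cons (fin 1042 3 974)
(mv 909 (cons (fin 910 3 909)
(mv 913 (cons (fin 914 2 910)
(mv 849 (cons (fin 785 5 784)
(fin 1104 5 848)))))))))))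
(mv 973 (cons (fin 974 3 973)
(mv 1101 (cons (fin 1102 1 1037)
(mv 1106 (cons (fin 1105 0 1038)
(mv 1042 (cons (fin 1107 0 1039)
(mv 1043 (cons (fin 975 3 975)
(fin 1044 3 976))))))))))))))))
(mv 978 (cons (fin 979 1 975)
(mv 1038 (cons (fin 1037 2 973)
(fin 1041 2 974)))))))))
(cons (mv 975 (cons (cons (cons (mv 911 (cons (mv 847 (cons (fin 783 4 783)
(fin 1104 4 847)))
(cons (mv 1104 (cons (fin 1168 7 911)
(mv 1103 (cons (mv 846 (cons (fin 910 7 846)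
(mv 1102 (cons (fin 1166 5 910)
(mv 1101 (cons (fin 1100 2 1036)
(mv 1037 (cons (fin 1036 3 1036)
(mv 1038 (cons (fin 1105 3 1037)
(fin 977 2 973)))))))))))
(cons (mv 1102 (cons (fin 1166 5 910)
(mv 1101 (cons (fin 1100 2 1036)
(mv 1037 (cons (fin 1036 3 1036)
(mv 1038 (cons (fin 1105 3 1037)
(fin 977 2 973)))))))))
(mv 910 (cons (fin 846 7 846)
(mv 1167 (cons (fin 974 7 910)
(fin 1231 6 975))))))))))
(mv 847 (cons (fin 783 4 783)
(mv 782 (cons (fin 846 7 782)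
(mv 784 (cons (fin 848 6 783)
(mv 1038 (cons (fin 1102 5 846)
(mv 977 (cons (fin 978 1 974)
(fin 1037 2 973))))))))))))))
(mv 977 (cons (mv 978 (cons (fin 1038 1 974)
(fin 979 1 975)))
(cons (mv 978 (cons (fin 979 1 975)
(mv 914 (cons (fin 915 2 911)
(mv 913 (cons (fin 974 2 910)
(mv 849 (cons (fin 785 5 784)
(mv 1042 (cons (fin 1043 0 975)
(fin 1106 7 849)))))))))))
(mv 974 (cons (mv 909 (cons (fin 910 3 909)
(mv 973 (cons (fin 908 3 908)
(fin 972 0 972)))))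
(cons (mv 910 (cons (fin 909 3 909)
(mv 846 (cons (fin 782 4 782)
(mv 1038 (cons (fin 1037 1 973)
(fin 1103 4 846)))))))
(mv 913 (cons (fin 914 2 910)
(mv 785 (cons (fin 849 5 784)
(mv 973 (cons (fin 972 0 972)
(mv 1037 (cons (fin 1036 1 972)
(fin 1038 1 973))))))))))))))))
(cons (mv 911 (cons (mv 847 (cons (fin 783 4 783)
(fin 1104 4 847)))
(cons (mv 1104 (cons (fin 1168 7 911)
(mv 1103 (cons (cons (mv 846 (cons (fin 910 7 846)
(mv 1102 (cons (fin 1166 5 910)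
(mv 1101 (cons (fin 1100 2 1036)
(mv 1037 (cons (fin 1036 3 1036)
(mv 1038 (cons (fin 1105 3 1037)
(mv 972 (cons (fin 973 3 972)
(mv 1165 (cons (fin 1164 1 1100)
(mv 1229 (cons (fin 974 6 973)
(fin 1293 6 1037)))))))))))))))))
(mv 1102 (cons (fin 1166 5 910)
(mv 1101 (cons (fin 1100 2 1036)
(mv 1037 (cons (fin 1036 3 1036)
(mv 1038 (cons (fin 1105 3 1037)
(mv 972 (cons (fin 973 3 972)
(mv 1165 (cons (fin 1164 1 1100)
(mv 1229 (cons (fin 974 6 973)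
(fin 1293 6 1037))))))))))))))))
(cons (mv 910 (cons (fin 846 7 846)
(mv 1167 (cons (fin 974 7 910)
(fin 1231 6 975)))))
(mv 846 (cons (fin 910 7 846)
(mv 1166 (cons (fin 1102 5 910)
(mv 1167 (cons (fin 1230 5 974)
(fin 1231 6 975))))))))))))
(mv 847 (cons (fin 783 4 783)
(mv 784 (cons (fin 848 6 783)
(mv 846 (cons (fin 782 7 782)
(mv 910 (cons (fin 1103 7 846)
(mv 908 (cons (fin 909 0 908)
(mv 1038 (cons (fin 1102 5 846)
(mv 1037 (cons (fin 1036 2 972)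
(mv 1101 (cons (fin 1100 1 1036)
(fin 974 5 845))))))))))))))))))))
(mv 911 (cons (mv 847 (cons (fin 783 4 783)
(fin 1104 4 847)))
(cons (mv 847 (cons (fin 783 4 783)
(mv 784 (cons (fin 848 6 783)
(mv 846 (cons (fin 782 7 782)
(mv 910 (cons (fin 1103 7 846)
(mv 909 (cons (fin 908 0 908)
(mv 977 (cons (fin 974 3 909)
(fin 978 3 910)))))))))))))
(mv 1104 (cons (fin 1168 7 911)
(mv 1103 (cons (cons (mv 846 (cons (fin 910 7 846)
(mv 1166 (cons (fin 1102 5 910)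
(mv 1167 (cons (fin 1230 5 974)
(fin 1231 6 975)))))))
(mv 910 (cons (fin 846 7 846)
(mv 908 (cons (fin 909 0 908)
(mv 977 (cons (fin 978 3 910)
(mv 1102 (cons (fin 1166 5 910)
(mv 1101 (cons (fin 1100 2 1036)
(mv 1037 (cons (fin 1036 3 1036)
(mv 1165 (cons (fin 1164 1 1100)
(mv 973 (cons (fin 972 7 908)
(fin 974 6 909))))))))))))))))))
(cons (mv 1166 (cons (fin 1102 5 910)
(mv 1167 (cons (fin 1230 5 974)
(fin 1231 6 975)))))
(mv 910 (cons (fin 846 7 846)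
(mv 1167 (cons (fin 974 7 910)
(fin 1231 6 975)))))))))))))))
(cons (cons (mv 911 (cons (mv 847 (cons (fin 783 4 783)
(fin 1104 4 847)))
(cons (mv 1104 (cons (fin 1168 7 911)
(mv 1103 (cons (mv 846 (cons (fin 910 7 846)
(mv 1166 (cons (fin 1102 5 910)
(mv 1167 (cons (fin 1230 5 974)
(fin 1231 6 975)))))))
(cons (mv 910 (cons (fin 846 7 846)
(mv 909 (cons (fin 908 0 908)
(mv 977 (cons (fin 974 3 909)
(fin 978 3 910)))))))
(mv 1166 (cons (fin 1102 5 910)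
(mv 1167 (cons (fin 1230 5 974)
(fin 1231 6 975))))))))))
(mv 847 (cons (fin 783 4 783)
(mv 784 (cons (fin 848 6 783)
(mv 846 (cons (fin 782 7 782)
(mv 910 (cons (fin 1103 7 846)
(mv 909 (cons (fin 908 0 908)
(mv 977 (cons (fin 974 3 909)
(fin 978 3 910))))))))))))))))
(mv 911 (cons (mv 847 (cons (fin 783 4 783)
(fin 1104 4 847)))
(cons (mv 1103 (cons (cons (mv 846 (cons (fin 910 7 846)
(mv 1102 (cons (fin 1166 5 910)
(mv 1100 (cons (fin 1101 2 1036)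
(mv 1167 (cons (fin 1231 6 975)
(mv 1168 (cons (fin 1104 7 911)
(fin 1232 4 975)))))))))))
(mv 846 (cons (fin 910 7 846)
(mv 1166 (cons (fin 1102 5 910)
(mv 1167 (cons (fin 1230 5 974)
(fin 1231 6 975))))))))
(cons (mv 846 (cons (fin 910 7 846)
(mv 1102 (cons (fin 1166 5 910)
(mv 1101 (cons (fin 1100 2 1036)
(mv 1104 (cons (fin 1168 7 911)
(mv 1037 (cons (fin 1036 3 1036)
(mv 1038 (cons (fin 1105 3 1037)
(fin 977 2 973)))))))))))))
(cons (mv 1102 (cons (fin 1166 5 910)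
(mv 1100 (cons (fin 1101 2 1036)
(mv 1167 (cons (fin 1231 6 975)
(mv 1168 (cons (fin 1104 7 911)
(fin 1232 4 975)))))))))
(mv 846 (cons (fin 910 7 846)
(mv 1167 (cons (fin 1231 6 975)
(mv 1168 (cons (fin 1104 7 911)
(fin 1232 4 975)))))))))))
(mv 847 (cons (fin 783 4 783)
(mv 782 (cons (fin 846 7 782)
(mv 784 (cons (fin 848 6 783)
(mv 1038 (cons (fin 1102 5 846)
(mv 977 (cons (fin 978 1 974)
(fin 1037 2 973)))))))))))))))
(cons (mv 977 (cons (mv 978 (cons (fin 1038 1 974)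
(fin 979 1 975)))
(cons (mv 974 (cons (mv 909 (cons (fin 910 3 909)
(mv 973 (cons (fin 908 3 908)
(fin 972 0 972)))))
(cons (mv 910 (cons (fin 909 3 909)
(mv 846 (cons (fin 782 4 782)
(mv 913 (cons (fin 914 2 910)
(mv 785 (cons (fin 849 5 784)
(mv 1038 (cons (fin 1037 1 973)
(mv 781 (cons (fin 845 7 781)
(mv 847 (cons (fin 783 6 782)
(mv 911 (cons (fin 1102 5 846)
(fin 1104 4 847)))))))))))))))))
(mv 913 (cons (fin 914 2 910)
(mv 785 (cons (fin 849 5 784)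
(mv 973 (cons (fin 972 0 972)
(mv 1037 (cons (fin 1036 1 972)
(fin 1038 1 973))))))))))))
(mv 978 (cons (fin 979 1 975)
(mv 910 (cons (fin 911 3 910)
(mv 914 (cons (fin 915 2 911)
(mv 974 (cons (fin 909 3 909)
(fin 913 2 910))))))))))))
(cons (mv 911 (cons (mv 847 (cons (fin 783 4 783)
(fin 1104 4 847)))
(cons (mv 1103 (cons (cons (mv 1102 (cons (fin 1166 5 910)
(mv 1100 (cons (fin 1101 2 1036)
(mv 1167 (cons (fin 1231 6 975)
(mv 1168 (cons (fin 1104 7 911)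
(fin 1232 4 975)))))))))
(mv 1166 (cons (fin 1102 5 910)
(mv 1167 (cons (fin 1230 5 974)
(fin 1231 6 975))))))
(cons (mv 1102 (cons (fin 1166 5 910)
(mv 1101 (cons (fin 1100 2 1036)
(mv 1104 (cons (fin 1168 7 911)
(mv 1037 (cons (fin 1036 3 1036)
(mv 1038 (cons (fin 1105 3 1037)
(fin 977 2 973)))))))))))
(mv 1167 (cons (fin 1231 6 975)
(mv 1168 (cons (fin 1104 7 911)
(fin 1232 4 975))))))))
(mv 847 (cons (fin 783 4 783)
(mv 782 (cons (fin 846 7 782)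
(mv 784 (cons (fin 848 6 783)
(mv 1038 (cons (fin 1102 5 846)
(mv 977 (cons (fin 978 1 974)
(fin 1037 2 973))))))))))))))
(mv 977 (cons (mv 978 (cons (fin 1038 1 974)
(fin 979 1 975)))
(cons (mv 1037 (cons (fin 1038 2 973)
(mv 974 (cons (mv 973 (cons (fin 1036 1 972)
(fin 972 0 972)))
(cons (mv 910 (cons (fin 909 3 909)
(mv 913 (cons (fin 914 2 910)
(mv 785 (cons (fin 849 5 784)
(mv 1103 (cons (fin 1167 7 910)
(mv 1104 (cons (fin 1168 6 912)
(mv 911 (cons (fin 847 4 847)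
(mv 1102 (cons (fin 1166 5 910)
(mv 1101 (cons (fin 1036 3 1036)
(fin 1100 2 1036)))))))))))))))))
(mv 909 (cons (fin 910 3 909)
(mv 973 (cons (fin 908 3 908)
(fin 972 0 972))))))))))
(mv 978 (cons (fin 979 1 975)
(mv 910 (cons (fin 911 3 910)
(mv 914 (cons (fin 915 2 911)
(mv 974 (cons (fin 909 3 909)
(fin 913 2 910)))))))))))))))))
(mv 1038 (cons (cons (mv 977 (cons (fin 1037 2 973)
(mv 978 (cons (fin 979 1 975)
(fin 1041 2 974)))))
(mv 1041 (cons (cons (mv 973 (cons (fin 974 3 973)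
(mv 977 (cons (fin 978 2 974)
(mv 1101 (cons (fin 1102 1 1037)
(mv 1105 (cons (fin 1106 0 1038)
(mv 1169 (cons (fin 1233 7 976)
(mv 1168 (cons (fin 1232 5 976)
(mv 913 (cons (fin 1104 5 912)
(mv 849 (cons (fin 785 5 784)
(mv 850 (cons (fin 786 6 785)
(fin 914 6 849)))))))))))))))))))
(cons (mv 973 (cons (fin 974 3 973)
(mv 1102 (cons (fin 1101 1 1037)
(mv 1042 (cons (fin 1103 1 1038)
(mv 1106 (cons (fin 1105 0 1038)
(fin 1107 0 1039)))))))))
(mv 973 (cons (fin 974 3 973)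
(mv 977 (cons (fin 978 2 974)
(mv 1105 (cons (fin 1106 0 1038)
(mv 1169 (cons (fin 1233 7 976)
(mv 1168 (cons (fin 1232 5 976)
(mv 913 (cons (fin 1104 5 912)
(mv 849 (cons (fin 785 5 784)
(mv 850 (cons (fin 786 6 785)
(fin 914 6 849)))))))))))))))))))
(cons (mv 973 (cons (fin 974 3 973)
(mv 977 (cons (fin 978 2 974)
(mv 1102 (cons (fin 1101 1 1037)
(mv 1042 (cons (fin 1103 1 1038)
(mv 1043 (cons (fin 1044 3 976)
(mv 1107 (cons (fin 1106 0 1039)
(fin 1108 0 1040)))))))))))))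
(cons (mv 973 (cons (fin 974 3 973)
(mv 978 (cons (fin 977 2 974)
(mv 1042 (cons (fin 979 2 975)
(mv 1102 (cons (fin 1101 1 1037)
(fin 1103 1 1038)))))))))
(mv 977 (cons (fin 978 2 974)
(mv 1101 (cons (fin 1102 1 1037)
(mv 1105 (cons (fin 1106 0 1038)
(mv 1169 (cons (fin 1233 7 976)
(mv 1168 (cons (fin 1232 5 976)
(mv 913 (cons (fin 1104 5 912)
(mv 849 (cons (fin 785 5 784)
(mv 850 (cons (fin 786 6 785)
(fin 914 6 849))))))))))))))))))))))
(cons (mv 1041 (cons (cons (mv 973 (cons (fin 974 3 973)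
(mv 972 (cons (fin 1037 3 972)
(mv 1102 (cons (fin 1101 1 1037)
(mv 1042 (cons (fin 1103 1 1038)
(mv 1106 (cons (fin 1105 0 1038)
(fin 1107 0 1039)))))))))))
(cons (mv 973 (cons (fin 974 3 973)
(mv 972 (cons (fin 1037 3 972)
(mv 1102 (cons (fin 1101 1 1037)
(mv 1042 (cons (fin 1103 1 1038)
(mv 979 (cons (fin 978 2 975)
(mv 1043 (cons (fin 980 2 976)
(mv 1107 (cons (fin 1106 0 1039)
(fin 1108 0 1040)))))))))))))))
(mv 973 (cons (fin 974 3 973)
(mv 1037 (cons (fin 972 3 972)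
(mv 1105 (cons (fin 1104 0 1037)
(fin 1106 0 1038)))))))))
(cons (mv 973 (cons (fin 974 3 973)
(mv 1037 (cons (fin 972 3 972)
(mv 1101 (cons (fin 1100 1 1036)
(fin 1102 1 1037)))))))
(cons (mv 1101 (cons (fin 1102 1 1037)
(mv 1037 (cons (fin 1100 1 1036)
(mv 1105 (cons (fin 1104 0 1037)
(fin 1106 0 1038)))))))
(mv 973 (cons (fin 974 3 973)
(mv 1102 (cons (fin 1101 1 1037)
(mv 1042 (cons (fin 1103 1 1038)
(mv 1106 (cons (fin 1105 0 1038)
(fin 1107 0 1039)))))))))))))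
(mv 1037 (cons (fin 977 2 973)
(mv 972 (cons (fin 973 3 972)
(mv 1036 (cons (fin 971 3 971)
(mv 1100 (cons (fin 1099 1 1035)
(fin 1101 1 1036)))))))))))))))
(cons (cons (mv 977 (cons (cons (mv 978 (cons (fin 979 1 975)
(mv 1038 (cons (fin 975 1 974)
(fin 1037 2 973)))))
(mv 978 (cons (fin 979 1 975)
(mv 975 (cons (cons (mv 910 (cons (fin 911 3 910)
(mv 914 (cons (fin 915 2 911)
(mv 974 (cons (fin 909 3 909)
(fin 913 2 910)))))))
(mv 914 (cons (fin 915 2 911)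
(mv 913 (cons (fin 974 2 910)
(mv 849 (cons (fin 785 5 784)
(mv 1042 (cons (fin 1043 0 975)
(fin 1106 7 849))))))))))
(cons (mv 910 (cons (fin 911 3 910)
(mv 974 (cons (fin 909 3 909)
(mv 973 (cons (fin 972 0 972)
(fin 1041 0 973)))))))
(mv 911 (cons (fin 910 3 910)
(mv 847 (cons (fin 783 4 783)
(mv 846 (cons (fin 782 7 782)
(mv 848 (cons (fin 784 6 783)
(mv 914 (cons (fin 915 2 911)
(mv 849 (cons (fin 913 0 846)
(mv 785 (cons (fin 786 2 782)
(mv 1042 (cons (fin 1043 0 975)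
(fin 850 7 785)))))))))))))))))))))))
(cons (mv 1038 (cons (fin 1037 2 973)
(mv 1041 (cons (cons (mv 973 (cons (fin 974 3 973)
(mv 1101 (cons (fin 1102 1 1037)
(mv 1106 (cons (fin 1105 0 1038)
(mv 1042 (cons (fin 1107 0 1039)
(mv 1043 (cons (fin 975 3 975)
(fin 1044 3 976)))))))))))
(cons (mv 1101 (cons (fin 1102 1 1037)
(mv 1106 (cons (fin 1105 0 1038)
(mv 1042 (cons (fin 1107 0 1039)
(mv 1043 (cons (fin 975 3 975)
(fin 1044 3 976)))))))))
(mv 973 (cons (fin 974 3 973)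
(mv 1106 (cons (fin 1105 0 1038)
(mv 1042 (cons (fin 1107 0 1039)
(mv 1043 (cons (fin 975 3 975)
(fin 1044 3 976)))))))))))
(cons (mv 973 (cons (fin 974 3 973)
(mv 1102 (cons (fin 1101 1 1037)
(mv 1042 (cons (fin 1103 1 1038)
(mv 1043 (cons (fin 975 3 975)
(fin 1044 3 976)))))))))
(cons (mv 974 (cons (fin 973 3 973)
(mv 1102 (cons (fin 1101 1 1037)
(mv 1105 (cons (fin 1106 0 1038)
(mv 1169 (cons (fin 1233 7 976)
(mv 1168 (cons (fin 1232 5 976)
(mv 975 (cons (mv 911 (cons (fin 847 5 846)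
(fin 1166 6 910)))
(mv 910 (cons (fin 909 3 909)
(mv 846 (cons (fin 782 4 782)
(fin 1103 4 846)))))))))))))))))
(mv 973 (cons (fin 974 3 973)
(mv 1102 (cons (fin 1101 1 1037)
(mv 1042 (cons (fin 1103 1 1038)
(mv 1106 (cons (fin 1105 0 1038)
(fin 1107 0 1039)))))))))))))))
(mv 978 (cons (fin 979 1 975)
(mv 1038 (cons (fin 1037 2 973)
(fin 1041 2 974))))))))
(cons (mv 977 (cons (cons (mv 978 (cons (fin 979 1 975)
(mv 1038 (cons (fin 975 1 974)
(fin 1037 2 973)))))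
(mv 978 (cons (fin 979 1 975)
(mv 975 (cons (cons (mv 910 (cons (fin 911 3 910)
(mv 914 (cons (fin 915 2 911)
(mv 974 (cons (fin 909 3 909)
(fin 913 2 910)))))))
(mv 914 (cons (fin 915 2 911)
(mv 913 (cons (fin 974 2 910)
(mv 849 (cons (fin 785 5 784)
(mv 1104 (cons (fin 1041 5 848)
(fin 1168 6 912))))))))))
(cons (mv 910 (cons (fin 911 3 910)
(mv 974 (cons (fin 909 3 909)
(mv 973 (cons (fin 972 0 972)
(fin 1041 0 973)))))))
(mv 911 (cons (fin 910 3 910)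
(mv 847 (cons (fin 783 4 783)
(fin 1104 4 847)))))))))))
(cons (mv 1038 (cons (fin 1037 2 973)
(mv 1041 (cons (cons (mv 973 (cons (fin 974 3 973)
(mv 1101 (cons (fin 1102 1 1037)
(mv 1105 (cons (fin 1106 0 1038)
(mv 1169 (cons (fin 1233 7 976)
(mv 1168 (cons (fin 1232 5 976)
(mv 913 (cons (fin 1104 5 912)
(mv 849 (cons (fin 785 5 784)
(mv 850 (cons (fin 786 6 785)
(fin 914 6 849)))))))))))))))))
(mv 1101 (cons (fin 1102 1 1037)
(mv 1105 (cons (fin 1106 0 1038)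
(mv 1169 (cons (fin 1233 7 976)
(mv 1168 (cons (fin 1232 5 976)
(mv 913 (cons (fin 1104 5 912)
(mv 849 (cons (fin 785 5 784)
(mv 850 (cons (fin 786 6 785)
(fin 914 6 849))))))))))))))))
(cons (mv 974 (cons (fin 973 3 973)
(mv 1101 (cons (fin 1102 1 1037)
(mv 913 (cons (mv 849 (cons (fin 785 5 784)
(fin 1104 5 848)))
(mv 975 (cons (fin 914 2 910)
(mv 910 (cons (fin 909 3 909)
(mv 846 (cons (fin 782 4 782)
(fin 1103 4 846)))))))))))))
(cons (mv 973 (cons (fin 974 3 973)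
(mv 1105 (cons (fin 1106 0 1038)
(mv 1169 (cons (fin 1233 7 976)
(mv 1168 (cons (fin 1232 5 976)
(mv 913 (cons (fin 1104 5 912)
(mv 849 (cons (fin 785 5 784)
(mv 850 (cons (fin 786 6 785)
(fin 914 6 849)))))))))))))))
(mv 974 (cons (fin 973 3 973)
(mv 1102 (cons (fin 1101 1 1037)
(mv 1105 (cons (fin 1106 0 1038)
(mv 1169 (cons (fin 1233 7 976)
(mv 1168 (cons (fin 1232 5 976)
(mv 975 (cons (mv 911 (cons (fin 847 5 846)
(fin 1166 6 910)))
(mv 910 (cons (fin 909 3 909)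
(mv 846 (cons (fin 782 4 782)
(fin 1103 4 846)))))))))))))))))))))))
(mv 978 (cons (fin 979 1 975)
(mv 1038 (cons (fin 1037 2 973)
(fin 1041 2 974))))))))
(mv 977 (cons (cons (mv 978 (cons (fin 979 1 975)
(mv 1038 (cons (fin 975 1 974)
(fin 1037 2 973)))))
(mv 978 (cons (fin 979 1 975)
(mv 975 (cons (cons (mv 910 (cons (fin 911 3 910)
(mv 914 (cons (fin 915 2 911)
(mv 974 (cons (fin 909 3 909)
(fin 913 2 910)))))))
(mv 914 (cons (fin 915 2 911)
(mv 913 (cons (fin 974 2 910)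
(mv 849 (cons (fin 785 5 784)
(mv 1042 (cons (fin 1043 0 975)
(fin 1106 7 849))))))))))
(cons (mv 910 (cons (fin 911 3 910)
(mv 974 (cons (fin 909 3 909)
(mv 973 (cons (fin 972 0 972)
(fin 1041 0 973)))))))
(mv 911 (cons (fin 910 3 910)
(mv 847 (cons (fin 783 4 783)
(fin 1104 4 847)))))))))))
(cons (mv 1038 (cons (fin 1037 2 973)
(mv 1041 (cons (cons (mv 973 (cons (fin 974 3 973)
(mv 1101 (cons (fin 1102 1 1037)
(mv 1106 (cons (fin 1105 0 1038)
(mv 1042 (cons (fin 1107 0 1039)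
(mv 1043 (cons (fin 975 3 975)
(fin 1044 3 976)))))))))))
(cons (mv 1101 (cons (fin 1102 1 1037)
(mv 1106 (cons (fin 1105 0 1038)
(mv 1042 (cons (fin 1107 0 1039)
(mv 1043 (cons (fin 975 3 975)
(fin 1044 3 976)))))))))
(mv 973 (cons (fin 974 3 973)
(mv 1106 (cons (fin 1105 0 1038)
(mv 1042 (cons (fin 1107 0 1039)
(mv 1043 (cons (fin 975 3 975)
(fin 1044 3 976)))))))))))
(cons (mv 973 (cons (fin 974 3 973)
(mv 1102 (cons (fin 1101 1 1037)
(mv 1042 (cons (fin 1103 1 1038)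
(mv 1043 (cons (fin 975 3 975)
(fin 1044 3 976)))))))))
(cons (mv 974 (cons (fin 973 3 973)
(mv 1101 (cons (fin 1102 1 1037)
(mv 1105 (cons (fin 1106 0 1038)
(mv 1169 (cons (fin 1233 7 976)
(mv 913 (cons (mv 849 (cons (fin 785 5 784)
(fin 1104 5 848)))
(mv 914 (cons (fin 975 2 910)
(fin 850 6 849)))))))))))))
(mv 973 (cons (fin 974 3 973)
(mv 1102 (cons (fin 1101 1 1037)
(mv 1042 (cons (fin 1103 1 1038)
(mv 1106 (cons (fin 1105 0 1038)
(fin 1107 0 1039)))))))))))))))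
(mv 978 (cons (fin 979 1 975)
(mv 1038 (cons (fin 1037 2 973)
(fin 1041 2 974))))))))))
(cons (cons (mv 977 (cons (cons (mv 978 (cons (fin 979 1 975)
(mv 1038 (cons (fin 975 1 974)
(fin 1037 2 973)))))
(mv 1038 (cons (fin 1037 2 973)
(mv 1041 (cons (mv 1101 (cons (fin 1102 1 1037)
(mv 1105 (cons (fin 1106 0 1038)
(mv 1169 (cons (fin 1233 7 976)
(mv 1168 (cons (fin 1232 5 976)
(mv 913 (cons (fin 1104 5 912)
(mv 849 (cons (fin 785 5 784)
(mv 850 (cons (fin 786 6 785)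
(fin 914 6 849)))))))))))))))
(cons (mv 1102 (cons (fin 1101 1 1037)
(mv 1042 (cons (fin 1103 1 1038)
(mv 1043 (cons (fin 975 3 975)
(fin 1044 3 976)))))))
(mv 1105 (cons (fin 1106 0 1038)
(mv 1169 (cons (fin 1233 7 976)
(mv 1168 (cons (fin 1232 5 976)
(mv 913 (cons (fin 1104 5 912)
(mv 849 (cons (fin 785 5 784)
(mv 850 (cons (fin 786 6 785)
(fin 914 6 849)))))))))))))))))))
(cons (mv 978 (cons (fin 979 1 975)
(mv 975 (cons (mv 911 (cons (fin 910 3 910)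
(mv 847 (cons (fin 783 4 783)
(fin 1104 4 847)))))
(cons (mv 914 (cons (fin 915 2 911)
(mv 1042 (cons (fin 1043 0 975)
(mv 1041 (cons (mv 850 (cons (fin 786 5 785)
(fin 1105 5 849)))
(cons (mv 786 (cons (fin 850 5 785)
(mv 1103 (cons (fin 1102 1 1038)
(mv 1106 (cons (fin 1107 0 1039)
(mv 913 (cons (fin 849 7 849)
(mv 1167 (cons (fin 1231 6 975)
(mv 1168 (cons (fin 1104 6 912)
(fin 1232 4 975)))))))))))))
(mv 1103 (cons (fin 1102 1 1038)
(mv 1105 (cons (fin 1169 6 913)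
(mv 1106 (cons (fin 1107 0 1039)
(mv 849 (cons (fin 913 7 849)
(mv 1167 (cons (fin 1231 6 975)
(mv 1166 (cons (fin 1104 1 1102)
(fin 1230 5 974))))))))))))))))))))
(mv 911 (cons (fin 910 3 910)
(mv 847 (cons (fin 783 4 783)
(mv 846 (cons (fin 782 7 782)
(mv 848 (cons (fin 784 6 783)
(mv 914 (cons (fin 915 2 911)
(mv 849 (cons (fin 913 0 846)
(mv 785 (cons (fin 786 2 782)
(mv 1042 (cons (fin 1043 0 975)
(fin 850 7 785))))))))))))))))))))))
(mv 978 (cons (fin 979 1 975)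
(mv 1038 (cons (fin 1037 2 973)
(fin 1041 2 974))))))))
(mv 977 (cons (cons (mv 978 (cons (fin 979 1 975)
(mv 1038 (cons (fin 975 1 974)
(fin 1037 2 973)))))
(mv 1038 (cons (fin 1037 2 973)
(mv 1041 (cons (cons (mv 973 (cons (fin 974 3 973)
(mv 1102 (cons (fin 1101 1 1037)
(mv 1042 (cons (fin 1103 1 1038)
(mv 1043 (cons (fin 975 3 975)
(fin 1044 3 976)))))))))
(mv 1102 (cons (fin 1101 1 1037)
(mv 1042 (cons (fin 1103 1 1038)
(mv 1043 (cons (fin 975 3 975)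
(fin 1044 3 976))))))))
(cons (mv 974 (cons (fin 973 3 973)
(mv 975 (cons (fin 1042 3 974)
(mv 909 (cons (fin 910 3 909)
(mv 913 (cons (fin 914 2 910)
(mv 849 (cons (fin 785 5 784)
(fin 1104 5 848)))))))))))
(cons (mv 974 (cons (fin 973 3 973)
(mv 1101 (cons (fin 1102 1 1037)
(mv 913 (cons (mv 849 (cons (fin 785 5 784)
(fin 1104 5 848)))
(mv 975 (cons (fin 914 2 910)
(mv 910 (cons (fin 909 3 909)
(mv 846 (cons (fin 782 4 782)
(fin 1103 4 846)))))))))))))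
(mv 973 (cons (fin 974 3 973)
(mv 1102 (cons (fin 1101 1 1037)
(mv 1042 (cons (fin 1103 1 1038)
(mv 1043 (cons (fin 1044 3 976)
(mv 1107 (cons (fin 1106 0 1039)
(fin 1108 0 1040))))))))))))))))))
(cons (mv 978 (cons (fin 979 1 975)
(mv 975 (cons (cons (mv 910 (cons (fin 911 3 910)
(mv 914 (cons (fin 915 2 911)
(mv 974 (cons (fin 909 3 909)
(fin 913 2 910)))))))
(mv 914 (cons (fin 915 2 911)
(mv 913 (cons (fin 974 2 910)
(mv 849 (cons (fin 785 5 784)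
(mv 1042 (cons (fin 1043 0 975)
(fin 1106 7 849))))))))))
(cons (mv 910 (cons (fin 911 3 910)
(mv 974 (cons (fin 909 3 909)
(mv 973 (cons (fin 972 0 972)
(fin 1041 0 973)))))))
(mv 911 (cons (fin 910 3 910)
(mv 847 (cons (fin 783 4 783)
(fin 1104 4 847))))))))))
(mv 978 (cons (fin 979 1 975)
(mv 1038 (cons (fin 1037 2 973)
(fin 1041 2 974)))))))))
(cons (mv 977 (cons (cons (mv 978 (cons (fin 979 1 975)
(mv 1038 (cons (fin 975 1 974)
(fin 1037 2 973)))))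
(mv 1038 (cons (fin 1037 2 973)
(mv 1041 (cons (cons (mv 973 (cons (fin 974 3 973)
(mv 1105 (cons (fin 1106 0 1038)
(mv 1169 (cons (fin 1233 7 976)
(mv 1168 (cons (fin 1232 5 976)
(mv 913 (cons (fin 1104 5 912)
(mv 849 (cons (fin 785 5 784)
(mv 850 (cons (fin 786 6 785)
(fin 914 6 849)))))))))))))))
(mv 1105 (cons (fin 1106 0 1038)
(mv 1169 (cons (fin 1233 7 976)
(mv 1168 (cons (fin 1232 5 976)
(mv 913 (cons (fin 1104 5 912)
(mv 849 (cons (fin 785 5 784)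
(mv 850 (cons (fin 786 6 785)
(fin 914 6 849))))))))))))))
(cons (mv 974 (cons (fin 973 3 973)
(mv 975 (cons (fin 1042 3 974)
(mv 909 (cons (fin 910 3 909)
(mv 913 (cons (fin 914 2 910)
(mv 849 (cons (fin 785 5 784)
(fin 1104 5 848)))))))))))
(mv 973 (cons (fin 974 3 973)
(mv 1106 (cons (fin 1105 0 1038)
(mv 1042 (cons (fin 1107 0 1039)
(mv 1043 (cons (fin 975 3 975)
(fin 1044 3 976)))))))))))))))
(cons (mv 978 (cons (fin 979 1 975)
(mv 975 (cons (cons (mv 910 (cons (fin 911 3 910)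
(mv 914 (cons (fin 915 2 911)
(mv 974 (cons (fin 909 3 909)
(fin 913 2 910)))))))
(mv 914 (cons (fin 915 2 911)
(mv 913 (cons (fin 974 2 910)
(mv 849 (cons (fin 785 5 784)
(mv 1042 (cons (fin 1043 0 975)
(fin 1106 7 849))))))))))
(cons (mv 910 (cons (fin 911 3 910)
(mv 974 (cons (fin 909 3 909)
(mv 973 (cons (fin 972 0 972)
(fin 1041 0 973)))))))
(mv 911 (cons (fin 910 3 910)
(mv 847 (cons (fin 783 4 783)
(fin 1104 4 847))))))))))
(mv 978 (cons (fin 979 1 975)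
(mv 1038 (cons (fin 1037 2 973)
(fin 1041 2 974))))))))
(mv 977 (cons (cons (mv 978 (cons (fin 979 1 975)
(mv 1038 (cons (fin 975 1 974)
(fin 1037 2 973)))))
(mv 978 (cons (fin 979 1 975)
(mv 975 (cons (cons (mv 910 (cons (fin 911 3 910)
(mv 914 (cons (fin 915 2 911)
(mv 974 (cons (fin 909 3 909)
(fin 913 2 910)))))))
(mv 914 (cons (fin 915 2 911)
(mv 913 (cons (fin 974 2 910)
(mv 849 (cons (fin 785 5 784)
(mv 1104 (cons (fin 1041 5 848)
(fin 1168 6 912))))))))))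
(cons (mv 910 (cons (fin 911 3 910)
(mv 974 (cons (fin 909 3 909)
(mv 973 (cons (fin 972 0 972)
(fin 1041 0 973)))))))
(mv 911 (cons (fin 910 3 910)
(mv 847 (cons (fin 783 4 783)
(fin 1104 4 847)))))))))))
(cons (mv 1038 (cons (fin 1037 2 973)
(mv 1041 (cons (cons (mv 973 (cons (fin 974 3 973)
(mv 1102 (cons (fin 1101 1 1037)
(mv 1042 (cons (fin 1103 1 1038)
(mv 1043 (cons (fin 975 3 975)
(fin 1044 3 976)))))))))
(mv 1102 (cons (fin 1101 1 1037)
(mv 1042 (cons (fin 1103 1 1038)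
(mv 1043 (cons (fin 975 3 975)
(fin 1044 3 976))))))))
(cons (mv 974 (cons (fin 973 3 973)
(mv 975 (cons (fin 1042 3 974)
(mv 909 (cons (fin 910 3 909)
(mv 913 (cons (fin 914 2 910)
(mv 849 (cons (fin 785 5 784)
(fin 1104 5 848)))))))))))
(cons (mv 974 (cons (fin 973 3 973)
(mv 1101 (cons (fin 1102 1 1037)
(mv 913 (cons (mv 849 (cons (fin 785 5 784)
(fin 1104 5 848)))
(cons (mv 785 (cons (fin 849 5 784)
(mv 975 (cons (fin 914 2 910)
(mv 910 (cons (fin 909 3 909)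
(mv 846 (cons (fin 782 4 782)
(fin 1103 4 846)))))))))
(mv 914 (cons (fin 975 2 910)
(mv 915 (cons (fin 916 1 912)
(mv 1105 (cons (fin 850 6 849)
(mv 1168 (cons (fin 1104 5 912)
(mv 1169 (cons (fin 1233 7 976)
(fin 1232 5 976))))))))))))))))))
(mv 974 (cons (fin 973 3 973)
(mv 1102 (cons (fin 1101 1 1037)
(mv 1103 (cons (fin 1042 1 1038)
(mv 910 (cons (fin 846 4 846)
(fin 1167 4 910)))))))))))))))
(mv 978 (cons (fin 979 1 975)
(mv 1038 (cons (fin 1037 2 973)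
(fin 1041 2 974))))))))))))))
(cons (mv 975 (cons (cons (cons (cons (mv 1041 (cons (cons (mv 974 (cons (fin 973 0 973)
(mv 1042 (cons (fin 1039 3 974)
(fin 1043 3 975)))))
(mv 1042 (cons (fin 1043 3 975)
(mv 1039 (cons (mv 978 (cons (fin 979 2 975)
(mv 977 (cons (fin 1038 1 974)
(mv 910 (cons (fin 911 3 910)
(mv 914 (cons (fin 915 2 911)
(mv 850 (cons (fin 786 5 785)
(fin 1105 5 849)))))))))))
(cons (mv 1102 (cons (fin 1103 1 1038)
(mv 1038 (cons (fin 1101 1 1037)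
(mv 1037 (cons (fin 1036 2 972)
(fin 977 2 973)))))))
(mv 978 (cons (fin 979 2 975)
(mv 1103 (cons (fin 1102 1 1038)
(mv 912 (cons (fin 848 5 847)
(fin 1167 6 911)))))))))))))
(cons (mv 974 (cons (fin 973 0 973)
(mv 977 (cons (cons (cons (mv 909 (cons (fin 910 3 909)
(mv 913 (cons (fin 914 2 910)
(mv 785 (cons (fin 849 5 784)
(mv 1038 (cons (fin 1037 1 973)
(mv 978 (cons (fin 1039 1 974)
(mv 979 (cons (fin 980 1 976)
(mv 912 (cons (fin 911 3 911)
(mv 848 (cons (fin 1105 7 848)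
(fin 784 4 784)))))))))))))))))
(mv 909 (cons (fin 910 3 909)
(mv 913 (cons (fin 914 2 910)
(mv 849 (cons (fin 785 5 784)
(mv 786 (cons (fin 850 6 785)
(mv 848 (cons (fin 784 7 784)
(mv 912 (cons (fin 1105 7 848)
(mv 847 (cons (fin 783 7 783)
(mv 846 (cons (fin 845 0 845)
(mv 782 (cons (fin 781 3 781)
(mv 1039 (cons (fin 911 7 782)
(fin 1103 5 847))))))))))))))))))))))
(cons (mv 909 (cons (fin 910 3 909)
(mv 1038 (cons (fin 1037 1 973)
(mv 978 (cons (fin 1039 1 974)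
(mv 914 (cons (fin 915 2 911)
(mv 786 (cons (fin 850 5 785)
(mv 979 (cons (fin 980 1 976)
(mv 912 (cons (fin 911 3 911)
(mv 848 (cons (fin 784 4 784)
(fin 1105 4 848)))))))))))))))))
(mv 909 (cons (fin 910 3 909)
(mv 1038 (cons (fin 1037 1 973)
(mv 978 (cons (fin 1039 1 974)
(mv 979 (cons (fin 980 1 976)
(mv 912 (cons (fin 911 3 911)
(mv 848 (cons (fin 784 4 784)
(fin 1105 4 848)))))))))))))))
(cons (cons (mv 913 (cons (fin 914 2 910)
(mv 785 (cons (fin 849 5 784)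
(mv 1038 (cons (fin 1037 1 973)
(mv 978 (cons (fin 1039 1 974)
(mv 979 (cons (fin 980 1 976)
(mv 912 (cons (fin 911 3 911)
(mv 848 (cons (fin 1105 7 848)
(fin 784 4 784)))))))))))))))
(mv 909 (cons (fin 910 3 909)
(mv 913 (cons (fin 914 2 910)
(mv 849 (cons (fin 785 5 784)
(mv 848 (cons (fin 784 7 784)
(mv 850 (cons (fin 786 6 785)
(mv 912 (cons (fin 1105 7 848)
(mv 851 (cons (fin 911 1 847)
(fin 852 1 848))))))))))))))))
(cons (mv 909 (cons (fin 910 3 909)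
(mv 913 (cons (fin 914 2 910)
(mv 785 (cons (fin 849 5 784)
(mv 1038 (cons (fin 1037 1 973)
(mv 1039 (cons (fin 978 1 974)
(mv 1102 (cons (fin 1101 1 1037)
(mv 911 (cons (fin 847 5 846)
(fin 1166 6 910)))))))))))))))
(mv 909 (cons (fin 910 3 909)
(mv 913 (cons (fin 914 2 910)
(mv 785 (cons (fin 849 5 784)
(mv 1038 (cons (fin 1037 1 973)
(mv 1039 (cons (fin 978 1 974)
(mv 1101 (cons (fin 1102 1 1037)
(mv 1105 (cons (fin 1106 0 1038)
(mv 912 (cons (fin 848 7 848)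
(fin 1169 7 912)))))))))))))))))))))))
(mv 974 (cons (fin 973 0 973)
(mv 1042 (cons (fin 1043 3 975)
(fin 977 0 974))))))))
(mv 911 (cons (cons (cons (mv 847 (cons (fin 783 4 783)
(mv 1039 (cons (cons (mv 782 (cons (fin 846 7 782)
(mv 784 (cons (fin 848 6 783)
(mv 1038 (cons (fin 1102 5 846)
(mv 977 (cons (fin 978 1 974)
(fin 1037 2 973)))))))))
(mv 782 (cons (fin 846 7 782)
(mv 848 (cons (fin 784 6 783)
(mv 912 (cons (fin 1103 5 847)
(mv 849 (cons (fin 785 6 784)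
(mv 850 (cons (fin 910 1 846)
(fin 851 1 847))))))))))))
(cons (mv 782 (cons (fin 846 7 782)
(mv 1038 (cons (fin 1102 5 846)
(mv 977 (cons (fin 978 1 974)
(fin 1037 2 973)))))))
(mv 784 (cons (fin 848 6 783)
(mv 1038 (cons (fin 1102 5 846)
(mv 977 (cons (fin 978 1 974)
(fin 1037 2 973))))))))))))
(mv 910 (cons (cons (mv 909 (cons (fin 908 0 908)
(mv 977 (cons (fin 974 3 909)
(fin 978 3 910)))))
(mv 909 (cons (fin 908 0 908)
(mv 912 (cons (cons (mv 844 (cons (fin 845 3 844)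
(mv 848 (cons (fin 849 2 845)
(mv 784 (cons (fin 720 5 719)
(fin 1039 5 783)))))))
(mv 844 (cons (fin 845 3 844)
(mv 973 (cons (fin 972 1 908)
(mv 913 (cons (fin 974 1 909)
(mv 850 (cons (fin 849 2 846)
(mv 914 (cons (fin 915 1 911)
(fin 851 2 847))))))))))))
(cons (mv 844 (cons (fin 845 3 844)
(mv 973 (cons (fin 972 1 908)
(mv 974 (cons (fin 913 1 909)
(mv 1037 (cons (fin 1036 1 972)
(mv 846 (cons (fin 782 5 781)
(fin 1101 6 845)))))))))))
(mv 848 (cons (fin 849 2 845)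
(mv 784 (cons (fin 720 5 719)
(fin 1039 5 783)))))))))))
(cons (mv 977 (cons (fin 978 3 910)
(mv 974 (cons (cons (mv 913 (cons (fin 914 2 910)
(mv 785 (cons (fin 849 5 784)
(mv 912 (cons (fin 973 1 909)
(mv 845 (cons (fin 846 3 845)
(mv 1038 (cons (fin 1037 1 973)
(mv 1102 (cons (fin 1166 6 910)
(mv 1101 (cons (fin 1165 5 909)
(mv 1103 (cons (fin 1167 4 910)
(mv 1039 (cons (fin 1100 2 1036)
(fin 848 5 847)))))))))))))))))))
(mv 1037 (cons (fin 1038 1 973)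
(mv 973 (cons (fin 1036 1 972)
(mv 972 (cons (fin 971 2 907)
(fin 912 2 908))))))))
(cons (mv 913 (cons (fin 914 2 910)
(mv 785 (cons (fin 849 5 784)
(mv 912 (cons (fin 973 1 909)
(mv 846 (cons (fin 845 3 845)
(mv 782 (cons (fin 718 4 718)
(fin 1039 4 782)))))))))))
(mv 913 (cons (fin 914 2 910)
(mv 785 (cons (fin 849 5 784)
(mv 1038 (cons (fin 1037 1 973)
(mv 1102 (cons (fin 1166 6 910)
(mv 1101 (cons (fin 1165 5 909)
(mv 1103 (cons (fin 1167 4 910)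
(mv 1039 (cons (fin 1100 2 1036)
(fin 846 7 846))))))))))))))))))))
(mv 909 (cons (fin 908 0 908)
(mv 977 (cons (fin 978 3 910)
(fin 912 0 909)))))))))
(cons (mv 847 (cons (fin 783 4 783)
(mv 1039 (cons (cons (mv 782 (cons (fin 846 7 782)
(mv 784 (cons (fin 848 6 783)
(mv 1038 (cons (fin 1102 5 846)
(mv 977 (cons (fin 978 1 974)
(fin 1037 2 973)))))))))
(mv 782 (cons (fin 846 7 782)
(mv 848 (cons (fin 784 6 783)
(mv 912 (cons (fin 1103 5 847)
(mv 849 (cons (fin 785 6 784)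
(mv 850 (cons (fin 851 1 847)
(mv 786 (cons (fin 787 2 783)
(mv 914 (cons (fin 915 0 847)
(mv 913 (cons (fin 974 1 910)
(mv 722 (cons (fin 658 5 657)
(fin 977 5 721))))))))))))))))))))
(cons (mv 782 (cons (fin 846 7 782)
(mv 1038 (cons (fin 1102 5 846)
(mv 977 (cons (fin 978 1 974)
(fin 1037 2 973)))))))
(cons (mv 784 (cons (fin 848 6 783)
(mv 1038 (cons (fin 1102 5 846)
(mv 977 (cons (fin 978 1 974)
(fin 1037 2 973)))))))
(mv 782 (cons (fin 846 7 782)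
(mv 784 (cons (fin 848 6 783)
(mv 1102 (cons (fin 1038 5 846)
(mv 1103 (cons (fin 1166 5 910)
(mv 1167 (cons (fin 912 6 911)
(fin 1231 6 975)))))))))))))))))
(mv 847 (cons (fin 783 4 783)
(mv 1039 (cons (cons (mv 782 (cons (fin 846 7 782)
(mv 784 (cons (fin 848 6 783)
(mv 1102 (cons (fin 1038 5 846)
(mv 1103 (cons (fin 1166 5 910)
(mv 1167 (cons (fin 912 6 911)
(fin 1231 6 975)))))))))))
(mv 782 (cons (fin 846 7 782)
(mv 1102 (cons (fin 1038 5 846)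
(mv 1103 (cons (fin 1166 5 910)
(mv 1167 (cons (fin 912 6 911)
(fin 1231 6 975))))))))))
(cons (mv 784 (cons (fin 848 6 783)
(mv 1102 (cons (fin 1038 5 846)
(mv 1103 (cons (fin 1166 5 910)
(mv 1167 (cons (fin 912 6 911)
(fin 1231 6 975)))))))))
(cons (mv 782 (cons (fin 846 7 782)
(mv 848 (cons (fin 784 6 783)
(mv 912 (cons (fin 1103 5 847)
(mv 849 (cons (fin 785 6 784)
(mv 850 (cons (fin 910 1 846)
(fin 851 1 847)))))))))))
(mv 784 (cons (fin 848 6 783)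
(mv 846 (cons (fin 782 7 782)
(mv 1038 (cons (fin 1102 5 846)
(mv 1037 (cons (fin 1036 2 972)
(mv 973 (cons (fin 972 3 972)
(mv 1101 (cons (fin 1100 1 1036)
(mv 910 (cons (fin 974 5 845)
(fin 909 6 845)))))))))))))))))))))))
(cons (cons (mv 783 (cons (fin 847 4 783)
(mv 977 (cons (cons (mv 910 (cons (fin 978 3 910)
(mv 909 (cons (fin 974 3 909)
(fin 908 0 908)))))
(mv 974 (cons (cons (mv 909 (cons (fin 910 3 909)
(mv 913 (cons (fin 914 2 910)
(mv 973 (cons (fin 908 3 908)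
(fin 912 2 909)))))))
(mv 909 (cons (fin 910 3 909)
(mv 973 (cons (fin 908 3 908)
(mv 1037 (cons (fin 1036 1 972)
(fin 1038 1 973))))))))
(cons (mv 913 (cons (fin 914 2 910)
(mv 785 (cons (fin 849 5 784)
(mv 973 (cons (fin 912 2 909)
(mv 1037 (cons (fin 1036 1 972)
(fin 1038 1 973)))))))))
(mv 910 (cons (fin 909 3 909)
(mv 913 (cons (fin 914 2 910)
(mv 849 (cons (fin 785 5 784)
(mv 912 (cons (fin 850 2 846)
(mv 846 (cons (fin 845 3 845)
(mv 782 (cons (fin 719 6 718)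
(fin 718 4 718)))))))))))))))))
(cons (mv 978 (cons (mv 912 (cons (fin 979 3 911)
(mv 914 (cons (fin 915 2 911)
(mv 913 (cons (fin 974 1 910)
(mv 785 (cons (fin 849 5 784)
(mv 850 (cons (fin 851 2 847)
(mv 786 (cons (fin 721 7 721)
(fin 722 5 721)))))))))))))
(cons (mv 914 (cons (fin 915 2 911)
(mv 913 (cons (fin 974 2 910)
(mv 849 (cons (fin 785 5 784)
(mv 1042 (cons (fin 1043 0 975)
(fin 1106 7 849)))))))))
(mv 979 (cons (fin 912 3 911)
(mv 1043 (cons (fin 1042 0 975)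
(fin 1044 0 976))))))))
(mv 910 (cons (fin 978 3 910)
(mv 909 (cons (fin 908 0 908)
(fin 912 0 909))))))))))
(mv 847 (cons (fin 783 4 783)
(mv 1039 (cons (cons (mv 782 (cons (fin 846 7 782)
(mv 784 (cons (fin 848 6 783)
(mv 1038 (cons (fin 1102 5 846)
(mv 977 (cons (fin 978 1 974)
(fin 1037 2 973)))))))))
(mv 784 (cons (fin 848 6 783)
(mv 846 (cons (fin 782 7 782)
(mv 910 (cons (fin 1103 7 846)
(mv 909 (cons (fin 908 0 908)
(mv 977 (cons (fin 974 3 909)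
(fin 978 3 910))))))))))))
(cons (mv 784 (cons (fin 848 6 783)
(mv 1038 (cons (fin 1102 5 846)
(mv 977 (cons (fin 978 1 974)
(fin 1037 2 973)))))))
(cons (mv 782 (cons (fin 846 7 782)
(mv 1038 (cons (fin 1102 5 846)
(mv 977 (cons (fin 978 1 974)
(fin 1037 2 973)))))))
(mv 784 (cons (fin 848 6 783)
(mv 846 (cons (fin 782 7 782)
(mv 910 (cons (fin 1103 7 846)
(mv 908 (cons (fin 909 0 908)
(mv 1038 (cons (fin 1102 5 846)
(mv 1037 (cons (fin 1036 2 972)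
(mv 1101 (cons (fin 1100 1 1036)
(fin 974 5 845))))))))))))))))))))))
(cons (mv 783 (cons (fin 847 4 783)
(mv 977 (cons (cons (mv 910 (cons (fin 978 3 910)
(mv 909 (cons (fin 974 3 909)
(fin 908 0 908)))))
(mv 974 (cons (cons (mv 909 (cons (fin 910 3 909)
(mv 913 (cons (fin 914 2 910)
(mv 973 (cons (fin 908 3 908)
(fin 912 2 909)))))))
(mv 909 (cons (fin 910 3 909)
(mv 973 (cons (fin 908 3 908)
(mv 972 (cons (fin 912 2 908)
(fin 1039 0 972))))))))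
(cons (mv 913 (cons (fin 914 2 910)
(mv 785 (cons (fin 849 5 784)
(mv 973 (cons (fin 912 2 909)
(mv 972 (cons (fin 1039 0 972)
(mv 1036 (cons (fin 1035 1 971)
(fin 1037 1 972)))))))))))
(cons (mv 910 (cons (fin 909 3 909)
(mv 913 (cons (fin 914 2 910)
(mv 849 (cons (fin 785 5 784)
(mv 912 (cons (fin 850 2 846)
(mv 846 (cons (fin 845 3 845)
(mv 782 (cons (fin 719 6 718)
(fin 718 4 718)))))))))))))
(mv 909 (cons (fin 910 3 909)
(mv 913 (cons (fin 914 2 910)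
(mv 785 (cons (fin 849 5 784)
(mv 973 (cons (fin 908 3 908)
(mv 972 (cons (fin 1039 0 972)
(mv 1036 (cons (fin 1035 1 971)
(fin 1037 1 972))))))))))))))))))
(cons (mv 978 (cons (mv 979 (cons (fin 912 3 911)
(fin 1039 1 975)))
(mv 914 (cons (fin 915 2 911)
(mv 913 (cons (fin 974 2 910)
(mv 849 (cons (fin 785 5 784)
(mv 1042 (cons (fin 1043 0 975)
(fin 1106 7 849)))))))))))
(mv 910 (cons (fin 978 3 910)
(mv 909 (cons (fin 908 0 908)
(fin 912 0 909))))))))))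
(cons (mv 847 (cons (fin 783 4 783)
(mv 1039 (cons (cons (mv 782 (cons (fin 846 7 782)
(mv 784 (cons (fin 848 6 783)
(mv 1102 (cons (fin 1038 5 846)
(mv 1103 (cons (fin 1166 5 910)
(mv 1167 (cons (fin 912 6 911)
(fin 1231 6 975)))))))))))
(cons (mv 782 (cons (fin 846 7 782)
(mv 1102 (cons (fin 1038 5 846)
(mv 1103 (cons (fin 1166 5 910)
(mv 1167 (cons (fin 912 6 911)
(fin 1231 6 975)))))))))
(mv 784 (cons (fin 848 6 783)
(mv 1102 (cons (fin 1038 5 846)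
(mv 1103 (cons (fin 1166 5 910)
(mv 1167 (cons (fin 912 6 911)
(fin 1231 6 975)))))))))))
(cons (mv 782 (cons (fin 846 7 782)
(mv 848 (cons (fin 784 6 783)
(mv 912 (cons (fin 1103 5 847)
(mv 849 (cons (fin 785 6 784)
(mv 850 (cons (fin 910 1 846)
(fin 851 1 847)))))))))))
(cons (mv 782 (cons (fin 846 7 782)
(mv 848 (cons (fin 784 6 783)
(mv 1038 (cons (fin 1102 5 846)
(mv 977 (cons (fin 978 1 974)
(mv 910 (cons (mv 909 (cons (fin 974 3 909)
(fin 908 2 844)))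
(mv 849 (cons (fin 850 1 846)
(mv 785 (cons (fin 913 5 784)
(fin 912 6 784)))))))))))))))
(mv 784 (cons (fin 848 6 783)
(mv 846 (cons (fin 782 7 782)
(mv 910 (cons (fin 1103 7 846)
(mv 909 (cons (fin 908 0 908)
(mv 977 (cons (fin 974 3 909)
(fin 978 3 910)))))))))))))))))
(mv 783 (cons (fin 847 4 783)
(mv 910 (cons (cons (mv 909 (cons (fin 908 0 908)
(mv 977 (cons (fin 974 3 909)
(fin 978 3 910)))))
(mv 909 (cons (fin 908 0 908)
(mv 912 (cons (cons (mv 844 (cons (fin 845 3 844)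
(mv 848 (cons (fin 849 2 845)
(mv 784 (cons (fin 719 7 719)
(fin 720 5 719)))))))
(mv 844 (cons (fin 845 3 844)
(mv 973 (cons (fin 972 1 908)
(mv 913 (cons (fin 974 1 909)
(mv 850 (cons (fin 849 2 846)
(mv 914 (cons (fin 915 1 911)
(fin 851 2 847))))))))))))
(cons (mv 844 (cons (fin 845 3 844)
(mv 973 (cons (fin 972 1 908)
(mv 974 (cons (fin 913 1 909)
(mv 1037 (cons (fin 1036 1 972)
(mv 1101 (cons (fin 1165 6 909)
(mv 1100 (cons (fin 1164 5 908)
(mv 1039 (cons (fin 1038 1 1036)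
(mv 848 (cons (fin 784 5 783)
(fin 1103 5 847)))))))))))))))))
(mv 848 (cons (fin 849 2 845)
(mv 784 (cons (fin 719 7 719)
(fin 720 5 719)))))))))))
(cons (mv 977 (cons (fin 978 3 910)
(mv 974 (cons (cons (mv 913 (cons (fin 914 2 910)
(mv 785 (cons (fin 849 5 784)
(mv 912 (cons (fin 973 1 909)
(mv 1038 (cons (fin 1037 1 973)
(mv 1102 (cons (fin 1166 6 910)
(mv 1101 (cons (fin 1165 5 909)
(mv 1103 (cons (fin 1167 4 910)
(mv 1039 (cons (fin 1100 2 1036)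
(fin 848 5 847)))))))))))))))))
(mv 1037 (cons (fin 1038 1 973)
(mv 973 (cons (fin 1036 1 972)
(mv 972 (cons (fin 971 2 907)
(fin 912 2 908))))))))
(cons (mv 913 (cons (fin 914 2 910)
(mv 785 (cons (fin 849 5 784)
(mv 973 (cons (fin 912 1 909)
(mv 972 (cons (fin 971 2 907)
(fin 1039 0 972)))))))))
(mv 913 (cons (fin 914 2 910)
(mv 785 (cons (fin 849 5 784)
(mv 1038 (cons (fin 1037 1 973)
(mv 1102 (cons (fin 1166 6 910)
(mv 1101 (cons (fin 1165 5 909)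
(mv 1103 (cons (fin 1167 4 910)
(mv 1100 (cons (fin 1039 2 1036)
(mv 1035 (cons (fin 1036 3 1035)
(mv 1099 (cons (fin 1034 3 1034)
(mv 1163 (cons (fin 1162 1 1098)
(fin 1164 1 1099))))))))))))))))))))))))))
(mv 909 (cons (fin 908 0 908)
(mv 977 (cons (fin 978 3 910)
(fin 912 0 909))))))))))))))))
(cons (mv 1039 (cons (cons (mv 1038 (cons (mv 977 (cons (fin 978 1 974)
(fin 1037 2 973)))
(cons (mv 1037 (cons (fin 1036 2 972)
(mv 972 (cons (fin 973 3 972)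
(mv 1101 (cons (fin 1100 1 1036)
(mv 1041 (cons (fin 1102 1 1037)
(mv 1042 (cons (fin 1043 3 975)
(mv 1106 (cons (fin 1105 0 1038)
(fin 1107 0 1039)))))))))))))
(mv 977 (cons (fin 978 1 974)
(mv 1041 (cons (mv 1042 (cons (fin 1043 3 975)
(mv 1102 (cons (fin 1101 1 1037)
(fin 1103 1 1038)))))
(cons (mv 1042 (cons (fin 1043 3 975)
(mv 1106 (cons (fin 1105 0 1038)
(fin 1107 0 1039)))))
(mv 1101 (cons (fin 1102 1 1037)
(mv 1105 (cons (fin 1106 0 1038)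
(mv 912 (cons (fin 1169 7 912)
(fin 848 4 848)))))))))))))))
(cons (mv 1103 (cons (mv 912 (cons (fin 848 5 847)
(fin 1167 6 911)))
(cons (mv 1167 (cons (fin 1231 6 975)
(mv 1166 (cons (fin 1230 5 974)
(mv 911 (cons (fin 1102 5 910)
(mv 846 (cons (fin 910 7 846)
(mv 847 (cons (fin 782 7 782)
(fin 783 4 783)))))))))))
(mv 911 (cons (cons (mv 783 (cons (fin 847 4 783)
(mv 910 (cons (fin 846 7 846)
(mv 909 (cons (fin 908 0 908)
(mv 912 (cons (fin 977 0 909)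
(fin 848 5 847)))))))))
(mv 783 (cons (fin 847 4 783)
(mv 910 (cons (fin 846 7 846)
(mv 909 (cons (fin 908 0 908)
(mv 977 (cons (fin 978 3 910)
(fin 912 0 909))))))))))
(cons (mv 846 (cons (fin 910 7 846)
(mv 847 (cons (fin 782 7 782)
(fin 783 4 783)))))
(cons (mv 910 (cons (fin 846 7 846)
(mv 909 (cons (fin 908 0 908)
(mv 912 (cons (fin 977 0 909)
(fin 848 5 847)))))))
(mv 847 (cons (fin 783 4 783)
(mv 848 (cons (fin 912 5 847)
(fin 784 6 783))))))))))))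
(mv 1038 (cons (mv 977 (cons (fin 978 1 974)
(fin 1037 2 973)))
(cons (mv 1037 (cons (fin 1036 2 972)
(mv 972 (cons (fin 973 3 972)
(mv 1101 (cons (fin 1100 1 1036)
(mv 1041 (cons (fin 1102 1 1037)
(mv 1042 (cons (fin 1043 3 975)
(mv 1106 (cons (fin 1105 0 1038)
(fin 1107 0 1039)))))))))))))
(mv 1041 (cons (cons (mv 977 (cons (fin 978 1 974)
(mv 1042 (cons (fin 1043 3 975)
(mv 1106 (cons (fin 1105 0 1038)
(fin 1107 0 1039)))))))
(mv 1042 (cons (fin 1043 3 975)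
(mv 1106 (cons (fin 1105 0 1038)
(fin 1107 0 1039))))))
(cons (mv 977 (cons (fin 978 1 974)
(mv 1101 (cons (fin 1102 1 1037)
(mv 1105 (cons (fin 1106 0 1038)
(mv 912 (cons (fin 1169 7 912)
(fin 848 4 848)))))))))
(mv 978 (cons (fin 977 1 974)
(mv 1042 (cons (fin 1043 3 975)
(fin 979 2 975)))))))))))))
(cons (mv 1038 (cons (mv 977 (cons (fin 978 1 974)
(fin 1037 2 973)))
(cons (mv 1037 (cons (fin 1036 2 972)
(mv 972 (cons (fin 973 3 972)
(mv 1101 (cons (fin 1100 1 1036)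
(mv 1041 (cons (fin 1102 1 1037)
(mv 1042 (cons (fin 1043 3 975)
(mv 1106 (cons (fin 1105 0 1038)
(fin 1107 0 1039)))))))))))))
(mv 977 (cons (fin 978 1 974)
(mv 1041 (cons (mv 1042 (cons (fin 1043 3 975)
(mv 1102 (cons (fin 1101 1 1037)
(fin 1103 1 1038)))))
(cons (mv 1042 (cons (fin 1043 3 975)
(mv 1106 (cons (fin 1105 0 1038)
(fin 1107 0 1039)))))
(mv 1102 (cons (fin 1101 1 1037)
(mv 911 (cons (fin 847 5 846)
(mv 1166 (cons (fin 1103 5 910)
(fin 1230 6 974)))))))))))))))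
(cons (mv 1103 (cons (mv 912 (cons (fin 848 5 847)
(fin 1167 6 911)))
(cons (mv 1167 (cons (fin 1231 6 975)
(mv 1166 (cons (fin 1230 5 974)
(mv 911 (cons (fin 1102 5 910)
(mv 846 (cons (fin 910 7 846)
(mv 847 (cons (fin 782 7 782)
(fin 783 4 783)))))))))))
(mv 912 (cons (fin 848 5 847)
(mv 911 (cons (cons (mv 783 (cons (fin 847 4 783)
(mv 846 (cons (fin 910 7 846)
(mv 1102 (cons (fin 1166 5 910)
(mv 1041 (cons (fin 1042 1 1038)
(mv 1101 (cons (fin 1038 1 1037)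
(fin 1100 2 1036)))))))))))
(mv 846 (cons (fin 910 7 846)
(mv 1102 (cons (fin 1166 5 910)
(mv 1041 (cons (fin 1042 1 1038)
(mv 1101 (cons (fin 1038 1 1037)
(fin 1100 2 1036))))))))))
(cons (mv 846 (cons (fin 910 7 846)
(mv 847 (cons (fin 782 7 782)
(fin 783 4 783)))))
(mv 783 (cons (fin 847 4 783)
(mv 1102 (cons (fin 1166 5 910)
(mv 1041 (cons (fin 1042 1 1038)
(mv 1101 (cons (fin 1038 1 1037)
(fin 1100 2 1036)))))))))))))))))
(mv 911 (cons (cons (mv 847 (cons (fin 783 4 783)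
(mv 782 (cons (fin 846 7 782)
(mv 848 (cons (fin 784 6 783)
(mv 912 (cons (fin 1103 5 847)
(mv 785 (cons (fin 849 6 784)
(mv 1041 (cons (fin 1105 4 848)
(mv 1042 (cons (fin 1043 3 975)
(mv 978 (cons (fin 979 2 975)
(mv 977 (cons (fin 910 3 910)
(fin 1038 1 974)))))))))))))))))))
(cons (mv 912 (cons (mv 848 (cons (fin 784 5 783)
(fin 1103 5 847)))
(cons (mv 1103 (cons (fin 1167 6 911)
(mv 910 (cons (fin 846 7 846)
(mv 909 (cons (fin 908 0 908)
(fin 977 0 909)))))))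
(mv 848 (cons (fin 784 5 783)
(mv 785 (cons (fin 849 6 784)
(mv 1041 (cons (fin 1105 4 848)
(mv 1042 (cons (fin 1043 3 975)
(mv 978 (cons (fin 979 2 975)
(mv 977 (cons (fin 910 3 910)
(fin 1038 1 974))))))))))))))))
(mv 847 (cons (fin 783 4 783)
(mv 782 (cons (fin 846 7 782)
(mv 848 (cons (fin 784 6 783)
(mv 912 (cons (cons (mv 785 (cons (fin 849 6 784)
(mv 1041 (cons (fin 1105 4 848)
(mv 1042 (cons (fin 1043 3 975)
(mv 978 (cons (fin 979 2 975)
(mv 977 (cons (fin 910 3 910)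
(fin 1038 1 974)))))))))))
(mv 1041 (cons (fin 1105 4 848)
(mv 1042 (cons (fin 1043 3 975)
(mv 978 (cons (fin 979 2 975)
(mv 977 (cons (fin 910 3 910)
(fin 1038 1 974))))))))))
(cons (mv 849 (cons (fin 785 6 784)
(mv 850 (cons (fin 910 1 846)
(fin 851 1 847)))))
(mv 785 (cons (fin 849 6 784)
(mv 1041 (cons (fin 1105 4 848)
(mv 1042 (cons (fin 1043 3 975)
(mv 978 (cons (fin 979 2 975)
(mv 977 (cons (fin 1038 1 974)
(mv 914 (cons (fin 915 2 911)
(mv 850 (cons (fin 786 5 785)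
(mv 851 (cons (fin 913 2 847)
(fin 787 6 786))))))))))))))))))))))))))))
(cons (cons (mv 847 (cons (fin 783 4 783)
(mv 846 (cons (fin 782 7 782)
(mv 848 (cons (fin 784 6 783)
(mv 910 (cons (fin 1103 7 846)
(mv 849 (cons (fin 909 1 845)
(fin 850 1 846)))))))))))
(mv 847 (cons (fin 783 4 783)
(mv 846 (cons (fin 782 7 782)
(mv 910 (cons (fin 1103 7 846)
(mv 909 (cons (fin 908 0 908)
(mv 977 (cons (fin 978 3 910)
(fin 912 0 909))))))))))))
(cons (mv 847 (cons (fin 783 4 783)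
(mv 782 (cons (fin 846 7 782)
(mv 848 (cons (fin 784 6 783)
(mv 912 (cons (fin 1103 5 847)
(mv 785 (cons (fin 849 6 784)
(mv 1041 (cons (fin 1105 4 848)
(mv 1042 (cons (fin 1043 3 975)
(mv 978 (cons (fin 979 2 975)
(mv 977 (cons (fin 1038 1 974)
(mv 914 (cons (fin 915 2 911)
(mv 850 (cons (fin 786 5 785)
(mv 851 (cons (fin 913 2 847)
(fin 787 6 786)))))))))))))))))))))))))
(mv 847 (cons (fin 783 4 783)
(mv 848 (cons (fin 784 6 783)
(mv 912 (cons (fin 1103 5 847)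
(mv 785 (cons (fin 849 6 784)
(mv 1041 (cons (fin 1105 4 848)
(mv 1042 (cons (fin 1043 3 975)
(mv 978 (cons (fin 979 2 975)
(mv 977 (cons (fin 910 3 910)
(fin 1038 1 974)))))))))))))))))))))))))
(mv 1041 (cons (cons (mv 1042 (cons (fin 1043 3 975)
(mv 974 (cons (fin 1039 3 974)
(fin 977 0 974)))))
(mv 977 (cons (cons (cons (mv 978 (cons (mv 979 (cons (fin 1039 1 975)
(fin 980 1 976)))
(mv 910 (cons (fin 911 3 910)
(mv 909 (cons (fin 974 3 909)
(mv 914 (cons (fin 915 2 911)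
(mv 850 (cons (fin 786 5 785)
(mv 1105 (cons (fin 913 6 849)
(fin 1169 6 913)))))))))))))
(mv 913 (cons (cons (mv 785 (cons (fin 849 5 784)
(mv 914 (cons (fin 974 2 910)
(mv 915 (cons (fin 912 1 911)
(fin 916 1 912)))))))
(mv 849 (cons (fin 785 5 784)
(mv 786 (cons (fin 850 6 785)
(mv 848 (cons (fin 784 7 784)
(mv 912 (cons (fin 1105 7 848)
(mv 847 (cons (fin 783 7 783)
(mv 845 (cons (fin 846 0 845)
(mv 1039 (cons (fin 1103 5 847)
(mv 1038 (cons (fin 1037 2 973)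
(mv 1102 (cons (fin 1101 1 1037)
(fin 911 5 846))))))))))))))))))))
(cons (mv 914 (cons (fin 974 2 910)
(mv 915 (cons (fin 912 1 911)
(fin 916 1 912)))))
(mv 849 (cons (fin 785 5 784)
(mv 784 (cons (fin 848 7 784)
(mv 850 (cons (fin 786 6 785)
(mv 914 (cons (fin 974 2 910)
(fin 1105 6 849)))))))))))))
(cons (mv 978 (cons (mv 910 (cons (fin 911 3 910)
(mv 909 (cons (fin 974 3 909)
(mv 914 (cons (fin 915 2 911)
(mv 850 (cons (fin 786 5 785)
(mv 1105 (cons (fin 913 6 849)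
(fin 1169 6 913)))))))))))
(cons (mv 911 (cons (fin 910 3 910)
(mv 979 (cons (fin 912 3 911)
(fin 980 1 976)))))
(mv 914 (cons (fin 915 2 911)
(mv 786 (cons (fin 850 5 785)
(mv 913 (cons (fin 974 2 910)
(mv 849 (cons (fin 785 5 784)
(mv 848 (cons (fin 784 7 784)
(mv 1105 (cons (fin 912 7 848)
(fin 1169 6 913))))))))))))))))
(mv 978 (cons (mv 979 (cons (fin 1039 1 975)
(fin 980 1 976)))
(cons (mv 910 (cons (fin 911 3 910)
(mv 909 (cons (fin 974 3 909)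
(mv 915 (cons (fin 914 2 911)
(mv 979 (cons (fin 980 1 976)
(fin 916 2 912)))))))))
(mv 910 (cons (fin 911 3 910)
(mv 914 (cons (fin 915 2 911)
(mv 974 (cons (fin 909 3 909)
(fin 913 2 910))))))))))))
(cons (cons (mv 978 (cons (mv 979 (cons (fin 1039 1 975)
(fin 980 1 976)))
(mv 910 (cons (fin 911 3 910)
(mv 914 (cons (fin 915 2 911)
(mv 850 (cons (fin 786 5 785)
(mv 1105 (cons (fin 913 6 849)
(fin 1169 6 913)))))))))))
(mv 978 (cons (mv 979 (cons (fin 1039 1 975)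
(fin 980 1 976)))
(cons (mv 910 (cons (fin 911 3 910)
(mv 909 (cons (fin 974 3 909)
(mv 915 (cons (fin 914 2 911)
(mv 979 (cons (fin 980 1 976)
(fin 916 2 912)))))))))
(mv 910 (cons (fin 911 3 910)
(mv 914 (cons (fin 915 2 911)
(mv 786 (cons (fin 850 5 785)
(mv 974 (cons (fin 909 3 909)
(mv 1038 (cons (fin 1037 1 973)
(fin 1039 1 974)))))))))))))))
(cons (mv 978 (cons (mv 979 (cons (fin 1039 1 975)
(fin 980 1 976)))
(cons (mv 911 (cons (fin 910 3 910)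
(mv 979 (cons (fin 912 3 911)
(fin 980 1 976)))))
(mv 910 (cons (fin 911 3 910)
(mv 974 (cons (fin 909 3 909)
(mv 1038 (cons (fin 1037 1 973)
(fin 1039 1 974))))))))))
(mv 978 (cons (mv 979 (cons (fin 1039 1 975)
(fin 980 1 976)))
(mv 914 (cons (fin 915 2 911)
(mv 786 (cons (fin 850 5 785)
(mv 913 (cons (fin 974 2 910)
(mv 849 (cons (fin 785 5 784)
(mv 848 (cons (fin 784 7 784)
(mv 1105 (cons (fin 912 7 848)
(fin 1169 6 913))))))))))))))))))))
(cons (mv 1042 (cons (fin 1043 3 975)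
(mv 1039 (cons (mv 978 (cons (fin 979 2 975)
(mv 977 (cons (fin 1038 1 974)
(mv 910 (cons (fin 911 3 910)
(mv 914 (cons (fin 915 2 911)
(mv 850 (cons (fin 786 5 785)
(fin 1105 5 849)))))))))))
(cons (mv 1102 (cons (fin 1103 1 1038)
(mv 1038 (cons (fin 1101 1 1037)
(mv 1037 (cons (fin 1036 2 972)
(fin 977 2 973)))))))
(mv 978 (cons (fin 979 2 975)
(mv 1103 (cons (fin 1102 1 1038)
(mv 912 (cons (fin 848 5 847)
(fin 1167 6 911))))))))))))
(cons (mv 1042 (cons (fin 1043 3 975)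
(mv 1039 (cons (fin 974 3 974)
(mv 978 (cons (fin 979 2 975)
(mv 1102 (cons (fin 1103 1 1038)
(mv 1038 (cons (fin 1101 1 1037)
(mv 1106 (cons (fin 1105 0 1038)
(fin 1107 0 1039)))))))))))))
(mv 1042 (cons (fin 1043 3 975)
(mv 977 (cons (fin 974 0 974)
(mv 978 (cons (mv 910 (cons (fin 911 3 910)
(mv 914 (cons (fin 915 2 911)
(mv 850 (cons (fin 786 5 785)
(fin 1105 5 849)))))))
(cons (mv 911 (cons (fin 910 3 910)
(mv 979 (cons (fin 912 3 911)
(fin 980 1 976)))))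
(mv 914 (cons (fin 915 2 911)
(mv 850 (cons (fin 786 5 785)
(fin 1105 5 849))))))))))))))))))
(cons (cons (mv 974 (cons (cons (mv 973 (cons (fin 1041 0 973)
(mv 908 (cons (fin 909 3 908)
(mv 972 (cons (fin 907 3 907)
(fin 1039 0 972)))))))
(mv 977 (cons (cons (mv 909 (cons (fin 910 3 909)
(mv 914 (cons (fin 913 2 910)
(mv 978 (cons (fin 915 2 911)
(mv 1038 (cons (fin 1037 1 973)
(fin 1039 1 974)))))))))
(cons (mv 909 (cons (fin 910 3 909)
(mv 914 (cons (fin 913 2 910)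
(mv 978 (cons (fin 915 2 911)
(mv 979 (cons (fin 1039 1 975)
(mv 911 (cons (fin 912 3 911)
(mv 783 (cons (fin 847 4 783)
(mv 980 (cons (fin 1041 1 976)
(mv 1044 (cons (fin 1043 0 976)
(fin 1045 0 977)))))))))))))))))
(mv 914 (cons (fin 913 2 910)
(mv 978 (cons (fin 915 2 911)
(mv 1038 (cons (fin 1037 1 973)
(fin 1039 1 974)))))))))
(cons (cons (mv 909 (cons (fin 910 3 909)
(mv 1038 (cons (fin 1037 1 973)
(mv 978 (cons (fin 1039 1 974)
(mv 915 (cons (fin 914 2 911)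
(mv 979 (cons (fin 916 2 912)
(mv 911 (cons (fin 912 3 911)
(mv 783 (cons (fin 847 5 782)
(mv 980 (cons (fin 1041 1 976)
(mv 1044 (cons (fin 1043 0 976)
(fin 1045 0 977)))))))))))))))))))
(mv 910 (cons (fin 909 3 909)
(mv 911 (cons (fin 978 3 910)
(mv 783 (cons (fin 847 4 783)
(mv 1038 (cons (fin 1037 1 973)
(mv 1102 (cons (fin 1166 6 910)
(mv 1101 (cons (fin 1165 5 909)
(mv 1039 (cons (fin 1041 1 1037)
(mv 846 (cons (fin 1103 7 846)
(fin 782 4 782))))))))))))))))))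
(cons (mv 910 (cons (fin 909 3 909)
(mv 913 (cons (fin 914 2 910)
(mv 785 (cons (fin 849 5 784)
(mv 1038 (cons (fin 1037 1 973)
(mv 846 (cons (cons (mv 1039 (cons (fin 782 4 782)
(fin 1103 4 846)))
(mv 781 (cons (fin 845 7 781)
(mv 717 (cons (fin 782 7 717)
(mv 847 (cons (fin 783 6 782)
(mv 1102 (cons (fin 911 6 846)
(mv 1165 (cons (fin 1101 5 909)
(mv 1166 (cons (fin 1229 5 973)
(mv 1167 (cons (fin 1103 4 910)
(fin 1231 4 974))))))))))))))))
(cons (mv 781 (cons (fin 845 7 781)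
(mv 783 (cons (fin 847 6 782)
(mv 1103 (cons (fin 1039 4 846)
(mv 1102 (cons (fin 1167 4 910)
(mv 1165 (cons (fin 1101 5 909)
(mv 1166 (cons (fin 1229 5 973)
(fin 911 6 910)))))))))))))
(mv 781 (cons (fin 845 7 781)
(mv 782 (cons (fin 717 7 717)
(fin 1039 4 782))))))))))))))))
(mv 910 (cons (fin 909 3 909)
(mv 911 (cons (fin 978 3 910)
(mv 783 (cons (fin 847 4 783)
(mv 913 (cons (fin 914 2 910)
(mv 849 (cons (fin 785 5 784)
(mv 912 (cons (fin 850 2 846)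
(mv 846 (cons (fin 845 3 845)
(mv 782 (cons (fin 719 6 718)
(fin 718 4 718))))))))))))))))))))))
(cons (mv 973 (cons (mv 908 (cons (fin 909 3 908)
(mv 972 (cons (fin 907 3 907)
(fin 1039 0 972)))))
(cons (mv 908 (cons (fin 909 3 908)
(mv 913 (cons (fin 912 2 909)
(mv 977 (cons (fin 914 2 910)
(mv 1037 (cons (fin 1036 1 972)
(fin 1038 1 973)))))))))
(mv 912 (cons (fin 913 2 909)
(mv 972 (cons (fin 911 2 908)
(fin 1039 0 972))))))))
(cons (mv 973 (cons (fin 1041 0 973)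
(mv 912 (cons (fin 913 2 909)
(mv 972 (cons (fin 911 2 908)
(fin 1039 0 972)))))))
(mv 973 (cons (fin 1041 0 973)
(mv 908 (cons (fin 909 3 908)
(mv 907 (cons (fin 972 3 907)
(mv 913 (cons (fin 912 2 909)
(mv 977 (cons (fin 914 2 910)
(mv 1037 (cons (fin 1036 1 972)
(fin 1038 1 973)))))))))))))))))
(mv 1041 (cons (cons (mv 974 (cons (fin 973 0 973)
(mv 1042 (cons (fin 1039 3 974)
(fin 1043 3 975)))))
(mv 1042 (cons (fin 1043 3 975)
(mv 1039 (cons (mv 978 (cons (fin 979 2 975)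
(mv 977 (cons (fin 1038 1 974)
(mv 914 (cons (fin 915 2 911)
(mv 850 (cons (fin 786 5 785)
(fin 1105 5 849)))))))))
(cons (mv 1102 (cons (fin 1103 1 1038)
(mv 1038 (cons (fin 1101 1 1037)
(mv 1037 (cons (fin 1036 2 972)
(fin 977 2 973)))))))
(mv 978 (cons (fin 979 2 975)
(mv 1103 (cons (fin 1102 1 1038)
(mv 912 (cons (fin 848 5 847)
(fin 1167 6 911)))))))))))))
(cons (mv 974 (cons (fin 973 0 973)
(mv 977 (cons (cons (mv 909 (cons (fin 910 3 909)
(mv 913 (cons (fin 914 2 910)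
(mv 785 (cons (fin 849 5 784)
(mv 1038 (cons (fin 1037 1 973)
(mv 1039 (cons (fin 978 1 974)
(mv 1101 (cons (fin 1102 1 1037)
(mv 1105 (cons (fin 1106 0 1038)
(mv 912 (cons (fin 848 7 848)
(fin 1169 7 912)))))))))))))))))
(cons (mv 909 (cons (fin 910 3 909)
(mv 914 (cons (fin 913 2 910)
(mv 978 (cons (fin 915 2 911)
(mv 979 (cons (fin 1039 1 975)
(fin 980 1 976)))))))))
(mv 909 (cons (fin 910 3 909)
(mv 1038 (cons (fin 1037 1 973)
(mv 978 (cons (fin 1039 1 974)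
(mv 915 (cons (fin 914 2 911)
(mv 979 (cons (fin 980 1 976)
(fin 916 2 912)))))))))))))
(cons (cons (mv 909 (cons (fin 910 3 909)
(mv 1038 (cons (fin 1037 1 973)
(mv 1039 (cons (fin 978 1 974)
(mv 1101 (cons (fin 1102 1 1037)
(mv 1105 (cons (fin 1106 0 1038)
(mv 912 (cons (fin 1169 7 912)
(fin 848 4 848)))))))))))))
(mv 913 (cons (fin 914 2 910)
(mv 785 (cons (fin 849 5 784)
(mv 1038 (cons (fin 1037 1 973)
(mv 1039 (cons (fin 978 1 974)
(mv 1101 (cons (fin 1102 1 1037)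
(mv 1105 (cons (fin 1106 0 1038)
(mv 912 (cons (fin 848 7 848)
(fin 1169 7 912))))))))))))))))
(cons (mv 910 (cons (fin 909 3 909)
(mv 913 (cons (fin 914 2 910)
(mv 849 (cons (fin 785 5 784)
(mv 786 (cons (fin 850 6 785)
(mv 848 (cons (fin 784 7 784)
(mv 912 (cons (fin 1105 7 848)
(mv 847 (cons (fin 783 7 783)
(mv 846 (cons (fin 845 0 845)
(mv 782 (cons (fin 781 3 781)
(fin 1039 4 782)))))))))))))))))))
(mv 909 (cons (fin 910 3 909)
(mv 1037 (cons (fin 1038 1 973)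
(mv 1105 (cons (mv 912 (cons (fin 1169 7 912)
(fin 848 4 848)))
(cons (mv 914 (cons (fin 913 2 910)
(mv 978 (cons (fin 915 2 911)
(fin 1169 6 913)))))
(mv 848 (cons (fin 912 4 848)
(mv 913 (cons (fin 914 2 910)
(mv 849 (cons (fin 784 7 784)
(fin 785 5 784))))))))))))))))))))
(mv 974 (cons (fin 973 0 973)
(mv 1042 (cons (fin 1043 3 975)
(fin 977 0 974)))))))))
(cons (mv 1041 (cons (cons (mv 974 (cons (fin 973 0 973)
(mv 1042 (cons (fin 1039 3 974)
(fin 1043 3 975)))))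
(mv 1042 (cons (fin 1043 3 975)
(mv 1039 (cons (mv 978 (cons (fin 979 2 975)
(mv 977 (cons (fin 1038 1 974)
(mv 910 (cons (fin 911 3 910)
(mv 914 (cons (fin 915 2 911)
(mv 850 (cons (fin 786 5 785)
(fin 1105 5 849)))))))))))
(cons (mv 1102 (cons (fin 1103 1 1038)
(mv 1038 (cons (fin 1101 1 1037)
(mv 1037 (cons (fin 1036 2 972)
(fin 977 2 973)))))))
(mv 978 (cons (fin 979 2 975)
(mv 1103 (cons (fin 1102 1 1038)
(mv 912 (cons (fin 848 5 847)
(fin 1167 6 911)))))))))))))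
(cons (mv 974 (cons (fin 973 0 973)
(mv 977 (cons (cons (mv 909 (cons (fin 910 3 909)
(mv 913 (cons (fin 914 2 910)
(mv 785 (cons (fin 849 5 784)
(mv 1038 (cons (fin 1037 1 973)
(mv 978 (cons (fin 1039 1 974)
(mv 979 (cons (fin 980 1 976)
(mv 912 (cons (fin 911 3 911)
(mv 848 (cons (fin 1105 7 848)
(fin 784 4 784)))))))))))))))))
(cons (mv 909 (cons (fin 910 3 909)
(mv 913 (cons (fin 914 2 910)
(mv 849 (cons (fin 785 5 784)
(mv 848 (cons (fin 784 7 784)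
(mv 850 (cons (fin 786 6 785)
(mv 912 (cons (fin 1105 7 848)
(mv 851 (cons (fin 911 1 847)
(fin 852 1 848)))))))))))))))
(mv 909 (cons (fin 910 3 909)
(mv 1038 (cons (fin 1037 1 973)
(mv 978 (cons (fin 1039 1 974)
(mv 914 (cons (fin 915 2 911)
(mv 786 (cons (fin 850 5 785)
(mv 979 (cons (fin 980 1 976)
(mv 912 (cons (fin 911 3 911)
(mv 848 (cons (fin 784 4 784)
(fin 1105 4 848)))))))))))))))))))
(cons (cons (mv 909 (cons (fin 910 3 909)
(mv 1038 (cons (fin 1037 1 973)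
(mv 978 (cons (fin 1039 1 974)
(mv 979 (cons (fin 980 1 976)
(mv 912 (cons (fin 911 3 911)
(mv 848 (cons (fin 784 4 784)
(fin 1105 4 848)))))))))))))
(mv 913 (cons (fin 914 2 910)
(mv 785 (cons (fin 849 5 784)
(mv 1038 (cons (fin 1037 1 973)
(mv 978 (cons (fin 1039 1 974)
(mv 979 (cons (fin 980 1 976)
(mv 912 (cons (fin 911 3 911)
(mv 848 (cons (fin 1105 7 848)
(fin 784 4 784))))))))))))))))
(cons (mv 909 (cons (fin 910 3 909)
(mv 913 (cons (fin 914 2 910)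
(mv 785 (cons (fin 849 5 784)
(mv 1038 (cons (fin 1037 1 973)
(mv 1039 (cons (fin 978 1 974)
(mv 1102 (cons (fin 1101 1 1037)
(mv 1166 (cons (fin 911 6 910)
(fin 1230 6 974)))))))))))))))
(mv 909 (cons (fin 910 3 909)
(mv 913 (cons (fin 914 2 910)
(mv 785 (cons (fin 849 5 784)
(mv 1038 (cons (fin 1037 1 973)
(mv 1039 (cons (fin 978 1 974)
(mv 1101 (cons (fin 1102 1 1037)
(mv 1105 (cons (fin 1106 0 1038)
(mv 912 (cons (fin 848 7 848)
(fin 1169 7 912)))))))))))))))))))))))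
(mv 974 (cons (fin 973 0 973)
(mv 1042 (cons (fin 1043 3 975)
(fin 977 0 974))))))))
(mv 974 (cons (cons (mv 973 (cons (fin 1041 0 973)
(mv 908 (cons (fin 909 3 908)
(mv 972 (cons (fin 907 3 907)
(fin 1039 0 972)))))))
(mv 977 (cons (cons (mv 909 (cons (fin 910 3 909)
(mv 913 (cons (fin 914 2 910)
(mv 785 (cons (fin 849 5 784)
(mv 1038 (cons (fin 1037 1 973)
(mv 978 (cons (fin 1039 1 974)
(mv 1041 (cons (fin 1042 0 974)
(mv 979 (cons (fin 980 1 976)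
(mv 912 (cons (fin 911 3 911)
(mv 848 (cons (fin 1105 7 848)
(fin 784 4 784)))))))))))))))))))
(cons (mv 909 (cons (fin 910 3 909)
(mv 913 (cons (fin 914 2 910)
(mv 849 (cons (fin 785 5 784)
(mv 1041 (cons (fin 1042 0 974)
(mv 786 (cons (fin 850 6 785)
(mv 848 (cons (fin 784 7 784)
(mv 912 (cons (fin 1105 7 848)
(mv 847 (cons (fin 783 7 783)
(mv 846 (cons (fin 845 0 845)
(mv 782 (cons (fin 781 3 781)
(mv 1039 (cons (fin 911 7 782)
(fin 1103 5 847)))))))))))))))))))))))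
(mv 909 (cons (fin 910 3 909)
(mv 914 (cons (fin 913 2 910)
(mv 978 (cons (fin 915 2 911)
(mv 1038 (cons (fin 1037 1 973)
(fin 1039 1 974)))))))))))
(cons (cons (mv 913 (cons (fin 914 2 910)
(mv 785 (cons (fin 849 5 784)
(mv 1038 (cons (fin 1037 1 973)
(mv 978 (cons (fin 1039 1 974)
(mv 1041 (cons (fin 1042 0 974)
(mv 979 (cons (fin 980 1 976)
(mv 912 (cons (fin 911 3 911)
(mv 848 (cons (fin 1105 7 848)
(fin 784 4 784)))))))))))))))))
(mv 909 (cons (fin 910 3 909)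
(mv 1038 (cons (fin 1037 1 973)
(mv 978 (cons (fin 1039 1 974)
(mv 914 (cons (fin 915 2 911)
(mv 1041 (cons (fin 1042 0 974)
(mv 786 (cons (fin 850 5 785)
(mv 979 (cons (fin 980 1 976)
(mv 912 (cons (fin 911 3 911)
(mv 848 (cons (fin 784 4 784)
(fin 1105 4 848))))))))))))))))))))
(cons (mv 909 (cons (fin 910 3 909)
(mv 1038 (cons (fin 1037 1 973)
(mv 978 (cons (fin 1039 1 974)
(mv 1041 (cons (fin 1042 0 974)
(mv 979 (cons (fin 980 1 976)
(mv 912 (cons (fin 911 3 911)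
(mv 848 (cons (fin 784 4 784)
(fin 1105 4 848)))))))))))))))
(mv 909 (cons (fin 910 3 909)
(mv 913 (cons (fin 914 2 910)
(mv 849 (cons (fin 785 5 784)
(mv 1037 (cons (fin 1038 1 973)
(mv 1041 (cons (fin 1042 0 974)
(mv 848 (cons (fin 784 7 784)
(mv 850 (cons (fin 786 6 785)
(mv 912 (cons (fin 1105 7 848)
(mv 851 (cons (fin 911 1 847)
(fin 852 1 848))))))))))))))))))))))))
(cons (mv 973 (cons (mv 908 (cons (fin 909 3 908)
(mv 972 (cons (fin 907 3 907)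
(fin 1039 0 972)))))
(cons (mv 908 (cons (fin 909 3 908)
(mv 913 (cons (fin 912 2 909)
(mv 977 (cons (fin 914 2 910)
(mv 1037 (cons (fin 1036 1 972)
(fin 1038 1 973)))))))))
(mv 912 (cons (fin 913 2 909)
(mv 972 (cons (fin 911 2 908)
(fin 1039 0 972))))))))
(cons (mv 973 (cons (fin 1041 0 973)
(mv 908 (cons (fin 909 3 908)
(mv 907 (cons (fin 972 3 907)
(mv 913 (cons (fin 912 2 909)
(mv 977 (cons (fin 914 2 910)
(mv 1037 (cons (fin 1036 1 972)
(fin 1038 1 973)))))))))))))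
(mv 973 (cons (fin 1041 0 973)
(mv 912 (cons (fin 913 2 909)
(mv 972 (cons (fin 911 2 908)
(fin 1039 0 972))))))))))))))
(cons (cons (cons (mv 1039 (cons (cons (mv 1103 (cons (mv 912 (cons (fin 848 5 847)
(fin 1167 6 911)))
(cons (mv 848 (cons (fin 912 5 847)
(mv 911 (cons (mv 847 (cons (fin 784 6 783)
(fin 783 4 783)))
(mv 846 (cons (fin 910 7 846)
(mv 1102 (cons (fin 1166 5 910)
(mv 1041 (cons (fin 1042 1 1038)
(mv 1101 (cons (fin 1038 1 1037)
(fin 1100 2 1036)))))))))))))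
(mv 1167 (cons (fin 1231 6 975)
(mv 910 (cons (fin 974 7 910)
(mv 911 (cons (fin 846 7 846)
(mv 1166 (cons (fin 1102 5 910)
(fin 1230 5 974))))))))))))
(cons (mv 1041 (cons (mv 974 (cons (fin 1042 3 974)
(fin 973 0 973)))
(cons (mv 1042 (cons (fin 1043 3 975)
(mv 978 (cons (fin 979 2 975)
(mv 1106 (cons (fin 1107 0 1039)
(mv 1038 (cons (fin 1105 0 1038)
(mv 1037 (cons (fin 1036 2 972)
(mv 1101 (cons (fin 1100 1 1036)
(fin 1102 1 1037)))))))))))))
(mv 1038 (cons (cons (mv 973 (cons (fin 974 3 973)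
(mv 1037 (cons (fin 972 3 972)
(fin 1036 2 972)))))
(mv 1036 (cons (fin 1037 2 972)
(mv 1102 (cons (fin 1101 1 1037)
(mv 911 (cons (fin 847 5 846)
(mv 1166 (cons (fin 974 6 910)
(fin 1230 6 974))))))))))
(cons (mv 1037 (cons (fin 1036 2 972)
(mv 1101 (cons (fin 1100 1 1036)
(fin 1102 1 1037)))))
(mv 974 (cons (fin 973 3 973)
(mv 1102 (cons (fin 1101 1 1037)
(mv 911 (cons (fin 847 5 846)
(fin 1166 6 910)))))))))))))
(mv 1103 (cons (mv 912 (cons (fin 848 5 847)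
(fin 1167 6 911)))
(cons (mv 912 (cons (fin 848 5 847)
(mv 911 (cons (mv 783 (cons (fin 847 4 783)
(mv 910 (cons (fin 846 7 846)
(mv 909 (cons (fin 908 0 908)
(mv 844 (cons (fin 845 3 844)
(mv 973 (cons (fin 972 1 908)
(mv 913 (cons (fin 974 1 909)
(mv 850 (cons (fin 849 2 846)
(mv 914 (cons (fin 915 1 911)
(fin 851 2 847)))))))))))))))))
(cons (mv 910 (cons (fin 846 7 846)
(mv 909 (cons (fin 908 0 908)
(mv 844 (cons (fin 845 3 844)
(mv 973 (cons (fin 972 1 908)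
(mv 913 (cons (fin 974 1 909)
(mv 850 (cons (fin 849 2 846)
(mv 914 (cons (fin 915 1 911)
(fin 851 2 847)))))))))))))))
(mv 847 (cons (fin 783 4 783)
(mv 1102 (cons (fin 1038 5 846)
(fin 1166 5 910))))))))))
(mv 1167 (cons (fin 1231 6 975)
(mv 910 (cons (fin 974 7 910)
(mv 911 (cons (fin 846 7 846)
(mv 1166 (cons (fin 1102 5 910)
(fin 1230 5 974))))))))))))))
(cons (cons (mv 1103 (cons (mv 912 (cons (fin 848 5 847)
(fin 1167 6 911)))
(cons (mv 1167 (cons (fin 1231 6 975)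
(mv 1166 (cons (fin 1230 5 974)
(mv 911 (cons (fin 1102 5 910)
(mv 846 (cons (fin 910 7 846)
(mv 847 (cons (fin 782 7 782)
(fin 783 4 783)))))))))))
(mv 912 (cons (fin 848 5 847)
(mv 911 (cons (cons (mv 783 (cons (fin 847 4 783)
(mv 846 (cons (fin 910 7 846)
(mv 1102 (cons (fin 1166 5 910)
(mv 1041 (cons (fin 1042 1 1038)
(mv 1101 (cons (fin 1038 1 1037)
(fin 1100 2 1036)))))))))))
(mv 846 (cons (fin 910 7 846)
(mv 1102 (cons (fin 1166 5 910)
(mv 1041 (cons (fin 1042 1 1038)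
(mv 1101 (cons (fin 1038 1 1037)
(fin 1100 2 1036))))))))))
(cons (mv 846 (cons (fin 910 7 846)
(mv 847 (cons (fin 782 7 782)
(fin 783 4 783)))))
(mv 783 (cons (fin 847 4 783)
(mv 1102 (cons (fin 1166 5 910)
(mv 1041 (cons (fin 1042 1 1038)
(mv 1101 (cons (fin 1038 1 1037)
(fin 1100 2 1036)))))))))))))))))
(mv 1041 (cons (mv 974 (cons (fin 1042 3 974)
(fin 973 0 973)))
(cons (mv 1038 (cons (cons (mv 973 (cons (fin 974 3 973)
(mv 1037 (cons (fin 972 3 972)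
(fin 1036 2 972)))))
(mv 1036 (cons (fin 1037 2 972)
(mv 1102 (cons (fin 1101 1 1037)
(mv 1105 (cons (fin 1106 0 1038)
(mv 912 (cons (fin 848 4 848)
(mv 1166 (cons (fin 1230 6 974)
(mv 1167 (cons (fin 1103 6 911)
(mv 1231 (cons (fin 974 4 974)
(mv 1233 (cons (fin 1169 7 976)
(mv 1232 (cons (fin 1234 3 1166)
(mv 1165 (cons (fin 1164 0 1164)
(fin 1168 0 1165))))))))))))))))))))))
(cons (mv 1037 (cons (fin 1036 2 972)
(mv 1101 (cons (fin 1100 1 1036)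
(fin 1102 1 1037)))))
(mv 974 (cons (fin 973 3 973)
(mv 1102 (cons (fin 1101 1 1037)
(mv 1105 (cons (fin 1106 0 1038)
(mv 848 (cons (fin 912 4 848)
(mv 1166 (cons (fin 1230 6 974)
(mv 1165 (cons (fin 1229 5 973)
(mv 1167 (cons (fin 1231 4 974)
(mv 910 (cons (fin 1103 7 910)
(mv 845 (cons (fin 909 7 845)
(mv 846 (cons (fin 781 7 781)
(fin 782 4 782))))))))))))))))))))))))
(mv 1042 (cons (fin 1043 3 975)
(mv 978 (cons (fin 979 2 975)
(mv 1102 (cons (fin 1103 1 1038)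
(mv 1038 (cons (fin 1101 1 1037)
(mv 1106 (cons (fin 1105 0 1038)
(fin 1107 0 1039)))))))))))))))
(cons (mv 1103 (cons (mv 912 (cons (fin 848 5 847)
(fin 1167 6 911)))
(cons (mv 911 (cons (cons (mv 783 (cons (fin 847 4 783)
(mv 910 (cons (fin 846 7 846)
(mv 909 (cons (fin 908 0 908)
(mv 912 (cons (fin 848 5 847)
(mv 844 (cons (fin 845 3 844)
(mv 973 (cons (fin 972 1 908)
(mv 974 (cons (fin 913 1 909)
(fin 1041 0 973)))))))))))))))
(mv 783 (cons (fin 847 4 783)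
(mv 910 (cons (fin 846 7 846)
(mv 909 (cons (fin 908 0 908)
(mv 1102 (cons (fin 1166 5 910)
(mv 1041 (cons (fin 1042 1 1038)
(mv 973 (cons (fin 974 0 973)
(mv 972 (cons (fin 912 1 908)
(mv 970 (cons (fin 971 2 906)
(mv 1100 (cons (fin 1101 2 1036)
(mv 1036 (cons (fin 1164 6 908)
(mv 845 (cons (fin 781 5 780)
(fin 1037 5 844))))))))))))))))))))))))
(cons (mv 846 (cons (fin 910 7 846)
(mv 847 (cons (fin 782 7 782)
(fin 783 4 783)))))
(cons (mv 910 (cons (fin 846 7 846)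
(mv 909 (cons (fin 908 0 908)
(mv 912 (cons (fin 848 5 847)
(mv 844 (cons (fin 845 3 844)
(mv 973 (cons (fin 972 1 908)
(mv 974 (cons (fin 913 1 909)
(fin 1041 0 973)))))))))))))
(mv 847 (cons (fin 783 4 783)
(mv 848 (cons (fin 912 5 847)
(fin 784 6 783)))))))))
(mv 1167 (cons (fin 1231 6 975)
(mv 910 (cons (fin 974 7 910)
(mv 911 (cons (fin 846 7 846)
(mv 1166 (cons (fin 1102 5 910)
(fin 1230 5 974))))))))))))
(mv 1103 (cons (mv 912 (cons (fin 848 5 847)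
(fin 1167 6 911)))
(cons (mv 911 (cons (cons (mv 783 (cons (fin 847 4 783)
(mv 910 (cons (fin 846 7 846)
(mv 909 (cons (fin 908 0 908)
(mv 912 (cons (fin 848 5 847)
(mv 844 (cons (fin 845 3 844)
(mv 973 (cons (fin 972 1 908)
(mv 974 (cons (fin 913 1 909)
(fin 1041 0 973)))))))))))))))
(mv 846 (cons (fin 910 7 846)
(mv 847 (cons (fin 782 7 782)
(fin 783 4 783))))))
(cons (mv 910 (cons (fin 846 7 846)
(mv 909 (cons (fin 908 0 908)
(mv 912 (cons (fin 848 5 847)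
(mv 844 (cons (fin 845 3 844)
(mv 973 (cons (fin 972 1 908)
(mv 974 (cons (fin 913 1 909)
(fin 1041 0 973)))))))))))))
(mv 847 (cons (fin 783 4 783)
(mv 848 (cons (fin 912 5 847)
(fin 784 6 783))))))))
(mv 1167 (cons (fin 1231 6 975)
(mv 974 (cons (fin 910 7 910)
(mv 973 (cons (fin 972 0 972)
(fin 1041 0 973))))))))))))))
(mv 974 (cons (cons (mv 973 (cons (fin 1041 0 973)
(mv 908 (cons (fin 909 3 908)
(mv 907 (cons (fin 972 3 907)
(mv 913 (cons (fin 912 2 909)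
(mv 977 (cons (fin 914 2 910)
(mv 1037 (cons (fin 1036 1 972)
(fin 1038 1 973)))))))))))))
(cons (mv 977 (cons (cons (mv 909 (cons (fin 910 3 909)
(mv 913 (cons (fin 914 2 910)
(mv 849 (cons (fin 785 5 784)
(mv 1037 (cons (fin 1038 1 973)
(mv 1041 (cons (fin 1042 0 974)
(mv 848 (cons (fin 784 7 784)
(mv 850 (cons (fin 786 6 785)
(mv 912 (cons (fin 1105 7 848)
(mv 851 (cons (fin 911 1 847)
(fin 852 1 848)))))))))))))))))))
(mv 910 (cons (fin 909 3 909)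
(mv 911 (cons (fin 978 3 910)
(mv 783 (cons (fin 847 4 783)
(mv 913 (cons (fin 914 2 910)
(mv 849 (cons (fin 785 5 784)
(mv 912 (cons (fin 850 2 846)
(mv 846 (cons (fin 845 3 845)
(mv 782 (cons (fin 719 6 718)
(fin 718 4 718))))))))))))))))))
(cons (mv 910 (cons (fin 909 3 909)
(mv 911 (cons (fin 978 3 910)
(mv 847 (cons (fin 783 4 783)
(mv 1038 (cons (fin 1037 1 973)
(fin 1102 6 846)))))))))
(cons (mv 913 (cons (fin 914 2 910)
(mv 849 (cons (fin 785 5 784)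
(mv 1037 (cons (fin 1038 1 973)
(mv 1041 (cons (fin 1042 0 974)
(mv 848 (cons (fin 784 7 784)
(mv 850 (cons (fin 786 6 785)
(mv 912 (cons (fin 1105 7 848)
(mv 851 (cons (fin 911 1 847)
(fin 852 1 848)))))))))))))))))
(mv 909 (cons (fin 910 3 909)
(mv 914 (cons (fin 913 2 910)
(mv 978 (cons (fin 915 2 911)
(mv 1042 (cons (fin 1041 0 974)
(fin 1043 0 975)))))))))))))
(mv 977 (cons (cons (mv 909 (cons (fin 910 3 909)
(mv 913 (cons (fin 914 2 910)
(mv 973 (cons (fin 908 3 908)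
(fin 912 2 909)))))))
(mv 909 (cons (fin 910 3 909)
(mv 973 (cons (fin 908 3 908)
(mv 1037 (cons (fin 1036 1 972)
(fin 1038 1 973))))))))
(cons (mv 913 (cons (fin 914 2 910)
(mv 785 (cons (fin 849 5 784)
(mv 973 (cons (fin 912 2 909)
(mv 1037 (cons (fin 1036 1 972)
(fin 1038 1 973)))))))))
(mv 910 (cons (fin 909 3 909)
(mv 911 (cons (fin 978 3 910)
(mv 783 (cons (fin 847 4 783)
(mv 913 (cons (fin 914 2 910)
(mv 849 (cons (fin 785 5 784)
(mv 912 (cons (fin 850 2 846)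
(mv 846 (cons (fin 845 3 845)
(mv 782 (cons (fin 719 6 718)
(fin 718 4 718))))))))))))))))))))))
(cons (mv 973 (cons (fin 1041 0 973)
(mv 908 (cons (fin 909 3 908)
(mv 912 (cons (fin 913 2 909)
(mv 972 (cons (fin 907 3 907)
(fin 911 2 908)))))))))
(cons (mv 973 (cons (fin 1041 0 973)
(mv 908 (cons (fin 909 3 908)
(mv 972 (cons (fin 907 3 907)
(mv 1036 (cons (fin 1035 1 971)
(fin 1037 1 972)))))))))
(mv 973 (cons (fin 1041 0 973)
(mv 912 (cons (fin 913 2 909)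
(mv 911 (cons (fin 972 2 908)
(mv 783 (cons (fin 847 4 783)
(mv 1037 (cons (fin 1036 1 972)
(mv 977 (cons (fin 1038 1 973)
(mv 978 (cons (fin 910 3 910)
(fin 979 3 911))))))))))))))))))))
(cons (mv 1041 (cons (cons (mv 974 (cons (fin 973 0 973)
(mv 1042 (cons (fin 1039 3 974)
(fin 1043 3 975)))))
(mv 1042 (cons (fin 1043 3 975)
(mv 1039 (cons (cons (mv 978 (cons (fin 979 2 975)
(mv 977 (cons (fin 1038 1 974)
(mv 910 (cons (fin 911 3 910)
(mv 914 (cons (fin 915 2 911)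
(mv 850 (cons (fin 786 5 785)
(fin 1105 5 849)))))))))))
(mv 1102 (cons (fin 1103 1 1038)
(mv 1038 (cons (fin 1101 1 1037)
(mv 1037 (cons (fin 1036 2 972)
(fin 977 2 973))))))))
(cons (mv 978 (cons (fin 979 2 975)
(mv 1103 (cons (fin 1102 1 1038)
(mv 1106 (cons (fin 1107 0 1039)
(mv 1167 (cons (fin 1231 6 975)
(mv 1166 (cons (fin 1230 5 974)
(mv 1168 (cons (fin 1232 4 975)
(mv 1105 (cons (fin 1169 2 1102)
(mv 914 (cons (fin 850 5 849)
(mv 915 (cons (fin 977 2 911)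
(fin 851 6 850)))))))))))))))))))
(mv 978 (cons (fin 979 2 975)
(mv 1102 (cons (fin 1103 1 1038)
(mv 1038 (cons (fin 1101 1 1037)
(mv 1106 (cons (fin 1105 0 1038)
(fin 1107 0 1039)))))))))))))))
(cons (mv 974 (cons (fin 973 0 973)
(mv 977 (cons (cons (mv 909 (cons (fin 910 3 909)
(mv 913 (cons (fin 914 2 910)
(mv 785 (cons (fin 849 5 784)
(mv 1038 (cons (fin 1037 1 973)
(mv 1039 (cons (fin 978 1 974)
(mv 1102 (cons (fin 1101 1 1037)
(mv 911 (cons (fin 847 5 846)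
(fin 1166 6 910)))))))))))))))
(cons (mv 909 (cons (fin 910 3 909)
(mv 914 (cons (fin 913 2 910)
(mv 978 (cons (fin 915 2 911)
(mv 979 (cons (fin 1039 1 975)
(fin 980 1 976)))))))))
(mv 913 (cons (fin 914 2 910)
(mv 785 (cons (fin 849 5 784)
(mv 1038 (cons (fin 1037 1 973)
(mv 1039 (cons (fin 978 1 974)
(mv 1102 (cons (fin 1101 1 1037)
(mv 911 (cons (fin 847 5 846)
(fin 1166 6 910)))))))))))))))
(cons (cons (mv 909 (cons (fin 910 3 909)
(mv 1038 (cons (fin 1037 1 973)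
(mv 978 (cons (fin 1039 1 974)
(mv 915 (cons (fin 914 2 911)
(mv 979 (cons (fin 980 1 976)
(fin 916 2 912)))))))))))
(mv 909 (cons (fin 910 3 909)
(mv 1038 (cons (fin 1037 1 973)
(mv 1039 (cons (fin 978 1 974)
(mv 1102 (cons (fin 1101 1 1037)
(mv 911 (cons (fin 847 5 846)
(fin 1166 6 910))))))))))))
(cons (mv 910 (cons (fin 909 3 909)
(mv 913 (cons (fin 914 2 910)
(mv 849 (cons (fin 785 5 784)
(mv 848 (cons (fin 784 7 784)
(mv 850 (cons (fin 786 6 785)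
(mv 847 (cons (fin 911 1 846)
(mv 782 (cons (fin 783 3 782)
(mv 846 (cons (fin 781 3 781)
(fin 1039 4 782)))))))))))))))))
(mv 910 (cons (fin 909 3 909)
(mv 911 (cons (fin 978 3 910)
(mv 847 (cons (fin 783 4 783)
(mv 1038 (cons (fin 1037 1 973)
(fin 1102 6 846)))))))))))))))
(mv 974 (cons (fin 973 0 973)
(mv 1042 (cons (fin 1043 3 975)
(fin 977 0 974))))))))
(mv 1041 (cons (cons (mv 974 (cons (fin 973 0 973)
(mv 1042 (cons (fin 1039 3 974)
(fin 1043 3 975)))))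
(mv 1042 (cons (fin 1043 3 975)
(mv 1039 (cons (mv 1102 (cons (fin 1103 1 1038)
(mv 1038 (cons (fin 1101 1 1037)
(mv 1037 (cons (fin 1036 2 972)
(fin 977 2 973)))))))
(cons (mv 1106 (cons (fin 1107 0 1039)
(mv 1038 (cons (fin 1105 0 1038)
(mv 1037 (cons (fin 1036 2 972)
(fin 977 2 973)))))))
(mv 1103 (cons (fin 1102 1 1038)
(mv 912 (cons (fin 848 5 847)
(fin 1167 6 911)))))))))))
(cons (mv 974 (cons (fin 973 0 973)
(mv 977 (cons (cons (cons (mv 909 (cons (fin 910 3 909)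
(mv 913 (cons (fin 914 2 910)
(mv 849 (cons (fin 785 5 784)
(mv 786 (cons (fin 850 6 785)
(mv 848 (cons (fin 784 7 784)
(mv 912 (cons (fin 1105 7 848)
(mv 783 (cons (fin 847 7 783)
(mv 1038 (cons (fin 1037 1 973)
(mv 1039 (cons (fin 1103 5 847)
(mv 1102 (cons (fin 1101 1 1037)
(mv 1166 (cons (fin 911 6 910)
(fin 1230 6 974)))))))))))))))))))))))
(mv 909 (cons (fin 910 3 909)
(mv 1038 (cons (fin 1037 1 973)
(mv 1105 (cons (mv 912 (cons (fin 1169 7 912)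
(fin 848 4 848)))
(mv 1039 (cons (fin 1106 0 1038)
(mv 1102 (cons (fin 1101 1 1037)
(mv 911 (cons (fin 847 5 846)
(fin 1166 6 910))))))))))))))
(cons (mv 909 (cons (fin 910 3 909)
(mv 913 (cons (fin 914 2 910)
(mv 849 (cons (fin 785 5 784)
(mv 786 (cons (fin 850 6 785)
(mv 848 (cons (fin 784 7 784)
(mv 912 (cons (fin 1105 7 848)
(mv 847 (cons (fin 783 7 783)
(mv 846 (cons (fin 845 0 845)
(mv 782 (cons (fin 781 3 781)
(mv 1039 (cons (fin 911 7 782)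
(fin 1103 5 847)))))))))))))))))))))
(mv 913 (cons (fin 914 2 910)
(mv 849 (cons (fin 785 5 784)
(mv 786 (cons (fin 850 6 785)
(mv 848 (cons (fin 784 7 784)
(mv 912 (cons (fin 1105 7 848)
(mv 783 (cons (fin 847 7 783)
(mv 1038 (cons (fin 1037 1 973)
(mv 1039 (cons (fin 1103 5 847)
(mv 1102 (cons (fin 1101 1 1037)
(mv 1166 (cons (fin 911 6 910)
(fin 1230 6 974)))))))))))))))))))))))
(cons (cons (mv 910 (cons (fin 909 3 909)
(mv 913 (cons (fin 914 2 910)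
(mv 849 (cons (fin 785 5 784)
(mv 848 (cons (fin 784 7 784)
(mv 850 (cons (fin 786 6 785)
(mv 847 (cons (fin 911 1 846)
(mv 782 (cons (fin 783 3 782)
(mv 846 (cons (fin 781 3 781)
(fin 1039 4 782)))))))))))))))))
(mv 910 (cons (fin 909 3 909)
(mv 913 (cons (fin 914 2 910)
(mv 849 (cons (fin 785 5 784)
(mv 850 (cons (fin 786 6 785)
(mv 911 (cons (fin 912 2 846)
(mv 783 (cons (fin 847 4 783)
(mv 1038 (cons (fin 1037 1 973)
(mv 1102 (cons (fin 1166 6 910)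
(mv 1101 (cons (fin 1039 1 1037)
(fin 1165 5 909))))))))))))))))))))
(cons (mv 909 (cons (fin 910 3 909)
(mv 913 (cons (fin 914 2 910)
(mv 849 (cons (fin 785 5 784)
(mv 848 (cons (fin 784 7 784)
(mv 850 (cons (fin 786 6 785)
(mv 912 (cons (fin 1105 7 848)
(mv 851 (cons (fin 911 1 847)
(fin 852 1 848)))))))))))))))
(mv 910 (cons (fin 909 3 909)
(mv 913 (cons (fin 914 2 910)
(mv 849 (cons (fin 785 5 784)
(mv 786 (cons (fin 850 6 785)
(mv 848 (cons (fin 784 7 784)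
(mv 912 (cons (fin 1105 7 848)
(mv 847 (cons (fin 783 7 783)
(mv 846 (cons (fin 845 0 845)
(mv 782 (cons (fin 781 3 781)
(fin 1039 4 782)))))))))))))))))))))))))
(mv 974 (cons (fin 973 0 973)
(mv 1042 (cons (fin 1043 3 975)
(fin 977 0 974))))))))))
(cons (cons (mv 1041 (cons (cons (mv 974 (cons (fin 973 0 973)
(mv 1042 (cons (fin 1039 3 974)
(fin 1043 3 975)))))
(mv 974 (cons (fin 973 0 973)
(mv 977 (cons (cons (mv 909 (cons (fin 910 3 909)
(mv 913 (cons (fin 914 2 910)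
(mv 849 (cons (fin 785 5 784)
(mv 786 (cons (fin 850 6 785)
(mv 848 (cons (fin 784 7 784)
(mv 912 (cons (fin 1105 7 848)
(mv 847 (cons (fin 783 7 783)
(mv 846 (cons (fin 845 0 845)
(mv 782 (cons (fin 781 3 781)
(mv 1039 (cons (fin 911 7 782)
(fin 1103 5 847)))))))))))))))))))))
(mv 910 (cons (fin 909 3 909)
(mv 978 (cons (fin 911 3 910)
(mv 979 (cons (fin 1039 1 975)
(fin 980 1 976))))))))
(cons (mv 913 (cons (fin 914 2 910)
(mv 849 (cons (fin 785 5 784)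
(mv 786 (cons (fin 850 6 785)
(mv 848 (cons (fin 784 7 784)
(mv 912 (cons (fin 1105 7 848)
(mv 847 (cons (fin 783 7 783)
(mv 846 (cons (fin 845 0 845)
(mv 782 (cons (fin 781 3 781)
(mv 1039 (cons (fin 911 7 782)
(fin 1103 5 847)))))))))))))))))))
(cons (mv 909 (cons (fin 910 3 909)
(mv 914 (cons (fin 913 2 910)
(mv 978 (cons (fin 915 2 911)
(mv 979 (cons (fin 1039 1 975)
(fin 980 1 976)))))))))
(mv 909 (cons (fin 910 3 909)
(mv 913 (cons (fin 914 2 910)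
(mv 849 (cons (fin 785 5 784)
(mv 848 (cons (fin 784 7 784)
(mv 850 (cons (fin 786 6 785)
(mv 912 (cons (fin 1105 7 848)
(mv 851 (cons (fin 911 1 847)
(fin 852 1 848))))))))))))))))))))))
(cons (mv 1042 (cons (fin 1043 3 975)
(mv 1039 (cons (mv 978 (cons (fin 979 2 975)
(mv 1103 (cons (fin 1102 1 1038)
(mv 912 (cons (fin 848 5 847)
(fin 1167 6 911)))))))
(cons (mv 978 (cons (fin 979 2 975)
(mv 1106 (cons (fin 1107 0 1039)
(mv 914 (cons (mv 915 (cons (fin 977 2 911)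
(fin 851 6 850)))
(mv 1105 (cons (fin 850 5 849)
(fin 1169 5 913)))))))))
(mv 1103 (cons (fin 1102 1 1038)
(mv 912 (cons (fin 848 5 847)
(fin 1167 6 911))))))))))
(mv 974 (cons (fin 973 0 973)
(mv 1042 (cons (fin 1043 3 975)
(fin 977 0 974))))))))
(mv 1041 (cons (cons (mv 974 (cons (fin 973 0 973)
(mv 1042 (cons (fin 1039 3 974)
(fin 1043 3 975)))))
(mv 974 (cons (fin 973 0 973)
(mv 977 (cons (cons (mv 909 (cons (fin 910 3 909)
(mv 1038 (cons (fin 1037 1 973)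
(mv 978 (cons (fin 1039 1 974)
(mv 914 (cons (fin 915 2 911)
(mv 786 (cons (fin 850 5 785)
(mv 979 (cons (fin 980 1 976)
(mv 912 (cons (fin 911 3 911)
(mv 848 (cons (fin 784 4 784)
(fin 1105 4 848)))))))))))))))))
(cons (mv 910 (cons (fin 909 3 909)
(mv 978 (cons (fin 911 3 910)
(mv 979 (cons (fin 1039 1 975)
(fin 980 1 976)))))))
(mv 1038 (cons (fin 1037 1 973)
(mv 978 (cons (fin 1039 1 974)
(mv 914 (cons (fin 915 2 911)
(mv 786 (cons (fin 850 5 785)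
(mv 979 (cons (fin 980 1 976)
(mv 912 (cons (fin 911 3 911)
(mv 848 (cons (fin 784 4 784)
(fin 1105 4 848)))))))))))))))))
(cons (mv 909 (cons (fin 910 3 909)
(mv 1038 (cons (fin 1037 1 973)
(mv 1105 (cons (mv 912 (cons (fin 1169 7 912)
(fin 848 4 848)))
(mv 1039 (cons (fin 1106 0 1038)
(mv 1102 (cons (fin 1101 1 1037)
(mv 911 (cons (fin 847 5 846)
(fin 1166 6 910)))))))))))))
(cons (mv 910 (cons (fin 909 3 909)
(mv 911 (cons (fin 978 3 910)
(mv 847 (cons (fin 783 4 783)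
(mv 1038 (cons (fin 1037 1 973)
(fin 1102 6 846)))))))))
(mv 909 (cons (fin 910 3 909)
(mv 1038 (cons (fin 1037 1 973)
(mv 978 (cons (fin 1039 1 974)
(mv 915 (cons (fin 914 2 911)
(mv 979 (cons (fin 980 1 976)
(fin 916 2 912))))))))))))))))))
(cons (mv 1042 (cons (fin 1043 3 975)
(mv 1039 (cons (mv 978 (cons (fin 979 2 975)
(mv 977 (cons (fin 1038 1 974)
(mv 910 (cons (fin 911 3 910)
(mv 914 (cons (fin 915 2 911)
(mv 850 (cons (fin 786 5 785)
(fin 1105 5 849)))))))))))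
(cons (mv 1102 (cons (fin 1103 1 1038)
(mv 1038 (cons (fin 1101 1 1037)
(mv 1037 (cons (fin 1036 2 972)
(fin 977 2 973)))))))
(mv 978 (cons (fin 979 2 975)
(mv 1103 (cons (fin 1102 1 1038)
(mv 912 (cons (fin 848 5 847)
(fin 1167 6 911))))))))))))
(mv 974 (cons (fin 973 0 973)
(mv 1042 (cons (fin 1043 3 975)
(fin 977 0 974)))))))))
(cons (mv 1041 (cons (cons (mv 974 (cons (fin 973 0 973)
(mv 1042 (cons (fin 1039 3 974)
(fin 1043 3 975)))))
(mv 974 (cons (fin 973 0 973)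
(mv 977 (cons (cons (mv 913 (cons (fin 914 2 910)
(mv 785 (cons (fin 849 5 784)
(mv 1038 (cons (fin 1037 1 973)
(mv 978 (cons (fin 1039 1 974)
(mv 979 (cons (fin 980 1 976)
(mv 912 (cons (fin 911 3 911)
(mv 848 (cons (fin 1105 7 848)
(fin 784 4 784)))))))))))))))
(cons (mv 913 (cons (fin 914 2 910)
(mv 849 (cons (fin 785 5 784)
(mv 786 (cons (fin 850 6 785)
(mv 848 (cons (fin 784 7 784)
(mv 912 (cons (fin 1105 7 848)
(mv 847 (cons (fin 783 7 783)
(mv 846 (cons (fin 845 0 845)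
(mv 782 (cons (fin 781 3 781)
(mv 1039 (cons (fin 911 7 782)
(fin 1103 5 847)))))))))))))))))))
(mv 1038 (cons (fin 1037 1 973)
(mv 978 (cons (fin 1039 1 974)
(mv 914 (cons (fin 915 2 911)
(mv 786 (cons (fin 850 5 785)
(mv 979 (cons (fin 980 1 976)
(mv 912 (cons (fin 911 3 911)
(mv 848 (cons (fin 784 4 784)
(fin 1105 4 848)))))))))))))))))
(cons (cons (mv 1038 (cons (fin 1037 1 973)
(mv 978 (cons (fin 1039 1 974)
(mv 979 (cons (fin 980 1 976)
(mv 912 (cons (fin 911 3 911)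
(mv 848 (cons (fin 784 4 784)
(fin 1105 4 848)))))))))))
(mv 913 (cons (fin 914 2 910)
(mv 849 (cons (fin 785 5 784)
(mv 848 (cons (fin 784 7 784)
(mv 850 (cons (fin 786 6 785)
(mv 912 (cons (fin 1105 7 848)
(mv 851 (cons (fin 911 1 847)
(fin 852 1 848))))))))))))))
(cons (mv 913 (cons (fin 914 2 910)
(mv 785 (cons (fin 849 5 784)
(mv 1038 (cons (fin 1037 1 973)
(mv 1039 (cons (fin 978 1 974)
(mv 1102 (cons (fin 1101 1 1037)
(mv 911 (cons (fin 847 5 846)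
(fin 1166 6 910)))))))))))))
(mv 913 (cons (fin 914 2 910)
(mv 785 (cons (fin 849 5 784)
(mv 1038 (cons (fin 1037 1 973)
(mv 1039 (cons (fin 978 1 974)
(mv 1101 (cons (fin 1102 1 1037)
(mv 1105 (cons (fin 1106 0 1038)
(mv 912 (cons (fin 848 7 848)
(fin 1169 7 912))))))))))))))))))))))
(cons (mv 1042 (cons (fin 1043 3 975)
(mv 1039 (cons (mv 978 (cons (fin 979 2 975)
(mv 977 (cons (fin 1038 1 974)
(mv 914 (cons (fin 915 2 911)
(mv 850 (cons (fin 786 5 785)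
(fin 1105 5 849)))))))))
(cons (mv 1102 (cons (fin 1103 1 1038)
(mv 1038 (cons (fin 1101 1 1037)
(mv 1037 (cons (fin 1036 2 972)
(fin 977 2 973)))))))
(mv 978 (cons (fin 979 2 975)
(mv 1103 (cons (fin 1102 1 1038)
(mv 912 (cons (fin 848 5 847)
(fin 1167 6 911))))))))))))
(mv 974 (cons (fin 973 0 973)
(mv 1042 (cons (fin 1043 3 975)
(fin 977 0 974))))))))
(mv 1041 (cons (cons (mv 974 (cons (fin 973 0 973)
(mv 1042 (cons (fin 1039 3 974)
(fin 1043 3 975)))))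
(mv 1042 (cons (fin 1043 3 975)
(mv 1039 (cons (cons (mv 978 (cons (fin 979 2 975)
(mv 977 (cons (fin 1038 1 974)
(mv 910 (cons (fin 911 3 910)
(mv 1103 (cons (fin 1102 1 1038)
(mv 912 (cons (fin 848 5 847)
(fin 1167 6 911)))))))))))
(mv 978 (cons (fin 979 2 975)
(mv 977 (cons (fin 1038 1 974)
(mv 911 (cons (fin 910 3 910)
(mv 847 (cons (fin 783 4 783)
(mv 782 (cons (fin 846 7 782)
(mv 848 (cons (fin 784 6 783)
(mv 912 (cons (fin 1105 4 848)
(mv 849 (cons (fin 785 6 784)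
(mv 1106 (cons (fin 1107 0 1039)
(fin 913 4 849))))))))))))))))))))
(cons (mv 1102 (cons (fin 1103 1 1038)
(mv 1038 (cons (fin 1101 1 1037)
(mv 1037 (cons (fin 1036 2 972)
(fin 977 2 973)))))))
(mv 978 (cons (fin 979 2 975)
(mv 1103 (cons (fin 1102 1 1038)
(mv 912 (cons (fin 848 5 847)
(fin 1167 6 911)))))))))))))
(cons (mv 974 (cons (fin 973 0 973)
(mv 977 (cons (cons (mv 909 (cons (fin 910 3 909)
(mv 1038 (cons (fin 1037 1 973)
(mv 978 (cons (fin 1039 1 974)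
(mv 979 (cons (fin 980 1 976)
(mv 912 (cons (fin 911 3 911)
(mv 848 (cons (fin 784 4 784)
(fin 1105 4 848)))))))))))))
(cons (mv 910 (cons (fin 909 3 909)
(mv 978 (cons (fin 911 3 910)
(mv 979 (cons (fin 1039 1 975)
(fin 980 1 976)))))))
(mv 1038 (cons (fin 1037 1 973)
(mv 978 (cons (fin 1039 1 974)
(mv 979 (cons (fin 980 1 976)
(mv 912 (cons (fin 911 3 911)
(mv 848 (cons (fin 784 4 784)
(fin 1105 4 848)))))))))))))
(cons (mv 909 (cons (fin 910 3 909)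
(mv 1038 (cons (fin 1037 1 973)
(mv 1105 (cons (mv 912 (cons (fin 1169 7 912)
(fin 848 4 848)))
(mv 1039 (cons (fin 1106 0 1038)
(mv 1102 (cons (fin 1101 1 1037)
(mv 911 (cons (fin 847 5 846)
(fin 1166 6 910)))))))))))))
(cons (mv 910 (cons (fin 909 3 909)
(mv 911 (cons (fin 978 3 910)
(mv 847 (cons (fin 783 4 783)
(mv 1038 (cons (fin 1037 1 973)
(fin 1102 6 846)))))))))
(mv 909 (cons (fin 910 3 909)
(mv 1038 (cons (fin 1037 1 973)
(mv 1039 (cons (fin 978 1 974)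
(mv 1101 (cons (fin 1102 1 1037)
(mv 1105 (cons (fin 1106 0 1038)
(mv 912 (cons (fin 1169 7 912)
(fin 848 4 848)))))))))))))))))))
(mv 974 (cons (fin 973 0 973)
(mv 1042 (cons (fin 1043 3 975)
(fin 977 0 974)))))))))))))
(cons (mv 912 (cons (cons (cons (mv 848 (cons (cons (mv 783 (cons (fin 847 7 783)
(mv 719 (cons (fin 784 7 719)
(mv 785 (cons (fin 849 6 784)
(mv 1103 (cons (fin 1039 5 847)
(mv 1104 (cons (fin 1167 5 911)
(mv 1105 (cons (fin 1041 4 848)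
(fin 1169 4 912)))))))))))))
(cons (mv 783 (cons (fin 847 7 783)
(mv 719 (cons (fin 784 7 719)
(mv 1103 (cons (fin 1039 5 847)
(mv 1104 (cons (fin 1167 5 911)
(mv 1105 (cons (fin 1041 4 848)
(fin 1169 4 912)))))))))))
(mv 785 (cons (fin 849 6 784)
(mv 721 (cons (fin 784 6 720)
(mv 1103 (cons (fin 1039 5 847)
(mv 1104 (cons (fin 1167 5 911)
(mv 1105 (cons (fin 1041 4 848)
(fin 1169 4 912)))))))))))))
(cons (cons (mv 783 (cons (fin 847 7 783)
(mv 719 (cons (fin 784 7 719)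
(mv 849 (cons (fin 785 6 784)
(mv 1103 (cons (fin 1039 5 847)
(mv 1104 (cons (fin 1167 5 911)
(fin 913 6 848)))))))))))
(mv 783 (cons (fin 847 7 783)
(mv 719 (cons (fin 784 7 719)
(mv 849 (cons (fin 785 6 784)
(mv 1104 (cons (fin 913 6 848)
(mv 1105 (cons (fin 1041 4 848)
(fin 1169 4 912))))))))))))
(cons (mv 783 (cons (fin 847 7 783)
(mv 784 (cons (fin 719 7 719)
(mv 785 (cons (fin 721 6 720)
(fin 849 6 784)))))))
(mv 783 (cons (fin 847 7 783)
(mv 785 (cons (fin 849 6 784)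
(mv 1103 (cons (fin 1039 5 847)
(mv 1104 (cons (fin 1167 5 911)
(mv 1105 (cons (fin 1041 4 848)
(fin 1169 4 912)))))))))))))))
(mv 1104 (cons (cons (mv 847 (cons (fin 911 7 847)
(mv 849 (cons (fin 913 6 848)
(mv 1167 (cons (fin 1103 5 911)
(mv 1168 (cons (fin 1231 5 975)
(mv 1169 (cons (fin 1105 4 912)
(fin 1233 4 976)))))))))))
(cons (mv 847 (cons (fin 911 7 847)
(mv 1167 (cons (fin 1103 5 911)
(mv 1168 (cons (fin 1231 5 975)
(mv 1169 (cons (fin 1105 4 912)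
(fin 1233 4 976)))))))))
(mv 847 (cons (fin 911 7 847)
(mv 913 (cons (fin 849 6 848)
(mv 1167 (cons (fin 1103 5 911)
(mv 1168 (cons (fin 1231 5 975)
(fin 977 6 912)))))))))))
(cons (mv 847 (cons (fin 911 7 847)
(mv 913 (cons (fin 849 6 848)
(mv 1168 (cons (fin 977 6 912)
(mv 1169 (cons (fin 1105 4 912)
(fin 1233 4 976)))))))))
(cons (mv 849 (cons (fin 913 6 848)
(mv 1167 (cons (fin 1103 5 911)
(mv 1168 (cons (fin 1231 5 975)
(mv 1169 (cons (fin 1105 4 912)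
(fin 1233 4 976)))))))))
(mv 847 (cons (fin 911 7 847)
(mv 849 (cons (fin 913 6 848)
(mv 1103 (cons (fin 1167 5 911)
(mv 1105 (cons (fin 1169 4 912)
(mv 1102 (cons (mv 1041 (cons (fin 1101 2 1037)
(fin 1042 2 1038)))
(cons (mv 1037 (cons (fin 1038 3 1037)
(mv 1101 (cons (fin 1036 3 1036)
(mv 1165 (cons (fin 1164 1 1100)
(fin 1166 1 1101)))))))
(mv 1038 (cons (fin 1037 3 1037)
(mv 1042 (cons (fin 1041 2 1038)
(mv 1106 (cons (fin 1039 3 1038)
(fin 1043 2 1039)))))))))))))))))))))))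
(cons (mv 848 (cons (cons (mv 783 (cons (fin 847 7 783)
(mv 784 (cons (fin 719 7 719)
(mv 785 (cons (fin 721 6 720)
(fin 849 6 784)))))))
(mv 783 (cons (fin 847 7 783)
(mv 784 (cons (fin 719 7 719)
(mv 1041 (cons (fin 977 4 784)
(fin 1105 4 848))))))))
(cons (mv 785 (cons (fin 849 6 784)
(mv 784 (cons (fin 721 6 720)
(mv 1041 (cons (fin 977 4 784)
(fin 1105 4 848)))))))
(mv 783 (cons (fin 847 7 783)
(mv 785 (cons (fin 849 6 784)
(mv 1039 (cons (fin 1103 5 847)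
(mv 1041 (cons (fin 1105 4 848)
(mv 1038 (cons (mv 977 (cons (fin 1037 2 973)
(fin 978 2 974)))
(cons (mv 973 (cons (fin 974 3 973)
(mv 1037 (cons (fin 972 3 972)
(mv 1101 (cons (fin 1100 1 1036)
(fin 1102 1 1037)))))))
(mv 973 (cons (fin 974 3 973)
(mv 1101 (cons (fin 1102 1 1037)
(mv 1042 (cons (cons (mv 978 (cons (fin 977 2 974)
(fin 979 2 975)))
(mv 1107 (cons (fin 1106 0 1039)
(mv 1043 (cons (fin 1108 0 1040)
(mv 980 (cons (fin 979 2 976)
(mv 1044 (cons (fin 977 3 976)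
(fin 981 2 977))))))))))
(cons (mv 977 (cons (fin 978 2 974)
(mv 1043 (cons (fin 1044 3 976)
(mv 1107 (cons (fin 1106 0 1039)
(fin 1108 0 1040)))))))
(mv 979 (cons (fin 978 2 975)
(mv 1043 (cons (fin 980 2 976)
(mv 1107 (cons (fin 1106 0 1039)
(fin 1108 0 1040))))))))))))))))))))))))))))
(mv 1104 (cons (cons (mv 847 (cons (fin 911 7 847)
(mv 783 (cons (fin 848 7 783)
(mv 1103 (cons (fin 1167 5 911)
(mv 1169 (cons (fin 1105 4 912)
(mv 1168 (cons (fin 1233 4 976)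
(mv 977 (cons (fin 913 6 912)
(mv 1041 (cons (fin 1232 6 976)
(mv 1042 (cons (fin 1043 1 1039)
(mv 1102 (cons (fin 1039 1 1038)
(fin 1101 2 1037)))))))))))))))))))
(cons (mv 847 (cons (fin 911 7 847)
(mv 783 (cons (fin 848 7 783)
(mv 1167 (cons (fin 1103 5 911)
(mv 1168 (cons (fin 1231 5 975)
(mv 977 (cons (fin 913 6 912)
(mv 1232 (cons (fin 1041 6 976)
(mv 1233 (cons (fin 1169 4 976)
(fin 1297 4 1040)))))))))))))))
(mv 847 (cons (fin 911 7 847)
(mv 783 (cons (fin 848 7 783)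
(mv 1169 (cons (fin 1105 4 912)
(mv 1168 (cons (fin 1233 4 976)
(mv 977 (cons (fin 913 6 912)
(mv 1231 (cons (fin 1167 5 975)
(mv 1232 (cons (fin 1295 5 1039)
(fin 1041 6 976)))))))))))))))))
(cons (cons (mv 847 (cons (fin 911 7 847)
(mv 848 (cons (fin 783 7 783)
(mv 1103 (cons (fin 1039 5 847)
(fin 1167 5 911)))))))
(mv 847 (cons (fin 911 7 847)
(mv 848 (cons (fin 783 7 783)
(mv 1105 (cons (fin 1041 4 848)
(fin 1169 4 912))))))))
(cons (mv 1103 (cons (fin 1167 5 911)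
(mv 848 (cons (fin 1039 5 847)
(mv 1105 (cons (fin 1041 4 848)
(fin 1169 4 912)))))))
(mv 847 (cons (fin 911 7 847)
(mv 1103 (cons (fin 1167 5 911)
(mv 1169 (cons (fin 1105 4 912)
(mv 1168 (cons (fin 1233 4 976)
(mv 977 (cons (fin 913 6 912)
(mv 1041 (cons (fin 1232 6 976)
(mv 1042 (cons (fin 1043 1 1039)
(mv 1102 (cons (fin 1039 1 1038)
(fin 1101 2 1037)))))))))))))))))))))))
(cons (cons (mv 848 (cons (cons (mv 783 (cons (fin 847 7 783)
(mv 719 (cons (fin 784 7 719)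
(mv 849 (cons (fin 785 6 784)
(mv 1103 (cons (fin 1039 5 847)
(mv 1104 (cons (fin 1167 5 911)
(fin 913 6 848)))))))))))
(cons (mv 783 (cons (fin 847 7 783)
(mv 784 (cons (fin 719 7 719)
(mv 721 (cons (fin 785 6 720)
(mv 720 (cons (fin 657 6 656)
(mv 977 (cons (fin 913 4 720)
(fin 1041 4 784)))))))))))
(mv 785 (cons (fin 849 6 784)
(mv 784 (cons (fin 721 6 720)
(mv 719 (cons (fin 783 7 719)
(mv 720 (cons (fin 655 7 655)
(mv 977 (cons (fin 913 4 720)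
(fin 1041 4 784)))))))))))))
(cons (cons (mv 783 (cons (fin 847 7 783)
(mv 784 (cons (fin 719 7 719)
(mv 977 (cons (fin 1041 4 784)
(mv 913 (cons (fin 720 4 720)
(mv 1104 (cons (fin 849 6 848)
(fin 1168 6 912)))))))))))
(mv 785 (cons (fin 849 6 784)
(mv 784 (cons (fin 721 6 720)
(mv 977 (cons (fin 1041 4 784)
(mv 913 (cons (fin 720 4 720)
(mv 1039 (cons (fin 1103 5 847)
(mv 978 (cons (fin 979 1 975)
(mv 911 (cons (fin 910 0 910)
(mv 1104 (cons (fin 847 7 847)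
(fin 1168 6 912))))))))))))))))))
(cons (mv 783 (cons (fin 847 7 783)
(mv 849 (cons (fin 785 6 784)
(mv 1103 (cons (fin 1039 5 847)
(mv 1104 (cons (fin 1167 5 911)
(fin 913 6 848)))))))))
(mv 783 (cons (fin 847 7 783)
(mv 784 (cons (fin 719 7 719)
(mv 785 (cons (fin 721 6 720)
(fin 849 6 784)))))))))))
(mv 1104 (cons (cons (mv 849 (cons (fin 913 6 848)
(mv 785 (cons (fin 848 6 784)
(mv 1167 (cons (fin 1103 5 911)
(mv 1168 (cons (fin 1231 5 975)
(mv 1169 (cons (fin 1105 4 912)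
(fin 1233 4 976)))))))))))
(mv 849 (cons (fin 913 6 848)
(mv 848 (cons (fin 785 6 784)
(mv 1103 (cons (fin 1039 5 847)
(fin 1167 5 911))))))))
(cons (mv 849 (cons (fin 913 6 848)
(mv 848 (cons (fin 785 6 784)
(mv 1105 (cons (fin 1041 4 848)
(fin 1169 4 912)))))))
(cons (mv 1103 (cons (fin 1167 5 911)
(mv 848 (cons (fin 1039 5 847)
(mv 1105 (cons (fin 1041 4 848)
(fin 1169 4 912)))))))
(mv 849 (cons (fin 913 6 848)
(mv 1167 (cons (fin 1103 5 911)
(mv 1168 (cons (fin 1231 5 975)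
(mv 1169 (cons (fin 1105 4 912)
(fin 1233 4 976))))))))))))))
(cons (mv 848 (cons (cons (mv 783 (cons (fin 847 7 783)
(mv 719 (cons (fin 784 7 719)
(mv 849 (cons (fin 785 6 784)
(mv 1104 (cons (fin 913 6 848)
(mv 1105 (cons (fin 1041 4 848)
(fin 1169 4 912)))))))))))
(mv 783 (cons (fin 847 7 783)
(mv 784 (cons (fin 719 7 719)
(mv 1041 (cons (fin 977 4 784)
(fin 1105 4 848))))))))
(cons (mv 785 (cons (fin 849 6 784)
(mv 784 (cons (fin 721 6 720)
(mv 1041 (cons (fin 977 4 784)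
(fin 1105 4 848)))))))
(cons (mv 783 (cons (fin 847 7 783)
(mv 784 (cons (fin 719 7 719)
(mv 785 (cons (fin 721 6 720)
(fin 849 6 784)))))))
(mv 783 (cons (fin 847 7 783)
(mv 849 (cons (fin 785 6 784)
(mv 1104 (cons (fin 913 6 848)
(mv 1105 (cons (fin 1041 4 848)
(fin 1169 4 912)))))))))))))
(mv 1104 (cons (cons (mv 847 (cons (fin 911 7 847)
(mv 783 (cons (fin 848 7 783)
(mv 849 (cons (fin 913 6 848)
(mv 1167 (cons (fin 1103 5 911)
(mv 1168 (cons (fin 1231 5 975)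
(mv 1169 (cons (fin 1105 4 912)
(fin 1233 4 976)))))))))))))
(cons (mv 847 (cons (fin 911 7 847)
(mv 783 (cons (fin 848 7 783)
(mv 1167 (cons (fin 1103 5 911)
(mv 1168 (cons (fin 1231 5 975)
(mv 1169 (cons (fin 1105 4 912)
(fin 1233 4 976)))))))))))
(mv 847 (cons (fin 911 7 847)
(mv 783 (cons (fin 848 7 783)
(mv 913 (cons (fin 849 6 848)
(mv 1168 (cons (fin 977 6 912)
(mv 1169 (cons (fin 1105 4 912)
(fin 1233 4 976)))))))))))))
(cons (cons (mv 849 (cons (fin 913 6 848)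
(mv 785 (cons (fin 848 6 784)
(mv 1167 (cons (fin 1103 5 911)
(mv 1168 (cons (fin 1231 5 975)
(mv 1169 (cons (fin 1105 4 912)
(fin 1233 4 976)))))))))))
(mv 847 (cons (fin 911 7 847)
(mv 783 (cons (fin 848 7 783)
(mv 913 (cons (fin 849 6 848)
(mv 1167 (cons (fin 1103 5 911)
(mv 1168 (cons (fin 1231 5 975)
(fin 977 6 912))))))))))))
(cons (mv 847 (cons (fin 911 7 847)
(mv 849 (cons (fin 913 6 848)
(mv 1167 (cons (fin 1103 5 911)
(mv 1168 (cons (fin 1231 5 975)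
(mv 1169 (cons (fin 1105 4 912)
(fin 1233 4 976)))))))))))
(mv 847 (cons (fin 911 7 847)
(mv 848 (cons (fin 783 7 783)
(mv 849 (cons (fin 785 6 784)
(fin 913 6 848)))))))))))))))
(mv 1104 (cons (cons (cons (mv 912 (cons (cons (mv 847 (cons (fin 911 7 847)
(mv 783 (cons (fin 848 7 783)
(mv 849 (cons (fin 913 6 848)
(mv 1167 (cons (fin 1103 5 911)
(mv 1168 (cons (fin 1231 5 975)
(mv 1169 (cons (fin 1105 4 912)
(fin 1233 4 976)))))))))))))
(cons (mv 847 (cons (fin 911 7 847)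
(mv 783 (cons (fin 848 7 783)
(mv 1167 (cons (fin 1103 5 911)
(mv 1168 (cons (fin 1231 5 975)
(mv 1169 (cons (fin 1105 4 912)
(fin 1233 4 976)))))))))))
(mv 849 (cons (fin 913 6 848)
(mv 785 (cons (fin 848 6 784)
(mv 1167 (cons (fin 1103 5 911)
(mv 1168 (cons (fin 1231 5 975)
(mv 1169 (cons (fin 1105 4 912)
(fin 1233 4 976)))))))))))))
(cons (cons (mv 847 (cons (fin 911 7 847)
(mv 783 (cons (fin 848 7 783)
(mv 913 (cons (fin 849 6 848)
(mv 1167 (cons (fin 1103 5 911)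
(mv 1168 (cons (fin 1231 5 975)
(fin 977 6 912)))))))))))
(mv 847 (cons (fin 911 7 847)
(mv 783 (cons (fin 848 7 783)
(mv 913 (cons (fin 849 6 848)
(mv 1168 (cons (fin 977 6 912)
(mv 1169 (cons (fin 1105 4 912)
(fin 1233 4 976))))))))))))
(cons (mv 847 (cons (fin 911 7 847)
(mv 848 (cons (fin 783 7 783)
(mv 849 (cons (fin 785 6 784)
(fin 913 6 848)))))))
(mv 847 (cons (fin 911 7 847)
(mv 849 (cons (fin 913 6 848)
(mv 1167 (cons (fin 1103 5 911)
(mv 1168 (cons (fin 1231 5 975)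
(mv 1169 (cons (fin 1105 4 912)
(fin 1233 4 976)))))))))))))))
(mv 1168 (cons (cons (mv 911 (cons (fin 975 7 911)
(mv 913 (cons (fin 977 6 912)
(mv 1231 (cons (fin 1167 5 975)
(mv 1232 (cons (fin 1295 5 1039)
(mv 1233 (cons (fin 1169 4 976)
(fin 1297 4 1040)))))))))))
(cons (mv 911 (cons (fin 975 7 911)
(mv 1231 (cons (fin 1167 5 975)
(mv 1232 (cons (fin 1295 5 1039)
(mv 1233 (cons (fin 1169 4 976)
(fin 1297 4 1040)))))))))
(mv 911 (cons (fin 975 7 911)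
(mv 977 (cons (fin 913 6 912)
(mv 1231 (cons (fin 1167 5 975)
(mv 1232 (cons (fin 1295 5 1039)
(fin 1041 6 976)))))))))))
(cons (mv 911 (cons (fin 975 7 911)
(mv 977 (cons (fin 913 6 912)
(mv 1232 (cons (fin 1041 6 976)
(mv 1233 (cons (fin 1169 4 976)
(fin 1297 4 1040)))))))))
(cons (mv 913 (cons (fin 977 6 912)
(mv 1231 (cons (fin 1167 5 975)
(mv 1232 (cons (fin 1295 5 1039)
(mv 1233 (cons (fin 1169 4 976)
(fin 1297 4 1040)))))))))
(mv 975 (cons (fin 911 7 911)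
(mv 977 (cons (fin 913 6 912)
(mv 1167 (cons (fin 1231 5 975)
(mv 1169 (cons (fin 1233 4 976)
(mv 1166 (cons (mv 1105 (cons (fin 1165 2 1101)
(fin 1106 2 1102)))
(cons (mv 1101 (cons (fin 1102 3 1101)
(mv 1165 (cons (fin 1100 3 1100)
(mv 1229 (cons (fin 1228 1 1164)
(fin 1230 1 1165)))))))
(mv 1101 (cons (fin 1102 3 1101)
(mv 1105 (cons (fin 1106 2 1102)
(mv 1229 (cons (fin 1230 1 1165)
(mv 978 (cons (mv 914 (cons (fin 915 2 911)
(fin 1041 6 913)))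
(cons (mv 1042 (cons (fin 1043 0 975)
(mv 974 (cons (fin 1041 0 974)
(mv 909 (cons (fin 910 3 909)
(mv 973 (cons (fin 908 3 908)
(mv 1037 (cons (fin 1036 1 972)
(fin 1038 1 973)))))))))))
(mv 915 (cons (fin 914 2 911)
(mv 979 (cons (fin 916 2 912)
(mv 1043 (cons (fin 1042 0 975)
(fin 1044 0 976))))))))))))))))))))))))))))))))
(cons (mv 912 (cons (cons (mv 847 (cons (fin 911 7 847)
(mv 848 (cons (fin 783 7 783)
(mv 849 (cons (fin 785 6 784)
(fin 913 6 848)))))))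
(mv 847 (cons (fin 911 7 847)
(mv 848 (cons (fin 783 7 783)
(mv 1105 (cons (fin 1041 4 848)
(fin 1169 4 912))))))))
(cons (mv 849 (cons (fin 913 6 848)
(mv 848 (cons (fin 785 6 784)
(mv 1105 (cons (fin 1041 4 848)
(fin 1169 4 912)))))))
(mv 849 (cons (fin 913 6 848)
(mv 911 (cons (fin 847 7 847)
(mv 1103 (cons (fin 1167 5 911)
(mv 1105 (cons (fin 1169 4 912)
(mv 1102 (cons (mv 1041 (cons (fin 1101 2 1037)
(fin 1042 2 1038)))
(cons (mv 1037 (cons (fin 1038 3 1037)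
(mv 1101 (cons (fin 1036 3 1036)
(mv 1165 (cons (fin 1164 1 1100)
(fin 1166 1 1101)))))))
(mv 1038 (cons (fin 1037 3 1037)
(mv 1041 (cons (fin 1042 2 1038)
(mv 1166 (cons (fin 1165 1 1101)
(mv 974 (cons (fin 975 6 910)
(mv 909 (cons (fin 973 7 909)
(mv 910 (cons (fin 977 0 909)
(fin 845 7 845)))))))))))))))))))))))))))
(mv 1168 (cons (cons (mv 911 (cons (fin 975 7 911)
(mv 847 (cons (fin 912 7 847)
(mv 1167 (cons (fin 1231 5 975)
(mv 1233 (cons (fin 1169 4 976)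
(mv 1232 (cons (fin 1297 4 1040)
(mv 1041 (cons (fin 977 6 976)
(mv 1105 (cons (fin 1296 6 1040)
(mv 1106 (cons (fin 1107 1 1103)
(mv 1166 (cons (fin 1103 1 1102)
(fin 1165 2 1101)))))))))))))))))))
(cons (mv 911 (cons (fin 975 7 911)
(mv 847 (cons (fin 912 7 847)
(mv 1233 (cons (fin 1169 4 976)
(mv 1232 (cons (fin 1297 4 1040)
(mv 1041 (cons (fin 977 6 976)
(mv 1295 (cons (fin 1231 5 1039)
(mv 1296 (cons (fin 1359 5 1103)
(fin 1105 6 1040)))))))))))))))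
(mv 911 (cons (fin 975 7 911)
(mv 847 (cons (fin 912 7 847)
(mv 1231 (cons (fin 1167 5 975)
(mv 1232 (cons (fin 1295 5 1039)
(mv 1041 (cons (fin 977 6 976)
(mv 1296 (cons (fin 1105 6 1040)
(mv 1297 (cons (fin 1233 4 1040)
(fin 1361 4 1104)))))))))))))))))
(cons (cons (mv 911 (cons (fin 975 7 911)
(mv 912 (cons (fin 847 7 847)
(mv 1167 (cons (fin 1103 5 911)
(fin 1231 5 975)))))))
(mv 911 (cons (fin 975 7 911)
(mv 912 (cons (fin 847 7 847)
(mv 1169 (cons (fin 1105 4 912)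
(fin 1233 4 976))))))))
(cons (mv 1167 (cons (fin 1231 5 975)
(mv 912 (cons (fin 1103 5 911)
(mv 1169 (cons (fin 1105 4 912)
(fin 1233 4 976)))))))
(mv 911 (cons (fin 975 7 911)
(mv 1167 (cons (fin 1231 5 975)
(mv 1233 (cons (fin 1169 4 976)
(mv 1232 (cons (fin 1297 4 1040)
(mv 1041 (cons (fin 977 6 976)
(mv 1105 (cons (fin 1296 6 1040)
(mv 1106 (cons (fin 1107 1 1103)
(mv 1166 (cons (fin 1103 1 1102)
(fin 1165 2 1101)))))))))))))))))))))))
(cons (cons (mv 912 (cons (cons (mv 847 (cons (fin 911 7 847)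
(mv 783 (cons (fin 848 7 783)
(mv 913 (cons (fin 849 6 848)
(mv 1167 (cons (fin 1103 5 911)
(mv 1168 (cons (fin 1231 5 975)
(fin 977 6 912)))))))))))
(cons (mv 847 (cons (fin 911 7 847)
(mv 848 (cons (fin 783 7 783)
(mv 785 (cons (fin 849 6 784)
(mv 784 (cons (fin 721 6 720)
(mv 1041 (cons (fin 977 4 784)
(fin 1105 4 848)))))))))))
(mv 849 (cons (fin 913 6 848)
(mv 848 (cons (fin 785 6 784)
(mv 783 (cons (fin 847 7 783)
(mv 784 (cons (fin 719 7 719)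
(mv 1041 (cons (fin 977 4 784)
(fin 1105 4 848)))))))))))))
(cons (cons (mv 847 (cons (fin 911 7 847)
(mv 848 (cons (fin 783 7 783)
(mv 1041 (cons (fin 1105 4 848)
(mv 977 (cons (fin 784 4 784)
(mv 1168 (cons (fin 913 6 912)
(fin 1232 6 976)))))))))))
(mv 849 (cons (fin 913 6 848)
(mv 848 (cons (fin 785 6 784)
(mv 1041 (cons (fin 1105 4 848)
(mv 977 (cons (fin 784 4 784)
(mv 1103 (cons (fin 1167 5 911)
(mv 1042 (cons (fin 1043 1 1039)
(mv 975 (cons (fin 974 0 974)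
(mv 1168 (cons (fin 911 7 911)
(fin 1232 6 976))))))))))))))))))
(cons (mv 847 (cons (fin 911 7 847)
(mv 913 (cons (fin 849 6 848)
(mv 1167 (cons (fin 1103 5 911)
(mv 1168 (cons (fin 1231 5 975)
(fin 977 6 912)))))))))
(mv 847 (cons (fin 911 7 847)
(mv 848 (cons (fin 783 7 783)
(mv 849 (cons (fin 785 6 784)
(fin 913 6 848)))))))))))
(mv 1168 (cons (cons (mv 913 (cons (fin 977 6 912)
(mv 849 (cons (fin 912 6 848)
(mv 1231 (cons (fin 1167 5 975)
(mv 1232 (cons (fin 1295 5 1039)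
(mv 1233 (cons (fin 1169 4 976)
(fin 1297 4 1040)))))))))))
(mv 913 (cons (fin 977 6 912)
(mv 912 (cons (fin 849 6 848)
(mv 1169 (cons (fin 1105 4 912)
(fin 1233 4 976))))))))
(cons (mv 913 (cons (fin 977 6 912)
(mv 912 (cons (fin 849 6 848)
(mv 1167 (cons (fin 1103 5 911)
(fin 1231 5 975)))))))
(cons (mv 1167 (cons (fin 1231 5 975)
(mv 912 (cons (fin 1103 5 911)
(mv 1169 (cons (fin 1105 4 912)
(fin 1233 4 976)))))))
(mv 913 (cons (fin 977 6 912)
(mv 1231 (cons (fin 1167 5 975)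
(mv 1232 (cons (fin 1295 5 1039)
(mv 1233 (cons (fin 1169 4 976)
(fin 1297 4 1040))))))))))))))
(cons (mv 912 (cons (cons (mv 847 (cons (fin 911 7 847)
(mv 783 (cons (fin 848 7 783)
(mv 913 (cons (fin 849 6 848)
(mv 1168 (cons (fin 977 6 912)
(mv 1169 (cons (fin 1105 4 912)
(fin 1233 4 976)))))))))))
(mv 847 (cons (fin 911 7 847)
(mv 848 (cons (fin 783 7 783)
(mv 1105 (cons (fin 1041 4 848)
(fin 1169 4 912))))))))
(cons (mv 849 (cons (fin 913 6 848)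
(mv 848 (cons (fin 785 6 784)
(mv 1105 (cons (fin 1041 4 848)
(fin 1169 4 912)))))))
(cons (mv 847 (cons (fin 911 7 847)
(mv 848 (cons (fin 783 7 783)
(mv 849 (cons (fin 785 6 784)
(fin 913 6 848)))))))
(mv 847 (cons (fin 911 7 847)
(mv 913 (cons (fin 849 6 848)
(mv 1168 (cons (fin 977 6 912)
(mv 1169 (cons (fin 1105 4 912)
(fin 1233 4 976)))))))))))))
(cons (mv 912 (cons (cons (mv 847 (cons (fin 911 7 847)
(mv 783 (cons (fin 848 7 783)
(mv 849 (cons (fin 913 6 848)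
(mv 1167 (cons (fin 1103 5 911)
(mv 1168 (cons (fin 1231 5 975)
(mv 1169 (cons (fin 1105 4 912)
(fin 1233 4 976)))))))))))))
(mv 849 (cons (fin 913 6 848)
(mv 785 (cons (fin 848 6 784)
(mv 1167 (cons (fin 1103 5 911)
(mv 1168 (cons (fin 1231 5 975)
(mv 1169 (cons (fin 1105 4 912)
(fin 1233 4 976))))))))))))
(cons (mv 847 (cons (fin 911 7 847)
(mv 848 (cons (fin 783 7 783)
(mv 849 (cons (fin 785 6 784)
(fin 913 6 848)))))))
(cons (mv 847 (cons (fin 911 7 847)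
(mv 783 (cons (fin 848 7 783)
(mv 1167 (cons (fin 1103 5 911)
(mv 1168 (cons (fin 1231 5 975)
(mv 1169 (cons (fin 1105 4 912)
(fin 1233 4 976)))))))))))
(mv 847 (cons (fin 911 7 847)
(mv 849 (cons (fin 913 6 848)
(mv 1167 (cons (fin 1103 5 911)
(mv 1168 (cons (fin 1231 5 975)
(mv 1169 (cons (fin 1105 4 912)
(fin 1233 4 976)))))))))))))))
(mv 1168 (cons (cons (mv 911 (cons (fin 975 7 911)
(mv 847 (cons (fin 912 7 847)
(mv 913 (cons (fin 977 6 912)
(mv 1231 (cons (fin 1167 5 975)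
(mv 1232 (cons (fin 1295 5 1039)
(mv 1233 (cons (fin 1169 4 976)
(fin 1297 4 1040)))))))))))))
(cons (mv 911 (cons (fin 975 7 911)
(mv 847 (cons (fin 912 7 847)
(mv 1231 (cons (fin 1167 5 975)
(mv 1232 (cons (fin 1295 5 1039)
(mv 1233 (cons (fin 1169 4 976)
(fin 1297 4 1040)))))))))))
(mv 911 (cons (fin 975 7 911)
(mv 847 (cons (fin 912 7 847)
(mv 977 (cons (fin 913 6 912)
(mv 1232 (cons (fin 1041 6 976)
(mv 1233 (cons (fin 1169 4 976)
(fin 1297 4 1040)))))))))))))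
(cons (cons (mv 913 (cons (fin 977 6 912)
(mv 849 (cons (fin 912 6 848)
(mv 1231 (cons (fin 1167 5 975)
(mv 1232 (cons (fin 1295 5 1039)
(mv 1233 (cons (fin 1169 4 976)
(fin 1297 4 1040)))))))))))
(mv 911 (cons (fin 975 7 911)
(mv 847 (cons (fin 912 7 847)
(mv 977 (cons (fin 913 6 912)
(mv 1231 (cons (fin 1167 5 975)
(mv 1232 (cons (fin 1295 5 1039)
(fin 1041 6 976))))))))))))
(cons (mv 911 (cons (fin 975 7 911)
(mv 913 (cons (fin 977 6 912)
(mv 1231 (cons (fin 1167 5 975)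
(mv 1232 (cons (fin 1295 5 1039)
(mv 1233 (cons (fin 1169 4 976)
(fin 1297 4 1040)))))))))))
(mv 911 (cons (fin 975 7 911)
(mv 912 (cons (fin 847 7 847)
(mv 913 (cons (fin 849 6 848)
(fin 977 6 912)))))))))))))))))))
(cons (cons (mv 912 (cons (cons (cons (mv 848 (cons (cons (mv 783 (cons (fin 847 7 783)
(mv 719 (cons (fin 784 7 719)
(mv 785 (cons (fin 849 6 784)
(mv 1103 (cons (fin 1039 5 847)
(mv 1104 (cons (fin 1167 5 911)
(mv 1105 (cons (fin 1041 4 848)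
(fin 1169 4 912)))))))))))))
(cons (mv 785 (cons (fin 849 6 784)
(mv 721 (cons (fin 784 6 720)
(mv 1103 (cons (fin 1039 5 847)
(mv 1104 (cons (fin 1167 5 911)
(mv 1105 (cons (fin 1041 4 848)
(fin 1169 4 912)))))))))))
(mv 783 (cons (fin 847 7 783)
(mv 719 (cons (fin 784 7 719)
(mv 1103 (cons (fin 1039 5 847)
(mv 1104 (cons (fin 1167 5 911)
(mv 1105 (cons (fin 1041 4 848)
(fin 1169 4 912)))))))))))))
(cons (cons (mv 783 (cons (fin 847 7 783)
(mv 719 (cons (fin 784 7 719)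
(mv 849 (cons (fin 785 6 784)
(mv 1104 (cons (fin 913 6 848)
(mv 1105 (cons (fin 1041 4 848)
(fin 1169 4 912)))))))))))
(mv 783 (cons (fin 847 7 783)
(mv 719 (cons (fin 784 7 719)
(mv 849 (cons (fin 785 6 784)
(mv 1103 (cons (fin 1039 5 847)
(mv 1104 (cons (fin 1167 5 911)
(fin 913 6 848))))))))))))
(cons (mv 783 (cons (fin 847 7 783)
(mv 784 (cons (fin 719 7 719)
(mv 785 (cons (fin 721 6 720)
(fin 849 6 784)))))))
(mv 783 (cons (fin 847 7 783)
(mv 785 (cons (fin 849 6 784)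
(mv 1103 (cons (fin 1039 5 847)
(mv 1104 (cons (fin 1167 5 911)
(mv 1105 (cons (fin 1041 4 848)
(fin 1169 4 912)))))))))))))))
(mv 1104 (cons (cons (mv 847 (cons (fin 911 7 847)
(mv 849 (cons (fin 913 6 848)
(mv 1167 (cons (fin 1103 5 911)
(mv 1168 (cons (fin 1231 5 975)
(mv 1169 (cons (fin 1105 4 912)
(fin 1233 4 976)))))))))))
(cons (mv 849 (cons (fin 913 6 848)
(mv 1167 (cons (fin 1103 5 911)
(mv 1168 (cons (fin 1231 5 975)
(mv 1169 (cons (fin 1105 4 912)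
(fin 1233 4 976)))))))))
(mv 849 (cons (fin 913 6 848)
(mv 911 (cons (fin 847 7 847)
(mv 1168 (cons (fin 975 7 911)
(mv 1169 (cons (fin 1105 4 912)
(fin 1233 4 976)))))))))))
(cons (mv 849 (cons (fin 913 6 848)
(mv 911 (cons (fin 847 7 847)
(mv 1167 (cons (fin 1103 5 911)
(mv 1168 (cons (fin 975 7 911)
(fin 1231 5 975)))))))))
(cons (mv 847 (cons (fin 911 7 847)
(mv 1167 (cons (fin 1103 5 911)
(mv 1168 (cons (fin 1231 5 975)
(mv 1169 (cons (fin 1105 4 912)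
(fin 1233 4 976)))))))))
(mv 847 (cons (fin 911 7 847)
(mv 849 (cons (fin 913 6 848)
(mv 1103 (cons (fin 1167 5 911)
(mv 1105 (cons (fin 1169 4 912)
(mv 1102 (cons (mv 1041 (cons (fin 1101 2 1037)
(fin 1042 2 1038)))
(cons (mv 1037 (cons (fin 1038 3 1037)
(mv 1101 (cons (fin 1036 3 1036)
(mv 1165 (cons (fin 1164 1 1100)
(fin 1166 1 1101)))))))
(mv 1038 (cons (fin 1037 3 1037)
(mv 1039 (cons (fin 1106 3 1038)
(mv 1041 (cons (fin 1042 1 1038)
(mv 973 (cons (fin 974 3 973)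
(mv 1166 (cons (fin 1165 1 1101)
(mv 1230 (cons (fin 975 6 974)
(fin 1294 6 1038)))))))))))))))))))))))))))))
(cons (mv 848 (cons (cons (mv 783 (cons (fin 847 7 783)
(mv 784 (cons (fin 719 7 719)
(mv 785 (cons (fin 721 6 720)
(fin 849 6 784)))))))
(mv 785 (cons (fin 849 6 784)
(mv 784 (cons (fin 721 6 720)
(mv 1039 (cons (fin 975 5 783)
(fin 1103 5 847))))))))
(cons (mv 783 (cons (fin 847 7 783)
(mv 784 (cons (fin 719 7 719)
(mv 1039 (cons (fin 975 5 783)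
(fin 1103 5 847)))))))
(mv 783 (cons (fin 847 7 783)
(mv 785 (cons (fin 849 6 784)
(mv 1039 (cons (fin 1103 5 847)
(mv 1041 (cons (fin 1105 4 848)
(mv 1042 (cons (mv 975 (cons (fin 974 3 974)
(fin 1043 3 975)))
(cons (mv 979 (cons (fin 978 2 975)
(mv 1043 (cons (fin 980 2 976)
(mv 1107 (cons (fin 1106 0 1039)
(fin 1108 0 1040)))))))
(mv 978 (cons (fin 979 2 975)
(mv 1106 (cons (fin 1107 0 1039)
(mv 1038 (cons (cons (mv 974 (cons (fin 973 3 973)
(fin 975 3 974)))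
(mv 1101 (cons (fin 1102 1 1037)
(mv 1037 (cons (fin 1100 1 1036)
(mv 972 (cons (fin 973 3 972)
(mv 1036 (cons (fin 971 3 971)
(fin 975 2 972))))))))))
(cons (mv 973 (cons (fin 974 3 973)
(mv 1037 (cons (fin 972 3 972)
(mv 1101 (cons (fin 1100 1 1036)
(fin 1102 1 1037)))))))
(mv 975 (cons (fin 974 3 974)
(mv 1037 (cons (fin 1036 2 972)
(mv 1101 (cons (fin 1100 1 1036)
(fin 1102 1 1037))))))))))))))))))))))))))))
(mv 1104 (cons (cons (mv 849 (cons (fin 913 6 848)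
(mv 785 (cons (fin 848 6 784)
(mv 1105 (cons (fin 1169 4 912)
(mv 1167 (cons (fin 1103 5 911)
(mv 1168 (cons (fin 1231 5 975)
(mv 975 (cons (fin 911 7 911)
(mv 1039 (cons (fin 1232 7 975)
(mv 1038 (cons (fin 1037 0 1037)
(mv 1106 (cons (fin 1107 3 1039)
(fin 1041 0 1038)))))))))))))))))))
(cons (mv 849 (cons (fin 913 6 848)
(mv 785 (cons (fin 848 6 784)
(mv 1169 (cons (fin 1105 4 912)
(mv 1168 (cons (fin 1233 4 976)
(mv 975 (cons (fin 911 7 911)
(mv 1231 (cons (fin 1167 5 975)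
(mv 1232 (cons (fin 1039 7 975)
(fin 1295 5 1039)))))))))))))))
(mv 849 (cons (fin 913 6 848)
(mv 785 (cons (fin 848 6 784)
(mv 1167 (cons (fin 1103 5 911)
(mv 1168 (cons (fin 1231 5 975)
(mv 975 (cons (fin 911 7 911)
(mv 1232 (cons (fin 1039 7 975)
(mv 1233 (cons (fin 1169 4 976)
(fin 1297 4 1040)))))))))))))))))
(cons (cons (mv 849 (cons (fin 913 6 848)
(mv 848 (cons (fin 785 6 784)
(mv 1105 (cons (fin 1041 4 848)
(fin 1169 4 912)))))))
(mv 849 (cons (fin 913 6 848)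
(mv 848 (cons (fin 785 6 784)
(mv 1103 (cons (fin 1039 5 847)
(fin 1167 5 911))))))))
(cons (mv 1103 (cons (fin 1167 5 911)
(mv 848 (cons (fin 1039 5 847)
(mv 1105 (cons (fin 1041 4 848)
(fin 1169 4 912)))))))
(mv 849 (cons (fin 913 6 848)
(mv 1105 (cons (fin 1169 4 912)
(mv 1167 (cons (fin 1103 5 911)
(mv 1168 (cons (fin 1231 5 975)
(mv 975 (cons (fin 911 7 911)
(mv 1039 (cons (fin 1232 7 975)
(mv 1038 (cons (fin 1037 0 1037)
(mv 1106 (cons (fin 1107 3 1039)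
(fin 1041 0 1038)))))))))))))))))))))))
(cons (cons (mv 848 (cons (cons (mv 783 (cons (fin 847 7 783)
(mv 719 (cons (fin 784 7 719)
(mv 849 (cons (fin 785 6 784)
(mv 1104 (cons (fin 913 6 848)
(mv 1105 (cons (fin 1041 4 848)
(fin 1169 4 912)))))))))))
(cons (mv 785 (cons (fin 849 6 784)
(mv 784 (cons (fin 721 6 720)
(mv 719 (cons (fin 783 7 719)
(mv 720 (cons (fin 655 7 655)
(mv 975 (cons (fin 911 5 719)
(fin 1039 5 783)))))))))))
(mv 783 (cons (fin 847 7 783)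
(mv 784 (cons (fin 719 7 719)
(mv 721 (cons (fin 785 6 720)
(mv 720 (cons (fin 657 6 656)
(mv 975 (cons (fin 911 5 719)
(fin 1039 5 783)))))))))))))
(cons (mv 785 (cons (fin 849 6 784)
(mv 784 (cons (fin 721 6 720)
(mv 975 (cons (fin 1039 5 783)
(mv 911 (cons (fin 720 5 719)
(mv 1104 (cons (fin 847 7 847)
(fin 1168 7 911)))))))))))
(cons (mv 783 (cons (fin 847 7 783)
(mv 784 (cons (fin 719 7 719)
(mv 975 (cons (fin 1039 5 783)
(mv 911 (cons (fin 720 5 719)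
(mv 1041 (cons (fin 1105 4 848)
(mv 974 (cons (fin 973 0 973)
(mv 913 (cons (fin 914 1 910)
(mv 1104 (cons (fin 1168 7 911)
(fin 849 6 848)))))))))))))))))
(mv 783 (cons (fin 847 7 783)
(mv 849 (cons (fin 785 6 784)
(mv 1104 (cons (fin 913 6 848)
(mv 1105 (cons (fin 1041 4 848)
(fin 1169 4 912)))))))))))))
(mv 1104 (cons (cons (mv 847 (cons (fin 911 7 847)
(mv 783 (cons (fin 848 7 783)
(mv 1167 (cons (fin 1103 5 911)
(mv 1168 (cons (fin 1231 5 975)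
(mv 1169 (cons (fin 1105 4 912)
(fin 1233 4 976)))))))))))
(mv 847 (cons (fin 911 7 847)
(mv 848 (cons (fin 783 7 783)
(mv 1105 (cons (fin 1041 4 848)
(fin 1169 4 912))))))))
(cons (mv 847 (cons (fin 911 7 847)
(mv 848 (cons (fin 783 7 783)
(mv 1103 (cons (fin 1039 5 847)
(fin 1167 5 911)))))))
(cons (mv 1103 (cons (fin 1167 5 911)
(mv 848 (cons (fin 1039 5 847)
(mv 1105 (cons (fin 1041 4 848)
(fin 1169 4 912)))))))
(mv 847 (cons (fin 911 7 847)
(mv 1167 (cons (fin 1103 5 911)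
(mv 1168 (cons (fin 1231 5 975)
(mv 1169 (cons (fin 1105 4 912)
(fin 1233 4 976))))))))))))))
(cons (mv 848 (cons (cons (mv 783 (cons (fin 847 7 783)
(mv 719 (cons (fin 784 7 719)
(mv 849 (cons (fin 785 6 784)
(mv 1103 (cons (fin 1039 5 847)
(mv 1104 (cons (fin 1167 5 911)
(fin 913 6 848)))))))))))
(mv 785 (cons (fin 849 6 784)
(mv 784 (cons (fin 721 6 720)
(mv 1039 (cons (fin 975 5 783)
(fin 1103 5 847))))))))
(cons (mv 783 (cons (fin 847 7 783)
(mv 784 (cons (fin 719 7 719)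
(mv 1039 (cons (fin 975 5 783)
(fin 1103 5 847)))))))
(cons (mv 783 (cons (fin 847 7 783)
(mv 784 (cons (fin 719 7 719)
(mv 785 (cons (fin 721 6 720)
(fin 849 6 784)))))))
(mv 783 (cons (fin 847 7 783)
(mv 849 (cons (fin 785 6 784)
(mv 1103 (cons (fin 1039 5 847)
(mv 1104 (cons (fin 1167 5 911)
(fin 913 6 848)))))))))))))
(mv 1104 (cons (cons (mv 847 (cons (fin 911 7 847)
(mv 783 (cons (fin 848 7 783)
(mv 849 (cons (fin 913 6 848)
(mv 1167 (cons (fin 1103 5 911)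
(mv 1168 (cons (fin 1231 5 975)
(mv 1169 (cons (fin 1105 4 912)
(fin 1233 4 976)))))))))))))
(mv 849 (cons (fin 913 6 848)
(mv 785 (cons (fin 848 6 784)
(mv 1167 (cons (fin 1103 5 911)
(mv 1168 (cons (fin 1231 5 975)
(mv 1169 (cons (fin 1105 4 912)
(fin 1233 4 976))))))))))))
(cons (mv 847 (cons (fin 911 7 847)
(mv 848 (cons (fin 783 7 783)
(mv 849 (cons (fin 785 6 784)
(fin 913 6 848)))))))
(cons (mv 847 (cons (fin 911 7 847)
(mv 783 (cons (fin 848 7 783)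
(mv 1167 (cons (fin 1103 5 911)
(mv 1168 (cons (fin 1231 5 975)
(mv 1169 (cons (fin 1105 4 912)
(fin 1233 4 976)))))))))))
(mv 847 (cons (fin 911 7 847)
(mv 849 (cons (fin 913 6 848)
(mv 1167 (cons (fin 1103 5 911)
(mv 1168 (cons (fin 1231 5 975)
(mv 1169 (cons (fin 1105 4 912)
(fin 1233 4 976)))))))))))))))))))
(cons (mv 1104 (cons (cons (cons (mv 912 (cons (cons (mv 847 (cons (fin 911 7 847)
(mv 783 (cons (fin 848 7 783)
(mv 849 (cons (fin 913 6 848)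
(mv 1167 (cons (fin 1103 5 911)
(mv 1168 (cons (fin 1231 5 975)
(mv 1169 (cons (fin 1105 4 912)
(fin 1233 4 976)))))))))))))
(cons (mv 849 (cons (fin 913 6 848)
(mv 785 (cons (fin 848 6 784)
(mv 1167 (cons (fin 1103 5 911)
(mv 1168 (cons (fin 1231 5 975)
(mv 1169 (cons (fin 1105 4 912)
(fin 1233 4 976)))))))))))
(mv 847 (cons (fin 911 7 847)
(mv 783 (cons (fin 848 7 783)
(mv 1167 (cons (fin 1103 5 911)
(mv 1168 (cons (fin 1231 5 975)
(mv 1169 (cons (fin 1105 4 912)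
(fin 1233 4 976)))))))))))))
(cons (cons (mv 847 (cons (fin 911 7 847)
(mv 783 (cons (fin 848 7 783)
(mv 913 (cons (fin 849 6 848)
(mv 1168 (cons (fin 977 6 912)
(mv 1169 (cons (fin 1105 4 912)
(fin 1233 4 976)))))))))))
(mv 847 (cons (fin 911 7 847)
(mv 783 (cons (fin 848 7 783)
(mv 913 (cons (fin 849 6 848)
(mv 1167 (cons (fin 1103 5 911)
(mv 1168 (cons (fin 1231 5 975)
(fin 977 6 912))))))))))))
(cons (mv 847 (cons (fin 911 7 847)
(mv 848 (cons (fin 783 7 783)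
(mv 849 (cons (fin 785 6 784)
(fin 913 6 848)))))))
(mv 847 (cons (fin 911 7 847)
(mv 849 (cons (fin 913 6 848)
(mv 1167 (cons (fin 1103 5 911)
(mv 1168 (cons (fin 1231 5 975)
(mv 1169 (cons (fin 1105 4 912)
(fin 1233 4 976)))))))))))))))
(mv 1168 (cons (cons (mv 911 (cons (fin 975 7 911)
(mv 913 (cons (fin 977 6 912)
(mv 1231 (cons (fin 1167 5 975)
(mv 1232 (cons (fin 1295 5 1039)
(mv 1233 (cons (fin 1169 4 976)
(fin 1297 4 1040)))))))))))
(cons (mv 913 (cons (fin 977 6 912)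
(mv 1231 (cons (fin 1167 5 975)
(mv 1232 (cons (fin 1295 5 1039)
(mv 1233 (cons (fin 1169 4 976)
(fin 1297 4 1040)))))))))
(mv 913 (cons (fin 977 6 912)
(mv 975 (cons (fin 911 7 911)
(mv 1232 (cons (fin 1039 7 975)
(mv 1233 (cons (fin 1169 4 976)
(fin 1297 4 1040)))))))))))
(cons (mv 913 (cons (fin 977 6 912)
(mv 975 (cons (fin 911 7 911)
(mv 1231 (cons (fin 1167 5 975)
(mv 1232 (cons (fin 1039 7 975)
(fin 1295 5 1039)))))))))
(cons (mv 911 (cons (fin 975 7 911)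
(mv 1231 (cons (fin 1167 5 975)
(mv 1232 (cons (fin 1295 5 1039)
(mv 1233 (cons (fin 1169 4 976)
(fin 1297 4 1040)))))))))
(mv 913 (cons (fin 977 6 912)
(mv 975 (cons (fin 911 7 911)
(mv 1167 (cons (fin 1231 5 975)
(mv 1169 (cons (fin 1233 4 976)
(mv 1166 (cons (mv 1105 (cons (fin 1165 2 1101)
(fin 1106 2 1102)))
(cons (mv 1101 (cons (fin 1102 3 1101)
(mv 1165 (cons (fin 1100 3 1100)
(mv 1229 (cons (fin 1228 1 1164)
(fin 1230 1 1165)))))))
(mv 1102 (cons (fin 1101 3 1101)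
(mv 1105 (cons (fin 1106 2 1102)
(mv 1230 (cons (fin 1229 1 1165)
(mv 1039 (cons (fin 1103 5 974)
(fin 1038 6 974)))))))))))))))))))))))))
(cons (mv 912 (cons (cons (mv 847 (cons (fin 911 7 847)
(mv 848 (cons (fin 783 7 783)
(mv 849 (cons (fin 785 6 784)
(fin 913 6 848)))))))
(mv 849 (cons (fin 913 6 848)
(mv 848 (cons (fin 785 6 784)
(mv 1103 (cons (fin 1039 5 847)
(fin 1167 5 911))))))))
(cons (mv 847 (cons (fin 911 7 847)
(mv 848 (cons (fin 783 7 783)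
(mv 1103 (cons (fin 1039 5 847)
(fin 1167 5 911)))))))
(mv 847 (cons (fin 911 7 847)
(mv 849 (cons (fin 913 6 848)
(mv 1103 (cons (fin 1167 5 911)
(mv 1105 (cons (fin 1169 4 912)
(mv 1102 (cons (cons (mv 1037 (cons (fin 1038 3 1037)
(mv 1101 (cons (fin 1036 3 1036)
(mv 1165 (cons (fin 1164 1 1100)
(fin 1166 1 1101)))))))
(mv 1165 (cons (fin 1166 1 1101)
(mv 1101 (cons (fin 1164 1 1100)
(mv 1036 (cons (fin 1037 3 1036)
(mv 1100 (cons (fin 1035 3 1035)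
(fin 1039 2 1036))))))))))
(cons (mv 1165 (cons (fin 1166 1 1101)
(mv 1101 (cons (fin 1164 1 1100)
(mv 1039 (cons (fin 1100 2 1036)
(mv 1106 (cons (fin 1038 3 1038)
(fin 1107 3 1039)))))))))
(cons (mv 1101 (cons (mv 1037 (cons (fin 1036 3 1036)
(fin 1038 3 1037)))
(cons (mv 1039 (cons (fin 1100 2 1036)
(mv 1106 (cons (fin 1038 3 1038)
(fin 1107 3 1039)))))
(mv 1036 (cons (fin 1037 3 1036)
(mv 1100 (cons (fin 1035 3 1035)
(fin 1039 2 1036))))))))
(mv 1038 (cons (fin 1037 3 1037)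
(mv 1039 (cons (fin 1106 3 1038)
(mv 1166 (cons (fin 1165 1 1101)
(mv 1230 (cons (fin 975 6 974)
(fin 1294 6 1038))))))))))))))))))))))))
(mv 1168 (cons (cons (mv 913 (cons (fin 977 6 912)
(mv 849 (cons (fin 912 6 848)
(mv 1169 (cons (fin 1233 4 976)
(mv 1231 (cons (fin 1167 5 975)
(mv 1232 (cons (fin 1295 5 1039)
(mv 1039 (cons (fin 975 7 975)
(mv 1103 (cons (fin 1296 7 1039)
(mv 1102 (cons (fin 1101 0 1101)
(mv 1230 (cons (fin 1229 2 1165)
(mv 1166 (cons (fin 1294 6 1038)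
(mv 1105 (cons (fin 1165 1 1101)
(mv 1038 (cons (fin 1037 3 1037)
(fin 1106 3 1038)))))))))))))))))))))))))
(cons (mv 913 (cons (fin 977 6 912)
(mv 849 (cons (fin 912 6 848)
(mv 1233 (cons (fin 1169 4 976)
(mv 1232 (cons (fin 1297 4 1040)
(mv 1039 (cons (fin 975 7 975)
(mv 1295 (cons (fin 1231 5 1039)
(mv 1296 (cons (fin 1103 7 1039)
(fin 1359 5 1103)))))))))))))))
(mv 913 (cons (fin 977 6 912)
(mv 849 (cons (fin 912 6 848)
(mv 1231 (cons (fin 1167 5 975)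
(mv 1232 (cons (fin 1295 5 1039)
(mv 1039 (cons (fin 975 7 975)
(mv 1296 (cons (fin 1103 7 1039)
(mv 1297 (cons (fin 1233 4 1040)
(fin 1361 4 1104)))))))))))))))))
(cons (cons (mv 913 (cons (fin 977 6 912)
(mv 912 (cons (fin 849 6 848)
(mv 1169 (cons (fin 1105 4 912)
(fin 1233 4 976)))))))
(mv 913 (cons (fin 977 6 912)
(mv 912 (cons (fin 849 6 848)
(mv 1167 (cons (fin 1103 5 911)
(fin 1231 5 975))))))))
(cons (mv 1167 (cons (fin 1231 5 975)
(mv 912 (cons (fin 1103 5 911)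
(mv 1169 (cons (fin 1105 4 912)
(fin 1233 4 976)))))))
(mv 913 (cons (fin 977 6 912)
(mv 1169 (cons (fin 1233 4 976)
(mv 1231 (cons (fin 1167 5 975)
(mv 1232 (cons (fin 1295 5 1039)
(mv 1039 (cons (fin 975 7 975)
(mv 1103 (cons (fin 1296 7 1039)
(mv 1102 (cons (fin 1101 0 1101)
(mv 1230 (cons (fin 1229 2 1165)
(mv 1166 (cons (fin 1294 6 1038)
(mv 1105 (cons (fin 1165 1 1101)
(mv 1038 (cons (fin 1037 3 1037)
(fin 1106 3 1038)))))))))))))))))))))))))))))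
(cons (cons (mv 912 (cons (cons (mv 847 (cons (fin 911 7 847)
(mv 783 (cons (fin 848 7 783)
(mv 913 (cons (fin 849 6 848)
(mv 1168 (cons (fin 977 6 912)
(mv 1169 (cons (fin 1105 4 912)
(fin 1233 4 976)))))))))))
(cons (mv 849 (cons (fin 913 6 848)
(mv 848 (cons (fin 785 6 784)
(mv 783 (cons (fin 847 7 783)
(mv 784 (cons (fin 719 7 719)
(mv 1039 (cons (fin 975 5 783)
(fin 1103 5 847)))))))))))
(mv 847 (cons (fin 911 7 847)
(mv 848 (cons (fin 783 7 783)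
(mv 785 (cons (fin 849 6 784)
(mv 784 (cons (fin 721 6 720)
(mv 1039 (cons (fin 975 5 783)
(fin 1103 5 847)))))))))))))
(cons (mv 849 (cons (fin 913 6 848)
(mv 848 (cons (fin 785 6 784)
(mv 1039 (cons (fin 1103 5 847)
(mv 975 (cons (fin 784 5 783)
(mv 1168 (cons (fin 911 7 911)
(fin 1232 7 975)))))))))))
(cons (mv 847 (cons (fin 911 7 847)
(mv 848 (cons (fin 783 7 783)
(mv 1039 (cons (fin 1103 5 847)
(mv 975 (cons (fin 784 5 783)
(mv 1105 (cons (fin 1169 4 912)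
(mv 1038 (cons (fin 1037 0 1037)
(mv 977 (cons (fin 978 1 974)
(mv 1168 (cons (fin 1232 7 975)
(fin 913 6 912)))))))))))))))))
(mv 847 (cons (fin 911 7 847)
(mv 913 (cons (fin 849 6 848)
(mv 1168 (cons (fin 977 6 912)
(mv 1169 (cons (fin 1105 4 912)
(fin 1233 4 976)))))))))))))
(mv 1168 (cons (cons (mv 911 (cons (fin 975 7 911)
(mv 847 (cons (fin 912 7 847)
(mv 1231 (cons (fin 1167 5 975)
(mv 1232 (cons (fin 1295 5 1039)
(mv 1233 (cons (fin 1169 4 976)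
(fin 1297 4 1040)))))))))))
(mv 911 (cons (fin 975 7 911)
(mv 912 (cons (fin 847 7 847)
(mv 1169 (cons (fin 1105 4 912)
(fin 1233 4 976))))))))
(cons (mv 1167 (cons (fin 1231 5 975)
(mv 912 (cons (fin 1103 5 911)
(mv 1169 (cons (fin 1105 4 912)
(fin 1233 4 976)))))))
(cons (mv 911 (cons (fin 975 7 911)
(mv 912 (cons (fin 847 7 847)
(mv 1167 (cons (fin 1103 5 911)
(fin 1231 5 975)))))))
(mv 911 (cons (fin 975 7 911)
(mv 1231 (cons (fin 1167 5 975)
(mv 1232 (cons (fin 1295 5 1039)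
(mv 1233 (cons (fin 1169 4 976)
(fin 1297 4 1040))))))))))))))
(cons (mv 912 (cons (cons (mv 847 (cons (fin 911 7 847)
(mv 783 (cons (fin 848 7 783)
(mv 913 (cons (fin 849 6 848)
(mv 1167 (cons (fin 1103 5 911)
(mv 1168 (cons (fin 1231 5 975)
(fin 977 6 912)))))))))))
(mv 849 (cons (fin 913 6 848)
(mv 848 (cons (fin 785 6 784)
(mv 1103 (cons (fin 1039 5 847)
(fin 1167 5 911))))))))
(cons (mv 847 (cons (fin 911 7 847)
(mv 848 (cons (fin 783 7 783)
(mv 1103 (cons (fin 1039 5 847)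
(fin 1167 5 911)))))))
(cons (mv 847 (cons (fin 911 7 847)
(mv 848 (cons (fin 783 7 783)
(mv 849 (cons (fin 785 6 784)
(fin 913 6 848)))))))
(mv 847 (cons (fin 911 7 847)
(mv 913 (cons (fin 849 6 848)
(mv 1167 (cons (fin 1103 5 911)
(mv 1168 (cons (fin 1231 5 975)
(fin 977 6 912)))))))))))))
(mv 1168 (cons (cons (mv 911 (cons (fin 975 7 911)
(mv 847 (cons (fin 912 7 847)
(mv 913 (cons (fin 977 6 912)
(mv 1231 (cons (fin 1167 5 975)
(mv 1232 (cons (fin 1295 5 1039)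
(mv 1233 (cons (fin 1169 4 976)
(fin 1297 4 1040)))))))))))))
(mv 913 (cons (fin 977 6 912)
(mv 849 (cons (fin 912 6 848)
(mv 1231 (cons (fin 1167 5 975)
(mv 1232 (cons (fin 1295 5 1039)
(mv 1233 (cons (fin 1169 4 976)
(fin 1297 4 1040))))))))))))
(cons (mv 911 (cons (fin 975 7 911)
(mv 912 (cons (fin 847 7 847)
(mv 913 (cons (fin 849 6 848)
(fin 977 6 912)))))))
(cons (mv 911 (cons (fin 975 7 911)
(mv 847 (cons (fin 912 7 847)
(mv 1231 (cons (fin 1167 5 975)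
(mv 1232 (cons (fin 1295 5 1039)
(mv 1233 (cons (fin 1169 4 976)
(fin 1297 4 1040)))))))))))
(mv 911 (cons (fin 975 7 911)
(mv 913 (cons (fin 977 6 912)
(mv 1231 (cons (fin 1167 5 975)
(mv 1232 (cons (fin 1295 5 1039)
(mv 1233 (cons (fin 1169 4 976)
(fin 1297 4 1040)))))))))))))))))))
(mv 1104 (cons (cons (cons (mv 1168 (cons (cons (cons (mv 911 (cons (fin 975 7 911)
(mv 847 (cons (fin 912 7 847)
(mv 913 (cons (fin 977 6 912)
(mv 1231 (cons (fin 1167 5 975)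
(mv 1232 (cons (fin 1295 5 1039)
(mv 1233 (cons (fin 1169 4 976)
(fin 1297 4 1040)))))))))))))
(mv 913 (cons (fin 977 6 912)
(mv 849 (cons (fin 912 6 848)
(mv 1231 (cons (fin 1167 5 975)
(mv 1232 (cons (fin 1295 5 1039)
(mv 1233 (cons (fin 1169 4 976)
(fin 1297 4 1040))))))))))))
(cons (mv 911 (cons (fin 975 7 911)
(mv 847 (cons (fin 912 7 847)
(mv 1231 (cons (fin 1167 5 975)
(mv 1232 (cons (fin 1295 5 1039)
(mv 1233 (cons (fin 1169 4 976)
(fin 1297 4 1040)))))))))))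
(mv 911 (cons (fin 975 7 911)
(mv 847 (cons (fin 912 7 847)
(mv 977 (cons (fin 913 6 912)
(mv 1169 (cons (fin 1233 4 976)
(mv 1232 (cons (fin 1041 6 976)
(mv 1295 (cons (fin 1231 5 1039)
(mv 1296 (cons (fin 1359 5 1103)
(mv 1039 (cons (fin 1103 7 1039)
(mv 978 (cons (fin 979 1 975)
(mv 1037 (cons (fin 1038 2 973)
(mv 1360 (cons (fin 1105 6 1104)
(mv 1361 (cons (fin 1297 4 1104)
(fin 1425 4 1168)))))))))))))))))))))))))))
(cons (cons (mv 911 (cons (fin 975 7 911)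
(mv 847 (cons (fin 912 7 847)
(mv 977 (cons (fin 913 6 912)
(mv 1167 (cons (fin 1231 5 975)
(mv 1232 (cons (fin 1041 6 976)
(mv 1297 (cons (fin 1233 4 1040)
(mv 1296 (cons (fin 1361 4 1104)
(mv 1103 (cons (fin 1039 7 1039)
(fin 1360 7 1103)))))))))))))))))
(mv 911 (cons (fin 975 7 911)
(mv 847 (cons (fin 912 7 847)
(mv 977 (cons (fin 913 6 912)
(mv 1231 (cons (fin 1167 5 975)
(mv 1232 (cons (fin 1295 5 1039)
(fin 1041 6 976))))))))))))
(cons (mv 911 (cons (fin 975 7 911)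
(mv 847 (cons (fin 912 7 847)
(mv 977 (cons (fin 913 6 912)
(mv 1232 (cons (fin 1041 6 976)
(mv 1233 (cons (fin 1169 4 976)
(fin 1297 4 1040)))))))))))
(cons (mv 911 (cons (fin 975 7 911)
(mv 912 (cons (fin 847 7 847)
(mv 913 (cons (fin 849 6 848)
(fin 977 6 912)))))))
(mv 911 (cons (fin 975 7 911)
(mv 913 (cons (fin 977 6 912)
(mv 1231 (cons (fin 1167 5 975)
(mv 1232 (cons (fin 1295 5 1039)
(mv 1233 (cons (fin 1169 4 976)
(fin 1297 4 1040))))))))))))))))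
(mv 912 (cons (cons (mv 847 (cons (fin 911 7 847)
(mv 849 (cons (fin 913 6 848)
(mv 1103 (cons (fin 1167 5 911)
(mv 1105 (cons (fin 1169 4 912)
(mv 1102 (cons (mv 1041 (cons (fin 1101 2 1037)
(fin 1042 2 1038)))
(cons (mv 1037 (cons (fin 1038 3 1037)
(mv 1101 (cons (fin 1036 3 1036)
(mv 1165 (cons (fin 1164 1 1100)
(fin 1166 1 1101)))))))
(mv 1038 (cons (fin 1037 3 1037)
(mv 1039 (cons (fin 1106 3 1038)
(mv 1041 (cons (fin 1042 1 1038)
(mv 973 (cons (fin 974 3 973)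
(mv 977 (cons (fin 978 2 974)
(mv 1166 (cons (fin 1165 1 1101)
(mv 1230 (cons (fin 975 6 974)
(fin 1294 6 1038))))))))))))))))))))))))))
(cons (mv 849 (cons (fin 913 6 848)
(mv 1103 (cons (fin 1167 5 911)
(mv 1105 (cons (fin 1169 4 912)
(mv 1102 (cons (mv 1041 (cons (fin 1101 2 1037)
(fin 1042 2 1038)))
(cons (mv 1037 (cons (fin 1038 3 1037)
(mv 1101 (cons (fin 1036 3 1036)
(mv 1165 (cons (fin 1164 1 1100)
(fin 1166 1 1101)))))))
(mv 1038 (cons (fin 1037 3 1037)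
(mv 1039 (cons (fin 1106 3 1038)
(mv 1041 (cons (fin 1042 1 1038)
(mv 973 (cons (fin 974 3 973)
(mv 977 (cons (fin 978 2 974)
(mv 1166 (cons (fin 1165 1 1101)
(mv 1230 (cons (fin 975 6 974)
(fin 1294 6 1038))))))))))))))))))))))))
(mv 847 (cons (fin 911 7 847)
(mv 1103 (cons (fin 1167 5 911)
(mv 1105 (cons (fin 1169 4 912)
(mv 1102 (cons (mv 1041 (cons (fin 1101 2 1037)
(fin 1042 2 1038)))
(cons (mv 1037 (cons (fin 1038 3 1037)
(mv 1101 (cons (fin 1036 3 1036)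
(mv 1165 (cons (fin 1164 1 1100)
(fin 1166 1 1101)))))))
(mv 1038 (cons (fin 1037 3 1037)
(mv 1039 (cons (fin 1106 3 1038)
(mv 1041 (cons (fin 1042 1 1038)
(mv 973 (cons (fin 974 3 973)
(mv 977 (cons (fin 978 2 974)
(mv 1166 (cons (fin 1165 1 1101)
(mv 1230 (cons (fin 975 6 974)
(fin 1294 6 1038))))))))))))))))))))))))))
(cons (mv 911 (cons (fin 847 7 847)
(mv 913 (cons (fin 849 6 848)
(mv 1105 (cons (fin 1169 4 912)
(mv 914 (cons (mv 975 (cons (fin 974 1 910)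
(fin 915 1 911)))
(mv 850 (cons (fin 851 2 847)
(mv 977 (cons (fin 1041 6 849)
(mv 910 (cons (fin 909 0 909)
(fin 978 0 910)))))))))))))))
(cons (mv 911 (cons (fin 847 7 847)
(mv 913 (cons (fin 849 6 848)
(mv 1103 (cons (fin 1167 5 911)
(mv 910 (cons (cons (mv 977 (cons (fin 909 0 909)
(fin 978 0 910)))
(mv 845 (cons (fin 846 3 845)
(mv 844 (cons (fin 909 3 844)
(mv 974 (cons (fin 973 1 909)
(mv 914 (cons (fin 975 1 910)
(mv 851 (cons (fin 850 2 847)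
(mv 915 (cons (fin 852 2 848)
(mv 979 (cons (fin 978 0 911)
(fin 980 0 912))))))))))))))))
(cons (mv 845 (cons (fin 846 3 845)
(mv 973 (cons (fin 974 1 909)
(mv 978 (cons (fin 977 0 910)
(mv 914 (cons (fin 979 0 911)
(mv 851 (cons (fin 850 2 847)
(mv 915 (cons (fin 975 1 911)
(fin 852 2 848)))))))))))))
(mv 845 (cons (fin 846 3 845)
(mv 909 (cons (fin 844 3 844)
(fin 977 0 909))))))))))))))
(mv 847 (cons (fin 911 7 847)
(mv 849 (cons (fin 913 6 848)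
(mv 1103 (cons (fin 1167 5 911)
(mv 1105 (cons (fin 1169 4 912)
(mv 1102 (cons (mv 1041 (cons (fin 1101 2 1037)
(fin 1042 2 1038)))
(cons (mv 1037 (cons (fin 1038 3 1037)
(mv 1101 (cons (fin 1036 3 1036)
(mv 1165 (cons (fin 1164 1 1100)
(fin 1166 1 1101)))))))
(mv 1038 (cons (fin 1037 3 1037)
(mv 1042 (cons (fin 1041 2 1038)
(mv 1106 (cons (fin 1039 3 1038)
(fin 1043 2 1039)))))))))))))))))))))))
(cons (mv 1168 (cons (cons (mv 911 (cons (fin 975 7 911)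
(mv 913 (cons (fin 977 6 912)
(mv 1231 (cons (fin 1167 5 975)
(mv 1232 (cons (fin 1295 5 1039)
(mv 1233 (cons (fin 1169 4 976)
(fin 1297 4 1040)))))))))))
(cons (mv 913 (cons (fin 977 6 912)
(mv 1231 (cons (fin 1167 5 975)
(mv 1232 (cons (fin 1295 5 1039)
(mv 1233 (cons (fin 1169 4 976)
(fin 1297 4 1040)))))))))
(mv 911 (cons (fin 975 7 911)
(mv 1231 (cons (fin 1167 5 975)
(mv 1232 (cons (fin 1295 5 1039)
(mv 1233 (cons (fin 1169 4 976)
(fin 1297 4 1040)))))))))))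
(cons (mv 911 (cons (fin 975 7 911)
(mv 977 (cons (fin 913 6 912)
(mv 1231 (cons (fin 1167 5 975)
(mv 1232 (cons (fin 1295 5 1039)
(fin 1041 6 976)))))))))
(cons (mv 911 (cons (fin 975 7 911)
(mv 977 (cons (fin 913 6 912)
(mv 1232 (cons (fin 1041 6 976)
(mv 1233 (cons (fin 1169 4 976)
(fin 1297 4 1040)))))))))
(mv 911 (cons (fin 975 7 911)
(mv 977 (cons (fin 913 6 912)
(mv 1167 (cons (fin 1231 5 975)
(mv 1169 (cons (fin 1233 4 976)
(mv 1166 (cons (mv 1105 (cons (fin 1165 2 1101)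
(fin 1106 2 1102)))
(cons (mv 1101 (cons (fin 1102 3 1101)
(mv 1165 (cons (fin 1100 3 1100)
(mv 1229 (cons (fin 1228 1 1164)
(fin 1230 1 1165)))))))
(mv 1102 (cons (fin 1101 3 1101)
(mv 1105 (cons (fin 1106 2 1102)
(mv 1230 (cons (fin 1229 1 1165)
(mv 1294 (cons (mv 1103 (cons (fin 1039 6 1038)
(fin 1358 6 1102)))
(cons (mv 1357 (cons (fin 1293 5 1101)
(mv 1358 (cons (fin 1421 5 1165)
(mv 1359 (cons (fin 1295 4 1102)
(fin 1423 4 1166)))))))
(mv 1039 (cons (fin 1103 6 1038)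
(mv 978 (cons (fin 979 1 975)
(mv 1038 (cons (fin 1037 2 973)
(fin 1041 2 974)))))))))))))))))))))))))))))))
(cons (mv 1168 (cons (cons (mv 911 (cons (fin 975 7 911)
(mv 847 (cons (fin 912 7 847)
(mv 977 (cons (fin 913 6 912)
(mv 1169 (cons (fin 1233 4 976)
(mv 1232 (cons (fin 1041 6 976)
(mv 1295 (cons (fin 1231 5 1039)
(mv 1296 (cons (fin 1359 5 1103)
(mv 1039 (cons (fin 1103 7 1039)
(mv 978 (cons (fin 979 1 975)
(mv 1037 (cons (fin 1038 2 973)
(mv 1360 (cons (fin 1105 6 1104)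
(mv 1361 (cons (fin 1297 4 1104)
(fin 1425 4 1168)))))))))))))))))))))))))
(cons (mv 911 (cons (fin 975 7 911)
(mv 912 (cons (fin 847 7 847)
(mv 1169 (cons (fin 1105 4 912)
(fin 1233 4 976)))))))
(mv 913 (cons (fin 977 6 912)
(mv 912 (cons (fin 849 6 848)
(mv 1169 (cons (fin 1105 4 912)
(fin 1233 4 976)))))))))
(cons (mv 911 (cons (fin 975 7 911)
(mv 847 (cons (fin 912 7 847)
(mv 977 (cons (fin 913 6 912)
(mv 1232 (cons (fin 1041 6 976)
(mv 1295 (cons (fin 1231 5 1039)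
(mv 1296 (cons (fin 1359 5 1103)
(mv 1297 (cons (fin 1233 4 1040)
(fin 1361 4 1104)))))))))))))))
(cons (mv 911 (cons (fin 975 7 911)
(mv 912 (cons (fin 847 7 847)
(mv 913 (cons (fin 849 6 848)
(fin 977 6 912)))))))
(mv 911 (cons (fin 975 7 911)
(mv 977 (cons (fin 913 6 912)
(mv 1169 (cons (fin 1233 4 976)
(mv 1232 (cons (fin 1041 6 976)
(mv 1295 (cons (fin 1231 5 1039)
(mv 1296 (cons (fin 1359 5 1103)
(mv 1039 (cons (fin 1103 7 1039)
(mv 978 (cons (fin 979 1 975)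
(mv 1037 (cons (fin 1038 2 973)
(mv 1360 (cons (fin 1105 6 1104)
(mv 1361 (cons (fin 1297 4 1104)
(fin 1425 4 1168)))))))))))))))))))))))))))
(mv 1168 (cons (cons (mv 913 (cons (fin 977 6 912)
(mv 849 (cons (fin 912 6 848)
(mv 1169 (cons (fin 1233 4 976)
(mv 1231 (cons (fin 1167 5 975)
(mv 1232 (cons (fin 1295 5 1039)
(mv 1039 (cons (fin 975 7 975)
(mv 1103 (cons (fin 1296 7 1039)
(mv 1102 (cons (fin 1101 0 1101)
(mv 1041 (cons (fin 1042 1 1038)
(mv 1230 (cons (fin 1229 2 1165)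
(mv 1166 (cons (fin 1294 6 1038)
(mv 1105 (cons (fin 1165 1 1101)
(mv 1038 (cons (fin 1037 3 1037)
(fin 1106 3 1038)))))))))))))))))))))))))))
(cons (mv 913 (cons (fin 977 6 912)
(mv 849 (cons (fin 912 6 848)
(mv 1233 (cons (fin 1169 4 976)
(mv 1232 (cons (fin 1297 4 1040)
(mv 1039 (cons (fin 975 7 975)
(mv 1295 (cons (fin 1231 5 1039)
(mv 1296 (cons (fin 1103 7 1039)
(fin 1359 5 1103)))))))))))))))
(mv 1167 (cons (fin 1231 5 975)
(mv 912 (cons (fin 1103 5 911)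
(mv 1169 (cons (fin 1105 4 912)
(fin 1233 4 976)))))))))
(cons (cons (mv 913 (cons (fin 977 6 912)
(mv 849 (cons (fin 912 6 848)
(mv 1231 (cons (fin 1167 5 975)
(mv 1232 (cons (fin 1295 5 1039)
(mv 1039 (cons (fin 975 7 975)
(mv 1296 (cons (fin 1103 7 1039)
(mv 1297 (cons (fin 1233 4 1040)
(fin 1361 4 1104)))))))))))))))
(mv 913 (cons (fin 977 6 912)
(mv 849 (cons (fin 912 6 848)
(mv 1231 (cons (fin 1167 5 975)
(mv 1232 (cons (fin 1295 5 1039)
(mv 1039 (cons (fin 975 7 975)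
(mv 1296 (cons (fin 1103 7 1039)
(mv 1105 (cons (fin 1041 6 1040)
(mv 1037 (cons (fin 1038 0 1037)
(mv 1106 (cons (fin 1107 3 1039)
(mv 1360 (cons (fin 1169 6 1104)
(mv 1361 (cons (fin 1297 4 1104)
(fin 1425 4 1168))))))))))))))))))))))))
(cons (mv 913 (cons (fin 977 6 912)
(mv 912 (cons (fin 849 6 848)
(mv 1169 (cons (fin 1105 4 912)
(fin 1233 4 976)))))))
(mv 913 (cons (fin 977 6 912)
(mv 1169 (cons (fin 1233 4 976)
(mv 1231 (cons (fin 1167 5 975)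
(mv 1232 (cons (fin 1295 5 1039)
(mv 1039 (cons (fin 975 7 975)
(mv 1103 (cons (fin 1296 7 1039)
(mv 1102 (cons (fin 1101 0 1101)
(mv 1041 (cons (fin 1042 1 1038)
(mv 1230 (cons (fin 1229 2 1165)
(mv 1166 (cons (fin 1294 6 1038)
(mv 1105 (cons (fin 1165 1 1101)
(mv 1038 (cons (fin 1037 3 1037)
(fin 1106 3 1038))))))))))))))))))))))))))))))))
(cons (cons (mv 1168 (cons (cons (mv 911 (cons (fin 975 7 911)
(mv 847 (cons (fin 912 7 847)
(mv 1167 (cons (fin 1231 5 975)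
(mv 1233 (cons (fin 1169 4 976)
(mv 1232 (cons (fin 1297 4 1040)
(mv 1041 (cons (fin 977 6 976)
(mv 1105 (cons (fin 1296 6 1040)
(mv 1106 (cons (fin 1107 1 1103)
(mv 1166 (cons (fin 1103 1 1102)
(fin 1165 2 1101)))))))))))))))))))
(cons (mv 911 (cons (fin 975 7 911)
(mv 847 (cons (fin 912 7 847)
(mv 1233 (cons (fin 1169 4 976)
(mv 1232 (cons (fin 1297 4 1040)
(mv 1041 (cons (fin 977 6 976)
(mv 1295 (cons (fin 1231 5 1039)
(mv 1296 (cons (fin 1359 5 1103)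
(fin 1105 6 1040)))))))))))))))
(mv 1167 (cons (fin 1231 5 975)
(mv 912 (cons (fin 1103 5 911)
(mv 1169 (cons (fin 1105 4 912)
(fin 1233 4 976)))))))))
(cons (cons (mv 911 (cons (fin 975 7 911)
(mv 847 (cons (fin 912 7 847)
(mv 1231 (cons (fin 1167 5 975)
(mv 1232 (cons (fin 1295 5 1039)
(mv 1041 (cons (fin 977 6 976)
(mv 1296 (cons (fin 1105 6 1040)
(mv 1297 (cons (fin 1233 4 1040)
(fin 1361 4 1104)))))))))))))))
(mv 911 (cons (fin 975 7 911)
(mv 912 (cons (fin 847 7 847)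
(mv 1167 (cons (fin 1103 5 911)
(fin 1231 5 975))))))))
(cons (mv 911 (cons (fin 975 7 911)
(mv 847 (cons (fin 912 7 847)
(mv 1233 (cons (fin 1169 4 976)
(mv 1232 (cons (fin 1297 4 1040)
(mv 1041 (cons (fin 977 6 976)
(mv 1296 (cons (fin 1105 6 1040)
(mv 1103 (cons (fin 1039 7 1039)
(mv 1042 (cons (fin 1043 1 1039)
(mv 1101 (cons (fin 1102 2 1037)
(mv 1359 (cons (fin 1295 5 1103)
(mv 1360 (cons (fin 1167 7 1103)
(fin 1423 5 1167)))))))))))))))))))))))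
(mv 911 (cons (fin 975 7 911)
(mv 1167 (cons (fin 1231 5 975)
(mv 1233 (cons (fin 1169 4 976)
(mv 1232 (cons (fin 1297 4 1040)
(mv 1041 (cons (fin 977 6 976)
(mv 1105 (cons (fin 1296 6 1040)
(mv 1106 (cons (fin 1107 1 1103)
(mv 1166 (cons (fin 1103 1 1102)
(fin 1165 2 1101)))))))))))))))))))))
(cons (mv 1168 (cons (cons (mv 911 (cons (fin 975 7 911)
(mv 847 (cons (fin 912 7 847)
(mv 977 (cons (fin 913 6 912)
(mv 1167 (cons (fin 1231 5 975)
(mv 1232 (cons (fin 1041 6 976)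
(mv 1297 (cons (fin 1233 4 1040)
(mv 1296 (cons (fin 1361 4 1104)
(mv 1103 (cons (fin 1039 7 1039)
(fin 1360 7 1103)))))))))))))))))
(cons (mv 913 (cons (fin 977 6 912)
(mv 912 (cons (fin 849 6 848)
(mv 1167 (cons (fin 1103 5 911)
(fin 1231 5 975)))))))
(mv 911 (cons (fin 975 7 911)
(mv 912 (cons (fin 847 7 847)
(mv 1167 (cons (fin 1103 5 911)
(fin 1231 5 975)))))))))
(cons (mv 911 (cons (fin 975 7 911)
(mv 847 (cons (fin 912 7 847)
(mv 977 (cons (fin 913 6 912)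
(mv 1232 (cons (fin 1041 6 976)
(mv 1295 (cons (fin 1231 5 1039)
(mv 1296 (cons (fin 1359 5 1103)
(mv 1297 (cons (fin 1233 4 1040)
(fin 1361 4 1104)))))))))))))))
(cons (mv 911 (cons (fin 975 7 911)
(mv 847 (cons (fin 912 7 847)
(mv 977 (cons (fin 913 6 912)
(mv 1232 (cons (fin 1041 6 976)
(mv 1297 (cons (fin 1233 4 1040)
(mv 1296 (cons (fin 1361 4 1104)
(mv 1103 (cons (fin 1039 7 1039)
(mv 1359 (cons (fin 1295 5 1103)
(mv 1360 (cons (fin 1167 7 1103)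
(fin 1423 5 1167)))))))))))))))))))
(mv 911 (cons (fin 975 7 911)
(mv 977 (cons (fin 913 6 912)
(mv 1167 (cons (fin 1231 5 975)
(mv 1232 (cons (fin 1041 6 976)
(mv 1297 (cons (fin 1233 4 1040)
(mv 1296 (cons (fin 1361 4 1104)
(mv 1103 (cons (fin 1039 7 1039)
(fin 1360 7 1103)))))))))))))))))))
(mv 912 (cons (cons (mv 847 (cons (fin 911 7 847)
(mv 849 (cons (fin 913 6 848)
(mv 1167 (cons (fin 1103 5 911)
(mv 1168 (cons (fin 1231 5 975)
(mv 1169 (cons (fin 1105 4 912)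
(fin 1233 4 976)))))))))))
(cons (mv 847 (cons (fin 911 7 847)
(mv 1167 (cons (fin 1103 5 911)
(mv 1168 (cons (fin 1231 5 975)
(mv 1169 (cons (fin 1105 4 912)
(fin 1233 4 976)))))))))
(mv 847 (cons (fin 911 7 847)
(mv 913 (cons (fin 849 6 848)
(mv 1167 (cons (fin 1103 5 911)
(mv 1168 (cons (fin 1231 5 975)
(fin 977 6 912)))))))))))
(cons (mv 847 (cons (fin 911 7 847)
(mv 913 (cons (fin 849 6 848)
(mv 1168 (cons (fin 977 6 912)
(mv 1169 (cons (fin 1105 4 912)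
(fin 1233 4 976)))))))))
(cons (mv 849 (cons (fin 913 6 848)
(mv 1167 (cons (fin 1103 5 911)
(mv 1168 (cons (fin 1231 5 975)
(mv 1169 (cons (fin 1105 4 912)
(fin 1233 4 976)))))))))
(mv 847 (cons (fin 911 7 847)
(mv 849 (cons (fin 913 6 848)
(mv 1103 (cons (fin 1167 5 911)
(mv 1105 (cons (fin 1169 4 912)
(mv 1102 (cons (mv 1041 (cons (fin 1101 2 1037)
(fin 1042 2 1038)))
(cons (mv 1037 (cons (fin 1038 3 1037)
(mv 1101 (cons (fin 1036 3 1036)
(mv 1165 (cons (fin 1164 1 1100)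
(fin 1166 1 1101)))))))
(mv 1038 (cons (fin 1037 3 1037)
(mv 1042 (cons (fin 1041 2 1038)
(mv 1106 (cons (fin 1039 3 1038)
(fin 1043 2 1039))))))))))))))))))))))))
(cons (mv 912 (cons (cons (mv 847 (cons (fin 911 7 847)
(mv 849 (cons (fin 913 6 848)
(mv 1167 (cons (fin 1103 5 911)
(mv 1168 (cons (fin 1231 5 975)
(mv 1169 (cons (fin 1105 4 912)
(fin 1233 4 976)))))))))))
(cons (mv 849 (cons (fin 913 6 848)
(mv 1167 (cons (fin 1103 5 911)
(mv 1168 (cons (fin 1231 5 975)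
(mv 1169 (cons (fin 1105 4 912)
(fin 1233 4 976)))))))))
(mv 849 (cons (fin 913 6 848)
(mv 911 (cons (fin 847 7 847)
(mv 1168 (cons (fin 975 7 911)
(mv 1169 (cons (fin 1105 4 912)
(fin 1233 4 976)))))))))))
(cons (mv 849 (cons (fin 913 6 848)
(mv 911 (cons (fin 847 7 847)
(mv 1167 (cons (fin 1103 5 911)
(mv 1168 (cons (fin 975 7 911)
(fin 1231 5 975)))))))))
(cons (mv 847 (cons (fin 911 7 847)
(mv 1167 (cons (fin 1103 5 911)
(mv 1168 (cons (fin 1231 5 975)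
(mv 1169 (cons (fin 1105 4 912)
(fin 1233 4 976)))))))))
(mv 847 (cons (fin 911 7 847)
(mv 849 (cons (fin 913 6 848)
(mv 1103 (cons (fin 1167 5 911)
(mv 1105 (cons (fin 1169 4 912)
(mv 1102 (cons (mv 1041 (cons (fin 1101 2 1037)
(fin 1042 2 1038)))
(cons (mv 1037 (cons (fin 1038 3 1037)
(mv 1101 (cons (fin 1036 3 1036)
(mv 1165 (cons (fin 1164 1 1100)
(fin 1166 1 1101)))))))
(mv 1038 (cons (fin 1037 3 1037)
(mv 1039 (cons (fin 1106 3 1038)
(mv 1041 (cons (fin 1042 1 1038)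
(mv 973 (cons (fin 974 3 973)
(mv 1166 (cons (fin 1165 1 1101)
(mv 1230 (cons (fin 975 6 974)
(fin 1294 6 1038))))))))))))))))))))))))))))
(cons (mv 1168 (cons (cons (mv 911 (cons (fin 975 7 911)
(mv 847 (cons (fin 912 7 847)
(mv 913 (cons (fin 977 6 912)
(mv 1231 (cons (fin 1167 5 975)
(mv 1232 (cons (fin 1295 5 1039)
(mv 1233 (cons (fin 1169 4 976)
(fin 1297 4 1040)))))))))))))
(cons (mv 911 (cons (fin 975 7 911)
(mv 847 (cons (fin 912 7 847)
(mv 1231 (cons (fin 1167 5 975)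
(mv 1232 (cons (fin 1295 5 1039)
(mv 1233 (cons (fin 1169 4 976)
(fin 1297 4 1040)))))))))))
(mv 913 (cons (fin 977 6 912)
(mv 849 (cons (fin 912 6 848)
(mv 1231 (cons (fin 1167 5 975)
(mv 1232 (cons (fin 1295 5 1039)
(mv 1233 (cons (fin 1169 4 976)
(fin 1297 4 1040)))))))))))))
(cons (cons (mv 911 (cons (fin 975 7 911)
(mv 847 (cons (fin 912 7 847)
(mv 977 (cons (fin 913 6 912)
(mv 1231 (cons (fin 1167 5 975)
(mv 1232 (cons (fin 1295 5 1039)
(fin 1041 6 976)))))))))))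
(mv 911 (cons (fin 975 7 911)
(mv 847 (cons (fin 912 7 847)
(mv 977 (cons (fin 913 6 912)
(mv 1232 (cons (fin 1041 6 976)
(mv 1233 (cons (fin 1169 4 976)
(fin 1297 4 1040))))))))))))
(cons (mv 911 (cons (fin 975 7 911)
(mv 912 (cons (fin 847 7 847)
(mv 913 (cons (fin 849 6 848)
(fin 977 6 912)))))))
(mv 911 (cons (fin 975 7 911)
(mv 913 (cons (fin 977 6 912)
(mv 1231 (cons (fin 1167 5 975)
(mv 1232 (cons (fin 1295 5 1039)
(mv 1233 (cons (fin 1169 4 976)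
(fin 1297 4 1040)))))))))))))))
(mv 1168 (cons (cons (mv 911 (cons (fin 975 7 911)
(mv 847 (cons (fin 912 7 847)
(mv 913 (cons (fin 977 6 912)
(mv 1231 (cons (fin 1167 5 975)
(mv 1232 (cons (fin 1295 5 1039)
(mv 1233 (cons (fin 1169 4 976)
(fin 1297 4 1040)))))))))))))
(mv 911 (cons (fin 975 7 911)
(mv 912 (cons (fin 847 7 847)
(mv 913 (cons (fin 849 6 848)
(fin 977 6 912))))))))
(cons (mv 913 (cons (fin 977 6 912)
(mv 849 (cons (fin 912 6 848)
(mv 1231 (cons (fin 1167 5 975)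
(mv 1232 (cons (fin 1295 5 1039)
(mv 1233 (cons (fin 1169 4 976)
(fin 1297 4 1040)))))))))))
(cons (mv 911 (cons (fin 975 7 911)
(mv 847 (cons (fin 912 7 847)
(mv 1231 (cons (fin 1167 5 975)
(mv 1232 (cons (fin 1295 5 1039)
(mv 1233 (cons (fin 1169 4 976)
(fin 1297 4 1040)))))))))))
(mv 911 (cons (fin 975 7 911)
(mv 913 (cons (fin 977 6 912)
(mv 1231 (cons (fin 1167 5 975)
(mv 1232 (cons (fin 1295 5 1039)
(mv 1233 (cons (fin 1169 4 976)
(fin 1297 4 1040))))))))))))))))))))))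
(cons (mv 912 (cons (cons (mv 848 (cons (cons (mv 783 (cons (fin 847 7 783)
(mv 719 (cons (fin 784 7 719)
(mv 785 (cons (fin 849 6 784)
(mv 1103 (cons (fin 1039 5 847)
(mv 1104 (cons (fin 1167 5 911)
(mv 1105 (cons (fin 1041 4 848)
(fin 1169 4 912)))))))))))))
(cons (mv 785 (cons (fin 849 6 784)
(mv 721 (cons (fin 784 6 720)
(mv 1103 (cons (fin 1039 5 847)
(mv 1104 (cons (fin 1167 5 911)
(mv 1105 (cons (fin 1041 4 848)
(fin 1169 4 912)))))))))))
(mv 783 (cons (fin 847 7 783)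
(mv 719 (cons (fin 784 7 719)
(mv 1103 (cons (fin 1039 5 847)
(mv 1104 (cons (fin 1167 5 911)
(mv 1105 (cons (fin 1041 4 848)
(fin 1169 4 912)))))))))))))
(cons (cons (mv 783 (cons (fin 847 7 783)
(mv 719 (cons (fin 784 7 719)
(mv 849 (cons (fin 785 6 784)
(mv 1104 (cons (fin 913 6 848)
(mv 1105 (cons (fin 1041 4 848)
(fin 1169 4 912)))))))))))
(mv 783 (cons (fin 847 7 783)
(mv 719 (cons (fin 784 7 719)
(mv 849 (cons (fin 785 6 784)
(mv 1103 (cons (fin 1039 5 847)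
(mv 1104 (cons (fin 1167 5 911)
(fin 913 6 848))))))))))))
(cons (mv 783 (cons (fin 847 7 783)
(mv 785 (cons (fin 849 6 784)
(mv 1103 (cons (fin 1039 5 847)
(mv 1104 (cons (fin 1167 5 911)
(mv 1105 (cons (fin 1041 4 848)
(fin 1169 4 912)))))))))))
(mv 783 (cons (fin 847 7 783)
(mv 784 (cons (fin 719 7 719)
(mv 785 (cons (fin 721 6 720)
(fin 849 6 784)))))))))))
(cons (mv 1104 (cons (cons (mv 847 (cons (fin 911 7 847)
(mv 849 (cons (fin 913 6 848)
(mv 1103 (cons (fin 1167 5 911)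
(mv 1105 (cons (fin 1169 4 912)
(mv 1102 (cons (mv 1041 (cons (fin 1101 2 1037)
(fin 1042 2 1038)))
(cons (mv 1037 (cons (fin 1038 3 1037)
(mv 1101 (cons (fin 1036 3 1036)
(mv 1165 (cons (fin 1164 1 1100)
(fin 1166 1 1101)))))))
(mv 1038 (cons (fin 1037 3 1037)
(mv 1039 (cons (fin 1106 3 1038)
(mv 1041 (cons (fin 1042 1 1038)
(mv 973 (cons (fin 974 3 973)
(mv 977 (cons (fin 978 2 974)
(mv 1166 (cons (fin 1165 1 1101)
(mv 1230 (cons (fin 975 6 974)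
(fin 1294 6 1038))))))))))))))))))))))))))
(cons (mv 849 (cons (fin 913 6 848)
(mv 1103 (cons (fin 1167 5 911)
(mv 1105 (cons (fin 1169 4 912)
(mv 1102 (cons (mv 1041 (cons (fin 1101 2 1037)
(fin 1042 2 1038)))
(cons (mv 1037 (cons (fin 1038 3 1037)
(mv 1101 (cons (fin 1036 3 1036)
(mv 1165 (cons (fin 1164 1 1100)
(fin 1166 1 1101)))))))
(mv 1038 (cons (fin 1037 3 1037)
(mv 1039 (cons (fin 1106 3 1038)
(mv 1041 (cons (fin 1042 1 1038)
(mv 973 (cons (fin 974 3 973)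
(mv 977 (cons (fin 978 2 974)
(mv 1166 (cons (fin 1165 1 1101)
(mv 1230 (cons (fin 975 6 974)
(fin 1294 6 1038))))))))))))))))))))))))
(mv 847 (cons (fin 911 7 847)
(mv 1103 (cons (fin 1167 5 911)
(mv 1105 (cons (fin 1169 4 912)
(mv 1102 (cons (mv 1041 (cons (fin 1101 2 1037)
(fin 1042 2 1038)))
(cons (mv 1037 (cons (fin 1038 3 1037)
(mv 1101 (cons (fin 1036 3 1036)
(mv 1165 (cons (fin 1164 1 1100)
(fin 1166 1 1101)))))))
(mv 1038 (cons (fin 1037 3 1037)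
(mv 1039 (cons (fin 1106 3 1038)
(mv 1041 (cons (fin 1042 1 1038)
(mv 973 (cons (fin 974 3 973)
(mv 977 (cons (fin 978 2 974)
(mv 1166 (cons (fin 1165 1 1101)
(mv 1230 (cons (fin 975 6 974)
(fin 1294 6 1038))))))))))))))))))))))))))
(cons (mv 911 (cons (fin 847 7 847)
(mv 913 (cons (fin 849 6 848)
(mv 1105 (cons (fin 1169 4 912)
(mv 914 (cons (mv 975 (cons (fin 974 1 910)
(fin 915 1 911)))
(mv 850 (cons (fin 851 2 847)
(mv 977 (cons (fin 1041 6 849)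
(mv 910 (cons (fin 909 0 909)
(fin 978 0 910)))))))))))))))
(cons (mv 911 (cons (fin 847 7 847)
(mv 913 (cons (fin 849 6 848)
(mv 1103 (cons (fin 1167 5 911)
(mv 910 (cons (cons (mv 977 (cons (fin 909 0 909)
(fin 978 0 910)))
(mv 845 (cons (fin 846 3 845)
(mv 844 (cons (fin 909 3 844)
(mv 974 (cons (fin 973 1 909)
(mv 914 (cons (fin 975 1 910)
(mv 851 (cons (fin 850 2 847)
(mv 915 (cons (fin 852 2 848)
(mv 979 (cons (fin 978 0 911)
(fin 980 0 912))))))))))))))))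
(cons (mv 845 (cons (fin 846 3 845)
(mv 973 (cons (fin 974 1 909)
(mv 978 (cons (fin 977 0 910)
(mv 914 (cons (fin 979 0 911)
(mv 851 (cons (fin 850 2 847)
(mv 915 (cons (fin 975 1 911)
(fin 852 2 848)))))))))))))
(mv 845 (cons (fin 846 3 845)
(mv 909 (cons (fin 844 3 844)
(fin 977 0 909))))))))))))))
(mv 847 (cons (fin 911 7 847)
(mv 849 (cons (fin 913 6 848)
(mv 1103 (cons (fin 1167 5 911)
(mv 1105 (cons (fin 1169 4 912)
(mv 1102 (cons (mv 1041 (cons (fin 1101 2 1037)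
(fin 1042 2 1038)))
(cons (mv 1037 (cons (fin 1038 3 1037)
(mv 1101 (cons (fin 1036 3 1036)
(mv 1165 (cons (fin 1164 1 1100)
(fin 1166 1 1101)))))))
(mv 1038 (cons (fin 1037 3 1037)
(mv 1042 (cons (fin 1041 2 1038)
(mv 1106 (cons (fin 1039 3 1038)
(fin 1043 2 1039))))))))))))))))))))))
(mv 848 (cons (cons (mv 783 (cons (fin 847 7 783)
(mv 784 (cons (fin 719 7 719)
(mv 785 (cons (fin 721 6 720)
(fin 849 6 784)))))))
(mv 785 (cons (fin 849 6 784)
(mv 784 (cons (fin 721 6 720)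
(mv 1039 (cons (fin 975 5 783)
(fin 1103 5 847))))))))
(cons (mv 783 (cons (fin 847 7 783)
(mv 784 (cons (fin 719 7 719)
(mv 1039 (cons (fin 975 5 783)
(fin 1103 5 847)))))))
(mv 783 (cons (fin 847 7 783)
(mv 785 (cons (fin 849 6 784)
(mv 1039 (cons (fin 1103 5 847)
(mv 1041 (cons (fin 1105 4 848)
(mv 1038 (cons (mv 977 (cons (fin 1037 2 973)
(fin 978 2 974)))
(cons (mv 973 (cons (fin 974 3 973)
(mv 1037 (cons (fin 972 3 972)
(mv 1101 (cons (fin 1100 1 1036)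
(fin 1102 1 1037)))))))
(mv 973 (cons (fin 974 3 973)
(mv 978 (cons (fin 977 2 974)
(mv 1042 (cons (fin 979 2 975)
(mv 1043 (cons (fin 975 3 975)
(mv 1107 (cons (fin 1106 0 1039)
(fin 1108 0 1040)))))))))))))))))))))))))))
(cons (cons (mv 848 (cons (cons (mv 785 (cons (fin 849 6 784)
(mv 721 (cons (fin 784 6 720)
(mv 1103 (cons (fin 1039 5 847)
(mv 1104 (cons (fin 1167 5 911)
(mv 1105 (cons (fin 1041 4 848)
(fin 1169 4 912)))))))))))
(mv 785 (cons (fin 849 6 784)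
(mv 784 (cons (fin 721 6 720)
(mv 1039 (cons (fin 975 5 783)
(fin 1103 5 847))))))))
(cons (mv 785 (cons (fin 849 6 784)
(mv 784 (cons (fin 721 6 720)
(mv 1041 (cons (fin 977 4 784)
(fin 1105 4 848)))))))
(cons (mv 1039 (cons (fin 1103 5 847)
(mv 784 (cons (fin 975 5 783)
(mv 1041 (cons (fin 977 4 784)
(fin 1105 4 848)))))))
(mv 785 (cons (fin 849 6 784)
(mv 1103 (cons (fin 1039 5 847)
(mv 1104 (cons (fin 1167 5 911)
(mv 1105 (cons (fin 1041 4 848)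
(fin 1169 4 912)))))))))))))
(mv 848 (cons (cons (mv 783 (cons (fin 847 7 783)
(mv 719 (cons (fin 784 7 719)
(mv 1103 (cons (fin 1039 5 847)
(mv 1104 (cons (fin 1167 5 911)
(mv 1105 (cons (fin 1041 4 848)
(fin 1169 4 912)))))))))))
(mv 783 (cons (fin 847 7 783)
(mv 784 (cons (fin 719 7 719)
(mv 1041 (cons (fin 977 4 784)
(fin 1105 4 848))))))))
(cons (mv 783 (cons (fin 847 7 783)
(mv 784 (cons (fin 719 7 719)
(mv 1039 (cons (fin 975 5 783)
(fin 1103 5 847)))))))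
(cons (mv 1039 (cons (fin 1103 5 847)
(mv 784 (cons (fin 975 5 783)
(mv 1041 (cons (fin 977 4 784)
(fin 1105 4 848)))))))
(mv 783 (cons (fin 847 7 783)
(mv 1103 (cons (fin 1039 5 847)
(mv 1104 (cons (fin 1167 5 911)
(mv 1105 (cons (fin 1041 4 848)
(fin 1169 4 912))))))))))))))
(cons (mv 848 (cons (cons (mv 783 (cons (fin 847 7 783)
(mv 719 (cons (fin 784 7 719)
(mv 849 (cons (fin 785 6 784)
(mv 1104 (cons (fin 913 6 848)
(mv 1105 (cons (fin 1041 4 848)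
(fin 1169 4 912)))))))))))
(mv 785 (cons (fin 849 6 784)
(mv 784 (cons (fin 721 6 720)
(mv 1041 (cons (fin 977 4 784)
(fin 1105 4 848))))))))
(cons (mv 783 (cons (fin 847 7 783)
(mv 784 (cons (fin 719 7 719)
(mv 1041 (cons (fin 977 4 784)
(fin 1105 4 848)))))))
(cons (mv 783 (cons (fin 847 7 783)
(mv 784 (cons (fin 719 7 719)
(mv 785 (cons (fin 721 6 720)
(fin 849 6 784)))))))
(mv 783 (cons (fin 847 7 783)
(mv 849 (cons (fin 785 6 784)
(mv 1104 (cons (fin 913 6 848)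
(mv 1105 (cons (fin 1041 4 848)
(fin 1169 4 912)))))))))))))
(mv 848 (cons (cons (mv 783 (cons (fin 847 7 783)
(mv 719 (cons (fin 784 7 719)
(mv 849 (cons (fin 785 6 784)
(mv 1103 (cons (fin 1039 5 847)
(mv 1104 (cons (fin 1167 5 911)
(fin 913 6 848)))))))))))
(mv 785 (cons (fin 849 6 784)
(mv 784 (cons (fin 721 6 720)
(mv 1039 (cons (fin 975 5 783)
(fin 1103 5 847))))))))
(cons (mv 783 (cons (fin 847 7 783)
(mv 784 (cons (fin 719 7 719)
(mv 1039 (cons (fin 975 5 783)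
(fin 1103 5 847)))))))
(cons (mv 783 (cons (fin 847 7 783)
(mv 784 (cons (fin 719 7 719)
(mv 785 (cons (fin 721 6 720)
(fin 849 6 784)))))))
(mv 783 (cons (fin 847 7 783)
(mv 849 (cons (fin 785 6 784)
(mv 1103 (cons (fin 1039 5 847)
(mv 1104 (cons (fin 1167 5 911)
(fin 913 6 848)))))))))))))))))
(cons (mv 912 (cons (cons (mv 848 (cons (cons (cons (mv 783 (cons (fin 847 7 783)
(mv 719 (cons (fin 784 7 719)
(mv 785 (cons (fin 849 6 784)
(mv 1103 (cons (fin 1039 5 847)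
(mv 1104 (cons (fin 1167 5 911)
(mv 1105 (cons (fin 1041 4 848)
(fin 1169 4 912)))))))))))))
(mv 783 (cons (fin 847 7 783)
(mv 719 (cons (fin 784 7 719)
(mv 849 (cons (fin 785 6 784)
(mv 1039 (cons (fin 1103 5 847)
(mv 1104 (cons (fin 913 6 848)
(mv 1169 (cons (fin 1105 4 912)
(mv 1168 (cons (fin 1233 4 976)
(mv 1231 (cons (fin 1167 5 975)
(mv 1232 (cons (fin 975 7 975)
(fin 1295 5 1039))))))))))))))))))))
(cons (mv 783 (cons (fin 847 7 783)
(mv 719 (cons (fin 784 7 719)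
(mv 849 (cons (fin 785 6 784)
(mv 1041 (cons (fin 1105 4 848)
(mv 1104 (cons (fin 913 6 848)
(mv 1167 (cons (fin 1103 5 911)
(mv 1168 (cons (fin 1231 5 975)
(mv 1232 (cons (fin 977 6 976)
(mv 1233 (cons (fin 1169 4 976)
(fin 1297 4 1040)))))))))))))))))))
(mv 783 (cons (fin 847 7 783)
(mv 719 (cons (fin 784 7 719)
(mv 1103 (cons (fin 1039 5 847)
(mv 1104 (cons (fin 1167 5 911)
(mv 1105 (cons (fin 1041 4 848)
(fin 1169 4 912)))))))))))))
(cons (cons (mv 783 (cons (fin 847 7 783)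
(mv 719 (cons (fin 784 7 719)
(mv 849 (cons (fin 785 6 784)
(mv 1103 (cons (fin 1039 5 847)
(mv 1104 (cons (fin 1167 5 911)
(fin 913 6 848)))))))))))
(mv 783 (cons (fin 847 7 783)
(mv 719 (cons (fin 784 7 719)
(mv 849 (cons (fin 785 6 784)
(mv 1104 (cons (fin 913 6 848)
(mv 1105 (cons (fin 1041 4 848)
(fin 1169 4 912))))))))))))
(cons (mv 785 (cons (fin 849 6 784)
(mv 721 (cons (fin 784 6 720)
(mv 1103 (cons (fin 1039 5 847)
(mv 1104 (cons (fin 1167 5 911)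
(mv 1105 (cons (fin 1041 4 848)
(fin 1169 4 912)))))))))))
(cons (mv 783 (cons (fin 847 7 783)
(mv 785 (cons (fin 849 6 784)
(mv 1103 (cons (fin 1039 5 847)
(mv 1104 (cons (fin 1167 5 911)
(mv 1105 (cons (fin 1041 4 848)
(fin 1169 4 912)))))))))))
(mv 783 (cons (fin 847 7 783)
(mv 784 (cons (fin 719 7 719)
(mv 785 (cons (fin 721 6 720)
(fin 849 6 784))))))))))))
(cons (mv 1104 (cons (cons (mv 849 (cons (fin 913 6 848)
(mv 1167 (cons (fin 1103 5 911)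
(mv 1168 (cons (fin 1231 5 975)
(mv 1169 (cons (fin 1105 4 912)
(fin 1233 4 976)))))))))
(mv 1167 (cons (fin 1103 5 911)
(mv 1168 (cons (fin 1231 5 975)
(mv 1169 (cons (fin 1105 4 912)
(fin 1233 4 976))))))))
(cons (mv 913 (cons (fin 849 6 848)
(mv 1168 (cons (fin 977 6 912)
(mv 1169 (cons (fin 1105 4 912)
(fin 1233 4 976)))))))
(cons (mv 913 (cons (fin 849 6 848)
(mv 1167 (cons (fin 1103 5 911)
(mv 1168 (cons (fin 1231 5 975)
(fin 977 6 912)))))))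
(mv 849 (cons (fin 913 6 848)
(mv 1103 (cons (fin 1167 5 911)
(mv 1105 (cons (fin 1169 4 912)
(mv 1102 (cons (mv 1041 (cons (fin 1101 2 1037)
(fin 1042 2 1038)))
(cons (mv 1037 (cons (fin 1038 3 1037)
(mv 1101 (cons (fin 1036 3 1036)
(mv 1165 (cons (fin 1164 1 1100)
(fin 1166 1 1101)))))))
(mv 1038 (cons (fin 1037 3 1037)
(mv 1039 (cons (fin 1106 3 1038)
(mv 1041 (cons (fin 1042 1 1038)
(mv 973 (cons (fin 974 3 973)
(mv 977 (cons (fin 978 2 974)
(mv 1166 (cons (fin 1165 1 1101)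
(mv 1230 (cons (fin 975 6 974)
(fin 1294 6 1038))))))))))))))))))))))))))))
(mv 848 (cons (cons (mv 783 (cons (fin 847 7 783)
(mv 784 (cons (fin 719 7 719)
(mv 785 (cons (fin 721 6 720)
(fin 849 6 784)))))))
(mv 783 (cons (fin 847 7 783)
(mv 784 (cons (fin 719 7 719)
(mv 1039 (cons (fin 975 5 783)
(fin 1103 5 847))))))))
(cons (mv 785 (cons (fin 849 6 784)
(mv 784 (cons (fin 721 6 720)
(mv 1039 (cons (fin 975 5 783)
(fin 1103 5 847)))))))
(mv 783 (cons (fin 847 7 783)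
(mv 785 (cons (fin 849 6 784)
(mv 1039 (cons (fin 1103 5 847)
(mv 1041 (cons (fin 1105 4 848)
(mv 1038 (cons (mv 977 (cons (fin 1037 2 973)
(fin 978 2 974)))
(cons (mv 973 (cons (fin 974 3 973)
(mv 1037 (cons (fin 972 3 972)
(mv 1101 (cons (fin 1100 1 1036)
(fin 1102 1 1037)))))))
(mv 973 (cons (fin 974 3 973)
(mv 978 (cons (fin 977 2 974)
(mv 1042 (cons (fin 979 2 975)
(mv 1043 (cons (fin 975 3 975)
(mv 1107 (cons (fin 1106 0 1039)
(fin 1108 0 1040)))))))))))))))))))))))))))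
(cons (mv 848 (cons (cons (mv 783 (cons (fin 847 7 783)
(mv 719 (cons (fin 784 7 719)
(mv 849 (cons (fin 785 6 784)
(mv 1103 (cons (fin 1039 5 847)
(mv 1104 (cons (fin 1167 5 911)
(fin 913 6 848)))))))))))
(mv 783 (cons (fin 847 7 783)
(mv 784 (cons (fin 719 7 719)
(mv 785 (cons (fin 721 6 720)
(fin 849 6 784))))))))
(cons (mv 783 (cons (fin 847 7 783)
(mv 784 (cons (fin 719 7 719)
(mv 1039 (cons (fin 975 5 783)
(fin 1103 5 847)))))))
(cons (mv 785 (cons (fin 849 6 784)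
(mv 784 (cons (fin 721 6 720)
(mv 1039 (cons (fin 975 5 783)
(fin 1103 5 847)))))))
(mv 783 (cons (fin 847 7 783)
(mv 849 (cons (fin 785 6 784)
(mv 1103 (cons (fin 1039 5 847)
(mv 1104 (cons (fin 1167 5 911)
(fin 913 6 848)))))))))))))
(cons (mv 848 (cons (cons (mv 783 (cons (fin 847 7 783)
(mv 719 (cons (fin 784 7 719)
(mv 849 (cons (fin 785 6 784)
(mv 1104 (cons (fin 913 6 848)
(mv 1105 (cons (fin 1041 4 848)
(fin 1169 4 912)))))))))))
(mv 783 (cons (fin 847 7 783)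
(mv 784 (cons (fin 719 7 719)
(mv 785 (cons (fin 721 6 720)
(fin 849 6 784))))))))
(cons (mv 783 (cons (fin 847 7 783)
(mv 784 (cons (fin 719 7 719)
(mv 1041 (cons (fin 977 4 784)
(fin 1105 4 848)))))))
(cons (mv 785 (cons (fin 849 6 784)
(mv 784 (cons (fin 721 6 720)
(mv 1041 (cons (fin 977 4 784)
(fin 1105 4 848)))))))
(mv 783 (cons (fin 847 7 783)
(mv 849 (cons (fin 785 6 784)
(mv 1104 (cons (fin 913 6 848)
(mv 1105 (cons (fin 1041 4 848)
(fin 1169 4 912)))))))))))))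
(mv 848 (cons (cons (mv 783 (cons (fin 847 7 783)
(mv 719 (cons (fin 784 7 719)
(mv 1103 (cons (fin 1039 5 847)
(mv 1104 (cons (fin 1167 5 911)
(mv 1105 (cons (fin 1041 4 848)
(fin 1169 4 912)))))))))))
(mv 783 (cons (fin 847 7 783)
(mv 784 (cons (fin 719 7 719)
(mv 1039 (cons (fin 975 5 783)
(fin 1103 5 847))))))))
(cons (mv 783 (cons (fin 847 7 783)
(mv 784 (cons (fin 719 7 719)
(mv 1041 (cons (fin 977 4 784)
(fin 1105 4 848)))))))
(cons (mv 1039 (cons (fin 1103 5 847)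
(mv 784 (cons (fin 975 5 783)
(mv 1041 (cons (fin 977 4 784)
(fin 1105 4 848)))))))
(mv 783 (cons (fin 847 7 783)
(mv 1103 (cons (fin 1039 5 847)
(mv 1104 (cons (fin 1167 5 911)
(mv 1105 (cons (fin 1041 4 848)
(fin 1169 4 912)))))))))))))))))
(mv 912 (cons (cons (mv 848 (cons (cons (mv 783 (cons (fin 847 7 783)
(mv 719 (cons (fin 784 7 719)
(mv 785 (cons (fin 849 6 784)
(mv 1103 (cons (fin 1039 5 847)
(mv 1104 (cons (fin 1167 5 911)
(mv 1105 (cons (fin 1041 4 848)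
(fin 1169 4 912)))))))))))))
(mv 783 (cons (fin 847 7 783)
(mv 784 (cons (fin 719 7 719)
(mv 785 (cons (fin 721 6 720)
(fin 849 6 784))))))))
(cons (mv 785 (cons (fin 849 6 784)
(mv 721 (cons (fin 784 6 720)
(mv 1103 (cons (fin 1039 5 847)
(mv 1104 (cons (fin 1167 5 911)
(mv 1105 (cons (fin 1041 4 848)
(fin 1169 4 912)))))))))))
(cons (mv 783 (cons (fin 847 7 783)
(mv 719 (cons (fin 784 7 719)
(mv 1103 (cons (fin 1039 5 847)
(mv 1104 (cons (fin 1167 5 911)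
(mv 1105 (cons (fin 1041 4 848)
(fin 1169 4 912)))))))))))
(mv 783 (cons (fin 847 7 783)
(mv 785 (cons (fin 849 6 784)
(mv 1103 (cons (fin 1039 5 847)
(mv 1104 (cons (fin 1167 5 911)
(mv 1105 (cons (fin 1041 4 848)
(fin 1169 4 912)))))))))))))))
(cons (mv 1104 (cons (cons (mv 847 (cons (fin 911 7 847)
(mv 1167 (cons (fin 1103 5 911)
(mv 1168 (cons (fin 1231 5 975)
(mv 1169 (cons (fin 1105 4 912)
(fin 1233 4 976)))))))))
(mv 1167 (cons (fin 1103 5 911)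
(mv 1168 (cons (fin 1231 5 975)
(mv 1169 (cons (fin 1105 4 912)
(fin 1233 4 976))))))))
(cons (mv 911 (cons (fin 847 7 847)
(mv 1168 (cons (fin 975 7 911)
(mv 1169 (cons (fin 1105 4 912)
(fin 1233 4 976)))))))
(cons (mv 911 (cons (fin 847 7 847)
(mv 1167 (cons (fin 1103 5 911)
(mv 1168 (cons (fin 975 7 911)
(fin 1231 5 975)))))))
(mv 847 (cons (fin 911 7 847)
(mv 1103 (cons (fin 1167 5 911)
(mv 1105 (cons (fin 1169 4 912)
(mv 1102 (cons (mv 1041 (cons (fin 1101 2 1037)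
(fin 1042 2 1038)))
(cons (mv 1037 (cons (fin 1038 3 1037)
(mv 1101 (cons (fin 1036 3 1036)
(mv 1165 (cons (fin 1164 1 1100)
(fin 1166 1 1101)))))))
(mv 1038 (cons (fin 1037 3 1037)
(mv 1039 (cons (fin 1106 3 1038)
(mv 1041 (cons (fin 1042 1 1038)
(mv 973 (cons (fin 974 3 973)
(mv 977 (cons (fin 978 2 974)
(mv 1166 (cons (fin 1165 1 1101)
(mv 1230 (cons (fin 975 6 974)
(fin 1294 6 1038))))))))))))))))))))))))))))
(mv 848 (cons (cons (mv 783 (cons (fin 847 7 783)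
(mv 784 (cons (fin 719 7 719)
(mv 785 (cons (fin 721 6 720)
(fin 849 6 784)))))))
(mv 785 (cons (fin 849 6 784)
(mv 784 (cons (fin 721 6 720)
(mv 1039 (cons (fin 975 5 783)
(fin 1103 5 847))))))))
(cons (mv 783 (cons (fin 847 7 783)
(mv 784 (cons (fin 719 7 719)
(mv 1039 (cons (fin 975 5 783)
(fin 1103 5 847)))))))
(mv 783 (cons (fin 847 7 783)
(mv 785 (cons (fin 849 6 784)
(mv 1039 (cons (fin 1103 5 847)
(mv 1041 (cons (fin 1105 4 848)
(mv 1038 (cons (mv 977 (cons (fin 1037 2 973)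
(fin 978 2 974)))
(cons (mv 973 (cons (fin 974 3 973)
(mv 1037 (cons (fin 972 3 972)
(mv 1101 (cons (fin 1100 1 1036)
(fin 1102 1 1037)))))))
(mv 973 (cons (fin 974 3 973)
(mv 978 (cons (fin 977 2 974)
(mv 1042 (cons (fin 979 2 975)
(mv 1043 (cons (fin 975 3 975)
(mv 1107 (cons (fin 1106 0 1039)
(fin 1108 0 1040)))))))))))))))))))))))))))
(cons (mv 848 (cons (cons (mv 783 (cons (fin 847 7 783)
(mv 784 (cons (fin 719 7 719)
(mv 785 (cons (fin 721 6 720)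
(fin 849 6 784)))))))
(mv 785 (cons (fin 849 6 784)
(mv 784 (cons (fin 721 6 720)
(mv 1041 (cons (fin 977 4 784)
(fin 1105 4 848))))))))
(cons (mv 783 (cons (fin 847 7 783)
(mv 784 (cons (fin 719 7 719)
(mv 1041 (cons (fin 977 4 784)
(fin 1105 4 848)))))))
(mv 785 (cons (fin 849 6 784)
(mv 847 (cons (fin 783 7 783)
(mv 1104 (cons (fin 911 7 847)
(mv 1105 (cons (fin 1041 4 848)
(fin 1169 4 912))))))))))))
(cons (mv 848 (cons (cons (mv 783 (cons (fin 847 7 783)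
(mv 784 (cons (fin 719 7 719)
(mv 785 (cons (fin 721 6 720)
(fin 849 6 784)))))))
(mv 785 (cons (fin 849 6 784)
(mv 784 (cons (fin 721 6 720)
(mv 1039 (cons (fin 975 5 783)
(fin 1103 5 847))))))))
(cons (mv 783 (cons (fin 847 7 783)
(mv 784 (cons (fin 719 7 719)
(mv 1039 (cons (fin 975 5 783)
(fin 1103 5 847)))))))
(mv 785 (cons (fin 849 6 784)
(mv 847 (cons (fin 783 7 783)
(mv 1103 (cons (fin 1039 5 847)
(mv 1104 (cons (fin 911 7 847)
(fin 1167 5 911))))))))))))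
(mv 848 (cons (cons (mv 785 (cons (fin 849 6 784)
(mv 721 (cons (fin 784 6 720)
(mv 1103 (cons (fin 1039 5 847)
(mv 1104 (cons (fin 1167 5 911)
(mv 1105 (cons (fin 1041 4 848)
(fin 1169 4 912)))))))))))
(mv 785 (cons (fin 849 6 784)
(mv 784 (cons (fin 721 6 720)
(mv 1041 (cons (fin 977 4 784)
(fin 1105 4 848))))))))
(cons (mv 785 (cons (fin 849 6 784)
(mv 784 (cons (fin 721 6 720)
(mv 1039 (cons (fin 975 5 783)
(fin 1103 5 847)))))))
(cons (mv 1039 (cons (fin 1103 5 847)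
(mv 784 (cons (fin 975 5 783)
(mv 1041 (cons (fin 977 4 784)
(fin 1105 4 848)))))))
(mv 785 (cons (fin 849 6 784)
(mv 1103 (cons (fin 1039 5 847)
(mv 1104 (cons (fin 1167 5 911)
(mv 1105 (cons (fin 1041 4 848)
(fin 1169 4 912)))))))))))))))))))))
(cons (cons (cons (mv 1104 (cons (cons (cons (mv 1168 (cons (cons (mv 911 (cons (fin 975 7 911)
(mv 847 (cons (fin 912 7 847)
(mv 913 (cons (fin 977 6 912)
(mv 1231 (cons (fin 1167 5 975)
(mv 1232 (cons (fin 1295 5 1039)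
(mv 1233 (cons (fin 1169 4 976)
(fin 1297 4 1040)))))))))))))
(cons (mv 911 (cons (fin 975 7 911)
(mv 847 (cons (fin 912 7 847)
(mv 1231 (cons (fin 1167 5 975)
(mv 1232 (cons (fin 1295 5 1039)
(mv 1233 (cons (fin 1169 4 976)
(fin 1297 4 1040)))))))))))
(mv 913 (cons (fin 977 6 912)
(mv 849 (cons (fin 912 6 848)
(mv 1231 (cons (fin 1167 5 975)
(mv 1232 (cons (fin 1295 5 1039)
(mv 1233 (cons (fin 1169 4 976)
(fin 1297 4 1040)))))))))))))
(cons (cons (mv 911 (cons (fin 975 7 911)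
(mv 847 (cons (fin 912 7 847)
(mv 977 (cons (fin 913 6 912)
(mv 1231 (cons (fin 1167 5 975)
(mv 1232 (cons (fin 1295 5 1039)
(fin 1041 6 976)))))))))))
(mv 911 (cons (fin 975 7 911)
(mv 847 (cons (fin 912 7 847)
(mv 977 (cons (fin 913 6 912)
(mv 1232 (cons (fin 1041 6 976)
(mv 1233 (cons (fin 1169 4 976)
(fin 1297 4 1040))))))))))))
(cons (mv 911 (cons (fin 975 7 911)
(mv 912 (cons (fin 847 7 847)
(mv 913 (cons (fin 849 6 848)
(fin 977 6 912)))))))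
(mv 911 (cons (fin 975 7 911)
(mv 913 (cons (fin 977 6 912)
(mv 1231 (cons (fin 1167 5 975)
(mv 1232 (cons (fin 1295 5 1039)
(mv 1233 (cons (fin 1169 4 976)
(fin 1297 4 1040)))))))))))))))
(mv 912 (cons (cons (mv 847 (cons (fin 911 7 847)
(mv 848 (cons (fin 783 7 783)
(mv 849 (cons (fin 785 6 784)
(fin 913 6 848)))))))
(mv 849 (cons (fin 913 6 848)
(mv 848 (cons (fin 785 6 784)
(mv 1105 (cons (fin 1041 4 848)
(fin 1169 4 912))))))))
(cons (mv 847 (cons (fin 911 7 847)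
(mv 848 (cons (fin 783 7 783)
(mv 1105 (cons (fin 1041 4 848)
(fin 1169 4 912)))))))
(mv 911 (cons (fin 847 7 847)
(mv 913 (cons (fin 849 6 848)
(mv 1105 (cons (fin 1169 4 912)
(mv 914 (cons (mv 975 (cons (fin 974 1 910)
(fin 915 1 911)))
(mv 850 (cons (fin 851 2 847)
(mv 977 (cons (fin 1041 6 849)
(mv 910 (cons (fin 909 0 909)
(fin 978 0 910)))))))))))))))))))
(cons (mv 1168 (cons (cons (mv 911 (cons (fin 975 7 911)
(mv 913 (cons (fin 977 6 912)
(mv 1231 (cons (fin 1167 5 975)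
(mv 1232 (cons (fin 1295 5 1039)
(mv 1233 (cons (fin 1169 4 976)
(fin 1297 4 1040)))))))))))
(cons (mv 911 (cons (fin 975 7 911)
(mv 1231 (cons (fin 1167 5 975)
(mv 1232 (cons (fin 1295 5 1039)
(mv 1233 (cons (fin 1169 4 976)
(fin 1297 4 1040)))))))))
(mv 913 (cons (fin 977 6 912)
(mv 1231 (cons (fin 1167 5 975)
(mv 1232 (cons (fin 1295 5 1039)
(mv 1233 (cons (fin 1169 4 976)
(fin 1297 4 1040)))))))))))
(cons (mv 911 (cons (fin 975 7 911)
(mv 977 (cons (fin 913 6 912)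
(mv 1231 (cons (fin 1167 5 975)
(mv 1232 (cons (fin 1295 5 1039)
(fin 1041 6 976)))))))))
(cons (mv 911 (cons (fin 975 7 911)
(mv 977 (cons (fin 913 6 912)
(mv 1232 (cons (fin 1041 6 976)
(mv 1233 (cons (fin 1169 4 976)
(fin 1297 4 1040)))))))))
(mv 913 (cons (fin 977 6 912)
(mv 975 (cons (fin 911 7 911)
(mv 1167 (cons (fin 1231 5 975)
(mv 1169 (cons (fin 1233 4 976)
(mv 1166 (cons (mv 1105 (cons (fin 1165 2 1101)
(fin 1106 2 1102)))
(cons (mv 1101 (cons (fin 1102 3 1101)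
(mv 1165 (cons (fin 1100 3 1100)
(mv 1229 (cons (fin 1228 1 1164)
(fin 1230 1 1165)))))))
(mv 1102 (cons (fin 1101 3 1101)
(mv 1105 (cons (fin 1106 2 1102)
(mv 1230 (cons (fin 1229 1 1165)
(mv 1038 (cons (fin 1039 6 974)
(mv 973 (cons (fin 1037 7 973)
(mv 974 (cons (fin 1041 0 973)
(fin 909 7 909))))))))))))))))))))))))))))
(mv 1168 (cons (cons (mv 911 (cons (fin 975 7 911)
(mv 847 (cons (fin 912 7 847)
(mv 1231 (cons (fin 1167 5 975)
(mv 1232 (cons (fin 1295 5 1039)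
(mv 1233 (cons (fin 1169 4 976)
(fin 1297 4 1040)))))))))))
(mv 1167 (cons (fin 1231 5 975)
(mv 1169 (cons (fin 1233 4 976)
(mv 1105 (cons (fin 912 4 912)
(mv 1106 (cons (fin 1107 1 1103)
(fin 1166 2 1102))))))))))
(cons (mv 911 (cons (fin 975 7 911)
(mv 847 (cons (fin 912 7 847)
(mv 1231 (cons (fin 1167 5 975)
(mv 1232 (cons (fin 1295 5 1039)
(mv 1041 (cons (fin 977 6 976)
(mv 1296 (cons (fin 1105 6 1040)
(mv 1297 (cons (fin 1233 4 1040)
(fin 1361 4 1104)))))))))))))))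
(cons (mv 911 (cons (fin 975 7 911)
(mv 912 (cons (fin 847 7 847)
(mv 1105 (cons (fin 1169 4 912)
(mv 1041 (cons (fin 848 4 848)
(mv 1232 (cons (fin 977 6 976)
(fin 1296 6 1040)))))))))))
(mv 911 (cons (fin 975 7 911)
(mv 1231 (cons (fin 1167 5 975)
(mv 1232 (cons (fin 1295 5 1039)
(mv 1233 (cons (fin 1169 4 976)
(fin 1297 4 1040)))))))))))))))
(cons (cons (mv 1168 (cons (cons (mv 913 (cons (fin 977 6 912)
(mv 849 (cons (fin 912 6 848)
(mv 1231 (cons (fin 1167 5 975)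
(mv 1232 (cons (fin 1295 5 1039)
(mv 1233 (cons (fin 1169 4 976)
(fin 1297 4 1040)))))))))))
(mv 1167 (cons (fin 1231 5 975)
(mv 1169 (cons (fin 1233 4 976)
(mv 1105 (cons (fin 912 4 912)
(mv 1106 (cons (fin 1107 1 1103)
(fin 1166 2 1102))))))))))
(cons (mv 977 (cons (fin 913 6 912)
(mv 1231 (cons (fin 1167 5 975)
(mv 1232 (cons (fin 1295 5 1039)
(fin 1041 6 976)))))))
(mv 913 (cons (fin 977 6 912)
(mv 912 (cons (fin 849 6 848)
(mv 1169 (cons (fin 1105 4 912)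
(fin 1233 4 976))))))))))
(mv 1168 (cons (cons (mv 911 (cons (fin 975 7 911)
(mv 847 (cons (fin 912 7 847)
(mv 977 (cons (fin 913 6 912)
(mv 1231 (cons (fin 1167 5 975)
(mv 1232 (cons (fin 1295 5 1039)
(fin 1041 6 976)))))))))))
(mv 975 (cons (fin 911 7 911)
(mv 1231 (cons (fin 1167 5 975)
(mv 1232 (cons (fin 1039 7 975)
(fin 1295 5 1039))))))))
(cons (mv 977 (cons (fin 913 6 912)
(mv 1231 (cons (fin 1167 5 975)
(mv 1232 (cons (fin 1295 5 1039)
(fin 1041 6 976)))))))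
(mv 911 (cons (fin 975 7 911)
(mv 912 (cons (fin 847 7 847)
(mv 913 (cons (fin 849 6 848)
(fin 977 6 912)))))))))))
(cons (mv 912 (cons (cons (mv 847 (cons (fin 911 7 847)
(mv 848 (cons (fin 783 7 783)
(mv 849 (cons (fin 785 6 784)
(fin 913 6 848)))))))
(mv 849 (cons (fin 913 6 848)
(mv 848 (cons (fin 785 6 784)
(mv 1105 (cons (fin 1041 4 848)
(fin 1169 4 912))))))))
(cons (mv 847 (cons (fin 911 7 847)
(mv 848 (cons (fin 783 7 783)
(mv 1105 (cons (fin 1041 4 848)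
(fin 1169 4 912)))))))
(mv 849 (cons (fin 913 6 848)
(mv 911 (cons (fin 847 7 847)
(mv 1105 (cons (fin 1169 4 912)
(mv 1168 (cons (fin 975 7 911)
(mv 1231 (cons (fin 1167 5 975)
(mv 1232 (cons (fin 1295 5 1039)
(mv 1296 (cons (fin 1041 6 1040)
(mv 1297 (cons (fin 1233 4 1040)
(fin 1361 4 1104))))))))))))))))))))
(mv 1168 (cons (cons (mv 911 (cons (fin 975 7 911)
(mv 847 (cons (fin 912 7 847)
(mv 913 (cons (fin 977 6 912)
(mv 1231 (cons (fin 1167 5 975)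
(mv 1232 (cons (fin 1295 5 1039)
(mv 1233 (cons (fin 1169 4 976)
(fin 1297 4 1040)))))))))))))
(mv 913 (cons (fin 977 6 912)
(mv 849 (cons (fin 912 6 848)
(mv 1231 (cons (fin 1167 5 975)
(mv 1232 (cons (fin 1295 5 1039)
(mv 1233 (cons (fin 1169 4 976)
(fin 1297 4 1040))))))))))))
(cons (mv 911 (cons (fin 975 7 911)
(mv 912 (cons (fin 847 7 847)
(mv 913 (cons (fin 849 6 848)
(fin 977 6 912)))))))
(cons (mv 911 (cons (fin 975 7 911)
(mv 847 (cons (fin 912 7 847)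
(mv 1231 (cons (fin 1167 5 975)
(mv 1232 (cons (fin 1295 5 1039)
(mv 1233 (cons (fin 1169 4 976)
(fin 1297 4 1040)))))))))))
(mv 911 (cons (fin 975 7 911)
(mv 913 (cons (fin 977 6 912)
(mv 1231 (cons (fin 1167 5 975)
(mv 1232 (cons (fin 1295 5 1039)
(mv 1233 (cons (fin 1169 4 976)
(fin 1297 4 1040)))))))))))))))))))
(mv 1104 (cons (cons (mv 1168 (cons (cons (mv 911 (cons (fin 975 7 911)
(mv 847 (cons (fin 912 7 847)
(mv 913 (cons (fin 977 6 912)
(mv 1231 (cons (fin 1167 5 975)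
(mv 1232 (cons (fin 1295 5 1039)
(mv 1233 (cons (fin 1169 4 976)
(fin 1297 4 1040)))))))))))))
(cons (mv 913 (cons (fin 977 6 912)
(mv 849 (cons (fin 912 6 848)
(mv 1231 (cons (fin 1167 5 975)
(mv 1232 (cons (fin 1295 5 1039)
(mv 1233 (cons (fin 1169 4 976)
(fin 1297 4 1040)))))))))))
(mv 911 (cons (fin 975 7 911)
(mv 847 (cons (fin 912 7 847)
(mv 1231 (cons (fin 1167 5 975)
(mv 1232 (cons (fin 1295 5 1039)
(mv 1233 (cons (fin 1169 4 976)
(fin 1297 4 1040)))))))))))))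
(cons (cons (mv 911 (cons (fin 975 7 911)
(mv 847 (cons (fin 912 7 847)
(mv 977 (cons (fin 913 6 912)
(mv 1232 (cons (fin 1041 6 976)
(mv 1233 (cons (fin 1169 4 976)
(fin 1297 4 1040)))))))))))
(mv 911 (cons (fin 975 7 911)
(mv 847 (cons (fin 912 7 847)
(mv 977 (cons (fin 913 6 912)
(mv 1231 (cons (fin 1167 5 975)
(mv 1232 (cons (fin 1295 5 1039)
(fin 1041 6 976))))))))))))
(cons (mv 911 (cons (fin 975 7 911)
(mv 912 (cons (fin 847 7 847)
(mv 913 (cons (fin 849 6 848)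
(fin 977 6 912)))))))
(mv 911 (cons (fin 975 7 911)
(mv 913 (cons (fin 977 6 912)
(mv 1231 (cons (fin 1167 5 975)
(mv 1232 (cons (fin 1295 5 1039)
(mv 1233 (cons (fin 1169 4 976)
(fin 1297 4 1040)))))))))))))))
(cons (mv 912 (cons (cons (mv 847 (cons (fin 911 7 847)
(mv 848 (cons (fin 783 7 783)
(mv 849 (cons (fin 785 6 784)
(fin 913 6 848)))))))
(mv 849 (cons (fin 913 6 848)
(mv 848 (cons (fin 785 6 784)
(mv 1103 (cons (fin 1039 5 847)
(fin 1167 5 911))))))))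
(cons (mv 847 (cons (fin 911 7 847)
(mv 848 (cons (fin 783 7 783)
(mv 1103 (cons (fin 1039 5 847)
(fin 1167 5 911)))))))
(mv 911 (cons (fin 847 7 847)
(mv 913 (cons (fin 849 6 848)
(mv 1103 (cons (fin 1167 5 911)
(mv 910 (cons (cons (mv 977 (cons (fin 909 0 909)
(fin 978 0 910)))
(mv 845 (cons (fin 846 3 845)
(mv 844 (cons (fin 909 3 844)
(mv 974 (cons (fin 973 1 909)
(mv 914 (cons (fin 975 1 910)
(mv 851 (cons (fin 850 2 847)
(mv 915 (cons (fin 852 2 848)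
(mv 979 (cons (fin 978 0 911)
(fin 980 0 912))))))))))))))))
(cons (mv 845 (cons (fin 846 3 845)
(mv 973 (cons (fin 974 1 909)
(mv 978 (cons (fin 977 0 910)
(mv 914 (cons (fin 979 0 911)
(mv 851 (cons (fin 850 2 847)
(mv 915 (cons (fin 975 1 911)
(fin 852 2 848)))))))))))))
(mv 845 (cons (fin 846 3 845)
(mv 909 (cons (fin 844 3 844)
(fin 977 0 909)))))))))))))))))
(mv 1168 (cons (cons (mv 911 (cons (fin 975 7 911)
(mv 913 (cons (fin 977 6 912)
(mv 1231 (cons (fin 1167 5 975)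
(mv 1232 (cons (fin 1295 5 1039)
(mv 1233 (cons (fin 1169 4 976)
(fin 1297 4 1040)))))))))))
(cons (mv 913 (cons (fin 977 6 912)
(mv 1231 (cons (fin 1167 5 975)
(mv 1232 (cons (fin 1295 5 1039)
(mv 1233 (cons (fin 1169 4 976)
(fin 1297 4 1040)))))))))
(mv 911 (cons (fin 975 7 911)
(mv 1231 (cons (fin 1167 5 975)
(mv 1232 (cons (fin 1295 5 1039)
(mv 1233 (cons (fin 1169 4 976)
(fin 1297 4 1040)))))))))))
(cons (mv 911 (cons (fin 975 7 911)
(mv 977 (cons (fin 913 6 912)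
(mv 1232 (cons (fin 1041 6 976)
(mv 1233 (cons (fin 1169 4 976)
(fin 1297 4 1040)))))))))
(cons (mv 911 (cons (fin 975 7 911)
(mv 977 (cons (fin 913 6 912)
(mv 1231 (cons (fin 1167 5 975)
(mv 1232 (cons (fin 1295 5 1039)
(fin 1041 6 976)))))))))
(mv 913 (cons (fin 977 6 912)
(mv 975 (cons (fin 911 7 911)
(mv 1167 (cons (fin 1231 5 975)
(mv 1169 (cons (fin 1233 4 976)
(mv 1166 (cons (cons (mv 1101 (cons (fin 1102 3 1101)
(mv 1165 (cons (fin 1100 3 1100)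
(mv 1229 (cons (fin 1228 1 1164)
(fin 1230 1 1165)))))))
(cons (mv 1229 (cons (fin 1230 1 1165)
(mv 1165 (cons (fin 1228 1 1164)
(mv 1164 (cons (fin 1103 2 1100)
(mv 1100 (cons (fin 1099 3 1099)
(mv 1036 (cons (fin 972 4 972)
(mv 1293 (cons (fin 1357 7 1100)
(mv 974 (cons (mv 973 (cons (fin 1037 1 972)
(fin 1041 0 973)))
(cons (mv 1038 (cons (fin 1102 5 973)
(mv 1037 (cons (fin 1035 2 971)
(fin 1039 2 972)))))
(mv 1038 (cons (fin 1102 5 973)
(mv 1041 (cons (fin 973 0 973)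
(mv 1042 (cons (fin 1039 3 974)
(fin 1043 3 975))))))))))))))))))))))
(mv 1229 (cons (fin 1230 1 1165)
(mv 1165 (cons (fin 1228 1 1164)
(mv 1100 (cons (fin 1101 3 1100)
(mv 1164 (cons (fin 1099 3 1099)
(fin 1103 2 1100)))))))))))
(cons (mv 1101 (cons (fin 1102 3 1101)
(mv 1165 (cons (fin 1100 3 1100)
(mv 1164 (cons (fin 1103 2 1100)
(mv 1228 (cons (fin 1227 1 1163)
(fin 1229 1 1164)))))))))
(cons (mv 1101 (cons (fin 1102 3 1101)
(mv 1165 (cons (fin 1100 3 1100)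
(mv 1103 (cons (fin 1164 2 1100)
(mv 1039 (cons (fin 1230 5 974)
(mv 974 (cons (fin 910 7 910)
(mv 973 (cons (fin 972 0 972)
(fin 1041 0 973)))))))))))))
(mv 1102 (cons (fin 1101 3 1101)
(mv 1230 (cons (fin 1229 1 1165)
(mv 1039 (cons (fin 1103 5 974)
(fin 1038 6 974)))))))))))))))))))))))))
(cons (cons (mv 1168 (cons (cons (mv 913 (cons (fin 977 6 912)
(mv 849 (cons (fin 912 6 848)
(mv 1231 (cons (fin 1167 5 975)
(mv 1232 (cons (fin 1295 5 1039)
(mv 1233 (cons (fin 1169 4 976)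
(fin 1297 4 1040)))))))))))
(cons (mv 1167 (cons (fin 1231 5 975)
(mv 1103 (cons (fin 912 5 911)
(mv 1233 (cons (fin 1169 4 976)
(mv 1232 (cons (fin 1297 4 1040)
(mv 1039 (cons (fin 975 7 975)
(fin 1296 7 1039)))))))))))
(mv 913 (cons (fin 977 6 912)
(mv 849 (cons (fin 912 6 848)
(mv 1233 (cons (fin 1169 4 976)
(mv 1232 (cons (fin 1297 4 1040)
(mv 1039 (cons (fin 975 7 975)
(mv 1295 (cons (fin 1231 5 1039)
(mv 1296 (cons (fin 1103 7 1039)
(fin 1359 5 1103)))))))))))))))))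
(cons (mv 913 (cons (fin 977 6 912)
(mv 912 (cons (fin 849 6 848)
(mv 1103 (cons (fin 1167 5 911)
(mv 1039 (cons (fin 848 5 847)
(mv 1232 (cons (fin 975 7 975)
(fin 1296 7 1039)))))))))))
(cons (mv 913 (cons (fin 977 6 912)
(mv 912 (cons (fin 849 6 848)
(mv 1167 (cons (fin 1103 5 911)
(fin 1231 5 975)))))))
(mv 913 (cons (fin 977 6 912)
(mv 1231 (cons (fin 1167 5 975)
(mv 1232 (cons (fin 1295 5 1039)
(mv 1233 (cons (fin 1169 4 976)
(fin 1297 4 1040)))))))))))))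
(mv 1168 (cons (cons (mv 911 (cons (fin 975 7 911)
(mv 847 (cons (fin 912 7 847)
(mv 1231 (cons (fin 1167 5 975)
(mv 1232 (cons (fin 1295 5 1039)
(mv 1233 (cons (fin 1169 4 976)
(fin 1297 4 1040)))))))))))
(mv 1167 (cons (fin 1231 5 975)
(mv 1103 (cons (fin 912 5 911)
(mv 1233 (cons (fin 1169 4 976)
(mv 1232 (cons (fin 1297 4 1040)
(mv 1296 (cons (fin 1039 7 1039)
(fin 1360 7 1103))))))))))))
(cons (mv 975 (cons (fin 911 7 911)
(mv 1232 (cons (fin 1039 7 975)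
(mv 1233 (cons (fin 1169 4 976)
(fin 1297 4 1040)))))))
(mv 911 (cons (fin 975 7 911)
(mv 912 (cons (fin 847 7 847)
(mv 1167 (cons (fin 1103 5 911)
(fin 1231 5 975)))))))))))
(cons (mv 1168 (cons (cons (mv 911 (cons (fin 975 7 911)
(mv 847 (cons (fin 912 7 847)
(mv 977 (cons (fin 913 6 912)
(mv 1232 (cons (fin 1041 6 976)
(mv 1233 (cons (fin 1169 4 976)
(fin 1297 4 1040)))))))))))
(mv 977 (cons (fin 913 6 912)
(mv 1232 (cons (fin 1041 6 976)
(mv 1233 (cons (fin 1169 4 976)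
(fin 1297 4 1040))))))))
(cons (mv 975 (cons (fin 911 7 911)
(mv 1232 (cons (fin 1039 7 975)
(mv 1233 (cons (fin 1169 4 976)
(fin 1297 4 1040)))))))
(mv 911 (cons (fin 975 7 911)
(mv 912 (cons (fin 847 7 847)
(mv 913 (cons (fin 849 6 848)
(fin 977 6 912))))))))))
(mv 912 (cons (cons (mv 847 (cons (fin 911 7 847)
(mv 783 (cons (fin 848 7 783)
(mv 913 (cons (fin 849 6 848)
(mv 1103 (cons (fin 1167 5 911)
(mv 1168 (cons (fin 977 6 912)
(mv 1233 (cons (fin 1169 4 976)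
(mv 1232 (cons (fin 1297 4 1040)
(mv 1295 (cons (fin 1231 5 1039)
(mv 1296 (cons (fin 1039 7 1039)
(fin 1359 5 1103)))))))))))))))))))
(cons (mv 847 (cons (fin 911 7 847)
(mv 783 (cons (fin 848 7 783)
(mv 913 (cons (fin 849 6 848)
(mv 1168 (cons (fin 977 6 912)
(mv 1231 (cons (fin 1167 5 975)
(mv 1232 (cons (fin 1295 5 1039)
(mv 1233 (cons (fin 1169 4 976)
(fin 1297 4 1040)))))))))))))))
(mv 847 (cons (fin 911 7 847)
(mv 848 (cons (fin 783 7 783)
(mv 1103 (cons (fin 1039 5 847)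
(fin 1167 5 911)))))))))
(cons (mv 847 (cons (fin 911 7 847)
(mv 848 (cons (fin 783 7 783)
(mv 849 (cons (fin 785 6 784)
(fin 913 6 848)))))))
(cons (mv 849 (cons (fin 913 6 848)
(mv 848 (cons (fin 785 6 784)
(mv 1103 (cons (fin 1039 5 847)
(fin 1167 5 911)))))))
(mv 847 (cons (fin 911 7 847)
(mv 913 (cons (fin 849 6 848)
(mv 1103 (cons (fin 1167 5 911)
(mv 1168 (cons (fin 977 6 912)
(mv 1233 (cons (fin 1169 4 976)
(mv 1232 (cons (fin 1297 4 1040)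
(mv 1295 (cons (fin 1231 5 1039)
(mv 1296 (cons (fin 1039 7 1039)
(fin 1359 5 1103))))))))))))))))))))))))))
(cons (mv 1104 (cons (cons (cons (mv 1168 (cons (cons (mv 911 (cons (fin 975 7 911)
(mv 913 (cons (fin 977 6 912)
(mv 849 (cons (fin 912 6 848)
(mv 1231 (cons (fin 1167 5 975)
(mv 1232 (cons (fin 1295 5 1039)
(mv 1233 (cons (fin 1169 4 976)
(fin 1297 4 1040)))))))))))))
(cons (mv 911 (cons (fin 975 7 911)
(mv 1167 (cons (fin 1231 5 975)
(mv 912 (cons (fin 1103 5 911)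
(mv 1169 (cons (fin 1105 4 912)
(fin 1233 4 976)))))))))
(mv 911 (cons (fin 975 7 911)
(mv 913 (cons (fin 977 6 912)
(mv 912 (cons (fin 849 6 848)
(mv 1169 (cons (fin 1105 4 912)
(fin 1233 4 976)))))))))))
(cons (mv 911 (cons (fin 975 7 911)
(mv 913 (cons (fin 977 6 912)
(mv 912 (cons (fin 849 6 848)
(mv 1167 (cons (fin 1103 5 911)
(fin 1231 5 975)))))))))
(cons (mv 913 (cons (fin 977 6 912)
(mv 849 (cons (fin 912 6 848)
(mv 1231 (cons (fin 1167 5 975)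
(mv 1232 (cons (fin 1295 5 1039)
(mv 1233 (cons (fin 1169 4 976)
(fin 1297 4 1040)))))))))))
(mv 911 (cons (fin 975 7 911)
(mv 913 (cons (fin 977 6 912)
(mv 1231 (cons (fin 1167 5 975)
(mv 1232 (cons (fin 1295 5 1039)
(mv 1233 (cons (fin 1169 4 976)
(fin 1297 4 1040)))))))))))))))
(mv 912 (cons (cons (mv 849 (cons (fin 913 6 848)
(mv 848 (cons (fin 785 6 784)
(mv 1103 (cons (fin 1039 5 847)
(fin 1167 5 911)))))))
(mv 849 (cons (fin 913 6 848)
(mv 848 (cons (fin 785 6 784)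
(mv 1105 (cons (fin 1041 4 848)
(fin 1169 4 912))))))))
(cons (mv 1103 (cons (fin 1167 5 911)
(mv 848 (cons (fin 1039 5 847)
(mv 1105 (cons (fin 1041 4 848)
(fin 1169 4 912)))))))
(mv 849 (cons (fin 913 6 848)
(mv 1103 (cons (fin 1167 5 911)
(mv 1105 (cons (fin 1169 4 912)
(mv 1102 (cons (mv 1041 (cons (fin 1101 2 1037)
(fin 1042 2 1038)))
(cons (mv 1037 (cons (fin 1038 3 1037)
(mv 1101 (cons (fin 1036 3 1036)
(mv 1165 (cons (fin 1164 1 1100)
(fin 1166 1 1101)))))))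
(mv 1038 (cons (fin 1037 3 1037)
(mv 1039 (cons (fin 1106 3 1038)
(mv 1041 (cons (fin 1042 1 1038)
(mv 973 (cons (fin 974 3 973)
(mv 977 (cons (fin 978 2 974)
(mv 1166 (cons (fin 1165 1 1101)
(mv 975 (cons (fin 911 5 910)
(fin 1230 6 974))))))))))))))))))))))))))))
(cons (mv 1168 (cons (cons (mv 911 (cons (fin 975 7 911)
(mv 913 (cons (fin 977 6 912)
(mv 1231 (cons (fin 1167 5 975)
(mv 1232 (cons (fin 1295 5 1039)
(mv 1233 (cons (fin 1169 4 976)
(fin 1297 4 1040)))))))))))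
(cons (mv 911 (cons (fin 975 7 911)
(mv 1231 (cons (fin 1167 5 975)
(mv 1232 (cons (fin 1295 5 1039)
(mv 1233 (cons (fin 1169 4 976)
(fin 1297 4 1040)))))))))
(mv 913 (cons (fin 977 6 912)
(mv 1231 (cons (fin 1167 5 975)
(mv 1232 (cons (fin 1295 5 1039)
(mv 1233 (cons (fin 1169 4 976)
(fin 1297 4 1040)))))))))))
(cons (mv 911 (cons (fin 975 7 911)
(mv 977 (cons (fin 913 6 912)
(mv 1231 (cons (fin 1167 5 975)
(mv 1232 (cons (fin 1295 5 1039)
(fin 1041 6 976)))))))))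
(cons (mv 911 (cons (fin 975 7 911)
(mv 977 (cons (fin 913 6 912)
(mv 1232 (cons (fin 1041 6 976)
(mv 1233 (cons (fin 1169 4 976)
(fin 1297 4 1040)))))))))
(mv 911 (cons (fin 975 7 911)
(mv 977 (cons (fin 913 6 912)
(mv 1167 (cons (fin 1231 5 975)
(mv 1169 (cons (fin 1233 4 976)
(mv 1166 (cons (mv 1105 (cons (fin 1165 2 1101)
(fin 1106 2 1102)))
(cons (mv 1101 (cons (fin 1102 3 1101)
(mv 1165 (cons (fin 1100 3 1100)
(mv 1229 (cons (fin 1228 1 1164)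
(fin 1230 1 1165)))))))
(mv 1102 (cons (fin 1101 3 1101)
(mv 1105 (cons (fin 1106 2 1102)
(mv 1230 (cons (fin 1229 1 1165)
(mv 1294 (cons (mv 1103 (cons (fin 1039 6 1038)
(fin 1358 6 1102)))
(cons (mv 1357 (cons (fin 1293 5 1101)
(mv 1358 (cons (fin 1421 5 1165)
(mv 1359 (cons (fin 1295 4 1102)
(fin 1423 4 1166)))))))
(mv 1039 (cons (fin 1103 6 1038)
(mv 978 (cons (fin 979 1 975)
(mv 1038 (cons (fin 1037 2 973)
(fin 1041 2 974)))))))))))))))))))))))))))))))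
(cons (mv 1168 (cons (cons (mv 911 (cons (fin 975 7 911)
(mv 913 (cons (fin 977 6 912)
(mv 912 (cons (fin 849 6 848)
(mv 1169 (cons (fin 1105 4 912)
(fin 1233 4 976)))))))))
(mv 975 (cons (fin 911 7 911)
(mv 1039 (cons (fin 1232 7 975)
(mv 1169 (cons (fin 1233 4 976)
(mv 912 (cons (fin 1105 4 912)
(mv 848 (cons (fin 784 5 783)
(fin 1103 5 847))))))))))))
(cons (mv 911 (cons (fin 975 7 911)
(mv 977 (cons (fin 913 6 912)
(mv 1232 (cons (fin 1041 6 976)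
(mv 1295 (cons (fin 1231 5 1039)
(mv 1296 (cons (fin 1359 5 1103)
(mv 1297 (cons (fin 1233 4 1040)
(fin 1361 4 1104)))))))))))))
(cons (mv 913 (cons (fin 977 6 912)
(mv 912 (cons (fin 849 6 848)
(mv 1169 (cons (fin 1105 4 912)
(fin 1233 4 976)))))))
(mv 913 (cons (fin 977 6 912)
(mv 849 (cons (fin 912 6 848)
(mv 975 (cons (fin 911 7 911)
(mv 1232 (cons (fin 1039 7 975)
(mv 1295 (cons (fin 1231 5 1039)
(mv 1296 (cons (fin 1359 5 1103)
(mv 1105 (cons (fin 1041 6 1040)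
(mv 1360 (cons (fin 1169 6 1104)
(mv 1361 (cons (fin 1297 4 1104)
(fin 1425 4 1168)))))))))))))))))))))))
(mv 1168 (cons (cons (mv 911 (cons (fin 975 7 911)
(mv 1167 (cons (fin 1231 5 975)
(mv 912 (cons (fin 1103 5 911)
(mv 1169 (cons (fin 1105 4 912)
(fin 1233 4 976)))))))))
(cons (mv 911 (cons (fin 975 7 911)
(mv 1233 (cons (fin 1169 4 976)
(mv 1232 (cons (fin 1297 4 1040)
(mv 1041 (cons (fin 977 6 976)
(mv 1295 (cons (fin 1231 5 1039)
(mv 1296 (cons (fin 1359 5 1103)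
(fin 1105 6 1040)))))))))))))
(mv 911 (cons (fin 975 7 911)
(mv 1231 (cons (fin 1167 5 975)
(mv 1232 (cons (fin 1295 5 1039)
(mv 1041 (cons (fin 977 6 976)
(mv 1296 (cons (fin 1105 6 1040)
(mv 1297 (cons (fin 1233 4 1040)
(fin 1361 4 1104)))))))))))))))
(cons (cons (mv 1167 (cons (fin 1231 5 975)
(mv 912 (cons (fin 1103 5 911)
(mv 1169 (cons (fin 1105 4 912)
(fin 1233 4 976)))))))
(mv 911 (cons (fin 975 7 911)
(mv 1167 (cons (fin 1231 5 975)
(mv 912 (cons (fin 1103 5 911)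
(mv 1105 (cons (fin 1169 4 912)
(mv 1041 (cons (fin 848 4 848)
(mv 1232 (cons (fin 977 6 976)
(fin 1296 6 1040))))))))))))))
(cons (mv 911 (cons (fin 975 7 911)
(mv 1169 (cons (fin 1233 4 976)
(mv 912 (cons (fin 1105 4 912)
(mv 1103 (cons (fin 1167 5 911)
(mv 1039 (cons (fin 848 5 847)
(mv 1102 (cons (fin 1101 0 1101)
(mv 1041 (cons (fin 1042 1 1038)
(mv 1232 (cons (fin 1296 7 1039)
(fin 977 6 976)))))))))))))))))
(mv 911 (cons (fin 975 7 911)
(mv 1167 (cons (fin 1231 5 975)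
(mv 1103 (cons (fin 912 5 911)
(mv 1233 (cons (fin 1169 4 976)
(mv 1232 (cons (fin 1297 4 1040)
(mv 1296 (cons (fin 1039 7 1039)
(fin 1360 7 1103))))))))))))))))))))
(cons (cons (mv 1168 (cons (cons (mv 911 (cons (fin 975 7 911)
(mv 913 (cons (fin 977 6 912)
(mv 912 (cons (fin 849 6 848)
(mv 1167 (cons (fin 1103 5 911)
(fin 1231 5 975)))))))))
(cons (mv 975 (cons (fin 911 7 911)
(mv 1039 (cons (fin 1232 7 975)
(mv 1167 (cons (fin 1231 5 975)
(mv 912 (cons (fin 1103 5 911)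
(mv 848 (cons (fin 784 5 783)
(mv 849 (cons (fin 785 6 784)
(fin 913 6 848)))))))))))))
(mv 911 (cons (fin 975 7 911)
(mv 977 (cons (fin 913 6 912)
(mv 1232 (cons (fin 1041 6 976)
(mv 1295 (cons (fin 1231 5 1039)
(mv 1296 (cons (fin 1359 5 1103)
(mv 1297 (cons (fin 1233 4 1040)
(fin 1361 4 1104)))))))))))))))
(cons (mv 913 (cons (fin 977 6 912)
(mv 912 (cons (fin 849 6 848)
(mv 1167 (cons (fin 1103 5 911)
(fin 1231 5 975)))))))
(cons (mv 911 (cons (fin 975 7 911)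
(mv 1231 (cons (fin 1167 5 975)
(mv 1232 (cons (fin 1295 5 1039)
(mv 1041 (cons (fin 977 6 976)
(mv 1296 (cons (fin 1105 6 1040)
(mv 1297 (cons (fin 1233 4 1040)
(fin 1361 4 1104)))))))))))))
(mv 911 (cons (fin 975 7 911)
(mv 977 (cons (fin 913 6 912)
(mv 1232 (cons (fin 1041 6 976)
(mv 1297 (cons (fin 1233 4 1040)
(mv 1296 (cons (fin 1361 4 1104)
(mv 1103 (cons (fin 1039 7 1039)
(mv 1167 (cons (fin 1360 7 1103)
(fin 912 5 911)))))))))))))))))))
(mv 1168 (cons (cons (mv 911 (cons (fin 975 7 911)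
(mv 1167 (cons (fin 1231 5 975)
(mv 912 (cons (fin 1103 5 911)
(mv 1169 (cons (fin 1105 4 912)
(fin 1233 4 976)))))))))
(mv 975 (cons (fin 911 7 911)
(mv 1039 (cons (fin 1232 7 975)
(mv 1169 (cons (fin 1233 4 976)
(mv 912 (cons (fin 1105 4 912)
(mv 848 (cons (fin 784 5 783)
(fin 1103 5 847))))))))))))
(cons (mv 975 (cons (fin 911 7 911)
(mv 1039 (cons (fin 1232 7 975)
(mv 1167 (cons (fin 1231 5 975)
(mv 912 (cons (fin 1103 5 911)
(mv 848 (cons (fin 784 5 783)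
(mv 849 (cons (fin 785 6 784)
(fin 913 6 848)))))))))))))
(cons (mv 1167 (cons (fin 1231 5 975)
(mv 912 (cons (fin 1103 5 911)
(mv 1169 (cons (fin 1105 4 912)
(fin 1233 4 976)))))))
(mv 911 (cons (fin 975 7 911)
(mv 1231 (cons (fin 1167 5 975)
(mv 1232 (cons (fin 1295 5 1039)
(mv 1233 (cons (fin 1169 4 976)
(fin 1297 4 1040))))))))))))))
(cons (mv 1168 (cons (cons (mv 911 (cons (fin 975 7 911)
(mv 913 (cons (fin 977 6 912)
(mv 849 (cons (fin 912 6 848)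
(mv 1231 (cons (fin 1167 5 975)
(mv 1232 (cons (fin 1295 5 1039)
(mv 1233 (cons (fin 1169 4 976)
(fin 1297 4 1040)))))))))))))
(mv 911 (cons (fin 975 7 911)
(mv 1167 (cons (fin 1231 5 975)
(mv 1169 (cons (fin 1233 4 976)
(mv 1105 (cons (fin 912 4 912)
(mv 1106 (cons (fin 1107 1 1103)
(fin 1166 2 1102))))))))))))
(cons (mv 911 (cons (fin 975 7 911)
(mv 977 (cons (fin 913 6 912)
(mv 1231 (cons (fin 1167 5 975)
(mv 1232 (cons (fin 1295 5 1039)
(fin 1041 6 976)))))))))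
(cons (mv 913 (cons (fin 977 6 912)
(mv 849 (cons (fin 912 6 848)
(mv 1231 (cons (fin 1167 5 975)
(mv 1232 (cons (fin 1295 5 1039)
(mv 1233 (cons (fin 1169 4 976)
(fin 1297 4 1040)))))))))))
(mv 911 (cons (fin 975 7 911)
(mv 913 (cons (fin 977 6 912)
(mv 912 (cons (fin 849 6 848)
(mv 1169 (cons (fin 1105 4 912)
(fin 1233 4 976)))))))))))))
(cons (mv 1168 (cons (cons (mv 911 (cons (fin 975 7 911)
(mv 913 (cons (fin 977 6 912)
(mv 849 (cons (fin 912 6 848)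
(mv 1231 (cons (fin 1167 5 975)
(mv 1232 (cons (fin 1295 5 1039)
(mv 1233 (cons (fin 1169 4 976)
(fin 1297 4 1040)))))))))))))
(mv 911 (cons (fin 975 7 911)
(mv 1167 (cons (fin 1231 5 975)
(mv 1103 (cons (fin 912 5 911)
(mv 1233 (cons (fin 1169 4 976)
(mv 1232 (cons (fin 1297 4 1040)
(mv 1296 (cons (fin 1039 7 1039)
(fin 1360 7 1103))))))))))))))
(cons (mv 913 (cons (fin 977 6 912)
(mv 849 (cons (fin 912 6 848)
(mv 1231 (cons (fin 1167 5 975)
(mv 1232 (cons (fin 1295 5 1039)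
(mv 1233 (cons (fin 1169 4 976)
(fin 1297 4 1040)))))))))))
(cons (mv 911 (cons (fin 975 7 911)
(mv 977 (cons (fin 913 6 912)
(mv 1232 (cons (fin 1041 6 976)
(mv 1233 (cons (fin 1169 4 976)
(fin 1297 4 1040)))))))))
(mv 911 (cons (fin 975 7 911)
(mv 913 (cons (fin 977 6 912)
(mv 912 (cons (fin 849 6 848)
(mv 1167 (cons (fin 1103 5 911)
(fin 1231 5 975)))))))))))))
(mv 1168 (cons (cons (mv 913 (cons (fin 977 6 912)
(mv 849 (cons (fin 912 6 848)
(mv 1231 (cons (fin 1167 5 975)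
(mv 1232 (cons (fin 1295 5 1039)
(mv 1233 (cons (fin 1169 4 976)
(fin 1297 4 1040)))))))))))
(mv 913 (cons (fin 977 6 912)
(mv 912 (cons (fin 849 6 848)
(mv 1169 (cons (fin 1105 4 912)
(fin 1233 4 976))))))))
(cons (mv 1167 (cons (fin 1231 5 975)
(mv 912 (cons (fin 1103 5 911)
(mv 1169 (cons (fin 1105 4 912)
(fin 1233 4 976)))))))
(cons (mv 913 (cons (fin 977 6 912)
(mv 912 (cons (fin 849 6 848)
(mv 1167 (cons (fin 1103 5 911)
(fin 1231 5 975)))))))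
(mv 913 (cons (fin 977 6 912)
(mv 1231 (cons (fin 1167 5 975)
(mv 1232 (cons (fin 1295 5 1039)
(mv 1233 (cons (fin 1169 4 976)
(fin 1297 4 1040))))))))))))))))))
(cons (mv 1104 (cons (cons (cons (mv 1168 (cons (cons (cons (mv 911 (cons (fin 975 7 911)
(mv 847 (cons (fin 912 7 847)
(mv 913 (cons (fin 977 6 912)
(mv 1231 (cons (fin 1167 5 975)
(mv 1232 (cons (fin 1295 5 1039)
(mv 1233 (cons (fin 1169 4 976)
(fin 1297 4 1040)))))))))))))
(mv 913 (cons (fin 977 6 912)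
(mv 1167 (cons (fin 1231 5 975)
(mv 912 (cons (fin 1103 5 911)
(mv 1169 (cons (fin 1105 4 912)
(fin 1233 4 976))))))))))
(cons (mv 911 (cons (fin 975 7 911)
(mv 847 (cons (fin 912 7 847)
(mv 977 (cons (fin 913 6 912)
(mv 1169 (cons (fin 1233 4 976)
(mv 1232 (cons (fin 1041 6 976)
(mv 1295 (cons (fin 1231 5 1039)
(mv 1296 (cons (fin 1359 5 1103)
(mv 1039 (cons (fin 1103 7 1039)
(mv 978 (cons (fin 979 1 975)
(mv 1037 (cons (fin 1038 2 973)
(mv 1360 (cons (fin 1105 6 1104)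
(mv 1361 (cons (fin 1297 4 1104)
(fin 1425 4 1168)))))))))))))))))))))))))
(mv 911 (cons (fin 975 7 911)
(mv 847 (cons (fin 912 7 847)
(mv 977 (cons (fin 913 6 912)
(mv 1167 (cons (fin 1231 5 975)
(mv 1232 (cons (fin 1041 6 976)
(mv 1297 (cons (fin 1233 4 1040)
(mv 1296 (cons (fin 1361 4 1104)
(mv 1103 (cons (fin 1039 7 1039)
(fin 1360 7 1103)))))))))))))))))))
(cons (cons (mv 911 (cons (fin 975 7 911)
(mv 847 (cons (fin 912 7 847)
(mv 1231 (cons (fin 1167 5 975)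
(mv 1232 (cons (fin 1295 5 1039)
(mv 1233 (cons (fin 1169 4 976)
(fin 1297 4 1040)))))))))))
(mv 911 (cons (fin 975 7 911)
(mv 847 (cons (fin 912 7 847)
(mv 977 (cons (fin 913 6 912)
(mv 1231 (cons (fin 1167 5 975)
(mv 1232 (cons (fin 1295 5 1039)
(fin 1041 6 976))))))))))))
(cons (mv 911 (cons (fin 975 7 911)
(mv 847 (cons (fin 912 7 847)
(mv 977 (cons (fin 913 6 912)
(mv 1232 (cons (fin 1041 6 976)
(mv 1233 (cons (fin 1169 4 976)
(fin 1297 4 1040)))))))))))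
(mv 911 (cons (fin 975 7 911)
(mv 913 (cons (fin 977 6 912)
(mv 1231 (cons (fin 1167 5 975)
(mv 1232 (cons (fin 1295 5 1039)
(mv 1233 (cons (fin 1169 4 976)
(fin 1297 4 1040)))))))))))))))
(mv 912 (cons (cons (mv 847 (cons (fin 911 7 847)
(mv 848 (cons (fin 783 7 783)
(mv 1103 (cons (fin 1039 5 847)
(fin 1167 5 911)))))))
(mv 847 (cons (fin 911 7 847)
(mv 848 (cons (fin 783 7 783)
(mv 1105 (cons (fin 1041 4 848)
(fin 1169 4 912))))))))
(cons (mv 1103 (cons (fin 1167 5 911)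
(mv 848 (cons (fin 1039 5 847)
(mv 1105 (cons (fin 1041 4 848)
(fin 1169 4 912)))))))
(mv 847 (cons (fin 911 7 847)
(mv 1103 (cons (fin 1167 5 911)
(mv 1105 (cons (fin 1169 4 912)
(mv 1102 (cons (mv 1041 (cons (fin 1101 2 1037)
(fin 1042 2 1038)))
(cons (mv 1037 (cons (fin 1038 3 1037)
(mv 1101 (cons (fin 1036 3 1036)
(mv 1165 (cons (fin 1164 1 1100)
(fin 1166 1 1101)))))))
(mv 1038 (cons (fin 1037 3 1037)
(mv 1039 (cons (fin 1106 3 1038)
(mv 1041 (cons (fin 1042 1 1038)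
(mv 973 (cons (fin 974 3 973)
(mv 977 (cons (fin 978 2 974)
(mv 1166 (cons (fin 1165 1 1101)
(mv 1230 (cons (fin 975 6 974)
(fin 1294 6 1038))))))))))))))))))))))))))))
(cons (mv 1168 (cons (cons (mv 911 (cons (fin 975 7 911)
(mv 913 (cons (fin 977 6 912)
(mv 1231 (cons (fin 1167 5 975)
(mv 1232 (cons (fin 1295 5 1039)
(mv 1233 (cons (fin 1169 4 976)
(fin 1297 4 1040)))))))))))
(cons (mv 913 (cons (fin 977 6 912)
(mv 1231 (cons (fin 1167 5 975)
(mv 1232 (cons (fin 1295 5 1039)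
(mv 1233 (cons (fin 1169 4 976)
(fin 1297 4 1040)))))))))
(mv 911 (cons (fin 975 7 911)
(mv 1231 (cons (fin 1167 5 975)
(mv 1232 (cons (fin 1295 5 1039)
(mv 1233 (cons (fin 1169 4 976)
(fin 1297 4 1040)))))))))))
(cons (mv 911 (cons (fin 975 7 911)
(mv 977 (cons (fin 913 6 912)
(mv 1231 (cons (fin 1167 5 975)
(mv 1232 (cons (fin 1295 5 1039)
(fin 1041 6 976)))))))))
(cons (mv 911 (cons (fin 975 7 911)
(mv 977 (cons (fin 913 6 912)
(mv 1232 (cons (fin 1041 6 976)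
(mv 1233 (cons (fin 1169 4 976)
(fin 1297 4 1040)))))))))
(mv 911 (cons (fin 975 7 911)
(mv 977 (cons (fin 913 6 912)
(mv 1167 (cons (fin 1231 5 975)
(mv 1169 (cons (fin 1233 4 976)
(mv 1166 (cons (mv 1105 (cons (fin 1165 2 1101)
(fin 1106 2 1102)))
(cons (mv 1101 (cons (fin 1102 3 1101)
(mv 1165 (cons (fin 1100 3 1100)
(mv 1229 (cons (fin 1228 1 1164)
(fin 1230 1 1165)))))))
(mv 1102 (cons (fin 1101 3 1101)
(mv 1105 (cons (fin 1106 2 1102)
(mv 1230 (cons (fin 1229 1 1165)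
(mv 1294 (cons (mv 1103 (cons (fin 1039 6 1038)
(fin 1358 6 1102)))
(cons (mv 1357 (cons (fin 1293 5 1101)
(mv 1358 (cons (fin 1421 5 1165)
(mv 1359 (cons (fin 1295 4 1102)
(fin 1423 4 1166)))))))
(mv 1039 (cons (fin 1103 6 1038)
(mv 978 (cons (fin 979 1 975)
(mv 1038 (cons (fin 1037 2 973)
(fin 1041 2 974)))))))))))))))))))))))))))))))
(cons (mv 1168 (cons (cons (mv 913 (cons (fin 977 6 912)
(mv 1167 (cons (fin 1231 5 975)
(mv 912 (cons (fin 1103 5 911)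
(mv 1169 (cons (fin 1105 4 912)
(fin 1233 4 976)))))))))
(cons (mv 913 (cons (fin 977 6 912)
(mv 1233 (cons (fin 1169 4 976)
(mv 1232 (cons (fin 1297 4 1040)
(mv 1039 (cons (fin 975 7 975)
(mv 1295 (cons (fin 1231 5 1039)
(mv 1296 (cons (fin 1103 7 1039)
(fin 1359 5 1103)))))))))))))
(mv 913 (cons (fin 977 6 912)
(mv 1231 (cons (fin 1167 5 975)
(mv 1232 (cons (fin 1295 5 1039)
(mv 1039 (cons (fin 975 7 975)
(mv 1296 (cons (fin 1103 7 1039)
(mv 1297 (cons (fin 1233 4 1040)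
(fin 1361 4 1104)))))))))))))))
(cons (cons (mv 1167 (cons (fin 1231 5 975)
(mv 912 (cons (fin 1103 5 911)
(mv 1169 (cons (fin 1105 4 912)
(fin 1233 4 976)))))))
(mv 913 (cons (fin 977 6 912)
(mv 1167 (cons (fin 1231 5 975)
(mv 912 (cons (fin 1103 5 911)
(mv 1105 (cons (fin 1169 4 912)
(mv 1041 (cons (fin 848 4 848)
(mv 1106 (cons (fin 1107 1 1103)
(mv 1039 (cons (fin 1038 0 1038)
(mv 1232 (cons (fin 975 7 975)
(fin 1296 6 1040))))))))))))))))))
(cons (mv 913 (cons (fin 977 6 912)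
(mv 1169 (cons (fin 1233 4 976)
(mv 912 (cons (fin 1105 4 912)
(mv 1103 (cons (fin 1167 5 911)
(mv 1039 (cons (fin 848 5 847)
(mv 1232 (cons (fin 975 7 975)
(fin 1296 7 1039)))))))))))))
(mv 913 (cons (fin 977 6 912)
(mv 1167 (cons (fin 1231 5 975)
(mv 1169 (cons (fin 1233 4 976)
(mv 1105 (cons (fin 912 4 912)
(mv 1106 (cons (fin 1107 1 1103)
(fin 1166 2 1102)))))))))))))))
(mv 1168 (cons (cons (mv 911 (cons (fin 975 7 911)
(mv 847 (cons (fin 912 7 847)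
(mv 977 (cons (fin 913 6 912)
(mv 1169 (cons (fin 1233 4 976)
(mv 1232 (cons (fin 1041 6 976)
(mv 1295 (cons (fin 1231 5 1039)
(mv 1296 (cons (fin 1359 5 1103)
(mv 1039 (cons (fin 1103 7 1039)
(mv 978 (cons (fin 979 1 975)
(mv 1037 (cons (fin 1038 2 973)
(mv 1360 (cons (fin 1105 6 1104)
(mv 1361 (cons (fin 1297 4 1104)
(fin 1425 4 1168)))))))))))))))))))))))))
(cons (mv 977 (cons (fin 913 6 912)
(mv 1041 (cons (fin 1232 6 976)
(mv 1169 (cons (fin 1233 4 976)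
(mv 912 (cons (fin 1105 7 912)
(mv 847 (cons (fin 911 7 847)
(mv 848 (cons (fin 783 7 783)
(fin 784 4 784)))))))))))))
(mv 911 (cons (fin 975 7 911)
(mv 847 (cons (fin 912 7 847)
(mv 977 (cons (fin 913 6 912)
(mv 1232 (cons (fin 1041 6 976)
(mv 1295 (cons (fin 1231 5 1039)
(mv 1296 (cons (fin 1359 5 1103)
(mv 1297 (cons (fin 1233 4 1040)
(fin 1361 4 1104)))))))))))))))))
(cons (mv 911 (cons (fin 975 7 911)
(mv 912 (cons (fin 847 7 847)
(mv 1169 (cons (fin 1105 4 912)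
(fin 1233 4 976)))))))
(cons (mv 913 (cons (fin 977 6 912)
(mv 1233 (cons (fin 1169 4 976)
(mv 1232 (cons (fin 1297 4 1040)
(mv 1039 (cons (fin 975 7 975)
(mv 1295 (cons (fin 1231 5 1039)
(mv 1296 (cons (fin 1103 7 1039)
(fin 1359 5 1103)))))))))))))
(mv 911 (cons (fin 975 7 911)
(mv 912 (cons (fin 847 7 847)
(mv 977 (cons (fin 913 6 912)
(mv 909 (cons (fin 910 0 909)
(mv 978 (cons (fin 979 3 911)
(mv 1041 (cons (fin 1232 6 976)
(mv 848 (cons (fin 784 4 784)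
(fin 1105 4 848))))))))))))))))))))))
(cons (cons (mv 1168 (cons (cons (mv 911 (cons (fin 975 7 911)
(mv 847 (cons (fin 912 7 847)
(mv 977 (cons (fin 913 6 912)
(mv 1167 (cons (fin 1231 5 975)
(mv 1232 (cons (fin 1041 6 976)
(mv 1297 (cons (fin 1233 4 1040)
(mv 1296 (cons (fin 1361 4 1104)
(mv 1103 (cons (fin 1039 7 1039)
(fin 1360 7 1103)))))))))))))))))
(cons (mv 977 (cons (fin 913 6 912)
(mv 1041 (cons (fin 1232 6 976)
(mv 1167 (cons (fin 1231 5 975)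
(mv 912 (cons (fin 1103 5 911)
(mv 848 (cons (fin 784 4 784)
(fin 1105 4 848)))))))))))
(mv 911 (cons (fin 975 7 911)
(mv 847 (cons (fin 912 7 847)
(mv 977 (cons (fin 913 6 912)
(mv 1232 (cons (fin 1041 6 976)
(mv 1295 (cons (fin 1231 5 1039)
(mv 1296 (cons (fin 1359 5 1103)
(mv 1297 (cons (fin 1233 4 1040)
(fin 1361 4 1104)))))))))))))))))
(cons (mv 911 (cons (fin 975 7 911)
(mv 912 (cons (fin 847 7 847)
(mv 1167 (cons (fin 1103 5 911)
(fin 1231 5 975)))))))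
(cons (mv 911 (cons (fin 975 7 911)
(mv 847 (cons (fin 912 7 847)
(mv 977 (cons (fin 913 6 912)
(mv 1232 (cons (fin 1041 6 976)
(mv 1297 (cons (fin 1233 4 1040)
(mv 1296 (cons (fin 1361 4 1104)
(mv 1103 (cons (fin 1039 7 1039)
(mv 1359 (cons (fin 1295 5 1103)
(mv 1360 (cons (fin 1167 7 1103)
(fin 1423 5 1167)))))))))))))))))))
(mv 911 (cons (fin 975 7 911)
(mv 977 (cons (fin 913 6 912)
(mv 1167 (cons (fin 1231 5 975)
(mv 1232 (cons (fin 1041 6 976)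
(mv 1297 (cons (fin 1233 4 1040)
(mv 1296 (cons (fin 1361 4 1104)
(mv 1103 (cons (fin 1039 7 1039)
(fin 1360 7 1103)))))))))))))))))))
(mv 1168 (cons (cons (mv 913 (cons (fin 977 6 912)
(mv 1167 (cons (fin 1231 5 975)
(mv 912 (cons (fin 1103 5 911)
(mv 1169 (cons (fin 1105 4 912)
(fin 1233 4 976)))))))))
(mv 977 (cons (fin 913 6 912)
(mv 1041 (cons (fin 1232 6 976)
(mv 1169 (cons (fin 1233 4 976)
(mv 912 (cons (fin 1105 7 912)
(mv 847 (cons (fin 911 7 847)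
(mv 848 (cons (fin 783 7 783)
(fin 784 4 784))))))))))))))
(cons (mv 977 (cons (fin 913 6 912)
(mv 1041 (cons (fin 1232 6 976)
(mv 1167 (cons (fin 1231 5 975)
(mv 912 (cons (fin 1103 5 911)
(mv 848 (cons (fin 784 4 784)
(fin 1105 4 848)))))))))))
(cons (mv 1167 (cons (fin 1231 5 975)
(mv 912 (cons (fin 1103 5 911)
(mv 1169 (cons (fin 1105 4 912)
(fin 1233 4 976)))))))
(mv 913 (cons (fin 977 6 912)
(mv 1231 (cons (fin 1167 5 975)
(mv 1232 (cons (fin 1295 5 1039)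
(mv 1233 (cons (fin 1169 4 976)
(fin 1297 4 1040))))))))))))))
(cons (mv 1168 (cons (cons (mv 911 (cons (fin 975 7 911)
(mv 847 (cons (fin 912 7 847)
(mv 913 (cons (fin 977 6 912)
(mv 1231 (cons (fin 1167 5 975)
(mv 1232 (cons (fin 1295 5 1039)
(mv 1233 (cons (fin 1169 4 976)
(fin 1297 4 1040)))))))))))))
(cons (mv 913 (cons (fin 977 6 912)
(mv 1167 (cons (fin 1231 5 975)
(mv 1169 (cons (fin 1233 4 976)
(mv 1105 (cons (fin 912 4 912)
(mv 1106 (cons (fin 1107 1 1103)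
(fin 1166 2 1102)))))))))))
(mv 911 (cons (fin 975 7 911)
(mv 847 (cons (fin 912 7 847)
(mv 1231 (cons (fin 1167 5 975)
(mv 1232 (cons (fin 1295 5 1039)
(mv 1233 (cons (fin 1169 4 976)
(fin 1297 4 1040)))))))))))))
(cons (mv 911 (cons (fin 975 7 911)
(mv 847 (cons (fin 912 7 847)
(mv 977 (cons (fin 913 6 912)
(mv 1231 (cons (fin 1167 5 975)
(mv 1232 (cons (fin 1295 5 1039)
(fin 1041 6 976)))))))))))
(cons (mv 911 (cons (fin 975 7 911)
(mv 847 (cons (fin 912 7 847)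
(mv 977 (cons (fin 913 6 912)
(mv 1232 (cons (fin 1041 6 976)
(mv 1233 (cons (fin 1169 4 976)
(fin 1297 4 1040)))))))))))
(mv 911 (cons (fin 975 7 911)
(mv 913 (cons (fin 977 6 912)
(mv 1231 (cons (fin 1167 5 975)
(mv 1232 (cons (fin 1295 5 1039)
(mv 1233 (cons (fin 1169 4 976)
(fin 1297 4 1040)))))))))))))))
(cons (mv 1168 (cons (cons (mv 911 (cons (fin 975 7 911)
(mv 847 (cons (fin 912 7 847)
(mv 913 (cons (fin 977 6 912)
(mv 1231 (cons (fin 1167 5 975)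
(mv 1232 (cons (fin 1295 5 1039)
(mv 1233 (cons (fin 1169 4 976)
(fin 1297 4 1040)))))))))))))
(cons (mv 913 (cons (fin 977 6 912)
(mv 1167 (cons (fin 1231 5 975)
(mv 1103 (cons (fin 912 5 911)
(mv 1233 (cons (fin 1169 4 976)
(mv 1232 (cons (fin 1297 4 1040)
(mv 1296 (cons (fin 1039 7 1039)
(fin 1360 7 1103)))))))))))))
(mv 911 (cons (fin 975 7 911)
(mv 847 (cons (fin 912 7 847)
(mv 977 (cons (fin 913 6 912)
(mv 1232 (cons (fin 1041 6 976)
(mv 1233 (cons (fin 1169 4 976)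
(fin 1297 4 1040)))))))))))))
(cons (cons (mv 911 (cons (fin 975 7 911)
(mv 847 (cons (fin 912 7 847)
(mv 1231 (cons (fin 1167 5 975)
(mv 1232 (cons (fin 1295 5 1039)
(mv 1233 (cons (fin 1169 4 976)
(fin 1297 4 1040)))))))))))
(mv 911 (cons (fin 975 7 911)
(mv 847 (cons (fin 912 7 847)
(mv 977 (cons (fin 913 6 912)
(mv 1231 (cons (fin 1167 5 975)
(mv 1232 (cons (fin 1295 5 1039)
(fin 1041 6 976))))))))))))
(cons (mv 911 (cons (fin 975 7 911)
(mv 912 (cons (fin 847 7 847)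
(mv 1167 (cons (fin 1103 5 911)
(fin 1231 5 975)))))))
(mv 911 (cons (fin 975 7 911)
(mv 913 (cons (fin 977 6 912)
(mv 1231 (cons (fin 1167 5 975)
(mv 1232 (cons (fin 1295 5 1039)
(mv 1233 (cons (fin 1169 4 976)
(fin 1297 4 1040)))))))))))))))
(mv 1168 (cons (cons (mv 911 (cons (fin 975 7 911)
(mv 847 (cons (fin 912 7 847)
(mv 1231 (cons (fin 1167 5 975)
(mv 1232 (cons (fin 1295 5 1039)
(mv 1233 (cons (fin 1169 4 976)
(fin 1297 4 1040)))))))))))
(mv 911 (cons (fin 975 7 911)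
(mv 912 (cons (fin 847 7 847)
(mv 1169 (cons (fin 1105 4 912)
(fin 1233 4 976))))))))
(cons (mv 1167 (cons (fin 1231 5 975)
(mv 912 (cons (fin 1103 5 911)
(mv 1169 (cons (fin 1105 4 912)
(fin 1233 4 976)))))))
(cons (mv 911 (cons (fin 975 7 911)
(mv 912 (cons (fin 847 7 847)
(mv 1167 (cons (fin 1103 5 911)
(fin 1231 5 975)))))))
(mv 911 (cons (fin 975 7 911)
(mv 1231 (cons (fin 1167 5 975)
(mv 1232 (cons (fin 1295 5 1039)
(mv 1233 (cons (fin 1169 4 976)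
(fin 1297 4 1040))))))))))))))))))
(mv 912 (cons (cons (mv 848 (cons (cons (mv 783 (cons (fin 847 7 783)
(mv 719 (cons (fin 784 7 719)
(mv 849 (cons (fin 785 6 784)
(mv 1039 (cons (fin 1103 5 847)
(mv 1104 (cons (fin 913 6 848)
(mv 1105 (cons (fin 1041 4 848)
(fin 1169 4 912)))))))))))))
(mv 785 (cons (fin 849 6 784)
(mv 784 (cons (fin 721 6 720)
(mv 1039 (cons (fin 975 5 783)
(fin 1103 5 847))))))))
(cons (mv 783 (cons (fin 847 7 783)
(mv 784 (cons (fin 719 7 719)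
(mv 1039 (cons (fin 975 5 783)
(fin 1103 5 847)))))))
(cons (mv 783 (cons (fin 847 7 783)
(mv 719 (cons (fin 784 7 719)
(mv 849 (cons (fin 785 6 784)
(mv 1104 (cons (fin 913 6 848)
(mv 1105 (cons (fin 1041 4 848)
(fin 1169 4 912)))))))))))
(mv 783 (cons (fin 847 7 783)
(mv 849 (cons (fin 785 6 784)
(mv 1039 (cons (fin 1103 5 847)
(mv 1104 (cons (fin 913 6 848)
(mv 1105 (cons (fin 1041 4 848)
(fin 1169 4 912)))))))))))))))
(cons (mv 1104 (cons (cons (mv 847 (cons (fin 911 7 847)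
(mv 913 (cons (fin 849 6 848)
(mv 1168 (cons (fin 977 6 912)
(mv 1169 (cons (fin 1105 4 912)
(fin 1233 4 976)))))))))
(mv 913 (cons (fin 849 6 848)
(mv 1168 (cons (fin 977 6 912)
(mv 1169 (cons (fin 1105 4 912)
(fin 1233 4 976))))))))
(cons (mv 911 (cons (fin 847 7 847)
(mv 1168 (cons (fin 975 7 911)
(mv 1169 (cons (fin 1105 4 912)
(fin 1233 4 976)))))))
(cons (mv 911 (cons (fin 847 7 847)
(mv 913 (cons (fin 849 6 848)
(mv 1168 (cons (fin 975 7 911)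
(fin 977 6 912)))))))
(mv 911 (cons (fin 847 7 847)
(mv 913 (cons (fin 849 6 848)
(mv 1105 (cons (fin 1169 4 912)
(mv 914 (cons (mv 975 (cons (fin 974 1 910)
(fin 915 1 911)))
(mv 850 (cons (fin 851 2 847)
(mv 977 (cons (fin 1041 6 849)
(mv 910 (cons (fin 909 0 909)
(fin 978 0 910)))))))))))))))))))
(mv 848 (cons (cons (mv 783 (cons (fin 847 7 783)
(mv 784 (cons (fin 719 7 719)
(mv 785 (cons (fin 721 6 720)
(fin 849 6 784)))))))
(mv 785 (cons (fin 849 6 784)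
(mv 784 (cons (fin 721 6 720)
(mv 1039 (cons (fin 975 5 783)
(fin 1103 5 847))))))))
(cons (mv 783 (cons (fin 847 7 783)
(mv 784 (cons (fin 719 7 719)
(mv 1039 (cons (fin 975 5 783)
(fin 1103 5 847)))))))
(mv 783 (cons (fin 847 7 783)
(mv 785 (cons (fin 849 6 784)
(mv 1039 (cons (fin 1103 5 847)
(mv 1041 (cons (fin 1105 4 848)
(mv 1038 (cons (mv 977 (cons (fin 1037 2 973)
(fin 978 2 974)))
(cons (mv 973 (cons (fin 974 3 973)
(mv 1037 (cons (fin 972 3 972)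
(mv 1101 (cons (fin 1100 1 1036)
(fin 1102 1 1037)))))))
(mv 973 (cons (fin 974 3 973)
(mv 978 (cons (fin 977 2 974)
(mv 1042 (cons (fin 979 2 975)
(mv 1043 (cons (fin 975 3 975)
(mv 1107 (cons (fin 1106 0 1039)
(fin 1108 0 1040)))))))))))))))))))))))))))
(cons (cons (mv 848 (cons (cons (mv 785 (cons (fin 849 6 784)
(mv 784 (cons (fin 721 6 720)
(mv 1039 (cons (fin 975 5 783)
(fin 1103 5 847)))))))
(mv 1039 (cons (fin 1103 5 847)
(mv 784 (cons (fin 975 5 783)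
(mv 1041 (cons (fin 977 4 784)
(fin 1105 4 848))))))))
(cons (mv 785 (cons (fin 849 6 784)
(mv 784 (cons (fin 721 6 720)
(mv 1041 (cons (fin 977 4 784)
(fin 1105 4 848)))))))
(mv 849 (cons (fin 785 6 784)
(mv 1039 (cons (fin 1103 5 847)
(mv 1104 (cons (fin 913 6 848)
(mv 1105 (cons (fin 1041 4 848)
(fin 1169 4 912))))))))))))
(mv 848 (cons (cons (mv 783 (cons (fin 847 7 783)
(mv 784 (cons (fin 719 7 719)
(mv 1039 (cons (fin 975 5 783)
(fin 1103 5 847)))))))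
(mv 1039 (cons (fin 1103 5 847)
(mv 784 (cons (fin 975 5 783)
(mv 1041 (cons (fin 977 4 784)
(fin 1105 4 848))))))))
(cons (mv 783 (cons (fin 847 7 783)
(mv 784 (cons (fin 719 7 719)
(mv 1041 (cons (fin 977 4 784)
(fin 1105 4 848)))))))
(mv 847 (cons (fin 783 7 783)
(mv 1039 (cons (fin 1103 5 847)
(mv 1104 (cons (fin 911 7 847)
(mv 1105 (cons (fin 1041 4 848)
(fin 1169 4 912)))))))))))))
(cons (mv 848 (cons (cons (mv 783 (cons (fin 847 7 783)
(mv 784 (cons (fin 719 7 719)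
(mv 785 (cons (fin 721 6 720)
(fin 849 6 784)))))))
(mv 785 (cons (fin 849 6 784)
(mv 784 (cons (fin 721 6 720)
(mv 1039 (cons (fin 975 5 783)
(fin 1103 5 847))))))))
(cons (mv 783 (cons (fin 847 7 783)
(mv 784 (cons (fin 719 7 719)
(mv 1039 (cons (fin 975 5 783)
(fin 1103 5 847)))))))
(mv 847 (cons (fin 783 7 783)
(mv 849 (cons (fin 785 6 784)
(mv 1104 (cons (fin 911 7 847)
(fin 913 6 848))))))))))
(mv 848 (cons (cons (mv 783 (cons (fin 847 7 783)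
(mv 719 (cons (fin 784 7 719)
(mv 849 (cons (fin 785 6 784)
(mv 1039 (cons (fin 1103 5 847)
(mv 1104 (cons (fin 913 6 848)
(mv 1105 (cons (fin 1041 4 848)
(fin 1169 4 912)))))))))))))
(mv 783 (cons (fin 847 7 783)
(mv 784 (cons (fin 719 7 719)
(mv 1041 (cons (fin 977 4 784)
(fin 1105 4 848))))))))
(cons (mv 785 (cons (fin 849 6 784)
(mv 784 (cons (fin 721 6 720)
(mv 1041 (cons (fin 977 4 784)
(fin 1105 4 848)))))))
(cons (mv 783 (cons (fin 847 7 783)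
(mv 784 (cons (fin 719 7 719)
(mv 785 (cons (fin 721 6 720)
(fin 849 6 784)))))))
(mv 783 (cons (fin 847 7 783)
(mv 849 (cons (fin 785 6 784)
(mv 1039 (cons (fin 1103 5 847)
(mv 1104 (cons (fin 913 6 848)
(mv 1105 (cons (fin 1041 4 848)
(fin 1169 4 912))))))))))))))))))))))
(cons (cons (mv 912 (cons (cons (mv 848 (cons (cons (mv 783 (cons (fin 847 7 783)
(mv 719 (cons (fin 784 7 719)
(mv 849 (cons (fin 785 6 784)
(mv 1041 (cons (fin 1105 4 848)
(mv 1103 (cons (fin 1039 5 847)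
(mv 1104 (cons (fin 1167 5 911)
(fin 913 6 848)))))))))))))
(cons (mv 785 (cons (fin 849 6 784)
(mv 784 (cons (fin 721 6 720)
(mv 1039 (cons (fin 975 5 783)
(fin 1103 5 847)))))))
(mv 783 (cons (fin 847 7 783)
(mv 784 (cons (fin 719 7 719)
(mv 1039 (cons (fin 975 5 783)
(fin 1103 5 847)))))))))
(cons (mv 783 (cons (fin 847 7 783)
(mv 719 (cons (fin 784 7 719)
(mv 849 (cons (fin 785 6 784)
(mv 1041 (cons (fin 1105 4 848)
(mv 1104 (cons (fin 913 6 848)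
(mv 1167 (cons (fin 1103 5 911)
(mv 1168 (cons (fin 1231 5 975)
(mv 975 (cons (fin 911 7 911)
(mv 974 (cons (fin 973 0 973)
(mv 977 (cons (fin 1042 0 974)
(fin 1232 6 976)))))))))))))))))))))
(cons (mv 783 (cons (fin 847 7 783)
(mv 784 (cons (fin 719 7 719)
(mv 785 (cons (fin 721 6 720)
(fin 849 6 784)))))))
(mv 783 (cons (fin 847 7 783)
(mv 849 (cons (fin 785 6 784)
(mv 1041 (cons (fin 1105 4 848)
(mv 1103 (cons (fin 1039 5 847)
(mv 1104 (cons (fin 1167 5 911)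
(fin 913 6 848)))))))))))))))
(cons (mv 1104 (cons (cons (mv 847 (cons (fin 911 7 847)
(mv 913 (cons (fin 849 6 848)
(mv 1167 (cons (fin 1103 5 911)
(mv 1168 (cons (fin 1231 5 975)
(fin 977 6 912)))))))))
(mv 913 (cons (fin 849 6 848)
(mv 1167 (cons (fin 1103 5 911)
(mv 1168 (cons (fin 1231 5 975)
(fin 977 6 912))))))))
(cons (mv 911 (cons (fin 847 7 847)
(mv 1167 (cons (fin 1103 5 911)
(mv 1168 (cons (fin 975 7 911)
(fin 1231 5 975)))))))
(cons (mv 911 (cons (fin 847 7 847)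
(mv 913 (cons (fin 849 6 848)
(mv 1168 (cons (fin 975 7 911)
(fin 977 6 912)))))))
(mv 849 (cons (fin 913 6 848)
(mv 911 (cons (fin 847 7 847)
(mv 1103 (cons (fin 1167 5 911)
(mv 1102 (cons (cons (mv 1041 (cons (fin 1101 2 1037)
(mv 1042 (cons (fin 1039 1 1038)
(fin 1043 1 1039)))))
(mv 1101 (cons (cons (mv 1036 (cons (fin 1037 3 1036)
(mv 1100 (cons (fin 1035 3 1035)
(fin 1039 2 1036)))))
(mv 1037 (cons (fin 1036 3 1036)
(mv 1038 (cons (fin 1105 3 1037)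
(mv 977 (cons (fin 1039 2 973)
(mv 909 (cons (fin 910 0 909)
(mv 973 (cons (fin 845 4 845)
(fin 1166 4 909))))))))))))
(cons (mv 1036 (cons (fin 1037 3 1036)
(mv 1100 (cons (fin 1035 3 1035)
(mv 1164 (cons (fin 1163 1 1099)
(fin 1165 1 1100)))))))
(mv 1039 (cons (fin 1100 2 1036)
(mv 975 (cons (fin 1166 5 910)
(mv 910 (cons (fin 846 7 846)
(mv 909 (cons (fin 908 0 908)
(fin 977 0 909)))))))))))))
(cons (mv 1105 (cons (cons (mv 1037 (cons (fin 1038 3 1037)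
(mv 1042 (cons (fin 1041 2 1038)
(mv 1106 (cons (fin 1043 2 1039)
(mv 1039 (cons (fin 1107 3 1039)
(mv 1166 (cons (fin 1165 1 1101)
(fin 975 5 910)))))))))))
(cons (mv 1038 (cons (fin 1037 3 1037)
(mv 1039 (cons (fin 1106 3 1038)
(mv 1166 (cons (fin 1165 1 1101)
(fin 975 5 910)))))))
(mv 1042 (cons (fin 1041 2 1038)
(mv 1106 (cons (fin 1043 2 1039)
(mv 1039 (cons (fin 1107 3 1039)
(mv 1166 (cons (fin 1165 1 1101)
(fin 975 5 910)))))))))))
(cons (mv 1037 (cons (fin 1038 3 1037)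
(mv 1042 (cons (fin 1041 2 1038)
(mv 1106 (cons (fin 1043 2 1039)
(mv 1107 (cons (fin 1039 3 1039)
(mv 1171 (cons (fin 1172 0 1104)
(mv 978 (cons (fin 914 4 914)
(mv 977 (cons (fin 979 3 911)
(mv 910 (cons (fin 975 3 910)
(fin 909 0 909)))))))))))))))))
(cons (mv 1038 (cons (fin 1037 3 1037)
(mv 1041 (cons (fin 1042 2 1038)
(mv 1166 (cons (fin 1165 1 1101)
(mv 974 (cons (fin 975 6 910)
(mv 909 (cons (fin 973 7 909)
(mv 910 (cons (fin 977 0 909)
(fin 845 7 845)))))))))))))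
(mv 1038 (cons (fin 1037 3 1037)
(mv 1039 (cons (fin 1106 3 1038)
(mv 1041 (cons (fin 1042 1 1038)
(mv 974 (cons (fin 973 3 973)
(mv 910 (cons (fin 846 4 846)
(mv 909 (cons (fin 977 0 909)
(fin 845 7 845)))))))))))))))))
(mv 1041 (cons (fin 1101 2 1037)
(mv 1042 (cons (fin 1043 1 1039)
(fin 1105 2 1038))))))))))))))))))
(mv 848 (cons (cons (mv 783 (cons (fin 847 7 783)
(mv 784 (cons (fin 719 7 719)
(mv 785 (cons (fin 721 6 720)
(fin 849 6 784)))))))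
(mv 785 (cons (fin 849 6 784)
(mv 784 (cons (fin 721 6 720)
(mv 1039 (cons (fin 975 5 783)
(fin 1103 5 847))))))))
(cons (mv 783 (cons (fin 847 7 783)
(mv 784 (cons (fin 719 7 719)
(mv 1039 (cons (fin 975 5 783)
(fin 1103 5 847)))))))
(mv 783 (cons (fin 847 7 783)
(mv 785 (cons (fin 849 6 784)
(mv 1039 (cons (fin 1103 5 847)
(mv 1041 (cons (fin 1105 4 848)
(mv 1038 (cons (mv 977 (cons (fin 1037 2 973)
(fin 978 2 974)))
(cons (mv 973 (cons (fin 974 3 973)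
(mv 1037 (cons (fin 972 3 972)
(mv 1101 (cons (fin 1100 1 1036)
(fin 1102 1 1037)))))))
(mv 973 (cons (fin 974 3 973)
(mv 978 (cons (fin 977 2 974)
(mv 1042 (cons (fin 979 2 975)
(mv 1043 (cons (fin 975 3 975)
(mv 1107 (cons (fin 1106 0 1039)
(fin 1108 0 1040)))))))))))))))))))))))))))
(cons (cons (mv 848 (cons (cons (mv 785 (cons (fin 849 6 784)
(mv 784 (cons (fin 721 6 720)
(mv 1039 (cons (fin 975 5 783)
(fin 1103 5 847)))))))
(mv 785 (cons (fin 849 6 784)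
(mv 784 (cons (fin 721 6 720)
(mv 1041 (cons (fin 977 4 784)
(fin 1105 4 848))))))))
(cons (mv 1039 (cons (fin 1103 5 847)
(mv 784 (cons (fin 975 5 783)
(mv 1041 (cons (fin 977 4 784)
(fin 1105 4 848)))))))
(mv 849 (cons (fin 785 6 784)
(mv 1041 (cons (fin 1105 4 848)
(mv 1103 (cons (fin 1039 5 847)
(mv 1104 (cons (fin 1167 5 911)
(fin 913 6 848))))))))))))
(mv 848 (cons (cons (mv 783 (cons (fin 847 7 783)
(mv 784 (cons (fin 719 7 719)
(mv 1039 (cons (fin 975 5 783)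
(fin 1103 5 847)))))))
(mv 783 (cons (fin 847 7 783)
(mv 784 (cons (fin 719 7 719)
(mv 1041 (cons (fin 977 4 784)
(fin 1105 4 848))))))))
(cons (mv 1039 (cons (fin 1103 5 847)
(mv 784 (cons (fin 975 5 783)
(mv 1041 (cons (fin 977 4 784)
(fin 1105 4 848)))))))
(mv 847 (cons (fin 783 7 783)
(mv 1041 (cons (fin 1105 4 848)
(mv 1103 (cons (fin 1039 5 847)
(mv 1104 (cons (fin 911 7 847)
(fin 1167 5 911)))))))))))))
(cons (mv 848 (cons (cons (mv 783 (cons (fin 847 7 783)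
(mv 784 (cons (fin 719 7 719)
(mv 785 (cons (fin 721 6 720)
(fin 849 6 784)))))))
(mv 785 (cons (fin 849 6 784)
(mv 784 (cons (fin 721 6 720)
(mv 1041 (cons (fin 977 4 784)
(fin 1105 4 848))))))))
(cons (mv 783 (cons (fin 847 7 783)
(mv 784 (cons (fin 719 7 719)
(mv 1041 (cons (fin 977 4 784)
(fin 1105 4 848)))))))
(mv 847 (cons (fin 783 7 783)
(mv 849 (cons (fin 785 6 784)
(mv 1104 (cons (fin 911 7 847)
(fin 913 6 848))))))))))
(mv 848 (cons (cons (mv 783 (cons (fin 847 7 783)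
(mv 719 (cons (fin 784 7 719)
(mv 849 (cons (fin 785 6 784)
(mv 1103 (cons (fin 1039 5 847)
(mv 1104 (cons (fin 1167 5 911)
(fin 913 6 848)))))))))))
(mv 785 (cons (fin 849 6 784)
(mv 784 (cons (fin 721 6 720)
(mv 1039 (cons (fin 975 5 783)
(fin 1103 5 847))))))))
(cons (mv 783 (cons (fin 847 7 783)
(mv 784 (cons (fin 719 7 719)
(mv 1039 (cons (fin 975 5 783)
(fin 1103 5 847)))))))
(cons (mv 783 (cons (fin 847 7 783)
(mv 784 (cons (fin 719 7 719)
(mv 785 (cons (fin 721 6 720)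
(fin 849 6 784)))))))
(mv 783 (cons (fin 847 7 783)
(mv 849 (cons (fin 785 6 784)
(mv 1103 (cons (fin 1039 5 847)
(mv 1104 (cons (fin 1167 5 911)
(fin 913 6 848)))))))))))))))))
(cons (mv 912 (cons (cons (cons (mv 848 (cons (cons (cons (mv 783 (cons (fin 847 7 783)
(mv 719 (cons (fin 784 7 719)
(mv 785 (cons (fin 849 6 784)
(mv 1103 (cons (fin 1039 5 847)
(mv 1104 (cons (fin 1167 5 911)
(mv 1105 (cons (fin 1041 4 848)
(fin 1169 4 912)))))))))))))
(mv 783 (cons (fin 847 7 783)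
(mv 719 (cons (fin 784 7 719)
(mv 1103 (cons (fin 1039 5 847)
(mv 1104 (cons (fin 1167 5 911)
(mv 1105 (cons (fin 1041 4 848)
(fin 1169 4 912))))))))))))
(cons (mv 785 (cons (fin 849 6 784)
(mv 721 (cons (fin 784 6 720)
(mv 1103 (cons (fin 1039 5 847)
(mv 1104 (cons (fin 1167 5 911)
(mv 1105 (cons (fin 1041 4 848)
(fin 1169 4 912)))))))))))
(mv 783 (cons (fin 847 7 783)
(mv 719 (cons (fin 784 7 719)
(mv 849 (cons (fin 785 6 784)
(mv 1039 (cons (fin 1103 5 847)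
(mv 1104 (cons (fin 913 6 848)
(mv 1169 (cons (fin 1105 4 912)
(mv 1168 (cons (fin 1233 4 976)
(mv 975 (cons (fin 911 7 911)
(fin 1232 7 975)))))))))))))))))))
(cons (cons (mv 783 (cons (fin 847 7 783)
(mv 719 (cons (fin 784 7 719)
(mv 849 (cons (fin 785 6 784)
(mv 1041 (cons (fin 1105 4 848)
(mv 1104 (cons (fin 913 6 848)
(mv 1167 (cons (fin 1103 5 911)
(mv 1168 (cons (fin 1231 5 975)
(mv 911 (cons (fin 975 7 911)
(mv 850 (cons (fin 851 1 847)
(mv 909 (cons (fin 910 2 845)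
(mv 1232 (cons (fin 977 6 976)
(mv 1233 (cons (fin 1169 4 976)
(fin 1297 4 1040)))))))))))))))))))))))))
(mv 783 (cons (fin 847 7 783)
(mv 719 (cons (fin 784 7 719)
(mv 849 (cons (fin 785 6 784)
(mv 1104 (cons (fin 913 6 848)
(mv 1105 (cons (fin 1041 4 848)
(fin 1169 4 912))))))))))))
(cons (mv 783 (cons (fin 847 7 783)
(mv 719 (cons (fin 784 7 719)
(mv 849 (cons (fin 785 6 784)
(mv 1103 (cons (fin 1039 5 847)
(mv 1104 (cons (fin 1167 5 911)
(fin 913 6 848)))))))))))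
(cons (mv 783 (cons (fin 847 7 783)
(mv 785 (cons (fin 849 6 784)
(mv 1103 (cons (fin 1039 5 847)
(mv 1104 (cons (fin 1167 5 911)
(mv 1105 (cons (fin 1041 4 848)
(fin 1169 4 912)))))))))))
(mv 783 (cons (fin 847 7 783)
(mv 784 (cons (fin 719 7 719)
(mv 785 (cons (fin 721 6 720)
(fin 849 6 784))))))))))))
(mv 1104 (cons (cons (mv 847 (cons (fin 911 7 847)
(mv 849 (cons (fin 913 6 848)
(mv 1167 (cons (fin 1103 5 911)
(mv 1168 (cons (fin 1231 5 975)
(mv 1169 (cons (fin 1105 4 912)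
(fin 1233 4 976)))))))))))
(cons (mv 847 (cons (fin 911 7 847)
(mv 1167 (cons (fin 1103 5 911)
(mv 1168 (cons (fin 1231 5 975)
(mv 1169 (cons (fin 1105 4 912)
(fin 1233 4 976)))))))))
(mv 849 (cons (fin 913 6 848)
(mv 1167 (cons (fin 1103 5 911)
(mv 1168 (cons (fin 1231 5 975)
(mv 1169 (cons (fin 1105 4 912)
(fin 1233 4 976)))))))))))
(cons (mv 847 (cons (fin 911 7 847)
(mv 913 (cons (fin 849 6 848)
(mv 1168 (cons (fin 977 6 912)
(mv 1169 (cons (fin 1105 4 912)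
(fin 1233 4 976)))))))))
(cons (mv 847 (cons (fin 911 7 847)
(mv 913 (cons (fin 849 6 848)
(mv 1167 (cons (fin 1103 5 911)
(mv 1168 (cons (fin 1231 5 975)
(fin 977 6 912)))))))))
(mv 847 (cons (fin 911 7 847)
(mv 849 (cons (fin 913 6 848)
(mv 1103 (cons (fin 1167 5 911)
(mv 1105 (cons (fin 1169 4 912)
(mv 1102 (cons (mv 1041 (cons (fin 1101 2 1037)
(fin 1042 2 1038)))
(cons (mv 1165 (cons (fin 1166 1 1101)
(mv 1101 (cons (fin 1164 1 1100)
(mv 1036 (cons (fin 1037 3 1036)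
(mv 1100 (cons (fin 1035 3 1035)
(fin 1039 2 1036)))))))))
(mv 1165 (cons (fin 1166 1 1101)
(mv 1106 (cons (cons (mv 1042 (cons (fin 1041 2 1038)
(fin 1043 2 1039)))
(mv 1107 (cons (fin 1039 3 1039)
(mv 1043 (cons (fin 1044 2 1040)
(mv 1108 (cons (fin 1041 3 1040)
(mv 1172 (cons (fin 1171 0 1104)
(fin 1173 0 1105))))))))))
(cons (mv 1043 (cons (fin 1042 2 1039)
(mv 1107 (cons (fin 1039 3 1039)
(fin 1044 2 1040)))))
(mv 1041 (cons (fin 1042 2 1038)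
(mv 1107 (cons (fin 1039 3 1039)
(fin 1108 3 1040))))))))))))))))))))))))))
(cons (mv 848 (cons (cons (mv 783 (cons (fin 847 7 783)
(mv 784 (cons (fin 719 7 719)
(mv 785 (cons (fin 721 6 720)
(fin 849 6 784)))))))
(mv 783 (cons (fin 847 7 783)
(mv 784 (cons (fin 719 7 719)
(mv 1039 (cons (fin 975 5 783)
(fin 1103 5 847))))))))
(cons (mv 785 (cons (fin 849 6 784)
(mv 784 (cons (fin 721 6 720)
(mv 1039 (cons (fin 975 5 783)
(fin 1103 5 847)))))))
(mv 783 (cons (fin 847 7 783)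
(mv 849 (cons (fin 785 6 784)
(mv 1039 (cons (fin 1103 5 847)
(mv 1041 (cons (fin 1105 4 848)
(mv 1042 (cons (mv 975 (cons (fin 974 3 974)
(fin 1043 3 975)))
(mv 978 (cons (fin 979 2 975)
(mv 1106 (cons (fin 1107 0 1039)
(mv 913 (cons (fin 914 7 849)
(fin 977 4 849))))))))))))))))))))
(mv 1104 (cons (cons (mv 847 (cons (fin 911 7 847)
(mv 783 (cons (fin 848 7 783)
(mv 1103 (cons (fin 1167 5 911)
(mv 1169 (cons (fin 1105 4 912)
(mv 1168 (cons (fin 1233 4 976)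
(mv 977 (cons (fin 913 6 912)
(mv 1041 (cons (fin 1232 6 976)
(mv 1042 (cons (fin 1043 1 1039)
(mv 1102 (cons (fin 1039 1 1038)
(fin 1101 2 1037)))))))))))))))))))
(cons (mv 1103 (cons (fin 1167 5 911)
(mv 848 (cons (fin 1039 5 847)
(mv 1105 (cons (fin 1041 4 848)
(fin 1169 4 912)))))))
(mv 847 (cons (fin 911 7 847)
(mv 783 (cons (fin 848 7 783)
(mv 1169 (cons (fin 1105 4 912)
(mv 1168 (cons (fin 1233 4 976)
(mv 977 (cons (fin 913 6 912)
(mv 1231 (cons (fin 1167 5 975)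
(mv 1232 (cons (fin 1295 5 1039)
(fin 1041 6 976)))))))))))))))))
(cons (cons (mv 847 (cons (fin 911 7 847)
(mv 783 (cons (fin 848 7 783)
(mv 1167 (cons (fin 1103 5 911)
(mv 1168 (cons (fin 1231 5 975)
(mv 977 (cons (fin 913 6 912)
(mv 1232 (cons (fin 1041 6 976)
(mv 1233 (cons (fin 1169 4 976)
(fin 1297 4 1040)))))))))))))))
(mv 847 (cons (fin 911 7 847)
(mv 783 (cons (fin 848 7 783)
(mv 1169 (cons (fin 1105 4 912)
(mv 1168 (cons (fin 1233 4 976)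
(mv 977 (cons (fin 913 6 912)
(mv 1232 (cons (fin 1041 6 976)
(mv 1039 (cons (fin 975 7 975)
(mv 978 (cons (fin 979 1 975)
(mv 1295 (cons (fin 1231 5 1039)
(mv 1296 (cons (fin 1103 7 1039)
(fin 1359 5 1103))))))))))))))))))))))
(cons (mv 847 (cons (fin 911 7 847)
(mv 848 (cons (fin 783 7 783)
(mv 1103 (cons (fin 1039 5 847)
(fin 1167 5 911)))))))
(mv 847 (cons (fin 911 7 847)
(mv 1103 (cons (fin 1167 5 911)
(mv 1169 (cons (fin 1105 4 912)
(mv 1168 (cons (fin 1233 4 976)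
(mv 977 (cons (fin 913 6 912)
(mv 1041 (cons (fin 1232 6 976)
(mv 1042 (cons (fin 1043 1 1039)
(mv 1102 (cons (fin 1039 1 1038)
(fin 1101 2 1037)))))))))))))))))))))))
(cons (cons (mv 1104 (cons (cons (mv 849 (cons (fin 913 6 848)
(mv 785 (cons (fin 848 6 784)
(mv 1105 (cons (fin 1169 4 912)
(mv 1167 (cons (fin 1103 5 911)
(mv 1168 (cons (fin 1231 5 975)
(mv 975 (cons (fin 911 7 911)
(mv 1106 (cons (fin 1107 1 1103)
(mv 1165 (cons (fin 1166 2 1101)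
(mv 1232 (cons (fin 1039 7 975)
(mv 1041 (cons (fin 977 6 976)
(fin 1296 6 1040)))))))))))))))))))))
(cons (mv 1103 (cons (fin 1167 5 911)
(mv 848 (cons (fin 1039 5 847)
(mv 1105 (cons (fin 1041 4 848)
(fin 1169 4 912)))))))
(mv 849 (cons (fin 913 6 848)
(mv 785 (cons (fin 848 6 784)
(mv 1169 (cons (fin 1105 4 912)
(mv 1168 (cons (fin 1233 4 976)
(mv 975 (cons (fin 911 7 911)
(mv 1231 (cons (fin 1167 5 975)
(mv 1232 (cons (fin 1039 7 975)
(fin 1295 5 1039)))))))))))))))))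
(cons (cons (mv 849 (cons (fin 913 6 848)
(mv 785 (cons (fin 848 6 784)
(mv 1167 (cons (fin 1103 5 911)
(mv 1168 (cons (fin 1231 5 975)
(mv 975 (cons (fin 911 7 911)
(mv 1232 (cons (fin 1039 7 975)
(mv 1233 (cons (fin 1169 4 976)
(fin 1297 4 1040)))))))))))))))
(mv 849 (cons (fin 913 6 848)
(mv 848 (cons (fin 785 6 784)
(mv 1105 (cons (fin 1041 4 848)
(fin 1169 4 912))))))))
(cons (mv 849 (cons (fin 913 6 848)
(mv 785 (cons (fin 848 6 784)
(mv 1167 (cons (fin 1103 5 911)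
(mv 1168 (cons (fin 1231 5 975)
(mv 975 (cons (fin 911 7 911)
(mv 1232 (cons (fin 1039 7 975)
(mv 1041 (cons (fin 977 6 976)
(mv 973 (cons (fin 974 0 973)
(mv 1042 (cons (fin 1043 3 975)
(mv 1296 (cons (fin 1105 6 1040)
(mv 1297 (cons (fin 1233 4 1040)
(fin 1361 4 1104)))))))))))))))))))))))
(mv 849 (cons (fin 913 6 848)
(mv 1105 (cons (fin 1169 4 912)
(mv 1167 (cons (fin 1103 5 911)
(mv 1168 (cons (fin 1231 5 975)
(mv 975 (cons (fin 911 7 911)
(mv 1106 (cons (fin 1107 1 1103)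
(mv 1165 (cons (fin 1166 2 1101)
(mv 1232 (cons (fin 1039 7 975)
(mv 1041 (cons (fin 977 6 976)
(fin 1296 6 1040)))))))))))))))))))))))
(mv 848 (cons (cons (mv 783 (cons (fin 847 7 783)
(mv 719 (cons (fin 784 7 719)
(mv 849 (cons (fin 785 6 784)
(mv 1104 (cons (fin 913 6 848)
(mv 1105 (cons (fin 1041 4 848)
(fin 1169 4 912)))))))))))
(cons (mv 783 (cons (fin 847 7 783)
(mv 784 (cons (fin 719 7 719)
(mv 1041 (cons (fin 977 4 784)
(fin 1105 4 848)))))))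
(mv 785 (cons (fin 849 6 784)
(mv 784 (cons (fin 721 6 720)
(mv 1041 (cons (fin 977 4 784)
(fin 1105 4 848)))))))))
(cons (mv 783 (cons (fin 847 7 783)
(mv 719 (cons (fin 784 7 719)
(mv 849 (cons (fin 785 6 784)
(mv 1104 (cons (fin 913 6 848)
(mv 1169 (cons (fin 1105 4 912)
(mv 1168 (cons (fin 1233 4 976)
(mv 975 (cons (fin 911 7 911)
(mv 1231 (cons (fin 1167 5 975)
(mv 1232 (cons (fin 1039 7 975)
(fin 1295 5 1039)))))))))))))))))))
(cons (mv 783 (cons (fin 847 7 783)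
(mv 784 (cons (fin 719 7 719)
(mv 785 (cons (fin 721 6 720)
(fin 849 6 784)))))))
(mv 783 (cons (fin 847 7 783)
(mv 849 (cons (fin 785 6 784)
(mv 1104 (cons (fin 913 6 848)
(mv 1105 (cons (fin 1041 4 848)
(fin 1169 4 912))))))))))))))
(cons (mv 848 (cons (cons (mv 783 (cons (fin 847 7 783)
(mv 719 (cons (fin 784 7 719)
(mv 849 (cons (fin 785 6 784)
(mv 1103 (cons (fin 1039 5 847)
(mv 1104 (cons (fin 1167 5 911)
(fin 913 6 848)))))))))))
(mv 783 (cons (fin 847 7 783)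
(mv 784 (cons (fin 719 7 719)
(mv 1039 (cons (fin 975 5 783)
(fin 1103 5 847))))))))
(cons (mv 785 (cons (fin 849 6 784)
(mv 784 (cons (fin 721 6 720)
(mv 1039 (cons (fin 975 5 783)
(fin 1103 5 847)))))))
(cons (mv 783 (cons (fin 847 7 783)
(mv 784 (cons (fin 719 7 719)
(mv 785 (cons (fin 721 6 720)
(fin 849 6 784)))))))
(mv 783 (cons (fin 847 7 783)
(mv 849 (cons (fin 785 6 784)
(mv 1103 (cons (fin 1039 5 847)
(mv 1104 (cons (fin 1167 5 911)
(fin 913 6 848)))))))))))))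
(cons (mv 848 (cons (cons (mv 783 (cons (fin 847 7 783)
(mv 719 (cons (fin 784 7 719)
(mv 785 (cons (fin 849 6 784)
(mv 1103 (cons (fin 1039 5 847)
(mv 1104 (cons (fin 1167 5 911)
(mv 1105 (cons (fin 1041 4 848)
(fin 1169 4 912)))))))))))))
(mv 783 (cons (fin 847 7 783)
(mv 784 (cons (fin 719 7 719)
(mv 785 (cons (fin 721 6 720)
(fin 849 6 784))))))))
(cons (mv 785 (cons (fin 849 6 784)
(mv 721 (cons (fin 784 6 720)
(mv 1103 (cons (fin 1039 5 847)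
(mv 1104 (cons (fin 1167 5 911)
(mv 1105 (cons (fin 1041 4 848)
(fin 1169 4 912)))))))))))
(cons (mv 783 (cons (fin 847 7 783)
(mv 719 (cons (fin 784 7 719)
(mv 1103 (cons (fin 1039 5 847)
(mv 1104 (cons (fin 1167 5 911)
(mv 1105 (cons (fin 1041 4 848)
(fin 1169 4 912)))))))))))
(mv 783 (cons (fin 847 7 783)
(mv 785 (cons (fin 849 6 784)
(mv 1103 (cons (fin 1039 5 847)
(mv 1104 (cons (fin 1167 5 911)
(mv 1105 (cons (fin 1041 4 848)
(fin 1169 4 912)))))))))))))))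
(mv 1104 (cons (cons (mv 847 (cons (fin 911 7 847)
(mv 783 (cons (fin 848 7 783)
(mv 849 (cons (fin 913 6 848)
(mv 1167 (cons (fin 1103 5 911)
(mv 1168 (cons (fin 1231 5 975)
(mv 1169 (cons (fin 1105 4 912)
(fin 1233 4 976)))))))))))))
(cons (mv 847 (cons (fin 911 7 847)
(mv 783 (cons (fin 848 7 783)
(mv 1167 (cons (fin 1103 5 911)
(mv 1168 (cons (fin 1231 5 975)
(mv 1169 (cons (fin 1105 4 912)
(fin 1233 4 976)))))))))))
(mv 849 (cons (fin 913 6 848)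
(mv 785 (cons (fin 848 6 784)
(mv 1167 (cons (fin 1103 5 911)
(mv 1168 (cons (fin 1231 5 975)
(mv 1169 (cons (fin 1105 4 912)
(fin 1233 4 976)))))))))))))
(cons (cons (mv 847 (cons (fin 911 7 847)
(mv 783 (cons (fin 848 7 783)
(mv 913 (cons (fin 849 6 848)
(mv 1167 (cons (fin 1103 5 911)
(mv 1168 (cons (fin 1231 5 975)
(fin 977 6 912)))))))))))
(mv 847 (cons (fin 911 7 847)
(mv 783 (cons (fin 848 7 783)
(mv 913 (cons (fin 849 6 848)
(mv 1168 (cons (fin 977 6 912)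
(mv 1169 (cons (fin 1105 4 912)
(fin 1233 4 976))))))))))))
(cons (mv 847 (cons (fin 911 7 847)
(mv 848 (cons (fin 783 7 783)
(mv 849 (cons (fin 785 6 784)
(fin 913 6 848)))))))
(mv 847 (cons (fin 911 7 847)
(mv 849 (cons (fin 913 6 848)
(mv 1167 (cons (fin 1103 5 911)
(mv 1168 (cons (fin 1231 5 975)
(mv 1169 (cons (fin 1105 4 912)
(fin 1233 4 976))))))))))))))))))))
(mv 1104 (cons (cons (cons (mv 912 (cons (cons (cons (mv 847 (cons (fin 911 7 847)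
(mv 783 (cons (fin 848 7 783)
(mv 849 (cons (fin 913 6 848)
(mv 1167 (cons (fin 1103 5 911)
(mv 1168 (cons (fin 1231 5 975)
(mv 1169 (cons (fin 1105 4 912)
(fin 1233 4 976)))))))))))))
(mv 847 (cons (fin 911 7 847)
(mv 783 (cons (fin 848 7 783)
(mv 913 (cons (fin 849 6 848)
(mv 1105 (cons (fin 1169 4 912)
(mv 1168 (cons (fin 977 6 912)
(mv 1231 (cons (fin 1167 5 975)
(mv 1232 (cons (fin 1295 5 1039)
(mv 975 (cons (fin 1039 7 975)
(mv 914 (cons (fin 915 1 911)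
(mv 973 (cons (fin 974 2 909)
(mv 1296 (cons (fin 1041 6 1040)
(mv 1297 (cons (fin 1233 4 1040)
(fin 1361 4 1104))))))))))))))))))))))))))
(cons (mv 847 (cons (fin 911 7 847)
(mv 783 (cons (fin 848 7 783)
(mv 1167 (cons (fin 1103 5 911)
(mv 1168 (cons (fin 1231 5 975)
(mv 1169 (cons (fin 1105 4 912)
(fin 1233 4 976)))))))))))
(mv 847 (cons (fin 911 7 847)
(mv 783 (cons (fin 848 7 783)
(mv 913 (cons (fin 849 6 848)
(mv 1103 (cons (fin 1167 5 911)
(mv 1168 (cons (fin 977 6 912)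
(mv 1233 (cons (fin 1169 4 976)
(mv 1232 (cons (fin 1297 4 1040)
(mv 1039 (cons (fin 975 7 975)
(fin 1296 7 1039)))))))))))))))))))
(cons (cons (mv 849 (cons (fin 913 6 848)
(mv 785 (cons (fin 848 6 784)
(mv 1167 (cons (fin 1103 5 911)
(mv 1168 (cons (fin 1231 5 975)
(mv 1169 (cons (fin 1105 4 912)
(fin 1233 4 976)))))))))))
(mv 847 (cons (fin 911 7 847)
(mv 783 (cons (fin 848 7 783)
(mv 913 (cons (fin 849 6 848)
(mv 1168 (cons (fin 977 6 912)
(mv 1169 (cons (fin 1105 4 912)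
(fin 1233 4 976))))))))))))
(cons (mv 847 (cons (fin 911 7 847)
(mv 783 (cons (fin 848 7 783)
(mv 913 (cons (fin 849 6 848)
(mv 1167 (cons (fin 1103 5 911)
(mv 1168 (cons (fin 1231 5 975)
(fin 977 6 912)))))))))))
(cons (mv 847 (cons (fin 911 7 847)
(mv 849 (cons (fin 913 6 848)
(mv 1167 (cons (fin 1103 5 911)
(mv 1168 (cons (fin 1231 5 975)
(mv 1169 (cons (fin 1105 4 912)
(fin 1233 4 976)))))))))))
(mv 847 (cons (fin 911 7 847)
(mv 848 (cons (fin 783 7 783)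
(mv 849 (cons (fin 785 6 784)
(fin 913 6 848))))))))))))
(mv 1168 (cons (cons (mv 911 (cons (fin 975 7 911)
(mv 913 (cons (fin 977 6 912)
(mv 1231 (cons (fin 1167 5 975)
(mv 1232 (cons (fin 1295 5 1039)
(mv 1233 (cons (fin 1169 4 976)
(fin 1297 4 1040)))))))))))
(cons (mv 913 (cons (fin 977 6 912)
(mv 1231 (cons (fin 1167 5 975)
(mv 1232 (cons (fin 1295 5 1039)
(mv 1233 (cons (fin 1169 4 976)
(fin 1297 4 1040)))))))))
(mv 911 (cons (fin 975 7 911)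
(mv 1231 (cons (fin 1167 5 975)
(mv 1232 (cons (fin 1295 5 1039)
(mv 1233 (cons (fin 1169 4 976)
(fin 1297 4 1040)))))))))))
(cons (mv 911 (cons (fin 975 7 911)
(mv 977 (cons (fin 913 6 912)
(mv 1231 (cons (fin 1167 5 975)
(mv 1232 (cons (fin 1295 5 1039)
(fin 1041 6 976)))))))))
(cons (mv 911 (cons (fin 975 7 911)
(mv 977 (cons (fin 913 6 912)
(mv 1232 (cons (fin 1041 6 976)
(mv 1233 (cons (fin 1169 4 976)
(fin 1297 4 1040)))))))))
(mv 913 (cons (fin 977 6 912)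
(mv 975 (cons (fin 911 7 911)
(mv 1167 (cons (fin 1231 5 975)
(mv 1169 (cons (fin 1233 4 976)
(mv 1166 (cons (mv 1105 (cons (fin 1165 2 1101)
(fin 1106 2 1102)))
(cons (mv 1101 (cons (fin 1102 3 1101)
(mv 1165 (cons (fin 1100 3 1100)
(mv 1229 (cons (fin 1228 1 1164)
(fin 1230 1 1165)))))))
(mv 1102 (cons (fin 1101 3 1101)
(mv 1105 (cons (fin 1106 2 1102)
(mv 1230 (cons (fin 1229 1 1165)
(mv 1039 (cons (fin 1103 5 974)
(fin 1038 6 974)))))))))))))))))))))))))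
(cons (mv 912 (cons (cons (mv 847 (cons (fin 911 7 847)
(mv 848 (cons (fin 783 7 783)
(mv 849 (cons (fin 785 6 784)
(fin 913 6 848)))))))
(mv 849 (cons (fin 913 6 848)
(mv 848 (cons (fin 785 6 784)
(mv 1103 (cons (fin 1039 5 847)
(fin 1167 5 911))))))))
(cons (mv 847 (cons (fin 911 7 847)
(mv 848 (cons (fin 783 7 783)
(mv 1103 (cons (fin 1039 5 847)
(fin 1167 5 911)))))))
(mv 847 (cons (fin 911 7 847)
(mv 849 (cons (fin 913 6 848)
(mv 1103 (cons (fin 1167 5 911)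
(mv 1105 (cons (fin 1169 4 912)
(mv 1102 (cons (mv 1041 (cons (fin 1101 2 1037)
(fin 1042 2 1038)))
(cons (mv 1037 (cons (fin 1038 3 1037)
(mv 1101 (cons (fin 1036 3 1036)
(mv 1165 (cons (fin 1164 1 1100)
(fin 1166 1 1101)))))))
(mv 1038 (cons (fin 1037 3 1037)
(mv 1039 (cons (fin 1106 3 1038)
(mv 1041 (cons (fin 1042 1 1038)
(mv 973 (cons (fin 974 3 973)
(mv 1166 (cons (fin 1165 1 1101)
(mv 1230 (cons (fin 975 6 974)
(fin 1294 6 1038)))))))))))))))))))))))))))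
(mv 912 (cons (cons (mv 847 (cons (fin 911 7 847)
(mv 783 (cons (fin 848 7 783)
(mv 913 (cons (fin 849 6 848)
(mv 1168 (cons (fin 977 6 912)
(mv 1169 (cons (fin 1105 4 912)
(fin 1233 4 976)))))))))))
(cons (mv 847 (cons (fin 911 7 847)
(mv 848 (cons (fin 783 7 783)
(mv 1105 (cons (fin 1041 4 848)
(fin 1169 4 912)))))))
(mv 847 (cons (fin 911 7 847)
(mv 783 (cons (fin 848 7 783)
(mv 913 (cons (fin 849 6 848)
(mv 1168 (cons (fin 977 6 912)
(mv 1233 (cons (fin 1169 4 976)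
(mv 1232 (cons (fin 1297 4 1040)
(mv 1039 (cons (fin 975 7 975)
(mv 1295 (cons (fin 1231 5 1039)
(mv 1296 (cons (fin 1103 7 1039)
(fin 1359 5 1103)))))))))))))))))))))
(cons (mv 849 (cons (fin 913 6 848)
(mv 848 (cons (fin 785 6 784)
(mv 1105 (cons (fin 1041 4 848)
(fin 1169 4 912)))))))
(cons (mv 847 (cons (fin 911 7 847)
(mv 848 (cons (fin 783 7 783)
(mv 849 (cons (fin 785 6 784)
(fin 913 6 848)))))))
(mv 847 (cons (fin 911 7 847)
(mv 913 (cons (fin 849 6 848)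
(mv 1168 (cons (fin 977 6 912)
(mv 1169 (cons (fin 1105 4 912)
(fin 1233 4 976)))))))))))))))
(cons (cons (mv 1168 (cons (cons (mv 911 (cons (fin 975 7 911)
(mv 847 (cons (fin 912 7 847)
(mv 1167 (cons (fin 1231 5 975)
(mv 1233 (cons (fin 1169 4 976)
(mv 1232 (cons (fin 1297 4 1040)
(mv 1041 (cons (fin 977 6 976)
(mv 1105 (cons (fin 1296 6 1040)
(mv 1106 (cons (fin 1107 1 1103)
(mv 1166 (cons (fin 1103 1 1102)
(fin 1165 2 1101)))))))))))))))))))
(cons (mv 911 (cons (fin 975 7 911)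
(mv 847 (cons (fin 912 7 847)
(mv 1233 (cons (fin 1169 4 976)
(mv 1232 (cons (fin 1297 4 1040)
(mv 1041 (cons (fin 977 6 976)
(mv 1295 (cons (fin 1231 5 1039)
(mv 1296 (cons (fin 1359 5 1103)
(fin 1105 6 1040)))))))))))))))
(mv 1167 (cons (fin 1231 5 975)
(mv 912 (cons (fin 1103 5 911)
(mv 1169 (cons (fin 1105 4 912)
(fin 1233 4 976)))))))))
(cons (cons (mv 911 (cons (fin 975 7 911)
(mv 847 (cons (fin 912 7 847)
(mv 1231 (cons (fin 1167 5 975)
(mv 1232 (cons (fin 1295 5 1039)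
(mv 1041 (cons (fin 977 6 976)
(mv 1296 (cons (fin 1105 6 1040)
(mv 1297 (cons (fin 1233 4 1040)
(fin 1361 4 1104)))))))))))))))
(mv 911 (cons (fin 975 7 911)
(mv 912 (cons (fin 847 7 847)
(mv 1167 (cons (fin 1103 5 911)
(fin 1231 5 975))))))))
(cons (mv 911 (cons (fin 975 7 911)
(mv 847 (cons (fin 912 7 847)
(mv 1233 (cons (fin 1169 4 976)
(mv 1232 (cons (fin 1297 4 1040)
(mv 1041 (cons (fin 977 6 976)
(mv 1296 (cons (fin 1105 6 1040)
(mv 1103 (cons (fin 1039 7 1039)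
(mv 1042 (cons (fin 1043 1 1039)
(mv 1101 (cons (fin 1102 2 1037)
(mv 1359 (cons (fin 1295 5 1103)
(mv 1360 (cons (fin 1167 7 1103)
(fin 1423 5 1167)))))))))))))))))))))))
(mv 911 (cons (fin 975 7 911)
(mv 1167 (cons (fin 1231 5 975)
(mv 1233 (cons (fin 1169 4 976)
(mv 1232 (cons (fin 1297 4 1040)
(mv 1041 (cons (fin 977 6 976)
(mv 1105 (cons (fin 1296 6 1040)
(mv 1106 (cons (fin 1107 1 1103)
(mv 1166 (cons (fin 1103 1 1102)
(fin 1165 2 1101)))))))))))))))))))))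
(mv 1168 (cons (cons (mv 913 (cons (fin 977 6 912)
(mv 849 (cons (fin 912 6 848)
(mv 1169 (cons (fin 1233 4 976)
(mv 1231 (cons (fin 1167 5 975)
(mv 1232 (cons (fin 1295 5 1039)
(mv 1039 (cons (fin 975 7 975)
(mv 1103 (cons (fin 1296 7 1039)
(mv 1102 (cons (fin 1101 0 1101)
(mv 1041 (cons (fin 1042 1 1038)
(mv 1230 (cons (fin 1229 2 1165)
(mv 1166 (cons (fin 1294 6 1038)
(mv 1105 (cons (fin 1165 1 1101)
(mv 1038 (cons (fin 1037 3 1037)
(fin 1106 3 1038)))))))))))))))))))))))))))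
(cons (mv 913 (cons (fin 977 6 912)
(mv 849 (cons (fin 912 6 848)
(mv 1233 (cons (fin 1169 4 976)
(mv 1232 (cons (fin 1297 4 1040)
(mv 1039 (cons (fin 975 7 975)
(mv 1295 (cons (fin 1231 5 1039)
(mv 1296 (cons (fin 1103 7 1039)
(fin 1359 5 1103)))))))))))))))
(mv 913 (cons (fin 977 6 912)
(mv 849 (cons (fin 912 6 848)
(mv 1231 (cons (fin 1167 5 975)
(mv 1232 (cons (fin 1295 5 1039)
(mv 1039 (cons (fin 975 7 975)
(mv 1296 (cons (fin 1103 7 1039)
(mv 1297 (cons (fin 1233 4 1040)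
(fin 1361 4 1104)))))))))))))))))
(cons (cons (mv 1167 (cons (fin 1231 5 975)
(mv 912 (cons (fin 1103 5 911)
(mv 1169 (cons (fin 1105 4 912)
(fin 1233 4 976)))))))
(mv 913 (cons (fin 977 6 912)
(mv 849 (cons (fin 912 6 848)
(mv 1231 (cons (fin 1167 5 975)
(mv 1232 (cons (fin 1295 5 1039)
(mv 1039 (cons (fin 975 7 975)
(mv 1296 (cons (fin 1103 7 1039)
(mv 1105 (cons (fin 1041 6 1040)
(mv 1037 (cons (fin 1038 0 1037)
(mv 1106 (cons (fin 1107 3 1039)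
(mv 1360 (cons (fin 1169 6 1104)
(mv 1361 (cons (fin 1297 4 1104)
(fin 1425 4 1168))))))))))))))))))))))))
(cons (mv 913 (cons (fin 977 6 912)
(mv 912 (cons (fin 849 6 848)
(mv 1169 (cons (fin 1105 4 912)
(fin 1233 4 976)))))))
(mv 913 (cons (fin 977 6 912)
(mv 1169 (cons (fin 1233 4 976)
(mv 1231 (cons (fin 1167 5 975)
(mv 1232 (cons (fin 1295 5 1039)
(mv 1039 (cons (fin 975 7 975)
(mv 1103 (cons (fin 1296 7 1039)
(mv 1102 (cons (fin 1101 0 1101)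
(mv 1041 (cons (fin 1042 1 1038)
(mv 1230 (cons (fin 1229 2 1165)
(mv 1166 (cons (fin 1294 6 1038)
(mv 1105 (cons (fin 1165 1 1101)
(mv 1038 (cons (fin 1037 3 1037)
(fin 1106 3 1038))))))))))))))))))))))))))))))
(cons (mv 912 (cons (cons (mv 847 (cons (fin 911 7 847)
(mv 783 (cons (fin 848 7 783)
(mv 913 (cons (fin 849 6 848)
(mv 1167 (cons (fin 1103 5 911)
(mv 1168 (cons (fin 1231 5 975)
(fin 977 6 912)))))))))))
(mv 847 (cons (fin 911 7 847)
(mv 848 (cons (fin 783 7 783)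
(mv 1103 (cons (fin 1039 5 847)
(fin 1167 5 911))))))))
(cons (mv 847 (cons (fin 911 7 847)
(mv 848 (cons (fin 783 7 783)
(mv 849 (cons (fin 785 6 784)
(fin 913 6 848)))))))
(cons (mv 849 (cons (fin 913 6 848)
(mv 848 (cons (fin 785 6 784)
(mv 1103 (cons (fin 1039 5 847)
(fin 1167 5 911)))))))
(mv 847 (cons (fin 911 7 847)
(mv 913 (cons (fin 849 6 848)
(mv 1167 (cons (fin 1103 5 911)
(mv 1168 (cons (fin 1231 5 975)
(fin 977 6 912)))))))))))))
(mv 1168 (cons (cons (mv 911 (cons (fin 975 7 911)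
(mv 847 (cons (fin 912 7 847)
(mv 913 (cons (fin 977 6 912)
(mv 1231 (cons (fin 1167 5 975)
(mv 1232 (cons (fin 1295 5 1039)
(mv 1233 (cons (fin 1169 4 976)
(fin 1297 4 1040)))))))))))))
(cons (mv 913 (cons (fin 977 6 912)
(mv 849 (cons (fin 912 6 848)
(mv 1231 (cons (fin 1167 5 975)
(mv 1232 (cons (fin 1295 5 1039)
(mv 1233 (cons (fin 1169 4 976)
(fin 1297 4 1040)))))))))))
(mv 911 (cons (fin 975 7 911)
(mv 847 (cons (fin 912 7 847)
(mv 1231 (cons (fin 1167 5 975)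
(mv 1232 (cons (fin 1295 5 1039)
(mv 1233 (cons (fin 1169 4 976)
(fin 1297 4 1040)))))))))))))
(cons (cons (mv 911 (cons (fin 975 7 911)
(mv 847 (cons (fin 912 7 847)
(mv 977 (cons (fin 913 6 912)
(mv 1231 (cons (fin 1167 5 975)
(mv 1232 (cons (fin 1295 5 1039)
(fin 1041 6 976)))))))))))
(mv 911 (cons (fin 975 7 911)
(mv 847 (cons (fin 912 7 847)
(mv 977 (cons (fin 913 6 912)
(mv 1232 (cons (fin 1041 6 976)
(mv 1233 (cons (fin 1169 4 976)
(fin 1297 4 1040))))))))))))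
(cons (mv 911 (cons (fin 975 7 911)
(mv 912 (cons (fin 847 7 847)
(mv 913 (cons (fin 849 6 848)
(fin 977 6 912)))))))
(mv 911 (cons (fin 975 7 911)
(mv 913 (cons (fin 977 6 912)
(mv 1231 (cons (fin 1167 5 975)
(mv 1232 (cons (fin 1295 5 1039)
(mv 1233 (cons (fin 1169 4 976)
(fin 1297 4 1040)))))))))))))))))))))
(cons (mv 912 (cons (cons (cons (mv 848 (cons (cons (cons (mv 783 (cons (fin 847 7 783)
(mv 719 (cons (fin 784 7 719)
(mv 785 (cons (fin 849 6 784)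
(mv 1103 (cons (fin 1039 5 847)
(mv 1104 (cons (fin 1167 5 911)
(mv 1105 (cons (fin 1041 4 848)
(fin 1169 4 912)))))))))))))
(mv 785 (cons (fin 849 6 784)
(mv 721 (cons (fin 784 6 720)
(mv 1103 (cons (fin 1039 5 847)
(mv 1104 (cons (fin 1167 5 911)
(mv 1105 (cons (fin 1041 4 848)
(fin 1169 4 912))))))))))))
(cons (mv 783 (cons (fin 847 7 783)
(mv 719 (cons (fin 784 7 719)
(mv 1103 (cons (fin 1039 5 847)
(mv 1104 (cons (fin 1167 5 911)
(mv 1105 (cons (fin 1041 4 848)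
(fin 1169 4 912)))))))))))
(mv 783 (cons (fin 847 7 783)
(mv 719 (cons (fin 784 7 719)
(mv 849 (cons (fin 785 6 784)
(mv 1039 (cons (fin 1103 5 847)
(mv 1104 (cons (fin 913 6 848)
(mv 1169 (cons (fin 1105 4 912)
(mv 1168 (cons (fin 1233 4 976)
(mv 975 (cons (fin 911 7 911)
(fin 1232 7 975)))))))))))))))))))
(cons (cons (mv 783 (cons (fin 847 7 783)
(mv 719 (cons (fin 784 7 719)
(mv 849 (cons (fin 785 6 784)
(mv 1041 (cons (fin 1105 4 848)
(mv 1104 (cons (fin 913 6 848)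
(mv 1167 (cons (fin 1103 5 911)
(mv 1168 (cons (fin 1231 5 975)
(mv 911 (cons (fin 975 7 911)
(mv 850 (cons (fin 851 1 847)
(mv 909 (cons (fin 910 2 845)
(mv 1232 (cons (fin 977 6 976)
(mv 1233 (cons (fin 1169 4 976)
(fin 1297 4 1040)))))))))))))))))))))))))
(mv 783 (cons (fin 847 7 783)
(mv 719 (cons (fin 784 7 719)
(mv 849 (cons (fin 785 6 784)
(mv 1104 (cons (fin 913 6 848)
(mv 1105 (cons (fin 1041 4 848)
(fin 1169 4 912))))))))))))
(cons (mv 783 (cons (fin 847 7 783)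
(mv 719 (cons (fin 784 7 719)
(mv 849 (cons (fin 785 6 784)
(mv 1103 (cons (fin 1039 5 847)
(mv 1104 (cons (fin 1167 5 911)
(fin 913 6 848)))))))))))
(cons (mv 783 (cons (fin 847 7 783)
(mv 785 (cons (fin 849 6 784)
(mv 1103 (cons (fin 1039 5 847)
(mv 1104 (cons (fin 1167 5 911)
(mv 1105 (cons (fin 1041 4 848)
(fin 1169 4 912)))))))))))
(mv 783 (cons (fin 847 7 783)
(mv 784 (cons (fin 719 7 719)
(mv 785 (cons (fin 721 6 720)
(fin 849 6 784))))))))))))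
(mv 1104 (cons (cons (mv 847 (cons (fin 911 7 847)
(mv 849 (cons (fin 913 6 848)
(mv 1167 (cons (fin 1103 5 911)
(mv 1168 (cons (fin 1231 5 975)
(mv 1169 (cons (fin 1105 4 912)
(fin 1233 4 976)))))))))))
(cons (mv 849 (cons (fin 913 6 848)
(mv 1167 (cons (fin 1103 5 911)
(mv 1168 (cons (fin 1231 5 975)
(mv 1169 (cons (fin 1105 4 912)
(fin 1233 4 976)))))))))
(mv 847 (cons (fin 911 7 847)
(mv 1167 (cons (fin 1103 5 911)
(mv 1168 (cons (fin 1231 5 975)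
(mv 1169 (cons (fin 1105 4 912)
(fin 1233 4 976)))))))))))
(cons (mv 847 (cons (fin 911 7 847)
(mv 913 (cons (fin 849 6 848)
(mv 1168 (cons (fin 977 6 912)
(mv 1169 (cons (fin 1105 4 912)
(fin 1233 4 976)))))))))
(cons (mv 847 (cons (fin 911 7 847)
(mv 913 (cons (fin 849 6 848)
(mv 1167 (cons (fin 1103 5 911)
(mv 1168 (cons (fin 1231 5 975)
(fin 977 6 912)))))))))
(mv 847 (cons (fin 911 7 847)
(mv 849 (cons (fin 913 6 848)
(mv 1103 (cons (fin 1167 5 911)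
(mv 1105 (cons (fin 1169 4 912)
(mv 1106 (cons (mv 1039 (cons (fin 1038 3 1038)
(fin 1107 3 1039)))
(cons (mv 1043 (cons (fin 1042 2 1039)
(mv 1107 (cons (fin 1044 2 1040)
(mv 1108 (cons (fin 1041 3 1040)
(mv 1172 (cons (fin 1171 0 1104)
(fin 1173 0 1105)))))))))
(mv 1039 (cons (fin 1038 3 1038)
(mv 1042 (cons (fin 1043 2 1039)
(mv 1041 (cons (fin 1102 1 1038)
(mv 975 (cons (fin 974 3 974)
(mv 978 (cons (fin 979 2 975)
(mv 914 (cons (fin 850 5 849)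
(mv 915 (cons (fin 977 2 911)
(fin 851 6 850)))))))))))))))))))))))))))))))
(cons (mv 848 (cons (cons (mv 783 (cons (fin 847 7 783)
(mv 784 (cons (fin 719 7 719)
(mv 785 (cons (fin 721 6 720)
(fin 849 6 784)))))))
(mv 785 (cons (fin 849 6 784)
(mv 784 (cons (fin 721 6 720)
(mv 1039 (cons (fin 975 5 783)
(fin 1103 5 847))))))))
(cons (mv 783 (cons (fin 847 7 783)
(mv 784 (cons (fin 719 7 719)
(mv 1039 (cons (fin 975 5 783)
(fin 1103 5 847)))))))
(mv 783 (cons (fin 847 7 783)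
(mv 785 (cons (fin 849 6 784)
(mv 1039 (cons (fin 1103 5 847)
(mv 1041 (cons (fin 1105 4 848)
(mv 1042 (cons (mv 975 (cons (fin 974 3 974)
(fin 1043 3 975)))
(cons (mv 978 (cons (fin 979 2 975)
(mv 977 (cons (fin 1038 2 974)
(mv 1043 (cons (fin 1044 3 976)
(mv 1107 (cons (fin 1106 0 1039)
(fin 1108 0 1040)))))))))
(mv 974 (cons (fin 975 3 974)
(mv 978 (cons (fin 979 2 975)
(mv 1038 (cons (fin 973 3 973)
(fin 977 2 974)))))))))))))))))))))
(mv 1104 (cons (cons (mv 849 (cons (fin 913 6 848)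
(mv 785 (cons (fin 848 6 784)
(mv 1105 (cons (fin 1169 4 912)
(mv 1167 (cons (fin 1103 5 911)
(mv 1168 (cons (fin 1231 5 975)
(mv 975 (cons (fin 911 7 911)
(mv 1039 (cons (fin 1232 7 975)
(mv 1106 (cons (fin 1107 3 1039)
(mv 1041 (cons (fin 1038 0 1038)
(mv 974 (cons (fin 1042 3 974)
(fin 973 0 973)))))))))))))))))))))
(cons (mv 1103 (cons (fin 1167 5 911)
(mv 848 (cons (fin 1039 5 847)
(mv 1105 (cons (fin 1041 4 848)
(fin 1169 4 912)))))))
(mv 849 (cons (fin 913 6 848)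
(mv 785 (cons (fin 848 6 784)
(mv 1169 (cons (fin 1105 4 912)
(mv 1168 (cons (fin 1233 4 976)
(mv 975 (cons (fin 911 7 911)
(mv 1231 (cons (fin 1167 5 975)
(mv 1232 (cons (fin 1039 7 975)
(fin 1295 5 1039)))))))))))))))))
(cons (cons (mv 849 (cons (fin 913 6 848)
(mv 785 (cons (fin 848 6 784)
(mv 1167 (cons (fin 1103 5 911)
(mv 1168 (cons (fin 1231 5 975)
(mv 975 (cons (fin 911 7 911)
(mv 1232 (cons (fin 1039 7 975)
(mv 1233 (cons (fin 1169 4 976)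
(fin 1297 4 1040)))))))))))))))
(mv 849 (cons (fin 913 6 848)
(mv 848 (cons (fin 785 6 784)
(mv 1105 (cons (fin 1041 4 848)
(fin 1169 4 912))))))))
(cons (mv 849 (cons (fin 913 6 848)
(mv 785 (cons (fin 848 6 784)
(mv 1167 (cons (fin 1103 5 911)
(mv 1168 (cons (fin 1231 5 975)
(mv 975 (cons (fin 911 7 911)
(mv 1232 (cons (fin 1039 7 975)
(mv 1041 (cons (fin 977 6 976)
(mv 973 (cons (fin 974 0 973)
(mv 1042 (cons (fin 1043 3 975)
(mv 1296 (cons (fin 1105 6 1040)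
(mv 1297 (cons (fin 1233 4 1040)
(fin 1361 4 1104)))))))))))))))))))))))
(mv 849 (cons (fin 913 6 848)
(mv 1105 (cons (fin 1169 4 912)
(mv 1167 (cons (fin 1103 5 911)
(mv 1168 (cons (fin 1231 5 975)
(mv 975 (cons (fin 911 7 911)
(mv 1039 (cons (fin 1232 7 975)
(mv 1106 (cons (fin 1107 3 1039)
(mv 1041 (cons (fin 1038 0 1038)
(mv 974 (cons (fin 1042 3 974)
(fin 973 0 973)))))))))))))))))))))))))
(cons (cons (mv 1104 (cons (cons (mv 847 (cons (fin 911 7 847)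
(mv 783 (cons (fin 848 7 783)
(mv 1103 (cons (fin 1167 5 911)
(mv 1169 (cons (fin 1105 4 912)
(mv 1168 (cons (fin 1233 4 976)
(mv 977 (cons (fin 913 6 912)
(mv 1041 (cons (fin 1232 6 976)
(mv 1042 (cons (fin 1043 1 1039)
(mv 1102 (cons (fin 1039 1 1038)
(fin 1101 2 1037)))))))))))))))))))
(cons (mv 1103 (cons (fin 1167 5 911)
(mv 848 (cons (fin 1039 5 847)
(mv 1105 (cons (fin 1041 4 848)
(fin 1169 4 912)))))))
(mv 847 (cons (fin 911 7 847)
(mv 783 (cons (fin 848 7 783)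
(mv 1169 (cons (fin 1105 4 912)
(mv 1168 (cons (fin 1233 4 976)
(mv 977 (cons (fin 913 6 912)
(mv 1231 (cons (fin 1167 5 975)
(mv 1232 (cons (fin 1295 5 1039)
(fin 1041 6 976)))))))))))))))))
(cons (cons (mv 847 (cons (fin 911 7 847)
(mv 783 (cons (fin 848 7 783)
(mv 1167 (cons (fin 1103 5 911)
(mv 1168 (cons (fin 1231 5 975)
(mv 977 (cons (fin 913 6 912)
(mv 1232 (cons (fin 1041 6 976)
(mv 1233 (cons (fin 1169 4 976)
(fin 1297 4 1040)))))))))))))))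
(mv 847 (cons (fin 911 7 847)
(mv 783 (cons (fin 848 7 783)
(mv 1169 (cons (fin 1105 4 912)
(mv 1168 (cons (fin 1233 4 976)
(mv 977 (cons (fin 913 6 912)
(mv 1232 (cons (fin 1041 6 976)
(mv 1039 (cons (fin 975 7 975)
(mv 978 (cons (fin 979 1 975)
(mv 1295 (cons (fin 1231 5 1039)
(mv 1296 (cons (fin 1103 7 1039)
(fin 1359 5 1103))))))))))))))))))))))
(cons (mv 847 (cons (fin 911 7 847)
(mv 848 (cons (fin 783 7 783)
(mv 1103 (cons (fin 1039 5 847)
(fin 1167 5 911)))))))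
(mv 847 (cons (fin 911 7 847)
(mv 1103 (cons (fin 1167 5 911)
(mv 1169 (cons (fin 1105 4 912)
(mv 1168 (cons (fin 1233 4 976)
(mv 977 (cons (fin 913 6 912)
(mv 1041 (cons (fin 1232 6 976)
(mv 1042 (cons (fin 1043 1 1039)
(mv 1102 (cons (fin 1039 1 1038)
(fin 1101 2 1037)))))))))))))))))))))
(mv 848 (cons (cons (mv 783 (cons (fin 847 7 783)
(mv 719 (cons (fin 784 7 719)
(mv 849 (cons (fin 785 6 784)
(mv 1104 (cons (fin 913 6 848)
(mv 1105 (cons (fin 1041 4 848)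
(fin 1169 4 912)))))))))))
(cons (mv 785 (cons (fin 849 6 784)
(mv 784 (cons (fin 721 6 720)
(mv 1041 (cons (fin 977 4 784)
(fin 1105 4 848)))))))
(mv 783 (cons (fin 847 7 783)
(mv 784 (cons (fin 719 7 719)
(mv 1041 (cons (fin 977 4 784)
(fin 1105 4 848)))))))))
(cons (mv 783 (cons (fin 847 7 783)
(mv 719 (cons (fin 784 7 719)
(mv 849 (cons (fin 785 6 784)
(mv 1104 (cons (fin 913 6 848)
(mv 1169 (cons (fin 1105 4 912)
(mv 1168 (cons (fin 1233 4 976)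
(mv 975 (cons (fin 911 7 911)
(mv 1231 (cons (fin 1167 5 975)
(mv 1232 (cons (fin 1039 7 975)
(fin 1295 5 1039)))))))))))))))))))
(cons (mv 783 (cons (fin 847 7 783)
(mv 784 (cons (fin 719 7 719)
(mv 785 (cons (fin 721 6 720)
(fin 849 6 784)))))))
(mv 783 (cons (fin 847 7 783)
(mv 849 (cons (fin 785 6 784)
(mv 1104 (cons (fin 913 6 848)
(mv 1105 (cons (fin 1041 4 848)
(fin 1169 4 912))))))))))))))
(cons (mv 848 (cons (cons (mv 783 (cons (fin 847 7 783)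
(mv 719 (cons (fin 784 7 719)
(mv 849 (cons (fin 785 6 784)
(mv 1103 (cons (fin 1039 5 847)
(mv 1104 (cons (fin 1167 5 911)
(fin 913 6 848)))))))))))
(mv 785 (cons (fin 849 6 784)
(mv 784 (cons (fin 721 6 720)
(mv 1039 (cons (fin 975 5 783)
(fin 1103 5 847))))))))
(cons (mv 783 (cons (fin 847 7 783)
(mv 784 (cons (fin 719 7 719)
(mv 1039 (cons (fin 975 5 783)
(fin 1103 5 847)))))))
(cons (mv 783 (cons (fin 847 7 783)
(mv 784 (cons (fin 719 7 719)
(mv 785 (cons (fin 721 6 720)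
(fin 849 6 784)))))))
(mv 783 (cons (fin 847 7 783)
(mv 849 (cons (fin 785 6 784)
(mv 1103 (cons (fin 1039 5 847)
(mv 1104 (cons (fin 1167 5 911)
(fin 913 6 848)))))))))))))
(mv 1104 (cons (cons (mv 847 (cons (fin 911 7 847)
(mv 783 (cons (fin 848 7 783)
(mv 849 (cons (fin 913 6 848)
(mv 1167 (cons (fin 1103 5 911)
(mv 1168 (cons (fin 1231 5 975)
(mv 1169 (cons (fin 1105 4 912)
(fin 1233 4 976)))))))))))))
(cons (mv 847 (cons (fin 911 7 847)
(mv 783 (cons (fin 848 7 783)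
(mv 1167 (cons (fin 1103 5 911)
(mv 1168 (cons (fin 1231 5 975)
(mv 1169 (cons (fin 1105 4 912)
(fin 1233 4 976)))))))))))
(mv 849 (cons (fin 913 6 848)
(mv 785 (cons (fin 848 6 784)
(mv 1167 (cons (fin 1103 5 911)
(mv 1168 (cons (fin 1231 5 975)
(mv 1169 (cons (fin 1105 4 912)
(fin 1233 4 976)))))))))))))
(cons (cons (mv 847 (cons (fin 911 7 847)
(mv 783 (cons (fin 848 7 783)
(mv 913 (cons (fin 849 6 848)
(mv 1167 (cons (fin 1103 5 911)
(mv 1168 (cons (fin 1231 5 975)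
(fin 977 6 912)))))))))))
(mv 847 (cons (fin 911 7 847)
(mv 783 (cons (fin 848 7 783)
(mv 913 (cons (fin 849 6 848)
(mv 1168 (cons (fin 977 6 912)
(mv 1169 (cons (fin 1105 4 912)
(fin 1233 4 976))))))))))))
(cons (mv 847 (cons (fin 911 7 847)
(mv 848 (cons (fin 783 7 783)
(mv 849 (cons (fin 785 6 784)
(fin 913 6 848)))))))
(mv 847 (cons (fin 911 7 847)
(mv 849 (cons (fin 913 6 848)
(mv 1167 (cons (fin 1103 5 911)
(mv 1168 (cons (fin 1231 5 975)
(mv 1169 (cons (fin 1105 4 912)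
(fin 1233 4 976)))))))))))))))))))
(cons (mv 912 (cons (cons (cons (mv 848 (cons (cons (cons (mv 783 (cons (fin 847 7 783)
(mv 719 (cons (fin 784 7 719)
(mv 785 (cons (fin 849 6 784)
(mv 1103 (cons (fin 1039 5 847)
(mv 1104 (cons (fin 1167 5 911)
(mv 1105 (cons (fin 1041 4 848)
(fin 1169 4 912)))))))))))))
(mv 785 (cons (fin 849 6 784)
(mv 721 (cons (fin 784 6 720)
(mv 1103 (cons (fin 1039 5 847)
(mv 1104 (cons (fin 1167 5 911)
(mv 1105 (cons (fin 1041 4 848)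
(fin 1169 4 912))))))))))))
(cons (mv 783 (cons (fin 847 7 783)
(mv 719 (cons (fin 784 7 719)
(mv 1103 (cons (fin 1039 5 847)
(mv 1104 (cons (fin 1167 5 911)
(mv 1105 (cons (fin 1041 4 848)
(fin 1169 4 912)))))))))))
(mv 783 (cons (fin 847 7 783)
(mv 719 (cons (fin 784 7 719)
(mv 849 (cons (fin 785 6 784)
(mv 1039 (cons (fin 1103 5 847)
(mv 1104 (cons (fin 913 6 848)
(mv 1169 (cons (fin 1105 4 912)
(mv 1168 (cons (fin 1233 4 976)
(mv 975 (cons (fin 911 7 911)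
(fin 1232 7 975)))))))))))))))))))
(cons (cons (mv 783 (cons (fin 847 7 783)
(mv 719 (cons (fin 784 7 719)
(mv 849 (cons (fin 785 6 784)
(mv 1041 (cons (fin 1105 4 848)
(mv 1104 (cons (fin 913 6 848)
(mv 1167 (cons (fin 1103 5 911)
(mv 1168 (cons (fin 1231 5 975)
(mv 911 (cons (fin 975 7 911)
(mv 850 (cons (fin 851 1 847)
(mv 909 (cons (fin 910 2 845)
(mv 1232 (cons (fin 977 6 976)
(mv 1233 (cons (fin 1169 4 976)
(fin 1297 4 1040)))))))))))))))))))))))))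
(mv 783 (cons (fin 847 7 783)
(mv 719 (cons (fin 784 7 719)
(mv 849 (cons (fin 785 6 784)
(mv 1103 (cons (fin 1039 5 847)
(mv 1104 (cons (fin 1167 5 911)
(fin 913 6 848))))))))))))
(cons (mv 783 (cons (fin 847 7 783)
(mv 719 (cons (fin 784 7 719)
(mv 849 (cons (fin 785 6 784)
(mv 1104 (cons (fin 913 6 848)
(mv 1105 (cons (fin 1041 4 848)
(fin 1169 4 912)))))))))))
(cons (mv 783 (cons (fin 847 7 783)
(mv 785 (cons (fin 849 6 784)
(mv 1103 (cons (fin 1039 5 847)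
(mv 1104 (cons (fin 1167 5 911)
(mv 1105 (cons (fin 1041 4 848)
(fin 1169 4 912)))))))))))
(mv 783 (cons (fin 847 7 783)
(mv 784 (cons (fin 719 7 719)
(mv 785 (cons (fin 721 6 720)
(fin 849 6 784))))))))))))
(mv 1104 (cons (cons (mv 847 (cons (fin 911 7 847)
(mv 849 (cons (fin 913 6 848)
(mv 1167 (cons (fin 1103 5 911)
(mv 1168 (cons (fin 1231 5 975)
(mv 1169 (cons (fin 1105 4 912)
(fin 1233 4 976)))))))))))
(cons (mv 849 (cons (fin 913 6 848)
(mv 1167 (cons (fin 1103 5 911)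
(mv 1168 (cons (fin 1231 5 975)
(mv 1169 (cons (fin 1105 4 912)
(fin 1233 4 976)))))))))
(mv 847 (cons (fin 911 7 847)
(mv 1167 (cons (fin 1103 5 911)
(mv 1168 (cons (fin 1231 5 975)
(mv 1169 (cons (fin 1105 4 912)
(fin 1233 4 976)))))))))))
(cons (mv 847 (cons (fin 911 7 847)
(mv 913 (cons (fin 849 6 848)
(mv 1168 (cons (fin 977 6 912)
(mv 1169 (cons (fin 1105 4 912)
(fin 1233 4 976)))))))))
(cons (mv 847 (cons (fin 911 7 847)
(mv 913 (cons (fin 849 6 848)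
(mv 1167 (cons (fin 1103 5 911)
(mv 1168 (cons (fin 1231 5 975)
(fin 977 6 912)))))))))
(mv 847 (cons (fin 911 7 847)
(mv 849 (cons (fin 913 6 848)
(mv 1103 (cons (fin 1167 5 911)
(mv 1105 (cons (fin 1169 4 912)
(mv 1106 (cons (mv 1039 (cons (fin 1038 3 1038)
(fin 1107 3 1039)))
(cons (mv 1043 (cons (fin 1042 2 1039)
(mv 1107 (cons (fin 1044 2 1040)
(mv 1108 (cons (fin 1041 3 1040)
(mv 1172 (cons (fin 1171 0 1104)
(fin 1173 0 1105)))))))))
(mv 1038 (cons (fin 1039 3 1038)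
(mv 1042 (cons (fin 1043 2 1039)
(mv 1102 (cons (fin 1037 3 1037)
(fin 1041 2 1038)))))))))))))))))))))))
(cons (mv 848 (cons (cons (mv 783 (cons (fin 847 7 783)
(mv 784 (cons (fin 719 7 719)
(mv 785 (cons (fin 721 6 720)
(fin 849 6 784)))))))
(mv 785 (cons (fin 849 6 784)
(mv 784 (cons (fin 721 6 720)
(mv 1039 (cons (fin 975 5 783)
(fin 1103 5 847))))))))
(cons (mv 783 (cons (fin 847 7 783)
(mv 784 (cons (fin 719 7 719)
(mv 1039 (cons (fin 975 5 783)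
(fin 1103 5 847)))))))
(mv 783 (cons (fin 847 7 783)
(mv 785 (cons (fin 849 6 784)
(mv 1039 (cons (fin 1103 5 847)
(mv 1041 (cons (fin 1105 4 848)
(mv 1042 (cons (mv 975 (cons (fin 974 3 974)
(fin 1043 3 975)))
(cons (mv 978 (cons (fin 979 2 975)
(mv 977 (cons (fin 1038 2 974)
(mv 1043 (cons (fin 1044 3 976)
(mv 1107 (cons (fin 1106 0 1039)
(fin 1108 0 1040)))))))))
(mv 974 (cons (fin 975 3 974)
(mv 978 (cons (fin 979 2 975)
(mv 1038 (cons (fin 973 3 973)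
(fin 977 2 974)))))))))))))))))))))
(mv 1104 (cons (cons (mv 849 (cons (fin 913 6 848)
(mv 785 (cons (fin 848 6 784)
(mv 1105 (cons (fin 1169 4 912)
(mv 1167 (cons (fin 1103 5 911)
(mv 1168 (cons (fin 1231 5 975)
(mv 975 (cons (fin 911 7 911)
(mv 1039 (cons (fin 1232 7 975)
(mv 1038 (cons (fin 1037 0 1037)
(mv 1106 (cons (fin 1107 3 1039)
(fin 1041 0 1038)))))))))))))))))))
(cons (mv 1103 (cons (fin 1167 5 911)
(mv 848 (cons (fin 1039 5 847)
(mv 1105 (cons (fin 1041 4 848)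
(fin 1169 4 912)))))))
(mv 849 (cons (fin 913 6 848)
(mv 785 (cons (fin 848 6 784)
(mv 1167 (cons (fin 1103 5 911)
(mv 1168 (cons (fin 1231 5 975)
(mv 975 (cons (fin 911 7 911)
(mv 1232 (cons (fin 1039 7 975)
(mv 1233 (cons (fin 1169 4 976)
(fin 1297 4 1040)))))))))))))))))
(cons (cons (mv 849 (cons (fin 913 6 848)
(mv 785 (cons (fin 848 6 784)
(mv 1169 (cons (fin 1105 4 912)
(mv 1168 (cons (fin 1233 4 976)
(mv 975 (cons (fin 911 7 911)
(mv 1231 (cons (fin 1167 5 975)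
(mv 1232 (cons (fin 1039 7 975)
(fin 1295 5 1039)))))))))))))))
(mv 849 (cons (fin 913 6 848)
(mv 848 (cons (fin 785 6 784)
(mv 1105 (cons (fin 1041 4 848)
(fin 1169 4 912))))))))
(cons (mv 849 (cons (fin 913 6 848)
(mv 785 (cons (fin 848 6 784)
(mv 1167 (cons (fin 1103 5 911)
(mv 1168 (cons (fin 1231 5 975)
(mv 975 (cons (fin 911 7 911)
(mv 1232 (cons (fin 1039 7 975)
(mv 1041 (cons (fin 977 6 976)
(mv 973 (cons (fin 974 0 973)
(mv 1042 (cons (fin 1043 3 975)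
(mv 1296 (cons (fin 1105 6 1040)
(mv 1297 (cons (fin 1233 4 1040)
(fin 1361 4 1104)))))))))))))))))))))))
(mv 849 (cons (fin 913 6 848)
(mv 1105 (cons (fin 1169 4 912)
(mv 1167 (cons (fin 1103 5 911)
(mv 1168 (cons (fin 1231 5 975)
(mv 975 (cons (fin 911 7 911)
(mv 1039 (cons (fin 1232 7 975)
(mv 1038 (cons (fin 1037 0 1037)
(mv 1106 (cons (fin 1107 3 1039)
(fin 1041 0 1038)))))))))))))))))))))))
(cons (cons (mv 1104 (cons (cons (mv 847 (cons (fin 911 7 847)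
(mv 783 (cons (fin 848 7 783)
(mv 1103 (cons (fin 1167 5 911)
(mv 1169 (cons (fin 1105 4 912)
(mv 1168 (cons (fin 1233 4 976)
(mv 977 (cons (fin 913 6 912)
(mv 1041 (cons (fin 1232 6 976)
(mv 1042 (cons (fin 1043 1 1039)
(mv 974 (cons (fin 975 0 974)
(mv 1039 (cons (fin 1102 1 1038)
(mv 978 (cons (fin 979 1 975)
(fin 1038 2 974)))))))))))))))))))))))
(cons (mv 1103 (cons (fin 1167 5 911)
(mv 848 (cons (fin 1039 5 847)
(mv 1105 (cons (fin 1041 4 848)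
(fin 1169 4 912)))))))
(mv 847 (cons (fin 911 7 847)
(mv 783 (cons (fin 848 7 783)
(mv 1167 (cons (fin 1103 5 911)
(mv 1168 (cons (fin 1231 5 975)
(mv 977 (cons (fin 913 6 912)
(mv 1232 (cons (fin 1041 6 976)
(mv 1233 (cons (fin 1169 4 976)
(fin 1297 4 1040)))))))))))))))))
(cons (cons (mv 847 (cons (fin 911 7 847)
(mv 783 (cons (fin 848 7 783)
(mv 1169 (cons (fin 1105 4 912)
(mv 1168 (cons (fin 1233 4 976)
(mv 977 (cons (fin 913 6 912)
(mv 1231 (cons (fin 1167 5 975)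
(mv 1232 (cons (fin 1295 5 1039)
(fin 1041 6 976)))))))))))))))
(mv 847 (cons (fin 911 7 847)
(mv 783 (cons (fin 848 7 783)
(mv 1169 (cons (fin 1105 4 912)
(mv 1168 (cons (fin 1233 4 976)
(mv 977 (cons (fin 913 6 912)
(mv 1232 (cons (fin 1041 6 976)
(mv 1039 (cons (fin 975 7 975)
(mv 978 (cons (fin 979 1 975)
(mv 1037 (cons (fin 1038 2 973)
(mv 1295 (cons (fin 1231 5 1039)
(mv 1296 (cons (fin 1103 7 1039)
(fin 1359 5 1103))))))))))))))))))))))))
(cons (mv 847 (cons (fin 911 7 847)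
(mv 848 (cons (fin 783 7 783)
(mv 1103 (cons (fin 1039 5 847)
(fin 1167 5 911)))))))
(mv 847 (cons (fin 911 7 847)
(mv 1103 (cons (fin 1167 5 911)
(mv 1169 (cons (fin 1105 4 912)
(mv 1168 (cons (fin 1233 4 976)
(mv 977 (cons (fin 913 6 912)
(mv 1041 (cons (fin 1232 6 976)
(mv 1042 (cons (fin 1043 1 1039)
(mv 974 (cons (fin 975 0 974)
(mv 1039 (cons (fin 1102 1 1038)
(mv 978 (cons (fin 979 1 975)
(fin 1038 2 974)))))))))))))))))))))))))
(mv 848 (cons (cons (mv 783 (cons (fin 847 7 783)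
(mv 719 (cons (fin 784 7 719)
(mv 849 (cons (fin 785 6 784)
(mv 1103 (cons (fin 1039 5 847)
(mv 1104 (cons (fin 1167 5 911)
(fin 913 6 848)))))))))))
(mv 785 (cons (fin 849 6 784)
(mv 784 (cons (fin 721 6 720)
(mv 1039 (cons (fin 975 5 783)
(fin 1103 5 847))))))))
(cons (mv 783 (cons (fin 847 7 783)
(mv 784 (cons (fin 719 7 719)
(mv 1039 (cons (fin 975 5 783)
(fin 1103 5 847)))))))
(cons (mv 783 (cons (fin 847 7 783)
(mv 784 (cons (fin 719 7 719)
(mv 785 (cons (fin 721 6 720)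
(fin 849 6 784)))))))
(mv 783 (cons (fin 847 7 783)
(mv 849 (cons (fin 785 6 784)
(mv 1103 (cons (fin 1039 5 847)
(mv 1104 (cons (fin 1167 5 911)
(fin 913 6 848))))))))))))))
(cons (mv 848 (cons (cons (mv 783 (cons (fin 847 7 783)
(mv 719 (cons (fin 784 7 719)
(mv 849 (cons (fin 785 6 784)
(mv 1104 (cons (fin 913 6 848)
(mv 1105 (cons (fin 1041 4 848)
(fin 1169 4 912)))))))))))
(cons (mv 785 (cons (fin 849 6 784)
(mv 784 (cons (fin 721 6 720)
(mv 1041 (cons (fin 977 4 784)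
(fin 1105 4 848)))))))
(mv 783 (cons (fin 847 7 783)
(mv 784 (cons (fin 719 7 719)
(mv 1041 (cons (fin 977 4 784)
(fin 1105 4 848)))))))))
(cons (mv 783 (cons (fin 847 7 783)
(mv 719 (cons (fin 784 7 719)
(mv 849 (cons (fin 785 6 784)
(mv 1104 (cons (fin 913 6 848)
(mv 1169 (cons (fin 1105 4 912)
(mv 1168 (cons (fin 1233 4 976)
(mv 975 (cons (fin 911 7 911)
(mv 1231 (cons (fin 1167 5 975)
(mv 1232 (cons (fin 1039 7 975)
(fin 1295 5 1039)))))))))))))))))))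
(cons (mv 783 (cons (fin 847 7 783)
(mv 784 (cons (fin 719 7 719)
(mv 785 (cons (fin 721 6 720)
(fin 849 6 784)))))))
(mv 783 (cons (fin 847 7 783)
(mv 849 (cons (fin 785 6 784)
(mv 1104 (cons (fin 913 6 848)
(mv 1105 (cons (fin 1041 4 848)
(fin 1169 4 912)))))))))))))
(mv 1104 (cons (cons (mv 847 (cons (fin 911 7 847)
(mv 783 (cons (fin 848 7 783)
(mv 849 (cons (fin 913 6 848)
(mv 1167 (cons (fin 1103 5 911)
(mv 1168 (cons (fin 1231 5 975)
(mv 1169 (cons (fin 1105 4 912)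
(fin 1233 4 976)))))))))))))
(cons (mv 847 (cons (fin 911 7 847)
(mv 783 (cons (fin 848 7 783)
(mv 1167 (cons (fin 1103 5 911)
(mv 1168 (cons (fin 1231 5 975)
(mv 1169 (cons (fin 1105 4 912)
(fin 1233 4 976)))))))))))
(mv 849 (cons (fin 913 6 848)
(mv 785 (cons (fin 848 6 784)
(mv 1167 (cons (fin 1103 5 911)
(mv 1168 (cons (fin 1231 5 975)
(mv 1169 (cons (fin 1105 4 912)
(fin 1233 4 976)))))))))))))
(cons (cons (mv 847 (cons (fin 911 7 847)
(mv 783 (cons (fin 848 7 783)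
(mv 913 (cons (fin 849 6 848)
(mv 1167 (cons (fin 1103 5 911)
(mv 1168 (cons (fin 1231 5 975)
(fin 977 6 912)))))))))))
(mv 847 (cons (fin 911 7 847)
(mv 783 (cons (fin 848 7 783)
(mv 913 (cons (fin 849 6 848)
(mv 1168 (cons (fin 977 6 912)
(mv 1169 (cons (fin 1105 4 912)
(fin 1233 4 976))))))))))))
(cons (mv 847 (cons (fin 911 7 847)
(mv 848 (cons (fin 783 7 783)
(mv 849 (cons (fin 785 6 784)
(fin 913 6 848)))))))
(mv 847 (cons (fin 911 7 847)
(mv 849 (cons (fin 913 6 848)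
(mv 1167 (cons (fin 1103 5 911)
(mv 1168 (cons (fin 1231 5 975)
(mv 1169 (cons (fin 1105 4 912)
(fin 1233 4 976)))))))))))))))))))
(mv 912 (cons (cons (cons (mv 848 (cons (cons (cons (mv 783 (cons (fin 847 7 783)
(mv 719 (cons (fin 784 7 719)
(mv 785 (cons (fin 849 6 784)
(mv 1103 (cons (fin 1039 5 847)
(mv 1104 (cons (fin 1167 5 911)
(mv 1105 (cons (fin 1041 4 848)
(fin 1169 4 912)))))))))))))
(mv 783 (cons (fin 847 7 783)
(mv 719 (cons (fin 784 7 719)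
(mv 1103 (cons (fin 1039 5 847)
(mv 1104 (cons (fin 1167 5 911)
(mv 1105 (cons (fin 1041 4 848)
(fin 1169 4 912))))))))))))
(cons (mv 785 (cons (fin 849 6 784)
(mv 721 (cons (fin 784 6 720)
(mv 1103 (cons (fin 1039 5 847)
(mv 1104 (cons (fin 1167 5 911)
(mv 1105 (cons (fin 1041 4 848)
(fin 1169 4 912)))))))))))
(mv 783 (cons (fin 847 7 783)
(mv 719 (cons (fin 784 7 719)
(mv 849 (cons (fin 785 6 784)
(mv 1041 (cons (fin 1105 4 848)
(mv 1104 (cons (fin 913 6 848)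
(mv 1167 (cons (fin 1103 5 911)
(mv 1168 (cons (fin 1231 5 975)
(mv 911 (cons (fin 975 7 911)
(mv 850 (cons (fin 851 1 847)
(mv 909 (cons (fin 910 2 845)
(mv 1232 (cons (fin 977 6 976)
(mv 1233 (cons (fin 1169 4 976)
(fin 1297 4 1040)))))))))))))))))))))))))))
(cons (cons (mv 783 (cons (fin 847 7 783)
(mv 719 (cons (fin 784 7 719)
(mv 849 (cons (fin 785 6 784)
(mv 1039 (cons (fin 1103 5 847)
(mv 1104 (cons (fin 913 6 848)
(mv 1169 (cons (fin 1105 4 912)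
(mv 1168 (cons (fin 1233 4 976)
(mv 975 (cons (fin 911 7 911)
(fin 1232 7 975)))))))))))))))))
(mv 783 (cons (fin 847 7 783)
(mv 719 (cons (fin 784 7 719)
(mv 849 (cons (fin 785 6 784)
(mv 1103 (cons (fin 1039 5 847)
(mv 1104 (cons (fin 1167 5 911)
(fin 913 6 848))))))))))))
(cons (mv 783 (cons (fin 847 7 783)
(mv 719 (cons (fin 784 7 719)
(mv 849 (cons (fin 785 6 784)
(mv 1104 (cons (fin 913 6 848)
(mv 1105 (cons (fin 1041 4 848)
(fin 1169 4 912)))))))))))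
(cons (mv 783 (cons (fin 847 7 783)
(mv 785 (cons (fin 849 6 784)
(mv 1103 (cons (fin 1039 5 847)
(mv 1104 (cons (fin 1167 5 911)
(mv 1105 (cons (fin 1041 4 848)
(fin 1169 4 912)))))))))))
(mv 783 (cons (fin 847 7 783)
(mv 784 (cons (fin 719 7 719)
(mv 785 (cons (fin 721 6 720)
(fin 849 6 784))))))))))))
(mv 1104 (cons (cons (mv 847 (cons (fin 911 7 847)
(mv 849 (cons (fin 913 6 848)
(mv 1167 (cons (fin 1103 5 911)
(mv 1168 (cons (fin 1231 5 975)
(mv 1169 (cons (fin 1105 4 912)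
(fin 1233 4 976)))))))))))
(cons (mv 847 (cons (fin 911 7 847)
(mv 1167 (cons (fin 1103 5 911)
(mv 1168 (cons (fin 1231 5 975)
(mv 1169 (cons (fin 1105 4 912)
(fin 1233 4 976)))))))))
(mv 849 (cons (fin 913 6 848)
(mv 1167 (cons (fin 1103 5 911)
(mv 1168 (cons (fin 1231 5 975)
(mv 1169 (cons (fin 1105 4 912)
(fin 1233 4 976)))))))))))
(cons (mv 847 (cons (fin 911 7 847)
(mv 913 (cons (fin 849 6 848)
(mv 1168 (cons (fin 977 6 912)
(mv 1169 (cons (fin 1105 4 912)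
(fin 1233 4 976)))))))))
(cons (mv 847 (cons (fin 911 7 847)
(mv 913 (cons (fin 849 6 848)
(mv 1167 (cons (fin 1103 5 911)
(mv 1168 (cons (fin 1231 5 975)
(fin 977 6 912)))))))))
(mv 849 (cons (fin 913 6 848)
(mv 911 (cons (fin 847 7 847)
(mv 1103 (cons (fin 1167 5 911)
(mv 1105 (cons (fin 1169 4 912)
(mv 910 (cons (cons (mv 909 (cons (fin 977 0 909)
(mv 844 (cons (fin 845 3 844)
(mv 908 (cons (fin 843 3 843)
(fin 975 0 908)))))))
(mv 1039 (cons (mv 1038 (cons (fin 1106 3 1038)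
(fin 1037 0 1037)))
(cons (mv 975 (cons (fin 846 7 846)
(mv 978 (cons (fin 977 3 910)
(mv 1106 (cons (fin 1107 3 1039)
(mv 1042 (cons (fin 1043 2 1039)
(mv 1041 (cons (fin 974 3 974)
(fin 979 2 975)))))))))))
(mv 846 (cons (fin 975 7 846)
(mv 1038 (cons (fin 1037 0 1037)
(fin 974 4 846)))))))))
(cons (mv 975 (cons (cons (mv 846 (cons (fin 1039 7 846)
(mv 718 (cons (fin 782 4 718)
(mv 909 (cons (fin 908 0 908)
(mv 844 (cons (fin 845 3 844)
(mv 973 (cons (fin 972 1 908)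
(mv 974 (cons (fin 1041 0 973)
(mv 1037 (cons (fin 1036 1 972)
(fin 1101 6 845)))))))))))))))
(mv 909 (cons (fin 908 0 908)
(mv 844 (cons (fin 845 3 844)
(mv 973 (cons (fin 972 1 908)
(mv 974 (cons (fin 1041 0 973)
(mv 1037 (cons (fin 1036 1 972)
(mv 846 (cons (fin 782 5 781)
(fin 1101 6 845))))))))))))))
(cons (mv 1039 (cons (fin 846 7 846)
(mv 1038 (cons (fin 1106 3 1038)
(fin 1037 0 1037)))))
(mv 909 (cons (fin 908 0 908)
(mv 845 (cons (fin 844 3 844)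
(mv 973 (cons (fin 972 1 908)
(mv 974 (cons (fin 1041 0 973)
(mv 781 (cons (fin 717 4 717)
(fin 1038 4 781))))))))))))))
(mv 909 (cons (fin 977 0 909)
(mv 844 (cons (fin 845 3 844)
(mv 908 (cons (fin 843 3 843)
(mv 972 (cons (fin 971 1 907)
(fin 973 1 908)))))))))))))))))))))))))
(cons (mv 848 (cons (cons (mv 783 (cons (fin 847 7 783)
(mv 784 (cons (fin 719 7 719)
(mv 785 (cons (fin 721 6 720)
(fin 849 6 784)))))))
(mv 785 (cons (fin 849 6 784)
(mv 784 (cons (fin 721 6 720)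
(mv 1039 (cons (fin 975 5 783)
(fin 1103 5 847))))))))
(cons (mv 783 (cons (fin 847 7 783)
(mv 784 (cons (fin 719 7 719)
(mv 1039 (cons (fin 975 5 783)
(fin 1103 5 847)))))))
(mv 783 (cons (fin 847 7 783)
(mv 785 (cons (fin 849 6 784)
(mv 1039 (cons (fin 1103 5 847)
(mv 1041 (cons (fin 1105 4 848)
(mv 1042 (cons (mv 975 (cons (fin 974 3 974)
(fin 1043 3 975)))
(cons (mv 978 (cons (fin 979 2 975)
(mv 977 (cons (fin 1038 2 974)
(mv 1043 (cons (fin 1044 3 976)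
(mv 1107 (cons (fin 1106 0 1039)
(fin 1108 0 1040)))))))))
(mv 974 (cons (fin 975 3 974)
(mv 978 (cons (fin 979 2 975)
(mv 1038 (cons (fin 973 3 973)
(fin 977 2 974)))))))))))))))))))))
(mv 1104 (cons (cons (mv 847 (cons (fin 911 7 847)
(mv 783 (cons (fin 848 7 783)
(mv 1103 (cons (fin 1167 5 911)
(mv 1169 (cons (fin 1105 4 912)
(mv 1168 (cons (fin 1233 4 976)
(mv 977 (cons (fin 913 6 912)
(mv 1232 (cons (fin 1041 6 976)
(mv 1039 (cons (fin 975 7 975)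
(fin 1296 7 1039)))))))))))))))))
(cons (mv 1103 (cons (fin 1167 5 911)
(mv 848 (cons (fin 1039 5 847)
(mv 1105 (cons (fin 1041 4 848)
(fin 1169 4 912)))))))
(mv 847 (cons (fin 911 7 847)
(mv 783 (cons (fin 848 7 783)
(mv 1167 (cons (fin 1103 5 911)
(mv 1168 (cons (fin 1231 5 975)
(mv 977 (cons (fin 913 6 912)
(mv 1232 (cons (fin 1041 6 976)
(mv 1233 (cons (fin 1169 4 976)
(fin 1297 4 1040)))))))))))))))))
(cons (cons (mv 847 (cons (fin 911 7 847)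
(mv 783 (cons (fin 848 7 783)
(mv 1169 (cons (fin 1105 4 912)
(mv 1168 (cons (fin 1233 4 976)
(mv 977 (cons (fin 913 6 912)
(mv 1231 (cons (fin 1167 5 975)
(mv 1232 (cons (fin 1295 5 1039)
(fin 1041 6 976)))))))))))))))
(mv 847 (cons (fin 911 7 847)
(mv 783 (cons (fin 848 7 783)
(mv 1169 (cons (fin 1105 4 912)
(mv 1168 (cons (fin 1233 4 976)
(mv 977 (cons (fin 913 6 912)
(mv 1232 (cons (fin 1041 6 976)
(mv 1039 (cons (fin 975 7 975)
(mv 978 (cons (fin 979 1 975)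
(mv 1037 (cons (fin 1038 2 973)
(mv 1295 (cons (fin 1231 5 1039)
(mv 1296 (cons (fin 1103 7 1039)
(fin 1359 5 1103))))))))))))))))))))))))
(cons (mv 847 (cons (fin 911 7 847)
(mv 848 (cons (fin 783 7 783)
(mv 1103 (cons (fin 1039 5 847)
(fin 1167 5 911)))))))
(mv 847 (cons (fin 911 7 847)
(mv 1103 (cons (fin 1167 5 911)
(mv 1169 (cons (fin 1105 4 912)
(mv 1168 (cons (fin 1233 4 976)
(mv 977 (cons (fin 913 6 912)
(mv 1232 (cons (fin 1041 6 976)
(mv 1039 (cons (fin 975 7 975)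
(fin 1296 7 1039)))))))))))))))))))))
(cons (cons (mv 1104 (cons (cons (mv 849 (cons (fin 913 6 848)
(mv 785 (cons (fin 848 6 784)
(mv 1105 (cons (fin 1169 4 912)
(mv 1167 (cons (fin 1103 5 911)
(mv 1168 (cons (fin 1231 5 975)
(mv 975 (cons (fin 911 7 911)
(mv 1039 (cons (fin 1232 7 975)
(mv 1038 (cons (fin 1037 0 1037)
(mv 1106 (cons (fin 1107 3 1039)
(fin 1041 0 1038)))))))))))))))))))
(cons (mv 1103 (cons (fin 1167 5 911)
(mv 848 (cons (fin 1039 5 847)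
(mv 1105 (cons (fin 1041 4 848)
(fin 1169 4 912)))))))
(mv 849 (cons (fin 913 6 848)
(mv 785 (cons (fin 848 6 784)
(mv 1167 (cons (fin 1103 5 911)
(mv 1168 (cons (fin 1231 5 975)
(mv 975 (cons (fin 911 7 911)
(mv 1232 (cons (fin 1039 7 975)
(mv 1233 (cons (fin 1169 4 976)
(fin 1297 4 1040)))))))))))))))))
(cons (cons (mv 849 (cons (fin 913 6 848)
(mv 785 (cons (fin 848 6 784)
(mv 1169 (cons (fin 1105 4 912)
(mv 1168 (cons (fin 1233 4 976)
(mv 975 (cons (fin 911 7 911)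
(mv 1231 (cons (fin 1167 5 975)
(mv 1232 (cons (fin 1039 7 975)
(fin 1295 5 1039)))))))))))))))
(mv 849 (cons (fin 913 6 848)
(mv 848 (cons (fin 785 6 784)
(mv 1105 (cons (fin 1041 4 848)
(fin 1169 4 912))))))))
(cons (mv 849 (cons (fin 913 6 848)
(mv 785 (cons (fin 848 6 784)
(mv 1167 (cons (fin 1103 5 911)
(mv 1168 (cons (fin 1231 5 975)
(mv 975 (cons (fin 911 7 911)
(mv 1232 (cons (fin 1039 7 975)
(mv 1041 (cons (fin 977 6 976)
(mv 973 (cons (fin 974 0 973)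
(mv 1042 (cons (fin 1043 3 975)
(mv 1296 (cons (fin 1105 6 1040)
(mv 1297 (cons (fin 1233 4 1040)
(fin 1361 4 1104)))))))))))))))))))))))
(mv 849 (cons (fin 913 6 848)
(mv 1105 (cons (fin 1169 4 912)
(mv 1167 (cons (fin 1103 5 911)
(mv 1168 (cons (fin 1231 5 975)
(mv 975 (cons (fin 911 7 911)
(mv 1039 (cons (fin 1232 7 975)
(mv 1038 (cons (fin 1037 0 1037)
(mv 1106 (cons (fin 1107 3 1039)
(fin 1041 0 1038)))))))))))))))))))))
(mv 848 (cons (cons (mv 783 (cons (fin 847 7 783)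
(mv 719 (cons (fin 784 7 719)
(mv 849 (cons (fin 785 6 784)
(mv 1103 (cons (fin 1039 5 847)
(mv 1104 (cons (fin 1167 5 911)
(fin 913 6 848)))))))))))
(mv 783 (cons (fin 847 7 783)
(mv 784 (cons (fin 719 7 719)
(mv 1039 (cons (fin 975 5 783)
(fin 1103 5 847))))))))
(cons (mv 785 (cons (fin 849 6 784)
(mv 784 (cons (fin 721 6 720)
(mv 1039 (cons (fin 975 5 783)
(fin 1103 5 847)))))))
(cons (mv 783 (cons (fin 847 7 783)
(mv 784 (cons (fin 719 7 719)
(mv 785 (cons (fin 721 6 720)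
(fin 849 6 784)))))))
(mv 783 (cons (fin 847 7 783)
(mv 849 (cons (fin 785 6 784)
(mv 1103 (cons (fin 1039 5 847)
(mv 1104 (cons (fin 1167 5 911)
(fin 913 6 848))))))))))))))
(cons (mv 848 (cons (cons (mv 783 (cons (fin 847 7 783)
(mv 719 (cons (fin 784 7 719)
(mv 849 (cons (fin 785 6 784)
(mv 1104 (cons (fin 913 6 848)
(mv 1105 (cons (fin 1041 4 848)
(fin 1169 4 912)))))))))))
(cons (mv 783 (cons (fin 847 7 783)
(mv 784 (cons (fin 719 7 719)
(mv 1041 (cons (fin 977 4 784)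
(fin 1105 4 848)))))))
(mv 785 (cons (fin 849 6 784)
(mv 784 (cons (fin 721 6 720)
(mv 1041 (cons (fin 977 4 784)
(fin 1105 4 848)))))))))
(cons (mv 783 (cons (fin 847 7 783)
(mv 719 (cons (fin 784 7 719)
(mv 849 (cons (fin 785 6 784)
(mv 1104 (cons (fin 913 6 848)
(mv 1169 (cons (fin 1105 4 912)
(mv 1168 (cons (fin 1233 4 976)
(mv 975 (cons (fin 911 7 911)
(mv 1231 (cons (fin 1167 5 975)
(mv 1232 (cons (fin 1039 7 975)
(fin 1295 5 1039)))))))))))))))))))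
(cons (mv 783 (cons (fin 847 7 783)
(mv 784 (cons (fin 719 7 719)
(mv 785 (cons (fin 721 6 720)
(fin 849 6 784)))))))
(mv 783 (cons (fin 847 7 783)
(mv 849 (cons (fin 785 6 784)
(mv 1104 (cons (fin 913 6 848)
(mv 1105 (cons (fin 1041 4 848)
(fin 1169 4 912)))))))))))))
(mv 1104 (cons (cons (mv 847 (cons (fin 911 7 847)
(mv 783 (cons (fin 848 7 783)
(mv 849 (cons (fin 913 6 848)
(mv 1167 (cons (fin 1103 5 911)
(mv 1168 (cons (fin 1231 5 975)
(mv 1169 (cons (fin 1105 4 912)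
(fin 1233 4 976)))))))))))))
(cons (mv 847 (cons (fin 911 7 847)
(mv 783 (cons (fin 848 7 783)
(mv 1167 (cons (fin 1103 5 911)
(mv 1168 (cons (fin 1231 5 975)
(mv 1169 (cons (fin 1105 4 912)
(fin 1233 4 976)))))))))))
(mv 849 (cons (fin 913 6 848)
(mv 785 (cons (fin 848 6 784)
(mv 1167 (cons (fin 1103 5 911)
(mv 1168 (cons (fin 1231 5 975)
(mv 1169 (cons (fin 1105 4 912)
(fin 1233 4 976)))))))))))))
(cons (cons (mv 847 (cons (fin 911 7 847)
(mv 783 (cons (fin 848 7 783)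
(mv 913 (cons (fin 849 6 848)
(mv 1167 (cons (fin 1103 5 911)
(mv 1168 (cons (fin 1231 5 975)
(fin 977 6 912)))))))))))
(mv 847 (cons (fin 911 7 847)
(mv 783 (cons (fin 848 7 783)
(mv 913 (cons (fin 849 6 848)
(mv 1168 (cons (fin 977 6 912)
(mv 1169 (cons (fin 1105 4 912)
(fin 1233 4 976))))))))))))
(cons (mv 847 (cons (fin 911 7 847)
(mv 848 (cons (fin 783 7 783)
(mv 849 (cons (fin 785 6 784)
(fin 913 6 848)))))))
(mv 847 (cons (fin 911 7 847)
(mv 849 (cons (fin 913 6 848)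
(mv 1167 (cons (fin 1103 5 911)
(mv 1168 (cons (fin 1231 5 975)
(mv 1169 (cons (fin 1105 4 912)
(fin 1233 4 976)))))))))))))))))))))))))
def l25 : Lem := ⟨11781361728633673532894774498354952494238773929196300355071513798753168641589311119865182769801300280680127783231251635087526446289021607771691249214388576215221396663491984443067742263787264024212477244347842938066577043117995647400274369612403653814737339068225047641453182709824206687753689912418253153056587776, 1218549380563170540908086999544562899768193021752763870255006133318999261141699510687244588227985350282901948158328976568615477162637120668059094365112648289159167800387283167553770654988548641325447123308763112803026196443924806127909664101142258633742972058457222694113856243766090474975556406816145531068483947599201018013166829862453612608864673986419079711861959947117144286750898178637738705677138603469053291477341130719232, 1218549380563170540908086999544562899768193021752763870255006133318999261141699510687244588227985350282901948158328976568615477162637120668059094365112648289159167800387283167553770654988548641325447123308763112803026196443924806127909664101142258633742972058457222694113856243766090474975556406816145531068483947599201018013166829862453612608864673986419079711861959947117144286750898178637738705677138603469053291477341130719232,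 20, 33⟩
theorem l25_valid : l25.Valid :=
  Lem.valid_of_chk t25 t25_valid [1040] c25 l25 (by decide +kernel)
end Crest.Agent.SnakyAux
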