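import Crest.Agent.S0047_aux.Checker

set_option autoImplicit false
set_option maxRecDepth 100000
namespace Crest.Agent.SnakyAux
open Cert
def t27 : Tbl := Tbl.nil
theorem t27_valid : t27.Valid := Tbl.valid_nil
def c27 : Cert :=
(mv 1104 (cons (cons (cons (cons (mv 976 (cons (cons (cons (mv 1168 (cons (cons (cons (mv 911 (cons (fin 975 7 911)
(mv 847 (cons (fin 912 7 847)
(mv 913 (cons (fin 977 6 912)
(mv 1231 (cons (fin 1167 5 975)
(mv 1232 (cons (fin 1295 5 1039)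
(mv 1233 (cons (fin 1169 4 976)
(fin 1297 4 1040)))))))))))))
(mv 911 (cons (fin 975 7 911)
(mv 847 (cons (fin 912 7 847)
(mv 1231 (cons (fin 1167 5 975)
(mv 1232 (cons (fin 1295 5 1039)
(mv 1233 (cons (fin 1169 4 976)
(fin 1297 4 1040))))))))))))
(cons (mv 913 (cons (fin 977 6 912)
(mv 849 (cons (fin 912 6 848)
(mv 1231 (cons (fin 1167 5 975)
(mv 1232 (cons (fin 1295 5 1039)
(mv 1233 (cons (fin 1169 4 976)
(fin 1297 4 1040)))))))))))
(mv 911 (cons (fin 975 7 911)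
(mv 847 (cons (fin 912 7 847)
(mv 913 (cons (fin 977 6 912)
(mv 1233 (cons (fin 1169 4 976)
(mv 1232 (cons (fin 1297 4 1040)
(mv 1295 (cons (fin 1231 5 1039)
(mv 1296 (cons (fin 1359 5 1103)
(mv 1039 (cons (fin 1103 7 1039)
(mv 1105 (cons (fin 1041 6 1040)
(mv 1038 (cons (fin 1037 0 1037)
(mv 910 (cons (fin 1102 6 846)
(mv 783 (cons (fin 719 5 718)
(fin 846 6 782)))))))))))))))))))))))))))
(cons (cons (mv 911 (cons (fin 975 7 911)
(mv 847 (cons (fin 912 7 847)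
(mv 913 (cons (fin 977 6 912)
(mv 1231 (cons (fin 1167 5 975)
(mv 1232 (cons (fin 1295 5 1039)
(mv 1297 (cons (fin 1233 4 1040)
(mv 1296 (cons (fin 1361 4 1104)
(mv 1039 (cons (fin 1103 7 1039)
(mv 1105 (cons (fin 1041 6 1040)
(mv 1038 (cons (fin 1037 0 1037)
(mv 910 (cons (fin 1102 6 846)
(mv 783 (cons (fin 719 5 718)
(fin 846 6 782)))))))))))))))))))))))))
(mv 911 (cons (fin 975 7 911)
(mv 847 (cons (fin 912 7 847)
(mv 977 (cons (fin 913 6 912)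
(mv 1232 (cons (fin 1041 6 976)
(mv 1233 (cons (fin 1169 4 976)
(fin 1297 4 1040))))))))))))
(cons (mv 911 (cons (fin 975 7 911)
(mv 847 (cons (fin 912 7 847)
(mv 977 (cons (fin 913 6 912)
(mv 1231 (cons (fin 1167 5 975)
(mv 1232 (cons (fin 1295 5 1039)
(fin 1041 6 976)))))))))))
(cons (mv 911 (cons (fin 975 7 911)
(mv 912 (cons (fin 847 7 847)
(mv 913 (cons (fin 849 6 848)
(fin 977 6 912)))))))
(mv 911 (cons (fin 975 7 911)
(mv 913 (cons (fin 977 6 912)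
(mv 1231 (cons (fin 1167 5 975)
(mv 1232 (cons (fin 1295 5 1039)
(mv 1233 (cons (fin 1169 4 976)
(fin 1297 4 1040))))))))))))))))
(mv 912 (cons (cons (mv 847 (cons (fin 911 7 847)
(mv 848 (cons (fin 783 7 783)
(mv 849 (cons (fin 785 6 784)
(fin 913 6 848)))))))
(mv 849 (cons (fin 913 6 848)
(mv 848 (cons (fin 785 6 784)
(mv 1103 (cons (fin 1039 5 847)
(fin 1167 5 911))))))))
(cons (mv 847 (cons (fin 911 7 847)
(mv 848 (cons (fin 783 7 783)
(mv 1103 (cons (fin 1039 5 847)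
(fin 1167 5 911)))))))
(mv 911 (cons (fin 847 7 847)
(mv 913 (cons (fin 849 6 848)
(mv 914 (cons (fin 975 1 910)
(mv 850 (cons (fin 851 2 847)
(mv 978 (cons (fin 979 0 911)
(mv 910 (cons (fin 977 0 910)
(mv 845 (cons (fin 846 3 845)
(mv 909 (cons (fin 844 3 844)
(mv 717 (cons (fin 781 4 717)
(mv 1038 (cons (fin 1102 7 845)
(mv 1103 (cons (fin 1167 5 911)
(mv 1105 (cons (fin 1169 4 912)
(mv 1039 (cons (fin 1106 3 1038)
(fin 1037 0 1037)))))))))))))))))))))))))))))))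
(cons (mv 1168 (cons (cons (mv 911 (cons (fin 975 7 911)
(mv 913 (cons (fin 977 6 912)
(mv 1231 (cons (fin 1167 5 975)
(mv 1232 (cons (fin 1295 5 1039)
(mv 1233 (cons (fin 1169 4 976)
(fin 1297 4 1040)))))))))))
(cons (mv 911 (cons (fin 975 7 911)
(mv 1231 (cons (fin 1167 5 975)
(mv 1232 (cons (fin 1295 5 1039)
(mv 1233 (cons (fin 1169 4 976)
(fin 1297 4 1040)))))))))
(mv 913 (cons (fin 977 6 912)
(mv 1231 (cons (fin 1167 5 975)
(mv 1232 (cons (fin 1295 5 1039)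
(mv 1233 (cons (fin 1169 4 976)
(fin 1297 4 1040)))))))))))
(cons (mv 911 (cons (fin 975 7 911)
(mv 977 (cons (fin 913 6 912)
(mv 1232 (cons (fin 1041 6 976)
(mv 1233 (cons (fin 1169 4 976)
(fin 1297 4 1040)))))))))
(cons (mv 911 (cons (fin 975 7 911)
(mv 977 (cons (fin 913 6 912)
(mv 1231 (cons (fin 1167 5 975)
(mv 1232 (cons (fin 1295 5 1039)
(fin 1041 6 976)))))))))
(mv 975 (cons (fin 911 7 911)
(mv 977 (cons (fin 913 6 912)
(mv 909 (cons (fin 910 3 909)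
(mv 1038 (cons (fin 1037 1 973)
(mv 978 (cons (fin 1039 1 974)
(mv 914 (cons (fin 915 2 911)
(mv 1041 (cons (fin 1042 0 974)
(mv 1169 (cons (fin 1105 6 913)
(fin 1233 4 976)))))))))))))))))))))
(mv 1168 (cons (cons (cons (mv 911 (cons (fin 975 7 911)
(mv 847 (cons (fin 912 7 847)
(mv 1167 (cons (fin 1231 5 975)
(mv 1233 (cons (fin 1169 4 976)
(mv 1232 (cons (fin 1297 4 1040)
(mv 1041 (cons (fin 977 6 976)
(mv 1105 (cons (fin 1296 6 1040)
(mv 1106 (cons (fin 1107 1 1103)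
(mv 1166 (cons (fin 1103 1 1102)
(fin 1165 2 1101)))))))))))))))))))
(mv 1167 (cons (fin 1231 5 975)
(mv 912 (cons (fin 1103 5 911)
(mv 1169 (cons (fin 1105 4 912)
(fin 1233 4 976))))))))
(cons (mv 911 (cons (fin 975 7 911)
(mv 847 (cons (fin 912 7 847)
(mv 1233 (cons (fin 1169 4 976)
(mv 1232 (cons (fin 1297 4 1040)
(mv 977 (cons (fin 1041 6 976)
(mv 1295 (cons (fin 1231 5 1039)
(mv 1296 (cons (fin 1359 5 1103)
(mv 1039 (cons (fin 1103 7 1039)
(mv 978 (cons (fin 979 1 975)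
(mv 1038 (cons (fin 1037 2 973)
(mv 910 (cons (fin 1102 6 846)
(mv 783 (cons (fin 719 5 718)
(fin 846 6 782)))))))))))))))))))))))))
(mv 911 (cons (fin 975 7 911)
(mv 847 (cons (fin 912 7 847)
(mv 1231 (cons (fin 1167 5 975)
(mv 1232 (cons (fin 1295 5 1039)
(mv 977 (cons (fin 1041 6 976)
(mv 1297 (cons (fin 1233 4 1040)
(mv 1296 (cons (fin 1361 4 1104)
(mv 1039 (cons (fin 1103 7 1039)
(mv 978 (cons (fin 979 1 975)
(mv 1038 (cons (fin 1037 2 973)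
(mv 910 (cons (fin 1102 6 846)
(mv 783 (cons (fin 719 5 718)
(fin 846 6 782)))))))))))))))))))))))))))
(cons (cons (mv 911 (cons (fin 975 7 911)
(mv 847 (cons (fin 912 7 847)
(mv 1233 (cons (fin 1169 4 976)
(mv 1232 (cons (fin 1297 4 1040)
(mv 1041 (cons (fin 977 6 976)
(mv 1296 (cons (fin 1105 6 1040)
(mv 1103 (cons (fin 1039 7 1039)
(mv 1101 (cons (fin 1102 2 1037)
(mv 1359 (cons (fin 1295 5 1103)
(mv 1360 (cons (fin 1167 7 1103)
(fin 1423 5 1167)))))))))))))))))))))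
(mv 911 (cons (fin 975 7 911)
(mv 912 (cons (fin 847 7 847)
(mv 1167 (cons (fin 1103 5 911)
(fin 1231 5 975))))))))
(cons (mv 911 (cons (fin 975 7 911)
(mv 1167 (cons (fin 1231 5 975)
(mv 1233 (cons (fin 1169 4 976)
(mv 1232 (cons (fin 1297 4 1040)
(mv 1041 (cons (fin 977 6 976)
(mv 1105 (cons (fin 1296 6 1040)
(mv 1106 (cons (fin 1107 1 1103)
(mv 1166 (cons (fin 1103 1 1102)
(fin 1165 2 1101)))))))))))))))))
(mv 911 (cons (fin 975 7 911)
(mv 847 (cons (fin 912 7 847)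
(mv 1167 (cons (fin 1231 5 975)
(mv 1233 (cons (fin 1169 4 976)
(mv 1232 (cons (fin 1297 4 1040)
(mv 1041 (cons (fin 977 6 976)
(mv 1105 (cons (fin 1296 6 1040)
(mv 1106 (cons (fin 1107 1 1103)
(mv 1038 (cons (fin 1039 0 1038)
(mv 910 (cons (fin 1102 6 846)
(mv 783 (cons (fin 719 5 718)
(fin 846 6 782)))))))))))))))))))))))))))))
(cons (cons (mv 1168 (cons (cons (mv 913 (cons (fin 977 6 912)
(mv 849 (cons (fin 912 6 848)
(mv 1167 (cons (fin 1231 5 975)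
(mv 1233 (cons (fin 1169 4 976)
(mv 1232 (cons (fin 1297 4 1040)
(mv 1039 (cons (fin 975 7 975)
(mv 1103 (cons (fin 1296 7 1039)
(mv 1166 (cons (fin 1165 0 1165)
(mv 1105 (cons (fin 1106 1 1102)
(mv 1038 (cons (fin 1037 0 1037)
(mv 910 (cons (fin 846 4 846)
(fin 1102 4 910)))))))))))))))))))))))
(cons (mv 1167 (cons (fin 1231 5 975)
(mv 912 (cons (fin 1103 5 911)
(mv 1169 (cons (fin 1105 4 912)
(fin 1233 4 976)))))))
(mv 913 (cons (fin 977 6 912)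
(mv 849 (cons (fin 912 6 848)
(mv 1233 (cons (fin 1169 4 976)
(mv 1232 (cons (fin 1297 4 1040)
(mv 1039 (cons (fin 975 7 975)
(mv 1295 (cons (fin 1231 5 1039)
(mv 1296 (cons (fin 1103 7 1039)
(fin 1359 5 1103)))))))))))))))))
(cons (cons (mv 913 (cons (fin 977 6 912)
(mv 849 (cons (fin 912 6 848)
(mv 1231 (cons (fin 1167 5 975)
(mv 1232 (cons (fin 1295 5 1039)
(mv 1039 (cons (fin 975 7 975)
(mv 1296 (cons (fin 1103 7 1039)
(mv 1297 (cons (fin 1233 4 1040)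
(fin 1361 4 1104)))))))))))))))
(mv 913 (cons (fin 977 6 912)
(mv 912 (cons (fin 849 6 848)
(mv 1169 (cons (fin 1105 4 912)
(fin 1233 4 976))))))))
(cons (mv 913 (cons (fin 977 6 912)
(mv 849 (cons (fin 912 6 848)
(mv 1231 (cons (fin 1167 5 975)
(mv 1232 (cons (fin 1295 5 1039)
(mv 1039 (cons (fin 975 7 975)
(mv 1296 (cons (fin 1103 7 1039)
(mv 1105 (cons (fin 1041 6 1040)
(mv 1037 (cons (fin 1038 0 1037)
(mv 1106 (cons (fin 1107 3 1039)
(mv 1360 (cons (fin 1169 6 1104)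
(mv 1361 (cons (fin 1297 4 1104)
(fin 1425 4 1168)))))))))))))))))))))))
(mv 913 (cons (fin 977 6 912)
(mv 1167 (cons (fin 1231 5 975)
(mv 1233 (cons (fin 1169 4 976)
(mv 1232 (cons (fin 1297 4 1040)
(mv 1039 (cons (fin 975 7 975)
(mv 1103 (cons (fin 1296 7 1039)
(mv 1166 (cons (fin 1165 0 1165)
(mv 1105 (cons (fin 1106 1 1102)
(mv 1038 (cons (fin 1037 0 1037)
(mv 910 (cons (fin 846 4 846)
(fin 1102 4 910)))))))))))))))))))))))))
(mv 912 (cons (cons (mv 847 (cons (fin 911 7 847)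
(mv 783 (cons (fin 848 7 783)
(mv 913 (cons (fin 849 6 848)
(mv 977 (cons (fin 1168 6 912)
(mv 914 (cons (fin 975 2 910)
(mv 915 (cons (fin 916 1 912)
(mv 851 (cons (fin 852 2 848)
(mv 979 (cons (fin 980 0 912)
(mv 978 (cons (fin 1039 1 975)
(mv 787 (cons (fin 723 5 722)
(fin 1042 5 786)))))))))))))))))))))
(mv 849 (cons (fin 913 6 848)
(mv 848 (cons (fin 785 6 784)
(mv 1105 (cons (fin 1041 4 848)
(fin 1169 4 912))))))))
(cons (mv 847 (cons (fin 911 7 847)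
(mv 848 (cons (fin 783 7 783)
(mv 1105 (cons (fin 1041 4 848)
(fin 1169 4 912)))))))
(mv 847 (cons (fin 911 7 847)
(mv 913 (cons (fin 849 6 848)
(mv 977 (cons (fin 1168 6 912)
(mv 914 (cons (fin 975 2 910)
(mv 915 (cons (fin 916 1 912)
(mv 851 (cons (fin 852 2 848)
(mv 979 (cons (fin 980 0 912)
(mv 978 (cons (fin 1039 1 975)
(mv 787 (cons (fin 723 5 722)
(fin 1042 5 786)))))))))))))))))))))))
(cons (mv 912 (cons (cons (mv 847 (cons (fin 911 7 847)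
(mv 783 (cons (fin 848 7 783)
(mv 913 (cons (fin 849 6 848)
(mv 977 (cons (fin 1168 6 912)
(mv 914 (cons (fin 975 2 910)
(mv 915 (cons (fin 916 1 912)
(mv 851 (cons (fin 852 2 848)
(mv 979 (cons (fin 980 0 912)
(mv 978 (cons (fin 1039 1 975)
(mv 787 (cons (fin 723 5 722)
(fin 1042 5 786)))))))))))))))))))))
(mv 849 (cons (fin 913 6 848)
(mv 848 (cons (fin 785 6 784)
(mv 1103 (cons (fin 1039 5 847)
(fin 1167 5 911))))))))
(cons (mv 847 (cons (fin 911 7 847)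
(mv 848 (cons (fin 783 7 783)
(mv 1103 (cons (fin 1039 5 847)
(fin 1167 5 911)))))))
(cons (mv 847 (cons (fin 911 7 847)
(mv 913 (cons (fin 849 6 848)
(mv 977 (cons (fin 1168 6 912)
(mv 914 (cons (fin 975 2 910)
(mv 915 (cons (fin 916 1 912)
(mv 851 (cons (fin 852 2 848)
(mv 979 (cons (fin 980 0 912)
(mv 978 (cons (fin 1039 1 975)
(mv 787 (cons (fin 723 5 722)
(fin 1042 5 786)))))))))))))))))))
(mv 847 (cons (fin 911 7 847)
(mv 783 (cons (fin 848 7 783)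
(mv 913 (cons (fin 849 6 848)
(mv 977 (cons (fin 1168 6 912)
(mv 975 (cons (fin 914 2 910)
(mv 910 (cons (fin 909 3 909)
(mv 1038 (cons (fin 1037 1 973)
(fin 846 6 782)))))))))))))))))))
(mv 912 (cons (cons (mv 847 (cons (fin 911 7 847)
(mv 783 (cons (fin 848 7 783)
(mv 849 (cons (fin 913 6 848)
(mv 1167 (cons (fin 1103 5 911)
(mv 1168 (cons (fin 1231 5 975)
(mv 1169 (cons (fin 1105 4 912)
(fin 1233 4 976)))))))))))))
(mv 847 (cons (fin 911 7 847)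
(mv 848 (cons (fin 783 7 783)
(mv 849 (cons (fin 785 6 784)
(fin 913 6 848))))))))
(cons (mv 849 (cons (fin 913 6 848)
(mv 785 (cons (fin 848 6 784)
(mv 1167 (cons (fin 1103 5 911)
(mv 1168 (cons (fin 1231 5 975)
(mv 1169 (cons (fin 1105 4 912)
(fin 1233 4 976)))))))))))
(cons (mv 847 (cons (fin 911 7 847)
(mv 783 (cons (fin 848 7 783)
(mv 1167 (cons (fin 1103 5 911)
(mv 1168 (cons (fin 1231 5 975)
(mv 1169 (cons (fin 1105 4 912)
(fin 1233 4 976)))))))))))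
(mv 847 (cons (fin 911 7 847)
(mv 849 (cons (fin 913 6 848)
(mv 1167 (cons (fin 1103 5 911)
(mv 1168 (cons (fin 1231 5 975)
(mv 1169 (cons (fin 1105 4 912)
(fin 1233 4 976)))))))))))))))))))
(mv 1102 (cons (cons (cons (mv 1103 (cons (cons (mv 1041 (cons (fin 1101 2 1037)
(mv 1042 (cons (fin 1039 1 1038)
(fin 1105 2 1038)))))
(mv 1105 (cons (cons (mv 1037 (cons (fin 1038 3 1037)
(mv 1041 (cons (fin 1042 2 1038)
(mv 1165 (cons (fin 1166 1 1101)
(mv 1169 (cons (fin 1170 0 1102)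
(mv 1233 (cons (fin 1297 7 1040)
(mv 1232 (cons (fin 1296 5 1040)
(mv 977 (cons (fin 1168 5 976)
(mv 913 (cons (fin 849 5 848)
(mv 914 (cons (fin 850 6 849)
(fin 978 6 913)))))))))))))))))))
(mv 1041 (cons (fin 1042 2 1038)
(mv 1165 (cons (fin 1166 1 1101)
(mv 1169 (cons (fin 1170 0 1102)
(mv 1233 (cons (fin 1297 7 1040)
(mv 1232 (cons (fin 1296 5 1040)
(mv 977 (cons (fin 1168 5 976)
(mv 913 (cons (fin 849 5 848)
(mv 914 (cons (fin 850 6 849)
(fin 978 6 913))))))))))))))))))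
(cons (mv 1037 (cons (fin 1038 3 1037)
(mv 1041 (cons (fin 1042 2 1038)
(mv 1169 (cons (fin 1170 0 1102)
(mv 1233 (cons (fin 1297 7 1040)
(mv 1232 (cons (fin 1296 5 1040)
(mv 977 (cons (fin 1168 5 976)
(mv 913 (cons (fin 849 5 848)
(mv 914 (cons (fin 850 6 849)
(fin 978 6 913)))))))))))))))))
(cons (mv 1037 (cons (fin 1038 3 1037)
(mv 1166 (cons (fin 1165 1 1101)
(mv 1106 (cons (fin 1167 1 1102)
(mv 1170 (cons (fin 1169 0 1102)
(fin 1171 0 1103)))))))))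
(mv 1037 (cons (fin 1038 3 1037)
(mv 1041 (cons (fin 1042 2 1038)
(mv 1166 (cons (fin 1165 1 1101)
(mv 1106 (cons (fin 1167 1 1102)
(mv 1107 (cons (fin 1039 3 1039)
(fin 1108 3 1040))))))))))))))))
(cons (mv 1101 (cons (mv 1036 (cons (fin 1037 3 1036)
(mv 1100 (cons (fin 1035 3 1035)
(fin 1039 2 1036)))))
(cons (mv 1036 (cons (fin 1037 3 1036)
(mv 1165 (cons (fin 1164 1 1100)
(mv 910 (cons (fin 1038 5 909)
(mv 1105 (cons (fin 1166 1 1101)
(mv 1169 (cons (fin 1168 0 1101)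
(fin 1170 0 1102)))))))))))
(mv 1039 (cons (fin 1100 2 1036)
(mv 1164 (cons (fin 1165 1 1100)
(mv 1168 (cons (fin 1169 0 1101)
(mv 975 (cons (fin 1232 7 975)
(fin 911 4 911))))))))))))
(cons (mv 1101 (cons (fin 1041 2 1037)
(mv 1036 (cons (fin 1037 3 1036)
(mv 1100 (cons (fin 1035 3 1035)
(fin 1039 2 1036)))))))
(mv 1041 (cons (fin 1101 2 1037)
(mv 1105 (cons (fin 1042 2 1038)
(mv 1037 (cons (fin 1038 3 1037)
(mv 1165 (cons (fin 1166 1 1101)
(mv 1169 (cons (fin 1170 0 1102)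
(mv 1233 (cons (fin 1297 7 1040)
(mv 1232 (cons (fin 1296 5 1040)
(mv 977 (cons (fin 1168 5 976)
(mv 913 (cons (fin 849 5 848)
(mv 914 (cons (fin 850 6 849)
(fin 978 6 913)))))))))))))))))))))))))
(cons (mv 1038 (cons (cons (mv 1166 (cons (cons (cons (mv 911 (cons (fin 975 6 910)
(mv 847 (cons (fin 910 6 846)
(mv 1165 (cons (fin 1229 5 973)
(mv 1167 (cons (fin 1231 4 974)
(mv 1105 (cons (fin 1168 2 1101)
(mv 1039 (cons (fin 1037 0 1037)
(mv 1041 (cons (fin 1101 1 1037)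
(fin 1106 0 1038)))))))))))))))
(mv 1165 (cons (fin 1229 5 973)
(mv 910 (cons (fin 1101 5 909)
(mv 845 (cons (fin 909 7 845)
(mv 781 (cons (fin 846 7 781)
(mv 847 (cons (fin 911 6 846)
(mv 1167 (cons (fin 1231 4 974)
(mv 1105 (cons (fin 1168 2 1101)
(mv 1039 (cons (fin 1037 0 1037)
(mv 1106 (cons (fin 1107 3 1039)
(fin 1041 0 1038))))))))))))))))))))
(cons (mv 911 (cons (fin 975 6 910)
(mv 847 (cons (fin 910 6 846)
(mv 1231 (cons (fin 1167 4 974)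
(mv 1230 (cons (fin 1295 4 1038)
(mv 1293 (cons (fin 1229 5 1037)
(mv 1294 (cons (fin 1357 5 1101)
(mv 1101 (cons (fin 1037 7 1037)
(mv 1041 (cons (fin 1039 1 1037)
(mv 1232 (cons (fin 1233 1 1229)
(mv 1168 (cons (fin 977 6 976)
(mv 1296 (cons (fin 1105 6 1040)
(mv 1361 (cons (fin 1297 4 1104)
(mv 1360 (cons (fin 1425 4 1168)
(mv 1359 (cons (fin 1358 3 1293)
(fin 1423 5 1167)))))))))))))))))))))))))))))
(mv 911 (cons (fin 975 6 910)
(mv 910 (cons (fin 847 6 846)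
(mv 845 (cons (fin 909 7 845)
(mv 781 (cons (fin 846 7 781)
(mv 1101 (cons (fin 1165 5 909)
(mv 1039 (cons (fin 1041 1 1037)
(mv 1037 (cons (fin 1100 1 1036)
(fin 1105 0 1037)))))))))))))))))
(cons (cons (mv 1165 (cons (fin 1229 5 973)
(mv 910 (cons (fin 1101 5 909)
(mv 845 (cons (fin 909 7 845)
(mv 781 (cons (fin 846 7 781)
(mv 1167 (cons (fin 1231 4 974)
(mv 1105 (cons (fin 1168 2 1101)
(mv 1039 (cons (fin 1037 0 1037)
(mv 1106 (cons (fin 1107 3 1039)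
(fin 1041 0 1038)))))))))))))))))
(mv 911 (cons (fin 975 6 910)
(mv 847 (cons (fin 910 6 846)
(mv 1165 (cons (fin 1229 5 973)
(mv 1167 (cons (fin 1231 4 974)
(mv 1168 (cons (fin 1105 2 1101)
(mv 1101 (cons (fin 1100 3 1100)
(fin 1169 3 1101))))))))))))))
(cons (mv 911 (cons (fin 975 6 910)
(mv 1165 (cons (fin 1229 5 973)
(mv 1167 (cons (fin 1231 4 974)
(mv 1105 (cons (fin 1168 2 1101)
(mv 1039 (cons (fin 1037 0 1037)
(mv 1041 (cons (fin 1101 1 1037)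
(fin 1106 0 1038)))))))))))))
(cons (mv 911 (cons (fin 975 6 910)
(mv 847 (cons (fin 910 6 846)
(mv 1165 (cons (fin 1229 5 973)
(mv 1167 (cons (fin 1231 4 974)
(mv 1105 (cons (fin 1168 2 1101)
(mv 1039 (cons (fin 1037 0 1037)
(mv 1106 (cons (fin 1107 3 1039)
(fin 1041 0 1038)))))))))))))))
(mv 911 (cons (fin 975 6 910)
(mv 847 (cons (fin 910 6 846)
(mv 1229 (cons (fin 1165 5 973)
(mv 1230 (cons (fin 1293 5 1037)
(mv 1231 (cons (fin 1167 4 974)
(fin 1295 4 1038))))))))))))))))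
(cons (mv 910 (cons (cons (mv 845 (cons (fin 909 7 845)
(mv 781 (cons (fin 846 7 781)
(mv 847 (cons (fin 911 6 846)
(mv 1101 (cons (fin 1165 5 909)
(mv 1039 (cons (fin 1041 1 1037)
(mv 1037 (cons (fin 1100 1 1036)
(fin 1105 0 1037)))))))))))))
(mv 845 (cons (fin 909 7 845)
(mv 846 (cons (fin 781 7 781)
(mv 847 (cons (fin 783 6 782)
(fin 911 6 846))))))))
(cons (mv 845 (cons (fin 909 7 845)
(mv 781 (cons (fin 846 7 781)
(mv 1101 (cons (fin 1165 5 909)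
(mv 1039 (cons (fin 1041 1 1037)
(mv 1037 (cons (fin 1100 1 1036)
(fin 1105 0 1037)))))))))))
(cons (mv 847 (cons (fin 911 6 846)
(mv 783 (cons (fin 846 6 782)
(mv 1101 (cons (fin 1165 5 909)
(mv 1039 (cons (fin 1041 1 1037)
(mv 1037 (cons (fin 1100 1 1036)
(fin 1105 0 1037)))))))))))
(mv 845 (cons (fin 909 7 845)
(mv 847 (cons (fin 911 6 846)
(mv 1101 (cons (fin 1165 5 909)
(mv 1039 (cons (fin 1041 1 1037)
(mv 1037 (cons (fin 1100 1 1036)
(fin 1105 0 1037)))))))))))))))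
(mv 1166 (cons (cons (mv 911 (cons (fin 975 6 910)
(mv 1165 (cons (fin 1229 5 973)
(mv 1167 (cons (fin 1231 4 974)
(mv 1105 (cons (fin 1168 2 1101)
(mv 1039 (cons (fin 1037 0 1037)
(mv 1041 (cons (fin 1101 1 1037)
(fin 1106 0 1038)))))))))))))
(mv 1165 (cons (fin 1229 5 973)
(mv 1167 (cons (fin 1231 4 974)
(mv 1105 (cons (fin 1168 2 1101)
(mv 1039 (cons (fin 1037 0 1037)
(mv 1041 (cons (fin 1101 1 1037)
(fin 1106 0 1038))))))))))))
(cons (mv 975 (cons (fin 911 6 910)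
(mv 1039 (cons (fin 1230 6 974)
(mv 1041 (cons (fin 1042 3 974)
(fin 1101 1 1037)))))))
(cons (mv 911 (cons (fin 975 6 910)
(mv 1165 (cons (fin 1229 5 973)
(mv 1167 (cons (fin 1231 4 974)
(mv 1168 (cons (fin 1105 2 1101)
(mv 1101 (cons (fin 1100 3 1100)
(fin 1169 3 1101)))))))))))
(mv 911 (cons (fin 975 6 910)
(mv 1165 (cons (fin 1229 5 973)
(mv 1167 (cons (fin 1231 4 974)
(mv 1105 (cons (fin 1168 2 1101)
(mv 1039 (cons (fin 1037 0 1037)
(mv 1106 (cons (fin 1107 3 1039)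
(fin 1041 0 1038)))))))))))))))))))
(cons (cons (mv 910 (cons (cons (mv 845 (cons (fin 909 7 845)
(mv 781 (cons (fin 846 7 781)
(mv 911 (cons (fin 847 6 846)
(mv 1101 (cons (fin 1165 5 909)
(mv 1166 (cons (fin 975 6 910)
(mv 1231 (cons (fin 1167 4 974)
(mv 1230 (cons (fin 1295 4 1038)
(mv 1293 (cons (fin 1229 5 1037)
(mv 1294 (cons (fin 1037 7 1037)
(fin 1357 5 1101)))))))))))))))))))
(cons (mv 845 (cons (fin 909 7 845)
(mv 846 (cons (fin 781 7 781)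
(mv 1101 (cons (fin 1037 5 845)
(fin 1165 5 909)))))))
(mv 845 (cons (fin 909 7 845)
(mv 781 (cons (fin 846 7 781)
(mv 911 (cons (fin 847 6 846)
(mv 1166 (cons (fin 975 6 910)
(mv 1229 (cons (fin 1165 5 973)
(mv 1230 (cons (fin 1293 5 1037)
(mv 1231 (cons (fin 1167 4 974)
(fin 1295 4 1038)))))))))))))))))
(cons (mv 845 (cons (fin 909 7 845)
(mv 846 (cons (fin 781 7 781)
(mv 847 (cons (fin 783 6 782)
(fin 911 6 846)))))))
(cons (mv 847 (cons (fin 911 6 846)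
(mv 846 (cons (fin 783 6 782)
(mv 1101 (cons (fin 1037 5 845)
(fin 1165 5 909)))))))
(mv 845 (cons (fin 909 7 845)
(mv 911 (cons (fin 847 6 846)
(mv 1101 (cons (fin 1165 5 909)
(mv 1166 (cons (fin 975 6 910)
(mv 1231 (cons (fin 1167 4 974)
(mv 1230 (cons (fin 1295 4 1038)
(mv 1293 (cons (fin 1229 5 1037)
(mv 1294 (cons (fin 1037 7 1037)
(fin 1357 5 1101)))))))))))))))))))))
(mv 1166 (cons (cons (mv 911 (cons (fin 975 6 910)
(mv 847 (cons (fin 910 6 846)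
(mv 1165 (cons (fin 1229 5 973)
(mv 1167 (cons (fin 1231 4 974)
(mv 1105 (cons (fin 1168 2 1101)
(mv 1039 (cons (fin 1037 0 1037)
(mv 1106 (cons (fin 1107 3 1039)
(fin 1041 0 1038)))))))))))))))
(mv 1165 (cons (fin 1229 5 973)
(mv 1167 (cons (fin 1231 4 974)
(mv 1105 (cons (fin 1168 2 1101)
(mv 1039 (cons (fin 1037 0 1037)
(mv 1106 (cons (fin 1107 3 1039)
(fin 1041 0 1038))))))))))))
(cons (mv 975 (cons (fin 911 6 910)
(mv 1039 (cons (fin 1230 6 974)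
(mv 1041 (cons (fin 1042 3 974)
(mv 1105 (cons (fin 1037 0 1037)
(fin 1106 0 1038)))))))))
(mv 911 (cons (fin 975 6 910)
(mv 847 (cons (fin 910 6 846)
(mv 1229 (cons (fin 1165 5 973)
(mv 1230 (cons (fin 1293 5 1037)
(mv 1231 (cons (fin 1167 4 974)
(fin 1295 4 1038)))))))))))))))
(cons (mv 1039 (cons (cons (mv 1037 (cons (fin 1105 0 1037)
(mv 1101 (cons (fin 1100 1 1036)
(fin 1041 1 1037)))))
(mv 1037 (cons (fin 1105 0 1037)
(mv 1100 (cons (fin 1101 1 1036)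
(mv 1036 (cons (fin 1099 1 1035)
(mv 971 (cons (fin 972 3 971)
(mv 1035 (cons (fin 970 3 970)
(fin 975 2 971))))))))))))
(cons (mv 1105 (cons (fin 1037 0 1037)
(mv 1106 (cons (fin 1107 3 1039)
(fin 1041 0 1038)))))
(mv 1041 (cons (fin 1101 1 1037)
(mv 978 (cons (fin 977 2 974)
(mv 1042 (cons (fin 975 3 974)
(fin 979 2 975))))))))))
(mv 1166 (cons (cons (mv 911 (cons (fin 975 6 910)
(mv 847 (cons (fin 910 6 846)
(mv 1165 (cons (fin 1229 5 973)
(mv 1167 (cons (fin 1231 4 974)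
(mv 1168 (cons (fin 1105 2 1101)
(mv 1101 (cons (fin 1100 3 1100)
(fin 1169 3 1101)))))))))))))
(mv 1165 (cons (fin 1229 5 973)
(mv 910 (cons (fin 1101 5 909)
(mv 845 (cons (fin 909 7 845)
(mv 846 (cons (fin 781 7 781)
(mv 847 (cons (fin 783 6 782)
(fin 911 6 846))))))))))))
(cons (mv 975 (cons (fin 911 6 910)
(mv 1039 (cons (fin 1230 6 974)
(mv 1041 (cons (fin 1042 3 974)
(fin 1101 1 1037)))))))
(cons (mv 1165 (cons (fin 1229 5 973)
(mv 910 (cons (fin 1101 5 909)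
(mv 845 (cons (fin 909 7 845)
(mv 846 (cons (fin 781 7 781)
(mv 783 (cons (fin 847 6 782)
(mv 782 (cons (fin 719 6 718)
(mv 784 (cons (fin 785 1 781)
(mv 843 (cons (fin 844 2 779)
(mv 1039 (cons (fin 975 4 782)
(mv 1167 (cons (fin 1231 4 974)
(mv 1105 (cons (fin 1168 2 1101)
(mv 1106 (cons (fin 1107 3 1039)
(fin 1041 0 1038)))))))))))))))))))))))))
(mv 911 (cons (fin 975 6 910)
(mv 847 (cons (fin 910 6 846)
(mv 1229 (cons (fin 1165 5 973)
(mv 1230 (cons (fin 1293 5 1037)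
(mv 1231 (cons (fin 1167 4 974)
(fin 1295 4 1038)))))))))))))))))))
(mv 1038 (cons (cons (cons (mv 1166 (cons (cons (mv 911 (cons (fin 975 6 910)
(mv 847 (cons (fin 910 6 846)
(mv 1165 (cons (fin 1229 5 973)
(mv 1103 (cons (fin 1105 1 1101)
(mv 1164 (cons (fin 1163 2 1099)
(fin 1167 2 1100)))))))))))
(cons (mv 911 (cons (fin 975 6 910)
(mv 847 (cons (fin 910 6 846)
(mv 1165 (cons (fin 1229 5 973)
(mv 1105 (cons (fin 1103 1 1101)
(mv 1039 (cons (fin 1037 0 1037)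
(mv 1106 (cons (fin 1107 3 1039)
(fin 1041 0 1038)))))))))))))
(mv 1165 (cons (fin 1229 5 973)
(mv 1103 (cons (fin 1105 1 1101)
(mv 1164 (cons (fin 1163 2 1099)
(fin 1167 2 1100)))))))))
(cons (mv 911 (cons (fin 975 6 910)
(mv 847 (cons (fin 910 6 846)
(mv 1231 (cons (fin 1167 4 974)
(mv 1230 (cons (fin 1295 4 1038)
(mv 1293 (cons (fin 1229 5 1037)
(mv 1294 (cons (fin 1357 5 1101)
(mv 1039 (cons (fin 1103 6 1038)
(mv 1105 (cons (fin 1037 0 1037)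
(mv 1106 (cons (fin 1107 3 1039)
(fin 1041 0 1038)))))))))))))))))))
(cons (mv 911 (cons (fin 975 6 910)
(mv 910 (cons (fin 847 6 846)
(mv 1167 (cons (fin 1103 4 910)
(fin 1231 4 974)))))))
(mv 911 (cons (fin 975 6 910)
(mv 847 (cons (fin 910 6 846)
(mv 1165 (cons (fin 1229 5 973)
(mv 1167 (cons (fin 1231 4 974)
(mv 1105 (cons (fin 1168 2 1101)
(mv 1039 (cons (fin 1037 0 1037)
(mv 1106 (cons (fin 1107 3 1039)
(fin 1041 0 1038)))))))))))))))))))
(mv 910 (cons (cons (mv 845 (cons (fin 909 7 845)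
(mv 781 (cons (fin 846 7 781)
(mv 847 (cons (fin 911 6 846)
(mv 1103 (cons (fin 1167 4 910)
(mv 1037 (cons (fin 1105 3 1037)
(mv 1036 (cons (fin 1035 0 1035)
(fin 1039 0 1036)))))))))))))
(mv 845 (cons (fin 909 7 845)
(mv 846 (cons (fin 781 7 781)
(mv 847 (cons (fin 783 6 782)
(fin 911 6 846))))))))
(cons (mv 845 (cons (fin 909 7 845)
(mv 781 (cons (fin 846 7 781)
(mv 1103 (cons (fin 1167 4 910)
(mv 1037 (cons (fin 1105 3 1037)
(mv 1036 (cons (fin 1035 0 1035)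
(fin 1039 0 1036)))))))))))
(cons (mv 847 (cons (fin 911 6 846)
(mv 783 (cons (fin 846 6 782)
(mv 1103 (cons (fin 1167 4 910)
(mv 1037 (cons (fin 1105 3 1037)
(mv 1036 (cons (fin 1035 0 1035)
(fin 1039 0 1036)))))))))))
(mv 845 (cons (fin 909 7 845)
(mv 847 (cons (fin 911 6 846)
(mv 1103 (cons (fin 1167 4 910)
(mv 1037 (cons (fin 1105 3 1037)
(mv 1036 (cons (fin 1035 0 1035)
(fin 1039 0 1036))))))))))))))))
(cons (mv 1166 (cons (cons (mv 911 (cons (fin 975 6 910)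
(mv 1165 (cons (fin 1229 5 973)
(mv 1103 (cons (fin 1105 1 1101)
(mv 1164 (cons (fin 1163 2 1099)
(fin 1167 2 1100)))))))))
(cons (mv 1165 (cons (fin 1229 5 973)
(mv 1103 (cons (fin 1105 1 1101)
(mv 1164 (cons (fin 1163 2 1099)
(fin 1167 2 1100)))))))
(mv 911 (cons (fin 975 6 910)
(mv 1231 (cons (fin 1167 4 974)
(mv 1230 (cons (fin 1295 4 1038)
(mv 1293 (cons (fin 1229 5 1037)
(mv 1294 (cons (fin 1357 5 1101)
(mv 1039 (cons (fin 1103 6 1038)
(mv 1105 (cons (fin 1037 0 1037)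
(mv 1106 (cons (fin 1107 3 1039)
(fin 1041 0 1038)))))))))))))))))))
(cons (mv 975 (cons (fin 911 6 910)
(mv 1039 (cons (fin 1230 6 974)
(mv 1037 (cons (fin 1105 0 1037)
(mv 1036 (cons (fin 1035 2 971)
(fin 1103 0 1036)))))))))
(cons (mv 911 (cons (fin 975 6 910)
(mv 1165 (cons (fin 1229 5 973)
(mv 1167 (cons (fin 1231 4 974)
(mv 1164 (cons (fin 1103 2 1100)
(mv 1099 (cons (fin 1100 3 1099)
(mv 1163 (cons (fin 1098 3 1098)
(mv 1227 (cons (fin 1226 1 1162)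
(fin 1228 1 1163)))))))))))))))
(mv 911 (cons (fin 975 6 910)
(mv 1165 (cons (fin 1229 5 973)
(mv 1167 (cons (fin 1231 4 974)
(mv 1105 (cons (fin 1168 2 1101)
(mv 1039 (cons (fin 1037 0 1037)
(mv 1106 (cons (fin 1107 3 1039)
(fin 1041 0 1038)))))))))))))))))
(mv 1166 (cons (cons (mv 911 (cons (fin 975 6 910)
(mv 847 (cons (fin 910 6 846)
(mv 1165 (cons (fin 1229 5 973)
(mv 1167 (cons (fin 1231 4 974)
(mv 1105 (cons (fin 1168 2 1101)
(mv 1039 (cons (fin 1037 0 1037)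
(mv 1106 (cons (fin 1107 3 1039)
(fin 1041 0 1038)))))))))))))))
(mv 1165 (cons (fin 1229 5 973)
(mv 1167 (cons (fin 1231 4 974)
(mv 1105 (cons (fin 1168 2 1101)
(mv 1039 (cons (fin 1037 0 1037)
(mv 1106 (cons (fin 1107 3 1039)
(fin 1041 0 1038))))))))))))
(cons (mv 975 (cons (fin 911 6 910)
(mv 1039 (cons (fin 1230 6 974)
(mv 1041 (cons (fin 1042 3 974)
(mv 1105 (cons (fin 1037 0 1037)
(fin 1106 0 1038)))))))))
(mv 911 (cons (fin 975 6 910)
(mv 847 (cons (fin 910 6 846)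
(mv 1229 (cons (fin 1165 5 973)
(mv 1230 (cons (fin 1293 5 1037)
(mv 1231 (cons (fin 1167 4 974)
(fin 1295 4 1038))))))))))))))))
(cons (cons (mv 1166 (cons (cons (mv 911 (cons (fin 975 6 910)
(mv 847 (cons (fin 910 6 846)
(mv 1165 (cons (fin 1229 5 973)
(mv 1167 (cons (fin 1231 4 974)
(mv 1164 (cons (fin 1103 2 1100)
(mv 1099 (cons (fin 1100 3 1099)
(mv 1163 (cons (fin 1098 3 1098)
(mv 1227 (cons (fin 1226 1 1162)
(fin 1228 1 1163)))))))))))))))))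
(mv 1165 (cons (fin 1229 5 973)
(mv 1167 (cons (fin 1231 4 974)
(mv 1103 (cons (fin 1164 2 1100)
(fin 910 4 910))))))))
(cons (mv 975 (cons (fin 911 6 910)
(mv 1229 (cons (fin 1165 5 973)
(mv 1230 (cons (fin 1293 5 1037)
(fin 1039 6 974)))))))
(mv 911 (cons (fin 975 6 910)
(mv 910 (cons (fin 847 6 846)
(mv 1167 (cons (fin 1103 4 910)
(fin 1231 4 974))))))))))
(mv 910 (cons (cons (mv 845 (cons (fin 909 7 845)
(mv 781 (cons (fin 846 7 781)
(mv 911 (cons (fin 847 6 846)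
(mv 1166 (cons (fin 975 6 910)
(mv 1165 (cons (fin 1229 5 973)
(mv 1105 (cons (fin 1103 1 1101)
(mv 1039 (cons (fin 1037 0 1037)
(mv 1106 (cons (fin 1107 3 1039)
(fin 1041 0 1038)))))))))))))))))
(cons (mv 845 (cons (fin 909 7 845)
(mv 846 (cons (fin 781 7 781)
(mv 783 (cons (fin 847 6 782)
(mv 719 (cons (fin 782 6 718)
(mv 1039 (cons (fin 1103 4 846)
(mv 1105 (cons (fin 1037 0 1037)
(mv 1106 (cons (fin 1107 3 1039)
(fin 1041 0 1038)))))))))))))))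
(mv 845 (cons (fin 909 7 845)
(mv 846 (cons (fin 781 7 781)
(mv 1039 (cons (fin 1103 4 846)
(mv 782 (cons (fin 975 4 782)
(mv 719 (cons (fin 783 6 718)
(mv 655 (cons (fin 718 6 654)
(mv 1105 (cons (fin 1037 0 1037)
(mv 1106 (cons (fin 1107 3 1039)
(fin 1041 0 1038)))))))))))))))))))
(cons (mv 847 (cons (fin 911 6 846)
(mv 846 (cons (fin 783 6 782)
(mv 1039 (cons (fin 1103 4 846)
(mv 782 (cons (fin 975 4 782)
(mv 717 (cons (fin 781 7 717)
(mv 653 (cons (fin 718 7 653)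
(mv 1105 (cons (fin 1037 0 1037)
(mv 1106 (cons (fin 1107 3 1039)
(fin 1041 0 1038)))))))))))))))))
(cons (mv 845 (cons (fin 909 7 845)
(mv 911 (cons (fin 847 6 846)
(mv 1166 (cons (fin 975 6 910)
(mv 1165 (cons (fin 1229 5 973)
(mv 1105 (cons (fin 1103 1 1101)
(mv 1039 (cons (fin 1037 0 1037)
(mv 1106 (cons (fin 1107 3 1039)
(fin 1041 0 1038)))))))))))))))
(mv 845 (cons (fin 909 7 845)
(mv 846 (cons (fin 781 7 781)
(mv 847 (cons (fin 783 6 782)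
(fin 911 6 846))))))))))))
(cons (mv 1103 (cons (mv 910 (cons (fin 1167 4 910)
(mv 845 (cons (fin 909 7 845)
(mv 846 (cons (fin 781 7 781)
(fin 1039 4 846)))))))
(cons (mv 1037 (cons (fin 1105 3 1037)
(mv 1036 (cons (fin 1035 0 1035)
(fin 1039 0 1036)))))
(mv 910 (cons (fin 1167 4 910)
(mv 845 (cons (fin 909 7 845)
(mv 781 (cons (fin 846 7 781)
(mv 1105 (cons (fin 1037 3 1037)
(mv 1041 (cons (fin 1042 2 1038)
(mv 1165 (cons (fin 1166 1 1101)
(mv 1169 (cons (fin 1170 0 1102)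
(mv 1233 (cons (fin 1297 7 1040)
(mv 1232 (cons (fin 1296 5 1040)
(mv 977 (cons (fin 1168 5 976)
(mv 913 (cons (fin 849 5 848)
(mv 914 (cons (fin 850 6 849)
(fin 978 6 913))))))))))))))))))))))))))))
(mv 910 (cons (cons (mv 845 (cons (fin 909 7 845)
(mv 781 (cons (fin 846 7 781)
(mv 847 (cons (fin 911 6 846)
(mv 1103 (cons (fin 1167 4 910)
(mv 1105 (cons (fin 1037 3 1037)
(mv 1041 (cons (fin 1042 2 1038)
(mv 1165 (cons (fin 1166 1 1101)
(mv 1169 (cons (fin 1170 0 1102)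
(mv 1233 (cons (fin 1297 7 1040)
(mv 1232 (cons (fin 1296 5 1040)
(mv 977 (cons (fin 1168 5 976)
(mv 913 (cons (fin 849 5 848)
(mv 914 (cons (fin 850 6 849)
(fin 978 6 913)))))))))))))))))))))))))))
(cons (mv 845 (cons (fin 909 7 845)
(mv 781 (cons (fin 846 7 781)
(mv 911 (cons (fin 847 6 846)
(mv 1166 (cons (fin 975 6 910)
(mv 1229 (cons (fin 1165 5 973)
(mv 1230 (cons (fin 1293 5 1037)
(mv 1231 (cons (fin 1167 4 974)
(fin 1295 4 1038)))))))))))))))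
(mv 845 (cons (fin 909 7 845)
(mv 781 (cons (fin 846 7 781)
(mv 1103 (cons (fin 1167 4 910)
(mv 1105 (cons (fin 1037 3 1037)
(mv 1041 (cons (fin 1042 2 1038)
(mv 1165 (cons (fin 1166 1 1101)
(mv 1169 (cons (fin 1170 0 1102)
(mv 1233 (cons (fin 1297 7 1040)
(mv 1232 (cons (fin 1296 5 1040)
(mv 977 (cons (fin 1168 5 976)
(mv 913 (cons (fin 849 5 848)
(mv 914 (cons (fin 850 6 849)
(fin 978 6 913)))))))))))))))))))))))))))
(cons (mv 845 (cons (fin 909 7 845)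
(mv 846 (cons (fin 781 7 781)
(mv 847 (cons (fin 783 6 782)
(fin 911 6 846)))))))
(cons (mv 847 (cons (fin 911 6 846)
(mv 783 (cons (fin 846 6 782)
(mv 1103 (cons (fin 1167 4 910)
(mv 1105 (cons (fin 1037 3 1037)
(mv 1041 (cons (fin 1042 2 1038)
(mv 1165 (cons (fin 1166 1 1101)
(mv 1169 (cons (fin 1170 0 1102)
(mv 1233 (cons (fin 1297 7 1040)
(mv 1232 (cons (fin 1296 5 1040)
(mv 977 (cons (fin 1168 5 976)
(mv 913 (cons (fin 849 5 848)
(mv 914 (cons (fin 850 6 849)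
(fin 978 6 913)))))))))))))))))))))))))
(mv 845 (cons (fin 909 7 845)
(mv 847 (cons (fin 911 6 846)
(mv 1103 (cons (fin 1167 4 910)
(mv 1105 (cons (fin 1037 3 1037)
(mv 1041 (cons (fin 1042 2 1038)
(mv 1165 (cons (fin 1166 1 1101)
(mv 1169 (cons (fin 1170 0 1102)
(mv 1233 (cons (fin 1297 7 1040)
(mv 1232 (cons (fin 1296 5 1040)
(mv 977 (cons (fin 1168 5 976)
(mv 913 (cons (fin 849 5 848)
(mv 914 (cons (fin 850 6 849)
(fin 978 6 913)))))))))))))))))))))))))))))))))))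
(cons (cons (mv 1103 (cons (cons (cons (mv 1101 (cons (mv 1036 (cons (fin 1037 3 1036)
(mv 1100 (cons (fin 1035 3 1035)
(fin 1039 2 1036)))))
(cons (mv 1036 (cons (fin 1037 3 1036)
(mv 1165 (cons (fin 1164 1 1100)
(mv 910 (cons (fin 1038 5 909)
(mv 1105 (cons (fin 1166 1 1101)
(mv 1169 (cons (fin 1168 0 1101)
(fin 1170 0 1102)))))))))))
(mv 1039 (cons (fin 1100 2 1036)
(mv 1164 (cons (fin 1165 1 1100)
(mv 1168 (cons (fin 1169 0 1101)
(mv 975 (cons (fin 1232 7 975)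
(fin 911 4 911))))))))))))
(mv 1105 (cons (cons (mv 1037 (cons (fin 1038 3 1037)
(mv 1166 (cons (fin 1165 1 1101)
(mv 1106 (cons (fin 1167 1 1102)
(mv 1170 (cons (fin 1169 0 1102)
(fin 1171 0 1103)))))))))
(mv 1166 (cons (fin 1165 1 1101)
(mv 1106 (cons (fin 1167 1 1102)
(mv 1170 (cons (fin 1169 0 1102)
(fin 1171 0 1103))))))))
(cons (mv 1038 (cons (fin 1037 3 1037)
(mv 910 (cons (fin 1167 4 910)
(mv 1039 (cons (fin 1106 3 1038)
(fin 846 4 846)))))))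
(cons (mv 1038 (cons (fin 1037 3 1037)
(mv 910 (cons (fin 1167 4 910)
(mv 845 (cons (fin 909 7 845)
(mv 846 (cons (fin 781 7 781)
(fin 1039 4 846)))))))))
(mv 1038 (cons (fin 1037 3 1037)
(mv 1039 (cons (fin 1106 3 1038)
(mv 846 (cons (fin 910 4 846)
(mv 1166 (cons (fin 1165 1 1101)
(mv 975 (cons (fin 911 5 910)
(fin 1230 6 974))))))))))))))))
(cons (mv 1101 (cons (mv 1036 (cons (fin 1037 3 1036)
(mv 1100 (cons (fin 1035 3 1035)
(fin 1039 2 1036)))))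
(cons (mv 1036 (cons (fin 1037 3 1036)
(mv 1165 (cons (fin 1164 1 1100)
(mv 1038 (cons (fin 910 5 909)
(mv 1229 (cons (fin 1166 5 973)
(fin 1293 6 1037)))))))))
(mv 1039 (cons (fin 1100 2 1036)
(mv 1164 (cons (fin 1165 1 1100)
(mv 1168 (cons (fin 1169 0 1101)
(mv 975 (cons (fin 1232 7 975)
(fin 911 4 911))))))))))))
(mv 1101 (cons (mv 1036 (cons (fin 1037 3 1036)
(mv 1100 (cons (fin 1035 3 1035)
(fin 1039 2 1036)))))
(cons (mv 1036 (cons (fin 1037 3 1036)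
(mv 1165 (cons (fin 1164 1 1100)
(mv 1105 (cons (fin 1166 1 1101)
(mv 1169 (cons (fin 1168 0 1101)
(fin 1170 0 1102)))))))))
(mv 1039 (cons (fin 1100 2 1036)
(mv 1164 (cons (fin 1165 1 1100)
(mv 1168 (cons (fin 1169 0 1101)
(mv 975 (cons (fin 1232 7 975)
(fin 911 4 911))))))))))))))
(cons (cons (mv 1101 (cons (mv 1036 (cons (fin 1037 3 1036)
(mv 1100 (cons (fin 1035 3 1035)
(fin 1039 2 1036)))))
(cons (mv 1037 (cons (fin 1036 3 1036)
(mv 1038 (cons (fin 1105 3 1037)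
(mv 910 (cons (fin 846 5 845)
(fin 1167 4 910)))))))
(mv 1039 (cons (fin 1100 2 1036)
(mv 1168 (cons (fin 1169 0 1101)
(mv 975 (cons (fin 1232 7 975)
(fin 911 4 911))))))))))
(mv 1101 (cons (cons (mv 1039 (cons (fin 1100 2 1036)
(mv 1164 (cons (fin 1165 1 1100)
(mv 1168 (cons (fin 1169 0 1101)
(mv 975 (cons (fin 1232 7 975)
(fin 911 4 911)))))))))
(mv 1165 (cons (fin 1164 1 1100)
(mv 910 (cons (fin 1038 5 909)
(mv 1105 (cons (fin 1166 1 1101)
(mv 1169 (cons (fin 1168 0 1101)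
(fin 1170 0 1102))))))))))
(cons (mv 1039 (cons (fin 1100 2 1036)
(mv 1168 (cons (fin 1169 0 1101)
(mv 975 (cons (fin 1232 7 975)
(fin 911 4 911)))))))
(mv 1039 (cons (fin 1100 2 1036)
(mv 1165 (cons (fin 1164 1 1100)
(mv 910 (cons (fin 1038 5 909)
(mv 975 (cons (fin 1167 7 910)
(mv 846 (cons (fin 911 7 846)
(fin 782 4 782)))))))))))))))
(cons (mv 1101 (cons (mv 1036 (cons (fin 1037 3 1036)
(mv 1100 (cons (fin 1035 3 1035)
(fin 1039 2 1036)))))
(cons (mv 1036 (cons (fin 1037 3 1036)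
(mv 1165 (cons (fin 1164 1 1100)
(mv 1038 (cons (fin 910 5 909)
(mv 1166 (cons (fin 1105 1 1101)
(fin 1229 5 973)))))))))
(mv 1039 (cons (fin 1100 2 1036)
(mv 1165 (cons (fin 1164 1 1100)
(mv 910 (cons (fin 1038 5 909)
(mv 975 (cons (fin 1167 7 910)
(mv 846 (cons (fin 911 7 846)
(fin 782 4 782))))))))))))))
(mv 1101 (cons (cons (mv 1036 (cons (fin 1037 3 1036)
(mv 1035 (cons (fin 1100 3 1035)
(mv 1165 (cons (fin 1164 1 1100)
(mv 910 (cons (fin 1038 5 909)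
(mv 1105 (cons (fin 1166 1 1101)
(mv 1169 (cons (fin 1168 0 1101)
(fin 1170 0 1102)))))))))))))
(mv 1036 (cons (fin 1037 3 1036)
(mv 1100 (cons (fin 1035 3 1035)
(mv 1168 (cons (fin 1167 0 1100)
(fin 1169 0 1101))))))))
(cons (mv 1036 (cons (fin 1037 3 1036)
(mv 1035 (cons (fin 1100 3 1035)
(mv 1165 (cons (fin 1164 1 1100)
(mv 1038 (cons (fin 910 5 909)
(mv 1166 (cons (fin 1105 1 1101)
(fin 1229 5 973)))))))))))
(cons (mv 1164 (cons (fin 1165 1 1100)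
(mv 1100 (cons (fin 1163 1 1099)
(mv 1168 (cons (fin 1167 0 1100)
(fin 1169 0 1101)))))))
(mv 1036 (cons (fin 1037 3 1036)
(mv 1165 (cons (fin 1164 1 1100)
(mv 910 (cons (fin 1038 5 909)
(mv 1105 (cons (fin 1166 1 1101)
(mv 1169 (cons (fin 1168 0 1101)
(fin 1170 0 1102)))))))))))))))))))
(mv 1103 (cons (cons (mv 1041 (cons (fin 1101 2 1037)
(mv 1042 (cons (fin 1039 1 1038)
(fin 1105 2 1038)))))
(mv 1105 (cons (cons (mv 1041 (cons (fin 1042 2 1038)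
(mv 1165 (cons (fin 1166 1 1101)
(mv 1169 (cons (fin 1170 0 1102)
(mv 1233 (cons (fin 1297 7 1040)
(mv 1232 (cons (fin 1296 5 1040)
(mv 977 (cons (fin 1168 5 976)
(mv 913 (cons (fin 849 5 848)
(mv 914 (cons (fin 850 6 849)
(fin 978 6 913)))))))))))))))))
(mv 1166 (cons (fin 1165 1 1101)
(mv 1106 (cons (fin 1167 1 1102)
(mv 1170 (cons (fin 1169 0 1102)
(fin 1171 0 1103))))))))
(cons (mv 1041 (cons (fin 1042 2 1038)
(mv 1169 (cons (fin 1170 0 1102)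
(mv 1233 (cons (fin 1297 7 1040)
(mv 1232 (cons (fin 1296 5 1040)
(mv 977 (cons (fin 1168 5 976)
(mv 913 (cons (fin 849 5 848)
(mv 914 (cons (fin 850 6 849)
(fin 978 6 913)))))))))))))))
(mv 1041 (cons (fin 1042 2 1038)
(mv 1166 (cons (fin 1165 1 1101)
(mv 1106 (cons (fin 1167 1 1102)
(mv 1107 (cons (fin 1039 3 1039)
(fin 1108 3 1040)))))))))))))
(cons (mv 1101 (cons (mv 1036 (cons (fin 1037 3 1036)
(mv 1100 (cons (fin 1035 3 1035)
(fin 1039 2 1036)))))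
(cons (mv 1036 (cons (fin 1037 3 1036)
(mv 1165 (cons (fin 1164 1 1100)
(mv 1105 (cons (fin 1166 1 1101)
(mv 1169 (cons (fin 1168 0 1101)
(fin 1170 0 1102)))))))))
(mv 1039 (cons (fin 1100 2 1036)
(mv 1164 (cons (fin 1165 1 1100)
(mv 1168 (cons (fin 1169 0 1101)
(mv 975 (cons (fin 1232 7 975)
(fin 911 4 911))))))))))))
(cons (mv 1101 (cons (fin 1041 2 1037)
(mv 1036 (cons (fin 1037 3 1036)
(mv 1100 (cons (fin 1035 3 1035)
(fin 1039 2 1036)))))))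
(mv 1041 (cons (fin 1101 2 1037)
(mv 1105 (cons (fin 1042 2 1038)
(mv 1165 (cons (fin 1166 1 1101)
(mv 1169 (cons (fin 1170 0 1102)
(mv 1233 (cons (fin 1297 7 1040)
(mv 1232 (cons (fin 1296 5 1040)
(mv 977 (cons (fin 1168 5 976)
(mv 913 (cons (fin 849 5 848)
(mv 914 (cons (fin 850 6 849)
(fin 978 6 913))))))))))))))))))))))))
(cons (mv 1103 (cons (cons (mv 1041 (cons (fin 1101 2 1037)
(mv 1105 (cons (fin 1042 2 1038)
(mv 1037 (cons (fin 1038 3 1037)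
(mv 1165 (cons (fin 1166 1 1101)
(mv 1169 (cons (fin 1170 0 1102)
(mv 1233 (cons (fin 1297 7 1040)
(mv 1232 (cons (fin 1296 5 1040)
(mv 977 (cons (fin 1168 5 976)
(mv 913 (cons (fin 849 5 848)
(mv 914 (cons (fin 850 6 849)
(fin 978 6 913)))))))))))))))))))))
(cons (mv 1105 (cons (cons (mv 1037 (cons (fin 1038 3 1037)
(mv 1041 (cons (fin 1042 2 1038)
(mv 1165 (cons (fin 1166 1 1101)
(mv 1169 (cons (fin 1170 0 1102)
(mv 1233 (cons (fin 1297 7 1040)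
(mv 1232 (cons (fin 1296 5 1040)
(mv 977 (cons (fin 1168 5 976)
(mv 913 (cons (fin 849 5 848)
(mv 914 (cons (fin 850 6 849)
(fin 978 6 913)))))))))))))))))))
(mv 1041 (cons (fin 1042 2 1038)
(mv 1165 (cons (fin 1166 1 1101)
(mv 1169 (cons (fin 1170 0 1102)
(mv 1233 (cons (fin 1297 7 1040)
(mv 1232 (cons (fin 1296 5 1040)
(mv 977 (cons (fin 1168 5 976)
(mv 913 (cons (fin 849 5 848)
(mv 914 (cons (fin 850 6 849)
(fin 978 6 913))))))))))))))))))
(cons (mv 1037 (cons (fin 1038 3 1037)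
(mv 1041 (cons (fin 1042 2 1038)
(mv 1169 (cons (fin 1170 0 1102)
(mv 1233 (cons (fin 1297 7 1040)
(mv 1232 (cons (fin 1296 5 1040)
(mv 977 (cons (fin 1168 5 976)
(mv 913 (cons (fin 849 5 848)
(mv 914 (cons (fin 850 6 849)
(fin 978 6 913)))))))))))))))))
(cons (mv 1037 (cons (fin 1038 3 1037)
(mv 1041 (cons (fin 1042 2 1038)
(mv 1166 (cons (fin 1165 1 1101)
(mv 1106 (cons (fin 1167 1 1102)
(mv 1107 (cons (fin 1108 3 1040)
(mv 1171 (cons (fin 1170 0 1103)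
(fin 1172 0 1104)))))))))))))
(mv 1038 (cons (fin 1037 3 1037)
(mv 910 (cons (fin 1167 4 910)
(mv 845 (cons (fin 909 7 845)
(mv 781 (cons (fin 846 7 781)
(mv 911 (cons (fin 847 6 846)
(mv 1166 (cons (fin 1165 1 1101)
(fin 975 6 910)))))))))))))))))
(mv 1101 (cons (cons (mv 1036 (cons (fin 1037 3 1036)
(mv 1035 (cons (fin 1100 3 1035)
(mv 1165 (cons (fin 1164 1 1100)
(mv 910 (cons (fin 1038 5 909)
(mv 1105 (cons (fin 1166 1 1101)
(mv 1169 (cons (fin 1168 0 1101)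
(fin 1170 0 1102)))))))))))))
(mv 1036 (cons (fin 1037 3 1036)
(mv 1100 (cons (fin 1035 3 1035)
(mv 1168 (cons (fin 1167 0 1100)
(fin 1169 0 1101))))))))
(cons (mv 1036 (cons (fin 1037 3 1036)
(mv 1035 (cons (fin 1100 3 1035)
(mv 1165 (cons (fin 1164 1 1100)
(mv 1038 (cons (fin 910 5 909)
(mv 1166 (cons (fin 1105 1 1101)
(fin 1229 5 973)))))))))))
(cons (mv 1164 (cons (fin 1165 1 1100)
(mv 1100 (cons (fin 1163 1 1099)
(mv 1168 (cons (fin 1167 0 1100)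
(fin 1169 0 1101)))))))
(mv 1036 (cons (fin 1037 3 1036)
(mv 1165 (cons (fin 1164 1 1100)
(mv 910 (cons (fin 1038 5 909)
(mv 1105 (cons (fin 1166 1 1101)
(mv 1169 (cons (fin 1168 0 1101)
(fin 1170 0 1102)))))))))))))))))
(cons (mv 1101 (cons (fin 1041 2 1037)
(mv 1036 (cons (fin 1037 3 1036)
(mv 1035 (cons (fin 1100 3 1035)
(mv 1165 (cons (fin 1164 1 1100)
(mv 1038 (cons (fin 910 5 909)
(mv 1229 (cons (fin 1166 5 973)
(fin 1293 6 1037)))))))))))))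
(cons (mv 1041 (cons (fin 1101 2 1037)
(mv 1105 (cons (fin 1042 2 1038)
(mv 1165 (cons (fin 1166 1 1101)
(mv 1169 (cons (fin 1170 0 1102)
(mv 1233 (cons (fin 1297 7 1040)
(mv 1232 (cons (fin 1296 5 1040)
(mv 977 (cons (fin 1168 5 976)
(mv 913 (cons (fin 849 5 848)
(mv 914 (cons (fin 850 6 849)
(fin 978 6 913)))))))))))))))))))
(mv 1041 (cons (fin 1101 2 1037)
(mv 1105 (cons (fin 1042 2 1038)
(mv 1037 (cons (fin 1038 3 1037)
(mv 1169 (cons (fin 1170 0 1102)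
(mv 1233 (cons (fin 1297 7 1040)
(mv 1232 (cons (fin 1296 5 1040)
(mv 977 (cons (fin 1168 5 976)
(mv 913 (cons (fin 849 5 848)
(mv 914 (cons (fin 850 6 849)
(fin 978 6 913)))))))))))))))))))))))
(mv 1101 (cons (cons (mv 1041 (cons (fin 1103 2 1037)
(mv 1038 (cons (fin 1039 1 1037)
(mv 910 (cons (fin 1165 5 909)
(mv 845 (cons (fin 909 7 845)
(mv 846 (cons (fin 781 7 781)
(fin 1037 5 845)))))))))))
(cons (mv 1038 (cons (mv 910 (cons (fin 1165 5 909)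
(mv 845 (cons (fin 909 7 845)
(mv 846 (cons (fin 781 7 781)
(fin 1037 5 845)))))))
(cons (mv 1039 (cons (fin 1041 1 1037)
(mv 1100 (cons (fin 1037 1 1036)
(fin 1099 2 1035)))))
(mv 910 (cons (fin 1165 5 909)
(mv 845 (cons (fin 909 7 845)
(mv 846 (cons (fin 781 7 781)
(mv 847 (cons (fin 783 6 782)
(fin 911 6 846))))))))))))
(mv 1103 (cons (mv 1036 (cons (fin 1037 3 1036)
(mv 1100 (cons (fin 1035 3 1035)
(fin 1039 2 1036)))))
(cons (mv 1036 (cons (fin 1037 3 1036)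
(mv 1165 (cons (fin 1164 1 1100)
(mv 1038 (cons (fin 910 5 909)
(mv 1229 (cons (fin 1166 5 973)
(fin 1293 6 1037)))))))))
(mv 1039 (cons (fin 1100 2 1036)
(mv 1164 (cons (fin 1165 1 1100)
(mv 1168 (cons (fin 1169 0 1101)
(mv 975 (cons (fin 1232 7 975)
(fin 911 4 911))))))))))))))
(cons (mv 1103 (cons (fin 1041 2 1037)
(mv 1036 (cons (fin 1037 3 1036)
(mv 1100 (cons (fin 1035 3 1035)
(fin 1039 2 1036)))))))
(cons (mv 1103 (cons (fin 1041 2 1037)
(mv 1036 (cons (fin 1037 3 1036)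
(mv 1035 (cons (fin 1100 3 1035)
(mv 1165 (cons (fin 1164 1 1100)
(mv 1038 (cons (fin 910 5 909)
(mv 1229 (cons (fin 1166 5 973)
(fin 1293 6 1037)))))))))))))
(mv 1041 (cons (fin 1103 2 1037)
(mv 1038 (cons (fin 1039 1 1037)
(mv 910 (cons (fin 1165 5 909)
(mv 845 (cons (fin 909 7 845)
(mv 846 (cons (fin 781 7 781)
(mv 847 (cons (fin 783 6 782)
(fin 911 6 846))))))))))))))))))))
(cons (cons (cons (mv 1103 (cons (cons (mv 1041 (cons (fin 1101 2 1037)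
(mv 1042 (cons (fin 1039 1 1038)
(fin 1105 2 1038)))))
(mv 1105 (cons (cons (mv 1037 (cons (fin 1038 3 1037)
(mv 1041 (cons (fin 1042 2 1038)
(mv 1165 (cons (fin 1166 1 1101)
(mv 1170 (cons (fin 1169 0 1102)
(mv 1106 (cons (fin 1171 0 1103)
(mv 1107 (cons (fin 1039 3 1039)
(fin 1108 3 1040)))))))))))))
(cons (mv 1041 (cons (fin 1042 2 1038)
(mv 1165 (cons (fin 1166 1 1101)
(mv 1170 (cons (fin 1169 0 1102)
(mv 1106 (cons (fin 1171 0 1103)
(mv 1107 (cons (fin 1039 3 1039)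
(fin 1108 3 1040)))))))))))
(mv 1037 (cons (fin 1038 3 1037)
(mv 1041 (cons (fin 1042 2 1038)
(mv 1170 (cons (fin 1169 0 1102)
(mv 1106 (cons (fin 1171 0 1103)
(mv 1107 (cons (fin 1039 3 1039)
(fin 1108 3 1040)))))))))))))
(cons (mv 1037 (cons (fin 1038 3 1037)
(mv 1166 (cons (fin 1165 1 1101)
(mv 1106 (cons (fin 1167 1 1102)
(mv 1170 (cons (fin 1169 0 1102)
(fin 1171 0 1103)))))))))
(cons (mv 1037 (cons (fin 1038 3 1037)
(mv 1041 (cons (fin 1042 2 1038)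
(mv 1166 (cons (fin 1165 1 1101)
(mv 1106 (cons (fin 1167 1 1102)
(mv 1107 (cons (fin 1039 3 1039)
(fin 1108 3 1040)))))))))))
(mv 1037 (cons (fin 1038 3 1037)
(mv 1041 (cons (fin 1042 2 1038)
(mv 1166 (cons (fin 1165 1 1101)
(mv 1169 (cons (fin 1170 0 1102)
(mv 1233 (cons (fin 1297 7 1040)
(mv 1232 (cons (fin 1296 5 1040)
(mv 1234 (cons (fin 1298 4 1041)
(mv 1231 (cons (fin 1167 3 1166)
(mv 1294 (cons (fin 1295 1 1230)
(mv 1230 (cons (fin 1293 1 1229)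
(fin 1039 6 1038))))))))))))))))))))))))))
(cons (mv 1105 (cons (cons (mv 1037 (cons (fin 1038 3 1037)
(mv 1036 (cons (fin 1101 3 1036)
(mv 1166 (cons (fin 1165 1 1101)
(mv 1106 (cons (fin 1167 1 1102)
(mv 1170 (cons (fin 1169 0 1102)
(fin 1171 0 1103)))))))))))
(mv 1165 (cons (fin 1166 1 1101)
(mv 1101 (cons (fin 1164 1 1100)
(mv 1036 (cons (fin 1037 3 1036)
(mv 1100 (cons (fin 1035 3 1035)
(fin 1039 2 1036))))))))))
(cons (mv 1165 (cons (fin 1166 1 1101)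
(mv 1101 (cons (fin 1164 1 1100)
(mv 910 (cons (fin 1038 5 909)
(mv 1039 (cons (fin 1100 2 1036)
(mv 975 (cons (fin 1167 7 910)
(mv 846 (cons (fin 911 7 846)
(fin 782 4 782)))))))))))))
(cons (mv 1037 (cons (fin 1038 3 1037)
(mv 1101 (cons (fin 1036 3 1036)
(mv 1039 (cons (fin 1100 2 1036)
(mv 1106 (cons (fin 1107 3 1039)
(mv 1170 (cons (fin 1169 0 1102)
(fin 1171 0 1103)))))))))))
(mv 1037 (cons (fin 1038 3 1037)
(mv 1166 (cons (fin 1165 1 1101)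
(mv 1106 (cons (fin 1167 1 1102)
(mv 1170 (cons (fin 1169 0 1102)
(fin 1171 0 1103)))))))))))))
(cons (mv 1101 (cons (fin 1041 2 1037)
(mv 1036 (cons (fin 1037 3 1036)
(mv 1100 (cons (fin 1035 3 1035)
(fin 1039 2 1036)))))))
(mv 1041 (cons (fin 1101 2 1037)
(mv 1105 (cons (fin 1042 2 1038)
(mv 1037 (cons (fin 1038 3 1037)
(mv 1166 (cons (fin 1165 1 1101)
(mv 1106 (cons (fin 1167 1 1102)
(mv 1170 (cons (fin 1169 0 1102)
(fin 1171 0 1103)))))))))))))))))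
(mv 1103 (cons (cons (mv 1041 (cons (fin 1101 2 1037)
(mv 1042 (cons (fin 1039 1 1038)
(fin 1105 2 1038)))))
(mv 1105 (cons (mv 1037 (cons (fin 1038 3 1037)
(mv 1041 (cons (fin 1042 2 1038)
(mv 1169 (cons (fin 1170 0 1102)
(mv 1233 (cons (fin 1297 7 1040)
(mv 1232 (cons (fin 1296 5 1040)
(mv 977 (cons (fin 1168 5 976)
(mv 913 (cons (fin 849 5 848)
(mv 914 (cons (fin 850 6 849)
(fin 978 6 913)))))))))))))))))
(cons (mv 1041 (cons (fin 1042 2 1038)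
(mv 1169 (cons (fin 1170 0 1102)
(mv 1233 (cons (fin 1297 7 1040)
(mv 1232 (cons (fin 1296 5 1040)
(mv 977 (cons (fin 1168 5 976)
(mv 913 (cons (fin 849 5 848)
(mv 914 (cons (fin 850 6 849)
(fin 978 6 913)))))))))))))))
(mv 1038 (cons (fin 1037 3 1037)
(mv 910 (cons (fin 1167 4 910)
(mv 1039 (cons (fin 1106 3 1038)
(fin 846 4 846)))))))))))
(cons (mv 1101 (cons (mv 1036 (cons (fin 1037 3 1036)
(mv 1100 (cons (fin 1035 3 1035)
(fin 1039 2 1036)))))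
(cons (mv 1037 (cons (fin 1036 3 1036)
(mv 1038 (cons (fin 1105 3 1037)
(mv 910 (cons (fin 846 5 845)
(fin 1165 5 909)))))))
(mv 1039 (cons (fin 1100 2 1036)
(mv 1164 (cons (fin 1165 1 1100)
(mv 1168 (cons (fin 1169 0 1101)
(mv 975 (cons (fin 1232 7 975)
(fin 911 4 911))))))))))))
(cons (mv 1101 (cons (fin 1041 2 1037)
(mv 1036 (cons (fin 1037 3 1036)
(mv 1100 (cons (fin 1035 3 1035)
(fin 1039 2 1036)))))))
(mv 1041 (cons (fin 1101 2 1037)
(mv 1105 (cons (fin 1042 2 1038)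
(mv 1037 (cons (fin 1038 3 1037)
(mv 1169 (cons (fin 1170 0 1102)
(mv 1233 (cons (fin 1297 7 1040)
(mv 1232 (cons (fin 1296 5 1040)
(mv 977 (cons (fin 1168 5 976)
(mv 913 (cons (fin 849 5 848)
(mv 914 (cons (fin 850 6 849)
(fin 978 6 913))))))))))))))))))))))))
(cons (mv 1103 (cons (cons (mv 1041 (cons (fin 1101 2 1037)
(mv 1042 (cons (fin 1039 1 1038)
(fin 1105 2 1038)))))
(mv 1105 (cons (cons (mv 1037 (cons (fin 1038 3 1037)
(mv 1041 (cons (fin 1042 2 1038)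
(mv 1165 (cons (fin 1166 1 1101)
(mv 1169 (cons (fin 1170 0 1102)
(mv 1233 (cons (fin 1297 7 1040)
(mv 1232 (cons (fin 1296 5 1040)
(mv 977 (cons (fin 1168 5 976)
(mv 913 (cons (fin 849 5 848)
(mv 914 (cons (fin 850 6 849)
(fin 978 6 913)))))))))))))))))))
(mv 1041 (cons (fin 1042 2 1038)
(mv 1165 (cons (fin 1166 1 1101)
(mv 1169 (cons (fin 1170 0 1102)
(mv 1233 (cons (fin 1297 7 1040)
(mv 1232 (cons (fin 1296 5 1040)
(mv 977 (cons (fin 1168 5 976)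
(mv 913 (cons (fin 849 5 848)
(mv 914 (cons (fin 850 6 849)
(fin 978 6 913))))))))))))))))))
(cons (mv 1037 (cons (fin 1038 3 1037)
(mv 1166 (cons (fin 1165 1 1101)
(mv 1106 (cons (fin 1167 1 1102)
(mv 1170 (cons (fin 1169 0 1102)
(fin 1171 0 1103)))))))))
(cons (mv 1037 (cons (fin 1038 3 1037)
(mv 1041 (cons (fin 1042 2 1038)
(mv 1169 (cons (fin 1170 0 1102)
(mv 1233 (cons (fin 1297 7 1040)
(mv 1232 (cons (fin 1296 5 1040)
(mv 977 (cons (fin 1168 5 976)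
(mv 913 (cons (fin 849 5 848)
(mv 914 (cons (fin 850 6 849)
(fin 978 6 913)))))))))))))))))
(mv 1037 (cons (fin 1038 3 1037)
(mv 1041 (cons (fin 1042 2 1038)
(mv 1166 (cons (fin 1165 1 1101)
(mv 1106 (cons (fin 1167 1 1102)
(mv 1107 (cons (fin 1039 3 1039)
(fin 1108 3 1040))))))))))))))))
(cons (mv 1101 (cons (mv 1036 (cons (fin 1037 3 1036)
(mv 1100 (cons (fin 1035 3 1035)
(fin 1039 2 1036)))))
(cons (mv 1036 (cons (fin 1037 3 1036)
(mv 1165 (cons (fin 1164 1 1100)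
(mv 910 (cons (fin 1038 5 909)
(mv 1105 (cons (fin 1166 1 1101)
(mv 1169 (cons (fin 1168 0 1101)
(fin 1170 0 1102)))))))))))
(mv 1039 (cons (fin 1100 2 1036)
(mv 1164 (cons (fin 1165 1 1100)
(mv 1168 (cons (fin 1169 0 1101)
(mv 1232 (cons (fin 1296 7 1039)
(mv 1231 (cons (fin 1295 5 1039)
(mv 1167 (cons (fin 1038 7 974)
(mv 1230 (cons (fin 1294 5 1038)
(mv 1228 (cons (fin 1229 2 1164)
(mv 1233 (cons (fin 1297 4 1040)
(mv 1234 (cons (fin 1166 3 1166)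
(fin 1235 3 1167))))))))))))))))))))))))
(cons (mv 1101 (cons (fin 1041 2 1037)
(mv 1036 (cons (fin 1037 3 1036)
(mv 1100 (cons (fin 1035 3 1035)
(fin 1039 2 1036)))))))
(mv 1041 (cons (fin 1101 2 1037)
(mv 1105 (cons (fin 1042 2 1038)
(mv 1037 (cons (fin 1038 3 1037)
(mv 1165 (cons (fin 1166 1 1101)
(mv 1169 (cons (fin 1170 0 1102)
(mv 1233 (cons (fin 1297 7 1040)
(mv 1232 (cons (fin 1296 5 1040)
(mv 977 (cons (fin 1168 5 976)
(mv 913 (cons (fin 849 5 848)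
(mv 914 (cons (fin 850 6 849)
(fin 978 6 913)))))))))))))))))))))))))
(mv 1103 (cons (cons (mv 1041 (cons (fin 1101 2 1037)
(mv 1042 (cons (fin 1039 1 1038)
(fin 1105 2 1038)))))
(mv 1105 (cons (cons (mv 1037 (cons (fin 1038 3 1037)
(mv 1041 (cons (fin 1042 2 1038)
(mv 1169 (cons (fin 1170 0 1102)
(mv 1233 (cons (fin 1297 7 1040)
(mv 1232 (cons (fin 1296 5 1040)
(mv 977 (cons (fin 1168 5 976)
(mv 913 (cons (fin 849 5 848)
(mv 914 (cons (fin 850 6 849)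
(fin 978 6 913)))))))))))))))))
(mv 1041 (cons (fin 1042 2 1038)
(mv 1169 (cons (fin 1170 0 1102)
(mv 1233 (cons (fin 1297 7 1040)
(mv 1232 (cons (fin 1296 5 1040)
(mv 977 (cons (fin 1168 5 976)
(mv 913 (cons (fin 849 5 848)
(mv 914 (cons (fin 850 6 849)
(fin 978 6 913))))))))))))))))
(cons (mv 1037 (cons (fin 1038 3 1037)
(mv 1170 (cons (fin 1169 0 1102)
(mv 1106 (cons (fin 1171 0 1103)
(mv 1039 (cons (fin 1107 3 1039)
(mv 1167 (cons (fin 1166 1 1102)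
(mv 975 (cons (fin 910 7 910)
(mv 911 (cons (fin 847 4 847)
(fin 1168 4 911)))))))))))))))
(mv 1038 (cons (fin 1037 3 1037)
(mv 910 (cons (fin 1167 4 910)
(mv 1039 (cons (fin 1106 3 1038)
(fin 846 4 846)))))))))))
(cons (mv 1101 (cons (mv 1036 (cons (fin 1037 3 1036)
(mv 1100 (cons (fin 1035 3 1035)
(fin 1039 2 1036)))))
(cons (mv 1037 (cons (fin 1036 3 1036)
(mv 1038 (cons (fin 1105 3 1037)
(mv 910 (cons (fin 846 5 845)
(fin 1167 4 910)))))))
(mv 1039 (cons (fin 1100 2 1036)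
(mv 1168 (cons (fin 1169 0 1101)
(mv 975 (cons (fin 1232 7 975)
(fin 911 4 911))))))))))
(cons (mv 1101 (cons (fin 1041 2 1037)
(mv 1036 (cons (fin 1037 3 1036)
(mv 1100 (cons (fin 1035 3 1035)
(fin 1039 2 1036)))))))
(mv 1041 (cons (fin 1101 2 1037)
(mv 1105 (cons (fin 1042 2 1038)
(mv 1037 (cons (fin 1038 3 1037)
(mv 1169 (cons (fin 1170 0 1102)
(mv 1233 (cons (fin 1297 7 1040)
(mv 1232 (cons (fin 1296 5 1040)
(mv 977 (cons (fin 1168 5 976)
(mv 913 (cons (fin 849 5 848)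
(mv 914 (cons (fin 850 6 849)
(fin 978 6 913)))))))))))))))))))))))))
(cons (cons (mv 1103 (cons (cons (mv 1041 (cons (fin 1101 2 1037)
(mv 1042 (cons (fin 1039 1 1038)
(fin 1105 2 1038)))))
(mv 1105 (cons (cons (mv 1037 (cons (fin 1038 3 1037)
(mv 1041 (cons (fin 1042 2 1038)
(mv 1165 (cons (fin 1166 1 1101)
(mv 1170 (cons (fin 1169 0 1102)
(mv 1106 (cons (fin 1171 0 1103)
(mv 1107 (cons (fin 1039 3 1039)
(fin 1108 3 1040)))))))))))))
(cons (mv 1041 (cons (fin 1042 2 1038)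
(mv 1165 (cons (fin 1166 1 1101)
(mv 1170 (cons (fin 1169 0 1102)
(mv 1106 (cons (fin 1171 0 1103)
(mv 1107 (cons (fin 1039 3 1039)
(fin 1108 3 1040)))))))))))
(mv 1037 (cons (fin 1038 3 1037)
(mv 1041 (cons (fin 1042 2 1038)
(mv 1170 (cons (fin 1169 0 1102)
(mv 1106 (cons (fin 1171 0 1103)
(mv 1107 (cons (fin 1039 3 1039)
(fin 1108 3 1040)))))))))))))
(cons (mv 1037 (cons (fin 1038 3 1037)
(mv 1166 (cons (fin 1165 1 1101)
(mv 1106 (cons (fin 1167 1 1102)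
(mv 1170 (cons (fin 1169 0 1102)
(fin 1171 0 1103)))))))))
(cons (mv 1037 (cons (fin 1038 3 1037)
(mv 1041 (cons (fin 1042 2 1038)
(mv 1166 (cons (fin 1165 1 1101)
(mv 1106 (cons (fin 1167 1 1102)
(mv 1107 (cons (fin 1039 3 1039)
(fin 1108 3 1040)))))))))))
(mv 1038 (cons (fin 1037 3 1037)
(mv 910 (cons (fin 1167 4 910)
(mv 845 (cons (fin 909 7 845)
(mv 846 (cons (fin 781 7 781)
(fin 1039 4 846))))))))))))))
(cons (mv 1101 (cons (mv 1036 (cons (fin 1037 3 1036)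
(mv 1100 (cons (fin 1035 3 1035)
(fin 1039 2 1036)))))
(cons (mv 1036 (cons (fin 1037 3 1036)
(mv 1165 (cons (fin 1164 1 1100)
(mv 910 (cons (fin 1038 5 909)
(mv 1105 (cons (fin 1166 1 1101)
(mv 1169 (cons (fin 1168 0 1101)
(fin 1170 0 1102)))))))))))
(mv 1039 (cons (fin 1100 2 1036)
(mv 1164 (cons (fin 1165 1 1100)
(mv 1168 (cons (fin 1169 0 1101)
(mv 975 (cons (fin 911 4 911)
(mv 910 (cons (fin 1167 7 910)
(mv 846 (cons (fin 782 4 782)
(fin 1038 4 846))))))))))))))))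
(cons (mv 1101 (cons (fin 1041 2 1037)
(mv 1036 (cons (fin 1037 3 1036)
(mv 1100 (cons (fin 1035 3 1035)
(fin 1039 2 1036)))))))
(mv 1041 (cons (fin 1101 2 1037)
(mv 1105 (cons (fin 1042 2 1038)
(mv 1037 (cons (fin 1038 3 1037)
(mv 1166 (cons (fin 1165 1 1101)
(mv 1106 (cons (fin 1167 1 1102)
(mv 1170 (cons (fin 1169 0 1102)
(fin 1171 0 1103)))))))))))))))))
(mv 1103 (cons (cons (mv 1041 (cons (fin 1101 2 1037)
(mv 1042 (cons (fin 1039 1 1038)
(fin 1105 2 1038)))))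
(mv 1105 (cons (cons (mv 1041 (cons (fin 1042 2 1038)
(mv 1165 (cons (fin 1166 1 1101)
(mv 1169 (cons (fin 1170 0 1102)
(mv 1233 (cons (fin 1297 7 1040)
(mv 1232 (cons (fin 1296 5 1040)
(mv 977 (cons (fin 1168 5 976)
(mv 849 (cons (fin 913 5 848)
(mv 978 (cons (fin 914 6 913)
(mv 979 (cons (fin 980 1 976)
(mv 1038 (cons (fin 1039 2 974)
(mv 910 (cons (fin 1167 4 910)
(mv 845 (cons (fin 909 7 845)
(mv 846 (cons (fin 781 7 781)
(mv 847 (cons (fin 783 6 782)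
(fin 911 6 846)))))))))))))))))))))))))))))
(mv 1041 (cons (fin 1042 2 1038)
(mv 1169 (cons (fin 1170 0 1102)
(mv 1233 (cons (fin 1297 7 1040)
(mv 1232 (cons (fin 1296 5 1040)
(mv 977 (cons (fin 1168 5 976)
(mv 849 (cons (fin 913 5 848)
(mv 978 (cons (fin 914 6 913)
(mv 979 (cons (fin 980 1 976)
(mv 1038 (cons (fin 1039 2 974)
(mv 910 (cons (fin 1167 4 910)
(mv 845 (cons (fin 909 7 845)
(mv 846 (cons (fin 781 7 781)
(mv 847 (cons (fin 783 6 782)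
(fin 911 6 846))))))))))))))))))))))))))))
(cons (mv 1165 (cons (fin 1166 1 1101)
(mv 1170 (cons (fin 1169 0 1102)
(mv 1106 (cons (fin 1171 0 1103)
(mv 1039 (cons (fin 1038 3 1038)
(fin 1107 3 1039)))))))))
(cons (mv 1041 (cons (fin 1042 2 1038)
(mv 1166 (cons (fin 1165 1 1101)
(mv 1106 (cons (fin 1167 1 1102)
(mv 1039 (cons (fin 1038 3 1038)
(fin 1107 3 1039)))))))))
(mv 1041 (cons (fin 1042 2 1038)
(mv 1165 (cons (fin 1166 1 1101)
(mv 1169 (cons (fin 1170 0 1102)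
(mv 1233 (cons (fin 1297 7 1040)
(mv 1232 (cons (fin 1296 5 1040)
(mv 977 (cons (fin 1168 5 976)
(mv 913 (cons (fin 849 5 848)
(mv 914 (cons (fin 850 6 849)
(fin 978 6 913))))))))))))))))))))))
(cons (mv 1101 (cons (cons (mv 1039 (cons (fin 1100 2 1036)
(mv 1164 (cons (fin 1165 1 1100)
(mv 1168 (cons (fin 1169 0 1101)
(mv 975 (cons (fin 1232 7 975)
(fin 911 4 911)))))))))
(mv 1165 (cons (fin 1164 1 1100)
(mv 910 (cons (fin 1038 5 909)
(mv 1105 (cons (fin 1166 1 1101)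
(mv 1169 (cons (fin 1168 0 1101)
(fin 1170 0 1102))))))))))
(cons (mv 1039 (cons (fin 1100 2 1036)
(mv 1168 (cons (fin 1169 0 1101)
(mv 975 (cons (fin 1232 7 975)
(fin 911 4 911)))))))
(mv 1039 (cons (fin 1100 2 1036)
(mv 1165 (cons (fin 1164 1 1100)
(mv 910 (cons (fin 1038 5 909)
(mv 975 (cons (fin 1167 7 910)
(mv 846 (cons (fin 911 7 846)
(fin 782 4 782))))))))))))))
(cons (mv 1101 (cons (fin 1041 2 1037)
(mv 1039 (cons (fin 1100 2 1036)
(mv 1164 (cons (fin 1165 1 1100)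
(mv 1168 (cons (fin 1169 0 1101)
(mv 975 (cons (fin 1232 7 975)
(fin 911 4 911)))))))))))
(mv 1041 (cons (fin 1101 2 1037)
(mv 1105 (cons (fin 1042 2 1038)
(mv 1165 (cons (fin 1166 1 1101)
(mv 1169 (cons (fin 1170 0 1102)
(mv 1233 (cons (fin 1297 7 1040)
(mv 1232 (cons (fin 1296 5 1040)
(mv 977 (cons (fin 1168 5 976)
(mv 913 (cons (fin 849 5 848)
(mv 914 (cons (fin 850 6 849)
(fin 978 6 913))))))))))))))))))))))))
(cons (mv 1103 (cons (cons (mv 1041 (cons (fin 1101 2 1037)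
(mv 1042 (cons (fin 1039 1 1038)
(fin 1105 2 1038)))))
(mv 1105 (cons (cons (mv 1037 (cons (fin 1038 3 1037)
(mv 1041 (cons (fin 1042 2 1038)
(mv 1166 (cons (fin 1165 1 1101)
(mv 1106 (cons (fin 1167 1 1102)
(mv 1107 (cons (fin 1039 3 1039)
(fin 1108 3 1040)))))))))))
(cons (mv 1041 (cons (fin 1042 2 1038)
(mv 1166 (cons (fin 1165 1 1101)
(mv 1106 (cons (fin 1167 1 1102)
(mv 1107 (cons (fin 1039 3 1039)
(fin 1108 3 1040)))))))))
(mv 1038 (cons (fin 1037 3 1037)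
(mv 910 (cons (fin 1167 4 910)
(mv 1039 (cons (fin 1106 3 1038)
(fin 846 4 846)))))))))
(cons (mv 1037 (cons (fin 1038 3 1037)
(mv 1041 (cons (fin 1042 2 1038)
(mv 1166 (cons (fin 1165 1 1101)
(mv 1106 (cons (fin 1167 1 1102)
(mv 1107 (cons (fin 1108 3 1040)
(mv 1171 (cons (fin 1170 0 1103)
(fin 1172 0 1104)))))))))))))
(cons (mv 1038 (cons (fin 1037 3 1037)
(mv 910 (cons (fin 1167 4 910)
(mv 845 (cons (fin 909 7 845)
(mv 846 (cons (fin 781 7 781)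
(fin 1039 4 846)))))))))
(mv 1038 (cons (fin 1037 3 1037)
(mv 1039 (cons (fin 1106 3 1038)
(mv 846 (cons (fin 910 4 846)
(mv 1041 (cons (fin 1042 1 1038)
(mv 977 (cons (fin 978 2 974)
(mv 913 (cons (fin 849 5 848)
(fin 1168 5 912))))))))))))))))))
(cons (mv 1101 (cons (mv 1036 (cons (fin 1037 3 1036)
(mv 1100 (cons (fin 1035 3 1035)
(fin 1039 2 1036)))))
(cons (mv 1036 (cons (fin 1037 3 1036)
(mv 1165 (cons (fin 1164 1 1100)
(mv 1038 (cons (fin 910 5 909)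
(mv 1166 (cons (fin 1105 1 1101)
(fin 1229 5 973)))))))))
(mv 1039 (cons (fin 1100 2 1036)
(mv 1165 (cons (fin 1164 1 1100)
(mv 910 (cons (fin 1038 5 909)
(mv 975 (cons (fin 1167 7 910)
(mv 846 (cons (fin 911 7 846)
(fin 782 4 782))))))))))))))
(cons (mv 1101 (cons (fin 1041 2 1037)
(mv 1036 (cons (fin 1037 3 1036)
(mv 1100 (cons (fin 1035 3 1035)
(fin 1039 2 1036)))))))
(mv 1041 (cons (fin 1101 2 1037)
(mv 1105 (cons (fin 1042 2 1038)
(mv 1037 (cons (fin 1038 3 1037)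
(mv 1166 (cons (fin 1165 1 1101)
(mv 1106 (cons (fin 1167 1 1102)
(mv 1107 (cons (fin 1108 3 1040)
(mv 1171 (cons (fin 1170 0 1103)
(fin 1172 0 1104)))))))))))))))))))
(mv 1103 (cons (cons (mv 1041 (cons (fin 1101 2 1037)
(mv 1042 (cons (fin 1039 1 1038)
(fin 1105 2 1038)))))
(mv 1105 (cons (cons (mv 1037 (cons (fin 1038 3 1037)
(mv 1041 (cons (fin 1042 2 1038)
(mv 1165 (cons (fin 1166 1 1101)
(mv 1169 (cons (fin 1170 0 1102)
(mv 1233 (cons (fin 1297 7 1040)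
(mv 1232 (cons (fin 1296 5 1040)
(mv 977 (cons (fin 1168 5 976)
(mv 913 (cons (fin 849 5 848)
(mv 914 (cons (fin 850 6 849)
(fin 978 6 913)))))))))))))))))))
(mv 1041 (cons (fin 1042 2 1038)
(mv 1165 (cons (fin 1166 1 1101)
(mv 1169 (cons (fin 1170 0 1102)
(mv 1233 (cons (fin 1297 7 1040)
(mv 1232 (cons (fin 1296 5 1040)
(mv 977 (cons (fin 1168 5 976)
(mv 913 (cons (fin 849 5 848)
(mv 914 (cons (fin 850 6 849)
(fin 978 6 913))))))))))))))))))
(cons (mv 1037 (cons (fin 1038 3 1037)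
(mv 1041 (cons (fin 1042 2 1038)
(mv 1169 (cons (fin 1170 0 1102)
(mv 1233 (cons (fin 1297 7 1040)
(mv 1232 (cons (fin 1296 5 1040)
(mv 977 (cons (fin 1168 5 976)
(mv 913 (cons (fin 849 5 848)
(mv 914 (cons (fin 850 6 849)
(fin 978 6 913)))))))))))))))))
(cons (mv 1037 (cons (fin 1038 3 1037)
(mv 1166 (cons (fin 1165 1 1101)
(mv 1106 (cons (fin 1167 1 1102)
(mv 1170 (cons (fin 1169 0 1102)
(fin 1171 0 1103)))))))))
(mv 1037 (cons (fin 1038 3 1037)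
(mv 1041 (cons (fin 1042 2 1038)
(mv 1166 (cons (fin 1165 1 1101)
(mv 1106 (cons (fin 1167 1 1102)
(mv 1107 (cons (fin 1039 3 1039)
(fin 1108 3 1040))))))))))))))))
(cons (mv 1105 (cons (cons (mv 1037 (cons (fin 1038 3 1037)
(mv 1036 (cons (fin 1101 3 1036)
(mv 1166 (cons (fin 1165 1 1101)
(mv 1106 (cons (fin 1167 1 1102)
(mv 1170 (cons (fin 1169 0 1102)
(fin 1171 0 1103)))))))))))
(cons (mv 1165 (cons (fin 1166 1 1101)
(mv 1101 (cons (fin 1164 1 1100)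
(mv 1169 (cons (fin 1168 0 1101)
(fin 1170 0 1102)))))))
(mv 1037 (cons (fin 1038 3 1037)
(mv 1036 (cons (fin 1101 3 1036)
(mv 1166 (cons (fin 1165 1 1101)
(mv 1106 (cons (fin 1167 1 1102)
(mv 1107 (cons (fin 1039 3 1039)
(mv 1171 (cons (fin 1170 0 1103)
(fin 1172 0 1104)))))))))))))))
(cons (mv 1037 (cons (fin 1038 3 1037)
(mv 1101 (cons (fin 1036 3 1036)
(mv 1169 (cons (fin 1168 0 1101)
(fin 1170 0 1102)))))))
(cons (mv 1037 (cons (fin 1038 3 1037)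
(mv 1101 (cons (fin 1036 3 1036)
(mv 1165 (cons (fin 1164 1 1100)
(fin 1166 1 1101)))))))
(mv 1037 (cons (fin 1038 3 1037)
(mv 1166 (cons (fin 1165 1 1101)
(mv 1106 (cons (fin 1167 1 1102)
(mv 1170 (cons (fin 1169 0 1102)
(fin 1171 0 1103)))))))))))))
(mv 1101 (cons (fin 1041 2 1037)
(mv 1036 (cons (fin 1037 3 1036)
(mv 1165 (cons (fin 1164 1 1100)
(mv 1038 (cons (fin 910 5 909)
(mv 1229 (cons (fin 1166 5 973)
(fin 1293 6 1037))))))))))))))))))))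
(cons (mv 1038 (cons (cons (cons (cons (mv 1039 (cons (cons (mv 1037 (cons (fin 1105 0 1037)
(mv 976 (cons (fin 977 2 973)
(mv 1036 (cons (fin 975 2 972)
(fin 1103 0 1036)))))))
(cons (mv 1041 (cons (cons (mv 975 (cons (fin 1042 3 974)
(mv 847 (cons (fin 911 4 847)
(mv 977 (cons (fin 978 2 974)
(mv 849 (cons (fin 913 5 848)
(mv 1102 (cons (fin 1101 1 1037)
(mv 1105 (cons (fin 1106 0 1038)
(mv 1166 (cons (fin 1230 6 974)
(mv 1165 (cons (fin 1103 1 1101)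
(fin 1229 5 973)))))))))))))))))
(cons (mv 977 (cons (fin 978 2 974)
(mv 913 (cons (fin 849 5 848)
(mv 1101 (cons (fin 1102 1 1037)
(mv 1105 (cons (fin 1106 0 1038)
(mv 850 (cons (fin 914 6 849)
(mv 912 (cons (fin 848 7 848)
(mv 976 (cons (fin 1169 7 912)
(mv 911 (cons (fin 847 7 847)
(mv 910 (cons (fin 909 0 909)
(mv 846 (cons (fin 845 3 845)
(fin 1103 4 846)))))))))))))))))))))
(mv 975 (cons (fin 1042 3 974)
(mv 847 (cons (fin 911 4 847)
(mv 977 (cons (fin 978 2 974)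
(mv 849 (cons (fin 913 5 848)
(mv 1102 (cons (fin 1101 1 1037)
(mv 1166 (cons (fin 1230 6 974)
(mv 1165 (cons (fin 1229 5 973)
(mv 1103 (cons (fin 1105 1 1101)
(mv 910 (cons (fin 1167 7 910)
(fin 846 4 846)))))))))))))))))))))
(cons (cons (mv 975 (cons (fin 1042 3 974)
(mv 847 (cons (fin 911 4 847)
(mv 977 (cons (fin 978 2 974)
(mv 913 (cons (fin 849 5 848)
(mv 914 (cons (fin 976 2 910)
(mv 1105 (cons (fin 1106 0 1038)
(fin 850 6 849)))))))))))))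
(mv 975 (cons (fin 1042 3 974)
(mv 847 (cons (fin 911 4 847)
(mv 977 (cons (fin 978 2 974)
(mv 849 (cons (fin 913 5 848)
(mv 1102 (cons (fin 1101 1 1037)
(mv 1166 (cons (fin 1230 6 974)
(mv 1165 (cons (fin 1229 5 973)
(mv 1167 (cons (fin 1231 4 974)
(mv 1103 (cons (fin 1164 2 1100)
(fin 910 7 910))))))))))))))))))))
(cons (mv 975 (cons (fin 1042 3 974)
(mv 847 (cons (fin 911 4 847)
(mv 1102 (cons (fin 1101 1 1037)
(mv 1105 (cons (fin 1106 0 1038)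
(mv 1166 (cons (fin 1230 6 974)
(mv 1165 (cons (fin 1103 1 1101)
(fin 1229 5 973)))))))))))))
(mv 975 (cons (fin 1042 3 974)
(mv 977 (cons (fin 978 2 974)
(mv 849 (cons (fin 913 5 848)
(mv 1102 (cons (fin 1101 1 1037)
(mv 1105 (cons (fin 1106 0 1038)
(mv 1166 (cons (fin 1230 6 974)
(mv 1165 (cons (fin 1103 1 1101)
(fin 1229 5 973)))))))))))))))))))
(mv 1103 (cons (cons (mv 846 (cons (fin 910 4 846)
(mv 1037 (cons (fin 1036 0 1036)
(mv 976 (cons (fin 977 2 973)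
(mv 912 (cons (fin 848 5 847)
(fin 1167 5 911)))))))))
(mv 846 (cons (fin 910 4 846)
(mv 1037 (cons (fin 1036 0 1036)
(mv 976 (cons (fin 977 2 973)
(mv 848 (cons (fin 912 5 847)
(mv 1101 (cons (fin 1100 1 1036)
(mv 1102 (cons (fin 1041 1 1037)
(mv 1165 (cons (fin 1164 1 1100)
(fin 1229 6 973))))))))))))))))
(cons (mv 910 (cons (fin 846 4 846)
(mv 1167 (cons (fin 975 7 910)
(fin 1231 7 974)))))
(mv 1037 (cons (fin 1036 0 1036)
(mv 976 (cons (fin 977 2 973)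
(mv 912 (cons (fin 848 5 847)
(fin 1167 5 911))))))))))))
(cons (cons (mv 1037 (cons (fin 1105 0 1037)
(mv 976 (cons (fin 977 2 973)
(mv 975 (cons (fin 1036 2 972)
(mv 847 (cons (fin 911 4 847)
(mv 1041 (cons (fin 1042 3 974)
(mv 1101 (cons (fin 1100 1 1036)
(fin 1102 1 1037)))))))))))))
(mv 1037 (cons (fin 1105 0 1037)
(mv 976 (cons (fin 977 2 973)
(mv 1036 (cons (fin 1103 0 1036)
(mv 1100 (cons (fin 1099 1 1035)
(fin 1101 1 1036))))))))))
(cons (mv 1037 (cons (fin 1105 0 1037)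
(mv 1036 (cons (fin 1103 0 1036)
(mv 975 (cons (fin 1035 2 971)
(fin 976 2 972)))))))
(mv 1037 (cons (fin 1105 0 1037)
(mv 1036 (cons (fin 1103 0 1036)
(mv 1100 (cons (fin 1099 1 1035)
(fin 1101 1 1036)))))))))))
(mv 1102 (cons (cons (mv 910 (cons (cons (cons (mv 845 (cons (fin 909 7 845)
(mv 781 (cons (fin 846 7 781)
(mv 847 (cons (fin 911 6 846)
(mv 1101 (cons (fin 1165 5 909)
(mv 1103 (cons (fin 1041 2 1037)
(fin 1167 4 910)))))))))))
(mv 845 (cons (fin 909 7 845)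
(mv 781 (cons (fin 846 7 781)
(mv 911 (cons (fin 847 6 846)
(mv 1101 (cons (fin 1165 5 909)
(mv 1166 (cons (fin 975 6 910)
(mv 1231 (cons (fin 1167 4 974)
(mv 1230 (cons (fin 1295 4 1038)
(mv 1293 (cons (fin 1229 5 1037)
(mv 1294 (cons (fin 1037 7 1037)
(fin 1357 5 1101))))))))))))))))))))
(cons (mv 845 (cons (fin 909 7 845)
(mv 781 (cons (fin 846 7 781)
(mv 847 (cons (fin 911 6 846)
(mv 1103 (cons (fin 1167 4 910)
(mv 1105 (cons (fin 1037 3 1037)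
(mv 1041 (cons (fin 1042 2 1038)
(mv 1165 (cons (fin 1166 1 1101)
(mv 1169 (cons (fin 1170 0 1102)
(mv 976 (cons (fin 1233 7 976)
(fin 912 4 912)))))))))))))))))))
(mv 845 (cons (fin 909 7 845)
(mv 781 (cons (fin 846 7 781)
(mv 847 (cons (fin 911 6 846)
(mv 1103 (cons (fin 1167 4 910)
(mv 1037 (cons (fin 1105 3 1037)
(mv 1036 (cons (fin 1101 3 1036)
(fin 1035 0 1035)))))))))))))))
(cons (cons (mv 845 (cons (fin 909 7 845)
(mv 781 (cons (fin 846 7 781)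
(mv 1101 (cons (fin 1165 5 909)
(mv 1103 (cons (fin 1041 2 1037)
(fin 1167 4 910)))))))))
(mv 845 (cons (fin 909 7 845)
(mv 781 (cons (fin 846 7 781)
(mv 847 (cons (fin 911 6 846)
(mv 1101 (cons (fin 1165 5 909)
(mv 1103 (cons (fin 1041 2 1037)
(mv 1037 (cons (fin 1036 3 1036)
(fin 1105 3 1037))))))))))))))
(cons (mv 847 (cons (fin 911 6 846)
(mv 783 (cons (fin 846 6 782)
(mv 1101 (cons (fin 1165 5 909)
(mv 1103 (cons (fin 1041 2 1037)
(fin 1167 4 910)))))))))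
(mv 845 (cons (fin 909 7 845)
(mv 847 (cons (fin 911 6 846)
(mv 1101 (cons (fin 1165 5 909)
(mv 1103 (cons (fin 1041 2 1037)
(fin 1167 4 910)))))))))))))
(cons (mv 1103 (cons (cons (mv 1037 (cons (fin 1105 3 1037)
(mv 1036 (cons (fin 1101 3 1036)
(fin 1035 0 1035)))))
(mv 1101 (cons (fin 1041 2 1037)
(mv 1036 (cons (fin 1037 3 1036)
(mv 1035 (cons (fin 1100 3 1035)
(mv 1165 (cons (fin 1164 1 1100)
(mv 1229 (cons (fin 1166 5 973)
(fin 1293 6 1037))))))))))))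
(cons (mv 1105 (cons (fin 1037 3 1037)
(mv 1041 (cons (fin 1042 2 1038)
(mv 1165 (cons (fin 1166 1 1101)
(mv 1169 (cons (fin 1170 0 1102)
(mv 976 (cons (fin 1233 7 976)
(fin 912 4 912)))))))))))
(mv 1041 (cons (fin 1101 2 1037)
(mv 1105 (cons (fin 1042 2 1038)
(mv 1165 (cons (fin 1166 1 1101)
(mv 1169 (cons (fin 1170 0 1102)
(mv 976 (cons (fin 1233 7 976)
(fin 912 4 912))))))))))))))
(mv 910 (cons (cons (mv 845 (cons (fin 909 7 845)
(mv 781 (cons (fin 846 7 781)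
(mv 911 (cons (fin 847 6 846)
(mv 1101 (cons (fin 1165 5 909)
(mv 1166 (cons (fin 975 6 910)
(mv 1231 (cons (fin 1167 4 974)
(mv 1230 (cons (fin 1295 4 1038)
(mv 1293 (cons (fin 1229 5 1037)
(mv 1294 (cons (fin 1037 7 1037)
(fin 1357 5 1101)))))))))))))))))))
(cons (mv 845 (cons (fin 909 7 845)
(mv 846 (cons (fin 781 7 781)
(mv 1101 (cons (fin 1037 5 845)
(fin 1165 5 909)))))))
(mv 845 (cons (fin 909 7 845)
(mv 781 (cons (fin 846 7 781)
(mv 911 (cons (fin 847 6 846)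
(mv 1166 (cons (fin 975 6 910)
(mv 1229 (cons (fin 1165 5 973)
(mv 1230 (cons (fin 1293 5 1037)
(mv 1231 (cons (fin 1167 4 974)
(fin 1295 4 1038)))))))))))))))))
(cons (mv 845 (cons (fin 909 7 845)
(mv 846 (cons (fin 781 7 781)
(mv 847 (cons (fin 783 6 782)
(fin 911 6 846)))))))
(cons (mv 847 (cons (fin 911 6 846)
(mv 846 (cons (fin 783 6 782)
(mv 1101 (cons (fin 1037 5 845)
(fin 1165 5 909)))))))
(mv 845 (cons (fin 909 7 845)
(mv 911 (cons (fin 847 6 846)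
(mv 1101 (cons (fin 1165 5 909)
(mv 1166 (cons (fin 975 6 910)
(mv 1231 (cons (fin 1167 4 974)
(mv 1230 (cons (fin 1295 4 1038)
(mv 1293 (cons (fin 1229 5 1037)
(mv 1294 (cons (fin 1037 7 1037)
(fin 1357 5 1101)))))))))))))))))))))))
(cons (mv 910 (cons (cons (mv 845 (cons (fin 909 7 845)
(mv 781 (cons (fin 846 7 781)
(mv 847 (cons (fin 911 6 846)
(mv 1101 (cons (fin 1165 5 909)
(mv 1103 (cons (fin 1041 2 1037)
(fin 1167 4 910)))))))))))
(mv 845 (cons (fin 909 7 845)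
(mv 846 (cons (fin 781 7 781)
(mv 847 (cons (fin 783 6 782)
(fin 911 6 846))))))))
(cons (mv 845 (cons (fin 909 7 845)
(mv 781 (cons (fin 846 7 781)
(mv 1101 (cons (fin 1165 5 909)
(mv 1103 (cons (fin 1041 2 1037)
(fin 1167 4 910)))))))))
(cons (mv 847 (cons (fin 911 6 846)
(mv 783 (cons (fin 846 6 782)
(mv 1101 (cons (fin 1165 5 909)
(mv 1103 (cons (fin 1041 2 1037)
(fin 1167 4 910)))))))))
(mv 845 (cons (fin 909 7 845)
(mv 847 (cons (fin 911 6 846)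
(mv 1101 (cons (fin 1165 5 909)
(mv 1103 (cons (fin 1041 2 1037)
(fin 1167 4 910)))))))))))))
(cons (mv 1166 (cons (cons (mv 911 (cons (fin 975 6 910)
(mv 847 (cons (fin 910 6 846)
(mv 912 (cons (fin 976 7 847)
(mv 1165 (cons (fin 1229 5 973)
(mv 1103 (cons (fin 1105 1 1101)
(mv 1164 (cons (fin 1163 2 1099)
(fin 1167 2 1100)))))))))))))
(mv 911 (cons (fin 975 6 910)
(mv 910 (cons (fin 847 6 846)
(mv 845 (cons (fin 909 7 845)
(mv 846 (cons (fin 781 7 781)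
(mv 843 (cons (fin 844 0 843)
(mv 912 (cons (fin 913 3 845)
(mv 1165 (cons (fin 1229 5 973)
(mv 1105 (cons (fin 1103 1 1101)
(mv 976 (cons (fin 1169 4 912)
(mv 848 (cons (fin 1041 4 848)
(mv 785 (cons (fin 849 6 784)
(mv 784 (cons (fin 721 6 720)
(mv 783 (cons (fin 782 1 781)
(fin 719 7 719))))))))))))))))))))))))))))
(cons (mv 911 (cons (fin 975 6 910)
(mv 910 (cons (fin 847 6 846)
(mv 1167 (cons (fin 1103 4 910)
(fin 1231 4 974)))))))
(cons (mv 1165 (cons (fin 1229 5 973)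
(mv 1103 (cons (fin 1105 1 1101)
(mv 1164 (cons (fin 1163 2 1099)
(fin 1167 2 1100)))))))
(mv 911 (cons (fin 975 6 910)
(mv 847 (cons (fin 910 6 846)
(mv 912 (cons (fin 976 7 847)
(mv 1229 (cons (fin 1165 5 973)
(mv 1230 (cons (fin 1293 5 1037)
(mv 1231 (cons (fin 1167 4 974)
(fin 1295 4 1038)))))))))))))))))
(mv 1103 (cons (mv 910 (cons (fin 1167 4 910)
(mv 845 (cons (fin 909 7 845)
(mv 781 (cons (fin 846 7 781)
(mv 847 (cons (fin 911 6 846)
(mv 1037 (cons (fin 1105 3 1037)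
(mv 1036 (cons (fin 1101 3 1036)
(fin 1035 0 1035)))))))))))))
(cons (mv 1037 (cons (fin 1105 3 1037)
(mv 1036 (cons (fin 1101 3 1036)
(fin 1035 0 1035)))))
(mv 910 (cons (fin 1167 4 910)
(mv 845 (cons (fin 909 7 845)
(mv 846 (cons (fin 781 7 781)
(mv 847 (cons (fin 783 6 782)
(fin 911 6 846)))))))))))))))))
(cons (mv 1102 (cons (cons (cons (mv 910 (cons (cons (mv 845 (cons (fin 909 7 845)
(mv 781 (cons (fin 846 7 781)
(mv 847 (cons (fin 911 6 846)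
(mv 1101 (cons (fin 1165 5 909)
(mv 1041 (cons (fin 1039 1 1037)
(fin 1103 2 1037)))))))))))
(cons (mv 845 (cons (fin 909 7 845)
(mv 781 (cons (fin 846 7 781)
(mv 911 (cons (fin 847 6 846)
(mv 1165 (cons (fin 1101 5 909)
(mv 1166 (cons (fin 1229 5 973)
(fin 975 6 910)))))))))))
(mv 845 (cons (fin 909 7 845)
(mv 781 (cons (fin 846 7 781)
(mv 911 (cons (fin 847 6 846)
(mv 1103 (cons (fin 1167 4 910)
(mv 1166 (cons (fin 975 6 910)
(mv 1165 (cons (fin 1105 1 1101)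
(fin 1229 5 973)))))))))))))))
(cons (cons (mv 845 (cons (fin 909 7 845)
(mv 781 (cons (fin 846 7 781)
(mv 1101 (cons (fin 1165 5 909)
(mv 1041 (cons (fin 1039 1 1037)
(fin 1103 2 1037)))))))))
(mv 845 (cons (fin 909 7 845)
(mv 781 (cons (fin 846 7 781)
(mv 847 (cons (fin 911 6 846)
(mv 1103 (cons (fin 1167 4 910)
(mv 1041 (cons (fin 1101 2 1037)
(mv 1042 (cons (fin 1039 1 1038)
(fin 1105 2 1038))))))))))))))
(cons (mv 847 (cons (fin 911 6 846)
(mv 783 (cons (fin 846 6 782)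
(mv 1101 (cons (fin 1165 5 909)
(mv 1041 (cons (fin 1039 1 1037)
(fin 1103 2 1037)))))))))
(mv 845 (cons (fin 909 7 845)
(mv 847 (cons (fin 911 6 846)
(mv 1101 (cons (fin 1165 5 909)
(mv 1041 (cons (fin 1039 1 1037)
(fin 1103 2 1037)))))))))))))
(mv 1166 (cons (cons (mv 911 (cons (fin 975 6 910)
(mv 1165 (cons (fin 1229 5 973)
(mv 1103 (cons (fin 1105 1 1101)
(mv 1101 (cons (fin 1164 1 1100)
(fin 1041 2 1037)))))))))
(cons (mv 911 (cons (fin 975 6 910)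
(mv 1231 (cons (fin 1167 4 974)
(mv 1230 (cons (fin 1295 4 1038)
(mv 1293 (cons (fin 1229 5 1037)
(mv 1294 (cons (fin 1357 5 1101)
(mv 1039 (cons (fin 1103 6 1038)
(mv 1041 (cons (fin 1101 1 1037)
(mv 977 (cons (fin 978 2 974)
(mv 849 (cons (fin 913 5 848)
(mv 1105 (cons (fin 1106 0 1038)
(mv 1233 (cons (fin 1232 1 1229)
(mv 1169 (cons (fin 976 7 976)
(fin 1297 7 1040)))))))))))))))))))))))))
(mv 1165 (cons (fin 1229 5 973)
(mv 1103 (cons (fin 1105 1 1101)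
(mv 1101 (cons (fin 1164 1 1100)
(fin 1041 2 1037)))))))))
(cons (mv 975 (cons (fin 911 6 910)
(mv 1039 (cons (fin 1230 6 974)
(mv 1041 (cons (fin 1042 3 974)
(fin 1101 1 1037)))))))
(cons (mv 911 (cons (fin 975 6 910)
(mv 1165 (cons (fin 1229 5 973)
(mv 1103 (cons (fin 1105 1 1101)
(mv 1164 (cons (fin 1101 1 1100)
(fin 1163 2 1099)))))))))
(mv 911 (cons (fin 975 6 910)
(mv 1165 (cons (fin 1229 5 973)
(mv 1103 (cons (fin 1105 1 1101)
(mv 1164 (cons (fin 1163 2 1099)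
(fin 1167 2 1100))))))))))))))
(cons (mv 910 (cons (cons (mv 845 (cons (fin 909 7 845)
(mv 781 (cons (fin 846 7 781)
(mv 847 (cons (fin 911 6 846)
(mv 1101 (cons (fin 1165 5 909)
(mv 1041 (cons (fin 1039 1 1037)
(fin 1103 2 1037)))))))))))
(mv 845 (cons (fin 909 7 845)
(mv 846 (cons (fin 781 7 781)
(mv 847 (cons (fin 783 6 782)
(fin 911 6 846))))))))
(cons (mv 845 (cons (fin 909 7 845)
(mv 781 (cons (fin 846 7 781)
(mv 1101 (cons (fin 1165 5 909)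
(mv 1041 (cons (fin 1039 1 1037)
(fin 1103 2 1037)))))))))
(cons (mv 847 (cons (fin 911 6 846)
(mv 783 (cons (fin 846 6 782)
(mv 1101 (cons (fin 1165 5 909)
(mv 1041 (cons (fin 1039 1 1037)
(fin 1103 2 1037)))))))))
(mv 845 (cons (fin 909 7 845)
(mv 847 (cons (fin 911 6 846)
(mv 1101 (cons (fin 1165 5 909)
(mv 1041 (cons (fin 1039 1 1037)
(fin 1103 2 1037)))))))))))))
(mv 1166 (cons (cons (mv 911 (cons (fin 975 6 910)
(mv 847 (cons (fin 910 6 846)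
(mv 912 (cons (fin 976 7 847)
(mv 1165 (cons (fin 1229 5 973)
(mv 1103 (cons (fin 1105 1 1101)
(mv 1164 (cons (fin 1163 2 1099)
(fin 1167 2 1100)))))))))))))
(mv 911 (cons (fin 975 6 910)
(mv 910 (cons (fin 847 6 846)
(mv 845 (cons (fin 909 7 845)
(mv 846 (cons (fin 781 7 781)
(mv 843 (cons (fin 844 0 843)
(mv 912 (cons (fin 913 3 845)
(mv 1103 (cons (fin 1039 4 846)
(mv 1165 (cons (fin 1105 1 1101)
(fin 1229 5 973))))))))))))))))))
(cons (mv 1165 (cons (fin 1229 5 973)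
(mv 1103 (cons (fin 1105 1 1101)
(mv 1164 (cons (fin 1163 2 1099)
(fin 1167 2 1100)))))))
(cons (mv 911 (cons (fin 975 6 910)
(mv 910 (cons (fin 847 6 846)
(mv 1167 (cons (fin 1103 4 910)
(fin 1231 4 974)))))))
(mv 911 (cons (fin 975 6 910)
(mv 847 (cons (fin 910 6 846)
(mv 912 (cons (fin 976 7 847)
(mv 1229 (cons (fin 1165 5 973)
(mv 1230 (cons (fin 1293 5 1037)
(mv 1231 (cons (fin 1167 4 974)
(fin 1295 4 1038)))))))))))))))))))
(cons (cons (mv 1166 (cons (cons (mv 911 (cons (fin 975 6 910)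
(mv 847 (cons (fin 910 6 846)
(mv 912 (cons (fin 976 7 847)
(mv 1229 (cons (fin 1165 5 973)
(mv 1230 (cons (fin 1293 5 1037)
(mv 1231 (cons (fin 1167 4 974)
(fin 1295 4 1038)))))))))))))
(mv 1165 (cons (fin 1229 5 973)
(mv 910 (cons (fin 1101 5 909)
(mv 845 (cons (fin 909 7 845)
(mv 846 (cons (fin 781 7 781)
(mv 847 (cons (fin 783 6 782)
(fin 911 6 846))))))))))))
(cons (mv 1165 (cons (fin 1229 5 973)
(mv 1101 (cons (fin 910 5 909)
(mv 1039 (cons (fin 1041 1 1037)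
(mv 1099 (cons (fin 1100 2 1035)
(mv 1230 (cons (fin 975 6 974)
(mv 1231 (cons (fin 1167 4 974)
(fin 1295 4 1038)))))))))))))
(mv 975 (cons (fin 911 6 910)
(mv 1039 (cons (fin 1230 6 974)
(mv 1041 (cons (fin 1042 3 974)
(fin 1101 1 1037))))))))))
(mv 1101 (cons (cons (mv 1041 (cons (fin 1039 1 1037)
(fin 1103 2 1037)))
(mv 910 (cons (fin 1165 5 909)
(mv 845 (cons (fin 909 7 845)
(mv 781 (cons (fin 846 7 781)
(mv 1103 (cons (fin 1167 4 910)
(mv 1100 (cons (fin 1039 2 1036)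
(mv 1035 (cons (fin 1036 3 1035)
(mv 1099 (cons (fin 1034 3 1034)
(mv 1163 (cons (fin 1162 1 1098)
(fin 1164 1 1099))))))))))))))))))
(cons (mv 910 (cons (fin 1165 5 909)
(mv 845 (cons (fin 909 7 845)
(mv 846 (cons (fin 781 7 781)
(mv 783 (cons (fin 847 6 782)
(mv 782 (cons (fin 719 6 718)
(mv 1039 (cons (fin 1041 1 1037)
(fin 975 4 782)))))))))))))
(mv 910 (cons (fin 1165 5 909)
(mv 1103 (cons (fin 1041 2 1037)
(fin 1167 4 910)))))))))
(cons (mv 910 (cons (cons (mv 845 (cons (fin 909 7 845)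
(mv 781 (cons (fin 846 7 781)
(mv 847 (cons (fin 911 6 846)
(mv 1103 (cons (fin 1167 4 910)
(mv 1041 (cons (fin 1101 2 1037)
(mv 1042 (cons (fin 1039 1 1038)
(fin 1105 2 1038)))))))))))))
(mv 845 (cons (fin 909 7 845)
(mv 846 (cons (fin 781 7 781)
(mv 847 (cons (fin 783 6 782)
(fin 911 6 846))))))))
(cons (mv 845 (cons (fin 909 7 845)
(mv 781 (cons (fin 846 7 781)
(mv 1103 (cons (fin 1167 4 910)
(mv 1041 (cons (fin 1101 2 1037)
(mv 1042 (cons (fin 1039 1 1038)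
(fin 1105 2 1038)))))))))))
(cons (mv 847 (cons (fin 911 6 846)
(mv 783 (cons (fin 846 6 782)
(mv 1103 (cons (fin 1167 4 910)
(mv 1041 (cons (fin 1101 2 1037)
(mv 1042 (cons (fin 1039 1 1038)
(fin 1105 2 1038)))))))))))
(mv 845 (cons (fin 909 7 845)
(mv 847 (cons (fin 911 6 846)
(mv 1103 (cons (fin 1167 4 910)
(mv 1041 (cons (fin 1101 2 1037)
(mv 1042 (cons (fin 1039 1 1038)
(fin 1105 2 1038)))))))))))))))
(mv 910 (cons (cons (mv 845 (cons (fin 909 7 845)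
(mv 781 (cons (fin 846 7 781)
(mv 847 (cons (fin 911 6 846)
(mv 1101 (cons (fin 1165 5 909)
(mv 1103 (cons (fin 1041 2 1037)
(fin 1167 4 910)))))))))))
(cons (mv 845 (cons (fin 909 7 845)
(mv 781 (cons (fin 846 7 781)
(mv 911 (cons (fin 847 6 846)
(mv 1165 (cons (fin 1101 5 909)
(mv 1166 (cons (fin 1229 5 973)
(fin 975 6 910)))))))))))
(mv 845 (cons (fin 909 7 845)
(mv 781 (cons (fin 846 7 781)
(mv 1101 (cons (fin 1165 5 909)
(mv 1103 (cons (fin 1041 2 1037)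
(fin 1167 4 910)))))))))))
(cons (cons (mv 845 (cons (fin 909 7 845)
(mv 781 (cons (fin 846 7 781)
(mv 847 (cons (fin 911 6 846)
(mv 1103 (cons (fin 1167 4 910)
(mv 1041 (cons (fin 1101 2 1037)
(mv 1105 (cons (fin 1042 2 1038)
(mv 1169 (cons (fin 1170 0 1102)
(mv 976 (cons (fin 1233 7 976)
(fin 912 4 912)))))))))))))))))
(mv 845 (cons (fin 909 7 845)
(mv 781 (cons (fin 846 7 781)
(mv 911 (cons (fin 847 6 846)
(mv 1103 (cons (fin 1167 4 910)
(mv 1166 (cons (fin 975 6 910)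
(mv 1165 (cons (fin 1105 1 1101)
(fin 1229 5 973))))))))))))))
(cons (mv 847 (cons (fin 911 6 846)
(mv 783 (cons (fin 846 6 782)
(mv 1101 (cons (fin 1165 5 909)
(mv 1103 (cons (fin 1041 2 1037)
(fin 1167 4 910)))))))))
(mv 845 (cons (fin 909 7 845)
(mv 847 (cons (fin 911 6 846)
(mv 1101 (cons (fin 1165 5 909)
(mv 1103 (cons (fin 1041 2 1037)
(fin 1167 4 910)))))))))))))))))
(mv 1102 (cons (cons (cons (mv 910 (cons (cons (cons (mv 845 (cons (fin 909 7 845)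
(mv 781 (cons (fin 846 7 781)
(mv 847 (cons (fin 911 6 846)
(mv 1101 (cons (fin 1165 5 909)
(mv 1041 (cons (fin 1039 1 1037)
(fin 1103 2 1037)))))))))))
(mv 845 (cons (fin 909 7 845)
(mv 781 (cons (fin 846 7 781)
(mv 911 (cons (fin 847 6 846)
(mv 1103 (cons (fin 1167 4 910)
(mv 1166 (cons (fin 975 6 910)
(mv 1229 (cons (fin 1165 5 973)
(mv 1230 (cons (fin 1293 5 1037)
(mv 1039 (cons (fin 1294 6 1038)
(mv 1037 (cons (fin 1036 0 1036)
(mv 977 (cons (fin 976 2 973)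
(mv 1041 (cons (fin 1042 1 1038)
(fin 978 2 974))))))))))))))))))))))))
(cons (mv 845 (cons (fin 909 7 845)
(mv 781 (cons (fin 846 7 781)
(mv 847 (cons (fin 911 6 846)
(mv 1101 (cons (fin 1165 5 909)
(mv 1039 (cons (fin 1041 1 1037)
(mv 1100 (cons (fin 1037 1 1036)
(fin 1099 2 1035)))))))))))))
(mv 845 (cons (fin 909 7 845)
(mv 781 (cons (fin 846 7 781)
(mv 1101 (cons (fin 1165 5 909)
(mv 1041 (cons (fin 1039 1 1037)
(fin 1103 2 1037)))))))))))
(cons (cons (mv 845 (cons (fin 909 7 845)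
(mv 781 (cons (fin 846 7 781)
(mv 847 (cons (fin 911 6 846)
(mv 1103 (cons (fin 1167 4 910)
(mv 1041 (cons (fin 1101 2 1037)
(mv 1039 (cons (fin 1042 1 1038)
(mv 977 (cons (fin 978 2 974)
(mv 1037 (cons (fin 976 2 973)
(fin 1036 0 1036)))))))))))))))))
(mv 847 (cons (fin 911 6 846)
(mv 783 (cons (fin 846 6 782)
(mv 1101 (cons (fin 1165 5 909)
(mv 1041 (cons (fin 1039 1 1037)
(fin 1103 2 1037))))))))))
(cons (mv 845 (cons (fin 909 7 845)
(mv 847 (cons (fin 911 6 846)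
(mv 1101 (cons (fin 1165 5 909)
(mv 1041 (cons (fin 1039 1 1037)
(fin 1103 2 1037)))))))))
(cons (mv 845 (cons (fin 909 7 845)
(mv 781 (cons (fin 846 7 781)
(mv 847 (cons (fin 911 6 846)
(mv 1101 (cons (fin 1165 5 909)
(mv 1103 (cons (fin 1041 2 1037)
(fin 1167 4 910)))))))))))
(mv 845 (cons (fin 909 7 845)
(mv 781 (cons (fin 846 7 781)
(mv 847 (cons (fin 911 6 846)
(mv 1101 (cons (fin 1165 5 909)
(mv 1103 (cons (fin 1167 4 910)
(mv 1036 (cons (fin 1037 3 1036)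
(mv 1100 (cons (fin 1035 3 1035)
(fin 1039 2 1036))))))))))))))))))))
(mv 1166 (cons (cons (mv 911 (cons (fin 975 6 910)
(mv 1165 (cons (fin 1229 5 973)
(mv 1167 (cons (fin 1231 4 974)
(mv 1103 (cons (fin 1164 2 1100)
(mv 912 (cons (fin 976 5 911)
(mv 1101 (cons (fin 1041 2 1037)
(mv 1100 (cons (fin 1039 2 1036)
(fin 1099 0 1099)))))))))))))))
(mv 1165 (cons (fin 1229 5 973)
(mv 1167 (cons (fin 1231 4 974)
(mv 1103 (cons (fin 1164 2 1100)
(mv 912 (cons (fin 976 5 911)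
(mv 1101 (cons (fin 1041 2 1037)
(mv 1100 (cons (fin 1039 2 1036)
(fin 1099 0 1099))))))))))))))
(cons (mv 975 (cons (fin 911 6 910)
(mv 1039 (cons (fin 1230 6 974)
(mv 1041 (cons (fin 1042 3 974)
(fin 1101 1 1037)))))))
(cons (mv 911 (cons (fin 975 6 910)
(mv 1165 (cons (fin 1229 5 973)
(mv 1167 (cons (fin 1231 4 974)
(mv 1103 (cons (fin 1164 2 1100)
(mv 912 (cons (fin 976 5 911)
(mv 1101 (cons (fin 1041 2 1037)
(mv 1036 (cons (fin 1037 3 1036)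
(mv 1100 (cons (fin 1035 3 1035)
(fin 1099 0 1099)))))))))))))))))
(mv 911 (cons (fin 975 6 910)
(mv 1165 (cons (fin 1229 5 973)
(mv 1167 (cons (fin 1231 4 974)
(mv 1164 (cons (fin 1103 2 1100)
(mv 1099 (cons (fin 1100 3 1099)
(mv 1163 (cons (fin 1098 3 1098)
(mv 1227 (cons (fin 1226 1 1162)
(fin 1228 1 1163))))))))))))))))))))
(cons (mv 910 (cons (cons (mv 845 (cons (fin 909 7 845)
(mv 781 (cons (fin 846 7 781)
(mv 911 (cons (fin 847 6 846)
(mv 1103 (cons (fin 1167 4 910)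
(mv 1166 (cons (fin 975 6 910)
(mv 1229 (cons (fin 1165 5 973)
(mv 1230 (cons (fin 1293 5 1037)
(mv 1039 (cons (fin 1294 6 1038)
(mv 1037 (cons (fin 1036 0 1036)
(mv 977 (cons (fin 976 2 973)
(mv 1041 (cons (fin 1042 1 1038)
(fin 978 2 974)))))))))))))))))))))))
(cons (mv 845 (cons (fin 909 7 845)
(mv 781 (cons (fin 846 7 781)
(mv 911 (cons (fin 847 6 846)
(mv 1166 (cons (fin 975 6 910)
(mv 1229 (cons (fin 1165 5 973)
(mv 1230 (cons (fin 1293 5 1037)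
(mv 1231 (cons (fin 1167 4 974)
(fin 1295 4 1038)))))))))))))))
(mv 845 (cons (fin 909 7 845)
(mv 846 (cons (fin 781 7 781)
(mv 1103 (cons (fin 1039 4 846)
(fin 1167 4 910)))))))))
(cons (mv 845 (cons (fin 909 7 845)
(mv 846 (cons (fin 781 7 781)
(mv 847 (cons (fin 783 6 782)
(fin 911 6 846)))))))
(cons (mv 847 (cons (fin 911 6 846)
(mv 846 (cons (fin 783 6 782)
(mv 1103 (cons (fin 1039 4 846)
(fin 1167 4 910)))))))
(mv 845 (cons (fin 909 7 845)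
(mv 911 (cons (fin 847 6 846)
(mv 1103 (cons (fin 1167 4 910)
(mv 1166 (cons (fin 975 6 910)
(mv 1229 (cons (fin 1165 5 973)
(mv 1230 (cons (fin 1293 5 1037)
(mv 1039 (cons (fin 1294 6 1038)
(mv 1037 (cons (fin 1036 0 1036)
(mv 977 (cons (fin 976 2 973)
(mv 1041 (cons (fin 1042 1 1038)
(fin 978 2 974)))))))))))))))))))))))))
(mv 910 (cons (cons (mv 845 (cons (fin 909 7 845)
(mv 781 (cons (fin 846 7 781)
(mv 847 (cons (fin 911 6 846)
(mv 1101 (cons (fin 1165 5 909)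
(mv 1041 (cons (fin 1039 1 1037)
(fin 1103 2 1037)))))))))))
(mv 845 (cons (fin 909 7 845)
(mv 846 (cons (fin 781 7 781)
(mv 847 (cons (fin 783 6 782)
(fin 911 6 846))))))))
(cons (mv 845 (cons (fin 909 7 845)
(mv 781 (cons (fin 846 7 781)
(mv 1101 (cons (fin 1165 5 909)
(mv 1041 (cons (fin 1039 1 1037)
(fin 1103 2 1037)))))))))
(cons (mv 847 (cons (fin 911 6 846)
(mv 783 (cons (fin 846 6 782)
(mv 1101 (cons (fin 1165 5 909)
(mv 1041 (cons (fin 1039 1 1037)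
(fin 1103 2 1037)))))))))
(mv 845 (cons (fin 909 7 845)
(mv 847 (cons (fin 911 6 846)
(mv 1101 (cons (fin 1165 5 909)
(mv 1041 (cons (fin 1039 1 1037)
(fin 1103 2 1037)))))))))))))))
(cons (cons (mv 910 (cons (cons (mv 845 (cons (fin 909 7 845)
(mv 781 (cons (fin 846 7 781)
(mv 847 (cons (fin 911 6 846)
(mv 1101 (cons (fin 1165 5 909)
(mv 1039 (cons (fin 1041 1 1037)
(mv 1100 (cons (fin 1037 1 1036)
(fin 1099 2 1035)))))))))))))
(cons (mv 845 (cons (fin 909 7 845)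
(mv 781 (cons (fin 846 7 781)
(mv 911 (cons (fin 847 6 846)
(mv 1166 (cons (fin 975 6 910)
(mv 1229 (cons (fin 1165 5 973)
(mv 1230 (cons (fin 1293 5 1037)
(mv 1231 (cons (fin 1167 4 974)
(fin 1295 4 1038)))))))))))))))
(mv 845 (cons (fin 909 7 845)
(mv 781 (cons (fin 846 7 781)
(mv 1101 (cons (fin 1165 5 909)
(mv 1039 (cons (fin 1041 1 1037)
(mv 1100 (cons (fin 1037 1 1036)
(fin 1099 2 1035)))))))))))))
(cons (mv 845 (cons (fin 909 7 845)
(mv 846 (cons (fin 781 7 781)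
(mv 847 (cons (fin 783 6 782)
(fin 911 6 846)))))))
(cons (mv 847 (cons (fin 911 6 846)
(mv 783 (cons (fin 846 6 782)
(mv 1101 (cons (fin 1165 5 909)
(mv 1039 (cons (fin 1041 1 1037)
(mv 1100 (cons (fin 1037 1 1036)
(fin 1099 2 1035)))))))))))
(mv 845 (cons (fin 909 7 845)
(mv 847 (cons (fin 911 6 846)
(mv 1101 (cons (fin 1165 5 909)
(mv 1039 (cons (fin 1041 1 1037)
(mv 1100 (cons (fin 1037 1 1036)
(fin 1099 2 1035)))))))))))))))
(mv 1101 (cons (mv 1041 (cons (fin 1039 1 1037)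
(fin 1103 2 1037)))
(mv 910 (cons (fin 1165 5 909)
(mv 845 (cons (fin 909 7 845)
(mv 846 (cons (fin 781 7 781)
(fin 1037 5 845))))))))))
(cons (mv 910 (cons (cons (cons (mv 845 (cons (fin 909 7 845)
(mv 781 (cons (fin 846 7 781)
(mv 847 (cons (fin 911 6 846)
(mv 1101 (cons (fin 1165 5 909)
(mv 1103 (cons (fin 1167 4 910)
(mv 1036 (cons (fin 1037 3 1036)
(mv 1100 (cons (fin 1035 3 1035)
(fin 1039 2 1036)))))))))))))))
(mv 845 (cons (fin 909 7 845)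
(mv 781 (cons (fin 846 7 781)
(mv 911 (cons (fin 847 6 846)
(mv 1101 (cons (fin 1165 5 909)
(mv 1166 (cons (fin 975 6 910)
(mv 1231 (cons (fin 1167 4 974)
(mv 1230 (cons (fin 1295 4 1038)
(mv 1293 (cons (fin 1229 5 1037)
(mv 1294 (cons (fin 1037 7 1037)
(fin 1357 5 1101))))))))))))))))))))
(cons (mv 845 (cons (fin 909 7 845)
(mv 781 (cons (fin 846 7 781)
(mv 911 (cons (fin 847 6 846)
(mv 1103 (cons (fin 1167 4 910)
(mv 1166 (cons (fin 975 6 910)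
(mv 1229 (cons (fin 1165 5 973)
(mv 1230 (cons (fin 1293 5 1037)
(mv 1294 (cons (fin 1039 6 1038)
(mv 1295 (cons (fin 1231 4 1038)
(fin 1359 4 1102)))))))))))))))))))
(mv 845 (cons (fin 909 7 845)
(mv 781 (cons (fin 846 7 781)
(mv 1101 (cons (fin 1165 5 909)
(mv 1103 (cons (fin 1167 4 910)
(mv 1036 (cons (fin 1037 3 1036)
(mv 1100 (cons (fin 1035 3 1035)
(fin 1039 2 1036)))))))))))))))
(cons (cons (mv 845 (cons (fin 909 7 845)
(mv 781 (cons (fin 846 7 781)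
(mv 911 (cons (fin 847 6 846)
(mv 1165 (cons (fin 1101 5 909)
(mv 1166 (cons (fin 1229 5 973)
(fin 975 6 910)))))))))))
(mv 845 (cons (fin 909 7 845)
(mv 781 (cons (fin 846 7 781)
(mv 911 (cons (fin 847 6 846)
(mv 1166 (cons (fin 975 6 910)
(mv 1167 (cons (fin 1103 4 910)
(fin 1231 4 974))))))))))))
(cons (mv 847 (cons (fin 911 6 846)
(mv 783 (cons (fin 846 6 782)
(mv 1101 (cons (fin 1165 5 909)
(mv 1103 (cons (fin 1167 4 910)
(mv 1036 (cons (fin 1037 3 1036)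
(mv 1100 (cons (fin 1035 3 1035)
(fin 1039 2 1036)))))))))))))
(mv 845 (cons (fin 909 7 845)
(mv 847 (cons (fin 911 6 846)
(mv 1101 (cons (fin 1165 5 909)
(mv 1103 (cons (fin 1167 4 910)
(mv 1036 (cons (fin 1037 3 1036)
(mv 1100 (cons (fin 1035 3 1035)
(fin 1039 2 1036)))))))))))))))))
(cons (mv 910 (cons (cons (mv 845 (cons (fin 909 7 845)
(mv 781 (cons (fin 846 7 781)
(mv 847 (cons (fin 911 6 846)
(mv 1103 (cons (fin 1167 4 910)
(mv 1041 (cons (fin 1101 2 1037)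
(mv 1039 (cons (fin 1042 1 1038)
(mv 977 (cons (fin 978 2 974)
(mv 1037 (cons (fin 976 2 973)
(fin 1036 0 1036)))))))))))))))))
(mv 845 (cons (fin 909 7 845)
(mv 846 (cons (fin 781 7 781)
(mv 847 (cons (fin 783 6 782)
(fin 911 6 846))))))))
(cons (mv 845 (cons (fin 909 7 845)
(mv 781 (cons (fin 846 7 781)
(mv 1103 (cons (fin 1167 4 910)
(mv 1041 (cons (fin 1101 2 1037)
(mv 1039 (cons (fin 1042 1 1038)
(mv 977 (cons (fin 978 2 974)
(mv 1037 (cons (fin 976 2 973)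
(fin 1036 0 1036)))))))))))))))
(cons (mv 847 (cons (fin 911 6 846)
(mv 783 (cons (fin 846 6 782)
(mv 1103 (cons (fin 1167 4 910)
(mv 1041 (cons (fin 1101 2 1037)
(mv 1039 (cons (fin 1042 1 1038)
(mv 977 (cons (fin 978 2 974)
(mv 1037 (cons (fin 976 2 973)
(fin 1036 0 1036)))))))))))))))
(mv 845 (cons (fin 909 7 845)
(mv 847 (cons (fin 911 6 846)
(mv 1103 (cons (fin 1167 4 910)
(mv 1041 (cons (fin 1101 2 1037)
(mv 1039 (cons (fin 1042 1 1038)
(mv 977 (cons (fin 978 2 974)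
(mv 1037 (cons (fin 976 2 973)
(fin 1036 0 1036)))))))))))))))))))
(mv 910 (cons (cons (mv 845 (cons (fin 909 7 845)
(mv 781 (cons (fin 846 7 781)
(mv 847 (cons (fin 911 6 846)
(mv 1101 (cons (fin 1165 5 909)
(mv 1103 (cons (fin 1041 2 1037)
(fin 1167 4 910)))))))))))
(cons (mv 845 (cons (fin 909 7 845)
(mv 781 (cons (fin 846 7 781)
(mv 911 (cons (fin 847 6 846)
(mv 1166 (cons (fin 975 6 910)
(mv 1167 (cons (fin 1103 4 910)
(fin 1231 4 974)))))))))))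
(mv 845 (cons (fin 909 7 845)
(mv 781 (cons (fin 846 7 781)
(mv 911 (cons (fin 847 6 846)
(mv 1101 (cons (fin 1165 5 909)
(mv 1166 (cons (fin 975 6 910)
(mv 1231 (cons (fin 1167 4 974)
(mv 1230 (cons (fin 1295 4 1038)
(mv 1293 (cons (fin 1229 5 1037)
(mv 1294 (cons (fin 1037 7 1037)
(fin 1357 5 1101)))))))))))))))))))))
(cons (cons (mv 845 (cons (fin 909 7 845)
(mv 781 (cons (fin 846 7 781)
(mv 1101 (cons (fin 1165 5 909)
(mv 1103 (cons (fin 1041 2 1037)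
(fin 1167 4 910)))))))))
(mv 845 (cons (fin 909 7 845)
(mv 781 (cons (fin 846 7 781)
(mv 911 (cons (fin 847 6 846)
(mv 1165 (cons (fin 1101 5 909)
(mv 1166 (cons (fin 1229 5 973)
(fin 975 6 910))))))))))))
(cons (mv 847 (cons (fin 911 6 846)
(mv 783 (cons (fin 846 6 782)
(mv 1101 (cons (fin 1165 5 909)
(mv 1103 (cons (fin 1041 2 1037)
(fin 1167 4 910)))))))))
(mv 845 (cons (fin 909 7 845)
(mv 847 (cons (fin 911 6 846)
(mv 1101 (cons (fin 1165 5 909)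
(mv 1103 (cons (fin 1041 2 1037)
(fin 1167 4 910))))))))))))))))))))
(cons (cons (mv 1039 (cons (cons (mv 1037 (cons (fin 1105 0 1037)
(mv 976 (cons (fin 977 2 973)
(mv 1036 (cons (fin 975 2 972)
(fin 1103 0 1036)))))))
(cons (mv 1041 (cons (cons (mv 975 (cons (fin 1042 3 974)
(mv 847 (cons (fin 911 4 847)
(mv 977 (cons (fin 978 2 974)
(mv 913 (cons (fin 849 5 848)
(mv 914 (cons (fin 976 2 910)
(mv 1105 (cons (fin 1106 0 1038)
(fin 850 6 849)))))))))))))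
(mv 975 (cons (fin 1042 3 974)
(mv 847 (cons (fin 911 4 847)
(mv 977 (cons (fin 978 2 974)
(mv 913 (cons (fin 849 5 848)
(mv 976 (cons (fin 914 2 910)
(mv 910 (cons (fin 909 3 909)
(mv 846 (cons (fin 783 6 782)
(fin 782 4 782))))))))))))))))
(cons (mv 977 (cons (fin 978 2 974)
(mv 913 (cons (fin 849 5 848)
(mv 1105 (cons (fin 1106 0 1038)
(mv 850 (cons (fin 914 6 849)
(mv 912 (cons (fin 848 7 848)
(mv 976 (cons (fin 1169 7 912)
(mv 911 (cons (fin 847 7 847)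
(mv 910 (cons (fin 909 0 909)
(mv 846 (cons (fin 845 3 845)
(fin 1103 4 846)))))))))))))))))))
(mv 1042 (cons (fin 975 3 974)
(mv 1106 (cons (fin 1105 0 1038)
(fin 1107 0 1039))))))))
(mv 1037 (cons (cons (mv 976 (cons (fin 977 2 973)
(mv 1036 (cons (fin 975 2 972)
(fin 1103 0 1036)))))
(mv 977 (cons (fin 976 2 973)
(mv 1041 (cons (fin 978 2 974)
(mv 913 (cons (fin 849 5 848)
(mv 975 (cons (fin 1042 3 974)
(mv 911 (cons (fin 847 4 847)
(mv 912 (cons (fin 914 1 910)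
(mv 1100 (cons (fin 1101 1 1036)
(mv 1103 (cons (fin 848 6 847)
(mv 910 (cons (fin 846 7 846)
(fin 1167 7 910))))))))))))))))))))
(cons (mv 1036 (cons (fin 1103 0 1036)
(mv 1100 (cons (fin 1099 1 1035)
(fin 1101 1 1036)))))
(mv 976 (cons (fin 977 2 973)
(mv 1036 (cons (fin 975 2 972)
(mv 1100 (cons (fin 1099 1 1035)
(fin 1101 1 1036))))))))))))
(cons (cons (mv 1037 (cons (fin 1105 0 1037)
(mv 976 (cons (fin 977 2 973)
(mv 1036 (cons (fin 975 2 972)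
(mv 1100 (cons (fin 1099 1 1035)
(fin 1101 1 1036)))))))))
(mv 1037 (cons (fin 1105 0 1037)
(mv 976 (cons (fin 977 2 973)
(mv 1036 (cons (fin 1103 0 1036)
(mv 1100 (cons (fin 1099 1 1035)
(fin 1101 1 1036))))))))))
(cons (mv 1037 (cons (fin 1105 0 1037)
(mv 1036 (cons (fin 1103 0 1036)
(mv 975 (cons (fin 1035 2 971)
(fin 976 2 972)))))))
(mv 1037 (cons (fin 1105 0 1037)
(mv 1036 (cons (fin 1103 0 1036)
(mv 1100 (cons (fin 1099 1 1035)
(fin 1101 1 1036)))))))))))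
(mv 1039 (cons (cons (cons (mv 1037 (cons (fin 1105 0 1037)
(mv 976 (cons (fin 977 2 973)
(mv 975 (cons (fin 1036 2 972)
(mv 847 (cons (fin 911 4 847)
(mv 1041 (cons (fin 1042 3 974)
(mv 1101 (cons (fin 1100 1 1036)
(fin 1102 1 1037)))))))))))))
(mv 1041 (cons (cons (mv 975 (cons (fin 1042 3 974)
(mv 847 (cons (fin 911 4 847)
(mv 977 (cons (fin 978 2 974)
(mv 913 (cons (fin 849 5 848)
(mv 914 (cons (fin 976 2 910)
(mv 1105 (cons (fin 1106 0 1038)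
(fin 850 6 849)))))))))))))
(mv 975 (cons (fin 1042 3 974)
(mv 847 (cons (fin 911 4 847)
(mv 977 (cons (fin 978 2 974)
(mv 913 (cons (fin 849 5 848)
(mv 976 (cons (fin 914 2 910)
(mv 910 (cons (fin 909 3 909)
(mv 846 (cons (fin 783 6 782)
(fin 782 4 782))))))))))))))))
(cons (mv 977 (cons (fin 978 2 974)
(mv 913 (cons (fin 849 5 848)
(mv 1101 (cons (fin 1102 1 1037)
(mv 1105 (cons (fin 1106 0 1038)
(mv 850 (cons (fin 914 6 849)
(mv 912 (cons (fin 848 7 848)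
(mv 976 (cons (fin 1169 7 912)
(mv 911 (cons (fin 847 7 847)
(mv 910 (cons (fin 909 0 909)
(mv 846 (cons (fin 845 3 845)
(mv 782 (cons (fin 975 4 782)
(mv 717 (cons (fin 781 7 717)
(mv 718 (cons (fin 653 7 653)
(mv 719 (cons (fin 655 6 654)
(fin 783 6 718)))))))))))))))))))))))))))))
(cons (mv 977 (cons (fin 978 2 974)
(mv 913 (cons (fin 849 5 848)
(mv 1101 (cons (fin 1102 1 1037)
(mv 1105 (cons (fin 1106 0 1038)
(mv 850 (cons (fin 914 6 849)
(mv 912 (cons (fin 848 7 848)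
(mv 1169 (cons (fin 976 7 912)
(mv 1233 (cons (fin 1297 7 1040)
(mv 1234 (cons (fin 1170 4 977)
(fin 1298 4 1041)))))))))))))))))))
(mv 975 (cons (fin 1042 3 974)
(mv 911 (cons (fin 847 4 847)
(mv 1102 (cons (fin 1101 1 1037)
(fin 1166 6 910))))))))))))
(cons (mv 1041 (cons (cons (mv 975 (cons (fin 1042 3 974)
(mv 847 (cons (fin 911 4 847)
(mv 977 (cons (fin 978 2 974)
(mv 849 (cons (fin 913 5 848)
(mv 976 (cons (fin 1037 1 973)
(mv 910 (cons (fin 909 3 909)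
(mv 846 (cons (fin 783 6 782)
(fin 782 4 782)))))))))))))))
(mv 975 (cons (fin 1042 3 974)
(mv 847 (cons (fin 911 4 847)
(mv 1101 (cons (fin 1102 1 1037)
(mv 1037 (cons (fin 1100 1 1036)
(mv 1036 (cons (fin 1035 2 971)
(fin 976 2 972))))))))))))
(cons (mv 977 (cons (fin 978 2 974)
(mv 849 (cons (fin 913 5 848)
(mv 1037 (cons (fin 976 2 973)
(mv 1101 (cons (fin 1100 1 1036)
(fin 1102 1 1037)))))))))
(cons (mv 975 (cons (fin 1042 3 974)
(mv 847 (cons (fin 911 4 847)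
(mv 977 (cons (fin 978 2 974)
(mv 913 (cons (fin 849 5 848)
(mv 976 (cons (fin 914 2 910)
(mv 910 (cons (fin 909 3 909)
(mv 846 (cons (fin 783 6 782)
(fin 782 4 782)))))))))))))))
(mv 975 (cons (fin 1042 3 974)
(mv 911 (cons (fin 847 4 847)
(mv 1102 (cons (fin 1101 1 1037)
(fin 1166 6 910)))))))))))
(mv 1037 (cons (fin 1105 0 1037)
(mv 976 (cons (fin 977 2 973)
(mv 975 (cons (fin 1036 2 972)
(mv 847 (cons (fin 911 4 847)
(mv 1101 (cons (fin 1100 1 1036)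
(mv 910 (cons (fin 846 5 845)
(mv 1165 (cons (fin 1102 5 909)
(fin 1229 6 973)))))))))))))))))
(cons (cons (mv 1037 (cons (fin 1105 0 1037)
(mv 976 (cons (fin 977 2 973)
(mv 1101 (cons (fin 1100 1 1036)
(mv 910 (cons (fin 846 5 845)
(mv 1102 (cons (fin 1041 1 1037)
(fin 1165 5 909)))))))))))
(mv 1037 (cons (fin 1105 0 1037)
(mv 1100 (cons (fin 1101 1 1036)
(mv 1036 (cons (fin 1099 1 1035)
(mv 975 (cons (fin 1035 2 971)
(fin 976 2 972))))))))))
(cons (mv 1037 (cons (fin 1105 0 1037)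
(mv 976 (cons (fin 977 2 973)
(mv 1036 (cons (fin 975 2 972)
(mv 971 (cons (fin 972 3 971)
(mv 1035 (cons (fin 970 3 970)
(mv 1099 (cons (fin 1098 1 1034)
(fin 1100 1 1035)))))))))))))
(mv 1037 (cons (fin 1105 0 1037)
(mv 1100 (cons (fin 1101 1 1036)
(mv 1036 (cons (fin 1099 1 1035)
(mv 971 (cons (fin 972 3 971)
(mv 1035 (cons (fin 970 3 970)
(fin 975 2 971))))))))))))))))
(cons (mv 1039 (cons (cons (mv 1037 (cons (fin 1105 0 1037)
(mv 976 (cons (fin 977 2 973)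
(mv 1036 (cons (fin 975 2 972)
(fin 1103 0 1036)))))))
(cons (mv 1041 (cons (cons (mv 975 (cons (fin 1042 3 974)
(mv 847 (cons (fin 911 4 847)
(mv 977 (cons (fin 978 2 974)
(mv 849 (cons (fin 913 5 848)
(mv 1102 (cons (fin 1101 1 1037)
(mv 1105 (cons (fin 1106 0 1038)
(mv 1166 (cons (fin 1230 6 974)
(mv 1165 (cons (fin 1103 1 1101)
(fin 1229 5 973)))))))))))))))))
(cons (mv 977 (cons (fin 978 2 974)
(mv 913 (cons (fin 849 5 848)
(mv 1101 (cons (fin 1102 1 1037)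
(mv 1105 (cons (fin 1106 0 1038)
(mv 850 (cons (fin 914 6 849)
(mv 912 (cons (fin 848 7 848)
(mv 1169 (cons (fin 976 7 912)
(mv 1233 (cons (fin 1297 7 1040)
(mv 1234 (cons (fin 1170 4 977)
(fin 1298 4 1041)))))))))))))))))))
(mv 975 (cons (fin 1042 3 974)
(mv 847 (cons (fin 911 4 847)
(mv 977 (cons (fin 978 2 974)
(mv 849 (cons (fin 913 5 848)
(mv 1102 (cons (fin 1101 1 1037)
(mv 1166 (cons (fin 1230 6 974)
(mv 1165 (cons (fin 1229 5 973)
(mv 1103 (cons (fin 1105 1 1101)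
(mv 1164 (cons (fin 1163 2 1099)
(fin 1167 2 1100)))))))))))))))))))))
(cons (mv 975 (cons (fin 1042 3 974)
(mv 847 (cons (fin 911 4 847)
(mv 977 (cons (fin 978 2 974)
(mv 913 (cons (fin 849 5 848)
(mv 914 (cons (fin 976 2 910)
(mv 1105 (cons (fin 1106 0 1038)
(fin 850 6 849)))))))))))))
(cons (mv 975 (cons (fin 1042 3 974)
(mv 847 (cons (fin 911 4 847)
(mv 977 (cons (fin 978 2 974)
(mv 849 (cons (fin 913 5 848)
(mv 1102 (cons (fin 1101 1 1037)
(mv 1166 (cons (fin 1230 6 974)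
(mv 1165 (cons (fin 1229 5 973)
(mv 1167 (cons (fin 1231 4 974)
(mv 1164 (cons (fin 1103 2 1100)
(mv 1099 (cons (fin 1100 3 1099)
(mv 1163 (cons (fin 1098 3 1098)
(mv 1227 (cons (fin 1226 1 1162)
(fin 1228 1 1163)))))))))))))))))))))))))
(mv 975 (cons (fin 1042 3 974)
(mv 847 (cons (fin 911 4 847)
(mv 1102 (cons (fin 1101 1 1037)
(mv 1105 (cons (fin 1106 0 1038)
(mv 1166 (cons (fin 1230 6 974)
(mv 1165 (cons (fin 1103 1 1101)
(fin 1229 5 973)))))))))))))))))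
(mv 1037 (cons (cons (mv 976 (cons (fin 977 2 973)
(mv 1036 (cons (fin 975 2 972)
(fin 1103 0 1036)))))
(mv 976 (cons (fin 977 2 973)
(mv 1101 (cons (fin 1100 1 1036)
(mv 1102 (cons (fin 1041 1 1037)
(mv 1165 (cons (fin 1229 6 973)
(mv 1103 (cons (fin 1164 1 1100)
(mv 912 (cons (fin 848 5 847)
(fin 1167 5 911))))))))))))))
(cons (mv 1036 (cons (fin 1103 0 1036)
(mv 1100 (cons (fin 1099 1 1035)
(fin 1101 1 1036)))))
(mv 976 (cons (fin 977 2 973)
(mv 975 (cons (fin 1036 2 972)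
(mv 847 (cons (fin 911 4 847)
(mv 1041 (cons (fin 1042 3 974)
(mv 1101 (cons (fin 1100 1 1036)
(fin 1102 1 1037))))))))))))))))
(cons (cons (mv 1037 (cons (fin 1105 0 1037)
(mv 976 (cons (fin 977 2 973)
(mv 975 (cons (fin 1036 2 972)
(mv 847 (cons (fin 911 4 847)
(mv 1041 (cons (fin 1042 3 974)
(mv 1101 (cons (fin 1100 1 1036)
(fin 1102 1 1037)))))))))))))
(mv 1037 (cons (fin 1105 0 1037)
(mv 976 (cons (fin 977 2 973)
(mv 1036 (cons (fin 1103 0 1036)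
(mv 1100 (cons (fin 1099 1 1035)
(fin 1101 1 1036))))))))))
(cons (mv 1037 (cons (fin 1105 0 1037)
(mv 1036 (cons (fin 1103 0 1036)
(mv 975 (cons (fin 1035 2 971)
(fin 976 2 972)))))))
(mv 1037 (cons (fin 1105 0 1037)
(mv 1036 (cons (fin 1103 0 1036)
(mv 1100 (cons (fin 1099 1 1035)
(fin 1101 1 1036)))))))))))
(mv 1039 (cons (cons (mv 1037 (cons (fin 1105 0 1037)
(mv 1036 (cons (fin 1103 0 1036)
(mv 1100 (cons (fin 1099 1 1035)
(fin 1101 1 1036)))))))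
(mv 1103 (cons (cons (mv 846 (cons (fin 910 4 846)
(mv 1037 (cons (fin 1036 0 1036)
(mv 1101 (cons (fin 1100 1 1036)
(mv 1041 (cons (fin 1102 1 1037)
(mv 975 (cons (fin 1042 3 974)
(mv 847 (cons (fin 911 4 847)
(mv 977 (cons (fin 978 2 974)
(mv 849 (cons (fin 913 5 848)
(mv 1165 (cons (fin 1229 6 973)
(mv 1167 (cons (fin 1231 7 974)
(mv 1166 (cons (fin 1164 2 1100)
(fin 1230 5 974)))))))))))))))))))))))
(mv 846 (cons (fin 910 4 846)
(mv 1037 (cons (fin 1036 0 1036)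
(mv 1101 (cons (fin 1100 1 1036)
(mv 1041 (cons (fin 1102 1 1037)
(mv 975 (cons (fin 1042 3 974)
(mv 911 (cons (fin 847 4 847)
(mv 912 (cons (fin 848 6 847)
(mv 913 (cons (fin 914 1 910)
(mv 977 (cons (fin 978 2 974)
(fin 849 5 848))))))))))))))))))))
(cons (mv 1037 (cons (fin 1036 0 1036)
(mv 1101 (cons (fin 1100 1 1036)
(mv 1041 (cons (fin 1102 1 1037)
(mv 975 (cons (fin 1042 3 974)
(mv 847 (cons (fin 911 4 847)
(mv 977 (cons (fin 978 2 974)
(mv 849 (cons (fin 913 5 848)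
(mv 1165 (cons (fin 1229 6 973)
(mv 1167 (cons (fin 1231 7 974)
(mv 1166 (cons (fin 1164 2 1100)
(fin 1230 5 974)))))))))))))))))))))
(cons (mv 910 (cons (fin 846 4 846)
(mv 1167 (cons (fin 975 7 910)
(fin 1231 7 974)))))
(mv 846 (cons (fin 910 4 846)
(mv 1037 (cons (fin 1036 0 1036)
(mv 1101 (cons (fin 1100 1 1036)
(mv 1102 (cons (fin 1041 1 1037)
(mv 1165 (cons (fin 1164 1 1100)
(fin 1229 6 973))))))))))))))))
(cons (mv 1041 (cons (cons (cons (mv 975 (cons (fin 1042 3 974)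
(mv 847 (cons (fin 911 4 847)
(mv 977 (cons (fin 978 2 974)
(mv 849 (cons (fin 913 5 848)
(mv 1102 (cons (fin 1101 1 1037)
(mv 1105 (cons (fin 1106 0 1038)
(mv 1166 (cons (fin 1230 6 974)
(mv 1165 (cons (fin 1103 1 1101)
(fin 1229 5 973)))))))))))))))))
(mv 975 (cons (fin 1042 3 974)
(mv 847 (cons (fin 911 4 847)
(mv 977 (cons (fin 978 2 974)
(mv 849 (cons (fin 913 5 848)
(mv 1102 (cons (fin 1101 1 1037)
(mv 1166 (cons (fin 1230 6 974)
(mv 1165 (cons (fin 1229 5 973)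
(mv 1103 (cons (fin 1105 1 1101)
(mv 910 (cons (fin 1167 7 910)
(fin 846 4 846))))))))))))))))))))
(cons (mv 977 (cons (fin 978 2 974)
(mv 913 (cons (fin 849 5 848)
(mv 1101 (cons (fin 1102 1 1037)
(mv 1105 (cons (fin 1106 0 1038)
(mv 912 (cons (fin 848 7 848)
(mv 914 (cons (fin 850 6 849)
(mv 911 (cons (fin 975 1 910)
(mv 846 (cons (fin 847 3 846)
(mv 910 (cons (fin 845 3 845)
(fin 1103 4 846)))))))))))))))))))
(mv 975 (cons (fin 1042 3 974)
(mv 911 (cons (fin 847 4 847)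
(mv 977 (cons (fin 978 2 974)
(mv 913 (cons (fin 849 5 848)
(mv 912 (cons (fin 914 1 910)
(mv 848 (cons (fin 1105 7 848)
(fin 1103 6 847)))))))))))))))
(cons (cons (mv 975 (cons (fin 1042 3 974)
(mv 847 (cons (fin 911 4 847)
(mv 977 (cons (fin 978 2 974)
(mv 849 (cons (fin 913 5 848)
(mv 1102 (cons (fin 1101 1 1037)
(mv 1166 (cons (fin 1230 6 974)
(mv 1165 (cons (fin 1229 5 973)
(mv 1167 (cons (fin 1231 4 974)
(mv 1103 (cons (fin 1164 2 1100)
(fin 910 7 910)))))))))))))))))))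
(mv 977 (cons (fin 978 2 974)
(mv 849 (cons (fin 913 5 848)
(mv 1102 (cons (fin 1101 1 1037)
(mv 1042 (cons (fin 1103 1 1038)
(mv 1106 (cons (fin 1105 0 1038)
(fin 1107 0 1039))))))))))))
(cons (mv 975 (cons (fin 1042 3 974)
(mv 847 (cons (fin 911 4 847)
(mv 1102 (cons (fin 1101 1 1037)
(mv 1105 (cons (fin 1106 0 1038)
(mv 1166 (cons (fin 1230 6 974)
(mv 1165 (cons (fin 1103 1 1101)
(fin 1229 5 973)))))))))))))
(mv 975 (cons (fin 1042 3 974)
(mv 911 (cons (fin 847 4 847)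
(mv 1102 (cons (fin 1101 1 1037)
(fin 1166 6 910)))))))))))
(cons (mv 1037 (cons (fin 1105 0 1037)
(mv 1100 (cons (fin 1101 1 1036)
(mv 1036 (cons (fin 1099 1 1035)
(mv 971 (cons (fin 972 3 971)
(mv 1035 (cons (fin 970 3 970)
(fin 975 2 971)))))))))))
(mv 1037 (cons (fin 1105 0 1037)
(mv 1036 (cons (fin 1103 0 1036)
(mv 971 (cons (fin 972 3 971)
(mv 1035 (cons (fin 970 3 970)
(fin 975 2 971))))))))))))))))
(cons (cons (cons (mv 1039 (cons (cons (mv 1037 (cons (fin 1105 0 1037)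
(mv 976 (cons (fin 977 2 973)
(mv 1036 (cons (fin 1103 0 1036)
(mv 1100 (cons (fin 1099 1 1035)
(fin 1101 1 1036)))))))))
(cons (mv 1041 (cons (cons (mv 977 (cons (fin 978 2 974)
(mv 849 (cons (fin 913 5 848)
(mv 1102 (cons (fin 1101 1 1037)
(mv 1042 (cons (fin 1103 1 1038)
(mv 1106 (cons (fin 1105 0 1038)
(fin 1107 0 1039)))))))))))
(mv 977 (cons (fin 978 2 974)
(mv 849 (cons (fin 913 5 848)
(mv 1102 (cons (fin 1101 1 1037)
(mv 1103 (cons (fin 1042 1 1038)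
(mv 910 (cons (fin 846 4 846)
(fin 1167 4 910))))))))))))
(cons (mv 977 (cons (fin 978 2 974)
(mv 913 (cons (fin 849 5 848)
(mv 1105 (cons (fin 1106 0 1038)
(mv 850 (cons (fin 914 6 849)
(mv 912 (cons (fin 848 7 848)
(mv 976 (cons (fin 1169 7 912)
(mv 911 (cons (fin 847 7 847)
(mv 910 (cons (fin 909 0 909)
(mv 846 (cons (fin 845 3 845)
(fin 1103 4 846)))))))))))))))))))
(cons (mv 1102 (cons (fin 1101 1 1037)
(mv 1042 (cons (fin 1103 1 1038)
(mv 1106 (cons (fin 1105 0 1038)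
(fin 1107 0 1039)))))))
(mv 977 (cons (fin 978 2 974)
(mv 913 (cons (fin 849 5 848)
(mv 1101 (cons (fin 1102 1 1037)
(mv 1105 (cons (fin 1106 0 1038)
(mv 850 (cons (fin 914 6 849)
(mv 912 (cons (fin 848 7 848)
(mv 1169 (cons (fin 976 7 912)
(mv 1233 (cons (fin 1297 7 1040)
(mv 1234 (cons (fin 1170 4 977)
(fin 1298 4 1041)))))))))))))))))))))))
(mv 1103 (cons (cons (mv 846 (cons (fin 910 4 846)
(mv 1037 (cons (fin 1036 0 1036)
(mv 976 (cons (fin 977 2 973)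
(mv 912 (cons (fin 848 5 847)
(fin 1167 5 911)))))))))
(mv 846 (cons (fin 910 4 846)
(mv 1037 (cons (fin 1036 0 1036)
(mv 976 (cons (fin 977 2 973)
(mv 848 (cons (fin 912 5 847)
(mv 1101 (cons (fin 1100 1 1036)
(mv 1102 (cons (fin 1041 1 1037)
(mv 1165 (cons (fin 1164 1 1100)
(fin 1229 6 973))))))))))))))))
(cons (mv 910 (cons (fin 846 4 846)
(mv 1167 (cons (fin 1231 7 974)
(fin 1102 4 910)))))
(mv 1037 (cons (fin 1036 0 1036)
(mv 976 (cons (fin 977 2 973)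
(mv 912 (cons (fin 848 5 847)
(fin 1167 5 911))))))))))))
(cons (mv 1037 (cons (fin 1105 0 1037)
(mv 976 (cons (fin 977 2 973)
(mv 1101 (cons (fin 1100 1 1036)
(mv 910 (cons (fin 846 5 845)
(mv 1102 (cons (fin 1041 1 1037)
(fin 1165 5 909)))))))))))
(cons (mv 1037 (cons (fin 1105 0 1037)
(mv 976 (cons (fin 977 2 973)
(mv 1036 (cons (fin 1103 0 1036)
(mv 971 (cons (fin 972 3 971)
(mv 1035 (cons (fin 970 3 970)
(mv 1099 (cons (fin 1098 1 1034)
(fin 1100 1 1035)))))))))))))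
(mv 1037 (cons (fin 1105 0 1037)
(mv 1036 (cons (fin 1103 0 1036)
(mv 1100 (cons (fin 1099 1 1035)
(fin 1101 1 1036)))))))))))
(mv 1102 (cons (cons (cons (mv 910 (cons (cons (mv 845 (cons (fin 909 7 845)
(mv 781 (cons (fin 846 7 781)
(mv 847 (cons (fin 911 6 846)
(mv 1101 (cons (fin 1165 5 909)
(mv 1103 (cons (fin 1167 4 910)
(mv 1037 (cons (fin 1036 3 1036)
(fin 1105 3 1037)))))))))))))
(cons (mv 845 (cons (fin 909 7 845)
(mv 781 (cons (fin 846 7 781)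
(mv 911 (cons (fin 847 6 846)
(mv 1101 (cons (fin 1165 5 909)
(mv 1166 (cons (fin 975 6 910)
(mv 1231 (cons (fin 1167 4 974)
(mv 1230 (cons (fin 1295 4 1038)
(mv 1037 (cons (fin 1294 7 1037)
(mv 1039 (cons (fin 1100 1 1036)
(fin 1105 0 1037)))))))))))))))))))
(mv 845 (cons (fin 909 7 845)
(mv 781 (cons (fin 846 7 781)
(mv 847 (cons (fin 911 6 846)
(mv 1103 (cons (fin 1167 4 910)
(mv 1037 (cons (fin 1105 3 1037)
(mv 1036 (cons (fin 1035 0 1035)
(fin 1039 0 1036)))))))))))))))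
(cons (cons (mv 845 (cons (fin 909 7 845)
(mv 781 (cons (fin 846 7 781)
(mv 1101 (cons (fin 1165 5 909)
(mv 1103 (cons (fin 1167 4 910)
(mv 1037 (cons (fin 1036 3 1036)
(fin 1105 3 1037)))))))))))
(mv 845 (cons (fin 909 7 845)
(mv 781 (cons (fin 846 7 781)
(mv 911 (cons (fin 847 6 846)
(mv 1165 (cons (fin 1101 5 909)
(mv 1166 (cons (fin 1229 5 973)
(fin 975 6 910))))))))))))
(cons (mv 847 (cons (fin 911 6 846)
(mv 783 (cons (fin 846 6 782)
(mv 1101 (cons (fin 1165 5 909)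
(mv 1103 (cons (fin 1167 4 910)
(mv 1037 (cons (fin 1036 3 1036)
(fin 1105 3 1037)))))))))))
(mv 845 (cons (fin 909 7 845)
(mv 847 (cons (fin 911 6 846)
(mv 1101 (cons (fin 1165 5 909)
(mv 1103 (cons (fin 1167 4 910)
(mv 1037 (cons (fin 1036 3 1036)
(fin 1105 3 1037)))))))))))))))
(mv 1166 (cons (cons (mv 911 (cons (fin 975 6 910)
(mv 1165 (cons (fin 1229 5 973)
(mv 1103 (cons (fin 1105 1 1101)
(mv 1164 (cons (fin 1101 1 1100)
(fin 1163 2 1099)))))))))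
(mv 911 (cons (fin 975 6 910)
(mv 1231 (cons (fin 1167 4 974)
(mv 1230 (cons (fin 1295 4 1038)
(mv 1293 (cons (fin 1229 5 1037)
(mv 1294 (cons (fin 1357 5 1101)
(mv 1037 (cons (fin 1101 7 1037)
(mv 1039 (cons (fin 1105 0 1037)
(fin 1103 6 1038))))))))))))))))
(cons (mv 1165 (cons (fin 1229 5 973)
(mv 1103 (cons (fin 1105 1 1101)
(mv 1164 (cons (fin 1101 1 1100)
(fin 1163 2 1099)))))))
(cons (mv 975 (cons (fin 911 6 910)
(mv 1039 (cons (fin 1230 6 974)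
(mv 1037 (cons (fin 1105 0 1037)
(mv 976 (cons (fin 977 1 973)
(fin 1036 2 972)))))))))
(mv 911 (cons (fin 975 6 910)
(mv 1165 (cons (fin 1229 5 973)
(mv 1167 (cons (fin 1231 4 974)
(mv 1164 (cons (fin 1103 2 1100)
(mv 1099 (cons (fin 1100 3 1099)
(mv 1163 (cons (fin 1098 3 1098)
(mv 1227 (cons (fin 1226 1 1162)
(fin 1228 1 1163))))))))))))))))))))
(cons (mv 910 (cons (cons (mv 845 (cons (fin 909 7 845)
(mv 781 (cons (fin 846 7 781)
(mv 847 (cons (fin 911 6 846)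
(mv 1101 (cons (fin 1165 5 909)
(mv 1103 (cons (fin 1167 4 910)
(mv 1037 (cons (fin 1036 3 1036)
(fin 1105 3 1037)))))))))))))
(mv 845 (cons (fin 909 7 845)
(mv 846 (cons (fin 781 7 781)
(mv 847 (cons (fin 783 6 782)
(fin 911 6 846))))))))
(cons (mv 845 (cons (fin 909 7 845)
(mv 781 (cons (fin 846 7 781)
(mv 1101 (cons (fin 1165 5 909)
(mv 1103 (cons (fin 1167 4 910)
(mv 1037 (cons (fin 1036 3 1036)
(fin 1105 3 1037)))))))))))
(cons (mv 847 (cons (fin 911 6 846)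
(mv 783 (cons (fin 846 6 782)
(mv 1101 (cons (fin 1165 5 909)
(mv 1103 (cons (fin 1167 4 910)
(mv 1037 (cons (fin 1036 3 1036)
(fin 1105 3 1037)))))))))))
(mv 845 (cons (fin 909 7 845)
(mv 847 (cons (fin 911 6 846)
(mv 1101 (cons (fin 1165 5 909)
(mv 1103 (cons (fin 1167 4 910)
(mv 1037 (cons (fin 1036 3 1036)
(fin 1105 3 1037)))))))))))))))
(mv 910 (cons (cons (mv 845 (cons (fin 909 7 845)
(mv 781 (cons (fin 846 7 781)
(mv 911 (cons (fin 847 6 846)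
(mv 1101 (cons (fin 1165 5 909)
(mv 1166 (cons (fin 975 6 910)
(mv 1231 (cons (fin 1167 4 974)
(mv 1230 (cons (fin 1295 4 1038)
(mv 1037 (cons (fin 1294 7 1037)
(mv 1039 (cons (fin 1100 1 1036)
(fin 1105 0 1037)))))))))))))))))))
(cons (mv 845 (cons (fin 909 7 845)
(mv 846 (cons (fin 781 7 781)
(mv 1101 (cons (fin 1037 5 845)
(fin 1165 5 909)))))))
(mv 845 (cons (fin 909 7 845)
(mv 781 (cons (fin 846 7 781)
(mv 911 (cons (fin 847 6 846)
(mv 1166 (cons (fin 975 6 910)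
(mv 1229 (cons (fin 1165 5 973)
(mv 1230 (cons (fin 1293 5 1037)
(mv 1231 (cons (fin 1167 4 974)
(fin 1295 4 1038)))))))))))))))))
(cons (mv 845 (cons (fin 909 7 845)
(mv 846 (cons (fin 781 7 781)
(mv 847 (cons (fin 783 6 782)
(fin 911 6 846)))))))
(cons (mv 847 (cons (fin 911 6 846)
(mv 846 (cons (fin 783 6 782)
(mv 1101 (cons (fin 1037 5 845)
(fin 1165 5 909)))))))
(mv 845 (cons (fin 909 7 845)
(mv 911 (cons (fin 847 6 846)
(mv 1101 (cons (fin 1165 5 909)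
(mv 1166 (cons (fin 975 6 910)
(mv 1231 (cons (fin 1167 4 974)
(mv 1230 (cons (fin 1295 4 1038)
(mv 1037 (cons (fin 1294 7 1037)
(mv 1039 (cons (fin 1100 1 1036)
(fin 1105 0 1037)))))))))))))))))))))))
(cons (cons (mv 910 (cons (cons (mv 845 (cons (fin 909 7 845)
(mv 781 (cons (fin 846 7 781)
(mv 847 (cons (fin 911 6 846)
(mv 1101 (cons (fin 1165 5 909)
(mv 1103 (cons (fin 1167 4 910)
(mv 1100 (cons (fin 1039 2 1036)
(mv 1035 (cons (fin 1036 3 1035)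
(mv 1099 (cons (fin 1034 3 1034)
(mv 1163 (cons (fin 1162 1 1098)
(fin 1164 1 1099)))))))))))))))))))
(cons (mv 845 (cons (fin 909 7 845)
(mv 781 (cons (fin 846 7 781)
(mv 911 (cons (fin 847 6 846)
(mv 1165 (cons (fin 1101 5 909)
(mv 1166 (cons (fin 1229 5 973)
(fin 975 6 910)))))))))))
(mv 845 (cons (fin 909 7 845)
(mv 781 (cons (fin 846 7 781)
(mv 1101 (cons (fin 1165 5 909)
(mv 1103 (cons (fin 1167 4 910)
(mv 1100 (cons (fin 1039 2 1036)
(mv 1035 (cons (fin 1036 3 1035)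
(mv 1099 (cons (fin 1034 3 1034)
(mv 1163 (cons (fin 1162 1 1098)
(fin 1164 1 1099)))))))))))))))))))
(cons (mv 845 (cons (fin 909 7 845)
(mv 781 (cons (fin 846 7 781)
(mv 911 (cons (fin 847 6 846)
(mv 1166 (cons (fin 975 6 910)
(mv 1167 (cons (fin 1103 4 910)
(fin 1231 4 974)))))))))))
(cons (mv 847 (cons (fin 911 6 846)
(mv 783 (cons (fin 846 6 782)
(mv 1101 (cons (fin 1165 5 909)
(mv 1103 (cons (fin 1167 4 910)
(mv 1100 (cons (fin 1039 2 1036)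
(mv 1035 (cons (fin 1036 3 1035)
(mv 1099 (cons (fin 1034 3 1034)
(mv 1163 (cons (fin 1162 1 1098)
(fin 1164 1 1099)))))))))))))))))
(mv 845 (cons (fin 909 7 845)
(mv 847 (cons (fin 911 6 846)
(mv 1101 (cons (fin 1165 5 909)
(mv 1103 (cons (fin 1167 4 910)
(mv 1100 (cons (fin 1039 2 1036)
(mv 1035 (cons (fin 1036 3 1035)
(mv 1099 (cons (fin 1034 3 1034)
(mv 1163 (cons (fin 1162 1 1098)
(fin 1164 1 1099)))))))))))))))))))))
(mv 910 (cons (cons (mv 845 (cons (fin 909 7 845)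
(mv 781 (cons (fin 846 7 781)
(mv 911 (cons (fin 847 6 846)
(mv 1165 (cons (fin 1101 5 909)
(mv 1166 (cons (fin 1229 5 973)
(fin 975 6 910)))))))))))
(cons (mv 845 (cons (fin 909 7 845)
(mv 781 (cons (fin 846 7 781)
(mv 911 (cons (fin 847 6 846)
(mv 1166 (cons (fin 975 6 910)
(mv 1229 (cons (fin 1165 5 973)
(mv 1230 (cons (fin 1293 5 1037)
(mv 1295 (cons (fin 1231 4 1038)
(mv 1294 (cons (fin 1359 4 1102)
(mv 1103 (cons (fin 1039 6 1038)
(mv 1105 (cons (fin 1037 3 1037)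
(mv 1169 (cons (fin 1170 0 1102)
(mv 1297 (cons (fin 1296 3 1229)
(fin 1233 7 1040)))))))))))))))))))))))))
(mv 845 (cons (fin 909 7 845)
(mv 846 (cons (fin 781 7 781)
(mv 1101 (cons (fin 1037 5 845)
(fin 1165 5 909)))))))))
(cons (mv 845 (cons (fin 909 7 845)
(mv 846 (cons (fin 781 7 781)
(mv 847 (cons (fin 783 6 782)
(fin 911 6 846)))))))
(cons (mv 847 (cons (fin 911 6 846)
(mv 846 (cons (fin 783 6 782)
(mv 1101 (cons (fin 1037 5 845)
(fin 1165 5 909)))))))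
(mv 845 (cons (fin 909 7 845)
(mv 911 (cons (fin 847 6 846)
(mv 1165 (cons (fin 1101 5 909)
(mv 1166 (cons (fin 1229 5 973)
(fin 975 6 910))))))))))))))
(cons (mv 910 (cons (cons (mv 845 (cons (fin 909 7 845)
(mv 781 (cons (fin 846 7 781)
(mv 1101 (cons (fin 1165 5 909)
(mv 1103 (cons (fin 1167 4 910)
(mv 1037 (cons (fin 1036 3 1036)
(fin 1105 3 1037)))))))))))
(cons (mv 845 (cons (fin 909 7 845)
(mv 846 (cons (fin 781 7 781)
(mv 1101 (cons (fin 1037 5 845)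
(fin 1165 5 909)))))))
(mv 845 (cons (fin 909 7 845)
(mv 781 (cons (fin 846 7 781)
(mv 1103 (cons (fin 1167 4 910)
(mv 1037 (cons (fin 1105 3 1037)
(mv 1036 (cons (fin 1035 0 1035)
(fin 1039 0 1036)))))))))))))
(cons (mv 1101 (cons (fin 1165 5 909)
(mv 846 (cons (fin 1037 5 845)
(mv 1103 (cons (fin 1039 4 846)
(fin 1167 4 910)))))))
(cons (mv 845 (cons (fin 909 7 845)
(mv 1101 (cons (fin 1165 5 909)
(mv 1103 (cons (fin 1167 4 910)
(mv 1037 (cons (fin 1036 3 1036)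
(fin 1105 3 1037)))))))))
(mv 845 (cons (fin 909 7 845)
(mv 781 (cons (fin 846 7 781)
(mv 1101 (cons (fin 1165 5 909)
(mv 1103 (cons (fin 1167 4 910)
(mv 1100 (cons (fin 1039 2 1036)
(mv 1035 (cons (fin 1036 3 1035)
(mv 1099 (cons (fin 1034 3 1034)
(mv 1163 (cons (fin 1162 1 1098)
(fin 1164 1 1099)))))))))))))))))))))
(cons (mv 910 (cons (cons (mv 845 (cons (fin 909 7 845)
(mv 781 (cons (fin 846 7 781)
(mv 847 (cons (fin 911 6 846)
(mv 1103 (cons (fin 1167 4 910)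
(mv 1037 (cons (fin 1105 3 1037)
(mv 1036 (cons (fin 1101 3 1036)
(fin 1035 0 1035)))))))))))))
(mv 845 (cons (fin 909 7 845)
(mv 846 (cons (fin 781 7 781)
(mv 847 (cons (fin 783 6 782)
(fin 911 6 846))))))))
(cons (mv 845 (cons (fin 909 7 845)
(mv 781 (cons (fin 846 7 781)
(mv 1103 (cons (fin 1167 4 910)
(mv 1037 (cons (fin 1105 3 1037)
(mv 1036 (cons (fin 1101 3 1036)
(fin 1035 0 1035)))))))))))
(cons (mv 847 (cons (fin 911 6 846)
(mv 783 (cons (fin 846 6 782)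
(mv 1103 (cons (fin 1167 4 910)
(mv 1037 (cons (fin 1105 3 1037)
(mv 1036 (cons (fin 1101 3 1036)
(fin 1035 0 1035)))))))))))
(mv 845 (cons (fin 909 7 845)
(mv 847 (cons (fin 911 6 846)
(mv 1103 (cons (fin 1167 4 910)
(mv 1037 (cons (fin 1105 3 1037)
(mv 1036 (cons (fin 1101 3 1036)
(fin 1035 0 1035)))))))))))))))
(mv 1166 (cons (cons (mv 911 (cons (fin 975 6 910)
(mv 847 (cons (fin 910 6 846)
(mv 912 (cons (fin 976 7 847)
(mv 1165 (cons (fin 1229 5 973)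
(mv 1103 (cons (fin 1105 1 1101)
(mv 1164 (cons (fin 1163 2 1099)
(fin 1167 2 1100)))))))))))))
(cons (mv 911 (cons (fin 975 6 910)
(mv 847 (cons (fin 910 6 846)
(mv 912 (cons (fin 976 7 847)
(mv 1229 (cons (fin 1165 5 973)
(mv 1230 (cons (fin 1293 5 1037)
(mv 1295 (cons (fin 1231 4 1038)
(mv 1294 (cons (fin 1359 4 1102)
(mv 1103 (cons (fin 1039 6 1038)
(mv 1105 (cons (fin 1037 3 1037)
(mv 1169 (cons (fin 1170 0 1102)
(mv 1297 (cons (fin 1296 3 1229)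
(fin 1233 7 1040)))))))))))))))))))))))
(mv 1165 (cons (fin 1229 5 973)
(mv 1103 (cons (fin 1105 1 1101)
(mv 1164 (cons (fin 1163 2 1099)
(fin 1167 2 1100)))))))))
(cons (mv 911 (cons (fin 975 6 910)
(mv 847 (cons (fin 910 6 846)
(mv 912 (cons (fin 976 7 847)
(mv 1231 (cons (fin 1167 4 974)
(mv 1230 (cons (fin 1295 4 1038)
(mv 1293 (cons (fin 1229 5 1037)
(mv 1294 (cons (fin 1357 5 1101)
(mv 1103 (cons (fin 1039 6 1038)
(mv 1105 (cons (fin 1037 3 1037)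
(mv 1169 (cons (fin 1170 0 1102)
(mv 1233 (cons (fin 1232 1 1229)
(fin 1297 7 1040)))))))))))))))))))))))
(cons (mv 911 (cons (fin 975 6 910)
(mv 910 (cons (fin 847 6 846)
(mv 1167 (cons (fin 1103 4 910)
(fin 1231 4 974)))))))
(mv 911 (cons (fin 975 6 910)
(mv 847 (cons (fin 910 6 846)
(mv 912 (cons (fin 976 7 847)
(mv 1229 (cons (fin 1165 5 973)
(mv 1230 (cons (fin 1293 5 1037)
(mv 1231 (cons (fin 1167 4 974)
(fin 1295 4 1038)))))))))))))))))))))))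
(cons (mv 1039 (cons (cons (mv 1037 (cons (fin 1105 0 1037)
(mv 976 (cons (fin 977 2 973)
(mv 1036 (cons (fin 975 2 972)
(fin 1103 0 1036)))))))
(cons (mv 1103 (cons (cons (mv 846 (cons (fin 910 4 846)
(mv 1037 (cons (fin 1036 0 1036)
(mv 976 (cons (fin 977 2 973)
(mv 912 (cons (fin 848 5 847)
(fin 1167 5 911)))))))))
(mv 846 (cons (fin 910 4 846)
(mv 1037 (cons (fin 1036 0 1036)
(mv 976 (cons (fin 977 2 973)
(mv 912 (cons (fin 848 5 847)
(mv 911 (cons (fin 847 7 847)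
(mv 913 (cons (fin 849 6 848)
(mv 914 (cons (fin 975 1 910)
(mv 851 (cons (fin 850 2 847)
(mv 915 (cons (fin 852 2 848)
(mv 979 (cons (fin 978 0 911)
(fin 980 0 912))))))))))))))))))))))
(cons (mv 1037 (cons (fin 1036 0 1036)
(mv 976 (cons (fin 977 2 973)
(mv 912 (cons (fin 848 5 847)
(fin 1167 5 911)))))))
(mv 910 (cons (fin 846 4 846)
(mv 1167 (cons (fin 975 7 910)
(fin 1231 7 974))))))))
(mv 1041 (cons (cons (mv 975 (cons (fin 1042 3 974)
(mv 847 (cons (fin 911 4 847)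
(mv 977 (cons (fin 978 2 974)
(mv 913 (cons (fin 849 5 848)
(mv 914 (cons (fin 976 2 910)
(mv 1105 (cons (fin 1106 0 1038)
(fin 850 6 849)))))))))))))
(mv 977 (cons (fin 978 2 974)
(mv 913 (cons (fin 849 5 848)
(mv 1105 (cons (fin 1106 0 1038)
(mv 850 (cons (fin 914 6 849)
(mv 912 (cons (fin 848 7 848)
(mv 976 (cons (fin 1169 7 912)
(mv 911 (cons (fin 847 7 847)
(mv 910 (cons (fin 909 0 909)
(mv 846 (cons (fin 845 3 845)
(fin 1103 4 846))))))))))))))))))))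
(cons (mv 975 (cons (fin 1042 3 974)
(mv 847 (cons (fin 911 4 847)
(mv 977 (cons (fin 978 2 974)
(mv 913 (cons (fin 849 5 848)
(mv 976 (cons (fin 914 2 910)
(mv 910 (cons (fin 909 3 909)
(mv 846 (cons (fin 783 6 782)
(fin 782 4 782)))))))))))))))
(mv 1042 (cons (fin 975 3 974)
(mv 1106 (cons (fin 1105 0 1038)
(fin 1107 0 1039))))))))))
(cons (cons (mv 1037 (cons (fin 1105 0 1037)
(mv 976 (cons (fin 977 2 973)
(mv 1036 (cons (fin 975 2 972)
(mv 971 (cons (fin 972 3 971)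
(mv 1035 (cons (fin 970 3 970)
(mv 1099 (cons (fin 1098 1 1034)
(fin 1100 1 1035)))))))))))))
(mv 1037 (cons (fin 1105 0 1037)
(mv 976 (cons (fin 977 2 973)
(mv 1036 (cons (fin 1103 0 1036)
(mv 971 (cons (fin 972 3 971)
(mv 1035 (cons (fin 970 3 970)
(mv 1099 (cons (fin 1098 1 1034)
(fin 1100 1 1035))))))))))))))
(cons (mv 1037 (cons (fin 1105 0 1037)
(mv 1036 (cons (fin 1103 0 1036)
(mv 975 (cons (fin 1035 2 971)
(fin 976 2 972)))))))
(mv 1037 (cons (fin 1105 0 1037)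
(mv 1036 (cons (fin 1103 0 1036)
(mv 971 (cons (fin 972 3 971)
(mv 1035 (cons (fin 970 3 970)
(fin 975 2 971)))))))))))))
(mv 1039 (cons (cons (mv 1037 (cons (fin 1105 0 1037)
(mv 976 (cons (fin 977 2 973)
(mv 1036 (cons (fin 975 2 972)
(fin 1103 0 1036)))))))
(cons (mv 1041 (cons (cons (mv 975 (cons (fin 1042 3 974)
(mv 977 (cons (fin 978 2 974)
(mv 849 (cons (fin 913 5 848)
(mv 1102 (cons (fin 1101 1 1037)
(mv 1166 (cons (fin 911 6 910)
(fin 1230 6 974)))))))))))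
(mv 977 (cons (fin 978 2 974)
(mv 913 (cons (fin 849 5 848)
(mv 1101 (cons (fin 1102 1 1037)
(mv 1105 (cons (fin 1106 0 1038)
(mv 850 (cons (fin 914 6 849)
(mv 912 (cons (fin 848 7 848)
(mv 976 (cons (fin 1169 7 912)
(mv 1103 (cons (fin 1167 5 911)
(mv 910 (cons (fin 846 4 846)
(mv 909 (cons (fin 975 3 909)
(fin 911 0 909))))))))))))))))))))))
(cons (mv 975 (cons (fin 1042 3 974)
(mv 977 (cons (fin 978 2 974)
(mv 913 (cons (fin 849 5 848)
(mv 914 (cons (fin 976 2 910)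
(mv 1105 (cons (fin 1106 0 1038)
(fin 850 6 849)))))))))))
(cons (mv 975 (cons (fin 1042 3 974)
(mv 1102 (cons (fin 1101 1 1037)
(mv 1166 (cons (fin 911 6 910)
(fin 1230 6 974)))))))
(mv 977 (cons (fin 978 2 974)
(mv 849 (cons (fin 913 5 848)
(mv 1102 (cons (fin 1101 1 1037)
(mv 1042 (cons (fin 1103 1 1038)
(mv 1106 (cons (fin 1105 0 1038)
(fin 1107 0 1039)))))))))))))))
(mv 1103 (cons (cons (mv 846 (cons (fin 910 4 846)
(mv 1037 (cons (fin 1036 0 1036)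
(mv 976 (cons (fin 977 2 973)
(mv 912 (cons (fin 848 5 847)
(fin 1167 5 911)))))))))
(mv 846 (cons (fin 910 4 846)
(mv 1037 (cons (fin 1036 0 1036)
(mv 976 (cons (fin 977 2 973)
(mv 848 (cons (fin 912 5 847)
(mv 1101 (cons (fin 1100 1 1036)
(mv 1102 (cons (fin 1041 1 1037)
(mv 1165 (cons (fin 1164 1 1100)
(fin 1229 6 973))))))))))))))))
(cons (mv 910 (cons (fin 846 4 846)
(mv 1167 (cons (fin 975 7 910)
(fin 1231 7 974)))))
(mv 1037 (cons (fin 1036 0 1036)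
(mv 976 (cons (fin 977 2 973)
(mv 912 (cons (fin 848 5 847)
(fin 1167 5 911))))))))))))
(cons (mv 1037 (cons (fin 1105 0 1037)
(mv 976 (cons (fin 977 2 973)
(mv 975 (cons (fin 1036 2 972)
(mv 1041 (cons (fin 1042 3 974)
(mv 1101 (cons (fin 1100 1 1036)
(fin 1102 1 1037)))))))))))
(cons (mv 1037 (cons (fin 1105 0 1037)
(mv 1036 (cons (fin 1103 0 1036)
(mv 975 (cons (fin 1035 2 971)
(fin 976 2 972)))))))
(mv 1037 (cons (fin 1105 0 1037)
(mv 1036 (cons (fin 1103 0 1036)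
(mv 1100 (cons (fin 1099 1 1035)
(fin 1101 1 1036)))))))))))))
(cons (cons (mv 1039 (cons (cons (mv 1037 (cons (fin 1105 0 1037)
(mv 976 (cons (fin 977 2 973)
(mv 1036 (cons (fin 975 2 972)
(fin 1103 0 1036)))))))
(cons (mv 1041 (cons (cons (mv 975 (cons (fin 1042 3 974)
(mv 977 (cons (fin 978 2 974)
(mv 849 (cons (fin 913 5 848)
(mv 1102 (cons (fin 1101 1 1037)
(mv 1105 (cons (fin 1106 0 1038)
(mv 1166 (cons (fin 1230 6 974)
(mv 1165 (cons (fin 1103 1 1101)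
(fin 1229 5 973)))))))))))))))
(cons (mv 977 (cons (fin 978 2 974)
(mv 913 (cons (fin 849 5 848)
(mv 1101 (cons (fin 1102 1 1037)
(mv 1105 (cons (fin 1106 0 1038)
(mv 850 (cons (fin 914 6 849)
(mv 912 (cons (fin 848 7 848)
(mv 1169 (cons (fin 976 7 912)
(mv 1233 (cons (fin 1297 7 1040)
(mv 1234 (cons (fin 1170 4 977)
(fin 1298 4 1041)))))))))))))))))))
(mv 975 (cons (fin 1042 3 974)
(mv 977 (cons (fin 978 2 974)
(mv 849 (cons (fin 913 5 848)
(mv 1102 (cons (fin 1101 1 1037)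
(mv 1166 (cons (fin 1230 6 974)
(mv 1165 (cons (fin 1229 5 973)
(mv 1103 (cons (fin 1105 1 1101)
(mv 910 (cons (fin 1167 7 910)
(fin 846 4 846)))))))))))))))))))
(cons (mv 975 (cons (fin 1042 3 974)
(mv 977 (cons (fin 978 2 974)
(mv 913 (cons (fin 849 5 848)
(mv 914 (cons (fin 976 2 910)
(mv 1105 (cons (fin 1106 0 1038)
(fin 850 6 849)))))))))))
(cons (mv 975 (cons (fin 1042 3 974)
(mv 977 (cons (fin 978 2 974)
(mv 849 (cons (fin 913 5 848)
(mv 1102 (cons (fin 1101 1 1037)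
(mv 1166 (cons (fin 1230 6 974)
(mv 1165 (cons (fin 1229 5 973)
(mv 1167 (cons (fin 1231 4 974)
(mv 1103 (cons (fin 1164 2 1100)
(fin 910 7 910)))))))))))))))))
(mv 975 (cons (fin 1042 3 974)
(mv 1102 (cons (fin 1101 1 1037)
(mv 1105 (cons (fin 1106 0 1038)
(mv 1166 (cons (fin 1230 6 974)
(mv 1165 (cons (fin 1103 1 1101)
(fin 1229 5 973)))))))))))))))
(mv 1103 (cons (cons (mv 846 (cons (fin 910 4 846)
(mv 1037 (cons (fin 1036 0 1036)
(mv 976 (cons (fin 977 2 973)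
(mv 912 (cons (fin 848 5 847)
(fin 1167 5 911)))))))))
(mv 846 (cons (fin 910 4 846)
(mv 1037 (cons (fin 1036 0 1036)
(mv 976 (cons (fin 977 2 973)
(mv 848 (cons (fin 912 5 847)
(mv 1101 (cons (fin 1100 1 1036)
(mv 1102 (cons (fin 1041 1 1037)
(mv 1165 (cons (fin 1164 1 1100)
(fin 1229 6 973))))))))))))))))
(cons (mv 910 (cons (fin 846 4 846)
(mv 1167 (cons (fin 975 7 910)
(fin 1231 7 974)))))
(mv 1037 (cons (fin 1036 0 1036)
(mv 976 (cons (fin 977 2 973)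
(mv 912 (cons (fin 848 5 847)
(fin 1167 5 911))))))))))))
(cons (mv 1037 (cons (fin 1105 0 1037)
(mv 976 (cons (fin 977 2 973)
(mv 975 (cons (fin 1036 2 972)
(mv 1041 (cons (fin 1042 3 974)
(mv 1101 (cons (fin 1100 1 1036)
(fin 1102 1 1037)))))))))))
(cons (mv 1037 (cons (fin 1105 0 1037)
(mv 1036 (cons (fin 1103 0 1036)
(mv 975 (cons (fin 1035 2 971)
(fin 976 2 972)))))))
(mv 1037 (cons (fin 1105 0 1037)
(mv 1036 (cons (fin 1103 0 1036)
(mv 1100 (cons (fin 1099 1 1035)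
(fin 1101 1 1036)))))))))))
(mv 1039 (cons (cons (mv 1037 (cons (fin 1105 0 1037)
(mv 976 (cons (fin 977 2 973)
(mv 1036 (cons (fin 975 2 972)
(fin 1103 0 1036)))))))
(cons (mv 1041 (cons (cons (mv 975 (cons (fin 1042 3 974)
(mv 847 (cons (fin 911 4 847)
(mv 977 (cons (fin 978 2 974)
(mv 849 (cons (fin 913 5 848)
(mv 1102 (cons (fin 1101 1 1037)
(mv 1105 (cons (fin 1106 0 1038)
(mv 1166 (cons (fin 1230 6 974)
(mv 1165 (cons (fin 1103 1 1101)
(fin 1229 5 973)))))))))))))))))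
(cons (mv 977 (cons (fin 978 2 974)
(mv 913 (cons (fin 849 5 848)
(mv 1102 (cons (fin 1101 1 1037)
(mv 1105 (cons (fin 1106 0 1038)
(mv 914 (cons (fin 850 6 849)
(mv 975 (cons (fin 976 2 910)
(mv 911 (cons (fin 847 5 846)
(fin 1166 6 910)))))))))))))))
(mv 975 (cons (fin 1042 3 974)
(mv 847 (cons (fin 911 4 847)
(mv 977 (cons (fin 978 2 974)
(mv 849 (cons (fin 913 5 848)
(mv 1102 (cons (fin 1101 1 1037)
(mv 1166 (cons (fin 1230 6 974)
(mv 1165 (cons (fin 1229 5 973)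
(mv 1103 (cons (fin 1105 1 1101)
(mv 910 (cons (fin 1167 7 910)
(fin 846 4 846)))))))))))))))))))))
(cons (cons (mv 975 (cons (fin 1042 3 974)
(mv 847 (cons (fin 911 4 847)
(mv 977 (cons (fin 978 2 974)
(mv 913 (cons (fin 849 5 848)
(mv 914 (cons (fin 976 2 910)
(mv 1105 (cons (fin 1106 0 1038)
(fin 850 6 849)))))))))))))
(mv 975 (cons (fin 1042 3 974)
(mv 847 (cons (fin 911 4 847)
(mv 977 (cons (fin 978 2 974)
(mv 849 (cons (fin 913 5 848)
(mv 1102 (cons (fin 1101 1 1037)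
(mv 1166 (cons (fin 1230 6 974)
(mv 1165 (cons (fin 1229 5 973)
(mv 1167 (cons (fin 1231 4 974)
(mv 1103 (cons (fin 1164 2 1100)
(fin 910 7 910))))))))))))))))))))
(cons (mv 977 (cons (fin 978 2 974)
(mv 849 (cons (fin 913 5 848)
(mv 1102 (cons (fin 1101 1 1037)
(mv 1042 (cons (fin 1103 1 1038)
(mv 1106 (cons (fin 1105 0 1038)
(fin 1107 0 1039)))))))))))
(mv 975 (cons (fin 1042 3 974)
(mv 847 (cons (fin 911 4 847)
(mv 1102 (cons (fin 1101 1 1037)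
(mv 1105 (cons (fin 1106 0 1038)
(mv 1166 (cons (fin 1230 6 974)
(mv 1165 (cons (fin 1103 1 1101)
(fin 1229 5 973)))))))))))))))))
(mv 1103 (cons (cons (mv 846 (cons (fin 910 4 846)
(mv 1037 (cons (fin 1036 0 1036)
(mv 976 (cons (fin 977 2 973)
(mv 1101 (cons (fin 1100 1 1036)
(mv 1041 (cons (fin 1102 1 1037)
(mv 975 (cons (fin 1042 3 974)
(mv 847 (cons (fin 911 4 847)
(mv 1165 (cons (fin 1229 6 973)
(mv 1167 (cons (fin 1231 7 974)
(mv 1166 (cons (fin 1164 2 1100)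
(fin 1230 5 974)))))))))))))))))))))
(mv 846 (cons (fin 910 4 846)
(mv 1037 (cons (fin 1036 0 1036)
(mv 976 (cons (fin 977 2 973)
(mv 1101 (cons (fin 1100 1 1036)
(mv 1102 (cons (fin 1041 1 1037)
(mv 1165 (cons (fin 1164 1 1100)
(fin 1229 6 973))))))))))))))
(cons (mv 910 (cons (fin 846 4 846)
(mv 1167 (cons (fin 975 7 910)
(fin 1231 7 974)))))
(mv 1037 (cons (fin 1036 0 1036)
(mv 976 (cons (fin 977 2 973)
(mv 1101 (cons (fin 1100 1 1036)
(mv 1041 (cons (fin 1102 1 1037)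
(mv 975 (cons (fin 1042 3 974)
(mv 847 (cons (fin 911 4 847)
(mv 1165 (cons (fin 1229 6 973)
(mv 1167 (cons (fin 1231 7 974)
(mv 1166 (cons (fin 1164 2 1100)
(fin 1230 5 974))))))))))))))))))))))))
(cons (cons (mv 1037 (cons (fin 1105 0 1037)
(mv 976 (cons (fin 977 2 973)
(mv 975 (cons (fin 1036 2 972)
(mv 847 (cons (fin 911 4 847)
(mv 1041 (cons (fin 1042 3 974)
(mv 1101 (cons (fin 1100 1 1036)
(fin 1102 1 1037)))))))))))))
(mv 1037 (cons (fin 1105 0 1037)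
(mv 976 (cons (fin 977 2 973)
(mv 1036 (cons (fin 1103 0 1036)
(mv 1100 (cons (fin 1099 1 1035)
(fin 1101 1 1036))))))))))
(cons (mv 1037 (cons (fin 1105 0 1037)
(mv 1036 (cons (fin 1103 0 1036)
(mv 975 (cons (fin 1035 2 971)
(fin 976 2 972)))))))
(mv 1037 (cons (fin 1105 0 1037)
(mv 1036 (cons (fin 1103 0 1036)
(mv 1100 (cons (fin 1099 1 1035)
(fin 1101 1 1036))))))))))))
(cons (mv 1039 (cons (cons (cons (mv 1037 (cons (fin 1105 0 1037)
(mv 976 (cons (fin 977 2 973)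
(mv 1101 (cons (fin 1100 1 1036)
(mv 846 (cons (fin 910 5 845)
(mv 1102 (cons (fin 1041 1 1037)
(mv 1165 (cons (fin 1229 6 973)
(mv 1103 (cons (fin 1164 1 1100)
(mv 912 (cons (fin 848 5 847)
(fin 1167 5 911)))))))))))))))))
(mv 1041 (cons (cons (mv 975 (cons (fin 1042 3 974)
(mv 847 (cons (fin 911 4 847)
(mv 977 (cons (fin 978 2 974)
(mv 849 (cons (fin 913 5 848)
(mv 976 (cons (fin 1037 1 973)
(mv 909 (cons (fin 910 3 909)
(mv 1102 (cons (fin 1101 1 1037)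
(mv 1166 (cons (fin 1230 6 974)
(mv 1165 (cons (fin 1229 5 973)
(mv 1167 (cons (fin 1231 4 974)
(mv 1103 (cons (fin 1164 2 1100)
(fin 912 5 911)))))))))))))))))))))))
(mv 977 (cons (fin 978 2 974)
(mv 849 (cons (fin 913 5 848)
(mv 1037 (cons (fin 976 2 973)
(mv 1101 (cons (fin 1100 1 1036)
(fin 1102 1 1037))))))))))
(cons (mv 975 (cons (fin 1042 3 974)
(mv 847 (cons (fin 911 4 847)
(mv 977 (cons (fin 978 2 974)
(mv 849 (cons (fin 913 5 848)
(mv 976 (cons (fin 1037 1 973)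
(mv 910 (cons (fin 909 3 909)
(mv 846 (cons (fin 783 6 782)
(fin 782 4 782)))))))))))))))
(mv 975 (cons (fin 1042 3 974)
(mv 847 (cons (fin 911 4 847)
(mv 1102 (cons (fin 1101 1 1037)
(mv 1166 (cons (fin 1230 6 974)
(mv 1165 (cons (fin 1229 5 973)
(mv 1167 (cons (fin 1231 4 974)
(mv 1103 (cons (fin 1164 2 1100)
(fin 910 7 910)))))))))))))))))))
(cons (mv 1041 (cons (cons (mv 975 (cons (fin 1042 3 974)
(mv 847 (cons (fin 911 4 847)
(mv 977 (cons (fin 978 2 974)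
(mv 849 (cons (fin 913 5 848)
(mv 1102 (cons (fin 1101 1 1037)
(mv 1105 (cons (fin 1106 0 1038)
(mv 1166 (cons (fin 1230 6 974)
(mv 1165 (cons (fin 1103 1 1101)
(fin 1229 5 973)))))))))))))))))
(cons (mv 977 (cons (fin 978 2 974)
(mv 913 (cons (fin 849 5 848)
(mv 1101 (cons (fin 1102 1 1037)
(mv 1105 (cons (fin 1106 0 1038)
(mv 850 (cons (fin 914 6 849)
(mv 912 (cons (fin 848 7 848)
(mv 976 (cons (fin 1169 7 912)
(mv 911 (cons (fin 847 7 847)
(mv 910 (cons (fin 909 0 909)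
(mv 846 (cons (fin 845 3 845)
(fin 1103 4 846)))))))))))))))))))))
(mv 975 (cons (fin 1042 3 974)
(mv 847 (cons (fin 911 4 847)
(mv 977 (cons (fin 978 2 974)
(mv 849 (cons (fin 913 5 848)
(mv 1102 (cons (fin 1101 1 1037)
(mv 1166 (cons (fin 1230 6 974)
(mv 1165 (cons (fin 1229 5 973)
(mv 1103 (cons (fin 1105 1 1101)
(mv 910 (cons (fin 1167 7 910)
(fin 846 4 846)))))))))))))))))))))
(cons (cons (mv 975 (cons (fin 1042 3 974)
(mv 847 (cons (fin 911 4 847)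
(mv 977 (cons (fin 978 2 974)
(mv 913 (cons (fin 849 5 848)
(mv 914 (cons (fin 976 2 910)
(mv 1105 (cons (fin 1106 0 1038)
(fin 850 6 849)))))))))))))
(mv 975 (cons (fin 1042 3 974)
(mv 847 (cons (fin 911 4 847)
(mv 977 (cons (fin 978 2 974)
(mv 849 (cons (fin 913 5 848)
(mv 1102 (cons (fin 1101 1 1037)
(mv 1166 (cons (fin 1230 6 974)
(mv 1165 (cons (fin 1229 5 973)
(mv 1167 (cons (fin 1231 4 974)
(mv 1103 (cons (fin 1164 2 1100)
(fin 910 7 910))))))))))))))))))))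
(cons (mv 975 (cons (fin 1042 3 974)
(mv 847 (cons (fin 911 4 847)
(mv 1102 (cons (fin 1101 1 1037)
(mv 1105 (cons (fin 1106 0 1038)
(mv 1166 (cons (fin 1230 6 974)
(mv 1165 (cons (fin 1103 1 1101)
(fin 1229 5 973)))))))))))))
(mv 975 (cons (fin 1042 3 974)
(mv 977 (cons (fin 978 2 974)
(mv 849 (cons (fin 913 5 848)
(mv 1102 (cons (fin 1101 1 1037)
(mv 1105 (cons (fin 1106 0 1038)
(mv 1166 (cons (fin 1230 6 974)
(mv 1165 (cons (fin 1103 1 1101)
(fin 1229 5 973)))))))))))))))))))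
(mv 1037 (cons (fin 1105 0 1037)
(mv 976 (cons (fin 977 2 973)
(mv 1101 (cons (fin 1100 1 1036)
(mv 910 (cons (fin 846 5 845)
(mv 1165 (cons (fin 1102 5 909)
(fin 1229 6 973)))))))))))))
(cons (cons (mv 1037 (cons (fin 1105 0 1037)
(mv 977 (cons (fin 976 2 973)
(mv 1041 (cons (fin 978 2 974)
(mv 913 (cons (fin 849 5 848)
(mv 975 (cons (fin 1042 3 974)
(mv 911 (cons (fin 847 4 847)
(mv 912 (cons (fin 914 1 910)
(mv 1102 (cons (fin 1166 6 910)
(mv 1103 (cons (fin 848 6 847)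
(mv 910 (cons (fin 846 7 846)
(fin 1167 7 910)))))))))))))))))))))
(mv 1037 (cons (fin 1105 0 1037)
(mv 1101 (cons (fin 1100 1 1036)
(mv 910 (cons (fin 846 5 845)
(mv 1102 (cons (fin 1041 1 1037)
(fin 1165 5 909))))))))))
(cons (mv 1037 (cons (fin 1105 0 1037)
(mv 977 (cons (fin 976 2 973)
(mv 1041 (cons (fin 978 2 974)
(mv 913 (cons (fin 849 5 848)
(mv 975 (cons (fin 1042 3 974)
(mv 911 (cons (fin 847 4 847)
(mv 912 (cons (fin 914 1 910)
(mv 1100 (cons (fin 1101 1 1036)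
(mv 1103 (cons (fin 848 6 847)
(mv 910 (cons (fin 846 7 846)
(fin 1167 7 910)))))))))))))))))))))
(mv 1037 (cons (fin 1105 0 1037)
(mv 976 (cons (fin 977 2 973)
(mv 1101 (cons (fin 1100 1 1036)
(mv 1102 (cons (fin 1041 1 1037)
(mv 1165 (cons (fin 1229 6 973)
(mv 1103 (cons (fin 1164 1 1100)
(mv 912 (cons (fin 848 5 847)
(fin 1167 5 911)))))))))))))))))))
(mv 1039 (cons (cons (mv 1037 (cons (fin 1105 0 1037)
(mv 976 (cons (fin 977 2 973)
(mv 1036 (cons (fin 975 2 972)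
(fin 1103 0 1036)))))))
(cons (mv 1103 (cons (cons (mv 846 (cons (fin 910 4 846)
(mv 1037 (cons (fin 1036 0 1036)
(mv 976 (cons (fin 977 2 973)
(mv 912 (cons (fin 848 5 847)
(fin 1167 5 911)))))))))
(mv 846 (cons (fin 910 4 846)
(mv 1037 (cons (fin 1036 0 1036)
(mv 976 (cons (fin 977 2 973)
(mv 912 (cons (fin 848 5 847)
(mv 911 (cons (fin 847 7 847)
(mv 913 (cons (fin 849 6 848)
(mv 914 (cons (fin 975 1 910)
(mv 851 (cons (fin 850 2 847)
(mv 915 (cons (fin 852 2 848)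
(mv 979 (cons (fin 978 0 911)
(fin 980 0 912))))))))))))))))))))))
(cons (mv 1037 (cons (fin 1036 0 1036)
(mv 976 (cons (fin 977 2 973)
(mv 912 (cons (fin 848 5 847)
(fin 1167 5 911)))))))
(mv 910 (cons (fin 846 4 846)
(mv 1167 (cons (fin 975 7 910)
(fin 1231 7 974))))))))
(mv 1041 (cons (cons (mv 975 (cons (fin 1042 3 974)
(mv 847 (cons (fin 911 4 847)
(mv 977 (cons (fin 978 2 974)
(mv 849 (cons (fin 913 5 848)
(mv 1102 (cons (fin 1101 1 1037)
(mv 1105 (cons (fin 1106 0 1038)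
(mv 1166 (cons (fin 1230 6 974)
(mv 1165 (cons (fin 1103 1 1101)
(fin 1229 5 973)))))))))))))))))
(cons (mv 977 (cons (fin 978 2 974)
(mv 913 (cons (fin 849 5 848)
(mv 1101 (cons (fin 1102 1 1037)
(mv 1105 (cons (fin 1106 0 1038)
(mv 850 (cons (fin 914 6 849)
(mv 912 (cons (fin 848 7 848)
(mv 976 (cons (fin 1169 7 912)
(mv 911 (cons (fin 847 7 847)
(mv 910 (cons (fin 909 0 909)
(mv 846 (cons (fin 845 3 845)
(fin 1103 4 846)))))))))))))))))))))
(mv 975 (cons (fin 1042 3 974)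
(mv 847 (cons (fin 911 4 847)
(mv 977 (cons (fin 978 2 974)
(mv 849 (cons (fin 913 5 848)
(mv 1102 (cons (fin 1101 1 1037)
(mv 1166 (cons (fin 1230 6 974)
(mv 1165 (cons (fin 1229 5 973)
(mv 1103 (cons (fin 1105 1 1101)
(mv 910 (cons (fin 1167 7 910)
(fin 846 4 846)))))))))))))))))))))
(cons (cons (mv 975 (cons (fin 1042 3 974)
(mv 847 (cons (fin 911 4 847)
(mv 977 (cons (fin 978 2 974)
(mv 913 (cons (fin 849 5 848)
(mv 914 (cons (fin 976 2 910)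
(mv 1105 (cons (fin 1106 0 1038)
(fin 850 6 849)))))))))))))
(mv 975 (cons (fin 1042 3 974)
(mv 847 (cons (fin 911 4 847)
(mv 977 (cons (fin 978 2 974)
(mv 849 (cons (fin 913 5 848)
(mv 1102 (cons (fin 1101 1 1037)
(mv 1166 (cons (fin 1230 6 974)
(mv 1165 (cons (fin 1229 5 973)
(mv 1167 (cons (fin 1231 4 974)
(mv 1103 (cons (fin 1164 2 1100)
(fin 910 7 910))))))))))))))))))))
(cons (mv 975 (cons (fin 1042 3 974)
(mv 847 (cons (fin 911 4 847)
(mv 1102 (cons (fin 1101 1 1037)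
(mv 1105 (cons (fin 1106 0 1038)
(mv 1166 (cons (fin 1230 6 974)
(mv 1165 (cons (fin 1103 1 1101)
(fin 1229 5 973)))))))))))))
(mv 975 (cons (fin 1042 3 974)
(mv 977 (cons (fin 978 2 974)
(mv 849 (cons (fin 913 5 848)
(mv 1102 (cons (fin 1101 1 1037)
(mv 1105 (cons (fin 1106 0 1038)
(mv 1166 (cons (fin 1230 6 974)
(mv 1165 (cons (fin 1103 1 1101)
(fin 1229 5 973)))))))))))))))))))))
(cons (cons (mv 1037 (cons (fin 1105 0 1037)
(mv 976 (cons (fin 977 2 973)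
(mv 975 (cons (fin 1036 2 972)
(mv 911 (cons (fin 847 4 847)
(mv 1041 (cons (fin 1042 3 974)
(mv 1102 (cons (fin 1101 1 1037)
(fin 1166 6 910)))))))))))))
(mv 1037 (cons (fin 1105 0 1037)
(mv 976 (cons (fin 977 2 973)
(mv 1103 (cons (fin 1036 0 1036)
(mv 912 (cons (fin 848 5 847)
(fin 1167 5 911))))))))))
(cons (mv 1037 (cons (fin 1105 0 1037)
(mv 1036 (cons (fin 1103 0 1036)
(mv 975 (cons (fin 1035 2 971)
(fin 976 2 972)))))))
(mv 1037 (cons (fin 1105 0 1037)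
(mv 1036 (cons (fin 1103 0 1036)
(mv 971 (cons (fin 972 3 971)
(mv 1035 (cons (fin 970 3 970)
(fin 975 2 971))))))))))))))))))
(mv 976 (cons (cons (cons (mv 1168 (cons (cons (cons (mv 911 (cons (fin 975 7 911)
(mv 847 (cons (fin 912 7 847)
(mv 913 (cons (fin 977 6 912)
(mv 1231 (cons (fin 1167 5 975)
(mv 1232 (cons (fin 1295 5 1039)
(mv 1233 (cons (fin 1169 4 976)
(fin 1297 4 1040)))))))))))))
(mv 911 (cons (fin 975 7 911)
(mv 847 (cons (fin 912 7 847)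
(mv 1231 (cons (fin 1167 5 975)
(mv 1232 (cons (fin 1295 5 1039)
(mv 1233 (cons (fin 1169 4 976)
(fin 1297 4 1040))))))))))))
(cons (mv 911 (cons (fin 975 7 911)
(mv 847 (cons (fin 912 7 847)
(mv 977 (cons (fin 913 6 912)
(mv 1167 (cons (fin 1231 5 975)
(mv 1232 (cons (fin 1041 6 976)
(mv 1297 (cons (fin 1233 4 1040)
(mv 1296 (cons (fin 1361 4 1104)
(mv 1359 (cons (fin 1295 5 1103)
(mv 1360 (cons (fin 1103 7 1103)
(fin 1423 5 1167)))))))))))))))))))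
(mv 911 (cons (fin 975 7 911)
(mv 847 (cons (fin 912 7 847)
(mv 977 (cons (fin 913 6 912)
(mv 1169 (cons (fin 1233 4 976)
(mv 1232 (cons (fin 1041 6 976)
(mv 1295 (cons (fin 1231 5 1039)
(mv 1296 (cons (fin 1359 5 1103)
(mv 1360 (cons (fin 1105 6 1104)
(mv 1361 (cons (fin 1297 4 1104)
(fin 1425 4 1168)))))))))))))))))))))
(cons (cons (mv 911 (cons (fin 975 7 911)
(mv 847 (cons (fin 912 7 847)
(mv 977 (cons (fin 913 6 912)
(mv 1231 (cons (fin 1167 5 975)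
(mv 1232 (cons (fin 1295 5 1039)
(fin 1041 6 976)))))))))))
(mv 911 (cons (fin 975 7 911)
(mv 847 (cons (fin 912 7 847)
(mv 977 (cons (fin 913 6 912)
(mv 1232 (cons (fin 1041 6 976)
(mv 1233 (cons (fin 1169 4 976)
(fin 1297 4 1040))))))))))))
(cons (mv 913 (cons (fin 977 6 912)
(mv 849 (cons (fin 912 6 848)
(mv 1231 (cons (fin 1167 5 975)
(mv 1232 (cons (fin 1295 5 1039)
(mv 1233 (cons (fin 1169 4 976)
(fin 1297 4 1040)))))))))))
(cons (mv 911 (cons (fin 975 7 911)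
(mv 913 (cons (fin 977 6 912)
(mv 1231 (cons (fin 1167 5 975)
(mv 1232 (cons (fin 1295 5 1039)
(mv 1233 (cons (fin 1169 4 976)
(fin 1297 4 1040)))))))))))
(mv 911 (cons (fin 975 7 911)
(mv 912 (cons (fin 847 7 847)
(mv 913 (cons (fin 849 6 848)
(fin 977 6 912))))))))))))
(mv 912 (cons (cons (mv 847 (cons (fin 911 7 847)
(mv 848 (cons (fin 783 7 783)
(mv 849 (cons (fin 785 6 784)
(fin 913 6 848)))))))
(mv 847 (cons (fin 911 7 847)
(mv 848 (cons (fin 783 7 783)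
(mv 1105 (cons (fin 1041 4 848)
(fin 1169 4 912))))))))
(cons (mv 849 (cons (fin 913 6 848)
(mv 848 (cons (fin 785 6 784)
(mv 1105 (cons (fin 1041 4 848)
(fin 1169 4 912)))))))
(mv 911 (cons (fin 847 7 847)
(mv 913 (cons (fin 849 6 848)
(mv 914 (cons (fin 975 1 910)
(mv 850 (cons (fin 851 2 847)
(mv 978 (cons (fin 979 0 911)
(mv 910 (cons (fin 977 0 910)
(mv 845 (cons (fin 846 3 845)
(mv 909 (cons (fin 844 3 844)
(mv 717 (cons (fin 781 4 717)
(mv 1102 (cons (fin 1038 7 845)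
(mv 1103 (cons (fin 1167 5 911)
(mv 1041 (cons (fin 1101 2 1037)
(mv 1105 (cons (fin 1042 2 1038)
(fin 1169 4 912)))))))))))))))))))))))))))))))
(cons (mv 1168 (cons (cons (mv 911 (cons (fin 975 7 911)
(mv 913 (cons (fin 977 6 912)
(mv 1231 (cons (fin 1167 5 975)
(mv 1232 (cons (fin 1295 5 1039)
(mv 1233 (cons (fin 1169 4 976)
(fin 1297 4 1040)))))))))))
(cons (mv 911 (cons (fin 975 7 911)
(mv 1231 (cons (fin 1167 5 975)
(mv 1232 (cons (fin 1295 5 1039)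
(mv 1233 (cons (fin 1169 4 976)
(fin 1297 4 1040)))))))))
(mv 911 (cons (fin 975 7 911)
(mv 977 (cons (fin 913 6 912)
(mv 1231 (cons (fin 1167 5 975)
(mv 1232 (cons (fin 1295 5 1039)
(fin 1041 6 976)))))))))))
(cons (mv 911 (cons (fin 975 7 911)
(mv 977 (cons (fin 913 6 912)
(mv 1232 (cons (fin 1041 6 976)
(mv 1233 (cons (fin 1169 4 976)
(fin 1297 4 1040)))))))))
(cons (mv 913 (cons (fin 977 6 912)
(mv 1231 (cons (fin 1167 5 975)
(mv 1232 (cons (fin 1295 5 1039)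
(mv 1233 (cons (fin 1169 4 976)
(fin 1297 4 1040)))))))))
(mv 975 (cons (fin 911 7 911)
(mv 977 (cons (fin 913 6 912)
(mv 910 (cons (fin 909 3 909)
(mv 1038 (cons (fin 1037 1 973)
(mv 1041 (cons (fin 1042 0 974)
(mv 1167 (cons (fin 1231 5 975)
(mv 1102 (cons (fin 1103 4 910)
(mv 1101 (cons (fin 1165 5 909)
(mv 1169 (cons (fin 1166 3 1101)
(fin 1233 4 976)))))))))))))))))))))))
(mv 1168 (cons (cons (mv 911 (cons (fin 975 7 911)
(mv 847 (cons (fin 912 7 847)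
(mv 1167 (cons (fin 1231 5 975)
(mv 1233 (cons (fin 1169 4 976)
(mv 1232 (cons (fin 1297 4 1040)
(mv 1041 (cons (fin 977 6 976)
(mv 1105 (cons (fin 1296 6 1040)
(mv 1106 (cons (fin 1107 1 1103)
(mv 1166 (cons (fin 1103 1 1102)
(fin 1165 2 1101)))))))))))))))))))
(cons (mv 911 (cons (fin 975 7 911)
(mv 847 (cons (fin 912 7 847)
(mv 1231 (cons (fin 1167 5 975)
(mv 1232 (cons (fin 1295 5 1039)
(mv 1041 (cons (fin 977 6 976)
(mv 1296 (cons (fin 1105 6 1040)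
(mv 1297 (cons (fin 1233 4 1040)
(fin 1361 4 1104)))))))))))))))
(mv 911 (cons (fin 975 7 911)
(mv 847 (cons (fin 912 7 847)
(mv 1233 (cons (fin 1169 4 976)
(mv 1232 (cons (fin 1297 4 1040)
(mv 1041 (cons (fin 977 6 976)
(mv 1295 (cons (fin 1231 5 1039)
(mv 1296 (cons (fin 1359 5 1103)
(fin 1105 6 1040)))))))))))))))))
(cons (cons (mv 911 (cons (fin 975 7 911)
(mv 912 (cons (fin 847 7 847)
(mv 1167 (cons (fin 1103 5 911)
(fin 1231 5 975)))))))
(mv 911 (cons (fin 975 7 911)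
(mv 912 (cons (fin 847 7 847)
(mv 1169 (cons (fin 1105 4 912)
(fin 1233 4 976))))))))
(cons (mv 1167 (cons (fin 1231 5 975)
(mv 912 (cons (fin 1103 5 911)
(mv 1169 (cons (fin 1105 4 912)
(fin 1233 4 976)))))))
(mv 911 (cons (fin 975 7 911)
(mv 1167 (cons (fin 1231 5 975)
(mv 1233 (cons (fin 1169 4 976)
(mv 1232 (cons (fin 1297 4 1040)
(mv 1041 (cons (fin 977 6 976)
(mv 1105 (cons (fin 1296 6 1040)
(mv 1106 (cons (fin 1107 1 1103)
(mv 1166 (cons (fin 1103 1 1102)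
(fin 1165 2 1101)))))))))))))))))))))))
(cons (cons (mv 912 (cons (cons (mv 847 (cons (fin 911 7 847)
(mv 783 (cons (fin 848 7 783)
(mv 913 (cons (fin 849 6 848)
(mv 977 (cons (fin 1168 6 912)
(mv 975 (cons (fin 914 2 910)
(mv 910 (cons (fin 909 3 909)
(mv 1038 (cons (fin 1037 1 973)
(fin 846 6 782)))))))))))))))
(cons (mv 847 (cons (fin 911 7 847)
(mv 848 (cons (fin 783 7 783)
(mv 785 (cons (fin 849 6 784)
(mv 784 (cons (fin 721 6 720)
(mv 1041 (cons (fin 977 4 784)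
(fin 1105 4 848)))))))))))
(mv 849 (cons (fin 913 6 848)
(mv 848 (cons (fin 785 6 784)
(mv 783 (cons (fin 847 7 783)
(mv 784 (cons (fin 719 7 719)
(mv 1041 (cons (fin 977 4 784)
(fin 1105 4 848)))))))))))))
(cons (cons (mv 847 (cons (fin 911 7 847)
(mv 783 (cons (fin 848 7 783)
(mv 1167 (cons (fin 1103 5 911)
(mv 1168 (cons (fin 1231 5 975)
(mv 977 (cons (fin 913 6 912)
(mv 1041 (cons (fin 1232 6 976)
(mv 975 (cons (fin 1042 0 974)
(mv 910 (cons (fin 909 3 909)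
(mv 1038 (cons (fin 1037 1 973)
(fin 846 6 782)))))))))))))))))))
(mv 849 (cons (fin 913 6 848)
(mv 848 (cons (fin 785 6 784)
(mv 1041 (cons (fin 1105 4 848)
(mv 977 (cons (fin 784 4 784)
(mv 975 (cons (fin 1042 0 974)
(mv 1168 (cons (fin 911 7 911)
(fin 1232 6 976))))))))))))))
(cons (mv 847 (cons (fin 911 7 847)
(mv 913 (cons (fin 849 6 848)
(mv 1167 (cons (fin 1103 5 911)
(mv 1168 (cons (fin 1231 5 975)
(fin 977 6 912)))))))))
(mv 847 (cons (fin 911 7 847)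
(mv 848 (cons (fin 783 7 783)
(mv 849 (cons (fin 785 6 784)
(fin 913 6 848)))))))))))
(mv 1168 (cons (cons (mv 913 (cons (fin 977 6 912)
(mv 849 (cons (fin 912 6 848)
(mv 1231 (cons (fin 1167 5 975)
(mv 1232 (cons (fin 1295 5 1039)
(mv 1233 (cons (fin 1169 4 976)
(fin 1297 4 1040)))))))))))
(mv 1167 (cons (fin 1231 5 975)
(mv 912 (cons (fin 1103 5 911)
(mv 1169 (cons (fin 1105 4 912)
(fin 1233 4 976))))))))
(cons (mv 913 (cons (fin 977 6 912)
(mv 912 (cons (fin 849 6 848)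
(mv 1167 (cons (fin 1103 5 911)
(fin 1231 5 975)))))))
(cons (mv 913 (cons (fin 977 6 912)
(mv 912 (cons (fin 849 6 848)
(mv 1169 (cons (fin 1105 4 912)
(fin 1233 4 976)))))))
(mv 913 (cons (fin 977 6 912)
(mv 1231 (cons (fin 1167 5 975)
(mv 1232 (cons (fin 1295 5 1039)
(mv 1233 (cons (fin 1169 4 976)
(fin 1297 4 1040))))))))))))))
(cons (mv 912 (cons (cons (mv 847 (cons (fin 911 7 847)
(mv 783 (cons (fin 848 7 783)
(mv 913 (cons (fin 849 6 848)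
(mv 977 (cons (fin 1168 6 912)
(mv 914 (cons (fin 975 2 910)
(mv 915 (cons (fin 916 1 912)
(mv 851 (cons (fin 852 2 848)
(mv 979 (cons (fin 980 0 912)
(mv 1105 (cons (fin 1169 4 912)
(mv 850 (cons (fin 1041 6 849)
(mv 786 (cons (fin 722 5 721)
(mv 785 (cons (fin 784 0 783)
(mv 978 (cons (fin 721 7 721)
(mv 787 (cons (fin 723 5 722)
(fin 1042 5 786)))))))))))))))))))))))))))))
(mv 847 (cons (fin 911 7 847)
(mv 848 (cons (fin 783 7 783)
(mv 1105 (cons (fin 1041 4 848)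
(fin 1169 4 912))))))))
(cons (mv 849 (cons (fin 913 6 848)
(mv 848 (cons (fin 785 6 784)
(mv 1105 (cons (fin 1041 4 848)
(fin 1169 4 912)))))))
(cons (mv 847 (cons (fin 911 7 847)
(mv 783 (cons (fin 848 7 783)
(mv 913 (cons (fin 849 6 848)
(mv 977 (cons (fin 1168 6 912)
(mv 975 (cons (fin 914 2 910)
(mv 910 (cons (fin 909 3 909)
(mv 1038 (cons (fin 1037 1 973)
(fin 846 6 782)))))))))))))))
(mv 847 (cons (fin 911 7 847)
(mv 913 (cons (fin 849 6 848)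
(mv 1168 (cons (fin 977 6 912)
(mv 1169 (cons (fin 1105 4 912)
(fin 1233 4 976)))))))))))))
(mv 912 (cons (cons (mv 847 (cons (fin 911 7 847)
(mv 783 (cons (fin 848 7 783)
(mv 849 (cons (fin 913 6 848)
(mv 1167 (cons (fin 1103 5 911)
(mv 1168 (cons (fin 1231 5 975)
(mv 1169 (cons (fin 1105 4 912)
(fin 1233 4 976)))))))))))))
(mv 849 (cons (fin 913 6 848)
(mv 785 (cons (fin 848 6 784)
(mv 1167 (cons (fin 1103 5 911)
(mv 1168 (cons (fin 1231 5 975)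
(mv 1169 (cons (fin 1105 4 912)
(fin 1233 4 976))))))))))))
(cons (mv 847 (cons (fin 911 7 847)
(mv 848 (cons (fin 783 7 783)
(mv 849 (cons (fin 785 6 784)
(fin 913 6 848)))))))
(cons (mv 847 (cons (fin 911 7 847)
(mv 783 (cons (fin 848 7 783)
(mv 1167 (cons (fin 1103 5 911)
(mv 1168 (cons (fin 1231 5 975)
(mv 1169 (cons (fin 1105 4 912)
(fin 1233 4 976)))))))))))
(mv 847 (cons (fin 911 7 847)
(mv 849 (cons (fin 913 6 848)
(mv 1167 (cons (fin 1103 5 911)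
(mv 1168 (cons (fin 1231 5 975)
(mv 1169 (cons (fin 1105 4 912)
(fin 1233 4 976)))))))))))))))))))))
(cons (cons (mv 1168 (cons (cons (cons (mv 976 (cons (cons (cons (mv 911 (cons (fin 975 7 911)
(mv 847 (cons (fin 912 7 847)
(mv 913 (cons (fin 977 6 912)
(mv 1231 (cons (fin 1167 5 975)
(mv 1232 (cons (fin 1295 5 1039)
(mv 1233 (cons (fin 1169 4 976)
(fin 1297 4 1040)))))))))))))
(mv 913 (cons (fin 977 6 912)
(mv 849 (cons (fin 912 6 848)
(mv 1231 (cons (fin 1167 5 975)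
(mv 1232 (cons (fin 1295 5 1039)
(mv 1233 (cons (fin 1169 4 976)
(fin 1297 4 1040))))))))))))
(cons (mv 911 (cons (fin 975 7 911)
(mv 847 (cons (fin 912 7 847)
(mv 1231 (cons (fin 1167 5 975)
(mv 1232 (cons (fin 1295 5 1039)
(mv 1233 (cons (fin 1169 4 976)
(fin 1297 4 1040)))))))))))
(mv 911 (cons (fin 975 7 911)
(mv 847 (cons (fin 912 7 847)
(mv 977 (cons (fin 913 6 912)
(mv 1169 (cons (fin 1233 4 976)
(mv 1232 (cons (fin 1041 6 976)
(mv 1295 (cons (fin 1231 5 1039)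
(mv 1296 (cons (fin 1359 5 1103)
(mv 1039 (cons (fin 1103 7 1039)
(mv 978 (cons (fin 979 1 975)
(mv 1038 (cons (fin 1037 2 973)
(mv 910 (cons (fin 1102 6 846)
(mv 783 (cons (fin 719 5 718)
(fin 846 6 782)))))))))))))))))))))))))))
(cons (cons (mv 911 (cons (fin 975 7 911)
(mv 847 (cons (fin 912 7 847)
(mv 977 (cons (fin 913 6 912)
(mv 1232 (cons (fin 1041 6 976)
(mv 1233 (cons (fin 1169 4 976)
(fin 1297 4 1040)))))))))))
(mv 911 (cons (fin 975 7 911)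
(mv 847 (cons (fin 912 7 847)
(mv 977 (cons (fin 913 6 912)
(mv 1231 (cons (fin 1167 5 975)
(mv 1232 (cons (fin 1295 5 1039)
(fin 1041 6 976))))))))))))
(cons (mv 911 (cons (fin 975 7 911)
(mv 912 (cons (fin 847 7 847)
(mv 913 (cons (fin 849 6 848)
(fin 977 6 912)))))))
(mv 911 (cons (fin 975 7 911)
(mv 913 (cons (fin 977 6 912)
(mv 1231 (cons (fin 1167 5 975)
(mv 1232 (cons (fin 1295 5 1039)
(mv 1233 (cons (fin 1169 4 976)
(fin 1297 4 1040)))))))))))))))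
(mv 1232 (cons (cons (mv 975 (cons (fin 1039 7 975)
(mv 977 (cons (fin 1041 6 976)
(mv 1295 (cons (fin 1231 5 1039)
(mv 1296 (cons (fin 1359 5 1103)
(mv 1297 (cons (fin 1233 4 1040)
(fin 1361 4 1104)))))))))))
(cons (mv 977 (cons (fin 1041 6 976)
(mv 1295 (cons (fin 1231 5 1039)
(mv 1296 (cons (fin 1359 5 1103)
(mv 1297 (cons (fin 1233 4 1040)
(fin 1361 4 1104)))))))))
(mv 977 (cons (fin 1041 6 976)
(mv 1039 (cons (fin 975 7 975)
(mv 1296 (cons (fin 1103 7 1039)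
(mv 1297 (cons (fin 1233 4 1040)
(fin 1361 4 1104)))))))))))
(cons (mv 977 (cons (fin 1041 6 976)
(mv 1039 (cons (fin 975 7 975)
(mv 1103 (cons (fin 1296 7 1039)
(mv 1231 (cons (fin 1295 5 1039)
(mv 1038 (cons (fin 1167 7 974)
(mv 846 (cons (fin 910 4 846)
(mv 1037 (cons (fin 1036 0 1036)
(mv 1101 (cons (fin 1100 1 1036)
(mv 1102 (cons (fin 1169 0 1101)
(mv 1165 (cons (fin 1164 1 1100)
(fin 1229 6 973)))))))))))))))))))))
(cons (mv 975 (cons (fin 1039 7 975)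
(mv 1295 (cons (fin 1231 5 1039)
(mv 1296 (cons (fin 1359 5 1103)
(mv 1297 (cons (fin 1233 4 1040)
(fin 1361 4 1104)))))))))
(mv 975 (cons (fin 1039 7 975)
(mv 977 (cons (fin 1041 6 976)
(mv 1231 (cons (fin 1295 5 1039)
(mv 1233 (cons (fin 1297 4 1040)
(mv 1230 (cons (mv 1169 (cons (fin 1229 2 1165)
(fin 1170 2 1166)))
(cons (mv 1165 (cons (fin 1166 3 1165)
(mv 1229 (cons (fin 1164 3 1164)
(mv 1293 (cons (fin 1292 1 1228)
(fin 1294 1 1229)))))))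
(mv 1165 (cons (fin 1166 3 1165)
(mv 1170 (cons (fin 1169 2 1166)
(mv 1234 (cons (fin 1171 2 1167)
(mv 1235 (cons (fin 1167 3 1167)
(mv 1299 (cons (fin 1298 0 1231)
(fin 1300 0 1232)))))))))))))))))))))))))))
(cons (mv 976 (cons (cons (mv 911 (cons (fin 975 7 911)
(mv 912 (cons (fin 847 7 847)
(mv 913 (cons (fin 849 6 848)
(fin 977 6 912)))))))
(mv 913 (cons (fin 977 6 912)
(mv 912 (cons (fin 849 6 848)
(mv 1167 (cons (fin 1103 5 911)
(fin 1231 5 975))))))))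
(cons (mv 911 (cons (fin 975 7 911)
(mv 912 (cons (fin 847 7 847)
(mv 1167 (cons (fin 1103 5 911)
(fin 1231 5 975)))))))
(mv 975 (cons (fin 911 7 911)
(mv 977 (cons (fin 913 6 912)
(mv 909 (cons (fin 910 3 909)
(mv 1038 (cons (fin 1037 1 973)
(mv 978 (cons (fin 1039 1 974)
(mv 915 (cons (fin 914 2 911)
(mv 979 (cons (fin 916 2 912)
(mv 1041 (cons (fin 980 1 976)
(fin 1042 0 974))))))))))))))))))))
(mv 1232 (cons (cons (mv 977 (cons (fin 1041 6 976)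
(mv 913 (cons (fin 976 6 912)
(mv 1231 (cons (fin 1295 5 1039)
(mv 1297 (cons (fin 1233 4 1040)
(mv 1296 (cons (fin 1361 4 1104)
(mv 1103 (cons (fin 1039 7 1039)
(mv 1167 (cons (fin 1360 7 1103)
(mv 1230 (cons (fin 1229 0 1229)
(mv 1169 (cons (fin 1170 1 1166)
(mv 1102 (cons (fin 1101 0 1101)
(mv 1038 (cons (fin 910 4 910)
(fin 1166 4 974)))))))))))))))))))))))
(cons (mv 977 (cons (fin 1041 6 976)
(mv 913 (cons (fin 976 6 912)
(mv 1297 (cons (fin 1233 4 1040)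
(mv 1296 (cons (fin 1361 4 1104)
(mv 1103 (cons (fin 1039 7 1039)
(mv 1359 (cons (fin 1295 5 1103)
(mv 1360 (cons (fin 1167 7 1103)
(fin 1423 5 1167)))))))))))))))
(mv 977 (cons (fin 1041 6 976)
(mv 913 (cons (fin 976 6 912)
(mv 1295 (cons (fin 1231 5 1039)
(mv 1296 (cons (fin 1359 5 1103)
(mv 1103 (cons (fin 1039 7 1039)
(mv 1360 (cons (fin 1167 7 1103)
(mv 1361 (cons (fin 1297 4 1104)
(fin 1425 4 1168)))))))))))))))))
(cons (cons (mv 977 (cons (fin 1041 6 976)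
(mv 976 (cons (fin 913 6 912)
(mv 1233 (cons (fin 1169 4 976)
(fin 1297 4 1040)))))))
(mv 977 (cons (fin 1041 6 976)
(mv 976 (cons (fin 913 6 912)
(mv 1231 (cons (fin 1167 5 975)
(fin 1295 5 1039))))))))
(cons (mv 1231 (cons (fin 1295 5 1039)
(mv 976 (cons (fin 1167 5 975)
(mv 1233 (cons (fin 1169 4 976)
(fin 1297 4 1040)))))))
(mv 977 (cons (fin 1041 6 976)
(mv 1231 (cons (fin 1295 5 1039)
(mv 1297 (cons (fin 1233 4 1040)
(mv 1296 (cons (fin 1361 4 1104)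
(mv 1103 (cons (fin 1039 7 1039)
(mv 1167 (cons (fin 1360 7 1103)
(mv 1230 (cons (fin 1229 0 1229)
(mv 1169 (cons (fin 1170 1 1166)
(mv 1102 (cons (fin 1101 0 1101)
(mv 1038 (cons (fin 910 4 910)
(fin 1166 4 974)))))))))))))))))))))))))))
(cons (cons (mv 976 (cons (cons (mv 911 (cons (fin 975 7 911)
(mv 847 (cons (fin 912 7 847)
(mv 977 (cons (fin 913 6 912)
(mv 1232 (cons (fin 1041 6 976)
(mv 1233 (cons (fin 1169 4 976)
(fin 1297 4 1040)))))))))))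
(cons (mv 913 (cons (fin 977 6 912)
(mv 912 (cons (fin 849 6 848)
(mv 847 (cons (fin 911 7 847)
(mv 848 (cons (fin 783 7 783)
(mv 1103 (cons (fin 1039 5 847)
(fin 1167 5 911)))))))))))
(mv 911 (cons (fin 975 7 911)
(mv 912 (cons (fin 847 7 847)
(mv 849 (cons (fin 913 6 848)
(mv 848 (cons (fin 785 6 784)
(mv 1103 (cons (fin 1039 5 847)
(fin 1167 5 911)))))))))))))
(cons (mv 913 (cons (fin 977 6 912)
(mv 912 (cons (fin 849 6 848)
(mv 1103 (cons (fin 1167 5 911)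
(mv 1039 (cons (fin 848 5 847)
(mv 1232 (cons (fin 975 7 975)
(fin 1296 7 1039)))))))))))
(cons (mv 911 (cons (fin 975 7 911)
(mv 912 (cons (fin 847 7 847)
(mv 1103 (cons (fin 1167 5 911)
(mv 1039 (cons (fin 848 5 847)
(mv 1169 (cons (fin 1233 4 976)
(mv 1101 (cons (fin 1102 0 1101)
(mv 1170 (cons (fin 1171 3 1103)
(mv 1232 (cons (fin 1296 7 1039)
(mv 977 (cons (fin 1041 6 976)
(mv 910 (cons (fin 909 0 909)
(mv 1038 (cons (fin 1037 2 973)
(fin 846 4 846)))))))))))))))))))))))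
(mv 911 (cons (fin 975 7 911)
(mv 977 (cons (fin 913 6 912)
(mv 1232 (cons (fin 1041 6 976)
(mv 1233 (cons (fin 1169 4 976)
(fin 1297 4 1040)))))))))))))
(mv 1232 (cons (cons (mv 975 (cons (fin 1039 7 975)
(mv 911 (cons (fin 976 7 911)
(mv 1295 (cons (fin 1231 5 1039)
(mv 1296 (cons (fin 1359 5 1103)
(mv 1297 (cons (fin 1233 4 1040)
(fin 1361 4 1104)))))))))))
(mv 975 (cons (fin 1039 7 975)
(mv 976 (cons (fin 911 7 911)
(mv 1233 (cons (fin 1169 4 976)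
(fin 1297 4 1040))))))))
(cons (mv 975 (cons (fin 1039 7 975)
(mv 976 (cons (fin 911 7 911)
(mv 1231 (cons (fin 1167 5 975)
(fin 1295 5 1039)))))))
(cons (mv 1231 (cons (fin 1295 5 1039)
(mv 976 (cons (fin 1167 5 975)
(mv 1233 (cons (fin 1169 4 976)
(fin 1297 4 1040)))))))
(mv 975 (cons (fin 1039 7 975)
(mv 1295 (cons (fin 1231 5 1039)
(mv 1296 (cons (fin 1359 5 1103)
(mv 1297 (cons (fin 1233 4 1040)
(fin 1361 4 1104))))))))))))))
(cons (mv 976 (cons (cons (mv 911 (cons (fin 975 7 911)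
(mv 847 (cons (fin 912 7 847)
(mv 913 (cons (fin 977 6 912)
(mv 1231 (cons (fin 1167 5 975)
(mv 1232 (cons (fin 1295 5 1039)
(mv 1233 (cons (fin 1169 4 976)
(fin 1297 4 1040)))))))))))))
(cons (mv 911 (cons (fin 975 7 911)
(mv 847 (cons (fin 912 7 847)
(mv 1231 (cons (fin 1167 5 975)
(mv 1232 (cons (fin 1295 5 1039)
(mv 1233 (cons (fin 1169 4 976)
(fin 1297 4 1040)))))))))))
(mv 911 (cons (fin 975 7 911)
(mv 847 (cons (fin 912 7 847)
(mv 977 (cons (fin 913 6 912)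
(mv 1232 (cons (fin 1041 6 976)
(mv 1233 (cons (fin 1169 4 976)
(fin 1297 4 1040)))))))))))))
(cons (cons (mv 913 (cons (fin 977 6 912)
(mv 849 (cons (fin 912 6 848)
(mv 1231 (cons (fin 1167 5 975)
(mv 1232 (cons (fin 1295 5 1039)
(mv 1233 (cons (fin 1169 4 976)
(fin 1297 4 1040)))))))))))
(mv 911 (cons (fin 975 7 911)
(mv 847 (cons (fin 912 7 847)
(mv 977 (cons (fin 913 6 912)
(mv 1231 (cons (fin 1167 5 975)
(mv 1232 (cons (fin 1295 5 1039)
(fin 1041 6 976))))))))))))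
(cons (mv 911 (cons (fin 975 7 911)
(mv 912 (cons (fin 847 7 847)
(mv 913 (cons (fin 849 6 848)
(fin 977 6 912)))))))
(mv 911 (cons (fin 975 7 911)
(mv 913 (cons (fin 977 6 912)
(mv 1231 (cons (fin 1167 5 975)
(mv 1232 (cons (fin 1295 5 1039)
(mv 1233 (cons (fin 1169 4 976)
(fin 1297 4 1040)))))))))))))))
(mv 1232 (cons (cons (mv 975 (cons (fin 1039 7 975)
(mv 911 (cons (fin 976 7 911)
(mv 977 (cons (fin 1041 6 976)
(mv 1295 (cons (fin 1231 5 1039)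
(mv 1296 (cons (fin 1359 5 1103)
(mv 1297 (cons (fin 1233 4 1040)
(fin 1361 4 1104)))))))))))))
(mv 977 (cons (fin 1041 6 976)
(mv 913 (cons (fin 976 6 912)
(mv 1295 (cons (fin 1231 5 1039)
(mv 1296 (cons (fin 1359 5 1103)
(mv 1297 (cons (fin 1233 4 1040)
(fin 1361 4 1104))))))))))))
(cons (mv 975 (cons (fin 1039 7 975)
(mv 976 (cons (fin 911 7 911)
(mv 977 (cons (fin 913 6 912)
(fin 1041 6 976)))))))
(cons (mv 975 (cons (fin 1039 7 975)
(mv 911 (cons (fin 976 7 911)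
(mv 1295 (cons (fin 1231 5 1039)
(mv 1296 (cons (fin 1359 5 1103)
(mv 1297 (cons (fin 1233 4 1040)
(fin 1361 4 1104)))))))))))
(mv 975 (cons (fin 1039 7 975)
(mv 977 (cons (fin 1041 6 976)
(mv 1295 (cons (fin 1231 5 1039)
(mv 1296 (cons (fin 1359 5 1103)
(mv 1297 (cons (fin 1233 4 1040)
(fin 1361 4 1104)))))))))))))))))))
(mv 976 (cons (cons (cons (mv 1168 (cons (cons (mv 911 (cons (fin 975 7 911)
(mv 847 (cons (fin 912 7 847)
(mv 913 (cons (fin 977 6 912)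
(mv 1231 (cons (fin 1167 5 975)
(mv 1232 (cons (fin 1295 5 1039)
(mv 1233 (cons (fin 1169 4 976)
(fin 1297 4 1040)))))))))))))
(cons (mv 913 (cons (fin 977 6 912)
(mv 849 (cons (fin 912 6 848)
(mv 1231 (cons (fin 1167 5 975)
(mv 1232 (cons (fin 1295 5 1039)
(mv 1233 (cons (fin 1169 4 976)
(fin 1297 4 1040)))))))))))
(mv 911 (cons (fin 975 7 911)
(mv 847 (cons (fin 912 7 847)
(mv 977 (cons (fin 913 6 912)
(mv 1233 (cons (fin 1169 4 976)
(mv 1232 (cons (fin 1297 4 1040)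
(mv 1295 (cons (fin 1231 5 1039)
(mv 1296 (cons (fin 1359 5 1103)
(mv 1039 (cons (fin 1103 7 1039)
(mv 978 (cons (fin 979 1 975)
(mv 1038 (cons (fin 1037 2 973)
(mv 910 (cons (fin 1102 6 846)
(mv 783 (cons (fin 719 5 718)
(fin 846 6 782)))))))))))))))))))))))))))
(cons (cons (mv 911 (cons (fin 975 7 911)
(mv 847 (cons (fin 912 7 847)
(mv 977 (cons (fin 913 6 912)
(mv 1231 (cons (fin 1167 5 975)
(mv 1232 (cons (fin 1295 5 1039)
(mv 1297 (cons (fin 1233 4 1040)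
(mv 1296 (cons (fin 1361 4 1104)
(mv 1039 (cons (fin 1103 7 1039)
(mv 978 (cons (fin 979 1 975)
(mv 1038 (cons (fin 1037 2 973)
(mv 910 (cons (fin 1102 6 846)
(mv 783 (cons (fin 719 5 718)
(fin 846 6 782)))))))))))))))))))))))))
(mv 911 (cons (fin 975 7 911)
(mv 912 (cons (fin 847 7 847)
(mv 913 (cons (fin 849 6 848)
(fin 977 6 912))))))))
(cons (mv 911 (cons (fin 975 7 911)
(mv 847 (cons (fin 912 7 847)
(mv 1231 (cons (fin 1167 5 975)
(mv 1232 (cons (fin 1295 5 1039)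
(mv 1233 (cons (fin 1169 4 976)
(fin 1297 4 1040)))))))))))
(mv 911 (cons (fin 975 7 911)
(mv 913 (cons (fin 977 6 912)
(mv 1231 (cons (fin 1167 5 975)
(mv 1232 (cons (fin 1295 5 1039)
(mv 1233 (cons (fin 1169 4 976)
(fin 1297 4 1040)))))))))))))))
(mv 912 (cons (cons (mv 847 (cons (fin 911 7 847)
(mv 848 (cons (fin 783 7 783)
(mv 849 (cons (fin 785 6 784)
(fin 913 6 848)))))))
(mv 849 (cons (fin 913 6 848)
(mv 848 (cons (fin 785 6 784)
(mv 1103 (cons (fin 1039 5 847)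
(fin 1167 5 911))))))))
(cons (mv 847 (cons (fin 911 7 847)
(mv 848 (cons (fin 783 7 783)
(mv 1103 (cons (fin 1039 5 847)
(fin 1167 5 911)))))))
(mv 911 (cons (fin 847 7 847)
(mv 913 (cons (fin 849 6 848)
(mv 914 (cons (fin 975 1 910)
(mv 850 (cons (fin 851 2 847)
(mv 978 (cons (fin 979 0 911)
(mv 910 (cons (fin 977 0 910)
(mv 845 (cons (fin 846 3 845)
(mv 909 (cons (fin 844 3 844)
(mv 717 (cons (fin 781 4 717)
(mv 1038 (cons (fin 1102 7 845)
(mv 1103 (cons (fin 1167 5 911)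
(mv 1105 (cons (fin 1169 4 912)
(mv 1039 (cons (fin 1106 3 1038)
(fin 1037 0 1037)))))))))))))))))))))))))))))))
(cons (mv 1168 (cons (cons (mv 911 (cons (fin 975 7 911)
(mv 913 (cons (fin 977 6 912)
(mv 1231 (cons (fin 1167 5 975)
(mv 1232 (cons (fin 1295 5 1039)
(mv 1233 (cons (fin 1169 4 976)
(fin 1297 4 1040)))))))))))
(cons (mv 913 (cons (fin 977 6 912)
(mv 1231 (cons (fin 1167 5 975)
(mv 1232 (cons (fin 1295 5 1039)
(mv 1233 (cons (fin 1169 4 976)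
(fin 1297 4 1040)))))))))
(mv 913 (cons (fin 977 6 912)
(mv 975 (cons (fin 911 7 911)
(mv 1232 (cons (fin 1039 7 975)
(mv 1233 (cons (fin 1169 4 976)
(fin 1297 4 1040)))))))))))
(cons (mv 913 (cons (fin 977 6 912)
(mv 975 (cons (fin 911 7 911)
(mv 1039 (cons (fin 1232 7 975)
(mv 1167 (cons (fin 1231 5 975)
(mv 1103 (cons (fin 910 7 910)
(mv 1166 (cons (fin 1230 5 974)
(mv 1105 (cons (fin 1106 1 1102)
(fin 1165 2 1101)))))))))))))))
(cons (mv 911 (cons (fin 975 7 911)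
(mv 1231 (cons (fin 1167 5 975)
(mv 1232 (cons (fin 1295 5 1039)
(mv 1233 (cons (fin 1169 4 976)
(fin 1297 4 1040)))))))))
(mv 975 (cons (fin 911 7 911)
(mv 977 (cons (fin 913 6 912)
(mv 910 (cons (fin 909 3 909)
(mv 1037 (cons (fin 1038 1 973)
(mv 1167 (cons (fin 1231 5 975)
(mv 1103 (cons (fin 1039 7 910)
(mv 1169 (cons (fin 1233 4 976)
(mv 1102 (cons (fin 1170 3 1102)
(fin 1101 0 1101)))))))))))))))))))))
(mv 1168 (cons (cons (mv 913 (cons (fin 977 6 912)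
(mv 849 (cons (fin 912 6 848)
(mv 1167 (cons (fin 1231 5 975)
(mv 1233 (cons (fin 1169 4 976)
(mv 1232 (cons (fin 1297 4 1040)
(mv 1039 (cons (fin 975 7 975)
(mv 1103 (cons (fin 1296 7 1039)
(mv 1166 (cons (fin 1165 0 1165)
(mv 1105 (cons (fin 1106 1 1102)
(mv 1038 (cons (fin 1037 0 1037)
(mv 910 (cons (fin 846 4 846)
(fin 1102 4 910)))))))))))))))))))))))
(cons (mv 913 (cons (fin 977 6 912)
(mv 849 (cons (fin 912 6 848)
(mv 1233 (cons (fin 1169 4 976)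
(mv 1232 (cons (fin 1297 4 1040)
(mv 1039 (cons (fin 975 7 975)
(mv 1295 (cons (fin 1231 5 1039)
(mv 1296 (cons (fin 1103 7 1039)
(fin 1359 5 1103)))))))))))))))
(mv 913 (cons (fin 977 6 912)
(mv 849 (cons (fin 912 6 848)
(mv 1231 (cons (fin 1167 5 975)
(mv 1232 (cons (fin 1295 5 1039)
(mv 1039 (cons (fin 975 7 975)
(mv 1296 (cons (fin 1103 7 1039)
(mv 1297 (cons (fin 1233 4 1040)
(fin 1361 4 1104)))))))))))))))))
(cons (cons (mv 913 (cons (fin 977 6 912)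
(mv 912 (cons (fin 849 6 848)
(mv 1169 (cons (fin 1105 4 912)
(fin 1233 4 976)))))))
(mv 913 (cons (fin 977 6 912)
(mv 912 (cons (fin 849 6 848)
(mv 1167 (cons (fin 1103 5 911)
(fin 1231 5 975))))))))
(cons (mv 1167 (cons (fin 1231 5 975)
(mv 912 (cons (fin 1103 5 911)
(mv 1169 (cons (fin 1105 4 912)
(fin 1233 4 976)))))))
(mv 913 (cons (fin 977 6 912)
(mv 1167 (cons (fin 1231 5 975)
(mv 1233 (cons (fin 1169 4 976)
(mv 1232 (cons (fin 1297 4 1040)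
(mv 1039 (cons (fin 975 7 975)
(mv 1103 (cons (fin 1296 7 1039)
(mv 1166 (cons (fin 1165 0 1165)
(mv 1105 (cons (fin 1106 1 1102)
(mv 1038 (cons (fin 1037 0 1037)
(mv 910 (cons (fin 846 4 846)
(fin 1102 4 910)))))))))))))))))))))))))))
(cons (cons (mv 912 (cons (cons (mv 847 (cons (fin 911 7 847)
(mv 783 (cons (fin 848 7 783)
(mv 913 (cons (fin 849 6 848)
(mv 977 (cons (fin 1168 6 912)
(mv 914 (cons (fin 975 2 910)
(mv 915 (cons (fin 916 1 912)
(mv 851 (cons (fin 852 2 848)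
(mv 979 (cons (fin 980 0 912)
(mv 978 (cons (fin 1039 1 975)
(mv 787 (cons (fin 723 5 722)
(fin 1042 5 786)))))))))))))))))))))
(cons (mv 849 (cons (fin 913 6 848)
(mv 848 (cons (fin 785 6 784)
(mv 783 (cons (fin 847 7 783)
(mv 784 (cons (fin 719 7 719)
(mv 1039 (cons (fin 975 5 783)
(fin 1103 5 847)))))))))))
(mv 847 (cons (fin 911 7 847)
(mv 848 (cons (fin 783 7 783)
(mv 785 (cons (fin 849 6 784)
(mv 784 (cons (fin 721 6 720)
(mv 1039 (cons (fin 975 5 783)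
(fin 1103 5 847)))))))))))))
(cons (cons (mv 849 (cons (fin 913 6 848)
(mv 848 (cons (fin 785 6 784)
(mv 1039 (cons (fin 1103 5 847)
(mv 975 (cons (fin 784 5 783)
(mv 1168 (cons (fin 911 7 911)
(fin 1232 7 975)))))))))))
(mv 847 (cons (fin 911 7 847)
(mv 848 (cons (fin 783 7 783)
(mv 1039 (cons (fin 1103 5 847)
(mv 975 (cons (fin 784 5 783)
(mv 1105 (cons (fin 1169 4 912)
(mv 1038 (cons (fin 1037 0 1037)
(mv 977 (cons (fin 978 1 974)
(mv 913 (cons (fin 914 2 910)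
(fin 1168 6 912))))))))))))))))))
(cons (mv 847 (cons (fin 911 7 847)
(mv 913 (cons (fin 849 6 848)
(mv 977 (cons (fin 1168 6 912)
(mv 914 (cons (fin 975 2 910)
(mv 915 (cons (fin 916 1 912)
(mv 851 (cons (fin 852 2 848)
(mv 979 (cons (fin 980 0 912)
(mv 978 (cons (fin 1039 1 975)
(mv 787 (cons (fin 723 5 722)
(fin 1042 5 786)))))))))))))))))))
(mv 847 (cons (fin 911 7 847)
(mv 783 (cons (fin 848 7 783)
(mv 913 (cons (fin 849 6 848)
(mv 1168 (cons (fin 977 6 912)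
(mv 1169 (cons (fin 1105 4 912)
(fin 1233 4 976)))))))))))))))
(mv 1168 (cons (cons (mv 911 (cons (fin 975 7 911)
(mv 847 (cons (fin 912 7 847)
(mv 1231 (cons (fin 1167 5 975)
(mv 1232 (cons (fin 1295 5 1039)
(mv 1233 (cons (fin 1169 4 976)
(fin 1297 4 1040)))))))))))
(mv 911 (cons (fin 975 7 911)
(mv 912 (cons (fin 847 7 847)
(mv 1169 (cons (fin 1105 4 912)
(fin 1233 4 976))))))))
(cons (mv 1167 (cons (fin 1231 5 975)
(mv 912 (cons (fin 1103 5 911)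
(mv 1169 (cons (fin 1105 4 912)
(fin 1233 4 976)))))))
(cons (mv 911 (cons (fin 975 7 911)
(mv 912 (cons (fin 847 7 847)
(mv 1167 (cons (fin 1103 5 911)
(fin 1231 5 975)))))))
(mv 911 (cons (fin 975 7 911)
(mv 1231 (cons (fin 1167 5 975)
(mv 1232 (cons (fin 1295 5 1039)
(mv 1233 (cons (fin 1169 4 976)
(fin 1297 4 1040))))))))))))))
(cons (mv 912 (cons (cons (mv 847 (cons (fin 911 7 847)
(mv 783 (cons (fin 848 7 783)
(mv 913 (cons (fin 849 6 848)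
(mv 977 (cons (fin 1168 6 912)
(mv 914 (cons (fin 975 2 910)
(mv 915 (cons (fin 916 1 912)
(mv 851 (cons (fin 852 2 848)
(mv 979 (cons (fin 980 0 912)
(mv 978 (cons (fin 1039 1 975)
(mv 787 (cons (fin 723 5 722)
(fin 1042 5 786)))))))))))))))))))))
(mv 849 (cons (fin 913 6 848)
(mv 848 (cons (fin 785 6 784)
(mv 1103 (cons (fin 1039 5 847)
(fin 1167 5 911))))))))
(cons (mv 847 (cons (fin 911 7 847)
(mv 848 (cons (fin 783 7 783)
(mv 1103 (cons (fin 1039 5 847)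
(fin 1167 5 911)))))))
(cons (mv 847 (cons (fin 911 7 847)
(mv 913 (cons (fin 849 6 848)
(mv 977 (cons (fin 1168 6 912)
(mv 914 (cons (fin 975 2 910)
(mv 915 (cons (fin 916 1 912)
(mv 851 (cons (fin 852 2 848)
(mv 979 (cons (fin 980 0 912)
(mv 978 (cons (fin 1039 1 975)
(mv 787 (cons (fin 723 5 722)
(fin 1042 5 786)))))))))))))))))))
(mv 847 (cons (fin 911 7 847)
(mv 783 (cons (fin 848 7 783)
(mv 913 (cons (fin 849 6 848)
(mv 977 (cons (fin 1168 6 912)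
(mv 975 (cons (fin 914 2 910)
(mv 910 (cons (fin 909 3 909)
(mv 1038 (cons (fin 1037 1 973)
(fin 846 6 782)))))))))))))))))))
(cons (mv 912 (cons (cons (mv 847 (cons (fin 911 7 847)
(mv 783 (cons (fin 848 7 783)
(mv 849 (cons (fin 913 6 848)
(mv 1167 (cons (fin 1103 5 911)
(mv 1168 (cons (fin 1231 5 975)
(mv 1169 (cons (fin 1105 4 912)
(fin 1233 4 976)))))))))))))
(cons (mv 847 (cons (fin 911 7 847)
(mv 783 (cons (fin 848 7 783)
(mv 913 (cons (fin 849 6 848)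
(mv 1168 (cons (fin 977 6 912)
(mv 1169 (cons (fin 1105 4 912)
(fin 1233 4 976)))))))))))
(mv 847 (cons (fin 911 7 847)
(mv 783 (cons (fin 848 7 783)
(mv 1167 (cons (fin 1103 5 911)
(mv 1168 (cons (fin 1231 5 975)
(mv 1169 (cons (fin 1105 4 912)
(fin 1233 4 976)))))))))))))
(cons (cons (mv 849 (cons (fin 913 6 848)
(mv 785 (cons (fin 848 6 784)
(mv 1167 (cons (fin 1103 5 911)
(mv 1168 (cons (fin 1231 5 975)
(mv 1169 (cons (fin 1105 4 912)
(fin 1233 4 976)))))))))))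
(mv 847 (cons (fin 911 7 847)
(mv 783 (cons (fin 848 7 783)
(mv 913 (cons (fin 849 6 848)
(mv 1167 (cons (fin 1103 5 911)
(mv 1168 (cons (fin 1231 5 975)
(fin 977 6 912))))))))))))
(cons (mv 847 (cons (fin 911 7 847)
(mv 849 (cons (fin 913 6 848)
(mv 1167 (cons (fin 1103 5 911)
(mv 1168 (cons (fin 1231 5 975)
(mv 1169 (cons (fin 1105 4 912)
(fin 1233 4 976)))))))))))
(mv 847 (cons (fin 911 7 847)
(mv 848 (cons (fin 783 7 783)
(mv 849 (cons (fin 785 6 784)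
(fin 913 6 848)))))))))))
(mv 1168 (cons (cons (mv 911 (cons (fin 975 7 911)
(mv 847 (cons (fin 912 7 847)
(mv 913 (cons (fin 977 6 912)
(mv 1231 (cons (fin 1167 5 975)
(mv 1232 (cons (fin 1295 5 1039)
(mv 1233 (cons (fin 1169 4 976)
(fin 1297 4 1040)))))))))))))
(mv 913 (cons (fin 977 6 912)
(mv 849 (cons (fin 912 6 848)
(mv 1231 (cons (fin 1167 5 975)
(mv 1232 (cons (fin 1295 5 1039)
(mv 1233 (cons (fin 1169 4 976)
(fin 1297 4 1040))))))))))))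
(cons (mv 911 (cons (fin 975 7 911)
(mv 912 (cons (fin 847 7 847)
(mv 913 (cons (fin 849 6 848)
(fin 977 6 912)))))))
(cons (mv 911 (cons (fin 975 7 911)
(mv 847 (cons (fin 912 7 847)
(mv 1231 (cons (fin 1167 5 975)
(mv 1232 (cons (fin 1295 5 1039)
(mv 1233 (cons (fin 1169 4 976)
(fin 1297 4 1040)))))))))))
(mv 911 (cons (fin 975 7 911)
(mv 913 (cons (fin 977 6 912)
(mv 1231 (cons (fin 1167 5 975)
(mv 1232 (cons (fin 1295 5 1039)
(mv 1233 (cons (fin 1169 4 976)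
(fin 1297 4 1040)))))))))))))))))))))
(cons (mv 976 (cons (cons (mv 912 (cons (cons (cons (mv 847 (cons (fin 911 7 847)
(mv 783 (cons (fin 848 7 783)
(mv 849 (cons (fin 913 6 848)
(mv 1167 (cons (fin 1103 5 911)
(mv 1168 (cons (fin 1231 5 975)
(mv 1169 (cons (fin 1105 4 912)
(fin 1233 4 976)))))))))))))
(mv 847 (cons (fin 911 7 847)
(mv 783 (cons (fin 848 7 783)
(mv 913 (cons (fin 849 6 848)
(mv 1103 (cons (fin 1167 5 911)
(mv 1168 (cons (fin 977 6 912)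
(mv 1233 (cons (fin 1169 4 976)
(mv 1232 (cons (fin 1297 4 1040)
(mv 1295 (cons (fin 1231 5 1039)
(mv 1296 (cons (fin 1039 7 1039)
(fin 1359 5 1103))))))))))))))))))))
(cons (mv 847 (cons (fin 911 7 847)
(mv 783 (cons (fin 848 7 783)
(mv 913 (cons (fin 849 6 848)
(mv 1105 (cons (fin 1169 4 912)
(mv 1168 (cons (fin 977 6 912)
(mv 1231 (cons (fin 1167 5 975)
(mv 1232 (cons (fin 1295 5 1039)
(mv 1296 (cons (fin 1041 6 1040)
(mv 1297 (cons (fin 1233 4 1040)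
(fin 1361 4 1104)))))))))))))))))))
(mv 847 (cons (fin 911 7 847)
(mv 783 (cons (fin 848 7 783)
(mv 1167 (cons (fin 1103 5 911)
(mv 1168 (cons (fin 1231 5 975)
(mv 1169 (cons (fin 1105 4 912)
(fin 1233 4 976)))))))))))))
(cons (cons (mv 847 (cons (fin 911 7 847)
(mv 783 (cons (fin 848 7 783)
(mv 913 (cons (fin 849 6 848)
(mv 1167 (cons (fin 1103 5 911)
(mv 1168 (cons (fin 1231 5 975)
(fin 977 6 912)))))))))))
(mv 847 (cons (fin 911 7 847)
(mv 783 (cons (fin 848 7 783)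
(mv 913 (cons (fin 849 6 848)
(mv 1168 (cons (fin 977 6 912)
(mv 1169 (cons (fin 1105 4 912)
(fin 1233 4 976))))))))))))
(cons (mv 849 (cons (fin 913 6 848)
(mv 785 (cons (fin 848 6 784)
(mv 1167 (cons (fin 1103 5 911)
(mv 1168 (cons (fin 1231 5 975)
(mv 1169 (cons (fin 1105 4 912)
(fin 1233 4 976)))))))))))
(cons (mv 847 (cons (fin 911 7 847)
(mv 849 (cons (fin 913 6 848)
(mv 1167 (cons (fin 1103 5 911)
(mv 1168 (cons (fin 1231 5 975)
(mv 1169 (cons (fin 1105 4 912)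
(fin 1233 4 976)))))))))))
(mv 847 (cons (fin 911 7 847)
(mv 848 (cons (fin 783 7 783)
(mv 849 (cons (fin 785 6 784)
(fin 913 6 848))))))))))))
(cons (mv 1168 (cons (cons (mv 913 (cons (fin 977 6 912)
(mv 1231 (cons (fin 1167 5 975)
(mv 1232 (cons (fin 1295 5 1039)
(mv 1233 (cons (fin 1169 4 976)
(fin 1297 4 1040)))))))))
(mv 1231 (cons (fin 1167 5 975)
(mv 1232 (cons (fin 1295 5 1039)
(mv 1233 (cons (fin 1169 4 976)
(fin 1297 4 1040))))))))
(cons (mv 977 (cons (fin 913 6 912)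
(mv 1232 (cons (fin 1041 6 976)
(mv 1233 (cons (fin 1169 4 976)
(fin 1297 4 1040)))))))
(cons (mv 977 (cons (fin 913 6 912)
(mv 1231 (cons (fin 1167 5 975)
(mv 1232 (cons (fin 1295 5 1039)
(fin 1041 6 976)))))))
(mv 913 (cons (fin 977 6 912)
(mv 1167 (cons (fin 1231 5 975)
(mv 1169 (cons (fin 1233 4 976)
(mv 1166 (cons (mv 1105 (cons (fin 1165 2 1101)
(fin 1106 2 1102)))
(cons (mv 1101 (cons (fin 1102 3 1101)
(mv 1165 (cons (fin 1100 3 1100)
(mv 1229 (cons (fin 1228 1 1164)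
(fin 1230 1 1165)))))))
(mv 1101 (cons (fin 1102 3 1101)
(mv 1106 (cons (fin 1105 2 1102)
(mv 1170 (cons (fin 1107 2 1103)
(mv 1171 (cons (fin 1103 3 1103)
(mv 1235 (cons (fin 1234 0 1167)
(fin 1236 0 1168))))))))))))))))))))))))
(mv 912 (cons (cons (mv 847 (cons (fin 911 7 847)
(mv 848 (cons (fin 783 7 783)
(mv 849 (cons (fin 785 6 784)
(fin 913 6 848)))))))
(mv 847 (cons (fin 911 7 847)
(mv 848 (cons (fin 783 7 783)
(mv 1103 (cons (fin 1039 5 847)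
(fin 1167 5 911))))))))
(cons (mv 849 (cons (fin 913 6 848)
(mv 848 (cons (fin 785 6 784)
(mv 1103 (cons (fin 1039 5 847)
(fin 1167 5 911)))))))
(mv 847 (cons (fin 911 7 847)
(mv 849 (cons (fin 913 6 848)
(mv 1103 (cons (fin 1167 5 911)
(mv 1105 (cons (fin 1169 4 912)
(mv 1102 (cons (mv 1041 (cons (fin 1101 2 1037)
(fin 1042 2 1038)))
(cons (mv 1037 (cons (fin 1038 3 1037)
(mv 1101 (cons (fin 1036 3 1036)
(mv 1165 (cons (fin 1164 1 1100)
(fin 1166 1 1101)))))))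
(mv 1038 (cons (fin 1037 3 1037)
(mv 1041 (cons (fin 1042 2 1038)
(mv 1106 (cons (fin 1039 3 1038)
(mv 1107 (cons (fin 1108 3 1040)
(mv 1171 (cons (fin 1170 0 1103)
(fin 1172 0 1104)))))))))))))))))))))))))))
(cons (mv 912 (cons (cons (mv 847 (cons (fin 911 7 847)
(mv 783 (cons (fin 848 7 783)
(mv 913 (cons (fin 849 6 848)
(mv 1168 (cons (fin 977 6 912)
(mv 1169 (cons (fin 1105 4 912)
(fin 1233 4 976)))))))))))
(mv 847 (cons (fin 911 7 847)
(mv 848 (cons (fin 783 7 783)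
(mv 849 (cons (fin 785 6 784)
(fin 913 6 848))))))))
(cons (mv 847 (cons (fin 911 7 847)
(mv 848 (cons (fin 783 7 783)
(mv 1105 (cons (fin 1041 4 848)
(fin 1169 4 912)))))))
(cons (mv 849 (cons (fin 913 6 848)
(mv 848 (cons (fin 785 6 784)
(mv 1105 (cons (fin 1041 4 848)
(fin 1169 4 912)))))))
(mv 847 (cons (fin 911 7 847)
(mv 913 (cons (fin 849 6 848)
(mv 1168 (cons (fin 977 6 912)
(mv 1169 (cons (fin 1105 4 912)
(fin 1233 4 976)))))))))))))
(cons (mv 912 (cons (cons (mv 847 (cons (fin 911 7 847)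
(mv 783 (cons (fin 848 7 783)
(mv 913 (cons (fin 849 6 848)
(mv 1167 (cons (fin 1103 5 911)
(mv 1168 (cons (fin 1231 5 975)
(fin 977 6 912)))))))))))
(mv 847 (cons (fin 911 7 847)
(mv 848 (cons (fin 783 7 783)
(mv 1103 (cons (fin 1039 5 847)
(fin 1167 5 911))))))))
(cons (mv 847 (cons (fin 911 7 847)
(mv 848 (cons (fin 783 7 783)
(mv 849 (cons (fin 785 6 784)
(fin 913 6 848)))))))
(cons (mv 849 (cons (fin 913 6 848)
(mv 848 (cons (fin 785 6 784)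
(mv 1103 (cons (fin 1039 5 847)
(fin 1167 5 911)))))))
(mv 847 (cons (fin 911 7 847)
(mv 913 (cons (fin 849 6 848)
(mv 1167 (cons (fin 1103 5 911)
(mv 1168 (cons (fin 1231 5 975)
(fin 977 6 912)))))))))))))
(mv 912 (cons (cons (mv 847 (cons (fin 911 7 847)
(mv 783 (cons (fin 848 7 783)
(mv 1167 (cons (fin 1103 5 911)
(mv 1168 (cons (fin 1231 5 975)
(mv 1169 (cons (fin 1105 4 912)
(fin 1233 4 976)))))))))))
(mv 847 (cons (fin 911 7 847)
(mv 848 (cons (fin 783 7 783)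
(mv 1103 (cons (fin 1039 5 847)
(fin 1167 5 911))))))))
(cons (mv 847 (cons (fin 911 7 847)
(mv 848 (cons (fin 783 7 783)
(mv 1105 (cons (fin 1041 4 848)
(fin 1169 4 912)))))))
(cons (mv 1103 (cons (fin 1167 5 911)
(mv 848 (cons (fin 1039 5 847)
(mv 1105 (cons (fin 1041 4 848)
(fin 1169 4 912)))))))
(mv 847 (cons (fin 911 7 847)
(mv 1167 (cons (fin 1103 5 911)
(mv 1168 (cons (fin 1231 5 975)
(mv 1169 (cons (fin 1105 4 912)
(fin 1233 4 976)))))))))))))))))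
(mv 976 (cons (cons (cons (mv 912 (cons (cons (mv 847 (cons (fin 911 7 847)
(mv 783 (cons (fin 848 7 783)
(mv 849 (cons (fin 913 6 848)
(mv 1167 (cons (fin 1103 5 911)
(mv 1168 (cons (fin 1231 5 975)
(mv 1169 (cons (fin 1105 4 912)
(fin 1233 4 976)))))))))))))
(cons (mv 849 (cons (fin 913 6 848)
(mv 785 (cons (fin 848 6 784)
(mv 1167 (cons (fin 1103 5 911)
(mv 1168 (cons (fin 1231 5 975)
(mv 1169 (cons (fin 1105 4 912)
(fin 1233 4 976)))))))))))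
(mv 847 (cons (fin 911 7 847)
(mv 783 (cons (fin 848 7 783)
(mv 1167 (cons (fin 1103 5 911)
(mv 1168 (cons (fin 1231 5 975)
(mv 1169 (cons (fin 1105 4 912)
(fin 1233 4 976)))))))))))))
(cons (mv 847 (cons (fin 911 7 847)
(mv 783 (cons (fin 848 7 783)
(mv 913 (cons (fin 849 6 848)
(mv 977 (cons (fin 1168 6 912)
(mv 914 (cons (fin 975 2 910)
(mv 915 (cons (fin 916 1 912)
(mv 851 (cons (fin 852 2 848)
(mv 979 (cons (fin 980 0 912)
(mv 978 (cons (fin 1039 1 975)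
(mv 787 (cons (fin 723 5 722)
(fin 1042 5 786)))))))))))))))))))))
(cons (mv 847 (cons (fin 911 7 847)
(mv 849 (cons (fin 913 6 848)
(mv 1167 (cons (fin 1103 5 911)
(mv 1168 (cons (fin 1231 5 975)
(mv 1169 (cons (fin 1105 4 912)
(fin 1233 4 976)))))))))))
(mv 847 (cons (fin 911 7 847)
(mv 848 (cons (fin 783 7 783)
(mv 849 (cons (fin 785 6 784)
(fin 913 6 848)))))))))))
(mv 1168 (cons (cons (mv 975 (cons (fin 911 7 911)
(mv 977 (cons (fin 913 6 912)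
(mv 909 (cons (fin 910 3 909)
(mv 1038 (cons (fin 1037 1 973)
(mv 978 (cons (fin 1039 1 974)
(mv 914 (cons (fin 915 2 911)
(mv 1041 (cons (fin 1042 0 974)
(mv 1169 (cons (fin 1105 6 913)
(fin 1233 4 976)))))))))))))))))
(mv 911 (cons (fin 975 7 911)
(mv 1167 (cons (fin 1231 5 975)
(mv 1169 (cons (fin 1233 4 976)
(mv 1166 (cons (mv 1105 (cons (fin 1165 2 1101)
(fin 1106 2 1102)))
(cons (mv 1101 (cons (fin 1102 3 1101)
(mv 1165 (cons (fin 1100 3 1100)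
(mv 1229 (cons (fin 1228 1 1164)
(fin 1230 1 1165)))))))
(mv 1101 (cons (fin 1102 3 1101)
(mv 1106 (cons (fin 1105 2 1102)
(mv 1170 (cons (fin 1107 2 1103)
(mv 1171 (cons (fin 1103 3 1103)
(mv 1235 (cons (fin 1234 0 1167)
(fin 1236 0 1168)))))))))))))))))))))
(cons (mv 913 (cons (fin 977 6 912)
(mv 1167 (cons (fin 1231 5 975)
(mv 1169 (cons (fin 1233 4 976)
(mv 1166 (cons (mv 1105 (cons (fin 1165 2 1101)
(fin 1106 2 1102)))
(cons (mv 1101 (cons (fin 1102 3 1101)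
(mv 1165 (cons (fin 1100 3 1100)
(mv 1229 (cons (fin 1228 1 1164)
(fin 1230 1 1165)))))))
(mv 1101 (cons (fin 1102 3 1101)
(mv 1106 (cons (fin 1105 2 1102)
(mv 1170 (cons (fin 1107 2 1103)
(mv 1171 (cons (fin 1103 3 1103)
(mv 1235 (cons (fin 1234 0 1167)
(fin 1236 0 1168))))))))))))))))))))
(mv 975 (cons (fin 911 7 911)
(mv 977 (cons (fin 913 6 912)
(mv 909 (cons (fin 910 3 909)
(mv 1038 (cons (fin 1037 1 973)
(mv 978 (cons (fin 1039 1 974)
(mv 915 (cons (fin 914 2 911)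
(mv 979 (cons (fin 916 2 912)
(mv 1041 (cons (fin 980 1 976)
(fin 1042 0 974)))))))))))))))))))))
(cons (mv 912 (cons (cons (mv 847 (cons (fin 911 7 847)
(mv 848 (cons (fin 783 7 783)
(mv 849 (cons (fin 785 6 784)
(fin 913 6 848)))))))
(mv 849 (cons (fin 913 6 848)
(mv 848 (cons (fin 785 6 784)
(mv 1103 (cons (fin 1039 5 847)
(fin 1167 5 911))))))))
(cons (mv 847 (cons (fin 911 7 847)
(mv 848 (cons (fin 783 7 783)
(mv 1103 (cons (fin 1039 5 847)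
(fin 1167 5 911)))))))
(mv 911 (cons (fin 847 7 847)
(mv 913 (cons (fin 849 6 848)
(mv 914 (cons (fin 975 1 910)
(mv 850 (cons (fin 851 2 847)
(mv 978 (cons (fin 979 0 911)
(mv 910 (cons (fin 977 0 910)
(mv 845 (cons (fin 846 3 845)
(mv 909 (cons (fin 844 3 844)
(mv 717 (cons (fin 781 4 717)
(mv 1038 (cons (fin 1102 7 845)
(mv 1103 (cons (fin 1167 5 911)
(mv 1105 (cons (fin 1169 4 912)
(mv 1039 (cons (fin 1106 3 1038)
(fin 1037 0 1037))))))))))))))))))))))))))))))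
(mv 912 (cons (cons (mv 847 (cons (fin 911 7 847)
(mv 783 (cons (fin 848 7 783)
(mv 1167 (cons (fin 1103 5 911)
(mv 1168 (cons (fin 1231 5 975)
(mv 1169 (cons (fin 1105 4 912)
(fin 1233 4 976)))))))))))
(mv 1103 (cons (fin 1167 5 911)
(mv 848 (cons (fin 1039 5 847)
(mv 1105 (cons (fin 1041 4 848)
(fin 1169 4 912))))))))
(cons (mv 847 (cons (fin 911 7 847)
(mv 848 (cons (fin 783 7 783)
(mv 1103 (cons (fin 1039 5 847)
(fin 1167 5 911)))))))
(cons (mv 847 (cons (fin 911 7 847)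
(mv 848 (cons (fin 783 7 783)
(mv 1105 (cons (fin 1041 4 848)
(fin 1169 4 912)))))))
(mv 847 (cons (fin 911 7 847)
(mv 1167 (cons (fin 1103 5 911)
(mv 1168 (cons (fin 1231 5 975)
(mv 1169 (cons (fin 1105 4 912)
(fin 1233 4 976)))))))))))))))
(cons (cons (mv 912 (cons (cons (mv 849 (cons (fin 913 6 848)
(mv 785 (cons (fin 848 6 784)
(mv 1167 (cons (fin 1103 5 911)
(mv 1168 (cons (fin 1231 5 975)
(mv 1169 (cons (fin 1105 4 912)
(fin 1233 4 976)))))))))))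
(mv 849 (cons (fin 913 6 848)
(mv 848 (cons (fin 785 6 784)
(mv 1103 (cons (fin 1039 5 847)
(fin 1167 5 911))))))))
(cons (mv 1103 (cons (fin 1167 5 911)
(mv 848 (cons (fin 1039 5 847)
(mv 1105 (cons (fin 1041 4 848)
(fin 1169 4 912)))))))
(cons (mv 849 (cons (fin 913 6 848)
(mv 848 (cons (fin 785 6 784)
(mv 1105 (cons (fin 1041 4 848)
(fin 1169 4 912)))))))
(mv 849 (cons (fin 913 6 848)
(mv 1167 (cons (fin 1103 5 911)
(mv 1168 (cons (fin 1231 5 975)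
(mv 1169 (cons (fin 1105 4 912)
(fin 1233 4 976)))))))))))))
(mv 912 (cons (cons (mv 847 (cons (fin 911 7 847)
(mv 783 (cons (fin 848 7 783)
(mv 913 (cons (fin 849 6 848)
(mv 977 (cons (fin 1168 6 912)
(mv 914 (cons (fin 975 2 910)
(mv 915 (cons (fin 916 1 912)
(mv 851 (cons (fin 852 2 848)
(mv 979 (cons (fin 980 0 912)
(mv 978 (cons (fin 1039 1 975)
(mv 787 (cons (fin 723 5 722)
(fin 1042 5 786)))))))))))))))))))))
(mv 849 (cons (fin 913 6 848)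
(mv 848 (cons (fin 785 6 784)
(mv 1105 (cons (fin 1041 4 848)
(fin 1169 4 912))))))))
(cons (mv 847 (cons (fin 911 7 847)
(mv 848 (cons (fin 783 7 783)
(mv 1105 (cons (fin 1041 4 848)
(fin 1169 4 912)))))))
(mv 847 (cons (fin 911 7 847)
(mv 913 (cons (fin 849 6 848)
(mv 977 (cons (fin 1168 6 912)
(mv 914 (cons (fin 975 2 910)
(mv 915 (cons (fin 916 1 912)
(mv 851 (cons (fin 852 2 848)
(mv 979 (cons (fin 980 0 912)
(mv 978 (cons (fin 1039 1 975)
(mv 787 (cons (fin 723 5 722)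
(fin 1042 5 786)))))))))))))))))))))))
(cons (mv 912 (cons (cons (mv 847 (cons (fin 911 7 847)
(mv 783 (cons (fin 848 7 783)
(mv 913 (cons (fin 849 6 848)
(mv 977 (cons (fin 1168 6 912)
(mv 914 (cons (fin 975 2 910)
(mv 915 (cons (fin 916 1 912)
(mv 851 (cons (fin 852 2 848)
(mv 979 (cons (fin 980 0 912)
(mv 978 (cons (fin 1039 1 975)
(mv 787 (cons (fin 723 5 722)
(fin 1042 5 786)))))))))))))))))))))
(mv 849 (cons (fin 913 6 848)
(mv 848 (cons (fin 785 6 784)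
(mv 1103 (cons (fin 1039 5 847)
(fin 1167 5 911))))))))
(cons (mv 847 (cons (fin 911 7 847)
(mv 848 (cons (fin 783 7 783)
(mv 1103 (cons (fin 1039 5 847)
(fin 1167 5 911)))))))
(cons (mv 847 (cons (fin 911 7 847)
(mv 913 (cons (fin 849 6 848)
(mv 977 (cons (fin 1168 6 912)
(mv 914 (cons (fin 975 2 910)
(mv 915 (cons (fin 916 1 912)
(mv 851 (cons (fin 852 2 848)
(mv 979 (cons (fin 980 0 912)
(mv 978 (cons (fin 1039 1 975)
(mv 787 (cons (fin 723 5 722)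
(fin 1042 5 786)))))))))))))))))))
(mv 847 (cons (fin 911 7 847)
(mv 783 (cons (fin 848 7 783)
(mv 913 (cons (fin 849 6 848)
(mv 977 (cons (fin 1168 6 912)
(mv 975 (cons (fin 914 2 910)
(mv 910 (cons (fin 909 3 909)
(mv 1038 (cons (fin 1037 1 973)
(fin 846 6 782)))))))))))))))))))
(mv 912 (cons (cons (mv 847 (cons (fin 911 7 847)
(mv 783 (cons (fin 848 7 783)
(mv 849 (cons (fin 913 6 848)
(mv 1167 (cons (fin 1103 5 911)
(mv 1168 (cons (fin 1231 5 975)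
(mv 1169 (cons (fin 1105 4 912)
(fin 1233 4 976)))))))))))))
(cons (mv 847 (cons (fin 911 7 847)
(mv 783 (cons (fin 848 7 783)
(mv 1167 (cons (fin 1103 5 911)
(mv 1168 (cons (fin 1231 5 975)
(mv 1169 (cons (fin 1105 4 912)
(fin 1233 4 976)))))))))))
(mv 849 (cons (fin 913 6 848)
(mv 785 (cons (fin 848 6 784)
(mv 1167 (cons (fin 1103 5 911)
(mv 1168 (cons (fin 1231 5 975)
(mv 1169 (cons (fin 1105 4 912)
(fin 1233 4 976)))))))))))))
(cons (mv 847 (cons (fin 911 7 847)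
(mv 783 (cons (fin 848 7 783)
(mv 913 (cons (fin 849 6 848)
(mv 977 (cons (fin 1168 6 912)
(mv 975 (cons (fin 914 2 910)
(mv 910 (cons (fin 909 3 909)
(mv 1038 (cons (fin 1037 1 973)
(fin 846 6 782)))))))))))))))
(cons (mv 847 (cons (fin 911 7 847)
(mv 848 (cons (fin 783 7 783)
(mv 849 (cons (fin 785 6 784)
(fin 913 6 848)))))))
(mv 847 (cons (fin 911 7 847)
(mv 849 (cons (fin 913 6 848)
(mv 1167 (cons (fin 1103 5 911)
(mv 1168 (cons (fin 1231 5 975)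
(mv 1169 (cons (fin 1105 4 912)
(fin 1233 4 976))))))))))))))))))))))
(cons (cons (cons (mv 1168 (cons (cons (cons (mv 976 (cons (cons (mv 911 (cons (fin 975 7 911)
(mv 847 (cons (fin 912 7 847)
(mv 913 (cons (fin 977 6 912)
(mv 1231 (cons (fin 1167 5 975)
(mv 1232 (cons (fin 1295 5 1039)
(mv 1233 (cons (fin 1169 4 976)
(fin 1297 4 1040)))))))))))))
(cons (mv 911 (cons (fin 975 7 911)
(mv 847 (cons (fin 912 7 847)
(mv 1231 (cons (fin 1167 5 975)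
(mv 1232 (cons (fin 1295 5 1039)
(mv 1233 (cons (fin 1169 4 976)
(fin 1297 4 1040)))))))))))
(mv 913 (cons (fin 977 6 912)
(mv 849 (cons (fin 912 6 848)
(mv 1231 (cons (fin 1167 5 975)
(mv 1232 (cons (fin 1295 5 1039)
(mv 1233 (cons (fin 1169 4 976)
(fin 1297 4 1040)))))))))))))
(cons (cons (mv 911 (cons (fin 975 7 911)
(mv 847 (cons (fin 912 7 847)
(mv 977 (cons (fin 913 6 912)
(mv 1231 (cons (fin 1167 5 975)
(mv 1232 (cons (fin 1295 5 1039)
(fin 1041 6 976)))))))))))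
(mv 911 (cons (fin 975 7 911)
(mv 847 (cons (fin 912 7 847)
(mv 977 (cons (fin 913 6 912)
(mv 1232 (cons (fin 1041 6 976)
(mv 1233 (cons (fin 1169 4 976)
(fin 1297 4 1040))))))))))))
(cons (mv 911 (cons (fin 975 7 911)
(mv 912 (cons (fin 847 7 847)
(mv 913 (cons (fin 849 6 848)
(fin 977 6 912)))))))
(mv 911 (cons (fin 975 7 911)
(mv 913 (cons (fin 977 6 912)
(mv 1231 (cons (fin 1167 5 975)
(mv 1232 (cons (fin 1295 5 1039)
(mv 1233 (cons (fin 1169 4 976)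
(fin 1297 4 1040)))))))))))))))
(mv 1232 (cons (cons (mv 975 (cons (fin 1039 7 975)
(mv 977 (cons (fin 1041 6 976)
(mv 1295 (cons (fin 1231 5 1039)
(mv 1296 (cons (fin 1359 5 1103)
(mv 1297 (cons (fin 1233 4 1040)
(fin 1361 4 1104)))))))))))
(cons (mv 975 (cons (fin 1039 7 975)
(mv 1295 (cons (fin 1231 5 1039)
(mv 1296 (cons (fin 1359 5 1103)
(mv 1297 (cons (fin 1233 4 1040)
(fin 1361 4 1104)))))))))
(mv 975 (cons (fin 1039 7 975)
(mv 1041 (cons (fin 977 6 976)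
(mv 1295 (cons (fin 1231 5 1039)
(mv 1296 (cons (fin 1359 5 1103)
(fin 1105 6 1040)))))))))))
(cons (mv 975 (cons (fin 1039 7 975)
(mv 1041 (cons (fin 977 6 976)
(mv 1296 (cons (fin 1105 6 1040)
(mv 1297 (cons (fin 1233 4 1040)
(fin 1361 4 1104)))))))))
(cons (mv 977 (cons (fin 1041 6 976)
(mv 1295 (cons (fin 1231 5 1039)
(mv 1296 (cons (fin 1359 5 1103)
(mv 1297 (cons (fin 1233 4 1040)
(fin 1361 4 1104)))))))))
(mv 975 (cons (fin 1039 7 975)
(mv 977 (cons (fin 1041 6 976)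
(mv 1231 (cons (fin 1295 5 1039)
(mv 1233 (cons (fin 1297 4 1040)
(mv 1230 (cons (mv 1169 (cons (fin 1229 2 1165)
(fin 1170 2 1166)))
(cons (mv 1165 (cons (fin 1166 3 1165)
(mv 1229 (cons (fin 1164 3 1164)
(mv 1293 (cons (fin 1292 1 1228)
(fin 1294 1 1229)))))))
(mv 1165 (cons (fin 1166 3 1165)
(mv 1170 (cons (fin 1169 2 1166)
(mv 1234 (cons (fin 1171 2 1167)
(mv 1235 (cons (fin 1167 3 1167)
(mv 1299 (cons (fin 1298 0 1231)
(fin 1300 0 1232)))))))))))))))))))))))))))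
(cons (mv 976 (cons (cons (mv 911 (cons (fin 975 7 911)
(mv 912 (cons (fin 847 7 847)
(mv 913 (cons (fin 849 6 848)
(fin 977 6 912)))))))
(mv 911 (cons (fin 975 7 911)
(mv 912 (cons (fin 847 7 847)
(mv 1169 (cons (fin 1105 4 912)
(fin 1233 4 976))))))))
(cons (mv 913 (cons (fin 977 6 912)
(mv 912 (cons (fin 849 6 848)
(mv 1169 (cons (fin 1105 4 912)
(fin 1233 4 976)))))))
(mv 975 (cons (fin 911 7 911)
(mv 977 (cons (fin 913 6 912)
(mv 909 (cons (fin 910 3 909)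
(mv 1038 (cons (fin 1037 1 973)
(mv 978 (cons (fin 1039 1 974)
(mv 914 (cons (fin 915 2 911)
(mv 1041 (cons (fin 1042 0 974)
(mv 1169 (cons (fin 1105 6 913)
(fin 1233 4 976))))))))))))))))))))
(mv 1232 (cons (cons (mv 977 (cons (fin 1041 6 976)
(mv 913 (cons (fin 976 6 912)
(mv 1295 (cons (fin 1231 5 1039)
(mv 1296 (cons (fin 1359 5 1103)
(mv 1297 (cons (fin 1233 4 1040)
(fin 1361 4 1104)))))))))))
(mv 977 (cons (fin 1041 6 976)
(mv 976 (cons (fin 913 6 912)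
(mv 1231 (cons (fin 1167 5 975)
(fin 1295 5 1039))))))))
(cons (mv 977 (cons (fin 1041 6 976)
(mv 976 (cons (fin 913 6 912)
(mv 1233 (cons (fin 1169 4 976)
(fin 1297 4 1040)))))))
(cons (mv 1231 (cons (fin 1295 5 1039)
(mv 976 (cons (fin 1167 5 975)
(mv 1233 (cons (fin 1169 4 976)
(fin 1297 4 1040)))))))
(mv 977 (cons (fin 1041 6 976)
(mv 1295 (cons (fin 1231 5 1039)
(mv 1296 (cons (fin 1359 5 1103)
(mv 1297 (cons (fin 1233 4 1040)
(fin 1361 4 1104)))))))))))))))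
(cons (cons (mv 1232 (cons (cons (mv 975 (cons (fin 1039 7 975)
(mv 911 (cons (fin 976 7 911)
(mv 1231 (cons (fin 1295 5 1039)
(mv 1297 (cons (fin 1233 4 1040)
(mv 1296 (cons (fin 1361 4 1104)
(mv 1105 (cons (fin 1041 6 1040)
(mv 1169 (cons (fin 1360 6 1104)
(mv 1170 (cons (fin 1171 1 1167)
(mv 1230 (cons (fin 1167 1 1166)
(fin 1229 2 1165)))))))))))))))))))
(cons (mv 975 (cons (fin 1039 7 975)
(mv 911 (cons (fin 976 7 911)
(mv 1295 (cons (fin 1231 5 1039)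
(mv 1296 (cons (fin 1359 5 1103)
(mv 1105 (cons (fin 1041 6 1040)
(mv 1360 (cons (fin 1169 6 1104)
(mv 1361 (cons (fin 1297 4 1104)
(fin 1425 4 1168)))))))))))))))
(mv 975 (cons (fin 1039 7 975)
(mv 911 (cons (fin 976 7 911)
(mv 1297 (cons (fin 1233 4 1040)
(mv 1296 (cons (fin 1361 4 1104)
(mv 1105 (cons (fin 1041 6 1040)
(mv 1359 (cons (fin 1295 5 1103)
(mv 1360 (cons (fin 1423 5 1167)
(fin 1169 6 1104)))))))))))))))))
(cons (cons (mv 975 (cons (fin 1039 7 975)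
(mv 976 (cons (fin 911 7 911)
(mv 1231 (cons (fin 1167 5 975)
(fin 1295 5 1039)))))))
(mv 1231 (cons (fin 1295 5 1039)
(mv 976 (cons (fin 1167 5 975)
(mv 1233 (cons (fin 1169 4 976)
(fin 1297 4 1040))))))))
(cons (mv 975 (cons (fin 1039 7 975)
(mv 976 (cons (fin 911 7 911)
(mv 1233 (cons (fin 1169 4 976)
(fin 1297 4 1040)))))))
(mv 975 (cons (fin 1039 7 975)
(mv 1231 (cons (fin 1295 5 1039)
(mv 1297 (cons (fin 1233 4 1040)
(mv 1296 (cons (fin 1361 4 1104)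
(mv 1105 (cons (fin 1041 6 1040)
(mv 1169 (cons (fin 1360 6 1104)
(mv 1170 (cons (fin 1171 1 1167)
(mv 1230 (cons (fin 1167 1 1166)
(fin 1229 2 1165)))))))))))))))))))))
(mv 976 (cons (cons (mv 911 (cons (fin 975 7 911)
(mv 847 (cons (fin 912 7 847)
(mv 977 (cons (fin 913 6 912)
(mv 1231 (cons (fin 1167 5 975)
(mv 1232 (cons (fin 1295 5 1039)
(fin 1041 6 976)))))))))))
(cons (mv 911 (cons (fin 975 7 911)
(mv 912 (cons (fin 847 7 847)
(mv 849 (cons (fin 913 6 848)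
(mv 848 (cons (fin 785 6 784)
(mv 1105 (cons (fin 1041 4 848)
(fin 1169 4 912)))))))))))
(mv 913 (cons (fin 977 6 912)
(mv 912 (cons (fin 849 6 848)
(mv 847 (cons (fin 911 7 847)
(mv 848 (cons (fin 783 7 783)
(mv 1105 (cons (fin 1041 4 848)
(fin 1169 4 912)))))))))))))
(cons (cons (mv 911 (cons (fin 975 7 911)
(mv 912 (cons (fin 847 7 847)
(mv 1105 (cons (fin 1169 4 912)
(mv 1041 (cons (fin 848 4 848)
(mv 1232 (cons (fin 977 6 976)
(fin 1296 6 1040)))))))))))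
(mv 913 (cons (fin 977 6 912)
(mv 912 (cons (fin 849 6 848)
(mv 1105 (cons (fin 1169 4 912)
(mv 1041 (cons (fin 848 4 848)
(mv 1167 (cons (fin 1231 5 975)
(mv 1106 (cons (fin 1107 1 1103)
(mv 1039 (cons (fin 1038 0 1038)
(mv 975 (cons (fin 1042 3 974)
(fin 1232 7 975))))))))))))))))))
(cons (mv 911 (cons (fin 975 7 911)
(mv 977 (cons (fin 913 6 912)
(mv 1231 (cons (fin 1167 5 975)
(mv 1232 (cons (fin 1295 5 1039)
(fin 1041 6 976)))))))))
(mv 911 (cons (fin 975 7 911)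
(mv 912 (cons (fin 847 7 847)
(mv 913 (cons (fin 849 6 848)
(fin 977 6 912))))))))))))
(cons (mv 976 (cons (cons (mv 911 (cons (fin 975 7 911)
(mv 847 (cons (fin 912 7 847)
(mv 913 (cons (fin 977 6 912)
(mv 1231 (cons (fin 1167 5 975)
(mv 1232 (cons (fin 1295 5 1039)
(mv 1233 (cons (fin 1169 4 976)
(fin 1297 4 1040)))))))))))))
(mv 913 (cons (fin 977 6 912)
(mv 849 (cons (fin 912 6 848)
(mv 1231 (cons (fin 1167 5 975)
(mv 1232 (cons (fin 1295 5 1039)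
(mv 1233 (cons (fin 1169 4 976)
(fin 1297 4 1040))))))))))))
(cons (mv 911 (cons (fin 975 7 911)
(mv 912 (cons (fin 847 7 847)
(mv 913 (cons (fin 849 6 848)
(fin 977 6 912)))))))
(cons (mv 911 (cons (fin 975 7 911)
(mv 847 (cons (fin 912 7 847)
(mv 1231 (cons (fin 1167 5 975)
(mv 1232 (cons (fin 1295 5 1039)
(mv 1233 (cons (fin 1169 4 976)
(fin 1297 4 1040)))))))))))
(mv 911 (cons (fin 975 7 911)
(mv 913 (cons (fin 977 6 912)
(mv 1231 (cons (fin 1167 5 975)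
(mv 1232 (cons (fin 1295 5 1039)
(mv 1233 (cons (fin 1169 4 976)
(fin 1297 4 1040)))))))))))))))
(mv 1232 (cons (cons (mv 975 (cons (fin 1039 7 975)
(mv 911 (cons (fin 976 7 911)
(mv 977 (cons (fin 1041 6 976)
(mv 1295 (cons (fin 1231 5 1039)
(mv 1296 (cons (fin 1359 5 1103)
(mv 1297 (cons (fin 1233 4 1040)
(fin 1361 4 1104)))))))))))))
(cons (mv 975 (cons (fin 1039 7 975)
(mv 911 (cons (fin 976 7 911)
(mv 1295 (cons (fin 1231 5 1039)
(mv 1296 (cons (fin 1359 5 1103)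
(mv 1297 (cons (fin 1233 4 1040)
(fin 1361 4 1104)))))))))))
(mv 975 (cons (fin 1039 7 975)
(mv 911 (cons (fin 976 7 911)
(mv 1041 (cons (fin 977 6 976)
(mv 1296 (cons (fin 1105 6 1040)
(mv 1297 (cons (fin 1233 4 1040)
(fin 1361 4 1104)))))))))))))
(cons (cons (mv 977 (cons (fin 1041 6 976)
(mv 913 (cons (fin 976 6 912)
(mv 1295 (cons (fin 1231 5 1039)
(mv 1296 (cons (fin 1359 5 1103)
(mv 1297 (cons (fin 1233 4 1040)
(fin 1361 4 1104)))))))))))
(mv 975 (cons (fin 1039 7 975)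
(mv 911 (cons (fin 976 7 911)
(mv 1041 (cons (fin 977 6 976)
(mv 1295 (cons (fin 1231 5 1039)
(mv 1296 (cons (fin 1359 5 1103)
(fin 1105 6 1040))))))))))))
(cons (mv 975 (cons (fin 1039 7 975)
(mv 977 (cons (fin 1041 6 976)
(mv 1295 (cons (fin 1231 5 1039)
(mv 1296 (cons (fin 1359 5 1103)
(mv 1297 (cons (fin 1233 4 1040)
(fin 1361 4 1104)))))))))))
(mv 975 (cons (fin 1039 7 975)
(mv 976 (cons (fin 911 7 911)
(mv 977 (cons (fin 913 6 912)
(fin 1041 6 976)))))))))))))))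
(mv 1168 (cons (cons (cons (mv 1232 (cons (cons (mv 975 (cons (fin 1039 7 975)
(mv 911 (cons (fin 976 7 911)
(mv 977 (cons (fin 1041 6 976)
(mv 1295 (cons (fin 1231 5 1039)
(mv 1296 (cons (fin 1359 5 1103)
(mv 1297 (cons (fin 1233 4 1040)
(fin 1361 4 1104)))))))))))))
(cons (mv 977 (cons (fin 1041 6 976)
(mv 913 (cons (fin 976 6 912)
(mv 1295 (cons (fin 1231 5 1039)
(mv 1296 (cons (fin 1359 5 1103)
(mv 1297 (cons (fin 1233 4 1040)
(fin 1361 4 1104)))))))))))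
(mv 975 (cons (fin 1039 7 975)
(mv 911 (cons (fin 976 7 911)
(mv 1295 (cons (fin 1231 5 1039)
(mv 1296 (cons (fin 1359 5 1103)
(mv 1297 (cons (fin 1233 4 1040)
(fin 1361 4 1104)))))))))))))
(cons (cons (mv 975 (cons (fin 1039 7 975)
(mv 911 (cons (fin 976 7 911)
(mv 1041 (cons (fin 977 6 976)
(mv 1295 (cons (fin 1231 5 1039)
(mv 1296 (cons (fin 1359 5 1103)
(fin 1105 6 1040)))))))))))
(mv 975 (cons (fin 1039 7 975)
(mv 911 (cons (fin 976 7 911)
(mv 1041 (cons (fin 977 6 976)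
(mv 1296 (cons (fin 1105 6 1040)
(mv 1297 (cons (fin 1233 4 1040)
(fin 1361 4 1104))))))))))))
(cons (mv 975 (cons (fin 1039 7 975)
(mv 976 (cons (fin 911 7 911)
(mv 977 (cons (fin 913 6 912)
(fin 1041 6 976)))))))
(mv 975 (cons (fin 1039 7 975)
(mv 977 (cons (fin 1041 6 976)
(mv 1295 (cons (fin 1231 5 1039)
(mv 1296 (cons (fin 1359 5 1103)
(mv 1297 (cons (fin 1233 4 1040)
(fin 1361 4 1104)))))))))))))))
(mv 976 (cons (cons (mv 911 (cons (fin 975 7 911)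
(mv 912 (cons (fin 847 7 847)
(mv 913 (cons (fin 849 6 848)
(fin 977 6 912)))))))
(mv 911 (cons (fin 975 7 911)
(mv 912 (cons (fin 847 7 847)
(mv 1169 (cons (fin 1105 4 912)
(fin 1233 4 976))))))))
(cons (mv 913 (cons (fin 977 6 912)
(mv 912 (cons (fin 849 6 848)
(mv 1169 (cons (fin 1105 4 912)
(fin 1233 4 976)))))))
(mv 975 (cons (fin 911 7 911)
(mv 977 (cons (fin 913 6 912)
(mv 909 (cons (fin 910 3 909)
(mv 1038 (cons (fin 1037 1 973)
(mv 978 (cons (fin 1039 1 974)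
(mv 914 (cons (fin 915 2 911)
(mv 1041 (cons (fin 1042 0 974)
(mv 1169 (cons (fin 1105 6 913)
(fin 1233 4 976)))))))))))))))))))))
(cons (mv 1232 (cons (cons (mv 975 (cons (fin 1039 7 975)
(mv 977 (cons (fin 1041 6 976)
(mv 1295 (cons (fin 1231 5 1039)
(mv 1296 (cons (fin 1359 5 1103)
(mv 1297 (cons (fin 1233 4 1040)
(fin 1361 4 1104)))))))))))
(cons (mv 977 (cons (fin 1041 6 976)
(mv 1295 (cons (fin 1231 5 1039)
(mv 1296 (cons (fin 1359 5 1103)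
(mv 1297 (cons (fin 1233 4 1040)
(fin 1361 4 1104)))))))))
(mv 975 (cons (fin 1039 7 975)
(mv 1295 (cons (fin 1231 5 1039)
(mv 1296 (cons (fin 1359 5 1103)
(mv 1297 (cons (fin 1233 4 1040)
(fin 1361 4 1104)))))))))))
(cons (mv 975 (cons (fin 1039 7 975)
(mv 1041 (cons (fin 977 6 976)
(mv 1295 (cons (fin 1231 5 1039)
(mv 1296 (cons (fin 1359 5 1103)
(fin 1105 6 1040)))))))))
(cons (mv 975 (cons (fin 1039 7 975)
(mv 1041 (cons (fin 977 6 976)
(mv 1296 (cons (fin 1105 6 1040)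
(mv 1297 (cons (fin 1233 4 1040)
(fin 1361 4 1104)))))))))
(mv 975 (cons (fin 1039 7 975)
(mv 977 (cons (fin 1041 6 976)
(mv 1231 (cons (fin 1295 5 1039)
(mv 1233 (cons (fin 1297 4 1040)
(mv 1234 (cons (cons (mv 1170 (cons (fin 1171 2 1167)
(mv 1169 (cons (fin 1230 2 1166)
(mv 1235 (cons (fin 1236 3 1168)
(mv 1299 (cons (fin 1298 0 1231)
(fin 1300 0 1232)))))))))
(mv 1299 (cons (fin 1298 0 1231)
(mv 1235 (cons (fin 1300 0 1232)
(mv 1172 (cons (fin 1171 2 1168)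
(mv 1236 (cons (fin 1169 3 1168)
(fin 1173 2 1169))))))))))
(cons (mv 1299 (cons (fin 1298 0 1231)
(mv 1235 (cons (fin 1300 0 1232)
(mv 1169 (cons (fin 1236 3 1168)
(mv 1230 (cons (fin 1229 2 1165)
(fin 1170 2 1166)))))))))
(cons (mv 1170 (cons (fin 1171 2 1167)
(mv 1230 (cons (fin 1169 2 1166)
(mv 1165 (cons (fin 1166 3 1165)
(mv 1229 (cons (fin 1164 3 1164)
(mv 1293 (cons (fin 1292 1 1228)
(fin 1294 1 1229)))))))))))
(mv 1171 (cons (fin 1170 2 1167)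
(mv 1235 (cons (fin 1172 2 1168)
(mv 1299 (cons (fin 1298 0 1231)
(fin 1300 0 1232)))))))))))))))))))))))
(mv 1232 (cons (cons (mv 977 (cons (fin 1041 6 976)
(mv 913 (cons (fin 976 6 912)
(mv 1295 (cons (fin 1231 5 1039)
(mv 1296 (cons (fin 1359 5 1103)
(mv 1297 (cons (fin 1233 4 1040)
(fin 1361 4 1104)))))))))))
(mv 1231 (cons (fin 1295 5 1039)
(mv 1233 (cons (fin 1297 4 1040)
(mv 1169 (cons (fin 976 4 976)
(mv 1170 (cons (fin 1171 1 1167)
(fin 1230 2 1166))))))))))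
(cons (mv 1041 (cons (fin 977 6 976)
(mv 1295 (cons (fin 1231 5 1039)
(mv 1296 (cons (fin 1359 5 1103)
(fin 1105 6 1040)))))))
(mv 977 (cons (fin 1041 6 976)
(mv 976 (cons (fin 913 6 912)
(mv 1233 (cons (fin 1169 4 976)
(fin 1297 4 1040))))))))))))
(cons (cons (mv 1232 (cons (cons (mv 975 (cons (fin 1039 7 975)
(mv 911 (cons (fin 976 7 911)
(mv 1231 (cons (fin 1295 5 1039)
(mv 1297 (cons (fin 1233 4 1040)
(mv 1296 (cons (fin 1361 4 1104)
(mv 1105 (cons (fin 1041 6 1040)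
(mv 1169 (cons (fin 1360 6 1104)
(mv 1170 (cons (fin 1171 1 1167)
(mv 1102 (cons (fin 1103 0 1102)
(mv 1038 (cons (fin 1166 6 910)
(mv 847 (cons (fin 783 5 782)
(fin 910 6 846)))))))))))))))))))))))
(mv 1231 (cons (fin 1295 5 1039)
(mv 1233 (cons (fin 1297 4 1040)
(mv 1169 (cons (fin 976 4 976)
(mv 1170 (cons (fin 1171 1 1167)
(fin 1230 2 1166))))))))))
(cons (mv 975 (cons (fin 1039 7 975)
(mv 911 (cons (fin 976 7 911)
(mv 1295 (cons (fin 1231 5 1039)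
(mv 1296 (cons (fin 1359 5 1103)
(mv 1105 (cons (fin 1041 6 1040)
(mv 1360 (cons (fin 1169 6 1104)
(mv 1361 (cons (fin 1297 4 1104)
(fin 1425 4 1168)))))))))))))))
(cons (mv 975 (cons (fin 1039 7 975)
(mv 976 (cons (fin 911 7 911)
(mv 1169 (cons (fin 1233 4 976)
(mv 1105 (cons (fin 912 4 912)
(mv 1296 (cons (fin 1041 6 1040)
(fin 1360 6 1104)))))))))))
(mv 975 (cons (fin 1039 7 975)
(mv 1295 (cons (fin 1231 5 1039)
(mv 1296 (cons (fin 1359 5 1103)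
(mv 1297 (cons (fin 1233 4 1040)
(fin 1361 4 1104)))))))))))))
(mv 1232 (cons (cons (mv 975 (cons (fin 1039 7 975)
(mv 911 (cons (fin 976 7 911)
(mv 1041 (cons (fin 977 6 976)
(mv 1295 (cons (fin 1231 5 1039)
(mv 1296 (cons (fin 1359 5 1103)
(fin 1105 6 1040)))))))))))
(mv 1041 (cons (fin 977 6 976)
(mv 1295 (cons (fin 1231 5 1039)
(mv 1296 (cons (fin 1359 5 1103)
(fin 1105 6 1040))))))))
(cons (mv 1039 (cons (fin 975 7 975)
(mv 1295 (cons (fin 1231 5 1039)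
(mv 1296 (cons (fin 1103 7 1039)
(fin 1359 5 1103)))))))
(mv 975 (cons (fin 1039 7 975)
(mv 976 (cons (fin 911 7 911)
(mv 977 (cons (fin 913 6 912)
(fin 1041 6 976)))))))))))
(cons (mv 976 (cons (cons (mv 911 (cons (fin 975 7 911)
(mv 847 (cons (fin 912 7 847)
(mv 977 (cons (fin 913 6 912)
(mv 1233 (cons (fin 1169 4 976)
(mv 1232 (cons (fin 1297 4 1040)
(mv 1295 (cons (fin 1231 5 1039)
(mv 1296 (cons (fin 1359 5 1103)
(mv 1039 (cons (fin 1103 7 1039)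
(mv 978 (cons (fin 979 1 975)
(mv 1038 (cons (fin 1037 2 973)
(mv 910 (cons (fin 1102 6 846)
(mv 783 (cons (fin 719 5 718)
(fin 846 6 782)))))))))))))))))))))))))
(mv 913 (cons (fin 977 6 912)
(mv 912 (cons (fin 849 6 848)
(mv 1169 (cons (fin 1105 4 912)
(fin 1233 4 976))))))))
(cons (mv 911 (cons (fin 975 7 911)
(mv 912 (cons (fin 847 7 847)
(mv 913 (cons (fin 849 6 848)
(fin 977 6 912)))))))
(cons (mv 911 (cons (fin 975 7 911)
(mv 912 (cons (fin 847 7 847)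
(mv 1169 (cons (fin 1105 4 912)
(fin 1233 4 976)))))))
(mv 913 (cons (fin 977 6 912)
(mv 975 (cons (fin 911 7 911)
(mv 1169 (cons (fin 1233 4 976)
(mv 1232 (cons (fin 1039 7 975)
(mv 1295 (cons (fin 1231 5 1039)
(mv 1296 (cons (fin 1359 5 1103)
(mv 1360 (cons (fin 1105 6 1104)
(mv 1361 (cons (fin 1297 4 1104)
(fin 1425 4 1168)))))))))))))))))))))
(mv 1232 (cons (cons (mv 975 (cons (fin 1039 7 975)
(mv 911 (cons (fin 976 7 911)
(mv 977 (cons (fin 1041 6 976)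
(mv 1295 (cons (fin 1231 5 1039)
(mv 1296 (cons (fin 1359 5 1103)
(mv 1297 (cons (fin 1233 4 1040)
(fin 1361 4 1104)))))))))))))
(mv 977 (cons (fin 1041 6 976)
(mv 913 (cons (fin 976 6 912)
(mv 1295 (cons (fin 1231 5 1039)
(mv 1296 (cons (fin 1359 5 1103)
(mv 1297 (cons (fin 1233 4 1040)
(fin 1361 4 1104))))))))))))
(cons (mv 975 (cons (fin 1039 7 975)
(mv 976 (cons (fin 911 7 911)
(mv 977 (cons (fin 913 6 912)
(fin 1041 6 976)))))))
(cons (mv 975 (cons (fin 1039 7 975)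
(mv 911 (cons (fin 976 7 911)
(mv 1295 (cons (fin 1231 5 1039)
(mv 1296 (cons (fin 1359 5 1103)
(mv 1297 (cons (fin 1233 4 1040)
(fin 1361 4 1104)))))))))))
(mv 975 (cons (fin 1039 7 975)
(mv 977 (cons (fin 1041 6 976)
(mv 1295 (cons (fin 1231 5 1039)
(mv 1296 (cons (fin 1359 5 1103)
(mv 1297 (cons (fin 1233 4 1040)
(fin 1361 4 1104))))))))))))))))))))
(cons (mv 976 (cons (cons (mv 912 (cons (cons (mv 847 (cons (fin 911 7 847)
(mv 783 (cons (fin 848 7 783)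
(mv 849 (cons (fin 913 6 848)
(mv 1167 (cons (fin 1103 5 911)
(mv 1168 (cons (fin 1231 5 975)
(mv 1169 (cons (fin 1105 4 912)
(fin 1233 4 976)))))))))))))
(mv 847 (cons (fin 911 7 847)
(mv 848 (cons (fin 783 7 783)
(mv 849 (cons (fin 785 6 784)
(fin 913 6 848))))))))
(cons (mv 849 (cons (fin 913 6 848)
(mv 785 (cons (fin 848 6 784)
(mv 1167 (cons (fin 1103 5 911)
(mv 1168 (cons (fin 1231 5 975)
(mv 1169 (cons (fin 1105 4 912)
(fin 1233 4 976)))))))))))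
(cons (mv 847 (cons (fin 911 7 847)
(mv 783 (cons (fin 848 7 783)
(mv 1167 (cons (fin 1103 5 911)
(mv 1168 (cons (fin 1231 5 975)
(mv 1169 (cons (fin 1105 4 912)
(fin 1233 4 976)))))))))))
(mv 847 (cons (fin 911 7 847)
(mv 849 (cons (fin 913 6 848)
(mv 1167 (cons (fin 1103 5 911)
(mv 1168 (cons (fin 1231 5 975)
(mv 1169 (cons (fin 1105 4 912)
(fin 1233 4 976)))))))))))))))
(cons (mv 1168 (cons (cons (mv 911 (cons (fin 975 7 911)
(mv 1231 (cons (fin 1167 5 975)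
(mv 1232 (cons (fin 1295 5 1039)
(mv 1233 (cons (fin 1169 4 976)
(fin 1297 4 1040)))))))))
(mv 1231 (cons (fin 1167 5 975)
(mv 1232 (cons (fin 1295 5 1039)
(mv 1233 (cons (fin 1169 4 976)
(fin 1297 4 1040))))))))
(cons (mv 975 (cons (fin 911 7 911)
(mv 1232 (cons (fin 1039 7 975)
(mv 1233 (cons (fin 1169 4 976)
(fin 1297 4 1040)))))))
(cons (mv 975 (cons (fin 911 7 911)
(mv 1039 (cons (fin 1232 7 975)
(mv 1041 (cons (fin 1042 3 974)
(mv 1167 (cons (fin 1231 5 975)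
(mv 1103 (cons (fin 910 7 910)
(mv 1101 (cons (fin 1102 2 1037)
(mv 1166 (cons (fin 1230 5 974)
(mv 1105 (cons (fin 1106 1 1102)
(fin 1165 2 1101)))))))))))))))))
(mv 911 (cons (fin 975 7 911)
(mv 1167 (cons (fin 1231 5 975)
(mv 1169 (cons (fin 1233 4 976)
(mv 1166 (cons (mv 1105 (cons (fin 1165 2 1101)
(fin 1106 2 1102)))
(cons (mv 1101 (cons (fin 1102 3 1101)
(mv 1165 (cons (fin 1100 3 1100)
(mv 1229 (cons (fin 1228 1 1164)
(fin 1230 1 1165)))))))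
(mv 1101 (cons (fin 1102 3 1101)
(mv 1106 (cons (fin 1105 2 1102)
(mv 1170 (cons (fin 1107 2 1103)
(mv 1171 (cons (fin 1103 3 1103)
(mv 1235 (cons (fin 1234 0 1167)
(fin 1236 0 1168))))))))))))))))))))))))
(mv 912 (cons (cons (mv 847 (cons (fin 911 7 847)
(mv 848 (cons (fin 783 7 783)
(mv 849 (cons (fin 785 6 784)
(fin 913 6 848)))))))
(mv 849 (cons (fin 913 6 848)
(mv 848 (cons (fin 785 6 784)
(mv 1103 (cons (fin 1039 5 847)
(fin 1167 5 911))))))))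
(cons (mv 847 (cons (fin 911 7 847)
(mv 848 (cons (fin 783 7 783)
(mv 1103 (cons (fin 1039 5 847)
(fin 1167 5 911)))))))
(mv 911 (cons (fin 847 7 847)
(mv 913 (cons (fin 849 6 848)
(mv 914 (cons (fin 975 1 910)
(mv 850 (cons (fin 851 2 847)
(mv 978 (cons (fin 979 0 911)
(mv 1103 (cons (fin 1167 5 911)
(mv 1105 (cons (fin 1169 4 912)
(mv 1041 (cons (fin 1042 5 849)
(mv 1102 (cons (fin 1101 2 1037)
(mv 1038 (cons (fin 1037 3 1037)
(mv 1106 (cons (fin 1039 3 1038)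
(mv 1107 (cons (fin 1108 3 1040)
(mv 1171 (cons (fin 1170 0 1103)
(fin 1172 0 1104))))))))))))))))))))))))))))))))
(cons (mv 912 (cons (cons (mv 847 (cons (fin 911 7 847)
(mv 848 (cons (fin 783 7 783)
(mv 849 (cons (fin 785 6 784)
(fin 913 6 848)))))))
(mv 849 (cons (fin 913 6 848)
(mv 848 (cons (fin 785 6 784)
(mv 1105 (cons (fin 1041 4 848)
(fin 1169 4 912))))))))
(cons (mv 847 (cons (fin 911 7 847)
(mv 848 (cons (fin 783 7 783)
(mv 1105 (cons (fin 1041 4 848)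
(fin 1169 4 912)))))))
(mv 849 (cons (fin 913 6 848)
(mv 911 (cons (fin 847 7 847)
(mv 1168 (cons (fin 975 7 911)
(mv 1169 (cons (fin 1105 4 912)
(fin 1233 4 976))))))))))))
(cons (mv 912 (cons (cons (mv 849 (cons (fin 913 6 848)
(mv 785 (cons (fin 848 6 784)
(mv 1167 (cons (fin 1103 5 911)
(mv 1168 (cons (fin 1231 5 975)
(mv 1169 (cons (fin 1105 4 912)
(fin 1233 4 976)))))))))))
(mv 849 (cons (fin 913 6 848)
(mv 848 (cons (fin 785 6 784)
(mv 1105 (cons (fin 1041 4 848)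
(fin 1169 4 912))))))))
(cons (mv 849 (cons (fin 913 6 848)
(mv 848 (cons (fin 785 6 784)
(mv 1103 (cons (fin 1039 5 847)
(fin 1167 5 911)))))))
(cons (mv 1103 (cons (fin 1167 5 911)
(mv 848 (cons (fin 1039 5 847)
(mv 1105 (cons (fin 1041 4 848)
(fin 1169 4 912)))))))
(mv 849 (cons (fin 913 6 848)
(mv 1167 (cons (fin 1103 5 911)
(mv 1168 (cons (fin 1231 5 975)
(mv 1169 (cons (fin 1105 4 912)
(fin 1233 4 976)))))))))))))
(mv 912 (cons (cons (mv 847 (cons (fin 911 7 847)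
(mv 848 (cons (fin 783 7 783)
(mv 849 (cons (fin 785 6 784)
(fin 913 6 848)))))))
(mv 849 (cons (fin 913 6 848)
(mv 848 (cons (fin 785 6 784)
(mv 1103 (cons (fin 1039 5 847)
(fin 1167 5 911))))))))
(cons (mv 847 (cons (fin 911 7 847)
(mv 848 (cons (fin 783 7 783)
(mv 1103 (cons (fin 1039 5 847)
(fin 1167 5 911)))))))
(mv 849 (cons (fin 913 6 848)
(mv 911 (cons (fin 847 7 847)
(mv 1167 (cons (fin 1103 5 911)
(mv 1168 (cons (fin 975 7 911)
(fin 1231 5 975))))))))))))))))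
(mv 1168 (cons (cons (mv 1232 (cons (cons (mv 975 (cons (fin 1039 7 975)
(mv 977 (cons (fin 1041 6 976)
(mv 913 (cons (fin 976 6 912)
(mv 1295 (cons (fin 1231 5 1039)
(mv 1296 (cons (fin 1359 5 1103)
(mv 1297 (cons (fin 1233 4 1040)
(fin 1361 4 1104)))))))))))))
(cons (mv 975 (cons (fin 1039 7 975)
(mv 977 (cons (fin 1041 6 976)
(mv 976 (cons (fin 913 6 912)
(mv 1233 (cons (fin 1169 4 976)
(fin 1297 4 1040)))))))))
(mv 975 (cons (fin 1039 7 975)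
(mv 977 (cons (fin 1041 6 976)
(mv 976 (cons (fin 913 6 912)
(mv 1231 (cons (fin 1167 5 975)
(fin 1295 5 1039)))))))))))
(cons (mv 975 (cons (fin 1039 7 975)
(mv 1231 (cons (fin 1295 5 1039)
(mv 976 (cons (fin 1167 5 975)
(mv 1233 (cons (fin 1169 4 976)
(fin 1297 4 1040)))))))))
(cons (mv 977 (cons (fin 1041 6 976)
(mv 913 (cons (fin 976 6 912)
(mv 1295 (cons (fin 1231 5 1039)
(mv 1296 (cons (fin 1359 5 1103)
(mv 1297 (cons (fin 1233 4 1040)
(fin 1361 4 1104)))))))))))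
(mv 975 (cons (fin 1039 7 975)
(mv 977 (cons (fin 1041 6 976)
(mv 1295 (cons (fin 1231 5 1039)
(mv 1296 (cons (fin 1359 5 1103)
(mv 1297 (cons (fin 1233 4 1040)
(fin 1361 4 1104)))))))))))))))
(cons (mv 976 (cons (cons (mv 913 (cons (fin 977 6 912)
(mv 912 (cons (fin 849 6 848)
(mv 1167 (cons (fin 1103 5 911)
(fin 1231 5 975)))))))
(mv 913 (cons (fin 977 6 912)
(mv 912 (cons (fin 849 6 848)
(mv 1169 (cons (fin 1105 4 912)
(fin 1233 4 976))))))))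
(cons (mv 1167 (cons (fin 1231 5 975)
(mv 912 (cons (fin 1103 5 911)
(mv 1169 (cons (fin 1105 4 912)
(fin 1233 4 976)))))))
(mv 913 (cons (fin 977 6 912)
(mv 1167 (cons (fin 1231 5 975)
(mv 1169 (cons (fin 1233 4 976)
(mv 1166 (cons (mv 1105 (cons (fin 1165 2 1101)
(fin 1106 2 1102)))
(cons (mv 1101 (cons (fin 1102 3 1101)
(mv 1165 (cons (fin 1100 3 1100)
(mv 1229 (cons (fin 1228 1 1164)
(fin 1230 1 1165)))))))
(mv 1101 (cons (fin 1102 3 1101)
(mv 1106 (cons (fin 1105 2 1102)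
(mv 1170 (cons (fin 1107 2 1103)
(mv 1171 (cons (fin 1103 3 1103)
(mv 1235 (cons (fin 1234 0 1167)
(fin 1236 0 1168)))))))))))))))))))))))
(mv 1232 (cons (cons (mv 975 (cons (fin 1039 7 975)
(mv 977 (cons (fin 1041 6 976)
(mv 1295 (cons (fin 1231 5 1039)
(mv 1296 (cons (fin 1359 5 1103)
(mv 1297 (cons (fin 1233 4 1040)
(fin 1361 4 1104)))))))))))
(cons (mv 975 (cons (fin 1039 7 975)
(mv 1295 (cons (fin 1231 5 1039)
(mv 1296 (cons (fin 1359 5 1103)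
(mv 1297 (cons (fin 1233 4 1040)
(fin 1361 4 1104)))))))))
(mv 977 (cons (fin 1041 6 976)
(mv 1295 (cons (fin 1231 5 1039)
(mv 1296 (cons (fin 1359 5 1103)
(mv 1297 (cons (fin 1233 4 1040)
(fin 1361 4 1104)))))))))))
(cons (mv 975 (cons (fin 1039 7 975)
(mv 1041 (cons (fin 977 6 976)
(mv 1296 (cons (fin 1105 6 1040)
(mv 1297 (cons (fin 1233 4 1040)
(fin 1361 4 1104)))))))))
(cons (mv 975 (cons (fin 1039 7 975)
(mv 1041 (cons (fin 977 6 976)
(mv 1295 (cons (fin 1231 5 1039)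
(mv 1296 (cons (fin 1359 5 1103)
(fin 1105 6 1040)))))))))
(mv 975 (cons (fin 1039 7 975)
(mv 977 (cons (fin 1041 6 976)
(mv 1231 (cons (fin 1295 5 1039)
(mv 1233 (cons (fin 1297 4 1040)
(mv 1230 (cons (mv 1169 (cons (fin 1229 2 1165)
(fin 1170 2 1166)))
(cons (mv 1165 (cons (fin 1166 3 1165)
(mv 1229 (cons (fin 1164 3 1164)
(mv 1293 (cons (fin 1292 1 1228)
(fin 1294 1 1229)))))))
(mv 1165 (cons (fin 1166 3 1165)
(mv 1170 (cons (fin 1169 2 1166)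
(mv 1234 (cons (fin 1171 2 1167)
(mv 1235 (cons (fin 1167 3 1167)
(mv 1299 (cons (fin 1298 0 1231)
(fin 1300 0 1232))))))))))))))))))))))))))))
(cons (cons (mv 1232 (cons (cons (mv 975 (cons (fin 1039 7 975)
(mv 1231 (cons (fin 1295 5 1039)
(mv 976 (cons (fin 1167 5 975)
(mv 1233 (cons (fin 1169 4 976)
(fin 1297 4 1040)))))))))
(cons (mv 975 (cons (fin 1039 7 975)
(mv 1297 (cons (fin 1233 4 1040)
(mv 1296 (cons (fin 1361 4 1104)
(mv 1105 (cons (fin 1041 6 1040)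
(mv 1359 (cons (fin 1295 5 1103)
(mv 1360 (cons (fin 1423 5 1167)
(fin 1169 6 1104)))))))))))))
(mv 975 (cons (fin 1039 7 975)
(mv 1295 (cons (fin 1231 5 1039)
(mv 1296 (cons (fin 1359 5 1103)
(mv 1105 (cons (fin 1041 6 1040)
(mv 1360 (cons (fin 1169 6 1104)
(mv 1361 (cons (fin 1297 4 1104)
(fin 1425 4 1168)))))))))))))))
(cons (cons (mv 1231 (cons (fin 1295 5 1039)
(mv 976 (cons (fin 1167 5 975)
(mv 1233 (cons (fin 1169 4 976)
(fin 1297 4 1040)))))))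
(mv 975 (cons (fin 1039 7 975)
(mv 1233 (cons (fin 1297 4 1040)
(mv 976 (cons (fin 1169 4 976)
(mv 1167 (cons (fin 1231 5 975)
(mv 1103 (cons (fin 912 5 911)
(mv 1166 (cons (fin 1165 0 1165)
(mv 1105 (cons (fin 1106 1 1102)
(mv 1296 (cons (fin 1360 7 1103)
(fin 1041 6 1040))))))))))))))))))
(cons (mv 975 (cons (fin 1039 7 975)
(mv 1231 (cons (fin 1295 5 1039)
(mv 976 (cons (fin 1167 5 975)
(mv 1169 (cons (fin 1233 4 976)
(mv 1105 (cons (fin 912 4 912)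
(mv 1296 (cons (fin 1041 6 1040)
(fin 1360 6 1104)))))))))))))
(mv 975 (cons (fin 1039 7 975)
(mv 1231 (cons (fin 1295 5 1039)
(mv 1167 (cons (fin 976 5 975)
(mv 1233 (cons (fin 1297 4 1040)
(mv 1166 (cons (fin 1234 3 1166)
(fin 1165 0 1165)))))))))))))))
(mv 1232 (cons (cons (mv 975 (cons (fin 1039 7 975)
(mv 977 (cons (fin 1041 6 976)
(mv 976 (cons (fin 913 6 912)
(mv 1233 (cons (fin 1169 4 976)
(fin 1297 4 1040)))))))))
(mv 1039 (cons (fin 975 7 975)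
(mv 1103 (cons (fin 1296 7 1039)
(mv 1233 (cons (fin 1297 4 1040)
(mv 976 (cons (fin 1169 4 976)
(mv 912 (cons (fin 848 5 847)
(fin 1167 5 911))))))))))))
(cons (mv 975 (cons (fin 1039 7 975)
(mv 1041 (cons (fin 977 6 976)
(mv 1296 (cons (fin 1105 6 1040)
(mv 1359 (cons (fin 1295 5 1103)
(mv 1360 (cons (fin 1423 5 1167)
(mv 1361 (cons (fin 1297 4 1104)
(fin 1425 4 1168)))))))))))))
(cons (mv 977 (cons (fin 1041 6 976)
(mv 976 (cons (fin 913 6 912)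
(mv 1233 (cons (fin 1169 4 976)
(fin 1297 4 1040)))))))
(mv 977 (cons (fin 1041 6 976)
(mv 913 (cons (fin 976 6 912)
(mv 1039 (cons (fin 975 7 975)
(mv 1296 (cons (fin 1103 7 1039)
(mv 1359 (cons (fin 1295 5 1103)
(mv 1360 (cons (fin 1423 5 1167)
(mv 1169 (cons (fin 1105 6 1104)
(mv 1424 (cons (fin 1233 6 1168)
(mv 1425 (cons (fin 1361 4 1168)
(fin 1489 4 1232))))))))))))))))))))))))
(cons (mv 1232 (cons (cons (mv 975 (cons (fin 1039 7 975)
(mv 977 (cons (fin 1041 6 976)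
(mv 976 (cons (fin 913 6 912)
(mv 1231 (cons (fin 1167 5 975)
(fin 1295 5 1039)))))))))
(mv 975 (cons (fin 1039 7 975)
(mv 1041 (cons (fin 977 6 976)
(mv 1296 (cons (fin 1105 6 1040)
(mv 1359 (cons (fin 1295 5 1103)
(mv 1360 (cons (fin 1423 5 1167)
(mv 1361 (cons (fin 1297 4 1104)
(fin 1425 4 1168))))))))))))))
(cons (mv 1039 (cons (fin 975 7 975)
(mv 1103 (cons (fin 1296 7 1039)
(mv 1231 (cons (fin 1295 5 1039)
(mv 1167 (cons (fin 1038 7 974)
(fin 976 5 975)))))))))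
(cons (mv 977 (cons (fin 1041 6 976)
(mv 976 (cons (fin 913 6 912)
(mv 1231 (cons (fin 1167 5 975)
(fin 1295 5 1039)))))))
(mv 975 (cons (fin 1039 7 975)
(mv 977 (cons (fin 1041 6 976)
(mv 976 (cons (fin 913 6 912)
(mv 910 (cons (fin 909 3 909)
(mv 1038 (cons (fin 1037 1 973)
(mv 1167 (cons (fin 1231 5 975)
(mv 1103 (cons (fin 912 5 911)
(fin 1102 4 910)))))))))))))))))))
(mv 1232 (cons (cons (mv 975 (cons (fin 1039 7 975)
(mv 977 (cons (fin 1041 6 976)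
(mv 913 (cons (fin 976 6 912)
(mv 1295 (cons (fin 1231 5 1039)
(mv 1296 (cons (fin 1359 5 1103)
(mv 1297 (cons (fin 1233 4 1040)
(fin 1361 4 1104)))))))))))))
(mv 975 (cons (fin 1039 7 975)
(mv 1231 (cons (fin 1295 5 1039)
(mv 1233 (cons (fin 1297 4 1040)
(mv 1169 (cons (fin 976 4 976)
(mv 1170 (cons (fin 1171 1 1167)
(fin 1230 2 1166))))))))))))
(cons (mv 975 (cons (fin 1039 7 975)
(mv 1041 (cons (fin 977 6 976)
(mv 1295 (cons (fin 1231 5 1039)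
(mv 1296 (cons (fin 1359 5 1103)
(fin 1105 6 1040)))))))))
(cons (mv 977 (cons (fin 1041 6 976)
(mv 913 (cons (fin 976 6 912)
(mv 1295 (cons (fin 1231 5 1039)
(mv 1296 (cons (fin 1359 5 1103)
(mv 1297 (cons (fin 1233 4 1040)
(fin 1361 4 1104)))))))))))
(mv 975 (cons (fin 1039 7 975)
(mv 977 (cons (fin 1041 6 976)
(mv 976 (cons (fin 913 6 912)
(mv 1233 (cons (fin 1169 4 976)
(fin 1297 4 1040)))))))))))))))))))
(cons (cons (mv 1168 (cons (cons (cons (mv 1232 (cons (cons (cons (mv 975 (cons (fin 1039 7 975)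
(mv 911 (cons (fin 976 7 911)
(mv 977 (cons (fin 1041 6 976)
(mv 1295 (cons (fin 1231 5 1039)
(mv 1296 (cons (fin 1359 5 1103)
(mv 1297 (cons (fin 1233 4 1040)
(fin 1361 4 1104)))))))))))))
(mv 977 (cons (fin 1041 6 976)
(mv 913 (cons (fin 976 6 912)
(mv 1295 (cons (fin 1231 5 1039)
(mv 1296 (cons (fin 1359 5 1103)
(mv 1297 (cons (fin 1233 4 1040)
(fin 1361 4 1104))))))))))))
(cons (mv 975 (cons (fin 1039 7 975)
(mv 911 (cons (fin 976 7 911)
(mv 1295 (cons (fin 1231 5 1039)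
(mv 1296 (cons (fin 1359 5 1103)
(mv 1297 (cons (fin 1233 4 1040)
(fin 1361 4 1104)))))))))))
(mv 975 (cons (fin 1039 7 975)
(mv 911 (cons (fin 976 7 911)
(mv 1041 (cons (fin 977 6 976)
(mv 1233 (cons (fin 1297 4 1040)
(mv 1296 (cons (fin 1105 6 1040)
(mv 1359 (cons (fin 1295 5 1103)
(mv 1360 (cons (fin 1423 5 1167)
(mv 1103 (cons (fin 1167 7 1103)
(mv 1102 (cons (fin 1101 2 1037)
(mv 1038 (cons (fin 1166 6 910)
(mv 847 (cons (fin 783 5 782)
(fin 910 6 846)))))))))))))))))))))))))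
(cons (cons (mv 975 (cons (fin 1039 7 975)
(mv 911 (cons (fin 976 7 911)
(mv 1041 (cons (fin 977 6 976)
(mv 1296 (cons (fin 1105 6 1040)
(mv 1297 (cons (fin 1233 4 1040)
(fin 1361 4 1104)))))))))))
(mv 975 (cons (fin 1039 7 975)
(mv 911 (cons (fin 976 7 911)
(mv 1041 (cons (fin 977 6 976)
(mv 1295 (cons (fin 1231 5 1039)
(mv 1296 (cons (fin 1359 5 1103)
(fin 1105 6 1040))))))))))))
(cons (mv 975 (cons (fin 1039 7 975)
(mv 976 (cons (fin 911 7 911)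
(mv 977 (cons (fin 913 6 912)
(fin 1041 6 976)))))))
(mv 975 (cons (fin 1039 7 975)
(mv 977 (cons (fin 1041 6 976)
(mv 1295 (cons (fin 1231 5 1039)
(mv 1296 (cons (fin 1359 5 1103)
(mv 1297 (cons (fin 1233 4 1040)
(fin 1361 4 1104)))))))))))))))
(mv 976 (cons (cons (mv 911 (cons (fin 975 7 911)
(mv 912 (cons (fin 847 7 847)
(mv 913 (cons (fin 849 6 848)
(fin 977 6 912)))))))
(mv 911 (cons (fin 975 7 911)
(mv 912 (cons (fin 847 7 847)
(mv 1167 (cons (fin 1103 5 911)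
(fin 1231 5 975))))))))
(cons (mv 913 (cons (fin 977 6 912)
(mv 912 (cons (fin 849 6 848)
(mv 1167 (cons (fin 1103 5 911)
(fin 1231 5 975)))))))
(mv 975 (cons (fin 911 7 911)
(mv 977 (cons (fin 913 6 912)
(mv 909 (cons (fin 910 3 909)
(mv 1038 (cons (fin 1037 1 973)
(mv 978 (cons (fin 1039 1 974)
(mv 915 (cons (fin 914 2 911)
(mv 979 (cons (fin 916 2 912)
(mv 1041 (cons (fin 980 1 976)
(fin 1042 0 974)))))))))))))))))))))
(cons (mv 1232 (cons (cons (mv 975 (cons (fin 1039 7 975)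
(mv 977 (cons (fin 1041 6 976)
(mv 1295 (cons (fin 1231 5 1039)
(mv 1296 (cons (fin 1359 5 1103)
(mv 1297 (cons (fin 1233 4 1040)
(fin 1361 4 1104)))))))))))
(cons (mv 977 (cons (fin 1041 6 976)
(mv 1295 (cons (fin 1231 5 1039)
(mv 1296 (cons (fin 1359 5 1103)
(mv 1297 (cons (fin 1233 4 1040)
(fin 1361 4 1104)))))))))
(mv 975 (cons (fin 1039 7 975)
(mv 1295 (cons (fin 1231 5 1039)
(mv 1296 (cons (fin 1359 5 1103)
(mv 1297 (cons (fin 1233 4 1040)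
(fin 1361 4 1104)))))))))))
(cons (mv 975 (cons (fin 1039 7 975)
(mv 1041 (cons (fin 977 6 976)
(mv 1296 (cons (fin 1105 6 1040)
(mv 1297 (cons (fin 1233 4 1040)
(fin 1361 4 1104)))))))))
(cons (mv 975 (cons (fin 1039 7 975)
(mv 1041 (cons (fin 977 6 976)
(mv 1295 (cons (fin 1231 5 1039)
(mv 1296 (cons (fin 1359 5 1103)
(fin 1105 6 1040)))))))))
(mv 975 (cons (fin 1039 7 975)
(mv 977 (cons (fin 1041 6 976)
(mv 1231 (cons (fin 1295 5 1039)
(mv 1233 (cons (fin 1297 4 1040)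
(mv 1230 (cons (cons (mv 1165 (cons (fin 1166 3 1165)
(mv 1229 (cons (fin 1164 3 1164)
(mv 1293 (cons (fin 1292 1 1228)
(fin 1294 1 1229)))))))
(mv 1293 (cons (fin 1294 1 1229)
(mv 1229 (cons (fin 1292 1 1228)
(mv 1164 (cons (fin 1165 3 1164)
(mv 1228 (cons (fin 1163 3 1163)
(fin 1167 2 1164))))))))))
(cons (mv 1293 (cons (fin 1294 1 1229)
(mv 1229 (cons (fin 1292 1 1228)
(mv 1167 (cons (fin 1228 2 1164)
(mv 1234 (cons (fin 1166 3 1166)
(fin 1235 3 1167)))))))))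
(mv 1166 (cons (fin 1165 3 1165)
(mv 1234 (cons (fin 1167 3 1166)
(mv 1171 (cons (fin 1170 2 1167)
(mv 1235 (cons (fin 1172 2 1168)
(mv 1299 (cons (fin 1298 0 1231)
(fin 1300 0 1232))))))))))))))))))))))))))
(mv 1232 (cons (cons (mv 977 (cons (fin 1041 6 976)
(mv 913 (cons (fin 976 6 912)
(mv 1295 (cons (fin 1231 5 1039)
(mv 1296 (cons (fin 1359 5 1103)
(mv 1297 (cons (fin 1233 4 1040)
(fin 1361 4 1104)))))))))))
(mv 977 (cons (fin 1041 6 976)
(mv 913 (cons (fin 976 6 912)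
(mv 1297 (cons (fin 1233 4 1040)
(mv 1296 (cons (fin 1361 4 1104)
(mv 1103 (cons (fin 1039 7 1039)
(mv 1359 (cons (fin 1295 5 1103)
(mv 1360 (cons (fin 1167 7 1103)
(fin 1423 5 1167))))))))))))))))
(cons (mv 1231 (cons (fin 1295 5 1039)
(mv 1167 (cons (fin 976 5 975)
(mv 1233 (cons (fin 1297 4 1040)
(mv 1166 (cons (fin 1234 3 1166)
(fin 1165 0 1165)))))))))
(cons (mv 977 (cons (fin 1041 6 976)
(mv 976 (cons (fin 913 6 912)
(mv 1167 (cons (fin 1231 5 975)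
(mv 1103 (cons (fin 912 5 911)
(mv 1296 (cons (fin 1039 7 1039)
(fin 1360 7 1103)))))))))))
(mv 977 (cons (fin 1041 6 976)
(mv 1295 (cons (fin 1231 5 1039)
(mv 1296 (cons (fin 1359 5 1103)
(mv 1297 (cons (fin 1233 4 1040)
(fin 1361 4 1104)))))))))))))))
(cons (cons (mv 1232 (cons (cons (mv 975 (cons (fin 1039 7 975)
(mv 911 (cons (fin 976 7 911)
(mv 1295 (cons (fin 1231 5 1039)
(mv 1296 (cons (fin 1359 5 1103)
(mv 1297 (cons (fin 1233 4 1040)
(fin 1361 4 1104)))))))))))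
(cons (mv 1231 (cons (fin 1295 5 1039)
(mv 1167 (cons (fin 976 5 975)
(mv 1233 (cons (fin 1297 4 1040)
(mv 1166 (cons (fin 1234 3 1166)
(fin 1165 0 1165)))))))))
(mv 975 (cons (fin 1039 7 975)
(mv 911 (cons (fin 976 7 911)
(mv 1297 (cons (fin 1233 4 1040)
(mv 1296 (cons (fin 1361 4 1104)
(mv 1041 (cons (fin 1105 6 1040)
(mv 1359 (cons (fin 1295 5 1103)
(mv 1360 (cons (fin 1423 5 1167)
(mv 1103 (cons (fin 1167 7 1103)
(mv 1102 (cons (fin 1101 2 1037)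
(mv 1038 (cons (fin 1166 6 910)
(mv 847 (cons (fin 783 5 782)
(fin 910 6 846)))))))))))))))))))))))))
(cons (mv 975 (cons (fin 1039 7 975)
(mv 976 (cons (fin 911 7 911)
(mv 1167 (cons (fin 1231 5 975)
(mv 1103 (cons (fin 912 5 911)
(mv 1233 (cons (fin 1297 4 1040)
(mv 1166 (cons (fin 1165 0 1165)
(mv 1105 (cons (fin 1106 1 1102)
(mv 1296 (cons (fin 1360 7 1103)
(fin 1041 6 1040)))))))))))))))))
(cons (mv 975 (cons (fin 1039 7 975)
(mv 976 (cons (fin 911 7 911)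
(mv 1231 (cons (fin 1167 5 975)
(fin 1295 5 1039)))))))
(mv 975 (cons (fin 1039 7 975)
(mv 1295 (cons (fin 1231 5 1039)
(mv 1296 (cons (fin 1359 5 1103)
(mv 1297 (cons (fin 1233 4 1040)
(fin 1361 4 1104)))))))))))))
(mv 1232 (cons (cons (mv 975 (cons (fin 1039 7 975)
(mv 911 (cons (fin 976 7 911)
(mv 1041 (cons (fin 977 6 976)
(mv 1233 (cons (fin 1297 4 1040)
(mv 1296 (cons (fin 1105 6 1040)
(mv 1359 (cons (fin 1295 5 1103)
(mv 1360 (cons (fin 1423 5 1167)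
(mv 1103 (cons (fin 1167 7 1103)
(mv 1102 (cons (fin 1101 2 1037)
(mv 1038 (cons (fin 1166 6 910)
(mv 847 (cons (fin 783 5 782)
(fin 910 6 846)))))))))))))))))))))))
(mv 1041 (cons (fin 977 6 976)
(mv 1296 (cons (fin 1105 6 1040)
(mv 1297 (cons (fin 1233 4 1040)
(fin 1361 4 1104))))))))
(cons (mv 1039 (cons (fin 975 7 975)
(mv 1296 (cons (fin 1103 7 1039)
(mv 1297 (cons (fin 1233 4 1040)
(fin 1361 4 1104)))))))
(cons (mv 975 (cons (fin 1039 7 975)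
(mv 911 (cons (fin 976 7 911)
(mv 1041 (cons (fin 977 6 976)
(mv 1296 (cons (fin 1105 6 1040)
(mv 1359 (cons (fin 1295 5 1103)
(mv 1360 (cons (fin 1423 5 1167)
(mv 1103 (cons (fin 1167 7 1103)
(mv 1102 (cons (fin 1101 2 1037)
(mv 1038 (cons (fin 1166 6 910)
(mv 847 (cons (fin 783 5 782)
(fin 910 6 846)))))))))))))))))))))
(mv 975 (cons (fin 1039 7 975)
(mv 976 (cons (fin 911 7 911)
(mv 977 (cons (fin 913 6 912)
(fin 1041 6 976))))))))))))
(cons (mv 976 (cons (cons (mv 911 (cons (fin 975 7 911)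
(mv 847 (cons (fin 912 7 847)
(mv 977 (cons (fin 913 6 912)
(mv 1167 (cons (fin 1231 5 975)
(mv 1232 (cons (fin 1041 6 976)
(mv 1297 (cons (fin 1233 4 1040)
(mv 1296 (cons (fin 1361 4 1104)
(mv 1359 (cons (fin 1295 5 1103)
(mv 1360 (cons (fin 1103 7 1103)
(fin 1423 5 1167)))))))))))))))))))
(cons (mv 911 (cons (fin 975 7 911)
(mv 912 (cons (fin 847 7 847)
(mv 1167 (cons (fin 1103 5 911)
(fin 1231 5 975)))))))
(mv 911 (cons (fin 975 7 911)
(mv 847 (cons (fin 912 7 847)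
(mv 977 (cons (fin 913 6 912)
(mv 1232 (cons (fin 1041 6 976)
(mv 1295 (cons (fin 1231 5 1039)
(mv 1296 (cons (fin 1359 5 1103)
(mv 1297 (cons (fin 1233 4 1040)
(fin 1361 4 1104)))))))))))))))))
(cons (mv 911 (cons (fin 975 7 911)
(mv 912 (cons (fin 847 7 847)
(mv 913 (cons (fin 849 6 848)
(fin 977 6 912)))))))
(cons (mv 913 (cons (fin 977 6 912)
(mv 912 (cons (fin 849 6 848)
(mv 1167 (cons (fin 1103 5 911)
(fin 1231 5 975)))))))
(mv 911 (cons (fin 975 7 911)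
(mv 977 (cons (fin 913 6 912)
(mv 1167 (cons (fin 1231 5 975)
(mv 1232 (cons (fin 1041 6 976)
(mv 1297 (cons (fin 1233 4 1040)
(mv 1296 (cons (fin 1361 4 1104)
(mv 1359 (cons (fin 1295 5 1103)
(mv 1360 (cons (fin 1103 7 1103)
(fin 1423 5 1167)))))))))))))))))))))
(cons (mv 1232 (cons (cons (mv 975 (cons (fin 1039 7 975)
(mv 911 (cons (fin 976 7 911)
(mv 977 (cons (fin 1041 6 976)
(mv 1295 (cons (fin 1231 5 1039)
(mv 1296 (cons (fin 1359 5 1103)
(mv 1297 (cons (fin 1233 4 1040)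
(fin 1361 4 1104)))))))))))))
(cons (mv 977 (cons (fin 1041 6 976)
(mv 913 (cons (fin 976 6 912)
(mv 1295 (cons (fin 1231 5 1039)
(mv 1296 (cons (fin 1359 5 1103)
(mv 1297 (cons (fin 1233 4 1040)
(fin 1361 4 1104)))))))))))
(mv 975 (cons (fin 1039 7 975)
(mv 911 (cons (fin 976 7 911)
(mv 1295 (cons (fin 1231 5 1039)
(mv 1296 (cons (fin 1359 5 1103)
(mv 1297 (cons (fin 1233 4 1040)
(fin 1361 4 1104)))))))))))))
(cons (cons (mv 975 (cons (fin 1039 7 975)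
(mv 911 (cons (fin 976 7 911)
(mv 1041 (cons (fin 977 6 976)
(mv 1296 (cons (fin 1105 6 1040)
(mv 1297 (cons (fin 1233 4 1040)
(fin 1361 4 1104)))))))))))
(mv 975 (cons (fin 1039 7 975)
(mv 911 (cons (fin 976 7 911)
(mv 1041 (cons (fin 977 6 976)
(mv 1295 (cons (fin 1231 5 1039)
(mv 1296 (cons (fin 1359 5 1103)
(fin 1105 6 1040))))))))))))
(cons (mv 975 (cons (fin 1039 7 975)
(mv 976 (cons (fin 911 7 911)
(mv 977 (cons (fin 913 6 912)
(fin 1041 6 976)))))))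
(mv 975 (cons (fin 1039 7 975)
(mv 977 (cons (fin 1041 6 976)
(mv 1295 (cons (fin 1231 5 1039)
(mv 1296 (cons (fin 1359 5 1103)
(mv 1297 (cons (fin 1233 4 1040)
(fin 1361 4 1104)))))))))))))))
(mv 976 (cons (cons (mv 911 (cons (fin 975 7 911)
(mv 847 (cons (fin 912 7 847)
(mv 977 (cons (fin 913 6 912)
(mv 1231 (cons (fin 1167 5 975)
(mv 1232 (cons (fin 1295 5 1039)
(mv 1297 (cons (fin 1233 4 1040)
(mv 1296 (cons (fin 1361 4 1104)
(mv 1039 (cons (fin 1103 7 1039)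
(mv 978 (cons (fin 979 1 975)
(mv 1038 (cons (fin 1037 2 973)
(mv 910 (cons (fin 1102 6 846)
(mv 783 (cons (fin 719 5 718)
(fin 846 6 782)))))))))))))))))))))))))
(mv 913 (cons (fin 977 6 912)
(mv 912 (cons (fin 849 6 848)
(mv 1167 (cons (fin 1103 5 911)
(fin 1231 5 975))))))))
(cons (mv 911 (cons (fin 975 7 911)
(mv 912 (cons (fin 847 7 847)
(mv 913 (cons (fin 849 6 848)
(fin 977 6 912)))))))
(cons (mv 911 (cons (fin 975 7 911)
(mv 912 (cons (fin 847 7 847)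
(mv 1167 (cons (fin 1103 5 911)
(fin 1231 5 975)))))))
(mv 913 (cons (fin 977 6 912)
(mv 975 (cons (fin 911 7 911)
(mv 1039 (cons (fin 1232 7 975)
(mv 1167 (cons (fin 1231 5 975)
(mv 1103 (cons (fin 910 7 910)
(mv 1166 (cons (fin 1230 5 974)
(mv 1105 (cons (fin 1106 1 1102)
(fin 1165 2 1101))))))))))))))))))))))))
(mv 976 (cons (cons (cons (mv 912 (cons (cons (mv 847 (cons (fin 911 7 847)
(mv 783 (cons (fin 848 7 783)
(mv 913 (cons (fin 849 6 848)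
(mv 977 (cons (fin 1168 6 912)
(mv 914 (cons (fin 975 2 910)
(mv 915 (cons (fin 916 1 912)
(mv 851 (cons (fin 852 2 848)
(mv 979 (cons (fin 980 0 912)
(mv 978 (cons (fin 1039 1 975)
(mv 787 (cons (fin 723 5 722)
(fin 1042 5 786)))))))))))))))))))))
(mv 849 (cons (fin 913 6 848)
(mv 848 (cons (fin 785 6 784)
(mv 1103 (cons (fin 1039 5 847)
(fin 1167 5 911))))))))
(cons (mv 847 (cons (fin 911 7 847)
(mv 848 (cons (fin 783 7 783)
(mv 1103 (cons (fin 1039 5 847)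
(fin 1167 5 911)))))))
(cons (mv 847 (cons (fin 911 7 847)
(mv 913 (cons (fin 849 6 848)
(mv 977 (cons (fin 1168 6 912)
(mv 914 (cons (fin 975 2 910)
(mv 915 (cons (fin 916 1 912)
(mv 851 (cons (fin 852 2 848)
(mv 979 (cons (fin 980 0 912)
(mv 978 (cons (fin 1039 1 975)
(mv 787 (cons (fin 723 5 722)
(fin 1042 5 786)))))))))))))))))))
(mv 847 (cons (fin 911 7 847)
(mv 783 (cons (fin 848 7 783)
(mv 913 (cons (fin 849 6 848)
(mv 977 (cons (fin 1168 6 912)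
(mv 914 (cons (fin 975 2 910)
(mv 915 (cons (fin 916 1 912)
(mv 851 (cons (fin 852 2 848)
(mv 979 (cons (fin 980 0 912)
(mv 1103 (cons (fin 1167 5 911)
(mv 1105 (cons (fin 1169 4 912)
(mv 850 (cons (fin 1041 6 849)
(mv 786 (cons (fin 722 5 721)
(mv 785 (cons (fin 784 0 783)
(mv 978 (cons (fin 721 7 721)
(mv 787 (cons (fin 723 5 722)
(fin 1042 5 786)))))))))))))))))))))))))))))))))))
(mv 1168 (cons (cons (mv 911 (cons (fin 975 7 911)
(mv 977 (cons (fin 913 6 912)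
(mv 1232 (cons (fin 1041 6 976)
(mv 1233 (cons (fin 1169 4 976)
(fin 1297 4 1040)))))))))
(mv 975 (cons (fin 911 7 911)
(mv 1232 (cons (fin 1039 7 975)
(mv 1233 (cons (fin 1169 4 976)
(fin 1297 4 1040))))))))
(cons (mv 977 (cons (fin 913 6 912)
(mv 1232 (cons (fin 1041 6 976)
(mv 1233 (cons (fin 1169 4 976)
(fin 1297 4 1040)))))))
(cons (mv 975 (cons (fin 911 7 911)
(mv 977 (cons (fin 913 6 912)
(mv 1041 (cons (fin 1042 0 974)
(fin 1232 6 976)))))))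
(mv 975 (cons (fin 911 7 911)
(mv 977 (cons (fin 913 6 912)
(mv 909 (cons (fin 910 3 909)
(mv 1038 (cons (fin 1037 1 973)
(mv 978 (cons (fin 1039 1 974)
(mv 914 (cons (fin 915 2 911)
(mv 1041 (cons (fin 1042 0 974)
(mv 1169 (cons (fin 1105 6 913)
(fin 1233 4 976))))))))))))))))))))))
(cons (mv 912 (cons (cons (mv 847 (cons (fin 911 7 847)
(mv 848 (cons (fin 783 7 783)
(mv 849 (cons (fin 785 6 784)
(fin 913 6 848)))))))
(mv 849 (cons (fin 913 6 848)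
(mv 848 (cons (fin 785 6 784)
(mv 1103 (cons (fin 1039 5 847)
(fin 1167 5 911))))))))
(cons (mv 847 (cons (fin 911 7 847)
(mv 848 (cons (fin 783 7 783)
(mv 1103 (cons (fin 1039 5 847)
(fin 1167 5 911)))))))
(mv 911 (cons (fin 847 7 847)
(mv 913 (cons (fin 849 6 848)
(mv 914 (cons (fin 975 1 910)
(mv 850 (cons (fin 851 2 847)
(mv 978 (cons (fin 979 0 911)
(mv 910 (cons (fin 977 0 910)
(mv 845 (cons (fin 846 3 845)
(mv 909 (cons (fin 844 3 844)
(mv 717 (cons (fin 781 4 717)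
(mv 1038 (cons (fin 1102 7 845)
(mv 1103 (cons (fin 1167 5 911)
(mv 1105 (cons (fin 1169 4 912)
(mv 1039 (cons (fin 1106 3 1038)
(fin 1037 0 1037))))))))))))))))))))))))))))))
(mv 912 (cons (cons (mv 847 (cons (fin 911 7 847)
(mv 848 (cons (fin 783 7 783)
(mv 1103 (cons (fin 1039 5 847)
(fin 1167 5 911)))))))
(mv 1103 (cons (fin 1167 5 911)
(mv 848 (cons (fin 1039 5 847)
(mv 1105 (cons (fin 1041 4 848)
(fin 1169 4 912))))))))
(cons (mv 847 (cons (fin 911 7 847)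
(mv 848 (cons (fin 783 7 783)
(mv 1105 (cons (fin 1041 4 848)
(fin 1169 4 912)))))))
(mv 911 (cons (fin 847 7 847)
(mv 1103 (cons (fin 1167 5 911)
(mv 1168 (cons (fin 975 7 911)
(mv 1169 (cons (fin 1105 4 912)
(fin 1233 4 976))))))))))))))
(cons (cons (mv 912 (cons (cons (mv 849 (cons (fin 913 6 848)
(mv 848 (cons (fin 785 6 784)
(mv 1103 (cons (fin 1039 5 847)
(fin 1167 5 911)))))))
(mv 1103 (cons (fin 1167 5 911)
(mv 848 (cons (fin 1039 5 847)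
(mv 1105 (cons (fin 1041 4 848)
(fin 1169 4 912))))))))
(cons (mv 849 (cons (fin 913 6 848)
(mv 848 (cons (fin 785 6 784)
(mv 1105 (cons (fin 1041 4 848)
(fin 1169 4 912)))))))
(mv 913 (cons (fin 849 6 848)
(mv 977 (cons (fin 1168 6 912)
(mv 914 (cons (fin 975 2 910)
(mv 915 (cons (fin 916 1 912)
(mv 851 (cons (fin 852 2 848)
(mv 979 (cons (fin 980 0 912)
(mv 978 (cons (fin 1039 1 975)
(mv 787 (cons (fin 723 5 722)
(fin 1042 5 786))))))))))))))))))))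
(mv 912 (cons (cons (mv 847 (cons (fin 911 7 847)
(mv 783 (cons (fin 848 7 783)
(mv 913 (cons (fin 849 6 848)
(mv 977 (cons (fin 1168 6 912)
(mv 914 (cons (fin 975 2 910)
(mv 915 (cons (fin 916 1 912)
(mv 851 (cons (fin 852 2 848)
(mv 979 (cons (fin 980 0 912)
(mv 978 (cons (fin 1039 1 975)
(mv 787 (cons (fin 723 5 722)
(fin 1042 5 786)))))))))))))))))))))
(mv 849 (cons (fin 913 6 848)
(mv 848 (cons (fin 785 6 784)
(mv 1103 (cons (fin 1039 5 847)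
(fin 1167 5 911))))))))
(cons (mv 847 (cons (fin 911 7 847)
(mv 848 (cons (fin 783 7 783)
(mv 1103 (cons (fin 1039 5 847)
(fin 1167 5 911)))))))
(cons (mv 847 (cons (fin 911 7 847)
(mv 913 (cons (fin 849 6 848)
(mv 977 (cons (fin 1168 6 912)
(mv 914 (cons (fin 975 2 910)
(mv 915 (cons (fin 916 1 912)
(mv 851 (cons (fin 852 2 848)
(mv 979 (cons (fin 980 0 912)
(mv 978 (cons (fin 1039 1 975)
(mv 787 (cons (fin 723 5 722)
(fin 1042 5 786)))))))))))))))))))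
(mv 847 (cons (fin 911 7 847)
(mv 783 (cons (fin 848 7 783)
(mv 913 (cons (fin 849 6 848)
(mv 977 (cons (fin 1168 6 912)
(mv 975 (cons (fin 914 2 910)
(mv 910 (cons (fin 909 3 909)
(mv 1038 (cons (fin 1037 1 973)
(fin 846 6 782))))))))))))))))))))
(cons (mv 912 (cons (cons (mv 847 (cons (fin 911 7 847)
(mv 783 (cons (fin 848 7 783)
(mv 913 (cons (fin 849 6 848)
(mv 1103 (cons (fin 1167 5 911)
(mv 1168 (cons (fin 977 6 912)
(mv 1169 (cons (fin 1105 4 912)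
(fin 1233 4 976)))))))))))))
(mv 847 (cons (fin 911 7 847)
(mv 848 (cons (fin 783 7 783)
(mv 849 (cons (fin 785 6 784)
(fin 913 6 848))))))))
(cons (mv 847 (cons (fin 911 7 847)
(mv 848 (cons (fin 783 7 783)
(mv 1103 (cons (fin 1039 5 847)
(fin 1167 5 911)))))))
(cons (mv 849 (cons (fin 913 6 848)
(mv 848 (cons (fin 785 6 784)
(mv 1103 (cons (fin 1039 5 847)
(fin 1167 5 911)))))))
(mv 847 (cons (fin 911 7 847)
(mv 913 (cons (fin 849 6 848)
(mv 1103 (cons (fin 1167 5 911)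
(mv 1168 (cons (fin 977 6 912)
(mv 1169 (cons (fin 1105 4 912)
(fin 1233 4 976)))))))))))))))
(mv 912 (cons (cons (mv 847 (cons (fin 911 7 847)
(mv 783 (cons (fin 848 7 783)
(mv 913 (cons (fin 849 6 848)
(mv 977 (cons (fin 1168 6 912)
(mv 914 (cons (fin 975 2 910)
(mv 915 (cons (fin 916 1 912)
(mv 851 (cons (fin 852 2 848)
(mv 979 (cons (fin 980 0 912)
(mv 1103 (cons (fin 1167 5 911)
(mv 1105 (cons (fin 1169 4 912)
(mv 850 (cons (fin 1041 6 849)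
(mv 786 (cons (fin 722 5 721)
(mv 785 (cons (fin 784 0 783)
(mv 978 (cons (fin 721 7 721)
(mv 787 (cons (fin 723 5 722)
(fin 1042 5 786)))))))))))))))))))))))))))))))
(mv 847 (cons (fin 911 7 847)
(mv 848 (cons (fin 783 7 783)
(mv 1105 (cons (fin 1041 4 848)
(fin 1169 4 912))))))))
(cons (mv 849 (cons (fin 913 6 848)
(mv 848 (cons (fin 785 6 784)
(mv 1105 (cons (fin 1041 4 848)
(fin 1169 4 912)))))))
(cons (mv 847 (cons (fin 911 7 847)
(mv 783 (cons (fin 848 7 783)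
(mv 913 (cons (fin 849 6 848)
(mv 977 (cons (fin 1168 6 912)
(mv 975 (cons (fin 914 2 910)
(mv 910 (cons (fin 909 3 909)
(mv 1038 (cons (fin 1037 1 973)
(fin 846 6 782)))))))))))))))
(mv 847 (cons (fin 911 7 847)
(mv 913 (cons (fin 849 6 848)
(mv 977 (cons (fin 1168 6 912)
(mv 914 (cons (fin 975 2 910)
(mv 915 (cons (fin 916 1 912)
(mv 851 (cons (fin 852 2 848)
(mv 979 (cons (fin 980 0 912)
(mv 1103 (cons (fin 1167 5 911)
(mv 1105 (cons (fin 1169 4 912)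
(mv 1041 (cons (fin 850 6 849)
(mv 1102 (cons (fin 1101 2 1037)
(fin 1042 2 1038))))))))))))))))))))))))))))))))
(cons (mv 1168 (cons (cons (cons (mv 1232 (cons (cons (cons (mv 975 (cons (fin 1039 7 975)
(mv 911 (cons (fin 976 7 911)
(mv 977 (cons (fin 1041 6 976)
(mv 1295 (cons (fin 1231 5 1039)
(mv 1296 (cons (fin 1359 5 1103)
(mv 1297 (cons (fin 1233 4 1040)
(fin 1361 4 1104)))))))))))))
(mv 977 (cons (fin 1041 6 976)
(mv 1231 (cons (fin 1295 5 1039)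
(mv 976 (cons (fin 1167 5 975)
(mv 1233 (cons (fin 1169 4 976)
(fin 1297 4 1040))))))))))
(cons (mv 975 (cons (fin 1039 7 975)
(mv 911 (cons (fin 976 7 911)
(mv 977 (cons (fin 1041 6 976)
(mv 1297 (cons (fin 1233 4 1040)
(mv 1296 (cons (fin 1361 4 1104)
(mv 1359 (cons (fin 1295 5 1103)
(mv 1360 (cons (fin 1423 5 1167)
(mv 1103 (cons (fin 1167 7 1103)
(mv 1169 (cons (fin 1105 6 1104)
(mv 1102 (cons (fin 1101 0 1101)
(mv 1038 (cons (fin 1166 6 910)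
(mv 847 (cons (fin 783 5 782)
(fin 910 6 846)))))))))))))))))))))))))
(mv 975 (cons (fin 1039 7 975)
(mv 911 (cons (fin 976 7 911)
(mv 977 (cons (fin 1041 6 976)
(mv 1295 (cons (fin 1231 5 1039)
(mv 1296 (cons (fin 1359 5 1103)
(mv 1361 (cons (fin 1297 4 1104)
(mv 1360 (cons (fin 1425 4 1168)
(mv 1103 (cons (fin 1167 7 1103)
(mv 1169 (cons (fin 1105 6 1104)
(mv 1102 (cons (fin 1101 0 1101)
(mv 1038 (cons (fin 1166 6 910)
(mv 847 (cons (fin 783 5 782)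
(fin 910 6 846)))))))))))))))))))))))))))
(cons (cons (mv 975 (cons (fin 1039 7 975)
(mv 911 (cons (fin 976 7 911)
(mv 1295 (cons (fin 1231 5 1039)
(mv 1296 (cons (fin 1359 5 1103)
(mv 1297 (cons (fin 1233 4 1040)
(fin 1361 4 1104)))))))))))
(mv 975 (cons (fin 1039 7 975)
(mv 911 (cons (fin 976 7 911)
(mv 1041 (cons (fin 977 6 976)
(mv 1296 (cons (fin 1105 6 1040)
(mv 1297 (cons (fin 1233 4 1040)
(fin 1361 4 1104))))))))))))
(cons (mv 975 (cons (fin 1039 7 975)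
(mv 911 (cons (fin 976 7 911)
(mv 1041 (cons (fin 977 6 976)
(mv 1295 (cons (fin 1231 5 1039)
(mv 1296 (cons (fin 1359 5 1103)
(fin 1105 6 1040)))))))))))
(mv 975 (cons (fin 1039 7 975)
(mv 977 (cons (fin 1041 6 976)
(mv 1295 (cons (fin 1231 5 1039)
(mv 1296 (cons (fin 1359 5 1103)
(mv 1297 (cons (fin 1233 4 1040)
(fin 1361 4 1104)))))))))))))))
(mv 976 (cons (cons (mv 911 (cons (fin 975 7 911)
(mv 912 (cons (fin 847 7 847)
(mv 1167 (cons (fin 1103 5 911)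
(fin 1231 5 975)))))))
(mv 911 (cons (fin 975 7 911)
(mv 912 (cons (fin 847 7 847)
(mv 1169 (cons (fin 1105 4 912)
(fin 1233 4 976))))))))
(cons (mv 1167 (cons (fin 1231 5 975)
(mv 912 (cons (fin 1103 5 911)
(mv 1169 (cons (fin 1105 4 912)
(fin 1233 4 976)))))))
(mv 911 (cons (fin 975 7 911)
(mv 1167 (cons (fin 1231 5 975)
(mv 1169 (cons (fin 1233 4 976)
(mv 1170 (cons (mv 1103 (cons (fin 1102 3 1102)
(fin 1171 3 1103)))
(cons (mv 1106 (cons (fin 1107 2 1103)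
(mv 1105 (cons (fin 1166 2 1102)
(mv 1171 (cons (fin 1172 3 1104)
(mv 1235 (cons (fin 1234 0 1167)
(fin 1236 0 1168)))))))))
(mv 1102 (cons (fin 1103 3 1102)
(mv 1106 (cons (fin 1107 2 1103)
(mv 1166 (cons (fin 1101 3 1101)
(fin 1105 2 1102))))))))))))))))))))
(cons (mv 1232 (cons (cons (mv 975 (cons (fin 1039 7 975)
(mv 977 (cons (fin 1041 6 976)
(mv 1295 (cons (fin 1231 5 1039)
(mv 1296 (cons (fin 1359 5 1103)
(mv 1297 (cons (fin 1233 4 1040)
(fin 1361 4 1104)))))))))))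
(cons (mv 977 (cons (fin 1041 6 976)
(mv 1295 (cons (fin 1231 5 1039)
(mv 1296 (cons (fin 1359 5 1103)
(mv 1297 (cons (fin 1233 4 1040)
(fin 1361 4 1104)))))))))
(mv 975 (cons (fin 1039 7 975)
(mv 1295 (cons (fin 1231 5 1039)
(mv 1296 (cons (fin 1359 5 1103)
(mv 1297 (cons (fin 1233 4 1040)
(fin 1361 4 1104)))))))))))
(cons (mv 975 (cons (fin 1039 7 975)
(mv 1041 (cons (fin 977 6 976)
(mv 1296 (cons (fin 1105 6 1040)
(mv 1297 (cons (fin 1233 4 1040)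
(fin 1361 4 1104)))))))))
(cons (mv 975 (cons (fin 1039 7 975)
(mv 1041 (cons (fin 977 6 976)
(mv 1295 (cons (fin 1231 5 1039)
(mv 1296 (cons (fin 1359 5 1103)
(fin 1105 6 1040)))))))))
(mv 975 (cons (fin 1039 7 975)
(mv 977 (cons (fin 1041 6 976)
(mv 1231 (cons (fin 1295 5 1039)
(mv 1233 (cons (fin 1297 4 1040)
(mv 1230 (cons (mv 1169 (cons (fin 1229 2 1165)
(fin 1170 2 1166)))
(cons (mv 1165 (cons (fin 1166 3 1165)
(mv 1229 (cons (fin 1164 3 1164)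
(mv 1293 (cons (fin 1292 1 1228)
(fin 1294 1 1229)))))))
(mv 1165 (cons (fin 1166 3 1165)
(mv 1170 (cons (fin 1169 2 1166)
(mv 1234 (cons (fin 1171 2 1167)
(mv 1235 (cons (fin 1167 3 1167)
(mv 1299 (cons (fin 1298 0 1231)
(fin 1300 0 1232))))))))))))))))))))))))))
(mv 1232 (cons (cons (mv 977 (cons (fin 1041 6 976)
(mv 1231 (cons (fin 1295 5 1039)
(mv 976 (cons (fin 1167 5 975)
(mv 1233 (cons (fin 1169 4 976)
(fin 1297 4 1040)))))))))
(cons (mv 977 (cons (fin 1041 6 976)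
(mv 1297 (cons (fin 1233 4 1040)
(mv 1296 (cons (fin 1361 4 1104)
(mv 1103 (cons (fin 1039 7 1039)
(mv 1359 (cons (fin 1295 5 1103)
(mv 1360 (cons (fin 1167 7 1103)
(fin 1423 5 1167)))))))))))))
(mv 977 (cons (fin 1041 6 976)
(mv 1295 (cons (fin 1231 5 1039)
(mv 1296 (cons (fin 1359 5 1103)
(mv 1103 (cons (fin 1039 7 1039)
(mv 1360 (cons (fin 1167 7 1103)
(mv 1361 (cons (fin 1297 4 1104)
(fin 1425 4 1168)))))))))))))))
(cons (cons (mv 977 (cons (fin 1041 6 976)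
(mv 1233 (cons (fin 1297 4 1040)
(mv 976 (cons (fin 1169 4 976)
(mv 1167 (cons (fin 1231 5 975)
(mv 1103 (cons (fin 912 5 911)
(mv 1296 (cons (fin 1039 7 1039)
(fin 1360 7 1103)))))))))))))
(mv 977 (cons (fin 1041 6 976)
(mv 1231 (cons (fin 1295 5 1039)
(mv 976 (cons (fin 1167 5 975)
(mv 1169 (cons (fin 1233 4 976)
(mv 1105 (cons (fin 912 4 912)
(mv 1170 (cons (fin 1171 1 1167)
(mv 1103 (cons (fin 1102 0 1102)
(mv 1296 (cons (fin 1039 7 1039)
(fin 1360 6 1104))))))))))))))))))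
(cons (mv 1231 (cons (fin 1295 5 1039)
(mv 976 (cons (fin 1167 5 975)
(mv 1233 (cons (fin 1169 4 976)
(fin 1297 4 1040)))))))
(mv 977 (cons (fin 1041 6 976)
(mv 1231 (cons (fin 1295 5 1039)
(mv 1233 (cons (fin 1297 4 1040)
(mv 1169 (cons (fin 976 4 976)
(mv 1170 (cons (fin 1171 1 1167)
(fin 1230 2 1166)))))))))))))))))
(cons (cons (mv 1232 (cons (cons (mv 975 (cons (fin 1039 7 975)
(mv 911 (cons (fin 976 7 911)
(mv 977 (cons (fin 1041 6 976)
(mv 1297 (cons (fin 1233 4 1040)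
(mv 1296 (cons (fin 1361 4 1104)
(mv 1359 (cons (fin 1295 5 1103)
(mv 1360 (cons (fin 1423 5 1167)
(mv 1103 (cons (fin 1167 7 1103)
(mv 1169 (cons (fin 1105 6 1104)
(mv 1102 (cons (fin 1101 0 1101)
(mv 1038 (cons (fin 1166 6 910)
(mv 847 (cons (fin 783 5 782)
(fin 910 6 846)))))))))))))))))))))))))
(cons (mv 1041 (cons (fin 977 6 976)
(mv 1105 (cons (fin 1296 6 1040)
(mv 1233 (cons (fin 1297 4 1040)
(mv 976 (cons (fin 1169 7 976)
(mv 911 (cons (fin 975 7 911)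
(mv 912 (cons (fin 847 7 847)
(fin 848 4 848)))))))))))))
(mv 975 (cons (fin 1039 7 975)
(mv 911 (cons (fin 976 7 911)
(mv 1041 (cons (fin 977 6 976)
(mv 1296 (cons (fin 1105 6 1040)
(mv 1295 (cons (fin 1359 5 1103)
(mv 1361 (cons (fin 1297 4 1104)
(mv 1360 (cons (fin 1425 4 1168)
(mv 1103 (cons (fin 1167 7 1103)
(mv 1102 (cons (fin 1101 2 1037)
(mv 1038 (cons (fin 1166 6 910)
(mv 847 (cons (fin 783 5 782)
(fin 910 6 846)))))))))))))))))))))))))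
(cons (cons (mv 977 (cons (fin 1041 6 976)
(mv 1297 (cons (fin 1233 4 1040)
(mv 1296 (cons (fin 1361 4 1104)
(mv 1103 (cons (fin 1039 7 1039)
(mv 1359 (cons (fin 1295 5 1103)
(mv 1360 (cons (fin 1167 7 1103)
(fin 1423 5 1167)))))))))))))
(mv 975 (cons (fin 1039 7 975)
(mv 911 (cons (fin 976 7 911)
(mv 1297 (cons (fin 1233 4 1040)
(mv 1296 (cons (fin 1361 4 1104)
(mv 1359 (cons (fin 1295 5 1103)
(mv 1360 (cons (fin 1423 5 1167)
(mv 1103 (cons (fin 1167 7 1103)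
(mv 1169 (cons (fin 1105 6 1104)
(mv 1102 (cons (fin 1101 0 1101)
(mv 1038 (cons (fin 1166 6 910)
(mv 847 (cons (fin 783 5 782)
(fin 910 6 846))))))))))))))))))))))))
(cons (mv 975 (cons (fin 1039 7 975)
(mv 911 (cons (fin 976 7 911)
(mv 1041 (cons (fin 977 6 976)
(mv 1296 (cons (fin 1105 6 1040)
(mv 1359 (cons (fin 1295 5 1103)
(mv 1360 (cons (fin 1423 5 1167)
(mv 1103 (cons (fin 1167 7 1103)
(mv 1102 (cons (fin 1101 2 1037)
(mv 1038 (cons (fin 1166 6 910)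
(mv 847 (cons (fin 783 5 782)
(fin 910 6 846)))))))))))))))))))))
(mv 975 (cons (fin 1039 7 975)
(mv 976 (cons (fin 911 7 911)
(mv 1233 (cons (fin 1169 4 976)
(fin 1297 4 1040)))))))))))
(mv 1232 (cons (cons (cons (mv 975 (cons (fin 1039 7 975)
(mv 911 (cons (fin 976 7 911)
(mv 977 (cons (fin 1041 6 976)
(mv 1295 (cons (fin 1231 5 1039)
(mv 1296 (cons (fin 1359 5 1103)
(mv 1361 (cons (fin 1297 4 1104)
(mv 1360 (cons (fin 1425 4 1168)
(mv 1103 (cons (fin 1167 7 1103)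
(mv 1169 (cons (fin 1105 6 1104)
(mv 1102 (cons (fin 1101 0 1101)
(mv 1038 (cons (fin 1166 6 910)
(mv 847 (cons (fin 783 5 782)
(fin 910 6 846)))))))))))))))))))))))))
(mv 1041 (cons (fin 977 6 976)
(mv 1105 (cons (fin 1296 6 1040)
(mv 1231 (cons (fin 1295 5 1039)
(mv 976 (cons (fin 1167 5 975)
(mv 912 (cons (fin 848 4 848)
(fin 1169 4 912))))))))))))
(cons (mv 975 (cons (fin 1039 7 975)
(mv 911 (cons (fin 976 7 911)
(mv 1041 (cons (fin 977 6 976)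
(mv 1296 (cons (fin 1105 6 1040)
(mv 1295 (cons (fin 1359 5 1103)
(mv 1361 (cons (fin 1297 4 1104)
(mv 1360 (cons (fin 1425 4 1168)
(mv 1103 (cons (fin 1167 7 1103)
(mv 1102 (cons (fin 1101 2 1037)
(mv 1038 (cons (fin 1166 6 910)
(mv 847 (cons (fin 783 5 782)
(fin 910 6 846)))))))))))))))))))))))
(mv 975 (cons (fin 1039 7 975)
(mv 911 (cons (fin 976 7 911)
(mv 1295 (cons (fin 1231 5 1039)
(mv 1296 (cons (fin 1359 5 1103)
(mv 1361 (cons (fin 1297 4 1104)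
(mv 1360 (cons (fin 1425 4 1168)
(mv 1103 (cons (fin 1167 7 1103)
(mv 1169 (cons (fin 1105 6 1104)
(mv 1102 (cons (fin 1101 0 1101)
(mv 1038 (cons (fin 1166 6 910)
(mv 847 (cons (fin 783 5 782)
(fin 910 6 846)))))))))))))))))))))))))
(cons (cons (mv 975 (cons (fin 1039 7 975)
(mv 911 (cons (fin 976 7 911)
(mv 1041 (cons (fin 977 6 976)
(mv 1296 (cons (fin 1105 6 1040)
(mv 1361 (cons (fin 1297 4 1104)
(mv 1360 (cons (fin 1425 4 1168)
(mv 1103 (cons (fin 1167 7 1103)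
(mv 1102 (cons (fin 1101 2 1037)
(mv 1038 (cons (fin 1166 6 910)
(mv 847 (cons (fin 783 5 782)
(fin 910 6 846)))))))))))))))))))))
(mv 975 (cons (fin 1039 7 975)
(mv 976 (cons (fin 911 7 911)
(mv 1231 (cons (fin 1167 5 975)
(fin 1295 5 1039))))))))
(cons (mv 975 (cons (fin 1039 7 975)
(mv 1041 (cons (fin 977 6 976)
(mv 1231 (cons (fin 1295 5 1039)
(mv 1296 (cons (fin 1105 6 1040)
(mv 1361 (cons (fin 1297 4 1104)
(mv 1360 (cons (fin 1425 4 1168)
(mv 1167 (cons (fin 1103 7 1103)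
(fin 1424 7 1167)))))))))))))))
(mv 975 (cons (fin 1039 7 975)
(mv 911 (cons (fin 976 7 911)
(mv 1041 (cons (fin 977 6 976)
(mv 1295 (cons (fin 1231 5 1039)
(mv 1296 (cons (fin 1359 5 1103)
(fin 1105 6 1040))))))))))))))))
(cons (mv 1232 (cons (cons (mv 975 (cons (fin 1039 7 975)
(mv 911 (cons (fin 976 7 911)
(mv 977 (cons (fin 1041 6 976)
(mv 1295 (cons (fin 1231 5 1039)
(mv 1296 (cons (fin 1359 5 1103)
(mv 1297 (cons (fin 1233 4 1040)
(fin 1361 4 1104)))))))))))))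
(cons (mv 977 (cons (fin 1041 6 976)
(mv 1231 (cons (fin 1295 5 1039)
(mv 1233 (cons (fin 1297 4 1040)
(mv 1169 (cons (fin 976 4 976)
(mv 1170 (cons (fin 1171 1 1167)
(fin 1230 2 1166)))))))))))
(mv 975 (cons (fin 1039 7 975)
(mv 911 (cons (fin 976 7 911)
(mv 1041 (cons (fin 977 6 976)
(mv 1295 (cons (fin 1231 5 1039)
(mv 1296 (cons (fin 1359 5 1103)
(fin 1105 6 1040)))))))))))))
(cons (mv 975 (cons (fin 1039 7 975)
(mv 911 (cons (fin 976 7 911)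
(mv 1295 (cons (fin 1231 5 1039)
(mv 1296 (cons (fin 1359 5 1103)
(mv 1297 (cons (fin 1233 4 1040)
(fin 1361 4 1104)))))))))))
(cons (mv 975 (cons (fin 1039 7 975)
(mv 911 (cons (fin 976 7 911)
(mv 1041 (cons (fin 977 6 976)
(mv 1296 (cons (fin 1105 6 1040)
(mv 1297 (cons (fin 1233 4 1040)
(fin 1361 4 1104)))))))))))
(mv 975 (cons (fin 1039 7 975)
(mv 977 (cons (fin 1041 6 976)
(mv 1295 (cons (fin 1231 5 1039)
(mv 1296 (cons (fin 1359 5 1103)
(mv 1297 (cons (fin 1233 4 1040)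
(fin 1361 4 1104)))))))))))))))
(cons (mv 1232 (cons (cons (mv 975 (cons (fin 1039 7 975)
(mv 911 (cons (fin 976 7 911)
(mv 977 (cons (fin 1041 6 976)
(mv 1295 (cons (fin 1231 5 1039)
(mv 1296 (cons (fin 1359 5 1103)
(mv 1297 (cons (fin 1233 4 1040)
(fin 1361 4 1104)))))))))))))
(cons (mv 977 (cons (fin 1041 6 976)
(mv 1231 (cons (fin 1295 5 1039)
(mv 1167 (cons (fin 976 5 975)
(mv 1233 (cons (fin 1297 4 1040)
(mv 1166 (cons (fin 1234 3 1166)
(fin 1165 0 1165)))))))))))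
(mv 975 (cons (fin 1039 7 975)
(mv 911 (cons (fin 976 7 911)
(mv 1041 (cons (fin 977 6 976)
(mv 1233 (cons (fin 1297 4 1040)
(mv 1296 (cons (fin 1105 6 1040)
(mv 1359 (cons (fin 1295 5 1103)
(mv 1360 (cons (fin 1423 5 1167)
(mv 1103 (cons (fin 1167 7 1103)
(mv 1102 (cons (fin 1101 2 1037)
(mv 1038 (cons (fin 1166 6 910)
(mv 847 (cons (fin 783 5 782)
(fin 910 6 846)))))))))))))))))))))))))
(cons (cons (mv 975 (cons (fin 1039 7 975)
(mv 911 (cons (fin 976 7 911)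
(mv 1041 (cons (fin 977 6 976)
(mv 1296 (cons (fin 1105 6 1040)
(mv 1297 (cons (fin 1233 4 1040)
(fin 1361 4 1104)))))))))))
(mv 975 (cons (fin 1039 7 975)
(mv 911 (cons (fin 976 7 911)
(mv 1295 (cons (fin 1231 5 1039)
(mv 1296 (cons (fin 1359 5 1103)
(mv 1297 (cons (fin 1233 4 1040)
(fin 1361 4 1104))))))))))))
(cons (mv 975 (cons (fin 1039 7 975)
(mv 911 (cons (fin 976 7 911)
(mv 1041 (cons (fin 977 6 976)
(mv 1295 (cons (fin 1231 5 1039)
(mv 1296 (cons (fin 1359 5 1103)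
(fin 1105 6 1040)))))))))))
(mv 975 (cons (fin 1039 7 975)
(mv 977 (cons (fin 1041 6 976)
(mv 1295 (cons (fin 1231 5 1039)
(mv 1296 (cons (fin 1359 5 1103)
(mv 1297 (cons (fin 1233 4 1040)
(fin 1361 4 1104)))))))))))))))
(mv 1232 (cons (cons (mv 975 (cons (fin 1039 7 975)
(mv 911 (cons (fin 976 7 911)
(mv 977 (cons (fin 1041 6 976)
(mv 1295 (cons (fin 1231 5 1039)
(mv 1296 (cons (fin 1359 5 1103)
(mv 1297 (cons (fin 1233 4 1040)
(fin 1361 4 1104)))))))))))))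
(cons (mv 975 (cons (fin 1039 7 975)
(mv 911 (cons (fin 976 7 911)
(mv 1041 (cons (fin 977 6 976)
(mv 1297 (cons (fin 1233 4 1040)
(mv 1296 (cons (fin 1361 4 1104)
(mv 1359 (cons (fin 1295 5 1103)
(mv 1360 (cons (fin 1423 5 1167)
(mv 1103 (cons (fin 1167 7 1103)
(mv 1102 (cons (fin 1101 2 1037)
(mv 1038 (cons (fin 1166 6 910)
(mv 847 (cons (fin 783 5 782)
(fin 910 6 846)))))))))))))))))))))))
(mv 977 (cons (fin 1041 6 976)
(mv 1231 (cons (fin 1295 5 1039)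
(mv 976 (cons (fin 1167 5 975)
(mv 1233 (cons (fin 1169 4 976)
(fin 1297 4 1040)))))))))))
(cons (cons (mv 975 (cons (fin 1039 7 975)
(mv 911 (cons (fin 976 7 911)
(mv 1041 (cons (fin 977 6 976)
(mv 1295 (cons (fin 1231 5 1039)
(mv 1296 (cons (fin 1359 5 1103)
(mv 1361 (cons (fin 1297 4 1104)
(mv 1360 (cons (fin 1425 4 1168)
(mv 1103 (cons (fin 1167 7 1103)
(mv 1102 (cons (fin 1101 2 1037)
(mv 1038 (cons (fin 1166 6 910)
(mv 847 (cons (fin 783 5 782)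
(fin 910 6 846)))))))))))))))))))))))
(mv 975 (cons (fin 1039 7 975)
(mv 976 (cons (fin 911 7 911)
(mv 1233 (cons (fin 1169 4 976)
(fin 1297 4 1040))))))))
(cons (mv 975 (cons (fin 1039 7 975)
(mv 976 (cons (fin 911 7 911)
(mv 1231 (cons (fin 1167 5 975)
(fin 1295 5 1039)))))))
(mv 975 (cons (fin 1039 7 975)
(mv 977 (cons (fin 1041 6 976)
(mv 1295 (cons (fin 1231 5 1039)
(mv 1296 (cons (fin 1359 5 1103)
(mv 1297 (cons (fin 1233 4 1040)
(fin 1361 4 1104))))))))))))))))))))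
(cons (mv 976 (cons (cons (cons (mv 912 (cons (cons (mv 847 (cons (fin 911 7 847)
(mv 783 (cons (fin 848 7 783)
(mv 913 (cons (fin 849 6 848)
(mv 977 (cons (fin 1168 6 912)
(mv 914 (cons (fin 975 2 910)
(mv 915 (cons (fin 916 1 912)
(mv 851 (cons (fin 852 2 848)
(mv 979 (cons (fin 980 0 912)
(mv 978 (cons (fin 1039 1 975)
(mv 787 (cons (fin 723 5 722)
(fin 1042 5 786)))))))))))))))))))))
(mv 849 (cons (fin 913 6 848)
(mv 848 (cons (fin 785 6 784)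
(mv 1103 (cons (fin 1039 5 847)
(fin 1167 5 911))))))))
(cons (mv 847 (cons (fin 911 7 847)
(mv 848 (cons (fin 783 7 783)
(mv 1103 (cons (fin 1039 5 847)
(fin 1167 5 911)))))))
(cons (mv 847 (cons (fin 911 7 847)
(mv 913 (cons (fin 849 6 848)
(mv 977 (cons (fin 1168 6 912)
(mv 914 (cons (fin 975 2 910)
(mv 915 (cons (fin 916 1 912)
(mv 851 (cons (fin 852 2 848)
(mv 979 (cons (fin 980 0 912)
(mv 978 (cons (fin 1039 1 975)
(mv 787 (cons (fin 723 5 722)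
(fin 1042 5 786)))))))))))))))))))
(mv 847 (cons (fin 911 7 847)
(mv 783 (cons (fin 848 7 783)
(mv 913 (cons (fin 849 6 848)
(mv 977 (cons (fin 1168 6 912)
(mv 914 (cons (fin 975 2 910)
(mv 915 (cons (fin 916 1 912)
(mv 851 (cons (fin 852 2 848)
(mv 979 (cons (fin 980 0 912)
(mv 1103 (cons (fin 1167 5 911)
(mv 1105 (cons (fin 1169 4 912)
(mv 850 (cons (fin 1041 6 849)
(mv 786 (cons (fin 722 5 721)
(mv 785 (cons (fin 784 0 783)
(mv 978 (cons (fin 721 7 721)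
(mv 787 (cons (fin 723 5 722)
(fin 1042 5 786)))))))))))))))))))))))))))))))))))
(mv 1168 (cons (cons (mv 911 (cons (fin 975 7 911)
(mv 977 (cons (fin 913 6 912)
(mv 1231 (cons (fin 1167 5 975)
(mv 1232 (cons (fin 1295 5 1039)
(fin 1041 6 976)))))))))
(cons (mv 975 (cons (fin 911 7 911)
(mv 1039 (cons (fin 1232 7 975)
(mv 1041 (cons (fin 1042 3 974)
(mv 1167 (cons (fin 1231 5 975)
(mv 1103 (cons (fin 910 7 910)
(mv 1101 (cons (fin 1102 2 1037)
(mv 1166 (cons (fin 1230 5 974)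
(mv 1105 (cons (fin 1106 1 1102)
(fin 1165 2 1101)))))))))))))))))
(mv 977 (cons (fin 913 6 912)
(mv 1231 (cons (fin 1167 5 975)
(mv 1232 (cons (fin 1295 5 1039)
(fin 1041 6 976)))))))))
(cons (mv 975 (cons (fin 911 7 911)
(mv 977 (cons (fin 913 6 912)
(mv 1041 (cons (fin 1042 0 974)
(fin 1232 6 976)))))))
(cons (mv 975 (cons (fin 911 7 911)
(mv 977 (cons (fin 913 6 912)
(mv 909 (cons (fin 910 3 909)
(mv 1038 (cons (fin 1037 1 973)
(mv 978 (cons (fin 1039 1 974)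
(mv 914 (cons (fin 915 2 911)
(mv 1041 (cons (fin 1042 0 974)
(mv 786 (cons (fin 850 5 785)
(mv 979 (cons (fin 980 1 976)
(mv 1105 (cons (fin 1169 6 913)
(mv 1167 (cons (fin 1231 5 975)
(mv 1106 (cons (fin 1107 1 1103)
(mv 1166 (cons (fin 1103 1 1102)
(fin 1165 2 1101)))))))))))))))))))))))))))
(mv 913 (cons (fin 977 6 912)
(mv 975 (cons (fin 911 7 911)
(mv 1039 (cons (fin 1232 7 975)
(mv 1167 (cons (fin 1231 5 975)
(mv 1103 (cons (fin 910 7 910)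
(mv 1166 (cons (fin 1230 5 974)
(mv 1105 (cons (fin 1106 1 1102)
(fin 1165 2 1101))))))))))))))))))))
(cons (mv 912 (cons (cons (mv 847 (cons (fin 911 7 847)
(mv 848 (cons (fin 783 7 783)
(mv 849 (cons (fin 785 6 784)
(fin 913 6 848)))))))
(mv 849 (cons (fin 913 6 848)
(mv 848 (cons (fin 785 6 784)
(mv 1103 (cons (fin 1039 5 847)
(fin 1167 5 911))))))))
(cons (mv 847 (cons (fin 911 7 847)
(mv 848 (cons (fin 783 7 783)
(mv 1103 (cons (fin 1039 5 847)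
(fin 1167 5 911)))))))
(mv 911 (cons (fin 847 7 847)
(mv 913 (cons (fin 849 6 848)
(mv 914 (cons (fin 975 1 910)
(mv 850 (cons (fin 851 2 847)
(mv 978 (cons (fin 979 0 911)
(mv 910 (cons (fin 977 0 910)
(mv 845 (cons (fin 846 3 845)
(mv 909 (cons (fin 844 3 844)
(mv 717 (cons (fin 781 4 717)
(mv 1038 (cons (fin 1102 7 845)
(mv 1103 (cons (fin 1167 5 911)
(mv 1105 (cons (fin 1169 4 912)
(mv 1039 (cons (fin 1106 3 1038)
(fin 1037 0 1037))))))))))))))))))))))))))))))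
(mv 912 (cons (cons (mv 847 (cons (fin 911 7 847)
(mv 848 (cons (fin 783 7 783)
(mv 1103 (cons (fin 1039 5 847)
(fin 1167 5 911)))))))
(mv 1103 (cons (fin 1167 5 911)
(mv 848 (cons (fin 1039 5 847)
(mv 1105 (cons (fin 1041 4 848)
(fin 1169 4 912))))))))
(cons (mv 847 (cons (fin 911 7 847)
(mv 848 (cons (fin 783 7 783)
(mv 1105 (cons (fin 1041 4 848)
(fin 1169 4 912)))))))
(mv 911 (cons (fin 847 7 847)
(mv 1105 (cons (fin 1169 4 912)
(mv 1167 (cons (fin 1103 5 911)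
(mv 1168 (cons (fin 975 7 911)
(fin 1231 5 975))))))))))))))
(cons (cons (mv 912 (cons (cons (mv 849 (cons (fin 913 6 848)
(mv 848 (cons (fin 785 6 784)
(mv 1103 (cons (fin 1039 5 847)
(fin 1167 5 911)))))))
(mv 1103 (cons (fin 1167 5 911)
(mv 848 (cons (fin 1039 5 847)
(mv 1105 (cons (fin 1041 4 848)
(fin 1169 4 912))))))))
(cons (mv 849 (cons (fin 913 6 848)
(mv 848 (cons (fin 785 6 784)
(mv 1105 (cons (fin 1041 4 848)
(fin 1169 4 912)))))))
(mv 913 (cons (fin 849 6 848)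
(mv 977 (cons (fin 1168 6 912)
(mv 914 (cons (fin 975 2 910)
(mv 915 (cons (fin 916 1 912)
(mv 851 (cons (fin 852 2 848)
(mv 979 (cons (fin 980 0 912)
(mv 978 (cons (fin 1039 1 975)
(mv 787 (cons (fin 723 5 722)
(fin 1042 5 786))))))))))))))))))))
(mv 912 (cons (cons (mv 847 (cons (fin 911 7 847)
(mv 783 (cons (fin 848 7 783)
(mv 913 (cons (fin 849 6 848)
(mv 977 (cons (fin 1168 6 912)
(mv 914 (cons (fin 975 2 910)
(mv 915 (cons (fin 916 1 912)
(mv 851 (cons (fin 852 2 848)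
(mv 979 (cons (fin 980 0 912)
(mv 978 (cons (fin 1039 1 975)
(mv 787 (cons (fin 723 5 722)
(fin 1042 5 786)))))))))))))))))))))
(mv 849 (cons (fin 913 6 848)
(mv 848 (cons (fin 785 6 784)
(mv 1105 (cons (fin 1041 4 848)
(fin 1169 4 912))))))))
(cons (mv 847 (cons (fin 911 7 847)
(mv 848 (cons (fin 783 7 783)
(mv 1105 (cons (fin 1041 4 848)
(fin 1169 4 912)))))))
(mv 847 (cons (fin 911 7 847)
(mv 913 (cons (fin 849 6 848)
(mv 977 (cons (fin 1168 6 912)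
(mv 914 (cons (fin 975 2 910)
(mv 915 (cons (fin 916 1 912)
(mv 851 (cons (fin 852 2 848)
(mv 979 (cons (fin 980 0 912)
(mv 978 (cons (fin 1039 1 975)
(mv 787 (cons (fin 723 5 722)
(fin 1042 5 786)))))))))))))))))))))))
(cons (mv 912 (cons (cons (mv 847 (cons (fin 911 7 847)
(mv 783 (cons (fin 848 7 783)
(mv 913 (cons (fin 849 6 848)
(mv 1105 (cons (fin 1169 4 912)
(mv 1167 (cons (fin 1103 5 911)
(mv 1168 (cons (fin 1231 5 975)
(fin 977 6 912)))))))))))))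
(mv 847 (cons (fin 911 7 847)
(mv 848 (cons (fin 783 7 783)
(mv 849 (cons (fin 785 6 784)
(fin 913 6 848))))))))
(cons (mv 847 (cons (fin 911 7 847)
(mv 848 (cons (fin 783 7 783)
(mv 1103 (cons (fin 1039 5 847)
(fin 1167 5 911)))))))
(cons (mv 849 (cons (fin 913 6 848)
(mv 848 (cons (fin 785 6 784)
(mv 1103 (cons (fin 1039 5 847)
(fin 1167 5 911)))))))
(mv 847 (cons (fin 911 7 847)
(mv 913 (cons (fin 849 6 848)
(mv 1105 (cons (fin 1169 4 912)
(mv 1167 (cons (fin 1103 5 911)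
(mv 1168 (cons (fin 1231 5 975)
(fin 977 6 912)))))))))))))))
(cons (mv 912 (cons (cons (mv 847 (cons (fin 911 7 847)
(mv 783 (cons (fin 848 7 783)
(mv 913 (cons (fin 849 6 848)
(mv 977 (cons (fin 1168 6 912)
(mv 914 (cons (fin 975 2 910)
(mv 915 (cons (fin 916 1 912)
(mv 851 (cons (fin 852 2 848)
(mv 979 (cons (fin 980 0 912)
(mv 978 (cons (fin 1039 1 975)
(mv 787 (cons (fin 723 5 722)
(fin 1042 5 786)))))))))))))))))))))
(mv 849 (cons (fin 913 6 848)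
(mv 848 (cons (fin 785 6 784)
(mv 1103 (cons (fin 1039 5 847)
(fin 1167 5 911))))))))
(cons (mv 847 (cons (fin 911 7 847)
(mv 848 (cons (fin 783 7 783)
(mv 1103 (cons (fin 1039 5 847)
(fin 1167 5 911)))))))
(cons (mv 847 (cons (fin 911 7 847)
(mv 913 (cons (fin 849 6 848)
(mv 977 (cons (fin 1168 6 912)
(mv 914 (cons (fin 975 2 910)
(mv 915 (cons (fin 916 1 912)
(mv 851 (cons (fin 852 2 848)
(mv 979 (cons (fin 980 0 912)
(mv 978 (cons (fin 1039 1 975)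
(mv 787 (cons (fin 723 5 722)
(fin 1042 5 786)))))))))))))))))))
(mv 847 (cons (fin 911 7 847)
(mv 783 (cons (fin 848 7 783)
(mv 913 (cons (fin 849 6 848)
(mv 977 (cons (fin 1168 6 912)
(mv 975 (cons (fin 914 2 910)
(mv 910 (cons (fin 909 3 909)
(mv 1038 (cons (fin 1037 1 973)
(fin 846 6 782)))))))))))))))))))
(mv 912 (cons (cons (mv 847 (cons (fin 911 7 847)
(mv 783 (cons (fin 848 7 783)
(mv 913 (cons (fin 849 6 848)
(mv 977 (cons (fin 1168 6 912)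
(mv 914 (cons (fin 975 2 910)
(mv 915 (cons (fin 916 1 912)
(mv 851 (cons (fin 852 2 848)
(mv 979 (cons (fin 980 0 912)
(mv 1103 (cons (fin 1167 5 911)
(mv 1105 (cons (fin 1169 4 912)
(mv 850 (cons (fin 1041 6 849)
(mv 786 (cons (fin 722 5 721)
(mv 785 (cons (fin 784 0 783)
(mv 978 (cons (fin 721 7 721)
(mv 787 (cons (fin 723 5 722)
(fin 1042 5 786)))))))))))))))))))))))))))))))
(mv 847 (cons (fin 911 7 847)
(mv 848 (cons (fin 783 7 783)
(mv 1105 (cons (fin 1041 4 848)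
(fin 1169 4 912))))))))
(cons (mv 849 (cons (fin 913 6 848)
(mv 848 (cons (fin 785 6 784)
(mv 1105 (cons (fin 1041 4 848)
(fin 1169 4 912)))))))
(cons (mv 847 (cons (fin 911 7 847)
(mv 783 (cons (fin 848 7 783)
(mv 913 (cons (fin 849 6 848)
(mv 977 (cons (fin 1168 6 912)
(mv 975 (cons (fin 914 2 910)
(mv 910 (cons (fin 909 3 909)
(mv 1038 (cons (fin 1037 1 973)
(fin 846 6 782)))))))))))))))
(mv 847 (cons (fin 911 7 847)
(mv 913 (cons (fin 849 6 848)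
(mv 977 (cons (fin 1168 6 912)
(mv 914 (cons (fin 975 2 910)
(mv 915 (cons (fin 916 1 912)
(mv 851 (cons (fin 852 2 848)
(mv 979 (cons (fin 980 0 912)
(mv 1103 (cons (fin 1167 5 911)
(mv 1105 (cons (fin 1169 4 912)
(mv 1041 (cons (fin 850 6 849)
(mv 1102 (cons (fin 1101 2 1037)
(fin 1042 2 1038))))))))))))))))))))))))))))))))
(mv 1168 (cons (cons (cons (mv 1232 (cons (cons (cons (mv 975 (cons (fin 1039 7 975)
(mv 911 (cons (fin 976 7 911)
(mv 977 (cons (fin 1041 6 976)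
(mv 1295 (cons (fin 1231 5 1039)
(mv 1296 (cons (fin 1359 5 1103)
(mv 1297 (cons (fin 1233 4 1040)
(fin 1361 4 1104)))))))))))))
(mv 975 (cons (fin 1039 7 975)
(mv 911 (cons (fin 976 7 911)
(mv 1041 (cons (fin 977 6 976)
(mv 1231 (cons (fin 1295 5 1039)
(mv 1296 (cons (fin 1105 6 1040)
(mv 1361 (cons (fin 1297 4 1104)
(mv 1360 (cons (fin 1425 4 1168)
(mv 1167 (cons (fin 1103 7 1103)
(fin 1424 7 1167))))))))))))))))))
(cons (mv 975 (cons (fin 1039 7 975)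
(mv 911 (cons (fin 976 7 911)
(mv 1041 (cons (fin 977 6 976)
(mv 1233 (cons (fin 1297 4 1040)
(mv 1296 (cons (fin 1105 6 1040)
(mv 1359 (cons (fin 1295 5 1103)
(mv 1360 (cons (fin 1423 5 1167)
(mv 1103 (cons (fin 1167 7 1103)
(mv 1101 (cons (fin 1102 2 1037)
(mv 1424 (cons (fin 1169 6 1168)
(mv 1425 (cons (fin 1361 4 1168)
(fin 1489 4 1232)))))))))))))))))))))))
(mv 975 (cons (fin 1039 7 975)
(mv 911 (cons (fin 976 7 911)
(mv 1295 (cons (fin 1231 5 1039)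
(mv 1296 (cons (fin 1359 5 1103)
(mv 1297 (cons (fin 1233 4 1040)
(fin 1361 4 1104)))))))))))))
(cons (cons (mv 977 (cons (fin 1041 6 976)
(mv 913 (cons (fin 976 6 912)
(mv 1295 (cons (fin 1231 5 1039)
(mv 1296 (cons (fin 1359 5 1103)
(mv 1297 (cons (fin 1233 4 1040)
(fin 1361 4 1104)))))))))))
(mv 975 (cons (fin 1039 7 975)
(mv 911 (cons (fin 976 7 911)
(mv 1041 (cons (fin 977 6 976)
(mv 1295 (cons (fin 1231 5 1039)
(mv 1296 (cons (fin 1359 5 1103)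
(fin 1105 6 1040))))))))))))
(cons (mv 975 (cons (fin 1039 7 975)
(mv 911 (cons (fin 976 7 911)
(mv 1041 (cons (fin 977 6 976)
(mv 1296 (cons (fin 1105 6 1040)
(mv 1297 (cons (fin 1233 4 1040)
(fin 1361 4 1104)))))))))))
(cons (mv 975 (cons (fin 1039 7 975)
(mv 976 (cons (fin 911 7 911)
(mv 977 (cons (fin 913 6 912)
(fin 1041 6 976)))))))
(mv 975 (cons (fin 1039 7 975)
(mv 977 (cons (fin 1041 6 976)
(mv 1295 (cons (fin 1231 5 1039)
(mv 1296 (cons (fin 1359 5 1103)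
(mv 1297 (cons (fin 1233 4 1040)
(fin 1361 4 1104))))))))))))))))
(mv 976 (cons (cons (mv 911 (cons (fin 975 7 911)
(mv 912 (cons (fin 847 7 847)
(mv 913 (cons (fin 849 6 848)
(fin 977 6 912)))))))
(mv 911 (cons (fin 975 7 911)
(mv 912 (cons (fin 847 7 847)
(mv 1167 (cons (fin 1103 5 911)
(fin 1231 5 975))))))))
(cons (mv 913 (cons (fin 977 6 912)
(mv 912 (cons (fin 849 6 848)
(mv 1167 (cons (fin 1103 5 911)
(fin 1231 5 975)))))))
(mv 975 (cons (fin 911 7 911)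
(mv 977 (cons (fin 913 6 912)
(mv 910 (cons (fin 909 3 909)
(mv 1041 (cons (fin 1042 0 974)
(mv 1167 (cons (fin 1231 5 975)
(mv 1039 (cons (fin 1103 7 910)
(mv 782 (cons (fin 846 4 782)
(mv 978 (cons (fin 979 1 975)
(mv 914 (cons (fin 915 2 911)
(mv 1169 (cons (fin 1105 6 913)
(fin 1233 4 976)))))))))))))))))))))))))
(cons (mv 1232 (cons (cons (mv 975 (cons (fin 1039 7 975)
(mv 977 (cons (fin 1041 6 976)
(mv 1295 (cons (fin 1231 5 1039)
(mv 1296 (cons (fin 1359 5 1103)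
(mv 1297 (cons (fin 1233 4 1040)
(fin 1361 4 1104)))))))))))
(cons (mv 975 (cons (fin 1039 7 975)
(mv 1295 (cons (fin 1231 5 1039)
(mv 1296 (cons (fin 1359 5 1103)
(mv 1297 (cons (fin 1233 4 1040)
(fin 1361 4 1104)))))))))
(mv 977 (cons (fin 1041 6 976)
(mv 1295 (cons (fin 1231 5 1039)
(mv 1296 (cons (fin 1359 5 1103)
(mv 1297 (cons (fin 1233 4 1040)
(fin 1361 4 1104)))))))))))
(cons (mv 975 (cons (fin 1039 7 975)
(mv 1041 (cons (fin 977 6 976)
(mv 1295 (cons (fin 1231 5 1039)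
(mv 1296 (cons (fin 1359 5 1103)
(fin 1105 6 1040)))))))))
(cons (mv 975 (cons (fin 1039 7 975)
(mv 1041 (cons (fin 977 6 976)
(mv 1296 (cons (fin 1105 6 1040)
(mv 1297 (cons (fin 1233 4 1040)
(fin 1361 4 1104)))))))))
(mv 975 (cons (fin 1039 7 975)
(mv 977 (cons (fin 1041 6 976)
(mv 1231 (cons (fin 1295 5 1039)
(mv 1233 (cons (fin 1297 4 1040)
(mv 1230 (cons (mv 1169 (cons (fin 1229 2 1165)
(fin 1170 2 1166)))
(cons (mv 1165 (cons (fin 1166 3 1165)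
(mv 1229 (cons (fin 1164 3 1164)
(mv 1293 (cons (fin 1292 1 1228)
(fin 1294 1 1229)))))))
(mv 1165 (cons (fin 1166 3 1165)
(mv 1170 (cons (fin 1169 2 1166)
(mv 1234 (cons (fin 1171 2 1167)
(mv 1235 (cons (fin 1167 3 1167)
(mv 1299 (cons (fin 1298 0 1231)
(fin 1300 0 1232))))))))))))))))))))))))))
(mv 1232 (cons (cons (mv 977 (cons (fin 1041 6 976)
(mv 913 (cons (fin 976 6 912)
(mv 1233 (cons (fin 1297 4 1040)
(mv 1295 (cons (fin 1231 5 1039)
(mv 1296 (cons (fin 1359 5 1103)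
(mv 1103 (cons (fin 1039 7 1039)
(mv 1167 (cons (fin 1360 7 1103)
(mv 1166 (cons (fin 1165 0 1165)
(mv 1234 (cons (fin 1235 3 1167)
(fin 1169 0 1166)))))))))))))))))))
(cons (mv 977 (cons (fin 1041 6 976)
(mv 913 (cons (fin 976 6 912)
(mv 1295 (cons (fin 1231 5 1039)
(mv 1296 (cons (fin 1359 5 1103)
(mv 1103 (cons (fin 1039 7 1039)
(mv 1360 (cons (fin 1167 7 1103)
(mv 1361 (cons (fin 1297 4 1104)
(fin 1425 4 1168)))))))))))))))
(mv 977 (cons (fin 1041 6 976)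
(mv 913 (cons (fin 976 6 912)
(mv 1297 (cons (fin 1233 4 1040)
(mv 1296 (cons (fin 1361 4 1104)
(mv 1103 (cons (fin 1039 7 1039)
(mv 1359 (cons (fin 1295 5 1103)
(mv 1360 (cons (fin 1167 7 1103)
(fin 1423 5 1167)))))))))))))))))
(cons (cons (mv 1231 (cons (fin 1295 5 1039)
(mv 976 (cons (fin 1167 5 975)
(mv 1233 (cons (fin 1169 4 976)
(fin 1297 4 1040)))))))
(mv 977 (cons (fin 1041 6 976)
(mv 913 (cons (fin 976 6 912)
(mv 1295 (cons (fin 1231 5 1039)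
(mv 1296 (cons (fin 1359 5 1103)
(mv 1103 (cons (fin 1039 7 1039)
(mv 1360 (cons (fin 1167 7 1103)
(mv 1169 (cons (fin 1105 6 1104)
(mv 1101 (cons (fin 1102 0 1101)
(mv 1170 (cons (fin 1171 3 1103)
(mv 1424 (cons (fin 1233 6 1168)
(mv 1425 (cons (fin 1361 4 1168)
(fin 1489 4 1232))))))))))))))))))))))))
(cons (mv 977 (cons (fin 1041 6 976)
(mv 976 (cons (fin 913 6 912)
(mv 1233 (cons (fin 1169 4 976)
(fin 1297 4 1040)))))))
(mv 977 (cons (fin 1041 6 976)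
(mv 1233 (cons (fin 1297 4 1040)
(mv 1295 (cons (fin 1231 5 1039)
(mv 1296 (cons (fin 1359 5 1103)
(mv 1103 (cons (fin 1039 7 1039)
(mv 1167 (cons (fin 1360 7 1103)
(mv 1166 (cons (fin 1165 0 1165)
(mv 1234 (cons (fin 1235 3 1167)
(fin 1169 0 1166)))))))))))))))))))))))
(cons (cons (mv 1232 (cons (cons (mv 975 (cons (fin 1039 7 975)
(mv 911 (cons (fin 976 7 911)
(mv 1231 (cons (fin 1295 5 1039)
(mv 1297 (cons (fin 1233 4 1040)
(mv 1296 (cons (fin 1361 4 1104)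
(mv 1105 (cons (fin 1041 6 1040)
(mv 1169 (cons (fin 1360 6 1104)
(mv 1170 (cons (fin 1171 1 1167)
(mv 1230 (cons (fin 1167 1 1166)
(fin 1229 2 1165)))))))))))))))))))
(cons (mv 975 (cons (fin 1039 7 975)
(mv 911 (cons (fin 976 7 911)
(mv 1295 (cons (fin 1231 5 1039)
(mv 1296 (cons (fin 1359 5 1103)
(mv 1105 (cons (fin 1041 6 1040)
(mv 1360 (cons (fin 1169 6 1104)
(mv 1361 (cons (fin 1297 4 1104)
(fin 1425 4 1168)))))))))))))))
(mv 975 (cons (fin 1039 7 975)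
(mv 911 (cons (fin 976 7 911)
(mv 1297 (cons (fin 1233 4 1040)
(mv 1296 (cons (fin 1361 4 1104)
(mv 1105 (cons (fin 1041 6 1040)
(mv 1359 (cons (fin 1295 5 1103)
(mv 1360 (cons (fin 1423 5 1167)
(fin 1169 6 1104)))))))))))))))))
(cons (cons (mv 1231 (cons (fin 1295 5 1039)
(mv 976 (cons (fin 1167 5 975)
(mv 1233 (cons (fin 1169 4 976)
(fin 1297 4 1040)))))))
(mv 975 (cons (fin 1039 7 975)
(mv 976 (cons (fin 911 7 911)
(mv 1231 (cons (fin 1167 5 975)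
(fin 1295 5 1039))))))))
(cons (mv 975 (cons (fin 1039 7 975)
(mv 911 (cons (fin 976 7 911)
(mv 1297 (cons (fin 1233 4 1040)
(mv 1296 (cons (fin 1361 4 1104)
(mv 1105 (cons (fin 1041 6 1040)
(mv 1360 (cons (fin 1169 6 1104)
(mv 1167 (cons (fin 1103 7 1103)
(mv 1106 (cons (fin 1107 1 1103)
(mv 1165 (cons (fin 1166 2 1101)
(mv 1423 (cons (fin 1359 5 1167)
(mv 1424 (cons (fin 1231 7 1167)
(fin 1487 5 1231)))))))))))))))))))))))
(mv 975 (cons (fin 1039 7 975)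
(mv 1231 (cons (fin 1295 5 1039)
(mv 1297 (cons (fin 1233 4 1040)
(mv 1296 (cons (fin 1361 4 1104)
(mv 1105 (cons (fin 1041 6 1040)
(mv 1169 (cons (fin 1360 6 1104)
(mv 1170 (cons (fin 1171 1 1167)
(mv 1230 (cons (fin 1167 1 1166)
(fin 1229 2 1165)))))))))))))))))))))
(mv 976 (cons (cons (mv 911 (cons (fin 975 7 911)
(mv 847 (cons (fin 912 7 847)
(mv 977 (cons (fin 913 6 912)
(mv 1231 (cons (fin 1167 5 975)
(mv 1232 (cons (fin 1295 5 1039)
(fin 1041 6 976)))))))))))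
(mv 913 (cons (fin 977 6 912)
(mv 912 (cons (fin 849 6 848)
(mv 1167 (cons (fin 1103 5 911)
(fin 1231 5 975))))))))
(cons (mv 911 (cons (fin 975 7 911)
(mv 912 (cons (fin 847 7 847)
(mv 1167 (cons (fin 1103 5 911)
(fin 1231 5 975)))))))
(cons (mv 911 (cons (fin 975 7 911)
(mv 912 (cons (fin 847 7 847)
(mv 913 (cons (fin 849 6 848)
(fin 977 6 912)))))))
(mv 911 (cons (fin 975 7 911)
(mv 977 (cons (fin 913 6 912)
(mv 1231 (cons (fin 1167 5 975)
(mv 1232 (cons (fin 1295 5 1039)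
(fin 1041 6 976))))))))))))))
(cons (mv 976 (cons (cons (mv 911 (cons (fin 975 7 911)
(mv 847 (cons (fin 912 7 847)
(mv 977 (cons (fin 913 6 912)
(mv 1232 (cons (fin 1041 6 976)
(mv 1233 (cons (fin 1169 4 976)
(fin 1297 4 1040)))))))))))
(cons (mv 913 (cons (fin 977 6 912)
(mv 912 (cons (fin 849 6 848)
(mv 1169 (cons (fin 1105 4 912)
(fin 1233 4 976)))))))
(mv 911 (cons (fin 975 7 911)
(mv 912 (cons (fin 847 7 847)
(mv 1169 (cons (fin 1105 4 912)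
(fin 1233 4 976)))))))))
(cons (mv 911 (cons (fin 975 7 911)
(mv 847 (cons (fin 912 7 847)
(mv 977 (cons (fin 913 6 912)
(mv 1232 (cons (fin 1041 6 976)
(mv 1297 (cons (fin 1233 4 1040)
(mv 1296 (cons (fin 1361 4 1104)
(mv 1103 (cons (fin 1039 7 1039)
(mv 1359 (cons (fin 1295 5 1103)
(mv 1360 (cons (fin 1167 7 1103)
(fin 1423 5 1167)))))))))))))))))))
(cons (mv 911 (cons (fin 975 7 911)
(mv 912 (cons (fin 847 7 847)
(mv 913 (cons (fin 849 6 848)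
(fin 977 6 912)))))))
(mv 911 (cons (fin 975 7 911)
(mv 977 (cons (fin 913 6 912)
(mv 1232 (cons (fin 1041 6 976)
(mv 1233 (cons (fin 1169 4 976)
(fin 1297 4 1040)))))))))))))
(cons (mv 1232 (cons (cons (mv 975 (cons (fin 1039 7 975)
(mv 911 (cons (fin 976 7 911)
(mv 977 (cons (fin 1041 6 976)
(mv 1295 (cons (fin 1231 5 1039)
(mv 1296 (cons (fin 1359 5 1103)
(mv 1297 (cons (fin 1233 4 1040)
(fin 1361 4 1104)))))))))))))
(cons (mv 975 (cons (fin 1039 7 975)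
(mv 911 (cons (fin 976 7 911)
(mv 1295 (cons (fin 1231 5 1039)
(mv 1296 (cons (fin 1359 5 1103)
(mv 1297 (cons (fin 1233 4 1040)
(fin 1361 4 1104)))))))))))
(mv 977 (cons (fin 1041 6 976)
(mv 913 (cons (fin 976 6 912)
(mv 1295 (cons (fin 1231 5 1039)
(mv 1296 (cons (fin 1359 5 1103)
(mv 1297 (cons (fin 1233 4 1040)
(fin 1361 4 1104)))))))))))))
(cons (cons (mv 975 (cons (fin 1039 7 975)
(mv 911 (cons (fin 976 7 911)
(mv 1041 (cons (fin 977 6 976)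
(mv 1295 (cons (fin 1231 5 1039)
(mv 1296 (cons (fin 1359 5 1103)
(fin 1105 6 1040)))))))))))
(mv 975 (cons (fin 1039 7 975)
(mv 911 (cons (fin 976 7 911)
(mv 1041 (cons (fin 977 6 976)
(mv 1296 (cons (fin 1105 6 1040)
(mv 1297 (cons (fin 1233 4 1040)
(fin 1361 4 1104))))))))))))
(cons (mv 975 (cons (fin 1039 7 975)
(mv 976 (cons (fin 911 7 911)
(mv 977 (cons (fin 913 6 912)
(fin 1041 6 976)))))))
(mv 975 (cons (fin 1039 7 975)
(mv 977 (cons (fin 1041 6 976)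
(mv 1295 (cons (fin 1231 5 1039)
(mv 1296 (cons (fin 1359 5 1103)
(mv 1297 (cons (fin 1233 4 1040)
(fin 1361 4 1104)))))))))))))))
(mv 976 (cons (cons (mv 911 (cons (fin 975 7 911)
(mv 847 (cons (fin 912 7 847)
(mv 913 (cons (fin 977 6 912)
(mv 1231 (cons (fin 1167 5 975)
(mv 1232 (cons (fin 1295 5 1039)
(mv 1233 (cons (fin 1169 4 976)
(fin 1297 4 1040)))))))))))))
(mv 911 (cons (fin 975 7 911)
(mv 912 (cons (fin 847 7 847)
(mv 913 (cons (fin 849 6 848)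
(fin 977 6 912))))))))
(cons (mv 913 (cons (fin 977 6 912)
(mv 849 (cons (fin 912 6 848)
(mv 1231 (cons (fin 1167 5 975)
(mv 1232 (cons (fin 1295 5 1039)
(mv 1233 (cons (fin 1169 4 976)
(fin 1297 4 1040)))))))))))
(cons (mv 911 (cons (fin 975 7 911)
(mv 847 (cons (fin 912 7 847)
(mv 1231 (cons (fin 1167 5 975)
(mv 1232 (cons (fin 1295 5 1039)
(mv 1233 (cons (fin 1169 4 976)
(fin 1297 4 1040)))))))))))
(mv 911 (cons (fin 975 7 911)
(mv 913 (cons (fin 977 6 912)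
(mv 1231 (cons (fin 1167 5 975)
(mv 1232 (cons (fin 1295 5 1039)
(mv 1233 (cons (fin 1169 4 976)
(fin 1297 4 1040))))))))))))))))))))))))))
def l27 : Lem := ⟨11781361728633673533054441723117730079171283746239247440356909899588005244909514899260159721150817405942924420470662491174673842036557007391209044253460063708080530407354770956693342717623350878333880262063391977041189311657559161319740834448813323445848447489700891174053752382374267171085078592036680673850818560, 21407874823262963104424773987081170336366276060166920548519697444700106609142239641844635691957606890337130654831178423712507317943782737588969720914064477213219683726803402823612277938894054066894780793887760135859472377860034387964237977182191281130147092565921012602919860582891653626258768622629764986340275514937705255721949396613181976166574925434605299488765162842881360749800294474684204817884512905494247239762142100774762826139349880406016,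 21407874823262963104424773987081170336366276060166920548519697444700106609142239641844635691957606890337130654831178423712507317943782737588969720914064477213219683726803402823612277938894054066894780793887760135859472377860034387964237977182191281130147092565921012602919860582891653626258768622629764986340275514937705255721949396613181976166574925434605299488765162842881360749800294474684204817884512905494247239762142100774762826139349880406016, 19, 33⟩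
theorem l27_valid : l27.Valid :=
  Lem.valid_of_chk t27 t27_valid [974, 1040] c27 l27 (by decide +kernel)
end Crest.Agent.SnakyAux
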