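import Crest.Agent.S0047_aux.Checker

set_option autoImplicit false
set_option maxRecDepth 100000
namespace Crest.Agent.SnakyAux
open Cert
def t28 : Tbl := Tbl.nil
theorem t28_valid : t28.Valid := Tbl.valid_nil
def c28 : Cert :=
(mv 910 (cons (cons (cons (cons (mv 1038 (cons (cons (mv 846 (cons (cons (mv 781 (cons (fin 845 7 781)
(mv 717 (cons (fin 782 7 717)
(mv 783 (cons (fin 847 6 782)
(mv 1037 (cons (fin 1101 5 845)
(mv 1039 (cons (fin 1103 4 846)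
(mv 972 (cons (fin 973 3 972)
(mv 976 (cons (fin 977 2 973)
(mv 1036 (cons (fin 971 3 971)
(fin 975 2 972)))))))))))))))))
(cons (mv 781 (cons (fin 845 7 781)
(mv 717 (cons (fin 782 7 717)
(mv 847 (cons (fin 783 6 782)
(mv 1037 (cons (fin 1101 5 845)
(mv 1102 (cons (fin 911 6 846)
(mv 1167 (cons (fin 1103 4 910)
(mv 1166 (cons (fin 1231 4 974)
(mv 973 (cons (fin 909 7 909)
(fin 1230 7 973)))))))))))))))))
(mv 781 (cons (fin 845 7 781)
(mv 717 (cons (fin 782 7 717)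
(mv 847 (cons (fin 783 6 782)
(mv 911 (cons (fin 1102 6 846)
(mv 1039 (cons (fin 1103 4 846)
(mv 975 (cons (fin 1104 4 847)
(mv 848 (cons (fin 784 6 783)
(mv 849 (cons (fin 909 1 845)
(fin 850 1 846)))))))))))))))))))
(cons (cons (mv 781 (cons (fin 845 7 781)
(mv 717 (cons (fin 782 7 717)
(mv 1037 (cons (fin 1101 5 845)
(mv 1039 (cons (fin 1103 4 846)
(mv 972 (cons (fin 973 3 972)
(mv 976 (cons (fin 977 2 973)
(mv 1036 (cons (fin 971 3 971)
(fin 975 2 972)))))))))))))))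
(mv 783 (cons (fin 847 6 782)
(mv 719 (cons (fin 782 6 718)
(mv 1037 (cons (fin 1101 5 845)
(mv 1039 (cons (fin 1103 4 846)
(mv 972 (cons (fin 973 3 972)
(mv 976 (cons (fin 977 2 973)
(mv 1036 (cons (fin 971 3 971)
(fin 975 2 972))))))))))))))))
(cons (mv 781 (cons (fin 845 7 781)
(mv 717 (cons (fin 782 7 717)
(mv 847 (cons (fin 783 6 782)
(mv 1101 (cons (fin 1037 5 845)
(mv 1102 (cons (fin 1165 5 909)
(fin 911 6 846)))))))))))
(mv 781 (cons (fin 845 7 781)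
(mv 783 (cons (fin 847 6 782)
(mv 1037 (cons (fin 1101 5 845)
(mv 1039 (cons (fin 1103 4 846)
(mv 972 (cons (fin 973 3 972)
(mv 976 (cons (fin 977 2 973)
(mv 1036 (cons (fin 971 3 971)
(fin 975 2 972)))))))))))))))))))
(cons (mv 1102 (cons (cons (mv 845 (cons (fin 909 7 845)
(mv 847 (cons (fin 911 6 846)
(mv 1101 (cons (fin 1165 5 909)
(mv 1103 (cons (fin 1167 4 910)
(mv 1100 (cons (fin 1039 2 1036)
(mv 1035 (cons (fin 1036 3 1035)
(mv 1099 (cons (fin 1034 3 1034)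
(mv 1163 (cons (fin 1162 1 1098)
(fin 1164 1 1099)))))))))))))))))
(mv 845 (cons (fin 909 7 845)
(mv 1101 (cons (fin 1165 5 909)
(mv 1103 (cons (fin 1167 4 910)
(mv 1100 (cons (fin 1039 2 1036)
(mv 1035 (cons (fin 1036 3 1035)
(mv 1099 (cons (fin 1034 3 1034)
(mv 1163 (cons (fin 1162 1 1098)
(fin 1164 1 1099))))))))))))))))
(cons (mv 847 (cons (fin 911 6 846)
(mv 1101 (cons (fin 1165 5 909)
(mv 1103 (cons (fin 1167 4 910)
(mv 1100 (cons (fin 1039 2 1036)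
(mv 1035 (cons (fin 1036 3 1035)
(mv 1099 (cons (fin 1034 3 1034)
(mv 1163 (cons (fin 1162 1 1098)
(fin 1164 1 1099)))))))))))))))
(cons (mv 845 (cons (fin 909 7 845)
(mv 911 (cons (fin 847 6 846)
(mv 1165 (cons (fin 1101 5 909)
(mv 1166 (cons (fin 1229 5 973)
(fin 975 6 910)))))))))
(mv 845 (cons (fin 909 7 845)
(mv 911 (cons (fin 847 6 846)
(mv 1166 (cons (fin 975 6 910)
(mv 1167 (cons (fin 1103 4 910)
(fin 1231 4 974)))))))))))))
(mv 846 (cons (cons (mv 781 (cons (fin 845 7 781)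
(mv 717 (cons (fin 782 7 717)
(mv 783 (cons (fin 847 6 782)
(mv 1037 (cons (fin 1101 5 845)
(mv 1039 (cons (fin 1103 4 846)
(mv 972 (cons (fin 973 3 972)
(mv 976 (cons (fin 977 2 973)
(mv 1036 (cons (fin 971 3 971)
(fin 975 2 972)))))))))))))))))
(mv 781 (cons (fin 845 7 781)
(mv 782 (cons (fin 717 7 717)
(mv 783 (cons (fin 719 6 718)
(fin 847 6 782))))))))
(cons (mv 781 (cons (fin 845 7 781)
(mv 717 (cons (fin 782 7 717)
(mv 1037 (cons (fin 1101 5 845)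
(mv 1039 (cons (fin 1103 4 846)
(mv 972 (cons (fin 973 3 972)
(mv 976 (cons (fin 977 2 973)
(mv 1036 (cons (fin 971 3 971)
(fin 975 2 972)))))))))))))))
(cons (mv 783 (cons (fin 847 6 782)
(mv 719 (cons (fin 782 6 718)
(mv 1037 (cons (fin 1101 5 845)
(mv 1039 (cons (fin 1103 4 846)
(mv 972 (cons (fin 973 3 972)
(mv 976 (cons (fin 977 2 973)
(mv 1036 (cons (fin 971 3 971)
(fin 975 2 972)))))))))))))))
(mv 781 (cons (fin 845 7 781)
(mv 783 (cons (fin 847 6 782)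
(mv 1037 (cons (fin 1101 5 845)
(mv 1039 (cons (fin 1103 4 846)
(mv 972 (cons (fin 973 3 972)
(mv 976 (cons (fin 977 2 973)
(mv 1036 (cons (fin 971 3 971)
(fin 975 2 972)))))))))))))))))))))
(cons (cons (mv 846 (cons (cons (mv 781 (cons (fin 845 7 781)
(mv 717 (cons (fin 782 7 717)
(mv 847 (cons (fin 783 6 782)
(mv 911 (cons (fin 1102 6 846)
(mv 1039 (cons (fin 1103 4 846)
(mv 975 (cons (fin 1104 4 847)
(mv 848 (cons (fin 784 6 783)
(mv 849 (cons (fin 909 1 845)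
(fin 850 1 846)))))))))))))))))
(cons (mv 781 (cons (fin 845 7 781)
(mv 717 (cons (fin 782 7 717)
(mv 847 (cons (fin 783 6 782)
(mv 1102 (cons (fin 911 6 846)
(mv 1167 (cons (fin 1103 4 910)
(mv 1166 (cons (fin 1231 4 974)
(mv 973 (cons (fin 909 7 909)
(mv 1229 (cons (fin 1165 5 973)
(mv 1230 (cons (fin 1037 7 973)
(fin 1293 5 1037)))))))))))))))))))
(mv 781 (cons (fin 845 7 781)
(mv 782 (cons (fin 717 7 717)
(mv 1039 (cons (fin 975 4 782)
(fin 1103 4 846)))))))))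
(cons (mv 783 (cons (fin 847 6 782)
(mv 782 (cons (fin 719 6 718)
(mv 1039 (cons (fin 975 4 782)
(fin 1103 4 846)))))))
(cons (mv 781 (cons (fin 845 7 781)
(mv 782 (cons (fin 717 7 717)
(mv 783 (cons (fin 719 6 718)
(fin 847 6 782)))))))
(mv 781 (cons (fin 845 7 781)
(mv 847 (cons (fin 783 6 782)
(mv 911 (cons (fin 1102 6 846)
(mv 1039 (cons (fin 1103 4 846)
(mv 975 (cons (fin 1104 4 847)
(mv 848 (cons (fin 784 6 783)
(mv 849 (cons (fin 909 1 845)
(fin 850 1 846)))))))))))))))))))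
(mv 846 (cons (cons (mv 781 (cons (fin 845 7 781)
(mv 717 (cons (fin 782 7 717)
(mv 847 (cons (fin 783 6 782)
(mv 1101 (cons (fin 1037 5 845)
(mv 1102 (cons (fin 1165 5 909)
(fin 911 6 846)))))))))))
(mv 781 (cons (fin 845 7 781)
(mv 782 (cons (fin 717 7 717)
(mv 783 (cons (fin 719 6 718)
(fin 847 6 782))))))))
(cons (mv 781 (cons (fin 845 7 781)
(mv 782 (cons (fin 717 7 717)
(mv 1037 (cons (fin 973 5 781)
(fin 1101 5 845)))))))
(cons (mv 783 (cons (fin 847 6 782)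
(mv 782 (cons (fin 719 6 718)
(mv 1037 (cons (fin 973 5 781)
(fin 1101 5 845)))))))
(mv 781 (cons (fin 845 7 781)
(mv 847 (cons (fin 783 6 782)
(mv 1101 (cons (fin 1037 5 845)
(mv 1102 (cons (fin 1165 5 909)
(fin 911 6 846))))))))))))))
(cons (mv 1102 (cons (cons (mv 845 (cons (fin 909 7 845)
(mv 781 (cons (fin 846 7 781)
(mv 1101 (cons (fin 1165 5 909)
(mv 1103 (cons (fin 1167 4 910)
(mv 1100 (cons (fin 1039 2 1036)
(mv 1035 (cons (fin 1036 3 1035)
(mv 1099 (cons (fin 1034 3 1034)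
(mv 1163 (cons (fin 1162 1 1098)
(fin 1164 1 1099)))))))))))))))))
(cons (mv 845 (cons (fin 909 7 845)
(mv 781 (cons (fin 846 7 781)
(mv 1165 (cons (fin 1101 5 909)
(mv 1166 (cons (fin 1229 5 973)
(mv 975 (cons (fin 911 6 910)
(mv 1230 (cons (fin 1039 6 974)
(mv 1231 (cons (fin 1167 4 974)
(fin 1295 4 1038)))))))))))))))
(mv 845 (cons (fin 909 7 845)
(mv 781 (cons (fin 846 7 781)
(mv 1167 (cons (fin 1103 4 910)
(mv 1166 (cons (fin 1231 4 974)
(mv 975 (cons (fin 911 6 910)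
(mv 1229 (cons (fin 1165 5 973)
(mv 1230 (cons (fin 1293 5 1037)
(fin 1039 6 974)))))))))))))))))
(cons (cons (mv 1101 (cons (fin 1165 5 909)
(mv 846 (cons (fin 1037 5 845)
(mv 1103 (cons (fin 1039 4 846)
(fin 1167 4 910)))))))
(mv 845 (cons (fin 909 7 845)
(mv 846 (cons (fin 781 7 781)
(mv 1101 (cons (fin 1037 5 845)
(fin 1165 5 909))))))))
(cons (mv 845 (cons (fin 909 7 845)
(mv 781 (cons (fin 846 7 781)
(mv 1167 (cons (fin 1103 4 910)
(mv 1166 (cons (fin 1231 4 974)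
(mv 975 (cons (fin 911 6 910)
(mv 1230 (cons (fin 1039 6 974)
(mv 1037 (cons (fin 973 7 973)
(mv 976 (cons (fin 977 1 973)
(mv 1035 (cons (fin 1036 2 971)
(mv 1293 (cons (fin 1229 5 1037)
(mv 1294 (cons (fin 1101 7 1037)
(fin 1357 5 1101)))))))))))))))))))))))
(mv 845 (cons (fin 909 7 845)
(mv 1101 (cons (fin 1165 5 909)
(mv 1103 (cons (fin 1167 4 910)
(mv 1100 (cons (fin 1039 2 1036)
(mv 1035 (cons (fin 1036 3 1035)
(mv 1099 (cons (fin 1034 3 1034)
(mv 1163 (cons (fin 1162 1 1098)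
(fin 1164 1 1099)))))))))))))))))))
(mv 1102 (cons (cons (mv 847 (cons (fin 911 6 846)
(mv 783 (cons (fin 846 6 782)
(mv 1101 (cons (fin 1165 5 909)
(mv 1103 (cons (fin 1167 4 910)
(mv 1100 (cons (fin 1039 2 1036)
(mv 1035 (cons (fin 1036 3 1035)
(mv 1099 (cons (fin 1034 3 1034)
(mv 1163 (cons (fin 1162 1 1098)
(fin 1164 1 1099)))))))))))))))))
(cons (mv 847 (cons (fin 911 6 846)
(mv 783 (cons (fin 846 6 782)
(mv 1165 (cons (fin 1101 5 909)
(mv 1166 (cons (fin 1229 5 973)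
(mv 973 (cons (fin 909 7 909)
(mv 1037 (cons (fin 1230 7 973)
(mv 972 (cons (fin 1039 3 972)
(mv 971 (cons (fin 970 0 970)
(mv 906 (cons (fin 907 3 906)
(mv 1035 (cons (fin 1034 1 970)
(mv 975 (cons (fin 1036 1 971)
(mv 976 (cons (fin 977 1 973)
(mv 912 (cons (fin 913 2 909)
(fin 848 7 783)))))))))))))))))))))))))))
(mv 847 (cons (fin 911 6 846)
(mv 783 (cons (fin 846 6 782)
(mv 1167 (cons (fin 1103 4 910)
(mv 1166 (cons (fin 1231 4 974)
(mv 973 (cons (fin 909 7 909)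
(mv 1037 (cons (fin 1230 7 973)
(mv 972 (cons (fin 1039 3 972)
(mv 971 (cons (fin 970 0 970)
(mv 906 (cons (fin 907 3 906)
(mv 1035 (cons (fin 1034 1 970)
(mv 975 (cons (fin 1036 1 971)
(mv 976 (cons (fin 977 1 973)
(mv 912 (cons (fin 913 2 909)
(fin 848 7 783)))))))))))))))))))))))))))))
(cons (mv 1101 (cons (fin 1165 5 909)
(mv 846 (cons (fin 1037 5 845)
(mv 1103 (cons (fin 1039 4 846)
(fin 1167 4 910)))))))
(cons (mv 847 (cons (fin 911 6 846)
(mv 1101 (cons (fin 1165 5 909)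
(mv 1103 (cons (fin 1167 4 910)
(mv 1100 (cons (fin 1039 2 1036)
(mv 1035 (cons (fin 1036 3 1035)
(mv 1099 (cons (fin 1034 3 1034)
(mv 1163 (cons (fin 1162 1 1098)
(fin 1164 1 1099)))))))))))))))
(mv 847 (cons (fin 911 6 846)
(mv 783 (cons (fin 846 6 782)
(mv 1165 (cons (fin 1101 5 909)
(mv 1166 (cons (fin 1229 5 973)
(mv 1167 (cons (fin 1103 4 910)
(fin 1231 4 974)))))))))))))))))))
(mv 912 (cons (cons (cons (mv 911 (cons (cons (cons (mv 913 (cons (fin 973 1 909)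
(mv 845 (cons (fin 846 3 845)
(mv 844 (cons (fin 909 3 844)
(mv 849 (cons (fin 850 2 846)
(mv 914 (cons (fin 975 1 910)
(mv 978 (cons (fin 977 0 910)
(fin 979 0 911)))))))))))))
(mv 909 (cons (cons (mv 844 (cons (fin 845 3 844)
(mv 843 (cons (fin 908 3 843)
(mv 848 (cons (fin 849 2 845)
(mv 972 (cons (fin 973 1 908)
(mv 976 (cons (fin 977 0 909)
(mv 847 (cons (fin 783 7 783)
(fin 1104 7 847)))))))))))))
(cons (mv 844 (cons (fin 845 3 844)
(mv 848 (cons (fin 849 2 845)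
(mv 908 (cons (fin 843 3 843)
(fin 847 2 844)))))))
(mv 844 (cons (fin 845 3 844)
(mv 843 (cons (fin 908 3 843)
(mv 972 (cons (fin 973 1 908)
(mv 976 (cons (fin 977 0 909)
(mv 847 (cons (fin 1104 7 847)
(mv 783 (cons (fin 719 5 718)
(fin 975 4 783)))))))))))))))
(cons (mv 848 (cons (fin 849 2 845)
(mv 847 (cons (fin 908 2 844)
(mv 783 (cons (fin 976 7 783)
(fin 719 5 718)))))))
(cons (mv 844 (cons (fin 845 3 844)
(mv 848 (cons (fin 849 2 845)
(mv 972 (cons (fin 973 1 908)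
(mv 976 (cons (fin 977 0 909)
(mv 847 (cons (fin 783 7 783)
(fin 1104 7 847)))))))))))
(mv 844 (cons (fin 845 3 844)
(mv 843 (cons (fin 908 3 843)
(mv 848 (cons (fin 849 2 845)
(mv 972 (cons (fin 973 1 908)
(mv 976 (cons (fin 977 0 909)
(mv 1039 (cons (fin 1103 5 847)
(mv 784 (cons (fin 975 5 783)
(mv 719 (cons (fin 783 7 719)
(mv 720 (cons (fin 655 7 655)
(mv 721 (cons (fin 657 6 656)
(fin 785 6 720))))))))))))))))))))))))))
(cons (mv 913 (cons (cons (mv 845 (cons (fin 846 3 845)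
(mv 844 (cons (fin 909 3 844)
(mv 849 (cons (fin 850 2 846)
(mv 914 (cons (fin 975 1 910)
(mv 978 (cons (fin 977 0 910)
(fin 979 0 911)))))))))))
(mv 845 (cons (fin 846 3 845)
(mv 844 (cons (fin 909 3 844)
(mv 849 (cons (fin 850 2 846)
(mv 976 (cons (fin 1104 6 848)
(mv 785 (cons (fin 721 5 720)
(fin 977 5 784))))))))))))
(cons (mv 845 (cons (fin 846 3 845)
(mv 844 (cons (fin 909 3 844)
(mv 914 (cons (fin 975 1 910)
(mv 978 (cons (fin 977 0 910)
(fin 979 0 911)))))))))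
(cons (mv 849 (cons (fin 850 2 846)
(mv 848 (cons (fin 909 2 845)
(mv 976 (cons (fin 785 6 784)
(fin 1104 6 848)))))))
(mv 845 (cons (fin 846 3 845)
(mv 849 (cons (fin 850 2 846)
(mv 914 (cons (fin 975 1 910)
(mv 978 (cons (fin 977 0 910)
(fin 979 0 911)))))))))))))
(mv 913 (cons (fin 973 1 909)
(mv 845 (cons (fin 846 3 845)
(mv 849 (cons (fin 850 2 846)
(mv 914 (cons (fin 975 1 910)
(mv 978 (cons (fin 977 0 910)
(fin 979 0 911)))))))))))))
(cons (cons (mv 913 (cons (fin 973 1 909)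
(mv 845 (cons (fin 846 3 845)
(mv 844 (cons (fin 909 3 844)
(mv 849 (cons (fin 850 2 846)
(mv 976 (cons (fin 1104 6 848)
(mv 785 (cons (fin 721 5 720)
(fin 977 5 784)))))))))))))
(mv 913 (cons (fin 973 1 909)
(mv 845 (cons (fin 846 3 845)
(mv 844 (cons (fin 909 3 844)
(mv 914 (cons (fin 975 1 910)
(mv 978 (cons (fin 977 0 910)
(fin 979 0 911))))))))))))
(cons (mv 913 (cons (fin 973 1 909)
(mv 845 (cons (fin 846 3 845)
(mv 844 (cons (fin 909 3 844)
(mv 849 (cons (fin 850 2 846)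
(mv 914 (cons (fin 975 1 910)
(mv 976 (cons (fin 1104 6 848)
(mv 785 (cons (fin 721 5 720)
(fin 848 6 784)))))))))))))))
(mv 913 (cons (fin 973 1 909)
(mv 849 (cons (fin 850 2 846)
(mv 848 (cons (fin 909 2 845)
(mv 976 (cons (fin 785 6 784)
(fin 1104 6 848)))))))))))))
(cons (mv 976 (cons (cons (mv 848 (cons (cons (mv 783 (cons (fin 847 7 783)
(mv 719 (cons (fin 784 7 719)
(mv 782 (cons (fin 846 6 718)
(mv 849 (cons (fin 785 6 784)
(mv 913 (cons (fin 1104 6 848)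
(mv 975 (cons (fin 973 2 909)
(mv 914 (cons (fin 915 1 911)
(fin 977 2 910)))))))))))))))
(cons (mv 783 (cons (fin 847 7 783)
(mv 719 (cons (fin 784 7 719)
(mv 846 (cons (fin 782 6 718)
(mv 1103 (cons (fin 1039 5 847)
(mv 1104 (cons (fin 1167 5 911)
(mv 1169 (cons (fin 1105 4 912)
(mv 1168 (cons (fin 1233 4 976)
(mv 913 (cons (fin 977 6 912)
(mv 973 (cons (fin 975 2 909)
(mv 1101 (cons (fin 1102 0 1101)
(mv 1037 (cons (fin 909 6 845)
(fin 1165 6 909)))))))))))))))))))))))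
(mv 785 (cons (fin 849 6 784)
(mv 721 (cons (fin 784 6 720)
(mv 1103 (cons (fin 1039 5 847)
(mv 1104 (cons (fin 1167 5 911)
(mv 1169 (cons (fin 1105 4 912)
(mv 1168 (cons (fin 1233 4 976)
(mv 913 (cons (fin 977 6 912)
(mv 973 (cons (fin 975 2 909)
(mv 1101 (cons (fin 1102 0 1101)
(mv 1037 (cons (fin 1165 6 909)
(mv 846 (cons (fin 782 5 781)
(fin 909 6 845)))))))))))))))))))))))))
(cons (mv 783 (cons (fin 847 7 783)
(mv 719 (cons (fin 784 7 719)
(mv 782 (cons (fin 846 6 718)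
(mv 849 (cons (fin 785 6 784)
(mv 1103 (cons (fin 1039 5 847)
(mv 1104 (cons (fin 1167 5 911)
(fin 913 6 848)))))))))))))
(cons (mv 783 (cons (fin 847 7 783)
(mv 785 (cons (fin 849 6 784)
(mv 1103 (cons (fin 1039 5 847)
(mv 1104 (cons (fin 1167 5 911)
(mv 1169 (cons (fin 1105 4 912)
(mv 1168 (cons (fin 1233 4 976)
(mv 913 (cons (fin 977 6 912)
(mv 973 (cons (fin 975 2 909)
(mv 1101 (cons (fin 1102 0 1101)
(mv 1037 (cons (fin 1165 6 909)
(mv 846 (cons (fin 782 5 781)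
(fin 909 6 845)))))))))))))))))))))))
(mv 783 (cons (fin 847 7 783)
(mv 784 (cons (fin 719 7 719)
(mv 785 (cons (fin 721 6 720)
(fin 849 6 784)))))))))))
(cons (mv 1104 (cons (cons (mv 849 (cons (fin 913 6 848)
(mv 1167 (cons (fin 1103 5 911)
(mv 1168 (cons (fin 1231 5 975)
(mv 1169 (cons (fin 1105 4 912)
(fin 1233 4 976)))))))))
(mv 1167 (cons (fin 1103 5 911)
(mv 1168 (cons (fin 1231 5 975)
(mv 1169 (cons (fin 1105 4 912)
(fin 1233 4 976))))))))
(cons (mv 913 (cons (fin 849 6 848)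
(mv 973 (cons (fin 975 2 909)
(mv 1168 (cons (fin 977 6 912)
(mv 1169 (cons (fin 1105 4 912)
(fin 1233 4 976)))))))))
(cons (mv 913 (cons (fin 849 6 848)
(mv 973 (cons (fin 975 2 909)
(mv 1167 (cons (fin 1103 5 911)
(mv 1168 (cons (fin 1231 5 975)
(fin 977 6 912)))))))))
(mv 913 (cons (fin 849 6 848)
(mv 975 (cons (fin 973 2 909)
(mv 914 (cons (fin 915 1 911)
(fin 977 2 910)))))))))))
(mv 848 (cons (cons (mv 783 (cons (fin 847 7 783)
(mv 784 (cons (fin 719 7 719)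
(mv 785 (cons (fin 721 6 720)
(fin 849 6 784)))))))
(mv 783 (cons (fin 847 7 783)
(mv 784 (cons (fin 719 7 719)
(mv 1039 (cons (fin 975 5 783)
(fin 1103 5 847))))))))
(cons (mv 785 (cons (fin 849 6 784)
(mv 784 (cons (fin 721 6 720)
(mv 1039 (cons (fin 975 5 783)
(fin 1103 5 847)))))))
(mv 847 (cons (fin 783 7 783)
(mv 849 (cons (fin 785 6 784)
(mv 846 (cons (fin 909 1 845)
(mv 913 (cons (fin 845 0 845)
(fin 914 0 846))))))))))))))
(cons (cons (mv 1104 (cons (cons (mv 849 (cons (fin 913 6 848)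
(mv 785 (cons (fin 848 6 784)
(mv 1167 (cons (fin 1103 5 911)
(mv 1168 (cons (fin 1231 5 975)
(mv 1169 (cons (fin 1105 4 912)
(fin 1233 4 976)))))))))))
(mv 913 (cons (fin 849 6 848)
(mv 1168 (cons (fin 977 6 912)
(mv 1169 (cons (fin 1105 4 912)
(fin 1233 4 976))))))))
(cons (mv 1103 (cons (fin 1167 5 911)
(mv 848 (cons (fin 1039 5 847)
(mv 783 (cons (fin 847 7 783)
(mv 784 (cons (fin 719 7 719)
(mv 785 (cons (fin 721 6 720)
(fin 849 6 784)))))))))))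
(mv 1167 (cons (fin 1103 5 911)
(mv 1168 (cons (fin 1231 5 975)
(mv 1169 (cons (fin 1105 4 912)
(fin 1233 4 976))))))))))
(mv 848 (cons (cons (mv 783 (cons (fin 847 7 783)
(mv 784 (cons (fin 719 7 719)
(mv 785 (cons (fin 721 6 720)
(fin 849 6 784)))))))
(mv 785 (cons (fin 849 6 784)
(mv 784 (cons (fin 721 6 720)
(mv 1039 (cons (fin 975 5 783)
(fin 1103 5 847))))))))
(cons (mv 783 (cons (fin 847 7 783)
(mv 784 (cons (fin 719 7 719)
(mv 1039 (cons (fin 975 5 783)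
(fin 1103 5 847)))))))
(mv 847 (cons (fin 783 7 783)
(mv 849 (cons (fin 785 6 784)
(mv 846 (cons (fin 909 1 845)
(mv 782 (cons (fin 781 3 781)
(mv 1039 (cons (fin 1103 5 847)
(fin 975 4 782)))))))))))))))
(cons (mv 975 (cons (cons (mv 909 (cons (fin 977 3 909)
(mv 908 (cons (fin 973 3 908)
(fin 907 0 907)))))
(mv 977 (cons (fin 909 3 909)
(mv 913 (cons (fin 914 2 910)
(mv 849 (cons (fin 785 5 784)
(fin 1104 6 848))))))))
(cons (mv 913 (cons (fin 973 2 909)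
(mv 914 (cons (fin 915 1 911)
(fin 977 2 910)))))
(mv 913 (cons (fin 973 2 909)
(mv 849 (cons (fin 1104 6 848)
(mv 785 (cons (fin 721 5 720)
(fin 848 6 784))))))))))
(mv 975 (cons (cons (mv 909 (cons (fin 977 3 909)
(mv 908 (cons (fin 973 3 908)
(fin 907 0 907)))))
(mv 977 (cons (fin 909 3 909)
(mv 913 (cons (fin 914 2 910)
(mv 1104 (cons (fin 1168 6 912)
(mv 1103 (cons (fin 1167 5 911)
(mv 848 (cons (fin 1039 5 847)
(mv 783 (cons (fin 847 7 783)
(mv 784 (cons (fin 719 7 719)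
(fin 720 4 720))))))))))))))))
(cons (mv 913 (cons (fin 973 2 909)
(mv 914 (cons (fin 915 1 911)
(fin 977 2 910)))))
(mv 973 (cons (fin 913 2 909)
(mv 908 (cons (fin 909 3 908)
(mv 972 (cons (fin 907 3 907)
(fin 1039 0 972))))))))))))))
(mv 911 (cons (cons (cons (mv 913 (cons (cons (mv 845 (cons (fin 846 3 845)
(mv 844 (cons (fin 909 3 844)
(mv 849 (cons (fin 850 2 846)
(mv 914 (cons (fin 975 1 910)
(mv 978 (cons (fin 977 0 910)
(fin 979 0 911)))))))))))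
(mv 845 (cons (fin 846 3 845)
(mv 844 (cons (fin 909 3 844)
(mv 849 (cons (fin 850 2 846)
(mv 976 (cons (fin 1104 6 848)
(mv 785 (cons (fin 721 5 720)
(fin 977 5 784))))))))))))
(cons (mv 845 (cons (fin 846 3 845)
(mv 844 (cons (fin 909 3 844)
(mv 914 (cons (fin 975 1 910)
(mv 978 (cons (fin 977 0 910)
(fin 979 0 911)))))))))
(cons (mv 849 (cons (fin 850 2 846)
(mv 848 (cons (fin 909 2 845)
(mv 976 (cons (fin 785 6 784)
(fin 1104 6 848)))))))
(mv 845 (cons (fin 846 3 845)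
(mv 849 (cons (fin 850 2 846)
(mv 914 (cons (fin 975 1 910)
(mv 978 (cons (fin 977 0 910)
(fin 979 0 911)))))))))))))
(mv 909 (cons (cons (mv 844 (cons (fin 845 3 844)
(mv 843 (cons (fin 908 3 843)
(mv 848 (cons (fin 849 2 845)
(mv 976 (cons (fin 977 0 909)
(mv 847 (cons (fin 783 7 783)
(fin 1104 7 847)))))))))))
(cons (mv 844 (cons (fin 845 3 844)
(mv 848 (cons (fin 849 2 845)
(mv 908 (cons (fin 843 3 843)
(fin 847 2 844)))))))
(mv 844 (cons (fin 845 3 844)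
(mv 843 (cons (fin 908 3 843)
(mv 976 (cons (fin 977 0 909)
(mv 847 (cons (fin 1104 7 847)
(mv 783 (cons (fin 719 5 718)
(fin 975 4 783)))))))))))))
(cons (mv 848 (cons (fin 849 2 845)
(mv 847 (cons (fin 908 2 844)
(mv 783 (cons (fin 976 7 783)
(fin 719 5 718)))))))
(cons (mv 844 (cons (fin 845 3 844)
(mv 848 (cons (fin 849 2 845)
(mv 976 (cons (fin 977 0 909)
(mv 847 (cons (fin 783 7 783)
(fin 1104 7 847)))))))))
(mv 844 (cons (fin 845 3 844)
(mv 843 (cons (fin 908 3 843)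
(mv 848 (cons (fin 849 2 845)
(mv 976 (cons (fin 977 0 909)
(mv 1039 (cons (fin 1103 5 847)
(mv 784 (cons (fin 975 5 783)
(mv 719 (cons (fin 783 7 719)
(mv 720 (cons (fin 655 7 655)
(mv 721 (cons (fin 657 6 656)
(fin 785 6 720))))))))))))))))))))))))
(cons (mv 913 (cons (cons (mv 845 (cons (fin 846 3 845)
(mv 849 (cons (fin 850 2 846)
(mv 914 (cons (fin 975 1 910)
(mv 978 (cons (fin 977 0 910)
(fin 979 0 911)))))))))
(mv 845 (cons (fin 846 3 845)
(mv 849 (cons (fin 850 2 846)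
(mv 976 (cons (fin 1104 6 848)
(mv 785 (cons (fin 721 5 720)
(fin 977 5 784))))))))))
(cons (mv 849 (cons (fin 850 2 846)
(mv 914 (cons (fin 975 1 910)
(mv 978 (cons (fin 977 0 910)
(fin 979 0 911)))))))
(cons (mv 845 (cons (fin 846 3 845)
(mv 914 (cons (fin 975 1 910)
(mv 978 (cons (fin 977 0 910)
(fin 979 0 911)))))))
(mv 845 (cons (fin 846 3 845)
(mv 849 (cons (fin 850 2 846)
(mv 914 (cons (fin 975 1 910)
(mv 976 (cons (fin 1104 6 848)
(mv 785 (cons (fin 721 5 720)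
(fin 848 6 784)))))))))))))))
(mv 913 (cons (cons (mv 845 (cons (fin 846 3 845)
(mv 844 (cons (fin 909 3 844)
(mv 849 (cons (fin 850 2 846)
(mv 914 (cons (fin 975 1 910)
(mv 978 (cons (fin 977 0 910)
(fin 979 0 911)))))))))))
(mv 845 (cons (fin 846 3 845)
(mv 849 (cons (fin 850 2 846)
(mv 909 (cons (fin 844 3 844)
(fin 848 2 845))))))))
(cons (mv 849 (cons (fin 850 2 846)
(mv 848 (cons (fin 909 2 845)
(mv 914 (cons (fin 975 1 910)
(mv 915 (cons (fin 847 3 847)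
(fin 916 3 848)))))))))
(cons (mv 845 (cons (fin 846 3 845)
(mv 844 (cons (fin 909 3 844)
(mv 914 (cons (fin 975 1 910)
(mv 978 (cons (fin 977 0 910)
(fin 979 0 911)))))))))
(mv 845 (cons (fin 846 3 845)
(mv 849 (cons (fin 850 2 846)
(mv 914 (cons (fin 975 1 910)
(mv 978 (cons (fin 977 0 910)
(fin 979 0 911)))))))))))))))
(cons (cons (mv 913 (cons (cons (mv 845 (cons (fin 846 3 845)
(mv 844 (cons (fin 909 3 844)
(mv 914 (cons (fin 975 1 910)
(mv 978 (cons (fin 977 0 910)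
(fin 979 0 911)))))))))
(mv 845 (cons (fin 846 3 845)
(mv 909 (cons (fin 844 3 844)
(mv 977 (cons (fin 976 0 909)
(fin 978 0 910))))))))
(cons (mv 914 (cons (fin 975 1 910)
(mv 978 (cons (fin 977 0 910)
(fin 979 0 911)))))
(cons (mv 845 (cons (fin 846 3 845)
(mv 844 (cons (fin 909 3 844)
(mv 914 (cons (fin 975 1 910)
(mv 851 (cons (fin 850 2 847)
(mv 915 (cons (fin 852 2 848)
(mv 979 (cons (fin 978 0 911)
(fin 980 0 912)))))))))))))
(mv 845 (cons (fin 846 3 845)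
(mv 844 (cons (fin 909 3 844)
(mv 914 (cons (fin 975 1 910)
(mv 851 (cons (fin 850 2 847)
(mv 915 (cons (fin 852 2 848)
(mv 847 (cons (fin 848 3 847)
(mv 719 (cons (fin 783 5 718)
(mv 976 (cons (fin 1104 7 847)
(mv 916 (cons (fin 977 1 912)
(mv 980 (cons (fin 979 0 912)
(fin 981 0 913)))))))))))))))))))))))))
(mv 913 (cons (cons (mv 845 (cons (fin 846 3 845)
(mv 844 (cons (fin 909 3 844)
(mv 849 (cons (fin 850 2 846)
(mv 914 (cons (fin 975 1 910)
(mv 976 (cons (fin 1104 6 848)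
(mv 785 (cons (fin 721 5 720)
(fin 848 6 784)))))))))))))
(cons (mv 845 (cons (fin 846 3 845)
(mv 844 (cons (fin 909 3 844)
(mv 849 (cons (fin 850 2 846)
(mv 976 (cons (fin 1104 6 848)
(mv 785 (cons (fin 721 5 720)
(fin 848 6 784)))))))))))
(mv 845 (cons (fin 846 3 845)
(mv 844 (cons (fin 909 3 844)
(mv 914 (cons (fin 975 1 910)
(mv 851 (cons (fin 850 2 847)
(mv 915 (cons (fin 852 2 848)
(mv 979 (cons (fin 978 0 911)
(fin 980 0 912)))))))))))))))
(cons (mv 849 (cons (fin 850 2 846)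
(mv 848 (cons (fin 909 2 845)
(mv 976 (cons (fin 785 6 784)
(fin 1104 6 848)))))))
(cons (mv 845 (cons (fin 846 3 845)
(mv 844 (cons (fin 909 3 844)
(mv 914 (cons (fin 975 1 910)
(mv 979 (cons (fin 978 0 911)
(mv 915 (cons (fin 980 0 912)
(mv 848 (cons (fin 847 3 847)
(mv 849 (cons (fin 916 3 848)
(mv 976 (cons (fin 785 6 784)
(fin 1104 6 848)))))))))))))))))
(mv 845 (cons (fin 846 3 845)
(mv 849 (cons (fin 850 2 846)
(mv 914 (cons (fin 975 1 910)
(mv 976 (cons (fin 1104 6 848)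
(mv 785 (cons (fin 721 5 720)
(fin 848 6 784))))))))))))))))
(cons (mv 913 (cons (mv 849 (cons (fin 850 2 846)
(mv 848 (cons (fin 909 2 845)
(mv 976 (cons (fin 785 6 784)
(fin 1104 6 848)))))))
(mv 914 (cons (fin 975 1 910)
(mv 978 (cons (fin 977 0 910)
(fin 979 0 911)))))))
(cons (mv 913 (cons (cons (mv 845 (cons (fin 846 3 845)
(mv 844 (cons (fin 909 3 844)
(mv 849 (cons (fin 850 2 846)
(mv 976 (cons (fin 1104 6 848)
(mv 785 (cons (fin 721 5 720)
(fin 977 5 784)))))))))))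
(mv 845 (cons (fin 846 3 845)
(mv 909 (cons (fin 844 3 844)
(mv 977 (cons (fin 976 0 909)
(fin 978 0 910))))))))
(cons (mv 849 (cons (fin 850 2 846)
(mv 848 (cons (fin 909 2 845)
(mv 976 (cons (fin 785 6 784)
(fin 1104 6 848)))))))
(cons (mv 845 (cons (fin 846 3 845)
(mv 844 (cons (fin 909 3 844)
(mv 850 (cons (fin 849 2 846)
(mv 914 (cons (fin 851 2 847)
(mv 978 (cons (fin 977 0 910)
(fin 979 0 911)))))))))))
(mv 845 (cons (fin 846 3 845)
(mv 849 (cons (fin 850 2 846)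
(mv 976 (cons (fin 1104 6 848)
(mv 785 (cons (fin 721 5 720)
(fin 977 5 784)))))))))))))
(mv 913 (cons (cons (mv 845 (cons (fin 846 3 845)
(mv 844 (cons (fin 909 3 844)
(mv 849 (cons (fin 850 2 846)
(mv 914 (cons (fin 975 1 910)
(mv 978 (cons (fin 977 0 910)
(fin 979 0 911)))))))))))
(mv 845 (cons (fin 846 3 845)
(mv 844 (cons (fin 909 3 844)
(mv 849 (cons (fin 850 2 846)
(mv 976 (cons (fin 1104 6 848)
(mv 785 (cons (fin 721 5 720)
(fin 977 5 784))))))))))))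
(cons (mv 849 (cons (fin 850 2 846)
(mv 914 (cons (fin 975 1 910)
(mv 978 (cons (fin 977 0 910)
(fin 979 0 911)))))))
(cons (mv 845 (cons (fin 846 3 845)
(mv 844 (cons (fin 909 3 844)
(mv 849 (cons (fin 850 2 846)
(mv 975 (cons (fin 914 1 910)
(mv 1104 (cons (fin 976 6 848)
(mv 847 (cons (fin 1039 4 847)
(mv 783 (cons (fin 719 5 718)
(mv 782 (cons (fin 718 7 718)
(mv 784 (cons (fin 781 1 780)
(fin 720 6 719)))))))))))))))))))
(mv 845 (cons (fin 846 3 845)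
(mv 844 (cons (fin 909 3 844)
(mv 914 (cons (fin 975 1 910)
(mv 978 (cons (fin 977 0 910)
(fin 979 0 911))))))))))))))))))))
(cons (mv 976 (cons (cons (cons (mv 848 (cons (cons (mv 783 (cons (fin 847 7 783)
(mv 719 (cons (fin 784 7 719)
(mv 782 (cons (fin 846 6 718)
(mv 785 (cons (fin 849 6 784)
(mv 1103 (cons (fin 1039 5 847)
(mv 1104 (cons (fin 1167 5 911)
(mv 1169 (cons (fin 1105 4 912)
(mv 1168 (cons (fin 1233 4 976)
(mv 911 (cons (fin 975 7 911)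
(mv 909 (cons (fin 977 0 909)
(mv 844 (cons (fin 845 3 844)
(mv 908 (cons (fin 843 3 843)
(mv 972 (cons (fin 971 1 907)
(fin 973 1 908)))))))))))))))))))))))))))
(cons (mv 785 (cons (fin 849 6 784)
(mv 721 (cons (fin 784 6 720)
(mv 1103 (cons (fin 1039 5 847)
(mv 1104 (cons (fin 1167 5 911)
(mv 1169 (cons (fin 1105 4 912)
(mv 1168 (cons (fin 1233 4 976)
(mv 911 (cons (fin 975 7 911)
(mv 909 (cons (fin 977 0 909)
(mv 844 (cons (fin 845 3 844)
(mv 843 (cons (fin 908 3 843)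
(mv 973 (cons (fin 972 1 908)
(mv 1101 (cons (fin 1102 0 1101)
(mv 1037 (cons (fin 846 6 845)
(fin 1165 6 909)))))))))))))))))))))))))))
(mv 783 (cons (fin 847 7 783)
(mv 719 (cons (fin 784 7 719)
(mv 782 (cons (fin 846 6 718)
(mv 849 (cons (fin 785 6 784)
(mv 909 (cons (fin 911 2 845)
(mv 975 (cons (fin 977 3 909)
(mv 908 (cons (fin 973 3 908)
(fin 907 0 907)))))))))))))))))
(cons (mv 783 (cons (fin 847 7 783)
(mv 719 (cons (fin 784 7 719)
(mv 782 (cons (fin 846 6 718)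
(mv 1103 (cons (fin 1039 5 847)
(mv 1104 (cons (fin 1167 5 911)
(mv 1169 (cons (fin 1105 4 912)
(mv 1168 (cons (fin 1233 4 976)
(mv 911 (cons (fin 975 7 911)
(mv 909 (cons (fin 977 0 909)
(mv 844 (cons (fin 845 3 844)
(mv 908 (cons (fin 843 3 843)
(mv 972 (cons (fin 971 1 907)
(fin 973 1 908)))))))))))))))))))))))))
(cons (mv 783 (cons (fin 847 7 783)
(mv 784 (cons (fin 719 7 719)
(mv 785 (cons (fin 721 6 720)
(fin 849 6 784)))))))
(mv 783 (cons (fin 847 7 783)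
(mv 785 (cons (fin 849 6 784)
(mv 1103 (cons (fin 1039 5 847)
(mv 1104 (cons (fin 1167 5 911)
(mv 1169 (cons (fin 1105 4 912)
(mv 1168 (cons (fin 1233 4 976)
(mv 911 (cons (fin 975 7 911)
(mv 909 (cons (fin 977 0 909)
(mv 844 (cons (fin 845 3 844)
(mv 843 (cons (fin 908 3 843)
(mv 973 (cons (fin 972 1 908)
(mv 1101 (cons (fin 1102 0 1101)
(mv 1037 (cons (fin 846 6 845)
(fin 1165 6 909)))))))))))))))))))))))))))))))
(mv 1104 (cons (cons (mv 847 (cons (fin 911 7 847)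
(mv 1167 (cons (fin 1103 5 911)
(mv 1168 (cons (fin 1231 5 975)
(mv 1169 (cons (fin 1105 4 912)
(fin 1233 4 976)))))))))
(mv 1167 (cons (fin 1103 5 911)
(mv 1168 (cons (fin 1231 5 975)
(mv 1169 (cons (fin 1105 4 912)
(fin 1233 4 976))))))))
(cons (mv 911 (cons (fin 847 7 847)
(mv 909 (cons (fin 977 0 909)
(mv 975 (cons (fin 908 0 908)
(fin 1168 7 911)))))))
(mv 911 (cons (fin 847 7 847)
(mv 909 (cons (fin 977 0 909)
(mv 844 (cons (fin 845 3 844)
(mv 908 (cons (fin 843 3 843)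
(fin 975 0 908)))))))))))))
(cons (mv 848 (cons (cons (mv 783 (cons (fin 847 7 783)
(mv 719 (cons (fin 784 7 719)
(mv 782 (cons (fin 846 6 718)
(mv 849 (cons (fin 785 6 784)
(mv 909 (cons (fin 911 2 845)
(mv 975 (cons (fin 977 3 909)
(mv 908 (cons (fin 973 3 908)
(fin 907 0 907)))))))))))))))
(mv 785 (cons (fin 849 6 784)
(mv 784 (cons (fin 721 6 720)
(mv 1039 (cons (fin 975 5 783)
(fin 1103 5 847))))))))
(cons (mv 783 (cons (fin 847 7 783)
(mv 784 (cons (fin 719 7 719)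
(mv 1039 (cons (fin 975 5 783)
(fin 1103 5 847)))))))
(cons (mv 783 (cons (fin 847 7 783)
(mv 849 (cons (fin 785 6 784)
(mv 909 (cons (fin 911 2 845)
(mv 975 (cons (fin 977 3 909)
(mv 908 (cons (fin 973 3 908)
(fin 907 0 907)))))))))))
(mv 783 (cons (fin 847 7 783)
(mv 784 (cons (fin 719 7 719)
(mv 785 (cons (fin 721 6 720)
(fin 849 6 784)))))))))))
(mv 848 (cons (cons (mv 783 (cons (fin 847 7 783)
(mv 784 (cons (fin 719 7 719)
(mv 785 (cons (fin 721 6 720)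
(fin 849 6 784)))))))
(mv 785 (cons (fin 849 6 784)
(mv 784 (cons (fin 721 6 720)
(mv 1039 (cons (fin 975 5 783)
(fin 1103 5 847))))))))
(cons (mv 783 (cons (fin 847 7 783)
(mv 784 (cons (fin 719 7 719)
(mv 1039 (cons (fin 975 5 783)
(fin 1103 5 847)))))))
(mv 847 (cons (fin 783 7 783)
(mv 849 (cons (fin 785 6 784)
(mv 846 (cons (fin 909 1 845)
(mv 782 (cons (fin 781 3 781)
(mv 1039 (cons (fin 1103 5 847)
(fin 975 4 782))))))))))))))))
(cons (cons (mv 848 (cons (cons (mv 783 (cons (fin 847 7 783)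
(mv 784 (cons (fin 719 7 719)
(mv 785 (cons (fin 721 6 720)
(fin 849 6 784)))))))
(mv 785 (cons (fin 849 6 784)
(mv 784 (cons (fin 721 6 720)
(mv 1039 (cons (fin 975 5 783)
(fin 1103 5 847))))))))
(cons (mv 783 (cons (fin 847 7 783)
(mv 784 (cons (fin 719 7 719)
(mv 1039 (cons (fin 975 5 783)
(fin 1103 5 847)))))))
(mv 785 (cons (fin 849 6 784)
(mv 847 (cons (fin 783 7 783)
(mv 1039 (cons (fin 1103 5 847)
(mv 1104 (cons (fin 911 7 847)
(mv 1169 (cons (fin 1105 4 912)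
(mv 1168 (cons (fin 1233 4 976)
(mv 1231 (cons (fin 1167 5 975)
(mv 1232 (cons (fin 975 7 975)
(fin 1295 5 1039))))))))))))))))))))
(mv 1104 (cons (cons (mv 1103 (cons (fin 1167 5 911)
(mv 848 (cons (fin 1039 5 847)
(mv 785 (cons (fin 849 6 784)
(mv 721 (cons (fin 784 6 720)
(mv 1169 (cons (fin 1105 4 912)
(mv 1168 (cons (fin 1233 4 976)
(mv 911 (cons (fin 975 7 911)
(mv 909 (cons (fin 977 0 909)
(mv 844 (cons (fin 845 3 844)
(mv 843 (cons (fin 908 3 843)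
(mv 973 (cons (fin 972 1 908)
(mv 1101 (cons (fin 1102 0 1101)
(mv 1037 (cons (fin 846 6 845)
(fin 1165 6 909)))))))))))))))))))))))))))
(mv 1169 (cons (fin 1105 4 912)
(mv 1168 (cons (fin 1233 4 976)
(mv 911 (cons (fin 975 7 911)
(mv 909 (cons (fin 977 0 909)
(mv 844 (cons (fin 845 3 844)
(mv 848 (cons (fin 849 2 845)
(mv 908 (cons (fin 843 3 843)
(mv 972 (cons (fin 971 1 907)
(fin 973 1 908))))))))))))))))))
(cons (mv 1103 (cons (fin 1167 5 911)
(mv 848 (cons (fin 1039 5 847)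
(mv 785 (cons (fin 849 6 784)
(mv 784 (cons (fin 721 6 720)
(mv 719 (cons (fin 783 7 719)
(mv 720 (cons (fin 655 7 655)
(mv 717 (cons (fin 718 0 717)
(mv 786 (cons (fin 787 3 719)
(mv 911 (cons (fin 975 5 719)
(mv 909 (cons (fin 977 0 909)
(mv 845 (cons (fin 844 3 844)
(fin 781 4 717)))))))))))))))))))))))
(mv 1167 (cons (fin 1103 5 911)
(mv 1168 (cons (fin 1231 5 975)
(mv 1169 (cons (fin 1105 4 912)
(fin 1233 4 976)))))))))))
(cons (mv 911 (cons (mv 847 (cons (fin 1104 7 847)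
(mv 783 (cons (fin 848 7 783)
(fin 719 5 718)))))
(mv 909 (cons (fin 977 0 909)
(mv 844 (cons (fin 845 3 844)
(mv 908 (cons (fin 843 3 843)
(fin 975 0 908)))))))))
(mv 1104 (cons (cons (mv 847 (cons (fin 911 7 847)
(mv 783 (cons (fin 848 7 783)
(mv 1167 (cons (fin 1103 5 911)
(mv 1168 (cons (fin 1231 5 975)
(mv 1169 (cons (fin 1105 4 912)
(fin 1233 4 976)))))))))))
(mv 1103 (cons (fin 1167 5 911)
(mv 848 (cons (fin 1039 5 847)
(mv 783 (cons (fin 847 7 783)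
(mv 784 (cons (fin 719 7 719)
(mv 785 (cons (fin 721 6 720)
(fin 849 6 784))))))))))))
(cons (mv 911 (cons (fin 847 7 847)
(mv 909 (cons (fin 977 0 909)
(mv 844 (cons (fin 845 3 844)
(mv 848 (cons (fin 849 2 845)
(mv 908 (cons (fin 843 3 843)
(mv 972 (cons (fin 971 1 907)
(fin 973 1 908)))))))))))))
(mv 1167 (cons (fin 1103 5 911)
(mv 1168 (cons (fin 1231 5 975)
(mv 1169 (cons (fin 1105 4 912)
(fin 1233 4 976))))))))))))))
(cons (mv 911 (cons (cons (cons (mv 913 (cons (fin 973 1 909)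
(mv 845 (cons (fin 846 3 845)
(mv 844 (cons (fin 909 3 844)
(mv 849 (cons (fin 850 2 846)
(mv 914 (cons (fin 975 1 910)
(mv 978 (cons (fin 977 0 910)
(fin 979 0 911)))))))))))))
(mv 909 (cons (cons (mv 844 (cons (fin 845 3 844)
(mv 848 (cons (fin 849 2 845)
(mv 908 (cons (fin 843 3 843)
(fin 847 2 844)))))))
(mv 844 (cons (fin 845 3 844)
(mv 908 (cons (fin 843 3 843)
(mv 972 (cons (fin 971 1 907)
(fin 973 1 908))))))))
(cons (mv 848 (cons (fin 849 2 845)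
(mv 908 (cons (fin 847 2 844)
(mv 972 (cons (fin 971 1 907)
(fin 973 1 908)))))))
(mv 845 (cons (fin 844 3 844)
(mv 781 (cons (fin 717 4 717)
(mv 848 (cons (fin 849 2 845)
(mv 973 (cons (fin 972 1 908)
(mv 716 (cons (fin 780 7 716)
(mv 782 (cons (fin 718 6 717)
(mv 846 (cons (fin 1037 5 781)
(mv 783 (cons (fin 719 6 718)
(mv 784 (cons (fin 785 1 781)
(mv 720 (cons (fin 721 2 717)
(fin 975 5 719)))))))))))))))))))))))))
(cons (mv 913 (cons (cons (mv 845 (cons (fin 846 3 845)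
(mv 844 (cons (fin 909 3 844)
(mv 849 (cons (fin 850 2 846)
(mv 914 (cons (fin 975 1 910)
(mv 978 (cons (fin 977 0 910)
(fin 979 0 911)))))))))))
(mv 845 (cons (fin 846 3 845)
(mv 849 (cons (fin 850 2 846)
(mv 909 (cons (fin 844 3 844)
(fin 848 2 845))))))))
(cons (mv 849 (cons (fin 850 2 846)
(mv 848 (cons (fin 909 2 845)
(mv 914 (cons (fin 975 1 910)
(mv 915 (cons (fin 847 3 847)
(fin 916 3 848)))))))))
(cons (mv 845 (cons (fin 846 3 845)
(mv 844 (cons (fin 909 3 844)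
(mv 914 (cons (fin 975 1 910)
(mv 978 (cons (fin 977 0 910)
(fin 979 0 911)))))))))
(mv 845 (cons (fin 846 3 845)
(mv 849 (cons (fin 850 2 846)
(mv 914 (cons (fin 975 1 910)
(mv 978 (cons (fin 977 0 910)
(fin 979 0 911)))))))))))))
(mv 913 (cons (fin 973 1 909)
(mv 845 (cons (fin 846 3 845)
(mv 849 (cons (fin 850 2 846)
(mv 914 (cons (fin 975 1 910)
(mv 978 (cons (fin 977 0 910)
(fin 979 0 911)))))))))))))
(cons (cons (mv 913 (cons (fin 973 1 909)
(mv 845 (cons (fin 846 3 845)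
(mv 844 (cons (fin 909 3 844)
(mv 850 (cons (fin 849 2 846)
(mv 914 (cons (fin 851 2 847)
(mv 978 (cons (fin 977 0 910)
(fin 979 0 911)))))))))))))
(mv 913 (cons (fin 973 1 909)
(mv 849 (cons (fin 850 2 846)
(mv 848 (cons (fin 909 2 845)
(mv 914 (cons (fin 975 1 910)
(mv 847 (cons (fin 846 3 846)
(fin 915 3 847))))))))))))
(cons (mv 913 (cons (fin 973 1 909)
(mv 845 (cons (fin 846 3 845)
(mv 844 (cons (fin 909 3 844)
(mv 914 (cons (fin 975 1 910)
(mv 978 (cons (fin 977 0 910)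
(fin 979 0 911)))))))))))
(mv 913 (cons (fin 973 1 909)
(mv 849 (cons (fin 850 2 846)
(mv 848 (cons (fin 909 2 845)
(mv 914 (cons (fin 975 1 910)
(mv 915 (cons (fin 847 3 847)
(fin 916 3 848)))))))))))))))
(mv 911 (cons (cons (mv 913 (cons (fin 973 1 909)
(mv 845 (cons (fin 846 3 845)
(mv 844 (cons (fin 909 3 844)
(mv 849 (cons (fin 850 2 846)
(mv 976 (cons (fin 1104 6 848)
(mv 785 (cons (fin 721 5 720)
(fin 977 5 784)))))))))))))
(cons (mv 909 (cons (cons (mv 844 (cons (fin 845 3 844)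
(mv 843 (cons (fin 908 3 843)
(mv 848 (cons (fin 849 2 845)
(mv 972 (cons (fin 973 1 908)
(mv 976 (cons (fin 977 0 909)
(mv 847 (cons (fin 783 7 783)
(fin 1104 7 847)))))))))))))
(cons (mv 844 (cons (fin 845 3 844)
(mv 843 (cons (fin 908 3 843)
(mv 848 (cons (fin 849 2 845)
(mv 976 (cons (fin 977 0 909)
(mv 847 (cons (fin 783 7 783)
(fin 1104 7 847)))))))))))
(mv 844 (cons (fin 845 3 844)
(mv 848 (cons (fin 849 2 845)
(mv 908 (cons (fin 843 3 843)
(fin 847 2 844)))))))))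
(cons (cons (mv 844 (cons (fin 845 3 844)
(mv 843 (cons (fin 908 3 843)
(mv 972 (cons (fin 973 1 908)
(mv 976 (cons (fin 977 0 909)
(mv 1104 (cons (fin 847 7 847)
(mv 1167 (cons (fin 1103 5 911)
(mv 1168 (cons (fin 1231 5 975)
(mv 1169 (cons (fin 1105 4 912)
(fin 1233 4 976)))))))))))))))))
(mv 848 (cons (fin 849 2 845)
(mv 847 (cons (fin 908 2 844)
(mv 783 (cons (fin 976 7 783)
(fin 719 5 718))))))))
(cons (mv 844 (cons (fin 845 3 844)
(mv 843 (cons (fin 908 3 843)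
(mv 848 (cons (fin 849 2 845)
(mv 973 (cons (fin 972 1 908)
(mv 976 (cons (fin 977 0 909)
(mv 1103 (cons (fin 1039 5 847)
(mv 1104 (cons (fin 1167 5 911)
(mv 1169 (cons (fin 1105 4 912)
(mv 1168 (cons (fin 1233 4 976)
(mv 1101 (cons (fin 1102 0 1101)
(mv 1037 (cons (fin 846 6 845)
(fin 1165 6 909)))))))))))))))))))))))
(mv 844 (cons (fin 845 3 844)
(mv 848 (cons (fin 849 2 845)
(mv 972 (cons (fin 973 1 908)
(mv 976 (cons (fin 977 0 909)
(mv 847 (cons (fin 783 7 783)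
(fin 1104 7 847)))))))))))))))
(mv 913 (cons (cons (mv 845 (cons (fin 846 3 845)
(mv 844 (cons (fin 909 3 844)
(mv 849 (cons (fin 850 2 846)
(mv 976 (cons (fin 1104 6 848)
(mv 785 (cons (fin 721 5 720)
(fin 977 5 784)))))))))))
(mv 845 (cons (fin 846 3 845)
(mv 909 (cons (fin 844 3 844)
(mv 977 (cons (fin 976 0 909)
(fin 978 0 910))))))))
(cons (mv 849 (cons (fin 850 2 846)
(mv 848 (cons (fin 909 2 845)
(mv 976 (cons (fin 785 6 784)
(fin 1104 6 848)))))))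
(cons (mv 845 (cons (fin 846 3 845)
(mv 844 (cons (fin 909 3 844)
(mv 850 (cons (fin 849 2 846)
(mv 914 (cons (fin 851 2 847)
(mv 978 (cons (fin 977 0 910)
(fin 979 0 911)))))))))))
(mv 845 (cons (fin 846 3 845)
(mv 849 (cons (fin 850 2 846)
(mv 976 (cons (fin 1104 6 848)
(mv 785 (cons (fin 721 5 720)
(fin 977 5 784)))))))))))))))
(cons (cons (mv 913 (cons (fin 973 1 909)
(mv 845 (cons (fin 846 3 845)
(mv 849 (cons (fin 850 2 846)
(mv 976 (cons (fin 1104 6 848)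
(mv 785 (cons (fin 721 5 720)
(fin 977 5 784)))))))))))
(mv 913 (cons (fin 973 1 909)
(mv 845 (cons (fin 846 3 845)
(mv 844 (cons (fin 909 3 844)
(mv 850 (cons (fin 849 2 846)
(mv 914 (cons (fin 851 2 847)
(mv 978 (cons (fin 977 0 910)
(fin 979 0 911))))))))))))))
(cons (mv 913 (cons (fin 973 1 909)
(mv 845 (cons (fin 846 3 845)
(mv 909 (cons (fin 844 3 844)
(mv 977 (cons (fin 976 0 909)
(fin 978 0 910)))))))))
(mv 913 (cons (fin 973 1 909)
(mv 849 (cons (fin 850 2 846)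
(mv 848 (cons (fin 909 2 845)
(mv 976 (cons (fin 785 6 784)
(fin 1104 6 848))))))))))))))))
(cons (cons (mv 913 (cons (cons (mv 911 (cons (fin 973 1 909)
(mv 845 (cons (fin 846 3 845)
(mv 849 (cons (fin 850 2 846)
(mv 914 (cons (fin 975 1 910)
(mv 978 (cons (fin 977 0 910)
(fin 979 0 911)))))))))))
(cons (mv 976 (cons (mv 849 (cons (fin 1104 6 848)
(mv 785 (cons (fin 721 5 720)
(fin 977 5 784)))))
(cons (mv 975 (cons (fin 973 2 909)
(mv 914 (cons (fin 915 1 911)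
(fin 977 2 910)))))
(mv 849 (cons (fin 1104 6 848)
(mv 785 (cons (fin 721 5 720)
(fin 848 6 784))))))))
(mv 911 (cons (cons (mv 845 (cons (fin 846 3 845)
(mv 849 (cons (fin 850 2 846)
(mv 914 (cons (fin 975 1 910)
(mv 978 (cons (fin 977 0 910)
(fin 979 0 911)))))))))
(mv 845 (cons (fin 846 3 845)
(mv 849 (cons (fin 850 2 846)
(mv 976 (cons (fin 1104 6 848)
(mv 785 (cons (fin 721 5 720)
(fin 977 5 784))))))))))
(cons (mv 849 (cons (fin 850 2 846)
(mv 914 (cons (fin 975 1 910)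
(mv 978 (cons (fin 977 0 910)
(fin 979 0 911)))))))
(cons (mv 845 (cons (fin 846 3 845)
(mv 914 (cons (fin 975 1 910)
(mv 978 (cons (fin 977 0 910)
(fin 979 0 911)))))))
(mv 845 (cons (fin 846 3 845)
(mv 849 (cons (fin 850 2 846)
(mv 914 (cons (fin 975 1 910)
(mv 976 (cons (fin 1104 6 848)
(mv 785 (cons (fin 721 5 720)
(fin 848 6 784)))))))))))))))))
(cons (mv 911 (cons (fin 973 1 909)
(mv 845 (cons (fin 846 3 845)
(mv 849 (cons (fin 850 2 846)
(mv 976 (cons (fin 1104 6 848)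
(mv 785 (cons (fin 721 5 720)
(fin 977 5 784)))))))))))
(cons (mv 911 (cons (fin 973 1 909)
(mv 845 (cons (fin 846 3 845)
(mv 914 (cons (fin 975 1 910)
(mv 978 (cons (fin 977 0 910)
(fin 979 0 911)))))))))
(mv 911 (cons (fin 973 1 909)
(mv 845 (cons (fin 846 3 845)
(mv 849 (cons (fin 850 2 846)
(mv 914 (cons (fin 975 1 910)
(mv 976 (cons (fin 1104 6 848)
(mv 785 (cons (fin 721 5 720)
(fin 848 6 784)))))))))))))))))
(cons (mv 911 (cons (cons (mv 913 (cons (fin 973 1 909)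
(mv 849 (cons (fin 850 2 846)
(mv 848 (cons (fin 909 2 845)
(mv 976 (cons (fin 785 6 784)
(fin 1104 6 848)))))))))
(mv 909 (cons (cons (mv 844 (cons (fin 845 3 844)
(mv 843 (cons (fin 908 3 843)
(mv 848 (cons (fin 849 2 845)
(mv 972 (cons (fin 973 1 908)
(mv 976 (cons (fin 977 0 909)
(mv 847 (cons (fin 783 7 783)
(fin 1104 7 847)))))))))))))
(cons (mv 844 (cons (fin 845 3 844)
(mv 848 (cons (fin 849 2 845)
(mv 908 (cons (fin 843 3 843)
(fin 847 2 844)))))))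
(mv 844 (cons (fin 845 3 844)
(mv 843 (cons (fin 908 3 843)
(mv 972 (cons (fin 973 1 908)
(mv 976 (cons (fin 977 0 909)
(mv 847 (cons (fin 1104 7 847)
(mv 783 (cons (fin 719 5 718)
(fin 975 4 783)))))))))))))))
(cons (mv 848 (cons (fin 849 2 845)
(mv 847 (cons (fin 908 2 844)
(mv 783 (cons (fin 976 7 783)
(fin 719 5 718)))))))
(cons (mv 844 (cons (fin 845 3 844)
(mv 848 (cons (fin 849 2 845)
(mv 972 (cons (fin 973 1 908)
(mv 976 (cons (fin 977 0 909)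
(mv 847 (cons (fin 783 7 783)
(fin 1104 7 847)))))))))))
(mv 844 (cons (fin 845 3 844)
(mv 843 (cons (fin 908 3 843)
(mv 848 (cons (fin 849 2 845)
(mv 972 (cons (fin 973 1 908)
(mv 976 (cons (fin 977 0 909)
(mv 1039 (cons (fin 1103 5 847)
(mv 784 (cons (fin 975 5 783)
(mv 719 (cons (fin 783 7 719)
(mv 720 (cons (fin 655 7 655)
(mv 721 (cons (fin 657 6 656)
(fin 785 6 720))))))))))))))))))))))))))
(cons (mv 909 (cons (cons (mv 844 (cons (fin 845 3 844)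
(mv 843 (cons (fin 908 3 843)
(mv 848 (cons (fin 849 2 845)
(mv 976 (cons (fin 977 0 909)
(mv 847 (cons (fin 783 7 783)
(fin 1104 7 847)))))))))))
(cons (mv 844 (cons (fin 845 3 844)
(mv 843 (cons (fin 908 3 843)
(mv 849 (cons (fin 848 2 845)
(mv 913 (cons (fin 850 2 846)
(mv 914 (cons (fin 975 1 910)
(mv 978 (cons (fin 977 0 910)
(fin 979 0 911)))))))))))))
(mv 844 (cons (fin 845 3 844)
(mv 843 (cons (fin 908 3 843)
(mv 849 (cons (fin 848 2 845)
(mv 913 (cons (fin 850 2 846)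
(mv 975 (cons (fin 914 1 910)
(mv 1104 (cons (fin 976 6 848)
(mv 1039 (cons (fin 847 4 847)
(mv 1103 (cons (fin 1167 7 910)
(fin 1168 4 911)))))))))))))))))))
(cons (mv 844 (cons (fin 845 3 844)
(mv 843 (cons (fin 908 3 843)
(mv 976 (cons (fin 977 0 909)
(mv 847 (cons (fin 1104 7 847)
(mv 783 (cons (fin 719 5 718)
(fin 975 4 783)))))))))))
(cons (mv 848 (cons (fin 849 2 845)
(mv 847 (cons (fin 908 2 844)
(mv 783 (cons (fin 976 7 783)
(fin 719 5 718)))))))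
(mv 844 (cons (fin 845 3 844)
(mv 848 (cons (fin 849 2 845)
(mv 976 (cons (fin 977 0 909)
(mv 847 (cons (fin 783 7 783)
(fin 1104 7 847)))))))))))))
(cons (mv 913 (cons (fin 973 1 909)
(mv 849 (cons (fin 850 2 846)
(mv 914 (cons (fin 975 1 910)
(mv 978 (cons (fin 977 0 910)
(fin 979 0 911)))))))))
(mv 913 (cons (fin 973 1 909)
(mv 914 (cons (fin 975 1 910)
(mv 978 (cons (fin 977 0 910)
(fin 979 0 911)))))))))))
(mv 911 (cons (cons (mv 913 (cons (fin 973 1 909)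
(mv 845 (cons (fin 846 3 845)
(mv 844 (cons (fin 909 3 844)
(mv 849 (cons (fin 850 2 846)
(mv 914 (cons (fin 975 1 910)
(mv 978 (cons (fin 977 0 910)
(fin 979 0 911)))))))))))))
(cons (mv 909 (cons (cons (mv 844 (cons (fin 845 3 844)
(mv 843 (cons (fin 908 3 843)
(mv 972 (cons (fin 973 1 908)
(mv 976 (cons (fin 977 0 909)
(mv 847 (cons (fin 1104 7 847)
(mv 783 (cons (fin 719 5 718)
(fin 975 4 783)))))))))))))
(mv 844 (cons (fin 845 3 844)
(mv 908 (cons (fin 843 3 843)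
(mv 972 (cons (fin 971 1 907)
(fin 973 1 908))))))))
(cons (mv 844 (cons (fin 845 3 844)
(mv 843 (cons (fin 908 3 843)
(mv 976 (cons (fin 977 0 909)
(mv 847 (cons (fin 1104 7 847)
(mv 783 (cons (fin 719 5 718)
(fin 975 4 783)))))))))))
(cons (mv 972 (cons (fin 973 1 908)
(mv 908 (cons (fin 971 1 907)
(mv 975 (cons (fin 907 0 907)
(fin 976 0 908)))))))
(mv 844 (cons (fin 845 3 844)
(mv 972 (cons (fin 973 1 908)
(mv 976 (cons (fin 977 0 909)
(mv 847 (cons (fin 1104 7 847)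
(mv 783 (cons (fin 719 5 718)
(fin 975 4 783)))))))))))))))
(mv 913 (cons (cons (mv 845 (cons (fin 846 3 845)
(mv 844 (cons (fin 909 3 844)
(mv 849 (cons (fin 850 2 846)
(mv 914 (cons (fin 975 1 910)
(mv 978 (cons (fin 977 0 910)
(fin 979 0 911)))))))))))
(mv 845 (cons (fin 846 3 845)
(mv 844 (cons (fin 909 3 844)
(mv 849 (cons (fin 850 2 846)
(mv 976 (cons (fin 1104 6 848)
(mv 785 (cons (fin 721 5 720)
(fin 977 5 784))))))))))))
(cons (mv 849 (cons (fin 850 2 846)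
(mv 914 (cons (fin 975 1 910)
(mv 978 (cons (fin 977 0 910)
(fin 979 0 911)))))))
(cons (mv 845 (cons (fin 846 3 845)
(mv 844 (cons (fin 909 3 844)
(mv 849 (cons (fin 850 2 846)
(mv 975 (cons (fin 914 1 910)
(mv 1104 (cons (fin 976 6 848)
(mv 847 (cons (fin 1039 4 847)
(mv 783 (cons (fin 719 5 718)
(mv 782 (cons (fin 718 7 718)
(mv 784 (cons (fin 781 1 780)
(fin 720 6 719)))))))))))))))))))
(mv 845 (cons (fin 846 3 845)
(mv 844 (cons (fin 909 3 844)
(mv 914 (cons (fin 975 1 910)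
(mv 978 (cons (fin 977 0 910)
(fin 979 0 911)))))))))))))))
(cons (cons (mv 913 (cons (fin 973 1 909)
(mv 845 (cons (fin 846 3 845)
(mv 849 (cons (fin 850 2 846)
(mv 914 (cons (fin 975 1 910)
(mv 978 (cons (fin 977 0 910)
(fin 979 0 911)))))))))))
(mv 913 (cons (fin 973 1 909)
(mv 845 (cons (fin 846 3 845)
(mv 844 (cons (fin 909 3 844)
(mv 849 (cons (fin 850 2 846)
(mv 976 (cons (fin 1104 6 848)
(mv 785 (cons (fin 721 5 720)
(fin 977 5 784))))))))))))))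
(cons (mv 913 (cons (fin 973 1 909)
(mv 845 (cons (fin 846 3 845)
(mv 844 (cons (fin 909 3 844)
(mv 849 (cons (fin 850 2 846)
(mv 975 (cons (fin 914 1 910)
(mv 1104 (cons (fin 976 6 848)
(mv 847 (cons (fin 1039 4 847)
(mv 783 (cons (fin 719 5 718)
(mv 782 (cons (fin 718 7 718)
(mv 784 (cons (fin 781 1 780)
(fin 720 6 719)))))))))))))))))))))
(mv 913 (cons (fin 973 1 909)
(mv 849 (cons (fin 850 2 846)
(mv 914 (cons (fin 975 1 910)
(mv 978 (cons (fin 977 0 910)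
(fin 979 0 911)))))))))))))))
(cons (mv 911 (cons (cons (mv 913 (cons (fin 973 1 909)
(mv 845 (cons (fin 846 3 845)
(mv 844 (cons (fin 909 3 844)
(mv 914 (cons (fin 975 1 910)
(mv 978 (cons (fin 977 0 910)
(fin 979 0 911)))))))))))
(cons (mv 913 (cons (cons (mv 845 (cons (fin 846 3 845)
(mv 844 (cons (fin 909 3 844)
(mv 914 (cons (fin 975 1 910)
(mv 978 (cons (fin 977 0 910)
(fin 979 0 911)))))))))
(mv 845 (cons (fin 846 3 845)
(mv 909 (cons (fin 844 3 844)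
(mv 977 (cons (fin 976 0 909)
(fin 978 0 910))))))))
(cons (mv 914 (cons (fin 975 1 910)
(mv 978 (cons (fin 977 0 910)
(fin 979 0 911)))))
(cons (mv 845 (cons (fin 846 3 845)
(mv 844 (cons (fin 909 3 844)
(mv 914 (cons (fin 975 1 910)
(mv 851 (cons (fin 850 2 847)
(mv 915 (cons (fin 852 2 848)
(mv 979 (cons (fin 978 0 911)
(fin 980 0 912)))))))))))))
(mv 845 (cons (fin 846 3 845)
(mv 844 (cons (fin 909 3 844)
(mv 914 (cons (fin 975 1 910)
(mv 851 (cons (fin 850 2 847)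
(mv 915 (cons (fin 852 2 848)
(mv 847 (cons (fin 848 3 847)
(mv 719 (cons (fin 783 5 718)
(mv 976 (cons (fin 1104 7 847)
(mv 916 (cons (fin 977 1 912)
(mv 980 (cons (fin 979 0 912)
(fin 981 0 913)))))))))))))))))))))))))
(mv 909 (cons (cons (mv 844 (cons (fin 845 3 844)
(mv 843 (cons (fin 908 3 843)
(mv 972 (cons (fin 973 1 908)
(mv 976 (cons (fin 977 0 909)
(mv 847 (cons (fin 1104 7 847)
(mv 783 (cons (fin 848 7 783)
(fin 719 5 718)))))))))))))
(mv 844 (cons (fin 845 3 844)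
(mv 908 (cons (fin 843 3 843)
(mv 972 (cons (fin 971 1 907)
(fin 973 1 908))))))))
(cons (mv 844 (cons (fin 845 3 844)
(mv 843 (cons (fin 908 3 843)
(mv 976 (cons (fin 977 0 909)
(mv 847 (cons (fin 1104 7 847)
(mv 783 (cons (fin 848 7 783)
(fin 719 5 718)))))))))))
(cons (mv 972 (cons (fin 973 1 908)
(mv 908 (cons (fin 971 1 907)
(mv 975 (cons (fin 907 0 907)
(fin 976 0 908)))))))
(mv 844 (cons (fin 845 3 844)
(mv 972 (cons (fin 973 1 908)
(mv 976 (cons (fin 977 0 909)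
(mv 847 (cons (fin 1104 7 847)
(mv 783 (cons (fin 848 7 783)
(fin 719 5 718)))))))))))))))))
(cons (cons (mv 913 (cons (fin 973 1 909)
(mv 845 (cons (fin 846 3 845)
(mv 914 (cons (fin 975 1 910)
(mv 978 (cons (fin 977 0 910)
(fin 979 0 911)))))))))
(mv 913 (cons (fin 973 1 909)
(mv 845 (cons (fin 846 3 845)
(mv 909 (cons (fin 844 3 844)
(mv 977 (cons (fin 976 0 909)
(fin 978 0 910))))))))))
(cons (mv 913 (cons (fin 973 1 909)
(mv 845 (cons (fin 846 3 845)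
(mv 844 (cons (fin 909 3 844)
(mv 914 (cons (fin 975 1 910)
(mv 851 (cons (fin 850 2 847)
(mv 915 (cons (fin 852 2 848)
(mv 979 (cons (fin 978 0 911)
(fin 980 0 912)))))))))))))))
(mv 913 (cons (fin 973 1 909)
(mv 914 (cons (fin 975 1 910)
(mv 978 (cons (fin 977 0 910)
(fin 979 0 911)))))))))))
(cons (mv 911 (cons (cons (mv 913 (cons (fin 973 1 909)
(mv 845 (cons (fin 846 3 845)
(mv 844 (cons (fin 909 3 844)
(mv 849 (cons (fin 850 2 846)
(mv 914 (cons (fin 975 1 910)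
(mv 976 (cons (fin 1104 6 848)
(mv 785 (cons (fin 721 5 720)
(fin 848 6 784)))))))))))))))
(cons (mv 909 (cons (cons (mv 844 (cons (fin 845 3 844)
(mv 848 (cons (fin 849 2 845)
(mv 908 (cons (fin 843 3 843)
(fin 847 2 844)))))))
(mv 844 (cons (fin 845 3 844)
(mv 908 (cons (fin 843 3 843)
(mv 972 (cons (fin 971 1 907)
(fin 973 1 908))))))))
(cons (mv 848 (cons (fin 849 2 845)
(mv 847 (cons (fin 908 2 844)
(mv 783 (cons (fin 976 7 783)
(fin 719 5 718)))))))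
(mv 845 (cons (fin 844 3 844)
(mv 781 (cons (fin 717 4 717)
(mv 848 (cons (fin 849 2 845)
(mv 973 (cons (fin 972 1 908)
(mv 716 (cons (fin 780 7 716)
(mv 782 (cons (fin 718 6 717)
(mv 846 (cons (fin 1037 5 781)
(mv 719 (cons (fin 783 6 718)
(mv 1039 (cons (fin 975 4 782)
(mv 976 (cons (fin 1103 5 847)
(mv 847 (cons (fin 1104 7 847)
(mv 784 (cons (fin 785 2 781)
(mv 720 (cons (fin 655 7 655)
(fin 656 5 655))))))))))))))))))))))))))))))
(mv 913 (cons (cons (mv 845 (cons (fin 846 3 845)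
(mv 844 (cons (fin 909 3 844)
(mv 849 (cons (fin 850 2 846)
(mv 914 (cons (fin 975 1 910)
(mv 976 (cons (fin 1104 6 848)
(mv 785 (cons (fin 721 5 720)
(fin 848 6 784)))))))))))))
(cons (mv 845 (cons (fin 846 3 845)
(mv 844 (cons (fin 909 3 844)
(mv 849 (cons (fin 850 2 846)
(mv 976 (cons (fin 1104 6 848)
(mv 785 (cons (fin 721 5 720)
(fin 848 6 784)))))))))))
(mv 845 (cons (fin 846 3 845)
(mv 844 (cons (fin 909 3 844)
(mv 914 (cons (fin 975 1 910)
(mv 851 (cons (fin 850 2 847)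
(mv 915 (cons (fin 852 2 848)
(mv 979 (cons (fin 978 0 911)
(fin 980 0 912)))))))))))))))
(cons (mv 849 (cons (fin 850 2 846)
(mv 848 (cons (fin 909 2 845)
(mv 976 (cons (fin 785 6 784)
(fin 1104 6 848)))))))
(cons (mv 845 (cons (fin 846 3 845)
(mv 844 (cons (fin 909 3 844)
(mv 914 (cons (fin 975 1 910)
(mv 979 (cons (fin 978 0 911)
(mv 915 (cons (fin 980 0 912)
(mv 848 (cons (fin 847 3 847)
(mv 849 (cons (fin 916 3 848)
(mv 976 (cons (fin 785 6 784)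
(fin 1104 6 848)))))))))))))))))
(mv 845 (cons (fin 846 3 845)
(mv 849 (cons (fin 850 2 846)
(mv 914 (cons (fin 975 1 910)
(mv 976 (cons (fin 1104 6 848)
(mv 785 (cons (fin 721 5 720)
(fin 848 6 784)))))))))))))))))
(cons (cons (mv 913 (cons (fin 973 1 909)
(mv 845 (cons (fin 846 3 845)
(mv 849 (cons (fin 850 2 846)
(mv 914 (cons (fin 975 1 910)
(mv 976 (cons (fin 1104 6 848)
(mv 785 (cons (fin 721 5 720)
(fin 848 6 784)))))))))))))
(mv 913 (cons (fin 973 1 909)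
(mv 845 (cons (fin 846 3 845)
(mv 844 (cons (fin 909 3 844)
(mv 849 (cons (fin 850 2 846)
(mv 976 (cons (fin 1104 6 848)
(mv 785 (cons (fin 721 5 720)
(fin 848 6 784))))))))))))))
(cons (mv 913 (cons (fin 973 1 909)
(mv 845 (cons (fin 846 3 845)
(mv 844 (cons (fin 909 3 844)
(mv 914 (cons (fin 975 1 910)
(mv 851 (cons (fin 850 2 847)
(mv 915 (cons (fin 852 2 848)
(mv 979 (cons (fin 978 0 911)
(fin 980 0 912)))))))))))))))
(mv 913 (cons (fin 973 1 909)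
(mv 849 (cons (fin 850 2 846)
(mv 848 (cons (fin 909 2 845)
(mv 976 (cons (fin 785 6 784)
(fin 1104 6 848)))))))))))))
(mv 911 (cons (cons (mv 913 (cons (fin 973 1 909)
(mv 849 (cons (fin 850 2 846)
(mv 848 (cons (fin 909 2 845)
(mv 976 (cons (fin 785 6 784)
(fin 1104 6 848)))))))))
(mv 909 (cons (cons (mv 848 (cons (fin 849 2 845)
(mv 847 (cons (fin 908 2 844)
(mv 783 (cons (fin 976 7 783)
(fin 719 5 718)))))))
(mv 848 (cons (fin 849 2 845)
(mv 908 (cons (fin 847 2 844)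
(mv 972 (cons (fin 971 1 907)
(fin 973 1 908))))))))
(cons (mv 972 (cons (fin 973 1 908)
(mv 908 (cons (fin 971 1 907)
(mv 975 (cons (fin 907 0 907)
(fin 976 0 908)))))))
(mv 848 (cons (fin 849 2 845)
(mv 972 (cons (fin 973 1 908)
(mv 976 (cons (fin 977 0 909)
(mv 847 (cons (fin 783 7 783)
(fin 1104 7 847)))))))))))))
(cons (mv 913 (cons (mv 849 (cons (fin 850 2 846)
(mv 848 (cons (fin 909 2 845)
(mv 976 (cons (fin 785 6 784)
(fin 1104 6 848)))))))
(mv 914 (cons (fin 975 1 910)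
(mv 978 (cons (fin 977 0 910)
(fin 979 0 911)))))))
(cons (mv 913 (cons (fin 973 1 909)
(mv 849 (cons (fin 850 2 846)
(mv 914 (cons (fin 975 1 910)
(mv 978 (cons (fin 977 0 910)
(fin 979 0 911)))))))))
(mv 913 (cons (fin 973 1 909)
(mv 914 (cons (fin 975 1 910)
(mv 978 (cons (fin 977 0 910)
(fin 979 0 911)))))))))))))))))
(cons (mv 976 (cons (cons (cons (mv 975 (cons (cons (mv 909 (cons (fin 977 3 909)
(mv 908 (cons (fin 973 3 908)
(fin 907 0 907)))))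
(mv 973 (cons (cons (mv 908 (cons (fin 909 3 908)
(mv 972 (cons (fin 907 3 907)
(fin 1039 0 972)))))
(mv 909 (cons (fin 908 3 908)
(mv 912 (cons (fin 913 2 909)
(mv 1037 (cons (fin 1036 1 972)
(mv 1101 (cons (fin 1165 6 909)
(mv 1100 (cons (fin 1164 5 908)
(mv 1038 (cons (fin 1039 1 1036)
(mv 845 (cons (fin 1102 7 845)
(fin 781 4 781))))))))))))))))
(cons (mv 912 (cons (fin 913 2 909)
(mv 972 (cons (fin 911 2 908)
(fin 1039 0 972)))))
(mv 908 (cons (fin 909 3 908)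
(mv 912 (cons (fin 913 2 909)
(mv 972 (cons (fin 907 3 907)
(fin 911 2 908)))))))))))
(cons (mv 911 (cons (cons (mv 783 (cons (fin 847 4 783)
(mv 977 (cons (fin 978 3 910)
(mv 913 (cons (fin 914 2 910)
(mv 785 (cons (fin 849 5 784)
(mv 912 (cons (fin 973 1 909)
(mv 1037 (cons (fin 1038 1 973)
(mv 1104 (cons (fin 1168 7 911)
(mv 1103 (cons (fin 1167 5 911)
(mv 848 (cons (fin 1039 5 847)
(mv 784 (cons (fin 719 7 719)
(fin 720 5 719)))))))))))))))))))))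
(mv 977 (cons (fin 978 3 910)
(mv 913 (cons (fin 914 2 910)
(mv 785 (cons (fin 849 5 784)
(mv 912 (cons (fin 973 1 909)
(mv 1037 (cons (fin 1038 1 973)
(mv 1104 (cons (fin 1168 7 911)
(mv 1103 (cons (fin 1167 5 911)
(mv 848 (cons (fin 1039 5 847)
(mv 784 (cons (fin 720 5 719)
(fin 721 6 720))))))))))))))))))))
(cons (mv 783 (cons (fin 847 4 783)
(mv 977 (cons (fin 978 3 910)
(mv 913 (cons (fin 914 2 910)
(mv 785 (cons (fin 849 5 784)
(mv 912 (cons (fin 973 1 909)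
(mv 1038 (cons (fin 1037 1 973)
(mv 1102 (cons (fin 1166 6 910)
(mv 1101 (cons (fin 1165 5 909)
(mv 1103 (cons (fin 1167 4 910)
(mv 1039 (cons (fin 1100 2 1036)
(fin 848 5 847)))))))))))))))))))))
(cons (mv 847 (cons (fin 783 4 783)
(mv 1104 (cons (fin 912 7 847)
(fin 1168 7 911)))))
(mv 783 (cons (fin 847 4 783)
(mv 977 (cons (fin 978 3 910)
(mv 913 (cons (fin 914 2 910)
(mv 785 (cons (fin 849 5 784)
(mv 1037 (cons (fin 1038 1 973)
(mv 973 (cons (fin 1036 1 972)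
(mv 972 (cons (fin 971 2 907)
(fin 1039 0 972)))))))))))))))))))
(mv 909 (cons (fin 977 3 909)
(mv 908 (cons (fin 907 0 907)
(fin 911 0 908))))))))
(cons (mv 912 (cons (cons (cons (mv 1104 (cons (cons (mv 847 (cons (fin 911 7 847)
(mv 783 (cons (fin 848 7 783)
(mv 849 (cons (fin 913 6 848)
(mv 1167 (cons (fin 1103 5 911)
(mv 1168 (cons (fin 1231 5 975)
(mv 1169 (cons (fin 1105 4 912)
(fin 1233 4 976)))))))))))))
(cons (mv 849 (cons (fin 913 6 848)
(mv 785 (cons (fin 848 6 784)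
(mv 1167 (cons (fin 1103 5 911)
(mv 1168 (cons (fin 1231 5 975)
(mv 1169 (cons (fin 1105 4 912)
(fin 1233 4 976)))))))))))
(mv 847 (cons (fin 911 7 847)
(mv 783 (cons (fin 848 7 783)
(mv 1167 (cons (fin 1103 5 911)
(mv 1168 (cons (fin 1231 5 975)
(mv 1169 (cons (fin 1105 4 912)
(fin 1233 4 976)))))))))))))
(cons (cons (mv 847 (cons (fin 911 7 847)
(mv 783 (cons (fin 848 7 783)
(mv 913 (cons (fin 849 6 848)
(mv 1168 (cons (fin 977 6 912)
(mv 1169 (cons (fin 1105 4 912)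
(fin 1233 4 976)))))))))))
(mv 847 (cons (fin 911 7 847)
(mv 783 (cons (fin 848 7 783)
(mv 913 (cons (fin 849 6 848)
(mv 1167 (cons (fin 1103 5 911)
(mv 1168 (cons (fin 1231 5 975)
(fin 977 6 912))))))))))))
(cons (mv 847 (cons (fin 911 7 847)
(mv 849 (cons (fin 913 6 848)
(mv 1167 (cons (fin 1103 5 911)
(mv 1168 (cons (fin 1231 5 975)
(mv 1169 (cons (fin 1105 4 912)
(fin 1233 4 976)))))))))))
(mv 847 (cons (fin 911 7 847)
(mv 848 (cons (fin 783 7 783)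
(mv 849 (cons (fin 785 6 784)
(fin 913 6 848)))))))))))
(mv 911 (cons (cons (mv 909 (cons (fin 977 0 909)
(mv 973 (cons (fin 972 1 908)
(fin 913 1 909)))))
(mv 913 (cons (fin 973 1 909)
(mv 849 (cons (fin 850 2 846)
(mv 785 (cons (fin 721 5 720)
(fin 977 5 784))))))))
(cons (mv 909 (cons (fin 977 0 909)
(mv 844 (cons (fin 845 3 844)
(mv 848 (cons (fin 849 2 845)
(mv 847 (cons (fin 908 2 844)
(fin 783 7 783)))))))))
(mv 913 (cons (fin 973 1 909)
(mv 849 (cons (fin 850 2 846)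
(mv 785 (cons (fin 721 5 720)
(fin 848 6 784)))))))))))
(cons (mv 1104 (cons (cons (mv 849 (cons (fin 913 6 848)
(mv 785 (cons (fin 848 6 784)
(mv 1167 (cons (fin 1103 5 911)
(mv 1168 (cons (fin 1231 5 975)
(mv 1169 (cons (fin 1105 4 912)
(fin 1233 4 976)))))))))))
(mv 913 (cons (fin 849 6 848)
(mv 1168 (cons (fin 977 6 912)
(mv 1169 (cons (fin 1105 4 912)
(fin 1233 4 976))))))))
(cons (mv 1103 (cons (fin 1167 5 911)
(mv 848 (cons (fin 1039 5 847)
(mv 783 (cons (fin 847 7 783)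
(mv 784 (cons (fin 719 7 719)
(mv 785 (cons (fin 721 6 720)
(fin 849 6 784)))))))))))
(mv 1103 (cons (fin 1167 5 911)
(mv 1039 (cons (fin 848 5 847)
(mv 1105 (cons (fin 1169 4 912)
(mv 1038 (cons (fin 1106 3 1038)
(fin 1037 0 1037))))))))))))
(mv 1104 (cons (cons (mv 847 (cons (fin 911 7 847)
(mv 849 (cons (fin 913 6 848)
(mv 1167 (cons (fin 1103 5 911)
(mv 1168 (cons (fin 1231 5 975)
(mv 1169 (cons (fin 1105 4 912)
(fin 1233 4 976)))))))))))
(cons (mv 849 (cons (fin 913 6 848)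
(mv 1167 (cons (fin 1103 5 911)
(mv 1168 (cons (fin 1231 5 975)
(mv 1169 (cons (fin 1105 4 912)
(fin 1233 4 976)))))))))
(mv 847 (cons (fin 911 7 847)
(mv 1167 (cons (fin 1103 5 911)
(mv 1168 (cons (fin 1231 5 975)
(mv 1169 (cons (fin 1105 4 912)
(fin 1233 4 976)))))))))))
(cons (mv 847 (cons (fin 911 7 847)
(mv 913 (cons (fin 849 6 848)
(mv 1168 (cons (fin 977 6 912)
(mv 1169 (cons (fin 1105 4 912)
(fin 1233 4 976)))))))))
(cons (mv 847 (cons (fin 911 7 847)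
(mv 913 (cons (fin 849 6 848)
(mv 1167 (cons (fin 1103 5 911)
(mv 1168 (cons (fin 1231 5 975)
(fin 977 6 912)))))))))
(mv 849 (cons (fin 913 6 848)
(mv 911 (cons (fin 847 7 847)
(mv 909 (cons (fin 977 0 909)
(mv 844 (cons (fin 845 3 844)
(mv 908 (cons (fin 843 3 843)
(mv 972 (cons (fin 971 1 907)
(fin 973 1 908)))))))))))))))))))
(cons (cons (mv 848 (cons (cons (mv 783 (cons (fin 847 7 783)
(mv 719 (cons (fin 784 7 719)
(mv 849 (cons (fin 785 6 784)
(mv 909 (cons (fin 911 2 845)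
(mv 1103 (cons (fin 1039 5 847)
(mv 1104 (cons (fin 1167 5 911)
(mv 1169 (cons (fin 1105 4 912)
(mv 1168 (cons (fin 1233 4 976)
(mv 1102 (cons (fin 1101 0 1101)
(mv 1038 (cons (fin 845 7 845)
(mv 1166 (cons (fin 973 7 909)
(mv 1229 (cons (fin 1165 5 973)
(mv 1230 (cons (fin 1293 5 1037)
(mv 1231 (cons (fin 1232 2 1165)
(fin 1295 4 1038)))))))))))))))))))))))))))))
(mv 849 (cons (fin 785 6 784)
(mv 909 (cons (fin 911 2 845)
(mv 1103 (cons (fin 1039 5 847)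
(mv 1104 (cons (fin 1167 5 911)
(mv 1169 (cons (fin 1105 4 912)
(mv 1168 (cons (fin 1233 4 976)
(mv 1102 (cons (fin 1101 0 1101)
(mv 1038 (cons (fin 845 7 845)
(mv 1166 (cons (fin 973 7 909)
(mv 1170 (cons (fin 1171 3 1103)
(mv 1229 (cons (fin 1165 5 973)
(mv 1230 (cons (fin 1293 5 1037)
(mv 1231 (cons (fin 1232 2 1165)
(fin 1295 4 1038))))))))))))))))))))))))))))
(cons (mv 847 (cons (fin 783 7 783)
(mv 911 (cons (fin 1104 7 847)
(mv 909 (cons (fin 908 2 844)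
(fin 977 0 909)))))))
(mv 783 (cons (fin 847 7 783)
(mv 784 (cons (fin 719 7 719)
(mv 785 (cons (fin 721 6 720)
(fin 849 6 784))))))))))
(mv 911 (cons (mv 847 (cons (fin 1104 7 847)
(mv 783 (cons (fin 848 7 783)
(fin 719 5 718)))))
(mv 909 (cons (fin 977 0 909)
(mv 973 (cons (fin 972 1 908)
(fin 913 1 909))))))))
(cons (mv 1104 (cons (cons (mv 849 (cons (fin 913 6 848)
(mv 785 (cons (fin 848 6 784)
(mv 1167 (cons (fin 1103 5 911)
(mv 1168 (cons (fin 1231 5 975)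
(mv 1169 (cons (fin 1105 4 912)
(fin 1233 4 976)))))))))))
(mv 1103 (cons (fin 1167 5 911)
(mv 848 (cons (fin 1039 5 847)
(mv 849 (cons (fin 785 6 784)
(mv 909 (cons (fin 911 2 845)
(mv 1169 (cons (fin 1105 4 912)
(mv 1168 (cons (fin 1233 4 976)
(mv 1102 (cons (fin 1101 0 1101)
(mv 1038 (cons (fin 845 7 845)
(mv 1166 (cons (fin 973 7 909)
(mv 1170 (cons (fin 1171 3 1103)
(mv 1229 (cons (fin 1165 5 973)
(mv 1230 (cons (fin 1293 5 1037)
(mv 1231 (cons (fin 1232 2 1165)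
(fin 1295 4 1038))))))))))))))))))))))))))))
(cons (mv 1103 (cons (fin 1167 5 911)
(mv 848 (cons (fin 1039 5 847)
(mv 1169 (cons (fin 1105 4 912)
(mv 1168 (cons (fin 1233 4 976)
(mv 977 (cons (fin 913 6 912)
(mv 909 (cons (fin 911 0 909)
(mv 1102 (cons (fin 1101 0 1101)
(mv 1038 (cons (fin 845 7 845)
(mv 1166 (cons (fin 973 7 909)
(mv 1170 (cons (fin 1171 3 1103)
(mv 1229 (cons (fin 1165 5 973)
(mv 1230 (cons (fin 1293 5 1037)
(mv 1231 (cons (fin 1232 2 1165)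
(fin 1295 4 1038)))))))))))))))))))))))))))
(mv 913 (cons (fin 849 6 848)
(mv 911 (cons (fin 973 1 909)
(mv 977 (cons (fin 909 0 909)
(fin 978 0 910))))))))))
(mv 1104 (cons (cons (mv 847 (cons (fin 911 7 847)
(mv 783 (cons (fin 848 7 783)
(mv 849 (cons (fin 913 6 848)
(mv 1167 (cons (fin 1103 5 911)
(mv 1168 (cons (fin 1231 5 975)
(mv 1169 (cons (fin 1105 4 912)
(fin 1233 4 976)))))))))))))
(mv 849 (cons (fin 913 6 848)
(mv 785 (cons (fin 848 6 784)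
(mv 1167 (cons (fin 1103 5 911)
(mv 1168 (cons (fin 1231 5 975)
(mv 1169 (cons (fin 1105 4 912)
(fin 1233 4 976))))))))))))
(cons (mv 847 (cons (fin 911 7 847)
(mv 848 (cons (fin 783 7 783)
(mv 849 (cons (fin 785 6 784)
(fin 913 6 848)))))))
(cons (mv 847 (cons (fin 911 7 847)
(mv 783 (cons (fin 848 7 783)
(mv 1167 (cons (fin 1103 5 911)
(mv 1168 (cons (fin 1231 5 975)
(mv 1169 (cons (fin 1105 4 912)
(fin 1233 4 976)))))))))))
(mv 847 (cons (fin 911 7 847)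
(mv 849 (cons (fin 913 6 848)
(mv 1167 (cons (fin 1103 5 911)
(mv 1168 (cons (fin 1231 5 975)
(mv 1169 (cons (fin 1105 4 912)
(fin 1233 4 976)))))))))))))))))))
(mv 912 (cons (cons (cons (mv 1104 (cons (cons (mv 847 (cons (fin 911 7 847)
(mv 783 (cons (fin 848 7 783)
(mv 849 (cons (fin 913 6 848)
(mv 1167 (cons (fin 1103 5 911)
(mv 1168 (cons (fin 1231 5 975)
(mv 1169 (cons (fin 1105 4 912)
(fin 1233 4 976)))))))))))))
(cons (mv 849 (cons (fin 913 6 848)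
(mv 785 (cons (fin 848 6 784)
(mv 1167 (cons (fin 1103 5 911)
(mv 1168 (cons (fin 1231 5 975)
(mv 1169 (cons (fin 1105 4 912)
(fin 1233 4 976)))))))))))
(mv 847 (cons (fin 911 7 847)
(mv 783 (cons (fin 848 7 783)
(mv 1167 (cons (fin 1103 5 911)
(mv 1168 (cons (fin 1231 5 975)
(mv 1169 (cons (fin 1105 4 912)
(fin 1233 4 976)))))))))))))
(cons (mv 847 (cons (fin 911 7 847)
(mv 783 (cons (fin 848 7 783)
(mv 913 (cons (fin 849 6 848)
(mv 975 (cons (fin 973 2 909)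
(mv 914 (cons (fin 915 1 911)
(mv 1169 (cons (fin 1105 4 912)
(mv 1168 (cons (fin 1233 4 976)
(mv 1231 (cons (fin 1167 5 975)
(mv 1232 (cons (fin 1039 7 975)
(fin 1295 5 1039)))))))))))))))))))
(cons (mv 847 (cons (fin 911 7 847)
(mv 848 (cons (fin 783 7 783)
(mv 849 (cons (fin 785 6 784)
(fin 913 6 848)))))))
(mv 847 (cons (fin 911 7 847)
(mv 849 (cons (fin 913 6 848)
(mv 1167 (cons (fin 1103 5 911)
(mv 1168 (cons (fin 1231 5 975)
(mv 1169 (cons (fin 1105 4 912)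
(fin 1233 4 976)))))))))))))))
(mv 848 (cons (cons (mv 783 (cons (fin 847 7 783)
(mv 719 (cons (fin 784 7 719)
(mv 849 (cons (fin 785 6 784)
(mv 911 (cons (fin 909 2 845)
(mv 850 (cons (fin 851 1 847)
(fin 913 2 846)))))))))))
(mv 783 (cons (fin 847 7 783)
(mv 784 (cons (fin 719 7 719)
(mv 1039 (cons (fin 975 5 783)
(fin 1103 5 847))))))))
(cons (mv 785 (cons (fin 849 6 784)
(mv 784 (cons (fin 721 6 720)
(mv 1039 (cons (fin 975 5 783)
(fin 1103 5 847)))))))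
(mv 783 (cons (fin 847 7 783)
(mv 849 (cons (fin 785 6 784)
(mv 911 (cons (fin 909 2 845)
(mv 850 (cons (fin 851 1 847)
(fin 913 2 846)))))))))))))
(cons (mv 1104 (cons (cons (cons (mv 847 (cons (fin 911 7 847)
(mv 849 (cons (fin 913 6 848)
(mv 1167 (cons (fin 1103 5 911)
(mv 1168 (cons (fin 1231 5 975)
(mv 1169 (cons (fin 1105 4 912)
(fin 1233 4 976)))))))))))
(mv 849 (cons (fin 913 6 848)
(mv 1167 (cons (fin 1103 5 911)
(mv 1168 (cons (fin 1231 5 975)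
(mv 1169 (cons (fin 1105 4 912)
(fin 1233 4 976))))))))))
(cons (mv 847 (cons (fin 911 7 847)
(mv 1167 (cons (fin 1103 5 911)
(mv 1168 (cons (fin 1231 5 975)
(mv 1169 (cons (fin 1105 4 912)
(fin 1233 4 976)))))))))
(mv 849 (cons (fin 913 6 848)
(mv 911 (cons (fin 847 7 847)
(mv 975 (cons (fin 1168 7 911)
(mv 908 (cons (fin 909 0 908)
(mv 973 (cons (fin 972 2 908)
(mv 1037 (cons (fin 1036 1 972)
(mv 1101 (cons (fin 1165 6 909)
(mv 1105 (cons (fin 1169 4 912)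
(mv 1038 (cons (fin 1039 0 1037)
(mv 1102 (cons (fin 1103 3 1037)
(fin 1166 6 910)))))))))))))))))))))))
(cons (cons (mv 849 (cons (fin 913 6 848)
(mv 911 (cons (fin 847 7 847)
(mv 975 (cons (fin 1168 7 911)
(mv 909 (cons (fin 908 0 908)
(mv 844 (cons (fin 845 3 844)
(mv 973 (cons (fin 972 1 908)
(mv 1037 (cons (fin 1036 1 972)
(mv 1101 (cons (fin 1165 6 909)
(mv 1100 (cons (fin 1164 5 908)
(mv 1038 (cons (fin 1039 1 1036)
(mv 1098 (cons (fin 1099 2 1034)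
(mv 1102 (cons (fin 1166 7 909)
(mv 1103 (cons (fin 1105 3 1037)
(fin 1167 5 911)))))))))))))))))))))))))))
(mv 847 (cons (fin 911 7 847)
(mv 913 (cons (fin 849 6 848)
(mv 975 (cons (fin 973 2 909)
(mv 914 (cons (fin 915 1 911)
(mv 1169 (cons (fin 1105 4 912)
(mv 1168 (cons (fin 1233 4 976)
(mv 1231 (cons (fin 1167 5 975)
(mv 1232 (cons (fin 1039 7 975)
(fin 1295 5 1039))))))))))))))))))
(cons (mv 847 (cons (fin 911 7 847)
(mv 913 (cons (fin 849 6 848)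
(mv 975 (cons (fin 973 2 909)
(mv 914 (cons (fin 915 1 911)
(mv 1167 (cons (fin 1103 5 911)
(mv 1168 (cons (fin 1231 5 975)
(mv 1232 (cons (fin 1039 7 975)
(mv 1233 (cons (fin 1169 4 976)
(fin 1297 4 1040)))))))))))))))))
(mv 911 (cons (fin 847 7 847)
(mv 913 (cons (fin 973 1 909)
(fin 849 6 848)))))))))
(mv 848 (cons (cons (mv 783 (cons (fin 847 7 783)
(mv 719 (cons (fin 784 7 719)
(mv 849 (cons (fin 785 6 784)
(mv 909 (cons (fin 911 2 845)
(mv 1103 (cons (fin 1039 5 847)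
(mv 1104 (cons (fin 1167 5 911)
(mv 1169 (cons (fin 1105 4 912)
(mv 1168 (cons (fin 1233 4 976)
(mv 1102 (cons (fin 1101 0 1101)
(mv 1038 (cons (fin 845 7 845)
(mv 1166 (cons (fin 973 7 909)
(mv 1229 (cons (fin 1165 5 973)
(mv 1230 (cons (fin 1293 5 1037)
(mv 1231 (cons (fin 1232 2 1165)
(fin 1295 4 1038)))))))))))))))))))))))))))))
(mv 785 (cons (fin 849 6 784)
(mv 784 (cons (fin 721 6 720)
(mv 1039 (cons (fin 975 5 783)
(fin 1103 5 847))))))))
(cons (mv 783 (cons (fin 847 7 783)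
(mv 784 (cons (fin 719 7 719)
(mv 785 (cons (fin 721 6 720)
(fin 849 6 784)))))))
(cons (mv 783 (cons (fin 847 7 783)
(mv 784 (cons (fin 719 7 719)
(mv 1039 (cons (fin 975 5 783)
(fin 1103 5 847)))))))
(mv 783 (cons (fin 847 7 783)
(mv 849 (cons (fin 785 6 784)
(mv 909 (cons (fin 911 2 845)
(mv 1103 (cons (fin 1039 5 847)
(mv 1104 (cons (fin 1167 5 911)
(mv 1169 (cons (fin 1105 4 912)
(mv 1168 (cons (fin 1233 4 976)
(mv 1102 (cons (fin 1101 0 1101)
(mv 1038 (cons (fin 845 7 845)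
(mv 1166 (cons (fin 973 7 909)
(mv 1170 (cons (fin 1171 3 1103)
(mv 1229 (cons (fin 1165 5 973)
(mv 1230 (cons (fin 1293 5 1037)
(mv 1231 (cons (fin 1232 2 1165)
(fin 1295 4 1038)))))))))))))))))))))))))))))))))))
(cons (cons (mv 848 (cons (cons (mv 783 (cons (fin 847 7 783)
(mv 719 (cons (fin 784 7 719)
(mv 849 (cons (fin 785 6 784)
(mv 1039 (cons (fin 1103 5 847)
(mv 1104 (cons (fin 913 6 848)
(mv 1169 (cons (fin 1105 4 912)
(mv 1168 (cons (fin 1233 4 976)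
(mv 975 (cons (fin 1232 7 975)
(mv 973 (cons (fin 972 0 972)
(mv 909 (cons (fin 908 3 908)
(mv 1037 (cons (fin 1036 1 972)
(mv 1101 (cons (fin 1165 6 909)
(mv 1100 (cons (fin 1038 1 1036)
(fin 1164 5 908)))))))))))))))))))))))))))
(cons (mv 783 (cons (fin 847 7 783)
(mv 719 (cons (fin 784 7 719)
(mv 849 (cons (fin 785 6 784)
(mv 1104 (cons (fin 913 6 848)
(mv 1167 (cons (fin 1103 5 911)
(mv 1168 (cons (fin 1231 5 975)
(mv 1169 (cons (fin 1105 4 912)
(fin 1233 4 976)))))))))))))))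
(mv 783 (cons (fin 847 7 783)
(mv 784 (cons (fin 719 7 719)
(mv 785 (cons (fin 721 6 720)
(fin 849 6 784)))))))))
(cons (mv 783 (cons (fin 847 7 783)
(mv 784 (cons (fin 719 7 719)
(mv 1039 (cons (fin 975 5 783)
(fin 1103 5 847)))))))
(cons (mv 785 (cons (fin 849 6 784)
(mv 784 (cons (fin 721 6 720)
(mv 1039 (cons (fin 975 5 783)
(fin 1103 5 847)))))))
(mv 783 (cons (fin 847 7 783)
(mv 849 (cons (fin 785 6 784)
(mv 1039 (cons (fin 1103 5 847)
(mv 1104 (cons (fin 913 6 848)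
(mv 1169 (cons (fin 1105 4 912)
(mv 1168 (cons (fin 1233 4 976)
(mv 975 (cons (fin 1232 7 975)
(mv 973 (cons (fin 972 0 972)
(mv 909 (cons (fin 908 3 908)
(mv 1037 (cons (fin 1036 1 972)
(mv 1101 (cons (fin 1165 6 909)
(mv 1100 (cons (fin 1038 1 1036)
(fin 1164 5 908)))))))))))))))))))))))))))))
(mv 913 (cons (mv 973 (cons (fin 911 1 909)
(fin 975 2 909)))
(mv 849 (cons (fin 1104 6 848)
(mv 785 (cons (fin 721 5 720)
(fin 848 6 784))))))))
(cons (mv 1104 (cons (cons (mv 847 (cons (fin 911 7 847)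
(mv 783 (cons (fin 848 7 783)
(mv 1167 (cons (fin 1103 5 911)
(mv 1168 (cons (fin 1231 5 975)
(mv 1169 (cons (fin 1105 4 912)
(fin 1233 4 976)))))))))))
(mv 1103 (cons (fin 1167 5 911)
(mv 1039 (cons (fin 848 5 847)
(mv 1105 (cons (fin 1169 4 912)
(mv 1038 (cons (fin 1106 3 1038)
(fin 1037 0 1037))))))))))
(cons (mv 847 (cons (fin 911 7 847)
(mv 783 (cons (fin 848 7 783)
(mv 1169 (cons (fin 1105 4 912)
(mv 1168 (cons (fin 1233 4 976)
(mv 1231 (cons (fin 1167 5 975)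
(mv 1232 (cons (fin 1295 5 1039)
(mv 975 (cons (fin 1039 7 975)
(mv 973 (cons (fin 913 2 909)
(mv 908 (cons (fin 909 3 908)
(mv 972 (cons (fin 907 3 907)
(mv 1036 (cons (fin 1035 1 971)
(fin 1037 1 972)))))))))))))))))))))))
(cons (mv 847 (cons (fin 911 7 847)
(mv 848 (cons (fin 783 7 783)
(mv 1039 (cons (fin 1103 5 847)
(mv 975 (cons (fin 784 5 783)
(mv 973 (cons (fin 913 2 909)
(fin 972 0 972)))))))))))
(mv 847 (cons (fin 911 7 847)
(mv 1167 (cons (fin 1103 5 911)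
(mv 1168 (cons (fin 1231 5 975)
(mv 1169 (cons (fin 1105 4 912)
(fin 1233 4 976)))))))))))))
(mv 1104 (cons (cons (mv 847 (cons (fin 911 7 847)
(mv 783 (cons (fin 848 7 783)
(mv 849 (cons (fin 913 6 848)
(mv 1167 (cons (fin 1103 5 911)
(mv 1168 (cons (fin 1231 5 975)
(mv 1169 (cons (fin 1105 4 912)
(fin 1233 4 976)))))))))))))
(mv 849 (cons (fin 913 6 848)
(mv 785 (cons (fin 848 6 784)
(mv 1167 (cons (fin 1103 5 911)
(mv 1168 (cons (fin 1231 5 975)
(mv 1169 (cons (fin 1105 4 912)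
(fin 1233 4 976))))))))))))
(cons (mv 847 (cons (fin 911 7 847)
(mv 848 (cons (fin 783 7 783)
(mv 849 (cons (fin 785 6 784)
(fin 913 6 848)))))))
(cons (mv 847 (cons (fin 911 7 847)
(mv 783 (cons (fin 848 7 783)
(mv 1167 (cons (fin 1103 5 911)
(mv 1168 (cons (fin 1231 5 975)
(mv 1169 (cons (fin 1105 4 912)
(fin 1233 4 976)))))))))))
(mv 847 (cons (fin 911 7 847)
(mv 849 (cons (fin 913 6 848)
(mv 1167 (cons (fin 1103 5 911)
(mv 1168 (cons (fin 1231 5 975)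
(mv 1169 (cons (fin 1105 4 912)
(fin 1233 4 976)))))))))))))))))))))
(cons (mv 912 (cons (cons (mv 1104 (cons (cons (mv 847 (cons (fin 911 7 847)
(mv 783 (cons (fin 848 7 783)
(mv 849 (cons (fin 913 6 848)
(mv 1167 (cons (fin 1103 5 911)
(mv 1168 (cons (fin 1231 5 975)
(mv 1169 (cons (fin 1105 4 912)
(fin 1233 4 976)))))))))))))
(cons (mv 847 (cons (fin 911 7 847)
(mv 783 (cons (fin 848 7 783)
(mv 1167 (cons (fin 1103 5 911)
(mv 1168 (cons (fin 1231 5 975)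
(mv 1169 (cons (fin 1105 4 912)
(fin 1233 4 976)))))))))))
(mv 849 (cons (fin 913 6 848)
(mv 785 (cons (fin 848 6 784)
(mv 1167 (cons (fin 1103 5 911)
(mv 1168 (cons (fin 1231 5 975)
(mv 1169 (cons (fin 1105 4 912)
(fin 1233 4 976)))))))))))))
(cons (cons (mv 847 (cons (fin 911 7 847)
(mv 783 (cons (fin 848 7 783)
(mv 913 (cons (fin 849 6 848)
(mv 973 (cons (fin 975 2 909)
(mv 1168 (cons (fin 977 6 912)
(mv 1169 (cons (fin 1105 4 912)
(fin 1233 4 976)))))))))))))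
(mv 847 (cons (fin 911 7 847)
(mv 783 (cons (fin 848 7 783)
(mv 913 (cons (fin 849 6 848)
(mv 973 (cons (fin 975 2 909)
(mv 1167 (cons (fin 1103 5 911)
(mv 1168 (cons (fin 1231 5 975)
(fin 977 6 912))))))))))))))
(cons (mv 847 (cons (fin 911 7 847)
(mv 783 (cons (fin 848 7 783)
(mv 913 (cons (fin 849 6 848)
(mv 975 (cons (fin 973 2 909)
(mv 914 (cons (fin 915 1 911)
(fin 977 2 910)))))))))))
(mv 847 (cons (fin 911 7 847)
(mv 849 (cons (fin 913 6 848)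
(mv 1167 (cons (fin 1103 5 911)
(mv 1168 (cons (fin 1231 5 975)
(mv 1169 (cons (fin 1105 4 912)
(fin 1233 4 976)))))))))))))))
(cons (mv 848 (cons (cons (mv 783 (cons (fin 847 7 783)
(mv 784 (cons (fin 719 7 719)
(mv 785 (cons (fin 721 6 720)
(fin 849 6 784)))))))
(mv 785 (cons (fin 849 6 784)
(mv 784 (cons (fin 721 6 720)
(mv 1039 (cons (fin 975 5 783)
(fin 1103 5 847))))))))
(cons (mv 783 (cons (fin 847 7 783)
(mv 784 (cons (fin 719 7 719)
(mv 1039 (cons (fin 975 5 783)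
(fin 1103 5 847)))))))
(mv 847 (cons (fin 783 7 783)
(mv 849 (cons (fin 785 6 784)
(mv 850 (cons (fin 911 1 846)
(mv 787 (cons (fin 786 2 783)
(mv 851 (cons (fin 788 2 784)
(mv 915 (cons (fin 914 0 847)
(fin 916 0 848))))))))))))))))
(mv 1104 (cons (cons (mv 847 (cons (fin 911 7 847)
(mv 849 (cons (fin 913 6 848)
(mv 1167 (cons (fin 1103 5 911)
(mv 1168 (cons (fin 1231 5 975)
(mv 1169 (cons (fin 1105 4 912)
(fin 1233 4 976)))))))))))
(cons (mv 847 (cons (fin 911 7 847)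
(mv 1167 (cons (fin 1103 5 911)
(mv 1168 (cons (fin 1231 5 975)
(mv 1169 (cons (fin 1105 4 912)
(fin 1233 4 976)))))))))
(mv 849 (cons (fin 913 6 848)
(mv 1167 (cons (fin 1103 5 911)
(mv 1168 (cons (fin 1231 5 975)
(mv 1169 (cons (fin 1105 4 912)
(fin 1233 4 976)))))))))))
(cons (mv 847 (cons (fin 911 7 847)
(mv 913 (cons (fin 849 6 848)
(mv 973 (cons (fin 975 2 909)
(mv 1168 (cons (fin 977 6 912)
(mv 1169 (cons (fin 1105 4 912)
(fin 1233 4 976)))))))))))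
(cons (mv 847 (cons (fin 911 7 847)
(mv 913 (cons (fin 849 6 848)
(mv 973 (cons (fin 975 2 909)
(mv 1167 (cons (fin 1103 5 911)
(mv 1168 (cons (fin 1231 5 975)
(fin 977 6 912)))))))))))
(mv 847 (cons (fin 911 7 847)
(mv 913 (cons (fin 849 6 848)
(mv 975 (cons (fin 973 2 909)
(mv 914 (cons (fin 915 1 911)
(fin 977 2 910)))))))))))))))
(cons (cons (mv 1104 (cons (cons (mv 849 (cons (fin 913 6 848)
(mv 785 (cons (fin 848 6 784)
(mv 1167 (cons (fin 1103 5 911)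
(mv 1168 (cons (fin 1231 5 975)
(mv 1169 (cons (fin 1105 4 912)
(fin 1233 4 976)))))))))))
(mv 1103 (cons (fin 1167 5 911)
(mv 848 (cons (fin 1039 5 847)
(mv 783 (cons (fin 847 7 783)
(mv 784 (cons (fin 719 7 719)
(mv 785 (cons (fin 721 6 720)
(fin 849 6 784))))))))))))
(cons (mv 913 (cons (fin 849 6 848)
(mv 973 (cons (fin 975 2 909)
(mv 1168 (cons (fin 977 6 912)
(mv 1169 (cons (fin 1105 4 912)
(fin 1233 4 976)))))))))
(mv 1103 (cons (fin 1167 5 911)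
(mv 1039 (cons (fin 848 5 847)
(mv 1105 (cons (fin 1169 4 912)
(mv 1038 (cons (fin 1106 3 1038)
(fin 1037 0 1037))))))))))))
(mv 913 (cons (mv 973 (cons (fin 911 1 909)
(fin 975 2 909)))
(mv 849 (cons (fin 1104 6 848)
(mv 785 (cons (fin 721 5 720)
(fin 977 5 784))))))))
(cons (mv 1104 (cons (cons (mv 847 (cons (fin 911 7 847)
(mv 783 (cons (fin 848 7 783)
(mv 1167 (cons (fin 1103 5 911)
(mv 1168 (cons (fin 1231 5 975)
(mv 1169 (cons (fin 1105 4 912)
(fin 1233 4 976)))))))))))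
(mv 1103 (cons (fin 1167 5 911)
(mv 1039 (cons (fin 848 5 847)
(mv 1105 (cons (fin 1169 4 912)
(mv 1038 (cons (fin 1106 3 1038)
(fin 1037 0 1037))))))))))
(cons (mv 847 (cons (fin 911 7 847)
(mv 783 (cons (fin 848 7 783)
(mv 1169 (cons (fin 1105 4 912)
(mv 1168 (cons (fin 1233 4 976)
(mv 913 (cons (fin 977 6 912)
(mv 975 (cons (fin 973 2 909)
(mv 914 (cons (fin 915 1 911)
(mv 1231 (cons (fin 1167 5 975)
(mv 1232 (cons (fin 1039 7 975)
(fin 1295 5 1039)))))))))))))))))))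
(cons (mv 847 (cons (fin 911 7 847)
(mv 848 (cons (fin 783 7 783)
(mv 1039 (cons (fin 1103 5 847)
(mv 975 (cons (fin 784 5 783)
(mv 973 (cons (fin 913 2 909)
(fin 972 0 972)))))))))))
(mv 847 (cons (fin 911 7 847)
(mv 1167 (cons (fin 1103 5 911)
(mv 1168 (cons (fin 1231 5 975)
(mv 1169 (cons (fin 1105 4 912)
(fin 1233 4 976)))))))))))))
(mv 1104 (cons (cons (mv 847 (cons (fin 911 7 847)
(mv 783 (cons (fin 848 7 783)
(mv 849 (cons (fin 913 6 848)
(mv 1167 (cons (fin 1103 5 911)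
(mv 1168 (cons (fin 1231 5 975)
(mv 1169 (cons (fin 1105 4 912)
(fin 1233 4 976)))))))))))))
(cons (mv 847 (cons (fin 911 7 847)
(mv 783 (cons (fin 848 7 783)
(mv 1167 (cons (fin 1103 5 911)
(mv 1168 (cons (fin 1231 5 975)
(mv 1169 (cons (fin 1105 4 912)
(fin 1233 4 976)))))))))))
(mv 849 (cons (fin 913 6 848)
(mv 785 (cons (fin 848 6 784)
(mv 1167 (cons (fin 1103 5 911)
(mv 1168 (cons (fin 1231 5 975)
(mv 1169 (cons (fin 1105 4 912)
(fin 1233 4 976)))))))))))))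
(cons (cons (mv 847 (cons (fin 911 7 847)
(mv 783 (cons (fin 848 7 783)
(mv 913 (cons (fin 849 6 848)
(mv 1168 (cons (fin 977 6 912)
(mv 1169 (cons (fin 1105 4 912)
(fin 1233 4 976)))))))))))
(mv 847 (cons (fin 911 7 847)
(mv 783 (cons (fin 848 7 783)
(mv 913 (cons (fin 849 6 848)
(mv 1167 (cons (fin 1103 5 911)
(mv 1168 (cons (fin 1231 5 975)
(fin 977 6 912))))))))))))
(cons (mv 847 (cons (fin 911 7 847)
(mv 848 (cons (fin 783 7 783)
(mv 849 (cons (fin 785 6 784)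
(fin 913 6 848)))))))
(mv 847 (cons (fin 911 7 847)
(mv 849 (cons (fin 913 6 848)
(mv 1167 (cons (fin 1103 5 911)
(mv 1168 (cons (fin 1231 5 975)
(mv 1169 (cons (fin 1105 4 912)
(fin 1233 4 976)))))))))))))))))))
(cons (mv 975 (cons (cons (mv 909 (cons (fin 977 3 909)
(mv 908 (cons (fin 973 3 908)
(fin 907 0 907)))))
(mv 973 (cons (cons (mv 908 (cons (fin 909 3 908)
(mv 972 (cons (fin 907 3 907)
(fin 1039 0 972)))))
(mv 909 (cons (fin 908 3 908)
(mv 912 (cons (fin 913 2 909)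
(mv 1037 (cons (fin 1036 1 972)
(mv 1101 (cons (fin 1165 6 909)
(mv 1100 (cons (fin 1164 5 908)
(mv 1038 (cons (fin 1039 1 1036)
(mv 845 (cons (fin 1102 7 845)
(fin 781 4 781))))))))))))))))
(cons (mv 912 (cons (fin 913 2 909)
(mv 972 (cons (fin 1039 0 972)
(mv 1036 (cons (fin 1035 1 971)
(fin 1037 1 972)))))))
(mv 908 (cons (fin 909 3 908)
(mv 912 (cons (fin 913 2 909)
(mv 972 (cons (fin 907 3 907)
(mv 1036 (cons (fin 1035 1 971)
(fin 1037 1 972)))))))))))))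
(cons (mv 973 (cons (cons (mv 912 (cons (fin 913 2 909)
(mv 972 (cons (fin 1039 0 972)
(mv 1036 (cons (fin 1035 1 971)
(fin 1037 1 972)))))))
(cons (mv 912 (cons (fin 913 2 909)
(mv 972 (cons (fin 1039 0 972)
(mv 907 (cons (fin 908 3 907)
(mv 971 (cons (fin 906 3 906)
(mv 1035 (cons (fin 1034 1 970)
(fin 1036 1 971)))))))))))
(mv 912 (cons (fin 913 2 909)
(mv 1037 (cons (fin 1036 1 972)
(mv 1038 (cons (fin 977 1 973)
(mv 1101 (cons (fin 1165 6 909)
(mv 1039 (cons (fin 1100 1 1036)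
(mv 848 (cons (fin 784 5 783)
(fin 1103 5 847)))))))))))))))
(cons (mv 913 (cons (fin 912 2 909)
(mv 977 (cons (fin 914 2 910)
(mv 1037 (cons (fin 1036 1 972)
(fin 1038 1 973)))))))
(cons (mv 972 (cons (fin 1039 0 972)
(mv 1036 (cons (fin 1035 1 971)
(fin 1037 1 972)))))
(mv 912 (cons (fin 913 2 909)
(mv 1039 (cons (fin 972 0 972)
(mv 848 (cons (fin 784 5 783)
(fin 1103 5 847)))))))))))
(mv 977 (cons (fin 909 3 909)
(mv 913 (cons (fin 914 2 910)
(mv 785 (cons (fin 849 5 784)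
(mv 1038 (cons (fin 1037 1 973)
(mv 1039 (cons (fin 978 1 974)
(mv 1103 (cons (fin 1167 7 910)
(mv 912 (cons (fin 848 5 847)
(mv 1104 (cons (fin 1168 6 912)
(mv 1105 (cons (fin 1106 3 1038)
(fin 1169 4 912))))))))))))))))))))))
(mv 975 (cons (cons (mv 909 (cons (fin 977 3 909)
(mv 908 (cons (fin 973 3 908)
(fin 907 0 907)))))
(mv 973 (cons (cons (mv 908 (cons (fin 909 3 908)
(mv 972 (cons (fin 907 3 907)
(fin 1039 0 972)))))
(mv 909 (cons (fin 908 3 908)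
(mv 1037 (cons (fin 1036 1 972)
(mv 1101 (cons (fin 1165 6 909)
(mv 1100 (cons (fin 1164 5 908)
(mv 1038 (cons (fin 1039 1 1036)
(mv 845 (cons (fin 1102 7 845)
(fin 781 4 781))))))))))))))
(cons (mv 972 (cons (fin 1039 0 972)
(mv 1036 (cons (fin 1035 1 971)
(fin 1037 1 972)))))
(mv 908 (cons (fin 909 3 908)
(mv 972 (cons (fin 907 3 907)
(mv 1036 (cons (fin 1035 1 971)
(fin 1037 1 972)))))))))))
(cons (mv 911 (cons (cons (mv 783 (cons (fin 847 4 783)
(mv 977 (cons (fin 978 3 910)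
(mv 913 (cons (fin 914 2 910)
(mv 785 (cons (fin 849 5 784)
(mv 1037 (cons (fin 1038 1 973)
(mv 973 (cons (fin 1036 1 972)
(mv 972 (cons (fin 971 2 907)
(fin 1039 0 972)))))))))))))))
(mv 977 (cons (fin 978 3 910)
(mv 913 (cons (fin 914 2 910)
(mv 785 (cons (fin 849 5 784)
(mv 1037 (cons (fin 1038 1 973)
(mv 973 (cons (fin 1036 1 972)
(mv 972 (cons (fin 971 2 907)
(fin 1039 0 972))))))))))))))
(cons (mv 847 (cons (fin 783 4 783)
(mv 1104 (cons (fin 1168 7 911)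
(fin 1039 4 847)))))
(mv 847 (cons (fin 783 4 783)
(mv 977 (cons (fin 978 3 910)
(mv 1038 (cons (fin 1037 1 973)
(fin 1102 6 846))))))))))
(mv 909 (cons (fin 977 3 909)
(mv 908 (cons (fin 907 0 907)
(fin 911 0 908)))))))))))
(cons (cons (mv 975 (cons (cons (mv 909 (cons (fin 977 3 909)
(mv 908 (cons (fin 973 3 908)
(fin 907 0 907)))))
(mv 973 (cons (cons (mv 908 (cons (fin 909 3 908)
(mv 972 (cons (fin 907 3 907)
(fin 1039 0 972)))))
(mv 909 (cons (fin 908 3 908)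
(mv 912 (cons (fin 913 2 909)
(mv 1037 (cons (fin 1036 1 972)
(mv 1101 (cons (fin 1165 6 909)
(mv 1100 (cons (fin 1164 5 908)
(mv 1038 (cons (fin 1039 1 1036)
(mv 845 (cons (fin 1102 7 845)
(fin 781 4 781))))))))))))))))
(cons (mv 912 (cons (fin 913 2 909)
(mv 972 (cons (fin 911 2 908)
(fin 1039 0 972)))))
(mv 908 (cons (fin 909 3 908)
(mv 912 (cons (fin 913 2 909)
(mv 972 (cons (fin 907 3 907)
(fin 911 2 908)))))))))))
(cons (mv 973 (cons (cons (mv 912 (cons (fin 913 2 909)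
(mv 972 (cons (fin 911 2 908)
(fin 1039 0 972)))))
(mv 912 (cons (fin 913 2 909)
(mv 1037 (cons (fin 1036 1 972)
(mv 977 (cons (fin 1038 1 973)
(mv 978 (cons (fin 911 3 910)
(mv 914 (cons (fin 915 2 911)
(mv 1039 (cons (fin 979 1 975)
(mv 848 (cons (fin 784 5 783)
(fin 1103 5 847))))))))))))))))
(cons (mv 972 (cons (fin 1039 0 972)
(mv 1036 (cons (fin 1035 1 971)
(fin 1037 1 972)))))
(mv 912 (cons (fin 913 2 909)
(mv 911 (cons (fin 972 2 908)
(mv 783 (cons (fin 847 4 783)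
(mv 977 (cons (fin 978 3 910)
(mv 1037 (cons (fin 1036 1 972)
(fin 1038 1 973))))))))))))))
(mv 909 (cons (fin 977 3 909)
(mv 908 (cons (fin 907 0 907)
(fin 911 0 908))))))))
(cons (mv 911 (cons (cons (mv 975 (cons (mv 909 (cons (fin 977 3 909)
(fin 908 0 908)))
(mv 847 (cons (fin 783 4 783)
(mv 1104 (cons (fin 912 7 847)
(fin 1168 7 911)))))))
(cons (mv 912 (cons (cons (mv 847 (cons (fin 1104 7 847)
(mv 783 (cons (fin 848 7 783)
(fin 719 5 718)))))
(mv 909 (cons (fin 977 0 909)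
(mv 844 (cons (fin 845 3 844)
(mv 843 (cons (fin 908 3 843)
(mv 849 (cons (fin 848 2 845)
(mv 913 (cons (fin 850 2 846)
(fin 1104 6 848))))))))))))
(cons (mv 909 (cons (fin 977 0 909)
(mv 844 (cons (fin 845 3 844)
(mv 848 (cons (fin 849 2 845)
(mv 847 (cons (fin 908 2 844)
(fin 783 7 783)))))))))
(mv 847 (cons (fin 1104 7 847)
(mv 719 (cons (fin 783 5 718)
(mv 977 (cons (fin 909 0 909)
(mv 978 (cons (fin 979 3 911)
(fin 913 0 910))))))))))))
(mv 977 (cons (cons (mv 909 (cons (fin 975 3 909)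
(fin 912 0 909)))
(mv 912 (cons (fin 909 0 909)
(mv 978 (cons (fin 979 3 911)
(fin 913 0 910))))))
(cons (mv 975 (cons (fin 978 3 910)
(mv 913 (cons (fin 914 2 910)
(mv 785 (cons (fin 849 5 784)
(mv 1038 (cons (fin 1037 1 973)
(mv 1102 (cons (fin 1166 6 910)
(mv 1101 (cons (fin 1165 5 909)
(mv 1103 (cons (fin 1167 4 910)
(mv 1039 (cons (fin 1100 2 1036)
(mv 912 (cons (fin 848 5 847)
(mv 1104 (cons (fin 1168 7 911)
(mv 1105 (cons (fin 1106 3 1038)
(fin 1169 4 912)))))))))))))))))))))))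
(mv 975 (cons (fin 909 3 909)
(fin 978 3 910))))))))
(cons (mv 847 (cons (mv 783 (cons (fin 719 5 718)
(fin 975 4 783)))
(cons (mv 1038 (cons (fin 1102 6 846)
(mv 1104 (cons (fin 912 7 847)
(mv 975 (cons (fin 1168 7 911)
(fin 1039 4 847)))))))
(mv 783 (cons (fin 719 5 718)
(mv 912 (cons (fin 848 7 783)
(fin 1104 7 847))))))))
(cons (mv 975 (cons (mv 909 (cons (fin 977 3 909)
(fin 908 0 908)))
(mv 847 (cons (fin 783 4 783)
(mv 1104 (cons (fin 1168 7 911)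
(fin 1039 4 847)))))))
(mv 909 (cons (cons (mv 975 (cons (fin 977 3 909)
(fin 908 0 908)))
(mv 912 (cons (fin 977 0 909)
(mv 844 (cons (fin 845 3 844)
(mv 848 (cons (fin 849 2 845)
(mv 847 (cons (fin 908 2 844)
(fin 783 7 783))))))))))
(cons (mv 908 (cons (fin 975 0 908)
(mv 843 (cons (fin 844 3 843)
(mv 847 (cons (fin 848 2 844)
(mv 719 (cons (fin 783 5 718)
(mv 907 (cons (fin 842 3 842)
(mv 971 (cons (fin 970 1 906)
(fin 972 1 907)))))))))))))
(mv 977 (cons (fin 975 3 909)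
(fin 912 0 909))))))))))
(mv 975 (cons (cons (mv 909 (cons (fin 977 3 909)
(mv 908 (cons (fin 973 3 908)
(fin 907 0 907)))))
(mv 911 (cons (cons (mv 783 (cons (fin 847 4 783)
(mv 977 (cons (fin 978 3 910)
(mv 913 (cons (fin 914 2 910)
(mv 785 (cons (fin 849 5 784)
(mv 912 (cons (fin 973 1 909)
(mv 1104 (cons (fin 1168 7 911)
(mv 1103 (cons (fin 1167 5 911)
(mv 848 (cons (fin 1039 5 847)
(mv 784 (cons (fin 719 7 719)
(fin 720 5 719)))))))))))))))))))
(mv 977 (cons (fin 978 3 910)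
(mv 913 (cons (fin 914 2 910)
(mv 785 (cons (fin 849 5 784)
(mv 912 (cons (fin 973 1 909)
(mv 1104 (cons (fin 1168 7 911)
(mv 1103 (cons (fin 1167 5 911)
(mv 848 (cons (fin 1039 5 847)
(mv 784 (cons (fin 720 5 719)
(fin 721 6 720))))))))))))))))))
(cons (mv 783 (cons (fin 847 4 783)
(mv 977 (cons (fin 978 3 910)
(mv 913 (cons (fin 914 2 910)
(mv 785 (cons (fin 849 5 784)
(mv 973 (cons (fin 912 1 909)
(mv 972 (cons (fin 971 2 907)
(fin 1039 0 972)))))))))))))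
(cons (mv 847 (cons (fin 783 4 783)
(mv 1104 (cons (fin 912 7 847)
(fin 1168 7 911)))))
(mv 847 (cons (fin 783 4 783)
(mv 1104 (cons (fin 1168 7 911)
(fin 1039 4 847))))))))))
(cons (mv 973 (cons (cons (mv 908 (cons (fin 909 3 908)
(mv 972 (cons (fin 907 3 907)
(fin 1039 0 972)))))
(mv 909 (cons (fin 908 3 908)
(mv 912 (cons (fin 913 2 909)
(mv 1037 (cons (fin 1036 1 972)
(mv 1101 (cons (fin 1165 6 909)
(mv 1100 (cons (fin 1164 5 908)
(mv 1102 (cons (fin 1166 4 909)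
(mv 1039 (cons (fin 1103 2 1036)
(mv 848 (cons (fin 784 5 783)
(mv 849 (cons (fin 911 2 845)
(fin 785 6 784))))))))))))))))))))
(cons (mv 912 (cons (fin 913 2 909)
(mv 972 (cons (fin 911 2 908)
(fin 1039 0 972)))))
(mv 908 (cons (fin 909 3 908)
(mv 912 (cons (fin 913 2 909)
(mv 972 (cons (fin 907 3 907)
(fin 911 2 908))))))))))
(mv 909 (cons (fin 977 3 909)
(mv 908 (cons (fin 907 0 907)
(fin 911 0 908))))))))))
(cons (cons (mv 975 (cons (cons (mv 909 (cons (fin 977 3 909)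
(mv 908 (cons (fin 973 3 908)
(fin 907 0 907)))))
(mv 973 (cons (cons (mv 908 (cons (fin 909 3 908)
(mv 912 (cons (fin 913 2 909)
(mv 972 (cons (fin 907 3 907)
(fin 911 2 908)))))))
(mv 912 (cons (fin 913 2 909)
(mv 911 (cons (fin 972 2 908)
(mv 847 (cons (fin 1104 7 847)
(fin 783 4 783))))))))
(cons (mv 908 (cons (fin 909 3 908)
(mv 972 (cons (fin 907 3 907)
(mv 1036 (cons (fin 1035 1 971)
(fin 1037 1 972)))))))
(mv 909 (cons (fin 908 3 908)
(mv 912 (cons (fin 913 2 909)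
(mv 1037 (cons (fin 1036 1 972)
(mv 1101 (cons (fin 1165 6 909)
(mv 1100 (cons (fin 1164 5 908)
(mv 1102 (cons (fin 1166 4 909)
(mv 845 (cons (fin 1038 7 845)
(mv 844 (cons (fin 911 3 844)
(fin 780 7 780)))))))))))))))))))))
(cons (mv 911 (cons (cons (mv 783 (cons (fin 847 4 783)
(mv 977 (cons (fin 978 3 910)
(mv 913 (cons (fin 914 2 910)
(mv 785 (cons (fin 849 5 784)
(mv 973 (cons (fin 912 1 909)
(mv 1037 (cons (fin 1036 1 972)
(fin 1038 1 973)))))))))))))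
(mv 977 (cons (fin 978 3 910)
(mv 913 (cons (fin 914 2 910)
(mv 785 (cons (fin 849 5 784)
(mv 973 (cons (fin 912 1 909)
(mv 1037 (cons (fin 1036 1 972)
(fin 1038 1 973))))))))))))
(cons (mv 847 (cons (fin 783 4 783)
(mv 1104 (cons (fin 912 7 847)
(fin 1168 7 911)))))
(mv 847 (cons (fin 783 4 783)
(mv 977 (cons (fin 978 3 910)
(mv 1038 (cons (fin 1037 1 973)
(fin 1102 6 846))))))))))
(mv 909 (cons (fin 977 3 909)
(mv 908 (cons (fin 907 0 907)
(fin 911 0 908))))))))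
(mv 975 (cons (cons (mv 909 (cons (fin 977 3 909)
(mv 908 (cons (fin 973 3 908)
(fin 907 0 907)))))
(mv 911 (cons (cons (mv 783 (cons (fin 847 4 783)
(mv 977 (cons (fin 978 3 910)
(mv 1037 (cons (fin 1038 1 973)
(mv 973 (cons (fin 1036 1 972)
(mv 972 (cons (fin 971 2 907)
(fin 912 2 908)))))))))))
(mv 977 (cons (fin 978 3 910)
(mv 1037 (cons (fin 1038 1 973)
(mv 973 (cons (fin 1036 1 972)
(mv 972 (cons (fin 971 2 907)
(fin 912 2 908))))))))))
(cons (mv 847 (cons (fin 783 4 783)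
(mv 1104 (cons (fin 912 7 847)
(fin 1168 7 911)))))
(mv 783 (cons (fin 847 4 783)
(mv 977 (cons (fin 978 3 910)
(mv 1037 (cons (fin 1038 1 973)
(mv 973 (cons (fin 1036 1 972)
(mv 972 (cons (fin 971 2 907)
(fin 1039 0 972)))))))))))))))
(cons (mv 973 (cons (cons (mv 908 (cons (fin 909 3 908)
(mv 972 (cons (fin 907 3 907)
(fin 1039 0 972)))))
(mv 909 (cons (fin 908 3 908)
(mv 1037 (cons (fin 1036 1 972)
(mv 1101 (cons (fin 1165 6 909)
(mv 1100 (cons (fin 1164 5 908)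
(mv 1038 (cons (fin 1039 1 1036)
(mv 845 (cons (fin 1102 7 845)
(fin 781 4 781))))))))))))))
(cons (mv 972 (cons (fin 1039 0 972)
(mv 911 (cons (fin 971 2 907)
(fin 912 2 908)))))
(mv 908 (cons (fin 909 3 908)
(mv 972 (cons (fin 907 3 907)
(mv 911 (cons (fin 971 2 907)
(fin 912 2 908))))))))))
(mv 909 (cons (fin 977 3 909)
(mv 908 (cons (fin 907 0 907)
(fin 911 0 908)))))))))
(cons (mv 911 (cons (cons (mv 975 (cons (mv 909 (cons (fin 977 3 909)
(fin 908 0 908)))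
(cons (mv 783 (cons (fin 847 4 783)
(mv 977 (cons (fin 978 3 910)
(mv 913 (cons (fin 914 2 910)
(mv 785 (cons (fin 849 5 784)
(mv 912 (cons (fin 973 1 909)
(mv 1104 (cons (fin 1168 7 911)
(mv 1103 (cons (fin 1167 5 911)
(mv 848 (cons (fin 1039 5 847)
(mv 784 (cons (fin 719 7 719)
(fin 720 5 719)))))))))))))))))))
(mv 847 (cons (fin 783 4 783)
(mv 1104 (cons (fin 912 7 847)
(fin 1168 7 911))))))))
(cons (mv 912 (cons (mv 847 (cons (fin 1104 7 847)
(mv 783 (cons (fin 848 7 783)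
(fin 719 5 718)))))
(mv 909 (cons (fin 977 0 909)
(mv 973 (cons (fin 972 1 908)
(fin 913 1 909)))))))
(mv 909 (cons (mv 975 (cons (fin 977 3 909)
(fin 908 0 908)))
(cons (mv 912 (cons (fin 977 0 909)
(mv 973 (cons (fin 972 1 908)
(fin 913 1 909)))))
(mv 908 (cons (fin 975 0 908)
(mv 843 (cons (fin 844 3 843)
(mv 842 (cons (fin 907 3 842)
(mv 972 (cons (fin 971 1 907)
(mv 912 (cons (fin 973 1 908)
(mv 849 (cons (fin 848 2 845)
(mv 913 (cons (fin 850 2 846)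
(fin 1104 6 848))))))))))))))))))))
(cons (cons (mv 975 (cons (mv 909 (cons (fin 977 3 909)
(fin 908 0 908)))
(mv 847 (cons (fin 783 4 783)
(mv 1104 (cons (fin 1168 7 911)
(fin 1039 4 847)))))))
(mv 847 (cons (mv 783 (cons (fin 719 5 718)
(fin 975 4 783)))
(mv 912 (cons (fin 1104 7 847)
(mv 913 (cons (fin 973 1 909)
(mv 849 (cons (fin 850 2 846)
(mv 785 (cons (fin 721 5 720)
(fin 977 5 784))))))))))))
(cons (mv 847 (cons (mv 783 (cons (fin 719 5 718)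
(fin 975 4 783)))
(mv 912 (cons (fin 1104 7 847)
(mv 913 (cons (fin 973 1 909)
(mv 849 (cons (fin 850 2 846)
(mv 785 (cons (fin 721 5 720)
(fin 848 6 784)))))))))))
(mv 909 (cons (mv 975 (cons (fin 977 3 909)
(fin 908 0 908)))
(cons (mv 912 (cons (fin 977 0 909)
(mv 973 (cons (fin 972 1 908)
(fin 913 1 909)))))
(mv 908 (cons (fin 975 0 908)
(mv 843 (cons (fin 844 3 843)
(mv 842 (cons (fin 907 3 842)
(mv 848 (cons (fin 847 2 844)
(mv 912 (cons (fin 849 2 845)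
(mv 972 (cons (fin 971 1 907)
(fin 973 1 908))))))))))))))))))))
(mv 912 (cons (cons (cons (mv 1104 (cons (cons (cons (mv 847 (cons (fin 911 7 847)
(mv 783 (cons (fin 848 7 783)
(mv 849 (cons (fin 913 6 848)
(mv 1167 (cons (fin 1103 5 911)
(mv 1168 (cons (fin 1231 5 975)
(mv 1169 (cons (fin 1105 4 912)
(fin 1233 4 976)))))))))))))
(mv 849 (cons (fin 913 6 848)
(mv 785 (cons (fin 848 6 784)
(mv 1167 (cons (fin 1103 5 911)
(mv 1168 (cons (fin 1231 5 975)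
(mv 1169 (cons (fin 1105 4 912)
(fin 1233 4 976))))))))))))
(cons (mv 847 (cons (fin 911 7 847)
(mv 783 (cons (fin 848 7 783)
(mv 1167 (cons (fin 1103 5 911)
(mv 1168 (cons (fin 1231 5 975)
(mv 1169 (cons (fin 1105 4 912)
(fin 1233 4 976)))))))))))
(mv 847 (cons (fin 911 7 847)
(mv 783 (cons (fin 848 7 783)
(mv 849 (cons (fin 913 6 848)
(mv 1169 (cons (fin 1105 4 912)
(mv 1168 (cons (fin 1233 4 976)
(mv 1231 (cons (fin 1167 5 975)
(mv 1232 (cons (fin 1295 5 1039)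
(mv 975 (cons (fin 1039 7 975)
(mv 909 (cons (fin 977 3 909)
(mv 908 (cons (fin 973 3 908)
(fin 907 0 907)))))))))))))))))))))))
(cons (cons (mv 847 (cons (fin 911 7 847)
(mv 783 (cons (fin 848 7 783)
(mv 913 (cons (fin 849 6 848)
(mv 973 (cons (fin 975 2 909)
(mv 1168 (cons (fin 977 6 912)
(mv 1169 (cons (fin 1105 4 912)
(fin 1233 4 976)))))))))))))
(mv 847 (cons (fin 911 7 847)
(mv 783 (cons (fin 848 7 783)
(mv 913 (cons (fin 849 6 848)
(mv 973 (cons (fin 975 2 909)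
(mv 1167 (cons (fin 1103 5 911)
(mv 1168 (cons (fin 1231 5 975)
(fin 977 6 912))))))))))))))
(cons (mv 847 (cons (fin 911 7 847)
(mv 783 (cons (fin 848 7 783)
(mv 913 (cons (fin 849 6 848)
(mv 975 (cons (fin 973 2 909)
(mv 914 (cons (fin 915 1 911)
(fin 977 2 910)))))))))))
(mv 847 (cons (fin 911 7 847)
(mv 849 (cons (fin 913 6 848)
(mv 1167 (cons (fin 1103 5 911)
(mv 1168 (cons (fin 1231 5 975)
(mv 1169 (cons (fin 1105 4 912)
(fin 1233 4 976)))))))))))))))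
(mv 848 (cons (cons (mv 783 (cons (fin 847 7 783)
(mv 719 (cons (fin 784 7 719)
(mv 849 (cons (fin 785 6 784)
(mv 909 (cons (fin 911 2 845)
(mv 975 (cons (fin 977 3 909)
(mv 908 (cons (fin 973 3 908)
(fin 907 0 907)))))))))))))
(mv 783 (cons (fin 847 7 783)
(mv 784 (cons (fin 719 7 719)
(mv 1039 (cons (fin 975 5 783)
(fin 1103 5 847))))))))
(cons (mv 785 (cons (fin 849 6 784)
(mv 784 (cons (fin 721 6 720)
(mv 1039 (cons (fin 975 5 783)
(fin 1103 5 847)))))))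
(cons (mv 783 (cons (fin 847 7 783)
(mv 719 (cons (fin 784 7 719)
(mv 849 (cons (fin 785 6 784)
(mv 911 (cons (fin 909 2 845)
(mv 850 (cons (fin 851 1 847)
(fin 913 2 846)))))))))))
(mv 783 (cons (fin 847 7 783)
(mv 849 (cons (fin 785 6 784)
(mv 909 (cons (fin 911 2 845)
(mv 975 (cons (fin 977 3 909)
(mv 908 (cons (fin 973 3 908)
(fin 907 0 907))))))))))))))))
(cons (mv 1104 (cons (cons (mv 849 (cons (fin 913 6 848)
(mv 785 (cons (fin 848 6 784)
(mv 1167 (cons (fin 1103 5 911)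
(mv 1168 (cons (fin 1231 5 975)
(mv 1169 (cons (fin 1105 4 912)
(fin 1233 4 976)))))))))))
(cons (mv 1103 (cons (fin 1167 5 911)
(mv 848 (cons (fin 1039 5 847)
(mv 783 (cons (fin 847 7 783)
(mv 784 (cons (fin 719 7 719)
(mv 785 (cons (fin 721 6 720)
(fin 849 6 784)))))))))))
(mv 849 (cons (fin 913 6 848)
(mv 785 (cons (fin 848 6 784)
(mv 1169 (cons (fin 1105 4 912)
(mv 1168 (cons (fin 1233 4 976)
(mv 1231 (cons (fin 1167 5 975)
(mv 1232 (cons (fin 1295 5 1039)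
(mv 975 (cons (fin 1039 7 975)
(mv 909 (cons (fin 977 3 909)
(mv 908 (cons (fin 973 3 908)
(fin 907 0 907)))))))))))))))))))))
(cons (mv 849 (cons (fin 913 6 848)
(mv 848 (cons (fin 785 6 784)
(mv 783 (cons (fin 847 7 783)
(mv 719 (cons (fin 784 7 719)
(mv 1039 (cons (fin 1103 5 847)
(mv 1169 (cons (fin 1105 4 912)
(mv 1168 (cons (fin 1233 4 976)
(mv 975 (cons (fin 1232 7 975)
(mv 909 (cons (fin 977 3 909)
(mv 908 (cons (fin 973 3 908)
(fin 907 0 907)))))))))))))))))))))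
(cons (mv 1103 (cons (fin 1167 5 911)
(mv 848 (cons (fin 1039 5 847)
(mv 783 (cons (fin 847 7 783)
(mv 719 (cons (fin 784 7 719)
(mv 1169 (cons (fin 1105 4 912)
(mv 1168 (cons (fin 1233 4 976)
(mv 977 (cons (fin 913 6 912)
(mv 909 (cons (fin 975 3 909)
(mv 1102 (cons (fin 1101 0 1101)
(mv 1038 (cons (fin 845 7 845)
(mv 1166 (cons (fin 973 7 909)
(mv 1229 (cons (fin 1165 5 973)
(mv 1230 (cons (fin 1293 5 1037)
(mv 1231 (cons (fin 1232 2 1165)
(fin 1295 4 1038)))))))))))))))))))))))))))))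
(mv 849 (cons (fin 913 6 848)
(mv 1167 (cons (fin 1103 5 911)
(mv 1168 (cons (fin 1231 5 975)
(mv 1169 (cons (fin 1105 4 912)
(fin 1233 4 976)))))))))))))
(mv 848 (cons (cons (mv 783 (cons (fin 847 7 783)
(mv 719 (cons (fin 784 7 719)
(mv 785 (cons (fin 849 6 784)
(mv 1103 (cons (fin 1039 5 847)
(mv 1104 (cons (fin 1167 5 911)
(mv 1169 (cons (fin 1105 4 912)
(mv 1168 (cons (fin 1233 4 976)
(mv 911 (cons (fin 975 7 911)
(mv 909 (cons (fin 977 0 909)
(mv 845 (cons (fin 844 3 844)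
(mv 1102 (cons (fin 1101 0 1101)
(fin 1038 7 845)))))))))))))))))))))))
(cons (mv 785 (cons (fin 849 6 784)
(mv 721 (cons (fin 784 6 720)
(mv 1103 (cons (fin 1039 5 847)
(mv 1104 (cons (fin 1167 5 911)
(mv 1169 (cons (fin 1105 4 912)
(mv 1168 (cons (fin 1233 4 976)
(mv 911 (cons (fin 975 7 911)
(mv 909 (cons (fin 977 0 909)
(mv 845 (cons (fin 844 3 844)
(mv 1102 (cons (fin 1101 0 1101)
(fin 1038 7 845)))))))))))))))))))))
(mv 783 (cons (fin 847 7 783)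
(mv 719 (cons (fin 784 7 719)
(mv 849 (cons (fin 785 6 784)
(mv 909 (cons (fin 911 2 845)
(mv 975 (cons (fin 977 3 909)
(mv 908 (cons (fin 973 3 908)
(fin 907 0 907)))))))))))))))
(cons (mv 783 (cons (fin 847 7 783)
(mv 719 (cons (fin 784 7 719)
(mv 1103 (cons (fin 1039 5 847)
(mv 1104 (cons (fin 1167 5 911)
(mv 1169 (cons (fin 1105 4 912)
(mv 1168 (cons (fin 1233 4 976)
(mv 911 (cons (fin 975 7 911)
(mv 909 (cons (fin 977 0 909)
(mv 845 (cons (fin 844 3 844)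
(mv 1102 (cons (fin 1101 0 1101)
(fin 1038 7 845)))))))))))))))))))))
(cons (mv 783 (cons (fin 847 7 783)
(mv 784 (cons (fin 719 7 719)
(mv 785 (cons (fin 721 6 720)
(fin 849 6 784)))))))
(mv 783 (cons (fin 847 7 783)
(mv 785 (cons (fin 849 6 784)
(mv 1103 (cons (fin 1039 5 847)
(mv 1104 (cons (fin 1167 5 911)
(mv 1169 (cons (fin 1105 4 912)
(mv 1168 (cons (fin 1233 4 976)
(mv 911 (cons (fin 975 7 911)
(mv 909 (cons (fin 977 0 909)
(mv 845 (cons (fin 844 3 844)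
(mv 1102 (cons (fin 1101 0 1101)
(fin 1038 7 845)))))))))))))))))))))))))))
(cons (cons (mv 1104 (cons (cons (mv 847 (cons (fin 911 7 847)
(mv 849 (cons (fin 913 6 848)
(mv 1167 (cons (fin 1103 5 911)
(mv 1168 (cons (fin 1231 5 975)
(mv 1169 (cons (fin 1105 4 912)
(fin 1233 4 976)))))))))))
(cons (mv 849 (cons (fin 913 6 848)
(mv 1167 (cons (fin 1103 5 911)
(mv 1168 (cons (fin 1231 5 975)
(mv 1169 (cons (fin 1105 4 912)
(fin 1233 4 976)))))))))
(mv 847 (cons (fin 911 7 847)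
(mv 1167 (cons (fin 1103 5 911)
(mv 1168 (cons (fin 1231 5 975)
(mv 1169 (cons (fin 1105 4 912)
(fin 1233 4 976)))))))))))
(cons (mv 847 (cons (fin 911 7 847)
(mv 913 (cons (fin 849 6 848)
(mv 973 (cons (fin 975 2 909)
(mv 1168 (cons (fin 977 6 912)
(mv 1169 (cons (fin 1105 4 912)
(fin 1233 4 976)))))))))))
(cons (mv 847 (cons (fin 911 7 847)
(mv 913 (cons (fin 849 6 848)
(mv 973 (cons (fin 975 2 909)
(mv 1167 (cons (fin 1103 5 911)
(mv 1168 (cons (fin 1231 5 975)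
(fin 977 6 912)))))))))))
(mv 847 (cons (fin 911 7 847)
(mv 913 (cons (fin 849 6 848)
(mv 975 (cons (fin 973 2 909)
(mv 914 (cons (fin 915 1 911)
(fin 977 2 910)))))))))))))
(mv 1104 (cons (cons (mv 847 (cons (fin 911 7 847)
(mv 783 (cons (fin 848 7 783)
(mv 849 (cons (fin 913 6 848)
(mv 1167 (cons (fin 1103 5 911)
(mv 1168 (cons (fin 1231 5 975)
(mv 1169 (cons (fin 1105 4 912)
(fin 1233 4 976)))))))))))))
(cons (mv 849 (cons (fin 913 6 848)
(mv 785 (cons (fin 848 6 784)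
(mv 1167 (cons (fin 1103 5 911)
(mv 1168 (cons (fin 1231 5 975)
(mv 1169 (cons (fin 1105 4 912)
(fin 1233 4 976)))))))))))
(mv 847 (cons (fin 911 7 847)
(mv 783 (cons (fin 848 7 783)
(mv 1167 (cons (fin 1103 5 911)
(mv 1168 (cons (fin 1231 5 975)
(mv 1169 (cons (fin 1105 4 912)
(fin 1233 4 976)))))))))))))
(cons (cons (mv 847 (cons (fin 911 7 847)
(mv 783 (cons (fin 848 7 783)
(mv 913 (cons (fin 849 6 848)
(mv 1168 (cons (fin 977 6 912)
(mv 1169 (cons (fin 1105 4 912)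
(fin 1233 4 976)))))))))))
(mv 847 (cons (fin 911 7 847)
(mv 783 (cons (fin 848 7 783)
(mv 913 (cons (fin 849 6 848)
(mv 1167 (cons (fin 1103 5 911)
(mv 1168 (cons (fin 1231 5 975)
(fin 977 6 912))))))))))))
(cons (mv 847 (cons (fin 911 7 847)
(mv 849 (cons (fin 913 6 848)
(mv 1167 (cons (fin 1103 5 911)
(mv 1168 (cons (fin 1231 5 975)
(mv 1169 (cons (fin 1105 4 912)
(fin 1233 4 976)))))))))))
(mv 847 (cons (fin 911 7 847)
(mv 848 (cons (fin 783 7 783)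
(mv 849 (cons (fin 785 6 784)
(fin 913 6 848))))))))))))
(cons (mv 1104 (cons (cons (mv 847 (cons (fin 911 7 847)
(mv 783 (cons (fin 848 7 783)
(mv 849 (cons (fin 913 6 848)
(mv 1167 (cons (fin 1103 5 911)
(mv 1168 (cons (fin 1231 5 975)
(mv 1169 (cons (fin 1105 4 912)
(fin 1233 4 976)))))))))))))
(cons (mv 849 (cons (fin 913 6 848)
(mv 785 (cons (fin 848 6 784)
(mv 1167 (cons (fin 1103 5 911)
(mv 1168 (cons (fin 1231 5 975)
(mv 1169 (cons (fin 1105 4 912)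
(fin 1233 4 976)))))))))))
(mv 847 (cons (fin 911 7 847)
(mv 783 (cons (fin 848 7 783)
(mv 1167 (cons (fin 1103 5 911)
(mv 1168 (cons (fin 1231 5 975)
(mv 1169 (cons (fin 1105 4 912)
(fin 1233 4 976)))))))))))))
(cons (mv 847 (cons (fin 911 7 847)
(mv 783 (cons (fin 848 7 783)
(mv 913 (cons (fin 849 6 848)
(mv 975 (cons (fin 973 2 909)
(mv 914 (cons (fin 915 1 911)
(mv 1169 (cons (fin 1105 4 912)
(mv 1168 (cons (fin 1233 4 976)
(mv 1231 (cons (fin 1167 5 975)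
(mv 1232 (cons (fin 1039 7 975)
(fin 1295 5 1039)))))))))))))))))))
(cons (mv 847 (cons (fin 911 7 847)
(mv 848 (cons (fin 783 7 783)
(mv 849 (cons (fin 785 6 784)
(fin 913 6 848)))))))
(mv 847 (cons (fin 911 7 847)
(mv 849 (cons (fin 913 6 848)
(mv 1167 (cons (fin 1103 5 911)
(mv 1168 (cons (fin 1231 5 975)
(mv 1169 (cons (fin 1105 4 912)
(fin 1233 4 976)))))))))))))))
(cons (mv 913 (cons (mv 973 (cons (fin 911 1 909)
(fin 975 2 909)))
(mv 849 (cons (fin 1104 6 848)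
(mv 785 (cons (fin 721 5 720)
(fin 977 5 784)))))))
(mv 911 (cons (mv 847 (cons (fin 1104 7 847)
(mv 783 (cons (fin 848 7 783)
(fin 719 5 718)))))
(mv 909 (cons (fin 977 0 909)
(mv 844 (cons (fin 845 3 844)
(mv 908 (cons (fin 843 3 843)
(fin 975 0 908)))))))))))))))))))
(mv 1038 (cons (cons (mv 846 (cons (cons (mv 781 (cons (fin 845 7 781)
(mv 717 (cons (fin 782 7 717)
(mv 783 (cons (fin 847 6 782)
(mv 1101 (cons (fin 1037 5 845)
(mv 1102 (cons (fin 1165 5 909)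
(mv 1103 (cons (fin 1039 4 846)
(fin 1167 4 910)))))))))))))
(cons (mv 781 (cons (fin 845 7 781)
(mv 717 (cons (fin 782 7 717)
(mv 847 (cons (fin 783 6 782)
(mv 1102 (cons (fin 911 6 846)
(mv 1103 (cons (fin 1039 4 846)
(fin 1167 4 910)))))))))))
(mv 783 (cons (fin 847 6 782)
(mv 719 (cons (fin 782 6 718)
(mv 1101 (cons (fin 1037 5 845)
(mv 1102 (cons (fin 1165 5 909)
(mv 1103 (cons (fin 1039 4 846)
(fin 1167 4 910)))))))))))))
(cons (cons (mv 781 (cons (fin 845 7 781)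
(mv 717 (cons (fin 782 7 717)
(mv 1101 (cons (fin 1037 5 845)
(mv 1102 (cons (fin 1165 5 909)
(mv 1103 (cons (fin 1039 4 846)
(fin 1167 4 910)))))))))))
(mv 781 (cons (fin 845 7 781)
(mv 717 (cons (fin 782 7 717)
(mv 847 (cons (fin 783 6 782)
(mv 1101 (cons (fin 1037 5 845)
(mv 1102 (cons (fin 1165 5 909)
(fin 911 6 846))))))))))))
(cons (mv 781 (cons (fin 845 7 781)
(mv 717 (cons (fin 782 7 717)
(mv 847 (cons (fin 783 6 782)
(mv 1037 (cons (fin 1101 5 845)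
(mv 1039 (cons (fin 1103 4 846)
(mv 972 (cons (fin 973 3 972)
(mv 971 (cons (fin 1036 3 971)
(mv 976 (cons (fin 977 2 973)
(mv 1104 (cons (fin 1105 0 1037)
(mv 912 (cons (fin 911 7 847)
(mv 849 (cons (fin 913 6 848)
(mv 848 (cons (fin 909 1 845)
(fin 785 6 784)))))))))))))))))))))))))
(mv 781 (cons (fin 845 7 781)
(mv 783 (cons (fin 847 6 782)
(mv 1101 (cons (fin 1037 5 845)
(mv 1102 (cons (fin 1165 5 909)
(mv 1103 (cons (fin 1039 4 846)
(fin 1167 4 910)))))))))))))))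
(cons (mv 1102 (cons (cons (mv 845 (cons (fin 909 7 845)
(mv 847 (cons (fin 911 6 846)
(mv 1101 (cons (fin 1165 5 909)
(mv 1103 (cons (fin 1167 4 910)
(mv 1100 (cons (fin 1039 2 1036)
(mv 1035 (cons (fin 1036 3 1035)
(mv 1099 (cons (fin 1034 3 1034)
(mv 1163 (cons (fin 1162 1 1098)
(fin 1164 1 1099)))))))))))))))))
(mv 847 (cons (fin 911 6 846)
(mv 1101 (cons (fin 1165 5 909)
(mv 1103 (cons (fin 1167 4 910)
(mv 1100 (cons (fin 1039 2 1036)
(mv 1035 (cons (fin 1036 3 1035)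
(mv 1099 (cons (fin 1034 3 1034)
(mv 1163 (cons (fin 1162 1 1098)
(fin 1164 1 1099))))))))))))))))
(cons (mv 847 (cons (fin 911 6 846)
(mv 909 (cons (fin 845 7 845)
(mv 1166 (cons (fin 973 7 909)
(mv 1167 (cons (fin 1103 4 910)
(fin 1231 4 974)))))))))
(cons (mv 847 (cons (fin 911 6 846)
(mv 909 (cons (fin 845 7 845)
(mv 1165 (cons (fin 1101 5 909)
(mv 1166 (cons (fin 973 7 909)
(fin 1229 5 973)))))))))
(mv 845 (cons (fin 909 7 845)
(mv 1101 (cons (fin 1165 5 909)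
(mv 1103 (cons (fin 1167 4 910)
(mv 1100 (cons (fin 1039 2 1036)
(mv 1035 (cons (fin 1036 3 1035)
(mv 1099 (cons (fin 1034 3 1034)
(mv 1163 (cons (fin 1162 1 1098)
(fin 1164 1 1099)))))))))))))))))))
(mv 846 (cons (cons (mv 781 (cons (fin 845 7 781)
(mv 717 (cons (fin 782 7 717)
(mv 847 (cons (fin 783 6 782)
(mv 1037 (cons (fin 1101 5 845)
(mv 1039 (cons (fin 1103 4 846)
(mv 972 (cons (fin 973 3 972)
(mv 971 (cons (fin 1036 3 971)
(mv 976 (cons (fin 977 2 973)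
(mv 1104 (cons (fin 1105 0 1037)
(mv 912 (cons (fin 911 7 847)
(mv 849 (cons (fin 913 6 848)
(mv 848 (cons (fin 909 1 845)
(fin 785 6 784)))))))))))))))))))))))))
(mv 781 (cons (fin 845 7 781)
(mv 782 (cons (fin 717 7 717)
(mv 783 (cons (fin 719 6 718)
(fin 847 6 782))))))))
(cons (mv 783 (cons (fin 847 6 782)
(mv 782 (cons (fin 719 6 718)
(mv 1037 (cons (fin 973 5 781)
(fin 1101 5 845)))))))
(cons (mv 781 (cons (fin 845 7 781)
(mv 782 (cons (fin 717 7 717)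
(mv 1037 (cons (fin 973 5 781)
(fin 1101 5 845)))))))
(mv 781 (cons (fin 845 7 781)
(mv 847 (cons (fin 783 6 782)
(mv 1037 (cons (fin 1101 5 845)
(mv 1039 (cons (fin 1103 4 846)
(mv 972 (cons (fin 973 3 972)
(mv 971 (cons (fin 1036 3 971)
(mv 976 (cons (fin 977 2 973)
(mv 1104 (cons (fin 1105 0 1037)
(mv 912 (cons (fin 911 7 847)
(mv 849 (cons (fin 913 6 848)
(mv 848 (cons (fin 909 1 845)
(fin 785 6 784)))))))))))))))))))))))))))))
(cons (cons (mv 846 (cons (cons (mv 781 (cons (fin 845 7 781)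
(mv 717 (cons (fin 782 7 717)
(mv 847 (cons (fin 783 6 782)
(mv 1102 (cons (fin 911 6 846)
(mv 1103 (cons (fin 1039 4 846)
(fin 1167 4 910)))))))))))
(cons (mv 783 (cons (fin 847 6 782)
(mv 782 (cons (fin 719 6 718)
(mv 717 (cons (fin 781 7 717)
(mv 718 (cons (fin 653 7 653)
(mv 973 (cons (fin 909 5 717)
(fin 1037 5 781)))))))))))
(mv 781 (cons (fin 845 7 781)
(mv 782 (cons (fin 717 7 717)
(mv 719 (cons (fin 783 6 718)
(mv 718 (cons (fin 655 6 654)
(mv 973 (cons (fin 909 5 717)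
(fin 1037 5 781)))))))))))))
(cons (mv 783 (cons (fin 847 6 782)
(mv 782 (cons (fin 719 6 718)
(mv 973 (cons (fin 1037 5 781)
(mv 909 (cons (fin 718 5 717)
(mv 1102 (cons (fin 845 7 845)
(fin 1166 7 909)))))))))))
(cons (mv 781 (cons (fin 845 7 781)
(mv 782 (cons (fin 717 7 717)
(mv 973 (cons (fin 1037 5 781)
(mv 909 (cons (fin 718 5 717)
(mv 1039 (cons (fin 1103 4 846)
(mv 972 (cons (fin 971 0 971)
(mv 911 (cons (fin 912 1 908)
(mv 1102 (cons (fin 1166 7 909)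
(fin 847 6 846)))))))))))))))))
(mv 781 (cons (fin 845 7 781)
(mv 847 (cons (fin 783 6 782)
(mv 1102 (cons (fin 911 6 846)
(mv 1103 (cons (fin 1039 4 846)
(fin 1167 4 910)))))))))))))
(mv 1102 (cons (cons (mv 847 (cons (fin 911 6 846)
(mv 783 (cons (fin 846 6 782)
(mv 1101 (cons (fin 1165 5 909)
(mv 1103 (cons (fin 1167 4 910)
(mv 1100 (cons (fin 1039 2 1036)
(mv 1035 (cons (fin 1036 3 1035)
(mv 1099 (cons (fin 1034 3 1034)
(mv 1163 (cons (fin 1162 1 1098)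
(fin 1164 1 1099)))))))))))))))))
(cons (mv 847 (cons (fin 911 6 846)
(mv 783 (cons (fin 846 6 782)
(mv 1167 (cons (fin 1103 4 910)
(mv 1166 (cons (fin 1231 4 974)
(mv 973 (cons (fin 909 7 909)
(mv 1229 (cons (fin 1165 5 973)
(mv 1230 (cons (fin 1037 7 973)
(fin 1293 5 1037)))))))))))))))
(mv 847 (cons (fin 911 6 846)
(mv 783 (cons (fin 846 6 782)
(mv 1165 (cons (fin 1101 5 909)
(mv 1166 (cons (fin 1229 5 973)
(mv 973 (cons (fin 909 7 909)
(mv 1230 (cons (fin 1037 7 973)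
(mv 1231 (cons (fin 1167 4 974)
(fin 1295 4 1038)))))))))))))))))
(cons (cons (mv 847 (cons (fin 911 6 846)
(mv 846 (cons (fin 783 6 782)
(mv 1103 (cons (fin 1039 4 846)
(fin 1167 4 910)))))))
(mv 847 (cons (fin 911 6 846)
(mv 783 (cons (fin 846 6 782)
(mv 1165 (cons (fin 1101 5 909)
(mv 1166 (cons (fin 1229 5 973)
(mv 973 (cons (fin 909 7 909)
(mv 1037 (cons (fin 1230 7 973)
(mv 972 (cons (fin 1039 3 972)
(mv 971 (cons (fin 970 0 970)
(mv 906 (cons (fin 907 3 906)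
(mv 1035 (cons (fin 1034 1 970)
(mv 1036 (cons (fin 1103 0 1035)
(mv 1099 (cons (fin 1098 1 1034)
(mv 908 (cons (fin 844 5 843)
(fin 1163 6 907))))))))))))))))))))))))))))
(cons (mv 1101 (cons (fin 1165 5 909)
(mv 846 (cons (fin 1037 5 845)
(mv 1103 (cons (fin 1039 4 846)
(fin 1167 4 910)))))))
(mv 847 (cons (fin 911 6 846)
(mv 1101 (cons (fin 1165 5 909)
(mv 1103 (cons (fin 1167 4 910)
(mv 1100 (cons (fin 1039 2 1036)
(mv 1035 (cons (fin 1036 3 1035)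
(mv 1099 (cons (fin 1034 3 1034)
(mv 1163 (cons (fin 1162 1 1098)
(fin 1164 1 1099))))))))))))))))))))
(cons (mv 846 (cons (cons (mv 781 (cons (fin 845 7 781)
(mv 717 (cons (fin 782 7 717)
(mv 847 (cons (fin 783 6 782)
(mv 1101 (cons (fin 1037 5 845)
(mv 1102 (cons (fin 1165 5 909)
(fin 911 6 846)))))))))))
(mv 781 (cons (fin 845 7 781)
(mv 782 (cons (fin 717 7 717)
(mv 783 (cons (fin 719 6 718)
(fin 847 6 782))))))))
(cons (mv 783 (cons (fin 847 6 782)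
(mv 782 (cons (fin 719 6 718)
(mv 1037 (cons (fin 973 5 781)
(fin 1101 5 845)))))))
(cons (mv 781 (cons (fin 845 7 781)
(mv 782 (cons (fin 717 7 717)
(mv 1037 (cons (fin 973 5 781)
(fin 1101 5 845)))))))
(mv 781 (cons (fin 845 7 781)
(mv 847 (cons (fin 783 6 782)
(mv 1101 (cons (fin 1037 5 845)
(mv 1102 (cons (fin 1165 5 909)
(fin 911 6 846)))))))))))))
(mv 1102 (cons (cons (mv 845 (cons (fin 909 7 845)
(mv 781 (cons (fin 846 7 781)
(mv 1101 (cons (fin 1165 5 909)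
(mv 1103 (cons (fin 1167 4 910)
(mv 1100 (cons (fin 1039 2 1036)
(mv 1035 (cons (fin 1036 3 1035)
(mv 1099 (cons (fin 1034 3 1034)
(mv 1163 (cons (fin 1162 1 1098)
(fin 1164 1 1099)))))))))))))))))
(mv 845 (cons (fin 909 7 845)
(mv 846 (cons (fin 781 7 781)
(mv 1103 (cons (fin 1039 4 846)
(fin 1167 4 910))))))))
(cons (mv 845 (cons (fin 909 7 845)
(mv 846 (cons (fin 781 7 781)
(mv 1101 (cons (fin 1037 5 845)
(fin 1165 5 909)))))))
(cons (mv 1101 (cons (fin 1165 5 909)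
(mv 846 (cons (fin 1037 5 845)
(mv 1103 (cons (fin 1039 4 846)
(fin 1167 4 910)))))))
(mv 845 (cons (fin 909 7 845)
(mv 1101 (cons (fin 1165 5 909)
(mv 1103 (cons (fin 1167 4 910)
(mv 1100 (cons (fin 1039 2 1036)
(mv 1035 (cons (fin 1036 3 1035)
(mv 1099 (cons (fin 1034 3 1034)
(mv 1163 (cons (fin 1162 1 1098)
(fin 1164 1 1099)))))))))))))))))))))))))
(cons (cons (mv 1038 (cons (cons (cons (mv 846 (cons (cons (mv 781 (cons (fin 845 7 781)
(mv 717 (cons (fin 782 7 717)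
(mv 783 (cons (fin 847 6 782)
(mv 1037 (cons (fin 1101 5 845)
(mv 1039 (cons (fin 1103 4 846)
(mv 976 (cons (fin 977 2 973)
(mv 975 (cons (fin 1036 2 972)
(mv 1104 (cons (fin 1105 0 1037)
(mv 1168 (cons (fin 911 7 911)
(fin 1232 7 975)))))))))))))))))))
(cons (mv 781 (cons (fin 845 7 781)
(mv 717 (cons (fin 782 7 717)
(mv 847 (cons (fin 783 6 782)
(mv 1101 (cons (fin 1037 5 845)
(mv 1102 (cons (fin 1165 5 909)
(fin 911 6 846)))))))))))
(mv 781 (cons (fin 845 7 781)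
(mv 717 (cons (fin 782 7 717)
(mv 1037 (cons (fin 1101 5 845)
(mv 1039 (cons (fin 1103 4 846)
(mv 976 (cons (fin 977 2 973)
(mv 975 (cons (fin 1036 2 972)
(mv 1104 (cons (fin 1105 0 1037)
(mv 1168 (cons (fin 911 7 911)
(fin 1232 7 975)))))))))))))))))))
(cons (cons (mv 783 (cons (fin 847 6 782)
(mv 719 (cons (fin 782 6 718)
(mv 1037 (cons (fin 1101 5 845)
(mv 1039 (cons (fin 1103 4 846)
(mv 976 (cons (fin 977 2 973)
(mv 975 (cons (fin 1036 2 972)
(mv 1104 (cons (fin 1105 0 1037)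
(mv 1168 (cons (fin 911 7 911)
(fin 1232 7 975)))))))))))))))))
(mv 781 (cons (fin 845 7 781)
(mv 717 (cons (fin 782 7 717)
(mv 847 (cons (fin 783 6 782)
(mv 911 (cons (fin 1102 6 846)
(mv 1039 (cons (fin 1103 4 846)
(mv 975 (cons (fin 1104 4 847)
(mv 848 (cons (fin 784 6 783)
(mv 849 (cons (fin 909 1 845)
(fin 850 1 846))))))))))))))))))
(cons (mv 781 (cons (fin 845 7 781)
(mv 783 (cons (fin 847 6 782)
(mv 1037 (cons (fin 1101 5 845)
(mv 1039 (cons (fin 1103 4 846)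
(mv 976 (cons (fin 977 2 973)
(mv 975 (cons (fin 1036 2 972)
(mv 1104 (cons (fin 1105 0 1037)
(mv 1168 (cons (fin 911 7 911)
(fin 1232 7 975)))))))))))))))))
(mv 781 (cons (fin 845 7 781)
(mv 717 (cons (fin 782 7 717)
(mv 783 (cons (fin 847 6 782)
(mv 1037 (cons (fin 1101 5 845)
(mv 1039 (cons (fin 1103 4 846)
(mv 976 (cons (fin 977 2 973)
(mv 1036 (cons (fin 975 2 972)
(mv 971 (cons (fin 972 3 971)
(mv 1035 (cons (fin 970 3 970)
(mv 1099 (cons (fin 1098 1 1034)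
(fin 1100 1 1035)))))))))))))))))))))))))
(mv 1102 (cons (cons (mv 845 (cons (fin 909 7 845)
(mv 847 (cons (fin 911 6 846)
(mv 1101 (cons (fin 1165 5 909)
(mv 1103 (cons (fin 1167 4 910)
(mv 1100 (cons (fin 1039 2 1036)
(mv 1035 (cons (fin 1036 3 1035)
(mv 1099 (cons (fin 1034 3 1034)
(mv 1163 (cons (fin 1162 1 1098)
(fin 1164 1 1099)))))))))))))))))
(mv 845 (cons (fin 909 7 845)
(mv 1101 (cons (fin 1165 5 909)
(mv 1103 (cons (fin 1167 4 910)
(mv 1100 (cons (fin 1039 2 1036)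
(mv 1035 (cons (fin 1036 3 1035)
(mv 1099 (cons (fin 1034 3 1034)
(mv 1163 (cons (fin 1162 1 1098)
(fin 1164 1 1099))))))))))))))))
(cons (mv 845 (cons (fin 909 7 845)
(mv 911 (cons (fin 847 6 846)
(mv 1165 (cons (fin 1101 5 909)
(mv 1166 (cons (fin 1229 5 973)
(fin 975 6 910)))))))))
(cons (mv 845 (cons (fin 909 7 845)
(mv 911 (cons (fin 847 6 846)
(mv 1166 (cons (fin 975 6 910)
(mv 1167 (cons (fin 1103 4 910)
(fin 1231 4 974)))))))))
(mv 847 (cons (fin 911 6 846)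
(mv 1101 (cons (fin 1165 5 909)
(mv 1103 (cons (fin 1167 4 910)
(mv 1100 (cons (fin 1039 2 1036)
(mv 1035 (cons (fin 1036 3 1035)
(mv 1099 (cons (fin 1034 3 1034)
(mv 1163 (cons (fin 1162 1 1098)
(fin 1164 1 1099))))))))))))))))))))
(cons (mv 846 (cons (cons (mv 781 (cons (fin 845 7 781)
(mv 717 (cons (fin 782 7 717)
(mv 783 (cons (fin 847 6 782)
(mv 1037 (cons (fin 1101 5 845)
(mv 1039 (cons (fin 1103 4 846)
(mv 976 (cons (fin 977 2 973)
(mv 975 (cons (fin 1036 2 972)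
(mv 1104 (cons (fin 1105 0 1037)
(mv 1168 (cons (fin 911 7 911)
(fin 1232 7 975)))))))))))))))))))
(cons (mv 781 (cons (fin 845 7 781)
(mv 782 (cons (fin 717 7 717)
(mv 783 (cons (fin 719 6 718)
(fin 847 6 782)))))))
(mv 781 (cons (fin 845 7 781)
(mv 717 (cons (fin 782 7 717)
(mv 1037 (cons (fin 1101 5 845)
(mv 1039 (cons (fin 1103 4 846)
(mv 976 (cons (fin 977 2 973)
(mv 975 (cons (fin 1036 2 972)
(mv 1104 (cons (fin 1105 0 1037)
(mv 911 (cons (fin 1168 7 911)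
(fin 847 4 847)))))))))))))))))))
(cons (mv 783 (cons (fin 847 6 782)
(mv 719 (cons (fin 782 6 718)
(mv 1037 (cons (fin 1101 5 845)
(mv 1039 (cons (fin 1103 4 846)
(mv 976 (cons (fin 977 2 973)
(mv 975 (cons (fin 1036 2 972)
(mv 1104 (cons (fin 1105 0 1037)
(mv 1168 (cons (fin 911 7 911)
(fin 1232 7 975)))))))))))))))))
(cons (mv 781 (cons (fin 845 7 781)
(mv 717 (cons (fin 782 7 717)
(mv 1037 (cons (fin 1101 5 845)
(mv 1039 (cons (fin 1103 4 846)
(mv 976 (cons (fin 977 2 973)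
(mv 975 (cons (fin 1036 2 972)
(mv 1104 (cons (fin 1105 0 1037)
(mv 1168 (cons (fin 911 7 911)
(fin 1232 7 975)))))))))))))))))
(mv 781 (cons (fin 845 7 781)
(mv 783 (cons (fin 847 6 782)
(mv 1037 (cons (fin 1101 5 845)
(mv 1039 (cons (fin 1103 4 846)
(mv 976 (cons (fin 977 2 973)
(mv 975 (cons (fin 1036 2 972)
(mv 1104 (cons (fin 1105 0 1037)
(mv 1168 (cons (fin 911 7 911)
(fin 1232 7 975)))))))))))))))))))))
(mv 846 (cons (cons (mv 781 (cons (fin 845 7 781)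
(mv 717 (cons (fin 782 7 717)
(mv 847 (cons (fin 783 6 782)
(mv 1101 (cons (fin 1037 5 845)
(mv 1102 (cons (fin 1165 5 909)
(fin 911 6 846)))))))))))
(cons (mv 781 (cons (fin 845 7 781)
(mv 782 (cons (fin 717 7 717)
(mv 719 (cons (fin 783 6 718)
(mv 718 (cons (fin 655 6 654)
(mv 975 (cons (fin 911 4 718)
(fin 1039 4 782)))))))))))
(mv 783 (cons (fin 847 6 782)
(mv 782 (cons (fin 719 6 718)
(mv 717 (cons (fin 781 7 717)
(mv 718 (cons (fin 653 7 653)
(mv 975 (cons (fin 911 4 718)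
(fin 1039 4 782)))))))))))))
(cons (cons (mv 781 (cons (fin 845 7 781)
(mv 782 (cons (fin 717 7 717)
(mv 975 (cons (fin 1039 4 782)
(mv 911 (cons (fin 718 4 718)
(mv 1102 (cons (fin 847 6 846)
(fin 1166 6 910)))))))))))
(mv 783 (cons (fin 847 6 782)
(mv 782 (cons (fin 719 6 718)
(mv 975 (cons (fin 1039 4 782)
(mv 911 (cons (fin 718 4 718)
(mv 1037 (cons (fin 1101 5 845)
(mv 976 (cons (fin 977 1 973)
(mv 909 (cons (fin 908 0 908)
(mv 1102 (cons (fin 845 7 845)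
(fin 1166 6 910))))))))))))))))))
(cons (mv 781 (cons (fin 845 7 781)
(mv 847 (cons (fin 783 6 782)
(mv 1101 (cons (fin 1037 5 845)
(mv 1102 (cons (fin 1165 5 909)
(fin 911 6 846)))))))))
(mv 781 (cons (fin 845 7 781)
(mv 782 (cons (fin 717 7 717)
(mv 783 (cons (fin 719 6 718)
(fin 847 6 782)))))))))))))
(cons (cons (mv 1102 (cons (cons (mv 845 (cons (fin 909 7 845)
(mv 781 (cons (fin 846 7 781)
(mv 1101 (cons (fin 1165 5 909)
(mv 1103 (cons (fin 1167 4 910)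
(mv 1100 (cons (fin 1039 2 1036)
(mv 1035 (cons (fin 1036 3 1035)
(mv 1099 (cons (fin 1034 3 1034)
(mv 1163 (cons (fin 1162 1 1098)
(fin 1164 1 1099)))))))))))))))))
(cons (mv 845 (cons (fin 909 7 845)
(mv 781 (cons (fin 846 7 781)
(mv 1165 (cons (fin 1101 5 909)
(mv 1166 (cons (fin 1229 5 973)
(mv 975 (cons (fin 911 6 910)
(mv 1230 (cons (fin 1039 6 974)
(mv 1231 (cons (fin 1167 4 974)
(fin 1295 4 1038)))))))))))))))
(mv 845 (cons (fin 909 7 845)
(mv 781 (cons (fin 846 7 781)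
(mv 1167 (cons (fin 1103 4 910)
(mv 1166 (cons (fin 1231 4 974)
(mv 975 (cons (fin 911 6 910)
(mv 1229 (cons (fin 1165 5 973)
(mv 1230 (cons (fin 1293 5 1037)
(fin 1039 6 974)))))))))))))))))
(cons (cons (mv 845 (cons (fin 909 7 845)
(mv 846 (cons (fin 781 7 781)
(mv 1101 (cons (fin 1037 5 845)
(fin 1165 5 909)))))))
(mv 845 (cons (fin 909 7 845)
(mv 846 (cons (fin 781 7 781)
(mv 1103 (cons (fin 1039 4 846)
(fin 1167 4 910))))))))
(cons (mv 1101 (cons (fin 1165 5 909)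
(mv 846 (cons (fin 1037 5 845)
(mv 1103 (cons (fin 1039 4 846)
(fin 1167 4 910)))))))
(mv 845 (cons (fin 909 7 845)
(mv 1101 (cons (fin 1165 5 909)
(mv 1103 (cons (fin 1167 4 910)
(mv 1100 (cons (fin 1039 2 1036)
(mv 1035 (cons (fin 1036 3 1035)
(mv 1099 (cons (fin 1034 3 1034)
(mv 1163 (cons (fin 1162 1 1098)
(fin 1164 1 1099)))))))))))))))))))
(mv 846 (cons (cons (mv 781 (cons (fin 845 7 781)
(mv 717 (cons (fin 782 7 717)
(mv 847 (cons (fin 783 6 782)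
(mv 911 (cons (fin 1102 6 846)
(mv 1039 (cons (fin 1103 4 846)
(mv 975 (cons (fin 1104 4 847)
(mv 848 (cons (fin 784 6 783)
(mv 849 (cons (fin 909 1 845)
(fin 850 1 846)))))))))))))))))
(mv 781 (cons (fin 845 7 781)
(mv 782 (cons (fin 717 7 717)
(mv 1039 (cons (fin 975 4 782)
(fin 1103 4 846))))))))
(cons (mv 781 (cons (fin 845 7 781)
(mv 782 (cons (fin 717 7 717)
(mv 783 (cons (fin 719 6 718)
(fin 847 6 782)))))))
(cons (mv 783 (cons (fin 847 6 782)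
(mv 782 (cons (fin 719 6 718)
(mv 1039 (cons (fin 975 4 782)
(fin 1103 4 846)))))))
(mv 781 (cons (fin 845 7 781)
(mv 847 (cons (fin 783 6 782)
(mv 911 (cons (fin 1102 6 846)
(mv 1039 (cons (fin 1103 4 846)
(mv 975 (cons (fin 1104 4 847)
(mv 848 (cons (fin 784 6 783)
(mv 849 (cons (fin 909 1 845)
(fin 850 1 846))))))))))))))))))))
(cons (mv 1102 (cons (cons (mv 847 (cons (fin 911 6 846)
(mv 783 (cons (fin 846 6 782)
(mv 1101 (cons (fin 1165 5 909)
(mv 1103 (cons (fin 1167 4 910)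
(mv 1100 (cons (fin 1039 2 1036)
(mv 1035 (cons (fin 1036 3 1035)
(mv 1099 (cons (fin 1034 3 1034)
(mv 1163 (cons (fin 1162 1 1098)
(fin 1164 1 1099)))))))))))))))))
(mv 847 (cons (fin 911 6 846)
(mv 846 (cons (fin 783 6 782)
(mv 1101 (cons (fin 1037 5 845)
(fin 1165 5 909))))))))
(cons (mv 847 (cons (fin 911 6 846)
(mv 846 (cons (fin 783 6 782)
(mv 1103 (cons (fin 1039 4 846)
(fin 1167 4 910)))))))
(cons (mv 1101 (cons (fin 1165 5 909)
(mv 846 (cons (fin 1037 5 845)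
(mv 1103 (cons (fin 1039 4 846)
(fin 1167 4 910)))))))
(mv 847 (cons (fin 911 6 846)
(mv 1101 (cons (fin 1165 5 909)
(mv 1103 (cons (fin 1167 4 910)
(mv 1100 (cons (fin 1039 2 1036)
(mv 1035 (cons (fin 1036 3 1035)
(mv 1099 (cons (fin 1034 3 1034)
(mv 1163 (cons (fin 1162 1 1098)
(fin 1164 1 1099)))))))))))))))))))
(cons (mv 1102 (cons (cons (mv 845 (cons (fin 909 7 845)
(mv 781 (cons (fin 846 7 781)
(mv 847 (cons (fin 911 6 846)
(mv 1165 (cons (fin 1101 5 909)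
(mv 1166 (cons (fin 1229 5 973)
(mv 1167 (cons (fin 1103 4 910)
(fin 1231 4 974)))))))))))))
(cons (mv 845 (cons (fin 909 7 845)
(mv 781 (cons (fin 846 7 781)
(mv 1165 (cons (fin 1101 5 909)
(mv 1166 (cons (fin 1229 5 973)
(mv 1167 (cons (fin 1103 4 910)
(fin 1231 4 974)))))))))))
(mv 845 (cons (fin 909 7 845)
(mv 781 (cons (fin 846 7 781)
(mv 911 (cons (fin 847 6 846)
(mv 1166 (cons (fin 975 6 910)
(mv 1167 (cons (fin 1103 4 910)
(fin 1231 4 974)))))))))))))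
(cons (cons (mv 845 (cons (fin 909 7 845)
(mv 781 (cons (fin 846 7 781)
(mv 911 (cons (fin 847 6 846)
(mv 1165 (cons (fin 1101 5 909)
(mv 1166 (cons (fin 1229 5 973)
(fin 975 6 910)))))))))))
(mv 847 (cons (fin 911 6 846)
(mv 783 (cons (fin 846 6 782)
(mv 1165 (cons (fin 1101 5 909)
(mv 1166 (cons (fin 1229 5 973)
(mv 1167 (cons (fin 1103 4 910)
(fin 1231 4 974))))))))))))
(cons (mv 845 (cons (fin 909 7 845)
(mv 847 (cons (fin 911 6 846)
(mv 1165 (cons (fin 1101 5 909)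
(mv 1166 (cons (fin 1229 5 973)
(mv 1167 (cons (fin 1103 4 910)
(fin 1231 4 974)))))))))))
(mv 845 (cons (fin 909 7 845)
(mv 846 (cons (fin 781 7 781)
(mv 847 (cons (fin 783 6 782)
(fin 911 6 846)))))))))))
(mv 846 (cons (cons (mv 781 (cons (fin 845 7 781)
(mv 717 (cons (fin 782 7 717)
(mv 783 (cons (fin 847 6 782)
(mv 1037 (cons (fin 1101 5 845)
(mv 1039 (cons (fin 1103 4 846)
(mv 976 (cons (fin 977 2 973)
(mv 1036 (cons (fin 975 2 972)
(mv 971 (cons (fin 972 3 971)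
(mv 1035 (cons (fin 970 3 970)
(mv 1099 (cons (fin 1098 1 1034)
(fin 1100 1 1035)))))))))))))))))))))
(mv 781 (cons (fin 845 7 781)
(mv 782 (cons (fin 717 7 717)
(mv 783 (cons (fin 719 6 718)
(fin 847 6 782))))))))
(cons (mv 783 (cons (fin 847 6 782)
(mv 719 (cons (fin 782 6 718)
(mv 1037 (cons (fin 1101 5 845)
(mv 1039 (cons (fin 1103 4 846)
(mv 976 (cons (fin 977 2 973)
(mv 1036 (cons (fin 975 2 972)
(mv 971 (cons (fin 972 3 971)
(mv 1035 (cons (fin 970 3 970)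
(mv 1099 (cons (fin 1098 1 1034)
(fin 1100 1 1035)))))))))))))))))))
(cons (mv 781 (cons (fin 845 7 781)
(mv 717 (cons (fin 782 7 717)
(mv 1037 (cons (fin 1101 5 845)
(mv 1039 (cons (fin 1103 4 846)
(mv 976 (cons (fin 977 2 973)
(mv 1036 (cons (fin 975 2 972)
(mv 971 (cons (fin 972 3 971)
(mv 1035 (cons (fin 970 3 970)
(mv 1099 (cons (fin 1098 1 1034)
(fin 1100 1 1035)))))))))))))))))))
(mv 781 (cons (fin 845 7 781)
(mv 783 (cons (fin 847 6 782)
(mv 1037 (cons (fin 1101 5 845)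
(mv 1039 (cons (fin 1103 4 846)
(mv 976 (cons (fin 977 2 973)
(mv 1036 (cons (fin 975 2 972)
(mv 971 (cons (fin 972 3 971)
(mv 1035 (cons (fin 970 3 970)
(mv 1099 (cons (fin 1098 1 1034)
(fin 1100 1 1035))))))))))))))))))))))))))))
(mv 846 (cons (cons (cons (mv 1038 (cons (cons (mv 781 (cons (fin 845 7 781)
(mv 717 (cons (fin 782 7 717)
(mv 783 (cons (fin 847 6 782)
(mv 1037 (cons (fin 1101 5 845)
(mv 1039 (cons (fin 1103 4 846)
(mv 972 (cons (fin 973 3 972)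
(mv 976 (cons (fin 977 2 973)
(mv 1036 (cons (fin 971 3 971)
(fin 975 2 972)))))))))))))))))
(mv 781 (cons (fin 845 7 781)
(mv 782 (cons (fin 717 7 717)
(mv 783 (cons (fin 719 6 718)
(fin 847 6 782))))))))
(cons (mv 783 (cons (fin 847 6 782)
(mv 719 (cons (fin 782 6 718)
(mv 1037 (cons (fin 1101 5 845)
(mv 1039 (cons (fin 1103 4 846)
(mv 972 (cons (fin 973 3 972)
(mv 976 (cons (fin 977 2 973)
(mv 1036 (cons (fin 971 3 971)
(fin 975 2 972)))))))))))))))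
(cons (mv 781 (cons (fin 845 7 781)
(mv 717 (cons (fin 782 7 717)
(mv 1037 (cons (fin 1101 5 845)
(mv 1039 (cons (fin 1103 4 846)
(mv 972 (cons (fin 973 3 972)
(mv 976 (cons (fin 977 2 973)
(mv 1036 (cons (fin 971 3 971)
(fin 975 2 972)))))))))))))))
(mv 781 (cons (fin 845 7 781)
(mv 783 (cons (fin 847 6 782)
(mv 1037 (cons (fin 1101 5 845)
(mv 1039 (cons (fin 1103 4 846)
(mv 972 (cons (fin 973 3 972)
(mv 976 (cons (fin 977 2 973)
(mv 1036 (cons (fin 971 3 971)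
(fin 975 2 972)))))))))))))))))))
(mv 782 (cons (cons (mv 717 (cons (fin 781 7 717)
(mv 718 (cons (fin 653 7 653)
(mv 719 (cons (fin 655 6 654)
(fin 783 6 718)))))))
(mv 719 (cons (fin 783 6 718)
(mv 718 (cons (fin 655 6 654)
(mv 973 (cons (fin 909 5 717)
(fin 1037 5 781))))))))
(cons (mv 717 (cons (fin 781 7 717)
(mv 718 (cons (fin 653 7 653)
(mv 973 (cons (fin 909 5 717)
(fin 1037 5 781)))))))
(mv 717 (cons (fin 781 7 717)
(mv 783 (cons (fin 719 6 718)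
(mv 973 (cons (fin 1037 5 781)
(mv 975 (cons (fin 1039 4 782)
(mv 976 (cons (mv 909 (cons (fin 908 3 908)
(fin 977 3 909)))
(mv 912 (cons (fin 913 2 909)
(mv 848 (cons (fin 847 7 783)
(mv 785 (cons (fin 849 6 784)
(mv 784 (cons (fin 845 1 781)
(fin 721 6 720)))))))))))))))))))))))
(cons (mv 1038 (cons (cons (mv 781 (cons (fin 845 7 781)
(mv 783 (cons (fin 847 6 782)
(mv 1037 (cons (fin 1101 5 845)
(mv 1039 (cons (fin 1103 4 846)
(mv 972 (cons (fin 973 3 972)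
(mv 976 (cons (fin 977 2 973)
(mv 1036 (cons (fin 971 3 971)
(fin 975 2 972)))))))))))))))
(mv 783 (cons (fin 847 6 782)
(mv 845 (cons (fin 781 7 781)
(mv 1102 (cons (fin 909 7 845)
(mv 1103 (cons (fin 1039 4 846)
(fin 1167 4 910))))))))))
(cons (mv 783 (cons (fin 847 6 782)
(mv 1037 (cons (fin 1101 5 845)
(mv 1039 (cons (fin 1103 4 846)
(mv 972 (cons (fin 973 3 972)
(mv 976 (cons (fin 977 2 973)
(mv 1036 (cons (fin 971 3 971)
(fin 975 2 972)))))))))))))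
(cons (mv 783 (cons (fin 847 6 782)
(mv 845 (cons (fin 781 7 781)
(mv 1101 (cons (fin 1037 5 845)
(mv 1102 (cons (fin 909 7 845)
(fin 1165 5 909)))))))))
(mv 781 (cons (fin 845 7 781)
(mv 1037 (cons (fin 1101 5 845)
(mv 1039 (cons (fin 1103 4 846)
(mv 972 (cons (fin 973 3 972)
(mv 976 (cons (fin 977 2 973)
(mv 1036 (cons (fin 971 3 971)
(fin 975 2 972)))))))))))))))))
(mv 782 (cons (cons (mv 717 (cons (fin 781 7 717)
(mv 653 (cons (fin 718 7 653)
(mv 783 (cons (fin 719 6 718)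
(mv 1037 (cons (fin 973 5 781)
(mv 1038 (cons (fin 1101 5 845)
(fin 847 6 782)))))))))))
(mv 719 (cons (fin 783 6 718)
(mv 718 (cons (fin 655 6 654)
(mv 973 (cons (fin 909 5 717)
(fin 1037 5 781))))))))
(cons (mv 717 (cons (fin 781 7 717)
(mv 718 (cons (fin 653 7 653)
(mv 973 (cons (fin 909 5 717)
(fin 1037 5 781)))))))
(cons (mv 717 (cons (fin 781 7 717)
(mv 718 (cons (fin 653 7 653)
(mv 719 (cons (fin 655 6 654)
(fin 783 6 718)))))))
(mv 717 (cons (fin 781 7 717)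
(mv 783 (cons (fin 719 6 718)
(mv 1037 (cons (fin 973 5 781)
(mv 1038 (cons (fin 1101 5 845)
(fin 847 6 782)))))))))))))))
(cons (cons (mv 782 (cons (cons (mv 717 (cons (fin 781 7 717)
(mv 653 (cons (fin 718 7 653)
(mv 783 (cons (fin 719 6 718)
(mv 1038 (cons (fin 847 6 782)
(mv 1039 (cons (fin 975 4 782)
(fin 1103 4 846)))))))))))
(cons (mv 719 (cons (fin 783 6 718)
(mv 718 (cons (fin 655 6 654)
(mv 653 (cons (fin 717 7 653)
(mv 654 (cons (fin 589 7 589)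
(mv 909 (cons (fin 845 5 653)
(fin 973 5 717)))))))))))
(mv 717 (cons (fin 781 7 717)
(mv 718 (cons (fin 653 7 653)
(mv 655 (cons (fin 719 6 654)
(mv 654 (cons (fin 591 6 590)
(mv 909 (cons (fin 845 5 653)
(fin 973 5 717)))))))))))))
(cons (mv 719 (cons (fin 783 6 718)
(mv 718 (cons (fin 655 6 654)
(mv 909 (cons (fin 973 5 717)
(mv 845 (cons (fin 654 5 653)
(mv 1038 (cons (fin 781 7 781)
(fin 1102 7 845)))))))))))
(cons (mv 717 (cons (fin 781 7 717)
(mv 718 (cons (fin 653 7 653)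
(mv 909 (cons (fin 973 5 717)
(mv 845 (cons (fin 654 5 653)
(mv 975 (cons (fin 1039 4 782)
(mv 908 (cons (fin 907 0 907)
(mv 847 (cons (fin 848 1 844)
(mv 1038 (cons (fin 1102 7 845)
(fin 783 6 782)))))))))))))))))
(mv 717 (cons (fin 781 7 717)
(mv 783 (cons (fin 719 6 718)
(mv 1038 (cons (fin 847 6 782)
(mv 1039 (cons (fin 975 4 782)
(fin 1103 4 846)))))))))))))
(mv 1038 (cons (cons (mv 783 (cons (fin 847 6 782)
(mv 719 (cons (fin 782 6 718)
(mv 1037 (cons (fin 1101 5 845)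
(mv 1039 (cons (fin 1103 4 846)
(mv 972 (cons (fin 973 3 972)
(mv 976 (cons (fin 977 2 973)
(mv 1036 (cons (fin 971 3 971)
(fin 975 2 972)))))))))))))))
(cons (mv 783 (cons (fin 847 6 782)
(mv 719 (cons (fin 782 6 718)
(mv 1103 (cons (fin 1039 4 846)
(mv 1102 (cons (fin 1167 4 910)
(mv 909 (cons (fin 845 7 845)
(mv 1165 (cons (fin 1101 5 909)
(mv 1166 (cons (fin 973 7 909)
(fin 1229 5 973)))))))))))))))
(mv 783 (cons (fin 847 6 782)
(mv 719 (cons (fin 782 6 718)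
(mv 1101 (cons (fin 1037 5 845)
(mv 1102 (cons (fin 1165 5 909)
(mv 909 (cons (fin 845 7 845)
(mv 1166 (cons (fin 973 7 909)
(mv 1167 (cons (fin 1103 4 910)
(fin 1231 4 974)))))))))))))))))
(cons (cons (mv 783 (cons (fin 847 6 782)
(mv 782 (cons (fin 719 6 718)
(mv 1039 (cons (fin 975 4 782)
(fin 1103 4 846)))))))
(mv 783 (cons (fin 847 6 782)
(mv 782 (cons (fin 719 6 718)
(mv 1037 (cons (fin 973 5 781)
(fin 1101 5 845))))))))
(cons (mv 1037 (cons (fin 1101 5 845)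
(mv 782 (cons (fin 973 5 781)
(mv 1039 (cons (fin 975 4 782)
(fin 1103 4 846)))))))
(mv 783 (cons (fin 847 6 782)
(mv 1037 (cons (fin 1101 5 845)
(mv 1039 (cons (fin 1103 4 846)
(mv 972 (cons (fin 973 3 972)
(mv 976 (cons (fin 977 2 973)
(mv 1036 (cons (fin 971 3 971)
(fin 975 2 972))))))))))))))))))
(cons (mv 1038 (cons (cons (mv 781 (cons (fin 845 7 781)
(mv 717 (cons (fin 782 7 717)
(mv 1037 (cons (fin 1101 5 845)
(mv 1039 (cons (fin 1103 4 846)
(mv 972 (cons (fin 973 3 972)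
(mv 976 (cons (fin 977 2 973)
(mv 1036 (cons (fin 971 3 971)
(fin 975 2 972)))))))))))))))
(mv 781 (cons (fin 845 7 781)
(mv 782 (cons (fin 717 7 717)
(mv 1039 (cons (fin 975 4 782)
(fin 1103 4 846))))))))
(cons (mv 781 (cons (fin 845 7 781)
(mv 782 (cons (fin 717 7 717)
(mv 1037 (cons (fin 973 5 781)
(fin 1101 5 845)))))))
(cons (mv 1037 (cons (fin 1101 5 845)
(mv 782 (cons (fin 973 5 781)
(mv 1039 (cons (fin 975 4 782)
(fin 1103 4 846)))))))
(mv 781 (cons (fin 845 7 781)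
(mv 1037 (cons (fin 1101 5 845)
(mv 1039 (cons (fin 1103 4 846)
(mv 972 (cons (fin 973 3 972)
(mv 976 (cons (fin 977 2 973)
(mv 1036 (cons (fin 971 3 971)
(fin 975 2 972)))))))))))))))))
(mv 1038 (cons (cons (mv 781 (cons (fin 845 7 781)
(mv 717 (cons (fin 782 7 717)
(mv 783 (cons (fin 847 6 782)
(mv 1037 (cons (fin 1101 5 845)
(mv 1039 (cons (fin 1103 4 846)
(mv 976 (cons (fin 977 2 973)
(mv 1036 (cons (fin 975 2 972)
(mv 971 (cons (fin 972 3 971)
(mv 1035 (cons (fin 970 3 970)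
(mv 1099 (cons (fin 1098 1 1034)
(fin 1100 1 1035)))))))))))))))))))))
(mv 781 (cons (fin 845 7 781)
(mv 782 (cons (fin 717 7 717)
(mv 783 (cons (fin 719 6 718)
(fin 847 6 782))))))))
(cons (mv 783 (cons (fin 847 6 782)
(mv 719 (cons (fin 782 6 718)
(mv 1037 (cons (fin 1101 5 845)
(mv 1039 (cons (fin 1103 4 846)
(mv 976 (cons (fin 977 2 973)
(mv 1036 (cons (fin 975 2 972)
(mv 971 (cons (fin 972 3 971)
(mv 1035 (cons (fin 970 3 970)
(mv 1099 (cons (fin 1098 1 1034)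
(fin 1100 1 1035)))))))))))))))))))
(cons (mv 781 (cons (fin 845 7 781)
(mv 717 (cons (fin 782 7 717)
(mv 1037 (cons (fin 1101 5 845)
(mv 1039 (cons (fin 1103 4 846)
(mv 976 (cons (fin 977 2 973)
(mv 1036 (cons (fin 975 2 972)
(mv 971 (cons (fin 972 3 971)
(mv 1035 (cons (fin 970 3 970)
(mv 1099 (cons (fin 1098 1 1034)
(fin 1100 1 1035)))))))))))))))))))
(mv 781 (cons (fin 845 7 781)
(mv 783 (cons (fin 847 6 782)
(mv 1037 (cons (fin 1101 5 845)
(mv 1039 (cons (fin 1103 4 846)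
(mv 976 (cons (fin 977 2 973)
(mv 1036 (cons (fin 975 2 972)
(mv 971 (cons (fin 972 3 971)
(mv 1035 (cons (fin 970 3 970)
(mv 1099 (cons (fin 1098 1 1034)
(fin 1100 1 1035))))))))))))))))))))))))))))
(cons (mv 846 (cons (cons (cons (mv 1038 (cons (cons (mv 781 (cons (fin 845 7 781)
(mv 717 (cons (fin 782 7 717)
(mv 783 (cons (fin 847 6 782)
(mv 1037 (cons (fin 1101 5 845)
(mv 1039 (cons (fin 1103 4 846)
(mv 972 (cons (fin 973 3 972)
(mv 976 (cons (fin 977 2 973)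
(mv 1036 (cons (fin 971 3 971)
(fin 975 2 972)))))))))))))))))
(cons (mv 781 (cons (fin 845 7 781)
(mv 717 (cons (fin 782 7 717)
(mv 847 (cons (fin 783 6 782)
(mv 1037 (cons (fin 1101 5 845)
(mv 1102 (cons (fin 911 6 846)
(mv 1167 (cons (fin 1103 4 910)
(mv 1166 (cons (fin 1231 4 974)
(mv 1229 (cons (fin 1165 5 973)
(mv 1230 (cons (fin 973 7 973)
(fin 1293 5 1037)))))))))))))))))))
(mv 781 (cons (fin 845 7 781)
(mv 717 (cons (fin 782 7 717)
(mv 847 (cons (fin 783 6 782)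
(mv 911 (cons (fin 1102 6 846)
(mv 1039 (cons (fin 1103 4 846)
(mv 975 (cons (fin 1104 4 847)
(mv 848 (cons (fin 784 6 783)
(mv 849 (cons (fin 850 1 846)
(mv 785 (cons (fin 786 2 782)
(mv 912 (cons (fin 976 6 784)
(mv 913 (cons (fin 914 3 846)
(fin 973 1 909)))))))))))))))))))))))))
(cons (cons (mv 781 (cons (fin 845 7 781)
(mv 717 (cons (fin 782 7 717)
(mv 1037 (cons (fin 1101 5 845)
(mv 1039 (cons (fin 1103 4 846)
(mv 972 (cons (fin 973 3 972)
(mv 976 (cons (fin 977 2 973)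
(mv 1036 (cons (fin 971 3 971)
(fin 975 2 972)))))))))))))))
(mv 781 (cons (fin 845 7 781)
(mv 717 (cons (fin 782 7 717)
(mv 847 (cons (fin 783 6 782)
(mv 1101 (cons (fin 1037 5 845)
(mv 1102 (cons (fin 1165 5 909)
(fin 911 6 846))))))))))))
(cons (mv 783 (cons (fin 847 6 782)
(mv 719 (cons (fin 782 6 718)
(mv 1037 (cons (fin 1101 5 845)
(mv 1039 (cons (fin 1103 4 846)
(mv 972 (cons (fin 973 3 972)
(mv 976 (cons (fin 977 2 973)
(mv 1036 (cons (fin 971 3 971)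
(fin 975 2 972)))))))))))))))
(mv 781 (cons (fin 845 7 781)
(mv 783 (cons (fin 847 6 782)
(mv 1037 (cons (fin 1101 5 845)
(mv 1039 (cons (fin 1103 4 846)
(mv 972 (cons (fin 973 3 972)
(mv 976 (cons (fin 977 2 973)
(mv 1036 (cons (fin 971 3 971)
(fin 975 2 972)))))))))))))))))))
(mv 782 (cons (cons (mv 717 (cons (fin 781 7 717)
(mv 718 (cons (fin 653 7 653)
(mv 719 (cons (fin 655 6 654)
(fin 783 6 718)))))))
(mv 717 (cons (fin 781 7 717)
(mv 718 (cons (fin 653 7 653)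
(mv 975 (cons (fin 911 4 718)
(fin 1039 4 782))))))))
(cons (mv 719 (cons (fin 783 6 718)
(mv 718 (cons (fin 655 6 654)
(mv 975 (cons (fin 911 4 718)
(fin 1039 4 782)))))))
(mv 717 (cons (fin 781 7 717)
(mv 783 (cons (fin 719 6 718)
(mv 973 (cons (fin 1037 5 781)
(mv 975 (cons (fin 1039 4 782)
(mv 911 (cons (mv 912 (cons (fin 913 1 909)
(fin 972 2 908)))
(mv 847 (cons (fin 976 4 783)
(mv 784 (cons (fin 720 6 719)
(mv 785 (cons (fin 845 1 781)
(fin 786 1 782)))))))))))))))))))))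
(cons (mv 1038 (cons (cons (mv 781 (cons (fin 845 7 781)
(mv 783 (cons (fin 847 6 782)
(mv 1037 (cons (fin 1101 5 845)
(mv 1039 (cons (fin 1103 4 846)
(mv 972 (cons (fin 973 3 972)
(mv 976 (cons (fin 977 2 973)
(mv 1036 (cons (fin 971 3 971)
(fin 975 2 972)))))))))))))))
(mv 781 (cons (fin 845 7 781)
(mv 1037 (cons (fin 1101 5 845)
(mv 1039 (cons (fin 1103 4 846)
(mv 972 (cons (fin 973 3 972)
(mv 976 (cons (fin 977 2 973)
(mv 1036 (cons (fin 971 3 971)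
(fin 975 2 972))))))))))))))
(cons (mv 781 (cons (fin 845 7 781)
(mv 847 (cons (fin 783 6 782)
(mv 1101 (cons (fin 1037 5 845)
(mv 1102 (cons (fin 1165 5 909)
(fin 911 6 846)))))))))
(cons (mv 781 (cons (fin 845 7 781)
(mv 847 (cons (fin 783 6 782)
(mv 911 (cons (fin 1102 6 846)
(mv 1039 (cons (fin 1103 4 846)
(mv 975 (cons (fin 1104 4 847)
(mv 848 (cons (fin 784 6 783)
(mv 849 (cons (fin 850 1 846)
(mv 785 (cons (fin 786 2 782)
(mv 912 (cons (fin 976 6 784)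
(mv 913 (cons (fin 914 3 846)
(fin 973 1 909)))))))))))))))))))))
(mv 783 (cons (fin 847 6 782)
(mv 1037 (cons (fin 1101 5 845)
(mv 1039 (cons (fin 1103 4 846)
(mv 972 (cons (fin 973 3 972)
(mv 976 (cons (fin 977 2 973)
(mv 1036 (cons (fin 971 3 971)
(fin 975 2 972)))))))))))))))))
(mv 782 (cons (cons (mv 717 (cons (fin 781 7 717)
(mv 653 (cons (fin 718 7 653)
(mv 783 (cons (fin 719 6 718)
(mv 1037 (cons (fin 973 5 781)
(mv 1038 (cons (fin 1101 5 845)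
(fin 847 6 782)))))))))))
(cons (mv 717 (cons (fin 781 7 717)
(mv 718 (cons (fin 653 7 653)
(mv 655 (cons (fin 719 6 654)
(mv 654 (cons (fin 591 6 590)
(mv 911 (cons (fin 847 4 654)
(fin 975 4 718)))))))))))
(mv 719 (cons (fin 783 6 718)
(mv 718 (cons (fin 655 6 654)
(mv 653 (cons (fin 717 7 653)
(mv 654 (cons (fin 589 7 589)
(mv 911 (cons (fin 847 4 654)
(fin 975 4 718)))))))))))))
(cons (cons (mv 717 (cons (fin 781 7 717)
(mv 718 (cons (fin 653 7 653)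
(mv 911 (cons (fin 975 4 718)
(mv 847 (cons (fin 654 4 654)
(mv 1038 (cons (fin 783 6 782)
(fin 1102 6 846)))))))))))
(mv 719 (cons (fin 783 6 718)
(mv 718 (cons (fin 655 6 654)
(mv 911 (cons (fin 975 4 718)
(mv 847 (cons (fin 654 4 654)
(mv 973 (cons (fin 1037 5 781)
(mv 912 (cons (fin 913 1 909)
(mv 845 (cons (fin 844 0 844)
(mv 1038 (cons (fin 781 7 781)
(fin 1102 6 846))))))))))))))))))
(cons (mv 717 (cons (fin 781 7 717)
(mv 783 (cons (fin 719 6 718)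
(mv 1037 (cons (fin 973 5 781)
(mv 1038 (cons (fin 1101 5 845)
(fin 847 6 782)))))))))
(mv 717 (cons (fin 781 7 717)
(mv 718 (cons (fin 653 7 653)
(mv 719 (cons (fin 655 6 654)
(fin 783 6 718)))))))))))))
(cons (cons (mv 1038 (cons (cons (mv 781 (cons (fin 845 7 781)
(mv 717 (cons (fin 782 7 717)
(mv 1037 (cons (fin 1101 5 845)
(mv 1039 (cons (fin 1103 4 846)
(mv 972 (cons (fin 973 3 972)
(mv 976 (cons (fin 977 2 973)
(mv 1036 (cons (fin 971 3 971)
(fin 975 2 972)))))))))))))))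
(cons (mv 781 (cons (fin 845 7 781)
(mv 717 (cons (fin 782 7 717)
(mv 1101 (cons (fin 1037 5 845)
(mv 1102 (cons (fin 1165 5 909)
(mv 911 (cons (fin 847 6 846)
(mv 1166 (cons (fin 975 6 910)
(mv 1167 (cons (fin 1103 4 910)
(fin 1231 4 974)))))))))))))))
(mv 781 (cons (fin 845 7 781)
(mv 717 (cons (fin 782 7 717)
(mv 1103 (cons (fin 1039 4 846)
(mv 1102 (cons (fin 1167 4 910)
(mv 911 (cons (fin 847 6 846)
(mv 1165 (cons (fin 1101 5 909)
(mv 1166 (cons (fin 1229 5 973)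
(fin 975 6 910)))))))))))))))))
(cons (cons (mv 781 (cons (fin 845 7 781)
(mv 782 (cons (fin 717 7 717)
(mv 1037 (cons (fin 973 5 781)
(fin 1101 5 845)))))))
(mv 781 (cons (fin 845 7 781)
(mv 782 (cons (fin 717 7 717)
(mv 1039 (cons (fin 975 4 782)
(fin 1103 4 846))))))))
(cons (mv 1037 (cons (fin 1101 5 845)
(mv 782 (cons (fin 973 5 781)
(mv 1039 (cons (fin 975 4 782)
(fin 1103 4 846)))))))
(mv 781 (cons (fin 845 7 781)
(mv 1037 (cons (fin 1101 5 845)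
(mv 1039 (cons (fin 1103 4 846)
(mv 972 (cons (fin 973 3 972)
(mv 976 (cons (fin 977 2 973)
(mv 1036 (cons (fin 971 3 971)
(fin 975 2 972)))))))))))))))))
(mv 782 (cons (cons (mv 717 (cons (fin 781 7 717)
(mv 653 (cons (fin 718 7 653)
(mv 783 (cons (fin 719 6 718)
(mv 847 (cons (fin 1038 6 782)
(mv 975 (cons (fin 1039 4 782)
(mv 911 (cons (fin 976 4 783)
(mv 784 (cons (fin 720 6 719)
(mv 785 (cons (fin 845 1 781)
(fin 786 1 782)))))))))))))))))
(mv 717 (cons (fin 781 7 717)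
(mv 718 (cons (fin 653 7 653)
(mv 975 (cons (fin 911 4 718)
(fin 1039 4 782))))))))
(cons (mv 719 (cons (fin 783 6 718)
(mv 718 (cons (fin 655 6 654)
(mv 975 (cons (fin 911 4 718)
(fin 1039 4 782)))))))
(cons (mv 717 (cons (fin 781 7 717)
(mv 718 (cons (fin 653 7 653)
(mv 719 (cons (fin 655 6 654)
(fin 783 6 718)))))))
(mv 717 (cons (fin 781 7 717)
(mv 783 (cons (fin 719 6 718)
(mv 847 (cons (fin 1038 6 782)
(mv 975 (cons (fin 1039 4 782)
(mv 911 (cons (fin 976 4 783)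
(mv 784 (cons (fin 720 6 719)
(mv 785 (cons (fin 845 1 781)
(fin 786 1 782))))))))))))))))))))
(cons (mv 1038 (cons (cons (mv 783 (cons (fin 847 6 782)
(mv 719 (cons (fin 782 6 718)
(mv 1037 (cons (fin 1101 5 845)
(mv 1039 (cons (fin 1103 4 846)
(mv 972 (cons (fin 973 3 972)
(mv 976 (cons (fin 977 2 973)
(mv 1036 (cons (fin 971 3 971)
(fin 975 2 972)))))))))))))))
(mv 783 (cons (fin 847 6 782)
(mv 782 (cons (fin 719 6 718)
(mv 1037 (cons (fin 973 5 781)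
(fin 1101 5 845))))))))
(cons (mv 783 (cons (fin 847 6 782)
(mv 782 (cons (fin 719 6 718)
(mv 1039 (cons (fin 975 4 782)
(fin 1103 4 846)))))))
(cons (mv 1037 (cons (fin 1101 5 845)
(mv 782 (cons (fin 973 5 781)
(mv 1039 (cons (fin 975 4 782)
(fin 1103 4 846)))))))
(mv 783 (cons (fin 847 6 782)
(mv 1037 (cons (fin 1101 5 845)
(mv 1039 (cons (fin 1103 4 846)
(mv 972 (cons (fin 973 3 972)
(mv 976 (cons (fin 977 2 973)
(mv 1036 (cons (fin 971 3 971)
(fin 975 2 972)))))))))))))))))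
(cons (mv 1038 (cons (cons (mv 781 (cons (fin 845 7 781)
(mv 717 (cons (fin 782 7 717)
(mv 783 (cons (fin 847 6 782)
(mv 1101 (cons (fin 1037 5 845)
(mv 1102 (cons (fin 1165 5 909)
(mv 1103 (cons (fin 1039 4 846)
(fin 1167 4 910)))))))))))))
(cons (mv 781 (cons (fin 845 7 781)
(mv 717 (cons (fin 782 7 717)
(mv 847 (cons (fin 783 6 782)
(mv 1102 (cons (fin 911 6 846)
(mv 1103 (cons (fin 1039 4 846)
(fin 1167 4 910)))))))))))
(mv 781 (cons (fin 845 7 781)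
(mv 717 (cons (fin 782 7 717)
(mv 1101 (cons (fin 1037 5 845)
(mv 1102 (cons (fin 1165 5 909)
(mv 1103 (cons (fin 1039 4 846)
(fin 1167 4 910)))))))))))))
(cons (cons (mv 781 (cons (fin 845 7 781)
(mv 717 (cons (fin 782 7 717)
(mv 847 (cons (fin 783 6 782)
(mv 1101 (cons (fin 1037 5 845)
(mv 1102 (cons (fin 1165 5 909)
(fin 911 6 846)))))))))))
(mv 783 (cons (fin 847 6 782)
(mv 719 (cons (fin 782 6 718)
(mv 1101 (cons (fin 1037 5 845)
(mv 1102 (cons (fin 1165 5 909)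
(mv 1103 (cons (fin 1039 4 846)
(fin 1167 4 910))))))))))))
(cons (mv 781 (cons (fin 845 7 781)
(mv 783 (cons (fin 847 6 782)
(mv 1101 (cons (fin 1037 5 845)
(mv 1102 (cons (fin 1165 5 909)
(mv 1103 (cons (fin 1039 4 846)
(fin 1167 4 910)))))))))))
(mv 781 (cons (fin 845 7 781)
(mv 782 (cons (fin 717 7 717)
(mv 783 (cons (fin 719 6 718)
(fin 847 6 782)))))))))))
(mv 782 (cons (cons (mv 717 (cons (fin 781 7 717)
(mv 653 (cons (fin 718 7 653)
(mv 719 (cons (fin 783 6 718)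
(mv 1037 (cons (fin 973 5 781)
(mv 1038 (cons (fin 1101 5 845)
(mv 1039 (cons (fin 975 4 782)
(fin 1103 4 846)))))))))))))
(mv 717 (cons (fin 781 7 717)
(mv 718 (cons (fin 653 7 653)
(mv 719 (cons (fin 655 6 654)
(fin 783 6 718))))))))
(cons (mv 719 (cons (fin 783 6 718)
(mv 655 (cons (fin 718 6 654)
(mv 1037 (cons (fin 973 5 781)
(mv 1038 (cons (fin 1101 5 845)
(mv 1039 (cons (fin 975 4 782)
(fin 1103 4 846)))))))))))
(cons (mv 717 (cons (fin 781 7 717)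
(mv 653 (cons (fin 718 7 653)
(mv 1037 (cons (fin 973 5 781)
(mv 1038 (cons (fin 1101 5 845)
(mv 1039 (cons (fin 975 4 782)
(fin 1103 4 846)))))))))))
(mv 717 (cons (fin 781 7 717)
(mv 719 (cons (fin 783 6 718)
(mv 1037 (cons (fin 973 5 781)
(mv 1038 (cons (fin 1101 5 845)
(mv 1039 (cons (fin 975 4 782)
(fin 1103 4 846))))))))))))))))))))
(mv 1038 (cons (cons (mv 1102 (cons (cons (mv 845 (cons (fin 909 7 845)
(mv 781 (cons (fin 846 7 781)
(mv 847 (cons (fin 911 6 846)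
(mv 1165 (cons (fin 1101 5 909)
(mv 1166 (cons (fin 1229 5 973)
(mv 1167 (cons (fin 1103 4 910)
(fin 1231 4 974)))))))))))))
(cons (mv 847 (cons (fin 911 6 846)
(mv 783 (cons (fin 846 6 782)
(mv 1165 (cons (fin 1101 5 909)
(mv 1166 (cons (fin 1229 5 973)
(mv 1167 (cons (fin 1103 4 910)
(fin 1231 4 974)))))))))))
(mv 845 (cons (fin 909 7 845)
(mv 781 (cons (fin 846 7 781)
(mv 1165 (cons (fin 1101 5 909)
(mv 1166 (cons (fin 1229 5 973)
(mv 1167 (cons (fin 1103 4 910)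
(fin 1231 4 974)))))))))))))
(cons (cons (mv 845 (cons (fin 909 7 845)
(mv 781 (cons (fin 846 7 781)
(mv 911 (cons (fin 847 6 846)
(mv 1166 (cons (fin 975 6 910)
(mv 1167 (cons (fin 1103 4 910)
(fin 1231 4 974)))))))))))
(mv 845 (cons (fin 909 7 845)
(mv 781 (cons (fin 846 7 781)
(mv 911 (cons (fin 847 6 846)
(mv 1165 (cons (fin 1101 5 909)
(mv 1166 (cons (fin 1229 5 973)
(fin 975 6 910))))))))))))
(cons (mv 845 (cons (fin 909 7 845)
(mv 846 (cons (fin 781 7 781)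
(mv 847 (cons (fin 783 6 782)
(fin 911 6 846)))))))
(mv 845 (cons (fin 909 7 845)
(mv 847 (cons (fin 911 6 846)
(mv 1165 (cons (fin 1101 5 909)
(mv 1166 (cons (fin 1229 5 973)
(mv 1167 (cons (fin 1103 4 910)
(fin 1231 4 974)))))))))))))))
(cons (mv 846 (cons (cons (mv 781 (cons (fin 845 7 781)
(mv 782 (cons (fin 717 7 717)
(mv 783 (cons (fin 719 6 718)
(fin 847 6 782)))))))
(mv 781 (cons (fin 845 7 781)
(mv 782 (cons (fin 717 7 717)
(mv 1037 (cons (fin 973 5 781)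
(fin 1101 5 845))))))))
(cons (mv 783 (cons (fin 847 6 782)
(mv 782 (cons (fin 719 6 718)
(mv 1037 (cons (fin 973 5 781)
(fin 1101 5 845)))))))
(mv 845 (cons (fin 781 7 781)
(mv 847 (cons (fin 783 6 782)
(mv 1037 (cons (fin 1101 5 845)
(mv 844 (cons (cons (mv 911 (cons (fin 843 0 843)
(fin 912 0 844)))
(mv 779 (cons (fin 780 3 779)
(mv 778 (cons (fin 843 3 778)
(mv 908 (cons (fin 907 1 843)
(mv 848 (cons (fin 909 1 844)
(mv 785 (cons (fin 784 2 781)
(mv 849 (cons (fin 786 2 782)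
(mv 912 (cons (fin 913 0 845)
(fin 976 6 784))))))))))))))))
(cons (mv 779 (cons (fin 780 3 779)
(mv 843 (cons (fin 778 3 778)
(fin 911 0 843)))))
(mv 779 (cons (fin 780 3 779)
(mv 907 (cons (fin 908 1 843)
(mv 912 (cons (fin 911 0 844)
(mv 848 (cons (fin 913 0 845)
(mv 785 (cons (fin 784 2 781)
(mv 849 (cons (fin 909 1 845)
(fin 786 2 782)))))))))))))))))))))))))
(mv 1102 (cons (cons (mv 845 (cons (fin 909 7 845)
(mv 847 (cons (fin 911 6 846)
(mv 1165 (cons (fin 1101 5 909)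
(mv 1166 (cons (fin 1229 5 973)
(mv 1167 (cons (fin 1103 4 910)
(fin 1231 4 974)))))))))))
(cons (mv 847 (cons (fin 911 6 846)
(mv 1165 (cons (fin 1101 5 909)
(mv 1166 (cons (fin 1229 5 973)
(mv 1167 (cons (fin 1103 4 910)
(fin 1231 4 974)))))))))
(mv 845 (cons (fin 909 7 845)
(mv 1165 (cons (fin 1101 5 909)
(mv 1166 (cons (fin 1229 5 973)
(mv 1167 (cons (fin 1103 4 910)
(fin 1231 4 974)))))))))))
(cons (mv 845 (cons (fin 909 7 845)
(mv 911 (cons (fin 847 6 846)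
(mv 1166 (cons (fin 975 6 910)
(mv 1167 (cons (fin 1103 4 910)
(fin 1231 4 974)))))))))
(cons (mv 845 (cons (fin 909 7 845)
(mv 911 (cons (fin 847 6 846)
(mv 1165 (cons (fin 1101 5 909)
(mv 1166 (cons (fin 1229 5 973)
(fin 975 6 910)))))))))
(mv 845 (cons (fin 909 7 845)
(mv 911 (cons (fin 847 6 846)
(mv 1101 (cons (fin 1165 5 909)
(mv 1103 (cons (fin 1167 4 910)
(mv 1104 (cons (mv 1037 (cons (fin 1036 3 1036)
(fin 1105 3 1037)))
(mv 1168 (cons (fin 1169 0 1101)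
(mv 976 (cons (fin 975 7 911)
(mv 913 (cons (fin 977 6 912)
(mv 912 (cons (fin 973 1 909)
(fin 849 6 848)))))))))))))))))))))))))
(cons (cons (mv 1102 (cons (cons (mv 845 (cons (fin 909 7 845)
(mv 781 (cons (fin 846 7 781)
(mv 1165 (cons (fin 1101 5 909)
(mv 1166 (cons (fin 1229 5 973)
(mv 1167 (cons (fin 1103 4 910)
(fin 1231 4 974)))))))))))
(mv 1101 (cons (fin 1165 5 909)
(mv 1037 (cons (fin 846 5 845)
(mv 1103 (cons (fin 1167 4 910)
(mv 1036 (cons (fin 1104 3 1036)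
(fin 1035 0 1035))))))))))
(cons (mv 909 (cons (fin 845 7 845)
(mv 1166 (cons (fin 973 7 909)
(mv 1167 (cons (fin 1103 4 910)
(fin 1231 4 974)))))))
(mv 845 (cons (fin 909 7 845)
(mv 846 (cons (fin 781 7 781)
(mv 1101 (cons (fin 1037 5 845)
(fin 1165 5 909))))))))))
(mv 1102 (cons (cons (mv 847 (cons (fin 911 6 846)
(mv 783 (cons (fin 846 6 782)
(mv 1165 (cons (fin 1101 5 909)
(mv 1166 (cons (fin 1229 5 973)
(mv 1167 (cons (fin 1103 4 910)
(fin 1231 4 974)))))))))))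
(mv 1101 (cons (fin 1165 5 909)
(mv 1037 (cons (fin 846 5 845)
(mv 1103 (cons (fin 1167 4 910)
(mv 1036 (cons (fin 1104 3 1036)
(fin 1035 0 1035))))))))))
(cons (mv 847 (cons (fin 911 6 846)
(mv 783 (cons (fin 846 6 782)
(mv 1167 (cons (fin 1103 4 910)
(mv 1166 (cons (fin 1231 4 974)
(mv 973 (cons (fin 909 7 909)
(mv 1229 (cons (fin 1165 5 973)
(mv 1230 (cons (fin 1037 7 973)
(fin 1293 5 1037)))))))))))))))
(cons (mv 847 (cons (fin 911 6 846)
(mv 846 (cons (fin 783 6 782)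
(mv 1037 (cons (fin 1101 5 845)
(mv 973 (cons (fin 782 5 781)
(mv 1166 (cons (fin 909 7 909)
(fin 1230 7 973)))))))))))
(mv 847 (cons (fin 911 6 846)
(mv 1165 (cons (fin 1101 5 909)
(mv 1166 (cons (fin 1229 5 973)
(mv 1167 (cons (fin 1103 4 910)
(fin 1231 4 974))))))))))))))
(cons (mv 1102 (cons (cons (mv 845 (cons (fin 909 7 845)
(mv 781 (cons (fin 846 7 781)
(mv 911 (cons (fin 847 6 846)
(mv 1166 (cons (fin 975 6 910)
(mv 1167 (cons (fin 1103 4 910)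
(fin 1231 4 974)))))))))))
(mv 911 (cons (fin 847 6 846)
(mv 1166 (cons (fin 975 6 910)
(mv 1167 (cons (fin 1103 4 910)
(fin 1231 4 974))))))))
(cons (mv 909 (cons (fin 845 7 845)
(mv 1166 (cons (fin 973 7 909)
(mv 1167 (cons (fin 1103 4 910)
(fin 1231 4 974)))))))
(mv 845 (cons (fin 909 7 845)
(mv 846 (cons (fin 781 7 781)
(mv 847 (cons (fin 783 6 782)
(fin 911 6 846))))))))))
(mv 846 (cons (cons (mv 781 (cons (fin 845 7 781)
(mv 717 (cons (fin 782 7 717)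
(mv 847 (cons (fin 783 6 782)
(mv 1037 (cons (fin 1101 5 845)
(mv 1102 (cons (fin 911 6 846)
(mv 1167 (cons (fin 1103 4 910)
(mv 1166 (cons (fin 1231 4 974)
(mv 1229 (cons (fin 1165 5 973)
(mv 1230 (cons (fin 973 7 973)
(fin 1293 5 1037)))))))))))))))))))
(cons (mv 781 (cons (fin 845 7 781)
(mv 717 (cons (fin 782 7 717)
(mv 847 (cons (fin 783 6 782)
(mv 1102 (cons (fin 911 6 846)
(mv 1165 (cons (fin 1101 5 909)
(mv 1166 (cons (fin 1229 5 973)
(mv 1167 (cons (fin 1103 4 910)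
(fin 1231 4 974)))))))))))))))
(mv 781 (cons (fin 845 7 781)
(mv 782 (cons (fin 717 7 717)
(mv 1037 (cons (fin 973 5 781)
(fin 1101 5 845)))))))))
(cons (mv 781 (cons (fin 845 7 781)
(mv 782 (cons (fin 717 7 717)
(mv 783 (cons (fin 719 6 718)
(fin 847 6 782)))))))
(cons (mv 783 (cons (fin 847 6 782)
(mv 782 (cons (fin 719 6 718)
(mv 1037 (cons (fin 973 5 781)
(fin 1101 5 845)))))))
(mv 781 (cons (fin 845 7 781)
(mv 847 (cons (fin 783 6 782)
(mv 1037 (cons (fin 1101 5 845)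
(mv 1102 (cons (fin 911 6 846)
(mv 1167 (cons (fin 1103 4 910)
(mv 1166 (cons (fin 1231 4 974)
(mv 1229 (cons (fin 1165 5 973)
(mv 1230 (cons (fin 973 7 973)
(fin 1293 5 1037))))))))))))))))))))))))))))
(cons (cons (cons (mv 846 (cons (cons (mv 782 (cons (cons (mv 717 (cons (fin 781 7 717)
(mv 653 (cons (fin 718 7 653)
(mv 719 (cons (fin 783 6 718)
(mv 1037 (cons (fin 973 5 781)
(mv 1038 (cons (fin 1101 5 845)
(mv 1039 (cons (fin 975 4 782)
(fin 1103 4 846)))))))))))))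
(cons (mv 717 (cons (fin 781 7 717)
(mv 653 (cons (fin 718 7 653)
(mv 783 (cons (fin 719 6 718)
(mv 1037 (cons (fin 973 5 781)
(mv 1038 (cons (fin 1101 5 845)
(fin 847 6 782)))))))))))
(mv 717 (cons (fin 781 7 717)
(mv 653 (cons (fin 718 7 653)
(mv 783 (cons (fin 719 6 718)
(mv 847 (cons (fin 1038 6 782)
(mv 975 (cons (fin 1039 4 782)
(mv 911 (cons (fin 976 4 783)
(mv 784 (cons (fin 720 6 719)
(mv 785 (cons (fin 845 1 781)
(fin 786 1 782)))))))))))))))))))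
(cons (cons (mv 717 (cons (fin 781 7 717)
(mv 653 (cons (fin 718 7 653)
(mv 1037 (cons (fin 973 5 781)
(mv 1038 (cons (fin 1101 5 845)
(mv 1039 (cons (fin 975 4 782)
(fin 1103 4 846)))))))))))
(mv 719 (cons (fin 783 6 718)
(mv 655 (cons (fin 718 6 654)
(mv 1037 (cons (fin 973 5 781)
(mv 1038 (cons (fin 1101 5 845)
(mv 1039 (cons (fin 975 4 782)
(fin 1103 4 846))))))))))))
(cons (mv 717 (cons (fin 781 7 717)
(mv 719 (cons (fin 783 6 718)
(mv 1037 (cons (fin 973 5 781)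
(mv 1038 (cons (fin 1101 5 845)
(mv 1039 (cons (fin 975 4 782)
(fin 1103 4 846)))))))))))
(mv 717 (cons (fin 781 7 717)
(mv 718 (cons (fin 653 7 653)
(mv 719 (cons (fin 655 6 654)
(fin 783 6 718)))))))))))
(cons (mv 1038 (cons (cons (mv 781 (cons (fin 845 7 781)
(mv 783 (cons (fin 847 6 782)
(mv 1037 (cons (fin 1101 5 845)
(mv 1039 (cons (fin 1103 4 846)
(mv 972 (cons (fin 973 3 972)
(mv 976 (cons (fin 977 2 973)
(mv 1036 (cons (fin 971 3 971)
(fin 975 2 972)))))))))))))))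
(cons (mv 845 (cons (fin 781 7 781)
(mv 847 (cons (fin 783 6 782)
(mv 1037 (cons (fin 1101 5 845)
(mv 844 (cons (cons (mv 911 (cons (fin 843 0 843)
(fin 912 0 844)))
(mv 779 (cons (fin 780 3 779)
(mv 778 (cons (fin 843 3 778)
(mv 908 (cons (fin 907 1 843)
(mv 848 (cons (fin 909 1 844)
(mv 785 (cons (fin 784 2 781)
(mv 849 (cons (fin 786 2 782)
(mv 912 (cons (fin 913 0 845)
(fin 976 6 784))))))))))))))))
(cons (mv 779 (cons (fin 780 3 779)
(mv 843 (cons (fin 778 3 778)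
(fin 911 0 843)))))
(mv 779 (cons (fin 780 3 779)
(mv 907 (cons (fin 908 1 843)
(mv 912 (cons (fin 911 0 844)
(mv 848 (cons (fin 913 0 845)
(mv 785 (cons (fin 784 2 781)
(mv 849 (cons (fin 909 1 845)
(fin 786 2 782))))))))))))))))))))))
(mv 845 (cons (fin 781 7 781)
(mv 847 (cons (fin 783 6 782)
(mv 1039 (cons (fin 1103 4 846)
(mv 911 (cons (mv 844 (cons (fin 843 0 843)
(fin 912 0 844)))
(cons (mv 843 (cons (fin 844 0 843)
(mv 975 (cons (fin 1104 4 847)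
(mv 848 (cons (fin 784 6 783)
(mv 849 (cons (fin 909 1 845)
(fin 850 1 846)))))))))
(mv 912 (cons (fin 913 3 845)
(mv 1104 (cons (fin 976 7 847)
(fin 975 4 847))))))))))))))))
(cons (mv 781 (cons (fin 845 7 781)
(mv 1037 (cons (fin 1101 5 845)
(mv 1039 (cons (fin 1103 4 846)
(mv 972 (cons (fin 973 3 972)
(mv 976 (cons (fin 977 2 973)
(mv 1036 (cons (fin 971 3 971)
(fin 975 2 972)))))))))))))
(cons (mv 783 (cons (fin 847 6 782)
(mv 1037 (cons (fin 1101 5 845)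
(mv 1039 (cons (fin 1103 4 846)
(mv 972 (cons (fin 973 3 972)
(mv 976 (cons (fin 977 2 973)
(mv 1036 (cons (fin 971 3 971)
(fin 975 2 972)))))))))))))
(mv 781 (cons (fin 845 7 781)
(mv 783 (cons (fin 847 6 782)
(mv 1037 (cons (fin 1101 5 845)
(mv 1039 (cons (fin 1103 4 846)
(mv 972 (cons (fin 973 3 972)
(mv 1036 (cons (fin 971 3 971)
(mv 1035 (cons (fin 975 2 971)
(mv 1099 (cons (fin 1098 1 1034)
(fin 1100 1 1035)))))))))))))))))))))
(mv 782 (cons (cons (mv 717 (cons (fin 781 7 717)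
(mv 718 (cons (fin 653 7 653)
(mv 719 (cons (fin 655 6 654)
(fin 783 6 718)))))))
(mv 719 (cons (fin 783 6 718)
(mv 718 (cons (fin 655 6 654)
(mv 973 (cons (fin 909 5 717)
(fin 1037 5 781))))))))
(cons (mv 717 (cons (fin 781 7 717)
(mv 718 (cons (fin 653 7 653)
(mv 973 (cons (fin 909 5 717)
(fin 1037 5 781)))))))
(mv 717 (cons (fin 781 7 717)
(mv 719 (cons (fin 783 6 718)
(mv 973 (cons (fin 1037 5 781)
(mv 975 (cons (fin 1039 4 782)
(mv 972 (cons (mv 911 (cons (fin 971 2 907)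
(fin 912 2 908)))
(cons (mv 907 (cons (fin 908 3 907)
(mv 971 (cons (fin 906 3 906)
(mv 1035 (cons (fin 1034 1 970)
(fin 1036 1 971)))))))
(mv 908 (cons (fin 907 3 907)
(mv 909 (cons (fin 976 3 908)
(mv 911 (cons (fin 912 1 908)
(mv 843 (cons (fin 844 3 843)
(mv 847 (cons (fin 848 2 844)
(mv 1036 (cons (fin 1035 1 971)
(mv 1100 (cons (fin 845 6 844)
(fin 1164 6 908)))))))))))))))))))))))))))))))
(cons (cons (mv 782 (cons (cons (mv 717 (cons (fin 781 7 717)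
(mv 653 (cons (fin 718 7 653)
(mv 783 (cons (fin 719 6 718)
(mv 1037 (cons (fin 973 5 781)
(mv 1038 (cons (fin 1101 5 845)
(fin 847 6 782)))))))))))
(mv 717 (cons (fin 781 7 717)
(mv 718 (cons (fin 653 7 653)
(mv 973 (cons (fin 909 5 717)
(fin 1037 5 781))))))))
(cons (mv 719 (cons (fin 783 6 718)
(mv 718 (cons (fin 655 6 654)
(mv 973 (cons (fin 909 5 717)
(fin 1037 5 781)))))))
(cons (mv 717 (cons (fin 781 7 717)
(mv 718 (cons (fin 653 7 653)
(mv 719 (cons (fin 655 6 654)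
(fin 783 6 718)))))))
(mv 717 (cons (fin 781 7 717)
(mv 783 (cons (fin 719 6 718)
(mv 1037 (cons (fin 973 5 781)
(mv 1038 (cons (fin 1101 5 845)
(fin 847 6 782)))))))))))))
(mv 782 (cons (cons (mv 717 (cons (fin 781 7 717)
(mv 653 (cons (fin 718 7 653)
(mv 783 (cons (fin 719 6 718)
(mv 847 (cons (fin 1038 6 782)
(mv 975 (cons (fin 1039 4 782)
(mv 911 (cons (fin 976 4 783)
(mv 784 (cons (fin 720 6 719)
(mv 785 (cons (fin 845 1 781)
(fin 786 1 782)))))))))))))))))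
(mv 717 (cons (fin 781 7 717)
(mv 718 (cons (fin 653 7 653)
(mv 719 (cons (fin 655 6 654)
(fin 783 6 718))))))))
(cons (mv 717 (cons (fin 781 7 717)
(mv 718 (cons (fin 653 7 653)
(mv 975 (cons (fin 911 4 718)
(fin 1039 4 782)))))))
(cons (mv 719 (cons (fin 783 6 718)
(mv 718 (cons (fin 655 6 654)
(mv 975 (cons (fin 911 4 718)
(fin 1039 4 782)))))))
(mv 717 (cons (fin 781 7 717)
(mv 783 (cons (fin 719 6 718)
(mv 847 (cons (fin 1038 6 782)
(mv 975 (cons (fin 1039 4 782)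
(mv 911 (cons (fin 976 4 783)
(mv 784 (cons (fin 720 6 719)
(mv 785 (cons (fin 845 1 781)
(fin 786 1 782))))))))))))))))))))
(cons (mv 782 (cons (cons (mv 717 (cons (fin 781 7 717)
(mv 653 (cons (fin 718 7 653)
(mv 1037 (cons (fin 973 5 781)
(mv 1038 (cons (fin 1101 5 845)
(mv 1039 (cons (fin 975 4 782)
(fin 1103 4 846)))))))))))
(mv 717 (cons (fin 781 7 717)
(mv 718 (cons (fin 653 7 653)
(mv 975 (cons (fin 911 4 718)
(fin 1039 4 782))))))))
(cons (mv 717 (cons (fin 781 7 717)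
(mv 718 (cons (fin 653 7 653)
(mv 973 (cons (fin 909 5 717)
(fin 1037 5 781)))))))
(cons (mv 973 (cons (fin 1037 5 781)
(mv 718 (cons (fin 909 5 717)
(mv 975 (cons (fin 911 4 718)
(fin 1039 4 782)))))))
(mv 717 (cons (fin 781 7 717)
(mv 1037 (cons (fin 973 5 781)
(mv 1038 (cons (fin 1101 5 845)
(mv 1039 (cons (fin 975 4 782)
(fin 1103 4 846)))))))))))))
(mv 782 (cons (cons (mv 719 (cons (fin 783 6 718)
(mv 655 (cons (fin 718 6 654)
(mv 1037 (cons (fin 973 5 781)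
(mv 1038 (cons (fin 1101 5 845)
(mv 1039 (cons (fin 975 4 782)
(fin 1103 4 846)))))))))))
(mv 719 (cons (fin 783 6 718)
(mv 718 (cons (fin 655 6 654)
(mv 973 (cons (fin 909 5 717)
(fin 1037 5 781))))))))
(cons (mv 719 (cons (fin 783 6 718)
(mv 718 (cons (fin 655 6 654)
(mv 975 (cons (fin 911 4 718)
(fin 1039 4 782)))))))
(cons (mv 973 (cons (fin 1037 5 781)
(mv 718 (cons (fin 909 5 717)
(mv 975 (cons (fin 911 4 718)
(fin 1039 4 782)))))))
(mv 719 (cons (fin 783 6 718)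
(mv 1037 (cons (fin 973 5 781)
(mv 1038 (cons (fin 1101 5 845)
(mv 1039 (cons (fin 975 4 782)
(fin 1103 4 846)))))))))))))))))
(mv 846 (cons (cons (mv 782 (cons (cons (mv 717 (cons (fin 781 7 717)
(mv 653 (cons (fin 718 7 653)
(mv 719 (cons (fin 783 6 718)
(mv 1037 (cons (fin 973 5 781)
(mv 1038 (cons (fin 1101 5 845)
(mv 1039 (cons (fin 975 4 782)
(fin 1103 4 846)))))))))))))
(mv 717 (cons (fin 781 7 717)
(mv 718 (cons (fin 653 7 653)
(mv 719 (cons (fin 655 6 654)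
(fin 783 6 718))))))))
(cons (mv 719 (cons (fin 783 6 718)
(mv 655 (cons (fin 718 6 654)
(mv 1037 (cons (fin 973 5 781)
(mv 1038 (cons (fin 1101 5 845)
(mv 1039 (cons (fin 975 4 782)
(fin 1103 4 846)))))))))))
(cons (mv 717 (cons (fin 781 7 717)
(mv 653 (cons (fin 718 7 653)
(mv 1037 (cons (fin 973 5 781)
(mv 1038 (cons (fin 1101 5 845)
(mv 1039 (cons (fin 975 4 782)
(fin 1103 4 846)))))))))))
(mv 717 (cons (fin 781 7 717)
(mv 719 (cons (fin 783 6 718)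
(mv 1037 (cons (fin 973 5 781)
(mv 1038 (cons (fin 1101 5 845)
(mv 1039 (cons (fin 975 4 782)
(fin 1103 4 846)))))))))))))))
(cons (mv 1038 (cons (cons (mv 781 (cons (fin 845 7 781)
(mv 1037 (cons (fin 1101 5 845)
(mv 1039 (cons (fin 1103 4 846)
(mv 972 (cons (fin 973 3 972)
(mv 976 (cons (fin 977 2 973)
(mv 1036 (cons (fin 971 3 971)
(fin 975 2 972)))))))))))))
(mv 1037 (cons (fin 1101 5 845)
(mv 1039 (cons (fin 1103 4 846)
(mv 972 (cons (fin 973 3 972)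
(mv 976 (cons (fin 977 2 973)
(mv 1036 (cons (fin 971 3 971)
(fin 975 2 972))))))))))))
(cons (mv 845 (cons (fin 781 7 781)
(mv 1102 (cons (fin 909 7 845)
(mv 1103 (cons (fin 1039 4 846)
(fin 1167 4 910)))))))
(mv 845 (cons (fin 781 7 781)
(mv 1101 (cons (fin 1037 5 845)
(mv 1102 (cons (fin 909 7 845)
(fin 1165 5 909))))))))))
(mv 782 (cons (cons (mv 717 (cons (fin 781 7 717)
(mv 718 (cons (fin 653 7 653)
(mv 719 (cons (fin 655 6 654)
(fin 783 6 718)))))))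
(mv 719 (cons (fin 783 6 718)
(mv 718 (cons (fin 655 6 654)
(mv 973 (cons (fin 909 5 717)
(fin 1037 5 781))))))))
(cons (mv 717 (cons (fin 781 7 717)
(mv 718 (cons (fin 653 7 653)
(mv 973 (cons (fin 909 5 717)
(fin 1037 5 781)))))))
(mv 717 (cons (fin 781 7 717)
(mv 719 (cons (fin 783 6 718)
(mv 973 (cons (fin 1037 5 781)
(mv 975 (cons (fin 1039 4 782)
(mv 972 (cons (mv 911 (cons (fin 971 2 907)
(fin 912 2 908)))
(cons (mv 907 (cons (fin 908 3 907)
(mv 971 (cons (fin 906 3 906)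
(mv 1035 (cons (fin 1034 1 970)
(fin 1036 1 971)))))))
(mv 908 (cons (fin 907 3 907)
(mv 909 (cons (fin 976 3 908)
(mv 911 (cons (fin 912 1 908)
(mv 843 (cons (fin 844 3 843)
(mv 1036 (cons (fin 1035 1 971)
(mv 1100 (cons (fin 845 6 844)
(fin 1164 6 908)))))))))))))))))))))))))))))
(cons (mv 782 (cons (cons (mv 717 (cons (fin 781 7 717)
(mv 718 (cons (fin 653 7 653)
(mv 719 (cons (fin 655 6 654)
(fin 783 6 718)))))))
(mv 719 (cons (fin 783 6 718)
(mv 718 (cons (fin 655 6 654)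
(mv 973 (cons (fin 909 5 717)
(fin 1037 5 781))))))))
(cons (mv 717 (cons (fin 781 7 717)
(mv 718 (cons (fin 653 7 653)
(mv 973 (cons (fin 909 5 717)
(fin 1037 5 781)))))))
(mv 719 (cons (fin 783 6 718)
(mv 781 (cons (fin 717 7 717)
(mv 1037 (cons (fin 973 5 781)
(mv 1038 (cons (fin 845 7 781)
(fin 1101 5 845))))))))))))
(cons (mv 782 (cons (cons (mv 717 (cons (fin 781 7 717)
(mv 718 (cons (fin 653 7 653)
(mv 719 (cons (fin 655 6 654)
(fin 783 6 718)))))))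
(mv 719 (cons (fin 783 6 718)
(mv 718 (cons (fin 655 6 654)
(mv 975 (cons (fin 911 4 718)
(fin 1039 4 782))))))))
(cons (mv 717 (cons (fin 781 7 717)
(mv 718 (cons (fin 653 7 653)
(mv 975 (cons (fin 911 4 718)
(fin 1039 4 782)))))))
(mv 719 (cons (fin 783 6 718)
(mv 781 (cons (fin 717 7 717)
(mv 1038 (cons (fin 845 7 781)
(mv 1039 (cons (fin 975 4 782)
(fin 1103 4 846))))))))))))
(mv 782 (cons (cons (mv 719 (cons (fin 783 6 718)
(mv 655 (cons (fin 718 6 654)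
(mv 1037 (cons (fin 973 5 781)
(mv 1038 (cons (fin 1101 5 845)
(mv 1039 (cons (fin 975 4 782)
(fin 1103 4 846)))))))))))
(mv 719 (cons (fin 783 6 718)
(mv 718 (cons (fin 655 6 654)
(mv 975 (cons (fin 911 4 718)
(fin 1039 4 782))))))))
(cons (mv 719 (cons (fin 783 6 718)
(mv 718 (cons (fin 655 6 654)
(mv 973 (cons (fin 909 5 717)
(fin 1037 5 781)))))))
(cons (mv 973 (cons (fin 1037 5 781)
(mv 718 (cons (fin 909 5 717)
(mv 975 (cons (fin 911 4 718)
(fin 1039 4 782)))))))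
(mv 719 (cons (fin 783 6 718)
(mv 1037 (cons (fin 973 5 781)
(mv 1038 (cons (fin 1101 5 845)
(mv 1039 (cons (fin 975 4 782)
(fin 1103 4 846))))))))))))))))))
(cons (mv 1038 (cons (cons (cons (mv 1102 (cons (cons (mv 845 (cons (fin 909 7 845)
(mv 781 (cons (fin 846 7 781)
(mv 847 (cons (fin 911 6 846)
(mv 1101 (cons (fin 1165 5 909)
(mv 1103 (cons (fin 1167 4 910)
(mv 1100 (cons (fin 1039 2 1036)
(mv 1035 (cons (fin 1036 3 1035)
(mv 1099 (cons (fin 1034 3 1034)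
(mv 1163 (cons (fin 1162 1 1098)
(fin 1164 1 1099)))))))))))))))))))
(cons (mv 845 (cons (fin 909 7 845)
(mv 781 (cons (fin 846 7 781)
(mv 1101 (cons (fin 1165 5 909)
(mv 1103 (cons (fin 1167 4 910)
(mv 1100 (cons (fin 1039 2 1036)
(mv 1035 (cons (fin 1036 3 1035)
(mv 1099 (cons (fin 1034 3 1034)
(mv 1163 (cons (fin 1162 1 1098)
(fin 1164 1 1099)))))))))))))))))
(mv 847 (cons (fin 911 6 846)
(mv 783 (cons (fin 846 6 782)
(mv 1101 (cons (fin 1165 5 909)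
(mv 1103 (cons (fin 1167 4 910)
(mv 1100 (cons (fin 1039 2 1036)
(mv 1035 (cons (fin 1036 3 1035)
(mv 1099 (cons (fin 1034 3 1034)
(mv 1163 (cons (fin 1162 1 1098)
(fin 1164 1 1099)))))))))))))))))))
(cons (mv 845 (cons (fin 909 7 845)
(mv 781 (cons (fin 846 7 781)
(mv 911 (cons (fin 847 6 846)
(mv 1165 (cons (fin 1101 5 909)
(mv 1166 (cons (fin 1229 5 973)
(fin 975 6 910)))))))))))
(cons (mv 845 (cons (fin 909 7 845)
(mv 781 (cons (fin 846 7 781)
(mv 911 (cons (fin 847 6 846)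
(mv 1166 (cons (fin 975 6 910)
(mv 1167 (cons (fin 1103 4 910)
(fin 1231 4 974)))))))))))
(mv 845 (cons (fin 909 7 845)
(mv 847 (cons (fin 911 6 846)
(mv 1101 (cons (fin 1165 5 909)
(mv 1103 (cons (fin 1167 4 910)
(mv 1100 (cons (fin 1039 2 1036)
(mv 1035 (cons (fin 1036 3 1035)
(mv 1099 (cons (fin 1034 3 1034)
(mv 1163 (cons (fin 1162 1 1098)
(fin 1164 1 1099)))))))))))))))))))))
(mv 846 (cons (cons (mv 781 (cons (fin 845 7 781)
(mv 782 (cons (fin 717 7 717)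
(mv 783 (cons (fin 719 6 718)
(fin 847 6 782)))))))
(mv 781 (cons (fin 845 7 781)
(mv 782 (cons (fin 717 7 717)
(mv 1039 (cons (fin 975 4 782)
(fin 1103 4 846))))))))
(cons (mv 783 (cons (fin 847 6 782)
(mv 782 (cons (fin 719 6 718)
(mv 1039 (cons (fin 975 4 782)
(fin 1103 4 846)))))))
(mv 845 (cons (fin 781 7 781)
(mv 847 (cons (fin 783 6 782)
(mv 1039 (cons (fin 1103 4 846)
(mv 911 (cons (mv 844 (cons (fin 843 0 843)
(fin 912 0 844)))
(cons (mv 843 (cons (fin 844 0 843)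
(mv 975 (cons (fin 1104 4 847)
(mv 848 (cons (fin 784 6 783)
(mv 849 (cons (fin 909 1 845)
(fin 850 1 846)))))))))
(mv 912 (cons (fin 913 3 845)
(mv 1104 (cons (fin 976 7 847)
(fin 975 4 847))))))))))))))))))
(cons (mv 1102 (cons (cons (mv 845 (cons (fin 909 7 845)
(mv 847 (cons (fin 911 6 846)
(mv 1101 (cons (fin 1165 5 909)
(mv 1103 (cons (fin 1167 4 910)
(mv 1100 (cons (fin 1039 2 1036)
(mv 1035 (cons (fin 1036 3 1035)
(mv 1099 (cons (fin 1034 3 1034)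
(mv 1163 (cons (fin 1162 1 1098)
(fin 1164 1 1099)))))))))))))))))
(mv 845 (cons (fin 909 7 845)
(mv 1101 (cons (fin 1165 5 909)
(mv 1103 (cons (fin 1167 4 910)
(mv 1100 (cons (fin 1039 2 1036)
(mv 1035 (cons (fin 1036 3 1035)
(mv 1099 (cons (fin 1034 3 1034)
(mv 1163 (cons (fin 1162 1 1098)
(fin 1164 1 1099))))))))))))))))
(cons (mv 847 (cons (fin 911 6 846)
(mv 1101 (cons (fin 1165 5 909)
(mv 1103 (cons (fin 1167 4 910)
(mv 1100 (cons (fin 1039 2 1036)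
(mv 1035 (cons (fin 1036 3 1035)
(mv 1099 (cons (fin 1034 3 1034)
(mv 1163 (cons (fin 1162 1 1098)
(fin 1164 1 1099)))))))))))))))
(cons (mv 845 (cons (fin 909 7 845)
(mv 911 (cons (fin 847 6 846)
(mv 1165 (cons (fin 1101 5 909)
(mv 1166 (cons (fin 1229 5 973)
(fin 975 6 910)))))))))
(mv 845 (cons (fin 909 7 845)
(mv 911 (cons (fin 847 6 846)
(mv 1166 (cons (fin 975 6 910)
(mv 1167 (cons (fin 1103 4 910)
(fin 1231 4 974)))))))))))))
(mv 1102 (cons (cons (mv 845 (cons (fin 909 7 845)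
(mv 781 (cons (fin 846 7 781)
(mv 1101 (cons (fin 1165 5 909)
(mv 1103 (cons (fin 1167 4 910)
(mv 1100 (cons (fin 1039 2 1036)
(mv 1035 (cons (fin 1036 3 1035)
(mv 1099 (cons (fin 1034 3 1034)
(mv 1163 (cons (fin 1162 1 1098)
(fin 1164 1 1099)))))))))))))))))
(cons (mv 845 (cons (fin 909 7 845)
(mv 781 (cons (fin 846 7 781)
(mv 1165 (cons (fin 1101 5 909)
(mv 1166 (cons (fin 1229 5 973)
(mv 975 (cons (fin 911 6 910)
(mv 1230 (cons (fin 1039 6 974)
(mv 1231 (cons (fin 1167 4 974)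
(fin 1295 4 1038)))))))))))))))
(mv 1101 (cons (fin 1165 5 909)
(mv 1103 (cons (fin 1167 4 910)
(mv 1039 (cons (fin 1100 2 1036)
(fin 846 4 846)))))))))
(cons (mv 845 (cons (fin 909 7 845)
(mv 846 (cons (fin 781 7 781)
(mv 1039 (cons (fin 1103 4 846)
(mv 975 (cons (fin 782 4 782)
(mv 1166 (cons (fin 911 6 910)
(fin 1230 6 974)))))))))))
(cons (mv 845 (cons (fin 909 7 845)
(mv 1101 (cons (fin 1165 5 909)
(mv 1103 (cons (fin 1167 4 910)
(mv 1100 (cons (fin 1039 2 1036)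
(mv 1035 (cons (fin 1036 3 1035)
(mv 1099 (cons (fin 1034 3 1034)
(mv 1163 (cons (fin 1162 1 1098)
(fin 1164 1 1099)))))))))))))))
(mv 845 (cons (fin 909 7 845)
(mv 781 (cons (fin 846 7 781)
(mv 1165 (cons (fin 1101 5 909)
(mv 1166 (cons (fin 1229 5 973)
(mv 1167 (cons (fin 1103 4 910)
(fin 1231 4 974)))))))))))))))))
(cons (cons (mv 1102 (cons (cons (mv 845 (cons (fin 909 7 845)
(mv 781 (cons (fin 846 7 781)
(mv 911 (cons (fin 847 6 846)
(mv 1165 (cons (fin 1101 5 909)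
(mv 1166 (cons (fin 1229 5 973)
(fin 975 6 910)))))))))))
(mv 909 (cons (fin 845 7 845)
(mv 1165 (cons (fin 1101 5 909)
(mv 1166 (cons (fin 973 7 909)
(fin 1229 5 973))))))))
(cons (mv 911 (cons (fin 847 6 846)
(mv 1165 (cons (fin 1101 5 909)
(mv 1166 (cons (fin 1229 5 973)
(fin 975 6 910)))))))
(mv 845 (cons (fin 909 7 845)
(mv 846 (cons (fin 781 7 781)
(mv 847 (cons (fin 783 6 782)
(fin 911 6 846))))))))))
(mv 1102 (cons (cons (mv 847 (cons (fin 911 6 846)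
(mv 783 (cons (fin 846 6 782)
(mv 1101 (cons (fin 1165 5 909)
(mv 1103 (cons (fin 1167 4 910)
(mv 1100 (cons (fin 1039 2 1036)
(mv 1035 (cons (fin 1036 3 1035)
(mv 1099 (cons (fin 1034 3 1034)
(mv 1163 (cons (fin 1162 1 1098)
(fin 1164 1 1099)))))))))))))))))
(mv 1101 (cons (fin 1165 5 909)
(mv 1103 (cons (fin 1167 4 910)
(mv 1039 (cons (fin 1100 2 1036)
(fin 846 4 846))))))))
(cons (mv 911 (cons (fin 847 6 846)
(mv 1165 (cons (fin 1101 5 909)
(mv 1166 (cons (fin 1229 5 973)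
(fin 975 6 910)))))))
(mv 847 (cons (fin 911 6 846)
(mv 846 (cons (fin 783 6 782)
(mv 1103 (cons (fin 1039 4 846)
(fin 1167 4 910)))))))))))
(cons (mv 846 (cons (cons (mv 781 (cons (fin 845 7 781)
(mv 782 (cons (fin 717 7 717)
(mv 783 (cons (fin 719 6 718)
(fin 847 6 782)))))))
(mv 783 (cons (fin 847 6 782)
(mv 782 (cons (fin 719 6 718)
(mv 1039 (cons (fin 975 4 782)
(fin 1103 4 846))))))))
(cons (mv 781 (cons (fin 845 7 781)
(mv 782 (cons (fin 717 7 717)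
(mv 1039 (cons (fin 975 4 782)
(fin 1103 4 846)))))))
(mv 783 (cons (fin 847 6 782)
(mv 845 (cons (fin 781 7 781)
(mv 1039 (cons (fin 1103 4 846)
(mv 1102 (cons (fin 909 7 845)
(mv 1165 (cons (fin 1101 5 909)
(mv 1166 (cons (fin 1229 5 973)
(mv 1230 (cons (fin 975 6 974)
(mv 1231 (cons (fin 1167 4 974)
(fin 1295 4 1038))))))))))))))))))))
(mv 1102 (cons (cons (mv 845 (cons (fin 909 7 845)
(mv 781 (cons (fin 846 7 781)
(mv 847 (cons (fin 911 6 846)
(mv 1101 (cons (fin 1165 5 909)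
(mv 1103 (cons (fin 1167 4 910)
(mv 1100 (cons (fin 1039 2 1036)
(mv 1035 (cons (fin 1036 3 1035)
(mv 1099 (cons (fin 1034 3 1034)
(mv 1163 (cons (fin 1162 1 1098)
(fin 1164 1 1099)))))))))))))))))))
(mv 845 (cons (fin 909 7 845)
(mv 846 (cons (fin 781 7 781)
(mv 847 (cons (fin 783 6 782)
(fin 911 6 846))))))))
(cons (mv 847 (cons (fin 911 6 846)
(mv 783 (cons (fin 846 6 782)
(mv 1101 (cons (fin 1165 5 909)
(mv 1103 (cons (fin 1167 4 910)
(mv 1100 (cons (fin 1039 2 1036)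
(mv 1035 (cons (fin 1036 3 1035)
(mv 1099 (cons (fin 1034 3 1034)
(mv 1163 (cons (fin 1162 1 1098)
(fin 1164 1 1099)))))))))))))))))
(cons (mv 845 (cons (fin 909 7 845)
(mv 781 (cons (fin 846 7 781)
(mv 1101 (cons (fin 1165 5 909)
(mv 1103 (cons (fin 1167 4 910)
(mv 1100 (cons (fin 1039 2 1036)
(mv 1035 (cons (fin 1036 3 1035)
(mv 1099 (cons (fin 1034 3 1034)
(mv 1163 (cons (fin 1162 1 1098)
(fin 1164 1 1099)))))))))))))))))
(mv 845 (cons (fin 909 7 845)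
(mv 847 (cons (fin 911 6 846)
(mv 1101 (cons (fin 1165 5 909)
(mv 1103 (cons (fin 1167 4 910)
(mv 1100 (cons (fin 1039 2 1036)
(mv 1035 (cons (fin 1036 3 1035)
(mv 1099 (cons (fin 1034 3 1034)
(mv 1163 (cons (fin 1162 1 1098)
(fin 1164 1 1099)))))))))))))))))))))))))
(mv 846 (cons (cons (mv 782 (cons (cons (mv 717 (cons (fin 781 7 717)
(mv 653 (cons (fin 718 7 653)
(mv 783 (cons (fin 719 6 718)
(mv 847 (cons (fin 1038 6 782)
(mv 973 (cons (fin 1037 5 781)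
(mv 975 (cons (fin 1039 4 782)
(mv 911 (cons (fin 976 4 783)
(mv 912 (cons (fin 913 1 909)
(fin 972 2 908)))))))))))))))))
(mv 717 (cons (fin 781 7 717)
(mv 653 (cons (fin 718 7 653)
(mv 783 (cons (fin 719 6 718)
(mv 847 (cons (fin 1038 6 782)
(mv 975 (cons (fin 1039 4 782)
(mv 911 (cons (fin 976 4 783)
(mv 784 (cons (fin 720 6 719)
(mv 785 (cons (fin 845 1 781)
(fin 786 1 782))))))))))))))))))
(cons (mv 717 (cons (fin 781 7 717)
(mv 718 (cons (fin 653 7 653)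
(mv 973 (cons (fin 909 5 717)
(fin 1037 5 781)))))))
(cons (mv 719 (cons (fin 783 6 718)
(mv 718 (cons (fin 655 6 654)
(mv 973 (cons (fin 909 5 717)
(fin 1037 5 781)))))))
(mv 717 (cons (fin 781 7 717)
(mv 783 (cons (fin 719 6 718)
(mv 847 (cons (fin 1038 6 782)
(mv 973 (cons (fin 1037 5 781)
(mv 975 (cons (fin 1039 4 782)
(mv 911 (cons (fin 976 4 783)
(mv 912 (cons (fin 913 1 909)
(fin 972 2 908)))))))))))))))))))
(cons (mv 1038 (cons (cons (mv 781 (cons (fin 845 7 781)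
(mv 847 (cons (fin 783 6 782)
(mv 1101 (cons (fin 1037 5 845)
(mv 1102 (cons (fin 1165 5 909)
(fin 911 6 846)))))))))
(mv 845 (cons (fin 781 7 781)
(mv 1101 (cons (fin 1037 5 845)
(mv 1102 (cons (fin 909 7 845)
(fin 1165 5 909))))))))
(cons (mv 847 (cons (fin 783 6 782)
(mv 1101 (cons (fin 1037 5 845)
(mv 1102 (cons (fin 1165 5 909)
(fin 911 6 846)))))))
(cons (mv 845 (cons (fin 781 7 781)
(mv 847 (cons (fin 783 6 782)
(mv 1102 (cons (fin 909 7 845)
(fin 911 6 846)))))))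
(mv 781 (cons (fin 845 7 781)
(mv 847 (cons (fin 783 6 782)
(mv 1037 (cons (fin 1101 5 845)
(mv 1039 (cons (cons (mv 972 (cons (fin 973 3 972)
(mv 971 (cons (fin 1036 3 971)
(mv 976 (cons (fin 977 2 973)
(mv 1104 (cons (fin 1105 0 1037)
(mv 911 (cons (fin 912 7 847)
(fin 975 4 847)))))))))))
(cons (mv 976 (cons (fin 977 2 973)
(mv 975 (cons (fin 1036 2 972)
(mv 1104 (cons (fin 1105 0 1037)
(fin 911 4 847)))))))
(mv 972 (cons (fin 973 3 972)
(mv 1036 (cons (fin 971 3 971)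
(mv 975 (cons (fin 1035 2 971)
(mv 1104 (cons (fin 1105 0 1037)
(fin 911 4 847)))))))))))
(cons (mv 972 (cons (fin 973 3 972)
(mv 976 (cons (fin 977 2 973)
(mv 1036 (cons (fin 971 3 971)
(fin 975 2 972)))))))
(cons (mv 972 (cons (fin 973 3 972)
(mv 971 (cons (fin 1036 3 971)
(mv 976 (cons (fin 977 2 973)
(mv 1104 (cons (fin 1105 0 1037)
(mv 912 (cons (fin 911 7 847)
(mv 849 (cons (fin 913 6 848)
(mv 848 (cons (fin 909 1 845)
(fin 785 6 784)))))))))))))))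
(mv 972 (cons (fin 973 3 972)
(mv 976 (cons (fin 977 2 973)
(mv 1104 (cons (fin 1105 0 1037)
(mv 911 (cons (fin 912 7 847)
(fin 975 4 847)))))))))))))))))))))))
(mv 782 (cons (cons (mv 717 (cons (fin 781 7 717)
(mv 718 (cons (fin 653 7 653)
(mv 719 (cons (fin 655 6 654)
(fin 783 6 718)))))))
(mv 719 (cons (fin 783 6 718)
(mv 718 (cons (fin 655 6 654)
(mv 973 (cons (fin 909 5 717)
(fin 1037 5 781))))))))
(cons (mv 717 (cons (fin 781 7 717)
(mv 718 (cons (fin 653 7 653)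
(mv 973 (cons (fin 909 5 717)
(fin 1037 5 781)))))))
(mv 717 (cons (fin 781 7 717)
(mv 719 (cons (fin 783 6 718)
(mv 973 (cons (fin 1037 5 781)
(mv 975 (cons (fin 1039 4 782)
(mv 972 (cons (mv 911 (cons (fin 971 2 907)
(fin 912 2 908)))
(cons (mv 907 (cons (fin 908 3 907)
(mv 971 (cons (fin 906 3 906)
(mv 1035 (cons (fin 1034 1 970)
(fin 1036 1 971)))))))
(mv 908 (cons (fin 907 3 907)
(mv 909 (cons (fin 976 3 908)
(mv 911 (cons (fin 912 1 908)
(mv 843 (cons (fin 844 3 843)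
(mv 847 (cons (fin 848 2 844)
(mv 1036 (cons (fin 1035 1 971)
(mv 1100 (cons (fin 845 6 844)
(fin 1164 6 908)))))))))))))))))))))))))))))))
(cons (cons (mv 782 (cons (cons (mv 717 (cons (fin 781 7 717)
(mv 653 (cons (fin 718 7 653)
(mv 783 (cons (fin 719 6 718)
(mv 847 (cons (fin 1038 6 782)
(mv 975 (cons (fin 1039 4 782)
(mv 911 (cons (fin 976 4 783)
(mv 784 (cons (fin 720 6 719)
(mv 785 (cons (fin 845 1 781)
(fin 786 1 782)))))))))))))))))
(mv 717 (cons (fin 781 7 717)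
(mv 718 (cons (fin 653 7 653)
(mv 975 (cons (fin 911 4 718)
(fin 1039 4 782))))))))
(cons (mv 719 (cons (fin 783 6 718)
(mv 718 (cons (fin 655 6 654)
(mv 975 (cons (fin 911 4 718)
(fin 1039 4 782)))))))
(cons (mv 717 (cons (fin 781 7 717)
(mv 718 (cons (fin 653 7 653)
(mv 719 (cons (fin 655 6 654)
(fin 783 6 718)))))))
(mv 717 (cons (fin 781 7 717)
(mv 783 (cons (fin 719 6 718)
(mv 847 (cons (fin 1038 6 782)
(mv 975 (cons (fin 1039 4 782)
(mv 911 (cons (fin 976 4 783)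
(mv 784 (cons (fin 720 6 719)
(mv 785 (cons (fin 845 1 781)
(fin 786 1 782)))))))))))))))))))
(mv 782 (cons (cons (mv 717 (cons (fin 781 7 717)
(mv 718 (cons (fin 653 7 653)
(mv 973 (cons (fin 909 5 717)
(fin 1037 5 781)))))))
(mv 717 (cons (fin 781 7 717)
(mv 718 (cons (fin 653 7 653)
(mv 975 (cons (fin 911 4 718)
(fin 1039 4 782))))))))
(cons (mv 973 (cons (fin 1037 5 781)
(mv 718 (cons (fin 909 5 717)
(mv 975 (cons (fin 911 4 718)
(fin 1039 4 782)))))))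
(mv 781 (cons (fin 717 7 717)
(mv 975 (cons (fin 1039 4 782)
(mv 1037 (cons (fin 973 5 781)
(mv 1038 (cons (fin 845 7 781)
(fin 1101 5 845)))))))))))))
(cons (mv 782 (cons (cons (mv 719 (cons (fin 783 6 718)
(mv 718 (cons (fin 655 6 654)
(mv 973 (cons (fin 909 5 717)
(fin 1037 5 781)))))))
(mv 719 (cons (fin 783 6 718)
(mv 718 (cons (fin 655 6 654)
(mv 975 (cons (fin 911 4 718)
(fin 1039 4 782))))))))
(cons (mv 973 (cons (fin 1037 5 781)
(mv 718 (cons (fin 909 5 717)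
(mv 975 (cons (fin 911 4 718)
(fin 1039 4 782)))))))
(mv 783 (cons (fin 719 6 718)
(mv 847 (cons (fin 1038 6 782)
(mv 973 (cons (fin 1037 5 781)
(mv 975 (cons (fin 1039 4 782)
(mv 911 (cons (fin 976 4 783)
(mv 912 (cons (fin 913 1 909)
(fin 972 2 908))))))))))))))))
(mv 782 (cons (cons (mv 717 (cons (fin 781 7 717)
(mv 653 (cons (fin 718 7 653)
(mv 783 (cons (fin 719 6 718)
(mv 1037 (cons (fin 973 5 781)
(mv 1038 (cons (fin 1101 5 845)
(fin 847 6 782)))))))))))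
(mv 719 (cons (fin 783 6 718)
(mv 718 (cons (fin 655 6 654)
(mv 973 (cons (fin 909 5 717)
(fin 1037 5 781))))))))
(cons (mv 717 (cons (fin 781 7 717)
(mv 718 (cons (fin 653 7 653)
(mv 973 (cons (fin 909 5 717)
(fin 1037 5 781)))))))
(cons (mv 717 (cons (fin 781 7 717)
(mv 718 (cons (fin 653 7 653)
(mv 719 (cons (fin 655 6 654)
(fin 783 6 718)))))))
(mv 717 (cons (fin 781 7 717)
(mv 783 (cons (fin 719 6 718)
(mv 1037 (cons (fin 973 5 781)
(mv 1038 (cons (fin 1101 5 845)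
(fin 847 6 782)))))))))))))))))))
(cons (cons (mv 846 (cons (cons (mv 782 (cons (cons (cons (mv 717 (cons (fin 781 7 717)
(mv 653 (cons (fin 718 7 653)
(mv 719 (cons (fin 783 6 718)
(mv 1037 (cons (fin 973 5 781)
(mv 1038 (cons (fin 1101 5 845)
(mv 1039 (cons (fin 975 4 782)
(fin 1103 4 846)))))))))))))
(mv 717 (cons (fin 781 7 717)
(mv 653 (cons (fin 718 7 653)
(mv 783 (cons (fin 719 6 718)
(mv 973 (cons (fin 1037 5 781)
(mv 1038 (cons (fin 847 6 782)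
(mv 1103 (cons (fin 1039 4 846)
(mv 1102 (cons (fin 1167 4 910)
(mv 1165 (cons (fin 1101 5 909)
(mv 1166 (cons (fin 909 7 909)
(fin 1229 5 973))))))))))))))))))))
(cons (mv 717 (cons (fin 781 7 717)
(mv 653 (cons (fin 718 7 653)
(mv 783 (cons (fin 719 6 718)
(mv 847 (cons (fin 1038 6 782)
(mv 975 (cons (fin 1039 4 782)
(mv 911 (cons (fin 976 4 783)
(mv 784 (cons (fin 720 6 719)
(mv 785 (cons (fin 786 1 782)
(mv 721 (cons (fin 722 2 718)
(mv 849 (cons (fin 850 0 782)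
(mv 848 (cons (fin 909 1 845)
(mv 657 (cons (fin 593 5 592)
(fin 912 5 656)))))))))))))))))))))))))
(mv 717 (cons (fin 781 7 717)
(mv 653 (cons (fin 718 7 653)
(mv 783 (cons (fin 719 6 718)
(mv 1037 (cons (fin 973 5 781)
(mv 1038 (cons (fin 1101 5 845)
(fin 847 6 782)))))))))))))
(cons (cons (mv 717 (cons (fin 781 7 717)
(mv 653 (cons (fin 718 7 653)
(mv 1037 (cons (fin 973 5 781)
(mv 1038 (cons (fin 1101 5 845)
(mv 1039 (cons (fin 975 4 782)
(fin 1103 4 846)))))))))))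
(mv 719 (cons (fin 783 6 718)
(mv 655 (cons (fin 718 6 654)
(mv 1037 (cons (fin 973 5 781)
(mv 1038 (cons (fin 1101 5 845)
(mv 1039 (cons (fin 975 4 782)
(fin 1103 4 846))))))))))))
(cons (mv 717 (cons (fin 781 7 717)
(mv 719 (cons (fin 783 6 718)
(mv 1037 (cons (fin 973 5 781)
(mv 1038 (cons (fin 1101 5 845)
(mv 1039 (cons (fin 975 4 782)
(fin 1103 4 846)))))))))))
(mv 717 (cons (fin 781 7 717)
(mv 718 (cons (fin 653 7 653)
(mv 719 (cons (fin 655 6 654)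
(fin 783 6 718)))))))))))
(cons (mv 1038 (cons (cons (mv 783 (cons (fin 847 6 782)
(mv 1037 (cons (fin 1101 5 845)
(mv 1039 (cons (fin 1103 4 846)
(mv 972 (cons (fin 973 3 972)
(mv 976 (cons (fin 977 2 973)
(mv 1036 (cons (fin 971 3 971)
(fin 975 2 972)))))))))))))
(mv 1037 (cons (fin 1101 5 845)
(mv 1039 (cons (fin 1103 4 846)
(mv 972 (cons (fin 973 3 972)
(mv 976 (cons (fin 977 2 973)
(mv 1036 (cons (fin 971 3 971)
(fin 975 2 972))))))))))))
(cons (mv 847 (cons (fin 783 6 782)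
(mv 911 (cons (fin 1102 6 846)
(mv 1039 (cons (fin 1103 4 846)
(mv 975 (cons (fin 1104 4 847)
(mv 848 (cons (fin 784 6 783)
(mv 849 (cons (fin 909 1 845)
(fin 850 1 846)))))))))))))
(mv 847 (cons (fin 783 6 782)
(mv 1101 (cons (fin 1037 5 845)
(mv 1102 (cons (fin 1165 5 909)
(fin 911 6 846))))))))))
(mv 782 (cons (cons (mv 717 (cons (fin 781 7 717)
(mv 718 (cons (fin 653 7 653)
(mv 719 (cons (fin 655 6 654)
(fin 783 6 718)))))))
(mv 717 (cons (fin 781 7 717)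
(mv 718 (cons (fin 653 7 653)
(mv 973 (cons (fin 909 5 717)
(fin 1037 5 781))))))))
(cons (mv 719 (cons (fin 783 6 718)
(mv 718 (cons (fin 655 6 654)
(mv 973 (cons (fin 909 5 717)
(fin 1037 5 781)))))))
(mv 717 (cons (fin 781 7 717)
(mv 719 (cons (fin 783 6 718)
(mv 973 (cons (fin 1037 5 781)
(mv 975 (cons (fin 1039 4 782)
(mv 972 (cons (mv 911 (cons (fin 971 2 907)
(fin 912 2 908)))
(cons (mv 907 (cons (fin 908 3 907)
(mv 971 (cons (fin 906 3 906)
(mv 1035 (cons (fin 1034 1 970)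
(fin 1036 1 971)))))))
(mv 908 (cons (fin 907 3 907)
(mv 912 (cons (fin 911 2 908)
(mv 976 (cons (fin 909 3 908)
(fin 913 2 909)))))))))))))))))))))))
(cons (cons (mv 782 (cons (cons (mv 717 (cons (fin 781 7 717)
(mv 653 (cons (fin 718 7 653)
(mv 783 (cons (fin 719 6 718)
(mv 1037 (cons (fin 973 5 781)
(mv 1038 (cons (fin 1101 5 845)
(fin 847 6 782)))))))))))
(mv 717 (cons (fin 781 7 717)
(mv 718 (cons (fin 653 7 653)
(mv 719 (cons (fin 655 6 654)
(fin 783 6 718))))))))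
(cons (mv 717 (cons (fin 781 7 717)
(mv 718 (cons (fin 653 7 653)
(mv 973 (cons (fin 909 5 717)
(fin 1037 5 781)))))))
(cons (mv 719 (cons (fin 783 6 718)
(mv 718 (cons (fin 655 6 654)
(mv 973 (cons (fin 909 5 717)
(fin 1037 5 781)))))))
(mv 717 (cons (fin 781 7 717)
(mv 783 (cons (fin 719 6 718)
(mv 1037 (cons (fin 973 5 781)
(mv 1038 (cons (fin 1101 5 845)
(fin 847 6 782)))))))))))))
(mv 782 (cons (cons (mv 717 (cons (fin 781 7 717)
(mv 653 (cons (fin 718 7 653)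
(mv 783 (cons (fin 719 6 718)
(mv 847 (cons (fin 1038 6 782)
(mv 975 (cons (fin 1039 4 782)
(mv 911 (cons (fin 976 4 783)
(mv 784 (cons (fin 720 6 719)
(mv 785 (cons (fin 786 1 782)
(mv 721 (cons (fin 722 2 718)
(mv 849 (cons (fin 850 0 782)
(mv 848 (cons (fin 909 1 845)
(mv 657 (cons (fin 593 5 592)
(fin 912 5 656)))))))))))))))))))))))))
(mv 717 (cons (fin 781 7 717)
(mv 718 (cons (fin 653 7 653)
(mv 719 (cons (fin 655 6 654)
(fin 783 6 718))))))))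
(cons (mv 717 (cons (fin 781 7 717)
(mv 718 (cons (fin 653 7 653)
(mv 975 (cons (fin 911 4 718)
(fin 1039 4 782)))))))
(cons (mv 719 (cons (fin 783 6 718)
(mv 718 (cons (fin 655 6 654)
(mv 975 (cons (fin 911 4 718)
(fin 1039 4 782)))))))
(mv 717 (cons (fin 781 7 717)
(mv 783 (cons (fin 719 6 718)
(mv 847 (cons (fin 1038 6 782)
(mv 975 (cons (fin 1039 4 782)
(mv 911 (cons (fin 976 4 783)
(mv 784 (cons (fin 720 6 719)
(mv 785 (cons (fin 786 1 782)
(mv 721 (cons (fin 722 2 718)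
(mv 849 (cons (fin 850 0 782)
(mv 848 (cons (fin 909 1 845)
(mv 657 (cons (fin 593 5 592)
(fin 912 5 656))))))))))))))))))))))))))))
(cons (mv 782 (cons (cons (mv 717 (cons (fin 781 7 717)
(mv 653 (cons (fin 718 7 653)
(mv 1037 (cons (fin 973 5 781)
(mv 1038 (cons (fin 1101 5 845)
(mv 1039 (cons (fin 975 4 782)
(fin 1103 4 846)))))))))))
(mv 717 (cons (fin 781 7 717)
(mv 718 (cons (fin 653 7 653)
(mv 973 (cons (fin 909 5 717)
(fin 1037 5 781))))))))
(cons (mv 717 (cons (fin 781 7 717)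
(mv 718 (cons (fin 653 7 653)
(mv 975 (cons (fin 911 4 718)
(fin 1039 4 782)))))))
(cons (mv 973 (cons (fin 1037 5 781)
(mv 718 (cons (fin 909 5 717)
(mv 975 (cons (fin 911 4 718)
(fin 1039 4 782)))))))
(mv 717 (cons (fin 781 7 717)
(mv 1037 (cons (fin 973 5 781)
(mv 1038 (cons (fin 1101 5 845)
(mv 1039 (cons (fin 975 4 782)
(fin 1103 4 846)))))))))))))
(mv 782 (cons (cons (mv 717 (cons (fin 781 7 717)
(mv 653 (cons (fin 718 7 653)
(mv 719 (cons (fin 783 6 718)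
(mv 1037 (cons (fin 973 5 781)
(mv 1038 (cons (fin 1101 5 845)
(mv 1039 (cons (fin 975 4 782)
(fin 1103 4 846)))))))))))))
(cons (mv 717 (cons (fin 781 7 717)
(mv 653 (cons (fin 718 7 653)
(mv 783 (cons (fin 719 6 718)
(mv 1037 (cons (fin 973 5 781)
(mv 1038 (cons (fin 1101 5 845)
(fin 847 6 782)))))))))))
(mv 717 (cons (fin 781 7 717)
(mv 653 (cons (fin 718 7 653)
(mv 1037 (cons (fin 973 5 781)
(mv 1038 (cons (fin 1101 5 845)
(mv 1039 (cons (fin 975 4 782)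
(fin 1103 4 846)))))))))))))
(cons (cons (mv 717 (cons (fin 781 7 717)
(mv 653 (cons (fin 718 7 653)
(mv 783 (cons (fin 719 6 718)
(mv 847 (cons (fin 1038 6 782)
(mv 975 (cons (fin 1039 4 782)
(mv 976 (cons (fin 911 4 783)
(mv 848 (cons (fin 912 7 783)
(mv 849 (cons (fin 850 3 782)
(mv 785 (cons (fin 786 2 782)
(mv 913 (cons (fin 914 0 846)
(fin 977 5 784)))))))))))))))))))))
(mv 719 (cons (fin 783 6 718)
(mv 655 (cons (fin 718 6 654)
(mv 1037 (cons (fin 973 5 781)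
(mv 1038 (cons (fin 1101 5 845)
(mv 1039 (cons (fin 975 4 782)
(fin 1103 4 846))))))))))))
(cons (mv 717 (cons (fin 781 7 717)
(mv 718 (cons (fin 653 7 653)
(mv 719 (cons (fin 655 6 654)
(fin 783 6 718)))))))
(mv 717 (cons (fin 781 7 717)
(mv 719 (cons (fin 783 6 718)
(mv 1037 (cons (fin 973 5 781)
(mv 1038 (cons (fin 1101 5 845)
(mv 1039 (cons (fin 975 4 782)
(fin 1103 4 846)))))))))))))))))))
(mv 1038 (cons (cons (cons (mv 1102 (cons (cons (cons (mv 845 (cons (fin 909 7 845)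
(mv 781 (cons (fin 846 7 781)
(mv 847 (cons (fin 911 6 846)
(mv 1101 (cons (fin 1165 5 909)
(mv 1103 (cons (fin 1167 4 910)
(mv 1100 (cons (fin 1039 2 1036)
(mv 1035 (cons (fin 1036 3 1035)
(mv 1099 (cons (fin 1034 3 1034)
(mv 1163 (cons (fin 1162 1 1098)
(fin 1164 1 1099)))))))))))))))))))
(mv 845 (cons (fin 909 7 845)
(mv 781 (cons (fin 846 7 781)
(mv 911 (cons (fin 847 6 846)
(mv 1101 (cons (fin 1165 5 909)
(mv 1166 (cons (fin 975 6 910)
(mv 1167 (cons (fin 1231 4 974)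
(mv 1100 (cons (fin 1099 0 1099)
(mv 1037 (cons (fin 1039 1 1036)
(mv 1230 (cons (fin 973 7 973)
(fin 1294 7 1037))))))))))))))))))))
(cons (mv 845 (cons (fin 909 7 845)
(mv 781 (cons (fin 846 7 781)
(mv 911 (cons (fin 847 6 846)
(mv 1103 (cons (fin 1167 4 910)
(mv 1166 (cons (fin 975 6 910)
(mv 1229 (cons (fin 1165 5 973)
(mv 1230 (cons (fin 1293 5 1037)
(mv 973 (cons (fin 1037 7 973)
(mv 912 (cons (fin 913 1 909)
(mv 971 (cons (fin 972 2 907)
(mv 1294 (cons (fin 1039 6 1038)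
(mv 1295 (cons (fin 1231 4 1038)
(fin 1359 4 1102)))))))))))))))))))))))))
(mv 847 (cons (fin 911 6 846)
(mv 1101 (cons (fin 1165 5 909)
(mv 846 (cons (fin 1037 5 845)
(mv 1103 (cons (fin 1039 4 846)
(fin 1167 4 910)))))))))))
(cons (cons (mv 845 (cons (fin 909 7 845)
(mv 781 (cons (fin 846 7 781)
(mv 1101 (cons (fin 1165 5 909)
(mv 1103 (cons (fin 1167 4 910)
(mv 1100 (cons (fin 1039 2 1036)
(mv 1035 (cons (fin 1036 3 1035)
(mv 1099 (cons (fin 1034 3 1034)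
(mv 1163 (cons (fin 1162 1 1098)
(fin 1164 1 1099)))))))))))))))))
(mv 845 (cons (fin 909 7 845)
(mv 781 (cons (fin 846 7 781)
(mv 911 (cons (fin 847 6 846)
(mv 1165 (cons (fin 1101 5 909)
(mv 1166 (cons (fin 1229 5 973)
(fin 975 6 910))))))))))))
(cons (mv 845 (cons (fin 909 7 845)
(mv 781 (cons (fin 846 7 781)
(mv 911 (cons (fin 847 6 846)
(mv 1166 (cons (fin 975 6 910)
(mv 1167 (cons (fin 1103 4 910)
(fin 1231 4 974)))))))))))
(mv 845 (cons (fin 909 7 845)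
(mv 847 (cons (fin 911 6 846)
(mv 1101 (cons (fin 1165 5 909)
(mv 1103 (cons (fin 1167 4 910)
(mv 1100 (cons (fin 1039 2 1036)
(mv 1035 (cons (fin 1036 3 1035)
(mv 1099 (cons (fin 1034 3 1034)
(mv 1163 (cons (fin 1162 1 1098)
(fin 1164 1 1099)))))))))))))))))))))
(mv 846 (cons (cons (mv 781 (cons (fin 845 7 781)
(mv 717 (cons (fin 782 7 717)
(mv 1037 (cons (fin 1101 5 845)
(mv 1039 (cons (fin 1103 4 846)
(mv 972 (cons (fin 973 3 972)
(mv 976 (cons (fin 977 2 973)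
(mv 1036 (cons (fin 971 3 971)
(fin 975 2 972)))))))))))))))
(mv 781 (cons (fin 845 7 781)
(mv 782 (cons (fin 717 7 717)
(mv 1037 (cons (fin 973 5 781)
(fin 1101 5 845))))))))
(cons (mv 781 (cons (fin 845 7 781)
(mv 782 (cons (fin 717 7 717)
(mv 1039 (cons (fin 975 4 782)
(fin 1103 4 846)))))))
(cons (mv 1037 (cons (fin 1101 5 845)
(mv 782 (cons (fin 973 5 781)
(mv 1039 (cons (fin 975 4 782)
(fin 1103 4 846)))))))
(mv 781 (cons (fin 845 7 781)
(mv 1037 (cons (fin 1101 5 845)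
(mv 1039 (cons (fin 1103 4 846)
(mv 972 (cons (fin 973 3 972)
(mv 976 (cons (fin 977 2 973)
(mv 1036 (cons (fin 971 3 971)
(fin 975 2 972))))))))))))))))))
(cons (mv 1102 (cons (cons (mv 845 (cons (fin 909 7 845)
(mv 847 (cons (fin 911 6 846)
(mv 1101 (cons (fin 1165 5 909)
(mv 1103 (cons (fin 1167 4 910)
(mv 1100 (cons (fin 1039 2 1036)
(mv 1035 (cons (fin 1036 3 1035)
(mv 1099 (cons (fin 1034 3 1034)
(mv 1163 (cons (fin 1162 1 1098)
(fin 1164 1 1099)))))))))))))))))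
(mv 847 (cons (fin 911 6 846)
(mv 1101 (cons (fin 1165 5 909)
(mv 1103 (cons (fin 1167 4 910)
(mv 1100 (cons (fin 1039 2 1036)
(mv 1035 (cons (fin 1036 3 1035)
(mv 1099 (cons (fin 1034 3 1034)
(mv 1163 (cons (fin 1162 1 1098)
(fin 1164 1 1099))))))))))))))))
(cons (mv 845 (cons (fin 909 7 845)
(mv 1101 (cons (fin 1165 5 909)
(mv 1103 (cons (fin 1167 4 910)
(mv 1100 (cons (fin 1039 2 1036)
(mv 1035 (cons (fin 1036 3 1035)
(mv 1099 (cons (fin 1034 3 1034)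
(mv 1163 (cons (fin 1162 1 1098)
(fin 1164 1 1099)))))))))))))))
(cons (mv 845 (cons (fin 909 7 845)
(mv 911 (cons (fin 847 6 846)
(mv 1165 (cons (fin 1101 5 909)
(mv 1166 (cons (fin 1229 5 973)
(fin 975 6 910)))))))))
(mv 845 (cons (fin 909 7 845)
(mv 911 (cons (fin 847 6 846)
(mv 1166 (cons (fin 975 6 910)
(mv 1167 (cons (fin 1103 4 910)
(fin 1231 4 974)))))))))))))
(mv 1102 (cons (cons (mv 845 (cons (fin 909 7 845)
(mv 781 (cons (fin 846 7 781)
(mv 911 (cons (fin 847 6 846)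
(mv 1103 (cons (fin 1167 4 910)
(mv 1166 (cons (fin 975 6 910)
(mv 1229 (cons (fin 1165 5 973)
(mv 1230 (cons (fin 1293 5 1037)
(mv 973 (cons (fin 1037 7 973)
(mv 912 (cons (fin 913 1 909)
(mv 971 (cons (fin 972 2 907)
(mv 1294 (cons (fin 1039 6 1038)
(mv 1295 (cons (fin 1231 4 1038)
(fin 1359 4 1102)))))))))))))))))))))))))
(cons (mv 911 (cons (fin 847 6 846)
(mv 975 (cons (fin 1166 6 910)
(mv 1103 (cons (fin 1167 4 910)
(mv 846 (cons (fin 1039 7 846)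
(mv 781 (cons (fin 845 7 781)
(mv 782 (cons (fin 717 7 717)
(fin 718 4 718)))))))))))))
(mv 845 (cons (fin 909 7 845)
(mv 781 (cons (fin 846 7 781)
(mv 911 (cons (fin 847 6 846)
(mv 1166 (cons (fin 975 6 910)
(mv 1229 (cons (fin 1165 5 973)
(mv 1230 (cons (fin 1293 5 1037)
(mv 1231 (cons (fin 1167 4 974)
(fin 1295 4 1038)))))))))))))))))
(cons (cons (mv 845 (cons (fin 909 7 845)
(mv 846 (cons (fin 781 7 781)
(mv 1103 (cons (fin 1039 4 846)
(fin 1167 4 910)))))))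
(mv 845 (cons (fin 909 7 845)
(mv 846 (cons (fin 781 7 781)
(mv 911 (cons (fin 847 6 846)
(mv 843 (cons (fin 844 0 843)
(mv 912 (cons (fin 913 3 845)
(mv 975 (cons (fin 1166 6 910)
(mv 782 (cons (fin 718 4 718)
(fin 1039 4 782))))))))))))))))
(cons (mv 847 (cons (fin 911 6 846)
(mv 1167 (cons (fin 1103 4 910)
(mv 1166 (cons (fin 1231 4 974)
(mv 973 (cons (fin 909 7 909)
(mv 1037 (cons (fin 1230 7 973)
(mv 782 (cons (fin 846 5 781)
(mv 972 (cons (fin 1039 3 972)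
(mv 971 (cons (fin 970 0 970)
(mv 906 (cons (fin 907 3 906)
(mv 1035 (cons (fin 1034 1 970)
(mv 1036 (cons (fin 975 1 971)
(mv 1099 (cons (fin 1098 1 1034)
(mv 908 (cons (fin 844 5 843)
(fin 1163 6 907)))))))))))))))))))))))))))
(mv 845 (cons (fin 909 7 845)
(mv 911 (cons (fin 847 6 846)
(mv 1103 (cons (fin 1167 4 910)
(mv 1166 (cons (fin 975 6 910)
(mv 1229 (cons (fin 1165 5 973)
(mv 1230 (cons (fin 1293 5 1037)
(mv 973 (cons (fin 1037 7 973)
(mv 912 (cons (fin 913 1 909)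
(mv 971 (cons (fin 972 2 907)
(mv 1294 (cons (fin 1039 6 1038)
(mv 1295 (cons (fin 1231 4 1038)
(fin 1359 4 1102)))))))))))))))))))))))))))))
(cons (cons (mv 1102 (cons (cons (mv 845 (cons (fin 909 7 845)
(mv 781 (cons (fin 846 7 781)
(mv 911 (cons (fin 847 6 846)
(mv 1101 (cons (fin 1165 5 909)
(mv 1166 (cons (fin 975 6 910)
(mv 1167 (cons (fin 1231 4 974)
(mv 1100 (cons (fin 1099 0 1099)
(mv 1037 (cons (fin 1039 1 1036)
(mv 1230 (cons (fin 973 7 973)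
(fin 1294 7 1037)))))))))))))))))))
(cons (mv 847 (cons (fin 911 6 846)
(mv 1101 (cons (fin 1165 5 909)
(mv 1037 (cons (fin 846 5 845)
(mv 1039 (cons (fin 1100 1 1036)
(mv 972 (cons (fin 973 3 972)
(mv 976 (cons (fin 977 2 973)
(mv 1036 (cons (fin 971 3 971)
(fin 975 2 972)))))))))))))))
(mv 845 (cons (fin 909 7 845)
(mv 781 (cons (fin 846 7 781)
(mv 911 (cons (fin 847 6 846)
(mv 1166 (cons (fin 975 6 910)
(mv 1229 (cons (fin 1165 5 973)
(mv 1230 (cons (fin 1293 5 1037)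
(mv 1231 (cons (fin 1167 4 974)
(fin 1295 4 1038)))))))))))))))))
(cons (mv 845 (cons (fin 909 7 845)
(mv 846 (cons (fin 781 7 781)
(mv 1101 (cons (fin 1037 5 845)
(fin 1165 5 909)))))))
(cons (mv 845 (cons (fin 909 7 845)
(mv 781 (cons (fin 846 7 781)
(mv 911 (cons (fin 847 6 846)
(mv 1166 (cons (fin 975 6 910)
(mv 1231 (cons (fin 1167 4 974)
(mv 1230 (cons (fin 1295 4 1038)
(mv 1037 (cons (fin 973 7 973)
(mv 1101 (cons (fin 1294 7 1037)
(mv 1100 (cons (fin 1039 1 1036)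
(mv 1099 (cons (fin 1098 2 1034)
(mv 1035 (cons (fin 1034 3 1034)
(mv 1163 (cons (fin 1162 1 1098)
(mv 1229 (cons (fin 1293 5 1037)
(mv 1228 (cons (fin 1164 3 1163)
(mv 1292 (cons (fin 1291 1 1227)
(fin 1227 4 1035)))))))))))))))))))))))))))))))
(mv 845 (cons (fin 909 7 845)
(mv 911 (cons (fin 847 6 846)
(mv 1101 (cons (fin 1165 5 909)
(mv 1166 (cons (fin 975 6 910)
(mv 1167 (cons (fin 1231 4 974)
(mv 1100 (cons (fin 1099 0 1099)
(mv 1037 (cons (fin 1039 1 1036)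
(mv 1230 (cons (fin 973 7 973)
(fin 1294 7 1037)))))))))))))))))))))
(mv 1102 (cons (cons (mv 847 (cons (fin 911 6 846)
(mv 1101 (cons (fin 1165 5 909)
(mv 846 (cons (fin 1037 5 845)
(mv 1103 (cons (fin 1039 4 846)
(fin 1167 4 910)))))))))
(cons (mv 847 (cons (fin 911 6 846)
(mv 1101 (cons (fin 1165 5 909)
(mv 1037 (cons (fin 846 5 845)
(mv 1039 (cons (fin 1100 1 1036)
(mv 972 (cons (fin 973 3 972)
(mv 976 (cons (fin 977 2 973)
(mv 1036 (cons (fin 971 3 971)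
(fin 975 2 972)))))))))))))))
(mv 847 (cons (fin 911 6 846)
(mv 1167 (cons (fin 1103 4 910)
(mv 1166 (cons (fin 1231 4 974)
(mv 973 (cons (fin 909 7 909)
(mv 1037 (cons (fin 1230 7 973)
(mv 782 (cons (fin 846 5 781)
(mv 972 (cons (fin 1039 3 972)
(mv 971 (cons (fin 970 0 970)
(mv 906 (cons (fin 907 3 906)
(mv 1035 (cons (fin 1034 1 970)
(mv 1036 (cons (fin 975 1 971)
(mv 1099 (cons (fin 1098 1 1034)
(mv 908 (cons (fin 844 5 843)
(fin 1163 6 907)))))))))))))))))))))))))))))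
(cons (mv 1101 (cons (fin 1165 5 909)
(mv 846 (cons (fin 1037 5 845)
(mv 1103 (cons (fin 1039 4 846)
(fin 1167 4 910)))))))
(cons (mv 847 (cons (fin 911 6 846)
(mv 1101 (cons (fin 1165 5 909)
(mv 1103 (cons (fin 1167 4 910)
(mv 1100 (cons (fin 1039 2 1036)
(mv 1035 (cons (fin 1036 3 1035)
(mv 1099 (cons (fin 1034 3 1034)
(mv 1163 (cons (fin 1162 1 1098)
(fin 1164 1 1099)))))))))))))))
(mv 847 (cons (fin 911 6 846)
(mv 1101 (cons (fin 1165 5 909)
(mv 1037 (cons (fin 846 5 845)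
(mv 1103 (cons (fin 1167 4 910)
(mv 1036 (cons (fin 1104 3 1036)
(fin 1035 0 1035))))))))))))))))
(cons (mv 1102 (cons (cons (mv 845 (cons (fin 909 7 845)
(mv 781 (cons (fin 846 7 781)
(mv 847 (cons (fin 911 6 846)
(mv 1165 (cons (fin 1101 5 909)
(mv 1166 (cons (fin 1229 5 973)
(mv 1167 (cons (fin 1103 4 910)
(fin 1231 4 974)))))))))))))
(cons (mv 847 (cons (fin 911 6 846)
(mv 1101 (cons (fin 1165 5 909)
(mv 1037 (cons (fin 846 5 845)
(mv 1103 (cons (fin 1167 4 910)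
(mv 1036 (cons (fin 1104 3 1036)
(fin 1035 0 1035)))))))))))
(mv 845 (cons (fin 909 7 845)
(mv 781 (cons (fin 846 7 781)
(mv 911 (cons (fin 847 6 846)
(mv 1166 (cons (fin 975 6 910)
(mv 1167 (cons (fin 1103 4 910)
(fin 1231 4 974)))))))))))))
(cons (mv 845 (cons (fin 909 7 845)
(mv 781 (cons (fin 846 7 781)
(mv 1165 (cons (fin 1101 5 909)
(mv 1166 (cons (fin 1229 5 973)
(mv 1167 (cons (fin 1103 4 910)
(fin 1231 4 974)))))))))))
(cons (mv 845 (cons (fin 909 7 845)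
(mv 781 (cons (fin 846 7 781)
(mv 911 (cons (fin 847 6 846)
(mv 1165 (cons (fin 1101 5 909)
(mv 1166 (cons (fin 1229 5 973)
(fin 975 6 910)))))))))))
(mv 845 (cons (fin 909 7 845)
(mv 847 (cons (fin 911 6 846)
(mv 1165 (cons (fin 1101 5 909)
(mv 1166 (cons (fin 1229 5 973)
(mv 1167 (cons (fin 1103 4 910)
(fin 1231 4 974)))))))))))))))
(cons (mv 1102 (cons (cons (mv 845 (cons (fin 909 7 845)
(mv 781 (cons (fin 846 7 781)
(mv 847 (cons (fin 911 6 846)
(mv 1101 (cons (fin 1165 5 909)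
(mv 1103 (cons (fin 1167 4 910)
(mv 1100 (cons (fin 1039 2 1036)
(mv 1035 (cons (fin 1036 3 1035)
(mv 1099 (cons (fin 1034 3 1034)
(mv 1163 (cons (fin 1162 1 1098)
(fin 1164 1 1099)))))))))))))))))))
(mv 845 (cons (fin 909 7 845)
(mv 846 (cons (fin 781 7 781)
(mv 1103 (cons (fin 1039 4 846)
(fin 1167 4 910))))))))
(cons (mv 845 (cons (fin 909 7 845)
(mv 846 (cons (fin 781 7 781)
(mv 1101 (cons (fin 1037 5 845)
(fin 1165 5 909)))))))
(cons (mv 847 (cons (fin 911 6 846)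
(mv 1101 (cons (fin 1165 5 909)
(mv 846 (cons (fin 1037 5 845)
(mv 1103 (cons (fin 1039 4 846)
(fin 1167 4 910)))))))))
(mv 845 (cons (fin 909 7 845)
(mv 847 (cons (fin 911 6 846)
(mv 1101 (cons (fin 1165 5 909)
(mv 1103 (cons (fin 1167 4 910)
(mv 1100 (cons (fin 1039 2 1036)
(mv 1035 (cons (fin 1036 3 1035)
(mv 1099 (cons (fin 1034 3 1034)
(mv 1163 (cons (fin 1162 1 1098)
(fin 1164 1 1099)))))))))))))))))))))
(mv 1102 (cons (cons (cons (mv 845 (cons (fin 909 7 845)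
(mv 781 (cons (fin 846 7 781)
(mv 847 (cons (fin 911 6 846)
(mv 1101 (cons (fin 1165 5 909)
(mv 1103 (cons (fin 1167 4 910)
(mv 1100 (cons (fin 1039 2 1036)
(mv 1163 (cons (fin 1164 1 1099)
(mv 1099 (cons (fin 1162 1 1098)
(mv 1034 (cons (fin 1035 3 1034)
(mv 1098 (cons (fin 1033 3 1033)
(fin 1037 2 1034)))))))))))))))))))))
(mv 845 (cons (fin 909 7 845)
(mv 781 (cons (fin 846 7 781)
(mv 911 (cons (fin 847 6 846)
(mv 1103 (cons (fin 1167 4 910)
(mv 1166 (cons (fin 975 6 910)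
(mv 1229 (cons (fin 1165 5 973)
(mv 1230 (cons (fin 1293 5 1037)
(mv 973 (cons (fin 1037 7 973)
(mv 912 (cons (fin 913 1 909)
(mv 971 (cons (fin 972 2 907)
(mv 1294 (cons (fin 1039 6 1038)
(mv 1295 (cons (fin 1231 4 1038)
(fin 1359 4 1102))))))))))))))))))))))))))
(cons (mv 847 (cons (fin 911 6 846)
(mv 1101 (cons (fin 1165 5 909)
(mv 846 (cons (fin 1037 5 845)
(mv 1103 (cons (fin 1039 4 846)
(fin 1167 4 910)))))))))
(mv 845 (cons (fin 909 7 845)
(mv 781 (cons (fin 846 7 781)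
(mv 911 (cons (fin 847 6 846)
(mv 1101 (cons (fin 1165 5 909)
(mv 1166 (cons (fin 975 6 910)
(mv 1167 (cons (fin 1231 4 974)
(mv 1100 (cons (fin 1099 0 1099)
(mv 1037 (cons (fin 1039 1 1036)
(mv 1230 (cons (fin 973 7 973)
(fin 1294 7 1037)))))))))))))))))))))
(cons (cons (mv 845 (cons (fin 909 7 845)
(mv 781 (cons (fin 846 7 781)
(mv 1101 (cons (fin 1165 5 909)
(mv 1103 (cons (fin 1167 4 910)
(mv 1100 (cons (fin 1039 2 1036)
(mv 1163 (cons (fin 1164 1 1099)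
(mv 1099 (cons (fin 1162 1 1098)
(mv 1034 (cons (fin 1035 3 1034)
(mv 1098 (cons (fin 1033 3 1033)
(fin 1037 2 1034)))))))))))))))))))
(mv 845 (cons (fin 909 7 845)
(mv 781 (cons (fin 846 7 781)
(mv 911 (cons (fin 847 6 846)
(mv 1165 (cons (fin 1101 5 909)
(mv 1166 (cons (fin 1229 5 973)
(fin 975 6 910))))))))))))
(cons (mv 845 (cons (fin 909 7 845)
(mv 781 (cons (fin 846 7 781)
(mv 911 (cons (fin 847 6 846)
(mv 1166 (cons (fin 975 6 910)
(mv 1167 (cons (fin 1103 4 910)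
(fin 1231 4 974)))))))))))
(mv 845 (cons (fin 909 7 845)
(mv 847 (cons (fin 911 6 846)
(mv 1101 (cons (fin 1165 5 909)
(mv 1103 (cons (fin 1167 4 910)
(mv 1100 (cons (fin 1039 2 1036)
(mv 1163 (cons (fin 1164 1 1099)
(mv 1099 (cons (fin 1162 1 1098)
(mv 1034 (cons (fin 1035 3 1034)
(mv 1098 (cons (fin 1033 3 1033)
(fin 1037 2 1034)))))))))))))))))))))))))))))
(cons (mv 846 (cons (cons (mv 782 (cons (cons (mv 717 (cons (fin 781 7 717)
(mv 653 (cons (fin 718 7 653)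
(mv 783 (cons (fin 719 6 718)
(mv 847 (cons (fin 1038 6 782)
(mv 973 (cons (fin 1037 5 781)
(mv 975 (cons (fin 1039 4 782)
(mv 911 (cons (fin 976 4 783)
(mv 912 (cons (fin 913 1 909)
(fin 972 2 908)))))))))))))))))
(cons (mv 717 (cons (fin 781 7 717)
(mv 653 (cons (fin 718 7 653)
(mv 783 (cons (fin 719 6 718)
(mv 973 (cons (fin 1037 5 781)
(mv 1038 (cons (fin 847 6 782)
(mv 1103 (cons (fin 1039 4 846)
(mv 1102 (cons (fin 1167 4 910)
(mv 909 (cons (fin 845 7 845)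
(fin 1166 7 909)))))))))))))))))
(mv 717 (cons (fin 781 7 717)
(mv 718 (cons (fin 653 7 653)
(mv 973 (cons (fin 909 5 717)
(fin 1037 5 781)))))))))
(cons (mv 719 (cons (fin 783 6 718)
(mv 718 (cons (fin 655 6 654)
(mv 973 (cons (fin 909 5 717)
(fin 1037 5 781)))))))
(cons (mv 717 (cons (fin 781 7 717)
(mv 653 (cons (fin 718 7 653)
(mv 783 (cons (fin 719 6 718)
(mv 847 (cons (fin 1038 6 782)
(mv 975 (cons (fin 1039 4 782)
(mv 911 (cons (fin 976 4 783)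
(mv 784 (cons (fin 720 6 719)
(mv 785 (cons (fin 845 1 781)
(fin 786 1 782)))))))))))))))))
(mv 717 (cons (fin 781 7 717)
(mv 783 (cons (fin 719 6 718)
(mv 847 (cons (fin 1038 6 782)
(mv 973 (cons (fin 1037 5 781)
(mv 975 (cons (fin 1039 4 782)
(mv 911 (cons (fin 976 4 783)
(mv 912 (cons (fin 913 1 909)
(fin 972 2 908)))))))))))))))))))
(cons (mv 1038 (cons (cons (mv 781 (cons (fin 845 7 781)
(mv 847 (cons (fin 783 6 782)
(mv 911 (cons (fin 1102 6 846)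
(mv 1039 (cons (fin 1103 4 846)
(mv 975 (cons (fin 1104 4 847)
(mv 848 (cons (fin 784 6 783)
(mv 849 (cons (fin 909 1 845)
(fin 850 1 846)))))))))))))))
(cons (mv 845 (cons (fin 781 7 781)
(mv 1102 (cons (fin 909 7 845)
(mv 1103 (cons (fin 1039 4 846)
(fin 1167 4 910)))))))
(mv 847 (cons (fin 783 6 782)
(mv 911 (cons (fin 1102 6 846)
(mv 1039 (cons (fin 1103 4 846)
(mv 975 (cons (fin 1104 4 847)
(mv 848 (cons (fin 784 6 783)
(mv 849 (cons (fin 909 1 845)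
(fin 850 1 846)))))))))))))))
(cons (mv 845 (cons (fin 781 7 781)
(mv 847 (cons (fin 783 6 782)
(mv 1102 (cons (fin 909 7 845)
(fin 911 6 846)))))))
(cons (mv 781 (cons (fin 845 7 781)
(mv 847 (cons (fin 783 6 782)
(mv 1039 (cons (fin 1103 4 846)
(mv 1037 (cons (cons (mv 972 (cons (fin 973 3 972)
(mv 971 (cons (fin 1036 3 971)
(mv 976 (cons (fin 977 2 973)
(mv 1104 (cons (fin 1105 0 1037)
(mv 911 (cons (fin 912 7 847)
(fin 975 4 847)))))))))))
(cons (mv 976 (cons (fin 977 2 973)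
(mv 975 (cons (fin 1036 2 972)
(mv 1104 (cons (fin 1105 0 1037)
(fin 911 4 847)))))))
(mv 972 (cons (fin 973 3 972)
(mv 1036 (cons (fin 971 3 971)
(mv 975 (cons (fin 1035 2 971)
(mv 1104 (cons (fin 1105 0 1037)
(fin 911 4 847)))))))))))
(cons (mv 972 (cons (fin 973 3 972)
(mv 976 (cons (fin 977 2 973)
(mv 1036 (cons (fin 971 3 971)
(fin 975 2 972)))))))
(cons (mv 972 (cons (fin 973 3 972)
(mv 971 (cons (fin 1036 3 971)
(mv 976 (cons (fin 977 2 973)
(mv 1104 (cons (fin 1105 0 1037)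
(mv 912 (cons (fin 911 7 847)
(mv 849 (cons (fin 913 6 848)
(mv 848 (cons (fin 909 1 845)
(fin 785 6 784)))))))))))))))
(mv 972 (cons (fin 973 3 972)
(mv 976 (cons (fin 977 2 973)
(mv 1104 (cons (fin 1105 0 1037)
(mv 911 (cons (fin 912 7 847)
(fin 975 4 847)))))))))))))))))))
(mv 781 (cons (fin 845 7 781)
(mv 847 (cons (fin 783 6 782)
(mv 911 (cons (fin 1102 6 846)
(mv 1039 (cons (fin 1103 4 846)
(mv 975 (cons (fin 1104 4 847)
(mv 848 (cons (fin 784 6 783)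
(mv 849 (cons (fin 850 1 846)
(mv 785 (cons (fin 786 2 782)
(mv 912 (cons (fin 976 6 784)
(mv 913 (cons (fin 914 3 846)
(fin 973 1 909)))))))))))))))))))))))))
(mv 782 (cons (cons (mv 717 (cons (fin 781 7 717)
(mv 718 (cons (fin 653 7 653)
(mv 719 (cons (fin 655 6 654)
(fin 783 6 718)))))))
(mv 719 (cons (fin 783 6 718)
(mv 718 (cons (fin 655 6 654)
(mv 973 (cons (fin 909 5 717)
(fin 1037 5 781))))))))
(cons (mv 717 (cons (fin 781 7 717)
(mv 718 (cons (fin 653 7 653)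
(mv 973 (cons (fin 909 5 717)
(fin 1037 5 781)))))))
(mv 717 (cons (fin 781 7 717)
(mv 719 (cons (fin 783 6 718)
(mv 973 (cons (fin 1037 5 781)
(mv 975 (cons (fin 1039 4 782)
(mv 972 (cons (mv 911 (cons (fin 971 2 907)
(fin 912 2 908)))
(cons (mv 907 (cons (fin 908 3 907)
(mv 971 (cons (fin 906 3 906)
(mv 1035 (cons (fin 1034 1 970)
(fin 1036 1 971)))))))
(mv 908 (cons (fin 907 3 907)
(mv 909 (cons (fin 976 3 908)
(mv 911 (cons (fin 912 1 908)
(mv 843 (cons (fin 844 3 843)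
(mv 847 (cons (fin 848 2 844)
(mv 1036 (cons (fin 1035 1 971)
(mv 1100 (cons (fin 845 6 844)
(fin 1164 6 908)))))))))))))))))))))))))))))))
(cons (cons (mv 782 (cons (cons (mv 717 (cons (fin 781 7 717)
(mv 718 (cons (fin 653 7 653)
(mv 719 (cons (fin 655 6 654)
(fin 783 6 718)))))))
(mv 717 (cons (fin 781 7 717)
(mv 718 (cons (fin 653 7 653)
(mv 973 (cons (fin 909 5 717)
(fin 1037 5 781))))))))
(cons (mv 719 (cons (fin 783 6 718)
(mv 718 (cons (fin 655 6 654)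
(mv 973 (cons (fin 909 5 717)
(fin 1037 5 781)))))))
(mv 781 (cons (fin 717 7 717)
(mv 783 (cons (fin 719 6 718)
(mv 1038 (cons (fin 845 7 781)
(fin 847 6 782))))))))))
(mv 782 (cons (cons (mv 717 (cons (fin 781 7 717)
(mv 718 (cons (fin 653 7 653)
(mv 973 (cons (fin 909 5 717)
(fin 1037 5 781)))))))
(mv 973 (cons (fin 1037 5 781)
(mv 718 (cons (fin 909 5 717)
(mv 975 (cons (fin 911 4 718)
(fin 1039 4 782))))))))
(cons (mv 717 (cons (fin 781 7 717)
(mv 718 (cons (fin 653 7 653)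
(mv 975 (cons (fin 911 4 718)
(fin 1039 4 782)))))))
(mv 781 (cons (fin 717 7 717)
(mv 973 (cons (fin 1037 5 781)
(mv 1038 (cons (fin 845 7 781)
(mv 1039 (cons (fin 975 4 782)
(fin 1103 4 846)))))))))))))
(cons (mv 782 (cons (cons (mv 719 (cons (fin 783 6 718)
(mv 718 (cons (fin 655 6 654)
(mv 973 (cons (fin 909 5 717)
(fin 1037 5 781)))))))
(mv 973 (cons (fin 1037 5 781)
(mv 718 (cons (fin 909 5 717)
(mv 975 (cons (fin 911 4 718)
(fin 1039 4 782))))))))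
(cons (mv 719 (cons (fin 783 6 718)
(mv 718 (cons (fin 655 6 654)
(mv 975 (cons (fin 911 4 718)
(fin 1039 4 782)))))))
(mv 783 (cons (fin 719 6 718)
(mv 847 (cons (fin 1038 6 782)
(mv 973 (cons (fin 1037 5 781)
(mv 975 (cons (fin 1039 4 782)
(mv 911 (cons (fin 976 4 783)
(mv 912 (cons (fin 913 1 909)
(fin 972 2 908))))))))))))))))
(mv 782 (cons (cons (mv 717 (cons (fin 781 7 717)
(mv 653 (cons (fin 718 7 653)
(mv 783 (cons (fin 719 6 718)
(mv 847 (cons (fin 1038 6 782)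
(mv 975 (cons (fin 1039 4 782)
(mv 911 (cons (fin 976 4 783)
(mv 784 (cons (fin 720 6 719)
(mv 785 (cons (fin 845 1 781)
(fin 786 1 782)))))))))))))))))
(mv 717 (cons (fin 781 7 717)
(mv 718 (cons (fin 653 7 653)
(mv 975 (cons (fin 911 4 718)
(fin 1039 4 782))))))))
(cons (mv 719 (cons (fin 783 6 718)
(mv 718 (cons (fin 655 6 654)
(mv 975 (cons (fin 911 4 718)
(fin 1039 4 782)))))))
(cons (mv 717 (cons (fin 781 7 717)
(mv 718 (cons (fin 653 7 653)
(mv 719 (cons (fin 655 6 654)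
(fin 783 6 718)))))))
(mv 717 (cons (fin 781 7 717)
(mv 783 (cons (fin 719 6 718)
(mv 847 (cons (fin 1038 6 782)
(mv 975 (cons (fin 1039 4 782)
(mv 911 (cons (fin 976 4 783)
(mv 784 (cons (fin 720 6 719)
(mv 785 (cons (fin 845 1 781)
(fin 786 1 782)))))))))))))))))))))))
(cons (mv 1038 (cons (cons (mv 1102 (cons (cons (mv 845 (cons (fin 909 7 845)
(mv 847 (cons (fin 911 6 846)
(mv 783 (cons (fin 846 6 782)
(mv 1101 (cons (fin 1165 5 909)
(mv 1103 (cons (fin 1167 4 910)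
(mv 1100 (cons (fin 1039 2 1036)
(mv 1035 (cons (fin 1036 3 1035)
(mv 1099 (cons (fin 1034 3 1034)
(mv 1163 (cons (fin 1162 1 1098)
(fin 1164 1 1099)))))))))))))))))))
(cons (mv 845 (cons (fin 909 7 845)
(mv 847 (cons (fin 911 6 846)
(mv 846 (cons (fin 783 6 782)
(mv 1101 (cons (fin 1037 5 845)
(fin 1165 5 909)))))))))
(mv 845 (cons (fin 909 7 845)
(mv 847 (cons (fin 911 6 846)
(mv 846 (cons (fin 783 6 782)
(mv 1103 (cons (fin 1039 4 846)
(fin 1167 4 910)))))))))))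
(cons (mv 845 (cons (fin 909 7 845)
(mv 1101 (cons (fin 1165 5 909)
(mv 846 (cons (fin 1037 5 845)
(mv 1103 (cons (fin 1039 4 846)
(fin 1167 4 910)))))))))
(cons (mv 847 (cons (fin 911 6 846)
(mv 783 (cons (fin 846 6 782)
(mv 1101 (cons (fin 1165 5 909)
(mv 1103 (cons (fin 1167 4 910)
(mv 1100 (cons (fin 1039 2 1036)
(mv 1035 (cons (fin 1036 3 1035)
(mv 1099 (cons (fin 1034 3 1034)
(mv 1163 (cons (fin 1162 1 1098)
(fin 1164 1 1099)))))))))))))))))
(mv 845 (cons (fin 909 7 845)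
(mv 847 (cons (fin 911 6 846)
(mv 1101 (cons (fin 1165 5 909)
(mv 1103 (cons (fin 1167 4 910)
(mv 1100 (cons (fin 1039 2 1036)
(mv 1035 (cons (fin 1036 3 1035)
(mv 1099 (cons (fin 1034 3 1034)
(mv 1163 (cons (fin 1162 1 1098)
(fin 1164 1 1099)))))))))))))))))))))
(cons (mv 846 (cons (cons (mv 783 (cons (fin 847 6 782)
(mv 719 (cons (fin 782 6 718)
(mv 1037 (cons (fin 1101 5 845)
(mv 1039 (cons (fin 1103 4 846)
(mv 972 (cons (fin 973 3 972)
(mv 976 (cons (fin 977 2 973)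
(mv 1036 (cons (fin 971 3 971)
(fin 975 2 972)))))))))))))))
(mv 783 (cons (fin 847 6 782)
(mv 782 (cons (fin 719 6 718)
(mv 1037 (cons (fin 973 5 781)
(fin 1101 5 845))))))))
(cons (mv 783 (cons (fin 847 6 782)
(mv 782 (cons (fin 719 6 718)
(mv 1039 (cons (fin 975 4 782)
(fin 1103 4 846)))))))
(cons (mv 1037 (cons (fin 1101 5 845)
(mv 782 (cons (fin 973 5 781)
(mv 1039 (cons (fin 975 4 782)
(fin 1103 4 846)))))))
(mv 783 (cons (fin 847 6 782)
(mv 1037 (cons (fin 1101 5 845)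
(mv 1039 (cons (fin 1103 4 846)
(mv 972 (cons (fin 973 3 972)
(mv 976 (cons (fin 977 2 973)
(mv 1036 (cons (fin 971 3 971)
(fin 975 2 972)))))))))))))))))
(mv 1102 (cons (cons (mv 845 (cons (fin 909 7 845)
(mv 847 (cons (fin 911 6 846)
(mv 1101 (cons (fin 1165 5 909)
(mv 1103 (cons (fin 1167 4 910)
(mv 1100 (cons (fin 1039 2 1036)
(mv 1035 (cons (fin 1036 3 1035)
(mv 1099 (cons (fin 1034 3 1034)
(mv 1163 (cons (fin 1162 1 1098)
(fin 1164 1 1099)))))))))))))))))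
(mv 845 (cons (fin 909 7 845)
(mv 1101 (cons (fin 1165 5 909)
(mv 1103 (cons (fin 1167 4 910)
(mv 1100 (cons (fin 1039 2 1036)
(mv 1035 (cons (fin 1036 3 1035)
(mv 1099 (cons (fin 1034 3 1034)
(mv 1163 (cons (fin 1162 1 1098)
(fin 1164 1 1099))))))))))))))))
(cons (mv 847 (cons (fin 911 6 846)
(mv 1101 (cons (fin 1165 5 909)
(mv 1103 (cons (fin 1167 4 910)
(mv 1100 (cons (fin 1039 2 1036)
(mv 1035 (cons (fin 1036 3 1035)
(mv 1099 (cons (fin 1034 3 1034)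
(mv 1163 (cons (fin 1162 1 1098)
(fin 1164 1 1099)))))))))))))))
(cons (mv 845 (cons (fin 909 7 845)
(mv 911 (cons (fin 847 6 846)
(mv 1165 (cons (fin 1101 5 909)
(mv 1166 (cons (fin 1229 5 973)
(fin 975 6 910)))))))))
(mv 845 (cons (fin 909 7 845)
(mv 911 (cons (fin 847 6 846)
(mv 1166 (cons (fin 975 6 910)
(mv 1167 (cons (fin 1103 4 910)
(fin 1231 4 974)))))))))))))))
(cons (cons (mv 1102 (cons (cons (mv 845 (cons (fin 909 7 845)
(mv 847 (cons (fin 911 6 846)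
(mv 846 (cons (fin 783 6 782)
(mv 1103 (cons (fin 1039 4 846)
(fin 1167 4 910)))))))))
(mv 909 (cons (fin 845 7 845)
(mv 973 (cons (fin 1166 7 909)
(mv 1103 (cons (fin 1167 4 910)
(mv 846 (cons (fin 1039 4 846)
(mv 782 (cons (fin 718 5 717)
(fin 1037 5 781))))))))))))
(cons (mv 845 (cons (fin 909 7 845)
(mv 911 (cons (fin 847 6 846)
(mv 1166 (cons (fin 975 6 910)
(mv 1229 (cons (fin 1165 5 973)
(mv 1230 (cons (fin 1293 5 1037)
(mv 1231 (cons (fin 1167 4 974)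
(fin 1295 4 1038)))))))))))))
(cons (mv 847 (cons (fin 911 6 846)
(mv 846 (cons (fin 783 6 782)
(mv 1103 (cons (fin 1039 4 846)
(fin 1167 4 910)))))))
(mv 847 (cons (fin 911 6 846)
(mv 783 (cons (fin 846 6 782)
(mv 909 (cons (fin 845 7 845)
(mv 1166 (cons (fin 973 7 909)
(mv 1229 (cons (fin 1165 5 973)
(mv 1230 (cons (fin 1293 5 1037)
(mv 1039 (cons (fin 975 6 974)
(mv 1294 (cons (fin 1103 6 1038)
(mv 1295 (cons (fin 1231 4 1038)
(fin 1359 4 1102)))))))))))))))))))))))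
(mv 1102 (cons (cons (mv 845 (cons (fin 909 7 845)
(mv 847 (cons (fin 911 6 846)
(mv 846 (cons (fin 783 6 782)
(mv 1101 (cons (fin 1037 5 845)
(fin 1165 5 909)))))))))
(mv 845 (cons (fin 909 7 845)
(mv 1101 (cons (fin 1165 5 909)
(mv 1037 (cons (fin 846 5 845)
(mv 1039 (cons (fin 1100 1 1036)
(mv 972 (cons (fin 973 3 972)
(mv 976 (cons (fin 977 2 973)
(mv 1036 (cons (fin 971 3 971)
(fin 975 2 972))))))))))))))))
(cons (mv 845 (cons (fin 909 7 845)
(mv 911 (cons (fin 847 6 846)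
(mv 1166 (cons (fin 975 6 910)
(mv 1229 (cons (fin 1165 5 973)
(mv 1230 (cons (fin 1293 5 1037)
(mv 1231 (cons (fin 1167 4 974)
(fin 1295 4 1038)))))))))))))
(cons (mv 847 (cons (fin 911 6 846)
(mv 846 (cons (fin 783 6 782)
(mv 1101 (cons (fin 1037 5 845)
(fin 1165 5 909)))))))
(mv 845 (cons (fin 909 7 845)
(mv 847 (cons (fin 911 6 846)
(mv 846 (cons (fin 783 6 782)
(mv 1037 (cons (fin 1101 5 845)
(mv 973 (cons (fin 782 5 781)
(mv 972 (cons (fin 1039 3 972)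
(mv 971 (cons (fin 970 0 970)
(mv 906 (cons (fin 907 3 906)
(mv 1035 (cons (fin 1034 1 970)
(mv 1036 (cons (fin 975 1 971)
(mv 1099 (cons (fin 1098 1 1034)
(mv 908 (cons (fin 844 5 843)
(fin 1163 6 907))))))))))))))))))))))))))))))
(cons (mv 1102 (cons (cons (mv 845 (cons (fin 909 7 845)
(mv 1101 (cons (fin 1165 5 909)
(mv 846 (cons (fin 1037 5 845)
(mv 1103 (cons (fin 1039 4 846)
(fin 1167 4 910)))))))))
(cons (mv 845 (cons (fin 909 7 845)
(mv 1101 (cons (fin 1165 5 909)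
(mv 1037 (cons (fin 846 5 845)
(mv 1039 (cons (fin 1100 1 1036)
(mv 972 (cons (fin 973 3 972)
(mv 976 (cons (fin 977 2 973)
(mv 1036 (cons (fin 971 3 971)
(fin 975 2 972)))))))))))))))
(mv 845 (cons (fin 909 7 845)
(mv 1167 (cons (fin 1103 4 910)
(mv 1166 (cons (fin 1231 4 974)
(mv 975 (cons (fin 911 6 910)
(mv 1229 (cons (fin 1165 5 973)
(mv 1230 (cons (fin 1293 5 1037)
(fin 1039 6 974)))))))))))))))
(cons (mv 1101 (cons (fin 1165 5 909)
(mv 846 (cons (fin 1037 5 845)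
(mv 1103 (cons (fin 1039 4 846)
(fin 1167 4 910)))))))
(cons (mv 845 (cons (fin 909 7 845)
(mv 1103 (cons (fin 1167 4 910)
(mv 846 (cons (fin 1039 4 846)
(mv 1037 (cons (fin 1101 5 845)
(mv 973 (cons (fin 782 5 781)
(mv 1036 (cons (fin 1035 0 1035)
(mv 975 (cons (fin 976 1 972)
(mv 1166 (cons (fin 1230 7 973)
(fin 911 6 910)))))))))))))))))
(mv 845 (cons (fin 909 7 845)
(mv 1101 (cons (fin 1165 5 909)
(mv 1037 (cons (fin 846 5 845)
(mv 1103 (cons (fin 1167 4 910)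
(mv 1036 (cons (fin 1104 3 1036)
(fin 1035 0 1035)))))))))))))))
(mv 1102 (cons (cons (mv 845 (cons (fin 909 7 845)
(mv 847 (cons (fin 911 6 846)
(mv 783 (cons (fin 846 6 782)
(mv 1165 (cons (fin 1101 5 909)
(mv 1166 (cons (fin 1229 5 973)
(mv 1167 (cons (fin 1103 4 910)
(fin 1231 4 974)))))))))))))
(mv 845 (cons (fin 909 7 845)
(mv 1101 (cons (fin 1165 5 909)
(mv 1037 (cons (fin 846 5 845)
(mv 1103 (cons (fin 1167 4 910)
(mv 1036 (cons (fin 1104 3 1036)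
(fin 1035 0 1035))))))))))))
(cons (mv 847 (cons (fin 911 6 846)
(mv 783 (cons (fin 846 6 782)
(mv 1165 (cons (fin 1101 5 909)
(mv 1166 (cons (fin 1229 5 973)
(mv 1167 (cons (fin 1103 4 910)
(fin 1231 4 974)))))))))))
(cons (mv 845 (cons (fin 909 7 845)
(mv 911 (cons (fin 847 6 846)
(mv 1166 (cons (fin 975 6 910)
(mv 1167 (cons (fin 1103 4 910)
(fin 1231 4 974)))))))))
(mv 845 (cons (fin 909 7 845)
(mv 847 (cons (fin 911 6 846)
(mv 846 (cons (fin 783 6 782)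
(mv 1101 (cons (fin 1037 5 845)
(fin 1165 5 909)))))))))))))))))
(mv 1038 (cons (cons (mv 846 (cons (cons (mv 781 (cons (fin 845 7 781)
(mv 717 (cons (fin 782 7 717)
(mv 783 (cons (fin 847 6 782)
(mv 1037 (cons (fin 1101 5 845)
(mv 1039 (cons (fin 1103 4 846)
(mv 972 (cons (fin 973 3 972)
(mv 1036 (cons (fin 971 3 971)
(mv 1035 (cons (fin 975 2 971)
(mv 1099 (cons (fin 1098 1 1034)
(fin 1100 1 1035)))))))))))))))))))
(cons (mv 781 (cons (fin 845 7 781)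
(mv 717 (cons (fin 782 7 717)
(mv 847 (cons (fin 783 6 782)
(mv 1037 (cons (fin 1101 5 845)
(mv 1102 (cons (fin 911 6 846)
(mv 1167 (cons (fin 1103 4 910)
(mv 1166 (cons (fin 1231 4 974)
(mv 973 (cons (fin 909 7 909)
(fin 1230 7 973)))))))))))))))))
(mv 781 (cons (fin 845 7 781)
(mv 717 (cons (fin 782 7 717)
(mv 847 (cons (fin 783 6 782)
(mv 911 (cons (fin 1102 6 846)
(mv 1039 (cons (fin 1103 4 846)
(mv 975 (cons (fin 1104 4 847)
(mv 848 (cons (fin 784 6 783)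
(mv 849 (cons (fin 909 1 845)
(fin 850 1 846)))))))))))))))))))
(cons (cons (mv 781 (cons (fin 845 7 781)
(mv 717 (cons (fin 782 7 717)
(mv 1037 (cons (fin 1101 5 845)
(mv 1039 (cons (fin 1103 4 846)
(mv 972 (cons (fin 973 3 972)
(mv 1036 (cons (fin 971 3 971)
(mv 1035 (cons (fin 975 2 971)
(mv 1099 (cons (fin 1098 1 1034)
(fin 1100 1 1035)))))))))))))))))
(mv 783 (cons (fin 847 6 782)
(mv 719 (cons (fin 782 6 718)
(mv 1037 (cons (fin 1101 5 845)
(mv 1039 (cons (fin 1103 4 846)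
(mv 972 (cons (fin 973 3 972)
(mv 1036 (cons (fin 971 3 971)
(mv 1035 (cons (fin 975 2 971)
(mv 1099 (cons (fin 1098 1 1034)
(fin 1100 1 1035))))))))))))))))))
(cons (mv 781 (cons (fin 845 7 781)
(mv 717 (cons (fin 782 7 717)
(mv 847 (cons (fin 783 6 782)
(mv 1101 (cons (fin 1037 5 845)
(mv 1102 (cons (fin 1165 5 909)
(fin 911 6 846)))))))))))
(mv 781 (cons (fin 845 7 781)
(mv 783 (cons (fin 847 6 782)
(mv 1037 (cons (fin 1101 5 845)
(mv 1039 (cons (fin 1103 4 846)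
(mv 972 (cons (fin 973 3 972)
(mv 1036 (cons (fin 971 3 971)
(mv 1035 (cons (fin 975 2 971)
(mv 1099 (cons (fin 1098 1 1034)
(fin 1100 1 1035)))))))))))))))))))))
(cons (mv 1102 (cons (cons (mv 845 (cons (fin 909 7 845)
(mv 847 (cons (fin 911 6 846)
(mv 1101 (cons (fin 1165 5 909)
(mv 1103 (cons (fin 1167 4 910)
(mv 1100 (cons (fin 1039 2 1036)
(mv 1035 (cons (fin 1036 3 1035)
(mv 1099 (cons (fin 1034 3 1034)
(mv 1163 (cons (fin 1162 1 1098)
(fin 1164 1 1099)))))))))))))))))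
(mv 845 (cons (fin 909 7 845)
(mv 1101 (cons (fin 1165 5 909)
(mv 1103 (cons (fin 1167 4 910)
(mv 1100 (cons (fin 1039 2 1036)
(mv 1035 (cons (fin 1036 3 1035)
(mv 1099 (cons (fin 1034 3 1034)
(mv 1163 (cons (fin 1162 1 1098)
(fin 1164 1 1099))))))))))))))))
(cons (mv 847 (cons (fin 911 6 846)
(mv 1101 (cons (fin 1165 5 909)
(mv 1103 (cons (fin 1167 4 910)
(mv 1100 (cons (fin 1039 2 1036)
(mv 1035 (cons (fin 1036 3 1035)
(mv 1099 (cons (fin 1034 3 1034)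
(mv 1163 (cons (fin 1162 1 1098)
(fin 1164 1 1099)))))))))))))))
(cons (mv 845 (cons (fin 909 7 845)
(mv 911 (cons (fin 847 6 846)
(mv 1165 (cons (fin 1101 5 909)
(mv 1166 (cons (fin 1229 5 973)
(fin 975 6 910)))))))))
(mv 845 (cons (fin 909 7 845)
(mv 911 (cons (fin 847 6 846)
(mv 1166 (cons (fin 975 6 910)
(mv 1167 (cons (fin 1103 4 910)
(fin 1231 4 974)))))))))))))
(mv 846 (cons (cons (mv 781 (cons (fin 845 7 781)
(mv 717 (cons (fin 782 7 717)
(mv 783 (cons (fin 847 6 782)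
(mv 1037 (cons (fin 1101 5 845)
(mv 1039 (cons (fin 1103 4 846)
(mv 972 (cons (fin 973 3 972)
(mv 1036 (cons (fin 971 3 971)
(mv 1035 (cons (fin 975 2 971)
(mv 1099 (cons (fin 1098 1 1034)
(fin 1100 1 1035)))))))))))))))))))
(mv 781 (cons (fin 845 7 781)
(mv 782 (cons (fin 717 7 717)
(mv 783 (cons (fin 719 6 718)
(fin 847 6 782))))))))
(cons (mv 783 (cons (fin 847 6 782)
(mv 719 (cons (fin 782 6 718)
(mv 1037 (cons (fin 1101 5 845)
(mv 1039 (cons (fin 1103 4 846)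
(mv 972 (cons (fin 973 3 972)
(mv 1036 (cons (fin 971 3 971)
(mv 1035 (cons (fin 975 2 971)
(mv 1099 (cons (fin 1098 1 1034)
(fin 1100 1 1035)))))))))))))))))
(cons (mv 781 (cons (fin 845 7 781)
(mv 717 (cons (fin 782 7 717)
(mv 1037 (cons (fin 1101 5 845)
(mv 1039 (cons (fin 1103 4 846)
(mv 972 (cons (fin 973 3 972)
(mv 1036 (cons (fin 971 3 971)
(mv 1035 (cons (fin 975 2 971)
(mv 1099 (cons (fin 1098 1 1034)
(fin 1100 1 1035)))))))))))))))))
(mv 781 (cons (fin 845 7 781)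
(mv 783 (cons (fin 847 6 782)
(mv 1037 (cons (fin 1101 5 845)
(mv 1039 (cons (fin 1103 4 846)
(mv 972 (cons (fin 973 3 972)
(mv 1036 (cons (fin 971 3 971)
(mv 1035 (cons (fin 975 2 971)
(mv 1099 (cons (fin 1098 1 1034)
(fin 1100 1 1035)))))))))))))))))))))))
(cons (cons (mv 846 (cons (cons (mv 781 (cons (fin 845 7 781)
(mv 717 (cons (fin 782 7 717)
(mv 847 (cons (fin 783 6 782)
(mv 911 (cons (fin 1102 6 846)
(mv 1039 (cons (fin 1103 4 846)
(mv 975 (cons (fin 1104 4 847)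
(mv 848 (cons (fin 784 6 783)
(mv 849 (cons (fin 909 1 845)
(fin 850 1 846)))))))))))))))))
(cons (mv 781 (cons (fin 845 7 781)
(mv 717 (cons (fin 782 7 717)
(mv 847 (cons (fin 783 6 782)
(mv 1102 (cons (fin 911 6 846)
(mv 1167 (cons (fin 1103 4 910)
(mv 1166 (cons (fin 1231 4 974)
(mv 973 (cons (fin 909 7 909)
(mv 1229 (cons (fin 1165 5 973)
(mv 1230 (cons (fin 1037 7 973)
(fin 1293 5 1037)))))))))))))))))))
(mv 781 (cons (fin 845 7 781)
(mv 782 (cons (fin 717 7 717)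
(mv 1039 (cons (fin 975 4 782)
(fin 1103 4 846)))))))))
(cons (mv 783 (cons (fin 847 6 782)
(mv 782 (cons (fin 719 6 718)
(mv 1039 (cons (fin 975 4 782)
(fin 1103 4 846)))))))
(cons (mv 781 (cons (fin 845 7 781)
(mv 782 (cons (fin 717 7 717)
(mv 783 (cons (fin 719 6 718)
(fin 847 6 782)))))))
(mv 781 (cons (fin 845 7 781)
(mv 847 (cons (fin 783 6 782)
(mv 911 (cons (fin 1102 6 846)
(mv 1039 (cons (fin 1103 4 846)
(mv 975 (cons (fin 1104 4 847)
(mv 848 (cons (fin 784 6 783)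
(mv 849 (cons (fin 909 1 845)
(fin 850 1 846)))))))))))))))))))
(mv 846 (cons (cons (mv 781 (cons (fin 845 7 781)
(mv 717 (cons (fin 782 7 717)
(mv 847 (cons (fin 783 6 782)
(mv 1101 (cons (fin 1037 5 845)
(mv 1102 (cons (fin 1165 5 909)
(fin 911 6 846)))))))))))
(mv 781 (cons (fin 845 7 781)
(mv 782 (cons (fin 717 7 717)
(mv 783 (cons (fin 719 6 718)
(fin 847 6 782))))))))
(cons (mv 781 (cons (fin 845 7 781)
(mv 782 (cons (fin 717 7 717)
(mv 1037 (cons (fin 973 5 781)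
(fin 1101 5 845)))))))
(cons (mv 783 (cons (fin 847 6 782)
(mv 782 (cons (fin 719 6 718)
(mv 1037 (cons (fin 973 5 781)
(fin 1101 5 845)))))))
(mv 781 (cons (fin 845 7 781)
(mv 847 (cons (fin 783 6 782)
(mv 1101 (cons (fin 1037 5 845)
(mv 1102 (cons (fin 1165 5 909)
(fin 911 6 846))))))))))))))
(cons (mv 1102 (cons (cons (mv 845 (cons (fin 909 7 845)
(mv 781 (cons (fin 846 7 781)
(mv 1101 (cons (fin 1165 5 909)
(mv 1103 (cons (fin 1167 4 910)
(mv 1100 (cons (fin 1039 2 1036)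
(mv 1035 (cons (fin 1036 3 1035)
(mv 1099 (cons (fin 1034 3 1034)
(mv 1163 (cons (fin 1162 1 1098)
(fin 1164 1 1099)))))))))))))))))
(cons (mv 845 (cons (fin 909 7 845)
(mv 781 (cons (fin 846 7 781)
(mv 1167 (cons (fin 1103 4 910)
(mv 1166 (cons (fin 1231 4 974)
(mv 975 (cons (fin 911 6 910)
(mv 1229 (cons (fin 1165 5 973)
(mv 1230 (cons (fin 1293 5 1037)
(fin 1039 6 974)))))))))))))))
(mv 845 (cons (fin 909 7 845)
(mv 781 (cons (fin 846 7 781)
(mv 1165 (cons (fin 1101 5 909)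
(mv 1166 (cons (fin 1229 5 973)
(mv 975 (cons (fin 911 6 910)
(mv 1230 (cons (fin 1039 6 974)
(mv 1231 (cons (fin 1167 4 974)
(fin 1295 4 1038)))))))))))))))))
(cons (cons (mv 1101 (cons (fin 1165 5 909)
(mv 846 (cons (fin 1037 5 845)
(mv 1103 (cons (fin 1039 4 846)
(fin 1167 4 910)))))))
(mv 845 (cons (fin 909 7 845)
(mv 846 (cons (fin 781 7 781)
(mv 1101 (cons (fin 1037 5 845)
(fin 1165 5 909))))))))
(cons (mv 845 (cons (fin 909 7 845)
(mv 781 (cons (fin 846 7 781)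
(mv 1167 (cons (fin 1103 4 910)
(mv 1166 (cons (fin 1231 4 974)
(mv 975 (cons (fin 911 6 910)
(mv 1230 (cons (fin 1039 6 974)
(mv 1037 (cons (fin 973 7 973)
(mv 1035 (cons (fin 1036 2 971)
(mv 1293 (cons (fin 1229 5 1037)
(mv 1294 (cons (fin 1101 7 1037)
(fin 1357 5 1101)))))))))))))))))))))
(mv 845 (cons (fin 909 7 845)
(mv 1101 (cons (fin 1165 5 909)
(mv 1103 (cons (fin 1167 4 910)
(mv 1100 (cons (fin 1039 2 1036)
(mv 1035 (cons (fin 1036 3 1035)
(mv 1099 (cons (fin 1034 3 1034)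
(mv 1163 (cons (fin 1162 1 1098)
(fin 1164 1 1099)))))))))))))))))))
(mv 1102 (cons (cons (mv 847 (cons (fin 911 6 846)
(mv 783 (cons (fin 846 6 782)
(mv 1101 (cons (fin 1165 5 909)
(mv 1103 (cons (fin 1167 4 910)
(mv 1100 (cons (fin 1039 2 1036)
(mv 1035 (cons (fin 1036 3 1035)
(mv 1099 (cons (fin 1034 3 1034)
(mv 1163 (cons (fin 1162 1 1098)
(fin 1164 1 1099)))))))))))))))))
(cons (mv 847 (cons (fin 911 6 846)
(mv 783 (cons (fin 846 6 782)
(mv 1167 (cons (fin 1103 4 910)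
(mv 1166 (cons (fin 1231 4 974)
(mv 973 (cons (fin 909 7 909)
(mv 1037 (cons (fin 1230 7 973)
(mv 972 (cons (fin 1039 3 972)
(mv 971 (cons (fin 970 0 970)
(mv 906 (cons (fin 907 3 906)
(mv 1035 (cons (fin 1034 1 970)
(mv 1036 (cons (fin 975 1 971)
(mv 1099 (cons (fin 1098 1 1034)
(mv 908 (cons (fin 844 5 843)
(fin 1163 6 907)))))))))))))))))))))))))))
(mv 847 (cons (fin 911 6 846)
(mv 783 (cons (fin 846 6 782)
(mv 1165 (cons (fin 1101 5 909)
(mv 1166 (cons (fin 1229 5 973)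
(mv 973 (cons (fin 909 7 909)
(mv 1037 (cons (fin 1230 7 973)
(mv 972 (cons (fin 1039 3 972)
(mv 971 (cons (fin 970 0 970)
(mv 906 (cons (fin 907 3 906)
(mv 1035 (cons (fin 1034 1 970)
(mv 1036 (cons (fin 975 1 971)
(mv 1099 (cons (fin 1098 1 1034)
(mv 908 (cons (fin 844 5 843)
(fin 1163 6 907)))))))))))))))))))))))))))))
(cons (mv 1101 (cons (fin 1165 5 909)
(mv 846 (cons (fin 1037 5 845)
(mv 1103 (cons (fin 1039 4 846)
(fin 1167 4 910)))))))
(cons (mv 847 (cons (fin 911 6 846)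
(mv 1101 (cons (fin 1165 5 909)
(mv 1103 (cons (fin 1167 4 910)
(mv 1100 (cons (fin 1039 2 1036)
(mv 1035 (cons (fin 1036 3 1035)
(mv 1099 (cons (fin 1034 3 1034)
(mv 1163 (cons (fin 1162 1 1098)
(fin 1164 1 1099)))))))))))))))
(mv 847 (cons (fin 911 6 846)
(mv 783 (cons (fin 846 6 782)
(mv 1165 (cons (fin 1101 5 909)
(mv 1166 (cons (fin 1229 5 973)
(mv 1167 (cons (fin 1103 4 910)
(fin 1231 4 974)))))))))))))))))))))))))
def l28 : Lem := ⟨11781361728633673533054441723117730079171283746239247440356909899588005244909514899260159721150817405942924420470662491174673842036557007391209044253460063708080530407354770956693342717623350878333880262063391977041189311657559161319740834448813323445848447489700891174053752382374267171085078592036680673850818560, 15728022448660181085879607075537624345044034769921993106307731910554061409948415663409793239420490286205463037803905266424115742420222087037901464994344769799229053407500447717834255047356582289821312646267676265183275324111913607638409745628285086690120374737845794692193158342542229568204916345872737419601108331932791837830231632457422025878265681736439031109546140916379620690114021833988660299504153526272,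 15728022448660181085879607075537624345044034769921993106307731910554061409948415663409793239420490286205463037803905266424115742420222087037901464994344769799229053407500447717834255047356582289821312646267676265183275324111913607638409745628285086690120374737845794692193158342542229568204916345872737419601108331932791837830231632457422025878265681736439031109546140916379620690114021833988660299504153526272, 19, 33⟩
theorem l28_valid : l28.Valid :=
  Lem.valid_of_chk t28 t28_valid [974, 1040] c28 l28 (by decide +kernel)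
end Crest.Agent.SnakyAux
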