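import Crest.Agent.S0047_aux.Checker

set_option autoImplicit false
set_option maxRecDepth 100000
namespace Crest.Agent.SnakyAux
open Cert
def t29 : Tbl := Tbl.nil
theorem t29_valid : t29.Valid := Tbl.valid_nil
def c29 : Cert :=
(mv 976 (cons (cons (cons (mv 975 (cons (cons (mv 973 (cons (fin 1041 0 973)
(mv 908 (cons (fin 909 3 908)
(mv 907 (cons (fin 972 3 907)
(mv 913 (cons (fin 912 2 909)
(mv 977 (cons (fin 914 2 910)
(mv 1037 (cons (fin 1036 1 972)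
(fin 1038 1 973)))))))))))))
(cons (mv 977 (cons (cons (mv 909 (cons (fin 910 3 909)
(mv 913 (cons (fin 914 2 910)
(mv 849 (cons (fin 785 5 784)
(mv 1041 (cons (fin 1042 0 974)
(fin 1104 5 848)))))))))
(mv 910 (cons (fin 909 3 909)
(mv 911 (cons (fin 978 3 910)
(mv 783 (cons (fin 847 4 783)
(mv 1038 (cons (fin 1037 1 973)
(mv 1041 (cons (fin 1042 0 974)
(mv 1102 (cons (fin 1166 6 910)
(mv 1101 (cons (fin 1165 5 909)
(mv 1103 (cons (fin 1104 2 1037)
(fin 1167 4 910))))))))))))))))))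
(cons (mv 913 (cons (fin 914 2 910)
(mv 849 (cons (fin 785 5 784)
(mv 1041 (cons (fin 1042 0 974)
(fin 1104 5 848)))))))
(cons (mv 909 (cons (fin 910 3 909)
(mv 913 (cons (fin 914 2 910)
(mv 849 (cons (fin 785 5 784)
(mv 1104 (cons (fin 912 6 848)
(fin 1168 6 912)))))))))
(mv 909 (cons (fin 910 3 909)
(mv 913 (cons (fin 914 2 910)
(mv 849 (cons (fin 785 5 784)
(mv 1037 (cons (fin 1038 1 973)
(mv 1041 (cons (fin 1042 0 974)
(mv 786 (cons (fin 850 6 785)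
(mv 848 (cons (fin 784 7 784)
(mv 1105 (cons (fin 912 7 848)
(mv 1169 (cons (fin 1233 7 976)
(mv 1170 (cons (fin 1106 4 913)
(fin 1234 4 977)))))))))))))))))))))))))
(mv 977 (cons (cons (mv 909 (cons (fin 910 3 909)
(mv 908 (cons (fin 973 3 908)
(mv 913 (cons (fin 914 2 910)
(mv 849 (cons (fin 785 5 784)
(mv 1104 (cons (fin 912 6 848)
(fin 1168 6 912)))))))))))
(mv 909 (cons (fin 910 3 909)
(mv 973 (cons (fin 908 3 908)
(mv 1037 (cons (fin 1036 1 972)
(fin 1038 1 973))))))))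
(cons (mv 913 (cons (fin 914 2 910)
(mv 785 (cons (fin 849 5 784)
(mv 912 (cons (fin 973 2 909)
(mv 1037 (cons (fin 1038 1 973)
(mv 1104 (cons (fin 1168 6 912)
(mv 847 (cons (fin 911 7 847)
(mv 848 (cons (fin 783 7 783)
(mv 784 (cons (fin 721 6 720)
(fin 720 4 720)))))))))))))))))
(mv 909 (cons (fin 910 3 909)
(mv 913 (cons (fin 914 2 910)
(mv 849 (cons (fin 785 5 784)
(mv 1104 (cons (fin 912 6 848)
(fin 1168 6 912))))))))))))))
(cons (mv 973 (cons (fin 1041 0 973)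
(mv 908 (cons (fin 909 3 908)
(mv 912 (cons (fin 913 2 909)
(mv 972 (cons (fin 907 3 907)
(fin 911 2 908)))))))))
(cons (mv 973 (cons (fin 1041 0 973)
(mv 908 (cons (fin 909 3 908)
(mv 972 (cons (fin 907 3 907)
(mv 1036 (cons (fin 1035 1 971)
(fin 1037 1 972)))))))))
(mv 973 (cons (fin 1041 0 973)
(mv 912 (cons (fin 913 2 909)
(mv 911 (cons (fin 972 2 908)
(mv 847 (cons (fin 1104 7 847)
(fin 783 4 783)))))))))))))
(cons (mv 912 (cons (cons (cons (mv 1104 (cons (cons (mv 847 (cons (fin 911 7 847)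
(mv 783 (cons (fin 848 7 783)
(mv 849 (cons (fin 913 6 848)
(mv 1167 (cons (fin 1103 5 911)
(mv 1168 (cons (fin 1231 5 975)
(mv 1169 (cons (fin 1105 4 912)
(fin 1233 4 976)))))))))))))
(cons (mv 847 (cons (fin 911 7 847)
(mv 783 (cons (fin 848 7 783)
(mv 1167 (cons (fin 1103 5 911)
(mv 1168 (cons (fin 1231 5 975)
(mv 1169 (cons (fin 1105 4 912)
(fin 1233 4 976)))))))))))
(mv 847 (cons (fin 911 7 847)
(mv 783 (cons (fin 848 7 783)
(mv 913 (cons (fin 849 6 848)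
(mv 1167 (cons (fin 1103 5 911)
(mv 1168 (cons (fin 1231 5 975)
(fin 977 6 912)))))))))))))
(cons (cons (mv 849 (cons (fin 913 6 848)
(mv 785 (cons (fin 848 6 784)
(mv 1167 (cons (fin 1103 5 911)
(mv 1168 (cons (fin 1231 5 975)
(mv 1169 (cons (fin 1105 4 912)
(fin 1233 4 976)))))))))))
(mv 847 (cons (fin 911 7 847)
(mv 783 (cons (fin 848 7 783)
(mv 913 (cons (fin 849 6 848)
(mv 1168 (cons (fin 977 6 912)
(mv 1169 (cons (fin 1105 4 912)
(fin 1233 4 976))))))))))))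
(cons (mv 847 (cons (fin 911 7 847)
(mv 849 (cons (fin 913 6 848)
(mv 1167 (cons (fin 1103 5 911)
(mv 1168 (cons (fin 1231 5 975)
(mv 1169 (cons (fin 1105 4 912)
(fin 1233 4 976)))))))))))
(mv 847 (cons (fin 911 7 847)
(mv 848 (cons (fin 783 7 783)
(mv 849 (cons (fin 785 6 784)
(fin 913 6 848)))))))))))
(mv 848 (cons (cons (mv 783 (cons (fin 847 7 783)
(mv 784 (cons (fin 719 7 719)
(mv 785 (cons (fin 721 6 720)
(fin 849 6 784)))))))
(mv 783 (cons (fin 847 7 783)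
(mv 784 (cons (fin 719 7 719)
(mv 1041 (cons (fin 977 4 784)
(fin 1105 4 848))))))))
(cons (mv 785 (cons (fin 849 6 784)
(mv 784 (cons (fin 721 6 720)
(mv 1041 (cons (fin 977 4 784)
(fin 1105 4 848)))))))
(mv 847 (cons (fin 783 7 783)
(mv 849 (cons (fin 785 6 784)
(mv 1041 (cons (fin 1105 4 848)
(mv 850 (cons (mv 911 (cons (fin 910 1 846)
(fin 851 1 847)))
(mv 786 (cons (fin 787 2 783)
(mv 913 (cons (fin 977 6 785)
(mv 846 (cons (fin 845 0 845)
(fin 914 0 846)))))))))))))))))))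
(cons (mv 1104 (cons (cons (mv 847 (cons (fin 911 7 847)
(mv 849 (cons (fin 913 6 848)
(mv 1167 (cons (fin 1103 5 911)
(mv 1168 (cons (fin 1231 5 975)
(mv 1169 (cons (fin 1105 4 912)
(fin 1233 4 976)))))))))))
(cons (mv 847 (cons (fin 911 7 847)
(mv 1167 (cons (fin 1103 5 911)
(mv 1168 (cons (fin 1231 5 975)
(mv 1169 (cons (fin 1105 4 912)
(fin 1233 4 976)))))))))
(mv 847 (cons (fin 911 7 847)
(mv 913 (cons (fin 849 6 848)
(mv 1167 (cons (fin 1103 5 911)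
(mv 1168 (cons (fin 1231 5 975)
(fin 977 6 912)))))))))))
(cons (mv 847 (cons (fin 911 7 847)
(mv 913 (cons (fin 849 6 848)
(mv 1168 (cons (fin 977 6 912)
(mv 1169 (cons (fin 1105 4 912)
(fin 1233 4 976)))))))))
(cons (mv 849 (cons (fin 913 6 848)
(mv 1167 (cons (fin 1103 5 911)
(mv 1168 (cons (fin 1231 5 975)
(mv 1169 (cons (fin 1105 4 912)
(fin 1233 4 976)))))))))
(mv 911 (cons (fin 847 7 847)
(mv 913 (cons (fin 849 6 848)
(mv 910 (cons (fin 973 1 909)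
(mv 977 (cons (fin 909 0 909)
(fin 978 0 910)))))))))))))
(mv 1104 (cons (cons (mv 847 (cons (fin 911 7 847)
(mv 783 (cons (fin 848 7 783)
(mv 1167 (cons (fin 1103 5 911)
(mv 1168 (cons (fin 1231 5 975)
(mv 1169 (cons (fin 1105 4 912)
(fin 1233 4 976)))))))))))
(mv 847 (cons (fin 911 7 847)
(mv 783 (cons (fin 848 7 783)
(mv 1167 (cons (fin 1103 5 911)
(mv 1168 (cons (fin 1231 5 975)
(mv 977 (cons (fin 913 6 912)
(mv 1232 (cons (fin 1041 6 976)
(mv 1233 (cons (fin 1169 4 976)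
(fin 1297 4 1040))))))))))))))))
(cons (mv 847 (cons (fin 911 7 847)
(mv 848 (cons (fin 783 7 783)
(mv 1041 (cons (fin 1105 4 848)
(mv 977 (cons (fin 784 4 784)
(mv 1168 (cons (fin 913 6 912)
(fin 1232 6 976)))))))))))
(cons (mv 1103 (cons (fin 1167 5 911)
(mv 1105 (cons (fin 1169 4 912)
(mv 1041 (cons (fin 848 4 848)
(mv 1102 (cons (fin 1101 2 1037)
(fin 1042 2 1038)))))))))
(mv 847 (cons (fin 911 7 847)
(mv 1167 (cons (fin 1103 5 911)
(mv 1168 (cons (fin 1231 5 975)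
(mv 1169 (cons (fin 1105 4 912)
(fin 1233 4 976)))))))))))))))
(cons (cons (mv 848 (cons (cons (mv 783 (cons (fin 847 7 783)
(mv 784 (cons (fin 719 7 719)
(mv 785 (cons (fin 721 6 720)
(fin 849 6 784)))))))
(cons (mv 783 (cons (fin 847 7 783)
(mv 784 (cons (fin 719 7 719)
(mv 721 (cons (fin 785 6 720)
(mv 720 (cons (fin 657 6 656)
(mv 977 (cons (fin 913 4 720)
(fin 1041 4 784)))))))))))
(mv 785 (cons (fin 849 6 784)
(mv 784 (cons (fin 721 6 720)
(mv 719 (cons (fin 783 7 719)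
(mv 720 (cons (fin 655 7 655)
(mv 977 (cons (fin 913 4 720)
(fin 1041 4 784)))))))))))))
(cons (mv 783 (cons (fin 847 7 783)
(mv 784 (cons (fin 719 7 719)
(mv 977 (cons (fin 1041 4 784)
(mv 913 (cons (fin 720 4 720)
(mv 1104 (cons (fin 849 6 848)
(fin 1168 6 912)))))))))))
(cons (mv 785 (cons (fin 849 6 784)
(mv 784 (cons (fin 721 6 720)
(mv 977 (cons (fin 1041 4 784)
(mv 913 (cons (fin 720 4 720)
(mv 1104 (cons (fin 1168 6 912)
(mv 911 (cons (fin 847 7 847)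
(mv 910 (cons (fin 973 1 909)
(fin 909 0 909)))))))))))))))
(mv 785 (cons (fin 849 6 784)
(mv 847 (cons (fin 783 7 783)
(mv 1104 (cons (fin 911 7 847)
(mv 1167 (cons (fin 1103 5 911)
(mv 1168 (cons (fin 1231 5 975)
(mv 977 (cons (fin 913 6 912)
(mv 1232 (cons (fin 1041 6 976)
(mv 1233 (cons (fin 1169 4 976)
(fin 1297 4 1040)))))))))))))))))))))
(mv 1104 (cons (cons (mv 849 (cons (fin 913 6 848)
(mv 785 (cons (fin 848 6 784)
(mv 1167 (cons (fin 1103 5 911)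
(mv 1168 (cons (fin 1231 5 975)
(mv 1169 (cons (fin 1105 4 912)
(fin 1233 4 976)))))))))))
(mv 1103 (cons (fin 1167 5 911)
(mv 1105 (cons (fin 1169 4 912)
(mv 1041 (cons (fin 848 4 848)
(mv 1102 (cons (fin 1101 2 1037)
(fin 1042 2 1038))))))))))
(cons (mv 913 (cons (fin 849 6 848)
(mv 1167 (cons (fin 1103 5 911)
(mv 1168 (cons (fin 1231 5 975)
(fin 977 6 912)))))))
(mv 849 (cons (fin 913 6 848)
(mv 848 (cons (fin 785 6 784)
(mv 1105 (cons (fin 1041 4 848)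
(fin 1169 4 912)))))))))))
(cons (mv 848 (cons (cons (mv 783 (cons (fin 847 7 783)
(mv 784 (cons (fin 719 7 719)
(mv 785 (cons (fin 721 6 720)
(fin 849 6 784)))))))
(mv 785 (cons (fin 849 6 784)
(mv 784 (cons (fin 721 6 720)
(mv 1041 (cons (fin 977 4 784)
(fin 1105 4 848))))))))
(cons (mv 783 (cons (fin 847 7 783)
(mv 784 (cons (fin 719 7 719)
(mv 1041 (cons (fin 977 4 784)
(fin 1105 4 848)))))))
(mv 785 (cons (fin 849 6 784)
(mv 847 (cons (fin 783 7 783)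
(mv 1041 (cons (fin 1105 4 848)
(mv 1104 (cons (fin 911 7 847)
(mv 1167 (cons (fin 1103 5 911)
(mv 1168 (cons (fin 1231 5 975)
(mv 1232 (cons (fin 977 6 976)
(mv 1233 (cons (fin 1169 4 976)
(fin 1297 4 1040))))))))))))))))))))
(mv 1104 (cons (cons (mv 847 (cons (fin 911 7 847)
(mv 783 (cons (fin 848 7 783)
(mv 849 (cons (fin 913 6 848)
(mv 1167 (cons (fin 1103 5 911)
(mv 1168 (cons (fin 1231 5 975)
(mv 1169 (cons (fin 1105 4 912)
(fin 1233 4 976)))))))))))))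
(mv 847 (cons (fin 911 7 847)
(mv 848 (cons (fin 783 7 783)
(mv 849 (cons (fin 785 6 784)
(fin 913 6 848))))))))
(cons (mv 849 (cons (fin 913 6 848)
(mv 785 (cons (fin 848 6 784)
(mv 1167 (cons (fin 1103 5 911)
(mv 1168 (cons (fin 1231 5 975)
(mv 1169 (cons (fin 1105 4 912)
(fin 1233 4 976)))))))))))
(cons (mv 847 (cons (fin 911 7 847)
(mv 783 (cons (fin 848 7 783)
(mv 1167 (cons (fin 1103 5 911)
(mv 1168 (cons (fin 1231 5 975)
(mv 1169 (cons (fin 1105 4 912)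
(fin 1233 4 976)))))))))))
(mv 847 (cons (fin 911 7 847)
(mv 849 (cons (fin 913 6 848)
(mv 1167 (cons (fin 1103 5 911)
(mv 1168 (cons (fin 1231 5 975)
(mv 1169 (cons (fin 1105 4 912)
(fin 1233 4 976)))))))))))))))))))
(mv 1104 (cons (cons (cons (mv 1168 (cons (cons (cons (mv 911 (cons (fin 975 7 911)
(mv 847 (cons (fin 912 7 847)
(mv 913 (cons (fin 977 6 912)
(mv 1231 (cons (fin 1167 5 975)
(mv 1232 (cons (fin 1295 5 1039)
(mv 1233 (cons (fin 1169 4 976)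
(fin 1297 4 1040)))))))))))))
(mv 911 (cons (fin 975 7 911)
(mv 847 (cons (fin 912 7 847)
(mv 1231 (cons (fin 1167 5 975)
(mv 1232 (cons (fin 1295 5 1039)
(mv 1233 (cons (fin 1169 4 976)
(fin 1297 4 1040))))))))))))
(cons (mv 911 (cons (fin 975 7 911)
(mv 847 (cons (fin 912 7 847)
(mv 977 (cons (fin 913 6 912)
(mv 1167 (cons (fin 1231 5 975)
(mv 1232 (cons (fin 1041 6 976)
(mv 1297 (cons (fin 1233 4 1040)
(mv 1296 (cons (fin 1361 4 1104)
(mv 1359 (cons (fin 1295 5 1103)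
(mv 1360 (cons (fin 1103 7 1103)
(fin 1423 5 1167)))))))))))))))))))
(mv 911 (cons (fin 975 7 911)
(mv 847 (cons (fin 912 7 847)
(mv 977 (cons (fin 913 6 912)
(mv 1169 (cons (fin 1233 4 976)
(mv 1232 (cons (fin 1041 6 976)
(mv 1295 (cons (fin 1231 5 1039)
(mv 1296 (cons (fin 1359 5 1103)
(mv 1360 (cons (fin 1105 6 1104)
(mv 1361 (cons (fin 1297 4 1104)
(fin 1425 4 1168)))))))))))))))))))))
(cons (cons (mv 911 (cons (fin 975 7 911)
(mv 847 (cons (fin 912 7 847)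
(mv 977 (cons (fin 913 6 912)
(mv 1231 (cons (fin 1167 5 975)
(mv 1232 (cons (fin 1295 5 1039)
(fin 1041 6 976)))))))))))
(mv 911 (cons (fin 975 7 911)
(mv 847 (cons (fin 912 7 847)
(mv 977 (cons (fin 913 6 912)
(mv 1232 (cons (fin 1041 6 976)
(mv 1233 (cons (fin 1169 4 976)
(fin 1297 4 1040))))))))))))
(cons (mv 913 (cons (fin 977 6 912)
(mv 849 (cons (fin 912 6 848)
(mv 1231 (cons (fin 1167 5 975)
(mv 1232 (cons (fin 1295 5 1039)
(mv 1233 (cons (fin 1169 4 976)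
(fin 1297 4 1040)))))))))))
(cons (mv 911 (cons (fin 975 7 911)
(mv 913 (cons (fin 977 6 912)
(mv 1231 (cons (fin 1167 5 975)
(mv 1232 (cons (fin 1295 5 1039)
(mv 1233 (cons (fin 1169 4 976)
(fin 1297 4 1040)))))))))))
(mv 911 (cons (fin 975 7 911)
(mv 912 (cons (fin 847 7 847)
(mv 913 (cons (fin 849 6 848)
(fin 977 6 912))))))))))))
(mv 912 (cons (cons (mv 847 (cons (fin 911 7 847)
(mv 848 (cons (fin 783 7 783)
(mv 849 (cons (fin 785 6 784)
(fin 913 6 848)))))))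
(mv 847 (cons (fin 911 7 847)
(mv 848 (cons (fin 783 7 783)
(mv 1105 (cons (fin 1041 4 848)
(fin 1169 4 912))))))))
(cons (mv 849 (cons (fin 913 6 848)
(mv 848 (cons (fin 785 6 784)
(mv 1105 (cons (fin 1041 4 848)
(fin 1169 4 912)))))))
(mv 911 (cons (fin 847 7 847)
(mv 913 (cons (fin 849 6 848)
(mv 914 (cons (fin 975 1 910)
(mv 850 (cons (fin 851 2 847)
(mv 978 (cons (fin 979 0 911)
(mv 910 (cons (fin 977 0 910)
(mv 845 (cons (fin 846 3 845)
(mv 909 (cons (fin 844 3 844)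
(mv 717 (cons (fin 781 4 717)
(mv 1102 (cons (fin 1038 7 845)
(mv 1103 (cons (fin 1167 5 911)
(mv 1041 (cons (fin 1101 2 1037)
(mv 1105 (cons (fin 1042 2 1038)
(fin 1169 4 912)))))))))))))))))))))))))))))))
(cons (mv 1168 (cons (cons (mv 911 (cons (fin 975 7 911)
(mv 913 (cons (fin 977 6 912)
(mv 1231 (cons (fin 1167 5 975)
(mv 1232 (cons (fin 1295 5 1039)
(mv 1233 (cons (fin 1169 4 976)
(fin 1297 4 1040)))))))))))
(cons (mv 911 (cons (fin 975 7 911)
(mv 1231 (cons (fin 1167 5 975)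
(mv 1232 (cons (fin 1295 5 1039)
(mv 1233 (cons (fin 1169 4 976)
(fin 1297 4 1040)))))))))
(mv 911 (cons (fin 975 7 911)
(mv 977 (cons (fin 913 6 912)
(mv 1231 (cons (fin 1167 5 975)
(mv 1232 (cons (fin 1295 5 1039)
(fin 1041 6 976)))))))))))
(cons (mv 911 (cons (fin 975 7 911)
(mv 977 (cons (fin 913 6 912)
(mv 1232 (cons (fin 1041 6 976)
(mv 1233 (cons (fin 1169 4 976)
(fin 1297 4 1040)))))))))
(cons (mv 913 (cons (fin 977 6 912)
(mv 1231 (cons (fin 1167 5 975)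
(mv 1232 (cons (fin 1295 5 1039)
(mv 1233 (cons (fin 1169 4 976)
(fin 1297 4 1040)))))))))
(mv 975 (cons (fin 911 7 911)
(mv 977 (cons (fin 913 6 912)
(mv 910 (cons (fin 909 3 909)
(mv 1038 (cons (fin 1037 1 973)
(mv 1041 (cons (fin 1042 0 974)
(mv 1167 (cons (fin 1231 5 975)
(mv 1102 (cons (fin 1103 4 910)
(mv 1101 (cons (fin 1165 5 909)
(mv 1169 (cons (fin 1166 3 1101)
(fin 1233 4 976)))))))))))))))))))))))
(mv 1168 (cons (cons (mv 911 (cons (fin 975 7 911)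
(mv 847 (cons (fin 912 7 847)
(mv 1167 (cons (fin 1231 5 975)
(mv 1233 (cons (fin 1169 4 976)
(mv 1232 (cons (fin 1297 4 1040)
(mv 1041 (cons (fin 977 6 976)
(mv 1105 (cons (fin 1296 6 1040)
(mv 1106 (cons (fin 1107 1 1103)
(mv 1166 (cons (fin 1103 1 1102)
(fin 1165 2 1101)))))))))))))))))))
(cons (mv 911 (cons (fin 975 7 911)
(mv 847 (cons (fin 912 7 847)
(mv 1231 (cons (fin 1167 5 975)
(mv 1232 (cons (fin 1295 5 1039)
(mv 1041 (cons (fin 977 6 976)
(mv 1296 (cons (fin 1105 6 1040)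
(mv 1297 (cons (fin 1233 4 1040)
(fin 1361 4 1104)))))))))))))))
(mv 911 (cons (fin 975 7 911)
(mv 847 (cons (fin 912 7 847)
(mv 1233 (cons (fin 1169 4 976)
(mv 1232 (cons (fin 1297 4 1040)
(mv 1041 (cons (fin 977 6 976)
(mv 1295 (cons (fin 1231 5 1039)
(mv 1296 (cons (fin 1359 5 1103)
(fin 1105 6 1040)))))))))))))))))
(cons (cons (mv 911 (cons (fin 975 7 911)
(mv 912 (cons (fin 847 7 847)
(mv 1167 (cons (fin 1103 5 911)
(fin 1231 5 975)))))))
(mv 911 (cons (fin 975 7 911)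
(mv 912 (cons (fin 847 7 847)
(mv 1169 (cons (fin 1105 4 912)
(fin 1233 4 976))))))))
(cons (mv 1167 (cons (fin 1231 5 975)
(mv 912 (cons (fin 1103 5 911)
(mv 1169 (cons (fin 1105 4 912)
(fin 1233 4 976)))))))
(mv 911 (cons (fin 975 7 911)
(mv 1167 (cons (fin 1231 5 975)
(mv 1233 (cons (fin 1169 4 976)
(mv 1232 (cons (fin 1297 4 1040)
(mv 1041 (cons (fin 977 6 976)
(mv 1105 (cons (fin 1296 6 1040)
(mv 1106 (cons (fin 1107 1 1103)
(mv 1166 (cons (fin 1103 1 1102)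
(fin 1165 2 1101)))))))))))))))))))))))
(cons (cons (mv 912 (cons (cons (mv 847 (cons (fin 911 7 847)
(mv 783 (cons (fin 848 7 783)
(mv 913 (cons (fin 849 6 848)
(mv 977 (cons (fin 1168 6 912)
(mv 975 (cons (fin 914 2 910)
(mv 910 (cons (fin 909 3 909)
(mv 1038 (cons (fin 1037 1 973)
(fin 846 6 782)))))))))))))))
(cons (mv 847 (cons (fin 911 7 847)
(mv 848 (cons (fin 783 7 783)
(mv 785 (cons (fin 849 6 784)
(mv 784 (cons (fin 721 6 720)
(mv 1041 (cons (fin 977 4 784)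
(fin 1105 4 848)))))))))))
(mv 849 (cons (fin 913 6 848)
(mv 848 (cons (fin 785 6 784)
(mv 783 (cons (fin 847 7 783)
(mv 784 (cons (fin 719 7 719)
(mv 1041 (cons (fin 977 4 784)
(fin 1105 4 848)))))))))))))
(cons (cons (mv 847 (cons (fin 911 7 847)
(mv 783 (cons (fin 848 7 783)
(mv 1167 (cons (fin 1103 5 911)
(mv 1168 (cons (fin 1231 5 975)
(mv 977 (cons (fin 913 6 912)
(mv 1041 (cons (fin 1232 6 976)
(mv 975 (cons (fin 1042 0 974)
(mv 910 (cons (fin 909 3 909)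
(mv 1038 (cons (fin 1037 1 973)
(fin 846 6 782)))))))))))))))))))
(mv 849 (cons (fin 913 6 848)
(mv 848 (cons (fin 785 6 784)
(mv 1041 (cons (fin 1105 4 848)
(mv 977 (cons (fin 784 4 784)
(mv 975 (cons (fin 1042 0 974)
(mv 1168 (cons (fin 911 7 911)
(fin 1232 6 976))))))))))))))
(cons (mv 847 (cons (fin 911 7 847)
(mv 913 (cons (fin 849 6 848)
(mv 1167 (cons (fin 1103 5 911)
(mv 1168 (cons (fin 1231 5 975)
(fin 977 6 912)))))))))
(mv 847 (cons (fin 911 7 847)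
(mv 848 (cons (fin 783 7 783)
(mv 849 (cons (fin 785 6 784)
(fin 913 6 848)))))))))))
(mv 1168 (cons (cons (mv 913 (cons (fin 977 6 912)
(mv 849 (cons (fin 912 6 848)
(mv 1231 (cons (fin 1167 5 975)
(mv 1232 (cons (fin 1295 5 1039)
(mv 1233 (cons (fin 1169 4 976)
(fin 1297 4 1040)))))))))))
(mv 1167 (cons (fin 1231 5 975)
(mv 912 (cons (fin 1103 5 911)
(mv 1169 (cons (fin 1105 4 912)
(fin 1233 4 976))))))))
(cons (mv 913 (cons (fin 977 6 912)
(mv 912 (cons (fin 849 6 848)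
(mv 1167 (cons (fin 1103 5 911)
(fin 1231 5 975)))))))
(cons (mv 913 (cons (fin 977 6 912)
(mv 912 (cons (fin 849 6 848)
(mv 1169 (cons (fin 1105 4 912)
(fin 1233 4 976)))))))
(mv 913 (cons (fin 977 6 912)
(mv 1231 (cons (fin 1167 5 975)
(mv 1232 (cons (fin 1295 5 1039)
(mv 1233 (cons (fin 1169 4 976)
(fin 1297 4 1040))))))))))))))
(cons (mv 912 (cons (cons (mv 847 (cons (fin 911 7 847)
(mv 783 (cons (fin 848 7 783)
(mv 913 (cons (fin 849 6 848)
(mv 977 (cons (fin 1168 6 912)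
(mv 914 (cons (fin 975 2 910)
(mv 915 (cons (fin 916 1 912)
(mv 851 (cons (fin 852 2 848)
(mv 979 (cons (fin 980 0 912)
(mv 1105 (cons (fin 1169 4 912)
(mv 850 (cons (fin 1041 6 849)
(mv 786 (cons (fin 722 5 721)
(mv 785 (cons (fin 784 0 783)
(mv 978 (cons (fin 721 7 721)
(mv 787 (cons (fin 723 5 722)
(fin 1042 5 786)))))))))))))))))))))))))))))
(mv 847 (cons (fin 911 7 847)
(mv 848 (cons (fin 783 7 783)
(mv 1105 (cons (fin 1041 4 848)
(fin 1169 4 912))))))))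
(cons (mv 849 (cons (fin 913 6 848)
(mv 848 (cons (fin 785 6 784)
(mv 1105 (cons (fin 1041 4 848)
(fin 1169 4 912)))))))
(cons (mv 847 (cons (fin 911 7 847)
(mv 783 (cons (fin 848 7 783)
(mv 913 (cons (fin 849 6 848)
(mv 977 (cons (fin 1168 6 912)
(mv 975 (cons (fin 914 2 910)
(mv 910 (cons (fin 909 3 909)
(mv 1038 (cons (fin 1037 1 973)
(fin 846 6 782)))))))))))))))
(mv 847 (cons (fin 911 7 847)
(mv 913 (cons (fin 849 6 848)
(mv 1168 (cons (fin 977 6 912)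
(mv 1169 (cons (fin 1105 4 912)
(fin 1233 4 976)))))))))))))
(mv 912 (cons (cons (mv 847 (cons (fin 911 7 847)
(mv 783 (cons (fin 848 7 783)
(mv 849 (cons (fin 913 6 848)
(mv 1167 (cons (fin 1103 5 911)
(mv 1168 (cons (fin 1231 5 975)
(mv 1169 (cons (fin 1105 4 912)
(fin 1233 4 976)))))))))))))
(mv 849 (cons (fin 913 6 848)
(mv 785 (cons (fin 848 6 784)
(mv 1167 (cons (fin 1103 5 911)
(mv 1168 (cons (fin 1231 5 975)
(mv 1169 (cons (fin 1105 4 912)
(fin 1233 4 976))))))))))))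
(cons (mv 847 (cons (fin 911 7 847)
(mv 848 (cons (fin 783 7 783)
(mv 849 (cons (fin 785 6 784)
(fin 913 6 848)))))))
(cons (mv 847 (cons (fin 911 7 847)
(mv 783 (cons (fin 848 7 783)
(mv 1167 (cons (fin 1103 5 911)
(mv 1168 (cons (fin 1231 5 975)
(mv 1169 (cons (fin 1105 4 912)
(fin 1233 4 976)))))))))))
(mv 847 (cons (fin 911 7 847)
(mv 849 (cons (fin 913 6 848)
(mv 1167 (cons (fin 1103 5 911)
(mv 1168 (cons (fin 1231 5 975)
(mv 1169 (cons (fin 1105 4 912)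
(fin 1233 4 976)))))))))))))))))))))
(cons (cons (mv 975 (cons (cons (cons (mv 977 (cons (cons (mv 909 (cons (fin 910 3 909)
(mv 908 (cons (fin 973 3 908)
(mv 913 (cons (fin 914 2 910)
(mv 849 (cons (fin 785 5 784)
(mv 1104 (cons (fin 912 6 848)
(fin 1168 6 912)))))))))))
(mv 909 (cons (fin 910 3 909)
(mv 973 (cons (fin 908 3 908)
(mv 1037 (cons (fin 1036 1 972)
(fin 1038 1 973))))))))
(cons (mv 913 (cons (fin 914 2 910)
(mv 785 (cons (fin 849 5 784)
(mv 912 (cons (fin 973 2 909)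
(mv 1037 (cons (fin 1038 1 973)
(mv 1104 (cons (fin 1168 6 912)
(mv 847 (cons (fin 911 7 847)
(mv 848 (cons (fin 783 7 783)
(mv 784 (cons (fin 721 6 720)
(fin 720 4 720)))))))))))))))))
(mv 909 (cons (fin 910 3 909)
(mv 913 (cons (fin 914 2 910)
(mv 849 (cons (fin 785 5 784)
(mv 1104 (cons (fin 912 6 848)
(fin 1168 6 912))))))))))))
(mv 973 (cons (cons (mv 908 (cons (fin 909 3 908)
(mv 912 (cons (fin 913 2 909)
(mv 972 (cons (fin 907 3 907)
(fin 911 2 908)))))))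
(mv 908 (cons (fin 909 3 908)
(mv 972 (cons (fin 907 3 907)
(mv 1036 (cons (fin 1035 1 971)
(fin 1037 1 972))))))))
(cons (mv 912 (cons (fin 913 2 909)
(mv 911 (cons (fin 972 2 908)
(mv 847 (cons (fin 1104 7 847)
(fin 783 4 783)))))))
(mv 908 (cons (fin 909 3 908)
(mv 912 (cons (fin 913 2 909)
(mv 1036 (cons (fin 1037 1 972)
(mv 848 (cons (cons (mv 783 (cons (fin 847 7 783)
(mv 784 (cons (fin 719 7 719)
(mv 785 (cons (fin 721 6 720)
(fin 849 6 784)))))))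
(mv 785 (cons (fin 849 6 784)
(mv 784 (cons (fin 721 6 720)
(mv 719 (cons (fin 783 7 719)
(mv 720 (cons (fin 655 7 655)
(fin 911 5 719))))))))))
(cons (mv 785 (cons (fin 849 6 784)
(mv 784 (cons (fin 721 6 720)
(mv 911 (cons (fin 720 5 719)
(mv 1104 (cons (fin 847 7 847)
(fin 1168 7 911)))))))))
(mv 847 (cons (fin 783 7 783)
(mv 1104 (cons (fin 911 7 847)
(mv 1167 (cons (fin 1103 5 911)
(mv 1168 (cons (fin 1231 5 975)
(mv 1169 (cons (fin 1105 4 912)
(fin 1233 4 976))))))))))))))))))))))))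
(cons (mv 977 (cons (mv 909 (cons (fin 910 3 909)
(mv 913 (cons (fin 914 2 910)
(mv 849 (cons (fin 785 5 784)
(mv 1104 (cons (fin 912 6 848)
(fin 1168 6 912)))))))))
(cons (mv 910 (cons (fin 909 3 909)
(mv 911 (cons (fin 978 3 910)
(mv 847 (cons (fin 783 4 783)
(mv 1038 (cons (fin 1037 1 973)
(fin 1102 6 846)))))))))
(mv 913 (cons (fin 914 2 910)
(mv 849 (cons (fin 785 5 784)
(mv 1104 (cons (fin 912 6 848)
(fin 1168 6 912))))))))))
(mv 977 (cons (cons (mv 909 (cons (fin 910 3 909)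
(mv 908 (cons (fin 973 3 908)
(mv 913 (cons (fin 914 2 910)
(mv 849 (cons (fin 785 5 784)
(mv 1104 (cons (fin 912 6 848)
(fin 1168 6 912)))))))))))
(mv 909 (cons (fin 910 3 909)
(mv 973 (cons (fin 908 3 908)
(mv 1037 (cons (fin 1036 1 972)
(fin 1038 1 973))))))))
(cons (mv 913 (cons (fin 914 2 910)
(mv 785 (cons (fin 849 5 784)
(mv 973 (cons (fin 912 2 909)
(mv 1037 (cons (fin 1036 1 972)
(fin 1038 1 973)))))))))
(mv 909 (cons (fin 910 3 909)
(mv 913 (cons (fin 914 2 910)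
(mv 849 (cons (fin 785 5 784)
(mv 1104 (cons (fin 912 6 848)
(fin 1168 6 912))))))))))))))
(cons (cons (mv 911 (cons (cons (mv 847 (cons (fin 783 4 783)
(mv 1104 (cons (fin 912 7 847)
(fin 1168 7 911)))))
(mv 1104 (cons (fin 1168 7 911)
(mv 973 (cons (cons (mv 908 (cons (fin 909 3 908)
(mv 972 (cons (fin 907 3 907)
(fin 912 2 908)))))
(mv 908 (cons (fin 909 3 908)
(mv 1037 (cons (fin 1036 1 972)
(mv 977 (cons (fin 1038 1 973)
(mv 978 (cons (fin 910 3 910)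
(mv 915 (cons (fin 914 2 911)
(mv 979 (cons (fin 912 3 911)
(fin 916 2 912))))))))))))))
(cons (mv 912 (cons (fin 972 2 908)
(mv 1037 (cons (fin 1036 1 972)
(mv 977 (cons (fin 1038 1 973)
(mv 978 (cons (fin 910 3 910)
(fin 979 3 911)))))))))
(mv 908 (cons (fin 909 3 908)
(mv 907 (cons (fin 972 3 907)
(mv 1037 (cons (fin 1036 1 972)
(mv 1038 (cons (fin 977 1 973)
(mv 1102 (cons (fin 1166 6 910)
(mv 1103 (cons (fin 1105 3 1037)
(mv 910 (cons (fin 1167 4 910)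
(mv 846 (cons (fin 782 5 781)
(fin 1101 5 845)))))))))))))))))))))))
(cons (mv 783 (cons (fin 847 4 783)
(mv 973 (cons (cons (mv 908 (cons (fin 909 3 908)
(mv 972 (cons (fin 907 3 907)
(fin 912 2 908)))))
(mv 908 (cons (fin 909 3 908)
(mv 1037 (cons (fin 1036 1 972)
(mv 977 (cons (fin 1038 1 973)
(mv 978 (cons (fin 910 3 910)
(mv 915 (cons (fin 914 2 911)
(mv 979 (cons (fin 912 3 911)
(fin 916 2 912))))))))))))))
(cons (mv 912 (cons (fin 972 2 908)
(mv 1037 (cons (fin 1036 1 972)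
(mv 977 (cons (fin 1038 1 973)
(mv 978 (cons (fin 910 3 910)
(fin 979 3 911)))))))))
(mv 908 (cons (fin 909 3 908)
(mv 972 (cons (fin 907 3 907)
(mv 1036 (cons (fin 1035 1 971)
(fin 1037 1 972))))))))))))
(mv 783 (cons (fin 847 4 783)
(mv 1104 (cons (fin 1168 7 911)
(mv 1037 (cons (cons (mv 973 (cons (fin 1036 1 972)
(mv 908 (cons (fin 909 3 908)
(mv 907 (cons (fin 972 3 907)
(mv 1038 (cons (fin 977 1 973)
(mv 1102 (cons (fin 1166 6 910)
(mv 1103 (cons (fin 1105 3 1037)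
(mv 910 (cons (fin 1167 4 910)
(mv 846 (cons (fin 782 5 781)
(fin 1101 5 845)))))))))))))))))
(cons (mv 973 (cons (fin 1036 1 972)
(mv 909 (cons (fin 908 3 908)
(mv 910 (cons (fin 977 3 909)
(mv 846 (cons (fin 782 5 781)
(fin 1101 6 845)))))))))
(mv 973 (cons (fin 1036 1 972)
(mv 908 (cons (fin 909 3 908)
(mv 972 (cons (fin 907 3 907)
(mv 780 (cons (fin 844 4 780)
(mv 910 (cons (fin 971 2 907)
(mv 846 (cons (fin 782 5 781)
(mv 1101 (cons (fin 1165 7 908)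
(fin 1038 5 845)))))))))))))))))
(cons (mv 977 (cons (fin 1038 1 973)
(mv 910 (cons (fin 909 3 909)
(fin 978 3 910)))))
(cons (mv 973 (cons (fin 1036 1 972)
(mv 909 (cons (fin 908 3 908)
(mv 1038 (cons (fin 977 1 973)
(mv 845 (cons (fin 781 4 781)
(fin 1102 4 845)))))))))
(mv 973 (cons (fin 1036 1 972)
(mv 1038 (cons (fin 977 1 973)
(mv 1102 (cons (fin 1166 6 910)
(mv 1103 (cons (fin 1105 3 1037)
(mv 910 (cons (fin 1167 4 910)
(mv 846 (cons (fin 782 5 781)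
(fin 1101 5 845))))))))))))))))))))))))
(mv 911 (cons (cons (mv 847 (cons (fin 783 4 783)
(mv 1104 (cons (fin 912 7 847)
(fin 1168 7 911)))))
(mv 1104 (cons (fin 1168 7 911)
(mv 912 (cons (mv 913 (cons (fin 914 1 910)
(fin 973 2 909)))
(cons (mv 973 (cons (fin 972 2 908)
(mv 1037 (cons (fin 1036 1 972)
(mv 977 (cons (fin 1038 1 973)
(mv 978 (cons (fin 910 3 910)
(fin 979 3 911)))))))))
(mv 913 (cons (fin 914 1 910)
(fin 849 6 848)))))))))
(cons (mv 783 (cons (fin 847 4 783)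
(mv 973 (cons (mv 912 (cons (fin 972 2 908)
(fin 913 2 909)))
(cons (mv 1036 (cons (fin 1037 1 972)
(mv 972 (cons (fin 1035 1 971)
(mv 907 (cons (fin 908 3 907)
(mv 971 (cons (fin 906 3 906)
(fin 910 2 907)))))))))
(mv 912 (cons (fin 913 2 909)
(mv 1037 (cons (fin 1036 1 972)
(mv 977 (cons (fin 1038 1 973)
(mv 978 (cons (fin 910 3 910)
(fin 979 3 911))))))))))))))
(mv 847 (cons (fin 783 4 783)
(mv 1104 (cons (fin 1168 7 911)
(mv 1038 (cons (mv 1102 (cons (fin 910 6 846)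
(fin 1166 6 910)))
(cons (mv 977 (cons (fin 1037 1 973)
(mv 914 (cons (fin 913 2 910)
(mv 978 (cons (fin 910 3 910)
(fin 915 2 911)))))))
(mv 1037 (cons (fin 977 1 973)
(mv 1036 (cons (fin 973 1 972)
(fin 1035 2 971))))))))))))))))
(cons (mv 977 (cons (cons (mv 909 (cons (fin 910 3 909)
(mv 908 (cons (fin 973 3 908)
(mv 913 (cons (fin 914 2 910)
(mv 849 (cons (fin 785 5 784)
(mv 1104 (cons (fin 912 6 848)
(fin 1168 6 912)))))))))))
(mv 910 (cons (fin 909 3 909)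
(mv 911 (cons (fin 978 3 910)
(mv 847 (cons (fin 783 4 783)
(mv 1104 (cons (fin 912 7 847)
(fin 1168 7 911))))))))))
(cons (mv 913 (cons (fin 914 2 910)
(mv 785 (cons (fin 849 5 784)
(mv 912 (cons (fin 973 2 909)
(mv 1104 (cons (fin 1168 6 912)
(mv 847 (cons (fin 911 7 847)
(mv 848 (cons (fin 783 7 783)
(mv 784 (cons (fin 721 6 720)
(fin 720 4 720)))))))))))))))
(cons (mv 909 (cons (fin 910 3 909)
(mv 913 (cons (fin 914 2 910)
(mv 973 (cons (fin 908 3 908)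
(fin 912 2 909)))))))
(mv 910 (cons (fin 909 3 909)
(mv 914 (cons (fin 913 2 910)
(mv 978 (cons (fin 911 3 910)
(fin 915 2 911)))))))))))
(cons (mv 1037 (cons (cons (mv 973 (cons (fin 1036 1 972)
(mv 908 (cons (fin 909 3 908)
(mv 972 (cons (fin 907 3 907)
(mv 780 (cons (fin 844 4 780)
(mv 1038 (cons (fin 977 1 973)
(mv 971 (cons (fin 970 0 970)
(mv 910 (cons (fin 911 2 907)
(mv 846 (cons (fin 782 5 781)
(fin 1101 5 845)))))))))))))))))
(mv 973 (cons (fin 1036 1 972)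
(mv 909 (cons (fin 908 3 908)
(mv 845 (cons (cons (mv 1038 (cons (fin 781 4 781)
(fin 1102 4 845)))
(mv 780 (cons (fin 844 7 780)
(mv 716 (cons (fin 781 7 716)
(mv 846 (cons (fin 782 6 781)
(mv 1101 (cons (fin 910 6 845)
(mv 1102 (cons (fin 1166 4 909)
(mv 1164 (cons (fin 1100 5 908)
(mv 1165 (cons (fin 1228 5 972)
(mv 1104 (cons (fin 1103 1 1100)
(mv 1168 (cons (fin 911 7 911)
(mv 1231 (cons (fin 1167 5 975)
(mv 1232 (cons (fin 1295 5 1039)
(mv 1233 (cons (fin 1169 4 976)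
(fin 1297 4 1040))))))))))))))))))))))))))
(cons (mv 780 (cons (fin 844 7 780)
(mv 782 (cons (fin 846 6 781)
(mv 1102 (cons (fin 1038 4 845)
(mv 1101 (cons (fin 1166 4 909)
(mv 1164 (cons (fin 1100 5 908)
(mv 1165 (cons (fin 1228 5 972)
(fin 910 6 909)))))))))))))
(mv 780 (cons (fin 844 7 780)
(mv 781 (cons (fin 716 7 716)
(fin 1038 4 781)))))))))))))
(cons (mv 977 (cons (fin 1038 1 973)
(mv 910 (cons (fin 909 3 909)
(mv 914 (cons (fin 913 2 910)
(mv 978 (cons (fin 911 3 910)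
(fin 915 2 911)))))))))
(cons (mv 973 (cons (fin 1036 1 972)
(mv 909 (cons (fin 908 3 908)
(mv 910 (cons (fin 977 3 909)
(mv 846 (cons (fin 782 5 781)
(fin 1101 6 845)))))))))
(mv 1036 (cons (fin 973 1 972)
(mv 1038 (cons (fin 977 1 973)
(fin 1035 2 971)))))))))
(mv 973 (cons (cons (mv 908 (cons (fin 909 3 908)
(mv 907 (cons (fin 972 3 907)
(mv 913 (cons (fin 912 2 909)
(mv 977 (cons (fin 914 2 910)
(mv 1037 (cons (fin 1036 1 972)
(fin 1038 1 973)))))))))))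
(mv 912 (cons (fin 913 2 909)
(mv 911 (cons (fin 972 2 908)
(mv 783 (cons (fin 847 4 783)
(mv 1037 (cons (fin 1036 1 972)
(mv 977 (cons (fin 1038 1 973)
(mv 978 (cons (fin 910 3 910)
(fin 979 3 911))))))))))))))
(cons (mv 908 (cons (fin 909 3 908)
(mv 972 (cons (fin 907 3 907)
(mv 1036 (cons (fin 1035 1 971)
(fin 1037 1 972)))))))
(cons (mv 908 (cons (fin 909 3 908)
(mv 912 (cons (fin 913 2 909)
(mv 972 (cons (fin 907 3 907)
(fin 911 2 908)))))))
(mv 908 (cons (fin 909 3 908)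
(mv 913 (cons (fin 912 2 909)
(mv 977 (cons (fin 914 2 910)
(mv 1037 (cons (fin 1036 1 972)
(fin 1038 1 973))))))))))))))))))
(mv 975 (cons (cons (mv 973 (cons (fin 1041 0 973)
(mv 908 (cons (fin 909 3 908)
(mv 972 (cons (fin 907 3 907)
(mv 1036 (cons (fin 1035 1 971)
(fin 1037 1 972)))))))))
(mv 977 (cons (cons (mv 909 (cons (fin 910 3 909)
(mv 913 (cons (fin 914 2 910)
(mv 849 (cons (fin 785 5 784)
(mv 1041 (cons (fin 1042 0 974)
(fin 1104 5 848)))))))))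
(mv 910 (cons (fin 909 3 909)
(mv 911 (cons (fin 978 3 910)
(mv 783 (cons (fin 847 4 783)
(mv 1038 (cons (fin 1037 1 973)
(mv 1041 (cons (fin 1042 0 974)
(mv 1102 (cons (fin 1166 6 910)
(mv 1101 (cons (fin 1165 5 909)
(mv 1103 (cons (fin 1104 2 1037)
(fin 1167 4 910))))))))))))))))))
(cons (mv 913 (cons (fin 914 2 910)
(mv 849 (cons (fin 785 5 784)
(mv 1041 (cons (fin 1042 0 974)
(fin 1104 5 848)))))))
(mv 910 (cons (fin 909 3 909)
(mv 911 (cons (fin 978 3 910)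
(mv 847 (cons (fin 783 4 783)
(mv 1038 (cons (fin 1037 1 973)
(fin 1102 6 846)))))))))))))
(cons (mv 1037 (cons (cons (mv 973 (cons (fin 1036 1 972)
(mv 908 (cons (fin 909 3 908)
(mv 972 (cons (fin 907 3 907)
(mv 780 (cons (fin 844 4 780)
(mv 1038 (cons (fin 977 1 973)
(mv 971 (cons (fin 970 0 970)
(mv 910 (cons (fin 911 2 907)
(mv 846 (cons (fin 782 5 781)
(fin 1101 5 845)))))))))))))))))
(mv 973 (cons (fin 1036 1 972)
(mv 909 (cons (fin 908 3 908)
(mv 845 (cons (cons (mv 1038 (cons (fin 781 4 781)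
(fin 1102 4 845)))
(mv 780 (cons (fin 844 7 780)
(mv 716 (cons (fin 781 7 716)
(mv 846 (cons (fin 782 6 781)
(mv 1101 (cons (fin 910 6 845)
(mv 1102 (cons (fin 1166 4 909)
(mv 1164 (cons (fin 1100 5 908)
(mv 1165 (cons (fin 1228 5 972)
(mv 1104 (cons (fin 1103 1 1100)
(mv 1168 (cons (fin 911 7 911)
(mv 1231 (cons (fin 1167 5 975)
(mv 1232 (cons (fin 1295 5 1039)
(mv 1233 (cons (fin 1169 4 976)
(fin 1297 4 1040))))))))))))))))))))))))))
(cons (mv 780 (cons (fin 844 7 780)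
(mv 782 (cons (fin 846 6 781)
(mv 1102 (cons (fin 1038 4 845)
(mv 1101 (cons (fin 1166 4 909)
(mv 1164 (cons (fin 1100 5 908)
(mv 1165 (cons (fin 1228 5 972)
(fin 910 6 909)))))))))))))
(mv 780 (cons (fin 844 7 780)
(mv 781 (cons (fin 716 7 716)
(fin 1038 4 781)))))))))))))
(cons (mv 977 (cons (fin 1038 1 973)
(mv 910 (cons (fin 909 3 909)
(mv 914 (cons (fin 913 2 910)
(mv 978 (cons (fin 911 3 910)
(fin 915 2 911)))))))))
(cons (mv 973 (cons (fin 1036 1 972)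
(mv 909 (cons (fin 908 3 908)
(mv 910 (cons (fin 977 3 909)
(mv 846 (cons (fin 782 5 781)
(fin 1101 6 845)))))))))
(mv 1036 (cons (fin 973 1 972)
(mv 1038 (cons (fin 977 1 973)
(fin 1035 2 971)))))))))
(mv 1041 (cons (fin 973 0 973)
(mv 977 (cons (fin 1042 0 974)
(mv 913 (cons (fin 914 2 910)
(mv 849 (cons (fin 785 5 784)
(fin 1104 5 848)))))))))))))
(cons (mv 975 (cons (cons (mv 973 (cons (fin 1041 0 973)
(mv 908 (cons (fin 909 3 908)
(mv 907 (cons (fin 972 3 907)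
(mv 913 (cons (fin 912 2 909)
(mv 977 (cons (fin 914 2 910)
(mv 1037 (cons (fin 1036 1 972)
(fin 1038 1 973)))))))))))))
(cons (mv 977 (cons (cons (mv 909 (cons (fin 910 3 909)
(mv 913 (cons (fin 914 2 910)
(mv 849 (cons (fin 785 5 784)
(mv 1037 (cons (fin 1038 1 973)
(mv 1041 (cons (fin 1042 0 974)
(mv 786 (cons (fin 850 6 785)
(mv 848 (cons (fin 784 7 784)
(mv 1105 (cons (fin 912 7 848)
(mv 1169 (cons (fin 1233 7 976)
(mv 1170 (cons (fin 1106 4 913)
(fin 1234 4 977)))))))))))))))))))))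
(mv 910 (cons (fin 909 3 909)
(mv 911 (cons (fin 978 3 910)
(mv 847 (cons (fin 783 4 783)
(mv 1038 (cons (fin 1037 1 973)
(fin 1102 6 846))))))))))
(cons (mv 913 (cons (fin 914 2 910)
(mv 849 (cons (fin 785 5 784)
(mv 1037 (cons (fin 1038 1 973)
(mv 1041 (cons (fin 1042 0 974)
(mv 786 (cons (fin 850 6 785)
(mv 848 (cons (fin 784 7 784)
(mv 1105 (cons (fin 912 7 848)
(mv 1169 (cons (fin 1233 7 976)
(mv 1170 (cons (fin 1106 4 913)
(fin 1234 4 977)))))))))))))))))))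
(mv 909 (cons (fin 910 3 909)
(mv 913 (cons (fin 914 2 910)
(mv 849 (cons (fin 785 5 784)
(mv 1041 (cons (fin 1042 0 974)
(mv 786 (cons (fin 850 6 785)
(mv 848 (cons (fin 784 7 784)
(mv 1105 (cons (fin 912 7 848)
(mv 1169 (cons (fin 1233 7 976)
(mv 1170 (cons (fin 1106 4 913)
(fin 1234 4 977))))))))))))))))))))))
(mv 973 (cons (cons (mv 908 (cons (fin 909 3 908)
(mv 907 (cons (fin 972 3 907)
(mv 913 (cons (fin 912 2 909)
(mv 977 (cons (fin 914 2 910)
(mv 1037 (cons (fin 1036 1 972)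
(fin 1038 1 973)))))))))))
(mv 912 (cons (fin 913 2 909)
(mv 911 (cons (fin 972 2 908)
(mv 783 (cons (fin 847 4 783)
(mv 1037 (cons (fin 1036 1 972)
(mv 977 (cons (fin 1038 1 973)
(mv 978 (cons (fin 910 3 910)
(fin 979 3 911))))))))))))))
(cons (mv 908 (cons (fin 909 3 908)
(mv 972 (cons (fin 907 3 907)
(mv 1036 (cons (fin 1035 1 971)
(fin 1037 1 972)))))))
(cons (mv 908 (cons (fin 909 3 908)
(mv 912 (cons (fin 913 2 909)
(mv 972 (cons (fin 907 3 907)
(fin 911 2 908)))))))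
(mv 908 (cons (fin 909 3 908)
(mv 913 (cons (fin 912 2 909)
(mv 977 (cons (fin 914 2 910)
(mv 1037 (cons (fin 1036 1 972)
(fin 1038 1 973)))))))))))))))
(cons (mv 973 (cons (fin 1041 0 973)
(mv 908 (cons (fin 909 3 908)
(mv 912 (cons (fin 913 2 909)
(mv 972 (cons (fin 907 3 907)
(fin 911 2 908)))))))))
(cons (mv 973 (cons (fin 1041 0 973)
(mv 908 (cons (fin 909 3 908)
(mv 972 (cons (fin 907 3 907)
(mv 1036 (cons (fin 1035 1 971)
(fin 1037 1 972)))))))))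
(mv 973 (cons (fin 1041 0 973)
(mv 912 (cons (fin 913 2 909)
(mv 911 (cons (fin 972 2 908)
(mv 783 (cons (fin 847 4 783)
(mv 1037 (cons (fin 1036 1 972)
(mv 977 (cons (fin 1038 1 973)
(mv 978 (cons (fin 910 3 910)
(fin 979 3 911)))))))))))))))))))
(mv 1104 (cons (cons (mv 912 (cons (cons (mv 847 (cons (fin 911 7 847)
(mv 783 (cons (fin 848 7 783)
(mv 849 (cons (fin 913 6 848)
(mv 1167 (cons (fin 1103 5 911)
(mv 1168 (cons (fin 1231 5 975)
(mv 1169 (cons (fin 1105 4 912)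
(fin 1233 4 976)))))))))))))
(mv 849 (cons (fin 913 6 848)
(mv 785 (cons (fin 848 6 784)
(mv 1167 (cons (fin 1103 5 911)
(mv 1168 (cons (fin 1231 5 975)
(mv 1169 (cons (fin 1105 4 912)
(fin 1233 4 976))))))))))))
(cons (mv 847 (cons (fin 911 7 847)
(mv 783 (cons (fin 848 7 783)
(mv 1167 (cons (fin 1103 5 911)
(mv 1168 (cons (fin 1231 5 975)
(mv 1169 (cons (fin 1105 4 912)
(fin 1233 4 976)))))))))))
(cons (mv 847 (cons (fin 911 7 847)
(mv 848 (cons (fin 783 7 783)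
(mv 849 (cons (fin 785 6 784)
(fin 913 6 848)))))))
(mv 847 (cons (fin 911 7 847)
(mv 849 (cons (fin 913 6 848)
(mv 1167 (cons (fin 1103 5 911)
(mv 1168 (cons (fin 1231 5 975)
(mv 1169 (cons (fin 1105 4 912)
(fin 1233 4 976)))))))))))))))
(mv 1168 (cons (mv 911 (cons (fin 975 7 911)
(mv 1231 (cons (fin 1167 5 975)
(mv 1232 (cons (fin 1295 5 1039)
(mv 1233 (cons (fin 1169 4 976)
(fin 1297 4 1040)))))))))
(cons (mv 1231 (cons (fin 1167 5 975)
(mv 1232 (cons (fin 1295 5 1039)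
(mv 1233 (cons (fin 1169 4 976)
(fin 1297 4 1040)))))))
(mv 975 (cons (fin 911 7 911)
(mv 973 (cons (fin 1041 0 973)
(mv 908 (cons (fin 909 3 908)
(mv 972 (cons (fin 907 3 907)
(mv 1036 (cons (fin 1035 1 971)
(fin 1037 1 972)))))))))))))))
(cons (mv 912 (cons (cons (mv 847 (cons (fin 911 7 847)
(mv 848 (cons (fin 783 7 783)
(mv 849 (cons (fin 785 6 784)
(fin 913 6 848)))))))
(mv 847 (cons (fin 911 7 847)
(mv 848 (cons (fin 783 7 783)
(mv 1105 (cons (fin 1041 4 848)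
(fin 1169 4 912))))))))
(cons (mv 849 (cons (fin 913 6 848)
(mv 848 (cons (fin 785 6 784)
(mv 1105 (cons (fin 1041 4 848)
(fin 1169 4 912)))))))
(mv 911 (cons (fin 847 7 847)
(mv 913 (cons (fin 849 6 848)
(mv 973 (cons (fin 910 1 909)
(fin 975 2 909))))))))))
(cons (mv 975 (cons (mv 911 (cons (fin 1168 7 911)
(mv 847 (cons (fin 912 7 847)
(fin 783 4 783)))))
(cons (mv 973 (cons (fin 1041 0 973)
(mv 908 (cons (fin 909 3 908)
(mv 912 (cons (fin 913 2 909)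
(mv 972 (cons (fin 907 3 907)
(mv 1036 (cons (fin 1035 1 971)
(fin 1037 1 972)))))))))))
(mv 911 (cons (fin 1168 7 911)
(mv 783 (cons (fin 847 4 783)
(mv 973 (cons (fin 1041 0 973)
(mv 908 (cons (fin 909 3 908)
(mv 972 (cons (fin 907 3 907)
(mv 1036 (cons (fin 1035 1 971)
(fin 1037 1 972))))))))))))))))
(mv 1168 (cons (cons (mv 1167 (cons (fin 1231 5 975)
(mv 912 (cons (fin 1103 5 911)
(mv 1169 (cons (fin 1105 4 912)
(fin 1233 4 976)))))))
(mv 1167 (cons (fin 1231 5 975)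
(mv 1103 (cons (fin 912 5 911)
(mv 1102 (cons (mv 1101 (cons (fin 1041 2 1037)
(fin 1100 0 1100)))
(mv 1038 (cons (fin 910 4 910)
(mv 1037 (cons (fin 1105 3 1037)
(mv 1036 (cons (fin 1035 0 1035)
(mv 973 (cons (fin 975 1 972)
(mv 909 (cons (fin 1166 7 909)
(fin 845 4 845))))))))))))))))))
(cons (mv 1232 (cons (mv 1233 (cons (fin 1169 4 976)
(fin 1297 4 1040)))
(cons (mv 1295 (cons (fin 1231 5 1039)
(mv 1296 (cons (fin 1359 5 1103)
(mv 1105 (cons (fin 1041 6 1040)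
(mv 1169 (cons (fin 1360 6 1104)
(fin 912 4 912)))))))))
(mv 1295 (cons (fin 1231 5 1039)
(mv 1296 (cons (fin 1359 5 1103)
(mv 1297 (cons (fin 1233 4 1040)
(fin 1361 4 1104))))))))))
(cons (mv 1169 (cons (fin 1233 4 976)
(mv 1103 (cons (mv 912 (cons (fin 1167 5 911)
(fin 1105 4 912)))
(cons (mv 1102 (cons (fin 1101 0 1101)
(mv 1170 (cons (fin 1167 3 1102)
(fin 1171 3 1103)))))
(mv 1102 (cons (fin 1101 0 1101)
(mv 1105 (cons (fin 1170 0 1102)
(fin 912 4 912))))))))))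
(mv 1231 (cons (fin 1167 5 975)
(mv 1232 (cons (fin 1295 5 1039)
(mv 1233 (cons (fin 1169 4 976)
(fin 1297 4 1040))))))))))))))))))
(cons (cons (mv 975 (cons (cons (mv 973 (cons (fin 1041 0 973)
(mv 908 (cons (fin 909 3 908)
(mv 972 (cons (fin 907 3 907)
(mv 1036 (cons (fin 1035 1 971)
(fin 1037 1 972)))))))))
(cons (mv 1104 (cons (cons (mv 911 (cons (fin 1168 7 911)
(mv 847 (cons (fin 912 7 847)
(fin 783 4 783)))))
(mv 1168 (cons (cons (mv 1167 (cons (fin 1231 5 975)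
(mv 912 (cons (fin 1103 5 911)
(mv 1169 (cons (fin 1105 4 912)
(fin 1233 4 976)))))))
(cons (mv 1231 (cons (fin 1167 5 975)
(mv 1232 (cons (fin 1295 5 1039)
(mv 1041 (cons (fin 977 6 976)
(mv 1296 (cons (fin 1105 6 1040)
(mv 1297 (cons (fin 1233 4 1040)
(fin 1361 4 1104)))))))))))
(mv 1233 (cons (fin 1169 4 976)
(mv 1232 (cons (fin 1297 4 1040)
(mv 1041 (cons (fin 977 6 976)
(mv 1295 (cons (fin 1231 5 1039)
(mv 1296 (cons (fin 1359 5 1103)
(fin 1105 6 1040)))))))))))))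
(cons (mv 1167 (cons (fin 1231 5 975)
(mv 912 (cons (fin 1103 5 911)
(mv 1105 (cons (fin 1169 4 912)
(mv 848 (cons (fin 1041 4 848)
(mv 783 (cons (fin 847 7 783)
(mv 784 (cons (fin 719 7 719)
(mv 785 (cons (fin 721 6 720)
(fin 849 6 784)))))))))))))))
(cons (mv 1233 (cons (fin 1169 4 976)
(mv 1232 (cons (fin 1297 4 1040)
(mv 1041 (cons (fin 977 6 976)
(mv 1105 (cons (fin 1296 6 1040)
(mv 912 (cons (fin 848 4 848)
(mv 1103 (cons (fin 1167 5 911)
(mv 1102 (cons (fin 1101 2 1037)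
(fin 1042 2 1038)))))))))))))))
(mv 1167 (cons (fin 1231 5 975)
(mv 1103 (cons (fin 912 5 911)
(mv 1169 (cons (fin 1233 4 976)
(mv 1102 (cons (fin 1170 3 1102)
(fin 1101 0 1101))))))))))))))
(cons (mv 911 (cons (mv 847 (cons (fin 912 7 847)
(fin 783 4 783)))
(cons (mv 977 (cons (mv 910 (cons (fin 909 3 909)
(fin 978 3 910)))
(mv 1038 (cons (fin 1037 1 973)
(mv 1041 (cons (fin 1042 0 974)
(mv 1102 (cons (fin 1166 6 910)
(mv 1103 (cons (fin 1101 2 1037)
(mv 912 (cons (fin 1167 5 911)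
(mv 848 (cons (fin 784 4 784)
(fin 1105 4 848)))))))))))))))
(mv 847 (cons (fin 783 4 783)
(mv 1038 (cons (mv 1102 (cons (fin 910 6 846)
(fin 1166 6 910)))
(cons (mv 977 (cons (fin 1037 1 973)
(mv 910 (cons (fin 909 3 909)
(fin 978 3 910)))))
(mv 1037 (cons (fin 977 1 973)
(mv 1035 (cons (fin 1036 2 971)
(mv 1102 (cons (fin 1166 6 910)
(mv 1103 (cons (fin 1105 3 1037)
(mv 1101 (cons (fin 1041 2 1037)
(mv 1165 (cons (fin 1164 1 1100)
(fin 1229 6 973)))))))))))))))))))))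
(cons (mv 911 (cons (fin 1168 7 911)
(mv 847 (cons (fin 783 4 783)
(mv 1038 (cons (mv 1102 (cons (fin 910 6 846)
(fin 1166 6 910)))
(cons (mv 977 (cons (fin 1037 1 973)
(mv 910 (cons (fin 909 3 909)
(fin 978 3 910)))))
(mv 1037 (cons (fin 977 1 973)
(mv 1035 (cons (fin 1036 2 971)
(mv 1102 (cons (fin 1166 6 910)
(mv 1103 (cons (fin 1105 3 1037)
(mv 1101 (cons (fin 1041 2 1037)
(mv 1165 (cons (fin 1164 1 1100)
(fin 1229 6 973))))))))))))))))))))
(mv 911 (cons (fin 1168 7 911)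
(mv 977 (cons (mv 910 (cons (fin 909 3 909)
(fin 978 3 910)))
(mv 1038 (cons (fin 1037 1 973)
(mv 1041 (cons (fin 1042 0 974)
(mv 1102 (cons (fin 1166 6 910)
(mv 1103 (cons (fin 1101 2 1037)
(mv 912 (cons (fin 1167 5 911)
(mv 848 (cons (fin 784 4 784)
(fin 1105 4 848)))))))))))))))))))))
(mv 911 (cons (cons (mv 847 (cons (fin 783 4 783)
(mv 1104 (cons (fin 912 7 847)
(fin 1168 7 911)))))
(mv 1104 (cons (fin 1168 7 911)
(mv 973 (cons (cons (mv 908 (cons (fin 909 3 908)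
(mv 972 (cons (fin 907 3 907)
(fin 912 2 908)))))
(mv 908 (cons (fin 909 3 908)
(mv 1037 (cons (fin 1036 1 972)
(mv 977 (cons (fin 1038 1 973)
(mv 978 (cons (fin 910 3 910)
(mv 915 (cons (fin 914 2 911)
(mv 979 (cons (fin 912 3 911)
(fin 916 2 912))))))))))))))
(cons (mv 912 (cons (fin 972 2 908)
(mv 1037 (cons (fin 1036 1 972)
(mv 977 (cons (fin 1038 1 973)
(mv 978 (cons (fin 910 3 910)
(fin 979 3 911)))))))))
(mv 908 (cons (fin 909 3 908)
(mv 907 (cons (fin 972 3 907)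
(mv 1037 (cons (fin 1036 1 972)
(mv 1038 (cons (fin 977 1 973)
(mv 1102 (cons (fin 1166 6 910)
(mv 1103 (cons (fin 1105 3 1037)
(mv 910 (cons (fin 1167 4 910)
(mv 846 (cons (fin 782 5 781)
(fin 1101 5 845)))))))))))))))))))))))
(cons (mv 783 (cons (fin 847 4 783)
(mv 973 (cons (cons (mv 908 (cons (fin 909 3 908)
(mv 972 (cons (fin 907 3 907)
(fin 912 2 908)))))
(mv 908 (cons (fin 909 3 908)
(mv 1037 (cons (fin 1036 1 972)
(mv 977 (cons (fin 1038 1 973)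
(mv 978 (cons (fin 910 3 910)
(mv 915 (cons (fin 914 2 911)
(mv 979 (cons (fin 912 3 911)
(fin 916 2 912))))))))))))))
(cons (mv 912 (cons (fin 972 2 908)
(mv 1037 (cons (fin 1036 1 972)
(mv 977 (cons (fin 1038 1 973)
(mv 978 (cons (fin 910 3 910)
(fin 979 3 911)))))))))
(mv 908 (cons (fin 909 3 908)
(mv 972 (cons (fin 907 3 907)
(mv 1036 (cons (fin 1035 1 971)
(fin 1037 1 972))))))))))))
(mv 783 (cons (fin 847 4 783)
(mv 1104 (cons (fin 1168 7 911)
(mv 1037 (cons (cons (mv 973 (cons (fin 1036 1 972)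
(mv 908 (cons (fin 909 3 908)
(mv 907 (cons (fin 972 3 907)
(mv 1038 (cons (fin 977 1 973)
(mv 1102 (cons (fin 1166 6 910)
(mv 1103 (cons (fin 1105 3 1037)
(mv 910 (cons (fin 1167 4 910)
(mv 846 (cons (fin 782 5 781)
(fin 1101 5 845)))))))))))))))))
(cons (mv 973 (cons (fin 1036 1 972)
(mv 909 (cons (fin 908 3 908)
(mv 910 (cons (fin 977 3 909)
(mv 846 (cons (fin 782 5 781)
(fin 1101 6 845)))))))))
(mv 973 (cons (fin 1036 1 972)
(mv 908 (cons (fin 909 3 908)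
(mv 972 (cons (fin 907 3 907)
(mv 780 (cons (fin 844 4 780)
(mv 910 (cons (fin 971 2 907)
(mv 846 (cons (fin 782 5 781)
(mv 1101 (cons (fin 1165 7 908)
(fin 1038 5 845)))))))))))))))))
(cons (mv 977 (cons (fin 1038 1 973)
(mv 910 (cons (fin 909 3 909)
(fin 978 3 910)))))
(cons (mv 973 (cons (fin 1036 1 972)
(mv 909 (cons (fin 908 3 908)
(mv 1038 (cons (fin 977 1 973)
(mv 845 (cons (fin 781 4 781)
(fin 1102 4 845)))))))))
(mv 973 (cons (fin 1036 1 972)
(mv 1038 (cons (fin 977 1 973)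
(mv 1102 (cons (fin 1166 6 910)
(mv 1103 (cons (fin 1105 3 1037)
(mv 910 (cons (fin 1167 4 910)
(mv 846 (cons (fin 782 5 781)
(fin 1101 5 845))))))))))))))))))))))))))
(cons (mv 973 (cons (fin 1041 0 973)
(mv 1036 (cons (fin 1037 1 972)
(mv 972 (cons (fin 1035 1 971)
(mv 907 (cons (fin 908 3 907)
(mv 911 (cons (fin 912 2 908)
(mv 971 (cons (fin 906 3 906)
(fin 910 2 907)))))))))))))
(cons (mv 973 (cons (fin 1041 0 973)
(mv 908 (cons (fin 909 3 908)
(mv 972 (cons (fin 907 3 907)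
(mv 911 (cons (fin 912 2 908)
(mv 783 (cons (fin 847 4 783)
(mv 971 (cons (fin 910 2 907)
(mv 1035 (cons (fin 1034 1 970)
(fin 1036 1 971)))))))))))))))
(mv 973 (cons (fin 1041 0 973)
(mv 908 (cons (fin 909 3 908)
(mv 972 (cons (fin 907 3 907)
(mv 911 (cons (fin 912 2 908)
(mv 847 (cons (fin 783 4 783)
(mv 910 (cons (fin 971 2 907)
(mv 977 (cons (fin 978 3 910)
(mv 1038 (cons (fin 1037 1 973)
(fin 1102 6 846)))))))))))))))))))))
(cons (mv 1104 (cons (cons (cons (mv 912 (cons (cons (mv 849 (cons (fin 913 6 848)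
(mv 785 (cons (fin 848 6 784)
(mv 1167 (cons (fin 1103 5 911)
(mv 1168 (cons (fin 1231 5 975)
(mv 1169 (cons (fin 1105 4 912)
(fin 1233 4 976)))))))))))
(mv 1103 (cons (fin 1167 5 911)
(mv 1105 (cons (fin 1169 4 912)
(mv 848 (cons (fin 1041 4 848)
(mv 783 (cons (fin 847 7 783)
(mv 784 (cons (fin 719 7 719)
(mv 785 (cons (fin 721 6 720)
(fin 849 6 784))))))))))))))
(cons (mv 913 (cons (fin 849 6 848)
(mv 973 (cons (fin 975 2 909)
(mv 1167 (cons (fin 1103 5 911)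
(mv 1168 (cons (fin 1231 5 975)
(fin 977 6 912)))))))))
(cons (mv 1103 (cons (fin 1167 5 911)
(mv 1105 (cons (fin 1169 4 912)
(mv 1041 (cons (fin 848 4 848)
(mv 1102 (cons (fin 1101 2 1037)
(fin 1042 2 1038)))))))))
(mv 849 (cons (fin 913 6 848)
(mv 848 (cons (fin 785 6 784)
(mv 1105 (cons (fin 1041 4 848)
(fin 1169 4 912)))))))))))
(mv 1168 (cons (cons (mv 913 (cons (fin 977 6 912)
(mv 1231 (cons (fin 1167 5 975)
(mv 1232 (cons (fin 1295 5 1039)
(mv 1233 (cons (fin 1169 4 976)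
(fin 1297 4 1040)))))))))
(mv 1231 (cons (fin 1167 5 975)
(mv 1232 (cons (fin 1295 5 1039)
(mv 1233 (cons (fin 1169 4 976)
(fin 1297 4 1040))))))))
(cons (mv 977 (cons (fin 913 6 912)
(mv 1041 (cons (fin 1232 6 976)
(mv 975 (cons (fin 973 0 973)
(fin 1042 0 974)))))))
(mv 913 (cons (fin 977 6 912)
(mv 1167 (cons (fin 1231 5 975)
(mv 1169 (cons (fin 1233 4 976)
(mv 1166 (cons (mv 1105 (cons (fin 1165 2 1101)
(fin 1106 2 1102)))
(cons (mv 1101 (cons (fin 1102 3 1101)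
(mv 1165 (cons (fin 1100 3 1100)
(mv 1229 (cons (fin 1228 1 1164)
(fin 1230 1 1165)))))))
(mv 1101 (cons (fin 1102 3 1101)
(mv 1106 (cons (fin 1105 2 1102)
(mv 1170 (cons (fin 1107 2 1103)
(mv 1171 (cons (fin 1103 3 1103)
(mv 1235 (cons (fin 1234 0 1167)
(fin 1236 0 1168))))))))))))))))))))))))
(cons (mv 912 (cons (cons (mv 849 (cons (fin 913 6 848)
(mv 848 (cons (fin 785 6 784)
(mv 1105 (cons (fin 1041 4 848)
(fin 1169 4 912)))))))
(mv 1103 (cons (fin 1167 5 911)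
(mv 1105 (cons (fin 1169 4 912)
(mv 848 (cons (fin 1041 4 848)
(mv 783 (cons (fin 847 7 783)
(mv 784 (cons (fin 719 7 719)
(mv 785 (cons (fin 721 6 720)
(fin 849 6 784))))))))))))))
(cons (mv 913 (cons (fin 849 6 848)
(mv 975 (cons (fin 973 2 909)
(mv 914 (cons (fin 915 1 911)
(fin 977 2 910)))))))
(mv 1103 (cons (fin 1167 5 911)
(mv 1105 (cons (fin 1169 4 912)
(mv 1041 (cons (fin 848 4 848)
(mv 1102 (cons (fin 1101 2 1037)
(fin 1042 2 1038))))))))))))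
(mv 1168 (cons (cons (mv 1167 (cons (fin 1231 5 975)
(mv 912 (cons (fin 1103 5 911)
(mv 1169 (cons (fin 1105 4 912)
(fin 1233 4 976)))))))
(cons (mv 1231 (cons (fin 1167 5 975)
(mv 1232 (cons (fin 1295 5 1039)
(mv 1041 (cons (fin 977 6 976)
(mv 973 (cons (fin 975 0 973)
(mv 1296 (cons (fin 1105 6 1040)
(mv 1297 (cons (fin 1233 4 1040)
(fin 1361 4 1104)))))))))))))
(mv 1233 (cons (fin 1169 4 976)
(mv 1232 (cons (fin 1297 4 1040)
(mv 1041 (cons (fin 977 6 976)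
(mv 973 (cons (fin 975 0 973)
(mv 1295 (cons (fin 1231 5 1039)
(mv 1296 (cons (fin 1359 5 1103)
(fin 1105 6 1040)))))))))))))))
(cons (mv 1167 (cons (fin 1231 5 975)
(mv 912 (cons (fin 1103 5 911)
(mv 1105 (cons (fin 1169 4 912)
(mv 848 (cons (fin 1041 4 848)
(mv 783 (cons (fin 847 7 783)
(mv 784 (cons (fin 719 7 719)
(mv 785 (cons (fin 721 6 720)
(fin 849 6 784)))))))))))))))
(cons (mv 1233 (cons (fin 1169 4 976)
(mv 1232 (cons (fin 1297 4 1040)
(mv 1041 (cons (fin 977 6 976)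
(mv 973 (cons (fin 975 0 973)
(mv 1105 (cons (fin 1296 6 1040)
(mv 912 (cons (fin 848 4 848)
(mv 1103 (cons (fin 1167 5 911)
(mv 1102 (cons (fin 1101 2 1037)
(fin 1042 2 1038)))))))))))))))))
(mv 1167 (cons (fin 1231 5 975)
(mv 1103 (cons (fin 912 5 911)
(mv 1169 (cons (fin 1233 4 976)
(mv 1102 (cons (fin 1170 3 1102)
(fin 1101 0 1101)))))))))))))))
(cons (cons (mv 1168 (cons (mv 913 (cons (fin 977 6 912)
(mv 912 (cons (fin 849 6 848)
(mv 1167 (cons (fin 1103 5 911)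
(fin 1231 5 975)))))))
(cons (mv 1167 (cons (fin 1231 5 975)
(mv 1103 (cons (fin 912 5 911)
(mv 1102 (cons (mv 1101 (cons (fin 1041 2 1037)
(fin 1100 0 1100)))
(mv 1038 (cons (fin 910 4 910)
(mv 1037 (cons (fin 1105 3 1037)
(mv 1036 (cons (fin 1035 0 1035)
(mv 973 (cons (fin 975 1 972)
(mv 909 (cons (fin 1166 7 909)
(fin 845 4 845)))))))))))))))))
(mv 977 (cons (fin 913 6 912)
(mv 1041 (cons (fin 1232 6 976)
(mv 975 (cons (fin 973 0 973)
(fin 1042 0 974))))))))))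
(mv 912 (cons (cons (mv 849 (cons (fin 913 6 848)
(mv 848 (cons (fin 785 6 784)
(mv 1105 (cons (fin 1041 4 848)
(fin 1169 4 912)))))))
(mv 1105 (cons (fin 1169 4 912)
(mv 848 (cons (fin 1041 4 848)
(mv 783 (cons (fin 847 7 783)
(mv 784 (cons (fin 719 7 719)
(mv 785 (cons (fin 721 6 720)
(fin 849 6 784))))))))))))
(cons (mv 913 (cons (fin 849 6 848)
(mv 975 (cons (fin 973 2 909)
(mv 914 (cons (fin 915 1 911)
(fin 977 2 910)))))))
(mv 1105 (cons (fin 1169 4 912)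
(mv 1041 (cons (fin 848 4 848)
(mv 975 (cons (fin 973 0 973)
(mv 977 (cons (fin 1042 0 974)
(mv 913 (cons (fin 914 2 910)
(fin 1168 5 912)))))))))))))))
(cons (mv 1168 (cons (cons (mv 1167 (cons (fin 1231 5 975)
(mv 912 (cons (fin 1103 5 911)
(mv 1169 (cons (fin 1105 4 912)
(fin 1233 4 976)))))))
(mv 1167 (cons (fin 1231 5 975)
(mv 1103 (cons (fin 912 5 911)
(mv 1102 (cons (mv 1101 (cons (fin 1041 2 1037)
(fin 1100 0 1100)))
(mv 1038 (cons (fin 910 4 910)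
(mv 1037 (cons (fin 1105 3 1037)
(mv 1036 (cons (fin 1035 0 1035)
(mv 973 (cons (fin 975 1 972)
(mv 909 (cons (fin 1166 7 909)
(fin 845 4 845))))))))))))))))))
(cons (mv 1232 (cons (mv 1233 (cons (fin 1169 4 976)
(fin 1297 4 1040)))
(cons (mv 1295 (cons (fin 1231 5 1039)
(mv 1296 (cons (fin 1359 5 1103)
(mv 1105 (cons (fin 1041 6 1040)
(mv 1169 (cons (fin 1360 6 1104)
(fin 912 4 912)))))))))
(mv 1295 (cons (fin 1231 5 1039)
(mv 1296 (cons (fin 1359 5 1103)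
(mv 1297 (cons (fin 1233 4 1040)
(fin 1361 4 1104))))))))))
(cons (mv 1169 (cons (fin 1233 4 976)
(mv 1103 (cons (mv 912 (cons (fin 1167 5 911)
(fin 1105 4 912)))
(cons (mv 1102 (cons (fin 1101 0 1101)
(mv 1170 (cons (fin 1167 3 1102)
(fin 1171 3 1103)))))
(mv 1102 (cons (fin 1101 0 1101)
(mv 1105 (cons (fin 1170 0 1102)
(fin 912 4 912))))))))))
(mv 1231 (cons (fin 1167 5 975)
(mv 1232 (cons (fin 1295 5 1039)
(mv 1233 (cons (fin 1169 4 976)
(fin 1297 4 1040)))))))))))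
(cons (mv 1168 (cons (cons (mv 913 (cons (fin 977 6 912)
(mv 849 (cons (fin 912 6 848)
(mv 1231 (cons (fin 1167 5 975)
(mv 1232 (cons (fin 1295 5 1039)
(mv 1233 (cons (fin 1169 4 976)
(fin 1297 4 1040)))))))))))
(mv 913 (cons (fin 977 6 912)
(mv 912 (cons (fin 849 6 848)
(mv 1167 (cons (fin 1103 5 911)
(fin 1231 5 975))))))))
(cons (mv 913 (cons (fin 977 6 912)
(mv 912 (cons (fin 849 6 848)
(mv 1169 (cons (fin 1105 4 912)
(fin 1233 4 976)))))))
(cons (mv 1167 (cons (fin 1231 5 975)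
(mv 912 (cons (fin 1103 5 911)
(mv 1169 (cons (fin 1105 4 912)
(fin 1233 4 976)))))))
(mv 913 (cons (fin 977 6 912)
(mv 1231 (cons (fin 1167 5 975)
(mv 1232 (cons (fin 1295 5 1039)
(mv 1233 (cons (fin 1169 4 976)
(fin 1297 4 1040)))))))))))))
(mv 1168 (cons (mv 913 (cons (fin 977 6 912)
(mv 849 (cons (fin 912 6 848)
(mv 1231 (cons (fin 1167 5 975)
(mv 1232 (cons (fin 1295 5 1039)
(mv 1233 (cons (fin 1169 4 976)
(fin 1297 4 1040)))))))))))
(cons (mv 1167 (cons (fin 1231 5 975)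
(mv 1103 (cons (fin 912 5 911)
(mv 1169 (cons (fin 1233 4 976)
(mv 1102 (cons (fin 1170 3 1102)
(fin 1101 0 1101)))))))))
(mv 977 (cons (fin 913 6 912)
(mv 1041 (cons (fin 1232 6 976)
(mv 975 (cons (fin 973 0 973)
(fin 1042 0 974)))))))))))))))
(mv 975 (cons (cons (mv 973 (cons (fin 1041 0 973)
(mv 908 (cons (fin 909 3 908)
(mv 907 (cons (fin 972 3 907)
(mv 913 (cons (fin 912 2 909)
(mv 977 (cons (fin 914 2 910)
(mv 1037 (cons (fin 1036 1 972)
(fin 1038 1 973)))))))))))))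
(cons (mv 977 (cons (cons (mv 909 (cons (fin 910 3 909)
(mv 913 (cons (fin 914 2 910)
(mv 849 (cons (fin 785 5 784)
(mv 1041 (cons (fin 1042 0 974)
(fin 1104 5 848)))))))))
(mv 910 (cons (fin 909 3 909)
(mv 911 (cons (fin 978 3 910)
(mv 1038 (cons (fin 1037 1 973)
(mv 1041 (cons (fin 1042 0 974)
(mv 1102 (cons (fin 1166 6 910)
(mv 1101 (cons (fin 1165 5 909)
(mv 1103 (cons (fin 1104 2 1037)
(fin 1167 4 910))))))))))))))))
(cons (mv 913 (cons (fin 914 2 910)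
(mv 849 (cons (fin 785 5 784)
(mv 1041 (cons (fin 1042 0 974)
(fin 1104 5 848)))))))
(cons (mv 909 (cons (fin 910 3 909)
(mv 913 (cons (fin 914 2 910)
(mv 849 (cons (fin 785 5 784)
(mv 1104 (cons (fin 912 6 848)
(fin 1168 6 912)))))))))
(mv 909 (cons (fin 910 3 909)
(mv 913 (cons (fin 914 2 910)
(mv 849 (cons (fin 785 5 784)
(mv 1037 (cons (fin 1038 1 973)
(mv 1041 (cons (fin 1042 0 974)
(mv 786 (cons (fin 850 6 785)
(mv 848 (cons (fin 784 7 784)
(mv 1105 (cons (fin 912 7 848)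
(mv 1169 (cons (fin 1233 7 976)
(mv 1170 (cons (fin 1106 4 913)
(fin 1234 4 977)))))))))))))))))))))))))
(mv 977 (cons (cons (mv 909 (cons (fin 910 3 909)
(mv 908 (cons (fin 973 3 908)
(mv 913 (cons (fin 914 2 910)
(mv 849 (cons (fin 785 5 784)
(mv 1104 (cons (fin 912 6 848)
(fin 1168 6 912)))))))))))
(mv 909 (cons (fin 910 3 909)
(mv 973 (cons (fin 908 3 908)
(mv 1037 (cons (fin 1036 1 972)
(fin 1038 1 973))))))))
(cons (mv 913 (cons (fin 914 2 910)
(mv 785 (cons (fin 849 5 784)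
(mv 973 (cons (fin 912 2 909)
(mv 1037 (cons (fin 1036 1 972)
(fin 1038 1 973)))))))))
(mv 909 (cons (fin 910 3 909)
(mv 913 (cons (fin 914 2 910)
(mv 849 (cons (fin 785 5 784)
(mv 1104 (cons (fin 912 6 848)
(fin 1168 6 912))))))))))))))
(cons (mv 973 (cons (fin 1041 0 973)
(mv 908 (cons (fin 909 3 908)
(mv 912 (cons (fin 913 2 909)
(mv 972 (cons (fin 907 3 907)
(fin 911 2 908)))))))))
(cons (mv 973 (cons (fin 1041 0 973)
(mv 908 (cons (fin 909 3 908)
(mv 972 (cons (fin 907 3 907)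
(mv 1036 (cons (fin 1035 1 971)
(fin 1037 1 972)))))))))
(mv 973 (cons (fin 1041 0 973)
(mv 912 (cons (fin 913 2 909)
(mv 911 (cons (fin 972 2 908)
(mv 1037 (cons (fin 1036 1 972)
(mv 977 (cons (fin 1038 1 973)
(mv 978 (cons (fin 910 3 910)
(fin 979 3 911)))))))))))))))))))
(cons (cons (mv 975 (cons (cons (mv 973 (cons (fin 1041 0 973)
(mv 908 (cons (fin 909 3 908)
(mv 907 (cons (fin 972 3 907)
(mv 913 (cons (fin 912 2 909)
(mv 977 (cons (fin 914 2 910)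
(mv 1037 (cons (fin 1036 1 972)
(fin 1038 1 973)))))))))))))
(cons (mv 977 (cons (cons (mv 909 (cons (fin 910 3 909)
(mv 914 (cons (fin 913 2 910)
(mv 978 (cons (fin 915 2 911)
(mv 1037 (cons (fin 1038 1 973)
(mv 1041 (cons (fin 1042 0 974)
(mv 786 (cons (fin 850 5 785)
(mv 979 (cons (fin 980 1 976)
(mv 912 (cons (fin 911 3 911)
(mv 848 (cons (fin 784 4 784)
(fin 1105 4 848)))))))))))))))))))
(cons (mv 914 (cons (fin 913 2 910)
(mv 978 (cons (fin 915 2 911)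
(mv 1037 (cons (fin 1038 1 973)
(mv 1041 (cons (fin 1042 0 974)
(mv 786 (cons (fin 850 5 785)
(mv 979 (cons (fin 980 1 976)
(mv 912 (cons (fin 911 3 911)
(mv 848 (cons (fin 784 4 784)
(fin 1105 4 848)))))))))))))))))
(mv 910 (cons (fin 909 3 909)
(mv 911 (cons (fin 978 3 910)
(mv 783 (cons (fin 847 4 783)
(mv 1038 (cons (fin 1037 1 973)
(mv 1041 (cons (fin 1042 0 974)
(mv 1102 (cons (fin 1166 6 910)
(mv 1101 (cons (fin 1165 5 909)
(mv 1103 (cons (fin 1104 2 1037)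
(fin 1167 4 910)))))))))))))))))))
(cons (mv 910 (cons (fin 909 3 909)
(mv 911 (cons (fin 978 3 910)
(mv 847 (cons (fin 783 4 783)
(mv 1038 (cons (fin 1037 1 973)
(fin 1102 6 846)))))))))
(cons (mv 909 (cons (fin 910 3 909)
(mv 914 (cons (fin 913 2 910)
(mv 978 (cons (fin 915 2 911)
(mv 1041 (cons (fin 1042 0 974)
(mv 786 (cons (fin 850 5 785)
(mv 979 (cons (fin 980 1 976)
(mv 912 (cons (fin 911 3 911)
(mv 848 (cons (fin 784 4 784)
(fin 1105 4 848)))))))))))))))))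
(mv 910 (cons (fin 909 3 909)
(mv 913 (cons (fin 914 2 910)
(mv 1038 (cons (fin 1037 1 973)
(mv 1041 (cons (fin 1042 0 974)
(mv 1102 (cons (cons (mv 1101 (cons (fin 1165 5 909)
(mv 1103 (cons (fin 1104 2 1037)
(fin 1167 4 910)))))
(cons (mv 1101 (cons (fin 1165 5 909)
(mv 1167 (cons (fin 1103 4 910)
(mv 1166 (cons (fin 1231 4 974)
(mv 1099 (cons (fin 1100 0 1099)
(mv 1169 (cons (fin 1168 3 1101)
(mv 1105 (cons (fin 912 7 912)
(fin 1233 7 976)))))))))))))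
(mv 1101 (cons (fin 1165 5 909)
(mv 1104 (cons (fin 1103 2 1037)
(fin 1168 6 912)))))))
(cons (mv 1165 (cons (fin 1101 5 909)
(mv 1166 (cons (fin 1229 5 973)
(mv 1167 (cons (fin 1231 4 974)
(mv 1168 (cons (fin 1104 6 912)
(mv 1233 (cons (fin 1232 0 1165)
(mv 1169 (cons (fin 1234 0 1166)
(fin 1105 7 976)))))))))))))
(cons (mv 1167 (cons (fin 1103 4 910)
(mv 1166 (cons (fin 1231 4 974)
(mv 1165 (cons (fin 1229 5 973)
(mv 1168 (cons (fin 1104 6 912)
(mv 1233 (cons (fin 1232 0 1165)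
(mv 1169 (cons (fin 1234 0 1166)
(fin 1105 7 976)))))))))))))
(mv 1103 (cons (fin 1167 4 910)
(mv 1104 (cons (fin 1101 2 1037)
(fin 1168 6 912)))))))))))))))))))))
(mv 973 (cons (cons (mv 908 (cons (fin 909 3 908)
(mv 907 (cons (fin 972 3 907)
(mv 913 (cons (fin 912 2 909)
(mv 977 (cons (fin 914 2 910)
(mv 1037 (cons (fin 1036 1 972)
(fin 1038 1 973)))))))))))
(mv 908 (cons (fin 909 3 908)
(mv 972 (cons (fin 907 3 907)
(mv 1036 (cons (fin 1035 1 971)
(fin 1037 1 972))))))))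
(cons (mv 912 (cons (fin 913 2 909)
(mv 911 (cons (fin 972 2 908)
(mv 847 (cons (fin 1104 7 847)
(fin 783 4 783)))))))
(mv 908 (cons (fin 909 3 908)
(mv 913 (cons (fin 912 2 909)
(mv 977 (cons (fin 914 2 910)
(mv 1037 (cons (fin 1036 1 972)
(fin 1038 1 973))))))))))))))
(cons (mv 973 (cons (fin 1041 0 973)
(mv 908 (cons (fin 909 3 908)
(mv 912 (cons (fin 913 2 909)
(mv 972 (cons (fin 907 3 907)
(fin 911 2 908)))))))))
(cons (mv 973 (cons (fin 1041 0 973)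
(mv 908 (cons (fin 909 3 908)
(mv 972 (cons (fin 907 3 907)
(mv 1036 (cons (fin 1035 1 971)
(fin 1037 1 972)))))))))
(mv 973 (cons (fin 1041 0 973)
(mv 912 (cons (fin 913 2 909)
(mv 911 (cons (fin 972 2 908)
(mv 847 (cons (fin 1104 7 847)
(fin 783 4 783)))))))))))))
(mv 975 (cons (cons (mv 973 (cons (fin 1041 0 973)
(mv 908 (cons (fin 909 3 908)
(mv 907 (cons (fin 972 3 907)
(mv 913 (cons (fin 912 2 909)
(mv 977 (cons (fin 914 2 910)
(mv 1037 (cons (fin 1036 1 972)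
(fin 1038 1 973)))))))))))))
(cons (mv 977 (cons (cons (mv 909 (cons (fin 910 3 909)
(mv 913 (cons (fin 914 2 910)
(mv 849 (cons (fin 785 5 784)
(mv 1041 (cons (fin 1042 0 974)
(fin 1104 5 848)))))))))
(mv 910 (cons (fin 909 3 909)
(mv 911 (cons (fin 978 3 910)
(mv 783 (cons (fin 847 4 783)
(mv 1038 (cons (fin 1037 1 973)
(mv 1041 (cons (fin 1042 0 974)
(mv 1102 (cons (fin 1166 6 910)
(mv 1101 (cons (fin 1165 5 909)
(mv 1103 (cons (fin 1104 2 1037)
(fin 1167 4 910))))))))))))))))))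
(cons (mv 913 (cons (fin 914 2 910)
(mv 849 (cons (fin 785 5 784)
(mv 1041 (cons (fin 1042 0 974)
(fin 1104 5 848)))))))
(cons (mv 909 (cons (fin 910 3 909)
(mv 913 (cons (fin 914 2 910)
(mv 849 (cons (fin 785 5 784)
(mv 1104 (cons (fin 912 6 848)
(fin 1168 6 912)))))))))
(mv 909 (cons (fin 910 3 909)
(mv 913 (cons (fin 914 2 910)
(mv 849 (cons (fin 785 5 784)
(mv 1037 (cons (fin 1038 1 973)
(mv 1041 (cons (fin 1042 0 974)
(mv 848 (cons (fin 784 7 784)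
(mv 850 (cons (fin 786 6 785)
(mv 912 (cons (fin 1105 7 848)
(mv 851 (cons (fin 911 1 847)
(fin 852 1 848)))))))))))))))))))))))
(mv 977 (cons (cons (mv 909 (cons (fin 910 3 909)
(mv 908 (cons (fin 973 3 908)
(mv 913 (cons (fin 914 2 910)
(mv 849 (cons (fin 785 5 784)
(mv 1104 (cons (fin 912 6 848)
(fin 1168 6 912)))))))))))
(mv 909 (cons (fin 910 3 909)
(mv 973 (cons (fin 908 3 908)
(mv 1037 (cons (fin 1036 1 972)
(fin 1038 1 973))))))))
(cons (mv 913 (cons (fin 914 2 910)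
(mv 785 (cons (fin 849 5 784)
(mv 912 (cons (fin 973 2 909)
(mv 1037 (cons (fin 1038 1 973)
(mv 1104 (cons (fin 1168 6 912)
(mv 847 (cons (fin 911 7 847)
(mv 848 (cons (fin 783 7 783)
(mv 784 (cons (fin 721 6 720)
(fin 720 4 720)))))))))))))))))
(mv 909 (cons (fin 910 3 909)
(mv 913 (cons (fin 914 2 910)
(mv 849 (cons (fin 785 5 784)
(mv 1104 (cons (fin 912 6 848)
(fin 1168 6 912))))))))))))))
(cons (mv 973 (cons (fin 1041 0 973)
(mv 908 (cons (fin 909 3 908)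
(mv 912 (cons (fin 913 2 909)
(mv 972 (cons (fin 907 3 907)
(fin 911 2 908)))))))))
(cons (mv 973 (cons (fin 1041 0 973)
(mv 908 (cons (fin 909 3 908)
(mv 972 (cons (fin 907 3 907)
(mv 1036 (cons (fin 1035 1 971)
(fin 1037 1 972)))))))))
(mv 973 (cons (fin 1041 0 973)
(mv 912 (cons (fin 913 2 909)
(mv 911 (cons (fin 972 2 908)
(mv 847 (cons (fin 1104 7 847)
(fin 783 4 783))))))))))))))
(cons (mv 975 (cons (cons (mv 973 (cons (fin 1041 0 973)
(mv 912 (cons (fin 913 2 909)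
(mv 911 (cons (fin 972 2 908)
(mv 847 (cons (fin 1104 7 847)
(fin 783 4 783)))))))))
(cons (mv 977 (cons (cons (mv 913 (cons (fin 914 2 910)
(mv 849 (cons (fin 785 5 784)
(mv 1041 (cons (fin 1042 0 974)
(fin 1104 5 848)))))))
(mv 1037 (cons (fin 1038 1 973)
(mv 1041 (cons (fin 1042 0 974)
(mv 978 (cons (mv 910 (cons (fin 911 3 910)
(mv 915 (cons (fin 914 2 911)
(mv 979 (cons (fin 980 1 976)
(fin 916 2 912)))))))
(cons (mv 915 (cons (fin 914 2 911)
(mv 979 (cons (fin 980 1 976)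
(fin 916 2 912)))))
(mv 911 (cons (fin 910 3 910)
(mv 847 (cons (fin 783 4 783)
(mv 1104 (cons (fin 912 7 847)
(fin 1168 7 911)))))))))))))))
(cons (mv 1038 (cons (fin 1037 1 973)
(mv 1041 (cons (fin 1042 0 974)
(mv 911 (cons (cons (mv 783 (cons (fin 847 5 782)
(mv 910 (cons (fin 978 3 910)
(mv 1102 (cons (fin 1166 6 910)
(mv 1101 (cons (fin 1165 5 909)
(mv 1103 (cons (fin 1104 2 1037)
(fin 1167 4 910)))))))))))
(mv 910 (cons (fin 978 3 910)
(mv 1102 (cons (fin 1166 6 910)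
(mv 1101 (cons (fin 1165 5 909)
(mv 1103 (cons (fin 1104 2 1037)
(fin 1167 4 910))))))))))
(cons (mv 783 (cons (fin 847 5 782)
(mv 978 (cons (fin 910 3 910)
(mv 979 (cons (fin 912 3 911)
(fin 980 1 976)))))))
(cons (mv 783 (cons (fin 847 5 782)
(mv 1102 (cons (fin 1166 6 910)
(mv 1104 (cons (fin 1168 7 911)
(mv 849 (cons (fin 913 5 848)
(mv 1103 (cons (fin 1101 2 1037)
(mv 1167 (cons (fin 912 5 911)
(fin 910 4 910)))))))))))))
(mv 783 (cons (fin 847 5 782)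
(mv 1102 (cons (fin 1166 6 910)
(mv 1104 (cons (fin 1168 7 911)
(mv 849 (cons (fin 913 5 848)
(mv 1103 (cons (fin 1101 2 1037)
(mv 912 (cons (fin 1167 5 911)
(mv 848 (cons (fin 785 6 784)
(fin 784 4 784)))))))))))))))))))))))
(cons (mv 913 (cons (fin 914 2 910)
(mv 849 (cons (fin 785 5 784)
(mv 1104 (cons (fin 912 6 848)
(fin 1168 6 912)))))))
(mv 913 (cons (fin 914 2 910)
(mv 849 (cons (fin 785 5 784)
(mv 1037 (cons (fin 1038 1 973)
(mv 1041 (cons (fin 1042 0 974)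
(mv 786 (cons (fin 850 6 785)
(mv 848 (cons (fin 784 7 784)
(mv 1105 (cons (fin 912 7 848)
(mv 1169 (cons (fin 1233 7 976)
(mv 1170 (cons (fin 1106 4 913)
(fin 1234 4 977)))))))))))))))))))))))
(mv 911 (cons (cons (mv 847 (cons (fin 783 4 783)
(mv 1104 (cons (fin 912 7 847)
(fin 1168 7 911)))))
(mv 1104 (cons (fin 1168 7 911)
(mv 912 (cons (mv 913 (cons (fin 914 1 910)
(fin 973 2 909)))
(cons (mv 973 (cons (fin 972 2 908)
(mv 1037 (cons (fin 1036 1 972)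
(mv 977 (cons (fin 1038 1 973)
(mv 978 (cons (fin 910 3 910)
(fin 979 3 911)))))))))
(mv 913 (cons (fin 914 1 910)
(fin 849 6 848)))))))))
(cons (mv 783 (cons (fin 847 4 783)
(mv 973 (cons (mv 912 (cons (fin 972 2 908)
(fin 913 2 909)))
(cons (mv 1036 (cons (fin 1037 1 972)
(mv 972 (cons (fin 1035 1 971)
(mv 907 (cons (fin 908 3 907)
(mv 971 (cons (fin 906 3 906)
(fin 910 2 907)))))))))
(mv 912 (cons (fin 913 2 909)
(mv 1037 (cons (fin 1036 1 972)
(mv 977 (cons (fin 1038 1 973)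
(mv 978 (cons (fin 910 3 910)
(fin 979 3 911))))))))))))))
(mv 847 (cons (fin 783 4 783)
(mv 1104 (cons (fin 1168 7 911)
(mv 1038 (cons (mv 1102 (cons (fin 910 6 846)
(fin 1166 6 910)))
(cons (mv 977 (cons (fin 1037 1 973)
(mv 914 (cons (fin 913 2 910)
(mv 978 (cons (fin 910 3 910)
(fin 915 2 911)))))))
(mv 1037 (cons (fin 977 1 973)
(mv 1036 (cons (fin 973 1 972)
(fin 1035 2 971)))))))))))))))))
(cons (mv 973 (cons (fin 1041 0 973)
(mv 913 (cons (fin 912 2 909)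
(mv 977 (cons (fin 914 2 910)
(mv 1037 (cons (fin 1036 1 972)
(fin 1038 1 973)))))))))
(cons (mv 973 (cons (fin 1041 0 973)
(mv 1036 (cons (fin 1037 1 972)
(mv 972 (cons (fin 1035 1 971)
(mv 907 (cons (fin 908 3 907)
(mv 911 (cons (fin 912 2 908)
(mv 971 (cons (fin 906 3 906)
(fin 910 2 907)))))))))))))
(mv 1041 (cons (fin 973 0 973)
(mv 977 (cons (fin 1042 0 974)
(mv 913 (cons (fin 914 2 910)
(mv 849 (cons (fin 785 5 784)
(fin 1104 5 848)))))))))))))
(mv 975 (cons (cons (mv 973 (cons (fin 1041 0 973)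
(mv 908 (cons (fin 909 3 908)
(mv 907 (cons (fin 972 3 907)
(mv 913 (cons (fin 912 2 909)
(mv 977 (cons (fin 914 2 910)
(mv 1037 (cons (fin 1036 1 972)
(fin 1038 1 973)))))))))))))
(mv 1104 (cons (cons (mv 911 (cons (fin 1168 7 911)
(mv 847 (cons (fin 912 7 847)
(fin 783 4 783)))))
(mv 912 (cons (cons (mv 847 (cons (fin 911 7 847)
(mv 783 (cons (fin 848 7 783)
(mv 913 (cons (fin 849 6 848)
(mv 914 (cons (fin 915 1 911)
(fin 977 2 910)))))))))
(mv 847 (cons (fin 911 7 847)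
(mv 848 (cons (fin 783 7 783)
(mv 1105 (cons (fin 1041 4 848)
(fin 1169 4 912))))))))
(cons (mv 849 (cons (fin 913 6 848)
(mv 848 (cons (fin 785 6 784)
(mv 1105 (cons (fin 1041 4 848)
(fin 1169 4 912)))))))
(mv 847 (cons (fin 911 7 847)
(mv 913 (cons (fin 849 6 848)
(mv 914 (cons (fin 915 1 911)
(fin 977 2 910)))))))))))
(cons (mv 977 (cons (mv 913 (cons (fin 914 2 910)
(fin 1168 6 912)))
(cons (mv 1037 (cons (fin 1038 1 973)
(mv 1041 (cons (fin 1042 0 974)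
(mv 1168 (cons (fin 1232 6 976)
(mv 1167 (cons (fin 1231 5 975)
(mv 912 (cons (fin 1103 5 911)
(mv 848 (cons (fin 784 4 784)
(fin 1105 4 848)))))))))))))
(mv 913 (cons (fin 914 2 910)
(mv 849 (cons (fin 785 5 784)
(fin 1041 5 848))))))))
(mv 1168 (cons (fin 911 7 911)
(mv 913 (cons (fin 977 6 912)
(mv 1231 (cons (fin 1167 5 975)
(mv 1232 (cons (fin 1295 5 1039)
(mv 1233 (cons (fin 1169 4 976)
(fin 1297 4 1040)))))))))))))))
(cons (mv 973 (cons (cons (mv 908 (cons (fin 909 3 908)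
(mv 907 (cons (fin 972 3 907)
(mv 913 (cons (fin 912 2 909)
(mv 977 (cons (fin 914 2 910)
(mv 1037 (cons (fin 1036 1 972)
(fin 1038 1 973)))))))))))
(mv 908 (cons (fin 909 3 908)
(mv 972 (cons (fin 907 3 907)
(mv 1036 (cons (fin 1035 1 971)
(fin 1037 1 972))))))))
(cons (mv 908 (cons (fin 909 3 908)
(mv 912 (cons (fin 913 2 909)
(mv 972 (cons (fin 907 3 907)
(fin 911 2 908)))))))
(cons (mv 912 (cons (fin 913 2 909)
(mv 911 (cons (fin 972 2 908)
(mv 847 (cons (fin 1104 7 847)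
(fin 783 4 783)))))))
(mv 908 (cons (fin 909 3 908)
(mv 913 (cons (fin 912 2 909)
(mv 977 (cons (fin 914 2 910)
(mv 1037 (cons (fin 1036 1 972)
(fin 1038 1 973)))))))))))))
(cons (mv 973 (cons (fin 1041 0 973)
(mv 908 (cons (fin 909 3 908)
(mv 912 (cons (fin 913 2 909)
(mv 972 (cons (fin 907 3 907)
(fin 911 2 908)))))))))
(mv 973 (cons (fin 1041 0 973)
(mv 908 (cons (fin 909 3 908)
(mv 972 (cons (fin 907 3 907)
(mv 1036 (cons (fin 1035 1 971)
(fin 1037 1 972))))))))))))))))))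
def l29 : Lem := ⟨11781361728633673533054441723117730079171283746239247440356909899588005244909514899260159721150817405942924420470662491174673842036557007391209044253460063708080530407354770956693342717623350878333880262063391977041189311657559161319740834448813323445848447489700891174053752382374267171085078592036680673850818560, 1160523219583971943717194316534277754115937798909577256718024943610817951528984337028299653948285357271229740583705690919119626129019752867838855907002741955388100692940107064304815852049281617001299919103471951052175835569638954577209150138764107943780998278007218977628058249864335432896385107822822863940280142244955167820646326351394136991577732374496769378048072960860676393993392441526941781023689132944614743914888969584640, 1160523219583971943717194316534277754115937798909577256718024943610817951528984337028299653948285357271229740583705690919119626129019752867838855907002741955388100692940107064304815852049281617001299919103471951052175835569638954577209150138764107943780998278007218977628058249864335432896385107822822863940280142244955167820646326351394136991577732374496769378048072960860676393993392441526941781023689132944614743914888969584640,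 19, 33⟩
theorem l29_valid : l29.Valid :=
  Lem.valid_of_chk t29 t29_valid [974, 1040] c29 l29 (by decide +kernel)
end Crest.Agent.SnakyAux
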